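import Crest.Agent.R017.MoCa_83
import Crest.Agent.R017.MoJb_401

/-!
# Row 17, E2: the restricted sequences of the tail (helper83), part 2

* `rs c w` : the restriction to the multiples of `c`; `alr_dl`, `alr_bt`
* `MoC_alr` : `MoC` summed over `a`
* `MoP_bt_alr`, `MoJ_bt_alr` : windows and twists
* `MoJ_alr`, `MoJCr_alr` : the joint functional summed over `a`
-/

set_option autoImplicit false
set_option maxHeartbeats 1000000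

noncomputable section

open MeasureTheory Finset Filter
open scoped ComplexConjugate

namespace Crest.Agent.R017.MoCa83

open Crest.Agent.R012
open Eis CharSum852 Gauss880 LS2 CR2 MelSep811
open Crest.Agent.R012.Weight600 (osc norm_osc pw)
open Crest.Agent.R017.CM106 (CS TG FS sub)
open Crest.Agent.R017.E2440 (cT MoF MoH MT ag)
open Crest.Agent.R017.H1401 (pb mem_pb WJ DN GB)
open Crest.Agent.R017.X6C180 (IX dl')
open Crest.Agent.R017.Win813 (iA iA_nonneg WK wn integrable_base)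
open Crest.Agent.R017.RGw813 (bt)
open Crest.Agent.R017.MoF106 (MoP MoP_nonneg MoI MoC MoI_nonneg MoI_int dl dl_mul dl_one dl_ne aG aG_ne)
open Crest.Agent.R017.MoL106 (kw MoP_bt_le)
open Crest.Agent.R017.MoJ401 (MoJC PJ MoJ_bt_le)
open Crest.Agent.R017.E2D401 (MoJ)
open Div277 (tau dvs mem_dvs tau_le_rpow)

open Classical in
/-- the restriction to the multiples of `c` -/
def rs (c : Eis) (w : Eis → ℂ) : Eis → ℂ := fun n => if c ∣ n then w n else 0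

lemma rs_ne {c n : Eis} {w : Eis → ℂ} (h : rs c w n ≠ 0) : w n ≠ 0 := by
  unfold rs at h
  split_ifs at h
  · exact h
  · exact absurd rfl h

lemma rs_one (w : Eis → ℂ) : rs 1 w = w := by
  funext n
  unfold rs
  rw [if_pos (one_dvd n)]

/-- the restriction of a dilated sequence -/
lemma alr_dl {γ b q a e c : Eis} {w : Eis → ℂ} (hγ : γ ≠ 0) (hγb : IsCoprime γ b)
    (ha : a = e * c) (he : e ∣ γ) (hc : IsCoprime c γ) :
    alr (dl γ (TP320.sq (q * γ) w)) a b = dl γ (TP320.sq (q * b * γ) (rs c w)) := by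
  classical
  funext n
  by_cases h : γ ∣ n
  · obtain ⟨m, rfl⟩ := h
    unfold alr
    rw [dl_mul hγ, dl_mul hγ]
    have h1 : a ∣ γ * m ↔ c ∣ m := by
      constructor
      · intro h2
        exact hc.dvd_of_dvd_mul_left ((Dvd.intro_left e ha.symm).trans h2)
      · rintro ⟨x, rfl⟩
        obtain ⟨y, hy⟩ := he
        exact ⟨y * x, by rw [ha, hy]; ring⟩
    have h2 : IsCoprime (γ * m) b ↔ IsCoprime m b :=
      ⟨fun h => h.of_mul_left_right, fun h => hγb.mul_left h⟩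
    unfold TP320.sq rs
    by_cases h3 : IsPrim m ∧ Squarefree m ∧ IsCoprime m (q * γ)
    · by_cases h4 : IsCoprime m b
      · have h5 : IsPrim m ∧ Squarefree m ∧ IsCoprime m (q * b * γ) :=
          ⟨h3.1, h3.2.1, (h3.2.2.of_mul_right_left.mul_right h4).mul_right
            h3.2.2.of_mul_right_right⟩
        rw [if_pos h5]
        by_cases h6 : c ∣ m
        · rw [if_pos ⟨h1.2 h6, h2.2 h4⟩, if_pos h3, if_pos h6]
        · rw [if_neg (fun h7 => h6 (h1.1 h7.1)), if_neg h6]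
      · rw [if_neg (fun h7 => h4 (h2.1 h7.2)), if_neg]
        rintro ⟨_, _, h7⟩
        exact h4 h7.of_mul_right_left.of_mul_right_right
    · have h5 : ¬ (IsPrim m ∧ Squarefree m ∧ IsCoprime m (q * b * γ)) := by
        rintro ⟨h6, h7, h8⟩
        exact h3 ⟨h6, h7, h8.of_mul_right_left.of_mul_right_left.mul_right
          h8.of_mul_right_right⟩
      rw [if_neg h5, if_neg h3]
      simp
  · unfold alr dl
    rw [if_neg h, if_neg h]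
    simp

lemma alr_dl_zero {γ b q a : Eis} {w : Eis → ℂ} (hγb : ¬ IsCoprime γ b) :
    alr (dl γ (TP320.sq (q * γ) w)) a b = fun _ => 0 := by
  classical
  funext n
  unfold alr
  split_ifs with h
  · unfold dl
    rw [if_neg]
    rintro ⟨m, rfl⟩
    exact hγb h.2.of_mul_left_left
  · rfl

lemma alr_bt (φ : ℝ → ℝ) (α : Eis → ℂ) (p : ℕ × ℕ) (t₀ : ℝ) (a b : Eis) :
    alr (fun n => bt φ α p n * pw t₀ (nm n)) a b =
      fun n => bt φ (alr α a b) p n * pw t₀ (nm n) := by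
  classical
  funext n
  unfold alr RGw813.bt RGw813.tw2 Win813.wn
  by_cases h : a ∣ n ∧ IsCoprime n b
  · simp only [if_pos h]
  · simp only [if_neg h]
    ring

lemma ag_dl (γ q g₀ δ : Eis) (w : Eis → ℂ) :
    ag (dl γ (TP320.sq (q * γ) w)) δ g₀ = aG γ q g₀ δ w := by
  classical
  funext n
  unfold E2440.ag MoF106.aG
  rfl

lemma ag_alr_dl {γ b q a e c : Eis} {w : Eis → ℂ} (hγ : γ ≠ 0) (hγb : IsCoprime γ b)
    (ha : a = e * c) (he : e ∣ γ) (hc : IsCoprime c γ) (g₀ δ : Eis) :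
    ag (alr (dl γ (TP320.sq (q * γ) w)) a b) δ g₀ = aG γ (q * b) g₀ δ (rs c w) := by
  rw [alr_dl hγ hγb ha he hc, ag_dl]

lemma ag_alr_one {γ b q : Eis} {w : Eis → ℂ} (hγ : γ ≠ 0) (hγb : IsCoprime γ b) (g₀ δ : Eis) :
    ag (alr (dl γ (TP320.sq (q * γ) w)) 1 b) δ g₀ = aG γ (q * b) g₀ δ w := by
  rw [ag_alr_dl hγ hγb (mul_one 1).symm (one_dvd _) isCoprime_one_left, rs_one]

/-- the part of `a` prime to `γ` -/
lemma exists_cp {γ a : Eis} (hγ : IsPrim γ) (hγs : Squarefree γ) (ha : IsPrim a)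
    (has : Squarefree a) : ∃ e c, IsPrim c ∧ a = e * c ∧ e ∣ γ ∧ IsCoprime c γ := by
  obtain ⟨e, c, k, he, hc, hk, h1, h2, hcop, hec, hek, hes, hcs, hks⟩ :=
    Tau671.exists_gcd_split ha hγ has hγs
  refine ⟨e, c, hc, h1, h2 ▸ dvd_mul_right _ _, ?_⟩
  rw [h2]
  exact hec.symm.mul_right hcop

lemma dl_sqf {γ q n : Eis} {w : Eis → ℂ} (hγ : IsPrim γ) (hγs : Squarefree γ)
    (h : dl γ (TP320.sq (q * γ) w) n ≠ 0) : IsPrim n ∧ Squarefree n := by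
  classical
  obtain ⟨c, h3, h4⟩ := dl_ne hγ.ne_zero h
  unfold TP320.sq at h4
  split_ifs at h4 with h5
  · refine ⟨h3 ▸ hγ.mul h5.1, ?_⟩
    rw [h3]
    exact squarefree_mul_iff.mpr ⟨h5.2.2.of_mul_right_right.symm.isRelPrime, hγs, h5.2.1⟩
  · exact absurd rfl h4

section
variable {w : Eis → ℂ} {X₁ : ℝ} {γ q b g₀ δ E B : Eis} {𝒜 : Finset Eis} {U : ℝ}

/-- **`MoI` summed over `a`** -/
theorem MoI_alr {A : ℕ} (hA : 2 ≤ A) (hX₁ : 0 ≤ X₁) (hw : ∀ n, w n ≠ 0 → (nm n : ℝ) ≤ X₁)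
    {X Z : ℝ} (hX : 0 ≤ X) (hγ : IsPrim γ) (hγs : Squarefree γ) (hγb : IsCoprime γ b)
    (hg₀ : IsPrim g₀) (hB : IsPrim B) (hU : 0 ≤ U)
    (h𝒜 : ∀ a ∈ 𝒜, IsPrim a ∧ Squarefree a ∧ (nm a : ℝ) ≤ U)
    {W : Eis → Eis → ℝ} (hW : ∀ g₂ ∈ S X, ∀ g₃ ∈ S X, 0 ≤ W g₂ g₃)
    {P : Eis → Eis → Eis → Prop} {Tm : ℝ}
    (hT : ∀ g₂ ∈ S X, ∀ g₃ ∈ S X, (tau (g₀ * (B * (g₂ * g₃))) : ℝ) ≤ Tm) (τ : Eis) :
    ∑ a ∈ 𝒜, MoI A (ag (alr (dl γ (TP320.sq (q * γ) w)) a b) δ g₀) E B τ X Z W P ≤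
      Tm * ∑ c ∈ Sd U δ, MoI A (aG γ (q * b) (g₀ * c) δ w) E B τ X Z W P := by
  classical
  have i1 : ∀ a ∈ 𝒜, Integrable fun v : ℝ => ((1 + |v|) ^ A)⁻¹ *
      MoP (ag (alr (dl γ (TP320.sq (q * γ) w)) a b) δ g₀) E B τ X v Z W P := by
    intro a ha
    obtain ⟨e, c, hc, h1, h2, h3⟩ := exists_cp hγ hγs (h𝒜 a ha).1 (h𝒜 a ha).2.1
    rw [ag_alr_dl hγ.ne_zero hγb h1 h2 h3]
    exact MoI_int hA hX₁ (fun n hn => hw n (rs_ne hn)) hX hγ hγs hg₀ hB hW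
  have i2 : ∀ c ∈ Sd U δ, Integrable fun v : ℝ => ((1 + |v|) ^ A)⁻¹ *
      MoP (aG γ (q * b) (g₀ * c) δ w) E B τ X v Z W P := by
    intro c hc
    unfold Sd at hc
    rw [Finset.mem_filter, mem_S hU] at hc
    exact MoI_int hA hX₁ hw hX hγ hγs (hg₀.mul hc.1.2.1) hB hW
  unfold MoF106.MoI
  rw [← integral_finsetSum _ i1, ← integral_finsetSum _ i2, ← integral_const_mul]
  refine integral_mono (integrable_finsetSum _ i1) ((integrable_finsetSum _ i2).const_mul _)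
    fun v => ?_
  show ∑ a ∈ 𝒜, ((1 + |v|) ^ A)⁻¹ *
      MoP (ag (alr (dl γ (TP320.sq (q * γ) w)) a b) δ g₀) E B τ X v Z W P ≤
    Tm * ∑ c ∈ Sd U δ, ((1 + |v|) ^ A)⁻¹ * MoP (aG γ (q * b) (g₀ * c) δ w) E B τ X v Z W P
  rw [← Finset.mul_sum, ← Finset.mul_sum, mul_left_comm]
  refine mul_le_mul_of_nonneg_left ?_ (by positivity)
  have h1 := MoP_alr (b := b) (δ := δ) (P := P) (Z := Z) (fun n hn => dl_sqf hγ hγs hn) hU h𝒜 hg₀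
    hB hX hW hT E τ v (α := dl γ (TP320.sq (q * γ) w))
  refine h1.trans (le_of_eq ?_)
  congr 1
  refine Finset.sum_congr rfl fun c _ => ?_
  rw [ag_alr_one hγ.ne_zero hγb]

/-- **`MoC` summed over `a`** -/
theorem MoC_alr {Cφ η : ℝ} {A : ℕ} {σ : Eis} (hη : 0 < η) (hA : 2 ≤ A) (hX₁ : 0 ≤ X₁)
    (hw : ∀ n, w n ≠ 0 → (nm n : ℝ) ≤ X₁)
    {X Z : ℝ} (hX : 0 ≤ X) (hγ : IsPrim γ) (hγs : Squarefree γ) (hγb : IsCoprime γ b)
    (hg₀ : IsPrim g₀) (hB : IsPrim B) (hU : 0 ≤ U)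
    (h𝒜 : ∀ a ∈ 𝒜, IsPrim a ∧ Squarefree a ∧ (nm a : ℝ) ≤ U)
    {W : Eis → Eis → ℝ} (hW : ∀ g₂ ∈ S X, ∀ g₃ ∈ S X, 0 ≤ W g₂ g₃)
    {P : IX σ → Eis → Eis → Eis → Prop} {Tm : ℝ}
    (hT : ∀ g₂ ∈ S X, ∀ g₃ ∈ S X, (tau (g₀ * (B * (g₂ * g₃))) : ℝ) ≤ Tm) :
    ∑ a ∈ 𝒜, MoC Cφ η A σ (ag (alr (dl γ (TP320.sq (q * γ) w)) a b) δ g₀) E B X Z W P ≤
      Tm * ∑ c ∈ Sd U δ, MoC Cφ η A σ (aG γ (q * b) (g₀ * c) δ w) E B X Z W P := by
  classical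
  have hp0 : 0 ≤ Cφ ^ 2 * iA A * (η * (η ^ A)⁻¹) := by
    have := iA_nonneg A; positivity
  unfold MoF106.MoC
  rw [← Finset.mul_sum, ← Finset.mul_sum]
  set cc : ℝ := Cφ ^ 2 * iA A * (η * (η ^ A)⁻¹) with hcc
  rw [mul_left_comm Tm cc]
  refine mul_le_mul_of_nonneg_left ?_ hp0
  rw [Finset.sum_comm, Finset.sum_comm (s := Sd U δ), Finset.mul_sum]
  refine Finset.sum_le_sum fun i _ => ?_
  exact MoI_alr hA hX₁ hw hX hγ hγs hγb hg₀ hB hU h𝒜 hW hT _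

lemma MoC_nonneg {Cφ η : ℝ} {A' : ℕ} {σ : Eis} {al : Eis → ℂ} {E B : Eis} {X Z : ℝ}
    {W : Eis → Eis → ℝ} {P : IX σ → Eis → Eis → Eis → Prop} (hη : 0 < η)
    (hW : ∀ g₂ ∈ S X, ∀ g₃ ∈ S X, 0 ≤ W g₂ g₃) : 0 ≤ MoC Cφ η A' σ al E B X Z W P := by
  unfold MoF106.MoC
  refine mul_nonneg (by have := iA_nonneg A'; positivity) (Finset.sum_nonneg fun _ _ => ?_)
  exact MoI_nonneg hW

lemma ag_zero (δ g₀ : Eis) : ag (fun _ => (0 : ℂ)) δ g₀ = 0 := by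
  classical
  funext n
  show ag (fun _ => (0 : ℂ)) δ g₀ n = 0
  unfold E2440.ag
  split_ifs <;> rfl

lemma MoP_zero (E B τ : Eis) (X t Z : ℝ) (W : Eis → Eis → ℝ) (P : Eis → Eis → Eis → Prop) :
    MoP (0 : Eis → ℂ) E B τ X t Z W P = 0 := by
  classical
  unfold MoF106.MoP
  refine Finset.sum_eq_zero fun g₂ _ => Finset.sum_eq_zero fun g₃ _ => ?_
  rw [Finset.sum_eq_zero, mul_zero]
  intro d _
  rw [MoJ401.CS_cT_zero]
  simp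

/-- the functional of a restricted twisted window at height `t₀` -/
theorem MoP_bt_alr {a : Eis} {X Z : ℝ} {W : Eis → Eis → ℝ} {σ : Eis}
    {P : IX σ → Eis → Eis → Eis → Prop} {C η : ℝ} {A : ℕ} (hC : 0 ≤ C) (hη : 0 < η)
    (hη1 : η ≤ 1) (hA : 2 ≤ A) {φ : ℝ → ℝ} (hφ : WK C η A φ) (hX₁ : 0 ≤ X₁)
    (hw : ∀ n, w n ≠ 0 → (nm n : ℝ) ≤ X₁) (hX : 0 ≤ X) (hγ : IsPrim γ) (hγs : Squarefree γ)
    (ha : IsPrim a) (has : Squarefree a)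
    (hg₀ : IsPrim g₀) (hB : IsPrim B) (hW : ∀ g₂ ∈ S X, ∀ g₃ ∈ S X, 0 ≤ W g₂ g₃)
    (p : ℕ × ℕ) (t₀ : ℝ) (i : IX σ) (t : ℝ) :
    MoP (ag (alr (fun n => bt φ (dl γ (TP320.sq (q * γ) w)) p n * pw t₀ (nm n)) a b) δ g₀) E B
        (dl' σ i) X t Z W (P i) ≤
      (1 + |t|) ^ A * ((1 + |t₀|) ^ A *
        MoC C η A σ (ag (alr (dl γ (TP320.sq (q * γ) w)) a b) δ g₀) (E * kw p ^ 2) B X Z W P) := by
  classical
  by_cases hγb : IsCoprime γ b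
  · obtain ⟨e, c, hc, h1, h2, h3⟩ := exists_cp hγ hγs ha has
    rw [alr_bt, alr_dl hγ.ne_zero hγb h1 h2 h3, ag_dl]
    exact MoP_bt_le hC hη hη1 hA hφ hX₁ (fun n hn => hw n (rs_ne hn)) hX hγ hγs hg₀ hB hW p t₀ i t
  · have e1 : (fun n => bt φ (fun _ => (0 : ℂ)) p n * pw t₀ (nm n)) = fun _ => (0 : ℂ) := by
      funext n
      unfold RGw813.bt RGw813.tw2 Win813.wn
      ring
    rw [alr_bt, alr_dl_zero hγb, e1, ag_zero, MoP_zero]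
    have h0 : 0 ≤ MoC C η A σ (0 : Eis → ℂ) (E * kw p ^ 2) B X Z W P :=
      MoC_nonneg hη hW
    positivity

/-! ### the joint functional -/

/-- **`MoJ` summed over `a`** -/
theorem MoJ_alr {α : Eis → ℂ} (hα : ∀ n, α n ≠ 0 → IsPrim n ∧ Squarefree n) (hU : 0 ≤ U)
    (h𝒜 : ∀ a ∈ 𝒜, IsPrim a ∧ Squarefree a ∧ (nm a : ℝ) ≤ U) (hg₀ : IsPrim g₀)
    {ν : Eis} {X R Z U' : ℝ} (hX : 0 ≤ X) (hR : 0 ≤ R) {Bs : Finset Eis} (hBs : ∀ B ∈ Bs, IsPrim B)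
    {Tm : ℝ} (hT : ∀ B ∈ Bs, ∀ g₂ ∈ S X, ∀ g₃ ∈ S X, (tau (g₀ * (B * (g₂ * g₃))) : ℝ) ≤ Tm)
    (E τ : Eis) (t : ℝ) :
    ∑ a ∈ 𝒜, MoJ ν (ag (alr α a b) δ g₀) E τ X t R Z U' Bs ≤
      Tm * ∑ c ∈ Sd U δ, MoJ ν (ag (alr α 1 b) δ (g₀ * c)) E τ X t R Z U' Bs := by
  classical
  unfold E2D401.MoJ
  have e1 : ∀ (I : Finset Eis) (f : Eis → Eis → ℂ), ∑ a ∈ I, ∑ n ∈ dvs ν, (nm n : ℝ) *
      ∑ g₂ ∈ S X, ∑ g₃ ∈ S X, ∑ g ∈ S U',
      WJ R (Z / (nm n : ℝ) ^ 3) U' g g₂ * ∑ B ∈ Bs,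
      ∑ d ∈ (pb Z).filter (fun d => (DN n g₂ g₃ d ∧ GB g B d) ∧ Z / 2 < nm d),
        ‖CS (sub (cT (f a) E B τ t) (g₂ * g₃)) d‖ ^ 2 =
      ∑ n ∈ dvs ν, (nm n : ℝ) *
      ∑ g₂ ∈ S X, ∑ g₃ ∈ S X, ∑ g ∈ S U',
      WJ R (Z / (nm n : ℝ) ^ 3) U' g g₂ * ∑ B ∈ Bs,
      ∑ d ∈ (pb Z).filter (fun d => (DN n g₂ g₃ d ∧ GB g B d) ∧ Z / 2 < nm d),
        ∑ a ∈ I, ‖CS (sub (cT (f a) E B τ t) (g₂ * g₃)) d‖ ^ 2 := by
    intro I f
    rw [Finset.sum_comm]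
    refine Finset.sum_congr rfl fun n _ => ?_
    rw [← Finset.mul_sum, Finset.sum_comm]
    congr 1
    refine Finset.sum_congr rfl fun g₂ _ => ?_
    rw [Finset.sum_comm]
    refine Finset.sum_congr rfl fun g₃ _ => ?_
    rw [Finset.sum_comm]
    refine Finset.sum_congr rfl fun g _ => ?_
    rw [← Finset.mul_sum, Finset.sum_comm]
    congr 1
    refine Finset.sum_congr rfl fun B _ => ?_
    rw [Finset.sum_comm]
  rw [e1 𝒜 (fun a => ag (alr α a b) δ g₀), e1 (Sd U δ) (fun c => ag (alr α 1 b) δ (g₀ * c)),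
    Finset.mul_sum]
  refine Finset.sum_le_sum fun n _ => ?_
  rw [mul_left_comm]
  refine mul_le_mul_of_nonneg_left ?_ (Nat.cast_nonneg _)
  rw [Finset.mul_sum]
  refine Finset.sum_le_sum fun g₂ h₂ => ?_
  rw [Finset.mul_sum]
  refine Finset.sum_le_sum fun g₃ h₃ => ?_
  rw [Finset.mul_sum]
  refine Finset.sum_le_sum fun g _ => ?_
  rw [mul_left_comm]
  refine mul_le_mul_of_nonneg_left ?_ (H1401.WJ_nonneg hR _ _)
  rw [Finset.mul_sum]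
  refine Finset.sum_le_sum fun B hB => ?_
  rw [Finset.mul_sum]
  refine Finset.sum_le_sum fun d _ => ?_
  have hG : IsPrim (g₂ * g₃) := ((mem_S hX).1 h₂).2.1.mul ((mem_S hX).1 h₃).2.1
  refine (CS_sum hα hU h𝒜 hg₀ (hBs B hB) hG E τ d t).trans ?_
  exact mul_le_mul_of_nonneg_right (hT B hB g₂ h₂ g₃ h₃)
    (Finset.sum_nonneg fun _ _ => sq_nonneg _)

/-- the block functional of the restricted sequence, through the children -/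
def MoJCr (C η : ℝ) (A : ℕ) (σ γ q g₀ δ : Eis) (w : Eis → ℂ) (a b ν E : Eis) (X R Z U' : ℝ)
    (Bs : Finset Eis) : ℝ := by
  classical
  exact ∑ n ∈ dvs ν, (nm n : ℝ) * ∑ g ∈ (S U').filter (fun g => IsCoprime g δ),
    ∑ B ∈ (S X).filter (fun B => g * B ∈ Bs),
      MoC C η A σ (ag (alr (dl γ (TP320.sq (q * γ) w)) a b) δ (g₀ * g)) E B X (Z / nm g)
        (fun g₂ _ => WJ R (Z / (nm n : ℝ) ^ 3) U' g g₂) (fun _ => PJ n g Z B)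

lemma MoJCr_eq {a e c : Eis} (hγ : γ ≠ 0) (hγb : IsCoprime γ b) (ha : a = e * c) (he : e ∣ γ)
    (hc : IsCoprime c γ) (C η : ℝ) (A : ℕ) (σ ν E : Eis) (X R Z U' : ℝ) (Bs : Finset Eis) :
    MoJCr C η A σ γ q g₀ δ w a b ν E X R Z U' Bs =
      MoJC C η A σ γ (q * b) g₀ δ (rs c w) ν E X R Z U' Bs := by
  classical
  unfold MoJ401.MoJC MoJCr
  refine Finset.sum_congr rfl fun n _ => ?_
  refine congrArg (fun x : ℝ => (nm n : ℝ) * x) ?_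
  refine Finset.sum_congr rfl fun g _ => ?_
  refine Finset.sum_congr rfl fun B _ => ?_
  rw [ag_alr_dl hγ hγb ha he hc]

lemma MoJCr_nonneg {a : Eis} {C η : ℝ} (hη : 0 < η) {A : ℕ} {σ ν E : Eis} {X R Z U' : ℝ}
    (hR : 0 ≤ R) {Bs : Finset Eis} : 0 ≤ MoJCr C η A σ γ q g₀ δ w a b ν E X R Z U' Bs := by
  unfold MoJCr
  refine Finset.sum_nonneg fun n _ => mul_nonneg (Nat.cast_nonneg _)
    (Finset.sum_nonneg fun g _ => Finset.sum_nonneg fun B _ => MoC_nonneg hη ?_)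
  exact fun _ _ _ _ => H1401.WJ_nonneg hR _ _

lemma MoJ_zero (ν E τ : Eis) (X t R Z U' : ℝ) (Bs : Finset Eis) :
    MoJ ν (0 : Eis → ℂ) E τ X t R Z U' Bs = 0 := by
  classical
  unfold E2D401.MoJ
  refine Finset.sum_eq_zero fun n _ => ?_
  rw [Finset.sum_eq_zero, mul_zero]
  intro g₂ _
  refine Finset.sum_eq_zero fun g₃ _ => Finset.sum_eq_zero fun g _ => ?_
  rw [Finset.sum_eq_zero, mul_zero]
  intro B _
  refine Finset.sum_eq_zero fun d _ => ?_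
  rw [MoJ401.CS_cT_zero]
  simp

/-- **the joint functional of a restricted twisted window at height `t₀`** -/
theorem MoJ_bt_alr {a ν : Eis} {X R Z U' : ℝ} {σ : Eis} {Bs : Finset Eis} {C η : ℝ} {A : ℕ}
    {φ : ℝ → ℝ}
    (hC : 0 ≤ C) (hη : 0 < η) (hη1 : η ≤ 1) (hA : 2 ≤ A) (hφ : WK C η A φ) (hX₁ : 0 ≤ X₁)
    (hw : ∀ n, w n ≠ 0 → (nm n : ℝ) ≤ X₁) (hX : 0 ≤ X) (hR : 0 ≤ R) (hZ : 0 ≤ Z) (hU' : 0 ≤ U')
    (hγ : IsPrim γ) (hγs : Squarefree γ) (ha : IsPrim a) (has : Squarefree a)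
    (hg₀ : IsPrim g₀) (hBs : ∀ B ∈ Bs, B ∈ S X)
    (p : ℕ × ℕ) (t₀ : ℝ) (i : IX σ) (t : ℝ) :
    MoJ ν (ag (alr (fun n => bt φ (dl γ (TP320.sq (q * γ) w)) p n * pw t₀ (nm n)) a b) δ g₀) E
        (dl' σ i) X t R Z U' Bs ≤
      (1 + |t|) ^ A * ((1 + |t₀|) ^ A *
        MoJCr C η A σ γ q g₀ δ w a b ν (E * kw p ^ 2) X R Z U' Bs) := by
  classical
  by_cases hγb : IsCoprime γ b
  · obtain ⟨e, c, hc, h1, h2, h3⟩ := exists_cp hγ hγs ha has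
    rw [alr_bt, alr_dl hγ.ne_zero hγb h1 h2 h3, MoJCr_eq hγ.ne_zero hγb h1 h2 h3]
    exact MoJ_bt_le hC hη hη1 hA hφ hX₁ (fun n hn => hw n (rs_ne hn)) hX hR hZ hU' hγ hγs hg₀
      hBs p t₀ i t
  · have e1 : (fun n => bt φ (fun _ => (0 : ℂ)) p n * pw t₀ (nm n)) = fun _ => (0 : ℂ) := by
      funext n
      unfold RGw813.bt RGw813.tw2 Win813.wn
      ring
    have h0 : 0 ≤ MoJCr C η A σ γ q g₀ δ w a b ν (E * kw p ^ 2) X R Z U' Bs :=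
      MoJCr_nonneg hη hR
    rw [alr_bt, alr_dl_zero hγb, e1, ag_zero, MoJ_zero]
    positivity

/-- **the joint functional summed over `a`** -/
theorem MoJCr_alr {Cφ η : ℝ} {A : ℕ} {σ ν : Eis} (hη : 0 < η) (hA : 2 ≤ A) (hX₁ : 0 ≤ X₁)
    (hw : ∀ n, w n ≠ 0 → (nm n : ℝ) ≤ X₁)
    {X R Z U' : ℝ} (hX : 0 ≤ X) (hR : 0 ≤ R) (hU' : 0 ≤ U')
    (hγ : IsPrim γ) (hγs : Squarefree γ) (hγb : IsCoprime γ b)
    (hg₀ : IsPrim g₀) (hU : 0 ≤ U)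
    (h𝒜 : ∀ a ∈ 𝒜, IsPrim a ∧ Squarefree a ∧ (nm a : ℝ) ≤ U) (Bs : Finset Eis) {Tm : ℝ}
    (hT : ∀ g ∈ S U', ∀ B ∈ S X, ∀ g₂ ∈ S X, ∀ g₃ ∈ S X,
      (tau (g₀ * g * (B * (g₂ * g₃))) : ℝ) ≤ Tm) :
    ∑ a ∈ 𝒜, MoJCr Cφ η A σ γ q g₀ δ w a b ν E X R Z U' Bs ≤
      Tm * ∑ c ∈ Sd U δ, MoJC Cφ η A σ γ (q * b) (g₀ * c) δ w ν E X R Z U' Bs := by
  classical
  unfold MoJ401.MoJC MoJCr
  rw [Finset.sum_comm, Finset.sum_comm (s := Sd U δ), Finset.mul_sum]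
  refine Finset.sum_le_sum fun n _ => ?_
  rw [← Finset.mul_sum, ← Finset.mul_sum, mul_left_comm Tm (nm n : ℝ)]
  refine mul_le_mul_of_nonneg_left ?_ (Nat.cast_nonneg _)
  rw [Finset.sum_comm, Finset.sum_comm (s := Sd U δ), Finset.mul_sum]
  refine Finset.sum_le_sum fun g hg => ?_
  rw [Finset.sum_comm, Finset.sum_comm (s := Sd U δ), Finset.mul_sum]
  refine Finset.sum_le_sum fun B hB => ?_
  have hgS := (Finset.mem_filter.mp hg).1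
  have hgp := ((mem_S hU').mp hgS).2.1
  have hBS := (Finset.mem_filter.mp hB).1
  have hBp := ((mem_S hX).mp hBS).2.1
  have e2 : ∀ c, g₀ * c * g = g₀ * g * c := fun c => by ring
  have h1 := MoC_alr (Cφ := Cφ) (σ := σ) (δ := δ) (E := E) (Z := Z / nm g) (q := q)
    (P := fun _ => PJ n g Z B) hη hA hX₁ hw hX hγ hγs hγb
    (hg₀.mul hgp) hBp hU h𝒜 (W := fun g₂ _ => WJ R (Z / (nm n : ℝ) ^ 3) U' g g₂)
    (fun _ _ _ _ => H1401.WJ_nonneg hR _ _) (fun g₂ h₂ g₃ h₃ => hT g hgS B hBS g₂ h₂ g₃ h₃)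
  simp only [e2]
  exact h1

end

end Crest.Agent.R017.MoCa83
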