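import Crest.Agent.R017.E2h_440
import Crest.Agent.R017.GR1_106

/-!
# Row 17, E2: the moment functional of helper440 and second moments of closed families (helper106)

* `cT_le` : the dual form at `d = g₂² g₃³ m` in terms of the frequency `E τ m (g₂ B)²`
* `merge5` : merging `(J, B, g₂, m) ↦ E J τ m (g₂ B)²`
-/

set_option autoImplicit false

noncomputable section

open MeasureTheory Finset
open scoped ComplexConjugate

namespace Crest.Agent.R017.MoF106

open Crest.Agent.R012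
open Eis CharSum852 Gauss880 LS2 CR2 MelSep811
open Crest.Agent.R012.Weight600 (osc norm_osc)
open Crest.Agent.R017.CM106 (CS TG FS sub)
open Crest.Agent.R017.TP320 (VC VG Fam SplitAt tw)
open Crest.Agent.R017.GR106 (split_sq CS_sq_eq)
open Crest.Agent.R017.E2440 (cT MoF)
open Crest.Agent.R017.H1401 (pb mem_pb)
open Div277 (tau dvs mem_dvs tau_le_rpow)

/-- the index `(B, g₂, g₃, m)` -/
abbrev I4 := Eis × Eis × Eis × Eis

/-- the merged frequency -/
def fr (κ : Eis) (x : I4) : Eis := κ * (x.2.2.2 * (x.2.1 * x.1) ^ 2)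

open Classical in
/-- the coefficients -/
def cM (q κ : Eis) (x : I4) (b : Eis) : ℂ :=
  if IsPrim b ∧ Squarefree b ∧ IsCoprime b (q * x.2.2.1) then sy (fr κ x) b else 0

lemma cM_ne {q κ b : Eis} {x : I4} (h : cM q κ x b ≠ 0) :
    IsPrim b ∧ Squarefree b ∧ IsCoprime b (q * x.2.2.1) ∧ IsCoprime (fr κ x) b := by
  unfold cM at h
  split_ifs at h with h1
  · refine ⟨h1.1, h1.2.1, h1.2.2, ?_⟩
    by_contra h2
    exact h ((syG.eq_zero _ b h1.1).2 h2)
  · exact absurd rfl h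

lemma fr_cop {κ b : Eis} {x : I4} (h : IsCoprime (fr κ x) b) :
    IsCoprime κ b ∧ IsCoprime x.2.2.2 b ∧ IsCoprime x.2.1 b ∧ IsCoprime x.1 b := by
  unfold fr at h
  have h1 := h.of_mul_left_left
  have h2 := h.of_mul_left_right.of_mul_left_left
  have h3 := h.of_mul_left_right.of_mul_left_right
  rw [pow_two] at h3
  exact ⟨h1, h2, h3.of_mul_left_left.of_mul_left_left, h3.of_mul_left_left.of_mul_left_right⟩

lemma cM_cop {q κ b : Eis} {x : I4} (h : cM q κ x b ≠ 0) :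
    IsCoprime (x.1 * (x.2.1 * x.2.2.1)) b := by
  obtain ⟨_, _, h3, h4⟩ := cM_ne h
  obtain ⟨_, _, h5, h6⟩ := fr_cop h4
  exact h6.mul_left (h5.mul_left h3.of_mul_right_right.symm)

lemma sum_cM_eq {w : Eis → ℂ} {q κ : Eis} {X : ℝ}
    (hw : ∀ b, w b ≠ 0 → IsPrim b → Squarefree b → b ∈ S X) (x : I4) :
    ∑ b ∈ S X, w b * cM q κ x b = CS (TP320.sq (q * x.2.2.1) w) (fr κ x) := by
  rw [CS_sq_eq hw]
  refine Finset.sum_congr rfl fun b hb => ?_
  unfold cM TP320.sq
  split_ifs <;> simp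

open Classical in
/-- **merging the frequencies**, `p = (J, B, g₂, m)` -/
theorem merge5 {Λ : ℝ} (hΛ : 0 ≤ Λ) (P : Finset (Eis × Eis × Eis × Eis)) {E τ : Eis}
    (hE : E ≠ 0) (hτ : τ ≠ 0)
    (hP : ∀ p ∈ P, IsPrim p.1 ∧ IsPrim p.2.1 ∧ IsPrim p.2.2.1 ∧
      E * p.1 * τ * (p.2.2.2 * (p.2.2.1 * p.2.1) ^ 2) ∈ bl Λ)
    (F : Eis → ℝ) (hF : ∀ r, 0 ≤ F r) :
    ∑ p ∈ P, F (E * p.1 * τ * (p.2.2.2 * (p.2.2.1 * p.2.1) ^ 2)) ≤
      ∑ r ∈ bl Λ, (tau r : ℝ) ^ 3 * F r := by
  have hmaps : ∀ x ∈ P, E * x.1 * τ * (x.2.2.2 * (x.2.2.1 * x.2.1) ^ 2) ∈ bl Λ :=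
    fun x hx => (hP x hx).2.2.2
  rw [← Finset.sum_fiberwise_of_maps_to hmaps]
  refine Finset.sum_le_sum fun r hr => ?_
  have hr0 : r ≠ 0 := ((mem_bl hΛ).1 hr).1
  set Bx := P.filter (fun x => E * x.1 * τ * (x.2.2.2 * (x.2.2.1 * x.2.1) ^ 2) = r) with hBx
  have hmem : ∀ x ∈ Bx, x ∈ P ∧ E * x.1 * τ * (x.2.2.2 * (x.2.2.1 * x.2.1) ^ 2) = r := by
    intro x hx
    rwa [hBx, Finset.mem_filter] at hx
  have h1 : ∑ x ∈ Bx, F (E * x.1 * τ * (x.2.2.2 * (x.2.2.1 * x.2.1) ^ 2)) = ∑ x ∈ Bx, F r :=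
    Finset.sum_congr rfl fun x hx => by rw [(hmem x hx).2]
  rw [h1, Finset.sum_const, nsmul_eq_mul]
  refine mul_le_mul_of_nonneg_right ?_ (hF r)
  have h2 : Bx.card ≤ (dvs r ×ˢ dvs r ×ˢ dvs r).card := by
    apply Finset.card_le_card_of_injOn (fun x => (x.1, x.2.1, x.2.2.1))
    · intro x hx
      obtain ⟨h1, h2⟩ := hmem x (Finset.mem_coe.1 hx)
      obtain ⟨q1, q2, q3, -⟩ := hP _ h1
      rw [Finset.mem_coe, Finset.mem_product, Finset.mem_product, mem_dvs hr0, mem_dvs hr0,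
        mem_dvs hr0]
      refine ⟨⟨q1, ?_⟩, ⟨q2, ?_⟩, ⟨q3, ?_⟩⟩
      · rw [← h2]
        exact ⟨E * τ * (x.2.2.2 * (x.2.2.1 * x.2.1) ^ 2), by ring⟩
      · rw [← h2]
        exact ⟨E * x.1 * τ * x.2.2.2 * x.2.2.1 ^ 2 * x.2.1, by ring⟩
      · rw [← h2]
        exact ⟨E * x.1 * τ * x.2.2.2 * x.2.1 ^ 2 * x.2.2.1, by ring⟩
    · intro x hx y hy hxy
      obtain ⟨h1, h2⟩ := hmem x (Finset.mem_coe.1 hx)
      obtain ⟨h1', h2'⟩ := hmem y (Finset.mem_coe.1 hy)
      obtain ⟨q1, q2, q3, -⟩ := hP _ h1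
      have hxy' : (x.1, x.2.1, x.2.2.1) = (y.1, y.2.1, y.2.2.1) := hxy
      have e0 : x.1 = y.1 := (Prod.mk.inj hxy').1
      have e1 : x.2.1 = y.2.1 := (Prod.mk.inj (Prod.mk.inj hxy').2).1
      have e2 : x.2.2.1 = y.2.2.1 := (Prod.mk.inj (Prod.mk.inj hxy').2).2
      have h0 : E * x.1 * τ * (x.2.2.1 * x.2.1) ^ 2 ≠ 0 :=
        mul_ne_zero (mul_ne_zero (mul_ne_zero hE q1.ne_zero) hτ)
          (pow_ne_zero 2 (mul_ne_zero q3.ne_zero q2.ne_zero))
      have h4 : x.2.2.2 = y.2.2.2 := by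
        apply mul_left_cancel₀ h0
        calc E * x.1 * τ * (x.2.2.1 * x.2.1) ^ 2 * x.2.2.2 = r := by rw [← h2]; ring
          _ = E * y.1 * τ * (y.2.2.1 * y.2.1) ^ 2 * y.2.2.2 := by rw [← h2']; ring
          _ = E * x.1 * τ * (x.2.2.1 * x.2.1) ^ 2 * y.2.2.2 := by rw [e0, e1, e2]
      exact Prod.ext e0 (Prod.ext e1 (Prod.ext e2 h4))
  rw [Finset.card_product, Finset.card_product] at h2
  have h3 : (Bx.card : ℝ) ≤ ((dvs r).card * ((dvs r).card * (dvs r).card) : ℕ) := by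
    exact_mod_cast h2
  calc (Bx.card : ℝ) ≤ ((dvs r).card * ((dvs r).card * (dvs r).card) : ℕ) := h3
    _ = (tau r : ℝ) ^ 3 := by unfold tau; push_cast; ring

lemma osc_add (t u v : ℝ) : osc t (u + v) = osc t u * osc t v := Weight600.osc_add_right t u v

lemma tw_eq_osc {b : Eis} (hb : b ≠ 0) (t : ℝ) : tw 0 (-t) b = osc t (-Real.log (nm b)) := by
  have hn : (0 : ℝ) < nm b := by exact_mod_cast nm_pos.2 hb
  have hc : (nm b : ℂ) ≠ 0 := by exact_mod_cast hn.ne'
  unfold TP320.tw Weight600.osc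
  rw [Complex.cpow_def_of_ne_zero hc]
  congr 1
  have e1 : Complex.log (nm b : ℂ) = ((Real.log (nm b) : ℝ) : ℂ) := by
    rw [← Complex.ofReal_natCast, ← Complex.ofReal_log hn.le]
  rw [e1]
  push_cast
  ring

open Classical in
/-- the sequence on the multiples of `γ` -/
def dl (γ : Eis) (be : Eis → ℂ) (n : Eis) : ℂ := if γ ∣ n then be (n / γ) else 0

lemma dl_mul {γ : Eis} (hγ : γ ≠ 0) (be : Eis → ℂ) (c : Eis) : dl γ be (γ * c) = be c := by
  unfold dl
  rw [if_pos (dvd_mul_right _ _)]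
  congr 1
  exact mul_div_cancel_left₀ c hγ

lemma dl_ne {γ n : Eis} (hγ : γ ≠ 0) {be : Eis → ℂ} (h : dl γ be n ≠ 0) :
    ∃ c, n = γ * c ∧ be c ≠ 0 := by
  unfold dl at h
  split_ifs at h with h1
  · obtain ⟨c, rfl⟩ := h1
    refine ⟨c, rfl, ?_⟩
    rwa [mul_div_cancel_left₀ c hγ] at h
  · exact absurd rfl h

lemma dl_one (be : Eis → ℂ) : dl 1 be = be := by
  funext n
  have := dl_mul (one_ne_zero : (1 : Eis) ≠ 0) be n
  rwa [one_mul] at this

open Classical in
/-- the sub-sequence at the divisor `g₀`, prime to `δ`, of `dl γ (sq (q γ) w)` -/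
def aG (γ q g₀ δ : Eis) (w : Eis → ℂ) : Eis → ℂ := fun n =>
  if IsCoprime n δ then dl γ (TP320.sq (q * γ) w) (g₀ * n) else 0

lemma aG_one (q : Eis) (w : Eis → ℂ) : aG 1 q 1 1 w = TP320.sq q w := by
  funext n
  unfold aG
  rw [if_pos isCoprime_one_right, one_mul, dl_one, mul_one]

lemma aG_ne {γ q g₀ δ n : Eis} (hγ : γ ≠ 0) {w : Eis → ℂ} (h : aG γ q g₀ δ w n ≠ 0) :
    IsCoprime n δ ∧ ∃ c, g₀ * n = γ * c ∧ IsPrim c ∧ Squarefree c ∧ IsCoprime c (q * γ) ∧
      w c ≠ 0 := by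
  unfold aG at h
  split_ifs at h with h1
  · obtain ⟨c, h2, h3⟩ := dl_ne hγ h
    unfold TP320.sq at h3
    split_ifs at h3 with h4
    · exact ⟨h1, c, h2, h4.1, h4.2.1, h4.2.2, h3⟩
    · exact absurd rfl h3
  · exact absurd rfl h

/-- **the dual form at `d = g₂² g₃³ m`** -/
theorem cT_le {w : Eis → ℂ} {X : ℝ} (hX : 0 ≤ X)
    (hw : ∀ n, w n ≠ 0 → (nm n : ℝ) ≤ X) {γ h γ' q g₀ δ E τ B g₂ g₃ a : Eis} (m : Eis)
    (hh : IsPrim h) (hγ' : IsPrim γ') (hγ : γ = h * γ') (hap : IsPrim a)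
    (hg₀ : IsPrim g₀) (hB : IsPrim B) (hg₂ : IsPrim g₂) (hg₃ : IsPrim g₃)
    (ha : g₀ * (B * (g₂ * g₃)) = h * a) (haγ : IsCoprime a γ') (t : ℝ) :
    ‖CS (sub (cT (aG γ q g₀ δ w) E B τ t) (g₂ * g₃)) (g₂ ^ 2 * g₃ ^ 3 * m)‖ ≤
      ‖∑ b ∈ S X, w (a * b) * tw 0 (-t) b *
        cM (q * (δ * (g₀ * γ))) (E * τ) (B, g₂, g₃, m) b‖ := by
  classical
  set g : Eis := g₂ * g₃ with hg
  have hgp : IsPrim g := hg₂.mul hg₃
  have hγp : IsPrim γ := hγ ▸ hh.mul hγ'
  have hsy : ∀ x c : Eis, IsPrim c → ‖sy x c‖ ≤ 1 := fun x c hc => norm_sy_le syG hc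
  set k : Eis := g₂ ^ 2 * g₃ ^ 3 * m with hk
  set al : Eis → ℂ := aG γ q g₀ δ w with hal
  -- the values of `al`
  have eD : ∀ D', g₀ * (B * (g * (γ' * D'))) = γ * (a * D') := by
    intro D'
    calc g₀ * (B * (g * (γ' * D'))) = (g₀ * (B * g)) * (γ' * D') := by ring
      _ = (h * a) * (γ' * D') := by rw [ha]
      _ = γ * (a * D') := by rw [hγ]; ring
  have hval : ∀ D', al (B * (g * (γ' * D'))) =
      if IsCoprime (B * (g * (γ' * D'))) δ then TP320.sq (q * γ) w (a * D') else 0 := by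
    intro D'
    rw [hal]
    unfold aG
    rw [eD, dl_mul hγp.ne_zero]
  have hsupp : ∀ D, al (B * (g * D)) ≠ 0 → ∃ D', D = γ' * D' := by
    intro D hD
    obtain ⟨_, c, h1, h2, _⟩ := aG_ne hγp.ne_zero hD
    have h3 : a * D = γ' * c := by
      apply mul_left_cancel₀ hh.ne_zero
      calc h * (a * D) = (h * a) * D := by ring
        _ = g₀ * (B * (g * D)) := by rw [← ha]; ring
        _ = γ * c := h1
        _ = h * (γ' * c) := by rw [hγ]; ring
    have h4 : γ' ∣ D := haγ.symm.dvd_of_dvd_mul_left (h3 ▸ dvd_mul_right _ _)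
    obtain ⟨D', hD'⟩ := h4
    exact ⟨D', hD'⟩
  -- the finite form
  have e0 : CS (sub (cT al E B τ t) g) k =
      ∑ D ∈ S X, cT al E B τ t (g * (γ' * D)) * sy k (γ' * D) := by
    unfold CM106.CS CM106.sub
    have hinj : Function.Injective (fun D : Eis => γ' * D) := fun x y h =>
      mul_left_cancel₀ hγ'.ne_zero h
    have hsup : Function.support (fun D : Eis => cT al E B τ t (g * D) * sy k D) ⊆
        Set.range (fun D : Eis => γ' * D) := by
      intro D hD
      rw [Function.mem_support] at hD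
      have h1 : al (B * (g * D)) ≠ 0 := by
        intro h0
        apply hD
        unfold E2440.cT
        rw [h0]; ring
      obtain ⟨D', hD'⟩ := hsupp D h1
      exact ⟨D', hD'.symm⟩
    rw [← hinj.tsum_eq hsup]
    apply tsum_eq_sum
    intro D hD
    have h1 : al (B * (g * (γ' * D))) = 0 := by
      rw [hval]
      split_ifs with h2
      · unfold TP320.sq
        split_ifs with h3
        · by_contra h0
          apply hD
          have h4 : IsPrim D := IsPrim.of_mul_left h3.1 hap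
          rw [mem_S hX]
          refine ⟨?_, h4, h3.2.1.squarefree_of_dvd (dvd_mul_left _ _)⟩
          have h5 := hw _ h0
          have h6 := Div277.nm_le_of_dvd h3.1.ne_zero (dvd_mul_left D a)
          exact le_trans (by exact_mod_cast h6) h5
        · rfl
      · rfl
    show cT al E B τ t (g * (γ' * D)) * sy k (γ' * D) = 0
    unfold E2440.cT
    rw [h1]
    ring
  rw [e0]
  by_cases hsf : Squarefree a ∧ IsCoprime a (q * γ) ∧ IsCoprime (B * (g * γ')) δ
  swap
  · have : ∑ D ∈ S X, cT al E B τ t (g * (γ' * D)) * sy k (γ' * D) = 0 := by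
      refine Finset.sum_eq_zero fun D _ => ?_
      have e1 : al (B * (g * (γ' * D))) = 0 := by
        rw [hval]
        split_ifs with h2
        · unfold TP320.sq
          rw [if_neg]
          rintro ⟨_, h3, h4⟩
          apply hsf
          refine ⟨h3.squarefree_of_dvd (dvd_mul_right _ _), h4.of_mul_left_left, ?_⟩
          exact h2.of_isCoprime_of_dvd_left ⟨D, by ring⟩
        · rfl
      unfold E2440.cT
      rw [e1]
      ring
    rw [this, norm_zero]
    exact norm_nonneg _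
  set g' : Eis := g * γ' with hg'
  have hg'p : IsPrim g' := hgp.mul hγ'
  set A : ℂ := sy E g' * conj (sy g' B) * (sy τ g' * osc t (-Real.log (nm g'))) * sy k γ'
    with hA
  have hA1 : ‖A‖ ≤ 1 := by
    rw [hA, norm_mul, norm_mul, norm_mul, norm_mul, norm_osc, mul_one, RCLike.norm_conj]
    have h1 := hsy E g' hg'p
    have h2 := hsy g' B hB
    have h3 := hsy τ g' hg'p
    have h4 := hsy k γ' hγ'
    have n1 := norm_nonneg (sy E g')
    have n2 := norm_nonneg (sy g' B)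
    have n3 := norm_nonneg (sy τ g')
    have n4 := norm_nonneg (sy k γ')
    calc ‖sy E g'‖ * ‖sy g' B‖ * ‖sy τ g'‖ * ‖sy k γ'‖ ≤ 1 * 1 * 1 * 1 := by gcongr
      _ = 1 := by ring
  have key : ∀ D ∈ S X, cT al E B τ t (g * (γ' * D)) * sy k (γ' * D) =
      A * (w (a * D) * tw 0 (-t) D *
        cM (q * (δ * (g₀ * γ))) (E * τ) (B, g₂, g₃, m) D) := by
    intro D hD
    have hD' := (mem_S hX).1 hD
    have hDp := hD'.2.1
    have hfr : fr (E * τ) (B, g₂, g₃, m) = (E * τ) * (m * (g₂ * B) ^ 2) := rfl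
    by_cases hall : w (a * D) ≠ 0 ∧ IsCoprime a D ∧ IsCoprime D (q * γ) ∧ IsCoprime D δ
    swap
    · -- both sides vanish
      have h1 : al (B * (g * (γ' * D))) = 0 := by
        by_contra h0
        apply hall
        rw [hval] at h0
        split_ifs at h0 with h2
        · unfold TP320.sq at h0
          split_ifs at h0 with h3
          · refine ⟨h0, PG106.cop_of_sqf h3.2.1, h3.2.2.of_mul_left_right, ?_⟩
            exact h2.of_isCoprime_of_dvd_left ⟨B * (g * γ'), by ring⟩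
          · exact absurd rfl h0
        · exact absurd rfl h0
      have h2 : w (a * D) * tw 0 (-t) D *
          cM (q * (δ * (g₀ * γ))) (E * τ) (B, g₂, g₃, m) D = 0 := by
        by_contra h3
        apply hall
        have h4 : cM (q * (δ * (g₀ * γ))) (E * τ) (B, g₂, g₃, m) D ≠ 0 :=
          right_ne_zero_of_mul h3
        have h5 : w (a * D) ≠ 0 := left_ne_zero_of_mul (left_ne_zero_of_mul h3)
        obtain ⟨-, -, h6, -⟩ := cM_ne h4
        have h7 := cM_cop h4
        have h8 : IsCoprime D (q * (δ * (g₀ * γ))) := h6.of_mul_right_left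
        have h9 : IsCoprime (g₀ * (B * g)) D :=
          h8.of_mul_right_right.of_mul_right_right.of_mul_right_left.symm.mul_left h7
        rw [ha] at h9
        exact ⟨h5, h9.of_mul_left_right,
          h8.of_mul_right_left.mul_right
            h8.of_mul_right_right.of_mul_right_right.of_mul_right_right,
          h8.of_mul_right_right.of_mul_right_left⟩
      unfold E2440.cT
      rw [h1, h2]
      ring
    obtain ⟨_, hcopa, hqγ, hδ⟩ := hall
    have hq : IsCoprime D q := hqγ.of_mul_right_left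
    have hDγ : IsCoprime D γ := hqγ.of_mul_right_right
    have hcop0 : IsCoprime (g₀ * (B * g)) D := by
      rw [ha]
      refine IsCoprime.mul_left ?_ hcopa
      rw [hγ] at hDγ
      exact hDγ.of_mul_right_left.symm
    have c0 : IsCoprime g₀ D := hcop0.of_mul_left_left
    have hcop : IsCoprime (B * g) D := hcop0.of_mul_left_right
    have cB : IsCoprime B D := hcop.of_mul_left_left
    have cg₂ : IsCoprime g₂ D := (hcop.of_mul_left_right).of_mul_left_left
    have cg₃ : IsCoprime g₃ D := (hcop.of_mul_left_right).of_mul_left_right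
    have h1 : al (B * (g * (γ' * D))) = w (a * D) := by
      rw [hval, if_pos]
      · unfold TP320.sq
        rw [if_pos]
        exact ⟨hap.mul hDp, squarefree_mul_iff.mpr ⟨hcopa.isRelPrime, hsf.1, hD'.2.2⟩,
          hsf.2.1.mul_left hqγ⟩
      · have e : B * (g * (γ' * D)) = (B * (g * γ')) * D := by ring
        rw [e]
        exact hsf.2.2.mul_left hδ
    have h2 : cM (q * (δ * (g₀ * γ))) (E * τ) (B, g₂, g₃, m) D =
        sy (fr (E * τ) (B, g₂, g₃, m)) D := by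
      unfold cM
      rw [if_pos]
      exact ⟨hDp, hD'.2.2, (hq.mul_right (hδ.mul_right (c0.symm.mul_right hDγ))).mul_right
        cg₃.symm⟩
    have hassoc : g * (γ' * D) = g' * D := by rw [hg']; ring
    have hlog : Real.log (nm (g' * D)) = Real.log (nm g') + Real.log (nm D) := by
      have a1 : (nm g' : ℝ) ≠ 0 := by exact_mod_cast (nm_pos.2 hg'p.ne_zero).ne'
      have a2 : (nm D : ℝ) ≠ 0 := by exact_mod_cast (nm_pos.2 hDp.ne_zero).ne'
      rw [nm_mul]
      push_cast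
      exact Real.log_mul a1 a2
    have hosc : osc t (-Real.log (nm (g' * D))) =
        osc t (-Real.log (nm g')) * osc t (-Real.log (nm D)) := by
      rw [hlog, neg_add, osc_add]
    have h1' : al (B * (g' * D)) = w (a * D) := by rw [← hassoc]; exact h1
    rw [hassoc]
    unfold E2440.cT
    rw [h1', h2, hfr, tw_eq_osc hDp.ne_zero, hosc, syG.mul_left g' D B hB,
      syG.mul_right E g' D hg'p hDp, syG.mul_right τ g' D hg'p hDp, map_mul,
      syG.recip D B hDp hB, ← sy_sq_eq_conj syG (x := B) hDp, syG.mul_right k γ' D hγ' hDp]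
    have f1 : sy k D = sy g₂ D ^ 2 * sy m D := by
      rw [hk, syG.mul_left _ _ D hDp, syG.mul_left _ _ D hDp, pow_two, syG.mul_left _ _ D hDp,
        show g₃ ^ 3 = g₃ * (g₃ * g₃) by ring, syG.mul_left _ _ D hDp, syG.mul_left _ _ D hDp]
      have := syG.cube g₃ D hDp cg₃
      calc sy g₂ D * sy g₂ D * (sy g₃ D * (sy g₃ D * sy g₃ D)) * sy m D
          = sy g₂ D * sy g₂ D * (sy g₃ D ^ 3) * sy m D := by ring
        _ = _ := by rw [this]; ring
    have f2 : sy (E * τ * (m * (g₂ * B) ^ 2)) D =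
        sy E D * sy τ D * (sy m D * (sy g₂ D ^ 2 * sy B D ^ 2)) := by
      rw [syG.mul_left _ _ D hDp, syG.mul_left _ _ D hDp, syG.mul_left _ _ D hDp,
        show (g₂ * B) ^ 2 = g₂ * (g₂ * (B * B)) by ring, syG.mul_left _ _ D hDp,
        syG.mul_left _ _ D hDp, syG.mul_left _ _ D hDp]
      ring
    rw [f1, f2, hA]
    ring
  rw [Finset.sum_congr rfl key, ← Finset.mul_sum, norm_mul]
  exact mul_le_of_le_one_left (norm_nonneg _) hA1

end Crest.Agent.R017.MoF106
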