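import Crest.Agent.R017.MoF2_106
import Crest.Agent.R012.Lat_277

/-!
# Row 17, E2: the moment functional of helper440 and second moments of closed families, part 3

* `UU n = ⌊3 log nm n⌋`, `bk X u` : the blocks `UU n = u` of `S X`
* `mo_blk` : one block of the moment functional
* `MoF_blk` : the functional `MoF` summed over a block of `B`
-/

set_option autoImplicit false

noncomputable section

open MeasureTheory Finset
open scoped ComplexConjugate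

namespace Crest.Agent.R017.MoF106

open Crest.Agent.R012
open Eis CharSum852 Gauss880 LS2 CR2 MelSep811
open Crest.Agent.R012.Weight600 (osc norm_osc)
open Crest.Agent.R017.CM106 (CS TG FS sub)
open Crest.Agent.R017.TP320 (VC VG Fam SplitAt tw)
open Crest.Agent.R017.GR106 (CS_sq_eq)
open Crest.Agent.R017.E2440 (cT MoF)
open Crest.Agent.R017.H1401 (pb mem_pb)
open Div277 (tau dvs mem_dvs tau_le_rpow)

/-- the block number -/
def UU (n : Eis) : ℕ := ⌊3 * Real.log (nm n)⌋₊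

lemma UU_lo {n : Eis} (hn : IsPrim n) : (UU n : ℝ) / 3 ≤ Real.log (nm n) := by
  have h1 : 0 ≤ Real.log (nm n : ℝ) := Real.log_nonneg (by exact_mod_cast nm_pos.2 hn.ne_zero)
  have h2 : ((UU n : ℕ) : ℝ) ≤ 3 * Real.log (nm n) := Nat.floor_le (by positivity)
  linarith

lemma UU_hi (n : Eis) : Real.log (nm n) ≤ (UU n : ℝ) / 3 + 1 / 3 := by
  have h2 : 3 * Real.log (nm n) < (UU n : ℝ) + 1 := Nat.lt_floor_add_one _
  linarith

open Classical in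
/-- the blocks -/
def bk (X : ℝ) (u : ℕ) : Finset Eis := (S X).filter (fun n => UU n = u)

lemma mem_bk {X : ℝ} (hX : 0 ≤ X) {u : ℕ} {n : Eis} :
    n ∈ bk X u ↔ ((nm n : ℝ) ≤ X ∧ IsPrim n ∧ Squarefree n) ∧ UU n = u := by
  unfold bk
  rw [Finset.mem_filter, mem_S hX]

lemma bk_lo {X : ℝ} (hX : 0 ≤ X) {u : ℕ} {n : Eis} (h : n ∈ bk X u) :
    (u : ℝ) / 3 ≤ Real.log (nm n) := by
  rw [mem_bk hX] at h
  rw [← h.2]; exact UU_lo h.1.2.1

lemma bk_hi {X : ℝ} (hX : 0 ≤ X) {u : ℕ} {n : Eis} (h : n ∈ bk X u) :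
    Real.log (nm n) ≤ (u : ℝ) / 3 + 1 / 3 := by
  rw [mem_bk hX] at h
  rw [← h.2]; exact UU_hi n

lemma bk_prim {X : ℝ} (hX : 0 ≤ X) {u : ℕ} {n : Eis} (h : n ∈ bk X u) : IsPrim n :=
  ((mem_bk hX).1 h).1.2.1

lemma bk_nm_le {X : ℝ} (hX : 0 ≤ X) {u : ℕ} {n : Eis} (h : n ∈ bk X u) :
    (nm n : ℝ) ≤ Real.exp ((u : ℝ) / 3 + 1 / 3) := by
  have h0 : (0 : ℝ) < nm n := by exact_mod_cast nm_pos.2 (bk_prim hX h).ne_zero
  rw [← Real.log_le_iff_le_exp h0]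
  exact bk_hi hX h

lemma bk_nm_ge {X : ℝ} (hX : 0 ≤ X) {u : ℕ} {n : Eis} (h : n ∈ bk X u) :
    Real.exp ((u : ℝ) / 3) ≤ (nm n : ℝ) := by
  have h0 : (0 : ℝ) < nm n := by exact_mod_cast nm_pos.2 (bk_prim hX h).ne_zero
  rw [← Real.le_log_iff_exp_le h0]
  exact bk_lo hX h

lemma card_bk {X : ℝ} (hX : 0 ≤ X) (u : ℕ) :
    ((bk X u).card : ℝ) ≤ 200 * Real.exp ((u : ℝ) / 3) := by
  classical
  set Y : ℝ := Real.exp ((u : ℝ) / 3 + 1 / 3) with hY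
  have h1 : (bk X u).card ≤ (primBall ⌊Y⌋₊).card := by
    refine Finset.card_le_card fun n hn => ?_
    rw [mem_primBall]
    exact ⟨Nat.le_floor (bk_nm_le hX hn), bk_prim hX hn⟩
  have h2 : ((primBall ⌊Y⌋₊).card : ℝ) ≤ 100 * ((⌊Y⌋₊ : ℕ) : ℝ) := Lat277.card_primBall_le ⌊Y⌋₊
  have h3 : ((⌊Y⌋₊ : ℕ) : ℝ) ≤ Y := Nat.floor_le (Real.exp_pos _).le
  have h1' : ((bk X u).card : ℝ) ≤ ((primBall ⌊Y⌋₊).card : ℝ) := by exact_mod_cast h1
  have h4 : Y ≤ 2 * Real.exp ((u : ℝ) / 3) := by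
    rw [hY, Real.exp_add]
    have : Real.exp (1 / 3 : ℝ) ≤ 2 := by
      have h5 : Real.exp (1 / 3 : ℝ) ^ 3 = Real.exp 1 := by
        rw [← Real.exp_nat_mul]; norm_num
      have h6 : Real.exp 1 < 8 := lt_trans Real.exp_one_lt_d9 (by norm_num)
      by_contra h7
      push Not at h7
      have h8 : (2 : ℝ) ^ 3 ≤ Real.exp (1 / 3 : ℝ) ^ 3 := pow_le_pow_left₀ (by norm_num) h7.le 3
      rw [h5] at h8
      linarith
    have h9 := Real.exp_pos ((u : ℝ) / 3)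
    nlinarith
  linarith

lemma bk_empty {X : ℝ} (hX : 1 ≤ X) {u : ℕ} (h : ⌊3 * Real.log X⌋₊ < u) : bk X u = ∅ := by
  rw [Finset.eq_empty_iff_forall_notMem]
  intro n hn
  have hX0 : 0 ≤ X := by linarith
  obtain ⟨⟨h1, h2, -⟩, h3⟩ := (mem_bk hX0).1 hn
  have h0 : (0 : ℝ) < nm n := by exact_mod_cast nm_pos.2 h2.ne_zero
  have h4 : UU n ≤ ⌊3 * Real.log X⌋₊ := by
    unfold UU
    apply Nat.floor_le_floor
    have := Real.log_le_log h0 h1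
    linarith
  omega

/-- decomposition into blocks -/
lemma sum_bk {X : ℝ} (hX : 1 ≤ X) (f : Eis → ℝ) :
    ∑ n ∈ S X, f n = ∑ u ∈ Finset.range (⌊3 * Real.log X⌋₊ + 1), ∑ n ∈ bk X u, f n := by
  classical
  have hX0 : 0 ≤ X := by linarith
  unfold bk
  rw [Finset.sum_fiberwise_of_maps_to]
  intro n hn
  rw [Finset.mem_range]
  by_contra h
  push Not at h
  have h1 : n ∈ bk X (UU n) := by
    unfold bk
    exact Finset.mem_filter.2 ⟨hn, rfl⟩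
  rw [bk_empty hX (by omega)] at h1
  exact absurd h1 (Finset.notMem_empty n)

open Classical in
/-- the index set of a block -/
def Ib (T : Finset Eis) (X Z : ℝ) (u v w : ℕ) (P : Eis → Eis → Eis → Eis → Eis → Prop) :
    Finset I5 :=
  (T ×ˢ (bk X u) ×ˢ (bk X v) ×ˢ (bk X w) ×ˢ (pb Z)).filter
    (fun x => x.2.2.1 ^ 2 * x.2.2.2.1 ^ 3 * x.2.2.2.2 ∈ pb Z ∧
      P x.1 x.2.1 x.2.2.1 x.2.2.2.1 (x.2.2.1 ^ 2 * x.2.2.2.1 ^ 3 * x.2.2.2.2))

open Classical in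
/-- the sum over `d` as a sum over `m`, `d = g₂² g₃³ m` -/
lemma sum_d_le {Z : ℝ} (hZ : 0 ≤ Z) {g₂ g₃ : Eis} (hg₂ : IsPrim g₂) (hg₃ : IsPrim g₃)
    {P : Eis → Prop} (hP : ∀ d, P d → g₂ ^ 2 * g₃ ^ 3 ∣ d) (F : Eis → ℝ) (hF : ∀ d, 0 ≤ F d) :
    ∑ d ∈ (pb Z).filter P, F d ≤ ∑ m ∈ (pb Z).filter (fun m => g₂ ^ 2 * g₃ ^ 3 * m ∈ pb Z ∧
      P (g₂ ^ 2 * g₃ ^ 3 * m)), F (g₂ ^ 2 * g₃ ^ 3 * m) := by
  set g : Eis := g₂ ^ 2 * g₃ ^ 3 with hg
  have hgp : IsPrim g := (hg₂.pow 2).mul (hg₃.pow 3)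
  rw [← Finset.sum_image (f := F) (g := fun m => g * m)
    (fun x _ y _ h => mul_left_cancel₀ hgp.ne_zero h)]
  refine Finset.sum_le_sum_of_subset_of_nonneg (fun d hd => ?_) fun d _ _ => hF d
  rw [Finset.mem_filter] at hd
  obtain ⟨m, hm⟩ := hP d hd.2
  have hdp := hd.1
  rw [mem_pb hZ] at hdp
  have hdP : IsPrim d := hdp.2
  have hmp : IsPrim m := IsPrim.of_mul_left (hm ▸ hdP) hgp
  rw [Finset.mem_image]
  refine ⟨m, ?_, hm.symm⟩
  rw [Finset.mem_filter, ← hm]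
  refine ⟨?_, hd.1, hd.2⟩
  rw [mem_pb hZ]
  refine ⟨?_, hmp⟩
  have h1 : (1 : ℝ) ≤ nm g := by exact_mod_cast nm_pos.2 hgp.ne_zero
  have h2 : (nm d : ℝ) ≤ Z := hdp.1
  rw [hm, nm_mul, Nat.cast_mul] at h2
  have h3 : (0 : ℝ) ≤ nm m := Nat.cast_nonneg _
  nlinarith

open Classical in
/-- **one block of the moment functional** -/
theorem mo_blk {J : Type} {Φ : Fam J} {R A : ℝ} (hΦ : Φ.Ok R A) {ε : ℝ} (hε : 0 < ε) :
    ∃ C : ℝ, 1 ≤ C ∧ ∀ (j : J) (γ q g₀ δ E τ : Eis), IsPrim γ → Squarefree γ → IsPrim g₀ →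
      E ≠ 0 → τ ≠ 0 →
      ∀ (T : Finset Eis) (Y : ℝ), (∀ y ∈ T, IsPrim y ∧ (nm y : ℝ) ≤ Y) →
      ∀ (u v w : ℕ) (X Z t : ℝ), 0 ≤ X → 0 ≤ Z →
      ∀ (P : Eis → Eis → Eis → Eis → Eis → Prop) (Q : Eis → Prop),
      (∀ y B g₂ g₃ d, P y B g₂ g₃ d → g₂ ^ 2 * g₃ ^ 3 ∣ d) →
      (∀ y ∈ T, ∀ B ∈ bk X u, ∀ g₂ ∈ bk X v, ∀ g₃ ∈ bk X w, ∀ m, IsPrim m →
        P y B g₂ g₃ (g₂ ^ 2 * g₃ ^ 3 * m) → Q (E * y * τ * (m * (g₂ * B) ^ 2))) →
      ∀ Λ : ℝ, 0 ≤ Λ →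
      (nm (E * τ) : ℝ) * Y * Z * Real.exp (2 * ((u : ℝ) / 3 + 1 / 3) - w) ≤ Λ →
      ∀ M : ℝ, 0 ≤ M →
      (∀ h ∈ dvs γ, ∀ j', Φ.good j' → Φ.dom R j' j →
        Φ.len j' ≤ Φ.len j - (Real.log (nm g₀) + ((u : ℝ) / 3 + v / 3 + w / 3) -
          Real.log (nm h)) + R →
        Φ.len j - (Real.log (nm g₀) + ((u : ℝ) / 3 + v / 3 + w / 3) -
          Real.log (nm h)) - R - 1 ≤ Φ.len j' →
        ∀ g₃ ∈ bk X w,
        ∑ r ∈ (bl Λ).filter Q, ‖CS (TP320.sq (q * (δ * (g₀ * γ)) * g₃) (Φ.w j')) r‖ ^ 2 ≤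
          M * Φ.ht j' ^ 2) →
      ∑ y ∈ T, ∑ B ∈ bk X u, ∑ g₂ ∈ bk X v, ∑ g₃ ∈ bk X w,
        ∑ d ∈ (pb Z).filter (P y B g₂ g₃),
        ‖CS (sub (cT (aG γ q g₀ δ (Φ.w j)) (E * y) B τ t) (g₂ * g₃)) d‖ ^ 2 ≤
        C * (nm γ * (nm g₀ * Real.exp ((u : ℝ) / 3 + v / 3 + w / 3)) * (1 + Λ)) ^ ε *
          (1 + |t|) ^ (2 * A) * Real.exp ((w : ℝ) / 3) * M * Φ.ht j ^ 2 := by
  obtain ⟨C₁, hC₁, hs⟩ := mo_split hΦ hε
  have hε4 : 0 < ε / 3 := by linarith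
  obtain ⟨C₂, hC₂, hτ⟩ := tau_le_rpow hε4
  refine ⟨C₁ * (200 * C₂ ^ 3), by nlinarith [one_le_pow₀ (n := 3) hC₂], ?_⟩
  intro j γ q g₀ δ E τ hγ hγs hg₀ hE0 hτ0 T Y hT u v w X Z t hX hZ P Q hP hQ Λ hΛ0 hΛ M hM hyp
  set I := Ib T X Z u v w P with hI
  set α : ℝ := (u : ℝ) / 3 + v / 3 + w / 3 with hα
  have hα0 : 0 ≤ α := by positivity
  have hImem : ∀ x ∈ I, (x.1 ∈ T ∧ x.2.1 ∈ bk X u ∧ x.2.2.1 ∈ bk X v ∧ x.2.2.2.1 ∈ bk X w ∧
      x.2.2.2.2 ∈ pb Z) ∧ x.2.2.1 ^ 2 * x.2.2.2.1 ^ 3 * x.2.2.2.2 ∈ pb Z ∧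
      P x.1 x.2.1 x.2.2.1 x.2.2.2.1 (x.2.2.1 ^ 2 * x.2.2.2.1 ^ 3 * x.2.2.2.2) := by
    intro x hx
    rw [hI] at hx
    unfold Ib at hx
    rw [Finset.mem_filter, Finset.mem_product, Finset.mem_product, Finset.mem_product,
      Finset.mem_product] at hx
    exact hx
  -- step 1 : the sum over `m`
  have step1 : ∑ y ∈ T, ∑ B ∈ bk X u, ∑ g₂ ∈ bk X v, ∑ g₃ ∈ bk X w,
        ∑ d ∈ (pb Z).filter (P y B g₂ g₃),
        ‖CS (sub (cT (aG γ q g₀ δ (Φ.w j)) (E * y) B τ t) (g₂ * g₃)) d‖ ^ 2 ≤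
      ∑ x ∈ I, ‖CS (sub (cT (aG γ q g₀ δ (Φ.w j)) (E * x.1) x.2.1 τ t) (x.2.2.1 * x.2.2.2.1))
        (x.2.2.1 ^ 2 * x.2.2.2.1 ^ 3 * x.2.2.2.2)‖ ^ 2 := by
    rw [hI]
    unfold Ib
    rw [Finset.sum_filter, Finset.sum_product]
    refine Finset.sum_le_sum fun y _ => ?_
    rw [Finset.sum_product]
    refine Finset.sum_le_sum fun B _ => ?_
    rw [Finset.sum_product]
    refine Finset.sum_le_sum fun g₂ hg₂ => ?_
    rw [Finset.sum_product]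
    refine Finset.sum_le_sum fun g₃ hg₃ => ?_
    refine (sum_d_le hZ (bk_prim hX hg₂) (bk_prim hX hg₃) (hP y B g₂ g₃)
      (fun d => ‖CS (sub (cT (aG γ q g₀ δ (Φ.w j)) (E * y) B τ t) (g₂ * g₃)) d‖ ^ 2)
      fun _ => sq_nonneg _).trans ?_
    rw [Finset.sum_filter]
  refine step1.trans ?_
  -- the block
  have hBlk : Blk α I := by
    have hlog : ∀ x ∈ I, Real.log (nm (x.2.1 * (x.2.2.1 * x.2.2.2.1)) : ℝ) =
        Real.log (nm x.2.1) + (Real.log (nm x.2.2.1) + Real.log (nm x.2.2.2.1)) := by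
      intro x hx
      obtain ⟨⟨-, h1, h2, h3, -⟩, -⟩ := hImem x hx
      have e : ∀ n : Eis, IsPrim n → (nm n : ℝ) ≠ 0 := fun n hn => by
        exact_mod_cast (nm_pos.2 hn.ne_zero).ne'
      rw [nm_mul, nm_mul, Nat.cast_mul, Nat.cast_mul, Real.log_mul (e _ (bk_prim hX h1))
        (mul_ne_zero (e _ (bk_prim hX h2)) (e _ (bk_prim hX h3))),
        Real.log_mul (e _ (bk_prim hX h2)) (e _ (bk_prim hX h3))]
    refine ⟨fun x hx => bk_prim hX (hImem x hx).1.2.1,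
      fun x hx => bk_prim hX (hImem x hx).1.2.2.1,
      fun x hx => bk_prim hX (hImem x hx).1.2.2.2.1, fun x hx => ?_, fun x hx => ?_⟩
    · rw [hlog x hx]
      obtain ⟨⟨-, h1, h2, h3, -⟩, -⟩ := hImem x hx
      have a1 := bk_lo hX h1
      have a2 := bk_lo hX h2
      have a3 := bk_lo hX h3
      rw [hα]; linarith
    · rw [hlog x hx]
      obtain ⟨⟨-, h1, h2, h3, -⟩, -⟩ := hImem x hx
      have a1 := bk_hi hX h1
      have a2 := bk_hi hX h2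
      have a3 := bk_hi hX h3
      rw [hα]; linarith
  set D : ℝ := C₂ * Λ ^ (ε / 3) with hD
  have hD0 : 0 ≤ D := by positivity
  set M' : ℝ := 200 * Real.exp ((w : ℝ) / 3) * (D ^ 3 * M) with hM'
  have hM'0 : 0 ≤ M' := by positivity
  have h2 := hs j γ q g₀ δ E τ hγ hγs hg₀ α t I hα0 hBlk M' hM'0 ?_
  · refine h2.trans ?_
    have hg0p : (0 : ℝ) < nm g₀ := by exact_mod_cast nm_pos.2 hg₀.ne_zero
    have hγ0p : (0 : ℝ) < nm γ := by exact_mod_cast nm_pos.2 hγ.ne_zero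
    have e2 : D ^ 3 ≤ C₂ ^ 3 * (1 + Λ) ^ ε := by
      rw [hD, mul_pow, ← Real.rpow_natCast (Λ ^ (ε / 3)) 3, ← Real.rpow_mul hΛ0]
      have : (ε / 3) * ((3 : ℕ) : ℝ) = ε := by push_cast; ring
      rw [this]
      refine mul_le_mul_of_nonneg_left ?_ (by positivity)
      exact Real.rpow_le_rpow hΛ0 (by linarith) hε.le
    have e3 : (nm γ * (nm g₀ * Real.exp α) * (1 + Λ)) ^ ε =
        (nm γ * (nm g₀ * Real.exp α)) ^ ε * (1 + Λ) ^ ε :=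
      Real.mul_rpow (by positivity) (by linarith)
    rw [e3, hM']
    have hC₁0 : 0 ≤ C₁ := by linarith
    calc C₁ * (nm γ * (nm g₀ * Real.exp α)) ^ ε * (1 + |t|) ^ (2 * A) *
        (200 * Real.exp ((w : ℝ) / 3) * (D ^ 3 * M)) * Φ.ht j ^ 2
        = (C₁ * (nm γ * (nm g₀ * Real.exp α)) ^ ε * (1 + |t|) ^ (2 * A) * 200 *
          Real.exp ((w : ℝ) / 3) * M * Φ.ht j ^ 2) * D ^ 3 := by ring
      _ ≤ (C₁ * (nm γ * (nm g₀ * Real.exp α)) ^ ε * (1 + |t|) ^ (2 * A) * 200 *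
          Real.exp ((w : ℝ) / 3) * M * Φ.ht j ^ 2) * (C₂ ^ 3 * (1 + Λ) ^ ε) :=
          mul_le_mul_of_nonneg_left e2 (by positivity)
      _ = _ := by ring
  · intro h hh j' hg hd hl hl2
    have hht : 0 ≤ Φ.ht j' ^ 2 := sq_nonneg _
    set F : Eis → Eis → ℝ := fun g₃ r =>
      if Q r then ‖CS (TP320.sq (q * (δ * (g₀ * γ)) * g₃) (Φ.w j')) r‖ ^ 2 else 0 with hF
    have hF0 : ∀ g₃ r, 0 ≤ F g₃ r := by
      intro g₃ r
      simp only [hF]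
      split_ifs <;> positivity
    have e1 : ∑ x ∈ I, ‖CS (TP320.sq (q * (δ * (g₀ * γ)) * x.2.2.2.1) (Φ.w j'))
          (fr (E * x.1 * τ) x.2)‖ ^ 2 = ∑ x ∈ I, F x.2.2.2.1 (fr (E * x.1 * τ) x.2) := by
      refine Finset.sum_congr rfl fun x hx => ?_
      obtain ⟨⟨h0, h1, h2, h3, h4⟩, h5, h6⟩ := hImem x hx
      have hmp : IsPrim x.2.2.2.2 := ((mem_pb hZ).1 h4).2
      have hq : Q (fr (E * x.1 * τ) x.2) := by
        unfold fr
        exact hQ _ h0 _ h1 _ h2 _ h3 _ hmp h6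
      simp only [hF]
      rw [if_pos hq]
    have e2 : ∑ x ∈ I, F x.2.2.2.1 (fr (E * x.1 * τ) x.2) =
        ∑ g₃ ∈ bk X w, ∑ x ∈ I.filter (fun x => x.2.2.2.1 = g₃),
          F g₃ (fr (E * x.1 * τ) x.2) := by
      rw [← Finset.sum_fiberwise_of_maps_to (g := fun x : I5 => x.2.2.2.1)
        (fun x hx => (hImem x hx).1.2.2.2.1)]
      refine Finset.sum_congr rfl fun g₃ _ => ?_
      refine Finset.sum_congr rfl fun x hx => ?_
      rw [Finset.mem_filter] at hx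
      rw [hx.2]
    have e3 : ∀ g₃ ∈ bk X w, ∑ x ∈ I.filter (fun x => x.2.2.2.1 = g₃),
        F g₃ (fr (E * x.1 * τ) x.2) ≤ D ^ 3 * (M * Φ.ht j' ^ 2) := by
      intro g₃ hg₃
      set P3 : Finset (Eis × Eis × Eis × Eis) := (I.filter (fun x => x.2.2.2.1 = g₃)).image
        (fun x => (x.1, x.2.1, x.2.2.1, x.2.2.2.2)) with hP3
      have hinj : ∀ x ∈ I.filter (fun x => x.2.2.2.1 = g₃),
          ∀ y ∈ I.filter (fun x => x.2.2.2.1 = g₃),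
          (x.1, x.2.1, x.2.2.1, x.2.2.2.2) = (y.1, y.2.1, y.2.2.1, y.2.2.2.2) → x = y := by
        intro x hx y hy h
        rw [Finset.mem_filter] at hx hy
        simp only [Prod.mk.injEq] at h
        refine Prod.ext h.1 (Prod.ext h.2.1 (Prod.ext h.2.2.1 (Prod.ext ?_ h.2.2.2)))
        rw [hx.2, hy.2]
      have e4 : ∑ x ∈ I.filter (fun x => x.2.2.2.1 = g₃), F g₃ (fr (E * x.1 * τ) x.2) =
          ∑ p ∈ P3, F g₃ (E * p.1 * τ * (p.2.2.2 * (p.2.2.1 * p.2.1) ^ 2)) := by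
        rw [hP3, Finset.sum_image (fun x hx y hy h => hinj x hx y hy h)]
        rfl
      rw [e4]
      have h5 : ∑ p ∈ P3, F g₃ (E * p.1 * τ * (p.2.2.2 * (p.2.2.1 * p.2.1) ^ 2)) ≤
          ∑ r ∈ bl Λ, (tau r : ℝ) ^ 3 * F g₃ r := by
        refine merge5 hΛ0 P3 hE0 hτ0 ?_ (F g₃) (hF0 g₃)
        intro p hp
        rw [hP3, Finset.mem_image] at hp
        obtain ⟨x, hx, rfl⟩ := hp
        rw [Finset.mem_filter] at hx
        obtain ⟨⟨h0, h1, h2, h3, h4⟩, h6, -⟩ := hImem x hx.1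
        have p0 := (hT _ h0).1
        have p1 := bk_prim hX h1
        have p2 := bk_prim hX h2
        have p3 := bk_prim hX h3
        have p4 : IsPrim x.2.2.2.2 := ((mem_pb hZ).1 h4).2
        refine ⟨p0, p1, p2, ?_⟩
        rw [mem_bl hΛ0]
        refine ⟨mul_ne_zero (mul_ne_zero (mul_ne_zero hE0 p0.ne_zero) hτ0)
          (mul_ne_zero p4.ne_zero (pow_ne_zero 2 (mul_ne_zero p2.ne_zero p1.ne_zero))), ?_⟩
        refine le_trans ?_ hΛ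
        have b0' := (hT _ h0).2
        have b1 := bk_nm_le hX h1
        have b3 := bk_nm_ge hX h3
        have b6 : (nm (x.2.2.1 ^ 2 * x.2.2.2.1 ^ 3 * x.2.2.2.2) : ℝ) ≤ Z :=
          ((mem_pb hZ).1 h6).1
        rw [nm_mul, nm_mul, nm_pow, nm_pow] at b6
        push_cast at b6
        have enm : (nm (E * x.1 * τ * (x.2.2.2.2 * (x.2.2.1 * x.2.1) ^ 2)) : ℝ) =
            (nm (E * τ) : ℝ) * nm x.1 *
              ((nm x.2.2.2.2 : ℝ) * ((nm x.2.2.1 : ℝ) * nm x.2.1) ^ 2) := by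
          rw [nm_mul (E * x.1 * τ), nm_mul (E * x.1), nm_mul E x.1, nm_mul E τ,
            nm_mul x.2.2.2.2, nm_pow (x.2.2.1 * x.2.1), nm_mul x.2.2.1]
          push_cast
          ring
        show (nm (E * x.1 * τ * (x.2.2.2.2 * (x.2.2.1 * x.2.1) ^ 2)) : ℝ) ≤ _
        rw [enm]
        set a : ℝ := (nm x.1 : ℝ)
        set b : ℝ := (nm x.2.1 : ℝ)
        set g : ℝ := (nm x.2.2.1 : ℝ)
        set c : ℝ := (nm x.2.2.2.1 : ℝ) with hc
        set m : ℝ := (nm x.2.2.2.2 : ℝ)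
        set k : ℝ := (nm (E * τ) : ℝ)
        have a0 : 0 ≤ a := Nat.cast_nonneg _
        have b0 : 0 ≤ b := Nat.cast_nonneg _
        have g0 : 0 ≤ g := Nat.cast_nonneg _
        have c1 : 1 ≤ c := by
          rw [hc]; exact_mod_cast nm_pos.2 p3.ne_zero
        have m0 : 0 ≤ m := Nat.cast_nonneg _
        have k0 : 0 ≤ k := Nat.cast_nonneg _
        have c3 : Real.exp (w : ℝ) ≤ c ^ 3 := by
          have := pow_le_pow_left₀ (Real.exp_pos _).le b3 3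
          rw [← Real.exp_nat_mul] at this
          have e : ((3 : ℕ) : ℝ) * ((w : ℝ) / 3) = w := by push_cast; ring
          rwa [e] at this
        have b2 : b ^ 2 ≤ Real.exp (2 * ((u : ℝ) / 3 + 1 / 3)) := by
          have := pow_le_pow_left₀ b0 b1 2
          rw [← Real.exp_nat_mul] at this
          simpa using this
        rw [Real.exp_sub]
        have m1 : g ^ 2 * m ≤ Z / Real.exp (w : ℝ) := by
          rw [le_div_iff₀ (Real.exp_pos _)]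
          calc g ^ 2 * m * Real.exp (w : ℝ) ≤ g ^ 2 * m * c ^ 3 :=
                mul_le_mul_of_nonneg_left c3 (by positivity)
            _ = g ^ 2 * c ^ 3 * m := by ring
            _ ≤ Z := b6
        have hY0 : 0 ≤ Y := a0.trans b0'
        calc k * a * (m * (g * b) ^ 2) = (k * a) * ((g ^ 2 * m) * b ^ 2) := by ring
          _ ≤ (k * Y) * ((Z / Real.exp (w : ℝ)) * Real.exp (2 * ((u : ℝ) / 3 + 1 / 3))) := by
              refine mul_le_mul (mul_le_mul_of_nonneg_left b0' k0) ?_ (by positivity)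
                (by positivity)
              exact mul_le_mul m1 b2 (by positivity) (by positivity)
          _ = k * Y * Z * (Real.exp (2 * ((u : ℝ) / 3 + 1 / 3)) / Real.exp (w : ℝ)) := by ring
      refine h5.trans ?_
      have h6 : ∑ r ∈ bl Λ, (tau r : ℝ) ^ 3 * F g₃ r ≤ ∑ r ∈ bl Λ, D ^ 3 * F g₃ r := by
        refine Finset.sum_le_sum fun r hr => ?_
        refine mul_le_mul_of_nonneg_right ?_ (hF0 g₃ r)
        rw [mem_bl hΛ0] at hr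
        refine pow_le_pow_left₀ (Nat.cast_nonneg _) ?_ 3
        refine (hτ r hr.1).trans ?_
        exact mul_le_mul_of_nonneg_left (Real.rpow_le_rpow (Nat.cast_nonneg _) hr.2 hε4.le)
          (by linarith)
      refine h6.trans ?_
      rw [← Finset.mul_sum]
      refine mul_le_mul_of_nonneg_left ?_ (by positivity)
      simp only [hF]
      rw [← Finset.sum_filter]
      exact hyp h hh j' hg hd hl hl2 g₃ hg₃
    rw [e1, e2]
    refine (Finset.sum_le_sum e3).trans ?_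
    rw [Finset.sum_const, nsmul_eq_mul, hM']
    calc ((bk X w).card : ℝ) * (D ^ 3 * (M * Φ.ht j' ^ 2))
        ≤ (200 * Real.exp ((w : ℝ) / 3)) * (D ^ 3 * (M * Φ.ht j' ^ 2)) :=
          mul_le_mul_of_nonneg_right (card_bk hX w) (by positivity)
      _ = _ := by ring

end Crest.Agent.R017.MoF106
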