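import Crest.Agent.R017.MoF4_106
import Crest.Agent.R017.E2l_440

/-!
# Row 17, E2: the direct side `MT` of helper440 and second moments of closed families

* `MTs` : `MT` with a height, `MTs_le` : the linear form after taking out the fixed divisor
* `mt_split` : one block of `(J, B, r)`, `mt_blk` : the same, merged
* `MT_win` : windows
-/

set_option autoImplicit false

noncomputable section

open MeasureTheory Finset Filter
open scoped ComplexConjugate

namespace Crest.Agent.R017.MoF106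

open Crest.Agent.R012
open Eis CharSum852 Gauss880 LS2 CR2 MelSep811
open Crest.Agent.R012.Weight600 (osc norm_osc pw)
open Crest.Agent.R017.CM106 (CS TG FS sub)
open Crest.Agent.R017.TP320 (VC VG Fam SplitAt tw)
open Crest.Agent.R017.E2440 (MT)
open Crest.Agent.R017.PX764 (Gh n6 Gh_mul n6_mul norm_Gh_one Gh_zero Gh_not_sqf)
open Crest.Agent.R017.Win813 (ew ew_nonneg iA iA_nonneg WK HF HW wn integrable_base integrable_ew)
open Div277 (tau dvs mem_dvs tau_le_rpow)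

/-- the polar inner sum with a height -/
def MTs (α : Eis → ℂ) (E B σ r : Eis) (s : ℝ) : ℂ :=
  ∑' D : Eis, α (B * D) * (sy E D * conj (sy D B)) * ((n6 D : ℂ) * Gh (σ * r) D) *
    pw s (nm D)

lemma MTs_zero (α : Eis → ℂ) (E B σ r : Eis) : MTs α E B σ r 0 = MT α E B σ r := by
  unfold MTs E2440.MT
  refine tsum_congr fun D => ?_
  rw [Weight600.pw_zero_left, mul_one]

open Classical in
/-- the coefficients -/
def dM (q κ b : Eis) : ℂ :=
  if IsPrim b ∧ Squarefree b ∧ IsCoprime b q then G b * conj (sy κ b) else 0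

lemma dM_ne {q κ b : Eis} (h : dM q κ b ≠ 0) :
    IsPrim b ∧ Squarefree b ∧ IsCoprime b q ∧ IsCoprime κ b := by
  unfold dM at h
  split_ifs at h with h1
  · refine ⟨h1.1, h1.2.1, h1.2.2, ?_⟩
    by_contra h2
    apply h
    rw [(syG.eq_zero _ b h1.1).2 h2, map_zero, mul_zero]
  · exact absurd rfl h

lemma TG_sq_eq {w : Eis → ℂ} {q : Eis} {X : ℝ}
    (hw : ∀ b, w b ≠ 0 → IsPrim b → Squarefree b → b ∈ S X) (κ : Eis) :
    ∑ b ∈ S X, w b * dM q κ b = TG (TP320.sq q w) κ := by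
  unfold CM106.TG
  symm
  have e : ∀ b, TP320.sq q w b * (G b * conj (sy κ b)) = w b * dM q κ b := by
    intro b
    unfold TP320.sq dM
    split_ifs <;> simp
  rw [tsum_congr e]
  apply tsum_eq_sum
  intro b hb
  by_contra h0
  have h1 := dM_ne (right_ne_zero_of_mul h0)
  exact hb (hw b (left_ne_zero_of_mul h0) h1.1 h1.2.1)

lemma tw_sixth {b : Eis} (hb : b ≠ 0) (s : ℝ) : tw (1 / 6) s b = (n6 b : ℂ) * pw s (nm b) := by
  have hn : (0 : ℝ) < nm b := by exact_mod_cast nm_pos.2 hb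
  have hc : (nm b : ℂ) ≠ 0 := by exact_mod_cast hn.ne'
  unfold TP320.tw Weight600.pw Weight600.osc PX764.n6
  rw [Complex.cpow_add _ _ hc]
  congr 1
  · rw [Complex.ofReal_cpow hn.le]
    push_cast
    congr 1
    ring
  · rw [Complex.cpow_def_of_ne_zero hc]
    congr 1
    have e1 : Complex.log (nm b : ℂ) = ((Real.log (nm b) : ℝ) : ℂ) := by
      rw [← Complex.ofReal_natCast, ← Complex.ofReal_log hn.le]
    rw [e1]
    push_cast
    ring

lemma norm_n6_le {b : Eis} (hb : IsPrim b) : ‖((n6 b : ℝ) : ℂ)‖ ≤ 1 := by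
  have h1 : (1 : ℝ) ≤ nm b := by exact_mod_cast nm_pos.2 hb.ne_zero
  unfold PX764.n6
  rw [Complex.norm_real, Real.norm_of_nonneg (by positivity)]
  exact Real.rpow_le_one_of_one_le_of_nonpos h1 (by norm_num)

lemma norm_Gh_le' {h a : Eis} (ha : IsPrim a) : ‖Gh h a‖ ≤ 1 := by
  by_cases hs : Squarefree a
  · by_cases hc : IsCoprime h a
    · exact (norm_Gh_one ha hs hc).le
    · rw [Gh_zero ha hc, norm_zero]; exact zero_le_one
  · rw [Gh_not_sqf ha hs, norm_zero]; exact zero_le_one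

/-- **the polar sum, after taking out the fixed divisor** -/
theorem MTs_le {w : Eis → ℂ} {X : ℝ} (hX : 0 ≤ X)
    (hw : ∀ n, w n ≠ 0 → (nm n : ℝ) ≤ X) {γ h γ' q g₀ δ E B σ r a : Eis}
    (hh : IsPrim h) (hγ' : IsPrim γ') (hγ : γ = h * γ') (hap : IsPrim a)
    (hB : IsPrim B) (ha : g₀ * B = h * a) (haγ : IsCoprime a γ') (s : ℝ) :
    ‖MTs (aG γ q g₀ δ w) E B σ r s‖ ≤
      ‖∑ b ∈ S X, w (a * b) * tw (1 / 6) s b *
        dM (q * (δ * (g₀ * γ))) (σ * r * γ' * (E ^ 2 * B)) b‖ := by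
  classical
  have hγp : IsPrim γ := hγ ▸ hh.mul hγ'
  have hsy : ∀ x c : Eis, IsPrim c → ‖sy x c‖ ≤ 1 := fun x c hc => norm_sy_le syG hc
  set al : Eis → ℂ := aG γ q g₀ δ w with hal
  have eD : ∀ D', g₀ * (B * (γ' * D')) = γ * (a * D') := by
    intro D'
    calc g₀ * (B * (γ' * D')) = (g₀ * B) * (γ' * D') := by ring
      _ = (h * a) * (γ' * D') := by rw [ha]
      _ = γ * (a * D') := by rw [hγ]; ring
  have hval : ∀ D', al (B * (γ' * D')) =
      if IsCoprime (B * (γ' * D')) δ then TP320.sq (q * γ) w (a * D') else 0 := by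
    intro D'
    rw [hal]
    unfold aG
    rw [eD, dl_mul hγp.ne_zero]
  have hsupp : ∀ D, al (B * D) ≠ 0 → ∃ D', D = γ' * D' := by
    intro D hD
    obtain ⟨_, c, h1, h2, _⟩ := aG_ne hγp.ne_zero hD
    have h3 : a * D = γ' * c := by
      apply mul_left_cancel₀ hh.ne_zero
      calc h * (a * D) = (h * a) * D := by ring
        _ = g₀ * (B * D) := by rw [← ha]; ring
        _ = γ * c := h1
        _ = h * (γ' * c) := by rw [hγ]; ring
    have h4 : γ' ∣ D := haγ.symm.dvd_of_dvd_mul_left (h3 ▸ dvd_mul_right _ _)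
    obtain ⟨D', hD'⟩ := h4
    exact ⟨D', hD'⟩
  set F : Eis → ℂ := fun D => al (B * D) * (sy E D * conj (sy D B)) *
    ((n6 D : ℂ) * Gh (σ * r) D) * pw s (nm D) with hF
  have e0 : MTs al E B σ r s = ∑ D ∈ S X, F (γ' * D) := by
    unfold MTs
    have hinj : Function.Injective (fun D : Eis => γ' * D) := fun x y h =>
      mul_left_cancel₀ hγ'.ne_zero h
    have hsup : Function.support F ⊆ Set.range (fun D : Eis => γ' * D) := by
      intro D hD
      rw [Function.mem_support] at hD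
      have h1 : al (B * D) ≠ 0 := by
        intro h0
        apply hD
        simp only [hF]
        rw [h0]; ring
      obtain ⟨D', hD'⟩ := hsupp D h1
      exact ⟨D', hD'.symm⟩
    show ∑' D, F D = _
    rw [← hinj.tsum_eq hsup]
    apply tsum_eq_sum
    intro D hD
    have h1 : al (B * (γ' * D)) = 0 := by
      rw [hval]
      split_ifs with h2
      · unfold TP320.sq
        split_ifs with h3
        · by_contra h0
          apply hD
          have h4 : IsPrim D := IsPrim.of_mul_left h3.1 hap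
          rw [mem_S hX]
          refine ⟨?_, h4, h3.2.1.squarefree_of_dvd (dvd_mul_left _ _)⟩
          have h5 := hw _ h0
          have h6 := Div277.nm_le_of_dvd h3.1.ne_zero (dvd_mul_left D a)
          exact le_trans (by exact_mod_cast h6) h5
        · rfl
      · rfl
    simp only [hF]
    rw [h1]
    ring
  rw [e0]
  by_cases hsf : Squarefree a ∧ IsCoprime a (q * γ) ∧ IsCoprime (B * γ') δ
  swap
  · have : ∑ D ∈ S X, F (γ' * D) = 0 := by
      refine Finset.sum_eq_zero fun D _ => ?_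
      have e1 : al (B * (γ' * D)) = 0 := by
        rw [hval]
        split_ifs with h2
        · unfold TP320.sq
          rw [if_neg]
          rintro ⟨_, h3, h4⟩
          apply hsf
          refine ⟨h3.squarefree_of_dvd (dvd_mul_right _ _), h4.of_mul_left_left, ?_⟩
          exact h2.of_isCoprime_of_dvd_left ⟨D, by ring⟩
        · rfl
      simp only [hF]
      rw [e1]
      ring
    rw [this, norm_zero]
    exact norm_nonneg _
  set A : ℂ := sy E γ' * conj (sy γ' B) * ((n6 γ' : ℂ) * Gh (σ * r) γ') * pw s (nm γ') with hA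
  have hA1 : ‖A‖ ≤ 1 := by
    rw [hA, norm_mul, norm_mul, norm_mul, norm_mul, Weight600.norm_pw, mul_one, RCLike.norm_conj]
    have h1 := hsy E γ' hγ'
    have h2 := hsy γ' B hB
    have h3 := norm_n6_le hγ'
    have h4 := norm_Gh_le' (h := σ * r) hγ'
    have n1 := norm_nonneg (sy E γ')
    have n2 := norm_nonneg (sy γ' B)
    have n3 := norm_nonneg ((n6 γ' : ℝ) : ℂ)
    have n4 := norm_nonneg (Gh (σ * r) γ')
    calc ‖sy E γ'‖ * ‖sy γ' B‖ * (‖((n6 γ' : ℝ) : ℂ)‖ * ‖Gh (σ * r) γ'‖) ≤ 1 * 1 * (1 * 1) := by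
          gcongr
      _ = 1 := by ring
  have key : ∀ D ∈ S X, F (γ' * D) = A * (w (a * D) * tw (1 / 6) s D *
      dM (q * (δ * (g₀ * γ))) (σ * r * γ' * (E ^ 2 * B)) D) := by
    intro D hD
    have hD' := (mem_S hX).1 hD
    have hDp := hD'.2.1
    by_cases hall : w (a * D) ≠ 0 ∧ IsCoprime a D ∧ IsCoprime D (q * γ) ∧ IsCoprime D δ
    swap
    · -- both sides vanish
      have h1 : al (B * (γ' * D)) = 0 := by
        by_contra h0
        apply hall
        rw [hval] at h0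
        split_ifs at h0 with h2
        · unfold TP320.sq at h0
          split_ifs at h0 with h3
          · refine ⟨h0, PG106.cop_of_sqf h3.2.1, h3.2.2.of_mul_left_right, ?_⟩
            exact h2.of_isCoprime_of_dvd_left ⟨B * γ', by ring⟩
          · exact absurd rfl h0
        · exact absurd rfl h0
      have h2 : w (a * D) * tw (1 / 6) s D *
          dM (q * (δ * (g₀ * γ))) (σ * r * γ' * (E ^ 2 * B)) D = 0 := by
        by_contra h3
        apply hall
        have h5 : w (a * D) ≠ 0 := left_ne_zero_of_mul (left_ne_zero_of_mul h3)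
        obtain ⟨-, -, h8, h7⟩ := dM_ne (right_ne_zero_of_mul h3)
        have hB' : IsCoprime B D := h7.of_mul_left_right.of_mul_left_right
        have h9 : IsCoprime (g₀ * B) D :=
          h8.of_mul_right_right.of_mul_right_right.of_mul_right_left.symm.mul_left hB'
        rw [ha] at h9
        exact ⟨h5, h9.of_mul_left_right,
          h8.of_mul_right_left.mul_right
            h8.of_mul_right_right.of_mul_right_right.of_mul_right_right,
          h8.of_mul_right_right.of_mul_right_left⟩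
      simp only [hF]
      rw [h1, h2]
      ring
    obtain ⟨_, hcopa, hqγ, hδ⟩ := hall
    have hq : IsCoprime D q := hqγ.of_mul_right_left
    have hDγ : IsCoprime D γ := hqγ.of_mul_right_right
    have hcop0 : IsCoprime (g₀ * B) D := by
      rw [ha]
      refine IsCoprime.mul_left ?_ hcopa
      rw [hγ] at hDγ
      exact hDγ.of_mul_right_left.symm
    have c0 : IsCoprime g₀ D := hcop0.of_mul_left_left
    have cB : IsCoprime B D := hcop0.of_mul_left_right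
    have h1 : al (B * (γ' * D)) = w (a * D) := by
      rw [hval, if_pos]
      · unfold TP320.sq
        rw [if_pos]
        exact ⟨hap.mul hDp, squarefree_mul_iff.mpr ⟨hcopa.isRelPrime, hsf.1, hD'.2.2⟩,
          hsf.2.1.mul_left hqγ⟩
      · have e : B * (γ' * D) = (B * γ') * D := by ring
        rw [e]
        exact hsf.2.2.mul_left hδ
    have h2 : dM (q * (δ * (g₀ * γ))) (σ * r * γ' * (E ^ 2 * B)) D =
        G D * conj (sy (σ * r * γ' * (E ^ 2 * B)) D) := by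
      unfold dM
      rw [if_pos]
      exact ⟨hDp, hD'.2.2, hq.mul_right (hδ.mul_right (c0.symm.mul_right hDγ))⟩
    have hpw : pw s (nm (γ' * D)) = pw s (nm γ') * pw s (nm D) :=
      Win813.pw_split hγ'.ne_zero hDp.ne_zero s
    have hn6 : n6 (γ' * D) = n6 γ' * n6 D := n6_mul γ' D
    simp only [hF]
    rw [h1, h2, tw_sixth hDp.ne_zero, hpw, hn6, Gh_mul hγ' hDp, syG.mul_left γ' D B hB,
      syG.mul_right E γ' D hγ' hDp, map_mul, syG.recip D B hDp hB]
    have f1 : Gh (σ * r * γ') D * (sy E D * conj (sy B D)) =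
        G D * conj (sy (σ * r * γ' * (E ^ 2 * B)) D) := by
      unfold PX764.Gh
      rw [syG.mul_left (σ * r * γ') (E ^ 2 * B) D hDp, syG.mul_left (E ^ 2) B D hDp, pow_two,
        syG.mul_left E E D hDp, map_mul, map_mul, map_mul]
      by_cases hE : IsCoprime E D
      · have h3 : conj (sy E D) * conj (sy E D) = sy E D := by
          have h4 := sy_sq_eq_conj syG (x := E) hDp
          rw [← pow_two, ← map_pow, h4, Complex.conj_conj]
        rw [h3]
        ring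
      · rw [(syG.eq_zero E D hDp).2 hE]
        simp
    rw [hA]
    push_cast
    calc w (a * D) * (sy E γ' * sy E D * (conj (sy γ' B) * conj (sy B D))) *
          ((n6 γ' : ℂ) * (n6 D : ℂ) * (Gh (σ * r) γ' * Gh (σ * r * γ') D)) *
          (pw s (nm γ') * pw s (nm D))
        = (sy E γ' * conj (sy γ' B) * ((n6 γ' : ℂ) * Gh (σ * r) γ') * pw s (nm γ')) *
          (w (a * D) * ((n6 D : ℂ) * pw s (nm D)) *
            (Gh (σ * r * γ') D * (sy E D * conj (sy B D)))) := by ring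
      _ = _ := by rw [f1]
  rw [Finset.sum_congr rfl key, ← Finset.mul_sum, norm_mul]
  exact mul_le_of_le_one_left (norm_nonneg _) hA1

/-- the index `(J, B, r)` -/
abbrev I3 := Eis × Eis × Eis

/-- the frequency of the direct side -/
def frT (σ γ' E : Eis) (x : I3) : Eis := σ * x.2.2 * γ' * ((E * x.1) ^ 2 * x.2.1)

lemma cop_of_dM {q δ g₀ γ σ r γ' E B b : Eis}
    (h : dM (q * (δ * (g₀ * γ))) (σ * r * γ' * (E ^ 2 * B)) b ≠ 0) : IsCoprime (g₀ * B) b := by
  obtain ⟨-, -, h8, h7⟩ := dM_ne h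
  have hB' : IsCoprime B b := h7.of_mul_left_right.of_mul_left_right
  exact h8.of_mul_right_right.of_mul_right_right.of_mul_right_left.symm.mul_left hB'

/-- **one block of `(J, B, r)`**, fixed common part `h` -/
theorem mt_split_h {J : Type} {Φ : Fam J} {R A : ℝ} (hΦ : Φ.Ok R A) {ε : ℝ} (hε : 0 < ε) :
    ∃ C : ℝ, 1 ≤ C ∧ ∀ (j : J) (h γ' q g₀ δ E σ : Eis), IsPrim h → IsPrim γ' → IsPrim g₀ →
      ∀ (α s : ℝ) (I : Finset I3),
      (∀ x ∈ I, IsPrim x.2.1 ∧ α ≤ Real.log (nm x.2.1) ∧ Real.log (nm x.2.1) ≤ α + 1) →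
      (∀ x ∈ I, ∃ a, IsPrim a ∧ g₀ * x.2.1 = h * a ∧ IsCoprime a γ') →
      ∀ ℓ : ℝ, ℓ = Real.log (nm g₀) + α - Real.log (nm h) →
      ∀ M : ℝ, 0 ≤ M →
      (∀ j', Φ.good j' → Φ.dom R j' j → Φ.len j' ≤ Φ.len j - ℓ + R →
        Φ.len j - ℓ - R - 1 ≤ Φ.len j' →
        ∑ x ∈ I, ‖TG (TP320.sq (q * (δ * (g₀ * (h * γ')))) (Φ.w j')) (frT σ γ' E x)‖ ^ 2 ≤
          M * Φ.ht j' ^ 2) →
      ∑ x ∈ I, ‖MTs (aG (h * γ') q g₀ δ (Φ.w j)) (E * x.1) x.2.1 σ x.2.2 s‖ ^ 2 ≤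
        C * Real.exp (ε * |ℓ|) * Real.exp (-(1 / 3) * (Φ.len j - ℓ)) * (1 + |s|) ^ (2 * A) *
          M * Φ.ht j ^ 2 := by
  classical
  obtain ⟨C, hC, hs⟩ := hΦ.split (ε / 2) (1 / 6) (by linarith)
  refine ⟨C ^ 2, one_le_pow₀ hC, ?_⟩
  intro j h γ' q g₀ δ E σ hh hγ' hg₀ α₀ s I hI hCg α hα M hM hyp
  have hht : ∀ j, 0 ≤ Φ.ht j := fun j => zero_le_one.trans (hΦ.ht1 j)
  have hR := hΦ.R0
  choose! a hap hae hac using hCg
  -- one large support
  have hsupp : ∀ j' : J, ∀ b, Φ.w j' b ≠ 0 → (nm b : ℝ) ≤ Real.exp (Φ.len j' + R) := by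
    intro j' b hb
    have hb0 : (0 : ℝ) < nm b := by exact_mod_cast nm_pos.2 (hΦ.prim j' b hb).ne_zero
    rw [← Real.log_le_iff_le_exp hb0]
    have := (abs_le.1 (hΦ.supp j' b hb)).2
    linarith
  set X₁ : ℝ := Real.exp (|Φ.len j| + |α| + 2 * R) with hX₁
  have hX₁0 : 0 ≤ X₁ := (Real.exp_pos _).le
  have hw1 : ∀ n, Φ.w j n ≠ 0 → (nm n : ℝ) ≤ X₁ := fun n hn => (hsupp j n hn).trans
    (Real.exp_le_exp.2 (by have := le_abs_self (Φ.len j); have := abs_nonneg α; linarith))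
  have h1 : ∑ x ∈ I, ‖MTs (aG (h * γ') q g₀ δ (Φ.w j)) (E * x.1) x.2.1 σ x.2.2 s‖ ^ 2 ≤
      ∑ x ∈ I, (fun _ : I3 => (1 : ℝ)) x *
        ‖∑ b ∈ S X₁, Φ.w j (a x * b) *
        tw (1 / 6) s b * dM (q * (δ * (g₀ * (h * γ')))) (frT σ γ' E x) b‖ ^ 2 := by
    refine Finset.sum_le_sum fun x hx => ?_
    rw [one_mul]
    refine pow_le_pow_left₀ (norm_nonneg _) ?_ 2
    exact MTs_le hX₁0 hw1 hh hγ' rfl (hap x hx) (hI x hx).1 (hae x hx) (hac x hx) s
  refine h1.trans ?_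
  have hlog : ∀ x ∈ I, Real.log (nm (a x) : ℝ) =
      Real.log (nm g₀) + Real.log (nm x.2.1) - Real.log (nm h) := by
    intro x hx
    have a1 : (nm g₀ : ℝ) ≠ 0 := by exact_mod_cast (nm_pos.2 hg₀.ne_zero).ne'
    have a2 : (nm x.2.1 : ℝ) ≠ 0 := by exact_mod_cast (nm_pos.2 (hI x hx).1.ne_zero).ne'
    have a3 : (nm h : ℝ) ≠ 0 := by exact_mod_cast (nm_pos.2 hh.ne_zero).ne'
    have a4 : (nm (a x) : ℝ) ≠ 0 := by exact_mod_cast (nm_pos.2 (hap x hx).ne_zero).ne'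
    have e1 := hae x hx
    have e2 : (nm g₀ : ℝ) * nm x.2.1 = nm h * nm (a x) := by
      have h5 : (nm (g₀ * x.2.1) : ℝ) = nm (h * a x) := by rw [e1]
      rwa [nm_mul g₀, nm_mul h, Nat.cast_mul, Nat.cast_mul] at h5
    have e3 := congrArg Real.log e2
    rw [Real.log_mul a1 a2, Real.log_mul a3 a4] at e3
    linarith
  have h2 := split_sq' hs I a (fun _ => 1)
    (fun _ _ => zero_le_one) (S X₁)
    (fun x b => dM (q * (δ * (g₀ * (h * γ')))) (frT σ γ' E x) b) j α s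
    (fun x hx => ⟨hap x hx,
      by rw [hlog x hx, hα]; have := (hI x hx).2.1; linarith,
      by rw [hlog x hx, hα]; have := (hI x hx).2.2; linarith⟩)
    (fun x hx b _ hb => ⟨(dM_ne hb).1, (by
      have h9 : IsCoprime (g₀ * x.2.1) b := cop_of_dM hb
      rw [hae x hx] at h9
      exact h9.of_mul_left_right)⟩) (M := Real.sqrt M)
    (Real.sqrt_nonneg _) hht ?_
  · refine h2.trans ?_
    have e1 : Real.exp (ε / 2 * |α|) ^ 2 = Real.exp (ε * |α|) := by
      rw [← Real.exp_nat_mul]; congr 1; push_cast; ring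
    have e4 : Real.exp (-(1 / 6) * (Φ.len j - α)) ^ 2 =
        Real.exp (-(1 / 3) * (Φ.len j - α)) := by
      rw [← Real.exp_nat_mul]; congr 1; push_cast; ring
    have ht0 : (0 : ℝ) ≤ 1 + |s| := by positivity
    have e2 : ((1 + |s|) ^ A) ^ 2 = (1 + |s|) ^ (2 * A) := by
      rw [← Real.rpow_natCast, ← Real.rpow_mul ht0]; congr 1; push_cast; ring
    apply le_of_eq
    calc (C * Real.exp (ε / 2 * |α|) * Real.exp (-(1 / 6) * (Φ.len j - α)) * (1 + |s|) ^ A *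
          Real.sqrt M * Φ.ht j) ^ 2
        = C ^ 2 * (Real.exp (ε / 2 * |α|) ^ 2) * (Real.exp (-(1 / 6) * (Φ.len j - α)) ^ 2) *
          (((1 + |s|) ^ A) ^ 2) * (Real.sqrt M ^ 2) * Φ.ht j ^ 2 := by ring
      _ = _ := by rw [e1, e2, e4, Real.sq_sqrt hM]
  · intro j' hg hd hl hl2
    have hw2 : ∀ b, Φ.w j' b ≠ 0 → IsPrim b → Squarefree b → b ∈ S X₁ := by
      intro b hb hp hsf
      rw [mem_S hX₁0]
      refine ⟨(hsupp j' b hb).trans (Real.exp_le_exp.2 ?_), hp, hsf⟩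
      have h3 := le_abs_self (Φ.len j)
      have h4 := neg_abs_le α
      linarith
    have e1 : ∀ x ∈ I, (fun _ : I3 => (1 : ℝ)) x *
        ‖∑ b ∈ S X₁, Φ.w j' b * dM (q * (δ * (g₀ * (h * γ')))) (frT σ γ' E x) b‖ ^ 2 =
          ‖TG (TP320.sq (q * (δ * (g₀ * (h * γ')))) (Φ.w j')) (frT σ γ' E x)‖ ^ 2 := by
      intro x _
      rw [TG_sq_eq hw2, one_mul]
    rw [Finset.sum_congr rfl e1, mul_pow, Real.sq_sqrt hM]
    exact hyp j' hg hd hl hl2

lemma MTs_zero_of {w : Eis → ℂ} {γ q g₀ δ E σ r B : Eis} (hγ : IsPrim γ) (hγs : Squarefree γ)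
    (hg₀ : IsPrim g₀) (hB : IsPrim B) (s : ℝ)
    (hno : ¬ ∃ h ∈ dvs γ, Cg γ h (g₀ * B)) : MTs (aG γ q g₀ δ w) E B σ r s = 0 := by
  unfold MTs
  have : ∀ D : Eis, aG γ q g₀ δ w (B * D) * (sy E D * conj (sy D B)) *
      ((n6 D : ℂ) * Gh (σ * r) D) * pw s (nm D) = 0 := by
    intro D
    have h1 : aG γ q g₀ δ w (B * D) = 0 := by
      by_contra h0
      obtain ⟨_, c, h1, _, h3, h4, _⟩ := aG_ne hγ.ne_zero h0
      apply hno
      refine exists_Cg hγ hγs (hg₀.mul hB) (D := D) (c := c) ?_ ?_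
      · rw [← h1]; ring
      · exact squarefree_mul_iff.mpr ⟨h4.of_mul_right_right.symm.isRelPrime, hγs, h3⟩
    rw [h1]; ring
  simp [this]

open Classical in
/-- **merging the frequencies**, `x = (J, B, r)` -/
theorem merge3 {Λ : ℝ} (hΛ : 0 ≤ Λ) (P : Finset I3) {σ γ' E : Eis} (hσ : σ ≠ 0)
    (hγ' : γ' ≠ 0) (hE : E ≠ 0)
    (hP : ∀ x ∈ P, IsPrim x.1 ∧ IsPrim x.2.1 ∧ frT σ γ' E x ∈ bl Λ)
    (F : Eis → ℝ) (hF : ∀ r, 0 ≤ F r) :
    ∑ x ∈ P, F (frT σ γ' E x) ≤ ∑ r ∈ bl Λ, (tau r : ℝ) ^ 2 * F r := by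
  have hmaps : ∀ x ∈ P, frT σ γ' E x ∈ bl Λ := fun x hx => (hP x hx).2.2
  rw [← Finset.sum_fiberwise_of_maps_to hmaps]
  refine Finset.sum_le_sum fun r hr => ?_
  have hr0 : r ≠ 0 := ((mem_bl hΛ).1 hr).1
  set Bx := P.filter (fun x => frT σ γ' E x = r) with hBx
  have hmem : ∀ x ∈ Bx, x ∈ P ∧ frT σ γ' E x = r := by
    intro x hx
    rwa [hBx, Finset.mem_filter] at hx
  have h1 : ∑ x ∈ Bx, F (frT σ γ' E x) = ∑ x ∈ Bx, F r :=
    Finset.sum_congr rfl fun x hx => by rw [(hmem x hx).2]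
  rw [h1, Finset.sum_const, nsmul_eq_mul]
  refine mul_le_mul_of_nonneg_right ?_ (hF r)
  have h2 : Bx.card ≤ (dvs r ×ˢ dvs r).card := by
    apply Finset.card_le_card_of_injOn (fun x => (x.1, x.2.1))
    · intro x hx
      obtain ⟨h1, h2⟩ := hmem x (Finset.mem_coe.1 hx)
      obtain ⟨q1, q2, -⟩ := hP _ h1
      rw [Finset.mem_coe, Finset.mem_product, mem_dvs hr0, mem_dvs hr0]
      refine ⟨⟨q1, ?_⟩, ⟨q2, ?_⟩⟩
      · rw [← h2]
        exact ⟨σ * x.2.2 * γ' * (E ^ 2 * x.1 * x.2.1), by unfold frT; ring⟩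
      · rw [← h2]
        exact ⟨σ * x.2.2 * γ' * (E * x.1) ^ 2, by unfold frT; ring⟩
    · intro x hx y hy hxy
      obtain ⟨h1, h2⟩ := hmem x (Finset.mem_coe.1 hx)
      obtain ⟨h1', h2'⟩ := hmem y (Finset.mem_coe.1 hy)
      obtain ⟨q1, q2, -⟩ := hP _ h1
      have hxy' : (x.1, x.2.1) = (y.1, y.2.1) := hxy
      have e0 : x.1 = y.1 := (Prod.mk.inj hxy').1
      have e1 : x.2.1 = y.2.1 := (Prod.mk.inj hxy').2
      have h0 : σ * γ' * ((E * x.1) ^ 2 * x.2.1) ≠ 0 :=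
        mul_ne_zero (mul_ne_zero hσ hγ') (mul_ne_zero (pow_ne_zero 2 (mul_ne_zero hE q1.ne_zero))
          q2.ne_zero)
      have h4 : x.2.2 = y.2.2 := by
        apply mul_left_cancel₀ h0
        calc σ * γ' * ((E * x.1) ^ 2 * x.2.1) * x.2.2 = r := by rw [← h2]; unfold frT; ring
          _ = σ * γ' * ((E * y.1) ^ 2 * y.2.1) * y.2.2 := by rw [← h2']; unfold frT; ring
          _ = σ * γ' * ((E * x.1) ^ 2 * x.2.1) * y.2.2 := by rw [e0, e1]
      exact Prod.ext e0 (Prod.ext e1 h4)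
  rw [Finset.card_product] at h2
  have h3 : (Bx.card : ℝ) ≤ ((dvs r).card * (dvs r).card : ℕ) := by exact_mod_cast h2
  calc (Bx.card : ℝ) ≤ ((dvs r).card * (dvs r).card : ℕ) := h3
    _ = (tau r : ℝ) ^ 2 := by unfold tau; push_cast; ring

open Classical in
/-- **one block of the direct side** -/
theorem mt_blk {J : Type} {Φ : Fam J} {R A : ℝ} (hΦ : Φ.Ok R A) {ε : ℝ} (hε : 0 < ε) :
    ∃ C : ℝ, 1 ≤ C ∧ ∀ (j : J) (γ q g₀ δ E σ : Eis), IsPrim γ → Squarefree γ → IsPrim g₀ →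
      E ≠ 0 → σ ≠ 0 →
      ∀ (T : Finset Eis) (Rs : Eis → Finset Eis), (∀ y ∈ T, IsPrim y) →
      (∀ y ∈ T, ∀ r ∈ Rs y, r ≠ 0) →
      ∀ (u : ℕ) (X s : ℝ), 0 ≤ X → ∀ Λ : ℝ, 0 ≤ Λ →
      (∀ y ∈ T, ∀ r ∈ Rs y, ∀ B ∈ bk X u,
        (nm σ : ℝ) * nm r * nm γ * ((nm E * nm y) ^ 2 * nm B) ≤ Λ) →
      ∀ M : ℝ, 0 ≤ M →
      (∀ h ∈ dvs γ, ∀ j', Φ.good j' → Φ.dom R j' j →
        Φ.len j' ≤ Φ.len j - (Real.log (nm g₀) + (u : ℝ) / 3 - Real.log (nm h)) + R →
        Φ.len j - (Real.log (nm g₀) + (u : ℝ) / 3 - Real.log (nm h)) - R - 1 ≤ Φ.len j' →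
        VG Λ (TP320.sq (q * (δ * (g₀ * γ))) (Φ.w j')) ≤ M * Φ.ht j' ^ 2) →
      ∑ y ∈ T, ∑ B ∈ bk X u, ∑ r ∈ Rs y,
        ‖MTs (aG γ q g₀ δ (Φ.w j)) (E * y) B σ r s‖ ^ 2 ≤
        C * (nm γ * (nm g₀ * Real.exp ((u : ℝ) / 3)) * (1 + Λ)) ^ ε *
          Real.exp (-(1 / 3) * (Φ.len j - Real.log (nm g₀) - (u : ℝ) / 3)) *
          (1 + |s|) ^ (2 * A) * M * Φ.ht j ^ 2 := by
  have hε2 : 0 < ε / 2 := by linarith
  have hε4 : 0 < ε / 4 := by linarith
  obtain ⟨C, hC, hs⟩ := mt_split_h hΦ hε2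
  obtain ⟨C₂, hC₂, hτ⟩ := tau_le_rpow hε4
  refine ⟨C * C₂ ^ 3, by nlinarith [one_le_pow₀ (n := 3) hC₂], ?_⟩
  intro j γ q g₀ δ E σ hγ hγs hg₀ hE hσ T Rs hT hRs u X s hX Λ hΛ0 hΛ M hM hyp
  have hC0 : 0 ≤ C := by linarith
  have hC₂0 : 0 ≤ C₂ := by linarith
  have hgp : (0 : ℝ) < nm g₀ := by exact_mod_cast nm_pos.2 hg₀.ne_zero
  have hg1 : (1 : ℝ) ≤ nm g₀ := by exact_mod_cast nm_pos.2 hg₀.ne_zero
  have hγp : (0 : ℝ) < nm γ := by exact_mod_cast nm_pos.2 hγ.ne_zero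
  have hγ1 : (1 : ℝ) ≤ nm γ := by exact_mod_cast nm_pos.2 hγ.ne_zero
  set α : ℝ := (u : ℝ) / 3 with hα
  have hα0 : 0 ≤ α := by positivity
  set f : I3 → ℝ := fun x => ‖MTs (aG γ q g₀ δ (Φ.w j)) (E * x.1) x.2.1 σ x.2.2 s‖ ^ 2 with hf
  have hf0 : ∀ x, 0 ≤ f x := fun x => sq_nonneg _
  set U := T.biUnion (fun y => Rs y) with hU
  set I : Finset I3 := (T ×ˢ (bk X u) ×ˢ U).filter (fun x => x.2.2 ∈ Rs x.1) with hI
  have hImem : ∀ x ∈ I, x.1 ∈ T ∧ x.2.1 ∈ bk X u ∧ x.2.2 ∈ Rs x.1 := by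
    intro x hx
    rw [hI, Finset.mem_filter, Finset.mem_product, Finset.mem_product] at hx
    exact ⟨hx.1.1, hx.1.2.1, hx.2⟩
  have step1 : ∑ y ∈ T, ∑ B ∈ bk X u, ∑ r ∈ Rs y,
      ‖MTs (aG γ q g₀ δ (Φ.w j)) (E * y) B σ r s‖ ^ 2 = ∑ x ∈ I, f x := by
    rw [hI, Finset.sum_filter, Finset.sum_product]
    refine Finset.sum_congr rfl fun y hy => ?_
    rw [Finset.sum_product]
    refine Finset.sum_congr rfl fun B _ => ?_
    rw [← Finset.sum_filter]
    refine Finset.sum_congr ?_ fun _ _ => rfl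
    ext r
    rw [Finset.mem_filter]
    constructor
    · intro hr
      exact ⟨hU ▸ Finset.mem_biUnion.2 ⟨y, hy, hr⟩, hr⟩
    · exact fun h => h.2
  rw [step1]
  have h1 : ∑ x ∈ I, f x ≤
      ∑ h ∈ dvs γ, ∑ x ∈ I.filter (fun x => Cg γ h (g₀ * x.2.1)), f x := by
    have e1 : ∑ h ∈ dvs γ, ∑ x ∈ I.filter (fun x => Cg γ h (g₀ * x.2.1)), f x =
        ∑ x ∈ I, ∑ h ∈ dvs γ, if Cg γ h (g₀ * x.2.1) then f x else 0 := by
      rw [Finset.sum_comm]
      exact Finset.sum_congr rfl fun h _ => by rw [Finset.sum_filter]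
    rw [e1]
    refine Finset.sum_le_sum fun x hx => ?_
    by_cases hex : ∃ h ∈ dvs γ, Cg γ h (g₀ * x.2.1)
    · obtain ⟨h, hh, hc⟩ := hex
      have : f x = if Cg γ h (g₀ * x.2.1) then f x else 0 := by rw [if_pos hc]
      calc f x = if Cg γ h (g₀ * x.2.1) then f x else 0 := this
        _ ≤ _ := Finset.single_le_sum (f := fun h => if Cg γ h (g₀ * x.2.1) then f x else 0)
            (fun h _ => by split_ifs; exacts [hf0 x, le_rfl]) hh
    · have : f x = 0 := by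
        simp only [hf]
        rw [MTs_zero_of hγ hγs hg₀ (bk_prim hX (hImem x hx).2.1) s hex]
        simp
      rw [this]
      refine Finset.sum_nonneg fun h _ => ?_
      split_ifs <;> exact le_rfl
  refine h1.trans ?_
  set G : ℝ := nm γ * (nm g₀ * Real.exp α) with hG
  have hGp : 0 < G := by positivity
  have hG1 : 1 ≤ G := by
    have : 1 ≤ Real.exp α := Real.one_le_exp hα0
    have h5 : 1 ≤ (nm g₀ : ℝ) * Real.exp α := by nlinarith
    rw [hG]; nlinarith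
  set D : ℝ := C₂ * Λ ^ (ε / 4) with hD
  have hD0 : 0 ≤ D := by positivity
  set Bd : ℝ := C * G ^ (ε / 2) * Real.exp (-(1 / 3) * (Φ.len j - Real.log (nm g₀) - α)) *
    (1 + |s|) ^ (2 * A) * (D ^ 2 * M) * Φ.ht j ^ 2 with hBd
  have hBd0 : 0 ≤ Bd := by rw [hBd]; positivity
  have h2 : ∀ h ∈ dvs γ, ∑ x ∈ I.filter (fun x => Cg γ h (g₀ * x.2.1)), f x ≤ Bd := by
    intro h hh'
    have hh := (mem_dvs hγ.ne_zero).1 hh'
    have hhp : (0 : ℝ) < nm h := by exact_mod_cast nm_pos.2 hh.1.ne_zero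
    have hh1 : (1 : ℝ) ≤ nm h := by exact_mod_cast nm_pos.2 hh.1.ne_zero
    have hhγ : (nm h : ℝ) ≤ nm γ := by
      exact_mod_cast Div277.nm_le_of_dvd hγ.ne_zero hh.2
    obtain ⟨γ', hγ'e⟩ := hh.2
    have hγ' : IsPrim γ' := IsPrim.of_mul_left (hγ'e ▸ hγ) hh.1
    have hγ'le : (nm γ' : ℝ) ≤ nm γ := by
      exact_mod_cast Div277.nm_le_of_dvd hγ.ne_zero (hγ'e ▸ dvd_mul_left γ' h)
    set Ih := I.filter (fun x => Cg γ h (g₀ * x.2.1)) with hIh
    have hIhm : ∀ x ∈ Ih, x ∈ I ∧ Cg γ h (g₀ * x.2.1) := fun x hx => Finset.mem_filter.1 hx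
    have h3 := hs j h γ' q g₀ δ E σ hh.1 hγ' hg₀ α s Ih
      (fun x hx => by
        have h4 := (hImem x (hIhm x hx).1).2.1
        refine ⟨bk_prim hX h4, bk_lo hX h4, ?_⟩
        have := bk_hi hX h4
        rw [hα]; linarith)
      (fun x hx => by
        obtain ⟨γ₁, a, h4, h5, h6, h7, h8⟩ := (hIhm x hx).2
        have : γ₁ = γ' := mul_left_cancel₀ hh.1.ne_zero (h6 ▸ hγ'e)
        exact ⟨a, h5, h7, this ▸ h8⟩)
      _ rfl (D ^ 2 * M) (by positivity)
      (fun j' hg hd hl hl2 => by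
        set F : Eis → ℝ := fun k => ‖TG (TP320.sq (q * (δ * (g₀ * (h * γ')))) (Φ.w j')) k‖ ^ 2
          with hF
        have h4 : ∑ x ∈ Ih, F (frT σ γ' E x) ≤ ∑ r ∈ bl Λ, (tau r : ℝ) ^ 2 * F r := by
          refine merge3 hΛ0 Ih hσ hγ'.ne_zero hE (fun x hx => ?_) F fun _ => sq_nonneg _
          obtain ⟨q1, q2, q3⟩ := hImem x (hIhm x hx).1
          have p1 := hT _ q1
          have p2 := bk_prim hX q2
          have p3 := hRs _ q1 _ q3
          refine ⟨p1, p2, ?_⟩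
          rw [mem_bl hΛ0]
          unfold frT
          refine ⟨mul_ne_zero (mul_ne_zero (mul_ne_zero hσ p3) hγ'.ne_zero)
            (mul_ne_zero (pow_ne_zero 2 (mul_ne_zero hE p1.ne_zero)) p2.ne_zero), ?_⟩
          refine le_trans ?_ (hΛ _ q1 _ q3 _ q2)
          rw [nm_mul (σ * x.2.2 * γ'), nm_mul (σ * x.2.2), nm_mul σ, nm_mul ((E * x.1) ^ 2),
            nm_pow (E * x.1), nm_mul E]
          push_cast
          have n1 : (0 : ℝ) ≤ (nm σ : ℝ) * nm x.2.2 := by positivity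
          have n2 : (0 : ℝ) ≤ ((nm E : ℝ) * nm x.1) ^ 2 * nm x.2.1 := by positivity
          exact mul_le_mul_of_nonneg_right (mul_le_mul_of_nonneg_left hγ'le n1) n2
        refine h4.trans ?_
        have h5 : ∑ r ∈ bl Λ, (tau r : ℝ) ^ 2 * F r ≤ ∑ r ∈ bl Λ, D ^ 2 * F r := by
          refine Finset.sum_le_sum fun r hr => ?_
          refine mul_le_mul_of_nonneg_right ?_ (sq_nonneg _)
          rw [mem_bl hΛ0] at hr
          refine pow_le_pow_left₀ (Nat.cast_nonneg _) ?_ 2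
          refine (hτ r hr.1).trans ?_
          exact mul_le_mul_of_nonneg_left (Real.rpow_le_rpow (Nat.cast_nonneg _) hr.2 hε4.le)
            hC₂0
        refine h5.trans ?_
        rw [← Finset.mul_sum, mul_assoc]
        refine mul_le_mul_of_nonneg_left ?_ (by positivity)
        have h6 := hyp h hh' j' hg hd hl hl2
        unfold TP320.VG at h6
        rw [hγ'e] at h6
        exact h6)
    rw [← hγ'e] at h3
    refine h3.trans ?_
    rw [hBd]
    have e2 : Real.exp (ε / 2 * |Real.log (nm g₀) + α - Real.log (nm h)|) ≤ G ^ (ε / 2) := by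
      have e3 : |Real.log (nm g₀) + α - Real.log (nm h)| ≤ Real.log G := by
        rw [hG, Real.log_mul hγp.ne' (by positivity), Real.log_mul hgp.ne' (Real.exp_pos _).ne',
          Real.log_exp]
        have l1 := Real.log_nonneg hg1
        have l2 := Real.log_nonneg hh1
        have l3 := Real.log_le_log hhp hhγ
        rw [abs_le]
        constructor <;> linarith
      calc Real.exp (ε / 2 * |Real.log (nm g₀) + α - Real.log (nm h)|)
          ≤ Real.exp (ε / 2 * Real.log G) :=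
            Real.exp_le_exp.2 (mul_le_mul_of_nonneg_left e3 (by linarith))
        _ = _ := by rw [Real.rpow_def_of_pos hGp, mul_comm]
    have e3 : Real.exp (-(1 / 3) * (Φ.len j - (Real.log (nm g₀) + α - Real.log (nm h)))) ≤
        Real.exp (-(1 / 3) * (Φ.len j - Real.log (nm g₀) - α)) := by
      apply Real.exp_le_exp.2
      have := Real.log_nonneg hh1
      linarith
    have hs0 : 0 ≤ (1 + |s|) ^ (2 * A) := by positivity
    have hht0 : 0 ≤ Φ.ht j ^ 2 := sq_nonneg _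
    calc C * Real.exp (ε / 2 * |Real.log (nm g₀) + α - Real.log (nm h)|) *
          Real.exp (-(1 / 3) * (Φ.len j - (Real.log (nm g₀) + α - Real.log (nm h)))) *
          (1 + |s|) ^ (2 * A) * (D ^ 2 * M) * Φ.ht j ^ 2
        ≤ C * G ^ (ε / 2) * Real.exp (-(1 / 3) * (Φ.len j - Real.log (nm g₀) - α)) *
          (1 + |s|) ^ (2 * A) * (D ^ 2 * M) * Φ.ht j ^ 2 := by
          have : C * Real.exp (ε / 2 * |Real.log (nm g₀) + α - Real.log (nm h)|) *
              Real.exp (-(1 / 3) * (Φ.len j - (Real.log (nm g₀) + α - Real.log (nm h)))) ≤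
              C * G ^ (ε / 2) * Real.exp (-(1 / 3) * (Φ.len j - Real.log (nm g₀) - α)) :=
            mul_le_mul (mul_le_mul_of_nonneg_left e2 hC0) e3 (Real.exp_pos _).le (by positivity)
          gcongr
      _ = _ := rfl
  refine (Finset.sum_le_sum h2).trans ?_
  rw [Finset.sum_const, nsmul_eq_mul]
  have h4 : ((dvs γ).card : ℝ) ≤ C₂ * G ^ (ε / 2) := by
    refine (hτ γ hγ.ne_zero).trans (mul_le_mul_of_nonneg_left ?_ hC₂0)
    calc (nm γ : ℝ) ^ (ε / 4) ≤ G ^ (ε / 4) := by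
          refine Real.rpow_le_rpow hγp.le ?_ hε4.le
          have : 1 ≤ Real.exp α := Real.one_le_exp hα0
          have h5 : 1 ≤ (nm g₀ : ℝ) * Real.exp α := by nlinarith
          rw [hG]; nlinarith
      _ ≤ G ^ (ε / 2) := Real.rpow_le_rpow_of_exponent_le hG1 (by linarith)
  have h5 : D ^ 2 ≤ C₂ ^ 2 * (1 + Λ) ^ ε := by
    rw [hD, mul_pow, ← Real.rpow_natCast (Λ ^ (ε / 4)) 2, ← Real.rpow_mul hΛ0]
    refine mul_le_mul_of_nonneg_left ?_ (by positivity)
    calc Λ ^ (ε / 4 * ((2 : ℕ) : ℝ)) ≤ (1 + Λ) ^ (ε / 4 * ((2 : ℕ) : ℝ)) :=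
          Real.rpow_le_rpow hΛ0 (by linarith) (by positivity)
      _ ≤ (1 + Λ) ^ ε := Real.rpow_le_rpow_of_exponent_le (by linarith) (by push_cast; linarith)
  set Y : ℝ := Real.exp (-(1 / 3) * (Φ.len j - Real.log (nm g₀) - α)) * (1 + |s|) ^ (2 * A) *
    M * Φ.ht j ^ 2 with hY
  have hY0 : 0 ≤ Y := by rw [hY]; positivity
  calc ((dvs γ).card : ℝ) * Bd ≤ (C₂ * G ^ (ε / 2)) * Bd :=
        mul_le_mul_of_nonneg_right h4 hBd0
    _ = (C * C₂ * (G ^ (ε / 2) * G ^ (ε / 2)) * Y) * D ^ 2 := by rw [hBd, hY]; ring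
    _ ≤ (C * C₂ * (G ^ (ε / 2) * G ^ (ε / 2)) * Y) * (C₂ ^ 2 * (1 + Λ) ^ ε) :=
        mul_le_mul_of_nonneg_left h5 (by positivity)
    _ = C * C₂ ^ 3 * (G * (1 + Λ)) ^ ε * Y := by
        rw [← Real.rpow_add hGp, Real.mul_rpow hGp.le (by linarith)]
        have : ε / 2 + ε / 2 = ε := by ring
        rw [this]; ring
    _ = _ := by rw [hY]; ring

end Crest.Agent.R017.MoF106
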