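import Crest.Agent.R017.MoF5_106

/-!
# Row 17, E2: the error functionals of helper440 and second moments of closed families, part 6

* `MoP_blk` : the moment functional summed over `(J, B)`, `B` in a block
* `MoI_blk` : the same for the mean in the height
* `MoC`, `MoH_win` : the functional `Mo` of `E2core`, `MoC_blk` : its sum over a block
* `MT_win_blk` : the direct side with a window
-/

set_option autoImplicit false

noncomputable section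

open MeasureTheory Finset Filter
open scoped ComplexConjugate

namespace Crest.Agent.R017.MoF106

open Crest.Agent.R012
open Eis CharSum852 Gauss880 LS2 CR2 MelSep811
open Crest.Agent.R012.Weight600 (osc norm_osc pw)
open Crest.Agent.R017.CM106 (CS TG FS sub)
open Crest.Agent.R017.TP320 (VC VG Fam SplitAt tw)
open Crest.Agent.R017.E2440 (cT MoF MoH MT)
open Crest.Agent.R017.H1401 (pb mem_pb)
open Crest.Agent.R017.X6C180 (IX dl')
open Crest.Agent.R017.PX764 (Gh n6)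
open Crest.Agent.R017.Win813 (ew ew_nonneg iA iA_nonneg WK HF HW wn integrable_base integrable_ew)
open Div277 (tau dvs mem_dvs tau_le_rpow)

/-- the number of blocks -/
def NX (X : ℝ) : ℕ := ⌊3 * Real.log X⌋₊ + 1

lemma exp_third_le {X : ℝ} (hX : 1 ≤ X) {u : ℕ} (hu : u < NX X) : Real.exp ((u : ℝ) / 3) ≤ X := by
  have hX0 : 0 < X := by linarith
  have h1 : u ≤ ⌊3 * Real.log X⌋₊ := by unfold NX at hu; omega
  have h2 : (u : ℝ) ≤ 3 * Real.log X := by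
    have : (u : ℝ) ≤ (⌊3 * Real.log X⌋₊ : ℝ) := by exact_mod_cast h1
    exact this.trans (Nat.floor_le (by have := Real.log_nonneg hX; positivity))
  calc Real.exp ((u : ℝ) / 3) ≤ Real.exp (Real.log X) := Real.exp_le_exp.2 (by linarith)
    _ = X := Real.exp_log hX0

/-- the range of the merged frequencies -/
def Lam (K : ℝ) (u w : ℕ) : ℝ := K * Real.exp (2 * ((u : ℝ) / 3 + 1 / 3) - w)

lemma Lam_nonneg {K : ℝ} (hK : 0 ≤ K) (u w : ℕ) : 0 ≤ Lam K u w := by unfold Lam; positivity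

lemma exp_two_thirds : Real.exp (2 / 3 : ℝ) ≤ 2 := by
  have h5 : Real.exp (2 / 3 : ℝ) ^ 3 = Real.exp 1 ^ 2 := by
    rw [← Real.exp_nat_mul, ← Real.exp_nat_mul]; norm_num
  have h6 : Real.exp 1 < 2.7182818286 := Real.exp_one_lt_d9
  by_contra h7
  push Not at h7
  have h8 : (2 : ℝ) ^ 3 ≤ Real.exp (2 / 3 : ℝ) ^ 3 := pow_le_pow_left₀ (by norm_num) h7.le 3
  rw [h5] at h8
  have h9 : Real.exp 1 ^ 2 < 8 := by
    have h10 := Real.exp_pos 1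
    nlinarith
  have h11 : (2 : ℝ) ^ 3 = 8 := by norm_num
  rw [h11] at h8
  linarith

lemma Lam_le {K X : ℝ} (hK : 0 ≤ K) (hX : 1 ≤ X) {u : ℕ} (hu : u < NX X) (w : ℕ) :
    Lam K u w ≤ 2 * K * X ^ 2 := by
  unfold Lam
  have h1 := exp_third_le hX hu
  have h2 : Real.exp (2 * ((u : ℝ) / 3 + 1 / 3) - w) ≤
      Real.exp (2 / 3) * Real.exp ((u : ℝ) / 3) ^ 2 := by
    rw [← Real.exp_nat_mul, ← Real.exp_add]
    apply Real.exp_le_exp.2
    have : (0 : ℝ) ≤ w := Nat.cast_nonneg w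
    push_cast
    linarith
  have h3 : Real.exp ((u : ℝ) / 3) ^ 2 ≤ X ^ 2 := pow_le_pow_left₀ (Real.exp_pos _).le h1 2
  calc K * Real.exp (2 * ((u : ℝ) / 3 + 1 / 3) - w)
      ≤ K * (2 * X ^ 2) := by
        refine mul_le_mul_of_nonneg_left (h2.trans ?_) hK
        exact mul_le_mul exp_two_thirds h3 (by positivity) (by norm_num)
    _ = _ := by ring

/-- the hypothesis on the children, for the blocks `u`, `v`, `w` -/
def Kid {J : Type} (Φ : Fam J) (R : ℝ) (j : J) (γ g₀ Mq : Eis) (X : ℝ) (u v w : ℕ) (Λ : ℝ)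
    (Q : Eis → Prop) (M : ℝ) : Prop := by
  classical
  exact ∀ h ∈ dvs γ, ∀ j', Φ.good j' → Φ.dom R j' j →
    Φ.len j' ≤ Φ.len j - (Real.log (nm g₀) + ((u : ℝ) / 3 + v / 3 + w / 3) -
      Real.log (nm h)) + R →
    Φ.len j - (Real.log (nm g₀) + ((u : ℝ) / 3 + v / 3 + w / 3) -
      Real.log (nm h)) - R - 1 ≤ Φ.len j' →
    ∀ g₃ ∈ bk X w,
    ∑ r ∈ (bl Λ).filter Q, ‖CS (TP320.sq (Mq * g₃) (Φ.w j')) r‖ ^ 2 ≤ M * Φ.ht j' ^ 2

open Classical in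
/-- **the moment functional, one block of `B`** -/
theorem MoP_blk {J : Type} {Φ : Fam J} {R A : ℝ} (hΦ : Φ.Ok R A) {ε : ℝ} (hε : 0 < ε) :
    ∃ C : ℝ, 1 ≤ C ∧ ∀ (j : J) (γ q g₀ δ E τ : Eis), IsPrim γ → Squarefree γ → IsPrim g₀ →
      E ≠ 0 → τ ≠ 0 →
      ∀ (T : Finset Eis) (Y : ℝ), 1 ≤ Y → (∀ y ∈ T, IsPrim y ∧ (nm y : ℝ) ≤ Y) →
      ∀ (u : ℕ) (X Z t : ℝ), 1 ≤ X → 1 ≤ Z →
      ∀ (W : Eis → Eis → ℝ) (Wb Mf : ℕ → ℕ → ℝ),
      (∀ g₂ ∈ S X, ∀ g₃ ∈ S X, 0 ≤ W g₂ g₃) →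
      (∀ v < NX X, ∀ w < NX X, ∀ g₂ ∈ bk X v, ∀ g₃ ∈ bk X w, W g₂ g₃ ≤ Wb v w) →
      (∀ v < NX X, ∀ w < NX X, 0 ≤ Wb v w) → (∀ v < NX X, ∀ w < NX X, 0 ≤ Mf v w) →
      ∀ (P : Eis → Eis → Eis → Eis → Eis → Prop) (Q : Eis → Prop),
      (∀ y B g₂ g₃ d, P y B g₂ g₃ d → g₂ ^ 2 * g₃ ^ 3 ∣ d) →
      (∀ y ∈ T, ∀ B ∈ bk X u, ∀ g₂ ∈ S X, ∀ g₃ ∈ S X, ∀ m, IsPrim m →
        P y B g₂ g₃ (g₂ ^ 2 * g₃ ^ 3 * m) → Q (E * y * τ * (m * (g₂ * B) ^ 2))) →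
      (∀ v < NX X, ∀ w < NX X, 0 < Wb v w → Kid Φ R j γ g₀ (q * (δ * (g₀ * γ))) X u v w
        (Lam (nm (E * τ) * Y * Z) u w) Q (Mf v w)) →
      ∑ y ∈ T, ∑ B ∈ bk X u, MoP (aG γ q g₀ δ (Φ.w j)) (E * y) B τ X t Z W (P y B) ≤
        C * (nm γ * nm g₀ * nm (E * τ) * X * Y * Z) ^ ε * (1 + |t|) ^ (2 * A) * Φ.ht j ^ 2 *
          ∑ v ∈ Finset.range (NX X), ∑ w ∈ Finset.range (NX X),
            Wb v w * Real.exp ((w : ℝ) / 3) * Mf v w := by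
  have hε5 : 0 < ε / 5 := by linarith
  obtain ⟨C, hC, hs⟩ := mo_blk hΦ hε5
  have h3 : (1 : ℝ) ≤ 3 ^ (ε / 5) := Real.one_le_rpow (by norm_num) hε5.le
  refine ⟨C * 3 ^ (ε / 5), by nlinarith, ?_⟩
  intro j γ q g₀ δ E τ hγ hγs hg₀ hE hτ T Y hY hT u X Z t hX hZ W Wb Mf hW hWb hWb0 hMf P Q hP hQ
    hKid
  have hC0 : 0 ≤ C := by linarith
  have hX0 : 0 ≤ X := by linarith
  have hZ0 : 0 ≤ Z := by linarith
  have hgp : (1 : ℝ) ≤ nm g₀ := by exact_mod_cast nm_pos.2 hg₀.ne_zero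
  have hγp : (1 : ℝ) ≤ nm γ := by exact_mod_cast nm_pos.2 hγ.ne_zero
  have hκp : (1 : ℝ) ≤ nm (E * τ) := by exact_mod_cast nm_pos.2 (mul_ne_zero hE hτ)
  set K : ℝ := nm (E * τ) * Y * Z with hK
  have hK0 : 0 ≤ K := by positivity
  have hK1 : 1 ≤ K := by
    rw [hK]
    exact one_le_mul_of_one_le_of_one_le (one_le_mul_of_one_le_of_one_le hκp hY) hZ
  set G : ℝ := nm γ * nm g₀ * nm (E * τ) * X * Y * Z with hG
  have hG0 : 0 ≤ G := by rw [hG]; positivity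
  have ht0 : 0 ≤ (1 + |t|) ^ (2 * A) := by positivity
  have hht0 : 0 ≤ Φ.ht j ^ 2 := sq_nonneg _
  have hR0 : 0 ≤ ∑ v ∈ Finset.range (NX X), ∑ w ∈ Finset.range (NX X),
      Wb v w * Real.exp ((w : ℝ) / 3) * Mf v w := by
    refine Finset.sum_nonneg fun v hv => Finset.sum_nonneg fun w hw => ?_
    rw [Finset.mem_range] at hv hw
    exact mul_nonneg (mul_nonneg (hWb0 v hv w hw) (Real.exp_pos _).le) (hMf v hv w hw)
  by_cases hu : u < NX X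
  swap
  · have : bk X u = ∅ := bk_empty hX (by unfold NX at hu; omega)
    rw [this]
    simp only [Finset.sum_empty, Finset.sum_const_zero]
    positivity
  -- decomposition into blocks
  set f : Eis → Eis → Eis → Eis → ℝ := fun y B g₂ g₃ => ∑ d ∈ (pb Z).filter (P y B g₂ g₃),
    ‖CS (sub (cT (aG γ q g₀ δ (Φ.w j)) (E * y) B τ t) (g₂ * g₃)) d‖ ^ 2 with hf
  have hf0 : ∀ y B g₂ g₃, 0 ≤ f y B g₂ g₃ := fun _ _ _ _ =>
    Finset.sum_nonneg fun _ _ => sq_nonneg _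
  have step1 : ∀ y B, MoP (aG γ q g₀ δ (Φ.w j)) (E * y) B τ X t Z W (P y B) ≤
      ∑ v ∈ Finset.range (NX X), ∑ w ∈ Finset.range (NX X),
        Wb v w * ∑ g₂ ∈ bk X v, ∑ g₃ ∈ bk X w, f y B g₂ g₃ := by
    intro y B
    unfold MoP
    rw [sum_bk hX]
    refine Finset.sum_le_sum fun v hv => ?_
    have e1 : ∀ g₂ : Eis, ∑ g₃ ∈ S X, W g₂ g₃ * f y B g₂ g₃ =
        ∑ w ∈ Finset.range (NX X), ∑ g₃ ∈ bk X w, W g₂ g₃ * f y B g₂ g₃ :=
      fun g₂ => sum_bk hX _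
    show ∑ g₂ ∈ bk X v, ∑ g₃ ∈ S X, W g₂ g₃ * f y B g₂ g₃ ≤ _
    rw [Finset.sum_congr rfl fun g₂ _ => e1 g₂, Finset.sum_comm]
    refine Finset.sum_le_sum fun w hw => ?_
    rw [Finset.mul_sum]
    refine Finset.sum_le_sum fun g₂ hg₂ => ?_
    rw [Finset.mul_sum]
    refine Finset.sum_le_sum fun g₃ hg₃ => ?_
    exact mul_le_mul_of_nonneg_right
      (hWb v (Finset.mem_range.1 hv) w (Finset.mem_range.1 hw) g₂ hg₂ g₃ hg₃) (hf0 _ _ _ _)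
  have hmS : ∀ v, ∀ g ∈ bk X v, g ∈ S X := fun v g hg => by
    unfold bk at hg
    exact (Finset.mem_filter.1 hg).1
  have step2 : ∀ v < NX X, ∀ w < NX X, 0 < Wb v w →
      ∑ y ∈ T, ∑ B ∈ bk X u, ∑ g₂ ∈ bk X v, ∑ g₃ ∈ bk X w, f y B g₂ g₃ ≤
        C * 3 ^ (ε / 5) * G ^ ε * (1 + |t|) ^ (2 * A) * Φ.ht j ^ 2 *
          (Real.exp ((w : ℝ) / 3) * Mf v w) := by
    intro v hv w hw hWp
    have h1 := hs j γ q g₀ δ E τ hγ hγs hg₀ hE hτ T Y hT u v w X Z t hX0 hZ0 P Q hP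
      (fun y hy B hB g₂ hg₂ g₃ hg₃ m hm hp =>
        hQ y hy B hB g₂ (hmS v g₂ hg₂) g₃ (hmS w g₃ hg₃) m hm hp)
      (Lam K u w) (Lam_nonneg hK0 u w) (by unfold Lam; rw [hK]) (Mf v w) (hMf v hv w hw)
      (fun h hh j' hg hd hl hl2 g₃ hg₃ => by
        have h2 := hKid v hv w hw hWp
        unfold Kid at h2
        exact h2 h hh j' hg hd hl hl2 g₃ hg₃)
    refine h1.trans ?_
    have h4 : (nm γ : ℝ) * (nm g₀ * Real.exp ((u : ℝ) / 3 + v / 3 + w / 3)) *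
        (1 + Lam K u w) ≤ 3 * G ^ (5 : ℝ) := by
      have e1 : Real.exp ((u : ℝ) / 3 + v / 3 + w / 3) ≤ X ^ 3 := by
        rw [Real.exp_add, Real.exp_add]
        calc Real.exp ((u : ℝ) / 3) * Real.exp ((v : ℝ) / 3) * Real.exp ((w : ℝ) / 3)
            ≤ X * X * X := by
              gcongr
              · exact exp_third_le hX hu
              · exact exp_third_le hX hv
              · exact exp_third_le hX hw
          _ = X ^ 3 := by ring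
      have e2 : 1 + Lam K u w ≤ 3 * K * X ^ 2 := by
        have := Lam_le hK0 hX hu w
        have h5 : 1 ≤ K * X ^ 2 := one_le_mul_of_one_le_of_one_le hK1 (one_le_pow₀ hX)
        linarith
      have e3 : (nm γ : ℝ) * (nm g₀ * Real.exp ((u : ℝ) / 3 + v / 3 + w / 3)) *
          (1 + Lam K u w) ≤ nm γ * (nm g₀ * X ^ 3) * (3 * K * X ^ 2) := by
        have := Lam_nonneg hK0 u w
        gcongr
      refine e3.trans ?_
      have e4 : G ^ (5 : ℝ) = G ^ 5 := by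
        rw [← Real.rpow_natCast]; norm_num
      rw [e4]
      have e5 : G = (nm γ * nm g₀ * K) * X := by rw [hG, hK]; ring
      have e6 : 1 ≤ (nm γ : ℝ) * nm g₀ * K :=
        one_le_mul_of_one_le_of_one_le (one_le_mul_of_one_le_of_one_le hγp hgp) hK1
      rw [e5]
      set b : ℝ := nm γ * nm g₀ * K
      calc (nm γ : ℝ) * (nm g₀ * X ^ 3) * (3 * K * X ^ 2) = 3 * (b * X ^ 5) := by ring
        _ ≤ 3 * (b ^ 5 * X ^ 5) := by
            have : b ≤ b ^ 5 := le_self_pow₀ e6 (by norm_num)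
            have hX5 : 0 ≤ X ^ 5 := by positivity
            nlinarith [mul_le_mul_of_nonneg_right this hX5]
        _ = 3 * (b * X) ^ 5 := by ring
    have h5 : ((nm γ : ℝ) * (nm g₀ * Real.exp ((u : ℝ) / 3 + v / 3 + w / 3)) *
        (1 + Lam K u w)) ^ (ε / 5) ≤ 3 ^ (ε / 5) * G ^ ε := by
      have h6 : 0 ≤ (nm γ : ℝ) * (nm g₀ * Real.exp ((u : ℝ) / 3 + v / 3 + w / 3)) *
        (1 + Lam K u w) := by
        have := Lam_nonneg hK0 u w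
        positivity
      refine (Real.rpow_le_rpow h6 h4 hε5.le).trans (le_of_eq ?_)
      rw [Real.mul_rpow (by norm_num) (by positivity), ← Real.rpow_mul hG0]
      congr 2
      ring
    calc C * ((nm γ : ℝ) * (nm g₀ * Real.exp ((u : ℝ) / 3 + v / 3 + w / 3)) *
          (1 + Lam K u w)) ^ (ε / 5) * (1 + |t|) ^ (2 * A) * Real.exp ((w : ℝ) / 3) *
          Mf v w * Φ.ht j ^ 2
        = (C * (1 + |t|) ^ (2 * A) * Real.exp ((w : ℝ) / 3) * Mf v w * Φ.ht j ^ 2) *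
          ((nm γ : ℝ) * (nm g₀ * Real.exp ((u : ℝ) / 3 + v / 3 + w / 3)) *
          (1 + Lam K u w)) ^ (ε / 5) := by ring
      _ ≤ (C * (1 + |t|) ^ (2 * A) * Real.exp ((w : ℝ) / 3) * Mf v w * Φ.ht j ^ 2) *
          (3 ^ (ε / 5) * G ^ ε) := by
          refine mul_le_mul_of_nonneg_left h5 ?_
          have := hMf v hv w hw
          positivity
      _ = _ := by ring
  calc ∑ y ∈ T, ∑ B ∈ bk X u, MoP (aG γ q g₀ δ (Φ.w j)) (E * y) B τ X t Z W (P y B)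
      ≤ ∑ y ∈ T, ∑ B ∈ bk X u, ∑ v ∈ Finset.range (NX X), ∑ w ∈ Finset.range (NX X),
        Wb v w * ∑ g₂ ∈ bk X v, ∑ g₃ ∈ bk X w, f y B g₂ g₃ :=
        Finset.sum_le_sum fun y _ => Finset.sum_le_sum fun B _ => step1 y B
    _ = ∑ v ∈ Finset.range (NX X), ∑ w ∈ Finset.range (NX X),
        Wb v w * ∑ y ∈ T, ∑ B ∈ bk X u, ∑ g₂ ∈ bk X v, ∑ g₃ ∈ bk X w, f y B g₂ g₃ := by
        have e1 : ∀ y ∈ T, ∑ B ∈ bk X u, ∑ v ∈ Finset.range (NX X),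
            ∑ w ∈ Finset.range (NX X),
            Wb v w * ∑ g₂ ∈ bk X v, ∑ g₃ ∈ bk X w, f y B g₂ g₃ =
            ∑ v ∈ Finset.range (NX X), ∑ w ∈ Finset.range (NX X),
            Wb v w * ∑ B ∈ bk X u, ∑ g₂ ∈ bk X v, ∑ g₃ ∈ bk X w, f y B g₂ g₃ := by
          intro y _
          rw [Finset.sum_comm]
          refine Finset.sum_congr rfl fun v _ => ?_
          rw [Finset.sum_comm]
          exact Finset.sum_congr rfl fun w _ => by rw [Finset.mul_sum]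
        rw [Finset.sum_congr rfl e1, Finset.sum_comm]
        refine Finset.sum_congr rfl fun v _ => ?_
        rw [Finset.sum_comm]
        exact Finset.sum_congr rfl fun w _ => by rw [Finset.mul_sum]
    _ ≤ ∑ v ∈ Finset.range (NX X), ∑ w ∈ Finset.range (NX X),
        Wb v w * (C * 3 ^ (ε / 5) * G ^ ε * (1 + |t|) ^ (2 * A) * Φ.ht j ^ 2 *
          (Real.exp ((w : ℝ) / 3) * Mf v w)) := by
        refine Finset.sum_le_sum fun v hv => Finset.sum_le_sum fun w hw => ?_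
        rw [Finset.mem_range] at hv hw
        rcases (hWb0 v hv w hw).eq_or_lt with h0 | h0
        · rw [← h0, zero_mul, zero_mul]
        · exact mul_le_mul_of_nonneg_left (step2 v hv w hw h0) h0.le
    _ = _ := by
        rw [Finset.mul_sum]
        refine Finset.sum_congr rfl fun v _ => ?_
        rw [Finset.mul_sum]
        exact Finset.sum_congr rfl fun w _ => by ring

open Classical in
/-- **the mean in the height, one block of `B`** -/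
theorem MoI_blk {J : Type} {Φ : Fam J} {R A : ℝ} (hΦ : Φ.Ok R A) {ε : ℝ} (hε : 0 < ε) :
    ∃ C : ℝ, 1 ≤ C ∧ ∀ (A' : ℕ), 2 * A + 2 ≤ A' → ∀ (j : J) (γ q g₀ δ E τ : Eis),
      IsPrim γ → Squarefree γ → IsPrim g₀ → E ≠ 0 → τ ≠ 0 →
      ∀ (T : Finset Eis) (Y : ℝ), 1 ≤ Y → (∀ y ∈ T, IsPrim y ∧ (nm y : ℝ) ≤ Y) →
      ∀ (u : ℕ) (X Z : ℝ), 1 ≤ X → 1 ≤ Z →
      ∀ (W : Eis → Eis → ℝ) (Wb Mf : ℕ → ℕ → ℝ),
      (∀ g₂ ∈ S X, ∀ g₃ ∈ S X, 0 ≤ W g₂ g₃) →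
      (∀ v < NX X, ∀ w < NX X, ∀ g₂ ∈ bk X v, ∀ g₃ ∈ bk X w, W g₂ g₃ ≤ Wb v w) →
      (∀ v < NX X, ∀ w < NX X, 0 ≤ Wb v w) → (∀ v < NX X, ∀ w < NX X, 0 ≤ Mf v w) →
      ∀ (P : Eis → Eis → Eis → Eis → Eis → Prop) (Q : Eis → Prop),
      (∀ y B g₂ g₃ d, P y B g₂ g₃ d → g₂ ^ 2 * g₃ ^ 3 ∣ d) →
      (∀ y ∈ T, ∀ B ∈ bk X u, ∀ g₂ ∈ S X, ∀ g₃ ∈ S X, ∀ m, IsPrim m →
        P y B g₂ g₃ (g₂ ^ 2 * g₃ ^ 3 * m) → Q (E * y * τ * (m * (g₂ * B) ^ 2))) →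
      (∀ v < NX X, ∀ w < NX X, 0 < Wb v w → Kid Φ R j γ g₀ (q * (δ * (g₀ * γ))) X u v w
        (Lam (nm (E * τ) * Y * Z) u w) Q (Mf v w)) →
      ∑ y ∈ T, ∑ B ∈ bk X u, MoI A' (aG γ q g₀ δ (Φ.w j)) (E * y) B τ X Z W (P y B) ≤
        C * (nm γ * nm g₀ * nm (E * τ) * X * Y * Z) ^ ε * Φ.ht j ^ 2 *
          ∑ v ∈ Finset.range (NX X), ∑ w ∈ Finset.range (NX X),
            Wb v w * Real.exp ((w : ℝ) / 3) * Mf v w := by
  obtain ⟨C, hC, hs⟩ := MoP_blk hΦ hε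
  refine ⟨(iA 2 + 1) * C, by have := iA_nonneg 2; nlinarith, ?_⟩
  intro A' hA' j γ q g₀ δ E τ hγ hγs hg₀ hE hτ T Y hY hT u X Z hX hZ W Wb Mf hW hWb hWb0 hMf
    P Q hP hQ hKid
  have hC0 : 0 ≤ C := by linarith
  have hX0 : 0 ≤ X := by linarith
  have hA0 := hΦ.A0
  have hA2 : 2 ≤ A' := by
    have : (2 : ℝ) ≤ A' := by linarith
    exact_mod_cast this
  set c : ℝ := C * (nm γ * nm g₀ * nm (E * τ) * X * Y * Z) ^ ε * Φ.ht j ^ 2 *
          ∑ v ∈ Finset.range (NX X), ∑ w ∈ Finset.range (NX X),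
            Wb v w * Real.exp ((w : ℝ) / 3) * Mf v w with hc
  have hR0 : 0 ≤ ∑ v ∈ Finset.range (NX X), ∑ w ∈ Finset.range (NX X),
      Wb v w * Real.exp ((w : ℝ) / 3) * Mf v w := by
    refine Finset.sum_nonneg fun v hv => Finset.sum_nonneg fun w hw => ?_
    rw [Finset.mem_range] at hv hw
    exact mul_nonneg (mul_nonneg (hWb0 v hv w hw) (Real.exp_pos _).le) (hMf v hv w hw)
  have hc0 : 0 ≤ c := by rw [hc]; positivity
  have hR := hΦ.R0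
  have hw1 : ∀ n, Φ.w j n ≠ 0 → (nm n : ℝ) ≤ Real.exp (Φ.len j + R) := by
    intro b hb
    have hb0 : (0 : ℝ) < nm b := by exact_mod_cast nm_pos.2 (hΦ.prim j b hb).ne_zero
    rw [← Real.log_le_iff_le_exp hb0]
    have := (abs_le.1 (hΦ.supp j b hb)).2
    linarith
  have h1 := sum_MoI_le (γ := γ) (q := q) (δ := δ) (E := E) (τ := τ) (Z := Z) (P := P)
    (A := A') (a := 2 * A) hc0 hA' hA2 (Real.exp_pos _).le hw1 hX0 hγ hγs hg₀ T (bk X u)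
    (fun B hB => bk_prim hX0 hB) hW (fun v => by
      refine (hs j γ q g₀ δ E τ hγ hγs hg₀ hE hτ T Y hY hT u X Z v hX hZ W Wb Mf hW hWb hWb0
        hMf P Q hP hQ hKid).trans (le_of_eq ?_)
      rw [hc]; ring)
  refine h1.trans ?_
  have : iA 2 * c ≤ (iA 2 + 1) * c := mul_le_mul_of_nonneg_right (by linarith) hc0
  refine this.trans (le_of_eq ?_)
  rw [hc]; ring

end Crest.Agent.R017.MoF106
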