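import Crest.Agent.R017.MoJe_401
import Crest.Agent.R017.E2sp_579

/-!
# Row 17, E2, joint cells (helper176): the joint functional with an extra predicate

* `mojq_le` : `(Z U)² ≤ C₀ R` : the joint functional is at most `(1 + C₀) U` times the sum of the
  separate functionals (weight `WM`) over `Bs`
* `mojq_MH` : the same through the hypothesis `MH` of the separate half
-/

set_option autoImplicit false
set_option linter.unusedVariables false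

noncomputable section

open Complex
open scoped ComplexConjugate Classical

namespace Crest.Agent.R017.MoJPr176

open Crest.Agent.R012 Crest.Agent.R012.Eis Crest.Agent.R012.GaussLoc283
open Crest.Agent.R012.Mob705 hiding pb mem_pb
open Crest.Agent.R012.Div277
open Crest.Agent.R012.LS2 (S mem_S)
open Crest.Agent.R017.X6C180 (Sg IX dl')
open Crest.Agent.R017.CM106 (sub CS FS)
open Crest.Agent.R017.H1401 (pb mem_pb DN WM HW WJ GB)
open Crest.Agent.R017.MoF106 (MoP)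
open Crest.Agent.R017.E2D401 (MoJ Bj)
open Crest.Agent.R017.E2440
open Crest.Agent.R017.E2sp579 (fP MH)
open Crest.Agent.R017.MoJ401 (MoJQ)

/-- `g` is unique -/
lemma GB_unique {g g' B d : Eis} (hg : IsPrim g) (hg' : IsPrim g') (h : GB g B d)
    (h' : GB g' B d) : g = g' := by
  obtain ⟨B1, d1, e1, e2, c1, c2⟩ := h
  obtain ⟨B2, d2, e3, e4, c3, c4⟩ := h'
  have h1 : g ∣ g' := by
    have hgB : g ∣ g' * B2 := e3 ▸ ⟨B1, e1⟩
    have hc : IsCoprime g B2 := (IsCoprime.of_isCoprime_of_dvd_right c3 ⟨d1, e2⟩).symm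
    exact hc.dvd_of_dvd_mul_right hgB
  have h2 : g' ∣ g := by
    have hgB : g' ∣ g * B1 := e1 ▸ ⟨B2, e3⟩
    have hc : IsCoprime g' B1 := (IsCoprime.of_isCoprime_of_dvd_right c1 ⟨d2, e4⟩).symm
    exact hc.dvd_of_dvd_mul_right hgB
  exact IsPrim.eq_of_associated hg hg' (associated_of_dvd_dvd h1 h2)

/-- the weight -/
lemma WJ_le_WM {C0 R Z Z' U : ℝ} (hC : 0 ≤ C0) (hR : 0 ≤ R) (hZ' : 0 ≤ Z') (hZZ : Z' ≤ Z)
    (hU : 0 ≤ U) (hZU : (Z * U) ^ 2 ≤ C0 * R) {g x y : Eis} (hg : IsPrim g) (hgU : (nm g : ℝ) ≤ U)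
    (hx : IsPrim x) : WJ R Z' U g x ≤ (1 + C0) * U * WM R Z' x y := by
  have hg1 : (1 : ℝ) ≤ nm g := one_le_nm hg.ne_zero
  have hx1 : (1 : ℝ) ≤ nm x := one_le_nm hx.ne_zero
  have h1 : (Z' * U / ((nm x : ℝ) * (nm g : ℝ) ^ 2)) ^ 2 ≤ C0 * R := by
    refine le_trans ?_ hZU
    refine pow_le_pow_left₀ (by positivity) ?_ 2
    refine (div_le_self (by positivity) ?_).trans (mul_le_mul_of_nonneg_right hZZ hU)
    exact one_le_mul_of_one_le_of_one_le hx1 (one_le_pow₀ hg1)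
  have h2 : (nm x : ℝ) * R ≤ WM R Z' x y := by
    unfold H1401.WM
    refine mul_le_mul_of_nonneg_left (le_min ?_ (le_add_of_nonneg_right (by positivity)))
      (by positivity)
    have h3 : R ≤ HW R Z' x y := by
      unfold H1401.HW
      have : 0 ≤ Z' / ((nm x : ℝ) * nm y) ^ 2 := by positivity
      have : 0 ≤ (R * (Z' / ((nm x : ℝ) * nm y) ^ 2)) ^ ((2 : ℝ) / 3) := by positivity
      linarith
    calc R ≤ HW R Z' x y := h3
      _ ≤ nm x * HW R Z' x y := le_mul_of_one_le_left (hR.trans h3) hx1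
  have h4 : 0 ≤ (nm x : ℝ) * R := by positivity
  unfold H1401.WJ
  calc (nm x : ℝ) * ((nm g : ℝ) * (R + (Z' * U / ((nm x : ℝ) * (nm g : ℝ) ^ 2)) ^ 2))
      ≤ (nm x : ℝ) * (U * (R + C0 * R)) := by gcongr
    _ = (1 + C0) * U * ((nm x : ℝ) * R) := by ring
    _ ≤ (1 + C0) * U * WM R Z' x y := by gcongr

set_option maxHeartbeats 1000000 in
/-- **the joint functional through the separate ones** -/
theorem mojq_le {C0 R Z U X t : ℝ} (hC : 0 ≤ C0) (hR : 0 ≤ R) (hZ : 0 ≤ Z) (hU : 0 ≤ U)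
    (hX : 0 ≤ X) (hZU : (Z * U) ^ 2 ≤ C0 * R) {ν : Eis} (hν : ν ≠ 0) (α : Eis → ℂ) (E τ : Eis)
    (Bs : Finset Eis) (Q : Eis → Eis → Prop) :
    MoJQ ν α E τ X t R Z U Bs Q ≤ (1 + C0) * U * ∑ B ∈ Bs, ∑ n ∈ dvs ν, (nm n : ℝ) *
      MoP α E B τ X t Z (WM R (Z / (nm n : ℝ) ^ 3))
        (fP (fun g₂ g₃ d => DN n g₂ g₃ d ∧ Z / 2 < nm d) (Q B)) := by
  rw [Finset.sum_comm, Finset.mul_sum]
  unfold MoJ401.MoJQ
  refine Finset.sum_le_sum fun n hn => ?_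
  have hn0 : n ≠ 0 := ((mem_dvs hν).1 hn).1.ne_zero
  have hn1 : (1 : ℝ) ≤ nm n := one_le_nm hn0
  have hZn : Z / (nm n : ℝ) ^ 3 ≤ Z := div_le_self hZ (one_le_pow₀ hn1)
  have hZn0 : 0 ≤ Z / (nm n : ℝ) ^ 3 := by positivity
  rw [← Finset.mul_sum, ← mul_assoc, mul_comm ((1 + C0) * U), mul_assoc]
  refine mul_le_mul_of_nonneg_left ?_ (by positivity)
  rw [Finset.mul_sum]
  unfold MoF106.MoP
  have e1 : ∑ B ∈ Bs, (1 + C0) * U * ∑ g₂ ∈ S X, ∑ g₃ ∈ S X, WM R (Z / (nm n : ℝ) ^ 3) g₂ g₃ *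
      ∑ d ∈ (pb Z).filter (fP (fun g₂ g₃ d => DN n g₂ g₃ d ∧ Z / 2 < nm d) (Q B) g₂ g₃),
        ‖CS (sub (cT α E B τ t) (g₂ * g₃)) d‖ ^ 2 =
      ∑ g₂ ∈ S X, ∑ g₃ ∈ S X, ∑ B ∈ Bs, (1 + C0) * U * WM R (Z / (nm n : ℝ) ^ 3) g₂ g₃ *
        ∑ d ∈ (pb Z).filter (fP (fun g₂ g₃ d => DN n g₂ g₃ d ∧ Z / 2 < nm d) (Q B) g₂ g₃),
          ‖CS (sub (cT α E B τ t) (g₂ * g₃)) d‖ ^ 2 := by
    simp only [Finset.mul_sum]
    rw [Finset.sum_comm]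
    refine Finset.sum_congr rfl fun g₂ _ => ?_
    rw [Finset.sum_comm]
    refine Finset.sum_congr rfl fun g₃ _ => Finset.sum_congr rfl fun B _ =>
      Finset.sum_congr rfl fun d _ => ?_
    ring
  rw [e1]
  refine Finset.sum_le_sum fun g₂ h₂ => Finset.sum_le_sum fun g₃ h₃ => ?_
  have hg2 : IsPrim g₂ := ((mem_S hX).1 h₂).2.1
  -- put the sum over `g` inside
  have e2 : ∑ g ∈ S U, WJ R (Z / (nm n : ℝ) ^ 3) U g g₂ * ∑ B ∈ Bs,
      ∑ d ∈ (pb Z).filter (fun d => ((DN n g₂ g₃ d ∧ GB g B d) ∧ Z / 2 < nm d) ∧ Q B d),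
        ‖CS (sub (cT α E B τ t) (g₂ * g₃)) d‖ ^ 2 =
      ∑ B ∈ Bs, ∑ d ∈ (pb Z).filter (fP (fun g₂ g₃ d => DN n g₂ g₃ d ∧ Z / 2 < nm d) (Q B) g₂ g₃),
        ∑ g ∈ (S U).filter (fun g => GB g B d), WJ R (Z / (nm n : ℝ) ^ 3) U g g₂ *
          ‖CS (sub (cT α E B τ t) (g₂ * g₃)) d‖ ^ 2 := by
    simp only [Finset.mul_sum]
    rw [Finset.sum_comm]
    refine Finset.sum_congr rfl fun B _ => ?_
    have e3 : ∀ g ∈ S U, ∑ d ∈ (pb Z).filter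
        (fun d => ((DN n g₂ g₃ d ∧ GB g B d) ∧ Z / 2 < nm d) ∧ Q B d),
          WJ R (Z / (nm n : ℝ) ^ 3) U g g₂ * ‖CS (sub (cT α E B τ t) (g₂ * g₃)) d‖ ^ 2 =
        ∑ d ∈ (pb Z).filter (fP (fun g₂ g₃ d => DN n g₂ g₃ d ∧ Z / 2 < nm d) (Q B) g₂ g₃),
          if GB g B d then
            WJ R (Z / (nm n : ℝ) ^ 3) U g g₂ * ‖CS (sub (cT α E B τ t) (g₂ * g₃)) d‖ ^ 2
          else 0 := by
      intro g _
      rw [← Finset.sum_filter, Finset.filter_filter]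
      refine Finset.sum_congr ?_ fun _ _ => rfl
      ext d
      rw [Finset.mem_filter, Finset.mem_filter]
      constructor
      · rintro ⟨h1, ⟨⟨h2, h3⟩, h4⟩, h5⟩
        exact ⟨h1, ⟨⟨h2, h4⟩, h5⟩, h3⟩
      · rintro ⟨h1, ⟨⟨h2, h4⟩, h5⟩, h3⟩
        exact ⟨h1, ⟨⟨h2, h3⟩, h4⟩, h5⟩
    rw [Finset.sum_congr rfl e3, Finset.sum_comm]
    refine Finset.sum_congr rfl fun d _ => ?_
    rw [← Finset.sum_filter]
  rw [e2]
  refine Finset.sum_le_sum fun B _ => ?_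
  rw [Finset.mul_sum]
  refine Finset.sum_le_sum fun d _ => ?_
  -- at most one `g`
  set T := (S U).filter (fun g => GB g B d) with hT
  have hcard : T.card ≤ 1 := by
    rw [Finset.card_le_one]
    intro a ha b hb
    rw [hT, Finset.mem_filter] at ha hb
    exact GB_unique ((mem_S hU).1 ha.1).2.1 ((mem_S hU).1 hb.1).2.1 ha.2 hb.2
  have hb : ∀ g ∈ T, WJ R (Z / (nm n : ℝ) ^ 3) U g g₂ *
      ‖CS (sub (cT α E B τ t) (g₂ * g₃)) d‖ ^ 2 ≤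
      (1 + C0) * U * WM R (Z / (nm n : ℝ) ^ 3) g₂ g₃ *
        ‖CS (sub (cT α E B τ t) (g₂ * g₃)) d‖ ^ 2 := by
    intro g hg
    rw [hT, Finset.mem_filter] at hg
    obtain ⟨k1, k2, k3⟩ := (mem_S hU).1 hg.1
    exact mul_le_mul_of_nonneg_right (WJ_le_WM hC hR hZn0 hZn hU hZU k2 k1 hg2) (sq_nonneg _)
  refine (Finset.sum_le_sum hb).trans ?_
  rw [Finset.sum_const, nsmul_eq_mul]
  have hW := H1401.WM_nonneg (R := R) (Z := Z / (nm n : ℝ) ^ 3) hR hZn0 g₂ g₃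
  have h0 : 0 ≤ (1 + C0) * U * WM R (Z / (nm n : ℝ) ^ 3) g₂ g₃ *
        ‖CS (sub (cT α E B τ t) (g₂ * g₃)) d‖ ^ 2 := by positivity
  calc (T.card : ℝ) * _ ≤ 1 * ((1 + C0) * U * WM R (Z / (nm n : ℝ) ^ 3) g₂ g₃ *
        ‖CS (sub (cT α E B τ t) (g₂ * g₃)) d‖ ^ 2) := by
        refine mul_le_mul_of_nonneg_right ?_ h0
        exact_mod_cast hcard
    _ = _ := one_mul _

/-- **the joint functional of a block through the hypothesis `MH`** of the separate functionals -/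
theorem mojq_MH {C0 R X : ℝ} (hC : 0 ≤ C0) (hR : 0 ≤ R) (hX : 0 ≤ X) {σ ν E : Eis} (hν : ν ≠ 0)
    {α : Eis → ℂ} {J : ℕ} {N : Eis → ℕ} {Q : Eis → Eis → Eis → Prop} {Mp : Eis → ℕ → ℝ}
    (hMH : MH (WM R) (fun n j g₂ g₃ d => DN n g₂ g₃ d ∧ (2 : ℝ) ^ j / 2 < nm d) Q α E σ ν X J N Mp)
    {u j : ℕ} (hju : ((2 : ℝ) ^ j * 2 ^ u) ^ 2 ≤ C0 * R) (i : IX σ) (t : ℝ) :
    MoJQ ν α E (dl' σ i) X t R (2 ^ j) (2 ^ u) (Bj X N u j) (fun B d => Q B (dl' σ i) d) ≤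
      (1 + |t|) ^ J * ((1 + C0) * 2 ^ u * ∑ B ∈ Bj X N u j, Mp B j) := by
  refine (mojq_le hC hR (by positivity) (by positivity) hX hju hν α E (dl' σ i) _ _).trans ?_
  calc (1 + C0) * 2 ^ u * ∑ B ∈ Bj X N u j, ∑ n ∈ dvs ν, (nm n : ℝ) *
        MoP α E B (dl' σ i) X t (2 ^ j) (WM R (2 ^ j / (nm n : ℝ) ^ 3))
          (fP (fun g₂ g₃ d => DN n g₂ g₃ d ∧ (2 : ℝ) ^ j / 2 < nm d) (Q B (dl' σ i))) ≤
      (1 + C0) * 2 ^ u * ∑ B ∈ Bj X N u j, (1 + |t|) ^ J * Mp B j := by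
        refine mul_le_mul_of_nonneg_left (Finset.sum_le_sum fun B hB => ?_) (by positivity)
        unfold E2D401.Bj at hB
        rw [Finset.mem_filter] at hB
        exact hMH B hB.1 i t j hB.2.2
    _ = _ := by rw [← Finset.mul_sum]; ring

end Crest.Agent.R017.MoJPr176
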