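import Crest.Agent.R017.MoL5_106

/-!
# Row 17, E2: list form of the error functionals, part 6 (helper106): natural children, unmerged

* `nat_kidW`, `nat_kidF` : natural children, weighted frequencies, families of frequencies
* `MoC_list` : the moment functional for lists of pieces
-/

set_option autoImplicit false
set_option maxHeartbeats 400000

noncomputable section

open Complex Finset
open scoped ComplexConjugate

namespace Crest.Agent.R017.MoL106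

open Crest.Agent.R012 Crest.Agent.R012.Eis Crest.Agent.R012.LS2 Crest.Agent.R012.Gauss880
open Crest.Agent.R012.Div277 Crest.Agent.R012.Weight600
open Crest.Agent.R017.CM106 Crest.Agent.R017.FE47 Crest.Agent.R017.End699
open Crest.Agent.R017.B770
open Crest.Agent.R017.Prov71
open Crest.Agent.R017.HP842 (UT Pc pc KS sqc Kg uv alL al ssub norm_uv_le pc_support sq_nat_pc)
open Crest.Agent.R017.HSep813 (gw norm_gw_le)
open Crest.Agent.R017.TPOk571 (IP FP SD SD_w SD_len SD_ht sd_ok AC relU)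
open Crest.Agent.R017.TP320 (VC VG VC_mono VC_nonneg Fam)
open Crest.Agent.R017.X6C180 (IX dl')
open Crest.Agent.R017.Win813 (iA iA_nonneg WK)
open Crest.Agent.R017.XRG106
open Crest.Agent.R017.MoF106

/-- **natural children**, weighted frequencies -/
theorem nat_kidW {h : ℝ → ℝ} {c : ℝ} (hpu : PU h c) {R : ℝ} (hR0 : 0 ≤ R)
    (hR : ∀ u, cx h u ≠ 0 → |u| ≤ R) {μ : ℝ} (hμ : 0 ≤ μ) (r : ℕ) {ε : ℝ} (hε : 0 < ε) :
    ∃ C : ℝ, 1 ≤ C ∧ ∀ (P : DPar) (hP : P.OK) (s : Fin r → Pq), (∀ i, 0 ≤ (s i).z) →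
      ∀ j : Fin r → IP, (∀ i, FromP hP (j i) (s i)) → ∀ j' : Fin r → IP,
      (SD h μ r).good j' → (SD h μ r).dom (r * (2 * R + 3)) j' j →
      ∀ q' : Eis, IsPrim q' → ∀ X0 : ℝ, 1 ≤ X0 → (nm q' : ℝ) ≤ X0 →
      (∀ i, Real.exp (s i).z ≤ X0) → ∀ (Kf : Finset Eis) (cw : Eis → ℝ), (∀ k ∈ Kf, 0 ≤ cw k) →
      ∀ (Bd : ℝ), 0 ≤ Bd →
      (∀ (s' : Fin r → Pq) (W : ℝ), 1 ≤ W → (∀ i, Rl C W (s' i) (s i)) →
        ∑ i, (s' i).z ≤ (SD h μ r).len j' + C →
        ∑ k ∈ Kf, cw k * ∏ i, ‖CS (pc h ((s' i).pc P)) k‖ ^ 2 ≤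
          Bd * Real.exp (∑ i, (s' i).z - (SD h μ r).len j') * W ^ (2 * μ)) →
      ∑ k ∈ Kf, cw k * ‖CS (TP320.sq q' ((SD h μ r).w j')) k‖ ^ 2 ≤
        C * X0 ^ ε * Bd * (SD h μ r).ht j' ^ 2 := by
  classical
  obtain ⟨T, C1, hC1, hT, hrep⟩ := exists_rep hpu hR
  have hΦ := sd_ok hpu hR0 hR hμ r
  set Rt : ℝ := r * (2 * R + 3) with hRt
  have hRt0 : 0 ≤ Rt := by positivity
  set ε' : ℝ := ε / 2 with hε'
  have hε'0 : 0 < ε' := by positivity
  obtain ⟨C3, hC3, hS⟩ := sq_nat_pc r hR0 hε'0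
  set Kr : ℝ := (C1 ^ 2) ^ r * Real.exp (r * (R + C1)) with hKr
  have hKr1 : 1 ≤ Kr := by
    refine one_le_mul_of_one_le_of_one_le (one_le_pow₀ (one_le_pow₀ hC1)) ?_
    exact Real.one_le_exp (by positivity)
  have hE1 : 1 ≤ Real.exp Rt := Real.one_le_exp hRt0
  set Kc : ℝ := C3 * Real.exp Rt ^ ε' * Kr with hKc
  have hKc1 : 1 ≤ Kc := one_le_mul_of_one_le_of_one_le
    (one_le_mul_of_one_le_of_one_le hC3 (Real.one_le_rpow hE1 hε'0.le)) hKr1
  have hrR : 0 ≤ (r : ℝ) * (R + C1) := by positivity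
  refine ⟨Kc + Rt + C1 + Real.exp Rt + r * (R + C1), by linarith, ?_⟩
  set C' : ℝ := Kc + Rt + C1 + Real.exp Rt + r * (R + C1) with hC'
  have hC'1 : Kc ≤ C' := by linarith
  have hC'3 : Rt + C1 ≤ C' := by linarith
  have hC'4 : Real.exp Rt ≤ C' := by linarith
  have hC'5 : r * (R + C1) ≤ C' := by linarith
  have hC'0 : 1 ≤ C' := by linarith
  intro P hP s hs j hj j' hgood hdom q' hq' X0 hX0 hqX hsX Kf cw hcw Bd hBd hyp
  have hX00 : 0 < X0 := by linarith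
  have hgood' : ∀ i, 0 ≤ (j' i).z := hgood
  have hdom' : ∀ i, (j' i).z ≤ (j i).z + Rt ∧ (j' i).t0 = (j i).t0 ∧ (j' i).ψ = (j i).ψ ∧
      relU (j' i).u (j i).u := hdom
  have hz' : ∀ i, (j' i).z ≤ (s i).z + Rt := fun i => by
    have := (hdom' i).1
    have := (hj i).z
    linarith
  set W : ℝ := ∏ i, (1 + |(j' i).s|) with hW
  have hW1' : ∀ i, (1 : ℝ) ≤ 1 + |(j' i).s| := fun i => by linarith [abs_nonneg (j' i).s]
  have hW1 : 1 ≤ W := by
    rw [hW]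
    exact Finset.one_le_prod fun i _ => hW1' i
  have hWi : ∀ i, 1 + |(j' i).s| ≤ W := by
    intro i
    rw [hW, ← Finset.mul_prod_erase _ _ (Finset.mem_univ i)]
    refine le_mul_of_one_le_right (by linarith [hW1' i]) ?_
    exact Finset.one_le_prod fun i _ => hW1' i
  have hht' : (SD h μ r).ht j' ^ 2 = W ^ (2 * μ) := by
    rw [SD_ht, Real.finset_prod_rpow _ _ fun i _ => by linarith [hW1' i], ← hW,
      ← Real.rpow_natCast, ← Real.rpow_mul (by linarith)]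
    congr 1
    push_cast; ring
  rw [hht']
  have hlenj' : (SD h μ r).len j' = ∑ i, (j' i).z := SD_len h μ r j'
  have eVC : ∑ k ∈ Kf, cw k * ‖CS (TP320.sq q' ((SD h μ r).w j')) k‖ ^ 2 =
      ∑ k ∈ Kf, cw k * ‖CS (sqc q' (al h (fun i => (j' i).pc))) k‖ ^ 2 := by
    rw [HP842.sq_eq_sqc (fun n => hΦ.prim j' n), SD_w]
  rw [eVC]
  set B : ℝ := Bd * Real.exp (-(SD h μ r).len j') * W ^ (2 * μ) * Kr with hB
  have hW0 : 0 < W := by linarith
  have hB0 : 0 ≤ B := by positivity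
  have hq'0 : (0 : ℝ) < nm q' := by exact_mod_cast nm_pos.2 hq'.ne_zero
  have key2 := hS h hR (Fin r) (by simp) (fun i => (j' i).pc) (fun i => (j' i).pc_OK)
    (Real.exp Rt * X0) (one_le_mul_of_one_le_of_one_le hE1 hX0) (fun i => by
      show Real.exp (j' i).z ≤ _
      calc Real.exp (j' i).z ≤ Real.exp ((s i).z + Rt) := Real.exp_le_exp.2 (hz' i)
        _ = Real.exp (s i).z * Real.exp Rt := Real.exp_add _ _
        _ ≤ X0 * Real.exp Rt := mul_le_mul_of_nonneg_right (hsX i) (Real.exp_pos _).le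
        _ = _ := mul_comm _ _) q' hq'.ne_zero Kf cw hcw B hB0 ?_
  · refine key2.trans ?_
    have e1 : ∏ i, ((j' i).pc).Y = Real.exp ((SD h μ r).len j') := by
      rw [hlenj', Real.exp_sum]
      rfl
    rw [e1]
    have h6 : (nm q' : ℝ) ^ ε' ≤ X0 ^ ε' := Real.rpow_le_rpow hq'0.le hqX hε'0.le
    have h7 : (Real.exp Rt * X0) ^ ε' = Real.exp Rt ^ ε' * X0 ^ ε' :=
      Real.mul_rpow (Real.exp_pos _).le hX00.le
    rw [h7]
    have hp : 0 ≤ B * Real.exp ((SD h μ r).len j') := by positivity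
    have e3 : X0 ^ ε = X0 ^ ε' * X0 ^ ε' := by
      rw [← Real.rpow_add hX00]
      congr 1
      rw [hε']; ring
    have e4 : Real.exp (-(SD h μ r).len j') * Real.exp ((SD h μ r).len j') = 1 := by
      rw [← Real.exp_add, neg_add_cancel, Real.exp_zero]
    calc C3 * (nm q' : ℝ) ^ ε' * (Real.exp Rt ^ ε' * X0 ^ ε') *
          (B * Real.exp ((SD h μ r).len j'))
        ≤ C3 * X0 ^ ε' * (Real.exp Rt ^ ε' * X0 ^ ε') *
          (B * Real.exp ((SD h μ r).len j')) := by gcongr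
      _ = Kc * X0 ^ ε * Bd * W ^ (2 * μ) *
          (Real.exp (-(SD h μ r).len j') * Real.exp ((SD h μ r).len j')) := by
          rw [hB, e3, hKc]; ring
      _ = Kc * X0 ^ ε * Bd * W ^ (2 * μ) := by rw [e4, mul_one]
      _ ≤ C' * X0 ^ ε * Bd * W ^ (2 * μ) := by gcongr
  -- the grandchildren
  intro b hb
  have hb0 : ∀ i, b i ≠ 0 := fun i => (hb i).ne_zero
  set g : Fin r → Pq := fun i => (chd (s i) (j' i)).sub (b i) (hb0 i) with hg
  have hgz : ∀ i, (g i).z = (j' i).z - Real.log (nm (b i)) := fun i => rfl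
  have hlogb : ∀ i, 0 ≤ Real.log (nm (b i)) := fun i =>
    Real.log_nonneg (by exact_mod_cast nm_pos.2 (hb0 i))
  have hgpc : ∀ i, (g i).pc P = ((j' i).pc).sub (b i) := by
    intro i
    rw [← chd_pc hP ((hdom' i).2.2.1.trans (hj i).ψ)]
    exact HP842.Pq_sub_pc P _ (hb0 i)
  have e2 : ssub (fun i => (j' i).pc) b = fun i => (g i).pc P := by
    funext i
    rw [hgpc]
    rfl
  have hh : Bump h := ⟨R, hR⟩
  have hY : ∏ i, (ssub (fun i => (j' i).pc) b i).Y = ∏ i, Real.exp (g i).z := by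
    rw [e2]
    rfl
  rw [hY, e2]
  have hr0 : 0 ≤ B * ∏ i, Real.exp (g i).z :=
    mul_nonneg hB0 (Finset.prod_nonneg fun i _ => (Real.exp_pos _).le)
  by_cases hneg : ∃ i, (g i).z < -R
  · obtain ⟨i, hi⟩ := hneg
    rw [Finset.sum_eq_zero]
    · exact hr0
    intro k _
    rw [CS_al hh hP, Finset.prod_eq_zero (Finset.mem_univ i) (CS_eq_zero hR hP hi k)]
    simp
  push Not at hneg
  have hRl : ∀ i, Rl C' W (rep T (g i)) (s i) := by
    intro i
    have hd := hdom' i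
    have hd1 : (1 : ℝ) ≤ nm (s i).d := by exact_mod_cast nm_pos.2 (s i).d0
    have hz1 : 1 ≤ Real.exp (s i).z := Real.one_le_exp (hs i)
    unfold rep
    by_cases hz : (g i).z < 0
    · rw [if_pos hz]
      obtain ⟨t1, t2, t3, t4, t5, t6⟩ := hT (g i).kd
      refine ⟨t1, fun _ => t2, t3, ?_, ?_, ?_⟩
      · linarith [hs i]
      · rw [t5, abs_zero, add_zero]
        exact one_le_mul_of_one_le_of_one_le hW1 (by linarith [abs_nonneg (s i).t])
      · refine t6.trans ?_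
        have : C1 ≤ C' := by linarith
        calc C1 ≤ C' * 1 * 1 := by linarith
          _ ≤ C' * nm (s i).d * Real.exp (s i).z := by gcongr
    · rw [if_neg hz]
      push Not at hz
      refine ⟨rfl, fun h1 => ?_, hz, ?_, ?_, ?_⟩
      · have h2 : (j' i).u = .one := by
          have h4 := (hj i).one h1
          rcases hd.2.2.2 with h3 | h3
          · rw [h3, h4]
          · rw [h4] at h3
            exact absurd h3.1 (by decide)
        show ((j' i).u).sub (b i) = .one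
        rw [h2]
        unfold HP842.UT.sub
        rw [if_neg]
        rintro ⟨h3, _⟩
        exact absurd h3 (by decide)
      · rw [hgz]
        linarith [hz' i, hlogb i]
      · show 1 + |(j' i).t0 + (j' i).s| ≤ _
        rw [hd.2.1, (hj i).t0]
        exact one_add_mul (hWi i)
      · have h3 : (nm (g i).d : ℝ) ≤ nm (s i).d * nm (b i) := by
          have hb1 : (1 : ℝ) ≤ nm (b i) := by exact_mod_cast nm_pos.2 (hb0 i)
          have e5 : (g i).d = if (j' i).u = .mu ∨ (j' i).u = .sq then (s i).d * b i else (s i).d := by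
            rfl
          rw [e5]
          split_ifs
          · rw [nm_mul]; push_cast; exact le_rfl
          · exact le_mul_of_one_le_right (Nat.cast_nonneg _) hb1
        have h4 : (nm (b i) : ℝ) ≤ Real.exp Rt * Real.exp (s i).z := by
          have hbp : (0 : ℝ) < nm (b i) := by exact_mod_cast nm_pos.2 (hb0 i)
          rw [← Real.exp_add, ← Real.exp_log hbp]
          refine Real.exp_le_exp.2 ?_
          rw [hgz] at hz
          linarith [hz' i]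
        calc (nm (g i).d : ℝ) ≤ nm (s i).d * nm (b i) := h3
          _ ≤ nm (s i).d * (Real.exp Rt * Real.exp (s i).z) := by gcongr
          _ ≤ nm (s i).d * (C' * Real.exp (s i).z) := by gcongr
          _ = _ := by ring
  have h9 : ∑ i, (rep T (g i)).z ≤ (∑ i, (g i).z) + r * (R + C1) := by
    calc ∑ i, (rep T (g i)).z ≤ ∑ i, ((g i).z + (R + C1)) := by
          refine Finset.sum_le_sum fun i _ => ?_
          unfold rep
          by_cases hz : (g i).z < 0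
          · rw [if_pos hz]
            have := (hT (g i).kd).2.2.2.1
            linarith [hneg i]
          · rw [if_neg hz]
            linarith
      _ = _ := by
          rw [Finset.sum_add_distrib, Finset.sum_const, Finset.card_univ, Fintype.card_fin,
            nsmul_eq_mul]
  have h10 : ∑ i, (g i).z ≤ (SD h μ r).len j' := by
    rw [hlenj']
    exact Finset.sum_le_sum fun i _ => by rw [hgz]; linarith [hlogb i]
  have h8 := hyp (fun i => rep T (g i)) W hW1 hRl (by linarith)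
  calc ∑ k ∈ Kf, cw k * ‖CS (al h fun i => (g i).pc P) k‖ ^ 2
      ≤ ∑ k ∈ Kf, (C1 ^ 2) ^ r * (cw k * ∏ i, ‖CS (pc h ((rep T (g i)).pc P)) k‖ ^ 2) := by
        refine Finset.sum_le_sum fun k hk => ?_
        rw [mul_left_comm]
        refine mul_le_mul_of_nonneg_left ?_ (hcw k hk)
        rw [CS_al hh hP, norm_prod, ← Finset.prod_pow]
        calc ∏ i, ‖CS (pc h ((g i).pc P)) k‖ ^ 2
            ≤ ∏ i, (C1 ^ 2 * ‖CS (pc h ((rep T (g i)).pc P)) k‖ ^ 2) := by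
              refine Finset.prod_le_prod (fun i _ => by positivity) fun i _ => ?_
              rw [← mul_pow]
              exact pow_le_pow_left₀ (norm_nonneg _) (hrep P hP (g i) k) 2
          _ = _ := by
              rw [Finset.prod_mul_distrib, Finset.prod_const, Finset.card_univ, Fintype.card_fin]
    _ = (C1 ^ 2) ^ r * ∑ k ∈ Kf, cw k * ∏ i, ‖CS (pc h ((rep T (g i)).pc P)) k‖ ^ 2 := by
        rw [Finset.mul_sum]
    _ ≤ (C1 ^ 2) ^ r * (Bd * Real.exp (∑ i, (rep T (g i)).z - (SD h μ r).len j') *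
          W ^ (2 * μ)) := by gcongr
    _ ≤ (C1 ^ 2) ^ r * (Bd * Real.exp (((∑ i, (g i).z) + r * (R + C1)) -
          (SD h μ r).len j') * W ^ (2 * μ)) := by gcongr
    _ = B * ∏ i, Real.exp (g i).z := by
        rw [hB, hKr, ← Real.exp_sum]
        rw [show (∑ i, (g i).z) + r * (R + C1) - (SD h μ r).len j' =
          (∑ i, (g i).z) + (r * (R + C1) + -(SD h μ r).len j') by ring, Real.exp_add,
          Real.exp_add]
        ring

/-- **natural children**, a family of frequencies -/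
theorem nat_kidF {h : ℝ → ℝ} {c : ℝ} (hpu : PU h c) {R : ℝ} (hR0 : 0 ≤ R)
    (hR : ∀ u, cx h u ≠ 0 → |u| ≤ R) {μ : ℝ} (hμ : 0 ≤ μ) (r : ℕ) {ε : ℝ} (hε : 0 < ε) :
    ∃ C : ℝ, 1 ≤ C ∧ ∀ (P : DPar) (hP : P.OK) (s : Fin r → Pq), (∀ i, 0 ≤ (s i).z) →
      ∀ j : Fin r → IP, (∀ i, FromP hP (j i) (s i)) → ∀ j' : Fin r → IP,
      (SD h μ r).good j' → (SD h μ r).dom (r * (2 * R + 3)) j' j →
      ∀ q' : Eis, IsPrim q' → ∀ X0 : ℝ, 1 ≤ X0 → (nm q' : ℝ) ≤ X0 →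
      (∀ i, Real.exp (s i).z ≤ X0) → ∀ (ι : Type) (I : Finset ι) (f : ι → Eis) (Bd : ℝ), 0 ≤ Bd →
      (∀ (s' : Fin r → Pq) (W : ℝ), 1 ≤ W → (∀ i, Rl C W (s' i) (s i)) →
        ∑ i, (s' i).z ≤ (SD h μ r).len j' + C →
        ∑ x ∈ I, ∏ i, ‖CS (pc h ((s' i).pc P)) (f x)‖ ^ 2 ≤
          Bd * Real.exp (∑ i, (s' i).z - (SD h μ r).len j') * W ^ (2 * μ)) →
      ∑ x ∈ I, ‖CS (TP320.sq q' ((SD h μ r).w j')) (f x)‖ ^ 2 ≤
        C * X0 ^ ε * Bd * (SD h μ r).ht j' ^ 2 := by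
  classical
  obtain ⟨C, hC, hk⟩ := nat_kidW hpu hR0 hR hμ r hε
  refine ⟨C, hC, ?_⟩
  intro P hP s hs j hj j' hg hd q' hq' X0 hX0 hqX hsX ι I f Bd hBd hyp
  have key : ∀ F : Eis → ℝ, ∑ x ∈ I, F (f x) =
      ∑ k ∈ I.image f, ((I.filter (fun x => f x = k)).card : ℝ) * F k := by
    intro F
    rw [← Finset.sum_fiberwise_of_maps_to (g := f) (t := I.image f)
      (fun x hx => Finset.mem_image_of_mem f hx)]
    refine Finset.sum_congr rfl fun k _ => ?_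
    rw [Finset.sum_congr rfl (g := fun _ => F k) (fun x hx => by
      rw [(Finset.mem_filter.1 hx).2]), Finset.sum_const, nsmul_eq_mul]
  have h1 := hk P hP s hs j hj j' hg hd q' hq' X0 hX0 hqX hsX (I.image f)
    (fun k => ((I.filter (fun x => f x = k)).card : ℝ)) (fun _ _ => Nat.cast_nonneg _) Bd hBd
    (fun s' W hW hRl hle => by
      have h2 := hyp s' W hW hRl hle
      rwa [key (fun k => ∏ i, ‖CS (pc h ((s' i).pc P)) k‖ ^ 2)] at h2)
  rw [key (fun k => ‖CS (TP320.sq q' ((SD h μ r).w j')) k‖ ^ 2)]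
  exact h1

lemma NX_sq_le {ε : ℝ} (hε : 0 < ε) : ∃ C : ℝ, 1 ≤ C ∧ ∀ X X0 : ℝ, 1 ≤ X → X ≤ X0 →
    ((NX X : ℝ)) ^ 2 ≤ C * X0 ^ ε := by
  have hε2 : 0 < ε / 2 := by linarith
  have hinv : 0 < (ε / 2)⁻¹ := by positivity
  refine ⟨(3 * (ε / 2)⁻¹ + 1) ^ 2, one_le_pow₀ (by linarith), ?_⟩
  intro X X0 hX hXX
  have hX0 : 0 < X0 := by linarith
  have h1 : (NX X : ℝ) ≤ 3 * Real.log X + 1 := by
    unfold NX
    push_cast
    have := Nat.floor_le (a := 3 * Real.log X) (by have := Real.log_nonneg hX; positivity)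
    linarith
  have h2 : Real.log X ≤ (ε / 2)⁻¹ * X0 ^ (ε / 2) := by
    have h5 : Real.log X ≤ (ε / 2)⁻¹ * X ^ (ε / 2) := by
      have h := Real.log_le_rpow_div (by linarith : (0 : ℝ) ≤ X) hε2
      rwa [div_eq_inv_mul] at h
    refine h5.trans (mul_le_mul_of_nonneg_left ?_ hinv.le)
    exact Real.rpow_le_rpow (by linarith) hXX hε2.le
  have h3 : 1 ≤ X0 ^ (ε / 2) := Real.one_le_rpow (by linarith) hε2.le
  have h4 : (NX X : ℝ) ≤ (3 * (ε / 2)⁻¹ + 1) * X0 ^ (ε / 2) := by nlinarith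
  calc (NX X : ℝ) ^ 2 ≤ ((3 * (ε / 2)⁻¹ + 1) * X0 ^ (ε / 2)) ^ 2 :=
        pow_le_pow_left₀ (Nat.cast_nonneg _) h4 2
    _ = _ := by
        rw [mul_pow, ← Real.rpow_natCast (X0 ^ (ε / 2)) 2, ← Real.rpow_mul hX0.le]
        congr 2
        push_cast; ring

/-- **the moment functional for lists of pieces**, unmerged -/
theorem MoC_list {h : ℝ → ℝ} {c : ℝ} (hpu : PU h c) {R : ℝ} (hR0 : 0 ≤ R)
    (hR : ∀ u, cx h u ≠ 0 → |u| ≤ R) {μ : ℝ} (hμ : 0 ≤ μ) (r : ℕ) (σ : Eis) {ε : ℝ}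
    (hε : 0 < ε) :
    ∃ C : ℝ, 1 ≤ C ∧ ∀ (A' : ℕ), 2 * (r * μ) + 2 ≤ A' → ∀ (Cφ η : ℝ), 0 < η →
      ∀ (P : DPar) (hP : P.OK) (s : Fin r → Pq), (∀ i, 0 ≤ (s i).z) →
      ∀ j : Fin r → IP, (∀ i, FromP hP (j i) (s i)) →
      ∀ (γ q g₀ δ E : Eis), IsPrim γ → Squarefree γ → IsPrim g₀ → IsPrim q → IsPrim δ →
      ∀ (T : Finset Eis) (u : ℕ) (X Z X0 : ℝ), 1 ≤ X → 1 ≤ Z → X ≤ X0 → (nm γ : ℝ) ≤ X0 →
      (nm g₀ : ℝ) ≤ X0 → (nm q : ℝ) ≤ X0 → (nm δ : ℝ) ≤ X0 → (∀ i, Real.exp (s i).z ≤ X0) →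
      ∀ (W : Eis → Eis → ℝ) (Wb : ℕ → ℕ → ℝ),
      (∀ g₂ ∈ S X, ∀ g₃ ∈ S X, 0 ≤ W g₂ g₃) →
      (∀ v < NX X, ∀ w < NX X, ∀ g₂ ∈ bk X v, ∀ g₃ ∈ bk X w, W g₂ g₃ ≤ Wb v w) →
      (∀ v < NX X, ∀ w < NX X, 0 ≤ Wb v w) →
      ∀ (Pr : Eis → Eis → IX σ → Eis → Eis → Eis → Prop),
      (∀ y B i g₂ g₃ d, Pr y B i g₂ g₃ d → g₂ ^ 2 * g₃ ^ 3 ∣ d) → ∀ M : ℝ, 0 ≤ M →
      (∀ v < NX X, ∀ w < NX X, 0 < Wb v w → ∀ i : IX σ, ∀ g₃ ∈ bk X w,
        ∀ (s' : Fin r → Pq) (W0 : ℝ), 1 ≤ W0 → (∀ k, Rl C W0 (s' k) (s k)) →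
        ∑ k, (s' k).z ≤ ∑ k, (j k).z + Real.log (nm γ) -
          (Real.log (nm g₀) + ((u : ℝ) / 3 + v / 3 + w / 3)) + C →
        Wb v w * Real.exp ((w : ℝ) / 3) * ∑ x ∈ Q4 T X Z u v (fun y B => Pr y B i) g₃,
          ∏ k, ‖CS (pc h ((s' k).pc P)) (f4 E (dl' σ i) x)‖ ^ 2 ≤
        M * Real.exp (∑ k, (s' k).z - (∑ k, (j k).z -
          (Real.log (nm g₀) + ((u : ℝ) / 3 + v / 3 + w / 3)))) * W0 ^ (2 * μ)) →
      ∑ y ∈ T, ∑ B ∈ bk X u,
        MoC Cφ η A' σ (aG γ q g₀ δ ((SD h μ r).w j)) (E * y) B X Z W (Pr y B) ≤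
        C * (Cφ ^ 2 * iA A' * (η * (η ^ A')⁻¹)) * X0 ^ ε * nm γ * M := by
  classical
  have hΦ := sd_ok hpu hR0 hR hμ r
  set Rt : ℝ := r * (2 * R + 3) with hRt
  have hRt0 : 0 ≤ Rt := by positivity
  obtain ⟨C1, hC1, hs1⟩ := MoC_blkG hΦ σ (show 0 < ε / 3 by linarith)
  obtain ⟨C2, hC2, hk⟩ := nat_kidF hpu hR0 hR hμ r (show 0 < ε / 15 by linarith)
  obtain ⟨C3, hC3, hNX⟩ := NX_sq_le (show 0 < ε / 3 by linarith)
  have hE1 : 1 ≤ Real.exp Rt := Real.one_le_exp hRt0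
  set Kc : ℝ := C1 * C2 * C3 * Real.exp Rt with hKc
  have hKc1 : 1 ≤ Kc := one_le_mul_of_one_le_of_one_le (one_le_mul_of_one_le_of_one_le
    (one_le_mul_of_one_le_of_one_le hC1 hC2) hC3) hE1
  refine ⟨Kc + C2 + Rt, by linarith, ?_⟩
  set C : ℝ := Kc + C2 + Rt with hC
  have hCK : Kc ≤ C := by linarith
  intro A' hA' Cφ η hη P hP s hs j hj γ q g₀ δ E hγ hγs hg₀ hq hδ T u X Z X0 hX hZ hXX hγX hgX
    hqX hδX hsX W Wb hW hWb hWb0 Pr hPr M hM hyp
  have hX0 : 0 ≤ X := by linarith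
  have hX01 : 1 ≤ X0 := by linarith
  have hX00 : 0 < X0 := by linarith
  have hγp : (1 : ℝ) ≤ nm γ := by exact_mod_cast nm_pos.2 hγ.ne_zero
  have hlenj : (SD h μ r).len j = ∑ k, (j k).z := SD_len h μ r j
  have hht : (SD h μ r).ht j = 1 := ht_one hj
  set D : ℝ := C2 * X0 ^ (ε / 3) * (Real.exp Rt * nm γ) * M with hD
  have hD0 : 0 ≤ D := by positivity
  set Mf : ℕ → ℕ → ℝ := fun v w => if 0 < Wb v w then D / (Wb v w * Real.exp ((w : ℝ) / 3)) else 0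
    with hMf
  have hMf0 : ∀ v < NX X, ∀ w < NX X, 0 ≤ Mf v w := by
    intro v _ w _
    simp only [hMf]
    split_ifs
    · positivity
    · exact le_rfl
  have hkid : ∀ v < NX X, ∀ w < NX X, 0 < Wb v w → ∀ i : IX σ,
      KidG (SD h μ r) Rt j γ g₀ (q * (δ * (g₀ * γ))) E (dl' σ i) T X Z u v w
        (fun y B => Pr y B i) (Mf v w) := by
    intro v hv w hw hWp i hd' hh j' hgood hdom hl hl2 g₃ hg₃
    rw [mem_dvs hγ.ne_zero] at hh
    have hhp : (1 : ℝ) ≤ nm hd' := by exact_mod_cast nm_pos.2 hh.1.ne_zero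
    have hhγ : (nm hd' : ℝ) ≤ nm γ := by
      exact_mod_cast Div277.nm_le_of_dvd hγ.ne_zero hh.2
    have hlog : Real.log (nm hd') ≤ Real.log (nm γ) := Real.log_le_log (by linarith) hhγ
    have hWE : 0 < Wb v w * Real.exp ((w : ℝ) / 3) := by positivity
    set al : ℝ := Real.log (nm g₀) + ((u : ℝ) / 3 + v / 3 + w / 3) with hal
    set Bd : ℝ := M * Real.exp ((SD h μ r).len j' - (∑ k, (j k).z - al)) /
      (Wb v w * Real.exp ((w : ℝ) / 3)) with hBd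
    have hBd0 : 0 ≤ Bd := by positivity
    have hg₃p := bk_prim hX0 hg₃
    have hg₃X : (nm g₃ : ℝ) ≤ X := ((mem_bk hX0).1 hg₃).1.1
    have hq' : (nm (q * (δ * (g₀ * γ)) * g₃) : ℝ) ≤ X0 ^ 5 := by
      rw [nm_mul, nm_mul, nm_mul, nm_mul]
      push_cast
      calc (nm q : ℝ) * (nm δ * (nm g₀ * nm γ)) * nm g₃ ≤ X0 * (X0 * (X0 * X0)) * X0 := by
            have := hg₃X.trans hXX
            gcongr
        _ = X0 ^ 5 := by ring
    have h1 := hk P hP s hs j hj j' hgood hdom (q * (δ * (g₀ * γ)) * g₃)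
      ((hq.mul (hδ.mul (hg₀.mul hγ))).mul hg₃p) (X0 ^ 5) (one_le_pow₀ hX01) hq'
      (fun i => (hsX i).trans (le_self_pow₀ hX01 (by norm_num))) I4
      (Q4 T X Z u v (fun y B => Pr y B i) g₃) (f4 E (dl' σ i)) Bd hBd0
      (fun s' W0 hW0 hRl hle => by
        have h2 := hyp v hv w hw hWp i g₃ hg₃ s' W0 hW0 (fun k => (hRl k).mono (by linarith))
          (by rw [hlenj] at hl; linarith)
        rw [mul_comm, ← le_div_iff₀ hWE] at h2
        refine h2.trans (le_of_eq ?_)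
        rw [hBd, show ∑ k, (s' k).z - (∑ k, (j k).z - al) =
          ((SD h μ r).len j' - (∑ k, (j k).z - al)) + (∑ k, (s' k).z - (SD h μ r).len j') by ring,
          Real.exp_add]
        ring)
    refine h1.trans ?_
    refine mul_le_mul_of_nonneg_right ?_ (sq_nonneg _)
    have e1 : (X0 ^ 5) ^ (ε / 15) = X0 ^ (ε / 3) := by
      rw [← Real.rpow_natCast, ← Real.rpow_mul hX00.le]
      congr 1
      push_cast; ring
    have e2 : Mf v w = D / (Wb v w * Real.exp ((w : ℝ) / 3)) := by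
      simp only [hMf]
      rw [if_pos hWp]
    have e3 : Real.exp ((SD h μ r).len j' - (∑ k, (j k).z - al)) ≤ Real.exp Rt * nm γ := by
      have h3 : (SD h μ r).len j' - (∑ k, (j k).z - al) ≤ Rt + Real.log (nm γ) := by
        rw [hlenj] at hl; linarith
      refine (Real.exp_le_exp.2 h3).trans (le_of_eq ?_)
      rw [Real.exp_add, Real.exp_log (by linarith)]
    rw [e1, e2, hBd, hD]
    rw [show C2 * X0 ^ (ε / 3) * (M * Real.exp ((SD h μ r).len j' - (∑ k, (j k).z - al)) /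
      (Wb v w * Real.exp ((w : ℝ) / 3))) = C2 * X0 ^ (ε / 3) *
      (M * Real.exp ((SD h μ r).len j' - (∑ k, (j k).z - al))) /
      (Wb v w * Real.exp ((w : ℝ) / 3)) by ring]
    refine div_le_div_of_nonneg_right ?_ hWE.le
    calc C2 * X0 ^ (ε / 3) * (M * Real.exp ((SD h μ r).len j' - (∑ k, (j k).z - al)))
        ≤ C2 * X0 ^ (ε / 3) * (M * (Real.exp Rt * nm γ)) := by gcongr
      _ = _ := by ring
  have h1 := hs1 A' hA' Cφ η hη j γ q g₀ δ E hγ hγs hg₀ T u X Z X0 hX hZ hXX hγX hgX W Wb Mf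
    hW hWb hWb0 hMf0 Pr hPr hkid
  refine h1.trans ?_
  have hsum : ∑ v ∈ Finset.range (NX X), ∑ w ∈ Finset.range (NX X),
      Wb v w * Real.exp ((w : ℝ) / 3) * Mf v w ≤ C3 * X0 ^ (ε / 3) * D := by
    have h2 : ∀ v ∈ Finset.range (NX X), ∀ w ∈ Finset.range (NX X),
        Wb v w * Real.exp ((w : ℝ) / 3) * Mf v w ≤ D := by
      intro v _ w _
      simp only [hMf]
      split_ifs with h0
      · rw [mul_div_cancel₀ _ (by positivity)]
      · rw [mul_zero]; exact hD0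
    refine (Finset.sum_le_sum fun v hv => Finset.sum_le_sum fun w hw => h2 v hv w hw).trans ?_
    rw [Finset.sum_const, Finset.sum_const, Finset.card_range, nsmul_eq_mul, nsmul_eq_mul,
      ← mul_assoc, ← pow_two]
    exact mul_le_mul_of_nonneg_right (hNX X X0 hX hXX) hD0
  have hpA : 0 ≤ Cφ ^ 2 * iA A' * (η * (η ^ A')⁻¹) := by
    have := iA_nonneg A'; positivity
  have e4 : X0 ^ ε = X0 ^ (ε / 3) * X0 ^ (ε / 3) * X0 ^ (ε / 3) := by
    rw [← Real.rpow_add hX00, ← Real.rpow_add hX00]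
    congr 1; ring
  rw [hht, one_pow, mul_one]
  calc C1 * (Cφ ^ 2 * iA A' * (η * (η ^ A')⁻¹)) * X0 ^ (ε / 3) *
        ∑ v ∈ Finset.range (NX X), ∑ w ∈ Finset.range (NX X),
          Wb v w * Real.exp ((w : ℝ) / 3) * Mf v w
      ≤ C1 * (Cφ ^ 2 * iA A' * (η * (η ^ A')⁻¹)) * X0 ^ (ε / 3) * (C3 * X0 ^ (ε / 3) * D) :=
        mul_le_mul_of_nonneg_left hsum (by positivity)
    _ = Kc * (Cφ ^ 2 * iA A' * (η * (η ^ A')⁻¹)) * X0 ^ ε * nm γ * M := by
        rw [hD, hKc, e4]; ring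
    _ ≤ C * (Cφ ^ 2 * iA A' * (η * (η ^ A')⁻¹)) * X0 ^ ε * nm γ * M := by gcongr

end Crest.Agent.R017.MoL106
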