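import Crest.Agent.R017.E2DK_401
import Crest.Agent.R017.MoL6_106

/-!
# Row 17, block C70, leaf E2 (helper401): list form of the block moment, part 1

* `MoJC` : the block functional through the children `sub (ag ..) g`, mean over heights
* `MoJ_bt_le` : the block moment of a twisted window at height `t₀` is bounded by `MoJC`
-/

set_option autoImplicit false

noncomputable section

open Complex
open scoped ComplexConjugate

namespace Crest.Agent.R017.MoJ401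

open Crest.Agent.R012 Crest.Agent.R012.Eis
open Crest.Agent.R012.Div277
open Crest.Agent.R012.LS2 (S mem_S)
open Crest.Agent.R012.Weight600 (osc norm_osc pw)
open Crest.Agent.R017.CM106 (sub CS FS)
open Crest.Agent.R017.X6C180 (IX dl')
open Crest.Agent.R017.H1401 (pb mem_pb WJ)
open Crest.Agent.R017.Win813 (iA iA_nonneg WK wn)
open Crest.Agent.R017.RGw813 (bt)
open Crest.Agent.R017.MoF106 (MoP MoP_nonneg MoI MoC MoI_nonneg dl aG aG_ne aW aW_eq aG_supp1)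
open Crest.Agent.R017.MoL106 (aT kw ag_bt ag_wn_dl aW_prim MoP_bt_le)
open Crest.Agent.R017.E2440 (cT ag)
open Crest.Agent.R017.E2D401 (MoJ MoC2 MoJ_le)

/-- the predicate of the cells -/
def PJ (n g : Eis) (Z : ℝ) (B g₂ g₃ d : Eis) : Prop :=
  n ^ 3 * (g₂ ^ 2 * g₃ ^ 3) ∣ d ∧ IsCoprime B d ∧ Z / (2 * nm g) < nm d

/-- the block functional through the children -/
def MoJC (C η : ℝ) (A : ℕ) (σ γ q g₀ δ : Eis) (w : Eis → ℂ) (ν E : Eis) (X R Z U : ℝ)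
    (Bs : Finset Eis) : ℝ := by
  classical
  exact ∑ n ∈ dvs ν, (nm n : ℝ) * ∑ g ∈ (S U).filter (fun g => IsCoprime g δ),
    ∑ B ∈ (S X).filter (fun B => g * B ∈ Bs),
      MoC C η A σ (aG γ q (g₀ * g) δ w) E B X (Z / nm g)
        (fun g₂ _ => WJ R (Z / (nm n : ℝ) ^ 3) U g g₂) (fun _ => PJ n g Z B)

lemma sub_ag {α : Eis → ℂ} {δ g₀ g : Eis} (h : IsCoprime g δ) :
    sub (ag α δ g₀) g = ag α δ (g₀ * g) := by
  classical
  funext n
  show ag α δ g₀ (g * n) = ag α δ (g₀ * g) n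
  unfold E2440.ag
  by_cases h1 : IsCoprime n δ
  · rw [if_pos h1, if_pos (h.mul_left h1), mul_assoc]
  · rw [if_neg h1, if_neg (fun h2 => h1 h2.of_mul_left_right)]

lemma sub_ag_zero {α : Eis → ℂ} {δ g₀ g : Eis} (h : ¬ IsCoprime g δ) :
    sub (ag α δ g₀) g = 0 := by
  classical
  funext n
  show ag α δ g₀ (g * n) = 0
  unfold E2440.ag
  rw [if_neg (fun h2 => h h2.of_mul_left_left)]

lemma CS_cT_zero (E B τ : Eis) (t : ℝ) (G d : Eis) :
    CS (sub (cT (0 : Eis → ℂ) E B τ t) G) d = 0 := by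
  unfold CM106.CS
  rw [← tsum_zero (α := ℂ) (β := Eis)]
  refine tsum_congr fun m => ?_
  show cT (0 : Eis → ℂ) E B τ t (G * m) * sy d m = 0
  unfold E2440.cT
  simp

section
variable {w : Eis → ℂ} {X₁ : ℝ} {γ q g₀ δ : Eis} {φ : ℝ → ℝ} {p : ℕ × ℕ} {t₀ : ℝ}

lemma al_ne (n : Eis)
    (h : ag (fun n => bt φ (dl γ (TP320.sq (q * γ) w)) p n * pw t₀ (nm n)) δ g₀ n ≠ 0) :
    aW φ γ q g₀ δ w n ≠ 0 := by
  rw [ag_bt, ag_wn_dl] at h
  unfold MoL106.aT at h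
  exact left_ne_zero_of_mul h

lemma al_sqf (hγ : IsPrim γ) (hγs : Squarefree γ) (n : Eis)
    (h : ag (fun n => bt φ (dl γ (TP320.sq (q * γ) w)) p n * pw t₀ (nm n)) δ g₀ n ≠ 0) :
    Squarefree n := by
  have h1 := al_ne n h
  unfold MoF106.aW at h1
  obtain ⟨-, c, h2, h3, h4, h5, -⟩ := aG_ne hγ.ne_zero (left_ne_zero_of_mul h1)
  have h6 : Squarefree (γ * c) := squarefree_mul_iff.mpr
    ⟨h5.of_mul_right_right.symm.isRelPrime, hγs, h4⟩
  rw [← h2] at h6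
  exact h6.of_mul_right

lemma al_fs (hX₁ : 0 ≤ X₁) (hw : ∀ n, w n ≠ 0 → (nm n : ℝ) ≤ X₁) (hγ : IsPrim γ)
    (hγs : Squarefree γ) (hg₀ : IsPrim g₀) :
    FS (ag (fun n => bt φ (dl γ (TP320.sq (q * γ) w)) p n * pw t₀ (nm n)) δ g₀) where
  fin := by
    refine Set.Finite.subset (S (nm γ * X₁)).finite_toSet fun n hn => ?_
    by_contra h
    have h1 := aG_supp1 (q := q) (δ := δ) hX₁ hw hγ hγs hg₀ isPrim_one n (fun h' => h (by exact_mod_cast h'))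
    rw [one_mul] at h1
    refine al_ne (p := p) (t₀ := t₀) (φ := φ) n hn ?_
    unfold MoF106.aW
    rw [h1, zero_mul]
  prim := fun n hn => aW_prim hγ hg₀ (al_ne n hn)

open Classical in
/-- the pair moment of one child as a functional `MoP` -/
lemma MoC2_sum {al : Eis → ℂ} {E τ : Eis} {X t Z R U : ℝ} (Bs : Finset Eis) (g n : Eis) :
    ∑ g₂ ∈ S X, ∑ g₃ ∈ S X, WJ R (Z / (nm n : ℝ) ^ 3) U g g₂ *
        MoC2 al E τ X t Z Bs g n g₂ g₃ =
      ∑ B ∈ (S X).filter (fun B => g * B ∈ Bs), MoP (sub al g) E B τ X t (Z / nm g)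
        (fun g₂ _ => WJ R (Z / (nm n : ℝ) ^ 3) U g g₂) (PJ n g Z B) := by
  unfold E2D401.MoC2 MoF106.MoP PJ
  simp only [Finset.mul_sum]
  rw [Finset.sum_congr rfl fun g₂ _ => Finset.sum_comm, Finset.sum_comm]
  refine Finset.sum_congr rfl fun B _ => Finset.sum_congr rfl fun g₂ _ =>
    Finset.sum_congr rfl fun g₃ _ => ?_
  refine Finset.sum_congr ?_ fun _ _ => rfl
  ext d
  simp only [Finset.mem_filter]

/-- **the block moment of a twisted window at height `t₀`** -/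
theorem MoJ_bt_le {E ν : Eis} {X R Z U : ℝ} {σ : Eis} {Bs : Finset Eis} {C η : ℝ} {A : ℕ}
    (hC : 0 ≤ C) (hη : 0 < η) (hη1 : η ≤ 1) (hA : 2 ≤ A) (hφ : WK C η A φ) (hX₁ : 0 ≤ X₁)
    (hw : ∀ n, w n ≠ 0 → (nm n : ℝ) ≤ X₁) (hX : 0 ≤ X) (hR : 0 ≤ R) (hZ : 0 ≤ Z) (hU : 0 ≤ U)
    (hγ : IsPrim γ) (hγs : Squarefree γ) (hg₀ : IsPrim g₀) (hBs : ∀ B ∈ Bs, B ∈ S X)
    (p : ℕ × ℕ) (t₀ : ℝ) (i : IX σ) (t : ℝ) :
    MoJ ν (ag (fun n => bt φ (dl γ (TP320.sq (q * γ) w)) p n * pw t₀ (nm n)) δ g₀) E (dl' σ i)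
        X t R Z U Bs ≤
      (1 + |t|) ^ A * ((1 + |t₀|) ^ A *
        MoJC C η A σ γ q g₀ δ w ν (E * kw p ^ 2) X R Z U Bs) := by
  classical
  set al := ag (fun n => bt φ (dl γ (TP320.sq (q * γ) w)) p n * pw t₀ (nm n)) δ g₀ with hal
  refine (MoJ_le (al_fs hX₁ hw hγ hγs hg₀) (al_sqf hγ hγs) hX hZ hR hU ν E (dl' σ i) t
    hBs).trans ?_
  rw [← hal]
  unfold MoJC
  rw [← mul_assoc, Finset.mul_sum]
  refine Finset.sum_le_sum fun n _ => ?_
  rw [mul_left_comm]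
  refine mul_le_mul_of_nonneg_left ?_ (Nat.cast_nonneg _)
  have e1 : ∑ g₂ ∈ S X, ∑ g₃ ∈ S X, ∑ g ∈ S U, WJ R (Z / (nm n : ℝ) ^ 3) U g g₂ *
        MoC2 al E (dl' σ i) X t Z Bs g n g₂ g₃ =
      ∑ g ∈ S U, ∑ B ∈ (S X).filter (fun B => g * B ∈ Bs),
        MoP (sub al g) E B (dl' σ i) X t (Z / nm g)
        (fun g₂ _ => WJ R (Z / (nm n : ℝ) ^ 3) U g g₂) (PJ n g Z B) := by
    rw [Finset.sum_congr rfl fun g₂ _ => Finset.sum_comm, Finset.sum_comm]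
    exact Finset.sum_congr rfl fun g _ => MoC2_sum Bs g n
  rw [e1, Finset.mul_sum, Finset.sum_filter]
  refine Finset.sum_le_sum fun g hg => ?_
  obtain ⟨-, hg1, -⟩ := (mem_S hU).mp hg
  by_cases hgδ : IsCoprime g δ
  · rw [if_pos hgδ, Finset.mul_sum]
    refine Finset.sum_le_sum fun B hB => ?_
    rw [hal, sub_ag hgδ, mul_assoc]
    exact MoP_bt_le (P := fun _ => PJ n g Z B) hC hη hη1 hA hφ hX₁ hw hX hγ hγs (hg₀.mul hg1)
      ((mem_S hX).1 (Finset.mem_filter.mp hB).1).2.1 (fun _ _ _ _ => H1401.WJ_nonneg hR _ _) p t₀ i t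
  · rw [if_neg hgδ]
    refine le_of_eq (Finset.sum_eq_zero fun B _ => ?_)
    rw [hal, sub_ag_zero hgδ]
    unfold MoF106.MoP
    refine Finset.sum_eq_zero fun g₂ _ => Finset.sum_eq_zero fun g₃ _ => ?_
    rw [Finset.sum_eq_zero, mul_zero]
    intro d _
    rw [CS_cT_zero]
    simp

end

end Crest.Agent.R017.MoJ401
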