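import Crest.Agent.R017.PMBa_521

/-!
# Row 17, E2: Poisson - merge (helper521), part 2

* `P_ruleB` : **(P) for closed families, summed over a block of fixed twists `B`**, the Gauss side
  merged into one full family
-/

set_option autoImplicit false

noncomputable section

open Complex MeasureTheory
open scoped ComplexConjugate

namespace Crest.Agent.R017.PMB521

open Crest.Agent.R012 Crest.Agent.R012.Eis Crest.Agent.R012.LS2 Crest.Agent.R012.Gauss880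
open Crest.Agent.R012.Div277 Crest.Agent.R012.CR2
open Crest.Agent.R017.PA842 (V Supp)
open Crest.Agent.R017.PM106 (DIM one_stepM integrable_DIM DIM_nonneg DIM_mono)
open Crest.Agent.R017.PI106 (DD DD_nonneg iterM)
open Crest.Agent.R017.CM106 (CS TG FS)
open Crest.Agent.R017.TP320

set_option maxHeartbeats 4000000

lemma card_Bs_le {E : ℝ} (hE : 0 ≤ E) {Bs : Finset Eis}
    (hBs : ∀ B ∈ Bs, IsPrim B ∧ (nm B : ℝ) ≤ E) : (Bs.card : ℝ) ≤ 16 * E := by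
  have h : Bs ⊆ bl E := fun B hB => (mem_bl hE).2 ⟨(hBs B hB).1.ne_zero, (hBs B hB).2⟩
  exact le_trans (by exact_mod_cast Finset.card_le_card h) (card_bl_le hE)

/-- **(P) for closed families, summed over a block of twists** -/
theorem P_ruleB {J : Type} {Φ : Fam J} {R A : ℝ} (hΦ : Φ.Ok R A) {ε : ℝ} (hε : 0 < ε) :
    ∃ C r : ℝ, 1 ≤ C ∧ 0 ≤ r ∧ ∀ X0 K E a : ℝ, 3 ≤ X0 → 1 ≤ K → K ≤ X0 → 1 ≤ E → E ≤ X0 → 0 ≤ a →
      ∀ j : J, Real.exp (Φ.len j) ≤ X0 → ∀ q : Eis, IsPrim q → HypGB Φ C r ε X0 K E a j q →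
      ∀ Bs : Finset Eis, (∀ B ∈ Bs, IsPrim B ∧ (nm B : ℝ) ≤ E) →
      ∑ B ∈ Bs, VC K (tB B (sq q (Φ.w j))) ≤
        C * X0 ^ ε * (K * E + K * a) * Real.exp (Φ.len j) * (Φ.ht j) ^ 2 := by
  classical
  set δ : ℝ := min ε 1 / 40 with hδd
  have hmin : 0 < min ε 1 := lt_min hε one_pos
  have hδ : 0 < δ := by positivity
  have hδε : 40 * δ ≤ ε := by
    have : min ε 1 ≤ ε := min_le_left _ _
    rw [hδd]; linarith
  have hδ1 : δ ≤ 1 / 2 := by
    have : min ε 1 ≤ 1 := min_le_right _ _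
    rw [hδd]; linarith
  obtain ⟨Cb, hCb, hbd⟩ := hΦ.bd δ hδ
  obtain ⟨Cs, hCs, hs⟩ := hΦ.split δ (1 / 2 - δ) hδ
  obtain ⟨Cτ, hCτ, hτ⟩ := tau_le_rpow hδ
  obtain ⟨Ch, hCh, hharm⟩ := harm_le hδ
  set M : ℕ := ⌈A⌉₊ + 1 with hM
  have hA0 := hΦ.A0
  have hR := hΦ.R0
  have hMA : A + 1 ≤ M := by rw [hM]; push_cast; linarith [Nat.le_ceil A]
  have hM1 : 1 ≤ M := by omega
  obtain ⟨C1, hC1, hiter⟩ := iterM hδ hδ1 hδ hM1
  obtain ⟨C2, hC2, htriv⟩ := dual_trivial hδ hM1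
  have hIM := IM_nonneg M A
  set c : ℝ := Real.exp R with hc
  have hc1 : 1 ≤ c := Real.one_le_exp hR
  set Um : ℝ := 256 * c ^ 2 * (Cτ * (2 * Real.exp (1 + 4 * R))) * (Cs ^ 2 * c * IM M A) *
    (Cτ * (2 * Real.exp (1 + 4 * R))) * ((1 + 1 / δ) * c) with hUm
  have hUm0 : 0 ≤ Um := by
    have h1 : 0 ≤ Cs ^ 2 * c * IM M A := mul_nonneg (by positivity) hIM
    rw [hUm]; positivity
  set Ut : ℝ := 16 * (2 * C2 * Cb ^ 2 * c ^ 12) with hUt
  have hUt0 : 0 ≤ Ut := by positivity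
  set U : ℝ := Um + Ut with hU
  have hU0 : 0 ≤ U := by positivity
  -- the constants of `alg_P` are used with `W' = W ^ 2`
  set Cf : ℝ := Real.exp 1 * (C1 * c ^ 5 * (16 * (4 * Cb) ^ 2 + U * Ch)) * c with hCf
  have hCf0 : 0 ≤ Cf := by positivity
  refine ⟨1 + 18 * Real.exp (1 + 3 * R) + Cf, 3 * R + 1, by
    have := Real.exp_pos (1 + 3 * R)
    linarith, by linarith, ?_⟩
  intro X0 K E a hX0 hK1 hKX hE1 hEX ha j hj q hq HG Bs hBs
  set CG : ℝ := 1 + 18 * Real.exp (1 + 3 * R) + Cf with hCG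
  have hCG1 : 18 * Real.exp (1 + 3 * R) ≤ CG := by rw [hCG]; linarith
  have hCGf : Cf ≤ CG := by
    have := Real.exp_pos (1 + 3 * R)
    rw [hCG]; linarith
  have hK0 : 0 < K := by linarith
  have hE0 : 0 < E := by linarith
  have hht := hΦ.ht1 j
  have hht2 : 1 ≤ (Φ.ht j) ^ 2 := one_le_pow₀ hht
  set X : ℝ := Real.exp (Φ.len j + R) with hX
  rcases lt_or_ge X 1 with hX1 | hX1
  · -- nothing
    have h0 : ∀ B, tB B (sq q (Φ.w j)) = 0 := by
      intro B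
      funext n
      by_contra hn
      have h1 : sq q (Φ.w j) n ≠ 0 := tB_ne_zero hn
      unfold TP320.sq at h1
      split_ifs at h1 with hcn
      · have h2 := (abs_le.1 (hΦ.supp j n h1)).2
        have h3 := log_nm_nonneg' hcn.1
        rw [hX, Real.exp_lt_one_iff] at hX1
        linarith
      · exact h1 rfl
    rw [Finset.sum_eq_zero fun B _ => VC_eq_zero (h0 B)]
    have hX00 : 0 ≤ X0 := by linarith
    have hCG0 : 0 ≤ CG := hCf0.trans hCGf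
    positivity
  have hXn : 0 ≤ X := by linarith
  have hXX : X ≤ Real.exp R * X0 := by
    rw [hX, Real.exp_add, mul_comm]
    gcongr
  have hS : Sc2 δ R X0 K X := ⟨hX0, hK1, hKX, hX1, hXX⟩
  obtain ⟨f1, f2, f3, f4, f5⟩ := hS.facts hδ (by linarith) hR
  have hsupp : Supp (sq q (Φ.w j)) X := supp_sq hΦ q j le_rfl
  have hprim : ∀ m, sq q (Φ.w j) m ≠ 0 → IsPrim m := fun m hm =>
    ((mem_S hXn).1 (hsupp m hm)).2.1
  set W : ℝ := X0 ^ δ with hW
  set Y : ℝ := X ^ δ with hY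
  have hY1 : 1 ≤ Y := Real.one_le_rpow hX1 hδ.le
  have hwb : ∀ h, ‖sq q (Φ.w j) h‖ ≤ Cb * (nm h : ℝ) ^ δ := by
    intro h
    unfold TP320.sq
    split_ifs
    · exact hbd j h
    · rw [norm_zero]; positivity
  have hwbB : ∀ B h, ‖tB B (sq q (Φ.w j)) h‖ ≤ Cb * (nm h : ℝ) ^ δ := fun B h =>
    (norm_tB_le B hprim h).trans (hwb h)
  have h1 : ∑ B ∈ Bs, VC K (tB B (sq q (Φ.w j))) ≤
      Real.exp 1 * ∑ B ∈ Bs, V X K (tB B (sq q (Φ.w j))) := by
    rw [Finset.mul_sum]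
    refine Finset.sum_le_sum fun B _ => ?_
    have h1 := VC_le_VE hXn hK0 (supp_tB (B := B) hsupp)
    rwa [← V_eq_VE K (supp_tB hsupp)] at h1
  have hcard := card_Bs_le hE0.le hBs
  set D : ℝ := ∑ B ∈ Bs, ∑ h ∈ S X, ‖tB B (sq q (Φ.w j)) h‖ ^ 2 with hD
  have hD0 : 0 ≤ D := Finset.sum_nonneg fun _ _ => Finset.sum_nonneg fun _ _ => by positivity
  have hdiag : D ≤ (16 * E) * (16 * (X * Y ^ 2) * Cb ^ 2) := by
    calc D ≤ ∑ B ∈ Bs, 16 * (X * Y ^ 2) * Cb ^ 2 :=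
          Finset.sum_le_sum fun B _ => diag_le hδ hX1 (by linarith : 0 ≤ Cb) (hwbB B)
      _ = Bs.card * (16 * (X * Y ^ 2) * Cb ^ 2) := by rw [Finset.sum_const, nsmul_eq_mul]
      _ ≤ _ := by gcongr
  set SG : ℝ := ∑ B ∈ Bs, ∑ g ∈ S X, DD M δ (X / nm g) K Y δ
    (PA842.sub (tB B (sq q (Φ.w j))) g) with hSGd
  have h2 : ∑ B ∈ Bs, V X K (tB B (sq q (Φ.w j))) ≤ C1 * Y * (K * D + X ^ (3 * δ) * SG) := by
    rw [hD, hSGd, Finset.mul_sum, Finset.mul_sum, ← Finset.sum_add_distrib, Finset.mul_sum]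
    exact Finset.sum_le_sum fun B _ => hiter X K hX1 hK1 _ (supp_tB hsupp)
  have hT3 : X ^ (3 * δ) ≤ (c * W) ^ 3 := by
    have e1 : X ^ (3 * δ) = Y ^ 3 := by
      rw [hY, ← Real.rpow_natCast, ← Real.rpow_mul hXn]; congr 1; push_cast; ring
    rw [e1]; gcongr
  have hlen2 : Real.exp (2 * δ * Φ.len j) ≤ W ^ 2 := by
    have e1 : Real.exp (2 * δ * Φ.len j) = Real.exp (Φ.len j) ^ (2 * δ) := by
      rw [← Real.exp_mul]; congr 1; ring
    have e2 : W ^ 2 = X0 ^ (2 * δ) := by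
      rw [hW, ← Real.rpow_natCast, ← Real.rpow_mul (by linarith)]; congr 1; push_cast; ring
    rw [e1, e2]
    exact Real.rpow_le_rpow (Real.exp_pos _).le hj (by positivity)
  have hW0 : 0 ≤ W := by linarith
  have hKa : 0 ≤ K * a := by positivity
  have hKE : 0 ≤ K * E := by positivity
  have hlogX : 0 ≤ Real.log X := Real.log_nonneg hX1
  -- one divisor
  have hone : ∀ g ∈ S X, ∑ B ∈ Bs, DD M δ (X / nm g) K Y δ
      (PA842.sub (tB B (sq q (Φ.w j))) g) ≤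
      U * W ^ 15 * (K * E + K * a) * X * (Φ.ht j) ^ 2 * (1 / (nm g : ℝ)) := by
    intro g hg
    have hg' := (mem_S hXn).1 hg
    have hg1 := one_le_nm' hg'.2.1
    have hXg : X / nm g = X * (1 / (nm g : ℝ)) := by ring
    rcases le_or_gt K ((X / nm g) ^ 2) with hKg | hKg
    · have h3 := DDB_main hΦ hδ hδ1 (by linarith : 4 * δ ≤ ε) hM1 hMA (by linarith) hs hCτ hτ j hq
        hS hX hE1 hEX ha le_rfl hCG1 HG hBs hg hKg
      refine h3.trans ?_
      have hXg0 : 0 ≤ X / nm g := by positivity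
      have hP : 0 ≤ Cs ^ 2 * Real.exp R * IM M A := mul_nonneg (by positivity) hIM
      have hl1 : 0 ≤ Real.log X + 1 := by linarith
      set c5 : ℝ := Cτ * (2 * Real.exp (1 + 4 * R)) with hc5
      have hc50 : 0 ≤ c5 := by positivity
      have h4 : 256 * Y ^ 2 * ((c5 * W ^ 5) * (K * a * (X / nm g) *
          (Cs ^ 2 * Real.exp R * IM M A) * (c5 * W ^ 5) * Real.exp (2 * δ * Φ.len j) *
          (Real.log X + 1) * (Φ.ht j) ^ 2)) ≤
          256 * (c * W) ^ 2 * ((c5 * W ^ 5) * (K * a * (X / nm g) *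
          (Cs ^ 2 * Real.exp R * IM M A) * (c5 * W ^ 5) * W ^ 2 *
          ((1 + 1 / δ) * (c * W)) * (Φ.ht j) ^ 2)) := by
        have a1 : 0 ≤ K * a * (X / nm g) * (Cs ^ 2 * Real.exp R * IM M A) *
          (c5 * W ^ 5) :=
          mul_nonneg (mul_nonneg (mul_nonneg hKa hXg0) hP) (by positivity)
        have a2 : K * a * (X / nm g) * (Cs ^ 2 * Real.exp R * IM M A) *
          (c5 * W ^ 5) * Real.exp (2 * δ * Φ.len j) *
          (Real.log X + 1) * (Φ.ht j) ^ 2 ≤ K * a * (X / nm g) * (Cs ^ 2 * Real.exp R * IM M A) *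
          (c5 * W ^ 5) * W ^ 2 *
          ((1 + 1 / δ) * (c * W)) * (Φ.ht j) ^ 2 := by
          apply mul_le_mul_of_nonneg_right _ (by positivity)
          apply mul_le_mul _ f5 hl1 (by positivity)
          exact mul_le_mul_of_nonneg_left hlen2 a1
        have a3 : 0 ≤ K * a * (X / nm g) * (Cs ^ 2 * Real.exp R * IM M A) *
          (c5 * W ^ 5) * Real.exp (2 * δ * Φ.len j) *
          (Real.log X + 1) * (Φ.ht j) ^ 2 :=
          mul_nonneg (mul_nonneg (mul_nonneg a1 (Real.exp_pos _).le) hl1) (by positivity)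
        have a4 : (c5 * W ^ 5) * (K * a * (X / nm g) *
          (Cs ^ 2 * Real.exp R * IM M A) * (c5 * W ^ 5) * Real.exp (2 * δ * Φ.len j) *
          (Real.log X + 1) * (Φ.ht j) ^ 2) ≤ (c5 * W ^ 5) * (K * a * (X / nm g) *
          (Cs ^ 2 * Real.exp R * IM M A) * (c5 * W ^ 5) * W ^ 2 *
          ((1 + 1 / δ) * (c * W)) * (Φ.ht j) ^ 2) := mul_le_mul_of_nonneg_left a2 (by positivity)
        exact mul_le_mul (by gcongr) a4 (mul_nonneg (by positivity) a3) (by positivity)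
      refine h4.trans ?_
      have h5 : 256 * (c * W) ^ 2 * ((c5 * W ^ 5) * (K * a * (X / nm g) *
          (Cs ^ 2 * Real.exp R * IM M A) * (c5 * W ^ 5) * W ^ 2 *
          ((1 + 1 / δ) * (c * W)) * (Φ.ht j) ^ 2)) =
          Um * W ^ 15 * (K * a) * X * (Φ.ht j) ^ 2 * (1 / (nm g : ℝ)) := by
        rw [hXg, hUm]; ring
      rw [h5]
      have e2 : Um ≤ U := by rw [hU]; linarith
      have e3 : K * a ≤ K * E + K * a := by linarith
      gcongr
    · have h3 : ∀ B ∈ Bs, DD M δ (X / nm g) K Y δ (PA842.sub (tB B (sq q (Φ.w j))) g) ≤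
          2 * C2 * Cb ^ 2 * (Real.exp R) ^ 12 * (X0 ^ δ) ^ 13 * K * (X / nm g) := fun B _ =>
        DDB_triv hδ hR hδ1 (by linarith : 0 ≤ Cb) (by linarith : 0 ≤ C2) htriv (hwbB B)
          hS (supp_tB hsupp) hg hKg.le
      refine (Finset.sum_le_sum h3).trans ?_
      rw [Finset.sum_const, nsmul_eq_mul]
      have h6 : (0 : ℝ) ≤ 2 * C2 * Cb ^ 2 * (Real.exp R) ^ 12 * (X0 ^ δ) ^ 13 * K * (X / nm g) := by
        positivity
      refine (mul_le_mul_of_nonneg_right hcard h6).trans ?_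
      have h5 : 16 * E * (2 * C2 * Cb ^ 2 * Real.exp R ^ 12 * (X0 ^ δ) ^ 13 * K * (X / nm g)) =
          Ut * W ^ 13 * (K * E + 0) * X * 1 * (1 / (nm g : ℝ)) := by
        rw [hXg, hUt]; ring
      rw [h5]
      have e1 : W ^ 13 ≤ W ^ 15 := pow_le_pow_right₀ f1 (by norm_num)
      have e2 : Ut ≤ U := by rw [hU]; linarith
      gcongr
  have hSG : SG ≤ U * W ^ 15 * (K * E + K * a) * X * (Ch * Y) * (Φ.ht j) ^ 2 := by
    rw [hSGd, Finset.sum_comm]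
    refine (Finset.sum_le_sum hone).trans ?_
    rw [← Finset.mul_sum]
    have h3 := hharm X hX1
    have h4 : 0 ≤ U * W ^ 15 * (K * E + K * a) * X * (Φ.ht j) ^ 2 := by positivity
    calc _ ≤ U * W ^ 15 * (K * E + K * a) * X * (Φ.ht j) ^ 2 * (Ch * Y) :=
          mul_le_mul_of_nonneg_left h3 h4
      _ = _ := by ring
  have hSG0 : 0 ≤ SG :=
    Finset.sum_nonneg fun B _ => Finset.sum_nonneg fun g _ => DD_nonneg _ _ _ hK0.le _ _ _
  have hW2 : 1 ≤ W ^ 2 := one_le_pow₀ f1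
  have hWW : W ≤ W ^ 2 := by nlinarith
  have hSG' : SG ≤ U * (W ^ 2) ^ 13 * (K * E + K * E * (a / E)) * X * (Ch * Y) *
      (Φ.ht j) ^ 2 := by
    have e1 : K * E * (a / E) = K * a := by field_simp
    have e2 : W ^ 15 ≤ (W ^ 2) ^ 13 := by
      rw [← pow_mul]; exact pow_le_pow_right₀ f1 (by norm_num)
    rw [e1]
    refine hSG.trans ?_
    gcongr
  have hfin := alg_P (C1 := C1) (W := W ^ 2) (c := c) (K := K * E) (Y := Y) (X := X)
    (D := D / E) (T3 := X ^ (3 * δ)) (Cb := 4 * Cb) (U := U) (Ch := Ch)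
    (H := (Φ.ht j) ^ 2) (a := a / E) (SG := SG) (by linarith) hW2 hc1 hKE (by linarith)
    (f3.trans (by gcongr)) hXn (by linarith)
    (by positivity) (by
      rw [div_le_iff₀ hE0]
      calc D ≤ _ := hdiag
        _ = _ := by ring) (by positivity) (hT3.trans (by gcongr)) hU0 (by linarith) hht2
    (by positivity) hSG0 hSG'
  have e5 : K * E * (D / E) = K * D := by field_simp
  have e6 : K * E * (a / E) = K * a := by field_simp
  rw [e5, e6] at hfin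
  have h6 := h2.trans hfin
  have hW36 : (W ^ 2) ^ 18 ≤ X0 ^ ε := by
    rw [← pow_mul, hW, ← Real.rpow_natCast, ← Real.rpow_mul (by linarith)]
    apply Real.rpow_le_rpow_of_exponent_le (by linarith)
    push_cast; linarith
  calc ∑ B ∈ Bs, VC K (tB B (sq q (Φ.w j)))
      ≤ Real.exp 1 * ∑ B ∈ Bs, V X K (tB B (sq q (Φ.w j))) := h1
    _ ≤ Real.exp 1 * ((C1 * c ^ 5 * (16 * (4 * Cb) ^ 2 + U * Ch)) * (W ^ 2) ^ 18 *
        (K * E + K * a) * X * (Φ.ht j) ^ 2) := by gcongr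
    _ = Cf * (W ^ 2) ^ 18 * (K * E + K * a) * Real.exp (Φ.len j) * (Φ.ht j) ^ 2 := by
        rw [hCf, hX, Real.exp_add]; ring
    _ ≤ CG * X0 ^ ε * (K * E + K * a) * Real.exp (Φ.len j) * (Φ.ht j) ^ 2 := by
        gcongr

/-- the same, in terms of the frequencies `r * B ^ 2` -/
theorem P_ruleB' {J : Type} {Φ : Fam J} {R A : ℝ} (hΦ : Φ.Ok R A) {ε : ℝ} (hε : 0 < ε) :
    ∃ C r : ℝ, 1 ≤ C ∧ 0 ≤ r ∧ ∀ X0 K E a : ℝ, 3 ≤ X0 → 1 ≤ K → K ≤ X0 → 1 ≤ E → E ≤ X0 → 0 ≤ a →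
      ∀ j : J, Real.exp (Φ.len j) ≤ X0 → ∀ q : Eis, IsPrim q → HypGB Φ C r ε X0 K E a j q →
      ∀ Bs : Finset Eis, (∀ B ∈ Bs, IsPrim B ∧ (nm B : ℝ) ≤ E) →
      ∑ B ∈ Bs, ∑ k ∈ bl K, ‖CS (sq q (Φ.w j)) (k * B ^ 2)‖ ^ 2 ≤
        C * X0 ^ ε * (K * E + K * a) * Real.exp (Φ.len j) * (Φ.ht j) ^ 2 := by
  obtain ⟨C, r, hC, hr, h⟩ := P_ruleB hΦ hε
  refine ⟨C, r, hC, hr, fun X0 K E a hX0 hK1 hKX hE1 hEX ha j hj q hq HG Bs hBs => ?_⟩
  refine le_trans (le_of_eq ?_) (h X0 K E a hX0 hK1 hKX hE1 hEX ha j hj q hq HG Bs hBs)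
  unfold VC
  have hprim : ∀ m, sq q (Φ.w j) m ≠ 0 → IsPrim m := by
    intro m hm
    unfold TP320.sq at hm
    split_ifs at hm with hc
    · exact hc.1
    · exact absurd rfl hm
  refine Finset.sum_congr rfl fun B _ => Finset.sum_congr rfl fun k _ => ?_
  rw [CS_tB hprim]

end Crest.Agent.R017.PMB521
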