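import Crest.Agent.R017.XPC_699
import Crest.Agent.R017.PMBb_521

/-!
# Row 17: the block rule (P), typed lists (helper320)

* `PMp P h l Bs ps = ∑ b ∈ Bs, ∑ x ∈ bl e^l, ∏ ‖CS (pc ..) (x b²)‖²`
* `locPM` : the block rule for a tuple of pieces, in terms of the Gauss side `Sp` of the children
* `PM_list` : the same for lists of at most `N` pieces
-/

set_option autoImplicit false
set_option maxHeartbeats 400000

noncomputable section

open Complex
open scoped ComplexConjugate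

namespace Crest.Agent.R017.PML320

open Crest.Agent.R012 Crest.Agent.R012.Eis Crest.Agent.R012.LS2 Crest.Agent.R012.Gauss880
open Crest.Agent.R012.Div277 Crest.Agent.R012.Weight600
open Crest.Agent.R017.CM106 Crest.Agent.R017.FE47 Crest.Agent.R017.End699
open Crest.Agent.R017.B770
open Crest.Agent.R017.XG702 (Pcs BG)
open Crest.Agent.R017.Prov71
open Crest.Agent.R017.HP842 (UT pc KS sqc Kg uv alL al ssub nat_sq_pc)
open Crest.Agent.R017.TPOk571 (IP FP SD SD_w SD_len SD_ht sd_ok AC relU)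
open Crest.Agent.R017.TP320 (VC VG VC_mono VC_nonneg Fam P_rule HypG)
open Crest.Agent.R017.XRG106 (RFp ip ip_pc chd chd_pc alL_ofFn CS_al RFp_ofFn)
open Crest.Agent.R017.XP699
open Crest.Agent.R017.PMB521 (HypGB P_ruleB')

/-- **the block moment** : frequencies `x b²`, `x` in the complete family, `b ∈ Bs` -/
def PMp (P : DPar) (h : ℝ → ℝ) (l : ℝ) (Bs : Finset Eis) (ps : List Pq) : ℝ :=
  ∑ b ∈ Bs, ∑ x ∈ bl (Real.exp l), (ps.map fun p => ‖CS (pc h (p.pc P)) (x * b ^ 2)‖ ^ 2).prod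

lemma PMp_nonneg (P : DPar) (h : ℝ → ℝ) (l : ℝ) (Bs : Finset Eis) (ps : List Pq) :
    0 ≤ PMp P h l Bs ps := by
  refine Finset.sum_nonneg fun b _ => Finset.sum_nonneg fun x _ => List.prod_nonneg ?_
  intro y hy
  obtain ⟨p, _, rfl⟩ := List.mem_map.1 hy
  positivity

/-- **the block (P) for a tuple of pieces** -/
theorem locPM {h : ℝ → ℝ} {c : ℝ} (hpu : PU h c) {M : ℝ} (hM : 0 ≤ M) (n : ℕ) {ε : ℝ}
    (hε : 0 < ε) : ∃ C r : ℝ, 1 ≤ C ∧ 0 ≤ r ∧ ∀ C' r' : ℝ, C ≤ C' → r ≤ r' →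
      ∀ (P : DPar), P.OK → ∀ (s : Fin n → Pq) (X : ℝ), 3 ≤ X → ∀ k β : ℝ, 0 ≤ k →
      k ≤ Real.log X → 0 ≤ β → β ≤ Real.log X →
      (∀ i, 0 ≤ (s i).z ∧ (s i).z ≤ Real.log X) → ∀ Bd : ℝ, 0 ≤ Bd →
      (∀ (l : ℝ) (s' : Fin n → Pq), 0 ≤ l + β →
        (∀ i, Chd Dq hcost r' (C' * X ^ (3 * n + 3 : ℝ)) (s' i) (s i)) →
        lf cG1 k (∑ i, (s i).z) l (∑ i, (s' i).z) ≤ r' + ε * Real.log X →
        lf cG2 k (∑ i, (s i).z) l (∑ i, (s' i).z) ≤ r' + ε * Real.log X →
        Sp P h (l + β) (List.ofFn s') ≤ Bd * (∏ i, hcost (s' i) (s i)) ^ M *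
          Real.exp (lf cFP k (∑ i, (s i).z) l (∑ i, (s' i).z))) →
      ∀ Bs : Finset Eis, (∀ b ∈ Bs, IsPrim b ∧ (nm b : ℝ) ≤ Real.exp β) →
      PMp P h k Bs (List.ofFn s) ≤ C' * X ^ ε * (Real.exp (k + β + ∑ i, (s i).z) + Bd) := by
  classical
  obtain ⟨R, hR0, hR⟩ := exists_R (cs_cx hpu.cs)
  have hΦ := sd_ok hpu hR0 hR (μ := M / 2) (by positivity) n
  have hn0 : (0 : ℝ) ≤ n := Nat.cast_nonneg n
  obtain ⟨ε₁, hε₁⟩ : ∃ x : ℝ, x = ε / (4 * (n + 1)) := ⟨_, rfl⟩
  have hε₁0 : 0 < ε₁ := by rw [hε₁]; positivity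
  have hε₁n : ε₁ * (n + 1) = ε / 4 := by rw [hε₁]; field_simp
  obtain ⟨C2, r2, hC2, hr2, hPr⟩ := P_ruleB' hΦ hε₁0
  obtain ⟨C3, hC3, hS⟩ := nat_sq_pc n hR0 (ε := ε / 4) (by positivity)
  have hE : 1 ≤ Real.exp r2 := Real.one_le_exp hr2
  have hEn : 1 ≤ Real.exp (r2 * (n + 1)) := Real.one_le_exp (by positivity)
  have hlC2 : 0 ≤ Real.log C2 := Real.log_nonneg hC2
  refine ⟨C3 * C2 ^ 2 * Real.exp r2 + C2 * Real.exp (r2 * (n + 1)), 4 * r2 + Real.log C2, ?_, ?_, ?_⟩
  · have h1 : 1 ≤ C2 * Real.exp (r2 * (n + 1)) := one_le_mul_of_one_le_of_one_le hC2 hEn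
    have h2 : 0 ≤ C3 * C2 ^ 2 * Real.exp r2 := by positivity
    linarith
  · positivity
  intro C' r' hC' hr' P hP s X hX k β hk0 hkX hβ0 hβX hz Bd hBd hyp Bs hBs
  have hC'1 : C3 * C2 ^ 2 * Real.exp r2 ≤ C' := by
    have : 0 ≤ C2 * Real.exp (r2 * (n + 1)) := by positivity
    linarith
  have hC'2 : C2 * Real.exp (r2 * (n + 1)) ≤ C' := by
    have : 0 ≤ C3 * C2 ^ 2 * Real.exp r2 := by positivity
    linarith
  have hX0 : 0 < X := by linarith
  have hX1 : 1 ≤ X := by linarith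
  have hlX : 0 ≤ Real.log X := Real.log_nonneg hX1
  obtain ⟨n₀, hn₀⟩ : ∃ x : ℝ, x = ∑ i, (s i).z := ⟨_, rfl⟩
  have hn₀0 : 0 ≤ n₀ := by rw [hn₀]; exact Finset.sum_nonneg fun i _ => (hz i).1
  have hn₀X : n₀ ≤ n * Real.log X := by
    rw [hn₀]
    refine (Finset.sum_le_sum fun i _ => (hz i).2).trans ?_
    rw [Finset.sum_const, nsmul_eq_mul, Finset.card_univ, Fintype.card_fin]
  obtain ⟨X₀, hX₀⟩ : ∃ x : ℝ, x = X ^ (n + 1 : ℝ) := ⟨_, rfl⟩
  have hX₀X : X ≤ X₀ := by
    rw [hX₀]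
    calc X = X ^ (1 : ℝ) := (Real.rpow_one X).symm
      _ ≤ _ := Real.rpow_le_rpow_of_exponent_le hX1 (by linarith)
  have hlX₀ : Real.log X₀ = (n + 1) * Real.log X := by rw [hX₀, Real.log_rpow hX0]
  have hX₀0 : 0 < X₀ := by linarith
  obtain ⟨K, hK⟩ : ∃ x : ℝ, x = Real.exp k := ⟨_, rfl⟩
  have hK1 : 1 ≤ K := by rw [hK]; exact Real.one_le_exp hk0
  have hK0 : 0 < K := by linarith
  have hKX : K ≤ X₀ := by
    rw [hK]
    calc Real.exp k ≤ Real.exp (Real.log X) := Real.exp_le_exp.2 hkX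
      _ = X := Real.exp_log hX0
      _ ≤ X₀ := hX₀X
  obtain ⟨Eb, hEb⟩ : ∃ x : ℝ, x = Real.exp β := ⟨_, rfl⟩
  have hEb1 : 1 ≤ Eb := by rw [hEb]; exact Real.one_le_exp hβ0
  have hEb0 : 0 < Eb := by linarith
  have hEbX : Eb ≤ X₀ := by
    rw [hEb]
    calc Real.exp β ≤ Real.exp (Real.log X) := Real.exp_le_exp.2 hβX
      _ = X := Real.exp_log hX0
      _ ≤ X₀ := hX₀X
  -- the bound of the children of `P_rule`
  obtain ⟨W, hW⟩ : ∃ x : ℝ, x = C2 * X₀ ^ ε₁ * Real.exp r2 := ⟨_, rfl⟩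
  have hXe1 : 1 ≤ X₀ ^ ε₁ := Real.one_le_rpow (by linarith) hε₁0.le
  have hW1 : 1 ≤ W := by
    rw [hW]
    exact one_le_mul_of_one_le_of_one_le (one_le_mul_of_one_le_of_one_le hC2 hXe1) hE
  obtain ⟨A, hA⟩ : ∃ x : ℝ, x = W * Bd * Real.exp (-n₀ - k) := ⟨_, rfl⟩
  have hA0 : 0 ≤ A := by rw [hA]; positivity
  have hWexp : W = Real.exp (Real.log C2 + ε₁ * Real.log X₀ + r2) := by
    rw [hW, Real.exp_add, Real.exp_add, Real.exp_log (by linarith), Real.rpow_def_of_pos hX₀0,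
      mul_comm ε₁]
  have hkey : ∀ a : Fin n → Eis, (∀ i, IsPrim (a i)) →
      ∑ b ∈ Bs, ∑ x ∈ bl K,
        ‖CS (sqc (∏ i, a i) (al h (ssub (fun i => (s i).pc P) a))) (x * b ^ 2)‖ ^ 2 ≤
        (C2 * X₀ ^ ε₁ * (K * Eb + K * A)) * ∏ i, (ssub (fun i => (s i).pc P) a i).Y := by
    intro a ha
    have ha0 : ∀ i, a i ≠ 0 := fun i => (ha i).ne_zero
    have hq : IsPrim (∏ i, a i) := by
      exact HP842.isPrim_prod ha
    obtain ⟨s0, hs0⟩ : ∃ f : Fin n → Pq, f = fun i => (s i).sub (a i) (ha0 i) := ⟨_, rfl⟩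
    obtain ⟨j, hj⟩ : ∃ f : Fin n → IP, f = fun i => ip hP (s0 i) := ⟨_, rfl⟩
    have hjpc : (fun i => (j i).pc) = ssub (fun i => (s i).pc P) a := by
      funext i
      rw [hj, ip_pc, hs0]
      exact HP842.Pq_sub_pc P (s i) (ha0 i)
    have hjz : ∀ i, (j i).z = (s i).z - Real.log (nm (a i)) := fun i => by rw [hj, hs0]; rfl
    have hnm1 : ∀ i, (1 : ℝ) ≤ nm (a i) := fun i => by exact_mod_cast nm_pos.2 (ha0 i)
    have hlog0 : ∀ i, 0 ≤ Real.log (nm (a i)) := fun i => Real.log_nonneg (hnm1 i)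
    have hlen : (SD h (M / 2) n).len j = ∑ i, (j i).z := SD_len _ _ _ _
    have hlen' : (SD h (M / 2) n).len j ≤ n₀ := by
      rw [hlen, hn₀]
      exact Finset.sum_le_sum fun i _ => by rw [hjz]; linarith [hlog0 i]
    have hht : (SD h (M / 2) n).ht j = 1 := by
      rw [SD_ht]
      refine Finset.prod_eq_one fun i _ => ?_
      have : (j i).s = 0 := by rw [hj]; rfl
      rw [this]; simp
    have hw : (SD h (M / 2) n).w j = al h (ssub (fun i => (s i).pc P) a) := by
      rw [SD_w, hjpc]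
    have hY : ∏ i, (ssub (fun i => (s i).pc P) a i).Y = Real.exp ((SD h (M / 2) n).len j) := by
      rw [hlen, Real.exp_sum]
      refine Finset.prod_congr rfl fun i _ => ?_
      rw [← hjpc]
      rfl
    have hlenX : Real.exp ((SD h (M / 2) n).len j) ≤ X₀ := by
      rw [← Real.le_log_iff_exp_le hX₀0, hlX₀]
      linarith
    have hH : HypGB (SD h (M / 2) n) C2 r2 ε₁ X₀ K Eb A j (∏ i, a i) := by
      intro j' q' n1 φ hgood hdom hφ hn1 hj1 hj2 hq' hqq' hnq hKn
      have hq'0 : q' ≠ 0 := hq'.ne_zero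
      obtain ⟨Lv, hLv⟩ : ∃ x : ℝ, x = C2 * X₀ ^ ε₁ * (Eb * Real.exp (φ + 2 * n1)) / K :=
        ⟨_, rfl⟩
      have hLv0 : 0 < Lv := by rw [hLv]; positivity
      have hht0 : 0 ≤ ((SD h (M / 2) n).ht j') ^ 2 := by positivity
      rw [← hLv]
      rcases lt_or_ge Lv 1 with hc | hc
      · rw [VG_small hc hLv0.le]
        exact mul_nonneg (mul_nonneg hA0 (Real.exp_pos _).le) hht0
      have hdom' : ∀ i, (j' i).z ≤ (j i).z + r2 ∧ (j' i).t0 = (j i).t0 ∧ (j' i).ψ = (j i).ψ ∧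
          relU (j' i).u (j i).u := hdom
      have hgood' : ∀ i, 0 ≤ (j' i).z := hgood
      have hn' : (SD h (M / 2) n).len j' = ∑ i, (j' i).z := SD_len _ _ _ _
      obtain ⟨l, hl⟩ : ∃ x : ℝ, x = Real.log Lv - β := ⟨_, rfl⟩
      have hlβ : l + β = Real.log Lv := by rw [hl]; ring
      have hl0 : 0 ≤ l + β := by rw [hlβ]; exact Real.log_nonneg hc
      have hl' : l = Real.log C2 + ε₁ * Real.log X₀ + φ + 2 * n1 - k := by
        rw [hl, hLv, Real.log_div (by positivity) hK0.ne', Real.log_mul (by positivity)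
          (by positivity), Real.log_mul (by positivity) (by positivity),
          Real.log_mul hEb0.ne' (Real.exp_pos _).ne', Real.log_exp,
          Real.log_rpow hX₀0, hK, Real.log_exp, hEb, Real.log_exp]
        ring
      have he1 : 0 ≤ ε₁ * Real.log X₀ := mul_nonneg hε₁0.le (by rw [hlX₀]; positivity)
      have he2 : ε₁ * Real.log X₀ = ε / 4 * Real.log X := by
        rw [hlX₀, ← mul_assoc, hε₁n]
      have he3 : ε / 4 * Real.log X ≤ ε * Real.log X :=
        mul_le_mul_of_nonneg_right (by linarith) hlX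
      obtain ⟨s', hs'⟩ : ∃ f : Fin n → Pq, f = fun i => (chd (s0 i) (j' i)).cop q' hq'0 :=
        ⟨_, rfl⟩
      have hs'z : ∀ i, (s' i).z = (j' i).z := fun i => by rw [hs']; rfl
      have hs't : ∀ i, (s' i).t - (s i).t = (j' i).s := by
        intro i
        have h1 : (s' i).t = (j' i).t0 + (j' i).s := by rw [hs']; rfl
        have h2 : (j' i).t0 = (s i).t := by
          rw [(hdom' i).2.1, hj, hs0]; rfl
        rw [h1, h2]; ring
      have hnma : ∀ i, (nm (a i) : ℝ) ≤ Real.exp r2 * X := by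
        intro i
        have h1 := (hdom' i).1
        rw [hjz] at h1
        have h2 : Real.log (nm (a i)) ≤ r2 + Real.log X := by linarith [hgood' i, (hz i).2]
        calc (nm (a i) : ℝ) = Real.exp (Real.log (nm (a i))) :=
              (Real.exp_log (by linarith [hnm1 i])).symm
          _ ≤ Real.exp (r2 + Real.log X) := Real.exp_le_exp.2 h2
          _ = _ := by rw [Real.exp_add, Real.exp_log hX0]
      have hnmq : (nm q' : ℝ) ≤ C2 * (Real.exp r2 * X) ^ n * X₀ ^ 2 := by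
        refine hnq.trans ?_
        have h1 : (nm (∏ i, a i) : ℝ) ≤ (Real.exp r2 * X) ^ n := by
          rw [HP842.nm_prod_cast]
          calc ∏ i, (nm (a i) : ℝ) ≤ ∏ _i : Fin n, (Real.exp r2 * X) :=
                Finset.prod_le_prod (fun i _ => by positivity) fun i _ => hnma i
            _ = _ := by rw [Finset.prod_const, Finset.card_univ, Fintype.card_fin]
        have h2 : 0 ≤ X₀ ^ 2 := by positivity
        exact mul_le_mul_of_nonneg_right (mul_le_mul_of_nonneg_left h1 (by linarith)) h2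
      have hbnd : (Real.exp r2 * X) * (C2 * (Real.exp r2 * X) ^ n * X₀ ^ 2) ≤
          C' * X ^ (3 * n + 3 : ℝ) := by
        have e1 : X₀ ^ 2 = X ^ (2 * (n + 1) : ℝ) := by
          rw [hX₀, ← Real.rpow_natCast, ← Real.rpow_mul hX0.le]
          congr 1
          push_cast
          ring
        have e2 : (Real.exp r2 * X) * (C2 * (Real.exp r2 * X) ^ n * X₀ ^ 2) =
            (C2 * Real.exp (r2 * (n + 1))) * X ^ (3 * n + 3 : ℝ) := by
          rw [e1]
          have e3 : (Real.exp r2 * X) * (Real.exp r2 * X) ^ n =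
              Real.exp (r2 * (n + 1)) * X ^ (n + 1 : ℝ) := by
            rw [← pow_succ', mul_pow, ← Real.exp_nat_mul, ← Real.rpow_natCast]
            push_cast
            congr 2
            ring
          have e4 : X ^ (3 * n + 3 : ℝ) = X ^ (n + 1 : ℝ) * X ^ (2 * (n + 1) : ℝ) := by
            rw [← Real.rpow_add hX0]; congr 1; ring
          rw [e4]
          calc _ = C2 * ((Real.exp r2 * X) * (Real.exp r2 * X) ^ n) * X ^ (2 * (n + 1) : ℝ) := by
                ring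
            _ = _ := by rw [e3]; ring
        rw [e2]
        exact mul_le_mul_of_nonneg_right hC'2 (Real.rpow_nonneg hX0.le _)
      have hch : ∀ i, Chd Dq hcost r' (C' * X ^ (3 * n + 3 : ℝ)) (s' i) (s i) := by
        intro i
        have hdu := (hdom' i).2.2.2
        have hju : (j i).u = (s i).u.sub (a i) := by rw [hj, hs0]; rfl
        have hjz' := hjz i
        have hdz := (hdom' i).1
        refine ⟨?_, ?_, ?_, ?_, ?_, ?_⟩
        · rw [hs']
          show (s0 i).kd = (s i).kd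
          rw [hs0]; rfl
        · rintro ⟨h1, h2⟩
          refine ⟨?_, ?_⟩
          · rw [hs']
            show (s0 i).kd = _
            rw [hs0]; exact h1
          · rw [hs']
            show (j' i).u = UT.one
            have h3 : (j i).u = UT.one := by
              rw [hju, h2]
              unfold HP842.UT.sub
              rw [if_neg (by simp)]
            rcases hdu with h4 | ⟨h4, _⟩
            · rw [h4, h3]
            · rw [h3] at h4; exact absurd h4 (by decide)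
        · show 0 ≤ (s' i).z
          rw [hs'z]; exact hgood' i
        · show (s' i).z ≤ (s i).z + r'
          rw [hs'z]
          linarith [hlog0 i]
        · show 1 + |(s' i).t| ≤ (1 + |(s i).t|) * (1 + |(s' i).t - (s i).t|)
          have h1 : |(s' i).t| ≤ |(s i).t| + |(s' i).t - (s i).t| := by
            have := abs_add_le (s i).t ((s' i).t - (s i).t)
            rwa [add_sub_cancel] at this
          have h2 : 0 ≤ |(s i).t| * |(s' i).t - (s i).t| := by positivity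
          linarith
        · show (nm (s' i).d : ℝ) ≤ nm (s i).d * (C' * X ^ (3 * n + 3 : ℝ))
          have h1 : (s' i).d = (s0 i).d * q' := by rw [hs']; rfl
          have h2 : (nm (s0 i).d : ℝ) ≤ nm (s i).d * (Real.exp r2 * X) := by
            have e1 : (s0 i).d = if (s i).u = .mu ∨ (s i).u = .sq then (s i).d * a i
                else (s i).d := by rw [hs0]; rfl
            rw [e1]
            have hd1 : (0 : ℝ) ≤ nm (s i).d := Nat.cast_nonneg _
            split_ifs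
            · rw [nm_mul]
              push_cast
              exact mul_le_mul_of_nonneg_left (hnma i) hd1
            · exact le_mul_of_one_le_right hd1 ((hnm1 i).trans (hnma i))
          rw [h1, nm_mul]
          push_cast
          have hd1 : (0 : ℝ) ≤ nm (s i).d := Nat.cast_nonneg _
          calc (nm (s0 i).d : ℝ) * nm q' ≤
                (nm (s i).d * (Real.exp r2 * X)) * (C2 * (Real.exp r2 * X) ^ n * X₀ ^ 2) :=
                mul_le_mul h2 hnmq (Nat.cast_nonneg _) (by positivity)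
            _ = nm (s i).d * ((Real.exp r2 * X) * (C2 * (Real.exp r2 * X) ^ n * X₀ ^ 2)) := by
                ring
            _ ≤ _ := mul_le_mul_of_nonneg_left hbnd hd1
      have hsz : ∑ i, (s' i).z = (SD h (M / 2) n).len j' := by
        rw [hn']
        exact Finset.sum_congr rfl fun i _ => hs'z i
      have hG1 : lf cG1 k (∑ i, (s i).z) l (∑ i, (s' i).z) ≤ r' + ε * Real.log X := by
        rw [lf_cG1, hsz, hl']
        linarith
      have hG2 : lf cG2 k (∑ i, (s i).z) l (∑ i, (s' i).z) ≤ r' + ε * Real.log X := by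
        rw [lf_cG2, hsz, hl', ← hn₀]
        linarith
      have h1 := hyp l s' hl0 hch hG1 hG2
      rw [hs', hlβ] at h1
      rw [← Sp_child (h := h) hP (fun i => by rw [(hdom' i).2.2.1, hj]) hq'0 hLv0
        (fun b hb => hΦ.prim j' b hb)] at h1
      rw [← hs'] at h1
      have hcost' : (∏ i, hcost (s' i) (s i)) ^ M = ((SD h (M / 2) n).ht j') ^ 2 := by
        have e1 : ∀ i, hcost (s' i) (s i) = 1 + |(j' i).s| := fun i => by
          unfold hcost; rw [hs't]
        rw [Finset.prod_congr rfl fun i _ => e1 i, SD_ht]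
        have h2 : ∀ i, 0 ≤ 1 + |(j' i).s| := fun i => by positivity
        rw [← Real.finsetProd_rpow _ _ fun i _ => h2 i, ← Finset.prod_pow]
        refine Finset.prod_congr rfl fun i _ => ?_
        rw [← Real.rpow_natCast, ← Real.rpow_mul (h2 i)]
        congr 1
        push_cast
        ring
      rw [hcost', hsz, ← hn₀, lf_cFP] at h1
      rw [SD_w]
      refine h1.trans ?_
      have h5 := expo_P (n₀ := n₀) (k := k) (l := l) (n1 := n1) (φ := φ) (r2 := r2) (e := ε₁)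
        (X0l := Real.log X₀) (n' := (SD h (M / 2) n).len j') (C2 := C2) hlC2 hr2 he1 hl' hj2
      have h6 := Real.exp_le_exp.2 h5
      have e7 : Real.exp ((Real.log C2 + ε₁ * Real.log X₀ + r2) + (-n₀ - k) +
          (φ + n1 + (SD h (M / 2) n).len j')) = W * Real.exp (-n₀ - k) *
            Real.exp (φ + n1 + (SD h (M / 2) n).len j') := by
        rw [Real.exp_add, Real.exp_add, ← hWexp]
      rw [e7] at h6
      calc Bd * (SD h (M / 2) n).ht j' ^ 2 *
            Real.exp (-k / 3 - n₀ + 2 / 3 * (l + (SD h (M / 2) n).len j')) ≤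
          Bd * (SD h (M / 2) n).ht j' ^ 2 * (W * Real.exp (-n₀ - k) *
            Real.exp (φ + n1 + (SD h (M / 2) n).len j')) :=
            mul_le_mul_of_nonneg_left h6 (mul_nonneg hBd hht0)
        _ = _ := by rw [hA]; ring
    have h7 := hPr X₀ K Eb A (by linarith) hK1 hKX hEb1 hEbX hA0 j hlenX (∏ i, a i) hq hH Bs
      (fun b hb => ⟨(hBs b hb).1, by rw [hEb]; exact (hBs b hb).2⟩)
    rw [hht, one_pow, mul_one, hw, HP842.sq_eq_sqc (by
      intro b hb
      rw [← hw] at hb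
      exact hΦ.prim j b hb)] at h7
    rw [hY]
    exact h7
  -- natural from squarefree
  obtain ⟨gm, hgm⟩ : ∃ f : Eis × Eis → Eis, f = fun p => p.2 * p.1 ^ 2 := ⟨_, rfl⟩
  have hsw : ∀ F : Eis → ℝ, ∑ b ∈ Bs, ∑ x ∈ bl K, F (x * b ^ 2) =
      ∑ y ∈ (Bs ×ˢ bl K).image gm, (((Bs ×ˢ bl K).filter (fun p => gm p = y)).card : ℝ) * F y := by
    intro F
    rw [← Finset.sum_product', hgm]
    have := Finset.sum_comp (s := Bs ×ˢ bl K) F (fun p : Eis × Eis => p.2 * p.1 ^ 2)
    rw [this]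
    exact Finset.sum_congr rfl fun y _ => by rw [nsmul_eq_mul]
  have h8 := hS h hR (Fin n) (by rw [Fintype.card_fin]) (fun i => (s i).pc P)
    (fun i => (s i).ok hP) X hX1 (fun i => by
      show Real.exp (s i).z ≤ X
      rw [← Real.le_log_iff_exp_le hX0]; exact (hz i).2) ((Bs ×ˢ bl K).image gm)
    (fun y => (((Bs ×ˢ bl K).filter (fun p => gm p = y)).card : ℝ))
    (fun _ _ => Nat.cast_nonneg _) (C2 * X₀ ^ ε₁ * (K * Eb + K * A)) (by positivity)
    (fun a ha _ => by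
      rw [← hsw (fun y => ‖CS (sqc (∏ i, a i) (al h (ssub (fun i => (s i).pc P) a))) y‖ ^ 2)]
      exact hkey a ha)
  rw [← hsw (fun y => ‖CS (al h (fun i => (s i).pc P)) y‖ ^ 2)] at h8
  have e1 : PMp P h k Bs (List.ofFn s) =
      ∑ b ∈ Bs, ∑ x ∈ bl K, ‖CS (al h (fun i => (s i).pc P)) (x * b ^ 2)‖ ^ 2 := by
    unfold PMp
    rw [← hK]
    refine Finset.sum_congr rfl fun b _ => Finset.sum_congr rfl fun x _ => ?_
    rw [CS_al (bump_of_cs hpu.cs) hP, norm_prod, ← Finset.prod_pow, List.map_ofFn, List.prod_ofFn]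
    rfl
  have e2 : ∏ i, ((s i).pc P).Y = Real.exp n₀ := by
    rw [hn₀, Real.exp_sum]
    rfl
  rw [e1]
  rw [e2] at h8
  refine h8.trans ?_
  have hX₀e : X₀ ^ ε₁ = X ^ (ε / 4) := by
    rw [hX₀, ← Real.rpow_mul hX0.le]
    congr 1
    rw [mul_comm]; exact hε₁n
  have hkn : K * Eb * Real.exp n₀ = Real.exp (k + β + n₀) := by
    rw [hK, hEb, Real.exp_add, Real.exp_add]
  have hKA : K * A * Real.exp n₀ = W * Bd := by
    rw [hA, hK]
    have : Real.exp k * (W * Bd * Real.exp (-n₀ - k)) * Real.exp n₀ =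
        W * Bd * (Real.exp k * Real.exp (-n₀ - k) * Real.exp n₀) := by ring
    rw [this, ← Real.exp_add, ← Real.exp_add]
    have : k + (-n₀ - k) + n₀ = 0 := by ring
    rw [this, Real.exp_zero, mul_one]
  have hsum : Real.exp (k + β + n₀) + W * Bd ≤ W * (Real.exp (k + β + n₀) + Bd) := by
    have := Real.exp_pos (k + β + n₀)
    nlinarith
  rw [← hn₀]
  have hXe4 : 1 ≤ X ^ (ε / 4) := Real.one_le_rpow hX1 (by positivity)
  calc C3 * X ^ (ε / 4) * (C2 * X₀ ^ ε₁ * (K * Eb + K * A) * Real.exp n₀)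
      = C3 * X ^ (ε / 4) * (C2 * X₀ ^ ε₁ * (K * Eb * Real.exp n₀ + K * A * Real.exp n₀)) := by
        ring
    _ = C3 * X ^ (ε / 4) * (C2 * X ^ (ε / 4) * (Real.exp (k + β + n₀) + W * Bd)) := by
        rw [hkn, hKA, hX₀e]
    _ ≤ C3 * X ^ (ε / 4) * (C2 * X ^ (ε / 4) * (W * (Real.exp (k + β + n₀) + Bd))) := by gcongr
    _ = (C3 * C2 ^ 2 * Real.exp r2) * (X ^ (ε / 4) * X ^ (ε / 4) * X ^ (ε / 4)) *
        (Real.exp (k + β + n₀) + Bd) := by rw [hW, hX₀e]; ring
    _ ≤ C' * X ^ ε * (Real.exp (k + β + n₀) + Bd) := by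
        have h9 : X ^ (ε / 4) * X ^ (ε / 4) * X ^ (ε / 4) ≤ X ^ ε := by
          rw [← Real.rpow_add hX0, ← Real.rpow_add hX0]
          exact Real.rpow_le_rpow_of_exponent_le hX1 (by linarith)
        have := Real.exp_pos (k + β + n₀)
        have hC'0 : 0 ≤ C' := le_trans (by positivity) hC'2
        gcongr

/-! ### lists -/

/-- **lists of at most `N` pieces** -/
theorem PM_list {h : ℝ → ℝ} {c : ℝ} (hpu : PU h c) {M : ℝ} (hM : 0 ≤ M) (N : ℕ) {ε : ℝ}
    (hε : 0 < ε) : ∃ C r : ℝ, 1 ≤ C ∧ 0 ≤ r ∧ ∀ P : DPar, P.OK →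
      ∀ X : ℝ, 3 ≤ X → ∀ (k β : ℝ) (ps : List Pq), 0 ≤ k → k ≤ Real.log X → 0 ≤ β →
      β ≤ Real.log X → ps.length ≤ N →
      (∀ p ∈ ps, 0 ≤ Dq.len p ∧ Dq.len p ≤ Real.log X) → ∀ Bd : ℝ, 0 ≤ Bd →
      (∀ (l : ℝ) (ps' : List Pq), 0 ≤ l + β →
        List.Forall₂ (Chd Dq hcost r (C * X ^ (3 * N + 3 : ℝ))) ps' ps →
        (∀ c ∈ ({cG1, cG2} : Finset (Fin 4 → ℝ)),
          lf c k (LL Dq ps) l (LL Dq ps') ≤ r + ε * Real.log X) →
        Sp P h (l + β) ps' ≤ Bd * cst hcost ps' ps ^ M *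
          Real.exp (lf cFP k (LL Dq ps) l (LL Dq ps'))) →
      ∀ Bs : Finset Eis, (∀ b ∈ Bs, IsPrim b ∧ (nm b : ℝ) ≤ Real.exp β) →
      PMp P h k Bs ps ≤ C * X ^ ε * (Real.exp (k + β + LL Dq ps) + Bd) := by
  classical
  choose Cn rn hCn hrn hloc using fun n => locPM hpu hM n hε
  refine ⟨∑ n ∈ Finset.range (N + 1), Cn n, ∑ n ∈ Finset.range (N + 1), rn n, ?_,
    Finset.sum_nonneg fun n _ => hrn n, ?_⟩
  · have h0 : (0 : ℕ) ∈ Finset.range (N + 1) := by simp
    exact (hCn 0).trans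
      (Finset.single_le_sum (f := Cn) (fun n _ => by linarith [hCn n]) h0)
  intro P hP X hX k β ps hk0 hkX hβ0 hβX hlen hz Bd hBd hyp Bs hBs
  have hX0 : 0 < X := by linarith
  have hX1 : 1 ≤ X := by linarith
  obtain ⟨C, hC⟩ : ∃ x : ℝ, x = ∑ n ∈ Finset.range (N + 1), Cn n := ⟨_, rfl⟩
  obtain ⟨r, hr⟩ : ∃ x : ℝ, x = ∑ n ∈ Finset.range (N + 1), rn n := ⟨_, rfl⟩
  rw [← hC, ← hr] at hyp
  rw [← hC]
  have hmem : ps.length ∈ Finset.range (N + 1) := Finset.mem_range.2 (by omega)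
  have hC1 : Cn ps.length ≤ C := by
    rw [hC]
    exact Finset.single_le_sum (f := Cn) (fun n _ => by linarith [hCn n]) hmem
  have hr1 : rn ps.length ≤ r := by
    rw [hr]
    exact Finset.single_le_sum (f := rn) (fun n _ => hrn n) hmem
  have hC0 : 0 ≤ C := by linarith [hCn ps.length]
  have hps : List.ofFn ps.get = ps := List.ofFn_get ps
  have hLL : LL Dq ps = ∑ i, (ps.get i).z := by
    conv_lhs => rw [← hps]
    exact LL_ofFn _
  have h1 := hloc ps.length C r hC1 hr1 P hP ps.get X hX k β hk0 hkX hβ0 hβX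
    (fun i => hz _ (List.get_mem ps i)) Bd hBd (fun l s' hl0 hch hg1 hg2 => by
      have h2 := hyp l (List.ofFn s') hl0 (by
        conv => arg 3; rw [← hps]
        rw [forall₂_ofFn_iff]
        intro i
        have h3 := hch i
        refine ⟨h3.kind, h3.lump, h3.len0, h3.len, h3.s1, h3.s2.trans ?_⟩
        refine mul_le_mul_of_nonneg_left (mul_le_mul_of_nonneg_left ?_ hC0) (Nat.cast_nonneg _)
        refine Real.rpow_le_rpow_of_exponent_le hX1 ?_
        have : (ps.length : ℝ) ≤ N := by exact_mod_cast hlen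
        linarith) (by
        intro c hc
        rw [hLL, LL_ofFn]
        rcases Finset.mem_insert.1 hc with rfl | hc
        · exact hg1
        · rw [Finset.mem_singleton.1 hc]; exact hg2)
      rw [hLL, LL_ofFn] at h2
      have h4 : cst hcost (List.ofFn s') ps = ∏ i, hcost (s' i) (ps.get i) := by
        have h5 := cst_ofFn s' ps.get
        rwa [hps] at h5
      rw [h4] at h2
      exact h2) Bs hBs
  rw [hps] at h1
  rw [hLL]
  exact h1

end Crest.Agent.R017.PML320
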