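import Crest.Agent.R017.MoJb_401
import Crest.Agent.R017.MoL7_106
import Crest.Agent.R017.PML1_320

/-!
# Row 17, block C70, leaf E2 (helper401): list form of the block moment, part 3

* `q4_PM` : a quadruple sum in terms of the block moment `PMp` of helper320
* `q4_RQ` : a quadruple sum in terms of the merged moment `RQ`
-/

set_option autoImplicit false
set_option maxHeartbeats 400000

noncomputable section

open Complex Finset
open scoped ComplexConjugate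

namespace Crest.Agent.R017.MoJ401

open Crest.Agent.R012 Crest.Agent.R012.Eis Crest.Agent.R012.LS2
open Crest.Agent.R012.Div277
open Crest.Agent.R017.CM106 Crest.Agent.R017.FE47 Crest.Agent.R017.End699
open Crest.Agent.R017.B770
open Crest.Agent.R017.Prov71
open Crest.Agent.R017.HP842 (pc)
open Crest.Agent.R017.H1401 (pb mem_pb)
open Crest.Agent.R017.XRG106
open Crest.Agent.R017.MoF106
open Crest.Agent.R017.MoL106 (Q4 mem_Q4 f4 q4_be q4_al Kb Kb_nonneg Bb mem_Bb)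
open Crest.Agent.R017.PML320 (PMp)

/-- **a quadruple sum by the block moment** -/
theorem q4_PM {ε : ℝ} (hε : 0 < ε) : ∃ C : ℝ, 1 ≤ C ∧
    ∀ (T : Finset Eis) (X Z Y : ℝ) (u v w : ℕ) (Pr : Eis → Eis → Eis → Eis → Eis → Prop)
      (g₃ E τ : Eis), 0 ≤ X → 0 ≤ Z → 0 ≤ Y → E ≠ 0 → τ ≠ 0 →
      (∀ y ∈ T, IsPrim y ∧ (nm y : ℝ) ≤ Y) → g₃ ∈ bk X w → ∀ X0 : ℝ, Kb Y Z v w ≤ X0 →
      Real.exp (((u + v : ℕ) : ℝ) / 3 + 2 / 3) ≤ X0 → ∀ l : ℝ,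
      (nm (E * τ) : ℝ) * Kb Y Z v w ≤ Real.exp l →
      ∀ (P : DPar) (h : ℝ → ℝ) {r : ℕ} (s : Fin r → Pq),
      ∑ x ∈ Q4 T X Z u v Pr g₃, ∏ k, ‖CS (pc h ((s k).pc P)) (f4 E τ x)‖ ^ 2 ≤
        C * X0 ^ ε * PMp P h l (Bb (u + v)) (List.ofFn s) := by
  classical
  obtain ⟨C, hC, h1⟩ := q4_be hε
  refine ⟨C, hC, ?_⟩
  intro T X Z Y u v w Pr g₃ E τ hX hZ hY hE hτ hT hg₃ X0 hK hB l hl P h r s
  have hX0 : 0 < X0 := (Real.exp_pos _).trans_le hB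
  have h2 := h1 T X Z Y u v w Pr g₃ E τ hX hZ hY hT hg₃ (fun _ _ => True) (fun _ _ => trivial)
    (fun x => ∏ k, ‖CS (pc h ((s k).pc P)) x‖ ^ 2)
    (fun x => Finset.prod_nonneg fun _ _ => sq_nonneg _) X0 hK hB
  refine h2.trans (mul_le_mul_of_nonneg_left ?_ (by positivity))
  unfold PML320.PMp
  refine Finset.sum_le_sum fun b _ => ?_
  have e1 : ∀ x : Eis, ((List.ofFn s).map fun p => ‖CS (pc h (p.pc P)) x‖ ^ 2).prod =
      ∏ k, ‖CS (pc h ((s k).pc P)) x‖ ^ 2 := by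
    intro x
    rw [List.map_ofFn, List.prod_ofFn]
    rfl
  have hKn := Kb_nonneg hY hZ v w
  refine le_trans (le_of_eq (Finset.sum_congr (s₂ := pb (Kb Y Z v w)) ?_ fun _ _ => rfl)) ?_
  · ext k
    simp
  calc ∑ k ∈ pb (Kb Y Z v w), ∏ i, ‖CS (pc h ((s i).pc P)) (E * τ * (k * b ^ 2))‖ ^ 2
      = ∑ x ∈ (pb (Kb Y Z v w)).image (fun k => E * τ * k),
          ∏ i, ‖CS (pc h ((s i).pc P)) (x * b ^ 2)‖ ^ 2 := by
        rw [Finset.sum_image (fun a _ b _ h => mul_left_cancel₀ (mul_ne_zero hE hτ) h)]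
        refine Finset.sum_congr rfl fun k _ => ?_
        rw [mul_assoc (E * τ) k (b ^ 2)]
    _ ≤ ∑ x ∈ bl (Real.exp l), ∏ i, ‖CS (pc h ((s i).pc P)) (x * b ^ 2)‖ ^ 2 := by
        refine Finset.sum_le_sum_of_subset_of_nonneg (fun x hx => ?_) fun _ _ _ =>
          Finset.prod_nonneg fun _ _ => sq_nonneg _
        rw [Finset.mem_image] at hx
        obtain ⟨k, hk, rfl⟩ := hx
        rw [mem_pb hKn] at hk
        rw [mem_bl (Real.exp_pos _).le]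
        refine ⟨mul_ne_zero (mul_ne_zero hE hτ) hk.2.ne_zero, ?_⟩
        rw [nm_mul, Nat.cast_mul]
        exact (mul_le_mul_of_nonneg_left hk.1 (Nat.cast_nonneg _)).trans hl
    _ = ∑ x ∈ bl (Real.exp l),
          ((List.ofFn s).map fun p => ‖CS (pc h (p.pc P)) (x * b ^ 2)‖ ^ 2).prod :=
        Finset.sum_congr rfl fun x _ => (e1 (x * b ^ 2)).symm

/-- **a quadruple sum by the merged moment** -/
theorem q4_RQ {ε : ℝ} (hε : 0 < ε) : ∃ C : ℝ, 1 ≤ C ∧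
    ∀ (T : Finset Eis) (X Z Y : ℝ) (u v w : ℕ) (Pr : Eis → Eis → Eis → Eis → Eis → Prop)
      (g₃ E τ : Eis), 0 ≤ X → 0 ≤ Z → 0 ≤ Y → E ≠ 0 → τ ≠ 0 →
      (∀ y ∈ T, IsPrim y ∧ (nm y : ℝ) ≤ Y) → g₃ ∈ bk X w → ∀ l : ℝ,
      Lam (nm (E * τ) * Y * Z) u w ≤ Real.exp l → ∀ (Q : Eis → Prop),
      (∀ x ∈ Q4 T X Z u v Pr g₃, Q (f4 E τ x)) →
      ∀ (P : DPar) (h : ℝ → ℝ) {r : ℕ} (s : Fin r → Pq),
      ∑ x ∈ Q4 T X Z u v Pr g₃, ∏ k, ‖CS (pc h ((s k).pc P)) (f4 E τ x)‖ ^ 2 ≤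
        C * Real.exp l ^ ε * RQ Q h l ((List.ofFn s).map (Pq.pc P)) := by
  classical
  obtain ⟨C, hC, h1⟩ := q4_al hε
  refine ⟨C, hC, ?_⟩
  intro T X Z Y u v w Pr g₃ E τ hX hZ hY hE hτ hT hg₃ l hl Q hQ P h r s
  have h2 := h1 T X Z Y u v w Pr g₃ E τ hX hZ hY hE hτ hT hg₃ (Real.exp l) hl Q hQ
    (fun x => ∏ k, ‖CS (pc h ((s k).pc P)) x‖ ^ 2)
    (fun x => Finset.prod_nonneg fun _ _ => sq_nonneg _)
  refine h2.trans (le_of_eq ?_)
  congr 1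
  unfold RQ
  refine Finset.sum_congr (by congr) fun k _ => ?_
  rw [List.map_map, List.map_ofFn, List.prod_ofFn]
  rfl

end Crest.Agent.R017.MoJ401
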