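import Crest.Agent.R017.MoJd_401

/-!
# Row 17, block C70, leaf E2 (helper401): the block moment with an extra predicate, part 1

* `MoJQ` : the block moment, only the pairs `(B, d)` with `Q B d`
* `MoJ_split` : `MoJ = MoJQ Q + MoJQ (¬ Q)`
* `MoJCQ`, `MoJQ_bt_le` : through the children `sub (ag ..) g`, mean over heights
-/

set_option autoImplicit false

noncomputable section

open Complex
open scoped ComplexConjugate

namespace Crest.Agent.R017.MoJ401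

open Crest.Agent.R012 Crest.Agent.R012.Eis
open Crest.Agent.R012.GaussLoc283
open Crest.Agent.R012.Div277
open Crest.Agent.R012.LS2 (S mem_S)
open Crest.Agent.R012.Weight600 (osc norm_osc pw)
open Crest.Agent.R017.CM106 (sub CS FS)
open Crest.Agent.R017.X6C180 (IX dl')
open Crest.Agent.R017.H1401 (pb mem_pb DD DN WM HW WJ GB)
open Crest.Agent.R017.Win813 (iA iA_nonneg WK wn)
open Crest.Agent.R017.RGw813 (bt)
open Crest.Agent.R017.MoF106 (MoP MoP_nonneg MoI MoC MoI_nonneg dl aG aG_ne aW aW_eq aG_supp1)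
open Crest.Agent.R017.MoL106 (aT kw ag_bt ag_wn_dl aW_prim MoP_bt_le)
open Crest.Agent.R017.E2440 (cT ag)
open Crest.Agent.R017.E2D401 (MoJ norm_CS_gcd_le dn_dvd)

/-- the block moment with an extra predicate -/
def MoJQ (ν : Eis) (α : Eis → ℂ) (E τ : Eis) (X t R Z U : ℝ) (Bs : Finset Eis)
    (Q : Eis → Eis → Prop) : ℝ := by
  classical
  exact ∑ n ∈ dvs ν, (nm n : ℝ) * ∑ g₂ ∈ S X, ∑ g₃ ∈ S X, ∑ g ∈ S U,
    WJ R (Z / (nm n : ℝ) ^ 3) U g g₂ * ∑ B ∈ Bs,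
      ∑ d ∈ (pb Z).filter (fun d => ((DN n g₂ g₃ d ∧ GB g B d) ∧ Z / 2 < nm d) ∧ Q B d),
        ‖CS (sub (cT α E B τ t) (g₂ * g₃)) d‖ ^ 2

lemma MoJQ_nonneg {ν : Eis} {α : Eis → ℂ} {E τ : Eis} {X t R Z U : ℝ} (hR : 0 ≤ R)
    (Bs : Finset Eis) (Q : Eis → Eis → Prop) : 0 ≤ MoJQ ν α E τ X t R Z U Bs Q := by
  classical
  unfold MoJQ
  exact Finset.sum_nonneg fun n _ => mul_nonneg (Nat.cast_nonneg _) (Finset.sum_nonneg fun _ _ =>
    Finset.sum_nonneg fun _ _ => Finset.sum_nonneg fun _ _ =>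
      mul_nonneg (H1401.WJ_nonneg hR _ _) (Finset.sum_nonneg fun _ _ =>
        Finset.sum_nonneg fun _ _ => sq_nonneg _))

/-- **the split of the block moment** -/
theorem MoJ_split {ν : Eis} {α : Eis → ℂ} {E τ : Eis} {X t R Z U : ℝ} (Bs : Finset Eis)
    (Q : Eis → Eis → Prop) :
    MoJ ν α E τ X t R Z U Bs = MoJQ ν α E τ X t R Z U Bs Q +
      MoJQ ν α E τ X t R Z U Bs (fun B d => ¬ Q B d) := by
  classical
  unfold E2D401.MoJ MoJQ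
  rw [← Finset.sum_add_distrib]
  refine Finset.sum_congr rfl fun n _ => ?_
  rw [← mul_add, ← Finset.sum_add_distrib]
  congr 1
  refine Finset.sum_congr rfl fun g₂ _ => ?_
  rw [← Finset.sum_add_distrib]
  refine Finset.sum_congr rfl fun g₃ _ => ?_
  rw [← Finset.sum_add_distrib]
  refine Finset.sum_congr rfl fun g _ => ?_
  rw [← mul_add, ← Finset.sum_add_distrib]
  congr 1
  refine Finset.sum_congr rfl fun B _ => ?_
  rw [← Finset.sum_filter_add_sum_filter_not ((pb Z).filter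
    (fun d => (DN n g₂ g₃ d ∧ GB g B d) ∧ Z / 2 < nm d)) (Q B), Finset.filter_filter,
    Finset.filter_filter]
  congr 1
  all_goals
    refine Finset.sum_congr ?_ fun _ _ => rfl
    ext d
    simp only [Finset.mem_filter]

lemma MoJQ_true {ν : Eis} {α : Eis → ℂ} {E τ : Eis} {X t R Z U : ℝ} (Bs : Finset Eis) :
    MoJQ ν α E τ X t R Z U Bs (fun _ _ => True) = MoJ ν α E τ X t R Z U Bs := by
  classical
  unfold E2D401.MoJ MoJQ
  simp only [and_true]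

/-- monotony in `R` -/
lemma MoJQ_mono {ν : Eis} {α : Eis → ℂ} {E τ : Eis} {X t R R' Z U : ℝ} (h : R ≤ R')
    (Bs : Finset Eis) (Q : Eis → Eis → Prop) :
    MoJQ ν α E τ X t R Z U Bs Q ≤ MoJQ ν α E τ X t R' Z U Bs Q := by
  classical
  unfold MoJQ
  refine Finset.sum_le_sum fun n _ => mul_le_mul_of_nonneg_left ?_ (Nat.cast_nonneg _)
  refine Finset.sum_le_sum fun g₂ _ => Finset.sum_le_sum fun g₃ _ => Finset.sum_le_sum fun g _ => ?_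
  exact mul_le_mul_of_nonneg_right (WJ_mono h g g₂)
    (Finset.sum_nonneg fun _ _ => Finset.sum_nonneg fun _ _ => sq_nonneg _)

/-- the predicate of the cells -/
def PJQ (Q : Eis → Eis → Prop) (n g : Eis) (Z : ℝ) (B g₂ g₃ d : Eis) : Prop :=
  PJ n g Z B g₂ g₃ d ∧ Q (g * B) (g * d)

open Classical in
/-- **fixed `g`** -/
theorem inner_leQ {α : Eis → ℂ} (hα : FS α) (hs : ∀ n, α n ≠ 0 → Squarefree n)
    {X Z : ℝ} (hX : 0 ≤ X) (hZ : 0 ≤ Z) (E τ : Eis) (t : ℝ) {Bs : Finset Eis}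
    (hBs : ∀ B ∈ Bs, B ∈ S X) (Q : Eis → Eis → Prop)
    {g n g₂ g₃ : Eis} (hg : IsPrim g) (hgs : Squarefree g) (h2 : IsPrim g₂) (h3 : IsPrim g₃) :
    ∑ B ∈ Bs, ∑ d ∈ (pb Z).filter (fun d => ((DN n g₂ g₃ d ∧ GB g B d) ∧ Z / 2 < nm d) ∧ Q B d),
        ‖CS (sub (cT α E B τ t) (g₂ * g₃)) d‖ ^ 2 ≤
      ∑ B' ∈ (S X).filter (fun B' => g * B' ∈ Bs),
        ∑ d' ∈ (pb (Z / nm g)).filter (fun d' => PJQ Q n g Z B' g₂ g₃ d'),
          ‖CS (sub (cT (sub α g) E B' τ t) (g₂ * g₃)) d'‖ ^ 2 := by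
  have hg1 : (1 : ℝ) ≤ nm g := by exact_mod_cast nm_pos.2 hg.ne_zero
  have hg0 : (0 : ℝ) < nm g := by linarith
  have e1 : ∑ B ∈ Bs, ∑ d ∈ (pb Z).filter (fun d => ((DN n g₂ g₃ d ∧ GB g B d) ∧
        Z / 2 < nm d) ∧ Q B d), ‖CS (sub (cT α E B τ t) (g₂ * g₃)) d‖ ^ 2 =
      ∑ B ∈ Bs.filter (fun B => g ∣ B),
        ∑ d ∈ (pb Z).filter (fun d => ((DN n g₂ g₃ d ∧ GB g B d) ∧ Z / 2 < nm d) ∧ Q B d),
        ‖CS (sub (cT α E B τ t) (g₂ * g₃)) d‖ ^ 2 := by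
    symm
    refine Finset.sum_subset (Finset.filter_subset _ _) fun B hB hB' => ?_
    refine Finset.sum_eq_zero fun d hd => ?_
    exfalso
    rw [Finset.mem_filter] at hd
    obtain ⟨B', d', k1, -⟩ := hd.2.1.1.2
    exact hB' (Finset.mem_filter.mpr ⟨hB, ⟨B', k1⟩⟩)
  rw [e1]
  set T := (S X).filter (fun B' => g * B' ∈ Bs) with hT
  have e2 : Bs.filter (fun B => g ∣ B) ⊆ T.image (fun B' => g * B') := by
    intro B hB
    rw [Finset.mem_filter] at hB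
    obtain ⟨hB1, ⟨B', rfl⟩⟩ := hB
    obtain ⟨k1, k2, k3⟩ := (mem_S hX).mp (hBs _ hB1)
    rw [Finset.mem_image]
    refine ⟨B', ?_, rfl⟩
    rw [hT, Finset.mem_filter, mem_S hX]
    refine ⟨⟨le_trans ?_ k1, k2.of_mul_left hg, k3.of_mul_right⟩, hB1⟩
    exact_mod_cast nm_le_of_dvd k2.ne_zero (dvd_mul_left B' g)
  refine (Finset.sum_le_sum_of_subset_of_nonneg e2 fun _ _ _ =>
    Finset.sum_nonneg fun _ _ => sq_nonneg _).trans ?_
  rw [Finset.sum_image (fun a _ b _ h => mul_left_cancel₀ hg.ne_zero h)]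
  refine Finset.sum_le_sum fun B' hB' => ?_
  rw [hT, Finset.mem_filter, mem_S hX] at hB'
  obtain ⟨⟨k1, k2, k3⟩, k4⟩ := hB'
  set D := (pb (Z / nm g)).filter (fun d' => PJQ Q n g Z B' g₂ g₃ d') with hD
  have e3 : (pb Z).filter (fun d => ((DN n g₂ g₃ d ∧ GB g (g * B') d) ∧ Z / 2 < nm d) ∧
      Q (g * B') d) ⊆ D.image (fun d' => g * d') := by
    intro d hd
    rw [Finset.mem_filter, mem_pb hZ] at hd
    obtain ⟨⟨m1, m2⟩, ⟨⟨m3, ⟨B'', d', m4, rfl, m5, m6⟩⟩, m7⟩, m9⟩ := hd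
    have m8 : B'' = B' := (mul_left_cancel₀ hg.ne_zero m4).symm
    subst m8
    rw [nm_mul] at m1 m7
    push_cast at m1 m7
    rw [Finset.mem_image]
    refine ⟨d', ?_, rfl⟩
    rw [hD, Finset.mem_filter, mem_pb (by positivity)]
    refine ⟨⟨?_, m2.of_mul_left hg⟩, ⟨dn_dvd hgs m6 m3, m5.of_mul_right_right, ?_⟩, m9⟩
    · rw [le_div_iff₀ hg0]
      linarith
    · rw [div_lt_iff₀ (by positivity)]
      linarith
  refine (Finset.sum_le_sum_of_subset_of_nonneg e3 fun _ _ _ => sq_nonneg _).trans ?_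
  rw [Finset.sum_image (fun a _ b _ h => mul_left_cancel₀ hg.ne_zero h)]
  refine Finset.sum_le_sum fun d' _ => ?_
  exact pow_le_pow_left₀ (norm_nonneg _)
    (norm_CS_gcd_le hα hs hg k2 E τ (g₂ * g₃) t (h2.mul h3)) 2

open Classical in
/-- **the block moment through the children** -/
theorem MoJQ_le {α : Eis → ℂ} (hα : FS α) (hs : ∀ n, α n ≠ 0 → Squarefree n)
    {X Z R U : ℝ} (hX : 0 ≤ X) (hZ : 0 ≤ Z) (hR : 0 ≤ R) (hU : 0 ≤ U) (ν E τ : Eis) (t : ℝ)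
    {Bs : Finset Eis} (hBs : ∀ B ∈ Bs, B ∈ S X) (Q : Eis → Eis → Prop) :
    MoJQ ν α E τ X t R Z U Bs Q ≤ ∑ n ∈ dvs ν, (nm n : ℝ) * ∑ g ∈ S U,
      ∑ B ∈ (S X).filter (fun B => g * B ∈ Bs), MoP (sub α g) E B τ X t (Z / nm g)
        (fun g₂ _ => WJ R (Z / (nm n : ℝ) ^ 3) U g g₂) (PJQ Q n g Z B) := by
  unfold MoJQ
  refine Finset.sum_le_sum fun n _ => mul_le_mul_of_nonneg_left ?_ (by positivity)
  have h1 : ∑ g₂ ∈ S X, ∑ g₃ ∈ S X, ∑ g ∈ S U, WJ R (Z / (nm n : ℝ) ^ 3) U g g₂ * ∑ B ∈ Bs,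
      ∑ d ∈ (pb Z).filter (fun d => ((DN n g₂ g₃ d ∧ GB g B d) ∧ Z / 2 < nm d) ∧ Q B d),
        ‖CS (sub (cT α E B τ t) (g₂ * g₃)) d‖ ^ 2 ≤
      ∑ g₂ ∈ S X, ∑ g₃ ∈ S X, ∑ g ∈ S U, WJ R (Z / (nm n : ℝ) ^ 3) U g g₂ *
        ∑ B' ∈ (S X).filter (fun B' => g * B' ∈ Bs),
        ∑ d' ∈ (pb (Z / nm g)).filter (fun d' => PJQ Q n g Z B' g₂ g₃ d'),
          ‖CS (sub (cT (sub α g) E B' τ t) (g₂ * g₃)) d'‖ ^ 2 := by
    refine Finset.sum_le_sum fun g₂ h2 => Finset.sum_le_sum fun g₃ h3 =>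
      Finset.sum_le_sum fun g hg => ?_
    refine mul_le_mul_of_nonneg_left ?_ (H1401.WJ_nonneg hR g g₂)
    obtain ⟨-, k1, k2⟩ := (mem_S hU).mp hg
    exact inner_leQ hα hs hX hZ E τ t hBs Q k1 k2 ((mem_S hX).mp h2).2.1 ((mem_S hX).mp h3).2.1
  refine h1.trans (le_of_eq ?_)
  rw [Finset.sum_congr rfl fun g₂ _ => Finset.sum_comm, Finset.sum_comm]
  refine Finset.sum_congr rfl fun g _ => ?_
  unfold MoF106.MoP
  simp only [Finset.mul_sum]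
  rw [Finset.sum_congr rfl fun g₂ _ => Finset.sum_comm, Finset.sum_comm]

/-- the block functional through the children, with an extra predicate -/
def MoJCQ (C η : ℝ) (A : ℕ) (σ γ q g₀ δ : Eis) (w : Eis → ℂ) (ν E : Eis) (X R Z U : ℝ)
    (Bs : Finset Eis) (Q : IX σ → Eis → Eis → Prop) : ℝ := by
  classical
  exact ∑ n ∈ dvs ν, (nm n : ℝ) * ∑ g ∈ (S U).filter (fun g => IsCoprime g δ),
    ∑ B ∈ (S X).filter (fun B => g * B ∈ Bs),
      MoC C η A σ (aG γ q (g₀ * g) δ w) E B X (Z / nm g)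
        (fun g₂ _ => WJ R (Z / (nm n : ℝ) ^ 3) U g g₂) (fun i => PJQ (Q i) n g Z B)

section
variable {w : Eis → ℂ} {X₁ : ℝ} {γ q g₀ δ : Eis} {φ : ℝ → ℝ} {p : ℕ × ℕ} {t₀ : ℝ}

/-- **the block moment of a twisted window at height `t₀`** -/
theorem MoJQ_bt_le {E ν : Eis} {X R Z U : ℝ} {σ : Eis} {Bs : Finset Eis} {C η : ℝ} {A : ℕ}
    (hC : 0 ≤ C) (hη : 0 < η) (hη1 : η ≤ 1) (hA : 2 ≤ A) (hφ : WK C η A φ) (hX₁ : 0 ≤ X₁)
    (hw : ∀ n, w n ≠ 0 → (nm n : ℝ) ≤ X₁) (hX : 0 ≤ X) (hR : 0 ≤ R) (hZ : 0 ≤ Z) (hU : 0 ≤ U)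
    (hγ : IsPrim γ) (hγs : Squarefree γ) (hg₀ : IsPrim g₀) (hBs : ∀ B ∈ Bs, B ∈ S X)
    (Q : IX σ → Eis → Eis → Prop) (p : ℕ × ℕ) (t₀ : ℝ) (i : IX σ) (t : ℝ) :
    MoJQ ν (ag (fun n => bt φ (dl γ (TP320.sq (q * γ) w)) p n * pw t₀ (nm n)) δ g₀) E (dl' σ i)
        X t R Z U Bs (Q i) ≤
      (1 + |t|) ^ A * ((1 + |t₀|) ^ A *
        MoJCQ C η A σ γ q g₀ δ w ν (E * kw p ^ 2) X R Z U Bs Q) := by
  classical
  set al := ag (fun n => bt φ (dl γ (TP320.sq (q * γ) w)) p n * pw t₀ (nm n)) δ g₀ with hal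
  refine (MoJQ_le (al_fs hX₁ hw hγ hγs hg₀) (al_sqf hγ hγs) hX hZ hR hU ν E (dl' σ i) t
    hBs (Q i)).trans ?_
  rw [← hal]
  unfold MoJCQ
  rw [← mul_assoc, Finset.mul_sum]
  refine Finset.sum_le_sum fun n _ => ?_
  rw [mul_left_comm]
  refine mul_le_mul_of_nonneg_left ?_ (Nat.cast_nonneg _)
  rw [Finset.mul_sum, Finset.sum_filter]
  refine Finset.sum_le_sum fun g hg => ?_
  obtain ⟨-, hg1, -⟩ := (mem_S hU).mp hg
  by_cases hgδ : IsCoprime g δ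
  · rw [if_pos hgδ, Finset.mul_sum]
    refine Finset.sum_le_sum fun B hB => ?_
    rw [hal, sub_ag hgδ, mul_assoc]
    exact MoP_bt_le (P := fun i => PJQ (Q i) n g Z B) hC hη hη1 hA hφ hX₁ hw hX hγ hγs
      (hg₀.mul hg1) ((mem_S hX).1 (Finset.mem_filter.mp hB).1).2.1
      (fun _ _ _ _ => H1401.WJ_nonneg hR _ _) p t₀ i t
  · rw [if_neg hgδ]
    refine le_of_eq (Finset.sum_eq_zero fun B _ => ?_)
    rw [hal, sub_ag_zero hgδ]
    unfold MoF106.MoP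
    refine Finset.sum_eq_zero fun g₂ _ => Finset.sum_eq_zero fun g₃ _ => ?_
    rw [Finset.sum_eq_zero, mul_zero]
    intro d _
    rw [CS_cT_zero]
    simp

end

end Crest.Agent.R017.MoJ401
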