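import Crest.Agent.R017.MoJe_401

/-!
# Row 17, block C70, leaf E2 (helper401): the block moment with an extra predicate, part 2

* `MoJCQ_list` : the block moment for lists of pieces, in terms of natural quadruple sums
* `MoJQ_cell` : a block of `j₂`, common weight
-/

set_option autoImplicit false
set_option maxHeartbeats 400000

noncomputable section

open Complex Finset
open scoped ComplexConjugate

namespace Crest.Agent.R017.MoJ401

open Crest.Agent.R012 Crest.Agent.R012.Eis Crest.Agent.R012.LS2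
open Crest.Agent.R012.Div277 Crest.Agent.R012.Weight600
open Crest.Agent.R017.CM106 Crest.Agent.R017.FE47 Crest.Agent.R017.End699
open Crest.Agent.R017.B770
open Crest.Agent.R017.Prov71
open Crest.Agent.R017.HP842 (pc)
open Crest.Agent.R017.TPOk571 (IP FP SD SD_w SD_len SD_ht sd_ok AC relU)
open Crest.Agent.R017.X6C180 (IX dl')
open Crest.Agent.R017.H1401 (pb mem_pb WJ)
open Crest.Agent.R017.Win813 (iA iA_nonneg WK)
open Crest.Agent.R017.XRG106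
open Crest.Agent.R017.MoF106
open Crest.Agent.R017.MoL106 (FromP Q4 mem_Q4 f4 kw MoC_list NX_sq_le)

lemma MoJCQ_nonneg {C η : ℝ} (hη : 0 < η) {A : ℕ} {σ γ q g₀ δ : Eis} {w : Eis → ℂ} {ν E : Eis}
    {X R Z U : ℝ} (hR : 0 ≤ R) (Bs : Finset Eis) (Q : IX σ → Eis → Eis → Prop) :
    0 ≤ MoJCQ C η A σ γ q g₀ δ w ν E X R Z U Bs Q := by
  classical
  unfold MoJCQ
  refine Finset.sum_nonneg fun n _ => mul_nonneg (Nat.cast_nonneg _) ?_
  exact Finset.sum_nonneg fun g _ => Finset.sum_nonneg fun B _ =>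
    MoC_nonneg' hη fun _ _ _ _ => H1401.WJ_nonneg hR _ _

/-- **the block moment for lists of pieces**, with a predicate -/
theorem MoJCQ_list {h : ℝ → ℝ} {c : ℝ} (hpu : PU h c) {R : ℝ} (hR0 : 0 ≤ R)
    (hR : ∀ u, cx h u ≠ 0 → |u| ≤ R) {μ : ℝ} (hμ : 0 ≤ μ) (r : ℕ) (σ : Eis) {ε : ℝ}
    (hε : 0 < ε) :
    ∃ C : ℝ, 1 ≤ C ∧ ∀ (A' : ℕ), 2 * (r * μ) + 2 ≤ A' → ∀ (Cφ η : ℝ), 0 < η →
      ∀ (P : DPar) (hP : P.OK) (s : Fin r → Pq), (∀ i, 0 ≤ (s i).z) →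
      ∀ j : Fin r → IP, (∀ i, FromP hP (j i) (s i)) →
      ∀ (γ q g₀ δ E ν : Eis), IsPrim γ → Squarefree γ → IsPrim g₀ → IsPrim q → IsPrim δ →
      IsPrim ν →
      ∀ (T : Finset Eis) (Bs : Eis → Finset Eis) (X Z Rr U X0 : ℝ), 1 ≤ X → 0 ≤ Z → 0 ≤ Rr →
      1 ≤ U → X ≤ X0 → U ≤ X0 → (nm γ : ℝ) ≤ X0 → (nm g₀ : ℝ) ≤ X0 → (nm q : ℝ) ≤ X0 →
      (nm δ : ℝ) ≤ X0 → (nm ν : ℝ) ≤ X0 → (∀ i, Real.exp (s i).z ≤ X0) →
      (∀ y ∈ T, ∀ B ∈ Bs y, B ∈ S X ∧ U / 2 ≤ nm B ∧ (nm B : ℝ) ≤ U) →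
      ∀ Q : Eis → IX σ → Eis → Eis → Prop, ∀ M : ℝ, 0 ≤ M →
      (∀ n ∈ dvs ν, ∀ g ∈ S U, IsCoprime g δ →
        ∀ u < NX X, ∀ v < NX X, ∀ w < NX X, Real.exp ((u : ℝ) / 3) * nm g ≤ U →
        U ≤ 2 * (Real.exp ((u : ℝ) / 3 + 1 / 3) * nm g) →
        (nm n : ℝ) ^ 3 * (Real.exp (2 * ((v : ℝ) / 3)) * Real.exp w) ≤ Z / nm g →
        ∀ i : IX σ, ∀ g₃ ∈ bk X w,
        ∀ (s' : Fin r → Pq) (W0 : ℝ), 1 ≤ W0 → (∀ k, Rl C W0 (s' k) (s k)) →
        ∑ k, (s' k).z ≤ ∑ k, (j k).z + Real.log (nm γ) -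
          (Real.log (nm (g₀ * g)) + ((u : ℝ) / 3 + v / 3 + w / 3)) + C →
        (nm n : ℝ) * nm g * wJc Rr (Z / (nm n : ℝ) ^ 3) U (nm g) (Real.exp ((v : ℝ) / 3)) *
          Real.exp ((w : ℝ) / 3) *
          ∑ x ∈ Q4 T X (Z / nm g) u v (fun y B g₂ g₃ d =>
            g * B ∈ Bs y ∧ PJQ (Q y i) n g Z B g₂ g₃ d) g₃,
          ∏ k, ‖CS (pc h ((s' k).pc P)) (f4 E (dl' σ i) x)‖ ^ 2 ≤
        M * Real.exp (∑ k, (s' k).z - (∑ k, (j k).z -
          (Real.log (nm (g₀ * g)) + ((u : ℝ) / 3 + v / 3 + w / 3)))) * W0 ^ (2 * μ)) →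
      ∑ y ∈ T, MoJCQ Cφ η A' σ γ q g₀ δ ((SD h μ r).w j) ν (E * y) X Rr Z U (Bs y) (Q y) ≤
        C * (Cφ ^ 2 * iA A' * (η * (η ^ A')⁻¹)) * X0 ^ ε * nm γ * M := by
  classical
  obtain ⟨C1, hC1, hs1⟩ := MoC_list hpu hR0 hR hμ r σ (show 0 < ε / 8 by linarith)
  obtain ⟨C2, hC2, hτ⟩ := tau_le_rpow (show 0 < ε / 4 by linarith)
  obtain ⟨C3, hC3, hNX⟩ := NX_sq_le (show 0 < ε / 4 by linarith)
  set C4 : ℝ := 100 * (1 + (ε / 4)⁻¹) with hC4
  have hε4 : 0 < (ε / 4)⁻¹ := by positivity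
  have hC41 : 1 ≤ C4 := by rw [hC4]; linarith
  set K : ℝ := 2 * C1 * C2 * C3 * C4 with hK
  have hCK1 : C1 ≤ K := by
    have h1 : 1 ≤ C2 * C3 * C4 := one_le_mul_of_one_le_of_one_le
      (one_le_mul_of_one_le_of_one_le hC2 hC3) hC41
    have h2 : C1 * 1 ≤ C1 * (C2 * C3 * C4) := mul_le_mul_of_nonneg_left h1 (by linarith)
    rw [hK]
    nlinarith
  refine ⟨K, by linarith, ?_⟩
  intro A' hA' Cφ η hη P hP s hs j hj γ q g₀ δ E ν hγ hγs hg₀ hq hδ hν T Bs X Z Rr U X0 hX hZ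
    hRr hU hXX hUX hγX hgX hqX hδX hνX hsX hBs Q M hM hyp
  have hX0 : 0 ≤ X := by linarith
  have hX01 : 1 ≤ X0 := by linarith
  have hX00 : 0 < X0 := by linarith
  have hU0 : 0 ≤ U := by linarith
  have hγp : (1 : ℝ) ≤ nm γ := by exact_mod_cast nm_pos.2 hγ.ne_zero
  have hpA : 0 ≤ Cφ ^ 2 * iA A' * (η * (η ^ A')⁻¹) := by
    have := iA_nonneg A'; positivity
  set Ap : ℝ := Cφ ^ 2 * iA A' * (η * (η ^ A')⁻¹) with hAp
  have hXle : X0 ≤ X0 ^ 2 := le_self_pow₀ hX01 (by norm_num)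
  have e8 : (X0 ^ 2) ^ (ε / 8) = X0 ^ (ε / 4) := by
    rw [← Real.rpow_natCast, ← Real.rpow_mul hX00.le]
    congr 1
    push_cast; ring
  -- one pair `(n, g)`
  have key : ∀ n ∈ dvs ν, ∀ g ∈ (S U).filter (fun g => IsCoprime g δ),
      (nm n : ℝ) * ∑ y ∈ T, ∑ B ∈ (S X).filter (fun B => g * B ∈ Bs y),
        MoC Cφ η A' σ (aG γ q (g₀ * g) δ ((SD h μ r).w j)) (E * y) B X (Z / nm g)
        (fun g₂ _ => WJ Rr (Z / (nm n : ℝ) ^ 3) U g g₂) (fun i => PJQ (Q y i) n g Z B) ≤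
      (NX X : ℝ) * (2 * C1 * Ap * X0 ^ (ε / 4) * nm γ * M) * (1 / nm g) := by
    intro n hn g hg
    rw [Finset.mem_filter, mem_S hU0] at hg
    obtain ⟨⟨hgU, hg1, hgs⟩, hgδ⟩ := hg
    have hgS : g ∈ S U := (mem_S hU0).mpr ⟨hgU, hg1, hgs⟩
    rw [mem_dvs hν.ne_zero] at hn
    have hnp : (1 : ℝ) ≤ nm n := by exact_mod_cast nm_pos.2 hn.1.ne_zero
    have hgp : (1 : ℝ) ≤ nm g := by exact_mod_cast nm_pos.2 hg1.ne_zero
    have hZg : 0 ≤ Z / nm g := by positivity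
    have hZn : 0 ≤ Z / (nm n : ℝ) ^ 3 := by positivity
    have hWn : ∀ g₂ ∈ S X, ∀ g₃ ∈ S X, 0 ≤ WJ Rr (Z / (nm n : ℝ) ^ 3) U g g₂ :=
      fun _ _ _ _ => H1401.WJ_nonneg hRr _ _
    set Pr : Eis → Eis → IX σ → Eis → Eis → Eis → Prop :=
      fun y B i g₂ g₃ d => g * B ∈ Bs y ∧ PJQ (Q y i) n g Z B g₂ g₃ d with hPr
    set F : Eis → Eis → ℝ := fun y B =>
      MoC Cφ η A' σ (aG γ q (g₀ * g) δ ((SD h μ r).w j)) (E * y) B X (Z / nm g)
        (fun g₂ _ => WJ Rr (Z / (nm n : ℝ) ^ 3) U g g₂) (Pr y B) with hF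
    have hF0 : ∀ y B, 0 ≤ F y B := fun y B => MoC_nonneg' hη hWn
    have step1 : ∑ y ∈ T, ∑ B ∈ (S X).filter (fun B => g * B ∈ Bs y),
        MoC Cφ η A' σ (aG γ q (g₀ * g) δ ((SD h μ r).w j)) (E * y) B X (Z / nm g)
        (fun g₂ _ => WJ Rr (Z / (nm n : ℝ) ^ 3) U g g₂) (fun i => PJQ (Q y i) n g Z B) ≤
        ∑ u ∈ Finset.range (NX X), ∑ y ∈ T, ∑ B ∈ bk X u, F y B := by
      rw [Finset.sum_comm]
      refine Finset.sum_le_sum fun y _ => ?_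
      have e1 : ∑ u ∈ Finset.range (NX X), ∑ B ∈ bk X u, F y B = ∑ B ∈ S X, F y B :=
        (sum_bk hX _).symm
      rw [e1, Finset.sum_filter]
      refine Finset.sum_le_sum fun B _ => ?_
      split_ifs with h0
      · refine le_of_eq ?_
        rw [hF, hPr]
        simp only [h0, true_and]
      · exact hF0 y B
    have step2 : ∀ u ∈ Finset.range (NX X), ∑ y ∈ T, ∑ B ∈ bk X u, F y B ≤
        C1 * Ap * X0 ^ (ε / 4) * nm γ * (2 * M / (nm n * nm g)) := by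
      intro u hu
      rw [Finset.mem_range] at hu
      have hM' : 0 ≤ 2 * M / (nm n * nm g) := by positivity
      rcases lt_or_ge (Z / nm g) 1 with hZ1 | hZ1
      · rw [Finset.sum_eq_zero]
        · positivity
        intro y _
        refine Finset.sum_eq_zero fun B _ => ?_
        rw [hF]
        exact MoC_empty hZg hZ1
      · have h1 := hs1 A' hA' Cφ η hη P hP s hs j hj γ q (g₀ * g) δ E hγ hγs (hg₀.mul hg1) hq hδ
          T u X (Z / nm g) (X0 ^ 2) hX hZ1 (hXX.trans hXle) (hγX.trans hXle) (by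
            rw [nm_mul, Nat.cast_mul, pow_two]
            exact mul_le_mul hgX (hgU.trans hUX) (Nat.cast_nonneg _) hX00.le)
          (hqX.trans hXle) (hδX.trans hXle) (fun i => (hsX i).trans hXle)
          (fun g₂ _ => WJ Rr (Z / (nm n : ℝ) ^ 3) U g g₂)
          (fun v _ => 2 * wJc Rr (Z / (nm n : ℝ) ^ 3) U (nm g) (Real.exp ((v : ℝ) / 3)))
          hWn (fun v _ w _ g₂ hg₂ g₃ _ => WJ_le_wJc hRr hZn hU0 hX0 hg1.ne_zero hg₂)
          (fun v _ w _ => by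
            have := wJc_nonneg (R := Rr) (Z := Z / (nm n : ℝ) ^ 3) (U := U) (G := nm g)
              (x := Real.exp ((v : ℝ) / 3)) hRr (Nat.cast_nonneg _) (Real.exp_pos _).le
            positivity)
          Pr (fun y B i g₂ g₃ d hd => (dvd_mul_left _ _).trans hd.2.1.1)
          (2 * M / (nm n * nm g)) hM' (by
            intro v hv w hw _ i g₃ hg₃ s' W0 hW0 hRl hle
            rcases (Q4 T X (Z / nm g) u v (fun y B => Pr y B i) g₃).eq_empty_or_nonempty with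
              h0 | ⟨x, hx⟩
            · rw [h0, Finset.sum_empty, mul_zero]
              have : 0 < W0 := by linarith
              positivity
            · obtain ⟨⟨x1, x2, x3, x4⟩, x5, x6, ⟨x7, -, -⟩, -⟩ := mem_Q4.1 hx
              have hB1 := hBs _ x1 _ x6
              rw [nm_mul, Nat.cast_mul] at hB1
              have a1 : Real.exp ((u : ℝ) / 3) * nm g ≤ U := by
                have := mul_le_mul_of_nonneg_right (bk_nm_ge hX0 x2) (Nat.cast_nonneg (nm g))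
                linarith [hB1.2.2, mul_comm (nm g : ℝ) (nm x.2.1 : ℝ)]
              have a2 : U ≤ 2 * (Real.exp ((u : ℝ) / 3 + 1 / 3) * nm g) := by
                have := mul_le_mul_of_nonneg_right (bk_nm_le hX0 x2) (Nat.cast_nonneg (nm g))
                linarith [hB1.2.1, mul_comm (nm g : ℝ) (nm x.2.1 : ℝ)]
              have a3 : (nm n : ℝ) ^ 3 * (Real.exp (2 * ((v : ℝ) / 3)) * Real.exp w) ≤
                  Z / nm g := by
                have b1 : (nm (x.2.2.1 ^ 2 * g₃ ^ 3 * x.2.2.2) : ℝ) ≤ Z / nm g :=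
                  ((mem_pb hZg).1 x5).1
                have b0 : IsPrim (x.2.2.1 ^ 2 * g₃ ^ 3 * x.2.2.2) := ((mem_pb hZg).1 x5).2
                have b2 : (nm (n ^ 3 * (x.2.2.1 ^ 2 * g₃ ^ 3)) : ℝ) ≤
                    nm (x.2.2.1 ^ 2 * g₃ ^ 3 * x.2.2.2) := by
                  exact_mod_cast nm_le_of_dvd b0.ne_zero x7
                rw [nm_mul, nm_pow, nm_mul, nm_pow, nm_pow] at b2
                push_cast at b2
                have c3 : Real.exp (w : ℝ) ≤ (nm g₃ : ℝ) ^ 3 := by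
                  have := pow_le_pow_left₀ (Real.exp_pos _).le (bk_nm_ge hX0 hg₃) 3
                  rw [← Real.exp_nat_mul] at this
                  have e : ((3 : ℕ) : ℝ) * ((w : ℝ) / 3) = w := by push_cast; ring
                  rwa [e] at this
                have c2 : Real.exp (2 * ((v : ℝ) / 3)) ≤ (nm x.2.2.1 : ℝ) ^ 2 := by
                  have := pow_le_pow_left₀ (Real.exp_pos _).le (bk_nm_ge hX0 x3) 2
                  rw [← Real.exp_nat_mul] at this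
                  simpa using this
                calc (nm n : ℝ) ^ 3 * (Real.exp (2 * ((v : ℝ) / 3)) * Real.exp w)
                    ≤ (nm n : ℝ) ^ 3 * ((nm x.2.2.1 : ℝ) ^ 2 * (nm g₃ : ℝ) ^ 3) := by gcongr
                  _ ≤ _ := b2
                  _ ≤ _ := b1
              have h2 := hyp n ((mem_dvs hν.ne_zero).mpr hn) g hgS hgδ u hu v hv w hw a1 a2 a3 i
                g₃ hg₃ s' W0 hW0 (fun k => (hRl k).mono hCK1) (by linarith)
              have h3 : (0 : ℝ) < nm n * nm g := by positivity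
              have h4 : wJc Rr (Z / (nm n : ℝ) ^ 3) U (nm g) (Real.exp ((v : ℝ) / 3)) *
                  Real.exp ((w : ℝ) / 3) *
                  ∑ x ∈ Q4 T X (Z / nm g) u v (fun y B => Pr y B i) g₃,
                  ∏ k, ‖CS (pc h ((s' k).pc P)) (f4 E (dl' σ i) x)‖ ^ 2 ≤
                  (M * Real.exp (∑ k, (s' k).z - (∑ k, (j k).z -
                  (Real.log (nm (g₀ * g)) + ((u : ℝ) / 3 + v / 3 + w / 3)))) * W0 ^ (2 * μ)) /
                  (nm n * nm g) := by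
                rw [le_div_iff₀ h3]
                refine le_trans (le_of_eq ?_) h2
                rw [hPr]
                ring
              calc 2 * wJc Rr (Z / (nm n : ℝ) ^ 3) U (nm g) (Real.exp ((v : ℝ) / 3)) *
                  Real.exp ((w : ℝ) / 3) *
                  ∑ x ∈ Q4 T X (Z / nm g) u v (fun y B => Pr y B i) g₃,
                  ∏ k, ‖CS (pc h ((s' k).pc P)) (f4 E (dl' σ i) x)‖ ^ 2
                  = 2 * (wJc Rr (Z / (nm n : ℝ) ^ 3) U (nm g) (Real.exp ((v : ℝ) / 3)) *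
                  Real.exp ((w : ℝ) / 3) *
                  ∑ x ∈ Q4 T X (Z / nm g) u v (fun y B => Pr y B i) g₃,
                  ∏ k, ‖CS (pc h ((s' k).pc P)) (f4 E (dl' σ i) x)‖ ^ 2) := by ring
                _ ≤ 2 * _ := mul_le_mul_of_nonneg_left h4 (by norm_num)
                _ = _ := by ring)
        rw [e8] at h1
        exact h1
    have step3 := Finset.sum_le_sum step2
    rw [Finset.sum_const, Finset.card_range, nsmul_eq_mul] at step3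
    have h5 := mul_le_mul_of_nonneg_left (step1.trans step3) (show (0 : ℝ) ≤ nm n by linarith)
    refine h5.trans (le_of_eq ?_)
    have : (nm n : ℝ) ≠ 0 := by linarith
    have : (nm g : ℝ) ≠ 0 := by linarith
    field_simp
  -- the sum over the pairs
  have e1 : ∑ y ∈ T, MoJCQ Cφ η A' σ γ q g₀ δ ((SD h μ r).w j) ν (E * y) X Rr Z U (Bs y) (Q y) =
      ∑ n ∈ dvs ν, ∑ g ∈ (S U).filter (fun g => IsCoprime g δ),
      (nm n : ℝ) * ∑ y ∈ T, ∑ B ∈ (S X).filter (fun B => g * B ∈ Bs y),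
        MoC Cφ η A' σ (aG γ q (g₀ * g) δ ((SD h μ r).w j)) (E * y) B X (Z / nm g)
        (fun g₂ _ => WJ Rr (Z / (nm n : ℝ) ^ 3) U g g₂) (fun i => PJQ (Q y i) n g Z B) := by
    unfold MoJCQ
    rw [Finset.sum_comm]
    refine Finset.sum_congr rfl fun n _ => ?_
    rw [← Finset.mul_sum, ← Finset.mul_sum, Finset.sum_comm]
  rw [e1]
  refine (Finset.sum_le_sum fun n hn => Finset.sum_le_sum fun g hg => key n hn g hg).trans ?_
  set D : ℝ := (NX X : ℝ) * (2 * C1 * Ap * X0 ^ (ε / 4) * nm γ * M) with hD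
  have hC10 : 0 ≤ C1 := by linarith
  have hC20 : 0 ≤ C2 := by linarith
  have hC30 : 0 ≤ C3 := by linarith
  have hD0 : 0 ≤ D := by rw [hD]; positivity
  have hg : ∑ g ∈ (S U).filter (fun g => IsCoprime g δ), D * (1 / (nm g : ℝ)) ≤
      D * (C4 * X0 ^ (ε / 4)) := by
    rw [← Finset.mul_sum]
    refine mul_le_mul_of_nonneg_left ?_ hD0
    have h4 : ∑ g ∈ (S U).filter (fun g => IsCoprime g δ), (1 / (nm g : ℝ)) ≤
        ∑ x ∈ nz ⌊U⌋₊, (1 / (nm x : ℝ)) := by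
      refine Finset.sum_le_sum_of_subset_of_nonneg (fun m hm => ?_) fun _ _ _ => by positivity
      rw [Finset.mem_filter, mem_S hU0] at hm
      rw [Div277.mem_nz]
      exact ⟨hm.1.2.1.ne_zero, Nat.le_floor hm.1.1⟩
    refine h4.trans ((Div277.sum_inv_nz_le _).trans ?_)
    rw [hC4, mul_assoc]
    refine mul_le_mul_of_nonneg_left ?_ (by norm_num)
    have h5 : Real.log (⌊U⌋₊ : ℝ) ≤ Real.log U := by
      have h6 : (1 : ℝ) ≤ (⌊U⌋₊ : ℝ) := by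
        exact_mod_cast (Nat.one_le_floor_iff U).2 hU
      exact Real.log_le_log (by linarith) (Nat.floor_le hU0)
    have h7 : Real.log U ≤ (ε / 4)⁻¹ * X0 ^ (ε / 4) := by
      have h8 : Real.log U ≤ (ε / 4)⁻¹ * U ^ (ε / 4) := by
        have h := Real.log_le_rpow_div hU0 (show 0 < ε / 4 by linarith)
        rwa [div_eq_inv_mul] at h
      refine h8.trans (mul_le_mul_of_nonneg_left ?_ hε4.le)
      exact Real.rpow_le_rpow hU0 hUX (by linarith)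
    have h9 : 1 ≤ X0 ^ (ε / 4) := Real.one_le_rpow hX01 (by linarith)
    nlinarith
  refine (Finset.sum_le_sum fun n _ => hg).trans ?_
  rw [Finset.sum_const, nsmul_eq_mul]
  have h10 : ((dvs ν).card : ℝ) ≤ C2 * X0 ^ (ε / 4) := by
    have h11 := hτ ν hν.ne_zero
    unfold tau at h11
    refine h11.trans (mul_le_mul_of_nonneg_left ?_ hC20)
    exact Real.rpow_le_rpow (Nat.cast_nonneg _) hνX (by linarith)
  have h12 : (NX X : ℝ) ≤ C3 * X0 ^ (ε / 4) := by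
    have h13 : (1 : ℝ) ≤ NX X := by
      unfold NX; push_cast
      have := Nat.cast_nonneg (α := ℝ) ⌊3 * Real.log X⌋₊
      linarith
    have h14 := hNX X X0 hX hXX
    nlinarith
  have e4 : X0 ^ ε = X0 ^ (ε / 4) * X0 ^ (ε / 4) * X0 ^ (ε / 4) * X0 ^ (ε / 4) := by
    rw [← Real.rpow_add hX00, ← Real.rpow_add hX00, ← Real.rpow_add hX00]
    congr 1; ring
  have hX4 : 0 ≤ X0 ^ (ε / 4) := by positivity
  calc ((dvs ν).card : ℝ) * (D * (C4 * X0 ^ (ε / 4)))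
      ≤ (C2 * X0 ^ (ε / 4)) * (D * (C4 * X0 ^ (ε / 4))) :=
        mul_le_mul_of_nonneg_right h10 (by positivity)
    _ = (NX X : ℝ) * ((C2 * X0 ^ (ε / 4)) * ((2 * C1 * Ap * X0 ^ (ε / 4) * nm γ * M) *
          (C4 * X0 ^ (ε / 4)))) := by rw [hD]; ring
    _ ≤ (C3 * X0 ^ (ε / 4)) * ((C2 * X0 ^ (ε / 4)) * ((2 * C1 * Ap * X0 ^ (ε / 4) * nm γ * M) *
          (C4 * X0 ^ (ε / 4)))) := mul_le_mul_of_nonneg_right h12 (by positivity)
    _ = _ := by rw [e4, hK]; ring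

/-- **a block of `j₂`** : the moments with the weights `RR y ≤ Rm` are bounded by the functional at
the common weight, and the sum of the functionals by the natural cells -/
theorem MoJQ_cell {h : ℝ → ℝ} {c : ℝ} (hpu : PU h c) {R : ℝ} (hR0 : 0 ≤ R)
    (hR : ∀ u, cx h u ≠ 0 → |u| ≤ R) {μ : ℝ} (hμ : 0 ≤ μ) (r : ℕ) (σ : Eis) {ε : ℝ}
    (hε : 0 < ε) :
    ∃ C : ℝ, 1 ≤ C ∧ ∀ (A' : ℕ), 2 * (r * μ) + 2 ≤ A' → ∀ (Cφ η : ℝ) (φ : ℝ → ℝ), 0 ≤ Cφ → 0 < η →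
      η ≤ 1 → WK Cφ η A' φ →
      ∀ (P : DPar) (hP : P.OK) (s : Fin r → Pq), (∀ i, 0 ≤ (s i).z) →
      ∀ j : Fin r → IP, (∀ i, FromP hP (j i) (s i)) →
      ∀ (γ q g₀ δ E ν : Eis), IsPrim γ → Squarefree γ → IsPrim g₀ → IsPrim q → IsPrim δ →
      IsPrim ν →
      ∀ (T : Finset Eis) (Bs : Eis → Finset Eis) (X Z Rm U X0 : ℝ), 1 ≤ X → 0 ≤ Z → 0 ≤ Rm →
      1 ≤ U → X ≤ X0 → U ≤ X0 → (nm γ : ℝ) ≤ X0 → (nm g₀ : ℝ) ≤ X0 → (nm q : ℝ) ≤ X0 →
      (nm δ : ℝ) ≤ X0 → (nm ν : ℝ) ≤ X0 → (∀ i, Real.exp (s i).z ≤ X0) →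
      (∀ y ∈ T, ∀ B ∈ Bs y, B ∈ S X ∧ U / 2 ≤ nm B ∧ (nm B : ℝ) ≤ U) →
      ∀ Q : Eis → IX σ → Eis → Eis → Prop, ∀ M : ℝ, 0 ≤ M →
      ∀ (p : ℕ × ℕ) (t₀ : ℝ),
      (∀ n ∈ dvs ν, ∀ g ∈ S U, IsCoprime g δ →
        ∀ u < NX X, ∀ v < NX X, ∀ w < NX X, Real.exp ((u : ℝ) / 3) * nm g ≤ U →
        U ≤ 2 * (Real.exp ((u : ℝ) / 3 + 1 / 3) * nm g) →
        (nm n : ℝ) ^ 3 * (Real.exp (2 * ((v : ℝ) / 3)) * Real.exp w) ≤ Z / nm g →
        ∀ i : IX σ, ∀ g₃ ∈ bk X w,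
        ∀ (s' : Fin r → Pq) (W0 : ℝ), 1 ≤ W0 → (∀ k, Rl C W0 (s' k) (s k)) →
        ∑ k, (s' k).z ≤ ∑ k, (j k).z + Real.log (nm γ) -
          (Real.log (nm (g₀ * g)) + ((u : ℝ) / 3 + v / 3 + w / 3)) + C →
        (nm n : ℝ) * nm g * wJc Rm (Z / (nm n : ℝ) ^ 3) U (nm g) (Real.exp ((v : ℝ) / 3)) *
          Real.exp ((w : ℝ) / 3) *
          ∑ x ∈ Q4 T X (Z / nm g) u v (fun y B g₂ g₃ d =>
            g * B ∈ Bs y ∧ PJQ (Q y i) n g Z B g₂ g₃ d) g₃,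
          ∏ k, ‖CS (pc h ((s' k).pc P)) (f4 (E * kw p ^ 2) (dl' σ i) x)‖ ^ 2 ≤
        M * Real.exp (∑ k, (s' k).z - (∑ k, (j k).z -
          (Real.log (nm (g₀ * g)) + ((u : ℝ) / 3 + v / 3 + w / 3)))) * W0 ^ (2 * μ)) →
      ∃ Mw : Eis → ℝ, (∀ y, 0 ≤ Mw y) ∧
        (∀ y ∈ T, ∀ Ry : ℝ, 0 ≤ Ry → Ry ≤ Rm → ∀ (i : IX σ) (t : ℝ),
          MoJQ ν (E2440.ag (fun n => RGw813.bt φ (dl γ (TP320.sq (q * γ) ((SD h μ r).w j))) p n *
            Weight600.pw t₀ (nm n)) δ g₀) (E * y) (dl' σ i) X t Ry Z U (Bs y) (Q y i) ≤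
            (1 + |t|) ^ A' * Mw y) ∧
        ∑ y ∈ T, Mw y ≤ C * (Cφ ^ 2 * iA A' * (η * (η ^ A')⁻¹)) * (1 + |t₀|) ^ A' * X0 ^ ε *
          nm γ * M := by
  classical
  have hΦ := sd_ok hpu hR0 hR hμ r
  obtain ⟨C, hC, H⟩ := MoJCQ_list hpu hR0 hR hμ r σ hε
  refine ⟨C, hC, ?_⟩
  intro A' hA' Cφ η φ hCφ hη hη1 hφ P hP s hs j hj γ q g₀ δ E ν hγ hγs hg₀ hq hδ hν T Bs X Z Rm U
    X0 hX hZ hRm hU hXX hUX hγX hgX hqX hδX hνX hsX hBs Q M hM p t₀ hyp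
  have hA2 : 2 ≤ A' := by
    have h1 : 0 ≤ (r : ℝ) * μ := by positivity
    have : (2 : ℝ) ≤ A' := by linarith
    exact_mod_cast this
  have hX0 : 0 ≤ X := by linarith
  have hU0 : 0 ≤ U := by linarith
  have hRt := hΦ.R0
  have hw1 : ∀ n, (SD h μ r).w j n ≠ 0 →
      (nm n : ℝ) ≤ Real.exp ((SD h μ r).len j + r * (2 * R + 3)) := by
    intro b hb
    have hb0 : (0 : ℝ) < nm b := by exact_mod_cast nm_pos.2 (hΦ.prim j b hb).ne_zero
    rw [← Real.log_le_iff_le_exp hb0]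
    have := (abs_le.1 (hΦ.supp j b hb)).2
    linarith
  refine ⟨fun y => if y ∈ T then (1 + |t₀|) ^ A' * MoJCQ Cφ η A' σ γ q g₀ δ ((SD h μ r).w j) ν
    ((E * kw p ^ 2) * y) X Rm Z U (Bs y) (Q y) else 0, ?_, ?_, ?_⟩
  · intro y
    simp only
    split_ifs
    · exact mul_nonneg (by positivity) (MoJCQ_nonneg hη hRm _ _)
    · exact le_rfl
  · intro y hy Ry hRy hRyR i t
    simp only [if_pos hy]
    refine (MoJQ_mono hRyR (Bs y) (Q y i)).trans ?_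
    have h1 := MoJQ_bt_le (E := E * y) (ν := ν) (σ := σ) (q := q) (δ := δ) hCφ hη hη1 hA2 hφ
      (Real.exp_pos _).le hw1 hX0 hRm hZ hU0 hγ hγs hg₀ (fun B hB => (hBs y hy B hB).1) (Q y) p t₀ i t
    have e1 : E * y * kw p ^ 2 = E * kw p ^ 2 * y := by ring
    rw [e1] at h1
    exact h1
  · have h2 := H A' hA' Cφ η hη P hP s hs j hj γ q g₀ δ (E * kw p ^ 2) ν hγ hγs hg₀ hq hδ hν T Bs X
      Z Rm U X0 hX hZ hRm hU hXX hUX hγX hgX hqX hδX hνX hsX hBs Q M hM hyp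
    have e2 : ∑ y ∈ T, (if y ∈ T then (1 + |t₀|) ^ A' * MoJCQ Cφ η A' σ γ q g₀ δ
        ((SD h μ r).w j) ν ((E * kw p ^ 2) * y) X Rm Z U (Bs y) (Q y) else 0) =
        (1 + |t₀|) ^ A' * ∑ y ∈ T, MoJCQ Cφ η A' σ γ q g₀ δ
        ((SD h μ r).w j) ν ((E * kw p ^ 2) * y) X Rm Z U (Bs y) (Q y) := by
      rw [Finset.mul_sum]
      exact Finset.sum_congr rfl fun y hy => by rw [if_pos hy]
    simp only [e2]
    refine (mul_le_mul_of_nonneg_left h2 (by positivity)).trans (le_of_eq ?_)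
    ring

end Crest.Agent.R017.MoJ401
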