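import Crest.Agent.R017.MoJf_401
import Crest.Agent.R017.QsO_83

/-!
# Row 17, block C70, leaf E2 (helper401): the block moment with an extra predicate, part 3

* `MNJ` : the supremum over the heights of the block moment, a quadratic functional
* `CellXJ` : the natural cells
* `cell_dlJ` : one opened piece
* `cell_listJ` : a flagged list
-/

set_option autoImplicit false
set_option maxHeartbeats 400000

noncomputable section

open Complex Finset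
open scoped ComplexConjugate

namespace Crest.Agent.R017.MoJ401

open Crest.Agent.R012 Crest.Agent.R012.Eis Crest.Agent.R012.LS2
open Crest.Agent.R012.Div277 Crest.Agent.R012.Weight600
open Crest.Agent.R017.CM106 Crest.Agent.R017.FE47 Crest.Agent.R017.End699
open Crest.Agent.R017.B770
open Crest.Agent.R017.Prov71
open Crest.Agent.R017.HP842 (pc sqc)
open Crest.Agent.R017.Leg381 (alF Pf LF)
open Crest.Agent.R017.TPOk571 (IP FP SD SD_w SD_len SD_ht sd_ok AC relU)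
open Crest.Agent.R017.X6C180 (IX dl')
open Crest.Agent.R017.H1401 (pb mem_pb WJ DN GB)
open Crest.Agent.R017.Win813 (iA iA_nonneg WK)
open Crest.Agent.R017.XRG106
open Crest.Agent.R017.MoF106
open Crest.Agent.R017.MoL106 (FromP Q4 mem_Q4 f4 kw)
open Crest.Agent.R017.E2440 (ag cT)
open Crest.Agent.R017.QsO83 (bw FS_bw bw_lin ag_lin CS_lin QF_sum1 QF_of_lin1 nt_list)
open Crest.Agent.R017.NtC320 (QF Lin QF_of_lin QF_sum)

/-! ### bounds independent of the height -/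

lemma supp_cT {α : Eis → ℂ} (hα : (Function.support α).Finite) {B G : Eis} (hB : B ≠ 0)
    (hG : G ≠ 0) : (Function.support fun m => α (B * (G * m))).Finite := by
  refine (hα.preimage (f := fun m => B * (G * m)) ?_).subset fun m hm => hm
  intro x _ y _ hxy
  exact mul_left_cancel₀ hG (mul_left_cancel₀ hB hxy)

lemma CS_cT_bd {α : Eis → ℂ} (hα : (Function.support α).Finite) {B G : Eis} (hB : B ≠ 0)
    (hG : G ≠ 0) : ∃ M : ℝ, ∀ (E τ : Eis) (t : ℝ) (k : Eis),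
    ‖CS (sub (cT α E B τ t) G) k‖ ≤ M := by
  have hf := supp_cT hα hB hG
  refine ⟨∑ m ∈ hf.toFinset, ‖α (B * (G * m))‖, fun E τ t k => ?_⟩
  unfold CM106.CS
  rw [tsum_eq_sum (s := hf.toFinset)]
  · refine (norm_sum_le _ _).trans (Finset.sum_le_sum fun m _ => ?_)
    show ‖cT α E B τ t (G * m) * sy k m‖ ≤ _
    unfold E2440.cT
    rw [norm_mul, norm_mul, norm_mul, norm_mul, norm_mul, norm_osc, RCLike.norm_conj]
    have h1 := CF61.norm_sy_le E (G * m)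
    have h2 := CF61.norm_sy_le (G * m) B
    have h3 := CF61.norm_sy_le τ (G * m)
    have h4 := CF61.norm_sy_le k m
    calc ‖α (B * (G * m))‖ * (‖sy E (G * m)‖ * ‖sy (G * m) B‖) * (‖sy τ (G * m)‖ * 1) * ‖sy k m‖
        ≤ ‖α (B * (G * m))‖ * (1 * 1) * (1 * 1) * 1 := by gcongr
      _ = _ := by ring
  · intro m hm
    have h0 : α (B * (G * m)) = 0 := by
      by_contra h
      exact hm (hf.mem_toFinset.mpr h)
    show cT α E B τ t (G * m) * sy k m = 0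
    unfold E2440.cT
    rw [h0]; ring

open Classical in
lemma MoJQ_bd {α : Eis → ℂ} (hα : (Function.support α).Finite) {ν : Eis} {X R Z U : ℝ}
    (hX : 0 ≤ X) (hR : 0 ≤ R) {Bs : Finset Eis} (hBs : ∀ B ∈ Bs, B ∈ S X) :
    ∃ M : ℝ, ∀ (E τ : Eis) (t : ℝ) (Q : Eis → Eis → Prop),
      MoJQ ν α E τ X t R Z U Bs Q ≤ M := by
  have h1 : ∀ B G : Eis, ∃ M : ℝ, B ≠ 0 → G ≠ 0 → ∀ (E τ : Eis) (t : ℝ) (k : Eis),
      ‖CS (sub (cT α E B τ t) G) k‖ ≤ M := by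
    intro B G
    by_cases hB : B = 0
    · exact ⟨0, fun h => absurd hB h⟩
    by_cases hG : G = 0
    · exact ⟨0, fun _ h => absurd hG h⟩
    obtain ⟨M, hM⟩ := CS_cT_bd hα hB hG
    exact ⟨M, fun _ _ => hM⟩
  choose M hM using h1
  refine ⟨∑ n ∈ dvs ν, (nm n : ℝ) * ∑ g₂ ∈ S X, ∑ g₃ ∈ S X, ∑ g ∈ S U,
    WJ R (Z / (nm n : ℝ) ^ 3) U g g₂ * ∑ B ∈ Bs, ∑ d ∈ pb Z, M B (g₂ * g₃) ^ 2, ?_⟩
  intro E τ t Q
  unfold MoJQ
  refine Finset.sum_le_sum fun n _ => mul_le_mul_of_nonneg_left ?_ (Nat.cast_nonneg _)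
  refine Finset.sum_le_sum fun g₂ h2 => Finset.sum_le_sum fun g₃ h3 => Finset.sum_le_sum fun g _ => ?_
  refine mul_le_mul_of_nonneg_left ?_ (H1401.WJ_nonneg hR _ _)
  refine Finset.sum_le_sum fun B hB => ?_
  refine (Finset.sum_le_sum_of_subset_of_nonneg (Finset.filter_subset _ _)
    fun _ _ _ => sq_nonneg _).trans (Finset.sum_le_sum fun d _ => ?_)
  have k1 := ((mem_S hX).1 (hBs B hB)).2.1.ne_zero
  have k2 := ((mem_S hX).1 h2).2.1.ne_zero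
  have k3 := ((mem_S hX).1 h3).2.1.ne_zero
  exact pow_le_pow_left₀ (norm_nonneg _) (hM B (g₂ * g₃) k1 (mul_ne_zero k2 k3) E τ t d) 2

/-! ### the functional -/

/-- the supremum over the heights -/
def MNJ (J : ℕ) (c ν E : Eis) (X R Z U : ℝ) (Bs : Finset Eis) (Q : IX c → Eis → Eis → Prop)
    (α : Eis → ℂ) : ℝ :=
  ⨆ s : IX c × ℝ, ((1 + |s.2|) ^ J)⁻¹ * MoJQ ν α E (dl' c s.1) X s.2 R Z U Bs (Q s.1)

section
variable {J : ℕ} {c ν E : Eis} {X R Z U : ℝ} {Bs : Finset Eis} {Q : IX c → Eis → Eis → Prop}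

lemma MNJ_nonneg (hR : 0 ≤ R) (α : Eis → ℂ) : 0 ≤ MNJ J c ν E X R Z U Bs Q α :=
  Real.iSup_nonneg fun s => mul_nonneg (by positivity) (MoJQ_nonneg hR _ _)

lemma MNJ_le {α : Eis → ℂ} {M : ℝ} (hM : 0 ≤ M) (h : ∀ (i : IX c) (t : ℝ),
    MoJQ ν α E (dl' c i) X t R Z U Bs (Q i) ≤ (1 + |t|) ^ J * M) :
    MNJ J c ν E X R Z U Bs Q α ≤ M := by
  refine Real.iSup_le (fun s => ?_) hM
  have h1 : 0 < (1 + |s.2|) ^ J := by positivity
  rw [inv_mul_le_iff₀ h1]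
  exact h s.1 s.2

lemma MNJ_spec {α : Eis → ℂ} (hα : (Function.support α).Finite) (hX : 0 ≤ X) (hR : 0 ≤ R)
    (hBs : ∀ B ∈ Bs, B ∈ S X) (i : IX c) (t : ℝ) :
    MoJQ ν α E (dl' c i) X t R Z U Bs (Q i) ≤ (1 + |t|) ^ J * MNJ J c ν E X R Z U Bs Q α := by
  obtain ⟨M, hM⟩ := MoJQ_bd (ν := ν) (Z := Z) (U := U) hα hX hR hBs
  have hb : BddAbove (Set.range fun s : IX c × ℝ =>
      ((1 + |s.2|) ^ J)⁻¹ * MoJQ ν α E (dl' c s.1) X s.2 R Z U Bs (Q s.1)) := by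
    refine ⟨max M 0, ?_⟩
    rintro _ ⟨s, rfl⟩
    have h1 : (1 : ℝ) ≤ (1 + |s.2|) ^ J := one_le_pow₀ (by linarith [abs_nonneg s.2])
    have h2 : ((1 + |s.2|) ^ J)⁻¹ ≤ 1 := inv_le_one_of_one_le₀ h1
    have h3 := MoJQ_nonneg (ν := ν) (α := α) (E := E) (τ := dl' c s.1) (X := X) (t := s.2)
      (Z := Z) (U := U) hR Bs (Q s.1)
    calc _ ≤ 1 * MoJQ ν α E (dl' c s.1) X s.2 R Z U Bs (Q s.1) :=
          mul_le_mul_of_nonneg_right h2 h3
      _ ≤ max M 0 := by rw [one_mul]; exact (hM _ _ _ _).trans (le_max_left _ _)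
  have h2 := le_ciSup hb (i, t)
  have h1 : 0 < (1 + |t|) ^ J := by positivity
  rwa [← inv_mul_le_iff₀ h1]

end

/-! ### the quadratic functional -/

lemma Lin_cs (φ : ℝ → ℝ) (p : ℕ × ℕ) (t₀ : ℝ) {δ g₀ : Eis} (hg₀ : IsPrim g₀) (E : Eis) {B : Eis}
    (hB : B ≠ 0) (τ : Eis) (t : ℝ) {G : Eis} (hG : G ≠ 0) (k : Eis) :
    Lin (fun α => CS (sub (cT (ag (bw φ p t₀ α) δ g₀) E B τ t) G) k) := by
  intro κ T c β hβ
  have hfin : ∀ x ∈ T, (Function.support (sub (cT (ag (bw φ p t₀ (β x)) δ g₀) E B τ t) G)).Finite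
      := by
    intro x hx
    have h1 : (Function.support (ag (bw φ p t₀ (β x)) δ g₀)).Finite :=
      (E2440.fs_ag (FS_bw (hβ x hx)) hg₀).fin
    refine (supp_cT h1 hB hG).subset fun m hm h0 => hm ?_
    show cT (ag (bw φ p t₀ (β x)) δ g₀) E B τ t (G * m) = 0
    unfold E2440.cT
    have h0' : ag (bw φ p t₀ (β x)) δ g₀ (B * (G * m)) = 0 := h0
    rw [h0']; ring
  beta_reduce
  rw [← CS_lin T c _ hfin k]
  congr 1
  funext m
  show cT (ag (bw φ p t₀ (fun n => ∑ x ∈ T, c x * β x n)) δ g₀) E B τ t (G * m) =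
    ∑ x ∈ T, c x * cT (ag (bw φ p t₀ (β x)) δ g₀) E B τ t (G * m)
  rw [bw_lin, ag_lin]
  unfold E2440.cT
  rw [Finset.sum_mul, Finset.sum_mul]
  exact Finset.sum_congr rfl fun x _ => by ring

lemma QF_MoJQ (φ : ℝ → ℝ) (p : ℕ × ℕ) (t₀ : ℝ) {δ g₀ : Eis} (hg₀ : IsPrim g₀) {ν E τ : Eis}
    {X t R Z U : ℝ} (hX : 0 ≤ X) (hR : 0 ≤ R) {Bs : Finset Eis} (hBs : ∀ B ∈ Bs, B ∈ S X)
    (Q : Eis → Eis → Prop) :
    QF (fun α => MoJQ ν (ag (bw φ p t₀ α) δ g₀) E τ X t R Z U Bs Q) := by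
  classical
  unfold MoJQ
  refine QF_sum _ (fun n _ => Nat.cast_nonneg _) fun n _ => ?_
  refine QF_sum1 _ fun g₂ h2 => QF_sum1 _ fun g₃ h3 => ?_
  refine QF_sum _ (fun g _ => H1401.WJ_nonneg hR _ _) fun g _ => ?_
  refine QF_sum1 _ fun B hB => QF_of_lin1 _ fun d _ => ?_
  exact Lin_cs φ p t₀ hg₀ E ((mem_S hX).1 (hBs B hB)).2.1.ne_zero τ t
    (mul_ne_zero ((mem_S hX).1 h2).2.1.ne_zero ((mem_S hX).1 h3).2.1.ne_zero) d

theorem QF_MNJ (φ : ℝ → ℝ) (p : ℕ × ℕ) (t₀ : ℝ) {δ g₀ : Eis} (hg₀ : IsPrim g₀) {J : ℕ}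
    {c ν E : Eis} {X R Z U : ℝ} (hX : 0 ≤ X) (hR : 0 ≤ R) {Bs : Finset Eis}
    (hBs : ∀ B ∈ Bs, B ∈ S X) (Q : IX c → Eis → Eis → Prop) :
    QF (fun α => MNJ J c ν E X R Z U Bs Q (ag (bw φ p t₀ α) δ g₀)) := by
  intro κ T c' β hc hβ
  refine Real.iSup_le (fun s => ?_) (mul_nonneg (Nat.cast_nonneg _)
    (Finset.sum_nonneg fun _ _ => MNJ_nonneg hR _))
  have h1 : 0 < (1 + |s.2|) ^ J := by positivity
  rw [inv_mul_le_iff₀ h1]
  have h3 := QF_MoJQ φ p t₀ hg₀ (ν := ν) (E := E) (τ := dl' c s.1) (t := s.2) (Z := Z) (U := U)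
    (δ := δ) hX hR hBs (Q s.1) κ T c' β hc hβ
  have h2 : ∑ x ∈ T, MoJQ ν (ag (bw φ p t₀ (β x)) δ g₀) E (dl' c s.1) X s.2 R Z U Bs (Q s.1) ≤
      (1 + |s.2|) ^ J * ∑ x ∈ T, MNJ J c ν E X R Z U Bs Q (ag (bw φ p t₀ (β x)) δ g₀) := by
    rw [Finset.mul_sum]
    exact Finset.sum_le_sum fun x hx =>
      MNJ_spec (E2440.fs_ag (FS_bw (hβ x hx)) hg₀).fin hX hR hBs s.1 s.2
  refine h3.trans ((mul_le_mul_of_nonneg_left h2 (Nat.cast_nonneg _)).trans (le_of_eq ?_))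
  ring

end Crest.Agent.R017.MoJ401
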