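import Crest.Agent.R017.RGwB_813
import Crest.Agent.R017.E1v_551

/-!
# Row 17, C.REMg (RG by positivity), from the E1 inequality to the sequence itself, part C
(helper813): one window
-/

set_option autoImplicit false

noncomputable section

open Complex MeasureTheory Filter Topology
open scoped ComplexConjugate Classical

namespace Crest.Agent.R017.RGw813

open Crest.Agent.R012 Crest.Agent.R012.Eis Crest.Agent.R012.MC
open Crest.Agent.R012.LS2 (S mem_S)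
open Crest.Agent.R012.Weight600 (osc pw)
open Crest.Agent.R017.CM106 (CS TG FS)
open Crest.Agent.R017.E1551
open Crest.Agent.R017.Win813

/-- the classes with a main term -/
def JN (Y₀ V : ℝ) : Finset Eis := (JB Y₀ V).filter (fun κ => ¬ (3 : ℤ) ∣ κ.im)

/-- own weight -/
def ow (ρ : ℕ → ℝ) (K X : ℝ) (κ : Eis) : ℝ := ρ (nm κ) * min 1 (lm K X 1 κ)

lemma ow_nonneg {ρ : ℕ → ℝ} (hρ0 : ∀ n, 0 ≤ ρ n) {K X : ℝ} (hK : 0 ≤ K) (hX : 0 ≤ X) (κ : Eis) :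
    0 ≤ ow ρ K X κ := mul_nonneg (hρ0 _) (le_min zero_le_one (lm_nonneg hK hX _ _))

/-- the E1 inequality (weight `w`, window weights `ρ`), for all sequences in a window of
length `η` at `X`; `Mw β` = the main form, `Er β` = the errors of `(d, L) ≠ (1, 1)` -/
def E1In (c del C A K X Y η Y₀ V : ℝ) (ρ : ℕ → ℝ) (w : ℝ → ℝ) (Mw Er : (Eis → ℂ) → ℝ) : Prop :=
  ∀ β : Eis → ℂ, Adm Y X η β → ∀ δ : ℝ, 0 < δ → δ ≤ 1 →
    c * (K / X) * ∑ κ ∈ JG Y₀ V, ow ρ K X κ * ‖TG β κ‖ ^ 2 ≤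
      Dg w K Y β + Mw β - SqP w K β +
      del * (K / X) * ∑ κ ∈ JN Y₀ V, ow ρ K X κ * ‖TG β κ‖ ^ 2 +
      C * (K / X) * (η * (∑ κ ∈ JB Y₀ V, ow ρ K X κ *
          ∫ t, jb A t * ‖Vt β κ (t / η)‖ ^ 2) + Lo A K X Y₀ β) +
      C * (1 + Real.log Y) * (K / X) * (
        δ * (∑ κ ∈ JB Y₀ V, ow ρ K X κ * Wb A β κ + Lo A K X Y₀ β) + δ⁻¹ * Er β)

/-- the twisted window -/
def bt (φ : ℝ → ℝ) (α : Eis → ℂ) (p : ℕ × ℕ) : Eis → ℂ := tw2 p.1 p.2 (wn φ α)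

lemma FS_bt {α : Eis → ℂ} (h : FS α) (φ : ℝ → ℝ) (p : ℕ × ℕ) : FS (bt φ α p) :=
  FS_tw2 (FS_wn h) _ _

/-- the good classes, all twists -/
def Ft (ρ : ℕ → ℝ) (K X Y₀ V : ℝ) (φ : ℝ → ℝ) (α : Eis → ℂ) (t : ℝ) : ℝ :=
  ∑ p ∈ T9, PT (ow ρ K X) (JG Y₀ V) (bt φ α p) 1 t

/-- the low edge, all twists -/
def Ed (K X Y₀ : ℝ) (φ : ℝ → ℝ) (α : Eis → ℂ) (t : ℝ) : ℝ :=
  ∑ p ∈ T9, PT (lm K X 1) (BF Y₀) (bt φ α p) 1 t

section basic

variable {ρ : ℕ → ℝ} {K X Y₀ V : ℝ} {φ : ℝ → ℝ} {α : Eis → ℂ}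

lemma Ft_nonneg (hρ0 : ∀ n, 0 ≤ ρ n) (hK : 0 ≤ K) (hX : 0 ≤ X) (t : ℝ) :
    0 ≤ Ft ρ K X Y₀ V φ α t :=
  Finset.sum_nonneg fun _ _ => PT_nonneg (fun _ _ => ow_nonneg hρ0 hK hX _) _ _ _

lemma Ed_nonneg (hK : 0 ≤ K) (hX : 0 ≤ X) (t : ℝ) : 0 ≤ Ed K X Y₀ φ α t :=
  Finset.sum_nonneg fun _ _ => PT_nonneg (fun _ _ => lm_nonneg hK hX _ _) _ _ _

lemma continuous_Ft (h : FS α) : Continuous (Ft ρ K X Y₀ V φ α) :=
  continuous_finsetSum _ fun p _ => continuous_PT (FS_bt h φ p) one_ne_zero _ _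

lemma continuous_Ed (h : FS α) : Continuous (Ed K X Y₀ φ α) :=
  continuous_finsetSum _ fun p _ => continuous_PT (FS_bt h φ p) one_ne_zero _ _

lemma bdd_sum {f : ℕ × ℕ → ℝ → ℝ} (hf : ∀ p, ∃ M : ℝ, 0 ≤ M ∧ ∀ t, f p t ≤ M) :
    ∃ M : ℝ, 0 ≤ M ∧ ∀ t, ∑ p ∈ T9, f p t ≤ M := by
  choose M hM0 hM using hf
  exact ⟨∑ p ∈ T9, M p, Finset.sum_nonneg fun p _ => hM0 p,
    fun t => Finset.sum_le_sum fun p _ => hM p t⟩

lemma Ft_bdd (h : FS α) (hρ0 : ∀ n, 0 ≤ ρ n) (hK : 0 ≤ K) (hX : 0 ≤ X) :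
    ∃ M : ℝ, 0 ≤ M ∧ ∀ t, Ft ρ K X Y₀ V φ α t ≤ M :=
  bdd_sum fun p => PT_bdd (FS_bt h φ p) one_ne_zero fun _ _ => ow_nonneg hρ0 hK hX _

lemma Ed_bdd (h : FS α) (hK : 0 ≤ K) (hX : 0 ≤ X) :
    ∃ M : ℝ, 0 ≤ M ∧ ∀ t, Ed K X Y₀ φ α t ≤ M :=
  bdd_sum fun p => PT_bdd (FS_bt h φ p) one_ne_zero fun _ _ => lm_nonneg hK hX _ _

lemma PT_le_Ft (hρ0 : ∀ n, 0 ≤ ρ n) (hK : 0 ≤ K) (hX : 0 ≤ X) {p : ℕ × ℕ} (hp : p ∈ T9)
    (t : ℝ) : PT (ow ρ K X) (JG Y₀ V) (bt φ α p) 1 t ≤ Ft ρ K X Y₀ V φ α t :=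
  Finset.single_le_sum (f := fun p => PT (ow ρ K X) (JG Y₀ V) (bt φ α p) 1 t)
    (fun _ _ => PT_nonneg (fun _ _ => ow_nonneg hρ0 hK hX _) _ _ _) hp

lemma PT_le_Ed (hK : 0 ≤ K) (hX : 0 ≤ X) {p : ℕ × ℕ} (hp : p ∈ T9)
    (t : ℝ) : PT (lm K X 1) (BF Y₀) (bt φ α p) 1 t ≤ Ed K X Y₀ φ α t :=
  Finset.single_le_sum (f := fun p => PT (lm K X 1) (BF Y₀) (bt φ α p) 1 t)
    (fun _ _ => PT_nonneg (fun _ _ => lm_nonneg hK hX _ _) _ _ _) hp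

/-- **all classes of one twist** -/
theorem PT_JB_le (h : FS α) (hρ : Antitone ρ) (hρ0 : ∀ n, 0 ≤ ρ n) (hρ1 : ∀ n, ρ n ≤ 1)
    (hK : 0 < K) (hX : 0 < X) (p : ℕ × ℕ) (t : ℝ) :
    PT (ow ρ K X) (JB Y₀ V) (bt φ α p) 1 t ≤
      18 * (Ft ρ K X Y₀ V φ α t + Ed K X Y₀ φ α t) := by
  have hF := FS_bt h φ p
  have h1 := cls_sum (FS_pw hF t) (Y₀ := Y₀) (V := V) hK hX hρ hρ0 hρ1
  have e1 : PT (ow ρ K X) (JB Y₀ V) (bt φ α p) 1 t = ∑ κ ∈ JB Y₀ V,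
      ρ (nm κ) * min 1 (lm K X 1 κ) * ‖TG (fun n => bt φ α p n * pw t (nm n)) κ‖ ^ 2 := by
    unfold PT
    refine Finset.sum_congr rfl fun κ _ => ?_
    rw [tgf_one]; rfl
  rw [e1]
  refine h1.trans ?_
  have h2 : ∀ q ∈ T9, (∑ κ ∈ JG Y₀ V, ρ (nm κ) * min 1 (lm K X 1 κ) *
        ‖TG (tw2 q.1 q.2 (fun n => bt φ α p n * pw t (nm n))) κ‖ ^ 2 +
      ∑ κ ∈ BF Y₀, lm K X 1 κ *
        ‖TG (tw2 q.1 q.2 (fun n => bt φ α p n * pw t (nm n))) κ‖ ^ 2) ≤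
      Ft ρ K X Y₀ V φ α t + Ed K X Y₀ φ α t := by
    intro q _
    set r : ℕ × ℕ := ((q.1 + p.1) % 3, (q.2 + p.2) % 3) with hr
    have hrT : r ∈ T9 := mem_T9.2 ⟨Nat.mod_lt _ (by norm_num), Nat.mod_lt _ (by norm_num)⟩
    have e2 : tw2 q.1 q.2 (fun n => bt φ α p n * pw t (nm n)) =
        fun n => bt φ α r n * pw t (nm n) := by
      rw [tw2_pw]
      unfold bt
      rw [tw2_tw2 (FS_wn h)]
    rw [e2]
    refine add_le_add ?_ ?_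
    · refine le_trans (le_of_eq ?_) (PT_le_Ft hρ0 hK.le hX.le hrT t)
      unfold PT
      refine Finset.sum_congr rfl fun κ _ => ?_
      rw [tgf_one]; rfl
    · refine le_trans (le_of_eq ?_) (PT_le_Ed hK.le hX.le hrT t)
      unfold PT
      refine Finset.sum_congr rfl fun κ _ => ?_
      rw [tgf_one]
  have h3 := Finset.sum_le_sum h2
  rw [Finset.sum_const, nsmul_eq_mul, card_T9] at h3
  calc _ ≤ 2 * (9 * (Ft ρ K X Y₀ V φ α t + Ed K X Y₀ φ α t)) :=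
        mul_le_mul_of_nonneg_left h3 (by norm_num)
    _ = _ := by ring

end basic

/-- the inequality for one twist at one height, with all terms bounded -/
theorem one_twist {c del C K X Y η Y₀ V δ : ℝ} {A : ℕ} {ρ : ℕ → ℝ} {w : ℝ → ℝ}
    {Mw Er : (Eis → ℂ) → ℝ} (hE1 : E1In c del C A K X Y η Y₀ V ρ w Mw Er)
    (hA : 2 ≤ A) (hdel : 0 ≤ del) (hC : 0 ≤ C)
    (hK : 0 < K) (hX : 0 < X) (hY : 1 ≤ Y) (hη : 0 < η) (hδ : 0 < δ) (hδ1 : δ ≤ 1)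
    (hρ : Antitone ρ) (hρ0 : ∀ n, 0 ≤ ρ n) (hρ1 : ∀ n, ρ n ≤ 1)
    {φ : ℝ → ℝ} {α : Eis → ℂ} (h : FS α) {p : ℕ × ℕ} (t : ℝ)
    (hadm : Adm Y X η (fun n => bt φ α p n * pw t (nm n)))
    {a₁ lo sg : ℝ}
    (h1 : Dg w K Y (fun n => bt φ α p n * pw t (nm n)) + Mw (fun n => bt φ α p n * pw t (nm n)) -
      SqP w K (fun n => bt φ α p n * pw t (nm n)) ≤ (K / X) * a₁)
    (h2 : Lo A K X Y₀ (fun n => bt φ α p n * pw t (nm n)) ≤ lo)
    (h3 : Er (fun n => bt φ α p n * pw t (nm n)) ≤ sg) :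
    c * PT (ow ρ K X) (JG Y₀ V) (bt φ α p) 1 t ≤ a₁ +
      del * (18 * (Ft ρ K X Y₀ V φ α t + Ed K X Y₀ φ α t)) +
      C * (η * (18 * ∫ s, ew A η s * (Ft ρ K X Y₀ V φ α (t + s) + Ed K X Y₀ φ α (t + s))) + lo) +
      C * (1 + Real.log Y) *
        (δ * ((18 * ∫ s, ew A 1 s * (Ft ρ K X Y₀ V φ α (t + s) + Ed K X Y₀ φ α (t + s))) + lo) +
          δ⁻¹ * sg) := by
  have hF := FS_bt h φ p
  have hL : 0 ≤ Real.log Y := Real.log_nonneg hY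
  have hKX : 0 < K / X := by positivity
  have h5 := hE1 _ hadm δ hδ hδ1
  have hcF : Continuous fun s => Ft ρ K X Y₀ V φ α s + Ed K X Y₀ φ α s :=
    (continuous_Ft h).add (continuous_Ed h)
  obtain ⟨M1, hM10, hM1⟩ := Ft_bdd (φ := φ) (Y₀ := Y₀) (V := V) h hρ0 hK.le hX.le
  obtain ⟨M2, hM20, hM2⟩ := Ed_bdd (φ := φ) (Y₀ := Y₀) h hK.le hX.le
  obtain ⟨M3, hM30, hM3⟩ := PT_bdd (T := JB Y₀ V) hF one_ne_zero
    fun κ _ => ow_nonneg hρ0 hK.le hX.le κ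
  have hintE : ∀ {z : ℝ}, 0 < z → Integrable fun s => ew A z s *
      (Ft ρ K X Y₀ V φ α (t + s) + Ed K X Y₀ φ α (t + s)) := fun hz =>
    integrable_ew_mul hA hz (M := M1 + M2) (hcF.comp (continuous_const.add continuous_id))
      fun s => by
        have a := Ft_nonneg (φ := φ) (α := α) (Y₀ := Y₀) (V := V) hρ0 hK.le hX.le (t + s)
        have b := Ed_nonneg (φ := φ) (α := α) (Y₀ := Y₀) hK.le hX.le (t + s)
        show |Ft ρ K X Y₀ V φ α (t + s) + Ed K X Y₀ φ α (t + s)| ≤ M1 + M2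
        rw [abs_of_nonneg (add_nonneg a b)]
        exact add_le_add (hM1 _) (hM2 _)
  have hPTint : ∀ {z : ℝ}, 0 < z → ∫ s, ew A z s * PT (ow ρ K X) (JB Y₀ V) (bt φ α p) 1 (t + s) ≤
      18 * ∫ s, ew A z s * (Ft ρ K X Y₀ V φ α (t + s) + Ed K X Y₀ φ α (t + s)) := by
    intro z hz
    rw [← integral_const_mul]
    refine integral_mono (integrable_ew_mul hA hz (M := M3)
      ((continuous_PT hF one_ne_zero _ _).comp (continuous_const.add continuous_id)) fun s => ?_)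
      ((hintE hz).const_mul _) fun s => ?_
    · show |PT (ow ρ K X) (JB Y₀ V) (bt φ α p) 1 (t + s)| ≤ M3
      rw [abs_of_nonneg (PT_nonneg (fun κ _ => ow_nonneg hρ0 hK.le hX.le κ) _ _ _)]
      exact hM3 _
    · calc ew A z s * PT (ow ρ K X) (JB Y₀ V) (bt φ α p) 1 (t + s) ≤
          ew A z s * (18 * (Ft ρ K X Y₀ V φ α (t + s) + Ed K X Y₀ φ α (t + s))) :=
            mul_le_mul_of_nonneg_left (PT_JB_le h hρ hρ0 hρ1 hK hX p (t + s)) (ew_nonneg hz s)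
        _ = _ := by ring
  -- the individual terms
  have e1 : ∑ κ ∈ JG Y₀ V, ow ρ K X κ * ‖TG (fun n => bt φ α p n * pw t (nm n)) κ‖ ^ 2 =
      PT (ow ρ K X) (JG Y₀ V) (bt φ α p) 1 t := by
    unfold PT
    exact Finset.sum_congr rfl fun κ _ => by rw [tgf_one]
  have e2 : ∑ κ ∈ JN Y₀ V, ow ρ K X κ * ‖TG (fun n => bt φ α p n * pw t (nm n)) κ‖ ^ 2 ≤
      18 * (Ft ρ K X Y₀ V φ α t + Ed K X Y₀ φ α t) := by
    refine le_trans ?_ (PT_JB_le h hρ hρ0 hρ1 hK hX p t)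
    unfold PT
    have : ∑ κ ∈ JN Y₀ V, ow ρ K X κ * ‖TG (fun n => bt φ α p n * pw t (nm n)) κ‖ ^ 2 =
        ∑ κ ∈ JN Y₀ V, ow ρ K X κ * tgf (bt φ α p) 1 κ t :=
      Finset.sum_congr rfl fun κ _ => by rw [tgf_one]
    rw [this]
    exact Finset.sum_le_sum_of_subset_of_nonneg (Finset.filter_subset _ _) fun κ _ _ =>
      mul_nonneg (ow_nonneg hρ0 hK.le hX.le κ) (tgf_nonneg _ _ _ _)
  have e3 := sum_win hA hη hF (ow ρ K X) (JB Y₀ V) t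
  have e4 : ∑ κ ∈ JB Y₀ V, ow ρ K X κ * Wb (A : ℝ) (fun n => bt φ α p n * pw t (nm n)) κ =
      ∫ s, ew A 1 s * PT (ow ρ K X) (JB Y₀ V) (bt φ α p) 1 (t + s) := by
    rw [← sum_Wb hA hF one_ne_zero]
    refine Finset.sum_congr rfl fun κ _ => ?_
    congr 2
    funext n
    show _ = (fun n => bt φ α p n * pw t (nm n)) (1 * n)
    rw [one_mul]
  rw [e1, e3, e4] at h5
  have b1 := hPTint hη
  have b2 := hPTint one_pos
  generalize (∫ s, ew A η s * PT (ow ρ K X) (JB Y₀ V) (bt φ α p) 1 (t + s)) = I1 at h5 b1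
  generalize (∫ s, ew A 1 s * PT (ow ρ K X) (JB Y₀ V) (bt φ α p) 1 (t + s)) = I2 at h5 b2
  generalize (∫ s, ew A η s * (Ft ρ K X Y₀ V φ α (t + s) + Ed K X Y₀ φ α (t + s))) = I3 at b1 ⊢
  generalize (∫ s, ew A 1 s * (Ft ρ K X Y₀ V φ α (t + s) + Ed K X Y₀ φ α (t + s))) = I4 at b2 ⊢
  generalize (∑ κ ∈ JN Y₀ V, ow ρ K X κ * ‖TG (fun n => bt φ α p n * pw t (nm n)) κ‖ ^ 2) = N1
    at h5 e2
  generalize PT (ow ρ K X) (JG Y₀ V) (bt φ α p) 1 t = P at h5 ⊢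
  generalize Er (fun n => bt φ α p n * pw t (nm n)) = Sg at h5 h3
  generalize Lo A K X Y₀ (fun n => bt φ α p n * pw t (nm n)) = L0 at h5 h2
  generalize Ft ρ K X Y₀ V φ α t + Ed K X Y₀ φ α t = FE at e2 ⊢
  generalize Dg w K Y (fun n => bt φ α p n * pw t (nm n)) +
    Mw (fun n => bt φ α p n * pw t (nm n)) -
      SqP w K (fun n => bt φ α p n * pw t (nm n)) = Q at h5 h1
  have hδi : 0 < δ⁻¹ := inv_pos.mpr hδ
  have key : (K / X) * (c * P) ≤ (K / X) * (a₁ + del * (18 * FE) + C * (η * (18 * I3) + lo) +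
      C * (1 + Real.log Y) * (δ * (18 * I4 + lo) + δ⁻¹ * sg)) := by
    calc (K / X) * (c * P) = c * (K / X) * P := by ring
      _ ≤ Q + del * (K / X) * N1 + C * (K / X) * (η * I1 + L0) +
          C * (1 + Real.log Y) * (K / X) * (δ * (I2 + L0) + δ⁻¹ * Sg) := h5
      _ ≤ (K / X) * a₁ + del * (K / X) * (18 * FE) + C * (K / X) * (η * (18 * I3) + lo) +
          C * (1 + Real.log Y) * (K / X) * (δ * (18 * I4 + lo) + δ⁻¹ * sg) := by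
          gcongr
      _ = _ := by ring
  exact le_of_mul_le_mul_left key hKX


/-- the low edge -/
lemma Lo_le {K X Y₀ : ℝ} {A J : ℕ} (hAJ : J + 2 ≤ A) (hK : 0 < K) (hX : 0 < X) {φ : ℝ → ℝ}
    {α : Eis → ℂ} (h : FS α) {e₁ : ℝ} (he₁ : 0 ≤ e₁)
    (hEd : ∀ t, Ed K X Y₀ φ α t ≤ e₁ * (1 + |t|) ^ J) {p : ℕ × ℕ} (hp : p ∈ T9) (t : ℝ) :
    Lo A K X Y₀ (fun n => bt φ α p n * pw t (nm n)) ≤ iA 2 * (e₁ * (1 + |t|) ^ J) := by
  have hA : 2 ≤ A := by omega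
  have hF := FS_bt h φ p
  have e1 : Lo (A : ℝ) K X Y₀ (fun n => bt φ α p n * pw t (nm n)) =
      ∫ s, ew A 1 s * PT (lm K X 1) (BF Y₀) (bt φ α p) 1 (t + s) := by
    unfold E1551.Lo
    rw [← sum_Wb hA hF one_ne_zero]
    refine Finset.sum_congr rfl fun κ _ => ?_
    congr 2
    funext n
    show _ = (fun n => bt φ α p n * pw t (nm n)) (1 * n)
    rw [one_mul]
  rw [e1]
  obtain ⟨M2, hM20, hM2⟩ := PT_bdd (W := lm K X 1) (T := BF Y₀) hF one_ne_zero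
    fun κ _ => lm_nonneg hK.le hX.le _ κ
  have := int_ew_pt hAJ one_pos le_rfl (continuous_PT hF one_ne_zero _ _)
    (PT_nonneg (fun κ _ => lm_nonneg hK.le hX.le _ κ) _ _) hM2
    (fun t => (PT_le_Ed hK.le hX.le hp t).trans (hEd t)) he₁ t
  rwa [inv_one, one_pow, mul_one] at this

/-- **one window** -/
theorem rg_one {c C K X Y η Y₀ V : ℝ} {A J : ℕ} {ρ : ℕ → ℝ} {w : ℝ → ℝ}
    {Mw Er : (Eis → ℂ) → ℝ} (hc : 0 < c) (hE1 : E1In c (c / 1296) C A K X Y η Y₀ V ρ w Mw Er)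
    (hAJ : J + 2 ≤ A) (hC : 0 ≤ C)
    (hK : 0 < K) (hX : 0 < X) (hY : 1 ≤ Y) (hη : 0 < η) (hη1 : η ≤ c / (1296 * (C * iA 2 + c)))
    (hρ : Antitone ρ) (hρ0 : ∀ n, 0 ≤ ρ n) (hρ1 : ∀ n, ρ n ≤ 1)
    {φ : ℝ → ℝ} {α : Eis → ℂ} (h : FS α)
    (hadm : ∀ p ∈ T9, ∀ t : ℝ, Adm Y X η (fun n => bt φ α p n * pw t (nm n)))
    {a₁ e₁ sg : ℝ} (ha₁ : 0 ≤ a₁) (he₁ : 0 ≤ e₁) (hsg : 0 ≤ sg)
    (h1 : ∀ p ∈ T9, ∀ t : ℝ, Dg w K Y (fun n => bt φ α p n * pw t (nm n)) +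
      Mw (fun n => bt φ α p n * pw t (nm n)) -
      SqP w K (fun n => bt φ α p n * pw t (nm n)) ≤ (K / X) * (a₁ * (1 + |t|) ^ J))
    (hEd : ∀ t, Ed K X Y₀ φ α t ≤ e₁ * (1 + |t|) ^ J)
    (h3 : ∀ p ∈ T9, ∀ t : ℝ, Er (fun n => bt φ α p n * pw t (nm n)) ≤ sg * (1 + |t|) ^ J) :
    ∑ κ ∈ JB Y₀ V, ow ρ K X κ * ‖TG (wn φ α) κ‖ ^ 2 ≤
      (36 / c * a₁ + (6 + 36 * C * iA 2 / c) * e₁ +
        46656 / c ^ 2 * (C * (C * iA 2 + c)) * (1 + Real.log Y) ^ 2 * sg) * (η⁻¹) ^ J := by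
  have hA : 2 ≤ A := by omega
  have hi2 := iA_nonneg 2
  have hlog := Real.log_nonneg hY
  set L : ℝ := 1 + Real.log Y with hL
  have hL1 : 1 ≤ L := by rw [hL]; linarith
  set D : ℝ := C * iA 2 + c with hD
  have hD0 : 0 < D := by rw [hD]; positivity
  have hcD : c ≤ D := by rw [hD]; nlinarith [mul_nonneg hC hi2]
  have hCD : C * iA 2 ≤ D := by rw [hD]; linarith
  set δ : ℝ := c / (1296 * D * L) with hδ
  have hδ0 : 0 < δ := by rw [hδ]; positivity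
  have hδ1 : δ ≤ 1 := by
    rw [hδ, div_le_one (by positivity)]
    nlinarith
  have hη1' : η ≤ 1 := by
    refine hη1.trans ?_
    rw [div_le_one (by positivity)]
    nlinarith
  set H : ℝ := (η⁻¹) ^ J with hH
  have hH1 : 1 ≤ H := one_le_pow₀ ((one_le_inv₀ hη).mpr hη1')
  have hPQ : ∀ t : ℝ, (1 + |t|) ^ J ≤ H * (1 + η * |t|) ^ J := fun t => one_add_eta hη hη1' t J
  have hcF := continuous_Ft (ρ := ρ) (K := K) (X := X) (Y₀ := Y₀) (V := V) (φ := φ) h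
  have hcE := continuous_Ed (K := K) (X := X) (Y₀ := Y₀) (φ := φ) h
  obtain ⟨M1, hM10, hM1⟩ := Ft_bdd (φ := φ) (Y₀ := Y₀) (V := V) h hρ0 hK.le hX.le
  obtain ⟨M2, hM20, hM2⟩ := Ed_bdd (φ := φ) (Y₀ := Y₀) h hK.le hX.le
  have hF0 : ∀ t, 0 ≤ Ft ρ K X Y₀ V φ α t := Ft_nonneg hρ0 hK.le hX.le
  have hE0 : ∀ t, 0 ≤ Ed K X Y₀ φ α t := Ed_nonneg hK.le hX.le
  -- integrals
  have hintF : ∀ {z : ℝ} (t : ℝ), 0 < z → Integrable fun s => ew A z s *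
      Ft ρ K X Y₀ V φ α (t + s) := fun t hz =>
    integrable_ew_mul hA hz (M := M1) (hcF.comp (continuous_const.add continuous_id))
      fun s => by
        show |Ft ρ K X Y₀ V φ α (t + s)| ≤ M1
        rw [abs_of_nonneg (hF0 _)]; exact hM1 _
  have hintE : ∀ {z : ℝ} (t : ℝ), 0 < z → Integrable fun s => ew A z s *
      Ed K X Y₀ φ α (t + s) := fun t hz =>
    integrable_ew_mul hA hz (M := M2) (hcE.comp (continuous_const.add continuous_id))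
      fun s => by
        show |Ed K X Y₀ φ α (t + s)| ≤ M2
        rw [abs_of_nonneg (hE0 _)]; exact hM2 _
  have hsplit : ∀ {z : ℝ} (t : ℝ), 0 < z → ∫ s, ew A z s *
      (Ft ρ K X Y₀ V φ α (t + s) + Ed K X Y₀ φ α (t + s)) =
      (∫ s, ew A z s * Ft ρ K X Y₀ V φ α (t + s)) + ∫ s, ew A z s * Ed K X Y₀ φ α (t + s) := by
    intro z t hz
    rw [← integral_add (hintF t hz) (hintE t hz)]
    congr 1
    funext s
    ring
  -- constants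
  have hk1 : 162 * C * η * iA 2 ≤ c / 8 := by
    have h5 : 1296 * D * η ≤ c := by
      have := mul_le_mul_of_nonneg_left hη1 (by positivity : (0 : ℝ) ≤ 1296 * D)
      rwa [mul_div_cancel₀] at this
      positivity
    nlinarith [mul_le_mul_of_nonneg_right hCD hη.le]
  have hk2 : 162 * C * L * δ * iA 2 ≤ c / 8 := by
    have h5 : 1296 * D * L * δ = c := by rw [hδ]; field_simp
    have h6 : C * iA 2 * (L * δ) ≤ D * (L * δ) := mul_le_mul_of_nonneg_right hCD (by positivity)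
    nlinarith
  have hδi : δ⁻¹ = 1296 * D * L / c := by rw [hδ, inv_div]
  -- the inequality
  set E₀ : ℝ := H * (9 / c * a₁ + e₁ + 9 * C * iA 2 / c * e₁ +
    11664 / c ^ 2 * (C * D) * L ^ 2 * sg) with hE₀
  have hE₀0 : 0 ≤ E₀ := by rw [hE₀]; positivity
  have key : ∀ t, Ft ρ K X Y₀ V φ α t ≤ E₀ * (1 + η * |t|) ^ J +
      162 * C * η / c * (∫ s, ew A η s * Ft ρ K X Y₀ V φ α (t + s)) +
      162 * C * L * δ / c * (∫ s, ew A 1 s * Ft ρ K X Y₀ V φ α (t + s)) +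
      1 / 8 * Ft ρ K X Y₀ V φ α t := by
    intro t
    set P := (1 + |t|) ^ J with hP
    set Q := (1 + η * |t|) ^ J with hQ
    have hP0 : 0 ≤ P := by positivity
    have hQ0 : 0 ≤ Q := by positivity
    have hPQt : P ≤ H * Q := hPQ t
    have b1 : ∀ p ∈ T9, c * PT (ow ρ K X) (JG Y₀ V) (bt φ α p) 1 t ≤ a₁ * P +
        c / 1296 * (18 * (Ft ρ K X Y₀ V φ α t + Ed K X Y₀ φ α t)) +
        C * (η * (18 * ∫ s, ew A η s * (Ft ρ K X Y₀ V φ α (t + s) +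
          Ed K X Y₀ φ α (t + s))) + iA 2 * (e₁ * P)) +
        C * L * (δ * ((18 * ∫ s, ew A 1 s * (Ft ρ K X Y₀ V φ α (t + s) +
          Ed K X Y₀ φ α (t + s))) + iA 2 * (e₁ * P)) + δ⁻¹ * (sg * P)) := fun p hp =>
      one_twist hE1 hA (by positivity) hC hK hX hY hη hδ0 hδ1 hρ hρ0 hρ1 h t (hadm p hp t)
        (h1 p hp t) (Lo_le hAJ hK hX h he₁ hEd hp t) (h3 p hp t)
    have b2 := Finset.sum_le_sum b1
    rw [Finset.sum_const, nsmul_eq_mul, card_T9, ← Finset.mul_sum] at b2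
    rw [hsplit t hη, hsplit t one_pos] at b2
    have c1 : Ed K X Y₀ φ α t ≤ e₁ * (H * Q) :=
      (hEd t).trans (mul_le_mul_of_nonneg_left hPQt he₁)
    have c2 : ∫ s, ew A η s * Ed K X Y₀ φ α (t + s) ≤ iA 2 * (e₁ * (H * Q)) := by
      have := int_ew_pt' hAJ hη hcE hE0 hM2 (B := e₁ * H) (fun t => by
        refine (hEd t).trans ?_
        rw [mul_assoc]
        exact mul_le_mul_of_nonneg_left (hPQ t) he₁) (by positivity) t
      rw [mul_assoc] at this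
      exact this
    have c3 : ∫ s, ew A 1 s * Ed K X Y₀ φ α (t + s) ≤ iA 2 * (e₁ * (H * Q)) := by
      have := int_ew_pt hAJ one_pos le_rfl hcE hE0 hM2 hEd he₁ t
      rw [inv_one, one_pow, mul_one] at this
      refine this.trans ?_
      gcongr
    have hFt : ∑ p ∈ T9, PT (ow ρ K X) (JG Y₀ V) (bt φ α p) 1 t = Ft ρ K X Y₀ V φ α t := rfl
    rw [hFt] at b2
    generalize (∫ s, ew A η s * Ed K X Y₀ φ α (t + s)) = IE1 at b2 c2
    generalize (∫ s, ew A 1 s * Ed K X Y₀ φ α (t + s)) = IE2 at b2 c3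
    generalize (∫ s, ew A η s * Ft ρ K X Y₀ V φ α (t + s)) = IF1 at b2 ⊢
    generalize (∫ s, ew A 1 s * Ft ρ K X Y₀ V φ α (t + s)) = IF2 at b2 ⊢
    generalize Ed K X Y₀ φ α t = Et0 at b2 c1
    generalize Ft ρ K X Y₀ V φ α t = F at b2 ⊢
    have hHQ : 0 ≤ H * Q := by positivity
    -- bounds of the single terms
    have d1 : 9 * (a₁ * P) ≤ 9 * (a₁ * (H * Q)) := by gcongr
    have d2 : c / 8 * Et0 ≤ c / 8 * (e₁ * (H * Q)) := by gcongr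
    have d3 : 162 * C * η * IE1 ≤ c / 8 * (e₁ * (H * Q)) := by
      calc 162 * C * η * IE1 ≤ 162 * C * η * (iA 2 * (e₁ * (H * Q))) := by gcongr
        _ = 162 * C * η * iA 2 * (e₁ * (H * Q)) := by ring
        _ ≤ _ := mul_le_mul_of_nonneg_right hk1 (by positivity)
    have d4 : 162 * C * L * δ * IE2 ≤ c / 8 * (e₁ * (H * Q)) := by
      calc 162 * C * L * δ * IE2 ≤ 162 * C * L * δ * (iA 2 * (e₁ * (H * Q))) := by gcongr
        _ = 162 * C * L * δ * iA 2 * (e₁ * (H * Q)) := by ring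
        _ ≤ _ := mul_le_mul_of_nonneg_right hk2 (by positivity)
    have d5 : 9 * C * (iA 2 * (e₁ * P)) ≤ 9 * C * iA 2 * e₁ * (H * Q) := by
      calc 9 * C * (iA 2 * (e₁ * P)) = 9 * C * iA 2 * e₁ * P := by ring
        _ ≤ _ := by gcongr
    have d6 : 9 * C * L * δ * (iA 2 * (e₁ * P)) ≤ c / 8 * (e₁ * (H * Q)) := by
      calc 9 * C * L * δ * (iA 2 * (e₁ * P)) ≤ 162 * C * L * δ * (iA 2 * (e₁ * (H * Q))) := by
            gcongr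
            norm_num
        _ = 162 * C * L * δ * iA 2 * (e₁ * (H * Q)) := by ring
        _ ≤ _ := mul_le_mul_of_nonneg_right hk2 (by positivity)
    have d7 : 9 * C * L * (δ⁻¹ * (sg * P)) ≤ 11664 / c * (C * D) * L ^ 2 * sg * (H * Q) := by
      rw [hδi]
      calc 9 * C * L * (1296 * D * L / c * (sg * P)) =
            11664 / c * (C * D) * L ^ 2 * sg * P := by ring
        _ ≤ _ := by gcongr
    have hcF' : c * F ≤ c * (E₀ * Q + 162 * C * η / c * IF1 + 162 * C * L * δ / c * IF2 +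
        1 / 8 * F) := by
      have e5 : c * (E₀ * Q + 162 * C * η / c * IF1 + 162 * C * L * δ / c * IF2 + 1 / 8 * F) =
          (9 * (a₁ * (H * Q)) + c * (e₁ * (H * Q)) + 9 * C * iA 2 * e₁ * (H * Q) +
            11664 / c * (C * D) * L ^ 2 * sg * (H * Q)) +
          162 * C * η * IF1 + 162 * C * L * δ * IF2 + c / 8 * F := by
        rw [hE₀]; field_simp
      rw [e5]
      have e6 : 9 * (a₁ * P + c / 1296 * (18 * (F + Et0)) +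
          C * (η * (18 * (IF1 + IE1)) + iA 2 * (e₁ * P)) +
          C * L * (δ * ((18 * (IF2 + IE2)) + iA 2 * (e₁ * P)) + δ⁻¹ * (sg * P))) =
          9 * (a₁ * P) + c / 8 * Et0 + 162 * C * η * IE1 + 162 * C * L * δ * IE2 +
          9 * C * (iA 2 * (e₁ * P)) + 9 * C * L * δ * (iA 2 * (e₁ * P)) +
          9 * C * L * (δ⁻¹ * (sg * P)) + 162 * C * η * IF1 + 162 * C * L * δ * IF2 +
          c / 8 * F := by ring
      rw [e6] at b2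
      have h9 : 0 ≤ c * (e₁ * (H * Q)) := by positivity
      linarith
    exact le_of_mul_le_mul_left hcF' hc
  have hab : 162 * C * η / c * iA 2 + 162 * C * L * δ / c * iA 2 + 1 / 8 ≤ 1 / 2 := by
    have h5 : 162 * C * η / c * iA 2 ≤ 1 / 8 := by
      rw [div_mul_eq_mul_div, div_le_iff₀ hc]; linarith
    have h6 : 162 * C * L * δ / c * iA 2 ≤ 1 / 8 := by
      rw [div_mul_eq_mul_div, div_le_iff₀ hc]; linarith
    linarith
  have hfin := absorb2 hAJ hη hη1' (by positivity) (by positivity) (by norm_num) hE₀0 _ hF0 hcF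
    hM1 key hab 0
  rw [abs_zero, mul_zero, add_zero, one_pow, mul_one] at hfin
  have hEd0 := hEd 0
  rw [abs_zero, add_zero, one_pow, mul_one] at hEd0
  -- all classes at height 0
  have hall := cls_sum (FS_wn (φ := φ) h) (Y₀ := Y₀) (V := V) hK hX hρ hρ0 hρ1
  have e7 : ∑ p ∈ T9, (∑ κ ∈ JG Y₀ V, ρ (nm κ) * min 1 (lm K X 1 κ) *
        ‖TG (tw2 p.1 p.2 (wn φ α)) κ‖ ^ 2 +
      ∑ κ ∈ BF Y₀, lm K X 1 κ * ‖TG (tw2 p.1 p.2 (wn φ α)) κ‖ ^ 2) =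
      Ft ρ K X Y₀ V φ α 0 + Ed K X Y₀ φ α 0 := by
    rw [Finset.sum_add_distrib]
    unfold Ft Ed PT
    congr 1
    · refine Finset.sum_congr rfl fun p _ => Finset.sum_congr rfl fun κ _ => ?_
      rw [tgf_zero]; rfl
    · refine Finset.sum_congr rfl fun p _ => Finset.sum_congr rfl fun κ _ => ?_
      rw [tgf_zero]; rfl
  rw [e7] at hall
  have e8 : ∑ κ ∈ JB Y₀ V, ow ρ K X κ * ‖TG (wn φ α) κ‖ ^ 2 =
      ∑ κ ∈ JB Y₀ V, ρ (nm κ) * min 1 (lm K X 1 κ) * ‖TG (wn φ α) κ‖ ^ 2 := rfl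
  rw [e8]
  have h10 : 2 * (Ft ρ K X Y₀ V φ α 0 + Ed K X Y₀ φ α 0) ≤ 4 * E₀ + 2 * (e₁ * H) := by
    have : e₁ ≤ e₁ * H := le_mul_of_one_le_right he₁ hH1
    linarith
  refine hall.trans (h10.trans (le_of_eq ?_))
  rw [hE₀]
  ring

end Crest.Agent.R017.RGw813
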