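import Crest.Agent.R017.MoF7_106
import Crest.Agent.R017.RGwC_813
import Crest.Agent.R017.E2q_440

/-!
# Row 17, E2: list form of the error functionals, part 1 (helper106): twists and heights

* `aT k₀ g₀ t₀ a` : the sub-sequence of a twisted sequence at height `t₀`
* `MoP_aT_le`, `MT_aT` : a twist and a height in the functionals
* `MoP_bt_le`, `MoH_bt` : the moment hypothesis of `E2core` for `bt φ α p * pw t₀`
* `MTs_win_blk` : the direct side at height `t₀`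
-/

set_option autoImplicit false

noncomputable section

open MeasureTheory Finset Filter
open scoped ComplexConjugate

namespace Crest.Agent.R017.MoL106

open Crest.Agent.R012
open Eis CharSum852 Gauss880 LS2 CR2 MelSep811
open Crest.Agent.R012.Weight600 (osc norm_osc pw)
open Crest.Agent.R017.CM106 (CS TG FS sub)
open Crest.Agent.R017.TP320 (VC VG Fam SplitAt tw)
open Crest.Agent.R017.E2440 (cT MoF MoH MT ag)
open Crest.Agent.R017.H1401 (pb mem_pb)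
open Crest.Agent.R017.X6C180 (IX dl')
open Crest.Agent.R017.PX764 (Gh n6)
open Crest.Agent.R017.Win813 (ew ew_nonneg iA iA_nonneg WK HF HW wn integrable_base integrable_ew)
open Crest.Agent.R017.RGw813 (tw2 bt)
open Crest.Agent.R017.MoF106
open Div277 (tau dvs mem_dvs tau_le_rpow)

/-- the twisted sub-sequence at height `t₀` -/
def aT (k₀ g₀ : Eis) (t₀ : ℝ) (a : Eis → ℂ) : Eis → ℂ := fun n =>
  a n * (conj (sy k₀ (g₀ * n)) * pw t₀ (nm (g₀ * n)))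

/-- the factor -/
def aU (k₀ g₀ B : Eis) (t₀ : ℝ) : ℂ := conj (sy k₀ (g₀ * B)) * pw t₀ (nm (g₀ * B))

lemma norm_aU_le {k₀ g₀ B : Eis} (hg₀ : IsPrim g₀) (hB : IsPrim B) (t₀ : ℝ) :
    ‖aU k₀ g₀ B t₀‖ ≤ 1 := by
  unfold aU
  rw [norm_mul, Weight600.norm_pw, mul_one, RCLike.norm_conj]
  exact norm_sy_le syG (hg₀.mul hB)

lemma aT_mul {k₀ g₀ B D : Eis} (t₀ : ℝ) (a : Eis → ℂ) (hg₀ : IsPrim g₀) (hB : IsPrim B)
    (hD : IsPrim D) : aT k₀ g₀ t₀ a (B * D) =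
      aU k₀ g₀ B t₀ * (a (B * D) * (sy (k₀ ^ 2) D * pw t₀ (nm D))) := by
  unfold aT aU
  have n1 : (nm (g₀ * B) : ℝ) ≠ 0 := by
    exact_mod_cast (nm_pos.2 (mul_ne_zero hg₀.ne_zero hB.ne_zero)).ne'
  have n2 : (nm D : ℝ) ≠ 0 := by exact_mod_cast (nm_pos.2 hD.ne_zero).ne'
  have e1 : g₀ * (B * D) = g₀ * B * D := by ring
  rw [e1, syG.mul_right k₀ (g₀ * B) D (hg₀.mul hB) hD, nm_mul (g₀ * B) D, Nat.cast_mul,
    Weight600.pw_mul n1 n2, map_mul, ← sy_sq_eq_conj syG (x := k₀) hD, pow_two k₀,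
    syG.mul_left k₀ k₀ D hD]
  ring

/-- **a twist in `cT`** -/
lemma cT_aT {k₀ g₀ B : Eis} {t₀ : ℝ} {a : Eis → ℂ} (ha : ∀ n, a n ≠ 0 → IsPrim n)
    (hg₀ : IsPrim g₀) (hB : IsPrim B) (E τ : Eis) (t : ℝ) (D : Eis) :
    cT (aT k₀ g₀ t₀ a) E B τ t D = aU k₀ g₀ B t₀ * cT a (E * k₀ ^ 2) B τ (t - t₀) D := by
  unfold E2440.cT
  by_cases h0 : a (B * D) = 0
  · have : aT k₀ g₀ t₀ a (B * D) = 0 := by unfold aT; rw [h0, zero_mul]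
    rw [this, h0]; ring
  have hD : IsPrim D := (ha _ h0).of_mul_left hB
  rw [aT_mul t₀ a hg₀ hB hD, syG.mul_left E (k₀ ^ 2) D hD]
  have e1 : osc (t - t₀) (-Real.log (nm D)) = osc t (-Real.log (nm D)) * pw t₀ (nm D) := by
    rw [sub_eq_add_neg, Weight600.osc_add_left]
    congr 1
    rw [Weight600.osc_neg_left, Weight600.osc_neg_right, Complex.conj_conj]
    rfl
  rw [e1]
  ring

lemma CS_aT {k₀ g₀ B : Eis} {t₀ : ℝ} {a : Eis → ℂ} (ha : ∀ n, a n ≠ 0 → IsPrim n)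
    (hg₀ : IsPrim g₀) (hB : IsPrim B) (E τ G d : Eis) (t : ℝ) :
    CS (sub (cT (aT k₀ g₀ t₀ a) E B τ t) G) d =
      aU k₀ g₀ B t₀ * CS (sub (cT a (E * k₀ ^ 2) B τ (t - t₀)) G) d := by
  unfold CM106.CS CM106.sub
  rw [← tsum_mul_left]
  refine tsum_congr fun D => ?_
  rw [cT_aT ha hg₀ hB]
  ring

open Classical in
/-- **a twist in the moment functional** -/
theorem MoP_aT_le {k₀ g₀ B : Eis} {t₀ : ℝ} {a : Eis → ℂ} (ha : ∀ n, a n ≠ 0 → IsPrim n)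
    (hg₀ : IsPrim g₀) (hB : IsPrim B) (E τ : Eis) (X t Z : ℝ) {W : Eis → Eis → ℝ}
    (P : Eis → Eis → Eis → Prop) (hW : ∀ g₂ ∈ S X, ∀ g₃ ∈ S X, 0 ≤ W g₂ g₃) :
    MoP (aT k₀ g₀ t₀ a) E B τ X t Z W P ≤ MoP a (E * k₀ ^ 2) B τ X (t - t₀) Z W P := by
  unfold MoP
  refine Finset.sum_le_sum fun g₂ h₂ => Finset.sum_le_sum fun g₃ h₃ => ?_
  refine mul_le_mul_of_nonneg_left ?_ (hW g₂ h₂ g₃ h₃)
  refine Finset.sum_le_sum fun d _ => ?_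
  rw [CS_aT ha hg₀ hB, norm_mul, mul_pow]
  have h1 : ‖aU k₀ g₀ B t₀‖ ^ 2 ≤ 1 := pow_le_one₀ (norm_nonneg _) (norm_aU_le hg₀ hB t₀)
  exact mul_le_of_le_one_left (sq_nonneg _) h1

/-- **a twist on the direct side** -/
theorem MT_aT {k₀ g₀ B : Eis} {t₀ : ℝ} {a : Eis → ℂ} (ha : ∀ n, a n ≠ 0 → IsPrim n)
    (hg₀ : IsPrim g₀) (hB : IsPrim B) (E σ r : Eis) :
    ‖MT (aT k₀ g₀ t₀ a) E B σ r‖ ≤ ‖MTs a (E * k₀ ^ 2) B σ r t₀‖ := by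
  have e1 : MT (aT k₀ g₀ t₀ a) E B σ r =
      aU k₀ g₀ B t₀ * MTs a (E * k₀ ^ 2) B σ r t₀ := by
    unfold E2440.MT MTs
    rw [← tsum_mul_left]
    refine tsum_congr fun D => ?_
    by_cases h0 : a (B * D) = 0
    · have : aT k₀ g₀ t₀ a (B * D) = 0 := by unfold aT; rw [h0, zero_mul]
      rw [this, h0]; ring
    have hD : IsPrim D := (ha _ h0).of_mul_left hB
    rw [aT_mul t₀ a hg₀ hB hD, syG.mul_left E (k₀ ^ 2) D hD]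
    ring
  rw [e1, norm_mul]
  exact mul_le_of_le_one_left (norm_nonneg _) (norm_aU_le hg₀ hB t₀)

/-! ### the sequence `bt φ α p * pw t₀` -/

/-- the twist -/
def kw (p : ℕ × ℕ) : Eis := w ^ p.1 * lam ^ p.2

lemma kw_ne (p : ℕ × ℕ) : kw p ≠ 0 := by
  unfold kw
  have h1 : (w : Eis) ≠ 0 := isUnit_w.ne_zero
  exact mul_ne_zero (pow_ne_zero _ h1) (pow_ne_zero _ lam_ne_zero)

lemma ag_bt (φ : ℝ → ℝ) (α : Eis → ℂ) (p : ℕ × ℕ) (t₀ : ℝ) (δ g : Eis) :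
    ag (fun n => bt φ α p n * pw t₀ (nm n)) δ g = aT (kw p) g t₀ (ag (wn φ α) δ g) := by
  classical
  funext n
  unfold E2440.ag aT RGw813.bt RGw813.tw2 kw
  by_cases h : IsCoprime n δ
  · simp only [if_pos h]
    ring
  · simp only [if_neg h]
    ring

lemma ag_wn_dl (φ : ℝ → ℝ) (γ q g₀ δ : Eis) (w : Eis → ℂ) :
    ag (wn φ (dl γ (TP320.sq (q * γ) w))) δ g₀ = aW φ γ q g₀ δ w := by
  classical
  rw [aW_eq]
  funext n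
  unfold E2440.ag
  rfl

lemma aG_prim {γ q g₀ δ : Eis} {w : Eis → ℂ} (hγ : IsPrim γ) (hg₀ : IsPrim g₀) {n : Eis}
    (h : aG γ q g₀ δ w n ≠ 0) : IsPrim n := by
  obtain ⟨_, c, h1, h2, _⟩ := aG_ne hγ.ne_zero h
  have h3 : IsPrim (g₀ * n) := h1 ▸ hγ.mul h2
  exact h3.of_mul_left hg₀

lemma aW_prim {φ : ℝ → ℝ} {γ q g₀ δ : Eis} {w : Eis → ℂ} (hγ : IsPrim γ) (hg₀ : IsPrim g₀)
    {n : Eis} (h : aW φ γ q g₀ δ w n ≠ 0) : IsPrim n := by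
  unfold aW at h
  exact aG_prim hγ hg₀ (left_ne_zero_of_mul h)

lemma one_add_sub_le (t t₀ : ℝ) : 1 + |t - t₀| ≤ (1 + |t|) * (1 + |t₀|) := by
  have h1 := abs_sub t t₀
  nlinarith [abs_nonneg t, abs_nonneg t₀]

section bt

variable {w : Eis → ℂ} {X₁ : ℝ} {γ q g₀ δ : Eis}

/-- **the functional of a twisted window at height `t₀`** -/
theorem MoP_bt_le {E B : Eis} {X Z : ℝ} {W : Eis → Eis → ℝ} {σ : Eis}
    {P : IX σ → Eis → Eis → Eis → Prop} {C η : ℝ} {A : ℕ} (hC : 0 ≤ C) (hη : 0 < η)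
    (hη1 : η ≤ 1) (hA : 2 ≤ A) {φ : ℝ → ℝ} (hφ : WK C η A φ) (hX₁ : 0 ≤ X₁)
    (hw : ∀ n, w n ≠ 0 → (nm n : ℝ) ≤ X₁) (hX : 0 ≤ X) (hγ : IsPrim γ) (hγs : Squarefree γ)
    (hg₀ : IsPrim g₀) (hB : IsPrim B) (hW : ∀ g₂ ∈ S X, ∀ g₃ ∈ S X, 0 ≤ W g₂ g₃)
    (p : ℕ × ℕ) (t₀ : ℝ) (i : IX σ) (t : ℝ) :
    MoP (ag (fun n => bt φ (dl γ (TP320.sq (q * γ) w)) p n * pw t₀ (nm n)) δ g₀) E B (dl' σ i)
        X t Z W (P i) ≤
      (1 + |t|) ^ A * ((1 + |t₀|) ^ A *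
        MoC C η A σ (aG γ q g₀ δ w) (E * kw p ^ 2) B X Z W P) := by
  rw [ag_bt, ag_wn_dl]
  refine (MoP_aT_le (fun n hn => aW_prim hγ hg₀ hn) hg₀ hB E _ X t Z (P i) hW).trans ?_
  refine (MoP_le_MoC hC hη hη1 hA hφ hX₁ hw hX hγ hγs hg₀ hB hW i (t - t₀)).trans ?_
  have h0 : 0 ≤ MoC C η A σ (aG γ q g₀ δ w) (E * kw p ^ 2) B X Z W P := by
    unfold MoC
    refine mul_nonneg (by have := iA_nonneg A; positivity) (Finset.sum_nonneg fun _ _ => ?_)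
    exact MoI_nonneg hW
  rw [← mul_assoc, ← mul_pow]
  refine mul_le_mul_of_nonneg_right ?_ h0
  exact pow_le_pow_left₀ (by positivity) (one_add_sub_le t t₀) A

/-- **the moment hypothesis of `E2core`** -/
theorem MoH_bt {E : Eis} {X : ℝ} {σ : Eis} {C η : ℝ} {A : ℕ}
    (hC : 0 ≤ C) (hη : 0 < η) (hη1 : η ≤ 1) (hA : 2 ≤ A) {φ : ℝ → ℝ} (hφ : WK C η A φ)
    (hX₁ : 0 ≤ X₁) (hw : ∀ n, w n ≠ 0 → (nm n : ℝ) ≤ X₁) (hX : 0 ≤ X) (hγ : IsPrim γ)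
    (hγs : Squarefree γ) (hg₀ : IsPrim g₀) (p : ℕ × ℕ) (t₀ : ℝ) :
    MoH (ag (fun n => bt φ (dl γ (TP320.sq (q * γ) w)) p n * pw t₀ (nm n)) δ g₀) E σ X A
      (fun B Z => (1 + |t₀|) ^ A * MoC C η A σ (aG γ q g₀ δ w) (E * kw p ^ 2) B X Z
        (fun g₂ _ => (nm g₂ : ℝ) ^ 2) (fun _ g₂ g₃ d => g₂ ^ 2 * g₃ ^ 3 ∣ d)) := by
  intro B hB i t Z _
  rw [MoF_eq]
  exact MoP_bt_le (P := fun _ g₂ g₃ d => g₂ ^ 2 * g₃ ^ 3 ∣ d) hC hη hη1 hA hφ hX₁ hw hX hγ hγs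
    hg₀ ((mem_S hX).1 hB).2.1 (fun _ _ _ _ => by positivity) p t₀ i t

/-! ### the direct side -/

lemma MTs_HW {φ : ℝ → ℝ} {E B σ r : Eis} (hX : 0 ≤ X₁) (hw : ∀ n, w n ≠ 0 → (nm n : ℝ) ≤ X₁)
    (hγ : IsPrim γ) (hγs : Squarefree γ) (hg₀ : IsPrim g₀) (hB : IsPrim B) (s : ℝ) :
    ‖MTs (aW φ γ q g₀ δ w) E B σ r s‖ = ‖HW φ (S (nm γ * X₁)) (fun D => g₀ * B * D)
      (linT (aG γ q g₀ δ w) E B σ r) s‖ := by
  have h0 := aG_supp1 (q := q) (δ := δ) hX hw hγ hγs hg₀ hB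
  have hX' : 0 ≤ (nm γ : ℝ) * X₁ := mul_nonneg (Nat.cast_nonneg _) hX
  have e1 : MTs (aW φ γ q g₀ δ w) E B σ r s = ∑ D ∈ S (nm γ * X₁),
      linT (aG γ q g₀ δ w) E B σ r D * ((φ (Real.log (nm (g₀ * B * D))) : ℂ) * pw s (nm D)) := by
    unfold MTs
    have e2 : ∀ D, aW φ γ q g₀ δ w (B * D) * (sy E D * conj (sy D B)) *
        ((n6 D : ℂ) * Gh (σ * r) D) * pw s (nm D) = linT (aG γ q g₀ δ w) E B σ r D *
          ((φ (Real.log (nm (g₀ * B * D))) : ℂ) * pw s (nm D)) := by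
      intro D
      unfold aW linT
      rw [mul_assoc g₀ B D]
      ring
    rw [tsum_congr e2]
    apply tsum_eq_sum
    intro D hD
    unfold linT
    rw [h0 D hD]
    ring
  have e2 : HW φ (S (nm γ * X₁)) (fun D => g₀ * B * D) (linT (aG γ q g₀ δ w) E B σ r) s =
      pw s (nm (g₀ * B)) * MTs (aW φ γ q g₀ δ w) E B σ r s := by
    rw [e1, Finset.mul_sum]
    unfold Win813.HW
    refine Finset.sum_congr rfl fun D hD => ?_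
    rw [Win813.pw_split (mul_ne_zero hg₀.ne_zero hB.ne_zero) ((mem_S hX').1 hD).2.1.ne_zero s]
    ring
  rw [e2, norm_mul, Weight600.norm_pw, one_mul]

/-- **removal of the window on the direct side, height `t₀`** -/
theorem MTs_win {E B σ r : Eis} {C η : ℝ} {A : ℕ} (hC : 0 ≤ C) (hη : 0 < η) (hA : 2 ≤ A)
    {φ : ℝ → ℝ} (hφ : WK C η A φ) (hX : 0 ≤ X₁) (hw : ∀ n, w n ≠ 0 → (nm n : ℝ) ≤ X₁)
    (hγ : IsPrim γ) (hγs : Squarefree γ) (hg₀ : IsPrim g₀) (hB : IsPrim B) (t₀ : ℝ) :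
    Integrable (fun s => ew A η s * ‖MTs (aG γ q g₀ δ w) E B σ r (t₀ + s)‖ ^ 2) ∧
    ‖MTs (aW φ γ q g₀ δ w) E B σ r t₀‖ ^ 2 ≤
      C ^ 2 * iA A * ∫ s, ew A η s * ‖MTs (aG γ q g₀ δ w) E B σ r (t₀ + s)‖ ^ 2 := by
  have e1 : (fun s => ew A η s * ‖MTs (aG γ q g₀ δ w) E B σ r (t₀ + s)‖ ^ 2) =
      fun s => ew A η s * ‖HF (S (nm γ * X₁)) (fun D => g₀ * B * D)
        (linT (aG γ q g₀ δ w) E B σ r) (t₀ + s)‖ ^ 2 := by
    funext s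
    rw [MTs_HF hX hw hγ hγs hg₀ hB]
  rw [e1, MTs_HW hX hw hγ hγs hg₀ hB]
  exact ⟨Win813.integrable_HF hA hη _ _ _ _, Win813.win_sq hC hη hA hφ _ _ _ t₀⟩

end bt

open Classical in
/-- **the direct side with a window at height `t₀`, one block** -/
theorem MTs_win_blk {J : Type} {Φ : Fam J} {R A : ℝ} (hΦ : Φ.Ok R A) {ε : ℝ} (hε : 0 < ε) :
    ∃ C : ℝ, 1 ≤ C ∧ ∀ (A' : ℕ), 2 * A + 2 ≤ A' → ∀ (Cφ η : ℝ) (φ : ℝ → ℝ), 0 ≤ Cφ → 0 < η →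
      η ≤ 1 → WK Cφ η A' φ →
      ∀ (j : J) (γ q g₀ δ E σ : Eis), IsPrim γ → Squarefree γ → IsPrim g₀ →
      E ≠ 0 → σ ≠ 0 →
      ∀ (T : Finset Eis) (Rs : Eis → Finset Eis), (∀ y ∈ T, IsPrim y) →
      (∀ y ∈ T, ∀ r ∈ Rs y, r ≠ 0) →
      ∀ (u : ℕ) (X : ℝ), 0 ≤ X → ∀ Λ : ℝ, 0 ≤ Λ →
      (∀ y ∈ T, ∀ r ∈ Rs y, ∀ B ∈ bk X u,
        (nm σ : ℝ) * nm r * nm γ * ((nm E * nm y) ^ 2 * nm B) ≤ Λ) →
      ∀ M : ℝ, 0 ≤ M →
      (∀ h ∈ dvs γ, ∀ j', Φ.good j' → Φ.dom R j' j →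
        Φ.len j' ≤ Φ.len j - (Real.log (nm g₀) + (u : ℝ) / 3 - Real.log (nm h)) + R →
        Φ.len j - (Real.log (nm g₀) + (u : ℝ) / 3 - Real.log (nm h)) - R - 1 ≤ Φ.len j' →
        VG Λ (TP320.sq (q * (δ * (g₀ * γ))) (Φ.w j')) ≤ M * Φ.ht j' ^ 2) → ∀ t₀ : ℝ,
      ∑ y ∈ T, ∑ B ∈ bk X u, ∑ r ∈ Rs y,
        ‖MTs (aW φ γ q g₀ δ (Φ.w j)) (E * y) B σ r t₀‖ ^ 2 ≤
        C * (Cφ ^ 2 * iA A' * (η * (η ^ A')⁻¹)) * (1 + |t₀|) ^ A' *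
          (nm γ * (nm g₀ * Real.exp ((u : ℝ) / 3)) * (1 + Λ)) ^ ε *
          Real.exp (-(1 / 3) * (Φ.len j - Real.log (nm g₀) - (u : ℝ) / 3)) * M * Φ.ht j ^ 2 := by
  obtain ⟨C, hC, hs⟩ := mt_blk hΦ hε
  refine ⟨(iA 2 + 1) * C, by have := iA_nonneg 2; nlinarith, ?_⟩
  intro A' hA' Cφ η φ hCφ hη hη1 hφ j γ q g₀ δ E σ hγ hγs hg₀ hE hσ T Rs hT hRs u X hX Λ hΛ0 hΛ
    M hM hyp t₀
  have hC0 : 0 ≤ C := by linarith
  have hA0 := hΦ.A0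
  have hA2 : 2 ≤ A' := by
    have : (2 : ℝ) ≤ A' := by linarith
    exact_mod_cast this
  have hR := hΦ.R0
  have hw1 : ∀ n, Φ.w j n ≠ 0 → (nm n : ℝ) ≤ Real.exp (Φ.len j + R) := by
    intro b hb
    have hb0 : (0 : ℝ) < nm b := by exact_mod_cast nm_pos.2 (hΦ.prim j b hb).ne_zero
    rw [← Real.log_le_iff_le_exp hb0]
    have := (abs_le.1 (hΦ.supp j b hb)).2
    linarith
  set Bd : ℝ := C * (nm γ * (nm g₀ * Real.exp ((u : ℝ) / 3)) * (1 + Λ)) ^ ε *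
          Real.exp (-(1 / 3) * (Φ.len j - Real.log (nm g₀) - (u : ℝ) / 3)) * M *
          Φ.ht j ^ 2 with hBd
  have hBd0 : 0 ≤ Bd := by rw [hBd]; positivity
  have hp0 : 0 ≤ Cφ ^ 2 * iA A' := by have := iA_nonneg A'; positivity
  have ht0 : (1 : ℝ) ≤ 1 + |t₀| := by have := abs_nonneg t₀; linarith
  set f : Eis → Eis → Eis → ℝ → ℝ := fun y B r s =>
    ‖MTs (aG γ q g₀ δ (Φ.w j)) (E * y) B σ r (t₀ + s)‖ ^ 2 with hf
  have key : ∀ y, ∀ B ∈ bk X u, ∀ r, Integrable (fun s => ew A' η s * f y B r s) ∧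
      ‖MTs (aW φ γ q g₀ δ (Φ.w j)) (E * y) B σ r t₀‖ ^ 2 ≤
        Cφ ^ 2 * iA A' * ∫ s, ew A' η s * f y B r s := fun y B hB r =>
    MTs_win hCφ hη hA2 hφ (Real.exp_pos _).le hw1 hγ hγs hg₀ (bk_prim hX hB) t₀
  have e1 : ∑ y ∈ T, ∑ B ∈ bk X u, ∑ r ∈ Rs y, ∫ s, ew A' η s * f y B r s =
      ∫ s, ew A' η s * ∑ y ∈ T, ∑ B ∈ bk X u, ∑ r ∈ Rs y, f y B r s := by
    have e2 : (fun s => ew A' η s * ∑ y ∈ T, ∑ B ∈ bk X u, ∑ r ∈ Rs y, f y B r s) = fun s =>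
        ∑ y ∈ T, ∑ B ∈ bk X u, ∑ r ∈ Rs y, ew A' η s * f y B r s := by
      funext s
      simp only [Finset.mul_sum]
    rw [e2, integral_finsetSum _ fun y _ => integrable_finsetSum _ fun B hB =>
      integrable_finsetSum _ fun r _ => (key y B hB r).1]
    refine Finset.sum_congr rfl fun y _ => ?_
    rw [integral_finsetSum _ fun B hB => integrable_finsetSum _ fun r _ => (key y B hB r).1]
    refine Finset.sum_congr rfl fun B hB => ?_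
    rw [integral_finsetSum _ fun r _ => (key y B hB r).1]
  have hint : Integrable fun s => ew A' η s * ∑ y ∈ T, ∑ B ∈ bk X u, ∑ r ∈ Rs y, f y B r s := by
    have e2 : (fun s => ew A' η s * ∑ y ∈ T, ∑ B ∈ bk X u, ∑ r ∈ Rs y, f y B r s) = fun s =>
        ∑ y ∈ T, ∑ B ∈ bk X u, ∑ r ∈ Rs y, ew A' η s * f y B r s := by
      funext s
      simp only [Finset.mul_sum]
    rw [e2]
    exact integrable_finsetSum _ fun y _ => integrable_finsetSum _ fun B hB =>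
      integrable_finsetSum _ fun r _ => (key y B hB r).1
  have h2 : ∫ s, ew A' η s * ∑ y ∈ T, ∑ B ∈ bk X u, ∑ r ∈ Rs y, f y B r s ≤
      (η * (η ^ A')⁻¹ * (1 + |t₀|) ^ A') * (iA 2 * Bd) := by
    have e3 : (η * (η ^ A')⁻¹ * (1 + |t₀|) ^ A') * (iA 2 * Bd) =
        ∫ s : ℝ, (η * (η ^ A')⁻¹ * (1 + |t₀|) ^ A') * (((1 + |t₀ + s|) ^ 2)⁻¹ * Bd) := by
      rw [integral_const_mul, integral_mul_const]
      congr 2
      unfold Win813.iA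
      exact (integral_add_left_eq_self (fun s : ℝ => ((1 + |s|) ^ 2)⁻¹) t₀).symm
    rw [e3]
    refine integral_mono hint ((((integrable_base le_rfl).comp_add_left t₀).mul_const Bd).const_mul
      _) fun s => ?_
    have h3 : ∑ y ∈ T, ∑ B ∈ bk X u, ∑ r ∈ Rs y, f y B r s ≤
        (1 + |t₀ + s|) ^ (2 * A) * Bd := by
      refine (hs j γ q g₀ δ E σ hγ hγs hg₀ hE hσ T Rs hT hRs u X (t₀ + s) hX Λ hΛ0 hΛ M hM
        hyp).trans (le_of_eq ?_)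
      rw [hBd]; ring
    have h4 : ew A' η s ≤ η * (η ^ A')⁻¹ * (1 + |t₀|) ^ A' * ((1 + |t₀ + s|) ^ A')⁻¹ := by
      have := ew_le_shift (A := A') hη hη1 (-t₀) (s)
      rw [abs_neg] at this
      have e5 : |-t₀ - s| = |t₀ + s| := by rw [← abs_neg]; congr 1; ring
      rwa [e5] at this
    have hv : (1 : ℝ) ≤ 1 + |t₀ + s| := by have := abs_nonneg (t₀ + s); linarith
    have hv0 : (0 : ℝ) < 1 + |t₀ + s| := by linarith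
    have h5 : ((1 + |t₀ + s|) ^ A')⁻¹ * (1 + |t₀ + s|) ^ (2 * A) ≤ ((1 + |t₀ + s|) ^ 2)⁻¹ := by
      rw [inv_mul_le_iff₀ (by positivity), ← div_eq_mul_inv, le_div_iff₀ (by positivity),
        ← Real.rpow_natCast (1 + |t₀ + s|) 2, ← Real.rpow_natCast (1 + |t₀ + s|) A',
        ← Real.rpow_add hv0]
      exact Real.rpow_le_rpow_of_exponent_le hv (by push_cast; linarith)
    have hf0 : 0 ≤ ∑ y ∈ T, ∑ B ∈ bk X u, ∑ r ∈ Rs y, f y B r s :=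
      Finset.sum_nonneg fun _ _ => Finset.sum_nonneg fun _ _ =>
        Finset.sum_nonneg fun _ _ => sq_nonneg _
    calc ew A' η s * ∑ y ∈ T, ∑ B ∈ bk X u, ∑ r ∈ Rs y, f y B r s
        ≤ (η * (η ^ A')⁻¹ * (1 + |t₀|) ^ A' * ((1 + |t₀ + s|) ^ A')⁻¹) *
          ((1 + |t₀ + s|) ^ (2 * A) * Bd) :=
          mul_le_mul h4 h3 hf0 (by positivity)
      _ = (η * (η ^ A')⁻¹ * (1 + |t₀|) ^ A') *
          ((((1 + |t₀ + s|) ^ A')⁻¹ * (1 + |t₀ + s|) ^ (2 * A)) * Bd) := by ring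
      _ ≤ (η * (η ^ A')⁻¹ * (1 + |t₀|) ^ A') * (((1 + |t₀ + s|) ^ 2)⁻¹ * Bd) :=
          mul_le_mul_of_nonneg_left (mul_le_mul_of_nonneg_right h5 hBd0) (by positivity)
  have h6 : ∑ y ∈ T, ∑ B ∈ bk X u, ∑ r ∈ Rs y,
        ‖MTs (aW φ γ q g₀ δ (Φ.w j)) (E * y) B σ r t₀‖ ^ 2 ≤
      Cφ ^ 2 * iA A' * ∑ y ∈ T, ∑ B ∈ bk X u, ∑ r ∈ Rs y, ∫ s, ew A' η s * f y B r s := by
    rw [Finset.mul_sum]
    refine Finset.sum_le_sum fun y _ => ?_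
    rw [Finset.mul_sum]
    refine Finset.sum_le_sum fun B hB => ?_
    rw [Finset.mul_sum]
    exact Finset.sum_le_sum fun r _ => (key y B hB r).2
  refine h6.trans ?_
  rw [e1]
  calc Cφ ^ 2 * iA A' * ∫ s, ew A' η s * ∑ y ∈ T, ∑ B ∈ bk X u, ∑ r ∈ Rs y, f y B r s
      ≤ Cφ ^ 2 * iA A' * ((η * (η ^ A')⁻¹ * (1 + |t₀|) ^ A') * (iA 2 * Bd)) :=
        mul_le_mul_of_nonneg_left h2 hp0
    _ ≤ Cφ ^ 2 * iA A' * ((η * (η ^ A')⁻¹ * (1 + |t₀|) ^ A') * ((iA 2 + 1) * Bd)) := by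
        refine mul_le_mul_of_nonneg_left ?_ hp0
        refine mul_le_mul_of_nonneg_left ?_ (by positivity)
        exact mul_le_mul_of_nonneg_right (by linarith) hBd0
    _ = _ := by rw [hBd]; ring

end Crest.Agent.R017.MoL106
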