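import Crest.Agent.R017.MoL2_106
import Crest.Agent.R017.CubeL_298

/-!
# Row 17, E2: list form of the error functionals, part 3 (helper106): the direct side

* `VG_cube_le` : complete families of Gauss sums from the cube-free ones
* `MT_list` : the direct side of `E2core` for lists of pieces
-/

set_option autoImplicit false
set_option maxHeartbeats 400000

noncomputable section

open Complex Finset
open scoped ComplexConjugate

namespace Crest.Agent.R017.MoL106

open Crest.Agent.R012 Crest.Agent.R012.Eis Crest.Agent.R012.LS2 Crest.Agent.R012.Gauss880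
open Crest.Agent.R012.Div277 Crest.Agent.R012.Weight600
open Crest.Agent.R017.CM106 Crest.Agent.R017.FE47 Crest.Agent.R017.End699
open Crest.Agent.R017.B770
open Crest.Agent.R017.Prov71
open Crest.Agent.R017.HP842 (UT Pc pc KS sqc Kg uv alL al ssub norm_uv_le pc_support sq_nat_pc)
open Crest.Agent.R017.HSep813 (gw norm_gw_le)
open Crest.Agent.R017.TPOk571 (IP FP SD SD_w SD_len SD_ht sd_ok AC relU)
open Crest.Agent.R017.TP320 (VC VG VC_mono VC_nonneg Fam)
open Crest.Agent.R017.Rough381 (VF VF_nonneg)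
open Crest.Agent.R017.Win813 (iA iA_nonneg WK)
open Crest.Agent.R017.XRG106
open Crest.Agent.R017.MoF106

/-- the part prime to `λ` -/
lemma exists_core {m : Eis} (hm : m ≠ 0) : ∃ m₁ : Eis, IsPrim m₁ ∧ nm m₁ ≤ nm m ∧
    ∀ n, IsPrim n → (IsCoprime n m ↔ IsCoprime n m₁) := by
  obtain ⟨e, i, j, k, he, -, hk, rfl⟩ := Char766.exists_unit_lam_prim hm
  refine ⟨k, hk, ?_, fun n hn => ⟨fun h => h.of_mul_right_right, fun h => ?_⟩⟩
  · rw [nm_mul]
    exact Nat.le_mul_of_pos_left _ (nm_pos.2 (left_ne_zero_of_mul hm))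
  · have he' : IsUnit e := by
      rcases he with rfl | rfl
      · exact isUnit_one
      · exact isUnit_one.neg
    have h1 : IsUnit (e * w ^ i) := he'.mul (isUnit_w.pow i)
    have h2 : IsCoprime n (e * w ^ i) := isCoprime_one_right.of_isCoprime_of_dvd_right
      (isUnit_iff_dvd_one.1 h1)
    exact (h2.mul_right hn.isCoprime_lam.pow_right).mul_right h

lemma sq_prin {q m m₁ : Eis} (hm : ∀ n, IsPrim n → (IsCoprime n m ↔ IsCoprime n m₁))
    (w : Eis → ℂ) (n : Eis) :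
    TP320.sq q w n * prin0 m n = TP320.sq (q * m₁) w n := by
  classical
  unfold TP320.sq prin0
  by_cases h1 : IsPrim n ∧ Squarefree n ∧ IsCoprime n q
  · rw [if_pos h1]
    by_cases h2 : IsCoprime n m
    · rw [if_pos h2, if_pos ⟨h1.1, h1.2.1, h1.2.2.mul_right ((hm n h1.1).1 h2)⟩, mul_one]
    · rw [if_neg h2, if_neg, mul_zero]
      rintro ⟨h3, h4, h5⟩
      exact h2 ((hm n h3).2 h5.of_mul_right_right)
  · rw [if_neg h1, zero_mul, if_neg]
    rintro ⟨h3, h4, h5⟩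
    exact h1 ⟨h3, h4, h5.of_mul_right_left⟩

/-- **complete families of Gauss sums from the cube-free ones** -/
theorem VG_cube_le {q : Eis} {w : Eis → ℂ} {Λ M : ℝ} (hΛ : 1 ≤ Λ) (hM : 0 ≤ M)
    (h : ∀ c : Eis, IsPrim c → ∀ y : ℝ, 1 ≤ y → (nm c : ℝ) ≤ y → y ^ 3 ≤ Λ →
      VF (Λ / y ^ 3) (TP320.sq (q * c) w) ≤ M / y) :
    VG Λ (TP320.sq q w) ≤ 100 * (1 + Real.log Λ) * M := by
  classical
  have hΛ0 : 0 ≤ Λ := by linarith
  choose cr hcr1 hcr2 hcr3 using fun m : {m : Eis // m ≠ 0} => exists_core m.2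
  set c' : Eis → Eis := fun m => if hm : m ≠ 0 then cr ⟨m, hm⟩ else 1 with hc'
  have hc1 : ∀ m, m ≠ 0 → IsPrim (c' m) ∧ nm (c' m) ≤ nm m ∧
      ∀ n, IsPrim n → (IsCoprime n m ↔ IsCoprime n (c' m)) := by
    intro m hm
    have e : c' m = cr ⟨m, hm⟩ := by rw [hc']; simp only [dif_pos hm]
    rw [e]
    exact ⟨hcr1 ⟨m, hm⟩, hcr2 ⟨m, hm⟩, hcr3 ⟨m, hm⟩⟩
  have h1 := Lbc298.cube_le_f hΛ0 (fun _ => True) (fun _ _ _ => trivial)
    (F := fun k => ‖TG (TP320.sq q w) k‖ ^ 2)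
    (G := fun m k => ‖TG (TP320.sq (q * c' m) w) k‖ ^ 2) (fun _ _ => sq_nonneg _) (by
      intro k hk _
      refine le_of_eq ?_
      congr 2
      unfold CM106.TG
      refine tsum_congr fun n => ?_
      have hm0 := Lbc298.m_ne_zero hk
      rw [← sq_prin (hc1 _ hm0).2.2 w n]
      by_cases hn : IsPrim n
      · have e1 : sy k n = prin0 (Lbc298.dc k).m n * sy (Lbc298.red k) n := by
          conv_lhs => rw [Lbc298.red_mul hk]
          exact Lbc298.sy_mul_cube' hn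
        rw [e1]
        unfold prin0
        split_ifs <;> simp
      · have e2 : TP320.sq q w n = 0 := by
          unfold TP320.sq
          rw [if_neg (fun h => hn h.1)]
        rw [e2]; ring)
  have e0 : VG Λ (TP320.sq q w) = ∑ k ∈ (bl Λ).filter (fun _ => True),
      ‖TG (TP320.sq q w) k‖ ^ 2 := by
    unfold VG
    rw [Finset.filter_true]
  rw [e0]
  refine h1.trans ?_
  set Y : ℝ := Λ ^ ((1 : ℝ) / 3) with hY
  have hY0 : 0 ≤ Y := by positivity
  have hY1 : 1 ≤ Y := Real.one_le_rpow hΛ (by norm_num)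
  have hY3 : Y ^ 3 = Λ := by
    rw [hY, ← Real.rpow_natCast, ← Real.rpow_mul hΛ0]; norm_num
  have h2 : ∀ m ∈ bl Y, ∑ k ∈ (bl (Λ / (nm m : ℝ) ^ 3)).filter
      (fun k => Lbc298.CubeFree k ∧ True), ‖TG (TP320.sq (q * c' m) w) k‖ ^ 2 ≤
      M * (1 / (nm m : ℝ)) := by
    intro m hm
    rw [mem_bl hY0] at hm
    have hm1 : (1 : ℝ) ≤ nm m := by exact_mod_cast nm_pos.2 hm.1
    have h3 := h (c' m) (hc1 m hm.1).1 (nm m) hm1 (by exact_mod_cast (hc1 m hm.1).2.1) (by
      rw [← hY3]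
      exact pow_le_pow_left₀ (Nat.cast_nonneg _) hm.2 3)
    refine le_trans (le_of_eq ?_) (h3.trans (le_of_eq (by ring)))
    unfold Rough381.VF
    refine Finset.sum_congr ?_ fun _ _ => rfl
    ext k
    simp only [Finset.mem_filter, and_true]
    exact Iff.rfl
  refine (Finset.sum_le_sum h2).trans ?_
  rw [← Finset.mul_sum]
  have h3 : ∑ m ∈ bl Y, (1 / (nm m : ℝ)) ≤ 100 * (1 + Real.log Λ) := by
    have h4 : ∑ m ∈ bl Y, (1 / (nm m : ℝ)) ≤ ∑ x ∈ nz ⌊Y⌋₊, (1 / (nm x : ℝ)) := by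
      refine Finset.sum_le_sum_of_subset_of_nonneg (fun m hm => ?_) fun _ _ _ => by positivity
      rw [mem_bl hY0] at hm
      rw [Div277.mem_nz]
      exact ⟨hm.1, Nat.le_floor hm.2⟩
    refine h4.trans ((Div277.sum_inv_nz_le _).trans ?_)
    refine mul_le_mul_of_nonneg_left ?_ (by norm_num)
    have h5 : Real.log (⌊Y⌋₊ : ℝ) ≤ Real.log Λ := by
      have h6 : (1 : ℝ) ≤ (⌊Y⌋₊ : ℝ) := by
        exact_mod_cast (Nat.one_le_floor_iff Y).2 hY1
      refine Real.log_le_log (by linarith) ((Nat.floor_le hY0).trans ?_)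
      calc Y ≤ Y ^ 3 := le_self_pow₀ hY1 (by norm_num)
        _ = Λ := hY3
    linarith
  calc M * ∑ m ∈ bl Y, (1 / (nm m : ℝ)) ≤ M * (100 * (1 + Real.log Λ)) :=
        mul_le_mul_of_nonneg_left h3 hM
    _ = _ := by ring

end Crest.Agent.R017.MoL106
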