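import Crest.Agent.R017.MoL3_106

/-!
# Row 17, E2: list form of the error functionals, part 4 (helper106): the unmerged form

* `Q4`, `f4` : the quadruples `(y, B, g₂, m)` of a block and their frequencies
* `mo_blkG`, `MoP_blkG`, `MoI_blkG`, `MoC_blkG` : the moment functionals, children through the
  sums over the quadruples
-/

set_option autoImplicit false

noncomputable section

open MeasureTheory Finset Filter
open scoped ComplexConjugate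

namespace Crest.Agent.R017.MoL106

open Crest.Agent.R012
open Eis CharSum852 Gauss880 LS2 CR2 MelSep811
open Crest.Agent.R012.Weight600 (osc norm_osc pw)
open Crest.Agent.R017.CM106 (CS TG FS sub)
open Crest.Agent.R017.TP320 (VC VG Fam SplitAt tw)
open Crest.Agent.R017.E2440 (cT MoF MoH MT ag)
open Crest.Agent.R017.H1401 (pb mem_pb)
open Crest.Agent.R017.X6C180 (IX dl')
open Crest.Agent.R017.PX764 (Gh n6)
open Crest.Agent.R017.Win813 (ew ew_nonneg iA iA_nonneg WK HF HW wn integrable_base integrable_ew)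
open Crest.Agent.R017.MoF106
open Div277 (tau dvs mem_dvs tau_le_rpow)

open Classical in
/-- the quadruples `(y, B, g₂, m)` of a block, `d = g₂² g₃³ m` -/
def Q4 (T : Finset Eis) (X Z : ℝ) (u v : ℕ) (P : Eis → Eis → Eis → Eis → Eis → Prop) (g₃ : Eis) :
    Finset I4 :=
  (T ×ˢ (bk X u) ×ˢ (bk X v) ×ˢ (pb Z)).filter
    (fun x : I4 => x.2.2.1 ^ 2 * g₃ ^ 3 * x.2.2.2 ∈ pb Z ∧
      P x.1 x.2.1 x.2.2.1 g₃ (x.2.2.1 ^ 2 * g₃ ^ 3 * x.2.2.2))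

/-- the frequency of a quadruple -/
def f4 (E τ : Eis) (x : I4) : Eis := E * x.1 * τ * (x.2.2.2 * (x.2.2.1 * x.2.1) ^ 2)

open Classical in
lemma mem_Q4 {T : Finset Eis} {X Z : ℝ} {u v : ℕ} {P : Eis → Eis → Eis → Eis → Eis → Prop}
    {g₃ : Eis} {x : I4} : x ∈ Q4 T X Z u v P g₃ ↔
      (x.1 ∈ T ∧ x.2.1 ∈ bk X u ∧ x.2.2.1 ∈ bk X v ∧ x.2.2.2 ∈ pb Z) ∧
      x.2.2.1 ^ 2 * g₃ ^ 3 * x.2.2.2 ∈ pb Z ∧
      P x.1 x.2.1 x.2.2.1 g₃ (x.2.2.1 ^ 2 * g₃ ^ 3 * x.2.2.2) := by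
  unfold Q4
  rw [Finset.mem_filter, Finset.mem_product, Finset.mem_product, Finset.mem_product]

/-- the hypothesis on the children, unmerged, for the blocks `u`, `v`, `w` -/
def KidG {J : Type} (Φ : Fam J) (R : ℝ) (j : J) (γ g₀ Mq E τ : Eis) (T : Finset Eis) (X Z : ℝ)
    (u v w : ℕ) (P : Eis → Eis → Eis → Eis → Eis → Prop) (M : ℝ) : Prop :=
  ∀ h ∈ dvs γ, ∀ j', Φ.good j' → Φ.dom R j' j →
    Φ.len j' ≤ Φ.len j - (Real.log (nm g₀) + ((u : ℝ) / 3 + v / 3 + w / 3) -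
      Real.log (nm h)) + R →
    Φ.len j - (Real.log (nm g₀) + ((u : ℝ) / 3 + v / 3 + w / 3) -
      Real.log (nm h)) - R - 1 ≤ Φ.len j' →
    ∀ g₃ ∈ bk X w,
    ∑ x ∈ Q4 T X Z u v P g₃, ‖CS (TP320.sq (Mq * g₃) (Φ.w j')) (f4 E τ x)‖ ^ 2 ≤ M * Φ.ht j' ^ 2

open Classical in
/-- **one block of the moment functional**, unmerged -/
theorem mo_blkG {J : Type} {Φ : Fam J} {R A : ℝ} (hΦ : Φ.Ok R A) {ε : ℝ} (hε : 0 < ε) :
    ∃ C : ℝ, 1 ≤ C ∧ ∀ (j : J) (γ q g₀ δ E τ : Eis), IsPrim γ → Squarefree γ → IsPrim g₀ →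
      ∀ (T : Finset Eis) (u v w : ℕ) (X Z t : ℝ), 0 ≤ X → 0 ≤ Z →
      ∀ (P : Eis → Eis → Eis → Eis → Eis → Prop),
      (∀ y B g₂ g₃ d, P y B g₂ g₃ d → g₂ ^ 2 * g₃ ^ 3 ∣ d) →
      ∀ M : ℝ, 0 ≤ M →
      KidG Φ R j γ g₀ (q * (δ * (g₀ * γ))) E τ T X Z u v w P M →
      ∑ y ∈ T, ∑ B ∈ bk X u, ∑ g₂ ∈ bk X v, ∑ g₃ ∈ bk X w,
        ∑ d ∈ (pb Z).filter (P y B g₂ g₃),
        ‖CS (sub (cT (aG γ q g₀ δ (Φ.w j)) (E * y) B τ t) (g₂ * g₃)) d‖ ^ 2 ≤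
        C * (nm γ * (nm g₀ * Real.exp ((u : ℝ) / 3 + v / 3 + w / 3))) ^ ε *
          (1 + |t|) ^ (2 * A) * Real.exp ((w : ℝ) / 3) * M * Φ.ht j ^ 2 := by
  obtain ⟨C₁, hC₁, hs⟩ := mo_split hΦ hε
  refine ⟨C₁ * 200, by nlinarith, ?_⟩
  intro j γ q g₀ δ E τ hγ hγs hg₀ T u v w X Z t hX hZ P hP M hM hyp
  set I := Ib T X Z u v w P with hI
  set α : ℝ := (u : ℝ) / 3 + v / 3 + w / 3 with hα
  have hα0 : 0 ≤ α := by positivity
  have hImem : ∀ x ∈ I, (x.1 ∈ T ∧ x.2.1 ∈ bk X u ∧ x.2.2.1 ∈ bk X v ∧ x.2.2.2.1 ∈ bk X w ∧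
      x.2.2.2.2 ∈ pb Z) ∧ x.2.2.1 ^ 2 * x.2.2.2.1 ^ 3 * x.2.2.2.2 ∈ pb Z ∧
      P x.1 x.2.1 x.2.2.1 x.2.2.2.1 (x.2.2.1 ^ 2 * x.2.2.2.1 ^ 3 * x.2.2.2.2) := by
    intro x hx
    rw [hI] at hx
    unfold Ib at hx
    rw [Finset.mem_filter, Finset.mem_product, Finset.mem_product, Finset.mem_product,
      Finset.mem_product] at hx
    exact hx
  have step1 : ∑ y ∈ T, ∑ B ∈ bk X u, ∑ g₂ ∈ bk X v, ∑ g₃ ∈ bk X w,
        ∑ d ∈ (pb Z).filter (P y B g₂ g₃),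
        ‖CS (sub (cT (aG γ q g₀ δ (Φ.w j)) (E * y) B τ t) (g₂ * g₃)) d‖ ^ 2 ≤
      ∑ x ∈ I, ‖CS (sub (cT (aG γ q g₀ δ (Φ.w j)) (E * x.1) x.2.1 τ t) (x.2.2.1 * x.2.2.2.1))
        (x.2.2.1 ^ 2 * x.2.2.2.1 ^ 3 * x.2.2.2.2)‖ ^ 2 := by
    rw [hI]
    unfold Ib
    rw [Finset.sum_filter, Finset.sum_product]
    refine Finset.sum_le_sum fun y _ => ?_
    rw [Finset.sum_product]
    refine Finset.sum_le_sum fun B _ => ?_
    rw [Finset.sum_product]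
    refine Finset.sum_le_sum fun g₂ hg₂ => ?_
    rw [Finset.sum_product]
    refine Finset.sum_le_sum fun g₃ hg₃ => ?_
    refine (sum_d_le hZ (bk_prim hX hg₂) (bk_prim hX hg₃) (hP y B g₂ g₃)
      (fun d => ‖CS (sub (cT (aG γ q g₀ δ (Φ.w j)) (E * y) B τ t) (g₂ * g₃)) d‖ ^ 2)
      fun _ => sq_nonneg _).trans ?_
    rw [Finset.sum_filter]
  refine step1.trans ?_
  have hBlk : Blk α I := by
    have hlog : ∀ x ∈ I, Real.log (nm (x.2.1 * (x.2.2.1 * x.2.2.2.1)) : ℝ) =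
        Real.log (nm x.2.1) + (Real.log (nm x.2.2.1) + Real.log (nm x.2.2.2.1)) := by
      intro x hx
      obtain ⟨⟨-, h1, h2, h3, -⟩, -⟩ := hImem x hx
      have e : ∀ n : Eis, IsPrim n → (nm n : ℝ) ≠ 0 := fun n hn => by
        exact_mod_cast (nm_pos.2 hn.ne_zero).ne'
      rw [nm_mul, nm_mul, Nat.cast_mul, Nat.cast_mul, Real.log_mul (e _ (bk_prim hX h1))
        (mul_ne_zero (e _ (bk_prim hX h2)) (e _ (bk_prim hX h3))),
        Real.log_mul (e _ (bk_prim hX h2)) (e _ (bk_prim hX h3))]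
    refine ⟨fun x hx => bk_prim hX (hImem x hx).1.2.1,
      fun x hx => bk_prim hX (hImem x hx).1.2.2.1,
      fun x hx => bk_prim hX (hImem x hx).1.2.2.2.1, fun x hx => ?_, fun x hx => ?_⟩
    · rw [hlog x hx]
      obtain ⟨⟨-, h1, h2, h3, -⟩, -⟩ := hImem x hx
      have a1 := bk_lo hX h1
      have a2 := bk_lo hX h2
      have a3 := bk_lo hX h3
      rw [hα]; linarith
    · rw [hlog x hx]
      obtain ⟨⟨-, h1, h2, h3, -⟩, -⟩ := hImem x hx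
      have a1 := bk_hi hX h1
      have a2 := bk_hi hX h2
      have a3 := bk_hi hX h3
      rw [hα]; linarith
  have h2 := hs j γ q g₀ δ E τ hγ hγs hg₀ α t I hα0 hBlk (200 * Real.exp ((w : ℝ) / 3) * M)
    (by positivity) ?_
  · refine h2.trans (le_of_eq ?_)
    ring
  · intro h hh j' hg hd hl hl2
    set F : Eis → I4 → ℝ := fun g₃ x =>
      ‖CS (TP320.sq (q * (δ * (g₀ * γ)) * g₃) (Φ.w j')) (f4 E τ x)‖ ^ 2 with hF
    have e2 : ∑ x ∈ I, ‖CS (TP320.sq (q * (δ * (g₀ * γ)) * x.2.2.2.1) (Φ.w j'))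
          (fr (E * x.1 * τ) x.2)‖ ^ 2 =
        ∑ g₃ ∈ bk X w, ∑ x ∈ I.filter (fun x => x.2.2.2.1 = g₃),
          F g₃ (x.1, x.2.1, x.2.2.1, x.2.2.2.2) := by
      rw [← Finset.sum_fiberwise_of_maps_to (g := fun x : I5 => x.2.2.2.1)
        (fun x hx => (hImem x hx).1.2.2.2.1)]
      refine Finset.sum_congr rfl fun g₃ _ => ?_
      refine Finset.sum_congr rfl fun x hx => ?_
      rw [Finset.mem_filter] at hx
      rw [hF]
      simp only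
      rw [hx.2]
      rfl
    have e3 : ∀ g₃ ∈ bk X w, ∑ x ∈ I.filter (fun x => x.2.2.2.1 = g₃),
        F g₃ (x.1, x.2.1, x.2.2.1, x.2.2.2.2) ≤ M * Φ.ht j' ^ 2 := by
      intro g₃ hg₃
      have hinj : ∀ x ∈ I.filter (fun x => x.2.2.2.1 = g₃),
          ∀ y ∈ I.filter (fun x => x.2.2.2.1 = g₃),
          (x.1, x.2.1, x.2.2.1, x.2.2.2.2) = (y.1, y.2.1, y.2.2.1, y.2.2.2.2) → x = y := by
        intro x hx y hy h
        rw [Finset.mem_filter] at hx hy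
        simp only [Prod.mk.injEq] at h
        refine Prod.ext h.1 (Prod.ext h.2.1 (Prod.ext h.2.2.1 (Prod.ext ?_ h.2.2.2)))
        rw [hx.2, hy.2]
      rw [← Finset.sum_image (f := F g₃)
        (g := fun x : I5 => ((x.1, x.2.1, x.2.2.1, x.2.2.2.2) : I4))
        (fun x hx y hy h => hinj x hx y hy h)]
      refine le_trans (Finset.sum_le_sum_of_subset_of_nonneg (fun p hp => ?_)
        fun _ _ _ => sq_nonneg _) (hyp h hh j' hg hd hl hl2 g₃ hg₃)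
      rw [Finset.mem_image] at hp
      obtain ⟨x, hx, rfl⟩ := hp
      rw [Finset.mem_filter] at hx
      obtain ⟨⟨h0, h1, h2, h3, h4⟩, h5, h6⟩ := hImem x hx.1
      rw [mem_Q4]
      rw [← hx.2]
      exact ⟨⟨h0, h1, h2, h4⟩, h5, h6⟩
    rw [e2]
    refine (Finset.sum_le_sum e3).trans ?_
    rw [Finset.sum_const, nsmul_eq_mul]
    have h7 := card_bk hX w
    have h8 : 0 ≤ M * Φ.ht j' ^ 2 := by positivity
    calc ((bk X w).card : ℝ) * (M * Φ.ht j' ^ 2)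
        ≤ (200 * Real.exp ((w : ℝ) / 3)) * (M * Φ.ht j' ^ 2) :=
          mul_le_mul_of_nonneg_right h7 h8
      _ = _ := by ring

end Crest.Agent.R017.MoL106
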