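import Crest.Agent.R017.MoL4_106

/-!
# Row 17, E2: list form of the error functionals, part 5 (helper106): the unmerged form

* `MoP_blkG`, `MoI_blkG`, `MoC_blkG` : the moment functionals, children through the
  sums over the quadruples
-/

set_option autoImplicit false

noncomputable section

open MeasureTheory Finset Filter
open scoped ComplexConjugate

namespace Crest.Agent.R017.MoL106

open Crest.Agent.R012
open Eis CharSum852 Gauss880 LS2 CR2 MelSep811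
open Crest.Agent.R012.Weight600 (osc norm_osc pw)
open Crest.Agent.R017.CM106 (CS TG FS sub)
open Crest.Agent.R017.TP320 (VC VG Fam SplitAt tw)
open Crest.Agent.R017.E2440 (cT MoF MoH MT ag)
open Crest.Agent.R017.H1401 (pb mem_pb)
open Crest.Agent.R017.X6C180 (IX dl')
open Crest.Agent.R017.PX764 (Gh n6)
open Crest.Agent.R017.Win813 (ew ew_nonneg iA iA_nonneg WK HF HW wn integrable_base integrable_ew)
open Crest.Agent.R017.MoF106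
open Div277 (tau dvs mem_dvs tau_le_rpow)

open Classical in
/-- **the moment functional, one block of `B`**, unmerged -/
theorem MoP_blkG {J : Type} {Φ : Fam J} {R A : ℝ} (hΦ : Φ.Ok R A) {ε : ℝ} (hε : 0 < ε) :
    ∃ C : ℝ, 1 ≤ C ∧ ∀ (j : J) (γ q g₀ δ E τ : Eis), IsPrim γ → Squarefree γ → IsPrim g₀ →
      ∀ (T : Finset Eis) (u : ℕ) (X Z t X0 : ℝ), 1 ≤ X → 1 ≤ Z → X ≤ X0 → (nm γ : ℝ) ≤ X0 →
      (nm g₀ : ℝ) ≤ X0 →
      ∀ (W : Eis → Eis → ℝ) (Wb Mf : ℕ → ℕ → ℝ),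
      (∀ g₂ ∈ S X, ∀ g₃ ∈ S X, 0 ≤ W g₂ g₃) →
      (∀ v < NX X, ∀ w < NX X, ∀ g₂ ∈ bk X v, ∀ g₃ ∈ bk X w, W g₂ g₃ ≤ Wb v w) →
      (∀ v < NX X, ∀ w < NX X, 0 ≤ Wb v w) → (∀ v < NX X, ∀ w < NX X, 0 ≤ Mf v w) →
      ∀ (P : Eis → Eis → Eis → Eis → Eis → Prop),
      (∀ y B g₂ g₃ d, P y B g₂ g₃ d → g₂ ^ 2 * g₃ ^ 3 ∣ d) →
      (∀ v < NX X, ∀ w < NX X, 0 < Wb v w → KidG Φ R j γ g₀ (q * (δ * (g₀ * γ))) E τ T X Z u v w
        P (Mf v w)) →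
      ∑ y ∈ T, ∑ B ∈ bk X u, MoP (aG γ q g₀ δ (Φ.w j)) (E * y) B τ X t Z W (P y B) ≤
        C * X0 ^ ε * (1 + |t|) ^ (2 * A) * Φ.ht j ^ 2 *
          ∑ v ∈ Finset.range (NX X), ∑ w ∈ Finset.range (NX X),
            Wb v w * Real.exp ((w : ℝ) / 3) * Mf v w := by
  have hε5 : 0 < ε / 5 := by linarith
  obtain ⟨C, hC, hs⟩ := mo_blkG hΦ hε5
  refine ⟨C, hC, ?_⟩
  intro j γ q g₀ δ E τ hγ hγs hg₀ T u X Z t X0 hX hZ hXX hγX hgX W Wb Mf hW hWb hWb0 hMf P hP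
    hKid
  have hC0 : 0 ≤ C := by linarith
  have hX0 : 0 ≤ X := by linarith
  have hZ0 : 0 ≤ Z := by linarith
  have hX01 : 1 ≤ X0 := by linarith
  have hgp : (1 : ℝ) ≤ nm g₀ := by exact_mod_cast nm_pos.2 hg₀.ne_zero
  have hγp : (1 : ℝ) ≤ nm γ := by exact_mod_cast nm_pos.2 hγ.ne_zero
  have ht0 : 0 ≤ (1 + |t|) ^ (2 * A) := by positivity
  have hht0 : 0 ≤ Φ.ht j ^ 2 := sq_nonneg _
  have hR0 : 0 ≤ ∑ v ∈ Finset.range (NX X), ∑ w ∈ Finset.range (NX X),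
      Wb v w * Real.exp ((w : ℝ) / 3) * Mf v w := by
    refine Finset.sum_nonneg fun v hv => Finset.sum_nonneg fun w hw => ?_
    rw [Finset.mem_range] at hv hw
    exact mul_nonneg (mul_nonneg (hWb0 v hv w hw) (Real.exp_pos _).le) (hMf v hv w hw)
  by_cases hu : u < NX X
  swap
  · have : bk X u = ∅ := bk_empty hX (by unfold NX at hu; omega)
    rw [this]
    simp only [Finset.sum_empty, Finset.sum_const_zero]
    positivity
  -- decomposition into blocks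
  set f : Eis → Eis → Eis → Eis → ℝ := fun y B g₂ g₃ => ∑ d ∈ (pb Z).filter (P y B g₂ g₃),
    ‖CS (sub (cT (aG γ q g₀ δ (Φ.w j)) (E * y) B τ t) (g₂ * g₃)) d‖ ^ 2 with hf
  have hf0 : ∀ y B g₂ g₃, 0 ≤ f y B g₂ g₃ := fun _ _ _ _ =>
    Finset.sum_nonneg fun _ _ => sq_nonneg _
  have step1 : ∀ y B, MoP (aG γ q g₀ δ (Φ.w j)) (E * y) B τ X t Z W (P y B) ≤
      ∑ v ∈ Finset.range (NX X), ∑ w ∈ Finset.range (NX X),
        Wb v w * ∑ g₂ ∈ bk X v, ∑ g₃ ∈ bk X w, f y B g₂ g₃ := by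
    intro y B
    unfold MoP
    rw [sum_bk hX]
    refine Finset.sum_le_sum fun v hv => ?_
    have e1 : ∀ g₂ : Eis, ∑ g₃ ∈ S X, W g₂ g₃ * f y B g₂ g₃ =
        ∑ w ∈ Finset.range (NX X), ∑ g₃ ∈ bk X w, W g₂ g₃ * f y B g₂ g₃ :=
      fun g₂ => sum_bk hX _
    show ∑ g₂ ∈ bk X v, ∑ g₃ ∈ S X, W g₂ g₃ * f y B g₂ g₃ ≤ _
    rw [Finset.sum_congr rfl fun g₂ _ => e1 g₂, Finset.sum_comm]
    refine Finset.sum_le_sum fun w hw => ?_
    rw [Finset.mul_sum]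
    refine Finset.sum_le_sum fun g₂ hg₂ => ?_
    rw [Finset.mul_sum]
    refine Finset.sum_le_sum fun g₃ hg₃ => ?_
    exact mul_le_mul_of_nonneg_right
      (hWb v (Finset.mem_range.1 hv) w (Finset.mem_range.1 hw) g₂ hg₂ g₃ hg₃) (hf0 _ _ _ _)
  have step2 : ∀ v < NX X, ∀ w < NX X, 0 < Wb v w →
      ∑ y ∈ T, ∑ B ∈ bk X u, ∑ g₂ ∈ bk X v, ∑ g₃ ∈ bk X w, f y B g₂ g₃ ≤
        C * X0 ^ ε * (1 + |t|) ^ (2 * A) * Φ.ht j ^ 2 *
          (Real.exp ((w : ℝ) / 3) * Mf v w) := by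
    intro v hv w hw hWp
    have h1 := hs j γ q g₀ δ E τ hγ hγs hg₀ T u v w X Z t hX0 hZ0 P hP (Mf v w) (hMf v hv w hw)
      (hKid v hv w hw hWp)
    refine h1.trans ?_
    have h4 : (nm γ : ℝ) * (nm g₀ * Real.exp ((u : ℝ) / 3 + v / 3 + w / 3)) ≤ X0 ^ (5 : ℝ) := by
      have e1 : Real.exp ((u : ℝ) / 3 + v / 3 + w / 3) ≤ X ^ 3 := by
        rw [Real.exp_add, Real.exp_add]
        calc Real.exp ((u : ℝ) / 3) * Real.exp ((v : ℝ) / 3) * Real.exp ((w : ℝ) / 3)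
            ≤ X * X * X := by
              gcongr
              · exact exp_third_le hX hu
              · exact exp_third_le hX hv
              · exact exp_third_le hX hw
          _ = X ^ 3 := by ring
      have e4 : X0 ^ (5 : ℝ) = X0 ^ 5 := by
        rw [← Real.rpow_natCast]; norm_num
      rw [e4]
      calc (nm γ : ℝ) * (nm g₀ * Real.exp ((u : ℝ) / 3 + v / 3 + w / 3))
          ≤ X0 * (X0 * X0 ^ 3) := by
            have : X ^ 3 ≤ X0 ^ 3 := pow_le_pow_left₀ hX0 hXX 3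
            gcongr
            exact e1.trans this
        _ = X0 ^ 5 := by ring
    have h5 : ((nm γ : ℝ) * (nm g₀ * Real.exp ((u : ℝ) / 3 + v / 3 + w / 3))) ^ (ε / 5) ≤
        X0 ^ ε := by
      refine (Real.rpow_le_rpow (by positivity) h4 hε5.le).trans (le_of_eq ?_)
      rw [← Real.rpow_mul (by linarith)]
      congr 1
      ring
    calc C * ((nm γ : ℝ) * (nm g₀ * Real.exp ((u : ℝ) / 3 + v / 3 + w / 3))) ^ (ε / 5) *
          (1 + |t|) ^ (2 * A) * Real.exp ((w : ℝ) / 3) * Mf v w * Φ.ht j ^ 2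
        = (C * (1 + |t|) ^ (2 * A) * Real.exp ((w : ℝ) / 3) * Mf v w * Φ.ht j ^ 2) *
          ((nm γ : ℝ) * (nm g₀ * Real.exp ((u : ℝ) / 3 + v / 3 + w / 3))) ^ (ε / 5) := by ring
      _ ≤ (C * (1 + |t|) ^ (2 * A) * Real.exp ((w : ℝ) / 3) * Mf v w * Φ.ht j ^ 2) * X0 ^ ε := by
          refine mul_le_mul_of_nonneg_left h5 ?_
          have := hMf v hv w hw
          positivity
      _ = _ := by ring
  calc ∑ y ∈ T, ∑ B ∈ bk X u, MoP (aG γ q g₀ δ (Φ.w j)) (E * y) B τ X t Z W (P y B)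
      ≤ ∑ y ∈ T, ∑ B ∈ bk X u, ∑ v ∈ Finset.range (NX X), ∑ w ∈ Finset.range (NX X),
        Wb v w * ∑ g₂ ∈ bk X v, ∑ g₃ ∈ bk X w, f y B g₂ g₃ :=
        Finset.sum_le_sum fun y _ => Finset.sum_le_sum fun B _ => step1 y B
    _ = ∑ v ∈ Finset.range (NX X), ∑ w ∈ Finset.range (NX X),
        Wb v w * ∑ y ∈ T, ∑ B ∈ bk X u, ∑ g₂ ∈ bk X v, ∑ g₃ ∈ bk X w, f y B g₂ g₃ := by
        have e1 : ∀ y ∈ T, ∑ B ∈ bk X u, ∑ v ∈ Finset.range (NX X),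
            ∑ w ∈ Finset.range (NX X),
            Wb v w * ∑ g₂ ∈ bk X v, ∑ g₃ ∈ bk X w, f y B g₂ g₃ =
            ∑ v ∈ Finset.range (NX X), ∑ w ∈ Finset.range (NX X),
            Wb v w * ∑ B ∈ bk X u, ∑ g₂ ∈ bk X v, ∑ g₃ ∈ bk X w, f y B g₂ g₃ := by
          intro y _
          rw [Finset.sum_comm]
          refine Finset.sum_congr rfl fun v _ => ?_
          rw [Finset.sum_comm]
          exact Finset.sum_congr rfl fun w _ => by rw [Finset.mul_sum]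
        rw [Finset.sum_congr rfl e1, Finset.sum_comm]
        refine Finset.sum_congr rfl fun v _ => ?_
        rw [Finset.sum_comm]
        exact Finset.sum_congr rfl fun w _ => by rw [Finset.mul_sum]
    _ ≤ ∑ v ∈ Finset.range (NX X), ∑ w ∈ Finset.range (NX X),
        Wb v w * (C * X0 ^ ε * (1 + |t|) ^ (2 * A) * Φ.ht j ^ 2 *
          (Real.exp ((w : ℝ) / 3) * Mf v w)) := by
        refine Finset.sum_le_sum fun v hv => Finset.sum_le_sum fun w hw => ?_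
        rw [Finset.mem_range] at hv hw
        rcases (hWb0 v hv w hw).eq_or_lt with h0 | h0
        · rw [← h0, zero_mul, zero_mul]
        · exact mul_le_mul_of_nonneg_left (step2 v hv w hw h0) h0.le
    _ = _ := by
        rw [Finset.mul_sum]
        refine Finset.sum_congr rfl fun v _ => ?_
        rw [Finset.mul_sum]
        exact Finset.sum_congr rfl fun w _ => by ring

open Classical in
/-- **the mean in the height, one block of `B`**, unmerged -/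
theorem MoI_blkG {J : Type} {Φ : Fam J} {R A : ℝ} (hΦ : Φ.Ok R A) {ε : ℝ} (hε : 0 < ε) :
    ∃ C : ℝ, 1 ≤ C ∧ ∀ (A' : ℕ), 2 * A + 2 ≤ A' → ∀ (j : J) (γ q g₀ δ E τ : Eis),
      IsPrim γ → Squarefree γ → IsPrim g₀ →
      ∀ (T : Finset Eis) (u : ℕ) (X Z X0 : ℝ), 1 ≤ X → 1 ≤ Z → X ≤ X0 → (nm γ : ℝ) ≤ X0 →
      (nm g₀ : ℝ) ≤ X0 →
      ∀ (W : Eis → Eis → ℝ) (Wb Mf : ℕ → ℕ → ℝ),
      (∀ g₂ ∈ S X, ∀ g₃ ∈ S X, 0 ≤ W g₂ g₃) →
      (∀ v < NX X, ∀ w < NX X, ∀ g₂ ∈ bk X v, ∀ g₃ ∈ bk X w, W g₂ g₃ ≤ Wb v w) →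
      (∀ v < NX X, ∀ w < NX X, 0 ≤ Wb v w) → (∀ v < NX X, ∀ w < NX X, 0 ≤ Mf v w) →
      ∀ (P : Eis → Eis → Eis → Eis → Eis → Prop),
      (∀ y B g₂ g₃ d, P y B g₂ g₃ d → g₂ ^ 2 * g₃ ^ 3 ∣ d) →
      (∀ v < NX X, ∀ w < NX X, 0 < Wb v w → KidG Φ R j γ g₀ (q * (δ * (g₀ * γ))) E τ T X Z u v w
        P (Mf v w)) →
      ∑ y ∈ T, ∑ B ∈ bk X u, MoI A' (aG γ q g₀ δ (Φ.w j)) (E * y) B τ X Z W (P y B) ≤
        C * X0 ^ ε * Φ.ht j ^ 2 *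
          ∑ v ∈ Finset.range (NX X), ∑ w ∈ Finset.range (NX X),
            Wb v w * Real.exp ((w : ℝ) / 3) * Mf v w := by
  obtain ⟨C, hC, hs⟩ := MoP_blkG hΦ hε
  refine ⟨(iA 2 + 1) * C, by have := iA_nonneg 2; nlinarith, ?_⟩
  intro A' hA' j γ q g₀ δ E τ hγ hγs hg₀ T u X Z X0 hX hZ hXX hγX hgX W Wb Mf hW hWb hWb0 hMf
    P hP hKid
  have hX01 : 1 ≤ X0 := by linarith
  have hC0 : 0 ≤ C := by linarith
  have hX0 : 0 ≤ X := by linarith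
  have hA0 := hΦ.A0
  have hA2 : 2 ≤ A' := by
    have : (2 : ℝ) ≤ A' := by linarith
    exact_mod_cast this
  set c : ℝ := C * X0 ^ ε * Φ.ht j ^ 2 *
          ∑ v ∈ Finset.range (NX X), ∑ w ∈ Finset.range (NX X),
            Wb v w * Real.exp ((w : ℝ) / 3) * Mf v w with hc
  have hR0 : 0 ≤ ∑ v ∈ Finset.range (NX X), ∑ w ∈ Finset.range (NX X),
      Wb v w * Real.exp ((w : ℝ) / 3) * Mf v w := by
    refine Finset.sum_nonneg fun v hv => Finset.sum_nonneg fun w hw => ?_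
    rw [Finset.mem_range] at hv hw
    exact mul_nonneg (mul_nonneg (hWb0 v hv w hw) (Real.exp_pos _).le) (hMf v hv w hw)
  have hc0 : 0 ≤ c := by rw [hc]; positivity
  have hR := hΦ.R0
  have hw1 : ∀ n, Φ.w j n ≠ 0 → (nm n : ℝ) ≤ Real.exp (Φ.len j + R) := by
    intro b hb
    have hb0 : (0 : ℝ) < nm b := by exact_mod_cast nm_pos.2 (hΦ.prim j b hb).ne_zero
    rw [← Real.log_le_iff_le_exp hb0]
    have := (abs_le.1 (hΦ.supp j b hb)).2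
    linarith
  have h1 := sum_MoI_le (γ := γ) (q := q) (δ := δ) (E := E) (τ := τ) (Z := Z) (P := P)
    (A := A') (a := 2 * A) hc0 hA' hA2 (Real.exp_pos _).le hw1 hX0 hγ hγs hg₀ T (bk X u)
    (fun B hB => bk_prim hX0 hB) hW (fun v => by
      refine (hs j γ q g₀ δ E τ hγ hγs hg₀ T u X Z v X0 hX hZ hXX hγX hgX W Wb Mf hW hWb hWb0
        hMf P hP hKid).trans (le_of_eq ?_)
      rw [hc]; ring)
  refine h1.trans ?_
  have : iA 2 * c ≤ (iA 2 + 1) * c := mul_le_mul_of_nonneg_right (by linarith) hc0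
  refine this.trans (le_of_eq ?_)
  rw [hc]; ring

open Classical in
/-- **`MoC` summed over a block**, unmerged -/
theorem MoC_blkG {J : Type} {Φ : Fam J} {R A : ℝ} (hΦ : Φ.Ok R A) (σ : Eis)
    {ε : ℝ} (hε : 0 < ε) :
    ∃ C : ℝ, 1 ≤ C ∧ ∀ (A' : ℕ), 2 * A + 2 ≤ A' → ∀ (Cφ η : ℝ), 0 < η →
      ∀ (j : J) (γ q g₀ δ E : Eis),
      IsPrim γ → Squarefree γ → IsPrim g₀ →
      ∀ (T : Finset Eis) (u : ℕ) (X Z X0 : ℝ), 1 ≤ X → 1 ≤ Z → X ≤ X0 → (nm γ : ℝ) ≤ X0 →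
      (nm g₀ : ℝ) ≤ X0 →
      ∀ (W : Eis → Eis → ℝ) (Wb Mf : ℕ → ℕ → ℝ),
      (∀ g₂ ∈ S X, ∀ g₃ ∈ S X, 0 ≤ W g₂ g₃) →
      (∀ v < NX X, ∀ w < NX X, ∀ g₂ ∈ bk X v, ∀ g₃ ∈ bk X w, W g₂ g₃ ≤ Wb v w) →
      (∀ v < NX X, ∀ w < NX X, 0 ≤ Wb v w) → (∀ v < NX X, ∀ w < NX X, 0 ≤ Mf v w) →
      ∀ (P : Eis → Eis → IX σ → Eis → Eis → Eis → Prop),
      (∀ y B i g₂ g₃ d, P y B i g₂ g₃ d → g₂ ^ 2 * g₃ ^ 3 ∣ d) →
      (∀ v < NX X, ∀ w < NX X, 0 < Wb v w → ∀ i : IX σ,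
        KidG Φ R j γ g₀ (q * (δ * (g₀ * γ))) E (dl' σ i) T X Z u v w
        (fun y B => P y B i) (Mf v w)) →
      ∑ y ∈ T, ∑ B ∈ bk X u, MoC Cφ η A' σ (aG γ q g₀ δ (Φ.w j)) (E * y) B X Z W (P y B) ≤
        C * (Cφ ^ 2 * iA A' * (η * (η ^ A')⁻¹)) * X0 ^ ε * Φ.ht j ^ 2 *
          ∑ v ∈ Finset.range (NX X), ∑ w ∈ Finset.range (NX X),
            Wb v w * Real.exp ((w : ℝ) / 3) * Mf v w := by
  obtain ⟨C, hC, hs⟩ := MoI_blkG hΦ hε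
  set c : ℝ := (Fintype.card (IX σ) : ℝ) with hc
  have hc1 : 1 ≤ c := by
    rw [hc]
    have : 0 < Fintype.card (IX σ) := Fintype.card_pos_iff.2 ⟨none⟩
    exact_mod_cast this
  refine ⟨C * c, one_le_mul_of_one_le_of_one_le hC hc1, ?_⟩
  intro A' hA' Cφ η hη j γ q g₀ δ E hγ hγs hg₀ T u X Z X0 hX hZ hXX hγX hgX W Wb Mf hW hWb hWb0
    hMf P hP hKid
  have hC0 : 0 ≤ C := by linarith
  have hX01 : 1 ≤ X0 := by linarith
  have hp0 : 0 ≤ Cφ ^ 2 * iA A' * (η * (η ^ A')⁻¹) := by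
    have := iA_nonneg A'; positivity
  set L : ℝ := ∑ v ∈ Finset.range (NX X), ∑ w ∈ Finset.range (NX X),
      Wb v w * Real.exp ((w : ℝ) / 3) * Mf v w with hL
  have hL0 : 0 ≤ L := by
    refine Finset.sum_nonneg fun v hv => Finset.sum_nonneg fun w hw => ?_
    rw [Finset.mem_range] at hv hw
    exact mul_nonneg (mul_nonneg (hWb0 v hv w hw) (Real.exp_pos _).le) (hMf v hv w hw)
  have hX0 : 0 ≤ X := by linarith
  have hZ0 : 0 ≤ Z := by linarith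
  have e1 : ∑ y ∈ T, ∑ B ∈ bk X u, MoC Cφ η A' σ (aG γ q g₀ δ (Φ.w j)) (E * y) B X Z W (P y B) =
      (Cφ ^ 2 * iA A' * (η * (η ^ A')⁻¹)) * ∑ i : IX σ, ∑ y ∈ T, ∑ B ∈ bk X u,
        MoI A' (aG γ q g₀ δ (Φ.w j)) (E * y) B (dl' σ i) X Z W (P y B i) := by
    unfold MoC
    rw [Finset.sum_comm, Finset.mul_sum]
    have : ∀ y ∈ T, ∑ B ∈ bk X u, Cφ ^ 2 * iA A' * (η * (η ^ A')⁻¹) * ∑ i : IX σ,
        MoI A' (aG γ q g₀ δ (Φ.w j)) (E * y) B (dl' σ i) X Z W (P y B i) =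
        ∑ i : IX σ, Cφ ^ 2 * iA A' * (η * (η ^ A')⁻¹) * ∑ B ∈ bk X u,
          MoI A' (aG γ q g₀ δ (Φ.w j)) (E * y) B (dl' σ i) X Z W (P y B i) := by
      intro y _
      rw [← Finset.mul_sum, ← Finset.mul_sum, Finset.sum_comm]
    rw [Finset.sum_comm, Finset.sum_congr rfl this, Finset.sum_comm]
    exact Finset.sum_congr rfl fun i _ => by rw [Finset.mul_sum]
  rw [e1]
  have e2 : ∀ i : IX σ, ∑ y ∈ T, ∑ B ∈ bk X u,
      MoI A' (aG γ q g₀ δ (Φ.w j)) (E * y) B (dl' σ i) X Z W (P y B i) ≤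
      C * X0 ^ ε * Φ.ht j ^ 2 * L := by
    intro i
    exact hs A' hA' j γ q g₀ δ E (dl' σ i) hγ hγs hg₀ T u X Z X0 hX hZ hXX hγX hgX W Wb Mf
      hW hWb hWb0 hMf (fun y B => P y B i) (fun y B => hP y B i)
      (fun v hv w hw h0 => hKid v hv w hw h0 i)
  refine (mul_le_mul_of_nonneg_left (Finset.sum_le_sum fun i _ => e2 i) hp0).trans
    (le_of_eq ?_)
  rw [Finset.sum_const, Finset.card_univ, nsmul_eq_mul]
  rw [hc]
  ring

end Crest.Agent.R017.MoL106
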