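import Crest.Agent.R017.MoL8_106
import Crest.Agent.R017.E2w_440
import Crest.Agent.R017.E2DHv_401

/-!
# Row 17, E2: list form of the error functionals, part 9 (helper106): `Qs` for one index

* `aB` : the windowed, twisted, dilated sequence
* `MwC` : the shell functional
* `Qs_num` : `Qs` through `MwC` and the direct side
-/

set_option autoImplicit false
set_option maxHeartbeats 400000

noncomputable section

open Complex Finset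
open scoped ComplexConjugate

namespace Crest.Agent.R017.MoL106

open Crest.Agent.R012 Crest.Agent.R012.Eis
open Crest.Agent.R012.Mob705 (pdiv mem_pdiv)
open Crest.Agent.R012.LS2 (S mem_S)
open Crest.Agent.R012.Div277 (tau dvs mem_dvs)
open Crest.Agent.R017.CM106 (sub CS FS)
open Crest.Agent.R017.E2440
open Crest.Agent.R017.H1401 (pb mem_pb DD DN WM HW)
open Crest.Agent.R017.X6C180 (Sg fA WF V1 cM n13 IX dl' om' GF)
open Crest.Agent.R017.Win813 (iA iA_nonneg WK)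
open Crest.Agent.R017.RGw813 (tw2 bt)
open Crest.Agent.R017.MoF106

/-- the windowed, twisted, dilated sequence -/
def aB (φ : ℝ → ℝ) (γ q : Eis) (p : ℕ × ℕ) (t₀ : ℝ) (w : Eis → ℂ) : Eis → ℂ := fun n =>
  bt φ (dl γ (TP320.sq (q * γ) w)) p n * Weight600.pw t₀ (nm n)

lemma aB_ne {φ : ℝ → ℝ} {γ q : Eis} {p : ℕ × ℕ} {t₀ : ℝ} {w : Eis → ℂ} {n : Eis}
    (hγ : IsPrim γ) (hγs : Squarefree γ) (h : aB φ γ q p t₀ w n ≠ 0) :
    IsPrim n ∧ Squarefree n ∧ φ (Real.log (nm n)) ≠ 0 := by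
  unfold aB RGw813.bt RGw813.tw2 Win813.wn at h
  have h1 : dl γ (TP320.sq (q * γ) w) n ≠ 0 := by
    intro h0
    apply h
    simp [h0]
  have h2 : φ (Real.log (nm n)) ≠ 0 := by
    intro h0
    apply h
    simp [h0]
  obtain ⟨c, h3, h4⟩ := dl_ne hγ.ne_zero h1
  unfold TP320.sq at h4
  split_ifs at h4 with h5
  · refine ⟨h3 ▸ hγ.mul h5.1, ?_, h2⟩
    rw [h3]
    exact squarefree_mul_iff.mpr ⟨h5.2.2.of_mul_right_right.symm.isRelPrime, hγs, h5.2.1⟩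
  · exact absurd rfl h4

section

variable {φ : ℝ → ℝ} {γ q : Eis} {p : ℕ × ℕ} {t₀ X₁ : ℝ} {w : Eis → ℂ}

lemma aB_le (hγ : IsPrim γ) (hγs : Squarefree γ)
    (hφ : ∀ u, φ u ≠ 0 → |u - Real.log X₁| ≤ 1 / 4) (hX₁ : 0 < X₁) {n : Eis}
    (h : aB φ γ q p t₀ w n ≠ 0) :
    X₁ * Real.exp (1 / 4) / 2 < nm n ∧ (nm n : ℝ) ≤ X₁ * Real.exp (1 / 4) := by
  obtain ⟨h1, h2, h3⟩ := aB_ne hγ hγs h
  have hn : (0 : ℝ) < nm n := by exact_mod_cast nm_pos.2 h1.ne_zero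
  have h4 := abs_le.1 (hφ _ h3)
  have e1 : X₁ = Real.exp (Real.log X₁) := (Real.exp_log hX₁).symm
  constructor
  · have h5 : Real.exp (Real.log X₁ - 1 / 4) ≤ nm n := by
      rw [← Real.le_log_iff_exp_le hn]; linarith [h4.1]
    refine lt_of_lt_of_le ?_ h5
    rw [Real.exp_sub, ← e1, lt_div_iff₀ (Real.exp_pos _)]
    have h6 : Real.exp (1 / 4) * Real.exp (1 / 4) < 2 := by
      rw [← Real.exp_add]
      have h7 : (1 / 4 + 1 / 4 : ℝ) = 1 / 2 := by norm_num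
      rw [h7]
      have h8 : Real.exp (1 / 2 : ℝ) ^ 2 = Real.exp 1 := by
        rw [← Real.exp_nat_mul]; norm_num
      have h9 : Real.exp 1 < 2.7182818286 := Real.exp_one_lt_d9
      have h10 := Real.exp_pos (1 / 2 : ℝ)
      nlinarith
    have h7 : 0 < Real.exp (1 / 4 : ℝ) := Real.exp_pos _
    nlinarith
  · rw [← Real.log_le_log_iff hn (by positivity), Real.log_mul hX₁.ne' (Real.exp_pos _).ne',
      Real.log_exp]
    linarith [h4.2]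

lemma aB_FS (hγ : IsPrim γ) (hγs : Squarefree γ)
    (hφ : ∀ u, φ u ≠ 0 → |u - Real.log X₁| ≤ 1 / 4) (hX₁ : 0 < X₁) :
    FS (aB φ γ q p t₀ w) where
  fin := by
    refine (Finset.finite_toSet (LS2.S (X₁ * Real.exp (1 / 4)))).subset fun n hn => ?_
    rw [Function.mem_support] at hn
    obtain ⟨h1, h2, h3⟩ := aB_ne hγ hγs hn
    rw [Finset.mem_coe, mem_S (by positivity)]
    exact ⟨(aB_le hγ hγs hφ hX₁ hn).2, h1, h2⟩
  prim := fun m hm => (aB_ne hγ hγs hm).1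

end

/-- the shell functional -/
def MwC (Cφ η : ℝ) (A' : ℕ) (σ : Eis) (al : Eis → ℂ) (E ν : Eis) (X R : ℝ) (B : Eis) (j : ℕ) : ℝ :=
  ∑ n ∈ dvs ν, (nm n : ℝ) * MoC Cφ η A' σ al E B X (2 ^ j) (WM R (2 ^ j / (nm n : ℝ) ^ 3))
    (fun _ g₂ g₃ d => DN n g₂ g₃ d ∧ (2 : ℝ) ^ j / 2 < nm d)

lemma MoC_nonneg {Cφ η : ℝ} {A' : ℕ} {σ : Eis} {al : Eis → ℂ} {E B : Eis} {X Z : ℝ}
    {W : Eis → Eis → ℝ} {P : IX σ → Eis → Eis → Eis → Prop} (hη : 0 < η)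
    (hW : ∀ g₂ ∈ S X, ∀ g₃ ∈ S X, 0 ≤ W g₂ g₃) : 0 ≤ MoC Cφ η A' σ al E B X Z W P := by
  unfold MoC
  refine mul_nonneg (by have := iA_nonneg A'; positivity) (Finset.sum_nonneg fun _ _ => ?_)
  exact MoI_nonneg hW

lemma MwC_nonneg {Cφ η : ℝ} {A' : ℕ} {σ : Eis} {al : Eis → ℂ} {E ν : Eis} {X R : ℝ} {B : Eis}
    {j : ℕ} (hη : 0 < η) (hR : 0 ≤ R) : 0 ≤ MwC Cφ η A' σ al E ν X R B j := by
  unfold MwC
  refine Finset.sum_nonneg fun n _ => mul_nonneg (Nat.cast_nonneg _) (MoC_nonneg hη ?_)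
  intro g₂ _ g₃ _
  exact H1401.WM_nonneg hR (by positivity) _ _

set_option maxHeartbeats 2000000 in
open Classical in
/-- **`Qs` for one index** -/
theorem Qs_num {ε : ℝ} (hε : 0 < ε) (a M' A' : ℕ) (hA' : 2 ≤ A') : ∃ (M : ℕ) (C : ℝ), 0 ≤ C ∧
    ∀ P : ℝ, 1 ≤ P → ∀ (Ft : ℝ → ℂ) (cc H : ℝ) (ϑ : ℝ → ℝ) (om : ∀ σ : Eis, IX σ → ℝ → ℂ),
    (∀ σ ∈ C4, KD σ A' M Ft cc H ϑ (om σ)) → H ≤ P →
    ∀ X₁ Y K B0 : ℝ, 0 < X₁ → X₁ * Real.exp (1 / 4) ≤ P → Y ≤ P → 1 ≤ K → K ≤ P →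
    ∀ (Cφ η : ℝ) (φ : ℝ → ℝ), 0 ≤ Cφ → 0 < η → η ≤ 1 → WK Cφ η A' φ →
    (∀ u, φ u ≠ 0 → |u - Real.log X₁| ≤ 1 / 4) →
    ∀ (γ q : Eis) (p : ℕ × ℕ) (t₀ : ℝ) (w : Eis → ℂ), IsPrim γ → Squarefree γ →
    ∀ X₂ : ℝ, 0 ≤ X₂ → (∀ n, w n ≠ 0 → (nm n : ℝ) ≤ X₂) → (∀ n, ‖aB φ γ q p t₀ w n‖ ≤ P ^ a) →
    ∀ δ e : Eis, IsPrim δ → Squarefree δ → (nm δ : ℝ) ≤ P → (nm δ : ℝ) ≤ X₁ * Real.exp (1 / 4) →
    IsPrim e → (nm e : ℝ) ≤ P → ∀ y ∈ prs δ, ∀ A ∈ pdiv y.1, ∀ c ∈ C4, ∀ j₂ : Eis, IsPrim j₂ →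
    1 ≤ RR Y e A c j₂ →
    Qs (aB φ γ q p t₀ w) δ e Y K Ft y A c j₂ ≤ C * cc ^ 2 * P ^ (2 * ε) *
      (RR Y e A c j₂ ^ (-(1 : ℝ) / 3) * (K / nm (e * A * j₂)) ^ ((2 : ℝ) / 3) *
          GK ϑ (RR Y e A c j₂) (X₁ * Real.exp (1 / 4) / nm y.1) (K / nm (e * A * j₂)) B0 y.2
            (NBf (P ^ ε) H (X₁ * Real.exp (1 / 4) / nm y.1) (RR Y e A c j₂)
              (K / nm (e * A * j₂)) B0 y.2)
            (fun B k => (2 / 2 ^ k) * ((1 + |t₀|) ^ A' *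
              MwC Cφ η A' c (aG γ q y.1 δ w) (e * A * j₂ * kw p ^ 2) y.2
                (X₁ * Real.exp (1 / 4) / nm y.1) (RR Y e A c j₂) B k)) +
        (if y.2 = 1 then RR Y e A c j₂ ^ (-(2 : ℝ) / 3) * (K / nm (e * A * j₂)) ^ ((4 : ℝ) / 3) *
          ∑ B ∈ (S (X₁ * Real.exp (1 / 4) / nm y.1)).filter (fun B => B0 < nm B),
            (nm B : ℝ) ^ (-(4 : ℝ) / 3) *
            ∑ ρ ∈ (S (RR Y e A c j₂)).filter
              (fun ρ => IsCoprime ρ y.2 ∧ RR Y e A c j₂ / 2 < nm ρ),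
              ‖MT (ag (aB φ γ q p t₀ w) δ y.1) (e * A * j₂) B c ρ‖ ^ 2
          else 0) + (P ^ M')⁻¹) := by
  obtain ⟨M, C, hC, h⟩ := QsN_le hε a M'
  set ε' : ℝ := ε / (⌈ε⌉₊ + 20) with hε'
  have hε'0 : 0 < ε' := by positivity
  obtain ⟨C1, hC1, hdh⟩ := E2D401.dh_H1v hε'0
  have h10 : (1 : ℝ) ≤ 10 ^ ε' := Real.one_le_rpow (by norm_num) hε'0.le
  refine ⟨M, C * (C1 * 10 ^ ε'), by positivity, ?_⟩
  intro P hP Ft cc H ϑ om hKD hHP X₁ Y K B0 hX₁ hX₁P hYP hK1 hKP Cφ η φ hCφ hη hη1 hφ hφs γ q p t₀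
    w hγ hγs X₂ hX₂ hw hαP δ e hδ hδs hδP hδX he heP y hy A hA c hc j₂ hj₂ hR
  have hP0 : 0 < P := by linarith
  have hy' := (mem_prs hδ).mp hy
  have hA'' := (mem_pdiv hy'.1.ne_zero).mp hA
  have hcI := mem_C4.mp hc
  set X : ℝ := X₁ * Real.exp (1 / 4) with hX
  have hX0 : 0 < X := by positivity
  have hy0 : (1 : ℝ) ≤ nm y.1 := one_le_nm hy'.1.ne_zero
  have hy2 : (1 : ℝ) ≤ nm y.2 := one_le_nm hy'.2.1.ne_zero
  have hnδ : (nm δ : ℝ) = nm y.1 * nm y.2 := by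
    have : nm δ = nm y.1 * nm y.2 := by rw [← hy'.2.2, nm_mul]
    exact_mod_cast this
  have hyX : (nm y.1 : ℝ) ≤ X := by nlinarith
  have hX1 : 1 ≤ X / nm y.1 := by rwa [le_div_iff₀ (by linarith), one_mul]
  have hXP' : X / nm y.1 ≤ P := (div_le_self hX0.le hy0).trans hX₁P
  have hν : IsPrim y.2 := hy'.2.1
  have hνs : Squarefree y.2 := hδs.squarefree_of_dvd (hy'.2.2 ▸ dvd_mul_left _ _)
  have hFS : FS (aB φ γ q p t₀ w) := aB_FS hγ hγs hφs hX₁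
  have hsq : ∀ n, aB φ γ q p t₀ w n ≠ 0 → Squarefree n := fun n hn => (aB_ne hγ hγs hn).2.1
  have hsp : ∀ n, aB φ γ q p t₀ w n ≠ 0 → X / 2 < nm n ∧ (nm n : ℝ) ≤ X := fun n hn =>
    aB_le hγ hγs hφs hX₁ hn
  have hcf := cf_ag hFS hsq hδ hy
  set R := RR Y e A c j₂ with hRd
  set AA := K / nm (e * A * j₂) with hAA
  set NN := NBf (P ^ ε) H (X / nm y.1) R AA B0 y.2 with hNN
  set MD0 : Eis → ℕ → ℝ := fun B k => (2 / 2 ^ k) * ((1 + |t₀|) ^ A' *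
              MwC Cφ η A' c (aG γ q y.1 δ w) (e * A * j₂ * kw p ^ 2) y.2 (X / nm y.1) R B k)
    with hMD0
  have hMD00 : ∀ B k, 0 ≤ MD0 B k := fun B k => mul_nonneg (by positivity)
    (mul_nonneg (by positivity) (MwC_nonneg hη (by linarith)))
  have hD1 : DH A' R (X / nm y.1) c (e * A * j₂) y.2 (ag (aB φ γ q p t₀ w) δ y.1) NN
      (fun B k => C1 * (R * 2 ^ k * (X / nm y.1) * nm y.2) ^ ε' * (2 / 2 ^ k) *
        ((1 + |t₀|) ^ A' *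
          MwC Cφ η A' c (aG γ q y.1 δ w) (e * A * j₂ * kw p ^ 2) y.2 (X / nm y.1) R B k)) := by
    refine hdh (isC_sg hcI) A' hR hX1 hν hνs hcf (fun n hn => ?_) ?_
    · have h2 := (hsp _ (ag_ne hn).2).2
      rw [nm_mul] at h2
      push_cast at h2
      rw [le_div_iff₀ (by linarith)]
      linarith
    · intro B hB i t k _
      have hBp := ((mem_S (by linarith : (0 : ℝ) ≤ X / nm y.1)).mp hB).2.1
      unfold MwC
      rw [Finset.mul_sum, Finset.mul_sum]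
      refine Finset.sum_le_sum fun n _ => ?_
      have h1 := MoP_bt_le (q := q) (δ := δ) (E := e * A * j₂) (B := B) (X := X / nm y.1)
        (Z := 2 ^ k) (W := WM R (2 ^ k / (nm n : ℝ) ^ 3)) (σ := c)
        (P := fun _ g₂ g₃ d => DN n g₂ g₃ d ∧ (2 : ℝ) ^ k / 2 < nm d) hCφ hη hη1 hA' hφ hX₂ hw
        (by linarith) hγ hγs hy'.1 hBp
        (fun g₂ _ g₃ _ => H1401.WM_nonneg (by linarith) (by positivity) _ _) p t₀ i t
      have hn0 : (0 : ℝ) ≤ nm n := Nat.cast_nonneg _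
      refine (mul_le_mul_of_nonneg_left h1 hn0).trans (le_of_eq ?_)
      ring
  have hD2 : DH A' R (X / nm y.1) c (e * A * j₂) y.2 (ag (aB φ γ q p t₀ w) δ y.1) NN
      (fun B k => C1 * 10 ^ ε' * P ^ ε * MD0 B k) := by
    intro B hB i t k hk b h1 h2
    refine (hD1 B hB i t k hk b h1 h2).trans (mul_le_mul_of_nonneg_left ?_ (by positivity))
    have hB' := (mem_S (by linarith : (0 : ℝ) ≤ X / nm y.1)).mp hB
    have hNe : (1 : ℝ) ≤ nm e := one_le_nm he.ne_zero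
    have hNA : (1 : ℝ) ≤ nm A := one_le_nm hA''.1.ne_zero
    have hNj : (1 : ℝ) ≤ nm j₂ := one_le_nm hj₂.ne_zero
    have hNc : (1 : ℝ) ≤ nm c := one_le_nm hcI.ne_zero
    have hNB : (1 : ℝ) ≤ nm B := one_le_nm hB'.2.1.ne_zero
    have hyP : (nm y.1 : ℝ) ≤ P := hyX.trans hX₁P
    have hy2P : (nm y.2 : ℝ) ≤ P := by nlinarith
    have hAP : (nm A : ℝ) ≤ P := by
      have h1 : nm A ≤ nm y.1 := Div277.nm_le_of_dvd hy'.1.ne_zero hA''.2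
      have h2 : (nm A : ℝ) ≤ nm y.1 := by exact_mod_cast h1
      linarith
    have hY0 : 0 < Y := by
      by_contra hY
      push Not at hY
      have : RR Y e A c j₂ ≤ 0 := by
        unfold RR
        refine div_nonpos_of_nonpos_of_nonneg ?_ (by positivity)
        exact mul_nonpos_of_nonpos_of_nonneg hY (Nat.cast_nonneg _)
      linarith
    have hnea : (nm (e * A) : ℝ) = nm e * nm A := by rw [nm_mul]; push_cast; ring
    have hRP : R ≤ P ^ 3 := by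
      rw [hRd]
      unfold RR
      rw [hnea]
      have h1 : (1 : ℝ) ≤ nm c * (nm j₂ : ℝ) ^ 2 := by
        have := one_le_pow₀ (n := 2) hNj
        nlinarith
      refine (div_le_self (by positivity) h1).trans ?_
      calc Y * (nm e * nm A) ≤ P * (P * P) := by gcongr
        _ = P ^ 3 := by ring
    have hjP : (nm j₂ : ℝ) ≤ P ^ 3 := by
      have h1 : 1 ≤ RR Y e A c j₂ := hR
      unfold RR at h1
      rw [hnea, le_div_iff₀ (by positivity), one_mul] at h1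
      have h2 : (nm j₂ : ℝ) ≤ (nm j₂ : ℝ) ^ 2 := by nlinarith
      have h3 : (nm j₂ : ℝ) ^ 2 ≤ nm c * (nm j₂ : ℝ) ^ 2 := by
        have : 0 ≤ (nm j₂ : ℝ) ^ 2 := by positivity
        nlinarith
      calc (nm j₂ : ℝ) ≤ nm c * (nm j₂ : ℝ) ^ 2 := h2.trans h3
        _ ≤ Y * (nm e * nm A) := h1
        _ ≤ P * (P * P) := by gcongr
        _ = P ^ 3 := by ring
    have hEe : e * A * j₂ ≠ 0 := mul_ne_zero (mul_ne_zero he.ne_zero hA''.1.ne_zero) hj₂.ne_zero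
    have hE1 : (1 : ℝ) ≤ nm (e * A * j₂) := one_le_nm hEe
    have hnE : (nm (e * A * j₂) : ℝ) = nm e * nm A * nm j₂ := by
      rw [nm_mul, nm_mul]; push_cast; ring
    have hAp : 0 < AA := by rw [hAA]; positivity
    have hAAP : AA ≤ P := by
      have := div_le_self (show 0 ≤ K by linarith) hE1
      rw [hAA]; linarith
    have hAiP : AA⁻¹ ≤ P ^ 5 := by
      rw [hAA, inv_div]
      refine (div_le_self (by positivity) hK1).trans ?_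
      rw [hnE]
      calc (nm e : ℝ) * nm A * nm j₂ ≤ P * P * P ^ 3 := by gcongr
        _ = P ^ 5 := by ring
    have hH1 : 1 ≤ H := (hKD c hc).H1
    have hPe : 1 ≤ P ^ ε := Real.one_le_rpow hP hε.le
    have hceil : P ^ ε ≤ P ^ ⌈ε⌉₊ := by
      rw [← Real.rpow_natCast]
      exact Real.rpow_le_rpow_of_exponent_le hP (Nat.le_ceil _)
    have h2k : (2 : ℝ) ^ k ≤ 10 * P ^ (⌈ε⌉₊ + 13) := by
      by_cases hBB : (nm B : ℝ) ≤ B0
      · have h3 := (NBf_lt_dual hPe hH1 hX1 hR hAp hν hB'.2.1.ne_zero hBB hk).le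
        refine h3.trans ?_
        rw [div_eq_mul_inv]
        have hXB : X / nm y.1 * nm B ≤ P * P := by
          have : (nm B : ℝ) ≤ P := hB'.1.trans hXP'
          gcongr
        calc 2 * P ^ ε * (H * (R * (nm y.2 : ℝ) ^ 2 * (X / nm y.1 * nm B))) * AA⁻¹
            ≤ 2 * P ^ ⌈ε⌉₊ * (P * (P ^ 3 * P ^ 2 * (P * P))) * P ^ 5 := by gcongr
          _ = 2 * P ^ (⌈ε⌉₊ + 13) := by rw [pow_add]; ring
          _ ≤ 10 * P ^ (⌈ε⌉₊ + 13) := by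
              have : 0 ≤ P ^ (⌈ε⌉₊ + 13) := by positivity
              linarith
      · push Not at hBB
        have h3 := (NBf_lt_direct hAp hB'.2.1.ne_zero hBB hk).le
        refine h3.trans ?_
        have h4 : AA / (nm B : ℝ) ^ 2 ≤ P := (div_le_self hAp.le (one_le_pow₀ hNB)).trans hAAP
        have h5 : P ≤ P ^ (⌈ε⌉₊ + 13) := le_self_pow₀ hP (by omega)
        linarith
    have h4 : (R * 2 ^ k * (X / nm y.1) * nm y.2) ^ ε' ≤ 10 ^ ε' * P ^ ε := by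
      have h5 : R * 2 ^ k * (X / nm y.1) * nm y.2 ≤ 10 * P ^ (⌈ε⌉₊ + 20) := by
        calc R * 2 ^ k * (X / nm y.1) * nm y.2
            ≤ P ^ 3 * (10 * P ^ (⌈ε⌉₊ + 13)) * P * P := by gcongr
          _ = 10 * P ^ (⌈ε⌉₊ + 18) := by
              rw [show ⌈ε⌉₊ + 18 = (⌈ε⌉₊ + 13) + 5 by ring, pow_add P (⌈ε⌉₊ + 13) 5]
              ring
          _ ≤ 10 * P ^ (⌈ε⌉₊ + 20) :=
              mul_le_mul_of_nonneg_left (pow_le_pow_right₀ hP (by omega)) (by norm_num)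
      refine (Real.rpow_le_rpow (by positivity) h5 hε'0.le).trans (le_of_eq ?_)
      rw [Real.mul_rpow (by norm_num) (by positivity), ← Real.rpow_natCast P,
        ← Real.rpow_mul hP0.le]
      congr 2
      rw [hε']
      push_cast
      field_simp
    rw [hMD0]
    simp only
    have h6 : 0 ≤ (2 : ℝ) / 2 ^ k * ((1 + |t₀|) ^ A' *
          MwC Cφ η A' c (aG γ q y.1 δ w) (e * A * j₂ * kw p ^ 2) y.2 (X / nm y.1) R B k) :=
      hMD00 B k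
    calc C1 * (R * 2 ^ k * (X / nm y.1) * nm y.2) ^ ε' * (2 / 2 ^ k) * ((1 + |t₀|) ^ A' *
          MwC Cφ η A' c (aG γ q y.1 δ w) (e * A * j₂ * kw p ^ 2) y.2 (X / nm y.1) R B k)
        = (C1 * (2 / 2 ^ k * ((1 + |t₀|) ^ A' *
          MwC Cφ η A' c (aG γ q y.1 δ w) (e * A * j₂ * kw p ^ 2) y.2 (X / nm y.1) R B k))) *
          (R * 2 ^ k * (X / nm y.1) * nm y.2) ^ ε' := by ring
      _ ≤ (C1 * (2 / 2 ^ k * ((1 + |t₀|) ^ A' *
          MwC Cφ η A' c (aG γ q y.1 δ w) (e * A * j₂ * kw p ^ 2) y.2 (X / nm y.1) R B k))) *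
          (10 ^ ε' * P ^ ε) := mul_le_mul_of_nonneg_left h4 (by positivity)
      _ = _ := by ring
  have h1 := h P hP A' Ft cc H ϑ om hKD hHP X Y K B0 hX₁P hYP hK1 hKP (aB φ γ q p t₀ w) hFS hsq
    hsp hαP δ e hδ hδs hδP he heP y hy A hA c hc j₂ hj₂ hR hyX
    (fun B k => C1 * 10 ^ ε' * P ^ ε * MD0 B k)
    (fun B => ∑ ρ ∈ (S R).filter (fun ρ => IsCoprime ρ y.2 ∧ R / 2 < nm ρ),
      ‖MT (ag (aB φ γ q p t₀ w) δ y.1) (e * A * j₂) B c ρ‖ ^ 2) hD2 (fun B _ _ => le_rfl)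
  refine h1.trans ?_
  have eGK : GK ϑ R (X / nm y.1) AA B0 y.2 NN (fun B k => C1 * 10 ^ ε' * P ^ ε * MD0 B k) =
      C1 * 10 ^ ε' * P ^ ε * GK ϑ R (X / nm y.1) AA B0 y.2 NN MD0 := by
    unfold GK
    rw [Finset.mul_sum]
    refine Finset.sum_congr rfl fun B _ => ?_
    rw [Finset.mul_sum]
    exact Finset.sum_congr rfl fun k _ => by ring
  rw [eGK]
  set G1 := GK ϑ R (X / nm y.1) AA B0 y.2 NN MD0 with hG1
  set G2 : ℝ := (if y.2 = 1 then R ^ (-(2 : ℝ) / 3) * AA ^ ((4 : ℝ) / 3) *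
          ∑ B ∈ (S (X / nm y.1)).filter (fun B => B0 < nm B),
            (nm B : ℝ) ^ (-(4 : ℝ) / 3) *
            ∑ ρ ∈ (S R).filter (fun ρ => IsCoprime ρ y.2 ∧ R / 2 < nm ρ),
              ‖MT (ag (aB φ γ q p t₀ w) δ y.1) (e * A * j₂) B c ρ‖ ^ 2
          else 0) with hG2
  have hG20 : 0 ≤ G2 := by
    rw [hG2]
    split_ifs
    · have : 0 ≤ R := by linarith
      have hAA0 : 0 ≤ AA := by rw [hAA]; positivity
      positivity
    · exact le_rfl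
  have hPe : 1 ≤ P ^ ε := Real.one_le_rpow hP hε.le
  have hc1 : 1 ≤ C1 * 10 ^ ε' * P ^ ε := one_le_mul_of_one_le_of_one_le
    (one_le_mul_of_one_le_of_one_le hC1 h10) hPe
  have e2 : P ^ (2 * ε) = P ^ ε * P ^ ε := by rw [← Real.rpow_add hP0]; congr 1; ring
  have hM0 : 0 ≤ (P ^ M')⁻¹ := by positivity
  calc C * cc ^ 2 * P ^ ε * (R ^ (-(1 : ℝ) / 3) * AA ^ ((2 : ℝ) / 3) *
        (C1 * 10 ^ ε' * P ^ ε * G1) + G2 + (P ^ M')⁻¹)
      ≤ C * cc ^ 2 * P ^ ε * ((C1 * 10 ^ ε' * P ^ ε) * (R ^ (-(1 : ℝ) / 3) *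
          AA ^ ((2 : ℝ) / 3) * G1) + (C1 * 10 ^ ε' * P ^ ε) * G2 +
          (C1 * 10 ^ ε' * P ^ ε) * (P ^ M')⁻¹) := by
        refine mul_le_mul_of_nonneg_left ?_ (by positivity)
        have a1 : G2 ≤ (C1 * 10 ^ ε' * P ^ ε) * G2 := le_mul_of_one_le_left hG20 hc1
        have a2 : (P ^ M')⁻¹ ≤ (C1 * 10 ^ ε' * P ^ ε) * (P ^ M')⁻¹ :=
          le_mul_of_one_le_left hM0 hc1
        have a3 : R ^ (-(1 : ℝ) / 3) * AA ^ ((2 : ℝ) / 3) * (C1 * 10 ^ ε' * P ^ ε * G1) =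
          (C1 * 10 ^ ε' * P ^ ε) * (R ^ (-(1 : ℝ) / 3) * AA ^ ((2 : ℝ) / 3) * G1) := by ring
        linarith
    _ = _ := by rw [e2]; ring

end Crest.Agent.R017.MoL106
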