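import Crest.Agent.R017.NPy_739
import Crest.Agent.R017.MoJf_401

/-!
# Row 17, E2, R-side (helper106): the joint cells of flagged lists

* `QF_MoJQ`, `MNJ`, `MNJ_spec`, `MNJ_le`, `QF_MNJ` : the joint moment as a quadratic functional
* `CellG` : the natural-list hypothesis of a joint cell
* `cellJ_SD` : the joint cells of a flagged list (any predicate) from natural lists
-/

set_option autoImplicit false
set_option maxHeartbeats 400000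

noncomputable section

open MeasureTheory Finset Filter
open scoped ComplexConjugate

namespace Crest.Agent.R017.MoL106

open Crest.Agent.R012
open Eis Gauss880
open Crest.Agent.R012.LS2 (S mem_S)
open Crest.Agent.R012.Weight600 (pw)
open Crest.Agent.R017.CM106 (CS FS sub)
open Crest.Agent.R017.FE47 (cx PU)
open Crest.Agent.R017.B770
open Crest.Agent.R017.Prov71
open Crest.Agent.R017.HP842 (Pc pc sqc al)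
open Crest.Agent.R017.Leg381 (alf alF Pf)
open Crest.Agent.R017.TPOk571 (IP FP SD SD_w SD_len SD_ht sd_ok)
open Crest.Agent.R017.TP320 (Fam)
open Crest.Agent.R017.X6C180 (IX dl')
open Crest.Agent.R017.Win813 (iA iA_nonneg WK)
open Crest.Agent.R017.XRG106
open Crest.Agent.R017.MoF106
open Crest.Agent.R017.H1401 (pb mem_pb DN WM HW WJ WJ_nonneg)
open Crest.Agent.R017.E2440 (ag cT RR C4 mem_C4)
open Crest.Agent.R017.NtC320 (QF CS_sum sq_sum_le sub_cT_fin)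
open Crest.Agent.R017.QsO83 (bw FS_bw QF_sum1)
open Crest.Agent.R017.NPx739 (QF_sup QF_mul QF_agbw inv_pow_le CS_norm_le)
open Crest.Agent.R017.NPy739 (opL)
open Crest.Agent.R017.MoJ401 (MoJQ MoJQ_nonneg MoJQ_cell PJQ wJc)
open Div277 (tau dvs mem_dvs)

/-! ### the functional -/

open Classical in
theorem QF_MoJQ {ν E τ : Eis} {X t R Z U : ℝ} (hR : 0 ≤ R) (hX : 0 ≤ X) {Bs : Finset Eis}
    (hBs : ∀ B ∈ Bs, B ≠ 0) (Q : Eis → Eis → Prop) :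
    QF (fun α => MoJQ ν α E τ X t R Z U Bs Q) := by
  intro κ T c β hc hβ
  show MoJQ ν (fun n => ∑ x ∈ T, c x * β x n) E τ X t R Z U Bs Q ≤
    T.card * ∑ x ∈ T, MoJQ ν (β x) E τ X t R Z U Bs Q
  unfold MoJ401.MoJQ
  rw [Finset.sum_comm (s := T), Finset.mul_sum]
  refine Finset.sum_le_sum fun n _ => ?_
  rw [← Finset.mul_sum, mul_left_comm]
  refine mul_le_mul_of_nonneg_left ?_ (Nat.cast_nonneg _)
  rw [Finset.sum_comm (s := T), Finset.mul_sum]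
  refine Finset.sum_le_sum fun g₂ hg₂ => ?_
  rw [Finset.sum_comm (s := T), Finset.mul_sum]
  refine Finset.sum_le_sum fun g₃ hg₃ => ?_
  have h₂ := ((mem_S hX).1 hg₂).2.1.ne_zero
  have h₃ := ((mem_S hX).1 hg₃).2.1.ne_zero
  rw [Finset.sum_comm (s := T), Finset.mul_sum]
  refine Finset.sum_le_sum fun g _ => ?_
  rw [← Finset.mul_sum, mul_left_comm]
  refine mul_le_mul_of_nonneg_left ?_ (WJ_nonneg hR _ _)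
  rw [Finset.sum_comm (s := T), Finset.mul_sum]
  refine Finset.sum_le_sum fun B hB => ?_
  rw [Finset.sum_comm (s := T), Finset.mul_sum]
  refine Finset.sum_le_sum fun d _ => ?_
  have e1 : sub (cT (fun n => ∑ x ∈ T, c x * β x n) E B τ t) (g₂ * g₃) =
      fun n => ∑ x ∈ T, c x * sub (cT (β x) E B τ t) (g₂ * g₃) n := by
    funext n
    show cT _ E B τ t (g₂ * g₃ * n) = ∑ x ∈ T, c x * cT (β x) E B τ t (g₂ * g₃ * n)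
    simp only [NtC320.cT_eq, CM106.sub, Finset.sum_mul]
    exact Finset.sum_congr rfl fun x _ => by ring
  rw [e1, CS_sum T c (fun x hx => sub_cT_fin (hβ x hx).fin (hBs B hB) (mul_ne_zero h₂ h₃))]
  exact sq_sum_le T c hc _

open Classical in
lemma MoJQ_bdd {α : Eis → ℂ} (hα : FS α) {R X : ℝ} (hR : 0 ≤ R) (hX : 0 ≤ X) (Z U : ℝ)
    {Bs : Finset Eis} (hBs : ∀ B ∈ Bs, B ≠ 0) (ν : Eis) : ∃ M : ℝ, 0 ≤ M ∧
    ∀ (E τ : Eis) (t : ℝ) (Q : Eis → Eis → Prop), MoJQ ν α E τ X t R Z U Bs Q ≤ M := by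
  refine ⟨∑ n ∈ dvs ν, (nm n : ℝ) * ∑ g₂ ∈ S X, ∑ g₃ ∈ S X, ∑ g ∈ S U,
    WJ R (Z / (nm n : ℝ) ^ 3) U g g₂ * ∑ B ∈ Bs, ((pb Z).card * (∑' n, ‖α n‖) ^ 2),
    Finset.sum_nonneg fun n _ => mul_nonneg (Nat.cast_nonneg _) (Finset.sum_nonneg fun _ _ =>
      Finset.sum_nonneg fun _ _ => Finset.sum_nonneg fun _ _ => mul_nonneg (WJ_nonneg hR _ _)
        (Finset.sum_nonneg fun _ _ => by positivity)), fun E τ t Q => ?_⟩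
  unfold MoJ401.MoJQ
  refine Finset.sum_le_sum fun n _ => mul_le_mul_of_nonneg_left ?_ (Nat.cast_nonneg _)
  refine Finset.sum_le_sum fun g₂ h₂ => Finset.sum_le_sum fun g₃ h₃ => Finset.sum_le_sum
    fun g _ => ?_
  refine mul_le_mul_of_nonneg_left ?_ (WJ_nonneg hR _ _)
  refine Finset.sum_le_sum fun B hB => ?_
  have p₂ := ((mem_S hX).1 h₂).2.1.ne_zero
  have p₃ := ((mem_S hX).1 h₃).2.1.ne_zero
  calc ∑ d ∈ (pb Z).filter (fun d => ((DN n g₂ g₃ d ∧ H1401.GB g B d) ∧ Z / 2 < nm d) ∧ Q B d),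
        ‖CS (sub (cT α E B τ t) (g₂ * g₃)) d‖ ^ 2
      ≤ ∑ d ∈ (pb Z).filter (fun d => ((DN n g₂ g₃ d ∧ H1401.GB g B d) ∧ Z / 2 < nm d) ∧ Q B d),
          (∑' n, ‖α n‖) ^ 2 :=
        Finset.sum_le_sum fun d _ => pow_le_pow_left₀ (norm_nonneg _)
          (CS_norm_le hα (hBs B hB) t (mul_ne_zero p₂ p₃) d) 2
    _ = ((pb Z).filter (fun d => ((DN n g₂ g₃ d ∧ H1401.GB g B d) ∧ Z / 2 < nm d) ∧
          Q B d)).card * (∑' n, ‖α n‖) ^ 2 := by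
        rw [Finset.sum_const, nsmul_eq_mul]
    _ ≤ _ := by
        refine mul_le_mul_of_nonneg_right ?_ (by positivity)
        exact_mod_cast Finset.card_le_card (Finset.filter_subset _ _)

/-- **the joint moment functional**, as a supremum -/
def MNJ (J : ℕ) (ν E σ : Eis) (X R Z U : ℝ) (Bs : Finset Eis) (Q : IX σ → Eis → Eis → Prop)
    (α : Eis → ℂ) : ℝ :=
  ⨆ p : IX σ × ℝ, ((1 + |p.2|) ^ J)⁻¹ * MoJQ ν α E (dl' σ p.1) X p.2 R Z U Bs (Q p.1)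

section

variable {J : ℕ} {ν E σ : Eis} {X R Z U : ℝ} {Bs : Finset Eis} {Q : IX σ → Eis → Eis → Prop}

lemma MNJ_bdd (hR : 0 ≤ R) (hX : 0 ≤ X) (hBs : ∀ B ∈ Bs, B ≠ 0) {α : Eis → ℂ} (hα : FS α) :
    BddAbove (Set.range fun p : IX σ × ℝ => ((1 + |p.2|) ^ J)⁻¹ *
      MoJQ ν α E (dl' σ p.1) X p.2 R Z U Bs (Q p.1)) := by
  obtain ⟨M, hM0, hM⟩ := MoJQ_bdd hα hR hX Z U hBs ν
  refine ⟨M, ?_⟩
  rintro _ ⟨p, rfl⟩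
  show ((1 + |p.2|) ^ J)⁻¹ * MoJQ ν α E (dl' σ p.1) X p.2 R Z U Bs (Q p.1) ≤ M
  calc ((1 + |p.2|) ^ J)⁻¹ * MoJQ ν α E (dl' σ p.1) X p.2 R Z U Bs (Q p.1)
      ≤ 1 * MoJQ ν α E (dl' σ p.1) X p.2 R Z U Bs (Q p.1) :=
        mul_le_mul_of_nonneg_right (inv_pow_le J _) (MoJQ_nonneg hR _ _)
    _ ≤ M := by rw [one_mul]; exact hM _ _ _ _

theorem MNJ_spec (hR : 0 ≤ R) (hX : 0 ≤ X) (hBs : ∀ B ∈ Bs, B ≠ 0) {α : Eis → ℂ} (hα : FS α)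
    (i : IX σ) (t : ℝ) : MoJQ ν α E (dl' σ i) X t R Z U Bs (Q i) ≤
      (1 + |t|) ^ J * MNJ J ν E σ X R Z U Bs Q α := by
  have h := le_ciSup (MNJ_bdd (J := J) (ν := ν) (E := E) (Q := Q) (σ := σ) (Z := Z) (U := U)
    hR hX hBs hα) (i, t)
  have ht : (0 : ℝ) < (1 + |t|) ^ J := by positivity
  have h2 : ((1 + |t|) ^ J)⁻¹ * MoJQ ν α E (dl' σ i) X t R Z U Bs (Q i) ≤
      MNJ J ν E σ X R Z U Bs Q α := h
  rwa [inv_mul_le_iff₀ ht] at h2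

theorem MNJ_le {α : Eis → ℂ} {M : ℝ}
    (h : ∀ (i : IX σ) (t : ℝ), MoJQ ν α E (dl' σ i) X t R Z U Bs (Q i) ≤ (1 + |t|) ^ J * M) :
    MNJ J ν E σ X R Z U Bs Q α ≤ M := by
  haveI : Nonempty (IX σ × ℝ) := ⟨(none, 0)⟩
  refine ciSup_le fun p => ?_
  have ht : (0 : ℝ) < (1 + |p.2|) ^ J := by positivity
  rw [inv_mul_le_iff₀ ht]
  exact h p.1 p.2

lemma MNJ_nonneg (hR : 0 ≤ R) (α : Eis → ℂ) : 0 ≤ MNJ J ν E σ X R Z U Bs Q α :=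
  Real.iSup_nonneg fun _ => mul_nonneg (by positivity) (MoJQ_nonneg hR _ _)

theorem QF_MNJ (hR : 0 ≤ R) (hX : 0 ≤ X) (hBs : ∀ B ∈ Bs, B ≠ 0) :
    QF (MNJ J ν E σ X R Z U Bs Q) := by
  haveI : Nonempty (IX σ × ℝ) := ⟨(none, 0)⟩
  exact QF_sup (Φ := fun (p : IX σ × ℝ) α => ((1 + |p.2|) ^ J)⁻¹ *
    MoJQ ν α E (dl' σ p.1) X p.2 R Z U Bs (Q p.1))
    (fun p => QF_mul (QF_MoJQ hR hX hBs (Q p.1)) (by positivity))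
    fun α hα => MNJ_bdd hR hX hBs hα

end

/-! ### the cells -/

/-- the natural-list hypothesis of a joint cell -/
def CellG (h : ℝ → ℝ) (μ C : ℝ) {r : ℕ} (P : DPar) (s : Fin r → Pq) (δ g₀ E ν σ : Eis)
    (T : Finset Eis) (Bs : Eis → Finset Eis) (X Z Rm U : ℝ) (Q : Eis → IX σ → Eis → Eis → Prop)
    (p : ℕ × ℕ) (M : ℝ) : Prop :=
  ∀ n ∈ dvs ν, ∀ g ∈ S U, IsCoprime g δ →
    ∀ u < NX X, ∀ v < NX X, ∀ w < NX X, Real.exp ((u : ℝ) / 3) * nm g ≤ U →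
    U ≤ 2 * (Real.exp ((u : ℝ) / 3 + 1 / 3) * nm g) →
    (nm n : ℝ) ^ 3 * (Real.exp (2 * ((v : ℝ) / 3)) * Real.exp w) ≤ Z / nm g →
    ∀ i : IX σ, ∀ g₃ ∈ bk X w,
    ∀ (s' : Fin r → Pq) (W0 : ℝ), 1 ≤ W0 → (∀ k, Rl C W0 (s' k) (s k)) →
    ∑ k, (s' k).z ≤ ∑ k, (s k).z -
      (Real.log (nm (g₀ * g)) + ((u : ℝ) / 3 + v / 3 + w / 3)) + C →
    (nm n : ℝ) * nm g * wJc Rm (Z / (nm n : ℝ) ^ 3) U (nm g) (Real.exp ((v : ℝ) / 3)) *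
      Real.exp ((w : ℝ) / 3) *
      ∑ x ∈ Q4 T X (Z / nm g) u v (fun y B g₂ g₃ d =>
        g * B ∈ Bs y ∧ PJQ (Q y i) n g Z B g₂ g₃ d) g₃,
      ∏ k, ‖CS (pc h ((s' k).pc P)) (f4 (E * kw p ^ 2) (dl' σ i) x)‖ ^ 2 ≤
    M * Real.exp (∑ k, (s' k).z - (∑ k, (s k).z -
      (Real.log (nm (g₀ * g)) + ((u : ℝ) / 3 + v / 3 + w / 3)))) * W0 ^ (2 * μ)

lemma CellG.mono {h : ℝ → ℝ} {μ C C' : ℝ} {r : ℕ} {P : DPar} {s : Fin r → Pq} {δ g₀ E ν σ : Eis}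
    {T : Finset Eis} {Bs : Eis → Finset Eis} {X Z Rm U : ℝ} {Q : Eis → IX σ → Eis → Eis → Prop}
    {p : ℕ × ℕ} {M : ℝ} (H : CellG h μ C' P s δ g₀ E ν σ T Bs X Z Rm U Q p M) (hC : C ≤ C') :
    CellG h μ C P s δ g₀ E ν σ T Bs X Z Rm U Q p M := by
  intro n hn g hg hgd u hu v hv w hw h1 h2 h3 i g₃ hg₃ s' W0 hW0 hRl hle
  exact H n hn g hg hgd u hu v hv w hw h1 h2 h3 i g₃ hg₃ s' W0 hW0 (fun k => (hRl k).mono hC)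
    (hle.trans (by linarith))

/-- **the joint cells of a flagged list**, one `σ` -/
theorem cellJ_one {h : ℝ → ℝ} {c₀ : ℝ} (hpu : PU h c₀) {R : ℝ} (hR0 : 0 ≤ R)
    (hR : ∀ u, cx h u ≠ 0 → |u| ≤ R) {μ : ℝ} (hμ : 0 ≤ μ) (r : ℕ) (σ : Eis) {ε : ℝ}
    (hε : 0 < ε) :
    ∃ C : ℝ, 1 ≤ C ∧ ∀ A' : ℕ, 2 * (r * μ) + 2 ≤ A' → ∀ Cφ η : ℝ, 0 ≤ Cφ → 0 < η → η ≤ 1 →
      ∀ φ : ℝ → ℝ, WK Cφ η A' φ → ∀ (p : ℕ × ℕ) (t₀ : ℝ) (P : DPar) (_ : P.OK)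
      (s : Fin r → Pq), (∀ i, 0 ≤ (s i).z) → ∀ (f : Fin r → Bool) (z D0 : ℝ), 1 ≤ D0 →
      ∀ q g₀ δ E ν : Eis, IsPrim q → IsPrim g₀ → IsPrim δ → IsPrim ν →
      ∀ (T : Finset Eis) (Bs : Eis → Finset Eis) (X Z Rm U X0 : ℝ) (Ry : Eis → ℝ), 1 ≤ X →
      0 ≤ Z → 0 ≤ Rm → 1 ≤ U → X ≤ X0 → U ≤ X0 → D0 ^ r ≤ X0 → (nm g₀ : ℝ) ≤ X0 →
      (nm q : ℝ) ≤ X0 → (nm δ : ℝ) ≤ X0 → (nm ν : ℝ) ≤ X0 → (∀ i, Real.exp (s i).z ≤ X0) →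
      (∀ y ∈ T, ∀ B ∈ Bs y, B ∈ S X ∧ U / 2 ≤ nm B ∧ (nm B : ℝ) ≤ U) →
      (∀ y ∈ T, 0 ≤ Ry y ∧ Ry y ≤ Rm) →
      ∀ Q : Eis → IX σ → Eis → Eis → Prop, ∀ M : ℝ, 0 ≤ M →
      CellG h μ C P s δ g₀ E ν σ T Bs X Z Rm U Q p M →
      ∑ y ∈ T, MNJ A' ν (E * y) σ X (Ry y) Z U (Bs y) (Q y)
        (ag (bw φ p t₀ (sqc q (alf z D0 h (fun i => (s i).pc P) f))) δ g₀) ≤
      C * (Cφ ^ 2 * iA A' * (η * (η ^ A')⁻¹)) * X0 ^ ε * (1 + |t₀|) ^ A' * opL r D0 * M := by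
  obtain ⟨C, hC, hML⟩ := MoJQ_cell hpu hR0 hR hμ r σ hε
  refine ⟨C, hC, ?_⟩
  intro A' hA' Cφ η hCφ hη hη1 φ hφ p t₀ P hP s hs f z D0 hD q g₀ δ E ν hq hg₀ hδ hν T Bs X Z Rm U
    X0 Ry hX hZ hRm hU hXX hUX hDX hgX hqX hδX hνX hsX hBs hRy Q M hM hcell
  have hX0 : 0 ≤ X := by linarith
  have hX01 : 1 ≤ X0 := by linarith
  have hC0 : 0 ≤ C := by linarith
  set pA : ℝ := Cφ ^ 2 * iA A' * (η * (η ^ A')⁻¹) with hpA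
  have hpA0 : 0 ≤ pA := by have := iA_nonneg A'; positivity
  have hD0 : 0 ≤ D0 := by linarith
  have ht0 : 0 ≤ (1 + |t₀|) ^ A' := by positivity
  have hBs0 : ∀ y ∈ T, ∀ B ∈ Bs y, B ≠ 0 := fun y hy B hB =>
    ((mem_S hX0).1 (hBs y hy B hB).1).2.1.ne_zero
  set Φ : (Eis → ℂ) → ℝ := fun α => ∑ y ∈ T, MNJ A' ν (E * y) σ X (Ry y) Z U (Bs y) (Q y)
    (ag (bw φ p t₀ α) δ g₀) with hΦd
  have hQF : QF Φ := QF_sum1 _ fun y hy =>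
    QF_agbw (QF_MNJ (hRy y hy).1 hX0 (hBs0 y hy)) hg₀ δ φ p t₀
  have hmain := QsO83.nt_SD hQF hR μ hP s (z := z) hD f q
    (M := C * pA * (1 + |t₀|) ^ A' * X0 ^ ε * D0 ^ r * M) (by positivity) ?_
  · refine hmain.trans (le_of_eq ?_)
    unfold NPy739.opL
    ring
  intro γ hγ hγs _ hγD jp hjp hlen
  have hγ1 : (1 : ℝ) ≤ nm γ := by exact_mod_cast nm_pos.2 hγ.ne_zero
  have hlogγ : 0 ≤ Real.log (nm γ) := Real.log_nonneg hγ1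
  obtain ⟨Mw, hMw0, hMw1, hMw2⟩ := hML A' hA' Cφ η φ hCφ hη hη1 hφ P hP s hs jp hjp γ q g₀ δ E ν
    hγ hγs hg₀ hq hδ hν T Bs X Z Rm U X0 hX hZ hRm hU hXX hUX (hγD.trans hDX) hgX hqX hδX hνX hsX
    hBs Q M hM p t₀ (fun n hn g hg hgd u hu v hv w hw h1 h2 h3 i g₃ hg₃ s' W0 hW0 hRl hle => by
      rw [hlen] at hle
      refine (hcell n hn g hg hgd u hu v hv w hw h1 h2 h3 i g₃ hg₃ s' W0 hW0 hRl
        (by linarith)).trans ?_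
      have h7 : Real.exp (∑ k, (s' k).z - (∑ k, (s k).z -
          (Real.log (nm (g₀ * g)) + ((u : ℝ) / 3 + v / 3 + w / 3)))) ≤
          Real.exp (∑ k, (s' k).z - (∑ k, (jp k).z -
          (Real.log (nm (g₀ * g)) + ((u : ℝ) / 3 + v / 3 + w / 3)))) := by
        apply Real.exp_le_exp.2
        rw [hlen]
        linarith
      have h8 : 0 ≤ W0 ^ (2 * μ) := Real.rpow_nonneg (by linarith) _
      exact mul_le_mul_of_nonneg_right (mul_le_mul_of_nonneg_left h7 hM) h8)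
  show ∑ y ∈ T, MNJ A' ν (E * y) σ X (Ry y) Z U (Bs y) (Q y)
    (ag (bw φ p t₀ (MoF106.dl γ (TP320.sq (q * γ) ((SD h μ r).w jp)))) δ g₀) ≤ _
  calc ∑ y ∈ T, MNJ A' ν (E * y) σ X (Ry y) Z U (Bs y) (Q y)
        (ag (bw φ p t₀ (MoF106.dl γ (TP320.sq (q * γ) ((SD h μ r).w jp)))) δ g₀)
      ≤ ∑ y ∈ T, Mw y := by
        refine Finset.sum_le_sum fun y hy => MNJ_le fun i t => ?_
        exact hMw1 y hy (Ry y) (hRy y hy).1 (hRy y hy).2 i t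
    _ ≤ C * pA * (1 + |t₀|) ^ A' * X0 ^ ε * nm γ * M := hMw2
    _ ≤ C * pA * (1 + |t₀|) ^ A' * X0 ^ ε * D0 ^ r * M := by gcongr

/-- **the joint cells of a flagged list** -/
theorem cellJ_SD {h : ℝ → ℝ} {c₀ : ℝ} (hpu : PU h c₀) {R : ℝ} (hR0 : 0 ≤ R)
    (hR : ∀ u, cx h u ≠ 0 → |u| ≤ R) {μ : ℝ} (hμ : 0 ≤ μ) (r : ℕ) {ε : ℝ} (hε : 0 < ε) :
    ∃ C : ℝ, 1 ≤ C ∧ ∀ A' : ℕ, 2 * (r * μ) + 2 ≤ A' → ∀ Cφ η : ℝ, 0 ≤ Cφ → 0 < η → η ≤ 1 →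
      ∀ φ : ℝ → ℝ, WK Cφ η A' φ → ∀ (p : ℕ × ℕ) (t₀ : ℝ) (P : DPar) (_ : P.OK)
      (s : Fin r → Pq), (∀ i, 0 ≤ (s i).z) → ∀ (f : Fin r → Bool) (z D0 : ℝ), 1 ≤ D0 →
      ∀ q g₀ δ E ν : Eis, IsPrim q → IsPrim g₀ → IsPrim δ → IsPrim ν → ∀ σ ∈ C4,
      ∀ (T : Finset Eis) (Bs : Eis → Finset Eis) (X Z Rm U X0 : ℝ) (Ry : Eis → ℝ), 1 ≤ X →
      0 ≤ Z → 0 ≤ Rm → 1 ≤ U → X ≤ X0 → U ≤ X0 → D0 ^ r ≤ X0 → (nm g₀ : ℝ) ≤ X0 →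
      (nm q : ℝ) ≤ X0 → (nm δ : ℝ) ≤ X0 → (nm ν : ℝ) ≤ X0 → (∀ i, Real.exp (s i).z ≤ X0) →
      (∀ y ∈ T, ∀ B ∈ Bs y, B ∈ S X ∧ U / 2 ≤ nm B ∧ (nm B : ℝ) ≤ U) →
      (∀ y ∈ T, 0 ≤ Ry y ∧ Ry y ≤ Rm) →
      ∀ Q : Eis → IX σ → Eis → Eis → Prop, ∀ M : ℝ, 0 ≤ M →
      CellG h μ C P s δ g₀ E ν σ T Bs X Z Rm U Q p M →
      ∑ y ∈ T, MNJ A' ν (E * y) σ X (Ry y) Z U (Bs y) (Q y)
        (ag (bw φ p t₀ (sqc q (alf z D0 h (fun i => (s i).pc P) f))) δ g₀) ≤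
      C * (Cφ ^ 2 * iA A' * (η * (η ^ A')⁻¹)) * X0 ^ ε * (1 + |t₀|) ^ A' * opL r D0 * M := by
  have key := fun σ : Eis => cellJ_one hpu hR0 hR hμ r σ hε
  choose Cf hCf hx using key
  have hsum0 : ∀ c ∈ C4, 0 ≤ Cf c := fun c _ => by linarith [hCf c]
  refine ⟨1 + ∑ c ∈ C4, Cf c, by linarith [Finset.sum_nonneg hsum0], ?_⟩
  intro A' hA' Cφ η hCφ hη hη1 φ hφ p t₀ P hP s hs f z D0 hD q g₀ δ E ν hq hg₀ hδ hν σ hσ T Bs X Z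
    Rm U X0 Ry hX hZ hRm hU hXX hUX hDX hgX hqX hδX hνX hsX hBs hRy Q M hM hcell
  have hle : Cf σ ≤ 1 + ∑ c ∈ C4, Cf c := by
    have := Finset.single_le_sum hsum0 hσ
    linarith
  refine (hx σ A' hA' Cφ η hCφ hη hη1 φ hφ p t₀ P hP s hs f z D0 hD q g₀ δ E ν hq hg₀ hδ hν T Bs X
    Z Rm U X0 Ry hX hZ hRm hU hXX hUX hDX hgX hqX hδX hνX hsX hBs hRy Q M hM
    (hcell.mono hle)).trans ?_
  have h2 := iA_nonneg A'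
  have h3 : 0 ≤ X0 := by linarith
  have h4 : 0 ≤ opL r D0 := NPy739.opL_nonneg r (by linarith)
  gcongr

end Crest.Agent.R017.MoL106
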