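import Crest.Agent.R017.MoN5_106

/-!
# Row 17, E2, R-side (helper106): the cells of `Qs_cellsJ` for flagged lists

* `cellsN` : the separate cells, `cellsJ` : the joint cells, from the pair lines
-/

set_option autoImplicit false
set_option linter.unusedVariables false
set_option maxHeartbeats 1600000

noncomputable section

open Finset
open scoped ComplexConjugate

namespace Crest.Agent.R017.RC106

open Crest.Agent.R012 Crest.Agent.R012.Eis Crest.Agent.R012.LS2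
open Crest.Agent.R017.B770
open Crest.Agent.R017.Prov71
open Crest.Agent.R017.CM106 (CS FS)
open Crest.Agent.R017.FE47 (cx PU)
open Crest.Agent.R017.HP842 (pc sqc)
open Crest.Agent.R017.Leg381 (alf alF Pf LF LF_get)
open Crest.Agent.R017.XRG106
open Crest.Agent.R017.X6C180 (IX dl')
open Crest.Agent.R017.Win813 (iA iA_nonneg WK)
open Crest.Agent.R017.RGw813 (T9)
open Crest.Agent.R017.H1401 (pb mem_pb WM HW DN)
open Crest.Agent.R017.MoF106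
open Crest.Agent.R017.MoL106
open Crest.Agent.R017.QsO83 (bw FS_bw)
open Crest.Agent.R017.E2440
open Crest.Agent.R017.QsJ401 (Sz CellN CellJ Nj mem_Bj FJQ FJQ_list CellLJ)
open Crest.Agent.R017.MoJ401 (CellXJ)
open Crest.Agent.R017.E2sp579 (fP)
open Crest.Agent.R017.NPy739 (MNc CellH CellL cell_list opL opL_nonneg MNc_nonneg)
open Crest.Agent.R017.E2D401 (Bj)
open Div277 (tau dvs mem_dvs nm_le_of_dvd)

section env

variable {e₀ ε Pz X V Kf B0 H X0 : ℝ} {δ e A c : Eis} {y : Eis × Eis} {n K Lv d : ℝ}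

lemma Env.leX0 (he : Env e₀ ε Pz X V Kf B0 H X0 δ e n K Lv d) {a : ℝ}
    (h : a ≤ Lv + 2 * n + 20 * d + 20 * e₀) : Real.exp a ≤ X0 := by
  rw [← Real.exp_log he.X0]
  exact Real.exp_le_exp.2 (h.trans he.lX0)

lemma Env.Rm (he : Env e₀ ε Pz X V Kf B0 H X0 δ e n K Lv d)
    (hz : Sz Pz X V Kf H δ e A c y) (l : ℕ) :
    V * nm (e * A) / (nm c * Real.exp ((l : ℝ) / 3) ^ 2) ≤
      Real.exp ((2 * d + e₀) + Lv - 2 * ((l : ℝ) / 3)) := by
  have hcn := (GKC739.nm_C hz.hc).1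
  have hV0 : 0 < V := by linarith [hz.V1]
  have hV2 : V ≤ Real.exp (Lv + e₀) := le_exp_of_log hV0 he.lV
  have hE2 := he.neA hz
  rw [div_le_iff₀ (by positivity)]
  calc V * nm (e * A) ≤ Real.exp (Lv + e₀) * Real.exp (2 * d) :=
        mul_le_mul hV2 hE2 (Nat.cast_nonneg _) (Real.exp_pos _).le
    _ = Real.exp ((2 * d + e₀) + Lv - 2 * ((l : ℝ) / 3)) * (1 * Real.exp ((l : ℝ) / 3) ^ 2) := by
        rw [one_mul, ← Real.exp_nat_mul, ← Real.exp_add, ← Real.exp_add]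
        congr 1
        push_cast
        ring
    _ ≤ _ := by gcongr

lemma Env.fr (he : Env e₀ ε Pz X V Kf B0 H X0 δ e n K Lv d)
    (hz : Sz Pz X V Kf H δ e A c y) {p : ℕ × ℕ} (hp : p ∈ T9) (i : IX c) :
    Real.log (nm (e * A * kw p ^ 2 * dl' c i)) + 1 / 3 ≤ 2 * d + e₀ := by
  have hE : e * A ≠ 0 := mul_ne_zero hz.ep.ne_zero hz.Ap.ne_zero
  have h1 := log_fr hp hz.hc i hE
  have h2 := he.k9
  have hE0 : (0 : ℝ) < nm (e * A) := by exact_mod_cast nm_pos.2 hE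
  have h3 := (Real.log_le_iff_le_exp hE0).2 (he.neA hz)
  linarith

lemma Env.lX' (he : Env e₀ ε Pz X V Kf B0 H X0 δ e n K Lv d)
    (hz : Sz Pz X V Kf H δ e A c y) : Real.log (X / nm y.1) ≤ n + e₀ := by
  have h1 := hz.X1
  exact (Real.log_le_iff_le_exp (by linarith)).2 (he.X' hz)

end env

lemma six_le : 2 * (3 * Real.exp (2 / 3)) ≤ Real.exp 4 := by
  have h1 : (1 : ℝ) + 10 / 3 ≤ Real.exp (10 / 3) := by
    have := Real.add_one_le_exp (10 / 3 : ℝ); linarith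
  have h2 : (1 : ℝ) + 5 / 3 ≤ Real.exp (5 / 3) := by
    have := Real.add_one_le_exp (5 / 3 : ℝ); linarith
  have h3 : Real.exp (10 / 3) = Real.exp (5 / 3) * Real.exp (5 / 3) := by
    rw [← Real.exp_add]; norm_num
  have h4 : (6 : ℝ) ≤ Real.exp (10 / 3) := by rw [h3]; nlinarith
  calc 2 * (3 * Real.exp (2 / 3)) = 6 * Real.exp (2 / 3) := by ring
    _ ≤ Real.exp (10 / 3) * Real.exp (2 / 3) := by gcongr
    _ = Real.exp 4 := by rw [← Real.exp_add]; norm_num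

open Classical in
/-- **the separate cells** -/
theorem cellsN {h : ℝ → ℝ} {c₀ : ℝ} (hpu : PU h c₀) {R : ℝ} (hR0 : 0 ≤ R)
    (hR : ∀ u, cx h u ≠ 0 → |u| ≤ R) {μ : ℝ} (hμ : 0 ≤ μ) (r : ℕ) {ε₁ : ℝ} (hε₁ : 0 < ε₁) :
    ∃ C : ℝ, 1 ≤ C ∧ ∀ A' : ℕ, 2 * (r * μ) + 2 ≤ A' → ∀ Cφ η : ℝ, 0 ≤ Cφ → 0 < η → η ≤ 1 →
      ∀ φ : ℝ → ℝ, WK Cφ η A' φ → ∀ p ∈ T9, ∀ (t₀ : ℝ) (P : DPar) (_ : P.OK)
      (ps : List Pf), ps.length = r → (∀ x ∈ ps, 0 ≤ x.1.z) → ∀ z D0 : ℝ, 1 ≤ D0 →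
      ∀ q : Eis, IsPrim q → ∀ (e₀ ε Pz X V Kf B0 H X0 : ℝ) (δ e A c : Eis) (y : Eis × Eis)
      (K Lv d Bd : ℝ), 0 < ε → Sz Pz X V Kf H δ e A c y →
      Env e₀ ε Pz X V Kf B0 H X0 δ e (LF ps) K Lv d → C ≤ e₀ → D0 ^ r ≤ X0 → (nm q : ℝ) ≤ X0 →
      (∀ x ∈ ps, Real.exp x.1.z ≤ X0) → 0 ≤ Bd →
      PLn P h μ C (fun i => (ps.get i).1) (LF ps) K Lv (17 * d + 8 * e₀) (2 * e₀) Bd →
      ∀ l u j, CellN (Pz ^ (ε / 2)) H (X / nm y.1) V Kf B0 y.2 e A c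
        (jmL (2 * d + e₀) Lv l) l u j →
      ∀ n ∈ dvs y.2, (2 / 2 ^ j : ℝ) * ((nm n : ℝ) * ∑ j₂ ∈ QsJ401.Tb V e A c l,
        ∑ B ∈ (bk (X / nm y.1) u).filter (fun B =>
          j < Nj (Pz ^ (ε / 2)) H (X / nm y.1) V Kf B0 y.2 e A c j₂ B ∧
            ¬ jmL (2 * d + e₀) Lv l (blk B) j),
          MNc A' V e A c (X / nm y.1) (fun _ _ _ _ => True) δ y.1 φ p t₀ j₂ B j n
            (sqc q (alF z D0 P h ps))) ≤
      C * (Cφ ^ 2 * iA A' * (η * (η ^ A')⁻¹)) * X0 ^ (2 * ε₁) * (1 + |t₀|) ^ A' * opL r D0 *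
        (Bd * Real.exp (LF ps + K + 5 * d + 3 * e₀)) := by
  obtain ⟨C₁, hC₁, H1⟩ := cell_list hpu hR0 hR hμ r hε₁
  obtain ⟨C₂, hC₂, H2⟩ := cell_r2 hε₁
  refine ⟨C₁ * C₂, one_le_mul_of_one_le_of_one_le hC₁ hC₂, ?_⟩
  intro A' hA' Cφ η hCφ hη hη1 φ hφ p hp t₀ P hP ps hr hs z D0 hD q hq e₀ ε Pz X V Kf B0 H X0
    δ e A c y K Lv d Bd hε hz he hCe hDX hqX hsX hBd hln l u j hcell n hn
  subst hr
  set n₀ : ℝ := LF ps with hn₀
  have e1 := he.e0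
  have hd0 := he.d0
  have hn0 := he.n0
  have hK0 := he.K0
  have hv0 := he.v0
  have hC1le : C₁ ≤ C₁ * C₂ := le_mul_of_one_le_right (by linarith) hC₂
  set X' : ℝ := X / nm y.1 with hX'
  have hX1 : 1 ≤ X' := hz.X1
  have hX'0 : 0 ≤ X' := by linarith
  have hlX' : Real.log X' ≤ n₀ + e₀ := he.lX' hz
  set s : ℝ := 2 * d + e₀ with hs'
  have hs0 : 0 ≤ s := by rw [hs']; linarith
  set a : ℝ := (l : ℝ) / 3 with ha
  have ha0 : 0 ≤ a := by positivity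
  set zj : ℝ := Real.log (2 ^ j) with hzj
  have hzj0 : 0 ≤ zj := Real.log_nonneg (one_le_pow₀ (by norm_num))
  have h2j : (0 : ℝ) < 2 ^ j := by positivity
  have h2j1 : (1 : ℝ) ≤ 2 ^ j := one_le_pow₀ (by norm_num)
  have eZ : (2 : ℝ) ^ j = Real.exp zj := (Real.exp_log h2j).symm
  have hE : e * A ≠ 0 := mul_ne_zero hz.ep.ne_zero hz.Ap.ne_zero
  have hX0p := he.X0
  -- the range
  obtain ⟨j₂, hj₂, B, hB, hj, hjm⟩ := hcell
  have hcell' : GKC739.Cell (Pz ^ (ε / 2)) H V Kf X' B0 y.2 e A c l u j :=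
    ⟨j₂, by rw [← Tb_eq]; exact hj₂, B, hB, hj⟩
  obtain ⟨g1, g2⟩ := he.shell hε hz hcell'
  have hnj : Lv < 2 * (zj + a + s + ((u : ℝ) / 3 + 1 / 3 + 0.7 + 2 / 3)) := by
    unfold jmL at hjm
    push Not at hjm
    have := blk_bk hX'0 hB
    linarith
  have hub : (u : ℝ) / 3 ≤ Real.log X' := by
    have h3 := (bk_nm_ge hX'0 hB).trans ((mem_bk hX'0).1 hB).1.1
    exact (Real.le_log_iff_exp_le (by linarith)).2 h3
  -- the weights
  set Wb : ℕ → ℕ → ℝ := fun v _ => 3 * Real.exp (2 / 3) *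
    Real.exp ((v : ℝ) / 3 + nr Lv (zj + a) - a + s) with hWbd
  have hn1 : (1 : ℝ) ≤ nm n := by
    have := (mem_dvs hz.y2.ne_zero).1 hn
    exact_mod_cast nm_pos.2 this.1.ne_zero
  have hny : (nm n : ℝ) ≤ Real.exp d := by
    have h3 := (mem_dvs hz.y2.ne_zero).1 hn
    have h4 : nm n ≤ nm y.2 := nm_le_of_dvd hz.y2.ne_zero h3.2
    exact (by exact_mod_cast h4 : (nm n : ℝ) ≤ nm y.2).trans (he.ny2 hz)
  have hRm0 : 0 ≤ V * nm (e * A) / (nm c * Real.exp ((l : ℝ) / 3) ^ 2) := by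
    have := hz.V1
    positivity
  have hWb : ∀ v < NX X', ∀ w < NX X', ∀ g₂ ∈ bk X' v, ∀ g₃ ∈ bk X' w,
      WM (V * nm (e * A) / (nm c * Real.exp ((l : ℝ) / 3) ^ 2)) (2 ^ j / (nm n : ℝ) ^ 3) g₂ g₃ ≤
        Wb v w := by
    intro v hv w hw g₂ hg₂ g₃ hg₃
    have hg3 : (1 : ℝ) ≤ nm g₃ := by exact_mod_cast nm_pos.2 (bk_prim hX'0 hg₃).ne_zero
    have h3 := WM_cell (V := Lv) (s := s) (a := a) (g := (v : ℝ) / 3) (w := 0) (i := zj + a)
      hs0 ha0 le_rfl (by positivity) hRm0 (by positivity : (0 : ℝ) ≤ 2 ^ j / (nm n : ℝ) ^ 3)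
      (he.Rm hz l) (by
        have h4 : (2 : ℝ) ^ j / (nm n : ℝ) ^ 3 ≤ 2 ^ j := div_le_self h2j.le (one_le_pow₀ hn1)
        refine h4.trans (le_of_eq ?_)
        rw [eZ]; congr 1; ring) (bk_nm_ge hX'0 hg₂) (bk_nm_le hX'0 hg₂)
      (by rw [Real.exp_zero]; exact hg3)
    refine h3.trans (le_of_eq ?_)
    rw [hWbd]
    beta_reduce
    congr 2
    ring
  have hWb0 : ∀ v < NX X', ∀ w < NX X', 0 ≤ Wb v w := fun v _ w _ => by
    rw [hWbd]; positivity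
  set M : ℝ := 3 * Real.exp (2 / 3) * (C₂ * X0 ^ ε₁ *
    (2 ^ j * (Bd * Real.exp (n₀ + K + s + s + 2 / 3)))) with hM
  have hC₂0 : 0 ≤ C₂ := by linarith
  have hM0 : 0 ≤ M := by rw [hM]; positivity
  have hcl : CellL h μ C₁ P ps V e A c X' (fun _ _ _ _ => True) y.1 p l u j n Wb M := by
    intro v hv w hw hWp i g₃ hg₃ s' W0 hW0 hRl hle
    rw [← LF_get] at hle ⊢
    have hv3 := NX_lt hX1 hv
    have hn1g : 0 ≤ Real.log (nm y.1) := Real.log_nonneg hz.n1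
    have hw0 : (0 : ℝ) ≤ w := Nat.cast_nonneg w
    have hv0' : (0 : ℝ) ≤ v := Nat.cast_nonneg v
    have hu0' : (0 : ℝ) ≤ u := Nat.cast_nonneg u
    have h3 := H2 (GKC739.Tb V e A c l) X' (2 ^ j) l u v w
      (fun y B => fP (fun g₂ g₃ d => DN n g₂ g₃ d ∧ (2 : ℝ) ^ j / 2 < nm d) fun _ => True)
      g₃ y.1 (e * A * kw p ^ 2) (dl' c i) hX'0 h2j1
      (mul_ne_zero hE (pow_ne_zero 2 (kw_ne p))) (dl_ne_zero (QsJ401.C4_ne hz.hc) i) hz.y1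
      (fun t ht => ⟨GKC739.Tb_prim ht, bk_nm_le (Real.sqrt_nonneg V) (GKC739.mem_Tb.1 ht).1⟩)
      hg₃ X0 (by
        rw [eZ, ← Real.exp_add]
        exact he.leX0 (by linarith)) (by
        exact he.leX0 (by push_cast; linarith)) s (he.fr hz hp i) P h s' n₀ K Lv s Bd
      (W0 ^ (2 * μ)) hBd (Real.rpow_nonneg (by linarith) _) (by
        intro h0
        refine (hln.r2 s' W0 hW0 (fun k => (hRl k).mono hC1le) (zj + a + s)
          ((u : ℝ) / 3 + 2 / 3) ((v : ℝ) / 3) (by positivity) (by positivity) h0 (by linarith)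
          (by linarith) (by linarith) (by linarith)))
    have hW1 : Wb v w = 3 * Real.exp (2 / 3) *
      Real.exp ((v : ℝ) / 3 + nr Lv (zj + a) - a + s) := rfl
    rw [hW1, hM]
    calc _ = 3 * Real.exp (2 / 3) * (Real.exp ((v : ℝ) / 3 + nr Lv (zj + a) - a + s) *
          Real.exp ((w : ℝ) / 3) * ∑ x ∈ Q4 (GKC739.Tb V e A c l) X' (2 ^ j) u v
            (fun y B => fP (fun g₂ g₃ d => DN n g₂ g₃ d ∧ (2 : ℝ) ^ j / 2 < nm d)
              fun _ => True) g₃,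
          ∏ k, ‖CS (pc h ((s' k).pc P)) (f4 (e * A * kw p ^ 2) (dl' c i) x)‖ ^ 2) := by ring
      _ ≤ _ := mul_le_mul_of_nonneg_left h3 (by positivity)
      _ = _ := by ring
  have hmain := H1 A' hA' Cφ η hCφ hη hη1 φ hφ p t₀ P hP ps rfl hs z D0 hD q y.1 δ e A hq hz.y1
    hz.δp hz.ep hz.Ap V X' X0 hX1 ((he.X' hz).trans (he.leX0 (by linarith))) hDX
    ((he.ny1 hz).trans (he.leX0 (by linarith))) hqX
    ((le_exp_of_log (by exact_mod_cast nm_pos.2 hz.δp.ne_zero) he.lδ).trans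
      (he.leX0 (by linarith))) hsX l u j n (fun _ _ _ _ => True) Wb c hz.hc hWb hWb0 M hM0 hcl
  have hiA := iA_nonneg A'
  set pA : ℝ := Cφ ^ 2 * iA A' * (η * (η ^ A')⁻¹) with hpA
  have hpA0 : 0 ≤ pA := by positivity
  have hop := opL_nonneg ps.length (show (0 : ℝ) ≤ D0 by linarith)
  have hle : ∑ j₂ ∈ QsJ401.Tb V e A c l, ∑ B ∈ (bk X' u).filter (fun B =>
      j < Nj (Pz ^ (ε / 2)) H X' V Kf B0 y.2 e A c j₂ B ∧ ¬ jmL s Lv l (blk B) j),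
      MNc A' V e A c X' (fun _ _ _ _ => True) δ y.1 φ p t₀ j₂ B j n (sqc q (alF z D0 P h ps)) ≤
      ∑ j₂ ∈ GKC739.Tb V e A c l, ∑ B ∈ bk X' u,
        MNc A' V e A c X' (fun _ _ _ _ => True) δ y.1 φ p t₀ j₂ B j n
          (sqc q (alF z D0 P h ps)) := by
    rw [Tb_eq]
    refine Finset.sum_le_sum fun t ht => ?_
    refine Finset.sum_le_sum_of_subset_of_nonneg (Finset.filter_subset _ _) fun B hB _ => ?_
    exact MNc_nonneg (GKC739.mem_Tb.1 ht).2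
  have hX2 : X0 ^ (2 * ε₁) = X0 ^ ε₁ * X0 ^ ε₁ := by
    rw [← Real.rpow_add hX0p]; congr 1; ring
  have hnum : 2 * ((nm n : ℝ) * (3 * Real.exp (2 / 3) * Real.exp (n₀ + K + s + s + 2 / 3))) ≤
      Real.exp (n₀ + K + 5 * d + 3 * e₀) := by
    calc 2 * ((nm n : ℝ) * (3 * Real.exp (2 / 3) * Real.exp (n₀ + K + s + s + 2 / 3)))
        = 2 * (3 * Real.exp (2 / 3)) * ((nm n : ℝ) * Real.exp (n₀ + K + s + s + 2 / 3)) := by
          ring
      _ ≤ Real.exp 4 * (Real.exp d * Real.exp (n₀ + K + s + s + 2 / 3)) := by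
          have := six_le
          gcongr
      _ = Real.exp (4 + (d + (n₀ + K + s + s + 2 / 3))) := by
          rw [Real.exp_add 4, Real.exp_add d]
      _ ≤ _ := by
          refine Real.exp_le_exp.2 ?_
          rw [hs']
          linarith
  have hP1 : 0 ≤ C₁ * C₂ * pA * (X0 ^ ε₁ * X0 ^ ε₁) * (1 + |t₀|) ^ A' * opL ps.length D0 * Bd := by
    have : 0 ≤ C₁ := by linarith
    positivity
  calc (2 / 2 ^ j : ℝ) * ((nm n : ℝ) * _) ≤ (2 / 2 ^ j : ℝ) * ((nm n : ℝ) *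
        (C₁ * pA * X0 ^ ε₁ * (1 + |t₀|) ^ A' * opL ps.length D0 * M)) := by
        refine mul_le_mul_of_nonneg_left ?_ (by positivity)
        exact mul_le_mul_of_nonneg_left (hle.trans hmain) (Nat.cast_nonneg _)
    _ = (C₁ * C₂ * pA * (X0 ^ ε₁ * X0 ^ ε₁) * (1 + |t₀|) ^ A' * opL ps.length D0 * Bd) *
        (2 * ((nm n : ℝ) * (3 * Real.exp (2 / 3) * Real.exp (n₀ + K + s + s + 2 / 3)))) := by
        rw [hM]
        field_simp
    _ ≤ (C₁ * C₂ * pA * (X0 ^ ε₁ * X0 ^ ε₁) * (1 + |t₀|) ^ A' * opL ps.length D0 * Bd) *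
        Real.exp (n₀ + K + 5 * d + 3 * e₀) := mul_le_mul_of_nonneg_left hnum hP1
    _ = _ := by rw [hX2]; ring

open Classical in
/-- **the joint cells** -/
theorem cellsJ {h : ℝ → ℝ} {c₀ : ℝ} (hpu : PU h c₀) {R : ℝ} (hR0 : 0 ≤ R)
    (hR : ∀ u, cx h u ≠ 0 → |u| ≤ R) {μ : ℝ} (hμ : 0 ≤ μ) (r : ℕ) {ε₁ : ℝ} (hε₁ : 0 < ε₁) :
    ∃ C : ℝ, 1 ≤ C ∧ ∀ A' : ℕ, 2 * (r * μ) + 2 ≤ A' → ∀ Cφ η : ℝ, 0 ≤ Cφ → 0 < η → η ≤ 1 →
      ∀ φ : ℝ → ℝ, WK Cφ η A' φ → ∀ p ∈ T9, ∀ (t₀ : ℝ) (P : DPar) (_ : P.OK)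
      (ps : List Pf), ps.length = r → (∀ x ∈ ps, 0 ≤ x.1.z) → ∀ z D0 : ℝ, 1 ≤ D0 →
      ∀ q : Eis, IsPrim q → ∀ (e₀ ε Pz X V Kf B0 H X0 : ℝ) (δ e A c : Eis) (y : Eis × Eis)
      (K Lv d Bd : ℝ), 0 < ε → Sz Pz X V Kf H δ e A c y →
      Env e₀ ε Pz X V Kf B0 H X0 δ e (LF ps) K Lv d → C ≤ e₀ → D0 ^ r ≤ X0 → (nm q : ℝ) ≤ X0 →
      (∀ x ∈ ps, Real.exp x.1.z ≤ X0) → 0 ≤ Bd →
      PLn P h μ C (fun i => (ps.get i).1) (LF ps) K Lv (17 * d + 8 * e₀) (2 * e₀) Bd →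
      ∀ l u j, jmL (2 * d + e₀) Lv l u j →
      CellJ (Pz ^ (ε / 2)) H (X / nm y.1) V Kf B0 y.2 e A c l u j →
      (2 / 2 ^ j : ℝ) * (2 / 2 ^ u) * ∑ j₂ ∈ QsJ401.Tb V e A c l,
        FJQ A' (Pz ^ (ε / 2)) H (X / nm y.1) V Kf B0 y.2 y.1 δ e A c (fun _ _ _ _ => True)
          (bw φ p t₀ (sqc q (alF z D0 P h ps))) j₂ u j ≤
      C * (Cφ ^ 2 * iA A' * (η * (η ^ A')⁻¹)) * X0 ^ (2 * ε₁) * (1 + |t₀|) ^ A' * opL r D0 *
        (Bd * Real.exp (LF ps + K + 5 * d + 3 * e₀)) := by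
  obtain ⟨C₁, hC₁, H1⟩ := FJQ_list hpu hR0 hR hμ r hε₁
  obtain ⟨C₂, hC₂, H2⟩ := cell_ga2 hε₁
  refine ⟨C₁ * C₂, one_le_mul_of_one_le_of_one_le hC₁ hC₂, ?_⟩
  intro A' hA' Cφ η hCφ hη hη1 φ hφ p hp t₀ P hP ps hr hs z D0 hD q hq e₀ ε Pz X V Kf B0 H X0
    δ e A c y K Lv d Bd hε hz he hCe hDX hqX hsX hBd hln l u j hjm hcell
  subst hr
  set n₀ : ℝ := LF ps with hn₀
  have e1 := he.e0
  have hd0 := he.d0
  have hn0 := he.n0
  have hK0 := he.K0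
  have hv0 := he.v0
  have hC1le : C₁ ≤ C₁ * C₂ := le_mul_of_one_le_right (by linarith) hC₂
  set X' : ℝ := X / nm y.1 with hX'
  have hX1 : 1 ≤ X' := hz.X1
  have hX'0 : 0 ≤ X' := by linarith
  have hlX' : Real.log X' ≤ n₀ + e₀ := he.lX' hz
  set s : ℝ := 2 * d + e₀ with hs'
  have hs0 : 0 ≤ s := by rw [hs']; linarith
  set a : ℝ := (l : ℝ) / 3 with ha
  have ha0 : 0 ≤ a := by positivity
  set zj : ℝ := Real.log (2 ^ j) with hzj
  have hzj0 : 0 ≤ zj := Real.log_nonneg (one_le_pow₀ (by norm_num))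
  have h2j : (0 : ℝ) < 2 ^ j := by positivity
  have h2j1 : (1 : ℝ) ≤ 2 ^ j := one_le_pow₀ (by norm_num)
  have eZ : (2 : ℝ) ^ j = Real.exp zj := (Real.exp_log h2j).symm
  set β : ℝ := Real.log (2 ^ u) with hβ
  have hβ0 : 0 ≤ β := Real.log_nonneg (one_le_pow₀ (by norm_num))
  have h2u : (0 : ℝ) < 2 ^ u := by positivity
  have h2u1 : (1 : ℝ) ≤ 2 ^ u := one_le_pow₀ (by norm_num)
  have eU : (2 : ℝ) ^ u = Real.exp β := (Real.exp_log h2u).symm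
  have hE : e * A ≠ 0 := mul_ne_zero hz.ep.ne_zero hz.Ap.ne_zero
  have hX0p := he.X0
  have hiA := iA_nonneg A'
  -- the range
  obtain ⟨g1, g2⟩ := he.shellJ hε hz hcell
  have hjm' : 2 * (zj + a + s + (β + 2 / 3)) ≤ Lv := hjm
  have hβX : β ≤ n₀ + e₀ + 0.7 := by
    have h1 := hcell.U_le hX'0
    have h2 := Real.log_le_log h2u h1
    rw [Real.log_mul (by norm_num) (by linarith)] at h2
    have := log2_le1
    linarith
  have hRm0 : 0 ≤ V * nm (e * A) / (nm c * Real.exp ((l : ℝ) / 3) ^ 2) := by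
    have := hz.V1
    positivity
  have hC₂0 : 0 ≤ C₂ := by linarith
  set M : ℝ := C₂ * X0 ^ ε₁ * (Real.exp d *
    (2 ^ j * 2 ^ u * (Bd * Real.exp (n₀ + K + s + s)))) with hM
  have hM0 : 0 ≤ M := by rw [hM]; positivity
  have hcl : CellLJ h μ C₁ P (fun i => (ps.get i).1) (Pz ^ (ε / 2)) H X' V Kf B0 y.2 e A c δ y.1 p
      l u j (fun _ _ _ _ => True) n₀ M := by
    intro n hn g hg hgδ u' hu' v hv w hw q1 q2 q3 i g₃ hg₃ s' W0 hW0 hRl hle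
    have hv3 := NX_lt hX1 hv
    have hu3 := NX_lt hX1 hu'
    have hw0 : (0 : ℝ) ≤ w := Nat.cast_nonneg w
    have hv0' : (0 : ℝ) ≤ v := Nat.cast_nonneg v
    have hu0' : (0 : ℝ) ≤ u' := Nat.cast_nonneg u'
    obtain ⟨-, hgp, -⟩ := (mem_S h2u.le).1 hg
    have hnp := ((mem_dvs hz.y2.ne_zero).1 hn)
    have hn1 : (1 : ℝ) ≤ nm n := by exact_mod_cast nm_pos.2 hnp.1.ne_zero
    have hny : (nm n : ℝ) ≤ Real.exp d := by
      have h4 : nm n ≤ nm y.2 := nm_le_of_dvd hz.y2.ne_zero hnp.2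
      exact (by exact_mod_cast h4 : (nm n : ℝ) ≤ nm y.2).trans (he.ny2 hz)
    have hG1 : (1 : ℝ) ≤ nm g := by exact_mod_cast nm_pos.2 hgp.ne_zero
    have hG0 : (0 : ℝ) < nm g := by linarith
    set γ : ℝ := Real.log (nm g) with hγ
    have hγ0 : 0 ≤ γ := Real.log_nonneg hG1
    have eG : (nm g : ℝ) = Real.exp γ := (Real.exp_log hG0).symm
    have hn1g : 0 ≤ Real.log (nm y.1) := Real.log_nonneg hz.n1
    have hgg : Real.log (nm (y.1 * g)) = Real.log (nm y.1) + γ := by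
      rw [nm_mul, Nat.cast_mul, Real.log_mul (by linarith [hz.n1]) hG0.ne']
    rw [hgg] at hle
    have k1 : (u' : ℝ) / 3 + γ ≤ β := by
      have h1 : Real.exp ((u' : ℝ) / 3 + γ) ≤ Real.exp β := by
        rw [Real.exp_add, ← eG, ← eU]; exact q1
      exact Real.exp_le_exp.1 h1
    have k2 : β ≤ 0.7 + ((u' : ℝ) / 3 + 1 / 3 + γ) := by
      have h1 := Real.log_le_log h2u q2
      rw [Real.log_mul (by norm_num) (by positivity), Real.log_mul (Real.exp_pos _).ne' hG0.ne',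
        Real.log_exp] at h1
      have := log2_le1
      linarith
    have h3 := H2 (QsJ401.Tb V e A c l) X' (2 ^ j) (2 ^ u)
      (V * nm (e * A) / (nm c * Real.exp ((l : ℝ) / 3) ^ 2)) l u' v w
      (fun y_1 B g₂ g₃ d_1 => g * B ∈ Bj X' (Nj (Pz ^ (ε / 2)) H X' V Kf B0 y.2 e A c y_1) u j ∧
        MoJ401.PJQ (fun B d => (fun _ _ _ _ => True) (e * A * y_1) B (dl' c i) d) n g (2 ^ j)
          B g₂ g₃ d_1)
      g₃ y.1 (e * A * kw p ^ 2) (dl' c i) n g hX'0 h2j1 h2u1 hRm0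
      (mul_ne_zero hE (pow_ne_zero 2 (kw_ne p))) (dl_ne_zero (QsJ401.C4_ne hz.hc) i) hz.y1
      hnp.1 hgp (fun t ht => ⟨bk_prim (Real.sqrt_nonneg V) (QsJ401.mem_Tb.1 ht).1,
        bk_nm_le (Real.sqrt_nonneg V) (QsJ401.mem_Tb.1 ht).1⟩)
      hg₃ q1 X0 s (he.fr hz hp i) (by
        rw [eZ, ← Real.exp_add]
        exact he.leX0 (by linarith)) (by
        exact he.leX0 (by push_cast; linarith)) P h s' n₀ K Lv s Bd
      (W0 ^ (2 * μ)) hBd (Real.rpow_nonneg (by linarith) _) hs0 (he.Rm hz l) (by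
        show 2 * (zj + a + β) ≤ Lv
        linarith) (by
        intro h0
        have h4 := hln.ga s' W0 hW0 (fun k => (hRl k).mono hC1le) (zj + a + s)
          ((u' : ℝ) / 3 + 2 / 3 + γ) ((v : ℝ) / 3) γ hγ0 (by linarith) (by positivity) h0
          (by linarith) (by linarith) (by linarith) (by linarith)
        rw [show (u' : ℝ) / 3 + 2 / 3 + γ - γ + (v : ℝ) / 3 = (u' : ℝ) / 3 + 2 / 3 + v / 3 by
          ring] at h4
        exact h4)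
    refine h3.trans ?_
    rw [hM]
    have hW20 : 0 ≤ W0 ^ (2 * μ) := Real.rpow_nonneg (by linarith) _
    gcongr
  have hmain := H1 A' hA' Cφ η hCφ hη hη1 φ hφ p t₀ P hP ps rfl hs z D0 hD q y.1 δ y.2 e A hq
    hz.y1 hz.δp hz.y2 (Pz ^ (ε / 2)) H X' V Kf B0 X0 hX1 (by
      have h2 : (2 : ℝ) ≤ Real.exp 1 := by
        have := Real.add_one_le_exp (1 : ℝ); linarith
      calc 2 * X' ≤ Real.exp 1 * Real.exp (n₀ + e₀) := mul_le_mul h2 (he.X' hz) hX'0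
            (Real.exp_pos _).le
        _ = Real.exp (1 + (n₀ + e₀)) := by rw [← Real.exp_add]
        _ ≤ X0 := he.leX0 (by linarith)) (by linarith [hz.V1]) hDX
    ((he.ny1 hz).trans (he.leX0 (by linarith))) hqX
    ((le_exp_of_log (by exact_mod_cast nm_pos.2 hz.δp.ne_zero) he.lδ).trans
      (he.leX0 (by linarith))) ((he.ny2 hz).trans (he.leX0 (by linarith))) hsX c hz.hc l u j
    (fun _ _ _ _ => True) M hM0 hcell hcl
  set pA : ℝ := Cφ ^ 2 * iA A' * (η * (η ^ A')⁻¹) with hpA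
  have hpA0 : 0 ≤ pA := by positivity
  have hop : ((100 * D0) ^ ps.length) ^ 2 ≤ opL ps.length D0 := by
    unfold NPy739.opL
    exact le_mul_of_one_le_left (by positivity) (one_le_pow₀ hD)
  have hX2 : X0 ^ (2 * ε₁) = X0 ^ ε₁ * X0 ^ ε₁ := by
    rw [← Real.rpow_add hX0p]; congr 1; ring
  have hnum : 4 * (Real.exp d * Real.exp (n₀ + K + s + s)) ≤
      Real.exp (n₀ + K + 5 * d + 3 * e₀) := by
    calc 4 * (Real.exp d * Real.exp (n₀ + K + s + s))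
        ≤ Real.exp 4 * (Real.exp d * Real.exp (n₀ + K + s + s)) := by
          have h4 : (4 : ℝ) ≤ Real.exp 4 := by
            have := Real.add_one_le_exp (4 : ℝ); linarith
          gcongr
      _ = Real.exp (4 + (d + (n₀ + K + s + s))) := by
          rw [Real.exp_add 4, Real.exp_add d]
      _ ≤ _ := by
          refine Real.exp_le_exp.2 ?_
          rw [hs']
          linarith
  have hC₁0 : 0 ≤ C₁ := by linarith
  have hP1 : 0 ≤ C₁ * C₂ * pA * (X0 ^ ε₁ * X0 ^ ε₁) * (1 + |t₀|) ^ A' *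
      ((100 * D0) ^ ps.length) ^ 2 * Bd := by
    positivity
  calc (2 / 2 ^ j : ℝ) * (2 / 2 ^ u) * _ ≤ (2 / 2 ^ j : ℝ) * (2 / 2 ^ u) *
        (((100 * D0) ^ ps.length) ^ 2 * (C₁ * pA * (1 + |t₀|) ^ A' * X0 ^ ε₁ * M)) :=
        mul_le_mul_of_nonneg_left hmain (by positivity)
    _ = (C₁ * C₂ * pA * (X0 ^ ε₁ * X0 ^ ε₁) * (1 + |t₀|) ^ A' *
        ((100 * D0) ^ ps.length) ^ 2 * Bd) * (4 * (Real.exp d * Real.exp (n₀ + K + s + s))) := by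
        rw [hM]
        field_simp
        ring
    _ ≤ (C₁ * C₂ * pA * (X0 ^ ε₁ * X0 ^ ε₁) * (1 + |t₀|) ^ A' *
        ((100 * D0) ^ ps.length) ^ 2 * Bd) * Real.exp (n₀ + K + 5 * d + 3 * e₀) :=
        mul_le_mul_of_nonneg_left hnum hP1
    _ ≤ (C₁ * C₂ * pA * (X0 ^ ε₁ * X0 ^ ε₁) * (1 + |t₀|) ^ A' *
        opL ps.length D0 * Bd) * Real.exp (n₀ + K + 5 * d + 3 * e₀) := by
        refine mul_le_mul_of_nonneg_right ?_ (Real.exp_pos _).le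
        refine mul_le_mul_of_nonneg_right ?_ hBd
        exact mul_le_mul_of_nonneg_left hop (by positivity)
    _ = _ := by rw [hX2]; ring

end Crest.Agent.R017.RC106
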