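import Crest.Agent.R017.MoN6_106
import Crest.Agent.R017.MTLn_537
import Crest.Agent.R017.E2ze_440

/-!
# Row 17, E2, R-side (helper106): the sums `∑_c ∑_{j₂} Qs` for flagged lists

* `KDd.mono`, `kdd_all` : one constant for the four `c`
* `hm_of` : the moment hypotheses
* `polar_num` : the number of the polar part
* `qsN` : `∑_c ∑_{j₂} Qs` of a windowed, twisted flagged list from the pair lines
-/

set_option autoImplicit false
set_option linter.unusedVariables false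
set_option maxHeartbeats 1600000

noncomputable section

open Finset
open scoped ComplexConjugate

namespace Crest.Agent.R017.RC106

open Crest.Agent.R012 Crest.Agent.R012.Eis
open Crest.Agent.R012.LS2 (S mem_S)
open Crest.Agent.R012.Mob705 (pdiv mem_pdiv)
open Crest.Agent.R017.B770
open Crest.Agent.R017.Prov71
open Crest.Agent.R017.CM106 (CS FS)
open Crest.Agent.R017.FE47 (cx PU)
open Crest.Agent.R017.HP842 (pc sqc)
open Crest.Agent.R017.Leg381 (alf alF Pf LF LF_get)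
open Crest.Agent.R017.XRG106
open Crest.Agent.R017.X6C180 (IX dl' Sg GF om')
open Crest.Agent.R017.X6545 (TF Bd)
open Crest.Agent.R017.X6W180 (TF1 tf1_tf)
open Crest.Agent.R017.FlC502 (thd thd_nonneg thd_le_one)
open Crest.Agent.R017.Win813 (iA iA_nonneg WK)
open Crest.Agent.R017.RGw813 (T9)
open Crest.Agent.R017.H1401 (pb mem_pb WM HW DN)
open Crest.Agent.R017.MoF106
open Crest.Agent.R017.MoL106
open Crest.Agent.R017.QsO83 (bw FS_bw)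
open Crest.Agent.R017.E2440
open Crest.Agent.R017.QsJ401 (Sz CellN CellJ Nj mem_Bj FJQ FJQ_list FJQ_nonneg FJQ_specN Hm
  Qs_cellsJ)
open Crest.Agent.R017.E2sp579 (fP)
open Crest.Agent.R017.NPy739 (MNc opL opL_nonneg MNc_nonneg MNc_spec)
open Crest.Agent.R017.E2D401 (Bj)
open Crest.Agent.R017.MTL537 (ML ML_mono ML_nonneg ml_num mtl_cell)
open Div277 (tau dvs mem_dvs nm_le_of_dvd)

lemma KDd.mono {σ : Eis} {J M : ℕ} {Ft : ℝ → ℂ} {c c' H : ℝ} {ϑ ϑd : ℝ → ℝ}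
    {om : IX σ → ℝ → ℂ} (h : KDd σ J M Ft c H ϑ ϑd om) (hc : c ≤ c') :
    KDd σ J M Ft c' H ϑ ϑd om := by
  refine ⟨h.kd.mono hc, h.d0, h.d1, fun A hA d hd => (h.fl A hA d hd).trans ?_⟩
  have hNd : (0 : ℝ) < nm d := by exact_mod_cast nm_pos.2 hd.ne_zero
  have h1 := h.d0 ((nm d : ℝ) / A) (by positivity)
  gcongr

/-- one constant for the four `c` -/
lemma kdd_all (J M P : ℕ) : ∃ (k : ℕ) (C : ℝ), 0 ≤ C ∧
    ∀ (F : ℝ → ℂ) (Sf : ℝ), TF1 F → Bd F k Sf → ∀ h : ℝ, 0 ≤ h → ∀ σ ∈ C4,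
      KDd σ J M (GF (Fh F h)) (C * Sf) (Real.exp h)
        (fun y => min (y ^ (-(1 / 3) : ℝ)) (min 1 ((y * Real.exp h) ^ P))) (thd (Real.exp h))
        (fun i y => om' σ F i y - om' σ F i (y * Real.exp h)) := by
  have key : ∀ σ : Eis, ∃ (k : ℕ) (C : ℝ), 0 ≤ C ∧ (σ ∈ C4 →
      ∀ (F : ℝ → ℂ) (Sf : ℝ), TF1 F → Bd F k Sf → ∀ h : ℝ, 0 ≤ h →
      KDd σ J M (GF (Fh F h)) (C * Sf) (Real.exp h)
        (fun y => min (y ^ (-(1 / 3) : ℝ)) (min 1 ((y * Real.exp h) ^ P))) (thd (Real.exp h))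
        (fun i y => om' σ F i y - om' σ F i (y * Real.exp h))) := by
    intro σ
    by_cases h : σ ∈ C4
    · obtain ⟨k, C, hC, h1⟩ := KDd_cmp (isC_sg (mem_C4.mp h)) J M P
      exact ⟨k, C, hC, fun _ => h1⟩
    · exact ⟨0, 0, le_rfl, fun h' => absurd h' h⟩
  choose k C hC H using key
  refine ⟨∑ σ ∈ C4, k σ, ∑ σ ∈ C4, C σ, Finset.sum_nonneg fun σ _ => hC σ, ?_⟩
  intro F Sf hF hB h hh σ hσ
  have hSf : 0 ≤ Sf := (norm_nonneg _).trans (hB 0 (Nat.zero_le _) 0)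
  have hk : k σ ≤ ∑ σ ∈ C4, k σ := Finset.single_le_sum (fun _ _ => Nat.zero_le _) hσ
  have hCs : C σ ≤ ∑ σ ∈ C4, C σ := Finset.single_le_sum (fun σ _ => hC σ) hσ
  exact KDd.mono (H σ hσ F Sf hF (fun i hi y => hB i (hi.trans hk) y) h hh)
    (mul_le_mul_of_nonneg_right hCs hSf)

lemma fP_true (P : Eis → Eis → Eis → Prop) : fP P (fun _ => True) = P := by
  funext g₂ g₃ d
  unfold fP
  exact propext ⟨fun h => h.1, fun h => ⟨h, trivial⟩⟩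

/-- the moment hypotheses -/
lemma hm_of {ε Pz X V Kf H B0 : ℝ} {δ e A c : Eis} {y : Eis × Eis}
    (hz : Sz Pz X V Kf H δ e A c y) (A' : ℕ) {φ : ℝ → ℝ} {p : ℕ × ℕ} {t₀ : ℝ} {α : Eis → ℂ}
    (hα : FS α) {l : ℕ} {j₂ : Eis} (hj₂ : j₂ ∈ QsJ401.Tb V e A c l) (jm : ℕ → ℕ → Prop) :
    Hm A' ε Pz X V Kf H B0 (bw φ p t₀ α) δ e A c y j₂ jm
      (fun B j n => MNc A' V e A c (X / nm y.1) (fun _ _ _ _ => True) δ y.1 φ p t₀ j₂ B j n α)
      (fun u j => FJQ A' (Pz ^ (ε / 2)) H (X / nm y.1) V Kf B0 y.2 y.1 δ e A c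
        (fun _ _ _ _ => True) (bw φ p t₀ α) j₂ u j) where
  F0 B j n := MNc_nonneg (QsJ401.mem_Tb.1 hj₂).2
  FJ0 u j := FJQ_nonneg (by linarith [(QsJ401.mem_Tb.1 hj₂).2]) u j
  mo B hB j hj hjm i t := by
    have hX' : 0 ≤ X / nm y.1 := by linarith [hz.X1]
    have h1 := MNc_spec (J := A') (Qf := fun _ _ _ _ => True) (δ := δ) (φ := φ) (p := p)
      (t₀ := t₀) hX' hz.y1 (QsJ401.mem_Tb.1 hj₂).2 ((mem_S hX').1 hB).2.1.ne_zero j y.2 hα i t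
    simp only [fP_true] at h1
    exact h1
  moJ u j hjm hne i t := by
    have hX' : 0 ≤ X / nm y.1 := by linarith [hz.X1]
    exact FJQ_specN hX' (by linarith [(QsJ401.mem_Tb.1 hj₂).2])
      (E2440.fs_ag (FS_bw hα) hz.y1).fin u j i t

/-- **the number of the polar part** -/
lemma polar_num {e₀ ε Pz X V Kf B0 H X0 : ℝ} {δ e A c : Eis} {y : Eis × Eis} {n K Lv d s : ℝ}
    (he : Env e₀ ε Pz X V Kf B0 H X0 δ e n K Lv d) (hz : Sz Pz X V Kf H δ e A c y)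
    (hs : 0 ≤ s) (h56 : 6 * n ≤ 5 * K + s) (h32 : 3 * Lv ≤ 2 * K + s) :
    V ^ (-(1 : ℝ) / 3) * Kf ^ ((2 : ℝ) / 3) / nm (e * A) * (nm δ *
      (X ^ ((2 : ℝ) / 3) / B0 * ((V * (nm (e * A) : ℝ) ^ 3) ^ ((1 : ℝ) / 3) *
        ML (V * (nm (e * A) : ℝ) ^ 3) (X / B0)))) ≤
      Real.exp (n + K - K / 36 + 7 * d + 2 * s + 9 * e₀) := by
  have e1 := he.e0
  have hd0 := he.d0
  have hV0 : 0 < V := by linarith [hz.V1]
  have hK0 := hz.K0
  have hB1 := he.B1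
  have hB0 : 0 < B0 := by linarith
  have hX0 : 0 < X := by linarith [hz.n1, hz.yX]
  have hE1 : (1 : ℝ) ≤ nm (e * A) := by
    exact_mod_cast nm_pos.2 (mul_ne_zero hz.ep.ne_zero hz.Ap.ne_zero)
  have hE0 : (0 : ℝ) < nm (e * A) := by linarith
  have hδ0 : (0 : ℝ) < nm δ := by exact_mod_cast nm_pos.2 hz.δp.ne_zero
  have hX2 : X ≤ Real.exp (n + e₀) := le_exp_of_log hX0 he.lX
  have hK2 : Kf ≤ Real.exp (K + e₀) := le_exp_of_log hK0 he.lK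
  have hV2 : V ≤ Real.exp (Lv + e₀) := le_exp_of_log hV0 he.lV
  have hE2 := he.neA hz
  have hδ2 : (nm δ : ℝ) ≤ Real.exp d := le_exp_of_log hδ0 he.lδ
  have eB : B0 = Real.exp (Real.log B0) := (Real.exp_log hB0).symm
  have hVE : V * (nm (e * A) : ℝ) ^ 3 ≤ Real.exp (Lv + e₀ + 6 * d) := by
    calc V * (nm (e * A) : ℝ) ^ 3 ≤ Real.exp (Lv + e₀) * Real.exp (2 * d) ^ 3 := by gcongr
      _ = _ := by
        rw [← Real.exp_nat_mul, ← Real.exp_add]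
        congr 1
        push_cast
        ring
  have hVE0 : 0 ≤ V * (nm (e * A) : ℝ) ^ 3 := by positivity
  have hnum := ml_num (k := K + e₀) (n := n + e₀) (v := Lv + e₀) (e := 6 * d) (t := 0)
    (b := Real.log B0) (s := s + 3 * e₀) le_rfl (by linarith) (by linarith) (by linarith)
    (by linarith) (by linarith [he.K0]) (Real.log_nonneg hB1) (by linarith [he.lB'])
  rw [← eB, mul_zero, sub_zero, neg_zero, Real.exp_zero, one_mul] at hnum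
  have hML : ML (V * (nm (e * A) : ℝ) ^ 3) (X / B0) ≤
      ML (Real.exp (Lv + e₀ + 6 * d)) (Real.exp (n + e₀) / B0) :=
    ML_mono hVE0 (by positivity) hVE (by gcongr)
  have hML0 : 0 ≤ ML (V * (nm (e * A) : ℝ) ^ 3) (X / B0) := ML_nonneg hVE0 (by positivity)
  -- the powers of `V` cancel
  have hc : V ^ (-(1 : ℝ) / 3) * (V * (nm (e * A) : ℝ) ^ 3) ^ ((1 : ℝ) / 3) / nm (e * A) = 1 := by
    rw [Real.mul_rpow hV0.le (by positivity), ← Real.rpow_natCast (nm (e * A) : ℝ) 3,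
      ← Real.rpow_mul hE0.le, ← mul_assoc, ← Real.rpow_add hV0]
    rw [show (-(1 : ℝ) / 3 + 1 / 3) = 0 by norm_num, Real.rpow_zero,
      show ((3 : ℕ) : ℝ) * ((1 : ℝ) / 3) = 1 by norm_num, Real.rpow_one, one_mul,
      div_self hE0.ne']
  calc V ^ (-(1 : ℝ) / 3) * Kf ^ ((2 : ℝ) / 3) / nm (e * A) * (nm δ *
      (X ^ ((2 : ℝ) / 3) / B0 * ((V * (nm (e * A) : ℝ) ^ 3) ^ ((1 : ℝ) / 3) *
        ML (V * (nm (e * A) : ℝ) ^ 3) (X / B0))))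
      = (V ^ (-(1 : ℝ) / 3) * (V * (nm (e * A) : ℝ) ^ 3) ^ ((1 : ℝ) / 3) / nm (e * A)) *
        (nm δ * (Kf ^ ((2 : ℝ) / 3) * X ^ ((2 : ℝ) / 3) / B0 *
        ML (V * (nm (e * A) : ℝ) ^ 3) (X / B0))) := by ring
    _ = nm δ * (Kf ^ ((2 : ℝ) / 3) * X ^ ((2 : ℝ) / 3) / B0 *
        ML (V * (nm (e * A) : ℝ) ^ 3) (X / B0)) := by rw [hc, one_mul]
    _ ≤ Real.exp d * (Real.exp (K + e₀) ^ ((2 : ℝ) / 3) * Real.exp (n + e₀) ^ ((2 : ℝ) / 3) / B0 *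
        ML (Real.exp (Lv + e₀ + 6 * d)) (Real.exp (n + e₀) / B0)) := by gcongr
    _ ≤ Real.exp d * (3 * Real.exp (K + e₀ + (n + e₀) - (K + e₀) / 36 + 6 * d +
        2 * (s + 3 * e₀))) := mul_le_mul_of_nonneg_left hnum (Real.exp_pos _).le
    _ ≤ Real.exp d * (Real.exp (e₀ / 36) * Real.exp 2 * Real.exp (K + e₀ + (n + e₀) -
        (K + e₀) / 36 + 6 * d + 2 * (s + 3 * e₀))) := by
        have h2 : (3 : ℝ) ≤ Real.exp 2 := by
          have := Real.add_one_le_exp (2 : ℝ); linarith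
        have h3 : 1 ≤ Real.exp (e₀ / 36) := Real.one_le_exp (by linarith)
        have h4 : (3 : ℝ) ≤ Real.exp (e₀ / 36) * Real.exp 2 := by nlinarith
        gcongr
    _ = Real.exp (d + (e₀ / 36 + 2 + (K + e₀ + (n + e₀) - (K + e₀) / 36 + 6 * d +
        2 * (s + 3 * e₀)))) := by
        rw [Real.exp_add d, Real.exp_add (e₀ / 36 + 2), Real.exp_add (e₀ / 36)]
    _ ≤ _ := Real.exp_le_exp.2 (by linarith)

lemma PLn.mono {P : DPar} {h : ℝ → ℝ} {μ C C' : ℝ} {r : ℕ} {s : Fin r → Pq}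
    {n K Lv m e Bd : ℝ} (H : PLn P h μ C s n K Lv m e Bd) (hC : C' ≤ C) :
    PLn P h μ C' s n K Lv m e Bd :=
  ⟨fun s' W0 hW hR => H.r2 s' W0 hW fun k => (hR k).mono hC,
    fun s' W0 hW hR => H.ga s' W0 hW fun k => (hR k).mono hC⟩

/-- the weight is not small -/
lemma weight_ge {Pz X V Kf H : ℝ} {δ e A c : Eis} {y : Eis × Eis} (hz : Sz Pz X V Kf H δ e A c y)
    (M' : ℕ) : (Pz ^ (M' + 2))⁻¹ ≤
      V ^ (-(1 : ℝ) / 3) * Kf ^ ((2 : ℝ) / 3) / nm e * (Pz ^ M')⁻¹ := by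
  have hP0 := hz.P0
  have hV0 : 0 < V := by linarith [hz.V1]
  have hK0 := hz.K0
  have he0 : (0 : ℝ) < nm e := by linarith [hz.ne]
  have h1 : Pz ^ (-(1 : ℝ) / 3) ≤ V ^ (-(1 : ℝ) / 3) :=
    Real.rpow_le_rpow_of_nonpos hV0 hz.VP (by norm_num)
  have h2 : Pz ^ (-(2 : ℝ) / 3) ≤ Kf ^ ((2 : ℝ) / 3) := by
    have h3 : Pz⁻¹ ≤ Kf := by
      rw [inv_le_comm₀ hP0 hK0]; exact hz.KiP
    calc Pz ^ (-(2 : ℝ) / 3) = (Pz⁻¹) ^ ((2 : ℝ) / 3) := by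
          rw [Real.inv_rpow hP0.le, ← Real.rpow_neg hP0.le]; congr 1; ring
      _ ≤ _ := Real.rpow_le_rpow (by positivity) h3 (by norm_num)
  have h3 : Pz⁻¹ ≤ V ^ (-(1 : ℝ) / 3) * Kf ^ ((2 : ℝ) / 3) := by
    calc Pz⁻¹ = Pz ^ (-(1 : ℝ) / 3) * Pz ^ (-(2 : ℝ) / 3) := by
          rw [← Real.rpow_add hP0, show (-(1 : ℝ) / 3 + -(2 : ℝ) / 3) = -1 by norm_num,
            Real.rpow_neg_one]
      _ ≤ _ := mul_le_mul h1 h2 (by positivity) (by positivity)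
  have h4 : Pz⁻¹ * Pz⁻¹ ≤ V ^ (-(1 : ℝ) / 3) * Kf ^ ((2 : ℝ) / 3) / nm e := by
    rw [div_eq_mul_inv]
    exact mul_le_mul h3 (inv_anti₀ he0 hz.eP) (by positivity) (by positivity)
  calc (Pz ^ (M' + 2))⁻¹ = Pz⁻¹ * Pz⁻¹ * (Pz ^ M')⁻¹ := by
        rw [pow_add, mul_inv]
        field_simp
    _ ≤ _ := mul_le_mul_of_nonneg_right h4 (by positivity)

open Classical in
/-- **`∑_c ∑_{j₂} Qs` of a flagged list**, from the pair lines -/
theorem qsN {h : ℝ → ℝ} {c₀ : ℝ} (hpu : PU h c₀) {R : ℝ} (hR0 : 0 ≤ R)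
    (hR : ∀ u, cx h u ≠ 0 → |u| ≤ R) {μ : ℝ} (hμ : 0 ≤ μ) (r : ℕ) {ε ε₁ : ℝ} (hε : 0 < ε)
    (hε₁ : 0 < ε₁) (a M' A' : ℕ) (hA' : 2 * (r * μ) + 2 ≤ A') :
    ∃ (k : ℕ) (C : ℝ), 1 ≤ C ∧ ∀ (F : ℝ → ℂ) (Sf : ℝ), TF1 F → Bd F k Sf → ∀ hh : ℝ, 0 ≤ hh →
      ∀ Cφ η : ℝ, 0 ≤ Cφ → 0 < η → η ≤ 1 → ∀ φ : ℝ → ℝ, WK Cφ η A' φ → ∀ p ∈ T9, ∀ (t₀ : ℝ)
      (P : DPar) (_ : P.OK) (ps : List Pf), ps.length = r → (∀ x ∈ ps, 0 ≤ x.1.z) →
      ∀ z D0 : ℝ, 1 ≤ D0 → ∀ q : Eis, IsPrim q → ∀ (e₀ Pz X V Kf B0 X0 Ax : ℝ) (δ e A : Eis)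
      (y : Eis × Eis) (K Lv d s Bb : ℝ), FS (sqc q (alF z D0 P h ps)) →
      (∀ n, bw φ p t₀ (sqc q (alF z D0 P h ps)) n ≠ 0 → Squarefree n) →
      (∀ n, bw φ p t₀ (sqc q (alF z D0 P h ps)) n ≠ 0 → X / 2 < nm n ∧ (nm n : ℝ) ≤ X) →
      (∀ n, ‖bw φ p t₀ (sqc q (alF z D0 P h ps)) n‖ ≤ Ax) → Ax ≤ Pz ^ a →
      (∀ c ∈ C4, Sz Pz X V Kf (Real.exp hh) δ e A c y) →
      Env e₀ ε Pz X V Kf B0 (Real.exp hh) X0 δ e (LF ps) K Lv d → C ≤ e₀ → D0 ^ r ≤ X0 →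
      (nm q : ℝ) ≤ X0 → (∀ x ∈ ps, Real.exp x.1.z ≤ X0) → 0 ≤ Bb →
      PLn P h μ C (fun i => (ps.get i).1) (LF ps) K Lv (17 * d + 8 * e₀) (2 * e₀) Bb →
      0 ≤ s → 6 * LF ps ≤ 5 * K + s → 3 * Lv ≤ 2 * K + s →
      ∑ c ∈ C4, ∑ j₂ ∈ S (Real.sqrt V), Qs (bw φ p t₀ (sqc q (alF z D0 P h ps))) δ e V Kf
        (GF (Fh F hh)) y A c j₂ ≤
      V ^ (-(1 : ℝ) / 3) * Kf ^ ((2 : ℝ) / 3) / nm e * (C * Sf ^ 2 * Pz ^ ε *
        (Cφ ^ 2 * iA A' * (η * (η ^ A')⁻¹) * X0 ^ (2 * ε₁) * (1 + |t₀|) ^ A' * opL r D0 *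
          (Bb * Real.exp (LF ps + K + 5 * d + 3 * e₀)) +
         X0 ^ ε₁ * Ax ^ 2 * Real.exp (LF ps + K - K / 36 + 7 * d + 2 * s + 9 * e₀) +
         (Pz ^ M')⁻¹)) := by
  obtain ⟨M, CQ, hCQ, HQ⟩ := Qs_cellsJ hε a (M' + 2)
  obtain ⟨k, CK, hCK, HK⟩ := kdd_all A' M 1
  obtain ⟨CN, hCN, HN⟩ := cellsN hpu hR0 hR hμ r hε₁
  obtain ⟨CJ, hCJ, HJ⟩ := cellsJ hpu hR0 hR hμ r hε₁
  obtain ⟨CT, hCT, HT⟩ := mtl_cell hε₁ (R := 1) zero_le_one
  have hCQK : 0 ≤ CQ * CK ^ 2 := by positivity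
  have hS1 : 1 ≤ CN + CJ + CT + 1 := by linarith
  have hb1 : CN + CJ + CT + 1 ≤ (1 + CQ * CK ^ 2) * (CN + CJ + CT + 1) :=
    le_mul_of_one_le_left (by linarith) (by linarith)
  refine ⟨k, (1 + CQ * CK ^ 2) * (CN + CJ + CT + 1), by linarith, ?_⟩
  intro F Sf hF hBF hh hhh Cφ η hCφ hη hη1 φ hφ p hp t₀ P hP ps hr hs z D0 hD q hq e₀ Pz X V Kf B0
    X0 Ax δ e A y K Lv d s Bb hFS hsq hsp hAx hAxP hSz he hCe hDX hqX hsX hBb hln hs0 h56 h32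
  have hz := hSz 1 (mem_C4.mpr (Or.inl rfl))
  have hP0 := hz.P0
  have hP1 := hz.P1
  have e1 := he.e0
  have hd0 := he.d0
  have hX0p := he.X0
  have hV0 : 0 < V := by linarith [hz.V1]
  have hK0 := hz.K0
  have hB1 := he.B1
  have hAx0 : 0 ≤ Ax := (norm_nonneg _).trans (hAx 0)
  have hiA := iA_nonneg A'
  have hop := opL_nonneg r (show (0 : ℝ) ≤ D0 by linarith)
  set α : Eis → ℂ := bw φ p t₀ (sqc q (alF z D0 P h ps)) with hα
  set pA : ℝ := Cφ ^ 2 * iA A' * (η * (η ^ A')⁻¹) with hpA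
  have hpA0 : 0 ≤ pA := by positivity
  set E5 : ℝ := Real.exp (LF ps + K + 5 * d + 3 * e₀) with hE5
  set E7 : ℝ := Real.exp (LF ps + K - K / 36 + 7 * d + 2 * s + 9 * e₀) with hE7
  set M0 : ℝ := pA * X0 ^ (2 * ε₁) * (1 + |t₀|) ^ A' * opL r D0 * (Bb * E5) with hM0
  have hM00 : 0 ≤ M0 := by positivity
  have hX1 : 1 ≤ X := hz.n1.trans hz.yX
  have hE1 : (1 : ℝ) ≤ nm (e * A) := by
    exact_mod_cast nm_pos.2 (mul_ne_zero hz.ep.ne_zero hz.Ap.ne_zero)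
  have hML0 : 0 ≤ ML (V * (nm (e * A) : ℝ) ^ 3) (X / B0) :=
    ML_nonneg (by positivity) (by positivity)
  set L1 : ℝ := nm δ * (X ^ ((2 : ℝ) / 3) / B0 * ((V * (nm (e * A) : ℝ) ^ 3) ^ ((1 : ℝ) / 3) *
    ML (V * (nm (e * A) : ℝ) ^ 3) (X / B0))) with hL1
  have hL10 : 0 ≤ L1 := by positivity
  set M1 : ℝ := CT * X0 ^ ε₁ * Ax ^ 2 * L1 with hM1
  have hM10 : 0 ≤ M1 := by positivity
  have hlnN := hln.mono (show CN ≤ (1 + CQ * CK ^ 2) * (CN + CJ + CT + 1) by linarith)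
  have hlnJ := hln.mono (show CJ ≤ (1 + CQ * CK ^ 2) * (CN + CJ + CT + 1) by linarith)
  have h1 := HQ Pz A' (GF (Fh F hh)) (CK * Sf) (Real.exp hh)
    (fun y => min (y ^ (-(1 / 3) : ℝ)) (min 1 ((y * Real.exp hh) ^ 1))) (thd (Real.exp hh))
    (fun σ i y => om' σ F i y - om' σ F i (y * Real.exp hh))
    (fun σ hσ => HK F Sf hF hBF hh hhh σ hσ)
    (fun y _ => (min_le_right _ _).trans (min_le_left _ _)) (fun y _ => thd_le_one _ _)
    X V Kf B0 α (FS_bw hFS) hsq hsp (fun n => (hAx n).trans hAxP) δ e A y hSz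
    (fun _ => jmL (2 * d + e₀) Lv)
    (fun c j₂ B j n => MNc A' V e A c (X / nm y.1) (fun _ _ _ _ => True) δ y.1 φ p t₀ j₂ B j n
      (sqc q (alF z D0 P h ps)))
    (fun c j₂ u j => FJQ A' (Pz ^ (ε / 2)) (Real.exp hh) (X / nm y.1) V Kf B0 y.2 y.1 δ e A c
        (fun _ _ _ _ => True) α j₂ u j) ((CN + CJ) * M0) M1 (by positivity) hM10
    (fun c hc l j₂ hj₂ => hm_of (hSz c hc) A' hFS hj₂ _)
    (fun c hc l u j hcl n hn => by
      refine (HN A' hA' Cφ η hCφ hη hη1 φ hφ p hp t₀ P hP ps hr hs z D0 hD q hq e₀ ε Pz X V Kf B0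
        (Real.exp hh) X0 δ e A c y K Lv d Bb hε (hSz c hc) he (by linarith) hDX hqX hsX hBb hlnN
        l u j hcl n hn).trans ?_
      calc CN * pA * X0 ^ (2 * ε₁) * (1 + |t₀|) ^ A' * opL r D0 * (Bb * E5) = CN * M0 := by
            rw [hM0]; ring
        _ ≤ (CN + CJ) * M0 := mul_le_mul_of_nonneg_right (by linarith) hM00)
    (fun c hc l u j hjm hcl => by
      refine (HJ A' hA' Cφ η hCφ hη hη1 φ hφ p hp t₀ P hP ps hr hs z D0 hD q hq e₀ ε Pz X V Kf B0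
        (Real.exp hh) X0 δ e A c y K Lv d Bb hε (hSz c hc) he (by linarith) hDX hqX hsX hBb hlnJ
        l u j hjm hcl).trans ?_
      calc CJ * pA * X0 ^ (2 * ε₁) * (1 + |t₀|) ^ A' * opL r D0 * (Bb * E5) = CJ * M0 := by
            rw [hM0]; ring
        _ ≤ (CN + CJ) * M0 := mul_le_mul_of_nonneg_right (by linarith) hM00)
    (fun hy2 c hc l u hex => by
      have hy1 : y.1 = δ := by
        have := hz.ye
        rwa [hy2, mul_one] at this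
      have hX'0 : 0 ≤ X / (nm y.1 : ℝ) := by linarith [hz.X1]
      have h2 := HT X X X0 Ax α hX1 (by linarith) hAx0 (fun n hn => by
          rw [mem_S (by linarith)]
          exact ⟨(hsp n hn).2, (FS_bw hFS).prim n hn, hsq n hn⟩) (fun n hn => by
          have hn1 := hsp n hn
          have hn0 : (0 : ℝ) < nm n := by linarith
          have h3 : Real.log (nm n) ≤ Real.log X := Real.log_le_log hn0 hn1.2
          have h4 : Real.log X ≤ Real.log (2 * nm n) :=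
            Real.log_le_log (by linarith) (by linarith)
          rw [Real.log_mul (by norm_num) hn0.ne'] at h4
          have := log2_le1
          rw [abs_le]
          constructor <;> linarith) hAx 1 isPrim_one squarefree_one
        (by
          have h5 : (nm (1 : Eis) : ℝ) = 1 := by
            have : nm (1 : Eis) = 1 := by decide
            exact_mod_cast this
          rw [h5]
          have := he.leX0 (a := 0) (by linarith [he.n0, he.v0])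
          rwa [Real.exp_zero] at this) (fun n _ => one_dvd n) δ e A hz.δp hz.δs hz.ep hz.Ap V B0
        (Real.sqrt V) hV0 (by linarith) (Real.sqrt_nonneg V)
        ((le_exp_of_log (by linarith) he.lX).trans (he.leX0 (by linarith [he.n0, he.v0]))) (by
          have hV2 : V ≤ Real.exp (Lv + e₀) := le_exp_of_log hV0 he.lV
          have hE2 := he.neA hz
          calc V * (nm (e * A) : ℝ) ^ 3 ≤ Real.exp (Lv + e₀) * Real.exp (2 * d) ^ 3 := by gcongr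
            _ = Real.exp (Lv + e₀ + 6 * d) := by
              rw [← Real.exp_nat_mul, ← Real.exp_add]
              congr 1
              push_cast
              ring
            _ ≤ X0 := he.leX0 (by linarith [he.n0, he.v0])) (QsJ401.Tb V e A c l)
        (fun t ht => by
          rw [mem_S (Real.sqrt_nonneg V)]
          exact ((mem_bk (Real.sqrt_nonneg V)).1 (QsJ401.mem_Tb.1 ht).1).1)
        (bk (X / nm y.1) u) u (fun B hB => by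
          refine ⟨?_, bk_nm_ge hX'0 hB, bk_nm_le hX'0 hB⟩
          rw [mem_S (by linarith)]
          have h6 := ((mem_bk hX'0).1 hB).1
          exact ⟨h6.1.trans (div_le_self (by linarith) hz.n1), h6.2⟩) hex c hc
      rw [hy2]
      rw [hy1] at h2 ⊢
      refine h2.trans (le_of_eq ?_)
      have h5 : (nm (1 : Eis) : ℝ) = 1 := by
        have : nm (1 : Eis) = 1 := by decide
        exact_mod_cast this
      rw [hM1, hL1, h5, div_one]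
      ring)
  refine h1.trans ?_
  have hpol := polar_num (c := 1) he hz hs0 h56 h32
  have hWe : V ^ (-(1 : ℝ) / 3) * Kf ^ ((2 : ℝ) / 3) / nm (e * A) ≤
      V ^ (-(1 : ℝ) / 3) * Kf ^ ((2 : ℝ) / 3) / nm e := by
    have he0 : (0 : ℝ) < nm e := by linarith [hz.ne]
    refine div_le_div_of_nonneg_left (by positivity) he0 ?_
    rw [hz.nmeA]
    exact le_mul_of_one_le_right he0.le hz.nA
  have hwt := weight_ge hz M'
  set We : ℝ := V ^ (-(1 : ℝ) / 3) * Kf ^ ((2 : ℝ) / 3) / nm e with hWed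
  set W0 : ℝ := V ^ (-(1 : ℝ) / 3) * Kf ^ ((2 : ℝ) / 3) / nm (e * A) with hW0d
  have hW00 : 0 ≤ W0 := by positivity
  have hWe0 : 0 ≤ We := by positivity
  have hp2 : W0 * M1 ≤ CT * X0 ^ ε₁ * Ax ^ 2 * E7 := by
    calc W0 * M1 = CT * X0 ^ ε₁ * Ax ^ 2 * (W0 * L1) := by rw [hM1]; ring
      _ ≤ _ := mul_le_mul_of_nonneg_left hpol (by positivity)
  have hPM : 0 ≤ (Pz ^ M')⁻¹ := by positivity
  have hE70 : 0 ≤ X0 ^ ε₁ * Ax ^ 2 * E7 := by positivity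
  have t1 : W0 * ((CN + CJ) * M0) + W0 ^ 2 * M1 + (Pz ^ (M' + 2))⁻¹ ≤
      We * ((CN + CJ + CT + 1) * (M0 + X0 ^ ε₁ * Ax ^ 2 * E7 + (Pz ^ M')⁻¹)) := by
    have a1 : W0 * ((CN + CJ) * M0) ≤ We * ((CN + CJ) * M0) :=
      mul_le_mul_of_nonneg_right hWe (by positivity)
    have a2 : W0 ^ 2 * M1 ≤ We * (CT * (X0 ^ ε₁ * Ax ^ 2 * E7)) := by
      calc W0 ^ 2 * M1 = W0 * (W0 * M1) := by ring
        _ ≤ We * (CT * X0 ^ ε₁ * Ax ^ 2 * E7) := mul_le_mul hWe hp2 (by positivity) hWe0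
        _ = _ := by ring
    have a3 : We * ((CN + CJ) * M0) + We * (CT * (X0 ^ ε₁ * Ax ^ 2 * E7)) + We * (Pz ^ M')⁻¹ ≤
        We * ((CN + CJ + CT + 1) * (M0 + X0 ^ ε₁ * Ax ^ 2 * E7 + (Pz ^ M')⁻¹)) := by
      rw [← mul_add, ← mul_add]
      refine mul_le_mul_of_nonneg_left ?_ hWe0
      nlinarith
    linarith
  calc CQ * (CK * Sf) ^ 2 * Pz ^ ε *
        (W0 * ((CN + CJ) * M0) + W0 ^ 2 * M1 + (Pz ^ (M' + 2))⁻¹)
      ≤ CQ * (CK * Sf) ^ 2 * Pz ^ ε *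
        (We * ((CN + CJ + CT + 1) * (M0 + X0 ^ ε₁ * Ax ^ 2 * E7 + (Pz ^ M')⁻¹))) :=
        mul_le_mul_of_nonneg_left t1 (by positivity)
    _ = We * ((CQ * CK ^ 2) * (CN + CJ + CT + 1) * Sf ^ 2 * Pz ^ ε *
        (M0 + X0 ^ ε₁ * Ax ^ 2 * E7 + (Pz ^ M')⁻¹)) := by ring
    _ ≤ We * ((1 + CQ * CK ^ 2) * (CN + CJ + CT + 1) * Sf ^ 2 * Pz ^ ε *
        (M0 + X0 ^ ε₁ * Ax ^ 2 * E7 + (Pz ^ M')⁻¹)) := by
        have : 0 ≤ M0 + X0 ^ ε₁ * Ax ^ 2 * E7 + (Pz ^ M')⁻¹ := by positivity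
        gcongr
        linarith

end Crest.Agent.R017.RC106
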