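import Crest.Agent.R017.ModeDefs_405

/-!
# Row 17, block C70, leaf E3: MODE, part A (helper405): kernels and cubes

* `kv_cf` : kernels are cube-free;  `cube_dvd` : `e³ ∣ k m³`, `k` cube-free, gives `e ∣ m`
* `sum_small_le` : the sum over `h ≤ L` with kernel of `h q` at most `Lt` in terms of
  (cofactor, kernel)
-/

set_option autoImplicit false

noncomputable section

open Complex MeasureTheory
open scoped ComplexConjugate

namespace Crest.Agent.R017.Mode405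

open Crest.Agent.R012 Crest.Agent.R012.Eis Crest.Agent.R012.MC
open Crest.Agent.R012.LS2 (S mem_S bl mem_bl)
open Crest.Agent.R012.NonCube52 (Ker kv Good kc kc_spec kc_nm kv_ne_zero one_le_nmkv sum_nz_43)
open Crest.Agent.R012.LS448 (one_le_nm')

/-- kernels are cube-free -/
lemma kv_cf {κ : Ker} (h : Good κ) {p : Eis} (hp : Prime p) : ¬ p ^ 3 ∣ kv κ := by
  intro hd
  unfold kv at hd
  have hw : IsUnit (w ^ κ.1.1) := isUnit_w.pow _
  have hd1 : p ^ 3 ∣ lam ^ κ.1.2 * κ.2.1 * κ.2.2 ^ 2 := by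
    have e : w ^ κ.1.1 * lam ^ κ.1.2 * κ.2.1 * κ.2.2 ^ 2 =
        w ^ κ.1.1 * (lam ^ κ.1.2 * κ.2.1 * κ.2.2 ^ 2) := by ring
    rw [e] at hd
    exact (hw.dvd_mul_left).mp hd
  by_cases hpl : p ∣ lam
  · -- `p ~ lam`
    have hl : Associated p lam := hp.associated_of_dvd prime_lam hpl
    have hd2 : lam ^ 3 ∣ lam ^ κ.1.2 * κ.2.1 * κ.2.2 ^ 2 :=
      ((hl.pow_pow (n := 3)).dvd_iff_dvd_left).mp hd1
    have hc : IsCoprime (lam ^ 3) (κ.2.1 * κ.2.2 ^ 2) :=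
      ((h.prim1.isCoprime_lam.symm.mul_right (h.prim2.isCoprime_lam.symm.pow_right))).pow_left
    rw [mul_assoc] at hd2
    have hd3 := hc.dvd_of_dvd_mul_right hd2
    have hd4 : (3 : ℕ) ≤ κ.1.2 := by
      by_contra hlt
      push Not at hlt
      have := (pow_dvd_pow_iff lam_ne_zero prime_lam.not_isUnit).mp hd3
      omega
    have := h.hj
    omega
  · have hpl' : IsCoprime p lam := (hp.coprime_iff_not_dvd).mpr hpl
    have hd2 : p ^ 3 ∣ κ.2.1 * κ.2.2 ^ 2 := by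
      rw [mul_assoc] at hd1
      exact (hpl'.pow_left.pow_right).dvd_of_dvd_mul_left hd1
    by_cases hp1 : p ∣ κ.2.1
    · have hc : IsCoprime p κ.2.2 := h.cop.of_isCoprime_of_dvd_left hp1
      have hd3 : p ^ 3 ∣ κ.2.1 := (hc.pow_left.pow_right).dvd_of_dvd_mul_right hd2
      have hd4 : p * p ∣ κ.2.1 := (by
        have : p ^ 3 = p * p * p := by ring
        rw [this] at hd3
        exact (dvd_mul_right _ _).trans hd3)
      exact hp.not_isUnit (h.sqf1 p hd4)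
    · have hc : IsCoprime p κ.2.1 := (hp.coprime_iff_not_dvd).mpr hp1
      have hd3 : p ^ 3 ∣ κ.2.2 ^ 2 := (hc.pow_left).dvd_of_dvd_mul_left hd2
      have hp2 : p ∣ κ.2.2 := hp.dvd_of_dvd_pow ((dvd_pow_self p (by norm_num)).trans hd3)
      obtain ⟨c, hc2⟩ := hp2
      rw [hc2] at hd3
      have e1 : (p * c) ^ 2 = p ^ 2 * c ^ 2 := by ring
      have e2 : p ^ 3 = p ^ 2 * p := by ring
      rw [e1, e2] at hd3
      have hd4 : p ∣ c ^ 2 := (mul_dvd_mul_iff_left (pow_ne_zero 2 hp.ne_zero)).mp hd3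
      have hd5 : p * p ∣ κ.2.2 := by
        rw [hc2]
        exact mul_dvd_mul_left p (hp.dvd_of_dvd_pow hd4)
      exact hp.not_isUnit (h.sqf2 p hd5)

/-- `e³ ∣ k m³` with `k` cube-free gives `e ∣ m` -/
lemma cube_dvd {e k m : Eis} (hk : ∀ p : Eis, Prime p → ¬ p ^ 3 ∣ k) (he : e ≠ 0)
    (h : e ^ 3 ∣ k * m ^ 3) : e ∣ m := by
  classical
  obtain ⟨g, e', m', hg, hem, rfl, rfl⟩ : ∃ g e' m' : Eis, g ≠ 0 ∧ IsCoprime e' m' ∧
      e = g * e' ∧ m = g * m' := by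
    have hgne : EuclideanDomain.gcd e m ≠ 0 := fun h0 =>
      he ((EuclideanDomain.gcd_eq_zero_iff.mp h0).1)
    obtain ⟨e', he'⟩ := EuclideanDomain.gcd_dvd_left e m
    obtain ⟨m', hm'⟩ := EuclideanDomain.gcd_dvd_right e m
    refine ⟨EuclideanDomain.gcd e m, e', m', hgne, ?_, he', hm'⟩
    have hb := EuclideanDomain.gcd_eq_gcd_ab e m
    refine ⟨EuclideanDomain.gcdA e m, EuclideanDomain.gcdB e m, ?_⟩
    generalize EuclideanDomain.gcdA e m = a at hb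
    generalize EuclideanDomain.gcdB e m = b at hb
    generalize EuclideanDomain.gcd e m = g at *
    apply mul_left_cancel₀ hgne
    calc g * (a * e' + b * m') = (g * e') * a + (g * m') * b := by ring
      _ = e * a + m * b := by rw [← he', ← hm']
      _ = g * 1 := by rw [mul_one, ← hb]
  have h1 : e' ^ 3 ∣ k * m' ^ 3 := by
    have e1 : (g * e') ^ 3 = g ^ 3 * e' ^ 3 := by ring
    have e2 : k * (g * m') ^ 3 = g ^ 3 * (k * m' ^ 3) := by ring
    rw [e1, e2] at h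
    exact (mul_dvd_mul_iff_left (pow_ne_zero 3 hg)).mp h
  have h2 : e' ^ 3 ∣ k := (hem.pow_left.pow_right).dvd_of_dvd_mul_right h1
  have h3 : IsUnit e' := by
    by_contra hu
    have he0 : e' ≠ 0 := fun h0 => he (by rw [h0, mul_zero])
    obtain ⟨p, hp, hpe⟩ := WfDvdMonoid.exists_irreducible_factor hu he0
    exact hk p hp.prime ((pow_dvd_pow_of_dvd hpe 3).trans h2)
  exact mul_dvd_mul_left g (h3.dvd)

/-- norm of the cube-free kernel of `q` -/
def nk (q : Eis) : ℝ := nm (kv (kc q).1)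

lemma nk_ge_one {q : Eis} (hq : q ≠ 0) : 1 ≤ nk q := one_le_nmkv (kc_spec hq).1

lemma e_dvd {q h : Eis} (hq : q ≠ 0) (hh : h ≠ 0) : (kc q).2 ∣ (kc (h * q)).2 := by
  have h1 := kc_spec hq
  have h2 := kc_spec (mul_ne_zero hh hq)
  refine cube_dvd (k := kv (kc (h * q)).1) (fun p hp => kv_cf h2.1 hp) h1.2.1 ?_
  rw [← h2.2.2.1]
  have : (kc q).2 ^ 3 ∣ q := by
    conv_rhs => rw [h1.2.2.1]
    exact dvd_mul_left _ _
  exact this.mul_left h

/-- **the cubes**: the sum over the frequencies whose kernel is at most `Lt` -/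
theorem sum_small_le {L Lt : ℝ} (hL : 0 ≤ L) {q : Eis} (hq : q ≠ 0) {g : Ker → Eis → ℝ}
    (hg : ∀ κ m, 0 ≤ g κ m) :
    ∑ h ∈ (bl L).filter (fun h => (nm (kv (kc (h * q)).1) : ℝ) ≤ Lt),
        g (kc (h * q)).1 (kc (h * q)).2 ≤
      ∑ m ∈ bl ((L * nk q) ^ (1 / 3 : ℝ)),
        ∑ κ ∈ KS (min Lt (L * nk q / (nm m : ℝ) ^ 3)), g κ ((kc q).2 * m) := by
  classical
  set F := (bl L).filter (fun h => (nm (kv (kc (h * q)).1) : ℝ) ≤ Lt) with hF
  have hmem : ∀ h ∈ F, h ≠ 0 ∧ (nm h : ℝ) ≤ L ∧ (nm (kv (kc (h * q)).1) : ℝ) ≤ Lt := by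
    intro h hh
    rw [hF, Finset.mem_filter, mem_bl hL] at hh
    exact ⟨hh.1.1, hh.1.2, hh.2⟩
  have hch : ∀ h : Eis, ∃ m : Eis, h ≠ 0 → (kc (h * q)).2 = (kc q).2 * m := by
    intro h
    by_cases hh : h ≠ 0
    · obtain ⟨m, hm⟩ := e_dvd hq hh
      exact ⟨m, fun _ => hm⟩
    · exact ⟨0, fun h' => absurd h' hh⟩
  choose mm hmm using hch
  have hs := kc_spec hq
  have hL0 : 0 ≤ L * nk q := mul_nonneg hL ((zero_le_one).trans (nk_ge_one hq))
  have hbound : ∀ h ∈ F, mm h ≠ 0 ∧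
      (nm (kv (kc (h * q)).1) : ℝ) * (nm (mm h) : ℝ) ^ 3 ≤ L * nk q := by
    intro h hh
    obtain ⟨h0, h1, h2⟩ := hmem h hh
    have hne := mul_ne_zero h0 hq
    have h3 := hmm h h0
    have h4 := kc_spec hne
    have h5 : mm h ≠ 0 := by
      intro h6
      rw [h6, mul_zero] at h3
      exact h4.2.1 h3
    refine ⟨h5, ?_⟩
    have h6 := kc_nm hne
    have h7 := kc_nm hq
    rw [h3, nm_mul] at h6
    push_cast at h6
    rw [nm_mul] at h6
    push_cast at h6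
    have h8 : (0 : ℝ) < nm (kc q).2 := by
      have := one_le_nm' hs.2.1
      linarith
    have h9 : (nm (kv (kc (h * q)).1) : ℝ) * (nm (mm h) : ℝ) ^ 3 * (nm (kc q).2 : ℝ) ^ 3 =
        nm h * (nk q * (nm (kc q).2 : ℝ) ^ 3) := by
      unfold nk
      rw [h7, ← h6]; ring
    have h10 : (nm (kv (kc (h * q)).1) : ℝ) * (nm (mm h) : ℝ) ^ 3 = nm h * nk q := by
      have : (0 : ℝ) < (nm (kc q).2 : ℝ) ^ 3 := by positivity
      have h11 := h9
      rw [← mul_assoc] at h11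
      exact mul_right_cancel₀ this.ne' h11
    rw [h10]
    exact mul_le_mul_of_nonneg_right h1 ((zero_le_one).trans (nk_ge_one hq))
  set T := (bl ((L * nk q) ^ (1 / 3 : ℝ))).sigma
    (fun m => KS (min Lt (L * nk q / (nm m : ℝ) ^ 3))) with hT
  have e1 : ∑ m ∈ bl ((L * nk q) ^ (1 / 3 : ℝ)),
      ∑ κ ∈ KS (min Lt (L * nk q / (nm m : ℝ) ^ 3)), g κ ((kc q).2 * m) =
      ∑ x ∈ T, g x.2 ((kc q).2 * x.1) := by
    rw [hT, Finset.sum_sigma]
  rw [e1]
  set φ : Eis → (_ : Eis) × Ker := fun h => ⟨mm h, (kc (h * q)).1⟩ with hφ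
  have hinj : Set.InjOn φ (F : Set Eis) := by
    intro h hh h' hh' he
    have a1 := hmem h hh
    have a2 := hmem h' hh'
    rw [hφ] at he
    simp only [Sigma.mk.injEq, heq_eq_eq] at he
    have b1 := (kc_spec (mul_ne_zero a1.1 hq)).2.2.1
    have b2 := (kc_spec (mul_ne_zero a2.1 hq)).2.2.1
    have b3 : h * q = h' * q := by
      rw [b1, b2, hmm h a1.1, hmm h' a2.1, he.1, he.2]
    exact mul_right_cancel₀ hq b3
  have e2 : ∑ h ∈ F, g (kc (h * q)).1 (kc (h * q)).2 =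
      ∑ x ∈ F.image φ, g x.2 ((kc q).2 * x.1) := by
    rw [Finset.sum_image (fun h hh h' hh' he => hinj hh hh' he)]
    refine Finset.sum_congr rfl fun h hh => ?_
    rw [hmm h (hmem h hh).1]
  rw [e2]
  refine Finset.sum_le_sum_of_subset_of_nonneg (fun x hx => ?_) fun x _ _ => hg _ _
  rw [Finset.mem_image] at hx
  obtain ⟨h, hh, rfl⟩ := hx
  obtain ⟨h0, h1, h2⟩ := hmem h hh
  obtain ⟨h3, h4⟩ := hbound h hh
  have h5 := kc_spec (mul_ne_zero h0 hq)
  have h6 : (1 : ℝ) ≤ nm (mm h) := one_le_nm' h3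
  have h7 : (1 : ℝ) ≤ nm (kv (kc (h * q)).1) := one_le_nmkv h5.1
  have h8 : (0 : ℝ) < (nm (mm h) : ℝ) ^ 3 := by positivity
  rw [hT, Finset.mem_sigma]
  refine ⟨?_, ?_⟩
  · rw [mem_bl (by positivity)]
    refine ⟨h3, ?_⟩
    have h9 : (nm (mm h) : ℝ) ^ 3 ≤ L * nk q := by nlinarith
    calc (nm (mm h) : ℝ) = ((nm (mm h) : ℝ) ^ 3) ^ (1 / 3 : ℝ) := by
          rw [← Real.rpow_natCast, ← Real.rpow_mul (by positivity)]; norm_num
      _ ≤ (L * nk q) ^ (1 / 3 : ℝ) := Real.rpow_le_rpow h8.le h9 (by norm_num)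
  · rw [mem_KS]
    refine ⟨h5.1, le_min h2 ?_⟩
    rw [le_div_iff₀ h8]
    exact h4

end Crest.Agent.R017.Mode405
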