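import Crest.Agent.R017.ModeC_405

/-!
# Row 17, block C70, leaf E3: MODE, part C2 (helper405): the structured half, block bound
-/

set_option autoImplicit false

noncomputable section

open Complex MeasureTheory
open scoped ComplexConjugate

namespace Crest.Agent.R017.Mode405

open Crest.Agent.R012 Crest.Agent.R012.Eis Crest.Agent.R012.MC
open Crest.Agent.R012.LS2 (S mem_S bl mem_bl)
open Crest.Agent.R012.LS448 (one_le_nm')
open Crest.Agent.R012.NonCube52 (Ker kv Good kc kc_spec kc_nm kv_ne_zero one_le_nmkv)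
open Crest.Agent.R012.Mob705 (mu pdiv mem_pdiv)
open Crest.Agent.R012.Weight600 (pw)
open Crest.Agent.R017.CM106 (CS TG FS)
open Crest.Agent.R017.BD829 (TT EQ Win EQ_nonneg)
open Crest.Agent.R017.E1551 (jb jb_pos nmpos)
open Crest.Agent.R017.DgB829 (HS HS_le HS_nonneg)

lemma slp_fam {a : ℕ} {W : ℝ → ℝ} (hs : Slp a W) {c C₁ e : ℝ} (hc : 0 < c) (hC : 0 ≤ C₁)
    (he : 0 ≤ e) (he1 : e ≤ 1) :
    Slp (a + 1) (fun P => C₁ * (c * max 1 P) ^ e * W (c * P)) where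
  nonneg P hP := by
    have := hs.nonneg (c * P) (by positivity)
    have h1 : (0 : ℝ) < max 1 P := lt_of_lt_of_le one_pos (le_max_left _ _)
    positivity
  low P' P hP' h := by
    have h1 := hs.low (c * P') (c * P) (by positivity) (mul_le_mul_of_nonneg_left h hc.le)
    have hP : 0 < P := hP'.trans_le h
    have e1 : c * P' / (c * P) = P' / P := by field_simp
    rw [e1] at h1
    have h2 : (c * max 1 P') ^ e ≤ (c * max 1 P) ^ e := by
      have h3 : (0 : ℝ) < max 1 P' := lt_of_lt_of_le one_pos (le_max_left _ _)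
      exact Real.rpow_le_rpow (by positivity)
        (mul_le_mul_of_nonneg_left (max_le_max le_rfl h) hc.le) he
    have h4 : (0 : ℝ) < max 1 P' := lt_of_lt_of_le one_pos (le_max_left _ _)
    have h5 : (0 : ℝ) < max 1 P := lt_of_lt_of_le one_pos (le_max_left _ _)
    have h6 := hs.nonneg (c * P) (by positivity)
    calc C₁ * (c * max 1 P') ^ e * W (c * P') ≤
        C₁ * (c * max 1 P') ^ e * ((P' / P) ^ (1 / 3 : ℝ) * W (c * P)) := by gcongr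
      _ ≤ C₁ * (c * max 1 P) ^ e * ((P' / P) ^ (1 / 3 : ℝ) * W (c * P)) := by gcongr
      _ = _ := by ring
  dbl P hP := by
    have h1 := hs.dbl (c * P) (by positivity)
    have h5 : (0 : ℝ) < max 1 P := lt_of_lt_of_le one_pos (le_max_left _ _)
    have h6 := hs.nonneg (c * P) (by positivity)
    have h7 : max 1 (2 * P) ≤ 2 * max 1 P := by
      refine max_le ?_ ?_
      · have := le_max_left 1 P; linarith
      · have := le_max_right 1 P; linarith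
    have h8 : (0 : ℝ) < max 1 (2 * P) := lt_of_lt_of_le one_pos (le_max_left _ _)
    have h2 : (c * max 1 (2 * P)) ^ e ≤ 2 * (c * max 1 P) ^ e := by
      calc (c * max 1 (2 * P)) ^ e ≤ (2 * (c * max 1 P)) ^ e := by
            refine Real.rpow_le_rpow (by positivity) ?_ he
            calc c * max 1 (2 * P) ≤ c * (2 * max 1 P) := mul_le_mul_of_nonneg_left h7 hc.le
              _ = _ := by ring
        _ = 2 ^ e * (c * max 1 P) ^ e := Real.mul_rpow (by norm_num) (by positivity)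
        _ ≤ 2 * (c * max 1 P) ^ e := by
            have : (2 : ℝ) ^ e ≤ 2 ^ (1 : ℝ) := Real.rpow_le_rpow_of_exponent_le (by norm_num) he1
            rw [Real.rpow_one] at this
            exact mul_le_mul_of_nonneg_right this (by positivity)
    have e2 : c * (2 * P) = 2 * (c * P) := by ring
    rw [e2]
    calc C₁ * (c * max 1 (2 * P)) ^ e * W (2 * (c * P)) ≤
        C₁ * (2 * (c * max 1 P) ^ e) * (2 ^ a * W (c * P)) := by
          have h9 : 0 ≤ W (2 * (c * P)) := hs.nonneg _ (by positivity)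
          gcongr
      _ = 2 ^ (a + 1) * (C₁ * (c * max 1 P) ^ e * W (c * P)) := by ring

lemma bs_supp {b : Eis → ℂ} {s n : Eis} (h : bs b s n ≠ 0) : b n ≠ 0 := by
  unfold bs at h; exact left_ne_zero_of_mul h

set_option maxHeartbeats 2000000 in
/-- **the block bound** -/
theorem block_le {χ : Eis → ℂ} {w : ℝ → ℝ} (hP : PoHS χ w) {R : ℝ} (hR : 0 ≤ R) (a A : ℕ)
    (hA : 1 < A) {ε : ℝ} (hε : 0 < ε) :
    ∃ (C c : ℝ) (J : ℕ), 0 ≤ C ∧ 1 ≤ c ∧ ∀ Z N Y Lt lam P₁ : ℝ, 1 ≤ Z → 0 < N → N ≤ Z → 1 ≤ Y →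
      Y ≤ Z → 1 ≤ lam → lam ≤ Lt → Lt ≤ Z → Lt * Real.exp R < N → 1 ≤ P₁ → P₁ ≤ Z →
    ∀ {ι : Type} (O : Finset ι) (b : ι → Eis → ℂ) (Yq : ι → ℝ),
      (∀ o ∈ O, Y / 4 ≤ Yq o ∧ Yq o ≤ Y) → (∀ o ∈ O, ∀ n, b o n ≠ 0 → n ∈ S Z) →
      (∀ o ∈ O, Win (b o) (Real.log N) R) →
    ∀ W : ℝ → ℝ, Slp a W →
      (∀ g f π : Eis, IsPrim g → IsPrim f → IsPrim π → ∀ P : ℝ, 1 ≤ P →
        (nm g : ℝ) * nm f * ∑ o ∈ O, VI A (b o) (g * f) f π P ≤ W P) →
    ∀ W1 : ℝ, 0 ≤ W1 → (∀ P E : ℝ, 1 ≤ P → P ≤ P₁ → 1 ≤ E → E ≤ Lt →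
      W (c * Il N Lt Y * P ^ 3 * E) ≤ P * E * W1) →
    ∀ (Pr : ι → Finset (Eis × Eis)) (i j : ℕ), (∀ o ∈ O, ∀ p ∈ Pr o, IsPrim p.1 ∧ IsPrim p.2 ∧
        ((2 : ℝ) ^ i ≤ nm p.1 ∧ (nm p.1 : ℝ) ≤ 2 ^ (i + 1)) ∧
        ((2 : ℝ) ^ j ≤ nm p.2 ∧ (nm p.2 : ℝ) ≤ 2 ^ (j + 1)) ∧ (nm p.1 : ℝ) * nm p.2 ≤ P₁) →
    ∀ t : ℝ, (2 : ℝ) ^ j * ∑ o ∈ O, ∑ p ∈ Pr o, ∑ κ ∈ KS lam,
        ‖XS χ w (Yq o / nm (p.1 * p.2 ^ 2)) t (bs (b o) (p.1 * p.2 ^ 2)) κ‖ ^ 2 ≤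
      C * Z ^ ε * (1 + |t|) ^ J * (Y * nf lam (Il N lam Y) * ((lam / Lt) ^ (1 / 3 : ℝ) * W1)) := by
  classical
  obtain ⟨C₁, hC₁, htau⟩ := Div277.tau_le_rpow (ε := min (ε / 32) (1 / 2)) (by positivity)
  set e₁ : ℝ := min (ε / 32) (1 / 2) with he₁
  have he0 : 0 < e₁ := by positivity
  have he2 : 2 * e₁ ≤ 1 := by have := min_le_right (ε / 32) (1 / 2 : ℝ); rw [← he₁] at this; linarith
  have he3 : e₁ ≤ ε / 32 := min_le_left _ _
  obtain ⟨C₂, c, J, hC₂, hc, hmain⟩ := hP R hR (a + 1) A hA (ε / 6) (by positivity)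
  refine ⟨C₂ * (C₁ ^ 2 * (8 * c) ^ (2 * e₁)), 8 * c, J, by positivity, by linarith, ?_⟩
  intro Z N Y Lt lam P₁ hZ hN hNZ hY hYZ hlam hlamL hLZ hLN hP₁ hPZ ι O b Yq hYq hbS hbW W hW
    hWle W1 hW1 hW1le Pr i j hPr t
  have hY0 : 0 < Y := by linarith
  have hLt0 : 0 < Lt := by linarith
  have hlam0 : 0 < lam := by linarith
  have hZ0 : 0 < Z := by linarith
  have hIl0 : 0 < Il N lam Y := by unfold Il; positivity
  have hRHS : 0 ≤ C₂ * (C₁ ^ 2 * (8 * c) ^ (2 * e₁)) * Z ^ ε * (1 + |t|) ^ J *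
      (Y * nf lam (Il N lam Y) * ((lam / Lt) ^ (1 / 3 : ℝ) * W1)) := by
    have := nf_nonneg hlam0.le hIl0.le
    positivity
  -- the empty case
  by_cases hne : ∃ o ∈ O, ∃ p, p ∈ Pr o
  swap
  · push Not at hne
    have e0 : ∑ o ∈ O, ∑ p ∈ Pr o, ∑ κ ∈ KS lam,
        ‖XS χ w (Yq o / nm (p.1 * p.2 ^ 2)) t (bs (b o) (p.1 * p.2 ^ 2)) κ‖ ^ 2 = 0 :=
      Finset.sum_eq_zero fun o ho => by
        rw [Finset.eq_empty_of_forall_notMem (hne o ho), Finset.sum_empty]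
    rw [e0, mul_zero]; exact hRHS
  obtain ⟨o₀, ho₀, p₀, hp₀⟩ := hne
  have h2i : (1 : ℝ) ≤ 2 ^ i := one_le_pow₀ (by norm_num)
  have h2j : (1 : ℝ) ≤ 2 ^ j := one_le_pow₀ (by norm_num)
  set P : ℝ := 2 ^ i * 2 ^ j with hPdef
  have hP1 : 1 ≤ P := one_le_mul_of_one_le_of_one_le h2i h2j
  have hPP₁ : P ≤ P₁ := by
    obtain ⟨-, -, h1, h2, h3⟩ := hPr o₀ ho₀ p₀ hp₀
    calc P ≤ (nm p₀.1 : ℝ) * nm p₀.2 := mul_le_mul h1.1 h2.1 (by positivity) (by positivity)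
      _ ≤ P₁ := h3
  have hPZ' : P ≤ Z := hPP₁.trans hPZ
  have h2iZ : (2 : ℝ) ^ i ≤ Z := le_trans (by
    rw [hPdef]; exact le_mul_of_one_le_right (by positivity) h2j) hPZ'
  have h2jZ : (2 : ℝ) ^ j ≤ Z := le_trans (by
    rw [hPdef]; exact le_mul_of_one_le_left (by positivity) h2i) hPZ'
  set M : ℝ := 2 ^ i * (2 ^ j) ^ 2 with hMdef
  have hM1 : 1 ≤ M := one_le_mul_of_one_le_of_one_le h2i (one_le_pow₀ h2j)
  have hMZ : M ≤ Z ^ 2 := by
    calc M = P * 2 ^ j := by rw [hMdef, hPdef]; ring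
      _ ≤ Z * Z := mul_le_mul hPZ' h2jZ (by positivity) hZ0.le
      _ = Z ^ 2 := by ring
  set X : ℝ := Y / M with hXdef
  have hM0 : 0 < M := by linarith
  have hX0 : 0 < X := by positivity
  have hXY : X ≤ Y := div_le_self hY0.le hM1
  -- the merged frequencies
  set cm : ℝ := 8 * ((2 ^ i) ^ 2 * 2 ^ j) with hcm
  have hcm0 : 0 < cm := by positivity
  have hcmZ : cm ≤ 8 * Z ^ 3 := by
    rw [hcm]
    have : (2 ^ i) ^ 2 * 2 ^ j ≤ Z ^ 2 * Z :=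
      mul_le_mul (pow_le_pow_left₀ (by positivity) h2iZ 2) h2jZ (by positivity) (by positivity)
    calc 8 * ((2 ^ i) ^ 2 * 2 ^ j) ≤ 8 * (Z ^ 2 * Z) := by linarith
      _ = 8 * Z ^ 3 := by ring
  set Wf : ℝ → ℝ := fun P => C₁ ^ 2 * (cm * max 1 P) ^ (2 * e₁) * W (cm * P) with hWf
  have hWfS : Slp (a + 1) Wf := slp_fam hW hcm0 (by positivity) (by positivity) he2
  -- the family
  set Fm : Finset (Σ _ : ι, Eis × Eis) := O.sigma Pr with hFm
  set bb : (Σ _ : ι, Eis × Eis) → Eis → ℂ := fun x => bs (b x.1) (x.2.1 * x.2.2 ^ 2) with hbb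
  set Xq : (Σ _ : ι, Eis × Eis) → ℝ := fun x => Yq x.1 / nm (x.2.1 * x.2.2 ^ 2) with hXq
  have hmemF : ∀ x ∈ Fm, x.1 ∈ O ∧ x.2 ∈ Pr x.1 := fun x hx => by
    rw [hFm, Finset.mem_sigma] at hx; exact hx
  have hXqb : ∀ x ∈ Fm, X / 64 ≤ Xq x ∧ Xq x ≤ X := by
    intro x hx
    obtain ⟨ho, hp⟩ := hmemF x hx
    obtain ⟨h1, h2, h3, h4, -⟩ := hPr _ ho _ hp
    have hn : ((nm (x.2.1 * x.2.2 ^ 2) : ℕ) : ℝ) = nm x.2.1 * (nm x.2.2 : ℝ) ^ 2 := by
      rw [nm_mul, nm_pow]; push_cast; ring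
    have hlo : M ≤ nm x.2.1 * (nm x.2.2 : ℝ) ^ 2 := by
      rw [hMdef]
      exact mul_le_mul h3.1 (pow_le_pow_left₀ (by positivity) h4.1 2) (by positivity) (by positivity)
    have hhi : nm x.2.1 * (nm x.2.2 : ℝ) ^ 2 ≤ 8 * M := by
      calc nm x.2.1 * (nm x.2.2 : ℝ) ^ 2 ≤ 2 ^ (i + 1) * (2 ^ (j + 1)) ^ 2 :=
            mul_le_mul h3.2 (pow_le_pow_left₀ (by positivity) h4.2 2) (by positivity) (by positivity)
        _ = 8 * M := by rw [hMdef, pow_succ, pow_succ]; ring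
    have hpos : 0 < nm x.2.1 * (nm x.2.2 : ℝ) ^ 2 := lt_of_lt_of_le hM0 hlo
    have hy := hYq _ ho
    rw [hXq]
    beta_reduce
    rw [hn]
    constructor
    · rw [hXdef, div_div, div_le_div_iff₀ (by positivity) hpos]
      have hY4 : Y ≤ 4 * Yq x.1 := by linarith [hy.1]
      have hYq0 : 0 ≤ Yq x.1 := by linarith [hy.1]
      calc Y * (nm x.2.1 * (nm x.2.2 : ℝ) ^ 2) ≤ (4 * Yq x.1) * (8 * M) :=
            mul_le_mul hY4 hhi hpos.le (by positivity)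
        _ ≤ Yq x.1 * (M * 64) := by nlinarith [mul_nonneg hYq0 hM0.le]
    · rw [hXdef]
      have hYq0 : 0 ≤ Yq x.1 := by linarith [hy.1]
      exact div_le_div₀ hY0.le hy.2 hM0 hlo
  have hbbS : ∀ x ∈ Fm, ∀ n, bb x n ≠ 0 → n ∈ S (Z ^ 3) := by
    intro x hx n hn
    have h1 := hbS _ (hmemF x hx).1 n (bs_supp hn)
    rw [mem_S hZ0.le] at h1
    rw [mem_S (by positivity)]
    refine ⟨h1.1.trans ?_, h1.2⟩
    calc Z = Z ^ 1 := (pow_one Z).symm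
      _ ≤ Z ^ 3 := pow_le_pow_right₀ hZ (by norm_num)
  have hbbW : ∀ x ∈ Fm, Win (bb x) (Real.log N) R := by
    intro x hx n hn
    exact hbW _ (hmemF x hx).1 n (bs_supp hn)
  have hWfle : ∀ g f π : Eis, IsPrim g → IsPrim f → IsPrim π → ∀ P : ℝ, 1 ≤ P →
      (nm g : ℝ) * nm f * ∑ x ∈ Fm, VI A (bb x) (g * f) f π P ≤ Wf P := by
    intro g f π hg hf hπ Q hQ
    have hQ0 : 0 ≤ Q := by linarith
    rw [hFm, Finset.sum_sigma]
    have hT : ∀ k ∈ bl (cm * Q), ((pdiv k).card : ℝ) ≤ C₁ * (cm * Q) ^ e₁ := by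
      intro k hk
      have hk' := (mem_bl (by positivity)).mp hk
      refine (htau k hk'.1).trans ?_
      exact mul_le_mul_of_nonneg_left (Real.rpow_le_rpow (Nat.cast_nonneg _) hk'.2 he0.le)
        (by linarith)
    have h1 : ∀ o ∈ O, ∑ p ∈ Pr o, VI A (bb ⟨o, p⟩) (g * f) f π Q ≤
        (C₁ * (cm * Q) ^ e₁) ^ 2 * VI A (b o) (g * f) f π (cm * Q) := by
      intro o ho
      refine VI_merge A (fun n hn => ((mem_S hZ0.le).1 (hbS o ho n hn)).2.1) (hg.mul hf)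
        (fun p hp => ⟨(hPr o ho p hp).1, (hPr o ho p hp).2.1⟩) hQ0 hcm0.le (fun p hp => ?_)
        (by positivity) hT
      obtain ⟨-, -, h3, h4, -⟩ := hPr o ho p hp
      rw [nm_mul, nm_pow]
      push_cast
      calc (nm p.1 : ℝ) ^ 2 * nm p.2 ≤ (2 ^ (i + 1)) ^ 2 * 2 ^ (j + 1) :=
            mul_le_mul (pow_le_pow_left₀ (by positivity) h3.2 2) h4.2 (by positivity) (by positivity)
        _ = cm := by rw [hcm, pow_succ, pow_succ]; ring
    have h2 := hWle g f π hg hf hπ (cm * Q) (by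
      have : (1 : ℝ) ≤ (2 ^ i) ^ 2 * 2 ^ j := one_le_mul_of_one_le_of_one_le (one_le_pow₀ h2i) h2j
      nlinarith)
    have hg0 : (0 : ℝ) ≤ nm g * nm f := by positivity
    calc (nm g : ℝ) * nm f * ∑ o ∈ O, ∑ p ∈ Pr o, VI A (bb ⟨o, p⟩) (g * f) f π Q
        ≤ (nm g : ℝ) * nm f * ∑ o ∈ O,
          (C₁ * (cm * Q) ^ e₁) ^ 2 * VI A (b o) (g * f) f π (cm * Q) :=
          mul_le_mul_of_nonneg_left (Finset.sum_le_sum h1) hg0
      _ = (C₁ * (cm * Q) ^ e₁) ^ 2 *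
          ((nm g : ℝ) * nm f * ∑ o ∈ O, VI A (b o) (g * f) f π (cm * Q)) := by
          rw [← Finset.mul_sum]; ring
      _ ≤ (C₁ * (cm * Q) ^ e₁) ^ 2 * W (cm * Q) := mul_le_mul_of_nonneg_left h2 (by positivity)
      _ = Wf Q := by
          rw [hWf]
          beta_reduce
          rw [max_eq_right hQ, mul_pow, ← Real.rpow_natCast ((cm * Q) ^ e₁),
            ← Real.rpow_mul (by positivity)]
          congr 3
          push_cast; ring
  -- the constant of the family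
  set W2 : ℝ := C₁ ^ 2 * (8 * c) ^ (2 * e₁) * Z ^ (16 * e₁) *
    ((lam / Lt) ^ (1 / 3 : ℝ) * (P * W1)) with hW2
  have hW20 : 0 ≤ W2 := by positivity
  have hIX : Il N lam X = Il N lam Y * M := by unfold Il; rw [hXdef]; field_simp
  have hIX0 : 0 < Il N lam X := by rw [hIX]; positivity
  have hIXZ : Il N lam X ≤ Z ^ 4 := by
    rw [hIX]
    have h1 : Il N lam Y ≤ Z ^ 2 := by
      unfold Il
      calc N * lam / Y ≤ N * lam := div_le_self (by positivity) hY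
        _ ≤ Z * Z := mul_le_mul hNZ (hlamL.trans hLZ) hlam0.le hZ0.le
        _ = Z ^ 2 := by ring
    calc Il N lam Y * M ≤ Z ^ 2 * Z ^ 2 := mul_le_mul h1 hMZ hM0.le (by positivity)
      _ = Z ^ 4 := by ring
  have hWf1 : ∀ E : ℝ, 1 ≤ E → E ≤ lam → Wf (c * Il N lam X * E) ≤ E * W2 := by
    intro E hE hEl
    have hE0 : 0 < E := by linarith
    have hc0 : 0 < c := by linarith
    rw [hWf]
    beta_reduce
    have h1 : (cm * max 1 (c * Il N lam X * E)) ^ (2 * e₁) ≤ (8 * c) ^ (2 * e₁) * Z ^ (16 * e₁) := by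
      have h2 : max 1 (c * Il N lam X * E) ≤ c * Z ^ 5 := by
        refine max_le ?_ ?_
        · have : (1 : ℝ) ≤ Z ^ 5 := one_le_pow₀ hZ
          nlinarith
        · calc c * Il N lam X * E ≤ c * Z ^ 4 * Z := by
                have : E ≤ Z := hEl.trans (hlamL.trans hLZ)
                gcongr
            _ = c * Z ^ 5 := by ring
      have h3 : cm * max 1 (c * Il N lam X * E) ≤ (8 * c) * Z ^ (8 : ℕ) := by
        have h4 : (0 : ℝ) ≤ max 1 (c * Il N lam X * E) := le_trans zero_le_one (le_max_left _ _)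
        calc cm * max 1 (c * Il N lam X * E) ≤ (8 * Z ^ 3) * (c * Z ^ 5) :=
              mul_le_mul hcmZ h2 h4 (by positivity)
          _ = (8 * c) * Z ^ (8 : ℕ) := by ring
      have h5 : (0 : ℝ) ≤ cm * max 1 (c * Il N lam X * E) :=
        mul_nonneg hcm0.le (le_trans zero_le_one (le_max_left _ _))
      calc (cm * max 1 (c * Il N lam X * E)) ^ (2 * e₁) ≤ ((8 * c) * Z ^ (8 : ℕ)) ^ (2 * e₁) :=
            Real.rpow_le_rpow h5 h3 (by positivity)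
        _ = (8 * c) ^ (2 * e₁) * Z ^ (16 * e₁) := by
            rw [Real.mul_rpow (by positivity) (by positivity), ← Real.rpow_natCast Z 8,
              ← Real.rpow_mul hZ0.le]
            congr 2
            push_cast; ring
    have h6 : W (cm * (c * Il N lam X * E)) ≤ (lam / Lt) ^ (1 / 3 : ℝ) * (P * E * W1) := by
      have e1 : cm * (c * Il N lam X * E) = 8 * c * Il N lam Y * P ^ 3 * E := by
        rw [hIX, hcm, hPdef, hMdef]; ring
      have e2 : Il N lam Y ≤ Il N Lt Y := by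
        unfold Il
        gcongr
      have h7 := hW.low (8 * c * Il N lam Y * P ^ 3 * E) (8 * c * Il N Lt Y * P ^ 3 * E)
        (by positivity) (by gcongr)
      have e3 : 8 * c * Il N lam Y * P ^ 3 * E / (8 * c * Il N Lt Y * P ^ 3 * E) = lam / Lt := by
        unfold Il; field_simp
      rw [e3] at h7
      rw [e1]
      refine h7.trans (mul_le_mul_of_nonneg_left ?_ (by positivity))
      exact hW1le P E hP1 hPP₁ hE (hEl.trans hlamL)
    have h8 : 0 ≤ W (cm * (c * Il N lam X * E)) := hW.nonneg _ (by positivity)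
    calc C₁ ^ 2 * (cm * max 1 (c * Il N lam X * E)) ^ (2 * e₁) * W (cm * (c * Il N lam X * E))
        ≤ C₁ ^ 2 * ((8 * c) ^ (2 * e₁) * Z ^ (16 * e₁)) *
          ((lam / Lt) ^ (1 / 3 : ℝ) * (P * E * W1)) := by
          gcongr
      _ = E * W2 := by rw [hW2]; ring
  -- application
  have hZ3 : (1 : ℝ) ≤ Z ^ 3 := one_le_pow₀ hZ
  have hZZ3 : Z ≤ Z ^ 3 := by
    calc Z = Z ^ 1 := (pow_one Z).symm
      _ ≤ Z ^ 3 := pow_le_pow_right₀ hZ (by norm_num)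
  have hXZ : 1 ≤ X * Z ^ 3 := by
    rw [hXdef, div_mul_eq_mul_div, one_le_div hM0]
    calc M ≤ Z ^ 2 := hMZ
      _ ≤ Z ^ 3 := pow_le_pow_right₀ hZ (by norm_num)
      _ ≤ Y * Z ^ 3 := le_mul_of_one_le_left (by positivity) hY
  have h := hmain (Z ^ 3) N X lam hZ3 hN (hNZ.trans hZZ3) hX0 (hXY.trans (hYZ.trans hZZ3)) hXZ hlam
    ((hlamL.trans hLZ).trans hZZ3)
    (lt_of_le_of_lt (mul_le_mul_of_nonneg_right hlamL (Real.exp_pos R).le) hLN)
    Fm bb Xq hXqb hbbS hbbW Wf hWfS hWfle W2 hW20 hWf1 t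
  rw [hFm, Finset.sum_sigma] at h
  have hZε : (Z ^ 3) ^ (ε / 6) * Z ^ (16 * e₁) ≤ Z ^ ε := by
    rw [← Real.rpow_natCast Z 3, ← Real.rpow_mul hZ0.le, ← Real.rpow_add hZ0]
    refine Real.rpow_le_rpow_of_exponent_le hZ ?_
    push_cast
    linarith
  have hnf : nf lam (Il N lam X) ≤ nf lam (Il N lam Y) := by
    refine nf_anti hlam0.le hIl0 ?_
    rw [hIX]; exact le_mul_of_one_le_right hIl0.le hM1
  have hnf0 := nf_nonneg hlam0.le hIX0.le
  have hnf1 := nf_nonneg hlam0.le hIl0.le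
  have hXP : (2 : ℝ) ^ j * X * P = Y := by
    rw [hXdef, hPdef, hMdef]; field_simp
  calc (2 : ℝ) ^ j * ∑ o ∈ O, ∑ p ∈ Pr o, ∑ κ ∈ KS lam,
        ‖XS χ w (Yq o / nm (p.1 * p.2 ^ 2)) t (bs (b o) (p.1 * p.2 ^ 2)) κ‖ ^ 2
      ≤ 2 ^ j * (C₂ * (Z ^ 3) ^ (ε / 6) * (1 + |t|) ^ J * (X * nf lam (Il N lam X) * W2)) :=
        mul_le_mul_of_nonneg_left h (by positivity)
    _ = (C₂ * (C₁ ^ 2 * (8 * c) ^ (2 * e₁))) * ((Z ^ 3) ^ (ε / 6) * Z ^ (16 * e₁)) *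
        (1 + |t|) ^ J * ((2 ^ j * X * P) * nf lam (Il N lam X) *
          ((lam / Lt) ^ (1 / 3 : ℝ) * W1)) := by rw [hW2]; ring
    _ = (C₂ * (C₁ ^ 2 * (8 * c) ^ (2 * e₁))) * ((Z ^ 3) ^ (ε / 6) * Z ^ (16 * e₁)) *
        (1 + |t|) ^ J * (Y * nf lam (Il N lam X) * ((lam / Lt) ^ (1 / 3 : ℝ) * W1)) := by
          rw [hXP]
    _ ≤ (C₂ * (C₁ ^ 2 * (8 * c) ^ (2 * e₁))) * Z ^ ε *
        (1 + |t|) ^ J * (Y * nf lam (Il N lam Y) * ((lam / Lt) ^ (1 / 3 : ℝ) * W1)) := by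
          gcongr

end Crest.Agent.R017.Mode405
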