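import Crest.Agent.R017.ModeC2_405

/-!
# Row 17, block C70, leaf E3: MODE, part C3 (helper405): the structured half, all blocks
-/

set_option autoImplicit false

noncomputable section

open Complex MeasureTheory
open scoped ComplexConjugate

namespace Crest.Agent.R017.Mode405

open Crest.Agent.R012 Crest.Agent.R012.Eis Crest.Agent.R012.MC
open Crest.Agent.R012.LS2 (S mem_S bl mem_bl)
open Crest.Agent.R012.LS448 (one_le_nm')
open Crest.Agent.R012.NonCube52 (Ker kv Good kc kc_spec kc_nm kv_ne_zero one_le_nmkv)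
open Crest.Agent.R012.Mob705 (mu pdiv mem_pdiv)
open Crest.Agent.R012.Weight600 (pw)
open Crest.Agent.R017.CM106 (CS TG FS)
open Crest.Agent.R017.BD829 (TT EQ Win EQ_nonneg)
open Crest.Agent.R017.E1551 (jb jb_pos nmpos)
open Crest.Agent.R017.DgB829 (HS HS_le HS_nonneg)

lemma one_add_log_le {Z δ : ℝ} (hZ : 1 ≤ Z) (hδ : 0 < δ) :
    1 + Real.log Z ≤ (1 + 1 / δ) * Z ^ δ := by
  have h1 : Real.log Z ≤ Z ^ δ / δ := Real.log_le_rpow_div (by linarith) hδ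
  have h2 : 1 ≤ Z ^ δ := Real.one_le_rpow hZ hδ.le
  calc 1 + Real.log Z ≤ Z ^ δ + Z ^ δ / δ := add_le_add h2 h1
    _ = _ := by ring

lemma natlog_le {n : ℕ} {Z δ : ℝ} (hZ : 1 ≤ Z) (hδ : 0 < δ) (hn : (n : ℝ) ≤ Z) :
    ((Nat.log 2 n : ℕ) : ℝ) + 1 ≤ 2 * ((1 + 1 / δ) * Z ^ δ) := by
  have h0 := one_add_log_le hZ hδ
  have hl : 0 ≤ Real.log Z := Real.log_nonneg hZ
  rcases Nat.eq_zero_or_pos n with h | h
  · subst h
    simp only [Nat.log_zero_right, Nat.cast_zero, zero_add]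
    linarith
  · have h1 : (2 : ℝ) ^ (Nat.log 2 n) ≤ n := by exact_mod_cast Nat.pow_log_le_self 2 h.ne'
    have h2 : (Nat.log 2 n : ℝ) * Real.log 2 ≤ Real.log Z := by
      rw [← Real.log_pow]
      exact Real.log_le_log (by positivity) (h1.trans hn)
    have h3 : (1 : ℝ) / 2 ≤ Real.log 2 := by
      have := Real.log_two_gt_d9; linarith
    have h4 : (0 : ℝ) ≤ Nat.log 2 n := Nat.cast_nonneg _
    nlinarith

lemma HS_rpow {Y Z δ c : ℝ} (hY : 1 ≤ Y) (hYZ : Y ≤ c * Z) (hZ : 1 ≤ Z) (hc : 1 ≤ c) (hδ : 0 < δ) :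
    HS Y ≤ 200 * (1 + Real.log c) * (1 + 1 / δ) * Z ^ δ := by
  have h1 := HS_le hY
  have h2 : Real.log Y ≤ Real.log c + Real.log Z := by
    rw [← Real.log_mul (by linarith) (by linarith)]
    exact Real.log_le_log (by linarith) hYZ
  have h3 := one_add_log_le hZ hδ
  have h4 : 0 ≤ Real.log c := Real.log_nonneg hc
  have h5 : 0 ≤ Real.log Z := Real.log_nonneg hZ
  calc HS Y ≤ 200 * (1 + Real.log Y) := h1
    _ ≤ 200 * ((1 + Real.log c) * (1 + Real.log Z)) := by nlinarith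
    _ ≤ 200 * ((1 + Real.log c) * ((1 + 1 / δ) * Z ^ δ)) := by
        have : 0 ≤ 1 + Real.log c := by linarith
        gcongr
    _ = _ := by ring

set_option maxHeartbeats 1000000 in
/-- **the structured half** at one level -/
theorem str_le {χ : Eis → ℂ} (hχ : Mul1 χ) {w : ℝ → ℝ} (hP : PoHS χ w) {cw : ℝ} (hcw : 1 ≤ cw)
    {R : ℝ} (hR : 0 ≤ R) (a A : ℕ) (hA : 1 < A) {ε : ℝ} (hε : 0 < ε) :
    ∃ (C c : ℝ) (J : ℕ), 0 ≤ C ∧ 1 ≤ c ∧ ∀ Z N Y Lt lam P₁ : ℝ, 1 ≤ Z → 0 < N → N ≤ Z → 1 ≤ Y →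
      Y ≤ Z → 1 ≤ lam → lam ≤ Lt → Lt ≤ Z → Lt * Real.exp R < N → 1 ≤ P₁ → P₁ ≤ Z →
    ∀ {ι : Type} (O : Finset ι) (b : ι → Eis → ℂ) (Yq : ι → ℝ),
      (∀ o ∈ O, Y / 4 ≤ Yq o ∧ Yq o ≤ Y) → (∀ o ∈ O, ∀ n, b o n ≠ 0 → n ∈ S Z) →
      (∀ o ∈ O, Win (b o) (Real.log N) R) →
    ∀ W : ℝ → ℝ, Slp a W →
      (∀ g f π : Eis, IsPrim g → IsPrim f → IsPrim π → ∀ P : ℝ, 1 ≤ P →
        (nm g : ℝ) * nm f * ∑ o ∈ O, VI A (b o) (g * f) f π P ≤ W P) →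
    ∀ W1 : ℝ, 0 ≤ W1 → (∀ P E : ℝ, 1 ≤ P → P ≤ P₁ → 1 ≤ E → E ≤ Lt →
      W (c * Il N Lt Y * P ^ 3 * E) ≤ P * E * W1) →
    ∀ ρ : ι → Eis, (∀ o ∈ O, ρ o ≠ 0 ∧ (nm (ρ o) : ℝ) ≤ Z ^ 3) →
    ∀ t : ℝ, ∑ o ∈ O, ∑ κ ∈ KS lam, ‖StrP χ w (Yq o) t (b o) κ (ρ o) (cw * Y) P₁‖ ^ 2 ≤
      C * Z ^ ε * (1 + |t|) ^ J * (Y * nf lam (Il N lam Y) * ((lam / Lt) ^ (1 / 3 : ℝ) * W1)) := by
  classical
  obtain ⟨C, c, J, hC, hc, hmain⟩ := block_le hP hR a A hA (ε := ε / 2) (by positivity)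
  obtain ⟨Ct, hCt, htau⟩ := Div277.tau_le_rpow (ε := ε / 24) (by positivity)
  set δ : ℝ := ε / 8 with hδ
  have hδ0 : 0 < δ := by positivity
  set c3 : ℝ := 200 * (1 + Real.log cw) * (1 + 1 / δ) with hc3
  have hlcw : 0 ≤ Real.log cw := Real.log_nonneg hcw
  have hc30 : 0 ≤ c3 := by positivity
  set c4 : ℝ := 2 * (1 + 1 / (δ / 2)) with hc4
  have hc40 : 0 ≤ c4 := by positivity
  refine ⟨Ct * c3 * (c4 ^ 2 * (2 * C)), c, J, by positivity, hc, ?_⟩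
  intro Z N Y Lt lam P₁ hZ hN hNZ hY hYZ hlam hlamL hLZ hLN hP₁ hPZ ι O b Yq hYq hbS hbW W hW
    hWle W1 hW1 hW1le ρ hρ t
  have hY0 : 0 < Y := by linarith
  have hZ0 : 0 < Z := by linarith
  have hlam0 : 0 < lam := by linarith
  have hcw0 : 0 < cw := by linarith
  have hcY : 1 ≤ cw * Y := one_le_mul_of_one_le_of_one_le hcw hY
  have hcY0 : 0 ≤ cw * Y := by linarith
  set PrO : ι → Finset (Eis × Eis) := fun o =>
    (pdiv (ρ o) ×ˢ S (cw * Y)).filter (fun p => (nm p.1 : ℝ) * nm p.2 ≤ P₁) with hPrO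
  set I : ℕ := Nat.log 2 ⌊P₁⌋₊ with hI
  set lg : Eis × Eis → ℕ × ℕ := fun p => (Nat.log 2 (nm p.1), Nat.log 2 (nm p.2)) with hlg
  set Rg : Finset (ℕ × ℕ) := Finset.range (I + 1) ×ˢ Finset.range (I + 1) with hRg
  set f : ι → Eis × Eis → Ker → ℝ := fun o p κ =>
    ‖XS χ w (Yq o / nm (p.1 * p.2 ^ 2)) t (bs (b o) (p.1 * p.2 ^ 2)) κ‖ ^ 2 with hf
  have hf0 : ∀ o p κ, 0 ≤ f o p κ := fun o p κ => by rw [hf]; positivity
  have hmem : ∀ o ∈ O, ∀ p ∈ PrO o, IsPrim p.1 ∧ IsPrim p.2 ∧ (nm p.1 : ℝ) * nm p.2 ≤ P₁ := by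
    intro o ho p hp
    rw [hPrO] at hp
    simp only [Finset.mem_filter, Finset.mem_product] at hp
    rw [mem_pdiv (hρ o ho).1, mem_S hcY0] at hp
    exact ⟨hp.1.1.1, hp.1.2.2.1, hp.2⟩
  have hmaps : ∀ o ∈ O, ∀ p ∈ PrO o, lg p ∈ Rg := by
    intro o ho p hp
    obtain ⟨h1, h2, h3⟩ := hmem o ho p hp
    have n1 := one_le_nm' h1.ne_zero
    have n2 := one_le_nm' h2.ne_zero
    rw [hRg, hlg]
    simp only [Finset.mem_product, Finset.mem_range, Nat.lt_succ_iff]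
    constructor
    · refine Nat.log_mono_right (Nat.le_floor ?_)
      nlinarith
    · refine Nat.log_mono_right (Nat.le_floor ?_)
      nlinarith
  -- step A
  have hA1 : ∀ o ∈ O, ∀ κ ∈ KS lam, ‖StrP χ w (Yq o) t (b o) κ (ρ o) (cw * Y) P₁‖ ^ 2 ≤
      (Ct * Z ^ (ε / 8)) * (c3 * Z ^ δ) * ∑ p ∈ PrO o, (nm p.2 : ℝ) * f o p κ := by
    intro o ho κ _
    have hYq0 : 0 < Yq o := by have := (hYq o ho).1; linarith
    have h1 := norm_StrP_le (w := w) hχ (t := t) hYq0 (fun n hn => ((mem_S hZ0.le).1 (hbS o ho n hn)).2.1)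
      κ (hρ o ho).1 hcY0 P₁
    refine h1.trans ?_
    have h2 : ∑ d ∈ pdiv (ρ o), ∑ q ∈ S (cw * Y), (if (nm d : ℝ) * nm q ≤ P₁ then
        (nm q : ℝ) * ‖XS χ w (Yq o / nm (d * q ^ 2)) t (bs (b o) (d * q ^ 2)) κ‖ ^ 2 else 0) =
        ∑ p ∈ PrO o, (nm p.2 : ℝ) * f o p κ := by
      rw [hPrO]
      beta_reduce
      rw [Finset.sum_filter, Finset.sum_product]
    rw [h2]
    have h3 : ((pdiv (ρ o)).card : ℝ) ≤ Ct * Z ^ (ε / 8) := by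
      refine (htau _ (hρ o ho).1).trans (mul_le_mul_of_nonneg_left ?_ (by linarith))
      calc (nm (ρ o) : ℝ) ^ (ε / 24) ≤ (Z ^ 3) ^ (ε / 24) :=
            Real.rpow_le_rpow (Nat.cast_nonneg _) (hρ o ho).2 (by positivity)
        _ = Z ^ (ε / 8) := by
            rw [← Real.rpow_natCast Z 3, ← Real.rpow_mul hZ0.le]; congr 1; push_cast; ring
    have h4 : HS (cw * Y) ≤ c3 * Z ^ δ :=
      HS_rpow hcY (mul_le_mul_of_nonneg_left hYZ hcw0.le) hZ hcw hδ0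
    have h5 : 0 ≤ ∑ p ∈ PrO o, (nm p.2 : ℝ) * f o p κ :=
      Finset.sum_nonneg fun p _ => mul_nonneg (Nat.cast_nonneg _) (hf0 _ _ _)
    exact mul_le_mul_of_nonneg_right (mul_le_mul h3 h4 (HS_nonneg _) (by positivity)) h5
  -- step B
  set B : ℝ := C * Z ^ (ε / 2) * (1 + |t|) ^ J *
    (Y * nf lam (Il N lam Y) * ((lam / Lt) ^ (1 / 3 : ℝ) * W1)) with hB
  have hIl0 : 0 < Il N lam Y := by unfold Il; positivity
  have hLt0 : 0 < Lt := by linarith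
  have hB0 : 0 ≤ B := by
    have := nf_nonneg hlam0.le hIl0.le
    rw [hB]; positivity
  have hblock : ∀ ij ∈ Rg, (2 : ℝ) ^ ij.2 * ∑ o ∈ O, ∑ p ∈ (PrO o).filter (fun p => lg p = ij),
      ∑ κ ∈ KS lam, f o p κ ≤ B := by
    intro ij _
    refine hmain Z N Y Lt lam P₁ hZ hN hNZ hY hYZ hlam hlamL hLZ hLN hP₁ hPZ O b Yq hYq hbS hbW W hW
      hWle W1 hW1 hW1le (fun o => (PrO o).filter (fun p => lg p = ij)) ij.1 ij.2 ?_ t
    intro o ho p hp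
    rw [Finset.mem_filter] at hp
    obtain ⟨h1, h2, h3⟩ := hmem o ho p hp.1
    have n1 : nm p.1 ≠ 0 := by
      have := nmpos h1.ne_zero
      exact_mod_cast this.ne'
    have n2 : nm p.2 ≠ 0 := by
      have := nmpos h2.ne_zero
      exact_mod_cast this.ne'
    have e1 : Nat.log 2 (nm p.1) = ij.1 := (Prod.mk.inj hp.2).1
    have e2 : Nat.log 2 (nm p.2) = ij.2 := (Prod.mk.inj hp.2).2
    refine ⟨h1, h2, ⟨?_, ?_⟩, ⟨?_, ?_⟩, h3⟩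
    · rw [← e1]; exact_mod_cast Nat.pow_log_le_self 2 n1
    · rw [← e1]; exact_mod_cast (Nat.lt_pow_succ_log_self (by norm_num) _).le
    · rw [← e2]; exact_mod_cast Nat.pow_log_le_self 2 n2
    · rw [← e2]; exact_mod_cast (Nat.lt_pow_succ_log_self (by norm_num) _).le
  have hstep : ∑ o ∈ O, ∑ κ ∈ KS lam, ∑ p ∈ PrO o, (nm p.2 : ℝ) * f o p κ ≤
      ∑ ij ∈ Rg, 2 * B := by
    have h1 : ∀ o ∈ O, ∑ κ ∈ KS lam, ∑ p ∈ PrO o, (nm p.2 : ℝ) * f o p κ =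
        ∑ ij ∈ Rg, ∑ p ∈ (PrO o).filter (fun p => lg p = ij), (nm p.2 : ℝ) *
          ∑ κ ∈ KS lam, f o p κ := by
      intro o ho
      rw [Finset.sum_comm]
      rw [← Finset.sum_fiberwise_of_maps_to (hmaps o ho)]
      exact Finset.sum_congr rfl fun ij _ => Finset.sum_congr rfl fun p _ => by
        rw [Finset.mul_sum]
    rw [Finset.sum_congr rfl h1, Finset.sum_comm]
    refine Finset.sum_le_sum fun ij hij => ?_
    have h2 : ∀ o ∈ O, ∑ p ∈ (PrO o).filter (fun p => lg p = ij), (nm p.2 : ℝ) *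
          ∑ κ ∈ KS lam, f o p κ ≤ (2 * 2 ^ ij.2) *
          ∑ p ∈ (PrO o).filter (fun p => lg p = ij), ∑ κ ∈ KS lam, f o p κ := by
      intro o ho
      rw [Finset.mul_sum]
      refine Finset.sum_le_sum fun p hp => ?_
      rw [Finset.mem_filter] at hp
      have e2 : Nat.log 2 (nm p.2) = ij.2 := (Prod.mk.inj hp.2).2
      refine mul_le_mul_of_nonneg_right ?_ (Finset.sum_nonneg fun _ _ => hf0 _ _ _)
      have h3 : (nm p.2 : ℝ) ≤ 2 ^ (ij.2 + 1) := by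
        rw [← e2]; exact_mod_cast (Nat.lt_pow_succ_log_self (by norm_num) _).le
      calc (nm p.2 : ℝ) ≤ 2 ^ (ij.2 + 1) := h3
        _ = 2 * 2 ^ ij.2 := by rw [pow_succ]; ring
    calc _ ≤ ∑ o ∈ O, (2 * 2 ^ ij.2) *
          ∑ p ∈ (PrO o).filter (fun p => lg p = ij), ∑ κ ∈ KS lam, f o p κ :=
          Finset.sum_le_sum h2
      _ = 2 * ((2 : ℝ) ^ ij.2 * ∑ o ∈ O, ∑ p ∈ (PrO o).filter (fun p => lg p = ij),
          ∑ κ ∈ KS lam, f o p κ) := by rw [← Finset.mul_sum]; ring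
      _ ≤ 2 * B := by have := hblock ij hij; linarith
  have hcard : ((Rg.card : ℕ) : ℝ) ≤ c4 ^ 2 * Z ^ δ := by
    have h1 : ((I : ℕ) : ℝ) + 1 ≤ c4 * Z ^ (δ / 2) := by
      have := natlog_le (n := ⌊P₁⌋₊) hZ (δ := δ / 2) (by positivity)
        ((Nat.floor_le (by linarith)).trans hPZ)
      rw [hI, hc4]
      linarith
    rw [hRg, Finset.card_product, Finset.card_range]
    push_cast
    calc ((I : ℝ) + 1) * ((I : ℝ) + 1) ≤ (c4 * Z ^ (δ / 2)) * (c4 * Z ^ (δ / 2)) :=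
          mul_le_mul h1 h1 (by positivity) (by positivity)
      _ = c4 ^ 2 * Z ^ δ := by
          have : Z ^ δ = Z ^ (δ / 2) * Z ^ (δ / 2) := by
            rw [← Real.rpow_add hZ0]; congr 1; ring
          rw [this]; ring
  calc ∑ o ∈ O, ∑ κ ∈ KS lam, ‖StrP χ w (Yq o) t (b o) κ (ρ o) (cw * Y) P₁‖ ^ 2
      ≤ ∑ o ∈ O, ∑ κ ∈ KS lam, (Ct * Z ^ (ε / 8)) * (c3 * Z ^ δ) *
          ∑ p ∈ PrO o, (nm p.2 : ℝ) * f o p κ :=
        Finset.sum_le_sum fun o ho => Finset.sum_le_sum fun κ hκ => hA1 o ho κ hκ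
    _ = (Ct * Z ^ (ε / 8)) * (c3 * Z ^ δ) *
          ∑ o ∈ O, ∑ κ ∈ KS lam, ∑ p ∈ PrO o, (nm p.2 : ℝ) * f o p κ := by
        simp_rw [Finset.mul_sum]
    _ ≤ (Ct * Z ^ (ε / 8)) * (c3 * Z ^ δ) * ∑ ij ∈ Rg, 2 * B :=
        mul_le_mul_of_nonneg_left hstep (by positivity)
    _ = (Ct * Z ^ (ε / 8)) * (c3 * Z ^ δ) * (Rg.card * (2 * B)) := by
        rw [Finset.sum_const, nsmul_eq_mul]
    _ ≤ (Ct * Z ^ (ε / 8)) * (c3 * Z ^ δ) * ((c4 ^ 2 * Z ^ δ) * (2 * B)) := by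
        gcongr
    _ = Ct * c3 * (c4 ^ 2 * (2 * C)) * (Z ^ (ε / 8) * Z ^ δ * Z ^ δ * Z ^ (ε / 2)) *
        (1 + |t|) ^ J * (Y * nf lam (Il N lam Y) * ((lam / Lt) ^ (1 / 3 : ℝ) * W1)) := by
        rw [hB]; ring
    _ ≤ Ct * c3 * (c4 ^ 2 * (2 * C)) * Z ^ ε *
        (1 + |t|) ^ J * (Y * nf lam (Il N lam Y) * ((lam / Lt) ^ (1 / 3 : ℝ) * W1)) := by
        have h1 : Z ^ (ε / 8) * Z ^ δ * Z ^ δ * Z ^ (ε / 2) ≤ Z ^ ε := by
          rw [← Real.rpow_add hZ0, ← Real.rpow_add hZ0, ← Real.rpow_add hZ0]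
          refine Real.rpow_le_rpow_of_exponent_le hZ ?_
          rw [hδ]; linarith
        have := nf_nonneg hlam0.le hIl0.le
        gcongr

end Crest.Agent.R017.Mode405
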