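import Crest.Agent.R017.ModeG3_405
import Crest.Agent.R017.E3Se_579

/-!
# Row 17, block C70, leaf E3: MODE*, second form, part S (helper405): change of the lengths

* `wgt_log`, `exists_maj`, `exists_ker`
* `fam_smooth` : `XS χ v X' t` with `X' ∈ [X/4, X]` from the majorant weight at the length `X`
-/

set_option autoImplicit false

noncomputable section

open Complex MeasureTheory
open scoped ComplexConjugate ContDiff

namespace Crest.Agent.R017.Mode405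

open Crest.Agent.R012 Crest.Agent.R012.Eis Crest.Agent.R012.MC
open Crest.Agent.R012.LS2 (S mem_S bl mem_bl)
open Crest.Agent.R012.LS448 (one_le_nm')
open Crest.Agent.R012.NonCube52 (Ker kv Good)
open Crest.Agent.R012.Weight600 (pw osc norm_osc norm_pw osc_add_left osc_add_right
  continuous_osc_left pw_add_left)
open Crest.Agent.R017.CM106 (CS TG FS)
open Crest.Agent.R017.E1551 (jb jb_pos nmpos integrable_jb)

lemma wgt_log {v : ℝ → ℝ} (hv : Wgt v) :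
    ∃ R : ℝ, 0 ≤ R ∧ ∀ x, v x ≠ 0 → 0 < x ∧ |Real.log x| ≤ R := by
  have hc : IsCompact (tsupport v) := hv.cpt
  obtain ⟨a₀, b₀, ha, hab, hsub⟩ : ∃ a₀ b₀ : ℝ, 0 < a₀ ∧ a₀ ≤ b₀ ∧
      tsupport v ⊆ Set.Icc a₀ b₀ := by
    rcases (tsupport v).eq_empty_or_nonempty with h | h
    · exact ⟨1, 1, one_pos, le_rfl, by rw [h]; exact Set.empty_subset _⟩
    · obtain ⟨x, hx, hx'⟩ := hc.exists_isMinOn h continuousOn_id
      obtain ⟨y, hy, hy'⟩ := hc.exists_isMaxOn h continuousOn_id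
      exact ⟨x, y, hv.pos hx, hx' hy, fun z hz => ⟨hx' hz, hy' hz⟩⟩
  refine ⟨max |Real.log a₀| |Real.log b₀|, le_max_of_le_left (abs_nonneg _), fun x hx => ?_⟩
  have h1 := hsub (subset_tsupport _ hx)
  have hx0 : 0 < x := lt_of_lt_of_le ha h1.1
  refine ⟨hx0, ?_⟩
  have h2 := Real.log_le_log ha h1.1
  have h3 := Real.log_le_log hx0 h1.2
  rw [abs_le]
  constructor
  · have := neg_abs_le (Real.log a₀)
    linarith [le_max_left |Real.log a₀| |Real.log b₀|]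
  · have := le_abs_self (Real.log b₀)
    linarith [le_max_right |Real.log a₀| |Real.log b₀|]

lemma exists_maj {R : ℝ} (hR : 0 ≤ R) :
    ∃ v₂ : ℝ → ℝ, Wgt v₂ ∧ ∀ x, 0 < x → |Real.log x| ≤ R → v₂ x = 1 := by
  set a : ℝ := Real.exp (-(R + 1)) with ha
  set b : ℝ := Real.exp (R + 1) with hb
  have ha0 : 0 < a := Real.exp_pos _
  have hab : a < b := Real.exp_lt_exp.mpr (by linarith)
  let f : ContDiffBump ((a + b) / 2 : ℝ) :=
    ⟨(b - a) / 2, (b - a) / 2 + a / 2, by linarith, by linarith⟩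
  refine ⟨f, ⟨f.contDiff, f.hasCompactSupport, ?_⟩, fun x hx hl => ?_⟩
  · rw [f.tsupport_eq]
    intro x hx
    rw [Metric.mem_closedBall, Real.dist_eq] at hx
    have h3 : |x - (a + b) / 2| ≤ (b - a) / 2 + a / 2 := hx
    have := (abs_le.mp h3).1
    exact Set.mem_Ioi.mpr (by linarith)
  · refine f.one_of_mem_closedBall ?_
    rw [Metric.mem_closedBall, Real.dist_eq]
    show |x - (a + b) / 2| ≤ (b - a) / 2
    have h1 := abs_le.mp hl
    have h2 : a ≤ x := by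
      rw [ha, ← Real.exp_log hx]
      exact Real.exp_le_exp.mpr (by linarith [h1.1])
    have h3 : x ≤ b := by
      rw [hb, ← Real.exp_log hx]
      exact Real.exp_le_exp.mpr (by linarith [h1.2])
    rw [abs_le]
    constructor <;> linarith

lemma exists_ker {v : ℝ → ℝ} (hv : Wgt v) {R : ℝ} (hR : 0 ≤ R) (A : ℕ) :
    ∃ (k : ℝ → ℂ) (K : ℝ), 0 ≤ K ∧ Continuous k ∧ Integrable k ∧
      (∀ t, ‖k t‖ * (1 + |t|) ^ A ≤ K) ∧
      ∀ u, |u| ≤ R → ((v (Real.exp u) : ℝ) : ℂ) = ∫ t, k t * osc t u := by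
  obtain ⟨D, hD0, hD⟩ := E1c146.kernel_of_bounds R hR A
  set φ : ℝ → ℂ := fun u => ((v (Real.exp u) : ℝ) : ℂ) with hφ
  have hφs : ContDiff ℝ ∞ φ := Complex.ofRealCLM.contDiff.comp (hv.smooth.comp Real.contDiff_exp)
  have hg : ∀ n x, HasDerivAt (iteratedDeriv n φ) (iteratedDeriv (n + 1) φ x) x := by
    intro n x
    have h1 : Differentiable ℝ (iteratedDeriv n φ) :=
      hφs.differentiable_iteratedDeriv n (by exact_mod_cast WithTop.coe_lt_top _)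
    rw [iteratedDeriv_succ]
    exact (h1 x).hasDerivAt
  have hcont : ∀ n, Continuous (iteratedDeriv n φ) := fun n =>
    hφs.continuous_iteratedDeriv n (by exact_mod_cast le_top)
  have hex : ∀ n : ℕ, ∃ C : ℝ, ∀ u, |u| ≤ R + 1 → ‖iteratedDeriv n φ u‖ ≤ C := by
    intro n
    obtain ⟨C, hC⟩ := (isCompact_Icc (a := -(R + 1)) (b := R + 1)).exists_bound_of_continuousOn
      (hcont n).continuousOn
    exact ⟨C, fun u hu => hC u (abs_le.mp hu)⟩
  choose C hC using hex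
  set M : ℝ := ∑ i ∈ Finset.range (A + 1), |C i| with hM
  have hM0 : 0 ≤ M := Finset.sum_nonneg fun _ _ => abs_nonneg _
  obtain ⟨k, h1, h2, h3, h4⟩ := hD (fun n => iteratedDeriv n φ) M hM0 hg (fun n hn u hu => by
    refine (hC n u hu).trans ((le_abs_self _).trans ?_)
    exact Finset.single_le_sum (f := fun i => |C i|) (fun _ _ => abs_nonneg _)
      (Finset.mem_range.mpr (by omega)))
  refine ⟨k, D * M, by positivity, h1, h2, h3, fun u hu => ?_⟩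
  rw [← h4 u hu, iteratedDeriv_zero]

open Classical in
lemma XS_fin {χ : Eis → ℂ} {w : ℝ → ℝ} {X t : ℝ} {b : Eis → ℂ} {κ : Ker} {N₀ : ℝ} (hN : 0 ≤ N₀)
    (hw : ∀ x, w (x / X) ≠ 0 → x ≤ N₀) :
    XS χ w X t b κ = ∑ x ∈ primBall ⌊N₀⌋₊,
      (χ x * (CS b x * conj (sy (kv κ) x)) * pw t (nm x)) * ((w (nm x / X) : ℝ) : ℂ) := by
  unfold XS
  rw [tsum_eq_sum (s := primBall ⌊N₀⌋₊)]
  · refine Finset.sum_congr rfl fun x hx => ?_
    rw [if_pos (mem_primBall.mp hx).2]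
  · intro x hx
    by_contra h
    have h1 : w ((nm x : ℝ) / X) ≠ 0 := fun h0 => h (by rw [h0]; simp)
    have h2 : IsPrim x := by
      by_contra h2
      exact h (by rw [if_neg h2]; simp)
    exact hx (mem_primBall.mpr ⟨(Nat.le_floor_iff hN).mpr (hw _ h1), h2⟩)

/-- the sum at the length `X'` through the sum at the length `X` -/
lemma XS_ker {χ : Eis → ℂ} {v v₂ : ℝ → ℝ} {R R₂ : ℝ}
    (hv : ∀ x, v x ≠ 0 → 0 < x ∧ |Real.log x| ≤ R)
    (hv₂ : ∀ x, v₂ x ≠ 0 → 0 < x ∧ |Real.log x| ≤ R₂)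
    (h1 : ∀ x, 0 < x → |Real.log x| ≤ R + Real.log 4 → v₂ x = 1)
    {k : ℝ → ℂ} (hk : Integrable k)
    (hkr : ∀ u, |u| ≤ R₂ + Real.log 4 → ((v (Real.exp u) : ℝ) : ℂ) = ∫ t, k t * osc t u)
    {X X' : ℝ} (hX : 0 < X) (hX1 : X / 4 ≤ X') (hX2 : X' ≤ X) (t : ℝ) (b : Eis → ℂ) (κ : Ker) :
    XS χ v X' t b κ = ∫ ξ, (k ξ * osc ξ (-Real.log X')) * XS χ v₂ X (t + ξ) b κ := by
  classical
  have hX'0 : 0 < X' := by linarith
  have hl4 : 0 ≤ Real.log 4 := Real.log_nonneg (by norm_num)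
  have hd : |Real.log X - Real.log X'| ≤ Real.log 4 := by
    have e1 : Real.log X' ≤ Real.log X := Real.log_le_log hX'0 hX2
    have e2 : Real.log (X / 4) ≤ Real.log X' := Real.log_le_log (by positivity) hX1
    rw [Real.log_div hX.ne' (by norm_num)] at e2
    rw [abs_le]; constructor <;> linarith
  set N₀ : ℝ := Real.exp (max R R₂) * X with hN₀
  have hN0 : 0 ≤ N₀ := by positivity
  have hs1 : ∀ x, v (x / X') ≠ 0 → x ≤ N₀ := by
    intro x hx
    obtain ⟨h2, h3⟩ := hv _ hx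
    have h4 : x / X' ≤ Real.exp (max R R₂) := by
      rw [← Real.exp_log h2]
      exact Real.exp_le_exp.mpr ((abs_le.mp h3).2.trans (le_max_left _ _))
    rw [div_le_iff₀ hX'0] at h4
    exact h4.trans (mul_le_mul_of_nonneg_left hX2 (Real.exp_pos _).le)
  have hs2 : ∀ x, v₂ (x / X) ≠ 0 → x ≤ N₀ := by
    intro x hx
    obtain ⟨h2, h3⟩ := hv₂ _ hx
    have h4 : x / X ≤ Real.exp (max R R₂) := by
      rw [← Real.exp_log h2]
      exact Real.exp_le_exp.mpr ((abs_le.mp h3).2.trans (le_max_right _ _))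
    rwa [div_le_iff₀ hX] at h4
  rw [XS_fin hN0 hs1]
  -- the weights
  have hwt : ∀ x : Eis, IsPrim x → ((v (nm x / X') : ℝ) : ℂ) =
      ((v₂ (nm x / X) : ℝ) : ℂ) * ∫ ξ, k ξ * osc ξ (Real.log (nm x) - Real.log X') := by
    intro x hx
    have hx0 : (0 : ℝ) < nm x := nmpos hx.ne_zero
    by_cases h2 : v₂ ((nm x : ℝ) / X) = 0
    · rw [h2]
      have h3 : v ((nm x : ℝ) / X') = 0 := by
        by_contra h3
        obtain ⟨-, h4⟩ := hv _ h3
        rw [Real.log_div hx0.ne' hX'0.ne'] at h4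
        have h5 : v₂ ((nm x : ℝ) / X) = 1 := by
          refine h1 _ (by positivity) ?_
          rw [Real.log_div hx0.ne' hX.ne']
          have e : Real.log (nm x) - Real.log X = (Real.log (nm x) - Real.log X') -
            (Real.log X - Real.log X') := by ring
          rw [e]
          exact (abs_sub _ _).trans (add_le_add h4 hd)
        rw [h2] at h5
        exact zero_ne_one h5
      rw [h3]; simp
    · obtain ⟨-, h4⟩ := hv₂ _ h2
      rw [Real.log_div hx0.ne' hX.ne'] at h4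
      have h6 : |Real.log (nm x) - Real.log X'| ≤ R₂ + Real.log 4 := by
        have e : Real.log (nm x) - Real.log X' = (Real.log (nm x) - Real.log X) +
          (Real.log X - Real.log X') := by ring
        rw [e]
        exact (abs_add_le _ _).trans (add_le_add h4 hd)
      rw [← hkr _ h6]
      have e1 : Real.exp (Real.log (nm x) - Real.log X') = (nm x : ℝ) / X' := by
        rw [Real.exp_sub, Real.exp_log hx0, Real.exp_log hX'0]
      rw [e1]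
      by_cases h7 : v ((nm x : ℝ) / X') = 0
      · rw [h7]; simp
      · obtain ⟨-, h8⟩ := hv _ h7
        rw [Real.log_div hx0.ne' hX'0.ne'] at h8
        have h5 : v₂ ((nm x : ℝ) / X) = 1 := by
          refine h1 _ (by positivity) ?_
          rw [Real.log_div hx0.ne' hX.ne']
          have e : Real.log (nm x) - Real.log X = (Real.log (nm x) - Real.log X') -
            (Real.log X - Real.log X') := by ring
          rw [e]
          exact (abs_sub _ _).trans (add_le_add h8 hd)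
        rw [h5]; simp
  have e1 : ∀ ξ, (k ξ * osc ξ (-Real.log X')) * XS χ v₂ X (t + ξ) b κ =
      ∑ x ∈ primBall ⌊N₀⌋₊, ((χ x * (CS b x * conj (sy (kv κ) x)) * pw t (nm x)) *
        ((v₂ (nm x / X) : ℝ) : ℂ)) * (k ξ * osc ξ (Real.log (nm x) - Real.log X')) := by
    intro ξ
    rw [XS_fin hN0 hs2, Finset.mul_sum]
    refine Finset.sum_congr rfl fun x _ => ?_
    rw [pw_add_left]
    have e2 : osc ξ (Real.log (nm x) - Real.log X') = osc ξ (-Real.log X') * pw ξ (nm x) := by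
      unfold pw
      rw [← osc_add_right]; congr 1; ring
    rw [e2]; ring
  simp_rw [e1]
  rw [integral_finsetSum]
  · refine Finset.sum_congr rfl fun x hx => ?_
    rw [integral_const_mul, hwt x (mem_primBall.mp hx).2]; ring
  · intro x _
    refine Integrable.const_mul ?_ _
    exact hk.mul_bdd (c := 1) (continuous_osc_left _).aestronglyMeasurable
      (Filter.Eventually.of_forall fun ξ => (norm_osc _ _).le)

lemma continuous_XS {χ : Eis → ℂ} {w : ℝ → ℝ} {X : ℝ} {b : Eis → ℂ} {κ : Ker} {N₀ : ℝ}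
    (hN : 0 ≤ N₀) (hw : ∀ x, w (x / X) ≠ 0 → x ≤ N₀) : Continuous fun t => XS χ w X t b κ := by
  have e : (fun t => XS χ w X t b κ) = fun t => ∑ x ∈ primBall ⌊N₀⌋₊,
      (χ x * (CS b x * conj (sy (kv κ) x)) * pw t (nm x)) * ((w (nm x / X) : ℝ) : ℂ) :=
    funext fun t => XS_fin hN hw
  rw [e]
  exact continuous_finsetSum _ fun x _ =>
    (continuous_const.mul (Weight600.continuous_pw_left _)).mul continuous_const

lemma norm_XS_bdd {χ : Eis → ℂ} {w : ℝ → ℝ} {X : ℝ} {b : Eis → ℂ} {κ : Ker} {N₀ : ℝ}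
    (hN : 0 ≤ N₀) (hw : ∀ x, w (x / X) ≠ 0 → x ≤ N₀) : ∃ B : ℝ, ∀ t, ‖XS χ w X t b κ‖ ≤ B := by
  refine ⟨∑ x ∈ primBall ⌊N₀⌋₊, ‖(χ x * (CS b x * conj (sy (kv κ) x)) * pw 0 (nm x)) *
    ((w (nm x / X) : ℝ) : ℂ)‖, fun t => ?_⟩
  rw [XS_fin hN hw]
  refine (norm_sum_le _ _).trans (Finset.sum_le_sum fun x _ => le_of_eq ?_)
  simp only [norm_mul, norm_pw]

/-- **families at the length `X'`** -/
theorem fam_smooth {v v₂ : ℝ → ℝ} {R R₂ : ℝ}
    (hv : ∀ x, v x ≠ 0 → 0 < x ∧ |Real.log x| ≤ R)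
    (hv₂ : ∀ x, v₂ x ≠ 0 → 0 < x ∧ |Real.log x| ≤ R₂)
    (h1 : ∀ x, 0 < x → |Real.log x| ≤ R + Real.log 4 → v₂ x = 1)
    {k : ℝ → ℂ} (hk : Integrable k) {J : ℕ} {K : ℝ}
    (hkb : ∀ t, ‖k t‖ * (1 + |t|) ^ (J + 2) ≤ K)
    (hkr : ∀ u, |u| ≤ R₂ + Real.log 4 → ((v (Real.exp u) : ℝ) : ℂ) = ∫ t, k t * osc t u)
    {ι : Type*} (s : Finset ι) (χ : Eis → ℂ) (X X' : ι → ℝ) (b : ι → Eis → ℂ) (κ : ι → Ker)
    (hX : ∀ i ∈ s, 0 < X i ∧ X i / 4 ≤ X' i ∧ X' i ≤ X i) {B : ℝ} (hB : 0 ≤ B)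
    (h : ∀ t : ℝ, ∑ i ∈ s, ‖XS χ v₂ (X i) t (b i) (κ i)‖ ^ 2 ≤ B * (1 + |t|) ^ J) (t : ℝ) :
    ∑ i ∈ s, ‖XS χ v (X' i) t (b i) (κ i)‖ ^ 2 ≤
      (K * ∫ ξ, jb 2 ξ) ^ 2 * (B * (1 + |t|) ^ J) := by
  have hK0 : 0 ≤ K := (by positivity : (0 : ℝ) ≤ ‖k 0‖ * (1 + |(0 : ℝ)|) ^ (J + 2)).trans (hkb 0)
  have i2 : Integrable (jb 2) := integrable_jb (by norm_num)
  have hJ2 : ∀ ξ : ℝ, jb 2 ξ = ((1 + |ξ|) ^ 2)⁻¹ := fun ξ => by
    have := E3Se579.jb_nat 2 ξ
    push_cast at this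
    exact this
  have hk2 : ∀ ξ, ‖k ξ‖ * (1 + |ξ|) ^ J ≤ K * jb 2 ξ := by
    intro ξ
    rw [hJ2, ← div_eq_mul_inv, le_div_iff₀ (by positivity), mul_assoc, ← pow_add]
    exact hkb ξ
  have hk1 : ∀ ξ, ‖k ξ‖ ≤ K * jb 2 ξ := by
    intro ξ
    refine le_trans ?_ (hk2 ξ)
    exact le_mul_of_one_le_right (norm_nonneg _) (one_le_pow₀ (by linarith [abs_nonneg ξ]))
  have hI : ∫ ξ, ‖k ξ‖ ≤ K * ∫ ξ, jb 2 ξ := by
    rw [← integral_const_mul]
    exact integral_mono hk.norm (i2.const_mul _) hk1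
  have hI0 : 0 ≤ ∫ ξ, ‖k ξ‖ := integral_nonneg fun _ => norm_nonneg _
  have hN : ∀ i ∈ s, ∀ x, v₂ (x / X i) ≠ 0 → x ≤ Real.exp R₂ * X i := by
    intro i hi x hx
    obtain ⟨h2, h3⟩ := hv₂ _ hx
    have h4 : x / X i ≤ Real.exp R₂ := by
      rw [← Real.exp_log h2]
      exact Real.exp_le_exp.mpr (abs_le.mp h3).2
    rwa [div_le_iff₀ (hX i hi).1] at h4
  have hcont : ∀ i ∈ s, Continuous fun ξ => ‖XS χ v₂ (X i) (t + ξ) (b i) (κ i)‖ := fun i hi =>
    ((continuous_XS (mul_nonneg (Real.exp_pos _).le (hX i hi).1.le) (hN i hi)).comp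
      (continuous_const.add continuous_id)).norm
  have hpt : ∀ i ∈ s, ‖XS χ v (X' i) t (b i) (κ i)‖ ^ 2 ≤
      (∫ ξ, ‖k ξ‖) * ∫ ξ, ‖k ξ‖ * ‖XS χ v₂ (X i) (t + ξ) (b i) (κ i)‖ ^ 2 := by
    intro i hi
    obtain ⟨x1, x2, x3⟩ := hX i hi
    rw [XS_ker hv hv₂ h1 hk hkr x1 x2 x3 t (b i) (κ i)]
    obtain ⟨Bi, hBi⟩ := norm_XS_bdd (χ := χ) (b := b i) (κ := κ i)
      (mul_nonneg (Real.exp_pos R₂).le x1.le) (hN i hi)
    have h2 : ‖∫ ξ, (k ξ * osc ξ (-Real.log (X' i))) * XS χ v₂ (X i) (t + ξ) (b i) (κ i)‖ ≤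
        ∫ ξ, ‖k ξ‖ * ‖XS χ v₂ (X i) (t + ξ) (b i) (κ i)‖ := by
      refine (norm_integral_le_integral_norm _).trans (le_of_eq ?_)
      congr 1; funext ξ
      rw [norm_mul, norm_mul, norm_osc, mul_one]
    refine (pow_le_pow_left₀ (norm_nonneg _) h2 2).trans ?_
    exact E3Se579.int_sq_le hk (hcont i hi) (B := Bi) (fun ξ => by rw [abs_norm]; exact hBi _)
  have hint : ∀ i ∈ s, Integrable fun ξ => ‖k ξ‖ * ‖XS χ v₂ (X i) (t + ξ) (b i) (κ i)‖ ^ 2 := by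
    intro i hi
    obtain ⟨Bi, hBi⟩ := norm_XS_bdd (χ := χ) (b := b i) (κ := κ i)
      (mul_nonneg (Real.exp_pos R₂).le (hX i hi).1.le) (hN i hi)
    exact hk.norm.mul_bdd (c := Bi ^ 2) ((hcont i hi).pow 2).aestronglyMeasurable
      (Filter.Eventually.of_forall fun ξ => by
        rw [norm_pow, norm_norm]
        exact pow_le_pow_left₀ (norm_nonneg _) (hBi _) 2)
  calc ∑ i ∈ s, ‖XS χ v (X' i) t (b i) (κ i)‖ ^ 2
      ≤ ∑ i ∈ s, (∫ ξ, ‖k ξ‖) * ∫ ξ, ‖k ξ‖ * ‖XS χ v₂ (X i) (t + ξ) (b i) (κ i)‖ ^ 2 :=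
        Finset.sum_le_sum hpt
    _ = (∫ ξ, ‖k ξ‖) * ∫ ξ, ∑ i ∈ s, ‖k ξ‖ * ‖XS χ v₂ (X i) (t + ξ) (b i) (κ i)‖ ^ 2 := by
        rw [integral_finsetSum _ hint, Finset.mul_sum]
    _ ≤ (∫ ξ, ‖k ξ‖) * ∫ ξ, K * jb 2 ξ * (B * (1 + |t|) ^ J) := by
        refine mul_le_mul_of_nonneg_left ?_ hI0
        refine integral_mono_of_nonneg (Filter.Eventually.of_forall fun ξ => ?_)
          ((i2.const_mul K).mul_const _) (Filter.Eventually.of_forall fun ξ => ?_)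
        · exact Finset.sum_nonneg fun i _ => by positivity
        · beta_reduce
          rw [← Finset.mul_sum]
          have h3 : (1 + |t + ξ|) ^ J ≤ (1 + |t|) ^ J * (1 + |ξ|) ^ J := by
            rw [← mul_pow]
            refine pow_le_pow_left₀ (by positivity) ?_ J
            have := abs_add_le t ξ
            nlinarith [abs_nonneg t, abs_nonneg ξ, mul_nonneg (abs_nonneg t) (abs_nonneg ξ)]
          calc ‖k ξ‖ * ∑ i ∈ s, ‖XS χ v₂ (X i) (t + ξ) (b i) (κ i)‖ ^ 2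
              ≤ ‖k ξ‖ * (B * (1 + |t + ξ|) ^ J) :=
                mul_le_mul_of_nonneg_left (h _) (norm_nonneg _)
            _ ≤ ‖k ξ‖ * (B * ((1 + |t|) ^ J * (1 + |ξ|) ^ J)) :=
                mul_le_mul_of_nonneg_left (mul_le_mul_of_nonneg_left h3 hB) (norm_nonneg _)
            _ = (‖k ξ‖ * (1 + |ξ|) ^ J) * (B * (1 + |t|) ^ J) := by ring
            _ ≤ _ := mul_le_mul_of_nonneg_right (hk2 ξ) (by positivity)
    _ = (∫ ξ, ‖k ξ‖) * ((K * ∫ ξ, jb 2 ξ) * (B * (1 + |t|) ^ J)) := by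
        rw [integral_mul_const, integral_const_mul]
    _ ≤ (K * ∫ ξ, jb 2 ξ) * ((K * ∫ ξ, jb 2 ξ) * (B * (1 + |t|) ^ J)) := by
        refine mul_le_mul_of_nonneg_right hI ?_
        have : 0 ≤ ∫ ξ, jb 2 ξ := integral_nonneg fun ξ => (jb_pos _ _).le
        positivity
    _ = _ := by ring

end Crest.Agent.R017.Mode405
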