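import Crest.Agent.R017.PoH12_347

/-!
# Row 17, block C70, leaf E3 (HB form of the MODE lemma), part 13 (helper347)

`SU s` : `s` is prime to all primary elements;  `pt s` : the twist `conj (s/·)`;
`HW` : the hypothesis on the c-side moments of helper290 (`φ γ² = x D³`, scale `nm x`);
`sum_EB_bgs`, `block_b`.
-/

set_option autoImplicit false

noncomputable section

open Complex MeasureTheory
open scoped ComplexConjugate Classical

namespace Crest.Agent.R017.PoH347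

open Crest.Agent.R012 Crest.Agent.R012.Eis Crest.Agent.R012.MC
open Crest.Agent.R012.LS2 (S mem_S bl mem_bl)
open Crest.Agent.R012.Mob705 (mu pdiv mem_pdiv)
open Crest.Agent.R012.Weight600 (osc pw norm_osc)
open Crest.Agent.R012.NonCube52 (Ker kv Good)
open Crest.Agent.R017.CM106 (CS TG norm_Gsy_le)
open Crest.Agent.R017.E1551 (nmpos jb jb_pos jb_neg continuous_jb integrable_jb integrable_jb_mul
  nm_ge_one CS_fin summable_wF)
open Crest.Agent.R017.BD829
open Crest.Agent.R017.Mode405 (Slp Il VI)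
open Gauss880 (syG)

/-- `s` is nonzero and prime to all primary elements -/
structure SU (s : Eis) : Prop where
  ne : s ≠ 0
  cop : ∀ c, IsPrim c → IsCoprime s c

lemma SU_one : SU 1 := ⟨one_ne_zero, fun _ _ => isCoprime_one_left⟩

lemma SU_su (κ : Ker) : SU (su κ) := ⟨su_ne, fun _ hc => su_cop κ hc⟩

lemma SU.mul {s t : Eis} (hs : SU s) (ht : SU t) : SU (s * t) :=
  ⟨mul_ne_zero hs.ne ht.ne, fun c hc => (hs.cop c hc).mul_left (ht.cop c hc)⟩

/-- the twist -/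
def pt (s x : Eis) : ℂ := conj (sy s x)

lemma LC_pt {s : Eis} (h : SU s) : LC (9 * s) (pt s) := (LC_sy h.ne h.cop).conj

lemma norm_pt_le (s : Eis) {x : Eis} (hx : IsPrim x) : ‖pt s x‖ ≤ 1 := by
  unfold pt
  rw [RCLike.norm_conj]
  exact Tau671.norm_sy_le hx

/-- the twisted Gauss side of a dilated sequence -/
lemma TT_bgs {Y : ℝ} (hY : 0 ≤ Y) {b : Eis → ℂ} (hb : ∀ n, b n ≠ 0 → n ∈ S Y) {g l D : Eis}
    (hg : IsPrim g) (hl : IsPrim l) (hD : IsPrim D) (hDl : IsCoprime D l) (s H : Eis)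
    (t : ℝ) :
    TT (fun m => bg b g l (D * m) * pt s m) H t =
      (if IsCoprime D (g * l) then pt s l * pw t (nm l) * (G l * conj (sy H l)) else 0) *
        TT (fun n => b (g * D * n)) (s * l * H) t := by
  have nl := nmpos hl.ne_zero
  by_cases hc : IsCoprime D (g * l)
  swap
  · rw [if_neg hc, zero_mul]
    unfold TT TG
    refine (tsum_congr fun m => ?_).trans tsum_zero
    have h0 : bg b g l (D * m) = 0 := by
      by_contra h
      obtain ⟨n, hn, hcn, -⟩ := exists_of_bg hl.ne_zero h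
      apply hc
      have h1 : D ∣ l * n := ⟨m, hn.symm⟩
      have h2 : D ∣ n := hDl.dvd_of_dvd_mul_left h1
      exact hcn.of_isCoprime_of_dvd_left h2
    beta_reduce
    rw [h0]; ring
  rw [if_pos hc]
  unfold TT TG
  have hinj : Function.Injective (fun n : Eis => l * n) := mul_right_injective₀ hl.ne_zero
  have hsup : Function.support (fun m : Eis => bg b g l (D * m) * pt s m * pw t (nm m) *
      (G m * conj (sy H m))) ⊆ Set.range (fun n : Eis => l * n) := by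
    intro m hm
    rw [Function.mem_support] at hm
    have h1 : bg b g l (D * m) ≠ 0 := by
      intro h0; apply hm; rw [h0]; ring
    obtain ⟨n, hn, -, -⟩ := exists_of_bg hl.ne_zero h1
    have h2 : l ∣ D * m := ⟨n, hn⟩
    obtain ⟨k, hk⟩ := hDl.symm.dvd_of_dvd_mul_left h2
    exact ⟨k, hk.symm⟩
  rw [← hinj.tsum_eq hsup, ← tsum_mul_left]
  refine tsum_congr fun n => ?_
  beta_reduce
  have e0 : D * (l * n) = l * (D * n) := by ring
  rw [e0, bg_mul hl.ne_zero]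
  have e1 : g * (D * n) = g * D * n := by ring
  rw [e1]
  by_cases hb0 : b (g * D * n) = 0
  · rw [hb0]; simp
  have hn1 := (mem_S hY).1 (hb _ hb0)
  have hgD : IsPrim (g * D) := hg.mul hD
  have hnp : IsPrim n := hn1.2.1.of_mul_left hgD
  have hng : IsCoprime (g * D) n := cop_of_sqf hn1.2.2
  have eG : G (l * n) = G l * G n * conj (sy l n) := Gauss880.G_mul_all syG hl hnp
  by_cases hln : IsCoprime l n
  · have hc2 : IsCoprime (D * n) (g * l) := by
      refine hc.mul_left ?_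
      exact (hng.of_mul_left_left.symm).mul_right hln.symm
    rw [if_pos hc2, eG]
    have e2 : pt s (l * n) = pt s l * pt s n := by
      unfold pt
      rw [syG.mul_right _ _ _ hl hnp, map_mul]
    have e3 : pw t (nm (l * n)) = pw t (nm l) * pw t (nm n) := by
      rw [nm_mul]; push_cast
      exact pw_mul nl (nmpos hnp.ne_zero) t
    have e4 : sy H (l * n) = sy H l * sy H n := syG.mul_right _ _ _ hl hnp
    have e5 : sy (s * l * H) n = sy (s) n * sy l n * sy H n := by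
      rw [syG.mul_left _ _ _ hnp, syG.mul_left _ _ _ hnp]
    rw [e2, e3, e4, e5]
    simp only [map_mul]
    unfold pt
    ring
  · have h0 : sy l n = 0 := (syG.eq_zero l n hnp).mpr hln
    have hc2 : ¬ IsCoprime (D * n) (g * l) := by
      intro h
      exact hln (h.of_mul_left_right.of_mul_right_right).symm
    rw [if_neg hc2]
    have e5 : sy (s * l * H) n = 0 := by
      rw [syG.mul_left _ _ _ hnp, syG.mul_left _ _ _ hnp, h0]; ring
    rw [e5]
    simp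

/-- **the mean square of a dilated sequence** -/
theorem EQ_bgs {A : ℝ} (hA : 1 < A) {Y : ℝ} (hY : 0 ≤ Y) {b : Eis → ℂ}
    (hb : ∀ n, b n ≠ 0 → n ∈ S Y) {g l D : Eis} (hg : IsPrim g) (hl : IsPrim l) (hD : IsPrim D)
    (hDl : IsCoprime D l) (s H : Eis) :
    EQ A (fun m => bg b g l (D * m) * pt s m) H ≤
      EQ A (fun n => b (g * D * n)) (s * l * H) := by
  have hgD : IsPrim (g * D) := hg.mul hD
  have hsup : ∀ n, b (g * D * n) ≠ 0 → n ∈ S Y := by
    intro n hn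
    have h1 := (mem_S hY).1 (hb _ hn)
    rw [mem_S hY]
    refine ⟨?_, h1.2.1.of_mul_left hgD, h1.2.2.of_mul_right⟩
    refine le_trans ?_ h1.1
    rw [nm_mul]
    push_cast
    exact le_mul_of_one_le_left (Nat.cast_nonneg _) (nm_ge_one hgD.ne_zero)
  unfold EQ
  refine integral_mono_of_nonneg (Filter.Eventually.of_forall fun t =>
    mul_nonneg (jb_pos A t).le (by positivity)) (integrable_EQ hA hY hsup _)
    (Filter.Eventually.of_forall fun t => ?_)
  beta_reduce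
  refine mul_le_mul_of_nonneg_left ?_ (jb_pos A t).le
  refine pow_le_pow_left₀ (norm_nonneg _) ?_ 2
  rw [TT_bgs hY hb hg hl hD hDl, norm_mul]
  refine mul_le_of_le_one_left (norm_nonneg _) ?_
  split_ifs
  · rw [norm_mul, norm_mul, norm_pw, mul_one]
    exact mul_le_one₀ (norm_pt_le s hl) (norm_nonneg _) (norm_Gsy_le hl)
  · simp

/-- **the merged mean squares** -/
theorem sum_EB_bgs {A : ℝ} (hA : 1 < A) {Y : ℝ} (hY : 0 ≤ Y) {b : Eis → ℂ}
    (hb : ∀ n, b n ≠ 0 → n ∈ S Y) {g d f : Eis} (hg : IsPrim g) (hd : IsPrim d) (hf : IsPrim f)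
    (s : Eis) {F0 : Eis} {Z L τ : ℝ} (hZ : 0 ≤ Z) (hL : 0 ≤ L)
    {T : Finset Eis} (hT : ∀ l ∈ T, IsPrim l ∧ (nm l : ℝ) ≤ L ∧ IsCoprime (d * f) l)
    (ht : ∀ x ∈ bl (Z * L), (Div277.tau x : ℝ) ≤ τ) :
    ∑ l ∈ T, EB A (rs (bg b g l) (pt s) d f) (F0 * f) Z ≤
      τ * VI A b (g * d * f) (s * F0 * f) 1 (Z * L) := by
  set F : Eis → ℝ := fun y => EQ A (fun n => b (g * (d * f) * n)) (y * (s * F0 * f)) with hFd
  have hF : ∀ x, 0 ≤ F x := fun x => EQ_nonneg _ _ _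
  have h1 : ∀ l ∈ T, EB A (rs (bg b g l) (pt s) d f) (F0 * f) Z ≤ ∑ k ∈ bl Z, F (k * l) := by
    intro l hl
    obtain ⟨hl1, -, hl3⟩ := hT l hl
    unfold EB
    refine Finset.sum_le_sum fun k _ => ?_
    have h2 := EQ_bgs hA hY hb hg hl1 (hd.mul hf) hl3 s (k * (F0 * f))
    unfold rs
    refine h2.trans (le_of_eq ?_)
    rw [hFd]
    beta_reduce
    congr 1
    ring
  refine (Finset.sum_le_sum h1).trans ?_
  refine (merge hF hZ hL (fun l hl => ⟨(hT l hl).1, (hT l hl).2.1⟩) ht).trans (le_of_eq ?_)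
  unfold VI
  congr 1
  refine Finset.sum_congr rfl fun k _ => ?_
  rw [hFd]
  beta_reduce
  congr 1
  funext n
  rw [if_pos isCoprime_one_right, mul_assoc g d f]

/-- **the hypothesis on the c-side moments** (helper290): dilation `γ`, frequencies `k φ`,
`φ γ² = x D³`, `nm D ≤ B0`; the natural range is `P nm x` -/
def HW (A B0 : ℝ) {ι : Type} (Q : Finset ι) (b : ι → Eis → ℂ) (ka : Eis) (W : ℝ → ℝ) : Prop :=
  ∀ γ φ x D : Eis, IsPrim γ → IsCoprime γ ka → φ ≠ 0 → x ≠ 0 → D ≠ 0 → (nm D : ℝ) ≤ B0 →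
    φ * γ ^ 2 = x * D ^ 3 →
    ∀ P : ℝ, 1 ≤ P → (nm γ : ℝ) * ∑ q ∈ Q, VI A (b q) γ φ 1 P ≤ W (P * nm x)

/-- the norm factor -/
def nfo (lam I : ℝ) : ℝ := 1 + lam * I ^ (-(1 / 2) : ℝ)

lemma nfo_nonneg {lam I : ℝ} (hl : 0 ≤ lam) (hI : 0 ≤ I) : 0 ≤ nfo lam I := by
  unfold nfo; positivity

lemma one_le_nfo {lam I : ℝ} (hl : 0 ≤ lam) (hI : 0 ≤ I) : 1 ≤ nfo lam I := by
  unfold nfo
  have : 0 ≤ lam * I ^ (-(1 / 2) : ℝ) := by positivity
  linarith

lemma nfo_anti {lam I I' : ℝ} (hl : 0 ≤ lam) (hI : 0 < I) (h : I ≤ I') :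
    nfo lam I' ≤ nfo lam I := by
  unfold nfo
  have h1 : I' ^ (-(1 / 2) : ℝ) ≤ I ^ (-(1 / 2) : ℝ) :=
    Real.rpow_le_rpow_of_nonpos hI h (by norm_num)
  have := mul_le_mul_of_nonneg_left h1 hl
  linarith

/-- the norm of the large sieve against `nfo` -/
lemma nrm_nfo {N1 lm y : ℝ} (hN : 0 ≤ N1) (hl : 0 < lm) (hy : 0 ≤ y)
    (h : N1 ^ 2 ≤ lm * y ^ 2) : nrm N1 (max 1 lm) ≤ 2 * max 1 lm * (1 + y) := by
  have hy3 : y ^ (2 / 3 : ℝ) ≤ 1 + y := by
    rcases le_total y 1 with h1 | h1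
    · have := Real.rpow_le_one hy h1 (by norm_num : (0 : ℝ) ≤ 2 / 3)
      linarith
    · have : y ^ (2 / 3 : ℝ) ≤ y ^ (1 : ℝ) :=
        Real.rpow_le_rpow_of_exponent_le h1 (by norm_num)
      rw [Real.rpow_one] at this
      linarith
  set m : ℝ := max 1 lm with hm
  have hm1 : 1 ≤ m := le_max_left _ _
  have hm0 : 0 < m := by linarith
  have hN2 : N1 ≤ m ^ (1 / 2 : ℝ) * y := by
    refine le_of_pow_le_pow_left₀ (n := 2) (by norm_num) (by positivity) ?_
    have e1 : (m ^ (1 / 2 : ℝ)) ^ 2 = m := by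
      rw [← Real.rpow_natCast, ← Real.rpow_mul hm0.le]; norm_num
    rw [mul_pow, e1]
    exact h.trans (mul_le_mul_of_nonneg_right (le_max_right _ _) (by positivity))
  have t2 : N1 * m ^ (1 / 3 : ℝ) ≤ m * y := by
    calc N1 * m ^ (1 / 3 : ℝ) ≤ (m ^ (1 / 2 : ℝ) * y) * m ^ (1 / 3 : ℝ) :=
          mul_le_mul_of_nonneg_right hN2 (by positivity)
      _ = m ^ (5 / 6 : ℝ) * y := by
          have : m ^ (5 / 6 : ℝ) = m ^ (1 / 2 : ℝ) * m ^ (1 / 3 : ℝ) := by
            rw [← Real.rpow_add hm0]; norm_num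
          rw [this]; ring
      _ ≤ m ^ (1 : ℝ) * y :=
          mul_le_mul_of_nonneg_right (Real.rpow_le_rpow_of_exponent_le hm1 (by norm_num)) hy
      _ = m * y := by rw [Real.rpow_one]
  have t3 : (m * N1) ^ (2 / 3 : ℝ) ≤ m * (1 + y) := by
    have e1 : (m * (m ^ (1 / 2 : ℝ) * y)) = m ^ (3 / 2 : ℝ) * y := by
      have : m ^ (3 / 2 : ℝ) = m * m ^ (1 / 2 : ℝ) := by
        rw [show (3 / 2 : ℝ) = 1 + 1 / 2 by norm_num, Real.rpow_add hm0, Real.rpow_one]
      rw [this]; ring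
    calc (m * N1) ^ (2 / 3 : ℝ) ≤ (m ^ (3 / 2 : ℝ) * y) ^ (2 / 3 : ℝ) := by
          rw [← e1]
          exact Real.rpow_le_rpow (by positivity) (mul_le_mul_of_nonneg_left hN2 hm0.le)
            (by norm_num)
      _ = m * y ^ (2 / 3 : ℝ) := by
          rw [Real.mul_rpow (by positivity) hy, ← Real.rpow_mul hm0.le]
          norm_num
      _ ≤ m * (1 + y) := mul_le_mul_of_nonneg_left hy3 hm0.le
  unfold nrm
  calc m + N1 * m ^ (1 / 3 : ℝ) + (m * N1) ^ (2 / 3 : ℝ) ≤ m + m * y + m * (1 + y) := by linarith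
    _ = 2 * m * (1 + y) := by ring

/-- **one block** -/
theorem block_b {a B : ℕ} (hB : a + 1 ≤ B) {W : ℝ → ℝ} (hW : Slp a W)
    {c1 c2 X N lam L1 L3 G D E F W1 lm : ℝ}
    (hc1 : 1 ≤ c1) (hc2 : 1 ≤ c2) (hX : 0 < X) (hN : 0 < N) (hlam : 0 < lam) (hL1 : 1 ≤ L1)
    (hL3 : 1 ≤ L3) (hG : 1 ≤ G) (hE : 1 ≤ E) (hED : E ≤ D) (hF : 1 ≤ F)
    (hl : L1 * (G * L3) ^ 2 ≤ lam) (hW1 : W (c1 * c2 * Il N lam X) ≤ W1)
    (hlm : lm = c2 * E * (N * L3 * L1) / (X * D ^ 2)) :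
    X ^ 2 / (N * L3 * L1) * (D / E) ^ 2 * nrm (G * L1 / (D * F)) (max 1 lm) *
      ((min 1 lm) ^ B * W (c1 * max 1 lm * L3 * (G ^ 2 * (D ^ 2 / E)))) ≤
      2 ^ (a + 1) * c2 * (X * nfo lam (Il N lam X) * W1) := by
  have hD : 1 ≤ D := hE.trans hED
  have hI : 0 < Il N lam X := by unfold Il; positivity
  have hI' : Il N lam X = N * lam / X := rfl
  set I := Il N lam X with hIdef
  have hlm0 : 0 < lm := by rw [hlm]; positivity
  have hW10 : 0 ≤ W1 := (hW.nonneg _ (by positivity)).trans hW1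
  have hN1 : 0 ≤ G * L1 / (D * F) := by positivity
  set y : ℝ := lam * I ^ (-(1 / 2) : ℝ) with hy
  have hy0 : 0 ≤ y := by positivity
  have hy2 : y ^ 2 = lam ^ 2 / I := by
    rw [hy, mul_pow, ← Real.rpow_natCast (I ^ (-(1 / 2) : ℝ)) 2, ← Real.rpow_mul hI.le]
    norm_num
    rw [Real.rpow_neg_one]; rfl
  -- the length
  have hNy : (G * L1 / (D * F)) ^ 2 ≤ lm * y ^ 2 := by
    rw [hy2, hlm, hI']
    have e1 : c2 * E * (N * L3 * L1) / (X * D ^ 2) * (lam ^ 2 / (N * lam / X)) =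
        (c2 * E * L3 * F ^ 2) * (L1 * lam) / (D ^ 2 * F ^ 2) := by
      field_simp
    have e2 : (G * L1 / (D * F)) ^ 2 = (L1 * (G ^ 2 * L1)) / (D ^ 2 * F ^ 2) := by
      field_simp
    rw [e1, e2]
    refine div_le_div_of_nonneg_right ?_ (by positivity)
    have h1 : G ^ 2 * L1 ≤ lam := by
      refine le_trans ?_ hl
      have h2 : (1 : ℝ) ≤ L3 ^ 2 := one_le_pow₀ hL3
      calc G ^ 2 * L1 ≤ G ^ 2 * L1 * L3 ^ 2 := le_mul_of_one_le_right (by positivity) h2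
        _ = _ := by ring
    have h2 : 1 ≤ c2 * E * L3 * F ^ 2 :=
      one_le_mul_of_one_le_of_one_le (one_le_mul_of_one_le_of_one_le
        (one_le_mul_of_one_le_of_one_le hc2 hE) hL3) (one_le_pow₀ hF)
    calc L1 * (G ^ 2 * L1) ≤ L1 * lam := mul_le_mul_of_nonneg_left h1 (by linarith)
      _ ≤ (c2 * E * L3 * F ^ 2) * (L1 * lam) := le_mul_of_one_le_left (by positivity) h2
  have hnrm := nrm_nfo hN1 hlm0 hy0 hNy
  have hnf : 1 + y = nfo lam I := rfl
  rw [hnf] at hnrm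
  have hnf0 : 0 ≤ nfo lam I := nfo_nonneg hlam.le hI.le
  -- the value of `W`
  have hnat : W (c1 * lm * L3 * (G ^ 2 * (D ^ 2 / E))) ≤ W1 := by
    refine le_trans (slp_mono hW (by positivity) ?_) hW1
    have e1 : c1 * lm * L3 * (G ^ 2 * (D ^ 2 / E)) = c1 * c2 * (N / X) * (L1 * (G * L3) ^ 2) := by
      rw [hlm]; field_simp
    have e2 : c1 * c2 * I = c1 * c2 * (N / X) * lam := by rw [hI']; ring
    rw [e1, e2]
    exact mul_le_mul_of_nonneg_left hl (by positivity)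
  have hnat0 : 0 ≤ W (c1 * lm * L3 * (G ^ 2 * (D ^ 2 / E))) := hW.nonneg _ (by positivity)
  -- the two cases
  have hcase : max 1 lm * ((min 1 lm) ^ B * W (c1 * max 1 lm * L3 * (G ^ 2 * (D ^ 2 / E)))) ≤
      2 ^ a * lm * W1 := by
    rcases le_total 1 lm with h | h
    · rw [max_eq_right h, min_eq_left h, one_pow, one_mul]
      have h2a : (1 : ℝ) ≤ 2 ^ a := one_le_pow₀ (by norm_num)
      calc lm * W (c1 * lm * L3 * (G ^ 2 * (D ^ 2 / E))) ≤ lm * W1 :=
            mul_le_mul_of_nonneg_left hnat hlm0.le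
        _ ≤ 2 ^ a * (lm * W1) := le_mul_of_one_le_left (by positivity) h2a
        _ = _ := by ring
    · rw [max_eq_left h, min_eq_right h, one_mul]
      have hinv : 1 ≤ lm⁻¹ := (one_le_inv₀ hlm0).mpr h
      have hP0 : 0 < c1 * lm * L3 * (G ^ 2 * (D ^ 2 / E)) := by positivity
      have h2 := slp_up hW hP0 hinv
      have e1 : lm⁻¹ * (c1 * lm * L3 * (G ^ 2 * (D ^ 2 / E))) =
          c1 * 1 * L3 * (G ^ 2 * (D ^ 2 / E)) := by
        field_simp
      rw [e1] at h2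
      have h3 : lm ^ B * (2 * lm⁻¹) ^ a ≤ 2 ^ a * lm := by
        obtain ⟨k, rfl⟩ := Nat.exists_eq_add_of_le hB
        have e2 : lm ^ (a + 1 + k) * (2 * lm⁻¹) ^ a = (2 ^ a * lm) * lm ^ k := by
          rw [mul_pow, inv_pow]
          field_simp
          ring
        rw [e2]
        exact mul_le_of_le_one_right (by positivity) (pow_le_one₀ hlm0.le h)
      calc lm ^ B * W (c1 * 1 * L3 * (G ^ 2 * (D ^ 2 / E)))
          ≤ lm ^ B * ((2 * lm⁻¹) ^ a * W (c1 * lm * L3 * (G ^ 2 * (D ^ 2 / E)))) :=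
            mul_le_mul_of_nonneg_left h2 (by positivity)
        _ ≤ lm ^ B * ((2 * lm⁻¹) ^ a * W1) := by gcongr
        _ = (lm ^ B * (2 * lm⁻¹) ^ a) * W1 := by ring
        _ ≤ (2 ^ a * lm) * W1 := mul_le_mul_of_nonneg_right h3 hW10
        _ = _ := by ring
  have hpre : X ^ 2 / (N * L3 * L1) * (D / E) ^ 2 * lm = c2 * X / E := by
    rw [hlm]; field_simp
  have hWm : 0 ≤ (min 1 lm) ^ B * W (c1 * max 1 lm * L3 * (G ^ 2 * (D ^ 2 / E))) := by
    have h1 : 0 < min 1 lm := lt_min one_pos hlm0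
    have h2 : 0 < max 1 lm := lt_max_of_lt_left one_pos
    exact mul_nonneg (by positivity) (hW.nonneg _ (by positivity))
  calc X ^ 2 / (N * L3 * L1) * (D / E) ^ 2 * nrm (G * L1 / (D * F)) (max 1 lm) *
      ((min 1 lm) ^ B * W (c1 * max 1 lm * L3 * (G ^ 2 * (D ^ 2 / E))))
      ≤ X ^ 2 / (N * L3 * L1) * (D / E) ^ 2 * (2 * max 1 lm * nfo lam I) *
      ((min 1 lm) ^ B * W (c1 * max 1 lm * L3 * (G ^ 2 * (D ^ 2 / E)))) := by gcongr
    _ = X ^ 2 / (N * L3 * L1) * (D / E) ^ 2 * (2 * nfo lam I) *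
      (max 1 lm * ((min 1 lm) ^ B * W (c1 * max 1 lm * L3 * (G ^ 2 * (D ^ 2 / E))))) := by ring
    _ ≤ X ^ 2 / (N * L3 * L1) * (D / E) ^ 2 * (2 * nfo lam I) * (2 ^ a * lm * W1) :=
        mul_le_mul_of_nonneg_left hcase (by positivity)
    _ = 2 ^ (a + 1) * (X ^ 2 / (N * L3 * L1) * (D / E) ^ 2 * lm) * nfo lam I * W1 := by ring
    _ = 2 ^ (a + 1) * (c2 * X / E) * nfo lam I * W1 := by rw [hpre]
    _ ≤ 2 ^ (a + 1) * (c2 * X) * nfo lam I * W1 := by
        have : c2 * X / E ≤ c2 * X := div_le_self (by positivity) hE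
        gcongr
    _ = _ := by ring

end Crest.Agent.R017.PoH347
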