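import Crest.Agent.R017.ModeK_405
import Crest.Agent.R017.ModeS_405
import Crest.Agent.R017.PoH13_347
import Crest.Agent.R012.CR2b_180

/-!
# Row 17, block C70, leaf E3: MODE*, second form, part D1 (helper405)

* `PoD χ w` : the bound at one kernel for families of dilations `bt D b` (helper50)
* `GD χ v` : the structured bound of the dilations as an instance of `GP`
* `pohg_D` : `PoHG (GD χ v)` from `PoD`
-/

set_option autoImplicit false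

noncomputable section

open Complex MeasureTheory
open scoped ComplexConjugate

namespace Crest.Agent.R017.Mode405

open Crest.Agent.R012 Crest.Agent.R012.Eis Crest.Agent.R012.MC
open Crest.Agent.R012.LS2 (S mem_S bl mem_bl)
open Crest.Agent.R012.LS448 (one_le_nm')
open Crest.Agent.R012.NonCube52 (Ker kv Good)
open Crest.Agent.R012.Mob705 (mu pdiv mem_pdiv)
open Crest.Agent.R012.Weight600 (pw osc)
open Crest.Agent.R017.CM106 (CS TG FS)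
open Crest.Agent.R017.BD829 (TT EQ Win EQ_nonneg)
open Crest.Agent.R017.E1551 (jb jb_pos nmpos integrable_jb)
open Crest.Agent.R017.DgB829 (HS HS_le HS_nonneg)
open Crest.Agent.R017.E3D579 (bt)

/-- the number of the kernels -/
lemma card_KS {lm : ℝ} (hl : 1 ≤ lm) : ((KS lm).card : ℝ) ≤ 144 * lm * HS lm := by
  classical
  have hl0 : 0 ≤ lm := by linarith
  set T : Finset Ker := (Finset.range 3 ×ˢ Finset.range 3) ×ˢ
    ((S lm).biUnion (fun k => (bl (lm / (nm k : ℝ) ^ 2)).image (fun j => (j, k)))) with hT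
  have hsub : KS lm ⊆ T := by
    intro κ hκ
    obtain ⟨hg, hn⟩ := mem_KS.mp hκ
    have h2 : (1 : ℝ) ≤ nm κ.2.2 := one_le_nm' hg.prim2.ne_zero
    have h1 : (1 : ℝ) ≤ nm κ.2.1 := one_le_nm' hg.prim1.ne_zero
    have hle : (nm κ.2.1 : ℝ) * (nm κ.2.2 : ℝ) ^ 2 ≤ lm := by
      refine le_trans ?_ hn
      have h5 : nm κ.2.1 * nm κ.2.2 ^ 2 ≤ nm (kv κ) := by
        have h3 : nm (kv κ) = nm (w ^ κ.1.1 * Eis.lam ^ κ.1.2) * (nm κ.2.1 * nm κ.2.2 ^ 2) := by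
          unfold kv
          rw [nm_mul, nm_mul, nm_pow, mul_assoc]
        have h4 : 1 ≤ nm (w ^ κ.1.1 * Eis.lam ^ κ.1.2) := by
          have hne : nm (kv κ) ≠ 0 := by
            have := nm_pos.mpr (NonCube52.kv_ne_zero hg)
            omega
          rw [h3] at hne
          have := left_ne_zero_of_mul hne
          omega
        rw [h3]
        exact Nat.le_mul_of_pos_left _ (by omega)
      exact_mod_cast h5
    rw [hT, Finset.mem_product, Finset.mem_product, Finset.mem_range, Finset.mem_range,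
      Finset.mem_biUnion]
    refine ⟨⟨hg.hi, hg.hj⟩, κ.2.2, ?_, ?_⟩
    · rw [mem_S hl0]
      refine ⟨?_, hg.prim2, hg.sqf2⟩
      nlinarith [mul_le_mul h1 (le_refl ((nm κ.2.2 : ℝ))) (by positivity) (by positivity)]
    · rw [Finset.mem_image]
      refine ⟨κ.2.1, ?_, rfl⟩
      rw [mem_bl (by positivity)]
      refine ⟨hg.prim1.ne_zero, ?_⟩
      rw [le_div_iff₀ (by positivity)]
      exact hle
  have h1 : ((KS lm).card : ℝ) ≤ (T.card : ℝ) := by exact_mod_cast Finset.card_le_card hsub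
  refine h1.trans ?_
  rw [hT, Finset.card_product, Finset.card_product, Finset.card_range]
  have h2 : (((S lm).biUnion (fun k => (bl (lm / (nm k : ℝ) ^ 2)).image
      (fun j => (j, k)))).card : ℝ) ≤ 16 * lm * HS lm := by
    calc (((S lm).biUnion (fun k => (bl (lm / (nm k : ℝ) ^ 2)).image
          (fun j => (j, k)))).card : ℝ)
        ≤ ∑ k ∈ S lm, (((bl (lm / (nm k : ℝ) ^ 2)).image (fun j => (j, k))).card : ℝ) := by
          exact_mod_cast Finset.card_biUnion_le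
      _ ≤ ∑ k ∈ S lm, 16 * lm * (1 / nm k) := by
          refine Finset.sum_le_sum fun k hk => ?_
          have hk' := (mem_S hl0).1 hk
          have hk1 : (1 : ℝ) ≤ nm k := one_le_nm' hk'.2.1.ne_zero
          calc (((bl (lm / (nm k : ℝ) ^ 2)).image (fun j => (j, k))).card : ℝ)
              ≤ ((bl (lm / (nm k : ℝ) ^ 2)).card : ℝ) := by exact_mod_cast Finset.card_image_le
            _ ≤ 16 * (lm / (nm k : ℝ) ^ 2) := CR2.card_bl_le (by positivity)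
            _ ≤ 16 * (lm / (nm k : ℝ)) := by
                refine mul_le_mul_of_nonneg_left ?_ (by norm_num)
                refine div_le_div_of_nonneg_left hl0 (by linarith) ?_
                nlinarith
            _ = _ := by ring
      _ = 16 * lm * HS lm := by unfold HS; rw [Finset.mul_sum]
  push_cast
  linarith

/-- the second factor -/
def nfE (Δ lm I : ℝ) : ℝ :=
  1 + Δ * lm ^ (1 / 3 : ℝ) * I ^ (-(2 / 3) : ℝ) +
    Δ ^ (2 / 3 : ℝ) * lm ^ (1 / 6 : ℝ) * I ^ (-(1 / 3) : ℝ)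

lemma nfE_nonneg {Δ lm I : ℝ} (hΔ : 0 ≤ Δ) (hl : 0 ≤ lm) (hI : 0 ≤ I) : 0 ≤ nfE Δ lm I := by
  unfold nfE; positivity

/-- the norm factor of the dilations -/
def nfD (Δ lm I : ℝ) : ℝ := lm * nfE Δ lm I

lemma nfE_key {Δ lm s I : ℝ} (hΔ : 0 ≤ Δ) (hl : 0 < lm) (hI : 0 < I) (hs : 0 < s) (hs1 : s ≤ 1) :
    s ^ (1 / 3 : ℝ) * nfE Δ (s * lm) (s * I) ≤ nfE Δ lm I := by
  unfold nfE
  have e1 : (s * lm) ^ (1 / 3 : ℝ) = s ^ (1 / 3 : ℝ) * lm ^ (1 / 3 : ℝ) :=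
    Real.mul_rpow hs.le hl.le
  have e2 : (s * I) ^ (-(2 / 3) : ℝ) = s ^ (-(2 / 3) : ℝ) * I ^ (-(2 / 3) : ℝ) :=
    Real.mul_rpow hs.le hI.le
  have e3 : (s * lm) ^ (1 / 6 : ℝ) = s ^ (1 / 6 : ℝ) * lm ^ (1 / 6 : ℝ) :=
    Real.mul_rpow hs.le hl.le
  have e4 : (s * I) ^ (-(1 / 3) : ℝ) = s ^ (-(1 / 3) : ℝ) * I ^ (-(1 / 3) : ℝ) :=
    Real.mul_rpow hs.le hI.le
  have f1 : s ^ (1 / 3 : ℝ) ≤ 1 := Real.rpow_le_one hs.le hs1 (by norm_num)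
  have f2 : s ^ (1 / 6 : ℝ) ≤ 1 := Real.rpow_le_one hs.le hs1 (by norm_num)
  have g1 : s ^ (1 / 3 : ℝ) * (s ^ (1 / 3 : ℝ) * s ^ (-(2 / 3) : ℝ)) = 1 := by
    rw [← Real.rpow_add hs, ← Real.rpow_add hs]
    norm_num
  have g2 : s ^ (1 / 3 : ℝ) * s ^ (-(1 / 3) : ℝ) = 1 := by
    rw [← Real.rpow_add hs]
    norm_num
  rw [e1, e2, e3, e4]
  have hA : 0 ≤ Δ ^ (2 / 3 : ℝ) * lm ^ (1 / 6 : ℝ) * I ^ (-(1 / 3) : ℝ) := by positivity
  calc s ^ (1 / 3 : ℝ) * (1 + Δ * (s ^ (1 / 3 : ℝ) * lm ^ (1 / 3 : ℝ)) *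
        (s ^ (-(2 / 3) : ℝ) * I ^ (-(2 / 3) : ℝ)) +
        Δ ^ (2 / 3 : ℝ) * (s ^ (1 / 6 : ℝ) * lm ^ (1 / 6 : ℝ)) *
        (s ^ (-(1 / 3) : ℝ) * I ^ (-(1 / 3) : ℝ)))
      = s ^ (1 / 3 : ℝ) + (s ^ (1 / 3 : ℝ) * (s ^ (1 / 3 : ℝ) * s ^ (-(2 / 3) : ℝ))) *
          (Δ * lm ^ (1 / 3 : ℝ) * I ^ (-(2 / 3) : ℝ)) +
          (s ^ (1 / 3 : ℝ) * s ^ (-(1 / 3) : ℝ)) * s ^ (1 / 6 : ℝ) *
          (Δ ^ (2 / 3 : ℝ) * lm ^ (1 / 6 : ℝ) * I ^ (-(1 / 3) : ℝ)) := by ring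
    _ = s ^ (1 / 3 : ℝ) + Δ * lm ^ (1 / 3 : ℝ) * I ^ (-(2 / 3) : ℝ) +
          s ^ (1 / 6 : ℝ) * (Δ ^ (2 / 3 : ℝ) * lm ^ (1 / 6 : ℝ) * I ^ (-(1 / 3) : ℝ)) := by
        rw [g1, g2]; ring
    _ ≤ 1 + Δ * lm ^ (1 / 3 : ℝ) * I ^ (-(2 / 3) : ℝ) +
          1 * (Δ ^ (2 / 3 : ℝ) * lm ^ (1 / 6 : ℝ) * I ^ (-(1 / 3) : ℝ)) := by gcongr
    _ = _ := by ring

lemma nfok_nfD {Δ : ℝ} (hΔ : 0 ≤ Δ) : NFok (nfD Δ) where
  nonneg lm I hl hI := mul_nonneg hl (nfE_nonneg hΔ hl hI.le)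
  anti lm I I' hl hI h := by
    unfold nfD nfE
    have h1 : I' ^ (-(2 / 3) : ℝ) ≤ I ^ (-(2 / 3) : ℝ) :=
      Real.rpow_le_rpow_of_nonpos hI h (by norm_num)
    have h2 : I' ^ (-(1 / 3) : ℝ) ≤ I ^ (-(1 / 3) : ℝ) :=
      Real.rpow_le_rpow_of_nonpos hI h (by norm_num)
    gcongr
  mono lm lm' u hl h hu := by
    have hl' : 0 < lm' := hl.trans_le h
    have e : ∀ x : ℝ, 0 < x → nfD Δ x (u * x) = x + Δ * u ^ (-(2 / 3) : ℝ) * x ^ (2 / 3 : ℝ) +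
        Δ ^ (2 / 3 : ℝ) * u ^ (-(1 / 3) : ℝ) * x ^ (5 / 6 : ℝ) := by
      intro x hx
      unfold nfD nfE
      rw [Real.mul_rpow hu.le hx.le, Real.mul_rpow hu.le hx.le]
      have e1 : x * (x ^ (1 / 3 : ℝ) * x ^ (-(2 / 3) : ℝ)) = x ^ (2 / 3 : ℝ) := by
        conv_lhs => rw [← Real.rpow_add hx]; enter [1]; rw [← Real.rpow_one x]
        rw [← Real.rpow_add hx]; norm_num
      have e2 : x * (x ^ (1 / 6 : ℝ) * x ^ (-(1 / 3) : ℝ)) = x ^ (5 / 6 : ℝ) := by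
        conv_lhs => rw [← Real.rpow_add hx]; enter [1]; rw [← Real.rpow_one x]
        rw [← Real.rpow_add hx]; norm_num
      rw [← e1, ← e2]
      ring
    rw [e lm hl, e lm' hl']
    have h1 : lm ^ (2 / 3 : ℝ) ≤ lm' ^ (2 / 3 : ℝ) := Real.rpow_le_rpow hl.le h (by norm_num)
    have h2 : lm ^ (5 / 6 : ℝ) ≤ lm' ^ (5 / 6 : ℝ) := Real.rpow_le_rpow hl.le h (by norm_num)
    gcongr

/-- **the bound at one kernel** for families of dilations (helper50) -/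
def PoD (χ : Eis → ℂ) (w : ℝ → ℝ) : Prop :=
  ∀ R : ℝ, 0 ≤ R → ∀ a A : ℕ, 1 < A → ∀ ε : ℝ, 0 < ε → ∃ (C c : ℝ) (J : ℕ), 0 ≤ C ∧ 1 ≤ c ∧
    ∀ Z N Δ X : ℝ, 1 ≤ Z → 0 < N → N ≤ Z → 1 ≤ Δ → Δ ≤ Z → 0 < X → X ≤ Z → 1 ≤ X * Z →
    ∀ κ : Ker, Good κ → (nm (kv κ) : ℝ) ≤ Z → (nm (kv κ) : ℝ) * Real.exp (R + 3) < N * Δ →
    ∀ {ι : Type} (Q : Finset ι) (b : ι → Eis → ℂ) (Xq : ι → ℝ) (𝒟 : ι → Finset Eis),
      (∀ q ∈ Q, X / 64 ≤ Xq q ∧ Xq q ≤ X) →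
      (∀ q ∈ Q, ∀ n, b q n ≠ 0 → n ∈ S Z) → (∀ q ∈ Q, Win (b q) (Real.log N) R) →
      (∀ q ∈ Q, ∀ D ∈ 𝒟 q, IsPrim D ∧ Squarefree D ∧ Δ / 4 < nm D ∧ (nm D : ℝ) ≤ Δ ∧
        IsCoprime (kv κ) D) →
    ∀ W : ℝ → ℝ, Slp a W → PoH347.HW A ((N * Δ) ^ 2) Q b 1 W →
    ∀ W1 : ℝ, W (c * (N * Δ * nm (kv κ) / X)) ≤ W1 →
    ∀ t : ℝ, ∑ q ∈ Q, ∑ D ∈ 𝒟 q, ‖XS χ w (Xq q) t (bt D (b q)) κ‖ ^ 2 ≤
      C * Z ^ ε * (1 + |t|) ^ J *
        (X * nfE Δ (nm (kv κ)) (N * Δ * nm (kv κ) / X) * W1)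

/-- the tests of the base sequence -/
def TsD (N : ℝ) : Set Tst := {τ | ∃ γ φ x C : Eis, IsPrim γ ∧ φ ≠ 0 ∧ x ≠ 0 ∧ C ≠ 0 ∧
    (nm C : ℝ) ≤ N ^ 2 ∧ φ * γ ^ 2 = x * C ^ 3 ∧
    τ = ⟨{(γ, φ, 1)}, fun _ => (nm γ : ℝ), fun _ => (nm x : ℝ)⟩}

/-- the admissible tests -/
def OKD (Δ : ℝ) : ℝ → ℝ → Eis → Set Tst → Prop := fun Z N _ 𝒯 => Δ ≤ Z ∧ 𝒯 = TsD N

lemma okw_D (Δ : ℝ) : OKW (OKD Δ) where
  mono Z Z' N ka 𝒯 hZ h := ⟨h.1.trans hZ, h.2⟩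
  ok Z N ka 𝒯 h τ hτ x hx := by
    rw [h.2] at hτ
    obtain ⟨γ, φ, y, C, hγ, h1, h2, h3, h4, h5, rfl⟩ := hτ
    rw [Finset.mem_singleton] at hx
    subst hx
    exact ⟨hγ, by positivity, one_le_nm' h2⟩

/-- the values of a family of dilations -/
def RlD (χ : Eis → ℂ) (v : ℝ → ℝ) (Δ : ℝ) : Eis → ℝ → ℝ → ℝ → (Eis → ℂ) → ℝ → Prop :=
  fun _ lm X t b s => ∃ (𝒟 : Finset Eis) (Xd : Eis → ℝ),
    (∀ D ∈ 𝒟, IsPrim D ∧ Squarefree D ∧ Δ / 4 < nm D ∧ (nm D : ℝ) ≤ Δ ∧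
      X / 4 ≤ Xd D ∧ Xd D ≤ X) ∧
    s = ∑ D ∈ 𝒟, ∑ κ ∈ KSa lm D, ‖XS χ v (Xd D) t (bt D b) κ‖ ^ 2

/-- **the structured bound of the dilations**, parameter `Δ` -/
def GD (χ : Eis → ℂ) (v : ℝ → ℝ) : GP {x : ℝ // 1 ≤ x} where
  OK θ := OKD θ.1
  Adm θ N R b := Win b (Real.log (N / θ.1)) R
  Cnd _ R N lm := lm * Real.exp (R + 3) < N
  nfn θ := nfD θ.1
  psi _ := 1
  Rl θ := RlD χ v θ.1
  okw θ := okw_D θ.1
  adm θ N R b b' h h' := fun n hn => h n (h' n hn)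
  cnd θ R N lm lm' h h' := lt_of_le_of_lt
    (mul_le_mul_of_nonneg_right h' (Real.exp_pos _).le) h
  nfok θ := nfok_nfD (by linarith [θ.2])

set_option maxHeartbeats 1000000 in
/-- **the structured bound of the dilations** from the bound at one kernel -/
theorem pohg_D {χ : Eis → ℂ} {v : ℝ → ℝ} (hv : Wgt v) (hP : ∀ v₂, Wgt v₂ → PoD χ v₂) :
    PoHG (GD χ v) := by
  classical
  intro R hR a A hA ε hε
  have hl4 : 0 ≤ Real.log 4 := Real.log_nonneg (by norm_num)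
  obtain ⟨Rv, hRv0, hRv⟩ := wgt_log hv
  obtain ⟨v₂, hv₂, hmaj⟩ := exists_maj (R := Rv + Real.log 4) (by linarith)
  obtain ⟨R₂, hR₂0, hR₂⟩ := wgt_log hv₂
  obtain ⟨C, c, J, hC, hc, h⟩ := hP v₂ hv₂ R hR a A hA (ε / 2) (by positivity)
  obtain ⟨k, K, hK, hkc, hki, hkA, hkr⟩ := exists_ker hv (R := R₂ + Real.log 4)
    (by linarith) (J + 2)
  set KJ : ℝ := (K * ∫ ξ, jb 2 ξ) ^ 2 with hKJ
  have hKJ0 : 0 ≤ KJ := by positivity
  set cH : ℝ := 200 * (1 + Real.log 1) * (1 + 1 / (ε / 2)) with hcH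
  have hcH0 : 0 ≤ cH := by rw [hcH, Real.log_one]; positivity
  refine ⟨144 * cH * (KJ * C), c, J, by positivity, hc, ?_⟩
  intro θ Z N X lm hZ hN hNZ hX hXZ hXZ1 hlm hlmZ hcnd ka 𝒯 hT ι Q b Xq hXq hbS hAdm W hW hWle
    W1 hW1 hW1le t s hs
  obtain ⟨Δ, hΔ1⟩ := θ
  have hT1 : Δ ≤ Z := hT.1
  have hT2 : 𝒯 = TsD N := hT.2
  have hcnd' : lm * Real.exp (R + 3) < N := hcnd
  have hZ0 : 0 < Z := by linarith
  have hΔ0 : 0 < Δ := by linarith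
  have hlm0 : 0 < lm := by linarith
  have hc0 : 0 < c := by linarith
  set I : ℝ := Il N lm X with hI
  have hI0 : 0 < I := by rw [hI]; unfold Il; positivity
  choose! 𝒟 Xd h𝒟 hsv using hs
  have hNΔ : 0 < N / Δ := by positivity
  have hNΔZ : N / Δ ≤ Z := (div_le_self hN.le hΔ1).trans hNZ
  have hNN : N / Δ * Δ = N := div_mul_cancel₀ _ hΔ0.ne'
  -- the hypothesis
  have hHW : PoH347.HW A ((N / Δ * Δ) ^ 2) Q b 1 W := by
    intro γ φ x D hγ _ hφ hx hD hDN he P hP1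
    have hx0 : (1 : ℝ) ≤ nm x := one_le_nm' hx
    have hx1 : (0 : ℝ) < nm x := by linarith
    have h1 := hWle ⟨{(γ, φ, 1)}, fun _ => (nm γ : ℝ), fun _ => (nm x : ℝ)⟩
      (by rw [hT2]; exact ⟨γ, φ, x, D, hγ, hφ, hx, hD, by rwa [hNN] at hDN, he, rfl⟩)
      (P * nm x) (one_le_mul_of_one_le_of_one_le hP1 hx0)
    refine le_trans (le_of_eq ?_) h1
    rw [Finset.mul_sum]
    refine Finset.sum_congr rfl fun q _ => ?_
    have e1 : (fun m => b q m * (GD χ v).psi m) = b q := by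
      funext m
      show b q m * 1 = b q m
      rw [mul_one]
    rw [e1]
    unfold TV
    rw [Finset.sum_singleton, mul_div_cancel_right₀ _ hx1.ne']
  -- one kernel
  set Bk : ℝ := C * Z ^ (ε / 2) * (X * nfE Δ lm I * W1) with hBk
  have hnf0 : 0 ≤ nfE Δ lm I := nfE_nonneg hΔ0.le hlm0.le hI0.le
  have hBk0 : 0 ≤ Bk := by positivity
  have hone : ∀ κ ∈ KS lm, ∑ q ∈ Q, ∑ D ∈ (𝒟 q).filter (fun D => IsCoprime (kv κ) D),
      ‖XS χ v (Xd q D) t (bt D (b q)) κ‖ ^ 2 ≤ KJ * (Bk * (1 + |t|) ^ J) := by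
    intro κ hκ
    obtain ⟨hg, hn⟩ := mem_KS.mp hκ
    set K1 : ℝ := (nm (kv κ) : ℝ) with hK1
    have hK11 : 1 ≤ K1 := one_le_nm' (NonCube52.kv_ne_zero hg)
    have hK10 : 0 < K1 := by linarith
    set Fm : Finset (Σ _ : ι, Eis) := Q.sigma fun q => (𝒟 q).filter
      (fun D => IsCoprime (kv κ) D) with hFm
    have hmem : ∀ x ∈ Fm, x.1 ∈ Q ∧ x.2 ∈ 𝒟 x.1 ∧ IsCoprime (kv κ) x.2 := by
      intro x hx
      rw [hFm, Finset.mem_sigma, Finset.mem_filter] at hx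
      exact hx
    have hsm := fam_smooth hRv hR₂ hmaj hki hkA hkr Fm χ (fun x => Xq x.1)
      (fun x => Xd x.1 x.2) (fun x => bt x.2 (b x.1)) (fun _ => κ)
      (fun x hx => by
        obtain ⟨h1, h2, -⟩ := hmem x hx
        obtain ⟨-, -, -, -, h3, h4⟩ := h𝒟 _ h1 _ h2
        refine ⟨?_, h3, h4⟩
        have := (hXq _ h1).1
        have : 0 < X / 64 := by positivity
        linarith) hBk0 (fun t' => by
        rw [hFm, Finset.sum_sigma]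
        set sκ : ℝ := K1 / lm with hsκ
        have hsκ0 : 0 < sκ := by positivity
        have hsκ1 : sκ ≤ 1 := (div_le_one hlm0).mpr hn
        have hIκ : N / Δ * Δ * K1 / X = sκ * I := by
          rw [hNN, hI, hsκ]; unfold Il; field_simp
        have hKκ : K1 = sκ * lm := by rw [hsκ]; field_simp
        have hW' : W (c * (N / Δ * Δ * K1 / X)) ≤ sκ ^ (1 / 3 : ℝ) * W1 := by
          rw [hIκ]
          have h7 := hW.low (c * (sκ * I)) (c * I) (by positivity) (by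
            refine mul_le_mul_of_nonneg_left ?_ hc0.le
            exact mul_le_of_le_one_left hI0.le hsκ1)
          have e3 : c * (sκ * I) / (c * I) = sκ := by field_simp
          rw [e3] at h7
          exact h7.trans (mul_le_mul_of_nonneg_left hW1le (by positivity))
        have h8 := h Z (N / Δ) Δ X hZ hNΔ hNΔZ hΔ1 hT1 hX hXZ hXZ1 κ hg (hn.trans hlmZ)
          (by
            rw [hNN]
            refine lt_of_le_of_lt ?_ hcnd'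
            exact mul_le_mul_of_nonneg_right hn (Real.exp_pos _).le)
          Q b Xq (fun q => (𝒟 q).filter (fun D => IsCoprime (kv κ) D)) hXq hbS hAdm
          (fun q hq D hD => by
            rw [Finset.mem_filter] at hD
            obtain ⟨h1, h2, h3, h4, -, -⟩ := h𝒟 _ hq _ hD.1
            exact ⟨h1, h2, h3, h4, hD.2⟩)
          W hW hHW _ hW' t'
        refine h8.trans ?_
        have hkey := nfE_key hΔ0.le hlm0 hI0 hsκ0 hsκ1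
        rw [← hK1, hIκ]
        have h9 : nfE Δ K1 (sκ * I) * (sκ ^ (1 / 3 : ℝ) * W1) ≤ nfE Δ lm I * W1 := by
          rw [hKκ]
          calc _ = (sκ ^ (1 / 3 : ℝ) * nfE Δ (sκ * lm) (sκ * I)) * W1 := by ring
            _ ≤ _ := mul_le_mul_of_nonneg_right hkey hW1
        calc C * Z ^ (ε / 2) * (1 + |t'|) ^ J *
              (X * nfE Δ K1 (sκ * I) * (sκ ^ (1 / 3 : ℝ) * W1))
            = C * Z ^ (ε / 2) * (1 + |t'|) ^ J *
              (X * (nfE Δ K1 (sκ * I) * (sκ ^ (1 / 3 : ℝ) * W1))) := by ring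
          _ ≤ C * Z ^ (ε / 2) * (1 + |t'|) ^ J * (X * (nfE Δ lm I * W1)) := by gcongr
          _ = Bk * (1 + |t'|) ^ J := by rw [hBk]; ring) t
    rw [hFm, Finset.sum_sigma] at hsm
    exact hsm
  -- the sum over the kernels
  have hsum : ∑ q ∈ Q, s q = ∑ κ ∈ KS lm, ∑ q ∈ Q, ∑ D ∈ (𝒟 q).filter
      (fun D => IsCoprime (kv κ) D), ‖XS χ v (Xd q D) t (bt D (b q)) κ‖ ^ 2 := by
    rw [Finset.sum_comm]
    refine Finset.sum_congr rfl fun q hq => ?_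
    rw [hsv q hq]
    have e1 : ∀ κ ∈ KS lm, ∑ D ∈ (𝒟 q).filter (fun D => IsCoprime (kv κ) D),
        ‖XS χ v (Xd q D) t (bt D (b q)) κ‖ ^ 2 = ∑ D ∈ 𝒟 q, if IsCoprime (kv κ) D then
        ‖XS χ v (Xd q D) t (bt D (b q)) κ‖ ^ 2 else 0 := fun κ _ => Finset.sum_filter _ _
    rw [Finset.sum_congr rfl e1, Finset.sum_comm]
    refine Finset.sum_congr rfl fun D _ => ?_
    rw [← Finset.sum_filter]
    rfl
  rw [hsum]
  have hHS : HS lm ≤ cH * Z ^ (ε / 2) := by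
    have := HS_rpow (c := 1) hlm (by linarith : lm ≤ 1 * Z) hZ le_rfl (δ := ε / 2) (by positivity)
    rwa [← hcH] at this
  have hHS0 := HS_nonneg lm
  calc ∑ κ ∈ KS lm, ∑ q ∈ Q, ∑ D ∈ (𝒟 q).filter
        (fun D => IsCoprime (kv κ) D), ‖XS χ v (Xd q D) t (bt D (b q)) κ‖ ^ 2
      ≤ ∑ κ ∈ KS lm, KJ * (Bk * (1 + |t|) ^ J) := Finset.sum_le_sum hone
    _ = ((KS lm).card : ℝ) * (KJ * (Bk * (1 + |t|) ^ J)) := by
        rw [Finset.sum_const, nsmul_eq_mul]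
    _ ≤ (144 * lm * (cH * Z ^ (ε / 2))) * (KJ * (Bk * (1 + |t|) ^ J)) := by
        refine mul_le_mul_of_nonneg_right ((card_KS hlm).trans ?_) (by positivity)
        gcongr
    _ = 144 * cH * (KJ * C) * (Z ^ (ε / 2) * Z ^ (ε / 2)) * (1 + |t|) ^ J *
          (X * (lm * nfE Δ lm I) * W1) := by rw [hBk]; ring
    _ = _ := by
        rw [← Real.rpow_add hZ0, add_halves]
        rfl

end Crest.Agent.R017.Mode405
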