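import Crest.Agent.R017.ModeD1_405
import Crest.Agent.R017.ModeP_405

/-!
# Row 17, block C70, leaf E3: MODE*, second form, part D2 (helper405)

* `StrQ_bt` : the `D`-part of the modulus is automatic
* `norm_StrQ_D_le` : the structured part of a dilation through the values of `RlD`
* `strD_le` : the structured half of a family of dilations
* `strD_int` : integral form
-/

set_option autoImplicit false

noncomputable section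

open Complex MeasureTheory
open scoped ComplexConjugate

namespace Crest.Agent.R017.Mode405

open Crest.Agent.R012 Crest.Agent.R012.Eis Crest.Agent.R012.MC
open Crest.Agent.R012.LS2 (S mem_S bl mem_bl)
open Crest.Agent.R012.LS448 (one_le_nm')
open Crest.Agent.R012.NonCube52 (Ker kv Good)
open Crest.Agent.R012.Mob705 (mu pdiv mem_pdiv abs_mu_le_one)
open Crest.Agent.R012.Tau671 (norm_sy_le)
open Crest.Agent.R012.Weight600 (pw osc norm_pw)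
open Crest.Agent.R017.CM106 (CS TG FS)
open Crest.Agent.R017.BD829 (TT EQ Win EQ_nonneg)
open Crest.Agent.R017.E1551 (jb jb_pos nmpos integrable_jb)
open Crest.Agent.R017.DgB829 (HS HS_le HS_nonneg)
open Crest.Agent.R017.E3D579 (bt bt_supp CS_bt)

lemma CS_cmul (c : ℂ) (b : Eis → ℂ) (n : Eis) : CS (fun m => c * b m) n = c * CS b n := by
  unfold CS
  rw [← tsum_mul_left]
  exact tsum_congr fun m => by ring

lemma XS_cmul (χ : Eis → ℂ) (v : ℝ → ℝ) (X t : ℝ) (c : ℂ) (b : Eis → ℂ) (κ : Ker) :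
    XS χ v X t (fun m => c * b m) κ = c * XS χ v X t b κ := by
  classical
  unfold XS
  rw [← tsum_mul_left]
  refine tsum_congr fun x => ?_
  rw [CS_cmul]
  split_ifs <;> ring

/-- twist of a dilation -/
lemma bs_bt {b : Eis → ℂ} (hb : ∀ n, b n ≠ 0 → IsPrim n) {D : Eis} (hD : IsPrim D) (s : Eis) :
    bs (bt D b) s = fun m => sy s D * bt D (bs b s) m := by
  funext m
  unfold bs bt
  split_ifs with h
  · obtain ⟨n, rfl⟩ := h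
    rw [mul_div_cancel_left₀ n hD.ne_zero]
    by_cases hn : b n = 0
    · simp [hn]
    · rw [Char766.sy_mul_right hD (hb n hn)]; ring
  · ring

lemma norm_XS_bs_bt {χ : Eis → ℂ} {v : ℝ → ℝ} {X t : ℝ} {b : Eis → ℂ}
    (hb : ∀ n, b n ≠ 0 → IsPrim n) {D : Eis} (hD : IsPrim D) (κ : Ker) (e s : Eis) :
    ‖XS χ v X t (bs (bs (bt D b) e) s) κ‖ ≤ ‖XS χ v X t (bt D (bs (bs b e) s)) κ‖ := by
  have hb' : ∀ n, bt D b n ≠ 0 → IsPrim n := fun n hn => by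
    obtain ⟨m, rfl, hm⟩ := bt_supp hD.ne_zero hn
    exact hD.mul (hb m hm)
  rw [← bs_mul hb', bs_bt hb hD, XS_cmul, bs_mul hb, norm_mul]
  exact mul_le_of_le_one_left (norm_nonneg _) (norm_sy_le hD)

lemma fx_bt {χ : Eis → ℂ} {v : ℝ → ℝ} {Y t : ℝ} {b : Eis → ℂ} (hb : FS b) {D : Eis}
    (hD : IsPrim D) (κ : Ker) (r : Eis) :
    fx (chr χ (D * r)) v Y t (bt D b) κ = fx (chr χ r) v Y t (bt D b) κ := by
  classical
  funext n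
  unfold fx chr
  by_cases h : IsCoprime n D
  · have e : IsCoprime n (D * r) ↔ IsCoprime n r :=
      ⟨fun h' => h'.of_mul_right_right, fun h' => h.mul_right h'⟩
    simp only [e]
  · have e : CS (bt D b) n = 0 := by
      rw [CS_bt hD hb, (Gauss880.syG.eq_zero n D hD).mpr h, zero_mul]
    rw [e]; simp

/-- the `D`-part of the modulus is automatic -/
lemma StrQ_bt {χ : Eis → ℂ} {v : ℝ → ℝ} {Y t : ℝ} {b : Eis → ℂ} (hb : FS b) {D : Eis}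
    (hD : IsPrim D) (κ : Ker) (ρ r : Eis) (N₀ P₁ : ℝ) :
    StrQ χ v Y t (bt D b) κ ρ (D * r) N₀ P₁ = StrQ χ v Y t (bt D b) κ ρ r N₀ P₁ := by
  unfold StrQ
  rw [fx_bt hb hD]

open Classical in
lemma norm_StrQ_D_le {χ : Eis → ℂ} (hχ : Mul1 χ) {v : ℝ → ℝ} {Y t : ℝ} (hY : 0 < Y) {b : Eis → ℂ}
    (hb : FS b) {D : Eis} (hD : IsPrim D) (κ : Ker) {ρ r : Eis} (hρ : ρ ≠ 0) (hr : r ≠ 0)
    {N₀ : ℝ} (hN : 0 ≤ N₀) (hw : ∀ x, v (x / Y) ≠ 0 → x ≤ N₀) (P₁ : ℝ) :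
    ‖StrQ χ v Y t (bt D b) κ ρ (D * r) N₀ P₁‖ ^ 2 ≤ ((pdiv ρ).card : ℝ) * HS N₀ * (pdiv r).card *
      ∑ d ∈ pdiv ρ, ∑ q ∈ S N₀, if (nm d : ℝ) * nm q ≤ P₁ then
        (nm q : ℝ) * ∑ e ∈ pdiv r,
          ‖XS χ v (Y / nm e / nm (d * q ^ 2)) t (bt D (bs (bs b e) (d * q ^ 2))) κ‖ ^ 2 else 0 := by
  rw [StrQ_bt hb hD]
  refine (norm_StrQ_le hχ hY (E3D579.FS.bt hD hb).prim κ hρ hr hN hw P₁).trans ?_
  refine mul_le_mul_of_nonneg_left ?_ (by have := HS_nonneg N₀; positivity)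
  refine Finset.sum_le_sum fun d _ => Finset.sum_le_sum fun q _ => ?_
  split_ifs
  · refine mul_le_mul_of_nonneg_left (Finset.sum_le_sum fun e _ => ?_) (Nat.cast_nonneg _)
    exact pow_le_pow_left₀ (norm_nonneg _) (norm_XS_bs_bt hb.prim hD κ e _) 2
  · exact le_rfl

lemma HS_mono {Y Y' : ℝ} (hY : 0 ≤ Y) (h : Y ≤ Y') : HS Y ≤ HS Y' := by
  unfold HS
  refine Finset.sum_le_sum_of_subset_of_nonneg (fun n hn => ?_) fun _ _ _ => by positivity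
  rw [mem_S hY] at hn
  rw [mem_S (hY.trans h)]
  exact ⟨hn.1.trans h, hn.2⟩

lemma FS_of_S {Z : ℝ} (hZ : 0 ≤ Z) {b : Eis → ℂ} (hb : ∀ n, b n ≠ 0 → n ∈ S Z) : FS b where
  fin := (S Z).finite_toSet.subset fun n hn => hb n hn
  prim n hn := ((mem_S hZ).1 (hb n hn)).2.1

set_option maxHeartbeats 2000000 in
/-- **the structured half of a family of dilations** -/
theorem strD_le {χ : Eis → ℂ} (hχ : Mul1 χ) {v : ℝ → ℝ} (hP : PoHG (GD χ v)) {cw : ℝ}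
    (hcw : 1 ≤ cw) (hw : ∀ x, v x ≠ 0 → x ≤ cw) {R : ℝ} (hR : 0 ≤ R) (a A : ℕ) (hA : 1 < A)
    {ε : ℝ} (hε : 0 < ε) :
    ∃ (C c : ℝ) (J : ℕ), 0 ≤ C ∧ 1 ≤ c ∧ ∀ Z N Δ Y Lt lm : ℝ, 1 ≤ Z → 0 < N → 1 ≤ Δ →
      N * Δ ≤ Z → Δ ≤ Z → 1 ≤ Y → Y ≤ Z → 1 ≤ lm → lm ≤ Lt → Lt ≤ Z → Lt * Real.exp (R + 3) < N * Δ →
    ∀ (b : Eis → ℂ) (r : Eis), (∀ n, b n ≠ 0 → n ∈ S Z) → Win b (Real.log N) R → r ≠ 0 →
      (nm r : ℝ) ≤ Z →
    ∀ W : ℝ → ℝ, Slp a W →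
      (∀ τ ∈ TsD (N * Δ), ∀ P : ℝ, 0 < P → ∑ e ∈ pdiv r,
        (nm e : ℝ)⁻¹ * TV τ A (bs b e) (nm e * P) ≤ W P) →
    ∀ W1 : ℝ, 0 ≤ W1 → W (c * Il (N * Δ) Lt Y) ≤ W1 →
    ∀ (𝒟 : Finset Eis) (Yd : Eis → ℝ) (ρ : Eis → Eis) (g P₁ : Eis → ℝ) (𝒦 : Eis → Finset Ker),
      (∀ D ∈ 𝒟, IsPrim D ∧ Squarefree D ∧ Δ / 4 < nm D ∧ (nm D : ℝ) ≤ Δ ∧ Y / 4 ≤ Yd D ∧
        Yd D ≤ Y) →
      (∀ D ∈ 𝒟, ρ D ≠ 0 ∧ 0 ≤ g D ∧ g D * ((pdiv (ρ D)).card : ℝ) ≤ 1 ∧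
        P₁ D ≤ (Lt / lm) ^ (1 / 3 : ℝ) ∧ 𝒦 D ⊆ KSa lm D) →
    ∀ t : ℝ, ∑ D ∈ 𝒟, g D * ∑ κ ∈ 𝒦 D,
        ‖StrQ χ v (Yd D) t (bt D b) κ (ρ D) (D * r) (cw * Yd D) (P₁ D)‖ ^ 2 ≤
      C * Z ^ ε * (1 + |t|) ^ J *
        (Y * nfD Δ lm (Il (N * Δ) lm Y) * ((lm / Lt) ^ (1 / 3 : ℝ) * W1)) := by
  classical
  obtain ⟨C, c, J, hC, hc, hmain⟩ := strG_le hP hR a A hA (ε := ε / 4) (by positivity)
  obtain ⟨Ct, hCt, htau⟩ := Div277.tau_le_rpow (ε := ε / 4) (by positivity)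
  set δ : ℝ := ε / 4 with hδ
  have hδ0 : 0 < δ := by positivity
  set c3 : ℝ := 200 * (1 + Real.log cw) * (1 + 1 / δ) with hc3
  have hlcw : 0 ≤ Real.log cw := Real.log_nonneg hcw
  have hc30 : 0 ≤ c3 := by positivity
  refine ⟨c3 * Ct * C, c, J, by positivity, hc, ?_⟩
  intro Z N Δ Y Lt lm hZ hN hΔ hNZ hΔZ hY hYZ hlm hlmL hLZ hLN b r hbS hbW hr hrZ W hW hWle W1
    hW1 hW1le 𝒟 Yd ρ g P₁ 𝒦 h𝒟 hρ t
  have hZ0 : 0 < Z := by linarith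
  have hY0 : 0 < Y := by linarith
  have hlm0 : 0 < lm := by linarith
  have hLt0 : 0 < Lt := by linarith
  have hΔ0 : 0 < Δ := by linarith
  have hcw0 : 0 < cw := by linarith
  have hND : 0 < N * Δ := by positivity
  have hFS : FS b := FS_of_S hZ0.le hbS
  set P : ℝ := (Lt / lm) ^ (1 / 3 : ℝ) with hPd
  have hLl : 1 ≤ Lt / lm := (one_le_div hlm0).mpr hlmL
  have hP1 : 1 ≤ P := Real.one_le_rpow hLl (by norm_num)
  have hP3 : lm * P ^ 3 = Lt := by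
    rw [hPd, ← Real.rpow_natCast, ← Real.rpow_mul (by positivity)]
    norm_num
    field_simp
  have hYd0 : ∀ D ∈ 𝒟, 0 < Yd D := fun D hD => by
    have := (h𝒟 D hD).2.2.2.2.1
    linarith
  set Tr : Eis → Finset ((Eis × Eis) × Eis) := fun D =>
    ((pdiv (ρ D) ×ˢ S (cw * Yd D)).filter (fun p => (nm p.1 : ℝ) * nm p.2 ≤ P₁ D)) ×ˢ pdiv r
    with hTr
  set f : Eis → (Eis × Eis) × Eis → Ker → ℝ := fun D p κ =>
    ‖XS χ v (Yd D / nm p.2 / nm (p.1.1 * p.1.2 ^ 2)) t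
      (bt D (bs (bs b p.2) (p.1.1 * p.1.2 ^ 2))) κ‖ ^ 2 with hf
  have hf0 : ∀ D p κ, 0 ≤ f D p κ := fun D p κ => by rw [hf]; positivity
  have hmem : ∀ D ∈ 𝒟, ∀ p ∈ Tr D, IsPrim p.1.1 ∧ IsPrim p.1.2 ∧
      (nm p.1.1 : ℝ) * nm p.1.2 ≤ P ∧ p.2 ∈ pdiv r := by
    intro D hD p hp
    rw [hTr] at hp
    simp only [Finset.mem_filter, Finset.mem_product] at hp
    have h1 := (mem_pdiv (hρ D hD).1).mp hp.1.1.1
    have h2 := (mem_S (by have := hYd0 D hD; positivity)).1 hp.1.1.2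
    exact ⟨h1.1, h2.2.1, hp.1.2.trans (hρ D hD).2.2.2.1, hp.2⟩
  -- one member
  have hA1 : ∀ D ∈ 𝒟, g D * ∑ κ ∈ 𝒦 D,
        ‖StrQ χ v (Yd D) t (bt D b) κ (ρ D) (D * r) (cw * Yd D) (P₁ D)‖ ^ 2 ≤
      (c3 * Z ^ δ) * (Ct * Z ^ (ε / 4)) *
        ∑ p ∈ Tr D, (nm p.1.2 : ℝ) * ∑ κ ∈ KSa lm D, f D p κ := by
    intro D hD
    obtain ⟨hp, -, -, -, hy1, hy2⟩ := h𝒟 D hD
    obtain ⟨hρ0, hg0, hg1, -, hK⟩ := hρ D hD
    have hYq0 := hYd0 D hD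
    have hw' : ∀ x, v (x / Yd D) ≠ 0 → x ≤ cw * Yd D := by
      intro x hx
      have h1 := hw _ hx
      rwa [div_le_iff₀ hYq0] at h1
    have h1 : ∀ κ ∈ 𝒦 D, ‖StrQ χ v (Yd D) t (bt D b) κ (ρ D) (D * r) (cw * Yd D) (P₁ D)‖ ^ 2 ≤
        ((pdiv (ρ D)).card : ℝ) * HS (cw * Yd D) * (pdiv r).card *
          ∑ p ∈ Tr D, (nm p.1.2 : ℝ) * f D p κ := by
      intro κ _
      refine (norm_StrQ_D_le hχ (t := t) hYq0 hFS hp κ hρ0 hr (by positivity) hw' (P₁ D)).trans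
        (le_of_eq ?_)
      congr 1
      rw [hTr, hf]
      beta_reduce
      rw [Finset.sum_product, Finset.sum_filter, Finset.sum_product]
      refine Finset.sum_congr rfl fun d _ => Finset.sum_congr rfl fun q _ => ?_
      split_ifs
      · rw [Finset.mul_sum]
      · rfl
    have hHS0 := HS_nonneg (cw * Yd D)
    have h2 : HS (cw * Yd D) ≤ c3 * Z ^ δ := by
      refine (HS_mono (by positivity) (mul_le_mul_of_nonneg_left hy2 hcw0.le)).trans ?_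
      exact HS_rpow (one_le_mul_of_one_le_of_one_le hcw hY)
        (mul_le_mul_of_nonneg_left hYZ hcw0.le) hZ hcw hδ0
    have h3 : ((pdiv r).card : ℝ) ≤ Ct * Z ^ (ε / 4) := by
      refine (htau _ hr).trans (mul_le_mul_of_nonneg_left ?_ (by linarith))
      exact Real.rpow_le_rpow (Nat.cast_nonneg _) hrZ (by positivity)
    have h4 : 0 ≤ ∑ p ∈ Tr D, (nm p.1.2 : ℝ) * ∑ κ ∈ KSa lm D, f D p κ :=
      Finset.sum_nonneg fun p _ => mul_nonneg (Nat.cast_nonneg _)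
        (Finset.sum_nonneg fun _ _ => hf0 _ _ _)
    calc g D * ∑ κ ∈ 𝒦 D,
          ‖StrQ χ v (Yd D) t (bt D b) κ (ρ D) (D * r) (cw * Yd D) (P₁ D)‖ ^ 2
        ≤ g D * ∑ κ ∈ 𝒦 D, ((pdiv (ρ D)).card : ℝ) * HS (cw * Yd D) * (pdiv r).card *
          ∑ p ∈ Tr D, (nm p.1.2 : ℝ) * f D p κ :=
          mul_le_mul_of_nonneg_left (Finset.sum_le_sum h1) hg0
      _ ≤ g D * ∑ κ ∈ KSa lm D, ((pdiv (ρ D)).card : ℝ) * HS (cw * Yd D) * (pdiv r).card *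
          ∑ p ∈ Tr D, (nm p.1.2 : ℝ) * f D p κ := by
          refine mul_le_mul_of_nonneg_left ?_ hg0
          refine Finset.sum_le_sum_of_subset_of_nonneg hK fun κ _ _ => ?_
          have : 0 ≤ ∑ p ∈ Tr D, (nm p.1.2 : ℝ) * f D p κ :=
            Finset.sum_nonneg fun p _ => mul_nonneg (Nat.cast_nonneg _) (hf0 _ _ _)
          positivity
      _ = (g D * ((pdiv (ρ D)).card : ℝ)) * (HS (cw * Yd D) * (pdiv r).card *
          ∑ p ∈ Tr D, (nm p.1.2 : ℝ) * ∑ κ ∈ KSa lm D, f D p κ) := by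
          rw [← Finset.mul_sum, Finset.sum_comm]
          simp_rw [← Finset.mul_sum]
          ring
      _ ≤ 1 * (HS (cw * Yd D) * (pdiv r).card *
          ∑ p ∈ Tr D, (nm p.1.2 : ℝ) * ∑ κ ∈ KSa lm D, f D p κ) :=
          mul_le_mul_of_nonneg_right hg1 (by positivity)
      _ = HS (cw * Yd D) * (pdiv r).card *
          ∑ p ∈ Tr D, (nm p.1.2 : ℝ) * ∑ κ ∈ KSa lm D, f D p κ := one_mul _
      _ ≤ (c3 * Z ^ δ) * (Ct * Z ^ (ε / 4)) *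
          ∑ p ∈ Tr D, (nm p.1.2 : ℝ) * ∑ κ ∈ KSa lm D, f D p κ := by gcongr
  -- all members
  set TT' : Finset ((Eis × Eis) × Eis) := 𝒟.biUnion Tr with hTT
  have hswap : ∑ D ∈ 𝒟, ∑ p ∈ Tr D, (nm p.1.2 : ℝ) * ∑ κ ∈ KSa lm D, f D p κ =
      ∑ p ∈ TT', (nm p.1.2 : ℝ) * ∑ D ∈ 𝒟.filter (fun D => p ∈ Tr D), ∑ κ ∈ KSa lm D, f D p κ := by
    have e1 : ∀ D ∈ 𝒟, ∑ p ∈ Tr D, (nm p.1.2 : ℝ) * ∑ κ ∈ KSa lm D, f D p κ =
        ∑ p ∈ TT', if p ∈ Tr D then (nm p.1.2 : ℝ) * ∑ κ ∈ KSa lm D, f D p κ else 0 := by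
      intro D hD
      rw [← Finset.sum_filter]
      refine Finset.sum_congr ?_ fun _ _ => rfl
      ext p
      rw [Finset.mem_filter, hTT, Finset.mem_biUnion]
      exact ⟨fun h => ⟨⟨D, hD, h⟩, h⟩, fun h => h.2⟩
    rw [Finset.sum_congr rfl e1, Finset.sum_comm]
    refine Finset.sum_congr rfl fun p _ => ?_
    rw [← Finset.sum_filter, Finset.mul_sum]
  have hsub : ∀ D ∈ 𝒟, ∀ s, 0 < s → Yd D / s ≤ Y / s := fun D hD s hs =>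
    div_le_div_of_nonneg_right (h𝒟 D hD).2.2.2.2.2 hs.le
  have key := hmain ⟨Δ, hΔ⟩ Z (N * Δ) Y Lt lm P hZ hND hNZ hY hYZ hlm hlmL hLZ hLN hP1 hP3.le 1
    (TsD (N * Δ)) ⟨hΔZ, rfl⟩ ({()} : Finset Unit) (fun _ => b) (fun _ => Y) (fun _ => r)
    (fun _ _ => ⟨by linarith, le_rfl⟩) (fun _ _ => hbS)
    (fun _ _ => by
      show Win b (Real.log (N * Δ / Δ)) R
      rw [mul_div_cancel_right₀ _ hΔ0.ne']
      exact hbW)
    (fun _ _ => ⟨hr, hrZ⟩) W hW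
    (fun τ hτ Q hQ => by
      rw [Finset.sum_singleton]
      have e1 : ∀ e : Eis, (fun m => bs b e m * (GD χ v).psi m) = bs b e := by
        intro e
        funext m
        show bs b e m * 1 = bs b e m
        rw [mul_one]
      simp only [e1]
      exact hWle τ hτ Q hQ)
    W1 hW1 hW1le (fun _ => TT')
    (fun _ _ p hp => by
      rw [hTT, Finset.mem_biUnion] at hp
      obtain ⟨D, hD, hp⟩ := hp
      exact hmem D hD p hp)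
    t (fun _ p => ∑ D ∈ 𝒟.filter (fun D => p ∈ Tr D), ∑ κ ∈ KSa lm D, f D p κ)
    (fun _ p => Finset.sum_nonneg fun D _ => Finset.sum_nonneg fun κ _ => hf0 _ _ _)
    (fun _ _ p hp => by
      refine ⟨𝒟.filter (fun D => p ∈ Tr D),
        fun D => Yd D / nm p.2 / nm (p.1.1 * p.1.2 ^ 2), fun D hD => ?_, rfl⟩
      rw [Finset.mem_filter] at hD
      obtain ⟨h1, h2, h3, h4, h5, h6⟩ := h𝒟 D hD.1
      obtain ⟨g1, g2, -, g3⟩ := hmem D hD.1 p hD.2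
      have g4 := ((mem_pdiv hr).mp g3).1
      have n1 := nmpos g4.ne_zero
      have n2 := nmpos (g1.mul (g2.pow 2)).ne_zero
      refine ⟨h1, h2, h3, h4, ?_, ?_⟩
      · show Y / nm p.2 / nm (p.1.1 * p.1.2 ^ 2) / 4 ≤ Yd D / nm p.2 / nm (p.1.1 * p.1.2 ^ 2)
        have e2 : Y / nm p.2 / nm (p.1.1 * p.1.2 ^ 2) / 4 =
            Y / 4 / nm p.2 / nm (p.1.1 * p.1.2 ^ 2) := by ring
        rw [e2]
        exact div_le_div_of_nonneg_right (div_le_div_of_nonneg_right h5 n1.le) n2.le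
      · exact div_le_div_of_nonneg_right (div_le_div_of_nonneg_right h6 n1.le) n2.le)
  simp only [Finset.sum_singleton] at key
  have hnf0 : 0 ≤ Y * nfD Δ lm (Il (N * Δ) lm Y) * ((lm / Lt) ^ (1 / 3 : ℝ) * W1) := by
    have hIl0 : 0 < Il (N * Δ) lm Y := by unfold Il; positivity
    have := (nfok_nfD hΔ0.le).nonneg lm _ hlm0.le hIl0
    positivity
  calc ∑ D ∈ 𝒟, g D * ∑ κ ∈ 𝒦 D,
        ‖StrQ χ v (Yd D) t (bt D b) κ (ρ D) (D * r) (cw * Yd D) (P₁ D)‖ ^ 2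
      ≤ ∑ D ∈ 𝒟, (c3 * Z ^ δ) * (Ct * Z ^ (ε / 4)) *
        ∑ p ∈ Tr D, (nm p.1.2 : ℝ) * ∑ κ ∈ KSa lm D, f D p κ := Finset.sum_le_sum hA1
    _ = (c3 * Z ^ δ) * (Ct * Z ^ (ε / 4)) *
        ∑ D ∈ 𝒟, ∑ p ∈ Tr D, (nm p.1.2 : ℝ) * ∑ κ ∈ KSa lm D, f D p κ := by
        rw [← Finset.mul_sum]
    _ ≤ (c3 * Z ^ δ) * (Ct * Z ^ (ε / 4)) *
        (C * Z ^ (ε / 4) * (1 + |t|) ^ J *
        (Y * nfD Δ lm (Il (N * Δ) lm Y) * ((lm / Lt) ^ (1 / 3 : ℝ) * W1))) := by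
        rw [hswap]
        exact mul_le_mul_of_nonneg_left key (by positivity)
    _ = c3 * Ct * C * (Z ^ δ * Z ^ (ε / 4) * Z ^ (ε / 4)) * (1 + |t|) ^ J *
        (Y * nfD Δ lm (Il (N * Δ) lm Y) * ((lm / Lt) ^ (1 / 3 : ℝ) * W1)) := by ring
    _ ≤ c3 * Ct * C * Z ^ ε * (1 + |t|) ^ J *
        (Y * nfD Δ lm (Il (N * Δ) lm Y) * ((lm / Lt) ^ (1 / 3 : ℝ) * W1)) := by
        have h1 : Z ^ δ * Z ^ (ε / 4) * Z ^ (ε / 4) ≤ Z ^ ε := by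
          rw [← Real.rpow_add hZ0, ← Real.rpow_add hZ0]
          refine Real.rpow_le_rpow_of_exponent_le hZ ?_
          rw [hδ]; linarith
        gcongr

end Crest.Agent.R017.Mode405
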