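import Crest.Agent.R017.BD6_829
import Crest.Agent.R017.E3D_579
import Crest.Agent.R012.NonCubeW_52

/-!
# Row 17, block C70, leaf E3: MODE, definitions (helper405)

* `KS X` : the cube-free kernels (`NonCube52.Ker`) of norm at most `X`
* `VI A b g f π P` : the c-side functional
* `XS χ w X t b κ` : the twisted sum over the primary `x` at the kernel `κ`
* `Slp a W` : slopes of the bounding function
* `PoHS χ w` : the structured bound (helper347)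
-/

set_option autoImplicit false

noncomputable section

open Complex MeasureTheory
open scoped ComplexConjugate

namespace Crest.Agent.R017.Mode405

open Crest.Agent.R012 Crest.Agent.R012.Eis Crest.Agent.R012.MC
open Crest.Agent.R012.LS2 (S mem_S bl mem_bl)
open Crest.Agent.R012.NonCube52 (Ker kv Good one_le_nm1 one_le_nm2 cond_le')
open Crest.Agent.R012.Weight600 (pw)
open Crest.Agent.R017.CM106 (CS TG FS)
open Crest.Agent.R017.BD829 (TT EQ Win)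

open Classical in
/-- the cube-free kernels of norm at most `X` -/
def KS (X : ℝ) : Finset Ker :=
  ((Finset.range 3 ×ˢ Finset.range 3) ×ˢ (bl X ×ˢ bl X)).filter
    (fun κ => Good κ ∧ (nm (kv κ) : ℝ) ≤ X)

lemma mem_KS {X : ℝ} {κ : Ker} : κ ∈ KS X ↔ Good κ ∧ (nm (kv κ) : ℝ) ≤ X := by
  classical
  unfold KS
  rw [Finset.mem_filter, Finset.mem_product, Finset.mem_product, Finset.mem_product,
    Finset.mem_range, Finset.mem_range]
  refine ⟨fun h => h.2, fun h => ⟨?_, h⟩⟩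
  have h1 := cond_le' h.1
  have h2 := one_le_nm1 h.1
  have h3 := one_le_nm2 h.1
  have hX : 0 ≤ X := (Nat.cast_nonneg _).trans h.2
  rw [mem_bl hX, mem_bl hX]
  exact ⟨⟨h.1.hi, h.1.hj⟩, ⟨h.1.prim1.ne_zero, by nlinarith⟩, h.1.prim2.ne_zero, by nlinarith⟩

open Classical in
/-- the c-side functional: `Σ_{k ≤ P} ∫ ‖Σ_{(m,π)=1} b(g m) G(m) conj (k f / m) nm m^{it}‖²` -/
def VI (A : ℝ) (b : Eis → ℂ) (g f π : Eis) (P : ℝ) : ℝ :=
  ∑ k ∈ bl P, EQ A (fun m => if IsCoprime m π then b (g * m) else 0) (k * f)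

open Classical in
/-- the twisted sum over the primary `x` at the kernel `κ` -/
def XS (χ : Eis → ℂ) (w : ℝ → ℝ) (X t : ℝ) (b : Eis → ℂ) (κ : Ker) : ℂ :=
  ∑' x : Eis, (if IsPrim x then χ x * (CS b x * conj (sy (kv κ) x)) * pw t (nm x) else 0) *
    ((w (nm x / X) : ℝ) : ℂ)

/-- slopes of the bounding function -/
structure Slp (a : ℕ) (W : ℝ → ℝ) : Prop where
  nonneg : ∀ P, 0 < P → 0 ≤ W P
  low : ∀ P' P, 0 < P' → P' ≤ P → W P' ≤ (P' / P) ^ (1 / 3 : ℝ) * W P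
  dbl : ∀ P, 0 < P → W (2 * P) ≤ 2 ^ a * W P

/-- the dual length at the level `lam` -/
def Il (N lam X : ℝ) : ℝ := N * lam / X

/-- the norm factor of the structured bound -/
def nf (lam I : ℝ) : ℝ := 1 + lam * I ^ (-(2 / 3) : ℝ) + lam ^ (2 / 3 : ℝ) * I ^ (-(1 / 3) : ℝ)

/-- **the structured bound** at one level, all primary `x`, all cube-free kernels of norm at most
`lam`, a finite family `b q` with lengths `Xq q ∈ [X/64, X]` -/
def PoHS (χ : Eis → ℂ) (w : ℝ → ℝ) : Prop :=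
  ∀ R : ℝ, 0 ≤ R → ∀ a A : ℕ, 1 < A → ∀ ε : ℝ, 0 < ε → ∃ (C c : ℝ) (J : ℕ), 0 ≤ C ∧ 1 ≤ c ∧
    ∀ Z N X lam : ℝ, 1 ≤ Z → 0 < N → N ≤ Z → 0 < X → X ≤ Z → 1 ≤ X * Z → 1 ≤ lam → lam ≤ Z →
      lam * Real.exp R < N →
    ∀ {ι : Type} (Q : Finset ι) (b : ι → Eis → ℂ) (Xq : ι → ℝ),
      (∀ q ∈ Q, X / 64 ≤ Xq q ∧ Xq q ≤ X) →
      (∀ q ∈ Q, ∀ n, b q n ≠ 0 → n ∈ S Z) → (∀ q ∈ Q, Win (b q) (Real.log N) R) →
    ∀ W : ℝ → ℝ, Slp a W →
      (∀ g f π : Eis, IsPrim g → IsPrim f → IsPrim π → ∀ P : ℝ, 1 ≤ P →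
        (nm g : ℝ) * nm f * ∑ q ∈ Q, VI A (b q) (g * f) f π P ≤ W P) →
    ∀ W1 : ℝ, 0 ≤ W1 → (∀ E : ℝ, 1 ≤ E → E ≤ lam → W (c * Il N lam X * E) ≤ E * W1) →
    ∀ t : ℝ, ∑ q ∈ Q, ∑ κ ∈ KS lam, ‖XS χ w (Xq q) t (b q) κ‖ ^ 2 ≤
      C * Z ^ ε * (1 + |t|) ^ J * (X * nf lam (Il N lam X) * W1)

end Crest.Agent.R017.Mode405
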