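import Crest.Agent.R017.ModeG_405

/-!
# Row 17, block C70, leaf E3: MODE*, part G2 (helper405): the divisors of `r₁`

* `chr χ r₁` : `χ` restricted to the elements prime to `r₁`;  `Mul1.chr`
* `norm_Fx_chr_le` : the complete sums of the restricted character
* `strQ_le` : the structured half
-/

set_option autoImplicit false

noncomputable section

open Complex MeasureTheory
open scoped ComplexConjugate

namespace Crest.Agent.R017.Mode405

open Crest.Agent.R012 Crest.Agent.R012.Eis Crest.Agent.R012.MC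
open Crest.Agent.R012.LS2 (S mem_S bl mem_bl)
open Crest.Agent.R012.LS448 (one_le_nm')
open Crest.Agent.R012.NonCube52 (Ker kv Good kc kc_spec kc_nm kv_ne_zero one_le_nmkv)
open Crest.Agent.R012.Mob705 (mu pdiv mem_pdiv sum_mu_coprime abs_mu_le_one)
open Crest.Agent.R012.Weight600 (pw)
open Crest.Agent.R017.CM106 (CS TG FS)
open Crest.Agent.R017.BD829 (TT EQ Win EQ_nonneg)
open Crest.Agent.R017.E1551 (jb jb_pos nmpos)
open Crest.Agent.R017.DgB829 (HS HS_le HS_nonneg)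

open Classical in
/-- `χ` restricted to the elements prime to `r₁` -/
def chr (χ : Eis → ℂ) (r₁ : Eis) : Eis → ℂ := fun n => if IsCoprime n r₁ then χ n else 0

lemma Mul1.chr {χ : Eis → ℂ} (h : Mul1 χ) (r₁ : Eis) : Mul1 (chr χ r₁) where
  mul a b ha hb := by
    classical
    unfold Mode405.chr
    by_cases h1 : IsCoprime a r₁
    · by_cases h2 : IsCoprime b r₁
      · rw [if_pos h1, if_pos h2, if_pos (h1.mul_left h2), h.mul a b ha hb]
      · rw [if_neg h2, if_neg (fun h3 => h2 (h3.of_mul_left_right)), mul_zero]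
    · rw [if_neg h1, if_neg (fun h3 => h1 (h3.of_mul_left_left)), zero_mul]
  le a ha := by
    classical
    unfold Mode405.chr
    split_ifs
    · exact h.le a ha
    · simp

open Classical in
/-- the complete sums of the restricted character -/
lemma Fx_chr {χ : Eis → ℂ} {w : ℝ → ℝ} {Y t : ℝ} {b : Eis → ℂ} {κ : Ker} {r₁ s : Eis}
    (hr : r₁ ≠ 0) (hs : IsPrim s) {N₀ : ℝ} (hN : 0 ≤ N₀) (hw : ∀ x, w (x / Y) ≠ 0 → x ≤ N₀) :
    Fx (fx (chr χ r₁) w Y t b κ) s =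
      if IsCoprime s r₁ then ∑ e ∈ pdiv r₁, (mu e : ℂ) * Fx (fx χ w Y t b κ) (e * s) else 0 := by
  have hf : ∀ χ' : Eis → ℂ, ∀ n, fx χ' w Y t b κ n ≠ 0 → (nm n : ℝ) ≤ N₀ := by
    intro χ' n hn
    unfold fx at hn
    refine hw _ fun h => hn ?_
    rw [h]; simp
  rw [← sum_dvd hN (hf _) hs]
  split_ifs with hc
  · have h1 : ∀ e ∈ pdiv r₁, (mu e : ℂ) * Fx (fx χ w Y t b κ) (e * s) =
        ∑ n ∈ primBall ⌊N₀⌋₊, (mu e : ℂ) * (if e * s ∣ n then fx χ w Y t b κ n else 0) := by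
      intro e he
      have he' := (mem_pdiv hr).mp he
      rw [← sum_dvd hN (hf _) (he'.1.mul hs), Finset.mul_sum]
    rw [Finset.sum_congr rfl h1, Finset.sum_comm]
    refine Finset.sum_congr rfl fun n hn => ?_
    have hn' := mem_primBall.mp hn
    by_cases hsn : s ∣ n
    · rw [if_pos hsn]
      have h2 := congrArg (fun z : ℤ => (z : ℂ)) (sum_mu_coprime hn'.2 hr)
      beta_reduce at h2
      push_cast at h2
      have h3 : fx (chr χ r₁) w Y t b κ n =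
          (if IsCoprime n r₁ then (1 : ℂ) else 0) * fx χ w Y t b κ n := by
        unfold fx chr
        split_ifs <;> ring
      rw [h3, ← h2, Finset.sum_mul]
      refine Finset.sum_congr rfl fun e he => ?_
      have he' := (mem_pdiv hr).mp he
      have hes : IsCoprime e s := (hc.symm.of_isCoprime_of_dvd_left he'.2)
      by_cases hen : e ∣ n
      · rw [if_pos hen, if_pos (hes.mul_dvd hen hsn)]
      · rw [if_neg hen, if_neg (fun h => hen ((dvd_mul_right _ _).trans h))]; simp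
    · rw [if_neg hsn]
      symm
      refine Finset.sum_eq_zero fun e _ => ?_
      rw [if_neg (fun h => hsn ((dvd_mul_left _ _).trans h)), mul_zero]
  · refine Finset.sum_eq_zero fun n _ => ?_
    split_ifs with hd
    · have h1 : ¬ IsCoprime n r₁ := fun h => hc (h.of_isCoprime_of_dvd_left hd)
      unfold fx chr
      rw [if_neg h1]; ring
    · rfl

lemma bs_mul {b : Eis → ℂ} (hb : ∀ n, b n ≠ 0 → IsPrim n) (e s : Eis) :
    bs b (e * s) = bs (bs b e) s := by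
  funext m
  unfold bs
  by_cases hm : b m = 0
  · rw [hm]; ring
  · rw [Char766.sy_mul_left (hb m hm)]; ring

open Classical in
lemma norm_Fx_chr_le {χ : Eis → ℂ} (hχ : Mul1 χ) {w : ℝ → ℝ} {Y t : ℝ} (hY : 0 < Y) {b : Eis → ℂ}
    (hb : ∀ n, b n ≠ 0 → IsPrim n) {κ : Ker} {r₁ s : Eis} (hr : r₁ ≠ 0) (hs : IsPrim s) {N₀ : ℝ}
    (hN : 0 ≤ N₀) (hw : ∀ x, w (x / Y) ≠ 0 → x ≤ N₀) :
    ‖Fx (fx (chr χ r₁) w Y t b κ) s‖ ^ 2 ≤ ((pdiv r₁).card : ℝ) * ∑ e ∈ pdiv r₁,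
      ‖XS χ w (Y / nm e / nm s) t (bs (bs b e) s) κ‖ ^ 2 := by
  rw [Fx_chr hr hs hN hw]
  split_ifs with hc
  · have h1 : ‖∑ e ∈ pdiv r₁, (mu e : ℂ) * Fx (fx χ w Y t b κ) (e * s)‖ ≤
        ∑ e ∈ pdiv r₁, ‖XS χ w (Y / nm e / nm s) t (bs (bs b e) s) κ‖ := by
      refine (norm_sum_le _ _).trans (Finset.sum_le_sum fun e he => ?_)
      have he' := (mem_pdiv hr).mp he
      have h2 := norm_Fx_le (t := t) hχ hY hb (w := w) (κ := κ) (he'.1.mul hs)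
      rw [bs_mul hb] at h2
      have e1 : Y / ((nm (e * s) : ℕ) : ℝ) = Y / nm e / nm s := by
        rw [nm_mul]; push_cast; rw [div_div]
      rw [e1] at h2
      rw [norm_mul, Complex.norm_intCast]
      have a1 : |(mu e : ℝ)| ≤ 1 := by exact_mod_cast abs_mu_le_one e
      exact (mul_le_of_le_one_left (norm_nonneg _) a1).trans h2
    calc _ ≤ (∑ e ∈ pdiv r₁, ‖XS χ w (Y / nm e / nm s) t (bs (bs b e) s) κ‖) ^ 2 :=
          pow_le_pow_left₀ (norm_nonneg _) h1 2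
      _ ≤ _ := sq_sum_le_card_mul_sum_sq
  · rw [norm_zero, zero_pow two_ne_zero]
    have : 0 ≤ ∑ e ∈ pdiv r₁, ‖XS χ w (Y / nm e / nm s) t (bs (bs b e) s) κ‖ ^ 2 :=
      Finset.sum_nonneg fun _ _ => by positivity
    positivity

open Classical in
/-- the structured part of the Möbius sums, complete in the divisors of `r₁` -/
def StrQ (χ : Eis → ℂ) (w : ℝ → ℝ) (Y t : ℝ) (b : Eis → ℂ) (κ : Ker) (ρ r₁ : Eis) (N₀ P₁ : ℝ) : ℂ :=
  ∑ d ∈ pdiv ρ, ∑ q ∈ S N₀, if IsCoprime q ρ ∧ (nm d : ℝ) * nm q ≤ P₁ then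
    ((mu d : ℂ) * mu q) * Fx (fx (chr χ r₁) w Y t b κ) (d * q ^ 2) else 0

open Classical in
lemma norm_StrQ_le {χ : Eis → ℂ} (hχ : Mul1 χ) {w : ℝ → ℝ} {Y t : ℝ} (hY : 0 < Y) {b : Eis → ℂ}
    (hb : ∀ n, b n ≠ 0 → IsPrim n) (κ : Ker) {ρ r₁ : Eis} (hρ : ρ ≠ 0) (hr : r₁ ≠ 0) {N₀ : ℝ}
    (hN : 0 ≤ N₀) (hw : ∀ x, w (x / Y) ≠ 0 → x ≤ N₀) (P₁ : ℝ) :
    ‖StrQ χ w Y t b κ ρ r₁ N₀ P₁‖ ^ 2 ≤ ((pdiv ρ).card : ℝ) * HS N₀ * (pdiv r₁).card *
      ∑ d ∈ pdiv ρ, ∑ q ∈ S N₀, if (nm d : ℝ) * nm q ≤ P₁ then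
        (nm q : ℝ) * ∑ e ∈ pdiv r₁,
          ‖XS χ w (Y / nm e / nm (d * q ^ 2)) t (bs (bs b e) (d * q ^ 2)) κ‖ ^ 2 else 0 := by
  unfold StrQ
  have h1 : ∀ d ∈ pdiv ρ, ‖∑ q ∈ S N₀, (if IsCoprime q ρ ∧ (nm d : ℝ) * nm q ≤ P₁ then
      ((mu d : ℂ) * mu q) * Fx (fx (chr χ r₁) w Y t b κ) (d * q ^ 2) else 0)‖ ^ 2 ≤
      HS N₀ * ∑ q ∈ S N₀, if (nm d : ℝ) * nm q ≤ P₁ then
        (nm q : ℝ) * (((pdiv r₁).card : ℝ) * ∑ e ∈ pdiv r₁,
          ‖XS χ w (Y / nm e / nm (d * q ^ 2)) t (bs (bs b e) (d * q ^ 2)) κ‖ ^ 2) else 0 := by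
    intro d hd
    have hd' := (mem_pdiv hρ).mp hd
    refine (wcs hN _).trans ?_
    refine mul_le_mul_of_nonneg_left (Finset.sum_le_sum fun q hq => ?_) (HS_nonneg _)
    have hq' := (mem_S hN).1 hq
    by_cases h2 : (nm d : ℝ) * nm q ≤ P₁
    · rw [if_pos h2]
      refine mul_le_mul_of_nonneg_left ?_ (Nat.cast_nonneg _)
      refine le_trans ?_ (norm_Fx_chr_le (t := t) hχ hY hb (κ := κ) hr
        (hd'.1.mul (hq'.2.1.pow 2)) hN hw)
      refine pow_le_pow_left₀ (norm_nonneg _) ?_ 2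
      split_ifs with h3
      · rw [norm_mul]
        refine mul_le_of_le_one_left (norm_nonneg _) ?_
        rw [norm_mul, Complex.norm_intCast, Complex.norm_intCast]
        have a1 : |(mu d : ℝ)| ≤ 1 := by exact_mod_cast abs_mu_le_one d
        have a2 : |(mu q : ℝ)| ≤ 1 := by exact_mod_cast abs_mu_le_one q
        calc _ ≤ (1 : ℝ) * 1 := mul_le_mul a1 a2 (abs_nonneg _) zero_le_one
          _ = 1 := one_mul 1
      · rw [norm_zero]; exact norm_nonneg _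
    · rw [if_neg (fun h => h2 h.2), if_neg h2, norm_zero]; simp
  have h2 : ∀ d ∈ pdiv ρ, ∑ q ∈ S N₀, (if (nm d : ℝ) * nm q ≤ P₁ then
        (nm q : ℝ) * (((pdiv r₁).card : ℝ) * ∑ e ∈ pdiv r₁,
          ‖XS χ w (Y / nm e / nm (d * q ^ 2)) t (bs (bs b e) (d * q ^ 2)) κ‖ ^ 2) else 0) =
      ((pdiv r₁).card : ℝ) * ∑ q ∈ S N₀, if (nm d : ℝ) * nm q ≤ P₁ then
        (nm q : ℝ) * ∑ e ∈ pdiv r₁,
          ‖XS χ w (Y / nm e / nm (d * q ^ 2)) t (bs (bs b e) (d * q ^ 2)) κ‖ ^ 2 else 0 := by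
    intro d _
    rw [Finset.mul_sum]
    refine Finset.sum_congr rfl fun q _ => ?_
    split_ifs
    · ring
    · ring
  calc _ ≤ (∑ d ∈ pdiv ρ, ‖∑ q ∈ S N₀, (if IsCoprime q ρ ∧ (nm d : ℝ) * nm q ≤ P₁ then
      ((mu d : ℂ) * mu q) * Fx (fx (chr χ r₁) w Y t b κ) (d * q ^ 2) else 0)‖) ^ 2 :=
        pow_le_pow_left₀ (norm_nonneg _) (norm_sum_le _ _) 2
    _ ≤ ((pdiv ρ).card : ℝ) * ∑ d ∈ pdiv ρ,
        ‖∑ q ∈ S N₀, (if IsCoprime q ρ ∧ (nm d : ℝ) * nm q ≤ P₁ then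
      ((mu d : ℂ) * mu q) * Fx (fx (chr χ r₁) w Y t b κ) (d * q ^ 2) else 0)‖ ^ 2 :=
        sq_sum_le_card_mul_sum_sq
    _ ≤ ((pdiv ρ).card : ℝ) * ∑ d ∈ pdiv ρ, HS N₀ * (((pdiv r₁).card : ℝ) *
        ∑ q ∈ S N₀, if (nm d : ℝ) * nm q ≤ P₁ then
        (nm q : ℝ) * ∑ e ∈ pdiv r₁,
          ‖XS χ w (Y / nm e / nm (d * q ^ 2)) t (bs (bs b e) (d * q ^ 2)) κ‖ ^ 2 else 0) :=
        mul_le_mul_of_nonneg_left (Finset.sum_le_sum fun d hd => by
          rw [← h2 d hd]; exact h1 d hd) (Nat.cast_nonneg _)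
    _ = _ := by simp_rw [← Finset.mul_sum]; ring

end Crest.Agent.R017.Mode405
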