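import Crest.Agent.R017.ModeH_405
import Crest.Agent.R017.LSn2_50

/-!
# Row 17, block C70, leaf E3: MODE*, part H2 (helper405): the small kernels, one block

* `DT s N₀ b r₁` : the mean square of `CS b` over all primary `n` prime to `r₁`, with the weight
  `nm (cube part of n)^(-s)`
* `blk_le` : the frequencies whose kernel lies in one dyadic block
-/

set_option autoImplicit false

noncomputable section

open Complex MeasureTheory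
open scoped ComplexConjugate

namespace Crest.Agent.R017.Mode405

open Crest.Agent.R012 Crest.Agent.R012.Eis Crest.Agent.R012.MC
open Crest.Agent.R012.LS2 (S mem_S bl mem_bl)
open Crest.Agent.R012.LS448 (one_le_nm')
open Crest.Agent.R012.NonCube52 (Ker kv Good kc kc_spec kc_nm kv_ne_zero one_le_nmkv)
open Crest.Agent.R012.Mob705 (mu pdiv mem_pdiv sum_mu_coprime abs_mu_le_one)
open Crest.Agent.R012.Weight600 (pw)
open Crest.Agent.R017.CM106 (CS TG FS)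
open Crest.Agent.R017.BD829 (TT EQ Win EQ_nonneg)
open Crest.Agent.R017.E1551 (jb jb_pos nmpos)
open Crest.Agent.R017.LSq50 (RestP Lx_split om50 om50_nonneg lsn_rho)

open Classical in
/-- the `T`-functional -/
def DT (s N₀ : ℝ) (b : Eis → ℂ) (r₁ : Eis) : ℝ :=
  ∑ n ∈ (primBall ⌊N₀⌋₊).filter (fun n => IsCoprime n r₁),
    (nm (kc n).2 : ℝ) ^ (-s) * ‖CS b n‖ ^ 2

lemma DT_nonneg (s N₀ : ℝ) (b : Eis → ℂ) (r₁ : Eis) : 0 ≤ DT s N₀ b r₁ :=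
  Finset.sum_nonneg fun _ _ => by positivity

lemma Lx_chr {χ : Eis → ℂ} {w : ℝ → ℝ} {Y t : ℝ} {b : Eis → ℂ} {κ : Ker} {ρ r₁ : Eis}
    (h : r₁ ∣ ρ) : Lx χ w Y t b κ ρ = Lx (chr χ r₁) w Y t b κ ρ := by
  classical
  unfold Lx
  refine tsum_congr fun n => ?_
  by_cases hn : IsPrim n ∧ Squarefree n ∧ IsCoprime n ρ
  · have h1 : IsCoprime n r₁ := hn.2.2.symm.of_isCoprime_of_dvd_left h |>.symm
    rw [if_pos hn, if_pos hn]
    unfold chr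
    rw [if_pos h1]
  · rw [if_neg hn, if_neg hn]

lemma StrQ_eq {χ : Eis → ℂ} {w : ℝ → ℝ} {Y t : ℝ} {b : Eis → ℂ} {κ : Ker} {ρ r₁ : Eis}
    {N₀ P₁ : ℝ} : StrQ χ w Y t b κ ρ r₁ N₀ P₁ = StrP (chr χ r₁) w Y t b κ ρ N₀ P₁ := rfl

/-- the real inequalities of one block -/
lemma blk_arith {L0 Lt lam cw Y g : ℝ} (hL0 : 0 ≤ L0) (hlam : 0 < lam) (hlt : lam ≤ Lt)
    (hcw : 1 ≤ cw) (hY : 0 < Y) (hg : 0 < g) :
    (2 * L0 / lam) ^ (1 / 3 : ℝ) * (lam / Lt) ^ (1 / 3 : ℝ) ≤ 2 * (L0 / Lt) ^ (1 / 3 : ℝ) ∧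
    (2 * L0 / lam) ^ (1 / 3 : ℝ) * om50 lam (cw * Y) ((Lt / lam) ^ (1 / 3 : ℝ)) g ≤
      2 * (L0 / Lt) ^ (1 / 3 : ℝ) * (cw * ((Y + (Lt * Y) ^ (2 / 3 : ℝ)) * g ^ (-(1 : ℝ)) +
        Lt * Y ^ (1 / 2 : ℝ) * g ^ (-(1 / 2) : ℝ))) := by
  have hLt : 0 < Lt := hlam.trans_le hlt
  have hcw0 : 0 < cw := by linarith
  set u : ℝ := (L0 / Lt) ^ (1 / 3 : ℝ) with hu
  set v : ℝ := (lam / Lt) ^ (1 / 3 : ℝ) with hv
  have hu0 : 0 ≤ u := by positivity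
  have hv0 : 0 < v := by positivity
  have hv1 : v ≤ 1 := Real.rpow_le_one (by positivity) ((div_le_one hLt).mpr hlt) (by norm_num)
  have hv3 : v ^ 3 = lam / Lt := by
    rw [hv, ← Real.rpow_natCast, ← Real.rpow_mul (by positivity)]; norm_num
  set k : ℝ := (2 : ℝ) ^ (1 / 3 : ℝ) with hk
  have hk0 : 0 < k := by positivity
  have hk2 : k ≤ 2 := by
    calc k ≤ (2 : ℝ) ^ (1 : ℝ) := Real.rpow_le_rpow_of_exponent_le (by norm_num) (by norm_num)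
      _ = 2 := Real.rpow_one 2
  have hM : (2 * L0 / lam) ^ (1 / 3 : ℝ) = k * u / v := by
    have e1 : 2 * L0 / lam = 2 * (L0 / Lt) / (lam / Lt) := by field_simp
    rw [e1, Real.div_rpow (by positivity) (by positivity), Real.mul_rpow (by norm_num)
      (by positivity)]
  have hP : (Lt / lam) ^ (1 / 3 : ℝ) = v⁻¹ := by
    have e1 : Lt / lam = (lam / Lt)⁻¹ := by field_simp
    rw [e1, Real.inv_rpow (by positivity)]
  have hlam' : lam = v ^ 3 * Lt := by rw [hv3]; field_simp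
  constructor
  · rw [hM]
    calc k * u / v * v = k * u := by field_simp
      _ ≤ 2 * u := mul_le_mul_of_nonneg_right hk2 hu0
  · rw [hM, hP]
    unfold om50
    have e2 : (lam * (cw * Y)) ^ ((2 : ℝ) / 3) = v ^ 2 * (cw ^ (2 / 3 : ℝ) * (Lt * Y) ^ (2 / 3 : ℝ)) := by
      have e3 : lam * (cw * Y) = v ^ 3 * (cw * (Lt * Y)) := by rw [hlam']; ring
      rw [e3, Real.mul_rpow (by positivity) (by positivity), Real.mul_rpow (by positivity)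
        (by positivity), ← Real.rpow_natCast v 3, ← Real.rpow_mul hv0.le]
      congr 1
      norm_num
    have e4 : (cw * Y) ^ ((1 : ℝ) / 2) = cw ^ (1 / 2 : ℝ) * Y ^ (1 / 2 : ℝ) :=
      Real.mul_rpow (by positivity) (by positivity)
    have e5 : cw ^ (2 / 3 : ℝ) ≤ cw := by
      conv_rhs => rw [← Real.rpow_one cw]
      exact Real.rpow_le_rpow_of_exponent_le hcw (by norm_num)
    have e6 : cw ^ (1 / 2 : ℝ) ≤ cw := by
      conv_rhs => rw [← Real.rpow_one cw]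
      exact Real.rpow_le_rpow_of_exponent_le hcw (by norm_num)
    have e7 : g⁻¹ = g ^ (-(1 : ℝ)) := (Real.rpow_neg_one g).symm
    have e8 : g ^ (-(1 : ℝ) / 2) = g ^ (-(1 / 2) : ℝ) := by congr 1; ring
    rw [e2, e4, e7, e8]
    have g1 : 0 < g ^ (-(1 : ℝ)) := by positivity
    have g2 : 0 < g ^ (-(1 / 2) : ℝ) := by positivity
    set X1 : ℝ := (Lt * Y) ^ (2 / 3 : ℝ) with hX1
    set X2 : ℝ := Y ^ (1 / 2 : ℝ) with hX2
    have hX10 : 0 < X1 := by positivity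
    have hX20 : 0 < X2 := by positivity
    have e9 : k * u / v * ((cw * Y / v⁻¹ + v ^ 2 * (cw ^ (2 / 3 : ℝ) * X1)) * g ^ (-(1 : ℝ)) +
        lam * (cw ^ (1 / 2 : ℝ) * X2) * g ^ (-(1 / 2) : ℝ)) =
        k * u * ((cw * Y + v * (cw ^ (2 / 3 : ℝ) * X1)) * g ^ (-(1 : ℝ)) +
        v ^ 2 * Lt * (cw ^ (1 / 2 : ℝ) * X2) * g ^ (-(1 / 2) : ℝ)) := by
      rw [hlam']; field_simp
    rw [e9]
    have h1 : v * (cw ^ (2 / 3 : ℝ) * X1) ≤ cw * X1 := by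
      calc v * (cw ^ (2 / 3 : ℝ) * X1) ≤ 1 * (cw * X1) := by gcongr
        _ = cw * X1 := one_mul _
    have h2 : v ^ 2 * Lt * (cw ^ (1 / 2 : ℝ) * X2) ≤ cw * (Lt * X2) := by
      have : v ^ 2 ≤ 1 := pow_le_one₀ hv0.le hv1
      calc v ^ 2 * Lt * (cw ^ (1 / 2 : ℝ) * X2) ≤ 1 * Lt * (cw * X2) := by gcongr
        _ = cw * (Lt * X2) := by ring
    calc k * u * ((cw * Y + v * (cw ^ (2 / 3 : ℝ) * X1)) * g ^ (-(1 : ℝ)) +
        v ^ 2 * Lt * (cw ^ (1 / 2 : ℝ) * X2) * g ^ (-(1 / 2) : ℝ))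
        ≤ 2 * u * ((cw * Y + cw * X1) * g ^ (-(1 : ℝ)) +
          cw * (Lt * X2) * g ^ (-(1 / 2) : ℝ)) := by gcongr
      _ = _ := by ring

open Classical in
set_option maxHeartbeats 1000000 in
/-- **one block** -/
theorem blk_le {OK : ℝ → ℝ → Eis → Set Tst → Prop} (hOK : OKW OK)
    {nfn : ℝ → ℝ → ℝ} (hnfn : NFok nfn) {χ : Eis → ℂ} (hχ : Mul1 χ)
    {w : ℝ → ℝ} (hP : PoHW OK nfn χ w) {cw Cw : ℝ} (hcw : 1 ≤ cw) (hw : ∀ x, w x ≠ 0 → x ≤ cw)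
    (hCw : ∀ x, |w x| ≤ Cw) {R : ℝ} (hR : 0 ≤ R) (a A : ℕ) (hA : 1 < A) {ε : ℝ} (hε : 0 < ε) :
    ∃ (C c : ℝ) (J : ℕ), 0 ≤ C ∧ 1 ≤ c ∧ ∀ Z N Y L L0 Lt lam : ℝ, 1 ≤ Z → 0 < N → N ≤ Z → 1 ≤ Y →
      Y ≤ Z → 0 ≤ L → 0 ≤ L0 → L0 ≤ Z → 1 ≤ lam → lam ≤ Lt → Lt ≤ Z → Lt * Real.exp R < N →
    ∀ (ka : Eis) (𝒯 : Set Tst), OK Z N ka 𝒯 →
    ∀ {ι : Type} (O : Finset ι) (b : ι → Eis → ℂ) (Yq : ι → ℝ) (r r₁ q : ι → Eis),
      (∀ o ∈ O, Y / 4 ≤ Yq o ∧ Yq o ≤ Y) → (∀ o ∈ O, ∀ n, b o n ≠ 0 → n ∈ S Z) →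
      (∀ o ∈ O, Win (b o) (Real.log N) R) → (∀ o ∈ O, r o ≠ 0 ∧ (nm (r o) : ℝ) ≤ Z) →
      (∀ o ∈ O, r₁ o ∣ r o) →
      (∀ o ∈ O, q o ≠ 0 ∧ (nm (q o) : ℝ) ≤ Z ∧ L * nk (q o) ≤ L0) →
    ∀ W : ℝ → ℝ, Slp a W →
      (∀ τ ∈ 𝒯, ∀ P : ℝ, 0 < P → ∑ o ∈ O, ∑ e ∈ pdiv (r₁ o),
        (nm e : ℝ)⁻¹ * TV τ A (bs (b o) e) (nm e * P) ≤ W P) →
    ∀ W1 : ℝ, 0 ≤ W1 → W (c * Il N Lt Y) ≤ W1 →
    ∀ t : ℝ, ∑ o ∈ O, ∑ h ∈ (bl L).filter (fun h => (lam / 2 < nk (h * q o) ∧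
        nk (h * q o) ≤ lam) ∧ IsCoprime (kv (kc (h * q o)).1) ka),
        ‖Lx χ w (Yq o) t (b o) (kc (h * q o)).1 (r o * (kc (h * q o)).2)‖ ^ 2 ≤
      C * Z ^ ε * (1 + |t|) ^ J * ((L0 / Lt) ^ (1 / 3 : ℝ) *
        (Y * nfn Lt (Il N Lt Y) * W1 +
          ((Y + (Lt * Y) ^ (2 / 3 : ℝ)) * ∑ o ∈ O, DT 1 (cw * Y) (b o) (r₁ o) +
          Lt * Y ^ (1 / 2 : ℝ) * ∑ o ∈ O, DT (1 / 2) (cw * Y) (b o) (r₁ o)))) := by
  obtain ⟨C₁, c, J, hC₁, hc, hstr⟩ := strQ_le hOK hnfn hχ hP hcw hw hR a A hA hε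
  obtain ⟨C₂, hC₂, hrest⟩ := lsn_rho hε
  set K : ℝ := 2 * cw with hK
  have hcw0 : 0 < cw := by linarith
  have hK1 : 1 ≤ K := by rw [hK]; linarith
  have hCw0 : 0 ≤ Cw := (abs_nonneg _).trans (hCw 0)
  refine ⟨64 * K ^ ε * (C₁ + C₂ * (cw * Cw ^ 2)), c, J, by positivity, hc, ?_⟩
  intro Z N Y L L0 Lt lam hZ hN hNZ hY hYZ hL hL0 hL0Z hlam hlamL hLZ hLN ka 𝒯 hT ι O b Yq r r₁ q hYq hbS
    hbW hr hr₁ hq W hW hWle W1 hW1 hW1le t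
  have hY0 : 0 < Y := by linarith
  have hZ0 : 0 < Z := by linarith
  have hlam0 : 0 < lam := by linarith
  have hLt0 : 0 < Lt := by linarith
  have hIl0 : 0 < Il N lam Y := by unfold Il; positivity
  have hIlt0 : 0 < Il N Lt Y := by unfold Il; positivity
  have hK0 : 0 < K := by linarith
  have hcY : 1 ≤ cw * Y := one_le_mul_of_one_le_of_one_le hcw hY
  have hcY0 : 0 ≤ cw * Y := by linarith
  set Z₂ : ℝ := K * Z with hZ₂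
  have hZZ₂ : Z ≤ Z₂ := le_mul_of_one_le_left hZ0.le hK1
  have hZ₂1 : 1 ≤ Z₂ := hZ.trans hZZ₂
  have hZ₂0 : 0 < Z₂ := by linarith
  have h2Z : 2 * Z ≤ Z₂ := by rw [hZ₂, hK]; nlinarith
  have hcYZ : cw * Y ≤ Z₂ := by rw [hZ₂, hK]; nlinarith
  set P₁ : ℝ := (Lt / lam) ^ (1 / 3 : ℝ) with hP₁
  have hLl : 1 ≤ Lt / lam := (one_le_div hlam0).mpr hlamL
  have hP₁1 : 1 ≤ P₁ := Real.one_le_rpow hLl (by norm_num)
  have hP₁0 : 0 < P₁ := by linarith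
  have hP3 : lam * P₁ ^ 3 = Lt := by
    rw [hP₁, ← Real.rpow_natCast, ← Real.rpow_mul (by positivity)]
    norm_num
    field_simp
  set M : ℝ := (2 * L0 / lam) ^ (1 / 3 : ℝ) with hM
  have hM0 : 0 ≤ M := by positivity
  have hsup : ∀ o ∈ O, ∀ n, b o n ≠ 0 → n ∈ S Z₂ := by
    intro o ho n hn
    have h1 := (mem_S hZ0.le).1 (hbS o ho n hn)
    exact (mem_S hZ₂0.le).2 ⟨h1.1.trans hZZ₂, h1.2⟩
  have hw' : ∀ o ∈ O, ∀ x, w (x / Yq o) ≠ 0 → x ≤ cw * Y := by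
    intro o ho x hx
    have hYq0 : 0 < Yq o := by have := (hYq o ho).1; linarith
    have h1 := hw _ hx
    rw [div_le_iff₀ hYq0] at h1
    exact h1.trans (mul_le_mul_of_nonneg_left (hYq o ho).2 hcw0.le)
  -- the cofactors
  have hρ : ∀ m ∈ bl M, ∀ o ∈ O, r o * ((kc (q o)).2 * m) ≠ 0 ∧
      (nm (r o * ((kc (q o)).2 * m)) : ℝ) ≤ Z₂ ^ 3 := by
    intro m hm o ho
    rw [mem_bl hM0] at hm
    have hs := kc_spec (hq o ho).1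
    have hnq := kc_nm (hq o ho).1
    have h1 : (1 : ℝ) ≤ nm (kc (q o)).2 := one_le_nm' hs.2.1
    have h2 : (1 : ℝ) ≤ nm (kv (kc (q o)).1) := one_le_nmkv hs.1
    have h3 : (nm (kc (q o)).2 : ℝ) ≤ Z := by
      have h4 : (nm (kc (q o)).2 : ℝ) ≤ (nm (kc (q o)).2 : ℝ) ^ 3 :=
        le_self_pow₀ h1 (by norm_num)
      have h5 : (nm (kc (q o)).2 : ℝ) ^ 3 ≤ nm (kv (kc (q o)).1) * (nm (kc (q o)).2 : ℝ) ^ 3 :=
        le_mul_of_one_le_left (by positivity) h2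
      linarith [(hq o ho).2.1]
    have h4 : (nm m : ℝ) ≤ Z₂ := by
      refine hm.2.trans ?_
      have h5 : 2 * L0 / lam ≤ Z₂ := by
        calc 2 * L0 / lam ≤ 2 * L0 := div_le_self (by positivity) hlam
          _ ≤ 2 * Z := by linarith
          _ ≤ Z₂ := h2Z
      calc M ≤ Z₂ ^ (1 / 3 : ℝ) := Real.rpow_le_rpow (by positivity) h5 (by norm_num)
        _ ≤ Z₂ ^ (1 : ℝ) := Real.rpow_le_rpow_of_exponent_le hZ₂1 (by norm_num)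
        _ = Z₂ := Real.rpow_one _
    refine ⟨mul_ne_zero (hr o ho).1 (mul_ne_zero hs.2.1 hm.1), ?_⟩
    rw [nm_mul, nm_mul]
    push_cast
    calc (nm (r o) : ℝ) * (nm (kc (q o)).2 * nm m) ≤ Z₂ * (Z₂ * Z₂) := by
          refine mul_le_mul ((hr o ho).2.trans hZZ₂) (mul_le_mul (h3.trans hZZ₂) h4
            (Nat.cast_nonneg _) hZ₂0.le) (by positivity) hZ₂0.le
      _ = Z₂ ^ 3 := by ring
  set nfL : ℝ := nfn lam (Il N lam Y) with hnfL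
  set nfT : ℝ := nfn Lt (Il N Lt Y) with hnfT
  have hnfL0 : 0 ≤ nfL := hnfn.nonneg lam _ hlam0.le hIl0
  have hnfLT : nfL ≤ nfT := by
    have h1 := hnfn.mono lam Lt (N / Y) hlam0 hlamL (by positivity)
    have e1 : N / Y * lam = Il N lam Y := by unfold Il; ring
    have e2 : N / Y * Lt = Il N Lt Y := by unfold Il; ring
    rwa [e1, e2] at h1
  have hnfT0 : 0 ≤ nfT := hnfL0.trans hnfLT
  set DD : ι → ℝ := fun o => ∑ n ∈ (primBall ⌊cw * Y⌋₊).filter (fun n => IsCoprime n (r₁ o)),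
    om50 lam (cw * Y) P₁ (nm (kc n).2) * ‖CS (b o) n‖ ^ 2 with hDD
  have hbl : ∀ m ∈ bl M, ∑ o ∈ O, ∑ κ ∈ KSa lam ka,
      ‖Lx χ w (Yq o) t (b o) κ (r o * ((kc (q o)).2 * m))‖ ^ 2 ≤
      2 * (C₁ * Z₂ ^ ε * (1 + |t|) ^ J * (Y * nfL * ((lam / Lt) ^ (1 / 3 : ℝ) * W1))) +
      2 * (C₂ * Z₂ ^ ε * (Cw ^ 2 * ∑ o ∈ O, DD o)) := by
    intro m hm
    have h1 := hstr Z₂ N Y Lt lam P₁ hZ₂1 hN (hNZ.trans hZZ₂) hY (hYZ.trans hZZ₂) hlam hlamL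
      (hLZ.trans hZZ₂) hLN hP₁1 hP3.le ka 𝒯 (hOK.mono Z Z₂ N ka 𝒯 hZZ₂ hT) O b Yq r₁ hYq hsup hbW
      (fun o ho => ⟨?_, ?_⟩) W hW hWle W1 hW1 hW1le (fun o => r o * ((kc (q o)).2 * m))
      (hρ m hm) t
    rotate_left
    · exact ne_zero_of_dvd_ne_zero (hr o ho).1 (hr₁ o ho)
    · have : (nm (r₁ o) : ℝ) ≤ nm (r o) := by
        exact_mod_cast Div277.nm_le_of_dvd (hr o ho).1 (hr₁ o ho)
      exact this.trans ((hr o ho).2.trans hZZ₂)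
    have h2 : ∀ o ∈ O, ∑ κ ∈ KSa lam ka, ‖RestP (chr χ (r₁ o)) w (Yq o) t (b o) κ
        (r o * ((kc (q o)).2 * m)) (cw * Y) P₁‖ ^ 2 ≤ C₂ * Z₂ ^ ε * (Cw ^ 2 * DD o) := by
      intro o ho
      have h3 := hrest lam (cw * Y) P₁ (Yq o) Z₂ t hlam hcY hP₁0 (hlamL.trans (hLZ.trans hZZ₂)) hcYZ
        (chr χ (r₁ o)) w (b o) (hw' o ho) (r o * ((kc (q o)).2 * m)) (hρ m hm o ho).1
        (hρ m hm o ho).2 (KSa lam ka) (fun κ hκ => (mem_KSa.mp hκ).1)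
      refine h3.trans (mul_le_mul_of_nonneg_left ?_ (by positivity))
      rw [hDD, Finset.mul_sum, Finset.sum_filter]
      refine Finset.sum_le_sum fun n hn => ?_
      have hn' := mem_primBall.mp hn
      have hg : (0 : ℝ) ≤ nm (kc n).2 := Nat.cast_nonneg _
      have ho0 := om50_nonneg (W := lam) (Y := cw * Y) hlam0.le hcY0 hP₁0 hg
      split_ifs with hc
      · have a1 : ‖chr χ (r₁ o) n‖ ≤ 1 := (hχ.chr (r₁ o)).le n hn'.2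
        have a2 := hCw (nm n / Yq o)
        calc om50 lam (cw * Y) P₁ (nm (kc n).2) *
              (‖chr χ (r₁ o) n‖ ^ 2 * |w (nm n / Yq o)| ^ 2 * ‖CS (b o) n‖ ^ 2)
            ≤ om50 lam (cw * Y) P₁ (nm (kc n).2) * (1 ^ 2 * Cw ^ 2 * ‖CS (b o) n‖ ^ 2) := by
              gcongr
          _ = _ := by ring
      · have a1 : chr χ (r₁ o) n = 0 := by unfold chr; rw [if_neg hc]
        rw [a1]; simp
    have h4 : ∀ o ∈ O, ∀ κ ∈ KSa lam ka,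
        ‖Lx χ w (Yq o) t (b o) κ (r o * ((kc (q o)).2 * m))‖ ^ 2 ≤
        2 * ‖StrQ χ w (Yq o) t (b o) κ (r o * ((kc (q o)).2 * m)) (r₁ o) (cw * Y) P₁‖ ^ 2 +
        2 * ‖RestP (chr χ (r₁ o)) w (Yq o) t (b o) κ
          (r o * ((kc (q o)).2 * m)) (cw * Y) P₁‖ ^ 2 := by
      intro o ho κ _
      rw [Lx_chr ((hr₁ o ho).mul_right _), Lx_split (hρ m hm o ho).1 hcY0 (hw' o ho) P₁, StrQ_eq]
      generalize StrP (chr χ (r₁ o)) w (Yq o) t (b o) κ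
        (r o * ((kc (q o)).2 * m)) (cw * Y) P₁ = x
      generalize RestP (chr χ (r₁ o)) w (Yq o) t (b o) κ
          (r o * ((kc (q o)).2 * m)) (cw * Y) P₁ = y
      have h5 := norm_add_le x y
      nlinarith [norm_nonneg x, norm_nonneg y, norm_nonneg (x + y), sq_nonneg (‖x‖ - ‖y‖)]
    calc ∑ o ∈ O, ∑ κ ∈ KSa lam ka,
        ‖Lx χ w (Yq o) t (b o) κ (r o * ((kc (q o)).2 * m))‖ ^ 2
        ≤ ∑ o ∈ O, ∑ κ ∈ KSa lam ka,
        (2 * ‖StrQ χ w (Yq o) t (b o) κ (r o * ((kc (q o)).2 * m)) (r₁ o) (cw * Y) P₁‖ ^ 2 +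
        2 * ‖RestP (chr χ (r₁ o)) w (Yq o) t (b o) κ
          (r o * ((kc (q o)).2 * m)) (cw * Y) P₁‖ ^ 2) :=
          Finset.sum_le_sum fun o ho => Finset.sum_le_sum fun κ hκ => h4 o ho κ hκ
      _ = 2 * (∑ o ∈ O, ∑ κ ∈ KSa lam ka,
        ‖StrQ χ w (Yq o) t (b o) κ (r o * ((kc (q o)).2 * m)) (r₁ o) (cw * Y) P₁‖ ^ 2) +
        2 * ∑ o ∈ O, ∑ κ ∈ KSa lam ka, ‖RestP (chr χ (r₁ o)) w (Yq o) t (b o) κ
          (r o * ((kc (q o)).2 * m)) (cw * Y) P₁‖ ^ 2 := by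
          simp_rw [Finset.sum_add_distrib, Finset.mul_sum]
      _ ≤ _ := by
          have h5 : ∑ o ∈ O, ∑ κ ∈ KSa lam ka, ‖RestP (chr χ (r₁ o)) w (Yq o) t (b o) κ
              (r o * ((kc (q o)).2 * m)) (cw * Y) P₁‖ ^ 2 ≤
              C₂ * Z₂ ^ ε * (Cw ^ 2 * ∑ o ∈ O, DD o) := by
            refine (Finset.sum_le_sum h2).trans (le_of_eq ?_)
            rw [← Finset.mul_sum, ← Finset.mul_sum]
          linarith [h1, h5]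
  -- the sum over the cofactors
  have hmain : ∑ o ∈ O, ∑ h ∈ (bl L).filter (fun h => (lam / 2 < nk (h * q o) ∧
        nk (h * q o) ≤ lam) ∧ IsCoprime (kv (kc (h * q o)).1) ka),
        ‖Lx χ w (Yq o) t (b o) (kc (h * q o)).1 (r o * (kc (h * q o)).2)‖ ^ 2 ≤
      (16 * M) * (2 * (C₁ * Z₂ ^ ε * (1 + |t|) ^ J *
        (Y * nfL * ((lam / Lt) ^ (1 / 3 : ℝ) * W1))) +
      2 * (C₂ * Z₂ ^ ε * (Cw ^ 2 * ∑ o ∈ O, DD o))) := by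
    have h1 : ∀ o ∈ O, ∑ h ∈ (bl L).filter (fun h => (lam / 2 < nk (h * q o) ∧
        nk (h * q o) ≤ lam) ∧ IsCoprime (kv (kc (h * q o)).1) ka),
        ‖Lx χ w (Yq o) t (b o) (kc (h * q o)).1 (r o * (kc (h * q o)).2)‖ ^ 2 ≤
        ∑ m ∈ bl M, ∑ κ ∈ KSa lam ka,
          ‖Lx χ w (Yq o) t (b o) κ (r o * ((kc (q o)).2 * m))‖ ^ 2 := by
      intro o ho
      have h2 := blk_sum hL hlam0 (hq o ho).1 (hq o ho).2.2
        (g := fun κ m => if IsCoprime (kv κ) ka then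
          ‖Lx χ w (Yq o) t (b o) κ (r o * m)‖ ^ 2 else 0) (fun κ m => by
            split_ifs <;> positivity)
      have h3 : ∑ h ∈ (bl L).filter (fun h => (lam / 2 < nk (h * q o) ∧
          nk (h * q o) ≤ lam) ∧ IsCoprime (kv (kc (h * q o)).1) ka),
          ‖Lx χ w (Yq o) t (b o) (kc (h * q o)).1 (r o * (kc (h * q o)).2)‖ ^ 2 =
          ∑ h ∈ (bl L).filter (fun h => lam / 2 < nk (h * q o) ∧ nk (h * q o) ≤ lam),
            (if IsCoprime (kv (kc (h * q o)).1) ka then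
              ‖Lx χ w (Yq o) t (b o) (kc (h * q o)).1 (r o * (kc (h * q o)).2)‖ ^ 2 else 0) := by
        rw [← Finset.sum_filter, Finset.filter_filter]
      rw [h3]
      refine h2.trans (le_of_eq (Finset.sum_congr rfl fun m _ => ?_))
      unfold KSa
      rw [Finset.sum_filter]
    refine (Finset.sum_le_sum h1).trans ?_
    rw [Finset.sum_comm]
    refine (Finset.sum_le_sum hbl).trans ?_
    rw [Finset.sum_const, nsmul_eq_mul]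
    refine mul_le_mul_of_nonneg_right (CR2.card_bl_le hM0) ?_
    have hDD0 : ∀ o ∈ O, 0 ≤ DD o := fun o _ => Finset.sum_nonneg fun n _ => by
      have := om50_nonneg (W := lam) (Y := cw * Y) hlam0.le hcY0 hP₁0
        (Nat.cast_nonneg (nm (kc n).2))
      positivity
    have := Finset.sum_nonneg hDD0
    positivity
  refine hmain.trans ?_
  obtain ⟨hM1, -⟩ := blk_arith (g := 1) hL0 hlam0 hlamL hcw hY0 one_pos
  have hDDle : M * ∑ o ∈ O, DD o ≤ 2 * (L0 / Lt) ^ (1 / 3 : ℝ) * (cw *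
      ((Y + (Lt * Y) ^ (2 / 3 : ℝ)) * ∑ o ∈ O, DT 1 (cw * Y) (b o) (r₁ o) +
          Lt * Y ^ (1 / 2 : ℝ) * ∑ o ∈ O, DT (1 / 2) (cw * Y) (b o) (r₁ o))) := by
    have h1 : ∀ o ∈ O, M * DD o ≤ 2 * (L0 / Lt) ^ (1 / 3 : ℝ) * (cw *
      ((Y + (Lt * Y) ^ (2 / 3 : ℝ)) * DT 1 (cw * Y) (b o) (r₁ o) +
          Lt * Y ^ (1 / 2 : ℝ) * DT (1 / 2) (cw * Y) (b o) (r₁ o))) := by
      intro o _
      rw [hDD]
      unfold DT
      beta_reduce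
      rw [Finset.mul_sum, Finset.mul_sum, Finset.mul_sum, ← Finset.sum_add_distrib,
        Finset.mul_sum, Finset.mul_sum]
      refine Finset.sum_le_sum fun n hn => ?_
      rw [Finset.mem_filter, mem_primBall] at hn
      have hg : (0 : ℝ) < nm (kc n).2 := nmpos (kc_spec hn.1.2.ne_zero).2.1
      obtain ⟨-, h2⟩ := blk_arith (g := nm (kc n).2) hL0 hlam0 hlamL hcw hY0 hg
      have h3 : 0 ≤ ‖CS (b o) n‖ ^ 2 := by positivity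
      calc M * (om50 lam (cw * Y) P₁ (nm (kc n).2) * ‖CS (b o) n‖ ^ 2)
          = M * om50 lam (cw * Y) P₁ (nm (kc n).2) * ‖CS (b o) n‖ ^ 2 := by ring
        _ ≤ _ := mul_le_mul_of_nonneg_right h2 h3
        _ = _ := by ring
    rw [Finset.mul_sum]
    refine (Finset.sum_le_sum h1).trans (le_of_eq ?_)
    rw [← Finset.mul_sum, ← Finset.mul_sum, Finset.sum_add_distrib, ← Finset.mul_sum,
      ← Finset.mul_sum]
  have hZ₂ε : Z₂ ^ ε = K ^ ε * Z ^ ε := by rw [hZ₂, Real.mul_rpow hK0.le hZ0.le]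
  set D1 : ℝ := ∑ o ∈ O, DT 1 (cw * Y) (b o) (r₁ o) with hD1
  set D2 : ℝ := ∑ o ∈ O, DT (1 / 2) (cw * Y) (b o) (r₁ o) with hD2
  have hD10 : 0 ≤ D1 := Finset.sum_nonneg fun o _ => DT_nonneg _ _ _ _
  have hD20 : 0 ≤ D2 := Finset.sum_nonneg fun o _ => DT_nonneg _ _ _ _
  set u : ℝ := (L0 / Lt) ^ (1 / 3 : ℝ) with hu
  have hu0 : 0 ≤ u := by positivity
  set Tt : ℝ := (Y + (Lt * Y) ^ (2 / 3 : ℝ)) * D1 + Lt * Y ^ (1 / 2 : ℝ) * D2 with hTt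
  have hTt0 : 0 ≤ Tt := by positivity
  have ht1 : 1 ≤ (1 + |t|) ^ J := one_le_pow₀ (by linarith [abs_nonneg t])
  have p1 : (16 * M) * (2 * (C₁ * Z₂ ^ ε * (1 + |t|) ^ J *
        (Y * nfL * ((lam / Lt) ^ (1 / 3 : ℝ) * W1)))) ≤
      64 * K ^ ε * C₁ * Z ^ ε * (1 + |t|) ^ J * (u * (Y * nfT * W1)) := by
    calc (16 * M) * (2 * (C₁ * Z₂ ^ ε * (1 + |t|) ^ J *
        (Y * nfL * ((lam / Lt) ^ (1 / 3 : ℝ) * W1))))
        = 32 * C₁ * Z₂ ^ ε * (1 + |t|) ^ J * ((M * (lam / Lt) ^ (1 / 3 : ℝ)) *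
          (Y * nfL * W1)) := by ring
      _ ≤ 32 * C₁ * Z₂ ^ ε * (1 + |t|) ^ J * ((2 * u) * (Y * nfT * W1)) := by gcongr
      _ = _ := by rw [hZ₂ε]; ring
  have p2 : (16 * M) * (2 * (C₂ * Z₂ ^ ε * (Cw ^ 2 * ∑ o ∈ O, DD o))) ≤
      64 * K ^ ε * (C₂ * (cw * Cw ^ 2)) * Z ^ ε * (1 + |t|) ^ J * (u * Tt) := by
    calc (16 * M) * (2 * (C₂ * Z₂ ^ ε * (Cw ^ 2 * ∑ o ∈ O, DD o)))
        = 32 * C₂ * Z₂ ^ ε * Cw ^ 2 * (M * ∑ o ∈ O, DD o) := by ring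
      _ ≤ 32 * C₂ * Z₂ ^ ε * Cw ^ 2 * (2 * u * (cw * Tt)) :=
          mul_le_mul_of_nonneg_left hDDle (by positivity)
      _ = 64 * K ^ ε * (C₂ * (cw * Cw ^ 2)) * Z ^ ε * 1 * (u * Tt) := by rw [hZ₂ε]; ring
      _ ≤ _ := by gcongr
  calc (16 * M) * (2 * (C₁ * Z₂ ^ ε * (1 + |t|) ^ J *
        (Y * nfL * ((lam / Lt) ^ (1 / 3 : ℝ) * W1))) +
      2 * (C₂ * Z₂ ^ ε * (Cw ^ 2 * ∑ o ∈ O, DD o)))
      ≤ 64 * K ^ ε * C₁ * Z ^ ε * (1 + |t|) ^ J * (u * (Y * nfT * W1)) +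
        64 * K ^ ε * (C₂ * (cw * Cw ^ 2)) * Z ^ ε * (1 + |t|) ^ J * (u * Tt) := by
        rw [mul_add]; exact add_le_add p1 p2
    _ ≤ 64 * K ^ ε * (C₁ + C₂ * (cw * Cw ^ 2)) * Z ^ ε * (1 + |t|) ^ J *
        (u * (Y * nfT * W1 + Tt)) := by
        have q1 : 0 ≤ 64 * K ^ ε * C₁ * Z ^ ε * (1 + |t|) ^ J * (u * Tt) := by positivity
        have q2 : 0 ≤ 64 * K ^ ε * (C₂ * (cw * Cw ^ 2)) * Z ^ ε * (1 + |t|) ^ J *
            (u * (Y * nfT * W1)) := by positivity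
        have e : 64 * K ^ ε * (C₁ + C₂ * (cw * Cw ^ 2)) * Z ^ ε * (1 + |t|) ^ J *
            (u * (Y * nfT * W1 + Tt)) =
          64 * K ^ ε * C₁ * Z ^ ε * (1 + |t|) ^ J * (u * (Y * nfT * W1)) +
          64 * K ^ ε * (C₂ * (cw * Cw ^ 2)) * Z ^ ε * (1 + |t|) ^ J * (u * Tt) +
          (64 * K ^ ε * C₁ * Z ^ ε * (1 + |t|) ^ J * (u * Tt) +
          64 * K ^ ε * (C₂ * (cw * Cw ^ 2)) * Z ^ ε * (1 + |t|) ^ J *
            (u * (Y * nfT * W1))) := by ring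
        rw [e]; linarith

end Crest.Agent.R017.Mode405
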