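import Crest.Agent.R017.ModeG3_405

/-!
# Row 17, block C70, leaf E3: MODE*, generic structured half, part K (helper405)

* `GP Θ`, `PoHG G` : a structured bound with abstract values (`Rl`), abstract windows and a factor
  `psi` in the tests; parameters `θ : Θ` chosen after the constants
* `block2G` : the block bound
* `strG_le` : the structured half, complete in the divisors of `r₁`
-/

set_option autoImplicit false

noncomputable section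

open Complex MeasureTheory
open scoped ComplexConjugate

namespace Crest.Agent.R017.Mode405

open Crest.Agent.R012 Crest.Agent.R012.Eis Crest.Agent.R012.MC
open Crest.Agent.R012.LS2 (S mem_S bl mem_bl)
open Crest.Agent.R012.LS448 (one_le_nm')
open Crest.Agent.R012.NonCube52 (Ker kv Good kc kc_spec kc_nm kv_ne_zero one_le_nmkv)
open Crest.Agent.R012.Mob705 (mu pdiv mem_pdiv sum_mu_coprime abs_mu_le_one)
open Crest.Agent.R012.Weight600 (pw)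
open Crest.Agent.R017.CM106 (CS TG FS)
open Crest.Agent.R017.BD829 (TT EQ Win EQ_nonneg)
open Crest.Agent.R017.E1551 (jb jb_pos nmpos)
open Crest.Agent.R017.DgB829 (HS HS_le HS_nonneg)

/-- the data of a structured bound -/
structure GP (Θ : Type) where
  /-- admissible classes of tests: `θ Z N ka 𝒯` -/
  OK : Θ → ℝ → ℝ → Eis → Set Tst → Prop
  /-- admissible sequences: `θ N R b` -/
  Adm : Θ → ℝ → ℝ → (Eis → ℂ) → Prop
  /-- the length condition: `θ R N lam` -/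
  Cnd : Θ → ℝ → ℝ → ℝ → Prop
  /-- the norm factor -/
  nfn : Θ → ℝ → ℝ → ℝ
  /-- the factor of the tests -/
  psi : Eis → ℂ
  /-- the values: `θ ka lam X t b v` -/
  Rl : Θ → Eis → ℝ → ℝ → ℝ → (Eis → ℂ) → ℝ → Prop
  okw : ∀ θ, OKW (OK θ)
  adm : ∀ θ N R b b', Adm θ N R b → (∀ n, b' n ≠ 0 → b n ≠ 0) → Adm θ N R b'
  cnd : ∀ θ R N lam lam', Cnd θ R N lam → lam' ≤ lam → Cnd θ R N lam'
  nfok : ∀ θ, NFok (nfn θ)

/-- **the structured bound**, generic form -/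
def PoHG {Θ : Type} (G : GP Θ) : Prop :=
  ∀ R : ℝ, 0 ≤ R → ∀ a A : ℕ, 1 < A → ∀ ε : ℝ, 0 < ε → ∃ (C c : ℝ) (J : ℕ), 0 ≤ C ∧ 1 ≤ c ∧
    ∀ (θ : Θ) (Z N X lam : ℝ), 1 ≤ Z → 0 < N → N ≤ Z → 0 < X → X ≤ Z → 1 ≤ X * Z → 1 ≤ lam →
      lam ≤ Z → G.Cnd θ R N lam →
    ∀ (ka : Eis) (𝒯 : Set Tst), G.OK θ Z N ka 𝒯 →
    ∀ {ι : Type} (Q : Finset ι) (b : ι → Eis → ℂ) (Xq : ι → ℝ),
      (∀ q ∈ Q, X / 64 ≤ Xq q ∧ Xq q ≤ X) →
      (∀ q ∈ Q, ∀ n, b q n ≠ 0 → n ∈ S Z) → (∀ q ∈ Q, G.Adm θ N R (b q)) →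
    ∀ W : ℝ → ℝ, Slp a W →
      (∀ τ ∈ 𝒯, ∀ P : ℝ, 1 ≤ P → ∑ q ∈ Q, TV τ A (fun m => b q m * G.psi m) P ≤ W P) →
    ∀ W1 : ℝ, 0 ≤ W1 → W (c * Il N lam X) ≤ W1 →
    ∀ (t : ℝ) (v : ι → ℝ), (∀ q ∈ Q, G.Rl θ ka lam (Xq q) t (b q) (v q)) →
      ∑ q ∈ Q, v q ≤ C * Z ^ ε * (1 + |t|) ^ J * (X * G.nfn θ lam (Il N lam X) * W1)

lemma bs_psi (b psi : Eis → ℂ) (s : Eis) :
    (fun m => bs b s m * psi m) = bs (fun m => b m * psi m) s := by
  funext m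
  unfold bs
  ring

set_option maxHeartbeats 2000000 in
/-- **the block bound**, threshold rule -/
theorem block2G {Θ : Type} {G : GP Θ} (hP : PoHG G) {R : ℝ} (hR : 0 ≤ R) (a A : ℕ) (hA : 1 < A) {ε : ℝ} (hε : 0 < ε) :
    ∃ (C c : ℝ) (J : ℕ), 0 ≤ C ∧ 1 ≤ c ∧ ∀ (θ : Θ) (Z N Y Lt lam P₁ : ℝ), 1 ≤ Z → 0 < N → N ≤ Z →
      0 < Y → 1 ≤ Y * Z → Y ≤ Z → 1 ≤ lam → lam ≤ Lt → Lt ≤ Z → G.Cnd θ R N Lt → 1 ≤ P₁ →
      lam * P₁ ^ 3 ≤ Lt → ∀ (ka : Eis) (𝒯 : Set Tst), G.OK θ Z N ka 𝒯 →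
    ∀ {ι : Type} (O : Finset ι) (b : ι → Eis → ℂ) (Yq : ι → ℝ),
      (∀ o ∈ O, Y / 8 ≤ Yq o ∧ Yq o ≤ Y) → (∀ o ∈ O, ∀ n, b o n ≠ 0 → n ∈ S Z) →
      (∀ o ∈ O, G.Adm θ N R (b o)) →
    ∀ W : ℝ → ℝ, Slp a W →
      (∀ τ ∈ 𝒯, ∀ P : ℝ, 1 ≤ P → ∑ o ∈ O, TV τ A (fun m => b o m * G.psi m) P ≤ W P) →
    ∀ W1 : ℝ, 0 ≤ W1 → W (c * Il N Lt Y) ≤ W1 →
    ∀ (Pr : ι → Finset (Eis × Eis)) (i j : ℕ), (∀ o ∈ O, ∀ p ∈ Pr o, IsPrim p.1 ∧ IsPrim p.2 ∧
        ((2 : ℝ) ^ i ≤ nm p.1 ∧ (nm p.1 : ℝ) ≤ 2 ^ (i + 1)) ∧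
        ((2 : ℝ) ^ j ≤ nm p.2 ∧ (nm p.2 : ℝ) ≤ 2 ^ (j + 1)) ∧ (nm p.1 : ℝ) * nm p.2 ≤ P₁) →
    ∀ (t : ℝ) (v : ι → Eis × Eis → ℝ), (∀ o ∈ O, ∀ p ∈ Pr o,
      G.Rl θ ka lam (Yq o / nm (p.1 * p.2 ^ 2)) t (bs (b o) (p.1 * p.2 ^ 2)) (v o p)) →
      (2 : ℝ) ^ j * ∑ o ∈ O, ∑ p ∈ Pr o, v o p ≤
      C * Z ^ ε * (1 + |t|) ^ J * (Y * G.nfn θ lam (Il N lam Y) * ((lam / Lt) ^ (1 / 3 : ℝ) * W1)) := by
  classical
  obtain ⟨C₁, hC₁, htau⟩ := Div277.tau_le_rpow (ε := min (ε / 32) (1 / 2)) (by positivity)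
  set e₁ : ℝ := min (ε / 32) (1 / 2) with he₁
  have he0 : 0 < e₁ := by positivity
  have he2 : 2 * e₁ ≤ 1 := by have := min_le_right (ε / 32) (1 / 2 : ℝ); rw [← he₁] at this; linarith
  have he3 : e₁ ≤ ε / 32 := min_le_left _ _
  obtain ⟨C₂, c, J, hC₂, hc, hmain⟩ := hP R hR (a + 1) A hA (ε / 6) (by positivity)
  refine ⟨C₂ * (C₁ ^ 2 * (8 * c) ^ (2 * e₁)), 8 * c, J, by positivity, by linarith, ?_⟩
  intro θ Z N Y Lt lam P₁ hZ hN hNZ hY0 hYZ1 hYZ hlam hlamL hLZ hLN hP₁ hP3 ka 𝒯 hT ι O b Yq hYq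
    hbS hbW W hW hWle W1 hW1 hW1le Pr i j hPr t v hv
  have hOK := G.okw θ
  have hnfn := G.nfok θ
  set nfn := G.nfn θ with hnfnd
  have hPZ : P₁ ≤ Z := by
    have h1 : P₁ ≤ P₁ ^ 3 := le_self_pow₀ hP₁ (by norm_num)
    have h2 : P₁ ^ 3 ≤ lam * P₁ ^ 3 := le_mul_of_one_le_left (by positivity) hlam
    linarith
  have hLt0 : 0 < Lt := by linarith
  have hlam0 : 0 < lam := by linarith
  have hZ0 : 0 < Z := by linarith
  have hIl0 : 0 < Il N lam Y := by unfold Il; positivity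
  have hRHS : 0 ≤ C₂ * (C₁ ^ 2 * (8 * c) ^ (2 * e₁)) * Z ^ ε * (1 + |t|) ^ J *
      (Y * nfn lam (Il N lam Y) * ((lam / Lt) ^ (1 / 3 : ℝ) * W1)) := by
    have := hnfn.nonneg lam _ hlam0.le hIl0
    positivity
  -- the empty case
  by_cases hne : ∃ o ∈ O, ∃ p, p ∈ Pr o
  swap
  · push Not at hne
    have e0 : ∑ o ∈ O, ∑ p ∈ Pr o, v o p = 0 :=
      Finset.sum_eq_zero fun o ho => by
        rw [Finset.eq_empty_of_forall_notMem (hne o ho), Finset.sum_empty]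
    rw [e0, mul_zero]; exact hRHS
  obtain ⟨o₀, ho₀, p₀, hp₀⟩ := hne
  have h2i : (1 : ℝ) ≤ 2 ^ i := one_le_pow₀ (by norm_num)
  have h2j : (1 : ℝ) ≤ 2 ^ j := one_le_pow₀ (by norm_num)
  set P : ℝ := 2 ^ i * 2 ^ j with hPdef
  have hP1 : 1 ≤ P := one_le_mul_of_one_le_of_one_le h2i h2j
  have hPP₁ : P ≤ P₁ := by
    obtain ⟨-, -, h1, h2, h3⟩ := hPr o₀ ho₀ p₀ hp₀
    calc P ≤ (nm p₀.1 : ℝ) * nm p₀.2 := mul_le_mul h1.1 h2.1 (by positivity) (by positivity)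
      _ ≤ P₁ := h3
  have hPZ' : P ≤ Z := hPP₁.trans hPZ
  have h2iZ : (2 : ℝ) ^ i ≤ Z := le_trans (by
    rw [hPdef]; exact le_mul_of_one_le_right (by positivity) h2j) hPZ'
  have h2jZ : (2 : ℝ) ^ j ≤ Z := le_trans (by
    rw [hPdef]; exact le_mul_of_one_le_left (by positivity) h2i) hPZ'
  set M : ℝ := 2 ^ i * (2 ^ j) ^ 2 with hMdef
  have hM1 : 1 ≤ M := one_le_mul_of_one_le_of_one_le h2i (one_le_pow₀ h2j)
  have hMZ : M ≤ Z ^ 2 := by
    calc M = P * 2 ^ j := by rw [hMdef, hPdef]; ring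
      _ ≤ Z * Z := mul_le_mul hPZ' h2jZ (by positivity) hZ0.le
      _ = Z ^ 2 := by ring
  set X : ℝ := Y / M with hXdef
  have hM0 : 0 < M := by linarith
  have hX0 : 0 < X := by positivity
  have hXY : X ≤ Y := div_le_self hY0.le hM1
  -- the merged frequencies
  set cm : ℝ := 8 * ((2 ^ i) ^ 2 * 2 ^ j) with hcm
  have hcm0 : 0 < cm := by positivity
  have hcmZ : cm ≤ 8 * Z ^ 3 := by
    rw [hcm]
    have : (2 ^ i) ^ 2 * 2 ^ j ≤ Z ^ 2 * Z :=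
      mul_le_mul (pow_le_pow_left₀ (by positivity) h2iZ 2) h2jZ (by positivity) (by positivity)
    calc 8 * ((2 ^ i) ^ 2 * 2 ^ j) ≤ 8 * (Z ^ 2 * Z) := by linarith
      _ = 8 * Z ^ 3 := by ring
  set Wf : ℝ → ℝ := fun P => C₁ ^ 2 * (cm * max 1 P) ^ (2 * e₁) * W (cm * P) with hWf
  have hWfS : Slp (a + 1) Wf := slp_fam hW hcm0 (by positivity) (by positivity) he2
  -- the family
  set Fm : Finset (Σ _ : ι, Eis × Eis) := O.sigma Pr with hFm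
  set bb : (Σ _ : ι, Eis × Eis) → Eis → ℂ := fun x => bs (b x.1) (x.2.1 * x.2.2 ^ 2) with hbb
  set Xq : (Σ _ : ι, Eis × Eis) → ℝ := fun x => Yq x.1 / nm (x.2.1 * x.2.2 ^ 2) with hXq
  have hmemF : ∀ x ∈ Fm, x.1 ∈ O ∧ x.2 ∈ Pr x.1 := fun x hx => by
    rw [hFm, Finset.mem_sigma] at hx; exact hx
  have hXqb : ∀ x ∈ Fm, X / 64 ≤ Xq x ∧ Xq x ≤ X := by
    intro x hx
    obtain ⟨ho, hp⟩ := hmemF x hx
    obtain ⟨h1, h2, h3, h4, -⟩ := hPr _ ho _ hp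
    have hn : ((nm (x.2.1 * x.2.2 ^ 2) : ℕ) : ℝ) = nm x.2.1 * (nm x.2.2 : ℝ) ^ 2 := by
      rw [nm_mul, nm_pow]; push_cast; ring
    have hlo : M ≤ nm x.2.1 * (nm x.2.2 : ℝ) ^ 2 := by
      rw [hMdef]
      exact mul_le_mul h3.1 (pow_le_pow_left₀ (by positivity) h4.1 2) (by positivity) (by positivity)
    have hhi : nm x.2.1 * (nm x.2.2 : ℝ) ^ 2 ≤ 8 * M := by
      calc nm x.2.1 * (nm x.2.2 : ℝ) ^ 2 ≤ 2 ^ (i + 1) * (2 ^ (j + 1)) ^ 2 :=
            mul_le_mul h3.2 (pow_le_pow_left₀ (by positivity) h4.2 2) (by positivity) (by positivity)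
        _ = 8 * M := by rw [hMdef, pow_succ, pow_succ]; ring
    have hpos : 0 < nm x.2.1 * (nm x.2.2 : ℝ) ^ 2 := lt_of_lt_of_le hM0 hlo
    have hy := hYq _ ho
    rw [hXq]
    beta_reduce
    rw [hn]
    constructor
    · rw [hXdef, div_div, div_le_div_iff₀ (by positivity) hpos]
      have hY4 : Y ≤ 8 * Yq x.1 := by linarith [hy.1]
      have hYq0 : 0 ≤ Yq x.1 := by linarith [hy.1]
      calc Y * (nm x.2.1 * (nm x.2.2 : ℝ) ^ 2) ≤ (8 * Yq x.1) * (8 * M) :=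
            mul_le_mul hY4 hhi hpos.le (by positivity)
        _ ≤ Yq x.1 * (M * 64) := by nlinarith [mul_nonneg hYq0 hM0.le]
    · rw [hXdef]
      have hYq0 : 0 ≤ Yq x.1 := by linarith [hy.1]
      exact div_le_div₀ hY0.le hy.2 hM0 hlo
  have hbbS : ∀ x ∈ Fm, ∀ n, bb x n ≠ 0 → n ∈ S (Z ^ 3) := by
    intro x hx n hn
    have h1 := hbS _ (hmemF x hx).1 n (bs_supp hn)
    rw [mem_S hZ0.le] at h1
    rw [mem_S (by positivity)]
    refine ⟨h1.1.trans ?_, h1.2⟩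
    calc Z = Z ^ 1 := (pow_one Z).symm
      _ ≤ Z ^ 3 := pow_le_pow_right₀ hZ (by norm_num)
  have hbbW : ∀ x ∈ Fm, G.Adm θ N R (bb x) := by
    intro x hx
    exact G.adm θ N R _ _ (hbW _ (hmemF x hx).1) (fun n hn => bs_supp hn)
  have hWfle : ∀ τ ∈ 𝒯, ∀ P : ℝ, 1 ≤ P →
      ∑ x ∈ Fm, TV τ A (fun m => bb x m * G.psi m) P ≤ Wf P := by
    intro τ hτ Q hQ
    have hQ0 : 0 ≤ Q := by linarith
    rw [hFm, Finset.sum_sigma]
    have hTk : ∀ k ∈ bl (cm * Q), ((pdiv k).card : ℝ) ≤ C₁ * (cm * Q) ^ e₁ := by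
      intro k hk
      have hk' := (mem_bl (by positivity)).mp hk
      refine (htau k hk'.1).trans ?_
      exact mul_le_mul_of_nonneg_left (Real.rpow_le_rpow (Nat.cast_nonneg _) hk'.2 he0.le)
        (by linarith)
    have h1 : ∀ o ∈ O, ∑ p ∈ Pr o, TV τ A (fun m => bb ⟨o, p⟩ m * G.psi m) Q ≤
        (C₁ * (cm * Q) ^ e₁) ^ 2 * TV τ A (fun m => b o m * G.psi m) (cm * Q) := by
      intro o ho
      have hbp : ∀ n, b o n * G.psi n ≠ 0 → IsPrim n := fun n hn =>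
        ((mem_S hZ0.le).1 (hbS o ho n (left_ne_zero_of_mul hn))).2.1
      have ebb : ∀ p : Eis × Eis, (fun m => bb ⟨o, p⟩ m * G.psi m) =
          bs (fun m => b o m * G.psi m) (p.1 * p.2 ^ 2) := fun p => by
        rw [hbb]; exact bs_psi _ _ _
      simp only [ebb]
      unfold TV
      rw [Finset.sum_comm, Finset.mul_sum]
      refine Finset.sum_le_sum fun y hy => ?_
      obtain ⟨hg, hwt, hrho⟩ := hOK.ok Z N ka 𝒯 hT τ hτ y hy
      have hrho0 : 0 < τ.rho y := by linarith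
      rw [← Finset.mul_sum]
      have e0 : cm * (Q / τ.rho y) = cm * Q / τ.rho y := by ring
      have h2 : ∑ p ∈ Pr o, VI A (bs (fun m => b o m * G.psi m) (p.1 * p.2 ^ 2))
          y.1 y.2.1 y.2.2 (Q / τ.rho y) ≤
          (C₁ * (cm * Q) ^ e₁) ^ 2 *
            VI A (fun m => b o m * G.psi m) y.1 y.2.1 y.2.2 (cm * Q / τ.rho y) := by
        rw [← e0]
        refine VI_merge A hbp hg
          (fun p hp => ⟨(hPr o ho p hp).1, (hPr o ho p hp).2.1⟩) (by positivity) hcm0.le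
          (fun p hp => ?_) (by positivity) (fun k hk => hTk k ?_)
        · obtain ⟨-, -, h3, h4, -⟩ := hPr o ho p hp
          rw [nm_mul, nm_pow]
          push_cast
          calc (nm p.1 : ℝ) ^ 2 * nm p.2 ≤ (2 ^ (i + 1)) ^ 2 * 2 ^ (j + 1) :=
                mul_le_mul (pow_le_pow_left₀ (by positivity) h3.2 2) h4.2 (by positivity)
                  (by positivity)
            _ = cm := by rw [hcm, pow_succ, pow_succ]; ring
        · rw [mem_bl (by positivity)] at hk ⊢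
          refine ⟨hk.1, hk.2.trans ?_⟩
          exact mul_le_mul_of_nonneg_left (div_le_self hQ0 hrho) hcm0.le
      calc τ.wt y * ∑ p ∈ Pr o, VI A (bs (fun m => b o m * G.psi m) (p.1 * p.2 ^ 2))
            y.1 y.2.1 y.2.2 (Q / τ.rho y)
          ≤ τ.wt y * ((C₁ * (cm * Q) ^ e₁) ^ 2 *
            VI A (fun m => b o m * G.psi m) y.1 y.2.1 y.2.2 (cm * Q / τ.rho y)) :=
            mul_le_mul_of_nonneg_left h2 hwt
        _ = _ := by ring
    have h2 := hWle τ hτ (cm * Q) (by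
      have : (1 : ℝ) ≤ (2 ^ i) ^ 2 * 2 ^ j := one_le_mul_of_one_le_of_one_le (one_le_pow₀ h2i) h2j
      nlinarith)
    calc ∑ o ∈ O, ∑ p ∈ Pr o, TV τ A (fun m => bb ⟨o, p⟩ m * G.psi m) Q
        ≤ ∑ o ∈ O, (C₁ * (cm * Q) ^ e₁) ^ 2 * TV τ A (fun m => b o m * G.psi m) (cm * Q) :=
          Finset.sum_le_sum h1
      _ = (C₁ * (cm * Q) ^ e₁) ^ 2 * ∑ o ∈ O, TV τ A (fun m => b o m * G.psi m) (cm * Q) := by
          rw [← Finset.mul_sum]
      _ ≤ (C₁ * (cm * Q) ^ e₁) ^ 2 * W (cm * Q) := mul_le_mul_of_nonneg_left h2 (by positivity)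
      _ = Wf Q := by
          rw [hWf]
          beta_reduce
          rw [max_eq_right hQ, mul_pow, ← Real.rpow_natCast ((cm * Q) ^ e₁),
            ← Real.rpow_mul (by positivity)]
          congr 3
          push_cast; ring
  -- the constant of the family
  set W2 : ℝ := C₁ ^ 2 * (8 * c) ^ (2 * e₁) * Z ^ (16 * e₁) *
    ((lam / Lt) ^ (1 / 3 : ℝ) * (P * W1)) with hW2
  have hW20 : 0 ≤ W2 := by positivity
  have hIX : Il N lam X = Il N lam Y * M := by unfold Il; rw [hXdef]; field_simp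
  have hIX0 : 0 < Il N lam X := by rw [hIX]; positivity
  have hIXZ : Il N lam X ≤ Z ^ 5 := by
    rw [hIX]
    have h1 : Il N lam Y ≤ Z ^ 3 := by
      unfold Il
      rw [div_le_iff₀ hY0]
      have h2 : N * lam ≤ Z * Z := mul_le_mul hNZ (hlamL.trans hLZ) hlam0.le hZ0.le
      have h3 : Z ^ 2 * 1 ≤ Z ^ 2 * (Y * Z) := mul_le_mul_of_nonneg_left hYZ1 (by positivity)
      calc N * lam ≤ Z ^ 2 * 1 := by linarith [h2, sq Z]
        _ ≤ Z ^ 2 * (Y * Z) := h3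
        _ = Z ^ 3 * Y := by ring
    calc Il N lam Y * M ≤ Z ^ 3 * Z ^ 2 := mul_le_mul h1 hMZ hM0.le (by positivity)
      _ = Z ^ 5 := by ring
  have hWf1 : Wf (c * Il N lam X) ≤ W2 := by
    have hc0 : 0 < c := by linarith
    rw [hWf]
    beta_reduce
    have h1 : (cm * max 1 (c * Il N lam X)) ^ (2 * e₁) ≤ (8 * c) ^ (2 * e₁) * Z ^ (16 * e₁) := by
      have h2 : max 1 (c * Il N lam X) ≤ c * Z ^ 5 := by
        refine max_le ?_ ?_
        · have : (1 : ℝ) ≤ Z ^ 5 := one_le_pow₀ hZ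
          nlinarith
        · exact mul_le_mul_of_nonneg_left hIXZ hc0.le
      have h3 : cm * max 1 (c * Il N lam X) ≤ (8 * c) * Z ^ (8 : ℕ) := by
        have h4 : (0 : ℝ) ≤ max 1 (c * Il N lam X) := le_trans zero_le_one (le_max_left _ _)
        calc cm * max 1 (c * Il N lam X) ≤ (8 * Z ^ 3) * (c * Z ^ 5) :=
              mul_le_mul hcmZ h2 h4 (by positivity)
          _ = (8 * c) * Z ^ (8 : ℕ) := by ring
      have h5 : (0 : ℝ) ≤ cm * max 1 (c * Il N lam X) :=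
        mul_nonneg hcm0.le (le_trans zero_le_one (le_max_left _ _))
      calc (cm * max 1 (c * Il N lam X)) ^ (2 * e₁) ≤ ((8 * c) * Z ^ (8 : ℕ)) ^ (2 * e₁) :=
            Real.rpow_le_rpow h5 h3 (by positivity)
        _ = (8 * c) ^ (2 * e₁) * Z ^ (16 * e₁) := by
            rw [Real.mul_rpow (by positivity) (by positivity), ← Real.rpow_natCast Z 8,
              ← Real.rpow_mul hZ0.le]
            congr 2
            push_cast; ring
    have h6 : W (cm * (c * Il N lam X)) ≤ (lam / Lt) ^ (1 / 3 : ℝ) * (P * W1) := by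
      have e1 : cm * (c * Il N lam X) = 8 * c * Il N lam Y * P ^ 3 := by
        rw [hIX, hcm, hPdef, hMdef]; ring
      have hP3' : lam * P ^ 3 ≤ Lt := by
        refine le_trans (mul_le_mul_of_nonneg_left ?_ hlam0.le) hP3
        exact pow_le_pow_left₀ (by linarith) hPP₁ 3
      have hP0 : 0 < P := by linarith
      have e2 : 8 * c * Il N lam Y * P ^ 3 ≤ 8 * c * Il N Lt Y := by
        have e4 : 8 * c * Il N lam Y * P ^ 3 = (8 * c * (N / Y)) * (lam * P ^ 3) := by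
          unfold Il; ring
        have e5 : 8 * c * Il N Lt Y = (8 * c * (N / Y)) * Lt := by
          unfold Il; ring
        rw [e4, e5]
        exact mul_le_mul_of_nonneg_left hP3' (by positivity)
      have hIlt0 : 0 < Il N Lt Y := by unfold Il; positivity
      have h7 := hW.low (8 * c * Il N lam Y * P ^ 3) (8 * c * Il N Lt Y) (by positivity) e2
      have e3 : 8 * c * Il N lam Y * P ^ 3 / (8 * c * Il N Lt Y) = lam / Lt * P ^ 3 := by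
        unfold Il; field_simp
      have e6 : (lam / Lt * P ^ 3) ^ (1 / 3 : ℝ) = (lam / Lt) ^ (1 / 3 : ℝ) * P := by
        rw [Real.mul_rpow (by positivity) (by positivity), ← Real.rpow_natCast P 3,
          ← Real.rpow_mul hP0.le]
        norm_num
      rw [e3, e6] at h7
      rw [e1]
      refine h7.trans ?_
      have e7 : (lam / Lt) ^ (1 / 3 : ℝ) * (P * W1) = (lam / Lt) ^ (1 / 3 : ℝ) * P * W1 := by
        ring
      rw [e7]
      exact mul_le_mul_of_nonneg_left hW1le (by positivity)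
    have h8 : 0 ≤ W (cm * (c * Il N lam X)) := hW.nonneg _ (by positivity)
    calc C₁ ^ 2 * (cm * max 1 (c * Il N lam X)) ^ (2 * e₁) * W (cm * (c * Il N lam X))
        ≤ C₁ ^ 2 * ((8 * c) ^ (2 * e₁) * Z ^ (16 * e₁)) *
          ((lam / Lt) ^ (1 / 3 : ℝ) * (P * W1)) := by
          gcongr
      _ = W2 := by rw [hW2]; ring
  -- application
  have hZ3 : (1 : ℝ) ≤ Z ^ 3 := one_le_pow₀ hZ
  have hZZ3 : Z ≤ Z ^ 3 := by
    calc Z = Z ^ 1 := (pow_one Z).symm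
      _ ≤ Z ^ 3 := pow_le_pow_right₀ hZ (by norm_num)
  have hXZ : 1 ≤ X * Z ^ 3 := by
    rw [hXdef, div_mul_eq_mul_div, one_le_div hM0]
    calc M ≤ Z ^ 2 * 1 := by linarith
      _ ≤ Z ^ 2 * (Y * Z) := mul_le_mul_of_nonneg_left hYZ1 (by positivity)
      _ = Y * Z ^ 3 := by ring
  have h := hmain θ (Z ^ 3) N X lam hZ3 hN (hNZ.trans hZZ3) hX0 (hXY.trans (hYZ.trans hZZ3)) hXZ hlam
    ((hlamL.trans hLZ).trans hZZ3)
    (G.cnd θ R N _ _ hLN hlamL)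
    ka 𝒯 (hOK.mono Z (Z ^ 3) N ka 𝒯 hZZ3 hT) Fm bb Xq hXqb hbbS hbbW Wf hWfS hWfle W2 hW20 hWf1 t
    (fun x => v x.1 x.2) (fun x hx => hv _ (hmemF x hx).1 _ (hmemF x hx).2)
  rw [hFm, Finset.sum_sigma] at h
  have hZε : (Z ^ 3) ^ (ε / 6) * Z ^ (16 * e₁) ≤ Z ^ ε := by
    rw [← Real.rpow_natCast Z 3, ← Real.rpow_mul hZ0.le, ← Real.rpow_add hZ0]
    refine Real.rpow_le_rpow_of_exponent_le hZ ?_
    push_cast
    linarith
  have hnf : nfn lam (Il N lam X) ≤ nfn lam (Il N lam Y) := by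
    refine hnfn.anti lam _ _ hlam0.le hIl0 ?_
    rw [hIX]; exact le_mul_of_one_le_right hIl0.le hM1
  have hnf0 := hnfn.nonneg lam _ hlam0.le hIX0
  have hnf1 := hnfn.nonneg lam _ hlam0.le hIl0
  have hXP : (2 : ℝ) ^ j * X * P = Y := by
    rw [hXdef, hPdef, hMdef]; field_simp
  calc (2 : ℝ) ^ j * ∑ o ∈ O, ∑ p ∈ Pr o, v o p
      ≤ 2 ^ j * (C₂ * (Z ^ 3) ^ (ε / 6) * (1 + |t|) ^ J * (X * nfn lam (Il N lam X) * W2)) :=
        mul_le_mul_of_nonneg_left h (by positivity)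
    _ = (C₂ * (C₁ ^ 2 * (8 * c) ^ (2 * e₁))) * ((Z ^ 3) ^ (ε / 6) * Z ^ (16 * e₁)) *
        (1 + |t|) ^ J * ((2 ^ j * X * P) * nfn lam (Il N lam X) *
          ((lam / Lt) ^ (1 / 3 : ℝ) * W1)) := by rw [hW2]; ring
    _ = (C₂ * (C₁ ^ 2 * (8 * c) ^ (2 * e₁))) * ((Z ^ 3) ^ (ε / 6) * Z ^ (16 * e₁)) *
        (1 + |t|) ^ J * (Y * nfn lam (Il N lam X) * ((lam / Lt) ^ (1 / 3 : ℝ) * W1)) := by
          rw [hXP]
    _ ≤ (C₂ * (C₁ ^ 2 * (8 * c) ^ (2 * e₁))) * Z ^ ε *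
        (1 + |t|) ^ J * (Y * nfn lam (Il N lam Y) * ((lam / Lt) ^ (1 / 3 : ℝ) * W1)) := by
          gcongr

set_option maxHeartbeats 2000000 in
/-- **the structured half** -/
theorem strG_le {Θ : Type} {G : GP Θ} (hP : PoHG G)
    {R : ℝ} (hR : 0 ≤ R) (a A : ℕ) (hA : 1 < A) {ε : ℝ} (hε : 0 < ε) :
    ∃ (C c : ℝ) (J : ℕ), 0 ≤ C ∧ 1 ≤ c ∧ ∀ (θ : Θ) (Z N Y Lt lam P₁ : ℝ), 1 ≤ Z → 0 < N → N ≤ Z →
      1 ≤ Y → Y ≤ Z → 1 ≤ lam → lam ≤ Lt → Lt ≤ Z → G.Cnd θ R N Lt → 1 ≤ P₁ → lam * P₁ ^ 3 ≤ Lt →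
    ∀ (ka : Eis) (𝒯 : Set Tst), G.OK θ Z N ka 𝒯 →
    ∀ {ι : Type} (O : Finset ι) (b : ι → Eis → ℂ) (Yq : ι → ℝ) (r₁ : ι → Eis),
      (∀ o ∈ O, Y / 4 ≤ Yq o ∧ Yq o ≤ Y) → (∀ o ∈ O, ∀ n, b o n ≠ 0 → n ∈ S Z) →
      (∀ o ∈ O, G.Adm θ N R (b o)) → (∀ o ∈ O, r₁ o ≠ 0 ∧ (nm (r₁ o) : ℝ) ≤ Z) →
    ∀ W : ℝ → ℝ, Slp a W →
      (∀ τ ∈ 𝒯, ∀ P : ℝ, 0 < P → ∑ o ∈ O, ∑ e ∈ pdiv (r₁ o),
        (nm e : ℝ)⁻¹ * TV τ A (fun m => bs (b o) e m * G.psi m) (nm e * P) ≤ W P) →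
    ∀ W1 : ℝ, 0 ≤ W1 → W (c * Il N Lt Y) ≤ W1 →
    ∀ (Tr : ι → Finset ((Eis × Eis) × Eis)), (∀ o ∈ O, ∀ p ∈ Tr o, IsPrim p.1.1 ∧ IsPrim p.1.2 ∧
      (nm p.1.1 : ℝ) * nm p.1.2 ≤ P₁ ∧ p.2 ∈ pdiv (r₁ o)) →
    ∀ (t : ℝ) (v : ι → (Eis × Eis) × Eis → ℝ), (∀ o p, 0 ≤ v o p) → (∀ o ∈ O, ∀ p ∈ Tr o,
      G.Rl θ ka lam (Yq o / nm p.2 / nm (p.1.1 * p.1.2 ^ 2)) t
        (bs (bs (b o) p.2) (p.1.1 * p.1.2 ^ 2)) (v o p)) →
      ∑ o ∈ O, ∑ p ∈ Tr o, (nm p.1.2 : ℝ) * v o p ≤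
      C * Z ^ ε * (1 + |t|) ^ J *
        (Y * G.nfn θ lam (Il N lam Y) * ((lam / Lt) ^ (1 / 3 : ℝ) * W1)) := by
  classical
  obtain ⟨C, c, J, hC, hc, hmain⟩ := block2G hP hR a A hA (ε := ε / 4) (by positivity)
  set δ : ℝ := ε / 8 with hδ
  have hδ0 : 0 < δ := by positivity
  set c4 : ℝ := 2 * (1 + 1 / (δ / 3)) with hc4
  have hc40 : 0 ≤ c4 := by positivity
  refine ⟨c4 ^ 3 * (4 * C), c, J, by positivity, hc, ?_⟩
  intro θ Z N Y Lt lam P₁ hZ hN hNZ hY hYZ hlam hlamL hLZ hLN hP₁ hP3 ka 𝒯 hT ι O b Yq r₁ hYq hbS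
    hbW hr W hW hWle W1 hW1 hW1le Tr hTr t v hv0 hv
  have hOK := G.okw θ
  have hnfn := G.nfok θ
  set nfn := G.nfn θ with hnfnd
  have hPZ : P₁ ≤ Z := by
    have h1 : P₁ ≤ P₁ ^ 3 := le_self_pow₀ hP₁ (by norm_num)
    have h2 : P₁ ^ 3 ≤ lam * P₁ ^ 3 := le_mul_of_one_le_left (by positivity) hlam
    linarith
  have hY0 : 0 < Y := by linarith
  have hZ0 : 0 < Z := by linarith
  have hlam0 : 0 < lam := by linarith
  set I : ℕ := Nat.log 2 ⌊Z⌋₊ with hI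
  set lg : (Eis × Eis) × Eis → (ℕ × ℕ) × ℕ := fun p =>
    ((Nat.log 2 (nm p.1.1), Nat.log 2 (nm p.1.2)), Nat.log 2 (nm p.2)) with hlg
  set Rg : Finset ((ℕ × ℕ) × ℕ) :=
    (Finset.range (I + 1) ×ˢ Finset.range (I + 1)) ×ˢ Finset.range (I + 1) with hRg
  have hmem : ∀ o ∈ O, ∀ p ∈ Tr o, IsPrim p.1.1 ∧ IsPrim p.1.2 ∧
      (nm p.1.1 : ℝ) * nm p.1.2 ≤ P₁ ∧ IsPrim p.2 ∧ (nm p.2 : ℝ) ≤ Z := by
    intro o ho p hp
    obtain ⟨h1, h2, h3, h4⟩ := hTr o ho p hp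
    have h5 := (mem_pdiv (hr o ho).1).mp h4
    refine ⟨h1, h2, h3, h5.1, le_trans ?_ (hr o ho).2⟩
    exact_mod_cast Div277.nm_le_of_dvd (hr o ho).1 h5.2
  have hmaps : ∀ o ∈ O, ∀ p ∈ Tr o, lg p ∈ Rg := by
    intro o ho p hp
    obtain ⟨h1, h2, h3, h4, h5⟩ := hmem o ho p hp
    have n1 := one_le_nm' h1.ne_zero
    have n2 := one_le_nm' h2.ne_zero
    rw [hRg, hlg]
    simp only [Finset.mem_product, Finset.mem_range, Nat.lt_succ_iff]
    refine ⟨⟨?_, ?_⟩, ?_⟩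
    · refine Nat.log_mono_right (Nat.le_floor ?_)
      nlinarith
    · refine Nat.log_mono_right (Nat.le_floor ?_)
      nlinarith
    · exact Nat.log_mono_right (Nat.le_floor h5)
  -- step B
  set B : ℝ := 2 * (C * Z ^ (ε / 4) * (1 + |t|) ^ J *
    (Y * nfn lam (Il N lam Y) * ((lam / Lt) ^ (1 / 3 : ℝ) * W1))) with hB
  have hIl0 : 0 < Il N lam Y := by unfold Il; positivity
  have hLt0 : 0 < Lt := by linarith
  have hnf0 := hnfn.nonneg lam _ hlam0.le hIl0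
  have hB0 : 0 ≤ B := by rw [hB]; positivity
  have hblock : ∀ ij ∈ Rg, (2 : ℝ) ^ ij.1.2 *
      ∑ o ∈ O, ∑ p ∈ (Tr o).filter (fun p => lg p = ij), v o p ≤ B := by
    intro ij hij
    set l := ij.2 with hl
    have h2l : (1 : ℝ) ≤ 2 ^ l := one_le_pow₀ (by norm_num)
    have h2l0 : (0 : ℝ) < 2 ^ l := by linarith
    have hlZ : (2 : ℝ) ^ l ≤ Z := by
      rw [hRg] at hij
      simp only [Finset.mem_product, Finset.mem_range, Nat.lt_succ_iff] at hij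
      have h1 : 2 ^ l ≤ ⌊Z⌋₊ := by
        refine Nat.pow_le_of_le_log ?_ hij.2
        have := Nat.le_floor (n := 1) (a := Z) (by exact_mod_cast hZ)
        omega
      exact (by exact_mod_cast h1 : (2 : ℝ) ^ l ≤ (⌊Z⌋₊ : ℝ)).trans (Nat.floor_le hZ0.le)
    set Yl : ℝ := Y / 2 ^ l with hYl
    have hYl0 : 0 < Yl := by positivity
    have hYlY : Yl ≤ Y := div_le_self hY0.le h2l
    have hYlZ : 1 ≤ Yl * Z := by
      rw [hYl, div_mul_eq_mul_div, one_le_div h2l0]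
      calc (2 : ℝ) ^ l ≤ Z := hlZ
        _ ≤ Y * Z := le_mul_of_one_le_left hZ0.le hY
    set El : ι → Finset Eis := fun o => (pdiv (r₁ o)).filter (fun e => Nat.log 2 (nm e) = l) with hEl
    set Ol : Finset (Σ _ : ι, Eis) := O.sigma El with hOl
    have hmemE : ∀ o ∈ O, ∀ e ∈ El o, e ∈ pdiv (r₁ o) ∧ IsPrim e ∧ (2 : ℝ) ^ l ≤ nm e ∧
        (nm e : ℝ) ≤ 2 ^ (l + 1) := by
      intro o ho e he
      rw [hEl, Finset.mem_filter] at he
      have h1 := (mem_pdiv (hr o ho).1).mp he.1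
      have n1 : nm e ≠ 0 := by
        have := nmpos h1.1.ne_zero
        exact_mod_cast this.ne'
      refine ⟨he.1, h1.1, ?_, ?_⟩
      · rw [← he.2]; exact_mod_cast Nat.pow_log_le_self 2 n1
      · rw [← he.2]; exact_mod_cast (Nat.lt_pow_succ_log_self (by norm_num) _).le
    have hmemO : ∀ x ∈ Ol, x.1 ∈ O ∧ x.2 ∈ El x.1 := fun x hx => by
      rw [hOl, Finset.mem_sigma] at hx; exact hx
    set Wl : ℝ → ℝ := fun P => 2 ^ (l + 1) * W (P / 2 ^ l) with hWl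
    set PrE : (Σ _ : ι, Eis) → Finset (Eis × Eis) := fun x =>
      (((Tr x.1).filter (fun p => p.2 = x.2)).image Prod.fst).filter
        (fun p => Nat.log 2 (nm p.1) = ij.1.1 ∧ Nat.log 2 (nm p.2) = ij.1.2) with hPrE
    have hmemP : ∀ x p, p ∈ PrE x ↔ ((p, x.2) ∈ Tr x.1 ∧
        Nat.log 2 (nm p.1) = ij.1.1 ∧ Nat.log 2 (nm p.2) = ij.1.2) := by
      intro x p
      rw [hPrE]
      simp only [Finset.mem_filter, Finset.mem_image]
      constructor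
      · rintro ⟨⟨q, ⟨h1, h2⟩, h3⟩, h4⟩
        refine ⟨?_, h4⟩
        have : q = (p, x.2) := Prod.ext h3 h2
        rw [← this]; exact h1
      · rintro ⟨h1, h2⟩
        exact ⟨⟨(p, x.2), ⟨h1, rfl⟩, rfl⟩, h2⟩
    have hres := hmain θ Z N Yl Lt lam P₁ hZ hN hNZ hYl0 hYlZ (hYlY.trans hYZ) hlam hlamL hLZ hLN hP₁
      hP3 ka 𝒯 hT Ol (fun x => bs (b x.1) x.2) (fun x => Yq x.1 / nm x.2) ?_ ?_ ?_ Wl
      (slp_scale hW (by positivity) h2l0) ?_ (2 ^ (l + 1) * W1) (by positivity) ?_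
      PrE ij.1.1 ij.1.2 ?_ t (fun x p => v x.1 (p, x.2)) ?_
    · -- conclusion
      have e1 : ∑ x ∈ Ol, ∑ p ∈ PrE x, v x.1 (p, x.2) =
          ∑ o ∈ O, ∑ p ∈ (Tr o).filter (fun p => lg p = ij), v o p := by
        rw [hOl, Finset.sum_sigma]
        refine Finset.sum_congr rfl fun o ho => ?_
        rw [Finset.sum_sigma']
        refine Finset.sum_nbij' (fun x : Σ _ : Eis, Eis × Eis => (x.2, x.1))
          (fun p => ⟨p.2, p.1⟩) ?_ ?_ ?_ ?_ ?_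
        · intro x hx
          rw [Finset.mem_sigma, hmemP, hEl, Finset.mem_filter] at hx
          obtain ⟨⟨-, h1⟩, h2, h3, h4⟩ := hx
          rw [Finset.mem_filter]
          refine ⟨h2, ?_⟩
          rw [hlg]
          beta_reduce
          rw [h3, h4, h1]
        · intro p hp
          rw [Finset.mem_filter] at hp
          obtain ⟨h1, h2⟩ := hp
          have h4 := hTr o ho p h1
          rw [Finset.mem_sigma, hmemP, hEl, Finset.mem_filter]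
          refine ⟨⟨h4.2.2.2, ?_⟩, h1, ?_, ?_⟩
          · rw [hl, ← h2]
          · rw [← h2]
          · rw [← h2]
        · intro x _; rfl
        · intro p _; rfl
        · intro x _; rfl
      rw [e1] at hres
      refine hres.trans ?_
      have hIll : Il N lam Y ≤ Il N lam Yl := by
        unfold Il
        exact div_le_div_of_nonneg_left (by positivity) hYl0 hYlY
      have h1 := hnfn.anti lam _ _ hlam0.le hIl0 hIll
      have h2 := hnfn.nonneg lam _ hlam0.le (hIl0.trans_le hIll)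
      calc C * Z ^ (ε / 4) * (1 + |t|) ^ J * (Yl * nfn lam (Il N lam Yl) *
            ((lam / Lt) ^ (1 / 3 : ℝ) * (2 ^ (l + 1) * W1)))
          ≤ C * Z ^ (ε / 4) * (1 + |t|) ^ J * (Yl * nfn lam (Il N lam Y) *
            ((lam / Lt) ^ (1 / 3 : ℝ) * (2 ^ (l + 1) * W1))) := by gcongr
        _ = B := by
            rw [hB, hYl, pow_succ]
            field_simp
    · intro x hx
      obtain ⟨ho, he⟩ := hmemO x hx
      obtain ⟨-, h1, h2, h3⟩ := hmemE _ ho _ he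
      have h4 := hYq _ ho
      have h5 : 0 < Yq x.1 := by linarith [h4.1]
      have h6 := nmpos h1.ne_zero
      constructor
      · rw [hYl, div_div, div_le_div_iff₀ (by positivity) h6]
        have h7 : Y ≤ 4 * Yq x.1 := by linarith [h4.1]
        calc Y * (nm x.2 : ℝ) ≤ (4 * Yq x.1) * 2 ^ (l + 1) :=
              mul_le_mul h7 h3 h6.le (by positivity)
          _ = Yq x.1 * (2 ^ l * 8) := by rw [pow_succ]; ring
      · rw [hYl]
        exact div_le_div₀ hY0.le h4.2 h2l0 h2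
    · intro x hx n hn
      exact hbS _ (hmemO x hx).1 n (bs_supp hn)
    · intro x hx
      exact G.adm θ N R _ _ (hbW _ (hmemO x hx).1) (fun n hn => bs_supp hn)
    · intro τ hτ P hP1
      have hP0 : 0 < P := by linarith
      have h1 := hWle τ hτ (P / 2 ^ l) (by positivity)
      have h2 : ∑ x ∈ Ol, TV τ A (fun m => bs (b x.1) x.2 m * G.psi m) P ≤
          2 ^ (l + 1) * ∑ o ∈ O, ∑ e ∈ pdiv (r₁ o),
            (nm e : ℝ)⁻¹ * TV τ A (fun m => bs (b o) e m * G.psi m) (nm e * (P / 2 ^ l)) := by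
        rw [hOl, Finset.sum_sigma, Finset.mul_sum]
        refine Finset.sum_le_sum fun o ho => ?_
        rw [Finset.mul_sum]
        have hTV0 : ∀ e : Eis, ∀ P' : ℝ, 0 ≤ TV τ A (fun m => bs (b o) e m * G.psi m) P' := fun e P' =>
          Finset.sum_nonneg fun y hy =>
            mul_nonneg (hOK.ok Z N ka 𝒯 hT τ hτ y hy).2.1 (VI_nonneg _ _ _ _ _ _)
        have h3 : ∀ e ∈ El o, TV τ A (fun m => bs (b o) e m * G.psi m) P ≤
            2 ^ (l + 1) * ((nm e : ℝ)⁻¹ * TV τ A (fun m => bs (b o) e m * G.psi m) (nm e * (P / 2 ^ l))) := by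
          intro e he
          obtain ⟨-, h5, h6, h7⟩ := hmemE _ ho _ he
          have h8 := nmpos h5.ne_zero
          have h9 : P ≤ nm e * (P / 2 ^ l) := by
            rw [← mul_div_assoc, le_div_iff₀ h2l0]
            nlinarith
          have h10 : TV τ A (fun m => bs (b o) e m * G.psi m) P ≤ TV τ A (fun m => bs (b o) e m * G.psi m) (nm e * (P / 2 ^ l)) := by
            unfold TV
            refine Finset.sum_le_sum fun y hy => ?_
            obtain ⟨-, a1, a2⟩ := hOK.ok Z N ka 𝒯 hT τ hτ y hy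
            have a3 : 0 < τ.rho y := by linarith
            exact mul_le_mul_of_nonneg_left (VI_mono A (fun m => bs (b o) e m * G.psi m) _ _ _ (by positivity)
              (div_le_div_of_nonneg_right h9 a3.le)) a1
          have h11 : 1 ≤ (2 : ℝ) ^ (l + 1) * (nm e : ℝ)⁻¹ := by
            rw [← div_eq_mul_inv, one_le_div h8]; exact h7
          calc _ ≤ TV τ A (fun m => bs (b o) e m * G.psi m) (nm e * (P / 2 ^ l)) := h10
            _ ≤ (2 ^ (l + 1) * (nm e : ℝ)⁻¹) * TV τ A (fun m => bs (b o) e m * G.psi m) (nm e * (P / 2 ^ l)) :=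
              le_mul_of_one_le_left (hTV0 _ _) h11
            _ = _ := by ring
        refine (Finset.sum_le_sum h3).trans ?_
        refine Finset.sum_le_sum_of_subset_of_nonneg (Finset.filter_subset _ _) fun e _ _ => ?_
        have := hTV0 e (nm e * (P / 2 ^ l))
        positivity
      calc ∑ x ∈ Ol, TV τ A (fun m => bs (b x.1) x.2 m * G.psi m) P
          ≤ 2 ^ (l + 1) * ∑ o ∈ O, ∑ e ∈ pdiv (r₁ o),
            (nm e : ℝ)⁻¹ * TV τ A (fun m => bs (b o) e m * G.psi m) (nm e * (P / 2 ^ l)) := h2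
        _ ≤ 2 ^ (l + 1) * W (P / 2 ^ l) := mul_le_mul_of_nonneg_left h1 (by positivity)
        _ = Wl P := by rw [hWl]
    · have e1 : c * Il N Lt Yl / 2 ^ l = c * Il N Lt Y := by
        unfold Il; rw [hYl]; field_simp
      rw [hWl]
      beta_reduce
      rw [e1]
      exact mul_le_mul_of_nonneg_left hW1le (by positivity)
    · intro x hx p hp
      obtain ⟨ho, he⟩ := hmemO x hx
      rw [hmemP] at hp
      obtain ⟨h1, h2, h3, -, -⟩ := hmem _ ho (p, x.2) hp.1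
      have n1 : nm p.1 ≠ 0 := by
        have := nmpos h1.ne_zero
        exact_mod_cast this.ne'
      have n2 : nm p.2 ≠ 0 := by
        have := nmpos h2.ne_zero
        exact_mod_cast this.ne'
      refine ⟨h1, h2, ⟨?_, ?_⟩, ⟨?_, ?_⟩, h3⟩
      · rw [← hp.2.1]; exact_mod_cast Nat.pow_log_le_self 2 n1
      · rw [← hp.2.1]; exact_mod_cast (Nat.lt_pow_succ_log_self (by norm_num) _).le
      · rw [← hp.2.2]; exact_mod_cast Nat.pow_log_le_self 2 n2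
      · rw [← hp.2.2]; exact_mod_cast (Nat.lt_pow_succ_log_self (by norm_num) _).le
    · intro x hx p hp
      have h1 := (hmemP x p).mp hp
      have h2 := (hmemO x hx).1
      exact hv x.1 h2 (p, x.2) h1.1
  have hstep : ∑ o ∈ O, ∑ p ∈ Tr o, (nm p.1.2 : ℝ) * v o p ≤ ∑ ij ∈ Rg, 2 * B := by
    have h1 : ∀ o ∈ O, ∑ p ∈ Tr o, (nm p.1.2 : ℝ) * v o p =
        ∑ ij ∈ Rg, ∑ p ∈ (Tr o).filter (fun p => lg p = ij), (nm p.1.2 : ℝ) * v o p := by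
      intro o ho
      rw [← Finset.sum_fiberwise_of_maps_to (hmaps o ho)]
    rw [Finset.sum_congr rfl h1, Finset.sum_comm]
    refine Finset.sum_le_sum fun ij hij => ?_
    have h2 : ∀ o ∈ O, ∑ p ∈ (Tr o).filter (fun p => lg p = ij), (nm p.1.2 : ℝ) * v o p ≤
        (2 * 2 ^ ij.1.2) * ∑ p ∈ (Tr o).filter (fun p => lg p = ij), v o p := by
      intro o ho
      rw [Finset.mul_sum]
      refine Finset.sum_le_sum fun p hp => ?_
      rw [Finset.mem_filter] at hp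
      have e2 : Nat.log 2 (nm p.1.2) = ij.1.2 := (Prod.mk.inj (Prod.mk.inj hp.2).1).2
      refine mul_le_mul_of_nonneg_right ?_ (hv0 _ _)
      have h3 : (nm p.1.2 : ℝ) ≤ 2 ^ (ij.1.2 + 1) := by
        rw [← e2]; exact_mod_cast (Nat.lt_pow_succ_log_self (by norm_num) _).le
      calc (nm p.1.2 : ℝ) ≤ 2 ^ (ij.1.2 + 1) := h3
        _ = 2 * 2 ^ ij.1.2 := by rw [pow_succ]; ring
    calc _ ≤ ∑ o ∈ O, (2 * 2 ^ ij.1.2) * ∑ p ∈ (Tr o).filter (fun p => lg p = ij), v o p :=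
          Finset.sum_le_sum h2
      _ = 2 * ((2 : ℝ) ^ ij.1.2 * ∑ o ∈ O, ∑ p ∈ (Tr o).filter (fun p => lg p = ij), v o p) := by
          rw [← Finset.mul_sum]; ring
      _ ≤ 2 * B := by have := hblock ij hij; linarith
  have hcard : ((Rg.card : ℕ) : ℝ) ≤ c4 ^ 3 * Z ^ δ := by
    have h1 : ((I : ℕ) : ℝ) + 1 ≤ c4 * Z ^ (δ / 3) := by
      have := natlog_le (n := ⌊Z⌋₊) hZ (δ := δ / 3) (by positivity) (Nat.floor_le hZ0.le)
      rw [hI, hc4]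
      linarith
    rw [hRg, Finset.card_product, Finset.card_product, Finset.card_range]
    push_cast
    have h0 : (0 : ℝ) ≤ (I : ℝ) + 1 := by positivity
    calc ((I : ℝ) + 1) * ((I : ℝ) + 1) * ((I : ℝ) + 1) = ((I : ℝ) + 1) ^ 3 := by ring
      _ ≤ (c4 * Z ^ (δ / 3)) ^ 3 := pow_le_pow_left₀ h0 h1 3
      _ = c4 ^ 3 * Z ^ δ := by
          rw [mul_pow, ← Real.rpow_natCast (Z ^ (δ / 3)) 3, ← Real.rpow_mul hZ0.le]
          congr 2
          push_cast; ring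
  calc ∑ o ∈ O, ∑ p ∈ Tr o, (nm p.1.2 : ℝ) * v o p
      ≤ ∑ ij ∈ Rg, 2 * B := hstep
    _ = Rg.card * (2 * B) := by rw [Finset.sum_const, nsmul_eq_mul]
    _ ≤ (c4 ^ 3 * Z ^ δ) * (2 * B) := by gcongr
    _ = c4 ^ 3 * (4 * C) * (Z ^ δ * Z ^ (ε / 4)) *
        (1 + |t|) ^ J * (Y * nfn lam (Il N lam Y) * ((lam / Lt) ^ (1 / 3 : ℝ) * W1)) := by
        rw [hB]; ring
    _ ≤ c4 ^ 3 * (4 * C) * Z ^ ε *
        (1 + |t|) ^ J * (Y * nfn lam (Il N lam Y) * ((lam / Lt) ^ (1 / 3 : ℝ) * W1)) := by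
        have h1 : Z ^ δ * Z ^ (ε / 4) ≤ Z ^ ε := by
          rw [← Real.rpow_add hZ0]
          refine Real.rpow_le_rpow_of_exponent_le hZ ?_
          rw [hδ]; linarith
        gcongr

end Crest.Agent.R017.Mode405
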