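import Crest.Agent.R017.ExpRules_911

/-!
# Row 17, section D: the abstract level step (helper911)

Only the top family of every shortening matters. For a shortening of length `n₁` (`2 n₁ ≥ κ`) of
the side take `X = V` (lumps) `+ b` (Möbius) `+ b'` (amplifier), `x = |X| ≤ κ - n₁ + F`. The side
is ideal up to `F` as soon as, for every shortening `G₃` of the rest `G₁ - X`, of length `l₃`,
* `r i G₃ ≤ l₃ + (2 κ + i) / 3 - x + F`   for `i ≤ κ - 3 x` (smooth pieces of `G₃` at most `i`),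
* `2 a₃ + 2 θ m₃ ≤ l₃ + 2/3 κ - x + F`    (cube column).
-/

set_option autoImplicit false

namespace Crest.Agent.R017.ER911

variable {θ : ℝ} {r s : EF}

/-- columns of the rest `(Z | m, a)` after removing `X`, `|X| = x` -/
structure Cols (θ : ℝ) (r : EF) (κ x F : ℝ) (Z : Multiset ℝ) (m a : ℝ) : Prop where
  col : ∀ (Z' : Multiset ℝ) (m' a' i : ℝ), Sh Z' Z → 0 ≤ m' → m' ≤ m → 0 ≤ a' → a' ≤ a →
    0 ≤ i → (∀ y ∈ Z', y ≤ i) → i ≤ κ - 3 * x →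
    r i Z' m' a' ≤ (Z'.sum + m' + a') + (2 * κ + i) / 3 - x + F
  cube : ∀ (Z' : Multiset ℝ) (m' a' : ℝ), Sh Z' Z → 0 ≤ m' → m' ≤ m → 0 ≤ a' → a' ≤ a →
    0 ≤ κ - 3 * x → 2 * a' + 2 * θ * m' ≤ (Z'.sum + m' + a') + 2 / 3 * κ - x + F

/-- one Gauss level (all families below the top one) from its columns -/
theorem level_of_cols (R : ExpRules θ r s) {κ b b' m a F : ℝ} {V Z : Multiset ℝ}
    (hV : ∀ y ∈ V, 0 ≤ y) (hZ : ∀ y ∈ Z, 0 ≤ y) (hb : 0 ≤ b) (hbm : b ≤ m) (hb' : 0 ≤ b')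
    (hba : b' ≤ a) (hn : κ ≤ 2 * (V.sum + Z.sum + m + a))
    (hx : V.sum + b + b' ≤ κ - (V.sum + Z.sum + m + a) + F)
    (C : Cols θ r κ (V.sum + b + b') F Z (m - b) (a - b')) :
    ∀ i : ℝ, 0 ≤ i → i ≤ 2 * (V.sum + Z.sum + m + a) - κ →
      s i (V + Z) m a ≤ 2 * (V.sum + Z.sum + m + a) -
        (2 * (V.sum + Z.sum + m + a) - κ - i) / 3 + F := by
  intro i hi hi'
  have hV0 : 0 ≤ V.sum := Multiset.sum_nonneg hV
  have hZok : Ok Z m a := ⟨hZ, hb.trans hbm, hb'.trans hba⟩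
  have c0 := R.cauV i Z V m a hi hZok hV
  have c1 := R.cau (i + V.sum) Z m a b b' (by linarith) hZok hb hbm hb' hba
  set K := 2 * (V.sum + Z.sum + m + a) - κ + (V.sum + b + b') with hK
  have c2 := R.poisG K Z (m - b) (a - b')
    (K + (Z.sum + (m - b) + (a - b')) + (κ - (V.sum + Z.sum + m + a) - (V.sum + b + b') + F))
    (by linarith) ⟨hZ, by linarith, by linarith⟩ (by linarith)
    (fun Z' m' a' j hZ' hm0 hm1 ha0 ha1 hj hyj hjj => by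
      have := C.col Z' m' a' j hZ' hm0 hm1 ha0 ha1 hj hyj (by linarith)
      linarith)
    (fun Z' m' a' hZ' hm0 hm1 ha0 ha1 hKK => by
      have := C.cube Z' m' a' hZ' hm0 hm1 ha0 ha1 (by linarith)
      linarith)
    (i + V.sum + (b + b')) (by linarith) (by linarith)
  linarith

/-- **the abstract side theorem** -/
theorem side_of_cols (R : ExpRules θ r s) {κ m a F : ℝ} {Y : Multiset ℝ} (hκ : 0 ≤ κ)
    (hY : Ok Y m a) (hF : 0 ≤ F) (hn : Y.sum + m + a ≤ κ + F)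
    (H : ∀ (Y₁ : Multiset ℝ) (m₁ a₁ : ℝ), Sh Y₁ Y → 0 ≤ m₁ → m₁ ≤ m → 0 ≤ a₁ → a₁ ≤ a →
      κ ≤ 2 * (Y₁.sum + m₁ + a₁) →
      ∃ (V Z : Multiset ℝ) (b b' : ℝ), Y₁ = V + Z ∧ 0 ≤ b ∧ b ≤ m₁ ∧ 0 ≤ b' ∧ b' ≤ a₁ ∧
        V.sum + b + b' ≤ κ - (Y₁.sum + m₁ + a₁) + F ∧
        Cols θ r κ (V.sum + b + b') F Z (m₁ - b) (a₁ - b')) :
    ∀ κ' : ℝ, 0 ≤ κ' → κ' ≤ κ →
      r κ' Y m a + (κ - κ') / 3 ≤ κ + (Y.sum + m + a) + F := by
  refine R.poisC κ Y m a (κ + (Y.sum + m + a) + F) hκ hY (by linarith) (by linarith) ?_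
  intro Y₁ m₁ a₁ i hY₁ hm0 hm1 ha0 ha1 hi hi'
  obtain ⟨V, Z, b, b', rfl, hb, hbm, hb', hba, hx, C⟩ :=
    H Y₁ m₁ a₁ hY₁ hm0 hm1 ha0 ha1 (by linarith)
  have hnn := hY₁.nonneg
  have hV : ∀ y ∈ V, 0 ≤ y := fun y hy => hnn y (Multiset.mem_add.2 (Or.inl hy))
  have hZ : ∀ y ∈ Z, 0 ≤ y := fun y hy => hnn y (Multiset.mem_add.2 (Or.inr hy))
  rw [Multiset.sum_add] at hx hi' ⊢
  have := level_of_cols R (κ := κ) (F := F) hV hZ hb hbm hb' hba (by linarith) (by linarith) C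
    i hi (by linarith)
  linarith

/-- **fixed `X`** (helper904): `X = V + (Möbius b) + (amplifier b')`, `x = |X|`, rest
`(Z | m, a)` of length `l'`, `2 x + l' ≤ κ + F`. -/
theorem side_fixedX (R : ExpRules θ r s) {κ m b a b' F : ℝ} {V Z : Multiset ℝ} (hκ : 0 ≤ κ)
    (hV : ∀ y ∈ V, 0 ≤ y) (hZ : ∀ y ∈ Z, 0 ≤ y) (hm : 0 ≤ m) (hb : 0 ≤ b) (ha : 0 ≤ a)
    (hb' : 0 ≤ b') (hF : 0 ≤ F) (hx : 2 * (V.sum + b + b') + (Z.sum + m + a) ≤ κ + F)
    (col : ∀ (Z' : Multiset ℝ) (m' a' i : ℝ), Sh Z' Z → 0 ≤ m' → m' ≤ m → 0 ≤ a' → a' ≤ a →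
      0 ≤ i → (∀ y ∈ Z', y ≤ i) → i ≤ κ →
      r i Z' m' a' ≤ (Z'.sum + m' + a') +
        max ((2 * κ + i) / 3 - (V.sum + b + b')) ((κ + 2 * i) / 3) + F)
    (cube : ∀ (Z' : Multiset ℝ) (m' a' : ℝ), Sh Z' Z → 0 ≤ m' → m' ≤ m → 0 ≤ a' → a' ≤ a →
      2 * a' + 2 * θ * m' ≤ (Z'.sum + m' + a') + 2 / 3 * κ - (V.sum + b + b') + F) :
    ∀ κ' : ℝ, 0 ≤ κ' → κ' ≤ κ →
      r κ' (V + Z) (m + b) (a + b') + (κ - κ') / 3 ≤
        κ + (V.sum + Z.sum + (m + b) + (a + b')) + F := by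
  have hV0 : 0 ≤ V.sum := Multiset.sum_nonneg hV
  have hZ0 : 0 ≤ Z.sum := Multiset.sum_nonneg hZ
  have hs : (V + Z).sum = V.sum + Z.sum := Multiset.sum_add V Z
  have hok : Ok (V + Z) (m + b) (a + b') := by
    refine ⟨fun y hy => ?_, by linarith, by linarith⟩
    rcases Multiset.mem_add.1 hy with h | h
    · exact hV y h
    · exact hZ y h
  have := side_of_cols R (κ := κ) (m := m + b) (a := a + b') (F := F) (Y := V + Z) hκ hok hF
    (by rw [hs]; linarith) ?_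
  · rwa [hs] at this
  intro Y₁ m₁ a₁ hY₁ hm0 hm1 ha0 ha1 hn
  obtain ⟨V', Z', rfl, hV', hZ'⟩ := hY₁.of_add
  have hVs := hV'.sum_le
  have hZs := hZ'.sum_le
  have hV0' := hV'.sum_nonneg
  have hZ0' := hZ'.sum_nonneg
  rw [Multiset.sum_add] at hn ⊢
  have hrest : m₁ - min b m₁ ≤ m := by
    rcases le_total b m₁ with h | h
    · rw [min_eq_left h]; linarith
    · rw [min_eq_right h]; linarith
  have hresta : a₁ - min b' a₁ ≤ a := by
    rcases le_total b' a₁ with h | h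
    · rw [min_eq_left h]; linarith
    · rw [min_eq_right h]; linarith
  have hmin := min_le_left b m₁
  have hmin' := min_le_right b m₁
  have hmin0 : 0 ≤ min b m₁ := le_min hb hm0
  have hmina := min_le_left b' a₁
  have hmina' := min_le_right b' a₁
  have hmina0 : 0 ≤ min b' a₁ := le_min hb' ha0
  refine ⟨V', Z', min b m₁, min b' a₁, rfl, hmin0, hmin', hmina0, hmina', by linarith, ?_, ?_⟩
  · intro Z₃ m₃ a₃ i hZ₃ hm3 hm3' ha3 ha3' hi hyi hii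
    have h := col Z₃ m₃ a₃ i (hZ₃.trans hZ') hm3 (by linarith) ha3 (by linarith) hi hyi
      (by linarith)
    have h2 : max ((2 * κ + i) / 3 - (V.sum + b + b')) ((κ + 2 * i) / 3) ≤
        (2 * κ + i) / 3 - (V'.sum + min b m₁ + min b' a₁) := by
      refine max_le ?_ ?_ <;> linarith
    linarith
  · intro Z₃ m₃ a₃ hZ₃ hm3 hm3' ha3 ha3' _
    have h := cube Z₃ m₃ a₃ (hZ₃.trans hZ') hm3 (by linarith) ha3 (by linarith)
    linarith

end Crest.Agent.R017.ER911
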