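import Crest.Agent.R017.SideA_911
import Crest.Agent.R017.SideB_911

/-!
# Row 17, section D: sides `{y₁,y₂ | m, a}` beyond `5/6` (helper777; after helper83's `side79`)

`θ = 7/8 + d`, `w = m + a`, `s = y₁ + y₂`. The amplifier mass `a` is allowed everywhere.
* `AG γ`   : ideal up to `2 d w` if `w ≤ γ (κ - s)` and `12 a + 9 m + 4 s ≤ 8 κ`;
* `side79a`: the sharp constant `7/9`, and the pointwise bound beyond it; no REM, no LB, no LV.
-/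

set_option autoImplicit false

noncomputable section

namespace Crest.Agent.R017.SC777

open Crest.Agent.R017.ER911

variable {d : ℝ} {r s : EF}

/-- `A(γ)` : the side `{y₁,y₂ | m,a}` is ideal up to `2 d w` if `w = m + a ≤ γ (κ - y₁ - y₂)`. -/
def AG (d : ℝ) (r : EF) (γ : ℝ) : Prop :=
  ∀ κ y₁ y₂ m a : ℝ, 0 ≤ y₁ → 0 ≤ y₂ → 0 ≤ m → 0 ≤ a → y₁ + y₂ ≤ κ →
    m + a ≤ γ * (κ - (y₁ + y₂)) → 12 * a + 9 * m + 4 * (y₁ + y₂) ≤ 8 * κ →
    ∀ κ' : ℝ, 0 ≤ κ' → κ' ≤ κ → y₁ ≤ κ' → y₂ ≤ κ' →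
      r κ' {y₁, y₂} m a + (κ - κ') / 3 ≤ κ + (y₁ + y₂) + (m + a) + 2 * d * (m + a)

theorem AG_zero (R : ExpRules (7 / 8 + d) r s) : AG d r 0 := by
  intro κ y₁ y₂ m a h1 h2 hm ha hs hle _ κ' hκ' hκ hy1 hy2
  have hm0 : m = 0 := by nlinarith
  have ha0 : a = 0 := by nlinarith
  subst hm0; subst ha0
  have := R.tf κ' y₁ y₂ h1 h2 hy1 hy2
  linarith

/-- remove all granular mass pointwise -/
theorem sup_all (R : ExpRules (7 / 8 + d) r s) {κ y₁ y₂ m a : ℝ} (hκ : 0 ≤ κ) (h1 : 0 ≤ y₁)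
    (h2 : 0 ≤ y₂) (hm : 0 ≤ m) (ha : 0 ≤ a) (hy1 : y₁ ≤ κ) (hy2 : y₂ ≤ κ) :
    r κ {y₁, y₂} m a ≤ (7 / 4 + 2 * d) * (m + a) + (κ + (y₁ + y₂)) := by
  have e1 := R.sup κ {y₁, y₂} m a m a hκ (ok_pair h1 h2 hm ha) hm le_rfl ha le_rfl
  rw [sub_self, sub_self] at e1
  have e2 := R.tf κ y₁ y₂ h1 h2 hy1 hy2
  linarith

/-- columns: remove the excess pointwise, amplifier first, then `AG γ` -/
theorem AG.col (R : ExpRules (7 / 8 + d) r s) {γ : ℝ} (hγ0 : 0 ≤ γ) (hγ : γ ≤ 7 / 9)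
    (hA : AG d r γ) {κ y₁ y₂ m a e : ℝ} (h1 : 0 ≤ y₁) (h2 : 0 ≤ y₂) (hm : 0 ≤ m) (ha : 0 ≤ a)
    (hs : y₁ + y₂ ≤ κ) (he : 0 ≤ e) (he1 : m + a - γ * (κ - (y₁ + y₂)) ≤ e)
    (he2 : 12 * a + 9 * m + 4 * (y₁ + y₂) - 8 * κ ≤ 12 * e)
    {κ' : ℝ} (hκ' : 0 ≤ κ') (hκ : κ' ≤ κ) (hy1 : y₁ ≤ κ') (hy2 : y₂ ≤ κ') :
    r κ' {y₁, y₂} m a + (κ - κ') / 3 ≤
      κ + (y₁ + y₂) + (m + a) + 2 * d * (m + a) + 3 / 4 * e := by
  have hg : 0 ≤ γ * (κ - (y₁ + y₂)) := mul_nonneg hγ0 (by linarith)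
  have hg' : γ * (κ - (y₁ + y₂)) ≤ 7 / 9 * (κ - (y₁ + y₂)) :=
    mul_le_mul_of_nonneg_right hγ (by linarith)
  rcases le_total e a with hea | hea
  · -- only amplifier is removed
    have e1 := R.sup κ' {y₁, y₂} m a 0 e hκ' (ok_pair h1 h2 hm ha) le_rfl hm he hea
    rw [sub_zero, zero_add] at e1
    have e2 := hA κ y₁ y₂ m (a - e) h1 h2 hm (by linarith) hs (by linarith) (by linarith)
      κ' hκ' hκ hy1 hy2
    linarith
  · -- the whole amplifier and some Moebius mass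
    rcases le_total (m + a) (γ * (κ - (y₁ + y₂))) with hw | hw
    · -- removing the amplifier is enough
      have e1 := R.sup κ' {y₁, y₂} m a 0 a hκ' (ok_pair h1 h2 hm ha) le_rfl hm ha le_rfl
      rw [sub_zero, zero_add, sub_self] at e1
      have e2 := hA κ y₁ y₂ m 0 h1 h2 hm le_rfl hs (by linarith) (by linarith)
        κ' hκ' hκ hy1 hy2
      linarith
    · -- remove `b = m + a - γ (..)` (at most `e`), at least the amplifier
      rcases le_total a (m + a - γ * (κ - (y₁ + y₂))) with hb | hb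
      · have e1 := R.sup κ' {y₁, y₂} m a (m - γ * (κ - (y₁ + y₂))) a hκ'
          (ok_pair h1 h2 hm ha) (by linarith) (by linarith) ha le_rfl
        rw [sub_sub_cancel, sub_self] at e1
        have e2 := hA κ y₁ y₂ (γ * (κ - (y₁ + y₂))) 0 h1 h2 hg le_rfl hs (by linarith)
          (by linarith) κ' hκ' hκ hy1 hy2
        linarith
      · -- the whole amplifier
        have e1 := R.sup κ' {y₁, y₂} m a 0 a hκ' (ok_pair h1 h2 hm ha) le_rfl hm ha le_rfl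
        rw [sub_zero, zero_add, sub_self] at e1
        have e2 := hA κ y₁ y₂ m 0 h1 h2 hm le_rfl hs (by linarith) (by linarith)
          κ' hκ' hκ hy1 hy2
        linarith

/-! ### arithmetic -/

/-- arithmetic of the `γ`-step, noncube columns -/
theorem gam_arith {γ κ σ w₁ j x k σ₂ w₂ i : ℝ} (hγ0 : 0 ≤ γ) (hγ : γ ≤ 7 / 9)
    (H : (10 - 9 * γ) * w₁ ≤ (7 - 6 * γ) * (κ - σ))
    (hj : j ≤ 2 * (σ + w₁) - κ) (hx : 3 * x = σ + w₁ + κ - 2 * j) (hk : k = j + x)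
    (hw2 : w₂ ≤ w₁ - x) (hσ2 : σ₂ ≤ σ) (hi' : i ≤ 2 * (σ + (w₁ - x)) - k) :
    9 * w₂ + (8 - 9 * γ) * i + 9 * γ * σ₂ ≤ 4 * (σ + (w₁ - x) + k) := by
  have T : (7 - 6 * γ) * (w₁ - x) ≤ (4 - 3 * γ) * (k - σ) := by
    have e5 : (10 - 9 * γ) * (3 * x) = (10 - 9 * γ) * (σ + w₁ + κ - 2 * j) := by rw [hx]
    have e4 : (10 - 9 * γ) * j ≤ (10 - 9 * γ) * (2 * (σ + w₁) - κ) :=
      mul_le_mul_of_nonneg_left hj (by linarith)
    have e6 : (4 - 3 * γ) * (3 * x) = (4 - 3 * γ) * (σ + w₁ + κ - 2 * j) := by rw [hx]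
    subst hk
    nlinarith [e4, e5, e6, H]
  have e3 : 9 * γ * σ₂ ≤ 9 * γ * σ := mul_le_mul_of_nonneg_left hσ2 (by linarith)
  have e1 : (8 - 9 * γ) * i ≤ (8 - 9 * γ) * (2 * (σ + (w₁ - x)) - k) :=
    mul_le_mul_of_nonneg_left hi' (by linarith)
  nlinarith [e1, e3, T]

/-- `12 a + 9 m + 4 s ≤ 8 κ` reproduces itself -/
theorem amp_arith {κ σ m₁ c₁ j x k σ₂ m₂ a₂ : ℝ} (H : 9 * (m₁ + c₁) ≤ 7 * (κ - σ))
    (Hc : 12 * c₁ + 9 * m₁ + 4 * σ ≤ 8 * κ) (hσ0 : 0 ≤ σ)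
    (hj : j ≤ 2 * (σ + (m₁ + c₁)) - κ) (hx : 3 * x = σ + (m₁ + c₁) + κ - 2 * j)
    (hk : k = j + x) (hm2 : 0 ≤ m₂) (hσ2 : σ₂ ≤ σ)
    (hw : m₂ + a₂ ≤ m₁ + c₁ - x) (hb : a₂ ≤ 0 ∨ (a₂ ≤ c₁ - x ∧ m₂ ≤ m₁)) :
    12 * a₂ + 9 * m₂ + 4 * σ₂ ≤ 8 * k := by
  subst hk
  rcases hb with h | ⟨h, h'⟩
  · linarith
  · linarith

/-- the cube column -/
theorem amp_cube {κ σ m₁ c₁ j x k m₂ a₂ : ℝ} (H : 9 * (m₁ + c₁) ≤ 7 * (κ - σ))
    (Hc : 12 * c₁ + 9 * m₁ + 4 * σ ≤ 8 * κ) (hσ0 : 0 ≤ σ)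
    (hj : j ≤ 2 * (σ + (m₁ + c₁)) - κ) (hx : 3 * x = σ + (m₁ + c₁) + κ - 2 * j)
    (hk : k = j + x) (hm2 : 0 ≤ m₂)
    (hw : m₂ + a₂ ≤ m₁ + c₁ - x) (hb : a₂ ≤ 0 ∨ (a₂ ≤ c₁ - x ∧ m₂ ≤ m₁)) :
    8 * a₂ + 5 * m₂ ≤ 4 * k := by
  subst hk
  rcases hb with h | ⟨h, h'⟩
  · linarith
  · linarith

/-- TF on the Gauss side, long families -/
theorem tfg_long' (R : ExpRules (7 / 8 + d) r s) {κ y₁ y₂ : ℝ} (h1 : 0 ≤ y₁) (h2 : 0 ≤ y₂)
    (h : y₁ + y₂ ≤ κ) : ∀ κ' : ℝ, 0 ≤ κ' → κ' ≤ κ →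
      s κ' {y₁, y₂} 0 0 + (κ - κ') / 3 ≤ κ + (y₁ + y₂) := by
  have hκ : 0 ≤ κ := by linarith
  refine R.poisG κ {y₁, y₂} 0 0 (κ + (y₁ + y₂)) hκ (ok_pair h1 h2 le_rfl le_rfl)
    (by rw [sum_pair]; linarith) ?_ ?_
  · intro Y' m' a' i hY hm hm' ha ha' hi hyi hii
    obtain ⟨a₁, a₂, rfl, ha1, ha1', ha2, ha2'⟩ := hY.pair
    have hm0 : m' = 0 := le_antisymm hm' hm
    have ha0 : a' = 0 := le_antisymm ha' ha
    subst hm0; subst ha0
    rw [sum_pair] at hii ⊢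
    rw [sum_pair]
    have := R.tf i a₁ a₂ ha1 ha2 (hyi a₁ (by simp)) (hyi a₂ (by simp))
    linarith
  · intro Y' m' a' hY hm hm' ha ha' hii
    have hm0 : m' = 0 := le_antisymm hm' hm
    have ha0 : a' = 0 := le_antisymm ha' ha
    have := hY.sum_nonneg
    subst hm0; subst ha0
    rw [sum_pair] at hii ⊢
    linarith

/-- two-factor bound of a Gauss pair, `E` form -/
theorem tfgE (R : ExpRules (7 / 8 + d) r s) {k y₁ y₂ E : ℝ} (h1 : 0 ≤ y₁) (h2 : 0 ≤ y₂)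
    (hk : 0 ≤ k) (hE1 : k + y₁ + y₂ ≤ E) (hE2 : (5 * (y₁ + y₂) + k) / 3 ≤ E) :
    s k {y₁, y₂} 0 0 ≤ E := by
  rcases le_total (y₁ + y₂) k with h | h
  · have := tfg_long' R h1 h2 h k hk le_rfl
    linarith
  · have := tfg_long' R h1 h2 le_rfl k hk h
    linarith

theorem AG_step (R : ExpRules (7 / 8 + d) r s) (hd : 0 ≤ d) {γ : ℝ} (hγ0 : 0 ≤ γ)
    (hγ : γ ≤ 7 / 9) (hA : AG d r γ) : AG d r ((7 - 6 * γ) / (10 - 9 * γ)) := by
  intro κ y₁ y₂ m a h1 h2 hm ha hs hle hc κ' hκ' hκ'κ _ _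
  have hden : 0 < 10 - 9 * γ := by linarith
  have hH0 : (10 - 9 * γ) * (m + a) ≤ (7 - 6 * γ) * (κ - (y₁ + y₂)) := by
    have := mul_le_mul_of_nonneg_left hle hden.le
    calc (10 - 9 * γ) * (m + a)
        ≤ (10 - 9 * γ) * ((7 - 6 * γ) / (10 - 9 * γ) * (κ - (y₁ + y₂))) := this
      _ = (7 - 6 * γ) * (κ - (y₁ + y₂)) := by field_simp
  have hκ : 0 ≤ κ := by linarith
  have hdw : 0 ≤ 2 * d * (m + a) := by positivity
  -- `9 w ≤ 7 (κ - σ)` from `H`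
  have h79 : ∀ w σ : ℝ, σ ≤ κ → (10 - 9 * γ) * w ≤ (7 - 6 * γ) * (κ - σ) →
      9 * w ≤ 7 * (κ - σ) := by
    intro w σ hσ h
    have hκσ : 0 ≤ κ - σ := by linarith
    have e3 : 9 * (7 - 6 * γ) * (κ - σ) ≤ 7 * (10 - 9 * γ) * (κ - σ) :=
      mul_le_mul_of_nonneg_right (by linarith) hκσ
    have e4 : (10 - 9 * γ) * (9 * w) ≤ (10 - 9 * γ) * (7 * (κ - σ)) := by linarith
    exact le_of_mul_le_mul_left e4 hden
  have h79top := h79 (m + a) (y₁ + y₂) hs hH0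
  refine R.poisC κ {y₁, y₂} m a (κ + (y₁ + y₂) + (m + a) + 2 * d * (m + a)) hκ
    (ok_pair h1 h2 hm ha) (by rw [sum_pair]; linarith) (by rw [sum_pair]; linarith) ?_
    κ' hκ' hκ'κ
  intro Y' m₁ c₁ j hY hm1 hm1' hc1 hc1' hj hj'
  obtain ⟨a₁, a₂, rfl, ha1, ha1', ha2, ha2'⟩ := hY.pair
  rw [sum_pair] at hj' ⊢
  rw [sum_pair]
  obtain ⟨σ, hσ⟩ : ∃ σ, σ = a₁ + a₂ := ⟨_, rfl⟩
  have hσ0 : 0 ≤ σ := by linarith
  have hσs : σ ≤ y₁ + y₂ := by linarith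
  have hj'' : j ≤ 2 * (σ + (m₁ + c₁)) - κ := by linarith
  -- hypotheses for the shortened side
  have H : (10 - 9 * γ) * (m₁ + c₁) ≤ (7 - 6 * γ) * (κ - σ) := by
    have e1 : (10 - 9 * γ) * (m₁ + c₁) ≤ (10 - 9 * γ) * (m + a) :=
      mul_le_mul_of_nonneg_left (by linarith) hden.le
    have e2 : (7 - 6 * γ) * (κ - (y₁ + y₂)) ≤ (7 - 6 * γ) * (κ - σ) :=
      mul_le_mul_of_nonneg_left (by linarith) (by linarith)
    linarith
  have H9 : 9 * (m₁ + c₁) ≤ 7 * (κ - σ) := h79 _ _ (by linarith) H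
  have Hc : 12 * c₁ + 9 * m₁ + 4 * σ ≤ 8 * κ := by linarith
  have hn1 : σ + (m₁ + c₁) ≤ κ := by linarith
  -- target
  have key : s j {a₁, a₂} m₁ c₁ ≤ (4 * (σ + (m₁ + c₁)) + κ + j) / 3 + 2 * d * (m + a) := by
    rcases le_or_gt (m₁ + c₁) ((σ + (m₁ + c₁) + κ - 2 * j) / 3) with hcase | hcase
    · -- case 1: remove all granular mass
      have c1 := R.cau j {a₁, a₂} m₁ c₁ m₁ c₁ hj (ok_pair ha1 ha2 hm1 hc1) hm1 le_rfl hc1 le_rfl
      rw [sub_self, sub_self] at c1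
      have c2 : s (j + (m₁ + c₁)) {a₁, a₂} 0 0 ≤
          (4 * (σ + (m₁ + c₁)) + κ + j) / 3 - (m₁ + c₁) := by
        refine tfgE R ha1 ha2 (by linarith) ?_ ?_
        · linarith
        · linarith
      linarith
    · -- case 2
      obtain ⟨x, hx⟩ : ∃ x, x = (σ + (m₁ + c₁) + κ - 2 * j) / 3 := ⟨_, rfl⟩
      rw [← hx] at hcase
      have hx0 : 0 ≤ x := by rw [hx]; linarith
      have h3x : 3 * x = σ + (m₁ + c₁) + κ - 2 * j := by rw [hx]; ring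
      -- split `x = b + c`, amplifier first
      obtain ⟨b, c, hb0, hbm, hcc0, hcc, hbc, halt⟩ : ∃ b c : ℝ, 0 ≤ b ∧ b ≤ m₁ ∧ 0 ≤ c ∧
          c ≤ c₁ ∧ b + c = x ∧ (c₁ - c ≤ 0 ∨ (c₁ - c ≤ c₁ - x ∧ b = 0)) := by
        rcases le_total x c₁ with hxc | hxc
        · exact ⟨0, x, le_rfl, hm1, hx0, hxc, by ring, Or.inr ⟨le_rfl, rfl⟩⟩
        · exact ⟨x - c₁, c₁, by linarith, by linarith, hc1, le_rfl, by ring,
            Or.inl (by linarith)⟩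
      have c1 := R.cau j {a₁, a₂} m₁ c₁ b c hj (ok_pair ha1 ha2 hm1 hc1) hb0 hbm hcc0 hcc
      rw [hbc] at c1
      obtain ⟨k, hk⟩ : ∃ k, k = j + x := ⟨_, rfl⟩
      rw [← hk] at c1
      have hk0 : 0 ≤ k := by linarith
      have c2 : s k {a₁, a₂} (m₁ - b) (c₁ - c) + (k - k) / 3 ≤
          k + (σ + (m₁ + c₁ - x)) + 2 * d * (m + a) := by
        refine R.poisG k {a₁, a₂} (m₁ - b) (c₁ - c)
          (k + (σ + (m₁ + c₁ - x)) + 2 * d * (m + a)) hk0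
          (ok_pair ha1 ha2 (by linarith) (by linarith)) (by rw [sum_pair]; linarith) ?_ ?_
          k hk0 le_rfl
        · -- noncube columns
          intro Y'' m₂ e₂ i hY'' hm2 hm2' he2 he2' hi hyk hik'
          obtain ⟨b₁, b₂, rfl, hb1, hb1', hb2, hb2'⟩ := hY''.pair
          have hk21 : b₁ ≤ i := hyk b₁ (by simp)
          have hk22 : b₂ ≤ i := hyk b₂ (by simp)
          rw [sum_pair] at hik' ⊢
          rw [sum_pair]
          obtain ⟨σ₂, hσ₂⟩ : ∃ σ₂, σ₂ = b₁ + b₂ := ⟨_, rfl⟩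
          have hσ20 : 0 ≤ σ₂ := by linarith
          have hσ2σ : σ₂ ≤ σ := by linarith
          have hik2 : i ≤ 2 * (σ + (m₁ + c₁ - x)) - k := by linarith
          have hw2 : m₂ + e₂ ≤ m₁ + c₁ - x := by linarith
          have hdw2 : 2 * d * (m₂ + e₂) ≤ 2 * d * (m + a) :=
            mul_le_mul_of_nonneg_left (by linarith) (by linarith)
          have hb' : e₂ ≤ 0 ∨ (e₂ ≤ c₁ - x ∧ m₂ ≤ m₁) := by
            rcases halt with h | ⟨h, h'⟩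
            · exact Or.inl (by linarith)
            · exact Or.inr ⟨by linarith, by linarith⟩
          have hl : σ + (m₁ + c₁ - x) ≤ k := by linarith
          have tgt : r i {b₁, b₂} m₂ e₂ ≤
              (σ₂ + (m₂ + e₂)) + (σ + (m₁ + c₁ - x) + k + i) / 3 + 2 * d * (m + a) := by
            rcases le_or_gt i σ₂ with hks | hks
            · have d1 := sup_all R hi hb1 hb2 hm2 he2 hk21 hk22
              linarith
            · have d2 := gam_arith hγ0 hγ H hj'' h3x hk hw2 hσ2σ hik2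
              have d3 := amp_arith H9 Hc hσ0 hj'' h3x hk hm2 hσ2σ hw2 hb'
              obtain ⟨e, he⟩ : ∃ e, e = max 0 (max (m₂ + e₂ - γ * (i - σ₂))
                ((12 * e₂ + 9 * m₂ + 4 * σ₂ - 8 * i) / 12)) := ⟨_, rfl⟩
              have he0 : 0 ≤ e := by rw [he]; exact le_max_left _ _
              have he1 : m₂ + e₂ - γ * (i - σ₂) ≤ e := by
                rw [he]; exact (le_max_left _ _).trans (le_max_right _ _)
              have he3 : (12 * e₂ + 9 * m₂ + 4 * σ₂ - 8 * i) / 12 ≤ e := by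
                rw [he]; exact (le_max_right _ _).trans (le_max_right _ _)
              have d1 := hA.col R hγ0 hγ hb1 hb2 hm2 he2 (by linarith) he0
                (by rw [← hσ₂]; exact he1) (by rw [← hσ₂]; linarith) hi le_rfl hk21 hk22
              have d4 : e ≤ (4 / 9) * (σ + (m₁ + c₁ - x) + k - 2 * i) := by
                rw [he]
                refine max_le ?_ (max_le ?_ ?_)
                · linarith
                · linarith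
                · linarith
              linarith
          linarith
        · -- cube column
          intro Y'' m₂ e₂ hY'' hm2 hm2' he2 he2' _
          obtain ⟨b₁, b₂, rfl, hb1, hb1', hb2, hb2'⟩ := hY''.pair
          rw [sum_pair]
          rw [sum_pair]
          have hw2 : m₂ + e₂ ≤ m₁ + c₁ - x := by linarith
          have hdw2 : 2 * d * m₂ ≤ 2 * d * (m + a) :=
            mul_le_mul_of_nonneg_left (by linarith) (by linarith)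
          have hb' : e₂ ≤ 0 ∨ (e₂ ≤ c₁ - x ∧ m₂ ≤ m₁) := by
            rcases halt with h | ⟨h, h'⟩
            · exact Or.inl (by linarith)
            · exact Or.inr ⟨by linarith, by linarith⟩
          have d3 := amp_cube H9 Hc hσ0 hj'' h3x hk hm2 hw2 hb'
          linarith
      linarith
  linarith

theorem AG.mono {γ γ' : ℝ} (h : AG d r γ) (hle : γ' ≤ γ) : AG d r γ' := by
  intro κ y₁ y₂ m a h1 h2 hm ha hs hwle hc
  exact h κ y₁ y₂ m a h1 h2 hm ha hs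
    (hwle.trans (mul_le_mul_of_nonneg_right hle (by linarith))) hc

/-- the iterates of the `γ`-step -/
def gseq : ℕ → ℝ
  | 0 => 0
  | n + 1 => (7 - 6 * gseq n) / (10 - 9 * gseq n)

theorem gseq_bd (n : ℕ) : 0 ≤ gseq n ∧ gseq n ≤ 7 / 9 ∧ 7 / 9 - gseq n ≤ 7 / 9 * (1 / 3) ^ n := by
  induction n with
  | zero => norm_num [gseq]
  | succ n ih =>
    obtain ⟨h0, h1, h2⟩ := ih
    have hden : 0 < 10 - 9 * gseq n := by linarith
    have hden3 : 3 ≤ 10 - 9 * gseq n := by linarith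
    have e : 7 / 9 - gseq (n + 1) = (7 / 9 - gseq n) / (10 - 9 * gseq n) := by
      simp only [gseq]; field_simp; ring
    have hnn : 0 ≤ 7 / 9 - gseq n := by linarith
    have hp : 0 ≤ (7 / 9 - gseq n) / (10 - 9 * gseq n) := div_nonneg hnn hden.le
    refine ⟨?_, ?_, ?_⟩
    · simp only [gseq]
      exact div_nonneg (by linarith) hden.le
    · linarith
    · rw [e, pow_succ]
      calc (7 / 9 - gseq n) / (10 - 9 * gseq n) ≤ (7 / 9 - gseq n) / 3 :=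
            div_le_div_of_nonneg_left hnn (by norm_num) hden3
        _ ≤ _ := by linarith

theorem AG_gseq (R : ExpRules (7 / 8 + d) r s) (hd : 0 ≤ d) (n : ℕ) : AG d r (gseq n) := by
  induction n with
  | zero => exact AG_zero R
  | succ n ih =>
    have := gseq_bd n
    exact AG_step R hd this.1 this.2.1 ih

theorem AG_lt (R : ExpRules (7 / 8 + d) r s) (hd : 0 ≤ d) {γ : ℝ} (h : γ < 7 / 9) :
    AG d r γ := by
  obtain ⟨n, hn⟩ : ∃ n : ℕ, 7 / 9 * (1 / 3 : ℝ) ^ n < 7 / 9 - γ := by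
    have h3 : 0 < (7 / 9 - γ) / (7 / 9) := by apply div_pos <;> linarith
    obtain ⟨n, hn⟩ := exists_pow_lt_of_lt_one h3 (by norm_num : (1 / 3 : ℝ) < 1)
    refine ⟨n, ?_⟩
    have := (lt_div_iff₀ (by norm_num : (0 : ℝ) < 7 / 9)).1 hn
    linarith
  have := gseq_bd n
  exact (AG_gseq R hd n).mono (by linarith)

/-- the side `{y₁,y₂ | m,a}`, sharp constant `7/9`, pointwise bound beyond it: `e` is the excess
(removed pointwise, amplifier first). -/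
theorem side79a (R : ExpRules (7 / 8 + d) r s) (hd : 0 ≤ d) {κ y₁ y₂ m a e : ℝ} (h1 : 0 ≤ y₁)
    (h2 : 0 ≤ y₂) (hm : 0 ≤ m) (ha : 0 ≤ a) (hs : y₁ + y₂ ≤ κ) (he : 0 ≤ e)
    (he1 : m + a - 7 / 9 * (κ - (y₁ + y₂)) ≤ e)
    (he2 : 12 * a + 9 * m + 4 * (y₁ + y₂) - 8 * κ ≤ 12 * e)
    {κ' : ℝ} (hκ' : 0 ≤ κ') (hκ : κ' ≤ κ) (hy1 : y₁ ≤ κ') (hy2 : y₂ ≤ κ') :
    r κ' {y₁, y₂} m a + (κ - κ') / 3 ≤
      κ + (y₁ + y₂) + (m + a) + 2 * d * (m + a) + 3 / 4 * e := by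
  set D := κ - (y₁ + y₂) with hD
  have hD0 : 0 ≤ D := by linarith
  -- for every `γ < 7/9`
  have key : ∀ γ : ℝ, 0 ≤ γ → γ < 7 / 9 → r κ' {y₁, y₂} m a + (κ - κ') / 3 ≤
      κ + (y₁ + y₂) + (m + a) + 2 * d * (m + a) + 3 / 4 * (e + (7 / 9 - γ) * D) := by
    intro γ hγ0 hγ
    have hnn : 0 ≤ (7 / 9 - γ) * D := mul_nonneg (by linarith) hD0
    exact (AG_lt R hd hγ).col R hγ0 hγ.le h1 h2 hm ha hs (by linarith)
      (by rw [← hD]; linarith) (by linarith) hκ' hκ hy1 hy2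
  -- let `γ → 7/9`
  refine le_of_forall_pos_le_add ?_
  intro ε hε
  obtain ⟨γ, hγ0, hγ1, hγ2⟩ : ∃ γ : ℝ, 0 ≤ γ ∧ γ < 7 / 9 ∧ (7 / 9 - γ) * D ≤ ε := by
    refine ⟨max 0 (7 / 9 - ε / (D + 1)), le_max_left _ _, ?_, ?_⟩
    · have : 0 < ε / (D + 1) := by positivity
      exact max_lt (by norm_num) (by linarith)
    · have h3 : 7 / 9 - max 0 (7 / 9 - ε / (D + 1)) ≤ ε / (D + 1) := by
        have := le_max_right 0 (7 / 9 - ε / (D + 1)); linarith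
      calc (7 / 9 - max 0 (7 / 9 - ε / (D + 1))) * D ≤ ε / (D + 1) * D :=
            mul_le_mul_of_nonneg_right h3 hD0
        _ ≤ ε / (D + 1) * (D + 1) := mul_le_mul_of_nonneg_left (by linarith) (by positivity)
        _ = ε := by field_simp
  have h4 := key γ hγ0 hγ1
  linarith

/-- the ideal region: `{y₁,y₂ | m,a}` with `m + a ≤ 7/9 (κ - s)` and `3 a ≤ κ + 3 s` -/
theorem side79a_ideal (R : ExpRules (7 / 8 + d) r s) (hd : 0 ≤ d) {κ y₁ y₂ m a : ℝ}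
    (h1 : 0 ≤ y₁) (h2 : 0 ≤ y₂) (hm : 0 ≤ m) (ha : 0 ≤ a) (hs : y₁ + y₂ ≤ κ)
    (hw : m + a ≤ 7 / 9 * (κ - (y₁ + y₂))) (hA : 3 * a ≤ κ + 3 * (y₁ + y₂))
    {κ' : ℝ} (hκ' : 0 ≤ κ') (hκ : κ' ≤ κ) (hy1 : y₁ ≤ κ') (hy2 : y₂ ≤ κ') :
    r κ' {y₁, y₂} m a + (κ - κ') / 3 ≤
      κ + (y₁ + y₂) + (m + a) + 2 * d * (m + a) := by
  have := side79a R hd (e := 0) h1 h2 hm ha hs le_rfl (by linarith) (by linarith) hκ' hκ hy1 hy2
  linarith

end Crest.Agent.R017.SC777
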