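import Crest.Agent.R017.E5R_71
import Crest.Agent.R017.SideC_777

/-!
# Row 17, MomU: the real lemma of the two-lump side after the fusion `{M - b, b | w}` (helper74)

For a configuration `(p, w)` of helper71's `MoD A` the granular excess condition of helper777's
`side79a` holds with room, so that every two-lump side of total length `M = u₁ + u₂ ≤ κ` has the
exponent `E2x d (p, w)`.
* `MoD.*`     : windows of `MoD A`
* `r_le_E2x'` : `{y₁, y₂ | w}`, `y₁ + y₂ ≤ M`, hereditary in the family and in the granular masses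
* `r_le_E2x`  : `{M - b, b | w}`, `b ∈ [.17 κ, .17]` (helper960's form), and for `b ∈ [0, M]`
-/

set_option autoImplicit false

noncomputable section

open Set

namespace Crest.Agent.R017.E5B71

open Crest.Agent.R017.Prov71 Crest.Agent.R017.ER911 Crest.Agent.R017.SC777

section
variable {A d : ℝ} {r s : EF} {p : Fin 3 ⊕ Fin 5 → ℝ} {w : Kd → ℝ}

/-- the near-equal configuration behind a point of `MoD` -/
lemma MoD.nr (h : (p, w) ∈ MoD A) :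
    Nr5 A p (fun t => match t with | .mo => w .mo | .am => w .am + cx' p) := h.1

lemma MoD.κpos (h : (p, w) ∈ MoD A) : 0 < cκ p := (MoD.nr h).κpos

lemma MoD.m0 (h : (p, w) ∈ MoD A) : 0 ≤ w .mo := (MoD.nr h).w0 .mo

lemma MoD.a0 (h : (p, w) ∈ MoD A) : 0 ≤ w .am := h.2.2.1

lemma MoD.x0 (h : (p, w) ∈ MoD A) : 0 ≤ cx' p := h.2.1

lemma MoD.am13 (h : (p, w) ∈ MoD A) : w .am ≤ 1 / 3 := by
  have h1 : w .am + cx' p ≤ 1 / 3 := (MoD.nr h).c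
  linarith [MoD.x0 h]

lemma MoD.κ31 (h : (p, w) ∈ MoD A) : 28 ≤ 31 * cκ p := h.2.2.2.2.1

lemma MoD.m12 (h : (p, w) ∈ MoD A) : 12 * w .mo ≤ cκ p := h.2.2.2.2.2

lemma MoD.M0 (h : (p, w) ∈ MoD A) (hA : 99 / 100 ≤ A) : 99 / 200 * cκ p ≤ cM p :=
  (MoD.nr h).Mlow hA

/-- `M + w_mo ≤ 4/3 - 297/400 κ` -/
lemma MoD.Mm (h : (p, w) ∈ MoD A) (hA : 99 / 100 ≤ A) :
    cM p + w .mo ≤ 4 / 3 - 297 / 400 * cκ p := by
  have h1 := (MoD.nr h).Mup hA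
  exact h1

lemma MoD.Mκ (h : (p, w) ∈ MoD A) (hA : 99 / 100 ≤ A) : cM p ≤ 3 / 4 * cκ p := by
  linarith [MoD.Mm h hA, MoD.m0 h, MoD.κ31 h]

/-- the second excess condition of `side79a` has room -/
lemma MoD.exc (h : (p, w) ∈ MoD A) (hA : 99 / 100 ≤ A) :
    12 * w .am + 9 * w .mo + 4 * cM p ≤ 8 * cκ p := by
  linarith [MoD.Mm h hA, MoD.m12 h, MoD.am13 h, MoD.κ31 h, MoD.κpos h]

/-- `16 (1 - A) ≤ d ≤ 1/8` gives `A ≥ 99/100` -/
lemma A99 (hd1 : d ≤ 1 / 8) (hA1 : 16 * (1 - A) ≤ d) : 99 / 100 ≤ A := by linarith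

/-- **every two-lump side** `{y₁, y₂ | m, a}`, `y₁ + y₂ ≤ M`, `m ≤ w_mo`, `a ≤ w_am`, family
`κ' ≤ κ` -/
theorem r_le_E2x' (R : ExpRules (7 / 8 + d) r s) (hd : 0 ≤ d) (hA : 99 / 100 ≤ A)
    (h : (p, w) ∈ MoD A) {y₁ y₂ m a κ' : ℝ} (h1 : 0 ≤ y₁) (h2 : 0 ≤ y₂) (h12 : y₁ + y₂ ≤ cM p)
    (hm : 0 ≤ m) (hm' : m ≤ w .mo) (ha : 0 ≤ a) (ha' : a ≤ w .am) (hκ0 : 0 ≤ κ')
    (hκ' : κ' ≤ cκ p) (hy1 : y₁ ≤ κ') (hy2 : y₂ ≤ κ') :
    r κ' {y₁, y₂} m a + (cκ p - κ') / 3 ≤ E2x d (p, w) := by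
  have hκ := MoD.κpos h
  have hMκ := MoD.Mκ h hA
  have hexc := MoD.exc h hA
  set e := max 0 (w .mo + w .am - 7 / 9 * (cκ p - cM p)) with he
  have he0 : 0 ≤ e := le_max_left _ _
  have he1 : w .mo + w .am - 7 / 9 * (cκ p - cM p) ≤ e := le_max_right _ _
  have key := side79a R hd (κ := cκ p) (y₁ := y₁) (y₂ := y₂) (m := m) (a := a) (e := e) h1 h2 hm
    ha (by linarith) he0 (by linarith) (by linarith) (κ' := κ') hκ0 hκ' hy1 hy2
  have h3 : d * (m + a) ≤ d * (w .mo + w .am) := mul_le_mul_of_nonneg_left (by linarith) hd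
  have h4 : E2x d (p, w) = cκ p + cM p + w .mo + w .am + 3 / 4 * e +
      2 * d * (w .mo + w .am) := rfl
  rw [h4]
  linarith

/-- the two-lump side `{M - b, b | w}` at the whole family, any `b ∈ [0, M]` -/
theorem r_le_E2x₀ (R : ExpRules (7 / 8 + d) r s) (hd : 0 ≤ d) (hA : 99 / 100 ≤ A)
    (h : (p, w) ∈ MoD A) {b : ℝ} (hb : 0 ≤ b) (hb' : b ≤ cM p) :
    r (cκ p) {cM p - b, b} (w .mo) (w .am) ≤ E2x d (p, w) := by
  have := r_le_E2x' R hd hA h (y₁ := cM p - b) (y₂ := b) (by linarith) hb (by linarith)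
    (MoD.m0 h) le_rfl (MoD.a0 h) le_rfl (MoD.κpos h).le le_rfl (by linarith [MoD.Mκ h hA, MoD.κpos h])
    (by linarith [MoD.Mκ h hA, MoD.κpos h])
  linarith

/-- **MomUX** (helper960's form): `{M - b, b | w}`, `b ∈ [.17 κ, .17]` -/
theorem r_le_E2x (R : ExpRules (7 / 8 + d) r s) (hd : 0 ≤ d) (hd1 : d ≤ 1 / 8)
    (hA1 : 16 * (1 - A) ≤ d) (h : (p, w) ∈ MoD A) {b : ℝ} (hb : 17 / 100 * cκ p ≤ b)
    (hb' : b ≤ 17 / 100) :
    r (cκ p) {cM p - b, b} (w .mo) (w .am) ≤ E2x d (p, w) := by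
  have hA := A99 hd1 hA1
  have hκ := MoD.κpos h
  refine r_le_E2x₀ R hd hA h (by linarith) ?_
  linarith [MoD.M0 h hA, MoD.κ31 h]

/-- the same side with a shorter pair: `{y, b | w}`, `0 ≤ y ≤ M - b` -/
theorem r_le_E2x_short (R : ExpRules (7 / 8 + d) r s) (hd : 0 ≤ d) (hA : 99 / 100 ≤ A)
    (h : (p, w) ∈ MoD A) {y b : ℝ} (hy : 0 ≤ y) (hb : 0 ≤ b) (hyb : y + b ≤ cM p) :
    r (cκ p) {y, b} (w .mo) (w .am) ≤ E2x d (p, w) := by
  have := r_le_E2x' R hd hA h (y₁ := y) (y₂ := b) hy hb hyb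
    (MoD.m0 h) le_rfl (MoD.a0 h) le_rfl (MoD.κpos h).le le_rfl
    (by linarith [MoD.Mκ h hA, MoD.κpos h]) (by linarith [MoD.Mκ h hA, MoD.κpos h])
  linarith

end

end Crest.Agent.R017.E5B71
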