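import Crest.Agent.R017.XC6_858
import Crest.Agent.R017.PLow1_271

/-!
# Row 17: monotonicity for lists of typed pieces, pointwise part (helper858)

* `Wt3 w e` : weights `w x m` with `w (x p³) m = w x m` (`p ∤ m`), `= 0` (`p ∣ m`),
  `w x (p m) = c w (x p^e) m`; instances `wt3_sy` (`e = 0`), `wt3_K` (`e = 1`)
* `Lam w α = ∑' n, α n * w n`
* `sub_conv` : `sub (conv a b) p = conv (sub a p) b + conv (cop p a) (sub b p)`
* `mkp p us` : the shortened lists; `sub_alL`
* `Lam_step`, `F_step`
-/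

set_option autoImplicit false
set_option linter.unusedSectionVars false

noncomputable section

open Complex
open scoped ComplexConjugate

namespace Crest.Agent.R017.Mono858

open Crest.Agent.R012 Crest.Agent.R012.Eis Crest.Agent.R012.LS2 Crest.Agent.R012.Gauss880
open Crest.Agent.R012.Div277 (tau dvs mem_dvs tau_le_rpow)
open Crest.Agent.R017.CM106 Crest.Agent.R017.FE47 Crest.Agent.R017.End699
open Crest.Agent.R017.HP842 (Ker ker_Kg KS sqc Kg pc dl alL alL_cons uv sc' cop Th)
open Crest.Agent.R017.XG702 (Pcs BG)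
open Crest.Agent.R017.B770
open Crest.Agent.R017.Prov71
open Crest.Agent.R017.TP320 (conv)
open Crest.Agent.R017.XC858 (tsum_conv' ext_tsum)

/-! ### weights -/

/-- weights with the cube property -/
structure Wt3 (w : Eis → Eis → ℂ) (e : ℕ) : Prop where
  c1 : ∀ x p m : Eis, Prime p → IsPrim p → IsPrim m → IsCoprime m p → w (x * p ^ 3) m = w x m
  c2 : ∀ x p m : Eis, Prime p → IsPrim p → IsPrim m → ¬ IsCoprime m p → w (x * p ^ 3) m = 0
  c3 : ∀ x p : Eis, Prime p → IsPrim p → ∃ c : ℂ, ‖c‖ ≤ 1 ∧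
    ∀ m : Eis, IsPrim m → w x (p * m) = c * w (x * p ^ e) m

lemma cop_iff {p m : Eis} (hp : Prime p) : IsCoprime m p ↔ ¬ p ∣ m := by
  rw [isCoprime_comm]
  exact hp.irreducible.coprime_iff_not_dvd

/-- the character side -/
lemma wt3_sy : Wt3 (fun x m => sy x m) 0 where
  c1 x p m hp _ hm hc := by
    show sy (x * p ^ 3) m = sy x m
    rw [sy_mul_cube hp hm, if_neg ((cop_iff hp).1 hc)]
  c2 x p m hp _ hm hc := by
    show sy (x * p ^ 3) m = 0
    rw [sy_mul_cube hp hm, if_pos]
    by_contra h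
    exact hc ((cop_iff hp).2 h)
  c3 x p _ hpp := ⟨sy x p, CM106.norm_sy_le' hpp, fun m hm => by
    show sy x (p * m) = sy x p * sy (x * p ^ 0) m
    rw [pow_zero, mul_one, Sym645.sy_mul_right x hpp.ne_zero hm.ne_zero]⟩

/-- kernels on the Gauss side -/
lemma wt3_K {K : Eis → Eis → ℂ} (hK : Ker K)
    (hK3 : ∀ x p m : Eis, Prime p → IsPrim p → IsPrim m → IsCoprime m p → K (x * p ^ 3) m = K x m) :
    Wt3 (fun x m => Th 1 m * K x m) 1 where
  c1 x p m hp hpp hm hc := by
    show Th 1 m * K (x * p ^ 3) m = Th 1 m * K x m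
    rw [hK3 x p m hp hpp hm hc]
  c2 x p m hp _ hm hc := by
    show Th 1 m * K (x * p ^ 3) m = 0
    rw [hK.cop _ m hm, mul_zero]
    intro h
    apply hc
    exact (h.of_isCoprime_of_dvd_right ⟨x * p ^ 2, by ring⟩)
  c3 x p hp hpp := ⟨G p * conj (sy x p), norm_Gsy_le hpp, fun m hm => by
    show Th 1 (p * m) * K x (p * m) = _ * (Th 1 m * K (x * p ^ 1) m)
    rw [pow_one]
    by_cases hc : IsCoprime m p
    · rw [XC858.Th_mul hc.symm, hK.mul x p m hpp hp.squarefree hm]
      have : Th 1 p = 1 := by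
        unfold HP842.Th
        rw [if_pos ⟨hp.squarefree, isCoprime_one_right⟩]
      rw [this]; ring
    · have h1 : Th 1 (p * m) = 0 := by
        unfold HP842.Th
        rw [if_neg]
        rintro ⟨h, _⟩
        rw [squarefree_mul_iff] at h
        exact hc (isRelPrime_iff_isCoprime.1 h.1).symm
      have h2 : K (x * p) m = 0 := by
        refine hK.cop _ m hm fun h => hc (h.of_mul_right_right)
      rw [h1, h2]; ring⟩

lemma Kg_cube (x p m : Eis) (hp : Prime p) (_ : IsPrim p) (hm : IsPrim m) (hc : IsCoprime m p) :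
    Kg (x * p ^ 3) m = Kg x m := by
  unfold HP842.Kg
  rw [sy_mul_cube hp hm, if_neg ((cop_iff hp).1 hc)]

/-! ### linear forms -/

/-- the linear form of a weight -/
def Lam (w : Eis → ℂ) (α : Eis → ℂ) : ℂ := ∑' n : Eis, α n * w n

lemma Lam_CS (α : Eis → ℂ) (k : Eis) : Lam (fun m => sy k m) α = CS α k := rfl

lemma Lam_KS (K : Eis → Eis → ℂ) (α : Eis → ℂ) (x : Eis) :
    Lam (fun m => Th 1 m * K x m) α = KS K (sqc 1 α) x := by
  unfold Lam HP842.KS HP842.sqc
  exact tsum_congr fun n => by ring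

lemma Lam_smul (w : Eis → ℂ) (c : ℂ) (α : Eis → ℂ) :
    Lam w (fun n => c * α n) = c * Lam w α := by
  unfold Lam
  rw [← tsum_mul_left]
  exact tsum_congr fun n => by ring

lemma Lam_congr {w w' : Eis → ℂ} {α : Eis → ℂ} (h : ∀ n, α n ≠ 0 → w n = w' n) :
    Lam w α = Lam w' α := by
  unfold Lam
  refine tsum_congr fun n => ?_
  by_cases hn : α n = 0
  · rw [hn]; ring
  · rw [h n hn]

lemma Lam_add {w : Eis → ℂ} {α β : Eis → ℂ} (hα : FS α) (hβ : FS β) :
    Lam w (fun n => α n + β n) = Lam w α + Lam w β := by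
  unfold Lam
  rw [← Summable.tsum_add (hα.summable _) (hβ.summable _)]
  exact tsum_congr fun n => by ring

lemma FS_smul {α : Eis → ℂ} (h : FS α) (c : ℂ) : FS (fun n => c * α n) where
  fin := h.fin.subset fun n hn h0 => hn (by
    show c * α n = 0
    rw [h0, mul_zero])
  prim := fun n hn => h.prim n (right_ne_zero_of_mul hn)

lemma FS_add {α β : Eis → ℂ} (hα : FS α) (hβ : FS β) : FS (fun n => α n + β n) where
  fin := (hα.fin.union hβ.fin).subset fun n hn => by
    by_contra h
    rw [Set.mem_union, not_or] at h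
    apply hn
    show α n + β n = 0
    rw [Function.notMem_support.1 h.1, Function.notMem_support.1 h.2, add_zero]
  prim := fun n hn => by
    by_cases h : α n = 0
    · rw [h, zero_add] at hn
      exact hβ.prim n hn
    · exact hα.prim n h

lemma FS_zero : FS (fun _ => 0) where
  fin := by
    have : Function.support (fun _ : Eis => (0 : ℂ)) = ∅ := by
      ext n; simp
    rw [this]; exact Set.finite_empty
  prim := fun n hn => absurd rfl hn

/-- **the split** of a linear form -/
theorem Lam_split {w : Eis → Eis → ℂ} {e : ℕ} (hw : Wt3 w e) {α : Eis → ℂ} (h : FS α) {p : Eis}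
    (hp : Prime p) (hpp : IsPrim p) (x : Eis) : ∃ c : ℂ, ‖c‖ ≤ 1 ∧
      Lam (w x) α = Lam (w (x * p ^ 3)) α + c * Lam (w (x * p ^ e)) (sub α p) := by
  classical
  obtain ⟨c, hc, hcm⟩ := hw.c3 x p hp hpp
  refine ⟨c, hc, ?_⟩
  have h1 : c * Lam (w (x * p ^ e)) (sub α p) =
      ∑' m : Eis, (if p ∣ m then α m * w x m else 0) := by
    rw [← tsum_mult hp.ne_zero (fun m => α m * w x m)]
    unfold Lam
    rw [← tsum_mul_left]
    refine tsum_congr fun m => ?_
    unfold sub
    by_cases hm : α (p * m) = 0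
    · rw [hm]; ring
    · have hm' : IsPrim m := (h.prim _ hm).of_mul_left hpp
      rw [hcm m hm']
      ring
  rw [h1]
  unfold Lam
  rw [← Summable.tsum_add (h.summable _)]
  · refine tsum_congr fun m => ?_
    by_cases hm : α m = 0
    · rw [hm]; simp
    · have hmp := h.prim m hm
      by_cases hd : p ∣ m
      · rw [if_pos hd, hw.c2 x p m hp hpp hmp (fun hc => (cop_iff hp).1 hc hd)]; ring
      · rw [if_neg hd, hw.c1 x p m hp hpp hmp ((cop_iff hp).2 hd)]; ring
  · refine summable_of_hasFiniteSupport (h.fin.subset ?_)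
    intro m hm h0
    apply hm
    have h0' : α m = 0 := h0
    simp [h0']

/-! ### sub-sequences of convolutions at a prime -/

lemma FS_cop {α : Eis → ℂ} (h : FS α) (q : Eis) : FS (cop q α) := HP842.FS.cop h q

/-- **Leibniz rule** at a prime -/
theorem sub_conv {a b : Eis → ℂ} (ha : FS a) (hb : FS b) {p : Eis} (hp : Prime p)
    (hpp : IsPrim p) :
    sub (conv a b) p = fun n => conv (sub a p) b n + conv (cop p a) (sub b p) n := by
  classical
  have hab := XC858.FS_conv ha hb
  refine ext_tsum fun f => ?_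
  -- left side
  have e1 : ∑' n, sub (conv a b) p n * f n =
      ∑' n, conv a b n * (if p ∣ n then f (n / p) else 0) := by
    have := tsum_mult hp.ne_zero (fun n => conv a b n * f (n / p))
    have e2 : ∀ n, sub (conv a b) p n * f n = conv a b (p * n) * f (p * n / p) := by
      intro n
      unfold sub
      rw [TP320.mul_div_left' hp.ne_zero]
    rw [tsum_congr e2, this]
    refine tsum_congr fun n => ?_
    split_ifs <;> simp
  rw [e1, tsum_conv' ha hb]
  have hs1 : FS (conv (sub a p) b) := XC858.FS_conv (ha.sub hpp) hb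
  have hs2 : FS (conv (cop p a) (sub b p)) := XC858.FS_conv (FS_cop ha p) (hb.sub hpp)
  have e3 : ∑' n, (conv (sub a p) b n + conv (cop p a) (sub b p) n) * f n =
      (∑' n, conv (sub a p) b n * f n) + ∑' n, conv (cop p a) (sub b p) n * f n := by
    rw [← Summable.tsum_add (hs1.summable _) (hs2.summable _)]
    exact tsum_congr fun n => by ring
  rw [e3, tsum_conv' (ha.sub hpp) hb, tsum_conv' (FS_cop ha p) (hb.sub hpp)]
  -- the part `p ∣ x`
  have e4 : ∑' x, sub a p x * ∑' y, b y * f (x * y) =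
      ∑' x, a x * (if p ∣ x then ∑' y, b y * f (x / p * y) else 0) := by
    have := tsum_mult hp.ne_zero (fun x => a x * ∑' y, b y * f (x / p * y))
    have e2 : ∀ x, sub a p x * ∑' y, b y * f (x * y) =
        a (p * x) * ∑' y, b y * f (p * x / p * y) := by
      intro x
      unfold sub
      rw [TP320.mul_div_left' hp.ne_zero]
    rw [tsum_congr e2, this]
    refine tsum_congr fun n => ?_
    split_ifs <;> simp
  have e5 : ∀ x, ∑' y, sub b p y * f (x * y) =
      ∑' y, b y * (if p ∣ y then f (x * (y / p)) else 0) := by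
    intro x
    have := tsum_mult hp.ne_zero (fun y => b y * f (x * (y / p)))
    have e2 : ∀ y, sub b p y * f (x * y) = b (p * y) * f (x * (p * y / p)) := by
      intro y
      unfold sub
      rw [TP320.mul_div_left' hp.ne_zero]
    rw [tsum_congr e2, this]
    refine tsum_congr fun n => ?_
    split_ifs <;> simp
  rw [e4]
  simp_rw [e5]
  have hsum : ∀ g : Eis → ℂ, Summable fun x => a x * g x := fun g => ha.summable g
  have e6 : ∀ x, cop p a x * ∑' y, b y * (if p ∣ y then f (x * (y / p)) else 0) =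
      a x * ((if IsCoprime x p then 1 else 0) *
        ∑' y, b y * (if p ∣ y then f (x * (y / p)) else 0)) := by
    intro x
    unfold HP842.cop
    split_ifs <;> ring
  rw [tsum_congr e6, ← Summable.tsum_add (hsum _) (hsum _)]
  refine tsum_congr fun x => ?_
  rw [← mul_add]
  by_cases hx : a x = 0
  · rw [hx]; ring
  congr 1
  by_cases hd : p ∣ x
  · rw [if_pos hd, if_neg (fun h => (cop_iff hp).1 h hd), zero_mul, add_zero]
    refine tsum_congr fun y => ?_
    rw [if_pos (hd.mul_right y)]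
    obtain ⟨x', rfl⟩ := hd
    rw [mul_assoc, TP320.mul_div_left' hp.ne_zero, TP320.mul_div_left' hp.ne_zero]
  · rw [if_neg hd, if_pos ((cop_iff hp).2 hd), zero_add, one_mul]
    refine tsum_congr fun y => ?_
    by_cases hy : p ∣ y
    · rw [if_pos (hy.mul_left x), if_pos hy]
      obtain ⟨y', rfl⟩ := hy
      rw [TP320.mul_div_left' hp.ne_zero, show x * (p * y') = p * (x * y') by ring,
        TP320.mul_div_left' hp.ne_zero]
    · rw [if_neg (fun h => (hp.dvd_or_dvd h).elim hd hy), if_neg hy]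

lemma sub_dl {p : Eis} (hp : Prime p) : sub dl p = fun _ => 0 := by
  funext m
  unfold sub
  refine HP842.dl_ne fun h => hp.not_isUnit ?_
  exact IsUnit.of_mul_eq_one m h

/-! ### lists -/

/-- multiply the modulus -/
def twq (p : Eis) (hp : p ≠ 0) (Q : Pq) : Pq := ⟨Q.kd, Q.u, Q.d * p, mul_ne_zero Q.d0 hp, Q.z, Q.t⟩

/-- shorten a lump -/
def sbq (p : Eis) (Q : Pq) : Pq := ⟨Q.kd, Q.u, Q.d, Q.d0, Q.z - Real.log (nm p), Q.t⟩

/-- the shortened lists, with scalars -/
def mkp (P : DPar) (p : Eis) (hp : p ≠ 0) : List Pq → List (ℂ × List Pq)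
  | [] => []
  | Q :: us => (sc' (Q.pc P) p, sbq p Q :: us) ::
      (mkp P p hp us).map fun x => (x.1, twq p hp Q :: x.2)

lemma mkp_nil (P : DPar) (p : Eis) (hp : p ≠ 0) : mkp P p hp [] = [] := rfl

lemma mkp_cons (P : DPar) (p : Eis) (hp : p ≠ 0) (Q : Pq) (us : List Pq) :
    mkp P p hp (Q :: us) = (sc' (Q.pc P) p, sbq p Q :: us) ::
      (mkp P p hp us).map fun x => (x.1, twq p hp Q :: x.2) := rfl

lemma mkp_length (P : DPar) (p : Eis) (hp : p ≠ 0) (us : List Pq) :
    (mkp P p hp us).length = us.length := by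
  induction us with
  | nil => rfl
  | cons Q us ih => simp [mkp, ih]

lemma prin0_mul (a b n : Eis) : prin0 (a * b) n = prin0 a n * prin0 b n := by
  classical
  unfold prin0
  by_cases h1 : IsCoprime n a
  · by_cases h2 : IsCoprime n b
    · rw [if_pos h1, if_pos h2, if_pos (h1.mul_right h2), one_mul]
    · rw [if_neg h2, if_neg (fun h => h2 h.of_mul_right_right), mul_zero]
  · rw [if_neg h1, if_neg (fun h => h1 h.of_mul_right_left), zero_mul]

section

variable {P : DPar} {h : ℝ → ℝ} {p : Eis}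

lemma cop_pc (hp : p ≠ 0) (Q : Pq) : cop p (pc h (Q.pc P)) = pc h ((twq p hp Q).pc P) := by
  classical
  funext n
  have e : prin0 p n = if IsCoprime n p then (1 : ℂ) else 0 := by unfold prin0; rfl
  unfold HP842.cop HP842.pc
  by_cases hn : IsPrim n
  · rw [if_pos hn, if_pos hn]
    show _ = uv Q.u n * (chK P Q.kd n * prin0 (Q.d * p) n) * HSep813.gw h (Real.exp Q.z) Q.t n
    rw [prin0_mul, e]
    show (if IsCoprime n p then uv Q.u n * (chK P Q.kd n * prin0 Q.d n) *
      HSep813.gw h (Real.exp Q.z) Q.t n else 0) = _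
    split_ifs <;> ring
  · rw [if_neg hn, if_neg hn]
    split_ifs <;> rfl

lemma sub_pc (hP : P.OK) (hpp : IsPrim p) {Q : Pq} (hQ : Q.u = .one) :
    sub (pc h (Q.pc P)) p = fun n => sc' (Q.pc P) p * pc h ((sbq p Q).pc P) n := by
  funext n
  unfold sub
  rw [HP842.pc_mul h (Pq.ok hP Q).ch (Pq.ok hP Q).Y0 hpp]
  congr 2
  unfold HP842.Pc.sub HP842.UT.sub HP842.psub
  have hn : (0 : ℝ) < nm p := by exact_mod_cast nm_pos.2 hpp.ne_zero
  simp only [Pq.pc_u, Pq.pc_Y, Pq.pc_t, Pq.pc_ψ, hQ]
  unfold Pq.pc sbq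
  simp only [reduceCtorEq, false_and, if_false, or_self, hQ]
  rw [Real.exp_sub, Real.exp_log hn]

lemma sub_pc_zero {R : ℝ} (hR : ∀ u, cx h u ≠ 0 → |u| ≤ R) (hP : P.OK) (hpp : IsPrim p) {Q : Pq}
    (hQ : Q.z + R < Real.log (nm p)) : sub (pc h (Q.pc P)) p = fun _ => 0 := by
  classical
  funext n
  unfold sub
  by_contra hne
  have hn : IsPrim (p * n) := (HP842.FS_pc hR (Pq.ok hP Q)).prim _ hne
  unfold HP842.pc at hne
  rw [if_pos hn] at hne
  have h1 := right_ne_zero_of_mul hne
  unfold HSep813.gw at h1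
  have h2 := hR _ (right_ne_zero_of_mul h1)
  have h3 : (Q.pc P).Y = Real.exp Q.z := rfl
  rw [h3, Real.log_exp] at h2
  have h4 := (abs_le.1 h2).2
  have h5 : (nm p : ℝ) ≤ nm (p * n) := by
    rw [nm_mul]
    have : 0 < nm n := nm_pos.2 (right_ne_zero_of_mul hn.ne_zero)
    exact_mod_cast Nat.le_mul_of_pos_right _ this
  have h6 : (0 : ℝ) < nm p := by exact_mod_cast nm_pos.2 hpp.ne_zero
  have h7 := Real.log_le_log h6 h5
  linarith

lemma fsq {h : ℝ → ℝ} (hh : Bump h) (hP : P.OK) (ps : List Pq) :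
    FS (alL h (ps.map (Pq.pc P))) := by
  refine fs_alL hh fun q hq => ?_
  obtain ⟨Q, _, rfl⟩ := List.mem_map.1 hq
  exact Pq.ok hP Q

lemma conv_zero (a : Eis → ℂ) : conv a (fun _ => 0) = fun _ => 0 := by
  funext n; unfold TP320.conv; simp

lemma zero_conv (b : Eis → ℂ) : conv (fun _ => 0) b = fun _ => 0 := by
  funext n; unfold TP320.conv; simp

lemma smul_conv (c : ℂ) (a b : Eis → ℂ) :
    conv (fun n => c * a n) b = fun n => c * conv a b n := by
  funext n; unfold TP320.conv
  rw [Finset.mul_sum]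
  exact Finset.sum_congr rfl fun x _ => by ring

/-- the granular part has no multiples of `p` -/
lemma sub_gran (hh : Bump h) (hP : P.OK) (hp : Prime p) (hpp : IsPrim p) {gs : List Pq}
    (hgs : ∀ g ∈ gs, sub (pc h (g.pc P)) p = fun _ => 0) :
    sub (alL h (gs.map (Pq.pc P))) p = fun _ => 0 := by
  induction gs with
  | nil => exact sub_dl hp
  | cons g gs ih =>
    have h1 := ih fun g' hg' => hgs g' (List.mem_cons_of_mem _ hg')
    rw [List.map_cons, alL_cons, sub_conv (fs_pc hh (Pq.ok hP g)) (fsq hh hP gs) hp hpp, h1,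
      hgs g List.mem_cons_self, conv_zero, zero_conv]
    simp

/-- **sub-sequence of a side at a prime** -/
theorem sub_alL (hh : Bump h) (hP : P.OK) (hp : Prime p) (hpp : IsPrim p) {us gs : List Pq}
    (hus : ∀ Q ∈ us, Q.u = .one) (hgs : ∀ g ∈ gs, sub (pc h (g.pc P)) p = fun _ => 0) :
    sub (alL h ((us ++ gs).map (Pq.pc P))) p = fun n =>
      ((mkp P p hp.ne_zero us).map fun x => x.1 * alL h ((x.2 ++ gs).map (Pq.pc P)) n).sum := by
  induction us with
  | nil =>
    rw [List.nil_append, sub_gran hh hP hp hpp hgs]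
    rfl
  | cons Q us ih =>
    have h1 := ih fun g' hg' => hus g' (List.mem_cons_of_mem _ hg')
    rw [List.cons_append, List.map_cons, alL_cons,
      sub_conv (fs_pc hh (Pq.ok hP Q)) (fsq hh hP (us ++ gs)) hp hpp, h1,
      sub_pc hP hpp (hus Q List.mem_cons_self), smul_conv, cop_pc hp.ne_zero]
    funext n
    rw [mkp_cons, List.map_cons, List.sum_cons, List.map_map]
    congr 1
    -- linearity in the second factor
    have key : ∀ (a : Eis → ℂ) (xs : List (ℂ × List Pq)),
        conv a (fun n => (xs.map fun x => x.1 * alL h ((x.2 ++ gs).map (Pq.pc P)) n).sum) n =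
        (xs.map fun x => x.1 * conv a (alL h ((x.2 ++ gs).map (Pq.pc P))) n).sum := by
      intro a xs
      induction xs with
      | nil => unfold TP320.conv; simp
      | cons x xs ih =>
        simp only [List.map_cons, List.sum_cons]
        rw [← ih]
        unfold TP320.conv
        rw [Finset.mul_sum, ← Finset.sum_add_distrib]
        exact Finset.sum_congr rfl fun y _ => by ring
    rw [key]
    rfl

lemma mkp_norm (hP : P.OK) (hpp : IsPrim p) (us : List Pq) :
    ∀ x ∈ mkp P p hpp.ne_zero us, ‖x.1‖ ≤ 1 := by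
  induction us with
  | nil => intro x hx; simp [mkp] at hx
  | cons Q us ih =>
    intro x hx
    rw [mkp_cons] at hx
    rcases List.mem_cons.1 hx with rfl | hx
    · exact HP842.norm_sc'_le (Pq.ok hP Q).ch hpp
    · obtain ⟨y, hy, rfl⟩ := List.mem_map.1 hx
      exact ih y hy

lemma Lam_list (hh : Bump h) (hP : P.OK) (w : Eis → ℂ) (gs : List Pq)
    (xs : List (ℂ × List Pq)) :
    Lam w (fun n => (xs.map fun x => x.1 * alL h ((x.2 ++ gs).map (Pq.pc P)) n).sum) =
      (xs.map fun x => x.1 * Lam w (alL h ((x.2 ++ gs).map (Pq.pc P)))).sum ∧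
    FS (fun n => (xs.map fun x => x.1 * alL h ((x.2 ++ gs).map (Pq.pc P)) n).sum) := by
  induction xs with
  | nil =>
    refine ⟨?_, FS_zero⟩
    unfold Lam
    simp
  | cons x xs ih =>
    obtain ⟨ih1, ih2⟩ := ih
    have h1 := FS_smul (fsq hh hP (x.2 ++ gs)) x.1
    simp only [List.map_cons, List.sum_cons]
    refine ⟨?_, FS_add h1 ih2⟩
    rw [Lam_add h1 ih2, ih1, Lam_smul]

/-- **the pointwise step** -/
theorem Lam_step {w : Eis → Eis → ℂ} {e : ℕ} (hw : Wt3 w e) (hh : Bump h) (hP : P.OK)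
    (hp : Prime p) (hpp : IsPrim p) {us gs : List Pq} (hus : ∀ Q ∈ us, Q.u = .one)
    (hgs : ∀ g ∈ gs, sub (pc h (g.pc P)) p = fun _ => 0) (x : Eis) :
    ‖Lam (w x) (alL h ((us ++ gs).map (Pq.pc P)))‖ ≤
      ‖Lam (w (x * p ^ 3)) (alL h ((us ++ gs).map (Pq.pc P)))‖ +
      ((mkp P p hp.ne_zero us).map fun y =>
        ‖Lam (w (x * p ^ e)) (alL h ((y.2 ++ gs).map (Pq.pc P)))‖).sum := by
  obtain ⟨c, hc, hsp⟩ := Lam_split hw (fsq hh hP (us ++ gs)) hp hpp x
  rw [hsp]
  refine (norm_add_le _ _).trans (add_le_add le_rfl ?_)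
  rw [sub_alL hh hP hp hpp hus hgs, (Lam_list hh hP (w (x * p ^ e)) gs _).1, norm_mul]
  have h1 := mkp_norm hP hpp us
  have key : ∀ xs : List (ℂ × List Pq), (∀ x ∈ xs, ‖x.1‖ ≤ 1) →
      ‖(xs.map fun y => y.1 * Lam (w (x * p ^ e)) (alL h ((y.2 ++ gs).map (Pq.pc P)))).sum‖ ≤
      (xs.map fun y => ‖Lam (w (x * p ^ e)) (alL h ((y.2 ++ gs).map (Pq.pc P)))‖).sum := by
    intro xs hxs
    induction xs with
    | nil => simp
    | cons y ys ih =>
      simp only [List.map_cons, List.sum_cons]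
      refine (norm_add_le _ _).trans (add_le_add ?_ (ih fun z hz => hxs z
        (List.mem_cons_of_mem _ hz)))
      rw [norm_mul]
      exact mul_le_of_le_one_left (norm_nonneg _) (hxs y List.mem_cons_self)
  calc ‖c‖ * _ ≤ 1 * _ := mul_le_mul_of_nonneg_right hc (norm_nonneg _)
    _ ≤ _ := by rw [one_mul]; exact key _ h1

end

end Crest.Agent.R017.Mono858
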