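import Crest.Agent.R017.Mono1_858

/-!
# Row 17: monotonicity for lists of typed pieces (helper858)

* `FQ w Q P h l ps = ∑_{x ∈ bl (exp l), Q x} ‖Lam (w x) (alL h ps)‖²`
* `FQ_step` : the averaged step
* `BG_mono` : monotonicity of the robust exponents
-/

set_option autoImplicit false
set_option linter.unusedSectionVars false

noncomputable section

open Complex Filter Topology
open scoped ComplexConjugate

namespace Crest.Agent.R017.Mono858

open Crest.Agent.R012 Crest.Agent.R012.Eis Crest.Agent.R012.LS2 Crest.Agent.R012.Gauss880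
open Crest.Agent.R012.Div277 (tau dvs mem_dvs tau_le_rpow)
open Crest.Agent.R017.CM106 Crest.Agent.R017.FE47 Crest.Agent.R017.End699
open Crest.Agent.R017.HP842 (Ker ker_Kg KS sqc Kg pc dl alL alL_cons uv sc' cop Th)
open Crest.Agent.R017.XG702 (Pcs BG Loc Near_mono Gran_mono Good_mono Good_sub Good_perm)
open Crest.Agent.R017.B770
open Crest.Agent.R017.Prov71
open Crest.Agent.R017.PLow271 (shortP mem_shortP card_shortP)

open Classical in
/-- the functional of a weight -/
def FQ (w : Eis → Eis → ℂ) (Q : Eis → Prop) (P : DPar) (h : ℝ → ℝ) (l : ℝ) (ps : List Pq) : ℝ :=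
  ∑ x ∈ (bl (Real.exp l)).filter Q, ‖Lam (w x) (alL h (ps.map (Pq.pc P)))‖ ^ 2

section

variable {P : DPar} {h : ℝ → ℝ} {w : Eis → Eis → ℂ} {e : ℕ}

lemma FQ_nonneg (Q : Eis → Prop) (l : ℝ) (ps : List Pq) : 0 ≤ FQ w Q P h l ps :=
  Finset.sum_nonneg fun _ _ => by positivity

lemma FQ_mono_set {Q Q' : Eis → Prop} (hQ : ∀ k, Q k → Q' k) (l : ℝ) (ps : List Pq) :
    FQ w Q P h l ps ≤ FQ w Q' P h l ps := by
  classical
  unfold FQ
  refine Finset.sum_le_sum_of_subset_of_nonneg ?_ fun k _ _ => by positivity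
  intro k hk
  rw [Finset.mem_filter] at hk ⊢
  exact ⟨hk.1, hQ k hk.2⟩

lemma FQ_true (l : ℝ) (ps : List Pq) : FQ w (fun _ => True) P h l ps =
    ∑ x ∈ bl (Real.exp l), ‖Lam (w x) (alL h (ps.map (Pq.pc P)))‖ ^ 2 := by
  classical
  unfold FQ
  refine Finset.sum_congr ?_ fun _ _ => rfl
  ext x
  simp

lemma FQ_zero {Q : Eis → Prop} {l : ℝ} {ps : List Pq}
    (h0 : alL h (ps.map (Pq.pc P)) = fun _ => 0) : FQ w Q P h l ps = 0 := by
  unfold FQ
  refine Finset.sum_eq_zero fun x _ => ?_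
  rw [h0]
  unfold Lam
  simp

/-- Cauchy-Schwarz for lists -/
lemma sq_list (a : ℝ) (bs : List ℝ) :
    (a + bs.sum) ^ 2 ≤ (bs.length + 1) * (a ^ 2 + (bs.map fun b => b ^ 2).sum) := by
  have key : ∀ bs : List ℝ, bs.sum ^ 2 ≤ bs.length * (bs.map fun b => b ^ 2).sum ∧
      0 ≤ (bs.map fun b => b ^ 2).sum := by
    intro bs
    induction bs with
    | nil => simp
    | cons b bs ih =>
      obtain ⟨h1, h2⟩ := ih
      rw [List.sum_cons, List.map_cons, List.sum_cons, List.length_cons]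
      push_cast
      set n : ℝ := (bs.length : ℝ) with hn
      have hn0 : 0 ≤ n := Nat.cast_nonneg _
      set S := bs.sum
      set T := (bs.map fun b => b ^ 2).sum
      refine ⟨?_, by positivity⟩
      have h3 : 2 * b * S ≤ n * b ^ 2 + T := by
        rcases hn0.eq_or_lt with h | h
        · rw [← h] at h1
          have : S = 0 := by nlinarith
          rw [this]
          nlinarith
        · have h4 : n * (n * b ^ 2 + T - 2 * b * S) ≥ 0 := by nlinarith [sq_nonneg (n * b - S)]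
          have := nonneg_of_mul_nonneg_right h4 h
          linarith
      nlinarith
  obtain ⟨h1, h2⟩ := key bs
  set n : ℝ := (bs.length : ℝ) with hn
  have hn0 : 0 ≤ n := Nat.cast_nonneg _
  set S := bs.sum
  set T := (bs.map fun b => b ^ 2).sum
  have h3 : 2 * a * S ≤ n * a ^ 2 + T := by
    rcases hn0.eq_or_lt with h | h
    · rw [← h] at h1
      have : S = 0 := by nlinarith
      rw [this]
      nlinarith
    · have h4 : n * (n * a ^ 2 + T - 2 * a * S) ≥ 0 := by nlinarith [sq_nonneg (n * a - S)]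
      have := nonneg_of_mul_nonneg_right h4 h
      linarith
  nlinarith

/-- shifting the family by `p^e` -/
lemma FQ_shift {Q Q' : Eis → Prop} {p : Eis} (hp : p ≠ 0) (hQ : ∀ x, Q x → Q' (x * p ^ e)) (l : ℝ)
    (ps : List Pq) [DecidablePred Q] :
    ∑ x ∈ (bl (Real.exp l)).filter Q, ‖Lam (w (x * p ^ e)) (alL h (ps.map (Pq.pc P)))‖ ^ 2 ≤
      FQ w Q' P h (l + e * Real.log (nm p)) ps := by
  classical
  have hn : (0 : ℝ) < nm p := by exact_mod_cast nm_pos.2 hp
  have he : Real.exp (l + e * Real.log (nm p)) = Real.exp l * (nm p : ℝ) ^ e := by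
    rw [Real.exp_add, mul_comm (e : ℝ), Real.exp_mul, Real.exp_log hn, Real.rpow_natCast]
  unfold FQ
  rw [he]
  have hinj : Set.InjOn (fun x : Eis => x * p ^ e) ((bl (Real.exp l)).filter Q) := by
    intro x _ y _ hxy
    exact mul_right_cancel₀ (pow_ne_zero e hp) hxy
  rw [← Finset.sum_image (f := fun y => ‖Lam (w y) (alL h (ps.map (Pq.pc P)))‖ ^ 2) hinj]
  refine Finset.sum_le_sum_of_subset_of_nonneg ?_ fun _ _ _ => by positivity
  intro y hy
  obtain ⟨x, hx, rfl⟩ := Finset.mem_image.1 hy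
  rw [Finset.mem_filter, mem_bl (Real.exp_pos _).le] at hx
  rw [Finset.mem_filter, mem_bl (by positivity)]
  refine ⟨⟨mul_ne_zero hx.1.1 (pow_ne_zero e hp), ?_⟩, hQ x hx.2⟩
  rw [nm_mul]
  rw [nm_pow]
  push_cast
  exact mul_le_mul_of_nonneg_right hx.1.2 (by positivity)

/-- **the averaged step** -/
theorem FQ_step (hw : Wt3 w e) (hh : Bump h) (hP : P.OK) {Q Q' : Eis → Prop}
    (hQ : ∀ x p, Q x → Prime p → Q' (x * p ^ e)) {A : Finset Eis} (hA : A.Nonempty) {Pm : ℝ}
    (hPm : 0 ≤ Pm) (hAp : ∀ p ∈ A, Prime p ∧ IsPrim p ∧ (nm p : ℝ) ≤ Pm) {us gs : List Pq}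
    (hus : ∀ q ∈ us, q.u = .one)
    (hgs : ∀ p ∈ A, ∀ g ∈ gs, sub (pc h (g.pc P)) p = fun _ => 0) (l : ℝ) :
    ∃ p ∈ A, ∃ hp : p ≠ 0, FQ w Q P h l (us ++ gs) ≤ (us.length + 1) *
      ((A.card : ℝ)⁻¹ * ∑ r ∈ bl (Real.exp l * Pm ^ 3), (tau r : ℝ) *
        ‖Lam (w r) (alL h ((us ++ gs).map (Pq.pc P)))‖ ^ 2 +
      ((mkp P p hp us).map fun y => FQ w Q' P h (l + e * Real.log (nm p)) (y.2 ++ gs)).sum) := by
  classical
  set n : ℝ := (us.length : ℝ) with hn
  have hn0 : 0 ≤ n := Nat.cast_nonneg _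
  set f : Eis → ℝ := fun p => if hp : p ≠ 0 then
    ((mkp P p hp us).map fun y => FQ w Q' P h (l + e * Real.log (nm p)) (y.2 ++ gs)).sum else 0
    with hf
  set V : Eis → ℝ := fun x => ‖Lam (w x) (alL h ((us ++ gs).map (Pq.pc P)))‖ ^ 2 with hV
  have hAc : (0 : ℝ) < A.card := by exact_mod_cast hA.card_pos
  -- one prime
  have h1 : ∀ p ∈ A, FQ w Q P h l (us ++ gs) ≤ (n + 1) *
      (∑ x ∈ bl (Real.exp l), V (x * p ^ 3) + f p) := by
    intro p hpA
    obtain ⟨hp, hpp, _⟩ := hAp p hpA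
    have h2 : ∀ x, V x ≤ (n + 1) * (V (x * p ^ 3) + ((mkp P p hp.ne_zero us).map fun y =>
        ‖Lam (w (x * p ^ e)) (alL h ((y.2 ++ gs).map (Pq.pc P)))‖ ^ 2).sum) := by
      intro x
      have h3 := Lam_step hw hh hP hp hpp hus (hgs p hpA) x
      have h4 := sq_list ‖Lam (w (x * p ^ 3)) (alL h ((us ++ gs).map (Pq.pc P)))‖
        ((mkp P p hp.ne_zero us).map fun y =>
          ‖Lam (w (x * p ^ e)) (alL h ((y.2 ++ gs).map (Pq.pc P)))‖)
      rw [List.length_map, mkp_length, List.map_map] at h4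
      exact (pow_le_pow_left₀ (norm_nonneg _) h3 2).trans h4
    have e1 : FQ w Q P h l (us ++ gs) = ∑ x ∈ (bl (Real.exp l)).filter Q, V x := rfl
    rw [e1]
    refine (Finset.sum_le_sum fun x _ => h2 x).trans ?_
    rw [← Finset.mul_sum]
    refine mul_le_mul_of_nonneg_left ?_ (by linarith)
    rw [Finset.sum_add_distrib]
    refine add_le_add ?_ ?_
    · exact Finset.sum_le_sum_of_subset_of_nonneg (Finset.filter_subset _ _)
        fun _ _ _ => by positivity
    · have e2 : f p = ((mkp P p hp.ne_zero us).map fun y =>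
          FQ w Q' P h (l + e * Real.log (nm p)) (y.2 ++ gs)).sum := by
        rw [hf]
        exact dif_pos hp.ne_zero
      rw [e2]
      have key : ∀ xs : List (ℂ × List Pq),
          ∑ x ∈ (bl (Real.exp l)).filter Q, (xs.map fun y =>
            ‖Lam (w (x * p ^ e)) (alL h ((y.2 ++ gs).map (Pq.pc P)))‖ ^ 2).sum ≤
          (xs.map fun y => FQ w Q' P h (l + e * Real.log (nm p)) (y.2 ++ gs)).sum := by
        intro xs
        induction xs with
        | nil => simp
        | cons y ys ih =>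
          simp only [List.map_cons, List.sum_cons]
          rw [Finset.sum_add_distrib]
          exact add_le_add (FQ_shift hp.ne_zero (fun x hx => hQ x p hx hp) l _) ih
      exact key _
  -- average
  have h5 : ∑ p ∈ A, ∑ x ∈ bl (Real.exp l), V (x * p ^ 3) ≤
      ∑ r ∈ bl (Real.exp l * Pm ^ 3), (tau r : ℝ) * V r :=
    merge_cube hPm (Real.exp_pos _).le (fun p hp => ⟨(hAp p hp).2.1, (hAp p hp).2.2⟩) V
      fun r => by positivity
  set M := ∑ r ∈ bl (Real.exp l * Pm ^ 3), (tau r : ℝ) * V r with hM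
  have h6 : ∑ _p ∈ A, FQ w Q P h l (us ++ gs) ≤
      ∑ p ∈ A, (n + 1) * ((A.card : ℝ)⁻¹ * M + f p) := by
    refine (Finset.sum_le_sum h1).trans ?_
    rw [← Finset.mul_sum, ← Finset.mul_sum, Finset.sum_add_distrib, Finset.sum_add_distrib,
      Finset.sum_const, nsmul_eq_mul, ← mul_assoc, mul_inv_cancel₀ hAc.ne', one_mul]
    exact mul_le_mul_of_nonneg_left (add_le_add h5 le_rfl) (by linarith)
  obtain ⟨p, hpA, hle⟩ := Finset.exists_le_of_sum_le hA h6
  have hp0 : p ≠ 0 := (hAp p hpA).1.ne_zero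
  refine ⟨p, hpA, hp0, ?_⟩
  have e2 : f p = ((mkp P p hp0 us).map fun y =>
      FQ w Q' P h (l + e * Real.log (nm p)) (y.2 ++ gs)).sum := by
    rw [hf]
    exact dif_pos hp0
  rw [e2] at hle
  exact hle

/-! ### the shortened lists -/

lemma mem_mkp {p : Eis} {hp : p ≠ 0} {us : List Pq} {y : ℂ × List Pq}
    (hy : y ∈ mkp P p hp us) : ∃ us₁ q us₂, us = us₁ ++ q :: us₂ ∧
      y.2 = us₁.map (twq p hp) ++ sbq p q :: us₂ := by
  induction us generalizing y with
  | nil => simp [mkp_nil] at hy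
  | cons q us ih =>
    rw [mkp_cons] at hy
    rcases List.mem_cons.1 hy with rfl | hy
    · exact ⟨[], q, us, rfl, rfl⟩
    · obtain ⟨z, hz, rfl⟩ := List.mem_map.1 hy
      obtain ⟨us₁, q', us₂, h1, h2⟩ := ih hz
      refine ⟨q :: us₁, q', us₂, ?_, ?_⟩
      · rw [h1]; rfl
      · show twq p hp q :: z.2 = _
        rw [h2]; rfl

/-- pieces of very negative length vanish -/
lemma pc_zero {R : ℝ} (hR : ∀ u, cx h u ≠ 0 → |u| ≤ R) {q : Pq} (hq : q.z + R < 0) :
    pc h (q.pc P) = fun _ => 0 := by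
  classical
  funext n
  by_contra hne
  unfold HP842.pc at hne
  split_ifs at hne with hn
  · have h1 := right_ne_zero_of_mul hne
    unfold HSep813.gw at h1
    have h2 := hR _ (right_ne_zero_of_mul h1)
    have h3 : (q.pc P).Y = Real.exp q.z := rfl
    rw [h3, Real.log_exp] at h2
    have h4 := (abs_le.1 h2).2
    have h5 : (1 : ℝ) ≤ nm n := by exact_mod_cast nm_pos.2 hn.ne_zero
    have h6 := Real.log_nonneg h5
    linarith
  · exact hne rfl

lemma alL_zero {L : List Pq} {q : Pq} (hq : q ∈ L) (h0 : pc h (q.pc P) = fun _ => 0) :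
    alL h (L.map (Pq.pc P)) = fun _ => 0 := by
  induction L with
  | nil => simp at hq
  | cons a L ih =>
    rw [List.map_cons, alL_cons]
    rcases List.mem_cons.1 hq with rfl | hq
    · rw [h0, zero_conv]
    · rw [ih hq, conv_zero]

end

end Crest.Agent.R017.Mono858
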