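import Crest.Agent.R017.NPz_739

/-!
# Row 17, E2, class E, R-side (helper739): the separate cells of a pair of lists

* `NPp` : the not principal frequencies, `npp_q4` : they merge into non cubes
* `LineR2` : the two-level line of a natural list at one cell
* `cellH_line` : the natural-list hypothesis of a cell from the line
* `cell_line` : a cell of a flagged list from the line
* `cell_pair` : a cell of a difference of two flagged lists from their lines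
-/

set_option autoImplicit false
set_option linter.unusedVariables false
set_option maxHeartbeats 800000

noncomputable section

open Finset
open scoped ComplexConjugate

namespace Crest.Agent.R017.NPz739

open Crest.Agent.R012
open Eis Gauss880
open Crest.Agent.R012.LS2 (S mem_S)
open Crest.Agent.R017.CM106 (CS FS)
open Crest.Agent.R017.FE47 (cx PU)
open Crest.Agent.R017.B770
open Crest.Agent.R017.Prov71
open Crest.Agent.R017.HP842 (Pc pc sqc al)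
open Crest.Agent.R017.Leg381 (alf alF Pf)
open Crest.Agent.R017.X6C180 (IX dl')
open Crest.Agent.R017.Win813 (iA iA_nonneg WK)
open Crest.Agent.R017.XRG106
open Crest.Agent.R017.MoF106
open Crest.Agent.R017.MoL106
open Crest.Agent.R017.H1401 (pb mem_pb DN WM HW)
open Crest.Agent.R017.E2440 (ag RR C4 mem_C4)
open Crest.Agent.R017.E2sp579 (fP)
open Crest.Agent.R017.GKC739
open Crest.Agent.R017.NPx739
open Crest.Agent.R017.NPy739
open Crest.Agent.R017.RQd385 (PM2Q)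
open Div277 (tau dvs mem_dvs)

/-! ### the predicate -/

/-- the not principal frequencies -/
def NPp (p : ℕ × ℕ) (E B τ d : Eis) : Prop := ¬ PrQ (E * kw p ^ 2) B τ d

/-- the merged frequencies of the not principal part are not cubes -/
lemma npp_q4 {T : Finset Eis} {X Z : ℝ} (hX : 0 ≤ X) (hZ : 0 ≤ Z) {u v : ℕ}
    (hT : ∀ y ∈ T, IsPrim y) {e A τ g₃ : Eis} (he : IsPrim e) (hA : IsPrim A) (hτ : τ ≠ 0)
    (p : ℕ × ℕ) {P : Eis → Eis → Eis → Prop} {x : I4}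
    (hx : x ∈ Q4 T X Z u v (fun y B => fP P (NPp p (e * A * y) B τ)) g₃) :
    T411.NCube (f4 (e * A * kw p ^ 2) τ x) := by
  exact q4_np (w := 0) hX hZ hT he hA hτ p (P := P) (g₃ := g₃) hx

/-! ### the line -/

/-- **the two-level line of a natural list at a cell** -/
def LineR2 (Φ : ℝ → ℝ → List Pq → ℝ) (μ C : ℝ) {r : ℕ} (s : Fin r → Pq) (Lv s₁ K Bd X : ℝ)
    (l u j : ℕ) : Prop :=
  ∀ v < NX X, ∀ (s' : Fin r → Pq) (W0 : ℝ), 1 ≤ W0 → (∀ k, Rl C W0 (s' k) (s k)) →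
    ∑ k, (s' k).z ≤ ∑ k, (s k).z - ((u : ℝ) / 3 + v / 3) + C →
    0 ≤ Real.log (2 ^ j) + l / 3 + s₁ - 2 * ((v : ℝ) / 3) →
    Φ (Real.log (2 ^ j) + l / 3 + s₁ - 2 * ((v : ℝ) / 3)) (u / 3 + 2 / 3 + v / 3)
        (List.ofFn s') ≤
      Bd * W0 ^ (2 * μ) * Real.exp (∑ k, (s k).z + K + (Real.log (2 ^ j) + l / 3 + s₁) -
        nr Lv (Real.log (2 ^ j) + l / 3 + s₁) - (∑ k, (s k).z - (u / 3 + 2 / 3) -
          ∑ k, (s' k).z))

lemma LineR2.mono {Φ : ℝ → ℝ → List Pq → ℝ} {μ C C' : ℝ} {r : ℕ} {s : Fin r → Pq}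
    {Lv s₁ K Bd X : ℝ} {l u j : ℕ} (H : LineR2 Φ μ C' s Lv s₁ K Bd X l u j) (hC : C ≤ C') :
    LineR2 Φ μ C s Lv s₁ K Bd X l u j := by
  intro v hv s' W0 hW0 hR hle h0
  exact H v hv s' W0 hW0 (fun k => (hR k).mono hC) (hle.trans (by linarith)) h0

/-- **the natural-list hypothesis of a cell from the line** -/
theorem cellH_line {ε : ℝ} (hε : 0 < ε) : ∃ C₁ : ℝ, 1 ≤ C₁ ∧
    ∀ (h : ℝ → ℝ) (μ C : ℝ) {r : ℕ} (P : DPar) (s : Fin r → Pq) (V : ℝ) (e A c : Eis) (X : ℝ)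
      (g₀ : Eis) (p : ℕ × ℕ) (l u j : ℕ) (n : Eis) (X0 σ s₁ K Lv Bd : ℝ), 0 ≤ X → IsPrim e →
      IsPrim A → IsPrim g₀ → c ∈ C4 → 0 ≤ Bd →
      Real.exp ((l : ℝ) / 3 + 1 / 3) * 2 ^ j ≤ X0 →
      (∀ v < NX X, Real.exp (((u + v : ℕ) : ℝ) / 3 + 2 / 3) ≤ X0) →
      (∀ i : IX c, Real.log (nm (e * A * kw p ^ 2 * dl' c i)) + 1 / 3 ≤ s₁) →
      LineR2 (PM2Q T411.NCube P h) μ C s Lv s₁ K Bd X l u j →
      CellH h μ C P s V e A c X (NPp p) g₀ p l u j n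
        (fun v _ => Real.exp ((v : ℝ) / 3 + nr Lv (Real.log (2 ^ j) + l / 3) - l / 3 + σ))
        (C₁ * X0 ^ ε * (2 ^ j * (Bd * Real.exp (∑ k, (s k).z + K + σ + s₁ + 2 / 3)))) := by
  obtain ⟨C, hC, hc2⟩ := cell_r2Q hε
  refine ⟨C, hC, ?_⟩
  intro h μ Cl r P s V e A c X g₀ p l u j n X0 σ s₁ K Lv Bd hX he hA hg₀ hc hBd hlj huv hs₁ hline
  intro v hv w hw _ i g₃ hg₃ s' W0 hW0 hR hle
  have hE : e * A * kw p ^ 2 ≠ 0 :=
    mul_ne_zero (mul_ne_zero he.ne_zero hA.ne_zero) (pow_ne_zero 2 (kw_ne p))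
  have hc0 : c ≠ 0 := by
    have h1 := (nm_C hc).1
    rintro rfl
    rw [nm_zero] at h1
    norm_num at h1
  have hτ : dl' c i ≠ 0 := dl_ne_zero hc0 i
  have hg1 : (1 : ℝ) ≤ nm g₀ := one_le_nmR hg₀.ne_zero
  have hlg : 0 ≤ Real.log (nm g₀ : ℝ) := Real.log_nonneg hg1
  have hw0 : (0 : ℝ) ≤ (w : ℝ) / 3 := by positivity
  refine hc2 T411.NCube P h (Tb V e A c l) X (2 ^ j) l u v w _ g₃ g₀ (e * A * kw p ^ 2)
    (dl' c i) hX (one_le_pow₀ (by norm_num)) hE hτ hg₀ (fun y hy => ⟨Tb_prim hy, ?_⟩) hg₃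
    (fun x hx => npp_q4 hX (by positivity) (fun y hy => Tb_prim hy) he hA hτ p hx) X0 hlj
    (huv v hv) s₁ (hs₁ i) s' (∑ k, (s k).z) K Lv σ Bd (W0 ^ (2 * μ)) hBd
    (Real.rpow_nonneg (by linarith) _) (fun h0 => ?_)
  · exact bk_nm_le (Real.sqrt_nonneg V) (mem_Tb.1 hy).1
  · exact hline v hv s' W0 hW0 hR (by linarith) h0

/-! ### flagged lists -/

lemma exp_NX {X : ℝ} (hX : 1 ≤ X) {u v : ℕ} (hu : u < NX X) (hv : v < NX X) :
    Real.exp (((u + v : ℕ) : ℝ) / 3 + 2 / 3) ≤ 2 * X ^ 2 := by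
  have h1 : ∀ w : ℕ, w < NX X → (w : ℝ) / 3 ≤ Real.log X := by
    intro w hw
    unfold MoF106.NX at hw
    have h2 : w ≤ ⌊3 * Real.log X⌋₊ := by omega
    have h3 : ((⌊3 * Real.log X⌋₊ : ℕ) : ℝ) ≤ 3 * Real.log X :=
      Nat.floor_le (mul_nonneg (by norm_num) (Real.log_nonneg hX))
    have h4 : (w : ℝ) ≤ ((⌊3 * Real.log X⌋₊ : ℕ) : ℝ) := by exact_mod_cast h2
    linarith
  have hX0 : 0 < X := by linarith
  have e1 : Real.exp (2 / 3 : ℝ) ≤ 2 := by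
    have h5 : Real.exp (2 / 3 : ℝ) ^ 3 = Real.exp 2 := by
      rw [← Real.exp_nat_mul]; norm_num
    have h6 : Real.exp 2 < 8 := by
      have h7 : Real.exp 2 = Real.exp 1 ^ 2 := by rw [← Real.exp_nat_mul]; norm_num
      have h8 := Real.exp_one_lt_d9
      have h9 := Real.exp_pos 1
      rw [h7]
      nlinarith
    by_contra h7
    push Not at h7
    have h8 : (2 : ℝ) ^ 3 ≤ Real.exp (2 / 3 : ℝ) ^ 3 := pow_le_pow_left₀ (by norm_num) h7.le 3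
    rw [h5] at h8
    linarith
  calc Real.exp (((u + v : ℕ) : ℝ) / 3 + 2 / 3)
      ≤ Real.exp (Real.log X + Real.log X + 2 / 3) := by
        refine Real.exp_le_exp.2 ?_
        push_cast
        have := h1 u hu
        have := h1 v hv
        linarith
    _ = X * X * Real.exp (2 / 3) := by
        rw [Real.exp_add, Real.exp_add, Real.exp_log hX0]
    _ ≤ X * X * 2 := by gcongr
    _ = _ := by ring

/-- **a separate cell of a flagged list, from the line** -/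
theorem cell_line {h : ℝ → ℝ} {c₀ : ℝ} (hpu : PU h c₀) {R : ℝ} (hR0 : 0 ≤ R)
    (hR : ∀ u, cx h u ≠ 0 → |u| ≤ R) {μ : ℝ} (hμ : 0 ≤ μ) (r : ℕ) {ε : ℝ} (hε : 0 < ε) :
    ∃ C : ℝ, 1 ≤ C ∧ ∀ A' : ℕ, 2 * (r * μ) + 2 ≤ A' → ∀ Cφ η : ℝ, 0 ≤ Cφ → 0 < η → η ≤ 1 →
      ∀ φ : ℝ → ℝ, WK Cφ η A' φ → ∀ (p : ℕ × ℕ) (t₀ : ℝ) (P : DPar) (_ : P.OK)
      (ps : List Pf), ps.length = r → (∀ x ∈ ps, 0 ≤ x.1.z) → ∀ z D0 : ℝ, 1 ≤ D0 →
      ∀ q g₀ δ e A ν : Eis, IsPrim q → IsPrim g₀ → IsPrim δ → IsPrim e → IsPrim A → ν ≠ 0 →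
      ∀ (V X X0 : ℝ), 1 ≤ X → 2 * X ^ 2 ≤ X0 → D0 ^ r ≤ X0 → (nm g₀ : ℝ) ≤ X0 →
      (nm q : ℝ) ≤ X0 → (nm δ : ℝ) ≤ X0 → (∀ x ∈ ps, Real.exp x.1.z ≤ X0) →
      ∀ l u j : ℕ, u < NX X → Real.exp ((l : ℝ) / 3 + 1 / 3) * 2 ^ j ≤ X0 →
      ∀ s s₁ K Lv Bd : ℝ, 0 ≤ Bd → 0 ≤ s → ∀ c ∈ C4,
      V * nm (e * A) / nm c ≤ Real.exp (s + Lv) →
      (∀ i : IX c, Real.log (nm (e * A * kw p ^ 2 * dl' c i)) + 1 / 3 ≤ s₁) →
      LineR2 (PM2Q T411.NCube P h) μ C (fun i => (ps.get i).1) Lv s₁ K Bd X l u j →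
      ∀ n ∈ dvs ν,
      (2 / 2 ^ j) * ((nm n : ℝ) * ∑ j₂ ∈ Tb V e A c l, ∑ B ∈ bk X u,
        MNc A' V e A c X (NPp p) δ g₀ φ p t₀ j₂ B j n (sqc q (alF z D0 P h ps))) ≤
      C * (Cφ ^ 2 * iA A' * (η * (η ^ A')⁻¹)) * X0 ^ ε * (1 + |t₀|) ^ A' * opL r D0 *
        (nm ν * (Bd * Real.exp ((ps.map fun x => x.1.z).sum + K + s + s₁))) := by
  have hε2 : 0 < ε / 2 := by linarith
  obtain ⟨C1, hC1, hL⟩ := cell_list hpu hR0 hR hμ r hε2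
  obtain ⟨C2, hC2, hH⟩ := cellH_line hε2
  have hC10 : 0 ≤ C1 := by linarith
  have hC20 : 0 ≤ C2 := by linarith
  have hCC : C1 ≤ 2 * (C1 * C2 * Real.exp (2 + 2 / 3)) := by
    have h1 : (1 : ℝ) ≤ Real.exp (2 + 2 / 3) := Real.one_le_exp (by norm_num)
    have h2 : 1 ≤ C2 * Real.exp (2 + 2 / 3) := one_le_mul_of_one_le_of_one_le hC2 h1
    nlinarith
  refine ⟨2 * (C1 * C2 * Real.exp (2 + 2 / 3)), hC1.trans hCC, ?_⟩
  intro A' hA' Cφ η hCφ hη hη1 φ hφ p t₀ P hP ps hr hz z D0 hD q g₀ δ e A ν hq hg₀ hδ he hA hν V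
    X X0 hX hXX hDX hgX hqX hδX hsX l u j hu hlj s s₁ K Lv Bd hBd hs c hc hV hs₁ hline n hn
  have hX0 : 0 ≤ X := by linarith
  have hX01 : 1 ≤ X0 := by nlinarith
  have hX00 : 0 < X0 := by linarith
  have hXX0 : X ≤ X0 := by nlinarith
  have hc1 := (nm_C hc).1
  have h3e : (3 : ℝ) * Real.exp (2 / 3) ≤ Real.exp 2 := by
    have h1 : (3 : ℝ) ≤ Real.exp (4 / 3) := by
      have h5 : Real.exp (4 / 3 : ℝ) ^ 3 = Real.exp 1 ^ 4 := by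
        rw [← Real.exp_nat_mul, ← Real.exp_nat_mul]; norm_num
      have h8 := Real.exp_one_gt_d9
      by_contra h7
      push Not at h7
      have h9 : Real.exp (4 / 3 : ℝ) ^ 3 < 3 ^ 3 := by
        gcongr
      rw [h5] at h9
      have h10 : (2.7 : ℝ) ^ 4 ≤ Real.exp 1 ^ 4 := by
        gcongr
        linarith
      norm_num at h10 h9
      linarith
    calc (3 : ℝ) * Real.exp (2 / 3) ≤ Real.exp (4 / 3) * Real.exp (2 / 3) := by gcongr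
      _ = Real.exp 2 := by rw [← Real.exp_add]; norm_num
  set N : ℝ := (ps.map fun x => x.1.z).sum with hN
  have eN : ∑ k : Fin ps.length, ((fun i => (ps.get i).1) k : Pq).z = N := by
    rw [hN]
    have := List.sum_ofFn (f := fun i : Fin ps.length => (ps.get i).1.z)
    rw [← this]
    congr 1
    conv_rhs => rw [← List.ofFn_get ps, List.map_ofFn]
    rfl
  set Wb : ℕ → ℕ → ℝ := fun v _ =>
    Real.exp ((v : ℝ) / 3 + nr Lv (Real.log (2 ^ j) + l / 3) - l / 3 + (s + 2)) with hWb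
  have e2j : (2 : ℝ) ^ j = Real.exp (Real.log (2 ^ j)) := (Real.exp_log (by positivity)).symm
  by_cases hTb : (Tb V e A c l).Nonempty
  swap
  · rw [Finset.not_nonempty_iff_eq_empty.1 hTb, Finset.sum_empty]
    have := iA_nonneg A'
    have h4 : 0 ≤ opL r D0 := opL_nonneg r (by linarith)
    have : (0 : ℝ) ≤ 2 / 2 ^ j * ((nm n : ℝ) * 0) := by positivity
    simp only [mul_zero]
    positivity
  obtain ⟨jj, hjj⟩ := hTb
  have hV0 : 0 < V := V_pos (mem_Tb.1 hjj).2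
  have hnn : n ≠ 0 := by
    intro h0
    have h1 := (mem_dvs hν).1 hn
    rw [h0] at h1
    exact hν (zero_dvd_iff.1 h1.2)
  have hn1 : (1 : ℝ) ≤ nm n := one_le_nmR hnn
  have hWb1 : ∀ v < NX X, ∀ w < NX X, ∀ g₂ ∈ bk X v, ∀ g₃ ∈ bk X w,
      WM (V * nm (e * A) / (nm c * Real.exp ((l : ℝ) / 3) ^ 2)) (2 ^ j / (nm n : ℝ) ^ 3) g₂ g₃ ≤
        Wb v w := by
    intro v hv w hw g₂ h₂ g₃ h₃
    have h1 := WM_cell (V := Lv) (s := s) (a := (l : ℝ) / 3) (g := (v : ℝ) / 3) (w := 0)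
      (i := Real.log (2 ^ j) + l / 3)
      (R := V * nm (e * A) / (nm c * Real.exp ((l : ℝ) / 3) ^ 2)) (Z := 2 ^ j / (nm n : ℝ) ^ 3)
      hs (by positivity) le_rfl (by positivity) (by positivity) (by positivity) ?_ ?_
      (bk_nm_ge hX0 h₂) (bk_nm_le hX0 h₂) (x := g₂) (y := g₃) ?_
    · refine h1.trans ?_
      rw [hWb]
      calc 3 * Real.exp (2 / 3) * Real.exp ((v : ℝ) / 3 + nr Lv (Real.log (2 ^ j) + l / 3) +
            3 * 0 - l / 3 + s) ≤ Real.exp 2 * Real.exp ((v : ℝ) / 3 +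
            nr Lv (Real.log (2 ^ j) + l / 3) + 3 * 0 - l / 3 + s) := by gcongr
        _ = _ := by
            rw [← Real.exp_add]; congr 1; ring
    · calc V * nm (e * A) / (nm c * Real.exp ((l : ℝ) / 3) ^ 2)
          = V * nm (e * A) / nm c * (Real.exp ((l : ℝ) / 3) ^ 2)⁻¹ := by
            rw [div_mul_eq_div_div, div_eq_mul_inv _ (Real.exp ((l : ℝ) / 3) ^ 2)]
        _ ≤ Real.exp (s + Lv) * (Real.exp ((l : ℝ) / 3) ^ 2)⁻¹ := by gcongr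
        _ = _ := by
            rw [← Real.exp_nat_mul, ← Real.exp_neg, ← Real.exp_add]
            congr 1
    · calc (2 : ℝ) ^ j / (nm n : ℝ) ^ 3 ≤ 2 ^ j := div_le_self (by positivity) (one_le_pow₀ hn1)
        _ = Real.exp (Real.log (2 ^ j)) := e2j
        _ = _ := by congr 1; ring
    · rw [Real.exp_zero]
      exact one_le_nmR (bk_prim hX0 h₃).ne_zero
  have hcell := hH h μ C1 P (fun i : Fin ps.length => (ps.get i).1) V e A c X g₀ p l u j n X0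
    (s + 2) s₁ K Lv Bd hX0 he hA hg₀ hc hBd hlj
    (fun v hv => (exp_NX hX hu hv).trans hXX) hs₁ (hline.mono hCC)
  have h1 := hL A' hA' Cφ η hCφ hη hη1 φ hφ p t₀ P hP ps hr hz z D0 hD q g₀ δ e A hq hg₀ hδ he
    hA V X X0 hX hXX0 hDX hgX hqX hδX hsX l u j n (NPp p) Wb c hc hWb1
    (fun v _ w _ => (Real.exp_pos _).le) _ (by positivity) hcell
  have hnν : (nm n : ℝ) ≤ nm ν := by
    exact_mod_cast Div277.nm_le_of_dvd hν ((mem_dvs hν).1 hn).2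
  have hiA := iA_nonneg A'
  have hop : 0 ≤ opL r D0 := opL_nonneg r (by linarith)
  rw [eN] at h1
  set pA : ℝ := Cφ ^ 2 * iA A' * (η * (η ^ A')⁻¹) with hpA
  have hpA0 : 0 ≤ pA := by positivity
  have hXe : X0 ^ (ε / 2) * X0 ^ (ε / 2) = X0 ^ ε := by
    rw [← Real.rpow_add hX00]
    congr 1; ring
  calc (2 / 2 ^ j) * ((nm n : ℝ) * ∑ j₂ ∈ Tb V e A c l, ∑ B ∈ bk X u,
        MNc A' V e A c X (NPp p) δ g₀ φ p t₀ j₂ B j n (sqc q (alF z D0 P h ps)))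
      ≤ (2 / 2 ^ j) * ((nm ν : ℝ) * (C1 * pA * X0 ^ (ε / 2) * (1 + |t₀|) ^ A' * opL r D0 *
        (C2 * X0 ^ (ε / 2) * (2 ^ j * (Bd * Real.exp (N + K + (s + 2) + s₁ + 2 / 3)))))) := by
        refine mul_le_mul_of_nonneg_left ?_ (by positivity)
        refine mul_le_mul hnν h1 ?_ (Nat.cast_nonneg _)
        refine Finset.sum_nonneg fun j₂ hj₂ => Finset.sum_nonneg fun B _ => ?_
        exact MNc_nonneg (mem_Tb.1 hj₂).2
    _ = C1 * C2 * pA * (X0 ^ (ε / 2) * X0 ^ (ε / 2)) * (1 + |t₀|) ^ A' * opL r D0 *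
        (nm ν * (Bd * Real.exp (N + K + (s + 2) + s₁ + 2 / 3))) * 2 := by
        field_simp
    _ = C1 * C2 * pA * X0 ^ ε * (1 + |t₀|) ^ A' * opL r D0 *
        (nm ν * (Bd * (Real.exp (2 + 2 / 3) * Real.exp (N + K + s + s₁)))) * 2 := by
        rw [hXe, ← Real.exp_add (2 + 2 / 3)]
        have : (2 + 2 / 3 : ℝ) + (N + K + s + s₁) = N + K + (s + 2) + s₁ + 2 / 3 := by ring
        rw [this]
    _ = _ := by ring

/-- **a separate cell of a difference of two flagged lists, from their lines** -/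
theorem cell_pair {h : ℝ → ℝ} {c₀ : ℝ} (hpu : PU h c₀) {R : ℝ} (hR0 : 0 ≤ R)
    (hR : ∀ u, cx h u ≠ 0 → |u| ≤ R) {μ : ℝ} (hμ : 0 ≤ μ) (r : ℕ) {ε : ℝ} (hε : 0 < ε) :
    ∃ C : ℝ, 1 ≤ C ∧ ∀ A' : ℕ, 2 * (r * μ) + 2 ≤ A' → ∀ Cφ η : ℝ, 0 ≤ Cφ → 0 < η → η ≤ 1 →
      ∀ φ : ℝ → ℝ, WK Cφ η A' φ → ∀ (p : ℕ × ℕ) (t₀ : ℝ) (P : DPar) (_ : P.OK)
      (ps ps' : List Pf), ps.length = r → ps'.length = r → (∀ x ∈ ps, 0 ≤ x.1.z) →
      (∀ x ∈ ps', 0 ≤ x.1.z) → ∀ z z' D0 : ℝ, 1 ≤ D0 →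
      ∀ q g₀ δ e A ν : Eis, IsPrim q → IsPrim g₀ → IsPrim δ → IsPrim e → IsPrim A → ν ≠ 0 →
      FS (sqc q (alF z D0 P h ps)) → FS (sqc q (alF z' D0 P h ps')) →
      ∀ (V X X0 : ℝ), 1 ≤ X → 2 * X ^ 2 ≤ X0 → D0 ^ r ≤ X0 → (nm g₀ : ℝ) ≤ X0 →
      (nm q : ℝ) ≤ X0 → (nm δ : ℝ) ≤ X0 → (∀ x ∈ ps, Real.exp x.1.z ≤ X0) →
      (∀ x ∈ ps', Real.exp x.1.z ≤ X0) →
      ∀ l u j : ℕ, u < NX X → Real.exp ((l : ℝ) / 3 + 1 / 3) * 2 ^ j ≤ X0 →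
      ∀ s s₁ K K' Lv Bd Bd' : ℝ, 0 ≤ Bd → 0 ≤ Bd' → 0 ≤ s → ∀ c ∈ C4,
      V * nm (e * A) / nm c ≤ Real.exp (s + Lv) →
      (∀ i : IX c, Real.log (nm (e * A * kw p ^ 2 * dl' c i)) + 1 / 3 ≤ s₁) →
      LineR2 (PM2Q T411.NCube P h) μ C (fun i => (ps.get i).1) Lv s₁ K Bd X l u j →
      LineR2 (PM2Q T411.NCube P h) μ C (fun i => (ps'.get i).1) Lv s₁ K' Bd' X l u j →
      ∀ ζ : ℂ, ‖ζ‖ ≤ 1 → ∀ n ∈ dvs ν,
      (2 / 2 ^ j) * ((nm n : ℝ) * ∑ j₂ ∈ Tb V e A c l, ∑ B ∈ bk X u,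
        MNc A' V e A c X (NPp p) δ g₀ φ p t₀ j₂ B j n
          (fun m => sqc q (alF z D0 P h ps) m - ζ * sqc q (alF z' D0 P h ps') m)) ≤
      C * (Cφ ^ 2 * iA A' * (η * (η ^ A')⁻¹)) * X0 ^ ε * (1 + |t₀|) ^ A' * opL r D0 *
        (nm ν * (Bd * Real.exp ((ps.map fun x => x.1.z).sum + K + s + s₁) +
          Bd' * Real.exp ((ps'.map fun x => x.1.z).sum + K' + s + s₁))) := by
  obtain ⟨C, hC, hx⟩ := cell_line hpu hR0 hR hμ r hε
  refine ⟨2 * C, by linarith, ?_⟩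
  intro A' hA' Cφ η hCφ hη hη1 φ hφ p t₀ P hP ps ps' hr hr' hz hz' z z' D0 hD q g₀ δ e A ν hq
    hg₀ hδ he hA hν hF hF' V X X0 hX hXX hDX hgX hqX hδX hsX hsX' l u j hu hlj s s₁ K K' Lv Bd
    Bd' hBd hBd' hs c hc hV hs₁ hline hline' ζ hζ n hn
  have hCC : C ≤ 2 * C := by linarith
  have h1 := hx A' hA' Cφ η hCφ hη hη1 φ hφ p t₀ P hP ps hr hz z D0 hD q g₀ δ e A ν hq hg₀ hδ he
    hA hν V X X0 hX hXX hDX hgX hqX hδX hsX l u j hu hlj s s₁ K Lv Bd hBd hs c hc hV hs₁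
    (hline.mono hCC) n hn
  have h2 := hx A' hA' Cφ η hCφ hη hη1 φ hφ p t₀ P hP ps' hr' hz' z' D0 hD q g₀ δ e A ν hq hg₀
    hδ he hA hν V X X0 hX hXX hDX hgX hqX hδX hsX' l u j hu hlj s s₁ K' Lv Bd' hBd' hs c hc hV hs₁
    (hline'.mono hCC) n hn
  have h3 := cell_two (J := A') (V := V) (e := e) (A := A) (c := c) (X := X) (by linarith)
    (Qf := NPp p) (δ := δ) hg₀ (φ := φ) (p := p) (t₀ := t₀) (l := l) (u := u) (j := j) (n := n)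
    hF hF' hζ
  calc _ ≤ (2 / 2 ^ j) * ((nm n : ℝ) * (2 * (∑ j₂ ∈ Tb V e A c l, ∑ B ∈ bk X u,
        MNc A' V e A c X (NPp p) δ g₀ φ p t₀ j₂ B j n (sqc q (alF z D0 P h ps)) +
        ∑ j₂ ∈ Tb V e A c l, ∑ B ∈ bk X u,
        MNc A' V e A c X (NPp p) δ g₀ φ p t₀ j₂ B j n (sqc q (alF z' D0 P h ps'))))) := by
        refine mul_le_mul_of_nonneg_left ?_ (by positivity)
        exact mul_le_mul_of_nonneg_left h3 (Nat.cast_nonneg _)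
    _ = 2 * ((2 / 2 ^ j) * ((nm n : ℝ) * ∑ j₂ ∈ Tb V e A c l, ∑ B ∈ bk X u,
        MNc A' V e A c X (NPp p) δ g₀ φ p t₀ j₂ B j n (sqc q (alF z D0 P h ps)))) +
        2 * ((2 / 2 ^ j) * ((nm n : ℝ) * ∑ j₂ ∈ Tb V e A c l, ∑ B ∈ bk X u,
        MNc A' V e A c X (NPp p) δ g₀ φ p t₀ j₂ B j n (sqc q (alF z' D0 P h ps')))) := by ring
    _ ≤ _ := by
        refine (add_le_add (mul_le_mul_of_nonneg_left h1 (by norm_num))
          (mul_le_mul_of_nonneg_left h2 (by norm_num))).trans (le_of_eq ?_)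
        ring

end Crest.Agent.R017.NPz739
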