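import Crest.Agent.R017.N2a_106
import Crest.Agent.R017.RXa_739
import Crest.Agent.R017.NPzb_739

/-!
# Row 17, FlatNE, class E (helper298): the real side of the compensated E2, part a

* `cellL_ofX` : the cell hypothesis of 739's `cell_list` from `PMHQ`, the not principal part
* `cell_N2x` : one cell of a flagged list, the not principal part
* `cell_N2d` : one cell of a difference of two flagged lists
-/

set_option autoImplicit false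
set_option linter.unusedVariables false
set_option maxHeartbeats 1600000

noncomputable section

open Finset
open scoped ComplexConjugate

namespace Crest.Agent.R017.N2X298

open Crest.Agent.R012 Crest.Agent.R012.Eis
open Crest.Agent.R012.LS2 (S mem_S)
open Crest.Agent.R012.Div277 (dvs mem_dvs)
open Crest.Agent.R012.Mob705 (pdiv mem_pdiv)
open Crest.Agent.R012.T411 (NCube)
open Crest.Agent.R017.B770
open Crest.Agent.R017.Prov71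
open Crest.Agent.R017.CM106 (CS FS)
open Crest.Agent.R017.FE47 (cx PU)
open Crest.Agent.R017.HP842 (pc sqc)
open Crest.Agent.R017.Leg381 (alf alF Pf LF LF_get)
open Crest.Agent.R017.XRG106
open Crest.Agent.R017.X6C180 (IX dl' Sg GF om')
open Crest.Agent.R017.Win813 (iA iA_nonneg WK)
open Crest.Agent.R017.RGw813 (T9)
open Crest.Agent.R017.H1401 (pb mem_pb WM HW DN)
open Crest.Agent.R017.MoF106
open Crest.Agent.R017.MoL106
open Crest.Agent.R017.QsO83 (bw FS_bw)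
open Crest.Agent.R017.E2440
open Crest.Agent.R017.GKC739 (Tb mem_Tb Tb_prim Cell nm_C)
open Crest.Agent.R017.E2sp579 (fP)
open Crest.Agent.R017.NPx739 (PrQ)
open Crest.Agent.R017.NPz739 (NPp npp_q4)
open Crest.Agent.R017.NPy739 (MNc opL opL_nonneg MNc_nonneg MNc_spec CellL cell_list cell_two)
open Crest.Agent.R017.RC106 (k9 log_fr)
open Crest.Agent.R017.RXa739 (cell_sQ PMHQ)
open Crest.Agent.R017.RQd385 (PM2Q)
open Crest.Agent.R017.N2106 (CellL.mono)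

/-- **the cell hypothesis of `cell_list`, the not principal part** -/
theorem cellL_ofX {ε : ℝ} (hε : 0 < ε) : ∃ C₁ : ℝ, 1 ≤ C₁ ∧
    ∀ (h : ℝ → ℝ) (μ C : ℝ) (P : DPar) (ps : List Pf) (V X X0 : ℝ)
      (e A c g₀ : Eis) (p : ℕ × ℕ) (l u j : ℕ) (n : Eis), p ∈ T9 → 0 < V → 1 ≤ X →
      8 * X ^ 2 ≤ X0 → IsPrim e → IsPrim A → c ∈ C4 → IsPrim g₀ → IsPrim n →
      Real.exp ((u : ℝ) / 3) ≤ X → Real.exp ((l : ℝ) / 3 + 1 / 3) * 2 ^ j ≤ X0 →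
      ∀ (s₁ N2 i1 i2 Bd Tn : ℝ), Real.log (nm (e * A)) + k9 ≤ s₁ → 0 ≤ Bd →
      Real.log (nm n) ≤ N2 →
      Real.log (2 ^ j) + l / 3 ≤ i1 + u / 3 → Real.log (2 ^ j) + l / 3 ≤ i2 - 2 * (u / 3) →
      PMHQ h μ C P (fun i => (ps.get i).1) (Real.log (V * nm (e * A))) (Real.log (nm g₀)) N2
        i1 i2 s₁ Bd Tn →
      CellL h μ C P ps V e A c X (NPp p) g₀ p l u j n
        (fun v _ => 3 * Real.exp (2 / 3) * Real.exp ((v : ℝ) / 3 +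
          nr (Real.log (V * nm (e * A))) (Real.log (2 ^ j) + l / 3 - 3 * Real.log (nm n)) -
            l / 3))
        (C₁ * X0 ^ ε * (Bd * Real.exp (Real.log (2 ^ j) - Real.log (nm n) + Tn))) := by
  obtain ⟨C₁, hC₁, hc⟩ := cell_sQ hε
  refine ⟨3 * Real.exp (2 / 3) * C₁, ?_, ?_⟩
  · have h1 : 1 ≤ Real.exp (2 / 3) := Real.one_le_exp (by norm_num)
    nlinarith
  intro h μ C P ps V X X0 e A c g₀ p l u j n hp hV hX hXX0 he hA hc4 hg₀ hn hu hlj s₁ N2 i1 i2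
    Bd Tn hs₁ hBd hnN hi1 hi2 hPM v hv w hw hWp i g₃ hg₃ s' W0 hW0 hR hle
  have hX0 : 0 ≤ X := by linarith
  have hX00 : 0 < X0 := by nlinarith
  have hE : e * A ≠ 0 := mul_ne_zero he.ne_zero hA.ne_zero
  have hE2 : e * A * kw p ^ 2 ≠ 0 := mul_ne_zero hE (pow_ne_zero 2 (kw_ne p))
  have hτ : dl' c i ≠ 0 := dl_ne_zero (QsJ401.C4_ne hc4) i
  have hZ1 : (1 : ℝ) ≤ 2 ^ j := one_le_pow₀ (by norm_num)
  have hv3 := exp_third_le hX hv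
  have huv : Real.exp (((u + v : ℕ) : ℝ) / 3 + 2 / 3) ≤ X0 := by
    have e1 : Real.exp (((u + v : ℕ) : ℝ) / 3 + 2 / 3) =
        Real.exp ((u : ℝ) / 3) * Real.exp ((v : ℝ) / 3) * Real.exp (2 / 3) := by
      rw [← Real.exp_add, ← Real.exp_add]
      congr 1
      push_cast
      ring
    rw [e1]
    have h2 := exp_two_thirds
    calc Real.exp ((u : ℝ) / 3) * Real.exp ((v : ℝ) / 3) * Real.exp (2 / 3) ≤ X * X * 2 := by
          gcongr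
      _ ≤ 8 * X ^ 2 := by nlinarith
      _ ≤ X0 := hXX0
  have hfr := log_fr hp hc4 i (E := e * A) hE
  have hz0 : 0 ≤ Real.log ((2 : ℝ) ^ j) := Real.log_nonneg hZ1
  have hW00 : (0 : ℝ) ≤ W0 ^ (2 * μ) := Real.rpow_nonneg (by linarith) _
  set z := Real.log ((2 : ℝ) ^ j) with hz
  set νn := Real.log (nm n) with hνn
  have hνn0 : 0 ≤ νn := Real.log_nonneg (by exact_mod_cast nm_pos.2 hn.ne_zero)
  have hl0 : (0 : ℝ) ≤ (l : ℝ) / 3 := by positivity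
  have hu0 : (0 : ℝ) ≤ (u : ℝ) / 3 := by positivity
  have hv0 : (0 : ℝ) ≤ (v : ℝ) / 3 := by positivity
  have hw0 : (0 : ℝ) ≤ (w : ℝ) / 3 := by positivity
  set Lv := Real.log (V * nm (e * A)) with hLv
  set d₀ := Real.log (nm g₀) with hd₀
  set S' := ∑ k, (s' k).z with hS'
  set SS := ∑ k : Fin ps.length, (ps.get k).1.z with hSS
  set U := Tn - (νn + nr Lv (z + l / 3 - 3 * νn) - (z + l / 3)) - (SS - d₀ - u / 3 - S') with hU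
  have key := hc NCube (Tb V e A c l) X (2 ^ j) l u v w
    (fun y B => fP (fun g₂ g₃ d => DN n g₂ g₃ d ∧ (2 : ℝ) ^ j / 2 < nm d)
      (NPp p (e * A * y) B (dl' c i)))
    g₃ (e * A * kw p ^ 2) (dl' c i) hX0 hZ1 hE2 hτ
    (fun y hy => ⟨Tb_prim hy, bk_nm_le (Real.sqrt_nonneg V) (mem_Tb.1 hy).1⟩) hg₃
    (fun x hx => npp_q4 hX0 (by positivity) (fun y hy => Tb_prim hy) he hA hτ p hx)
    X0 hlj huv s₁
    (by linarith) P h s' (Bd * W0 ^ (2 * μ) * Real.exp U) (by positivity)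
    (fun h0 => hPM (z + l / 3) (u / 3) (v / 3) νn s' W0 (by linarith) hu0 hv0 hνn0 hnN hi1 hi2
      (by linarith) hW0 hR (by linarith))
  have hWp' : 0 ≤ 3 * Real.exp (2 / 3) * Real.exp ((v : ℝ) / 3 + nr Lv (z + l / 3 - 3 * νn) -
      l / 3) * Real.exp ((w : ℝ) / 3) := by positivity
  refine (mul_le_mul_of_nonneg_left key hWp').trans (le_of_eq ?_)
  have e1 : Real.exp ((v : ℝ) / 3 + nr Lv (z + l / 3 - 3 * νn) - l / 3) *
      Real.exp ((w : ℝ) / 3) * Real.exp U =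
      Real.exp (z - νn + Tn) * Real.exp (S' - (SS - (d₀ + ((u : ℝ) / 3 + v / 3 + w / 3)))) := by
    rw [← Real.exp_add, ← Real.exp_add, ← Real.exp_add]
    congr 1
    rw [hU]
    ring
  calc 3 * Real.exp (2 / 3) * Real.exp ((v : ℝ) / 3 + nr Lv (z + l / 3 - 3 * νn) - l / 3) *
        Real.exp ((w : ℝ) / 3) * (C₁ * X0 ^ ε * (Bd * W0 ^ (2 * μ) * Real.exp U)) =
      3 * Real.exp (2 / 3) * C₁ * X0 ^ ε * Bd * W0 ^ (2 * μ) *
        (Real.exp ((v : ℝ) / 3 + nr Lv (z + l / 3 - 3 * νn) - l / 3) *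
      Real.exp ((w : ℝ) / 3) * Real.exp U) := by ring
    _ = _ := by rw [e1]; ring

/-- **one cell of a flagged list**, the not principal part -/
theorem cell_N2x {h : ℝ → ℝ} {c₀ : ℝ} (hpu : PU h c₀) {R : ℝ} (hR0 : 0 ≤ R)
    (hR : ∀ u, cx h u ≠ 0 → |u| ≤ R) {μ : ℝ} (hμ : 0 ≤ μ) (r : ℕ) {ε : ℝ} (hε : 0 < ε) :
    ∃ C : ℝ, 1 ≤ C ∧ ∀ (A' : ℕ), 2 * (r * μ) + 2 ≤ A' → ∀ (Cφ η : ℝ) (φ : ℝ → ℝ), 0 ≤ Cφ →
      0 < η → η ≤ 1 → WK Cφ η A' φ → ∀ p ∈ T9, ∀ (t₀ : ℝ) (P : DPar) (_ : P.OK)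
      (ps : List Pf), ps.length = r → (∀ x ∈ ps, 0 ≤ x.1.z) → ∀ z D0 : ℝ, 1 ≤ D0 →
      ∀ (q g₀ δ e A c : Eis), IsPrim q → IsPrim g₀ → IsPrim δ →
      IsPrim e → IsPrim A → c ∈ C4 → ∀ (V X X0 : ℝ) (l u j : ℕ) (n : Eis), 0 < V →
      1 ≤ X → 8 * X ^ 2 ≤ X0 → D0 ^ r ≤ X0 → (nm g₀ : ℝ) ≤ X0 → (nm q : ℝ) ≤ X0 →
      (nm δ : ℝ) ≤ X0 → (∀ x ∈ ps, Real.exp x.1.z ≤ X0) → IsPrim n →
      Real.exp ((u : ℝ) / 3) ≤ X → Real.exp ((l : ℝ) / 3 + 1 / 3) * 2 ^ j ≤ X0 →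
      ∀ (s₁ N2 i1 i2 Bd Tn : ℝ), Real.log (nm (e * A)) + k9 ≤ s₁ → 0 ≤ Bd →
      Real.log (nm n) ≤ N2 →
      Real.log (2 ^ j) + l / 3 ≤ i1 + u / 3 → Real.log (2 ^ j) + l / 3 ≤ i2 - 2 * (u / 3) →
      PMHQ h μ C P (fun i => (ps.get i).1) (Real.log (V * nm (e * A))) (Real.log (nm g₀)) N2
        i1 i2 s₁ Bd Tn →
      (2 / 2 ^ j) * ((nm n : ℝ) * ∑ j₂ ∈ Tb V e A c l, ∑ B ∈ bk X u,
        MNc A' V e A c X (NPp p) δ g₀ φ p t₀ j₂ B j n (sqc q (alF z D0 P h ps))) ≤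
      C * (Cφ ^ 2 * iA A' * (η * (η ^ A')⁻¹)) * X0 ^ (2 * ε) * (1 + |t₀|) ^ A' * opL r D0 *
        (Bd * Real.exp Tn) := by
  obtain ⟨C, hC, H⟩ := cell_list hpu hR0 hR hμ r hε
  obtain ⟨C₁, hC₁, H₁⟩ := cellL_ofX hε
  have hC0 : 0 ≤ C := by linarith
  have hC10 : 0 ≤ C₁ := by linarith
  set CC := C * (2 * C₁) with hCC
  have hCCC : C ≤ CC := by nlinarith
  refine ⟨CC, hC.trans hCCC, ?_⟩
  intro A' hA' Cφ η φ hCφ hη hη1 hφ p hp t₀ P hP ps hr hs z D0 hD q g₀ δ e A c hq hg₀ hδ he hA hc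
    V X X0 l u j n hV hX hXX hDX hgX hqX hδX hsX hn hu hlj s₁ N2 i1 i2 Bd Tn hs₁ hBd hnN hi1 hi2
    hPM
  have hX00 : 0 < X0 := by nlinarith
  have hX01 : 1 ≤ X0 := by nlinarith
  have hXX0 : X ≤ X0 := by nlinarith
  have hcell := H₁ h μ CC P ps V X X0 e A c g₀ p l u j n hp hV hX hXX he hA hc hg₀ hn hu hlj s₁
    N2 i1 i2 Bd Tn hs₁ hBd hnN hi1 hi2 hPM
  have hnm1 : (1 : ℝ) ≤ nm n := by exact_mod_cast nm_pos.2 hn.ne_zero
  have hea : (1 : ℝ) ≤ nm (e * A) := by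
    exact_mod_cast nm_pos.2 (mul_ne_zero he.ne_zero hA.ne_zero)
  have hcn : (1 : ℝ) ≤ nm c := (nm_C hc).1
  set Wb : ℕ → ℕ → ℝ := fun v _ => 3 * Real.exp (2 / 3) * Real.exp ((v : ℝ) / 3 +
          nr (Real.log (V * nm (e * A))) (Real.log (2 ^ j) + l / 3 - 3 * Real.log (nm n)) -
            l / 3) with hWb
  set M : ℝ := C₁ * X0 ^ ε * (Bd * Real.exp (Real.log (2 ^ j) - Real.log (nm n) + Tn)) with hM
  have hM0 : 0 ≤ M := by positivity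
  have key := H A' hA' Cφ η hCφ hη hη1 φ hφ p t₀ P hP ps hr hs z D0
    hD q g₀ δ e A hq hg₀ hδ he hA V X X0 hX hXX0 hDX hgX hqX
    hδX hsX l u j n (NPp p) Wb c hc
    (fun v hv w' hw' g₂ hg₂ g₃ hg₃ => by
      have hX0 : 0 ≤ X := by linarith
      have b1 := bk_nm_ge hX0 hg₂
      have b2 := bk_nm_le hX0 hg₂
      have b3 : (1 : ℝ) ≤ nm g₃ := by exact_mod_cast nm_pos.2 (bk_prim hX0 hg₃).ne_zero
      have h2 := MoL106.WM_cell (V := Real.log (V * nm (e * A))) (s := 0) (a := (l : ℝ) / 3)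
        (g := (v : ℝ) / 3) (w := 0)
        (i := Real.log (2 ^ j) + l / 3 - 3 * Real.log (nm n))
        (R := V * nm (e * A) / (nm c * Real.exp ((l : ℝ) / 3) ^ 2))
        (Z := 2 ^ j / (nm n : ℝ) ^ 3) le_rfl (by positivity) le_rfl (by positivity)
        (by positivity) (by positivity) (by
          rw [zero_add, Real.exp_sub, Real.exp_log (by positivity)]
          have e1 : Real.exp (2 * ((l : ℝ) / 3)) = Real.exp ((l : ℝ) / 3) ^ 2 := by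
            rw [← Real.exp_nat_mul]; norm_num
          rw [e1]
          refine div_le_div_of_nonneg_left (by positivity) (by positivity) ?_
          have : 0 ≤ Real.exp ((l : ℝ) / 3) ^ 2 := by positivity
          nlinarith) (by
          have e1 : Real.log (2 ^ j) + (l : ℝ) / 3 - 3 * Real.log (nm n) - l / 3 + 3 * 0 =
            Real.log (2 ^ j) - 3 * Real.log (nm n) := by ring
          rw [e1, Real.exp_sub, Real.exp_log (by positivity)]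
          have e2 : Real.exp (3 * Real.log (nm n)) = (nm n : ℝ) ^ 3 := by
            have h3 : (3 : ℝ) * Real.log (nm n) = Real.log ((nm n : ℝ) ^ 3) := by
              rw [Real.log_pow]; norm_num
            rw [h3, Real.exp_log (by positivity)]
          rw [e2]) b1 b2 (by rw [Real.exp_zero]; exact b3)
      refine h2.trans (le_of_eq ?_)
      rw [hWb]
      beta_reduce
      congr 2
      ring)
    (fun v _ w' _ => by rw [hWb]; positivity) M hM0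
    (CellL.mono hcell hCCC)
  have h2j : (0 : ℝ) < 2 ^ j := by positivity
  calc (2 / 2 ^ j) * ((nm n : ℝ) * ∑ j₂ ∈ Tb V e A c l, ∑ B ∈ bk X u,
        MNc A' V e A c X (NPp p) δ g₀ φ p t₀ j₂ B j n (sqc q (alF z D0 P h ps))) ≤
      (2 / 2 ^ j) * ((nm n : ℝ) * (C * (Cφ ^ 2 * iA A' * (η * (η ^ A')⁻¹)) *
        X0 ^ ε * (1 + |t₀|) ^ A' * opL r D0 * M)) := by gcongr
    _ = CC * (Cφ ^ 2 * iA A' * (η * (η ^ A')⁻¹)) * (X0 ^ ε * X0 ^ ε) * (1 + |t₀|) ^ A' *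
        opL r D0 * (Bd * Real.exp Tn) := by
        rw [hM, hCC, Real.exp_add, Real.exp_sub, Real.exp_log h2j,
          Real.exp_log (by linarith : (0 : ℝ) < nm n)]
        field_simp
    _ = _ := by
        rw [← Real.rpow_add hX00]
        congr 5
        ring

/-- **one cell of a difference of two flagged lists**, the not principal part -/
theorem cell_N2d {h : ℝ → ℝ} {c₀ : ℝ} (hpu : PU h c₀) {R : ℝ} (hR0 : 0 ≤ R)
    (hR : ∀ u, cx h u ≠ 0 → |u| ≤ R) {μ : ℝ} (hμ : 0 ≤ μ) (r : ℕ) {ε : ℝ} (hε : 0 < ε) :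
    ∃ C : ℝ, 1 ≤ C ∧ ∀ (A' : ℕ), 2 * (r * μ) + 2 ≤ A' → ∀ (Cφ η : ℝ) (φ : ℝ → ℝ), 0 ≤ Cφ →
      0 < η → η ≤ 1 → WK Cφ η A' φ → ∀ p ∈ T9, ∀ (t₀ : ℝ) (P : DPar) (_ : P.OK)
      (ps ps' : List Pf), ps.length = r → ps'.length = r → (∀ x ∈ ps, 0 ≤ x.1.z) →
      (∀ x ∈ ps', 0 ≤ x.1.z) → ∀ z z' D0 : ℝ, 1 ≤ D0 →
      ∀ (q g₀ δ e A c : Eis), IsPrim q → IsPrim g₀ → IsPrim δ →
      IsPrim e → IsPrim A → c ∈ C4 → FS (sqc q (alF z D0 P h ps)) →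
      FS (sqc q (alF z' D0 P h ps')) → ∀ ζ : ℂ, ‖ζ‖ ≤ 1 →
      ∀ (V X X0 : ℝ) (l u j : ℕ) (n : Eis), 0 < V →
      1 ≤ X → 8 * X ^ 2 ≤ X0 → D0 ^ r ≤ X0 → (nm g₀ : ℝ) ≤ X0 → (nm q : ℝ) ≤ X0 →
      (nm δ : ℝ) ≤ X0 → (∀ x ∈ ps, Real.exp x.1.z ≤ X0) → (∀ x ∈ ps', Real.exp x.1.z ≤ X0) →
      IsPrim n →
      Real.exp ((u : ℝ) / 3) ≤ X → Real.exp ((l : ℝ) / 3 + 1 / 3) * 2 ^ j ≤ X0 →
      ∀ (s₁ N2 i1 i2 Bd Tn Bd' Tn' : ℝ), Real.log (nm (e * A)) + k9 ≤ s₁ → 0 ≤ Bd → 0 ≤ Bd' →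
      Real.log (nm n) ≤ N2 →
      Real.log (2 ^ j) + l / 3 ≤ i1 + u / 3 → Real.log (2 ^ j) + l / 3 ≤ i2 - 2 * (u / 3) →
      PMHQ h μ C P (fun i => (ps.get i).1) (Real.log (V * nm (e * A))) (Real.log (nm g₀)) N2
        i1 i2 s₁ Bd Tn →
      PMHQ h μ C P (fun i => (ps'.get i).1) (Real.log (V * nm (e * A))) (Real.log (nm g₀)) N2
        i1 i2 s₁ Bd' Tn' →
      (2 / 2 ^ j) * ((nm n : ℝ) * ∑ j₂ ∈ Tb V e A c l, ∑ B ∈ bk X u,
        MNc A' V e A c X (NPp p) δ g₀ φ p t₀ j₂ B j n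
          (fun m => sqc q (alF z D0 P h ps) m - ζ * sqc q (alF z' D0 P h ps') m)) ≤
      C * (Cφ ^ 2 * iA A' * (η * (η ^ A')⁻¹)) * X0 ^ (2 * ε) * (1 + |t₀|) ^ A' * opL r D0 *
        (Bd * Real.exp Tn + Bd' * Real.exp Tn') := by
  obtain ⟨C, hC, H⟩ := cell_N2x hpu hR0 hR hμ r hε
  refine ⟨2 * C, by linarith, ?_⟩
  intro A' hA' Cφ η φ hCφ hη hη1 hφ p hp t₀ P hP ps ps' hr hr' hs hs' z z' D0 hD q g₀ δ e A c hq
    hg₀ hδ he hA hc hfs hfs' ζ hζ V X X0 l u j n hV hX hXX hDX hgX hqX hδX hsX hsX' hn hu hlj s₁ N2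
    i1 i2 Bd Tn Bd' Tn' hs₁ hBd hBd' hnN hi1 hi2 hPM hPM'
  have hCC : C ≤ 2 * C := by linarith
  have h1 := H A' hA' Cφ η φ hCφ hη hη1 hφ p hp t₀ P hP ps hr hs z D0 hD q g₀ δ e A c hq hg₀ hδ he
    hA hc V X X0 l u j n hV hX hXX hDX hgX hqX hδX hsX hn hu hlj s₁ N2 i1 i2 Bd Tn hs₁ hBd hnN hi1
    hi2 (hPM.mono hCC)
  have h2 := H A' hA' Cφ η φ hCφ hη hη1 hφ p hp t₀ P hP ps' hr' hs' z' D0 hD q g₀ δ e A c hq hg₀
    hδ he hA hc V X X0 l u j n hV hX hXX hDX hgX hqX hδX hsX' hn hu hlj s₁ N2 i1 i2 Bd' Tn' hs₁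
    hBd' hnN hi1 hi2 (hPM'.mono hCC)
  have h3 := cell_two (J := A') (V := V) (e := e) (A := A) (c := c) (X := X) (by linarith)
    (Qf := NPp p) (δ := δ) (g₀ := g₀) hg₀ (φ := φ) (p := p) (t₀ := t₀) (l := l) (u := u) (j := j)
    (n := n) hfs hfs' hζ
  have h2j : (0 : ℝ) ≤ 2 / 2 ^ j * nm n := by positivity
  calc (2 / 2 ^ j) * ((nm n : ℝ) * ∑ j₂ ∈ Tb V e A c l, ∑ B ∈ bk X u,
        MNc A' V e A c X (NPp p) δ g₀ φ p t₀ j₂ B j n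
          (fun m => sqc q (alF z D0 P h ps) m - ζ * sqc q (alF z' D0 P h ps') m))
      = (2 / 2 ^ j * nm n) * ∑ j₂ ∈ Tb V e A c l, ∑ B ∈ bk X u,
        MNc A' V e A c X (NPp p) δ g₀ φ p t₀ j₂ B j n
          (fun m => sqc q (alF z D0 P h ps) m - ζ * sqc q (alF z' D0 P h ps') m) := by ring
    _ ≤ _ := mul_le_mul_of_nonneg_left h3 h2j
    _ = 2 * ((2 / 2 ^ j) * ((nm n : ℝ) * ∑ j₂ ∈ Tb V e A c l, ∑ B ∈ bk X u,
          MNc A' V e A c X (NPp p) δ g₀ φ p t₀ j₂ B j n (sqc q (alF z D0 P h ps))) +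
        (2 / 2 ^ j) * ((nm n : ℝ) * ∑ j₂ ∈ Tb V e A c l, ∑ B ∈ bk X u,
          MNc A' V e A c X (NPp p) δ g₀ φ p t₀ j₂ B j n (sqc q (alF z' D0 P h ps')))) := by ring
    _ ≤ 2 * (C * (Cφ ^ 2 * iA A' * (η * (η ^ A')⁻¹)) * X0 ^ (2 * ε) * (1 + |t₀|) ^ A' * opL r D0 *
        (Bd * Real.exp Tn) + C * (Cφ ^ 2 * iA A' * (η * (η ^ A')⁻¹)) * X0 ^ (2 * ε) *
          (1 + |t₀|) ^ A' * opL r D0 * (Bd' * Real.exp Tn')) := by gcongr
    _ = _ := by ring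

end Crest.Agent.R017.N2X298
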