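import Crest.Agent.R017.P1Rb_440
import Crest.Agent.R017.MoN7_106

/-!
# Row 17, FlatNE (helper106): the real side of the compensated E2, sharp cells, part a

* `cellL_of` : the cell hypothesis of 739's `cell_list` from helper440's `PMH`
* `cell_N2` : one cell of a flagged list
* `polar_N2` : the polar part, sharp in `δ`
-/

set_option autoImplicit false
set_option linter.unusedVariables false
set_option maxHeartbeats 1600000

noncomputable section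

open Finset
open scoped ComplexConjugate

namespace Crest.Agent.R017.N2106

open Crest.Agent.R012 Crest.Agent.R012.Eis
open Crest.Agent.R012.LS2 (S mem_S)
open Crest.Agent.R012.Div277 (dvs mem_dvs)
open Crest.Agent.R012.Mob705 (pdiv mem_pdiv)
open Crest.Agent.R017.B770
open Crest.Agent.R017.Prov71
open Crest.Agent.R017.CM106 (CS FS)
open Crest.Agent.R017.FE47 (cx PU)
open Crest.Agent.R017.HP842 (pc sqc)
open Crest.Agent.R017.Leg381 (alf alF Pf LF LF_get)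
open Crest.Agent.R017.XRG106
open Crest.Agent.R017.X6C180 (IX dl' Sg GF om')
open Crest.Agent.R017.Win813 (iA iA_nonneg WK)
open Crest.Agent.R017.RGw813 (T9)
open Crest.Agent.R017.H1401 (pb mem_pb WM HW DN)
open Crest.Agent.R017.MoF106
open Crest.Agent.R017.MoL106
open Crest.Agent.R017.QsO83 (bw FS_bw)
open Crest.Agent.R017.E2440
open Crest.Agent.R017.GKC739 (Tb mem_Tb Tb_prim Cell nm_C)
open Crest.Agent.R017.E2sp579 (fP)
open Crest.Agent.R017.NPy739 (MNc opL opL_nonneg MNc_nonneg MNc_spec CellL cell_list)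
open Crest.Agent.R017.MTL537 (ML ML_mono ML_nonneg mtl_cell)
open Crest.Agent.R017.RC106 (k9 log_fr)
open Crest.Agent.R017.P1Rb440 (PMH cell_s)

/-- **the cell hypothesis of `cell_list`** -/
theorem cellL_of {ε : ℝ} (hε : 0 < ε) : ∃ C₁ : ℝ, 1 ≤ C₁ ∧
    ∀ (h : ℝ → ℝ) (μ C : ℝ) (P : DPar) (ps : List Pf) (V X X0 : ℝ)
      (e A c g₀ : Eis) (p : ℕ × ℕ) (l u j : ℕ) (n : Eis), p ∈ T9 → 0 < V → 1 ≤ X →
      8 * X ^ 2 ≤ X0 → IsPrim e → IsPrim A → c ∈ C4 → IsPrim g₀ → IsPrim n →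
      Real.exp ((u : ℝ) / 3) ≤ X → Real.exp ((l : ℝ) / 3 + 1 / 3) * 2 ^ j ≤ X0 →
      ∀ (s₁ N2 i1 i2 Bd Tn : ℝ), Real.log (nm (e * A)) + k9 ≤ s₁ → 0 ≤ Bd →
      Real.log (nm n) ≤ N2 →
      Real.log (2 ^ j) + l / 3 ≤ i1 + u / 3 → Real.log (2 ^ j) + l / 3 ≤ i2 - 2 * (u / 3) →
      PMH h μ C P (fun i => (ps.get i).1) (Real.log (V * nm (e * A))) (Real.log (nm g₀)) N2
        i1 i2 s₁ Bd Tn →
      CellL h μ C P ps V e A c X (fun _ _ _ _ => True) g₀ p l u j n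
        (fun v _ => 3 * Real.exp (2 / 3) * Real.exp ((v : ℝ) / 3 +
          nr (Real.log (V * nm (e * A))) (Real.log (2 ^ j) + l / 3 - 3 * Real.log (nm n)) -
            l / 3))
        (C₁ * X0 ^ ε * (Bd * Real.exp (Real.log (2 ^ j) - Real.log (nm n) + Tn))) := by
  obtain ⟨C₁, hC₁, hc⟩ := cell_s hε
  refine ⟨3 * Real.exp (2 / 3) * C₁, ?_, ?_⟩
  · have h1 : 1 ≤ Real.exp (2 / 3) := Real.one_le_exp (by norm_num)
    nlinarith
  intro h μ C P ps V X X0 e A c g₀ p l u j n hp hV hX hXX0 he hA hc4 hg₀ hn hu hlj s₁ N2 i1 i2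
    Bd Tn hs₁ hBd hnN hi1 hi2 hPM v hv w hw hWp i g₃ hg₃ s' W0 hW0 hR hle
  have hX0 : 0 ≤ X := by linarith
  have hX00 : 0 < X0 := by nlinarith
  have hE : e * A ≠ 0 := mul_ne_zero he.ne_zero hA.ne_zero
  have hE2 : e * A * kw p ^ 2 ≠ 0 := mul_ne_zero hE (pow_ne_zero 2 (kw_ne p))
  have hτ : dl' c i ≠ 0 := dl_ne_zero (QsJ401.C4_ne hc4) i
  have hZ1 : (1 : ℝ) ≤ 2 ^ j := one_le_pow₀ (by norm_num)
  have hv3 := exp_third_le hX hv
  have huv : Real.exp (((u + v : ℕ) : ℝ) / 3 + 2 / 3) ≤ X0 := by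
    have e1 : Real.exp (((u + v : ℕ) : ℝ) / 3 + 2 / 3) =
        Real.exp ((u : ℝ) / 3) * Real.exp ((v : ℝ) / 3) * Real.exp (2 / 3) := by
      rw [← Real.exp_add, ← Real.exp_add]
      congr 1
      push_cast
      ring
    rw [e1]
    have h2 := exp_two_thirds
    calc Real.exp ((u : ℝ) / 3) * Real.exp ((v : ℝ) / 3) * Real.exp (2 / 3) ≤ X * X * 2 := by
          gcongr
      _ ≤ 8 * X ^ 2 := by nlinarith
      _ ≤ X0 := hXX0
  have hfr := log_fr hp hc4 i (E := e * A) hE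
  have hz0 : 0 ≤ Real.log ((2 : ℝ) ^ j) := Real.log_nonneg hZ1
  have hW00 : (0 : ℝ) ≤ W0 ^ (2 * μ) := Real.rpow_nonneg (by linarith) _
  set z := Real.log ((2 : ℝ) ^ j) with hz
  set νn := Real.log (nm n) with hνn
  have hνn0 : 0 ≤ νn := Real.log_nonneg (by exact_mod_cast nm_pos.2 hn.ne_zero)
  have hl0 : (0 : ℝ) ≤ (l : ℝ) / 3 := by positivity
  have hu0 : (0 : ℝ) ≤ (u : ℝ) / 3 := by positivity
  have hv0 : (0 : ℝ) ≤ (v : ℝ) / 3 := by positivity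
  have hw0 : (0 : ℝ) ≤ (w : ℝ) / 3 := by positivity
  set Lv := Real.log (V * nm (e * A)) with hLv
  set d₀ := Real.log (nm g₀) with hd₀
  set S' := ∑ k, (s' k).z with hS'
  set SS := ∑ k : Fin ps.length, (ps.get k).1.z with hSS
  set U := Tn - (νn + nr Lv (z + l / 3 - 3 * νn) - (z + l / 3)) - (SS - d₀ - u / 3 - S') with hU
  have key := hc (Tb V e A c l) X (2 ^ j) l u v w
    (fun y B => fP (fun g₂ g₃ d => DN n g₂ g₃ d ∧ (2 : ℝ) ^ j / 2 < nm d) fun _ => True)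
    g₃ (e * A * kw p ^ 2) (dl' c i) hX0 hZ1 hE2 hτ
    (fun y hy => ⟨Tb_prim hy, bk_nm_le (Real.sqrt_nonneg V) (mem_Tb.1 hy).1⟩) hg₃ X0 hlj huv s₁
    (by linarith) P h s' (Bd * W0 ^ (2 * μ) * Real.exp U) (by positivity)
    (fun h0 => hPM (z + l / 3) (u / 3) (v / 3) νn s' W0 (by linarith) hu0 hv0 hνn0 hnN hi1 hi2
      (by linarith) hW0 hR (by linarith))
  have hWp' : 0 ≤ 3 * Real.exp (2 / 3) * Real.exp ((v : ℝ) / 3 + nr Lv (z + l / 3 - 3 * νn) -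
      l / 3) * Real.exp ((w : ℝ) / 3) := by positivity
  refine (mul_le_mul_of_nonneg_left key hWp').trans (le_of_eq ?_)
  have e1 : Real.exp ((v : ℝ) / 3 + nr Lv (z + l / 3 - 3 * νn) - l / 3) *
      Real.exp ((w : ℝ) / 3) * Real.exp U =
      Real.exp (z - νn + Tn) * Real.exp (S' - (SS - (d₀ + ((u : ℝ) / 3 + v / 3 + w / 3)))) := by
    rw [← Real.exp_add, ← Real.exp_add, ← Real.exp_add]
    congr 1
    rw [hU]
    ring
  calc 3 * Real.exp (2 / 3) * Real.exp ((v : ℝ) / 3 + nr Lv (z + l / 3 - 3 * νn) - l / 3) *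
        Real.exp ((w : ℝ) / 3) * (C₁ * X0 ^ ε * (Bd * W0 ^ (2 * μ) * Real.exp U)) =
      3 * Real.exp (2 / 3) * C₁ * X0 ^ ε * Bd * W0 ^ (2 * μ) *
        (Real.exp ((v : ℝ) / 3 + nr Lv (z + l / 3 - 3 * νn) - l / 3) *
      Real.exp ((w : ℝ) / 3) * Real.exp U) := by ring
    _ = _ := by rw [e1]; ring

/-- monotonicity of the cell hypothesis in the constant -/
lemma CellL.mono {h : ℝ → ℝ} {μ C C' : ℝ} {P : DPar} {ps : List Pf} {V : ℝ}
    {e A c : Eis} {X : ℝ} {Qf : Eis → Eis → Eis → Eis → Prop} {g₀ : Eis} {p : ℕ × ℕ}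
    {l u j : ℕ} {n : Eis} {Wb : ℕ → ℕ → ℝ} {M : ℝ}
    (H : CellL h μ C' P ps V e A c X Qf g₀ p l u j n Wb M) (hC : C ≤ C') :
    CellL h μ C P ps V e A c X Qf g₀ p l u j n Wb M := by
  intro v hv w hw hW i g₃ hg₃ s' W0 hW0 hR hle
  exact H v hv w hw hW i g₃ hg₃ s' W0 hW0 (fun k => (hR k).mono hC) (hle.trans (by linarith))

/-- **one cell** -/
theorem cell_N2 {h : ℝ → ℝ} {c₀ : ℝ} (hpu : PU h c₀) {R : ℝ} (hR0 : 0 ≤ R)
    (hR : ∀ u, cx h u ≠ 0 → |u| ≤ R) {μ : ℝ} (hμ : 0 ≤ μ) (r : ℕ) {ε : ℝ} (hε : 0 < ε) :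
    ∃ C : ℝ, 1 ≤ C ∧ ∀ (A' : ℕ), 2 * (r * μ) + 2 ≤ A' → ∀ (Cφ η : ℝ) (φ : ℝ → ℝ), 0 ≤ Cφ →
      0 < η → η ≤ 1 → WK Cφ η A' φ → ∀ p ∈ T9, ∀ (t₀ : ℝ) (P : DPar) (_ : P.OK)
      (ps : List Pf), ps.length = r → (∀ x ∈ ps, 0 ≤ x.1.z) → ∀ z D0 : ℝ, 1 ≤ D0 →
      ∀ (q g₀ δ e A c : Eis), IsPrim q → IsPrim g₀ → IsPrim δ →
      IsPrim e → IsPrim A → c ∈ C4 → ∀ (V X X0 : ℝ) (l u j : ℕ) (n : Eis), 0 < V →
      1 ≤ X → 8 * X ^ 2 ≤ X0 → D0 ^ r ≤ X0 → (nm g₀ : ℝ) ≤ X0 → (nm q : ℝ) ≤ X0 →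
      (nm δ : ℝ) ≤ X0 → (∀ x ∈ ps, Real.exp x.1.z ≤ X0) → IsPrim n →
      Real.exp ((u : ℝ) / 3) ≤ X → Real.exp ((l : ℝ) / 3 + 1 / 3) * 2 ^ j ≤ X0 →
      ∀ (s₁ N2 i1 i2 Bd Tn : ℝ), Real.log (nm (e * A)) + k9 ≤ s₁ → 0 ≤ Bd →
      Real.log (nm n) ≤ N2 →
      Real.log (2 ^ j) + l / 3 ≤ i1 + u / 3 → Real.log (2 ^ j) + l / 3 ≤ i2 - 2 * (u / 3) →
      PMH h μ C P (fun i => (ps.get i).1) (Real.log (V * nm (e * A))) (Real.log (nm g₀)) N2
        i1 i2 s₁ Bd Tn →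
      (2 / 2 ^ j) * ((nm n : ℝ) * ∑ j₂ ∈ Tb V e A c l, ∑ B ∈ bk X u,
        MNc A' V e A c X (fun _ _ _ _ => True) δ g₀ φ p t₀ j₂ B j n (sqc q (alF z D0 P h ps))) ≤
      C * (Cφ ^ 2 * iA A' * (η * (η ^ A')⁻¹)) * X0 ^ (2 * ε) * (1 + |t₀|) ^ A' * opL r D0 *
        (Bd * Real.exp Tn) := by
  obtain ⟨C, hC, H⟩ := cell_list hpu hR0 hR hμ r hε
  obtain ⟨C₁, hC₁, H₁⟩ := cellL_of hε
  have hC0 : 0 ≤ C := by linarith
  have hC10 : 0 ≤ C₁ := by linarith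
  set CC := C * (2 * C₁) with hCC
  have hCCC : C ≤ CC := by nlinarith
  refine ⟨CC, hC.trans hCCC, ?_⟩
  intro A' hA' Cφ η φ hCφ hη hη1 hφ p hp t₀ P hP ps hr hs z D0 hD q g₀ δ e A c hq hg₀ hδ he hA hc
    V X X0 l u j n hV hX hXX hDX hgX hqX hδX hsX hn hu hlj s₁ N2 i1 i2 Bd Tn hs₁ hBd hnN hi1 hi2
    hPM
  have hX00 : 0 < X0 := by nlinarith
  have hX01 : 1 ≤ X0 := by nlinarith
  have hXX0 : X ≤ X0 := by nlinarith
  have hcell := H₁ h μ CC P ps V X X0 e A c g₀ p l u j n hp hV hX hXX he hA hc hg₀ hn hu hlj s₁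
    N2 i1 i2 Bd Tn hs₁ hBd hnN hi1 hi2 hPM
  have hnm1 : (1 : ℝ) ≤ nm n := by exact_mod_cast nm_pos.2 hn.ne_zero
  have hea : (1 : ℝ) ≤ nm (e * A) := by
    exact_mod_cast nm_pos.2 (mul_ne_zero he.ne_zero hA.ne_zero)
  have hcn : (1 : ℝ) ≤ nm c := (nm_C hc).1
  set Wb : ℕ → ℕ → ℝ := fun v _ => 3 * Real.exp (2 / 3) * Real.exp ((v : ℝ) / 3 +
          nr (Real.log (V * nm (e * A))) (Real.log (2 ^ j) + l / 3 - 3 * Real.log (nm n)) -
            l / 3) with hWb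
  set M : ℝ := C₁ * X0 ^ ε * (Bd * Real.exp (Real.log (2 ^ j) - Real.log (nm n) + Tn)) with hM
  have hM0 : 0 ≤ M := by positivity
  have key := H A' hA' Cφ η hCφ hη hη1 φ hφ p t₀ P hP ps hr hs z D0
    hD q g₀ δ e A hq hg₀ hδ he hA V X X0 hX hXX0 hDX hgX hqX
    hδX hsX l u j n (fun _ _ _ _ => True) Wb c hc
    (fun v hv w' hw' g₂ hg₂ g₃ hg₃ => by
      have hX0 : 0 ≤ X := by linarith
      have b1 := bk_nm_ge hX0 hg₂
      have b2 := bk_nm_le hX0 hg₂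
      have b3 : (1 : ℝ) ≤ nm g₃ := by exact_mod_cast nm_pos.2 (bk_prim hX0 hg₃).ne_zero
      have h2 := MoL106.WM_cell (V := Real.log (V * nm (e * A))) (s := 0) (a := (l : ℝ) / 3)
        (g := (v : ℝ) / 3) (w := 0)
        (i := Real.log (2 ^ j) + l / 3 - 3 * Real.log (nm n))
        (R := V * nm (e * A) / (nm c * Real.exp ((l : ℝ) / 3) ^ 2))
        (Z := 2 ^ j / (nm n : ℝ) ^ 3) le_rfl (by positivity) le_rfl (by positivity)
        (by positivity) (by positivity) (by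
          rw [zero_add, Real.exp_sub, Real.exp_log (by positivity)]
          have e1 : Real.exp (2 * ((l : ℝ) / 3)) = Real.exp ((l : ℝ) / 3) ^ 2 := by
            rw [← Real.exp_nat_mul]; norm_num
          rw [e1]
          refine div_le_div_of_nonneg_left (by positivity) (by positivity) ?_
          have : 0 ≤ Real.exp ((l : ℝ) / 3) ^ 2 := by positivity
          nlinarith) (by
          have e1 : Real.log (2 ^ j) + (l : ℝ) / 3 - 3 * Real.log (nm n) - l / 3 + 3 * 0 =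
            Real.log (2 ^ j) - 3 * Real.log (nm n) := by ring
          rw [e1, Real.exp_sub, Real.exp_log (by positivity)]
          have e2 : Real.exp (3 * Real.log (nm n)) = (nm n : ℝ) ^ 3 := by
            have h3 : (3 : ℝ) * Real.log (nm n) = Real.log ((nm n : ℝ) ^ 3) := by
              rw [Real.log_pow]; norm_num
            rw [h3, Real.exp_log (by positivity)]
          rw [e2]) b1 b2 (by rw [Real.exp_zero]; exact b3)
      refine h2.trans (le_of_eq ?_)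
      rw [hWb]
      beta_reduce
      congr 2
      ring)
    (fun v _ w' _ => by rw [hWb]; positivity) M hM0
    (CellL.mono hcell hCCC)
  have h2j : (0 : ℝ) < 2 ^ j := by positivity
  calc (2 / 2 ^ j) * ((nm n : ℝ) * ∑ j₂ ∈ Tb V e A c l, ∑ B ∈ bk X u,
        MNc A' V e A c X (fun _ _ _ _ => True) δ g₀ φ p t₀ j₂ B j n (sqc q (alF z D0 P h ps))) ≤
      (2 / 2 ^ j) * ((nm n : ℝ) * (C * (Cφ ^ 2 * iA A' * (η * (η ^ A')⁻¹)) *
        X0 ^ ε * (1 + |t₀|) ^ A' * opL r D0 * M)) := by gcongr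
    _ = CC * (Cφ ^ 2 * iA A' * (η * (η ^ A')⁻¹)) * (X0 ^ ε * X0 ^ ε) * (1 + |t₀|) ^ A' *
        opL r D0 * (Bd * Real.exp Tn) := by
        rw [hM, hCC, Real.exp_add, Real.exp_sub, Real.exp_log h2j,
          Real.exp_log (by linarith : (0 : ℝ) < nm n)]
        field_simp
    _ = _ := by
        rw [← Real.rpow_add hX00]
        congr 5
        ring

/-! ### the polar part -/

lemma ag_ag {α : Eis → ℂ} {δ g : Eis} : ag (ag α δ g) 1 1 = ag α δ g := by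
  funext n
  conv_lhs => unfold E2440.ag
  have h1 : IsCoprime n (1 : Eis) := isCoprime_one_right
  rw [if_pos h1, one_mul]
  rfl

open Classical in
/-- **the polar part**, sharp in `δ` -/
theorem polar_N2 {ε : ℝ} (hε : 0 < ε) : ∃ C : ℝ, 0 ≤ C ∧
    ∀ (X Q Ax : ℝ) (α : Eis → ℂ), 0 ≤ Ax → FS α → (∀ n, α n ≠ 0 → Squarefree n) →
    (∀ n, α n ≠ 0 → X / 2 < nm n ∧ (nm n : ℝ) ≤ X) → (∀ n, ‖α n‖ ≤ Ax) →
    ∀ δ e A : Eis, IsPrim δ → Squarefree δ → IsPrim e → IsPrim A → ∀ V B0 : ℝ, 0 < V →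
    0 < B0 → (nm δ : ℝ) ≤ X → X ≤ Q → V * (nm (e * A) : ℝ) ^ 3 ≤ Q → ∀ c ∈ C4, ∀ l u : ℕ,
    (∃ j₂ ∈ Tb V e A c l, ∃ B ∈ bk (X / nm δ) u, B0 < nm B) →
    Real.exp (-(4 / 3) * ((u : ℝ) / 3)) * ∑ j₂ ∈ Tb V e A c l, ∑ B ∈ bk (X / nm δ) u,
        ∑ r ∈ (S (RR V e A c j₂)).filter (fun r => IsCoprime r 1 ∧ RR V e A c j₂ / 2 < nm r),
          ‖MT (ag α δ δ) (e * A * j₂) B c r‖ ^ 2 ≤
      C * Q ^ ε * Ax ^ 2 * ((X / nm δ) ^ ((2 : ℝ) / 3) / B0 *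
        ((V * (nm (e * A) : ℝ) ^ 3) ^ ((1 : ℝ) / 3) *
        ML (V * (nm (e * A) : ℝ) ^ 3) (X / nm δ / B0))) := by
  obtain ⟨C, hC, H⟩ := mtl_cell hε (R := 1) zero_le_one
  refine ⟨C, hC, ?_⟩
  intro X Q Ax α hAx hFS hsq hsp hA1 δ e A hδ hδs he hA V B0 hV hB0 hδX hXQ hVQ c hc l u hex
  have hδ1 : (1 : ℝ) ≤ nm δ := by exact_mod_cast nm_pos.2 hδ.ne_zero
  have hδ0 : (0 : ℝ) < nm δ := by linarith
  have hX0 : 0 < X := by linarith
  have hX'1 : 1 ≤ X / nm δ := by rwa [le_div_iff₀ hδ0, one_mul]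
  have hX'0 : 0 ≤ X / nm δ := by linarith
  have hX'Q : X / nm δ ≤ Q := (div_le_self hX0.le hδ1).trans hXQ
  have hn1 : (nm (1 : Eis) : ℝ) = 1 := by
    have : nm (1 : Eis) = 1 := by decide
    exact_mod_cast this
  have hag : ∀ n, ag α δ δ n ≠ 0 → IsPrim n ∧ Squarefree n ∧ X / nm δ / 2 < nm n ∧
      (nm n : ℝ) ≤ X / nm δ := by
    intro n hn
    obtain ⟨h1, h2⟩ := ag_ne hn
    obtain ⟨h3, h4⟩ := hsp _ h2
    have e1 : (nm (δ * n) : ℝ) = nm δ * nm n := by rw [nm_mul]; push_cast; ring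
    rw [e1] at h3 h4
    have hp := hFS.prim _ h2
    refine ⟨IsPrim.of_mul_left hp hδ, ?_, ?_, ?_⟩
    · exact (hsq _ h2).of_mul_right
    · rw [div_div, div_lt_iff₀ (by positivity)]
      linarith
    · rw [le_div_iff₀ hδ0]
      linarith
  have key := H (X / nm δ) (X / nm δ) Q Ax (ag α δ δ) hX'1 (by linarith) hAx
    (fun n hn => by
      obtain ⟨h1, h2, h3, h4⟩ := hag n hn
      rw [mem_S hX'0]
      exact ⟨h4, h1, h2⟩)
    (fun n hn => by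
      obtain ⟨h1, h2, h3, h4⟩ := hag n hn
      have hn0 : (0 : ℝ) < nm n := by exact_mod_cast nm_pos.2 h1.ne_zero
      have h5 : Real.log (nm n) ≤ Real.log (X / nm δ) := Real.log_le_log hn0 h4
      have h6 : Real.log (X / nm δ) ≤ Real.log (2 * nm n) :=
        Real.log_le_log (by linarith) (by linarith)
      rw [Real.log_mul (by norm_num) hn0.ne'] at h6
      have := RC106.log2_le1
      rw [abs_le]
      constructor <;> linarith)
    (fun n => by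
      by_cases h0 : ag α δ δ n = 0
      · rw [h0, norm_zero]; exact hAx
      · have e1 : ag α δ δ n = α (δ * n) := by
          unfold E2440.ag
          rw [if_pos (ag_ne h0).1]
        rw [e1]
        exact hA1 _)
    1 isPrim_one squarefree_one (by rw [hn1]; linarith) (fun n _ => one_dvd n) 1 e A isPrim_one
    squarefree_one he hA V B0 (Real.sqrt V) hV hB0 (Real.sqrt_nonneg V) hX'Q hVQ (Tb V e A c l)
    (fun t ht => by
      rw [mem_S (Real.sqrt_nonneg V)]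
      exact ((mem_bk (Real.sqrt_nonneg V)).1 (mem_Tb.1 ht).1).1)
    (bk (X / nm δ) u) u (fun B hB => by
      refine ⟨?_, bk_nm_ge hX'0 hB, bk_nm_le hX'0 hB⟩
      rw [mem_S hX'0]
      exact ((mem_bk hX'0).1 hB).1) (by
      obtain ⟨j₂, hj₂, B, hB, hBB⟩ := hex
      exact ⟨B, hB, hBB⟩) c hc
  rw [ag_ag, hn1, div_one, mul_one] at key
  exact key

end Crest.Agent.R017.N2106
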