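import Crest.Agent.R017.P1Rd_440

/-!
# Row 17, R8: the real side of E2 for `P1`, part e (helper440): one window

* `Qs_P1w` : one window of `∑ c, ∑ j₂, Qs`
-/

set_option autoImplicit false
set_option maxHeartbeats 16000000

noncomputable section

open Finset
open scoped ComplexConjugate

namespace Crest.Agent.R017.P1Re440

open Crest.Agent.R012 Crest.Agent.R012.Eis Crest.Agent.R012.LS2 Crest.Agent.R012.Gauss880
open Crest.Agent.R012.Div277 (dvs mem_dvs)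
open Crest.Agent.R012.Mob705 (pdiv mem_pdiv)
open Crest.Agent.R017.FE47 (cx PU)
open Crest.Agent.R017.B770
open Crest.Agent.R017.Prov71
open Crest.Agent.R017.CM106 (CS FS)
open Crest.Agent.R017.HP842 (pc al sqc)
open Crest.Agent.R017.Leg381 (alf)
open Crest.Agent.R017.H1401 (pb mem_pb WM HW DN)
open Crest.Agent.R017.MoF106
open Crest.Agent.R017.MoL106
open Crest.Agent.R017.XRG106
open Crest.Agent.R017.Rough381 (VF)
open Crest.Agent.R017.X6C180 (Sg IX dl' GF om')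
open Crest.Agent.R017.GKC739
open Crest.Agent.R017.NPy739
open Crest.Agent.R017.Win813 (iA iA_nonneg WK)
open Crest.Agent.R017.QsO83 (bw FS_bw bw_ne)
open Crest.Agent.R017.I1146 (tw3)
open Crest.Agent.R017.RC106 (k9)
open Crest.Agent.R017.E2sp579 (fP)
open Crest.Agent.R017.X6545 (TF Bd)
open Crest.Agent.R017.X6W180 (TF1 tf1_tf)
open Crest.Agent.R012.Char766 (norm_sy_le)
open Crest.Agent.R017.E2440 (C4 mem_C4 RR MT ag ag_ne fs_ag Qs Qs_nonneg prs mem_prs KDd KDd_GF GKd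
  NBf isC_sg)
open Crest.Agent.R017.P1Ra440
open Crest.Agent.R017.P1Rb440
open Crest.Agent.R017.P1Rc440
open Crest.Agent.R017.P1Rd440

lemma VFH.mono {h : ℝ → ℝ} {μ C C' : ℝ} {P : DPar} {r : ℕ} {s : Fin r → Pq} {q δ g₀ : Eis}
    {Λ n₀ Mp : ℝ} (H : VFH h μ C' P s q δ g₀ Λ n₀ Mp) (hC : C ≤ C') :
    VFH h μ C P s q δ g₀ Λ n₀ Mp := by
  intro γ hγ hγ1 c hc y hy hcy hy3 s' hs' h1 h2
  refine H γ hγ hγ1 c hc y hy hcy hy3 s' (fun k => ?_) (h1.trans (by linarith)) (by linarith)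
  exact ⟨(hs' k).kd, (hs' k).d, (hs' k).one, (hs' k).z0, (hs' k).zle.trans (by linarith)⟩

/-- the sizes of a block -/
structure SzP (Pz V K : ℝ) (δ e : Eis) : Prop where
  P1 : 1 ≤ Pz
  V1 : 1 ≤ V
  VP : V ≤ Pz
  K0 : 0 < K
  Ki : K⁻¹ ≤ Pz
  KP : K ≤ Pz
  δp : IsPrim δ
  δs : Squarefree δ
  δP : (nm δ : ℝ) ≤ Pz
  ep : IsPrim e
  eP : (nm e : ℝ) ≤ Pz

/-- a cell of the first kind -/
lemma sh1 {T V K X' nν nE nc eu : ℝ} {a j : ℕ} (hT : 0 < T) (hV : 0 < V) (hK : 0 < K)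
    (hX : 0 < X') (hν : 0 < nν) (hE : 0 < nE) (hnc : 1 ≤ nc) (heu : 0 < eu)
    (h : (2 : ℝ) ^ j < 4 * T * 1 * nν ^ 2 * X' * V * nE ^ 2 * eu /
      (nc * K * Real.exp ((a : ℝ) / 3))) :
    (2 : ℝ) ^ j * Real.exp ((a : ℝ) / 3) ≤ 4 * T * nν ^ 2 * X' * V * nE ^ 2 * eu / K ∧
    Real.log (2 ^ j) + (a : ℝ) / 3 ≤ Real.log 4 + Real.log T + 2 * Real.log nν + Real.log X' +
      Real.log V + 2 * Real.log nE + Real.log eu - Real.log K := by
  have ha := Real.exp_pos ((a : ℝ) / 3)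
  have h1 : (2 : ℝ) ^ j * Real.exp ((a : ℝ) / 3) ≤
      4 * T * nν ^ 2 * X' * V * nE ^ 2 * eu / K := by
    rw [lt_div_iff₀ (by positivity)] at h
    rw [le_div_iff₀ hK]
    have h2 : (2 : ℝ) ^ j * Real.exp ((a : ℝ) / 3) * K ≤
        (2 : ℝ) ^ j * (nc * K * Real.exp ((a : ℝ) / 3)) := by
      have h3 : 0 ≤ (2 : ℝ) ^ j * Real.exp ((a : ℝ) / 3) * K := by positivity
      nlinarith
    linarith
  refine ⟨h1, ?_⟩
  have h2 := Real.log_le_log (by positivity) h1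
  rw [Real.log_mul (by positivity) ha.ne', Real.log_exp, Real.log_div (by positivity) hK.ne',
    Real.log_mul (by positivity) heu.ne', Real.log_mul (by positivity) (by positivity),
    Real.log_mul (by positivity) hV.ne', Real.log_mul (by positivity) hX.ne',
    Real.log_mul (by positivity) (by positivity), Real.log_mul (by norm_num) hT.ne',
    Real.log_pow nE, Real.log_pow nν] at h2
  push_cast at h2
  linarith

/-- a cell of the second kind -/
lemma sh2 {K nE eu : ℝ} {a j : ℕ} (hK : 0 < K) (hE : 0 < nE) (heu : 0 < eu)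
    (h : (2 : ℝ) ^ j < 10 * K / (nE * Real.exp ((a : ℝ) / 3) * eu ^ 2)) :
    (2 : ℝ) ^ j * Real.exp ((a : ℝ) / 3) ≤ 10 * K / (nE * eu ^ 2) ∧
    Real.log (2 ^ j) + (a : ℝ) / 3 ≤ Real.log 10 + Real.log K - Real.log nE -
      2 * Real.log eu := by
  have ha := Real.exp_pos ((a : ℝ) / 3)
  have h1 : (2 : ℝ) ^ j * Real.exp ((a : ℝ) / 3) ≤ 10 * K / (nE * eu ^ 2) := by
    rw [lt_div_iff₀ (by positivity)] at h
    rw [le_div_iff₀ (by positivity)]
    linarith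
  refine ⟨h1, ?_⟩
  have h2 := Real.log_le_log (by positivity) h1
  rw [Real.log_mul (by positivity) ha.ne', Real.log_exp, Real.log_div (by positivity)
    (by positivity), Real.log_mul (by norm_num) hK.ne', Real.log_mul hE.ne' (by positivity),
    Real.log_pow eu] at h2
  push_cast at h2
  linarith

lemma exp13 : Real.exp (1 / 3) ≤ 2 := by
  have h1 : Real.exp 1 < 8 := lt_trans Real.exp_one_lt_d9 (by norm_num)
  have h2 : Real.exp (1 / 3) ^ 3 = Real.exp 1 := by rw [← Real.exp_nat_mul]; norm_num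
  by_contra hc
  push Not at hc
  have h3 : (2 : ℝ) ^ 3 < Real.exp (1 / 3) ^ 3 := pow_lt_pow_left₀ hc (by norm_num) (by norm_num)
  norm_num at h3
  linarith

open Classical in
/-- **one window** -/
theorem Qs_P1w {h : ℝ → ℝ} {c₀ : ℝ} (hpu : PU h c₀) {R : ℝ} (hR0 : 0 ≤ R)
    (hR : ∀ u, cx h u ≠ 0 → |u| ≤ R) {μ : ℝ} (hμ : 0 ≤ μ) (r : ℕ) {ε : ℝ} (hε : 0 < ε)
    (hε2 : ε ≤ 1) (a₀ M' A' : ℕ) (hA' : 2 * (r * μ) + 2 ≤ A') :
    ∃ (k : ℕ) (C : ℝ), 1 ≤ C ∧ ∀ (F : ℝ → ℂ) (Sf : ℝ), TF1 F → Bd F k Sf → ∀ Pz : ℝ,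
      ∀ (Cφ : ℝ) (φ : ℝ → ℝ), 0 ≤ Cφ → WK Cφ (1 / 2) A' φ → Cφ * iA A' ≤ Pz → ∀ c₁ : ℝ,
      (∀ u, φ u ≠ 0 → |u - c₁| ≤ 1 / 4) → Real.exp (c₁ + 1 / 4) ≤ Pz →
      ∀ (P : DPar) (_ : P.OK) (s : Fin r → Pq), (∀ i, 0 ≤ (s i).z) →
      (∀ i, Real.exp (s i).z ≤ Pz) → ∀ (f : Fin r → Bool) (z : ℝ) (q st : Eis), IsPrim q →
      (nm q : ℝ) ≤ Pz → st ≠ 0 → (nm st : ℝ) ≤ Pz →
      (∀ n, ‖sqc q (alf z 1 h (fun i => (s i).pc P) f) n‖ ≤ Pz ^ a₀) →
      (∀ n, sqc q (alf z 1 h (fun i => (s i).pc P) f) n ≠ 0 → Squarefree n) →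
      ∀ (V K : ℝ) (δ e : Eis), SzP Pz V K δ e → ∀ y ∈ prs δ, ∀ A ∈ pdiv y.1,
      ∀ (s₁ i1 i2 Bd Tn : ℝ), Real.log (nm (e * A * st ^ 4)) + k9 ≤ s₁ → 0 ≤ Bd →
      Real.log 4 + ε / 2 * Real.log Pz + 2 * Real.log (nm y.2) +
        (c₁ + 1 / 4 - Real.log (nm y.1)) + Real.log V + 2 * Real.log (nm (e * A)) -
        Real.log K ≤ i1 →
      Real.log 10 + Real.log K - Real.log (nm (e * A)) + 1 ≤ i2 →
      PMH h μ C P s (Real.log (V * nm (e * A))) (Real.log (nm y.1)) (Real.log (nm y.2)) i1 i2 s₁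
        Bd Tn →
      (y.2 = 1 → ∀ b : ℝ, 0 ≤ b → i2 - i1 ≤ 3 * b + 1 →
        VFH h μ C P s q δ y.1
          (V * (nm (e * A) : ℝ) ^ 3 * (nm st : ℝ) ^ 8 * Real.exp (b + 1 / 3))
          (∑ k, (s k).z - (Real.log (nm y.1) + b))
          (Bd * Real.exp (Tn + 1 / 3 * Real.log V - 2 / 3 * Real.log K +
            Real.log (nm (e * A)) + 4 / 3 * b +
            1 / 3 * (∑ k, (s k).z - Real.log (nm y.1) - b)))) →
      ∑ c ∈ C4, ∑ j₂ ∈ S (Real.sqrt V), Qs (bw φ (0, 0) 0 (tw3 st (sqc q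
        (alf z 1 h (fun i => (s i).pc P) f)))) δ e V K (GF F) y A c j₂ ≤
      C * Sf ^ 2 * (1 + Cφ ^ 2) * Pz ^ (50 * ε) *
        (V ^ (-(1 : ℝ) / 3) * K ^ ((2 : ℝ) / 3) / nm (e * A) * (Bd * Real.exp Tn) +
          (Pz ^ M')⁻¹) := by
  obtain ⟨M, CQ, hCQ, HQ⟩ := Qs_cells hε (a₀ + 1) M'
  obtain ⟨k, CK, hCK, HK⟩ := kddG A' M 1
  obtain ⟨CN, hCN, HN⟩ := cell_P1 hpu hR0 hR hμ r hε
  obtain ⟨CT, hCT, HT⟩ := polar_le hpu hR0 hR hμ r hε
  have hiA := iA_nonneg A'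
  set gA : ℝ := iA A' * (1 / 2 * ((1 / 2 : ℝ) ^ A')⁻¹) with hgA
  have hgA0 : 0 ≤ gA := by positivity
  set C16 : ℝ := (32 : ℝ) ^ (2 * ε) with hC16
  have hC160 : 1 ≤ C16 := Real.one_le_rpow (by norm_num) (by linarith)
  have hCQK : 0 ≤ CQ * CK ^ 2 := by positivity
  set CC : ℝ := CN + CT + (1 + CQ * CK ^ 2) * (1 + (CN + CT) * gA * C16) with hCC
  have hx1 : 0 ≤ (CN + CT) * gA * C16 := by positivity
  have hx2 : 0 ≤ (1 + CQ * CK ^ 2) * (1 + (CN + CT) * gA * C16) := by positivity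
  refine ⟨k, CC, by linarith, ?_⟩
  intro F Sf hF hBF Pz Cφ φ hCφ hφ hφP c₁ hφs hcP P hP s hs hsP f z q st hq hqP hst hstP hal hsq
    V K δ e hz y hy A hA s₁ i1 i2 Bd Tn hs₁ hBd hi1 hi2 hPM hVF
  have hP1 := hz.P1
  have hP0 : 0 < Pz := by linarith
  have hV0 : 0 < V := by linarith [hz.V1]
  have hK0 := hz.K0
  have hy' := (mem_prs hz.δp).mp hy
  have hA2 := (mem_pdiv hy'.1.ne_zero).mp hA
  have hSf : 0 ≤ Sf := (norm_nonneg _).trans (hBF 0 (Nat.zero_le _) 0)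
  set al₀ : Eis → ℂ := sqc q (alf z 1 h (fun i => (s i).pc P) f) with hal₀
  have hFS0 : FS al₀ :=
    HP842.FS.sqc (FS_alf' hR (s := fun i => (s i).pc P) (fun i => (s i).ok hP) z 1 f) q
  set α : Eis → ℂ := bw φ (0, 0) 0 (tw3 st al₀) with hα
  have hFSt := FS_tw3 st hFS0
  have hFSα : FS α := FS_bw hFSt
  set X : ℝ := Real.exp (c₁ + 1 / 4) with hX
  have hX0 : 0 < X := Real.exp_pos _
  -- the support
  have hαne : ∀ n, α n ≠ 0 → al₀ n ≠ 0 := fun n hn => right_ne_zero_of_mul (bw_ne hn)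
  have hαsq : ∀ n, α n ≠ 0 → Squarefree n := fun n hn => hsq n (hαne n hn)
  have hαs : ∀ n, α n ≠ 0 → X / 2 < nm n ∧ (nm n : ℝ) ≤ X := by
    intro n hn
    have h1 := bw_val (φ := φ) hFSt n
    have h2 : φ (Real.log (nm n)) ≠ 0 := by
      intro h0
      apply hn
      rw [hα, h1, h0]
      simp
    have h3 := abs_le.1 (hφs _ h2)
    have hn0 : (0 : ℝ) < nm n := by exact_mod_cast nm_pos.2 (hFSα.prim n hn).ne_zero
    constructor
    · have e1 : (nm n : ℝ) = Real.exp (Real.log (nm n)) := (Real.exp_log hn0).symm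
      rw [e1]
      have h4 : Real.exp (c₁ - 1 / 4) ≤ Real.exp (Real.log (nm n)) :=
        Real.exp_le_exp.2 (by linarith)
      refine lt_of_lt_of_le ?_ h4
      rw [hX, show c₁ + 1 / 4 = (c₁ - 1 / 4) + 1 / 2 by ring, Real.exp_add]
      have h5 : Real.exp (1 / 2) < 2 := by
        have h6 : Real.exp 1 < 4 := lt_trans Real.exp_one_lt_d9 (by norm_num)
        have h7 : Real.exp (1 / 2) ^ 2 = Real.exp 1 := by
          rw [← Real.exp_nat_mul]; norm_num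
        have h8 := Real.exp_pos (1 / 2)
        nlinarith
      have h6 := Real.exp_pos (c₁ - 1 / 4)
      nlinarith
    · rw [← Real.log_le_iff_le_exp hn0]
      linarith
  have hαP : ∀ n, ‖α n‖ ≤ Pz ^ (a₀ + 1) := by
    intro n
    by_cases h0 : α n = 0
    · rw [h0, norm_zero]; positivity
    have hp := hFSα.prim n h0
    rw [hα, bw_val hFSt n, norm_mul, Complex.norm_real, Real.norm_eq_abs]
    have h1 : |φ (Real.log (nm n))| ≤ Pz :=
      (hφ.le (by norm_num) (by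
        have h1 : (0 : ℝ) ≤ 2 * (r * μ) := by positivity
        have : (2 : ℝ) ≤ A' := by linarith
        exact_mod_cast this) _).trans hφP
    have h2 : ‖tw3 st al₀ n‖ ≤ Pz ^ a₀ := by
      unfold I1146.tw3
      rw [norm_mul]
      calc ‖sy st n‖ * ‖al₀ n‖ ≤ 1 * Pz ^ a₀ :=
            mul_le_mul (norm_sy_le hp) (hal n) (norm_nonneg _) zero_le_one
        _ = _ := one_mul _
    calc ‖tw3 st al₀ n‖ * |φ (Real.log (nm n))| ≤ Pz ^ a₀ * Pz :=
          mul_le_mul h2 h1 (abs_nonneg _) (by positivity)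
      _ = _ := by rw [pow_succ]
  have hy1n : (1 : ℝ) ≤ nm y.1 := one_le_nmR hy'.1.ne_zero
  have hy2n : (1 : ℝ) ≤ nm y.2 := one_le_nmR hy'.2.1.ne_zero
  have hyδ : (nm δ : ℝ) = nm y.1 * nm y.2 := by
    rw [← hy'.2.2, nm_mul]; push_cast; ring
  have hy1P : (nm y.1 : ℝ) ≤ Pz := by
    refine le_trans ?_ hz.δP
    rw [hyδ]
    nlinarith
  have hy2P : (nm y.2 : ℝ) ≤ Pz := by
    refine le_trans ?_ hz.δP
    rw [hyδ]
    nlinarith
  have hA1 : (1 : ℝ) ≤ nm A := one_le_nmR hA2.1.ne_zero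
  have hAP : (nm A : ℝ) ≤ Pz := by
    refine le_trans ?_ hy1P
    exact_mod_cast Div277.nm_le_of_dvd hy'.1.ne_zero hA2.2
  have he1 : (1 : ℝ) ≤ nm e := one_le_nmR hz.ep.ne_zero
  have hea : (nm (e * A) : ℝ) = nm e * nm A := by rw [nm_mul]; push_cast; ring
  have hea1 : (1 : ℝ) ≤ nm (e * A) := by rw [hea]; nlinarith
  have hea2 : (nm (e * A) : ℝ) ≤ Pz ^ 2 := by
    rw [hea, sq]
    exact mul_le_mul hz.eP hAP (by positivity) (by positivity)
  have hPe : 0 ≤ Pz ^ (50 * ε) := by positivity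
  have hW0 : 0 ≤ V ^ (-(1 : ℝ) / 3) * K ^ ((2 : ℝ) / 3) / nm (e * A) := by positivity
  have hRHS : 0 ≤ C16 := by linarith
  have hres0 : 0 ≤ CC * Sf ^ 2 * (1 + Cφ ^ 2) * Pz ^ (50 * ε) *
        (V ^ (-(1 : ℝ) / 3) * K ^ ((2 : ℝ) / 3) / nm (e * A) * (Bd * Real.exp Tn) +
          (Pz ^ M')⁻¹) := by
    have : 0 ≤ CC := by linarith
    positivity
  have hFb := GF_bd hF
  by_cases hyX : (nm y.1 : ℝ) ≤ X
  swap
  · refine (Qs_ag0 hFb hK0 hz.ep.ne_zero hy'.1 hA2.1.ne_zero V (fun n => ?_)).trans hres0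
    by_contra h0
    have h1 := (ag_ne h0).2
    have h2 := (hαs _ h1).2
    have h3 : (1 : ℝ) ≤ nm n := by
      refine one_le_nmR ?_
      rintro rfl
      rw [mul_zero] at h1
      exact (hFSα.prim 0 h1).ne_zero rfl
    have h4 : (nm (y.1 * n) : ℝ) = nm y.1 * nm n := by rw [nm_mul]; push_cast; ring
    rw [h4] at h2
    apply hyX
    nlinarith
  set X' : ℝ := X / nm y.1 with hX'
  have hX'1 : 1 ≤ X' := by rw [hX', le_div_iff₀ (by linarith)]; linarith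
  have hX'P : X' ≤ Pz := (div_le_self hX0.le hy1n).trans hcP
  have hlX' : Real.log X' = c₁ + 1 / 4 - Real.log (nm y.1) := by
    rw [hX', Real.log_div hX0.ne' (by linarith), hX, Real.log_exp]
  set B0 : ℝ := Real.exp ((i2 - i1) / 3) with hB0
  set X0 : ℝ := 32 * Pz ^ 20 with hX0d
  have hP20 : ∀ m : ℕ, m ≤ 20 → Pz ^ m ≤ Pz ^ 20 := fun m hm => pow_le_pow_right₀ hP1 hm
  have hPX0 : Pz ≤ X0 := by
    have := hP20 1 (by norm_num)
    rw [pow_one] at this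
    have h2 : 0 ≤ Pz ^ 20 := by positivity
    linarith
  have hX01 : 1 ≤ X0 := hP1.trans hPX0
  have hX00 : 0 < X0 := by linarith
  set GG : ℝ := Cφ ^ 2 * iA A' * (1 / 2 * ((1 / 2 : ℝ) ^ A')⁻¹) with hGG
  have hGG0 : 0 ≤ GG := by positivity
  set M0 : ℝ := CN * GG * X0 ^ (2 * ε) * (Bd * Real.exp Tn) with hM0
  have hM00 : 0 ≤ M0 := by positivity
  set M1 : ℝ := CT * GG * X0 ^ ε * (Bd * Real.exp (Tn + 1 / 3 * Real.log V -
    2 / 3 * Real.log K + Real.log (nm (e * A)))) with hM1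
  have hM10 : 0 ≤ M1 := by positivity
  have hCNC : CN ≤ CC := by rw [hCC]; linarith
  have hCTC : CT ≤ CC := by rw [hCC]; linarith
  have hT1 : 1 ≤ Pz ^ (ε / 2) := Real.one_le_rpow hP1 (by linarith)
  have hTP : Pz ^ (ε / 2) ≤ Pz := by
    calc Pz ^ (ε / 2) ≤ Pz ^ (1 : ℝ) := Real.rpow_le_rpow_of_exponent_le hP1 (by linarith)
      _ = Pz := Real.rpow_one _
  have h1 := HQ Pz hP1 A' (GF F) (CK * Sf) 1 (fun y => min 1 (y ^ 1)) (fun _ => 1)
    (fun σ => om' σ F) (fun σ hσ => HK F Sf hF hBF σ hσ) (fun _ _ => min_le_left _ _)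
    (fun _ _ => le_rfl) hP1 X V K B0 hcP hz.V1 hz.VP hK0 hz.Ki hz.KP α hFSα hαsq hαs hαP δ e
    hz.δp hz.δs hz.δP hz.ep hz.eP y hy A hA hyX
    (fun c j₂ B j n => MNx A' V e A c X' (fun _ _ _ => True) δ y.1 φ (0, 0) 0
      (e * A * j₂ * st ^ 4) j₂ B j n al₀) (fun _ _ _ _ => 0) M0 M1 hM00 hM10
    (fun _ _ _ _ => le_rfl)
    (fun c _ j₂ _ hRR B _ j n => by
      unfold NPy739.MNx
      exact NPx739.MNn_nonneg
        (fun g₂ _ g₃ _ => H1401.WM_nonneg (by linarith) (by positivity) g₂ g₃) _)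
    (fun c _ j₂ _ hRR B hB i t j _ => by
      have hX'0 : 0 ≤ X' := by linarith
      have hBp := ((mem_S hX'0).1 hB).2.1
      have h2 := MNx_spec (J := A') (V := V) (e := e) (A := A) (c := c) (X := X') hX'0
        (Q := fun _ _ _ => True) (δ := δ) hy'.1 (φ := φ) (p := (0, 0)) (t₀ := 0)
        (E := e * A * j₂ * st ^ 4) (j₂ := j₂) (B := B) hRR hBp.ne_zero j y.2 hFS0 i t
      simp only [fP_true] at h2
      rw [add_zero]
      refine le_trans (Finset.sum_le_sum fun n _ => mul_le_mul_of_nonneg_left ?_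
        (Nat.cast_nonneg _)) h2
      exact MoP_tw3 hFS0 hy'.1 hBp φ (0, 0) 0 (e * A * j₂) (dl' c i) X' t (2 ^ j) _
        (fun g₂ _ g₃ _ => H1401.WM_nonneg (by linarith) (by positivity) g₂ g₃))
    (fun c hc l u j hcl n hn => by
      have hn' := (mem_dvs hy'.2.1.ne_zero).1 hn
      have hsh := hcl.shell hT1 le_rfl hK0 hX'1 hy'.2.1 hz.ep hA2.1 hc
      have hu : Real.exp ((u : ℝ) / 3) ≤ X' := by
        obtain ⟨j₂, hj₂, B, hB, -⟩ := hcl
        have hX'0 : 0 ≤ X' := by linarith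
        exact (bk_nm_ge hX'0 hB).trans ((mem_bk hX'0).1 hB).1.1
      have hcn := (nm_C hc).1
      have heu := Real.exp_pos ((u : ℝ) / 3)
      have hnum : Real.exp ((l : ℝ) / 3 + 1 / 3) * 2 ^ j ≤ X0 ∧
          Real.log (2 ^ j) + l / 3 ≤ i1 + u / 3 ∧
          Real.log (2 ^ j) + l / 3 ≤ i2 - 2 * (u / 3) := by
        rcases hsh with ⟨hb, hj⟩ | ⟨hb, hj⟩
        · obtain ⟨g1, g2⟩ := sh1 (by linarith) hV0 hK0 (by linarith) (by linarith) (by linarith)
            hcn heu hj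
          rw [Real.log_exp, Real.log_rpow hP0, hlX'] at g2
          have hb2 : (u : ℝ) / 3 ≤ (i2 - i1) / 3 := Real.exp_le_exp.1 hb
          refine ⟨?_, by linarith, by linarith⟩
          have g3 : 4 * Pz ^ (ε / 2) * (nm y.2 : ℝ) ^ 2 * X' * V * (nm (e * A) : ℝ) ^ 2 *
              Real.exp ((u : ℝ) / 3) / K ≤ 4 * Pz * Pz ^ 2 * Pz * Pz * (Pz ^ 2) ^ 2 * Pz * Pz := by
            rw [div_eq_mul_inv]
            have := hu.trans hX'P
            have hKi := hz.Ki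
            have hVP := hz.VP
            gcongr
          calc Real.exp ((l : ℝ) / 3 + 1 / 3) * 2 ^ j =
                (2 ^ j * Real.exp ((l : ℝ) / 3)) * Real.exp (1 / 3) := by
                rw [Real.exp_add]; ring
            _ ≤ (4 * Pz * Pz ^ 2 * Pz * Pz * (Pz ^ 2) ^ 2 * Pz * Pz) * 2 :=
                mul_le_mul (g1.trans g3) exp13 (Real.exp_pos _).le (by positivity)
            _ = 8 * Pz ^ 11 := by ring
            _ ≤ 8 * Pz ^ 20 := by
                have := hP20 11 (by norm_num)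
                linarith
            _ ≤ X0 := by
                have : 0 ≤ Pz ^ 20 := by positivity
                linarith
        · obtain ⟨g1, g2⟩ := sh2 hK0 (by linarith) heu hj
          rw [Real.log_exp] at g2
          have hb2 : (i2 - i1) / 3 < (u : ℝ) / 3 + 1 / 3 := Real.exp_lt_exp.1 hb
          refine ⟨?_, by linarith, by linarith⟩
          have g3 : 10 * K / (nm (e * A) * Real.exp ((u : ℝ) / 3) ^ 2) ≤ 10 * Pz := by
            have h5 : (1 : ℝ) ≤ nm (e * A) * Real.exp ((u : ℝ) / 3) ^ 2 := by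
              have : (1 : ℝ) ≤ Real.exp ((u : ℝ) / 3) ^ 2 :=
                one_le_pow₀ (Real.one_le_exp (by positivity))
              nlinarith
            refine (div_le_self (by positivity) h5).trans ?_
            have := hz.KP
            linarith
          calc Real.exp ((l : ℝ) / 3 + 1 / 3) * 2 ^ j =
                (2 ^ j * Real.exp ((l : ℝ) / 3)) * Real.exp (1 / 3) := by
                rw [Real.exp_add]; ring
            _ ≤ (10 * Pz) * 2 :=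
                mul_le_mul (g1.trans g3) exp13 (Real.exp_pos _).le (by positivity)
            _ ≤ 20 * Pz ^ 20 := by
                have := hP20 1 (by norm_num)
                rw [pow_one] at this
                linarith
            _ ≤ X0 := by
                have : 0 ≤ Pz ^ 20 := by positivity
                linarith
      have h8 : 8 * X' ^ 2 ≤ X0 := by
        have g1 : X' ^ 2 ≤ Pz ^ 2 := by gcongr
        have := hP20 2 (by norm_num)
        have h0 : 0 ≤ Pz ^ 20 := by positivity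
        linarith
      exact HN A' hA' Cφ φ hCφ hφ P hP s hs f z q y.1 δ e A c st hq hy'.1 hz.δp hz.ep hA2.1 hc
        hst V X' X0 l u j n hV0 hX'1 h8 (hy1P.trans hPX0) (hqP.trans hPX0) (hz.δP.trans hPX0)
        (fun i => (hsP i).trans hPX0) hn'.1 hu hnum.1 s₁ (Real.log (nm y.2)) i1 i2 Bd Tn hs₁ hBd
        (Real.log_le_log (by exact_mod_cast nm_pos.2 hn'.1.ne_zero) (by
          exact_mod_cast Div277.nm_le_of_dvd hy'.2.1.ne_zero hn'.2)) hnum.2.1 hnum.2.2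
        (PMH.mono hPM hCNC))
    (fun hy2 c hc l u hex => by
      have hX'0 : 0 ≤ X' := by linarith
      obtain ⟨j₂, hj₂, B, hB, hBB⟩ := hex
      have hu : Real.exp ((u : ℝ) / 3) ≤ X' :=
        (bk_nm_ge hX'0 hB).trans ((mem_bk hX'0).1 hB).1.1
      have hb : (i2 - i1) / 3 < (u : ℝ) / 3 + 1 / 3 :=
        Real.exp_lt_exp.1 (hBB.trans_le (bk_nm_le hX'0 hB))
      have hst1 : (1 : ℝ) ≤ nm st := one_le_nmR hst
      have heu : (1 : ℝ) ≤ Real.exp ((u : ℝ) / 3 + 1 / 3) := Real.one_le_exp (by positivity)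
      have hΛ1 : 1 ≤ V * (nm (e * A) : ℝ) ^ 3 * (nm st : ℝ) ^ 8 *
          Real.exp ((u : ℝ) / 3 + 1 / 3) := by
        have a1 : 1 ≤ (nm (e * A) : ℝ) ^ 3 := one_le_pow₀ hea1
        have a2 : 1 ≤ (nm st : ℝ) ^ 8 := one_le_pow₀ hst1
        have a3 := hz.V1
        calc (1 : ℝ) = 1 * 1 * 1 * 1 := by norm_num
          _ ≤ _ := by gcongr
      have hΛ2 : V * (nm (e * A) : ℝ) ^ 3 * (nm st : ℝ) ^ 8 *
          Real.exp ((u : ℝ) / 3 + 1 / 3) ≤ X0 := by
        have a1 : Real.exp ((u : ℝ) / 3 + 1 / 3) ≤ Pz * 2 := by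
          rw [Real.exp_add]
          exact mul_le_mul (hu.trans hX'P) exp13 (Real.exp_pos _).le hP0.le
        have a3 := hz.VP
        calc V * (nm (e * A) : ℝ) ^ 3 * (nm st : ℝ) ^ 8 * Real.exp ((u : ℝ) / 3 + 1 / 3) ≤
              Pz * (Pz ^ 2) ^ 3 * Pz ^ 8 * (Pz * 2) := by gcongr
          _ = 2 * Pz ^ 16 := by ring
          _ ≤ X0 := by
              have := hP20 16 (by norm_num)
              have h0 : 0 ≤ Pz ^ 20 := by positivity
              linarith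
      have h2 := HT A' hA' Cφ φ hCφ hφ P hP s hs f z q y.1 δ e A c st hy'.1 hz.ep hA2.1 hc hst V
        X' l u hV0 hX'1 X0 hΛ2 hΛ1 (hy1P.trans hPX0) (hu.trans (hX'P.trans hPX0))
        (Bd * Real.exp (Tn + 1 / 3 * Real.log V - 2 / 3 * Real.log K +
            Real.log (nm (e * A)) + 4 / 3 * ((u : ℝ) / 3) +
            1 / 3 * (∑ k, (s k).z - Real.log (nm y.1) - (u : ℝ) / 3))) (by positivity)
        (VFH.mono (hVF hy2 ((u : ℝ) / 3) (by positivity) (by linarith)) hCTC)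
      rw [hy2]
      refine (mul_le_mul_of_nonneg_left h2 (Real.exp_pos _).le).trans (le_of_eq ?_)
      rw [hM1]
      have e1 : Real.exp (-(4 / 3) * ((u : ℝ) / 3)) *
          (Real.exp (-(1 / 3) * (∑ k, (s k).z - Real.log (nm y.1) - (u : ℝ) / 3)) *
          Real.exp (Tn + 1 / 3 * Real.log V - 2 / 3 * Real.log K +
            Real.log (nm (e * A)) + 4 / 3 * ((u : ℝ) / 3) +
            1 / 3 * (∑ k, (s k).z - Real.log (nm y.1) - (u : ℝ) / 3))) =
          Real.exp (Tn + 1 / 3 * Real.log V - 2 / 3 * Real.log K + Real.log (nm (e * A))) := by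
        rw [← Real.exp_add, ← Real.exp_add]
        congr 1
        ring
      rw [← e1]
      ring)
  refine h1.trans ?_
  have hGK0 : ∑ c ∈ C4, ∑ j₂ ∈ (S (Real.sqrt V)).filter (fun j₂ => 1 ≤ RR V e A c j₂),
          RR V e A c j₂ ^ (-(1 : ℝ) / 3) * (K / nm (e * A * j₂)) ^ ((2 : ℝ) / 3) *
            GKd (fun y => min 1 (y ^ 1)) (fun _ => 1) (RR V e A c j₂) (X / nm y.1)
              (K / nm (e * A * j₂)) B0 y.2
              (NBf (Pz ^ (ε / 2)) 1 (X / nm y.1) (RR V e A c j₂) (K / nm (e * A * j₂)) B0 y.2)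
              (fun B j => (2 / 2 ^ j) * 0) = 0 := by
    refine Finset.sum_eq_zero fun c _ => Finset.sum_eq_zero fun j₂ _ => ?_
    have : GKd (fun y => min 1 (y ^ 1)) (fun _ => 1) (RR V e A c j₂) (X / nm y.1)
              (K / nm (e * A * j₂)) B0 y.2
              (NBf (Pz ^ (ε / 2)) 1 (X / nm y.1) (RR V e A c j₂) (K / nm (e * A * j₂)) B0 y.2)
              (fun B j => (2 / 2 ^ j) * 0) = 0 := by
      unfold E2440.GKd
      simp
    rw [this, mul_zero]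
  rw [hGK0, add_zero]
  set W : ℝ := V ^ (-(1 : ℝ) / 3) * K ^ ((2 : ℝ) / 3) / nm (e * A) with hW
  have hWM : W ^ 2 * M1 = W * (CT * GG * X0 ^ ε * (Bd * Real.exp Tn)) := by
    have e1 : W * Real.exp (1 / 3 * Real.log V - 2 / 3 * Real.log K + Real.log (nm (e * A))) =
        1 := by
      have hE0 : (0 : ℝ) < nm (e * A) := by linarith
      rw [hW, Real.rpow_def_of_pos hV0, Real.rpow_def_of_pos hK0, Real.exp_add, Real.exp_log hE0]
      rw [div_mul_eq_mul_div, mul_comm (Real.exp _ * Real.exp _), mul_assoc, mul_comm (nm (e * A) : ℝ),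
        ← mul_assoc, mul_div_assoc, div_self hE0.ne', mul_one, ← Real.exp_add, ← Real.exp_add]
      rw [show 1 / 3 * Real.log V - 2 / 3 * Real.log K + (Real.log V * (-1 / 3) +
        Real.log K * (2 / 3)) = 0 by ring, Real.exp_zero]
    have e2 : Real.exp (Tn + 1 / 3 * Real.log V - 2 / 3 * Real.log K + Real.log (nm (e * A))) =
        Real.exp Tn * Real.exp (1 / 3 * Real.log V - 2 / 3 * Real.log K +
          Real.log (nm (e * A))) := by
      rw [← Real.exp_add]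
      congr 1
      ring
    calc W ^ 2 * M1 = W * (CT * GG * X0 ^ ε * (Bd * Real.exp Tn)) *
          (W * Real.exp (1 / 3 * Real.log V - 2 / 3 * Real.log K + Real.log (nm (e * A)))) := by
          rw [hM1, e2]; ring
      _ = _ := by rw [e1, mul_one]
  have hX0e : X0 ^ ε ≤ X0 ^ (2 * ε) := Real.rpow_le_rpow_of_exponent_le hX01 (by linarith)
  have hX02 : X0 ^ (2 * ε) = C16 * Pz ^ (40 * ε) := by
    rw [hX0d, Real.mul_rpow (by norm_num) (by positivity), ← Real.rpow_natCast Pz 20,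
      ← Real.rpow_mul hP0.le]
    congr 2
    push_cast
    ring
  have hPe1 : 1 ≤ Pz ^ (40 * ε) := Real.one_le_rpow hP1 (by linarith)
  have hPe2 : Pz ^ ε * Pz ^ (40 * ε) ≤ Pz ^ (50 * ε) := by
    rw [← Real.rpow_add hP0]
    exact Real.rpow_le_rpow_of_exponent_le hP1 (by linarith)
  have hGe : GG = Cφ ^ 2 * gA := by rw [hGG, hgA]; ring
  set Y : ℝ := W * (Bd * Real.exp Tn) with hY
  have hY0 : 0 ≤ Y := by positivity
  have hQ0 : 0 ≤ (Pz ^ M')⁻¹ := by positivity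
  have t1 : W * M0 + W ^ 2 * M1 + (Pz ^ M')⁻¹ ≤
      (1 + (CN + CT) * gA * C16) * (1 + Cφ ^ 2) * Pz ^ (40 * ε) * (Y + (Pz ^ M')⁻¹) := by
    rw [hWM, hM0]
    have a1 : W * (CN * GG * X0 ^ (2 * ε) * (Bd * Real.exp Tn)) +
        W * (CT * GG * X0 ^ ε * (Bd * Real.exp Tn)) ≤
        ((CN + CT) * gA * C16) * (1 + Cφ ^ 2) * Pz ^ (40 * ε) * Y := by
      calc W * (CN * GG * X0 ^ (2 * ε) * (Bd * Real.exp Tn)) +
            W * (CT * GG * X0 ^ ε * (Bd * Real.exp Tn)) ≤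
            W * (CN * GG * X0 ^ (2 * ε) * (Bd * Real.exp Tn)) +
            W * (CT * GG * X0 ^ (2 * ε) * (Bd * Real.exp Tn)) := by gcongr
        _ = ((CN + CT) * gA * C16) * (Cφ ^ 2) * Pz ^ (40 * ε) * Y := by
            rw [hX02, hGe, hY]; ring
        _ ≤ _ := by
            have : Cφ ^ 2 ≤ 1 + Cφ ^ 2 := by linarith
            gcongr
    have a2 : (1 : ℝ) ≤ (1 + Cφ ^ 2) * Pz ^ (40 * ε) := by
      have : 0 ≤ Cφ ^ 2 := sq_nonneg _
      nlinarith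
    set G := (1 + Cφ ^ 2) * Pz ^ (40 * ε) with hG
    set D := (CN + CT) * gA * C16 with hD
    have a3 : 0 ≤ D * G * (Pz ^ M')⁻¹ := by positivity
    have a4 : (Pz ^ M')⁻¹ ≤ G * (Pz ^ M')⁻¹ := le_mul_of_one_le_left hQ0 a2
    have a5 : 0 ≤ G * Y := by positivity
    have a6 : D * (1 + Cφ ^ 2) * Pz ^ (40 * ε) * Y = D * G * Y := by rw [hG]; ring
    rw [a6] at a1
    have a7 : (1 + D) * (1 + Cφ ^ 2) * Pz ^ (40 * ε) * (Y + (Pz ^ M')⁻¹) =
        G * Y + G * (Pz ^ M')⁻¹ + D * G * Y + D * G * (Pz ^ M')⁻¹ := by rw [hG]; ring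
    rw [a7]
    linarith
  calc CQ * (CK * Sf) ^ 2 * Pz ^ ε * (W * M0 + W ^ 2 * M1 + (Pz ^ M')⁻¹) ≤
      CQ * (CK * Sf) ^ 2 * Pz ^ ε * ((1 + (CN + CT) * gA * C16) * (1 + Cφ ^ 2) *
        Pz ^ (40 * ε) * (Y + (Pz ^ M')⁻¹)) := mul_le_mul_of_nonneg_left t1 (by positivity)
    _ = (CQ * CK ^ 2 * (1 + (CN + CT) * gA * C16)) * Sf ^ 2 * (1 + Cφ ^ 2) *
        (Pz ^ ε * Pz ^ (40 * ε)) * (Y + (Pz ^ M')⁻¹) := by ring
    _ ≤ CC * Sf ^ 2 * (1 + Cφ ^ 2) * Pz ^ (50 * ε) * (Y + (Pz ^ M')⁻¹) := by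
        have a1 : CQ * CK ^ 2 * (1 + (CN + CT) * gA * C16) ≤ CC := by
          rw [hCC]
          have : 0 ≤ (1 + (CN + CT) * gA * C16) := by positivity
          nlinarith
        gcongr

end Crest.Agent.R017.P1Re440
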