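import Crest.Agent.R017.RCXc_385

/-!
# Row 17, class E, the R-side of P1 (helper385, for helper739): one index, any sequence

* `qs_g` : `∑_c ∑_{j₂} Qs` of one index `(δ, e, y, A)`, any sequence with a principal value at
  the twist `κ₀`, separate cells only, the polar term `PTs` kept
-/

set_option autoImplicit false
set_option linter.unusedVariables false
set_option maxHeartbeats 1000000

noncomputable section

open Complex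
open scoped ComplexConjugate

namespace Crest.Agent.R017.RXq385

open Crest.Agent.R012 Crest.Agent.R012.Eis
open Crest.Agent.R012.Div277
open Crest.Agent.R012.Mob705 (pdiv mem_pdiv)
open Crest.Agent.R012.LS2 (S mem_S)
open Crest.Agent.R017.X6C180 (IX dl')
open Crest.Agent.R017.CM106 (sub CS FS)
open Crest.Agent.R017.H1401 (pb mem_pb DN WM WJ)
open Crest.Agent.R017.MoF106 (MoP NX bk mem_bk bk_prim bk_nm_ge sum_bk UU)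
open Crest.Agent.R017.MoL106 (kw kw_ne)
open Crest.Agent.R017.E2sp579 (MH fP hyp_split)
open Crest.Agent.R017.E2440
open Crest.Agent.R017.FlC502 (thd)
open Crest.Agent.R017.GKC739 (MTs PTs Qs_cellsP Cell Tb)
open Crest.Agent.R017.QsJ401 (th_le_one)
open Crest.Agent.R017.PrD502 (PV Mu)
open Crest.Agent.R017.PrE176 (PJm)
open Crest.Agent.R017.RCX385 (pr_half fin_x PJm_nonneg)

open Classical in
/-- **one index**, any sequence -/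
theorem qs_g {ε : ℝ} (hε : 0 < ε) (a M' Jt : ℕ) (hJ : 12 ≤ Jt) :
    ∃ (M b : ℕ) (Cz C : ℝ), 1 ≤ Cz ∧ 0 ≤ C ∧
    ∀ (P : ℝ) (Ft : ℝ → ℂ) (cc H : ℝ) (om : ∀ σ : Eis, IX σ → ℝ → ℂ), 0 ≤ cc →
    (∀ σ ∈ C4, KDd σ Jt M Ft cc H (fun y => min (y ^ (-(1 / 3) : ℝ)) (min 1 ((y * H) ^ 1)))
      (thd H) (om σ)) →
    ∀ (X V K B0 : ℝ) (α : Eis → ℂ) (κ₀ : Eis), FS α →
    (∀ n, α n ≠ 0 → Squarefree n) →
    (∀ n, α n ≠ 0 → X / 2 < nm n ∧ (nm n : ℝ) ≤ X) →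
    (∀ n, ‖α n‖ ≤ P ^ a) → κ₀ ≠ 0 → (nm κ₀ : ℝ) ≤ P →
    ∀ (Ax d0 Zp : ℝ), Cz * P ^ b ≤ Zp →
    PV (fun H => ∃ c, H * κ₀ ^ 2 = c ^ 3) 6 Ax d0 Zp α →
    ∀ (δ e A : Eis) (y : Eis × Eis), (∀ c ∈ C4, QsJ401.Sz P X V K H δ e A c y) →
    ∀ (MN : Eis → Eis → Eis → ℕ → Eis → ℝ) (M0 : ℝ), 0 ≤ M0 →
    (∀ c ∈ C4, ∀ j₂ ∈ S (Real.sqrt V), 1 ≤ RR V e A c j₂ → ∀ B ∈ S (X / nm y.1), ∀ j n,
      0 ≤ MN c j₂ B j n) →
    (∀ c ∈ C4, ∀ j₂ ∈ S (Real.sqrt V), 1 ≤ RR V e A c j₂ → ∀ B ∈ S (X / nm y.1),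
      ∀ (i : IX c) (t : ℝ) (j : ℕ),
      ∑ n ∈ dvs y.2, (nm n : ℝ) * MoP (ag α δ y.1) (e * A * j₂) B (dl' c i) (X / nm y.1) t
        (2 ^ j) (WM (RR V e A c j₂) (2 ^ j / (nm n : ℝ) ^ 3))
        (fP (fun g₂ g₃ d => DN n g₂ g₃ d ∧ (2 : ℝ) ^ j / 2 < nm d)
          (fun d => ¬ ∃ c0, d * (e * A * j₂ * dl' c i * B ^ 2) * κ₀ ^ 2 = c0 ^ 3)) ≤
      (1 + |t|) ^ Jt * ∑ n ∈ dvs y.2, (nm n : ℝ) * MN c j₂ B j n) →
    (∀ c ∈ C4, ∀ l u j, Cell (P ^ (ε / 2 / 2)) H V K (X / nm y.1) B0 y.2 e A c l u j →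
      ∀ n ∈ dvs y.2, (2 / 2 ^ j : ℝ) * ((nm n : ℝ) * ∑ j₂ ∈ Tb V e A c l,
        ∑ B ∈ bk (X / nm y.1) u, MN c j₂ B j n) ≤ M0) →
    ∑ c ∈ C4, ∑ j₂ ∈ S (Real.sqrt V), Qs α δ e V K Ft y A c j₂ ≤ C * cc ^ 2 * P ^ ε *
      (V ^ (-(1 : ℝ) / 3) * K ^ ((2 : ℝ) / 3) / nm (e * A) * M0 +
        (Ax / nm y.1) ^ 2 * PJm K V (X / nm y.1) (nm (e * A)) (nm κ₀) (nm y.2) H
          (Mu d0 y.1) 1 + (P ^ M')⁻¹ + PTs α δ e V K X B0 y A) := by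
  have hε2 : 0 < ε / 2 := by linarith
  have hε4 : 0 < ε / 2 / 2 := by linarith
  obtain ⟨M, C₁, hC₁, H₁⟩ := Qs_cellsP hε2 a M'
  obtain ⟨b, Cz, C₂, hCz, hC₂, H₂⟩ := pr_half hε2 hε4 Jt 6 (by omega)
  refine ⟨M, b, Cz, C₁ * (1 + C₂), hCz, by positivity, ?_⟩
  intro P Ft cc H om hcc hKD X V K B0 α κ₀ hfs hs hsp hα hκ hκP Ax d0 Zp hZp hPV δ e A y hSz MN M0
    hM0 hMN0 hMo hcell
  have h1 : (1 : Eis) ∈ C4 := mem_C4.mpr (Or.inl rfl)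
  have h := hSz 1 h1
  have hP := h.P1
  have hP0 := h.P0
  have hX1 := h.X1
  have hV1 := h.V1
  have hV0 : 0 < V := by linarith
  have hH1 := h.H1
  have hK0 := h.K0
  have hy1 := h.y1
  have hy2 := h.y2
  obtain ⟨Ex, hEx0, hEx, hExs⟩ := H₂ P hP X V K B0 H h.XP hV1 h.VP hK0 h.KiP h.KP hH1 h.HP
    α hfs κ₀ Ax d0 Zp hκ hκP hZp hPV δ e h.δp h.δP h.ep h.eP y h.hy A h.hA h.yX
  have key := H₁ P hP Jt Ft cc H (fun y => min (y ^ (-(1 / 3) : ℝ)) (min 1 ((y * H) ^ 1)))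
    (thd H) om hKD (fun y _ => th_le_one 1 H y)
    (fun y _ => by unfold FlC502.thd; exact min_le_left _ _) h.HP X V K B0 h.XP hV1 h.VP hK0
    h.KiP h.KP α hfs hs hsp hα δ e h.δp h.δs h.δP h.ep h.eP y h.hy A h.hA h.yX MN Ex M0 hM0 hEx0
    hMN0
    (fun c hc j₂ hj₂ hR B hB i t j hj => by
      have h3 := hyp_split (hEx c hc j₂ hj₂ hR)
        (Mn := fun B j => ∑ n ∈ dvs y.2, (nm n : ℝ) * MN c j₂ B j n)
        (fun B hB i t j _ => hMo c hc j₂ hj₂ hR B hB i t j) B hB i t j hj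
      exact h3.trans (le_of_eq (congrArg _ (add_comm _ _))))
    hcell
  have hp2 : 1 ≤ P ^ (ε / 2) := Real.one_le_rpow hP hε2.le
  have hp22 : P ^ ε = P ^ (ε / 2) * P ^ (ε / 2) := by
    rw [← Real.rpow_add hP0]; congr 1; ring
  have hp4 : P ^ (ε / 2 / 2) * P ^ (ε / 2 / 2) = P ^ (ε / 2) := by
    rw [← Real.rpow_add hP0]; congr 1; ring
  have hp41 : 1 ≤ P ^ (ε / 2 / 2) := Real.one_le_rpow hP hε4.le
  have hPT0 : 0 ≤ PTs α δ e V K X B0 y A := by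
    unfold GKC739.PTs
    refine Finset.sum_nonneg fun c hc => Finset.sum_nonneg fun j₂ hj => ?_
    rw [Finset.mem_filter] at hj
    have := (hSz c hc).Kj0 hj.1
    exact GKC739.PJ_nn (by linarith [hj.2]) this.le fun B => GKC739.MTs_nonneg _ _ _ _ _ _ _ _ _
  have hW0 : 0 ≤ V ^ (-(1 : ℝ) / 3) * K ^ ((2 : ℝ) / 3) / nm (e * A) * M0 := by positivity
  have hEx2 := hExs (fun y => min (y ^ (-(1 / 3) : ℝ)) (min 1 ((y * H) ^ 1))) (thd H)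
    (fun y hy => ⟨by positivity, th_le_one 1 H y, min_le_left _ _⟩)
    (fun y hy => by
      unfold FlC502.thd
      exact ⟨by positivity, min_le_left _ _, min_le_right _ _⟩)
  obtain ⟨PJv, hPJv⟩ : ∃ z : ℝ, z = (Ax / nm y.1) ^ 2 * PJm K V (X / nm y.1) (nm (e * A))
    (nm κ₀) (nm y.2) H (Mu d0 y.1) 1 := ⟨_, rfl⟩
  rw [← hPJv] at hEx2 ⊢
  have hPJ0 : 0 ≤ PJv := by
    rw [hPJv]
    exact mul_nonneg (sq_nonneg _) (PJm_nonneg hK0.le (by linarith) (by linarith)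
      (Nat.cast_nonneg _) (Nat.cast_nonneg _) (Nat.cast_nonneg _) (by linarith)
      (by unfold PrD502.Mu; positivity) zero_le_one)
  obtain ⟨Gx, hGx⟩ : ∃ z : ℝ, z = ∑ c ∈ C4, ∑ j₂ ∈ (S (Real.sqrt V)).filter
      (fun j₂ => 1 ≤ RR V e A c j₂),
        RR V e A c j₂ ^ (-(1 : ℝ) / 3) * (K / nm (e * A * j₂)) ^ ((2 : ℝ) / 3) *
          GKd (fun y => min (y ^ (-(1 / 3) : ℝ)) (min 1 ((y * H) ^ 1))) (thd H) (RR V e A c j₂)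
            (X / nm y.1) (K / nm (e * A * j₂)) B0 y.2
            (NBf (P ^ (ε / 2 / 2)) H (X / nm y.1) (RR V e A c j₂) (K / nm (e * A * j₂)) B0
              y.2) (fun B j => (2 / 2 ^ j) * Ex c j₂ B j) := ⟨_, rfl⟩
  rw [← hGx] at hEx2 key
  refine key.trans ?_
  have hMi : 0 ≤ (P ^ M')⁻¹ := by positivity
  have hcc2 : 0 ≤ C₁ * cc ^ 2 := by positivity
  have hb : P ^ (ε / 2 / 2) * (P ^ (ε / 2 / 2) * (V ^ (-(1 : ℝ) / 3) * K ^ ((2 : ℝ) / 3) /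
      nm (e * A) * M0 + Gx + (P ^ M')⁻¹) + PTs α δ e V K X B0 y A) ≤
      (1 + C₂) * (P ^ ε * (V ^ (-(1 : ℝ) / 3) * K ^ ((2 : ℝ) / 3) / nm (e * A) * M0 + PJv +
        (P ^ M')⁻¹ + PTs α δ e V K X B0 y A)) :=
    fin_x hp4 hp22.symm hp41 hW0 hMi hPT0 hPJ0 hC₂ hEx2
  calc C₁ * cc ^ 2 * P ^ (ε / 2 / 2) * (P ^ (ε / 2 / 2) * (V ^ (-(1 : ℝ) / 3) * K ^ ((2 : ℝ) / 3) /
        nm (e * A) * M0 + Gx + (P ^ M')⁻¹) + PTs α δ e V K X B0 y A)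
      = C₁ * cc ^ 2 * (P ^ (ε / 2 / 2) * (P ^ (ε / 2 / 2) * (V ^ (-(1 : ℝ) / 3) *
        K ^ ((2 : ℝ) / 3) / nm (e * A) * M0 + Gx + (P ^ M')⁻¹) +
          PTs α δ e V K X B0 y A)) := by ring
    _ ≤ _ := mul_le_mul_of_nonneg_left hb hcc2
    _ = _ := by ring

end Crest.Agent.R017.RXq385
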