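import Crest.Agent.R017.N2aX_298
import Crest.Agent.R017.P1Re_440
import Crest.Agent.R017.RXq_385
import Crest.Agent.R017.PrG_502

/-!
# Row 17, FlatNE, class E (helper298): the real side of the compensated E2, part b

* `pts_le` : the polar sum of one index
* `Qs_N2x` : `∑_c ∑_{j₂} Qs` of a windowed, twisted DIFFERENCE of flagged lists with the
  compensated weight: not principal cells, polar number, principal value
-/

set_option autoImplicit false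
set_option linter.unusedVariables false
set_option maxHeartbeats 16000000

noncomputable section

open Finset
open scoped ComplexConjugate

namespace Crest.Agent.R017.N2X298

open Crest.Agent.R012 Crest.Agent.R012.Eis
open Crest.Agent.R012.LS2 (S mem_S)
open Crest.Agent.R012.Div277 (dvs mem_dvs)
open Crest.Agent.R012.Mob705 (pdiv mem_pdiv)
open Crest.Agent.R012.T411 (NCube)
open Crest.Agent.R017.B770
open Crest.Agent.R017.Prov71
open Crest.Agent.R017.CM106 (CS FS)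
open Crest.Agent.R017.FE47 (cx PU)
open Crest.Agent.R017.HP842 (pc sqc)
open Crest.Agent.R017.Leg381 (alf alF Pf LF LF_get)
open Crest.Agent.R017.XRG106
open Crest.Agent.R017.X6C180 (IX dl' Sg GF om')
open Crest.Agent.R017.X6545 (TF Bd)
open Crest.Agent.R017.X6W180 (TF1 tf1_tf)
open Crest.Agent.R017.FlC502 (thd thd_nonneg thd_le_one)
open Crest.Agent.R017.Win813 (iA iA_nonneg WK)
open Crest.Agent.R017.RGw813 (T9)
open Crest.Agent.R017.H1401 (pb mem_pb WM HW DN)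
open Crest.Agent.R017.MoF106
open Crest.Agent.R017.MoL106
open Crest.Agent.R017.QsO83 (bw FS_bw)
open Crest.Agent.R017.E2440
open Crest.Agent.R017.GKC739 (Tb mem_Tb Tb_prim Cell nm_C one_le_nmR PTs MTs MTs_nonneg MT_cells
  card_C4)
open Crest.Agent.R017.E2sp579 (fP)
open Crest.Agent.R017.NPx739 (PrQ)
open Crest.Agent.R017.NPz739 (NPp npp_q4)
open Crest.Agent.R017.NPy739 (MNc opL opL_nonneg MNc_nonneg MNc_spec CellL cell_list cell_two)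
open Crest.Agent.R017.MTL537 (ML ML_mono ML_nonneg mtl_cell)
open Crest.Agent.R017.RC106 (k9 log_fr kdd_all)
open Crest.Agent.R017.RXa739 (PMHQ)
open Crest.Agent.R017.P1Re440 (SzP sh2 exp13)
open Crest.Agent.R017.PrD502 (PV Mu Mu_nonneg pv_bw)
open Crest.Agent.R017.PrE176 (PJm)
open Crest.Agent.R017.RCX385 (PJm_nonneg)
open Crest.Agent.R017.RXq385 (qs_g)
open Crest.Agent.R017.RX298 (xs rp zt norm_zt)
open Crest.Agent.R017.N2106 (polar_N2)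

/-- a cell of the first kind, with the frequency `H` -/
lemma sh1H {T V K X' nν nE nc eu hh : ℝ} {a j : ℕ} (hT : 0 < T) (hV : 0 < V) (hK : 0 < K)
    (hX : 0 < X') (hν : 0 < nν) (hE : 0 < nE) (hnc : 1 ≤ nc) (heu : 0 < eu)
    (h : (2 : ℝ) ^ j < 4 * T * Real.exp hh * nν ^ 2 * X' * V * nE ^ 2 * eu /
      (nc * K * Real.exp ((a : ℝ) / 3))) :
    (2 : ℝ) ^ j * Real.exp ((a : ℝ) / 3) ≤
      4 * T * Real.exp hh * nν ^ 2 * X' * V * nE ^ 2 * eu / K ∧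
    Real.log (2 ^ j) + (a : ℝ) / 3 ≤ Real.log 4 + Real.log T + hh + 2 * Real.log nν +
      Real.log X' + Real.log V + 2 * Real.log nE + Real.log eu - Real.log K := by
  have ha := Real.exp_pos ((a : ℝ) / 3)
  have hh0 := Real.exp_pos hh
  have h1 : (2 : ℝ) ^ j * Real.exp ((a : ℝ) / 3) ≤
      4 * T * Real.exp hh * nν ^ 2 * X' * V * nE ^ 2 * eu / K := by
    rw [lt_div_iff₀ (by positivity)] at h
    rw [le_div_iff₀ hK]
    have h2 : (2 : ℝ) ^ j * Real.exp ((a : ℝ) / 3) * K ≤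
        (2 : ℝ) ^ j * (nc * K * Real.exp ((a : ℝ) / 3)) := by
      have h3 : 0 ≤ (2 : ℝ) ^ j * Real.exp ((a : ℝ) / 3) * K := by positivity
      nlinarith
    linarith
  refine ⟨h1, ?_⟩
  have h2 := Real.log_le_log (by positivity) h1
  rw [Real.log_mul (by positivity) ha.ne', Real.log_exp, Real.log_div (by positivity) hK.ne',
    Real.log_mul (by positivity) heu.ne', Real.log_mul (by positivity) (by positivity),
    Real.log_mul (by positivity) hV.ne', Real.log_mul (by positivity) hX.ne',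
    Real.log_mul (by positivity) (by positivity), Real.log_mul (by positivity) hh0.ne',
    Real.log_exp, Real.log_mul (by norm_num) hT.ne', Real.log_pow nE, Real.log_pow nν] at h2
  push_cast at h2
  linarith


/-- **the numbers of one cell** -/
lemma cell_num {Pz T V K X' nν nE nc hh tl i1 i2 : ℝ} {l u j : ℕ} (hP1 : 1 ≤ Pz) (hT1 : 1 ≤ T)
    (hTP : T ≤ Pz) (hlT : Real.log T ≤ tl) (hHP : Real.exp hh ≤ Pz) (hν1 : 1 ≤ nν)
    (hνP : nν ≤ Pz) (hX'1 : 1 ≤ X') (hX'P : X' ≤ Pz) (hV1 : 1 ≤ V) (hVP : V ≤ Pz)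
    (hE1 : 1 ≤ nE) (hE2 : nE ≤ Pz ^ 2) (hK0 : 0 < K) (hKi : K⁻¹ ≤ Pz) (hKP : K ≤ Pz)
    (hu : Real.exp ((u : ℝ) / 3) ≤ X') (hcn : 1 ≤ nc)
    (hi1 : Real.log 4 + tl + hh + 2 * Real.log nν + Real.log X' + Real.log V +
      2 * Real.log nE - Real.log K ≤ i1)
    (hi2 : Real.log 10 + Real.log K - Real.log nE + 1 ≤ i2)
    (hsh : (Real.exp ((u : ℝ) / 3) ≤ Real.exp ((i2 - i1) / 3) ∧ (2 : ℝ) ^ j <
        4 * T * Real.exp hh * nν ^ 2 * X' * V * nE ^ 2 * Real.exp ((u : ℝ) / 3) /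
          (nc * K * Real.exp ((l : ℝ) / 3))) ∨
      (Real.exp ((i2 - i1) / 3) < Real.exp ((u : ℝ) / 3 + 1 / 3) ∧ (2 : ℝ) ^ j < 10 * K /
        (nE * Real.exp ((l : ℝ) / 3) * Real.exp ((u : ℝ) / 3) ^ 2))) :
    Real.exp ((l : ℝ) / 3 + 1 / 3) * 2 ^ j ≤ 32 * Pz ^ 20 ∧
      Real.log (2 ^ j) + l / 3 ≤ i1 + u / 3 ∧
      Real.log (2 ^ j) + l / 3 ≤ i2 - 2 * (u / 3) := by
  have hP0 : 0 < Pz := by linarith
  have hV0 : 0 < V := by linarith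
  have heu := Real.exp_pos ((u : ℝ) / 3)
  have hP20 : ∀ m : ℕ, m ≤ 20 → Pz ^ m ≤ Pz ^ 20 := fun m hm => pow_le_pow_right₀ hP1 hm
  have h200 : 0 ≤ Pz ^ 20 := by positivity
  rcases hsh with ⟨hb, hj⟩ | ⟨hb, hj⟩
  · obtain ⟨g1, g2⟩ := sh1H (by linarith) hV0 hK0 (by linarith) (by linarith) (by linarith)
      hcn heu hj
    rw [Real.log_exp] at g2
    have hb2 : (u : ℝ) / 3 ≤ (i2 - i1) / 3 := Real.exp_le_exp.1 hb
    refine ⟨?_, by linarith, by linarith⟩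
    have g3 : 4 * T * Real.exp hh * nν ^ 2 * X' * V * nE ^ 2 *
        Real.exp ((u : ℝ) / 3) / K ≤
        4 * Pz * Pz * Pz ^ 2 * Pz * Pz * (Pz ^ 2) ^ 2 * Pz * Pz := by
      rw [div_eq_mul_inv]
      have := hu.trans hX'P
      gcongr
    calc Real.exp ((l : ℝ) / 3 + 1 / 3) * 2 ^ j =
          (2 ^ j * Real.exp ((l : ℝ) / 3)) * Real.exp (1 / 3) := by
          rw [Real.exp_add]; ring
      _ ≤ (4 * Pz * Pz * Pz ^ 2 * Pz * Pz * (Pz ^ 2) ^ 2 * Pz * Pz) * 2 :=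
          mul_le_mul (g1.trans g3) exp13 (Real.exp_pos _).le (by positivity)
      _ = 8 * Pz ^ 12 := by ring
      _ ≤ 32 * Pz ^ 20 := by
          have := hP20 12 (by norm_num)
          linarith
  · obtain ⟨g1, g2⟩ := sh2 hK0 (by linarith) heu hj
    rw [Real.log_exp] at g2
    have hb2 : (i2 - i1) / 3 < (u : ℝ) / 3 + 1 / 3 := Real.exp_lt_exp.1 hb
    refine ⟨?_, by linarith, by linarith⟩
    have g3 : 10 * K / (nE * Real.exp ((u : ℝ) / 3) ^ 2) ≤ 10 * Pz := by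
      have h5 : (1 : ℝ) ≤ nE * Real.exp ((u : ℝ) / 3) ^ 2 := by
        have : (1 : ℝ) ≤ Real.exp ((u : ℝ) / 3) ^ 2 :=
          one_le_pow₀ (Real.one_le_exp (by positivity))
        nlinarith
      refine (div_le_self (by positivity) h5).trans ?_
      linarith
    calc Real.exp ((l : ℝ) / 3 + 1 / 3) * 2 ^ j =
          (2 ^ j * Real.exp ((l : ℝ) / 3)) * Real.exp (1 / 3) := by
          rw [Real.exp_add]; ring
      _ ≤ (10 * Pz) * 2 :=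
          mul_le_mul (g1.trans g3) exp13 (Real.exp_pos _).le (by positivity)
      _ ≤ 32 * Pz ^ 20 := by
          have := hP20 1 (by norm_num)
          rw [pow_one] at this
          linarith

/-- **the end of the count** -/
lemma fin_num {CQ CK Sf Pe P40 P50 W M0 W2 PT A3 Q C16 a b CN CT CP Y1 Y2 Y3 : ℝ}
    (hCQ : 0 ≤ CQ) (hPe : 1 ≤ Pe) (hP40 : 1 ≤ P40) (hPP : Pe * (Pe * P40) ≤ P50)
    (hC16 : 0 ≤ C16) (ha : 0 ≤ a) (hCN : 1 ≤ CN) (hCT : 0 ≤ CT) (hCP : 0 ≤ CP) (hW : 0 ≤ W)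
    (hY1 : 0 ≤ Y1) (hY2 : 0 ≤ Y2) (hY3 : 0 ≤ Y3) (hQ : 0 ≤ Q)
    (h1 : W * M0 ≤ CN * a * C16 * P40 * (W * Y1)) (h2 : PT ≤ CP * Pe * W2)
    (h3 : W2 ≤ CT * C16 * P40 * (W * Y2)) (h4 : A3 ≤ b ^ 2 * Y3) :
    CQ * (CK * Sf) ^ 2 * Pe * (W * M0 + A3 + Q + PT) ≤
      (CN + CT + (1 + CQ * CK ^ 2) * (CN * a * C16 + CP * CT * C16 + b ^ 2 + 1)) * Sf ^ 2 * P50 *
        (W * (Y1 + Y2) + Y3 + Q) := by
  have hb2 : 0 ≤ b ^ 2 := sq_nonneg b
  have c1 : 0 ≤ CN * a * C16 := by positivity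
  have c2 : 0 ≤ CP * CT * C16 := by positivity
  obtain ⟨CX, hCX⟩ : ∃ x : ℝ, x = CN * a * C16 + CP * CT * C16 + b ^ 2 + 1 := ⟨_, rfl⟩
  have hCX1 : 1 ≤ CX := by linarith
  obtain ⟨E, hE⟩ : ∃ x : ℝ, x = Pe * P40 := ⟨_, rfl⟩
  have hE40 : P40 ≤ E := by rw [hE]; exact le_mul_of_one_le_left (by linarith) hPe
  have hE1 : 1 ≤ E := hP40.trans hE40
  have hWY1 : 0 ≤ W * Y1 := mul_nonneg hW hY1
  have hWY2 : 0 ≤ W * Y2 := mul_nonneg hW hY2
  have s1 : W * M0 ≤ CX * E * (W * Y1) := by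
    refine h1.trans (mul_le_mul_of_nonneg_right ?_ hWY1)
    exact mul_le_mul (by linarith) hE40 (by linarith) (by linarith)
  have s2 : PT ≤ CX * E * (W * Y2) := by
    calc PT ≤ CP * Pe * W2 := h2
      _ ≤ CP * Pe * (CT * C16 * P40 * (W * Y2)) := mul_le_mul_of_nonneg_left h3 (by positivity)
      _ = CP * CT * C16 * E * (W * Y2) := by rw [hE]; ring
      _ ≤ _ := by
          refine mul_le_mul_of_nonneg_right ?_ hWY2
          exact mul_le_mul_of_nonneg_right (by linarith) (by linarith)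
  have s3 : A3 ≤ CX * E * Y3 := by
    calc A3 ≤ b ^ 2 * Y3 := h4
      _ ≤ CX * Y3 := mul_le_mul_of_nonneg_right (by linarith) hY3
      _ ≤ CX * E * Y3 := mul_le_mul_of_nonneg_right
          (le_mul_of_one_le_right (by linarith) hE1) hY3
  have s4 : Q ≤ CX * E * Q :=
    le_mul_of_one_le_left hQ (one_le_mul_of_one_le_of_one_le hCX1 hE1)
  have hfin : W * M0 + A3 + Q + PT ≤ CX * E * (W * (Y1 + Y2) + Y3 + Q) := by
    calc _ ≤ _ := add_le_add (add_le_add (add_le_add s1 s3) s4) s2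
      _ = _ := by ring
  have hT0 : 0 ≤ W * (Y1 + Y2) + Y3 + Q := by nlinarith
  have hSf : 0 ≤ Sf ^ 2 := sq_nonneg _
  have hCK : 0 ≤ CQ * CK ^ 2 := mul_nonneg hCQ (sq_nonneg _)
  rw [← hCX]
  calc CQ * (CK * Sf) ^ 2 * Pe * (W * M0 + A3 + Q + PT) ≤
      CQ * (CK * Sf) ^ 2 * Pe * (CX * E * (W * (Y1 + Y2) + Y3 + Q)) :=
        mul_le_mul_of_nonneg_left hfin
          (mul_nonneg (mul_nonneg hCQ (sq_nonneg _)) (by linarith))
    _ = (CQ * CK ^ 2 * CX) * Sf ^ 2 * (Pe * (Pe * P40)) * (W * (Y1 + Y2) + Y3 + Q) := by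
        rw [hE]; ring
    _ ≤ (CN + CT + (1 + CQ * CK ^ 2) * CX) * Sf ^ 2 * P50 * (W * (Y1 + Y2) + Y3 + Q) := by
        have a1 : CQ * CK ^ 2 * CX ≤ CN + CT + (1 + CQ * CK ^ 2) * CX := by nlinarith
        have a2 : 0 ≤ CQ * CK ^ 2 * CX := mul_nonneg hCK (by linarith)
        have a3 : 0 ≤ Pe * (Pe * P40) := by positivity
        refine mul_le_mul_of_nonneg_right ?_ hT0
        exact mul_le_mul (mul_le_mul_of_nonneg_right a1 hSf) hPP a3 (by positivity)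

open Classical in
/-- **the polar sum of one index** -/
theorem pts_le {ε : ℝ} (hε : 0 < ε) : ∃ C : ℝ, 0 ≤ C ∧ ∀ (P X V K H B0 : ℝ) (α : Eis → ℂ)
    (δ e A : Eis) (y : Eis × Eis), (∀ c ∈ C4, QsJ401.Sz P X V K H δ e A c y) →
    ∀ M1 : ℝ, 0 ≤ M1 →
    (y.2 = 1 → ∀ c ∈ C4, ∀ l u,
      (∃ j₂ ∈ Tb V e A c l, ∃ B ∈ bk (X / nm y.1) u, B0 < nm B) →
      Real.exp (-(4 / 3) * ((u : ℝ) / 3)) * ∑ j₂ ∈ Tb V e A c l, ∑ B ∈ bk (X / nm y.1) u,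
        ∑ r ∈ (S (RR V e A c j₂)).filter (fun r => IsCoprime r y.2 ∧ RR V e A c j₂ / 2 < nm r),
          ‖MT (ag α δ y.1) (e * A * j₂) B c r‖ ^ 2 ≤ M1) →
    PTs α δ e V K X B0 y A ≤ C * P ^ ε *
      ((V ^ (-(1 : ℝ) / 3) * K ^ ((2 : ℝ) / 3) / nm (e * A)) ^ 2 * M1) := by
  set b : ℕ := ⌈ε⌉₊ + 2 with hb
  have hb0 : (0 : ℝ) < b := by positivity
  set ε₂ : ℝ := ε / b with hε₂
  have hε₂0 : 0 < ε₂ := by positivity
  obtain ⟨C3, hC3, hMT⟩ := MT_cells hε₂0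
  have hC30 : 0 ≤ C3 := by linarith
  refine ⟨4 * C3, by positivity, ?_⟩
  intro P X V K H B0 α δ e A y hSz M1 hM1 hcellt
  have h1C : (1 : Eis) ∈ C4 := mem_C4.mpr (Or.inl rfl)
  have h := hSz 1 h1C
  have hP := h.P1
  have hP0 : 0 < P := by linarith
  have hV0 : 0 < V := by linarith [h.V1]
  have hK0 := h.K0
  have hsz : ∀ c ∈ C4, GKC739.Sz (P ^ b) (P ^ ε) H V K (X / nm y.1) y.2 e A c := fun c hc =>
    GKC739.sz_P hε hP h.H1 h.HP h.XP h.V1 h.VP hK0 h.KiP h.KP h.δp h.δP h.ep h.eP h.hy h.hA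
      h.yX hc
  have hQe : (P ^ b) ^ ε₂ = P ^ ε := by
    rw [← Real.rpow_natCast, ← Real.rpow_mul hP0.le, hε₂]
    congr 1
    field_simp
  set Pf : ℝ := V ^ (-(1 : ℝ) / 3) * K ^ ((2 : ℝ) / 3) / nm (e * A) with hPf
  have hPf0 : 0 ≤ Pf := by positivity
  have h0 : 0 ≤ C3 * P ^ ε * Pf ^ 2 * M1 := by positivity
  have h2 : PTs α δ e V K X B0 y A ≤ 4 * (C3 * P ^ ε * Pf ^ 2 * M1) := by
    unfold PTs E2440.PJ
    by_cases hy1 : y.2 = 1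
    · simp only [if_pos hy1]
      have h3 : ∀ c ∈ C4, ∑ j₂ ∈ (S (Real.sqrt V)).filter (fun j₂ => 1 ≤ RR V e A c j₂),
          RR V e A c j₂ ^ (-(2 : ℝ) / 3) * (K / nm (e * A * j₂)) ^ ((4 : ℝ) / 3) *
          ∑ B ∈ (S (X / nm y.1)).filter (fun B => B0 < nm B), (nm B : ℝ) ^ (-(4 : ℝ) / 3) *
            MTs α δ e V y A c j₂ B ≤ C3 * P ^ ε * Pf ^ 2 * M1 := by
        intro c hc
        have h4 := hMT (P ^ b) (P ^ ε) H V K (X / nm y.1) y.2 e A c (hsz c hc) B0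
          (fun j₂ B => MTs α δ e V y A c j₂ B)
          (fun _ _ _ _ _ => MTs_nonneg _ _ _ _ _ _ _ _ _) M1 hM1
          (fun l u h => hcellt hy1 c hc l u h)
        rw [hQe] at h4
        exact h4
      refine (Finset.sum_le_sum h3).trans ?_
      rw [Finset.sum_const, nsmul_eq_mul]
      exact mul_le_mul_of_nonneg_right card_C4 h0
    · simp only [if_neg hy1, Finset.sum_const_zero]
      linarith
  refine h2.trans (le_of_eq ?_)
  ring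

open Classical in
/-- **`∑_c ∑_{j₂} Qs` of a difference of flagged lists with the compensated weight**, sharp
cells -/
theorem Qs_N2x {h : ℝ → ℝ} {c₀ : ℝ} (hpu : PU h c₀) {R : ℝ} (hR0 : 0 ≤ R)
    (hR : ∀ u, cx h u ≠ 0 → |u| ≤ R) {μ : ℝ} (hμ : 0 ≤ μ) (r : ℕ) {ε : ℝ} (hε : 0 < ε)
    (hε2 : ε ≤ 1) (a₀ M' A' : ℕ) (hA' : 2 * (r * μ) + 2 ≤ A') (hA12 : 12 ≤ A') :
    ∃ (k bz : ℕ) (Cz C : ℝ), 1 ≤ Cz ∧ 1 ≤ C ∧ ∀ (F : ℝ → ℂ) (Sf : ℝ), TF1 F → Bd F k Sf →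
      ∀ hh : ℝ, 0 ≤ hh →
      ∀ Pz : ℝ, Real.exp hh ≤ Pz → 9 ≤ Pz → ∀ (Cφ η : ℝ) (φ : ℝ → ℝ), 0 ≤ Cφ → 0 < η → η ≤ 1 →
      WK Cφ η A' φ → ∀ p ∈ T9, ∀ (t₀ : ℝ) (P : DPar) (_ : P.OK) (ps : List Pf) (d₁ : ℝ),
      ps.length = r → (rp d₁ ps).length = r →
      (∀ x ∈ ps, 0 ≤ x.1.z) → (∀ x ∈ rp d₁ ps, 0 ≤ x.1.z) →
      (∀ x ∈ ps, Real.exp x.1.z ≤ Pz) → (∀ x ∈ rp d₁ ps, Real.exp x.1.z ≤ Pz) →
      ∀ z D0 : ℝ, 1 ≤ D0 →
      D0 ^ r ≤ Pz → ∀ q : Eis, IsPrim q → (nm q : ℝ) ≤ Pz → ∀ X Ax : ℝ,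
      FS (sqc q (alF z D0 P h ps)) → FS (sqc q (alF z D0 P h (rp d₁ ps))) →
      FS (xs q z D0 P h d₁ ps) →
      (∀ n, bw φ p t₀ (xs q z D0 P h d₁ ps) n ≠ 0 → Squarefree n) →
      (∀ n, bw φ p t₀ (xs q z D0 P h d₁ ps) n ≠ 0 → X / 2 < nm n ∧ (nm n : ℝ) ≤ X) →
      (∀ n, ‖bw φ p t₀ (xs q z D0 P h d₁ ps) n‖ ≤ Ax) → Ax ≤ Pz ^ a₀ → X ≤ Pz →
      ∀ (Ap s₀ Zv : ℝ), 0 ≤ Ap → 81 * (Cz * Pz ^ bz) ≤ Zv →
      PV (fun H => ∃ c, H = c ^ 3) 6 Ap s₀ Zv (xs q z D0 P h d₁ ps) →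
      ∀ (V K : ℝ) (δ e : Eis), SzP Pz V K δ e → (nm δ : ℝ) ≤ X → ∀ y ∈ prs δ, ∀ A ∈ pdiv y.1,
      ∀ (s₁ i1 i2 Bc Tn Bc' Tn' Zp : ℝ), Real.log (nm (e * A)) + k9 ≤ s₁ → 0 ≤ Bc → 0 ≤ Bc' →
      Real.log 4 + ε / 2 * Real.log Pz + hh + 2 * Real.log (nm y.2) +
        (Real.log X - Real.log (nm y.1)) + Real.log V + 2 * Real.log (nm (e * A)) -
        Real.log K ≤ i1 →
      Real.log 10 + Real.log K - Real.log (nm (e * A)) + 1 ≤ i2 →
      PMHQ h μ C P (fun i => (ps.get i).1) (Real.log (V * nm (e * A))) (Real.log (nm y.1))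
        (Real.log (nm y.2)) i1 i2 s₁ Bc Tn →
      PMHQ h μ C P (fun i => ((rp d₁ ps).get i).1) (Real.log (V * nm (e * A)))
        (Real.log (nm y.1)) (Real.log (nm y.2)) i1 i2 s₁ Bc' Tn' →
      (y.2 = 1 → V ^ (-(1 : ℝ) / 3) * K ^ ((2 : ℝ) / 3) / nm (e * A) *
        ((X / nm δ) ^ ((2 : ℝ) / 3) / Real.exp ((i2 - i1) / 3) *
        ((V * (nm (e * A) : ℝ) ^ 3) ^ ((1 : ℝ) / 3) *
        ML (V * (nm (e * A) : ℝ) ^ 3) (X / nm δ / Real.exp ((i2 - i1) / 3)))) ≤ Real.exp Zp) →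
      ∑ c ∈ C4, ∑ j₂ ∈ S (Real.sqrt V), Qs (bw φ p t₀ (xs q z D0 P h d₁ ps)) δ e V K
        (GF (Fh F hh)) y A c j₂ ≤
      C * Sf ^ 2 * Pz ^ (50 * ε) *
        (V ^ (-(1 : ℝ) / 3) * K ^ ((2 : ℝ) / 3) / nm (e * A) *
          (Cφ ^ 2 * (η * (η ^ A')⁻¹) * (1 + |t₀|) ^ A' * opL r D0 *
            (Bc * Real.exp Tn + Bc' * Real.exp Tn') + Ax ^ 2 * Real.exp Zp) +
          (Cφ * (η⁻¹) ^ 6 * (1 + |t₀|) ^ 6) ^ 2 * ((Ap / nm y.1) ^ 2 *
            PJm K V (X / nm y.1) (nm (e * A)) (nm (kw p)) (nm y.2) (Real.exp hh)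
              (Mu s₀ y.1) 1) + (Pz ^ M')⁻¹) := by
  obtain ⟨M, bz, Cz, CQ, hCz, hCQ, HQ⟩ := qs_g hε a₀ M' A' hA12
  obtain ⟨k, CK, hCK, HK⟩ := kdd_all A' M 1
  obtain ⟨CN, hCN, HN⟩ := cell_N2d hpu hR0 hR hμ r hε
  obtain ⟨CT, hCT, HT⟩ := polar_N2 hε
  obtain ⟨CP, hCP, HP⟩ := pts_le hε
  have hiA := iA_nonneg A'
  have hiB := iA_nonneg (A' - 6)
  set C16 : ℝ := (32 : ℝ) ^ (2 * ε) with hC16
  have hC160 : 1 ≤ C16 := Real.one_le_rpow (by norm_num) (by linarith)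
  have hCQK : 0 ≤ CQ * CK ^ 2 := by positivity
  have hx2 : 0 ≤ (1 + CQ * CK ^ 2) * (CN * iA A' * C16 + CP * CT * C16 + iA (A' - 6) ^ 2 + 1) := by
    positivity
  refine ⟨k, bz, Cz, CN + CT + (1 + CQ * CK ^ 2) *
    (CN * iA A' * C16 + CP * CT * C16 + iA (A' - 6) ^ 2 + 1), hCz, by linarith, ?_⟩
  intro F Sf hF hBF hh hhh Pz hHP hP9 Cφ η φ hCφ hη hη1 hφ p hp t₀ P hP ps d₁ hr hr' hs hs' hsP
    hsP' z D0 hD hDP q hq
    hqP X Ax hFS hFS' hFSx hαsq hαs hAx hAxP hXP Ap s₀ Zv hAp hZv hPV V K δ e hz hδX y hy A hA s₁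
    i1 i2 Bc Tn Bc' Tn' Zp hs₁ hBd hBd' hi1 hi2 hPM hPM' hZp
  have hP1 := hz.P1
  have hP0 : 0 < Pz := by linarith
  have hV0 : 0 < V := by linarith [hz.V1]
  have hK0 := hz.K0
  have hy' := (mem_prs hz.δp).mp hy
  have hA2 := (mem_pdiv hy'.1.ne_zero).mp hA
  have hSf : 0 ≤ Sf := (norm_nonneg _).trans (hBF 0 (Nat.zero_le _) 0)
  have hAx0 : 0 ≤ Ax := (norm_nonneg _).trans (hAx 0)
  have hop := opL_nonneg r (show (0 : ℝ) ≤ D0 by linarith)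
  set α : Eis → ℂ := bw φ p t₀ (xs q z D0 P h d₁ ps) with hα
  have hFSα : FS α := FS_bw hFSx
  have hy1n : (1 : ℝ) ≤ nm y.1 := one_le_nmR hy'.1.ne_zero
  have hy2n : (1 : ℝ) ≤ nm y.2 := one_le_nmR hy'.2.1.ne_zero
  have hδ1 : (1 : ℝ) ≤ nm δ := one_le_nmR hz.δp.ne_zero
  have hyδ : (nm δ : ℝ) = nm y.1 * nm y.2 := by
    rw [← hy'.2.2, nm_mul]; push_cast; ring
  have hy1δ : (nm y.1 : ℝ) ≤ nm δ := by
    rw [hyδ]
    nlinarith
  have hy2δ : (nm y.2 : ℝ) ≤ nm δ := by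
    rw [hyδ]
    nlinarith
  have hy1P : (nm y.1 : ℝ) ≤ Pz := hy1δ.trans hz.δP
  have hy2P : (nm y.2 : ℝ) ≤ Pz := hy2δ.trans hz.δP
  have hyX : (nm y.1 : ℝ) ≤ X := hy1δ.trans hδX
  have hX1 : 1 ≤ X := hδ1.trans hδX
  have hX0 : 0 < X := by linarith
  have hA1 : (1 : ℝ) ≤ nm A := one_le_nmR hA2.1.ne_zero
  have hAP : (nm A : ℝ) ≤ Pz := by
    refine le_trans ?_ hy1P
    exact_mod_cast Div277.nm_le_of_dvd hy'.1.ne_zero hA2.2
  have he1 : (1 : ℝ) ≤ nm e := one_le_nmR hz.ep.ne_zero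
  have hea : (nm (e * A) : ℝ) = nm e * nm A := by rw [nm_mul]; push_cast; ring
  have hea1 : (1 : ℝ) ≤ nm (e * A) := by rw [hea]; nlinarith
  have hea2 : (nm (e * A) : ℝ) ≤ Pz ^ 2 := by
    rw [hea, sq]
    exact mul_le_mul hz.eP hAP (by positivity) (by positivity)
  have hW0 : 0 ≤ V ^ (-(1 : ℝ) / 3) * K ^ ((2 : ℝ) / 3) / nm (e * A) := by positivity
  set X' : ℝ := X / nm y.1 with hX'
  have hX'1 : 1 ≤ X' := by rw [hX', le_div_iff₀ (by linarith)]; linarith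
  have hX'P : X' ≤ Pz := (div_le_self hX0.le hy1n).trans hXP
  have hlX' : Real.log X' = Real.log X - Real.log (nm y.1) := by
    rw [hX', Real.log_div hX0.ne' (by linarith)]
  set B0 : ℝ := Real.exp ((i2 - i1) / 3) with hB0
  set X0 : ℝ := 32 * Pz ^ 20 with hX0d
  have hP20 : ∀ m : ℕ, m ≤ 20 → Pz ^ m ≤ Pz ^ 20 := fun m hm => pow_le_pow_right₀ hP1 hm
  have hPX0 : Pz ≤ X0 := by
    have := hP20 1 (by norm_num)
    rw [pow_one] at this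
    have h2 : 0 ≤ Pz ^ 20 := by positivity
    linarith
  have hX01 : 1 ≤ X0 := hP1.trans hPX0
  have hX00 : 0 < X0 := by linarith
  set GG : ℝ := Cφ ^ 2 * iA A' * (η * (η ^ A')⁻¹) with hGG
  have hGG0 : 0 ≤ GG := by positivity
  set TT : ℝ := (1 + |t₀|) ^ A' * opL r D0 with hTT
  have hTT0 : 0 ≤ TT := by positivity
  set M0 : ℝ := CN * GG * X0 ^ (2 * ε) * TT * (Bc * Real.exp Tn + Bc' * Real.exp Tn') with hM0
  have hM00 : 0 ≤ M0 := by positivity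
  set V3 : ℝ := V * (nm (e * A) : ℝ) ^ 3 with hV3
  have hV30 : 0 ≤ V3 := by positivity
  have hML0 : 0 ≤ ML V3 (X / nm δ / B0) := ML_nonneg hV30 (by positivity)
  set L1 : ℝ := (X / nm δ) ^ ((2 : ℝ) / 3) / B0 * (V3 ^ ((1 : ℝ) / 3) *
    ML V3 (X / nm δ / B0)) with hL1
  have hL10 : 0 ≤ L1 := by positivity
  set M1 : ℝ := if y.2 = 1 then CT * X0 ^ ε * Ax ^ 2 * L1 else 0 with hM1
  have hM10 : 0 ≤ M1 := by
    rw [hM1]
    split_ifs
    · positivity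
    · exact le_rfl
  have hCNC : CN ≤ CN + CT + (1 + CQ * CK ^ 2) *
      (CN * iA A' * C16 + CP * CT * C16 + iA (A' - 6) ^ 2 + 1) := by linarith
  have hT1 : 1 ≤ Pz ^ (ε / 2 / 2) := Real.one_le_rpow hP1 (by linarith)
  have hTP : Pz ^ (ε / 2 / 2) ≤ Pz := by
    calc Pz ^ (ε / 2 / 2) ≤ Pz ^ (1 : ℝ) := Real.rpow_le_rpow_of_exponent_le hP1 (by linarith)
      _ = Pz := Real.rpow_one _
  have hH1 : 1 ≤ Real.exp hh := Real.one_le_exp hhh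
  have hkw1 : (1 : ℝ) ≤ nm (kw p) := one_le_nmR (kw_ne p)
  have hkw81 : (nm (kw p) : ℝ) ^ 2 ≤ 81 := by
    have h1 := RC106.nm_kw hp
    rw [nm_pow] at h1
    push_cast at h1
    exact h1
  have hkw : (nm (kw p) : ℝ) ≤ 9 := by
    by_contra h1
    push Not at h1
    nlinarith
  have hPVb := pv_bw hFSx hPV hAp hφ hCφ hη hη1 (show 6 + 2 ≤ A' by omega) p t₀
  set Axp : ℝ := Cφ * iA (A' - 6) * (η⁻¹) ^ 6 * (1 + |t₀|) ^ 6 * Ap with hAxp
  have hZv2 : Cz * Pz ^ bz ≤ Zv / (nm (kw p) : ℝ) ^ 2 := by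
    have h0 : 0 ≤ Cz * Pz ^ bz := by positivity
    rw [le_div_iff₀ (by positivity)]
    nlinarith
  have hSz : ∀ c ∈ C4, QsJ401.Sz Pz X V K (Real.exp hh) δ e A c y := fun c hc =>
    { P1 := hP1, H1 := hH1, HP := hHP, XP := hXP, VP := hz.VP, V1 := hz.V1, K0 := hK0,
      KiP := hz.Ki, KP := hz.KP, δp := hz.δp, δs := hz.δs, δP := hz.δP, ep := hz.ep, eP := hz.eP,
      hy := hy, hA := hA, yX := hyX, hc := hc }
  have hpt := HP Pz X V K (Real.exp hh) B0 α δ e A y hSz M1 hM10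
    (fun hy2 c hc l u hex => by
      have hy1 : y.1 = δ := by
        have := hy'.2.2
        rwa [hy2, mul_one] at this
      have hVQ : V * (nm (e * A) : ℝ) ^ 3 ≤ X0 := by
        have a3 := hz.VP
        calc V * (nm (e * A) : ℝ) ^ 3 ≤ Pz * (Pz ^ 2) ^ 3 := by gcongr
          _ = Pz ^ 7 := by ring
          _ ≤ X0 := by
              have := hP20 7 (by norm_num)
              have h0 : 0 ≤ Pz ^ 20 := by positivity
              linarith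
      rw [hy1] at hex
      have h2 := HT X X0 Ax α hAx0 hFSα hαsq hαs hAx δ e A hz.δp hz.δs hz.ep hA2.1 V B0 hV0
        (Real.exp_pos _) hδX (hXP.trans hPX0) hVQ c hc l u hex
      rw [hM1, if_pos hy2, hy2, hy1]
      exact h2)
  have h1 := HQ Pz (GF (Fh F hh)) (CK * Sf) (Real.exp hh)
    (fun σ i y => om' σ F i y - om' σ F i (y * Real.exp hh)) (by positivity)
    (fun σ hσ => HK F Sf hF hBF hh hhh σ hσ)
    X V K B0 α (kw p) hFSα hαsq hαs (fun n => (hAx n).trans hAxP) (kw_ne p) (hkw.trans hP9)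
    Axp s₀ (Zv / (nm (kw p) : ℝ) ^ 2) hZv2 hPVb δ e A y hSz
    (fun c j₂ B j n => MNc A' V e A c X' (NPp p) δ y.1 φ p t₀ j₂ B j n
      (xs q z D0 P h d₁ ps)) M0 hM00
    (fun c _ j₂ _ hRR B _ j n => MNc_nonneg hRR)
    (fun c _ j₂ _ hRR B hB i t j => by
      have hX'0 : 0 ≤ X' := by linarith
      have hBp := ((mem_S hX'0).1 hB).2.1
      have h2 := MNc_spec (J := A') (Qf := NPp p) (δ := δ) (φ := φ) (p := p)
        (t₀ := t₀) hX'0 hy'.1 hRR hBp.ne_zero j y.2 hFSx i t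
      have eQ : NPp p (e * A * j₂) B (dl' c i) = fun d =>
          ¬ ∃ c0, d * (e * A * j₂ * dl' c i * B ^ 2) * kw p ^ 2 = c0 ^ 3 := by
        funext d
        unfold NPz739.NPp NPx739.PrQ
        have e1 : d * (e * A * j₂ * kw p ^ 2) * dl' c i * B ^ 2 =
            d * (e * A * j₂ * dl' c i * B ^ 2) * kw p ^ 2 := by ring
        rw [e1]
      rw [eQ] at h2
      exact h2)
    (fun c hc l u j hcl n hn => by
      have hn' := (mem_dvs hy'.2.1.ne_zero).1 hn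
      have hsh := hcl.shell hT1 hH1 hK0 hX'1 hy'.2.1 hz.ep hA2.1 hc
      have hu : Real.exp ((u : ℝ) / 3) ≤ X' := by
        obtain ⟨j₂, hj₂, B, hB, -⟩ := hcl
        have hX'0 : 0 ≤ X' := by linarith
        exact (bk_nm_ge hX'0 hB).trans ((mem_bk hX'0).1 hB).1.1
      have hnum := cell_num (tl := ε / 2 * Real.log Pz) hP1 hT1 hTP (by
          rw [Real.log_rpow hP0]
          exact mul_le_mul_of_nonneg_right (by linarith) (Real.log_nonneg hP1)) hHP hy2n hy2P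
        hX'1 hX'P hz.V1 hz.VP hea1 hea2 hK0 hz.Ki hz.KP hu (nm_C hc).1
        (by rw [hlX']; linarith only [hi1]) hi2 hsh
      have h8 : 8 * X' ^ 2 ≤ X0 := by
        have g1 : X' ^ 2 ≤ Pz ^ 2 := by gcongr
        have := hP20 2 (by norm_num)
        have h0 : 0 ≤ Pz ^ 20 := by positivity
        linarith
      refine (HN A' hA' Cφ η φ hCφ hη hη1 hφ p hp t₀ P hP ps (rp d₁ ps) hr hr' hs hs' z z D0 hD q
        y.1 δ e A c hq hy'.1 hz.δp hz.ep hA2.1 hc hFS hFS' (zt d₁ ps) (norm_zt d₁ ps).le V X' X0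
        l u j n hV0 hX'1 h8 (hDP.trans hPX0)
        (hy1P.trans hPX0) (hqP.trans hPX0) (hz.δP.trans hPX0)
        (fun x hx => (hsP x hx).trans hPX0) (fun x hx => (hsP' x hx).trans hPX0) hn'.1 hu hnum.1
        s₁ (Real.log (nm y.2)) i1 i2 Bc Tn Bc' Tn'
        hs₁ hBd hBd'
        (Real.log_le_log (by exact_mod_cast nm_pos.2 hn'.1.ne_zero) (by
          exact_mod_cast Div277.nm_le_of_dvd hy'.2.1.ne_zero hn'.2)) hnum.2.1 hnum.2.2
        (PMHQ.mono hPM hCNC) (PMHQ.mono hPM' hCNC)).trans (le_of_eq ?_)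
      rw [hM0, hGG, hTT]
      ring)
  have hgA0 : 0 ≤ Cφ ^ 2 * (η * (η ^ A')⁻¹) := by positivity
  have hS0 : 0 ≤ Bc * Real.exp Tn + Bc' * Real.exp Tn' := by positivity
  have hQ0 : 0 ≤ (Pz ^ M')⁻¹ := by positivity
  have hX02 : X0 ^ (2 * ε) = C16 * Pz ^ (40 * ε) := by
    rw [hX0d, Real.mul_rpow (by norm_num) (by positivity), ← Real.rpow_natCast Pz 20,
      ← Real.rpow_mul hP0.le]
    congr 2
    push_cast
    ring
  have hPJ0 : 0 ≤ PJm K V X' (nm (e * A)) (nm (kw p)) (nm y.2) (Real.exp hh) (Mu s₀ y.1) 1 :=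
    PJm_nonneg hK0.le (by linarith) (by linarith)
      (Nat.cast_nonneg _) (Nat.cast_nonneg _) (Nat.cast_nonneg _) (Real.exp_pos _).le
      (Mu_nonneg _ _) zero_le_one
  obtain ⟨PJv, hPJv⟩ : ∃ x : ℝ, x = PJm K V X' (nm (e * A)) (nm (kw p)) (nm y.2) (Real.exp hh)
    (Mu s₀ y.1) 1 := ⟨_, rfl⟩
  rw [← hPJv] at hPJ0 h1 ⊢
  refine h1.trans (fin_num (W2 := (V ^ (-(1 : ℝ) / 3) * K ^ ((2 : ℝ) / 3) / nm (e * A)) ^ 2 * M1)
    (P40 := Pz ^ (40 * ε)) (a := iA A') (b := iA (A' - 6)) hCQ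
    (Real.one_le_rpow hP1 (by linarith only [hε])) (Real.one_le_rpow hP1 (by linarith only [hε]))
    (by
      rw [← Real.rpow_add hP0, ← Real.rpow_add hP0]
      exact Real.rpow_le_rpow_of_exponent_le hP1 (by linarith only [hε]))
    (zero_le_one.trans hC160) hiA hCN hCT hCP hW0
    (mul_nonneg (mul_nonneg (mul_nonneg hgA0 (by positivity)) hop) hS0)
    (mul_nonneg (sq_nonneg _) (Real.exp_pos _).le)
    (mul_nonneg (sq_nonneg _) (mul_nonneg (sq_nonneg _) hPJ0)) hQ0 (le_of_eq ?_) hpt ?_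
    (le_of_eq ?_))
  · rw [hM0, hX02, hGG, hTT]
    ring
  · by_cases hy2 : y.2 = 1
    · have hZ := hZp hy2
      rw [hM1, if_pos hy2]
      have hX0e : X0 ^ ε ≤ X0 ^ (2 * ε) :=
        Real.rpow_le_rpow_of_exponent_le hX01 (by linarith only [hε])
      rw [hX02] at hX0e
      have hq : (V ^ (-(1 : ℝ) / 3) * K ^ ((2 : ℝ) / 3) / nm (e * A)) * L1 ≤ Real.exp Zp := hZ
      calc (V ^ (-(1 : ℝ) / 3) * K ^ ((2 : ℝ) / 3) / nm (e * A)) ^ 2 *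
            (CT * X0 ^ ε * Ax ^ 2 * L1) =
          CT * X0 ^ ε * Ax ^ 2 * (V ^ (-(1 : ℝ) / 3) * K ^ ((2 : ℝ) / 3) / nm (e * A)) *
            ((V ^ (-(1 : ℝ) / 3) * K ^ ((2 : ℝ) / 3) / nm (e * A)) * L1) := by ring
        _ ≤ CT * (C16 * Pz ^ (40 * ε)) * Ax ^ 2 *
            (V ^ (-(1 : ℝ) / 3) * K ^ ((2 : ℝ) / 3) / nm (e * A)) * Real.exp Zp := by
            have b1 : CT * X0 ^ ε ≤ CT * (C16 * Pz ^ (40 * ε)) :=
              mul_le_mul_of_nonneg_left hX0e hCT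
            have b0 : 0 ≤ CT * (C16 * Pz ^ (40 * ε)) :=
              (mul_nonneg hCT (Real.rpow_nonneg hX00.le _)).trans b1
            refine mul_le_mul (mul_le_mul_of_nonneg_right
              (mul_le_mul_of_nonneg_right b1 (sq_nonneg _)) hW0) hq
              (mul_nonneg hW0 hL10) (mul_nonneg (mul_nonneg b0 (sq_nonneg _)) hW0)
        _ = _ := by ring
    · rw [hM1, if_neg hy2, mul_zero]
      have b0 : 0 ≤ C16 * Pz ^ (40 * ε) :=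
        mul_nonneg (zero_le_one.trans hC160) (Real.rpow_nonneg hP0.le _)
      have b1 : 0 ≤ CT * (C16 * Pz ^ (40 * ε)) := mul_nonneg hCT b0
      rw [mul_assoc CT]
      exact mul_nonneg b1 (mul_nonneg hW0 (mul_nonneg (sq_nonneg _) (Real.exp_pos _).le))
  · rw [hAxp]
    ring

end Crest.Agent.R017.N2X298
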