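import Crest.Agent.R017.N2a_106
import Crest.Agent.R017.P1Re_440

/-!
# Row 17, FlatNE (helper106): the real side of the compensated E2, sharp cells, part b

* `Qs_N2` : `∑_c ∑_{j₂} Qs` of a windowed, twisted flagged list with the compensated weight,
  from `PMH` and the polar number
-/

set_option autoImplicit false
set_option linter.unusedVariables false
set_option maxHeartbeats 16000000

noncomputable section

open Finset
open scoped ComplexConjugate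

namespace Crest.Agent.R017.N2106

open Crest.Agent.R012 Crest.Agent.R012.Eis
open Crest.Agent.R012.LS2 (S mem_S)
open Crest.Agent.R012.Div277 (dvs mem_dvs)
open Crest.Agent.R012.Mob705 (pdiv mem_pdiv)
open Crest.Agent.R017.B770
open Crest.Agent.R017.Prov71
open Crest.Agent.R017.CM106 (CS FS)
open Crest.Agent.R017.FE47 (cx PU)
open Crest.Agent.R017.HP842 (pc sqc)
open Crest.Agent.R017.Leg381 (alf alF Pf LF LF_get)
open Crest.Agent.R017.XRG106
open Crest.Agent.R017.X6C180 (IX dl' Sg GF om')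
open Crest.Agent.R017.X6545 (TF Bd)
open Crest.Agent.R017.X6W180 (TF1 tf1_tf)
open Crest.Agent.R017.FlC502 (thd thd_nonneg thd_le_one)
open Crest.Agent.R017.Win813 (iA iA_nonneg WK)
open Crest.Agent.R017.RGw813 (T9)
open Crest.Agent.R017.H1401 (pb mem_pb WM HW DN)
open Crest.Agent.R017.MoF106
open Crest.Agent.R017.MoL106
open Crest.Agent.R017.QsO83 (bw FS_bw)
open Crest.Agent.R017.E2440
open Crest.Agent.R017.GKC739 (Tb mem_Tb Tb_prim Cell nm_C one_le_nmR Qs_cells)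
open Crest.Agent.R017.E2sp579 (fP)
open Crest.Agent.R017.NPy739 (MNc opL opL_nonneg MNc_nonneg MNc_spec CellL cell_list)
open Crest.Agent.R017.MTL537 (ML ML_mono ML_nonneg mtl_cell)
open Crest.Agent.R017.RC106 (k9 log_fr kdd_all)
open Crest.Agent.R017.P1Rb440 (PMH cell_s)
open Crest.Agent.R017.P1Rd440 (PMH.mono)
open Crest.Agent.R017.P1Re440 (SzP sh2 exp13)

/-- a cell of the first kind, with the frequency `H` -/
lemma sh1H {T V K X' nν nE nc eu hh : ℝ} {a j : ℕ} (hT : 0 < T) (hV : 0 < V) (hK : 0 < K)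
    (hX : 0 < X') (hν : 0 < nν) (hE : 0 < nE) (hnc : 1 ≤ nc) (heu : 0 < eu)
    (h : (2 : ℝ) ^ j < 4 * T * Real.exp hh * nν ^ 2 * X' * V * nE ^ 2 * eu /
      (nc * K * Real.exp ((a : ℝ) / 3))) :
    (2 : ℝ) ^ j * Real.exp ((a : ℝ) / 3) ≤
      4 * T * Real.exp hh * nν ^ 2 * X' * V * nE ^ 2 * eu / K ∧
    Real.log (2 ^ j) + (a : ℝ) / 3 ≤ Real.log 4 + Real.log T + hh + 2 * Real.log nν +
      Real.log X' + Real.log V + 2 * Real.log nE + Real.log eu - Real.log K := by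
  have ha := Real.exp_pos ((a : ℝ) / 3)
  have hh0 := Real.exp_pos hh
  have h1 : (2 : ℝ) ^ j * Real.exp ((a : ℝ) / 3) ≤
      4 * T * Real.exp hh * nν ^ 2 * X' * V * nE ^ 2 * eu / K := by
    rw [lt_div_iff₀ (by positivity)] at h
    rw [le_div_iff₀ hK]
    have h2 : (2 : ℝ) ^ j * Real.exp ((a : ℝ) / 3) * K ≤
        (2 : ℝ) ^ j * (nc * K * Real.exp ((a : ℝ) / 3)) := by
      have h3 : 0 ≤ (2 : ℝ) ^ j * Real.exp ((a : ℝ) / 3) * K := by positivity
      nlinarith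
    linarith
  refine ⟨h1, ?_⟩
  have h2 := Real.log_le_log (by positivity) h1
  rw [Real.log_mul (by positivity) ha.ne', Real.log_exp, Real.log_div (by positivity) hK.ne',
    Real.log_mul (by positivity) heu.ne', Real.log_mul (by positivity) (by positivity),
    Real.log_mul (by positivity) hV.ne', Real.log_mul (by positivity) hX.ne',
    Real.log_mul (by positivity) (by positivity), Real.log_mul (by positivity) hh0.ne',
    Real.log_exp, Real.log_mul (by norm_num) hT.ne', Real.log_pow nE, Real.log_pow nν] at h2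
  push_cast at h2
  linarith

open Classical in
/-- **`∑_c ∑_{j₂} Qs` of a flagged list with the compensated weight**, sharp cells -/
theorem Qs_N2 {h : ℝ → ℝ} {c₀ : ℝ} (hpu : PU h c₀) {R : ℝ} (hR0 : 0 ≤ R)
    (hR : ∀ u, cx h u ≠ 0 → |u| ≤ R) {μ : ℝ} (hμ : 0 ≤ μ) (r : ℕ) {ε : ℝ} (hε : 0 < ε)
    (hε2 : ε ≤ 1) (a₀ M' A' : ℕ) (hA' : 2 * (r * μ) + 2 ≤ A') :
    ∃ (k : ℕ) (C : ℝ), 1 ≤ C ∧ ∀ (F : ℝ → ℂ) (Sf : ℝ), TF1 F → Bd F k Sf → ∀ hh : ℝ, 0 ≤ hh →
      ∀ Pz : ℝ, Real.exp hh ≤ Pz → ∀ (Cφ η : ℝ) (φ : ℝ → ℝ), 0 ≤ Cφ → 0 < η → η ≤ 1 →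
      WK Cφ η A' φ → ∀ p ∈ T9, ∀ (t₀ : ℝ) (P : DPar) (_ : P.OK) (ps : List Pf), ps.length = r →
      (∀ x ∈ ps, 0 ≤ x.1.z) → (∀ x ∈ ps, Real.exp x.1.z ≤ Pz) → ∀ z D0 : ℝ, 1 ≤ D0 →
      D0 ^ r ≤ Pz → ∀ q : Eis, IsPrim q → (nm q : ℝ) ≤ Pz → ∀ X Ax : ℝ,
      FS (sqc q (alF z D0 P h ps)) →
      (∀ n, bw φ p t₀ (sqc q (alF z D0 P h ps)) n ≠ 0 → Squarefree n) →
      (∀ n, bw φ p t₀ (sqc q (alF z D0 P h ps)) n ≠ 0 → X / 2 < nm n ∧ (nm n : ℝ) ≤ X) →
      (∀ n, ‖bw φ p t₀ (sqc q (alF z D0 P h ps)) n‖ ≤ Ax) → Ax ≤ Pz ^ a₀ → X ≤ Pz →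
      ∀ (V K : ℝ) (δ e : Eis), SzP Pz V K δ e → (nm δ : ℝ) ≤ X → ∀ y ∈ prs δ, ∀ A ∈ pdiv y.1,
      ∀ (s₁ i1 i2 Bc Tn Zp : ℝ), Real.log (nm (e * A)) + k9 ≤ s₁ → 0 ≤ Bc →
      Real.log 4 + ε / 2 * Real.log Pz + hh + 2 * Real.log (nm y.2) +
        (Real.log X - Real.log (nm y.1)) + Real.log V + 2 * Real.log (nm (e * A)) -
        Real.log K ≤ i1 →
      Real.log 10 + Real.log K - Real.log (nm (e * A)) + 1 ≤ i2 →
      PMH h μ C P (fun i => (ps.get i).1) (Real.log (V * nm (e * A))) (Real.log (nm y.1))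
        (Real.log (nm y.2)) i1 i2 s₁ Bc Tn →
      (y.2 = 1 → V ^ (-(1 : ℝ) / 3) * K ^ ((2 : ℝ) / 3) / nm (e * A) *
        ((X / nm δ) ^ ((2 : ℝ) / 3) / Real.exp ((i2 - i1) / 3) *
        ((V * (nm (e * A) : ℝ) ^ 3) ^ ((1 : ℝ) / 3) *
        ML (V * (nm (e * A) : ℝ) ^ 3) (X / nm δ / Real.exp ((i2 - i1) / 3)))) ≤ Real.exp Zp) →
      ∑ c ∈ C4, ∑ j₂ ∈ S (Real.sqrt V), Qs (bw φ p t₀ (sqc q (alF z D0 P h ps))) δ e V K
        (GF (Fh F hh)) y A c j₂ ≤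
      C * Sf ^ 2 * Pz ^ (50 * ε) *
        (V ^ (-(1 : ℝ) / 3) * K ^ ((2 : ℝ) / 3) / nm (e * A) *
          (Cφ ^ 2 * (η * (η ^ A')⁻¹) * (1 + |t₀|) ^ A' * opL r D0 * (Bc * Real.exp Tn) +
            Ax ^ 2 * Real.exp Zp) + (Pz ^ M')⁻¹) := by
  obtain ⟨M, CQ, hCQ, HQ⟩ := Qs_cells hε a₀ M'
  obtain ⟨k, CK, hCK, HK⟩ := kdd_all A' M 1
  obtain ⟨CN, hCN, HN⟩ := cell_N2 hpu hR0 hR hμ r hε
  obtain ⟨CT, hCT, HT⟩ := polar_N2 hε
  have hiA := iA_nonneg A'
  set C16 : ℝ := (32 : ℝ) ^ (2 * ε) with hC16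
  have hC160 : 1 ≤ C16 := Real.one_le_rpow (by norm_num) (by linarith)
  have hCQK : 0 ≤ CQ * CK ^ 2 := by positivity
  set CC : ℝ := CN + CT + (1 + CQ * CK ^ 2) * (1 + (CN * iA A' + CT) * C16) with hCC
  have hx1 : 0 ≤ (CN * iA A' + CT) * C16 := by positivity
  have hx2 : 0 ≤ (1 + CQ * CK ^ 2) * (1 + (CN * iA A' + CT) * C16) := by positivity
  refine ⟨k, CC, by linarith, ?_⟩
  intro F Sf hF hBF hh hhh Pz hHP Cφ η φ hCφ hη hη1 hφ p hp t₀ P hP ps hr hs hsP z D0 hD hDP q hq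
    hqP X Ax hFS hαsq hαs hAx hAxP hXP V K δ e hz hδX y hy A hA s₁ i1 i2 Bc Tn Zp hs₁ hBd hi1 hi2
    hPM hZp
  have hP1 := hz.P1
  have hP0 : 0 < Pz := by linarith
  have hV0 : 0 < V := by linarith [hz.V1]
  have hK0 := hz.K0
  have hy' := (mem_prs hz.δp).mp hy
  have hA2 := (mem_pdiv hy'.1.ne_zero).mp hA
  have hSf : 0 ≤ Sf := (norm_nonneg _).trans (hBF 0 (Nat.zero_le _) 0)
  have hAx0 : 0 ≤ Ax := (norm_nonneg _).trans (hAx 0)
  have hop := opL_nonneg r (show (0 : ℝ) ≤ D0 by linarith)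
  set α : Eis → ℂ := bw φ p t₀ (sqc q (alF z D0 P h ps)) with hα
  have hFSα : FS α := FS_bw hFS
  have hy1n : (1 : ℝ) ≤ nm y.1 := one_le_nmR hy'.1.ne_zero
  have hy2n : (1 : ℝ) ≤ nm y.2 := one_le_nmR hy'.2.1.ne_zero
  have hδ1 : (1 : ℝ) ≤ nm δ := one_le_nmR hz.δp.ne_zero
  have hyδ : (nm δ : ℝ) = nm y.1 * nm y.2 := by
    rw [← hy'.2.2, nm_mul]; push_cast; ring
  have hy1δ : (nm y.1 : ℝ) ≤ nm δ := by
    rw [hyδ]
    nlinarith
  have hy2δ : (nm y.2 : ℝ) ≤ nm δ := by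
    rw [hyδ]
    nlinarith
  have hy1P : (nm y.1 : ℝ) ≤ Pz := hy1δ.trans hz.δP
  have hy2P : (nm y.2 : ℝ) ≤ Pz := hy2δ.trans hz.δP
  have hyX : (nm y.1 : ℝ) ≤ X := hy1δ.trans hδX
  have hX1 : 1 ≤ X := hδ1.trans hδX
  have hX0 : 0 < X := by linarith
  have hA1 : (1 : ℝ) ≤ nm A := one_le_nmR hA2.1.ne_zero
  have hAP : (nm A : ℝ) ≤ Pz := by
    refine le_trans ?_ hy1P
    exact_mod_cast Div277.nm_le_of_dvd hy'.1.ne_zero hA2.2
  have he1 : (1 : ℝ) ≤ nm e := one_le_nmR hz.ep.ne_zero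
  have hea : (nm (e * A) : ℝ) = nm e * nm A := by rw [nm_mul]; push_cast; ring
  have hea1 : (1 : ℝ) ≤ nm (e * A) := by rw [hea]; nlinarith
  have hea2 : (nm (e * A) : ℝ) ≤ Pz ^ 2 := by
    rw [hea, sq]
    exact mul_le_mul hz.eP hAP (by positivity) (by positivity)
  have hW0 : 0 ≤ V ^ (-(1 : ℝ) / 3) * K ^ ((2 : ℝ) / 3) / nm (e * A) := by positivity
  set X' : ℝ := X / nm y.1 with hX'
  have hX'1 : 1 ≤ X' := by rw [hX', le_div_iff₀ (by linarith)]; linarith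
  have hX'P : X' ≤ Pz := (div_le_self hX0.le hy1n).trans hXP
  have hlX' : Real.log X' = Real.log X - Real.log (nm y.1) := by
    rw [hX', Real.log_div hX0.ne' (by linarith)]
  set B0 : ℝ := Real.exp ((i2 - i1) / 3) with hB0
  set X0 : ℝ := 32 * Pz ^ 20 with hX0d
  have hP20 : ∀ m : ℕ, m ≤ 20 → Pz ^ m ≤ Pz ^ 20 := fun m hm => pow_le_pow_right₀ hP1 hm
  have hPX0 : Pz ≤ X0 := by
    have := hP20 1 (by norm_num)
    rw [pow_one] at this
    have h2 : 0 ≤ Pz ^ 20 := by positivity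
    linarith
  have hX01 : 1 ≤ X0 := hP1.trans hPX0
  have hX00 : 0 < X0 := by linarith
  set GG : ℝ := Cφ ^ 2 * iA A' * (η * (η ^ A')⁻¹) with hGG
  have hGG0 : 0 ≤ GG := by positivity
  set TT : ℝ := (1 + |t₀|) ^ A' * opL r D0 with hTT
  have hTT0 : 0 ≤ TT := by positivity
  set M0 : ℝ := CN * GG * X0 ^ (2 * ε) * TT * (Bc * Real.exp Tn) with hM0
  have hM00 : 0 ≤ M0 := by positivity
  set V3 : ℝ := V * (nm (e * A) : ℝ) ^ 3 with hV3
  have hV30 : 0 ≤ V3 := by positivity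
  have hML0 : 0 ≤ ML V3 (X / nm δ / B0) := ML_nonneg hV30 (by positivity)
  set L1 : ℝ := (X / nm δ) ^ ((2 : ℝ) / 3) / B0 * (V3 ^ ((1 : ℝ) / 3) *
    ML V3 (X / nm δ / B0)) with hL1
  have hL10 : 0 ≤ L1 := by positivity
  set M1 : ℝ := if y.2 = 1 then CT * X0 ^ ε * Ax ^ 2 * L1 else 0 with hM1
  have hM10 : 0 ≤ M1 := by
    rw [hM1]
    split_ifs
    · positivity
    · exact le_rfl
  have hCNC : CN ≤ CC := by rw [hCC]; linarith
  have hT1 : 1 ≤ Pz ^ (ε / 2) := Real.one_le_rpow hP1 (by linarith)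
  have hTP : Pz ^ (ε / 2) ≤ Pz := by
    calc Pz ^ (ε / 2) ≤ Pz ^ (1 : ℝ) := Real.rpow_le_rpow_of_exponent_le hP1 (by linarith)
      _ = Pz := Real.rpow_one _
  have hH1 : 1 ≤ Real.exp hh := Real.one_le_exp hhh
  have h1 := HQ Pz hP1 A' (GF (Fh F hh)) (CK * Sf) (Real.exp hh)
    (fun y => min (y ^ (-(1 / 3) : ℝ)) (min 1 ((y * Real.exp hh) ^ 1))) (thd (Real.exp hh))
    (fun σ i y => om' σ F i y - om' σ F i (y * Real.exp hh))
    (fun σ hσ => HK F Sf hF hBF hh hhh σ hσ)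
    (fun y _ => (min_le_right _ _).trans (min_le_left _ _)) (fun y _ => thd_le_one _ _)
    hHP X V K B0 hXP hz.V1 hz.VP hK0 hz.Ki hz.KP α hFSα hαsq hαs
    (fun n => (hAx n).trans hAxP) δ e
    hz.δp hz.δs hz.δP hz.ep hz.eP y hy A hA hyX
    (fun c j₂ B j n => MNc A' V e A c X' (fun _ _ _ _ => True) δ y.1 φ p t₀ j₂ B j n
      (sqc q (alF z D0 P h ps))) (fun _ _ _ _ => 0) M0 M1 hM00 hM10
    (fun _ _ _ _ => le_rfl)
    (fun c _ j₂ _ hRR B _ j n => MNc_nonneg hRR)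
    (fun c _ j₂ _ hRR B hB i t j _ => by
      have hX'0 : 0 ≤ X' := by linarith
      have hBp := ((mem_S hX'0).1 hB).2.1
      have h2 := MNc_spec (J := A') (Qf := fun _ _ _ _ => True) (δ := δ) (φ := φ) (p := p)
        (t₀ := t₀) hX'0 hy'.1 hRR hBp.ne_zero j y.2 hFS i t
      simp only [P1Rd440.fP_true] at h2
      rw [add_zero]
      exact h2)
    (fun c hc l u j hcl n hn => by
      have hn' := (mem_dvs hy'.2.1.ne_zero).1 hn
      have hsh := hcl.shell hT1 hH1 hK0 hX'1 hy'.2.1 hz.ep hA2.1 hc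
      have hu : Real.exp ((u : ℝ) / 3) ≤ X' := by
        obtain ⟨j₂, hj₂, B, hB, -⟩ := hcl
        have hX'0 : 0 ≤ X' := by linarith
        exact (bk_nm_ge hX'0 hB).trans ((mem_bk hX'0).1 hB).1.1
      have hcn := (nm_C hc).1
      have heu := Real.exp_pos ((u : ℝ) / 3)
      have hnum : Real.exp ((l : ℝ) / 3 + 1 / 3) * 2 ^ j ≤ X0 ∧
          Real.log (2 ^ j) + l / 3 ≤ i1 + u / 3 ∧
          Real.log (2 ^ j) + l / 3 ≤ i2 - 2 * (u / 3) := by
        rcases hsh with ⟨hb, hj⟩ | ⟨hb, hj⟩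
        · obtain ⟨g1, g2⟩ := sh1H (by linarith) hV0 hK0 (by linarith) (by linarith) (by linarith)
            hcn heu hj
          rw [Real.log_exp, Real.log_rpow hP0, hlX'] at g2
          have hb2 : (u : ℝ) / 3 ≤ (i2 - i1) / 3 := Real.exp_le_exp.1 hb
          refine ⟨?_, by linarith, by linarith⟩
          have g3 : 4 * Pz ^ (ε / 2) * Real.exp hh * (nm y.2 : ℝ) ^ 2 * X' * V *
              (nm (e * A) : ℝ) ^ 2 *
              Real.exp ((u : ℝ) / 3) / K ≤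
              4 * Pz * Pz * Pz ^ 2 * Pz * Pz * (Pz ^ 2) ^ 2 * Pz * Pz := by
            rw [div_eq_mul_inv]
            have := hu.trans hX'P
            have hKi := hz.Ki
            have hVP := hz.VP
            gcongr
          calc Real.exp ((l : ℝ) / 3 + 1 / 3) * 2 ^ j =
                (2 ^ j * Real.exp ((l : ℝ) / 3)) * Real.exp (1 / 3) := by
                rw [Real.exp_add]; ring
            _ ≤ (4 * Pz * Pz * Pz ^ 2 * Pz * Pz * (Pz ^ 2) ^ 2 * Pz * Pz) * 2 :=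
                mul_le_mul (g1.trans g3) exp13 (Real.exp_pos _).le (by positivity)
            _ = 8 * Pz ^ 12 := by ring
            _ ≤ 8 * Pz ^ 20 := by
                have := hP20 12 (by norm_num)
                linarith
            _ ≤ X0 := by
                have : 0 ≤ Pz ^ 20 := by positivity
                linarith
        · obtain ⟨g1, g2⟩ := sh2 hK0 (by linarith) heu hj
          rw [Real.log_exp] at g2
          have hb2 : (i2 - i1) / 3 < (u : ℝ) / 3 + 1 / 3 := Real.exp_lt_exp.1 hb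
          refine ⟨?_, by linarith, by linarith⟩
          have g3 : 10 * K / (nm (e * A) * Real.exp ((u : ℝ) / 3) ^ 2) ≤ 10 * Pz := by
            have h5 : (1 : ℝ) ≤ nm (e * A) * Real.exp ((u : ℝ) / 3) ^ 2 := by
              have : (1 : ℝ) ≤ Real.exp ((u : ℝ) / 3) ^ 2 :=
                one_le_pow₀ (Real.one_le_exp (by positivity))
              nlinarith
            refine (div_le_self (by positivity) h5).trans ?_
            have := hz.KP
            linarith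
          calc Real.exp ((l : ℝ) / 3 + 1 / 3) * 2 ^ j =
                (2 ^ j * Real.exp ((l : ℝ) / 3)) * Real.exp (1 / 3) := by
                rw [Real.exp_add]; ring
            _ ≤ (10 * Pz) * 2 :=
                mul_le_mul (g1.trans g3) exp13 (Real.exp_pos _).le (by positivity)
            _ ≤ 20 * Pz ^ 20 := by
                have := hP20 1 (by norm_num)
                rw [pow_one] at this
                linarith
            _ ≤ X0 := by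
                have : 0 ≤ Pz ^ 20 := by positivity
                linarith
      have h8 : 8 * X' ^ 2 ≤ X0 := by
        have g1 : X' ^ 2 ≤ Pz ^ 2 := by gcongr
        have := hP20 2 (by norm_num)
        have h0 : 0 ≤ Pz ^ 20 := by positivity
        linarith
      refine (HN A' hA' Cφ η φ hCφ hη hη1 hφ p hp t₀ P hP ps hr hs z D0 hD q y.1 δ e A c hq
        hy'.1 hz.δp hz.ep hA2.1 hc V X' X0 l u j n hV0 hX'1 h8 (hDP.trans hPX0)
        (hy1P.trans hPX0) (hqP.trans hPX0) (hz.δP.trans hPX0)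
        (fun x hx => (hsP x hx).trans hPX0) hn'.1 hu hnum.1 s₁ (Real.log (nm y.2)) i1 i2 Bc Tn
        hs₁ hBd
        (Real.log_le_log (by exact_mod_cast nm_pos.2 hn'.1.ne_zero) (by
          exact_mod_cast Div277.nm_le_of_dvd hy'.2.1.ne_zero hn'.2)) hnum.2.1 hnum.2.2
        (PMH.mono hPM hCNC)).trans (le_of_eq ?_)
      rw [hM0, hGG, hTT]
      ring)
    (fun hy2 c hc l u hex => by
      have hy1 : y.1 = δ := by
        have := hy'.2.2
        rwa [hy2, mul_one] at this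
      have hVQ : V * (nm (e * A) : ℝ) ^ 3 ≤ X0 := by
        have a3 := hz.VP
        calc V * (nm (e * A) : ℝ) ^ 3 ≤ Pz * (Pz ^ 2) ^ 3 := by gcongr
          _ = Pz ^ 7 := by ring
          _ ≤ X0 := by
              have := hP20 7 (by norm_num)
              have h0 : 0 ≤ Pz ^ 20 := by positivity
              linarith
      rw [hy1] at hex
      have h2 := HT X X0 Ax α hAx0 hFSα hαsq hαs hAx δ e A hz.δp hz.δs hz.ep hA2.1 V B0 hV0
        (Real.exp_pos _) hδX (hXP.trans hPX0) hVQ c hc l u hex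
      rw [hM1, if_pos hy2, hy2, hy1]
      exact h2)
  refine h1.trans ?_
  have hGK0 : ∑ c ∈ C4, ∑ j₂ ∈ (S (Real.sqrt V)).filter (fun j₂ => 1 ≤ RR V e A c j₂),
          RR V e A c j₂ ^ (-(1 : ℝ) / 3) * (K / nm (e * A * j₂)) ^ ((2 : ℝ) / 3) *
            GKd (fun y => min (y ^ (-(1 / 3) : ℝ)) (min 1 ((y * Real.exp hh) ^ 1)))
              (thd (Real.exp hh)) (RR V e A c j₂) (X / nm y.1)
              (K / nm (e * A * j₂)) B0 y.2
              (NBf (Pz ^ (ε / 2)) (Real.exp hh) (X / nm y.1) (RR V e A c j₂)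
                (K / nm (e * A * j₂)) B0 y.2)
              (fun B j => (2 / 2 ^ j) * 0) = 0 := by
    refine Finset.sum_eq_zero fun c _ => Finset.sum_eq_zero fun j₂ _ => ?_
    have : GKd (fun y => min (y ^ (-(1 / 3) : ℝ)) (min 1 ((y * Real.exp hh) ^ 1)))
              (thd (Real.exp hh)) (RR V e A c j₂) (X / nm y.1)
              (K / nm (e * A * j₂)) B0 y.2
              (NBf (Pz ^ (ε / 2)) (Real.exp hh) (X / nm y.1) (RR V e A c j₂)
                (K / nm (e * A * j₂)) B0 y.2)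
              (fun B j => (2 / 2 ^ j) * 0) = 0 := by
      unfold E2440.GKd
      simp
    rw [this, mul_zero]
  rw [hGK0, add_zero]
  set W : ℝ := V ^ (-(1 : ℝ) / 3) * K ^ ((2 : ℝ) / 3) / nm (e * A) with hW
  have hQ0 : 0 ≤ (Pz ^ M')⁻¹ := by positivity
  have hX0e : X0 ^ ε ≤ X0 ^ (2 * ε) := Real.rpow_le_rpow_of_exponent_le hX01 (by linarith)
  have hX02 : X0 ^ (2 * ε) = C16 * Pz ^ (40 * ε) := by
    rw [hX0d, Real.mul_rpow (by norm_num) (by positivity), ← Real.rpow_natCast Pz 20,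
      ← Real.rpow_mul hP0.le]
    congr 2
    push_cast
    ring
  have hPe1 : 1 ≤ Pz ^ (40 * ε) := Real.one_le_rpow hP1 (by linarith)
  have hPe2 : Pz ^ ε * Pz ^ (40 * ε) ≤ Pz ^ (50 * ε) := by
    rw [← Real.rpow_add hP0]
    exact Real.rpow_le_rpow_of_exponent_le hP1 (by linarith)
  set gA : ℝ := Cφ ^ 2 * (η * (η ^ A')⁻¹) with hgA
  have hgA0 : 0 ≤ gA := by positivity
  set Y1 : ℝ := gA * (1 + |t₀|) ^ A' * opL r D0 * (Bc * Real.exp Tn) with hY1
  have hY10 : 0 ≤ Y1 := by positivity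
  set Y2 : ℝ := Ax ^ 2 * Real.exp Zp with hY2
  have hY20 : 0 ≤ Y2 := by positivity
  have s1 : W * M0 ≤ (CN * iA A' * C16) * Pz ^ (40 * ε) * (W * Y1) := by
    refine le_of_eq ?_
    rw [hM0, hX02, hGG, hTT, hY1, hgA]
    ring
  have s2 : W ^ 2 * M1 ≤ (CT * C16) * Pz ^ (40 * ε) * (W * Y2) := by
    by_cases hy2 : y.2 = 1
    · have hZ := hZp hy2
      calc W ^ 2 * M1 = W * (CT * X0 ^ ε * Ax ^ 2 * (W * L1)) := by rw [hM1, if_pos hy2]; ring
        _ ≤ W * (CT * X0 ^ (2 * ε) * Ax ^ 2 * Real.exp Zp) := by gcongr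
        _ = _ := by rw [hX02, hY2]; ring
    · rw [hM1, if_neg hy2, mul_zero]
      positivity
  have a1 : 0 ≤ W * Y1 := by positivity
  have a2 : 0 ≤ W * Y2 := by positivity
  have b1 : CN * iA A' * C16 ≤ 1 + (CN * iA A' + CT) * C16 := by
    have : 0 ≤ CT * C16 := by positivity
    nlinarith
  have b2 : CT * C16 ≤ 1 + (CN * iA A' + CT) * C16 := by
    have : 0 ≤ CN * iA A' * C16 := by positivity
    nlinarith
  have c1 : W * M0 ≤ (1 + (CN * iA A' + CT) * C16) * Pz ^ (40 * ε) * (W * Y1) :=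
    s1.trans (by gcongr)
  have c2 : W ^ 2 * M1 ≤ (1 + (CN * iA A' + CT) * C16) * Pz ^ (40 * ε) * (W * Y2) :=
    s2.trans (by gcongr)
  have c3 : (Pz ^ M')⁻¹ ≤ (1 + (CN * iA A' + CT) * C16) * Pz ^ (40 * ε) * (Pz ^ M')⁻¹ := by
    refine le_mul_of_one_le_left hQ0 ?_
    exact one_le_mul_of_one_le_of_one_le (by linarith) hPe1
  have hfin : W * M0 + W ^ 2 * M1 + (Pz ^ M')⁻¹ ≤
      (1 + (CN * iA A' + CT) * C16) * Pz ^ (40 * ε) * (W * (Y1 + Y2) + (Pz ^ M')⁻¹) := by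
    calc _ ≤ _ := add_le_add (add_le_add c1 c2) c3
      _ = _ := by ring
  calc CQ * (CK * Sf) ^ 2 * Pz ^ ε * (W * M0 + W ^ 2 * M1 + (Pz ^ M')⁻¹) ≤
      CQ * (CK * Sf) ^ 2 * Pz ^ ε * ((1 + (CN * iA A' + CT) * C16) * Pz ^ (40 * ε) *
        (W * (Y1 + Y2) + (Pz ^ M')⁻¹)) := mul_le_mul_of_nonneg_left hfin (by positivity)
    _ = (CQ * CK ^ 2 * (1 + (CN * iA A' + CT) * C16)) * Sf ^ 2 *
        (Pz ^ ε * Pz ^ (40 * ε)) * (W * (Y1 + Y2) + (Pz ^ M')⁻¹) := by ring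
    _ ≤ CC * Sf ^ 2 * Pz ^ (50 * ε) * (W * (Y1 + Y2) + (Pz ^ M')⁻¹) := by
        have a1 : CQ * CK ^ 2 * (1 + (CN * iA A' + CT) * C16) ≤ CC := by
          rw [hCC]
          have : 0 ≤ (1 + (CN * iA A' + CT) * C16) := by positivity
          nlinarith
        gcongr

end Crest.Agent.R017.N2106
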