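import Crest.Agent.R017.P1G_904
import Crest.Agent.R017.NEf_73

/-!
# Row 17, R8: the cross term of the near-equal triple, all cells, two scales (helper777)

Homogeneous in the family `K` (constant), list of length `n`, top level `V`, `5 (V + n) ≤ 7 K`,
tolerance `t ≤ K/20000`, second family `K e^{-h}`, `3 h ≤ (4 n - 3 K)⁺ + K/200`. The cell is
helper440's (`R2H`): `δ = y.1 y.2`, `N δ ~ d₀ + ν`, `A ∣ y.1`, `N e ~ e`,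
`9 e ≤ (4 n - 3 K)⁺ + K/100`. No condition on the shape of the list.

* `ThN` : the `T`-side of the block `(δ, e, v)`
* `R2N` : the `R`-side of every cell is `≤ 2 (K + n + F) - (ThN + F)`
* `r2N` : proof
-/

set_option autoImplicit false
set_option linter.unusedVariables false

noncomputable section

namespace Crest.Agent.R017.R2N777

open Crest.Agent.R017.P1R904
open Crest.Agent.R017.P1R2u176 (pmb)
open Crest.Agent.R017.P1G904 (Ww Ww_le)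
open Crest.Agent.R017.NE73 (flK)

/-- the `T`-side of the block `(D, e, v)` -/
def ThN (K n D e v : ℝ) : ℝ := D + 2 / 3 * K - v / 3 - (n - D) / 3 + flK K (v + e) (n - D - e)

/-- the state: family `K`, length `n`, top level `V`, tolerance `t` -/
structure StN (K n V t : ℝ) : Prop where
  K0 : 0 ≤ K
  t0 : 0 ≤ t
  tK : 20000 * t ≤ K
  n5 : 5 * n ≤ 4 * K + t
  n3 : 1499 * K ≤ 2000 * n
  vn : 5 * (V + n) ≤ 7 * K + t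

/-- children of the list, total removed length `δ` -/
structure ChN (n t δ z₁ z₂ z₃ : ℝ) : Prop where
  z10 : 0 ≤ z₁
  z20 : 0 ≤ z₂
  z30 : 0 ≤ z₃
  tot : z₁ + z₂ + z₃ + δ ≤ n + t

/-- **(R2)** for all cells -/
def R2N : Prop := ∀ K n V t h d F d₀ ν A e v b g g₂ i ms z₁ z₂ z₃ : ℝ,
  StN K n V t → 0 ≤ h → 3 * h ≤ max 0 (4 * n - 3 * K) + K / 200 → 0 ≤ d →
  2 * d * min z₁ (min z₂ z₃) ≤ F → 0 ≤ ν → 0 ≤ A → A ≤ d₀ →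
  2000 * (d₀ + ν) ≤ 2000 * n - 1499 * K + t → 0 ≤ e →
  9 * e ≤ max 0 (4 * n - 3 * K) + K / 100 → 0 ≤ v → v + 2 * (d₀ + ν) ≤ V + t → 0 ≤ b →
  0 ≤ g → 0 ≤ i → 0 ≤ ms → i ≤ v + n - K + h + 2 * (e + A) + 2 * ν - d₀ + b + t →
  i ≤ K - (e + A) - 2 * b + t → ChN n t (d₀ + b + g + ms) z₁ z₂ z₃ → 0 ≤ g₂ →
  g₂ ≤ g → 2 * g₂ ≤ i + t →
  (d₀ + ν - A + (Ww (v + e + A) i g - i) + ms +
      r3 d (e + A + i + 2 * b) (min z₁ (e + A + i + 2 * b)) (min z₂ (e + A + i + 2 * b))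
        (min z₃ (e + A + i + 2 * b)) 0 + K / 500 ≤ 2 * (K + n) - ThN K n (d₀ + ν) e v + F) ∨
    (d₀ + ν - A + (Ww (v + e + A) i g - i) + ms +
      pmb d (b + g₂) (e + A + i - 2 * g₂) z₁ z₂ z₃ 0 + K / 500 ≤
      2 * (K + n) - ThN K n (d₀ + ν) e v + F)

/-- the cases of `flK` -/
lemma fl_le (K l m : ℝ) : flK K l m ≤ 2 * m ∨ flK K l m ≤ 4 / 3 * m + (K + l) / 3 := by
  unfold NE73.flK
  rcases max_choice 0 ((l + K - 2 * m) / 3) with h | h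
  · left; rw [h]; linarith
  · right; rw [h]; linarith

/-- the four cases of `pmb`, sharp in `d` -/
lemma pmb_leN {d b i z₁ z₂ z₃ F : ℝ} (d0 : 0 ≤ d) (h1 : 0 ≤ z₁) (h2 : 0 ≤ z₂)
    (h3 : 0 ≤ z₃) (hF : 2 * d * min z₁ (min z₂ z₃) ≤ F) :
    pmb d b i z₁ z₂ z₃ 0 ≤ i + b + (z₁ + z₂ + z₃) + F ∨
    (∃ m, (m ≤ b ∧ m ≤ i) ∧ pmb d b i z₁ z₂ z₃ 0 ≤ 2 * (z₁ + z₂ + z₃) + m + F) ∨
    (∃ m, (m ≤ z₁ ∧ m ≤ z₂ ∧ m ≤ z₃) ∧
      pmb d b i z₁ z₂ z₃ 0 ≤ b + (z₁ + z₂ + z₃) + 3 / 4 * m + F) ∨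
    (∃ m, (m ≤ z₁ ∧ m ≤ z₂ ∧ m ≤ z₃) ∧
      pmb d b i z₁ z₂ z₃ 0 ≤ i + (z₁ + z₂ + z₃) + 3 / 4 * m + F) := by
  have hm0 : 0 ≤ min z₁ (min z₂ z₃) := le_min h1 (le_min h2 h3)
  have m1 : min z₁ (min z₂ z₃) ≤ z₁ := min_le_left _ _
  have m2 : min z₁ (min z₂ z₃) ≤ z₂ := (min_le_right _ _).trans (min_le_left _ _)
  have m3 : min z₁ (min z₂ z₃) ≤ z₃ := (min_le_right _ _).trans (min_le_right _ _)
  have hm : (3 / 4 + 2 * d) * min z₁ (min z₂ z₃) ≤ 3 / 4 * min z₁ (min z₂ z₃) + F := by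
    linarith
  have hF0 : 0 ≤ F := (mul_nonneg (by linarith) hm0).trans hF
  unfold P1R2u176.pmb
  rcases max_choice (max (i + b + (z₁ + z₂ + z₃ + 0)) (2 * (z₁ + z₂ + z₃ + 0) + min b i))
    (max b i + (z₁ + z₂ + z₃ + 0) + (3 / 4 + 2 * d) * min z₁ (min z₂ z₃) + 0) with h | h
  · rw [h]
    rcases max_choice (i + b + (z₁ + z₂ + z₃ + 0)) (2 * (z₁ + z₂ + z₃ + 0) + min b i)
      with h' | h'
    · rw [h']; exact Or.inl (by linarith)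
    · rw [h']; exact Or.inr (Or.inl ⟨_, ⟨min_le_left _ _, min_le_right _ _⟩, by linarith⟩)
  · rw [h]
    rcases max_choice b i with h' | h'
    · rw [h']; exact Or.inr (Or.inr (Or.inl ⟨_, ⟨m1, m2, m3⟩, by linarith⟩))
    · rw [h']; exact Or.inr (Or.inr (Or.inr ⟨_, ⟨m1, m2, m3⟩, by linarith⟩))

lemma l3_leN (i z₁ z₂ z₃ : ℝ) : l3 i z₁ z₂ z₃ ≤ z₁ ∧ l3 i z₁ z₂ z₃ ≤ i - z₁ ∧
    l3 i z₁ z₂ z₃ ≤ z₂ ∧ l3 i z₁ z₂ z₃ ≤ i - z₂ ∧ l3 i z₁ z₂ z₃ ≤ z₃ ∧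
    l3 i z₁ z₂ z₃ ≤ i - z₃ := by
  unfold P1R904.l3
  refine ⟨?_, ?_, ?_, ?_, ?_, ?_⟩
  · exact (min_le_left _ _).trans (min_le_left _ _)
  · exact (min_le_left _ _).trans (min_le_right _ _)
  · exact (min_le_right _ _).trans ((min_le_left _ _).trans (min_le_left _ _))
  · exact (min_le_right _ _).trans ((min_le_left _ _).trans (min_le_right _ _))
  · exact (min_le_right _ _).trans ((min_le_right _ _).trans (min_le_left _ _))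
  · exact (min_le_right _ _).trans ((min_le_right _ _).trans (min_le_right _ _))

lemma r3_leN {d i z₁ z₂ z₃ F : ℝ} (d0 : 0 ≤ d) (hF : 2 * d * min z₁ (min z₂ z₃) ≤ F) :
    r3 d i z₁ z₂ z₃ 0 ≤ i + (z₁ + z₂ + z₃) + 3 / 4 * l3 i z₁ z₂ z₃ + F := by
  unfold P1R904.r3
  obtain ⟨a1, -, a2, -, a3, -⟩ := l3_leN i z₁ z₂ z₃
  have h := mul_le_mul_of_nonneg_left (le_min a1 (le_min a2 a3)) (show 0 ≤ 2 * d by linarith)
  linarith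

set_option maxHeartbeats 64000000 in
/-- the linear core of (R2) : all the cases -/
lemma core {K n V t h d₀ ν A e v b g g₂ i ms z₁ z₂ z₃ W L T M m₁ m₂ m₃ : ℝ}
    (K0 : 0 ≤ K) (t0 : 0 ≤ t) (tK : 20000 * t ≤ K) (n5 : 5 * n ≤ 4 * K + t)
    (n3 : 1499 * K ≤ 2000 * n) (vn : 5 * (V + n) ≤ 7 * K + t)
    (hM : (M = 0 ∧ 4 * n - 3 * K ≤ 0) ∨ (M = 4 * n - 3 * K ∧ 0 ≤ 4 * n - 3 * K))
    (h00 : 0 ≤ h) (h1 : 3 * h ≤ M + K / 200)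
    (ν0 : 0 ≤ ν) (A0 : 0 ≤ A) (A1 : A ≤ d₀) (D1 : 2000 * (d₀ + ν) ≤ 2000 * n - 1499 * K + t)
    (e0 : 0 ≤ e) (e1 : 9 * e ≤ M + K / 100)
    (v0 : 0 ≤ v) (hv1 : v + 2 * (d₀ + ν) ≤ V + t) (b0 : 0 ≤ b)
    (g0 : 0 ≤ g) (i0 : 0 ≤ i) (s0 : 0 ≤ ms)
    (i1 : i ≤ v + n - K + h + 2 * (e + A) + 2 * ν - d₀ + b + t)
    (i2 : i ≤ K - (e + A) - 2 * b + t)
    (z10 : 0 ≤ z₁) (z20 : 0 ≤ z₂) (z30 : 0 ≤ z₃)
    (tot : z₁ + z₂ + z₃ + (d₀ + b + g + ms) ≤ n + t) (h0 : 0 ≤ g₂) (hg : g₂ ≤ g)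
    (gi : 2 * g₂ ≤ i + t)
    (k1 : m₁ ≤ e + A + i + 2 * b) (k2 : m₂ ≤ e + A + i + 2 * b) (k3 : m₃ ≤ e + A + i + 2 * b)
    (j1 : m₁ ≤ z₁) (j2 : m₂ ≤ z₂) (j3 : m₃ ≤ z₃)
    (l1 : L ≤ m₁) (l2 : L ≤ e + A + i + 2 * b - m₁) (l3 : L ≤ m₂)
    (l4 : L ≤ e + A + i + 2 * b - m₂) (l5 : L ≤ m₃) (l6 : L ≤ e + A + i + 2 * b - m₃)
    (hT : T ≤ (d₀ + ν) + 2 / 3 * K - v / 3 - (n - (d₀ + ν)) / 3 + 2 * (n - (d₀ + ν) - e) ∨
      T ≤ (d₀ + ν) + 2 / 3 * K - v / 3 - (n - (d₀ + ν)) / 3 +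
        (4 / 3 * (n - (d₀ + ν) - e) + (K + (v + e)) / 3))
    (hm : 2 * (K + n) - T < d₀ + ν - A + (W - i) + ms +
      (e + A + i + 2 * b + (m₁ + m₂ + m₃) + 3 / 4 * L) + K / 500)
    (hW : W ≤ v + e + A + g ∨ W ≤ i + g ∨ W ≤ 2 / 3 * (v + e + A + i) + g)
    (hp : 2 * (K + n) - T < d₀ + ν - A + (W - i) + ms +
        ((e + A + i - 2 * g₂) + (b + g₂) + (z₁ + z₂ + z₃)) + K / 500 ∨
      (∃ m, (m ≤ b + g₂ ∧ m ≤ e + A + i - 2 * g₂) ∧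
        2 * (K + n) - T < d₀ + ν - A + (W - i) + ms + (2 * (z₁ + z₂ + z₃) + m) + K / 500) ∨
      (∃ L', (L' ≤ z₁ ∧ L' ≤ z₂ ∧ L' ≤ z₃) ∧
        2 * (K + n) - T < d₀ + ν - A + (W - i) + ms +
          (b + g₂ + (z₁ + z₂ + z₃) + 3 / 4 * L') + K / 500) ∨
      (∃ L', (L' ≤ z₁ ∧ L' ≤ z₂ ∧ L' ≤ z₃) ∧
        2 * (K + n) - T < d₀ + ν - A + (W - i) + ms +
          (e + A + i - 2 * g₂ + (z₁ + z₂ + z₃) + 3 / 4 * L') + K / 500)) :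
    False := by
  rcases hM with ⟨rfl, hM⟩ | ⟨rfl, hM⟩ <;>
  rcases hT with hT | hT <;>
  rcases hp with hp | ⟨m, ⟨n1, n2⟩, hp⟩ | ⟨m, ⟨n1, n2, n3'⟩, hp⟩ | ⟨m, ⟨n1, n2, n3'⟩, hp⟩ <;>
  rcases hW with hW | hW | hW <;> linarith

/-- **(R2)** -/
theorem r2N : R2N := by
  intro K n V t h d F d₀ ν A e v b g g₂ i ms z₁ z₂ z₃ hS h00 h1 d0 hF n0 A0 A1 D1 e0 e1 v0 hv b0
    g0 i0 s0 i1 i2 hc h0 hg gi
  obtain ⟨K0, t0, tK, n5, n3, vn⟩ := hS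
  obtain ⟨z10, z20, z30, tot⟩ := hc
  have hM : (max 0 (4 * n - 3 * K) = 0 ∧ 4 * n - 3 * K ≤ 0) ∨
      (max 0 (4 * n - 3 * K) = 4 * n - 3 * K ∧ 0 ≤ 4 * n - 3 * K) := by
    rcases le_total 0 (4 * n - 3 * K) with h' | h'
    · exact Or.inr ⟨max_eq_right h', h'⟩
    · exact Or.inl ⟨max_eq_left h', h'⟩
  have hT := fl_le K (v + e) (n - (d₀ + ν) - e)
  by_contra hcon
  rw [not_or, not_le, not_le] at hcon
  obtain ⟨hm, hp⟩ := hcon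
  unfold ThN at hm hp
  have hI : 0 ≤ e + A + i + 2 * b := by linarith
  have k1 := min_le_right z₁ (e + A + i + 2 * b)
  have k2 := min_le_right z₂ (e + A + i + 2 * b)
  have k3 := min_le_right z₃ (e + A + i + 2 * b)
  have j1 := min_le_left z₁ (e + A + i + 2 * b)
  have j2 := min_le_left z₂ (e + A + i + 2 * b)
  have j3 := min_le_left z₃ (e + A + i + 2 * b)
  obtain ⟨l1, l2, l3', l4, l5, l6⟩ := l3_leN (e + A + i + 2 * b) (min z₁ (e + A + i + 2 * b))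
    (min z₂ (e + A + i + 2 * b)) (min z₃ (e + A + i + 2 * b))
  have hr := r3_leN (i := e + A + i + 2 * b) d0
    (z₁ := min z₁ (e + A + i + 2 * b)) (z₂ := min z₂ (e + A + i + 2 * b))
    (z₃ := min z₃ (e + A + i + 2 * b)) (F := F)
    (le_trans (mul_le_mul_of_nonneg_left (min_le_min j1 (min_le_min j2 j3)) (by linarith)) hF)
  refine core K0 t0 tK n5 n3 vn hM h00 h1 n0 A0 A1 D1 e0 e1 v0 hv b0 g0 i0 s0 i1 i2 z10 z20 z30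
    tot h0 hg gi k1 k2 k3 j1 j2 j3 l1 l2 l3' l4 l5 l6
    (T := d₀ + ν + 2 / 3 * K - v / 3 - (n - (d₀ + ν)) / 3 +
      flK K (v + e) (n - (d₀ + ν) - e)) ?_ (W := Ww (v + e + A) i g) (by linarith) ?_ ?_
  · rcases hT with hT | hT
    · exact Or.inl (by linarith)
    · exact Or.inr (by linarith)
  · rcases Ww_le (v + e + A) i g with h | h | h
    · exact Or.inl (by linarith)
    · exact Or.inr (Or.inl (by linarith))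
    · exact Or.inr (Or.inr (by linarith))
  · rcases pmb_leN d0 z10 z20 z30 (b := b + g₂) (i := e + A + i - 2 * g₂) hF with
      h | ⟨m, h1, h⟩ | ⟨m, h1, h⟩ | ⟨m, h1, h⟩
    · exact Or.inl (by linarith)
    · exact Or.inr (Or.inl ⟨m, h1, by linarith⟩)
    · exact Or.inr (Or.inr (Or.inl ⟨m, h1, by linarith⟩))
    · exact Or.inr (Or.inr (Or.inr ⟨m, h1, by linarith⟩))

end Crest.Agent.R017.R2N777
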