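import Crest.Agent.R017.I1p_146
import Crest.Agent.R017.R2N_777

/-!
# Row 17, FlatNE (helper320): `RPg` from the cells, both classes

* **`rpg_cells`** : 146's `RPg` of any sequence from the exponents of the cells
-/

set_option autoImplicit false
set_option linter.unusedVariables false

noncomputable section

open Finset
open scoped ComplexConjugate

namespace Crest.Agent.R017.N2X320

open Crest.Agent.R012 Crest.Agent.R012.Eis
open Crest.Agent.R012.LS2 (S mem_S)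
open Crest.Agent.R012.Div277 (dvs mem_dvs)
open Crest.Agent.R012.Mob705 (pdiv mem_pdiv)
open Crest.Agent.R017.E2440
open Crest.Agent.R017.LBx48 (neb)
open Crest.Agent.R017.I1146 (RW RPg RPg_Qs)
open Crest.Agent.R017.NE73 (flK)
open Crest.Agent.R017.R2N777 (ThN fl_le)

/-- **`RPg` from the cells** -/
theorem rpg_cells {ε : ℝ} (hε : 0 < ε) : ∃ C : ℝ, 1 ≤ C ∧
    ∀ (Pz Kf D₁ Z E0 K n s w m TT : ℝ) (I : ℕ) (α : Eis → ℂ) (F : ℝ → ℂ)
      (ρ : Eis → Eis → ℝ → ℝ) (cρ : ℝ), 1 ≤ Pz → RW ρ cρ →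
      (∀ (δ e : Eis) (V : ℝ), IsPrim δ → IsPrim e → 1 ≤ V →
        Real.exp (4 / 3 * n + (K + Real.log V) / 3 - 4 / 3 * Real.log (nm δ) -
          flK K (Real.log V + Real.log (nm e)) (n - Real.log (nm δ) - Real.log (nm e)) - s) ≤
        ρ δ e V) →
      0 < Kf → |Real.log Kf - K| ≤ m → (2 : ℝ) ^ I ≤ 2 * Z → 0 < Z → (2 : ℝ) ^ I ≤ Pz →
      1 ≤ D₁ → D₁ ≤ Pz → 1 ≤ E0 → E0 ≤ Pz → 0 ≤ TT →
      (∀ (δ e : Eis) (V : ℝ) (y : Eis × Eis) (A : Eis), IsPrim δ → Squarefree δ →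
        (nm δ : ℝ) ≤ D₁ → IsPrim e → (nm e : ℝ) ≤ E0 → 1 ≤ V →
        (nm δ : ℝ) ^ 2 * V < 2 * Z → y ∈ prs δ → A ∈ pdiv y.1 →
        ∑ c ∈ C4, ∑ j₂ ∈ S (Real.sqrt V), Qs α δ e V Kf F y A c j₂ ≤
          TT * Real.exp (2 * (K + n) - ThN K n (Real.log (nm δ)) (Real.log (nm e)) (Real.log V) -
            Real.log (nm δ) - Real.log V / 3 + 2 / 3 * K - Real.log (nm e) - w)) →
      RPg ρ α Kf F (S D₁) I E0 Z ≤ C * Pz ^ ε * (TT * Real.exp (K + n + s - w + m)) := by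
  obtain ⟨CR, hCR, HR⟩ := RPg_Qs hε
  refine ⟨1 + CR, by linarith, ?_⟩
  intro Pz Kf D₁ Z E0 K n s w m TT I α F ρ cρ hP1 hRW hρ hK0 hKf hI hZ0 hIP hD₁ hDP hE0 hEP hTT
    hcell
  have hP0 : 0 < Pz := by linarith
  have hD₁0 : 0 < D₁ := by linarith
  have hE00 : 0 < E0 := by linarith
  obtain ⟨hK1, hK2⟩ := abs_le.1 hKf
  obtain ⟨Rn, hRn⟩ : ∃ z : ℝ, z = TT * Real.exp (K + n + s - w + m) := ⟨_, rfl⟩
  have hRn0 : 0 ≤ Rn := by rw [hRn]; positivity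
  have hmain : ∀ δ ∈ S D₁, ∀ i ∈ neb δ Z Z I, ∀ e ∈ S E0, ∀ y ∈ prs δ, ∀ A ∈ pdiv y.1,
      ∑ c ∈ C4, ∑ j₂ ∈ S (Real.sqrt (Z / 2 ^ i)),
        Qs α δ e (Z / 2 ^ i) Kf F y A c j₂ ≤
        Rn * ρ δ e (Z / 2 ^ i) *
            (Kf ^ (2 / 3 : ℝ) * (Z / 2 ^ i) ^ (-(1 / 3) : ℝ) / (nm δ * nm e)) := by
    intro δ hδ i hi e he y hy A hA
    obtain ⟨hδD, hδp, hδs⟩ := (mem_S hD₁0.le).1 hδ
    obtain ⟨heE, hep, -⟩ := (mem_S hE00.le).1 he
    have hiI : i < I ∧ (nm δ : ℝ) ^ 2 * (Z / 2 ^ i) < 2 * Z := by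
      unfold LBx48.neb at hi
      exact ⟨Finset.mem_range.1 (Finset.mem_filter.1 hi).1, (Finset.mem_filter.1 hi).2⟩
    have hV0 : 0 < Z / 2 ^ i := by positivity
    have hV1 : 1 ≤ Z / 2 ^ i := by
      rw [le_div_iff₀ (by positivity), one_mul]
      have h1 : (2 : ℝ) ^ (i + 1) ≤ 2 ^ I := pow_le_pow_right₀ (by norm_num) hiI.1
      rw [pow_succ] at h1
      linarith
    have key := hcell δ e (Z / 2 ^ i) y A hδp hδs hδD hep heE hV1 hiI.2 hy hA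
    refine key.trans ?_
    have hrho := hρ δ e (Z / 2 ^ i) hδp hep hV1
    have hδ0 : (0 : ℝ) < nm δ := by exact_mod_cast nm_pos.2 hδp.ne_zero
    have he0 : (0 : ℝ) < nm e := by exact_mod_cast nm_pos.2 hep.ne_zero
    obtain ⟨v, hv⟩ : ∃ v, v = Real.log (Z / 2 ^ i) := ⟨_, rfl⟩
    obtain ⟨le, hle⟩ : ∃ x, x = Real.log (nm e) := ⟨_, rfl⟩
    obtain ⟨D, hDd⟩ : ∃ x, x = Real.log (nm δ) := ⟨_, rfl⟩
    rw [← hv, ← hle, ← hDd] at hrho
    rw [← hv, ← hle, ← hDd]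
    have e2 : Kf ^ (2 / 3 : ℝ) * (Z / 2 ^ i) ^ (-(1 / 3) : ℝ) / (nm δ * nm e) =
        Real.exp (2 / 3 * Real.log Kf - v / 3 - (D + le)) := by
      rw [Real.rpow_def_of_pos hV0, Real.rpow_def_of_pos hK0, ← Real.exp_add, Real.exp_sub,
        Real.exp_add D le, hDd, hle, Real.exp_log hδ0, Real.exp_log he0, ← hv]
      congr 2
      ring
    rw [e2]
    calc TT * Real.exp (2 * (K + n) - ThN K n D le v - D - v / 3 + 2 / 3 * K - le - w) ≤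
          TT * Real.exp ((K + n + s - w + m) + (4 / 3 * n + (K + v) / 3 - 4 / 3 * D -
            flK K (v + le) (n - D - le) - s) + (2 / 3 * Real.log Kf - v / 3 - (D + le))) := by
          refine mul_le_mul_of_nonneg_left (Real.exp_le_exp.2 ?_) hTT
          unfold R2N777.ThN
          linarith
      _ = Rn * Real.exp (4 / 3 * n + (K + v) / 3 - 4 / 3 * D -
            flK K (v + le) (n - D - le) - s) *
            Real.exp (2 / 3 * Real.log Kf - v / 3 - (D + le)) := by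
          rw [Real.exp_add, Real.exp_add (K + n + s - w + m), hRn]
          ring
      _ ≤ Rn * ρ δ e (Z / 2 ^ i) * Real.exp (2 / 3 * Real.log Kf - v / 3 - (D + le)) :=
          mul_le_mul_of_nonneg_right (mul_le_mul_of_nonneg_left hrho hRn0) (Real.exp_pos _).le
  have hfin := HR Pz Kf D₁ Z E0 Rn I hP1 hK0 hD₁0.le hDP hZ0 hE00.le hEP hIP hRn0 α F ρ cρ hRW
    hmain
  refine hfin.trans ?_
  rw [← hRn]
  have h1 : 0 ≤ Pz ^ ε * Rn := by positivity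
  calc CR * Pz ^ ε * Rn = CR * (Pz ^ ε * Rn) := by ring
    _ ≤ (1 + CR) * (Pz ^ ε * Rn) := mul_le_mul_of_nonneg_right (by linarith) h1
    _ = _ := by ring

end Crest.Agent.R017.N2X320
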