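import Crest.Agent.R017.RCa_106

/-!
# Row 17, E2, R-side (helper106): `REb` of a flagged list at one scale

* `reb_one` : `REb` at one scale from the pair lines
-/

set_option autoImplicit false
set_option linter.unusedVariables false
set_option maxHeartbeats 1600000

noncomputable section

open Finset
open scoped ComplexConjugate

namespace Crest.Agent.R017.RC106

open Crest.Agent.R012 Crest.Agent.R012.Eis
open Crest.Agent.R012.LS2 (S mem_S)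
open Crest.Agent.R012.Mob705 (pdiv mem_pdiv)
open Crest.Agent.R017.B770
open Crest.Agent.R017.Prov71
open Crest.Agent.R017.CM106 (CS FS)
open Crest.Agent.R017.FE47 (cx PU)
open Crest.Agent.R017.HP842 (pc sqc)
open Crest.Agent.R017.Leg381 (alf alF Pf LF LF_get)
open Crest.Agent.R017.XRG106
open Crest.Agent.R017.X6C180 (IX dl' Sg GF om')
open Crest.Agent.R017.X6545 (TF Bd)
open Crest.Agent.R017.X6W180 (TF1 tf1_tf)
open Crest.Agent.R017.Win813 (iA iA_nonneg WK)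
open Crest.Agent.R017.RGw813 (T9)
open Crest.Agent.R017.MoF106
open Crest.Agent.R017.MoL106
open Crest.Agent.R017.QsO83 (bw FS_bw bw_ne REb_num)
open Crest.Agent.R017.E2440
open Crest.Agent.R017.QsJ401 (Sz)
open Crest.Agent.R017.NPy739 (opL opL_nonneg)
open Crest.Agent.R017.LBx48 (REb neb)
open Div277 (tau dvs mem_dvs nm_le_of_dvd tau_le_rpow)

/-- the number of dyadic blocks -/
lemma I_le {ε : ℝ} (hε : 0 < ε) {P V : ℝ} (hP : 1 ≤ P) (hV0 : 0 < V) (hVP : V ≤ P) {I : ℕ}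
    (hI : (2 : ℝ) ^ I ≤ 2 * V) : (I : ℝ) ≤ (1 + 2 * ε⁻¹) * P ^ ε := by
  have hP0 : 0 < P := by linarith
  have h1 : Real.log ((2 : ℝ) ^ I) ≤ Real.log (2 * P) :=
    Real.log_le_log (by positivity) (hI.trans (by linarith))
  rw [Real.log_pow, Real.log_mul (by norm_num) hP0.ne'] at h1
  have h2 := Real.log_two_gt_d9
  have h3 : Real.log P ≤ ε⁻¹ * P ^ ε := by
    have := Real.log_le_rpow_div hP0.le hε
    rwa [div_eq_inv_mul] at this
  have h4 : 1 ≤ P ^ ε := Real.one_le_rpow hP hε.le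
  have h5 := Real.log_nonneg hP
  have h6 : (I : ℝ) ≤ 1 + 2 * Real.log P := by
    have h7 : (I : ℝ) * Real.log 2 ≤ (1 + 2 * Real.log P) * Real.log 2 := by nlinarith
    exact le_of_mul_le_mul_right h7 (by linarith)
  nlinarith

/-- **`REb` of a flagged list at one scale**, from the pair lines -/
theorem reb_one {h : ℝ → ℝ} {c₀ : ℝ} (hpu : PU h c₀) {R : ℝ} (hR0 : 0 ≤ R)
    (hR : ∀ u, cx h u ≠ 0 → |u| ≤ R) {μ : ℝ} (hμ : 0 ≤ μ) (N : ℕ) {ε : ℝ} (hε : 0 < ε)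
    (A' : ℕ) (hA' : 2 * (N * μ) + 2 ≤ A') :
    ∃ (k : ℕ) (C : ℝ), 1 ≤ C ∧ ∀ (F : ℝ → ℂ) (Sf : ℝ), TF1 F → Bd F k Sf → ∀ hh : ℝ, 0 ≤ hh →
      ∀ Cφ η : ℝ, 0 ≤ Cφ → 0 < η → η ≤ 1 / 2 → ∀ φ : ℝ → ℝ, WK Cφ η A' φ → ∀ X' : ℝ, 0 < X' →
      (∀ u, φ u ≠ 0 → |u - Real.log X'| ≤ η / 2) → ∀ p ∈ T9, ∀ (t₀ : ℝ)
      (P : DPar) (_ : P.OK) (ps : List Pf), ps.length ≤ N → (∀ x ∈ ps, 0 ≤ x.1.z) →
      ∀ z D0 : ℝ, 1 ≤ D0 → ∀ q : Eis, IsPrim q → ∀ (e₀ Pz V Kf D₁ E0 Ax : ℝ) (I : ℕ)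
      (K Lv d s Bb : ℝ),
      (∀ n, ‖bw φ p t₀ (sqc q (alF z D0 P h ps)) n‖ ≤ Ax) → Ax ≤ Pz →
      1 ≤ Pz → 0 < Kf → |Real.log Kf - K| ≤ e₀ → |Real.log X' - LF ps| ≤ e₀ - 1 →
      (2 : ℝ) ^ I ≤ 2 * V → 0 < V → Real.log V ≤ Lv + e₀ → hh ≤ 8 * d → 1 ≤ D₁ →
      Real.log D₁ ≤ d → 0 < E0 → Real.log E0 ≤ d → ε * Real.log Pz ≤ d → 0 ≤ K → 0 ≤ Lv → 0 ≤ d →
      LF ps + Lv ≤ 2 * K → 10 ≤ e₀ → k9 ≤ e₀ → C ≤ e₀ →
      K + Lv + 2 * LF ps + 20 * d + 20 * e₀ ≤ Real.log Pz → D0 ^ N ≤ Pz → (nm q : ℝ) ≤ Pz →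
      (∀ x ∈ ps, Real.exp x.1.z ≤ Pz) → 0 ≤ Bb →
      PLn P h μ C (fun i => (ps.get i).1) (LF ps) K Lv (17 * d + 8 * e₀) (2 * e₀) Bb →
      0 ≤ s → 6 * LF ps ≤ 5 * K + s → 3 * Lv ≤ 2 * K + s →
      REb (bw φ p t₀ (sqc q (alF z D0 P h ps))) Kf (GF (Fh F hh)) (S D₁) I E0 V V ≤
        C * Sf ^ 2 * Pz ^ ε * D₁ * (Cφ ^ 2 * iA A' * (η * (η ^ A')⁻¹) * (1 + |t₀|) ^ A' *
          opL N D0 * (Bb * Real.exp (LF ps + K + 5 * d + 3 * e₀)) +
          Ax ^ 2 * Real.exp (LF ps + K - K / 36 + 7 * d + 2 * s + 9 * e₀) + Pz⁻¹) := by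
  have hε4 : 0 < ε / 4 := by linarith
  have hε8 : 0 < ε / 8 := by linarith
  obtain ⟨k, C, hkC⟩ := exists_QN hpu hR0 hR hμ N hε4 hε8 1 1 A' hA'
  obtain ⟨CR, hCR, HR⟩ := REb_num hε4
  set Cs : ℝ := ∑ r ∈ range (N + 1), |C r| with hCs
  set ks : ℕ := ∑ r ∈ range (N + 1), k r with hks
  have hCr : ∀ r ≤ N, C r ≤ Cs := fun r hr => (le_abs_self _).trans
    (Finset.single_le_sum (f := fun r => |C r|) (fun i _ => abs_nonneg _)
      (Finset.mem_range.2 (by omega)))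
  have hkr : ∀ r ≤ N, k r ≤ ks := fun r hr =>
    Finset.single_le_sum (f := fun r => k r) (fun i _ => Nat.zero_le _)
      (Finset.mem_range.2 (by omega))
  have hCs1 : 1 ≤ Cs := (hkC 0 (Nat.zero_le _)).1.trans (hCr 0 (Nat.zero_le _))
  have hb : 1 ≤ 100 * CR * (1 + 2 * (ε / 4)⁻¹) := by
    have : 0 < (ε / 4)⁻¹ := by positivity
    nlinarith
  refine ⟨ks, 100 * CR * (1 + 2 * (ε / 4)⁻¹) * Cs, by nlinarith, ?_⟩
  have hCsle : Cs ≤ 100 * CR * (1 + 2 * (ε / 4)⁻¹) * Cs :=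
    le_mul_of_one_le_left (by linarith) hb
  intro F Sf hF hBF hh hhh Cφ η hCφ hη hη2 φ hφ X' hX' hsup p hp t₀ P hP ps hlen hs z D0 hD q hq e₀
    Pz V Kf D₁ E0 Ax I K Lv d s Bb hAx hAxP hP1 hK0 hKf hXn hI hV0 hV hhd hD₁ hDd hE0 hEd hεP hK hLv
    hd0 h2K he10 hk9 hCe hPz hDP hqP hsP hBb hln hs0 h56 h32
  have hP0 : 0 < Pz := by linarith
  have hlP : 0 ≤ Real.log Pz := Real.log_nonneg hP1
  set r : ℕ := ps.length with hr
  obtain ⟨hC1, HQ⟩ := hkC r hlen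
  have hCrs := hCr r hlen
  have hn0 : 0 ≤ LF ps := by
    unfold Leg381.LF
    refine List.sum_nonneg fun x hx => ?_
    obtain ⟨y, hy, rfl⟩ := List.mem_map.1 hx
    exact hs y hy
  have hFS : FS (sqc q (alF z D0 P h ps)) := HP842.FS.sqc (RG64.FS_alF ⟨R, hR⟩ hP z D0 ps) q
  set X : ℝ := X' * Real.exp (η / 2) with hX
  have hX0 : 0 < X := by positivity
  have hlX : Real.log X = Real.log X' + η / 2 := by
    rw [hX, Real.log_mul hX'.ne' (Real.exp_pos _).ne', Real.log_exp]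
  have hXe : Real.log X ≤ LF ps + e₀ := by
    have := (abs_le.1 hXn).2
    rw [hlX]; linarith
  have hwin : ∀ n, bw φ p t₀ (sqc q (alF z D0 P h ps)) n ≠ 0 → X / 2 < nm n ∧ (nm n : ℝ) ≤ X := by
    intro n hn
    have h1 := bw_win hn
    have h2 : (0 : ℝ) < nm n := by exact_mod_cast nm_pos.2 ((hFS.prim n h1.1).ne_zero)
    exact win_dy (u := 0) hη2 hX' h2 (hsup _ h1.2)
  have hsqf : ∀ n, bw φ p t₀ (sqc q (alF z D0 P h ps)) n ≠ 0 → Squarefree n := fun n hn =>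
    (AL813.al_supp hR z D0 P q ps (bw_win hn).1).2.1
  obtain ⟨hK1, hK2⟩ := abs_le.1 hKf
  have hlog : ∀ {x : ℝ}, 0 < x → Real.log x ≤ Real.log Pz → x ≤ Pz := fun hx h =>
    (Real.log_le_log_iff hx hP0).1 h
  have hAx0 : 0 ≤ Ax := (norm_nonneg _).trans (hAx 0)
  have hiA := iA_nonneg A'
  have hop := opL_nonneg N (show (0 : ℝ) ≤ D0 by linarith)
  have hD0r : D0 ^ r ≤ Pz := (pow_le_pow_right₀ hD hlen).trans hDP
  have hVP : V ≤ Pz := hlog hV0 (by linarith)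
  set B0 : ℝ := Real.exp ((2 * K - Lv - LF ps) / 3) with hB0
  have hlB0 : Real.log B0 = (2 * K - Lv - LF ps) / 3 := Real.log_exp _
  have hεP8 : ε / 4 / 2 * Real.log Pz ≤ d := by nlinarith
  set m1 : ℝ := Cφ ^ 2 * iA A' * (η * (η ^ A')⁻¹) * (1 + |t₀|) ^ A' * opL N D0 *
    (Bb * Real.exp (LF ps + K + 5 * d + 3 * e₀)) with hm1
  set m2 : ℝ := Ax ^ 2 * Real.exp (LF ps + K - K / 36 + 7 * d + 2 * s + 9 * e₀) with hm2
  have hm10 : 0 ≤ m1 := by positivity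
  have hm20 : 0 ≤ m2 := by positivity
  have hPi : 0 ≤ Pz⁻¹ := by positivity
  have hp8 : Pz ^ (2 * (ε / 8)) = Pz ^ (ε / 4) := by congr 1; ring
  have hp8' : Pz ^ (ε / 8) ≤ Pz ^ (ε / 4) := Real.rpow_le_rpow_of_exponent_le hP1 (by linarith)
  have hp4 : 1 ≤ Pz ^ (ε / 4) := Real.one_le_rpow hP1 hε4.le
  set Q0 : ℝ := Cs * Sf ^ 2 * Pz ^ (ε / 4) * (Pz ^ (ε / 4) * (m1 + m2 + Pz⁻¹)) with hQ0
  have hQ00 : 0 ≤ Q0 := by positivity
  have hD₁0 : 0 < D₁ := by linarith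
  have hmain : ∀ δ ∈ S D₁, ∀ i ∈ neb δ V V I, ∀ e ∈ S E0, ∀ y ∈ prs δ, ∀ A ∈ pdiv y.1,
      ∑ c ∈ C4, ∑ j₂ ∈ S (Real.sqrt (V / 2 ^ i)),
        Qs (bw φ p t₀ (sqc q (alF z D0 P h ps))) δ e (V / 2 ^ i) Kf (GF (Fh F hh)) y A c j₂ ≤
        (V / 2 ^ i) ^ (-(1 / 3) : ℝ) * Kf ^ (2 / 3 : ℝ) / nm e * Q0 := by
    intro δ hδ i hi e he y hy A hA
    obtain ⟨hδD, hδp, hδs⟩ := (mem_S hD₁0.le).1 hδ
    obtain ⟨heE, hep, -⟩ := (mem_S hE0.le).1 he
    have hiI : i < I := by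
      unfold LBx48.neb at hi
      exact Finset.mem_range.1 (Finset.mem_filter.1 hi).1
    have hVi0 : 0 < V / 2 ^ i := by positivity
    have hVi1 : 1 ≤ V / 2 ^ i := by
      rw [le_div_iff₀ (by positivity), one_mul]
      have h1 : (2 : ℝ) ^ (i + 1) ≤ 2 ^ I := pow_le_pow_right₀ (by norm_num) hiI
      rw [pow_succ] at h1
      linarith
    have hViV : V / 2 ^ i ≤ V := div_le_self hV0.le (one_le_pow₀ (by norm_num))
    have hlVi : Real.log (V / 2 ^ i) ≤ Lv + e₀ := (Real.log_le_log hVi0 hViV).trans hV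
    have he0 : (0 : ℝ) < nm e := by exact_mod_cast nm_pos.2 hep.ne_zero
    have hδ0 : (0 : ℝ) < nm δ := by exact_mod_cast nm_pos.2 hδp.ne_zero
    have hlδ : Real.log (nm δ) ≤ d := (Real.log_le_log hδ0 hδD).trans hDd
    have hle : Real.log (nm e) ≤ d := (Real.log_le_log he0 heE).trans hEd
    by_cases hyX : (nm y.1 : ℝ) ≤ X
    · have hSz : ∀ c ∈ C4, Sz Pz X (V / 2 ^ i) Kf (Real.exp hh) δ e A c y := fun c hc =>
        { P1 := hP1
          H1 := Real.one_le_exp hhh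
          HP := hlog (Real.exp_pos _) (by rw [Real.log_exp]; linarith)
          XP := hlog hX0 (by linarith)
          VP := hViV.trans hVP
          V1 := hVi1
          K0 := hK0
          KiP := hlog (by positivity) (by rw [Real.log_inv]; linarith)
          KP := hlog hK0 (by linarith)
          δp := hδp
          δs := hδs
          δP := hlog hδ0 (by linarith)
          ep := hep
          eP := hlog he0 (by linarith)
          hy := hy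
          hA := hA
          yX := hyX
          hc := hc }
      have hEnv : Env e₀ (ε / 4) Pz X (V / 2 ^ i) Kf B0 (Real.exp hh) Pz δ e (LF ps) K Lv d :=
        { e0 := he10
          k9 := hk9
          d0 := hd0
          n0 := hn0
          K0 := hK
          v0 := hLv
          lX := hXe
          lV := hlVi
          lK := by linarith
          lK' := by linarith
          lT := hεP8
          lH := by rw [Real.log_exp]; exact hhd
          lδ := hlδ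
          le := hle
          B1 := Real.one_le_exp (by linarith)
          lB := by rw [hlB0]; linarith
          lB' := by rw [hlB0]; linarith
          lX0 := by linarith
          X0 := hP0 }
      have h1 := HQ F Sf hF (Bd_mono hBF (hkr r hlen)) hh hhh Cφ η hCφ hη (by linarith) φ hφ p hp
        t₀ P hP ps rfl hs z D0 hD q hq e₀ Pz X (V / 2 ^ i) Kf B0 Pz Ax δ e A y K Lv d s Bb hFS hsqf
        hwin hAx (by rw [pow_one]; exact hAxP) hSz hEnv (by linarith) hD0r hqP hsP hBb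
        (hln.mono (by linarith)) hs0 h56 h32
      rw [hp8, pow_one] at h1
      have e1 : (-(1 / 3) : ℝ) = -(1 : ℝ) / 3 := by ring
      rw [e1]
      refine h1.trans ?_
      refine mul_le_mul_of_nonneg_left ?_ (by positivity)
      have h2 : Cφ ^ 2 * iA A' * (η * (η ^ A')⁻¹) * Pz ^ (ε / 4) * (1 + |t₀|) ^ A' * opL r D0 *
          (Bb * Real.exp (LF ps + K + 5 * d + 3 * e₀)) ≤ Pz ^ (ε / 4) * m1 := by
        have h3 := opL_mono hlen hD
        rw [hm1]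
        calc Cφ ^ 2 * iA A' * (η * (η ^ A')⁻¹) * Pz ^ (ε / 4) * (1 + |t₀|) ^ A' * opL r D0 *
              (Bb * Real.exp (LF ps + K + 5 * d + 3 * e₀)) ≤
              Cφ ^ 2 * iA A' * (η * (η ^ A')⁻¹) * Pz ^ (ε / 4) * (1 + |t₀|) ^ A' * opL N D0 *
              (Bb * Real.exp (LF ps + K + 5 * d + 3 * e₀)) := by gcongr
          _ = _ := by ring
      have h4 : Pz ^ (ε / 8) * Ax ^ 2 *
          Real.exp (LF ps + K - K / 36 + 7 * d + 2 * s + 9 * e₀) ≤ Pz ^ (ε / 4) * m2 := by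
        rw [hm2, mul_assoc]
        exact mul_le_mul_of_nonneg_right hp8' (by positivity)
      have h5 : Pz⁻¹ ≤ Pz ^ (ε / 4) * Pz⁻¹ := le_mul_of_one_le_left hPi hp4
      calc C r * Sf ^ 2 * Pz ^ (ε / 4) * (Cφ ^ 2 * iA A' * (η * (η ^ A')⁻¹) * Pz ^ (ε / 4) *
            (1 + |t₀|) ^ A' * opL r D0 * (Bb * Real.exp (LF ps + K + 5 * d + 3 * e₀)) +
            Pz ^ (ε / 8) * Ax ^ 2 * Real.exp (LF ps + K - K / 36 + 7 * d + 2 * s + 9 * e₀) + Pz⁻¹)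
          ≤ Cs * Sf ^ 2 * Pz ^ (ε / 4) * (Pz ^ (ε / 4) * m1 + Pz ^ (ε / 4) * m2 +
            Pz ^ (ε / 4) * Pz⁻¹) := by
            have h6 : 0 ≤ Sf ^ 2 * Pz ^ (ε / 4) := by positivity
            have h7 : 0 ≤ opL r D0 := opL_nonneg r (by linarith)
            refine mul_le_mul ?_ (add_le_add (add_le_add h2 h4) h5) (by positivity) (by positivity)
            have := mul_le_mul_of_nonneg_right hCrs h6
            linarith
        _ = Q0 := by rw [hQ0]; ring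
    · have h0 : ∀ c ∈ C4, ∀ j₂ ∈ S (Real.sqrt (V / 2 ^ i)),
          Qs (bw φ p t₀ (sqc q (alF z D0 P h ps))) δ e (V / 2 ^ i) Kf (GF (Fh F hh)) y A c j₂ = 0 :=
        fun c _ j₂ _ => Qs_zero (fun n hn => (hwin n hn).2) hVi0.le _ (FS_bw hFS) hδp hy
          (fun h => hyX h.2)
      rw [Finset.sum_eq_zero fun c hc => Finset.sum_eq_zero fun j₂ hj => h0 c hc j₂ hj]
      positivity
  have hfin := HR Pz Kf E0 V V (S D₁) I (GF (Fh F hh)) (bw φ p t₀ (sqc q (alF z D0 P h ps))) hP1 hK0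
    hV0 (hlog hE0 (by linarith)) (fun δ hδ => by
      obtain ⟨h1, h2, -⟩ := (mem_S hD₁0.le).1 hδ
      exact ⟨h2, h1.trans (hlog hD₁0 (by linarith))⟩) (fun _ => Q0) (fun _ _ => hQ00) hmain
  refine hfin.trans ?_
  rw [Finset.sum_const, nsmul_eq_mul]
  have hcard : ((S D₁).card : ℝ) ≤ 100 * D₁ := (GLS106.card_S_le hD₁).trans (by linarith)
  have hIl := I_le hε4 hP1 hV0 hVP hI
  have e4 : Pz ^ ε = Pz ^ (ε / 4) * Pz ^ (ε / 4) * (Pz ^ (ε / 4) * Pz ^ (ε / 4)) := by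
    rw [← Real.rpow_add hP0, ← Real.rpow_add hP0]
    congr 1; ring
  have hi4 : 0 < (ε / 4)⁻¹ := by positivity
  calc CR * Pz ^ (ε / 4) * I * ((S D₁).card * Q0) ≤
        CR * Pz ^ (ε / 4) * ((1 + 2 * (ε / 4)⁻¹) * Pz ^ (ε / 4)) * ((100 * D₁) * Q0) := by
        gcongr
    _ = _ := by rw [hQ0, e4]; ring

end Crest.Agent.R017.RC106
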