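import Crest.Agent.R017.N2b_106
import Crest.Agent.R017.RCb_106
import Crest.Agent.R017.I1p_146
import Crest.Agent.R017.R2N_777

/-!
# Row 17, FlatNE (helper106): the real side of the compensated E2, part c

* `PLs` : the pair line at all cells
* `rpg_one` : 146's `RPg` of a flagged list at one scale, from `PLs`
-/

set_option autoImplicit false
set_option linter.unusedVariables false
set_option maxHeartbeats 3200000

noncomputable section

open Finset
open scoped ComplexConjugate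

namespace Crest.Agent.R017.N2106

open Crest.Agent.R012 Crest.Agent.R012.Eis
open Crest.Agent.R012.LS2 (S mem_S)
open Crest.Agent.R012.Div277 (dvs mem_dvs)
open Crest.Agent.R012.Mob705 (pdiv mem_pdiv)
open Crest.Agent.R017.B770
open Crest.Agent.R017.Prov71
open Crest.Agent.R017.CM106 (CS FS)
open Crest.Agent.R017.FE47 (cx PU)
open Crest.Agent.R017.HP842 (pc sqc)
open Crest.Agent.R017.Leg381 (alf alF Pf LF LF_get)
open Crest.Agent.R017.XRG106
open Crest.Agent.R017.X6C180 (IX dl' Sg GF om')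
open Crest.Agent.R017.X6545 (TF Bd)
open Crest.Agent.R017.X6W180 (TF1 tf1_tf)
open Crest.Agent.R017.Win813 (iA iA_nonneg WK)
open Crest.Agent.R017.RGw813 (T9)
open Crest.Agent.R017.MoF106
open Crest.Agent.R017.MoL106
open Crest.Agent.R017.QsO83 (bw FS_bw)
open Crest.Agent.R017.E2440
open Crest.Agent.R017.GKC739 (one_le_nmR)
open Crest.Agent.R017.NPy739 (opL opL_nonneg)
open Crest.Agent.R017.MTL537 (ML ML_mono ML_nonneg)
open Crest.Agent.R017.RC106 (k9 bw_win win_dy opL_mono Bd_mono)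
open Crest.Agent.R017.P1Rb440 (PMH)
open Crest.Agent.R017.P1Re440 (SzP)
open Crest.Agent.R017.LBx48 (neb)
open Crest.Agent.R017.I1146 (RW RPg RPg_Qs)
open Crest.Agent.R017.NE73 (flK)
open Crest.Agent.R017.R2N777 (ThN fl_le)

/-- **the pair line at all cells** : length `n`, family `K`, level `Lv`, frequency `hh`, slack `m`,
removed `d₀ + ν ≤ Dm`, `e ≤ Em` -/
def PLs (P : DPar) (h : ℝ → ℝ) (μ C : ℝ) {r : ℕ} (s : Fin r → Pq)
    (n K Lv hh Dm Em m Bb : ℝ) : Prop :=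
  ∀ (s' : Fin r → Pq) (W0 : ℝ), 1 ≤ W0 → (∀ k, Rl C W0 (s' k) (s k)) →
    ∀ i b g d₀ ν a e v : ℝ, 0 ≤ i → 0 ≤ b → 0 ≤ g → 0 ≤ d₀ → 0 ≤ ν → 0 ≤ a → a ≤ d₀ → 0 ≤ e →
    0 ≤ v → d₀ + ν ≤ Dm → e ≤ Em → v + 2 * (d₀ + ν) ≤ Lv + m → 2 * g ≤ e + a + i →
    ∑ k, (s' k).z + (d₀ + b + g) ≤ n + m →
    i ≤ v + n - K + hh + 2 * (e + a) + 2 * ν - d₀ + b + m → i ≤ K - (e + a) - 2 * b + m →
    PM2 P h (e + a + i - 2 * g) (b + g) (List.ofFn s') ≤ Bb * W0 ^ (2 * μ) *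
      Real.exp (2 * (K + n) - ThN K n (d₀ + ν) e v - (d₀ + ν - a +
        (max (v + e + a + ν) (max i (2 / 3 * (v + e + a + i))) - i)) -
        (n - d₀ - b - ∑ k, (s' k).z) - K / 500)

lemma PLs.mono {P : DPar} {h : ℝ → ℝ} {μ C C' : ℝ} {r : ℕ} {s : Fin r → Pq}
    {n K Lv hh Dm Em m Bb : ℝ} (H : PLs P h μ C' s n K Lv hh Dm Em m Bb) (hC : C ≤ C') :
    PLs P h μ C s n K Lv hh Dm Em m Bb :=
  fun s' W0 hW hR => H s' W0 hW fun k => (hR k).mono hC

lemma k9_nonneg : 0 ≤ k9 := by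
  unfold RC106.k9
  have h1 : 0 ≤ ∑ c ∈ C4, dmx c := Finset.sum_nonneg fun c _ => RC106.dmx_nonneg c
  have h2 : 0 ≤ Real.log (81 * (1 + ∑ c ∈ C4, dmx c)) := Real.log_nonneg (by linarith)
  linarith

lemma log10_le : Real.log 10 ≤ 3 := by
  have h1 : Real.log 10 = Real.log (10 / 8) + 3 * Real.log 2 := by
    rw [show (3 : ℝ) * Real.log 2 = Real.log (2 ^ 3) by rw [Real.log_pow]; norm_num,
      ← Real.log_mul (by norm_num) (by norm_num)]
    norm_num
  have h2 := Real.log_le_sub_one_of_pos (x := (10 : ℝ) / 8) (by norm_num)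
  have h3 := Real.log_two_lt_d9
  linarith

lemma log4_le : Real.log 4 ≤ 2 := by
  have h2 : Real.log 4 = 2 * Real.log 2 := by
    rw [show (4 : ℝ) = 2 ^ 2 by norm_num, Real.log_pow]; norm_num
  have h3 := Real.log_two_lt_d9
  linarith

/-- the number of the polar part in exponents -/
lemma polar_exp {V Kf nE Xd b0 v k a p Z : ℝ} (hV : V = Real.exp v) (hK : Kf = Real.exp k)
    (hE : nE = Real.exp a) (hX : Xd = Real.exp p)
    (h1 : 2 / 3 * k + 2 / 3 * p - b0 + 2 / 3 * (v + 3 * a) + 2 ≤ Z)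
    (h2 : 2 / 3 * k + 5 / 3 * p - 2 * b0 + 2 ≤ Z)
    (h3 : 2 / 3 * k + 4 / 3 * p - 5 / 3 * b0 + 1 / 3 * v + a + 2 ≤ Z) :
    V ^ (-(1 : ℝ) / 3) * Kf ^ ((2 : ℝ) / 3) / nE *
      (Xd ^ ((2 : ℝ) / 3) / Real.exp b0 * ((V * nE ^ 3) ^ ((1 : ℝ) / 3) *
        ML (V * nE ^ 3) (Xd / Real.exp b0))) ≤ Real.exp Z := by
  have e3 : V * nE ^ 3 = Real.exp (v + 3 * a) := by
    rw [hV, hE, ← Real.exp_nat_mul, ← Real.exp_add]
    congr 1
  have e4 : Xd / Real.exp b0 = Real.exp (p - b0) := by rw [hX, ← Real.exp_sub]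
  rw [e3, e4]
  unfold MTL537.ML
  rw [hV, hK, hE, hX, ← Real.exp_mul, ← Real.exp_mul, ← Real.exp_mul, ← Real.exp_mul,
    ← Real.exp_mul, ← Real.exp_mul]
  have e5 : Real.exp (v * (-(1 : ℝ) / 3)) * Real.exp (k * (2 / 3)) / Real.exp a *
      (Real.exp (p * (2 / 3)) / Real.exp b0 * (Real.exp ((v + 3 * a) * (1 / 3)) *
        (Real.exp ((v + 3 * a) * (2 / 3)) + Real.exp (p - b0) +
          Real.exp ((v + 3 * a) * (1 / 3)) * Real.exp ((p - b0) * (2 / 3))))) =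
      Real.exp (2 / 3 * k + 2 / 3 * p - b0 + 2 / 3 * (v + 3 * a)) +
      Real.exp (2 / 3 * k + 5 / 3 * p - 2 * b0) +
      Real.exp (2 / 3 * k + 4 / 3 * p - 5 / 3 * b0 + 1 / 3 * v + a) := by
    rw [← Real.exp_add, ← Real.exp_sub, ← Real.exp_sub, ← Real.exp_add, ← mul_assoc,
      ← mul_assoc, ← Real.exp_add, ← Real.exp_add, mul_add, mul_add, ← Real.exp_add,
      ← Real.exp_add, ← Real.exp_add]
    congr 1
    · congr 1
      · congr 1; ring
      · congr 1; ring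
    · congr 1; ring
  rw [e5]
  have e6 : (3 : ℝ) ≤ Real.exp 2 := by
    have := Real.add_one_le_exp (2 : ℝ); linarith
  have k1 := Real.exp_le_exp.2 (show 2 / 3 * k + 2 / 3 * p - b0 + 2 / 3 * (v + 3 * a) ≤ Z - 2 by
    linarith)
  have k2 := Real.exp_le_exp.2 (show 2 / 3 * k + 5 / 3 * p - 2 * b0 ≤ Z - 2 by linarith)
  have k3 := Real.exp_le_exp.2 (show 2 / 3 * k + 4 / 3 * p - 5 / 3 * b0 + 1 / 3 * v + a ≤
    Z - 2 by linarith)
  calc _ ≤ 3 * Real.exp (Z - 2) := by linarith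
    _ ≤ Real.exp 2 * Real.exp (Z - 2) := mul_le_mul_of_nonneg_right e6 (Real.exp_pos _).le
    _ = Real.exp Z := by rw [← Real.exp_add]; congr 1; ring

/-- the numbers of the polar part -/
lemma polar_lin {K n Lv hh D e a v m k p b0 x : ℝ} (hK : 0 ≤ K) (hm : 2000 * m ≤ K)
    (hm0 : 0 ≤ m) (n5 : 5 * n ≤ 4 * K + m) (n3 : 3 * K ≤ 4 * n + m)
    (vn : 5 * (Lv + n) ≤ 7 * K + m) (v3 : 3 * Lv ≤ 2 * K + m) (hh0 : 0 ≤ hh) (h14 : 14 * hh ≤ K)
    (D0 : 0 ≤ D) (D19 : 19 * D ≤ K) (e0 : 0 ≤ e) (e40 : 40 * e ≤ K) (a0 : 0 ≤ a) (aD : a ≤ D)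
    (v0 : 0 ≤ v) (hv : v + 2 * D ≤ Lv + m) (hk : k ≤ K + m) (hk' : K - m ≤ k)
    (hp : p ≤ n - D + m) (hp' : n - D - m ≤ p)
    (hb : 2 * k - 3 * (e + a) - p - v - hh - m ≤ 3 * b0)
    (hx : x = 2 * (K + n) - ThN K n D e v - D + a - K / 500) :
    2 / 3 * k + 2 / 3 * p - b0 + 2 / 3 * (v + 3 * (e + a)) + 2 * m ≤ x ∧
    2 / 3 * k + 5 / 3 * p - 2 * b0 + 2 * m ≤ x ∧
    2 / 3 * k + 4 / 3 * p - 5 / 3 * b0 + 1 / 3 * v + (e + a) + 2 * m ≤ x := by
  subst hx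
  unfold R2N777.ThN
  rcases fl_le K (v + e) (n - D - e) with h | h
  · refine ⟨?_, ?_, ?_⟩ <;> linarith
  · refine ⟨?_, ?_, ?_⟩ <;> linarith

/-- **`RPg` of a flagged list at one scale**, from the pair line -/
theorem rpg_one {h : ℝ → ℝ} {c₀ : ℝ} (hpu : PU h c₀) {R : ℝ} (hR0 : 0 ≤ R)
    (hR : ∀ u, cx h u ≠ 0 → |u| ≤ R) {μ : ℝ} (hμ : 0 ≤ μ) (N : ℕ) {ε : ℝ} (hε : 0 < ε)
    (hε2 : ε ≤ 1) (A' : ℕ) (hA' : 2 * (N * μ) + 2 ≤ A') :
    ∃ (k : ℕ) (C : ℝ), 1 ≤ C ∧ ∀ (F : ℝ → ℂ) (Sf : ℝ), TF1 F → Bd F k Sf → ∀ hh : ℝ, 0 ≤ hh →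
      ∀ Cφ η : ℝ, 0 ≤ Cφ → 0 < η → η ≤ 1 / 2 → ∀ φ : ℝ → ℝ, WK Cφ η A' φ → ∀ X' : ℝ, 0 < X' →
      (∀ u, φ u ≠ 0 → |u - Real.log X'| ≤ η / 2) → ∀ p ∈ T9, ∀ (t₀ : ℝ)
      (P : DPar) (_ : P.OK) (ps : List Pf), ps.length ≤ N → (∀ x ∈ ps, 0 ≤ x.1.z) →
      ∀ z D0 : ℝ, 1 ≤ D0 → ∀ q : Eis, IsPrim q → ∀ (e₀ Pz Z Kf D₁ E0 Ax : ℝ) (I : ℕ)
      (K Lv m m' s Bb cρ : ℝ) (ρ : Eis → Eis → ℝ → ℝ), RW ρ cρ →
      (∀ (δ e : Eis) (V : ℝ), IsPrim δ → IsPrim e → 1 ≤ V →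
        Real.exp (4 / 3 * LF ps + (K + Real.log V) / 3 - 4 / 3 * Real.log (nm δ) -
          flK K (Real.log V + Real.log (nm e)) (LF ps - Real.log (nm δ) - Real.log (nm e)) - s) ≤
        ρ δ e V) →
      (∀ n, ‖bw φ p t₀ (sqc q (alF z D0 P h ps)) n‖ ≤ Ax) → Ax ≤ Pz →
      0 < Kf → |Real.log Kf - K| ≤ e₀ → |Real.log X' - LF ps| ≤ e₀ - 1 →
      (2 : ℝ) ^ I ≤ 2 * Z → 0 < Z → Real.log Z ≤ Lv + e₀ → 1 ≤ D₁ → 1 ≤ E0 →
      10 ≤ e₀ → k9 ≤ e₀ → C ≤ e₀ → ε / 2 * Real.log Pz + 4 * e₀ ≤ m → m ≤ m' → 2000 * m' ≤ K → 0 ≤ Lv →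
      5 * LF ps ≤ 4 * K + m' → 3 * K ≤ 4 * LF ps + m' → 5 * (Lv + LF ps) ≤ 7 * K + m' →
      3 * Lv ≤ 2 * K + m' → 14 * hh ≤ K → 19 * Real.log D₁ ≤ K → 40 * Real.log E0 ≤ K →
      K + Lv + 2 * LF ps + 20 * m' ≤ Real.log Pz → D0 ^ N ≤ Pz → (nm q : ℝ) ≤ Pz →
      (∀ x ∈ ps, Real.exp x.1.z ≤ Pz) → 0 ≤ s → 0 ≤ Bb →
      PLs P h μ C (fun i => (ps.get i).1) (LF ps) K Lv hh (Real.log D₁) (Real.log E0) m Bb →
      RPg ρ (bw φ p t₀ (sqc q (alF z D0 P h ps))) Kf (GF (Fh F hh)) (S D₁) I E0 Z ≤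
        C * Sf ^ 2 * Pz ^ (51 * ε) * ((Cφ ^ 2 * (η * (η ^ A')⁻¹) * (1 + |t₀|) ^ A' *
          opL N D0 * Bb + Ax ^ 2 + 1) * Real.exp (K + LF ps + s - K / 500 + 2 * e₀)) := by
  have H : ∀ r : ℕ, ∃ (k : ℕ) (C : ℝ), r ≤ N → 1 ≤ C ∧ _ := fun r => by
    by_cases hr : r ≤ N
    · have hrN : (r : ℝ) ≤ N := by exact_mod_cast hr
      obtain ⟨k, C, h1, h2⟩ := Qs_N2 hpu hR0 hR hμ r hε hε2 1 4 A'
        (le_trans (by nlinarith [mul_le_mul_of_nonneg_right hrN hμ]) hA')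
      exact ⟨k, C, fun _ => ⟨h1, h2⟩⟩
    · exact ⟨0, 0, fun h => absurd h hr⟩
  choose k C hkC using H
  obtain ⟨CR, hCR, HR⟩ := RPg_Qs hε
  set Cs : ℝ := ∑ r ∈ range (N + 1), |C r| with hCs
  set ks : ℕ := ∑ r ∈ range (N + 1), k r with hks
  have hCr : ∀ r ≤ N, C r ≤ Cs := fun r hr => (le_abs_self _).trans
    (Finset.single_le_sum (f := fun r => |C r|) (fun i _ => abs_nonneg _)
      (Finset.mem_range.2 (by omega)))
  have hkr : ∀ r ≤ N, k r ≤ ks := fun r hr =>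
    Finset.single_le_sum (f := fun r => k r) (fun i _ => Nat.zero_le _)
      (Finset.mem_range.2 (by omega))
  have hCs1 : 1 ≤ Cs := (hkC 0 (Nat.zero_le _)).1.trans (hCr 0 (Nat.zero_le _))
  have hb : 1 ≤ 1 + CR := by linarith
  refine ⟨ks, (1 + CR) * Cs, by nlinarith, ?_⟩
  have hCsle : Cs ≤ (1 + CR) * Cs := le_mul_of_one_le_left (by linarith) hb
  intro F Sf hF hBF hh hhh Cφ η hCφ hη hη2 φ hφ X' hX' hsup p hp t₀ P hP ps hlen hs z D0 hD q hq e₀
    Pz Z Kf D₁ E0 Ax I K Lv m m' s Bb cρ ρ hRW hρ hAx hAxP hK0 hKf hXn hI hZ0 hZ hD₁ hE0 he10 hk9 hCe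
    hm hmm hmK hLv n5 n3 vn v3 h14 hD19 hE40 hPz hDP hqP hsP hs0 hBb hln
  have hn0 : 0 ≤ LF ps := by
    unfold Leg381.LF
    refine List.sum_nonneg fun x hx => ?_
    obtain ⟨y, hy, rfl⟩ := List.mem_map.1 hx
    exact hs y hy
  have hm0' : 0 ≤ Real.log Pz ∧ 4 * e₀ ≤ m := by
    rcases lt_or_ge (Real.log Pz) 0 with h1 | h1
    · exfalso
      have h2 : ε / 2 * Real.log Pz ≥ 1 / 2 * Real.log Pz := by nlinarith
      linarith
    · refine ⟨h1, ?_⟩
      have : 0 ≤ ε / 2 * Real.log Pz := by positivity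
      linarith
  obtain ⟨hlP, hm4⟩ := hm0'
  have hP0 : 0 < Pz := lt_of_lt_of_le (by positivity) hDP
  have hP1 : 1 ≤ Pz := by
    by_contra hc
    push Not at hc
    have := Real.log_neg hP0 hc
    linarith
  have hεP0 : 0 ≤ ε / 2 * Real.log Pz := by positivity
  set r : ℕ := ps.length with hr
  obtain ⟨hC1, HQ⟩ := hkC r hlen
  have hCrs := hCr r hlen
  have hFS : FS (sqc q (alF z D0 P h ps)) := HP842.FS.sqc (RG64.FS_alF ⟨R, hR⟩ hP z D0 ps) q
  set n : ℝ := LF ps with hn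
  set X : ℝ := X' * Real.exp (η / 2) with hX
  have hX0 : 0 < X := by positivity
  have hlX : Real.log X = Real.log X' + η / 2 := by
    rw [hX, Real.log_mul hX'.ne' (Real.exp_pos _).ne', Real.log_exp]
  obtain ⟨hXa, hXb⟩ := abs_le.1 hXn
  have hXe : Real.log X ≤ n + e₀ := by
    rw [hlX]; linarith
  have hXe' : n - e₀ ≤ Real.log X := by
    rw [hlX]; linarith
  have hwin : ∀ n, bw φ p t₀ (sqc q (alF z D0 P h ps)) n ≠ 0 → X / 2 < nm n ∧ (nm n : ℝ) ≤ X := by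
    intro n hn
    have h1 := bw_win hn
    have h2 : (0 : ℝ) < nm n := by exact_mod_cast nm_pos.2 ((hFS.prim n h1.1).ne_zero)
    exact win_dy (u := 0) hη2 hX' h2 (hsup _ h1.2)
  have hsqf : ∀ n, bw φ p t₀ (sqc q (alF z D0 P h ps)) n ≠ 0 → Squarefree n := fun n hn =>
    (AL813.al_supp hR z D0 P q ps (bw_win hn).1).2.1
  obtain ⟨hK1, hK2⟩ := abs_le.1 hKf
  have hlog : ∀ {x : ℝ}, 0 < x → Real.log x ≤ Real.log Pz → x ≤ Pz := fun hx h =>
    (Real.log_le_log_iff hx hP0).1 h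
  have hAx0 : 0 ≤ Ax := (norm_nonneg _).trans (hAx 0)
  have hop := opL_nonneg N (show (0 : ℝ) ≤ D0 by linarith)
  have hD0r : D0 ^ r ≤ Pz := (pow_le_pow_right₀ hD hlen).trans hDP
  have hk90 := k9_nonneg
  have hm0 : 0 ≤ m := by linarith
  have hKp : 0 ≤ K := by linarith
  have hl10 := log10_le
  have hl4 := log4_le
  have hlD₁ : 0 ≤ Real.log D₁ := Real.log_nonneg hD₁
  have hlE0 : 0 ≤ Real.log E0 := Real.log_nonneg hE0
  have hD₁0 : 0 < D₁ := by linarith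
  have hE00 : 0 < E0 := by linarith
  set GG : ℝ := Cφ ^ 2 * (η * (η ^ A')⁻¹) * (1 + |t₀|) ^ A' with hGG
  have hGG0 : 0 ≤ GG := by positivity
  set TT : ℝ := GG * opL N D0 * Bb + Ax ^ 2 + 1 with hTT
  have hTT0 : 0 ≤ GG * opL N D0 * Bb := by positivity
  have hTT1 : 1 ≤ TT := by
    have : 0 ≤ Ax ^ 2 := sq_nonneg _
    rw [hTT]; linarith
  have hTT00 : 0 ≤ TT := by linarith
  set Rn : ℝ := Cs * Sf ^ 2 * Pz ^ (50 * ε) * (TT * Real.exp (K + n + s - K / 500 + 2 * e₀))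
    with hRn
  have hSf : 0 ≤ Sf ^ 2 := sq_nonneg _
  have hRn0 : 0 ≤ Rn := by
    have : 0 ≤ Cs := by linarith
    positivity
  have hmain : ∀ δ ∈ S D₁, ∀ i ∈ neb δ Z Z I, ∀ e ∈ S E0, ∀ y ∈ prs δ, ∀ A ∈ pdiv y.1,
      ∑ c ∈ C4, ∑ j₂ ∈ S (Real.sqrt (Z / 2 ^ i)),
        Qs (bw φ p t₀ (sqc q (alF z D0 P h ps))) δ e (Z / 2 ^ i) Kf (GF (Fh F hh)) y A c j₂ ≤
        Rn * ρ δ e (Z / 2 ^ i) *
            (Kf ^ (2 / 3 : ℝ) * (Z / 2 ^ i) ^ (-(1 / 3) : ℝ) / (nm δ * nm e)) := by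
    intro δ hδ i hi e he y hy A hA
    obtain ⟨hδD, hδp, hδs⟩ := (mem_S hD₁0.le).1 hδ
    obtain ⟨heE, hep, -⟩ := (mem_S hE00.le).1 he
    have hiI : i < I ∧ (nm δ : ℝ) ^ 2 * (Z / 2 ^ i) < 2 * Z := by
      unfold LBx48.neb at hi
      exact ⟨Finset.mem_range.1 (Finset.mem_filter.1 hi).1, (Finset.mem_filter.1 hi).2⟩
    have hV0 : 0 < Z / 2 ^ i := by positivity
    have hV1 : 1 ≤ Z / 2 ^ i := by
      rw [le_div_iff₀ (by positivity), one_mul]
      have h1 : (2 : ℝ) ^ (i + 1) ≤ 2 ^ I := pow_le_pow_right₀ (by norm_num) hiI.1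
      rw [pow_succ] at h1
      linarith
    set V : ℝ := Z / 2 ^ i with hV
    have hy' := (mem_prs hδp).mp hy
    have hA2 := (mem_pdiv hy'.1.ne_zero).mp hA
    have he1 : (1 : ℝ) ≤ nm e := one_le_nmR hep.ne_zero
    have hδ1 : (1 : ℝ) ≤ nm δ := one_le_nmR hδp.ne_zero
    have hA1 : (1 : ℝ) ≤ nm A := one_le_nmR hA2.1.ne_zero
    have hy1 : (1 : ℝ) ≤ nm y.1 := one_le_nmR hy'.1.ne_zero
    have hy2 : (1 : ℝ) ≤ nm y.2 := one_le_nmR hy'.2.1.ne_zero
    have hδ0 : (0 : ℝ) < nm δ := by linarith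
    have he0 : (0 : ℝ) < nm e := by linarith
    have hA0 : (0 : ℝ) < nm A := by linarith
    obtain ⟨v, hv⟩ : ∃ v, v = Real.log V := ⟨_, rfl⟩
    obtain ⟨le, hle⟩ : ∃ x, x = Real.log (nm e) := ⟨_, rfl⟩
    obtain ⟨D, hDd⟩ : ∃ x, x = Real.log (nm δ) := ⟨_, rfl⟩
    obtain ⟨a, ha⟩ : ∃ x, x = Real.log (nm A) := ⟨_, rfl⟩
    obtain ⟨d₀, hd₀⟩ : ∃ x, x = Real.log (nm y.1) := ⟨_, rfl⟩
    obtain ⟨ν, hν⟩ : ∃ x, x = Real.log (nm y.2) := ⟨_, rfl⟩
    have v0 : 0 ≤ v := hv ▸ Real.log_nonneg hV1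
    have le0 : 0 ≤ le := hle ▸ Real.log_nonneg he1
    have D0' : 0 ≤ D := hDd ▸ Real.log_nonneg hδ1
    have a0 : 0 ≤ a := ha ▸ Real.log_nonneg hA1
    have d00 : 0 ≤ d₀ := hd₀ ▸ Real.log_nonneg hy1
    have ν0 : 0 ≤ ν := hν ▸ Real.log_nonneg hy2
    have hDD : D ≤ Real.log D₁ := by rw [hDd]; exact Real.log_le_log hδ0 hδD
    have hee : le ≤ Real.log E0 := by rw [hle]; exact Real.log_le_log he0 heE
    have hDdν : D = d₀ + ν := by
      rw [hDd, hd₀, hν, ← Real.log_mul (by linarith) (by linarith), ← hy'.2.2, nm_mul]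
      push_cast
      rfl
    have had : a ≤ d₀ := by
      rw [ha, hd₀]
      exact Real.log_le_log hA0 (by exact_mod_cast Div277.nm_le_of_dvd hy'.1.ne_zero hA2.2)
    have hea : (nm (e * A) : ℝ) = nm e * nm A := by rw [nm_mul]; push_cast; ring
    have hlea : Real.log (nm (e * A)) = le + a := by
      rw [hea, Real.log_mul (by linarith) (by linarith), hle, ha]
    have hvD : v + 2 * D ≤ Lv + m := by
      have h1 := Real.log_le_log (by positivity) hiI.2.le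
      rw [Real.log_mul (by positivity) hV0.ne', Real.log_pow, Real.log_mul (by norm_num) hZ0.ne',
        ← hv, ← hDd] at h1
      have h2 := Real.log_two_lt_d9
      push_cast at h1
      linarith
    have hδX : (nm δ : ℝ) ≤ X := by
      refine (Real.log_le_log_iff hδ0 hX0).1 ?_
      rw [← hDd]
      linarith
    have hlV : Real.log V ≤ Real.log Pz := by rw [← hv]; linarith
    have hSz : SzP Pz V Kf δ e :=
      { P1 := hP1
        V1 := hV1
        VP := hlog hV0 hlV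
        K0 := hK0
        Ki := hlog (by positivity) (by rw [Real.log_inv]; linarith)
        KP := hlog hK0 (by linarith)
        δp := hδp
        δs := hδs
        δP := hlog hδ0 (by rw [← hDd]; linarith)
        ep := hep
        eP := hlog he0 (by rw [← hle]; linarith) }
    obtain ⟨i1, hi1⟩ : ∃ x, x = Real.log 4 + ε / 2 * Real.log Pz + hh + 2 * ν +
        (Real.log X - d₀) + v + 2 * (le + a) - Real.log Kf := ⟨_, rfl⟩
    obtain ⟨i2, hi2⟩ : ∃ x, x = Real.log 10 + Real.log Kf - (le + a) + 1 := ⟨_, rfl⟩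
    obtain ⟨Tn, hTn⟩ : ∃ x, x = 2 * (K + n) - ThN K n D le v - D + a - K / 500 + k9 + 2 / 3 :=
      ⟨_, rfl⟩
    have key := HQ F Sf hF (Bd_mono hBF (hkr r hlen)) hh hhh Pz (hlog (Real.exp_pos _) (by
        rw [Real.log_exp]; linarith)) Cφ η φ hCφ hη (by linarith) hφ p hp t₀ P hP ps rfl hs hsP
      z D0 hD hD0r q hq hqP X Ax hFS hsqf hwin hAx (by rw [pow_one]; exact hAxP)
      (hlog hX0 (by linarith)) V Kf δ e hSz hδX y hy A hA (le + a + k9) i1 i2 Bb Tn (Tn - 1)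
      (by rw [hlea]) hBb (by rw [hlea, ← hν, ← hd₀, ← hv, hi1]) (by rw [hlea, hi2])
      (by
        rw [← hd₀, ← hν]
        have hLv' : Real.log (V * nm (e * A)) = v + le + a := by
          rw [Real.log_mul hV0.ne' (by rw [hea]; positivity), hlea, ← hv]; ring
        rw [hLv']
        intro i' b g νn s' W0 hi' hb hg hνn hνn2 h1 h2 h3 hW hRl hsum
        have hSS : ∑ k : Fin ps.length, (ps.get k).1.z = n := by rw [hn, LF_get]
        rw [hSS] at hsum ⊢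
        have hq1 := hln s' W0 hW (fun k => (hRl k).mono (hCrs.trans hCsle)) (i' + k9)
          (b + 2 / 3) g d₀ ν a le v (by linarith) (by linarith) hg d00 ν0 a0 had le0 v0
          (by linarith) hee (by linarith) (by linarith) (by linarith) (by linarith)
          (by linarith)
        have e1 : le + a + (i' + k9) - 2 * g = i' + (le + a + k9) - 2 * g := by ring
        rw [e1] at hq1
        refine hq1.trans (mul_le_mul_of_nonneg_left (Real.exp_le_exp.2 ?_)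
          (mul_nonneg hBb (Real.rpow_nonneg (by linarith) _)))
        rw [hTn, ← hDdν]
        have hm1 : νn + nr (v + le + a) (i' - 3 * νn) ≤
            max (v + le + a + ν) (max (i' + k9) (2 / 3 * (v + le + a + (i' + k9)))) := by
          have a1 := le_max_left (v + le + a + ν)
            (max (i' + k9) (2 / 3 * (v + le + a + (i' + k9))))
          have a2 := (le_max_left (i' + k9) (2 / 3 * (v + le + a + (i' + k9)))).trans
            (le_max_right (v + le + a + ν) _)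
          have a3 := (le_max_right (i' + k9) (2 / 3 * (v + le + a + (i' + k9)))).trans
            (le_max_right (v + le + a + ν) _)
          have : nr (v + le + a) (i' - 3 * νn) ≤ max (v + le + a + ν) (max (i' + k9)
              (2 / 3 * (v + le + a + (i' + k9)))) - νn := by
            unfold MoL106.nr
            refine max_le (by linarith) (max_le (by linarith) (by linarith))
          linarith
        linarith)
      (fun hy21 => by
        have hν00 : ν = 0 := by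
          rw [hν, hy21]
          have : nm (1 : Eis) = 1 := by decide
          rw [this, Nat.cast_one, Real.log_one]
        have hd : d₀ = D := by rw [hDdν, hν00, add_zero]
        obtain ⟨b0, hb0⟩ : ∃ x, x = (i2 - i1) / 3 := ⟨_, rfl⟩
        obtain ⟨p', hp'⟩ : ∃ x, x = Real.log X - D := ⟨_, rfl⟩
        have hlin := polar_lin (K := K) (n := n) (Lv := Lv) (hh := hh) (D := D) (e := le) (a := a)
          (v := v) (m := m') (k := Real.log Kf) (p := p') (b0 := b0)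
          (x := 2 * (K + n) - ThN K n D le v - D + a - K / 500) hKp hmK (by linarith) n5 n3 vn v3 hhh h14
          D0' (by linarith) le0 (by linarith) a0 (by linarith) v0 (by linarith) (by linarith) (by linarith)
          (by rw [hp']; linarith) (by rw [hp']; linarith) (by
            rw [hb0, hi1, hi2, hν00, hd, hp']
            have := Real.log_nonneg (show (1 : ℝ) ≤ 10 by norm_num)
            linarith) rfl
        obtain ⟨g1, g2, g3⟩ := hlin
        rw [← hb0]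
        refine polar_exp (v := v) (k := Real.log Kf) (a := le + a) (p := p')
          (by rw [hv, Real.exp_log hV0]) (by rw [Real.exp_log hK0])
          (by rw [← hlea, Real.exp_log (by rw [hea]; positivity)])
          (by rw [hp', hDd, ← Real.log_div hX0.ne' hδ0.ne', Real.exp_log (by positivity)])
          (by rw [hTn]; linarith) (by rw [hTn]; linarith) (by rw [hTn]; linarith))
    refine key.trans ?_
    have hrho := hρ δ e V hδp hep hV1
    rw [← hv, ← hle, ← hDd] at hrho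
    obtain ⟨q', hq'⟩ : ∃ x, x = K + n - K / 500 + 2 * e₀ + 4 / 3 * n + (K + v) / 3 -
      4 / 3 * D - flK K (v + le) (n - D - le) - D := ⟨_, rfl⟩
    obtain ⟨w1, hw1⟩ : ∃ x, x = 2 / 3 * Real.log Kf - v / 3 := ⟨_, rfl⟩
    have hTq : Tn - a ≤ q' := by
      rw [hTn, hq']
      unfold R2N777.ThN
      linarith
    have hsm : -(4 * Real.log Pz) ≤ w1 - le + q' := by
      rw [hw1, hq']
      rcases fl_le K (v + le) (n - D - le) with h1 | h1
      · linarith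
      · linarith
    have e1 : V ^ (-(1 : ℝ) / 3) * Kf ^ ((2 : ℝ) / 3) / nm (e * A) =
        Real.exp (w1 - (le + a)) := by
      rw [Real.rpow_def_of_pos hV0, Real.rpow_def_of_pos hK0, ← Real.exp_add, Real.exp_sub,
        ← hlea, Real.exp_log (by rw [hea]; positivity), ← hv, hw1]
      congr 2
      ring
    have e2 : Kf ^ (2 / 3 : ℝ) * V ^ (-(1 / 3) : ℝ) / (nm δ * nm e) =
        Real.exp (w1 - (D + le)) := by
      rw [Real.rpow_def_of_pos hV0, Real.rpow_def_of_pos hK0, ← Real.exp_add, Real.exp_sub,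
        Real.exp_add D le, hDd, hle, Real.exp_log hδ0, Real.exp_log he0, ← hv, hw1]
      congr 2
      ring
    have e3 : (Pz ^ 4)⁻¹ = Real.exp (-(4 * Real.log Pz)) := by
      rw [Real.exp_neg]
      congr 1
      have : (4 : ℝ) * Real.log Pz = Real.log (Pz ^ 4) := by rw [Real.log_pow]; norm_num
      rw [this, Real.exp_log (by positivity)]
    rw [e1, e2, e3]
    have hopr := opL_nonneg r (show (0 : ℝ) ≤ D0 by linarith)
    have hoprN := opL_mono hlen hD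
    have b1 : Real.exp (w1 - (le + a)) * Real.exp Tn ≤ Real.exp (w1 - le + q') := by
      rw [← Real.exp_add]
      exact Real.exp_le_exp.2 (by linarith)
    have b2 : Real.exp (w1 - (le + a)) * Real.exp (Tn - 1) ≤ Real.exp (w1 - le + q') := by
      rw [← Real.exp_add]
      exact Real.exp_le_exp.2 (by linarith)
    have b3 := Real.exp_le_exp.2 hsm
    have b4 : Real.exp (w1 - (le + a)) * (GG * opL r D0 * (Bb * Real.exp Tn) +
        Ax ^ 2 * Real.exp (Tn - 1)) + Real.exp (-(4 * Real.log Pz)) ≤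
        TT * Real.exp (w1 - le + q') := by
      have c1 : GG * opL r D0 * Bb ≤ GG * opL N D0 * Bb := by gcongr
      have c2 : 0 ≤ GG * opL r D0 * Bb := by positivity
      have c3 : 0 ≤ Ax ^ 2 := sq_nonneg _
      calc Real.exp (w1 - (le + a)) * (GG * opL r D0 * (Bb * Real.exp Tn) +
            Ax ^ 2 * Real.exp (Tn - 1)) + Real.exp (-(4 * Real.log Pz)) =
            (GG * opL r D0 * Bb) * (Real.exp (w1 - (le + a)) * Real.exp Tn) +
            Ax ^ 2 * (Real.exp (w1 - (le + a)) * Real.exp (Tn - 1)) +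
            Real.exp (-(4 * Real.log Pz)) := by ring
        _ ≤ (GG * opL N D0 * Bb) * Real.exp (w1 - le + q') +
            Ax ^ 2 * Real.exp (w1 - le + q') + Real.exp (w1 - le + q') := by gcongr
        _ = _ := by rw [hTT]; ring
    have e4 : Real.exp (w1 - le + q') = Real.exp (K + n + s - K / 500 + 2 * e₀) *
        Real.exp (4 / 3 * n + (K + v) / 3 - 4 / 3 * D - flK K (v + le) (n - D - le) - s) *
        Real.exp (w1 - (D + le)) := by
      rw [← Real.exp_add, ← Real.exp_add, hq']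
      congr 1
      ring
    have hCs0 : 0 ≤ Cs := by linarith
    calc C r * Sf ^ 2 * Pz ^ (50 * ε) * (Real.exp (w1 - (le + a)) *
          (GG * opL r D0 * (Bb * Real.exp Tn) + Ax ^ 2 * Real.exp (Tn - 1)) +
          Real.exp (-(4 * Real.log Pz))) ≤
          Cs * Sf ^ 2 * Pz ^ (50 * ε) * (TT * Real.exp (w1 - le + q')) := by
          refine mul_le_mul ?_ b4 (by positivity) (by positivity)
          gcongr
      _ = Cs * Sf ^ 2 * Pz ^ (50 * ε) * (TT * Real.exp (K + n + s - K / 500 + 2 * e₀)) *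
          Real.exp (4 / 3 * n + (K + v) / 3 - 4 / 3 * D - flK K (v + le) (n - D - le) - s) *
          Real.exp (w1 - (D + le)) := by rw [e4]; ring
      _ ≤ Rn * ρ δ e V * Real.exp (w1 - (D + le)) := by
          rw [← hRn]
          exact mul_le_mul_of_nonneg_right (mul_le_mul_of_nonneg_left hrho hRn0)
            (Real.exp_pos _).le
  have hfin := HR Pz Kf D₁ Z E0 Rn I hP1 hK0 hD₁0.le (hlog hD₁0 (by linarith)) hZ0 hE00.le
    (hlog hE00 (by linarith)) (hlog (by positivity) (by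
      have h1 := Real.log_le_log (by positivity) hI
      rw [Real.log_mul (by norm_num) hZ0.ne'] at h1
      have := Real.log_two_lt_d9
      linarith)) hRn0 (bw φ p t₀ (sqc q (alF z D0 P h ps))) (GF (Fh F hh)) ρ cρ hRW hmain
  refine hfin.trans ?_
  have hPe : Pz ^ ε * Pz ^ (50 * ε) = Pz ^ (51 * ε) := by
    rw [← Real.rpow_add hP0]; congr 1; ring
  calc CR * Pz ^ ε * Rn = CR * Cs * Sf ^ 2 * (Pz ^ ε * Pz ^ (50 * ε)) *
        (TT * Real.exp (K + n + s - K / 500 + 2 * e₀)) := by rw [hRn]; ring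
    _ = CR * Cs * Sf ^ 2 * Pz ^ (51 * ε) * (TT * Real.exp (K + n + s - K / 500 + 2 * e₀)) := by
        rw [hPe]
    _ ≤ (1 + CR) * Cs * Sf ^ 2 * Pz ^ (51 * ε) *
        (TT * Real.exp (K + n + s - K / 500 + 2 * e₀)) := by
        have h1 : 0 ≤ Cs := by linarith
        gcongr
        linarith

end Crest.Agent.R017.N2106
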