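import Crest.Agent.R017.RX5e_298

/-!
# Row 17, T.7 (FlatNE, exceptional class): the numbers of the difference with the minimal gain
(helper298)

Copies of RX5d / RX5e with the gain `s₀ ≤ min (z₁, z₂, z₁ + z₂ - d₀, d₀)` in place of `d₀`:
* `Lg3`, `QXm`, `pb_xsm`, `x_numSm`, `x_numS0m`, `x_numLm`, `x_back0m`, `x_backm`, `x_sa0m`, `x_lpm`
-/

set_option autoImplicit false
set_option maxHeartbeats 1600000

noncomputable section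

open Complex
open scoped ComplexConjugate

namespace Crest.Agent.R017.RX298

open Crest.Agent.R012 Crest.Agent.R012.Eis Crest.Agent.R012.LS2 Crest.Agent.R012.Gauss880
open Crest.Agent.R012.Weight600 (osc pw)
open Crest.Agent.R017.CM106 Crest.Agent.R017.HP842 Crest.Agent.R017.FE47
open Crest.Agent.R017.End699 hiding pw
open Crest.Agent.R017.B770
open Crest.Agent.R017.Prov71
open Crest.Agent.R017.Rough381 (VF VF_nonneg)
open Crest.Agent.R017.Leg381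
open Crest.Agent.R017.E1551 (sg tws yv JB)
open Crest.Agent.R017.RG64
open Crest.Agent.R017.LegK545 (VK SFK JBK VK_nonneg)
open Crest.Agent.R017.RGK545 (ClXK ClK ClNK)
open Crest.Agent.R017.PX764 (Dk)
open Crest.Agent.R017.RX241 (Md Nb)
open Crest.Agent.R017.Sup271 (NPm)

/-- the first two lengths and the length of the merged lump are at least `s₀` -/
def Lg3 (s₀ d₀ : ℝ) : List Pf → Prop
  | p :: p' :: _ => s₀ ≤ p.1.z ∧ s₀ ≤ p'.1.z ∧ s₀ ≤ p.1.z + p'.1.z - d₀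
  | _ => False

lemma Lg3.lg {s₀ d₀ : ℝ} (hs : 0 ≤ s₀) {ps : List Pf} (h : Lg3 s₀ d₀ ps) : Lg d₀ ps := by
  match ps, h with
  | [], _ => exact trivial
  | [_], _ => exact trivial
  | p :: p' :: ps, h =>
    show d₀ ≤ p.1.z + p'.1.z
    linarith [h.2.2]

/-- **(PB)** for the difference -/
theorem pb_xsm {h : ℝ → ℝ} {c : ℝ} (hpu : PU h c) (N : ℕ) {B : ℝ} (hB : 1 ≤ B) {ε : ℝ}
    (hε : 0 < ε) {J J₁ : ℝ} (hJ : 6 ≤ J) (hJ₁ : 12 ≤ J₁) :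
    ∃ C : ℝ, 1 ≤ C ∧ ∀ X : ℝ, 3 ≤ X → ∀ P : DPar, P.OK → (nm P.n : ℝ) ≤ X ^ B →
      ¬ NPm P.n P.ψ P.l₂ 1 → ∀ z D0 : ℝ, 1 ≤ D0 → ∀ ps : List Pf, Mk (X ^ B) ps →
      ps.length ≤ N → (∀ p ∈ ps, 0 ≤ p.1.z) → LF ps ≤ Real.log X → ∀ s₀ d₀ : ℝ, 0 ≤ s₀ → s₀ ≤ d₀ →
      Lg3 s₀ d₀ ps → ∀ q g j : Eis, q ≠ 0 → (nm q : ℝ) ≤ X ^ B → IsPrim g → (nm g : ℝ) ≤ X ^ B →
      j ≠ 0 → (nm j : ℝ) ≤ X ^ B → ∀ t : ℝ,
      ‖Md (tws (sg (xs q z D0 P h d₀ ps) g) t) j‖ ^ 2 ≤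
        (C * X ^ ε * D0 ^ 4 * Ht ps ^ J * Real.exp (5 / 3 * LF ps)) *
          (nm g : ℝ) ^ (-(5 / 3) : ℝ) * min 1 (nm g * Real.exp (-s₀)) * (1 + |t|) ^ J₁ := by
  obtain ⟨C, hC, H⟩ := ExD791.pb_ex hpu N (by linarith : (0 : ℝ) ≤ B) hε
  refine ⟨C, hC, ?_⟩
  intro X hX P hP hPn hnp z D0 hD0 ps hps hlen hz hL s₀ d₀ _hs₀ hgd hLg q g j hq hqX hg hgX hj hjX t
  have hX0 : 0 < X := by linarith
  match ps, hps, hlen, hz, hL, hLg with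
  | [], h, _, _, _, _ => exact h.elim
  | [_], h, _, _, _, _ => exact h.elim
  | p :: p' :: l, hps, hlen, hz, hL, hLg =>
    obtain ⟨a1, a2, a3, a4, a5, a6⟩ := hps
    obtain ⟨b1, b2, b3⟩ := hLg
    have hz1 := hz p List.mem_cons_self
    have hz2 := hz p' (List.mem_cons_of_mem _ List.mem_cons_self)
    have hl : 0 ≤ LF l := LF_nonneg fun x hx =>
      hz x (List.mem_cons_of_mem _ (List.mem_cons_of_mem _ hx))
    have hLF : LF (p :: p' :: l) = p.1.z + (p'.1.z + LF l) := by rw [LF_cons, LF_cons]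
    have hlX : 0 ≤ Real.log X := Real.log_nonneg (by linarith)
    have hBX : Real.log X ≤ B * Real.log X := le_mul_of_one_le_left hlX hB
    have e : xs q z D0 P h d₀ (p :: p' :: l) = ExD791.xr z D0 P h q p p' l d₀ := by
      funext n
      have ez : zt d₀ (p :: p' :: l) = ExD791.zet p p' d₀ := by
        show osc (p'.1.t - p.1.t) (p'.1.z - d₀) = osc p.1.t (-(p'.1.z - d₀)) *
          osc p'.1.t (p'.1.z - d₀)
        unfold Weight600.osc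
        rw [← Complex.exp_add]
        congr 1
        push_cast
        ring
      show sqc q (alF z D0 P h (p :: p' :: l)) n - zt d₀ (p :: p' :: l) *
        sqc q (alF z D0 P h (rp d₀ (p :: p' :: l))) n = _
      rw [ez]
      rfl
    rw [e]
    have hn12 : l.length ≤ N := by
      have : (p :: p' :: l).length = l.length + 2 := rfl
      omega
    have key := H X hX P (OKi848.OKi.of hP) hP.ψ hPn hnp z D0 hD0 p p' l a1 a2 a3 a4 a5 a6 hn12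
      (by linarith) j hj hjX d₀ s₀ b1 b2 b3 hgd (by linarith) q g hq hqX hg hgX t
    refine key.trans ?_
    have hHt := one_le_Ht (p :: p' :: l)
    have h6 : Ht (p :: p' :: l) ^ 6 ≤ Ht (p :: p' :: l) ^ J := by
      rw [← Real.rpow_natCast]
      exact Real.rpow_le_rpow_of_exponent_le hHt (by push_cast; linarith)
    have h12 : (1 + |t|) ^ 12 ≤ (1 + |t|) ^ J₁ := by
      rw [← Real.rpow_natCast]
      exact Real.rpow_le_rpow_of_exponent_le (by linarith [abs_nonneg t])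
        (by push_cast; linarith)
    have h0 : 0 ≤ min 1 ((nm g : ℝ) * Real.exp (-s₀)) := le_min zero_le_one (by positivity)
    gcongr

/-- the data of one list: modulus, list, replaced length -/
structure QXm (B₀ X s Q s₀ d₀ : ℝ) (D : Dat) (q : Eis) (ps : List Pf) : Prop where
  prim : IsPrim q
  qX : (nm q : ℝ) ≤ X ^ B₀
  qQ : (nm q : ℝ) * Real.exp (LF ps) ≤ Q
  sb : SbL s ps D.ps₀
  lg : Lg3 s₀ d₀ ps
  LX : LF ps ≤ Real.log X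
  d0 : 0 ≤ d₀
  s0 : 0 ≤ s
  g0 : 0 ≤ s₀
  gd : s₀ ≤ d₀

lemma QXm.sbr {B₀ X s Q s₀ d₀ : ℝ} {D : Dat} {q : Eis} {ps : List Pf}
    (H : QXm B₀ X s Q s₀ d₀ D q ps) : SbL (2 * s) (rp d₀ ps) (Dr d₀ D).ps₀ :=
  SbL_rp H.s0 H.d0 H.sb (H.lg.lg H.g0)

lemma QXm.qQr {B₀ X s Q s₀ d₀ : ℝ} {D : Dat} {q : Eis} {ps : List Pf}
    (H : QXm B₀ X s Q s₀ d₀ D q ps) : (nm q : ℝ) * Real.exp (LF (rp d₀ ps)) ≤ Q := by
  rw [LF_rp]; exact H.qQ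

/-- **(S)** for the difference -/
theorem x_numSm {h : ℝ → ℝ} {c : ℝ} (hpu : PU h c) (N : ℕ) {B₀ : ℝ} (hB₀ : 1 ≤ B₀) {ε : ℝ}
    (hε : 0 < ε) {J J₁ : ℝ} (hJ : 6 ≤ J) (hJ₁ : 12 ≤ J₁) (hNJ : N * J ≤ J₁) :
    ∃ C r : ℝ, 1 ≤ C ∧ 0 ≤ r ∧ ∀ X : ℝ, 3 ≤ X → ∀ D : Dat, DX h N J B₀ X D →
    ∀ (B B' Bb s a Q q₀ σ' σ'' lo s₀ d₀ : ℝ), 0 ≤ B → 0 ≤ B' → Real.exp r ≤ q₀ →
    ClK Dk D (Ge lo) B (s + r) (a + r) (Q * q₀) σ' →
    ClXK Dk (ex0 D.κ) (Dr d₀ D) (Ge lo) B' (2 * s + r) (a + r) (Q * q₀) σ'' →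
    ∀ (q : Eis) (ps : List Pf), QXm B₀ X s Q s₀ d₀ D q ps → NT ps →
    LF ps - min (Real.log D.z) (Real.log D.D0) + r ≤ σ' → 1 ≤ D.z → LF ps + r ≤ σ'' →
    ∀ (g : Eis) (t V N1 G₀ : ℝ), IsPrim g → g ≠ 1 → (nm g : ℝ) ≤ X ^ B₀ → (nm g : ℝ) ≤ G₀ →
    lo + Real.log (nm g) + N * Real.log D.D0 + r ≤ LF ps → 1 ≤ V → V ≤ X → 0 < N1 →
    V ≤ 9 * N1 * nm g → Real.log V ≤ D.v + (D.n - LF ps) + a + Real.log (nm g) →
    G₀ * D.D0 ^ 4 * Real.exp (LF ps / 3 - s₀) * (N1 / Real.exp D.κ) ^ (1 / 3 : ℝ) ≤ Bb →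
    VF V (tws (sg (xs q D.z D.D0 D.P D.h d₀ ps) g) t) ≤
      (C * X ^ ε * (B + B' + Bb) * Ht ps ^ J * Real.exp (2 * LF ps)) / (nm g : ℝ) ^ 2 *
        max 1 ((V * Real.exp D.κ / (Real.exp (LF ps) / nm g) ^ 2) ^ (1 / 3 : ℝ)) *
        (1 + |t|) ^ J₁ := by
  have hB₀0 : (0 : ℝ) ≤ B₀ := by linarith
  have hJ0 : (0 : ℝ) ≤ J := by linarith
  obtain ⟨C₁, r₁, hC₁, hr₁, H1⟩ := RGK545.sub_num Dk848.ker_Dk hpu N hB₀0 hε hJ0
  obtain ⟨C₂, r₂, hC₂, hr₂, H2⟩ := RGK545.sub_num0 Dk848.ker_Dk hpu N hB₀0 hε hJ0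
  obtain ⟨C₃, hC₃, H3⟩ := pb_xsm hpu N hB₀ hε hJ hJ₁
  obtain ⟨C₄, hC₄, H4⟩ := RX241.num_S
  refine ⟨3 * C₁ + 3 * C₂ + C₄ * C₃, max r₁ r₂, ?_, hr₁.trans (le_max_left _ _), ?_⟩
  · have : 0 ≤ C₄ * C₃ := by positivity
    linarith
  intro X hX D hD B B' Bb s a Q q₀ σ' σ'' lo s₀ d₀ hB hB' hq₀ hCl hCl' q ps hps hnt hσ hz hσ'' g t V N1
    G₀ hg hg1 hgX hgG hlo hV hVX hN1 hVN hk hb
  have hX1 : (1 : ℝ) ≤ X := by linarith
  have hX0 : 0 < X := by linarith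
  obtain ⟨hq, hqX, hqQ, hsb, hlg, hLX, hd₀, hs, hg0, hgd⟩ := hps
  have hps' : QXm B₀ X s Q s₀ d₀ D q ps := ⟨hq, hqX, hqQ, hsb, hlg, hLX, hd₀, hs, hg0, hgd⟩
  have hr1 : r₁ ≤ max r₁ r₂ := le_max_left _ _
  have hr2 : r₂ ≤ max r₁ r₂ := le_max_right _ _
  set r := max r₁ r₂ with hr
  have hq1 : Real.exp r₁ ≤ q₀ := (Real.exp_le_exp.2 hr1).trans hq₀
  have hq2 : Real.exp r₂ ≤ q₀ := (Real.exp_le_exp.2 hr2).trans hq₀
  have hng1 : (1 : ℝ) ≤ nm g := by exact_mod_cast nm_pos.2 hg.ne_zero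
  have hng : (0 : ℝ) < nm g := by linarith
  have hγ := Real.log_nonneg hng1
  have hV0 : 0 < V := by linarith
  have hHt := one_le_Ht ps
  have hz0 := hsb.z_nonneg
  have hlen : ps.length ≤ N := hsb.length ▸ hD.len
  have ht : (1 : ℝ) ≤ 1 + |t| := by linarith [abs_nonneg t]
  have htJ : (1 + |t|) ^ ((N : ℝ) * J) ≤ (1 + |t|) ^ J₁ :=
    Real.rpow_le_rpow_of_exponent_le ht hNJ
  have hXe : 0 ≤ X ^ ε := by positivity
  have hHJ : 0 ≤ Ht ps ^ J := Real.rpow_nonneg (by linarith) _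
  set m := LF ps with hm
  set mx := max 1 ((V * Real.exp D.κ / (Real.exp m / nm g) ^ 2) ^ (1 / 3 : ℝ)) with hmx
  have hmx0 : 0 ≤ mx := zero_le_one.trans (le_max_left _ _)
  -- the own part
  have k1 : VK Dk V (tws (sg (sqc q (alF D.z D.D0 D.P D.h ps)) g) t) ≤
      (C₁ * X ^ ε * B * Ht ps ^ J * Real.exp (2 * m)) / (nm g : ℝ) ^ 2 * mx *
        (1 + |t|) ^ J₁ := by
    have h1 := H1 X hX D hD.ok hD.hh hD.D0 hD.J hD.len B s a Q q₀ σ' lo hB hq1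
      (hCl.mono le_rfl (by linarith) (by linarith) le_rfl le_rfl) q g ps t V hq hqQ hg hgX hsb hLX
      (fun x _ hx => by
        have := hx hg1 hz hnt
        linarith) (by linarith) hV hVX hk
    refine h1.trans ?_
    rw [flat_eq hV0 hng]
    have h2 : 0 ≤ C₁ * X ^ ε * B * Ht ps ^ J := by positivity
    calc C₁ * X ^ ε * B * Ht ps ^ J * (1 + |t|) ^ ((N : ℝ) * J) *
          (Real.exp (2 * m) / (nm g : ℝ) ^ 2 * mx) ≤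
        C₁ * X ^ ε * B * Ht ps ^ J * (1 + |t|) ^ J₁ *
          (Real.exp (2 * m) / (nm g : ℝ) ^ 2 * mx) := by gcongr
      _ = _ := by ring
  -- the replaced part
  have k2 : VK Dk V (tws (sg (sqc q (alF D.z D.D0 D.P D.h (rp d₀ ps))) g) t) ≤
      (C₂ * X ^ ε * B' * Ht ps ^ J * Real.exp (2 * m)) / (nm g : ℝ) ^ 2 * mx *
        (1 + |t|) ^ J₁ := by
    have h1 := H2 X hX (Dr d₀ D) hD.ok hD.hh hD.D0 hD.J
      (by show (rpB d₀ D.ps₀).length ≤ N; rw [rpB_length]; exact hD.len)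
      B' (2 * s) a Q q₀ σ'' lo hB' hq2
      (hCl'.mono le_rfl (by linarith) (by linarith) le_rfl le_rfl) q g (rp d₀ ps) t V hq
      hps'.qQr hg hgX hps'.sbr (by rw [LF_rp]; exact hLX)
      (fun x hx => by
        rw [LF_rp] at hx
        linarith) (by
          rw [LF_rp]
          show lo + Real.log (nm g) + N * Real.log D.D0 + r₂ ≤ m
          linarith) hV hVX (by rw [LF_rp]; exact hk)
    refine h1.trans ?_
    rw [LF_rp, Ht_rp]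
    show C₂ * X ^ ε * B' * Ht ps ^ J * (1 + |t|) ^ ((N : ℝ) * J) *
      Real.exp (4 / 3 * (m - Real.log (nm g)) + (Real.log V + D.κ) / 3) ≤ _
    rw [slope_eq hV0 hng]
    have h2 : 0 ≤ C₂ * X ^ ε * B' * Ht ps ^ J := by positivity
    have h3 : (V * Real.exp D.κ / (Real.exp m / nm g) ^ 2) ^ (1 / 3 : ℝ) ≤ mx := le_max_right _ _
    calc C₂ * X ^ ε * B' * Ht ps ^ J * (1 + |t|) ^ ((N : ℝ) * J) *
          (Real.exp (2 * m) / (nm g : ℝ) ^ 2 *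
            (V * Real.exp D.κ / (Real.exp m / nm g) ^ 2) ^ (1 / 3 : ℝ)) ≤
        C₂ * X ^ ε * B' * Ht ps ^ J * (1 + |t|) ^ J₁ *
          (Real.exp (2 * m) / (nm g : ℝ) ^ 2 * mx) := by gcongr
      _ = _ := by ring
  -- the bias
  have hBump := bump_of_cs hpu.cs
  have hFa : FS (sqc q (alF D.z D.D0 D.P D.h ps)) := by
    rw [hD.hh]; exact HP842.FS.sqc (FS_alF hBump hD.ok D.z D.D0 ps) q
  have hFb : FS (sqc q (alF D.z D.D0 D.P D.h (rp d₀ ps))) := by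
    rw [hD.hh]; exact HP842.FS.sqc (FS_alF hBump hD.ok D.z D.D0 _) q
  have k3 := H4 (sqc q (alF D.z D.D0 D.P D.h ps)) (sqc q (alF D.z D.D0 D.P D.h (rp d₀ ps)))
    (xs q D.z D.D0 D.P D.h d₀ ps) (zt d₀ ps) (norm_zt d₀ ps).le hFa hFb (fun n => rfl)
    (C₃ * X ^ ε * D.D0 ^ 4 * Ht ps ^ J * Real.exp (5 / 3 * m)) (Real.exp (-s₀))
    (Real.exp D.κ) (Real.exp m) N1 G₀ J₁ (by
      have := hD.D0
      positivity) (Real.exp_pos _).le (Real.exp_pos _)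
    (Real.exp_pos _) hN1 g hg hgG V t hV hVN (fun j hj hjV => by
      have hXB : X ≤ X ^ B₀ := by
        conv_lhs => rw [← Real.rpow_one X]
        exact Real.rpow_le_rpow_of_exponent_le hX1 hB₀
      have := H3 X hX D.P hD.ok hD.nP hD.np D.z D.D0 hD.D0 ps (hD.mkb.mk hsb) hlen hz0 hLX s₀ d₀ hg0 hgd
        hlg q g j hq.ne_zero hqX hg hgX hj.1 ((hjV.trans hVX).trans hXB) t
      rw [hD.hh]
      exact this) _ _ k1 k2
  refine k3.trans ?_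
  have k4 := nb_le (C := C₃) (Xe := X ^ ε) (D0 := D.D0) (HJ := Ht ps ^ J) (m := m) (d₀ := s₀)
    (N1 := N1) (κ := D.κ) (G₀ := G₀) (Bb := Bb) (by linarith) hXe hHJ hb
  have hD0' := hD.D0
  have hG0 : 0 < G₀ := lt_of_lt_of_le hng hgG
  have hBb : 0 ≤ Bb := by
    refine le_trans ?_ hb
    positivity
  have k5 : 3 * (C₁ * X ^ ε * B * Ht ps ^ J * Real.exp (2 * m)) +
      3 * (C₂ * X ^ ε * B' * Ht ps ^ J * Real.exp (2 * m)) +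
      C₄ * (G₀ * Nb (C₃ * X ^ ε * D.D0 ^ 4 * Ht ps ^ J * Real.exp (5 / 3 * m)) (Real.exp (-s₀))
        (Real.exp D.κ) (Real.exp m) N1) ≤
      (3 * C₁ + 3 * C₂ + C₄ * C₃) * X ^ ε * (B + B' + Bb) * Ht ps ^ J * Real.exp (2 * m) := by
    have h1 := mul_le_mul_of_nonneg_left k4 hC₄
    have h2 : 0 ≤ X ^ ε * Ht ps ^ J * Real.exp (2 * m) := by positivity
    have h3 : 3 * C₁ * B + 3 * C₂ * B' + C₄ * C₃ * Bb ≤
        (3 * C₁ + 3 * C₂ + C₄ * C₃) * (B + B' + Bb) := by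
      have : 0 ≤ C₄ * C₃ := by positivity
      nlinarith [mul_nonneg (by linarith : 0 ≤ C₁) hB', mul_nonneg (by linarith : 0 ≤ C₁) hBb,
        mul_nonneg (by linarith : 0 ≤ C₂) hB, mul_nonneg (by linarith : 0 ≤ C₂) hBb,
        mul_nonneg this hB, mul_nonneg this hB']
    have h4 := mul_le_mul_of_nonneg_right h3 h2
    calc _ ≤ 3 * (C₁ * X ^ ε * B * Ht ps ^ J * Real.exp (2 * m)) +
          3 * (C₂ * X ^ ε * B' * Ht ps ^ J * Real.exp (2 * m)) +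
          C₄ * (C₃ * X ^ ε * Bb * Ht ps ^ J * Real.exp (2 * m)) := by linarith
      _ = (3 * C₁ * B + 3 * C₂ * B' + C₄ * C₃ * Bb) *
          (X ^ ε * Ht ps ^ J * Real.exp (2 * m)) := by ring
      _ ≤ _ := h4
      _ = _ := by ring
  have h5 : 0 ≤ (1 + |t|) ^ J₁ := by positivity
  gcongr

/-- **(SA0)** for the difference, slope form, `g = 1` included -/
theorem x_numS0m {h : ℝ → ℝ} {c : ℝ} (hpu : PU h c) (N : ℕ) {B₀ : ℝ} (hB₀ : 1 ≤ B₀) {ε : ℝ}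
    (hε : 0 < ε) {J J₁ : ℝ} (hJ : 6 ≤ J) (hJ₁ : 12 ≤ J₁) (hNJ : N * J ≤ J₁) :
    ∃ C r : ℝ, 1 ≤ C ∧ 0 ≤ r ∧ ∀ X : ℝ, 3 ≤ X → ∀ D : Dat, DX h N J B₀ X D →
    ∀ (B B' Bb s a Q q₀ σ'' lo s₀ d₀ : ℝ), 0 ≤ B → 0 ≤ B' → Real.exp r ≤ q₀ →
    ClXK Dk (ex0 D.κ) D (Ge lo) B (s + r) (a + r) (Q * q₀) σ'' →
    ClXK Dk (ex0 D.κ) (Dr d₀ D) (Ge lo) B' (2 * s + r) (a + r) (Q * q₀) σ'' →
    ∀ (q : Eis) (ps : List Pf), QXm B₀ X s Q s₀ d₀ D q ps → LF ps + r ≤ σ'' →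
    ∀ (g : Eis) (t V N1 G₀ : ℝ), IsPrim g → (nm g : ℝ) ≤ X ^ B₀ → (nm g : ℝ) ≤ G₀ →
    lo + Real.log (nm g) + N * Real.log D.D0 + r ≤ LF ps → 1 ≤ V → V ≤ X → 0 < N1 →
    V ≤ 9 * N1 * nm g → Real.log V ≤ D.v + (D.n - LF ps) + a + Real.log (nm g) →
    G₀ * D.D0 ^ 4 * Real.exp (LF ps / 3 - s₀) * (N1 / Real.exp D.κ) ^ (1 / 3 : ℝ) ≤ Bb →
    VF V (tws (sg (xs q D.z D.D0 D.P D.h d₀ ps) g) t) ≤
      (C * X ^ ε * (B + B' + Bb) * Ht ps ^ J * Real.exp (2 * LF ps)) / (nm g : ℝ) ^ 2 *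
        ((V * Real.exp D.κ / (Real.exp (LF ps) / nm g) ^ 2) ^ (1 / 3 : ℝ)) *
        (1 + |t|) ^ J₁ := by
  have hB₀0 : (0 : ℝ) ≤ B₀ := by linarith
  have hJ0 : (0 : ℝ) ≤ J := by linarith
  obtain ⟨C₂, r, hC₂, hr₂, H2⟩ := RGK545.sub_num0 Dk848.ker_Dk hpu N hB₀0 hε hJ0
  obtain ⟨C₃, hC₃, H3⟩ := pb_xsm hpu N hB₀ hε hJ hJ₁
  obtain ⟨C₄, hC₄, H4⟩ := RX241.num_S0
  refine ⟨3 * C₂ + 3 * C₂ + C₄ * C₃, r, ?_, hr₂, ?_⟩
  · have : 0 ≤ C₄ * C₃ := by positivity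
    linarith
  intro X hX D hD B B' Bb s a Q q₀ σ'' lo s₀ d₀ hB hB' hq₀ hCl hCl' q ps hps hσ'' g t V N1
    G₀ hg hgX hgG hlo hV hVX hN1 hVN hk hb
  have hX1 : (1 : ℝ) ≤ X := by linarith
  have hX0 : 0 < X := by linarith
  obtain ⟨hq, hqX, hqQ, hsb, hlg, hLX, hd₀, hs, hg0, hgd⟩ := hps
  have hps' : QXm B₀ X s Q s₀ d₀ D q ps := ⟨hq, hqX, hqQ, hsb, hlg, hLX, hd₀, hs, hg0, hgd⟩
  have hng1 : (1 : ℝ) ≤ nm g := by exact_mod_cast nm_pos.2 hg.ne_zero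
  have hng : (0 : ℝ) < nm g := by linarith
  have hγ := Real.log_nonneg hng1
  have hV0 : 0 < V := by linarith
  have hHt := one_le_Ht ps
  have hz0 := hsb.z_nonneg
  have hlen : ps.length ≤ N := hsb.length ▸ hD.len
  have ht : (1 : ℝ) ≤ 1 + |t| := by linarith [abs_nonneg t]
  have htJ : (1 + |t|) ^ ((N : ℝ) * J) ≤ (1 + |t|) ^ J₁ :=
    Real.rpow_le_rpow_of_exponent_le ht hNJ
  have hXe : 0 ≤ X ^ ε := by positivity
  have hHJ : 0 ≤ Ht ps ^ J := Real.rpow_nonneg (by linarith) _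
  set m := LF ps with hm
  set mx := (V * Real.exp D.κ / (Real.exp m / nm g) ^ 2) ^ (1 / 3 : ℝ) with hmx
  have hmx0 : 0 ≤ mx := by rw [hmx]; positivity
  -- the own part
  have k1 : VK Dk V (tws (sg (sqc q (alF D.z D.D0 D.P D.h ps)) g) t) ≤
      (C₂ * X ^ ε * B * Ht ps ^ J * Real.exp (2 * m)) / (nm g : ℝ) ^ 2 * mx *
        (1 + |t|) ^ J₁ := by
    have h1 := H2 X hX D hD.ok hD.hh hD.D0 hD.J hD.len B s a Q q₀ σ'' lo hB hq₀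
      hCl q g ps t V hq hqQ hg hgX hsb hLX
      (fun x hx => by linarith) (by linarith) hV hVX hk
    refine h1.trans ?_
    rw [slope_eq hV0 hng]
    have h2 : 0 ≤ C₂ * X ^ ε * B * Ht ps ^ J := by positivity
    calc C₂ * X ^ ε * B * Ht ps ^ J * (1 + |t|) ^ ((N : ℝ) * J) *
          (Real.exp (2 * m) / (nm g : ℝ) ^ 2 * mx) ≤
        C₂ * X ^ ε * B * Ht ps ^ J * (1 + |t|) ^ J₁ *
          (Real.exp (2 * m) / (nm g : ℝ) ^ 2 * mx) := by gcongr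
      _ = _ := by ring
  -- the replaced part
  have k2 : VK Dk V (tws (sg (sqc q (alF D.z D.D0 D.P D.h (rp d₀ ps))) g) t) ≤
      (C₂ * X ^ ε * B' * Ht ps ^ J * Real.exp (2 * m)) / (nm g : ℝ) ^ 2 * mx *
        (1 + |t|) ^ J₁ := by
    have h1 := H2 X hX (Dr d₀ D) hD.ok hD.hh hD.D0 hD.J
      (by show (rpB d₀ D.ps₀).length ≤ N; rw [rpB_length]; exact hD.len)
      B' (2 * s) a Q q₀ σ'' lo hB' hq₀
      hCl' q g (rp d₀ ps) t V hq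
      hps'.qQr hg hgX hps'.sbr (by rw [LF_rp]; exact hLX)
      (fun x hx => by
        rw [LF_rp] at hx
        linarith) (by
          rw [LF_rp]
          show lo + Real.log (nm g) + N * Real.log D.D0 + r ≤ m
          linarith) hV hVX (by rw [LF_rp]; exact hk)
    refine h1.trans ?_
    rw [LF_rp, Ht_rp]
    show C₂ * X ^ ε * B' * Ht ps ^ J * (1 + |t|) ^ ((N : ℝ) * J) *
      Real.exp (4 / 3 * (m - Real.log (nm g)) + (Real.log V + D.κ) / 3) ≤ _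
    rw [slope_eq hV0 hng]
    have h2 : 0 ≤ C₂ * X ^ ε * B' * Ht ps ^ J := by positivity
    calc C₂ * X ^ ε * B' * Ht ps ^ J * (1 + |t|) ^ ((N : ℝ) * J) *
          (Real.exp (2 * m) / (nm g : ℝ) ^ 2 * mx) ≤
        C₂ * X ^ ε * B' * Ht ps ^ J * (1 + |t|) ^ J₁ *
          (Real.exp (2 * m) / (nm g : ℝ) ^ 2 * mx) := by gcongr
      _ = _ := by ring
  -- the bias
  have hBump := bump_of_cs hpu.cs
  have hFa : FS (sqc q (alF D.z D.D0 D.P D.h ps)) := by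
    rw [hD.hh]; exact HP842.FS.sqc (FS_alF hBump hD.ok D.z D.D0 ps) q
  have hFb : FS (sqc q (alF D.z D.D0 D.P D.h (rp d₀ ps))) := by
    rw [hD.hh]; exact HP842.FS.sqc (FS_alF hBump hD.ok D.z D.D0 _) q
  have k3 := H4 (sqc q (alF D.z D.D0 D.P D.h ps)) (sqc q (alF D.z D.D0 D.P D.h (rp d₀ ps)))
    (xs q D.z D.D0 D.P D.h d₀ ps) (zt d₀ ps) (norm_zt d₀ ps).le hFa hFb (fun n => rfl)
    (C₃ * X ^ ε * D.D0 ^ 4 * Ht ps ^ J * Real.exp (5 / 3 * m)) (Real.exp (-s₀))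
    (Real.exp D.κ) (Real.exp m) N1 G₀ J₁ (by
      have := hD.D0
      positivity) (Real.exp_pos _).le (Real.exp_pos _)
    (Real.exp_pos _) hN1 g hg hgG V t hV hVN (fun j hj hjV => by
      have hXB : X ≤ X ^ B₀ := by
        conv_lhs => rw [← Real.rpow_one X]
        exact Real.rpow_le_rpow_of_exponent_le hX1 hB₀
      have := H3 X hX D.P hD.ok hD.nP hD.np D.z D.D0 hD.D0 ps (hD.mkb.mk hsb) hlen hz0 hLX s₀ d₀ hg0 hgd
        hlg q g j hq.ne_zero hqX hg hgX hj.1 ((hjV.trans hVX).trans hXB) t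
      rw [hD.hh]
      exact this) _ _ k1 k2
  refine k3.trans ?_
  have k4 := nb_le (C := C₃) (Xe := X ^ ε) (D0 := D.D0) (HJ := Ht ps ^ J) (m := m) (d₀ := s₀)
    (N1 := N1) (κ := D.κ) (G₀ := G₀) (Bb := Bb) (by linarith) hXe hHJ hb
  have hD0' := hD.D0
  have hG0 : 0 < G₀ := lt_of_lt_of_le hng hgG
  have hBb : 0 ≤ Bb := by
    refine le_trans ?_ hb
    positivity
  have k5 : 3 * (C₂ * X ^ ε * B * Ht ps ^ J * Real.exp (2 * m)) +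
      3 * (C₂ * X ^ ε * B' * Ht ps ^ J * Real.exp (2 * m)) +
      C₄ * (G₀ * Nb (C₃ * X ^ ε * D.D0 ^ 4 * Ht ps ^ J * Real.exp (5 / 3 * m)) (Real.exp (-s₀))
        (Real.exp D.κ) (Real.exp m) N1) ≤
      (3 * C₂ + 3 * C₂ + C₄ * C₃) * X ^ ε * (B + B' + Bb) * Ht ps ^ J * Real.exp (2 * m) := by
    have h1 := mul_le_mul_of_nonneg_left k4 hC₄
    have h2 : 0 ≤ X ^ ε * Ht ps ^ J * Real.exp (2 * m) := by positivity
    have h3 : 3 * C₂ * B + 3 * C₂ * B' + C₄ * C₃ * Bb ≤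
        (3 * C₂ + 3 * C₂ + C₄ * C₃) * (B + B' + Bb) := by
      have : 0 ≤ C₄ * C₃ := by positivity
      nlinarith [mul_nonneg (by linarith : 0 ≤ C₂) hB', mul_nonneg (by linarith : 0 ≤ C₂) hBb,
        mul_nonneg (by linarith : 0 ≤ C₂) hB, mul_nonneg this hB, mul_nonneg this hB']
    have h4 := mul_le_mul_of_nonneg_right h3 h2
    calc _ ≤ 3 * (C₂ * X ^ ε * B * Ht ps ^ J * Real.exp (2 * m)) +
          3 * (C₂ * X ^ ε * B' * Ht ps ^ J * Real.exp (2 * m)) +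
          C₄ * (C₃ * X ^ ε * Bb * Ht ps ^ J * Real.exp (2 * m)) := by linarith
      _ = (3 * C₂ * B + 3 * C₂ * B' + C₄ * C₃ * Bb) *
          (X ^ ε * Ht ps ^ J * Real.exp (2 * m)) := by ring
      _ ≤ _ := h4
      _ = _ := by ring
  have h5 : 0 ≤ (1 + |t|) ^ J₁ := by positivity
  gcongr

/-- **(L+)** for the difference -/
theorem x_numLm {h : ℝ → ℝ} {c : ℝ} (hpu : PU h c) (N : ℕ) {B₀ : ℝ} (hB₀ : 1 ≤ B₀) {ε : ℝ}
    (hε : 0 < ε) {J J₁ : ℝ} (hJ : 6 ≤ J) (hJ₁ : 12 ≤ J₁) (hNJ : N * J ≤ J₁) :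
    ∃ C r : ℝ, 1 ≤ C ∧ 0 ≤ r ∧ ∀ X : ℝ, 3 ≤ X → ∀ D : Dat, DX h N J B₀ X D →
    ∀ (B B' Bb s a Q q₀ cc lo x₁ s₀ d₀ : ℝ), 0 ≤ B → 0 ≤ B' → Real.exp r ≤ q₀ → 0 ≤ a →
    lo ≤ 0 → 0 ≤ x₁ →
    ClNK Dk D (exJ D.κ D.v D.n cc) B (s + r) (a + r) (Q * q₀) lo (D.n - cc + x₁) →
    ClNK Dk (Dr d₀ D) (exJ D.κ D.v D.n cc) B' (2 * s + r) (a + r) (Q * q₀) lo
      (D.n - cc + x₁) →
    ∀ (q : Eis) (ps : List Pf), QXm B₀ X s Q s₀ d₀ D q ps → D.n - cc ≤ LF ps →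
    ∀ (g : Eis) (Y G₀ Bu t V N1 : ℝ), IsPrim g → (nm g : ℝ) ≤ X ^ B₀ → 0 ≤ Y → 1 ≤ Bu →
    Bu ≤ X ^ B₀ → 0 < G₀ → LF ps - Real.log G₀ + r ≤ D.n - cc + x₁ → 1 ≤ V → V ≤ X →
    0 < N1 → V ≤ 9 * N1 / (nm g : ℝ) ^ 2 →
    Real.log V + 2 * Real.log (nm g) ≤ D.v + (D.n - LF ps) + a →
    D.D0 ^ 4 * Real.exp (LF ps / 3 - s₀) * (N1 / Real.exp D.κ) ^ (1 / 3 : ℝ) ≤ Bb →
    JB Y (xs q D.z D.D0 D.P D.h d₀ ps) (fun U => G₀ < nm (g * U)) g Bu V t ≤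
      (C * X ^ ε * ((B + B') * Real.exp (N * Real.log D.D0 + a) + Bb) * Ht ps ^ J *
        Real.exp (2 * LF ps)) / (nm g : ℝ) ^ 2 * yv (Real.exp D.κ) (Real.exp (LF ps)) g V *
        (1 + |t|) ^ J₁ := by
  have hB₀0 : (0 : ℝ) ≤ B₀ := by linarith
  have hJ0 : (0 : ℝ) ≤ J := by linarith
  obtain ⟨C₂, r, hC₂, hr₂, H2⟩ := RGK545.large_num hpu N (B₀ := B₀) (ε := ε) hJ0
    (RGK545.mergeListK Dk848.ker_Dk hpu N hB₀0 hε hJ0)
  obtain ⟨C₃, hC₃, H3⟩ := pb_xsm hpu N (B := 2 * B₀) (by linarith) (ε := ε / 2) (by positivity)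
    hJ hJ₁
  obtain ⟨C₄, hC₄, H4⟩ := RX241.num_L (ε := ε / 2 / (2 * B₀)) (by positivity)
  refine ⟨3 * C₂ + 3 * C₂ + C₄ * C₃, r, ?_, hr₂, ?_⟩
  · have : 0 ≤ C₄ * C₃ := by positivity
    linarith
  intro X hX D hD B B' Bb s a Q q₀ cc lo x₁ s₀ d₀ hB hB' hq₀ ha hlo hx₁ hCl hCl' q ps hps hcm g Y G₀
    Bu t V N1 hg hgX hY hBu hBuX hG₀ hGn hV hVX hN1 hVN hk hb
  have hX1 : (1 : ℝ) ≤ X := by linarith
  have hX0 : 0 < X := by linarith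
  obtain ⟨hq, hqX, hqQ, hsb, hlg, hLX, hd₀, hs, hg0, hgd⟩ := hps
  have hps' : QXm B₀ X s Q s₀ d₀ D q ps := ⟨hq, hqX, hqQ, hsb, hlg, hLX, hd₀, hs, hg0, hgd⟩
  have hng1 : (1 : ℝ) ≤ nm g := by exact_mod_cast nm_pos.2 hg.ne_zero
  have hng : (0 : ℝ) < nm g := by linarith
  have hV0 : 0 < V := by linarith
  have hHt := one_le_Ht ps
  have hz0 := hsb.z_nonneg
  have hlen : ps.length ≤ N := hsb.length ▸ hD.len
  have ht : (1 : ℝ) ≤ 1 + |t| := by linarith [abs_nonneg t]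
  have htJ : (1 + |t|) ^ ((N : ℝ) * J) ≤ (1 + |t|) ^ J₁ :=
    Real.rpow_le_rpow_of_exponent_le ht hNJ
  have hXe : 0 ≤ X ^ ε := by positivity
  have hHJ : 0 ≤ Ht ps ^ J := Real.rpow_nonneg (by linarith) _
  set m := LF ps with hm
  set Y' := yv (Real.exp D.κ) (Real.exp m) g V with hY'
  have hY'0 : 0 ≤ Y' := by rw [hY']; unfold E1551.yv; positivity
  set Ex := Real.exp (N * Real.log D.D0 + a) with hEx
  have hXB : X ≤ X ^ B₀ := by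
    conv_lhs => rw [← Real.rpow_one X]
    exact Real.rpow_le_rpow_of_exponent_le hX1 hB₀
  have hXB2 : X ^ B₀ * X ^ B₀ = X ^ (2 * B₀) := by
    rw [← Real.rpow_add hX0]; congr 1; ring
  have hXB1 : X ^ B₀ ≤ X ^ (2 * B₀) :=
    Real.rpow_le_rpow_of_exponent_le hX1 (by linarith)
  -- the own part
  have k1 : JBK Dk Y (sqc q (alF D.z D.D0 D.P D.h ps)) (fun U => G₀ < nm (g * U)) g Bu V t ≤
      (C₂ * X ^ ε * B * Ht ps ^ J * Ex * Real.exp (2 * m)) / (nm g : ℝ) ^ 2 * Y' *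
        (1 + |t|) ^ J₁ := by
    have h1 := H2 X hX D hD.ok hD.hh hD.D0 hD.J hD.len B s a Q q₀ cc lo x₁ hB hq₀ ha hlo hx₁
      hCl q g ps Y G₀ Bu V t hq hqQ hg hgX hsb hLX hcm hY hBu hBuX hG₀ hGn hV hVX hk
    refine h1.trans ?_
    gcongr
  -- the replaced part
  have k2 : JBK Dk Y (sqc q (alF D.z D.D0 D.P D.h (rp d₀ ps))) (fun U => G₀ < nm (g * U)) g Bu
      V t ≤ (C₂ * X ^ ε * B' * Ht ps ^ J * Ex * Real.exp (2 * m)) / (nm g : ℝ) ^ 2 * Y' *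
        (1 + |t|) ^ J₁ := by
    have h1 := H2 X hX (Dr d₀ D) hD.ok hD.hh hD.D0 hD.J
      (by show (rpB d₀ D.ps₀).length ≤ N; rw [rpB_length]; exact hD.len)
      B' (2 * s) a Q q₀ cc lo x₁ hB' hq₀ ha hlo hx₁
      hCl' q g (rp d₀ ps) Y G₀ Bu V t hq hps'.qQr hg hgX hps'.sbr (by rw [LF_rp]; exact hLX)
      (by rw [LF_rp]; exact hcm) hY hBu hBuX hG₀ (by rw [LF_rp]; exact hGn) hV hVX
      (by rw [LF_rp]; exact hk)
    rw [LF_rp, Ht_rp] at h1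
    refine h1.trans ?_
    show (C₂ * X ^ ε * B' * Ht ps ^ J * Ex * Real.exp (2 * m)) / (nm g : ℝ) ^ 2 * Y' *
      (1 + |t|) ^ ((N : ℝ) * J) ≤ _
    gcongr
  -- the bias
  have hBump := bump_of_cs hpu.cs
  have hFa : FS (sqc q (alF D.z D.D0 D.P D.h ps)) := by
    rw [hD.hh]; exact HP842.FS.sqc (FS_alF hBump hD.ok D.z D.D0 ps) q
  have hFb : FS (sqc q (alF D.z D.D0 D.P D.h (rp d₀ ps))) := by
    rw [hD.hh]; exact HP842.FS.sqc (FS_alF hBump hD.ok D.z D.D0 _) q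
  have hD0' := hD.D0
  have k3 := H4 (sqc q (alF D.z D.D0 D.P D.h ps)) (sqc q (alF D.z D.D0 D.P D.h (rp d₀ ps)))
    (xs q D.z D.D0 D.P D.h d₀ ps) (zt d₀ ps) (norm_zt d₀ ps).le hFa hFb (fun n => rfl)
    (C₃ * X ^ (ε / 2) * D.D0 ^ 4 * Ht ps ^ J * Real.exp (5 / 3 * m)) (Real.exp (-s₀))
    (Real.exp D.κ) (Real.exp m) N1 Y (X ^ (2 * B₀)) J₁ (by positivity) (Real.exp_pos _).le
    (Real.exp_pos _) (Real.exp_pos _) hN1 hY (fun U => G₀ < nm (g * U)) g hg Bu V t hBu hV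
    (by
      rw [← hXB2]
      exact mul_le_mul (hVX.trans hXB) hBuX (by linarith) (by positivity)) hVN
    (fun U hU _ hU2 _ j hj hjV => by
      have hUp : IsPrim U := ((mem_S hY).1 hU).2.1
      have hgU : (nm (g * U) : ℝ) ≤ X ^ (2 * B₀) := by
        rw [nm_mul, ← hXB2]
        push_cast
        exact mul_le_mul hgX (hU2.trans hBuX) (Nat.cast_nonneg _) (by positivity)
      have hMk : Mk (X ^ (2 * B₀)) ps := (hD.mkb.mk hsb).mono hXB1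
      have := H3 X hX D.P hD.ok (hD.nP.trans hXB1) hD.np D.z D.D0 hD.D0 ps hMk hlen hz0 hLX s₀ d₀ hg0 hgd
        hlg q (g * U) j hq.ne_zero (hqX.trans hXB1) (hg.mul hUp) hgU hj.1
        (hjV.trans (by
          rw [← hXB2]
          exact mul_le_mul (hVX.trans hXB) hBuX (by linarith) (by positivity))) t
      rw [hD.hh]
      exact this) _ _ k1 k2
  refine k3.trans ?_
  have k4 := nb_le (C := C₃) (Xe := X ^ (ε / 2)) (D0 := D.D0) (HJ := Ht ps ^ J) (m := m)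
    (d₀ := s₀) (N1 := N1) (κ := D.κ) (G₀ := 1) (Bb := Bb) (by linarith) (by positivity) hHJ
    (by rw [one_mul]; exact hb)
  rw [one_mul] at k4
  have hBb : 0 ≤ Bb := by
    refine le_trans ?_ hb
    positivity
  have hP : (X ^ (2 * B₀)) ^ (ε / 2 / (2 * B₀)) = X ^ (ε / 2) := by
    rw [← Real.rpow_mul hX0.le]
    congr 1
    field_simp
  have hee : X ^ (ε / 2) * X ^ (ε / 2) = X ^ ε := by
    rw [← Real.rpow_add hX0]; congr 1; ring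
  have k5 : 3 * (C₂ * X ^ ε * B * Ht ps ^ J * Ex * Real.exp (2 * m)) +
      3 * (C₂ * X ^ ε * B' * Ht ps ^ J * Ex * Real.exp (2 * m)) +
      C₄ * (X ^ (2 * B₀)) ^ (ε / 2 / (2 * B₀)) * Nb (C₃ * X ^ (ε / 2) * D.D0 ^ 4 * Ht ps ^ J *
        Real.exp (5 / 3 * m)) (Real.exp (-s₀)) (Real.exp D.κ) (Real.exp m) N1 ≤
      (3 * C₂ + 3 * C₂ + C₄ * C₃) * X ^ ε * ((B + B') * Ex + Bb) * Ht ps ^ J *
        Real.exp (2 * m) := by
    rw [hP]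
    have h1 := mul_le_mul_of_nonneg_left k4 (by positivity : 0 ≤ C₄ * X ^ (ε / 2))
    have h2 : 0 ≤ X ^ ε * Ht ps ^ J * Real.exp (2 * m) := by positivity
    have hBE : 0 ≤ (B + B') * Ex := by positivity
    have h3 : 3 * C₂ * (B * Ex) + 3 * C₂ * (B' * Ex) + C₄ * C₃ * Bb ≤
        (3 * C₂ + 3 * C₂ + C₄ * C₃) * ((B + B') * Ex + Bb) := by
      have h4 : 0 ≤ C₄ * C₃ := by positivity
      nlinarith [mul_nonneg (by linarith : 0 ≤ C₂) hBE, mul_nonneg (by linarith : 0 ≤ C₂) hBb,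
        mul_nonneg h4 hBE]
    have h4 := mul_le_mul_of_nonneg_right h3 h2
    calc _ ≤ 3 * (C₂ * X ^ ε * B * Ht ps ^ J * Ex * Real.exp (2 * m)) +
          3 * (C₂ * X ^ ε * B' * Ht ps ^ J * Ex * Real.exp (2 * m)) +
          C₄ * X ^ (ε / 2) * (C₃ * X ^ (ε / 2) * Bb * Ht ps ^ J * Real.exp (2 * m)) := by linarith
      _ = 3 * (C₂ * X ^ ε * B * Ht ps ^ J * Ex * Real.exp (2 * m)) +
          3 * (C₂ * X ^ ε * B' * Ht ps ^ J * Ex * Real.exp (2 * m)) +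
          C₄ * C₃ * Bb * (X ^ (ε / 2) * X ^ (ε / 2)) * (Ht ps ^ J * Real.exp (2 * m)) := by ring
      _ = (3 * C₂ * (B * Ex) + 3 * C₂ * (B' * Ex) + C₄ * C₃ * Bb) *
          (X ^ ε * Ht ps ^ J * Real.exp (2 * m)) := by rw [hee]; ring
      _ ≤ _ := h4
      _ = _ := by ring
  have h5 : 0 ≤ (1 + |t|) ^ J₁ := by positivity
  gcongr

/-- **back** to the list, slope form -/
theorem x_back0m {h : ℝ → ℝ} {c : ℝ} (hpu : PU h c) (N : ℕ) {B₀ : ℝ} (hB₀ : 1 ≤ B₀) {ε : ℝ}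
    (hε : 0 < ε) {J : ℝ} (hJ : 6 ≤ J) :
    ∃ C : ℝ, 1 ≤ C ∧ ∀ X : ℝ, 3 ≤ X → ∀ D : Dat, DX h N J B₀ X D →
    ∀ (B' Bb s a Q σ'' lo s₀ d₀ : ℝ), 0 ≤ B' →
    ClXK Dk (ex0 D.κ) (Dr d₀ D) (Ge lo) B' (2 * s) a Q σ'' →
    ∀ (q : Eis) (ps : List Pf), QXm B₀ X s Q s₀ d₀ D q ps → LF ps ≤ σ'' → lo ≤ LF ps →
    ∀ k : ℝ, 0 ≤ k → k ≤ Real.log X → k ≤ D.v + (D.n - LF ps) + a →
    D.D0 ^ 4 * Real.exp (LF ps / 3 - s₀) * (Real.exp k / Real.exp D.κ) ^ (1 / 3 : ℝ) ≤ Bb →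
    SFK Dk D.z D.D0 q D.P D.h k ps ≤
      3 * VF (Real.exp k) (xs q D.z D.D0 D.P D.h d₀ ps) +
        C * X ^ ε * (B' + Bb) * Ht ps ^ J * Real.exp (ex0 D.κ k (LF ps)) := by
  obtain ⟨C₃, hC₃, H3⟩ := pb_xsm hpu N hB₀ hε hJ (J₁ := 12) le_rfl
  obtain ⟨C₄, hC₄, H4⟩ := RX241.num_back
  refine ⟨3 + C₄ * C₃, by
    have : 0 ≤ C₄ * C₃ := by positivity
    linarith, ?_⟩
  intro X hX D hD B' Bb s a Q σ'' lo s₀ d₀ hB' hCl' q ps hps hσ'' hlo k hk hkX hkv hb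
  have hX1 : (1 : ℝ) ≤ X := by linarith
  have hX0 : 0 < X := by linarith
  obtain ⟨hq, hqX, hqQ, hsb, hlg, hLX, hd₀, hs, hg0, hgd⟩ := hps
  have hps' : QXm B₀ X s Q s₀ d₀ D q ps := ⟨hq, hqX, hqQ, hsb, hlg, hLX, hd₀, hs, hg0, hgd⟩
  have hHt := one_le_Ht ps
  have hz0 := hsb.z_nonneg
  have hlen : ps.length ≤ N := hsb.length ▸ hD.len
  have hXe : 1 ≤ X ^ ε := Real.one_le_rpow hX1 hε.le
  have hHJ : 0 ≤ Ht ps ^ J := Real.rpow_nonneg (by linarith) _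
  have hD0' := hD.D0
  set m := LF ps with hm
  -- the replaced list
  have k2 : VK Dk (Real.exp k) (sqc q (alF D.z D.D0 D.P D.h (rp d₀ ps))) ≤
      B' * Ht ps ^ J * Real.exp (ex0 D.κ k m) := by
    have h1 := hCl' q (rp d₀ ps) k hq hps'.qQr (by
      show lo ≤ LF (rp d₀ ps)
      rw [LF_rp]; exact hlo) hps'.sbr (by rw [LF_rp]; exact hσ'') hk (by
        rw [LF_rp]; exact hkv)
    rw [LF_rp, Ht_rp] at h1
    refine (show VK Dk (Real.exp k) (sqc q (alF D.z D.D0 D.P D.h (rp d₀ ps))) ≤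
      B' * Ht ps ^ D.J * Real.exp (ex0 D.κ k m) from h1).trans ?_
    rw [hD.J]
  have hBump := bump_of_cs hpu.cs
  have hFa : FS (sqc q (alF D.z D.D0 D.P D.h ps)) := by
    rw [hD.hh]; exact HP842.FS.sqc (FS_alF hBump hD.ok D.z D.D0 ps) q
  have hFb : FS (sqc q (alF D.z D.D0 D.P D.h (rp d₀ ps))) := by
    rw [hD.hh]; exact HP842.FS.sqc (FS_alF hBump hD.ok D.z D.D0 _) q
  have hekX : Real.exp k ≤ X := by
    rw [← Real.exp_log hX0]; exact Real.exp_le_exp.2 hkX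
  have hXB : X ≤ X ^ B₀ := by
    conv_lhs => rw [← Real.rpow_one X]
    exact Real.rpow_le_rpow_of_exponent_le hX1 hB₀
  have k3 := H4 (sqc q (alF D.z D.D0 D.P D.h ps)) (sqc q (alF D.z D.D0 D.P D.h (rp d₀ ps)))
    (xs q D.z D.D0 D.P D.h d₀ ps) (zt d₀ ps) (norm_zt d₀ ps).le hFa hFb (fun n => rfl)
    (C₃ * X ^ ε * D.D0 ^ 4 * Ht ps ^ J * Real.exp (5 / 3 * m) * Real.exp (-s₀)) (Real.exp k)
    (Real.one_le_exp hk) (fun j hj hjV => by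
      have h1 := H3 X hX D.P hD.ok hD.nP hD.np D.z D.D0 hD.D0 ps (hD.mkb.mk hsb) hlen hz0 hLX s₀ d₀
        hg0 hgd hlg q 1 j hq.ne_zero hqX isPrim_one (by
          rw [nm_one, Nat.cast_one]
          exact hX1.trans hXB) hj.1 ((hjV.trans hekX).trans hXB) 0
      rw [RX241.ts_one, nm_one, Nat.cast_one, Real.one_rpow, mul_one, one_mul, abs_zero, add_zero,
        Real.one_rpow, mul_one] at h1
      rw [hD.hh]
      refine h1.trans ?_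
      have h2 : 0 ≤ C₃ * X ^ ε * D.D0 ^ 4 * Ht ps ^ J * Real.exp (5 / 3 * m) := by positivity
      exact mul_le_mul_of_nonneg_left (min_le_right _ _) h2)
  have hbias : Real.exp k ^ ((2 : ℝ) / 3) *
      (C₃ * X ^ ε * D.D0 ^ 4 * Ht ps ^ J * Real.exp (5 / 3 * m) * Real.exp (-s₀)) ≤
      C₃ * X ^ ε * Bb * Ht ps ^ J * Real.exp (ex0 D.κ k m) := by
    have e1 : (Real.exp k / Real.exp D.κ) ^ (1 / 3 : ℝ) = Real.exp ((k - D.κ) / 3) := by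
      rw [← Real.exp_sub, ← Real.exp_mul]; congr 1; ring
    have e2 : Real.exp k ^ ((2 : ℝ) / 3) = Real.exp (2 / 3 * k) := by
      rw [← Real.exp_mul]; congr 1; ring
    have e3 : Real.exp (2 / 3 * k) * Real.exp (5 / 3 * m) * Real.exp (-s₀) =
        Real.exp (m / 3 - s₀) * Real.exp ((k - D.κ) / 3) * Real.exp (ex0 D.κ k m) := by
      rw [← Real.exp_add, ← Real.exp_add, ← Real.exp_add, ← Real.exp_add]
      congr 1
      unfold ex0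
      ring
    rw [e1] at hb
    rw [e2]
    have hBb : 0 ≤ Bb := by
      refine le_trans ?_ hb
      positivity
    calc Real.exp (2 / 3 * k) *
          (C₃ * X ^ ε * D.D0 ^ 4 * Ht ps ^ J * Real.exp (5 / 3 * m) * Real.exp (-s₀)) =
        C₃ * X ^ ε * D.D0 ^ 4 * Ht ps ^ J *
          (Real.exp (2 / 3 * k) * Real.exp (5 / 3 * m) * Real.exp (-s₀)) := by ring
      _ = C₃ * X ^ ε * Ht ps ^ J * (D.D0 ^ 4 * Real.exp (m / 3 - s₀) *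
          Real.exp ((k - D.κ) / 3)) * Real.exp (ex0 D.κ k m) := by rw [e3]; ring
      _ ≤ C₃ * X ^ ε * Ht ps ^ J * Bb * Real.exp (ex0 D.κ k m) := by gcongr
      _ = _ := by ring
  have hBb : 0 ≤ Bb := by
    refine le_trans ?_ hb
    positivity
  have hE0 : 0 ≤ Ht ps ^ J * Real.exp (ex0 D.κ k m) := by positivity
  show VK Dk (Real.exp k) (sqc q (alF D.z D.D0 D.P D.h ps)) ≤ _
  refine k3.trans ?_
  have k5 := mul_le_mul_of_nonneg_left hbias hC₄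
  have k6 : 3 * (B' * Ht ps ^ J * Real.exp (ex0 D.κ k m)) +
      C₄ * (C₃ * X ^ ε * Bb * Ht ps ^ J * Real.exp (ex0 D.κ k m)) ≤
      (3 + C₄ * C₃) * X ^ ε * (B' + Bb) * Ht ps ^ J * Real.exp (ex0 D.κ k m) := by
    have h1 : 3 * B' + C₄ * C₃ * X ^ ε * Bb ≤ (3 + C₄ * C₃) * X ^ ε * (B' + Bb) := by
      have h2 : 0 ≤ C₄ * C₃ := by positivity
      have h3 : B' ≤ X ^ ε * B' := le_mul_of_one_le_left hB' hXe
      have h4 : 0 ≤ X ^ ε * Bb := by positivity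
      have h5 : 0 ≤ C₄ * C₃ * (X ^ ε * B') := by positivity
      nlinarith
    calc _ = (3 * B' + C₄ * C₃ * X ^ ε * Bb) * (Ht ps ^ J * Real.exp (ex0 D.κ k m)) := by ring
      _ ≤ ((3 + C₄ * C₃) * X ^ ε * (B' + Bb)) * (Ht ps ^ J * Real.exp (ex0 D.κ k m)) :=
          mul_le_mul_of_nonneg_right h1 hE0
      _ = _ := by ring
  linarith

/-- **back** to the list -/
theorem x_backm {h : ℝ → ℝ} {c : ℝ} (hpu : PU h c) (N : ℕ) {B₀ : ℝ} (hB₀ : 1 ≤ B₀) {ε : ℝ}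
    (hε : 0 < ε) {J : ℝ} (hJ : 6 ≤ J) :
    ∃ C : ℝ, 1 ≤ C ∧ ∀ X : ℝ, 3 ≤ X → ∀ D : Dat, DX h N J B₀ X D →
    ∀ (B' Bb s a Q σ'' lo s₀ d₀ : ℝ), 0 ≤ B' →
    ClXK Dk (ex0 D.κ) (Dr d₀ D) (Ge lo) B' (2 * s) a Q σ'' →
    ∀ (q : Eis) (ps : List Pf), QXm B₀ X s Q s₀ d₀ D q ps → LF ps ≤ σ'' → lo ≤ LF ps →
    ∀ k : ℝ, 0 ≤ k → k ≤ Real.log X → k ≤ D.v + (D.n - LF ps) + a →
    D.D0 ^ 4 * Real.exp (LF ps / 3 - s₀) * (Real.exp k / Real.exp D.κ) ^ (1 / 3 : ℝ) ≤ Bb →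
    SFK Dk D.z D.D0 q D.P D.h k ps ≤
      3 * VF (Real.exp k) (xs q D.z D.D0 D.P D.h d₀ ps) +
        C * X ^ ε * (B' + Bb) * Ht ps ^ J * Real.exp (fl D.κ k (LF ps)) := by
  obtain ⟨C, hC, H⟩ := x_back0m hpu N hB₀ hε hJ
  refine ⟨C, hC, ?_⟩
  intro X hX D hD B' Bb s a Q σ'' lo s₀ d₀ hB' hCl' q ps hps hσ'' hlo k hk hkX hkv hb
  refine (H X hX D hD B' Bb s a Q σ'' lo s₀ d₀ hB' hCl' q ps hps hσ'' hlo k hk hkX hkv hb).trans ?_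
  have h1 := Real.exp_le_exp.2 (ex0_le_fl D.κ k (LF ps))
  have hHt := one_le_Ht ps
  have hHJ : 0 ≤ Ht ps ^ J := Real.rpow_nonneg (by linarith) _
  have hBb : 0 ≤ Bb := by
    refine le_trans ?_ hb
    have := hD.D0
    positivity
  gcongr

/-- **the number (SA0)** of the difference, in the form of the lower bound -/
theorem x_sa0m {h : ℝ → ℝ} {c : ℝ} (hpu : PU h c) (N : ℕ) {B₀ : ℝ} (hB₀ : 1 ≤ B₀)
    {ε J : ℝ} {Jn : ℕ} (hε : 0 < ε) (hJ : 6 ≤ J) (hJn : (N : ℝ) * J ≤ Jn) (hJ12 : 12 ≤ Jn) :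
    ∃ C r : ℝ, 1 ≤ C ∧ 0 ≤ r ∧ ∀ X : ℝ, 3 ≤ X → ∀ D : Dat, DX h N J B₀ X D →
    ∀ (B B' bb s a Q q₀ σ'' lo g₀ s₀ d₀ : ℝ), 0 ≤ B → 0 ≤ B' → 0 ≤ g₀ → Real.exp r ≤ q₀ →
    ClXK Dk (ex0 D.κ) D (Ge lo) B (s + r) (a + r) (Q * q₀) σ'' →
    ClXK Dk (ex0 D.κ) (Dr d₀ D) (Ge lo) B' (2 * s + r) (a + r) (Q * q₀) σ'' →
    ∀ (q : Eis) (ps : List Pf) (Z : ℝ), QXm B₀ X s Q s₀ d₀ D q ps → LF ps + r ≤ σ'' →
    lo + g₀ + N * Real.log D.D0 + r ≤ LF ps → Z * Real.exp g₀ ≤ X → 0 < Z →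
    Real.log Z ≤ D.v + (D.n - LF ps) + a →
    g₀ + 4 * Real.log D.D0 - s₀ + (LF ps + Real.log Z - D.κ) / 3 ≤ bb →
    ∀ g ∈ S X, (nm g : ℝ) ≤ Real.exp g₀ → ∀ V : ℝ, 1 ≤ V → V ≤ Z * nm g → ∀ t : ℝ,
    VF V (tws (sg (xs q D.z D.D0 D.P D.h d₀ ps) g) t) ≤
      (C * X ^ ε * (B + B' + Real.exp bb) * Ht ps ^ J * Real.exp (2 * LF ps)) /
        (nm g : ℝ) ^ 2 *
        ((V * Real.exp D.κ / (Real.exp (LF ps) / nm g) ^ 2) ^ (1 / 3 : ℝ)) * (1 + |t|) ^ Jn := by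
  have hJ12' : (12 : ℝ) ≤ Jn := by exact_mod_cast hJ12
  obtain ⟨C, r, hC, hr, H⟩ := x_numS0m hpu N hB₀ hε hJ hJ12' hJn
  refine ⟨C, r, hC, hr, ?_⟩
  intro X hX D hD B B' bb s a Q q₀ σ'' lo g₀ s₀ d₀ hB hB' hg₀ hq₀ hCl hClr q ps Z hps hσ hlo hZX hZ0
    hZ hbb g hg hgG V hV hVZ t
  have hX1 : (1 : ℝ) ≤ X := by linarith
  have hX0 : 0 < X := by linarith
  have hg' := (mem_S hX0.le).1 hg
  have hgp := hg'.2.1
  have hng : (0 : ℝ) < nm g := by exact_mod_cast nm_pos.2 hgp.ne_zero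
  have hlg : Real.log (nm g) ≤ g₀ := by
    rw [← Real.log_exp g₀]; exact Real.log_le_log hng hgG
  have hV0 : 0 < V := by linarith
  have hXB : X ≤ X ^ B₀ := by
    calc X = X ^ (1 : ℝ) := (Real.rpow_one X).symm
      _ ≤ X ^ B₀ := Real.rpow_le_rpow_of_exponent_le hX1 hB₀
  have h1 := H X hX D hD B B' (Real.exp bb) s a Q q₀ σ'' lo s₀ d₀ hB hB' hq₀ hCl hClr q ps hps hσ
    g t V Z (Real.exp g₀) hgp (hg'.1.trans hXB) hgG (by linarith) hV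
    (by
      have : Z * nm g ≤ Z * Real.exp g₀ := mul_le_mul_of_nonneg_left hgG hZ0.le
      linarith) hZ0
    (by
      have : 0 ≤ Z * nm g := by positivity
      linarith)
    (by
      have h2 := Real.log_le_log hV0 hVZ
      rw [Real.log_mul hZ0.ne' hng.ne'] at h2
      linarith)
    (bias_exp hD.D0 hZ0 (by rw [Real.exp_log hZ0]) hbb)
  rw [Real.rpow_natCast] at h1
  exact h1

/-- **the number (L+)** of the difference, in the form of the lower bound -/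
theorem x_lpm {h : ℝ → ℝ} {c : ℝ} (hpu : PU h c) (N : ℕ) {B₀ : ℝ} (hB₀ : 1 ≤ B₀)
    {ε J : ℝ} {Jn : ℕ} (hε : 0 < ε) (hJ : 6 ≤ J) (hJn : (N : ℝ) * J ≤ Jn) (hJ12 : 12 ≤ Jn) :
    ∃ C r : ℝ, 1 ≤ C ∧ 0 ≤ r ∧ ∀ X : ℝ, 3 ≤ X → ∀ D : Dat, DX h N J B₀ X D →
    ∀ (B B' bb s a Q q₀ cc lo' x₁ g₀ s₀ d₀ : ℝ), 0 ≤ B → 0 ≤ B' → Real.exp r ≤ q₀ → 0 ≤ a →
    lo' ≤ 0 → 0 ≤ x₁ →
    ClNK Dk D (exJ D.κ D.v D.n cc) B (s + r) (a + r) (Q * q₀) lo' (D.n - cc + x₁) →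
    ClNK Dk (Dr d₀ D) (exJ D.κ D.v D.n cc) B' (2 * s + r) (a + r) (Q * q₀) lo'
      (D.n - cc + x₁) →
    ∀ (q : Eis) (ps : List Pf) (Z : ℝ), QXm B₀ X s Q s₀ d₀ D q ps → D.n - cc ≤ LF ps →
    LF ps - g₀ + r ≤ D.n - cc + x₁ → 0 < Z → Z ≤ X → Real.log Z ≤ D.v + (D.n - LF ps) + a →
    4 * Real.log D.D0 - s₀ + (LF ps + Real.log Z - D.κ) / 3 ≤ bb →
    ∀ g ∈ S X, ∀ Bu V : ℝ, 1 ≤ Bu → Bu ≤ X → 1 ≤ V → V ≤ Z / (nm g : ℝ) ^ 2 → ∀ t : ℝ,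
    JB X (xs q D.z D.D0 D.P D.h d₀ ps) (fun U => Real.exp g₀ < nm (g * U)) g Bu V t ≤
      (C * X ^ ε * ((B + B') * Real.exp (N * Real.log D.D0 + a) + Real.exp bb) * Ht ps ^ J *
        Real.exp (2 * LF ps)) / (nm g : ℝ) ^ 2 * yv (Real.exp D.κ) (Real.exp (LF ps)) g V *
        (1 + |t|) ^ Jn := by
  have hJ12' : (12 : ℝ) ≤ Jn := by exact_mod_cast hJ12
  obtain ⟨C, r, hC, hr, H⟩ := x_numLm hpu N hB₀ hε hJ hJ12' hJn
  refine ⟨C, r, hC, hr, ?_⟩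
  intro X hX D hD B B' bb s a Q q₀ cc lo' x₁ g₀ s₀ d₀ hB hB' hq₀ ha hlo' hx₁ hCl hClr q ps Z hps
    hcc hgc hZ0 hZX hZ hbb g hg Bu V hBu hBuX hV hVZ t
  have hX1 : (1 : ℝ) ≤ X := by linarith
  have hX0 : 0 < X := by linarith
  have hg' := (mem_S hX0.le).1 hg
  have hgp := hg'.2.1
  have hng : (0 : ℝ) < nm g := by exact_mod_cast nm_pos.2 hgp.ne_zero
  have hng1 : (1 : ℝ) ≤ nm g := by exact_mod_cast nm_pos.2 hgp.ne_zero
  have hV0 : 0 < V := by linarith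
  have hXB : X ≤ X ^ B₀ := by
    calc X = X ^ (1 : ℝ) := (Real.rpow_one X).symm
      _ ≤ X ^ B₀ := Real.rpow_le_rpow_of_exponent_le hX1 hB₀
  have hVN' : V * (nm g : ℝ) ^ 2 ≤ Z := (le_div_iff₀ (by positivity)).1 hVZ
  have hb1 := bias_exp (g₀ := 0) (m := LF ps) (κ := D.κ) (L := Real.log Z) hD.D0 hZ0
    (by rw [Real.exp_log hZ0]) (by linarith : 0 + 4 * Real.log D.D0 - s₀ +
      (LF ps + Real.log Z - D.κ) / 3 ≤ bb)
  rw [Real.exp_zero, one_mul] at hb1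
  have h1 := H X hX D hD B B' (Real.exp bb) s a Q q₀ cc lo' x₁ s₀ d₀ hB hB' hq₀ ha hlo' hx₁ hCl hClr
    q ps hps hcc g X (Real.exp g₀) Bu t V Z hgp (hg'.1.trans hXB) hX0.le hBu (hBuX.trans hXB)
    (Real.exp_pos _) (by rw [Real.log_exp]; exact hgc) hV
    (by
      have : V * 1 ≤ V * (nm g : ℝ) ^ 2 := mul_le_mul_of_nonneg_left (one_le_pow₀ hng1) hV0.le
      linarith) hZ0
    (by
      refine hVZ.trans ?_
      have : Z ≤ 9 * Z := by linarith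
      gcongr)
    (by
      have h2 := Real.log_le_log (by positivity) hVN'
      rw [Real.log_mul hV0.ne' (by positivity), Real.log_pow] at h2
      push_cast at h2
      linarith) hb1
  rw [Real.rpow_natCast] at h1
  exact h1

end Crest.Agent.R017.RX298
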