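import Crest.Agent.R017.N2bX_298
import Crest.Agent.R017.N2c_106
import Crest.Agent.R017.N2cX_320
import Crest.Agent.R017.NRS_359
import Crest.Agent.R017.RX8_298

/-!
# Row 17, FlatNE class E (helper320): the real side of the compensated E2, the difference

* `PLsX` : the pair line at all cells, frequencies not cubes (106's `PLs` with `PM2Q NCube`)
* `pv_xs3` : the principal value of the difference with the short length `s₀` (502's `pv_xs`)
* **`rpg_oneX`** : 146's `RPg` of a difference of flagged lists at one scale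
-/

set_option autoImplicit false
set_option linter.unusedVariables false
set_option maxHeartbeats 3200000

noncomputable section

open Finset
open scoped ComplexConjugate

namespace Crest.Agent.R017.N2X320

open Crest.Agent.R012 Crest.Agent.R012.Eis
open Crest.Agent.R012.LS2 (S mem_S)
open Crest.Agent.R012.Div277 (dvs mem_dvs)
open Crest.Agent.R012.Mob705 (pdiv mem_pdiv)
open Crest.Agent.R012.T411 (NCube)
open Crest.Agent.R017.B770
open Crest.Agent.R017.Prov71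
open Crest.Agent.R017.CM106 (CS FS)
open Crest.Agent.R017.FE47 (cx PU)
open Crest.Agent.R017.HP842 (pc sqc)
open Crest.Agent.R017.Leg381 (alf alF Pf LF LF_get)
open Crest.Agent.R017.RG64 (LF_cons LF_nonneg Ht)
open Crest.Agent.R017.XRG106
open Crest.Agent.R017.X6C180 (IX dl' Sg GF om')
open Crest.Agent.R017.X6545 (TF Bd)
open Crest.Agent.R017.X6W180 (TF1 tf1_tf)
open Crest.Agent.R017.Win813 (iA iA_nonneg WK)
open Crest.Agent.R017.RGw813 (T9)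
open Crest.Agent.R017.MoF106
open Crest.Agent.R017.MoL106
open Crest.Agent.R017.QsO83 (bw FS_bw)
open Crest.Agent.R017.E2440
open Crest.Agent.R017.GKC739 (one_le_nmR)
open Crest.Agent.R017.NPy739 (opL opL_nonneg)
open Crest.Agent.R017.MTL537 (ML ML_mono ML_nonneg)
open Crest.Agent.R017.RC106 (k9 bw_win win_dy opL_mono Bd_mono)
open Crest.Agent.R017.RXa739 (PMHQ)
open Crest.Agent.R017.P1Re440 (SzP)
open Crest.Agent.R017.LBx48 (neb)
open Crest.Agent.R017.I1146 (RW RPg RPg_Qs)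
open Crest.Agent.R017.NE73 (flK)
open Crest.Agent.R017.R2N777 (ThN StN fl_le)
open Crest.Agent.R017.RQd385 (PM2Q)
open Crest.Agent.R017.PrD502 (PV Mu pv_xr xs_xr)
open Crest.Agent.R017.PrE176 (PJm)
open Crest.Agent.R017.NRS359 (prin_cell3)
open Crest.Agent.R017.RX298 (xs rp zt norm_zt LF_rp rp_length Lg3 Mk)
open Crest.Agent.R017.Sup271 (NPm)
open Crest.Agent.R017.N2106 (k9_nonneg log10_le log4_le polar_exp polar_lin)
open Crest.Agent.R017.N2X298 (Qs_N2x)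

/-- **the pair line at all cells**, frequencies not cubes -/
def PLsX (P : DPar) (h : ℝ → ℝ) (μ C : ℝ) {r : ℕ} (s : Fin r → Pq)
    (n K Lv hh Dm Em m Bb : ℝ) : Prop :=
  ∀ (s' : Fin r → Pq) (W0 : ℝ), 1 ≤ W0 → (∀ k, Rl C W0 (s' k) (s k)) →
    ∀ i b g d₀ ν a e v : ℝ, 0 ≤ i → 0 ≤ b → 0 ≤ g → 0 ≤ d₀ → 0 ≤ ν → 0 ≤ a → a ≤ d₀ → 0 ≤ e →
    0 ≤ v → d₀ + ν ≤ Dm → e ≤ Em → v + 2 * (d₀ + ν) ≤ Lv + m → 2 * g ≤ e + a + i →
    ∑ k, (s' k).z + (d₀ + b + g) ≤ n + m →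
    i ≤ v + n - K + hh + 2 * (e + a) + 2 * ν - d₀ + b + m → i ≤ K - (e + a) - 2 * b + m →
    PM2Q NCube P h (e + a + i - 2 * g) (b + g) (List.ofFn s') ≤ Bb * W0 ^ (2 * μ) *
      Real.exp (2 * (K + n) - ThN K n (d₀ + ν) e v - (d₀ + ν - a +
        (max (v + e + a + ν) (max i (2 / 3 * (v + e + a + i))) - i)) -
        (n - d₀ - b - ∑ k, (s' k).z) - K / 500)

lemma PLsX.mono {P : DPar} {h : ℝ → ℝ} {μ C C' : ℝ} {r : ℕ} {s : Fin r → Pq}
    {n K Lv hh Dm Em m Bb : ℝ} (H : PLsX P h μ C' s n K Lv hh Dm Em m Bb) (hC : C ≤ C') :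
    PLsX P h μ C s n K Lv hh Dm Em m Bb :=
  fun s' W0 hW hR => H s' W0 hW fun k => (hR k).mono hC

/-- **the principal value of the difference** with the short length `s₀` -/
theorem pv_xs3 {h : ℝ → ℝ} {c : ℝ} (hpu : PU h c) (N : ℕ) {B : ℝ} (hB : 0 ≤ B) {ε : ℝ}
    (hε : 0 < ε) :
    ∃ C : ℝ, 1 ≤ C ∧ ∀ X : ℝ, 3 ≤ X → ∀ P : DPar, P.OK → (nm P.n : ℝ) ≤ X ^ B →
      (∀ k : Eis, k ≠ 0 → (∃ c, k = c ^ 3) → ¬ NPm P.n P.ψ P.l₂ k) →
      ∀ z D0 : ℝ, 1 ≤ D0 → ∀ ps : List Pf, Mk (X ^ B) ps → ps.length ≤ N →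
      (∀ p ∈ ps, 0 ≤ p.1.z) → LF ps ≤ B * Real.log X → ∀ s₀ d₀ : ℝ, s₀ ≤ d₀ → Lg3 s₀ d₀ ps →
      ∀ q : Eis, q ≠ 0 → (nm q : ℝ) ≤ X ^ B →
      PV (fun H => ∃ c, H = c ^ 3) 6 (C * X ^ ε * D0 ^ 2 * Ht ps ^ 3 * Real.exp (LF ps)) s₀
        (X ^ B) (xs q z D0 P h d₀ ps) := by
  obtain ⟨C, hC, H⟩ := pv_xr hpu N hB hε
  refine ⟨C, hC, ?_⟩
  intro X hX P hP hPn hnp z D0 hD0 ps hps hlen hz hL s₀ d₀ hsd hLg q hq hqX
  match ps, hps, hlen, hz, hL, hLg with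
  | [], h, _, _, _, _ => exact h.elim
  | [_], h, _, _, _, _ => exact h.elim
  | p :: p' :: l, hps, hlen, hz, hL, hLg =>
    obtain ⟨a1, a2, a3, a4, a5, a6⟩ := hps
    obtain ⟨b1, b2, b3⟩ := hLg
    have hz1 := hz p List.mem_cons_self
    have hz2 := hz p' (List.mem_cons_of_mem _ List.mem_cons_self)
    have hl : 0 ≤ LF l := LF_nonneg fun x hx =>
      hz x (List.mem_cons_of_mem _ (List.mem_cons_of_mem _ hx))
    have hLF : LF (p :: p' :: l) = p.1.z + (p'.1.z + LF l) := by rw [LF_cons, LF_cons]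
    have hn12 : l.length ≤ N := by
      have : (p :: p' :: l).length = l.length + 2 := rfl
      omega
    rw [xs_xr]
    exact H X hX P (OKi848.OKi.of hP) hP.ψ hPn hnp z D0 hD0 p p' l a1 a2 a3 a4 a5 a6 hn12
      (by linarith) d₀ s₀ b1 b2 b3 hsd (by linarith) q hq hqX

/-- the difference has finite primary support -/
lemma FS_xs {h : ℝ → ℝ} {R : ℝ} (hR : ∀ u, cx h u ≠ 0 → |u| ≤ R) {P : DPar} (hP : P.OK)
    (q : Eis) (z D0 d₁ : ℝ) (ps : List Pf) : FS (xs q z D0 P h d₁ ps) := by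
  have h1 : FS (sqc q (alF z D0 P h ps)) := HP842.FS.sqc (RG64.FS_alF ⟨R, hR⟩ hP z D0 ps) q
  have h2 : FS (sqc q (alF z D0 P h (rp d₁ ps))) :=
    HP842.FS.sqc (RG64.FS_alF ⟨R, hR⟩ hP z D0 (rp d₁ ps)) q
  refine ⟨(h1.fin.union h2.fin).subset fun n hn => ?_, fun n hn => ?_⟩
  · by_cases h3 : sqc q (alF z D0 P h ps) n = 0
    · by_cases h4 : sqc q (alF z D0 P h (rp d₁ ps)) n = 0
      · exfalso
        apply hn
        show sqc q (alF z D0 P h ps) n - zt d₁ ps * sqc q (alF z D0 P h (rp d₁ ps)) n = 0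
        rw [h3, h4, mul_zero, sub_zero]
      · exact Or.inr h4
    · exact Or.inl h3
  · by_cases h3 : sqc q (alF z D0 P h ps) n = 0
    · by_cases h4 : sqc q (alF z D0 P h (rp d₁ ps)) n = 0
      · exfalso
        apply hn
        show sqc q (alF z D0 P h ps) n - zt d₁ ps * sqc q (alF z D0 P h (rp d₁ ps)) n = 0
        rw [h3, h4, mul_zero, sub_zero]
      · exact h2.prim n h4
    · exact h1.prim n h3

lemma sqf_xs {h : ℝ → ℝ} {R : ℝ} (hR : ∀ u, cx h u ≠ 0 → |u| ≤ R) {P : DPar}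
    (q : Eis) (z D0 d₁ : ℝ) (ps : List Pf) {n : Eis} (hn : xs q z D0 P h d₁ ps n ≠ 0) :
    Squarefree n := by
  by_cases h3 : sqc q (alF z D0 P h ps) n = 0
  · by_cases h4 : sqc q (alF z D0 P h (rp d₁ ps)) n = 0
    · exfalso
      apply hn
      show sqc q (alF z D0 P h ps) n - zt d₁ ps * sqc q (alF z D0 P h (rp d₁ ps)) n = 0
      rw [h3, h4, mul_zero, sub_zero]
    · exact (AL813.al_supp hR z D0 P q (rp d₁ ps) h4).2.1
  · exact (AL813.al_supp hR z D0 P q ps h3).2.1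

lemma kw_nine {p : ℕ × ℕ} (hp : p ∈ T9) : (nm (kw p) : ℝ) ≤ 9 := by
  have h1 := RC106.nm_kw hp
  rw [sq, nm_mul] at h1
  push_cast at h1
  by_contra hc
  push Not at hc
  have h2 : (9 : ℝ) * 9 < nm (kw p) * nm (kw p) :=
    mul_lt_mul'' hc hc (by norm_num) (by norm_num)
  linarith

/-- the premise of the cells from the pair line -/
lemma pmhq_of {h : ℝ → ℝ} {μ C C' : ℝ} {P : DPar} {r : ℕ} {s : Fin r → Pq}
    {n K Lv hh Dm Em m Bb d₀ ν a le v i1 i2 Tn ks s1 e₀ LV : ℝ}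
    (hln : PLsX P h μ C' s n K Lv hh Dm Em m Bb) (hCC : C ≤ C') (hCe : C ≤ e₀) (hBb : 0 ≤ Bb)
    (hSS : ∑ k, (s k).z = n) (d00 : 0 ≤ d₀) (ν0 : 0 ≤ ν) (a0 : 0 ≤ a) (had : a ≤ d₀)
    (le0 : 0 ≤ le) (v0 : 0 ≤ v) (hk0 : 0 ≤ ks) (hks : ks ≤ e₀) (hDm : d₀ + ν ≤ Dm)
    (hEm : le ≤ Em) (hvD : v + 2 * (d₀ + ν) ≤ Lv + m) (hs1 : s1 = le + a + ks)
    (hi1 : i1 + ks + 2 / 3 ≤ v + n - K + hh + 2 * (le + a) + 2 * ν - d₀ + m)
    (hi2 : i2 + ks + 4 / 3 ≤ K - (le + a) + m) (he10 : 10 ≤ e₀) (hm4 : 4 * e₀ ≤ m)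
    (hLV : LV = v + le + a)
    (hTn : Tn = 2 * (K + n) - ThN K n (d₀ + ν) le v - (d₀ + ν) + a - K / 500 + ks + 2 / 3) :
    PMHQ h μ C P s LV d₀ ν i1 i2 s1 Bb Tn := by
  intro i' b g νn s' W0 hi' hb hg hνn hνn2 h1 h2 h3 hW hRl hsum
  rw [hSS] at hsum ⊢
  rw [hs1] at h3
  have hq1 := hln s' W0 hW (fun k => (hRl k).mono hCC) (i' + ks)
    (b + 2 / 3) g d₀ ν a le v (by linarith) (by linarith) hg d00 ν0 a0 had le0 v0
    hDm hEm hvD (by linarith) (by linarith) (by linarith)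
    (by linarith)
  have e1 : le + a + (i' + ks) - 2 * g = i' + s1 - 2 * g := by rw [hs1]; ring
  rw [e1] at hq1
  refine hq1.trans (mul_le_mul_of_nonneg_left (Real.exp_le_exp.2 ?_)
    (mul_nonneg hBb (Real.rpow_nonneg (by linarith) _)))
  rw [hTn, hLV]
  have hm1 : νn + nr (v + le + a) (i' - 3 * νn) ≤
      max (v + le + a + ν) (max (i' + ks) (2 / 3 * (v + le + a + (i' + ks)))) := by
    have a1 := le_max_left (v + le + a + ν)
      (max (i' + ks) (2 / 3 * (v + le + a + (i' + ks))))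
    have a2 := (le_max_left (i' + ks) (2 / 3 * (v + le + a + (i' + ks)))).trans
      (le_max_right (v + le + a + ν) _)
    have a3 := (le_max_right (i' + ks) (2 / 3 * (v + le + a + (i' + ks)))).trans
      (le_max_right (v + le + a + ν) _)
    have : nr (v + le + a) (i' - 3 * νn) ≤ max (v + le + a + ν) (max (i' + ks)
        (2 / 3 * (v + le + a + (i' + ks)))) - νn := by
      unfold MoL106.nr
      refine max_le (by linarith) (max_le (by linarith) (by linarith))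
    linarith
  linarith

/-- **`RPg` of a difference of flagged lists at one scale**, from the pair lines of the two lists
and the principal value -/
theorem rpg_oneX {h : ℝ → ℝ} {c₀ : ℝ} (hpu : PU h c₀) {R : ℝ} (hR0 : 0 ≤ R)
    (hR : ∀ u, cx h u ≠ 0 → |u| ≤ R) {μ : ℝ} (hμ : 0 ≤ μ) (N : ℕ) {ε : ℝ} (hε : 0 < ε)
    (hε2 : ε ≤ 1) (A' : ℕ) (hA' : 2 * (N * μ) + 2 ≤ A') (hA12 : 12 ≤ A') :
    ∃ (k bz : ℕ) (Cz C : ℝ), 1 ≤ Cz ∧ 1 ≤ C ∧
      ∀ (F : ℝ → ℂ) (Sf : ℝ), TF1 F → Bd F k Sf → ∀ hh : ℝ, 0 ≤ hh →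
      ∀ Cφ η : ℝ, 0 ≤ Cφ → 0 < η → η ≤ 1 / 2 → ∀ φ : ℝ → ℝ, WK Cφ η A' φ → ∀ X' : ℝ, 0 < X' →
      (∀ u, φ u ≠ 0 → |u - Real.log X'| ≤ η / 2) → ∀ p ∈ T9, ∀ (t₀ : ℝ)
      (P : DPar) (_ : P.OK) (ps : List Pf) (d₁ : ℝ), ps.length ≤ N → (∀ x ∈ ps, 0 ≤ x.1.z) →
      (∀ x ∈ rp d₁ ps, 0 ≤ x.1.z) → ∀ z D0 : ℝ, 1 ≤ D0 → ∀ q : Eis, IsPrim q →
      ∀ (e₀ Pz Z Kf D₁ E0 Ax Ap B₁ s₀ Zv : ℝ) (I : ℕ)
      (K Lv m₁ m s t₅ t₂ w Bb Bb' cρ : ℝ) (ρ : Eis → Eis → ℝ → ℝ), RW ρ cρ →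
      (∀ (δ e : Eis) (V : ℝ), IsPrim δ → IsPrim e → 1 ≤ V →
        Real.exp (4 / 3 * LF ps + (K + Real.log V) / 3 - 4 / 3 * Real.log (nm δ) -
          flK K (Real.log V + Real.log (nm e)) (LF ps - Real.log (nm δ) - Real.log (nm e)) - s) ≤
        ρ δ e V) →
      (∀ n, ‖bw φ p t₀ (xs q z D0 P h d₁ ps) n‖ ≤ Ax) → Ax ≤ Pz →
      0 ≤ Ap → Ap ≤ B₁ * Real.exp (LF ps) → Cz * Pz ^ bz ≤ Zv →
      PV (fun H => ∃ c, H = c ^ 3) 6 Ap s₀ Zv (xs q z D0 P h d₁ ps) →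
      0 < Kf → |Real.log Kf - K| ≤ e₀ → |Real.log X' - LF ps| ≤ e₀ - 1 →
      (2 : ℝ) ^ I ≤ 2 * Z → 0 < Z → Real.log Z ≤ Lv + e₀ → 1 ≤ D₁ → 1 ≤ E0 →
      10 ≤ e₀ → k9 ≤ e₀ → C ≤ e₀ → ε / 2 * Real.log Pz + 4 * e₀ ≤ m₁ → m₁ ≤ m → 2000 * m ≤ K →
      0 ≤ Lv → 5 * LF ps ≤ 4 * K + m → 3 * K ≤ 4 * LF ps + m → 5 * (Lv + LF ps) ≤ 7 * K + m →
      3 * Lv ≤ 2 * K + m → 14 * hh ≤ K → 19 * Real.log D₁ ≤ K → 40 * Real.log E0 ≤ K →
      K + Lv + 2 * LF ps + 20 * m ≤ Real.log Pz → D0 ^ N ≤ Pz → (nm q : ℝ) ≤ Pz →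
      (∀ x ∈ ps, Real.exp x.1.z ≤ Pz) → (∀ x ∈ rp d₁ ps, Real.exp x.1.z ≤ Pz) →
      0 ≤ Bb → 0 ≤ Bb' → StN K (LF ps) Lv t₅ → 0 ≤ w → 500 * w ≤ K →
      2 * LF ps - K + w ≤ Lv → 3 * K ≤ 4 * LF ps + t₂ → 0 ≤ t₂ → 1000 * t₂ ≤ K →
      (Lv + LF ps - K) / 3 + (LF ps - 3 / 4 * K) + w ≤ s₀ →
      3 * hh ≤ max 0 (4 * LF ps - 3 * K) + K / 200 →
      9 * Real.log E0 ≤ max 0 (4 * LF ps - 3 * K) + K / 100 →
      PLsX P h μ C (fun i => (ps.get i).1) (LF ps) K Lv hh (Real.log D₁) (Real.log E0) m₁ Bb →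
      PLsX P h μ C (fun i => ((rp d₁ ps).get i).1) (LF ps) K Lv hh (Real.log D₁) (Real.log E0) m₁
        Bb' →
      RPg ρ (bw φ p t₀ (xs q z D0 P h d₁ ps)) Kf (GF (Fh F hh)) (S D₁) I E0 Z ≤
        C * Sf ^ 2 * Pz ^ (51 * ε) * ((Cφ ^ 2 * (η * (η ^ A')⁻¹) * (1 + |t₀|) ^ A' *
          opL N D0 * (Bb + Bb') + Ax ^ 2 + (Cφ * (η⁻¹) ^ 6 * (1 + |t₀|) ^ 6) ^ 2 * B₁ ^ 2 + 1) *
          Real.exp (K + LF ps + s - w + (t₂ + 12 * e₀))) := by
  have H : ∀ r : ℕ, ∃ (k bz : ℕ) (Cz C : ℝ), r ≤ N → 1 ≤ Cz ∧ 1 ≤ C ∧ _ := fun r => by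
    by_cases hr : r ≤ N
    · have hrN : (r : ℝ) ≤ N := by exact_mod_cast hr
      obtain ⟨k, bz, Cz, C, h0, h1, h2⟩ := Qs_N2x hpu hR0 hR hμ r hε hε2 1 4 A'
        (le_trans (by
          have := mul_le_mul_of_nonneg_right hrN hμ
          linarith) hA') hA12
      exact ⟨k, bz, Cz, C, fun _ => ⟨h0, h1, h2⟩⟩
    · exact ⟨0, 0, 0, 0, fun h => absurd h hr⟩
  choose k bz Cz C hkC using H
  obtain ⟨CR, hCR, HR⟩ := rpg_cells hε
  obtain ⟨Cs, hCs⟩ : ∃ z : ℝ, z = ∑ r ∈ range (N + 1), |C r| := ⟨_, rfl⟩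
  obtain ⟨Czs, hCzs⟩ : ∃ z : ℝ, z = ∑ r ∈ range (N + 1), |Cz r| := ⟨_, rfl⟩
  obtain ⟨ks, hks⟩ : ∃ z : ℕ, z = ∑ r ∈ range (N + 1), k r := ⟨_, rfl⟩
  obtain ⟨bs, hbs⟩ : ∃ z : ℕ, z = ∑ r ∈ range (N + 1), bz r := ⟨_, rfl⟩
  have hCr : ∀ r ≤ N, C r ≤ Cs := fun r hr => (le_abs_self _).trans (hCs ▸
    (Finset.single_le_sum (f := fun r => |C r|) (fun i _ => abs_nonneg _)
      (Finset.mem_range.2 (by omega))))
  have hCzr : ∀ r ≤ N, Cz r ≤ Czs := fun r hr => (le_abs_self _).trans (hCzs ▸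
    (Finset.single_le_sum (f := fun r => |Cz r|) (fun i _ => abs_nonneg _)
      (Finset.mem_range.2 (by omega))))
  have hkr : ∀ r ≤ N, k r ≤ ks := fun r hr => hks ▸
    Finset.single_le_sum (f := fun r => k r) (fun i _ => Nat.zero_le _)
      (Finset.mem_range.2 (by omega))
  have hbr : ∀ r ≤ N, bz r ≤ bs := fun r hr => hbs ▸
    Finset.single_le_sum (f := fun r => bz r) (fun i _ => Nat.zero_le _)
      (Finset.mem_range.2 (by omega))
  have hCs1 : 1 ≤ Cs := (hkC 0 (Nat.zero_le _)).2.1.trans (hCr 0 (Nat.zero_le _))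
  have hCzs1 : 1 ≤ Czs := (hkC 0 (Nat.zero_le _)).1.trans (hCzr 0 (Nat.zero_le _))
  have hb : 1 ≤ 54 * CR := by linarith
  have hCsle : Cs ≤ 54 * CR * Cs := le_mul_of_one_le_left (by linarith) hb
  refine ⟨ks, bs, 81 * Czs, 54 * CR * Cs, by linarith, by linarith, ?_⟩
  intro F Sf hF hBF hh hhh Cφ η hCφ hη hη2 φ hφ X' hX' hsup p hp t₀ P hP ps d₁ hlen hs hs' z D0
    hD q hq e₀ Pz Z Kf D₁ E0 Ax Ap B₁ s₀ Zv I K Lv m₁ m s t₅ t₂ w Bb Bb' cρ ρ hRW hρ hAx hAxP hAp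
    hApB hZv hPV hK0 hKf hXn hI hZ0 hZ hD₁ hE0 he10 hk9 hCe hm₁ hmm hmK hLv n5 n3 vn v3 h14 hD19
    hE40 hPz hDP hqP hsP hsP' hBb hBb' hSt hw0 hwK hwV hn2 ht₂ ht₂K hws hh3 hE9 hln hln'
  have hn0 : 0 ≤ LF ps := by
    unfold Leg381.LF
    refine List.sum_nonneg fun x hx => ?_
    obtain ⟨y, hy, rfl⟩ := List.mem_map.1 hx
    exact hs y hy
  have hm0' : 0 ≤ Real.log Pz ∧ 4 * e₀ ≤ m₁ := by
    rcases lt_or_ge (Real.log Pz) 0 with h1 | h1
    · exfalso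
      have h2 : ε / 2 * Real.log Pz ≥ 1 / 2 * Real.log Pz := by
        have := mul_le_mul_of_nonpos_right (show ε / 2 ≤ 1 / 2 by linarith) h1.le
        linarith
      linarith
    · refine ⟨h1, ?_⟩
      have : 0 ≤ ε / 2 * Real.log Pz := by positivity
      linarith
  obtain ⟨hlP, hm4⟩ := hm0'
  have hP0 : 0 < Pz := lt_of_lt_of_le (by positivity) hDP
  have hP1 : 1 ≤ Pz := by
    by_contra hc
    push Not at hc
    have := Real.log_neg hP0 hc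
    linarith
  have hεP0 : 0 ≤ ε / 2 * Real.log Pz := by positivity
  obtain ⟨r, hr⟩ : ∃ r, r = ps.length := ⟨_, rfl⟩
  rw [← hr] at hlen
  obtain ⟨hCz1, hC1, HQ⟩ := hkC r hlen
  have hCrs := hCr r hlen
  have hFS : FS (sqc q (alF z D0 P h ps)) := HP842.FS.sqc (RG64.FS_alF ⟨R, hR⟩ hP z D0 ps) q
  have hFS' : FS (sqc q (alF z D0 P h (rp d₁ ps))) :=
    HP842.FS.sqc (RG64.FS_alF ⟨R, hR⟩ hP z D0 (rp d₁ ps)) q
  have hFSx : FS (xs q z D0 P h d₁ ps) := FS_xs hR hP q z D0 d₁ ps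
  obtain ⟨n, hn⟩ : ∃ n, n = LF ps := ⟨_, rfl⟩
  have hn' : LF (rp d₁ ps) = n := by rw [LF_rp, hn]
  obtain ⟨X, hX⟩ : ∃ X, X = X' * Real.exp (η / 2) := ⟨_, rfl⟩
  have hX0 : 0 < X := by rw [hX]; positivity
  have hlX : Real.log X = Real.log X' + η / 2 := by
    rw [hX, Real.log_mul hX'.ne' (Real.exp_pos _).ne', Real.log_exp]
  obtain ⟨hXa, hXb⟩ := abs_le.1 hXn
  rw [← hn] at hn0 hρ hApB hXa hXb n5 n3 vn hPz hSt hwV hn2 hws hh3 hE9 hln hln'
  have hXe : Real.log X ≤ n + e₀ := by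
    rw [hlX]; linarith
  have hXe' : n - e₀ ≤ Real.log X := by
    rw [hlX]; linarith
  have hwin : ∀ n, bw φ p t₀ (xs q z D0 P h d₁ ps) n ≠ 0 → X / 2 < nm n ∧ (nm n : ℝ) ≤ X := by
    intro n hn
    have h1 := bw_win hn
    have h2 : (0 : ℝ) < nm n := by exact_mod_cast nm_pos.2 ((hFSx.prim n h1.1).ne_zero)
    rw [hX]
    exact win_dy (u := 0) hη2 hX' h2 (hsup _ h1.2)
  have hsqf : ∀ n, bw φ p t₀ (xs q z D0 P h d₁ ps) n ≠ 0 → Squarefree n := fun n hn =>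
    sqf_xs hR q z D0 d₁ ps (bw_win hn).1
  obtain ⟨hK1, hK2⟩ := abs_le.1 hKf
  have hlog : ∀ {x : ℝ}, 0 < x → Real.log x ≤ Real.log Pz → x ≤ Pz := fun hx h =>
    (Real.log_le_log_iff hx hP0).1 h
  have hAx0 : 0 ≤ Ax := (norm_nonneg _).trans (hAx 0)
  have hop := opL_nonneg N (show (0 : ℝ) ≤ D0 by linarith)
  have hD0r : D0 ^ r ≤ Pz := (pow_le_pow_right₀ hD hlen).trans hDP
  have hk90 := k9_nonneg
  have hm0 : 0 ≤ m := by linarith
  have hKp : 0 ≤ K := by linarith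
  have hl10 := log10_le
  have hl4 := log4_le
  have hlD₁ : 0 ≤ Real.log D₁ := Real.log_nonneg hD₁
  have hlE0 : 0 ≤ Real.log E0 := Real.log_nonneg hE0
  have hD₁0 : 0 < D₁ := by linarith
  have hE00 : 0 < E0 := by linarith
  have hP9 : 9 ≤ Pz := by
    refine hlog (by norm_num) ?_
    have h9 : Real.log 9 ≤ Real.log 10 := Real.log_le_log (by norm_num) (by norm_num)
    linarith
  have hC1' : (81 : ℝ) * (Cz r * Pz ^ bz r) ≤ Zv := by
    refine le_trans ?_ hZv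
    have a1 : Pz ^ bz r ≤ Pz ^ bs := pow_le_pow_right₀ hP1 (hbr r hlen)
    have a2 : Cz r * Pz ^ bz r ≤ Czs * Pz ^ bs :=
      mul_le_mul (hCzr r hlen) a1 (by positivity) (by linarith)
    linarith
  obtain ⟨GG, hGG⟩ : ∃ GG, GG = Cφ ^ 2 * (η * (η ^ A')⁻¹) * (1 + |t₀|) ^ A' := ⟨_, rfl⟩
  have hGG0 : 0 ≤ GG := by rw [hGG]; positivity
  obtain ⟨GP, hGP⟩ : ∃ GP, GP = (Cφ * (η⁻¹) ^ 6 * (1 + |t₀|) ^ 6) ^ 2 := ⟨_, rfl⟩
  have hGP0 : 0 ≤ GP := by rw [hGP]; positivity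
  obtain ⟨TT, hTT⟩ : ∃ TT, TT = GG * opL N D0 * (Bb + Bb') + Ax ^ 2 + GP * B₁ ^ 2 + 1 := ⟨_, rfl⟩
  have hTT0 : 0 ≤ GG * opL N D0 * (Bb + Bb') := by positivity
  have hTT00 : 0 ≤ TT := by
    have : 0 ≤ Ax ^ 2 := sq_nonneg _
    have : 0 ≤ GP * B₁ ^ 2 := by positivity
    rw [hTT]; linarith
  have hSf : 0 ≤ Sf ^ 2 := sq_nonneg _
  have hopr := opL_nonneg r (show (0 : ℝ) ≤ D0 by linarith)
  have hoprN := opL_mono hlen hD
  obtain ⟨PE, hPE⟩ : ∃ PE, PE = Pz ^ (50 * ε) := ⟨_, rfl⟩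
  have hPE0 : 0 < PE := by rw [hPE]; positivity
  obtain ⟨ww, hww⟩ : ∃ z : ℝ, z = w - (4 * (2 * e₀) + t₂ + 2 * e₀) := ⟨_, rfl⟩
  have hfin := HR Pz Kf D₁ Z E0 K n s ww e₀ (54 * Cs * Sf ^ 2 * PE * TT) I
    (bw φ p t₀ (xs q z D0 P h d₁ ps)) (GF (Fh F hh)) ρ cρ hP1 hRW hρ hK0 hKf hI hZ0
    (hlog (by positivity) (by
      have h1 := Real.log_le_log (by positivity) hI
      rw [Real.log_mul (by norm_num) hZ0.ne'] at h1
      have := Real.log_two_lt_d9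
      linarith)) hD₁ (hlog hD₁0 (by linarith)) hE0 (hlog hE00 (by linarith))
    (by have : 0 ≤ Cs := by linarith
        positivity) (by
    intro δ e V y A hδp hδs hδD hep heE hV1 hVZ hy hA
    have hV0 : 0 < V := by linarith
    have hy' := (mem_prs hδp).mp hy
    have hA2 := (mem_pdiv hy'.1.ne_zero).mp hA
    have he1 : (1 : ℝ) ≤ nm e := one_le_nmR hep.ne_zero
    have hδ1 : (1 : ℝ) ≤ nm δ := one_le_nmR hδp.ne_zero
    have hA1 : (1 : ℝ) ≤ nm A := one_le_nmR hA2.1.ne_zero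
    have hy1 : (1 : ℝ) ≤ nm y.1 := one_le_nmR hy'.1.ne_zero
    have hy2 : (1 : ℝ) ≤ nm y.2 := one_le_nmR hy'.2.1.ne_zero
    have hδ0 : (0 : ℝ) < nm δ := by linarith
    have he0 : (0 : ℝ) < nm e := by linarith
    have hA0 : (0 : ℝ) < nm A := by linarith
    obtain ⟨v, hv⟩ : ∃ v, v = Real.log V := ⟨_, rfl⟩
    obtain ⟨le, hle⟩ : ∃ x, x = Real.log (nm e) := ⟨_, rfl⟩
    obtain ⟨D, hDd⟩ : ∃ x, x = Real.log (nm δ) := ⟨_, rfl⟩
    obtain ⟨a, ha⟩ : ∃ x, x = Real.log (nm A) := ⟨_, rfl⟩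
    obtain ⟨d₀, hd₀⟩ : ∃ x, x = Real.log (nm y.1) := ⟨_, rfl⟩
    obtain ⟨ν, hν⟩ : ∃ x, x = Real.log (nm y.2) := ⟨_, rfl⟩
    have v0 : 0 ≤ v := hv ▸ Real.log_nonneg hV1
    have le0 : 0 ≤ le := hle ▸ Real.log_nonneg he1
    have D0' : 0 ≤ D := hDd ▸ Real.log_nonneg hδ1
    have a0 : 0 ≤ a := ha ▸ Real.log_nonneg hA1
    have d00 : 0 ≤ d₀ := hd₀ ▸ Real.log_nonneg hy1
    have ν0 : 0 ≤ ν := hν ▸ Real.log_nonneg hy2
    have hDD : D ≤ Real.log D₁ := by rw [hDd]; exact Real.log_le_log hδ0 hδD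
    have hee : le ≤ Real.log E0 := by rw [hle]; exact Real.log_le_log he0 heE
    have hDdν : D = d₀ + ν := by
      rw [hDd, hd₀, hν, ← Real.log_mul (by linarith) (by linarith), ← hy'.2.2, nm_mul]
      push_cast
      rfl
    have had : a ≤ d₀ := by
      rw [ha, hd₀]
      exact Real.log_le_log hA0 (by exact_mod_cast Div277.nm_le_of_dvd hy'.1.ne_zero hA2.2)
    have hea : (nm (e * A) : ℝ) = nm e * nm A := by rw [nm_mul]; push_cast; ring
    have hlea : Real.log (nm (e * A)) = le + a := by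
      rw [hea, Real.log_mul (by linarith) (by linarith), hle, ha]
    have hvD0 : v + 2 * D ≤ Lv + e₀ + 1 := by
      have h1 := Real.log_le_log (by positivity) hVZ.le
      rw [Real.log_mul (by positivity) hV0.ne', Real.log_pow, Real.log_mul (by norm_num) hZ0.ne',
        ← hv, ← hDd] at h1
      have h2 := Real.log_two_lt_d9
      push_cast at h1
      linarith
    have hδX : (nm δ : ℝ) ≤ X := by
      refine (Real.log_le_log_iff hδ0 hX0).1 ?_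
      rw [← hDd]
      linarith
    have hlV : Real.log V ≤ Real.log Pz := by rw [← hv]; linarith
    have hSz : SzP Pz V Kf δ e :=
      { P1 := hP1
        V1 := hV1
        VP := hlog hV0 hlV
        K0 := hK0
        Ki := hlog (by positivity) (by rw [Real.log_inv]; linarith)
        KP := hlog hK0 (by linarith)
        δp := hδp
        δs := hδs
        δP := hlog hδ0 (by rw [← hDd]; linarith)
        ep := hep
        eP := hlog he0 (by rw [← hle]; linarith) }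
    obtain ⟨i1, hi1⟩ : ∃ x, x = Real.log 4 + ε / 2 * Real.log Pz + hh + 2 * ν +
        (Real.log X - d₀) + v + 2 * (le + a) - Real.log Kf := ⟨_, rfl⟩
    obtain ⟨i2, hi2⟩ : ∃ x, x = Real.log 10 + Real.log Kf - (le + a) + 1 := ⟨_, rfl⟩
    obtain ⟨Tn, hTn⟩ : ∃ x, x = 2 * (K + n) - ThN K n D le v - D + a - K / 500 + k9 + 2 / 3 :=
      ⟨_, rfl⟩
    have hLv' : Real.log (V * nm (e * A)) = v + le + a := by
      rw [Real.log_mul hV0.ne' (by rw [hea]; positivity), hlea, ← hv]; ring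
    have hSS : ∑ k : Fin ps.length, (ps.get k).1.z = n := by rw [hn, LF_get]
    have hSS' : ∑ k : Fin (rp d₁ ps).length, ((rp d₁ ps).get k).1.z = n := by
      rw [← hn', LF_get]
    have hPM : PMHQ h μ (C r) P (fun i => (ps.get i).1) (Real.log (V * nm (e * A)))
        (Real.log (nm y.1)) (Real.log (nm y.2)) i1 i2 (le + a + k9) Bb Tn := by
      rw [← hd₀, ← hν, hLv']
      exact pmhq_of hln (hCrs.trans hCsle) ((hCrs.trans hCsle).trans hCe) hBb hSS d00 ν0 a0 had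
        le0 v0 hk90 hk9 (by linarith) hee (by linarith) rfl (by linarith) (by linarith) he10 hm4
        rfl (by rw [hTn, hDdν])
    have hPM' : PMHQ h μ (C r) P (fun i => ((rp d₁ ps).get i).1) (Real.log (V * nm (e * A)))
        (Real.log (nm y.1)) (Real.log (nm y.2)) i1 i2 (le + a + k9) Bb' Tn := by
      rw [← hd₀, ← hν, hLv']
      exact pmhq_of hln' (hCrs.trans hCsle) ((hCrs.trans hCsle).trans hCe) hBb' hSS' d00 ν0 a0
        had le0 v0 hk90 hk9 (by linarith) hee (by linarith) rfl (by linarith) (by linarith) he10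
        hm4 rfl (by rw [hTn, hDdν])
    have key := HQ F Sf hF (Bd_mono hBF (hkr r hlen)) hh hhh Pz (hlog (Real.exp_pos _) (by
        rw [Real.log_exp]; linarith)) hP9 Cφ η φ hCφ hη (by linarith) hφ p hp t₀ P hP ps d₁
      hr.symm (by rw [rp_length]; exact hr.symm) hs hs' hsP hsP'
      z D0 hD hD0r q hq hqP X Ax hFS hFS' hFSx hsqf hwin hAx (by rw [pow_one]; exact hAxP)
      (hlog hX0 (by linarith)) Ap s₀ Zv hAp hC1' hPV V Kf δ e hSz hδX y hy A hA (le + a + k9) i1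
      i2 Bb Tn Bb' Tn (Tn - 1)
      (by rw [hlea]) hBb hBb' (by rw [hlea, ← hν, ← hd₀, ← hv, hi1]) (by rw [hlea, hi2]) hPM hPM'
      (fun hy21 => by
        have hν00 : ν = 0 := by
          rw [hν, hy21]
          have : nm (1 : Eis) = 1 := by decide
          rw [this, Nat.cast_one, Real.log_one]
        have hd : d₀ = D := by rw [hDdν, hν00, add_zero]
        obtain ⟨b0, hb0⟩ : ∃ x, x = (i2 - i1) / 3 := ⟨_, rfl⟩
        obtain ⟨p', hp'⟩ : ∃ x, x = Real.log X - D := ⟨_, rfl⟩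
        have hlin := polar_lin (K := K) (n := n) (Lv := Lv) (hh := hh) (D := D) (e := le) (a := a)
          (v := v) (m := m) (k := Real.log Kf) (p := p') (b0 := b0)
          (x := 2 * (K + n) - ThN K n D le v - D + a - K / 500) hKp hmK hm0 n5 n3 vn v3 hhh h14
          D0' (by linarith) le0 (by linarith) a0 (by linarith) v0 (by linarith) (by linarith)
          (by linarith)
          (by rw [hp']; linarith) (by rw [hp']; linarith) (by
            rw [hb0, hi1, hi2, hν00, hd, hp']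
            have := Real.log_nonneg (show (1 : ℝ) ≤ 10 by norm_num)
            linarith) rfl
        obtain ⟨g1, g2, g3⟩ := hlin
        rw [← hb0]
        refine polar_exp (v := v) (k := Real.log Kf) (a := le + a) (p := p')
          (by rw [hv, Real.exp_log hV0]) (by rw [Real.exp_log hK0])
          (by rw [← hlea, Real.exp_log (by rw [hea]; positivity)])
          (by rw [hp', hDd, ← Real.log_div hX0.ne' hδ0.ne', Real.exp_log (by positivity)])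
          (by rw [hTn]; linarith) (by rw [hTn]; linarith) (by rw [hTn]; linarith))
    refine key.trans ?_
    obtain ⟨w1, hw1⟩ : ∃ x, x = 2 / 3 * Real.log Kf - v / 3 := ⟨_, rfl⟩
    obtain ⟨Q, hQ⟩ : ∃ x, x = 2 * (K + n) - ThN K n D le v - D - v / 3 + 2 / 3 * K - le - ww :=
      ⟨_, rfl⟩
    have e1 : V ^ (-(1 : ℝ) / 3) * Kf ^ ((2 : ℝ) / 3) / nm (e * A) =
        Real.exp (w1 - (le + a)) := by
      rw [Real.rpow_def_of_pos hV0, Real.rpow_def_of_pos hK0, ← Real.exp_add, Real.exp_sub,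
        ← hlea, Real.exp_log (by rw [hea]; positivity), ← hv, hw1]
      congr 2
      ring
    have e3 : (Pz ^ 4)⁻¹ = Real.exp (-(4 * Real.log Pz)) := by
      rw [Real.exp_neg]
      congr 1
      have : (4 : ℝ) * Real.log Pz = Real.log (Pz ^ 4) := by rw [Real.log_pow]; norm_num
      rw [this, Real.exp_log (by positivity)]
    have hkw1 : (1 : ℝ) ≤ nm (kw p) := one_le_nmR (kw_ne p)
    have hkw : (nm (kw p) : ℝ) ≤ 9 := kw_nine hp
    have hprin := prin_cell3 (K := K) (n := n) (Lv := Lv) (t := 2 * e₀) (t₂ := t₂) (t₅ := t₅) (w := w) (hh := hh)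
      (d₀ := d₀) (ν := ν) (a := a) (e := le) (v := v) (s₀ := s₀) (m := e₀) (B₀ := Ap) (B₁ := B₁)
      (nM := nm (kw p)) (Kf := Kf) (V := V) (X := X) (nE := nm (e * A)) (g := y.1) (y₂ := y.2)
      hy'.1.ne_zero hy'.2.1.ne_zero hSt (by linarith) hw0 (by linarith) hwV hn2 ht₂ ht₂K hws hhh hh3 a0 had le0
      (by linarith) v0 (by linarith) hd₀ hν hv hV0 hK0 hX0 (by rw [hea]; positivity) hlea
      (by linarith) (by linarith) (by linarith) hkw1 hAp hApB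
    rw [← hDdν] at hprin
    have hQ2 : 2 * (K + n) - ThN K n D le v - D - v / 3 + 2 / 3 * K - le - w +
        (4 * (2 * e₀) + t₂ + 2 * e₀) = Q := by rw [hQ, hww]; ring
    rw [hQ2] at hprin
    have hprin2 : (Ap / nm y.1) ^ 2 * PJm Kf V (X / nm y.1) (nm (e * A)) (nm (kw p)) (nm y.2)
        (Real.exp hh) (Mu s₀ y.1) 1 ≤ 54 * (B₁ ^ 2 * Real.exp Q) := by
      refine hprin.trans ?_
      have h0 : 0 ≤ B₁ ^ 2 * Real.exp Q := by positivity
      calc 6 * (nm (kw p) : ℝ) * B₁ ^ 2 * Real.exp Q =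
            6 * (nm (kw p) : ℝ) * (B₁ ^ 2 * Real.exp Q) := by ring
        _ ≤ 54 * (B₁ ^ 2 * Real.exp Q) := mul_le_mul_of_nonneg_right (by linarith) h0
    rw [← hv, ← hle, ← hDd, ← hQ, e1, e3, ← hGG, ← hGP, ← hPE]
    have hTq : w1 - (le + a) + Tn ≤ Q := by
      rw [hw1, hTn, hQ, hww]
      linarith
    have hsm : -(4 * Real.log Pz) ≤ Q := by
      rw [hQ, hww]
      unfold R2N777.ThN
      rcases fl_le K (v + le) (n - D - le) with h1 | h1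
      · linarith
      · linarith
    have b1 : Real.exp (w1 - (le + a)) * Real.exp Tn ≤ Real.exp Q := by
      rw [← Real.exp_add]
      exact Real.exp_le_exp.2 hTq
    have b2 : Real.exp (w1 - (le + a)) * Real.exp (Tn - 1) ≤ Real.exp Q := by
      rw [← Real.exp_add]
      exact Real.exp_le_exp.2 (by linarith)
    have b3 := Real.exp_le_exp.2 hsm
    have eQ := Real.exp_pos Q
    have c0 : Real.exp (w1 - (le + a)) * (GG * opL r D0 * (Bb * Real.exp Tn +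
        Bb' * Real.exp Tn)) ≤ GG * opL N D0 * (Bb + Bb') * Real.exp Q := by
      calc Real.exp (w1 - (le + a)) * (GG * opL r D0 * (Bb * Real.exp Tn + Bb' * Real.exp Tn)) =
            (GG * opL r D0 * (Bb + Bb')) * (Real.exp (w1 - (le + a)) * Real.exp Tn) := by ring
        _ ≤ (GG * opL N D0 * (Bb + Bb')) * Real.exp Q := by gcongr
    have c1 : Real.exp (w1 - (le + a)) * (Ax ^ 2 * Real.exp (Tn - 1)) ≤
        Ax ^ 2 * Real.exp Q := by
      calc Real.exp (w1 - (le + a)) * (Ax ^ 2 * Real.exp (Tn - 1)) =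
            Ax ^ 2 * (Real.exp (w1 - (le + a)) * Real.exp (Tn - 1)) := by ring
        _ ≤ Ax ^ 2 * Real.exp Q := by gcongr
    have c2 : GP * ((Ap / nm y.1) ^ 2 * PJm Kf V (X / nm y.1) (nm (e * A)) (nm (kw p)) (nm y.2)
        (Real.exp hh) (Mu s₀ y.1) 1) ≤ GP * (54 * (B₁ ^ 2 * Real.exp Q)) :=
      mul_le_mul_of_nonneg_left hprin2 hGP0
    have c3 : 0 ≤ GG * opL N D0 * (Bb + Bb') * Real.exp Q := by positivity
    have c4 : 0 ≤ Ax ^ 2 * Real.exp Q := by positivity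
    have b4 : Real.exp (w1 - (le + a)) * (GG * opL r D0 * (Bb * Real.exp Tn +
        Bb' * Real.exp Tn) + Ax ^ 2 * Real.exp (Tn - 1)) +
        GP * ((Ap / nm y.1) ^ 2 * PJm Kf V (X / nm y.1) (nm (e * A)) (nm (kw p)) (nm y.2)
        (Real.exp hh) (Mu s₀ y.1) 1) + Real.exp (-(4 * Real.log Pz)) ≤
        54 * TT * Real.exp Q := by
      calc _ ≤ GG * opL N D0 * (Bb + Bb') * Real.exp Q + Ax ^ 2 * Real.exp Q +
            GP * (54 * (B₁ ^ 2 * Real.exp Q)) + Real.exp Q := by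
            rw [mul_add]
            exact add_le_add (add_le_add (add_le_add c0 c1) c2) b3
        _ ≤ 54 * (GG * opL N D0 * (Bb + Bb') * Real.exp Q) + 54 * (Ax ^ 2 * Real.exp Q) +
            GP * (54 * (B₁ ^ 2 * Real.exp Q)) + 54 * Real.exp Q := by linarith
        _ = 54 * TT * Real.exp Q := by rw [hTT]; ring
    have hCs0 : 0 ≤ Cs := by linarith
    have hCrS : C r * Sf ^ 2 * PE ≤ Cs * Sf ^ 2 * PE := by gcongr
    calc C r * Sf ^ 2 * PE * (Real.exp (w1 - (le + a)) *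
          (GG * opL r D0 * (Bb * Real.exp Tn + Bb' * Real.exp Tn) + Ax ^ 2 * Real.exp (Tn - 1)) +
          GP * ((Ap / nm y.1) ^ 2 * PJm Kf V (X / nm y.1) (nm (e * A)) (nm (kw p)) (nm y.2)
          (Real.exp hh) (Mu s₀ y.1) 1) + Real.exp (-(4 * Real.log Pz))) ≤
          C r * Sf ^ 2 * PE * (54 * TT * Real.exp Q) := by
          have h0 : 0 ≤ C r := by linarith
          exact mul_le_mul_of_nonneg_left b4 (by positivity)
      _ ≤ Cs * Sf ^ 2 * PE * (54 * TT * Real.exp Q) :=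
          mul_le_mul_of_nonneg_right hCrS (by positivity)
      _ = 54 * Cs * Sf ^ 2 * PE * TT * Real.exp Q := by ring)
  refine hfin.trans ?_
  rw [← hGG, ← hGP, ← hTT, ← hn]
  have e5 : Pz ^ ε * PE = Pz ^ (51 * ε) := by
    rw [hPE, ← Real.rpow_add hP0]
    congr 1
    ring
  have e6 : Real.exp (K + n + s - ww + e₀) ≤ Real.exp (K + n + s - w + (t₂ + 12 * e₀)) := by
    refine Real.exp_le_exp.2 ?_
    rw [hww]; linarith
  have hCR0 : 0 ≤ CR := by linarith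
  have hCs0 : 0 ≤ Cs := by linarith
  calc CR * Pz ^ ε * (54 * Cs * Sf ^ 2 * PE * TT * Real.exp (K + n + s - ww + e₀)) ≤
        CR * Pz ^ ε * (54 * Cs * Sf ^ 2 * PE * TT *
        Real.exp (K + n + s - w + (t₂ + 12 * e₀))) :=
        mul_le_mul_of_nonneg_left (mul_le_mul_of_nonneg_left e6 (by positivity)) (by positivity)
    _ = 54 * CR * Cs * Sf ^ 2 * (Pz ^ ε * PE) * (TT *
        Real.exp (K + n + s - w + (t₂ + 12 * e₀))) := by ring
    _ = _ := by rw [e5]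

end Crest.Agent.R017.N2X320
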