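import Crest.Agent.R017.R2N_777

/-!
# Row 17, R8: the cross term of the near-equal triple, all cells, two scales (helper777)

Homogeneous in the family `K` (constant), list of length `n`, top level `V`, `5 (V + n) ≤ 7 K`,
tolerance `t ≤ K/20000`, second family `K e^{-h}`, `3 h ≤ (4 n - 3 K)⁺ + K/200`. The cell is
helper440's (`R2H`): `δ = y.1 y.2`, `N δ ~ d₀ + ν`, `A ∣ y.1`, `N e ~ e`,
`9 e ≤ (4 n - 3 K)⁺ + K/100`. No condition on the shape of the list.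


* `WwN` : the weight of the cell (helper106, helper440); `R2M` : the `R`-side of every cell
* `r2M` : proof
-/

set_option autoImplicit false
set_option linter.unusedVariables false

noncomputable section

namespace Crest.Agent.R017.R2M777

open Crest.Agent.R017.P1R904
open Crest.Agent.R017.P1R2u176 (pmb)
open Crest.Agent.R017.R2N777 hiding R2N r2N core
open Crest.Agent.R017.NE73 (flK)

/-- the weight of the cell -/
def WwN (x i g ν : ℝ) : ℝ := g + max (x + ν) (max i (2 / 3 * (x + i)))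

lemma WwN_le (x i g ν : ℝ) : WwN x i g ν ≤ x + ν + g ∨ WwN x i g ν ≤ i + g ∨
    WwN x i g ν ≤ 2 / 3 * (x + i) + g := by
  unfold WwN
  rcases max_choice (x + ν) (max i (2 / 3 * (x + i))) with h | h
  · left; rw [h]; linarith
  · right
    rw [h]
    rcases max_choice i (2 / 3 * (x + i)) with h' | h'
    · left; rw [h']; linarith
    · right; rw [h']; linarith

/-- **(R2)** for all cells -/
def R2M : Prop := ∀ K n V t h d F d₀ ν A e v b g g₂ i ms z₁ z₂ z₃ : ℝ,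
  StN K n V t → 0 ≤ h → 3 * h ≤ max 0 (4 * n - 3 * K) + K / 200 → 0 ≤ d →
  2 * d * min z₁ (min z₂ z₃) ≤ F → 0 ≤ ν → 0 ≤ A → A ≤ d₀ →
  2000 * (d₀ + ν) ≤ 2000 * n - 1499 * K + t → 0 ≤ e →
  9 * e ≤ max 0 (4 * n - 3 * K) + K / 100 → 0 ≤ v → v + 2 * (d₀ + ν) ≤ V + t → 0 ≤ b →
  0 ≤ g → 0 ≤ i → 0 ≤ ms → i ≤ v + n - K + h + 2 * (e + A) + 2 * ν - d₀ + b + t →
  i ≤ K - (e + A) - 2 * b + t → ChN n t (d₀ + b + g + ms) z₁ z₂ z₃ → 0 ≤ g₂ →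
  g₂ ≤ g → 2 * g₂ ≤ e + A + i + t →
  (d₀ + ν - A + (WwN (v + e + A) i g ν - i) + ms +
      r3 d (e + A + i + 2 * b) (min z₁ (e + A + i + 2 * b)) (min z₂ (e + A + i + 2 * b))
        (min z₃ (e + A + i + 2 * b)) 0 + K / 500 ≤ 2 * (K + n) - ThN K n (d₀ + ν) e v + F) ∨
    (d₀ + ν - A + (WwN (v + e + A) i g ν - i) + ms +
      pmb d (b + g₂) (e + A + i - 2 * g₂) z₁ z₂ z₃ 0 + K / 500 ≤
      2 * (K + n) - ThN K n (d₀ + ν) e v + F)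

set_option maxHeartbeats 64000000 in
/-- the linear core of (R2) : all the cases -/
lemma core {K n V t h d₀ ν A e v b g g₂ i ms z₁ z₂ z₃ W L T M m₁ m₂ m₃ : ℝ}
    (K0 : 0 ≤ K) (t0 : 0 ≤ t) (tK : 20000 * t ≤ K) (n5 : 5 * n ≤ 4 * K + t)
    (n3 : 1499 * K ≤ 2000 * n) (vn : 5 * (V + n) ≤ 7 * K + t)
    (hM : (M = 0 ∧ 4 * n - 3 * K ≤ 0) ∨ (M = 4 * n - 3 * K ∧ 0 ≤ 4 * n - 3 * K))
    (h00 : 0 ≤ h) (h1 : 3 * h ≤ M + K / 200)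
    (ν0 : 0 ≤ ν) (A0 : 0 ≤ A) (A1 : A ≤ d₀) (D1 : 2000 * (d₀ + ν) ≤ 2000 * n - 1499 * K + t)
    (e0 : 0 ≤ e) (e1 : 9 * e ≤ M + K / 100)
    (v0 : 0 ≤ v) (hv1 : v + 2 * (d₀ + ν) ≤ V + t) (b0 : 0 ≤ b)
    (g0 : 0 ≤ g) (i0 : 0 ≤ i) (s0 : 0 ≤ ms)
    (i1 : i ≤ v + n - K + h + 2 * (e + A) + 2 * ν - d₀ + b + t)
    (i2 : i ≤ K - (e + A) - 2 * b + t)
    (z10 : 0 ≤ z₁) (z20 : 0 ≤ z₂) (z30 : 0 ≤ z₃)
    (tot : z₁ + z₂ + z₃ + (d₀ + b + g + ms) ≤ n + t) (h0 : 0 ≤ g₂) (hg : g₂ ≤ g)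
    (gi : 2 * g₂ ≤ e + A + i + t)
    (k1 : m₁ ≤ e + A + i + 2 * b) (k2 : m₂ ≤ e + A + i + 2 * b) (k3 : m₃ ≤ e + A + i + 2 * b)
    (j1 : m₁ ≤ z₁) (j2 : m₂ ≤ z₂) (j3 : m₃ ≤ z₃)
    (l1 : L ≤ m₁) (l2 : L ≤ e + A + i + 2 * b - m₁) (l3 : L ≤ m₂)
    (l4 : L ≤ e + A + i + 2 * b - m₂) (l5 : L ≤ m₃) (l6 : L ≤ e + A + i + 2 * b - m₃)
    (hT : T ≤ (d₀ + ν) + 2 / 3 * K - v / 3 - (n - (d₀ + ν)) / 3 + 2 * (n - (d₀ + ν) - e) ∨
      T ≤ (d₀ + ν) + 2 / 3 * K - v / 3 - (n - (d₀ + ν)) / 3 +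
        (4 / 3 * (n - (d₀ + ν) - e) + (K + (v + e)) / 3))
    (hm : 2 * (K + n) - T < d₀ + ν - A + (W - i) + ms +
      (e + A + i + 2 * b + (m₁ + m₂ + m₃) + 3 / 4 * L) + K / 500)
    (hW : W ≤ v + e + A + ν + g ∨ W ≤ i + g ∨ W ≤ 2 / 3 * (v + e + A + i) + g)
    (hp : 2 * (K + n) - T < d₀ + ν - A + (W - i) + ms +
        ((e + A + i - 2 * g₂) + (b + g₂) + (z₁ + z₂ + z₃)) + K / 500 ∨
      (∃ m, (m ≤ b + g₂ ∧ m ≤ e + A + i - 2 * g₂) ∧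
        2 * (K + n) - T < d₀ + ν - A + (W - i) + ms + (2 * (z₁ + z₂ + z₃) + m) + K / 500) ∨
      (∃ L', (L' ≤ z₁ ∧ L' ≤ z₂ ∧ L' ≤ z₃) ∧
        2 * (K + n) - T < d₀ + ν - A + (W - i) + ms +
          (b + g₂ + (z₁ + z₂ + z₃) + 3 / 4 * L') + K / 500) ∨
      (∃ L', (L' ≤ z₁ ∧ L' ≤ z₂ ∧ L' ≤ z₃) ∧
        2 * (K + n) - T < d₀ + ν - A + (W - i) + ms +
          (e + A + i - 2 * g₂ + (z₁ + z₂ + z₃) + 3 / 4 * L') + K / 500)) :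
    False := by
  rcases hM with ⟨rfl, hM⟩ | ⟨rfl, hM⟩ <;>
  rcases hT with hT | hT <;>
  rcases hp with hp | ⟨m, ⟨n1, n2⟩, hp⟩ | ⟨m, ⟨n1, n2, n3'⟩, hp⟩ | ⟨m, ⟨n1, n2, n3'⟩, hp⟩ <;>
  rcases hW with hW | hW | hW <;> linarith

/-- **(R2)** -/
theorem r2M : R2M := by
  intro K n V t h d F d₀ ν A e v b g g₂ i ms z₁ z₂ z₃ hS h00 h1 d0 hF n0 A0 A1 D1 e0 e1 v0 hv b0
    g0 i0 s0 i1 i2 hc h0 hg gi
  obtain ⟨K0, t0, tK, n5, n3, vn⟩ := hS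
  obtain ⟨z10, z20, z30, tot⟩ := hc
  have hM : (max 0 (4 * n - 3 * K) = 0 ∧ 4 * n - 3 * K ≤ 0) ∨
      (max 0 (4 * n - 3 * K) = 4 * n - 3 * K ∧ 0 ≤ 4 * n - 3 * K) := by
    rcases le_total 0 (4 * n - 3 * K) with h' | h'
    · exact Or.inr ⟨max_eq_right h', h'⟩
    · exact Or.inl ⟨max_eq_left h', h'⟩
  have hT := fl_le K (v + e) (n - (d₀ + ν) - e)
  by_contra hcon
  rw [not_or, not_le, not_le] at hcon
  obtain ⟨hm, hp⟩ := hcon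
  unfold ThN at hm hp
  have hI : 0 ≤ e + A + i + 2 * b := by linarith
  have k1 := min_le_right z₁ (e + A + i + 2 * b)
  have k2 := min_le_right z₂ (e + A + i + 2 * b)
  have k3 := min_le_right z₃ (e + A + i + 2 * b)
  have j1 := min_le_left z₁ (e + A + i + 2 * b)
  have j2 := min_le_left z₂ (e + A + i + 2 * b)
  have j3 := min_le_left z₃ (e + A + i + 2 * b)
  obtain ⟨l1, l2, l3', l4, l5, l6⟩ := l3_leN (e + A + i + 2 * b) (min z₁ (e + A + i + 2 * b))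
    (min z₂ (e + A + i + 2 * b)) (min z₃ (e + A + i + 2 * b))
  have hr := r3_leN (i := e + A + i + 2 * b) d0
    (z₁ := min z₁ (e + A + i + 2 * b)) (z₂ := min z₂ (e + A + i + 2 * b))
    (z₃ := min z₃ (e + A + i + 2 * b)) (F := F)
    (le_trans (mul_le_mul_of_nonneg_left (min_le_min j1 (min_le_min j2 j3)) (by linarith)) hF)
  refine core K0 t0 tK n5 n3 vn hM h00 h1 n0 A0 A1 D1 e0 e1 v0 hv b0 g0 i0 s0 i1 i2 z10 z20 z30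
    tot h0 hg gi k1 k2 k3 j1 j2 j3 l1 l2 l3' l4 l5 l6
    (T := d₀ + ν + 2 / 3 * K - v / 3 - (n - (d₀ + ν)) / 3 +
      flK K (v + e) (n - (d₀ + ν) - e)) ?_ (W := WwN (v + e + A) i g ν) (by linarith) ?_ ?_
  · rcases hT with hT | hT
    · exact Or.inl (by linarith)
    · exact Or.inr (by linarith)
  · rcases WwN_le (v + e + A) i g ν with h | h | h
    · exact Or.inl (by linarith)
    · exact Or.inr (Or.inl (by linarith))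
    · exact Or.inr (Or.inr (by linarith))
  · rcases pmb_leN d0 z10 z20 z30 (b := b + g₂) (i := e + A + i - 2 * g₂) hF with
      h | ⟨m, h1, h⟩ | ⟨m, h1, h⟩ | ⟨m, h1, h⟩
    · exact Or.inl (by linarith)
    · exact Or.inr (Or.inl ⟨m, h1, by linarith⟩)
    · exact Or.inr (Or.inr (Or.inl ⟨m, h1, by linarith⟩))
    · exact Or.inr (Or.inr (Or.inr ⟨m, h1, by linarith⟩))

end Crest.Agent.R017.R2M777
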