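import Crest.Agent.R017.N2c_106
import Crest.Agent.R017.RCc_106
import Crest.Agent.R017.R2M_777

/-!
# Row 17, FlatNE (helper106): the real side of the compensated E2, part d

* `iRx`, `GRx`, `FRx` : the pair line of the near leaf (helper545's `iR`, `GR2`, `FR2`)
* `pls_of` : `PLs` from the premise of the near leaf
-/

set_option autoImplicit false
set_option linter.unusedVariables false
set_option maxHeartbeats 3200000

noncomputable section

open Finset
open scoped ComplexConjugate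

namespace Crest.Agent.R017.N2106

open Crest.Agent.R012 Crest.Agent.R012.Eis
open Crest.Agent.R017.B770
open Crest.Agent.R017.Prov71
open Crest.Agent.R017.Leg381 (Pf LF natl LF_get)
open Crest.Agent.R017.XRG106 (Rl)
open Crest.Agent.R017.MoL106
open Crest.Agent.R017.RG64 (SbL Ht one_le_Ht)
open Crest.Agent.R017.XP699 (LL Chd hcost cst)
open Crest.Agent.R017.RGB545
open Crest.Agent.R017.RC106 (forall2_ofFn LL_ofFn)
open Crest.Agent.R017.NE73 (flK)
open Crest.Agent.R017.R2N777 (ThN)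
open Crest.Agent.R017.R2M777 (WwN)

/-- the variable `i` of the pair line -/
def iRx (x : Fin 5 → ℝ) (θ : Fin 9 → ℝ) : ℝ := x 3 - θ 7 - θ 6 + 2 * θ 1

/-- the condition of the pair line; `hh` = the second scale, a function of `(K, V, n)` -/
def GRx (hh : ℝ → ℝ → ℝ → ℝ) (x : Fin 5 → ℝ) (θ : Fin 9 → ℝ) : ℝ :=
  max (max (max (θ 6 - θ 4) (2000 * (θ 4 + θ 5) - 2000 * x 2 + 1499 * x 0))
      (max (9 * θ 7 - max 0 (4 * x 2 - 3 * x 0) - x 0 / 100) (θ 8 + 2 * (θ 4 + θ 5) - x 1)))
    (max (max (iRx x θ - (θ 8 + x 2 - x 0 + hh (x 0) (x 1) (x 2) + 2 * (θ 7 + θ 6) + 2 * θ 5 -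
        θ 4 + (θ 0 - θ 1))) (iRx x θ - (x 0 - (θ 7 + θ 6) - 2 * (θ 0 - θ 1))))
      (max (max (x 4 + (θ 4 + (θ 0 - θ 1) + θ 2 + θ 3) - x 2) (θ 1 - θ 2))
        (max (-iRx x θ) (θ 1 - θ 0))))

/-- the exponent of the pair line -/
def FRx (x : Fin 5 → ℝ) (θ : Fin 9 → ℝ) : ℝ :=
  2 * (x 0 + x 2) - ThN (x 0) (x 2) (θ 4 + θ 5) (θ 7) (θ 8) -
    (θ 4 + θ 5 - θ 6 + (WwN (θ 8 + θ 7 + θ 6) (iRx x θ) (θ 2) (θ 5) - iRx x θ) + θ 3) - x 0 / 500 -
    (4 / 3 * x 2 + (x 1 + x 0) / 3)

lemma flK_div {L κ l m : ℝ} (hL : 0 < L) : flK (κ / L) (l / L) (m / L) = flK κ l m / L := by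
  unfold NE73.flK
  have e : (l / L + κ / L - 2 * (m / L)) / 3 = ((l + κ - 2 * m) / 3) / L := by ring
  rw [e]
  have e0 : max 0 (((l + κ - 2 * m) / 3) / L) = max 0 ((l + κ - 2 * m) / 3) / L := by
    conv_lhs => rw [show (0 : ℝ) = 0 / L by rw [zero_div]]
    rw [max_div_div_right hL.le]
  rw [e0]
  ring

lemma ThN_div {L κ n D e v : ℝ} (hL : 0 < L) :
    ThN (κ / L) (n / L) (D / L) (e / L) (v / L) = ThN κ n D e v / L := by
  unfold R2N777.ThN
  have e1 : v / L + e / L = (v + e) / L := by ring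
  have e2 : n / L - D / L - e / L = (n - D - e) / L := by ring
  rw [e1, e2, flK_div hL]
  ring

lemma max3_div {L a b c : ℝ} (hL : 0 < L) :
    max (a / L) (max (b / L) (c / L)) = max a (max b c) / L := by
  rw [max_div_div_right hL.le, max_div_div_right hL.le]

/-- **the pair line at all cells** of the natural children from the line of the near leaf -/
theorem pls_of {Lam : Type*} {π : Lam → DPar} {h : ℝ → ℝ} {lam : Lam}
    {hh : ℝ → ℝ → ℝ → ℝ} {K c₀ S C M ε X Bd r₀ Cb hp x m Dm Em Lv : ℝ} {N : ℕ}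
    {ps₀ : List Pq} {ps : List Pf} (hX3 : 3 ≤ X) (hK : 0 ≤ K) (hε : 0 ≤ ε)
    (hS : SbL S ps ps₀) (hlen : ps.length ≤ N) (hz : ∀ q ∈ ps₀, Dq.len q ≤ c₀ * Real.log X)
    (hC : 0 ≤ C) (hr₀ : C + S ≤ r₀) (hCb : C * Real.exp S ≤ Cb) (hM : 0 ≤ M) (hBd : 0 ≤ Bd)
    (hm0 : 0 ≤ m) (hx0 : 0 ≤ x) (hm : m + x ≤ ε * Real.log X)
    (hhp : hp ≤ hh K (Lv / Real.log X) (LF ps / Real.log X) * Real.log X + x)
    (hLv : 0 ≤ Lv) (hDm0 : 0 ≤ Dm) (hEm0 : 0 ≤ Em)
    (hDm : 2000 * Dm ≤ 2000 * LF ps - 1499 * (K * Real.log X) + ε * Real.log X)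
    (hEm : 9 * Em ≤ max 0 (4 * LF ps - 3 * (K * Real.log X)) + K * Real.log X / 100 +
      ε * Real.log X)
    (hbx : LF ps + K * Real.log X + Lv + Dm + Em + 2 * m ≤ TK K * Real.log X)
    (hprem : ∀ (θ : Th 9 K) (l : ℝ) (ps' : List Pq), 0 ≤ l → l ≤ TK K * Real.log X →
      List.Forall₂ (Chd Dq hcost r₀ (Cb * X ^ c₀)) ps' ps₀ →
      LL Dq ps' ≤ LF ps + ε * Real.log X →
      GRx hh ![K, Lv / Real.log X, LF ps / Real.log X, l / Real.log X,
        LL Dq ps' / Real.log X] θ.1 ≤ ε →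
      PM2 (π lam) h l (θ.1 0 * Real.log X) ps' ≤ Bd * cst hcost ps' ps₀ ^ M *
        X ^ (4 / 3 * (LF ps / Real.log X) + (Lv / Real.log X + K) / 3 +
          FRx ![K, Lv / Real.log X, LF ps / Real.log X, l / Real.log X,
            LL Dq ps' / Real.log X] θ.1)) :
    PLs (π lam) h ((N : ℝ) * M / 2) C (fun i => (ps.get i).1) (LF ps) (K * Real.log X) Lv hp
      Dm Em m (Bd * (Ht ps * Ht (natl ps₀)) ^ M) := by
  have hX0 : 0 < X := by linarith
  obtain ⟨L, hL⟩ : ∃ L : ℝ, L = Real.log X := ⟨_, rfl⟩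
  have hL1 : 1 ≤ L := by
    rw [hL, ← Real.log_exp 1]
    refine Real.log_le_log (Real.exp_pos 1) ?_
    linarith [Real.exp_one_lt_d9]
  have hL0 : 0 < L := by linarith
  rw [← hL] at hm hz hhp hDm hEm hbx hprem ⊢
  have hHH : 1 ≤ Ht ps * Ht (natl ps₀) :=
    one_le_mul_of_one_le_of_one_le (one_le_Ht _) (one_le_Ht _)
  set HH : ℝ := Ht ps * Ht (natl ps₀) with hHHd
  have hHM : 0 ≤ HH ^ M := Real.rpow_nonneg (by linarith) _
  have hXE : ∀ x : ℝ, X ^ (x / L) = Real.exp x := fun x => by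
    rw [Real.rpow_def_of_pos hX0, ← hL]
    congr 1
    field_simp
  have hdiv : ∀ a : ℝ, a ≤ ε * L → a / L ≤ ε := fun a ha => (div_le_iff₀ hL0).2 ha
  have hεL : 0 ≤ ε * L := by positivity
  have hch : ∀ (s' : Fin ps.length → Pq) (W0 : ℝ), (∀ k, Rl C W0 (s' k) (ps.get k).1) →
      List.Forall₂ (Chd Dq hcost r₀ (Cb * X ^ c₀)) (List.ofFn s') ps₀ := fun s' W0 hR =>
    RlB791.chdL_mono hr₀ (mul_le_mul_of_nonneg_right hCb (Real.rpow_nonneg hX0.le _))
      (RlB791.chdL_of_rl hX0 hC (forall2_ofFn hR) hS (by rw [← hL]; exact hz))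
  have hcst : ∀ (s' : Fin ps.length → Pq) (W0 : ℝ), 1 ≤ W0 →
      (∀ k, Rl C W0 (s' k) (ps.get k).1) →
      cst hcost (List.ofFn s') ps₀ ^ M ≤ W0 ^ (2 * ((N : ℝ) * M / 2)) * HH ^ M :=
    fun s' W0 hW hR => RlB791.cst_rl_pow hW hM (forall2_ofFn hR) hS hlen
  obtain ⟨n, hn⟩ : ∃ n : ℝ, n = LF ps := ⟨_, rfl⟩
  obtain ⟨κ, hκ⟩ : ∃ x : ℝ, x = K * L := ⟨_, rfl⟩
  have hKL : K = κ / L := by rw [hκ]; field_simp
  have hκ0 : 0 ≤ κ := by rw [hκ]; positivity
  rw [← hn, ← hκ] at hDm hEm hbx ⊢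
  rw [← hn] at hhp
  intro s' W0 hW hR i b g d₀ ν a e v hi hb hg hd₀ hν ha had he hv hD hE hvL hgi hsum hib1 hib2
  have hzs : 0 ≤ ∑ k, (s' k).z := Finset.sum_nonneg fun k _ => (hR k).z0
  obtain ⟨n', hn'⟩ : ∃ n' : ℝ, n' = ∑ k, (s' k).z := ⟨_, rfl⟩
  rw [← hn'] at hzs hsum ⊢
  obtain ⟨ms, hms⟩ : ∃ y : ℝ, y = max 0 (n - d₀ - b - g - n') := ⟨_, rfl⟩
  have hms0 : 0 ≤ ms := hms ▸ le_max_left _ _
  have hms1 : n - d₀ - b - g - n' ≤ ms := hms ▸ le_max_right _ _
  have hms2 : n' + (d₀ + b + g + ms) ≤ n + m := by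
    rw [hms]
    rcases le_total 0 (n - d₀ - b - g - n') with h1 | h1
    · rw [max_eq_right h1]; linarith
    · rw [max_eq_left h1]; linarith
  have hnm : 0 ≤ n + m := by linarith
  have hbox : ∀ y : ℝ, y ≤ n + κ + Lv + Dm + Em + 2 * m → y / L ≤ TK K := fun y hy =>
    (div_le_iff₀ hL0).2 (hy.trans hbx)
  have hn0 : -m ≤ n := by linarith
  -- the children's line
  have key := hprem ⟨![(b + g) / L, g / L, g / L, ms / L, d₀ / L, ν / L, a / L, e / L, v / L], by
      intro j
      fin_cases j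
      · show (0 : ℝ) ≤ (b + g) / L
        positivity
      · show (0 : ℝ) ≤ g / L
        positivity
      · show (0 : ℝ) ≤ g / L
        positivity
      · show (0 : ℝ) ≤ ms / L
        positivity
      · show (0 : ℝ) ≤ d₀ / L
        positivity
      · show (0 : ℝ) ≤ ν / L
        positivity
      · show (0 : ℝ) ≤ a / L
        positivity
      · show (0 : ℝ) ≤ e / L
        positivity
      · show (0 : ℝ) ≤ v / L
        positivity, by
      intro j
      fin_cases j
      · exact hbox _ (by linarith)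
      · exact hbox _ (by linarith)
      · exact hbox _ (by linarith)
      · exact hbox _ (by linarith)
      · exact hbox _ (by linarith)
      · exact hbox _ (by linarith)
      · exact hbox _ (by linarith)
      · exact hbox _ (by linarith)
      · exact hbox _ (by linarith)⟩ (e + a + i - 2 * g) (List.ofFn s') (by linarith)
    ((by linarith : e + a + i - 2 * g ≤ n + κ + Lv + Dm + Em + 2 * m).trans hbx)
    (hch s' W0 hR)
    (by rw [LL_ofFn, ← hn', ← hn]; linarith)
    (by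
      rw [LL_ofFn, ← hn', ← hn]
      have hi' : iRx ![K, Lv / L, n / L, (e + a + i - 2 * g) / L, n' / L]
          ![(b + g) / L, g / L, g / L, ms / L, d₀ / L, ν / L, a / L, e / L, v / L] = i / L := by
        show (e + a + i - 2 * g) / L - e / L - a / L + 2 * (g / L) = i / L
        ring
      unfold GRx
      rw [hi']
      show max (max (max (a / L - d₀ / L) (2000 * (d₀ / L + ν / L) - 2000 * (n / L) + 1499 * K))
          (max (9 * (e / L) - max 0 (4 * (n / L) - 3 * K) - K / 100)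
            (v / L + 2 * (d₀ / L + ν / L) - Lv / L)))
        (max (max (i / L - (v / L + n / L - K + hh K (Lv / L) (n / L) + 2 * (e / L + a / L) +
            2 * (ν / L) - d₀ / L + ((b + g) / L - g / L)))
            (i / L - (K - (e / L + a / L) - 2 * ((b + g) / L - g / L))))
          (max (max (n' / L + (d₀ / L + ((b + g) / L - g / L) + g / L + ms / L) - n / L)
            (g / L - g / L)) (max (-(i / L)) (g / L - (b + g) / L)))) ≤ ε
      have eH : hh K (Lv / L) (n / L) = (hh K (Lv / L) (n / L) * L) / L := by field_simp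
      have eM : max 0 (4 * (n / L) - 3 * K) = max 0 (4 * n - 3 * κ) / L := by
        have e : 4 * (n / L) - 3 * K = (4 * n - 3 * κ) / L := by rw [hκ]; field_simp
        rw [e]
        conv_lhs => rw [show (0 : ℝ) = 0 / L by rw [zero_div]]
        rw [max_div_div_right hL0.le]
      refine max_le (max_le (max_le ?_ ?_) (max_le ?_ ?_)) (max_le (max_le ?_ ?_)
        (max_le (max_le ?_ ?_) (max_le ?_ ?_)))
      · refine le_trans (le_of_eq ?_) (hdiv (a - d₀) (by linarith))
        ring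
      · refine le_trans (le_of_eq ?_) (hdiv (2000 * (d₀ + ν) - 2000 * n + 1499 * κ) (by linarith))
        rw [hκ]; field_simp
      · rw [eM]
        refine le_trans (le_of_eq ?_) (hdiv (9 * e - max 0 (4 * n - 3 * κ) - κ / 100)
          (by linarith))
        rw [hκ]; field_simp
      · refine le_trans (le_of_eq ?_) (hdiv (v + 2 * (d₀ + ν) - Lv) (by linarith))
        ring
      · rw [eH]
        refine le_trans (le_of_eq ?_) (hdiv (i - (v + n - κ + hh K (Lv / L) (n / L) * L +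
          2 * (e + a) + 2 * ν - d₀ + b)) (by linarith))
        rw [hκ]; field_simp; ring
      · refine le_trans (le_of_eq ?_) (hdiv (i - (κ - (e + a) - 2 * b)) (by linarith))
        rw [hκ]; field_simp; ring
      · refine le_trans (le_of_eq ?_) (hdiv (n' + (d₀ + b + g + ms) - n) (by linarith))
        ring
      · rw [sub_self]; exact hε
      · refine le_trans (le_of_eq ?_) (hdiv (-i) (by linarith))
        ring
      · refine le_trans (le_of_eq ?_) (hdiv (-b) (by linarith))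
        ring)
  rw [LL_ofFn, ← hn', ← hn] at key
  have hF : 4 / 3 * (n / L) + (Lv / L + K) / 3 +
      FRx ![K, Lv / L, n / L, (e + a + i - 2 * g) / L, n' / L]
        ![(b + g) / L, g / L, g / L, ms / L, d₀ / L, ν / L, a / L, e / L, v / L] =
      (2 * (κ + n) - ThN κ n (d₀ + ν) e v - (d₀ + ν - a +
        (g + max (v + e + a + ν) (max i (2 / 3 * (v + e + a + i))) - i) + ms) - κ / 500) / L := by
    have hi' : iRx ![K, Lv / L, n / L, (e + a + i - 2 * g) / L, n' / L]
        ![(b + g) / L, g / L, g / L, ms / L, d₀ / L, ν / L, a / L, e / L, v / L] = i / L := by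
      show (e + a + i - 2 * g) / L - e / L - a / L + 2 * (g / L) = i / L
      ring
    unfold FRx
    rw [hi']
    show 4 / 3 * (n / L) + (Lv / L + K) / 3 + (2 * (K + n / L) -
      ThN K (n / L) (d₀ / L + ν / L) (e / L) (v / L) -
      (d₀ / L + ν / L - a / L + (WwN (v / L + e / L + a / L) (i / L) (g / L) (ν / L) - i / L) +
        ms / L) - K / 500 - (4 / 3 * (n / L) + (Lv / L + K) / 3)) = _
    unfold R2M777.WwN
    have e1 : v / L + e / L + a / L + ν / L = (v + e + a + ν) / L := by ring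
    have e2 : 2 / 3 * (v / L + e / L + a / L + i / L) = (2 / 3 * (v + e + a + i)) / L := by ring
    have e3 : d₀ / L + ν / L = (d₀ + ν) / L := by ring
    rw [e1, e2, max3_div hL0, e3, hKL, ThN_div hL0]
    ring
  rw [hF, hXE] at key
  have e0 : (⟨![(b + g) / L, g / L, g / L, ms / L, d₀ / L, ν / L, a / L, e / L, v / L], by
      intro j
      fin_cases j
      · show (0 : ℝ) ≤ (b + g) / L
        positivity
      · show (0 : ℝ) ≤ g / L
        positivity
      · show (0 : ℝ) ≤ g / L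
        positivity
      · show (0 : ℝ) ≤ ms / L
        positivity
      · show (0 : ℝ) ≤ d₀ / L
        positivity
      · show (0 : ℝ) ≤ ν / L
        positivity
      · show (0 : ℝ) ≤ a / L
        positivity
      · show (0 : ℝ) ≤ e / L
        positivity
      · show (0 : ℝ) ≤ v / L
        positivity, by
      intro j
      fin_cases j
      · exact hbox _ (by linarith)
      · exact hbox _ (by linarith)
      · exact hbox _ (by linarith)
      · exact hbox _ (by linarith)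
      · exact hbox _ (by linarith)
      · exact hbox _ (by linarith)
      · exact hbox _ (by linarith)
      · exact hbox _ (by linarith)
      · exact hbox _ (by linarith)⟩ : Th 9 K).1 0 * L = b + g := by
    show (b + g) / L * L = b + g
    field_simp
  rw [e0] at key
  have e4 : e + a + i - 2 * g = e + a + i - 2 * g := rfl
  have h5 := hcst s' W0 hW hR
  have h6 : 0 ≤ W0 ^ (2 * ((N : ℝ) * M / 2)) := Real.rpow_nonneg (by linarith) _
  have e5 : PM2 (π lam) h (e + a + i - 2 * g) (b + g) (List.ofFn s') ≤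
      Bd * cst hcost (List.ofFn s') ps₀ ^ M *
      Real.exp (2 * (κ + n) - ThN κ n (d₀ + ν) e v - (d₀ + ν - a +
        (g + max (v + e + a + ν) (max i (2 / 3 * (v + e + a + i))) - i) + ms) - κ / 500) := key
  refine e5.trans ?_
  calc Bd * cst hcost (List.ofFn s') ps₀ ^ M *
        Real.exp (2 * (κ + n) - ThN κ n (d₀ + ν) e v - (d₀ + ν - a +
          (g + max (v + e + a + ν) (max i (2 / 3 * (v + e + a + i))) - i) + ms) - κ / 500) ≤
        Bd * (W0 ^ (2 * ((N : ℝ) * M / 2)) * HH ^ M) *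
        Real.exp (2 * (κ + n) - ThN κ n (d₀ + ν) e v - (d₀ + ν - a +
          (max (v + e + a + ν) (max i (2 / 3 * (v + e + a + i))) - i)) -
          (n - d₀ - b - n') - κ / 500) := by
        refine mul_le_mul (mul_le_mul_of_nonneg_left h5 hBd)
          (Real.exp_le_exp.2 (by linarith)) (Real.exp_pos _).le (by positivity)
    _ = _ := by ring

end Crest.Agent.R017.N2106
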