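import Crest.Agent.R017.JBn_180
import Crest.Agent.R017.NEk_551

/-!
# Row 17, near field, class N (helper180): the T-half of `Num2` at the near leaf

* `fxC_of` : `FxC` from 551's `NTc`
* `RgN`    : the R-number of the cross error at the shape of the flat claims
* `N2N`    : `Num2`
* **`num2_leaf`** : `NLeaf` of `N2N` from `NLeaf` of `RgN`
-/

set_option autoImplicit false

noncomputable section

open Complex
open scoped ComplexConjugate

namespace Crest.Agent.R017.NLn180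

open Crest.Agent.R012 Crest.Agent.R012.Eis Crest.Agent.R012.LS2 Crest.Agent.R012.Gauss880
open Crest.Agent.R017.CM106 Crest.Agent.R017.FE47
open Crest.Agent.R017.HP842 hiding fl
open Crest.Agent.R017.End699 hiding pw
open Crest.Agent.R017.B770
open Crest.Agent.R017.Prov71
open Crest.Agent.R017.Leg381
open Crest.Agent.R017.RGB545 (Line Th TK)
open Crest.Agent.R017.RG64
open Crest.Agent.R017.XP699 (LL Chd hcost cst)
open Crest.Agent.R017.NE73 (gN)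
open Crest.Agent.R017.NEg551 (NFacts NTc NNum NLeaf LBq NTc.mono)
open Crest.Agent.R017.NEc180 (JBr NumRg Num2 num2_r)
open Crest.Agent.R017.I1146 (rhoS LipS)
open Crest.Agent.R017.WDec180 (WD)
open Crest.Agent.R017.JBf180

variable {Lam ι : Type*} {p : ℕ}

/-- 551's `NTc.fx`, allowance `ε ≤ 3 c` -/
theorem fxC_of {P : DPar} {h : ℝ → ℝ} {K v c y ε X r b M Bd : ℝ} {ps₀ : List Pq}
    (H : NTc P h K v c ε X r b M Bd ps₀) (hc : 0 ≤ c) (hy : 0 ≤ y) (hε : 0 ≤ ε)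
    (hεc : ε ≤ 3 * c) (hX : 0 ≤ Real.log X) (hBd : 0 ≤ Bd) :
    FxC P h K v c y ε X r b M Bd ps₀ := by
  intro x l ps' hx hl hlv hγ hch
  obtain ⟨L, hL⟩ : ∃ L, L = Real.log X := ⟨_, rfl⟩
  obtain ⟨n, hn⟩ : ∃ n, n = LL Dq ps₀ := ⟨_, rfl⟩
  obtain ⟨g, hg⟩ : ∃ g, g = gN K c (LL Dq ps₀ / Real.log X) := ⟨_, rfl⟩
  have hcs : 0 ≤ cst hcost ps' ps₀ ^ M :=
    Real.rpow_nonneg (zero_le_one.trans (XP699.one_le_cst XP699.one_le_hcost _ _)) _
  have hB : 0 ≤ Bd * cst hcost ps' ps₀ ^ M := mul_nonneg hBd hcs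
  have hcL : 0 ≤ c * L := mul_nonneg hc (hL ▸ hX)
  have hεL : 0 ≤ ε * L := mul_nonneg hε (hL ▸ hX)
  have hεcL : ε * L ≤ 3 * c * L := mul_le_mul_of_nonneg_right hεc (hL ▸ hX)
  rw [← hg] at hγ
  rw [← hL, ← hn] at hγ hlv
  have hyL : 0 ≤ y * (c * L) := mul_nonneg hy hcL
  have e1 : (g + y * c) * L = g * L + y * (c * L) := by ring
  have e2 : (v + ε) * L = v * L + ε * L := by ring
  have e3 : (g + c + ε) * L = g * L + c * L + ε * L := by ring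
  have e4 : (g - ε) * L = g * L - ε * L := by ring
  have e5 : (y + 1) * c * L = y * (c * L) + c * L := by ring
  have e6 : c / 3 * L = (c * L) / 3 := by ring
  rcases le_total (n - LL Dq ps') ((g + c + ε) * L) with h1 | h1
  · refine (H.fl l ps' hl (by rw [← hL, ← hn]; linarith) hch
      (by rw [← hg, ← hL, ← hn]; exact h1)).trans
      (mul_le_mul_of_nonneg_left (Real.exp_le_exp.2 ?_) hB)
    rw [← hL, e5, e6]
    linarith
  · refine (H.jj l ps' hl (by rw [← hL, ← hn]; linarith) hch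
      (by rw [← hg, ← hL, ← hn]; linarith)).trans
      (mul_le_mul_of_nonneg_left (Real.exp_le_exp.2 ?_) hB)
    rw [← hg, ← hL, ← hn, e5]
    unfold RG64.exJ
    have h2 := RG64.ex0_le_fl (K * L) l (LL Dq ps')
    unfold RG64.ex0 at h2
    have h3 : max 0 ((n - LL Dq ps') - ((n - LL Dq ps') - (l - v * L)) / 3 - g * L) ≤
        y * (c * L) + c * L := by
      refine max_le (by linarith) ?_
      linarith
    linarith

/-- the flat shape is Lipschitz -/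
lemma lipS_ShN (κ m c' : ℝ) : LipS 3 (ShN κ m c') := by
  intro γ b v b' v'
  unfold ShN RG64.fl
  have h1 := le_abs_self (b - b')
  have h2 := neg_abs_le (b - b')
  have h3 := le_abs_self (v - v')
  have h4 := neg_abs_le (v - v')
  have h5 : max 0 ((v + b - 2 * (m - γ - b) + κ) / 3) ≤
      max 0 ((v' + b' - 2 * (m - γ - b') + κ) / 3) + (|b - b'| + |v - v'| / 3) := by
    have h6 := abs_nonneg (b - b')
    have h7 := abs_nonneg (v - v')
    refine max_le ?_ ?_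
    · have := le_max_left 0 ((v' + b' - 2 * (m - γ - b') + κ) / 3)
      linarith
    · have := le_max_right 0 ((v' + b' - 2 * (m - γ - b') + κ) / 3)
      linarith
  have h7 := abs_nonneg (v - v')
  linarith

/-- **the R-number of the cross error**, weights at the shape of the flat claims, dilation
`hf p` -/
def RgN (N : ℕ) (M : ℝ) (F : ℕ → ℝ → ℂ) (hf : LBq → ℝ) (c' : ℝ) (p : LBq) (α : Eis → ℂ)
    (Rn : ℝ) : Prop :=
  ∀ I : ℕ, (p.N₁ : ℝ) < 2 ^ I → (2 : ℝ) ^ I ≤ 2 * p.N₁ →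
    NumRg N M F p.Cw p.η p.Aw p.K p.X p.R p.J p.D p.E0 (hf p) p.N₁ I
      (rhoS (4 / 3 * Real.log p.X) (Real.log p.K)
        (ShN (Real.log p.K) (Real.log p.X) (c' * Real.log p.K))) α Rn

/-- `Num2`, dilation `hf p` -/
def N2N (N : ℕ) (M : ℝ) (F : ℕ → ℝ → ℂ) (hf : LBq → ℝ) (p : LBq) (α : Eis → ℂ) (Rn : ℝ) : Prop :=
  ∀ I : ℕ, (p.N₁ : ℝ) < 2 ^ I → (2 : ℝ) ^ I ≤ 2 * p.N₁ →
    Num2 N M F p.Cw p.η p.Aw p.K p.X p.R p.J p.D p.E0 (hf p) p.N₁ I α Rn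

lemma N2N.mono {N : ℕ} {M : ℝ} {F : ℕ → ℝ → ℂ} {hf : LBq → ℝ} {p : LBq} {α : Eis → ℂ}
    {Rn Rn' : ℝ} (h : N2N N M F hf p α Rn) (hK : 0 ≤ p.K) (hX : 0 ≤ p.X) (hR : Rn ≤ Rn') :
    N2N N M F hf p α Rn' := by
  intro I h1 h2 a ha t X' φ b1 b2 b3 b4
  refine (h I h1 h2 a ha t X' φ b1 b2 b3 b4).trans ?_
  have h3 : 0 ≤ p.K / p.X := div_nonneg hK hX
  gcongr

set_option maxHeartbeats 1600000 in
/-- **`Num2` at the near leaf** from its R-half -/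
theorem num2_leaf {π : Lam → DPar} (hP : ∀ lam, (π lam).OK) {h : ℝ → ℝ} {c₂ : ℝ} (hpu : PU h c₂)
    {w : ℝ → ℝ} {Nw : ℕ} {Mw : ℝ} {Fw : ℕ → ℝ → ℂ} (hD : WD w Nw Mw Fw) (hf : LBq → ℝ)
    {L : ι → Line Lam p} {φ₀ φ₁ φβ : ℝ → ℝ → ℝ → ℝ} {K v c y : ℝ} (hc : 0 < c)
    (hcK : 2000 * c ≤ K) (hy : 0 ≤ y) (hv : 0 ≤ v)
    (hφ₀ : ∀ a u m, 3 / 4 * K - c ≤ m → φ₀ a u m ≤ m - 3 / 4 * K + (y + 3 / 4) * c)
    (H : NLeaf π h (RgN Nw Mw Fw hf ((y + 1) * (c / K))) L φ₀ φ₁ φβ K v c) :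
    NLeaf π h (N2N Nw Mw Fw hf) L φ₀ φ₁ φβ K v c := by
  have hK : 0 < K := by linarith
  intro lam N c₀ hc₀
  obtain ⟨B₁, hB₁, H1⟩ := H lam N c₀ hc₀
  refine ⟨max B₁ (c₀ + 2 * K), le_max_of_le_left hB₁, fun ε M hε hM => ?_⟩
  obtain ⟨J₁, δ₁, hJ₁, hδ₁, H2⟩ := H1 ε M hε hM
  have hN0 : (0 : ℝ) ≤ N := Nat.cast_nonneg N
  refine ⟨max J₁ ((N + 1) * M), min δ₁ (c / (8 * (N + 1))), le_max_of_le_left hJ₁,
    lt_min hδ₁ (by positivity), ?_⟩
  intro δ Jn Aw Cw R η S' hδ0 hδ hJn hAw hCw hR hη hη2 hS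
  obtain ⟨C₁, r₁, X₁, hC₁, hr₁, H3⟩ := H2 δ Jn Aw Cw R η S' hδ0 (hδ.trans (min_le_left _ _))
    ((le_max_left _ _).trans hJn) hAw hCw hR hη hη2 hS
  obtain ⟨b, hb⟩ : ∃ b : ℝ, b = 8 * (K + 1) := ⟨_, rfl⟩
  have hb8 : 8 ≤ b := by rw [hb]; linarith
  have hb0 : 0 < b := by linarith
  have hη1 : η ≤ 1 := by linarith
  obtain ⟨C₂, hC₂, HN⟩ := num2_r hD (Cw := Cw) (R := R) (ε := ε / (2 * b)) (L := 3) (Aw := Aw)
    (J := Jn) hCw hR (by positivity) hAw (by norm_num)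
  obtain ⟨C₃, r₃, hC₃, hr₃, HJ⟩ := jbr_near hpu N hK (ε := ε / 2) (M := M) (by positivity) hM
  obtain ⟨Ra, Ca, hRa, hCa, hAL⟩ := exists_ALp hpu N
  have hNM : (N : ℝ) * M ≤ Jn := by
    have h1 := (le_max_right J₁ ((N + 1) * M)).trans hJn
    have h2 : (N + 1) * M = N * M + M := by ring
    linarith
  have hδN : N * δ ≤ c / 8 := by
    have h1 := hδ.trans (min_le_right _ _)
    rw [le_div_iff₀ (by positivity)] at h1
    nlinarith
  obtain ⟨T₀, hT₀⟩ : ∃ T : ℝ, T = 6 + r₃ + Ra := ⟨_, rfl⟩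
  have hT₀0 : 0 < T₀ := by rw [hT₀]; linarith
  have hC0 : 0 ≤ C₂ * (η⁻¹) ^ Jn * C₃ := by positivity
  refine ⟨C₁ + C₂ * (η⁻¹) ^ Jn * C₃ + Real.exp r₃, max r₁ (S' + r₃),
    max (max X₁ Ca) (Real.exp (T₀ / ε + 8 * T₀ / c + T₀)), by positivity, le_max_of_le_left hr₁, ?_⟩
  intro X hX3 hXX ps₀ hlen hz hs2 hnum q ps Lv N₁ hF hq hqX hps Bd hBd hT hln
  have hX0 : 0 < X := by linarith
  have hX1 : 1 ≤ X := by linarith
  obtain ⟨L', hL⟩ : ∃ L : ℝ, L = Real.log X := ⟨_, rfl⟩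
  have hTL : T₀ / ε + 8 * T₀ / c + T₀ ≤ L' := by
    rw [hL, Real.le_log_iff_exp_le hX0]
    exact (le_max_right _ _).trans hXX
  have hTε0 : 0 ≤ T₀ / ε := by positivity
  have hTc0 : 0 ≤ 8 * T₀ / c := by positivity
  have hL0 : 0 < L' := by linarith
  have hTε : T₀ ≤ ε * L' := by
    have h1 : T₀ / ε ≤ L' := by linarith
    rw [div_le_iff₀ hε] at h1
    linarith
  have hTc : 8 * T₀ ≤ c * L' := by
    have h1 : 8 * T₀ / c ≤ L' := by linarith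
    rw [div_le_iff₀ hc] at h1
    linarith
  have hpowX : ∀ x : ℝ, X ^ x = Real.exp (x * L') := fun x => by
    rw [Real.rpow_def_of_pos hX0, hL, mul_comm]
  -- sizes
  have hεc := hnum.ec
  obtain ⟨n, hn⟩ : ∃ n : ℝ, n = LL Dq ps₀ := ⟨_, rfl⟩
  obtain ⟨m, hm⟩ : ∃ m : ℝ, m = LF ps := ⟨_, rfl⟩
  have hz' : ∀ q ∈ ps, 0 ≤ q.1.z := hps.z_nonneg
  have hm0 : 0 ≤ m := by rw [hm]; exact LF_nonneg hz'
  obtain ⟨g, hg⟩ : ∃ x : ℝ, x = gN K c (LL Dq ps₀ / Real.log X) := ⟨_, rfl⟩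
  have hgL : g * L' = n - 3 / 4 * (K * L') + c * L' := by
    rw [hg, ← hL, ← hn]
    unfold NE73.gN
    field_simp
  have f1 := hF.lo
  have f2 := hF.hi
  have f3 := hF.lv
  have f4 := hF.nK
  have f5 := hnum.nK
  have f6 := hnum.Kn
  have f7 := hnum.vg
  rw [← hg, ← hL, ← hn, ← hm] at f1
  rw [← hL, ← hn, ← hm] at f2 f3
  rw [← hL, ← hn] at f4 f5 f6
  rw [← hg] at f7
  have hεL : 0 ≤ ε * L' := by positivity
  have hcL : 0 ≤ c * L' := by positivity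
  have hεcL : ε * L' ≤ c * L' := mul_le_mul_of_nonneg_right hεc hL0.le
  have hcKL : 2000 * (c * L') ≤ K * L' := by
    have := mul_le_mul_of_nonneg_right hcK hL0.le
    linarith
  have e1 : (K + ε) * L' = K * L' + ε * L' := by ring
  have e2 : (4 * K + ε) * L' = 4 * (K * L') + ε * L' := by ring
  have e3 : 3 * K * L' = 3 * (K * L') := by ring
  have e4 : (v + ε) * L' = v * L' + ε * L' := by ring
  rw [e1] at f4
  rw [e2] at f5
  rw [e3] at f6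
  rw [e4] at f3
  have hvL : 0 ≤ v * L' := by positivity
  have f8 : 3 * (v * L' + g * L') + 100 * (c * L') ≤ 2 * (K * L') + ε * L' := by
    have := mul_le_mul_of_nonneg_right f7 hL0.le
    have e5 : (3 * (v + g) + 100 * c) * L' = 3 * (v * L' + g * L') + 100 * (c * L') := by ring
    have e6 : (2 * K + ε) * L' = 2 * (K * L') + ε * L' := by ring
    linarith
  have hbL : b * L' = 8 * (K * L') + 8 * L' := by rw [hb]; ring
  have hKL : 0 ≤ K * L' := by positivity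
  -- the R-half
  have hCX : C₁ * X ^ B₁ ≤ (C₁ + C₂ * (η⁻¹) ^ Jn * C₃ + Real.exp r₃) *
      X ^ max B₁ (c₀ + 2 * K) := by
    have h1 : X ^ B₁ ≤ X ^ max B₁ (c₀ + 2 * K) :=
      Real.rpow_le_rpow_of_exponent_le hX1 (le_max_left _ _)
    have h2 := Real.exp_pos r₃
    have h3 : 0 ≤ X ^ B₁ := by positivity
    calc C₁ * X ^ B₁ ≤ (C₁ + C₂ * (η⁻¹) ^ Jn * C₃ + Real.exp r₃) * X ^ B₁ :=
          mul_le_mul_of_nonneg_right (by linarith) h3
      _ ≤ _ := mul_le_mul_of_nonneg_left h1 (by linarith)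
  have HR := H3 X hX3 ((le_max_left _ _).trans ((le_max_left _ _).trans hXX)) ps₀ hlen hz hs2 hnum
    q ps Lv N₁ hF hq hqX hps Bd hBd (hT.mono le_rfl (le_max_left _ _) hCX (hL ▸ hL0.le))
    (fun j θ l ps' hl0 hl hch h1 h2 h3 => hln j θ l ps' hl0 hl
      (Chd.mono' (le_max_left _ _) hCX hch) h1 h2 h3)
  -- the joint numbers
  have hFx := fxC_of (y := y) hT hc.le hy (by linarith) (by linarith) (hL ▸ hL0.le) (by linarith : 0 ≤ Bd)
  have hqb : (nm q : ℝ) * Real.exp (LF ps) * Real.exp r₃ ≤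
      (C₁ + C₂ * (η⁻¹) ^ Jn * C₃ + Real.exp r₃) * X ^ max B₁ (c₀ + 2 * K) := by
    have h1 : Real.exp (LF ps) ≤ X ^ (2 * K) := by
      rw [hpowX, ← hm]
      refine Real.exp_le_exp.2 ?_
      linarith
    have h2 : X ^ c₀ * X ^ (2 * K) ≤ X ^ max B₁ (c₀ + 2 * K) := by
      rw [← Real.rpow_add hX0]
      exact Real.rpow_le_rpow_of_exponent_le hX1 (le_max_right _ _)
    calc (nm q : ℝ) * Real.exp (LF ps) * Real.exp r₃ ≤ X ^ c₀ * X ^ (2 * K) * Real.exp r₃ := by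
          gcongr
      _ ≤ X ^ max B₁ (c₀ + 2 * K) * Real.exp r₃ :=
          mul_le_mul_of_nonneg_right h2 (Real.exp_pos _).le
      _ = Real.exp r₃ * X ^ max B₁ (c₀ + 2 * K) := by ring
      _ ≤ _ := mul_le_mul_of_nonneg_right (by linarith) (by positivity)
  obtain ⟨D, hDd⟩ : ∃ D : ℝ, D = Real.exp (min (gN K c (LL Dq ps₀ / Real.log X) * Real.log X)
    (LF ps - (LL Dq ps₀ - gN K c (LL Dq ps₀ / Real.log X) * Real.log X))) := ⟨_, rfl⟩
  have hD0 : 0 ≤ D := by rw [hDd]; exact (Real.exp_pos _).le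
  have hDX : D ≤ X ^ (8 * (K + 1)) := by
    rw [hDd, hpowX, ← hb, hbL]
    refine Real.exp_le_exp.2 ((min_le_left _ _).trans ?_)
    rw [← hg, ← hL]
    linarith
  obtain ⟨f, hfd⟩ : ∃ f : ℝ, f = φ₀ (LL Dq ps₀ / Real.log X) (Lv / Real.log X)
    (LF ps / Real.log X) := ⟨_, rfl⟩
  have hfL : f * L' ≤ m - 3 / 4 * (K * L') + (y + 3 / 4) * (c * L') := by
    have h1 := hφ₀ (LL Dq ps₀ / Real.log X) (Lv / Real.log X) (LF ps / Real.log X) (by
      rw [← hL, ← hm, le_div_iff₀ hL0]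
      have : (3 / 4 * K - c) * L' = 3 / 4 * (K * L') - c * L' := by ring
      linarith)
    rw [← hfd, ← hL, ← hm] at h1
    have h2 := mul_le_mul_of_nonneg_right h1 hL0.le
    have h3 : (m / L' - 3 / 4 * K + (y + 3 / 4) * c) * L' =
        m - 3 / 4 * (K * L') + (y + 3 / 4) * (c * L') := by
      field_simp
    linarith
  have hE0 : 0 < X ^ f := Real.rpow_pos_of_pos hX0 _
  have hlE : Real.log (3 * X ^ f) ≤ 2 + f * L' := by
    rw [Real.log_mul (by norm_num) hE0.ne', Real.log_rpow hX0, ← hL]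
    have := Real.log_le_sub_one_of_pos (x := 3) (by norm_num)
    linarith
  have hJB := HJ X hX3 (π lam) (hP lam) ps₀ hlen v c y g ε (2 * ε) S' (max r₁ (S' + r₃))
    ((C₁ + C₂ * (η⁻¹) ^ Jn * C₃ + Real.exp r₃) * X ^ max B₁ (c₀ + 2 * K)) Bd δ Jn hδ0 hNM
    (by linarith) (le_max_right _ _) hFx q ps Lv N₁ (hg ▸ hF) hq hqb hps (by rw [← hL]; linarith)
    (by
      rw [← hb, ← hL, hbL]
      linarith) (by
      rw [← hb, ← hL, hbL, ← hm]
      linarith) D (X ^ f) hD0 hDX hE0 (by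
      rw [← hL, ← hm]
      have h1 : N * (δ * L') ≤ c / 8 * L' := by
        rw [← mul_assoc]
        exact mul_le_mul_of_nonneg_right hδN hL0.le
      have h2 : 3 / 4 * K * L' = 3 / 4 * (K * L') := by ring
      have h3 : (y + 1) * c * L' = (y + 3 / 4) * (c * L') + c * L' / 4 := by ring
      linarith)
  -- the support
  have hX' : X ≤ X ^ (8 * (K + 1)) := by
    calc X = X ^ (1 : ℝ) := (Real.rpow_one X).symm
      _ ≤ _ := Real.rpow_le_rpow_of_exponent_le hX1 (by linarith)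
  obtain ⟨hsup, _, _, _⟩ := hAL (X ^ δ) (X ^ δ) (π lam) (hP lam) q ps (hps.length ▸ hlen)
    (X ^ (8 * (K + 1))) (((le_max_right _ _).trans ((le_max_left _ _).trans hXX)).trans hX') (by
      rw [← Real.exp_add, hpowX, ← hb, hbL, ← hm]
      refine Real.exp_le_exp.2 ?_
      linarith)
  have hN1 : 9 * (N₁ : ℝ) ≤ Real.exp (Lv + 4) := hF.N1
  have hN1' : (1 : ℝ) ≤ N₁ := (Real.one_le_exp hF.v0).trans hF.N0
  have hN1Y : (N₁ : ℝ) ≤ X ^ (8 * (K + 1)) := by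
    rw [hpowX, ← hb, hbL]
    refine le_trans (by linarith : (N₁ : ℝ) ≤ 9 * N₁) (hN1.trans (Real.exp_le_exp.2 ?_))
    linarith
  have hlK : Real.log (X ^ K) = K * L' := by rw [Real.log_rpow hX0, hL]
  have hcK' : (y + 1) * (c / K) * (K * L') = (y + 1) * c * L' := by field_simp
  have hH1 : 1 ≤ Ht ps := one_le_Ht _
  have hH2 : 1 ≤ Ht (natl ps₀) := one_le_Ht _
  have hHH : 1 ≤ Ht ps * Ht (natl ps₀) := one_le_mul_of_one_le_of_one_le hH1 hH2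
  have hHM : Ht (natl ps₀) ^ M * Ht ps ^ M ≤
      (Ht ps * Ht (natl ps₀)) ^ (max J₁ ((N + 1) * M)) := by
    rw [← Real.mul_rpow (by linarith) (by linarith), mul_comm (Ht (natl ps₀)) (Ht ps)]
    refine Real.rpow_le_rpow_of_exponent_le hHH (le_max_of_le_right ?_)
    nlinarith
  have hHJ : (Ht ps * Ht (natl ps₀)) ^ J₁ ≤
      (Ht ps * Ht (natl ps₀)) ^ (max J₁ ((N + 1) * M)) :=
    Real.rpow_le_rpow_of_exponent_le hHH (le_max_left _ _)
  have hη1' : 0 ≤ (η⁻¹) ^ Jn := by positivity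
  rw [← hDd, ← hfd] at HR ⊢
  intro I hI1 hI2
  have hRg := HR I hI1 hI2
  simp only [Real.log_exp] at hRg
  rw [hlK, hcK'] at hRg
  rw [← hL] at hJB
  have key := HN (X ^ K) (Real.exp (LF ps)) (X ^ (8 * (K + 1))) D (X ^ f) (hf _) η
    (4 / 3 * LF ps) (C₃ * X ^ (ε / 2) * (Bd * Ht (natl ps₀) ^ M) * Ht ps ^ M) N₁ I
    (ShN (K * L') (LF ps) ((y + 1) * c * L')) (Real.rpow_pos_of_pos hX0 _) (Real.exp_pos _)
    (hX1.trans hX') hD0 hE0 (by exact_mod_cast hN1') hN1Y hη hη1 (by positivity)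
    (lipS_ShN _ _ _) _ hsup hJB _ (by rw [hlK]; exact hRg)
  intro a ha t X' φ c1 c2 c3 c4
  refine (key a ha t X' φ c1 c2 c3 c4).trans ?_
  refine mul_le_mul_of_nonneg_left (mul_le_mul_of_nonneg_right ?_ (by positivity))
    (div_nonneg (Real.rpow_nonneg hX0.le _) (Real.exp_pos _).le)
  have hYe : (X ^ (8 * (K + 1))) ^ (ε / (2 * b)) = X ^ (ε / 2) := by
    rw [← hb, ← Real.rpow_mul hX0.le]
    congr 1
    field_simp
  have hXε : X ^ (ε / 2) * X ^ (ε / 2) = X ^ ε := by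
    rw [← Real.rpow_add hX0]; congr 1; ring
  rw [hYe, Real.log_exp]
  have e7 : 4 / 3 * LF ps + 2 / 3 * LF ps = 2 * LF ps := by ring
  rw [e7]
  obtain ⟨HH, hHHd⟩ : ∃ x : ℝ, x = (Ht ps * Ht (natl ps₀)) ^ (max J₁ ((N + 1) * M)) := ⟨_, rfl⟩
  rw [← hHHd] at hHM hHJ ⊢
  have hHH0 : 0 ≤ HH := by rw [hHHd]; positivity
  have hE2 := Real.exp_pos (2 * LF ps)
  have hXe0 : 0 ≤ X ^ ε := by positivity
  have hBd0 : 0 ≤ Bd := by linarith
  have p1 : C₂ * (η⁻¹) ^ Jn * X ^ (ε / 2) * (C₃ * X ^ (ε / 2) * (Bd * Ht (natl ps₀) ^ M) *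
      Ht ps ^ M * Real.exp (2 * LF ps)) ≤
      C₂ * (η⁻¹) ^ Jn * C₃ * X ^ ε * HH * Bd * Real.exp (2 * LF ps) := by
    calc C₂ * (η⁻¹) ^ Jn * X ^ (ε / 2) * (C₃ * X ^ (ε / 2) * (Bd * Ht (natl ps₀) ^ M) *
          Ht ps ^ M * Real.exp (2 * LF ps)) =
        C₂ * (η⁻¹) ^ Jn * C₃ * (X ^ (ε / 2) * X ^ (ε / 2)) * (Ht (natl ps₀) ^ M * Ht ps ^ M) *
          Bd * Real.exp (2 * LF ps) := by ring
      _ ≤ _ := by
        rw [hXε]
        gcongr
  have p2 : C₁ * X ^ ε * (Ht ps * Ht (natl ps₀)) ^ J₁ * Bd * Real.exp (2 * LF ps) ≤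
      C₁ * X ^ ε * HH * Bd * Real.exp (2 * LF ps) := by gcongr
  have p3 : 0 ≤ Real.exp r₃ * X ^ ε * HH * Bd * Real.exp (2 * LF ps) := by positivity
  have e8 : (C₁ + C₂ * (η⁻¹) ^ Jn * C₃ + Real.exp r₃) * X ^ ε * HH * Bd * Real.exp (2 * LF ps) =
      C₁ * X ^ ε * HH * Bd * Real.exp (2 * LF ps) +
      C₂ * (η⁻¹) ^ Jn * C₃ * X ^ ε * HH * Bd * Real.exp (2 * LF ps) +
      Real.exp r₃ * X ^ ε * HH * Bd * Real.exp (2 * LF ps) := by ring
  rw [e8]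
  linarith

end Crest.Agent.R017.NLn180
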