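import Crest.Agent.R017.R2N_777
import Crest.Agent.R017.PrE_176
import Crest.Agent.R017.NXe_298

/-!
# Row 17, FlatNE class E (helper320): the principal term of the cross number at the near leaf

* `PjN`     : the exponent of `PJm`
* `pjm_exp` : `PJm` at exponentials
* `mu_exp`  : `Mu` as an exponential
* **`prinN`** : the real line
* `s0_near` : the short length `s₀` at the near leaf
-/

set_option autoImplicit false
set_option linter.unusedVariables false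

noncomputable section

namespace Crest.Agent.R017.NRP320

open Crest.Agent.R012 Crest.Agent.R012.Eis
open Crest.Agent.R017.NE73 (flK gN)
open Crest.Agent.R017.R2N777 (ThN StN fl_le)
open Crest.Agent.R017.PrE176 (PJm)
open Crest.Agent.R017.PrD502 (Mu)
open Crest.Agent.R017.Leg381 (Pf LF)
open Crest.Agent.R017.NEg551 (NNum NFacts)
open Crest.Agent.R017.RX298 (NNumX)
open Crest.Agent.R017.XP699 (LL)
open Crest.Agent.R017.B770
open Crest.Agent.R017.Prov71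

/-- the exponent of `PJm` -/
def PjN (K x a v ν h σ : ℝ) : ℝ :=
  max (max (-σ + 2 / 3 * K + v / 6 - a) (max (-σ + K - x / 3 - 2 / 3 * ν - a)
    (-σ + 4 / 3 * K - 2 / 3 * x - ν - a))) (max ((v + K + h) / 3 - σ / 3)
    (2 / 3 * v + a + ν / 3 + 2 / 3 * h))

/-- **`PJm` at exponentials** -/
theorem pjm_exp {K x a v ν h σ nM : ℝ} (hM : 1 ≤ nM) :
    PJm (Real.exp K) (Real.exp v) (Real.exp x) (Real.exp a) nM (Real.exp ν) (Real.exp h)
      (Real.exp (-σ)) 1 ≤ 6 * nM * Real.exp (PjN K x a v ν h σ) := by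
  have hM0 : 0 < nM := by linarith
  have hM13 : nM ^ ((1 : ℝ) / 3) ≤ nM := by
    calc nM ^ ((1 : ℝ) / 3) ≤ nM ^ (1 : ℝ) :=
          Real.rpow_le_rpow_of_exponent_le hM (by norm_num)
      _ = nM := Real.rpow_one _
  have hM130 : 0 ≤ nM ^ ((1 : ℝ) / 3) := Real.rpow_nonneg hM0.le _
  obtain ⟨E, hE⟩ : ∃ z : ℝ, z = Real.exp (PjN K x a v ν h σ) := ⟨_, rfl⟩
  have hE0 : 0 < E := by rw [hE]; exact Real.exp_pos _
  rw [← hE]
  have p1 : Real.exp (-σ) * (Real.exp K ^ ((2 : ℝ) / 3) * Real.exp v ^ ((1 : ℝ) / 6) /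
      Real.exp a) ≤ E := by
    rw [hE, ← Real.exp_mul, ← Real.exp_mul, ← Real.exp_add, ← Real.exp_sub, ← Real.exp_add]
    refine Real.exp_le_exp.2 (le_trans (le_of_eq (by ring))
      ((le_max_left (-σ + 2 / 3 * K + v / 6 - a) _).trans (le_max_left _ _)))
  have p2 : Real.exp (-σ) * (Real.exp K * Real.exp x ^ (-(1 / 3) : ℝ) *
      Real.exp ν ^ (-(2 / 3) : ℝ) / Real.exp a) ≤ E := by
    rw [hE, ← Real.exp_mul, ← Real.exp_mul, ← Real.exp_add, ← Real.exp_add, ← Real.exp_sub,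
      ← Real.exp_add]
    refine Real.exp_le_exp.2 (le_trans (le_of_eq (by ring))
      (((le_max_left (-σ + K - x / 3 - 2 / 3 * ν - a) _).trans
        (le_max_right _ _)).trans (le_max_left _ _)))
  have p3 : Real.exp (-σ) * (Real.exp K ^ ((4 : ℝ) / 3) * Real.exp x ^ (-(2 / 3) : ℝ) *
      (Real.exp ν)⁻¹ / Real.exp a) ≤ E := by
    rw [hE, ← Real.exp_mul, ← Real.exp_mul, ← Real.exp_neg, ← Real.exp_add, ← Real.exp_add,
      ← Real.exp_sub, ← Real.exp_add]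
    refine Real.exp_le_exp.2 (le_trans (le_of_eq (by ring))
      (((le_max_right _ (-σ + 4 / 3 * K - 2 / 3 * x - ν - a)).trans
        (le_max_right _ _)).trans (le_max_left _ _)))
  have p4 : (Real.exp v * Real.exp K * Real.exp h) ^ ((1 : ℝ) / 3) *
      Real.exp (-σ) ^ ((1 : ℝ) / 3) ≤ E := by
    rw [hE, ← Real.exp_add, ← Real.exp_add, ← Real.exp_mul, ← Real.exp_mul, ← Real.exp_add]
    refine Real.exp_le_exp.2 (le_trans (le_of_eq (by ring))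
      ((le_max_left ((v + K + h) / 3 - σ / 3) _).trans (le_max_right _ _)))
  have p5 : Real.exp v ^ ((2 : ℝ) / 3) * Real.exp a * Real.exp ν ^ ((1 : ℝ) / 3) *
      Real.exp h ^ ((2 : ℝ) / 3) ≤ E := by
    rw [hE, ← Real.exp_mul, ← Real.exp_mul, ← Real.exp_mul, ← Real.exp_add, ← Real.exp_add,
      ← Real.exp_add]
    refine Real.exp_le_exp.2 (le_trans (le_of_eq (by ring))
      ((le_max_right _ (2 / 3 * v + a + ν / 3 + 2 / 3 * h)).trans (le_max_right _ _)))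
  have q3 : Real.exp (-σ) * (Real.exp K ^ ((4 : ℝ) / 3) * Real.exp x ^ (-(2 / 3) : ℝ) *
      nM ^ ((1 : ℝ) / 3) * (Real.exp ν)⁻¹ / Real.exp a) ≤ nM * E := by
    calc Real.exp (-σ) * (Real.exp K ^ ((4 : ℝ) / 3) * Real.exp x ^ (-(2 / 3) : ℝ) *
      nM ^ ((1 : ℝ) / 3) * (Real.exp ν)⁻¹ / Real.exp a) = nM ^ ((1 : ℝ) / 3) *
        (Real.exp (-σ) * (Real.exp K ^ ((4 : ℝ) / 3) * Real.exp x ^ (-(2 / 3) : ℝ) *
      (Real.exp ν)⁻¹ / Real.exp a)) := by ring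
      _ ≤ nM * E := mul_le_mul hM13 p3 (by positivity) hM0.le
  have q5 : 1 * (Real.exp v ^ ((2 : ℝ) / 3) * Real.exp a *
      (nM * Real.exp ν) ^ ((1 : ℝ) / 3) * Real.exp h ^ ((2 : ℝ) / 3)) ≤ nM * E := by
    rw [Real.mul_rpow hM0.le (Real.exp_pos ν).le]
    calc 1 * (Real.exp v ^ ((2 : ℝ) / 3) * Real.exp a *
      (nM ^ ((1 : ℝ) / 3) * Real.exp ν ^ ((1 : ℝ) / 3)) * Real.exp h ^ ((2 : ℝ) / 3)) =
        nM ^ ((1 : ℝ) / 3) * (Real.exp v ^ ((2 : ℝ) / 3) * Real.exp a *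
        Real.exp ν ^ ((1 : ℝ) / 3) * Real.exp h ^ ((2 : ℝ) / 3)) := by ring
      _ ≤ nM * E := mul_le_mul hM13 p5 (by positivity) hM0.le
  have hEM : E ≤ nM * E := le_mul_of_one_le_left hE0.le hM
  unfold PJm
  rw [mul_add, mul_add]
  have : 6 * nM * E = 6 * (nM * E) := by ring
  rw [this]
  have hnE : 0 ≤ nM * E := by positivity
  linarith

lemma mu_exp {s₀ : ℝ} {g : Eis} (hg : g ≠ 0) :
    Mu s₀ g = Real.exp (-(max 0 (s₀ - Real.log (nm g)))) := by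
  have hg0 : (0 : ℝ) < nm g := by exact_mod_cast nm_pos.2 hg
  unfold PrD502.Mu
  have e1 : (nm g : ℝ) * Real.exp (-s₀) = Real.exp (-(s₀ - Real.log (nm g))) := by
    rw [neg_sub, Real.exp_sub, Real.exp_log hg0, Real.exp_neg]
    rfl
  rw [e1]
  nth_rewrite 1 [← Real.exp_zero]
  rw [← Real.exp_monotone.map_min]
  congr 1
  rw [← min_neg_neg, neg_zero]

/-- **the real line of the principal term** -/
theorem prinN {K n V t w h d₀ ν A e v s₀ σ : ℝ} (hS : StN K n V t) (hw0 : 0 ≤ w)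
    (hw : 100 * w ≤ K) (hV : 2 * n - K + w ≤ V) (hn : 3 * K ≤ 4 * n + t)
    (hs : (V + n - K) / 3 + (n - 3 / 4 * K) + w ≤ s₀) (hh0 : 0 ≤ h)
    (hh : 3 * h ≤ max 0 (4 * n - 3 * K) + K / 200) (hν : 0 ≤ ν) (hA : 0 ≤ A) (hAd : A ≤ d₀)
    (he : 0 ≤ e) (he9 : 9 * e ≤ max 0 (4 * n - 3 * K) + K / 100) (hv : 0 ≤ v)
    (hvV : v + 2 * (d₀ + ν) ≤ V + t) (hσ : s₀ - d₀ ≤ σ) (hσ0 : 0 ≤ σ) :
    (d₀ + ν) + v / 3 - 2 / 3 * K + e + 2 * (n - d₀) +
      PjN K (n - d₀) (e + A) v ν h σ + w ≤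
      2 * (K + n) - ThN K n (d₀ + ν) e v + 4 * t := by
  obtain ⟨K0, t0, tK, n5, n3, vn⟩ := hS
  have hmx : max 0 (4 * n - 3 * K) ≤ 4 * n - 3 * K + t := max_le (by linarith) (by linarith)
  have hh' : 3 * h ≤ 4 * n - 3 * K + t + K / 200 := hh.trans (by linarith)
  have he' : 9 * e ≤ 4 * n - 3 * K + t + K / 100 := he9.trans (by linarith)
  clear hh he9 hmx
  unfold ThN
  have hF := fl_le K (v + e) (n - (d₀ + ν) - e)
  unfold PjN
  have key : ∀ P : ℝ, (P ≤ -σ + 2 / 3 * K + v / 6 - (e + A) ∨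
      P ≤ -σ + K - (n - d₀) / 3 - 2 / 3 * ν - (e + A) ∨
      P ≤ -σ + 4 / 3 * K - 2 / 3 * (n - d₀) - ν - (e + A) ∨
      P ≤ (v + K + h) / 3 - σ / 3 ∨ P ≤ 2 / 3 * v + (e + A) + ν / 3 + 2 / 3 * h) →
      (d₀ + ν) + v / 3 - 2 / 3 * K + e + 2 * (n - d₀) + P + w ≤
      2 * (K + n) - ((d₀ + ν) + 2 / 3 * K - v / 3 - (n - (d₀ + ν)) / 3 +
        flK K (v + e) (n - (d₀ + ν) - e)) + 4 * t := by
    intro P hP
    rcases hF with hF | hF <;> rcases hP with hP | hP | hP | hP | hP <;> linarith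
  rcases le_total (max (-σ + 2 / 3 * K + v / 6 - (e + A)) (max (-σ + K - (n - d₀) / 3 -
    2 / 3 * ν - (e + A)) (-σ + 4 / 3 * K - 2 / 3 * (n - d₀) - ν - (e + A))))
    (max ((v + K + h) / 3 - σ / 3) (2 / 3 * v + (e + A) + ν / 3 + 2 / 3 * h)) with h1 | h1
  · rw [max_eq_right h1]
    rcases le_total ((v + K + h) / 3 - σ / 3) (2 / 3 * v + (e + A) + ν / 3 + 2 / 3 * h)
      with h2 | h2
    · rw [max_eq_right h2]
      exact key _ (Or.inr (Or.inr (Or.inr (Or.inr le_rfl))))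
    · rw [max_eq_left h2]
      exact key _ (Or.inr (Or.inr (Or.inr (Or.inl le_rfl))))
  · rw [max_eq_left h1]
    rcases le_total (-σ + 2 / 3 * K + v / 6 - (e + A)) (max (-σ + K - (n - d₀) / 3 -
      2 / 3 * ν - (e + A)) (-σ + 4 / 3 * K - 2 / 3 * (n - d₀) - ν - (e + A))) with h2 | h2
    · rw [max_eq_right h2]
      rcases le_total (-σ + K - (n - d₀) / 3 - 2 / 3 * ν - (e + A))
        (-σ + 4 / 3 * K - 2 / 3 * (n - d₀) - ν - (e + A)) with h3 | h3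
      · rw [max_eq_right h3]
        exact key _ (Or.inr (Or.inr (Or.inl le_rfl)))
      · rw [max_eq_left h3]
        exact key _ (Or.inr (Or.inl le_rfl))
    · rw [max_eq_left h2]
      exact key _ (Or.inl le_rfl)

/-- **the short length at the near leaf** -/
theorem s0_near {K v c e₁ d ε X Lv : ℝ} {ps₀ : List Pq} {ps : List Pf} {N₁ : ℕ} (hX : 3 ≤ X)
    (hc : 0 ≤ c) (hε : 0 ≤ ε) (hn : NNum K v c ε X ps₀) (hx : NNumX K v c e₁ d ε X ps₀)
    (hF : NFacts K v (gN K c (LL Dq ps₀ / Real.log X)) ε X ps₀ ps Lv N₁) :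
    (Lv + LF ps - K * Real.log X) / 3 + (LF ps - 3 / 4 * (K * Real.log X)) +
      29 * (c * Real.log X) ≤ d * Real.log X - max 0 (LL Dq ps₀ - LF ps) ∧
    2 * LF ps - K * Real.log X + 90 * (c * Real.log X) ≤ Lv ∧
    3 * (K * Real.log X) ≤ 4 * LF ps + 4 * (gN K c (LL Dq ps₀ / Real.log X) * Real.log X) +
      c * Real.log X := by
  have hL0 : 0 < Real.log X := Real.log_pos (by linarith)
  have hgN : gN K c (LL Dq ps₀ / Real.log X) = LL Dq ps₀ / Real.log X - 3 / 4 * K + c := rfl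
  obtain ⟨L, hL⟩ : ∃ z : ℝ, z = Real.log X := ⟨_, rfl⟩
  obtain ⟨n, hn'⟩ : ∃ z : ℝ, z = LL Dq ps₀ := ⟨_, rfl⟩
  obtain ⟨g, hg⟩ : ∃ z : ℝ, z = gN K c (LL Dq ps₀ / Real.log X) := ⟨_, rfl⟩
  obtain ⟨m, hm⟩ : ∃ z : ℝ, z = LF ps := ⟨_, rfl⟩
  have n1 := hn.top
  have n3 := hn.Kn
  have n6 := hn.ec
  have x1 := hx.bg
  have f2 := hF.lo
  have f3 := hF.hi
  have f5 := hF.lv
  have f6 := hF.lv0
  rw [← hg] at x1 f2
  rw [← hL] at hL0 n1 n3 x1 f2 f3 f5 f6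
  rw [← hn'] at n1 n3 x1 f2 f3 f5 f6
  rw [← hm] at f2 f3 f5 f6
  rw [← hg, ← hL, ← hn'] at hgN
  have hgL : g * L = n - 3 / 4 * (K * L) + c * L := by
    rw [hgN]
    field_simp
  have a2 := mul_le_mul_of_nonneg_right n6 hL0.le
  have a3 : 0 ≤ ε * L := by positivity
  have a5 : 0 ≤ c * L := by positivity
  rw [← hg, ← hL, ← hn', ← hm]
  rcases le_total 0 (n - m) with h1 | h1
  · rw [max_eq_right h1]
    refine ⟨by linarith, by linarith, by linarith⟩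
  · rw [max_eq_left h1]
    refine ⟨by linarith, by linarith, by linarith⟩

end Crest.Agent.R017.NRP320
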