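import Crest.Agent.R017.NES_545

/-!
# Row 17, FlatNE: assembly of the side conditions (helper545)

* `hC c` : the second scale `3 F3 + 3 c`
* `dQa T qm` : the line of helper791's `RqLn`
* `RealQ` : the side conditions of a family of lines on the near domain
* `qhN_of`, `qhE_of` : `QH`, `QHr` for the lines of class N, class E
-/

set_option autoImplicit false
set_option linter.unusedVariables false

noncomputable section

open Set Filter Topology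

namespace Crest.Agent.R017.RGB545

open Crest.Agent.R012 Crest.Agent.R012.Eis Crest.Agent.R012.LS2
open Crest.Agent.R017.B770
open Crest.Agent.R017.Prov71
open Crest.Agent.R017.XP699
open Crest.Agent.R017.ER911 (Ok Sh EF ExpRules)
open Crest.Agent.R017.RuleM545
open Crest.Agent.R017.XPD571
open Crest.Agent.R017.XS0298
open Crest.Agent.R017.Red848
open Crest.Agent.R017.SC777 (Full PM sh3 sum3)
open Crest.Agent.R017.NE73 (flK QH)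
open Crest.Agent.R017.NEx911 (QHr)
open Crest.Agent.R017.PM320 (Clo)
open Crest.Agent.R017.PX829 (PX PXs)

variable {Lam ι ι' : Type*} {p : ℕ} {π : Lam → DPar} {h : ℝ → ℝ} {c₁ θ d : ℝ} {r s s₀ : EF}

/-- **the second scale** `h = 3 F3 + 3 c` -/
def hC (c K V n : ℝ) : ℝ := 3 * max 0 ((4 * n - 3 * K) / 9) + 3 * c

lemma contH_hC (c : ℝ) : ContH (hC c) := by
  unfold ContH hC
  fun_prop

lemma hC_nonneg {c : ℝ} (hc : 0 ≤ c) (K V n : ℝ) : 0 ≤ hC c K V n := by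
  have := le_max_left 0 ((4 * n - 3 * K) / 9)
  unfold hC
  linarith

lemma hC_le {c K V n : ℝ} (hc : 1800 * c ≤ K) :
    3 * hC c K V n ≤ max 0 (4 * n - 3 * K) + K / 200 := by
  unfold hC
  have h1 : 9 * max 0 ((4 * n - 3 * K) / 9) = max 0 (4 * n - 3 * K) := by
    rcases max_cases 0 ((4 * n - 3 * K) / 9) with ⟨h, h'⟩ | ⟨h, h'⟩
    · rw [h, max_eq_left (by linarith)]; ring
    · rw [h, max_eq_right (by linarith)]; ring
  linarith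

/-- the line of helper791's `RqLn` : value `n' + T (K, V, n, l, n - n')` at levels `≤ qm (K, V, n)` -/
def dQa (T : ℝ → ℝ → ℝ → ℝ → ℝ → ℝ) (qm : ℝ → ℝ → ℝ → ℝ) : LD Unit 9 where
  k _ := .rf
  b _ _ := 0
  zl _ := False
  G _ x _ := max (x 3 - qm (x 0) (x 1) (x 2)) (x 4 - x 2)
  F _ x _ := x 4 + T (x 0) (x 1) (x 2) (x 3) (x 2 - x 4) - (4 / 3 * x 2 + (x 1 + x 0) / 3)

theorem dQa_ok {T : ℝ → ℝ → ℝ → ℝ → ℝ → ℝ} {qm : ℝ → ℝ → ℝ → ℝ}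
    (hT : Continuous fun x : Fin 5 → ℝ => T (x 0) (x 1) (x 2) (x 3) (x 2 - x 4))
    (hq : ContH qm) : (dQa T qm).OK where
  cb _ := continuous_const
  b0 _ θ hθ := le_rfl
  cG _ := by
    have h1 : Continuous fun x : (Fin 5 → ℝ) × (Fin 9 → ℝ) => qm (x.1 0) (x.1 1) (x.1 2) :=
      hq.comp continuous_fst
    exact Continuous.max (Continuous.sub (by fun_prop) h1) (by fun_prop)
  cF _ := by
    have h1 : Continuous fun x : (Fin 5 → ℝ) × (Fin 9 → ℝ) =>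
        T (x.1 0) (x.1 1) (x.1 2) (x.1 3) (x.1 2 - x.1 4) := hT.comp continuous_fst
    exact (Continuous.add (by fun_prop) h1).sub (by fun_prop)

/-- **the side conditions of a family of lines on the near domain** -/
def RealQ (d : ℝ) (NP : ℝ → ℝ → Multiset ℝ → ℝ → ℝ → ℝ → Prop)
    (NR : ℝ → Multiset ℝ → ℝ → ℝ → ℝ → Prop) (s₀ : EF) (κ : ℝ) (D : LD ι p) : Prop :=
  ∀ K V z₁ z₂ z₃ F : ℝ, κ ≤ K → NearA d K V z₁ z₂ z₃ F →
    QK NP NR s₀ D K V {z₁, z₂, z₃} 0 0 (flK K V (z₁ + z₂ + z₃) + F)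

theorem RealQ.sum {NP : ℝ → ℝ → Multiset ℝ → ℝ → ℝ → ℝ → Prop}
    {NR : ℝ → Multiset ℝ → ℝ → ℝ → ℝ → Prop} {κ : ℝ} {D : LD ι p} {D' : LD ι' p}
    (h1 : RealQ d NP NR s₀ κ D) (h2 : RealQ d NP NR s₀ κ D') : RealQ d NP NR s₀ κ (D.sum D') :=
  fun K V z₁ z₂ z₃ F hK hA => (h1 K V z₁ z₂ z₃ F hK hA).sum (h2 K V z₁ z₂ z₃ F hK hA)

/-- the pair line, class N -/
theorem realQ_r2 (R : ExpRules (7 / 8 + d) r s) (hd : 0 ≤ d) (hd8 : d ≤ 1 / 8) {c κ : ℝ}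
    (hc : 0 ≤ c) (hκ : 1800 * c ≤ κ) :
    RealQ d (NPc d r s) (fun l Y m a ρ => Full (7 / 8 + d) r l Y m a ρ) s₀ κ (dR2 (hC c)) := by
  intro K V z₁ z₂ z₃ F hK hA
  exact r2N_qk R hd hd8 rfl hA.h1 hA.h2 hA.h3 hA.V0 hA.K0 hA.n5 hA.n3 hA.vn (hC_nonneg hc _ _ _)
    (hC_le (by linarith)) hA.F0

/-! ### the near domain at the level of `QH` -/

/-- `QH` from `NearA` with the family bounded below -/
theorem qh_of' {Q : ℝ → ℝ → Multiset ℝ → ℝ → ℝ → ℝ → Prop} {κ S y₁ y₂ y₃ F₀ c : ℝ}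
    (hdom : NE73.NearDom κ S y₁ y₂ y₃) (hd : 0 ≤ d) (hF0 : 0 ≤ F₀)
    (hF : 2 * d * min y₁ (min y₂ y₃) ≤ F₀)
    (h : ∀ K V z₁ z₂ z₃ F : ℝ, κ ≤ K → NearA d K V z₁ z₂ z₃ F →
      Q K V {z₁, z₂, z₃} 0 0 (flK K V (z₁ + z₂ + z₃) + F))
    (hc : 0 < c) (hcκ : 5000 * c ≤ κ) : QH Q c (κ + 100 * c) S y₁ y₂ y₃ (F₀ + 100 * c) := by
  have y1 := hdom.y1
  have y21 := hdom.y21
  have y32 := hdom.y32
  have n5 := hdom.n5
  have S2 := hdom.S2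
  have κ0 := hdom.κ0
  intro K v z₁ z₂ z₃ hK a1 b1 a2 b2 a3 b3 hKn hv hvS h3v
  refine h K v z₁ z₂ z₃ _ (by linarith) ⟨by linarith, hv, a1, a2, a3, by linarith, by linarith,
    by linarith, h3v, ?_, by linarith, Or.inl ⟨by linarith, by linarith, by linarith⟩⟩
  have hm : min z₁ (min z₂ z₃) ≤ min y₁ (min y₂ y₃) := min_le_min b1 (min_le_min b2 b3)
  have := mul_le_mul_of_nonneg_left hm (by linarith : (0 : ℝ) ≤ 2 * d)
  linarith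

/-- `QHr` from `NearA` with the family bounded below -/
theorem qhr_of' {Q : ℝ → ℝ → Multiset ℝ → ℝ → ℝ → ℝ → Prop} {κ S y₁ y₂ y₃ F₀ c : ℝ}
    (hdom : NE73.NearDom κ S y₁ y₂ y₃) (hd : 0 ≤ d) (hF0 : 0 ≤ F₀)
    (hF : 2 * d * ((y₁ + y₂ + y₃) / 3) ≤ F₀)
    (h : ∀ K V z₁ z₂ z₃ F : ℝ, κ ≤ K → NearA d K V z₁ z₂ z₃ F →
      Q K V {z₁, z₂, z₃} 0 0 (flK K V (z₁ + z₂ + z₃) + F))
    (hc : 0 < c) (hcκ : 5000 * c ≤ κ) :
    QHr Q c (κ + 100 * c) S (y₁ + y₂ + y₃) y₃ (F₀ + 100 * c) := by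
  have y1 := hdom.y1
  have y21 := hdom.y21
  have y32 := hdom.y32
  have n5 := hdom.n5
  have S2 := hdom.S2
  have κ0 := hdom.κ0
  intro K v z₁ z₂ z₃ hK a1 a2 a3 b3 hn hdK hKn hv hvS h3v
  refine h K v z₁ z₂ z₃ _ (by linarith) ⟨by linarith, hv, a1, a2, a3, by linarith, by linarith,
    by linarith, h3v, ?_, by linarith, Or.inr ⟨by linarith, by linarith⟩⟩
  have h1 := dmin_le (d := d) (z₁ := z₁) (z₂ := z₂) (z₃ := z₃) hd
  have h2 : 2 * d * ((z₁ + z₂ + z₃) / 3) ≤ 2 * d * ((y₁ + y₂ + y₃) / 3) :=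
    mul_le_mul_of_nonneg_left (by linarith) (by linarith)
  linarith

/-! ### class N -/

/-- **the side conditions of class N on the near domain** -/
theorem qhN_of (H : DataN (7 / 8 + d) π h c₁)
    (R : ExpRules (7 / 8 + d) (ex Dq (RN0 π h)) s) (hd : 0 ≤ d) (hd8 : d ≤ 1 / 8)
    {D : LD ι p} (hD : D.OK) {κ S y₁ y₂ y₃ c : ℝ} (hdom : NE73.NearDom κ S y₁ y₂ y₃)
    (hR : RealQ d (NPc d (ex Dq (RN0 π h)) (ex Dq (SP0 π h)))
      (fun l Y m a ρ => Full (7 / 8 + d) (ex Dq (RN0 π h)) l Y m a ρ) (ex Dq (S0f π h)) κ D)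
    {F₀ : ℝ} (hF0 : 0 ≤ F₀) (hF : 2 * d * min y₁ (min y₂ y₃) ≤ F₀)
    (hc : 0 < c) (hcκ : 5000 * c ≤ κ) :
    QH (QG (LNk π h D)) c (κ + 100 * c) S y₁ y₂ y₃ (F₀ + 100 * c) :=
  qh_of' hdom hd hF0 hF (fun K V z₁ z₂ z₃ F hK hA =>
    qgNc_of H R hd hd8 hD (hR K V z₁ z₂ z₃ F hK hA)) hc hcκ

/-! ### class E -/

/-- **the side conditions of class E on the near domain** -/
theorem qhE_of (H : DataE (7 / 8 + d) π h c₁)
    {PA : ℝ → ℝ → Multiset ℝ → ℝ → ℝ → ℝ → Prop} (hPA : PAok (rdE π) h PA) (hd : 0 ≤ d)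
    {D : LD ι p} (hD : D.OK) {κ S y₁ y₂ y₃ c : ℝ} (hdom : NE73.NearDom κ S y₁ y₂ y₃)
    (hR : RealQ d PA (fun l Y m a ρ => Full (7 / 8 + d) (ex Dq (RNe π h)) l Y m a ρ)
      (ex Dq (S0e π h)) κ D)
    {F₀ : ℝ} (hF0 : 0 ≤ F₀) (hF : 2 * d * ((y₁ + y₂ + y₃) / 3) ≤ F₀)
    (hc : 0 < c) (hcκ : 5000 * c ≤ κ) :
    QH (QG (LEk (rdE π) h D)) c (κ + 100 * c) S y₁ y₂ y₃ (F₀ + 100 * c) ∧
      QHr (QG (LEk (rdE π) h D)) c (κ + 100 * c) S (y₁ + y₂ + y₃) y₃ (F₀ + 100 * c) :=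
  ⟨qh_of' hdom hd hF0 ((dmin_le hd).trans hF) (fun K V z₁ z₂ z₃ F hK hA =>
      qgE_of H hPA hD (hR K V z₁ z₂ z₃ F hK hA)) hc hcκ,
    qhr_of' hdom hd hF0 hF (fun K V z₁ z₂ z₃ F hK hA =>
      qgE_of H hPA hD (hR K V z₁ z₂ z₃ F hK hA)) hc hcκ⟩

end Crest.Agent.R017.RGB545
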