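import Crest.Agent.R017.R2MXp_994
import Crest.Agent.R017.NET_545

/-!
# Row 17, FlatNE: the pair line of class E (helper603)

* `dR2X hh` : the pair line of class E: helper545's `dR2` with the maximum of the flat number `ThN`
  and the bias number `TbN` at the short lump `sX = (V + n - K) / 3 + (n - 3/4 K)`
* `r2X_qk` : its side conditions from helper994's `r2MX_pxsT`
* `realQ_r2X` : `RealQ`
-/

set_option autoImplicit false
set_option linter.unusedVariables false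

noncomputable section

open Set Filter Topology

namespace Crest.Agent.R017.RGB545

open Crest.Agent.R012 Crest.Agent.R012.Eis Crest.Agent.R012.LS2
open Crest.Agent.R017.B770
open Crest.Agent.R017.Prov71
open Crest.Agent.R017.XP699
open Crest.Agent.R017.ER911 (Ok Sh EF ExpRules)
open Crest.Agent.R017.RuleM545
open Crest.Agent.R017.XPD571
open Crest.Agent.R017.SC777 (Full PM sh3 sum3)
open Crest.Agent.R017.R2N777 (ThN StN)
open Crest.Agent.R017.R2M777 (WwN)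
open Crest.Agent.R017.R2NX994 (TbN)
open Crest.Agent.R017.R2MX994 (r2MX_pxsT)
open Crest.Agent.R017.NE73 (flK)
open Crest.Agent.R017.PX829 (PX PXs)

variable {d : ℝ} {r s s₀ : EF}

/-- the short lump of the replaced list, at least -/
def sX (x : Fin 5 → ℝ) : ℝ := (x 1 + x 2 - x 0) / 3 + (x 2 - 3 / 4 * x 0)

/-- the exponent of the pair line, class E -/
def FR2X (x : Fin 5 → ℝ) (θ : Fin 9 → ℝ) : ℝ :=
  2 * (x 0 + x 2) - max (ThN (x 0) (x 2) (θ 4 + θ 5) (θ 7) (θ 8))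
      (TbN (x 0) (sX x) (x 2) (θ 4 + θ 5) (θ 7) (θ 8)) -
    (θ 4 + θ 5 - θ 6 + (WwN (θ 8 + θ 7 + θ 6) (iR x θ) (θ 2) (θ 5) - iR x θ) + θ 3) - x 0 / 500 -
    (4 / 3 * x 2 + (x 1 + x 0) / 3)

/-- **the pair line, class E** -/
def dR2X (hh : ℝ → ℝ → ℝ → ℝ) : LD Unit 9 where
  k _ := .pf
  b _ θ := θ 0
  zl _ := False
  G _ x θ := GR2 hh x θ
  F _ x θ := FR2X x θ

theorem dR2X_ok {hh : ℝ → ℝ → ℝ → ℝ} (hc : ContH hh) : (dR2X hh).OK where
  cb _ := by
    show Continuous fun θ : Fin 9 → ℝ => θ 0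
    fun_prop
  b0 _ θ hθ := hθ 0
  cG j := (dR2_ok hc).cG j
  cF _ := by
    show Continuous fun x : (Fin 5 → ℝ) × (Fin 9 → ℝ) => FR2X x.1 x.2
    unfold FR2X iR sX R2N777.ThN NE73.flK R2M777.WwN R2NX994.TbN
    fun_prop

/-- **the pair line of a near list, class E**, from helper994's `r2MX_pxsT` -/
theorem r2X_qk (R : ExpRules (7 / 8 + d) r s) (hd : 0 ≤ d) (hd8 : d ≤ 1 / 8)
    {hh : ℝ → ℝ → ℝ → ℝ} {K V y₁ y₂ y₃ n F : ℝ} (hn : n = y₁ + y₂ + y₃) (h1 : 0 ≤ y₁)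
    (h2 : 0 ≤ y₂) (h3 : 0 ≤ y₃) (hV : 0 ≤ V) (hK : 0 < K) (n5 : 5 * n ≤ 4 * K)
    (n3 : 1499 * K ≤ 2000 * n) (vn : 5 * (V + n) ≤ 7 * K) (hh0 : 0 ≤ hh K V n)
    (hh1 : 3 * hh K V n ≤ max 0 (4 * n - 3 * K) + K / 200)
    (hF : 2 * d * min y₁ (min y₂ y₃) ≤ F) :
    QK (fun l β Y m a ρ => PXs (7 / 8 + d) r s l β Y m a ρ)
      (fun l Y m a ρ => Full (7 / 8 + d) r l Y m a ρ) s₀ (dR2X hh) K V
      {y₁, y₂, y₃} 0 0 (flK K V n + F) := by
  have hy0 : 0 ≤ min y₁ (min y₂ y₃) := le_min h1 (le_min h2 h3)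
  have hF0 : 0 ≤ F := (mul_nonneg (by linarith) hy0).trans hF
  have hfl : 4 / 3 * n + (V + K) / 3 ≤ flK K V n := by
    unfold NE73.flK
    have := le_max_right 0 ((V + K - 2 * n) / 3)
    linarith
  refine ⟨by linarith, ?_⟩
  intro j θ Y' m' a' i hs hm0 hm1 ha0 ha1 hi0 hi1 hG hz
  obtain rfl : m' = 0 := le_antisymm hm1 hm0
  obtain rfl : a' = 0 := le_antisymm ha1 ha0
  obtain ⟨z₁, z₂, z₃, rfl, a1, b1, a2, b2, a3, b3⟩ := sh3 hs
  rw [sum3n, sum3n, ← hn] at hG ⊢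
  have t : ∀ k, 0 ≤ θ.1 k := fun k => θ.2.1 k
  show PXs (7 / 8 + d) r s i (θ.1 0) {z₁, z₂, z₃} 0 0
    (flK K V n + F + FR2X ![K, V, n, i, z₁ + z₂ + z₃] θ.1)
  obtain ⟨I, hI⟩ : ∃ I, I = iR ![K, V, n, i, z₁ + z₂ + z₃] θ.1 := ⟨_, rfl⟩
  have hI' : I = i - θ.1 7 - θ.1 6 + 2 * θ.1 1 := hI
  have hG' : max (max (max (θ.1 6 - θ.1 4) (2000 * (θ.1 4 + θ.1 5) - 2000 * n + 1499 * K))
      (max (9 * θ.1 7 - max 0 (4 * n - 3 * K) - K / 100) (θ.1 8 + 2 * (θ.1 4 + θ.1 5) - V)))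
    (max (max (I - (θ.1 8 + n - K + hh K V n + 2 * (θ.1 7 + θ.1 6) + 2 * θ.1 5 -
        θ.1 4 + (θ.1 0 - θ.1 1))) (I - (K - (θ.1 7 + θ.1 6) - 2 * (θ.1 0 - θ.1 1))))
      (max (max (z₁ + z₂ + z₃ + (θ.1 4 + (θ.1 0 - θ.1 1) + θ.1 2 + θ.1 3) - n) (θ.1 1 - θ.1 2))
        (max (-I) (θ.1 1 - θ.1 0)))) ≤ 0 := by rw [hI]; exact hG
  have g1 := (le_max_left _ _).trans ((le_max_left _ _).trans ((le_max_left _ _).trans hG'))
  have g2 := (le_max_right _ _).trans ((le_max_left _ _).trans ((le_max_left _ _).trans hG'))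
  have g3 := (le_max_left _ _).trans ((le_max_right _ _).trans ((le_max_left _ _).trans hG'))
  have g4 := (le_max_right _ _).trans ((le_max_right _ _).trans ((le_max_left _ _).trans hG'))
  have g5 := (le_max_left _ _).trans ((le_max_left _ _).trans ((le_max_right _ _).trans hG'))
  have g6 := (le_max_right _ _).trans ((le_max_left _ _).trans ((le_max_right _ _).trans hG'))
  have g7 := (le_max_left _ _).trans ((le_max_left _ _).trans ((le_max_right _ _).trans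
    ((le_max_right _ _).trans hG')))
  have g8 := (le_max_right _ _).trans ((le_max_left _ _).trans ((le_max_right _ _).trans
    ((le_max_right _ _).trans hG')))
  have g9 := (le_max_left _ _).trans ((le_max_right _ _).trans ((le_max_right _ _).trans
    ((le_max_right _ _).trans hG')))
  have g10 := (le_max_right _ _).trans ((le_max_right _ _).trans ((le_max_right _ _).trans
    ((le_max_right _ _).trans hG')))
  have t0 := t 0
  have t1 := t 1
  have t2 := t 2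
  have t3 := t 3
  have t4 := t 4
  have t5 := t 5
  have t6 := t 6
  have t7 := t 7
  have t8 := t 8
  have hFR : FR2X ![K, V, n, i, z₁ + z₂ + z₃] θ.1 =
      2 * (K + n) - max (ThN K n (θ.1 4 + θ.1 5) (θ.1 7) (θ.1 8))
        (TbN K ((V + n - K) / 3 + (n - 3 / 4 * K)) n (θ.1 4 + θ.1 5) (θ.1 7) (θ.1 8)) -
      (θ.1 4 + θ.1 5 - θ.1 6 + (WwN (θ.1 8 + θ.1 7 + θ.1 6) I (θ.1 2) (θ.1 5) - I) + θ.1 3) -
      K / 500 - (4 / 3 * n + (V + K) / 3) := by rw [hI]; rfl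
  rw [hFR]
  clear hG hG' t hFR hI
  generalize θ.1 0 = β at *
  generalize θ.1 1 = g₂ at *
  generalize θ.1 2 = g at *
  generalize θ.1 3 = ms at *
  generalize θ.1 4 = d₀ at *
  generalize θ.1 5 = ν at *
  generalize θ.1 6 = A at *
  generalize θ.1 7 = e at *
  generalize θ.1 8 = v at *
  have hmz : min z₁ (min z₂ z₃) ≤ min y₁ (min y₂ y₃) := min_le_min b1 (min_le_min b2 b3)
  have hFz : 2 * d * min z₁ (min z₂ z₃) ≤ F :=
    (mul_le_mul_of_nonneg_left hmz (by linarith)).trans hF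
  have hA := r2MX_pxsT (t := 0) (h := hh K V n) (V := V) (F := F) (A := A) (e := e) (v := v)
    (b := β - g₂) (g := g) (g₂ := g₂) (i := I) (ms := ms) (d₀ := d₀) (ν := ν) (K := K) (n := n)
    (z₁ := z₁) (z₂ := z₂) (z₃ := z₃) (s₀ := (V + n - K) / 3 + (n - 3 / 4 * K))
    (T := max (ThN K n (d₀ + ν) e v) (TbN K ((V + n - K) / 3 + (n - 3 / 4 * K)) n (d₀ + ν) e v))
    (ρ := flK K V n + F + (2 * (K + n) - max (ThN K n (d₀ + ν) e v)
        (TbN K ((V + n - K) / 3 + (n - 3 / 4 * K)) n (d₀ + ν) e v) -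
      (d₀ + ν - A + (WwN (v + e + A) I g ν - I) + ms) - K / 500 - (4 / 3 * n + (V + K) / 3)))
    R hd hd8
    ⟨hK.le, le_rfl, by linarith, by linarith, n3, by linarith⟩ hh0 hh1 (by linarith) t5 t6
    (by linarith) (by linarith) t7 (by linarith) t8 (by linarith) (by linarith) t2 (by linarith) t3
    (by linarith) (by linarith) a1 a2 a3 hFz (by linarith) t1 (by linarith) (by linarith)
    ((max_choice _ _).imp le_of_eq le_of_eq) (by linarith)
  have e1 : e + A + I - 2 * g₂ = i := by rw [hI']; ring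
  have e2 : β - g₂ + g₂ = β := by ring
  rw [e1, e2] at hA
  exact hA

/-- **the pair line, class E** -/
theorem realQ_r2X (R : ExpRules (7 / 8 + d) r s) (hd : 0 ≤ d) (hd8 : d ≤ 1 / 8) {c κ : ℝ}
    (hc : 0 ≤ c) (hκ : 1800 * c ≤ κ) :
    RealQ d (fun l β Y m a ρ => PXs (7 / 8 + d) r s l β Y m a ρ)
      (fun l Y m a ρ => Full (7 / 8 + d) r l Y m a ρ) s₀ κ (dR2X (hC c)) := by
  intro K V z₁ z₂ z₃ F hK hA
  exact r2X_qk R hd hd8 rfl hA.h1 hA.h2 hA.h3 hA.V0 hA.K0 hA.n5 hA.n3 hA.vn (hC_nonneg hc _ _ _)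
    (hC_le (by linarith)) hA.F0

end Crest.Agent.R017.RGB545
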