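import Crest.Agent.R017.QsJo_401
import Crest.Agent.R017.NEXr_603
import Crest.Agent.R017.N2c_106

/-!
# Row 17, FlatNE (helper359): the pair line at all cells, both classes

* `PLsF` : helper106's `PLs` for any functional
* `R2Ln` : a line with the condition and (at most) the exponent of helper545's `dR2`
* `plsF_leaf` : `PLsF` of a derived list from `LnP`
* `plsF_two` : class E, for the list and the replaced list
-/

set_option autoImplicit false
set_option linter.unusedVariables false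
set_option maxHeartbeats 1600000

noncomputable section

open Finset
open scoped ComplexConjugate

namespace Crest.Agent.R017.P2X359

open Crest.Agent.R012 Crest.Agent.R012.Eis Crest.Agent.R012.LS2
open Crest.Agent.R012.T411 (NCube)
open Crest.Agent.R017.B770
open Crest.Agent.R017.Prov71
open Crest.Agent.R017.Leg381 (alf alF Pf LF LF_get natl)
open Crest.Agent.R017.XRG106
open Crest.Agent.R017.MoL106 (nr PM2)
open Crest.Agent.R017.RG64 (SbL Sb Ht one_le_Ht LF_nonneg)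
open Crest.Agent.R017.XP699 (LL Chd hcost cst)
open Crest.Agent.R017.RGB545 (Line Th TK rbx PQe PFp LD LK LNk LEk dR2 dR2X GR2 FR2 FR2X iR sX)
open Crest.Agent.R017.RXk848 (LnP Lmp)
open Crest.Agent.R017.RX298 (rp rpB Lg LF_rp Ht_rp SbL_rp rp_length rpB_length)
open Crest.Agent.R017.QsJ401 (LL_ofFn forall₂_ofFn len_rpB' rpB_eq' Ht_natl_rpB')
open Crest.Agent.R017.R2N777 (ThN)
open Crest.Agent.R017.R2M777 (WwN)
open Crest.Agent.R017.NE73 (flK)
open Crest.Agent.R017.N2106 (PLs)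

variable {Lam ι : Type*}

/-- **the pair line at all cells**, any functional -/
def PLsF (Φ : ℝ → ℝ → List Pq → ℝ) (μ C : ℝ) {r : ℕ} (s : Fin r → Pq)
    (n K Lv hh Dm Em m Bb : ℝ) : Prop :=
  ∀ (s' : Fin r → Pq) (W0 : ℝ), 1 ≤ W0 → (∀ k, Rl C W0 (s' k) (s k)) →
    ∀ i b g d₀ ν a e v : ℝ, 0 ≤ i → 0 ≤ b → 0 ≤ g → 0 ≤ d₀ → 0 ≤ ν → 0 ≤ a → a ≤ d₀ → 0 ≤ e →
    0 ≤ v → d₀ + ν ≤ Dm → e ≤ Em → v + 2 * (d₀ + ν) ≤ Lv + m → 2 * g ≤ e + a + i →
    ∑ k, (s' k).z + (d₀ + b + g) ≤ n + m →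
    i ≤ v + n - K + hh + 2 * (e + a) + 2 * ν - d₀ + b + m → i ≤ K - (e + a) - 2 * b + m →
    Φ (e + a + i - 2 * g) (b + g) (List.ofFn s') ≤ Bb * W0 ^ (2 * μ) *
      Real.exp (2 * (K + n) - ThN K n (d₀ + ν) e v - (d₀ + ν - a +
        (max (v + e + a + ν) (max i (2 / 3 * (v + e + a + i))) - i)) -
        (n - d₀ - b - ∑ k, (s' k).z) - K / 500)

lemma pls_iff {P : DPar} {h : ℝ → ℝ} {μ C : ℝ} {r : ℕ} {s : Fin r → Pq}
    {n K Lv hh Dm Em m Bb : ℝ} :
    PLs P h μ C s n K Lv hh Dm Em m Bb ↔ PLsF (PM2 P h) μ C s n K Lv hh Dm Em m Bb := Iff.rfl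

lemma PLsF.mono {Φ : ℝ → ℝ → List Pq → ℝ} {μ C C' : ℝ} {r : ℕ} {s : Fin r → Pq}
    {n K Lv hh Dm Em m Bb : ℝ} (H : PLsF Φ μ C' s n K Lv hh Dm Em m Bb) (hC : C ≤ C') :
    PLsF Φ μ C s n K Lv hh Dm Em m Bb :=
  fun s' W0 hW hR => H s' W0 hW fun k => (hR k).mono hC

/-- **a pair line** -/
structure R2Ln (L : ι → Line Lam 9) (j : ι) (lam : Lam) (Φ : ℝ → ℝ → List Pq → ℝ)
    (hh : ℝ → ℝ → ℝ → ℝ) : Prop where
  G : ∀ x θ, (L j).G x θ = GR2 hh x θ
  F : ∀ x θ, (L j).F x θ ≤ FR2 x θ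
  b : ∀ θ, (L j).b θ = θ 0
  zl : ¬ (L j).zl
  Φ : (L j).Φ lam = Φ

lemma ThN_smul {y : ℝ} (hy : 0 ≤ y) (K n D e v : ℝ) :
    ThN (K * y) (n * y) (D * y) (e * y) (v * y) = y * ThN K n D e v := by
  unfold R2N777.ThN NE73.flK
  have h : max 0 ((v * y + e * y + K * y - 2 * (n * y - D * y - e * y)) / 3) =
      y * max 0 ((v + e + K - 2 * (n - D - e)) / 3) := by
    rw [mul_max_of_nonneg _ _ hy, mul_zero]
    congr 1
    ring
  rw [h]
  ring

lemma W_smul {y : ℝ} (hy : 0 ≤ y) (x i ν : ℝ) :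
    max (x * y + ν * y) (max (i * y) (2 / 3 * (x * y + i * y))) =
      y * max (x + ν) (max i (2 / 3 * (x + i))) := by
  rw [mul_max_of_nonneg _ _ hy, mul_max_of_nonneg _ _ hy]
  congr 1
  · ring
  · congr 1
    · ring
    · ring

/-- **the pair line above a list** -/
theorem plsF_leaf {L : ι → Line Lam 9} {j : ι} {lam : Lam} {Φ : ℝ → ℝ → List Pq → ℝ}
    {hh : ℝ → ℝ → ℝ → ℝ} {K ε M r bm X n Bd C S c₁ μ' m Lv Dm Em : ℝ} {base : List Pq}
    {l : List Pf} {N : ℕ}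
    (hL : R2Ln L j lam Φ hh) (hX : 1 < X)
    (H : LnP L lam K ε M r bm X (n / Real.log X) (Lv / Real.log X) Bd base)
    (hC : 0 ≤ C) (hS : SbL S l base) (hz : ∀ q ∈ base, Dq.len q ≤ c₁ * Real.log X)
    (hr : C + S ≤ r) (hbm : C * Real.exp S * X ^ c₁ ≤ bm) (hN : l.length ≤ N)
    (hM : 0 ≤ M) (hμ : N * M ≤ 2 * μ') (hBd : 0 ≤ Bd)
    (hm0 : 0 ≤ m) (hm : m ≤ ε * Real.log X)
    (hDm : 2000 * Dm + 1499 * (K * Real.log X) ≤ 2000 * n + ε * Real.log X)
    (hEm : 9 * Em ≤ (max 0 (4 * (n / Real.log X) - 3 * K) + K / 100 + ε) * Real.log X)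
    (hn : 0 ≤ n) (hLv : 0 ≤ Lv) (hK : 0 ≤ K)
    (bn : n + m ≤ TK K * Real.log X) (bL : Lv + m ≤ TK K * Real.log X)
    (bD : Dm ≤ TK K * Real.log X) (bE : Em ≤ TK K * Real.log X)
    (bK : K * Real.log X + m ≤ TK K * Real.log X) :
    PLsF Φ μ' C (fun i => (l.get i).1) n (K * Real.log X) Lv
      (hh K (Lv / Real.log X) (n / Real.log X) * Real.log X) Dm Em m
      (Bd * (Ht l * Ht (natl base)) ^ M) := by
  have hX0 : 0 < X := by linarith
  have hy0 : 0 < Real.log X := Real.log_pos hX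
  have hHt : 1 ≤ Ht l * Ht (natl base) :=
    one_le_mul_of_one_le_of_one_le (one_le_Ht _) (one_le_Ht _)
  intro s' W0 hW0 hR i b g d₀ ν a e v hi hb hg hd hν ha had he hv hD hE hvL hge hsum hi1 hi2
  -- the cost
  have h1 : List.Forall₂ (Rl C W0) (List.ofFn s') (l.map Prod.fst) :=
    forall₂_ofFn rfl fun k => hR k
  have c1 : List.Forall₂ (Chd Dq hcost r bm) (List.ofFn s') base :=
    RlB791.chdL_mono hr hbm (RlB791.chdL_of_rl hX0 hC h1 hS hz)
  have c2 : cst hcost (List.ofFn s') base ^ M ≤ (Ht l * Ht (natl base)) ^ M * W0 ^ (2 * μ') := by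
    have h2 := RlB791.cst_rl hW0 h1 hS
    have h3 := RlB791.one_le_cst (List.ofFn s') base
    have hW00 : 0 < W0 := by linarith
    calc cst hcost (List.ofFn s') base ^ M
        ≤ (W0 ^ l.length * (Ht l * Ht (natl base))) ^ M :=
          Real.rpow_le_rpow (by linarith) h2 hM
      _ = (W0 ^ l.length) ^ M * (Ht l * Ht (natl base)) ^ M :=
          Real.mul_rpow (by positivity) (by linarith)
      _ ≤ W0 ^ (2 * μ') * (Ht l * Ht (natl base)) ^ M := by
          refine mul_le_mul_of_nonneg_right ?_ (Real.rpow_nonneg (by linarith) _)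
          rw [← Real.rpow_natCast, ← Real.rpow_mul hW00.le]
          refine Real.rpow_le_rpow_of_exponent_le hW0 ?_
          have h4 : (l.length : ℝ) ≤ N := by exact_mod_cast hN
          nlinarith
      _ = _ := mul_comm _ _
  have hσ0 : 0 ≤ ∑ k, (s' k).z := Finset.sum_nonneg fun k _ => (hR k).z0
  have hLLs := LL_ofFn s'
  obtain ⟨σ, hσ⟩ : ∃ σ, σ = ∑ k, (s' k).z := ⟨_, rfl⟩
  rw [← hσ] at hσ0 hLLs hsum ⊢
  -- the room of the line
  obtain ⟨ms, hms⟩ : ∃ ms, ms = max 0 (n - d₀ - b - σ - g) := ⟨_, rfl⟩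
  have ms0 : 0 ≤ ms := hms ▸ le_max_left _ _
  have ms1 : n - d₀ - b - σ - g ≤ ms := hms ▸ le_max_right _ _
  have ms2 : ms ≤ n := hms ▸ max_le hn (by linarith)
  have ms3 : σ + (d₀ + b + g + ms) - n ≤ m := by
    rcases le_total 0 (n - d₀ - b - σ - g) with h5 | h5
    · rw [hms, max_eq_right h5]; linarith
    · rw [hms, max_eq_left h5]; linarith
  -- scaling
  obtain ⟨y, hy⟩ : ∃ y, y = Real.log X := ⟨_, rfl⟩
  unfold RXk848.LnP at H
  rw [← hy] at hy0 hm hDm hEm bn bL bD bE bK hi1 hi2 ⊢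
  simp only [← hy] at H
  have hd' : ∀ a : ℝ, a * y / y = a := fun a => mul_div_cancel_right₀ a hy0.ne'
  obtain ⟨n', rfl⟩ : ∃ a, n = a * y := ⟨n / y, by field_simp⟩
  obtain ⟨V', rfl⟩ : ∃ a, Lv = a * y := ⟨Lv / y, by field_simp⟩
  obtain ⟨i', rfl⟩ : ∃ a, i = a * y := ⟨i / y, by field_simp⟩
  obtain ⟨b', rfl⟩ : ∃ a, b = a * y := ⟨b / y, by field_simp⟩
  obtain ⟨g', rfl⟩ : ∃ a, g = a * y := ⟨g / y, by field_simp⟩
  obtain ⟨d', rfl⟩ : ∃ a, d₀ = a * y := ⟨d₀ / y, by field_simp⟩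
  obtain ⟨ν', rfl⟩ : ∃ a, ν = a * y := ⟨ν / y, by field_simp⟩
  obtain ⟨a', rfl⟩ : ∃ z, a = z * y := ⟨a / y, by field_simp⟩
  obtain ⟨e', rfl⟩ : ∃ a, e = a * y := ⟨e / y, by field_simp⟩
  obtain ⟨v', rfl⟩ : ∃ a, v = a * y := ⟨v / y, by field_simp⟩
  obtain ⟨q, rfl⟩ : ∃ a, σ = a * y := ⟨σ / y, by field_simp⟩
  obtain ⟨s, rfl⟩ : ∃ a, ms = a * y := ⟨ms / y, by field_simp⟩
  rw [hd'] at hEm hi1
  rw [hd'] at hi1
  simp only [hd'] at H
  have k : ∀ a b : ℝ, a * y ≤ b * y → a ≤ b := fun a b h => le_of_mul_le_mul_right h hy0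
  have k0 : ∀ a : ℝ, 0 ≤ a * y → 0 ≤ a := fun a h => k 0 a (by linarith)
  have hT : 0 ≤ TK K := k0 _ (by linarith)
  have hmem : (![b' + g', g', g', s, d', ν', a', e', v'] : Fin 9 → ℝ) ∈
      Set.Icc (0 : Fin 9 → ℝ) (fun _ => TK K) := by
    constructor
    · intro t
      fin_cases t
      · exact k0 _ (show 0 ≤ (b' + g') * y by linarith)
      · exact k0 _ hg
      · exact k0 _ hg
      · exact k0 _ ms0
      · exact k0 _ hd
      · exact k0 _ hν
      · exact k0 _ ha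
      · exact k0 _ he
      · exact k0 _ hv
    · intro t
      fin_cases t
      · exact k _ _ (show (b' + g') * y ≤ TK K * y by linarith)
      · exact k _ _ (show g' * y ≤ TK K * y by linarith)
      · exact k _ _ (show g' * y ≤ TK K * y by linarith)
      · exact k _ _ (show s * y ≤ TK K * y by linarith)
      · exact k _ _ (show d' * y ≤ TK K * y by linarith)
      · exact k _ _ (show ν' * y ≤ TK K * y by linarith)
      · exact k _ _ (show a' * y ≤ TK K * y by linarith)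
      · exact k _ _ (show e' * y ≤ TK K * y by linarith)
      · exact k _ _ (show v' * y ≤ TK K * y by linarith)
  have hl := H j ⟨_, hmem⟩ ((e' + a' + i' - 2 * g') * y) (List.ofFn s')
    (by linarith) (by linarith) c1
    (by rw [hLLs]; linarith)
    (by
      rw [hL.G, hLLs, hd', hd']
      show max (max (max (a' - d') (2000 * (d' + ν') - 2000 * n' + 1499 * K))
          (max (9 * e' - max 0 (4 * n' - 3 * K) - K / 100) (v' + 2 * (d' + ν') - V')))
        (max (max (((e' + a' + i' - 2 * g') - e' - a' + 2 * g') - (v' + n' - K + hh K V' n' +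
          2 * (e' + a') + 2 * ν' - d' + ((b' + g') - g')))
          (((e' + a' + i' - 2 * g') - e' - a' + 2 * g') - (K - (e' + a') -
            2 * ((b' + g') - g'))))
          (max (max (q + (d' + ((b' + g') - g') + g' + s) - n') (g' - g'))
            (max (-((e' + a' + i' - 2 * g') - e' - a' + 2 * g')) (g' - (b' + g'))))) ≤ ε
      refine max_le (max_le (max_le (k _ _ ?_) (k _ _ ?_)) (max_le (k _ _ ?_) (k _ _ ?_)))
        (max_le (max_le (k _ _ ?_) (k _ _ ?_)) (max_le (max_le (k _ _ ?_) (k _ _ ?_))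
          (max_le (k _ _ ?_) (k _ _ ?_))))
      · linarith
      · linarith
      · linarith
      · linarith
      · linarith
      · linarith
      · linarith
      · linarith
      · linarith
      · linarith)
    (fun hz => absurd hz hL.zl)
  rw [hL.Φ, hL.b, hLLs, hd', hd', Real.rpow_def_of_pos hX0, ← hy] at hl
  have e1 : (e' * y + a' * y + i' * y - 2 * (g' * y)) = (e' + a' + i' - 2 * g') * y := by ring
  have e2 : b' * y + g' * y = (![b' + g', g', g', s, d', ν', a', e', v'] : Fin 9 → ℝ) 0 * y := by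
    show b' * y + g' * y = (b' + g') * y
    ring
  rw [e1, e2]
  have hF := hL.F ![K, V', n', e' + a' + i' - 2 * g', q] ![b' + g', g', g', s, d', ν', a', e', v']
  have hFe : FR2 ![K, V', n', e' + a' + i' - 2 * g', q]
      ![b' + g', g', g', s, d', ν', a', e', v'] =
      2 * (K + n') - ThN K n' (d' + ν') e' v' -
      (d' + ν' - a' + (g' + max (v' + e' + a' + ν') (max ((e' + a' + i' - 2 * g') - e' - a' +
        2 * g') (2 / 3 * (v' + e' + a' + ((e' + a' + i' - 2 * g') - e' - a' + 2 * g')))) -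
        ((e' + a' + i' - 2 * g') - e' - a' + 2 * g')) + s) - K / 500 -
      (4 / 3 * n' + (V' + K) / 3) := rfl
  have ei : (e' + a' + i' - 2 * g') - e' - a' + 2 * g' = i' := by ring
  rw [hFe, ei] at hF
  have hTh := ThN_smul hy0.le K n' (d' + ν') e' v'
  have hWm := W_smul hy0.le (v' + e' + a') i' ν'
  have hBH : 0 ≤ (Ht l * Ht (natl base)) ^ M * W0 ^ (2 * μ') :=
    mul_nonneg (Real.rpow_nonneg (by linarith) _) (Real.rpow_nonneg (by linarith) _)
  have hx : y * (4 / 3 * n' + (V' + K) / 3 +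
      (L j).F ![K, V', n', e' + a' + i' - 2 * g', q] ![b' + g', g', g', s, d', ν', a', e', v']) ≤
      2 * (K * y + n' * y) - ThN (K * y) (n' * y) (d' * y + ν' * y) (e' * y) (v' * y) -
        (d' * y + ν' * y - a' * y + (max (v' * y + e' * y + a' * y + ν' * y)
          (max (i' * y) (2 / 3 * (v' * y + e' * y + a' * y + i' * y))) - i' * y)) -
        (n' * y - d' * y - b' * y - q * y) - K * y / 500 := by
    have f1 := mul_le_mul_of_nonneg_left hF hy0.le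
    have g1 : d' * y + ν' * y = (d' + ν') * y := by ring
    have g2 : v' * y + e' * y + a' * y = (v' + e' + a') * y := by ring
    rw [g1, g2, hTh, hWm]
    obtain ⟨T, hTd⟩ : ∃ T, T = ThN K n' (d' + ν') e' v' := ⟨_, rfl⟩
    obtain ⟨W, hWd⟩ : ∃ W, W = max (v' + e' + a' + ν') (max i' (2 / 3 * (v' + e' + a' + i'))) :=
      ⟨_, rfl⟩
    rw [← hTd, ← hWd] at f1 ⊢
    linarith
  calc Φ ((e' + a' + i' - 2 * g') * y)
        ((![b' + g', g', g', s, d', ν', a', e', v'] : Fin 9 → ℝ) 0 * y) (List.ofFn s') ≤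
        Bd * cst hcost (List.ofFn s') base ^ M * Real.exp (y * (4 / 3 * n' + (V' + K) / 3 +
          (L j).F ![K, V', n', e' + a' + i' - 2 * g', q]
            ![b' + g', g', g', s, d', ν', a', e', v'])) := hl
    _ ≤ Bd * ((Ht l * Ht (natl base)) ^ M * W0 ^ (2 * μ')) * Real.exp _ :=
        mul_le_mul (mul_le_mul_of_nonneg_left c2 hBd) (Real.exp_le_exp.2 hx)
          (Real.exp_pos _).le (mul_nonneg hBd hBH)
    _ = _ := by ring

/-! ### the instances -/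

lemma R2Ln.comap {ι' : Type*} {L : ι → Line Lam 9} {L' : ι' → Line Lam 9} {j : ι} {j' : ι'}
    {lam : Lam} {Φ : ℝ → ℝ → List Pq → ℝ} {hh : ℝ → ℝ → ℝ → ℝ} (H : R2Ln L j lam Φ hh)
    (he : L' j' = L j) : R2Ln L' j' lam Φ hh :=
  ⟨fun x θ => by rw [he]; exact H.G x θ, fun x θ => by rw [he]; exact H.F x θ,
    fun θ => by rw [he]; exact H.b θ, by rw [he]; exact H.zl, by rw [he]; exact H.Φ⟩

lemma r2Ln_N (π : Lam → DPar) (h : ℝ → ℝ) (hh : ℝ → ℝ → ℝ → ℝ) (lam : Lam) :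
    R2Ln (LNk π h (dR2 hh)) () lam (PFp π h lam) hh :=
  ⟨fun _ _ => rfl, fun _ _ => le_rfl, fun _ => rfl, fun h => h, rfl⟩

lemma r2Ln_E (π : Lam → DPar) (h : ℝ → ℝ) (hh : ℝ → ℝ → ℝ → ℝ) (lam : Lam) :
    R2Ln (LEk π h (dR2 hh)) () lam (PQe π h lam) hh :=
  ⟨fun _ _ => rfl, fun _ _ => le_rfl, fun _ => rfl, fun h => h, rfl⟩

lemma fr2X_le (x : Fin 5 → ℝ) (θ : Fin 9 → ℝ) : FR2X x θ ≤ FR2 x θ := by
  unfold RGB545.FR2X RGB545.FR2
  have := le_max_left (ThN (x 0) (x 2) (θ 4 + θ 5) (θ 7) (θ 8))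
    (R2NX994.TbN (x 0) (sX x) (x 2) (θ 4 + θ 5) (θ 7) (θ 8))
  linarith

lemma r2Ln_X (π : Lam → DPar) (h : ℝ → ℝ) (hh : ℝ → ℝ → ℝ → ℝ) (lam : Lam) :
    R2Ln (LEk π h (dR2X hh)) () lam (PQe π h lam) hh :=
  ⟨fun _ _ => rfl, fun x θ => fr2X_le x θ, fun _ => rfl, fun h => h, rfl⟩

/-- **the pair lines of the list and of the replaced list** (exceptional class), from the
premise of `NLeafX` -/
theorem plsF_two {L : ι → Line Lam 9} {j : ι} {lam : Lam} {Φ : ℝ → ℝ → List Pq → ℝ}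
    {hh : ℝ → ℝ → ℝ → ℝ} {K ε M r bm X Bd C S c₀ d₁ μ' m Lv Dm Em : ℝ} {ps₀ : List Pq}
    {ps : List Pf} {N : ℕ} (hL : R2Ln L j lam Φ hh) (hX : 1 < X)
    (H : ∀ t : Bool, LnP L lam K ε M r bm X (LF ps / Real.log X) (Lv / Real.log X) Bd
      (rbx d₁ t X ps₀))
    (hC : 0 ≤ C) (hS0 : 0 ≤ S) (hS : SbL S ps ps₀)
    (hz : ∀ q ∈ ps₀, Dq.len q ≤ c₀ * Real.log X) (hc₀ : 0 ≤ c₀) (hd₀ : 0 ≤ d₁)
    (hdc : d₁ ≤ 2 * c₀) (hLg : Lg (d₁ * Real.log X) ps)
    (hr : C + 2 * S ≤ r) (hbm : C * Real.exp (2 * S) * X ^ (2 * c₀) ≤ bm)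
    (hN : ps₀.length ≤ N) (hM : 0 ≤ M) (hμ : N * M ≤ 2 * μ') (hBd : 0 ≤ Bd)
    (hm0 : 0 ≤ m) (hm : m ≤ ε * Real.log X)
    (hDm : 2000 * Dm + 1499 * (K * Real.log X) ≤ 2000 * LF ps + ε * Real.log X)
    (hEm : 9 * Em ≤ (max 0 (4 * (LF ps / Real.log X) - 3 * K) + K / 100 + ε) * Real.log X)
    (hLv : 0 ≤ Lv) (hK : 0 ≤ K)
    (bn : LF ps + m ≤ TK K * Real.log X) (bL : Lv + m ≤ TK K * Real.log X)
    (bD : Dm ≤ TK K * Real.log X) (bE : Em ≤ TK K * Real.log X)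
    (bK : K * Real.log X + m ≤ TK K * Real.log X) :
    PLsF Φ μ' C (fun i => (ps.get i).1) (LF ps) (K * Real.log X) Lv
      (hh K (Lv / Real.log X) (LF ps / Real.log X) * Real.log X) Dm Em m
      (Bd * (Ht ps * Ht (natl ps₀)) ^ M) ∧
    PLsF Φ μ' C (fun i => ((rp (d₁ * Real.log X) ps).get i).1) (LF ps) (K * Real.log X) Lv
      (hh K (Lv / Real.log X) (LF ps / Real.log X) * Real.log X) Dm Em m
      (Bd * (Ht ps * Ht (natl ps₀)) ^ M) := by
  have hX0 : 0 < X := by linarith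
  have hy0 : 0 < Real.log X := Real.log_pos hX
  have hn : 0 ≤ LF ps := LF_nonneg hS.z_nonneg
  have hlen : ps.length ≤ N := by rw [hS.length]; exact hN
  have hp0 := H false
  have hp1 := H true
  have er0 : rbx d₁ false X ps₀ = ps₀ := by unfold RGB545.rbx; simp
  have er1 : rbx d₁ true X ps₀ = rpB (d₁ * Real.log X) ps₀ := by
    rw [rpB_eq']; unfold RGB545.rbx; simp
  rw [er0] at hp0
  rw [er1] at hp1
  refine ⟨?_, ?_⟩
  · exact plsF_leaf hL hX hp0 hC hS hz (by linarith)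
      (le_trans (by gcongr <;> linarith) hbm) hlen hM hμ hBd hm0 hm hDm hEm hn hLv hK bn bL bD
      bE bK
  · have hD : 0 ≤ d₁ * Real.log X := by positivity
    have h1 := plsF_leaf (n := LF ps) hL hX hp1 hC (SbL_rp hS0 hD hS hLg)
      (c₁ := 2 * c₀) (N := N) (μ' := μ') (m := m) (Dm := Dm) (Em := Em)
      (fun q hq => by
        have := len_rpB' (L := c₀ * Real.log X) hD (by nlinarith) (by positivity) hz q hq
        linarith)
      (by linarith) hbm (by rw [rp_length]; exact hlen) hM hμ hBd hm0 hm hDm hEm hn hLv hK bn bL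
      bD bE bK
    rw [Ht_rp, Ht_natl_rpB'] at h1
    exact h1

end Crest.Agent.R017.P2X359
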