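import Crest.Agent.R017.PrG_502
import Crest.Agent.R017.JBXn_320
import Crest.Agent.R017.Tx4_939

/-!
# Row 17, FlatNE class E (helper502): the principal values of the differences at a short length

* **`pv_xsm`** : 502's `pv_xs` at a short length `s₀ ≤ d₀` (298's `Lg3`)
* **`pvx_near`** : the same at the near leaf
-/

set_option autoImplicit false
set_option maxHeartbeats 1600000

noncomputable section

open Complex
open scoped ComplexConjugate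

namespace Crest.Agent.R017.PrGx502

open Crest.Agent.R012 Crest.Agent.R012.Eis Crest.Agent.R012.Gauss880
open Crest.Agent.R017.B770
open Crest.Agent.R017.FE47
open Crest.Agent.R017.Prov71
open Crest.Agent.R017.Leg381
open Crest.Agent.R017.HP842 (sqc)
open Crest.Agent.R017.RG64
open Crest.Agent.R017.Sup271 (NPm)
open Crest.Agent.R017.XP699 (LL Chd hcost cst)
open Crest.Agent.R017.RX298
open Crest.Agent.R017.NEg551 (F3 NNum NFacts)
open Crest.Agent.R017.NE73 (gN)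
open Crest.Agent.R017.RXk848 (Lmp)
open Crest.Agent.R017.PrD502 (PV xs_xr pv_xr)
open Crest.Agent.R017.JBX320 (lg3_of' mkBx lg2Bx near_num)

/-- **the principal values of the differences at a short length** -/
theorem pv_xsm {h : ℝ → ℝ} {c : ℝ} (hpu : PU h c) (N : ℕ) {B : ℝ} (hB : 0 ≤ B) {ε : ℝ}
    (hε : 0 < ε) :
    ∃ C : ℝ, 1 ≤ C ∧ ∀ X : ℝ, 3 ≤ X → ∀ P : DPar, P.OK → (nm P.n : ℝ) ≤ X ^ B →
      (∀ k : Eis, k ≠ 0 → (∃ c, k = c ^ 3) → ¬ NPm P.n P.ψ P.l₂ k) →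
      ∀ z D0 : ℝ, 1 ≤ D0 → ∀ ps : List Pf, Mk (X ^ B) ps → ps.length ≤ N →
      (∀ p ∈ ps, 0 ≤ p.1.z) → LF ps ≤ B * Real.log X → ∀ s₀ d₀ : ℝ, s₀ ≤ d₀ → Lg3 s₀ d₀ ps →
      ∀ q : Eis, q ≠ 0 → (nm q : ℝ) ≤ X ^ B →
      PV (fun H => ∃ c, H = c ^ 3) 6 (C * X ^ ε * D0 ^ 2 * Ht ps ^ 3 * Real.exp (LF ps)) s₀
        (X ^ B) (xs q z D0 P h d₀ ps) := by
  obtain ⟨C, hC, H⟩ := pv_xr hpu N hB hε
  refine ⟨C, hC, ?_⟩
  intro X hX P hP hPn hnp z D0 hD0 ps hps hlen hz hL s₀ d₀ hsd hLg q hq hqX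
  match ps, hps, hlen, hz, hL, hLg with
  | [], h, _, _, _, _ => exact h.elim
  | [_], h, _, _, _, _ => exact h.elim
  | p :: p' :: l, hps, hlen, hz, hL, hLg =>
    obtain ⟨a1, a2, a3, a4, a5, a6⟩ := hps
    obtain ⟨b1, b2, b3⟩ := hLg
    have hz1 := hz p List.mem_cons_self
    have hz2 := hz p' (List.mem_cons_of_mem _ List.mem_cons_self)
    have hl : 0 ≤ LF l := LF_nonneg fun x hx =>
      hz x (List.mem_cons_of_mem _ (List.mem_cons_of_mem _ hx))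
    have hLF : LF (p :: p' :: l) = p.1.z + (p'.1.z + LF l) := by
      rw [RG64.LF_cons, RG64.LF_cons]
    have hn12 : l.length ≤ N := by
      have : (p :: p' :: l).length = l.length + 2 := rfl
      omega
    rw [xs_xr]
    exact H X hX P (OKi848.OKi.of hP) hP.ψ hPn hnp z D0 hD0 p p' l a1 a2 a3 a4 a5 a6 hn12
      (by linarith) d₀ s₀ b1 b2 b3 hsd (by linarith) q hq hqX

/-- lengths of a child are nonnegative -/
lemma sb_nn {s : ℝ} {ps : List Pf} {ps₀ : List Pq} (h : SbL s ps ps₀) : ∀ p ∈ ps, 0 ≤ p.1.z := by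
  unfold SbL at h
  induction h with
  | nil => intro p hp; exact absurd hp (List.not_mem_nil)
  | cons h1 _ ih =>
    intro p hp
    rcases List.mem_cons.1 hp with rfl | hp
    · exact h1.2.2.2.1
    · exact ih p hp

/-- **the principal values at the near leaf** -/
theorem pvx_near {Lam : Type*} {π : Lam → DPar} (hP : ∀ lam, (π lam).OK)
    (hnp : ∀ lam, ¬ NPm (π lam).n (π lam).ψ (π lam).l₂ 1) {h : ℝ → ℝ} {c₁ : ℝ} (hpu : PU h c₁)
    {K v c e₁ d : ℝ} (hK : 0 ≤ K) (hc : 0 < c) (hd : 0 ≤ d) :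
    ∀ (lam : Lam) (N : ℕ) (c₀ : ℝ), 1 ≤ c₀ → ∀ B : ℝ, c₀ + 2 * K + 2 ≤ B → ∀ ε ε' : ℝ,
    0 < ε → 0 < ε' → ∀ Ss : ℝ, 0 ≤ Ss → ∃ C X₁ : ℝ, 1 ≤ C ∧ ∀ X : ℝ, 3 ≤ X → X₁ ≤ X →
    ∀ ps₀ : List Pq, ps₀.length ≤ N → (∀ q ∈ ps₀, Dq.s2 q ≤ X ^ c₀) → NNum K v c ε X ps₀ →
    NNumX K v c e₁ d ε X ps₀ → Lmp ((d + 3 / 2 * c) * Real.log X) ps₀ →
    ∀ (δ : ℝ) (q : Eis) (ps : List Pf) (Lv : ℝ) (N₁ : ℕ), 0 ≤ δ → 4 * δ ≤ ε' →
    NFacts K v (gN K c (LL Dq ps₀ / Real.log X)) ε X ps₀ ps Lv N₁ →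
    IsPrim q → (nm q : ℝ) ≤ X ^ c₀ → SbL Ss ps ps₀ →
    Lg3 (d * Real.log X - max 0 (LL Dq ps₀ - LF ps)) (d * Real.log X) ps ∧
    PV (fun H => ∃ c, H = c ^ 3) 6 (C * X ^ ε' * Ht ps ^ 3 * Real.exp (LF ps))
      (d * Real.log X - max 0 (LL Dq ps₀ - LF ps)) (X ^ B)
      (xs q (X ^ δ) (X ^ δ) (π lam) h (d * Real.log X) ps) := by
  intro lam N c₀ hc₀ B hB ε ε' hε hε' Ss hSs
  have hB0 : 0 ≤ B := by linarith
  obtain ⟨C, hC, H⟩ := pv_xsm hpu N hB0 (show 0 < ε' / 2 by positivity)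
  refine ⟨C, max (nm (π lam).n : ℝ) (Real.exp (N * Ss / c)), hC, ?_⟩
  intro X hX3 hXX ps₀ hlen hs2 hnum hnx hlmp δ q ps Lv N₁ hδ hδ' hF hq hqX hps
  have hX0 : 0 < X := by linarith
  have hX1 : 1 ≤ X := by linarith
  have hnPX : (nm (π lam).n : ℝ) ≤ X := (le_max_left _ _).trans hXX
  have hA3 := (le_max_right _ _).trans hXX
  rw [← Real.le_log_iff_exp_le hX0] at hA3
  have hL0 : 0 < Real.log X := Real.log_pos (by linarith)
  have hlen' : ps.length ≤ N := by rw [hps.length]; exact hlen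
  have hz : ∀ p ∈ ps, 0 ≤ p.1.z := sb_nn hps
  have hgN : gN K c (LL Dq ps₀ / Real.log X) = LL Dq ps₀ / Real.log X - 3 / 4 * K + c := rfl
  have hgL : gN K c (LL Dq ps₀ / Real.log X) * Real.log X =
      LL Dq ps₀ - 3 / 4 * (K * Real.log X) + c * Real.log X := JBX320.gL_eq hL0 hgN
  obtain ⟨-, -, -, -, hm⟩ := near_num hL0 hK hc hε hnum.top hnum.Kn hnum.vg hnum.ec hgL hF.nK
    hF.lo hF.hi hF.lv (w₄ := 0) (r := 0) (by
      have : 0 < Real.log X * c := by positivity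
      linarith) le_rfl
  have hle : ∀ {a b : ℝ}, a ≤ b → X ^ a ≤ X ^ b := fun hab =>
    Real.rpow_le_rpow_of_exponent_le hX1 hab
  have hMk : Mk (X ^ B) ps := ((mkBx hlmp hs2).mk hps).mono (hle (by linarith))
  have hLB : LF ps ≤ B * Real.log X := hm.trans
    (mul_le_mul_of_nonneg_right (by linarith) hL0.le)
  have hNS : (N : ℝ) * Ss ≤ c * Real.log X := by
    rw [div_le_iff₀ hc] at hA3
    linarith
  have hlg : Lg3 (d * Real.log X - max 0 (LL Dq ps₀ - LF ps)) (d * Real.log X) ps :=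
    lg3_of' (Nr := N) hSs (by positivity) hps (lg2Bx hlmp)
      (by rw [RXg848.LF_natl]; exact le_max_right _ _) (le_max_left _ _)
      (by exact_mod_cast hlen) (by nlinarith [mul_pos hc hL0])
  refine ⟨hlg, ?_⟩
  have hX1' : X ≤ X ^ B := by
    calc X = X ^ (1 : ℝ) := (Real.rpow_one X).symm
      _ ≤ X ^ B := hle (by linarith)
  have hnpk : ∀ k : Eis, k ≠ 0 → (∃ c, k = c ^ 3) →
      ¬ NPm (π lam).n (π lam).ψ (π lam).l₂ k := by
    rintro k - ⟨m, rfl⟩ h1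
    refine hnp lam (Two939.NPm_of_cube (k := 1) (m := m) ?_)
    rwa [one_mul]
  have key := H X hX3 (π lam) (hP lam) (hnPX.trans hX1') hnpk (X ^ δ) (X ^ δ)
    (Real.one_le_rpow hX1 hδ) ps hMk hlen' hz hLB _ (d * Real.log X)
    (by linarith [le_max_left 0 (LL Dq ps₀ - LF ps)]) hlg q hq.ne_zero
    (hqX.trans (hle (by linarith)))
  have h1 : C * X ^ (ε' / 2) * (X ^ δ) ^ 2 * Ht ps ^ 3 * Real.exp (LF ps) ≤
      C * X ^ ε' * Ht ps ^ 3 * Real.exp (LF ps) := by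
    have h2 : X ^ (ε' / 2) * (X ^ δ) ^ 2 ≤ X ^ ε' := by
      rw [← Real.rpow_natCast (X ^ δ) 2, ← Real.rpow_mul hX0.le, ← Real.rpow_add hX0]
      refine hle ?_
      push_cast
      linarith
    have h3 : 0 ≤ Ht ps := by linarith [one_le_Ht ps]
    calc C * X ^ (ε' / 2) * (X ^ δ) ^ 2 * Ht ps ^ 3 * Real.exp (LF ps) =
          C * (X ^ (ε' / 2) * (X ^ δ) ^ 2) * Ht ps ^ 3 * Real.exp (LF ps) := by ring
      _ ≤ C * X ^ ε' * Ht ps ^ 3 * Real.exp (LF ps) := by gcongr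
  exact key.mono (fun _ _ hk => hk) h1 le_rfl

end Crest.Agent.R017.PrGx502
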