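import Crest.Agent.R017.N2cXb_320
import Crest.Agent.R017.P2X_359
import Crest.Agent.R017.PrGx_502
import Crest.Agent.R017.NRP_320
import Crest.Agent.R017.RCd_106
import Crest.Agent.R017.NLn_180

/-!
# Row 17, FlatNE (helper298): the R-half of `Num2` at the near leaf, class E

* `rg_leafX` : `NLeafX π h (RgN Nw Mw Fw hf c') L φ₀ φ₁ φβ K v c e₁ d₀` from the pair line
  (the frame is helper435's `rg_leaf` / helper106's `rc_leaf`)
-/

set_option autoImplicit false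
set_option linter.unusedVariables false
set_option maxHeartbeats 16000000

noncomputable section

open Finset
open scoped ComplexConjugate

namespace Crest.Agent.R017.N2EX298

open Crest.Agent.R012 Crest.Agent.R012.Eis
open Crest.Agent.R012.LS2 (S mem_S)
open Crest.Agent.R017.B770
open Crest.Agent.R017.Prov71
open Crest.Agent.R017.CM106 (CS FS)
open Crest.Agent.R017.FE47 (cx PU)
open Crest.Agent.R017.HP842 (pc sqc)
open Crest.Agent.R017.Leg381 (alf alF Pf LF natl LF_get)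
open Crest.Agent.R017.XRG106 (Rl)
open Crest.Agent.R017.MoL106 (PM2)
open Crest.Agent.R017.X6C180 (GF)
open Crest.Agent.R017.Win813 (iA iA_nonneg WK)
open Crest.Agent.R017.WDec180 (WD sc)
open Crest.Agent.R017.E2440 (Fh)
open Crest.Agent.R017.QsO83 (bw FS_bw)
open Crest.Agent.R017.NPy739 (opL)
open Crest.Agent.R017.RG64 (SbL Sb Ht one_le_Ht)
open Crest.Agent.R017.XP699 (LL Chd hcost cst)
open Crest.Agent.R017.RGB545 (Th TK GR2 FR2 iR Line)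
open Crest.Agent.R017.RC106 (k9 bw_win win_dy sbL_z norm_bw_le WK_anti)
open Crest.Agent.R017.I1146 (RW RPg rhoS LipS rw_rhoS)
open Crest.Agent.R017.NE73 (flK gN)
open Crest.Agent.R017.NEg551 (NFacts NNum LBq)
open Crest.Agent.R017.RX298 (NLeafX NNumX rp rpB xs Lg Lg3 LF_rp rp_length)
open Crest.Agent.R017.RXk848 (LnP Lmp)
open Crest.Agent.R017.Sup271 (NPm)
open Crest.Agent.R012.T411 (NCube)
open Crest.Agent.R017.RQd385 (PM2Q)
open Crest.Agent.R017.P2X359 (PLsF R2Ln plsF_two)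
open Crest.Agent.R017.PrGx502 (pvx_near)
open Crest.Agent.R017.PrD502 (PV xs_facts)
open Crest.Agent.R017.NRP320 (s0_near)
open Crest.Agent.R017.R2N777 (StN)
open Crest.Agent.R017.N2X320 (PLsX rpg_oneX)
open Crest.Agent.R017.NEc180 (NumRg)
open Crest.Agent.R017.JBf180 (ShN)
open Crest.Agent.R017.NLn180 (RgN lipS_ShN)

/-- the pair line at all cells, smaller frequency -/
lemma plsX_of {P : DPar} {h : ℝ → ℝ} {μ C : ℝ} {r : ℕ} {s : Fin r → Pq}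
    {n K Lv hh hh' Dm Em m Bb : ℝ}
    (H : PLsF (PM2Q NCube P h) μ C s n K Lv hh' Dm Em m Bb) (hle : hh ≤ hh') :
    PLsX P h μ C s n K Lv hh Dm Em m Bb := by
  intro s' W0 hW hR i b g d₀ ν a e v hi hb hg hd hν ha had he hv h1 h2 h3 h4 h5 h6 h7
  exact H s' W0 hW hR i b g d₀ ν a e v hi hb hg hd hν ha had he hv h1 h2 h3 h4 h5 (by linarith) h7

/-- the entries of the replaced list -/
lemma rp_z {d₁ b : ℝ} (hd : 0 ≤ d₁) (hdb : d₁ ≤ b) {ps : List Pf}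
    (hz : ∀ x ∈ ps, 0 ≤ x.1.z ∧ x.1.z ≤ b) (hL : Lg d₁ ps) :
    ∀ x ∈ rp d₁ ps, 0 ≤ x.1.z ∧ x.1.z ≤ 2 * b := by
  have hb : 0 ≤ b := hd.trans hdb
  match ps, hz, hL with
  | [], _, _ => intro x hx; exact absurd (show x ∈ ([] : List Pf) from hx) List.not_mem_nil
  | [p], hz, _ =>
    intro x hx
    have h1 : x ∈ [p] := hx
    obtain ⟨h2, h3⟩ := hz x h1
    exact ⟨h2, by linarith⟩
  | p :: p' :: l, hz, hL =>
    intro x hx
    have hL' : d₁ ≤ p.1.z + p'.1.z := hL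
    obtain ⟨h1, h2⟩ := hz p (by simp)
    obtain ⟨h3, h4⟩ := hz p' (by simp)
    have hx' : x ∈ ({p.1 with z := p.1.z + p'.1.z - d₁}, p.2) ::
      ({p'.1 with z := d₁}, p'.2) :: l := hx
    rcases List.mem_cons.1 hx' with rfl | hx'
    · exact ⟨by show 0 ≤ p.1.z + p'.1.z - d₁; linarith,
        by show p.1.z + p'.1.z - d₁ ≤ 2 * b; linarith⟩
    rcases List.mem_cons.1 hx' with rfl | hx'
    · exact ⟨hd, by show d₁ ≤ 2 * b; linarith⟩
    · obtain ⟨h5, h6⟩ := hz x (by simp [hx'])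
      exact ⟨h5, by linarith⟩

/-- the replaced length is at most the length bound -/
lemma lmp_le {x y b : ℝ} {ps₀ : List Pq} (h : Lmp x ps₀) (hb : ∀ q ∈ ps₀, Dq.len q ≤ b) :
    x ≤ b := by
  match ps₀, h with
  | p₁ :: p₂ :: p₃ :: gs, h =>
    obtain ⟨_, _, _, a, _⟩ := h
    have h1 : p₁.z ≤ b := hb p₁ (by simp)
    linarith

/-- **the R-half of `Num2` at the near leaf** -/
theorem rg_leafX {Lam ι : Type*} {π : Lam → DPar} (hP : ∀ lam, (π lam).OK)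
    (hnp : ∀ lam, ¬ NPm (π lam).n (π lam).ψ (π lam).l₂ 1) {h : ℝ → ℝ} {c₁ : ℝ}
    (hpu : PU h c₁) {w : ℝ → ℝ} {Nw : ℕ} {Mw : ℝ} {Fw : ℕ → ℝ → ℂ} (hD : WD w Nw Mw Fw)
    {hf : LBq → ℝ} (hfe : ∀ p : LBq, hf p = 3 * Real.log (p.B / p.E0))
    {L : ι → Line Lam 9} {j₀ : ι} {hl φ₀ φ₁ φβ : ℝ → ℝ → ℝ → ℝ}
    {K v c c' e₁ d₁ : ℝ} (hc : 0 < c)
    (hcK : 1000000 * c ≤ K) (hv : 0 ≤ v) (hd₁ : 0 ≤ d₁) (hc' : 0 ≤ c')
    (hc'1 : c' * K ≤ 12 * c) (hR2 : ∀ lam, R2Ln L j₀ lam (PM2Q NCube (π lam) h) hl)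
    (hφ0 : ∀ a u m, 0 ≤ φ₀ a u m)
    (hφ₀ : ∀ a u m, 9 * φ₀ a u m ≤ max 0 (4 * m - 3 * K) + K / 100)
    (hφ40 : ∀ a u m, 5 * a ≤ 4 * K + c → m ≤ a + c → 40 * φ₀ a u m ≤ K)
    (hφφ : ∀ a u m, φ₀ a u m ≤ φβ a u m)
    (hφ42 : ∀ a u m, 5 * a ≤ 4 * K + c → m ≤ a + c → 42 * (φβ a u m - φ₀ a u m) ≤ K)
    (hφ9 : ∀ a u m, 9 * (φβ a u m - φ₀ a u m) ≤ max 0 (4 * m - 3 * K) + K / 200)
    (hhl : ∀ a u m, 3 * (φβ a u m - φ₀ a u m) ≤ hl K u m) :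
    NLeafX π h (RgN Nw Mw Fw hf c') L φ₀ φ₁ φβ K v c e₁ d₁ := by
  have hK0 : 0 < K := by linarith
  intro lam N c₀ hc₀
  refine ⟨2 * c₀, by linarith, fun ε M hε hM => ?_⟩
  have hN0 : (0 : ℝ) ≤ N := Nat.cast_nonneg N
  have hMw := hD.M0
  have hNw : (0 : ℝ) ≤ Nw := Nat.cast_nonneg Nw
  obtain ⟨R₀, hR₀⟩ := bump_of_cs hpu.cs
  obtain ⟨Rh, hRhd⟩ : ∃ x : ℝ, x = max R₀ 0 := ⟨_, rfl⟩
  have hRh0 : 0 ≤ Rh := hRhd ▸ le_max_right _ _
  have hRh : ∀ u, cx h u ≠ 0 → |u| ≤ Rh := fun u hu => (hR₀ u hu).trans (hRhd ▸ le_max_left _ _)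
  obtain ⟨A', hA'0⟩ : ∃ n : ℕ, max (2 * ((N : ℝ) * (N * M / 2)) + 2) 12 ≤ n := exists_nat_ge _
  have hA' : 2 * ((N : ℝ) * (N * M / 2)) + 2 ≤ A' := (le_max_left _ _).trans hA'0
  have hA12 : 12 ≤ A' := by
    have : ((12 : ℕ) : ℝ) ≤ A' := by
      push_cast
      exact (le_max_right _ _).trans hA'0
    exact_mod_cast this
  obtain ⟨b₁, hb₁⟩ : ∃ x : ℝ, x = 8 * K + 60 + 4 * c₀ := ⟨_, rfl⟩
  have hb₁0 : 0 < b₁ := by rw [hb₁]; linarith
  obtain ⟨ε₂, hε₂d⟩ : ∃ x : ℝ, x = min 1 (ε / (200 * b₁)) := ⟨_, rfl⟩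
  have hε₂ : 0 < ε₂ := by rw [hε₂d]; exact lt_min one_pos (by positivity)
  have hε₂1 : ε₂ ≤ 1 := by rw [hε₂d]; exact min_le_left _ _
  have hε₂b : ε₂ * b₁ ≤ ε / 200 := by
    have h1 : ε₂ ≤ ε / (200 * b₁) := by rw [hε₂d]; exact min_le_right _ _
    calc ε₂ * b₁ ≤ ε / (200 * b₁) * b₁ := mul_le_mul_of_nonneg_right h1 hb₁0.le
      _ = ε / 200 := by field_simp
  obtain ⟨k, bz, Cz, C₁, hCz, hC₁, HR⟩ := rpg_oneX hpu hRh0 hRh (μ := (N : ℝ) * M / 2)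
    (by positivity) N hε₂ hε₂1 A' hA' hA12
  obtain ⟨R₂, C₂, hR₂, hC₂, HX⟩ := xs_facts hpu N hε₂
  obtain ⟨Sf, hSf0, hSf⟩ := hD.bd k
  obtain ⟨BV, hBV⟩ : ∃ x : ℝ, x = max (c₀ + 2 * K + 2) (b₁ * bz + 1) := ⟨_, rfl⟩
  have HPV := pvx_near (v := v) (e₁ := e₁) hP hnp hpu hK0.le hc hd₁ lam N c₀ hc₀ BV
    (hBV ▸ le_max_left _ _) ε (ε / 16) hε (by positivity)
  refine ⟨max M A', ε / (24 * N + 64), le_max_of_le_left hM, by positivity, ?_⟩
  intro δ Jn Aw Cw R η S' hδ0 hδ hJn hAw hCw hR hη hη2 hS'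
  have hA'Jn : A' ≤ Jn := by
    have : (A' : ℝ) ≤ Jn := (le_max_right _ _).trans hJn
    exact_mod_cast this
  have hiA := iA_nonneg A'
  have hiAw := iA_nonneg Aw
  rw [le_div_iff₀ (by positivity)] at hδ
  have hNδ' : 0 ≤ (N : ℝ) * δ := mul_nonneg hN0 hδ0
  have hδN : 3 * N * δ ≤ ε / 8 := by linarith
  have hδ4 : 4 * δ ≤ ε / 16 := by linarith
  obtain ⟨Cp, Xp, hCp, HPV⟩ := HPV S' hS'
  obtain ⟨e₀, he₀⟩ : ∃ x : ℝ, x = 10 + |k9| + C₁ + R + Nw + Mw + R₂ + C₂ := ⟨_, rfl⟩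
  have hk9 := abs_nonneg k9
  have hk9' := le_abs_self k9
  have he10 : 10 ≤ e₀ := by rw [he₀]; linarith
  obtain ⟨g₂, hg₂⟩ : ∃ x : ℝ, x = Cw * iA Aw * C₂ := ⟨_, rfl⟩
  have hg₂0 : 0 ≤ g₂ := by rw [hg₂]; positivity
  obtain ⟨a₁, ha₁⟩ : ∃ x : ℝ, x = Cw ^ 2 * (η * (η ^ A')⁻¹) * ((100 : ℝ) ^ N) ^ 2 := ⟨_, rfl⟩
  have ha₁0 : 0 ≤ a₁ := by rw [ha₁]; positivity
  have hηi : 0 ≤ (η⁻¹) ^ 6 := by positivity
  obtain ⟨a₄, ha₄⟩ : ∃ x : ℝ, x = (Cw * (η⁻¹) ^ 6) ^ 2 * Cp ^ 2 := ⟨_, rfl⟩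
  have ha₄0 : 0 ≤ a₄ := by rw [ha₄]; positivity
  obtain ⟨Cf, hCf⟩ : ∃ x : ℝ, x = Nw * (C₁ * Sf ^ 2 * (2 * a₁ + g₂ ^ 2 + a₄ + 1)) := ⟨_, rfl⟩
  have hCf0 : 0 ≤ Cf := by rw [hCf]; positivity
  obtain ⟨T₀, hT₀⟩ : ∃ x : ℝ, x = 2 * S' + 20 * e₀ + e₀ / c + 16 * e₀ / ε + g₂ + Cz := ⟨_, rfl⟩
  refine ⟨max (C₁ * Real.exp (2 * S')) Cf, C₁ + 2 * S', max (Real.exp T₀) Xp,
    le_max_of_le_right hCf0, by positivity, ?_⟩
  intro X hX3 hXX0 ps₀ hlen hz hs2 hnum hnx hlmp q ps Lv N₁ hF hq hqX hps Bd hBd _ _ hprem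
  have hXX : Real.exp T₀ ≤ X := (le_max_left _ _).trans hXX0
  have hXXp : Xp ≤ X := (le_max_right _ _).trans hXX0
  have hX0 : 0 < X := by linarith
  have hX1 : 1 ≤ X := by linarith
  obtain ⟨l, hL⟩ : ∃ l : ℝ, l = Real.log X := ⟨_, rfl⟩
  have hTL : T₀ ≤ l := by
    rw [hL, Real.le_log_iff_exp_le hX0]; exact hXX
  have hL1 : 1 ≤ l := by
    rw [hL, ← Real.log_exp 1]
    refine Real.log_le_log (Real.exp_pos 1) ?_
    linarith [Real.exp_one_lt_d9]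
  have hL0 : 0 < l := by linarith
  have t1 : 0 ≤ e₀ / c := by positivity
  have t2 : 0 ≤ 16 * e₀ / ε := by positivity
  have hS'L : 2 * S' ≤ l := by linarith
  have hCzX : Cz ≤ X := by
    have h1 := Real.add_one_le_exp T₀
    linarith
  have he20 : 20 * e₀ ≤ l := by linarith
  have hec : e₀ ≤ c * l := by
    have : e₀ / c ≤ l := by linarith
    rw [div_le_iff₀ hc] at this; linarith
  have heε : 16 * e₀ ≤ ε * l := by
    have : 16 * e₀ / ε ≤ l := by linarith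
    rw [div_le_iff₀ hε] at this; linarith
  have hg₂L : g₂ ≤ Real.exp l := by
    have := Real.add_one_le_exp l; linarith
  have hXe : ∀ x : ℝ, X ^ x = Real.exp (x * l) := fun x => by
    rw [Real.rpow_def_of_pos hX0, hL, mul_comm]
  -- the sizes
  obtain ⟨n, hn⟩ : ∃ n : ℝ, n = LF ps := ⟨_, rfl⟩
  obtain ⟨κ, hκ⟩ : ∃ x : ℝ, x = K * l := ⟨_, rfl⟩
  obtain ⟨d, hd⟩ : ∃ x : ℝ, x = c * l := ⟨_, rfl⟩
  have hd0 : 0 < d := by rw [hd]; positivity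
  have hκd : 1000000 * d ≤ κ := by
    have := mul_le_mul_of_nonneg_right hcK hL0.le
    rw [hκ, hd]; linarith
  have hed : e₀ ≤ d := by rw [hd]; exact hec
  have hεd : ε * l ≤ d := by rw [hd]; exact mul_le_mul_of_nonneg_right hnum.ec hL0.le
  have hεl0 : 0 < ε * l := by positivity
  obtain ⟨n₀, hn₀⟩ : ∃ x : ℝ, x = LL Dq ps₀ := ⟨_, rfl⟩
  have hgL : gN K c (LL Dq ps₀ / Real.log X) * Real.log X = n₀ - 3 / 4 * κ + d := by
    rw [← hL, ← hn₀, hκ, hd]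
    unfold NE73.gN
    field_simp
  have f1 : n₀ - (n₀ - 3 / 4 * κ + d) ≤ n := by
    have := hF.lo
    rwa [hgL, ← hn₀, ← hn] at this
  have f2 : n ≤ n₀ + ε * l := by
    have := hF.hi
    rwa [← hL, ← hn₀, ← hn] at this
  have f3 : Lv ≤ v * l + ε * l + (n₀ - n) := by
    have := hF.lv
    rw [← hL, ← hn₀, ← hn] at this
    linarith
  have f5 : 5 * n₀ ≤ 4 * κ + ε * l := by
    have := hnum.nK
    rw [← hL, ← hn₀] at this
    rw [hκ]; linarith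
  have f6 : 3 * κ ≤ 4 * n₀ + ε * l := by
    have := hnum.Kn
    rw [← hL, ← hn₀] at this
    rw [hκ]; linarith
  have f7 : 3 * (v * l) + 3 * (n₀ - 3 / 4 * κ + d) + 100 * d ≤ 2 * κ + ε * l := by
    have h1 := mul_le_mul_of_nonneg_right hnum.vg hL0.le
    have h2 : (3 * (v + gN K c (LL Dq ps₀ / Real.log X)) + 100 * c) * l =
        3 * (v * l) + 3 * (gN K c (LL Dq ps₀ / Real.log X) * Real.log X) + 100 * d := by
      rw [← hL, hd]; ring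
    rw [h2, hgL] at h1
    rw [hκ] at h1 ⊢
    linarith
  have f8 : 5 * (v * l + n₀) + 100 * d ≤ 7 * κ + ε * l := by
    have := hnum.sn
    rw [← hL, ← hn₀] at this
    rw [hκ, hd]; linarith
  have hv0 := hF.v0
  have hz' := sbL_z hps (fun q hq => (hz q hq).2)
  rw [← hL] at hz'
  have hlen' : ps.length ≤ N := by rw [hps.length]; exact hlen
  have hn0 : 0 ≤ n := by
    rw [hn]
    exact RG64.LF_nonneg hps.z_nonneg
  have hHH : 1 ≤ Ht ps * Ht (natl ps₀) :=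
    one_le_mul_of_one_le_of_one_le (one_le_Ht _) (one_le_Ht _)
  obtain ⟨HH, hHHd⟩ : ∃ x : ℝ, x = Ht ps * Ht (natl ps₀) := ⟨_, rfl⟩
  rw [← hHHd] at hHH
  have hHM0 : 0 ≤ HH ^ M := Real.rpow_nonneg (by linarith) _
  have hHMJ : HH ^ M ≤ HH ^ (max M (A' : ℝ)) :=
    Real.rpow_le_rpow_of_exponent_le hHH (le_max_left _ _)
  have hHJ1 : 1 ≤ HH ^ (max M (A' : ℝ)) := Real.one_le_rpow hHH (le_max_of_le_left hM)
  obtain ⟨Bb, hBb⟩ : ∃ x : ℝ, x = Bd * HH ^ M := ⟨_, rfl⟩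
  have hBd0 : 0 ≤ Bd := by linarith
  have hBb0 : 0 ≤ Bb := by rw [hBb]; positivity
  -- the parameters
  obtain ⟨f₀, hf₀⟩ : ∃ x : ℝ, x = φ₀ (LL Dq ps₀ / Real.log X) (Lv / Real.log X)
    (LF ps / Real.log X) := ⟨_, rfl⟩
  obtain ⟨fβ, hfβ⟩ : ∃ x : ℝ, x = φβ (LL Dq ps₀ / Real.log X) (Lv / Real.log X)
    (LF ps / Real.log X) := ⟨_, rfl⟩
  have ha5 : 5 * (LL Dq ps₀ / Real.log X) ≤ 4 * K + c := by
    rw [← hL, ← hn₀]
    have h1 : n₀ / l ≤ (4 * K + c) / 5 := by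
      rw [div_le_iff₀ hL0]
      have : (4 * K + c) / 5 * l = (4 * κ + d) / 5 := by rw [hκ, hd]; ring
      rw [this]; linarith
    linarith
  have ham : LF ps / Real.log X ≤ LL Dq ps₀ / Real.log X + c := by
    rw [← hL, ← hn₀, ← hn, div_le_iff₀ hL0]
    have : (n₀ / l + c) * l = n₀ + d := by rw [hd]; field_simp
    rw [this]; linarith
  have g0 : 0 ≤ f₀ := hf₀ ▸ hφ0 _ _ _
  have g40 : 40 * (f₀ * l) ≤ κ := by
    have h1 := mul_le_mul_of_nonneg_right (hφ40 _ (Lv / Real.log X) _ ha5 ham) hL0.le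
    rw [← hf₀] at h1
    rw [hκ]; linarith
  have g42 : 42 * ((fβ - f₀) * l) ≤ κ := by
    have h1 := mul_le_mul_of_nonneg_right (hφ42 _ (Lv / Real.log X) _ ha5 ham) hL0.le
    rw [← hf₀, ← hfβ] at h1
    rw [hκ]; linarith
  have gφ : f₀ ≤ fβ := by
    rw [hf₀, hfβ]; exact hφφ _ _ _
  have gφl : 0 ≤ (fβ - f₀) * l := mul_nonneg (by linarith) hL0.le
  obtain ⟨D₁, hD₁⟩ : ∃ x : ℝ, x = Real.exp (min (gN K c (LL Dq ps₀ / Real.log X) * Real.log X)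
    (LF ps - (LL Dq ps₀ - gN K c (LL Dq ps₀ / Real.log X) * Real.log X))) := ⟨_, rfl⟩
  have hlD₁ : Real.log D₁ = min (gN K c (LL Dq ps₀ / Real.log X) * Real.log X)
    (LF ps - (LL Dq ps₀ - gN K c (LL Dq ps₀ / Real.log X) * Real.log X)) := by
    rw [hD₁, Real.log_exp]
  have hlD₁' : Real.log D₁ = min (n₀ - 3 / 4 * κ + d) (n - (n₀ - (n₀ - 3 / 4 * κ + d))) := by
    rw [hlD₁, hgL, ← hn₀, ← hn]
  have hlD0 : 0 ≤ Real.log D₁ := by
    rw [hlD₁']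
    exact le_min (by linarith) (by linarith)
  have hD₁1 : 1 ≤ D₁ := by
    rw [hD₁]
    refine Real.one_le_exp ?_
    rw [← hlD₁]; exact hlD0
  have hlD19 : 19 * Real.log D₁ ≤ κ := by
    rw [hlD₁']
    have := min_le_left (n₀ - 3 / 4 * κ + d) (n - (n₀ - (n₀ - 3 / 4 * κ + d)))
    linarith
  have hE1 : 1 ≤ X ^ f₀ := Real.one_le_rpow hX1 g0
  have hlE : Real.log (X ^ f₀) = f₀ * l := by rw [Real.log_rpow hX0, ← hL]
  have hlK : Real.log (X ^ K) = κ := by rw [Real.log_rpow hX0, ← hL, hκ]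
  have hhh : 3 * Real.log (X ^ fβ / X ^ f₀) = 3 * (fβ - f₀) * l := by
    rw [Real.log_div (Real.rpow_pos_of_pos hX0 _).ne' (Real.rpow_pos_of_pos hX0 _).ne',
      Real.log_rpow hX0, Real.log_rpow hX0, ← hL]
    ring
  -- the short length
  obtain ⟨u1, u2, -⟩ := s0_near hX3 hc.le hε.le hnum hnx hF
  rw [← hL, ← hn, ← hκ, ← hd] at u1 u2
  obtain ⟨s₀, hs₀⟩ : ∃ x : ℝ, x = d₁ * l - max 0 (LL Dq ps₀ - n) := ⟨_, rfl⟩
  rw [← hs₀] at u1
  have hs₀0 : 0 ≤ s₀ := by linarith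
  obtain ⟨hLg3, hPV⟩ := HPV X hX3 hXXp ps₀ hlen hs2 hnum hnx hlmp δ q ps Lv N₁ hδ0 hδ4 hF hq hqX
    hps
  rw [← hL, ← hn, ← hs₀] at hLg3 hPV
  have hLg : Lg (d₁ * l) ps := hLg3.lg hs₀0
  have hd₁l : d₁ * l ≤ c₀ * l := by
    have h1 := lmp_le (y := 0) hlmp (fun q hq => (hz q hq).2)
    rw [← hL] at h1
    have h2 : (d₁ + 3 / 2 * c) * l = d₁ * l + 3 / 2 * d := by rw [hd]; ring
    linarith
  have hd₁c : d₁ ≤ 2 * c₀ := by
    have h1 : d₁ ≤ c₀ := le_of_mul_le_mul_right hd₁l hL0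
    linarith
  have hzr := rp_z (d₁ := d₁ * l) (b := c₀ * l + S') (by positivity) (by linarith) hz' hLg
  -- the pair line
  have hTK : TK K * l = 10 * κ + 10 * l := by unfold RGB545.TK; rw [hκ]; ring
  have hmx : max 0 (4 * (n / l) - 3 * K) * l = max 0 (4 * n - 3 * κ) := by
    rw [max_mul_of_nonneg _ _ hL0.le, zero_mul, hκ]
    congr 1
    field_simp
  have g9 : 9 * (f₀ * l) ≤ max 0 (4 * n - 3 * κ) + κ / 100 := by
    have h1 := mul_le_mul_of_nonneg_right (hφ₀ (LL Dq ps₀ / Real.log X) (Lv / Real.log X)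
      (LF ps / Real.log X)) hL0.le
    rw [← hf₀, ← hn, ← hL] at h1
    rw [← hmx, hκ]
    linarith
  have g9' : 9 * ((fβ - f₀) * l) ≤ max 0 (4 * n - 3 * κ) + κ / 200 := by
    have h1 := mul_le_mul_of_nonneg_right (hφ9 (LL Dq ps₀ / Real.log X) (Lv / Real.log X)
      (LF ps / Real.log X)) hL0.le
    rw [← hf₀, ← hfβ, ← hn, ← hL] at h1
    rw [← hmx, hκ]
    linarith
  have hln := plsF_two (C := C₁) (S := S') (c₀ := c₀) (d₁ := d₁) (μ' := N * M / 2)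
    (m := ε / 2 * Real.log X) (Dm := Real.log D₁) (Em := Real.log (X ^ f₀)) (hR2 lam)
    (by linarith) hprem
    (by linarith) hS' hps (fun q hq => (hz q hq).2) (by linarith) hd₁ hd₁c
    (by rw [← hL]; exact hLg) le_rfl
    ((mul_le_mul_of_nonneg_right (le_max_left _ _)
      (Real.rpow_nonneg hX0.le _)).trans le_rfl) hlen hM (by linarith) hBd0
    (by rw [← hL]; positivity)
    (by
      rw [← hL]
      have : 0 ≤ ε * l := by positivity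
      linarith)
    (by
      rw [← hL, ← hκ, ← hn, hlD₁']
      have := min_le_right (n₀ - 3 / 4 * κ + d) (n - (n₀ - (n₀ - 3 / 4 * κ + d)))
      linarith)
    (by
      rw [hlE, ← hL, ← hn]
      have h1 : (max 0 (4 * (n / l) - 3 * K) + K / 100 + ε) * l =
          max 0 (4 * n - 3 * κ) + κ / 100 + ε * l := by rw [← hmx, hκ]; ring
      rw [h1]
      linarith) hv0 hK0.le
    (by rw [← hL, ← hn, hTK]; linarith) (by rw [← hL, hTK]; linarith)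
    (by rw [← hL, hTK]; linarith) (by rw [hlE, ← hL, hTK]; linarith)
    (by rw [← hL, hTK, ← hκ]; linarith)
  rw [← hHHd, ← hBb, ← hL, ← hκ, ← hn] at hln
  have hhl' : 3 * (fβ - f₀) * l ≤ hl K (Lv / l) (n / l) * l := by
    have h1 := mul_le_mul_of_nonneg_right (hhl (LL Dq ps₀ / Real.log X) (Lv / Real.log X)
      (LF ps / Real.log X)) hL0.le
    rw [← hf₀, ← hfβ, ← hn, ← hL] at h1
    exact h1
  have hln1 := plsX_of hln.1 hhl'
  have hln2 := plsX_of hln.2 hhl'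
  -- the windows
  intro I hI1 hI2 p hp t X' φ hX' hXX' hWK hφ
  rw [hfe, ← hf₀, ← hfβ, ← hD₁]
  have hXX2 : |Real.log X' - n| ≤ R + 1 := by
    have h1 : |Real.log X' - Real.log (Real.exp (LF ps))| ≤ R + 1 := hXX'
    rwa [Real.log_exp, ← hn] at h1
  have hWK' : WK Cw η Aw φ := hWK
  have hφ' : ∀ u, φ u ≠ 0 → |u - Real.log X'| ≤ η / 2 := hφ
  have hI1' : (N₁ : ℝ) < 2 ^ I := hI1
  have hI2' : (2 : ℝ) ^ I ≤ 2 * N₁ := hI2
  obtain ⟨Pz, hPzd⟩ : ∃ x : ℝ, x = X ^ b₁ := ⟨_, rfl⟩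
  have hPze : Pz = Real.exp (b₁ * l) := by rw [hPzd, hXe]
  have hPz0 : 0 < Pz := by rw [hPze]; exact Real.exp_pos _
  have hlP : Real.log Pz = b₁ * l := by rw [hPze, Real.log_exp]
  have hbL : b₁ * l = 8 * κ + 60 * l + 4 * (c₀ * l) := by rw [hb₁, hκ]; ring
  have hc₀L : l ≤ c₀ * l := le_mul_of_one_le_left hL0.le hc₀
  have hbL0 : 0 ≤ b₁ * l := by positivity
  have hPz1 : 1 ≤ Pz := by rw [hPze]; exact Real.one_le_exp hbL0
  have hεbl : ε₂ * (b₁ * l) ≤ ε * l / 200 := by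
    have := mul_le_mul_of_nonneg_right hε₂b hL0.le
    linarith
  have hPe : Pz ^ ε₂ ≤ Real.exp d := by
    rw [hPze, ← Real.exp_mul]
    refine Real.exp_le_exp.2 ?_
    have : b₁ * l * ε₂ = ε₂ * (b₁ * l) := by ring
    linarith
  have hPe51 : Pz ^ (51 * ε₂) ≤ Real.exp d := by
    rw [hPze, ← Real.exp_mul]
    refine Real.exp_le_exp.2 ?_
    have : b₁ * l * (51 * ε₂) = 51 * (ε₂ * (b₁ * l)) := by ring
    linarith
  have hPe0 : 0 ≤ Pz ^ ε₂ := by positivity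
  -- the size of the sequence
  obtain ⟨Ax, hAxd⟩ : ∃ x : ℝ, x = g₂ * Pz ^ ε₂ := ⟨_, rfl⟩
  have hAx0 : 0 ≤ Ax := by rw [hAxd]; positivity
  have hC₂P : C₂ ≤ Pz := by
    rw [hPze]
    have h1 := Real.add_one_le_exp (b₁ * l)
    have h2 : C₂ ≤ e₀ := by rw [he₀]; linarith
    linarith
  obtain ⟨hFSx, -, -, hXn⟩ := HX (π lam) (hP lam) q (X ^ δ) (X ^ δ) (d₁ * l) ps hlen' Pz hC₂P (by
    rw [hPze, ← Real.exp_add]
    refine Real.exp_le_exp.2 ?_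
    have h2 : R₂ ≤ e₀ := by rw [he₀]; linarith
    rw [← hn]
    linarith)
  have hAx : ∀ m, ‖bw φ p t (xs q (X ^ δ) (X ^ δ) (π lam) h (d₁ * l) ps) m‖ ≤ Ax := by
    intro m
    refine (norm_bw_le hWK' hη (by omega) hFSx p t m).trans ?_
    rw [hAxd, hg₂, mul_assoc (Cw * iA Aw)]
    exact mul_le_mul_of_nonneg_left (hXn m) (by positivity)
  have hAx2 : Ax ≤ g₂ * Real.exp d := by
    rw [hAxd]; exact mul_le_mul_of_nonneg_left hPe hg₂0
  have hAxP : Ax ≤ Pz := by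
    refine hAx2.trans ?_
    rw [hPze]
    calc g₂ * Real.exp d ≤ Real.exp l * Real.exp d := by gcongr
      _ = Real.exp (l + d) := by rw [Real.exp_add]
      _ ≤ _ := Real.exp_le_exp.2 (by linarith)
  have hN1 : 9 * (N₁ : ℝ) ≤ Real.exp (Lv + 4) := hF.N1
  have hN0e : Real.exp Lv ≤ (N₁ : ℝ) := hF.N0
  have hN1p : (0 : ℝ) < N₁ := by
    have := Real.exp_pos Lv; linarith
  have hlN1 : Real.log N₁ ≤ Lv + e₀ := by
    have h1 : Real.log N₁ ≤ Real.log (Real.exp (Lv + 4)) :=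
      Real.log_le_log hN1p (by linarith)
    rw [Real.log_exp] at h1
    linarith
  have hXδ : 1 ≤ X ^ δ := Real.one_le_rpow hX1 hδ0
  have hNδ : 3 * ((N : ℝ) * (δ * l)) ≤ d := by
    have h1 : 3 * ((N : ℝ) * (δ * l)) = (3 * N * δ) * l := by ring
    rw [h1]
    have h2 := mul_le_mul_of_nonneg_right hδN hL0.le
    linarith
  have hNδ0 : 0 ≤ (N : ℝ) * (δ * l) := by positivity
  have hD0N : (X ^ δ) ^ N ≤ Real.exp d := by
    rw [hXe, ← Real.exp_nat_mul]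
    refine Real.exp_le_exp.2 ?_
    linarith
  have hop : opL N (X ^ δ) ≤ ((100 : ℝ) ^ N) ^ 2 * Real.exp d := by
    unfold NPy739.opL
    have e1 : (X ^ δ) ^ N * ((100 * X ^ δ) ^ N) ^ 2 = ((100 : ℝ) ^ N) ^ 2 * ((X ^ δ) ^ N) ^ 3 := by
      rw [mul_pow]; ring
    rw [e1]
    refine mul_le_mul_of_nonneg_left ?_ (by positivity)
    rw [hXe, ← Real.exp_nat_mul, ← Real.exp_nat_mul]
    refine Real.exp_le_exp.2 ?_
    push_cast
    exact hNδ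
  have hopN : 0 ≤ opL N (X ^ δ) := NPy739.opL_nonneg N (by linarith)
  -- the target
  obtain ⟨G, hG⟩ : ∃ x : ℝ, x = HH ^ (max M (A' : ℝ)) * Bd * (1 + |t|) ^ Jn * Real.exp (n + κ) :=
    ⟨_, rfl⟩
  have ht0 := abs_nonneg t
  have hT1 : 1 ≤ (1 + |t|) ^ Jn := one_le_pow₀ (by linarith)
  have hTA : (1 + |t|) ^ A' ≤ (1 + |t|) ^ Jn := pow_le_pow_right₀ (by linarith) hA'Jn
  have hHB1 : 1 ≤ HH ^ (max M (A' : ℝ)) * Bd * (1 + |t|) ^ Jn :=
    one_le_mul_of_one_le_of_one_le (one_le_mul_of_one_le_of_one_le hHJ1 hBd) hT1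
  obtain ⟨s, hs⟩ : ∃ x : ℝ, x = c' * κ := ⟨_, rfl⟩
  have hκ0 : 0 ≤ κ := by linarith
  have hs0 : 0 ≤ s := by rw [hs]; positivity
  have hs1 : s ≤ 12 * d := by
    rw [hs, hκ, hd]
    have := mul_le_mul_of_nonneg_right hc'1 hL0.le
    linarith
  -- the principal value
  obtain ⟨B₁, hB₁⟩ : ∃ x : ℝ, x = Cp * X ^ (ε / 16) * Ht ps ^ 3 := ⟨_, rfl⟩
  have hHt1 := one_le_Ht ps
  have hHH2 : Ht ps ≤ HH := by
    rw [hHHd]
    exact le_mul_of_one_le_right (by linarith) (one_le_Ht _)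
  have hB₁0 : 0 ≤ B₁ := by
    rw [hB₁]
    have : 0 ≤ X ^ (ε / 16) := Real.rpow_nonneg hX0.le _
    positivity
  have hHt6 : Ht ps ^ 6 ≤ HH ^ (max M (A' : ℝ)) := by
    calc Ht ps ^ 6 ≤ HH ^ 6 := pow_le_pow_left₀ (by linarith) hHH2 6
      _ = HH ^ ((6 : ℕ) : ℝ) := (Real.rpow_natCast _ _).symm
      _ ≤ _ := by
          refine Real.rpow_le_rpow_of_exponent_le hHH ((?_ : ((6 : ℕ) : ℝ) ≤ A').trans
            (le_max_right _ _))
          exact_mod_cast (by omega : 6 ≤ A')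
  have hB₁2 : B₁ ^ 2 ≤ Cp ^ 2 * Real.exp d * HH ^ (max M (A' : ℝ)) := by
    have h1 : (X ^ (ε / 16)) ^ 2 ≤ Real.exp d := by
      rw [hXe, ← Real.exp_nat_mul]
      refine Real.exp_le_exp.2 ?_
      push_cast
      linarith
    calc B₁ ^ 2 = Cp ^ 2 * (X ^ (ε / 16)) ^ 2 * Ht ps ^ 6 := by rw [hB₁]; ring
      _ ≤ _ := by gcongr
  have hZv : Cz * Pz ^ bz ≤ X ^ BV := by
    rw [hPzd, ← Real.rpow_natCast (X ^ b₁) bz, ← Real.rpow_mul hX0.le]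
    calc Cz * X ^ (b₁ * (bz : ℝ)) ≤ X * X ^ (b₁ * (bz : ℝ)) := by gcongr
      _ = X ^ (b₁ * (bz : ℝ) + 1) := by rw [Real.rpow_add_one hX0.ne']; ring
      _ ≤ X ^ BV := Real.rpow_le_rpow_of_exponent_le hX1 (hBV ▸ le_max_right _ _)
  have hSt : StN κ n Lv (6 * d) :=
    ⟨hκ0, by linarith, by linarith, by linarith, by linarith, by linarith⟩
  -- one piece
  have hone : ∀ i ∈ Finset.range Nw,
      RPg (rhoS (4 / 3 * Real.log (Real.exp (LF ps))) (Real.log (X ^ K))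
        (ShN (Real.log (X ^ K)) (Real.log (Real.exp (LF ps))) (c' * Real.log (X ^ K))))
        (bw φ p t (xs q (X ^ δ) (X ^ δ) (π lam) h (d₁ * l) ps)) (sc (X ^ K) Mw i)
        (GF (Fh (Fw i) (3 * Real.log (X ^ fβ / X ^ f₀)))) (S D₁) I (X ^ f₀) N₁ ≤
      C₁ * Sf ^ 2 * (2 * a₁ + g₂ ^ 2 + a₄ + 1) * G := by
    intro i hi
    have hi' : (i : ℝ) ≤ Nw := by
      have := (Finset.mem_range.1 hi).le
      exact_mod_cast this
    have hi0 : (0 : ℝ) ≤ i := Nat.cast_nonneg i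
    have hXK : 0 < X ^ K := Real.rpow_pos_of_pos hX0 _
    have hlsc : Real.log (sc (X ^ K) Mw i) = κ + (i - Mw) := by
      unfold WDec180.sc
      rw [Real.log_mul hXK.ne' (Real.exp_pos _).ne', Real.log_exp, hlK]
    have h1 := HR (Fw i) Sf (hD.tf i) (hSf i (Finset.mem_range.1 hi)) (3 * (fβ - f₀) * l)
      (by linarith) Cw η hCw hη hη2 φ (WK_anti hWK' hCw hη (by omega)) X' hX' hφ' p hp t
      (π lam) (hP lam) ps (d₁ * l) hlen' (fun x hx => (hz' x hx).1) (fun x hx => (hzr x hx).1)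
      (X ^ δ) (X ^ δ) hXδ q hq e₀ Pz N₁
      (sc (X ^ K) Mw i) D₁ (X ^ f₀) Ax (B₁ * Real.exp n) B₁ s₀ (X ^ BV) I κ Lv (ε / 2 * l) (6 * d)
      s (6 * d) (4 * d) (29 * d) Bb Bb (Real.exp (1 + 3))
      (rhoS (4 / 3 * Real.log (Real.exp (LF ps))) (Real.log (X ^ K))
        (ShN (Real.log (X ^ K)) (Real.log (Real.exp (LF ps))) (c' * Real.log (X ^ K))))
      (rw_rhoS (lipS_ShN _ _ _) (by norm_num) _ _)
      (by
        intro δ' e' V hδ' he' hV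
        unfold I1146.rhoS JBf180.ShN RG64.fl NE73.flK
        refine Real.exp_le_exp.2 (le_of_eq ?_)
        rw [Real.log_exp, hlK, hs]
        ring_nf)
      hAx hAxP (by positivity) (by rw [← hn]) hZv (by rw [hB₁]; exact hPV)
      (WDec180.sc_pos hXK Mw i) (by
        rw [hlsc, abs_le]
        constructor <;> linarith) (by
        rw [← hn]
        refine hXX2.trans ?_
        linarith) hI2' hN1p hlN1 hD₁1 hE1 he10 (by linarith) (by linarith)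
      (by
        rw [hlP]
        linarith) (by linarith) (by linarith) hv0 (by rw [← hn]; linarith)
      (by rw [← hn]; linarith) (by rw [← hn]; linarith) (by linarith) (by linarith) hlD19
      (by rw [hlE]; exact g40) (by rw [← hn, hlP, hbL]; linarith) (hD0N.trans (by
        rw [hPze]; exact Real.exp_le_exp.2 (by linarith))) (hqX.trans (by
        rw [hPze, hXe]; exact Real.exp_le_exp.2 (by linarith))) (fun x hx => by
        rw [hPze]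
        refine Real.exp_le_exp.2 ?_
        have := (hz' x hx).2
        linarith) (fun x hx => by
        rw [hPze]
        refine Real.exp_le_exp.2 ?_
        have := (hzr x hx).2
        linarith) hBb0 hBb0 (by rw [← hn]; exact hSt) (by linarith) (by linarith)
      (by rw [← hn]; linarith) (by rw [← hn]; linarith) (by linarith) (by linarith)
      (by rw [← hn]; linarith) (by rw [← hn]; linarith) (by rw [← hn, hlE]; exact g9)
      (by rw [← hn]; exact hln1) (by rw [← hn]; exact hln2)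
    rw [← hn] at h1
    rw [hhh, ← hn]
    refine h1.trans ?_
    have qz : ∀ x : ℝ, x ≤ 4 * d → Real.exp x *
        Real.exp (κ + n + s - 29 * d + (4 * d + 12 * e₀)) ≤ Real.exp (n + κ) := by
      intro x hx
      rw [← Real.exp_add]
      exact Real.exp_le_exp.2 (by linarith)
    obtain ⟨Ez, hEz⟩ : ∃ x : ℝ, x = Real.exp (κ + n + s - 29 * d + (4 * d + 12 * e₀)) :=
      ⟨_, rfl⟩
    rw [← hEz] at qz ⊢
    have hEz0 : 0 ≤ Ez := hEz ▸ (Real.exp_pos _).le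
    have hed0 : 0 ≤ Real.exp d := (Real.exp_pos _).le
    have q1 : Real.exp d * (Real.exp d * Ez) ≤ Real.exp (n + κ) := by
      rw [← mul_assoc, ← Real.exp_add]
      exact qz _ (by linarith)
    have q2 : Real.exp d * (Real.exp d ^ 2 * Ez) ≤ Real.exp (n + κ) := by
      rw [← mul_assoc, ← Real.exp_nat_mul, ← Real.exp_add]
      refine qz _ ?_
      push_cast
      linarith
    have q3 : Real.exp d * Ez ≤ Real.exp (n + κ) := qz _ (by linarith)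
    have r1 : Real.exp d * (Cw ^ 2 * (η * (η ^ A')⁻¹) * (1 + |t|) ^ A' * opL N (X ^ δ) *
        (Bb + Bb) * Ez) ≤ 2 * a₁ * G := by
      calc Real.exp d * (Cw ^ 2 * (η * (η ^ A')⁻¹) * (1 + |t|) ^ A' * opL N (X ^ δ) *
            (Bb + Bb) * Ez)
          ≤ Real.exp d * (Cw ^ 2 * (η * (η ^ A')⁻¹) * (1 + |t|) ^ Jn *
            (((100 : ℝ) ^ N) ^ 2 * Real.exp d) * (Bd * HH ^ (max M (A' : ℝ)) +
              Bd * HH ^ (max M (A' : ℝ))) * Ez) := by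
            rw [hBb]
            gcongr
        _ = 2 * a₁ * (HH ^ (max M (A' : ℝ)) * Bd * (1 + |t|) ^ Jn) *
            (Real.exp d * (Real.exp d * Ez)) := by rw [ha₁]; ring
        _ ≤ 2 * a₁ * (HH ^ (max M (A' : ℝ)) * Bd * (1 + |t|) ^ Jn) * Real.exp (n + κ) :=
            mul_le_mul_of_nonneg_left q1 (by positivity)
        _ = 2 * a₁ * G := by rw [hG]; ring
    have r2 : Real.exp d * (Ax ^ 2 * Ez) ≤ g₂ ^ 2 * G := by
      calc Real.exp d * (Ax ^ 2 * Ez) ≤ Real.exp d * ((g₂ * Real.exp d) ^ 2 * Ez) := by gcongr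
        _ = g₂ ^ 2 * (Real.exp d * (Real.exp d ^ 2 * Ez)) := by ring
        _ ≤ g₂ ^ 2 * Real.exp (n + κ) := mul_le_mul_of_nonneg_left q2 (by positivity)
        _ ≤ g₂ ^ 2 * Real.exp (n + κ) * (HH ^ (max M (A' : ℝ)) * Bd * (1 + |t|) ^ Jn) :=
            le_mul_of_one_le_right (by positivity) hHB1
        _ = g₂ ^ 2 * G := by rw [hG]; ring
    have r3 : Real.exp d * (1 * Ez) ≤ 1 * G := by
      calc Real.exp d * (1 * Ez) = Real.exp d * Ez := by ring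
        _ ≤ Real.exp (n + κ) := q3
        _ ≤ Real.exp (n + κ) * (HH ^ (max M (A' : ℝ)) * Bd * (1 + |t|) ^ Jn) :=
            le_mul_of_one_le_right (by positivity) hHB1
        _ = 1 * G := by rw [hG]; ring
    have hT12 : ((1 + |t|) ^ 6) ^ 2 ≤ (1 + |t|) ^ Jn := by
      rw [← pow_mul]
      exact pow_le_pow_right₀ (by linarith) (by omega)
    have r4 : Real.exp d * ((Cw * (η⁻¹) ^ 6 * (1 + |t|) ^ 6) ^ 2 * B₁ ^ 2 * Ez) ≤ a₄ * G := by
      calc Real.exp d * ((Cw * (η⁻¹) ^ 6 * (1 + |t|) ^ 6) ^ 2 * B₁ ^ 2 * Ez)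
          = (Cw * (η⁻¹) ^ 6) ^ 2 * (((1 + |t|) ^ 6) ^ 2 * (B₁ ^ 2 * (Real.exp d * Ez))) := by
            ring
        _ ≤ (Cw * (η⁻¹) ^ 6) ^ 2 * ((1 + |t|) ^ Jn *
            ((Cp ^ 2 * Real.exp d * HH ^ (max M (A' : ℝ))) * (Real.exp d * Ez))) := by
            gcongr
        _ = a₄ * (HH ^ (max M (A' : ℝ)) * (1 + |t|) ^ Jn) *
            (Real.exp d * (Real.exp d * Ez)) := by rw [ha₄]; ring
        _ ≤ a₄ * (HH ^ (max M (A' : ℝ)) * (1 + |t|) ^ Jn) * Real.exp (n + κ) :=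
            mul_le_mul_of_nonneg_left q1 (by positivity)
        _ ≤ a₄ * (HH ^ (max M (A' : ℝ)) * (1 + |t|) ^ Jn) * Real.exp (n + κ) * Bd :=
            le_mul_of_one_le_right (by positivity) hBd
        _ = a₄ * G := by rw [hG]; ring
    have hC₁0 : 0 ≤ C₁ := by linarith
    calc C₁ * Sf ^ 2 * Pz ^ (51 * ε₂) * ((Cw ^ 2 * (η * (η ^ A')⁻¹) * (1 + |t|) ^ A' *
          opL N (X ^ δ) * (Bb + Bb) + Ax ^ 2 + (Cw * (η⁻¹) ^ 6 * (1 + |t|) ^ 6) ^ 2 * B₁ ^ 2 +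
            1) * Ez)
        ≤ C₁ * Sf ^ 2 * Real.exp d * ((Cw ^ 2 * (η * (η ^ A')⁻¹) * (1 + |t|) ^ A' *
          opL N (X ^ δ) * (Bb + Bb) + Ax ^ 2 + (Cw * (η⁻¹) ^ 6 * (1 + |t|) ^ 6) ^ 2 * B₁ ^ 2 +
            1) * Ez) := by gcongr
      _ = C₁ * Sf ^ 2 * (Real.exp d * (Cw ^ 2 * (η * (η ^ A')⁻¹) * (1 + |t|) ^ A' *
          opL N (X ^ δ) * (Bb + Bb) * Ez) + Real.exp d * (Ax ^ 2 * Ez) +
          Real.exp d * ((Cw * (η⁻¹) ^ 6 * (1 + |t|) ^ 6) ^ 2 * B₁ ^ 2 * Ez) +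
          Real.exp d * (1 * Ez)) := by
          ring
      _ ≤ C₁ * Sf ^ 2 * (2 * a₁ * G + g₂ ^ 2 * G + a₄ * G + 1 * G) :=
          mul_le_mul_of_nonneg_left (add_le_add (add_le_add (add_le_add r1 r2) r4) r3)
            (by positivity)
      _ = _ := by ring
  show ∑ i ∈ Finset.range Nw,
      RPg (rhoS (4 / 3 * Real.log (Real.exp (LF ps))) (Real.log (X ^ K))
        (ShN (Real.log (X ^ K)) (Real.log (Real.exp (LF ps))) (c' * Real.log (X ^ K))))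
        (bw φ p t (xs q (X ^ δ) (X ^ δ) (π lam) h (d₁ * Real.log X) ps)) (sc (X ^ K) Mw i)
        (GF (Fh (Fw i) (3 * Real.log (X ^ fβ / X ^ f₀)))) (S D₁) I (X ^ f₀) N₁ ≤
      (X ^ K / Real.exp (LF ps)) * ((max (C₁ * Real.exp (2 * S')) Cf * X ^ ε *
        (Ht ps * Ht (natl ps₀)) ^ (max M (A' : ℝ)) * Bd * Real.exp (2 * LF ps)) *
        (1 + |t|) ^ Jn)
  rw [← hL]
  refine (Finset.sum_le_sum hone).trans ?_
  rw [← hHHd, ← hn, Finset.sum_const, Finset.card_range, nsmul_eq_mul]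
  have hXε : 1 ≤ X ^ ε := Real.one_le_rpow hX1 hε.le
  have e5 : X ^ K / Real.exp n * Real.exp (2 * n) = Real.exp (n + κ) := by
    rw [hXe, ← hκ, ← Real.exp_sub, ← Real.exp_add]; congr 1; ring
  have hG0 : 0 ≤ G := by rw [hG]; positivity
  calc (Nw : ℝ) * (C₁ * Sf ^ 2 * (2 * a₁ + g₂ ^ 2 + a₄ + 1) * G) = Cf * 1 * G := by rw [hCf]; ring
    _ ≤ max (C₁ * Real.exp (2 * S')) Cf * X ^ ε * G := by
        refine mul_le_mul_of_nonneg_right ?_ hG0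
        exact mul_le_mul (le_max_right _ _) hXε zero_le_one (le_max_of_le_right hCf0)
    _ = X ^ K / Real.exp n * Real.exp (2 * n) * (max (C₁ * Real.exp (2 * S')) Cf * X ^ ε *
        HH ^ (max M (A' : ℝ)) * Bd * (1 + |t|) ^ Jn) := by rw [e5, hG]; ring
    _ = _ := by ring

end Crest.Agent.R017.N2EX298
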