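import Crest.Agent.R017.N2d_106
import Crest.Agent.R017.RCd_106
import Crest.Agent.R017.NLn_180

/-!
# Row 17, FlatNE (helper106): the real side of the compensated E2, part e

* `rg_leaf` : `NLeaf` of helper180's `RgN`, class N, from the pair line
* `num2N_leaf` : `NLeaf` of `N2N` (complete `Num2`)
-/

set_option autoImplicit false
set_option linter.unusedVariables false
set_option maxHeartbeats 16000000

noncomputable section

open Finset
open scoped ComplexConjugate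

namespace Crest.Agent.R017.N2106

open Crest.Agent.R012 Crest.Agent.R012.Eis
open Crest.Agent.R012.LS2 (S mem_S)
open Crest.Agent.R017.B770
open Crest.Agent.R017.Prov71
open Crest.Agent.R017.CM106 (CS FS)
open Crest.Agent.R017.FE47 (cx PU)
open Crest.Agent.R017.HP842 (pc sqc)
open Crest.Agent.R017.Leg381 (alf alF Pf LF natl LF_get)
open Crest.Agent.R017.XRG106 (Rl)
open Crest.Agent.R017.X6C180 (GF)
open Crest.Agent.R017.Win813 (iA iA_nonneg WK)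
open Crest.Agent.R017.WDec180 (WD sc)
open Crest.Agent.R017.E2440 (Fh)
open Crest.Agent.R017.QsO83 (bw FS_bw)
open Crest.Agent.R017.NPy739 (opL)
open Crest.Agent.R017.RG64 (SbL Sb Ht one_le_Ht)
open Crest.Agent.R017.XP699 (LL Chd hcost cst)
open Crest.Agent.R017.RLD381
open Crest.Agent.R017.RGB545
open Crest.Agent.R017.RC106
open Crest.Agent.R017.I1146 (RW RPg rhoS rw_rhoS)
open Crest.Agent.R017.NE73 (gN flK)
open Crest.Agent.R017.NEg551 (NFacts NTc NNum NLeaf LBq)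
open Crest.Agent.R017.NLn180 (RgN N2N lipS_ShN num2_leaf)
open Crest.Agent.R017.JBf180 (ShN)

variable {Lam ι : Type*}

lemma fl_flK (κ k m : ℝ) : RG64.fl κ k m = flK κ k m := by
  unfold RG64.fl NE73.flK
  congr 2
  ring

/-- **the R-number of the cross error at the near leaf**, class N -/
theorem rg_leaf {π : Lam → DPar} (hP : ∀ lam, (π lam).OK) {h : ℝ → ℝ} {c₁ : ℝ}
    (hpu : PU h c₁) {w : ℝ → ℝ} {Nw : ℕ} {Mw : ℝ} {Fw : ℕ → ℝ → ℂ} (hD : WD w Nw Mw Fw)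
    {hf : LBq → ℝ} (hfe : ∀ p : LBq, hf p = 3 * Real.log (p.B / p.E0))
    {L : ι → Line Lam 9} {φ₀ φ₁ φβ : ℝ → ℝ → ℝ → ℝ} {K v c c' : ℝ} {hh : ℝ → ℝ → ℝ → ℝ}
    (hc : 0 < c) (hcK : 1000000 * c ≤ K) (hv : 0 ≤ v) (hc0 : 0 ≤ c') (hc' : 1000 * c' ≤ 1)
    (j : ι) (hjG : (L j).G = GRx hh) (hjF : (L j).F = FRx) (hjb : (L j).b = fun θ => θ 0)
    (hjz : ¬ (L j).zl) (hjΦ : (L j).Φ = PFp π h)
    (hφ₀ : ∀ a u m, 0 ≤ φ₀ a u m)
    (hφ9 : ∀ a u m, 9 * φ₀ a u m ≤ max 0 (4 * m - 3 * K) + K / 100)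
    (hφ40 : ∀ a u m, 5 * a ≤ 4 * K + c → m ≤ a + c → 40 * φ₀ a u m ≤ K)
    (hφh0 : ∀ a u m, φ₀ a u m ≤ φβ a u m)
    (hφ42 : ∀ a u m, 5 * a ≤ 4 * K + c → m ≤ a + c → 42 * (φβ a u m - φ₀ a u m) ≤ K)
    (hφh : ∀ a u m, 3 * (φβ a u m - φ₀ a u m) ≤ hh K u m) :
    NLeaf π h (RgN Nw Mw Fw hf c') L φ₀ φ₁ φβ K v c := by
  intro lam N c₀ hc₀
  refine ⟨c₀, by linarith, fun ε M hε hM => ?_⟩
  have hN0 : (0 : ℝ) ≤ N := Nat.cast_nonneg N
  have hK0 : 0 < K := by linarith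
  have hMw := hD.M0
  have hNw : (0 : ℝ) ≤ Nw := Nat.cast_nonneg Nw
  obtain ⟨R₀, hR₀⟩ := bump_of_cs hpu.cs
  obtain ⟨Rh, hRhd⟩ : ∃ x : ℝ, x = max R₀ 0 := ⟨_, rfl⟩
  have hRh0 : 0 ≤ Rh := hRhd ▸ le_max_right _ _
  have hRh : ∀ u, cx h u ≠ 0 → |u| ≤ Rh := fun u hu => (hR₀ u hu).trans (hRhd ▸ le_max_left _ _)
  obtain ⟨A', hA'⟩ : ∃ n : ℕ, 2 * ((N : ℝ) * (N * M / 2)) + 2 ≤ n := exists_nat_ge _
  obtain ⟨b₁, hb₁⟩ : ∃ x : ℝ, x = 8 * K + 60 + c₀ := ⟨_, rfl⟩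
  have hb₁0 : 0 < b₁ := by rw [hb₁]; linarith
  obtain ⟨c₂, hc₂d⟩ : ∃ x : ℝ, x = min c ε := ⟨_, rfl⟩
  have hc₂ : 0 < c₂ := by rw [hc₂d]; exact lt_min hc hε
  have hc₂c : c₂ ≤ c := by rw [hc₂d]; exact min_le_left _ _
  have hc₂ε : c₂ ≤ ε := by rw [hc₂d]; exact min_le_right _ _
  obtain ⟨ε₂, hε₂d⟩ : ∃ x : ℝ, x = c₂ / b₁ := ⟨_, rfl⟩
  have hε₂ : 0 < ε₂ := by rw [hε₂d]; positivity
  have hε₂b : ε₂ * b₁ = c₂ := by rw [hε₂d]; field_simp
  have hε₂1 : ε₂ ≤ 1 := by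
    rw [hε₂d, div_le_one hb₁0]; linarith
  obtain ⟨k, C₁, hC₁, HR⟩ := rpg_one hpu hRh0 hRh (μ := (N : ℝ) * M / 2) (by positivity) N hε₂
    hε₂1 A' hA'
  obtain ⟨C₂, hC₂, HX⟩ := norm_bw_list hpu N hε₂
  obtain ⟨Sf, hSf0, hSf⟩ := hD.bd k
  refine ⟨max M A', c / (3 * N + 1), le_max_of_le_left hM, by positivity, ?_⟩
  intro δ Jn Aw Cw R η S' hδ0 hδ hJn hAw hCw hR hη hη2 hS'
  have hA'Jn : A' ≤ Jn := by
    have : (A' : ℝ) ≤ Jn := (le_max_right _ _).trans hJn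
    exact_mod_cast this
  have hiAw := iA_nonneg Aw
  have hδN : 3 * N * δ ≤ c := by
    rw [le_div_iff₀ (by positivity)] at hδ
    nlinarith
  have hk9 := k9_nonneg
  obtain ⟨e₀, he₀⟩ : ∃ x : ℝ, x = 10 + k9 + C₁ + R + Nw + Mw := ⟨_, rfl⟩
  have he10 : 10 ≤ e₀ := by rw [he₀]; linarith
  obtain ⟨g₂, hg₂⟩ : ∃ x : ℝ, x = Cw * iA Aw * C₂ := ⟨_, rfl⟩
  have hg₂0 : 0 ≤ g₂ := by rw [hg₂]; positivity
  obtain ⟨a₁, ha₁⟩ : ∃ x : ℝ, x = Cw ^ 2 * (η * (η ^ A')⁻¹) * ((100 : ℝ) ^ N) ^ 2 *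
    Real.exp (2 * e₀) := ⟨_, rfl⟩
  have ha₁0 : 0 ≤ a₁ := by rw [ha₁]; positivity
  obtain ⟨a₂, ha₂⟩ : ∃ x : ℝ, x = g₂ ^ 2 * Real.exp (2 * e₀) := ⟨_, rfl⟩
  have ha₂0 : 0 ≤ a₂ := by rw [ha₂]; positivity
  obtain ⟨a₃, ha₃⟩ : ∃ x : ℝ, x = Real.exp (2 * e₀) := ⟨_, rfl⟩
  have ha₃0 : 0 ≤ a₃ := by rw [ha₃]; positivity
  obtain ⟨Cf, hCf⟩ : ∃ x : ℝ, x = Nw * (C₁ * Sf ^ 2 * (a₁ + a₂ + a₃)) := ⟨_, rfl⟩
  have hCf0 : 0 ≤ Cf := by rw [hCf]; positivity
  obtain ⟨T₀, hT₀⟩ : ∃ x : ℝ, x = S' + 20 * e₀ + 8 * e₀ / c₂ + g₂ := ⟨_, rfl⟩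
  refine ⟨max (C₁ * Real.exp S') Cf, C₁ + S', Real.exp T₀, le_max_of_le_right hCf0,
    by positivity, ?_⟩
  intro X hX3 hXX ps₀ hlen hz hs2 hnum q ps Lv N₁ hF hq hqX hps Bd hBd hT hprem
  have hX0 : 0 < X := by linarith
  have hX1 : 1 ≤ X := by linarith
  obtain ⟨l, hl⟩ : ∃ l : ℝ, l = Real.log X := ⟨_, rfl⟩
  have hTL : T₀ ≤ l := by
    rw [hl, Real.le_log_iff_exp_le hX0]; exact hXX
  have hl1 : 1 ≤ l := by
    rw [hl, ← Real.log_exp 1]
    refine Real.log_le_log (Real.exp_pos 1) ?_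
    linarith [Real.exp_one_lt_d9]
  have hl0 : 0 < l := by linarith
  have t1 : 0 ≤ 8 * e₀ / c₂ := by positivity
  have hS'L : S' ≤ l := by linarith
  have he20 : 20 * e₀ ≤ l := by linarith
  have hec : 8 * e₀ ≤ c₂ * l := by
    have : 8 * e₀ / c₂ ≤ l := by linarith
    rw [div_le_iff₀ hc₂] at this; linarith
  have hg₂L : g₂ ≤ Real.exp l := by
    have := Real.add_one_le_exp l; linarith
  have hXe : ∀ x : ℝ, X ^ x = Real.exp (x * l) := fun x => by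
    rw [Real.rpow_def_of_pos hX0, hl, mul_comm]
  -- the sizes
  obtain ⟨n, hn⟩ : ∃ n : ℝ, n = LF ps := ⟨_, rfl⟩
  obtain ⟨κ, hκ⟩ : ∃ x : ℝ, x = K * l := ⟨_, rfl⟩
  obtain ⟨d, hd⟩ : ∃ x : ℝ, x = c * l := ⟨_, rfl⟩
  obtain ⟨d₂, hd₂⟩ : ∃ x : ℝ, x = c₂ * l := ⟨_, rfl⟩
  have hd0 : 0 < d := by rw [hd]; positivity
  have hd₂0 : 0 < d₂ := by rw [hd₂]; positivity
  have hd₂d : d₂ ≤ d := by rw [hd₂, hd]; exact mul_le_mul_of_nonneg_right hc₂c hl0.le
  have hd₂ε : d₂ ≤ ε * l := by rw [hd₂]; exact mul_le_mul_of_nonneg_right hc₂ε hl0.le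
  have hκd : 1000000 * d ≤ κ := by
    have := mul_le_mul_of_nonneg_right hcK hl0.le
    rw [hκ, hd]; linarith
  have hed : 8 * e₀ ≤ d₂ := by rw [hd₂]; exact hec
  have hεc := hnum.ec
  have hεd : ε * l ≤ d := by rw [hd]; exact mul_le_mul_of_nonneg_right hεc hl0.le
  have hεl : 0 ≤ ε * l := by positivity
  have hκ0 : 0 < κ := by linarith
  obtain ⟨LL0, hLL⟩ : ∃ x : ℝ, x = LL Dq ps₀ := ⟨_, rfl⟩
  obtain ⟨g, hg⟩ : ∃ x : ℝ, x = gN K c (LL Dq ps₀ / Real.log X) := ⟨_, rfl⟩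
  have hgl : g * l = LL0 - 3 / 4 * κ + d := by
    rw [hg, ← hl, ← hLL, hκ, hd]
    unfold NE73.gN
    field_simp
  have f1 := hF.lo
  have f2 := hF.hi
  have f3 := hF.lv
  have f5 := hnum.nK
  have f6 := hnum.Kn
  have f7 := hnum.vg
  have f8 := hnum.sn
  have f9 := hF.v0
  rw [← hg, ← hl, ← hLL, ← hn] at f1
  rw [← hl, ← hLL, ← hn] at f2 f3
  rw [← hl, ← hLL] at f5 f6 f8
  rw [← hg] at f7
  have e1 : (4 * K + ε) * l = 4 * κ + ε * l := by rw [hκ]; ring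
  have e2 : 3 * K * l = 3 * κ := by rw [hκ]; ring
  have e3 : (v + ε) * l = v * l + ε * l := by ring
  have e4 : (7 * K + ε) * l = 7 * κ + ε * l := by rw [hκ]; ring
  have e5 : 100 * c * l = 100 * d := by rw [hd]; ring
  rw [e1] at f5
  rw [e2] at f6
  rw [e3] at f3
  rw [e4, e5] at f8
  have f7' : 3 * (v * l + g * l) + 100 * d ≤ 2 * κ + ε * l := by
    have := mul_le_mul_of_nonneg_right f7 hl0.le
    have e : (3 * (v + g) + 100 * c) * l = 3 * (v * l + g * l) + 100 * d := by rw [hd]; ring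
    have e' : (2 * K + ε) * l = 2 * κ + ε * l := by rw [hκ]; ring
    rw [e, e'] at this
    exact this
  have hvl : 0 ≤ v * l := by positivity
  have hz' := sbL_z hps (fun q hq => (hz q hq).2)
  rw [← hl] at hz'
  have hlen' : ps.length ≤ N := by rw [hps.length]; exact hlen
  have hn0 : 0 ≤ n := by
    rw [hn]
    unfold Leg381.LF
    refine List.sum_nonneg fun x hx => ?_
    obtain ⟨y, hy, rfl⟩ := List.mem_map.1 hx
    exact (hz' y hy).1
  have hHH : 1 ≤ Ht ps * Ht (natl ps₀) :=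
    one_le_mul_of_one_le_of_one_le (one_le_Ht _) (one_le_Ht _)
  obtain ⟨HH, hHHd⟩ : ∃ x : ℝ, x = Ht ps * Ht (natl ps₀) := ⟨_, rfl⟩
  rw [← hHHd] at hHH
  have hHM0 : 0 ≤ HH ^ M := Real.rpow_nonneg (by linarith) _
  have hHMJ : HH ^ M ≤ HH ^ (max M (A' : ℝ)) :=
    Real.rpow_le_rpow_of_exponent_le hHH (le_max_left _ _)
  have hHJ1 : 1 ≤ HH ^ (max M (A' : ℝ)) := Real.one_le_rpow hHH (le_max_of_le_left hM)
  -- the parameters
  obtain ⟨p₀, hp₀⟩ : ∃ x : ℝ, x = φ₀ (LL Dq ps₀ / Real.log X) (Lv / Real.log X)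
    (LF ps / Real.log X) := ⟨_, rfl⟩
  obtain ⟨pβ, hpβ⟩ : ∃ x : ℝ, x = φβ (LL Dq ps₀ / Real.log X) (Lv / Real.log X)
    (LF ps / Real.log X) := ⟨_, rfl⟩
  have ha5 : 5 * (LL Dq ps₀ / Real.log X) ≤ 4 * K + c := by
    rw [← hl, ← hLL]
    have e : 5 * (LL0 / l) = (5 * LL0) / l := by ring
    rw [e, div_le_iff₀ hl0]
    have e' : (4 * K + c) * l = 4 * κ + d := by rw [hκ, hd]; ring
    rw [e']; linarith
  have hma : LF ps / Real.log X ≤ LL Dq ps₀ / Real.log X + c := by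
    rw [← hl, ← hLL, ← hn]
    have e : LL0 / l + c = (LL0 + c * l) / l := by field_simp
    rw [e, div_le_div_iff_of_pos_right hl0, ← hd]
    linarith
  have q0 : 0 ≤ p₀ := hp₀ ▸ hφ₀ _ _ _
  have q1 : 9 * p₀ ≤ max 0 (4 * (n / l) - 3 * K) + K / 100 := by
    rw [hp₀, hn, hl]; exact hφ9 _ _ _
  have q2 : 40 * p₀ ≤ K := by rw [hp₀]; exact hφ40 _ _ _ ha5 hma
  have q3 : p₀ ≤ pβ := by rw [hp₀, hpβ]; exact hφh0 _ _ _
  have q4 : 42 * (pβ - p₀) ≤ K := by rw [hp₀, hpβ]; exact hφ42 _ _ _ ha5 hma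
  have q5 : 3 * (pβ - p₀) ≤ hh K (Lv / Real.log X) (LF ps / Real.log X) := by
    rw [hp₀, hpβ]; exact hφh _ _ _
  obtain ⟨G0, hG0⟩ : ∃ x : ℝ, x = min (gN K c (LL Dq ps₀ / Real.log X) * Real.log X)
    (LF ps - (LL Dq ps₀ - gN K c (LL Dq ps₀ / Real.log X) * Real.log X)) := ⟨_, rfl⟩
  have hG0' : G0 = min (g * l) (n - (LL0 - g * l)) := by rw [hG0, hg, hl, hn, hLL]
  have hG00 : 0 ≤ G0 := by
    rw [hG0']
    refine le_min ?_ ?_
    · rw [hgl]; linarith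
    · linarith
  have hG1 : G0 ≤ g * l := hG0' ▸ min_le_left _ _
  have hG2 : G0 ≤ n - (LL0 - g * l) := hG0' ▸ min_le_right _ _
  have hp₀l : 0 ≤ p₀ * l := by positivity
  have hp₀9 : 9 * (p₀ * l) ≤ max 0 (4 * n - 3 * κ) + κ / 100 := by
    have h1 := mul_le_mul_of_nonneg_right q1 hl0.le
    have h2 : (max 0 (4 * (n / l) - 3 * K) + K / 100) * l =
        max 0 (4 * n - 3 * κ) + κ / 100 := by
      rw [add_mul, max_mul_of_nonneg _ _ hl0.le, zero_mul]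
      congr 1
      · congr 1
        rw [hκ]; field_simp
      · rw [hκ]; ring
    rw [h2] at h1
    linarith
  have hp₀40 : 40 * (p₀ * l) ≤ κ := by
    have := mul_le_mul_of_nonneg_right q2 hl0.le
    rw [hκ]; linarith
  have hp₀₀ : 0 ≤ (pβ - p₀) * l := mul_nonneg (by linarith) hl0.le
  have hp42 : 14 * (3 * ((pβ - p₀) * l)) ≤ κ := by
    have := mul_le_mul_of_nonneg_right q4 hl0.le
    rw [hκ]; linarith
  -- the pair line
  have hm : d₂ / 2 + 4 * e₀ ≤ ε * l := by linarith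
  have hln := pls_of (lam := lam) (h := h) (hh := hh) (C := C₁) (S := S') (r₀ := C₁ + S')
    (Cb := max (C₁ * Real.exp S') Cf) (m := d₂ / 2 + 4 * e₀) (x := 0)
    (hp := 3 * ((pβ - p₀) * l)) (Dm := G0) (Em := p₀ * l) (π := π) (Bd := Bd) (ε := ε) (M := M)
    (K := K) (Lv := Lv) hX3 hK0.le hε.le hps
    hlen' (fun q hq => (hz q hq).2) (by linarith) le_rfl (le_max_left _ _) hM (by linarith)
    (by linarith) le_rfl (by rw [← hl]; linarith) (by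
      have := mul_le_mul_of_nonneg_right q5 hl0.le
      rw [← hl] at this ⊢
      linarith) f9 hG00 hp₀l
    (by rw [← hl, ← hn, ← hκ]; linarith)
    (by rw [← hl, ← hn, ← hκ]; linarith)
    (by
      rw [← hl, ← hκ, ← hn]
      have : TK K * l = 10 * κ + 10 * l := by unfold RGB545.TK; rw [hκ]; ring
      rw [this]; linarith)
    (fun θ l' ps' h1 h2 h3 h4 h5 => by
      have key := hprem j θ l' ps' h1 h2 h3 h4 (by rw [hjG]; exact h5)
        (fun hzl => absurd hzl hjz)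
      rw [hjF, hjb, hjΦ] at key
      exact key)
  rw [← hl, ← hκ, ← hn, ← hHHd] at hln
  obtain ⟨Bb, hBb⟩ : ∃ x : ℝ, x = Bd * HH ^ M := ⟨_, rfl⟩
  rw [← hBb] at hln
  have hBb0 : 0 ≤ Bb := by rw [hBb]; positivity
  -- the windows
  intro I hI1 hI2 p hp t X' φ hX' hXX' hWK hφ
  have hXX2 : |Real.log X' - n| ≤ R + 1 := by
    have h1 : |Real.log X' - Real.log (Real.exp (LF ps))| ≤ R + 1 := hXX'
    rwa [Real.log_exp, ← hn] at h1
  have hWK' : WK Cw η Aw φ := hWK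
  have hφ' : ∀ u, φ u ≠ 0 → |u - Real.log X'| ≤ η / 2 := hφ
  obtain ⟨Pz, hPzd⟩ : ∃ x : ℝ, x = X ^ b₁ := ⟨_, rfl⟩
  have hPze : Pz = Real.exp (b₁ * l) := by rw [hPzd, hXe]
  have hPz0 : 0 < Pz := by rw [hPze]; exact Real.exp_pos _
  have hlP : Real.log Pz = b₁ * l := by rw [hPze, Real.log_exp]
  have hbL : b₁ * l = 8 * κ + 60 * l + c₀ * l := by rw [hb₁, hκ]; ring
  have hc₀L : l ≤ c₀ * l := le_mul_of_one_le_left hl0.le hc₀
  have hbL0 : 0 ≤ b₁ * l := by positivity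
  have hPz1 : 1 ≤ Pz := by rw [hPze]; exact Real.one_le_exp hbL0
  have hFS : FS (sqc q (alF (X ^ δ) (X ^ δ) (π lam) h ps)) :=
    HP842.FS.sqc (RG64.FS_alF ⟨Rh, hRh⟩ (hP lam) _ _ ps) q
  have hPe : Pz ^ ε₂ = Real.exp d₂ := by
    rw [hPze, ← Real.exp_mul, hd₂, ← hε₂b]; congr 1; ring
  have hPe51 : Pz ^ (51 * ε₂) = Real.exp (51 * d₂) := by
    rw [hPze, ← Real.exp_mul, hd₂, ← hε₂b]; congr 1; ring
  -- the size of the sequence
  obtain ⟨Ax, hAxd⟩ : ∃ x : ℝ, x = g₂ * Real.exp d₂ := ⟨_, rfl⟩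
  have hnκ : n ≤ κ := by linarith
  have hAx : ∀ m, ‖bw φ p t (sqc q (alF (X ^ δ) (X ^ δ) (π lam) h ps)) m‖ ≤ Ax := by
    intro m
    have h1 := HX Cw η Aw hη (by omega) hCw φ hWK' p t (π lam) (hP lam) ps hlen' (X ^ δ) (X ^ δ) q
      Pz hPz1 hFS (fun m hm => by
        have h2 := bw_win hm
        have h3 : (0 : ℝ) < nm m := by exact_mod_cast nm_pos.2 ((hFS.prim m h2.1).ne_zero)
        refine (win_dy (u := 0) hη2 hX' h3 (hφ' _ h2.2)).2.trans ?_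
        rw [hPze, ← Real.exp_log hX', ← Real.exp_add]
        refine Real.exp_le_exp.2 ?_
        have h4 := (abs_le.1 hXX2).2
        have h5 : R ≤ e₀ := by rw [he₀]; linarith
        linarith) m
    rw [hPe, ← mul_assoc, ← hg₂] at h1
    rw [hAxd]; exact h1
  have hAxP : Ax ≤ Pz := by
    rw [hAxd, hPze]
    calc g₂ * Real.exp d₂ ≤ Real.exp l * Real.exp d₂ := by gcongr
      _ = Real.exp (l + d₂) := by rw [Real.exp_add]
      _ ≤ _ := Real.exp_le_exp.2 (by linarith)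
  have hN1 : 9 * (N₁ : ℝ) ≤ Real.exp (Lv + 4) := hF.N1
  have hN0e : Real.exp Lv ≤ (N₁ : ℝ) := hF.N0
  have hN1p : (0 : ℝ) < N₁ := by
    have := Real.exp_pos Lv; linarith
  have hlN1 : Real.log N₁ ≤ Lv + e₀ := by
    have h1 : Real.log N₁ ≤ Real.log (Real.exp (Lv + 4)) :=
      Real.log_le_log hN1p (by linarith)
    rw [Real.log_exp] at h1
    linarith
  have hXδ : 1 ≤ X ^ δ := Real.one_le_rpow hX1 hδ0
  have hD0N : (X ^ δ) ^ N ≤ Real.exp d := by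
    rw [hXe, ← Real.exp_nat_mul]
    refine Real.exp_le_exp.2 ?_
    have h1 : (N : ℝ) * (δ * l) ≤ c * l := by
      have h2 : 0 ≤ N * δ := by positivity
      nlinarith
    rw [hd]; linarith
  have hop : opL N (X ^ δ) ≤ ((100 : ℝ) ^ N) ^ 2 * Real.exp d := by
    unfold NPy739.opL
    have e1 : (X ^ δ) ^ N * ((100 * X ^ δ) ^ N) ^ 2 = ((100 : ℝ) ^ N) ^ 2 * ((X ^ δ) ^ N) ^ 3 := by
      rw [mul_pow]; ring
    rw [e1]
    refine mul_le_mul_of_nonneg_left ?_ (by positivity)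
    rw [hXe, ← Real.exp_nat_mul, ← Real.exp_nat_mul]
    refine Real.exp_le_exp.2 ?_
    push_cast
    have h1 : 3 * ((N : ℝ) * (δ * l)) = (3 * N * δ) * l := by ring
    rw [h1, hd]
    exact mul_le_mul_of_nonneg_right hδN hl0.le
  have hopN : 0 ≤ opL N (X ^ δ) := NPy739.opL_nonneg N (by linarith)
  -- the target
  obtain ⟨G, hG⟩ : ∃ x : ℝ, x = HH ^ (max M (A' : ℝ)) * Bd * (1 + |t|) ^ Jn * Real.exp (n + κ) :=
    ⟨_, rfl⟩
  have ht0 := abs_nonneg t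
  have hT1 : 1 ≤ (1 + |t|) ^ Jn := one_le_pow₀ (by linarith)
  have hTA : (1 + |t|) ^ A' ≤ (1 + |t|) ^ Jn := pow_le_pow_right₀ (by linarith) hA'Jn
  have hBd0 : 0 ≤ Bd := by linarith
  have hXK : 0 < X ^ K := Real.rpow_pos_of_pos hX0 _
  have hlXK : Real.log (X ^ K) = κ := by rw [Real.log_rpow hX0, ← hl, hκ]
  obtain ⟨s, hs⟩ : ∃ x : ℝ, x = c' * κ := ⟨_, rfl⟩
  have hs0 : 0 ≤ s := by rw [hs]; positivity
  have hs1 : 1000 * s ≤ κ := by
    have := mul_le_mul_of_nonneg_right hc' hκ0.le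
    rw [hs]; linarith
  have hhp : hf ⟨Cw, η, Aw, X ^ K, Real.exp (LF ps), X ^ (8 * (K + 1)), R, Jn, N₁,
        X ^ φ₀ (LL Dq ps₀ / Real.log X) (Lv / Real.log X) (LF ps / Real.log X),
        X ^ φ₁ (LL Dq ps₀ / Real.log X) (Lv / Real.log X) (LF ps / Real.log X),
        X ^ φβ (LL Dq ps₀ / Real.log X) (Lv / Real.log X) (LF ps / Real.log X),
        X ^ (-φβ (LL Dq ps₀ / Real.log X) (Lv / Real.log X) (LF ps / Real.log X)),
        Real.exp (min (gN K c (LL Dq ps₀ / Real.log X) * Real.log X)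
          (LF ps - (LL Dq ps₀ - gN K c (LL Dq ps₀ / Real.log X) * Real.log X))),
        Real.exp (min (gN K c (LL Dq ps₀ / Real.log X) * Real.log X)
          (LF ps - (LL Dq ps₀ - gN K c (LL Dq ps₀ / Real.log X) * Real.log X)))⟩ =
      3 * ((pβ - p₀) * l) := by
    rw [hfe]
    show 3 * Real.log (X ^ φβ (LL Dq ps₀ / Real.log X) (Lv / Real.log X) (LF ps / Real.log X) /
      X ^ φ₀ (LL Dq ps₀ / Real.log X) (Lv / Real.log X) (LF ps / Real.log X)) = _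
    rw [← hp₀, ← hpβ, hXe, hXe, ← Real.exp_sub, Real.log_exp]
    ring
  -- the weight
  have hρlo : ∀ (δ' e' : Eis) (V : ℝ), IsPrim δ' → IsPrim e' → 1 ≤ V →
      Real.exp (4 / 3 * LF ps + (κ + Real.log V) / 3 - 4 / 3 * Real.log (nm δ') -
        flK κ (Real.log V + Real.log (nm e')) (LF ps - Real.log (nm δ') - Real.log (nm e')) - s) ≤
      rhoS (4 / 3 * Real.log (Real.exp (LF ps))) (Real.log (X ^ K))
        (ShN (Real.log (X ^ K)) (Real.log (Real.exp (LF ps))) (c' * Real.log (X ^ K))) δ' e' V := by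
    intro δ' e' V _ _ _
    unfold I1146.rhoS JBf180.ShN
    rw [Real.log_exp, hlXK, fl_flK, ← hs]
    refine Real.exp_le_exp.2 (le_of_eq ?_)
    ring
  have hRW := rw_rhoS (lipS_ShN (Real.log (X ^ K)) (Real.log (Real.exp (LF ps)))
    (c' * Real.log (X ^ K))) (by norm_num) (4 / 3 * Real.log (Real.exp (LF ps)))
    (Real.log (X ^ K))
  -- one piece
  have hone : ∀ i ∈ Finset.range Nw,
      RPg (rhoS (4 / 3 * Real.log (Real.exp (LF ps))) (Real.log (X ^ K))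
        (ShN (Real.log (X ^ K)) (Real.log (Real.exp (LF ps))) (c' * Real.log (X ^ K))))
        (bw φ p t (sqc q (alF (X ^ δ) (X ^ δ) (π lam) h ps))) (sc (X ^ K) Mw i)
        (GF (Fh (Fw i) (3 * ((pβ - p₀) * l)))) (S (Real.exp G0)) I (X ^ p₀) N₁ ≤
      C₁ * Sf ^ 2 * (a₁ + a₂ + a₃) * G := by
    intro i hi
    have hi' : (i : ℝ) ≤ Nw := by
      have := (Finset.mem_range.1 hi).le
      exact_mod_cast this
    have hi0 : (0 : ℝ) ≤ i := Nat.cast_nonneg i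
    have hlsc : Real.log (sc (X ^ K) Mw i) = κ + (i - Mw) := by
      unfold WDec180.sc
      rw [Real.log_mul hXK.ne' (Real.exp_pos _).ne', Real.log_exp, hlXK]
    have hlE : Real.log (X ^ p₀) = p₀ * l := by rw [Real.log_rpow hX0, hl]
    have h1 := HR (Fw i) Sf (hD.tf i) (hSf i (Finset.mem_range.1 hi)) (3 * ((pβ - p₀) * l))
      (by linarith) Cw η hCw hη hη2 φ (WK_anti hWK' hCw hη (by omega)) X' hX' hφ' p hp t
      (π lam) (hP lam) ps hlen' (fun x hx => (hz' x hx).1) (X ^ δ) (X ^ δ) hXδ q hq e₀ Pz N₁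
      (sc (X ^ K) Mw i) (Real.exp G0) (X ^ p₀) Ax I κ Lv (d₂ / 2 + 4 * e₀) (10 * d) s Bb _ _ hRW
      hρlo hAx hAxP
      (WDec180.sc_pos hXK Mw i) (by
        rw [hlsc, abs_le]
        constructor <;> linarith) (by
        rw [← hn]
        refine hXX2.trans ?_
        linarith) hI2 hN1p hlN1 (Real.one_le_exp hG00) (Real.one_le_rpow hX1 q0) he10
      (by linarith) (by linarith) (by
        rw [hlP]
        have : ε₂ / 2 * (b₁ * l) = d₂ / 2 := by rw [hd₂, ← hε₂b]; ring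
        linarith) (by linarith) (by linarith) f9 (by rw [← hn]; linarith)
      (by rw [← hn]; linarith) (by rw [← hn]; linarith) (by linarith) (by linarith)
      (by rw [Real.log_exp]; linarith) (by rw [hlE]; linarith)
      (by rw [← hn, hlP, hbL]; linarith) (hD0N.trans (by
        rw [hPze]; exact Real.exp_le_exp.2 (by linarith))) (hqX.trans (by
        rw [hPze, hXe]; exact Real.exp_le_exp.2 (by linarith))) (fun x hx => by
        rw [hPze]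
        refine Real.exp_le_exp.2 ?_
        have := (hz' x hx).2
        linarith) hs0 hBb0 (by rw [← hn, Real.log_exp, hlE]; exact hln)
    rw [← hn, hPe51] at h1
    have hE2 : Real.exp (κ + n + s - κ / 500 + 2 * e₀) =
        Real.exp (s - κ / 500) * Real.exp (2 * e₀) * Real.exp (n + κ) := by
      rw [← Real.exp_add, ← Real.exp_add]; congr 1; ring
    have r1 : Real.exp (51 * d₂) * (Cw ^ 2 * (η * (η ^ A')⁻¹) * (1 + |t|) ^ A' *
        opL N (X ^ δ) * Bb * Real.exp (κ + n + s - κ / 500 + 2 * e₀)) ≤ a₁ * G := by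
      calc Real.exp (51 * d₂) * (Cw ^ 2 * (η * (η ^ A')⁻¹) * (1 + |t|) ^ A' *
            opL N (X ^ δ) * Bb * Real.exp (κ + n + s - κ / 500 + 2 * e₀))
          ≤ Real.exp (51 * d₂) * (Cw ^ 2 * (η * (η ^ A')⁻¹) * (1 + |t|) ^ Jn *
            (((100 : ℝ) ^ N) ^ 2 * Real.exp d) *
            (Bd * HH ^ (max M (A' : ℝ))) * Real.exp (κ + n + s - κ / 500 + 2 * e₀)) := by
            rw [hBb]
            gcongr
        _ = Cw ^ 2 * (η * (η ^ A')⁻¹) * ((100 : ℝ) ^ N) ^ 2 * Real.exp (2 * e₀) *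
            (HH ^ (max M (A' : ℝ)) * Bd * (1 + |t|) ^ Jn * Real.exp (n + κ)) *
            (Real.exp (51 * d₂) * Real.exp d * Real.exp (s - κ / 500)) := by rw [hE2]; ring
        _ ≤ Cw ^ 2 * (η * (η ^ A')⁻¹) * ((100 : ℝ) ^ N) ^ 2 * Real.exp (2 * e₀) *
            (HH ^ (max M (A' : ℝ)) * Bd * (1 + |t|) ^ Jn * Real.exp (n + κ)) * 1 := by
            refine mul_le_mul_of_nonneg_left ?_ (by positivity)
            rw [← Real.exp_add, ← Real.exp_add, ← Real.exp_zero]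
            exact Real.exp_le_exp.2 (by linarith)
        _ = a₁ * G := by rw [ha₁, hG]; ring
    have h2 : 1 ≤ HH ^ (max M (A' : ℝ)) * Bd * (1 + |t|) ^ Jn :=
      one_le_mul_of_one_le_of_one_le (one_le_mul_of_one_le_of_one_le hHJ1 hBd) hT1
    have r2 : Real.exp (51 * d₂) * (Ax ^ 2 * Real.exp (κ + n + s - κ / 500 + 2 * e₀)) ≤
        a₂ * G := by
      calc Real.exp (51 * d₂) * (Ax ^ 2 * Real.exp (κ + n + s - κ / 500 + 2 * e₀))
          = g₂ ^ 2 * Real.exp (2 * e₀) * Real.exp (n + κ) *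
            (Real.exp (51 * d₂) * Real.exp d₂ ^ 2 * Real.exp (s - κ / 500)) := by
            rw [hAxd, hE2]; ring
        _ ≤ g₂ ^ 2 * Real.exp (2 * e₀) * Real.exp (n + κ) * 1 := by
            refine mul_le_mul_of_nonneg_left ?_ (by positivity)
            rw [← Real.exp_nat_mul, ← Real.exp_add, ← Real.exp_add, ← Real.exp_zero]
            refine Real.exp_le_exp.2 ?_
            push_cast
            linarith
        _ ≤ g₂ ^ 2 * Real.exp (2 * e₀) * Real.exp (n + κ) *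
            (HH ^ (max M (A' : ℝ)) * Bd * (1 + |t|) ^ Jn) :=
            mul_le_mul_of_nonneg_left h2 (by positivity)
        _ = a₂ * G := by rw [ha₂, hG]; ring
    have r3 : Real.exp (51 * d₂) * (1 * Real.exp (κ + n + s - κ / 500 + 2 * e₀)) ≤
        a₃ * G := by
      calc Real.exp (51 * d₂) * (1 * Real.exp (κ + n + s - κ / 500 + 2 * e₀))
          = Real.exp (2 * e₀) * Real.exp (n + κ) *
            (Real.exp (51 * d₂) * Real.exp (s - κ / 500)) := by rw [hE2]; ring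
        _ ≤ Real.exp (2 * e₀) * Real.exp (n + κ) * 1 := by
            refine mul_le_mul_of_nonneg_left ?_ (by positivity)
            rw [← Real.exp_add, ← Real.exp_zero]
            exact Real.exp_le_exp.2 (by linarith)
        _ ≤ Real.exp (2 * e₀) * Real.exp (n + κ) *
            (HH ^ (max M (A' : ℝ)) * Bd * (1 + |t|) ^ Jn) :=
            mul_le_mul_of_nonneg_left h2 (by positivity)
        _ = a₃ * G := by rw [ha₃, hG]; ring
    have hC₁0 : 0 ≤ C₁ * Sf ^ 2 := by positivity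
    rw [← hn]
    refine h1.trans ?_
    calc C₁ * Sf ^ 2 * Real.exp (51 * d₂) * ((Cw ^ 2 * (η * (η ^ A')⁻¹) * (1 + |t|) ^ A' *
          opL N (X ^ δ) * Bb + Ax ^ 2 + 1) * Real.exp (κ + n + s - κ / 500 + 2 * e₀))
      _ = C₁ * Sf ^ 2 * (Real.exp (51 * d₂) * (Cw ^ 2 * (η * (η ^ A')⁻¹) * (1 + |t|) ^ A' *
            opL N (X ^ δ) * Bb * Real.exp (κ + n + s - κ / 500 + 2 * e₀)) +
          Real.exp (51 * d₂) * (Ax ^ 2 * Real.exp (κ + n + s - κ / 500 + 2 * e₀)) +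
          Real.exp (51 * d₂) * (1 * Real.exp (κ + n + s - κ / 500 + 2 * e₀))) := by ring
      _ ≤ C₁ * Sf ^ 2 * (a₁ * G + a₂ * G + a₃ * G) :=
          mul_le_mul_of_nonneg_left (add_le_add (add_le_add r1 r2) r3) hC₁0
      _ = _ := by ring
  have hgoal : ∑ i ∈ Finset.range Nw,
      RPg (rhoS (4 / 3 * Real.log (Real.exp (LF ps))) (Real.log (X ^ K))
        (ShN (Real.log (X ^ K)) (Real.log (Real.exp (LF ps))) (c' * Real.log (X ^ K))))
        (bw φ p t (sqc q (alF (X ^ δ) (X ^ δ) (π lam) h ps))) (sc (X ^ K) Mw i)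
        (GF (Fh (Fw i) (3 * ((pβ - p₀) * l)))) (S (Real.exp G0)) I (X ^ p₀) N₁ ≤
      (X ^ K / Real.exp (LF ps)) * ((max (C₁ * Real.exp S') Cf * X ^ ε *
        (Ht ps * Ht (natl ps₀)) ^ (max M (A' : ℝ)) * Bd * Real.exp (2 * LF ps)) *
        (1 + |t|) ^ Jn) := by
    rw [← hHHd, ← hn]
    have hsum := Finset.sum_le_sum hone
    rw [← hn] at hsum
    refine hsum.trans ?_
    rw [Finset.sum_const, Finset.card_range, nsmul_eq_mul]
    have hXε : 1 ≤ X ^ ε := Real.one_le_rpow hX1 hε.le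
    have e5 : X ^ K / Real.exp n * Real.exp (2 * n) = Real.exp (n + κ) := by
      rw [hXe, ← hκ, ← Real.exp_sub, ← Real.exp_add]; congr 1; ring
    have hG0 : 0 ≤ G := by rw [hG]; positivity
    calc (Nw : ℝ) * (C₁ * Sf ^ 2 * (a₁ + a₂ + a₃) * G) = Cf * 1 * G := by rw [hCf]; ring
      _ ≤ max (C₁ * Real.exp S') Cf * X ^ ε * G := by
          refine mul_le_mul_of_nonneg_right ?_ hG0
          exact mul_le_mul (le_max_right _ _) hXε zero_le_one (le_max_of_le_right hCf0)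
      _ = X ^ K / Real.exp n * Real.exp (2 * n) * (max (C₁ * Real.exp S') Cf * X ^ ε *
          HH ^ (max M (A' : ℝ)) * Bd * (1 + |t|) ^ Jn) := by rw [e5, hG]; ring
      _ = _ := by ring
  have hfin : ∑ i ∈ Finset.range Nw,
      RPg (rhoS (4 / 3 * Real.log (Real.exp (LF ps))) (Real.log (X ^ K))
        (ShN (Real.log (X ^ K)) (Real.log (Real.exp (LF ps))) (c' * Real.log (X ^ K))))
        (bw φ p t (sqc q (alF (X ^ δ) (X ^ δ) (π lam) h ps))) (sc (X ^ K) Mw i)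
        (GF (Fh (Fw i) (hf ⟨Cw, η, Aw, X ^ K, Real.exp (LF ps), X ^ (8 * (K + 1)), R, Jn, N₁,
        X ^ φ₀ (LL Dq ps₀ / Real.log X) (Lv / Real.log X) (LF ps / Real.log X),
        X ^ φ₁ (LL Dq ps₀ / Real.log X) (Lv / Real.log X) (LF ps / Real.log X),
        X ^ φβ (LL Dq ps₀ / Real.log X) (Lv / Real.log X) (LF ps / Real.log X),
        X ^ (-φβ (LL Dq ps₀ / Real.log X) (Lv / Real.log X) (LF ps / Real.log X)),
        Real.exp (min (gN K c (LL Dq ps₀ / Real.log X) * Real.log X)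
          (LF ps - (LL Dq ps₀ - gN K c (LL Dq ps₀ / Real.log X) * Real.log X))),
        Real.exp (min (gN K c (LL Dq ps₀ / Real.log X) * Real.log X)
          (LF ps - (LL Dq ps₀ - gN K c (LL Dq ps₀ / Real.log X) * Real.log X)))⟩)))
        (S (Real.exp (min (gN K c (LL Dq ps₀ / Real.log X) * Real.log X)
          (LF ps - (LL Dq ps₀ - gN K c (LL Dq ps₀ / Real.log X) * Real.log X))))) I
        (X ^ φ₀ (LL Dq ps₀ / Real.log X) (Lv / Real.log X) (LF ps / Real.log X)) N₁ ≤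
      (X ^ K / Real.exp (LF ps)) * ((max (C₁ * Real.exp S') Cf * X ^ ε *
        (Ht ps * Ht (natl ps₀)) ^ (max M (A' : ℝ)) * Bd * Real.exp (2 * LF ps)) *
        (1 + |t|) ^ Jn) := by
    rw [hhp, ← hG0, ← hp₀]
    exact hgoal
  exact hfin

end Crest.Agent.R017.N2106
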