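import Crest.Agent.R017.N2e_106

/-!
# Row 17, FlatNE (helper106): the real side of the compensated E2, part f

* `rg_leafN` : `rg_leaf` at helper49's parameters
-/

set_option autoImplicit false
set_option linter.unusedVariables false

noncomputable section

open Finset

namespace Crest.Agent.R017.N2106

open Crest.Agent.R012 Crest.Agent.R012.Eis
open Crest.Agent.R017.B770
open Crest.Agent.R017.Prov71
open Crest.Agent.R017.FE47 (cx PU)
open Crest.Agent.R017.WDec180 (WD sc)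
open Crest.Agent.R017.RGB545
open Crest.Agent.R017.NEg551 (NFacts NTc NNum NLeaf LBq)
open Crest.Agent.R017.NLn180 (RgN)

variable {Lam ι : Type*}

/-- **the R-number of the cross error at the near leaf**, class N, at the parameters
`E0 = X ^ (9/22 F3 + 10 c)`, `B = X ^ (31/22 F3 + 31 c)`; the line `j` is the pair line with
`hh = 3 F3 + 63 c` -/
theorem rg_leafN {π : Lam → DPar} (hP : ∀ lam, (π lam).OK) {h : ℝ → ℝ} {c₁ : ℝ}
    (hpu : PU h c₁) {w : ℝ → ℝ} {Nw : ℕ} {Mw : ℝ} {Fw : ℕ → ℝ → ℂ} (hD : WD w Nw Mw Fw)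
    {hf : LBq → ℝ} (hfe : ∀ p : LBq, hf p = 3 * Real.log (p.B / p.E0))
    {L : ι → Line Lam 9} {K v c : ℝ} (hc : 0 < c) (hcK : 1000000 * c ≤ K) (hv : 0 ≤ v)
    (j : ι) (hjG : (L j).G = GRx (fun K _ n => 3 * max 0 ((4 * n - 3 * K) / 9) + 3 * (21 * c)))
    (hjF : (L j).F = FRx) (hjb : (L j).b = fun θ => θ 0)
    (hjz : ¬ (L j).zl) (hjΦ : (L j).Φ = PFp π h) (φ₁ : ℝ → ℝ → ℝ → ℝ) :
    NLeaf π h (RgN Nw Mw Fw hf (12 * (c / K))) L
      (fun _ _ m => 9 / 22 * max 0 ((4 * m - 3 * K) / 9) + 10 * c) φ₁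
      (fun _ _ m => 31 / 22 * max 0 ((4 * m - 3 * K) / 9) + 31 * c) K v c := by
  have hK : 0 < K := by linarith
  have hF : ∀ m : ℝ, 0 ≤ max 0 ((4 * m - 3 * K) / 9) := fun m => le_max_left _ _
  have hF9 : ∀ m : ℝ, 9 * max 0 ((4 * m - 3 * K) / 9) = max 0 (4 * m - 3 * K) := fun m => by
    rw [mul_max_of_nonneg _ _ (by norm_num : (0 : ℝ) ≤ 9), mul_zero]
    congr 1
    ring
  have hF45 : ∀ a m : ℝ, 5 * a ≤ 4 * K + c → m ≤ a + c →
      max 0 ((4 * m - 3 * K) / 9) ≤ K / 45 + 6 / 10 * c := fun a m h1 h2 =>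
    max_le (by positivity) (by linarith)
  refine rg_leaf hP hpu hD hfe (hh := fun K _ n => 3 * max 0 ((4 * n - 3 * K) / 9) + 3 * (21 * c))
    hc hcK hv (by positivity) ?_ j hjG hjF hjb hjz hjΦ ?_ ?_ ?_ ?_ ?_ ?_
  · have h1 : c / K ≤ 1 / 1000000 := by
      rw [div_le_div_iff₀ hK (by norm_num)]; linarith
    linarith
  · intro a u m
    have := hF m
    show 0 ≤ 9 / 22 * max 0 ((4 * m - 3 * K) / 9) + 10 * c
    linarith
  · intro a u m
    have h1 := hF9 m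
    have h2 := hF m
    show 9 * (9 / 22 * max 0 ((4 * m - 3 * K) / 9) + 10 * c) ≤ max 0 (4 * m - 3 * K) + K / 100
    rw [← h1]
    linarith
  · intro a u m h1 h2
    have := hF45 a m h1 h2
    show 40 * (9 / 22 * max 0 ((4 * m - 3 * K) / 9) + 10 * c) ≤ K
    linarith
  · intro a u m
    have := hF m
    show 9 / 22 * max 0 ((4 * m - 3 * K) / 9) + 10 * c ≤
      31 / 22 * max 0 ((4 * m - 3 * K) / 9) + 31 * c
    linarith
  · intro a u m h1 h2
    have := hF45 a m h1 h2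
    show 42 * (31 / 22 * max 0 ((4 * m - 3 * K) / 9) + 31 * c -
      (9 / 22 * max 0 ((4 * m - 3 * K) / 9) + 10 * c)) ≤ K
    linarith
  · intro a u m
    show 3 * (31 / 22 * max 0 ((4 * m - 3 * K) / 9) + 31 * c -
      (9 / 22 * max 0 ((4 * m - 3 * K) / 9) + 10 * c)) ≤
      3 * max 0 ((4 * m - 3 * K) / 9) + 3 * (21 * c)
    linarith

end Crest.Agent.R017.N2106
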