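import Crest.Agent.R017.RM3a_986
import Crest.Agent.R017.UBR_61
import Crest.Agent.R017.TopC_702
import Crest.Agent.R017.XPD_571
import Crest.Agent.R017.XB_71

/-!
# Row 17, R8 / P1 (G2): uniform bounds for the R-moments of three lumps (helper986)

* `Y3`, `S3` : family and three marked lumps; `mk3_ok`
* `um_of` : `UB` for a functional with `BG` bounds and removable pieces, granular unmarked lists
* `bgc`, `bgf` : `BG` of `Rc` (admissible `k`) and of `RF0` (all `k ≠ 0`), exponents `r3`,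
  `max r3 (κ/3 + 2 a + 2 θ m)`
* `ub_Rc`, `ub_RF` : the uniform bounds on `[0,K]`, shift `c lam` of the family
-/

set_option autoImplicit false

noncomputable section

open Set

namespace Crest.Agent.R017.RM986

open Crest.Agent.R012 Crest.Agent.R012.Eis
open Crest.Agent.R017.FE47 (PU)
open Crest.Agent.R017.CM106
open Crest.Agent.R017.XG702 (Pcs BG)
open Crest.Agent.R017.XT71 (Sys Win mx)
open Crest.Agent.R017.E5B71 (UB)
open Crest.Agent.R017.Prov71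
open Crest.Agent.R017.B770
open Crest.Agent.R017.ER911 Crest.Agent.R017.SC777 Crest.Agent.R017.ExpC702
open Crest.Agent.R017.HP842 (Pc pc)
open Crest.Agent.R017.UBR61
open Crest.Agent.R017.XPD571 (RX R0 RF0 RN0 RP0 SP0)

variable {Λ : Type*} {π : Λ → DPar} {h : ℝ → ℝ}

/-- base datum: family and three marked lumps -/
structure Y3 where
  l : ℝ
  us : Fin 3 → Pq

/-- the marked pieces are lumps of nonnegative length -/
def Y3.ok (a : Y3) : Prop := ∀ i, Dq.lump (a.us i) ∧ 0 ≤ (a.us i).z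

/-- exponent vector `(κ, u₁, u₂, u₃)` -/
def S3 : Sys Y3 (Fin 4) where
  ev X a := ![a.l / Real.log X, (a.us 0).z / Real.log X, (a.us 1).z / Real.log X,
    (a.us 2).z / Real.log X]
  g _ := 1
  n _ := 0
  s₁ a := mx Dq.s1 [a.us 0, a.us 1, a.us 2]
  s₂ a := mx Dq.s2 [a.us 0, a.us 1, a.us 2]

lemma le_mx {Pc : Type*} (f : Pc → ℝ) {ps : List Pc} {p : Pc} (hp : p ∈ ps) :
    f p ≤ mx f ps := by
  induction ps with
  | nil => simp at hp
  | cons q ps ih =>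
    rw [XT71.mx_cons]
    rcases List.mem_cons.1 hp with rfl | hp
    · exact le_max_left _ _
    · exact (ih hp).trans (le_max_right _ _)

lemma mk3_ok (c : Λ → ℝ) : MkOK S3 Dq (fun (_ : Λ) (a : Y3) => a.ok) (fun lam a => a.l + c lam)
    (fun _ a => [a.us 0, a.us 1, a.us 2]) 0 [1, 2, 3] where
  ok lam := by
    refine ⟨1 + |c lam|, by linarith [abs_nonneg (c lam)], fun a ha X hX => ?_⟩
    have hX0 : Real.log X ≠ 0 := (Real.log_pos hX).ne'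
    have hc := abs_nonneg (c lam)
    have key : ∀ (i : Fin 3) (x : ℝ), a.us i ∈ [a.us 0, a.us 1, a.us 2] →
        x = (a.us i).z / Real.log X → Dq.lump (a.us i) ∧
        |Dq.len (a.us i) - x * Real.log X| ≤ 1 + |c lam| ∧ 0 ≤ Dq.len (a.us i) ∧
        Dq.s1 (a.us i) ≤ (1 + |c lam|) * S3.s₁ a ∧ Dq.s2 (a.us i) ≤ (1 + |c lam|) * S3.s₂ a := by
      intro i x hi hx
      have e : Dq.len (a.us i) - x * Real.log X = 0 := by
        rw [hx, Dq_len, div_mul_cancel₀ _ hX0]; ring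
      refine ⟨(ha i).1, by rw [e, abs_zero]; linarith, (ha i).2, ?_, ?_⟩
      · have h1 : Dq.s1 (a.us i) ≤ S3.s₁ a := le_mx Dq.s1 hi
        have h2 : 0 ≤ Dq.s1 (a.us i) := by simp only [Dq_s1]; positivity
        nlinarith
      · have h1 : Dq.s2 (a.us i) ≤ S3.s₂ a := le_mx Dq.s2 hi
        have h2 : 0 ≤ Dq.s2 (a.us i) := by simp only [Dq_s2]; exact Nat.cast_nonneg _
        nlinarith
    refine ⟨?_, List.Forall₂.cons (key 0 _ (by simp) (by simp [S3]))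
      (List.Forall₂.cons (key 1 _ (by simp) (by simp [S3]))
        (List.Forall₂.cons (key 2 _ (by simp) (by simp [S3])) List.Forall₂.nil))⟩
    have : a.l + c lam - S3.ev X a 0 * Real.log X = c lam := by
      simp only [S3, Matrix.cons_val_zero]
      rw [div_mul_cancel₀ _ hX0]; ring
    rw [this]; linarith

/-- one piece removed from a second moment -/
theorem RQ_cons_le {P : DPar} (hP : P.OK) {h : ℝ → ℝ} {C : ℝ} (Q : Eis → Prop)
    (hC : ∀ (p : HP842.Pc) (k : Eis), p.OK → ‖CS (pc h p) k‖ ≤ C * p.Y) (l : ℝ) (p : Pq)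
    (ps : List Pq) : RQ Q h l ((p :: ps).map (Pq.pc P)) ≤
      C ^ 2 * Real.exp (2 * Dq.len p) * RQ Q h l (ps.map (Pq.pc P)) := by
  classical
  unfold RQ
  rw [Finset.mul_sum]
  refine Finset.sum_le_sum fun k _ => ?_
  rw [List.map_cons, List.map_cons, List.prod_cons]
  refine mul_le_mul_of_nonneg_right ?_ (List.prod_nonneg ?_)
  · have h1 := hC _ k (Pq.ok hP p)
    calc ‖CS (pc h (p.pc P)) k‖ ^ 2 ≤ (C * (p.pc P).Y) ^ 2 :=
          pow_le_pow_left₀ (norm_nonneg _) h1 2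
      _ = C ^ 2 * Real.exp (2 * Dq.len p) := by
          rw [Pq.pc_Y, Dq_len, mul_pow, ← Real.exp_nat_mul]; push_cast; rfl
  · intro x hx
    obtain ⟨q, _, rfl⟩ := List.mem_map.1 hx
    positivity

/-- the functional `[u₁,u₂,u₃] ++ ps`, condition `Q lam` on `k`, shift `c lam` of the family -/
def M3 (Q : Λ → Eis → Prop) (π : Λ → DPar) (h : ℝ → ℝ) (c : Λ → ℝ) : Λ → Y3 → List Pq → ℝ :=
  mkF (fun _ a => a.ok) (RX Q π h)
    (fun lam a => a.l + c lam) (fun _ a => [a.us 0, a.us 1, a.us 2])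

/-- the closed form at a configuration -/
def E3 (d : ℝ) (q : (Fin 4 → ℝ) × (Kd → ℝ)) : ℝ :=
  r3 d (q.1 0) (q.1 1) (q.1 2) (q.1 3) (q.2 .mo) (q.2 .am)

/-- the closed form with the cube column -/
def E3c (d : ℝ) (q : (Fin 4 → ℝ) × (Kd → ℝ)) : ℝ :=
  max (E3 d q) (q.1 0 / 3 + 2 * q.2 .am + 2 * (7 / 8 + d) * q.2 .mo)

lemma cont_mo {ι : Type*} : Continuous (fun q : (ι → ℝ) × (Kd → ℝ) => q.2 .mo) :=
  (continuous_apply _).comp continuous_snd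
lemma cont_am {ι : Type*} : Continuous (fun q : (ι → ℝ) × (Kd → ℝ) => q.2 .am) :=
  (continuous_apply _).comp continuous_snd
lemma cont_co {ι : Type*} (i : ι) : Continuous (fun q : (ι → ℝ) × (Kd → ℝ) => q.1 i) :=
  (continuous_apply _).comp continuous_fst

lemma cont_E3 (d : ℝ) : Continuous (E3 d) := by
  have c0 := cont_co (ι := Fin 4) 0
  have c1 := cont_co (ι := Fin 4) 1
  have c2 := cont_co (ι := Fin 4) 2
  have c3 := cont_co (ι := Fin 4) 3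
  have cm := cont_mo (ι := Fin 4)
  have ca := cont_am (ι := Fin 4)
  unfold E3 r3 rH rA hb eX fL
  fun_prop

lemma cont_E3c (d : ℝ) : Continuous (E3c d) := by
  have c0 := cont_co (ι := Fin 4) 0
  have cm := cont_mo (ι := Fin 4)
  have ca := cont_am (ι := Fin 4)
  have := cont_E3 d
  unfold E3c
  fun_prop

/-- monotone in the granular masses -/
lemma r3_mono {d κ y₁ y₂ y₃ m m' a a' : ℝ} (hd : 0 ≤ d) (hm : m' ≤ m) (ha : a' ≤ a) :
    r3 d κ y₁ y₂ y₃ m' a' ≤ r3 d κ y₁ y₂ y₃ m a := by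
  have e1 : ∀ σ, eX κ σ m' a' ≤ eX κ σ m a := by
    intro σ
    unfold eX
    refine min_le_min (by linarith) (max_le_max le_rfl (max_le_max ?_ ?_)) <;> linarith
  have e2 : ∀ p q t, rA d κ p q t m' a' ≤ rA d κ p q t m a := by
    intro p q t
    unfold rA
    have h1 := e1 (fL p κ + fL q κ)
    have h2 : d * (m' + a') ≤ d * (m + a) := mul_le_mul_of_nonneg_left (by linarith) hd
    linarith
  have e3 : rH κ y₁ y₂ y₃ m' a' ≤ rH κ y₁ y₂ y₃ m a := by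
    unfold rH
    have := hb_lo (κ := κ) (show fL y₁ κ + fL y₂ κ + fL y₃ κ + (m' + a') ≤
      fL y₁ κ + fL y₂ κ + fL y₃ κ + (m + a) by linarith)
    linarith
  unfold r3
  exact min_le_min e3 (min_le_min (e2 _ _ _) (min_le_min (e2 _ _ _) (e2 _ _ _)))

/-- **`UB` from `BG`**, granular unmarked pieces -/
theorem um_of {c₀ : ℝ} (hpu : PU h c₀) (hP : ∀ lam, (π lam).OK) (Q : Λ → Eis → Prop)
    (c : Λ → ℝ) {Dom : Set ((Fin 4 → ℝ) × (Kd → ℝ))} (hDom : IsCompact Dom)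
    (hnn : ∀ q ∈ Dom, (∀ i, 0 ≤ q.1 i) ∧ ∀ t, 0 ≤ q.2 t)
    (hdown : ∀ q ∈ Dom, ∀ b, 0 ≤ b → b ≤ q.2 Kd.mo →
      (q.1, Function.update q.2 Kd.mo (q.2 Kd.mo - b)) ∈ Dom)
    {E : (Fin 4 → ℝ) × (Kd → ℝ) → ℝ} (hE : Continuous E)
    (hEm : ∀ q ∈ Dom, ∀ b, 0 ≤ b → b ≤ q.2 Kd.mo →
      E (q.1, Function.update q.2 Kd.mo (q.2 Kd.mo - b)) ≤ E q)
    (H : ∀ (p : Fin 4 → ℝ) (m a : ℝ), 0 ≤ m → 0 ≤ a → (p, wt m a) ∈ Dom →
      BG Dq (RX Q π h) (p 0) [p 1, p 2, p 3] (wt m a) (E (p, wt m a))) :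
    UB S3 Dq (M3 Q π h c) Dom ∅ E := by
  obtain ⟨C, hC1, hC⟩ := TopC702.norm_CS_pc_le hpu
  have a0 : ∀ lam l ps, 0 ≤ RX Q π h lam l ps := fun lam l ps => RQ_nonneg _ _ _ _
  have a1 : Pinv (RX Q π h) := fun lam l ps qs hp => RQ_perm _ h l (hp.map _)
  have a2 : ∀ p, 0 ≤ Dq.s1 p := fun p => by simp only [Dq_s1]; positivity
  have a3 : ∀ lam, ∃ (C : ℝ) (N : ℕ), 1 ≤ C ∧ ∀ l p ps,
      RX Q π h lam l (p :: ps) ≤ C * (1 + Dq.s1 p) ^ N * Real.exp (2 * Dq.len p) *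
        RX Q π h lam l ps := fun lam => ⟨C ^ 2, 0, one_le_pow₀ hC1, fun l p ps => by
      rw [pow_zero, mul_one]
      exact RQ_cons_le (hP lam) (Q lam) hC l p ps⟩
  have a4 : ∀ p, Dq.lump p → Dq.kind p = Kd.mo := fun p hp => ((Dq_lump p).1 hp).1
  have a5 : ∀ q ∈ Dom, ∀ t, 0 ≤ q.2 t := fun q hq => (hnn q hq).2
  have a6 : ∀ (p : Fin 4 → ℝ) (u : List ℝ) (w : Kd → ℝ), (∀ x ∈ u, 0 < x) → (∀ t, 0 ≤ w t) →
      (p, XG702.tot Kd.mo u.sum w) ∈ Dom → (∀ x ∈ u, (p, x) ∈ (∅ : Set ((Fin 4 → ℝ) × ℝ))) →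
      BG Dq (RX Q π h) (p 0) (([1, 2, 3] : List (Fin 4)).map p ++ u) w
        (E (p, XG702.tot Kd.mo u.sum w)) := ?_
  · exact ub_of_bg2 (Φ := RX Q π h) (t₀ := Kd.mo) (mk3_ok c) a0 a1 a2 a3 a4 hDom a5 hdown hE hEm
      isClosed_empty a6
  intro p u w hu hw hD hA
  have hu0 : u = [] := by
    rcases u with _ | ⟨x, u⟩
    · rfl
    · exact (hA x List.mem_cons_self).elim
  subst hu0
  have e2 : XG702.tot Kd.mo (([] : List ℝ)).sum w = w := by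
    funext t
    unfold XG702.tot
    cases t <;> simp
  have e3 : w = wt (w .mo) (w .am) := by
    funext t
    cases t <;> rfl
  rw [e2] at hD ⊢
  rw [e3] at hD ⊢
  exact H p _ _ (hw _) (hw _) hD

/-! ### `BG` bounds -/

section bg

variable {d : ℝ} {s : EF}

/-- admissible cube-free `k` -/
theorem bgn {c₀ : ℝ} (hpu : PU h c₀) (hP : ∀ lam, (π lam).OK)
    (R : ExpRules (7 / 8 + d) (ex Dq (fun lam => Rp (π lam) h)) s) (hd : 0 ≤ d)
    (hd8 : d ≤ 1 / 8) {κ y₁ y₂ y₃ m a : ℝ} (hκ : 0 ≤ κ) (h1 : 0 ≤ y₁) (h2 : 0 ≤ y₂)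
    (h3 : 0 ≤ y₃) (hm : 0 ≤ m) (ha : 0 ≤ a) :
    BG Dq (fun lam => Rp (π lam) h) κ [y₁, y₂, y₃] (wt m a) (r3 d κ y₁ y₂ y₃ m a) := by
  refine BG_of_ex (pinv_Rp π h) (XHB411.triv_Rp hP hpu) hκ ⟨?_, hm, ha⟩ ?_
  · intro y hy
    simp only [List.mem_cons, List.not_mem_nil, or_false] at hy
    rcases hy with rfl | rfl | rfl
    · exact h1
    · exact h2
    · exact h3
  · exact r_three R hd hd8 hκ h1 h2 h3 hm ha

/-- **all admissible `k`** -/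
theorem bgc {c₀ : ℝ} (hpu : PU h c₀) (hP : ∀ lam, (π lam).OK)
    (R : ExpRules (7 / 8 + d) (ex Dq (fun lam => Rp (π lam) h)) s)
    (C : ExpC (ex Dq (fun lam => Rp (π lam) h)) (ex Dq (fun lam => Rc (π lam) h))) (hd : 0 ≤ d)
    (hd8 : d ≤ 1 / 8) {κ y₁ y₂ y₃ m a : ℝ} (hκ : 0 ≤ κ) (h1 : 0 ≤ y₁) (h2 : 0 ≤ y₂)
    (h3 : 0 ≤ y₃) (hm : 0 ≤ m) (ha : 0 ≤ a) :
    BG Dq (fun lam => Rc (π lam) h) κ [y₁, y₂, y₃] (wt m a) (r3 d κ y₁ y₂ y₃ m a) := by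
  refine BG_of_ex (pinv_Rc π h) (XHB411.triv_Rc hP hpu) hκ ⟨?_, hm, ha⟩ ?_
  · intro y hy
    simp only [List.mem_cons, List.not_mem_nil, or_false] at hy
    rcases hy with rfl | rfl | rfl
    · exact h1
    · exact h2
    · exact h3
  · exact rc_three R C hd hd8 hκ h1 h2 h3 hm ha

/-- **all `k ≠ 0`** (with the cube column) -/
theorem bgf {c₀ : ℝ} (hpu : PU h c₀) (hP : ∀ lam, (π lam).OK)
    (R : ExpRules (7 / 8 + d) (ex Dq (fun lam => Rp (π lam) h)) s)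
    (hcolP : ∀ (i : ℝ) (u : List ℝ) (m a : ℝ), 0 ≤ i → Okl u m a →
      BG Dq (RP0 π h) i u (wt m a) (2 * a + 2 * (7 / 8 + d) * m)) (hd : 0 ≤ d)
    (hd8 : d ≤ 1 / 8) {κ y₁ y₂ y₃ m a : ℝ} (hκ : 0 ≤ κ) (h1 : 0 ≤ y₁) (h2 : 0 ≤ y₂)
    (h3 : 0 ≤ y₃) (hm : 0 ≤ m) (ha : 0 ≤ a) :
    BG Dq (RF0 π h) κ [y₁, y₂, y₃] (wt m a)
      (max (r3 d κ y₁ y₂ y₃ m a) (κ / 3 + 2 * a + 2 * (7 / 8 + d) * m)) := by
  have hok : Okl [y₁, y₂, y₃] m a := by
    refine ⟨?_, hm, ha⟩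
    intro y hy
    simp only [List.mem_cons, List.not_mem_nil, or_false] at hy
    rcases hy with rfl | rfl | rfl
    · exact h1
    · exact h2
    · exact h3
  refine BG_RF hP (bump_of_cs hpu.cs) hκ fun i hi0 hi => ?_
  refine BG_add (Φ₁ := RN0 π h) (Φ₂ := RP0 π h) ?_ ?_ fun lam l ps => XPD571.RQ_split _ _ _
    (fun k hk => by
      by_cases h1 : (π lam).NP2 k
      · exact Or.inl ⟨h1, hk⟩
      · exact Or.inr ⟨hk, h1⟩) _ _ _
  · refine (bgn hpu hP R hd hd8 hi0 h1 h2 h3 hm ha).mono ?_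
    have e1 := r3_slope (y₁ := y₁) (y₂ := y₂) (y₃ := y₃) (m := m) (a := a) hd hi
    have e2 := le_max_left (r3 d κ y₁ y₂ y₃ m a) (κ / 3 + 2 * a + 2 * (7 / 8 + d) * m)
    linarith
  · refine (hcolP i _ m a hi0 hok).mono ?_
    have e2 := le_max_right (r3 d κ y₁ y₂ y₃ m a) (κ / 3 + 2 * a + 2 * (7 / 8 + d) * m)
    linarith

end bg

/-! ### the uniform bounds -/

/-- the cube `[0, K]` -/
def Bx (K : ℝ) : Set ((Fin 4 → ℝ) × (Kd → ℝ)) :=
  {q | (∀ i, 0 ≤ q.1 i ∧ q.1 i ≤ K) ∧ ∀ t, 0 ≤ q.2 t ∧ q.2 t ≤ K}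

lemma bx_compact (K : ℝ) : IsCompact (Bx K) := by
  have e : Bx K = (Set.Icc (fun _ => 0) (fun _ => K)) ×ˢ (Set.Icc (fun _ => 0) (fun _ => K)) := by
    ext q
    simp only [Bx, Set.mem_ofPred_eq, mem_prod, mem_Icc, Pi.le_def]
    constructor
    · rintro ⟨h1, h2⟩
      exact ⟨⟨fun i => (h1 i).1, fun i => (h1 i).2⟩, ⟨fun i => (h2 i).1, fun i => (h2 i).2⟩⟩
    · rintro ⟨⟨h1, h2⟩, ⟨h3, h4⟩⟩
      exact ⟨fun i => ⟨h1 i, h2 i⟩, fun i => ⟨h3 i, h4 i⟩⟩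
  rw [e]
  exact isCompact_Icc.prod isCompact_Icc

lemma bx_down {K : ℝ} : ∀ q ∈ Bx K, ∀ b, 0 ≤ b → b ≤ q.2 Kd.mo →
    (q.1, Function.update q.2 Kd.mo (q.2 Kd.mo - b)) ∈ Bx K := by
  intro q hq b h0 hb
  refine ⟨hq.1, fun t => ?_⟩
  cases t with
  | mo =>
    simp only [Function.update_self]
    exact ⟨by linarith, by linarith [(hq.2 .mo).2]⟩
  | am =>
    have e : (Function.update q.2 Kd.mo (q.2 Kd.mo - b)) Kd.am = q.2 Kd.am :=
      Function.update_of_ne (by decide) _ _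
    show 0 ≤ (Function.update q.2 Kd.mo (q.2 Kd.mo - b)) Kd.am ∧
      (Function.update q.2 Kd.mo (q.2 Kd.mo - b)) Kd.am ≤ K
    rw [e]
    exact hq.2 .am

variable {d : ℝ} {s : EF}

lemma E3_down (hd : 0 ≤ d) (q : (Fin 4 → ℝ) × (Kd → ℝ)) {b : ℝ} (hb : 0 ≤ b) :
    E3 d (q.1, Function.update q.2 Kd.mo (q.2 Kd.mo - b)) ≤ E3 d q := by
  unfold E3
  have e : (Function.update q.2 Kd.mo (q.2 Kd.mo - b)) Kd.am = q.2 Kd.am :=
    Function.update_of_ne (by decide) _ _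
  simp only [Function.update_self, e]
  exact r3_mono hd (by linarith) le_rfl

lemma E3c_down (hd : 0 ≤ d) (q : (Fin 4 → ℝ) × (Kd → ℝ)) {b : ℝ} (hb : 0 ≤ b) :
    E3c d (q.1, Function.update q.2 Kd.mo (q.2 Kd.mo - b)) ≤ E3c d q := by
  unfold E3c
  refine max_le_max (E3_down hd q hb) ?_
  have e : (Function.update q.2 Kd.mo (q.2 Kd.mo - b)) Kd.am = q.2 Kd.am :=
    Function.update_of_ne (by decide) _ _
  simp only [Function.update_self, e]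
  nlinarith

/-- **uniform bound, all admissible `k`** -/
theorem ub_Rc {c₀ : ℝ} (hpu : PU h c₀) (hP : ∀ lam, (π lam).OK)
    (R : ExpRules (7 / 8 + d) (ex Dq (fun lam => Rp (π lam) h)) s)
    (C : ExpC (ex Dq (fun lam => Rp (π lam) h)) (ex Dq (fun lam => Rc (π lam) h))) (hd : 0 ≤ d)
    (hd8 : d ≤ 1 / 8) (K : ℝ) (c : Λ → ℝ) :
    UB S3 Dq (M3 (fun lam => (π lam).NP2) π h c) (Bx K) ∅ (E3 d) := by
  refine um_of hpu hP _ c (bx_compact K) (fun q hq => ⟨fun i => (hq.1 i).1, fun t => (hq.2 t).1⟩)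
    bx_down (cont_E3 d) (fun q _ b hb _ => E3_down hd q hb) ?_
  intro p m a hm ha hD
  have h0 := fun i => (hD.1 i).1
  exact bgc hpu hP R C hd hd8 (h0 0) (h0 1) (h0 2) (h0 3) hm ha

/-- **uniform bound, all `k ≠ 0`** -/
theorem ub_RF {c₀ : ℝ} (hpu : PU h c₀) (hP : ∀ lam, (π lam).OK)
    (R : ExpRules (7 / 8 + d) (ex Dq (fun lam => Rp (π lam) h)) s)
    (hcolP : ∀ (i : ℝ) (u : List ℝ) (m a : ℝ), 0 ≤ i → Okl u m a →
      BG Dq (RP0 π h) i u (wt m a) (2 * a + 2 * (7 / 8 + d) * m)) (hd : 0 ≤ d)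
    (hd8 : d ≤ 1 / 8) (K : ℝ) (c : Λ → ℝ) :
    UB S3 Dq (M3 (fun _ k => k ≠ 0) π h c) (Bx K) ∅ (E3c d) := by
  refine um_of hpu hP _ c (bx_compact K) (fun q hq => ⟨fun i => (hq.1 i).1, fun t => (hq.2 t).1⟩)
    bx_down (cont_E3c d) (fun q _ b hb _ => E3c_down hd q hb) ?_
  intro p m a hm ha hD
  have h0 := fun i => (hD.1 i).1
  exact bgf hpu hP R hcolP hd hd8 (h0 0) (h0 1) (h0 2) (h0 3) hm ha

end Crest.Agent.R017.RM986
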