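import Crest.Agent.R017.NEQ_545
import Crest.Agent.R017.R2M_777
import Crest.Agent.R017.RM3b_986

/-!
# Row 17, FlatNE: the near lines (helper545)

* `full_P1` : the complete character side of three lumps from the closed form
* `NPc` : the pair numbers of class N with helper320's closed form; `qgNc_of`
* `dR2 hh` : the pair line of the near leaf (helper106's literal, `θ = (b + g₂, g₂, g, ms, d₀, ν, A,
  e, v)`), `dSq hh` (helper791), `dRo hh μ` (helper116)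
* `r2N_qk` : the side conditions of the pair line, class N, from helper777's `R2N`
-/

set_option autoImplicit false
set_option linter.unusedVariables false

noncomputable section

open Set Filter Topology

namespace Crest.Agent.R017.RGB545

open Crest.Agent.R012 Crest.Agent.R012.Eis Crest.Agent.R012.LS2
open Crest.Agent.R017.B770
open Crest.Agent.R017.Prov71
open Crest.Agent.R017.XP699
open Crest.Agent.R017.ER911 (Ok Sh EF ExpRules)
open Crest.Agent.R017.RuleM545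
open Crest.Agent.R017.XPD571
open Crest.Agent.R017.SC777 (Full PM sh3 sum3)
open Crest.Agent.R017.P1G904 (Ww)
open Crest.Agent.R017.R2N777 (ThN StN ChN R2N r2N)
open Crest.Agent.R017.R2M777 (WwN R2M r2M)
open Crest.Agent.R017.NE73 (flK)

variable {Lam ι : Type*} {p : ℕ} {π : Lam → DPar} {h : ℝ → ℝ} {c₁ θ d : ℝ} {r s s₀ : EF}

/-! ### closed forms -/

lemma l3_le_of {κ κ' a₁ a₂ a₃ b₁ b₂ b₃ : ℝ} (hκ : κ' ≤ κ) (h1 : a₁ ≤ b₁) (h2 : a₂ ≤ b₂)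
    (h3 : a₃ ≤ b₃) : P1R904.l3 κ' a₁ a₂ a₃ ≤ P1R904.l3 κ b₁ b₂ b₃ +
      max 0 (b₁ - a₁ + (b₂ - a₂) + (b₃ - a₃) - (κ - κ')) := by
  obtain ⟨M, hM⟩ : ∃ M, M = max 0 (b₁ - a₁ + (b₂ - a₂) + (b₃ - a₃) - (κ - κ')) := ⟨_, rfl⟩
  have m0 : 0 ≤ M := hM ▸ le_max_left _ _
  have m1 : b₁ - a₁ + (b₂ - a₂) + (b₃ - a₃) - (κ - κ') ≤ M := hM ▸ le_max_right _ _
  obtain ⟨t1, t2, t3, t4, t5, t6⟩ := R2N777.l3_leN κ' a₁ a₂ a₃
  rw [← hM]
  have key : P1R904.l3 κ' a₁ a₂ a₃ - M ≤ P1R904.l3 κ b₁ b₂ b₃ := by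
    refine le_min (le_min ?_ ?_) (le_min (le_min ?_ ?_) (le_min ?_ ?_)) <;> linarith
  linarith

/-- **the complete character side of three lumps** -/
theorem full_P1 (R : ExpRules (7 / 8 + d) r s) (hd : 0 ≤ d) (hd8 : d ≤ 1 / 8) {κ z₁ z₂ z₃ ρ : ℝ}
    (h1 : 0 ≤ z₁) (h2 : 0 ≤ z₂) (h3 : 0 ≤ z₃)
    (hρ : P1R904.r3 d κ (min z₁ κ) (min z₂ κ) (min z₃ κ) 0 ≤ ρ) (hρ' : κ / 3 ≤ ρ) :
    Full (7 / 8 + d) r κ {z₁, z₂, z₃} 0 0 ρ := by
  refine ⟨fun Y'' κ' hs hκ0 hκ1 hl => ?_, by linarith⟩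
  obtain ⟨y₁, y₂, y₃, rfl, a1, b1, a2, b2, a3, b3⟩ := sh3 hs
  have e1 := (RM986.r_three R hd hd8 hκ0 a1 a2 a3 le_rfl le_rfl).trans
    (RM986.r3_le_P1 (d := d) (m := 0) (a := 0) hκ0 a1 a2 a3)
  have k1 : min y₁ κ' ≤ min z₁ κ := min_le_min b1 hκ1
  have k2 : min y₂ κ' ≤ min z₂ κ := min_le_min b2 hκ1
  have k3 : min y₃ κ' ≤ min z₃ κ := min_le_min b3 hκ1
  have e2 := l3_le_of hκ1 k1 k2 k3
  unfold P1R904.r3 at e1 hρ
  obtain ⟨M, hM⟩ : ∃ M, M = max 0 (min z₁ κ - min y₁ κ' + (min z₂ κ - min y₂ κ') +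
    (min z₃ κ - min y₃ κ') - (κ - κ')) := ⟨_, rfl⟩
  rw [← hM] at e2
  have m0 : 0 ≤ M := hM ▸ le_max_left _ _
  have m1 : M ≤ min z₁ κ - min y₁ κ' + (min z₂ κ - min y₂ κ') + (min z₃ κ - min y₃ κ') := by
    rw [hM]
    exact max_le (by linarith) (by linarith)
  have m2 : (3 / 4 + 2 * d) * P1R904.l3 κ' (min y₁ κ') (min y₂ κ') (min y₃ κ') ≤
      (3 / 4 + 2 * d) * P1R904.l3 κ (min z₁ κ) (min z₂ κ) (min z₃ κ) + M := by
    have g1 := mul_le_mul_of_nonneg_left e2 (by linarith : (0:ℝ) ≤ 3 / 4 + 2 * d)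
    have g2 : (3 / 4 + 2 * d) * M ≤ 1 * M := mul_le_mul_of_nonneg_right (by linarith) m0
    linarith
  linarith

/-! ### class N -/

/-- the lengths as a multiset -/
theorem bg2_coeN {κ b : ℝ} {u u' : List ℝ} {w : Kd → ℝ} {e : ℝ}
    (he : (u : Multiset ℝ) = (u' : Multiset ℝ)) (H : BG2 Dq (PFp π h) κ b u w e) :
    BG2 Dq (PFp π h) κ b u' w e :=
  bg2_perm' (fun lam k β ps qs hp => PML320.PMf_perm (π lam) h k β hp) H (Multiset.coe_eq_coe.1 he)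

/-- the pair numbers of class N with the closed form -/
def NPc (d : ℝ) (r s : EF) (l β : ℝ) (Y : Multiset ℝ) (m a ρ : ℝ) : Prop :=
  NPn (7 / 8 + d) r s l β Y m a ρ ∨ ∃ z₁ z₂ z₃ : ℝ, Y = {z₁, z₂, z₃} ∧ 0 ≤ z₁ ∧ 0 ≤ z₂ ∧ 0 ≤ z₃ ∧
    PM320.pmb d β l z₁ z₂ z₃ m a ≤ ρ

/-- the closed form of the complete character side at the level of `BG` -/
theorem rfb_of (H : DataN (7 / 8 + d) π h c₁)
    (R : ExpRules (7 / 8 + d) (ex Dq (RN0 π h)) s) (hd : 0 ≤ d) (hd8 : d ≤ 1 / 8) :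
    PM320.RFb d π h := fun i z₁ z₂ z₃ m a hi h1 h2 h3 hm ha =>
  RM986.bgf (s := s) H.hpu H.hP R H.raw.colP hd hd8 hi h1 h2 h3 hm ha

lemma okl_perm {u u' : List ℝ} {m a : ℝ} (h : Okl u m a)
    (he : (u : Multiset ℝ) = (u' : Multiset ℝ)) : Okl u' m a :=
  okl_coe h he

/-- **the pair numbers with the closed form are sound** -/
theorem npc_sound (H : DataN (7 / 8 + d) π h c₁)
    (R : ExpRules (7 / 8 + d) (ex Dq (RN0 π h)) s) (hd : 0 ≤ d) (hd8 : d ≤ 1 / 8)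
    (l β : ℝ) (u : List ℝ) (m a ρ : ℝ) (hl : 0 ≤ l) (hβ : 0 ≤ β) (hu : Okl u m a)
    (hN : NPc d (ex Dq (RN0 π h)) (ex Dq (SP0 π h)) l β (u : Multiset ℝ) m a ρ) :
    BG2 Dq (PFp π h) l β u (wt m a) ρ := by
  rcases hN with hN | ⟨z₁, z₂, z₃, hY, h1, h2, h3, hρ⟩
  · exact bg2_of_PG (H.pg_r2 hl hβ rfl hu hN)
  · have hR := rfb_of H R hd hd8
    have h4 := PM320.PG_pmb H.hpu H.hP hd hd8 hR (H.clo.rfb hR) (κ := l) (b := β) hl hβ h1 h2 h3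
      hu.2.1 hu.2.2
    have h5 : BG2 Dq (PFp π h) l β [z₁, z₂, z₃] (wt m a) ρ := (bg2_of_PG h4).mono hρ
    have e1 : (([z₁, z₂, z₃] : List ℝ) : Multiset ℝ) = (u : Multiset ℝ) := by
      rw [hY]; rfl
    exact bg2_coeN e1 h5

/-- **the side conditions, class N**, with the closed form -/
theorem qgNc_of (H : DataN (7 / 8 + d) π h c₁)
    (R : ExpRules (7 / 8 + d) (ex Dq (RN0 π h)) s) (hd : 0 ≤ d) (hd8 : d ≤ 1 / 8)
    {D : LD ι p} (hD : D.OK) {K v : ℝ} {Y : Multiset ℝ} {m a E : ℝ}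
    (hQ : QK (NPc d (ex Dq (RN0 π h)) (ex Dq (SP0 π h)))
      (fun l Y m a ρ => Full (7 / 8 + d) (ex Dq (RN0 π h)) l Y m a ρ) (ex Dq (S0f π h)) D
      K v Y m a E) :
    QG (LNk π h D) K v Y m a E := by
  refine qg_QK (fun l β u m a ρ hl hβ hu hN => npc_sound H R hd hd8 l β u m a ρ hl hβ hu hN)
    (fun l β u m a ρ hl hu hN => ?_) (funOK_S0p H.hP H.hpu) hD hQ
  exact (funOK_RF H.hP H.hpu).bg2 hl hu (H.ex_full hl (okl_ok hu) hN)

/-! ### the lines -/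

/-- the variable `i` of the pair line -/
def iR (x : Fin 5 → ℝ) (θ : Fin 9 → ℝ) : ℝ := x 3 - θ 7 - θ 6 + 2 * θ 1

/-- the condition of the pair line; `hh` = the second scale, a function of `(K, V, n)` -/
def GR2 (hh : ℝ → ℝ → ℝ → ℝ) (x : Fin 5 → ℝ) (θ : Fin 9 → ℝ) : ℝ :=
  max (max (max (θ 6 - θ 4) (2000 * (θ 4 + θ 5) - 2000 * x 2 + 1499 * x 0))
      (max (9 * θ 7 - max 0 (4 * x 2 - 3 * x 0) - x 0 / 100) (θ 8 + 2 * (θ 4 + θ 5) - x 1)))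
    (max (max (iR x θ - (θ 8 + x 2 - x 0 + hh (x 0) (x 1) (x 2) + 2 * (θ 7 + θ 6) + 2 * θ 5 -
        θ 4 + (θ 0 - θ 1))) (iR x θ - (x 0 - (θ 7 + θ 6) - 2 * (θ 0 - θ 1))))
      (max (max (x 4 + (θ 4 + (θ 0 - θ 1) + θ 2 + θ 3) - x 2) (θ 1 - θ 2))
        (max (-iR x θ) (θ 1 - θ 0))))

/-- the exponent of the pair line -/
def FR2 (x : Fin 5 → ℝ) (θ : Fin 9 → ℝ) : ℝ :=
  2 * (x 0 + x 2) - ThN (x 0) (x 2) (θ 4 + θ 5) (θ 7) (θ 8) -
    (θ 4 + θ 5 - θ 6 + (WwN (θ 8 + θ 7 + θ 6) (iR x θ) (θ 2) (θ 5) - iR x θ) + θ 3) - x 0 / 500 -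
    (4 / 3 * x 2 + (x 1 + x 0) / 3)

/-- **the pair line** -/
def dR2 (hh : ℝ → ℝ → ℝ → ℝ) : LD Unit 9 where
  k _ := .pf
  b _ θ := θ 0
  zl _ := False
  G _ x θ := GR2 hh x θ
  F _ x θ := FR2 x θ

/-- the second scale is continuous -/
def ContH (hh : ℝ → ℝ → ℝ → ℝ) : Prop := Continuous fun x : Fin 5 → ℝ => hh (x 0) (x 1) (x 2)

theorem dR2_ok {hh : ℝ → ℝ → ℝ → ℝ} (hc : ContH hh) : (dR2 hh).OK where
  cb _ := by
    show Continuous fun θ : Fin 9 → ℝ => θ 0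
    fun_prop
  b0 _ θ hθ := hθ 0
  cG _ := by
    show Continuous fun x : (Fin 5 → ℝ) × (Fin 9 → ℝ) => GR2 hh x.1 x.2
    have h1 : Continuous fun x : (Fin 5 → ℝ) × (Fin 9 → ℝ) => hh (x.1 0) (x.1 1) (x.1 2) :=
      hc.comp continuous_fst
    unfold GR2 iR
    refine Continuous.max (by fun_prop) (Continuous.max (Continuous.max ?_ (by fun_prop))
      (by fun_prop))
    exact Continuous.sub (by fun_prop) (((((by fun_prop :
      Continuous fun x : (Fin 5 → ℝ) × (Fin 9 → ℝ) => x.2 8 + x.1 2 - x.1 0).add h1).add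
      (by fun_prop)).add (by fun_prop)).sub (by fun_prop) |>.add (by fun_prop))
  cF _ := by
    show Continuous fun x : (Fin 5 → ℝ) × (Fin 9 → ℝ) => FR2 x.1 x.2
    unfold FR2 iR R2N777.ThN NE73.flK R2M777.WwN
    fun_prop

lemma sum3n (a b c : ℝ) : ({a, b, c} : Multiset ℝ).sum + 0 + 0 = a + b + c := by
  rw [sum3]; ring

/-- helper320's closed form is below helper176's -/
lemma pmb_le_u {d β l z₁ z₂ z₃ : ℝ} (hd : 0 ≤ d) :
    PM320.pmb d β l z₁ z₂ z₃ 0 0 ≤ P1R2u176.pmb d β l z₁ z₂ z₃ 0 := by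
  unfold PM320.pmb P1R2u176.pmb
  rw [add_zero]
  refine max_le_max (le_of_eq (by ring_nf)) ?_
  have h1 : min (min z₁ (min z₂ z₃)) (|l - β| / 2) ≤ min z₁ (min z₂ z₃) := min_le_left _ _
  have h2 := mul_le_mul_of_nonneg_left h1 (by linarith : (0 : ℝ) ≤ 3 / 4 + 2 * d)
  linarith

/-- **the pair line of a near list** from helper777's `R2M` -/
theorem r2N_qk (R : ExpRules (7 / 8 + d) r s) (hd : 0 ≤ d) (hd8 : d ≤ 1 / 8)
    {hh : ℝ → ℝ → ℝ → ℝ} {K V y₁ y₂ y₃ n F : ℝ} (hn : n = y₁ + y₂ + y₃) (h1 : 0 ≤ y₁)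
    (h2 : 0 ≤ y₂) (h3 : 0 ≤ y₃) (hV : 0 ≤ V) (hK : 0 < K) (n5 : 5 * n ≤ 4 * K)
    (n3 : 1499 * K ≤ 2000 * n) (vn : 5 * (V + n) ≤ 7 * K) (hh0 : 0 ≤ hh K V n)
    (hh1 : 3 * hh K V n ≤ max 0 (4 * n - 3 * K) + K / 200)
    (hF : 2 * d * min y₁ (min y₂ y₃) ≤ F) :
    QK (NPc d r s) (fun l Y m a ρ => Full (7 / 8 + d) r l Y m a ρ) s₀ (dR2 hh) K V
      {y₁, y₂, y₃} 0 0 (flK K V n + F) := by
  have hy0 : 0 ≤ min y₁ (min y₂ y₃) := le_min h1 (le_min h2 h3)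
  have hF0 : 0 ≤ F := (mul_nonneg (by linarith) hy0).trans hF
  have hfl : 4 / 3 * n + (V + K) / 3 ≤ flK K V n := by
    unfold NE73.flK
    have := le_max_right 0 ((V + K - 2 * n) / 3)
    linarith
  refine ⟨by linarith, ?_⟩
  intro j θ Y' m' a' i hs hm0 hm1 ha0 ha1 hi0 hi1 hG hz
  obtain rfl : m' = 0 := le_antisymm hm1 hm0
  obtain rfl : a' = 0 := le_antisymm ha1 ha0
  obtain ⟨z₁, z₂, z₃, rfl, a1, b1, a2, b2, a3, b3⟩ := sh3 hs
  rw [sum3n, sum3n, ← hn] at hG ⊢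
  have t : ∀ k, 0 ≤ θ.1 k := fun k => θ.2.1 k
  show NPc d r s i (θ.1 0) {z₁, z₂, z₃} 0 0 (flK K V n + F + FR2 ![K, V, n, i, z₁ + z₂ + z₃] θ.1)
  obtain ⟨I, hI⟩ : ∃ I, I = iR ![K, V, n, i, z₁ + z₂ + z₃] θ.1 := ⟨_, rfl⟩
  have hI' : I = i - θ.1 7 - θ.1 6 + 2 * θ.1 1 := hI
  have hG' : max (max (max (θ.1 6 - θ.1 4) (2000 * (θ.1 4 + θ.1 5) - 2000 * n + 1499 * K))
      (max (9 * θ.1 7 - max 0 (4 * n - 3 * K) - K / 100) (θ.1 8 + 2 * (θ.1 4 + θ.1 5) - V)))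
    (max (max (I - (θ.1 8 + n - K + hh K V n + 2 * (θ.1 7 + θ.1 6) + 2 * θ.1 5 -
        θ.1 4 + (θ.1 0 - θ.1 1))) (I - (K - (θ.1 7 + θ.1 6) - 2 * (θ.1 0 - θ.1 1))))
      (max (max (z₁ + z₂ + z₃ + (θ.1 4 + (θ.1 0 - θ.1 1) + θ.1 2 + θ.1 3) - n) (θ.1 1 - θ.1 2))
        (max (-I) (θ.1 1 - θ.1 0)))) ≤ 0 := by rw [hI]; exact hG
  have g1 := (le_max_left _ _).trans ((le_max_left _ _).trans ((le_max_left _ _).trans hG'))
  have g2 := (le_max_right _ _).trans ((le_max_left _ _).trans ((le_max_left _ _).trans hG'))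
  have g3 := (le_max_left _ _).trans ((le_max_right _ _).trans ((le_max_left _ _).trans hG'))
  have g4 := (le_max_right _ _).trans ((le_max_right _ _).trans ((le_max_left _ _).trans hG'))
  have g5 := (le_max_left _ _).trans ((le_max_left _ _).trans ((le_max_right _ _).trans hG'))
  have g6 := (le_max_right _ _).trans ((le_max_left _ _).trans ((le_max_right _ _).trans hG'))
  have g7 := (le_max_left _ _).trans ((le_max_left _ _).trans ((le_max_right _ _).trans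
    ((le_max_right _ _).trans hG')))
  have g8 := (le_max_right _ _).trans ((le_max_left _ _).trans ((le_max_right _ _).trans
    ((le_max_right _ _).trans hG')))
  have g9 := (le_max_left _ _).trans ((le_max_right _ _).trans ((le_max_right _ _).trans
    ((le_max_right _ _).trans hG')))
  have g10 := (le_max_right _ _).trans ((le_max_right _ _).trans ((le_max_right _ _).trans
    ((le_max_right _ _).trans hG')))
  have t0 := t 0
  have t1 := t 1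
  have t2 := t 2
  have t3 := t 3
  have t4 := t 4
  have t5 := t 5
  have t6 := t 6
  have t7 := t 7
  have t8 := t 8
  have hFR : FR2 ![K, V, n, i, z₁ + z₂ + z₃] θ.1 =
      2 * (K + n) - ThN K n (θ.1 4 + θ.1 5) (θ.1 7) (θ.1 8) -
      (θ.1 4 + θ.1 5 - θ.1 6 + (WwN (θ.1 8 + θ.1 7 + θ.1 6) I (θ.1 2) (θ.1 5) - I) + θ.1 3) - K / 500 -
      (4 / 3 * n + (V + K) / 3) := by rw [hI]; rfl
  rw [hFR]
  clear hG hG' t hFR hI
  generalize θ.1 0 = β at *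
  generalize θ.1 1 = g₂ at *
  generalize θ.1 2 = g at *
  generalize θ.1 3 = ms at *
  generalize θ.1 4 = d₀ at *
  generalize θ.1 5 = ν at *
  generalize θ.1 6 = A at *
  generalize θ.1 7 = e at *
  generalize θ.1 8 = v at *
  have hmz : min z₁ (min z₂ z₃) ≤ min y₁ (min y₂ y₃) := min_le_min b1 (min_le_min b2 b3)
  have hFz : 2 * d * min z₁ (min z₂ z₃) ≤ F :=
    (mul_le_mul_of_nonneg_left hmz (by linarith)).trans hF
  rcases r2M K n V 0 (hh K V n) d F d₀ ν A e v (β - g₂) g g₂ I ms z₁ z₂ z₃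
    ⟨hK.le, le_rfl, by linarith, by linarith, n3, by linarith⟩ hh0 hh1 hd hFz t5 t6 (by linarith)
    (by linarith) t7 (by linarith) t8 (by linarith) (by linarith) t2 (by linarith) t3
    (by linarith) (by linarith) ⟨a1, a2, a3, by linarith⟩ t1 (by linarith) (by linarith)
    with hA | hA
  · have e1 : e + A + I + 2 * (β - g₂) = i + 2 * β := by rw [hI']; ring
    rw [e1] at hA
    have hκ : 0 ≤ i + 2 * β := by linarith
    refine Or.inl (Or.inl (full_P1 R hd hd8 a1 a2 a3 (by linarith) ?_))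
    have hl0 : 0 ≤ P1R904.l3 (i + 2 * β) (min z₁ (i + 2 * β)) (min z₂ (i + 2 * β))
        (min z₃ (i + 2 * β)) := by
      have q1 := min_le_right z₁ (i + 2 * β)
      have q2 := min_le_right z₂ (i + 2 * β)
      have q3 := min_le_right z₃ (i + 2 * β)
      have r1 : 0 ≤ min z₁ (i + 2 * β) := le_min a1 hκ
      have r2 : 0 ≤ min z₂ (i + 2 * β) := le_min a2 hκ
      have r3 : 0 ≤ min z₃ (i + 2 * β) := le_min a3 hκ
      refine le_min (le_min r1 ?_) (le_min (le_min r2 ?_) (le_min r3 ?_)) <;> linarith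
    have q1 : 0 ≤ min z₁ (i + 2 * β) := le_min a1 hκ
    have q2 : 0 ≤ min z₂ (i + 2 * β) := le_min a2 hκ
    have q3 : 0 ≤ min z₃ (i + 2 * β) := le_min a3 hκ
    have hl1 := mul_nonneg (by linarith : (0 : ℝ) ≤ 3 / 4 + 2 * d) hl0
    unfold P1R904.r3 at hA
    linarith
  · have e1 : e + A + I - 2 * g₂ = i := by rw [hI']; ring
    have e2 : β - g₂ + g₂ = β := by ring
    rw [e1, e2] at hA
    refine Or.inr ⟨z₁, z₂, z₃, rfl, a1, a2, a3, (pmb_le_u hd).trans ?_⟩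
    linarith

end Crest.Agent.R017.RGB545
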