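import Crest.Agent.R017.N2c_106
import Crest.Agent.R017.RCc_106
import Crest.Agent.R017.NER_545
import Crest.Agent.R017.NEk_551

/-!
# Row 17, FlatNE (helper435): the pair line of the near leaf in the form of helper106's `PLs`

* `pls_of`   : `PLs` from the pair line `dR2 hl`
* `pls_near` : `PLs` at the near leaf from the line premise of `NLeaf`
-/

set_option autoImplicit false
set_option linter.unusedVariables false
set_option maxHeartbeats 1600000

noncomputable section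

open Finset
open scoped ComplexConjugate

namespace Crest.Agent.R017.N2P435

open Crest.Agent.R012 Crest.Agent.R012.Eis
open Crest.Agent.R017.B770
open Crest.Agent.R017.Prov71
open Crest.Agent.R017.Leg381 (Pf LF natl LF_get)
open Crest.Agent.R017.XRG106 (Rl)
open Crest.Agent.R017.MoL106
open Crest.Agent.R017.RG64 (SbL Ht one_le_Ht)
open Crest.Agent.R017.XP699 (LL Chd hcost cst)
open Crest.Agent.R017.RGB545 (Th TK GR2 FR2 iR Line)
open Crest.Agent.R017.RC106 (forall2_ofFn LL_ofFn)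
open Crest.Agent.R017.N2106 (PLs)
open Crest.Agent.R017.NE73 (flK)
open Crest.Agent.R017.R2N777 (ThN)
open Crest.Agent.R017.R2M777 (WwN)
open Crest.Agent.R017.NE73 (gN)
open Crest.Agent.R017.NEg551 (NFacts NNum)

lemma flK_div {L : ℝ} (hL : 0 < L) (K v n : ℝ) : flK K (v / L) (n / L) = flK (K * L) v n / L := by
  unfold NE73.flK
  have e : (v / L + K - 2 * (n / L)) / 3 = ((v + K * L - 2 * n) / 3) / L := by field_simp
  have e2 : max 0 (((v + K * L - 2 * n) / 3) / L) = max 0 ((v + K * L - 2 * n) / 3) / L := by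
    rw [← max_div_div_right hL.le, zero_div]
  rw [e, e2]
  ring

lemma ThN_div {L : ℝ} (hL : 0 < L) (K n D e v : ℝ) :
    ThN K (n / L) (D / L) (e / L) (v / L) = ThN (K * L) n D e v / L := by
  unfold R2N777.ThN
  have e1 : v / L + e / L = (v + e) / L := by ring
  have e2 : n / L - D / L - e / L = (n - D - e) / L := by ring
  rw [e1, e2, flK_div hL]
  field_simp

lemma WwN_div {L : ℝ} (hL : 0 < L) (x i g ν : ℝ) :
    WwN (x / L) (i / L) (g / L) (ν / L) =
      (g + max (x + ν) (max i (2 / 3 * (x + i)))) / L := by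
  unfold R2M777.WwN
  have e1 : x / L + ν / L = (x + ν) / L := by ring
  have e2 : 2 / 3 * (x / L + i / L) = (2 / 3 * (x + i)) / L := by ring
  rw [e1, e2, max_div_div_right hL.le, max_div_div_right hL.le]
  ring

/-- **`PLs` from the pair line** -/
theorem pls_of {Lam : Type*} {π : Lam → DPar} {h : ℝ → ℝ} {lam : Lam} {hl : ℝ → ℝ → ℝ → ℝ}
    {K c₀ S C M ε X Bd r₀ Cb m Lv hh Dm Em : ℝ} {N : ℕ} {ps₀ : List Pq} {ps : List Pf}
    (hX3 : 3 ≤ X) (hK : 0 ≤ K)
    (hS : SbL S ps ps₀) (hlen : ps.length ≤ N) (hz : ∀ q ∈ ps₀, Dq.len q ≤ c₀ * Real.log X)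
    (hC : 0 ≤ C) (hr₀ : C + S ≤ r₀) (hCb : C * Real.exp S ≤ Cb) (hM : 0 ≤ M) (hBd : 0 ≤ Bd)
    (hm0 : 0 ≤ m) (hm : m ≤ ε * Real.log X) (hLv : 0 ≤ Lv) (hn0 : 0 ≤ LF ps)
    (hbox : 4 * LF ps + 2 * (K * Real.log X) + Lv + 2 * m ≤ TK K * Real.log X)
    (hDm : 2000 * Dm + 1499 * (K * Real.log X) ≤ 2000 * LF ps + ε * Real.log X)
    (hEm : 9 * Em ≤ max 0 (4 * LF ps - 3 * (K * Real.log X)) + K * Real.log X / 100)
    (hhh : hh ≤ hl K (Lv / Real.log X) (LF ps / Real.log X) * Real.log X)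
    (hprem : ∀ (θ : Th 9 K) (l : ℝ) (ps' : List Pq), 0 ≤ l → l ≤ TK K * Real.log X →
      List.Forall₂ (Chd Dq hcost r₀ (Cb * X ^ c₀)) ps' ps₀ →
      LL Dq ps' ≤ LF ps + ε * Real.log X →
      GR2 hl ![K, Lv / Real.log X, LF ps / Real.log X, l / Real.log X,
        LL Dq ps' / Real.log X] θ.1 ≤ ε →
      PM2 (π lam) h l (θ.1 0 * Real.log X) ps' ≤
        Bd * cst hcost ps' ps₀ ^ M *
        X ^ (4 / 3 * (LF ps / Real.log X) + (Lv / Real.log X + K) / 3 +
          FR2 ![K, Lv / Real.log X, LF ps / Real.log X, l / Real.log X,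
            LL Dq ps' / Real.log X] θ.1)) :
    PLs (π lam) h ((N : ℝ) * M / 2) C (fun i => (ps.get i).1) (LF ps) (K * Real.log X) Lv hh Dm Em
      m (Bd * (Ht ps * Ht (natl ps₀)) ^ M) := by
  have hX0 : 0 < X := by linarith
  obtain ⟨L, hL⟩ : ∃ L : ℝ, L = Real.log X := ⟨_, rfl⟩
  have hL1 : 1 ≤ L := by
    rw [hL, ← Real.log_exp 1]
    refine Real.log_le_log (Real.exp_pos 1) ?_
    linarith [Real.exp_one_lt_d9]
  have hL0 : 0 < L := by linarith
  rw [← hL] at hm hbox hDm hEm hhh hprem hz ⊢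
  have hHH : 1 ≤ Ht ps * Ht (natl ps₀) :=
    one_le_mul_of_one_le_of_one_le (one_le_Ht _) (one_le_Ht _)
  set HH : ℝ := Ht ps * Ht (natl ps₀) with hHHd
  have hHM : 0 ≤ HH ^ M := Real.rpow_nonneg (by linarith) _
  have hε : 0 ≤ ε * L := hm0.trans hm
  have hKL0 : 0 ≤ K * L := by positivity
  have hXE : ∀ x : ℝ, X ^ (x / L) = Real.exp x := fun x => by
    rw [Real.rpow_def_of_pos hX0, ← hL]
    congr 1
    field_simp
  have hdiv : ∀ a : ℝ, a ≤ ε * L → a / L ≤ ε := fun a ha => (div_le_iff₀ hL0).2 ha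
  have hch : ∀ (s' : Fin ps.length → Pq) (W0 : ℝ), (∀ k, Rl C W0 (s' k) (ps.get k).1) →
      List.Forall₂ (Chd Dq hcost r₀ (Cb * X ^ c₀)) (List.ofFn s') ps₀ := fun s' W0 hR =>
    RlB791.chdL_mono hr₀ (mul_le_mul_of_nonneg_right hCb (Real.rpow_nonneg hX0.le _))
      (RlB791.chdL_of_rl hX0 hC (forall2_ofFn hR) hS (by rw [← hL]; exact hz))
  have hcst : ∀ (s' : Fin ps.length → Pq) (W0 : ℝ), 1 ≤ W0 →
      (∀ k, Rl C W0 (s' k) (ps.get k).1) →
      cst hcost (List.ofFn s') ps₀ ^ M ≤ W0 ^ (2 * ((N : ℝ) * M / 2)) * HH ^ M :=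
    fun s' W0 hW hR => RlB791.cst_rl_pow hW hM (forall2_ofFn hR) hS hlen
  have hz0 : ∀ (s' : Fin ps.length → Pq) (W0 : ℝ), (∀ k, Rl C W0 (s' k) (ps.get k).1) →
      0 ≤ ∑ k, (s' k).z := fun s' W0 hR => Finset.sum_nonneg fun k _ => (hR k).z0
  intro s' W0 hW hR i b g d₀ ν a e v hi hb hg hd₀ hν ha had he hv hDν heE hlv hig hsum hi1 hi2
  have hzs := hz0 s' W0 hR
  obtain ⟨n', hn'⟩ : ∃ x : ℝ, x = ∑ k, (s' k).z := ⟨_, rfl⟩
  rw [← hn'] at hzs hsum ⊢
  obtain ⟨n, hn⟩ : ∃ x : ℝ, x = LF ps := ⟨_, rfl⟩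
  rw [← hn] at hbox hDm hEm hhh hprem hn0 hsum hi1 ⊢
  obtain ⟨ms, hms⟩ : ∃ x : ℝ, x = max 0 (n - d₀ - b - g - n') := ⟨_, rfl⟩
  have hms0 : 0 ≤ ms := hms ▸ le_max_left _ _
  have hms1 : n - d₀ - b - g - n' ≤ ms := hms ▸ le_max_right _ _
  have hms2 : ms ≤ n := by
    rw [hms]
    exact max_le hn0 (by linarith)
  have hms3 : n' + (d₀ + b + g + ms) - n ≤ m := by
    rw [hms]
    rcases le_total 0 (n - d₀ - b - g - n') with h1 | h1
    · rw [max_eq_right h1]; linarith
    · rw [max_eq_left h1]; linarith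
  have hEm' : 9 * e ≤ max 0 (4 * n - 3 * (K * L)) + K * L / 100 := by linarith
  have he4 : e ≤ n + K * L := by
    have h1 : max 0 (4 * n - 3 * (K * L)) ≤ 4 * n := max_le (by linarith) (by linarith)
    linarith
  have hbx : ∀ x : ℝ, x ≤ 4 * n + 2 * (K * L) + Lv + 2 * m → x / L ≤ TK K := fun x hx =>
    (div_le_iff₀ hL0).2 (hx.trans hbox)
  have key := hprem ⟨![(b + g) / L, g / L, g / L, ms / L, d₀ / L, ν / L, a / L, e / L, v / L], by
      intro j
      fin_cases j
      · show (0 : ℝ) ≤ (b + g) / L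
        positivity
      · show (0 : ℝ) ≤ g / L
        positivity
      · show (0 : ℝ) ≤ g / L
        positivity
      · show (0 : ℝ) ≤ ms / L
        positivity
      · show (0 : ℝ) ≤ d₀ / L
        positivity
      · show (0 : ℝ) ≤ ν / L
        positivity
      · show (0 : ℝ) ≤ a / L
        positivity
      · show (0 : ℝ) ≤ e / L
        positivity
      · show (0 : ℝ) ≤ v / L
        positivity, by
      intro j
      fin_cases j
      · exact hbx _ (by linarith)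
      · exact hbx _ (by linarith)
      · exact hbx _ (by linarith)
      · exact hbx _ (by linarith)
      · exact hbx _ (by linarith)
      · exact hbx _ (by linarith)
      · exact hbx _ (by linarith)
      · exact hbx _ (by linarith)
      · exact hbx _ (by linarith)⟩ (e + a + i - 2 * g) (List.ofFn s') (by linarith)
    ((by linarith : e + a + i - 2 * g ≤ 4 * n + 2 * (K * L) + Lv + 2 * m).trans hbox)
    (hch s' W0 hR)
    (by rw [LL_ofFn, ← hn']; linarith)
    (by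
      rw [LL_ofFn, ← hn']
      show max (max (max (a / L - d₀ / L) (2000 * (d₀ / L + ν / L) - 2000 * (n / L) + 1499 * K))
          (max (9 * (e / L) - max 0 (4 * (n / L) - 3 * K) - K / 100)
            (v / L + 2 * (d₀ / L + ν / L) - Lv / L)))
        (max (max (((e + a + i - 2 * g) / L - e / L - a / L + 2 * (g / L)) -
              (v / L + n / L - K + hl K (Lv / L) (n / L) + 2 * (e / L + a / L) + 2 * (ν / L) -
                d₀ / L + ((b + g) / L - g / L)))
            (((e + a + i - 2 * g) / L - e / L - a / L + 2 * (g / L)) -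
              (K - (e / L + a / L) - 2 * ((b + g) / L - g / L))))
          (max (max (n' / L + (d₀ / L + ((b + g) / L - g / L) + g / L + ms / L) - n / L)
            (g / L - g / L))
            (max (-((e + a + i - 2 * g) / L - e / L - a / L + 2 * (g / L)))
              (g / L - (b + g) / L)))) ≤ ε
      have hI : (e + a + i - 2 * g) / L - e / L - a / L + 2 * (g / L) = i / L := by ring
      have hM0 : max 0 (4 * (n / L) - 3 * K) = max 0 (4 * n - 3 * (K * L)) / L := by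
        rw [← max_div_div_right hL0.le, zero_div]
        congr 1
        field_simp
      rw [hI, hM0]
      refine max_le (max_le (max_le ?_ ?_) (max_le ?_ ?_)) (max_le (max_le ?_ ?_)
        (max_le (max_le ?_ ?_) (max_le ?_ ?_)))
      · refine le_trans (le_of_eq ?_) (hdiv (a - d₀) (by linarith))
        ring
      · refine le_trans (le_of_eq ?_) (hdiv (2000 * (d₀ + ν) - 2000 * n + 1499 * (K * L))
          (by linarith))
        field_simp
      · refine le_trans (le_of_eq ?_) (hdiv (9 * e - max 0 (4 * n - 3 * (K * L)) -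
          K * L / 100) (by linarith))
        field_simp
      · refine le_trans (le_of_eq ?_) (hdiv (v + 2 * (d₀ + ν) - Lv) (by linarith))
        ring
      · refine le_trans (le_of_eq ?_) (hdiv (i - (v + n - K * L + hl K (Lv / L) (n / L) * L +
          2 * (e + a) + 2 * ν - d₀ + b)) (by linarith))
        field_simp
        ring
      · refine le_trans (le_of_eq ?_) (hdiv (i - (K * L - (e + a) - 2 * b)) (by linarith))
        field_simp
        ring
      · refine le_trans (le_of_eq ?_) (hdiv (n' + (d₀ + b + g + ms) - n) (by linarith))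
        ring
      · refine le_trans (le_of_eq ?_) (hdiv 0 (by linarith))
        ring
      · refine le_trans (le_of_eq ?_) (hdiv (-i) (by linarith))
        ring
      · refine le_trans (le_of_eq ?_) (hdiv (-b) (by linarith))
        ring)
  have key2 : PM2 (π lam) h (e + a + i - 2 * g) ((b + g) / L * L) (List.ofFn s') ≤
      Bd * cst hcost (List.ofFn s') ps₀ ^ M *
      X ^ (4 / 3 * (n / L) + (Lv / L + K) / 3 +
        (2 * (K + n / L) - ThN K (n / L) (d₀ / L + ν / L) (e / L) (v / L) -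
          (d₀ / L + ν / L - a / L + (WwN (v / L + e / L + a / L)
            ((e + a + i - 2 * g) / L - e / L - a / L + 2 * (g / L)) (g / L) (ν / L) -
            ((e + a + i - 2 * g) / L - e / L - a / L + 2 * (g / L))) + ms / L) - K / 500 -
          (4 / 3 * (n / L) + (Lv / L + K) / 3))) := key
  have e1 : (e + a + i - 2 * g) / L - e / L - a / L + 2 * (g / L) = i / L := by ring
  have e2 : d₀ / L + ν / L = (d₀ + ν) / L := by ring
  have e3 : v / L + e / L + a / L = (v + e + a) / L := by ring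
  rw [e1, e2, e3, ThN_div hL0, WwN_div hL0, div_mul_cancel₀ _ hL0.ne'] at key2
  have e4 : 4 / 3 * (n / L) + (Lv / L + K) / 3 +
        (2 * (K + n / L) - ThN (K * L) n (d₀ + ν) e v / L -
          ((d₀ + ν) / L - a / L + ((g + max (v + e + a + ν) (max i (2 / 3 * (v + e + a + i)))) / L -
            i / L) + ms / L) - K / 500 - (4 / 3 * (n / L) + (Lv / L + K) / 3)) =
      (2 * (K * L + n) - ThN (K * L) n (d₀ + ν) e v - (d₀ + ν - a +
        (max (v + e + a + ν) (max i (2 / 3 * (v + e + a + i))) - i)) - (g + ms) -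
        K * L / 500) / L := by
    field_simp
    ring
  rw [e4, hXE] at key2
  refine key2.trans ?_
  have h5 := hcst s' W0 hW hR
  have h6 : 0 ≤ W0 ^ (2 * ((N : ℝ) * M / 2)) := Real.rpow_nonneg (by linarith) _
  calc Bd * cst hcost (List.ofFn s') ps₀ ^ M *
        Real.exp (2 * (K * L + n) - ThN (K * L) n (d₀ + ν) e v - (d₀ + ν - a +
          (max (v + e + a + ν) (max i (2 / 3 * (v + e + a + i))) - i)) - (g + ms) -
          K * L / 500) ≤
        Bd * (W0 ^ (2 * ((N : ℝ) * M / 2)) * HH ^ M) *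
        Real.exp (2 * (K * L + n) - ThN (K * L) n (d₀ + ν) e v - (d₀ + ν - a +
          (max (v + e + a + ν) (max i (2 / 3 * (v + e + a + i))) - i)) - (n - d₀ - b - n') -
          K * L / 500) := by
        refine mul_le_mul (mul_le_mul_of_nonneg_left h5 hBd)
          (Real.exp_le_exp.2 (by linarith)) (Real.exp_pos _).le (by positivity)
    _ = _ := by ring

/-- **`PLs` at the near leaf** -/
theorem pls_near {Lam ι : Type*} {π : Lam → DPar} {h : ℝ → ℝ} {L : ι → Line Lam 9} {j₀ : ι}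
    {hl φ₀ φβ : ℝ → ℝ → ℝ → ℝ} {K v c : ℝ} (hc : 0 < c) (hcK : 2000 * c ≤ K)
    (hΦ : ∀ lam l b ps, (L j₀).Φ lam l b ps = PM2 (π lam) h l b ps)
    (hb : ∀ θ, (L j₀).b θ = θ 0) (hzl : ¬ (L j₀).zl)
    (hG : ∀ x θ, (L j₀).G x θ = GR2 hl x θ) (hFR : ∀ x θ, (L j₀).F x θ = FR2 x θ)
    (hφ₀ : ∀ a u m, 9 * φ₀ a u m ≤ max 0 (4 * m - 3 * K) + K / 100)
    (hhl : ∀ a u m, 3 * (φβ a u m - φ₀ a u m) ≤ hl K u m)
    {lam : Lam} {N : ℕ} {c₀ ε M C₁ S' X : ℝ} (hε : 0 < ε) (hM : 0 ≤ M) (hC₁ : 1 ≤ C₁)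
    (hX3 : 3 ≤ X) {ps₀ : List Pq} {ps : List Pf} {Lv : ℝ} {N₁ : ℕ} (hlen : ps₀.length ≤ N)
    (hz : ∀ q ∈ ps₀, 0 ≤ Dq.len q ∧ Dq.len q ≤ c₀ * Real.log X)
    (hnum : NNum K v c ε X ps₀)
    (hF : NFacts K v (gN K c (LL Dq ps₀ / Real.log X)) ε X ps₀ ps Lv N₁) (hps : SbL S' ps ps₀)
    {Bd : ℝ} (hBd : 1 ≤ Bd) {r₀ Cb : ℝ} (hr₀ : C₁ + S' ≤ r₀) (hCb : C₁ * Real.exp S' ≤ Cb)
    {m₁ : ℝ} (hm0 : 0 ≤ m₁) (hm : m₁ ≤ ε * Real.log X)
    (hln : ∀ (j : ι) (θ : Th 9 K) (l : ℝ) (ps' : List Pq), 0 ≤ l → l ≤ TK K * Real.log X →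
      List.Forall₂ (Chd Dq hcost r₀ (Cb * X ^ c₀)) ps' ps₀ →
      LL Dq ps' ≤ LF ps + ε * Real.log X →
      (L j).G ![K, Lv / Real.log X, LF ps / Real.log X, l / Real.log X,
        LL Dq ps' / Real.log X] θ.1 ≤ ε →
      ((L j).zl → ∀ q ∈ ps', Dq.lump q → Dq.len q ≤ l + ε * Real.log X) →
      (L j).Φ lam l ((L j).b θ.1 * Real.log X) ps' ≤ Bd * cst hcost ps' ps₀ ^ M *
        X ^ (4 / 3 * (LF ps / Real.log X) + (Lv / Real.log X + K) / 3 +
          (L j).F ![K, Lv / Real.log X, LF ps / Real.log X, l / Real.log X,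
            LL Dq ps' / Real.log X] θ.1)) :
    PLs (π lam) h ((N : ℝ) * M / 2) C₁ (fun i => (ps.get i).1) (LF ps) (K * Real.log X) Lv
      (3 * (φβ (LL Dq ps₀ / Real.log X) (Lv / Real.log X) (LF ps / Real.log X) -
        φ₀ (LL Dq ps₀ / Real.log X) (Lv / Real.log X) (LF ps / Real.log X)) * Real.log X)
      (min (gN K c (LL Dq ps₀ / Real.log X) * Real.log X)
          (LF ps - (LL Dq ps₀ - gN K c (LL Dq ps₀ / Real.log X) * Real.log X)))
      (φ₀ (LL Dq ps₀ / Real.log X) (Lv / Real.log X) (LF ps / Real.log X) * Real.log X)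
      m₁ (Bd * (Ht ps * Ht (natl ps₀)) ^ M) := by
  have hX0 : 0 < X := by linarith
  obtain ⟨l, hl'⟩ : ∃ l : ℝ, l = Real.log X := ⟨_, rfl⟩
  have hL1 : 1 ≤ l := by
    rw [hl', ← Real.log_exp 1]
    refine Real.log_le_log (Real.exp_pos 1) ?_
    linarith [Real.exp_one_lt_d9]
  have hL0 : 0 < l := by linarith
  obtain ⟨n, hn⟩ : ∃ n : ℝ, n = LL Dq ps₀ := ⟨_, rfl⟩
  obtain ⟨m, hm'⟩ : ∃ m : ℝ, m = LF ps := ⟨_, rfl⟩
  have hn0 : 0 ≤ LF ps := Crest.Agent.R017.RG64.LF_nonneg hps.z_nonneg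
  obtain ⟨g, hg⟩ : ∃ x : ℝ, x = gN K c (LL Dq ps₀ / Real.log X) := ⟨_, rfl⟩
  have hgL : g * l = n - 3 / 4 * (K * l) + c * l := by
    rw [hg, ← hl', ← hn]
    unfold NE73.gN
    field_simp
  have f1 := hF.lo
  have f2 := hF.hi
  have f3 := hF.lv
  have f5 := hnum.nK
  have f7 := hnum.vg
  have f8 := hnum.ec
  have f9 := hF.v0
  have hhl1 := hhl (LL Dq ps₀ / Real.log X) (Lv / Real.log X) (LF ps / Real.log X)
  have hφ1 := hφ₀ (LL Dq ps₀ / Real.log X) (Lv / Real.log X) (LF ps / Real.log X)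
  rw [← hg, ← hl', ← hn, ← hm'] at f1
  rw [← hl', ← hn, ← hm'] at f2 f3
  rw [← hl', ← hn] at f5
  rw [← hg] at f7
  rw [← hl'] at hm
  have hεL : 0 ≤ ε * l := by positivity
  have hcL : 0 ≤ c * l := by positivity
  have hεcL : ε * l ≤ c * l := mul_le_mul_of_nonneg_right f8 hL0.le
  have hcKL : 2000 * (c * l) ≤ K * l := by
    have := mul_le_mul_of_nonneg_right hcK hL0.le
    linarith
  have e2 : (4 * K + ε) * l = 4 * (K * l) + ε * l := by ring
  have e4 : (v + ε) * l = v * l + ε * l := by ring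
  rw [e2] at f5
  rw [e4] at f3
  have f10 : 3 * (v * l + g * l) + 100 * (c * l) ≤ 2 * (K * l) + ε * l := by
    have := mul_le_mul_of_nonneg_right f7 hL0.le
    have e5 : (3 * (v + g) + 100 * c) * l = 3 * (v * l + g * l) + 100 * (c * l) := by ring
    have e6 : (2 * K + ε) * l = 2 * (K * l) + ε * l := by ring
    linarith
  refine pls_of (hl := hl) (ε := ε) hX3 (by linarith) hps (hps.length ▸ hlen)
    (fun q hq => (hz q hq).2) (by linarith) hr₀ hCb hM (by linarith) hm0 (by rw [← hl']; exact hm)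
    f9 hn0 ?_ ?_ ?_ ?_ ?_
  · rw [← hl', ← hm']
    unfold RGB545.TK
    have e7 : 10 * (K + 1) * l = 10 * (K * l) + 10 * l := by ring
    rw [e7]
    linarith
  · rw [← hg, ← hl', ← hm', ← hn]
    have h1 := min_le_right (g * l) (m - (n - g * l))
    linarith
  · rw [← hl', ← hm', ← hn] at hφ1 ⊢
    have h1 := mul_le_mul_of_nonneg_right hφ1 hL0.le
    have e8 : (max 0 (4 * (m / l) - 3 * K) + K / 100) * l =
        max 0 (4 * m - 3 * (K * l)) + K * l / 100 := by
      rw [add_mul, max_mul_of_nonneg _ _ hL0.le, zero_mul]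
      congr 1
      · congr 1
        field_simp
      · ring
    rw [e8] at h1
    linarith
  · rw [← hl', ← hm', ← hn] at hhl1 ⊢
    exact mul_le_mul_of_nonneg_right hhl1 hL0.le
  · intro θ l ps' h1 h2 h3 h4 h5
    have h6 := hln j₀ θ l ps' h1 h2 h3 h4 (by rw [hG]; exact h5) (fun hz => (hzl hz).elim)
    rw [hΦ, hb, hFR] at h6
    exact h6

end Crest.Agent.R017.N2P435
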