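import Crest.Agent.R017.NEY_545

/-!
# Row 17, FlatNE: the lines of the near leaf with additional lines (helper545)

* `qhN_add`, `qhE_add` : `QH`, `QHr` for the three lines and any additional family of lines
-/

set_option autoImplicit false
set_option linter.unusedVariables false

noncomputable section

open Set Filter Topology

namespace Crest.Agent.R017.RGB545

open Crest.Agent.R012 Crest.Agent.R012.Eis Crest.Agent.R012.LS2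
open Crest.Agent.R017.B770
open Crest.Agent.R017.Prov71
open Crest.Agent.R017.XP699
open Crest.Agent.R017.ER911 (Ok Sh EF ExpRules)
open Crest.Agent.R017.RuleM545
open Crest.Agent.R017.XPD571
open Crest.Agent.R017.XS0298
open Crest.Agent.R017.Red848
open Crest.Agent.R017.SC777 (Full PM sh3 sum3 ExpRGFz)
open Crest.Agent.R017.NE73 (flK QH NearDom)
open Crest.Agent.R017.NEx911 (QHr)
open Crest.Agent.R017.PM320 (Clo)
open Crest.Agent.R017.PX829 (PX PXs)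

variable {Lam ι ι' : Type*} {p : ℕ} {π : Lam → DPar} {h : ℝ → ℝ} {c₁ θ d : ℝ} {r s s₀ : EF}

/-- **class N, `QH` on the near domain**, three lines and any others -/
theorem qhN_add (H : DataN (7 / 8 + d) π h c₁)
    (R : ExpRules (7 / 8 + d) (ex Dq (RN0 π h)) (ex Dq (SP0 π h)))
    (Rm : ExpRGFz (7 / 8 + d) (ex Dq (RN0 π h)) (ex Dq (SP0 π h)) (ex Dq (S0f π h)))
    (hd : 0 ≤ d) (hd8 : d ≤ 1 / 8) {qm : ℝ → ℝ → ℝ → ℝ} (hq : ContH qm) {κ S y₁ y₂ y₃ : ℝ}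
    (hdom : NearDom κ S y₁ y₂ y₃) {a₁ a₂ μ e c : ℝ} (h1 : 0 ≤ a₁) (h1κ : 2000 * a₁ ≤ κ)
    (h2 : 0 ≤ a₂) (h2κ : 2000 * a₂ ≤ κ) (μ0 : 0 ≤ μ) (μκ : 100 * μ ≤ κ) (e0 : 0 ≤ e)
    (eκ : 2000 * e ≤ κ) (hc : 0 < c) (hcκ : 5000 * c ≤ κ) {E : LD ι' 9} (hE : E.OK)
    (hEQ : RealQ d (NPc d (ex Dq (RN0 π h)) (ex Dq (SP0 π h)))
      (fun l Y m a ρ => Full (7 / 8 + d) (ex Dq (RN0 π h)) l Y m a ρ) (ex Dq (S0f π h)) κ E) :
    QH (QG (LNk π h ((DN TqB qm a₁ a₂ μ e).sum E))) c (κ + 100 * c) S y₁ y₂ y₃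
      (2 * d * y₃ + 100 * c) := by
  have hy3 := hdom.p3
  refine qhN_of H R hd hd8 (LD.OK.sum (DG_ok (dR2_ok (contH_hC a₁)) TqB_cont hq a₂ μ e) hE) hdom
    (RealQ.sum (realQ_DG R hd hd8 (realQ_r2 R hd hd8 h1 (by linarith))
      (realQ_qb R (farS_of R Rm hd hd8) hd qm) h2 h2κ μ0 μκ e0 eκ) hEQ)
    (by positivity) ?_ hc hcκ
  have m1 : min y₁ (min y₂ y₃) ≤ y₃ := (min_le_right _ _).trans (min_le_right _ _)
  exact mul_le_mul_of_nonneg_left m1 (by linarith)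

/-- **class E, `QH`, `QHr` on the near domain**, three lines and any others -/
theorem qhE_add (H : DataE (7 / 8 + d) π h c₁) (hcl : Clo π)
    (R : ExpRules (7 / 8 + d) (ex Dq (RNe π h)) (ex Dq (SPe π h)))
    (Rm : ExpRGFz (7 / 8 + d) (ex Dq (RNe π h)) (ex Dq (SPe π h)) (ex Dq (S0e π h)))
    (hd : 0 ≤ d) (hd8 : d ≤ 1 / 8)
    {P : LD Unit 9} (hPo : P.OK) {qm : ℝ → ℝ → ℝ → ℝ} (hq : ContH qm) {κ S y₁ y₂ y₃ : ℝ}
    (hP : RealQ d (fun l β Y m a ρ => PXs (7 / 8 + d) (ex Dq (RNe π h)) (ex Dq (SPe π h)) l β Y m a ρ)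
      (fun l Y m a ρ => Full (7 / 8 + d) (ex Dq (RNe π h)) l Y m a ρ) (ex Dq (S0e π h)) κ P)
    (hdom : NearDom κ S y₁ y₂ y₃) {a₂ μ e c : ℝ}
    (h2 : 0 ≤ a₂) (h2κ : 2000 * a₂ ≤ κ) (μ0 : 0 ≤ μ) (μκ : 100 * μ ≤ κ) (e0 : 0 ≤ e)
    (eκ : 2000 * e ≤ κ) (hc : 0 < c) (hcκ : 5000 * c ≤ κ) {E : LD ι' 9} (hE : E.OK)
    (hEQ : RealQ d (fun l β Y m a ρ => PXs (7 / 8 + d) (ex Dq (RNe π h)) (ex Dq (SPe π h)) l β Y m a ρ)
      (fun l Y m a ρ => Full (7 / 8 + d) (ex Dq (RNe π h)) l Y m a ρ) (ex Dq (S0e π h)) κ E) :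
    QH (QG (LEk (rdE π) h ((DG P TqB qm a₂ μ e).sum E))) c (κ + 100 * c) S y₁ y₂ y₃
        (2 * d * ((y₁ + y₂ + y₃) / 3) + 100 * c) ∧
      QHr (QG (LEk (rdE π) h ((DG P TqB qm a₂ μ e).sum E))) c (κ + 100 * c) S (y₁ + y₂ + y₃) y₃
        (2 * d * ((y₁ + y₂ + y₃) / 3) + 100 * c) := by
  have hy3 := hdom.p3
  have y32 := hdom.y32
  have y21 := hdom.y21
  exact qhE_of H (paok_pxs H hcl (XPr829.pairRules_px H.hpu H.hP H.hE hcl)) hd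
    (LD.OK.sum (DG_ok hPo TqB_cont hq a₂ μ e) hE) hdom
    (RealQ.sum (realQ_DG R hd hd8 hP (realQ_qb R (farS_of R Rm hd hd8) hd qm) h2 h2κ μ0 μκ e0 eκ)
      hEQ)
    (mul_nonneg (by linarith) (by linarith)) le_rfl hc hcκ

end Crest.Agent.R017.RGB545
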