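import Crest.Agent.R017.NZN_551
import Crest.Agent.R017.NEZ_545
import Crest.Agent.R017.NrA_986

/-!
# Row 17, near field (helper144): class N, the field `NearAll` from the three open leaves

* `Lv3`        : the three leaves at one `(K, v, c)` (helper551's `neFin_N`)
* `OpL`        : the leaves at the lines `L c`, for every weight
* **`nearAll_gen`** : helper986's `NearAll`, any lines, `QH` as a hypothesis
* **`nearAll_of`**  : the lines of class N (helper545) with one more summand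
-/

set_option autoImplicit false

noncomputable section

open Complex

namespace Crest.Agent.R017.NAg144

open Crest.Agent.R012 Crest.Agent.R012.Eis Crest.Agent.R012.LS2
open Crest.Agent.R012.MC (Wgt)
open Crest.Agent.R017.B770
open Crest.Agent.R017.Prov71
open Crest.Agent.R017.ER911 (EF ExpRules)
open Crest.Agent.R017.SC777 (ExpRGFz Full)
open Crest.Agent.R017.XPD571 (RN0 SP0)
open Crest.Agent.R017.RGB545
open Crest.Agent.R017.RG64 (exists_abs4)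
open Crest.Agent.R017.NE73 (NeFin expNE_of_fin NearDom QH)
open Crest.Agent.R017.NE499 (hS NumOs)
open Crest.Agent.R017.NEc180 (NumEq)
open Crest.Agent.R017.NEg551 (NLeaf)
open Crest.Agent.R017.WDec180 (WD)
open Crest.Agent.R017.NLn180 (RgN)
open Crest.Agent.R017.NLg777 (QfZ)
open Crest.Agent.R017.NZN551 (p0 p1 pb neFin_N)
open Crest.Agent.R017.NrA986 (NearAll)

variable {Lam ι : Type*} {p : ℕ}

/-- **the three open leaves** of class N at `(K, v, c)`, lines `L` -/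
structure Lv3 (w : ℝ → ℝ) (Nw : ℕ) (Mw : ℝ) (Fw : ℕ → ℝ → ℂ) (C₀ : ℝ) (π : Lam → DPar)
    (h : ℝ → ℝ) (L : ι → Line Lam p) (K v c : ℝ) : Prop where
  rg : NLeaf π h (RgN Nw Mw Fw hS (12 * (c / K))) L (p0 c K) (p1 c K) (pb c K) K v c
  eq : NLeaf π h (fun q α Rn => NumEq Nw Mw Fw (QfZ C₀ q) q.Cw q.η q.Aw q.K q.X q.R q.J
      q.D q.E0 (hS q) q.N₁ α Rn) L (p0 c K) (p1 c K) (pb c K) K v c
  os : NLeaf π h (fun q α Rn => NumOs w q.Cw q.η q.Aw q.K q.X q.K q.R q.J q.D q.E0 q.E1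
      (q.B / q.E0) (q.N₁ / 2) q.N₁ α Rn) L (p0 c K) (p1 c K) (pb c K) K v c

/-- **the open leaves** at the lines `L c`, for every weight -/
def OpL (π : Lam → DPar) (h : ℝ → ℝ) (L : ℝ → ι → Line Lam p) : Prop :=
  ∀ w : ℝ → ℝ, Wgt w → (∀ x, 0 ≤ w x) → ∀ (Nw : ℕ) (Mw : ℝ) (Fw : ℕ → ℝ → ℂ),
    WD w Nw Mw Fw → ∃ C₀ : ℝ, 0 < C₀ ∧ ∀ K v c : ℝ, 0 < c → 1000000 * c ≤ K → 0 ≤ v →
      3 * v + 100 * c ≤ 2 * K → Lv3 w Nw Mw Fw C₀ π h (L c) K v c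

/-- **the field of near-equal lists**, class N, any lines -/
theorem nearAll_gen [Finite ι] {π : Lam → DPar} (hP : ∀ lam, (π lam).OK) {h : ℝ → ℝ} {c₂ : ℝ}
    (hpu : FE47.PU h c₂) {d : ℝ} {L : ℝ → ι → Line Lam p}
    (hL : ∀ c : ℝ, 0 < c → ∀ j, (L c j).OK)
    (hQ : ∀ κ S y₁ y₂ y₃ : ℝ, NearDom κ S y₁ y₂ y₃ → ∀ c : ℝ, 0 < c → 1000000 * c ≤ κ →
      QH (QG (L c)) c (κ + 100 * c) S y₁ y₂ y₃ (2 * d * y₃ + 100 * c))
    (HO : OpL π h L) : NearAll d (ex Dq (fun lam => S0p (π lam) h)) := by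
  obtain ⟨w, hw, hw0, hab⟩ := exists_abs4
  obtain ⟨Nw, Mw, Fw, hD⟩ := WDec180.exists_WD hw
  obtain ⟨C₀, hC₀, HL⟩ := HO w hw hw0 Nw Mw Fw hD
  intro κ S y₁ y₂ y₃ hdom c₀ hc₀
  have hκ := hdom.κ0
  obtain ⟨c, hcd⟩ : ∃ c, c = min c₀ (κ / 1000000) := ⟨_, rfl⟩
  have hc : 0 < c := by rw [hcd]; positivity
  have hcc : c ≤ c₀ := hcd ▸ min_le_left _ _
  have hcκ' : c ≤ κ / 1000000 := hcd ▸ min_le_right _ _
  have hcκ : 1000000 * c ≤ κ := by linarith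
  refine ⟨c, hc, hcc, QG (L c), ?_, hQ κ S y₁ y₂ y₃ hdom c hc hcκ⟩
  refine expNE_of_fin (hL c hc) (funOK_S0p hP hpu) S0f_mono_l hc ?_
  intro K v hK hv h3
  have L3 := HL K v c hc hK hv h3
  exact ⟨min (c / 2) 1 / 100, by positivity,
    neFin_N hP hpu hw hw0 hab hD hC₀ hc (by linarith) hv L3.rg L3.eq L3.os⟩

/-- the constants of the lines, in units of `c` -/
structure Cst4 (A₁ A₂ M E : ℝ) : Prop where
  a0 : 0 ≤ A₁
  a1 : A₁ ≤ 500
  b0 : 0 ≤ A₂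
  b1 : A₂ ≤ 500
  m0 : 0 ≤ M
  m1 : M ≤ 10000
  e0 : 0 ≤ E
  e1 : E ≤ 500

/-- **the field of near-equal lists**, class N: the lines of helper545 with one more summand `X` -/
theorem nearAll_of {ι' : Type*} [Finite ι'] {π : Lam → DPar} {h : ℝ → ℝ} {c₁ d : ℝ}
    (H : DataN (7 / 8 + d) π h c₁)
    (R : ExpRules (7 / 8 + d) (ex Dq (RN0 π h)) (ex Dq (SP0 π h)))
    (Rm : ExpRGFz (7 / 8 + d) (ex Dq (RN0 π h)) (ex Dq (SP0 π h)) (ex Dq (S0f π h)))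
    (hd : 0 ≤ d) (hd8 : d ≤ 1 / 8) {A₁ A₂ M E : ℝ} (hA : Cst4 A₁ A₂ M E)
    {qm : ℝ → ℝ → ℝ → ℝ → ℝ} (hq : ∀ c : ℝ, 0 < c → ContH (qm c)) {X : LD ι' 9} (hX : X.OK)
    (hXQ : ∀ κ : ℝ, 0 < κ → RealQ d (NPc d (ex Dq (RN0 π h)) (ex Dq (SP0 π h)))
      (fun l Y m a ρ => Full (7 / 8 + d) (ex Dq (RN0 π h)) l Y m a ρ) (ex Dq (S0f π h)) κ X)
    (HO : OpL π h fun c => LNk π h ((DN TqB (qm c) (A₁ * c) (A₂ * c) (M * c) (E * c)).sum X)) :
    NearAll d (ex Dq (S0f π h)) := by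
  refine nearAll_gen H.hP H.hpu (L := fun c => LNk π h ((DN TqB (qm c) (A₁ * c) (A₂ * c) (M * c)
    (E * c)).sum X)) ?_ ?_ HO
  · intro c hc j
    exact lnk_ok H.hP H.hpu (LD.OK.sum (DG_ok (dR2_ok (contH_hC _)) TqB_cont (hq c hc) _ _ _) hX) j
  · intro κ S y₁ y₂ y₃ hdom c hc hcκ
    have g1 : A₁ * c ≤ 500 * c := mul_le_mul_of_nonneg_right hA.a1 hc.le
    have g2 : A₂ * c ≤ 500 * c := mul_le_mul_of_nonneg_right hA.b1 hc.le
    have g3 : M * c ≤ 10000 * c := mul_le_mul_of_nonneg_right hA.m1 hc.le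
    have g4 : E * c ≤ 500 * c := mul_le_mul_of_nonneg_right hA.e1 hc.le
    exact qhN_add H R Rm hd hd8 (hq c hc) hdom
      (mul_nonneg hA.a0 hc.le) (by linarith) (mul_nonneg hA.b0 hc.le) (by linarith)
      (mul_nonneg hA.m0 hc.le) (by linarith) (mul_nonneg hA.e0 hc.le) (by linarith) hc
      (by linarith) hX (hXQ κ hdom.κ0)

end Crest.Agent.R017.NAg144
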