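import Crest.Agent.R017.NEf_73
import Crest.Agent.R017.FNEf_708

/-!
# Row 17, R8 / P1: the flat claims of the near-equal triple (helper73), the near part of `FE2L`

* `NearDom` : the domain of the near-equal lists
* `nearL_of_ne` : helper708's `NearL` from the field `ExpNE`
* `fe2L_of_ne`  : `FE2L`
-/

set_option autoImplicit false

noncomputable section

namespace Crest.Agent.R017.NE73

open Crest.Agent.R017.ER911
open Crest.Agent.R017.TM708 (T5 K5 R5 FE2L)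
open Crest.Agent.R017.FN708
open Crest.Agent.R017.SC777

/-- **the domain of the near-equal lists** `y₁ ≥ y₂ ≥ y₃`, family `κ`, `S` = bound for
(level + length) -/
structure NearDom (κ S y₁ y₂ y₃ : ℝ) : Prop where
  κ0 : 0 < κ
  p3 : 0 ≤ y₃
  y32 : y₃ ≤ y₂
  y21 : y₂ ≤ y₁
  y1 : 200 * y₁ ≤ 61 * κ
  n5 : 5 * (y₁ + y₂ + y₃) ≤ 4 * κ
  near : κ < y₁ + y₂ + 2 * y₃
  S1 : 3 * (y₁ + y₂ + y₃) - κ ≤ S
  S2 : 5 * S ≤ 7 * κ

variable {d : ℝ} {r s s₀ : EF}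

lemma cyc3 (a b c : ℝ) : ({a, b, c} : Multiset ℝ) = {b, c, a} := by
  rw [sw1 a b c, sw2 b a c]

/-- the far lists -/
theorem farH_of (R : ExpRules (7 / 8 + d) r s) (Rm : ExpRGFz (7 / 8 + d) r s s₀) (hd : 0 ≤ d)
    (hd8 : 8 * d ≤ 1) {κ S y₁ y₂ y₃ : ℝ} (H : NearDom κ S y₁ y₂ y₃) :
    FarH s₀ κ S y₁ y₂ y₃ (2 * d * y₃) := by
  intro K v z₁ z₂ z₃ hK p1 q1 p2 q2 p3 q3 hm hv hvS h3v h2v
  obtain ⟨κ0, y3, y32, y21, y1, n5, near, S1, S2⟩ := H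
  have key : ∀ A B C : ℝ, ({A, B, C} : Multiset ℝ) = {z₁, z₂, z₃} → A + B + C = z₁ + z₂ + z₃ →
      0 ≤ C → C ≤ A → C ≤ B → C = mn z₁ z₂ z₃ →
      s₀ v {z₁, z₂, z₃} 0 0 ≤ 4 / 3 * (z₁ + z₂ + z₃) + (v + K) / 3 + 2 * d * y₃ := by
    intro A B C he hs hC hCA hCB hCm
    have hC3 : C ≤ y₃ := hCm ▸ (mn_le3 z₁ z₂ z₃).trans q3
    have hf : Far K v (z₁ + z₂ + z₃) A B C 0 := by
      refine ⟨by linarith, hv, hC, hCA, hCB, le_rfl, by linarith, by linarith, by linarith,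
        by linarith, by linarith, h3v⟩
    have := far3 R Rm hd hd8 (m := 0) (a := 0) (by rw [zero_add]; exact hf) le_rfl le_rfl h2v
    rw [he] at this
    have h2 : 2 * d * (C + 0 + 0) ≤ 2 * d * y₃ :=
      mul_le_mul_of_nonneg_left (by linarith) (by linarith)
    linarith
  rcases le_total z₁ z₂ with h12 | h12
  · rcases le_total z₁ z₃ with h13 | h13
    · exact key z₂ z₃ z₁ (cyc3 z₁ z₂ z₃).symm (by ring) p1 h12 h13
        (by rw [mn, min_eq_left (le_min h12 h13)])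
    · exact key z₁ z₂ z₃ rfl rfl p3 h13 (h13.trans h12)
        (by rw [mn, min_eq_right (h13.trans h12), min_eq_right h13])
  · rcases le_total z₂ z₃ with h23 | h23
    · exact key z₁ z₃ z₂ (sw2 z₁ z₃ z₂) (by ring) p2 h12 h23
        (by rw [mn, min_eq_left h23, min_eq_right h12])
    · exact key z₁ z₂ z₃ rfl rfl p3 (h23.trans h12) h23
        (by rw [mn, min_eq_right h23, min_eq_right (h23.trans h12)])

/-- very short lists -/
theorem shH_of (R : ExpRules (7 / 8 + d) r s) (S₀ : ExpS0 s s₀) : ShH s₀ := by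
  intro v z₁ z₂ z₃ hv h1 h2 h3 hs
  have := short_le R S₀ (w := 0) hv h1 h2 h3 le_rfl (by linarith)
  linarith

/-- **the flat claim of one list at its own family** `K ≥ v + n / 2`, near or far -/
theorem flat_own (R : ExpRules (7 / 8 + d) r s) (Rm : ExpRGFz (7 / 8 + d) r s s₀)
    (hd : 0 ≤ d) (hd8 : 8 * d ≤ 1)
    (hG : ∀ κ S y₁ y₂ y₃ : ℝ, NearDom κ S y₁ y₂ y₃ → NEF s₀ κ S y₁ y₂ y₃ (2 * d * y₃))
    {K v z₁ z₂ z₃ n : ℝ} (hK : 0 < K) (h3 : 0 ≤ z₃) (h32 : z₃ ≤ z₂) (h21 : z₂ ≤ z₁)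
    (hn : n = z₁ + z₂ + z₃) (hv : 0 ≤ v) (hz : 200 * z₁ ≤ 61 * K ∨ n + z₃ ≤ K)
    (h5 : 5 * n ≤ 4 * K) (hkv : v + n / 2 ≤ K) (h3v : 3 * v ≤ 2 * K)
    (h2v : 2 * v ≤ n + K) :
    s₀ v {z₁, z₂, z₃} 0 0 ≤ max (2 * n) (4 / 3 * n + (K + v) / 3) + 2 * d * z₃ := by
  rcases le_or_gt (n + z₃) K with hfar | hnear
  · have hf : Far K v n z₁ z₂ z₃ 0 := by
      refine ⟨by linarith, hv, h3, by linarith, h32, le_rfl, by linarith, by linarith,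
        by linarith, by linarith, by linarith, h3v⟩
    have := far3 R Rm hd hd8 (m := 0) (a := 0) (by rw [zero_add]; exact hf) le_rfl le_rfl h2v
    have h2 : 2 * d * (z₃ + 0 + 0) = 2 * d * z₃ := by ring
    have := le_max_right (2 * n) (4 / 3 * n + (K + v) / 3)
    linarith
  · obtain ⟨S, hS⟩ : ∃ S, S = max (v + n) (3 * n - K) := ⟨_, rfl⟩
    have hS1 : v + n ≤ S := hS ▸ le_max_left _ _
    have hS2 : 3 * n - K ≤ S := hS ▸ le_max_right _ _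
    have hz1 : 200 * z₁ ≤ 61 * K := hz.resolve_right (not_le.2 hnear)
    have hdom : NearDom K S z₁ z₂ z₃ := by
      refine ⟨hK, h3, h32, h21, hz1, by linarith, by linarith, by linarith, ?_⟩
      rcases max_cases (v + n) (3 * n - K) with ⟨h, -⟩ | ⟨h, -⟩ <;> rw [hS, h] <;> linarith
    have hF0 : 0 ≤ 2 * d * z₃ := by positivity
    have h := near_fin hK hF0 (by linarith [hdom.S2]) hdom.S1 hdom.n5
      (farH_of R Rm hd hd8 hdom)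
      (shH_of R Rm.toExpS0) (hG _ _ _ _ _ hdom) (h3.trans (h32.trans h21)) le_rfl (h3.trans h32)
      le_rfl h3 le_rfl hv (by linarith) h3v (by linarith) (by linarith)
    rw [← hn] at h
    have h3 : flK K v n ≤ max (2 * n) (4 / 3 * n + (K + v) / 3) := by
      unfold flK
      rcases max_cases 0 ((v + K - 2 * n) / 3) with ⟨h, -⟩ | ⟨h, -⟩ <;> rw [h]
      · rw [add_zero]
        exact le_max_left _ _
      · exact (le_of_eq (by ring)).trans (le_max_right _ _)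
    linarith

/-- **the near part of the flat claims** -/
theorem nearL_of_ne (R : ExpRules (7 / 8 + d) r s) (Rm : ExpRGFz (7 / 8 + d) r s s₀)
    (hd : 0 ≤ d) (hd8 : 8 * d ≤ 1) {D5 : Set (Fin 5 → ℝ)} (h5 : ∀ b ∈ D5, R5 b)
    (h5s : ∀ b ∈ D5, R5s b)
    (h7 : ∀ b ∈ D5, 200 * max (b 1) (max (b 2) (b 3)) ≤ 61 * K5 b) {ℓ : (Fin 5 → ℝ) → ℝ}
    (hℓ : ∀ b ∈ D5, 2 * d * ((b 1 + b 2 + b 3) / 3) ≤ ℓ b)
    (hG : ∀ κ S y₁ y₂ y₃ : ℝ, NearDom κ S y₁ y₂ y₃ → NEF s₀ κ S y₁ y₂ y₃ (2 * d * y₃)) :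
    NearL s₀ D5 ℓ := by
  intro b hb v z₁ z₂ z₃ n hv h3 h32 h21 hn h1m hnN hnear hlev
  obtain ⟨k0, y1, y2, y3, x0, hN', x1, adm⟩ := h5 b hb
  have h7' := h7 b hb
  have hℓ' := hℓ b hb
  have hs := h5s b hb
  have hk1 : b 0 ≤ K5 b := le_max_left _ _
  have hk2 : 5 / 4 * (b 1 + b 2 + b 3) ≤ K5 b := le_max_right _ _
  have m1 := min_le_left (2 * (b 1 + b 2 + b 3) - b 0) (3 / 4 * (b 1 + b 2 + b 3))
  have m2 := min_le_right (2 * (b 1 + b 2 + b 3) - b 0) (3 / 4 * (b 1 + b 2 + b 3))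
  have hvn : 12 * (v + n) ≤ 17 * K5 b := by
    unfold T5 at hlev
    rcases hs with h | h
    · linarith
    · linarith
  obtain ⟨κ, hκd⟩ : ∃ κ, κ = max (K5 b) (v + n / 2) := ⟨_, rfl⟩
  have hκ1 : K5 b ≤ κ := hκd ▸ le_max_left _ _
  have hκ2 : v + n / 2 ≤ κ := hκd ▸ le_max_right _ _
  have h := flat_own R Rm hd hd8 hG (K := κ) (n := n) (by linarith) h3 h32 h21 hn hv
    (Or.inl (by linarith)) (by linarith) hκ2 (by linarith) (by linarith)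
  rw [← hκd]
  have h2 : 2 * d * z₃ ≤ 2 * d * ((b 1 + b 2 + b 3) / 3) :=
    mul_le_mul_of_nonneg_left (by linarith) (by linarith)
  linarith

/-- **the flat claims** -/
theorem fe2L_of_ne (R : ExpRules (7 / 8 + d) r s) (Rm : ExpRGFz (7 / 8 + d) r s s₀)
    (hd : 0 ≤ d) (hd8 : 8 * d ≤ 1) {D5 : Set (Fin 5 → ℝ)} (h5 : ∀ b ∈ D5, R5 b)
    (h5s : ∀ b ∈ D5, R5s b)
    (h7 : ∀ b ∈ D5, 200 * max (b 1) (max (b 2) (b 3)) ≤ 61 * K5 b) {ℓ : (Fin 5 → ℝ) → ℝ}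
    (hℓ : ∀ b ∈ D5, 2 * d * ((b 1 + b 2 + b 3) / 3 + b 4) ≤ ℓ b)
    (hG : ∀ κ S y₁ y₂ y₃ : ℝ, NearDom κ S y₁ y₂ y₃ → NEF s₀ κ S y₁ y₂ y₃ (2 * d * y₃)) :
    FE2L s₀ D5 ℓ := by
  refine FE2L_of_near R Rm hd hd8 h5 h5s hℓ (nearL_of_ne R Rm hd hd8 h5 h5s h7 ?_ hG)
  intro b hb
  refine le_trans ?_ (hℓ b hb)
  exact mul_le_mul_of_nonneg_left (by linarith [(h5 b hb).x0]) (by linarith)

end Crest.Agent.R017.NE73
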