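import Crest.Agent.R017.RGB6_545
import Crest.Agent.R017.NEj_73
import Crest.Agent.R017.NEx_911

/-!
# Row 17, R8 / P1X: the flat claims of the near-equal triple, exceptional class (helper911), the
finite text

* `NeFinX`, `ne_of_finx` : the field `ExpNEx` at one `(K, v, d₀)` from the finite theorem
* `expNEx_of_fin`        : the field
-/

set_option autoImplicit false

noncomputable section

open Set Filter Topology

namespace Crest.Agent.R017.NEx911

open Crest.Agent.R012 Crest.Agent.R012.Eis Crest.Agent.R012.LS2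
open Crest.Agent.R017.XG702 (Pcs BG)
open Crest.Agent.R017.B770
open Crest.Agent.R017.Prov71
open Crest.Agent.R017.XP699
open Crest.Agent.R017.ER911 (Ok Sh EF)
open Crest.Agent.R017.RuleM545
open Crest.Agent.R017.RGB545
open Crest.Agent.R017.NE73
open Crest.Agent.R017.SC777 (ok3)

variable {Lam ι : Type*} {p : ℕ}

/-- exponents, `x = (k, n, l, n')`, `θ = ((n₁, v₁), ..)`; on the side of the replaced list
(`true`) the premises `p0`, `ps`, `pt` are slope forms without loss -/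
def FnX (L : ι → Line Lam p) (K v c : ℝ) (b : Bool) :
    NI ι → (Fin 4 → ℝ) → Th 2 K × Th p K → ℝ
  | .p0, x, _ => (if b = true then 4 / 3 * x 3 + (x 2 + K) / 3 else Ar K ![x 2, x 3] + c / 3) -
      Ar K ![x 0, x 1]
  | .ps, x, _ => (if b = true then 4 / 3 * x 3 + (x 2 + K) / 3 else
      4 / 3 * x 3 + (x 2 + K) / 3 + max 0 ((4 * x 3 - 3 * K) / 9)) - Ar K ![x 0, x 1]
  | .pt, x, _ => 4 / 3 * x 3 + (x 2 + K) / 3 - Ar K ![x 0, x 1]
  | .pj, x, _ => 4 / 3 * x 3 + (x 2 + K) / 3 +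
      max 0 ((x 1 - x 3) - ((x 1 - x 3) - (x 2 - v)) / 3 - gN K c (x 1)) - Ar K ![x 0, x 1]
  | .q j, x, θ => Ar K ![θ.1.1 1, θ.1.1 0] +
      (L j).F ![K, θ.1.1 1, θ.1.1 0, x 2, x 3] θ.2.1 - Ar K ![x 0, x 1]

/-- conditions on the parent `(k, n)` : the ones of class N, `n + d₀ ≤ K`,
`(v + n - K) / 3 + g + 30 c ≤ d₀`, `(v + n - K) / 3 + e₁ K ≤ d₀` -/
def HnX (K v c e₁ d₀ : ℝ) (x : Fin 2 → ℝ) : ℝ :=
  max (Hn K v c x) (max ((v + x 1 - K) / 3 + gN K c (x 1) + 30 * c - d₀)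
    (max ((v + x 1 - K) / 3 + e₁ * K - d₀) (x 1 + d₀ - K)))

/-- **the near-equal recursion, class E, finite text**: premises for the sub-lists of the list
(`false`) and of the replaced list `rp (d₀ log X)` (`true`, slope form without loss); parent with
three lumps, the first two `≥ d₀ + 2 c` -/
def NeFinX (S₀ : Lam → ℝ → List Pq → ℝ) (L : ι → Line Lam p) (ε₀ K v c e₁ d₀ : ℝ) : Prop :=
  HRcG Dq hcost S₀ (fun j : Bool × NI ι => Phn S₀ L j.2) (fun j => bn L K j.2)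
    (fun j => rbx d₀ j.1)
    (fun j => Gn L K v c j.2) (fun j => FnX L K v c j.1 j.2)
    (HpX (HnX K v c e₁ d₀) ε₀ (d₀ + 2 * c)) (Ar K) (fun j => zn L j.2) (TK K)

lemma continuous_HnX (K v c e₁ d₀ : ℝ) : Continuous (HnX K v c e₁ d₀) := by
  have h1 := continuous_Hn K v c
  have h2 := continuous_gN K c
  unfold HnX
  refine Continuous.max h1 (Continuous.max ?_ (Continuous.max (by fun_prop) (by fun_prop)))
  exact ((((by fun_prop : Continuous fun x : Fin 2 → ℝ => (v + x 1 - K) / 3).add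
    (h2.comp (by fun_prop : Continuous fun x : Fin 2 → ℝ => x 1))).add continuous_const).sub
    continuous_const)

set_option maxHeartbeats 1600000 in
/-- **the field at one `(K, v, d₀)`** -/
theorem ne_of_finx [Finite ι] {S₀ : Lam → ℝ → List Pq → ℝ} {L : ι → Line Lam p}
    (hL : ∀ j, (L j).OK) (hS : FunOK S₀)
    (hSm : ∀ lam l l' ps, l ≤ l' → S₀ lam l ps ≤ S₀ lam l' ps) {ε₀ K v c e₁ d₀ : ℝ}
    (hε₀ : 0 < ε₀) (hc : 0 < c) (hfin : NeFinX S₀ L ε₀ K v c e₁ d₀) {z₁ z₂ z₃ n g F F₃ : ℝ}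
    (h1 : 0 ≤ z₁) (h2 : 0 ≤ z₂) (h3 : 0 ≤ z₃) (hn : n = z₁ + z₂ + z₃)
    (hN : NumNE c K v n g F F₃) (hd : 0 ≤ d₀) (hd1 : d₀ + 2 * c ≤ z₁) (hd2 : d₀ + 2 * c ≤ z₂)
    (hdK : n + d₀ ≤ K) (hb1 : (v + n - K) / 3 + g + 30 * c ≤ d₀)
    (hb2 : (v + n - K) / 3 + e₁ * K ≤ d₀)
    (hP : PremNE c (c / 3) g F₃ (ex Dq S₀) (QG L) K v n F {z₁, z₂, z₃})
    (hP' : PremR c g (ex Dq S₀) (QG L) K v n F {z₁ + z₂ - d₀, d₀, z₃}) {v' : ℝ}
    (hv0 : 0 ≤ v') (hv1 : v' ≤ v) :
    ex Dq S₀ v' {z₁, z₂, z₃} 0 0 ≤ 2 * n + F + max 0 ((v' + K - 2 * n) / 3) := by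
  obtain ⟨K0, cK, nK, Kn, hg, top, sn, vg, F0, F30, F3⟩ := hN
  have hgN : gN K c n = g := by rw [hg]; rfl
  have hn0 : 0 ≤ n := by linarith
  have hmx : 0 ≤ max 0 ((v' + K - 2 * n) / 3) := le_max_left _ _
  have hcA := continuous_Ar K
  have hcg := continuous_gN K c
  have hP0 : ∀ (b : Bool) (Y' : Multiset ℝ) (n' w : ℝ), Sh Y' (Yx d₀ z₁ z₂ z₃ b) → n' = Y'.sum →
      n - n' ≤ g + c → 0 ≤ w → w ≤ v + (n - n') → ex Dq S₀ w Y' 0 0 ≤
        (if b = true then 4 / 3 * n' + (w + K) / 3 else flK K w n' + c / 3) + F := by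
    rintro (_ | _) Y' n' w a1 a2 a3 a4 a5
    · exact hP.p0 Y' n' w a1 a2 a3 a4 a5
    · exact hP'.pS0 Y' n' w a1 a2 a3 a4 a5
  have hPV : ∀ (b : Bool) (Y' : Multiset ℝ) (n' w : ℝ), Sh Y' (Yx d₀ z₁ z₂ z₃ b) → n' = Y'.sum →
      n - n' ≤ g + c → 0 ≤ w → w ≤ v + (n - n') → ex Dq S₀ w Y' 0 0 ≤
        (if b = true then 4 / 3 * n' + (w + K) / 3 else
          4 / 3 * n' + (w + K) / 3 + max 0 ((4 * n' - 3 * K) / 9)) + F := by
    rintro (_ | _) Y' n' w a1 a2 a3 a4 a5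
    · exact hP.pV Y' n' w a1 a2 a3 a4 a5
    · exact hP'.pS0 Y' n' w a1 a2 a3 a4 a5
  have hPT : ∀ (b : Bool) (Y' : Multiset ℝ) (n' w : ℝ), Sh Y' (Yx d₀ z₁ z₂ z₃ b) → n' = Y'.sum →
      g ≤ n - n' → n - n' ≤ g + c → 0 ≤ w → w ≤ v + (n - n') →
      ex Dq S₀ w Y' 0 0 ≤ 4 / 3 * n' + (w + K) / 3 + F := by
    rintro (_ | _) Y' n' w a1 a2 a3 a4 a5 a6
    · exact hP.pT Y' n' w a1 a2 a3 a4 a5 a6
    · exact hP'.pS0 Y' n' w a1 a2 a4 a5 a6
  have hPJ : ∀ (b : Bool) (Y' : Multiset ℝ) (n' v' w u : ℝ), Sh Y' (Yx d₀ z₁ z₂ z₃ b) →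
      n' = Y'.sum → g ≤ n - n' → 0 ≤ v' → 0 ≤ w → 3 * w = (n - n') - (v' - v) →
      u = (n - n') - w - g →
      ex Dq S₀ v' Y' 0 0 ≤ 4 / 3 * n' + (v' + K) / 3 + max 0 u + F := by
    rintro (_ | _) Y' n' v' w u a1 a2 a3 a4 a5 a6 a7
    · exact hP.pJ Y' n' v' w u a1 a2 a3 a4 a5 a6 a7
    · exact hP'.pJ Y' n' v' w u a1 a2 a3 a4 a5 a6 a7
  have hPR : ∀ (b : Bool) (Y' : Multiset ℝ) (n' w : ℝ), Sh Y' (Yx d₀ z₁ z₂ z₃ b) → n' = Y'.sum →
      n - n' ≤ g + c → 0 ≤ w → w ≤ v + (n - n') → QG L K w Y' 0 0 (flK K w n' + F) := by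
    rintro (_ | _) Y' n' w a1 a2 a3 a4 a5
    · exact hP.pR Y' n' w a1 a2 a3 a4 a5
    · exact hP'.pR Y' n' w a1 a2 a3 a4 a5
  have hYn : ∀ b, (Yx d₀ z₁ z₂ z₃ b).sum = n := fun b => by rw [Yx_sum, hn]
  have hok : ∀ b, Ok (Yx d₀ z₁ z₂ z₃ b) 0 0 := by
    rintro (_ | _)
    · exact ok3 h1 h2 h3 le_rfl le_rfl
    · exact ok3 (by linarith) hd h3 le_rfl le_rfl
  have hsumu : (∑ i, (![z₁, z₂, z₃] : Fin 3 → ℝ) i) = z₁ + z₂ + z₃ := by
    rw [Fin.sum_univ_three]; rfl
  have c0 : Continuous fun x : (Fin 4 → ℝ) × (Th 2 K × Th p K) => x.2.1.1 0 :=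
    (continuous_apply 0).comp (continuous_subtype_val.comp (continuous_fst.comp continuous_snd))
  have c1 : Continuous fun x : (Fin 4 → ℝ) × (Th 2 K × Th p K) => x.2.1.1 1 :=
    (continuous_apply 1).comp (continuous_subtype_val.comp (continuous_fst.comp continuous_snd))
  have cg : Continuous fun x : (Fin 4 → ℝ) × (Th 2 K × Th p K) => gN K c (x.1 1) :=
    hcg.comp (by fun_prop)
  have key := ruleBGg (Θ := Th 2 K × Th p K) (D := Dq) (cost := hcost) (Ψ := S₀)
    (Φ := fun j : Bool × NI ι => Phn S₀ L j.2) (bθ := fun j => bn L K j.2)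
    (rb := fun j => rbx d₀ j.1) (u := ![z₁, z₂, z₃]) (ub := fun j => ubx d₀ z₁ z₂ z₃ j.1)
    (m := 0) (a := 0) (E := 2 * n + F + max 0 ((v' + K - 2 * n) / 3)) (κ := v') ?_ ?_ one_le_hcost
    (fun q => by
      show 1 ≤ 1 + |q.t|
      linarith [abs_nonneg q.t]) ?_ ?_ ?_ hSm hfin ?_ hv0 ?_ ?_ le_rfl le_rfl ?_
    (parOK_HpX ?_ hε₀ ?_ hd1 hd2) ?_ ?_
  · have := ex_le hS.perm (by linarith) key
    rwa [RGB545.ofFn3] at this
  · rintro ⟨b, _ | _ | _ | _ | j⟩
    · exact continuous_const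
    · exact continuous_const
    · exact continuous_const
    · exact continuous_const
    · exact (hL j).cb.comp (continuous_subtype_val.comp continuous_snd)
  · rintro ⟨b, _ | _ | _ | _ | j⟩ θ
    · exact le_rfl
    · exact le_rfl
    · exact le_rfl
    · exact le_rfl
    · exact (hL j).b0 _ θ.2.2.1
  · rintro ⟨b, _ | _ | _ | _ | j⟩
    · exact Continuous.max (((by fun_prop : Continuous fun x : (Fin 4 → ℝ) × (Th 2 K × Th p K) =>
        x.1 1 - x.1 3).sub cg).sub (by fun_prop)) (by fun_prop)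
    · exact Continuous.max (((by fun_prop : Continuous fun x : (Fin 4 → ℝ) × (Th 2 K × Th p K) =>
        x.1 1 - x.1 3).sub cg).sub (by fun_prop)) (by fun_prop)
    · exact Continuous.max (cg.sub (by fun_prop)) (Continuous.max
        (((by fun_prop : Continuous fun x : (Fin 4 → ℝ) × (Th 2 K × Th p K) =>
        x.1 1 - x.1 3).sub cg).sub (by fun_prop)) (by fun_prop))
    · exact Continuous.max (cg.sub (by fun_prop)) (by fun_prop)
    · refine Continuous.max (Continuous.max (c0.sub (by fun_prop)) (Continuous.sub (by fun_prop) c0))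
        (Continuous.max (Continuous.max ((((by fun_prop : Continuous fun x : (Fin 4 → ℝ) ×
          (Th 2 K × Th p K) => x.1 1).sub c0).sub cg).sub
          (by fun_prop)) (Continuous.sub (c1.sub (by fun_prop))
            (Continuous.sub (by fun_prop) c0))) ?_)
      exact (hL j).cG.comp ((cont5 continuous_const c1 c0 (by fun_prop)
        (by fun_prop)).prodMk (continuous_subtype_val.comp (continuous_snd.comp continuous_snd)))
  · have hA2 : Continuous fun x : (Fin 4 → ℝ) × (Th 2 K × Th p K) => Ar K ![x.1 0, x.1 1] :=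
      hcA.comp (cont2 (by fun_prop) (by fun_prop))
    have hA3 : Continuous fun x : (Fin 4 → ℝ) × (Th 2 K × Th p K) => Ar K ![x.1 2, x.1 3] :=
      hcA.comp (cont2 (by fun_prop) (by fun_prop))
    have hA4 : Continuous fun x : (Fin 4 → ℝ) × (Th 2 K × Th p K) =>
      Ar K ![x.2.1.1 1, x.2.1.1 0] := hcA.comp (cont2 c1 c0)
    have hSl : Continuous fun x : (Fin 4 → ℝ) × (Th 2 K × Th p K) =>
      4 / 3 * x.1 3 + (x.1 2 + K) / 3 := by fun_prop
    rintro ⟨b, _ | _ | _ | _ | j⟩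
    · cases b with
      | false => exact (hA3.add continuous_const).sub hA2
      | true => exact hSl.sub hA2
    · cases b with
      | false =>
        refine Continuous.sub (Continuous.add (by fun_prop) ?_) hA2
        exact Continuous.max continuous_const (by fun_prop)
      | true => exact hSl.sub hA2
    · exact Continuous.sub (by fun_prop) hA2
    · refine Continuous.sub (Continuous.add (by fun_prop) ?_) hA2
      exact Continuous.max continuous_const (Continuous.sub (by fun_prop) cg)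
    · refine Continuous.sub (Continuous.add hA4 ?_) hA2
      exact (hL j).cF.comp ((cont5 continuous_const c1 c0 (by fun_prop)
        (by fun_prop)).prodMk (continuous_subtype_val.comp (continuous_snd.comp continuous_snd)))
  · exact hcA
  · rintro ⟨b, _ | _ | _ | _ | j⟩
    · exact hS.triv2
    · exact hS.triv2
    · exact hS.triv2
    · exact hS.triv2
    · exact (hL j).tr
  · intro i
    fin_cases i
    · exact h1
    · exact h2
    · exact h3
  · intro j i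
    have := (hok j.1).1
    rw [← ofFn_ubx] at this
    exact this _ (Multiset.mem_coe.2 ((List.mem_ofFn' _ _).2 ⟨i, rfl⟩))
  · intro j
    show BaseG Dq (rbx d₀ j.1) ![z₁, z₂, z₃] (ubx d₀ z₁ z₂ z₃ j.1)
    cases j.1 with
    | false => exact baseG_id _
    | true => exact baseG_rp hd (Or.inl (by linarith))
  · exact continuous_HnX K v c e₁ d₀
  · rw [hsumu]
    have e : (wt (0 : ℝ) 0) Kd.mo + (wt (0 : ℝ) 0) Kd.am = 0 := by
      show (0 : ℝ) + 0 = 0
      ring
    rw [e, add_zero, ← hn]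
    show max (max (max (v' - v) (max (2 * n + 100 * c - K - v) (5 * (v + n) + 100 * c - 7 * K)))
      (max (max (5 * n - 4 * K) (3 * K - 4 * n)) (3 * (v + gN K c n) + 100 * c - 2 * K)))
      (max ((v + n - K) / 3 + gN K c n + 30 * c - d₀)
      (max ((v + n - K) / 3 + e₁ * K - d₀) (n + d₀ - K))) ≤ 0
    rw [hgN]
    exact max_le (max_le (max_le (by linarith) (max_le (by linarith) (by linarith)))
      (max_le (max_le (by linarith) (by linarith)) (by linarith)))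
      (max_le (by linarith) (max_le (by linarith) (by linarith)))
  · rw [hsumu]
    have e : z₁ + z₂ + z₃ + 0 + 0 = n := by rw [hn]; ring
    rw [e]
    show 2 * n + max 0 ((v' + K - 2 * n) / 3) ≤ _
    linarith
  · rintro ⟨b, j⟩ θ u' m' a' l h0 h1' hm0 hm1 ha0 ha1 hl hlc hG hz
    have hsh := sh_of_ubx h0 h1'
    have hsu : (∑ i, u' i) = (List.ofFn u').sum := by rw [List.sum_ofFn]
    have hsb : (∑ i, ubx d₀ z₁ z₂ z₃ b i) + 0 + 0 = n := by rw [ubx_sum, hn]; ring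
    obtain rfl : m' = 0 := le_antisymm hm1 hm0
    obtain rfl : a' = 0 := le_antisymm ha1 ha0
    rw [hsu] at hG ⊢
    have e4 : ((b, j) : Bool × NI ι).1 = b := rfl
    rw [e4] at hG hsh ⊢
    rw [hsb] at hG ⊢
    have hzy : zn L j → ∀ y ∈ List.ofFn u', y ≤ l := fun hzj y hy' => by
      obtain ⟨i, rfl⟩ := (List.mem_ofFn' _ _).1 hy'
      exact hz hzj i
    obtain ⟨U, hU⟩ : ∃ U : List ℝ, U = List.ofFn u' := ⟨_, rfl⟩
    rw [← hU] at hG hsh hzy ⊢
    clear hz
    have p0 := hP0 b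
    have pV := hPV b
    have pT := hPT b
    have pJ := hPJ b
    have pR := hPR b
    have hUs : U.sum + 0 + 0 = (U : Multiset ℝ).sum := by rw [Multiset.sum_coe]; ring
    rcases j with _ | _ | _ | _ | j
    · have hG' : max (n - (U.sum + 0 + 0) - gN K c n - c)
        (l - v - (n - (U.sum + 0 + 0))) ≤ 0 := hG
      rw [hgN] at hG'
      have g1 := (le_max_left _ _).trans hG'
      have g3 := (le_max_right _ _).trans hG'
      refine hS.bg2 hl ⟨hsh.nn, hm0, ha0⟩ ?_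
      have h := p0 (U : Multiset ℝ) (U.sum + 0 + 0) l hsh hUs (by linarith) hl (by linarith)
      refine h.trans (le_of_eq ?_)
      show (if b = true then 4 / 3 * (U.sum + 0 + 0) + (l + K) / 3 else
          flK K l (U.sum + 0 + 0) + c / 3) + F =
        2 * n + F + max 0 ((v' + K - 2 * n) / 3) +
          ((if b = true then 4 / 3 * (U.sum + 0 + 0) + (l + K) / 3 else
            flK K l (U.sum + 0 + 0) + c / 3) - (2 * n + max 0 ((v' + K - 2 * n) / 3)))
      ring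
    · have hG' : max (n - (U.sum + 0 + 0) - gN K c n - c)
        (l - v - (n - (U.sum + 0 + 0))) ≤ 0 := hG
      rw [hgN] at hG'
      have g1 := (le_max_left _ _).trans hG'
      have g3 := (le_max_right _ _).trans hG'
      refine hS.bg2 hl ⟨hsh.nn, hm0, ha0⟩ ?_
      have h := pV (U : Multiset ℝ) (U.sum + 0 + 0) l hsh hUs (by linarith) hl (by linarith)
      refine h.trans (le_of_eq ?_)
      show _ = 2 * n + F + max 0 ((v' + K - 2 * n) / 3) +
        ((if b = true then 4 / 3 * (U.sum + 0 + 0) + (l + K) / 3 else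
          4 / 3 * (U.sum + 0 + 0) + (l + K) / 3 + max 0 ((4 * (U.sum + 0 + 0) - 3 * K) / 9)) -
          (2 * n + max 0 ((v' + K - 2 * n) / 3)))
      ring
    · have hG' : max (gN K c n - (n - (U.sum + 0 + 0))) (max (n - (U.sum + 0 + 0) - gN K c n - c)
        (l - v - (n - (U.sum + 0 + 0)))) ≤ 0 := hG
      rw [hgN] at hG'
      have g1 := (le_max_left _ _).trans hG'
      have g2 := (le_max_left _ _).trans ((le_max_right _ _).trans hG')
      have g3 := (le_max_right _ _).trans ((le_max_right _ _).trans hG')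
      refine hS.bg2 hl ⟨hsh.nn, hm0, ha0⟩ ?_
      have h := pT (U : Multiset ℝ) (U.sum + 0 + 0) l hsh hUs (by linarith) (by linarith) hl
        (by linarith)
      refine h.trans (le_of_eq ?_)
      show _ = 2 * n + F + max 0 ((v' + K - 2 * n) / 3) +
        (4 / 3 * (U.sum + 0 + 0) + (l + K) / 3 -
          (2 * n + max 0 ((v' + K - 2 * n) / 3)))
      ring
    · have hG' : max (gN K c n - (n - (U.sum + 0 + 0)))
        (l - v - (n - (U.sum + 0 + 0))) ≤ 0 := hG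
      rw [hgN] at hG'
      have g1 := (le_max_left _ _).trans hG'
      have g3 := (le_max_right _ _).trans hG'
      refine hS.bg2 hl ⟨hsh.nn, hm0, ha0⟩ ?_
      have h := pJ (U : Multiset ℝ) (U.sum + 0 + 0) l
        (((n - (U.sum + 0 + 0)) - (l - v)) / 3) _ hsh hUs (by linarith) hl (by linarith)
        (by ring) rfl
      refine h.trans (le_of_eq ?_)
      show _ = 2 * n + F + max 0 ((v' + K - 2 * n) / 3) + (4 / 3 * (U.sum + 0 + 0) +
        (l + K) / 3 + max 0 ((n - (U.sum + 0 + 0)) - ((n - (U.sum + 0 + 0)) - (l - v)) / 3 -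
          gN K c n) - (2 * n + max 0 ((v' + K - 2 * n) / 3)))
      rw [hgN]
      ring
    · obtain ⟨n₁, hn₁⟩ : ∃ x, x = θ.1.1 0 := ⟨_, rfl⟩
      obtain ⟨v₁, hv₁⟩ : ∃ x, x = θ.1.1 1 := ⟨_, rfl⟩
      have hv₁0 : 0 ≤ v₁ := hv₁ ▸ θ.1.2.1 1
      have hG' : max (max (θ.1.1 0 - n) ((U.sum + 0 + 0) - θ.1.1 0))
        (max (max (n - θ.1.1 0 - gN K c n - c) (θ.1.1 1 - v - (n - θ.1.1 0)))
        ((L j).G ![K, θ.1.1 1, θ.1.1 0, l, U.sum + 0 + 0] θ.2.1)) ≤ 0 := hG
      rw [← hn₁, ← hv₁, hgN] at hG'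
      have g1 := (le_max_left _ _).trans ((le_max_left _ _).trans hG')
      have g2 := (le_max_right _ _).trans ((le_max_left _ _).trans hG')
      have g3 := (le_max_left _ _).trans ((le_max_left _ _).trans ((le_max_right _ _).trans hG'))
      have g4 := (le_max_right _ _).trans ((le_max_left _ _).trans ((le_max_right _ _).trans hG'))
      have g5 := (le_max_right _ _).trans ((le_max_right _ _).trans hG')
      obtain ⟨Z, m₁, a₁, z1, z2, z3, z4, z5, z6, z7⟩ := mid hsh hm1 ha1 (x := n₁)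
        (by rw [Multiset.sum_coe]; linarith) (by rw [hYn]; linarith)
      obtain rfl : m₁ = 0 := le_antisymm z4 z3
      obtain rfl : a₁ = 0 := le_antisymm z6 z5
      have hq := (pR Z n₁ v₁ z2 (by rw [z7]; ring) (by linarith) hv₁0
        (by linarith)).2 j θ.2 U 0 0 l z1 le_rfl le_rfl le_rfl le_rfl hl hlc
        (by rw [← z7]; exact g5) hzy
      rw [← z7] at hq
      show BG2 Dq (L j).Φ l ((L j).b θ.2.1) U (wt 0 0) (2 * n + F + max 0 ((v' + K - 2 * n) / 3) +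
        (flK K (θ.1.1 1) (θ.1.1 0) +
          (L j).F ![K, θ.1.1 1, θ.1.1 0, l, U.sum + 0 + 0] θ.2.1 -
          (2 * n + max 0 ((v' + K - 2 * n) / 3))))
      rw [← hn₁, ← hv₁]
      refine hq.mono (le_of_eq ?_)
      ring

/-- **the field of near-equal lists, class E**, from the finite theorem at every `(K, v, d₀)` -/
theorem expNEx_of_fin [Finite ι] {S₀ : Lam → ℝ → List Pq → ℝ} {L : ι → Line Lam p}
    (hL : ∀ j, (L j).OK) (hS : FunOK S₀)
    (hSm : ∀ lam l l' ps, l ≤ l' → S₀ lam l ps ≤ S₀ lam l' ps) {c e₁ : ℝ} (hc : 0 < c)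
    (hfin : ∀ K v d₀ : ℝ, 1000000 * c ≤ K → 0 ≤ v → 3 * v + 100 * c ≤ 2 * K → 0 ≤ d₀ →
      4 * d₀ ≤ K → ∃ ε₀ : ℝ, 0 < ε₀ ∧ NeFinX S₀ L ε₀ K v c e₁ d₀) :
    ExpNEx c e₁ (ex Dq S₀) (QG L) where
  nex := by
    intro K v z₁ z₂ z₃ n g F F₃ d₀ h1 h2 h3 hn hN hd hd1 hd2 hdK hb1 hb2 hP hP' v' hv0 hv1
    obtain ⟨ε₀, hε₀, hf⟩ := hfin K v d₀ hN.cK (hv0.trans hv1) (by
      have := hN.vg
      have := hN.hg
      have := hN.Kn
      linarith) hd (by
      have := hN.Kn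
      linarith)
    exact ne_of_finx hL hS hSm hε₀ hc hf h1 h2 h3 hn hN hd hd1 hd2 hdK hb1 hb2 hP hP' hv0 hv1

end Crest.Agent.R017.NEx911
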