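import Crest.Agent.R017.RGl_64

/-!
# Row 17, C.REMg (RG), glue (helper64), part m: the recursion from the premises (class N)

* `rg_core` : the recursion from the premises (T0), (T'), (J) and the R-side hypotheses
-/

set_option autoImplicit false

noncomputable section

open Complex
open scoped ComplexConjugate

namespace Crest.Agent.R017.RG64

open Crest.Agent.R012 Crest.Agent.R012.Eis Crest.Agent.R012.LS2 Crest.Agent.R012.Gauss880
open Crest.Agent.R012.MC (Wgt)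
open Crest.Agent.R017.CM106 Crest.Agent.R017.HP842 Crest.Agent.R017.FE47
open Crest.Agent.R017.End699 hiding pw
open Crest.Agent.R017.B770
open Crest.Agent.R017.Prov71
open Crest.Agent.R017.Leg381
open Crest.Agent.R017.LBo813 (rho rho_one rho_zero rho_anti)
open Crest.Agent.R017.XP699 (LL Chd hcost cst)

lemma ClN.mono {D : Dat} {E : ℝ → ℝ → ℝ} {B s a Q lo σ s' a' Q' : ℝ}
    (h : ClN D E B s a Q lo σ) (hs : s' ≤ s) (ha : a' ≤ a) (hQ : Q' ≤ Q) :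
    ClN D E B s' a' Q' lo σ :=
  fun q ps k b1 b2 b3 b4 b5 b6 b7 b8 => h q ps k b1 (b2.trans hQ) b3 (b4.mono hs) b5 b6 b7
    (by linarith)

/-- the constants -/
lemma core_const {C₁ C₂ C₃ CR A H Bd F t1 t2 : ℝ} (hC₁ : 0 ≤ C₁) (hC₂ : 0 ≤ C₂) (hC₃ : 0 ≤ C₃)
    (hCR : 0 ≤ CR) (hA : 1 ≤ A) (hH : 1 ≤ H) (hBd : 0 ≤ Bd) (hF : 0 ≤ F)
    (h1 : t1 ≤ 1) (h2 : t2 ≤ 1) :
    C₁ * A * (C₂ * A * (1 + (t1 * (C₃ * A * (Bd * H)) + t2 * (Bd * H)) + CR * A * H * Bd) +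
      Bd * H + 1) * H * F ≤
    C₁ * (C₂ * (2 + C₃ + CR) + 2) * A ^ 3 * H ^ 2 * (1 + Bd) * F := by
  have hA0 : 0 ≤ A := by linarith
  have hH0 : 0 ≤ H := by linarith
  have hBH : 0 ≤ Bd * H := by positivity
  have hAA : A ≤ A ^ 2 := by nlinarith
  have hAH : 1 ≤ A * H := one_le_mul_of_one_le_of_one_le hA hH
  have k1 : t1 * (C₃ * A * (Bd * H)) ≤ C₃ * A * (Bd * H) :=
    mul_le_of_le_one_left (by positivity) h1
  have k2 : t2 * (Bd * H) ≤ A * (Bd * H) := by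
    calc t2 * (Bd * H) ≤ 1 * (Bd * H) := mul_le_mul_of_nonneg_right h2 hBH
      _ ≤ A * (Bd * H) := mul_le_mul_of_nonneg_right hA hBH
  have k3 : 1 + (t1 * (C₃ * A * (Bd * H)) + t2 * (Bd * H)) + CR * A * H * Bd ≤
      (2 + C₃ + CR) * (A * H * (1 + Bd)) := by
    have e1 : 1 ≤ A * H * (1 + Bd) := one_le_mul_of_one_le_of_one_le hAH (by linarith)
    have e2 : A * (Bd * H) ≤ A * H * (1 + Bd) := by nlinarith
    have e3 : C₃ * A * (Bd * H) ≤ C₃ * (A * H * (1 + Bd)) := by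
      calc C₃ * A * (Bd * H) = C₃ * (A * (Bd * H)) := by ring
        _ ≤ _ := mul_le_mul_of_nonneg_left e2 hC₃
    have e4 : CR * A * H * Bd ≤ CR * (A * H * (1 + Bd)) := by
      calc CR * A * H * Bd = CR * (A * (Bd * H)) := by ring
        _ ≤ _ := mul_le_mul_of_nonneg_left e2 hCR
    linarith
  have k4 : C₂ * A * (1 + (t1 * (C₃ * A * (Bd * H)) + t2 * (Bd * H)) + CR * A * H * Bd) +
      Bd * H + 1 ≤ (C₂ * (2 + C₃ + CR) + 2) * (A ^ 2 * H * (1 + Bd)) := by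
    have e1 : C₂ * A * (1 + (t1 * (C₃ * A * (Bd * H)) + t2 * (Bd * H)) + CR * A * H * Bd) ≤
        C₂ * A * ((2 + C₃ + CR) * (A * H * (1 + Bd))) :=
      mul_le_mul_of_nonneg_left k3 (by positivity)
    have e2 : Bd * H ≤ A ^ 2 * H * (1 + Bd) := by
      have : 1 ≤ A ^ 2 := by nlinarith
      calc Bd * H = 1 * (Bd * H) := (one_mul _).symm
        _ ≤ A ^ 2 * (Bd * H) := mul_le_mul_of_nonneg_right this hBH
        _ ≤ A ^ 2 * H * (1 + Bd) := by nlinarith [mul_nonneg (sq_nonneg A) hH0]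
    have e3 : 1 ≤ A ^ 2 * H * (1 + Bd) := by
      have : 1 ≤ A ^ 2 := by nlinarith
      exact one_le_mul_of_one_le_of_one_le (one_le_mul_of_one_le_of_one_le this hH) (by linarith)
    calc _ ≤ C₂ * A * ((2 + C₃ + CR) * (A * H * (1 + Bd))) + A ^ 2 * H * (1 + Bd) +
          A ^ 2 * H * (1 + Bd) := by linarith
      _ = _ := by ring
  calc _ ≤ C₁ * A * ((C₂ * (2 + C₃ + CR) + 2) * (A ^ 2 * H * (1 + Bd))) * H * F := by gcongr
    _ = _ := by ring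

set_option maxHeartbeats 6400000 in
/-- **the recursion from the premises** -/
theorem rg_core {h : ℝ → ℝ} {c₂ : ℝ} (hpu : PU h c₂) {w : ℝ → ℝ} (hab : Abs4 w)
    {Rh RR : ℝ → LBp → (Eis → ℂ) → ℝ → Prop} (hLB : ∀ Λ : ℝ, 1 ≤ Λ → LBN w Λ (Rh Λ))
    (hRR : ∀ (Λ : ℝ) (p : LBp) (α : Eis → ℂ) (Rn Rn' : ℝ), 1 ≤ Λ → 0 ≤ p.K → 0 ≤ p.X →
      1 ≤ p.E0 → p.X ^ 2 * p.E0 ^ 20 ≤ p.K * p.N₀ → RR Λ p α Rn → Rn ≤ Rn' → Rh Λ p α Rn')
    {K v c : ℝ} (hc : 0 < c) (hcK : 60 * c ≤ K) (hv3 : 3 * (v + 100 * c) ≤ 2 * K) (N : ℕ)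
    {ε M J₀ δ₀ : ℝ} (hε : 0 < ε) (hεc : ε ≤ c) (hε1 : ε ≤ 1) (hM : 0 ≤ M) (hJ₀ : 0 ≤ J₀)
    (hδ₀ : 0 < δ₀) :
    ∃ (δ : ℝ) (Jn Aw : ℕ) (Cw R η S : ℝ), 0 ≤ δ ∧ δ ≤ δ₀ ∧ J₀ ≤ Jn ∧ Jn + 2 ≤ Aw ∧ 0 ≤ Cw ∧
    0 ≤ R ∧ 0 < η ∧ η ≤ 1 / 2 ∧ 0 ≤ S ∧ ∀ CR Λ : ℝ, 0 ≤ CR → 1 ≤ Λ →
    ∃ C r J X₁ : ℝ, 0 ≤ C ∧ 0 ≤ r ∧ 0 ≤ J ∧ ∀ X : ℝ, 3 ≤ X → X₁ ≤ X → ∀ P : DPar, P.OK → ∀ (k : ℝ) (ps₀ : List Pq), ps₀.length ≤ N →
    (∀ q ∈ ps₀, 0 ≤ q.z) → ∀ e : ℝ, 0 ≤ e → e ≤ ε / 100 → RPar K v c e X k ps₀ →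
    ∀ Bd : ℝ, 0 ≤ Bd → TPrem P h K v c ε X r (C * X ^ (K + 1)) M Bd ps₀ →
    (∀ (q : Eis) (ps : List Pf) (Lv : ℝ) (N₀ N₁ : ℕ), RFacts K c (ε / 4) X ps₀ ps Lv N₀ N₁ →
      IsPrim q → (nm q : ℝ) ≤ X ^ (K + 1) → SbL S ps ps₀ →
      Lv ≤ (v + ε) * Real.log X + (LL Dq ps₀ - LF ps) →
      RR Λ ⟨Cw, η, Aw, X ^ K, Real.exp (LF ps), X ^ (8 * (K + 1)), R, Jn, N₀, N₁, X ^ c, X ^ c,
        X ^ c⟩
        (sqc q (alF (X ^ δ) (X ^ δ) P h ps))
        (CR * X ^ (ε / 4) * (Ht ps * Ht (natl ps₀)) ^ J₀ * Bd * Real.exp (2 * LF ps))) →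
    S0p P h k ps₀ ≤ C * X ^ ε * (ps₀.map Dq.s1).prod ^ J * (1 + Bd) *
      Real.exp (fl (K * Real.log X) k (LL Dq ps₀)) := by
  have hK : 0 < K := by linarith
  obtain ⟨R, Ca, hR, hCa, hAL⟩ := exists_ALp hpu N
  have hN0 : (0 : ℝ) ≤ N := Nat.cast_nonneg N
  -- the parameters
  obtain ⟨b, hb⟩ : ∃ b : ℝ, b = 8 * (K + 1) := ⟨_, rfl⟩
  have hb8 : 8 ≤ b := by rw [hb]; linarith
  have hb0 : 0 < b := by linarith
  obtain ⟨ε₁, hε₁d⟩ : ∃ x : ℝ, x = min (1 / 16) (ε / (100 * b)) := ⟨_, rfl⟩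
  have hε₁ : 0 < ε₁ := by rw [hε₁d]; exact lt_min (by norm_num) (by positivity)
  have hε₁16 : ε₁ ≤ 1 / 16 := by rw [hε₁d]; exact min_le_left _ _
  have hε₁b : ε₁ * (100 * b) ≤ ε := by
    have : ε₁ ≤ ε / (100 * b) := by rw [hε₁d]; exact min_le_right _ _
    rwa [le_div_iff₀ (by positivity)] at this
  obtain ⟨δ', hδ'd⟩ : ∃ x : ℝ, x = min (δ₀ / b) (min (ε₁ / (4 * (N + 1)))
    (c / ((3 * N + 1) * b))) := ⟨_, rfl⟩
  have hδ' : 0 < δ' := by
    rw [hδ'd]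
    exact lt_min (by positivity) (lt_min (by positivity) (by positivity))
  have hδ'1 : δ' * b ≤ δ₀ := by
    have : δ' ≤ δ₀ / b := by rw [hδ'd]; exact min_le_left _ _
    rwa [le_div_iff₀ hb0] at this
  have hδ'2 : δ' * (4 * (N + 1)) ≤ ε₁ := by
    have : δ' ≤ ε₁ / (4 * (N + 1)) := by
      rw [hδ'd]; exact (min_le_right _ _).trans (min_le_left _ _)
    rwa [le_div_iff₀ (by positivity)] at this
  have hδ'3 : δ' * ((3 * N + 1) * b) ≤ c := by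
    have : δ' ≤ c / ((3 * N + 1) * b) := by
      rw [hδ'd]; exact (min_le_right _ _).trans (min_le_right _ _)
    rwa [le_div_iff₀ (by positivity)] at this
  obtain ⟨m, hm⟩ : ∃ m : ℕ, 4 / δ' ≤ m := exists_nat_ge _
  have hm4 : 4 ≤ m * δ' := by rwa [div_le_iff₀ hδ'] at hm
  have hm0 : (0 : ℝ) ≤ m := Nat.cast_nonneg m
  obtain ⟨e₃, he₃d⟩ : ∃ x : ℝ, x = ε₁ / (8 * (m + 1)) := ⟨_, rfl⟩
  have he₃ : 0 < e₃ := by rw [he₃d]; positivity
  have he₃m : e₃ * (8 * (m + 1)) = ε₁ := by rw [he₃d]; field_simp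
  have he₃1 : 8 * e₃ ≤ ε₁ := by nlinarith [mul_nonneg he₃.le hm0]
  have he₃2 : 8 * (m * e₃) ≤ ε₁ := by nlinarith
  obtain ⟨ε₂, hε₂d⟩ : ∃ x : ℝ, x = ε₁ / (m + 1) := ⟨_, rfl⟩
  have hε₂ : 0 < ε₂ := by rw [hε₂d]; positivity
  have hε₂m : ε₂ * (m + 1) = ε₁ := by rw [hε₂d]; field_simp
  have hε₂1 : ε₂ ≤ ε₁ := by nlinarith [mul_nonneg hε₂.le hm0]
  have hε₂2 : m * ε₂ ≤ ε₁ := by nlinarith
  obtain ⟨J, hJd⟩ : ∃ x : ℝ, x = max M J₀ := ⟨_, rfl⟩
  have hMJ : M ≤ J := by rw [hJd]; exact le_max_left _ _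
  have hJ₀J : J₀ ≤ J := by rw [hJd]; exact le_max_right _ _
  have hJ : 0 ≤ J := hM.trans hMJ
  obtain ⟨Jn, hJnd⟩ : ∃ j : ℕ, (N : ℝ) * J + J ≤ j := exists_nat_ge _
  have hNJ : 0 ≤ (N : ℝ) * J := by positivity
  have hJn : (N : ℝ) * J ≤ Jn := by linarith
  have hJn2 : J₀ ≤ Jn := by linarith
  have hNδ : 4 * (N * δ') ≤ ε₁ := by nlinarith
  obtain ⟨Cw, η₀, C₁, S, X₁, hCw, hη₀, hη₀1, hC₁, hS, hrg⟩ :=
    rg_N hpu N hab (Aw := Jn + 2) hR hAL (c₁ := 4) (by norm_num) hδ' hε₁ hε₁16 he₃ hε₂ hJ hJn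
      le_rfl hm4 he₃2 hNδ
  obtain ⟨C₃, r₃, hC₃, hr₃, hop⟩ := open_num hpu N hε₂ hJ
  refine ⟨b * δ', Jn, Jn + 2, Cw, R, η₀, S, by positivity, by linarith, hJn2, le_rfl, hCw, hR,
    hη₀, hη₀1, hS, ?_⟩
  intro CR Λ hCR hΛ
  obtain ⟨C₂, r₂, X₂, hC₂, hr₂, hlb⟩ :=
    lb_list hpu N hΛ (hLB Λ hΛ) (Aw := Jn + 2) hR hAL hCw hη₀ (by linarith) hε₂ (e₀ := c / b)
      (by positivity) hJ hJn le_rfl
  have hlΛ : 0 ≤ Real.log Λ := Real.log_nonneg hΛ
  obtain ⟨T₀, hT₀⟩ : ∃ T : ℝ,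
    T = 4 + (N + 1) * (S + r₂ + r₃) + R + Real.log C₁ + Real.log Λ := ⟨_, rfl⟩
  have hlC₁ : 0 ≤ Real.log C₁ := Real.log_nonneg hC₁
  have hT₀0 : 0 ≤ (N + 1) * (S + r₂ + r₃) := by positivity
  refine ⟨max (C₁ * Real.exp (r₂ + N * r₃)) (C₁ * (C₂ * (2 + C₃ + CR) + 2)), S + r₂ + r₃, 2 * J,
    max (max X₁ X₂) (Real.exp (T₀ / ε₁)), le_max_of_le_left (by positivity), by positivity,
    by positivity, ?_⟩
  intro X hX hXX P hP k ps₀ hlen hz e he0 he1 hpar Bd hBd hT hRf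
  have hX1 : (1 : ℝ) ≤ X := by linarith
  have hX0 : 0 < X := by linarith
  obtain ⟨L, hL⟩ : ∃ L : ℝ, L = Real.log X := ⟨_, rfl⟩
  have hL1 : 1 ≤ L := by
    rw [hL, ← Real.log_exp 1]
    refine Real.log_le_log (Real.exp_pos 1) ?_
    linarith [Real.exp_one_lt_d9]
  have hL0 : 0 < L := by linarith
  have hTL : T₀ ≤ ε₁ * L := by
    have h1 : Real.exp (T₀ / ε₁) ≤ X := (le_max_right _ _).trans hXX
    rw [← Real.le_log_iff_exp_le hX0, ← hL, div_le_iff₀ hε₁] at h1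
    linarith
  obtain ⟨X', hX'⟩ : ∃ x : ℝ, x = X ^ b := ⟨_, rfl⟩
  have hXX' : X ≤ X' := by
    rw [hX']
    calc X = X ^ (1 : ℝ) := (Real.rpow_one X).symm
      _ ≤ X ^ b := Real.rpow_le_rpow_of_exponent_le hX1 (by linarith)
  have hX'3 : 3 ≤ X' := hX.trans hXX'
  have hX'0 : 0 < X' := by linarith
  have hX'1 : 1 ≤ X' := by linarith
  have hlX' : Real.log X' = b * L := by rw [hX', Real.log_rpow hX0, hL]
  have hpowX : ∀ x : ℝ, X ^ x = Real.exp (x * L) := fun x => by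
    rw [Real.rpow_def_of_pos hX0, hL, mul_comm]
  have hpowX' : ∀ x : ℝ, X' ^ x = Real.exp (x * (b * L)) := fun x => by
    rw [Real.rpow_def_of_pos hX'0, hlX', mul_comm]
  -- atoms
  obtain ⟨n, hn⟩ : ∃ n : ℝ, n = LL Dq ps₀ := ⟨_, rfl⟩
  obtain ⟨cc, hcc⟩ : ∃ x : ℝ, x = c * L := ⟨_, rfl⟩
  obtain ⟨κ, hκ⟩ : ∃ x : ℝ, x = K * L := ⟨_, rfl⟩
  obtain ⟨vl, hvl⟩ : ∃ x : ℝ, x = v * L := ⟨_, rfl⟩
  obtain ⟨el, hel⟩ : ∃ x : ℝ, x = e * L := ⟨_, rfl⟩
  obtain ⟨εl, hεl⟩ : ∃ x : ℝ, x = ε * L := ⟨_, rfl⟩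
  obtain ⟨w', hw'⟩ : ∃ x : ℝ, x = ε₁ * (b * L) := ⟨_, rfl⟩
  obtain ⟨dl, hdl⟩ : ∃ x : ℝ, x = δ' * (b * L) := ⟨_, rfl⟩
  have hcc0 : 0 < cc := by rw [hcc]; positivity
  have hbl : b * L = 8 * κ + 8 * L := by rw [hb, hκ]; ring
  have hκ60 : 60 * cc ≤ κ := by
    rw [hcc, hκ, ← mul_assoc]; exact mul_le_mul_of_nonneg_right hcK hL0.le
  have hv3l : 3 * vl + 300 * cc ≤ 2 * κ := by
    have := mul_le_mul_of_nonneg_right hv3 hL0.le
    rw [hcc, hκ, hvl]; linarith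
  have hel0 : 0 ≤ el := by rw [hel]; positivity
  have hel1 : 100 * el ≤ εl := by
    have := mul_le_mul_of_nonneg_right he1 hL0.le
    rw [hel, hεl]; linarith
  have hεlc : εl ≤ cc := by rw [hεl, hcc]; exact mul_le_mul_of_nonneg_right hεc hL0.le
  have hεlL : εl ≤ L := by
    have := mul_le_mul_of_nonneg_right hε1 hL0.le
    rw [hεl]; linarith
  have hw1 : 100 * w' ≤ εl := by
    have := mul_le_mul_of_nonneg_right hε₁b hL0.le
    rw [hw', hεl]; linarith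
  have hw8 : 8 * T₀ ≤ w' := by
    have h1 : ε₁ * L * 8 ≤ ε₁ * L * b := mul_le_mul_of_nonneg_left hb8 (by positivity)
    rw [hw']; linarith
  have hw0 : 0 ≤ w' := by linarith
  have hdl0 : 0 ≤ dl := by rw [hdl]; positivity
  have hdl1 : 4 * (N * dl) ≤ w' := by
    have := mul_le_mul_of_nonneg_right hNδ (show 0 ≤ b * L by positivity)
    rw [hdl, hw']; linarith
  have hdl3 : (3 * N + 1) * dl ≤ cc := by
    have := mul_le_mul_of_nonneg_right hδ'3 hL0.le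
    rw [hdl, hcc]; linarith
  have he₃l : 8 * (e₃ * (b * L)) ≤ w' := by
    have := mul_le_mul_of_nonneg_right he₃1 (show 0 ≤ b * L by positivity)
    rw [hw']; linarith
  have he₃0 : 0 ≤ e₃ * (b * L) := by positivity
  -- the parent
  obtain ⟨hk0, hkv, hn2, hnK, hn34, hn56⟩ := hpar
  rw [← hn, ← hL] at hn2 hnK hn34 hn56
  rw [← hL] at hkv
  have hkv' : k ≤ vl - 20 * cc + el := by rw [hvl, hcc, hel]; linarith
  have hn2' : 2 * n + 100 * cc ≤ κ + vl + el := by rw [hκ, hvl, hcc, hel]; linarith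
  have hnK' : n ≤ κ + el := by rw [hκ, hel]; linarith
  have hn34' : 3 * κ ≤ 4 * n + el := by rw [hκ, hel]; linarith
  have hvl0 : κ / 2 + 99 * cc ≤ vl := by linarith
  have hn0 : 0 ≤ n := by
    rw [hn]
    unfold LL
    refine List.sum_nonneg fun x hx => ?_
    obtain ⟨q, hq, rfl⟩ := List.mem_map.1 hx
    exact hz q hq
  have hN1S : (N + 1) * (S + r₂ + r₃) = N * S + N * r₂ + N * r₃ + S + r₂ + r₃ := by ring
  have hNS : 0 ≤ N * S := by positivity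
  have hNr₂ : 0 ≤ N * r₂ := by positivity
  have hNr₃ : 0 ≤ N * r₃ := by positivity
  rw [hN1S] at hT₀
  obtain ⟨H, hH⟩ : ∃ x : ℝ, x = Ht (natl ps₀) := ⟨_, rfl⟩
  have hH1 : 1 ≤ H := by rw [hH]; exact one_le_Ht _
  have hHM0 : 0 ≤ H ^ M := Real.rpow_nonneg (by linarith) _
  have hHJ1 : 1 ≤ H ^ J := Real.one_le_rpow hH1 hJ
  have hHMJ : H ^ M ≤ H ^ J := Real.rpow_le_rpow_of_exponent_le hH1 hMJ
  have hHJ0 : 0 ≤ H ^ J := by linarith
  -- the data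
  obtain ⟨D, hD⟩ : ∃ D : Dat, D = ⟨P, h, X ^ (b * δ'), X ^ (b * δ'), ps₀, J, κ,
    vl - 20 * cc + el, n⟩ := ⟨_, rfl⟩
  obtain ⟨D₂, hD₂⟩ : ∃ D : Dat, D = ⟨P, h, X ^ (b * δ'), X ^ (b * δ'), ps₀, J, κ,
    vl + el, n⟩ := ⟨_, rfl⟩
  have hXδ : X ^ (b * δ') = X' ^ δ' := by rw [hX', ← Real.rpow_mul hX0.le]
  have hlD0 : Real.log (X ^ (b * δ')) = dl := by
    rw [Real.log_rpow hX0, ← hL, hdl]; ring
  have hD01 : 1 ≤ X ^ (b * δ') := Real.one_le_rpow hX1 (by positivity)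
  have hexpn : Real.exp n ≤ X ^ (K + 1) := by
    rw [hpowX]
    refine Real.exp_le_exp.2 ?_
    have : (K + 1) * L = κ + L := by rw [hκ]; ring
    linarith
  have hexpnC : C₁ * Real.exp n ≤ X ^ (K + 1) := by
    rw [hpowX, ← Real.exp_log (show 0 < C₁ by linarith), ← Real.exp_add]
    refine Real.exp_le_exp.2 ?_
    have : (K + 1) * L = κ + L := by rw [hκ]; ring
    linarith
  have hbQ : C₁ * Real.exp n * Real.exp (r₂ + N * r₃) ≤
      max (C₁ * Real.exp (r₂ + N * r₃)) (C₁ * (C₂ * (2 + C₃ + CR) + 2)) * X ^ (K + 1) := by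
    calc C₁ * Real.exp n * Real.exp (r₂ + N * r₃) = C₁ * Real.exp (r₂ + N * r₃) * Real.exp n := by
          ring
      _ ≤ _ := by
          gcongr
          exact le_max_left _ _
  -- the claims
  have cl1 := claims_of hT hM hBd (D := D) (by rw [hD]) (by rw [hD]) (by rw [hD])
    (by rw [hD]; exact hMJ) (by rw [hD, ← hL]; exact hκ) (by rw [hD]; exact hn)
    (s := S) (a := 3 * w') (Q := C₁ * Real.exp n) (x := w') (y := 0) (by linarith)
    (by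
      refine le_trans ?_ hbQ
      have h1 : 1 ≤ Real.exp (r₂ + N * r₃) := Real.one_le_exp (by positivity)
      exact le_mul_of_one_le_right (by positivity) h1)
    (by
      rw [hD, ← hL]
      show vl - 20 * cc + el + 3 * w' ≤ (v + ε) * L
      have : (v + ε) * L = vl + εl := by rw [hvl, hεl]; ring
      linarith)
    hw0 (by rw [← hL, ← hεl]; linarith) le_rfl
    (by
      rw [hD, ← hL, ← hvl]
      show vl - 20 * cc + el ≤ vl + 0
      linarith)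
  have cl2 := claims_of hT hM hBd (D := D₂) (by rw [hD₂]) (by rw [hD₂]) (by rw [hD₂])
    (by rw [hD₂]; exact hMJ) (by rw [hD₂, ← hL]; exact hκ) (by rw [hD₂]; exact hn)
    (s := S + r₂ + r₃) (a := 3 * w' + r₂ + r₃) (Q := C₁ * Real.exp n * Real.exp (r₂ + N * r₃))
    (x := w') (y := el) le_rfl hbQ
    (by
      rw [hD₂, ← hL]
      show vl + el + (3 * w' + r₂ + r₃) ≤ (v + ε) * L
      have : (v + ε) * L = vl + εl := by rw [hvl, hεl]; ring
      linarith)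
    hw0 (by rw [← hL, ← hεl]; linarith) hel0
    (by
      rw [hD₂, ← hL, ← hvl])
  rw [← hL, ← hcc, ← hH] at cl1 cl2
  obtain ⟨cJ, cT, -⟩ := cl1
  obtain ⟨cJ2, -, c02⟩ := cl2
  rw [Real.exp_zero, mul_one] at cJ
  have hDn : D.n = n := by rw [hD]
  have hD2n : D₂.n = n := by rw [hD₂]
  -- the numbers
  obtain ⟨Bf, hBf⟩ : ∃ x : ℝ, x = C₃ * X' ^ ε₂ * (Bd * Real.exp (c / 3 * L) * H ^ M) := ⟨_, rfl⟩
  obtain ⟨Bl, hBl⟩ : ∃ x : ℝ, x = Bd * Real.exp el * H ^ M := ⟨_, rfl⟩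
  obtain ⟨Rn, hRn⟩ : ∃ x : ℝ, x = CR * X ^ (ε / 4) * H ^ J * Bd := ⟨_, rfl⟩
  have hBf0 : 0 ≤ Bf := by rw [hBf]; positivity
  have hBl0 : 0 ≤ Bl := by rw [hBl]; positivity
  have hRn0 : 0 ≤ Rn := by rw [hRn]; positivity
  have cF : ClX (ex0 D₂.κ) D₂ (Ge (n - 2 * cc - N * dl - r₂)) Bf (S + r₂) (3 * w' + r₂)
      (C₁ * Real.exp n * Real.exp r₂) (n + N * S + N * r₂ + r₂) := by
    rw [hBf]
    refine hop X' hX'3 D₂ (by rw [hD₂]; exact hP) (by rw [hD₂]) (by rw [hD₂]; exact hD01)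
      (by rw [hD₂]) (by rw [hD₂]; exact hlen) (Bd * Real.exp (c / 3 * L) * H ^ M) (S + r₂)
      (3 * w' + r₂) (C₁ * Real.exp n * Real.exp r₂) (Real.exp (N * r₃))
      (n - 2 * cc - N * dl - r₂) (n - 2 * cc - w') (n + N * S + N * r₂ + r₂) (n + w')
      (by positivity) le_rfl ?_ (by linarith) ?_ ?_
    · intro ps h1 h2 h3
      rw [hlX', hbl]
      refine ⟨by linarith, ?_⟩
      rw [hD₂]
      show vl + el + (n - LF ps) + (3 * w' + r₂) ≤ 8 * κ + 8 * L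
      linarith
    · have h1 : Real.log D₂.D0 = dl := by rw [hD₂]; exact hlD0
      rw [h1]
      linarith
    · rw [hD2n] at c02
      refine c02.mono le_rfl (by linarith) ?_
      rw [mul_assoc (C₁ * Real.exp n), ← Real.exp_add]
  obtain ⟨El, hEl⟩ : ∃ x : ℝ, x = C₂ * X' ^ (5 * ε₂) * (1 + Real.exp (-(cc / 2)) *
    (Bf + Bl * Real.exp (N * dl + 3 * w')) + Rn) := ⟨_, rfl⟩
  have hEl0 : 0 ≤ El := by rw [hEl]; positivity
  have key := hrg X' hX'3 (((le_max_left _ _).trans (le_max_left _ _)).trans (hXX.trans hXX')) D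
    (by rw [hD]; exact hP) (by rw [hD]) (by rw [hD]; exact hXδ) (by rw [hD]) (by rw [hD])
    (by rw [hD]; exact hlen) (by rw [hD]; exact hz)
    (by rw [hD]; exact hn.trans (RXg848.LF_natl ps₀).symm)
    (by rw [hD]; show 0 ≤ κ; linarith) (by rw [hD]; show 0 ≤ vl - 20 * cc + el; linarith)
    (by rw [hD, hlX', hbl]; show n ≤ (8 * κ + 8 * L) / 4; linarith)
    (by rw [hD, hlX', hbl]; show vl - 20 * cc + el ≤ (8 * κ + 8 * L) / 4; linarith)
    (by rw [hD]; show 2 * n ≤ κ + (vl - 20 * cc + el); linarith)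
    N0f N1f (fun L => rho (N0f L) (N1f L)) cut_std cc (Bd * H ^ M) El (Real.exp cc)
    (by rw [hlX', ← hdl]; exact hdl3) (by rw [hlX', hbl]; linarith) (by positivity) hEl0 le_rfl
    (by rw [hlX', ← hw', hDn]; rw [hDn] at cJ; exact cJ)
    (by rw [hlX', ← hw', hDn]; rw [hDn] at cT; exact cT)
    ?_ k hk0 (by rw [hD]; exact hkv')
  · -- the conclusion
    have e1 : SF D.z D.D0 1 D.P D.h k (natl D.ps₀) = S0p P h k ps₀ := by
      rw [hD]
      exact RXg848.SFK_natl_one Kg P h (X ^ (b * δ')) (X ^ (b * δ')) k ps₀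
    have e2 : Ht (natl D.ps₀) = H := by rw [hD, hH]
    have e3 : D.κ = K * Real.log X := by rw [hD, ← hL]; exact hκ
    rw [e1, e2, e3, hDn, hn] at key
    refine key.trans ?_
    rw [← RXg848.Ht_natl, ← hH]
    obtain ⟨F, hF⟩ : ∃ x : ℝ, x = Real.exp (fl (K * Real.log X) k (LL Dq ps₀)) := ⟨_, rfl⟩
    rw [← hF]
    have hF0 : 0 ≤ F := by rw [hF]; exact (Real.exp_pos _).le
    obtain ⟨A, hA⟩ : ∃ x : ℝ, x = X ^ (ε / 4) := ⟨_, rfl⟩
    have hA1 : 1 ≤ A := by rw [hA]; exact Real.one_le_rpow hX1 (by positivity)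
    have hεl4 : ε / 4 * L = εl / 4 := by rw [hεl]; ring
    have a1 : X' ^ (3 * (m * ε₂) + 4 * ε₂ + 4 * ε₁) ≤ A := by
      rw [hA, hpowX', hpowX, hεl4]
      refine Real.exp_le_exp.2 ?_
      have h1 : (3 * (m * ε₂) + 4 * ε₂ + 4 * ε₁) * (b * L) ≤ (11 * ε₁) * (b * L) :=
        mul_le_mul_of_nonneg_right (by linarith) (by positivity)
      have h2 : (11 * ε₁) * (b * L) = 11 * w' := by rw [hw']; ring
      linarith
    have a2 : X' ^ (5 * ε₂) ≤ A := by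
      rw [hA, hpowX', hpowX, hεl4]
      refine Real.exp_le_exp.2 ?_
      have h1 : (5 * ε₂) * (b * L) ≤ (5 * ε₁) * (b * L) :=
        mul_le_mul_of_nonneg_right (by linarith) (by positivity)
      have h2 : (5 * ε₁) * (b * L) = 5 * w' := by rw [hw']; ring
      linarith
    have a3 : X' ^ ε₂ ≤ A := by
      refine le_trans (Real.rpow_le_rpow_of_exponent_le hX'1 ?_) a2
      linarith
    have t1 : Real.exp (-(cc / 2)) * Real.exp (c / 3 * L) ≤ 1 := by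
      rw [← Real.exp_add]
      refine Real.exp_le_one_iff.2 ?_
      have : c / 3 * L = cc / 3 := by rw [hcc]; ring
      linarith
    have t2 : Real.exp (-(cc / 2)) * (Real.exp el * Real.exp (N * dl + 3 * w')) ≤ 1 := by
      rw [← Real.exp_add, ← Real.exp_add]
      refine Real.exp_le_one_iff.2 ?_
      linarith
    have k1 : El ≤ C₂ * A * (1 + (Real.exp (-(cc / 2)) * Real.exp (c / 3 * L) *
        (C₃ * A * (Bd * H ^ J)) + Real.exp (-(cc / 2)) * (Real.exp el *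
        Real.exp (N * dl + 3 * w')) * (Bd * H ^ J)) + CR * A * H ^ J * Bd) := by
      rw [hEl, hBf, hBl, hRn, ← hA]
      have h1 : Real.exp (-(cc / 2)) * (C₃ * X' ^ ε₂ * (Bd * Real.exp (c / 3 * L) * H ^ M) +
          Bd * Real.exp el * H ^ M * Real.exp (N * dl + 3 * w')) ≤
          Real.exp (-(cc / 2)) * (C₃ * A * (Bd * Real.exp (c / 3 * L) * H ^ J) +
          Bd * Real.exp el * H ^ J * Real.exp (N * dl + 3 * w')) := by
        gcongr
      have h2 : 1 + Real.exp (-(cc / 2)) * (C₃ * X' ^ ε₂ * (Bd * Real.exp (c / 3 * L) * H ^ M) +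
          Bd * Real.exp el * H ^ M * Real.exp (N * dl + 3 * w')) + CR * A * H ^ J * Bd ≤
          1 + (Real.exp (-(cc / 2)) * Real.exp (c / 3 * L) *
        (C₃ * A * (Bd * H ^ J)) + Real.exp (-(cc / 2)) * (Real.exp el *
        Real.exp (N * dl + 3 * w')) * (Bd * H ^ J)) + CR * A * H ^ J * Bd := by
        have h3 : Real.exp (-(cc / 2)) * (C₃ * A * (Bd * Real.exp (c / 3 * L) * H ^ J) +
          Bd * Real.exp el * H ^ J * Real.exp (N * dl + 3 * w')) =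
          Real.exp (-(cc / 2)) * Real.exp (c / 3 * L) *
        (C₃ * A * (Bd * H ^ J)) + Real.exp (-(cc / 2)) * (Real.exp el *
        Real.exp (N * dl + 3 * w')) * (Bd * H ^ J) := by ring
        rw [h3] at h1
        linarith
      have hA0 : 0 ≤ A := by linarith
      gcongr
    have k2 := core_const (C₁ := C₁) (C₂ := C₂) (C₃ := C₃) (CR := CR) (A := A) (H := H ^ J)
      (Bd := Bd) (F := F) (t1 := Real.exp (-(cc / 2)) * Real.exp (c / 3 * L))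
      (t2 := Real.exp (-(cc / 2)) * (Real.exp el * Real.exp (N * dl + 3 * w')))
      (by linarith) hC₂ (by linarith) hCR hA1 hHJ1 hBd hF0 t1 t2
    have k3 : C₁ * X' ^ (3 * (m * ε₂) + 4 * ε₂ + 4 * ε₁) * (El + Bd * H ^ M + 1) * H ^ J * F ≤
        C₁ * A * (C₂ * A * (1 + (Real.exp (-(cc / 2)) * Real.exp (c / 3 * L) *
        (C₃ * A * (Bd * H ^ J)) + Real.exp (-(cc / 2)) * (Real.exp el *
        Real.exp (N * dl + 3 * w')) * (Bd * H ^ J)) + CR * A * H ^ J * Bd) + Bd * H ^ J + 1) *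
        H ^ J * F := by
      gcongr
    refine (k3.trans k2).trans ?_
    have e4 : (H ^ J) ^ 2 = H ^ (2 * J) := by
      rw [← Real.rpow_natCast (H ^ J) 2, ← Real.rpow_mul (by linarith)]
      congr 1
      push_cast; ring
    have e5 : A ^ 3 ≤ X ^ ε := by
      rw [hA, ← Real.rpow_natCast, ← Real.rpow_mul hX0.le]
      refine Real.rpow_le_rpow_of_exponent_le hX1 ?_
      push_cast; linarith
    rw [e4]
    have hH2 : 0 ≤ H ^ (2 * J) := Real.rpow_nonneg (by linarith) _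
    have hmx : C₁ * (C₂ * (2 + C₃ + CR) + 2) ≤
      max (C₁ * Real.exp (r₂ + N * r₃)) (C₁ * (C₂ * (2 + C₃ + CR) + 2)) := le_max_right _ _
    have hmx0 : 0 ≤ C₁ * (C₂ * (2 + C₃ + CR) + 2) := by
      have : 0 ≤ C₃ := by linarith
      have : 0 ≤ C₁ := by linarith
      positivity
    gcongr
  · -- (LB)
    intro a ha1 ha2 q ps hq hqQ hNT hps hcm
    rw [hlX', ← hw'] at ha1 ha2
    obtain ⟨Lv, hLv⟩ : ∃ x : ℝ, x = D.v + (D.n - LF ps) + a + e₃ * Real.log X' := ⟨_, rfl⟩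
    rw [← hLv]
    have hLv' : Lv = vl - 20 * cc + el + (n - LF ps) + a + e₃ * (b * L) := by
      rw [hLv, hlX', hD]
    rw [hDn] at hcm hqQ
    have hps' : SbL S ps ps₀ := by rw [hD] at hps; exact hps
    have hLF : LF ps ≤ n + N * S := by
      have := hps'.LF_le hS hlen
      rwa [RXg848.LF_natl, ← hn] at this
    have hLF0 : 0 ≤ LF ps := LF_nonneg hps'.z_nonneg
    have hLv0 : 0 ≤ Lv := by rw [hLv']; linarith
    have hqX : (nm q : ℝ) ≤ X ^ (K + 1) := by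
      refine le_trans ?_ (hqQ.trans hexpnC)
      exact le_mul_of_one_le_right (Nat.cast_nonneg _) (Real.one_le_exp hLF0)
    have hfacts : RFacts K c (ε / 4) X ps₀ ps Lv (N0f Lv) (N1f Lv) := by
      constructor
      · rw [← hn, ← hL]
        have : (K + ε / 4) * L = κ + εl / 4 := by rw [hκ, hεl]; ring
        linarith
      · rw [← hn, ← hL, ← hcc]; exact hcm
      · rw [← hn, ← hL]
        have : ε / 4 * L = εl / 4 := by rw [hεl]; ring
        linarith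
      · exact hLv0
      · rw [← hL]
        have h1 : 200 * c * L = 200 * cc := by rw [hcc]; ring
        have h2 : 2 * K * L = 2 * κ := by rw [hκ]; ring
        rw [hLv', h1, h2]; linarith
      · exact exp_le_N0f Lv
      · exact N0f_le_N1f Lv
      · exact N1f_le hLv0
      · rw [← hn, ← hL]
        have h1 : (5 * K + ε / 4) * L = 5 * κ + εl / 4 := by rw [hκ, hεl]; ring
        have h2 : (5 * K + e) * L = 5 * κ + el := by rw [hκ, hel]; ring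
        rw [h1]
        rw [h2] at hn56
        linarith
      · rw [← hL]
        have h1 : 20 * c * L = 20 * cc := by rw [hcc]; ring
        rw [hLv', h1]; linarith
      · exact two_N0f_le Lv
      · linarith
    have hRRq := hRf q ps Lv (N0f Lv) (N1f Lv) hfacts hq hqX hps' (by
      rw [← hL, ← hn, hLv']
      have : (v + ε) * L = vl + εl := by rw [hvl, hεl]; ring
      linarith)
    have eK : X ^ K = Real.exp κ := by rw [hpowX, hκ]
    have ec : X ^ c = Real.exp cc := by rw [hpowX, hcc]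
    have eb : X ^ (8 * (K + 1)) = X' := by rw [hX', hb]
    rw [eK, ec, eb] at hRRq
    have hHt := one_le_Ht ps
    have hRhq : Rh Λ ⟨Cw, η₀, Jn + 2, Real.exp D₂.κ, Real.exp (LF ps), X', R, Jn, N0f Lv, N1f Lv,
        Real.exp cc, Real.exp cc, Real.exp cc⟩ (sqc q (alF D₂.z D₂.D0 D₂.P D₂.h ps))
        (Rn * Ht ps ^ J * Real.exp (2 * LF ps)) := by
      have h0 : D₂.κ = κ := by rw [hD₂]
      have h1 : sqc q (alF D₂.z D₂.D0 D₂.P D₂.h ps) =
          sqc q (alF (X ^ (b * δ')) (X ^ (b * δ')) P h ps) := by rw [hD₂]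
      rw [h0, h1]
      refine hRR Λ _ _ _ _ hΛ (Real.exp_pos _).le (Real.exp_pos _).le
        (Real.one_le_exp hcc0.le) ?_ hRRq ?_
      · show Real.exp (LF ps) ^ 2 * Real.exp cc ^ 20 ≤ Real.exp κ * (N0f Lv : ℝ)
        rw [hpw_two, ← Real.exp_nat_mul]
        push_cast
        calc Real.exp (2 * LF ps) * Real.exp (20 * cc) = Real.exp (2 * LF ps + 20 * cc) := by
              rw [Real.exp_add]
          _ ≤ Real.exp (κ + Lv) := Real.exp_le_exp.2 (by rw [hLv']; linarith)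
          _ = Real.exp κ * Real.exp Lv := Real.exp_add _ _
          _ ≤ _ := mul_le_mul_of_nonneg_left (exp_le_N0f Lv) (Real.exp_pos _).le
      · rw [hRn, ← hH]
        have h2 : (Ht ps * H) ^ J₀ ≤ Ht ps ^ J * H ^ J := by
          rw [← Real.mul_rpow (by linarith) (by linarith)]
          exact Real.rpow_le_rpow_of_exponent_le
            (one_le_mul_of_one_le_of_one_le hHt hH1) hJ₀J
        calc CR * X ^ (ε / 4) * (Ht ps * H) ^ J₀ * Bd * Real.exp (2 * LF ps) ≤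
              CR * X ^ (ε / 4) * (Ht ps ^ J * H ^ J) * Bd * Real.exp (2 * LF ps) := by gcongr
          _ = _ := by ring
    have hlb1 := hlb X' hX'3 (((le_max_right _ _).trans (le_max_left _ _)).trans
      (hXX.trans hXX')) D₂ (by rw [hD₂]; exact hP) (by rw [hD₂]) (by rw [hD₂]; exact hD01)
      (by rw [hD₂]) (by rw [hD₂]; exact hlen) (by rw [hD₂]; show 0 ≤ κ; linarith)
      (by rw [hD₂, hlX', hbl]; show κ ≤ 8 * κ + 8 * L; linarith) Bf Bl S (3 * w')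
      (C₁ * Real.exp n) (Real.exp r₂) cc cc cc cc w' (n - 2 * cc - N * dl - r₂) 0
      (n + N * S + N * r₂ + r₂) hBf0 hBl0 le_rfl (by positivity) le_rfl hw0 hcc0.le
      (by
        rw [hlX', hcc]
        have : c / b * (b * L) = c * L := by field_simp
        rw [this])
      (by rw [hD₂]; exact hκ60) hcc0.le (by rw [hlX', hbl]; linarith) cF
      (by
        rw [hBl]
        refine cJ2.mono (by linarith) (by linarith) ?_
        rw [Real.exp_add, ← mul_assoc]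
        refine le_mul_of_one_le_right (by positivity) (Real.one_le_exp hNr₃))
      q ps hq hqQ (by rw [hD₂]; exact hps') (by rw [hlX', hbl]; linarith)
      (by rw [hD2n]; exact hcm) (by linarith)
      (by
        have h1 : Real.log D₂.D0 = dl := by rw [hD₂]; exact hlD0
        rw [h1]; linarith)
      (by rw [hD2n]; linarith)
      (N0f Lv) (N1f Lv) Lv (one_le_N0f Lv) (N0f_le_N1f Lv) (exp_le_N0f Lv) (N1f_le hLv0)
      (by rw [hlX', hbl, hLv']; linarith)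
      (by rw [hlX', hbl, hLv']; linarith)
      (by
        rw [hD₂]
        show Lv + 4 + Real.log Λ ≤ vl + el + (n - LF ps) + 3 * w'
        rw [hLv']; linarith)
      (by rw [hD₂]; show Lv + 4 + 30 * cc ≤ 2 * κ; rw [hLv']; linarith)
      Rn hRn0 hRhq
    have h1 : Real.log D₂.D0 = dl := by rw [hD₂]; exact hlD0
    rw [h1, ← hEl] at hlb1
    have h0 : D₂.κ = D.κ := by rw [hD₂, hD]
    have h3 : sqc q (alF D₂.z D₂.D0 D₂.P D₂.h ps) = sqc q (alF D.z D.D0 D.P D.h ps) := by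
      rw [hD₂, hD]
    rw [h0, h3] at hlb1
    exact hlb1

end Crest.Agent.R017.RG64
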