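import Crest.Agent.R017.NEg_551
import Crest.Agent.R017.RGm_64
import Crest.Agent.R017.NEr_551

/-!
# Row 17, near field (FlatNE), list level (helper551): the lower bound for the lists

* `LBq`, `LBS w τ Rh` : the lower bound with the level weight `rhs N₁` (helper499's `lb_bs`:
  `τ = 0`; helper73's `lb_bt`: `τ = 1`), the numbers abstract (`Rh`)
* `lb_list_s` : the lower bound for the flagged lists
-/

set_option autoImplicit false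

noncomputable section

open Complex
open scoped ComplexConjugate

namespace Crest.Agent.R017.NEg551

open Crest.Agent.R012 Crest.Agent.R012.Eis Crest.Agent.R012.LS2 Crest.Agent.R012.Gauss880
open Crest.Agent.R012.MC (Wgt)
open Crest.Agent.R012.Weight600 (osc)
open Crest.Agent.R017.CM106 Crest.Agent.R017.HP842 Crest.Agent.R017.FE47
open Crest.Agent.R017.End699 hiding pw
open Crest.Agent.R017.B770
open Crest.Agent.R017.Prov71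
open Crest.Agent.R017.Rough381 (VF)
open Crest.Agent.R017.Leg381
open Crest.Agent.R017.E1551 (sg tws JB yv)
open Crest.Agent.R017.LBo813 (norm_list_le)
open Crest.Agent.R017.NEsm551 (rhs)
open Crest.Agent.R017.RG64

/-- parameters of the lower bound -/
structure LBq where
  Cw : ℝ
  η : ℝ
  Aw : ℕ
  K : ℝ
  X : ℝ
  Y : ℝ
  R : ℝ
  J : ℕ
  N₁ : ℕ
  E0 : ℝ
  E1 : ℝ
  B : ℝ
  θ : ℝ
  D : ℝ
  G₀ : ℝ

/-- **the lower bound with the level weight `rhs N₁`** (helper499's `lb_bs`), the numbers abstract -/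
def LBS (w : ℝ → ℝ) (τ : ℝ) (Rh : LBq → (Eis → ℂ) → ℝ → Prop) : Prop :=
  ∀ (Cw R ε : ℝ) (Aw J : ℕ), 0 ≤ Cw → 0 ≤ R → 0 < ε → J + 2 ≤ Aw →
  ∃ C : ℝ, 0 ≤ C ∧
  ∀ (K X Y D G₀ E0 E1 B θ η : ℝ) (N₁ : ℕ), 0 < K → K ≤ Y → 0 < X → 1 ≤ Y → 0 ≤ D → D ≤ Y →
    1 ≤ E0 → E0 ≤ Y → 1 ≤ B → 0 < θ → B⁻¹ ≤ θ → 1 ≤ N₁ → (N₁ : ℝ) ≤ Y →
    ((N₁ : ℝ) / K ^ 2) ^ (1 / 6 : ℝ) ≤ θ → 0 < η → η ≤ 1 →
    ∀ α : Eis → ℂ, (∀ n, α n ≠ 0 → n ∈ S Y) →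
    (∀ n, α n ≠ 0 → |Real.log (nm n) - Real.log X| ≤ R) → (∀ n, ‖α n‖ ≤ Y ^ ε) →
    ∀ Ma Ml Rn : ℝ, 0 ≤ Ma → 0 ≤ Ml → 0 ≤ Rn →
    (∀ g ∈ S Y, (nm g : ℝ) ≤ G₀ → ∀ V : ℝ, 1 ≤ V → V ≤ 9 * N₁ * nm g → ∀ t : ℝ,
      VF V (tws (sg α g) t) ≤
        Ma / (nm g : ℝ) ^ 2 * ((V * K / (X / nm g) ^ 2) ^ (1 / 3 : ℝ)) * (1 + |t|) ^ J) →
    (∀ g ∈ S Y, ∀ B V : ℝ, 1 ≤ B → B ≤ Y → 1 ≤ V → V ≤ 9 * N₁ / (nm g : ℝ) ^ 2 →
      ∀ t : ℝ, JB Y α (fun U => G₀ < nm (g * U)) g B V t ≤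
        Ml / (nm g : ℝ) ^ 2 * yv K X g V * (1 + |t|) ^ J) →
    Rh ⟨Cw, η, Aw, K, X, Y, R, J, N₁, E0, E1, B, θ, D, G₀⟩ α Rn →
    LBn w Cw η Aw K X Y D N₁ (rhs N₁) R J α
      (C * (η⁻¹) ^ (2 * J + 2) * Y ^ (4 * ε) * (X ^ 2 + (θ * E0 + τ * E0⁻¹) * (Ma + Ml) + Rn))

set_option maxHeartbeats 1600000 in
/-- **the lower bound for the flagged lists** -/
theorem lb_list_s {h : ℝ → ℝ} {c : ℝ} (hpu : PU h c) (N : ℕ) {w : ℝ → ℝ}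
    {τ : ℝ} (hτ : 0 ≤ τ) {Rh : LBq → (Eis → ℂ) → ℝ → Prop} (hLB : LBS w τ Rh)
    {R Ca Cw η₀ ε J : ℝ} {Jn Aw : ℕ}
    (hR : 0 ≤ R) (hAL : ALp h N R Ca) (hCw : 0 ≤ Cw) (hη₀ : 0 < η₀) (hη₀1 : η₀ ≤ 1) (hε : 0 < ε)
    (hJ : 0 ≤ J) (hJn : (N : ℝ) * J ≤ Jn) (hAw : Jn + 2 ≤ Aw) :
    ∃ C r X₁ : ℝ, 0 ≤ C ∧ 0 ≤ r ∧ ∀ X : ℝ, 3 ≤ X → X₁ ≤ X → ∀ D : Dat, D.P.OK → D.h = h →
    1 ≤ D.D0 → D.J = J → D.ps₀.length ≤ N → D.κ ≤ Real.log X →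
    ∀ Bf Bl s a Q q₀ cd cg cc x₁ lo lo' σ'' : ℝ, 0 ≤ Bf → 0 ≤ Bl → Real.exp r ≤ q₀ → 0 ≤ a →
    lo' ≤ 0 → 0 ≤ x₁ → cd ≤ Real.log X →
    ClX (ex0 D.κ) D (Ge lo) Bf (s + r) (a + r) (Q * q₀) σ'' →
    ClN D (exJ D.κ D.v D.n cc) Bl (s + r) (a + r) (Q * q₀) lo' (D.n - cc + x₁) →
    ∀ (q : Eis) (ps : List Pf), IsPrim q → (nm q : ℝ) * Real.exp (LF ps) ≤ Q →
    SbL s ps D.ps₀ → R + LF ps ≤ Real.log X → D.n - cc ≤ LF ps → LF ps + r ≤ σ'' →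
    lo + cg + N * Real.log D.D0 + r ≤ LF ps → LF ps - cg + r ≤ D.n - cc + x₁ →
    ∀ (N₁ : ℕ) (Lv : ℝ), 1 ≤ N₁ → 9 * (N₁ : ℝ) ≤ Real.exp (Lv + 4) →
    Lv + 4 ≤ Real.log X → Lv + 4 + cg ≤ Real.log X → Lv + 4 ≤ D.v + (D.n - LF ps) + a →
    ∀ e0 e1 β : ℝ, 0 ≤ e0 → e0 ≤ Real.log X → 0 ≤ β → Lv + 4 + 6 * β ≤ 2 * D.κ →
    ∀ Rn : ℝ, 0 ≤ Rn →
    Rh ⟨Cw, η₀, Aw, Real.exp D.κ, Real.exp (LF ps), X, R, Jn, N₁, Real.exp e0, Real.exp e1,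
      Real.exp β, Real.exp (-β), Real.exp cd, Real.exp cg⟩
      (sqc q (alF D.z D.D0 D.P D.h ps)) (Rn * Ht ps ^ J * Real.exp (2 * LF ps)) →
    LBn w Cw η₀ Aw (Real.exp D.κ) (Real.exp (LF ps)) X (Real.exp cd) N₁ (rhs N₁) R Jn
      (sqc q (alF D.z D.D0 D.P D.h ps))
      ((C * X ^ (5 * ε) * (1 + (Real.exp (e0 - β) + τ * Real.exp (-e0)) *
        (Bf + Bl * Real.exp (N * Real.log D.D0 + a)) + Rn)) * Ht ps ^ J *
          Real.exp (2 * LF ps)) := by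
  obtain ⟨C₁, hC₁, hLB1⟩ := hLB Cw R ε Aw Jn hCw hR hε hAw
  obtain ⟨C₂, r₂, hC₂, hr₂, hsa⟩ := sa0_list hpu N hε hJ hJn
  obtain ⟨C₃, r₃, hC₃, hr₃, hlp⟩ := lp_list hpu N hε hJ hJn
  obtain ⟨C₄, hC₄, hnl⟩ := norm_list_le hpu N (half_pos hε)
  obtain ⟨X₄, hX₄⟩ : ∃ x : ℝ, x = C₄ ^ (2 / ε) := ⟨_, rfl⟩
  refine ⟨4 * (C₁ * (η₀⁻¹) ^ (2 * Jn + 2)) * C₂ * C₃, max r₂ r₃, max Ca X₄, by positivity,
    hr₂.trans (le_max_left _ _), ?_⟩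
  intro X hX hXX D hP hh hD0 hDJ hN hκX Bf Bl s a Q q₀ cd cg cc x₁ lo lo' σ'' hBf hBl hq₀ ha
    hlo' hx₁ hcdX hClf hClN q ps hq hqQ hps hRX hcm hσ hlo hgc N₁ Lv hN0
    hLv1 hLvX hLvg hLva e0 e1 β he0 he0X hβ hβκ Rn hRn hRh
  have hX1 : (1 : ℝ) ≤ X := by linarith
  have hX0 : 0 < X := by linarith
  have hr2 : r₂ ≤ max r₂ r₃ := le_max_left _ _
  have hr3 : r₃ ≤ max r₂ r₃ := le_max_right _ _
  have hlen : ps.length ≤ N := hps.length ▸ hN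
  have hLF0 : 0 ≤ LF ps := LF_nonneg hps.z_nonneg
  have hHt := one_le_Ht ps
  have hHJ : 1 ≤ Ht ps ^ J := Real.one_le_rpow hHt hJ
  have hexpX : Real.exp (LF ps) ≤ X := by
    rw [← Real.le_log_iff_exp_le hX0]; linarith
  have hN1 : (1 : ℝ) ≤ N₁ := by exact_mod_cast hN0
  have hN1' : (N₁ : ℝ) ≤ Real.exp (Lv + 4) := by
    have := Real.exp_pos (Lv + 4)
    linarith
  have hZ0 : 0 < 9 * (N₁ : ℝ) := by positivity
  have hlZ : Real.log (9 * (N₁ : ℝ)) ≤ Lv + 4 := by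
    rw [← Real.log_exp (Lv + 4)]
    exact Real.log_le_log hZ0 hLv1
  obtain ⟨a1, a2, -, hFS⟩ := hAL D.z D.D0 D.P hP q ps hlen X ((le_max_left _ _).trans hXX) (by
    rw [← Real.exp_add, ← Real.le_log_iff_exp_le hX0]; linarith)
  rw [← hh] at a1 a2
  have key := hLB1 (Real.exp D.κ) (Real.exp (LF ps)) X (Real.exp cd) (Real.exp cg) (Real.exp e0)
    (Real.exp e1) (Real.exp β) (Real.exp (-β)) η₀ N₁
    (Real.exp_pos _) (by rw [← Real.le_log_iff_exp_le hX0]; exact hκX) (Real.exp_pos _) hX1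
    (Real.exp_pos _).le (by rw [← Real.le_log_iff_exp_le hX0]; exact hcdX)
    (Real.one_le_exp he0) (by rw [← Real.le_log_iff_exp_le hX0]; exact he0X)
    (Real.one_le_exp hβ) (Real.exp_pos _) (by rw [Real.exp_neg]) hN0
    (hN1'.trans (by rw [← Real.le_log_iff_exp_le hX0]; exact hLvX))
    (by
      have h1 : (N₁ : ℝ) / Real.exp D.κ ^ 2 ≤ Real.exp (-β) ^ 6 := by
        rw [div_le_iff₀ (by positivity), hpw_two D.κ, ← Real.exp_nat_mul, ← Real.exp_add]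
        refine hN1'.trans (Real.exp_le_exp.2 ?_)
        push_cast
        linarith
      calc ((N₁ : ℝ) / Real.exp D.κ ^ 2) ^ (1 / 6 : ℝ) ≤ (Real.exp (-β) ^ 6) ^ (1 / 6 : ℝ) :=
            Real.rpow_le_rpow (by positivity) h1 (by norm_num)
        _ = Real.exp (-β) := by
            rw [← Real.rpow_natCast, ← Real.rpow_mul (Real.exp_pos _).le]
            norm_num)
    hη₀ hη₀1 (sqc q (alF D.z D.D0 D.P D.h ps)) a1 a2
    (by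
      intro n
      by_cases h0 : sqc q (alF D.z D.D0 D.P D.h ps) n = 0
      · rw [h0, norm_zero]; positivity
      have h1 := hnl D.z D.D0 D.P hP q ps hlen X hX1 n (a1 n h0)
      rw [← hh] at h1
      refine h1.trans ?_
      have h2 : C₄ ≤ X ^ (ε / 2) := by
        have h3 : C₄ = X₄ ^ (ε / 2) := by
          rw [hX₄, ← Real.rpow_mul (by linarith)]
          have : 2 / ε * (ε / 2) = 1 := by field_simp
          rw [this, Real.rpow_one]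
        rw [h3]
        refine Real.rpow_le_rpow ?_ ((le_max_right _ _).trans hXX) (by positivity)
        rw [hX₄]; positivity
      calc C₄ * X ^ (ε / 2) ≤ X ^ (ε / 2) * X ^ (ε / 2) := by gcongr
        _ = X ^ ε := by rw [← Real.rpow_add hX0]; congr 1; ring)
    (C₂ * X ^ ε * Bf * Ht ps ^ J * Real.exp (2 * LF ps))
    (C₃ * X ^ ε * Bl * Ht ps ^ J * Real.exp (N * Real.log D.D0 + a) * Real.exp (2 * LF ps))
    (Rn * Ht ps ^ J * Real.exp (2 * LF ps)) (by positivity) (by positivity) (by positivity)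
    (hsa X hX D hP hh hD0 hDJ hN Bf s a Q q₀ σ'' lo cg hBf ((Real.exp_le_exp.2 hr2).trans hq₀)
      (hClf.mono le_rfl (by linarith) (by linarith) le_rfl le_rfl) q ps
      (9 * N₁) hq hqQ hps
      (by linarith) (by linarith) (by linarith)
      (by
        calc 9 * (N₁ : ℝ) * Real.exp cg ≤ Real.exp (Lv + 4) * Real.exp cg := by gcongr
          _ = Real.exp (Lv + 4 + cg) := by rw [← Real.exp_add]
          _ ≤ X := by rw [← Real.le_log_iff_exp_le hX0]; exact hLvg)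
      hZ0 (by linarith))
    (hlp X hX D hP hh hD0 hDJ hN Bl s a Q q₀ cc lo' x₁ cg hBl ((Real.exp_le_exp.2 hr3).trans hq₀)
      ha hlo' hx₁
      (fun q ps' k' b1 b2 b3 b4 b5 b6 b7 b8 => hClN q ps' k' b1 b2 b3 (b4.mono (by linarith)) b5
        b6 b7 (by linarith))
      q ps (9 * N₁) hq hqQ hps (by linarith) hcm (by linarith) hZ0
      (hLv1.trans (by rw [← Real.le_log_iff_exp_le hX0]; exact hLvX)) (by linarith))
    hRh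
  refine key.mono (Real.exp_pos _).le (Real.exp_pos _).le ?_
  rw [hpw_two (LF ps), ← Real.exp_add, show -β + e0 = e0 - β by ring, ← Real.exp_neg]
  exact lb_const (by positivity) hC₂ hC₃ hX1 hε hBf hBl (Real.exp_pos _).le (by positivity)
    (by
      have h1 : 0 ≤ Real.exp (e0 - β) + τ * Real.exp (-e0) := by positivity
      linarith) hRn hHJ (Real.exp_pos _).le

end Crest.Agent.R017.NEg551
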