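import Crest.Agent.R017.RX8_298
import Crest.Agent.R017.NEh_551

/-!
# Row 17, T.7 (FlatNE, exceptional class): the lower bound for the differences, sharp cut
(helper298)

* `lb_list_xs` : `lb_list_s` (NEh_551) for the differences `xs` from the claims, with the minimal
  gain `s₀`
-/

set_option autoImplicit false
set_option maxHeartbeats 1600000

noncomputable section

open Complex
open scoped ComplexConjugate

namespace Crest.Agent.R017.RX298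

open Crest.Agent.R012 Crest.Agent.R012.Eis Crest.Agent.R012.LS2 Crest.Agent.R012.Gauss880
open Crest.Agent.R012.MC (Wgt)
open Crest.Agent.R012.Weight600 (osc pw)
open Crest.Agent.R017.CM106 Crest.Agent.R017.HP842 Crest.Agent.R017.FE47
open Crest.Agent.R017.End699 hiding pw
open Crest.Agent.R017.B770
open Crest.Agent.R017.Prov71
open Crest.Agent.R017.Rough381 (VF VF_nonneg)
open Crest.Agent.R017.Leg381
open Crest.Agent.R017.E1551 (sg tws yv JB)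
open Crest.Agent.R017.RG64
open Crest.Agent.R017.NEg551 (LBq LBS)
open Crest.Agent.R017.LegK545 (VK SFK JBK VK_nonneg)
open Crest.Agent.R017.RGK545 (ClXK ClK ClNK)
open Crest.Agent.R017.PX764 (Dk)
open Crest.Agent.R017.LBo813 (norm_list_le)
open Crest.Agent.R017.NEsm551 (rhs)

/-- the constants: one common bias -/
lemma lbs_const {C P f A B E G R H E2 : ℝ} (hC : 0 ≤ C) (hP : 0 ≤ P) (hf : 0 ≤ f) (hA : 0 ≤ A)
    (hB : 0 ≤ B) (hE : 0 ≤ E) (hG : 0 ≤ G) (hR : 0 ≤ R) (hH : 0 ≤ H) (hE2 : 0 ≤ E2) :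
    (C * P * (1 + f * ((A + E) + (B * G + E) * 1) + R)) * H * E2 ≤
      (2 * C * P * (1 + f * (A + E + B * G) + R)) * H * E2 := by
  have h1 : 1 + f * ((A + E) + (B * G + E) * 1) + R ≤ 2 * (1 + f * (A + E + B * G) + R) := by
    have h2 : 0 ≤ f * (A + B * G) := by positivity
    nlinarith
  calc (C * P * (1 + f * ((A + E) + (B * G + E) * 1) + R)) * H * E2 ≤
      (C * P * (2 * (1 + f * (A + E + B * G) + R))) * H * E2 := by gcongr
    _ = _ := by ring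

/-- **the lower bound for the differences**, sharp cut -/
theorem lb_list_xs {h : ℝ → ℝ} {c : ℝ} (hpu : PU h c) (N : ℕ) {w : ℝ → ℝ}
    {τ : ℝ} (hτ : 0 ≤ τ) {Rh : LBq → (Eis → ℂ) → ℝ → Prop} (hLB : LBS w τ Rh)
    {R Ca Cw η₀ ε J B₀ : ℝ} {Jn Aw : ℕ}
    (hR : 0 ≤ R) (hAL : XDp h N R Ca) (hCw : 0 ≤ Cw) (hη₀ : 0 < η₀) (hη₀1 : η₀ ≤ 1) (hε : 0 < ε)
    (hJ : 6 ≤ J) (hJn : (N : ℝ) * J ≤ Jn) (hJ12 : 12 ≤ Jn) (hAw : Jn + 2 ≤ Aw) (hB₀ : 1 ≤ B₀) :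
    ∃ C r X₁ : ℝ, 0 ≤ C ∧ 0 ≤ r ∧ ∀ X : ℝ, 3 ≤ X → X₁ ≤ X → ∀ D : Dat, DX h N J B₀ X D →
    D.κ ≤ Real.log X →
    ∀ Bf Br Bl s a Q q₀ cd cg cc x₁ lo lo' σ'' s₀ d₀ bb : ℝ, 0 ≤ Bf → 0 ≤ Br → 0 ≤ Bl →
    Real.exp r ≤ q₀ → 0 ≤ a →
    lo' ≤ 0 → 0 ≤ x₁ → cd ≤ Real.log X → 0 ≤ cg →
    ClXK Dk (ex0 D.κ) D (Ge lo) Bf (s + r) (a + r) (Q * q₀) σ'' →
    ClXK Dk (ex0 D.κ) (Dr d₀ D) (Ge lo) Br (2 * s + r) (a + r) (Q * q₀) σ'' →
    ClNK Dk D (exJ D.κ D.v D.n cc) Bl (s + r) (a + r) (Q * q₀) lo' (D.n - cc + x₁) →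
    ClNK Dk (Dr d₀ D) (exJ D.κ D.v D.n cc) Bl (2 * s + r) (a + r) (Q * q₀) lo'
      (D.n - cc + x₁) →
    ∀ (q : Eis) (ps : List Pf), QXm B₀ X s Q s₀ d₀ D q ps →
    R + LF ps ≤ Real.log X → D.n - cc ≤ LF ps → LF ps + r ≤ σ'' →
    lo + cg + N * Real.log D.D0 + r ≤ LF ps → LF ps - cg + r ≤ D.n - cc + x₁ →
    ∀ (N₁ : ℕ) (Lv : ℝ), 1 ≤ N₁ → 9 * (N₁ : ℝ) ≤ Real.exp (Lv + 4) →
    Lv + 4 ≤ Real.log X → Lv + 4 + cg ≤ Real.log X → Lv + 4 ≤ D.v + (D.n - LF ps) + a →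
    cg + 4 * Real.log D.D0 - s₀ + (LF ps + (Lv + 4) - D.κ) / 3 ≤ bb →
    ∀ e0 e1 β : ℝ, 0 ≤ e0 → e0 ≤ Real.log X → 0 ≤ β → Lv + 4 + 6 * β ≤ 2 * D.κ →
    ∀ Rn : ℝ, 0 ≤ Rn →
    Rh ⟨Cw, η₀, Aw, Real.exp D.κ, Real.exp (LF ps), X, R, Jn, N₁, Real.exp e0, Real.exp e1,
      Real.exp β, Real.exp (-β), Real.exp cd, Real.exp cg⟩
      (xs q D.z D.D0 D.P D.h d₀ ps) (Rn * Ht ps ^ J * Real.exp (2 * LF ps)) →
    LBn w Cw η₀ Aw (Real.exp D.κ) (Real.exp (LF ps)) X (Real.exp cd) N₁ (rhs N₁) R Jn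
      (xs q D.z D.D0 D.P D.h d₀ ps)
      ((C * X ^ (5 * ε) * (1 + (Real.exp (e0 - β) + τ * Real.exp (-e0)) *
        (Bf + Br + Real.exp bb + (Bl + Bl) * Real.exp (N * Real.log D.D0 + a)) + Rn)) *
          Ht ps ^ J * Real.exp (2 * LF ps)) := by
  have hJ0 : 0 ≤ J := by linarith
  obtain ⟨C₁, hC₁, hLB1⟩ := hLB Cw R ε Aw Jn hCw hR hε hAw
  obtain ⟨C₂, r₂, hC₂, hr₂, hsa⟩ := x_sa0m hpu N hB₀ hε hJ hJn hJ12
  obtain ⟨C₃, r₃, hC₃, hr₃, hlp⟩ := x_lpm hpu N hB₀ hε hJ hJn hJ12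
  obtain ⟨C₄, hC₄, hnl⟩ := norm_list_le hpu N (half_pos hε)
  obtain ⟨X₄, hX₄⟩ : ∃ x : ℝ, x = (2 * C₄) ^ (2 / ε) := ⟨_, rfl⟩
  refine ⟨2 * (4 * (C₁ * (η₀⁻¹) ^ (2 * Jn + 2)) * C₂ * C₃), max r₂ r₃, max Ca X₄, by positivity,
    hr₂.trans (le_max_left _ _), ?_⟩
  intro X hX hXX D hD hκX Bf Br Bl s a Q q₀ cd cg cc x₁ lo lo' σ'' s₀ d₀ bb hBf hBr hBl hq₀ ha
    hlo' hx₁ hcdX hcg hClf hClr hClN hClNr q ps hq hRX hcm hσ hlo hgc N₁ Lv hN0
    hLv1 hLvX hLvg hLva hbb e0 e1 β he0 he0X hβ hβκ Rn hRn hRh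
  have hP := hD.ok
  have hh := hD.hh
  have hps := hq.sb
  have hX1 : (1 : ℝ) ≤ X := by linarith
  have hX0 : 0 < X := by linarith
  have hr2 : r₂ ≤ max r₂ r₃ := le_max_left _ _
  have hr3 : r₃ ≤ max r₂ r₃ := le_max_right _ _
  have hlen : ps.length ≤ N := hps.length ▸ hD.len
  have hlenr : (rp d₀ ps).length ≤ N := by rw [rp_length]; exact hlen
  have hLF0 : 0 ≤ LF ps := LF_nonneg hps.z_nonneg
  have hHt := one_le_Ht ps
  have hHJ : 1 ≤ Ht ps ^ J := Real.one_le_rpow hHt hJ0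
  have hexpX : Real.exp (LF ps) ≤ X := by
    rw [← Real.le_log_iff_exp_le hX0]; linarith
  have hN1 : (1 : ℝ) ≤ N₁ := by exact_mod_cast hN0
  have hN1' : (N₁ : ℝ) ≤ Real.exp (Lv + 4) := by
    have := Real.exp_pos (Lv + 4)
    linarith
  have hZ0 : 0 < 9 * (N₁ : ℝ) := by positivity
  have hlZ : Real.log (9 * (N₁ : ℝ)) ≤ Lv + 4 := by
    rw [← Real.log_exp (Lv + 4)]
    exact Real.log_le_log hZ0 hLv1
  obtain ⟨a1, a2, -, hFS⟩ := hAL D.z D.D0 D.P hP q ps (rp d₀ ps) (zt d₀ ps) hlen hlenr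
    (LF_rp _ _) (norm_zt d₀ ps).le X ((le_max_left _ _).trans hXX) (by
    rw [← Real.exp_add, ← Real.le_log_iff_exp_le hX0]; linarith)
  rw [← hh] at a1 a2
  have key := hLB1 (Real.exp D.κ) (Real.exp (LF ps)) X (Real.exp cd) (Real.exp cg) (Real.exp e0)
    (Real.exp e1) (Real.exp β) (Real.exp (-β)) η₀ N₁
    (Real.exp_pos _) (by rw [← Real.le_log_iff_exp_le hX0]; exact hκX) (Real.exp_pos _) hX1
    (Real.exp_pos _).le (by rw [← Real.le_log_iff_exp_le hX0]; exact hcdX)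
    (Real.one_le_exp he0) (by rw [← Real.le_log_iff_exp_le hX0]; exact he0X)
    (Real.one_le_exp hβ) (Real.exp_pos _) (by rw [Real.exp_neg]) hN0
    (hN1'.trans (by rw [← Real.le_log_iff_exp_le hX0]; exact hLvX))
    (by
      have h1 : (N₁ : ℝ) / Real.exp D.κ ^ 2 ≤ Real.exp (-β) ^ 6 := by
        rw [div_le_iff₀ (by positivity), hpw_two D.κ, ← Real.exp_nat_mul, ← Real.exp_add]
        refine hN1'.trans (Real.exp_le_exp.2 ?_)
        push_cast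
        linarith
      calc ((N₁ : ℝ) / Real.exp D.κ ^ 2) ^ (1 / 6 : ℝ) ≤ (Real.exp (-β) ^ 6) ^ (1 / 6 : ℝ) :=
            Real.rpow_le_rpow (by positivity) h1 (by norm_num)
        _ = Real.exp (-β) := by
            rw [← Real.rpow_natCast, ← Real.rpow_mul (Real.exp_pos _).le]
            norm_num)
    hη₀ hη₀1 (xs q D.z D.D0 D.P D.h d₀ ps) a1 a2
    (by
      intro n
      by_cases h0 : xs q D.z D.D0 D.P D.h d₀ ps n = 0
      · rw [h0, norm_zero]; positivity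
      have hn := a1 n h0
      have h1 := hnl D.z D.D0 D.P hP q ps hlen X hX1 n hn
      have h1r := hnl D.z D.D0 D.P hP q (rp d₀ ps) hlenr X hX1 n hn
      rw [← hh] at h1 h1r
      have h3 : ‖xs q D.z D.D0 D.P D.h d₀ ps n‖ ≤ 2 * C₄ * X ^ (ε / 2) := by
        unfold xs
        refine (norm_sub_le _ _).trans ?_
        rw [norm_mul, norm_zt, one_mul]
        linarith
      refine h3.trans ?_
      have h2 : 2 * C₄ ≤ X ^ (ε / 2) := by
        have h3 : 2 * C₄ = X₄ ^ (ε / 2) := by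
          rw [hX₄, ← Real.rpow_mul (by linarith)]
          have : 2 / ε * (ε / 2) = 1 := by field_simp
          rw [this, Real.rpow_one]
        rw [h3]
        refine Real.rpow_le_rpow ?_ ((le_max_right _ _).trans hXX) (by positivity)
        rw [hX₄]; positivity
      calc 2 * C₄ * X ^ (ε / 2) ≤ X ^ (ε / 2) * X ^ (ε / 2) := by gcongr
        _ = X ^ ε := by rw [← Real.rpow_add hX0]; congr 1; ring)
    (C₂ * X ^ ε * (Bf + Br + Real.exp bb) * Ht ps ^ J * Real.exp (2 * LF ps))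
    (C₃ * X ^ ε * ((Bl + Bl) * Real.exp (N * Real.log D.D0 + a) + Real.exp bb) * Ht ps ^ J *
      Real.exp (2 * LF ps))
    (Rn * Ht ps ^ J * Real.exp (2 * LF ps)) (by positivity) (by positivity) (by positivity)
    (hsa X hX D hD Bf Br bb s a Q q₀ σ'' lo cg s₀ d₀ hBf hBr hcg
      ((Real.exp_le_exp.2 hr2).trans hq₀)
      (hClf.mono le_rfl (by linarith) (by linarith) le_rfl le_rfl)
      (hClr.mono le_rfl (by linarith) (by linarith) le_rfl le_rfl)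
      q ps (9 * N₁) hq (by linarith) (by linarith)
      (by
        calc 9 * (N₁ : ℝ) * Real.exp cg ≤ Real.exp (Lv + 4) * Real.exp cg := by gcongr
          _ = Real.exp (Lv + 4 + cg) := by rw [← Real.exp_add]
          _ ≤ X := by rw [← Real.le_log_iff_exp_le hX0]; exact hLvg)
      hZ0 (by linarith) (by linarith))
    (hlp X hX D hD Bl Bl bb s a Q q₀ cc lo' x₁ cg s₀ d₀ hBl hBl
      ((Real.exp_le_exp.2 hr3).trans hq₀) ha hlo' hx₁
      (fun q ps' k' b1 b2 b3 b4 b5 b6 b7 b8 => hClN q ps' k' b1 b2 b3 (b4.mono (by linarith)) b5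
        b6 b7 (by linarith))
      (fun q ps' k' b1 b2 b3 b4 b5 b6 b7 b8 => hClNr q ps' k' b1 b2 b3 (b4.mono (by linarith)) b5
        b6 b7 (by linarith))
      q ps (9 * N₁) hq hcm (by linarith) hZ0
      (hLv1.trans (by rw [← Real.le_log_iff_exp_le hX0]; exact hLvX)) (by linarith)
      (by linarith))
    hRh
  refine key.mono (Real.exp_pos _).le (Real.exp_pos _).le ?_
  rw [hpw_two (LF ps), ← Real.exp_add, show -β + e0 = e0 - β by ring, ← Real.exp_neg]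
  have hf : 0 ≤ Real.exp (e0 - β) + τ * Real.exp (-e0) := by positivity
  have h0 := lb_const (C₁ := C₁ * (η₀⁻¹) ^ (2 * Jn + 2)) (C₂ := C₂) (C₃ := C₃) (X := X) (ε := ε)
    (Bf := Bf + Br + Real.exp bb)
    (Bl := (Bl + Bl) * Real.exp (N * Real.log D.D0 + a) + Real.exp bb) (G := 1)
    (F := Real.exp (e0 - β) + τ * Real.exp (-e0)) (f := Real.exp (e0 - β) + τ * Real.exp (-e0))
    (Rn := Rn) (H := Ht ps ^ J) (E2 := Real.exp (2 * LF ps)) (by positivity) hC₂ hC₃ hX1 hε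
    (by positivity) (by positivity) zero_le_one hf (by linarith) hRn hHJ (Real.exp_pos _).le
  rw [mul_one] at h0
  refine h0.trans ?_
  exact lbs_const (A := Bf + Br) (B := Bl + Bl) (E := Real.exp bb)
    (G := Real.exp (N * Real.log D.D0 + a)) (by positivity) (by positivity) hf (by positivity)
    (by positivity) (Real.exp_pos _).le (Real.exp_pos _).le hRn (by positivity)
    (Real.exp_pos _).le

end Crest.Agent.R017.RX298
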