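import Crest.Agent.R017.RXg_848

/-!
# Row 17, T.5 / T.7: the recursion with the terminal range from natural claims (helper848)

* `term_of` : the terminal claim of flagged lists from the claims (T') of natural lists
* `fin_main2` : `fin_main` with this terminal claim
-/

set_option autoImplicit false
set_option maxHeartbeats 1600000

noncomputable section

open Complex
open scoped ComplexConjugate

namespace Crest.Agent.R017.RXg848

open Crest.Agent.R012 Crest.Agent.R012.Eis Crest.Agent.R012.LS2 Crest.Agent.R012.Gauss880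
open Crest.Agent.R017.CM106 Crest.Agent.R017.HP842 Crest.Agent.R017.FE47
open Crest.Agent.R017.End699 hiding pw
open Crest.Agent.R017.B770
open Crest.Agent.R017.Prov71
open Crest.Agent.R017.Leg381
open Crest.Agent.R017.LegK545 (VK VK_Kg VK_nonneg VK_mono SFK SFK_Kg)
open Crest.Agent.R017.XS0298 (S0K)
open Crest.Agent.R017.RG64 hiding ClX ClX.mono ClX.weaken ClX.expo ClX.union ClX.ext Cl
  leg_step2 rec_j sub_numX sub_num sub_num0 MergeList ClN large_num open_num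
open Crest.Agent.R017.RGK545
open Crest.Agent.R017.XP699 (LL hcost)

variable {Kn : Eis → Eis → ℂ}

lemma ClNK.mono {D : Dat} {E : ℝ → ℝ → ℝ} {B s a Q lo σ B' s' a' Q' lo' σ' : ℝ}
    (h : ClNK Kn D E B s a Q lo σ) (hB : B ≤ B') (hs : s' ≤ s) (ha : a' ≤ a) (hQ : Q' ≤ Q)
    (hlo : lo ≤ lo') (hσ : σ' ≤ σ) : ClNK Kn D E B' s' a' Q' lo' σ' := by
  intro q ps k hq hqQ hnat hps hL1 hL hk hk'
  refine (h q ps k hq (hqQ.trans hQ) hnat (hps.mono hs) (hlo.trans hL1) (hL.trans hσ) hk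
    (by linarith)).trans ?_
  have h1 := one_le_Ht ps
  have h2 : 0 ≤ Ht ps ^ D.J := Real.rpow_nonneg (by linarith) _
  gcongr

/-- **the terminal claim** -/
theorem term_of (hKn : Ker Kn) {h : ℝ → ℝ} {c₁ : ℝ} (hpu : PU h c₁) (N : ℕ) {ε : ℝ} (hε : 0 < ε)
    {J : ℝ} (hJ : 0 ≤ J) : ∃ C r₁ : ℝ, 1 ≤ C ∧ 0 ≤ r₁ ∧ ∀ r : ℝ, r₁ ≤ r → ∀ X : ℝ, 3 ≤ X →
    ∀ D : Dat, D.P.OK → D.h = h → 1 ≤ D.D0 → D.J = J → D.ps₀.length ≤ N →
    ∀ (B s a Q lo σ : ℝ), 0 ≤ B → 0 ≤ Q →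
    (∀ ps : List Pf, SbL s ps D.ps₀ → LF ps ≤ σ → lo ≤ LF ps →
      LF ps ≤ Real.log X ∧ D.v + (D.n - LF ps) + a ≤ Real.log X) →
    ClNK Kn D (ex0 D.κ) B (s + r) (a + r) (Q * Real.exp (N * r)) (lo - N * (Real.log D.D0 + r))
      (σ + N * r) →
    ClK Kn D (Ge lo) (C * X ^ ε * B) s a Q σ := by
  obtain ⟨C, r₁, hC, hr₁, H⟩ := RGK545.open_num hKn hpu N hε hJ
  refine ⟨C, r₁, hC, hr₁, ?_⟩
  intro r hr X hX D hP hh hD0 hDJ hN B s a Q lo σ hB hQ hlog hcl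
  have hN0 : (0 : ℝ) ≤ N := Nat.cast_nonneg _
  have hNr : (N : ℝ) * r₁ ≤ N * r := mul_le_mul_of_nonneg_left hr hN0
  have key := H X hX D hP hh hD0 hDJ hN B s a Q (Real.exp (N * r₁)) lo
    (lo - N * (Real.log D.D0 + r₁)) σ (σ + N * r₁) hB le_rfl hlog le_rfl le_rfl
    (ClNK.mono hcl le_rfl (by linarith) (by linarith)
      (mul_le_mul_of_nonneg_left (Real.exp_le_exp.2 hNr) hQ) (by linarith) (by linarith))
  have hX0 : 0 < X := by linarith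
  exact key.expo (by positivity) fun k m => ex0_le_fl _ _ _

/-- **the recursion** : the terminal range from the claims (T') of natural lists -/
theorem fin_main2 (hKn : Ker Kn) {h : ℝ → ℝ} {c₁ : ℝ} (hpu : PU h c₁) (N : ℕ) {J : ℝ} (hJ : 0 ≤ J)
    {c c₂ δ ε c₀ : ℝ} (hc : 0 < c) (hc₂ : 0 ≤ c₂) (hδ : 0 < δ) (hδc : 4 * N * δ ≤ c) (hε : 0 < ε)
    (hc₀ : 0 ≤ c₀) :
    ∃ (m : ℕ) (η : ℝ), 0 < η ∧ 2 * m * η ≤ ε ∧ ∀ C' r' : ℝ, 1 ≤ C' → 0 ≤ r' → ∃ C r X₁ : ℝ,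
      1 ≤ C ∧ r' ≤ r ∧ 3 ≤ X₁ ∧ ∀ X : ℝ, X₁ ≤ X → ∀ D : Dat, D.P.OK → D.h = h →
      D.D0 = X ^ δ → D.J = J → D.ps₀.length ≤ N → (∀ p ∈ D.ps₀, 0 ≤ p.z) →
      D.n = LL Dq D.ps₀ → D.n ≤ c₀ * Real.log X → D.v ≤ c₀ * Real.log X →
      ∀ G B₁ C₂ α a lo σ₀ : ℝ, 0 ≤ G → 0 ≤ B₁ → 0 ≤ C₂ → C₂ ≤ C' * X ^ η → r ≤ α →
      α ≤ η * Real.log X → 0 ≤ a → a ≤ ε / 2 * Real.log X → D.n - c₂ * Real.log X ≤ lo →
      lo + c * Real.log X ≤ σ₀ → σ₀ ≤ D.n →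
      ClNK Kn D (ex0 D.κ) B₁ (m * (2 * r) + r) (a + m * (2 * α) + r)
        (Real.exp (D.n + (2 * m + 1) * (N * r))) (lo - N * (δ * Real.log X + r))
        (σ₀ + N * r) →
      (∀ B s' a' Q' σ' : ℝ, 0 ≤ B → 0 ≤ s' → s' + r ≤ m * (2 * r) → a ≤ a' →
        a' + α ≤ a + m * (2 * α) → 0 ≤ Q' →
        Q' * Real.exp (N * r) ≤ Real.exp (D.n + 2 * m * (N * r)) →
        ClK Kn D (Ge lo) B (s' + r) (a' + α) (Q' * Real.exp (N * r))
          (σ' - Real.log D.D0 + r) →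
        ClK Kn D (NTGe σ₀) (G + C₂ * B) s' a' Q' σ') →
      ∀ k : ℝ, 0 ≤ k → k ≤ D.v → S0K Kn D.P D.h k D.ps₀ ≤
        C * X ^ ε * (G + B₁) * Ht (natl D.ps₀) ^ J * Real.exp (fl D.κ k D.n) := by
  obtain ⟨m, η, hη, hmη, H⟩ := fin_main hKn hpu N hJ hc hc₂ hδ hδc (half_pos hε) hc₀
  refine ⟨m, η, hη, by linarith, ?_⟩
  intro C' r' hC' hr'
  obtain ⟨b, hb⟩ : ∃ b : ℝ, b = c₀ + c₂ + 2 * ε + 1 := ⟨_, rfl⟩
  have hb1 : 1 ≤ b := by rw [hb]; linarith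
  have hb0 : 0 < b := by linarith
  obtain ⟨C₃, r₃, hC₃, hr₃, HT⟩ := term_of hKn hpu N (ε := ε / 2 / b) (by positivity) hJ
  obtain ⟨C, r, X₁, hC, hr, hX₁, H1⟩ := H C' (max r' r₃) hC' (hr'.trans (le_max_left _ _))
  have hrr' : r' ≤ r := (le_max_left _ _).trans hr
  have hrr₃ : r₃ ≤ r := (le_max_right _ _).trans hr
  have hr0 : 0 ≤ r := hr'.trans hrr'
  have hN0 : (0 : ℝ) ≤ N := Nat.cast_nonneg _
  have hm0 : (0 : ℝ) ≤ m := Nat.cast_nonneg _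
  obtain ⟨T, hT⟩ : ∃ T : ℝ, T = N * (m * (2 * r)) + 1 := ⟨_, rfl⟩
  have t3 : 0 ≤ N * (m * (2 * r)) := by positivity
  refine ⟨C * C₃, r, max X₁ (Real.exp T), one_le_mul_of_one_le_of_one_le hC hC₃, hrr',
    hX₁.trans (le_max_left _ _), ?_⟩
  intro X hX D hP hh hD0 hDJ hN hz hn hnX hvX G B₁ C₂ α a lo σ₀ hG hB₁ hC₂ hC₂' hα hα' ha ha'
    hlo1 hlo2 hσn hT0 hNT k hk hkv
  have hXX₁ : X₁ ≤ X := (le_max_left _ _).trans hX
  have hXT : Real.exp T ≤ X := (le_max_right _ _).trans hX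
  have hX0 : 0 < X := (Real.exp_pos T).trans_le hXT
  have hX3 : 3 ≤ X := hX₁.trans hXX₁
  have hX1 : 1 ≤ X := by linarith
  have hlogX : T ≤ Real.log X := by
    rw [Real.le_log_iff_exp_le hX0]; exact hXT
  obtain ⟨L, hL⟩ : ∃ L : ℝ, L = Real.log X := ⟨_, rfl⟩
  have hL0 : 0 < L := by rw [hL]; linarith
  have hXb : (3 : ℝ) ≤ X ^ b := by
    have := Real.rpow_le_rpow_of_exponent_le hX1 hb1
    rw [Real.rpow_one] at this
    linarith
  have hlXb : Real.log (X ^ b) = b * L := by rw [Real.log_rpow hX0, hL]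
  have hlD : Real.log D.D0 = δ * L := by rw [hD0, Real.log_rpow hX0, hL]
  have hD01 : 1 ≤ D.D0 := by rw [hD0]; exact Real.one_le_rpow hX1 hδ.le
  have eQ : ∀ Q : ℝ, Q * (Real.exp (N * r) ^ 2) ^ m = Q * Real.exp (2 * m * (N * r)) := by
    intro Q
    rw [← pow_mul, ← Real.exp_nat_mul]
    push_cast
    congr 2
  have eQ1 : Real.exp D.n * (Real.exp (N * r) ^ 2) ^ m = Real.exp (D.n + 2 * m * (N * r)) := by
    rw [eQ, ← Real.exp_add]
  have hterm : ClK Kn D (Ge lo) (C₃ * X ^ (ε / 2) * B₁) (m * (2 * r)) (a + m * (2 * α))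
      (Real.exp (D.n + 2 * m * (N * r))) σ₀ := by
    have h1 := HT r hrr₃ (X ^ b) hXb D hP hh hD01 hDJ hN B₁ (m * (2 * r)) (a + m * (2 * α))
      (Real.exp (D.n + 2 * m * (N * r))) lo σ₀ hB₁ (Real.exp_pos _).le ?_ ?_
    · have e1 : (X ^ b) ^ (ε / 2 / b) = X ^ (ε / 2) := by
        rw [← Real.rpow_mul hX0.le]
        congr 1
        field_simp
      rwa [e1] at h1
    · intro ps hps hL1 hl1
      rw [hlXb]
      rw [← hL] at hα' hnX hvX ha' hlo1 hlo2 hlogX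
      have hns : LF ps ≤ D.n + N * (m * (2 * r)) := by
        have := hps.LF_le (by positivity) hN
        rwa [LF_natl, ← hn] at this
      have g1 : (c₀ + 1) * L ≤ b * L := mul_le_mul_of_nonneg_right (by rw [hb]; linarith) hL0.le
      have g2 : (c₀ + c₂ + 2 * ε) * L ≤ b * L := mul_le_mul_of_nonneg_right
        (by rw [hb]; linarith) hL0.le
      refine ⟨by linarith, ?_⟩
      have g3 : (m : ℝ) * (2 * α) ≤ ε * L := by
        have h1 : (m : ℝ) * (2 * α) ≤ m * (2 * (η * L)) := by gcongr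
        have h2 : m * (2 * (η * L)) = 2 * m * η * L := by ring
        have h3 : 2 * m * η * L ≤ ε / 2 * L := mul_le_mul_of_nonneg_right hmη hL0.le
        have h4 : 0 ≤ ε * L := by positivity
        linarith
      linarith
    · rw [hlD, ← Real.exp_add]
      rw [← hL] at hT0
      refine ClNK.mono hT0 le_rfl le_rfl (by linarith) (Real.exp_le_exp.2 (by linarith)) le_rfl
        le_rfl
  have key := H1 X hXX₁ D hP hh hD0 hDJ hN hz hn hnX hvX G (C₃ * X ^ (ε / 2) * B₁) C₂ α a lo σ₀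
    hG (by positivity) hC₂ hC₂' ((le_refl r).trans hα) hα' ha ha' hlo1 hlo2 hσn
    (by rw [eQ1]; exact hterm)
    (fun B s' a' Q' σ' b1 b2 b3 b4 b5 b6 b7 b8 => hNT B s' a' Q' σ' b1 b2 b3 b4 b5 b6
      (by rw [eQ1] at b7; exact b7) b8) k hk hkv
  · refine key.trans ?_
    have hH := one_le_Ht (natl D.ps₀)
    have h7 : 0 ≤ Ht (natl D.ps₀) ^ J := Real.rpow_nonneg (by linarith) _
    have h8 : 1 ≤ C₃ * X ^ (ε / 2) :=
      one_le_mul_of_one_le_of_one_le hC₃ (Real.one_le_rpow hX1 (by positivity))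
    have h9 : G + C₃ * X ^ (ε / 2) * B₁ ≤ C₃ * X ^ (ε / 2) * (G + B₁) := by
      have : 1 * G ≤ C₃ * X ^ (ε / 2) * G := mul_le_mul_of_nonneg_right h8 hG
      linarith
    have h10 : X ^ ε = X ^ (ε / 2) * X ^ (ε / 2) := by
      rw [← Real.rpow_add hX0]; congr 1; ring
    calc C * X ^ (ε / 2) * (G + C₃ * X ^ (ε / 2) * B₁) * Ht (natl D.ps₀) ^ J *
          Real.exp (fl D.κ k D.n) ≤
        C * X ^ (ε / 2) * (C₃ * X ^ (ε / 2) * (G + B₁)) * Ht (natl D.ps₀) ^ J *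
          Real.exp (fl D.κ k D.n) := by gcongr
      _ = _ := by rw [h10]; ring

end Crest.Agent.R017.RXg848
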