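import Crest.Agent.R017.RXn_848
import Crest.Agent.R017.RXh_848

/-!
# Row 17, T.7 (RG rule, exceptional class): the recursion, finite text (helper848)

* `rgFinX_of` : `RgFinX` (helper545) from the lower bound `LBN` and the leaf `RLeafX`
-/

set_option autoImplicit false
set_option maxHeartbeats 1600000

noncomputable section

open Complex
open scoped ComplexConjugate

namespace Crest.Agent.R017.RXk848

open Crest.Agent.R012 Crest.Agent.R012.Eis Crest.Agent.R012.LS2 Crest.Agent.R012.Gauss880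
open Crest.Agent.R017.CM106 Crest.Agent.R017.HP842 Crest.Agent.R017.FE47
open Crest.Agent.R017.End699 hiding pw
open Crest.Agent.R017.B770
open Crest.Agent.R017.Prov71
open Crest.Agent.R017.Leg381
open Crest.Agent.R017.RG64
open Crest.Agent.R017.LegK545 (VK SFK)
open Crest.Agent.R017.RGK545 (ClXK ClK ClNK)
open Crest.Agent.R017.PX764 (Dk)
open Crest.Agent.R017.Dk848 (ker_Dk)
open Crest.Agent.R017.XS0298 (S0K)
open Crest.Agent.R017.RuleM545 (xv)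
open Crest.Agent.R017.RGB545
open Crest.Agent.R017.XP699 (LL Chd hcost cst)
open Crest.Agent.R017.RX298 (xs rpB Dr rpB_length LF_natl_rpB DX QX XDp exists_XDp)
open Crest.Agent.R017.LBo813 (rho rho_one rho_zero rho_anti)
open Crest.Agent.R017.RXg848 (Ht_natl LF_natl SFK_natl_one)

/-- the data with the list itself -/
def Df (P : DPar) (h : ℝ → ℝ) (z : ℝ) (ps₀ : List Pq) (J κ n : ℝ) (V : ℝ) : Dat where
  P := P
  h := h
  z := z
  D0 := z
  ps₀ := ps₀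
  J := J
  κ := κ
  v := V
  n := n

lemma Dt_false (P : DPar) (h : ℝ → ℝ) (δ X : ℝ) (ps₀ : List Pq) (J K d₀ n V : ℝ) :
    Dt P h δ X ps₀ J K d₀ n false V = Df P h (X ^ δ) ps₀ J (K * Real.log X) n V := by
  unfold Dt Df
  rw [rbx_false]

lemma Dr_Df (P : DPar) (h : ℝ → ℝ) (δ X : ℝ) (ps₀ : List Pq) (J K d₀ n V : ℝ) :
    Dr (d₀ * Real.log X) (Df P h (X ^ δ) ps₀ J (K * Real.log X) n V) =
      Dt P h δ X ps₀ J K d₀ n true V := by
  rw [← Dt_false P h δ X ps₀ J K d₀, Dr_Dt]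

section
variable {Lam ι : Type*} {p : ℕ} {π : Lam → DPar} {h : ℝ → ℝ} {L : ι → Line Lam p} {lam : Lam}
  {K v c d₀ ε M r bm X k Bd δ J : ℝ} {ps₀ : List Pq}

/-- **the claims of the recursion and of the lower bound**, for the list and the replaced list -/
structure ClsX (P : DPar) (h : ℝ → ℝ) (z : ℝ) (ps₀ : List Pq) (J κ n l v c τ da B x3 r bm : ℝ) :
    Prop where
  jf : ∀ V s a Q lo σ : ℝ, s ≤ r → Q ≤ bm → V + a ≤ v * l + τ * l → V ≤ v * l →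
    σ ≤ n - c * l + τ * l →
    ClNK Dk (Df P h z ps₀ J κ n V) (exJ κ V n (c * l)) B s a Q lo σ
  jt : ∀ V s a Q lo σ : ℝ, s ≤ r → Q ≤ bm → V + a ≤ v * l + τ * l → V ≤ v * l →
    σ ≤ n - c * l + τ * l →
    ClNK Dk (Dr da (Df P h z ps₀ J κ n V)) (exJ κ V n (c * l)) B s a Q lo σ
  pf : ∀ V s a Q lo σ : ℝ, s ≤ r → Q ≤ bm → V + a ≤ v * l + τ * l →
    n - 2 * (c * l) - τ * l ≤ lo → σ ≤ n - c * l + τ * l →
    ClNK Dk (Df P h z ps₀ J κ n V) (ex0 κ) B s a Q lo σ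
  tf : ∀ V s a Q lo σ : ℝ, s ≤ r → Q ≤ bm → V + a ≤ v * l + τ * l →
    n - 2 * (c * l) - τ * l ≤ lo →
    ClNK Dk (Df P h z ps₀ J κ n V) (ex0 κ) (B * x3) s a Q lo σ
  tt : ∀ V s a Q lo σ : ℝ, s ≤ r → Q ≤ bm → V + a ≤ v * l + τ * l →
    n - 2 * (c * l) - τ * l ≤ lo →
    ClNK Dk (Dr da (Df P h z ps₀ J κ n V)) (ex0 κ) B s a Q lo σ

lemma clsX_of (hpr : PremX (fun lam => S0K PX764.Dk (π lam) h) L lam K v c d₀ ε M r bm X k Bd ps₀)
    (hX : 1 < X) (hK : 0 ≤ K) (hv : v ≤ K) {τ : ℝ} (hτ1 : τ ≤ 1) (hτε : τ ≤ ε) (hτ0 : 0 ≤ τ)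
    (hn : LL Dq ps₀ ≤ (K + 1) * Real.log X) (hBd : 0 ≤ Bd) (hM : 0 ≤ M) (hMJ : M ≤ J) :
    ClsX (π lam) h (X ^ δ) ps₀ J (K * Real.log X) (LL Dq ps₀) (Real.log X) v c τ
      (d₀ * Real.log X)
      ((1 + Bd * X ^ (-(Ar K ![k / Real.log X, LL Dq ps₀ / Real.log X]))) * Ht (natl ps₀) ^ J)
      (X ^ (c / 3)) r bm := by
  have hX0 : 0 < X := by linarith
  have hB0 : 0 ≤ Bd * X ^ (-(Ar K ![k / Real.log X, LL Dq ps₀ / Real.log X])) := by positivity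
  have hB1 : Bd * X ^ (-(Ar K ![k / Real.log X, LL Dq ps₀ / Real.log X])) ≤
      1 + Bd * X ^ (-(Ar K ![k / Real.log X, LL Dq ps₀ / Real.log X])) := by linarith
  have hH : 0 ≤ Ht (natl ps₀) ^ J := by
    have := one_le_Ht (natl ps₀)
    positivity
  have hBH := mul_le_mul_of_nonneg_right hB1 hH
  constructor
  · intro V s a Q lo σ h1 h2 h3 h4 h5
    have := clN_J (δ := δ) (J := J) (t := false) (V := V) (s := s) (a := a) (Q := Q) (lo := lo) (σ := σ) hpr hX hK hv hτ1 hτε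
      hτ0 hn hBd hM hMJ h1 h2
      (by linarith) h4 (by linarith)
    rw [Dt_false] at this
    exact RXg848.ClNK.mono this hBH le_rfl le_rfl le_rfl le_rfl le_rfl
  · intro V s a Q lo σ h1 h2 h3 h4 h5
    have := clN_J (δ := δ) (J := J) (t := true) (V := V) (s := s) (a := a) (Q := Q) (lo := lo) (σ := σ) hpr hX hK hv hτ1 hτε
      hτ0 hn hBd hM hMJ h1 h2
      (by linarith) h4 (by linarith)
    rw [← Dr_Df] at this
    exact RXg848.ClNK.mono this hBH le_rfl le_rfl le_rfl le_rfl le_rfl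
  · intro V s a Q lo σ h1 h2 h3 h4 h5
    have := clN_tp (δ := δ) (J := J) (t := false) (V := V) (s := s) (a := a) (Q := Q) (lo := lo) (σ := σ) hpr hX hK hv hτ1 hτε
      hn hBd hM hMJ h1 h2
      (by linarith) (by linarith) (by linarith)
    rw [Dt_false] at this
    exact RXg848.ClNK.mono this hBH le_rfl le_rfl le_rfl le_rfl le_rfl
  · intro V s a Q lo σ h1 h2 h3 h4
    have := clN_t0 (δ := δ) (J := J) (t := false) (V := V) (s := s) (a := a) (Q := Q) (lo := lo) (σ := σ) hpr hX hK hv hτ1 hτε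
      hn hBd hM hMJ h1 h2
      (by linarith) (by linarith)
    rw [Dt_false] at this
    refine RXg848.ClNK.mono this ?_ le_rfl le_rfl le_rfl le_rfl le_rfl
    have e : (if (false : Bool) = true then (0 : ℝ) else c / 3) = c / 3 := by simp
    rw [e]
    have hx : 0 ≤ X ^ (c / 3) := by positivity
    calc Bd * X ^ (-(Ar K ![k / Real.log X, LL Dq ps₀ / Real.log X])) * X ^ (c / 3) *
          Ht (natl ps₀) ^ J =
        (Bd * X ^ (-(Ar K ![k / Real.log X, LL Dq ps₀ / Real.log X])) * Ht (natl ps₀) ^ J) *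
          X ^ (c / 3) := by ring
      _ ≤ _ := mul_le_mul_of_nonneg_right hBH hx
  · intro V s a Q lo σ h1 h2 h3 h4
    have := clN_t0 (δ := δ) (J := J) (t := true) (V := V) (s := s) (a := a) (Q := Q) (lo := lo) (σ := σ) hpr hX hK hv hτ1 hτε
      hn hBd hM hMJ h1 h2
      (by linarith) (by linarith)
    rw [← Dr_Df] at this
    refine RXg848.ClNK.mono this ?_ le_rfl le_rfl le_rfl le_rfl le_rfl
    have e : (if (true : Bool) = true then (0 : ℝ) else c / 3) = 0 := by simp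
    rw [e, Real.rpow_zero, mul_one]
    exact hBH

end

/-- the exponents of the unconditional term -/
lemma Ax_eq {K v c d₀ k n l : ℝ} (hl : 0 < l) :
    Ax K v c d₀ ![k / l, n / l] * l =
      RG64.fl (K * l) k n + max 0 (2 / 3 * v - n / l / 3 - d₀ + c) * l := by
  have e0 : (![k / l, n / l] : Fin 2 → ℝ) 0 = k / l := rfl
  have e1 : (![k / l, n / l] : Fin 2 → ℝ) 1 = n / l := rfl
  unfold Ax RG64.fl
  rw [e0, e1]
  have h1 : max (2 * (n / l)) (2 / 3 * v + 5 / 3 * (n / l) - d₀ + c) =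
      2 * (n / l) + max 0 (2 / 3 * v - n / l / 3 - d₀ + c) := by
    rw [← max_add_add_left]
    congr 1
    · ring
    · ring
  have h2 : max 0 ((k / l + K - 2 * (n / l)) / 3) * l = max 0 ((k - 2 * n + K * l) / 3) := by
    rw [max_mul_of_nonneg _ _ hl.le, zero_mul]
    congr 1
    field_simp
    ring
  have h3 : 2 * (n / l) * l = 2 * n := by field_simp
  rw [h1, add_mul, add_mul, h2, h3]
  ring

lemma Ar_eq {K k n l : ℝ} (hl : 0 < l) : Ar K ![k / l, n / l] * l = RG64.fl (K * l) k n := by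
  have e0 : (![k / l, n / l] : Fin 2 → ℝ) 0 = k / l := rfl
  have e1 : (![k / l, n / l] : Fin 2 → ℝ) 1 = n / l := rfl
  unfold Ar RG64.fl
  rw [e0, e1]
  have h2 : max 0 ((k / l + K - 2 * (n / l)) / 3) * l = max 0 ((k - 2 * n + K * l) / 3) := by
    rw [max_mul_of_nonneg _ _ hl.le, zero_mul]
    congr 1
    field_simp
    ring
  have h3 : 2 * (n / l) * l = 2 * n := by field_simp
  rw [add_mul, h2, h3]

/-- the numbers at the threshold, `l = log X`: `ca = c l`, `va = v l`, `ka = K l`, `ta = τ l`, `da = d₀ l`,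
`ba = b l`, `ea = δ l`, `ma = μ l` -/
structure Thr (N l ca va ka ta da ba ea ma n k Sg rl ro R NS Nrl Nro Ne : ℝ) : Prop where
  l0 : 0 < l
  c0 : 0 < ca
  cK : 60 * ca ≤ ka
  v0 : 0 ≤ va
  v3 : 3 * va + 300 * ca ≤ 2 * ka
  d0 : 0 ≤ da
  b0 : 8 * (ka + l) ≤ ba
  t0 : 0 < ta
  tc : 100 * ta ≤ ca
  t1 : 100 * ta ≤ l
  e0 : 0 < ea
  e1 : 16 * (Ne + ea) ≤ ta
  m : 100 * ma ≤ ca
  m2 : ma ≤ ta
  n3 : 3 * ka ≤ 4 * n + ma
  n0 : 0 ≤ n
  k0 : 0 ≤ k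
  kk : k ≤ va - 50 * ca + ma
  n1 : 2 * n + 100 * ca ≤ ka + va + ma
  n2 : 6 * n ≤ 5 * ka + ma
  N0 : 0 ≤ N
  S0 : 0 ≤ Sg
  rl0 : 0 ≤ rl
  ro0 : 0 ≤ ro
  R0 : 0 ≤ R
  eNS : NS = N * Sg
  eNrl : Nrl = N * rl
  eNro : Nro = N * ro
  eNe : Ne = N * ea
  NS0 : 0 ≤ NS
  Nrl0 : 0 ≤ Nrl
  Nro0 : 0 ≤ Nro
  Ne0 : 0 ≤ Ne
  hS : 100 * (NS + Sg) ≤ ta
  hrl : 100 * (Nrl + rl) ≤ ta
  hro : 100 * (Nro + ro) ≤ ta
  hR : 100 * R ≤ ta
  f : 500 ≤ ta

lemma thr_of {N : ℕ} {K v c d₀ b τ δ μ l n k Sg rl ro R U : ℝ} (l0 : 0 < l) (c0 : 0 < c)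
    (cK : 60 * c ≤ K) (v0 : 0 ≤ v) (v3 : 3 * v + 300 * c ≤ 2 * K) (d0 : 0 ≤ d₀)
    (b0 : 8 * (K + 1) ≤ b) (t0 : 0 < τ) (tc : τ ≤ c / 100) (t1 : τ ≤ 1 / 100)
    (dl : 0 < δ) (dN : 16 * ((N + 1) * δ) ≤ τ) (m : μ ≤ c / 100) (m2 : μ ≤ τ)
    (n3 : 3 * (K * l) ≤ 4 * n + μ * l) (n0 : 0 ≤ n) (k0 : 0 ≤ k)
    (kk : k ≤ (v - 50 * c + μ) * l) (n1 : 2 * n + 100 * (c * l) ≤ (K + v + μ) * l)
    (n2 : 6 * n ≤ (5 * K + μ) * l) (S0 : 0 ≤ Sg) (rl0 : 0 ≤ rl) (ro0 : 0 ≤ ro) (R0 : 0 ≤ R)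
    (hU : U = 20 * (N + 1) * (Sg + rl + ro + R + 5)) (hUl : 100 * U ≤ τ * l) :
    Thr N l (c * l) (v * l) (K * l) (τ * l) (d₀ * l) (b * l) (δ * l) (μ * l) n k Sg rl ro R
      (N * Sg) (N * rl) (N * ro) (N * (δ * l)) := by
  have hN0 : (0 : ℝ) ≤ N := Nat.cast_nonneg _
  have hNS : 0 ≤ (N : ℝ) * Sg := by positivity
  have hNr : 0 ≤ (N : ℝ) * rl := by positivity
  have hNo : 0 ≤ (N : ℝ) * ro := by positivity
  have hNR : 0 ≤ (N : ℝ) * R := by positivity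
  have hU' : U = 20 * (N * Sg + N * rl + N * ro + N * R + 5 * N + (Sg + rl + ro + R + 5)) := by
    rw [hU]; ring
  have hl1 : ∀ {x y : ℝ}, x ≤ y → x * l ≤ y * l := fun h => mul_le_mul_of_nonneg_right h l0.le
  refine ⟨l0, by positivity, ?_, by positivity, ?_, by positivity, ?_, by positivity, ?_, ?_,
    by positivity, ?_, ?_, hl1 m2, n3, n0, k0, ?_, ?_, ?_, hN0, S0, rl0, ro0, R0, rfl, rfl, rfl, rfl, hNS, hNr,
    hNo, by positivity, ?_, ?_, ?_, ?_, ?_⟩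
  · have := hl1 cK; linarith
  · have := hl1 v3; linarith
  · have := hl1 b0; linarith
  · have := hl1 tc; linarith
  · have := hl1 t1; linarith
  · have := hl1 dN; linarith
  · have := hl1 m; linarith
  · linarith
  · linarith
  · linarith
  · linarith
  · linarith
  · linarith
  · linarith
  · linarith

end Crest.Agent.R017.RXk848
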