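import Crest.Agent.R017.NXb_848
import Crest.Agent.R017.NEi_551
import Crest.Agent.R017.RXo_848
import Crest.Agent.R017.RX8b_298

/-!
# Row 17, near field (FlatNE), exceptional class (helper848): the recursion from the premises

* `NPremX`, `NPremR` : the premises for the list and for the replaced list
* `claims_nx` : the claims of the recursion
* `ne_core_x` : the recursion of the near field, exceptional class
-/

set_option autoImplicit false

noncomputable section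

open Complex
open scoped ComplexConjugate

namespace Crest.Agent.R017.NX848

open Crest.Agent.R012 Crest.Agent.R012.Eis Crest.Agent.R012.LS2 Crest.Agent.R012.Gauss880
open Crest.Agent.R012.MC (Wgt)
open Crest.Agent.R017.CM106 Crest.Agent.R017.HP842 Crest.Agent.R017.FE47
open Crest.Agent.R017.End699 hiding pw
open Crest.Agent.R017.B770
open Crest.Agent.R017.Prov71
open Crest.Agent.R017.Leg381
open Crest.Agent.R017.NEsm551 (rhs)
open Crest.Agent.R017.XP699 (LL Chd hcost cst)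
open Crest.Agent.R017.RG64
open Crest.Agent.R017.LegK545 (VK SFK)
open Crest.Agent.R017.RGK545 (ClXK ClK ClNK)
open Crest.Agent.R017.PX764 (Dk)
open Crest.Agent.R017.Sup271 (NPm)
open Crest.Agent.R017.Dk848 (ker_Dk)
open Crest.Agent.R017.XS0298 (S0K)
open Crest.Agent.R017.RXg848 (Ht_natl LF_natl SFK_natl_one clN_of)
open Crest.Agent.R017.RX298 (xs rpB Dr rpB_length LF_natl_rpB DX QX XDp exists_XDp Lg3 QXm MkB
  lb_list_xs)
open Crest.Agent.R017.RXi848 (Lg2B)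
open Crest.Agent.R017.RXk848 (Df MkB_of Lg2B_of)
open Crest.Agent.R017.RXk848 (Lmp)
open Crest.Agent.R017.NEg551 (LBq LBS NPar NFacts cut_sharp two_le_N1f N1f_half)

/-- the premises for the list: slope form with the loss `F` (a function of the length), (T') at the
removed length `g`, (J) beyond (`NPrem` at the kernel `Dk`) -/
structure NPremX (P : DPar) (h : ℝ → ℝ) (K v g : ℝ) (F : ℝ → ℝ) (ε X r b M Bd : ℝ)
    (ps₀ : List Pq) : Prop where
  sl : ∀ (l : ℝ) (ps' : List Pq), 0 ≤ l →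
    l ≤ (v + ε) * Real.log X + (LL Dq ps₀ - LL Dq ps') → List.Forall₂ (Chd Dq hcost r b) ps' ps₀ →
    LL Dq ps₀ - LL Dq ps' ≤ (g + ε) * Real.log X →
    S0K Dk P h l ps' ≤ Bd * cst hcost ps' ps₀ ^ M *
      Real.exp (F (LL Dq ps') + ex0 (K * Real.log X) l (LL Dq ps'))
  tp : ∀ (l : ℝ) (ps' : List Pq), 0 ≤ l →
    l ≤ (v + ε) * Real.log X + (LL Dq ps₀ - LL Dq ps') → List.Forall₂ (Chd Dq hcost r b) ps' ps₀ →
    (g - ε) * Real.log X ≤ LL Dq ps₀ - LL Dq ps' →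
    LL Dq ps₀ - LL Dq ps' ≤ (g + ε) * Real.log X →
    S0K Dk P h l ps' ≤ Bd * cst hcost ps' ps₀ ^ M *
      Real.exp (ex0 (K * Real.log X) l (LL Dq ps'))
  jj : ∀ (l : ℝ) (ps' : List Pq), 0 ≤ l →
    l ≤ (v + ε) * Real.log X + (LL Dq ps₀ - LL Dq ps') → List.Forall₂ (Chd Dq hcost r b) ps' ps₀ →
    (g - ε) * Real.log X ≤ LL Dq ps₀ - LL Dq ps' →
    S0K Dk P h l ps' ≤ Bd * cst hcost ps' ps₀ ^ M * Real.exp (exJ (K * Real.log X)
      (v * Real.log X) (LL Dq ps₀) (g * Real.log X) l (LL Dq ps'))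

/-- the premises for the replaced list `base`: slope form without loss up to the removed length
`g`, (J) beyond -/
structure NPremR (P : DPar) (h : ℝ → ℝ) (K v g ε X r b M Bd : ℝ) (base : List Pq) : Prop where
  sl : ∀ (l : ℝ) (ps' : List Pq), 0 ≤ l →
    l ≤ (v + ε) * Real.log X + (LL Dq base - LL Dq ps') → List.Forall₂ (Chd Dq hcost r b) ps' base →
    LL Dq base - LL Dq ps' ≤ (g + ε) * Real.log X →
    S0K Dk P h l ps' ≤ Bd * cst hcost ps' base ^ M *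
      Real.exp (ex0 (K * Real.log X) l (LL Dq ps'))
  jj : ∀ (l : ℝ) (ps' : List Pq), 0 ≤ l →
    l ≤ (v + ε) * Real.log X + (LL Dq base - LL Dq ps') → List.Forall₂ (Chd Dq hcost r b) ps' base →
    (g - ε) * Real.log X ≤ LL Dq base - LL Dq ps' →
    S0K Dk P h l ps' ≤ Bd * cst hcost ps' base ^ M * Real.exp (exJ (K * Real.log X)
      (v * Real.log X) (LL Dq base) (g * Real.log X) l (LL Dq ps'))

/-- **claims on natural lists from the premises of a rule** -/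
lemma clN_premK {D : Dat} {E : ℝ → ℝ → ℝ} {B₁ s a Q lo σ r b M : ℝ} (hs : s ≤ r) (hQ : Q ≤ b)
    (hM : 0 ≤ M) (hJ : M ≤ D.J) (hB₁ : 0 ≤ B₁)
    (H : ∀ (l : ℝ) (ps' : List Pq), 0 ≤ l → l ≤ D.v + (D.n - LL Dq ps') + a →
      lo ≤ LL Dq ps' → LL Dq ps' ≤ σ → List.Forall₂ (Chd Dq hcost r b) ps' D.ps₀ →
      S0K Dk D.P D.h l ps' ≤ B₁ * cst hcost ps' D.ps₀ ^ M * Real.exp (E l (LL Dq ps'))) :
    ClNK Dk D E (B₁ * Ht (natl D.ps₀) ^ M) s a Q lo σ := by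
  have h1 := clN_of Dk (D := {D with J := M}) (E := E) (s := s) (a := a) (Q := Q)
    (lo := lo) (σ := σ) hs hQ hM rfl hB₁ H
  intro q ps k b1 b2 b3 b4 b5 b6 b7 b8
  have h2 : SFK Dk D.z D.D0 q D.P D.h k ps ≤ B₁ * Ht (natl D.ps₀) ^ M * Ht ps ^ M *
      Real.exp (E k (LF ps)) := h1 q ps k b1 b2 b3 b4 b5 b6 b7 b8
  refine h2.trans ?_
  have h3 := one_le_Ht ps
  have h4 := one_le_Ht (natl D.ps₀)
  have h5 : Ht ps ^ M ≤ Ht ps ^ D.J := Real.rpow_le_rpow_of_exponent_le h3 hJ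
  have h6 : 0 ≤ Ht (natl D.ps₀) ^ M := Real.rpow_nonneg (by linarith) _
  gcongr

lemma LL_rpB (d : ℝ) (ps : List Pq) : LL Dq (rpB d ps) = LL Dq ps := by
  rw [← LF_natl, ← LF_natl, LF_natl_rpB]

lemma Ht_natl_rpB (d : ℝ) (ps : List Pq) : Ht (natl (rpB d ps)) = Ht (natl ps) := by
  rw [Ht_natl, Ht_natl]
  rcases ps with _ | ⟨p₁, _ | ⟨p₂, ps⟩⟩ <;> rfl

/-- the claims of the recursion -/
lemma claims_nx {P : DPar} {h : ℝ → ℝ} {K v g ε X r b M Bd d : ℝ} {F : ℝ → ℝ} {ps₀ : List Pq}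
    (hT : NPremX P h K v g F ε X r b M Bd ps₀) (hR : NPremR P h K v g ε X r b M Bd (rpB d ps₀))
    (hF : Monotone F) (hM : 0 ≤ M) (hBd : 0 ≤ Bd) {D : Dat}
    (hP : D.P = P) (hh : D.h = h) (hps : D.ps₀ = ps₀) (hJ : M ≤ D.J)
    (hκ : D.κ = K * Real.log X) (hn : D.n = LL Dq ps₀) {s a Q x y : ℝ} (hs : s ≤ r) (hQ : Q ≤ b)
    (ha : D.v + a ≤ (v + ε) * Real.log X) (hx : x ≤ ε * Real.log X)
    (hy : 0 ≤ y) (hvy : D.v ≤ v * Real.log X + y) :
    ClNK Dk D (exJ D.κ D.v D.n (g * Real.log X)) (Bd * Real.exp y * Ht (natl ps₀) ^ M) s a Q 0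
      (D.n - g * Real.log X + x) ∧
    ClNK Dk D (ex0 D.κ) (Bd * Ht (natl ps₀) ^ M) s a Q (D.n - g * Real.log X - x)
      (D.n - g * Real.log X + x) ∧
    (∀ σ : ℝ, ClNK Dk D (ex0 D.κ) (Bd * Real.exp (F σ) * Ht (natl ps₀) ^ M) s a Q
      (D.n - g * Real.log X - x) σ) ∧
    ClNK Dk (Dr d D) (exJ D.κ D.v D.n (g * Real.log X)) (Bd * Real.exp y * Ht (natl ps₀) ^ M)
      s a Q 0 (D.n - g * Real.log X + x) ∧
    (∀ σ : ℝ, ClNK Dk (Dr d D) (ex0 D.κ) (Bd * Ht (natl ps₀) ^ M) s a Q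
      (D.n - g * Real.log X - x) σ) := by
  subst hP hh hps
  have e1 : ∀ {B E F G : ℝ}, 0 ≤ B → E ≤ F + G → B * Real.exp E ≤ B * Real.exp F * Real.exp G := by
    intro B E F G hB hE
    rw [mul_assoc, ← Real.exp_add]
    exact mul_le_mul_of_nonneg_left (Real.exp_le_exp.2 hE) hB
  have eHr : Ht (natl (Dr d D).ps₀) = Ht (natl D.ps₀) := Ht_natl_rpB d D.ps₀
  have eLr : LL Dq (Dr d D).ps₀ = LL Dq D.ps₀ := LL_rpB d D.ps₀
  refine ⟨clN_premK hs hQ hM hJ (by positivity) ?_, clN_premK hs hQ hM hJ hBd ?_,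
    fun σ => clN_premK hs hQ hM hJ (by positivity) ?_, ?_, fun σ => ?_⟩
  · intro l ps' hl hla hlo hσ hch
    have hcst : 0 ≤ cst hcost ps' D.ps₀ ^ M := Real.rpow_nonneg
      (zero_le_one.trans (XP699.one_le_cst XP699.one_le_hcost _ _)) _
    have hla' : l ≤ (v + ε) * Real.log X + (LL Dq D.ps₀ - LL Dq ps') := by
      rw [← hn]; linarith
    refine (hT.jj l ps' hl hla' hch (by rw [← hn]; linarith)).trans
      ((e1 (F := y) (G := exJ D.κ D.v D.n (g * Real.log X) l (LL Dq ps')) (mul_nonneg hBd hcst)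
        ?_).trans (le_of_eq ?_))
    · rw [hκ, hn]
      have := exJ_level (κ := K * Real.log X) (n := LL Dq D.ps₀) (c := g * Real.log X) (k := l)
        (m := LL Dq ps') hy (v := v * Real.log X) (v' := D.v) hvy
      linarith
    · ring
  · intro l ps' hl hla hlo hσ hch
    have hla' : l ≤ (v + ε) * Real.log X + (LL Dq D.ps₀ - LL Dq ps') := by
      rw [← hn]; linarith
    rw [hκ]
    exact hT.tp l ps' hl hla' hch (by rw [← hn]; linarith) (by rw [← hn]; linarith)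
  · intro l ps' hl hla hlo hσ hch
    have hla' : l ≤ (v + ε) * Real.log X + (LL Dq D.ps₀ - LL Dq ps') := by
      rw [← hn]; linarith
    have hcst : 0 ≤ cst hcost ps' D.ps₀ ^ M := Real.rpow_nonneg
      (zero_le_one.trans (XP699.one_le_cst XP699.one_le_hcost _ _)) _
    rw [hκ]
    refine (hT.sl l ps' hl hla' hch (by rw [← hn]; linarith)).trans ?_
    calc Bd * cst hcost ps' D.ps₀ ^ M *
          Real.exp (F (LL Dq ps') + ex0 (K * Real.log X) l (LL Dq ps')) ≤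
          Bd * cst hcost ps' D.ps₀ ^ M *
          Real.exp (F σ + ex0 (K * Real.log X) l (LL Dq ps')) := by
          refine mul_le_mul_of_nonneg_left (Real.exp_le_exp.2 ?_) (mul_nonneg hBd hcst)
          have := hF hσ
          linarith
      _ = _ := by
          rw [Real.exp_add]
          ring
  · have key := clN_premK (D := Dr d D) (E := exJ D.κ D.v D.n (g * Real.log X))
      (B₁ := Bd * Real.exp y) (s := s) (a := a) (Q := Q) (lo := 0)
      (σ := D.n - g * Real.log X + x) (r := r) (b := b) (M := M) hs hQ hM hJ (by positivity)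
      (fun l ps' hl hla hlo hσ hch => by
        have hcst : 0 ≤ cst hcost ps' (Dr d D).ps₀ ^ M := Real.rpow_nonneg
          (zero_le_one.trans (XP699.one_le_cst XP699.one_le_hcost _ _)) _
        have hla2 : l ≤ D.v + (D.n - LL Dq ps') + a := hla
        have hla' : l ≤ (v + ε) * Real.log X + (LL Dq (rpB d D.ps₀) - LL Dq ps') := by
          rw [LL_rpB, ← hn]; linarith
        refine (hR.jj l ps' hl hla' hch (by rw [LL_rpB, ← hn]; linarith)).trans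
          ((e1 (F := y) (G := exJ D.κ D.v D.n (g * Real.log X) l (LL Dq ps'))
            (mul_nonneg hBd hcst) ?_).trans (le_of_eq ?_))
        · rw [hκ, hn, LL_rpB]
          have := exJ_level (κ := K * Real.log X) (n := LL Dq D.ps₀) (c := g * Real.log X) (k := l)
            (m := LL Dq ps') hy (v := v * Real.log X) (v' := D.v) hvy
          linarith
        · ring)
    rw [eHr] at key
    exact key
  · have key := clN_premK (D := Dr d D) (E := ex0 D.κ)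
      (B₁ := Bd) (s := s) (a := a) (Q := Q) (lo := D.n - g * Real.log X - x)
      (σ := σ) (r := r) (b := b) (M := M) hs hQ hM hJ hBd
      (fun l ps' hl hla hlo hσ hch => by
        have hla2 : l ≤ D.v + (D.n - LL Dq ps') + a := hla
        have hla' : l ≤ (v + ε) * Real.log X + (LL Dq (rpB d D.ps₀) - LL Dq ps') := by
          rw [LL_rpB, ← hn]; linarith
        rw [hκ]
        exact hR.sl l ps' hl hla' hch (by rw [LL_rpB, ← hn]; linarith))
    rw [eHr] at key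
    exact key

/-- the constants -/
lemma nex_const {C₁ C₂ C₃ CR A H Bd F : ℝ} (hC₁ : 0 ≤ C₁) (hC₂ : 0 ≤ C₂) (hC₃ : 0 ≤ C₃)
    (hCR : 0 ≤ CR) (hA : 1 ≤ A) (hH : 1 ≤ H) (hBd : 0 ≤ Bd) (hF : 0 ≤ F) :
    C₁ * A * (C₂ * A * (1 + (C₃ * A * (Bd * H) + C₃ * A * (Bd * H) + 1 + 2 * (Bd * H)) +
      CR * A * H * Bd) + A * (Bd * H) + 1 + 1) * H * F ≤
    C₁ * (C₂ * (4 + 2 * C₃ + CR) + 3) * A ^ 3 * H ^ 2 * (1 + Bd) * F := by
  have hA0 : 0 ≤ A := by linarith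
  have hH0 : 0 ≤ H := by linarith
  have hBH : 0 ≤ Bd * H := by positivity
  obtain ⟨m, hm⟩ : ∃ m : ℝ, m = A * H * (1 + Bd) := ⟨_, rfl⟩
  have hAH : 1 ≤ A * H := one_le_mul_of_one_le_of_one_le hA hH
  have hm1 : 1 ≤ m := by
    rw [hm]; exact one_le_mul_of_one_le_of_one_le hAH (by linarith)
  have hm2 : A * (Bd * H) ≤ m := by rw [hm]; nlinarith
  have hm3 : Bd * H ≤ m := by
    calc Bd * H ≤ A * (Bd * H) := le_mul_of_one_le_left hBH hA
      _ ≤ m := hm2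
  have k1 : 1 + (C₃ * A * (Bd * H) + C₃ * A * (Bd * H) + 1 + 2 * (Bd * H)) + CR * A * H * Bd ≤
      (4 + 2 * C₃ + CR) * m := by
    have e1 : C₃ * A * (Bd * H) ≤ C₃ * m := by
      calc C₃ * A * (Bd * H) = C₃ * (A * (Bd * H)) := by ring
        _ ≤ _ := mul_le_mul_of_nonneg_left hm2 hC₃
    have e2 : CR * A * H * Bd ≤ CR * m := by
      calc CR * A * H * Bd = CR * (A * (Bd * H)) := by ring
        _ ≤ _ := mul_le_mul_of_nonneg_left hm2 hCR
    linarith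
  have hm0 : 0 ≤ m := by linarith
  have hAm : m ≤ A * m := le_mul_of_one_le_left hm0 hA
  have k2 : C₂ * A * (1 + (C₃ * A * (Bd * H) + C₃ * A * (Bd * H) + 1 + 2 * (Bd * H)) +
      CR * A * H * Bd) + A * (Bd * H) + 1 + 1 ≤ (C₂ * (4 + 2 * C₃ + CR) + 3) * (A * m) := by
    have e1 := mul_le_mul_of_nonneg_left k1 (by positivity : 0 ≤ C₂ * A)
    have e2 : C₂ * A * ((4 + 2 * C₃ + CR) * m) = C₂ * (4 + 2 * C₃ + CR) * (A * m) := by ring
    linarith
  calc _ ≤ C₁ * A * ((C₂ * (4 + 2 * C₃ + CR) + 3) * (A * m)) * H * F := by gcongr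
    _ = _ := by rw [hm]; ring

set_option maxHeartbeats 6400000 in
/-- **the recursion of the near field from the premises**, exceptional class -/
theorem ne_core_x {h : ℝ → ℝ} {c₂ : ℝ} (hpu : PU h c₂) {w : ℝ → ℝ} (hab : Abs4 w)
    {τ : ℝ} (hτ : 0 ≤ τ) (hτ1 : τ ≤ 1) {Rh : LBq → (Eis → ℂ) → ℝ → Prop} (hLB : LBS w τ Rh)
    (hRm : ∀ (p : LBq) (α : Eis → ℂ) (Rn Rn' : ℝ), Rh p α Rn → Rn ≤ Rn' → Rh p α Rn')
    {K c : ℝ} (hc : 0 < c) (hcK : 100 * c ≤ K) (N : ℕ)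
    {ε M J₀ δ₀ B₀ : ℝ} (hε : 0 < ε) (hεc : ε ≤ c) (hε1 : ε ≤ 1) (hM : 0 ≤ M) (hJ₀ : 0 ≤ J₀)
    (hδ₀ : 0 < δ₀) (hB₀ : 1 ≤ B₀) :
    ∃ (δ : ℝ) (Jn Aw : ℕ) (Cw R η S : ℝ), 0 ≤ δ ∧ δ ≤ δ₀ ∧ J₀ ≤ Jn ∧ Jn + 2 ≤ Aw ∧ 0 ≤ Cw ∧
    0 ≤ R ∧ 0 < η ∧ η ≤ 1 / 2 ∧ 0 ≤ S ∧ ∀ CR : ℝ, 0 ≤ CR → ∃ C r J X₁ : ℝ, 0 ≤ C ∧ 0 ≤ r ∧ 0 ≤ J ∧
    ∀ X : ℝ, 3 ≤ X → X₁ ≤ X → ∀ P : DPar, P.OK → ¬ NPm P.n P.ψ P.l₂ 1 → (nm P.n : ℝ) ≤ X ^ B₀ →
    ∀ (k : ℝ) (ps₀ : List Pq), ps₀.length ≤ N →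
    (∀ q ∈ ps₀, 0 ≤ q.z) → (∀ q ∈ ps₀, Dq.s2 q ≤ X ^ B₀) → ∀ e : ℝ, 0 ≤ e → e ≤ ε / 100 →
    ∀ v g d : ℝ, 0 ≤ v → 0 ≤ g → g ≤ d → 3 * (v + g) + 100 * c ≤ 2 * K →
    (v + 3 * (g + c) - K) * Real.log X + LL Dq ps₀ ≤ 3 * d * Real.log X →
    Lmp ((d + c) * Real.log X) ps₀ →
    ∀ F : ℝ → ℝ, Monotone F → (∀ m, 0 ≤ F m) → (∀ m x, 0 ≤ x → F (m + x) ≤ F m + x) →
    ∀ e₀ e₁ β : ℝ → ℝ → ℝ, (∀ u m, 0 ≤ e₀ u m) →
    (∀ u m, e₀ u m + F m + c * Real.log X ≤ β u m) →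
    (τ = 0 ∨ ∀ u m, F m + c * Real.log X ≤ e₀ u m) →
    (∀ u m, m ≤ LL Dq ps₀ + ε * Real.log X → 5 * β u m ≤ K * Real.log X) →
    NPar K v e X k ps₀ →
    ∀ Bd : ℝ, 0 ≤ Bd → NPremX P h K v g F ε X r (C * X ^ (K + 1)) M Bd ps₀ →
    NPremR P h K v g ε X r (C * X ^ (K + 1)) M Bd (rpB (d * Real.log X) ps₀) →
    (∀ (q : Eis) (ps : List Pf) (Lv : ℝ) (N₁ : ℕ), NFacts K v g (ε / 4) X ps₀ ps Lv N₁ →
      IsPrim q → (nm q : ℝ) ≤ X ^ (K + 1) → SbL S ps ps₀ →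
      Rh ⟨Cw, η, Aw, X ^ K, Real.exp (LF ps), X ^ (8 * (K + 1)), R, Jn, N₁, Real.exp (e₀ Lv (LF ps)),
        Real.exp (e₁ Lv (LF ps)), Real.exp (β Lv (LF ps)), Real.exp (-β Lv (LF ps)),
        Real.exp (min (g * Real.log X) (LF ps - (LL Dq ps₀ - g * Real.log X))),
        Real.exp (min (g * Real.log X) (LF ps - (LL Dq ps₀ - g * Real.log X)))⟩
        (xs q (X ^ δ) (X ^ δ) P h (d * Real.log X) ps)
        (CR * X ^ (ε / 4) * (Ht ps * Ht (natl ps₀)) ^ J₀ * Bd * Real.exp (2 * LF ps))) →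
    S0K Dk P h k ps₀ ≤ C * X ^ ε * (ps₀.map Dq.s1).prod ^ J * (1 + Bd) *
      Real.exp (fl (K * Real.log X) k (LL Dq ps₀)) := by
  have hK : 0 < K := by linarith
  obtain ⟨R, Ca, hR, hCa, hAL⟩ := exists_XDp hpu N
  have hN0 : (0 : ℝ) ≤ N := Nat.cast_nonneg N
  -- the parameters
  obtain ⟨b, hb⟩ : ∃ b : ℝ, b = 8 * (K + 1) := ⟨_, rfl⟩
  have hb8 : 8 ≤ b := by rw [hb]; linarith
  have hb0 : 0 < b := by linarith
  obtain ⟨ε₁, hε₁d⟩ : ∃ x : ℝ, x = min (1 / 16) (ε / (100 * b)) := ⟨_, rfl⟩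
  have hε₁ : 0 < ε₁ := by rw [hε₁d]; exact lt_min (by norm_num) (by positivity)
  have hε₁16 : ε₁ ≤ 1 / 16 := by rw [hε₁d]; exact min_le_left _ _
  have hε₁b : ε₁ * (100 * b) ≤ ε := by
    have : ε₁ ≤ ε / (100 * b) := by rw [hε₁d]; exact min_le_right _ _
    rwa [le_div_iff₀ (by positivity)] at this
  obtain ⟨δ', hδ'd⟩ : ∃ x : ℝ, x = min (δ₀ / b) (ε₁ / (4 * (N + 1))) := ⟨_, rfl⟩
  have hδ' : 0 < δ' := by
    rw [hδ'd]
    exact lt_min (by positivity) (by positivity)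
  have hδ'1 : δ' * b ≤ δ₀ := by
    have : δ' ≤ δ₀ / b := by rw [hδ'd]; exact min_le_left _ _
    rwa [le_div_iff₀ hb0] at this
  have hδ'2 : δ' * (4 * (N + 1)) ≤ ε₁ := by
    have : δ' ≤ ε₁ / (4 * (N + 1)) := by
      rw [hδ'd]; exact min_le_right _ _
    rwa [le_div_iff₀ (by positivity)] at this
  obtain ⟨m, hm⟩ : ∃ m : ℕ, 4 / δ' ≤ m := exists_nat_ge _
  have hm4 : 4 ≤ m * δ' := by rwa [div_le_iff₀ hδ'] at hm
  have hm0 : (0 : ℝ) ≤ m := Nat.cast_nonneg m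
  obtain ⟨e₃, he₃d⟩ : ∃ x : ℝ, x = ε₁ / (8 * (m + 1)) := ⟨_, rfl⟩
  have he₃ : 0 < e₃ := by rw [he₃d]; positivity
  have he₃m : e₃ * (8 * (m + 1)) = ε₁ := by rw [he₃d]; field_simp
  have he₃1 : 8 * e₃ ≤ ε₁ := by nlinarith [mul_nonneg he₃.le hm0]
  have he₃2 : 8 * (m * e₃) ≤ ε₁ := by nlinarith
  obtain ⟨ε₂, hε₂d⟩ : ∃ x : ℝ, x = ε₁ / (m + 1) := ⟨_, rfl⟩
  have hε₂ : 0 < ε₂ := by rw [hε₂d]; positivity
  have hε₂m : ε₂ * (m + 1) = ε₁ := by rw [hε₂d]; field_simp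
  have hε₂1 : ε₂ ≤ ε₁ := by nlinarith [mul_nonneg hε₂.le hm0]
  have hε₂2 : m * ε₂ ≤ ε₁ := by nlinarith
  obtain ⟨J, hJd⟩ : ∃ x : ℝ, x = max 6 (max M J₀) := ⟨_, rfl⟩
  have hJ6 : 6 ≤ J := by rw [hJd]; exact le_max_left _ _
  have hMJ : M ≤ J := by rw [hJd]; exact (le_max_left _ _).trans (le_max_right _ _)
  have hJ₀J : J₀ ≤ J := by rw [hJd]; exact (le_max_right _ _).trans (le_max_right _ _)
  have hJ : 0 ≤ J := hM.trans hMJ
  obtain ⟨Jn, hJnd⟩ : ∃ j : ℕ, (N : ℝ) * J + J + 12 ≤ j := exists_nat_ge _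
  have hNJ : 0 ≤ (N : ℝ) * J := by positivity
  have hJn : (N : ℝ) * J ≤ Jn := by linarith
  have hJn2 : J₀ ≤ Jn := by linarith
  have hJn12 : 12 ≤ Jn := by
    have : (12 : ℝ) ≤ Jn := by linarith
    exact_mod_cast this
  have hNδ : 4 * (N * δ') ≤ ε₁ := by nlinarith
  have h4δ : 4 * δ' ≤ ε₁ := by nlinarith [mul_nonneg hN0 hδ'.le]
  obtain ⟨Cw, η₀, C₁, S, X₁, hCw, hη₀, hη₀1, hC₁, hS, hrg⟩ :=
    rg_X_g hpu N hab (Aw := Jn + 2) hR hAL (c₁ := 4) (by norm_num) hδ' hε₁ hε₁16 he₃ hε₂ hJ6 hJn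
      hJn12 le_rfl hB₀ hm4 he₃2 hNδ
  obtain ⟨C₂, r₂, X₂, hC₂, hr₂, hlb⟩ :=
    lb_list_xs hpu N hτ hLB (Aw := Jn + 2) hR hAL hCw hη₀ (by linarith) hε₂ hJ6 hJn hJn12 le_rfl
      hB₀
  obtain ⟨C₃, r₃, hC₃, hr₃, hop⟩ := RGK545.open_num ker_Dk hpu N hε₂ hJ
  refine ⟨b * δ', Jn, Jn + 2, Cw, R, η₀, S, by positivity, by linarith, hJn2, le_rfl, hCw, hR,
    hη₀, hη₀1, hS, ?_⟩
  intro CR hCR
  obtain ⟨T₀, hT₀⟩ : ∃ T : ℝ, T = 4 + (N + 1) * (2 * S + r₂ + r₃) + R + Real.log C₁ := ⟨_, rfl⟩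
  have hlC₁ : 0 ≤ Real.log C₁ := Real.log_nonneg hC₁
  have hT₀0 : 0 ≤ (N + 1) * (2 * S + r₂ + r₃) := by positivity
  refine ⟨max (C₁ * Real.exp (r₂ + N * r₃)) (C₁ * (C₂ * (4 + 2 * C₃ + CR) + 3)),
    2 * S + r₂ + r₃, 2 * J,
    max (max X₁ X₂) (Real.exp (T₀ / ε₁)), le_max_of_le_left (by positivity), by positivity,
    by positivity, ?_⟩
  intro X hX hXX P hP hPn hPX k ps₀ hlen hz hs2 e he0 he1 v g d hv hg hgd hv3 hbs hLmp F hFm hF hFx
    e₀ e₁ β he₀ heβ hτe hβ5 hpar Bd hBd hT hTR hRf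
  have hX1 : (1 : ℝ) ≤ X := by linarith
  have hX0 : 0 < X := by linarith
  obtain ⟨L, hL⟩ : ∃ L : ℝ, L = Real.log X := ⟨_, rfl⟩
  have hL1 : 1 ≤ L := by
    rw [hL, ← Real.log_exp 1]
    refine Real.log_le_log (Real.exp_pos 1) ?_
    linarith [Real.exp_one_lt_d9]
  have hL0 : 0 < L := by linarith
  have hTL : T₀ ≤ ε₁ * L := by
    have h1 : Real.exp (T₀ / ε₁) ≤ X := (le_max_right _ _).trans hXX
    rw [← Real.le_log_iff_exp_le hX0, ← hL, div_le_iff₀ hε₁] at h1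
    linarith
  obtain ⟨X', hX'⟩ : ∃ x : ℝ, x = X ^ b := ⟨_, rfl⟩
  have hXX' : X ≤ X' := by
    rw [hX']
    calc X = X ^ (1 : ℝ) := (Real.rpow_one X).symm
      _ ≤ X ^ b := Real.rpow_le_rpow_of_exponent_le hX1 (by linarith)
  have hX'3 : 3 ≤ X' := hX.trans hXX'
  have hX'0 : 0 < X' := by linarith
  have hX'1 : 1 ≤ X' := by linarith
  have hlX' : Real.log X' = b * L := by rw [hX', Real.log_rpow hX0, hL]
  have hpowX : ∀ x : ℝ, X ^ x = Real.exp (x * L) := fun x => by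
    rw [Real.rpow_def_of_pos hX0, hL, mul_comm]
  have hpowX' : ∀ x : ℝ, X' ^ x = Real.exp (x * (b * L)) := fun x => by
    rw [Real.rpow_def_of_pos hX'0, hlX', mul_comm]
  -- atoms
  obtain ⟨n, hn⟩ : ∃ n : ℝ, n = LL Dq ps₀ := ⟨_, rfl⟩
  obtain ⟨cl, hcl⟩ : ∃ x : ℝ, x = c * L := ⟨_, rfl⟩
  obtain ⟨cc, hcc⟩ : ∃ x : ℝ, x = g * L := ⟨_, rfl⟩
  obtain ⟨da, hda⟩ : ∃ x : ℝ, x = d * L := ⟨_, rfl⟩
  obtain ⟨κ, hκ⟩ : ∃ x : ℝ, x = K * L := ⟨_, rfl⟩
  obtain ⟨vl, hvl⟩ : ∃ x : ℝ, x = v * L := ⟨_, rfl⟩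
  obtain ⟨el, hel⟩ : ∃ x : ℝ, x = e * L := ⟨_, rfl⟩
  obtain ⟨εl, hεl⟩ : ∃ x : ℝ, x = ε * L := ⟨_, rfl⟩
  obtain ⟨w', hw'⟩ : ∃ x : ℝ, x = ε₁ * (b * L) := ⟨_, rfl⟩
  obtain ⟨dl, hdl⟩ : ∃ x : ℝ, x = δ' * (b * L) := ⟨_, rfl⟩
  have hcl0 : 0 < cl := by rw [hcl]; positivity
  have hcc0 : 0 ≤ cc := by rw [hcc]; positivity
  have hccd : cc ≤ da := by rw [hcc, hda]; exact mul_le_mul_of_nonneg_right hgd hL0.le
  have hda0 : 0 ≤ da := hcc0.trans hccd
  have hvl00 : 0 ≤ vl := by rw [hvl]; positivity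
  have hbl : b * L = 8 * κ + 8 * L := by rw [hb, hκ]; ring
  have hκc : 100 * cl ≤ κ := by
    rw [hcl, hκ, ← mul_assoc]; exact mul_le_mul_of_nonneg_right hcK hL0.le
  have hv3l : 3 * (vl + cc) + 100 * cl ≤ 2 * κ := by
    have := mul_le_mul_of_nonneg_right hv3 hL0.le
    rw [hcc, hcl, hκ, hvl]; linarith
  have hbsl : vl + 3 * cc + 3 * cl - κ + n ≤ 3 * da := by
    rw [← hL, ← hn] at hbs
    have : (v + 3 * (g + c) - K) * L = vl + 3 * cc + 3 * cl - κ := by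
      rw [hvl, hcc, hcl, hκ]; ring
    have h2 : 3 * d * L = 3 * da := by rw [hda]; ring
    linarith
  have hel0 : 0 ≤ el := by rw [hel]; positivity
  have hel1 : 100 * el ≤ εl := by
    have := mul_le_mul_of_nonneg_right he1 hL0.le
    rw [hel, hεl]; linarith
  have hεlc : εl ≤ cl := by rw [hεl, hcl]; exact mul_le_mul_of_nonneg_right hεc hL0.le
  have hεlL : εl ≤ L := by
    have := mul_le_mul_of_nonneg_right hε1 hL0.le
    rw [hεl]; linarith
  have hw1 : 100 * w' ≤ εl := by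
    have := mul_le_mul_of_nonneg_right hε₁b hL0.le
    rw [hw', hεl]; linarith
  have hw8 : 8 * T₀ ≤ w' := by
    have h1 : ε₁ * L * 8 ≤ ε₁ * L * b := mul_le_mul_of_nonneg_left hb8 (by positivity)
    rw [hw']; linarith
  have hw0 : 0 ≤ w' := by linarith
  have hdl0 : 0 ≤ dl := by rw [hdl]; positivity
  have hdl1 : 4 * (N * dl) ≤ w' := by
    have := mul_le_mul_of_nonneg_right hNδ (show 0 ≤ b * L by positivity)
    rw [hdl, hw']; linarith
  have hdl2 : 4 * dl ≤ w' := by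
    have := mul_le_mul_of_nonneg_right h4δ (show 0 ≤ b * L by positivity)
    rw [hdl, hw']; linarith
  have he₃l : 8 * (e₃ * (b * L)) ≤ w' := by
    have := mul_le_mul_of_nonneg_right he₃1 (show 0 ≤ b * L by positivity)
    rw [hw']; linarith
  have he₃0 : 0 ≤ e₃ * (b * L) := by positivity
  -- the parent
  obtain ⟨hk0, hkv, hn2, hnK⟩ := hpar
  rw [← hn, ← hL] at hn2 hnK
  rw [← hL] at hkv
  have hkv' : k ≤ vl + el := by rw [hvl, hel]; linarith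
  have hn2' : 2 * n ≤ κ + vl + el := by rw [hκ, hvl, hel]; linarith
  have hnK' : n ≤ κ + el := by rw [hκ, hel]; linarith
  have hn0 : 0 ≤ n := by
    rw [hn]
    unfold LL
    refine List.sum_nonneg fun x hx => ?_
    obtain ⟨q, hq, rfl⟩ := List.mem_map.1 hx
    exact hz q hq
  have hN1S : (N + 1) * (2 * S + r₂ + r₃) = 2 * (N * S) + N * r₂ + N * r₃ + 2 * S + r₂ + r₃ := by
    ring
  have hNS : 0 ≤ N * S := by positivity
  have hNr₂ : 0 ≤ N * r₂ := by positivity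
  have hNr₃ : 0 ≤ N * r₃ := by positivity
  have hNdl0 : 0 ≤ N * dl := by positivity
  rw [hN1S] at hT₀
  obtain ⟨H, hH⟩ : ∃ x : ℝ, x = Ht (natl ps₀) := ⟨_, rfl⟩
  have hH1 : 1 ≤ H := by rw [hH]; exact one_le_Ht _
  have hHM0 : 0 ≤ H ^ M := Real.rpow_nonneg (by linarith) _
  have hHJ1 : 1 ≤ H ^ J := Real.one_le_rpow hH1 hJ
  have hHMJ : H ^ M ≤ H ^ J := Real.rpow_le_rpow_of_exponent_le hH1 hMJ
  have hHJ0 : 0 ≤ H ^ J := by linarith
  -- the data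
  have hXδ : X ^ (b * δ') = X' ^ δ' := by rw [hX', ← Real.rpow_mul hX0.le]
  obtain ⟨z, hzd⟩ : ∃ z : ℝ, z = X ^ (b * δ') := ⟨_, rfl⟩
  have hlD0 : Real.log z = dl := by
    rw [hzd, Real.log_rpow hX0, ← hL, hdl]; ring
  have hD01 : 1 ≤ z := by rw [hzd]; exact Real.one_le_rpow hX1 (by positivity)
  have hexpn : Real.exp n ≤ X ^ (K + 1) := by
    rw [hpowX]
    refine Real.exp_le_exp.2 ?_
    have : (K + 1) * L = κ + L := by rw [hκ]; ring
    linarith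
  have hexpnC : C₁ * Real.exp n ≤ X ^ (K + 1) := by
    rw [hpowX, ← Real.exp_log (show 0 < C₁ by linarith), ← Real.exp_add]
    refine Real.exp_le_exp.2 ?_
    have : (K + 1) * L = κ + L := by rw [hκ]; ring
    linarith
  have hbQ : C₁ * Real.exp n * Real.exp (r₂ + N * r₃) ≤
      max (C₁ * Real.exp (r₂ + N * r₃)) (C₁ * (C₂ * (4 + 2 * C₃ + CR) + 3)) * X ^ (K + 1) := by
    calc C₁ * Real.exp n * Real.exp (r₂ + N * r₃) = C₁ * Real.exp (r₂ + N * r₃) * Real.exp n := by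
          ring
      _ ≤ _ := by
          gcongr
          exact le_max_left _ _
  have hXB : X ^ B₀ ≤ X' ^ B₀ := Real.rpow_le_rpow hX0.le hXX' (by linarith)
  have hX'B : X' ≤ X' ^ B₀ := by
    calc X' = X' ^ (1 : ℝ) := (Real.rpow_one X').symm
      _ ≤ X' ^ B₀ := Real.rpow_le_rpow_of_exponent_le hX'1 hB₀
  have hDX : DX h N J B₀ X' (Df P h z ps₀ J κ n (vl + el)) :=
    { ok := hP
      hh := rfl
      D0 := hD01
      J := rfl
      len := hlen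
      np := hPn
      nP := hPX.trans hXB
      mkb := MkB_of hLmp fun q hq => (hs2 q hq).trans hXB }
  obtain ⟨D, hD⟩ : ∃ D : Dat, D = Df P h z ps₀ J κ n (vl + el) := ⟨_, rfl⟩
  rw [← hD] at hDX
  have hDP : D.P = P := by rw [hD]; rfl
  have hDh : D.h = h := by rw [hD]; rfl
  have hDz : D.z = z := by rw [hD]; rfl
  have hDD : D.D0 = z := by rw [hD]; rfl
  have hDps : D.ps₀ = ps₀ := by rw [hD]; rfl
  have hDJ : D.J = J := by rw [hD]; rfl
  have hDκ : D.κ = κ := by rw [hD]; rfl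
  have hDv : D.v = vl + el := by rw [hD]; rfl
  have hDn : D.n = n := by rw [hD]; rfl
  have hDrlen : (Dr da D).ps₀.length ≤ N := by
    show (rpB da D.ps₀).length ≤ N
    rw [rpB_length, hDps]; exact hlen
  -- the claims
  have cl2 := claims_nx (D := D) hT hTR hFm hM hBd hDP hDh hDps
    (by rw [hDJ]; exact hMJ) (by rw [hDκ, ← hL]; exact hκ) (hDn.trans hn)
    (s := 2 * S + r₂ + r₃) (a := 3 * w' + r₂ + r₃) (Q := C₁ * Real.exp n * Real.exp (r₂ + N * r₃))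
    (x := w') (y := el) le_rfl hbQ
    (by
      rw [hDv, ← hL]
      have : (v + ε) * L = vl + εl := by rw [hvl, hεl]; ring
      linarith)
    (by rw [← hL, ← hεl]; linarith) hel0
    (by rw [hDv, ← hL, ← hvl])
  rw [← hL, ← hcc, ← hda, ← hH] at cl2
  obtain ⟨cJ2, cT2, cS2, cJR2, cSR2⟩ := cl2
  have hexr : 1 ≤ Real.exp (r₂ + N * r₃) := Real.one_le_exp (by positivity)
  have hCe0 : 0 ≤ C₁ * Real.exp n := by
    have := Real.exp_pos n
    have : 0 ≤ C₁ := by linarith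
    positivity
  have hQe : C₁ * Real.exp n ≤ C₁ * Real.exp n * Real.exp (r₂ + N * r₃) :=
    le_mul_of_one_le_right hCe0 hexr
  have hQe2 : C₁ * Real.exp n * Real.exp r₂ ≤ C₁ * Real.exp n * Real.exp (r₂ + N * r₃) :=
    mul_le_mul_of_nonneg_left (Real.exp_le_exp.2 (by linarith)) hCe0
  have hel1' : 1 ≤ Real.exp el := Real.one_le_exp hel0
  have hBe : Bd * H ^ M ≤ Bd * Real.exp el * H ^ M :=
    mul_le_mul_of_nonneg_right (le_mul_of_one_le_right hBd hel1') hHM0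
  -- the numbers
  obtain ⟨Bl, hBl⟩ : ∃ x : ℝ, x = Bd * Real.exp el * H ^ M := ⟨_, rfl⟩
  obtain ⟨Rn, hRn⟩ : ∃ x : ℝ, x = CR * X ^ (ε / 4) * H ^ J * Bd := ⟨_, rfl⟩
  have hBl0 : 0 ≤ Bl := by rw [hBl]; positivity
  have hRn0 : 0 ≤ Rn := by rw [hRn]; positivity
  have hDlev : ∀ m₁ σ : ℝ, σ ≤ n + N * S + r₂ → m₁ ≤ σ → n - cc - N * dl - r₂ ≤ m₁ →
      m₁ ≤ Real.log X' ∧ vl + el + (n - m₁) + (3 * w' + r₂) ≤ Real.log X' := by
    intro m₁ σ h1 h2 h3
    rw [hlX', hbl]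
    exact ⟨by linarith, by linarith⟩
  have cF : ∀ σ : ℝ, σ ≤ n + N * S + r₂ → ClXK Dk (ex0 D.κ) D (Ge (n - cc - N * dl - r₂))
      (C₃ * X' ^ ε₂ * (Bd * Real.exp (F (σ + N * r₃)) * H ^ M)) (S + r₂) (3 * w' + r₂)
      (C₁ * Real.exp n * Real.exp r₂) σ := by
    intro σ hσ
    refine hop X' hX'3 D (by rw [hDP]; exact hP) hDh (by rw [hDD]; exact hD01) hDJ
      (by rw [hDps]; exact hlen) (Bd * Real.exp (F (σ + N * r₃)) * H ^ M) (S + r₂)
      (3 * w' + r₂) (C₁ * Real.exp n * Real.exp r₂) (Real.exp (N * r₃))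
      (n - cc - N * dl - r₂) (n - cc - w') σ (σ + N * r₃)
      (by positivity) le_rfl ?_ le_rfl ?_ ?_
    · intro ps h1 h2 h3
      rw [hDv, hDn]
      exact hDlev (LF ps) σ hσ h2 h3
    · rw [hDD, hlD0]
      linarith
    · have cS3 := cS2 (σ + N * r₃)
      rw [hDn] at cS3
      refine RXg848.ClNK.mono cS3 le_rfl (by linarith) (by linarith) ?_ le_rfl le_rfl
      rw [mul_assoc (C₁ * Real.exp n), ← Real.exp_add]
  have cG : ∀ σ : ℝ, σ ≤ n + N * S + r₂ → ClXK Dk (ex0 D.κ) (Dr da D)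
      (Ge (n - cc - N * dl - r₂))
      (C₃ * X' ^ ε₂ * (Bd * H ^ M)) (2 * S + r₂) (3 * w' + r₂)
      (C₁ * Real.exp n * Real.exp r₂) σ := by
    intro σ hσ
    refine hop X' hX'3 (Dr da D) (by show D.P.OK; rw [hDP]; exact hP) hDh
      (by show 1 ≤ D.D0; rw [hDD]; exact hD01) hDJ
      hDrlen (Bd * H ^ M) (2 * S + r₂)
      (3 * w' + r₂) (C₁ * Real.exp n * Real.exp r₂) (Real.exp (N * r₃))
      (n - cc - N * dl - r₂) (n - cc - w') σ (σ + N * r₃)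
      (by positivity) le_rfl ?_ le_rfl ?_ ?_
    · intro ps h1 h2 h3
      show LF ps ≤ Real.log X' ∧ D.v + (D.n - LF ps) + (3 * w' + r₂) ≤ Real.log X'
      rw [hDv, hDn]
      exact hDlev (LF ps) σ hσ h2 h3
    · show n - cc - w' ≤ n - cc - N * dl - r₂ - N * (Real.log D.D0 + r₃)
      rw [hDD, hlD0]
      linarith
    · have cS3 := cSR2 (σ + N * r₃)
      rw [hDn] at cS3
      refine RXg848.ClNK.mono cS3 le_rfl (by linarith) (by linarith) ?_ le_rfl le_rfl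
      rw [mul_assoc (C₁ * Real.exp n), ← Real.exp_add]
  obtain ⟨El, hEl⟩ : ∃ x : ℝ, x = C₂ * X' ^ (5 * ε₂) * (1 + (C₃ * X' ^ ε₂ * (Bd * H ^ M) +
    C₃ * X' ^ ε₂ * (Bd * H ^ M) + 1 + 2 * (Bd * H ^ M)) + Rn) := ⟨_, rfl⟩
  have hEl0 : 0 ≤ El := by
    rw [hEl]
    have : 0 ≤ C₃ := by linarith
    positivity
  have hLg : Lg2B (da + w') ps₀ := by
    refine Lg2B_of ?_ hLmp
    rw [← hL, add_mul, ← hda, ← hcl]
    linarith
  have key := hrg X' hX'3 (((le_max_left _ _).trans (le_max_left _ _)).trans (hXX.trans hXX')) D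
    hDX (by rw [hDD, hzd]; exact hXδ) (by rw [hDz, hDD]) (by rw [hDps]; exact hz)
    (by rw [hDn, hDps]; exact hn.trans (LF_natl ps₀).symm)
    (by rw [hDκ]; linarith) (by rw [hDv]; linarith)
    (by rw [hDn, hlX', hbl]; linarith)
    (by rw [hDv, hlX', hbl]; linarith)
    (by rw [hDn, hDκ, hDv]; linarith)
    N0f N1f (fun L => rhs (N1f L)) cut_sharp cc Bl El da 0
    (fun m₁ => Real.exp (min cc (m₁ - (n - cc))))
    hcc0 (by rw [hlX', hbl]; linarith) hBl0 hEl0 (fun m₁ => by rw [hDn]) hccd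
    (by rw [hlX', ← hw', hDps]; exact hLg)
    (by rw [hlX', ← hw', ← hdl, hDv, hDn, hDκ]; linarith)
    (by
      rw [hlX', ← hw', hBl, hDn]; rw [hDn] at cJ2
      exact RXg848.ClNK.mono cJ2 le_rfl (by linarith) (by linarith) hQe le_rfl le_rfl)
    (by
      rw [hlX', ← hw', hBl, hDn]; rw [hDn] at cT2
      exact RXg848.ClNK.mono cT2 hBe (by linarith) (by linarith) hQe le_rfl le_rfl)
    (by
      rw [hlX', ← hw', hBl, hDn]; rw [hDn] at cJR2
      exact RXg848.ClNK.mono cJR2 le_rfl (by linarith) (by linarith) hQe le_rfl le_rfl)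
    (by
      rw [hlX', ← hw', hBl, hDn]
      have cS3 := cSR2 (n + w')
      rw [hDn] at cS3
      exact RXg848.ClNK.mono cS3 hBe (by linarith) (by linarith) hQe le_rfl le_rfl)
    ?_ k hk0 (by rw [hDv]; exact hkv')
  · -- the conclusion
    have e1 : SFK Dk D.z D.D0 1 D.P D.h k (natl D.ps₀) = S0K Dk P h k ps₀ := by
      rw [hDz, hDD, hDP, hDh, hDps]
      exact SFK_natl_one Dk P h z z k ps₀
    have e2 : Ht (natl D.ps₀) = H := by rw [hDps, hH]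
    have e3 : D.κ = K * Real.log X := by rw [hDκ, ← hL]; exact hκ
    rw [e1, e2, e3, hDn, hn, Real.exp_zero] at key
    refine key.trans ?_
    rw [← Ht_natl, ← hH]
    obtain ⟨G, hG⟩ : ∃ x : ℝ, x = Real.exp (fl (K * Real.log X) k (LL Dq ps₀)) := ⟨_, rfl⟩
    rw [← hG]
    have hG0 : 0 ≤ G := by rw [hG]; exact (Real.exp_pos _).le
    obtain ⟨A, hA⟩ : ∃ x : ℝ, x = X ^ (ε / 4) := ⟨_, rfl⟩
    have hA1 : 1 ≤ A := by rw [hA]; exact Real.one_le_rpow hX1 (by positivity)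
    have hεl4 : ε / 4 * L = εl / 4 := by rw [hεl]; ring
    have a1 : X' ^ (3 * (m * ε₂) + 5 * ε₂ + 4 * ε₁) ≤ A := by
      rw [hA, hpowX', hpowX, hεl4]
      refine Real.exp_le_exp.2 ?_
      have h1 : (3 * (m * ε₂) + 5 * ε₂ + 4 * ε₁) * (b * L) ≤ (12 * ε₁) * (b * L) :=
        mul_le_mul_of_nonneg_right (by linarith) (by positivity)
      have h2 : (12 * ε₁) * (b * L) = 12 * w' := by rw [hw']; ring
      linarith
    have a2 : X' ^ (5 * ε₂) ≤ A := by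
      rw [hA, hpowX', hpowX, hεl4]
      refine Real.exp_le_exp.2 ?_
      have h1 : (5 * ε₂) * (b * L) ≤ (5 * ε₁) * (b * L) :=
        mul_le_mul_of_nonneg_right (by linarith) (by positivity)
      have h2 : (5 * ε₁) * (b * L) = 5 * w' := by rw [hw']; ring
      linarith
    have a3 : X' ^ ε₂ ≤ A := by
      refine le_trans (Real.rpow_le_rpow_of_exponent_le hX'1 ?_) a2
      linarith
    have a4 : Real.exp el ≤ A := by
      rw [hA, hpowX, hεl4]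
      exact Real.exp_le_exp.2 (by linarith)
    have hA0 : 0 ≤ A := by linarith
    have hC₃0 : 0 ≤ C₃ := by linarith
    have hC₁0 : 0 ≤ C₁ := by linarith
    have k1 : El ≤ C₂ * A * (1 + (C₃ * A * (Bd * H ^ J) + C₃ * A * (Bd * H ^ J) + 1 +
        2 * (Bd * H ^ J)) + CR * A * H ^ J * Bd) := by
      rw [hEl, hRn, ← hA]
      gcongr
    have k2 := nex_const (C₁ := C₁) (C₂ := C₂) (C₃ := C₃) (CR := CR) (A := A) (H := H ^ J)
      (Bd := Bd) (F := G) hC₁0 hC₂ hC₃0 hCR hA1 hHJ1 hBd hG0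
    have k5 : Bl ≤ A * (Bd * H ^ J) := by
      rw [hBl]
      calc Bd * Real.exp el * H ^ M ≤ Bd * A * H ^ J := by gcongr
        _ = _ := by ring
    have k3 : C₁ * X' ^ (3 * (m * ε₂) + 5 * ε₂ + 4 * ε₁) * (El + Bl + 1 + 1) *
        H ^ J * G ≤
        C₁ * A * (C₂ * A * (1 + (C₃ * A * (Bd * H ^ J) + C₃ * A * (Bd * H ^ J) + 1 +
        2 * (Bd * H ^ J)) + CR * A * H ^ J * Bd) + A * (Bd * H ^ J) + 1 + 1) *
        H ^ J * G := by
      gcongr
    refine (k3.trans k2).trans ?_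
    have e4 : (H ^ J) ^ 2 = H ^ (2 * J) := by
      rw [← Real.rpow_natCast (H ^ J) 2, ← Real.rpow_mul (by linarith)]
      congr 1
      push_cast; ring
    have e5 : A ^ 3 ≤ X ^ ε := by
      rw [hA, ← Real.rpow_natCast, ← Real.rpow_mul hX0.le]
      refine Real.rpow_le_rpow_of_exponent_le hX1 ?_
      push_cast; linarith
    rw [e4]
    have hH2 : 0 ≤ H ^ (2 * J) := Real.rpow_nonneg (by linarith) _
    have hmx : C₁ * (C₂ * (4 + 2 * C₃ + CR) + 3) ≤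
      max (C₁ * Real.exp (r₂ + N * r₃)) (C₁ * (C₂ * (4 + 2 * C₃ + CR) + 3)) := le_max_right _ _
    have hmx0 : 0 ≤ C₁ * (C₂ * (4 + 2 * C₃ + CR) + 3) := by positivity
    gcongr
  · -- (LB)
    intro a ha1 ha2 q ps hq hqQ hNT hps hcm
    rw [hlX', ← hw'] at ha1 ha2
    obtain ⟨Lv, hLv⟩ : ∃ x : ℝ, x = D.v + (D.n - LF ps) + a + e₃ * Real.log X' := ⟨_, rfl⟩
    rw [← hLv]
    have hLv' : Lv = vl + el + (n - LF ps) + a + e₃ * (b * L) := by
      rw [hLv, hlX', hDv, hDn]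
    rw [hDn] at hcm hqQ
    have hps' : SbL S ps ps₀ := by rw [hDps] at hps; exact hps
    have hLF : LF ps ≤ n + N * S := by
      have := hps'.LF_le hS hlen
      rwa [LF_natl, ← hn] at this
    have hLF0 : 0 ≤ LF ps := LF_nonneg hps'.z_nonneg
    have hLv0 : 0 ≤ Lv := by rw [hLv']; linarith
    have hqX : (nm q : ℝ) ≤ X ^ (K + 1) := by
      refine le_trans ?_ (hqQ.trans hexpnC)
      exact le_mul_of_one_le_right (Nat.cast_nonneg _) (Real.one_le_exp hLF0)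
    have hfacts : NFacts K v g (ε / 4) X ps₀ ps Lv (N1f Lv) := by
      constructor
      · rw [← hn, ← hL]
        have : (K + ε / 4) * L = κ + εl / 4 := by rw [hκ, hεl]; ring
        linarith
      · rw [← hn, ← hL, ← hcc]; exact hcm
      · rw [← hn, ← hL]
        have : ε / 4 * L = εl / 4 := by rw [hεl]; ring
        linarith
      · exact hLv0
      · rw [← hL, ← hκ, hLv']; linarith
      · rw [← hL, ← hn, hLv']
        have : (v + ε / 4) * L = vl + εl / 4 := by rw [hvl, hεl]; ring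
        linarith
      · rw [← hL, ← hn, hLv', ← hvl]; linarith
      · exact (exp_le_N0f Lv).trans (by exact_mod_cast N0f_le_N1f Lv)
      · exact cut_sharp.hi Lv hLv0
      · exact hNT
      · rw [N1f_half]; exact exp_le_N0f Lv
    have hRRq := hRf q ps Lv (N1f Lv) hfacts hq hqX hps'
    have eK : X ^ K = Real.exp κ := by rw [hpowX, hκ]
    have eb : X ^ (8 * (K + 1)) = X' := by rw [hX', hb]
    rw [eK, eb, ← hL, ← hcc, ← hda, ← hn] at hRRq
    have hHt := one_le_Ht ps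
    obtain ⟨cg, hcg⟩ : ∃ x : ℝ, x = min cc (LF ps - (n - cc)) := ⟨_, rfl⟩
    rw [← hcg] at hRRq
    have hcg1 : cg ≤ cc := by rw [hcg]; exact min_le_left _ _
    have hcg2 : cg ≤ LF ps - (n - cc) := by rw [hcg]; exact min_le_right _ _
    have hcg0 : 0 ≤ cg := by rw [hcg]; exact le_min hcc0 (by linarith)
    have hcg3 : LF ps - w' + r₂ - (n - cc) ≤ cg := by
      rw [hcg]
      exact le_min (by linarith) (by linarith)
    obtain ⟨y, hy⟩ : ∃ x : ℝ, x = max 0 (n - LF ps) := ⟨_, rfl⟩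
    have hy0 : 0 ≤ y := by rw [hy]; exact le_max_left _ _
    have hy1 : n - LF ps ≤ y := by rw [hy]; exact le_max_right _ _
    have hycc : y ≤ cc := by rw [hy]; exact max_le hcc0 (by linarith)
    have hcgy : cg + y ≤ cc := by
      rw [hy]
      rcases le_total 0 (n - LF ps) with h6 | h6
      · rw [max_eq_right h6]; linarith
      · rw [max_eq_left h6]; linarith
    have heβ' := heβ Lv (LF ps)
    have he₀' := he₀ Lv (LF ps)
    have hF' := hF (LF ps)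
    have hβ5' := hβ5 Lv (LF ps) (by rw [← hn, ← hL, ← hεl]; linarith)
    rw [← hL] at heβ' hβ5'
    rw [← hκ] at hβ5'
    rw [← hcl] at heβ'
    have hC₃0 : 0 ≤ C₃ := by linarith
    obtain ⟨Bf, hBf⟩ : ∃ x : ℝ, x = C₃ * X' ^ ε₂ *
      (Bd * Real.exp (F (LF ps + r₂ + N * r₃)) * H ^ M) := ⟨_, rfl⟩
    obtain ⟨Br, hBr⟩ : ∃ x : ℝ, x = C₃ * X' ^ ε₂ * (Bd * H ^ M) := ⟨_, rfl⟩
    have hBf0 : 0 ≤ Bf := by rw [hBf]; positivity
    have hBr0 : 0 ≤ Br := by rw [hBr]; positivity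
    have hFs : F (LF ps + r₂ + N * r₃) ≤ F (LF ps) + (r₂ + N * r₃) := by
      rw [add_assoc]
      exact hFx _ _ (by positivity)
    have hRR2 : Rh ⟨Cw, η₀, Jn + 2, Real.exp D.κ, Real.exp (LF ps), X', R, Jn, N1f Lv,
        Real.exp (e₀ Lv (LF ps)), Real.exp (e₁ Lv (LF ps)), Real.exp (β Lv (LF ps)),
        Real.exp (-β Lv (LF ps)), Real.exp cg, Real.exp cg⟩
        (xs q D.z D.D0 D.P D.h da ps) (Rn * Ht ps ^ J * Real.exp (2 * LF ps)) := by
      rw [hDκ, hDz, hDD, hDP, hDh, hzd]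
      refine hRm _ _ _ _ hRRq ?_
      rw [hRn, ← hH]
      have h2 : (Ht ps * H) ^ J₀ ≤ Ht ps ^ J * H ^ J := by
        rw [← Real.mul_rpow (by linarith) (by linarith)]
        exact Real.rpow_le_rpow_of_exponent_le
          (one_le_mul_of_one_le_of_one_le hHt hH1) hJ₀J
      calc CR * X ^ (ε / 4) * (Ht ps * H) ^ J₀ * Bd * Real.exp (2 * LF ps) ≤
            CR * X ^ (ε / 4) * (Ht ps ^ J * H ^ J) * Bd * Real.exp (2 * LF ps) := by gcongr
        _ = _ := by ring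
    have hQX : QXm B₀ X' S (C₁ * Real.exp n) (da - y) da D q ps :=
      { prim := hq
        qX := by
          refine (hqX.trans ?_).trans hX'B
          rw [hX']
          exact Real.rpow_le_rpow_of_exponent_le hX1 (by rw [hb]; linarith)
        qQ := hqQ
        sb := hps
        lg := by
          refine lg3_of (Nr := N) hS hda0 hps' hLg (by rw [LF_natl, ← hn]; exact hy1) hy0
            (by exact_mod_cast hlen) ?_
          linarith
        LX := by rw [hlX', hbl]; linarith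
        d0 := hda0
        s0 := hS
        g0 := by linarith
        gd := by linarith }
    have hlb1 := hlb X' hX'3 (((le_max_right _ _).trans (le_max_left _ _)).trans
      (hXX.trans hXX')) D hDX
      (by rw [hDκ, hlX', hbl]; linarith) Bf Br Bl S (3 * w')
      (C₁ * Real.exp n) (Real.exp r₂) cg cg cc w' (n - cc - N * dl - r₂) 0
      (LF ps + r₂) (da - y) da 0 hBf0 hBr0 hBl0 le_rfl (by positivity) le_rfl hw0
      (by rw [hlX', hbl]; linarith) hcg0 (by rw [hBf]; exact cF _ (by linarith))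
      (by rw [hBr]; exact cG _ (by linarith))
      (by
        rw [hBl]
        exact RXg848.ClNK.mono cJ2 le_rfl (by linarith) (by linarith) hQe2 le_rfl le_rfl)
      (by
        rw [hBl]
        exact RXg848.ClNK.mono cJR2 le_rfl (by linarith) (by linarith) hQe2 le_rfl le_rfl)
      q ps hQX (by rw [hlX', hbl]; linarith)
      (by rw [hDn]; exact hcm) (by linarith)
      (by rw [hDD, hlD0]; linarith)
      (by rw [hDn]; linarith)
      (N1f Lv) Lv (by have := two_le_N1f Lv; omega) (cut_sharp.hi Lv hLv0)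
      (by rw [hlX', hbl, hLv']; linarith)
      (by rw [hlX', hbl, hLv']; linarith)
      (by rw [hDv, hDn, hLv']; linarith)
      (by rw [hDD, hlD0, hDκ, hLv']; linarith)
      (e₀ Lv (LF ps)) (e₁ Lv (LF ps)) (β Lv (LF ps)) he₀' (by rw [hlX', hbl]; linarith)
      (by linarith)
      (by rw [hDκ]; linarith)
      Rn hRn0 hRR2
    have hlDD : Real.log D.D0 = dl := by rw [hDD, hlD0]
    rw [hlDD, Real.exp_zero] at hlb1
    show LBn w Cw η₀ (Jn + 2) (Real.exp D.κ) (Real.exp (LF ps)) X'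
      (Real.exp (min cc (LF ps - (n - cc)))) (N1f Lv) (rhs (N1f Lv)) R Jn
      (xs q D.z D.D0 D.P D.h da ps) (El * Ht ps ^ J * Real.exp (2 * LF ps))
    rw [← hcg]
    refine hlb1.mono (Real.exp_pos _).le (Real.exp_pos _).le ?_
    rw [hEl]
    have h3 : 0 ≤ Ht ps ^ J := Real.rpow_nonneg (by linarith) _
    obtain ⟨f, hf⟩ : ∃ x : ℝ, x = Real.exp (e₀ Lv (LF ps) - β Lv (LF ps)) +
      τ * Real.exp (-e₀ Lv (LF ps)) := ⟨_, rfl⟩
    rw [← hf]
    have hhalf : ∀ x : ℝ, x ≤ -1 → Real.exp x ≤ 1 / 2 := fun x hx => by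
      have h4 : Real.exp x ≤ Real.exp (-1) := Real.exp_le_exp.2 hx
      have h5 : Real.exp (-1 : ℝ) ≤ 1 / 2 := by
        rw [Real.exp_neg, inv_eq_one_div]
        refine one_div_le_one_div_of_le (by norm_num) ?_
        have := Real.add_one_le_exp (1 : ℝ)
        linarith
      linarith
    have t0 : ∀ y : ℝ, y ≤ F (LF ps) + (cl - 1) → f * Real.exp y ≤ 1 := by
      intro y hy
      have g1 : Real.exp (e₀ Lv (LF ps) - β Lv (LF ps)) * Real.exp y ≤ 1 / 2 := by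
        rw [← Real.exp_add]
        exact hhalf _ (by linarith)
      have g2 : τ * Real.exp (-e₀ Lv (LF ps)) * Real.exp y ≤ 1 / 2 := by
        rcases hτe with h6 | h6
        · rw [h6, zero_mul, zero_mul]; norm_num
        · have h7 := h6 Lv (LF ps)
          rw [← hL, ← hcl] at h7
          rw [mul_assoc, ← Real.exp_add]
          have h8 := hhalf (-e₀ Lv (LF ps) + y) (by linarith)
          calc τ * Real.exp (-e₀ Lv (LF ps) + y) ≤ 1 * Real.exp (-e₀ Lv (LF ps) + y) :=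
                mul_le_mul_of_nonneg_right hτ1 (Real.exp_pos _).le
            _ ≤ 1 / 2 := by rw [one_mul]; exact h8
      rw [hf, add_mul]
      linarith
    have t1 : f * Real.exp (F (LF ps + r₂ + N * r₃)) ≤ 1 := t0 _ (by linarith)
    have t2 : f * (Real.exp el * Real.exp (N * dl + 3 * w')) ≤ 1 := by
      rw [← Real.exp_add]
      exact t0 _ (by linarith)
    have t4 : f ≤ 1 := by
      have := t0 0 (by linarith)
      rwa [Real.exp_zero, mul_one] at this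
    have hf0 : 0 ≤ f := by rw [hf]; positivity
    have t3 : f * (Bf + Br + 1 + (Bl + Bl) * Real.exp (N * dl + 3 * w')) ≤
        C₃ * X' ^ ε₂ * (Bd * H ^ M) + C₃ * X' ^ ε₂ * (Bd * H ^ M) + 1 + 2 * (Bd * H ^ M) := by
      rw [hBf, hBr, hBl]
      have u1 : 0 ≤ C₃ * X' ^ ε₂ * (Bd * H ^ M) := by positivity
      have u2 : 0 ≤ Bd * H ^ M := by positivity
      calc f * (C₃ * X' ^ ε₂ * (Bd * Real.exp (F (LF ps + r₂ + N * r₃)) * H ^ M) +
            C₃ * X' ^ ε₂ * (Bd * H ^ M) + 1 + (Bd * Real.exp el * H ^ M +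
            Bd * Real.exp el * H ^ M) * Real.exp (N * dl + 3 * w')) =
            (C₃ * X' ^ ε₂ * (Bd * H ^ M)) * (f * Real.exp (F (LF ps + r₂ + N * r₃))) +
            (C₃ * X' ^ ε₂ * (Bd * H ^ M)) * f + f +
            2 * (Bd * H ^ M) * (f * (Real.exp el * Real.exp (N * dl + 3 * w'))) := by ring
        _ ≤ (C₃ * X' ^ ε₂ * (Bd * H ^ M)) * 1 + (C₃ * X' ^ ε₂ * (Bd * H ^ M)) * 1 + 1 +
            2 * (Bd * H ^ M) * 1 :=
            add_le_add (add_le_add (add_le_add (mul_le_mul_of_nonneg_left t1 u1)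
              (mul_le_mul_of_nonneg_left t4 u1)) t4)
              (mul_le_mul_of_nonneg_left t2 (by positivity))
        _ = _ := by ring
    gcongr

end Crest.Agent.R017.NX848
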