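import Crest.Agent.R017.NXe_298
import Crest.Agent.R017.NEy_911
import Crest.Agent.R017.NXc_848

/-!
# Row 17, T.7 (FlatNE, exceptional class), finite text (helper298)

* `ne_finX` : helper911's `NeFinX` from `LBS` and the near leaf `NLeafX` (helper848's `ne_core_x`)
-/

set_option autoImplicit false

noncomputable section

open Complex
open scoped ComplexConjugate

namespace Crest.Agent.R017.RX298

open Crest.Agent.R012 Crest.Agent.R012.Eis Crest.Agent.R012.LS2 Crest.Agent.R012.Gauss880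
open Crest.Agent.R012.MC (Wgt)
open Crest.Agent.R017.CM106 Crest.Agent.R017.HP842 Crest.Agent.R017.FE47
open Crest.Agent.R017.End699 hiding pw
open Crest.Agent.R017.B770
open Crest.Agent.R017.Prov71
open Crest.Agent.R017.Leg381
open Crest.Agent.R017.RGB545
open Crest.Agent.R017.RuleM545
open Crest.Agent.R017.XP699 (LL Chd hcost cst)
open Crest.Agent.R017.RG64
open Crest.Agent.R017.NEg551
open Crest.Agent.R017.NE73 (NI Phn bn Gn Hn zn gN)
open Crest.Agent.R017.NEx911 (NeFinX FnX HnX)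
open Crest.Agent.R017.PX764 (Dk)
open Crest.Agent.R017.XS0298 (S0K)
open Crest.Agent.R017.Sup271 (NPm)
open Crest.Agent.R017.RXk848 (LnP Lmp rbx_true rbx_false LL_rbx chd_mono)
open Crest.Agent.R017.NX848 (NPremX NPremR ne_core_x)

lemma Lmp_mono {x y : ℝ} (hxy : y ≤ x) {ps₀ : List Pq} (h : Lmp x ps₀) : Lmp y ps₀ := by
  match ps₀, h with
  | p₁ :: p₂ :: p₃ :: gs, h =>
    obtain ⟨a, b, c, d, e⟩ := h
    exact ⟨a, b, c, hxy.trans d, hxy.trans e⟩

lemma NTcX.toPrem {P : DPar} {h : ℝ → ℝ} {K v c ε X r b M Bd : ℝ} {ps₀ : List Pq}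
    (H : NTcX P h K v c ε X r b M Bd ps₀) (hc : 0 ≤ c) (hX : 0 ≤ Real.log X) :
    NPremX P h K v (gN K c (LL Dq ps₀ / Real.log X)) (F3 (K * Real.log X)) ε X r b M Bd ps₀ := by
  have e1 : ∀ x : ℝ, (x + ε) * Real.log X ≤ (x + c + ε) * Real.log X := fun x =>
    mul_le_mul_of_nonneg_right (by linarith) hX
  constructor
  · intro l ps' h1 h2 h3 h4
    exact H.sl l ps' h1 h2 h3 (h4.trans (e1 _))
  · intro l ps' h1 h2 h3 h4 h5
    exact H.tp l ps' h1 h2 h3 h4 (h5.trans (e1 _))
  · exact H.jj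

lemma NTcR.toPrem {P : DPar} {h : ℝ → ℝ} {K v c ε X r b M Bd : ℝ} {base : List Pq}
    (H : NTcR P h K v c ε X r b M Bd base) (hc : 0 ≤ c) (hX : 0 ≤ Real.log X) :
    NPremR P h K v (gN K c (LL Dq base / Real.log X)) ε X r b M Bd base := by
  have e1 : ∀ x : ℝ, (x + ε) * Real.log X ≤ (x + c + ε) * Real.log X := fun x =>
    mul_le_mul_of_nonneg_right (by linarith) hX
  constructor
  · intro l ps' h1 h2 h3 h4
    exact H.sl l ps' h1 h2 h3 (h4.trans (e1 _))
  · exact H.jj

set_option maxHeartbeats 12800000 in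
/-- **the finite theorem of the near recursion**, exceptional class -/
theorem ne_finX {Lam ι : Type*} {p : ℕ} {π : Lam → DPar} (hP : ∀ lam, (π lam).OK)
    (hnp : ∀ lam, ¬ NPm (π lam).n (π lam).ψ (π lam).l₂ 1) {h : ℝ → ℝ} {c₂ : ℝ} (hpu : PU h c₂)
    {w : ℝ → ℝ} (hab : Abs4 w) {τ : ℝ} (hτ : 0 ≤ τ) (hτ1 : τ ≤ 1)
    {Rh : LBq → (Eis → ℂ) → ℝ → Prop} (hLB : LBS w τ Rh)
    (hRm : ∀ (p : LBq) (α : Eis → ℂ) (Rn Rn' : ℝ), Rh p α Rn → Rn ≤ Rn' → Rh p α Rn')
    {L : ι → Line Lam p} {φ₀ φ₁ φβ : ℝ → ℝ → ℝ → ℝ} {K v c eb d : ℝ} (hc : 0 < c)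
    (hcK : 2000 * c ≤ K) (hv : 0 ≤ v) (hφ₀ : ∀ a u m, 0 ≤ φ₀ a u m)
    (hφβ : ∀ a u m, φ₀ a u m + max 0 ((4 * m - 3 * K) / 9) + c / 2 ≤ φβ a u m)
    (hφτ : τ = 0 ∨ ∀ a u m, max 0 ((4 * m - 3 * K) / 9) + c / 2 ≤ φ₀ a u m)
    (hφK : ∀ a u m, 5 * a ≤ 4 * K + c → m ≤ a + c → 5 * φβ a u m ≤ K)
    (hleaf : NLeafX π h Rh L φ₀ φ₁ φβ K v c eb d) :
    NeFinX (fun lam => S0K Dk (π lam) h) L (min (c / 2) 1 / 100) K v c eb d := by
  classical
  have hK : 0 < K := by linarith
  intro lam N c₀ hc₀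
  obtain ⟨c₀', hc₀'⟩ : ∃ x : ℝ, x = max c₀ (K + 1) := ⟨_, rfl⟩
  have hcc1 : c₀ ≤ c₀' := by rw [hc₀']; exact le_max_left _ _
  have hcc2 : K + 1 ≤ c₀' := by rw [hc₀']; exact le_max_right _ _
  obtain ⟨BR, hBR, hR1⟩ := hleaf lam N c₀' (hc₀.trans hcc1)
  refine ⟨max BR (K + 1), le_max_of_le_left hBR, ?_⟩
  intro ε M hε hM
  obtain ⟨ε', hε'⟩ : ∃ x : ℝ, x = min ε (min (c / 2) 1) := ⟨_, rfl⟩
  have he1 : ε' ≤ ε := by rw [hε']; exact min_le_left _ _
  have he2 : ε' ≤ c / 2 := by rw [hε']; exact (min_le_right _ _).trans (min_le_left _ _)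
  have he3 : ε' ≤ 1 := by rw [hε']; exact (min_le_right _ _).trans (min_le_right _ _)
  have he0 : 0 < ε' := by rw [hε']; exact lt_min hε (lt_min (by linarith) one_pos)
  have hmin : min (ε / 100) (min (c / 2) 1 / 100) = ε' / 100 := by
    rw [hε', min_div_div_right (by norm_num : (0 : ℝ) ≤ 100)]
  obtain ⟨J₀, δ₀, hJ₀, hδ₀, hR2⟩ := hR1 (ε' / 4) M (by positivity) hM
  obtain ⟨δ, Jn, Aw, Cw, R, η, S, hδ, hδδ, hJn, hAw, hCw, hR, hη, hη1, hS, hcore⟩ :=
    ne_core_x hpu hab hτ hτ1 hLB hRm (c := c / 2) (K := K) (by linarith) (by linarith) N (M := M)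
      (B₀ := c₀') he0 he2 he3 hM hJ₀ hδ₀ (hc₀.trans hcc1)
  obtain ⟨CR, rR, XR, hCR, hrR, hR3⟩ :=
    hR2 δ Jn Aw Cw R η S hδ hδδ hJn hAw hCw hR hη hη1 hS
  obtain ⟨C, r, J, X₁, hC, hr, hJ, hX⟩ := hcore CR hCR
  refine ⟨2 * C + CR, max r rR, J, max (max X₁ XR) (nm (π lam).n : ℝ), by positivity,
    le_max_of_le_left hr, hJ, ?_⟩
  intro X hX3 hXX k ps hk0 hkc hlen hps hs2 hHpX Bd hBd hprem
  have hXn : (nm (π lam).n : ℝ) ≤ X := (le_max_right _ _).trans hXX
  replace hXX : max X₁ XR ≤ X := (le_max_left _ _).trans hXX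
  have hX1 : (1 : ℝ) ≤ X := by linarith
  have hX1' : (1 : ℝ) < X := by linarith
  have hX0 : 0 < X := by linarith
  obtain ⟨l, hl⟩ : ∃ x : ℝ, x = Real.log X := ⟨_, rfl⟩
  have hl0 : 0 < l := by rw [hl]; exact Real.log_pos (by linarith)
  have hpowX : ∀ x : ℝ, X ^ x = Real.exp (x * l) := fun x => by
    rw [Real.rpow_def_of_pos hX0, hl, mul_comm]
  obtain ⟨n, hn⟩ : ∃ x : ℝ, x = LL Dq ps := ⟨_, rfl⟩
  have hn0 : 0 ≤ n := by
    rw [hn]
    unfold LL
    refine List.sum_nonneg fun x hx => ?_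
    obtain ⟨q, hq, rfl⟩ := List.mem_map.1 hx
    exact (hps q hq).1
  -- the parent
  obtain ⟨hHp, hlist⟩ := hHpX
  rw [hmin] at hlist
  have hel : 0 ≤ ε' / 100 * l := by positivity
  have hel2 : ε' / 100 ≤ c / 2 := by linarith
  have hLmp : Lmp ((d + 3 / 2 * c) * Real.log X) ps := by
    obtain ⟨p₁, p₂, p₃, gs, rfl, l1, l2, l3, h2, h3⟩ := hlist
    refine ⟨l1, l2, l3, ?_, ?_⟩
    · have h11 : d + 3 / 2 * c ≤ p₁.z / Real.log X := by
        have : d + 2 * c ≤ p₁.z / Real.log X + ε' / 100 := h2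
        linarith
      rwa [le_div_iff₀ (by rw [← hl]; exact hl0)] at h11
    · have h11 : d + 3 / 2 * c ≤ p₂.z / Real.log X := by
        have : d + 2 * c ≤ p₂.z / Real.log X + ε' / 100 := h3
        linarith
      rwa [le_div_iff₀ (by rw [← hl]; exact hl0)] at h11
  unfold Hmin at hHp
  rw [hmin] at hHp
  have hHpN : Hn K v c ![k / Real.log X, LL Dq ps / Real.log X] ≤ ε' / 100 :=
    (le_max_left _ _).trans hHp
  have p7 := (le_max_left _ _).trans ((le_max_right _ _).trans hHp)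
  have p8 := (le_max_left _ _).trans ((le_max_right _ _).trans ((le_max_right _ _).trans hHp))
  have p9 := (le_max_right _ _).trans ((le_max_right _ _).trans ((le_max_right _ _).trans hHp))
  have p1 := (le_max_left _ _).trans ((le_max_left _ _).trans hHpN)
  have p2 := (le_max_left _ _).trans ((le_max_right _ _).trans ((le_max_left _ _).trans hHpN))
  have p6 := (le_max_right _ _).trans ((le_max_right _ _).trans ((le_max_left _ _).trans hHpN))
  have p3 := (le_max_left _ _).trans ((le_max_left _ _).trans ((le_max_right _ _).trans hHpN))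
  have p4 := (le_max_right _ _).trans ((le_max_left _ _).trans ((le_max_right _ _).trans hHpN))
  have p5 := (le_max_right _ _).trans ((le_max_right _ _).trans hHpN)
  have e0 : (![k / Real.log X, LL Dq ps / Real.log X] : Fin 2 → ℝ) 0 = k / l := by rw [hl]; rfl
  have e1 : (![k / Real.log X, LL Dq ps / Real.log X] : Fin 2 → ℝ) 1 = n / l := by
    rw [hl, hn]; rfl
  rw [e0] at p1
  rw [e1] at p2 p3 p4 p5 p6 p7 p8 p9
  have hkl : k = k / l * l := by field_simp
  have hnl : n = n / l * l := by field_simp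
  obtain ⟨g, hg⟩ : ∃ x : ℝ, x = gN K c (n / l) := ⟨_, rfl⟩
  have hgd : g = n / l - 3 / 4 * K + c := by rw [hg]; rfl
  rw [← hg] at p5 p7
  have hg0 : 0 ≤ g := by rw [hgd]; linarith
  have hvK : v ≤ K := by linarith
  have hgdd : g ≤ d := by linarith
  have hcl : 0 ≤ c * l := by positivity
  have hKl : 0 ≤ K * l := by positivity
  have q1 := mul_le_mul_of_nonneg_right p1 hl0.le
  have q2 := mul_le_mul_of_nonneg_right p2 hl0.le
  have q3 := mul_le_mul_of_nonneg_right p3 hl0.le
  have q4 := mul_le_mul_of_nonneg_right p4 hl0.le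
  have q6 := mul_le_mul_of_nonneg_right p6 hl0.le
  have q7 := mul_le_mul_of_nonneg_right p7 hl0.le
  have q8 := mul_le_mul_of_nonneg_right p8 hl0.le
  have q9 := mul_le_mul_of_nonneg_right p9 hl0.le
  have r1 : (k / l - v) * l = k - v * l := by rw [sub_mul, ← hkl]
  have r2 : (2 * (n / l) + 100 * c - K - v) * l = 2 * n + 100 * (c * l) - K * l - v * l := by
    have : 2 * (n / l) * l = 2 * n := by rw [mul_assoc, ← hnl]
    rw [sub_mul, sub_mul, add_mul, this]; ring
  have r3 : (5 * (n / l) - 4 * K) * l = 5 * n - 4 * (K * l) := by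
    have : 5 * (n / l) * l = 5 * n := by rw [mul_assoc, ← hnl]
    rw [sub_mul, this]; ring
  have r4 : (3 * K - 4 * (n / l)) * l = 3 * (K * l) - 4 * n := by
    have : 4 * (n / l) * l = 4 * n := by rw [mul_assoc, ← hnl]
    rw [sub_mul, this]; ring
  have r6 : (5 * (v + n / l) + 100 * c - 7 * K) * l =
      5 * (v * l + n) + 100 * (c * l) - 7 * (K * l) := by
    have : 5 * (v + n / l) * l = 5 * (v * l + n) := by rw [mul_assoc, add_mul, ← hnl]
    rw [sub_mul, add_mul, this]; ring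
  have r7 : ((v + n / l - K) / 3 + g + 30 * c - d) * l =
      (v * l + n - K * l) / 3 + g * l + 30 * (c * l) - d * l := by
    have : n / l * l = n := hnl.symm
    rw [sub_mul, add_mul, add_mul, div_mul_eq_mul_div, sub_mul, add_mul, this]; ring
  have r8 : ((v + n / l - K) / 3 + eb * K - d) * l =
      (v * l + n - K * l) / 3 + eb * K * l - d * l := by
    have : n / l * l = n := hnl.symm
    rw [sub_mul, add_mul, div_mul_eq_mul_div, sub_mul, add_mul, this]
  have r9 : (n / l + d - K) * l = n + d * l - K * l := by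
    have : n / l * l = n := hnl.symm
    rw [sub_mul, add_mul, this]
  rw [r6] at q6
  rw [r7] at q7
  rw [r8] at q8
  rw [r9] at q9
  rw [r1] at q1
  rw [r2] at q2
  rw [r3] at q3
  rw [r4] at q4
  have hnK5 : n ≤ 4 / 5 * (K * l) + ε' / 100 * l := by linarith
  have hpar : NPar K v (ε' / 100) X k ps := by
    constructor
    · exact hk0
    · rw [← hl]; linarith
    · rw [← hl, ← hn]
      have : (K + v + ε' / 100) * l = K * l + v * l + ε' / 100 * l := by ring
      linarith
    · rw [← hl, ← hn]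
      have : (K + ε' / 100) * l = K * l + ε' / 100 * l := by ring
      linarith
  have h4e : ε' / 100 * l ≤ ε' / 4 * l := mul_le_mul_of_nonneg_right (by linarith) hl0.le
  have h4e3 : 3 * (ε' / 100 * l) ≤ ε' / 4 * l := by
    have : 3 * (ε' / 100) * l ≤ ε' / 4 * l := mul_le_mul_of_nonneg_right (by linarith) hl0.le
    linarith
  have hnum : NNum K v c (ε' / 4) X ps := by
    constructor
    · rw [← hl, ← hn]
      have : (K + v + ε' / 4) * l = K * l + v * l + ε' / 4 * l := by ring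
      have : 100 * c * l = 100 * (c * l) := by ring
      linarith
    · rw [← hl, ← hn]
      have : (4 * K + ε' / 4) * l = 4 * (K * l) + ε' / 4 * l := by ring
      linarith
    · rw [← hl, ← hn]
      have : 3 * K * l = 3 * (K * l) := by ring
      linarith
    · rw [← hl, ← hn, ← hg]
      linarith
    · rw [← hl, ← hn]
      have : (7 * K + ε' / 4) * l = 7 * (K * l) + ε' / 4 * l := by ring
      have : 100 * c * l = 100 * (c * l) := by ring
      linarith
    · linarith
  have hnumX : NNumX K v c eb d (ε' / 4) X ps := by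
    constructor
    · rw [← hl, ← hn, ← hg]
      have : (v + 3 * g + 90 * c) * l = v * l + 3 * (g * l) + 90 * (c * l) := by ring
      have : (K + 3 * d + ε' / 4) * l = K * l + 3 * (d * l) + ε' / 4 * l := by ring
      linarith
    · rw [← hl, ← hn]
      have : (v + 3 * (eb * K)) * l = v * l + 3 * (eb * K * l) := by ring
      have : (K + 3 * d + ε' / 4) * l = K * l + 3 * (d * l) + ε' / 4 * l := by ring
      linarith
    · rw [← hl, ← hn]
      have : (K + ε' / 4) * l = K * l + ε' / 4 * l := by ring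
      linarith
  -- the exponent
  obtain ⟨A, hA⟩ : ∃ x : ℝ, x = Ar K ![k / Real.log X, LL Dq ps / Real.log X] := ⟨_, rfl⟩
  have hAl : A * l = RG64.fl (K * l) k n := by
    rw [hA]
    unfold Ar RG64.fl
    rw [e0, e1, add_mul, max_mul_of_nonneg _ _ hl0.le, zero_mul]
    have h1 : 2 * (n / l) * l = 2 * n := by rw [mul_assoc, ← hnl]
    have h2 : (k / l + K - 2 * (n / l)) / 3 * l = (k - 2 * n + K * l) / 3 := by
      field_simp
      ring
    rw [h1, h2]
  have hXA : X ^ A = Real.exp (RG64.fl (K * l) k n) := by rw [hpowX, hAl]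
  have hXA0 : 0 < X ^ A := Real.rpow_pos_of_pos hX0 _
  have hXAn : X ^ (-A) * X ^ A = 1 := by rw [← Real.rpow_add hX0]; simp
  obtain ⟨Bd', hBd'⟩ : ∃ x : ℝ, x = 1 + Bd * X ^ (-A) := ⟨_, rfl⟩
  have hXn0 : 0 ≤ X ^ (-A) := Real.rpow_nonneg hX0.le _
  have hBd'1 : 1 ≤ Bd' := by rw [hBd']; have := mul_nonneg hBd hXn0; linarith
  have hBd'2 : Bd * X ^ (-A) ≤ Bd' := by rw [hBd']; linarith
  have hTK : TK K = 10 * (K + 1) := rfl
  have hTK0 : 0 ≤ TK K := by rw [hTK]; linarith
  have h0p : ∀ m : ℕ, (0 : Fin m → ℝ) ∈ Set.Icc (0 : Fin m → ℝ) (fun _ => TK K) :=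
    fun m => ⟨le_rfl, fun _ => hTK0⟩
  have nK' : n ≤ (K + 1) * l := by
    have h1 : ε' / 100 * l ≤ 1 * l := mul_le_mul_of_nonneg_right (by linarith) hl0.le
    have : (K + 1) * l = K * l + 1 * l := by ring
    linarith
  have nv' : v * l ≤ K * l := mul_le_mul_of_nonneg_right hvK hl0.le
  have hbmax : C * X ^ (K + 1) ≤ (2 * C + CR) * X ^ max BR (K + 1) := by
    have h1 : X ^ (K + 1) ≤ X ^ max BR (K + 1) :=
      Real.rpow_le_rpow_of_exponent_le hX1 (le_max_right _ _)
    calc C * X ^ (K + 1) ≤ (2 * C + CR) * X ^ (K + 1) := by gcongr; linarith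
      _ ≤ _ := by gcongr
  have hbmax2 : CR * X ^ BR ≤ (2 * C + CR) * X ^ max BR (K + 1) := by
    have h1 : X ^ BR ≤ X ^ max BR (K + 1) :=
      Real.rpow_le_rpow_of_exponent_le hX1 (le_max_left _ _)
    calc CR * X ^ BR ≤ (2 * C + CR) * X ^ BR := by gcongr; linarith
      _ ≤ _ := by gcongr
  have hnb : ∀ b : Bool, LL Dq (rbx d b X ps) = n := fun b => by rw [LL_rbx, hn]
  have hcst : ∀ (b : Bool) (ps' : List Pq), 0 ≤ cst hcost ps' (rbx d b X ps) ^ M := fun b ps' =>
    Real.rpow_nonneg (zero_le_one.trans (XP699.one_le_cst XP699.one_le_hcost _ _)) _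
  have hlTK : ∀ (x : ℝ) (ps' : List Pq), 0 ≤ LL Dq ps' →
      x ≤ (v + ε') * l + (n - LL Dq ps') → x ≤ TK K * Real.log X := by
    intro x ps' h1 h2
    rw [hTK, ← hl]
    have h3 : (v + ε') * l ≤ K * l + l := by
      have : ε' * l ≤ 1 * l := mul_le_mul_of_nonneg_right he3 hl0.le
      have : (v + ε') * l = v * l + ε' * l := by ring
      linarith
    have h4 : (K + 1) * l = K * l + l := by ring
    have h5 : 10 * (K + 1) * l = 10 * (K * l) + 10 * l := by ring
    linarith
  have hx0 : ∀ (b : Bool) (x : ℝ) (ps' : List Pq), xv Dq X k (rbx d b X ps) x ps' 0 = k / l :=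
    fun b x ps' => by
    rw [hl]; rfl
  have hx1 : ∀ (b : Bool) (x : ℝ) (ps' : List Pq), xv Dq X k (rbx d b X ps) x ps' 1 = n / l :=
    fun b x ps' => by
    rw [hl, ← hnb b]; rfl
  have hx2 : ∀ (b : Bool) (x : ℝ) (ps' : List Pq), xv Dq X k (rbx d b X ps) x ps' 2 = x / l :=
    fun b x ps' => by
    rw [hl]; rfl
  have hx3 : ∀ (b : Bool) (x : ℝ) (ps' : List Pq),
      xv Dq X k (rbx d b X ps) x ps' 3 = LL Dq ps' / l := fun b x ps' => by
    rw [hl]; rfl
  have hAeq : Ar K ![k / l, n / l] = A := by rw [hA, hl, hn]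
  have conv : ∀ (x : ℝ) (ps' : List Pq) (E E' : ℝ) (B : ℝ), E * l = E' - A * l →
      S0K Dk (π lam) h x ps' ≤ Bd * B * X ^ E → 0 ≤ B →
      S0K Dk (π lam) h x ps' ≤ Bd' * B * Real.exp E' := by
    intro x ps' E E' B hE h1 hB
    refine h1.trans ?_
    have h2 : X ^ E = X ^ (-A) * Real.exp E' := by
      rw [hpowX, hpowX, ← Real.exp_add]
      congr 1
      linarith
    rw [h2]
    calc Bd * B * (X ^ (-A) * Real.exp E') = (Bd * X ^ (-A)) * B * Real.exp E' := by ring
      _ ≤ Bd' * B * Real.exp E' := by gcongr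
  have gdiv : ∀ {a b' c' : ℝ}, a ≤ b' * l → c' = a / l → c' ≤ b' := by
    intro a b' c' h1 h2
    rw [h2, div_le_iff₀ hl0]
    exact h1
  have hee : ε' * l ≤ ε * l := mul_le_mul_of_nonneg_right he1 hl0.le
  -- the conditions
  have gl : ∀ (ps' : List Pq), n - LL Dq ps' ≤ (g + c + ε') * l →
      n - LL Dq ps' - g * l - c * l ≤ ε * l := by
    intro ps' h1
    have : (g + c + ε') * l = g * l + c * l + ε' * l := by ring
    linarith
  have ll : ∀ (x : ℝ) (ps' : List Pq), x ≤ (v + ε') * l + (n - LL Dq ps') →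
      x - v * l - (n - LL Dq ps') ≤ ε * l := by
    intro x ps' h1
    have : (v + ε') * l = v * l + ε' * l := by ring
    linarith
  have gg : ∀ (ps' : List Pq), (g - ε') * l ≤ n - LL Dq ps' →
      g * l - (n - LL Dq ps') ≤ ε * l := by
    intro ps' h1
    have : (g - ε') * l = g * l - ε' * l := by ring
    linarith
  have hG0 : ∀ (b : Bool) (x : ℝ) (ps' : List Pq), x ≤ (v + ε') * l + (n - LL Dq ps') →
      n - LL Dq ps' ≤ (g + c + ε') * l →
      max (xv Dq X k (rbx d b X ps) x ps' 1 - xv Dq X k (rbx d b X ps) x ps' 3 -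
          gN K c (xv Dq X k (rbx d b X ps) x ps' 1) - c)
        (xv Dq X k (rbx d b X ps) x ps' 2 - v - (xv Dq X k (rbx d b X ps) x ps' 1 -
          xv Dq X k (rbx d b X ps) x ps' 3)) ≤ ε := by
    intro b x ps' hxl h1
    rw [hx1, hx2, hx3, ← hg]
    refine max_le (gdiv (gl ps' h1) (by field_simp)) (gdiv (ll x ps' hxl) (by field_simp))
  have hGT : ∀ (b : Bool) (x : ℝ) (ps' : List Pq), x ≤ (v + ε') * l + (n - LL Dq ps') →
      (g - ε') * l ≤ n - LL Dq ps' → n - LL Dq ps' ≤ (g + c + ε') * l →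
      max (gN K c (xv Dq X k (rbx d b X ps) x ps' 1) -
          (xv Dq X k (rbx d b X ps) x ps' 1 - xv Dq X k (rbx d b X ps) x ps' 3))
        (max (xv Dq X k (rbx d b X ps) x ps' 1 - xv Dq X k (rbx d b X ps) x ps' 3 -
          gN K c (xv Dq X k (rbx d b X ps) x ps' 1) - c)
        (xv Dq X k (rbx d b X ps) x ps' 2 - v - (xv Dq X k (rbx d b X ps) x ps' 1 -
          xv Dq X k (rbx d b X ps) x ps' 3))) ≤ ε := by
    intro b x ps' hxl h0 h1
    refine max_le ?_ (hG0 b x ps' hxl h1)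
    rw [hx1, hx3, ← hg]
    exact gdiv (gg ps' h0) (by field_simp)
  have hGJ : ∀ (b : Bool) (x : ℝ) (ps' : List Pq), x ≤ (v + ε') * l + (n - LL Dq ps') →
      (g - ε') * l ≤ n - LL Dq ps' →
      max (gN K c (xv Dq X k (rbx d b X ps) x ps' 1) -
          (xv Dq X k (rbx d b X ps) x ps' 1 - xv Dq X k (rbx d b X ps) x ps' 3))
        (xv Dq X k (rbx d b X ps) x ps' 2 - v - (xv Dq X k (rbx d b X ps) x ps' 1 -
          xv Dq X k (rbx d b X ps) x ps' 3)) ≤ ε := by
    intro b x ps' hxl h0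
    rw [hx1, hx2, hx3, ← hg]
    exact max_le (gdiv (gg ps' h0) (by field_simp)) (gdiv (ll x ps' hxl) (by field_simp))
  have hSl : ∀ (x : ℝ) (ps' : List Pq), (4 / 3 * (LL Dq ps' / l) + (x / l + K) / 3 - A) * l =
      ex0 (K * l) x (LL Dq ps') - A * l := by
    intro x ps'
    unfold ex0
    field_simp
  have hJe : ∀ (x : ℝ) (ps' : List Pq),
      (4 / 3 * (LL Dq ps' / l) + (x / l + K) / 3 +
        max 0 ((n / l - LL Dq ps' / l) - ((n / l - LL Dq ps' / l) - (x / l - v)) / 3 - g) - A) * l =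
      exJ (K * l) (v * l) n (g * l) x (LL Dq ps') - A * l := by
    intro x ps'
    rw [sub_mul, add_mul, max_mul_of_nonneg _ _ hl0.le, zero_mul]
    unfold exJ
    have h3 : (4 / 3 * (LL Dq ps' / l) + (x / l + K) / 3) * l =
        4 / 3 * LL Dq ps' + (x + K * l) / 3 := by
      field_simp
    have h4 : (n / l - LL Dq ps' / l - (n / l - LL Dq ps' / l - (x / l - v)) / 3 - g) * l =
        n - LL Dq ps' - (n - LL Dq ps' - (x - v * l)) / 3 - g * l := by
      field_simp
    rw [h3, h4]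
  obtain ⟨rm, hrm⟩ : ∃ x : ℝ, x = max r rR := ⟨_, rfl⟩
  obtain ⟨bm, hbm⟩ : ∃ x : ℝ, x = (2 * C + CR) * X ^ max BR (K + 1) := ⟨_, rfl⟩
  rw [← hrm, ← hbm] at hprem
  -- the claims of the list
  have hTc : NTcX (π lam) h K v c ε' X rm bm M Bd' ps := by
    have hr0 : rbx d false X ps = ps := rbx_false d X ps
    constructor
    · intro x ps' hx hxl hch h1
      rw [← hl, ← hn, ← hg] at h1
      rw [← hl, ← hn] at hxl
      have hLL := LL_nonneg_of_chd hch
      have h2 := hprem (false, .p0) (⟨0, h0p 2⟩, ⟨0, h0p p⟩) x ps' hx (hlTK x ps' hLL hxl)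
        (by show List.Forall₂ _ ps' (rbx d false X ps); rw [hr0]; exact hch)
        (hG0 false x ps' hxl h1) (fun hz => hz.elim)
      have h2' : S0K Dk (π lam) h x ps' ≤ Bd * cst hcost ps' (rbx d false X ps) ^ M *
          X ^ (Ar K ![xv Dq X k (rbx d false X ps) x ps' 2, xv Dq X k (rbx d false X ps) x ps' 3] +
            c / 3 - Ar K ![xv Dq X k (rbx d false X ps) x ps' 0,
              xv Dq X k (rbx d false X ps) x ps' 1]) := h2
      rw [hx0, hx1, hx2, hx3, hAeq] at h2'
      rw [← hr0]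
      rw [← hl]
      refine conv x ps' _ _ _ ?_ h2' (hcst false ps')
      rw [sub_mul, add_mul]
      have h3 : Ar K ![x / l, LL Dq ps' / l] * l = RG64.fl (K * l) x (LL Dq ps') := by
        unfold Ar RG64.fl
        show (2 * (LL Dq ps' / l) + max 0 ((x / l + K - 2 * (LL Dq ps' / l)) / 3)) * l = _
        rw [add_mul, max_mul_of_nonneg _ _ hl0.le, zero_mul]
        have h1 : 2 * (LL Dq ps' / l) * l = 2 * LL Dq ps' := by field_simp
        have h2 : (x / l + K - 2 * (LL Dq ps' / l)) / 3 * l = (x - 2 * LL Dq ps' + K * l) / 3 := by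
          field_simp
          ring
        rw [h1, h2]
      rw [h3]
    · intro x ps' hx hxl hch h1
      rw [← hl, ← hn, ← hg] at h1
      rw [← hl, ← hn] at hxl
      have hLL := LL_nonneg_of_chd hch
      have h2 := hprem (false, .ps) (⟨0, h0p 2⟩, ⟨0, h0p p⟩) x ps' hx (hlTK x ps' hLL hxl)
        (by show List.Forall₂ _ ps' (rbx d false X ps); rw [hr0]; exact hch)
        (hG0 false x ps' hxl h1) (fun hz => hz.elim)
      have h2' : S0K Dk (π lam) h x ps' ≤ Bd * cst hcost ps' (rbx d false X ps) ^ M *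
          X ^ (4 / 3 * (xv Dq X k (rbx d false X ps) x ps' 3) +
            ((xv Dq X k (rbx d false X ps) x ps' 2) + K) / 3 +
            max 0 ((4 * (xv Dq X k (rbx d false X ps) x ps' 3) - 3 * K) / 9) -
            Ar K ![xv Dq X k (rbx d false X ps) x ps' 0,
              xv Dq X k (rbx d false X ps) x ps' 1]) := h2
      rw [hx0, hx1, hx2, hx3, hAeq] at h2'
      rw [← hr0]
      rw [← hl]
      refine conv x ps' _ _ _ ?_ h2' (hcst false ps')
      rw [sub_mul, add_mul, max_mul_of_nonneg _ _ hl0.le, zero_mul]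
      unfold ex0 F3
      have h3 : (4 / 3 * (LL Dq ps' / l) + (x / l + K) / 3) * l =
          4 / 3 * LL Dq ps' + (x + K * l) / 3 := by
        field_simp
      have h4 : (4 * (LL Dq ps' / l) - 3 * K) / 9 * l = (4 * LL Dq ps' - 3 * (K * l)) / 9 := by
        field_simp
      rw [h3, h4]
      ring
    · intro x ps' hx hxl hch h0 h1
      rw [← hl, ← hn, ← hg] at h0 h1
      rw [← hl, ← hn] at hxl
      have hLL := LL_nonneg_of_chd hch
      have h2 := hprem (false, .pt) (⟨0, h0p 2⟩, ⟨0, h0p p⟩) x ps' hx (hlTK x ps' hLL hxl)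
        (by show List.Forall₂ _ ps' (rbx d false X ps); rw [hr0]; exact hch)
        (hGT false x ps' hxl h0 h1) (fun hz => hz.elim)
      have h2' : S0K Dk (π lam) h x ps' ≤ Bd * cst hcost ps' (rbx d false X ps) ^ M *
          X ^ (4 / 3 * (xv Dq X k (rbx d false X ps) x ps' 3) +
            ((xv Dq X k (rbx d false X ps) x ps' 2) + K) / 3 -
            Ar K ![xv Dq X k (rbx d false X ps) x ps' 0,
              xv Dq X k (rbx d false X ps) x ps' 1]) := h2
      rw [hx0, hx1, hx2, hx3, hAeq] at h2'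
      rw [← hr0]
      rw [← hl]
      exact conv x ps' _ _ _ (hSl x ps') h2' (hcst false ps')
    · intro x ps' hx hxl hch h0
      rw [← hl, ← hn, ← hg] at h0
      rw [← hl, ← hn] at hxl
      have hLL := LL_nonneg_of_chd hch
      have h2 := hprem (false, .pj) (⟨0, h0p 2⟩, ⟨0, h0p p⟩) x ps' hx (hlTK x ps' hLL hxl)
        (by show List.Forall₂ _ ps' (rbx d false X ps); rw [hr0]; exact hch)
        (hGJ false x ps' hxl h0) (fun hz => hz.elim)
      have h2' : S0K Dk (π lam) h x ps' ≤ Bd * cst hcost ps' (rbx d false X ps) ^ M *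
          X ^ (4 / 3 * (xv Dq X k (rbx d false X ps) x ps' 3) +
            ((xv Dq X k (rbx d false X ps) x ps' 2) + K) / 3 +
            max 0 ((xv Dq X k (rbx d false X ps) x ps' 1 -
                xv Dq X k (rbx d false X ps) x ps' 3) -
              ((xv Dq X k (rbx d false X ps) x ps' 1 - xv Dq X k (rbx d false X ps) x ps' 3) -
                (xv Dq X k (rbx d false X ps) x ps' 2 - v)) / 3 -
              gN K c (xv Dq X k (rbx d false X ps) x ps' 1)) -
            Ar K ![xv Dq X k (rbx d false X ps) x ps' 0,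
              xv Dq X k (rbx d false X ps) x ps' 1]) := h2
      rw [hx0, hx1, hx2, hx3, hAeq, ← hg] at h2'
      rw [← hl, ← hn, ← hg]
      have h5 := conv x ps' _ _ _ (hJe x ps') h2' (hcst false ps')
      rwa [hr0] at h5
  -- the claims of the replaced list
  have hTr : NTcR (π lam) h K v c ε' X rm bm M Bd' (rpB (d * Real.log X) ps) := by
    rw [← rbx_true]
    constructor
    · intro x ps' hx hxl hch h1
      rw [← hl, hnb, ← hg] at h1
      rw [← hl, hnb] at hxl
      have hLL := LL_nonneg_of_chd hch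
      have h2 := hprem (true, .p0) (⟨0, h0p 2⟩, ⟨0, h0p p⟩) x ps' hx (hlTK x ps' hLL hxl)
        hch (hG0 true x ps' hxl h1) (fun hz => hz.elim)
      have h2' : S0K Dk (π lam) h x ps' ≤ Bd * cst hcost ps' (rbx d true X ps) ^ M *
          X ^ (4 / 3 * (xv Dq X k (rbx d true X ps) x ps' 3) +
            ((xv Dq X k (rbx d true X ps) x ps' 2) + K) / 3 -
            Ar K ![xv Dq X k (rbx d true X ps) x ps' 0,
              xv Dq X k (rbx d true X ps) x ps' 1]) := h2
      rw [hx0, hx1, hx2, hx3, hAeq] at h2'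
      rw [← hl]
      exact conv x ps' _ _ _ (hSl x ps') h2' (hcst true ps')
    · intro x ps' hx hxl hch h0
      rw [← hl, hnb, ← hg] at h0
      rw [← hl, hnb] at hxl
      have hLL := LL_nonneg_of_chd hch
      have h2 := hprem (true, .pj) (⟨0, h0p 2⟩, ⟨0, h0p p⟩) x ps' hx (hlTK x ps' hLL hxl)
        hch (hGJ true x ps' hxl h0) (fun hz => hz.elim)
      have h2' : S0K Dk (π lam) h x ps' ≤ Bd * cst hcost ps' (rbx d true X ps) ^ M *
          X ^ (4 / 3 * (xv Dq X k (rbx d true X ps) x ps' 3) +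
            ((xv Dq X k (rbx d true X ps) x ps' 2) + K) / 3 +
            max 0 ((xv Dq X k (rbx d true X ps) x ps' 1 -
                xv Dq X k (rbx d true X ps) x ps' 3) -
              ((xv Dq X k (rbx d true X ps) x ps' 1 - xv Dq X k (rbx d true X ps) x ps' 3) -
                (xv Dq X k (rbx d true X ps) x ps' 2 - v)) / 3 -
              gN K c (xv Dq X k (rbx d true X ps) x ps' 1)) -
            Ar K ![xv Dq X k (rbx d true X ps) x ps' 0,
              xv Dq X k (rbx d true X ps) x ps' 1]) := h2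
      rw [hx0, hx1, hx2, hx3, hAeq, ← hg] at h2'
      rw [← hl, hnb, ← hg]
      exact conv x ps' _ _ _ (hJe x ps') h2' (hcst true ps')
  have hlX0 : 0 ≤ Real.log X := by rw [← hl]; exact hl0.le
  have hrr : r ≤ rm := by rw [hrm]; exact le_max_left _ _
  have hbb : C * X ^ (K + 1) ≤ bm := by rw [hbm]; exact hbmax
  have hT := (hTc.mono le_rfl hrr hbb hlX0).toPrem hc.le hlX0
  have hTR := (hTr.mono le_rfl hrr hbb hlX0).toPrem hc.le hlX0
  have hLr : LL Dq (rpB (d * Real.log X) ps) = n := by rw [← rbx_true, hnb]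
  rw [← hn, ← hl, ← hg] at hT
  have hgl : gN K c (n / Real.log X) = g := by rw [hg, hl]
  rw [hLr, hgl] at hTR
  obtain ⟨a, ha⟩ : ∃ x : ℝ, x = n / l := ⟨_, rfl⟩
  have ml : ∀ x : ℝ, x / l * l = x := fun x => by field_simp
  have hF3l : ∀ m : ℝ, max 0 ((4 * (m / l) - 3 * K) / 9) * l = F3 (K * l) m := fun m => by
    rw [max_mul_of_nonneg _ _ hl0.le, zero_mul]
    unfold F3
    congr 1
    field_simp
  have ha5 : 5 * a ≤ 4 * K + c := by
    rw [ha]
    linarith
  have hXc : X ≤ X ^ c₀' := by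
    calc X = X ^ (1 : ℝ) := (Real.rpow_one X).symm
      _ ≤ _ := Real.rpow_le_rpow_of_exponent_le hX1 (hc₀.trans hcc1)
  have key := hX X hX3 ((le_max_left _ _).trans hXX) (π lam) (hP lam) (hnp lam) (hXn.trans hXc)
    k ps hlen (fun q hq => (hps q hq).1)
    (fun q hq => (hs2 q hq).trans (Real.rpow_le_rpow_of_exponent_le hX1 hcc1))
    (ε' / 100) (by positivity) le_rfl v g d hv hg0 hgdd (by linarith)
    (by
      rw [← hl, ← hn]
      have h1 : (v + 3 * (g + c / 2) - K) * l = v * l + 3 * (g * l) + 3 / 2 * (c * l) - K * l := by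
        ring
      have h2 : ε' / 100 * l ≤ c * l := mul_le_mul_of_nonneg_right (by linarith) hl0.le
      have h3 : 3 * d * l = 3 * (d * l) := by ring
      linarith)
    (Lmp_mono (mul_le_mul_of_nonneg_right (by linarith) hlX0) hLmp)
    (F3 (K * l)) (F3_mono _) (F3_nonneg _) (F3_add _)
    (fun u m => φ₀ a (u / l) (m / l) * l) (fun u m => φ₁ a (u / l) (m / l) * l)
    (fun u m => φβ a (u / l) (m / l) * l)
    (fun u m => mul_nonneg (hφ₀ _ _ _) hl0.le)
    (fun u m => by
      have h1 := mul_le_mul_of_nonneg_right (hφβ a (u / l) (m / l)) hl0.le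
      rw [add_mul, add_mul, hF3l] at h1
      rw [← hl]
      exact h1)
    (hφτ.imp id fun H u m => by
      have h1 := mul_le_mul_of_nonneg_right (H a (u / l) (m / l)) hl0.le
      rw [add_mul, hF3l] at h1
      rw [← hl]
      exact h1)
    (fun u m hm => by
      rw [← hl, ← hn] at hm
      have h1 := mul_le_mul_of_nonneg_right (hφK a (u / l) (m / l) ha5 (by
        rw [div_le_iff₀ hl0, ha, add_mul, ml]
        have : ε' * l ≤ c * l := mul_le_mul_of_nonneg_right (by linarith) hl0.le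
        linarith)) hl0.le
      rw [← hl]
      linarith)
    hpar Bd' (by linarith) hT hTR ?_
  · rw [← hl, ← hn] at key
    refine key.trans ?_
    rw [← hA, ← hXA]
    have h1 : (1 + Bd') * X ^ A ≤ 2 * (X ^ A + Bd) := by
      rw [hBd']
      calc (1 + (1 + Bd * X ^ (-A))) * X ^ A = 2 * X ^ A + Bd * (X ^ (-A) * X ^ A) := by ring
        _ = 2 * X ^ A + Bd := by rw [hXAn, mul_one]
        _ ≤ _ := by linarith
    have hs1 : 0 ≤ (ps.map Dq.s1).prod := by
      rw [← RXg848.Ht_natl]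
      have := one_le_Ht (natl ps)
      linarith
    have h2 : 0 ≤ (ps.map Dq.s1).prod ^ J := Real.rpow_nonneg hs1 _
    have h3 : X ^ ε' ≤ X ^ ε := Real.rpow_le_rpow_of_exponent_le hX1 he1
    calc C * X ^ ε' * (ps.map Dq.s1).prod ^ J * (1 + Bd') * X ^ A =
        C * X ^ ε' * (ps.map Dq.s1).prod ^ J * ((1 + Bd') * X ^ A) := by ring
      _ ≤ C * X ^ ε * (ps.map Dq.s1).prod ^ J * (2 * (X ^ A + Bd)) := by gcongr
      _ = (2 * C) * X ^ ε * (ps.map Dq.s1).prod ^ J * (X ^ A + Bd) := by ring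
      _ ≤ (2 * C + CR) * X ^ ε * (ps.map Dq.s1).prod ^ J * (X ^ A + Bd) := by
          have : 0 ≤ X ^ A + Bd := by linarith
          gcongr
          linarith
  · intro q ps₁ Lv N₁ hf hq hqX hps₁
    have h1 := hR3 X hX3 ((le_max_right _ _).trans hXX) ps hlen (fun q hq => ⟨(hps q hq).1,
        (hps q hq).2.trans (mul_le_mul_of_nonneg_right hcc1 (by rw [← hl]; exact hl0.le))⟩)
      (fun q hq => (hs2 q hq).trans (Real.rpow_le_rpow_of_exponent_le hX1 hcc1)) hnum hnumX hLmp
      q ps₁ Lv N₁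
      (by rw [← hn, ← hl, ← hg]; exact hf)
      hq (hqX.trans (Real.rpow_le_rpow_of_exponent_le hX1 hcc2)) hps₁ Bd' hBd'1
      (hTc.mono (by linarith) (by rw [hrm]; exact le_max_right _ _) (by rw [hbm]; exact hbmax2)
        hlX0)
      (hTr.mono (by linarith) (by rw [hrm]; exact le_max_right _ _) (by rw [hbm]; exact hbmax2)
        hlX0) ?_
    · rw [← hl, ← hn, ← hg] at h1
      simp only [hpowX] at h1 ⊢
      rw [← ha] at h1
      rw [← hl, ← hn]
      convert h1 using 2
      rw [neg_mul]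
    · intro b j θ x ps' hx hxl hch hLL hG hz
      rw [← hl] at hG hLL hz
      have hLL' : LL Dq ps' ≤ LF ps₁ + ε' / 4 * l := by
        rw [add_mul, ml] at hLL
        exact hLL
      have hLF0 : 0 ≤ LF ps₁ := LF_nonneg hps₁.z_nonneg
      have hLv0 := hf.v0
      have hhi := hf.hi
      have hlo := hf.lo
      have hlv := hf.lv
      rw [← hl, ← hn] at hhi hlo hlv
      have hel1 : ε' * l ≤ 1 * l := mul_le_mul_of_nonneg_right he3 hl0.le
      have hel0 : 0 ≤ ε' * l := by positivity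
      have hvl : (v + ε' / 4) * l = v * l + ε' * l / 4 := by ring
      have he4 : ε' / 4 * l ≤ ε * l := mul_le_mul_of_nonneg_right (by linarith only [he0, he1]) hl0.le
      have hK1l : 10 * (K + 1) * l = 10 * (K * l) + 10 * l := by ring
      have hK1l' : (K + 1) * l = K * l + l := by ring
      have hθm : (![LF ps₁ / l, Lv / l] : Fin 2 → ℝ) ∈
          Set.Icc (0 : Fin 2 → ℝ) (fun _ => TK K) := by
        constructor
        · intro i
          fin_cases i
          · show (0 : ℝ) ≤ LF ps₁ / l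
            positivity
          · show (0 : ℝ) ≤ Lv / l
            positivity
        · intro i
          fin_cases i
          · show LF ps₁ / l ≤ TK K
            rw [div_le_iff₀ hl0, hTK]
            linarith
          · show Lv / l ≤ TK K
            rw [div_le_iff₀ hl0, hTK]
            linarith
      have h2 := hprem (b, .q j) (⟨_, hθm⟩, θ) x ps' hx hxl
        (chd_mono (by rw [hrm]; exact le_max_right _ _) (by rw [hbm]; exact hbmax2) hch) ?_
        (fun hzl q hq hql => by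
          have h3 := hz hzl q hq hql
          rw [← hl]
          linarith)
      · have h3 : (L j).Φ lam x ((L j).b θ.1 * Real.log X) ps' ≤
            Bd * cst hcost ps' (rbx d b X ps) ^ M *
            X ^ (Ar K ![Lv / l, LF ps₁ / l] +
              (L j).F ![K, Lv / l, LF ps₁ / l, xv Dq X k (rbx d b X ps) x ps' 2,
                xv Dq X k (rbx d b X ps) x ps' 3] θ.1 -
              Ar K ![xv Dq X k (rbx d b X ps) x ps' 0, xv Dq X k (rbx d b X ps) x ps' 1]) := h2
        have hAr : Ar K ![Lv / l, LF ps₁ / l] = 4 / 3 * (LF ps₁ / l) + (Lv / l + K) / 3 := by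
          unfold Ar
          show 2 * (LF ps₁ / l) + max 0 ((Lv / l + K - 2 * (LF ps₁ / l)) / 3) = _
          have ht := hf.top
          rw [← hl] at ht
          have h5 : 0 ≤ (Lv / l + K - 2 * (LF ps₁ / l)) / 3 := by
            have : (Lv / l + K - 2 * (LF ps₁ / l)) / 3 = (Lv + K * l - 2 * LF ps₁) / l / 3 := by
              field_simp
            rw [this]
            have : 0 ≤ Lv + K * l - 2 * LF ps₁ := by linarith
            positivity
          rw [max_eq_right h5]
          ring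
        rw [hx0, hx1, hx2, hx3, hAeq, hAr, Real.rpow_sub hX0, div_eq_mul_inv,
          ← Real.rpow_neg hX0.le] at h3
        rw [← hl] at h3 ⊢
        refine h3.trans ?_
        have h4 : 0 ≤ X ^ (4 / 3 * (LF ps₁ / l) + (Lv / l + K) / 3 +
              (L j).F ![K, Lv / l, LF ps₁ / l, x / l, LL Dq ps' / l] θ.1) :=
          Real.rpow_nonneg hX0.le _
        have h5 := hcst b ps'
        calc Bd * cst hcost ps' (rbx d b X ps) ^ M * (X ^ (4 / 3 * (LF ps₁ / l) +
              (Lv / l + K) / 3 +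
              (L j).F ![K, Lv / l, LF ps₁ / l, x / l, LL Dq ps' / l] θ.1) * X ^ (-A)) =
            (Bd * X ^ (-A)) * cst hcost ps' (rbx d b X ps) ^ M * X ^ (4 / 3 * (LF ps₁ / l) +
              (Lv / l + K) / 3 +
              (L j).F ![K, Lv / l, LF ps₁ / l, x / l, LL Dq ps' / l] θ.1) := by ring
          _ ≤ _ := by gcongr
      · show max (max (LF ps₁ / l - xv Dq X k (rbx d b X ps) x ps' 1)
            (xv Dq X k (rbx d b X ps) x ps' 3 - LF ps₁ / l))
          (max (max (xv Dq X k (rbx d b X ps) x ps' 1 - LF ps₁ / l -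
              gN K c (xv Dq X k (rbx d b X ps) x ps' 1) - c)
            (Lv / l - v - (xv Dq X k (rbx d b X ps) x ps' 1 - LF ps₁ / l)))
            ((L j).G ![K, Lv / l, LF ps₁ / l, xv Dq X k (rbx d b X ps) x ps' 2,
              xv Dq X k (rbx d b X ps) x ps' 3] θ.1)) ≤ ε
        rw [hx1, hx2, hx3, ← hg]
        refine max_le (max_le (gdiv (a := LF ps₁ - n) ?_ (by field_simp))
          (gdiv (a := LL Dq ps' - LF ps₁) ?_ (by field_simp)))
          (max_le (max_le (gdiv (a := n - LF ps₁ - g * l - c * l) ?_ (by field_simp))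
            (gdiv (a := Lv - v * l - (n - LF ps₁)) ?_ (by field_simp))) ?_)
        · linarith only [hhi, he4]
        · linarith only [hLL', he4]
        · linarith only [hlo, hcl, he4, hel0, hee]
        · linarith only [hlv, hvl, he4, hel0, hee]
        · exact hG.trans (by linarith)

end Crest.Agent.R017.RX298
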