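import Crest.Agent.R017.NEk_551
import Crest.Agent.R017.NEh_73
import Crest.Agent.R017.NXf_298
import Crest.Agent.R017.RGE2_545

/-!
# Row 17, FlatNE (helper911): the fields of near-equal lists from the near leaves

* `F3g`, `p0`, `p1`, `pb` : the exponents of `E₀`, `E₁`, `B` (helper49)
* **`nearAll_of`**  : class N, `NLeaf` and `QH` at the lines `L c` give the field `NEF`
* **`nearAllX_of`** : class E, `NLeafX`, `QH` and `QHr` give the field `NEFx`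
-/

set_option autoImplicit false

noncomputable section

open Complex
open scoped ComplexConjugate

namespace Crest.Agent.R017.NAg911

open Crest.Agent.R012 Crest.Agent.R012.Eis
open Crest.Agent.R017.FE47
open Crest.Agent.R017.End699
open Crest.Agent.R017.B770
open Crest.Agent.R017.Prov71
open Crest.Agent.R017.RuleM545
open Crest.Agent.R017.RGB545
open Crest.Agent.R017.NEg551
open Crest.Agent.R017.NE73
open Crest.Agent.R017.NEx911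
open Crest.Agent.R017.PX764 (Dk)
open Crest.Agent.R017.XS0298 (S0K S0x)
open Crest.Agent.R017.Sup271 (NPm)
open Crest.Agent.R017.RX298 (NLeafX)
open Crest.Agent.R017.RG64 (Abs4)
open Crest.Agent.R017.XPD571 (bl_mono)

/-! ### the exponents -/

/-- `F₃` -/
def F3g (K m : ℝ) : ℝ := max 0 ((4 * m - 3 * K) / 9)

/-- exponent of `E₀` -/
def p0 (c K : ℝ) (_a _u m : ℝ) : ℝ := 9 / 22 * F3g K m + 10 * c

/-- exponent of `E₁` -/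
def p1 (c K : ℝ) (_a _u m : ℝ) : ℝ := F3g K m + 20 * c

/-- exponent of `B` -/
def pb (c K : ℝ) (a u m : ℝ) : ℝ := p0 c K a u m + F3g K m + 21 * c

variable {c K v : ℝ}

lemma F3g_nonneg (K m : ℝ) : 0 ≤ F3g K m := le_max_left _ _

lemma p0_nonneg (hc : 0 ≤ c) (a u m : ℝ) : 0 ≤ p0 c K a u m := by
  have := F3g_nonneg K m
  unfold p0
  positivity

lemma pb_ge (hc : 0 ≤ c) (a u m : ℝ) :
    p0 c K a u m + max 0 ((4 * m - 3 * K) / 9) + c / 2 ≤ pb c K a u m := by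
  unfold pb F3g
  linarith

lemma pb_le (hc : 0 < c) (hK : 1000000 * c ≤ K) (a u m : ℝ) (h1 : 5 * a ≤ 4 * K + c)
    (h2 : m ≤ a + c) : 5 * pb c K a u m ≤ K := by
  have h : F3g K m ≤ K / 45 + c := by
    unfold F3g
    refine max_le (by linarith) ?_
    linarith
  unfold pb p0
  linarith

/-! ### class N -/

variable {Lam ι : Type*} {p : ℕ}

theorem nearAll_of [Finite ι] {π : Lam → DPar} (hP : ∀ lam, (π lam).OK) {h : ℝ → ℝ} {c₂ : ℝ}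
    (hpu : PU h c₂) {w : ℝ → ℝ} (hab : Abs4 w) {Rh : LBq → (Eis → ℂ) → ℝ → Prop}
    (hLB : LBS w 0 Rh)
    (hRm : ∀ (p : LBq) (α : Eis → ℂ) (Rn Rn' : ℝ), Rh p α Rn → Rn ≤ Rn' → Rh p α Rn')
    {L : ℝ → ι → Line Lam p} (hL : ∀ c, 0 < c → ∀ j, (L c j).OK) {d : ℝ}
    (hleaf : ∀ c K v : ℝ, 0 < c → 1000000 * c ≤ K → 0 ≤ v → 3 * v + 100 * c ≤ 2 * K →
      NLeaf π h Rh (L c) (p0 c K) (p1 c K) (pb c K) K v c)
    (hQ : ∀ κ S y₁ y₂ y₃ : ℝ, NearDom κ S y₁ y₂ y₃ → ∃ c₁ : ℝ, 0 < c₁ ∧ ∀ c : ℝ, 0 < c → c ≤ c₁ →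
      QH (QG (L c)) c (κ + 100 * c) S y₁ y₂ y₃ (2 * d * y₃ + 100 * c)) :
    ∀ κ S y₁ y₂ y₃ : ℝ, NearDom κ S y₁ y₂ y₃ →
      NEF (ex Dq fun lam => S0p (π lam) h) κ S y₁ y₂ y₃ (2 * d * y₃) := by
  intro κ S y₁ y₂ y₃ H c₀ hc₀
  obtain ⟨c₁, hc₁, h1⟩ := hQ κ S y₁ y₂ y₃ H
  obtain ⟨c, hcdef⟩ : ∃ c, c = min c₀ c₁ := ⟨_, rfl⟩
  have hc : 0 < c := hcdef ▸ lt_min hc₀ hc₁
  have hcc : c ≤ c₀ := hcdef ▸ min_le_left _ _
  have hcd : c ≤ c₁ := hcdef ▸ min_le_right _ _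
  refine ⟨c, hc, hcc, QG (L c), ?_, h1 c hc hcd⟩
  refine expNE_of_fin (hL c hc) (funOK_S0p hP hpu)
    (fun lam l l' ps hl => S0p_mono_l (π lam) h hl ps) hc ?_
  intro K v hcK hv h3v
  refine ⟨min (c / 2) 1 / 100, by positivity, ?_⟩
  exact ne_fin hP hpu hab le_rfl zero_le_one hLB hRm hc (by linarith) hv
    (p0_nonneg hc.le) (pb_ge hc.le) (Or.inl rfl) (pb_le hc hcK) (hleaf c K v hc hcK hv h3v)

/-! ### class E -/

lemma S0K_mono_l (Kk : Eis → Eis → ℂ) (P : DPar) (h : ℝ → ℝ) {l l' : ℝ} (hl : l ≤ l')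
    (ps : List Pq) : S0K Kk P h l ps ≤ S0K Kk P h l' ps := by
  classical
  unfold XS0298.S0K
  exact Finset.sum_le_sum_of_subset_of_nonneg (Finset.filter_subset_filter _
    (bl_mono (Real.exp_pos _).le (Real.exp_le_exp.2 hl))) fun k _ _ => by positivity

theorem nearAllX_of [Finite ι] {π : Lam → DPar} (hP : ∀ lam, (π lam).OK)
    (hnp : ∀ lam, ¬ NPm (π lam).n (π lam).ψ (π lam).l₂ 1) {h : ℝ → ℝ} {c₂ : ℝ}
    (hpu : PU h c₂) {w : ℝ → ℝ} (hab : Abs4 w) {Rh : LBq → (Eis → ℂ) → ℝ → Prop}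
    (hLB : LBS w 0 Rh)
    (hRm : ∀ (p : LBq) (α : Eis → ℂ) (Rn Rn' : ℝ), Rh p α Rn → Rn ≤ Rn' → Rh p α Rn')
    {L : ℝ → ι → Line Lam p} (hL : ∀ c, 0 < c → ∀ j, (L c j).OK) {d e₁ : ℝ}
    (he₁ : 20 * e₁ ≤ 1)
    (hleaf : ∀ c K v d₀ : ℝ, 0 < c → 1000000 * c ≤ K → 0 ≤ v → 3 * v + 100 * c ≤ 2 * K →
      0 ≤ d₀ → 4 * d₀ ≤ K → NLeafX π h Rh (L c) (p0 c K) (p1 c K) (pb c K) K v c e₁ d₀)
    (hQ : ∀ κ S y₁ y₂ y₃ : ℝ, NearDom κ S y₁ y₂ y₃ → ∃ c₁ : ℝ, 0 < c₁ ∧ ∀ c : ℝ, 0 < c → c ≤ c₁ →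
      QH (QG (L c)) c (κ + 100 * c) S y₁ y₂ y₃ (2 * d * ((y₁ + y₂ + y₃) / 3) + 100 * c) ∧
      QHr (QG (L c)) c (κ + 100 * c) S (y₁ + y₂ + y₃) y₃
        (2 * d * ((y₁ + y₂ + y₃) / 3) + 100 * c)) :
    ∀ κ S y₁ y₂ y₃ : ℝ, NearDom κ S y₁ y₂ y₃ →
      NEFx (ex Dq fun lam => S0x (π lam) h) κ S y₁ y₂ y₃ (2 * d * ((y₁ + y₂ + y₃) / 3)) := by
  intro κ S y₁ y₂ y₃ H c₀ hc₀
  obtain ⟨c₁, hc₁, h1⟩ := hQ κ S y₁ y₂ y₃ H
  obtain ⟨c, hcdef⟩ : ∃ c, c = min c₀ c₁ := ⟨_, rfl⟩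
  have hc : 0 < c := hcdef ▸ lt_min hc₀ hc₁
  have hcc : c ≤ c₀ := hcdef ▸ min_le_left _ _
  have hcd : c ≤ c₁ := hcdef ▸ min_le_right _ _
  refine ⟨c, e₁, hc, hcc, he₁, QG (L c), ?_, (h1 c hc hcd).1, (h1 c hc hcd).2⟩
  refine expNEx_of_fin (hL c hc) (funOK_S0x hP hpu)
    (fun lam l l' ps hl => S0K_mono_l Dk (π lam) h hl ps) hc ?_
  intro K v d₀ hcK hv h3v hd hd4
  refine ⟨min (c / 2) 1 / 100, by positivity, ?_⟩
  exact RX298.ne_finX hP hnp hpu hab le_rfl zero_le_one hLB hRm hc (by linarith) hv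
    (p0_nonneg hc.le) (pb_ge hc.le) (Or.inl rfl) (pb_le hc hcK)
    (hleaf c K v d₀ hc hcK hv h3v hd hd4)

end Crest.Agent.R017.NAg911
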