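import Crest.Agent.R017.NAg_144
import Crest.Agent.R017.Fin6_986

/-!
# Row 17, near field (helper144): class N, the field `near` of helper986's `LvN`

* **`near_N`** : `NearAll d (ex Dq (fun lam => S0p (πN lam) h))` from `OpN πN h`
-/

set_option autoImplicit false

noncomputable section

open Complex

namespace Crest.Agent.R017.NAg144

open Crest.Agent.R012 Crest.Agent.R012.Eis
open Crest.Agent.R017.FE47 Crest.Agent.R017.End699
open Crest.Agent.R017.B770 Crest.Agent.R017.BxH986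
open Crest.Agent.R017.Prov71 Crest.Agent.R017.ER911
open Crest.Agent.R017.Fin4 Crest.Agent.R017.Fin5 Crest.Agent.R017.Fin6
open Crest.Agent.R017.SC777 (Full)
open Crest.Agent.R017.XPD571 (RN0 SP0)
open Crest.Agent.R017.RGB545
open Crest.Agent.R017.NrA986 (NearAll)

/-- **the field `near` of class N** -/
theorem near_N {ι' : Type*} [Finite ι'] {d : ℝ} (hd : 0 < d) (hd1 : d ≤ 1 / 42) {h : ℝ → ℝ}
    {c₀ : ℝ} (hpu : PU h c₀) (hPF : PF Set.univ (7 / 8 + d)) (hB : BunA d h) (hR : RecA d h)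
    {A₁ A₂ M E : ℝ} (hA : Cst4 A₁ A₂ M E)
    {qm : ℝ → ℝ → ℝ → ℝ → ℝ} (hq : ∀ c : ℝ, 0 < c → ContH (qm c)) {X : LD ι' 9} (hX : X.OK)
    (hXQ : ∀ κ : ℝ, 0 < κ → RealQ d (NPc d (ex Dq (RN0 πN h)) (ex Dq (SP0 πN h)))
      (fun l Y m a ρ => Full (7 / 8 + d) (ex Dq (RN0 πN h)) l Y m a ρ) (ex Dq (S0f πN h)) κ X)
    (HO : OpL πN h fun c => LNk πN h ((DN TqB (qm c) (A₁ * c) (A₂ * c) (M * c) (E * c)).sum X)) :
    NearAll d (ex Dq (fun lam => S0p (πN lam) h)) :=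
  nearAll_of (RGB545.dataN_of (by linarith) (by linarith) hPF hpu πN_ok
    (fun lam k hk => πN_cl lam k hk) clo_πN) (hB _ πN πN_ok πN_cl).rules
    (hR _ πN πN_ok πN_cl clo_πN) hd.le (by linarith) hA hq hX hXQ HO

end Crest.Agent.R017.NAg144
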