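import Mathlib

/-!
# Row 17, FlatNE NumEq: the real line `neq_line` of helper83's #38277 (3) (helper658)

Mathlib only; `Tqb` (QB_603) and `Gs` (P1Ng_904) are written out (both sides are `rfl`).
-/

set_option autoImplicit false

namespace Crest.Agent.R017.NQL658

/-- `Tqb κ (m - a₀)`, `Gs K κ m` unfolded. -/
theorem neq_line {K m κ lD c F a₀ : ℝ} (hF : F = max 0 ((4 * m - 3 * K) / 9)) (hc : 0 ≤ c)
    (hcK : 1000000 * c ≤ K) (h1 : 3 * K ≤ 4 * m + 10 * c) (h2 : 5 * m ≤ 4 * K + 10 * c)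
    (hk0 : 0 ≤ κ) (hk : κ ≤ K - 3 * (F + 20 * c) + c) (hlD : lD ≤ m - 3 / 4 * K + 3 * c)
    (ha : a₀ = max 0 ((K - κ) / 3 - (31 / 22 * F + 31 * c) - lD - c)) :
    (K - κ) / 3 + (max κ (max (2 / 3 * κ + 4 / 9 * (m - a₀)) (κ / 3 + 22 / 27 * (m - a₀))) +
      (max (max (26 / 15 * K) (κ / 3 + 7 / 10 * K + 17 / 18 * m)) (2 / 3 * κ + 13 / 9 * m) +
        max 0 (K / 40 - κ / 3) + 30 * c - m)) / 2 - K - a₀ / 2 ≤ 0 := by
  have ha0 : 0 ≤ a₀ := ha ▸ le_max_left _ _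
  have ha1 : (K - κ) / 3 - (31 / 22 * F + 31 * c) - lD - c ≤ a₀ := ha ▸ le_max_right _ _
  obtain ⟨T, hTe⟩ : ∃ T, T = max κ (max (2 / 3 * κ + 4 / 9 * (m - a₀))
      (κ / 3 + 22 / 27 * (m - a₀))) := ⟨_, rfl⟩
  obtain ⟨G, hGe⟩ : ∃ G, G = max (max (26 / 15 * K) (κ / 3 + 7 / 10 * K + 17 / 18 * m))
      (2 / 3 * κ + 13 / 9 * m) := ⟨_, rfl⟩
  rw [← hTe, ← hGe]
  have hT : T = κ ∨ T = 2 / 3 * κ + 4 / 9 * (m - a₀) ∨ T = κ / 3 + 22 / 27 * (m - a₀) := by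
    rcases max_choice κ (max (2 / 3 * κ + 4 / 9 * (m - a₀)) (κ / 3 + 22 / 27 * (m - a₀))) with h | h
    · exact Or.inl (hTe.trans h)
    · rcases max_choice (2 / 3 * κ + 4 / 9 * (m - a₀)) (κ / 3 + 22 / 27 * (m - a₀)) with h' | h'
      · exact Or.inr (Or.inl (hTe.trans (h.trans h')))
      · exact Or.inr (Or.inr (hTe.trans (h.trans h')))
  have hG : G = 26 / 15 * K ∨ G = κ / 3 + 7 / 10 * K + 17 / 18 * m ∨
      G = 2 / 3 * κ + 13 / 9 * m := by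
    rcases max_choice (max (26 / 15 * K) (κ / 3 + 7 / 10 * K + 17 / 18 * m))
      (2 / 3 * κ + 13 / 9 * m) with h | h
    · rcases max_choice (26 / 15 * K) (κ / 3 + 7 / 10 * K + 17 / 18 * m) with h' | h'
      · exact Or.inl (hGe.trans (h.trans h'))
      · exact Or.inr (Or.inl (hGe.trans (h.trans h')))
    · exact Or.inr (Or.inr (hGe.trans h))
  have hf : (F = 0 ∧ 4 * m - 3 * K ≤ 0) ∨ (F = (4 * m - 3 * K) / 9 ∧ 0 ≤ 4 * m - 3 * K) := by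
    rcases le_total 0 (4 * m - 3 * K) with h | h
    · right; rw [hF, max_eq_right (by linarith)]; exact ⟨rfl, h⟩
    · left; rw [hF, max_eq_left (by linarith)]; exact ⟨rfl, h⟩
  clear hF ha hTe hGe
  rcases hf with ⟨hf, hf'⟩ | ⟨hf, hf'⟩ <;> subst hf <;>
  rcases max_choice 0 (K / 40 - κ / 3) with hM | hM <;> rw [hM] <;>
  rcases hT with hT | hT | hT <;> rw [hT] <;>
  rcases hG with hG | hG | hG <;> rw [hG] <;>
  linarith

end Crest.Agent.R017.NQL658
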