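import Crest.Agent.R017.NSqi_791
import Crest.Agent.R017.NXe_298

/-!
# Row 17, FlatNE (helper791): the square at the second scale at the near leaf (class E)

* `lg_near`    : the first two lengths of a derived list, near parents
* `nsqhX_leaf` : `NLeafX π h (NSqh w Qf) L φ₀ φ₁ φβ K v c e₁ d`
-/

set_option autoImplicit false
set_option maxHeartbeats 400000

noncomputable section

open Complex
open scoped ComplexConjugate

namespace Crest.Agent.R017.SqB791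

open Crest.Agent.R012 Crest.Agent.R012.Eis Crest.Agent.R012.LS2 Crest.Agent.R012.Gauss880
open Crest.Agent.R012.MC (Wgt)
open Crest.Agent.R012.T411 (NCube)
open Crest.Agent.R017.CM106 Crest.Agent.R017.FE47
open Crest.Agent.R017.B770
open Crest.Agent.R017.Prov71
open Crest.Agent.R017.XP699 (LL Chd cst hcost)
open Crest.Agent.R017.Leg381 (Pf alF LF natl)
open Crest.Agent.R017.RG64 (SbL Ht one_le_Ht LF_cons)
open Crest.Agent.R017.RGw813 (bt T9)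
open Crest.Agent.R017.RGB545 (Line Th TK rbx)
open Crest.Agent.R017.XPD571 (RF0 RX)
open Crest.Agent.R017.RXk848 (LnP Lmp)
open Crest.Agent.R017.RXi848 (LF_le_len)
open Crest.Agent.R017.RHX116 (LL_cons' LL_natl)
open Crest.Agent.R017.RX298 (xs rpB Lg NLeafX NNumX)
open Crest.Agent.R017.NEg551 (LBq NLeaf NNum NFacts NTc)
open Crest.Agent.R017.NE73 (gN)
open Crest.Agent.R017.NEc180 (NumSq)
open Crest.Agent.R017.CubP813 (Qc)

variable {Lam ι : Type*} {p : ℕ}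

/-- **the first two lengths of a derived list**, near parents -/
theorem lg_near {g c d X S : ℝ} (hX : 1 ≤ X) (hd : 0 ≤ d) (hS : 0 ≤ S)
    {ps₀ : List Pq} {ps : List Pf} (hlen : (ps₀.length : ℝ) * S ≤ c * Real.log X)
    (hL : Lmp ((d + 3 / 2 * c) * Real.log X) ps₀)
    (hlo : LL Dq ps₀ - g * Real.log X ≤ LF ps)
    (hg : g * Real.log X ≤ (d + 2 * c) * Real.log X) (hs : SbL S ps ps₀) :
    Lg (d * Real.log X) ps := by
  match ps, ps₀, hs, hL with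
  | _ :: _ :: _ , [], h, hL => exact hL.elim
  | [], [], _, hL => exact hL.elim
  | [_], [_], _, hL => exact hL.elim
  | p1 :: p2 :: ps, q1 :: q2 :: [], h, hL => exact hL.elim
  | p1 :: p2 :: ps, q1 :: q2 :: q3 :: ps₀, h, hL =>
    unfold RG64.SbL at h
    cases h with
    | cons h1 h =>
      cases h with
      | cons h2 h =>
        obtain ⟨-, -, -, x1, x2⟩ := hL
        have h3 := LF_le_len hS h
        have h6 : (((q1 :: q2 :: q3 :: ps₀).length : ℕ) : ℝ) = (q3 :: ps₀).length + 2 := by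
          rw [List.length_cons, List.length_cons]; push_cast; ring
        rw [h6] at hlen
        rw [LL_cons', LL_cons', LL_natl, LF_cons, LF_cons] at hlo
        show d * Real.log X ≤ p1.1.z + p2.1.z
        nlinarith

/-- near parents: `g ≤ d` -/
lemma g_le_d {K v c e₁ d ε X : ℝ} {ps₀ : List Pq} (hX : 3 ≤ X) (hK : 0 ≤ K) (hc : 0 ≤ c)
    (hn : NNum K v c ε X ps₀) (hx : NNumX K v c e₁ d ε X ps₀) (hec : ε ≤ c) :
    gN K c (LL Dq ps₀ / Real.log X) * Real.log X ≤ (d + 2 * c) * Real.log X := by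
  have hlX : 0 < Real.log X := Real.log_pos (by linarith)
  have h1 := hn.top
  have h2 := hn.Kn
  have h3 := hx.bg
  have h4 := mul_le_mul_of_nonneg_right hec hlX.le
  have h5 := mul_nonneg hK hlX.le
  have h6 := mul_nonneg hc hlX.le
  obtain ⟨g, hg⟩ : ∃ x : ℝ, x = gN K c (LL Dq ps₀ / Real.log X) := ⟨_, rfl⟩
  rw [← hg] at h3 ⊢
  nlinarith

/-- **the square at the second scale at the near leaf** (exceptional class) -/
theorem nsqhX_leaf {π : Lam → DPar} (hP : ∀ lam, (π lam).OK) {h : ℝ → ℝ} {c₁ : ℝ} (hpu : PU h c₁)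
    {w : ℝ → ℝ} (hw : Wgt w) {L : ι → Line Lam p} {j : ι}
    {φ₀ φ₁ φβ : ℝ → ℝ → ℝ → ℝ} {K v c e₁ d : ℝ} {hh : ℝ → ℝ → ℝ → ℝ} (hK : 0 ≤ K) (hc : 0 < c)
    (hd : 0 ≤ d) (hφ₀ : ∀ a u m, 0 ≤ φ₀ a u m) (hφ : ∀ a u m, φ₀ a u m ≤ φβ a u m)
    (hφK : ∀ a u m, 5 * a ≤ 4 * K + c → m ≤ a + c → 5 * φβ a u m ≤ K)
    (hhφ : ∀ a u m, hh K u m ≤ 3 * (φβ a u m - φ₀ a u m)) {Qf : LBq → Eis → Prop}
    (hQf : ∃ X₂ : ℝ, ∀ X : ℝ, X₂ ≤ X → ∀ a u m : ℝ, 5 * a ≤ 4 * K + c → m ≤ a + c →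
      ∀ q : LBq, q.K = X ^ K → q.E0 = X ^ φ₀ a u m → q.E1 = X ^ φ₁ a u m →
      q.B = X ^ φβ a u m → ∀ i ∈ T9, ∀ k, IsPrim k → Qf q k →
      NCube (k * (Eis.w ^ i.1 * Eis.lam ^ i.2) ^ 2))
    (HL : SqhLn (RX (fun _ k => NCube k) π h) hh (L j)) :
    NLeafX π h (NSqh w Qf) L φ₀ φ₁ φβ K v c e₁ d := by
  intro lam N c₀ hc₀
  refine ⟨2 * c₀, by linarith, fun ε M hε hM => ?_⟩
  obtain ⟨J₀, δ₀, hJ₀, hδ₀, G⟩ := nsqhX_core hP hpu hw hK hd HL lam N hc₀ hε hM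
  refine ⟨J₀, δ₀, hJ₀, hδ₀, ?_⟩
  intro δ Jn Aw Cw R η S hδ0 hδ hJn hAw hCw hR hη hη1 hS
  obtain ⟨C, r, X₁, hC, hr, G⟩ := G δ Jn Aw Cw R η S hδ0 hδ hJn hAw hCw hR hη hη1 hS
  obtain ⟨X₂, hQ2⟩ := hQf
  refine ⟨C, r, max (max X₁ X₂) (Real.exp (N * S / c)), hC, hr, ?_⟩
  intro X hX3 hXX ps₀ hlen hz _ hnum hnx hLm q ps Lv N₁ hF hq hqX hps Bd hBd _ _ hprem
  have hX0 : 0 < X := by linarith
  have hlX : 0 < Real.log X := Real.log_pos (by linarith)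
  have hec : ε ≤ c := hnum.ec
  have hNS : (ps₀.length : ℝ) * S ≤ c * Real.log X := by
    have h1 : N * S / c ≤ Real.log X := by
      rw [Real.le_log_iff_exp_le hX0]
      exact (le_max_right _ _).trans hXX
    rw [div_le_iff₀ hc] at h1
    have h2 : (ps₀.length : ℝ) * S ≤ N * S :=
      mul_le_mul_of_nonneg_right (by exact_mod_cast hlen) hS
    linarith
  have hLg : Lg (d * Real.log X) ps :=
    lg_near (by linarith) hd hS hNS hLm hF.lo (g_le_d hX3 hK hc.le hnum hnx hec) hps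
  have hLm' : Lmp (d * Real.log X) ps₀ := by
    refine Lmp_mono ?_ hLm
    have : 0 ≤ c * Real.log X := by positivity
    nlinarith
  refine G X hX3 ((le_max_left _ _).trans ((le_max_left _ _).trans hXX)) ps₀ hlen hz hLm' q ps Lv
    hq hqX hps hLg Bd hBd hprem _ _ (hφ _ _ _)
    (range_h hX3 hec hφ₀ hφ hφK hnum.nK hF.hi) (hhφ _ _ _) _ ?_
  refine hQ2 X ((le_max_right _ _).trans ((le_max_left _ _).trans hXX))
    (LL Dq ps₀ / Real.log X) (Lv / Real.log X) (LF ps / Real.log X) ?_ ?_ _ rfl rfl rfl rfl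
  · have h1 := hnum.nK
    have : LL Dq ps₀ / Real.log X ≤ (4 * K + ε) / 5 := by
      rw [div_le_iff₀ hlX]; linarith
    linarith
  · have h1 : LF ps / Real.log X ≤ LL Dq ps₀ / Real.log X + ε := by
      rw [div_add' _ _ _ hlX.ne']
      exact div_le_div_of_nonneg_right hF.hi hlX.le
    linarith

/-- the frequencies of `Qf = Qc (K₁ ..)` with `1 < K₁` -/
lemma qf_qc {K c : ℝ} {φ₀ φ₁ φβ : ℝ → ℝ → ℝ → ℝ} {K₁ : LBq → ℝ}
    (H : ∃ X₂ : ℝ, ∀ X : ℝ, X₂ ≤ X → ∀ a u m : ℝ, 5 * a ≤ 4 * K + c → m ≤ a + c →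
      ∀ q : LBq, q.K = X ^ K → q.E0 = X ^ φ₀ a u m → q.E1 = X ^ φ₁ a u m →
      q.B = X ^ φβ a u m → 1 < K₁ q) :
    ∃ X₂ : ℝ, ∀ X : ℝ, X₂ ≤ X → ∀ a u m : ℝ, 5 * a ≤ 4 * K + c → m ≤ a + c →
      ∀ q : LBq, q.K = X ^ K → q.E0 = X ^ φ₀ a u m → q.E1 = X ^ φ₁ a u m →
      q.B = X ^ φβ a u m → ∀ i ∈ T9, ∀ k, IsPrim k → Qc (K₁ q) k →
      NCube (k * (Eis.w ^ i.1 * Eis.lam ^ i.2) ^ 2) := by
  obtain ⟨X₂, H⟩ := H
  refine ⟨X₂, fun X hX a u m h1 h2 q h3 h4 h5 h6 i hi k hk hq => ?_⟩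
  exact qc_hyp (H X hX a u m h1 h2 q h3 h4 h5 h6) i hi k hk hq

end Crest.Agent.R017.SqB791
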