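import Crest.Agent.R017.NXd_848

/-!
# Row 17, FlatNE, NumEq class E (helper848): the R-number for all blocks `0 ≤ κ`

* `LnP_b`    : `LnP` for smaller constants
* `Tz`       : `T` for `0 < κ`, `m - α` at `κ = 0`
* `nrqX_all` : `nrqX_core` for all `0 ≤ κ`, at `Tz T`
-/

set_option autoImplicit false
set_option linter.unusedVariables false
set_option maxHeartbeats 400000

noncomputable section

open Complex
open scoped ComplexConjugate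

namespace Crest.Agent.R017.NX848

open Crest.Agent.R012 Crest.Agent.R012.Eis Crest.Agent.R012.Gauss880
open Crest.Agent.R012.LS2 (S mem_S bl mem_bl)
open Crest.Agent.R012.T411 (NCube)
open Crest.Agent.R012.Weight600 (osc pw)
open Crest.Agent.R017.CM106 Crest.Agent.R017.FE47
open Crest.Agent.R017.B770
open Crest.Agent.R017.Prov71
open Crest.Agent.R017.HP842 (sqc)
open Crest.Agent.R017.XP699 (LL Chd cst hcost)
open Crest.Agent.R017.Leg381 (Pf alF LF natl)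
open Crest.Agent.R017.Win813 (WK iA iA_nonneg)
open Crest.Agent.R017.RGw813 (bt T9)
open Crest.Agent.R017.RG64 (SbL Ht one_le_Ht)
open Crest.Agent.R017.RGB545 (Line Th TK rbx)
open Crest.Agent.R017.XPD571 (RF0 RX)
open Crest.Agent.R017.RXk848 (LnP Lmp)
open Crest.Agent.R017.RX298 (xs rpB Lg zt norm_zt rp LF_rp rp_length XDp exists_XDp)
open Crest.Agent.R017.C70 (CbF)
open Crest.Agent.R017.SqB791 (RqLn LipT nrqX_core)

variable {Lam ι : Type*} {d : ℕ}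

/-- `LnP` for smaller constants -/
lemma LnP_b {L : ι → Line Lam d} {lam : Lam} {K ε M r bm r' bm' X n₁ v₁ Bd : ℝ} {base : List Pq}
    (h : LnP L lam K ε M r bm X n₁ v₁ Bd base) (hr : r' ≤ r) (hb : bm' ≤ bm) :
    LnP L lam K ε M r' bm' X n₁ v₁ Bd base := by
  intro j θ l ps' h1 h2 h3 h4 h5 h6
  exact h j θ l ps' h1 h2 (RG64.Chd.mono' hr hb h3) h4 h5 h6

/-- the number with the block `nm k = 1` -/
def Tz (T : ℝ → ℝ → ℝ → ℝ → ℝ → ℝ) (K v m κ a : ℝ) : ℝ :=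
  if κ ≤ 0 then m - a else T K v m κ a

lemma Tz_pos {T : ℝ → ℝ → ℝ → ℝ → ℝ → ℝ} {K v m κ a : ℝ} (h : 0 < κ) :
    Tz T K v m κ a = T K v m κ a := by unfold Tz; rw [if_neg (not_le.2 h)]

lemma Tz_zero {T : ℝ → ℝ → ℝ → ℝ → ℝ → ℝ} {K v m a : ℝ} : Tz T K v m 0 a = m - a := by
  unfold Tz; rw [if_pos le_rfl]

/-- monotone in the removed length -/
lemma Tz_anti {T : ℝ → ℝ → ℝ → ℝ → ℝ → ℝ} {Λ : ℝ} (hT : LipT Λ T) {K v m κ a a' : ℝ}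
    (h : a ≤ a') : Tz T K v m κ a' ≤ Tz T K v m κ a := by
  unfold Tz
  split_ifs with h1
  · linarith
  · have := hT K v m κ a' κ a 0 le_rfl (by linarith) (by linarith)
    linarith

/-- enlarge the constant -/
lemma mono_C {A C C' ε H J Bd L2 V D : ℝ} {X : ℝ} (hX : 0 ≤ X) (hH : 0 ≤ H) (hB : 0 ≤ Bd)
    (hL : 0 ≤ L2) (hV : 0 ≤ V) (hA : 0 ≤ A) (hD : 0 ≤ D) (hC : C ≤ C') :
    A * ((C * X ^ ε * H ^ J * Bd * L2) * V) * D ≤ A * ((C' * X ^ ε * H ^ J * Bd * L2) * V) * D := by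
  have h1 : 0 ≤ X ^ ε := Real.rpow_nonneg hX _
  have h2 : 0 ≤ H ^ J := Real.rpow_nonneg hH _
  gcongr

/-- **the mean squares over all the dyadic blocks of cube-free frequencies**, exceptional class -/
theorem nrqX_all {π : Lam → DPar} (hP : ∀ lam, (π lam).OK) {h : ℝ → ℝ} {c₁ : ℝ} (hpu : PU h c₁)
    {L : ι → Line Lam d} {j : ι} {K Λ d₀ : ℝ} {T : ℝ → ℝ → ℝ → ℝ → ℝ → ℝ} {qm : ℝ → ℝ → ℝ → ℝ}
    (hK : 0 ≤ K) (hΛ : 0 ≤ Λ) (hd₀ : 0 ≤ d₀) (hT : LipT Λ T)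
    (HL : RqLn (RX (fun _ k => NCube k) π h) T qm (L j))
    (lam : Lam) (N : ℕ) {c₀ : ℝ} (hc₀ : 1 ≤ c₀) {ε M : ℝ} (hε : 0 < ε) (hM : 0 ≤ M) :
    ∃ J₀ δ₀ : ℝ, 0 ≤ J₀ ∧ 0 < δ₀ ∧ ∀ (δ : ℝ) (Jn Aw : ℕ) (Cw R η S : ℝ), 0 ≤ δ → δ ≤ δ₀ →
    J₀ ≤ Jn → Jn + 2 ≤ Aw → 0 ≤ Cw → 0 ≤ R → 0 < η → η ≤ 1 / 2 → 0 ≤ S →
    ∃ C r X₁ : ℝ, 0 ≤ C ∧ 0 ≤ r ∧ ∀ X : ℝ, 3 ≤ X → X₁ ≤ X → ∀ ps₀ : List Pq, ps₀.length ≤ N →
    (∀ q ∈ ps₀, 0 ≤ Dq.len q ∧ Dq.len q ≤ c₀ * Real.log X) → Lmp (d₀ * Real.log X) ps₀ →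
    ∀ (q : Eis) (ps : List Pf) (Lv : ℝ), IsPrim q → (nm q : ℝ) ≤ X ^ c₀ → SbL S ps ps₀ →
    Lg (d₀ * Real.log X) ps → ∀ Bd : ℝ, 1 ≤ Bd →
    (∀ t : Bool, LnP L lam K ε M r (C * X ^ (2 * c₀)) X (LF ps / Real.log X) (Lv / Real.log X) Bd
      (rbx d₀ t X ps₀)) →
    ∀ (κ : ℝ) (a b : Eis), 0 ≤ κ → κ ≤ K →
    κ ≤ qm K (Lv / Real.log X) (LF ps / Real.log X) →
    IsPrim a → b ≠ 0 → (nm a : ℝ) ≤ X ^ (2 * c₀) → (nm b : ℝ) ≤ X ^ (2 * c₀) →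
    ∀ p ∈ T9, ∀ (t X' : ℝ) (φ : ℝ → ℝ), 0 < X' →
      |Real.log X' - Real.log (Real.exp (LF ps))| ≤ R + 1 →
      WK Cw η Aw φ → (∀ u, φ u ≠ 0 → |u - Real.log X'| ≤ η / 2) →
    ∀ A : Finset Eis, (∀ k ∈ A, IsPrim k ∧ CbF k ∧ X ^ κ ≤ nm k ∧ (nm k : ℝ) ≤ 2 * X ^ κ) →
    ∑ k ∈ A, ‖CS (CubP813.alr (fun n => bt φ (xs q (X ^ δ) (X ^ δ) (π lam) h
        (d₀ * Real.log X) ps) p n * pw t (nm n)) a b) k‖ ^ 2 ≤
      (X ^ K / Real.exp (LF ps)) *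
        ((C * X ^ ε * (Ht ps * Ht (natl ps₀)) ^ J₀ * Bd * Real.exp (2 * LF ps)) *
          (1 + |t|) ^ Jn) *
        (X ^ (Tz T K (Lv / Real.log X) (LF ps / Real.log X) κ (Real.log (nm a) / Real.log X) - K) /
          nm a) := by
  obtain ⟨J₀, δ₀, hJ₀, hδ₀, G⟩ := nrqX_core hP hpu hK hΛ hd₀ hT HL lam N hc₀ hε hM
  refine ⟨J₀, δ₀, hJ₀, hδ₀, ?_⟩
  intro δ Jn Aw Cw R η Sg hδ0 hδ hJn hAw hCw hR hη hη1 hS
  obtain ⟨C, r, X₁, hC, hr, G⟩ := G δ Jn Aw Cw R η Sg hδ0 hδ hJn hAw hCw hR hη hη1 hS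
  obtain ⟨C', X₂, hC', G'⟩ := nrqX_zero hP hpu N (by linarith : (0 : ℝ) ≤ c₀) hε hS (Aw := Aw)
    (by omega) hCw hη
  refine ⟨C + C', r, max X₁ X₂, by linarith, hr, ?_⟩
  intro X hX3 hXX ps₀ hlen hz hLm q ps Lv hq hqX hps hLg Bd hBd hprem κ a b hκ hκK hκm ha hb haX
    hbX p hp t X' φ hX' hXX' hWK hφs A hA
  have hX0 : 0 < X := by linarith
  have hX1 : 1 ≤ X := by linarith
  have hH : 0 ≤ Ht ps * Ht (natl ps₀) :=
    zero_le_one.trans (one_le_mul_of_one_le_of_one_le (one_le_Ht _) (one_le_Ht _))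
  have hB0 : 0 ≤ Bd := by linarith
  have hna : (0 : ℝ) < nm a := by exact_mod_cast nm_pos.2 ha.ne_zero
  have hV : 0 ≤ (1 + |t|) ^ Jn := pow_nonneg (by positivity) _
  have hA0 : 0 ≤ X ^ K / Real.exp (LF ps) := by positivity
  rcases hκ.eq_or_lt with h0 | h0
  · subst h0
    rw [Tz_zero]
    have k0 := G' X hX3 ((le_max_right _ _).trans hXX) lam ps₀ hlen (fun q hq => (hz q hq).2) q ps
      hps δ d₀ K Bd J₀ Jn hBd hJ₀ a b ha p hp t φ hWK A (fun k hk => by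
        obtain ⟨h1, -, -, h4⟩ := hA k hk
        rw [Real.rpow_zero] at h4
        exact ⟨h1, by linarith⟩)
    rw [sub_div] at k0
    refine k0.trans ?_
    refine mono_C hX0.le hH hB0 (Real.exp_pos _).le hV hA0 ?_ (by linarith)
    exact div_nonneg (Real.rpow_nonneg hX0.le _) hna.le
  · rw [Tz_pos h0]
    have k0 := G X hX3 ((le_max_left _ _).trans hXX) ps₀ hlen hz hLm q ps Lv hq hqX hps hLg Bd hBd
      (fun t => LnP_b (hprem t) le_rfl (by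
        have : 0 ≤ X ^ (2 * c₀) := Real.rpow_nonneg hX0.le _
        nlinarith)) κ a b h0 hκK hκm ha hb haX hbX p hp t X' φ hX' hXX' hWK hφs A hA
    refine k0.trans ?_
    refine mono_C hX0.le hH hB0 (Real.exp_pos _).le hV hA0 ?_ (by linarith)
    exact div_nonneg (Real.rpow_nonneg hX0.le _) hna.le

end Crest.Agent.R017.NX848
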