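import Crest.Agent.R017.RHXd_116
import Crest.Agent.R017.R4g_571
import Crest.Agent.R017.RXl_848

/-!
# Row 17, T.7, E3 for the exceptional class (helper116): (RH) from the premises of `RLeafX`

* `RHx_leaf` : twin of helper571's `RH_leaf` for `xs`, both classes of frequencies, the premises
  for the children of the list and of the replaced list (helper848's `RLeafX`)
-/

set_option autoImplicit false
set_option maxHeartbeats 400000

noncomputable section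

open Complex MeasureTheory
open scoped ComplexConjugate

namespace Crest.Agent.R017.RHX116

open Crest.Agent.R012 Crest.Agent.R012.Eis Crest.Agent.R012.MC
open Crest.Agent.R012.LS2 (S mem_S bl mem_bl)
open Crest.Agent.R012.Weight600 (pw norm_pw pw_add_left)
open Crest.Agent.R017.CM106 (CS TG FS)
open Crest.Agent.R017.FE47
open Crest.Agent.R017.B770
open Crest.Agent.R017.Prov71 hiding tl
open Crest.Agent.R017.Sup271 (NPm)
open Crest.Agent.R017.XHB411 (tl)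
open Crest.Agent.R017.XRG106 (Rl)
open Crest.Agent.R017.PX764 (n6)
open Crest.Agent.R017.Leg381 (Pf alF LF natl)
open Crest.Agent.R017.Win813 (WK)
open Crest.Agent.R017.RGw813 (bt)
open Crest.Agent.R017.XPX241 (RN)
open Crest.Agent.R017.XP699 (LL Chd hcost cst)
open Crest.Agent.R017.RG64 (Sb SbL Ht one_le_Ht Ht_cons)
open Crest.Agent.R017.RX298 (xs rp rpB SbL_rp Lg LF_rp rp_length rpB_length Ht_rp)
open Crest.Agent.R017.RGB545 (rbx)
open Crest.Agent.R017.ExD791 (Tw)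
open Crest.Agent.R017.PoHx72 (Cls)
open Crest.Agent.R017.R3571

lemma rpB_eq (d : ℝ) (ps : List Pq) : rpB d ps = Crest.Agent.R017.RuleM545.rp d ps := by
  rcases ps with _ | ⟨p₁, _ | ⟨p₂, ps⟩⟩ <;> rfl

lemma Ht_natl_rpB (d : ℝ) (ps : List Pq) : Ht (natl (rpB d ps)) = Ht (natl ps) := by
  rcases ps with _ | ⟨p₁, _ | ⟨p₂, ps⟩⟩ <;> rfl

lemma z_le {s L : ℝ} {ps : List Pf} {ps₀ : List Pq} (hS : SbL s ps ps₀)
    (hz : ∀ q ∈ ps₀, Dq.len q ≤ L) : ∀ p ∈ ps, p.1.z ≤ L + s := by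
  unfold RG64.SbL at hS
  induction hS with
  | nil => intro p hp; simp at hp
  | @cons p p₀ ps ps₀ h1 _ ih =>
    intro p' hp'
    rcases List.mem_cons.1 hp' with rfl | hp'
    · have h2 := h1.2.2.2.2
      have h3 : p₀.z ≤ L := hz p₀ List.mem_cons_self
      linarith
    · exact ih (fun q hq => hz q (List.mem_cons_of_mem _ hq)) p' hp'

lemma Tw_lg {d s₀ M : ℝ} (hs : 0 ≤ s₀) {ps : List Pf} (h : Tw d s₀ M ps) : Lg d ps := by
  match ps, h with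
  | p1 :: p2 :: l, h =>
    have h1 := h.2.2.2.2.1
    show d ≤ p1.1.z + p2.1.z
    linarith

lemma Tw_len {d s₀ M : ℝ} {ps : List Pf} (h : Tw d s₀ M ps) : 2 ≤ ps.length := by
  match ps, h with
  | p1 :: p2 :: l, h => simp

lemma Tw_mono {d s₀ M M' : ℝ} (hM : M ≤ M') {ps : List Pf} (h : Tw d s₀ M ps) :
    Tw d s₀ M' ps := by
  match ps, h with
  | p1 :: p2 :: l, h =>
    obtain ⟨a1, a2, ⟨a3, a4⟩, a5, a6⟩ := h
    exact ⟨a1, a2, ⟨a3.trans hM, a4.trans hM⟩, a5, a6⟩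

/-- the lengths of the replaced base list -/
lemma len_rpB {d L : ℝ} (hd : 0 ≤ d) (hdL : d ≤ 2 * L) (_hL : 0 ≤ L) {ps₀ : List Pq}
    (hz : ∀ q ∈ ps₀, Dq.len q ≤ L) : ∀ q ∈ rpB d ps₀, Dq.len q ≤ 2 * L := by
  rcases ps₀ with _ | ⟨p₁, _ | ⟨p₂, ps⟩⟩
  · intro q hq; exact absurd hq (by simp [RX298.rpB])
  · intro q hq
    have hq' : q ∈ [p₁] := hq
    have := hz q hq'
    linarith
  · intro q hq
    have h1 : p₁.z ≤ L := hz p₁ (by simp)
    have h2 : p₂.z ≤ L := hz p₂ (by simp)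
    have hq' : q ∈ ({p₁ with z := p₁.z + p₂.z - d} :: {p₂ with z := d} :: ps : List Pq) := hq
    rcases List.mem_cons.1 hq' with rfl | hq'
    · show p₁.z + p₂.z - d ≤ 2 * L
      linarith
    rcases List.mem_cons.1 hq' with rfl | hq'
    · exact hdL
    · have := hz q (by simp [hq'])
      linarith

/-- one list: the premise of `RHx_two` from the premise of the leaf -/
lemma prem_one {P : DPar} {h : ℝ → ℝ} {C s X c₁ ε M μ' P2 Bd T Im : ℝ} {N : ℕ} (hC : 1 ≤ C)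
    (hs : 0 ≤ s) (hX0 : 0 < X) (hM : 0 ≤ M) (hμ' : μ' = N * M / 2) (hXC : C ≤ ε * Real.log X)
    (hP2 : 0 < P2) (hP2I : 81 * P2 ≤ Real.exp Im) (hBd : 1 ≤ Bd) {l : List Pf} {bs : List Pq}
    (hS : SbL s l bs) (hlen : bs.length ≤ N) (hz : ∀ q ∈ bs, Dq.len q ≤ c₁ * Real.log X) {F : ℝ}
    (hyp : ∀ (l : ℝ) (ps' : List Pq), 0 ≤ l → l ≤ Im →
      List.Forall₂ (Chd Dq hcost (C + s) (C * Real.exp s * X ^ c₁)) ps' bs →
      LL Dq ps' ≤ F + ε * Real.log X →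
      RN P h l ps' ≤ Bd * cst hcost ps' bs ^ M *
        Real.exp (T - F + LL Dq ps' - (Im - l) / 3))
    {Λ : ℝ} (hΛ1 : 1 ≤ Λ) (hΛ2 : Λ ≤ P2) {ps' : List Pq} {W : ℝ} (hW : 1 ≤ W)
    (hR : List.Forall₂ (Rl C W) ps' (l.map Prod.fst)) {dn : ℝ} (hdn : 0 ≤ dn)
    (hl : tl Dq ps' ≤ F - dn + C) :
    RN P h (Real.log (81 * Λ)) ps' ≤ (Λ / P2) ^ (1 / 3 : ℝ) *
      ((Ht l * Ht (natl bs)) ^ M * Bd * Real.exp (T - F)) * Real.exp (tl Dq ps') *
        W ^ (2 * μ') := by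
  have hHt : 1 ≤ Ht l * Ht (natl bs) :=
    one_le_mul_of_one_le_of_one_le (one_le_Ht _) (one_le_Ht _)
  have hHt0 : 0 < Ht l * Ht (natl bs) := by linarith
  have hΛ0 : 0 < Λ := by linarith
  have h81 : 1 ≤ 81 * Λ := by linarith
  have hlI : Real.log (81 * Λ) ≤ Im := by
    rw [← Real.log_exp Im]
    exact Real.log_le_log (by linarith) (le_trans (by gcongr) hP2I)
  have h1 := hyp (Real.log (81 * Λ)) ps' (Real.log_nonneg h81) hlI
    (chd_of (by linarith) hs hX0 hR hS hz) (by rw [← tl_LL]; linarith)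
  have h2 := cst_le hW hR hS
  have hcst0 : 0 ≤ cst hcost ps' bs := by
    unfold XP699.cst
    refine List.prod_nonneg fun x hx => ?_
    obtain ⟨i, hi, rfl⟩ := List.mem_iff_getElem.1 hx
    rw [List.getElem_zipWith]
    show 0 ≤ 1 + |_|
    positivity
  have hW0 : 0 < W := by linarith
  have h3 : cst hcost ps' bs ^ M ≤ W ^ (2 * μ') * (Ht l * Ht (natl bs)) ^ M := by
    have g1 : W ^ bs.length ≤ W ^ N := pow_le_pow_right₀ hW hlen
    have g2 : cst hcost ps' bs ≤ W ^ N * (Ht l * Ht (natl bs)) := by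
      refine h2.trans ?_
      gcongr
    calc cst hcost ps' bs ^ M ≤ (W ^ N * (Ht l * Ht (natl bs))) ^ M :=
          Real.rpow_le_rpow hcst0 g2 hM
      _ = (W ^ N) ^ M * (Ht l * Ht (natl bs)) ^ M :=
          Real.mul_rpow (by positivity) hHt0.le
      _ = _ := by
          congr 1
          rw [← Real.rpow_natCast, ← Real.rpow_mul hW0.le, hμ']
          congr 1; ring
  have h4 : Real.exp (T - F + LL Dq ps' - (Im - Real.log (81 * Λ)) / 3) ≤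
      (Λ / P2) ^ (1 / 3 : ℝ) * Real.exp (T - F) * Real.exp (tl Dq ps') := by
    have g1 : Real.exp (T - F + LL Dq ps' - (Im - Real.log (81 * Λ)) / 3) =
        Real.exp ((Real.log (81 * Λ) - Im) / 3) * Real.exp (T - F) *
          Real.exp (tl Dq ps') := by
      rw [← Real.exp_add, ← Real.exp_add, tl_LL]; congr 1; ring
    rw [g1]
    have g2 : Real.exp ((Real.log (81 * Λ) - Im) / 3) ≤ (Λ / P2) ^ (1 / 3 : ℝ) := by
      rw [Real.rpow_def_of_pos (by positivity)]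
      refine Real.exp_le_exp.2 ?_
      have g3 : Real.log (81 * P2) ≤ Im := by
        rw [← Real.log_exp Im]; exact Real.log_le_log (by positivity) hP2I
      have g4 : Real.log (81 * Λ) - Real.log (81 * P2) = Real.log (Λ / P2) := by
        rw [← Real.log_div (by positivity) (by positivity)]
        congr 1; field_simp
      linarith
    gcongr
  calc RN P h (Real.log (81 * Λ)) ps' ≤ Bd * cst hcost ps' bs ^ M *
        Real.exp (T - F + LL Dq ps' - (Im - Real.log (81 * Λ)) / 3) := h1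
    _ ≤ Bd * (W ^ (2 * μ') * (Ht l * Ht (natl bs)) ^ M) *
        ((Λ / P2) ^ (1 / 3 : ℝ) * Real.exp (T - F) * Real.exp (tl Dq ps')) := by gcongr
    _ = _ := by ring

set_option maxHeartbeats 1600000 in
open Classical in
/-- **(RH) for all `P` and both classes, from the premises of `RLeafX`** -/
theorem RHx_leaf {h : ℝ → ℝ} {c : ℝ} (hpu : PU h c) (N : ℕ) {c₀ m₀ μ M : ℝ} (hc₀ : 1 ≤ c₀)
    (hm₀ : 0 ≤ m₀) (hμ : 0 < μ) (hM : 0 ≤ M) :
    ∃ a : ℕ, 1 ≤ a ∧ ∀ (ε s : ℝ), 0 < ε → 0 ≤ s →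
    ∃ C r X₁ : ℝ, 1 ≤ C ∧ 0 ≤ r ∧ ∀ X : ℝ, 3 ≤ X → X₁ ≤ X → ∀ (P : DPar), P.OK →
    ¬ NPm P.n P.ψ P.l₂ 1 → (nm P.n : ℝ) ≤ X ^ c₀ →
    ∀ ps₀ : List Pq, ps₀.length ≤ N → (∀ q ∈ ps₀, Dq.len q ≤ c₀ * Real.log X) →
    ∀ (q : Eis) (ps : List Pf), q ≠ 0 → (nm q : ℝ) ≤ X ^ c₀ → SbL s ps ps₀ →
    ∀ d₀ s₀ : ℝ, 0 ≤ d₀ → 0 ≤ s₀ → Tw (d₀ * Real.log X) s₀ (X ^ c₀) ps →
    ∀ (z δ : ℝ), 0 ≤ δ → δ ≤ 1 → 3 * N * δ ≤ ε → ∀ Bd T Im : ℝ, 1 ≤ Bd → LF ps ≤ T →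
    (∀ (t : Bool) (l : ℝ) (ps' : List Pq), 0 ≤ l → l ≤ Im →
      List.Forall₂ (Chd Dq hcost r (C * X ^ (2 * c₀ + 2))) ps' (rbx d₀ t X ps₀) →
      LL Dq ps' ≤ LF ps + ε * Real.log X →
      RN P h l ps' ≤ Bd * cst hcost ps' (rbx d₀ t X ps₀) ^ M *
        Real.exp (T - LF ps + LL Dq ps' - (Im - l) / 3)) →
    ∀ (Cw η : ℝ) (Aw J : ℕ), 0 ≤ Cw → 0 < η → η ≤ 1 → J + 2 ≤ Aw → (N : ℝ) ^ 2 * M ≤ J → 12 ≤ J →
    ∀ (φ : ℝ → ℝ), WK Cw η Aw φ → ∀ (b : ℕ × ℕ), b.2 ≤ 2 → ∀ (t₀ A : ℝ), (J : ℝ) + 2 ≤ A →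
    ∀ d e : Eis, IsPrim d → IsPrim e → (nm d : ℝ) ≤ X ^ c₀ → (nm e : ℝ) ≤ X ^ c₀ →
    ∀ P1 : ℝ, 0 < P1 → P1 ≤ X ^ c₀ → 81 * P1 * X ^ (μ / 2) ≤ Real.exp Im →
    ∀ (jj : Bool) (γ π : Eis), IsPrim γ → IsPrim π → (nm π : ℝ) ≤ X ^ m₀ → ∀ Λ : ℝ, 0 < Λ →
      (nm γ : ℝ) * n6 γ ^ 2 * ∑ r ∈ (bl Λ).filter
          (Cls (fun r => ∃ c₀ : Eis, r * (w ^ b.1 * lam ^ b.2) ^ 2 = c₀ ^ 3) jj), RMm A
          (fun m => bt φ (xs q z (X ^ δ) P h (d₀ * Real.log X) ps) b (d * m) *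
            pw t₀ (nm (d * m))) e γ π r ≤
        W2 a P1 (nmx ((Cw ^ 2 * (η⁻¹) ^ J) * (C * X ^ (2 * ε) * (1 + |t₀|) ^ J *
            ((Ht ps * Ht (natl ps₀)) ^ M * Bd * Real.exp (T - LF ps))))
          ((Cw ^ 2 * (η⁻¹) ^ J) * (C * X ^ (2 * ε) * (1 + |t₀|) ^ J * Ht ps ^ 6))
          (P1 * X ^ (μ / 2)) s₀ (Real.exp (LF ps)) d e jj) Λ := by
  classical
  set m₁ : ℝ := 2 * c₀ + m₀ + 3 with hm₁
  have hm₁0 : 0 < m₁ := by linarith
  set μ' : ℝ := N * M / 2 with hμ'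
  have hN0 : (0 : ℝ) ≤ N := Nat.cast_nonneg N
  have hμ'0 : 0 ≤ μ' := by positivity
  obtain ⟨a, ha, H⟩ := RHx_two hpu hμ'0 N (δ := μ / 2 / m₁) (m := 1) (B₀ := 1) (by positivity)
    (by norm_num) (by norm_num)
  refine ⟨a, ha, fun ε s hε hs => ?_⟩
  obtain ⟨C, hC, H⟩ := H (ε / m₁) (by positivity)
  have hs2 : 0 ≤ 2 * s := by linarith
  have hes : 1 ≤ Real.exp (2 * s) := Real.one_le_exp hs2
  refine ⟨C * Real.exp (2 * s), C + 2 * s, max (Real.exp (2 * s)) (Real.exp (C / ε)),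
    one_le_mul_of_one_le_of_one_le hC hes, by linarith, ?_⟩
  intro X hX3 hXX P hP hnp hPn ps₀ hlen hz₀ q ps hq hqX hS d₀ s₀ hd₀ hs₀ hT z δ hδ0 hδ1 hδε Bd T Im
    hBd hLT hyp Cw η Aw J hCw hη hη1 hAJ hJ hJ12 φ hφ b hb t₀ A hA d e hd he hdX heX P1 hP1 hP1X
    hP1I jj γ π hγ hπ hπX Λ hΛ
  have hX0 : 0 < X := by linarith
  have hX1 : 1 ≤ X := by linarith
  have hl0 : 0 ≤ Real.log X := Real.log_nonneg hX1
  have hXs : 2 * s ≤ Real.log X := by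
    rw [← Real.log_exp (2 * s)]
    exact Real.log_le_log (Real.exp_pos _) ((le_max_left _ _).trans hXX)
  have hXC : C ≤ ε * Real.log X := by
    have h1 : Real.exp (C / ε) ≤ X := (le_max_right _ _).trans hXX
    have h2 : C / ε ≤ Real.log X := by
      rw [← Real.log_exp (C / ε)]; exact Real.log_le_log (Real.exp_pos _) h1
    rw [div_le_iff₀ hε] at h2
    linarith
  have hD₀ : 0 ≤ d₀ * Real.log X := mul_nonneg hd₀ hl0
  have hlenps : ps.length ≤ N := by rw [hS.length]; exact hlen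
  have hzps : ∀ p ∈ ps, 0 ≤ p.1.z := hS.z_nonneg
  have hSr : SbL (2 * s) (rp (d₀ * Real.log X) ps) (rpB (d₀ * Real.log X) ps₀) :=
    SbL_rp hs hD₀ hS (Tw_lg hs₀ hT)
  have hS2 : SbL (2 * s) ps ps₀ := hS.mono (by linarith)
  have hzr : ∀ p ∈ rp (d₀ * Real.log X) ps, 0 ≤ p.1.z := hSr.z_nonneg
  -- the lengths
  have hzle : ∀ p ∈ ps, p.1.z ≤ c₀ * Real.log X + s := z_le hS hz₀
  have hD₀le : d₀ * Real.log X ≤ 2 * ((c₀ + 1) * Real.log X) := by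
    match ps, hT, hzle with
    | p1 :: p2 :: l, hT, hzle =>
      have h1 := hT.2.2.2.2.1
      have h2 := hzle p1 (by simp)
      have h3 := hzle p2 (by simp)
      nlinarith
  have hL0 : 0 ≤ (c₀ + 1) * Real.log X := by positivity
  have hz₀' : ∀ q ∈ ps₀, Dq.len q ≤ (c₀ + 1) * Real.log X := fun q hq =>
    (hz₀ q hq).trans (mul_le_mul_of_nonneg_right (by linarith) hl0)
  have hzB : ∀ q ∈ rpB (d₀ * Real.log X) ps₀, Dq.len q ≤ (2 * c₀ + 2) * Real.log X := fun q hq => by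
    have := len_rpB hD₀ hD₀le hL0 hz₀' q hq
    linarith
  have hzA : ∀ q ∈ ps₀, Dq.len q ≤ (2 * c₀ + 2) * Real.log X := fun q hq =>
    (hz₀ q hq).trans (mul_le_mul_of_nonneg_right (by linarith) hl0)
  have hX0m : ∀ y : ℝ, y ≤ m₁ → X ^ y ≤ X ^ m₁ := fun y hy =>
    Real.rpow_le_rpow_of_exponent_le hX1 hy
  have hX3m : 3 ≤ X ^ m₁ := by
    calc (3 : ℝ) ≤ X := hX3
      _ = X ^ (1 : ℝ) := (Real.rpow_one X).symm
      _ ≤ _ := hX0m _ (by linarith)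
  have hD0 : 1 ≤ X ^ δ := Real.one_le_rpow hX1 hδ0
  have hexp : ∀ y : ℝ, y ≤ (2 * c₀ + 2) * Real.log X + 2 * s → Real.exp y ≤ X ^ m₁ := by
    intro y hy
    rw [Real.rpow_def_of_pos hX0]
    refine Real.exp_le_exp.2 ?_
    rw [hm₁]
    nlinarith
  have hezX : ∀ p ∈ ps, Real.exp p.1.z ≤ X ^ m₁ := fun p hp => hexp _ (z_le hS2 hzA p hp)
  have hezX' : ∀ p ∈ rp (d₀ * Real.log X) ps, Real.exp p.1.z ≤ X ^ m₁ := fun p hp =>
    hexp _ (z_le hSr hzB p hp)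
  have hHt : 1 ≤ Ht ps * Ht (natl ps₀) :=
    one_le_mul_of_one_le_of_one_le (one_le_Ht _) (one_le_Ht _)
  have hHM : 1 ≤ (Ht ps * Ht (natl ps₀)) ^ M := Real.one_le_rpow hHt hM
  have hET : 1 ≤ Real.exp (T - LF ps) := Real.one_le_exp (by linarith)
  set B : ℝ := (Ht ps * Ht (natl ps₀)) ^ M * Bd * Real.exp (T - LF ps) with hB
  have hB1 : 1 ≤ B := one_le_mul_of_one_le_of_one_le (one_le_mul_of_one_le_of_one_le hHM hBd) hET
  have hXμ : (X ^ m₁) ^ (μ / 2 / m₁) = X ^ (μ / 2) := by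
    rw [← Real.rpow_mul hX0.le]; congr 1; field_simp
  have hXε : (X ^ m₁) ^ (ε / m₁) = X ^ ε := by
    rw [← Real.rpow_mul hX0.le]; congr 1; field_simp
  have hP20 : 0 < P1 * X ^ (μ / 2) := by positivity
  have hP2I : 81 * (P1 * X ^ (μ / 2)) ≤ Real.exp Im := by rw [← mul_assoc]; exact hP1I
  have hn2 : 2 ≤ N := (Tw_len hT).trans hlenps
  have hmain := H P hP hnp ps (d₀ * Real.log X) s₀ hlenps hzps hzr z (X ^ δ) hD0 q d e hq hd he
    (X ^ m₁) hX3m (hX0m δ (by linarith))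
    (by rw [Real.rpow_one]; exact hPn.trans (hX0m _ (by linarith)))
    (by rw [Real.rpow_one]; exact Tw_mono (hX0m _ (by linarith)) hT)
    (hqX.trans (hX0m _ (by linarith))) (hdX.trans (hX0m _ (by linarith)))
    (heX.trans (hX0m _ (by linarith))) hezX hezX' Cw η Aw J hCw hη hη1 hAJ (by
      rw [hμ']
      calc 2 * ((N : ℝ) * (N * M / 2)) = (N : ℝ) ^ 2 * M := by ring
        _ ≤ J := hJ) hJ12 φ hφ b hb t₀ A hA P1 B hP1 (by
      rw [Real.rpow_one]; exact hP1X.trans (hX0m _ (by linarith))) hB1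
    (fun Λ hΛ1 hΛ2 ps' W hW hR hl => by
      rw [hXμ] at hΛ2 ⊢
      have hd1 := one_le_nm hd.ne_zero
      have he1 := one_le_nm he.ne_zero
      have hld : 0 ≤ Real.log (nm d * nm e) :=
        Real.log_nonneg (one_le_mul_of_one_le_of_one_le hd1 he1)
      rcases hR with hR | hR
      · have h1 := prem_one (P := P) (h := h) (μ' := μ') hC hs2 hX0 hM hμ' hXC hP20 hP2I hBd hS2 hlen
          hzA (F := LF ps) (T := T) (fun l ps' g1 g2 g3 g4 => hyp false l ps' g1 g2 g3 g4) hΛ1 hΛ2 hW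
          hR hld hl
        exact h1
      · have h1 := prem_one (P := P) (h := h) (μ' := μ') hC hs2 hX0 hM hμ' hXC hP20 hP2I hBd hSr
          (by rw [rpB_length]; exact hlen) hzB (F := LF ps) (T := T)
          (fun l ps' g1 g2 g3 g4 => by
            have h2 := hyp true l ps' g1 g2
            rw [rpB_eq] at g3 ⊢
            exact h2 g3 g4) hΛ1 hΛ2 hW hR hld hl
        rw [Ht_rp, Ht_natl_rpB] at h1
        exact h1) jj γ π hγ hπ (hπX.trans (hX0m _ (by linarith))) Λ hΛ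
  refine hmain.trans (W2_mono a hP1 hΛ ?_)
  rw [hXε, hXμ]
  have h1 : ((X ^ δ) ^ N) ^ (3 : ℝ) ≤ X ^ ε := by
    rw [← Real.rpow_natCast, ← Real.rpow_mul hX0.le, ← Real.rpow_mul hX0.le]
    refine Real.rpow_le_rpow_of_exponent_le hX1 ?_
    linarith
  have h1' : (X ^ δ) ^ 4 ≤ X ^ ε := by
    rw [← Real.rpow_natCast, ← Real.rpow_mul hX0.le]
    refine Real.rpow_le_rpow_of_exponent_le hX1 ?_
    have h5 : (2 : ℝ) ≤ N := by exact_mod_cast hn2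
    push_cast
    nlinarith
  have h2 : X ^ (2 * ε) = X ^ ε * X ^ ε := by
    rw [← Real.rpow_add hX0]; congr 1; ring
  have h3 : C ≤ C * Real.exp (2 * s) := le_mul_of_one_le_right (by linarith) hes
  have hd0 := nm_cast_pos hd.ne_zero
  have he0 := nm_cast_pos he.ne_zero
  have hB0 : 0 ≤ B := by linarith
  have hHt1 := one_le_Ht ps
  have hmn : 0 ≤ min 1 ((nm d : ℝ) * nm e * Real.exp (-s₀)) := le_min zero_le_one (by positivity)
  unfold nmx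
  cases jj
  · rw [if_neg (by decide), if_neg (by decide)]
    calc (Cw ^ 2 * (η⁻¹) ^ J) * (C * ((X ^ δ) ^ N) ^ (3 : ℝ) * X ^ ε * (1 + |t₀|) ^ J * B) *
          (Real.exp (LF ps) / nm d) ^ (2 / 3 : ℝ)
        ≤ (Cw ^ 2 * (η⁻¹) ^ J) * ((C * Real.exp (2 * s)) * X ^ ε * X ^ ε * (1 + |t₀|) ^ J * B) *
          (Real.exp (LF ps) / nm d) ^ (2 / 3 : ℝ) := by gcongr
      _ = _ := by rw [h2]; ring
  · rw [if_pos rfl, if_pos rfl]
    refine mul_le_mul_of_nonneg_right ?_ (by positivity)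
    calc (Cw ^ 2 * (η⁻¹) ^ J) * (C * (X ^ δ) ^ 4 * Ht ps ^ 6 * X ^ ε * (1 + |t₀|) ^ J)
        ≤ (Cw ^ 2 * (η⁻¹) ^ J) * ((C * Real.exp (2 * s)) * X ^ ε * Ht ps ^ 6 * X ^ ε *
          (1 + |t₀|) ^ J) := by gcongr
      _ = _ := by rw [h2]; ring

end Crest.Agent.R017.RHX116
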