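import Crest.Agent.R017.NGr_708
import Crest.Agent.R017.E3Hi_290
import Crest.Agent.R017.RHXe_116

/-!
# Row 17, FlatNE, NumEq class E (helper848): the `R`-half of the Gram number of the differences

* `rn_cube`   : the cube class of `FH * RN2XF` at one `(i, d, f)`
* `cube_line` : its real line
* `rhX_half`  : `W0` for `gk_genX` from `RHx_leaf`, both classes
-/

set_option autoImplicit false
set_option linter.unusedVariables false

noncomputable section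

open Finset MeasureTheory
open scoped ComplexConjugate Classical

namespace Crest.Agent.R017.NX848

open Crest.Agent.R012 Crest.Agent.R012.Eis Crest.Agent.R012.MC
open Crest.Agent.R012.LS2 (S mem_S bl mem_bl)
open Crest.Agent.R012.Weight600 (osc pw)
open Crest.Agent.R017.CM106 (CS FS)
open Crest.Agent.R017.FE47
open Crest.Agent.R017.B770
open Crest.Agent.R017.C70 (JW CbF)
open Crest.Agent.R017.E3Z548 (FH FH_nonneg)
open Crest.Agent.R017.E3Hf290 (RN2F RN2F_nonneg)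
open Crest.Agent.R017.E3Hi290 (RN2XF)
open Crest.Agent.R017.E3Sz579 (Ld Md)
open Crest.Agent.R017.E3Sx744 (Mxd)
open Crest.Agent.R017.E3T829 (G2)
open Crest.Agent.R017.E3Kc548 (LI mem_LI)
open Crest.Agent.R017.RnP571
open Crest.Agent.R017.R3571
open Crest.Agent.R017.Mode405 (Slp)
open Crest.Agent.R017.PX764 (n6)
open Crest.Agent.R017.Sup271 (NPm)
open Crest.Agent.R017.Prov71
open Crest.Agent.R017.XP699 (LL Chd cst hcost)
open Crest.Agent.R017.Leg381 (Pf alF LF natl)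
open Crest.Agent.R017.Win813 (WK iA iA_nonneg)
open Crest.Agent.R017.RGw813 (bt T9)
open Crest.Agent.R017.RG64 (SbL Ht one_le_Ht)
open Crest.Agent.R017.RGB545 (Line Th TK rbx)
open Crest.Agent.R017.RX298 (xs rpB)
open Crest.Agent.R017.RHX116 (nmx nmx_nonneg RHx_leaf)
open Crest.Agent.R017.ExD791 (Tw)
open Crest.Agent.R017.PoHx72 (Cls)
open Crest.Agent.R017.ROX744 (PrU)
open Crest.Agent.R017.XPX241 (RN)
open Crest.Agent.R017.NGr708 (gr_line g2_cases rn_num)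

/-- `Mxd` of exponentials -/
lemma Mxd_exp {c k v h p : ℝ} {d : Eis} (hd : d ≠ 0) :
    Mxd c (Real.exp k) (Real.exp v) (Real.exp h) (Real.exp p) d =
      c * Real.exp ((h + 2 * v - k - Real.log (nm d)) - 2 / 3 * (p + v + h - k)) := by
  have nd : (0 : ℝ) < nm d := by exact_mod_cast nm_pos.2 hd
  have e1 : Real.exp h * Real.exp v ^ 2 / (Real.exp k * nm d) =
      Real.exp (h + 2 * v - k - Real.log (nm d)) := by
    rw [Real.exp_sub, Real.exp_sub, Real.exp_add, Real.exp_log nd, ← Real.exp_nat_mul]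
    push_cast
    rw [div_div]
  have e2 : Real.exp p * Real.exp v * Real.exp h / Real.exp k = Real.exp (p + v + h - k) := by
    rw [Real.exp_sub, Real.exp_add, Real.exp_add]
  unfold E3Sx744.Mxd
  rw [e1, e2, ← Real.exp_mul, mul_assoc, ← Real.exp_add]
  congr 2
  ring

/-- **the cube class of one `(i, d, f)`** -/
theorem rn_cube {c : ℝ} (hc : 1 ≤ c) {q i m h k₂ T G : ℝ} (hk₂ : 0 ≤ k₂) {d f : Eis} (hd : d ≠ 0)
    (hf : f ≠ 0) {w : ℝ} (hW0 : 0 ≤ w) (hW : w ≤ k₂ * Real.exp T)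
    (hE : 0 ≤ h + 2 * i - q - Real.log (nm d) →
      2 / 3 * q - (h + i) / 3 + 5 / 3 * Real.log (nm d) + 2 * Real.log (nm f) +
        ((h + 2 * i - q - Real.log (nm d)) - 2 / 3 * (m + i + h - q)) + T ≤ G) :
    FH (Real.exp q) (Real.exp h) (Real.exp i) * ((nm d : ℝ) ^ (2 / 3 : ℝ) * nm f *
      ((if 1 ≤ Ld (Real.exp q) (Real.exp i) (Real.exp h) d then
        Mxd c (Real.exp q) (Real.exp i) (Real.exp h) (Real.exp m) d else 0) * w)) ≤
        (c * k₂ * Real.exp G) / (nm d * nm f) := by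
  have nd0 : (0 : ℝ) < nm d := by exact_mod_cast nm_pos.2 hd
  have nf0 : (0 : ℝ) < nm f := by exact_mod_cast nm_pos.2 hf
  have hc0 : 0 < c := by linarith
  by_cases h1 : 1 ≤ Ld (Real.exp q) (Real.exp i) (Real.exp h) d
  swap
  · rw [if_neg h1, zero_mul, mul_zero, mul_zero]
    positivity
  rw [if_pos h1]
  have hL := log_Ld (K := Real.exp q) (V := Real.exp i) (H := Real.exp h) (Real.exp_pos q)
    (Real.exp_pos i) (Real.exp_pos h) hd
  have hl : lL (Real.exp q) (Real.exp i) (Real.exp h) d = h + 2 * i - q - Real.log (nm d) := by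
    unfold lL
    rw [Real.log_exp, Real.log_exp, Real.log_exp]
  have hl0 : 0 ≤ h + 2 * i - q - Real.log (nm d) := by
    rw [← hl, ← hL]
    exact Real.log_nonneg h1
  have hE' := hE hl0
  rw [le_div_iff₀ (by positivity), Mxd_exp hd, ET490.FH_exp]
  have e1 : (nm d : ℝ) ^ (2 / 3 : ℝ) = Real.exp (2 / 3 * Real.log (nm d)) := by
    rw [Real.rpow_def_of_pos nd0]
    congr 1; ring
  have e2 : (nm d : ℝ) = Real.exp (Real.log (nm d)) := (Real.exp_log nd0).symm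
  have e3 : (nm f : ℝ) = Real.exp (Real.log (nm f)) := (Real.exp_log nf0).symm
  rw [e1]
  obtain ⟨D, hD⟩ : ∃ D, D = Real.log (nm d) := ⟨_, rfl⟩
  obtain ⟨E, hEE⟩ : ∃ E, E = Real.log (nm f) := ⟨_, rfl⟩
  rw [← hD] at hE' ⊢
  rw [← hEE] at hE'
  rw [← hD] at e2
  rw [← hEE] at e3
  rw [e2, e3]
  calc Real.exp (2 / 3 * q - (h + i) / 3) * (Real.exp (2 / 3 * D) * Real.exp E *
        (c * Real.exp (h + 2 * i - q - D - 2 / 3 * (m + i + h - q)) * w)) *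
        (Real.exp D * Real.exp E) ≤
      Real.exp (2 / 3 * q - (h + i) / 3) * (Real.exp (2 / 3 * D) * Real.exp E *
        (c * Real.exp (h + 2 * i - q - D - 2 / 3 * (m + i + h - q)) * (k₂ * Real.exp T))) *
        (Real.exp D * Real.exp E) := by gcongr
    _ = c * k₂ * (Real.exp (2 / 3 * q - (h + i) / 3) * Real.exp (2 / 3 * D) * Real.exp E *
        Real.exp (h + 2 * i - q - D - 2 / 3 * (m + i + h - q)) * Real.exp T * Real.exp D *
          Real.exp E) := by ring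
    _ = c * k₂ * Real.exp (2 / 3 * q - (h + i) / 3 + 2 / 3 * D + E +
        (h + 2 * i - q - D - 2 / 3 * (m + i + h - q)) + T + D + E) := by
      rw [Real.exp_add, Real.exp_add, Real.exp_add, Real.exp_add, Real.exp_add, Real.exp_add]
    _ ≤ c * k₂ * Real.exp G := by
      refine mul_le_mul_of_nonneg_left (Real.exp_le_exp.2 ?_) (by positivity)
      linarith

/-- **the real line of the cube class** -/
theorem cube_line {κ q m V i δ e h G y y' s₀ : ℝ} (hi : i ≤ V + y) (hh : h ≤ 2 * y) (hy : 0 ≤ y)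
    (G1 : 26 / 15 * κ ≤ G) (hy' : y' ≤ y)
    (hs : 4 / 3 * (V + m) + 2 * e ≤ s₀ + 26 / 15 * κ + 10 * y) :
    2 / 3 * q - (h + i) / 3 + 5 / 3 * δ + 2 * e +
      ((h + 2 * i - q - δ) - 2 / 3 * (m + i + h - q)) +
      (((m + i + h - q) + y') / 3 + 5 / 3 * (m - δ) - e + (δ + e - s₀)) ≤ G + 20 * y := by
  linarith

lemma JWd_le {D Y₀ Y₁ : ℝ} {d : Eis} (hd : d ∈ (JW D Y₀ Y₁).image Prod.fst) : (nm d : ℝ) ≤ D := by
  obtain ⟨x, hx, rfl⟩ := mem_image.mp hd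
  unfold C70.JW at hx
  rw [mem_filter, mem_product, mem_primBall] at hx
  have h1 := hx.1.1.1
  have h2 : nm x.1 ≠ 0 := (nm_pos.2 hx.1.1.2.ne_zero).ne'
  exact (Nat.le_floor_iff' h2).1 h1

set_option maxHeartbeats 1600000 in
/-- **the `R`-half of the Gram number at `xs`** : `W0` for `gk_genX`, from `RHx_leaf` -/
theorem rhX_half {h : ℝ → ℝ} {c₁ : ℝ} (hpu : PU h c₁) (N : ℕ) {c₀ m₀ μ M : ℝ} (hc₀ : 1 ≤ c₀)
    (hm₀ : 0 ≤ m₀) (hμ : 0 < μ) (hM : 0 ≤ M) :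
    ∃ a : ℕ, 1 ≤ a ∧ ∀ (ε s : ℝ), 0 < ε → 0 ≤ s →
    ∃ C r X₁ : ℝ, 1 ≤ C ∧ 0 ≤ r ∧ ∀ X : ℝ, 3 ≤ X → X₁ ≤ X → ∀ (P : DPar), P.OK →
    ¬ NPm P.n P.ψ P.l₂ 1 → (nm P.n : ℝ) ≤ X ^ c₀ →
    ∀ ps₀ : List Pq, ps₀.length ≤ N → (∀ q ∈ ps₀, Dq.len q ≤ c₀ * Real.log X) →
    ∀ (q : Eis) (ps : List Pf), q ≠ 0 → (nm q : ℝ) ≤ X ^ c₀ → SbL s ps ps₀ →
    ∀ d₀ s₀ : ℝ, 0 ≤ d₀ → 0 ≤ s₀ → Tw (d₀ * Real.log X) s₀ (X ^ c₀) ps →
    ∀ (z δ : ℝ), 0 ≤ δ → δ ≤ 1 → 3 * N * δ ≤ ε → ∀ Bd Im : ℝ, 1 ≤ Bd →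
    (∀ I : ℝ, 0 ≤ I → I ≤ Im → ∀ (t : Bool) (l : ℝ) (ps' : List Pq), 0 ≤ l → l ≤ I →
      List.Forall₂ (Chd Dq hcost r (C * X ^ (2 * c₀ + 2))) ps' (rbx d₀ t X ps₀) →
      LL Dq ps' ≤ LF ps + ε * Real.log X →
      RN P h l ps' ≤ Bd * cst hcost ps' (rbx d₀ t X ps₀) ^ M *
        Real.exp (I + min (LF ps / 4) (3 / 8 * I) + LL Dq ps' - (I - l) / 3)) →
    ∀ (Cw η : ℝ) (Aw J : ℕ), 0 ≤ Cw → 0 < η → η ≤ 1 → J + 2 ≤ Aw → (N : ℝ) ^ 2 * M ≤ J → 12 ≤ J →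
    ∀ (φ : ℝ → ℝ), WK Cw η Aw φ → ∀ (b : ℕ × ℕ), b.2 ≤ 2 → ∀ (t₀ A : ℝ), (J : ℝ) + 2 ≤ A →
    ∀ (cg κ y kq V E0 G F D : ℝ) (N₁ : ℕ) (hf : ℕ → ℝ → ℝ), 1 ≤ cg → 0 < κ → 10000 * y ≤ κ →
      Real.log 81 + Real.log cg + μ / 2 * Real.log X ≤ y → 2 * κ ≤ Im → Im ≤ c₀ * Real.log X →
      0 ≤ kq → 0 ≤ LF ps → 5 * LF ps ≤ 4 * κ + 6 * y → 3 * κ ≤ 4 * LF ps + 4 * y →
      5 * (V + LF ps) ≤ 7 * κ → (N₁ : ℝ) ≤ X ^ c₀ → 0 ≤ E0 → E0 ≤ X ^ c₀ →
      Real.log E0 ≤ 9 / 22 * F + 10 * y →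
      ((F = 0 ∧ 4 * LF ps - 3 * κ ≤ 0) ∨ 9 * F = 4 * LF ps - 3 * κ) →
      (∀ i ∈ LI (1 / 10) N₁, (i : ℝ) ≤ V + y) → 26 / 15 * κ ≤ G →
      kq / 3 + 7 / 10 * κ + 17 / 18 * LF ps ≤ G → 2 / 3 * kq + 13 / 9 * LF ps ≤ G →
      (∀ i ∈ LI (1 / 10) N₁, ∀ x, 0 ≤ x → Real.exp x ≤ D →
        hf i x ≤ 2 * kq + 13 / 3 * LF ps - 4 / 3 * x + 2 * y - 3 * G) →
      (∀ i ∈ LI (1 / 10) N₁, ∀ x, 0 ≤ x → hf i x ≤ 2 * y) →
      4 / 3 * (V + LF ps) + 2 * Real.log E0 ≤ s₀ + 26 / 15 * κ + 10 * y →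
    ∃ W0 : ℕ → Bool → Eis → Eis → ℝ → ℝ, (∀ i jj d f, Slp a (W0 i jj d f)) ∧
      (∀ i ∈ LI (1 / 10) N₁, ∀ jj, ∀ d ∈ (JW D (1 / 10) N₁).image Prod.fst, ∀ f ∈ S E0, ∀ γ π,
        IsPrim γ → IsPrim π → (nm π : ℝ) ≤ X ^ m₀ → ∀ Λ : ℝ, 0 < Λ →
        (nm γ : ℝ) * n6 γ ^ 2 * ∑ r ∈ (bl Λ).filter (Cls (PrU (w ^ b.1 * lam ^ b.2)) jj),
          RMm A (fun n => bt φ (xs q z (X ^ δ) P h (d₀ * Real.log X) ps) b (d * n) *
            pw t₀ (nm (d * n))) f γ π r ≤ W0 i jj d f Λ) ∧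
      (∀ i ∈ LI (1 / 10) N₁, ∀ d ∈ (JW D (1 / 10) N₁).image Prod.fst, ∀ f ∈ S E0,
        FH (Real.exp kq) (Real.exp (hf i (Real.log (nm d)))) (Real.exp i) *
          RN2XF cg (Real.exp kq) (Real.exp i) (Real.exp (LF ps))
            (fun d _ => Real.exp (hf i (Real.log (nm d)))) (W0 i) d f ≤
          ((3 + 2 * cg) * ((Cw ^ 2 * (η⁻¹) ^ J) * (C * X ^ (2 * ε) * (1 + |t₀|) ^ J) *
            ((Ht ps * Ht (natl ps₀)) ^ M * Bd + Ht ps ^ 6)) * Real.exp (G + 20 * y)) /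
            (nm d * nm f)) := by
  obtain ⟨a, ha, H⟩ := RHx_leaf hpu N hc₀ hm₀ hμ hM
  refine ⟨a, ha, fun ε s hε hs => ?_⟩
  obtain ⟨C, r, X₁, hC, hr, H⟩ := H ε s hε hs
  refine ⟨C, r, X₁, hC, hr, ?_⟩
  intro X hX3 hXX P hP hnp hPn ps₀ hlen hz₀ q ps hq hqX hS d₀ s₀ hd₀ hs₀ hT z δ hδ0 hδ1 hδε Bd Im
    hBd hline Cw η Aw J hCw hη hη1 hAJ hJ hJ12 φ hφ b hb t₀ A hA cg κ y kq V E0 G F D N₁ hf hcg hκ
    hyκ hy1 hIm hImX hkq hLF hm5 hm3 hVm hN₁ hE0 hE0X hlE hF hLI hG1 hG2 hG3 hh1 hh2 hcube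
  have hX0 : 0 < X := by linarith
  have hX1 : 1 ≤ X := by linarith
  have hlX : 0 ≤ Real.log X := Real.log_nonneg hX1
  have hl81 : 0 ≤ Real.log 81 := Real.log_nonneg (by norm_num)
  have hlcg : 0 ≤ Real.log cg := Real.log_nonneg hcg
  have hcg0 : 0 < cg := by linarith
  have hμX : 0 ≤ μ / 2 * Real.log X := by positivity
  have hy : 0 ≤ y := by linarith
  have hHt := one_le_Ht ps
  have hHt' := one_le_Ht (natl ps₀)
  have hHH : 0 ≤ Ht ps * Ht (natl ps₀) := by nlinarith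
  have hHH1 : 0 ≤ Ht ps := by linarith
  -- the parameters
  obtain ⟨Ia, hIa⟩ : ∃ Ia : ℕ → Eis → ℝ, ∀ i D, Ia i D = LF ps + i + hf i (Real.log (nm D)) - kq :=
    ⟨_, fun _ _ => rfl⟩
  obtain ⟨P1, hP1⟩ : ∃ P1 : ℕ → Eis → ℝ, ∀ i D, P1 i D = Real.exp (Real.log cg + Ia i D) :=
    ⟨_, fun _ _ => rfl⟩
  obtain ⟨I, hI⟩ : ∃ I : ℕ → Eis → ℝ, ∀ i D, I i D =
    max 0 (Real.log 81 + Real.log cg + μ / 2 * Real.log X + Ia i D) := ⟨_, fun _ _ => rfl⟩
  obtain ⟨TI, hTI⟩ : ∃ TI : ℕ → Eis → ℝ, ∀ i D, TI i D =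
    I i D + min (LF ps / 4) (3 / 8 * I i D) := ⟨_, fun _ _ => rfl⟩
  have hI0 : ∀ i D, 0 ≤ I i D := fun i D => by rw [hI]; exact le_max_left _ _
  have hTI0 : ∀ i D, 0 ≤ TI i D := fun i D => by
    rw [hTI]
    have h1 := hI0 i D
    have h2 : 0 ≤ min (LF ps / 4) (3 / 8 * I i D) := le_min (by positivity) (by positivity)
    linarith
  obtain ⟨k0, hk0⟩ : ∃ k0 : ℝ, k0 = (Cw ^ 2 * (η⁻¹) ^ J) * (C * X ^ (2 * ε) * (1 + |t₀|) ^ J) :=
    ⟨_, rfl⟩
  have hk00 : 0 ≤ k0 := by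
    rw [hk0]
    have : 0 ≤ X ^ (2 * ε) := Real.rpow_nonneg hX0.le _
    positivity
  obtain ⟨k1, hk1⟩ : ∃ k1 : ℝ, k1 = k0 * ((Ht ps * Ht (natl ps₀)) ^ M * Bd) := ⟨_, rfl⟩
  obtain ⟨k2, hk2⟩ : ∃ k2 : ℝ, k2 = k0 * Ht ps ^ 6 := ⟨_, rfl⟩
  have hk10 : 0 ≤ k1 := by
    rw [hk1]
    have : 0 ≤ (Ht ps * Ht (natl ps₀)) ^ M := Real.rpow_nonneg hHH _
    positivity
  have hk20 : 0 ≤ k2 := by rw [hk2]; positivity
  have hP10 : ∀ i D, 0 < P1 i D := fun i D => by rw [hP1]; exact Real.exp_pos _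
  have hnn : ∀ i D f jj, 0 ≤ nmx (k1 * Real.exp (TI i D)) k2 (P1 i D * X ^ (μ / 2)) s₀
      (Real.exp (LF ps)) D f jj := fun i D f jj =>
    nmx_nonneg s₀ (by positivity) hk20 (by have := hP10 i D; positivity) (Real.exp_pos _).le D f jj
  have hdm : ∀ d ∈ (JW D (1 / 10) N₁).image Prod.fst, IsPrim d ∧ (1 : ℝ) ≤ nm d ∧
      (nm d : ℝ) ≤ X ^ c₀ := by
    intro d hd
    obtain ⟨h1, -, h3, h4⟩ := ET490.JW_fst hd
    refine ⟨h1, h3, ?_⟩
    nlinarith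
  have hfm : ∀ f ∈ S E0, IsPrim f ∧ (1 : ℝ) ≤ nm f ∧ (nm f : ℝ) ≤ E0 := by
    intro f hf'
    obtain ⟨h1, h2, -⟩ := (mem_S hE0).1 hf'
    exact ⟨h2, by exact_mod_cast nm_pos.2 h2.ne_zero, h1⟩
  refine ⟨fun i jj D f => W2 a (P1 i D) (nmx (k1 * Real.exp (TI i D)) k2 (P1 i D * X ^ (μ / 2)) s₀
    (Real.exp (LF ps)) D f jj), fun i jj D f => slp_two ha (hP10 i D) (hnn i D f jj), ?_, ?_⟩
  · -- the moments
    intro i hi jj d hd f hf' γ π hγ hπ hπX Λ hΛ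
    obtain ⟨hd1, hd2, hd3⟩ := hdm d hd
    obtain ⟨hf1, hf2, hf3⟩ := hfm f hf'
    have hld : 0 ≤ Real.log (nm d) := Real.log_nonneg hd2
    have b1 := hLI i hi
    have b2 := hh2 i hi _ hld
    have hIaU : Ia i d ≤ 7 / 5 * κ + 3 * y := by rw [hIa]; linarith
    have hIU : I i d ≤ Im := by
      rw [hI]
      refine max_le (by linarith) ?_
      linarith
    have key := H X hX3 hXX P hP hnp hPn ps₀ hlen hz₀ q ps hq hqX hS d₀ s₀ hd₀ hs₀ hT z δ hδ0 hδ1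
      hδε Bd (LF ps + TI i d) (I i d) hBd (by have := hTI0 i d; linarith)
      (fun t l ps' h1 h2 h3 h4 => by
        have := hline (I i d) (hI0 i d) hIU t l ps' h1 h2 h3 h4
        rw [hTI]
        convert this using 3
        ring) Cw η Aw J hCw hη hη1 hAJ hJ hJ12 φ hφ b hb t₀ A hA d f hd1 hf1 hd3
      (hf3.trans hE0X) (P1 i d) (hP10 i d) (by
        rw [hP1, Real.rpow_def_of_pos hX0]
        refine Real.exp_le_exp.2 ?_
        linarith) (by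
        rw [hP1, hI, Real.rpow_def_of_pos hX0]
        have e81 : (81 : ℝ) = Real.exp (Real.log 81) := (Real.exp_log (by norm_num)).symm
        rw [e81, ← Real.exp_add, ← Real.exp_add, ← e81]
        refine Real.exp_le_exp.2 (le_trans (le_of_eq ?_) (le_max_right _ _))
        ring) jj γ π hγ hπ hπX Λ hΛ
    refine key.trans (le_of_eq ?_)
    have e1 : (Cw ^ 2 * (η⁻¹) ^ J) * (C * X ^ (2 * ε) * (1 + |t₀|) ^ J *
        ((Ht ps * Ht (natl ps₀)) ^ M * Bd * Real.exp (LF ps + TI i d - LF ps))) =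
        k1 * Real.exp (TI i d) := by
      rw [hk1, hk0, add_sub_cancel_left]
      ring
    have e2 : (Cw ^ 2 * (η⁻¹) ^ J) * (C * X ^ (2 * ε) * (1 + |t₀|) ^ J * Ht ps ^ 6) = k2 := by
      rw [hk2, hk0]
      ring
    rw [e1, e2]
  · -- the number
    intro i hi d hd f hf'
    obtain ⟨hd1, hd2, hd3⟩ := hdm d hd
    obtain ⟨hf1, hf2, hf3⟩ := hfm f hf'
    have nd0 : (0 : ℝ) < nm d := by linarith
    have nf0 : (0 : ℝ) < nm f := by linarith
    have hld : 0 ≤ Real.log (nm d) := Real.log_nonneg hd2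
    have hlf : Real.log (nm f) ≤ Real.log E0 := Real.log_le_log nf0 hf3
    have b1 := hLI i hi
    have b2 := hh2 i hi _ hld
    have b3 := hh1 i hi _ hld (by rw [Real.exp_log nd0]; exact JWd_le hd)
    obtain ⟨hv, hhv⟩ : ∃ x, x = hf i (Real.log (nm d)) := ⟨_, rfl⟩
    rw [← hhv] at b2 b3
    have hIav : Ia i d = LF ps + i + hv - kq := by rw [hIa, ← hhv]
    have eP1 : cg * (Real.exp (LF ps) * Real.exp i * Real.exp hv / Real.exp kq) = P1 i d := by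
      rw [hP1, hIav, Real.exp_add, Real.exp_log hcg0, Real.exp_sub, Real.exp_add, Real.exp_add]
    obtain ⟨Wf, hWf⟩ : ∃ Wf : Bool → Eis → Eis → ℝ → ℝ, Wf = fun jj D f => W2 a (P1 i D)
        (nmx (k1 * Real.exp (TI i D)) k2 (P1 i D * X ^ (μ / 2)) s₀ (Real.exp (LF ps)) D f jj) :=
      ⟨_, rfl⟩
    have hWv : ∀ jj, Wf jj d f (cg * (Real.exp (LF ps) * Real.exp i * Real.exp hv /
        Real.exp kq)) = nmx (k1 * Real.exp (TI i d)) k2 (P1 i d * X ^ (μ / 2)) s₀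
          (Real.exp (LF ps)) d f jj := by
      intro jj
      rw [hWf, eP1]
      exact W2_at a (hP10 i d) _
    have hWn : 0 ≤ Wf true d f (cg * (Real.exp (LF ps) * Real.exp i * Real.exp hv /
        Real.exp kq)) := by
      rw [hWv]
      exact hnn i d f true
    have n1 := rn_num hcg (q := kq) (i := (i : ℝ)) (m := LF ps) (h := hv) (k₁ := k1) (T := TI i d)
      (G := G + 20 * y) hk10 hd1.ne_zero hf1.ne_zero
      (Hf := fun d _ => Real.exp (hf i (Real.log (nm d))))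
      (W0 := Wf false) (by show Real.exp _ = _; rw [hhv]) (by
        rw [hWv]
        unfold RHX116.nmx
        rw [if_neg (by decide)]) (by
        intro hg
        have hII : I i d ≤ LF ps + i + hv - kq + y := by
          rw [hI, hIav]
          exact max_le (by linarith) (by linarith)
        have hmin : min (LF ps / 4) (3 / 8 * I i d) ≤ 3 / 8 * (LF ps + i + hv - kq + y) :=
          (min_le_right _ _).trans (by linarith)
        have g := gr_line hκ hy hyκ hkq hm5 hm3 hVm b1 hld (e := Real.log (nm f))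
          (hlf.trans hlE) hF b3 hG1 hG2 hG3 (min_le_left (LF ps / 4) (3 / 8 * I i d)) hmin
          (g2_cases _ _)
        rw [hTI]
        linarith)
    have hw2 : Wf true d f (cg * (Real.exp (LF ps) * Real.exp i * Real.exp hv / Real.exp kq)) ≤
        k2 * Real.exp (((LF ps + i + hv - kq) + (Real.log cg + μ / 2 * Real.log X)) / 3 +
          5 / 3 * (LF ps - Real.log (nm d)) - Real.log (nm f) +
          (Real.log (nm d) + Real.log (nm f) - s₀)) := by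
      rw [hWv]
      unfold RHX116.nmx
      rw [if_pos rfl]
      refine mul_le_mul_of_nonneg_left ?_ hk20
      have a1 : (P1 i d * X ^ (μ / 2)) ^ (1 / 3 : ℝ) =
          Real.exp (((LF ps + i + hv - kq) + (Real.log cg + μ / 2 * Real.log X)) / 3) := by
        rw [hP1, hIav, Real.rpow_def_of_pos hX0, ← Real.exp_add, ← Real.exp_mul]
        congr 1; ring
      have a2 : (Real.exp (LF ps) / nm d) ^ (5 / 3 : ℝ) =
          Real.exp (5 / 3 * (LF ps - Real.log (nm d))) := by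
        rw [show Real.exp (LF ps) / nm d = Real.exp (LF ps - Real.log (nm d)) by
          rw [Real.exp_sub, Real.exp_log nd0], ← Real.exp_mul]
        congr 1; ring
      have a3 : ((nm f : ℝ))⁻¹ = Real.exp (-Real.log (nm f)) := by
        rw [Real.exp_neg, Real.exp_log nf0]
      have a4 : (nm d : ℝ) * nm f * Real.exp (-s₀) =
          Real.exp (Real.log (nm d) + Real.log (nm f) - s₀) := by
        rw [Real.exp_sub, Real.exp_add, Real.exp_log nd0, Real.exp_log nf0, Real.exp_neg,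
          div_eq_mul_inv]
      have hPX : 0 ≤ (P1 i d * X ^ (μ / 2)) ^ (1 / 3 : ℝ) := by rw [a1]; exact (Real.exp_pos _).le
      calc (P1 i d * X ^ (μ / 2)) ^ (1 / 3 : ℝ) * ((Real.exp (LF ps) / nm d) ^ (5 / 3 : ℝ) *
            (nm f : ℝ)⁻¹ * min 1 ((nm d : ℝ) * nm f * Real.exp (-s₀))) ≤
          (P1 i d * X ^ (μ / 2)) ^ (1 / 3 : ℝ) * ((Real.exp (LF ps) / nm d) ^ (5 / 3 : ℝ) *
            (nm f : ℝ)⁻¹ * ((nm d : ℝ) * nm f * Real.exp (-s₀))) :=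
            mul_le_mul_of_nonneg_left (mul_le_mul_of_nonneg_left (min_le_right _ _)
              (by positivity)) hPX
        _ = _ := by
            rw [a1, a2, a3, a4, ← Real.exp_add, ← Real.exp_add, ← Real.exp_add]
            congr 1; ring
    have n2 := rn_cube hcg (q := kq) (i := (i : ℝ)) (m := LF ps) (h := hv) (k₂ := k2)
      (G := G + 20 * y) hk20 hd1.ne_zero hf1.ne_zero hWn hw2 (fun _ => by
        have g := cube_line (κ := κ) (q := kq) (m := LF ps) (V := V) (i := (i : ℝ))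
          (δ := Real.log (nm d)) (e := Real.log (nm f)) (h := hv) (G := G) (y := y)
          (y' := Real.log cg + μ / 2 * Real.log X) (s₀ := s₀) b1 b2 hy hG1 (by linarith)
          (by linarith)
        linarith)
    have fin : FH (Real.exp kq) (Real.exp (hf i (Real.log (nm d)))) (Real.exp i) *
        RN2XF cg (Real.exp kq) (Real.exp i) (Real.exp (LF ps))
          (fun d _ => Real.exp (hf i (Real.log (nm d)))) Wf d f ≤
        ((3 + 2 * cg) * ((Cw ^ 2 * (η⁻¹) ^ J) * (C * X ^ (2 * ε) * (1 + |t₀|) ^ J) *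
          ((Ht ps * Ht (natl ps₀)) ^ M * Bd + Ht ps ^ 6)) * Real.exp (G + 20 * y)) /
          (nm d * nm f) := by
      have split : FH (Real.exp kq) (Real.exp (hf i (Real.log (nm d)))) (Real.exp i) *
          RN2XF cg (Real.exp kq) (Real.exp i) (Real.exp (LF ps))
            (fun d _ => Real.exp (hf i (Real.log (nm d)))) Wf d f =
          FH (Real.exp kq) (Real.exp (hf i (Real.log (nm d)))) (Real.exp i) *
            RN2F cg (Real.exp kq) (Real.exp i) (Real.exp (LF ps))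
              (fun d _ => Real.exp (hf i (Real.log (nm d)))) (Wf false) d f +
          FH (Real.exp kq) (Real.exp hv) (Real.exp i) * ((nm d : ℝ) ^ (2 / 3 : ℝ) * nm f *
            ((if 1 ≤ Ld (Real.exp kq) (Real.exp i) (Real.exp hv) d then
              Mxd cg (Real.exp kq) (Real.exp i) (Real.exp hv) (Real.exp (LF ps)) d else 0) *
              Wf true d f (cg * (Real.exp (LF ps) * Real.exp i * Real.exp hv /
                Real.exp kq)))) := by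
        unfold E3Hi290.RN2XF E3Hf290.RN2F
        rw [hhv]
        beta_reduce
        ring
      refine (le_of_eq split).trans ((add_le_add n1 n2).trans ?_)
      rw [← add_div]
      have hnd : (0 : ℝ) ≤ nm d * nm f := by positivity
      refine div_le_div_of_nonneg_right ?_ hnd
      have e0 : (Cw ^ 2 * (η⁻¹) ^ J) * (C * X ^ (2 * ε) * (1 + |t₀|) ^ J) *
          ((Ht ps * Ht (natl ps₀)) ^ M * Bd + Ht ps ^ 6) = k1 + k2 := by
        rw [hk1, hk2, hk0]; ring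
      rw [e0]
      have p1 : 0 ≤ cg * k1 * Real.exp (G + 20 * y) := by positivity
      have p2 : 0 ≤ (3 + cg) * k2 * Real.exp (G + 20 * y) := by positivity
      nlinarith
    rw [hWf] at fin
    exact fin

end Crest.Agent.R017.NX848
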