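import Crest.Agent.R017.RoG_116
import Crest.Agent.R017.RHXf_116
import Crest.Agent.R017.RX5e_298
import Crest.Agent.R017.RLd_381
import Crest.Agent.R017.RGE2_545

/-!
# Row 17, T.7, (Ro) at the leaf, exceptional class (helper116)

* `nro_x` : `NRo` at the windowed differences
* `roX_leaf` : `RLeafXL π h (fun Λ => BeAll (NRo w Λ)) (LE π h c μ) K c b d₀ 20`
-/

set_option autoImplicit false
set_option linter.unusedVariables false

noncomputable section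

open Finset
open scoped Classical

namespace Crest.Agent.R017.RoX116

open Crest.Agent.R012 Crest.Agent.R012.Eis
open Crest.Agent.R012.MC (Wgt)
open Crest.Agent.R012.LS2 (S mem_S bl mem_bl)
open Crest.Agent.R012.Weight600 (pw)
open Crest.Agent.R012.T411 (NCube)
open Crest.Agent.R017.FE47 (PU)
open Crest.Agent.R017.B770
open Crest.Agent.R017.Prov71
open Crest.Agent.R017.Leg381
open Crest.Agent.R017.C70 (JC OKJ JW okJ_JW)
open Crest.Agent.R017.CM106 (CS FS)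
open Crest.Agent.R017.E1551 (Adm)
open Crest.Agent.R017.E3A164 (Ys Fy)
open Crest.Agent.R017.E3M829 (Sg Tal W0 exists_W0)
open Crest.Agent.R017.E3T1579 (T3)
open Crest.Agent.R017.E3T829 (RR)
open Crest.Agent.R017.E3Z548 (FH)
open Crest.Agent.R017.PX764 (n6)
open Crest.Agent.R017.PoHx72 (Cls)
open Crest.Agent.R017.R3571 (RMm W2 slp_two)
open Crest.Agent.R017.E3Kf548 (afR FS_afR TC_afR T3_afR_zero afR_sqf afR_win)
open Crest.Agent.R017.E3Kc548 (LI card_LI)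
open Crest.Agent.R017.LBo813 (Om)
open Crest.Agent.R017.I1146 (omr)
open Crest.Agent.R017.RGw813 (bt T9 adm_bt FS_of_S)
open Crest.Agent.R017.LBx48 (adm_mono)
open Crest.Agent.R017.Win813 (WK)
open Crest.Agent.R017.QsO83 (bw)
open Crest.Agent.R017.RHX116 (nmx nmx_nonneg RHx_leaf tw_leaf)
open Crest.Agent.R017.Sup271 (NPm)
open Crest.Agent.R017.XP699 (LL Chd hcost cst)
open Crest.Agent.R017.RG64 (SbL Ht one_le_Ht LBp RFacts)
open Crest.Agent.R017.RGB545 (Line Th TK LE rbx)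
open Crest.Agent.R017.RX298 (xs rp LF_rp rp_length XDp exists_XDp zt norm_zt)
open Crest.Agent.R017.RXk848 (LnP RLeafXL Lmp bX)
open Crest.Agent.R017.RLD381 (NRo BeAll omx hE E1E)

lemma omx_omq (N₀ N₁ : ℕ) (b e : Eis) : omx N₀ N₁ b e = omq N₀ N₁ b e := rfl

set_option maxHeartbeats 2000000 in
/-- **(Ro) at one windowed sequence** -/
theorem nro_x {w : ℝ → ℝ} {A' Bw : ℕ} {b₀ ε₁ Cc Cb cp : ℝ} {a Jn : ℕ} (hJn : 0 ≤ Jn)
    (hε₁ : 0 < ε₁) (hcp : 1 ≤ cp) (hCc : 0 ≤ Cc) (hCb : 0 ≤ Cb) (ha : 1 ≤ a)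
    (hcore : ∀ (c H Cp K K' X Y Z ZT E0 D : ℝ) (N₀ N₁ : ℕ), 1 ≤ c → 1 ≤ H → 0 ≤ Cp →
      0 < K' → K' ≤ K → 0 < X → 0 ≤ Y → 1 ≤ E0 → 1 ≤ N₁ → E0 ^ 2 ≤ Z →
      c * (Real.exp 1 * (Real.exp 1 * N₁)) ≤ ZT → ZT ≤ Z →
      c * H ^ 2 * (Real.exp 1 * N₁) ^ 3 * (E0 ^ 14) ^ 4 * (E0 ^ 2) ^ 4 ≤ K' ^ 2 →
      ∀ α : Eis → ℂ, Adm Y X 1 α → ∀ (b e : Eis) (RN : ℕ → ℝ), (∀ i, 0 ≤ RN i) →
      PairB Cp c H A' Bw K' (E0 ^ 2) (E0 ^ 14) E0 b₀ Z N₁ (JW D (1 / 10) N₁) (omr (Om N₀ N₁))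
        (afR b e α E0) RN →
      Sg w K' (E0 ^ 2) N₁ (E0 ^ 14) (fun q t k₁ => ‖∑ y ∈ Ys (JW D (1 / 10) N₁) E0 N₁,
          Fy (JW D (1 / 10) N₁) (omq N₀ N₁ b e) (Tal α) q t k₁ y‖ ^ 2) ≤
        Sg w K' (E0 ^ 2) N₁ (E0 ^ 14) (fun q t k₁ =>
          E3M829.Dg (JW D (1 / 10) N₁) (omq N₀ N₁ b e) (Tal α) E0 N₁ q t k₁) +
        Cc * (1 + Cp) * (Z ^ ε₁) ^ 3 * (c ^ (1 / 3 : ℝ) * H ^ (-(1 / 3) : ℝ) * E0 ^ 3 *
          ((K / X) * LBx48.EHf ((Jn + 2 : ℕ) : ℝ) K X Y ZT α) +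
          E0 * ∑ i ∈ LI (1 / 10) N₁, FH K' H (Real.exp i) * RN i))
    (hpair : ∀ (Z : ℝ), 1 ≤ Z → ∀ (D : ℝ) (N₀ N₁ : ℕ) (af : Eis → Eis → Eis → ℂ)
      (E0 E1 B K X H : ℝ) (u : Eis) (W0 : Bool → Eis → Eis → ℝ → ℝ), u ≠ 0 →
      (∀ p, IsPrim p → IsCoprime u p) →
      0 ≤ D → 1 ≤ N₀ → 2 * N₀ ≤ N₁ → E3M829.TC (T3 af) → (∀ d e, FS (af d e)) →
      (∀ d e, e ∉ S E0 → ∀ j, T3 af d e j = 0) → 0 < K → K ≤ Z ^ 5 → (N₁ : ℝ) ≤ Z → 0 ≤ B →
      B ≤ Z → 0 ≤ E1 → E1 ≤ Z → 0 < X → X ≤ Z ^ 5 → 0 < H → cp * (Real.exp 1 * N₁) ≤ Z ^ 5 →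
      cp * (H * (Real.exp 1 * N₁) ^ 2) ≤ K * X →
      (∀ ρ ∈ RR (JW D (1 / 10) N₁) (S E0), ∀ n, af ρ.1 ρ.2 n ≠ 0 → Squarefree n) →
      (∀ ρ ∈ RR (JW D (1 / 10) N₁) (S E0), ∀ n, af ρ.1 ρ.2 n ≠ 0 →
        |Real.log (nm ρ.1 * nm n) - Real.log X| ≤ 1) →
      (∀ jj d e, Mode405.Slp a (W0 jj d e)) →
      RHRz (cp * Z ^ 300) (Jn + 2) (RR (JW D (1 / 10) N₁) (S E0)) af u W0 →
      PairB (Cb * Z ^ ε₁) cp H A' Bw K B E1 E0 b₀ Z N₁ (JW D (1 / 10) N₁) (omr (Om N₀ N₁)) af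
        (fun i => RNX2 cp K (Real.exp i) H X W0 ((JW D (1 / 10) N₁).image Prod.fst) (S E0)))
    {γ κ κ' v n x R μl L z₀ X' Y s₀ T m k₁ k₂ y b' : ℝ} {N₀ N₁ : ℕ} {be : Eis → ℂ} {u b e : Eis}
    (hγ : 0 ≤ γ) (hk1 : κ - 7 * γ ≤ κ') (hk2 : κ' ≤ κ) (hv0 : 0 ≤ v)
    (hv3 : 3 * v + 200 * γ ≤ 2 * κ) (hvn : v ≤ 2 * n + 20 * γ) (hn0 : 0 ≤ n) (hnκ : n ≤ κ)
    (hκ : 2000 * γ ≤ κ) (hR : 0 ≤ R) (hμ : 1000 * γ ≤ μl)
    (hx1 : n - R - 1 ≤ x) (hx2 : x ≤ n + R + 1) (hX' : X' = Real.exp x)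
    (h0 : Real.exp v ≤ N₀) (h01 : 2 * N₀ ≤ N₁) (h1 : 9 * (N₁ : ℝ) ≤ Real.exp (v + 4))
    (hz : κ + 14 * γ ≤ z₀ * L) (hzε : z₀ * L * ε₁ ≤ γ / 12)
    (hb : Real.log cp + R + 20 ≤ γ) (hbC : Cc * (1 + Cb) * cp ^ (1 / 3 : ℝ) ≤
      Real.exp γ ^ (1 / 6 : ℝ)) (hY : 0 ≤ Y) (hu : u ≠ 0) (hup : ∀ p, IsPrim p → IsCoprime u p)
    (hbe : Adm Y X' 1 be) (hbF : FS be)
    (hT : TC T n v κ m μl) (hk₁ : 0 ≤ k₁) (hk₂ : 0 ≤ k₂)
    (hbb : y * γ + (v + n - κ) / 3 - s₀ ≤ b') (hy : 20 ≤ y)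
    (hRH : ∀ d e : Eis, IsPrim d → IsPrim e → (nm d : ℝ) ≤ Real.exp γ →
      (nm e : ℝ) ≤ Real.exp γ → ∀ jj : Bool, ∀ γ' π : Eis, IsPrim γ' → IsPrim π →
      (nm π : ℝ) ≤ cp * Real.exp (z₀ * L) ^ 300 → ∀ P : ℝ, 0 < P →
      (nm γ' : ℝ) * n6 γ' ^ 2 * ∑ r ∈ (bl P).filter (Cls (ROX744.PrU u) jj),
        RMm ((Jn + 2 : ℕ) : ℝ) (fun k => be (d * k)) e γ' π r ≤
      W2 a (cp * (X' * (Real.exp 1 * N₁) * Real.exp (20 * γ) / Real.exp κ'))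
        (nmx (k₁ * Real.exp (T - n)) k₂
          (cp * (X' * (Real.exp 1 * N₁) * Real.exp (20 * γ) / Real.exp κ') * Real.exp γ)
          s₀ (Real.exp n) d e jj) P) :
    Sg w (Real.exp κ') (Real.exp γ ^ 2) N₁ (Real.exp γ ^ 14) (fun q t k₁ =>
        ‖∑ y ∈ Ys (JW (Real.exp γ) (1 / 10) N₁) (Real.exp γ) N₁,
          Fy (JW (Real.exp γ) (1 / 10) N₁) (omq N₀ N₁ b e) (Tal be) q t k₁ y‖ ^ 2) ≤
      Sg w (Real.exp κ') (Real.exp γ ^ 2) N₁ (Real.exp γ ^ 14) (fun q t k₁ =>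
        E3M829.Dg (JW (Real.exp γ) (1 / 10) N₁) (omq N₀ N₁ b e) (Tal be) (Real.exp γ) N₁ q t k₁) +
      (Real.exp γ ^ 3)⁻¹ * ((Real.exp κ / X') *
        LBx48.EHf ((Jn + 2 : ℕ) : ℝ) (Real.exp κ) X' Y (cp * (Real.exp 1 * Real.exp 1) * N₁) be +
        Cc * (1 + Cb) * (2 + 1 / ε₁) * (((3 + cp + cp * cp ^ (1 / 3 : ℝ)) *
          Real.exp (11 * (R + 6))) * ((Real.exp κ / Real.exp n) * ((k₁ + k₂ * Real.exp b') *
            Real.exp (2 * n))))) := by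
  obtain ⟨hN0, hNv, hN5, hN4⟩ := logN h0 h01 h1
  have hcp0 : 0 < cp := by linarith
  have hE0 : (1 : ℝ) ≤ Real.exp γ := Real.one_le_exp hγ
  have hE00 : 0 < Real.exp γ := Real.exp_pos γ
  have hlcp : 0 ≤ Real.log cp := Real.log_nonneg hcp
  have hX'0 : 0 < X' := by rw [hX']; exact Real.exp_pos _
  have hv1 : (1 : ℝ) ≤ Real.exp v := Real.one_le_exp hv0
  have hN01 : (1 : ℝ) ≤ N₀ := hv1.trans h0
  have hN0n : 1 ≤ N₀ := by exact_mod_cast hN01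
  have hN1n : 1 ≤ N₁ := by omega
  -- the exponents of `Z`
  obtain ⟨Z, hZ⟩ : ∃ Z, Z = Real.exp (z₀ * L) := ⟨_, rfl⟩
  rw [← hZ] at hRH
  have hκ0 : 0 ≤ κ := by linarith
  have hZ1 : 1 ≤ Z := by rw [hZ]; exact Real.one_le_exp (by linarith)
  have hZ5 : Real.exp (κ + 14 * γ) ≤ Z := by rw [hZ]; exact Real.exp_le_exp.2 hz
  have hZZ : Z ≤ Z ^ 5 := le_self_pow₀ hZ1 (by norm_num)
  have hZT : cp * (Real.exp 1 * (Real.exp 1 * N₁)) ≤ cp * (Real.exp 1 * Real.exp 1) * N₁ := by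
    rw [mul_assoc, mul_assoc]
  have hcpe : cp = Real.exp (Real.log cp) := (Real.exp_log hcp0).symm
  have hZTZ : cp * (Real.exp 1 * Real.exp 1) * (N₁ : ℝ) ≤ Z := by
    refine le_trans ?_ hZ5
    calc cp * (Real.exp 1 * Real.exp 1) * (N₁ : ℝ)
        ≤ Real.exp (Real.log cp) * (Real.exp 1 * Real.exp 1) * Real.exp (v + 4) := by
          rw [← hcpe]; gcongr
      _ = Real.exp (Real.log cp + v + 6) := by
          rw [← Real.exp_add, ← Real.exp_add, ← Real.exp_add]; congr 1; ring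
      _ ≤ _ := Real.exp_le_exp.2 (by linarith)
  have hN1Z : (N₁ : ℝ) ≤ Z := by
    refine le_trans ?_ hZTZ
    have : (1 : ℝ) ≤ cp * (Real.exp 1 * Real.exp 1) :=
      one_le_mul_of_one_le_of_one_le hcp (one_le_mul_of_one_le_of_one_le
        (Real.one_le_exp zero_le_one) (Real.one_le_exp zero_le_one))
    exact le_mul_of_one_le_left (Nat.cast_nonneg _) this
  have hcN : cp * (Real.exp 1 * (N₁ : ℝ)) ≤ Z ^ 5 := by
    refine le_trans ?_ (hZTZ.trans hZZ)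
    have e1 : (1 : ℝ) ≤ Real.exp 1 := Real.one_le_exp zero_le_one
    have : cp * (Real.exp 1 * (N₁ : ℝ)) * 1 ≤ cp * (Real.exp 1 * (N₁ : ℝ)) * Real.exp 1 :=
      mul_le_mul_of_nonneg_left e1 (by positivity)
    linarith
  have hE14 : Real.exp γ ^ 14 ≤ Z := by
    refine le_trans ?_ hZ5
    rw [← Real.exp_nat_mul]
    exact Real.exp_le_exp.2 (by push_cast; linarith)
  have hE2 : Real.exp γ ^ 2 ≤ Z := by
    refine le_trans ?_ hZ5
    rw [← Real.exp_nat_mul]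
    exact Real.exp_le_exp.2 (by push_cast; linarith)
  have hK'Z : Real.exp κ' ≤ Z ^ 5 := by
    refine le_trans ?_ hZZ
    exact (Real.exp_le_exp.2 (by linarith)).trans hZ5
  have hXZ : X' ≤ Z ^ 5 := by
    refine le_trans ?_ hZZ
    rw [hX']
    exact (Real.exp_le_exp.2 (by linarith)).trans hZ5
  have hmul : cp * (Real.exp (20 * γ) * (Real.exp 1 * (N₁ : ℝ)) ^ 2) ≤ Real.exp κ' * X' := by
    rw [hX']
    exact num_mul hcp0 hγ hN0.le hN5 hk1 hv3 hvn hx1 hb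
  have hnum := num_core hcp0 hγ hN0.le hN5 hk1 hv3 (by linarith)
  -- the test functions
  obtain ⟨P1, hP1⟩ : ∃ P1, P1 = cp * (X' * (Real.exp 1 * (N₁ : ℝ)) * Real.exp (20 * γ) /
    Real.exp κ') := ⟨_, rfl⟩
  have hP10 : 0 < P1 := by rw [hP1]; positivity
  rw [← hP1] at hRH
  obtain ⟨K1, hK1⟩ : ∃ K1, K1 = k₁ * Real.exp (T - n) := ⟨_, rfl⟩
  have hK10 : 0 ≤ K1 := by rw [hK1]; positivity
  rw [← hK1] at hRH
  have hnm : ∀ d e jj, 0 ≤ nmx K1 k₂ (P1 * Real.exp γ) s₀ (Real.exp n) d e jj :=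
    fun d e jj => nmx_nonneg s₀ hK10 hk₂ (by positivity) (Real.exp_pos _).le d e jj
  have hslp : ∀ jj d e, Mode405.Slp a
      (W2 a P1 (nmx K1 k₂ (P1 * Real.exp γ) s₀ (Real.exp n) d e jj)) :=
    fun jj d e => slp_two ha hP10 (hnm d e jj)
  have hS : ∀ k, be k ≠ 0 → IsPrim k ∧ Squarefree k := fun k hk =>
    ((mem_S hY).1 (hbe.sup k hk)).2
  have hRZ : RHRz (cp * Z ^ 300) (Jn + 2) (RR (JW (Real.exp γ) (1 / 10) N₁) (S (Real.exp γ)))
      (afR b e be (Real.exp γ)) u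
      (fun jj d e => W2 a P1 (nmx K1 k₂ (P1 * Real.exp γ) s₀ (Real.exp n) d e jj)) :=
    rhrz_of hE00.le hE00.le (fun k hk => (hS k hk).1)
      (fun jj d e P hP => (hslp jj d e).nonneg P hP) hRH
  have hpb := hpair Z hZ1 (Real.exp γ) N₀ N₁ (afR b e be (Real.exp γ)) (Real.exp γ)
    (Real.exp γ ^ 14) (Real.exp γ ^ 2) (Real.exp κ') X' (Real.exp (20 * γ)) u
    (fun jj d e => W2 a P1 (nmx K1 k₂ (P1 * Real.exp γ) s₀ (Real.exp n) d e jj)) hu hup hE00.le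
    hN0n h01 (TC_afR fun k hk => (hS k hk).2) (FS_afR hbF)
    (fun d e' he' j => T3_afR_zero he' d j) (Real.exp_pos _) hK'Z hN1Z (by positivity) hE2
    (by positivity) hE14 hX'0 hXZ (Real.exp_pos _) hcN hmul
    (fun ρ _ k hk => afR_sqf (fun k hk => (hS k hk).2) hk)
    (fun ρ _ k hk => (afR_win (R0 := 1 / 2) (fun k hk => hbe.win k hk) hk).trans (by norm_num))
    hslp hRZ
  have hRN : ∀ i : ℕ, 0 ≤ RNX2 cp (Real.exp κ') (Real.exp i) (Real.exp (20 * γ)) X'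
      (fun jj d e => W2 a P1 (nmx K1 k₂ (P1 * Real.exp γ) s₀ (Real.exp n) d e jj))
      ((JW (Real.exp γ) (1 / 10) N₁).image Prod.fst) (S (Real.exp γ)) := by
    intro i
    have hV := Real.exp_pos (i : ℝ)
    have hI : 0 < X' * Real.exp i * Real.exp (20 * γ) / Real.exp κ' := by positivity
    unfold RNX2
    refine add_nonneg (Rsx72.RN2_nonneg (fun d => E3Sz579.Ld_nonneg (Real.exp_pos _)
      (Real.exp_pos _) d) (fun d => E3Sz579.Md_nonneg hcp0.le (Real.exp_pos _) hV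
      (Real.exp_pos _) hX'0 d) hI.le (fun d e => ?_) _ _)
      (Rsx72.RNp_nonneg (fun d => E3Sx744.Mxd_nonneg hcp0.le (Real.exp_pos _) hV
      (Real.exp_pos _) hX'0 d) (fun d e => ?_) _ _)
    · exact (hslp false d e).nonneg _ (by positivity)
    · exact (hslp true d e).nonneg _ (by positivity)
  have h3 := hcore cp (Real.exp (20 * γ)) (Cb * Z ^ ε₁) (Real.exp κ) (Real.exp κ') X' Y Z
    (cp * (Real.exp 1 * Real.exp 1) * N₁) (Real.exp γ) (Real.exp γ) N₀ N₁ hcp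
    (Real.one_le_exp (by linarith)) (by positivity) (Real.exp_pos _) (Real.exp_le_exp.2 hk2) hX'0
    hY hE0 hN1n hE2 hZT hZTZ hnum be hbe b e _ hRN hpb
  refine h3.trans (add_le_add le_rfl ?_)
  -- the numbers
  obtain ⟨T0, hT0⟩ : ∃ T0, T0 = (Real.exp κ / X') * LBx48.EHf ((Jn + 2 : ℕ) : ℝ) (Real.exp κ) X' Y
    (cp * (Real.exp 1 * Real.exp 1) * N₁) be := ⟨_, rfl⟩
  have hT00 : 0 ≤ T0 := by
    rw [hT0]
    have := LBx48.EHc_nonneg (c := fun n => ((n : ℝ))⁻¹) (fun n => by positivity)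
      (fun _ => True) (A := ((Jn + 2 : ℕ) : ℝ)) (K := Real.exp κ) (X := X') (Y := Y)
      (Z := cp * (Real.exp 1 * Real.exp 1) * N₁) (Real.exp_pos _).le hX'0.le be
    exact mul_nonneg (by positivity) this
  rw [← hT0]
  obtain ⟨P, hP⟩ : ∃ P, P = Z ^ ε₁ := ⟨_, rfl⟩
  rw [← hP]
  have hPe : P = Real.exp (z₀ * L * ε₁) := by rw [hP, hZ, ← Real.exp_mul]
  have hP1' : 1 ≤ P := by rw [hP]; exact Real.one_le_rpow hZ1 hε₁.le
  have hP12 : P ≤ Real.exp γ ^ (1 / 12 : ℝ) := by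
    rw [hPe, ← Real.exp_mul]
    exact Real.exp_le_exp.2 (by linarith)
  have hH20 : Real.exp (20 * γ) = Real.exp γ ^ 20 := by
    rw [← Real.exp_nat_mul]; congr 1
  have hTf := T_fin (q := cp ^ (1 / 3 : ℝ)) hCc hCb hP1' hE0 (by positivity) hbC hP12
  -- the top level
  obtain ⟨SEv, hSEv⟩ : ∃ s, s = SE ((JW (Real.exp γ) (1 / 10) (N₁ : ℝ)).image Prod.fst)
    (S (Real.exp γ)) := ⟨_, rfl⟩
  have hSE0 : 0 ≤ SEv := by rw [hSEv]; exact SE_nonneg _ _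
  have hSEl : SEv ≤ 256 * Real.exp γ ^ 3 := by
    rw [hSEv]; exact SE_le hE0 fun d hd => fst_S hE00.le hd
  obtain ⟨TP, hTP⟩ : ∃ TP, TP = TPn (Real.exp κ') (Real.exp (20 * γ)) (Real.exp 1 * N₁) X' cp K1
    (Real.exp n) + TPp (Real.exp κ') (Real.exp (20 * γ)) (Real.exp 1 * N₁) X' cp k₂
      (P1 * Real.exp γ) (Real.exp n) s₀ := ⟨_, rfl⟩
  have hTP0 : 0 ≤ TP := by
    rw [hTP]
    exact add_nonneg (TPn_nonneg (Real.exp_pos _) (Real.exp_pos _) hN0 hX'0 hcp0.le hK10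
      (Real.exp_pos _).le) (TPp_nonneg (Real.exp_pos _) (Real.exp_pos _) hN0 hX'0 hcp0.le hk₂
      (by positivity) (Real.exp_pos _).le)
  have hnm1 : ∀ d : Eis, d ∈ S (Real.exp γ) → (1 : ℝ) ≤ nm d := fun d hd => by
    exact_mod_cast nm_pos.mpr ((mem_S hE00.le).1 hd).2.1.ne_zero
  have hsum := sum_x (K := Real.exp κ') (H := Real.exp (20 * γ)) (X := X') (c := cp) (K1 := K1)
    (K2 := k₂) (P2 := P1 * Real.exp γ) (E := Real.exp n) (s₀ := s₀) (a := a)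
    (Ds := (JW (Real.exp γ) (1 / 10) (N₁ : ℝ)).image Prod.fst) (EE := S (Real.exp γ)) (N₁ := N₁)
    (Real.exp_pos _) (Real.exp_pos _) hX'0 hcp0 hK10 hk₂ (by positivity) (Real.exp_pos _).le
    (fun d hd => hnm1 d (fst_S hE00.le hd)) hnm1
  rw [← hP1, ← hTP, ← hSEv] at hsum
  have htop := top_x (K' := Real.exp κ') (H := Real.exp (20 * γ)) (V := Real.exp 1 * N₁)
    (X := X') (c := cp) (κ := κ) (γ := γ) (n := n) (v := v) (T := T) (m := m) (μl := μl)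
    (C₀ := R + 6) (k₁ := k₁) (k₂ := k₂) (SEv := SEv) (s₀ := s₀) (μ' := 2 * γ) (y := y) (b := b')
    (Real.exp_pos _) rfl hN0 hX'0 hcp0 hT hγ hμ hκ (by rw [Real.log_exp]; linarith)
    (by rw [Real.log_exp]; exact hk2) hn0 (by linarith) (by linarith) hNv
    (by
      have := Real.log_le_log hN0 hN5
      rw [Real.log_exp] at this
      linarith)
    (by rw [hX', Real.log_exp]; linarith) hk₁ hk₂ hSEl hSE0 hbb (by linarith)
    (by nlinarith)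
  have e2γ : Real.exp (2 * γ / 2) = Real.exp γ := by congr 1; ring
  rw [e2γ, ← hP1, ← hK1, ← hTP] at htop
  have hl : ((LI (1 / 10) (N₁ : ℝ)).card : ℝ) ≤ (2 + 1 / ε₁) * P := by
    rw [hP]; exact card_LI (1 / 10) hZ1 (Nat.cast_nonneg _) hN1Z hε₁
  have hRf := R_fin (TOP := TP * SEv) (r := 2 + 1 / ε₁) hCc hCb hP1' hE0 hP12 hl (by positivity)
    (by positivity) hsum (Nat.cast_nonneg _)
  have hE3 : 0 ≤ (Real.exp γ ^ 3)⁻¹ := by positivity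
  have hCr : 0 ≤ Cc * (1 + Cb) * (2 + 1 / ε₁) := by positivity
  have hRf2 := hRf.trans (mul_le_mul_of_nonneg_left (mul_le_mul_of_nonneg_left htop hCr) hE3)
  rw [← hH20] at hTf
  have hTf2 := mul_le_mul_of_nonneg_right hTf hT00
  refine le_trans (le_of_eq ?_) ((add_le_add hTf2 hRf2).trans (le_of_eq ?_))
  · ring
  · ring

/-- the scaled loss of line (r3) -/
lemma loss_scale {K v n L : ℝ} (hL : 0 < L) :
    max 0 (max ((2 * (v / L) - K) / 3) ((3 * (v / L) - n / L - K) / 2)) * L =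
      max 0 (max ((2 * v - K * L) / 3) ((3 * v - K * L - n) / 2)) := by
  rw [max_mul_of_nonneg _ _ hL.le, max_mul_of_nonneg _ _ hL.le, zero_mul]
  congr 2 <;> field_simp <;> ring

/-- **line (r3) as the premise of (RH)** -/
theorem ln_r3 {Lam : Type*} {π : Lam → DPar} {h : ℝ → ℝ} {c μ K ε ε₂ M r r' bm bm' X n v Bd T : ℝ}
    {lam : Lam} {base : List Pq} (hX : 3 ≤ X) (hK : 0 ≤ K) (hr : r ≤ r') (hbm : bm ≤ bm')
    (hε : 0 ≤ ε) (hε₂ : ε₂ ≤ ε) (hBd : 0 ≤ Bd)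
    (hTK : v + n - K * Real.log X + μ * Real.log X ≤ TK K * Real.log X)
    (hT : 0 ≤ v + n - K * Real.log X + μ * Real.log X → 4 / 3 * n + (v + K * Real.log X) / 3 -
      max 0 (max ((2 * v - K * Real.log X) / 3) ((3 * v - K * Real.log X - n) / 2)) -
        μ * Real.log X ≤ T)
    (H : LnP (LE π h c μ) lam K ε M r' bm' X (n / Real.log X) (v / Real.log X) Bd base)
    (l : ℝ) (ps' : List Pq) (hl0 : 0 ≤ l)
    (hl : l ≤ v + n - K * Real.log X + μ * Real.log X)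
    (hch : List.Forall₂ (Chd Dq hcost r bm) ps' base)
    (hLL : LL Dq ps' ≤ n + ε₂ * Real.log X) :
    XPX241.RN (π lam) h l ps' ≤ Bd * cst hcost ps' base ^ M *
      Real.exp (T - n + LL Dq ps' - (v + n - K * Real.log X + μ * Real.log X - l) / 3) := by
  have hX0 : 0 < X := by linarith
  have hL : 0 < Real.log X := Real.log_pos (by linarith)
  obtain ⟨L, hLd⟩ : ∃ L, L = Real.log X := ⟨_, rfl⟩
  have hTK0 : 0 ≤ TK K := by unfold RGB545.TK; positivity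
  have h1 := H .r3 ⟨0, ⟨le_rfl, fun _ => hTK0⟩⟩ l ps' hl0 (hl.trans hTK)
    (RlB791.chdL_mono hr hbm hch)
    (by
      rw [add_mul, div_mul_cancel₀ _ hL.ne']
      have : ε₂ * Real.log X ≤ ε * Real.log X := mul_le_mul_of_nonneg_right hε₂ hL.le
      linarith)
    (by
      show l / Real.log X - (v / Real.log X + n / Real.log X - K + μ) ≤ ε
      have h2 : l / Real.log X ≤ v / Real.log X + n / Real.log X - K + μ := by
        rw [div_le_iff₀ hL]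
        have : (v / Real.log X + n / Real.log X - K + μ) * Real.log X =
            v + n - K * Real.log X + μ * Real.log X := by field_simp
        rw [this]; exact hl
      linarith)
    (fun hz => hz.elim)
  have h2 : XPX241.RN (π lam) h l ps' ≤ Bd * cst hcost ps' base ^ M *
      X ^ (4 / 3 * (n / Real.log X) + (v / Real.log X + K) / 3 +
        -((n / Real.log X - LL Dq ps' / Real.log X) +
          max 0 (max ((2 * (v / Real.log X) - K) / 3)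
            ((3 * (v / Real.log X) - n / Real.log X - K) / 2)) + μ +
          ((v / Real.log X + n / Real.log X - K + μ) - l / Real.log X) / 3)) := h1
  refine h2.trans (mul_le_mul_of_nonneg_left ?_ ?_)
  · rw [Real.rpow_def_of_pos hX0]
    refine Real.exp_le_exp.2 ?_
    have h3 := loss_scale (K := K) (v := v) (n := n) hL
    have h4 := hT (hl0.trans hl)
    rw [← h3] at h4
    obtain ⟨m, hm⟩ : ∃ m, m = max 0 (max ((2 * (v / Real.log X) - K) / 3)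
      ((3 * (v / Real.log X) - n / Real.log X - K) / 2)) := ⟨_, rfl⟩
    rw [← hm] at h4 ⊢
    have e1 : Real.log X * (4 / 3 * (n / Real.log X) + (v / Real.log X + K) / 3 +
        -((n / Real.log X - LL Dq ps' / Real.log X) + m + μ +
          ((v / Real.log X + n / Real.log X - K + μ) - l / Real.log X) / 3)) =
        (4 / 3 * n + (v + K * Real.log X) / 3 - m * Real.log X - μ * Real.log X) - n +
          LL Dq ps' - (v + n - K * Real.log X + μ * Real.log X - l) / 3 := by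
      field_simp
      ring
    rw [e1]
    linarith
  · have := RlB791.one_le_cst ps' base
    positivity

end Crest.Agent.R017.RoX116
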