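import Crest.Agent.R017.NGl_708
import Crest.Agent.R017.RoX_116

/-!
# Row 17, FlatNE, NumGk class E (helper110): the line of the Gram number as the premise of (RH)

* `ln_gk` : `LnP (LEk π h dGk)` gives the premise of helper116's `RHx_leaf` at the level `I`, with
  the target `T = n + I + min (n / 4) (3 / 8 I)`
-/

set_option autoImplicit false
set_option maxHeartbeats 800000

noncomputable section

open scoped Classical

namespace Crest.Agent.R017.NGy110

open Crest.Agent.R012 Crest.Agent.R012.Eis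
open Crest.Agent.R017.FE47
open Crest.Agent.R017.B770
open Crest.Agent.R017.Prov71 hiding tl
open Crest.Agent.R017.XP699 (LL Chd hcost cst)
open Crest.Agent.R017.RGB545 (Line TK Th LEk dGk)
open Crest.Agent.R017.RXk848 (LnP)

/-- **the line of the Gram number as the premise of (RH)** -/
theorem ln_gk {Lam : Type*} {π : Lam → DPar} {h : ℝ → ℝ} {K ε ε₂ M r r' bm bm' X n v Bd I : ℝ}
    {lam : Lam} {base : List Pq} (hX : 3 ≤ X) (hr : r ≤ r') (hbm : bm ≤ bm')
    (hε : 0 ≤ ε) (hε₂ : ε₂ ≤ ε) (hBd : 0 ≤ Bd) (hK : 0 ≤ K)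
    (hI0 : 0 ≤ I) (hTK : I ≤ TK K * Real.log X)
    (H : LnP (LEk π h dGk) lam K ε M r' bm' X (n / Real.log X) (v / Real.log X) Bd base)
    (l : ℝ) (ps' : List Pq) (hl0 : 0 ≤ l) (hl : l ≤ I)
    (hch : List.Forall₂ (Chd Dq hcost r bm) ps' base)
    (hLL : LL Dq ps' ≤ n + ε₂ * Real.log X) :
    XPX241.RN (π lam) h l ps' ≤ Bd * cst hcost ps' base ^ M *
      Real.exp ((n + I + min (n / 4) (3 / 8 * I)) - n + LL Dq ps' - (I - l) / 3) := by
  have hX0 : 0 < X := by linarith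
  have hL : 0 < Real.log X := Real.log_pos (by linarith)
  have hTK0 : 0 ≤ TK K := by unfold RGB545.TK; positivity
  have hIL0 : 0 ≤ I / Real.log X := div_nonneg hI0 hL.le
  have hIL : I / Real.log X ≤ TK K := by rw [div_le_iff₀ hL]; exact hTK
  have h1 := H () ⟨fun _ => I / Real.log X, ⟨fun _ => hIL0, fun _ => hIL⟩⟩ l ps' hl0
    (hl.trans hTK)
    (RlB791.chdL_mono hr hbm hch)
    (by
      rw [add_mul, div_mul_cancel₀ _ hL.ne']
      have : ε₂ * Real.log X ≤ ε * Real.log X := mul_le_mul_of_nonneg_right hε₂ hL.le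
      linarith)
    (by
      show l / Real.log X - I / Real.log X ≤ ε
      have h2 : l / Real.log X ≤ I / Real.log X := by gcongr
      linarith)
    (fun hz => hz.elim)
  have h2 : XPX241.RN (π lam) h l ps' ≤ Bd * cst hcost ps' base ^ M *
      X ^ (4 / 3 * (n / Real.log X) + (v / Real.log X + K) / 3 +
        (I / Real.log X + min (n / Real.log X / 4) (3 / 8 * (I / Real.log X)) +
          LL Dq ps' / Real.log X - (I / Real.log X - l / Real.log X) / 3 -
          (4 / 3 * (n / Real.log X) + (v / Real.log X + K) / 3))) := h1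
  refine h2.trans (mul_le_mul_of_nonneg_left (le_of_eq ?_) ?_)
  · rw [Real.rpow_def_of_pos hX0]
    congr 1
    obtain ⟨L, hLd⟩ : ∃ L, L = Real.log X := ⟨_, rfl⟩
    rw [← hLd] at hL ⊢
    obtain ⟨s, hs⟩ : ∃ s, s = LL Dq ps' := ⟨_, rfl⟩
    rw [← hs]
    have e1 : min (n / 4) (3 / 8 * I) = min (n / L / 4) (3 / 8 * (I / L)) * L := by
      rw [min_mul_of_nonneg _ _ hL.le]
      congr 1 <;> field_simp
    rw [e1]
    obtain ⟨m, hm⟩ : ∃ m, m = min (n / L / 4) (3 / 8 * (I / L)) := ⟨_, rfl⟩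
    rw [← hm]
    field_simp
    ring
  · have := RlB791.one_le_cst ps' base
    positivity

/-- **the same line at every level `I ≤ Im`** (the form of helper848's `rhX_half`) -/
theorem gk_line {Lam : Type*} {π : Lam → DPar} {h : ℝ → ℝ}
    {K ε ε₂ M r r' bm bm' X n v Bd Im : ℝ}
    {lam : Lam} {base : List Pq} (hX : 3 ≤ X) (hr : r ≤ r') (hbm : bm ≤ bm')
    (hε : 0 ≤ ε) (hε₂ : ε₂ ≤ ε) (hBd : 0 ≤ Bd) (hK : 0 ≤ K)
    (hIm : Im ≤ TK K * Real.log X)
    (H : LnP (LEk π h dGk) lam K ε M r' bm' X (n / Real.log X) (v / Real.log X) Bd base) :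
    ∀ I : ℝ, 0 ≤ I → I ≤ Im → ∀ (l : ℝ) (ps' : List Pq), 0 ≤ l → l ≤ I →
      List.Forall₂ (Chd Dq hcost r bm) ps' base → LL Dq ps' ≤ n + ε₂ * Real.log X →
      XPX241.RN (π lam) h l ps' ≤ Bd * cst hcost ps' base ^ M *
        Real.exp (I + min (n / 4) (3 / 8 * I) + LL Dq ps' - (I - l) / 3) := by
  intro I hI0 hI l ps' hl0 hl hch hLL
  refine (ln_gk hX hr hbm hε hε₂ hBd hK hI0 (hI.trans hIm) H l ps' hl0 hl hch hLL).trans_eq ?_
  congr 2
  ring

end Crest.Agent.R017.NGy110
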