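import Crest.Agent.R017.NGnX_590
import Crest.Agent.R017.NGx_848
import Crest.Agent.R017.NGy_110
import Crest.Agent.R017.RHXf_116

/-!
# Row 17, FlatNE, NumEq, the Gram number at the near leaf, class E (helper590): the `R`-half

* `tw_near` : the lumps of a derived list at a near parent
* `rhl_num` : the numbers
* **`rhl_X`** : `RHL` for the line `dGk`
* **`gkE_leaf`** : the Gram number at the near leaf, class E
-/

set_option autoImplicit false
set_option linter.unusedVariables false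

noncomputable section

open Finset MeasureTheory
open scoped ComplexConjugate Classical

namespace Crest.Agent.R017.NG590

open Crest.Agent.R012 Crest.Agent.R012.Eis
open Crest.Agent.R012.LS2 (S mem_S bl)
open Crest.Agent.R017.FE47
open Crest.Agent.R017.B770
open Crest.Agent.R017.C70 (JW okJ_JW)
open Crest.Agent.R017.Prov71 hiding tl
open Crest.Agent.R017.Leg381 (Pf alF LF natl)
open Crest.Agent.R017.E3Z548 (FH)
open Crest.Agent.R017.E3Hi290 (RN2XF)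
open Crest.Agent.R017.E3Kc548 (LI mem_LI)
open Crest.Agent.R017.RGB545 (Line Th TK rbx LEk dGk)
open Crest.Agent.R017.RG64 (SbL Ht one_le_Ht)
open Crest.Agent.R017.XP699 (LL Chd hcost cst)
open Crest.Agent.R017.Sup271 (NPm)
open Crest.Agent.R017.NE73 (gN)
open Crest.Agent.R017.NEg551 (NFacts NNum F3 F3_nonneg)
open Crest.Agent.R017.RX298 (NLeafX NNumX xs rpB)
open Crest.Agent.R017.RXk848 (LnP Lmp)
open Crest.Agent.R017.NEq83 (NumGk Gfz)
open Crest.Agent.R017.P1N904 (Gs Gs_ge)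
open Crest.Agent.R017.P1N73 (hN)
open Crest.Agent.R017.Win813 (WK)
open Crest.Agent.R017.RGw813 (T9 bt mem_T9)
open Crest.Agent.R017.ExD791 (Tw LF_cons)
open Crest.Agent.R017.RXi848 (LF_le_len)
open Crest.Agent.R012.Weight600 (pw)

variable {Lam : Type*}

/-- **the lumps of a derived list at a near parent** -/
lemma tw_near {s x y d₀ Nr M : ℝ} (hs : 0 ≤ s) {ps : List Pf} {ps₀ : List Pq}
    (h : SbL s ps ps₀) (hL : Lmp x ps₀) (hs2 : ∀ q ∈ ps₀, Dq.s2 q ≤ M)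
    (hn : LL Dq ps₀ - LF ps ≤ y) (hy : 0 ≤ y) (hN : (ps₀.length : ℝ) ≤ Nr)
    (hd : d₀ + Nr * s ≤ x) : Tw d₀ (d₀ - y) M ps := by
  match ps, ps₀, h, hL with
  | _ :: _ :: _, [], h, hL => exact hL.elim
  | [], [], _, hL => exact hL.elim
  | [_], [_], _, hL => exact hL.elim
  | p1 :: p2 :: ps, q1 :: q2 :: [], h, hL => exact hL.elim
  | p1 :: p2 :: ps, q1 :: q2 :: q3 :: ps₀, h, hL =>
    unfold RG64.SbL at h
    cases h with
    | cons h1 h =>
      cases h with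
      | cons h2 h =>
        obtain ⟨⟨k1, u1⟩, ⟨k2, u2⟩, -, x1, x2⟩ := hL
        have h3 := LF_le_len hs h
        have h4 : p1.1.z ≤ q1.z + s := h1.2.2.2.2
        have h5 : p2.1.z ≤ q2.z + s := h2.2.2.2.2
        have h6 : (((q1 :: q2 :: q3 :: ps₀).length : ℕ) : ℝ) = (q3 :: ps₀).length + 2 := by
          rw [List.length_cons, List.length_cons]; push_cast; ring
        have h7 : (((q3 :: ps₀).length : ℝ) + 2) * s ≤ Nr * s := by
          refine mul_le_mul_of_nonneg_right ?_ hs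
          rw [← h6]; exact hN
        rw [RHX116.LL_cons', RHX116.LL_cons', RHX116.LL_natl, LF_cons, LF_cons] at hn
        have hm1 : (nm p1.1.d : ℝ) ≤ M := by
          rw [h1.2.1]
          exact hs2 q1 (by simp)
        have hm2 : (nm p2.1.d : ℝ) ≤ M := by
          rw [h2.2.1]
          exact hs2 q2 (by simp)
        have h8 : 0 ≤ ((q3 :: ps₀).length : ℝ) * s := by positivity
        exact ⟨⟨h1.2.2.1 u1, h2.2.2.1 u2⟩, ⟨h1.1.trans k1, h2.1.trans k2⟩, ⟨hm1, hm2⟩,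
          ⟨by linarith, by linarith⟩, by linarith, by linarith⟩

/-- **the numbers of the `R`-half at a near parent** -/
lemma rhl_num {K v c ε L n m Lv g d e0 : ℝ} (hL : 0 < L) (hc : 0 < c)
    (hcK : 1000000 * c ≤ K) (hε : 0 < ε) (hεc : ε ≤ c)
    (n1 : 2 * n + 100 * c * L ≤ (K + v + ε) * L) (n2 : 5 * n ≤ (4 * K + ε) * L)
    (n5 : 5 * (v * L + n) + 100 * c * L ≤ (7 * K + ε) * L)
    (hgL : g * L = n - 3 / 4 * (K * L) + c * L)
    (x1 : n + (v + 3 * g + 90 * c) * L ≤ (K + 3 * d + ε) * L)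
    (f2 : n - g * L ≤ m) (f3 : m ≤ n + ε * L) (f5 : Lv ≤ (v + ε) * L + (n - m))
    (he : e0 ≤ 9 / 22 * F3 (K * L) m + 10 * (c * L)) :
    5 * m ≤ 4 * (K * L) + 6 * (c * L) ∧ 3 * (K * L) ≤ 4 * m + 4 * (c * L) ∧
    5 * (Lv + m) ≤ 7 * (K * L) ∧ 0 ≤ d * L - (n - m + ε * L) ∧
    4 / 3 * (Lv + m) + 2 * e0 ≤ (d * L - (n - m + ε * L)) + 26 / 15 * (K * L) + 10 * (c * L) ∧
    ((F3 (K * L) m = 0 ∧ 4 * m - 3 * (K * L) ≤ 0) ∨ 9 * F3 (K * L) m = 4 * m - 3 * (K * L)) ∧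
    1000000 * (c * L) ≤ K * L ∧ 0 ≤ m := by
  have hcL : 0 < c * L := by positivity
  have hKL : 1000000 * (c * L) ≤ K * L := by
    have := mul_le_mul_of_nonneg_right hcK hL.le
    linarith
  have hεL0 : 0 < ε * L := by positivity
  have hεL : ε * L ≤ c * L := mul_le_mul_of_nonneg_right hεc hL.le
  have e1 : (K + v + ε) * L = K * L + v * L + ε * L := by ring
  have e2 : (4 * K + ε) * L = 4 * (K * L) + ε * L := by ring
  have e3 : (7 * K + ε) * L = 7 * (K * L) + ε * L := by ring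
  have e4 : (v + ε) * L = v * L + ε * L := by ring
  have e5 : (v + 3 * g + 90 * c) * L = v * L + 3 * (g * L) + 90 * (c * L) := by ring
  have e6 : (K + 3 * d + ε) * L = K * L + 3 * (d * L) + ε * L := by ring
  have e7 : 100 * c * L = 100 * (c * L) := by ring
  rw [e7, e1] at n1
  rw [e2] at n2
  rw [e7, e3] at n5
  rw [e5, e6] at x1
  rw [e4] at f5
  obtain ⟨k, hk⟩ : ∃ z, z = K * L := ⟨_, rfl⟩
  obtain ⟨cl, hcl⟩ : ∃ z, z = c * L := ⟨_, rfl⟩
  obtain ⟨el, hel⟩ : ∃ z, z = ε * L := ⟨_, rfl⟩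
  obtain ⟨vl, hvl⟩ : ∃ z, z = v * L := ⟨_, rfl⟩
  obtain ⟨gl, hgl⟩ : ∃ z, z = g * L := ⟨_, rfl⟩
  obtain ⟨dl, hdl⟩ : ∃ z, z = d * L := ⟨_, rfl⟩
  rw [← hk, ← hvl, ← hel, ← hcl] at n1
  rw [← hk, ← hel] at n2
  rw [← hk, ← hel, ← hvl, ← hcl] at n5
  rw [← hgl, ← hk, ← hcl] at hgL
  rw [← hvl, ← hgl, ← hcl, ← hk, ← hdl, ← hel] at x1
  rw [← hgl] at f2
  rw [← hel] at f3
  rw [← hvl, ← hel] at f5
  rw [← hk, ← hcl] at he
  rw [← hcl] at hcL
  rw [← hcl, ← hk] at hKL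
  rw [← hel] at hεL0
  rw [← hel, ← hcl] at hεL
  rw [← hk, ← hcl, ← hdl, ← hel]
  have hFc : (F3 k m = 0 ∧ 4 * m - 3 * k ≤ 0) ∨ 9 * F3 k m = 4 * m - 3 * k := by
    unfold NEg551.F3
    rcases le_total ((4 * m - 3 * k) / 9) 0 with h | h
    · left
      rw [max_eq_left h]
      exact ⟨rfl, by linarith⟩
    · right
      rw [max_eq_right h]
      ring
  refine ⟨by linarith, by linarith, by linarith, by linarith, ?_, hFc, hKL, by linarith⟩
  have hF0 := F3_nonneg k m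
  rcases hFc with ⟨h0, h1⟩ | h1
  · rw [h0] at he
    linarith
  · linarith

lemma jwd_le {D N : ℝ} {x : Eis × Eis} (hx : x ∈ JW D (1 / 10) N) : (nm x.1 : ℝ) ≤ D := by
  unfold C70.JW at hx
  rw [mem_filter, mem_product, mem_primBall] at hx
  have h1 : nm x.1 ≤ ⌊D⌋₊ := hx.1.1.1
  have h0 : 0 < ⌊D⌋₊ := lt_of_lt_of_le (nm_pos.2 hx.1.1.2.ne_zero) h1
  exact (Nat.cast_le.2 h1).trans (Nat.floor_le (by
    by_contra h2
    push Not at h2
    rw [Nat.floor_of_nonpos h2.le] at h0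
    exact absurd h0 (lt_irrefl _)))

lemma nat9 {N : ℕ} {x : ℝ} (h : 9 * (N : ℝ) ≤ x) : (N : ℝ) ≤ x := by
  have h5 : (0 : ℝ) ≤ N := Nat.cast_nonneg _
  linarith

lemma rn_congr {c K V X : ℝ} {H H' : Eis → Eis → ℝ} {W0 : Bool → Eis → Eis → ℝ → ℝ} {d e : Eis}
    (h : H d e = H' d e) : RN2XF c K V X H W0 d e = RN2XF c K V X H' W0 d e := by
  unfold E3Hi290.RN2XF
  rw [h]

/-- the homogeneity of `F3` -/
lemma F3_hom {K L m : ℝ} (hL : 0 < L) : F3 K (m / L) * L = F3 (K * L) m := by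
  unfold NEg551.F3
  rw [max_mul_of_nonneg _ _ hL.le, zero_mul]
  congr 1
  field_simp

/-- the constants -/
lemma rhl_const {cg E C X2 X' T HM H6 HH Bd E1 E2 C' : ℝ} (hcg : 0 ≤ cg) (hE : 0 ≤ E)
    (hC : 0 ≤ C) (hX : 0 ≤ X2) (hXX : X2 ≤ X') (hT : 0 ≤ T) (hHM : 0 ≤ HM) (hHM' : HM ≤ HH)
    (hH6 : 0 ≤ H6) (hH6' : H6 ≤ HH) (hBd : 1 ≤ Bd) (hE1 : 0 ≤ E1) (hEE : E1 ≤ E2)
    (hC' : (3 + 2 * cg) * E * C * 2 ≤ C') :
    (3 + 2 * cg) * (E * (C * X2 * T) * (HM * Bd + H6)) * E1 ≤ C' * X' * HH * Bd * T * E2 := by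
  have hHH : 0 ≤ HH := hHM.trans hHM'
  have hBd0 : 0 ≤ Bd := by linarith
  have h1 : HM * Bd + H6 ≤ 2 * (HH * Bd) := by
    have a1 : HM * Bd ≤ HH * Bd := mul_le_mul_of_nonneg_right hHM' hBd0
    have a2 : H6 ≤ HH * Bd := hH6'.trans (le_mul_of_one_le_right hHH hBd)
    linarith
  have hX' : 0 ≤ X' := hX.trans hXX
  have hE2 : 0 ≤ E2 := hE1.trans hEE
  calc (3 + 2 * cg) * (E * (C * X2 * T) * (HM * Bd + H6)) * E1 ≤
      (3 + 2 * cg) * (E * (C * X' * T) * (2 * (HH * Bd))) * E2 := by gcongr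
    _ = ((3 + 2 * cg) * E * C * 2) * X' * HH * Bd * T * E2 := by ring
    _ ≤ C' * X' * HH * Bd * T * E2 := by gcongr

set_option maxHeartbeats 3200000 in
/-- **the `R`-half at the near leaf**, class E -/
theorem rhl_X {π : Lam → DPar} (hP : ∀ lam, (π lam).OK)
    (hnp : ∀ lam, ¬ NPm (π lam).n (π lam).ψ (π lam).l₂ 1) {h : ℝ → ℝ} {c₁ : ℝ} (hpu : PU h c₁)
    {φ₀ : ℝ → ℝ → ℝ → ℝ} {K v c e₁ d : ℝ} (hc : 0 < c) (hcK : 1000000 * c ≤ K) (hd : 0 ≤ d)
    (hφ₀ : ∀ a u m, 0 ≤ φ₀ a u m) (hφ₀' : ∀ a u m, φ₀ a u m ≤ 9 / 22 * F3 K m + 10 * c) :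
    RHL π h (LEk π h dGk) φ₀ K v c e₁ d := by
  have hK : 0 < K := by linarith
  intro lam' N c₀ hc₀
  obtain ⟨c₂, hc₂⟩ : ∃ x, x = max c₀ (8 * (K + 1)) := ⟨_, rfl⟩
  have hc₂0 : c₀ ≤ c₂ := by rw [hc₂]; exact le_max_left _ _
  have hc₂8 : 8 * (K + 1) ≤ c₂ := by rw [hc₂]; exact le_max_right _ _
  have hc₂1 : 1 ≤ c₂ := by linarith
  refine ⟨2 * c₂ + 2, by linarith, fun ε ε' M hε hε' hM => ?_⟩
  obtain ⟨a, ha, H₁⟩ := NX848.rhX_half hpu N (c₀ := c₂) (m₀ := 2400 * (K + 1) + 1) (μ := c)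
    (M := M) hc₂1 (by positivity) hc hM
  obtain ⟨ε₂, hε₂⟩ : ∃ x, x = min ε (ε' / 2) := ⟨_, rfl⟩
  have hε₂0 : 0 < ε₂ := by rw [hε₂]; exact lt_min hε (by positivity)
  have hε₂ε : ε₂ ≤ ε := by rw [hε₂]; exact min_le_left _ _
  have hε₂' : 2 * ε₂ ≤ ε' := by
    have : ε₂ ≤ ε' / 2 := by rw [hε₂]; exact min_le_right _ _
    linarith
  have hN0 : (0 : ℝ) ≤ N := Nat.cast_nonneg N
  obtain ⟨J₀, hJ₀⟩ : ∃ x : ℝ, x = max 12 (max ((N : ℝ) ^ 2 * M) (M + 6)) := ⟨_, rfl⟩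
  have hJ12 : 12 ≤ J₀ := by rw [hJ₀]; exact le_max_left _ _
  have hJN : (N : ℝ) ^ 2 * M ≤ J₀ := by
    rw [hJ₀]; exact (le_max_left _ _).trans (le_max_right _ _)
  have hJM : M + 6 ≤ J₀ := by
    rw [hJ₀]; exact (le_max_right _ _).trans (le_max_right _ _)
  refine ⟨J₀, min 1 (ε₂ / (3 * N + 1)), a, by linarith, lt_min one_pos (by positivity), ?_⟩
  intro δ Jn Aw Cw R η Ss hδ0 hδ hJn hAw hCw hR hη hη2 hS cg hcg
  have hδ1 : δ ≤ 1 := hδ.trans (min_le_left _ _)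
  have hδN : 3 * N * δ ≤ ε₂ := by
    have h1 : δ ≤ ε₂ / (3 * N + 1) := hδ.trans (min_le_right _ _)
    rw [le_div_iff₀ (by positivity)] at h1
    nlinarith
  obtain ⟨CR, r, XR, hCR, hr, H₂⟩ := H₁ ε₂ Ss hε₂0 hS
  have hηJ : 0 ≤ (η⁻¹) ^ Jn := by positivity
  obtain ⟨C, hCd⟩ : ∃ C : ℝ, C = CR + (3 + 2 * cg) * (Cw ^ 2 * (η⁻¹) ^ Jn) * CR * 2 := ⟨_, rfl⟩
  have hCR0 : 0 ≤ CR := by linarith
  have hC1 : CR ≤ C := by
    rw [hCd]
    have : 0 ≤ (3 + 2 * cg) * (Cw ^ 2 * (η⁻¹) ^ Jn) * CR * 2 := by positivity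
    linarith
  have hC2 : (3 + 2 * cg) * (Cw ^ 2 * (η⁻¹) ^ Jn) * CR * 2 ≤ C := by rw [hCd]; linarith
  have hC0 : 0 ≤ C := by linarith
  have hl81 : 0 ≤ Real.log 81 := Real.log_nonneg (by norm_num)
  have hlcg : 0 ≤ Real.log cg := Real.log_nonneg hcg
  have hNS : 0 ≤ N * Ss := by positivity
  obtain ⟨T₀, hT₀⟩ : ∃ T : ℝ, T = (30 + 2 * (Real.log 81 + Real.log cg) + N * Ss) / c + 4 + cg +
    nm (π lam').n := ⟨_, rfl⟩
  refine ⟨C, r, max XR (Real.exp T₀), hC0, hr, ?_⟩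
  intro X hX3 hXX ps₀ hlen hz hs2 hnum hnx hlmp q ps Lv N₁ hF hq hqX hps Bd hBd hln b hb t₀ X' φ
    hX' hXX' hφ hφs z hz1 hlz
  have hX0 : 0 < X := by linarith
  have hX1 : 1 ≤ X := by linarith
  have hXR : XR ≤ X := (le_max_left _ _).trans hXX
  have hXT : T₀ ≤ Real.log X := by
    rw [Real.le_log_iff_exp_le hX0]
    exact (le_max_right _ _).trans hXX
  have hTc : 0 ≤ (30 + 2 * (Real.log 81 + Real.log cg) + N * Ss) / c := by positivity
  have hnn0 : (0 : ℝ) ≤ nm (π lam').n := Nat.cast_nonneg _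
  have hL4 : 4 ≤ Real.log X := by linarith
  have hL0 : 0 < Real.log X := by linarith
  have hlX : Real.log X ≤ X := by
    have := Real.log_le_sub_one_of_pos hX0
    linarith
  have hTcL : 30 + 2 * (Real.log 81 + Real.log cg) + N * Ss ≤ c * Real.log X := by
    have h1 : (30 + 2 * (Real.log 81 + Real.log cg) + N * Ss) / c ≤ Real.log X := by linarith
    rw [div_le_iff₀ hc] at h1
    linarith
  have hXc : ∀ x : ℝ, x ≤ c₂ → X ^ x ≤ X ^ c₂ := fun x hx =>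
    Real.rpow_le_rpow_of_exponent_le hX1 hx
  have hXle : X ≤ X ^ c₂ := by
    calc X = X ^ (1 : ℝ) := (Real.rpow_one X).symm
      _ ≤ _ := hXc 1 hc₂1
  obtain ⟨k1, k2, k3, k4, k5, k6, k7, k8, k9, k10⟩ := leaf_gk (f := 0) hX3 hc hcK hε hnum hF
    (by linarith) hL4 le_rfl (by linarith)
  have hgL : gN K c (LL Dq ps₀ / Real.log X) * Real.log X =
      LL Dq ps₀ - 3 / 4 * (K * Real.log X) + c * Real.log X := JBX320.gL_eq hL0 rfl
  -- the parameter
  obtain ⟨f, hfd⟩ : ∃ f : ℝ, f = φ₀ (LL Dq ps₀ / Real.log X) (Lv / Real.log X)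
    (LF ps / Real.log X) := ⟨_, rfl⟩
  have hf0 : 0 ≤ f := by rw [hfd]; exact hφ₀ _ _ _
  have hlE : Real.log (X ^ f) ≤ 9 / 22 * F3 (K * Real.log X) (LF ps) + 10 * (c * Real.log X) := by
    rw [Real.log_rpow hX0, hfd, ← F3_hom hL0]
    have := mul_le_mul_of_nonneg_right (hφ₀' (LL Dq ps₀ / Real.log X) (Lv / Real.log X)
      (LF ps / Real.log X)) hL0.le
    linarith
  obtain ⟨g1, g2, g3, g4, g5, g6, g7, g8⟩ := rhl_num (K := K) (v := v) (c := c) (ε := ε)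
    (L := Real.log X) (n := LL Dq ps₀) (m := LF ps) (Lv := Lv)
    (g := gN K c (LL Dq ps₀ / Real.log X)) (d := d) (e0 := Real.log (X ^ f)) hL0 hc hcK hε
    hnum.ec hnum.top hnum.nK hnum.sn hgL hnx.bg hF.lo hF.hi hF.lv hlE
  have hcL0 : 0 < c * Real.log X := by positivity
  have hκ0 : 0 < K * Real.log X := by positivity
  have hεL0 : 0 < ε * Real.log X := by positivity
  -- the lumps
  have htw : Tw (d * Real.log X) (d * Real.log X - (LL Dq ps₀ - LF ps + ε * Real.log X)) (X ^ c₂)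
      ps := by
    refine tw_near (Nr := N) hS hps hlmp (fun q hq => (hs2 q hq).trans (hXc _ hc₂0)) (by linarith)
      (by have := hF.hi; linarith) (by exact_mod_cast hlen) ?_
    have e1 : (d + 3 / 2 * c) * Real.log X = d * Real.log X + 3 / 2 * (c * Real.log X) := by ring
    rw [e1]
    linarith
  -- the family of `H`
  obtain ⟨kq, hkq⟩ : ∃ k, k = Real.log (2 * z) := ⟨_, rfl⟩
  have hkq0 : 0 ≤ kq := by rw [hkq]; exact Real.log_nonneg (by linarith)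
  rw [← hkq]
  rw [← hfd]
  obtain ⟨G1, G2, G3⟩ := Gs_ge (K * Real.log X) kq (LF ps)
  obtain ⟨G, hG⟩ : ∃ G, G = Gs (K * Real.log X) kq (LF ps) := ⟨_, rfl⟩
  obtain ⟨hf, hhf⟩ : ∃ hf : ℕ → ℝ → ℝ, hf = fun _ x => min (hN (K * Real.log X) kq (LF ps) x)
    (2 * kq + 13 / 3 * LF ps - 4 / 3 * x + 2 * (c * Real.log X) - 3 * G) := ⟨_, rfl⟩
  have hNm : ∀ x, x ≤ LF ps - 3 / 4 * (K * Real.log X) + c * Real.log X →
      ∀ i, hf i x = hN (K * Real.log X) kq (LF ps) x := by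
    intro x hx i
    rw [hhf]
    show min _ _ = _
    refine min_eq_left ?_
    unfold P1N73.hN
    rw [hG]
    have : max (K * Real.log X) (4 / 3 * (LF ps - x)) ≤
        4 / 3 * (LF ps - x) + 4 / 3 * (c * Real.log X) := max_le (by linarith) (by linarith)
    linarith
  have hN2 : ∀ x, 0 ≤ x → hN (K * Real.log X) kq (LF ps) x ≤ 2 * (c * Real.log X) := by
    intro x hx
    unfold P1N73.hN
    have : max (K * Real.log X) (4 / 3 * (LF ps - x)) ≤
        4 / 3 * LF ps + 4 / 3 * (c * Real.log X) := max_le (by linarith) (by linarith)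
    linarith
  obtain ⟨D, hD⟩ : ∃ D, D = Real.exp (min (gN K c (LL Dq ps₀ / Real.log X) * Real.log X)
    (LF ps - (LL Dq ps₀ - gN K c (LL Dq ps₀ / Real.log X) * Real.log X))) := ⟨_, rfl⟩
  have hD' : D ≤ Real.exp (LF ps - 3 / 4 * (K * Real.log X) + c * Real.log X) := by
    rw [hD]
    refine Real.exp_le_exp.2 ((min_le_right _ _).trans ?_)
    rw [hgL]
    linarith
  rw [← hD]
  have hdm : ∀ dd ∈ (JW D (1 / 10) N₁).image Prod.fst,
      Real.log (nm dd) ≤ LF ps - 3 / 4 * (K * Real.log X) + c * Real.log X := by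
    intro dd hdd
    obtain ⟨xx, hxx, rfl⟩ := mem_image.1 hdd
    have hdp : IsPrim xx.1 := (okJ_JW _ _ _).prim xx hxx
    have hd1 : (0 : ℝ) < nm xx.1 := by exact_mod_cast nm_pos.2 hdp.ne_zero
    rw [← Real.log_exp (LF ps - 3 / 4 * (K * Real.log X) + c * Real.log X)]
    exact Real.log_le_log hd1 ((jwd_le hxx).trans hD')
  -- levels
  have hLI : ∀ i ∈ LI (1 / 10) (N₁ : ℝ), (i : ℝ) ≤ Lv + c * Real.log X := by
    intro i hi
    have h1 := (mem_LI hi).2.2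
    have h2 : Real.exp (i : ℝ) ≤ Real.exp (Lv + 5) := by
      refine h1.trans ?_
      have h3 : (N₁ : ℝ) ≤ Real.exp (Lv + 4) := nat9 hF.N1
      have h4 : Real.exp (Lv + 5) = Real.exp 1 * Real.exp (Lv + 4) := by
        rw [← Real.exp_add]; congr 1; ring
      rw [h4]
      exact mul_le_mul_of_nonneg_left h3 (Real.exp_pos _).le
    have h3 := Real.exp_le_exp.1 h2
    linarith
  have hfK : f ≤ c₂ := by
    have h1 := hφ₀' (LL Dq ps₀ / Real.log X) (Lv / Real.log X) (LF ps / Real.log X)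
    rw [← hfd] at h1
    have h2 : F3 K (LF ps / Real.log X) ≤ K := by
      have h3 : LF ps / Real.log X ≤ 4 / 5 * K + 2 * c := by
        rw [div_le_iff₀ hL0]
        have e1 : (4 / 5 * K + 2 * c) * Real.log X =
          4 / 5 * (K * Real.log X) + 2 * (c * Real.log X) := by ring
        rw [e1]
        linarith
      unfold NEg551.F3
      exact max_le hK.le (by linarith)
    linarith
  have hline : ∀ I : ℝ, 0 ≤ I → I ≤ 2 * (K * Real.log X) → ∀ (t : Bool) (l : ℝ) (ps' : List Pq),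
      0 ≤ l → l ≤ I → List.Forall₂ (Chd Dq hcost r (CR * X ^ (2 * c₂ + 2))) ps' (rbx d t X ps₀) →
      LL Dq ps' ≤ LF ps + ε₂ * Real.log X →
      XPX241.RN (π lam') h l ps' ≤ Bd * cst hcost ps' (rbx d t X ps₀) ^ M *
        Real.exp (I + min (LF ps / 4) (3 / 8 * I) + LL Dq ps' - (I - l) / 3) := by
    intro I hI0 hI t l ps' hl0 hl hch hLL
    have hXp : 0 ≤ X ^ (2 * c₂ + 2) := Real.rpow_nonneg hX0.le _
    exact NGy110.gk_line (π := π) (h := h) (K := K) (ε := ε) (ε₂ := ε₂) (M := M) (r := r) (r' := r)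
      (bm := CR * X ^ (2 * c₂ + 2)) (bm' := C * X ^ (2 * c₂ + 2)) (X := X) (n := LF ps) (v := Lv)
      (Bd := Bd) (Im := 2 * (K * Real.log X)) (lam := lam') (base := rbx d t X ps₀) hX3 le_rfl
      (mul_le_mul_of_nonneg_right hC1 hXp) hε.le hε₂ε (by linarith) hK.le (by
        unfold RGB545.TK
        have e1 : 10 * (K + 1) * Real.log X = 10 * (K * Real.log X) + 10 * Real.log X := by ring
        rw [e1]
        linarith) (hln t) I hI0 hI l ps' hl0 hl hch hLL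
  obtain ⟨W0, hW1, hW2, hW3⟩ := H₂ X hX3 hXR (π lam') (hP lam') (hnp lam') (by
      refine le_trans ?_ hXle
      linarith) ps₀ hlen (fun q hq => (hz q hq).2.trans
        (mul_le_mul_of_nonneg_right hc₂0 hL0.le)) q ps hq.ne_zero (hqX.trans (hXc _ hc₂0)) hps
    d (d * Real.log X - (LL Dq ps₀ - LF ps + ε * Real.log X)) hd g4 htw (X ^ δ) δ hδ0 hδ1 hδN
    Bd (2 * (K * Real.log X)) hBd hline Cw η Aw Jn hCw hη (by linarith) hAw (hJN.trans hJn)
    (by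
      have : (12 : ℝ) ≤ Jn := hJ12.trans hJn
      exact_mod_cast this) φ hφ b (by have := (mem_T9.1 hb).2; omega) t₀ ((Jn + 2 : ℕ) : ℝ) (by push_cast; exact le_rfl)
    cg (K * Real.log X) (c * Real.log X) kq Lv (X ^ f) G (F3 (K * Real.log X) (LF ps)) D N₁ hf hcg
    hκ0 (by linarith) (by linarith) le_rfl (by
      have := mul_le_mul_of_nonneg_right hc₂8 hL0.le
      have e1 : 8 * (K + 1) * Real.log X = 8 * (K * Real.log X) + 8 * Real.log X := by ring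
      rw [e1] at this
      linarith) hkq0 g8 g1 g2 g3 (k9.trans (hXc _ hc₂8)) (Real.rpow_nonneg hX0.le _) (hXc _ hfK)
    hlE g6 hLI (by rw [hG]; exact G1) (by rw [hG]; exact G2) (by rw [hG]; exact G3)
    (fun i _ x _ _ => by rw [hhf]; exact min_le_right _ _)
    (fun i _ x hx => by rw [hhf]; exact (min_le_left _ _).trans (hN2 x hx)) g5
  refine ⟨W0, hW1, ?_, ?_⟩
  · intro i hi jj dd hdd ff hff γ π' hγ hπ' hπm Λ hΛ
    refine hW2 i hi jj dd hdd ff hff γ π' hγ hπ' (hπm.trans ?_) Λ hΛ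
    have h1 : cg ≤ X := by linarith
    have h2 : (X ^ (8 * (K + 1))) ^ 300 = X ^ (2400 * (K + 1)) := by
      rw [← Real.rpow_natCast, ← Real.rpow_mul hX0.le]
      congr 1
      push_cast
      ring
    have h3 : X ^ (2400 * (K + 1) + 1) = X * X ^ (2400 * (K + 1)) := by
      rw [Real.rpow_add hX0 (2400 * (K + 1)) 1, Real.rpow_one]
      ring
    rw [h2, h3]
    exact mul_le_mul_of_nonneg_right h1 (Real.rpow_nonneg hX0.le _)
  · intro i hi dd hdd ff hff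
    have hx := hNm _ (hdm dd hdd) i
    have key := hW3 i hi dd hdd ff hff
    have e1 : RN2XF cg (Real.exp kq) (Real.exp i) (Real.exp (LF ps))
        (fun d _ => Real.exp (hf i (Real.log (nm d)))) (W0 i) dd ff =
        RN2XF cg (Real.exp kq) (Real.exp i) (Real.exp (LF ps))
        (fun d _ => Real.exp (hN (K * Real.log X) kq (LF ps) (Real.log (nm d)))) (W0 i) dd ff :=
      rn_congr (by
        show Real.exp (hf i (Real.log (nm dd))) = _
        rw [hx])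
    rw [e1, hx] at key
    refine key.trans (div_le_div_of_nonneg_right ?_ (by positivity))
    have hH1 : 1 ≤ Ht ps * Ht (natl ps₀) :=
      one_le_mul_of_one_le_of_one_le (one_le_Ht _) (one_le_Ht _)
    refine rhl_const (by linarith) (by positivity) hCR0
      (Real.rpow_nonneg hX0.le _) (Real.rpow_le_rpow_of_exponent_le hX1 hε₂') (by positivity)
      (Real.rpow_nonneg (by linarith) _)
      (Real.rpow_le_rpow_of_exponent_le hH1 (by linarith)) (by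
        have := one_le_Ht ps
        positivity) ?_ hBd (Real.exp_pos _).le ?_ hC2
    · have h1 : Ht ps ≤ Ht ps * Ht (natl ps₀) :=
        le_mul_of_one_le_right (by have := one_le_Ht ps; linarith) (one_le_Ht _)
      calc Ht ps ^ 6 ≤ (Ht ps * Ht (natl ps₀)) ^ 6 :=
            pow_le_pow_left₀ (by have := one_le_Ht ps; linarith) h1 6
        _ = (Ht ps * Ht (natl ps₀)) ^ (6 : ℝ) := by
            rw [← Real.rpow_natCast]; norm_num
        _ ≤ (Ht ps * Ht (natl ps₀)) ^ J₀ := Real.rpow_le_rpow_of_exponent_le hH1 (by linarith)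
    · refine Real.exp_le_exp.2 ?_
      rw [hG]
      have := le_max_left 0 (K * Real.log X / 40 - kq / 3)
      have e2 : 20 * c * Real.log X = 20 * (c * Real.log X) := by ring
      rw [e2]
      linarith

/-- **the Gram number at the near leaf**, class E -/
theorem gkE_leaf {π : Lam → DPar} (hP : ∀ lam, (π lam).OK)
    (hnp : ∀ lam, ¬ NPm (π lam).n (π lam).ψ (π lam).l₂ 1) {h : ℝ → ℝ} {c₁ : ℝ} (hpu : PU h c₁)
    {φ₀ φ₁ φβ : ℝ → ℝ → ℝ → ℝ} {K v c e₁ d bb C₀ : ℝ} (hc : 0 < c)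
    (hcK : 1000000 * c ≤ K) (hd : 0 ≤ d) (hC₀ : 0 < C₀) (hφ₀ : ∀ a u m, 0 ≤ φ₀ a u m)
    (hφ₀' : ∀ a u m, φ₀ a u m ≤ 9 / 22 * F3 K m + 10 * c) (hφ₁ : ∀ a u m, 0 ≤ φ₁ a u m) :
    NLeafX π h (NumGk bb C₀ (Gfz (30 * c / K))) (LEk π h dGk) φ₀ φ₁ φβ K v c e₁ d := by
  refine gk_leafX hP hnp hpu hc hcK hd hC₀ hφ₀ (fun a u m hm => ?_) hφ₁
    (rhl_X hP hnp hpu hc hcK hd hφ₀ hφ₀')
  have h1 := hφ₀' a u m
  have h2 : F3 K m ≤ K / 10 := by
    unfold NEg551.F3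
    exact max_le (by linarith) (by linarith)
  linarith

end Crest.Agent.R017.NG590
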