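import Crest.Agent.R017.NOq_126

/-!
# Row 17, FlatNE, (Ro) at the near leaf, exceptional class (helper126): final constants

* **`osX`** : `NumOs` at `E0 = 9/22 F3 + 10 c`, `E1 = F3 + 20 c`, `B = 31/22 F3 + 31 c` for any
  family of lines with `dRn (hC (30 c)) (2000 c) (E c)`, `1 ≤ E`
-/

set_option autoImplicit false

noncomputable section

namespace Crest.Agent.R017.NOq126

open Crest.Agent.R012 Crest.Agent.R012.Eis
open Crest.Agent.R012.MC (Wgt)
open Crest.Agent.R017.FE47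
open Crest.Agent.R017.B770
open Crest.Agent.R017.Prov71
open Crest.Agent.R017.RGB545
open Crest.Agent.R017.Sup271 (NPm)
open Crest.Agent.R017.RX298 (NLeafX)
open Crest.Agent.R017.NE499 (NumOs)
open Crest.Agent.R017.RoX116 (RonX ronx_dRn)

variable {Lam ι : Type*}

/-- the line with a larger constant -/
lemma ronx_dRn' (π : Lam → DPar) (h : ℝ → ℝ) (hh : ℝ → ℝ → ℝ → ℝ) (μ : ℝ) {c e : ℝ}
    (hce : c ≤ e) : RonX π h hh μ c (LEk π h (dRn hh μ e) ()) where
  Φ := (ronx_dRn π h hh μ e).Φ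
  G := (ronx_dRn π h hh μ e).G
  F := fun x θ => ((ronx_dRn π h hh μ e).F x θ).trans (by linarith)
  zl := (ronx_dRn π h hh μ e).zl

/-- **(Ro) at the near leaf, class E, final constants** -/
theorem osX {π : Lam → DPar} (hP : ∀ lam, (π lam).OK)
    (hnp : ∀ lam, ¬ NPm (π lam).n (π lam).ψ (π lam).l₂ 1) {h : ℝ → ℝ} {cu : ℝ} (hpu : PU h cu)
    {w : ℝ → ℝ} (hw : Wgt w) (hw0 : ∀ x, 0 ≤ w x) {E K v c e₁ d : ℝ} (hE : 1 ≤ E) (hc : 0 < c)
    (hcK : 1000000 * c ≤ K) (hd : 0 ≤ d) {L : ι → Line Lam 9} {j : ι}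
    (hL : L j = LEk π h (dRn (hC (30 * c)) (2000 * c) (E * c)) ()) :
    NLeafX π h (fun q α Rn => NumOs w q.Cw q.η q.Aw q.K q.X q.K q.R q.J q.D q.E0 q.E1 (q.B / q.E0)
      (q.N₁ / 2) q.N₁ α Rn) L
      (fun _ _ m => 9 / 22 * max 0 ((4 * m - 3 * K) / 9) + 10 * c)
      (fun _ _ m => max 0 ((4 * m - 3 * K) / 9) + 20 * c)
      (fun _ _ m => 31 / 22 * max 0 ((4 * m - 3 * K) / 9) + 31 * c) K v c e₁ d := by
  have hcE : c ≤ E * c := by nlinarith
  have HL : RonX π h (hC (30 * c)) (2000 * c) c (L j) := by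
    rw [hL]
    exact ronx_dRn' π h (hC (30 * c)) (2000 * c) hcE
  refine nosl_X hP hnp hpu hw hw0 (c' := 30 * c) HL hc le_rfl (by linarith) hcK
    le_rfl (by linarith) hd ?_ ?_ ?_
  · intro a u m
    have h1 := le_max_left 0 ((4 * m - 3 * K) / 9)
    constructor
    · positivity
    · linarith
  · intro a u m
    have h1 := le_max_left 0 ((4 * m - 3 * K) / 9)
    constructor
    · positivity
    · exact le_rfl
  · intro a u m
    have h1 := le_max_left 0 ((4 * m - 3 * K) / 9)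
    constructor <;> linarith

end Crest.Agent.R017.NOq126
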