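import Crest.Agent.R017.NAm_144
import Crest.Agent.R017.NGoX_590
import Crest.Agent.R017.NOr_126

/-!
# Row 17, near field (helper144): class E, the leaves (Gk), (Eq) and (Os)

* `gkEl`, `eqEl` : the Gram leaf at the lines of class E (helper590) and (Eq)
* `osEl` : the leaf (Os) (helper126)
* **`near_E4`** : the field `near` of class E from the leaf (Rg)
-/

set_option autoImplicit false

noncomputable section

open Complex

namespace Crest.Agent.R017.NAp144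

open Crest.Agent.R012 Crest.Agent.R012.Eis
open Crest.Agent.R017.FE47 Crest.Agent.R017.End699
open Crest.Agent.R017.B770 Crest.Agent.R017.BxH986
open Crest.Agent.R017.Prov71 Crest.Agent.R017.ER911
open Crest.Agent.R017.Fin4 Crest.Agent.R017.Fin5 Crest.Agent.R017.Fin6
open Crest.Agent.R017.RGB545
open Crest.Agent.R017.Sup271 (NPm)
open Crest.Agent.R017.NEg551 (F3)
open Crest.Agent.R017.RX298 (NLeafX)
open Crest.Agent.R017.NZN551 (p0 p1 pb f3 f3_nonneg)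
open Crest.Agent.R017.NEq83 (NumGk Gfz)
open Crest.Agent.R017.Red848 (red)
open Crest.Agent.R017.XS0298 (S0x)
open Crest.Agent.R017.NrX986 (NearAllX)
open Crest.Agent.R017.NAw144

variable {Lam : Type*}

/-- **leaf (Gk)**, class E -/
theorem gkEl {π : Lam → DPar} (hP : ∀ lam, (π lam).OK)
    (hnp : ∀ lam, ¬ NPm (π lam).n (π lam).ψ (π lam).l₂ 1) {h : ℝ → ℝ} {c₁ : ℝ} (hpu : PU h c₁)
    (E e₁ : ℝ) : GkEl π h E e₁ := by
  intro w hw hw0 Nw Mw Fw hD K v c d₀ hc hcK hv hv3 hd0 hd4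
  have H : NLeafX π h (NumGk (Real.exp (2 + Nw)) (Real.exp (2 + Nw)) (Gfz (30 * c / K)))
      (LEk π h dGk) (p0 c K) (p1 c K) (pb c K) K v c e₁ d₀ := by
    refine NG590.gkE_leaf hP hnp hpu hc hcK hd0 (Real.exp_pos _) ?_ ?_ ?_
    · intro a u m
      show 0 ≤ 9 / 22 * f3 K m + 10 * c
      linarith [f3_nonneg K m]
    · intro a u m
      show 9 / 22 * f3 K m + 10 * c ≤ 9 / 22 * F3 K m + 10 * c
      exact le_rfl
    · intro a u m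
      show 0 ≤ f3 K m + 20 * c
      linarith [f3_nonneg K m]
  intro lam N c₀ hc₀
  obtain ⟨B₀, hB₀, H1⟩ := H lam N c₀ hc₀
  refine ⟨B₀, hB₀, fun ε M hε hM => ?_⟩
  obtain ⟨J₀, δ₀, hJ₀, hδ₀, H2⟩ := H1 ε M hε hM
  refine ⟨J₀, δ₀, hJ₀, hδ₀, ?_⟩
  intro δ Jn Aw Cw R η S a1 a2 a3 a4 a5 a6 a7 a8 a9
  obtain ⟨C, r, X₁, hC, hr, H3⟩ := H2 δ Jn Aw Cw R η S a1 a2 a3 a4 a5 a6 a7 a8 a9
  refine ⟨C, r, X₁, hC, hr, ?_⟩
  intro X hX3 hXX ps₀ hlen hz hs2 hnum hnx hlmp q ps Lv N₁ hF hq hqX hps Bd hBd hT hTR hln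
  exact H3 X hX3 hXX ps₀ hlen hz hs2 hnum hnx hlmp q ps Lv N₁ hF hq hqX hps Bd hBd hT hTR
    (fun t j => hln t (Sum.inr j))

/-- **leaf (Eq)**, class E -/
theorem eqEl {π : Lam → DPar} (hP : ∀ lam, (π lam).OK)
    (hnp : ∀ lam, ¬ NPm (π lam).n (π lam).ψ (π lam).l₂ 1) {h : ℝ → ℝ} {c₁ : ℝ} (hpu : PU h c₁)
    (E e₁ : ℝ) : EqEl π h E e₁ :=
  eqEl_of hP hpu (gkEl hP hnp hpu E e₁)

/-- **leaf (Os)**, class E -/
theorem osEl {π : Lam → DPar} (hP : ∀ lam, (π lam).OK)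
    (hnp : ∀ lam, ¬ NPm (π lam).n (π lam).ψ (π lam).l₂ 1) {h : ℝ → ℝ} {c₁ : ℝ} (hpu : PU h c₁)
    {E : ℝ} (hE : 1 ≤ E) (e₁ : ℝ) : OsEl π h E e₁ :=
  fun _ hw hw0 _ _ _ _ hc hcK _ _ hd0 _ =>
    NOq126.osX hP hnp hpu hw hw0 hE hc hcK hd0 (j := Sum.inl (Sum.inl (Sum.inr ()))) rfl

/-- **the field `near` of class E** from the leaf (Rg) -/
theorem near_E4 {d : ℝ} (hd : 0 < d) (hd1 : d ≤ 1 / 42) {h : ℝ → ℝ} {c₀ : ℝ} (hpu : PU h c₀)
    (hPF : PF Set.univ (7 / 8 + d)) (P : BunE d h) (G : RecE d h)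
    (h1 : RgEl (rdE πE) h 1 (1 / 20)) :
    NearAllX d (ex Dq (fun lam => S0x (red (πE lam)) h)) := by
  have hP : ∀ lam, (rdE πE lam).OK := red_OK (fun lam => lam.2.1)
    (fun lam => XT6241.exc_piE lam)
  have hnp : ∀ lam, ¬ NPm (rdE πE lam).n (rdE πE lam).ψ (rdE πE lam).l₂ 1 :=
    fun _ => LfP986.npm_one _
  exact near_E3 hd hd1 hpu hPF P G (e₁ := 1 / 20) (by norm_num) (E := 1) zero_le_one
    (by norm_num) h1 (eqEl hP hnp hpu 1 (1 / 20)) (osEl hP hnp hpu le_rfl (1 / 20))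

end Crest.Agent.R017.NAp144
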