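import Crest.Agent.R017.NEqN_83
import Crest.Agent.R017.NQL_658

/-!
# Row 17, FlatNE NumEq (helper83): the compensated tail at the near leaf, class N, final parameters

* `neqN_leaf` : the member of `NumEq` at helper49's parameters, from the Gram number
-/

set_option autoImplicit false
set_option linter.unusedVariables false

noncomputable section

open Complex
open scoped ComplexConjugate Classical

namespace Crest.Agent.R017.NEq83

open Crest.Agent.R012 Crest.Agent.R012.Eis Crest.Agent.R012.LS2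
open Crest.Agent.R017.CM106 Crest.Agent.R017.FE47
open Crest.Agent.R017.B770
open Crest.Agent.R017.Prov71
open Crest.Agent.R017.RGB545 (Line Th TK)
open Crest.Agent.R017.XPD571 (RF0)
open Crest.Agent.R017.SqB791 (RqLn LipT)
open Crest.Agent.R017.E3M829 (Cut)
open Crest.Agent.R017.WDec180 (WD)
open Crest.Agent.R017.CubP813 (Qc)
open Crest.Agent.R017.NEg551 (LBq NLeaf)
open Crest.Agent.R017.NEc180 (NumEq)

variable {Lam ι : Type*} {d : ℕ}

/-- **the compensated tail at the near leaf** (class N), from the Gram number -/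
theorem neqN_leaf {π : Lam → DPar} (hP : ∀ lam, (π lam).OK) {h : ℝ → ℝ} {c₁ : ℝ} (hpu : PU h c₁)
    {Nw : ℕ} {Mw : ℝ} {Fw : ℕ → ℝ → ℂ} {w : ℝ → ℝ} (hD : WD w Nw Mw Fw) {C₀ : ℝ}
    (hC₀ : Real.exp (2 + Nw) ≤ C₀) {L : ι → Line Lam d} {j : ι}
    {K v c Λ : ℝ} {T : ℝ → ℝ → ℝ → ℝ → ℝ → ℝ} {qm : ℝ → ℝ → ℝ → ℝ} (hc : 0 < c)
    (hcK : 1000000 * c ≤ K) (hΛ : 0 ≤ Λ) (hT : LipT Λ T)
    (hTe : ∀ K V n l a : ℝ, T K V n l a =
      max l (max (2 / 3 * l + 4 / 9 * (n - a)) (l / 3 + 22 / 27 * (n - a))))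
    (hqm : ∀ u m : ℝ, K - 3 * (max 0 ((4 * m - 3 * K) / 9) + 20 * c) + c ≤ qm K u m)
    (HL : RqLn (RF0 π h) T qm (L j))
    (hG : NLeaf π h (NumGk (Real.exp (2 + Nw)) C₀ (Gfz (30 * c / K))) L
      (fun _ _ m => 9 / 22 * max 0 ((4 * m - 3 * K) / 9) + 10 * c)
      (fun _ _ m => max 0 ((4 * m - 3 * K) / 9) + 20 * c)
      (fun _ _ m => 31 / 22 * max 0 ((4 * m - 3 * K) / 9) + 31 * c) K v c) :
    NLeaf π h (fun q α Rn => NumEq Nw Mw Fw (fun k => Qc (C₀ * q.K / q.E1 ^ 3) k ∧ Cut q.E1 k)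
      q.Cw q.η q.Aw q.K q.X q.R q.J q.D q.E0 (3 * Real.log (q.B / q.E0)) q.N₁ α Rn) L
      (fun _ _ m => 9 / 22 * max 0 ((4 * m - 3 * K) / 9) + 10 * c)
      (fun _ _ m => max 0 ((4 * m - 3 * K) / 9) + 20 * c)
      (fun _ _ m => 31 / 22 * max 0 ((4 * m - 3 * K) / 9) + 31 * c) K v c := by
  have hK : 0 < K := by linarith
  refine neqN_gen hP hpu hD hC₀ hc (by linarith) hΛ hT HL ?_ ?_ hG
  · intro a u m h1 h2
    obtain ⟨F, hF⟩ : ∃ F, F = max 0 ((4 * m - 3 * K) / 9) := ⟨_, rfl⟩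
    have hq := hqm u m
    rw [← hF] at hq
    have hF0 : 0 ≤ F := hF ▸ le_max_left _ _
    have hF1 : F ≤ K / 45 + c := by
      rw [hF]
      exact max_le (by positivity) (by linarith)
    show 0 ≤ 9 / 22 * max 0 ((4 * m - 3 * K) / 9) + 10 * c ∧
      9 / 22 * max 0 ((4 * m - 3 * K) / 9) + 10 * c ≤
        31 / 22 * max 0 ((4 * m - 3 * K) / 9) + 31 * c ∧
      31 / 22 * max 0 ((4 * m - 3 * K) / 9) + 31 * c ≤ K ∧
      c ≤ 3 * (max 0 ((4 * m - 3 * K) / 9) + 20 * c) ∧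
      3 * (max 0 ((4 * m - 3 * K) / 9) + 20 * c) ≤ K ∧
      K - 3 * (max 0 ((4 * m - 3 * K) / 9) + 20 * c) + c ≤ qm K u m
    rw [← hF]
    exact ⟨by linarith, by linarith, by linarith, by linarith, by linarith, hq⟩
  · intro a u m h1 h2 κ k0 k1
    have key := NQL658.neq_line (K := K) (m := m) (κ := κ) (lD := m - 3 / 4 * K + c) (c := c)
      (a₀ := a0 K κ (31 / 22 * max 0 ((4 * m - 3 * K) / 9) + 31 * c) (m - 3 / 4 * K + c) c) rfl hc.le
      hcK (by linarith) (by linarith) k0 k1 (by linarith) rfl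
    have e1 : 30 * c / K * K = 30 * c := by field_simp
    show (K - κ) / 3 + (T K u m κ (a0 K κ (31 / 22 * max 0 ((4 * m - 3 * K) / 9) + 31 * c)
      (m - 3 / 4 * K + c) c) + Gxs K κ m (30 * c / K * K)) / 2 - K -
      a0 K κ (31 / 22 * max 0 ((4 * m - 3 * K) / 9) + 31 * c) (m - 3 / 4 * K + c) c / 2 ≤ 0
    rw [e1, hTe]
    unfold Gxs
    linarith

end Crest.Agent.R017.NEq83
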