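import Crest.Agent.R017.NAz_144
import Crest.Agent.R017.NEqP_83

/-!
# Row 17, near field (helper144): class N, the leaf (Eq) from the Gram leaf

* `GkNl`, `eqNl_of` : helper83's `NumGk` at the lines of class N; `EqNl` from it
-/

set_option autoImplicit false

noncomputable section

open Complex

namespace Crest.Agent.R017.NAz144

open Crest.Agent.R012 Crest.Agent.R012.Eis
open Crest.Agent.R012.MC (Wgt)
open Crest.Agent.R017.FE47 Crest.Agent.R017.End699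
open Crest.Agent.R017.B770
open Crest.Agent.R017.Prov71
open Crest.Agent.R017.RGB545
open Crest.Agent.R017.NEg551 (NLeaf)
open Crest.Agent.R017.WDec180 (WD)
open Crest.Agent.R017.NZN551 (p0 p1 pb)
open Crest.Agent.R017.NEq83 (NumGk Gfz neqN_leaf)

variable {Lam : Type*}

/-- **leaf (Gk)** of class N -/
def GkNl (π : Lam → DPar) (h : ℝ → ℝ) (E : ℝ) : Prop :=
  ∀ w : ℝ → ℝ, Wgt w → (∀ x, 0 ≤ w x) → ∀ (Nw : ℕ) (Mw : ℝ) (Fw : ℕ → ℝ → ℂ), WD w Nw Mw Fw →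
    ∀ K v c : ℝ, 0 < c → 1000000 * c ≤ K → 0 ≤ v → 3 * v + 100 * c ≤ 2 * K →
      NLeaf π h (NumGk (Real.exp (2 + Nw)) (Real.exp (2 + Nw)) (Gfz (30 * c / K)))
        (LNf π h E c) (p0 c K) (p1 c K) (pb c K) K v c

/-- **(Eq) from (Gk)** -/
theorem eqNl_of {π : Lam → DPar} (hP : ∀ lam, (π lam).OK) {h : ℝ → ℝ} {c₁ : ℝ} (hpu : PU h c₁)
    {E : ℝ} (HG : GkNl π h E) : EqNl π h E := by
  intro w hw hw0 Nw Mw Fw hD K v c hc hcK hv hv3
  exact neqN_leaf hP hpu hD le_rfl (j := Sum.inl (Sum.inr ())) (T := TqB) (qm := qmF c) hc hcK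
    (Λ := 2) (by norm_num) lipT_TqB (fun _ _ _ _ _ => rfl) (fun _ _ => le_rfl)
    (rqln_N TqB (qmF c) (21 * c) (30 * c) (2000 * c) (E * c))
    (HG w hw hw0 Nw Mw Fw hD K v c hc hcK hv hv3)

end Crest.Agent.R017.NAz144
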