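import Crest.Agent.R017.NFa_545
import Crest.Agent.R017.NEXr_603

/-!
# Row 17, FlatNE: `QH`, `QHr` of class E (helper545)

* `DX T qm a₁ a₂ μ e` : the lines of class E (helper603's `dR2X`)
* `qhX_fin` : `QH`, `QHr` for the lines of class E on the near domain
* `qhX_add` : the same with additional lines
-/

set_option autoImplicit false
set_option linter.unusedVariables false

noncomputable section

open Set Filter Topology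

namespace Crest.Agent.R017.RGB545

open Crest.Agent.R012 Crest.Agent.R012.Eis Crest.Agent.R012.LS2
open Crest.Agent.R017.B770
open Crest.Agent.R017.Prov71
open Crest.Agent.R017.XP699
open Crest.Agent.R017.ER911 (Ok Sh EF ExpRules)
open Crest.Agent.R017.RuleM545
open Crest.Agent.R017.XPD571
open Crest.Agent.R017.XS0298
open Crest.Agent.R017.Red848
open Crest.Agent.R017.SC777 (Full PM sh3 sum3 ExpRGFz)
open Crest.Agent.R017.NE73 (flK QH NearDom)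
open Crest.Agent.R017.NEx911 (QHr)
open Crest.Agent.R017.PM320 (Clo)
open Crest.Agent.R017.PX829 (PX PXs)

variable {Lam ι ι' : Type*} {p : ℕ} {π : Lam → DPar} {h : ℝ → ℝ} {c₁ θ d : ℝ} {r s s₀ : EF}

/-- **the lines of class E** -/
def DX (T : TQ) (qm : ℝ → ℝ → ℝ → ℝ) (a₁ a₂ μ e : ℝ) : LD ((Unit ⊕ Unit) ⊕ Unit) 9 :=
  DG (dR2X (hC a₁)) T qm a₂ μ e

/-- **class E, `QH`, `QHr` on the near domain** -/
theorem qhX_fin (H : DataE (7 / 8 + d) π h c₁) (hcl : Clo π)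
    (R : ExpRules (7 / 8 + d) (ex Dq (RNe π h)) (ex Dq (SPe π h)))
    (Rm : ExpRGFz (7 / 8 + d) (ex Dq (RNe π h)) (ex Dq (SPe π h)) (ex Dq (S0e π h)))
    (hd : 0 ≤ d) (hd8 : d ≤ 1 / 8) {qm : ℝ → ℝ → ℝ → ℝ} (hq : ContH qm) {κ S y₁ y₂ y₃ : ℝ}
    (hdom : NearDom κ S y₁ y₂ y₃) {a₁ a₂ μ e c : ℝ} (h1 : 0 ≤ a₁) (h1κ : 2000 * a₁ ≤ κ)
    (h2 : 0 ≤ a₂) (h2κ : 2000 * a₂ ≤ κ) (μ0 : 0 ≤ μ) (μκ : 100 * μ ≤ κ) (e0 : 0 ≤ e)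
    (eκ : 2000 * e ≤ κ) (hc : 0 < c) (hcκ : 5000 * c ≤ κ) :
    QH (QG (LEk (rdE π) h (DX TqB qm a₁ a₂ μ e))) c (κ + 100 * c) S y₁ y₂ y₃
        (2 * d * ((y₁ + y₂ + y₃) / 3) + 100 * c) ∧
      QHr (QG (LEk (rdE π) h (DX TqB qm a₁ a₂ μ e))) c (κ + 100 * c) S (y₁ + y₂ + y₃) y₃
        (2 * d * ((y₁ + y₂ + y₃) / 3) + 100 * c) :=
  qhE_qb H hcl R Rm hd hd8 (dR2X_ok (contH_hC a₁)) hq (realQ_r2X R hd hd8 h1 (by linarith)) hdom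
    h2 h2κ μ0 μκ e0 eκ hc hcκ

/-- **class E, `QH`, `QHr` on the near domain**, with additional lines -/
theorem qhX_add (H : DataE (7 / 8 + d) π h c₁) (hcl : Clo π)
    (R : ExpRules (7 / 8 + d) (ex Dq (RNe π h)) (ex Dq (SPe π h)))
    (Rm : ExpRGFz (7 / 8 + d) (ex Dq (RNe π h)) (ex Dq (SPe π h)) (ex Dq (S0e π h)))
    (hd : 0 ≤ d) (hd8 : d ≤ 1 / 8) {qm : ℝ → ℝ → ℝ → ℝ} (hq : ContH qm) {κ S y₁ y₂ y₃ : ℝ}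
    (hdom : NearDom κ S y₁ y₂ y₃) {a₁ a₂ μ e c : ℝ} (h1 : 0 ≤ a₁) (h1κ : 2000 * a₁ ≤ κ)
    (h2 : 0 ≤ a₂) (h2κ : 2000 * a₂ ≤ κ) (μ0 : 0 ≤ μ) (μκ : 100 * μ ≤ κ) (e0 : 0 ≤ e)
    (eκ : 2000 * e ≤ κ) (hc : 0 < c) (hcκ : 5000 * c ≤ κ) {E : LD ι' 9} (hE : E.OK)
    (hEQ : RealQ d (fun l β Y m a ρ => PXs (7 / 8 + d) (ex Dq (RNe π h)) (ex Dq (SPe π h)) l β Y m a ρ)
      (fun l Y m a ρ => Full (7 / 8 + d) (ex Dq (RNe π h)) l Y m a ρ) (ex Dq (S0e π h)) κ E) :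
    QH (QG (LEk (rdE π) h ((DX TqB qm a₁ a₂ μ e).sum E))) c (κ + 100 * c) S y₁ y₂ y₃
        (2 * d * ((y₁ + y₂ + y₃) / 3) + 100 * c) ∧
      QHr (QG (LEk (rdE π) h ((DX TqB qm a₁ a₂ μ e).sum E))) c (κ + 100 * c) S (y₁ + y₂ + y₃) y₃
        (2 * d * ((y₁ + y₂ + y₃) / 3) + 100 * c) :=
  qhE_add H hcl R Rm hd hd8 (dR2X_ok (contH_hC a₁)) hq (realQ_r2X R hd hd8 h1 (by linarith)) hdom
    h2 h2κ μ0 μκ e0 eκ hc hcκ hE hEQ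

theorem lek_r2X (T : TQ) (qm : ℝ → ℝ → ℝ → ℝ) (a₁ a₂ μ e : ℝ) :
    LEk π h (DX T qm a₁ a₂ μ e) (.inl (.inl ())) = LEk π h (dR2X (hC a₁)) () := rfl

theorem lek_rnX (T : TQ) (qm : ℝ → ℝ → ℝ → ℝ) (a₁ a₂ μ e : ℝ) :
    LEk π h (DX T qm a₁ a₂ μ e) (.inl (.inr ())) = LEk π h (dRn (hC a₂) μ e) () := rfl

theorem lek_qaX (T : TQ) (qm : ℝ → ℝ → ℝ → ℝ) (a₁ a₂ μ e : ℝ) :
    LEk π h (DX T qm a₁ a₂ μ e) (.inr ()) = LEk π h (dQa T qm) () := rfl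

end Crest.Agent.R017.RGB545
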