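import Crest.Agent.R017.NZX_590
import Crest.Agent.R017.NFb_545
import Crest.Agent.R017.NrX_986

/-!
# Row 17, near field (helper144): class E, the field `NearAllX` from the three open leaves

* `Lv3X`        : the three leaves at one `(K, v, c, d₀)` (helper590's `neFin_X`)
* `OpLX`        : the leaves at the lines `L c`, for every weight
* **`nearAllX_gen`** : helper986's `NearAllX`, any lines, `QH`, `QHr` as a hypothesis
* **`nearAllX_of`**  : the lines of class E (helper545) with one more summand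
-/

set_option autoImplicit false

noncomputable section

open Complex

namespace Crest.Agent.R017.NAx144

open Crest.Agent.R012 Crest.Agent.R012.Eis Crest.Agent.R012.LS2
open Crest.Agent.R012.MC (Wgt)
open Crest.Agent.R017.B770
open Crest.Agent.R017.Prov71
open Crest.Agent.R017.ER911 (EF ExpRules)
open Crest.Agent.R017.SC777 (ExpRGFz Full)
open Crest.Agent.R017.XPD571
open Crest.Agent.R017.RGB545
open Crest.Agent.R017.RG64 (exists_abs4)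
open Crest.Agent.R017.NE73 (NearDom QH)
open Crest.Agent.R017.NEx911 (QHr NEFx expNEx_of_fin NeFinX)
open Crest.Agent.R017.NE499 (hS NumOs)
open Crest.Agent.R017.NEc180 (NumEq)
open Crest.Agent.R017.RX298 (NLeafX)
open Crest.Agent.R017.WDec180 (WD)
open Crest.Agent.R017.NLn180 (RgN)
open Crest.Agent.R017.NLg777 (QfZ)
open Crest.Agent.R017.NZN551 (p0 p1 pb)
open Crest.Agent.R017.NrX986 (NearAllX)
open Crest.Agent.R017.Red848 (red)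
open Crest.Agent.R017.PX764 (Dk)
open Crest.Agent.R017.XS0298 (S0x S0K)
open Crest.Agent.R017.Sup271 (NPm)
open Crest.Agent.R017.PM320 (Clo)
open Crest.Agent.R017.PX829 (PX PXs)

variable {Lam ι : Type*} {p : ℕ}

/-- **the three open leaves** of class E at `(K, v, c, d₀)`, lines `L` (reduced data `π`) -/
structure Lv3X (w : ℝ → ℝ) (Nw : ℕ) (Mw : ℝ) (Fw : ℕ → ℝ → ℂ) (C₀ : ℝ) (π : Lam → DPar)
    (h : ℝ → ℝ) (L : ι → Line Lam p) (K v c e₁ d₀ : ℝ) : Prop where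
  rg : NLeafX π h (RgN Nw Mw Fw hS (12 * (c / K))) L (p0 c K) (p1 c K) (pb c K) K v c e₁ d₀
  eq : NLeafX π h (fun q α Rn => NumEq Nw Mw Fw (QfZ C₀ q) q.Cw q.η q.Aw q.K q.X q.R q.J
      q.D q.E0 (hS q) q.N₁ α Rn) L (p0 c K) (p1 c K) (pb c K) K v c e₁ d₀
  os : NLeafX π h (fun q α Rn => NumOs w q.Cw q.η q.Aw q.K q.X q.K q.R q.J q.D q.E0 q.E1
      (q.B / q.E0) (q.N₁ / 2) q.N₁ α Rn) L (p0 c K) (p1 c K) (pb c K) K v c e₁ d₀

/-- **the open leaves** at the lines `L c`, for every weight -/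
def OpLX (π : Lam → DPar) (h : ℝ → ℝ) (L : ℝ → ι → Line Lam p) (e₁ : ℝ) : Prop :=
  ∀ w : ℝ → ℝ, Wgt w → (∀ x, 0 ≤ w x) → ∀ (Nw : ℕ) (Mw : ℝ) (Fw : ℕ → ℝ → ℂ),
    WD w Nw Mw Fw → ∃ C₀ : ℝ, 0 < C₀ ∧ ∀ K v c d₀ : ℝ, 0 < c → 1000000 * c ≤ K → 0 ≤ v →
      3 * v + 100 * c ≤ 2 * K → 0 ≤ d₀ → 4 * d₀ ≤ K → Lv3X w Nw Mw Fw C₀ π h (L c) K v c e₁ d₀

theorem S0x_mono_l {π : Lam → DPar} {h : ℝ → ℝ} (lam : Lam) (l l' : ℝ) (ps : List Pq)
    (hl : l ≤ l') : S0x (π lam) h l ps ≤ S0x (π lam) h l' ps := by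
  classical
  show S0K Dk (π lam) h l ps ≤ S0K Dk (π lam) h l' ps
  unfold XS0298.S0K
  exact Finset.sum_le_sum_of_subset_of_nonneg (Finset.filter_subset_filter _
    (bl_mono (Real.exp_pos _).le (Real.exp_le_exp.2 hl))) fun k _ _ => by positivity

/-- **the field of near-equal lists**, class E (reduced data `π`), any lines -/
theorem nearAllX_gen [Finite ι] {π : Lam → DPar} (hP : ∀ lam, (π lam).OK)
    (hnp : ∀ lam, ¬ NPm (π lam).n (π lam).ψ (π lam).l₂ 1) {h : ℝ → ℝ} {c₂ : ℝ}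
    (hpu : FE47.PU h c₂) {d e₁ : ℝ} (he₁ : 20 * e₁ ≤ 1) {L : ℝ → ι → Line Lam p}
    (hL : ∀ c : ℝ, 0 < c → ∀ j, (L c j).OK)
    (hQ : ∀ κ S y₁ y₂ y₃ : ℝ, NearDom κ S y₁ y₂ y₃ → ∀ c : ℝ, 0 < c → 1000000 * c ≤ κ →
      QH (QG (L c)) c (κ + 100 * c) S y₁ y₂ y₃ (2 * d * ((y₁ + y₂ + y₃) / 3) + 100 * c) ∧
      QHr (QG (L c)) c (κ + 100 * c) S (y₁ + y₂ + y₃) y₃
        (2 * d * ((y₁ + y₂ + y₃) / 3) + 100 * c))
    (HO : OpLX π h L e₁) : NearAllX d (ex Dq (fun lam => S0x (π lam) h)) := by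
  obtain ⟨w, hw, hw0, hab⟩ := exists_abs4
  obtain ⟨Nw, Mw, Fw, hD⟩ := WDec180.exists_WD hw
  obtain ⟨C₀, hC₀, HL⟩ := HO w hw hw0 Nw Mw Fw hD
  intro κ S y₁ y₂ y₃ hdom c₀ hc₀
  have hκ := hdom.κ0
  obtain ⟨c, hcd⟩ : ∃ c, c = min c₀ (κ / 1000000) := ⟨_, rfl⟩
  have hc : 0 < c := by rw [hcd]; positivity
  have hcc : c ≤ c₀ := hcd ▸ min_le_left _ _
  have hcκ' : c ≤ κ / 1000000 := hcd ▸ min_le_right _ _
  have hcκ : 1000000 * c ≤ κ := by linarith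
  obtain ⟨q1, q2⟩ := hQ κ S y₁ y₂ y₃ hdom c hc hcκ
  refine ⟨c, e₁, hc, hcc, he₁, QG (L c), ?_, q1, q2⟩
  refine expNEx_of_fin (hL c hc) (funOK_S0x hP hpu)
    S0x_mono_l hc ?_
  intro K v d₀ hK hv h3 hd0 hd4
  have L3 := HL K v c d₀ hc hK hv h3 hd0 hd4
  exact ⟨min (c / 2) 1 / 100, by positivity,
    NZX590.neFin_X hP hnp hpu hw hw0 hab hD hC₀ hc (by linarith) hv hd0 L3.rg L3.eq L3.os⟩

/-- the constants of the lines, in units of `c` -/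
structure Cst4 (A₁ A₂ M E : ℝ) : Prop where
  a0 : 0 ≤ A₁
  a1 : A₁ ≤ 500
  b0 : 0 ≤ A₂
  b1 : A₂ ≤ 500
  m0 : 0 ≤ M
  m1 : M ≤ 10000
  e0 : 0 ≤ E
  e1 : E ≤ 500

/-- **the field of near-equal lists**, class E: the lines of helper545 with one more summand `X` -/
theorem nearAllX_of {ι' : Type*} [Finite ι'] {π : Lam → DPar} {h : ℝ → ℝ} {c₁ d : ℝ}
    (H : DataE (7 / 8 + d) π h c₁) (hcl : Clo π)
    (hnp : ∀ lam, ¬ NPm (red (π lam)).n (red (π lam)).ψ (red (π lam)).l₂ 1)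
    (R : ExpRules (7 / 8 + d) (ex Dq (RNe π h)) (ex Dq (SPe π h)))
    (Rm : ExpRGFz (7 / 8 + d) (ex Dq (RNe π h)) (ex Dq (SPe π h)) (ex Dq (S0e π h)))
    (hd : 0 ≤ d) (hd8 : d ≤ 1 / 8) {e₁ : ℝ} (he₁ : 20 * e₁ ≤ 1)
    {A₁ A₂ M E : ℝ} (hA : Cst4 A₁ A₂ M E)
    {qm : ℝ → ℝ → ℝ → ℝ → ℝ} (hq : ∀ c : ℝ, 0 < c → ContH (qm c))
    {X : LD ι' 9} (hX : X.OK)
    (hXQ : ∀ κ : ℝ, 0 < κ →
      RealQ d (fun l β Y m a ρ => PXs (7 / 8 + d) (ex Dq (RNe π h)) (ex Dq (SPe π h)) l β Y m a ρ)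
        (fun l Y m a ρ => Full (7 / 8 + d) (ex Dq (RNe π h)) l Y m a ρ) (ex Dq (S0e π h)) κ X)
    (HO : OpLX (rdE π) h (fun c => LEk (rdE π) h ((DX TqB (qm c) (A₁ * c) (A₂ * c) (M * c)
      (E * c)).sum X)) e₁) :
    NearAllX d (ex Dq (fun lam => S0x (red (π lam)) h)) := by
  have hPr := red_OK H.hP H.hE
  refine nearAllX_gen (π := rdE π) hPr hnp H.hpu he₁ (L := fun c => LEk (rdE π) h
    ((DX TqB (qm c) (A₁ * c) (A₂ * c) (M * c) (E * c)).sum X)) ?_ ?_ HO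
  · intro c hc j
    exact lek_ok hPr H.hpu (LD.OK.sum (DG_ok (dR2X_ok (contH_hC _)) TqB_cont (hq c hc) _ _ _) hX) j
  · intro κ S y₁ y₂ y₃ hdom c hc hcκ
    have g1 : A₁ * c ≤ 500 * c := mul_le_mul_of_nonneg_right hA.a1 hc.le
    have g2 : A₂ * c ≤ 500 * c := mul_le_mul_of_nonneg_right hA.b1 hc.le
    have g3 : M * c ≤ 10000 * c := mul_le_mul_of_nonneg_right hA.m1 hc.le
    have g4 : E * c ≤ 500 * c := mul_le_mul_of_nonneg_right hA.e1 hc.le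
    exact qhX_add H hcl R Rm hd hd8 (hq c hc) hdom
      (mul_nonneg hA.a0 hc.le) (by linarith) (mul_nonneg hA.b0 hc.le) (by linarith)
      (mul_nonneg hA.m0 hc.le) (by linarith) (mul_nonneg hA.e0 hc.le) (by linarith) hc
      (by linarith) hX (hXQ κ hdom.κ0)

end Crest.Agent.R017.NAx144
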