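import Crest.Agent.R017.NAx_144
import Crest.Agent.R017.LfP_986
import Crest.Agent.R017.RgG_986

/-!
# Row 17, near field (helper144): class E, the field `near` of helper986's `LvE`

* **`near_E`** : `NearAllX d (ex Dq (fun lam => S0x (red (πE lam)) h))` from the open leaves
-/

set_option autoImplicit false

noncomputable section

open Complex

namespace Crest.Agent.R017.NAx144

open Crest.Agent.R012 Crest.Agent.R012.Eis
open Crest.Agent.R017.FE47 Crest.Agent.R017.End699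
open Crest.Agent.R017.B770 Crest.Agent.R017.BxH986
open Crest.Agent.R017.Prov71 Crest.Agent.R017.ER911
open Crest.Agent.R017.SC777 (Full)
open Crest.Agent.R017.Fin4 Crest.Agent.R017.Fin5 Crest.Agent.R017.Fin6
open Crest.Agent.R017.RGB545
open Crest.Agent.R017.Red848 (red)
open Crest.Agent.R017.XS0298 (S0x)
open Crest.Agent.R017.NrX986 (NearAllX)
open Crest.Agent.R017.PX829 (PX PXs)

/-- **the field `near` of class E** -/
theorem near_E {ι' : Type*} [Finite ι'] {d : ℝ} (hd : 0 < d) (hd1 : d ≤ 1 / 42) {h : ℝ → ℝ}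
    {c₀ : ℝ} (hpu : PU h c₀) (hPF : PF Set.univ (7 / 8 + d)) (P : BunE d h) (G : RecE d h)
    {e₁ : ℝ} (he₁ : 20 * e₁ ≤ 1) {A₁ A₂ M E : ℝ} (hA : Cst4 A₁ A₂ M E)
    {qm : ℝ → ℝ → ℝ → ℝ → ℝ} (hq : ∀ c : ℝ, 0 < c → ContH (qm c))
    {X : LD ι' 9} (hX : X.OK)
    (hXQ : ∀ κ : ℝ, 0 < κ →
      RealQ d (fun l β Y m a ρ => PXs (7 / 8 + d) (ex Dq (RNe πE h)) (ex Dq (SPe πE h)) l β Y m a ρ)
        (fun l Y m a ρ => Full (7 / 8 + d) (ex Dq (RNe πE h)) l Y m a ρ) (ex Dq (S0e πE h)) κ X)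
    (HO : OpLX (rdE πE) h (fun c => LEk (rdE πE) h ((DX TqB (qm c) (A₁ * c) (A₂ * c) (M * c)
      (E * c)).sum X)) e₁) :
    NearAllX d (ex Dq (fun lam => S0x (red (πE lam)) h)) :=
  nearAllX_of (dataE_of (by linarith) (by linarith) hPF hpu (fun lam => lam.2.1)
    (fun lam => XT6241.exc_piE lam)) Rg986.clo_πE (fun _ => LfP986.npm_one _) P.rules G hd.le
    (by linarith) he₁ hA hq hX hXQ HO

end Crest.Agent.R017.NAx144
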