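import Crest.Agent.R017.PXa_829

/-!
# Row 17, T.7 (exceptional class): the pair alternative, both orders (helper829)

* `PXs`    : `PX` at the levels `(i, b)` or at `(b, i)` (to be used with the conjugated family)
* `PXsn`   : the closed form, the missing gain may be obtained in both orders
* `pxs_of` : the closed form suffices
-/

set_option autoImplicit false

noncomputable section

namespace Crest.Agent.R017.PX829

open Crest.Agent.R017.ER911 Crest.Agent.R017.SC777 Crest.Agent.R017.PM320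

/-- the pair alternative in one of the two orders -/
def PXs (θ : ℝ) (r s : EF) (i b : ℝ) (Y : Multiset ℝ) (m a ρ : ℝ) : Prop :=
  PX θ r s i b Y m a ρ ∨ PX θ r s b i Y m a ρ

/-- **the alternatives in closed form, both orders**, sorted side `y₃ ≤ y₂ ≤ y₁`, granular mass
`w`, total `n'` -/
def PXsn (i b g y₁ y₂ y₃ w n' D U ρ : ℝ) : Prop :=
  2 * w + (i + 2 * b) / 3 ≤ ρ ∧
    ((i + 2 * b) + n' + 3 / 4 * (y₃ + w) + D ≤ ρ ∨
    ((i + 2 * b) + n' + 3 / 4 * y₃ + D ≤ ρ ∧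
      5 / 12 * (i + 2 * b) + 7 / 12 * (y₁ + y₂) + n' + 3 / 4 * (y₃ + w) + D ≤ ρ ∧
      1 / 2 * (i + 2 * b) + 1 / 4 * (y₁ + y₂) + n' + 3 / 4 * (y₃ + w) + D ≤ ρ) ∨
    ((i + 2 * b) + n' + D ≤ ρ ∧ 2 / 3 * (i + 2 * b) + n' + U + D ≤ ρ ∧
      (i + 2 * b) / 3 + 3 / 2 * n' + U / 2 + D ≤ ρ) ∨
    (i + b + n' ≤ ρ ∧ 2 * n' + b + g + D ≤ ρ ∧ 2 / 3 * i + b / 3 + n' + U + D ≤ ρ ∧
      (2 * n' + (i + 2 * b) / 3 ≤ ρ ∨
      (2 * n' + (i + 2 * b) / 3 - ρ ≤ y₁ ∧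
        i + b < 2 * (y₁ + y₂ - (2 * n' + (i + 2 * b) / 3 - ρ))) ∨
      (2 * n' + (i + 2 * b) / 3 - ρ ≤ y₃ ∧
        i + b < 2 * (y₁ + y₂ + y₃ - 2 * (2 * n' + (i + 2 * b) / 3 - ρ))))) ∨
    (i + b + n' ≤ ρ ∧ 2 * n' + i + D ≤ ρ ∧ 2 / 3 * b + i / 3 + n' + U + D ≤ ρ ∧
      (2 * n' + (2 * i + b) / 3 ≤ ρ ∨
      (2 * n' + (2 * i + b) / 3 - ρ ≤ y₁ ∧
        i + b < 2 * (y₁ + y₂ - (2 * n' + (2 * i + b) / 3 - ρ))) ∨
      (2 * n' + (2 * i + b) / 3 - ρ ≤ y₃ ∧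
        i + b < 2 * (y₁ + y₂ + y₃ - 2 * (2 * n' + (2 * i + b) / 3 - ρ))))))

variable {d : ℝ} {r s : EF}

/-- **the alternatives in closed form suffice**, both orders -/
theorem pxs_of (R : ExpRules (7 / 8 + d) r s) (hd : 0 ≤ d) (hd8 : 8 * d ≤ 1)
    {i b g g₂ y₁ y₂ y₃ m a n' D U ρ : ℝ} (h32 : y₃ ≤ y₂) (h21 : y₂ ≤ y₁) (h3 : 0 ≤ y₃)
    (hm : 0 ≤ m) (ha : 0 ≤ a) (hn' : n' = y₁ + y₂ + y₃ + (m + a))
    (hD : 2 * d * (y₃ + (m + a)) ≤ D)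
    (hU : U = max (max (n' / 3 + y₃ / 2) (n' / 3 + 4 / 15 * (y₃ + (m + a))))
      (max (2 / 3 * (y₃ + (m + a))) (m + a)))
    (hi : 0 ≤ i) (hb : 0 ≤ b) (hg0 : 0 ≤ g₂) (hg1 : g₂ ≤ g) (hgi : 2 * g₂ ≤ i)
    (H : PXsn i b g y₁ y₂ y₃ (m + a) n' D U ρ) :
    PXs (7 / 8 + d) r s (i - 2 * g₂) (b + g₂) {y₁, y₂, y₃} m a ρ := by
  obtain ⟨hp, H⟩ := H
  rcases H with h | h | h | h | ⟨b1, b2, b3, h⟩
  · exact Or.inl (px_of R hd hd8 h32 h21 h3 hm ha hn' hD hU hi hb hg0 hg1 hgi ⟨hp, Or.inl h⟩)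
  · exact Or.inl (px_of R hd hd8 h32 h21 h3 hm ha hn' hD hU hi hb hg0 hg1 hgi
      ⟨hp, Or.inr (Or.inl h)⟩)
  · exact Or.inl (px_of R hd hd8 h32 h21 h3 hm ha hn' hD hU hi hb hg0 hg1 hgi
      ⟨hp, Or.inr (Or.inr (Or.inl h))⟩)
  · exact Or.inl (px_of R hd hd8 h32 h21 h3 hm ha hn' hD hU hi hb hg0 hg1 hgi
      ⟨hp, Or.inr (Or.inr (Or.inr (Or.inl h)))⟩)
  · right
    have h2 : 0 ≤ y₂ := h3.trans h32
    have h1 : 0 ≤ y₁ := h2.trans h21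
    have u1 : n' / 3 + y₃ / 2 ≤ U := by
      rw [hU]; exact (le_max_left _ _).trans (le_max_left _ _)
    have u2 : n' / 3 + 4 / 15 * (y₃ + (m + a)) ≤ U := by
      rw [hU]; exact (le_max_right _ _).trans (le_max_left _ _)
    have u3 : 2 / 3 * (y₃ + (m + a)) ≤ U := by
      rw [hU]; exact (le_max_left _ _).trans (le_max_right _ _)
    have u4 : m + a ≤ U := by
      rw [hU]; exact (le_max_right _ _).trans (le_max_right _ _)
    have hF : Fx d (b + g₂) (i - 2 * g₂) m a y₃ n' D U := by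
      constructor <;> linarith
    have hS : Sd (b + g₂) (i - 2 * g₂) m a y₃ n' D U y₁ y₂ y₃ ρ := by
      constructor <;> linarith
    rcases h with h | ⟨k1, k2⟩ | ⟨k1, k2⟩
    · exact hS.base R hF (by linarith)
    · exact px_two R hF hS
        (G := 2 * n' + ((b + g₂) + 2 * (i - 2 * g₂)) / 3 - ρ) (by rw [hn']; ring)
        (by linarith) (by linarith)
    · exact px_three R hF hS
        (G := 2 * n' + ((b + g₂) + 2 * (i - 2 * g₂)) / 3 - ρ) (by rw [hn']; ring)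
        (by linarith) (by linarith) (by linarith) (by linarith)

end Crest.Agent.R017.PX829
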