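import Crest.Agent.R017.RGE8_545
import Crest.Agent.R017.RGclE_545
import Crest.Agent.R017.PXc_829

/-!
# Row 17, T.7: both orders of the pair alternative (helper545)

* `paok_pxs` : the alternative `PXs` (`PX` in both orders) is sound
-/

set_option autoImplicit false

noncomputable section

namespace Crest.Agent.R017.RGB545

open Crest.Agent.R012 Crest.Agent.R012.Eis Crest.Agent.R012.LS2
open Crest.Agent.R017.B770
open Crest.Agent.R017.Prov71
open Crest.Agent.R017.XP699
open Crest.Agent.R017.RuleM545
open Crest.Agent.R017.Red848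
open Crest.Agent.R017.PM320 (Clo PMx)
open Crest.Agent.R017.PX829 (PX PXs)

variable {Lam : Type*} {π : Lam → DPar} {h : ℝ → ℝ} {c₁ θ : ℝ}

/-- **both orders** -/
theorem paok_pxs (H : DataE θ π h c₁) (hc : Clo π)
    (P : PairRules (rdE π) h (ex Dq (SPe π h))) :
    PAok (rdE π) h fun l β Y m a ρ =>
      PXs θ (ex Dq (RNe π h)) (ex Dq (SPe π h)) l β Y m a ρ :=
  (paok_px H P).or ((paok_px H P).swap H.hpu (fun lam => red_OK H.hP H.hE lam) (clo_rdE hc))

end Crest.Agent.R017.RGB545
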