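import Crest.Agent.R017.RGE5_545
import Crest.Agent.R017.RGN2_545
import Crest.Agent.R017.RGE9_545
import Crest.Agent.R017.PXc_829

/-!
# Row 17, FlatNE: the side conditions of arbitrary lines (helper545), both classes

* `KF` : the kinds of functionals: the pair functional, the character side, the Gauss side
* `LD` : the data of a family of lines; `LNk π h D` (class N), `LEk π h D` (class E) : the lines
* `QK` : the side conditions in terms of exponents; `qg_QK`, `qgN_of`, `qgE_of` : `QG` from `QK`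
* `NPn`, `NRn` : the numbers of class N; `NPe`, `NRe` : the numbers of class E
-/

set_option autoImplicit false

noncomputable section

open Set Filter Topology

namespace Crest.Agent.R017.RGB545

open Crest.Agent.R012 Crest.Agent.R012.Eis Crest.Agent.R012.LS2
open Crest.Agent.R012.T411 (NCube)
open Crest.Agent.R017.B770
open Crest.Agent.R017.Prov71
open Crest.Agent.R017.XP699
open Crest.Agent.R017.ER911 (Ok Sh EF ExpRules)
open Crest.Agent.R017.RuleM545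
open Crest.Agent.R017.XPD571
open Crest.Agent.R017.XS0298
open Crest.Agent.R017.Red848
open Crest.Agent.R017.PX764 (Dk)
open Crest.Agent.R017.PM320 (Clo PMx)
open Crest.Agent.R017.PX829 (PX PXs)
open Crest.Agent.R017.SC777 (Full PM)

variable {Lam ι : Type*} {p : ℕ} {π : Lam → DPar} {h : ℝ → ℝ} {c₁ θ : ℝ}

lemma okl_ok {u : List ℝ} {m a : ℝ} (h : Okl u m a) : Ok (u : Multiset ℝ) m a :=
  ⟨fun y hy => h.1 y (Multiset.mem_coe.1 hy), h.2.1, h.2.2⟩

/-- the kinds of functionals -/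
inductive KF
  | pf : KF
  | rf : KF
  | sf : KF

/-- **the data of a family of lines** : kind, second level, `zl`, condition, exponent -/
structure LD (ι : Type*) (p : ℕ) where
  k : ι → KF
  b : ι → (Fin p → ℝ) → ℝ
  zl : ι → Prop
  G : ι → (Fin 5 → ℝ) → (Fin p → ℝ) → ℝ
  F : ι → (Fin 5 → ℝ) → (Fin p → ℝ) → ℝ

structure LD.OK (D : LD ι p) : Prop where
  cb : ∀ j, Continuous (D.b j)
  b0 : ∀ j (θ : Fin p → ℝ), 0 ≤ θ → 0 ≤ D.b j θ
  cG : ∀ j, Continuous fun x : (Fin 5 → ℝ) × (Fin p → ℝ) => D.G j x.1 x.2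
  cF : ∀ j, Continuous fun x : (Fin 5 → ℝ) × (Fin p → ℝ) => D.F j x.1 x.2

/-- the functionals of a kind -/
def FK (P : Lam → ℝ → ℝ → List Pq → ℝ) (R S : Lam → ℝ → List Pq → ℝ) :
    KF → Lam → ℝ → ℝ → List Pq → ℝ
  | .pf => P
  | .rf => one R
  | .sf => one S

/-- the lines with given functionals -/
def LK (P : Lam → ℝ → ℝ → List Pq → ℝ) (R S : Lam → ℝ → List Pq → ℝ) (D : LD ι p) (j : ι) :
    Line Lam p where
  Φ := FK P R S (D.k j)
  b := D.b j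
  zl := D.zl j
  G := D.G j
  F := D.F j

theorem lk_ok {P : Lam → ℝ → ℝ → List Pq → ℝ} {R S : Lam → ℝ → List Pq → ℝ} (hP : Triv2 P)
    (hR : FunOK R) (hS : FunOK S) {D : LD ι p} (hD : D.OK) (j : ι) : (LK P R S D j).OK where
  tr := by
    show Triv2 (FK P R S (D.k j))
    cases D.k j with
    | pf => exact hP
    | rf => exact hR.triv2
    | sf => exact hS.triv2
  cb := hD.cb j
  b0 θ hθ := hD.b0 j θ hθ
  cG := hD.cG j
  cF := hD.cF j

/-- the number of a kind -/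
def NK (NP : ℝ → ℝ → Multiset ℝ → ℝ → ℝ → ℝ → Prop) (NR : ℝ → Multiset ℝ → ℝ → ℝ → ℝ → Prop)
    (s₀ : EF) : KF → ℝ → ℝ → Multiset ℝ → ℝ → ℝ → ℝ → Prop
  | .pf, l, β, Y, m, a, ρ => NP l β Y m a ρ
  | .rf, l, _, Y, m, a, ρ => NR l Y m a ρ
  | .sf, l, _, Y, m, a, ρ => s₀ l Y m a ≤ ρ

/-- **the side conditions in terms of exponents** -/
def QK (NP : ℝ → ℝ → Multiset ℝ → ℝ → ℝ → ℝ → Prop) (NR : ℝ → Multiset ℝ → ℝ → ℝ → ℝ → Prop)
    (s₀ : EF) (D : LD ι p) (K v : ℝ) (Y : Multiset ℝ) (m a E : ℝ) : Prop :=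
  0 ≤ E ∧ ∀ (j : ι) (θ : Th p K) (Y' : Multiset ℝ) (m' a' i : ℝ), Sh Y' Y → 0 ≤ m' →
    m' ≤ m → 0 ≤ a' → a' ≤ a → 0 ≤ i → i ≤ TK K →
    D.G j ![K, v, Y.sum + m + a, i, Y'.sum + m' + a'] θ.1 ≤ 0 →
    (D.zl j → ∀ y ∈ Y', y ≤ i) →
    NK NP NR s₀ (D.k j) i (D.b j θ.1) Y' m' a'
      (E + D.F j ![K, v, Y.sum + m + a, i, Y'.sum + m' + a'] θ.1)

/-- **`QG` from `QK`** -/
theorem qg_QK {P : Lam → ℝ → ℝ → List Pq → ℝ} {R S : Lam → ℝ → List Pq → ℝ}
    {NP : ℝ → ℝ → Multiset ℝ → ℝ → ℝ → ℝ → Prop} {NR : ℝ → Multiset ℝ → ℝ → ℝ → ℝ → Prop}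
    (hP : ∀ (l β : ℝ) (u : List ℝ) (m a ρ : ℝ), 0 ≤ l → 0 ≤ β → Okl u m a →
      NP l β (u : Multiset ℝ) m a ρ → BG2 Dq P l β u (wt m a) ρ)
    (hR : ∀ (l β : ℝ) (u : List ℝ) (m a ρ : ℝ), 0 ≤ l → Okl u m a →
      NR l (u : Multiset ℝ) m a ρ → BG2 Dq (one R) l β u (wt m a) ρ)
    (hS : FunOK S) {D : LD ι p} (hD : D.OK) {K v : ℝ} {Y : Multiset ℝ} {m a E : ℝ}
    (hQ : QK NP NR (ex Dq S) D K v Y m a E) : QG (LK P R S D) K v Y m a E := by
  refine ⟨hQ.1, ?_⟩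
  intro j θ' u' m' a' l hsh hm0 hm1 ha0 ha1 hl0 hl1 hG hz
  have hu : Okl u' m' a' := ⟨hsh.nn, hm0, ha0⟩
  have hb := hD.b0 j θ'.1 θ'.2.1
  have hs : (u' : Multiset ℝ).sum = u'.sum := Multiset.sum_coe _
  have hG' : D.G j ![K, v, Y.sum + m + a, l, (u' : Multiset ℝ).sum + m' + a'] θ'.1 ≤ 0 := by
    rw [hs]; exact hG
  have key := hQ.2 j θ' (u' : Multiset ℝ) m' a' l hsh hm0 hm1 ha0 ha1 hl0 hl1 hG'
    (fun hzj y hy => hz hzj y (Multiset.mem_coe.1 hy))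
  rw [hs] at key
  show BG2 Dq (FK P R S (D.k j)) l (D.b j θ'.1) u' (wt m' a')
    (E + D.F j ![K, v, Y.sum + m + a, l, u'.sum + m' + a'] θ'.1)
  revert key
  cases D.k j with
  | pf => exact fun key => hP l _ u' m' a' _ hl0 hb hu key
  | rf => exact fun key => hR l _ u' m' a' _ hl0 hu key
  | sf => exact fun key => hS.bg2 hl0 hu key

/-! ### unions -/

/-- the union of two families of lines -/
def LD.sum {ι' : Type*} (D : LD ι p) (D' : LD ι' p) : LD (ι ⊕ ι') p where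
  k := Sum.elim D.k D'.k
  b := Sum.elim D.b D'.b
  zl := Sum.elim D.zl D'.zl
  G := Sum.elim D.G D'.G
  F := Sum.elim D.F D'.F

theorem LD.OK.sum {ι' : Type*} {D : LD ι p} {D' : LD ι' p} (h : D.OK) (h' : D'.OK) :
    (D.sum D').OK where
  cb j := by
    rcases j with j | j
    · exact h.cb j
    · exact h'.cb j
  b0 j θ hθ := by
    rcases j with j | j
    · exact h.b0 j θ hθ
    · exact h'.b0 j θ hθ
  cG j := by
    rcases j with j | j
    · exact h.cG j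
    · exact h'.cG j
  cF j := by
    rcases j with j | j
    · exact h.cF j
    · exact h'.cF j

theorem QK.sum {ι' : Type*} {NP : ℝ → ℝ → Multiset ℝ → ℝ → ℝ → ℝ → Prop}
    {NR : ℝ → Multiset ℝ → ℝ → ℝ → ℝ → Prop} {s₀ : EF} {D : LD ι p} {D' : LD ι' p} {K v : ℝ}
    {Y : Multiset ℝ} {m a E : ℝ} (h : QK NP NR s₀ D K v Y m a E)
    (h' : QK NP NR s₀ D' K v Y m a E) : QK NP NR s₀ (D.sum D') K v Y m a E := by
  refine ⟨h.1, fun j => ?_⟩
  rcases j with j | j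
  · exact h.2 j
  · exact h'.2 j

/-! ### class N -/

/-- the lines of class N -/
abbrev LNk (π : Lam → DPar) (h : ℝ → ℝ) (D : LD ι p) (j : ι) : Line Lam p :=
  LK (PFp π h) (RF0 π h) (S0f π h) D j

/-- the numbers of the pair functional, class N -/
def NPn (θ : ℝ) (r s : EF) (l β : ℝ) (Y : Multiset ℝ) (m a ρ : ℝ) : Prop :=
  Full θ r (l + 2 * β) Y m a ρ ∨ PM s l β Y m a ρ ∨ PM s β l Y m a ρ

theorem lnk_ok (hP : ∀ lam, (π lam).OK) (hpu : FE47.PU h c₁) {D : LD ι p} (hD : D.OK) (j : ι) :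
    (LNk π h D j).OK :=
  lk_ok (triv2_PF hP hpu) (funOK_RF hP hpu) (funOK_S0p hP hpu) hD j

/-- **the side conditions, class N** -/
theorem qgN_of (H : DataN θ π h c₁) {D : LD ι p} (hD : D.OK) {K v : ℝ} {Y : Multiset ℝ}
    {m a E : ℝ}
    (hQ : QK (NPn θ (ex Dq (RN0 π h)) (ex Dq (SP0 π h)))
      (fun l Y m a ρ => Full θ (ex Dq (RN0 π h)) l Y m a ρ) (ex Dq (S0f π h)) D K v Y m a E) :
    QG (LNk π h D) K v Y m a E := by
  refine qg_QK (fun l β u m a ρ hl hβ hu hN => ?_) (fun l β u m a ρ hl hu hN => ?_)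
    (funOK_S0p H.hP H.hpu) hD hQ
  · exact bg2_of_PG (H.pg_r2 hl hβ rfl hu hN)
  · exact (funOK_RF H.hP H.hpu).bg2 hl hu (H.ex_full hl (okl_ok hu) hN)

/-! ### class E -/

/-- the lines of class E (reduced data `π`) -/
abbrev LEk (π : Lam → DPar) (h : ℝ → ℝ) (D : LD ι p) (j : ι) : Line Lam p :=
  LK (PQe π h) (RX (fun _ => NCube) π h) (fun lam => S0x (π lam) h) D j

theorem lek_ok (hP : ∀ lam, (π lam).OK) (hpu : FE47.PU h c₁) {D : LD ι p} (hD : D.OK) (j : ι) :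
    (LEk π h D j).OK :=
  lk_ok (triv2_PQe hP hpu) (funOK_RX hP hpu _) (funOK_S0x hP hpu) hD j

/-- **the side conditions, class E**, any sound pair alternative -/
theorem qgE_of (H : DataE θ π h c₁) {PA : ℝ → ℝ → Multiset ℝ → ℝ → ℝ → ℝ → Prop}
    (hPA : PAok (rdE π) h PA) {D : LD ι p} (hD : D.OK) {K v : ℝ} {Y : Multiset ℝ} {m a E : ℝ}
    (hQ : QK PA (fun l Y m a ρ => Full θ (ex Dq (RNe π h)) l Y m a ρ) (ex Dq (S0e π h)) D
      K v Y m a E) :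
    QG (LEk (rdE π) h D) K v Y m a E := by
  refine qg_QK (fun l β u m a ρ hl hβ hu hN => hPA l β u m a ρ hl hβ hu hN)
    (fun l β u m a ρ hl hu hN => ?_) (funOK_S0x (red_OK H.hP H.hE) H.hpu) hD hQ
  exact (funOK_RX (red_OK H.hP H.hE) H.hpu _).bg2 hl hu (H.ex_full hl (okl_ok hu) hN)

end Crest.Agent.R017.RGB545
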