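import Crest.Agent.R017.NER_545
import Crest.Agent.R017.NEz_911

/-!
# Row 17, FlatNE: the side conditions on the near domain (helper545)

* `dSq hh` (helper791), `dRo hh μ` (helper116) : the lines of the character side
* `NearA`, `NearB` : the near lists, the replaced lists; `qh_of`, `qhr_of` : `QH`, `QHr` from them
-/

set_option autoImplicit false
set_option linter.unusedVariables false

noncomputable section

open Set Filter Topology

namespace Crest.Agent.R017.RGB545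

open Crest.Agent.R012 Crest.Agent.R012.Eis Crest.Agent.R012.LS2
open Crest.Agent.R017.B770
open Crest.Agent.R017.Prov71
open Crest.Agent.R017.XP699
open Crest.Agent.R017.ER911 (Ok Sh EF ExpRules)
open Crest.Agent.R017.RuleM545
open Crest.Agent.R017.XPD571
open Crest.Agent.R017.SC777 (Full PM sh3 sum3)
open Crest.Agent.R017.NE73 (flK QH)
open Crest.Agent.R017.NEx911 (QHr)

variable {Lam ι : Type*} {p : ℕ} {π : Lam → DPar} {h : ℝ → ℝ} {c₁ θ d : ℝ} {r s s₀ : EF}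

/-! ### the lines of the character side -/

/-- **the line of the second scale** (helper791's `SqhLn`) -/
def dSq (hh : ℝ → ℝ → ℝ → ℝ) : LD Unit 9 where
  k _ := .rf
  b _ _ := 0
  zl _ := False
  G _ x _ := max (x 3 - (x 0 - hh (x 0) (x 1) (x 2))) (x 4 - x 2)
  F _ x _ := -((x 0 - x 3) / 3 + (x 2 - x 4) + (x 1 + x 2 - 2 * x 0) / 3)

/-- the top level of the dual side -/
def I1 (hh : ℝ → ℝ → ℝ → ℝ) (x : Fin 5 → ℝ) : ℝ := x 1 + x 2 + hh (x 0) (x 1) (x 2) - x 0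

/-- the square level -/
def L1 (hh : ℝ → ℝ → ℝ → ℝ) (x : Fin 5 → ℝ) : ℝ := hh (x 0) (x 1) (x 2) + 2 * x 1 - x 0

/-- **the line of the Gram sums** (helper116, helper64); removed part at most `K/10` (helper603) -/
def dRo (hh : ℝ → ℝ → ℝ → ℝ) (μ : ℝ) : LD Unit 9 where
  k _ := .rf
  b _ _ := 0
  zl _ := False
  G _ x _ := max (x 3 - (I1 hh x + μ)) (x 2 - x 4 - x 0 / 10)
  F _ x _ := hh (x 0) (x 1) (x 2) / 3 - max 0 (max (L1 hh x / 3) (L1 hh x - I1 hh x / 2)) -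
    5 / 3 * (x 2 - x 4) - (I1 hh x + μ - x 3) / 3 - μ

theorem dSq_ok {hh : ℝ → ℝ → ℝ → ℝ} (hc : ContH hh) : (dSq hh).OK where
  cb _ := continuous_const
  b0 _ θ hθ := le_rfl
  cG _ := by
    have h1 : Continuous fun x : (Fin 5 → ℝ) × (Fin 9 → ℝ) => hh (x.1 0) (x.1 1) (x.1 2) :=
      hc.comp continuous_fst
    exact Continuous.max (Continuous.sub (by fun_prop) (Continuous.sub (by fun_prop) h1))
      (by fun_prop)
  cF _ := by
    show Continuous fun x : (Fin 5 → ℝ) × (Fin 9 → ℝ) =>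
      -((x.1 0 - x.1 3) / 3 + (x.1 2 - x.1 4) + (x.1 1 + x.1 2 - 2 * x.1 0) / 3)
    fun_prop

theorem dRo_ok {hh : ℝ → ℝ → ℝ → ℝ} (hc : ContH hh) (μ : ℝ) : (dRo hh μ).OK where
  cb _ := continuous_const
  b0 _ θ hθ := le_rfl
  cG _ := by
    have h1 : Continuous fun x : (Fin 5 → ℝ) × (Fin 9 → ℝ) => hh (x.1 0) (x.1 1) (x.1 2) :=
      hc.comp continuous_fst
    show Continuous fun x : (Fin 5 → ℝ) × (Fin 9 → ℝ) =>
      max (x.1 3 - (I1 hh x.1 + μ)) (x.1 2 - x.1 4 - x.1 0 / 10)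
    unfold I1
    exact Continuous.max (Continuous.sub (by fun_prop)
      (((Continuous.add (by fun_prop) h1).sub (by fun_prop)).add continuous_const)) (by fun_prop)
  cF _ := by
    have h1 : Continuous fun x : (Fin 5 → ℝ) × (Fin 9 → ℝ) => hh (x.1 0) (x.1 1) (x.1 2) :=
      hc.comp continuous_fst
    have hI : Continuous fun x : (Fin 5 → ℝ) × (Fin 9 → ℝ) => I1 hh x.1 := by
      unfold I1
      exact (Continuous.add (by fun_prop) h1).sub (by fun_prop)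
    have hL : Continuous fun x : (Fin 5 → ℝ) × (Fin 9 → ℝ) => L1 hh x.1 := by
      unfold L1
      exact (h1.add (by fun_prop)).sub (by fun_prop)
    show Continuous fun x : (Fin 5 → ℝ) × (Fin 9 → ℝ) => hh (x.1 0) (x.1 1) (x.1 2) / 3 -
      max 0 (max (L1 hh x.1 / 3) (L1 hh x.1 - I1 hh x.1 / 2)) -
      5 / 3 * (x.1 2 - x.1 4) - (I1 hh x.1 + μ - x.1 3) / 3 - μ
    exact ((((h1.div_const _).sub (continuous_const.max ((hL.div_const _).max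
      (hL.sub (hI.div_const _))))).sub (by fun_prop)).sub
      (((hI.add continuous_const).sub (by fun_prop)).div_const _)).sub continuous_const

/-! ### the near domain -/

/-- what all near lists satisfy: family `K`, level `V`, lumps `y`, loss `F` -/
structure NearA (d K V y₁ y₂ y₃ F : ℝ) : Prop where
  K0 : 0 < K
  V0 : 0 ≤ V
  h1 : 0 ≤ y₁
  h2 : 0 ≤ y₂
  h3 : 0 ≤ y₃
  n5 : 5 * (y₁ + y₂ + y₃) ≤ 4 * K
  n3 : 1499 * K ≤ 2000 * (y₁ + y₂ + y₃)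
  vn : 5 * (V + (y₁ + y₂ + y₃)) ≤ 7 * K
  v3 : 3 * V ≤ 2 * K
  F0 : 2 * d * min y₁ (min y₂ y₃) ≤ F
  F1 : 0 ≤ F
  /-- lumps at most `61/200 K`, or the replaced lists -/
  sh : (200 * y₁ ≤ 61 * K ∧ 200 * y₂ ≤ 61 * K ∧ 200 * y₃ ≤ 61 * K) ∨
    (y₁ + y₂ + y₃ + y₂ ≤ K ∧ 200 * y₃ ≤ 61 * K)

/-- `2 d` times the smallest lump is at most `2 d / 3` times the length -/
lemma dmin_le {d z₁ z₂ z₃ : ℝ} (hd : 0 ≤ d) :
    2 * d * min z₁ (min z₂ z₃) ≤ 2 * d * ((z₁ + z₂ + z₃) / 3) := by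
  have m1 := min_le_left z₁ (min z₂ z₃)
  have m2 := (min_le_right z₁ (min z₂ z₃)).trans (min_le_left _ _)
  have m3 := (min_le_right z₁ (min z₂ z₃)).trans (min_le_right _ _)
  exact mul_le_mul_of_nonneg_left (by linarith) (by linarith)

/-- **the side conditions on the near domain** -/
theorem qh_of {Q : ℝ → ℝ → Multiset ℝ → ℝ → ℝ → ℝ → Prop} {κ S y₁ y₂ y₃ F₀ c : ℝ}
    (hκ : 0 < κ) (h5 : 5 * S ≤ 7 * κ) (hN : 5 * (y₁ + y₂ + y₃) ≤ 4 * κ) (hd : 0 ≤ d)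
    (hy1 : 200 * y₁ ≤ 61 * κ) (hy2 : 200 * y₂ ≤ 61 * κ) (hy3 : 200 * y₃ ≤ 61 * κ)
    (hF0 : 0 ≤ F₀)
    (hF : 2 * d * min y₁ (min y₂ y₃) ≤ F₀)
    (h : ∀ K V z₁ z₂ z₃ F : ℝ, NearA d K V z₁ z₂ z₃ F →
      Q K V {z₁, z₂, z₃} 0 0 (flK K V (z₁ + z₂ + z₃) + F))
    (hc : 0 < c) (hcκ : 5000 * c ≤ κ) : QH Q c (κ + 100 * c) S y₁ y₂ y₃ (F₀ + 100 * c) := by
  intro K v z₁ z₂ z₃ hK a1 b1 a2 b2 a3 b3 hKn hv hvS h3v
  refine h K v z₁ z₂ z₃ _ ⟨by linarith, hv, a1, a2, a3, by linarith, by linarith, by linarith,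
    h3v, ?_, by linarith, Or.inl ⟨by linarith, by linarith, by linarith⟩⟩
  have hm : min z₁ (min z₂ z₃) ≤ min y₁ (min y₂ y₃) := min_le_min b1 (min_le_min b2 b3)
  have := mul_le_mul_of_nonneg_left hm (by linarith : (0 : ℝ) ≤ 2 * d)
  linarith

/-- **the side conditions for the replaced lists** -/
theorem qhr_of {Q : ℝ → ℝ → Multiset ℝ → ℝ → ℝ → ℝ → Prop} {κ S N y₃ F₀ c : ℝ}
    (hκ : 0 < κ) (h5 : 5 * S ≤ 7 * κ) (hN : 5 * N ≤ 4 * κ) (hd : 0 ≤ d)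
    (hy3 : 200 * y₃ ≤ 61 * κ) (hF0 : 0 ≤ F₀)
    (hF : 2 * d * (N / 3) ≤ F₀)
    (h : ∀ K V z₁ z₂ z₃ F : ℝ, NearA d K V z₁ z₂ z₃ F →
      Q K V {z₁, z₂, z₃} 0 0 (flK K V (z₁ + z₂ + z₃) + F))
    (hc : 0 < c) (hcκ : 5000 * c ≤ κ) : QHr Q c (κ + 100 * c) S N y₃ (F₀ + 100 * c) := by
  intro K v z₁ z₂ z₃ hK a1 a2 a3 b3 hn hdK hKn hv hvS h3v
  refine h K v z₁ z₂ z₃ _ ⟨by linarith, hv, a1, a2, a3, by linarith, by linarith, by linarith,
    h3v, ?_, by linarith, Or.inr ⟨by linarith, by linarith⟩⟩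
  have h1 := dmin_le (d := d) (z₁ := z₁) (z₂ := z₂) (z₃ := z₃) hd
  have h2 : 2 * d * ((z₁ + z₂ + z₃) / 3) ≤ 2 * d * (N / 3) :=
    mul_le_mul_of_nonneg_left (by linarith) (by linarith)
  linarith

end Crest.Agent.R017.RGB545
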