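import Crest.Agent.R017.R2NX_994
import Crest.Agent.R017.RM3b_986
import Crest.Agent.R017.T3Fld_986

/-!
# Row 17, FlatNE: real statements of the near lines (helper994)

* `r_sq`, `sqh_full` : line (sq): the character side of any list of length `n`, `5 n ≤ 4 K`, at
  every family `≤ K - h`, `3 h ≥ 4 n - 3 K`, from `T3Fld` alone (both classes)
* `r2NX_pxs` : the pair line of class E (`R2NX`) in the form `PXs`
-/

set_option autoImplicit false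
set_option linter.unusedVariables false

noncomputable section

namespace Crest.Agent.R017.NES994

open Crest.Agent.R017.ER911 (Ok Sh EF ExpRules)
open Crest.Agent.R017.SC777 (Full sh3)
open Crest.Agent.R017.P1G904 (Ww)
open Crest.Agent.R017.R2N777 (ThN StN)
open Crest.Agent.R017.NE73 (flK)
open Crest.Agent.R017.PX829 (PXsn PXs PX pxs_of)
open Crest.Agent.R017.R2NX994

variable {d : ℝ} {r s : EF}

/-! ### permutations -/

lemma perm12 (a b c : ℝ) : ({a, b, c} : Multiset ℝ) = {b, a, c} := by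
  rw [Multiset.insert_eq_cons, Multiset.insert_eq_cons, Multiset.insert_eq_cons,
    Multiset.insert_eq_cons, Multiset.cons_swap]

lemma perm23 (a b c : ℝ) : ({a, b, c} : Multiset ℝ) = {a, c, b} := by
  rw [Multiset.insert_eq_cons, Multiset.insert_eq_cons, Multiset.insert_eq_cons,
    Multiset.insert_eq_cons, ← Multiset.cons_zero, ← Multiset.cons_zero, Multiset.cons_swap b c]

/-- sorted representative -/
lemma sort3 {z₁ z₂ z₃ : ℝ} (h1 : 0 ≤ z₁) (h2 : 0 ≤ z₂) (h3 : 0 ≤ z₃) :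
    ∃ a b c : ℝ, ({z₁, z₂, z₃} : Multiset ℝ) = {a, b, c} ∧ 0 ≤ c ∧ c ≤ b ∧ b ≤ a ∧
      a + b + c = z₁ + z₂ + z₃ ∧ c = min z₁ (min z₂ z₃) := by
  rcases le_total z₁ z₂ with a | a <;> rcases le_total z₂ z₃ with b | b <;>
    rcases le_total z₁ z₃ with c | c
  · exact ⟨z₃, z₂, z₁, by rw [perm12, perm23, perm12], h1, a, b, by ring,
      (min_eq_left (le_min a c)).symm⟩
  · exact ⟨z₃, z₂, z₁, by rw [perm12, perm23, perm12], h1, a, b, by ring,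
      (min_eq_left (le_min a (a.trans b))).symm⟩
  · exact ⟨z₂, z₃, z₁, by rw [perm12, perm23], h1, c, b, by ring,
      (min_eq_left (le_min a c)).symm⟩
  · exact ⟨z₂, z₁, z₃, by rw [perm12], h3, c, a, by ring,
      ((min_eq_right ((min_le_right _ _).trans c)).trans (min_eq_right b)).symm⟩
  · exact ⟨z₃, z₁, z₂, by rw [perm23, perm12], h2, a, c, by ring,
      ((min_eq_right ((min_le_left _ _).trans a)).trans (min_eq_left b)).symm⟩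
  · exact ⟨z₁, z₃, z₂, by rw [perm23], h2, b, c, by ring,
      ((min_eq_right ((min_le_left _ _).trans a)).trans (min_eq_left b)).symm⟩
  · exact ⟨z₁, z₂, z₃, rfl, h3, b, a, by ring,
      ((min_eq_right ((min_le_left _ _).trans a)).trans (min_eq_right b)).symm⟩
  · exact ⟨z₁, z₂, z₃, rfl, h3, b, a, by ring,
      ((min_eq_right ((min_le_left _ _).trans a)).trans (min_eq_right b)).symm⟩

/-! ### line (sq) -/

/-- **the character side at the families `≤ K - x`** : `5 n ≤ 4 K`, `4 n ≤ 3 (K + x)` -/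
theorem r_sq (Rm : T3F986.T3Fld (7 / 8 + d) r) {K κ z₁ z₂ z₃ : ℝ} (hK : 0 ≤ K) (h1 : 0 ≤ z₁)
    (h2 : 0 ≤ z₂) (h3 : 0 ≤ z₃) (n5 : 5 * (z₁ + z₂ + z₃) ≤ 4 * K) (hκ0 : 0 ≤ κ)
    (hκ : κ ≤ K - max 0 ((4 * (z₁ + z₂ + z₃) - 3 * K) / 3)) :
    r κ {z₁, z₂, z₃} 0 0 ≤ (2 * K + κ) / 3 + (z₁ + z₂ + z₃) + 2 * d * min z₁ (min z₂ z₃) := by
  obtain ⟨A, B, C, hM, c0, cb, ba, hs, hc⟩ := sort3 h1 h2 h3
  rw [hM, ← hs, ← hc]
  rw [← hs] at n5 hκ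
  obtain ⟨x, hx⟩ : ∃ x, x = max 0 ((4 * (A + B + C) - 3 * K) / 3) := ⟨_, rfl⟩
  have x0 : 0 ≤ x := hx ▸ le_max_left _ _
  have x1 : (4 * (A + B + C) - 3 * K) / 3 ≤ x := hx ▸ le_max_right _ _
  have x2 : 15 * x ≤ K := by
    have : x ≤ K / 15 := by
      rw [hx]
      exact max_le (by linarith) (by linarith)
    linarith
  rw [← hx] at hκ
  have key := Rm.t3n (K - x) (2 / 3 * x) A B C 0 0
    ⟨by linarith, by linarith, c0, by linarith, cb, le_rfl, le_rfl, Or.inl (by norm_num),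
      by linarith, by linarith, by linarith,
      Or.inr ⟨by norm_num, by linarith, by linarith, by linarith⟩⟩ κ hκ0 hκ
  have e : 2 * (7 / 8 + d - 7 / 8) * (C + (0 + 0)) = 2 * d * C := by ring
  rw [e] at key
  linarith

/-- **(sq)** -/
theorem sqh_full (Rm : T3F986.T3Fld (7 / 8 + d) r) (hd : 0 ≤ d) {K V n n' l hh F z₁ z₂ z₃ : ℝ}
    (hK : 0 ≤ K) (n5 : 5 * n ≤ 4 * K) (hh0 : 0 ≤ hh) (hh1 : 4 * n - 3 * K ≤ 3 * hh)
    (h1 : 0 ≤ z₁) (h2 : 0 ≤ z₂) (h3 : 0 ≤ z₃) (hz : z₁ + z₂ + z₃ ≤ n') (hn : n' ≤ n)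
    (hl0 : 0 ≤ l) (hl : l ≤ K - hh) (hF : 2 * d * min z₁ (min z₂ z₃) ≤ F) :
    Full (7 / 8 + d) r l {z₁, z₂, z₃} 0 0
      (flK K V n + F - ((K - l) / 3 + (n - n') + (V + n - 2 * K) / 3)) := by
  have hfl : 4 / 3 * n + (V + K) / 3 ≤ flK K V n := by
    unfold NE73.flK
    have := le_max_right 0 ((V + K - 2 * n) / 3)
    linarith
  have hm0 : 0 ≤ min z₁ (min z₂ z₃) := le_min h1 (le_min h2 h3)
  have hF0 : 0 ≤ F := (mul_nonneg (by linarith) hm0).trans hF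
  refine ⟨fun Y'' κ' hs hκ0 hκ1 _ => ?_, by linarith⟩
  obtain ⟨y₁, y₂, y₃, rfl, a1, b1, a2, b2, a3, b3⟩ := sh3 hs
  have hx : max 0 ((4 * (y₁ + y₂ + y₃) - 3 * K) / 3) ≤ hh :=
    max_le hh0 (by linarith)
  have key := r_sq (κ := κ') Rm hK a1 a2 a3 (by linarith) hκ0 (by linarith)
  have hm : min y₁ (min y₂ y₃) ≤ min z₁ (min z₂ z₃) := min_le_min b1 (min_le_min b2 b3)
  have hm' := mul_le_mul_of_nonneg_left hm (by linarith : (0 : ℝ) ≤ 2 * d)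
  linarith

/-! ### the merged family -/

lemma l3_le_of {κ κ' a₁ a₂ a₃ b₁ b₂ b₃ : ℝ} (hκ : κ' ≤ κ) (h1 : a₁ ≤ b₁) (h2 : a₂ ≤ b₂)
    (h3 : a₃ ≤ b₃) : P1R904.l3 κ' a₁ a₂ a₃ ≤ P1R904.l3 κ b₁ b₂ b₃ +
      max 0 (b₁ - a₁ + (b₂ - a₂) + (b₃ - a₃) - (κ - κ')) := by
  obtain ⟨M, hM⟩ : ∃ M, M = max 0 (b₁ - a₁ + (b₂ - a₂) + (b₃ - a₃) - (κ - κ')) := ⟨_, rfl⟩
  have m0 : 0 ≤ M := hM ▸ le_max_left _ _
  have m1 : b₁ - a₁ + (b₂ - a₂) + (b₃ - a₃) - (κ - κ') ≤ M := hM ▸ le_max_right _ _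
  obtain ⟨t1, t2, t3, t4, t5, t6⟩ := R2N777.l3_leN κ' a₁ a₂ a₃
  rw [← hM]
  have key : P1R904.l3 κ' a₁ a₂ a₃ - M ≤ P1R904.l3 κ b₁ b₂ b₃ := by
    refine le_min (le_min ?_ ?_) (le_min (le_min ?_ ?_) (le_min ?_ ?_)) <;> linarith
  linarith

/-- **the complete character side of three lumps** (helper545's `full_P1`) -/
theorem full_P1 (R : ExpRules (7 / 8 + d) r s) (hd : 0 ≤ d) (hd8 : d ≤ 1 / 8) {κ z₁ z₂ z₃ ρ : ℝ}
    (h1 : 0 ≤ z₁) (h2 : 0 ≤ z₂) (h3 : 0 ≤ z₃)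
    (hρ : P1R904.r3 d κ (min z₁ κ) (min z₂ κ) (min z₃ κ) 0 ≤ ρ) (hρ' : κ / 3 ≤ ρ) :
    Full (7 / 8 + d) r κ {z₁, z₂, z₃} 0 0 ρ := by
  refine ⟨fun Y'' κ' hs hκ0 hκ1 hl => ?_, by linarith⟩
  obtain ⟨y₁, y₂, y₃, rfl, a1, b1, a2, b2, a3, b3⟩ := sh3 hs
  have e1 := (RM986.r_three R hd hd8 hκ0 a1 a2 a3 le_rfl le_rfl).trans
    (RM986.r3_le_P1 (d := d) (m := 0) (a := 0) hκ0 a1 a2 a3)
  have k1 : min y₁ κ' ≤ min z₁ κ := min_le_min b1 hκ1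
  have k2 : min y₂ κ' ≤ min z₂ κ := min_le_min b2 hκ1
  have k3 : min y₃ κ' ≤ min z₃ κ := min_le_min b3 hκ1
  have e2 := l3_le_of hκ1 k1 k2 k3
  unfold P1R904.r3 at e1 hρ
  obtain ⟨M, hM⟩ : ∃ M, M = max 0 (min z₁ κ - min y₁ κ' + (min z₂ κ - min y₂ κ') +
    (min z₃ κ - min y₃ κ') - (κ - κ')) := ⟨_, rfl⟩
  rw [← hM] at e2
  have m0 : 0 ≤ M := hM ▸ le_max_left _ _
  have m1 : M ≤ min z₁ κ - min y₁ κ' + (min z₂ κ - min y₂ κ') + (min z₃ κ - min y₃ κ') := by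
    rw [hM]
    exact max_le (by linarith) (by linarith)
  have m2 : (3 / 4 + 2 * d) * P1R904.l3 κ' (min y₁ κ') (min y₂ κ') (min y₃ κ') ≤
      (3 / 4 + 2 * d) * P1R904.l3 κ (min z₁ κ) (min z₂ κ) (min z₃ κ) + M := by
    have g1 := mul_le_mul_of_nonneg_left e2 (by linarith : (0:ℝ) ≤ 3 / 4 + 2 * d)
    have g2 : (3 / 4 + 2 * d) * M ≤ 1 * M := mul_le_mul_of_nonneg_right (by linarith) m0
    linarith
  linarith

/-! ### the pair line of class E -/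

lemma U0 {n' z : ℝ} (hz : 0 ≤ z) :
    max (max (n' / 3 + z / 2) (n' / 3 + 4 / 15 * z)) (2 / 3 * z) =
      max (max (n' / 3 + z / 2) (n' / 3 + 4 / 15 * (z + (0 + 0))))
        (max (2 / 3 * (z + (0 + 0))) (0 + 0)) := by
  rw [add_zero, add_zero, max_eq_left (by linarith : (0 : ℝ) ≤ 2 / 3 * z)]

/-- **the pair line of class E in the form `PXs`**, any order of the lumps -/
theorem r2NX_pxs (R : ExpRules (7 / 8 + d) r s) (hd : 0 ≤ d) (hd8 : d ≤ 1 / 8)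
    {K n V t h F d₀ ν A e v b g g₂ i ms z₁ z₂ z₃ s₀ ρ : ℝ}
    (hS : StN K n V t) (h0 : 0 ≤ h) (h1 : 3 * h ≤ max 0 (4 * n - 3 * K) + K / 200)
    (hs : (V + n - K) / 3 + (n - 3 / 4 * K) ≤ s₀ + t) (ν0 : 0 ≤ ν) (A0 : 0 ≤ A) (A1 : A ≤ d₀)
    (D1 : 2000 * (d₀ + ν) ≤ 2000 * n - 1499 * K + t) (e0 : 0 ≤ e)
    (e1 : 9 * e ≤ max 0 (4 * n - 3 * K) + K / 100) (v0 : 0 ≤ v) (hv : v + 2 * (d₀ + ν) ≤ V + t)
    (b0 : 0 ≤ b) (g0 : 0 ≤ g) (i0 : 0 ≤ i) (ms0 : 0 ≤ ms)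
    (i1 : i ≤ v + n - K + h + 2 * (e + A) + 2 * ν - d₀ + b + t)
    (i2 : i ≤ K - (e + A) - 2 * b + t) (z10 : 0 ≤ z₁) (z20 : 0 ≤ z₂) (z30 : 0 ≤ z₃)
    (hF : 2 * d * min z₁ (min z₂ z₃) ≤ F)
    (tot : z₁ + z₂ + z₃ + (d₀ + b + g + ms) ≤ n + t) (q0 : 0 ≤ g₂) (q1 : g₂ ≤ g)
    (q2 : 2 * g₂ ≤ e + A + i) (q3 : 2 * g₂ ≤ i + t)
    (hρ : 2 * (K + n) - max (ThN K n (d₀ + ν) e v) (TbN K s₀ n (d₀ + ν) e v) + F -
      (d₀ + ν - A + (Ww (v + e + A) i g - i) + ms) - K / 500 ≤ ρ) :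
    PXs (7 / 8 + d) r s (e + A + i - 2 * g₂) (b + g₂) {z₁, z₂, z₃} 0 0 ρ := by
  obtain ⟨a, b', c, hM, c0, cb, ba, hsum, hc⟩ := sort3 z10 z20 z30
  rw [hM]
  rw [← hc] at hF
  have hI : 0 ≤ e + A + i + 2 * b := by linarith
  have key := r2NX K n V t h d F d₀ ν A e v b g g₂ i ms a b' c s₀
    (2 * (K + n) + F - (d₀ + ν - A + (Ww (v + e + A) i g - i) + ms) - K / 500 - ρ) ρ
    (a + b' + c) _ hS h0 h1 hd hF hs ν0 A0 A1 D1 e0 e1 v0 hv b0 g0 i0 ms0 i1 i2 c0 cb ba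
    (by linarith) q0 q1 q3 (by
      rcases max_choice (ThN K n (d₀ + ν) e v) (TbN K s₀ n (d₀ + ν) e v) with h' | h'
      · rw [h'] at hρ; exact Or.inl (by linarith)
      · rw [h'] at hρ; exact Or.inr (by linarith)) (by ring) rfl rfl
  rcases key with ⟨k1, k2⟩ | key
  · refine Or.inl (PX.full _ _ _ _ ?_)
    have e2 : e + A + i - 2 * g₂ + 2 * (b + g₂) = e + A + i + 2 * b := by ring
    rw [e2]
    exact full_P1 R hd hd8 (c0.trans (cb.trans ba)) (c0.trans cb) c0 k1 k2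
  · have h5 := pxs_of (i := e + A + i - 2 * g₂) (b := b + g₂) (g := 0) (g₂ := 0)
      (y₁ := a) (y₂ := b') (y₃ := c) (m := 0) (a := 0) (n' := a + b' + c) (D := 2 * d * c)
      (U := max (max ((a + b' + c) / 3 + c / 2) ((a + b' + c) / 3 + 4 / 15 * c)) (2 / 3 * c))
      (ρ := ρ) R hd (by linarith) cb ba c0 le_rfl le_rfl (by ring) (le_of_eq (by ring)) (U0 c0)
      (by linarith) (by linarith) le_rfl le_rfl (by linarith) (by simpa using key)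
    simpa using h5

end Crest.Agent.R017.NES994
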