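import Crest.Agent.R017.R2MXp_994
import Crest.Agent.R017.NET_545

/-!
# Row 17, FlatNE: the pair line of the near leaf, class E (helper994)

* `s0X`, `FR2X`, `dR2X hh` : helper545's line `dR2` with the bias number of the difference with the
  replaced list in the `T`-side
* `pt_pxs` : the numbers `PXs` of every child, every list
* `realQ_r2X` : the side conditions of `dR2X` (class E), `realQ_r2E` : of helper545's plain `dR2`
* `realQ_sq` : the line `dSq`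
-/

set_option autoImplicit false
set_option linter.unusedVariables false

noncomputable section

open Set Filter Topology

namespace Crest.Agent.R017.NET994

open Crest.Agent.R017.XP699
open Crest.Agent.R017.ER911 (Ok Sh EF ExpRules)
open Crest.Agent.R017.RuleM545
open Crest.Agent.R017.SC777 (Full sh3 sum3)
open Crest.Agent.R017.R2M777 (WwN)
open Crest.Agent.R017.R2N777 (ThN StN)
open Crest.Agent.R017.NE73 (flK)
open Crest.Agent.R017.PX829 (PXs)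
open Crest.Agent.R017.R2NX994 (TbN)
open Crest.Agent.R017.R2MX994
open Crest.Agent.R017.NES994
open Crest.Agent.R017.RGB545 (LD QK iR GR2 FR2 dR2 ContH sum3n RealQ NearA hC hC_nonneg hC_le dSq)

variable {d : ℝ} {r s s₀ : EF}

/-- the short lump of the replaced list -/
def s0X (K V n : ℝ) : ℝ := (V + n - K) / 3 + (n - 3 / 4 * K)

/-- the exponent of the pair line -/
def FR2X (x : Fin 5 → ℝ) (θ : Fin 9 → ℝ) : ℝ :=
  2 * (x 0 + x 2) - max (ThN (x 0) (x 2) (θ 4 + θ 5) (θ 7) (θ 8))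
      (TbN (x 0) (s0X (x 0) (x 1) (x 2)) (x 2) (θ 4 + θ 5) (θ 7) (θ 8)) -
    (θ 4 + θ 5 - θ 6 + (WwN (θ 8 + θ 7 + θ 6) (iR x θ) (θ 2) (θ 5) - iR x θ) + θ 3) - x 0 / 500 -
    (4 / 3 * x 2 + (x 1 + x 0) / 3)

/-- **the pair line of class E** -/
def dR2X (hh : ℝ → ℝ → ℝ → ℝ) : LD Unit 9 where
  k _ := .pf
  b _ θ := θ 0
  zl _ := False
  G _ x θ := GR2 hh x θ
  F _ x θ := FR2X x θ

theorem dR2X_ok {hh : ℝ → ℝ → ℝ → ℝ} (hc : ContH hh) : (dR2X hh).OK where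
  cb _ := (RGB545.dR2_ok hc).cb ()
  b0 _ θ hθ := hθ 0
  cG _ := (RGB545.dR2_ok hc).cG ()
  cF _ := by
    show Continuous fun x : (Fin 5 → ℝ) × (Fin 9 → ℝ) => FR2X x.1 x.2
    unfold FR2X iR R2N777.ThN R2NX994.TbN s0X NE73.flK R2M777.WwN
    fun_prop

/-- **the pair numbers of every child** -/
theorem pt_pxs (R : ExpRules (7 / 8 + d) r s) (hd : 0 ≤ d) (hd8 : d ≤ 1 / 8)
    {hh : ℝ → ℝ → ℝ → ℝ} {K V n F i z₁ z₂ z₃ T : ℝ} {θ : Fin 9 → ℝ} (t : ∀ k, 0 ≤ θ k)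
    (hV : 0 ≤ V) (hK : 0 < K) (n5 : 5 * n ≤ 4 * K)
    (n3 : 1499 * K ≤ 2000 * n) (vn : 5 * (V + n) ≤ 7 * K) (hh0 : 0 ≤ hh K V n)
    (hh1 : 3 * hh K V n ≤ max 0 (4 * n - 3 * K) + K / 200)
    (a1 : 0 ≤ z₁) (a2 : 0 ≤ z₂) (a3 : 0 ≤ z₃)
    (hFz : 2 * d * min z₁ (min z₂ z₃) ≤ F) (hi0 : 0 ≤ i)
    (hG : GR2 hh ![K, V, n, i, z₁ + z₂ + z₃] θ ≤ 0)
    (hT : T ≤ ThN K n (θ 4 + θ 5) (θ 7) (θ 8) ∨ T ≤ TbN K (s0X K V n) n (θ 4 + θ 5) (θ 7) (θ 8)) :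
    PXs (7 / 8 + d) r s i (θ 0) {z₁, z₂, z₃} 0 0
      (flK K V n + F + (2 * (K + n) - T -
        (θ 4 + θ 5 - θ 6 + (WwN (θ 8 + θ 7 + θ 6) (iR ![K, V, n, i, z₁ + z₂ + z₃] θ) (θ 2) (θ 5) -
          iR ![K, V, n, i, z₁ + z₂ + z₃] θ) + θ 3) - K / 500 - (4 / 3 * n + (V + K) / 3))) := by
  have hfl : 4 / 3 * n + (V + K) / 3 ≤ flK K V n := by
    unfold NE73.flK
    have := le_max_right 0 ((V + K - 2 * n) / 3)
    linarith
  obtain ⟨I, hI⟩ : ∃ I, I = iR ![K, V, n, i, z₁ + z₂ + z₃] θ := ⟨_, rfl⟩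
  have hI' : I = i - θ 7 - θ 6 + 2 * θ 1 := hI
  have hG' : max (max (max (θ 6 - θ 4) (2000 * (θ 4 + θ 5) - 2000 * n + 1499 * K))
      (max (9 * θ 7 - max 0 (4 * n - 3 * K) - K / 100) (θ 8 + 2 * (θ 4 + θ 5) - V)))
    (max (max (I - (θ 8 + n - K + hh K V n + 2 * (θ 7 + θ 6) + 2 * θ 5 -
        θ 4 + (θ 0 - θ 1))) (I - (K - (θ 7 + θ 6) - 2 * (θ 0 - θ 1))))
      (max (max (z₁ + z₂ + z₃ + (θ 4 + (θ 0 - θ 1) + θ 2 + θ 3) - n) (θ 1 - θ 2))
        (max (-I) (θ 1 - θ 0)))) ≤ 0 := by rw [hI]; exact hG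
  have g1 := (le_max_left _ _).trans ((le_max_left _ _).trans ((le_max_left _ _).trans hG'))
  have g2 := (le_max_right _ _).trans ((le_max_left _ _).trans ((le_max_left _ _).trans hG'))
  have g3 := (le_max_left _ _).trans ((le_max_right _ _).trans ((le_max_left _ _).trans hG'))
  have g4 := (le_max_right _ _).trans ((le_max_right _ _).trans ((le_max_left _ _).trans hG'))
  have g5 := (le_max_left _ _).trans ((le_max_left _ _).trans ((le_max_right _ _).trans hG'))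
  have g6 := (le_max_right _ _).trans ((le_max_left _ _).trans ((le_max_right _ _).trans hG'))
  have g7 := (le_max_left _ _).trans ((le_max_left _ _).trans ((le_max_right _ _).trans
    ((le_max_right _ _).trans hG')))
  have g8 := (le_max_right _ _).trans ((le_max_left _ _).trans ((le_max_right _ _).trans
    ((le_max_right _ _).trans hG')))
  have g9 := (le_max_left _ _).trans ((le_max_right _ _).trans ((le_max_right _ _).trans
    ((le_max_right _ _).trans hG')))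
  have g10 := (le_max_right _ _).trans ((le_max_right _ _).trans ((le_max_right _ _).trans
    ((le_max_right _ _).trans hG')))
  have t0 := t 0
  have t1 := t 1
  have t2 := t 2
  have t3 := t 3
  have t4 := t 4
  have t5 := t 5
  have t6 := t 6
  have t7 := t 7
  have t8 := t 8
  rw [← hI]
  clear hG hG' t hI
  generalize θ 0 = β at *
  generalize θ 1 = g₂ at *
  generalize θ 2 = g at *
  generalize θ 3 = ms at *
  generalize θ 4 = d₀ at *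
  generalize θ 5 = ν at *
  generalize θ 6 = A at *
  generalize θ 7 = e at *
  generalize θ 8 = v at *
  have key := r2MX_pxsT (K := K) (n := n) (V := V) (t := 0) (h := hh K V n) (F := F) (d₀ := d₀) (ν := ν) (A := A) (e := e)
    (v := v) (b := β - g₂) (g := g) (g₂ := g₂) (i := I) (ms := ms) (z₁ := z₁) (z₂ := z₂)
    (z₃ := z₃) (s₀ := s0X K V n) (T := T)
    (ρ := flK K V n + F + (2 * (K + n) - T -
      (d₀ + ν - A + (WwN (v + e + A) I g ν - I) + ms) - K / 500 -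
      (4 / 3 * n + (V + K) / 3))) R hd hd8
    ⟨hK.le, le_rfl, by linarith, by linarith, n3, by linarith⟩ hh0 hh1
    (by unfold s0X; linarith) t5 t6 (by linarith)
    (by linarith) t7 (by linarith) t8 (by linarith) (by linarith) t2 (by linarith) t3
    (by linarith) (by linarith) a1 a2 a3 hFz (by linarith) t1 (by linarith) (by linarith)
    hT (by linarith)
  have e1 : e + A + I - 2 * g₂ = i := by rw [hI']; ring
  have e2 : β - g₂ + g₂ = β := by ring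
  rw [e1, e2] at key
  exact key

/-- a line from the numbers of every child -/
theorem realQ_pt {D : LD Unit 9} {NP : ℝ → ℝ → Multiset ℝ → ℝ → ℝ → ℝ → Prop}
    {NR : ℝ → Multiset ℝ → ℝ → ℝ → ℝ → Prop} {κ : ℝ} (hd : 0 ≤ d)
    (h : ∀ K V n F i z₁ z₂ z₃ : ℝ, κ ≤ K → 0 < K → 0 ≤ V → 0 ≤ n → 0 ≤ F → 5 * n ≤ 4 * K →
      1499 * K ≤ 2000 * n → 5 * (V + n) ≤ 7 * K → 0 ≤ z₁ → 0 ≤ z₂ → 0 ≤ z₃ →
      z₁ + z₂ + z₃ ≤ n → 2 * d * min z₁ (min z₂ z₃) ≤ F → 0 ≤ i → ∀ (j : Unit) (θ : Fin 9 → ℝ),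
      (∀ k, 0 ≤ θ k) → D.G j ![K, V, n, i, z₁ + z₂ + z₃] θ ≤ 0 →
      RGB545.NK NP NR s₀ (D.k j) i (D.b j θ) {z₁, z₂, z₃} 0 0
        (flK K V n + F + D.F j ![K, V, n, i, z₁ + z₂ + z₃] θ)) :
    RealQ d NP NR s₀ κ D := by
  intro K V y₁ y₂ y₃ F hK hA
  have hfl : 4 / 3 * (y₁ + y₂ + y₃) + (V + K) / 3 ≤ flK K V (y₁ + y₂ + y₃) := by
    unfold NE73.flK
    have := le_max_right 0 ((V + K - 2 * (y₁ + y₂ + y₃)) / 3)
    linarith
  have h1 := hA.h1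
  have h2 := hA.h2
  have h3 := hA.h3
  have hV := hA.V0
  have hF1 := hA.F1
  have hK0 := hA.K0
  refine ⟨by linarith, ?_⟩
  intro j θ Y' m' a' i hs hm0 hm1 ha0 ha1 hi0 hi1 hG hz
  obtain rfl : m' = 0 := le_antisymm hm1 hm0
  obtain rfl : a' = 0 := le_antisymm ha1 ha0
  obtain ⟨z₁, z₂, z₃, rfl, a1, b1, a2, b2, a3, b3⟩ := sh3 hs
  rw [sum3n, sum3n] at hG ⊢
  have hmz : min z₁ (min z₂ z₃) ≤ min y₁ (min y₂ y₃) := min_le_min b1 (min_le_min b2 b3)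
  have hFz : 2 * d * min z₁ (min z₂ z₃) ≤ F :=
    (mul_le_mul_of_nonneg_left hmz (by linarith)).trans hA.F0
  exact h K V (y₁ + y₂ + y₃) F i z₁ z₂ z₃ hK hK0 hV (by linarith) hF1 hA.n5 hA.n3 hA.vn a1 a2 a3
    (by linarith) hFz hi0 j θ.1 (fun k => θ.2.1 k) hG

/-- **the pair line of class E** -/
theorem realQ_r2X (R : ExpRules (7 / 8 + d) r s) (hd : 0 ≤ d) (hd8 : d ≤ 1 / 8) {c κ : ℝ}
    (hc : 0 ≤ c) (hκ : 1800 * c ≤ κ) :
    RealQ d (fun l β Y m a ρ => PXs (7 / 8 + d) r s l β Y m a ρ)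
      (fun l Y m a ρ => Full (7 / 8 + d) r l Y m a ρ) s₀ κ (dR2X (hC c)) := by
  refine realQ_pt hd ?_
  intro K V n F i z₁ z₂ z₃ hK hK0 hV hn0 hF0 n5 n3 vn a1 a2 a3 hz hF hi0 j θ t hG
  have key := pt_pxs (T := max (ThN K n (θ 4 + θ 5) (θ 7) (θ 8))
    (TbN K (s0X K V n) n (θ 4 + θ 5) (θ 7) (θ 8))) R hd hd8 t hV hK0 n5 n3 vn (hC_nonneg hc _ _ _)
    (hC_le (by linarith)) a1 a2 a3 hF hi0 hG (by
      rcases max_choice (ThN K n (θ 4 + θ 5) (θ 7) (θ 8))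
        (TbN K (s0X K V n) n (θ 4 + θ 5) (θ 7) (θ 8)) with e | e
      · exact Or.inl e.le
      · exact Or.inr e.le)
  exact key

/-- **helper545's plain pair line with the numbers of class E** -/
theorem realQ_r2E (R : ExpRules (7 / 8 + d) r s) (hd : 0 ≤ d) (hd8 : d ≤ 1 / 8) {c κ : ℝ}
    (hc : 0 ≤ c) (hκ : 1800 * c ≤ κ) :
    RealQ d (fun l β Y m a ρ => PXs (7 / 8 + d) r s l β Y m a ρ)
      (fun l Y m a ρ => Full (7 / 8 + d) r l Y m a ρ) s₀ κ (dR2 (hC c)) := by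
  refine realQ_pt hd ?_
  intro K V n F i z₁ z₂ z₃ hK hK0 hV hn0 hF0 n5 n3 vn a1 a2 a3 hz hF hi0 j θ t hG
  have key := pt_pxs (T := ThN K n (θ 4 + θ 5) (θ 7) (θ 8)) R hd hd8 t hV hK0 n5 n3 vn
    (hC_nonneg hc _ _ _) (hC_le (by linarith)) a1 a2 a3 hF hi0 hG (Or.inl le_rfl)
  exact key

/-- **the line (sq)** -/
theorem realQ_sq (Rm : T3F986.T3Fld (7 / 8 + d) r) (hd : 0 ≤ d) {hh : ℝ → ℝ → ℝ → ℝ} {κ : ℝ}
    {NP : ℝ → ℝ → Multiset ℝ → ℝ → ℝ → ℝ → Prop}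
    (h0 : ∀ K V n, 0 ≤ hh K V n) (h1 : ∀ K V n, 4 * n - 3 * K ≤ 3 * hh K V n) :
    RealQ d NP (fun l Y m a ρ => Full (7 / 8 + d) r l Y m a ρ) s₀ κ (dSq hh) := by
  refine realQ_pt hd ?_
  intro K V n F l z₁ z₂ z₃ hK hK0 hV hn0 hF0 n5 n3 vn a1 a2 a3 hz hF hl0 j θ t hG
  have hG' : max (l - (K - hh K V n)) (z₁ + z₂ + z₃ - n) ≤ 0 := hG
  have g1 := (le_max_left _ _).trans hG'
  have key := sqh_full (V := V) (n' := z₁ + z₂ + z₃) Rm hd hK0.le n5 (h0 K V n) (h1 K V n)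
    a1 a2 a3 le_rfl hz hl0 (by linarith) hF
  have e : flK K V n + F - ((K - l) / 3 + (n - (z₁ + z₂ + z₃)) + (V + n - 2 * K) / 3) =
      flK K V n + F + -((K - l) / 3 + (n - (z₁ + z₂ + z₃)) + (V + n - 2 * K) / 3) := by ring
  rw [e] at key
  exact key

end Crest.Agent.R017.NET994
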