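import Crest.Agent.R017.NET_545
import Crest.Agent.R017.T3Fld_986

/-!
# Row 17, FlatNE: the line of `NumEq` (helper545)

* `Tqa` : the number of the line (function of `(K, V, n, l, removed length)`)
* `qa_full` : the complete character side of three lumps from helper911's `T3N`, no region
* `realQ_qa` : the side conditions of `dQa Tqa qm`, every `qm`
* `Tqa_budget` : helper83's budget
-/

set_option autoImplicit false
set_option linter.unusedVariables false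

noncomputable section

open Set Filter Topology

namespace Crest.Agent.R017.RGB545

open Crest.Agent.R017.ER911 (Ok Sh EF ExpRules)
open Crest.Agent.R017.RuleM545
open Crest.Agent.R017.SC777 (Full sh3 sum3)
open Crest.Agent.R017.NE73 (flK)
open Crest.Agent.R017.NG911 (NG T3N)

variable {d : ℝ} {r s s₀ : EF}

/-- the part of the number which does not use the length of the list -/
def Tq0 (l n : ℝ) : ℝ :=
  min (l + n / 4) (max l (max ((2 * l + 4 / 3 * n) / 3) (37 / 45 * n + l / 3)))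

/-- **the number of the line of `NumEq`**, `n` = length of the list, `a` = removed length -/
def Tqa (K V n l a : ℝ) : ℝ := Tq0 l (n - a)

lemma Tq0_mono {l l' n n' : ℝ} (hl : l ≤ l') (hn : n ≤ n') : Tq0 l n ≤ Tq0 l' n' := by
  unfold Tq0
  exact min_le_min (by linarith) (max_le_max hl (max_le_max (by linarith) (by linarith)))

lemma Tq0_lip {l l' n n' x : ℝ} (hx : 0 ≤ x) (hl : l ≤ l' + x) (hn : n ≤ n' + x) :
    Tq0 l n ≤ Tq0 l' n' + 2 * x := by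
  unfold Tq0
  rw [← min_add_add_right, ← max_add_add_right, ← max_add_add_right]
  exact min_le_min (by linarith) (max_le_max (by linarith) (max_le_max (by linarith) (by linarith)))

lemma Tqa_lip {K V n l l' a a' x : ℝ} (hx : 0 ≤ x) (hl : l ≤ l' + x) (ha : a' - x ≤ a) :
    Tqa K V n l a ≤ Tqa K V n l' a' + 2 * x :=
  Tq0_lip hx hl (by linarith)

lemma sortT {z₁ z₂ z₃ : ℝ} : ∃ A B C : ℝ, ({z₁, z₂, z₃} : Multiset ℝ) = {A, B, C} ∧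
    A + B + C = z₁ + z₂ + z₃ ∧ C ≤ A ∧ C ≤ B ∧ C = min z₁ (min z₂ z₃) := by
  have s1 : ∀ a b c : ℝ, ({a, b, c} : Multiset ℝ) = {b, a, c} := fun a b c => Multiset.cons_swap a b {c}
  have s2 : ∀ a b c : ℝ, ({a, b, c} : Multiset ℝ) = {a, c, b} := fun a b c => by
    show a ::ₘ {b, c} = a ::ₘ {c, b}
    rw [Multiset.pair_comm]
  rcases le_total z₁ z₂ with h12 | h12
  · rcases le_total z₁ z₃ with h13 | h13
    · exact ⟨z₂, z₃, z₁, by rw [s1 z₁ z₂ z₃, s2 z₂ z₁ z₃], by ring, h12, h13,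
        (min_eq_left (le_min h12 h13)).symm⟩
    · exact ⟨z₁, z₂, z₃, rfl, rfl, h13, h13.trans h12, by
        rw [min_eq_right (h13.trans h12), min_eq_right h13]⟩
  · rcases le_total z₂ z₃ with h23 | h23
    · exact ⟨z₁, z₃, z₂, s2 _ _ _, by ring, h12, h23, by
        rw [min_eq_left h23, min_eq_right h12]⟩
    · exact ⟨z₁, z₂, z₃, rfl, rfl, h23.trans h12, h23, by
        rw [min_eq_right h23, min_eq_right (h23.trans h12)]⟩

/-- **three lumps, from `T3N`, at the family `k`** -/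
theorem t3_at (G : T3N (7 / 8 + d) r) (hd : 0 ≤ d) {k z₁ z₂ z₃ n : ℝ} (h1 : 0 ≤ z₁)
    (h2 : 0 ≤ z₂) (h3 : 0 ≤ z₃) (hn : z₁ + z₂ + z₃ ≤ n) (hk : 17 / 15 * n ≤ k) :
    ∀ κ' : ℝ, 0 ≤ κ' → κ' ≤ k → r κ' {z₁, z₂, z₃} 0 0 + (k - κ') / 3 ≤
      k + n + max 0 ((4 * n - 3 * k) / 9) + 2 * d * min z₁ (min z₂ z₃) := by
  intro κ' k0 k1
  obtain ⟨A, B, C, he, hs, hCA, hCB, hC⟩ := sortT (z₁ := z₁) (z₂ := z₂) (z₃ := z₃)
  have hC0 : 0 ≤ C := hC ▸ le_min h1 (le_min h2 h3)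
  have m0 := le_max_left 0 ((4 * n - 3 * k) / 9)
  have m1 := le_max_right 0 ((4 * n - 3 * k) / 9)
  have hC3 : 3 * C ≤ n := by linarith
  have := G k (max 0 ((4 * n - 3 * k) / 9)) A B C 0 0 ⟨by linarith, m0, hC0, hCA, hCB, le_rfl,
    le_rfl, Or.inl (by norm_num), by linarith, by linarith, by linarith,
    Or.inr ⟨by norm_num, by linarith, by linarith, by linarith⟩⟩ κ' k0 k1
  rw [← he, hC] at this
  have e : 2 * (7 / 8 + d - 7 / 8) * (min z₁ (min z₂ z₃) + (0 + 0)) =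
    2 * d * min z₁ (min z₂ z₃) := by ring
  rw [e] at this
  linarith

/-- the closed form of the pointwise part -/
lemma r3_le_n4 {κ z₁ z₂ z₃ : ℝ} (hd : 0 ≤ d) :
    P1R904.r3 d κ (min z₁ κ) (min z₂ κ) (min z₃ κ) 0 ≤
      κ + (z₁ + z₂ + z₃) + (z₁ + z₂ + z₃) / 4 + 2 * d * min z₁ (min z₂ z₃) := by
  unfold P1R904.r3
  obtain ⟨t1, t2, t3, t4, t5, t6⟩ := R2N777.l3_leN κ (min z₁ κ) (min z₂ κ) (min z₃ κ)
  have a1 := min_le_left z₁ κ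
  have a2 := min_le_left z₂ κ
  have a3 := min_le_left z₃ κ
  obtain ⟨L, hL⟩ : ∃ L, L = P1R904.l3 κ (min z₁ κ) (min z₂ κ) (min z₃ κ) := ⟨_, rfl⟩
  rw [← hL] at t1 t2 t3 t4 t5 t6 ⊢
  have hm : L ≤ min z₁ (min z₂ z₃) := le_min (by linarith) (le_min (by linarith) (by linarith))
  have := mul_le_mul_of_nonneg_left hm (by linarith : (0:ℝ) ≤ 2 * d)
  linarith

/-- **the complete character side of three lumps** -/
theorem qa_full (R : ExpRules (7 / 8 + d) r s) (G : T3N (7 / 8 + d) r) (hd : 0 ≤ d)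
    (hd8 : d ≤ 1 / 8) {κ z₁ z₂ z₃ ρ : ℝ} (hκ : 0 ≤ κ) (h1 : 0 ≤ z₁) (h2 : 0 ≤ z₂) (h3 : 0 ≤ z₃)
    (hρ : z₁ + z₂ + z₃ + Tq0 κ (z₁ + z₂ + z₃) + 2 * d * min z₁ (min z₂ z₃) ≤ ρ) :
    Full (7 / 8 + d) r κ {z₁, z₂, z₃} 0 0 ρ := by
  have hmn : 0 ≤ min z₁ (min z₂ z₃) := le_min h1 (le_min h2 h3)
  have hdm : 0 ≤ 2 * d * min z₁ (min z₂ z₃) := mul_nonneg (by linarith) hmn
  rcases le_total (κ + (z₁ + z₂ + z₃) / 4) (max κ (max ((2 * κ + 4 / 3 * (z₁ + z₂ + z₃)) / 3)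
    (37 / 45 * (z₁ + z₂ + z₃) + κ / 3))) with hc | hc
  · unfold Tq0 at hρ
    rw [min_eq_left hc] at hρ
    exact full_P1 R hd hd8 h1 h2 h3 ((r3_le_n4 hd).trans (by linarith)) (by linarith)
  · unfold Tq0 at hρ
    rw [min_eq_right hc] at hρ
    obtain ⟨T, hT⟩ : ∃ T, T = max κ (max ((2 * κ + 4 / 3 * (z₁ + z₂ + z₃)) / 3)
      (37 / 45 * (z₁ + z₂ + z₃) + κ / 3)) := ⟨_, rfl⟩
    have t1 : κ ≤ T := hT ▸ le_max_left _ _
    have t2 : (2 * κ + 4 / 3 * (z₁ + z₂ + z₃)) / 3 ≤ T :=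
      hT ▸ (le_max_left _ _).trans (le_max_right _ _)
    have t3 : 37 / 45 * (z₁ + z₂ + z₃) + κ / 3 ≤ T :=
      hT ▸ (le_max_right _ _).trans (le_max_right _ _)
    rw [← hT] at hρ
    refine ⟨fun Y'' κ' hs hκ0 hκ1 hl => ?_, by linarith⟩
    obtain ⟨y₁, y₂, y₃, rfl, a1, b1, a2, b2, a3, b3⟩ := sh3 hs
    have hmy : min y₁ (min y₂ y₃) ≤ min z₁ (min z₂ z₃) := min_le_min b1 (min_le_min b2 b3)
    have hdy := mul_le_mul_of_nonneg_left hmy (by linarith : (0:ℝ) ≤ 2 * d)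
    rcases le_total (17 / 15 * (z₁ + z₂ + z₃)) κ with h | h
    · have e := t3_at G hd a1 a2 a3 (by linarith : y₁ + y₂ + y₃ ≤ z₁ + z₂ + z₃) h κ' hκ0 hκ1
      rcases max_cases 0 ((4 * (z₁ + z₂ + z₃) - 3 * κ) / 9) with ⟨h4, -⟩ | ⟨h4, -⟩ <;>
        rw [h4] at e <;> linarith
    · have e := t3_at G hd a1 a2 a3 (by linarith : y₁ + y₂ + y₃ ≤ z₁ + z₂ + z₃) le_rfl κ' hκ0
        (hκ1.trans h)
      rcases max_cases 0 ((4 * (z₁ + z₂ + z₃) - 3 * (17 / 15 * (z₁ + z₂ + z₃))) / 9) with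
        ⟨h4, h5⟩ | ⟨h4, -⟩ <;> rw [h4] at e <;> linarith

lemma Tqa_cont : Continuous fun x : Fin 5 → ℝ => Tqa (x 0) (x 1) (x 2) (x 3) (x 2 - x 4) := by
  unfold Tqa Tq0
  fun_prop

/-- **the side conditions of `dQa Tqa qm`** -/
theorem realQ_qa (R : ExpRules (7 / 8 + d) r s) (G : T3N (7 / 8 + d) r) (hd : 0 ≤ d)
    (hd8 : d ≤ 1 / 8) {NP : ℝ → ℝ → Multiset ℝ → ℝ → ℝ → ℝ → Prop} {κ : ℝ}
    (qm : ℝ → ℝ → ℝ → ℝ) :
    RealQ d NP (fun l Y m a ρ => Full (7 / 8 + d) r l Y m a ρ) s₀ κ (dQa Tqa qm) := by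
  intro K V z₁ z₂ z₃ F hK hA
  have hfl : 4 / 3 * (z₁ + z₂ + z₃) + (V + K) / 3 ≤ flK K V (z₁ + z₂ + z₃) := by
    unfold NE73.flK
    have := le_max_right 0 ((V + K - 2 * (z₁ + z₂ + z₃)) / 3)
    linarith
  have h1 := hA.h1
  have h2 := hA.h2
  have h3 := hA.h3
  have hV := hA.V0
  have hK0 := hA.K0
  have hF1 := hA.F1
  refine ⟨by linarith, ?_⟩
  intro j θ Y' m' a' i hs hm0 hm1 ha0 ha1 hi0 hi1 hG hz
  obtain rfl : m' = 0 := le_antisymm hm1 hm0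
  obtain rfl : a' = 0 := le_antisymm ha1 ha0
  obtain ⟨y₁, y₂, y₃, rfl, a1, b1, a2, b2, a3, b3⟩ := sh3 hs
  rw [sum3n, sum3n]
  have hmy : min y₁ (min y₂ y₃) ≤ min z₁ (min z₂ z₃) := min_le_min b1 (min_le_min b2 b3)
  have hdy := (mul_le_mul_of_nonneg_left hmy (by linarith : (0:ℝ) ≤ 2 * d)).trans hA.F0
  show Full (7 / 8 + d) r i {y₁, y₂, y₃} 0 0 (flK K V (z₁ + z₂ + z₃) + F +
    ((y₁ + y₂ + y₃) + Tqa K V (z₁ + z₂ + z₃) i ((z₁ + z₂ + z₃) - (y₁ + y₂ + y₃)) -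
      (4 / 3 * (z₁ + z₂ + z₃) + (V + K) / 3)))
  have e : Tqa K V (z₁ + z₂ + z₃) i ((z₁ + z₂ + z₃) - (y₁ + y₂ + y₃)) =
      Tq0 i (y₁ + y₂ + y₃) := by
    unfold Tqa
    rw [sub_sub_cancel]
  rw [e]
  exact qa_full R G hd hd8 hi0 a1 a2 a3 (by linarith)

/-- **helper83's budget** -/
theorem Tqa_budget {K V m l a c F₃ e : ℝ} (hK : 0 < K) (hc : 0 ≤ c) (hcK : 5000 * c ≤ K)
    (hF3 : F₃ = max 0 ((4 * m - 3 * K) / 9)) (m5 : 5 * m ≤ 4 * K) (m3 : 1499 * K ≤ 2000 * m)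
    (hV : 5 * (V + m) ≤ 7 * K) (h0 : 0 ≤ l) (he : 0 ≤ e) (he2 : 2 * e ≤ c)
    (hl : l ≤ K - 3 * (F₃ + 2 * c - e))
    (ha : (K - l) / 3 - (F₃ + c) - (m - 3 / 4 * K) - 4 * c ≤ a) (ha0 : 0 ≤ a) (ham : a ≤ m) :
    m - a + Tqa K V m l a ≤ 2 * (K + m) - 2 / 3 * (K - l) -
      max (K / 3 + 2 / 3 * l + F₃) (V + K / 3) - m - 3 * c := by
  unfold Tqa
  have f0 : 0 ≤ F₃ := hF3 ▸ le_max_left _ _
  have f1 : (4 * m - 3 * K) / 9 ≤ F₃ := hF3 ▸ le_max_right _ _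
  have t2 : Tq0 l (m - a) ≤ max l (max ((2 * l + 4 / 3 * (m - a)) / 3)
    (37 / 45 * (m - a) + l / 3)) := min_le_right _ _
  have hf : F₃ = 0 ∧ 4 * m ≤ 3 * K ∨ F₃ = (4 * m - 3 * K) / 9 := by
    rcases max_cases 0 ((4 * m - 3 * K) / 9) with ⟨h, h'⟩ | ⟨h, h'⟩
    · left; exact ⟨by rw [hF3, h], by linarith⟩
    · right; rw [hF3, h]
  rcases max_cases l (max ((2 * l + 4 / 3 * (m - a)) / 3) (37 / 45 * (m - a) + l / 3)) with
    ⟨h3, h4⟩ | ⟨h3, h4⟩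
  · have h4' := (le_max_left _ _).trans h4
    rw [h3] at t2
    rcases max_cases (K / 3 + 2 / 3 * l + F₃) (V + K / 3) with ⟨h1, h2⟩ | ⟨h1, h2⟩ <;> rw [h1] <;>
    rcases hf with ⟨h5, h6⟩ | h5 <;> linarith
  · rw [h3] at t2
    rcases max_cases ((2 * l + 4 / 3 * (m - a)) / 3) (37 / 45 * (m - a) + l / 3) with
      ⟨h7, h8⟩ | ⟨h7, h8⟩ <;> rw [h7] at t2 h4 <;>
    rcases max_cases (K / 3 + 2 / 3 * l + F₃) (V + K / 3) with ⟨h1, h2⟩ | ⟨h1, h2⟩ <;> rw [h1] <;>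
    rcases hf with ⟨h5, h6⟩ | h5 <;> linarith

end Crest.Agent.R017.RGB545
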