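import Crest.Agent.R017.R2N_777
import Crest.Agent.R017.RM3a_986
import Crest.Agent.R017.QLd_777

/-!
# Row 17, FlatNE: the dual line (ro) / (r3h) of the near-equal triple (helper603)

Homogeneous in the family `K`, list of length `n`, top level `V`, `StN K n V t` (`5 (V + n) ≤ 7 K`),
second scale `K e^{-h}`, `3 h ≤ (4 n - 3 K)⁺ + K/200`; dual family `I = V + n - K + h + μ`,
`μ ≤ K/100`. No condition on the shape of the list.

* `full3` : the complete character side of three lumps from the closed form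
* `r3_both` : (r3h) of helper64, every removed length `δ`, slope `1`; (ro) of helper116 with the
  loss `δ + 2/3 min δ (K/15) + 16/27 F3 + 4 c`
* `FR3`, `FRo`, `r3h_full`, `ro_full` : the same with `Full`, every family `l ≤ I`
-/

set_option autoImplicit false
set_option linter.unusedVariables false

noncomputable section

namespace Crest.Agent.R017.R3N603

open Crest.Agent.R017.P1R904
open Crest.Agent.R017.ER911 (EF Sh ExpRules)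
open Crest.Agent.R017.SC777 (Full sh3)
open Crest.Agent.R017.NE73 (flK)
open Crest.Agent.R017.R2N777 (StN ChN l3_leN r3_leN)

lemma slope_le (K v n : ℝ) : 4 / 3 * n + (v + K) / 3 ≤ flK K v n := NE73.slope_le_flK K v n

lemma two_le (K v n : ℝ) : 2 * n ≤ flK K v n := by
  unfold NE73.flK
  linarith [le_max_left 0 ((v + K - 2 * n) / 3)]

/-! ### the linear core -/

set_option maxHeartbeats 4000000 in
/-- both lines -/
lemma core {K n V t h μ δ w c g i z₁ z₂ z₃ L m₁ m₂ m₃ M Tm X : ℝ}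
    (K0 : 0 ≤ K) (t0 : 0 ≤ t) (tK : 20000 * t ≤ K) (n5 : 5 * n ≤ 4 * K + t)
    (n3 : 1499 * K ≤ 2000 * n) (vn : 5 * (V + n) ≤ 7 * K + t)
    (hM : (M = 0 ∧ 4 * n - 3 * K ≤ 0) ∨ (M = 4 * n - 3 * K ∧ 0 ≤ 4 * n - 3 * K))
    (h00 : 0 ≤ h) (h1 : 3 * h ≤ M + K / 200) (V0 : 0 ≤ V) (μ0 : 0 ≤ μ) (μK : 100 * μ ≤ K)
    (c1 : 2000 * c ≤ K) (g1 : 2000 * g ≤ 2000 * n - 1499 * K + t) (d0 : 0 ≤ δ)
    (i1 : i ≤ V + n - K + h + μ)
    (z10 : 0 ≤ z₁) (z20 : 0 ≤ z₂) (z30 : 0 ≤ z₃) (tot : z₁ + z₂ + z₃ + δ ≤ n + t)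
    (j1 : m₁ ≤ z₁) (j2 : m₂ ≤ z₂) (j3 : m₃ ≤ z₃)
    (l1 : L ≤ m₁) (l2 : L ≤ i - m₁) (l3 : L ≤ m₂) (l4 : L ≤ i - m₂) (l5 : L ≤ m₃)
    (l6 : L ≤ i - m₃)
    (hX : X ≤ 0 ∨ X ≤ (2 * V - K) / 3 ∨ X ≤ (3 * V - n - K) / 2 + h / 6)
    (hT : 2 * n ≤ Tm) (hT2 : 4 / 3 * n + (K + V) / 3 ≤ Tm)
    (hm : Tm < δ + X + g / 3 + μ + (i + (m₁ + m₂ + m₃) + 3 / 4 * L) + K / 100 ∨
      (w ≤ δ ∧ 15 * w ≤ K) ∧
        Tm < δ + 2 / 3 * w + X + μ + 16 / 243 * M + 4 * c +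
          (i + (m₁ + m₂ + m₃) + 3 / 4 * L) + K / 400) :
    False := by
  rcases hm with hm | ⟨⟨hw1, hw2⟩, hm⟩ <;> rcases hM with ⟨rfl, hM⟩ | ⟨rfl, hM⟩ <;>
    rcases hX with hX | hX | hX <;> linarith

/-- the three-term loss -/
def Xl (K V n h : ℝ) : ℝ := max 0 (max ((2 * V - K) / 3) ((3 * V - n - K) / 2 + h / 6))

lemma Xl_cases (K V n h : ℝ) : Xl K V n h ≤ 0 ∨ Xl K V n h ≤ (2 * V - K) / 3 ∨
    Xl K V n h ≤ (3 * V - n - K) / 2 + h / 6 := by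
  unfold Xl
  rcases max_choice 0 (max ((2 * V - K) / 3) ((3 * V - n - K) / 2 + h / 6)) with h' | h'
  · left; rw [h']
  · rw [h']
    rcases max_choice ((2 * V - K) / 3) ((3 * V - n - K) / 2 + h / 6) with h'' | h''
    · right; left; rw [h'']
    · right; right; rw [h'']

/-- **(r3h) and (ro)**, closed forms -/
theorem r3_both {K V n t h μ c d F δ g i z₁ z₂ z₃ : ℝ} (hS : StN K n V t) (V0 : 0 ≤ V) (h0 : 0 ≤ h)
    (h1 : 3 * h ≤ max 0 (4 * n - 3 * K) + K / 200) (μ0 : 0 ≤ μ) (μK : 100 * μ ≤ K)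
    (c1 : 2000 * c ≤ K) (d0 : 0 ≤ d)
    (hF : 2 * d * min z₁ (min z₂ z₃) ≤ F) (g1 : 2000 * g ≤ 2000 * n - 1499 * K + t)
    (hδ : 0 ≤ δ) (hi : i ≤ V + n - K + h + μ) (hc : ChN n t δ z₁ z₂ z₃) :
    δ + Xl K V n h + g / 3 + μ + r3 d i (min z₁ i) (min z₂ i) (min z₃ i) 0 + K / 100 ≤
        flK K V n + F ∧
    δ + 2 / 3 * min δ (K / 15) + Xl K V n h + μ + 16 / 27 * max 0 ((4 * n - 3 * K) / 9) + 4 * c +
      r3 d i (min z₁ i) (min z₂ i) (min z₃ i) 0 + K / 400 ≤ flK K V n + F := by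
  obtain ⟨K0, t0, tK, n5, n3, vn⟩ := hS
  obtain ⟨z10, z20, z30, tot⟩ := hc
  have hM : (max 0 (4 * n - 3 * K) = 0 ∧ 4 * n - 3 * K ≤ 0) ∨
      (max 0 (4 * n - 3 * K) = 4 * n - 3 * K ∧ 0 ≤ 4 * n - 3 * K) := by
    rcases le_total 0 (4 * n - 3 * K) with h' | h'
    · exact Or.inr ⟨max_eq_right h', h'⟩
    · exact Or.inl ⟨max_eq_left h', h'⟩
  have j1 := min_le_left z₁ i
  have j2 := min_le_left z₂ i
  have j3 := min_le_left z₃ i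
  obtain ⟨l1, l2, l3', l4, l5, l6⟩ := l3_leN i (min z₁ i) (min z₂ i) (min z₃ i)
  have hr := r3_leN (i := i) d0 (z₁ := min z₁ i) (z₂ := min z₂ i) (z₃ := min z₃ i) (F := F)
    (le_trans (mul_le_mul_of_nonneg_left (min_le_min j1 (min_le_min j2 j3)) (by linarith)) hF)
  have hX := Xl_cases K V n h
  have s1 := slope_le K V n
  constructor
  · by_contra hcon
    rw [not_le] at hcon
    exact core K0 t0 tK n5 n3 vn hM h0 h1 V0 μ0 μK c1 g1 hδ hi z10 z20 z30 tot j1 j2 j3 l1 l2 l3' l4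
      l5 l6 hX (two_le K V n) (by linarith) (w := 0) (Or.inl (by linarith))
  · by_contra hcon
    rw [not_le] at hcon
    have w1 := min_le_left δ (K / 15)
    have w2 := min_le_right δ (K / 15)
    have hM9 : 9 * max 0 ((4 * n - 3 * K) / 9) = max 0 (4 * n - 3 * K) := by
      rcases hM with ⟨h', h''⟩ | ⟨h', h''⟩
      · rw [h', max_eq_left (by linarith), mul_zero]
      · rw [h', max_eq_right (by linarith)]; ring
    exact core K0 t0 tK n5 n3 vn hM h0 h1 V0 μ0 μK c1 g1 hδ hi z10 z20 z30 tot j1 j2 j3 l1 l2 l3' l4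
      l5 l6 hX (two_le K V n) (by linarith) (w := min δ (K / 15))
      (Or.inr ⟨⟨w1, by linarith⟩, by linarith⟩)

/-! ### `Full` -/

lemma l3_le_of {κ κ' a₁ a₂ a₃ b₁ b₂ b₃ : ℝ} (hκ : κ' ≤ κ) (h1 : a₁ ≤ b₁) (h2 : a₂ ≤ b₂)
    (h3 : a₃ ≤ b₃) : P1R904.l3 κ' a₁ a₂ a₃ ≤ P1R904.l3 κ b₁ b₂ b₃ +
      max 0 (b₁ - a₁ + (b₂ - a₂) + (b₃ - a₃) - (κ - κ')) := by
  obtain ⟨M, hM⟩ : ∃ M, M = max 0 (b₁ - a₁ + (b₂ - a₂) + (b₃ - a₃) - (κ - κ')) := ⟨_, rfl⟩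
  have m0 : 0 ≤ M := hM ▸ le_max_left _ _
  have m1 : b₁ - a₁ + (b₂ - a₂) + (b₃ - a₃) - (κ - κ') ≤ M := hM ▸ le_max_right _ _
  obtain ⟨t1, t2, t3, t4, t5, t6⟩ := R2N777.l3_leN κ' a₁ a₂ a₃
  rw [← hM]
  have key : P1R904.l3 κ' a₁ a₂ a₃ - M ≤ P1R904.l3 κ b₁ b₂ b₃ := by
    refine le_min (le_min ?_ ?_) (le_min (le_min ?_ ?_) (le_min ?_ ?_)) <;> linarith
  linarith

/-- the complete character side of three lumps (helper545's `full_P1`) -/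
theorem full3 {d : ℝ} {r s : EF} (R : ExpRules (7 / 8 + d) r s) (hd : 0 ≤ d) (hd8 : d ≤ 1 / 8)
    {κ z₁ z₂ z₃ ρ : ℝ} (h1 : 0 ≤ z₁) (h2 : 0 ≤ z₂) (h3 : 0 ≤ z₃)
    (hρ : P1R904.r3 d κ (min z₁ κ) (min z₂ κ) (min z₃ κ) 0 ≤ ρ) (hρ' : κ / 3 ≤ ρ) :
    Full (7 / 8 + d) r κ {z₁, z₂, z₃} 0 0 ρ := by
  refine ⟨fun Y'' κ' hs hκ0 hκ1 hl => ?_, by linarith⟩
  obtain ⟨y₁, y₂, y₃, rfl, a1, b1, a2, b2, a3, b3⟩ := sh3 hs
  have e1 := (RM986.r_three R hd hd8 hκ0 a1 a2 a3 le_rfl le_rfl).trans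
    (RM986.r3_le_P1 (d := d) (m := 0) (a := 0) hκ0 a1 a2 a3)
  have k1 : min y₁ κ' ≤ min z₁ κ := min_le_min b1 hκ1
  have k2 : min y₂ κ' ≤ min z₂ κ := min_le_min b2 hκ1
  have k3 : min y₃ κ' ≤ min z₃ κ := min_le_min b3 hκ1
  have e2 := l3_le_of hκ1 k1 k2 k3
  unfold P1R904.r3 at e1 hρ
  obtain ⟨M, hM⟩ : ∃ M, M = max 0 (min z₁ κ - min y₁ κ' + (min z₂ κ - min y₂ κ') +
    (min z₃ κ - min y₃ κ') - (κ - κ')) := ⟨_, rfl⟩
  rw [← hM] at e2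
  have m0 : 0 ≤ M := hM ▸ le_max_left _ _
  have m1 : M ≤ min z₁ κ - min y₁ κ' + (min z₂ κ - min y₂ κ') + (min z₃ κ - min y₃ κ') := by
    rw [hM]
    exact max_le (by linarith) (by linarith)
  have m2 : (3 / 4 + 2 * d) * P1R904.l3 κ' (min y₁ κ') (min y₂ κ') (min y₃ κ') ≤
      (3 / 4 + 2 * d) * P1R904.l3 κ (min z₁ κ) (min z₂ κ) (min z₃ κ) + M := by
    have g1 := mul_le_mul_of_nonneg_left e2 (by linarith : (0:ℝ) ≤ 3 / 4 + 2 * d)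
    have g2 : (3 / 4 + 2 * d) * M ≤ 1 * M := mul_le_mul_of_nonneg_right (by linarith) m0
    linarith
  linarith

/-- smaller families -/
lemma full_down {θ : ℝ} {r : EF} {κ l : ℝ} {Y : Multiset ℝ} {m a ρ : ℝ}
    (H : Full θ r κ Y m a ρ) (hl : l ≤ κ) : Full θ r l Y m a (ρ - (κ - l) / 3) := by
  refine ⟨fun Y'' κ' h1 h2 h3 h4 => ?_, ?_⟩
  · have := H.1 Y'' κ' h1 h2 (h3.trans hl) h4
    linarith
  · have := H.2
    linarith

lemma full_mono {θ : ℝ} {r : EF} {κ : ℝ} {Y : Multiset ℝ} {m a ρ ρ' : ℝ}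
    (H : Full θ r κ Y m a ρ) (h : ρ ≤ ρ') : Full θ r κ Y m a ρ' :=
  ⟨fun Y'' κ' h1 h2 h3 h4 => (H.1 Y'' κ' h1 h2 h3 h4).trans h, H.2.trans h⟩

/-- exponent of (r3h) over the target (helper64) -/
def FR3 (K V n n' l h g μ : ℝ) : ℝ :=
  -((n - n') + max 0 (max ((2 * V - K) / 3) ((3 * V - n - K) / 2 + h / 6)) + g / 3 + μ +
    ((V + n - K + h + μ) - l) / 3)

/-- exponent of (ro) over the target (helper116, helper64) -/
def FRo (K V n n' l h μ c : ℝ) : ℝ :=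
  h / 3 - max 0 (max ((h + 2 * V - K) / 3) ((h + 2 * V - K) - (V + n + h - K) / 2)) -
    (n - n') - 2 / 3 * min (n - n') (K / 15) - ((V + n + h - K) + μ - l) / 3 - μ -
    16 / 27 * max 0 ((4 * n - 3 * K) / 9) - 4 * c

lemma Xl_ge (K V n h : ℝ) (h0 : 0 ≤ h) :
    max 0 (max ((h + 2 * V - K) / 3) ((h + 2 * V - K) - (V + n + h - K) / 2)) - h / 3 ≤
      Xl K V n h := by
  have a1 : 0 ≤ Xl K V n h := le_max_left _ _
  have a2 : (2 * V - K) / 3 ≤ Xl K V n h := (le_max_left _ _).trans (le_max_right _ _)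
  have a3 : (3 * V - n - K) / 2 + h / 6 ≤ Xl K V n h := (le_max_right _ _).trans (le_max_right _ _)
  have : max 0 (max ((h + 2 * V - K) / 3) ((h + 2 * V - K) - (V + n + h - K) / 2)) ≤
      Xl K V n h + h / 3 := max_le (by linarith) (max_le (by linarith) (by linarith))
  linarith

/-- **(r3h)** with `Full`: every child of the near list, every family `l ≤ V + n - K + h + μ` -/
theorem r3h_full {d : ℝ} {r s : EF} (R : ExpRules (7 / 8 + d) r s) (hd : 0 ≤ d)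
    (hd8 : d ≤ 1 / 8) {K V n t h g μ F l z₁ z₂ z₃ : ℝ} (hS : StN K n V t) (V0 : 0 ≤ V)
    (h0 : 0 ≤ h) (h1 : 3 * h ≤ max 0 (4 * n - 3 * K) + K / 200) (μ0 : 0 ≤ μ)
    (μK : 100 * μ ≤ K) (hF : 2 * d * min z₁ (min z₂ z₃) ≤ F) (g0 : 0 ≤ g)
    (g1 : 2000 * g ≤ 2000 * n - 1499 * K + t) (z1 : 0 ≤ z₁) (z2 : 0 ≤ z₂) (z3 : 0 ≤ z₃)
    (hz : z₁ + z₂ + z₃ ≤ n) (hl0 : 0 ≤ l) (hl : l ≤ V + n - K + h + μ) :
    Full (7 / 8 + d) r l {z₁, z₂, z₃} 0 0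
      (flK K V n + F + FR3 K V n (z₁ + z₂ + z₃) l h g μ) := by
  obtain ⟨I, hI⟩ : ∃ I, I = V + n - K + h + μ := ⟨_, rfl⟩
  have key := (r3_both (i := I) (δ := n - (z₁ + z₂ + z₃)) (c := 0) hS V0 h0 h1 μ0 μK
    (by linarith [hS.K0]) hd hF g1 (by linarith) (by linarith) ⟨z1, z2, z3, by linarith [hS.t0]⟩).1
  have hI0 : 0 ≤ I := by linarith
  have hr0 : I ≤ r3 d I (min z₁ I) (min z₂ I) (min z₃ I) 0 := by
    have q1 : 0 ≤ min z₁ I := le_min z1 hI0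
    have q2 : 0 ≤ min z₂ I := le_min z2 hI0
    have q3 : 0 ≤ min z₃ I := le_min z3 hI0
    have p1 := min_le_right z₁ I
    have p2 := min_le_right z₂ I
    have p3 := min_le_right z₃ I
    have hl0 : 0 ≤ P1R904.l3 I (min z₁ I) (min z₂ I) (min z₃ I) := by
      refine le_min (le_min q1 ?_) (le_min (le_min q2 ?_) (le_min q3 ?_)) <;> linarith
    have hl1 := mul_nonneg (by linarith : (0 : ℝ) ≤ 3 / 4 + 2 * d) hl0
    unfold P1R904.r3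
    linarith
  have hX : Xl K V n h = max 0 (max ((2 * V - K) / 3) ((3 * V - n - K) / 2 + h / 6)) := rfl
  have hK0 := hS.K0
  have hfull := full3 (κ := I) (ρ := flK K V n + F - ((n - (z₁ + z₂ + z₃)) + Xl K V n h + g / 3 + μ))
    R hd hd8 z1 z2 z3 (by linarith) (by linarith)
  refine full_mono (full_down hfull (by linarith : l ≤ I)) (le_of_eq ?_)
  unfold FR3
  rw [hX, hI]
  ring

/-- **(ro)** with `Full`: every child, every family `l ≤ V + n + h - K + μ` -/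
theorem ro_full {d : ℝ} {r s : EF} (R : ExpRules (7 / 8 + d) r s) (hd : 0 ≤ d)
    (hd8 : d ≤ 1 / 8) {K V n t h μ c F l z₁ z₂ z₃ : ℝ} (hS : StN K n V t) (V0 : 0 ≤ V)
    (h0 : 0 ≤ h) (h1 : 3 * h ≤ max 0 (4 * n - 3 * K) + K / 200) (μ0 : 0 ≤ μ)
    (μK : 100 * μ ≤ K) (c0 : 0 ≤ c) (c1 : 2000 * c ≤ K) (hF : 2 * d * min z₁ (min z₂ z₃) ≤ F)
    (z1 : 0 ≤ z₁) (z2 : 0 ≤ z₂) (z3 : 0 ≤ z₃) (hz : z₁ + z₂ + z₃ ≤ n)
    (hl0 : 0 ≤ l) (hl : l ≤ V + n + h - K + μ) :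
    Full (7 / 8 + d) r l {z₁, z₂, z₃} 0 0
      (flK K V n + F + FRo K V n (z₁ + z₂ + z₃) l h μ c) := by
  obtain ⟨I, hI⟩ : ∃ I, I = V + n - K + h + μ := ⟨_, rfl⟩
  have key := (r3_both (i := I) (δ := n - (z₁ + z₂ + z₃)) (g := 0) hS V0 h0 h1 μ0 μK c1 hd hF
    (by linarith [hS.n3, hS.t0]) (by linarith) (by linarith) ⟨z1, z2, z3, by linarith [hS.t0]⟩).2
  have hI0 : 0 ≤ I := by linarith
  have hr0 : I ≤ r3 d I (min z₁ I) (min z₂ I) (min z₃ I) 0 := by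
    have q1 : 0 ≤ min z₁ I := le_min z1 hI0
    have q2 : 0 ≤ min z₂ I := le_min z2 hI0
    have q3 : 0 ≤ min z₃ I := le_min z3 hI0
    have p1 := min_le_right z₁ I
    have p2 := min_le_right z₂ I
    have p3 := min_le_right z₃ I
    have hl0 : 0 ≤ P1R904.l3 I (min z₁ I) (min z₂ I) (min z₃ I) := by
      refine le_min (le_min q1 ?_) (le_min (le_min q2 ?_) (le_min q3 ?_)) <;> linarith
    have hl1 := mul_nonneg (by linarith : (0 : ℝ) ≤ 3 / 4 + 2 * d) hl0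
    unfold P1R904.r3
    linarith
  have hX := Xl_ge K V n h h0
  have hK0 := hS.K0
  have hw0 : 0 ≤ min (n - (z₁ + z₂ + z₃)) (K / 15) := le_min (by linarith) (by linarith)
  have hm0 : 0 ≤ max 0 ((4 * n - 3 * K) / 9) := le_max_left _ _
  have hfull := full3 (κ := I) (ρ := flK K V n + F - ((n - (z₁ + z₂ + z₃)) +
    2 / 3 * min (n - (z₁ + z₂ + z₃)) (K / 15) + Xl K V n h + μ +
    16 / 27 * max 0 ((4 * n - 3 * K) / 9) + 4 * c)) R hd hd8 z1 z2 z3 (by linarith)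
    (by linarith)
  refine full_mono (full_down hfull (by linarith : l ≤ I)) ?_
  unfold FRo
  linarith

end Crest.Agent.R017.R3N603
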