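import Crest.Agent.R017.NET_545
import Crest.Agent.R017.R3N_603

/-!
# Row 17, FlatNE: the dual line of the near leaf at the level of `RealQ` (helper603)

* `dRn hh μ c` : the line (ro) of helper116 / helper64, final form (#37387)
* `dRn_ok`, `realQ_ro`
-/

set_option autoImplicit false
set_option linter.unusedVariables false

noncomputable section

namespace Crest.Agent.R017.RGB545

open Crest.Agent.R017.ER911 (Ok Sh EF ExpRules)
open Crest.Agent.R017.SC777 (Full sh3 sum3)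
open Crest.Agent.R017.NE73 (flK)
open Crest.Agent.R017.R3N603 (FRo ro_full)

/-- **the line of the Gram sums** (helper116, helper64): slope `5/3` up to `K/15`, then slope `1` -/
def dRn (hh : ℝ → ℝ → ℝ → ℝ) (μ c : ℝ) : LD Unit 9 where
  k _ := .rf
  b _ _ := 0
  zl _ := False
  G _ x _ := x 3 - (I1 hh x + μ)
  F _ x _ := hh (x 0) (x 1) (x 2) / 3 - max 0 (max (L1 hh x / 3) (L1 hh x - I1 hh x / 2)) -
    (x 2 - x 4) - 2 / 3 * min (x 2 - x 4) (x 0 / 15) - (I1 hh x + μ - x 3) / 3 - μ -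
    16 / 27 * max 0 ((4 * x 2 - 3 * x 0) / 9) - 4 * c

theorem dRn_ok {hh : ℝ → ℝ → ℝ → ℝ} (hc : ContH hh) (μ c : ℝ) : (dRn hh μ c).OK where
  cb _ := continuous_const
  b0 _ θ hθ := le_rfl
  cG _ := by
    have h1 : Continuous fun x : (Fin 5 → ℝ) × (Fin 9 → ℝ) => hh (x.1 0) (x.1 1) (x.1 2) :=
      hc.comp continuous_fst
    show Continuous fun x : (Fin 5 → ℝ) × (Fin 9 → ℝ) => x.1 3 - (I1 hh x.1 + μ)
    unfold I1
    exact Continuous.sub (by fun_prop)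
      (((Continuous.add (by fun_prop) h1).sub (by fun_prop)).add continuous_const)
  cF _ := by
    have h1 : Continuous fun x : (Fin 5 → ℝ) × (Fin 9 → ℝ) => hh (x.1 0) (x.1 1) (x.1 2) :=
      hc.comp continuous_fst
    have hI : Continuous fun x : (Fin 5 → ℝ) × (Fin 9 → ℝ) => I1 hh x.1 := by
      unfold I1
      exact (Continuous.add (by fun_prop) h1).sub (by fun_prop)
    have hL : Continuous fun x : (Fin 5 → ℝ) × (Fin 9 → ℝ) => L1 hh x.1 := by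
      unfold L1
      exact (h1.add (by fun_prop)).sub (by fun_prop)
    have hR : Continuous fun x : (Fin 5 → ℝ) × (Fin 9 → ℝ) => 2 / 3 * min (x.1 2 - x.1 4)
      (x.1 0 / 15) := by fun_prop
    have hM : Continuous fun x : (Fin 5 → ℝ) × (Fin 9 → ℝ) =>
      16 / 27 * max 0 ((4 * x.1 2 - 3 * x.1 0) / 9) := by fun_prop
    show Continuous fun x : (Fin 5 → ℝ) × (Fin 9 → ℝ) => hh (x.1 0) (x.1 1) (x.1 2) / 3 -
      max 0 (max (L1 hh x.1 / 3) (L1 hh x.1 - I1 hh x.1 / 2)) -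
      (x.1 2 - x.1 4) - 2 / 3 * min (x.1 2 - x.1 4) (x.1 0 / 15) - (I1 hh x.1 + μ - x.1 3) / 3 -
      μ - 16 / 27 * max 0 ((4 * x.1 2 - 3 * x.1 0) / 9) - 4 * c
    exact (((((((h1.div_const _).sub (continuous_const.max ((hL.div_const _).max
      (hL.sub (hI.div_const _))))).sub (by fun_prop)).sub hR).sub
      (((hI.add continuous_const).sub (by fun_prop)).div_const _)).sub continuous_const).sub
      hM).sub continuous_const

/-- **the side conditions of the dual line on the near domain**, both classes -/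
theorem realQ_ro {d : ℝ} {r s s₀ : EF} (R : ExpRules (7 / 8 + d) r s) (hd : 0 ≤ d)
    (hd8 : d ≤ 1 / 8) {NP : ℝ → ℝ → Multiset ℝ → ℝ → ℝ → ℝ → Prop} {hh : ℝ → ℝ → ℝ → ℝ}
    {κ μ c : ℝ} (hh0 : ∀ K V n : ℝ, κ ≤ K → 0 ≤ hh K V n)
    (hh1 : ∀ K V n : ℝ, κ ≤ K → 3 * hh K V n ≤ max 0 (4 * n - 3 * K) + K / 200)
    (μ0 : 0 ≤ μ) (μK : 100 * μ ≤ κ) (c0 : 0 ≤ c) (c1 : 2000 * c ≤ κ) :
    RealQ d NP (fun l Y m a ρ => Full (7 / 8 + d) r l Y m a ρ) s₀ κ (dRn hh μ c) := by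
  intro K V y₁ y₂ y₃ F hK hA
  obtain ⟨K0, V0, h1, h2, h3, n5, n3, vn, v3, F0, F1, -⟩ := hA
  obtain ⟨n, hn⟩ : ∃ n, n = y₁ + y₂ + y₃ := ⟨_, rfl⟩
  have hfl : 2 * n ≤ flK K V n := R3N603.two_le K V n
  rw [← hn] at n5 n3 vn ⊢
  refine ⟨by linarith, ?_⟩
  intro j θ Y' m' a' i hs hm0 hm1 ha0 ha1 hi0 hi1 hG hz
  obtain rfl : m' = 0 := le_antisymm hm1 hm0
  obtain rfl : a' = 0 := le_antisymm ha1 ha0
  obtain ⟨z₁, z₂, z₃, rfl, a1, b1, a2, b2, a3, b3⟩ := sh3 hs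
  rw [sum3n, sum3n, ← hn] at hG ⊢
  have hG' : i - ((V + n + hh K V n - K) + μ) ≤ 0 := hG
  have hmz : min z₁ (min z₂ z₃) ≤ min y₁ (min y₂ y₃) := min_le_min b1 (min_le_min b2 b3)
  have hFz : 2 * d * min z₁ (min z₂ z₃) ≤ F :=
    (mul_le_mul_of_nonneg_left hmz (by linarith)).trans F0
  have key := ro_full (t := 0) (V := V) (n := n) (h := hh K V n) (μ := μ) (c := c) (F := F)
    (l := i) R hd hd8 ⟨K0.le, le_rfl, by linarith, by linarith, n3, by linarith⟩ V0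
    (hh0 K V n hK) (hh1 K V n hK) μ0 (by linarith) c0 (by linarith) hFz a1 a2 a3 (by linarith)
    hi0 (by linarith)
  show Full (7 / 8 + d) r i {z₁, z₂, z₃} 0 0 (flK K V n + F + _)
  exact key

/-- (ro) at the second scale `hC c` -/
theorem realQ_roC {d : ℝ} {r s s₀ : EF} (R : ExpRules (7 / 8 + d) r s) (hd : 0 ≤ d)
    (hd8 : d ≤ 1 / 8) {NP : ℝ → ℝ → Multiset ℝ → ℝ → ℝ → ℝ → Prop} {κ μ c : ℝ} (μ0 : 0 ≤ μ)
    (μK : 100 * μ ≤ κ) (c0 : 0 ≤ c) (c1 : 2000 * c ≤ κ) :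
    RealQ d NP (fun l Y m a ρ => Full (7 / 8 + d) r l Y m a ρ) s₀ κ (dRn (hC c) μ c) :=
  realQ_ro R hd hd8 (fun K V n _ => hC_nonneg c0 K V n)
    (fun K V n hK => hC_le (by linarith)) μ0 μK c0 c1

end Crest.Agent.R017.RGB545
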