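import Crest.Agent.R017.NEU_603
import Crest.Agent.R017.RGE9_545
import Crest.Agent.R017.XPr_829

/-!
# Row 17, FlatNE: `QH`, `QHr` for the lines of the near leaf (helper545)

* `DN T qm a₁ a₂ μ e` : the lines of class N (pair line, line of the Gram sums, line of `NumEq`)
* `qhN_fin` : `QH` for the lines of class N on the near domain
* `qhE_fin` : `QH`, `QHr` for the lines of class E, any pair line whose side conditions hold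
-/

set_option autoImplicit false
set_option linter.unusedVariables false

noncomputable section

open Set Filter Topology

namespace Crest.Agent.R017.RGB545

open Crest.Agent.R012 Crest.Agent.R012.Eis Crest.Agent.R012.LS2
open Crest.Agent.R017.B770
open Crest.Agent.R017.Prov71
open Crest.Agent.R017.XP699
open Crest.Agent.R017.ER911 (Ok Sh EF ExpRules)
open Crest.Agent.R017.RuleM545
open Crest.Agent.R017.XPD571
open Crest.Agent.R017.XS0298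
open Crest.Agent.R017.Red848
open Crest.Agent.R017.SC777 (Full PM sh3 sum3)
open Crest.Agent.R017.NE73 (flK QH NearDom)
open Crest.Agent.R017.NEx911 (QHr)
open Crest.Agent.R017.PM320 (Clo)
open Crest.Agent.R017.PX829 (PX PXs)

variable {Lam ι ι' : Type*} {p : ℕ} {π : Lam → DPar} {h : ℝ → ℝ} {c₁ θ d : ℝ} {r s s₀ : EF}

/-- a number of the line of `NumEq` -/
abbrev TQ := ℝ → ℝ → ℝ → ℝ → ℝ → ℝ

/-- **the lines of the near leaf**, any pair line -/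
def DG (P : LD Unit 9) (T : TQ) (qm : ℝ → ℝ → ℝ → ℝ) (a₂ μ e : ℝ) :
    LD ((Unit ⊕ Unit) ⊕ Unit) 9 :=
  (P.sum (dRn (hC a₂) μ e)).sum (dQa T qm)

theorem DG_ok {P : LD Unit 9} (hP : P.OK) {T : TQ} {qm : ℝ → ℝ → ℝ → ℝ}
    (hT : Continuous fun x : Fin 5 → ℝ => T (x 0) (x 1) (x 2) (x 3) (x 2 - x 4))
    (hq : ContH qm) (a₂ μ e : ℝ) : (DG P T qm a₂ μ e).OK :=
  LD.OK.sum (LD.OK.sum hP (dRn_ok (contH_hC a₂) μ e)) (dQa_ok hT hq)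

/-- **the lines of class N** -/
def DN (T : TQ) (qm : ℝ → ℝ → ℝ → ℝ) (a₁ a₂ μ e : ℝ) : LD ((Unit ⊕ Unit) ⊕ Unit) 9 :=
  DG (dR2 (hC a₁)) T qm a₂ μ e

theorem realQ_DG (R : ExpRules (7 / 8 + d) r s) (hd : 0 ≤ d) (hd8 : d ≤ 1 / 8)
    {NP : ℝ → ℝ → Multiset ℝ → ℝ → ℝ → ℝ → Prop} {κ : ℝ} {P : LD Unit 9}
    (hP : RealQ d NP (fun l Y m a ρ => Full (7 / 8 + d) r l Y m a ρ) s₀ κ P)
    {T : TQ} {qm : ℝ → ℝ → ℝ → ℝ}
    (hqa : RealQ d NP (fun l Y m a ρ => Full (7 / 8 + d) r l Y m a ρ) s₀ κ (dQa T qm))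
    {a₂ μ e : ℝ} (h2 : 0 ≤ a₂) (h2κ : 2000 * a₂ ≤ κ) (μ0 : 0 ≤ μ) (μκ : 100 * μ ≤ κ)
    (e0 : 0 ≤ e) (eκ : 2000 * e ≤ κ) :
    RealQ d NP (fun l Y m a ρ => Full (7 / 8 + d) r l Y m a ρ) s₀ κ (DG P T qm a₂ μ e) :=
  RealQ.sum (RealQ.sum hP (realQ_ro R hd hd8 (fun K V n _ => hC_nonneg h2 K V n)
    (fun K V n hK => hC_le (by linarith)) μ0 μκ e0 eκ)) hqa

/-- **class N, `QH` on the near domain** -/
theorem qhN_fin (H : DataN (7 / 8 + d) π h c₁)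
    (R : ExpRules (7 / 8 + d) (ex Dq (RN0 π h)) (ex Dq (SP0 π h))) (hd : 0 ≤ d) (hd8 : d ≤ 1 / 8)
    {T : TQ} {qm : ℝ → ℝ → ℝ → ℝ}
    (hT : Continuous fun x : Fin 5 → ℝ => T (x 0) (x 1) (x 2) (x 3) (x 2 - x 4))
    (hq : ContH qm) {κ S y₁ y₂ y₃ : ℝ}
    (hqa : RealQ d (NPc d (ex Dq (RN0 π h)) (ex Dq (SP0 π h)))
      (fun l Y m a ρ => Full (7 / 8 + d) (ex Dq (RN0 π h)) l Y m a ρ) (ex Dq (S0f π h)) κ
      (dQa T qm))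
    (hdom : NearDom κ S y₁ y₂ y₃) {a₁ a₂ μ e c : ℝ} (h1 : 0 ≤ a₁) (h1κ : 2000 * a₁ ≤ κ)
    (h2 : 0 ≤ a₂) (h2κ : 2000 * a₂ ≤ κ) (μ0 : 0 ≤ μ) (μκ : 100 * μ ≤ κ) (e0 : 0 ≤ e)
    (eκ : 2000 * e ≤ κ) (hc : 0 < c) (hcκ : 5000 * c ≤ κ) :
    QH (QG (LNk π h (DN T qm a₁ a₂ μ e))) c (κ + 100 * c) S y₁ y₂ y₃ (2 * d * y₃ + 100 * c) := by
  have hy3 := hdom.p3
  refine qhN_of H R hd hd8 (DG_ok (dR2_ok (contH_hC a₁)) hT hq a₂ μ e) hdom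
    (realQ_DG R hd hd8 (realQ_r2 R hd hd8 h1 (by linarith)) hqa h2 h2κ μ0 μκ e0 eκ)
    (by positivity) ?_ hc hcκ
  have m1 : min y₁ (min y₂ y₃) ≤ y₃ := (min_le_right _ _).trans (min_le_right _ _)
  exact mul_le_mul_of_nonneg_left m1 (by linarith)

/-- **class E, `QH`, `QHr` on the near domain** -/
theorem qhE_fin (H : DataE (7 / 8 + d) π h c₁) (hcl : Clo π)
    (R : ExpRules (7 / 8 + d) (ex Dq (RNe π h)) (ex Dq (SPe π h))) (hd : 0 ≤ d) (hd8 : d ≤ 1 / 8)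
    {P : LD Unit 9} (hPo : P.OK) {T : TQ} {qm : ℝ → ℝ → ℝ → ℝ}
    (hT : Continuous fun x : Fin 5 → ℝ => T (x 0) (x 1) (x 2) (x 3) (x 2 - x 4))
    (hq : ContH qm) {κ S y₁ y₂ y₃ : ℝ}
    (hP : RealQ d (fun l β Y m a ρ => PXs (7 / 8 + d) (ex Dq (RNe π h)) (ex Dq (SPe π h)) l β Y m a ρ)
      (fun l Y m a ρ => Full (7 / 8 + d) (ex Dq (RNe π h)) l Y m a ρ) (ex Dq (S0e π h)) κ P)
    (hqa : RealQ d (fun l β Y m a ρ => PXs (7 / 8 + d) (ex Dq (RNe π h)) (ex Dq (SPe π h)) l β Y m a ρ)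
      (fun l Y m a ρ => Full (7 / 8 + d) (ex Dq (RNe π h)) l Y m a ρ) (ex Dq (S0e π h)) κ
      (dQa T qm))
    (hdom : NearDom κ S y₁ y₂ y₃) {a₂ μ e c : ℝ}
    (h2 : 0 ≤ a₂) (h2κ : 2000 * a₂ ≤ κ) (μ0 : 0 ≤ μ) (μκ : 100 * μ ≤ κ) (e0 : 0 ≤ e)
    (eκ : 2000 * e ≤ κ) (hc : 0 < c) (hcκ : 5000 * c ≤ κ) :
    QH (QG (LEk (rdE π) h (DG P T qm a₂ μ e))) c (κ + 100 * c) S y₁ y₂ y₃
        (2 * d * ((y₁ + y₂ + y₃) / 3) + 100 * c) ∧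
      QHr (QG (LEk (rdE π) h (DG P T qm a₂ μ e))) c (κ + 100 * c) S (y₁ + y₂ + y₃) y₃
        (2 * d * ((y₁ + y₂ + y₃) / 3) + 100 * c) := by
  have hy3 := hdom.p3
  have y32 := hdom.y32
  have y21 := hdom.y21
  exact qhE_of H (paok_pxs H hcl (XPr829.pairRules_px H.hpu H.hP H.hE hcl)) hd
    (DG_ok hPo hT hq a₂ μ e) hdom (realQ_DG R hd hd8 hP hqa h2 h2κ μ0 μκ e0 eκ)
    (mul_nonneg (by linarith) (by linarith)) le_rfl hc hcκ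

end Crest.Agent.R017.RGB545
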