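import Crest.Agent.R017.R3N_603

/-!
# Row 17, FlatNE: the line (qa) of the near leaf (helper603)

* `FarS d s` : the far claims of the Gauss side (statement of `ET71.farS` at `m = a = 0`)
* `Tqb`      : `max l (max (2/3 l + 4/9 n) (l/3 + 22/27 n))`
* `r_qb`     : the character side of three lumps from the far claims at the family `4/3 n`
* `qb_full`  : with `Full`, every family, every list
* `qb_num`   : the budget against helper904's `Gs`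
-/

set_option autoImplicit false
set_option linter.unusedVariables false

noncomputable section

namespace Crest.Agent.R017.QB603

open Crest.Agent.R017.ER911
open Crest.Agent.R017.SC777 (Full sh3 sum3)

variable {d : ℝ} {r s : EF}

/-- smallest lump -/
def mn3 (y₁ y₂ y₃ : ℝ) : ℝ := min y₁ (min y₂ y₃)

lemma mn3_mono {y₁ y₂ y₃ z₁ z₂ z₃ : ℝ} (h1 : y₁ ≤ z₁) (h2 : y₂ ≤ z₂) (h3 : y₃ ≤ z₃) :
    mn3 y₁ y₂ y₃ ≤ mn3 z₁ z₂ z₃ := min_le_min h1 (min_le_min h2 h3)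

/-- **the far claims** (`ET71.farS`, no granular mass) -/
def FarS (d : ℝ) (s : EF) : Prop := ∀ K v y₁ y₂ y₃ : ℝ, 0 ≤ K → 0 ≤ v → 0 ≤ y₁ → 0 ≤ y₂ → 0 ≤ y₃ →
  y₁ + y₂ + y₃ + mn3 y₁ y₂ y₃ ≤ K → 5 * (y₁ + y₂ + y₃) ≤ 4 * K →
  12 * (v + (y₁ + y₂ + y₃)) ≤ 17 * K → 3 * v ≤ 2 * K → 2 * v ≤ y₁ + y₂ + y₃ + K →
  s v {y₁, y₂, y₃} 0 0 ≤ 4 / 3 * (y₁ + y₂ + y₃) + (K + v) / 3 + 2 * d * mn3 y₁ y₂ y₃

def Tqb (l n : ℝ) : ℝ := max l (max (2 / 3 * l + 4 / 9 * n) (l / 3 + 22 / 27 * n))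

lemma Tqb_mono {l n n' : ℝ} (h : n ≤ n') : n + Tqb l n ≤ n' + Tqb l n' := by
  unfold Tqb
  have : max l (max (2 / 3 * l + 4 / 9 * n) (l / 3 + 22 / 27 * n)) ≤
      max l (max (2 / 3 * l + 4 / 9 * n') (l / 3 + 22 / 27 * n')) :=
    max_le_max le_rfl (max_le_max (by linarith) (by linarith))
  linarith

lemma ok3 {y₁ y₂ y₃ : ℝ} (h1 : 0 ≤ y₁) (h2 : 0 ≤ y₂) (h3 : 0 ≤ y₃) :
    Ok ({y₁, y₂, y₃} : Multiset ℝ) 0 0 := by
  refine ⟨fun y hy => ?_, le_rfl, le_rfl⟩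
  simp only [Multiset.insert_eq_cons, Multiset.mem_cons, Multiset.mem_singleton] at hy
  rcases hy with rfl | rfl | rfl <;> assumption

lemma sm3 (a b c : ℝ) : ({a, b, c} : Multiset ℝ).sum + 0 + 0 = a + b + c := by
  rw [sum3]; ring

/-- the direct range -/
theorem main_qb (R : ExpRules (7 / 8 + d) r s) (hfar : FarS d s) (hd : 0 ≤ d)
    {y₁ y₂ y₃ κ₁ : ℝ} (h1 : 0 ≤ y₁) (h2 : 0 ≤ y₂) (h3 : 0 ≤ y₃)
    (hκ : 10 / 9 * (y₁ + y₂ + y₃) ≤ κ₁) :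
    ∀ κ' : ℝ, 0 ≤ κ' → κ' ≤ κ₁ → r κ' {y₁, y₂, y₃} 0 0 + (κ₁ - κ') / 3 ≤
      (y₁ + y₂ + y₃) + max κ₁ ((2 * κ₁ + 4 / 3 * (y₁ + y₂ + y₃)) / 3) + 2 * d * mn3 y₁ y₂ y₃ := by
  have m1 := le_max_left κ₁ ((2 * κ₁ + 4 / 3 * (y₁ + y₂ + y₃)) / 3)
  have m2 := le_max_right κ₁ ((2 * κ₁ + 4 / 3 * (y₁ + y₂ + y₃)) / 3)
  have hmn0 : 0 ≤ mn3 y₁ y₂ y₃ := le_min h1 (le_min h2 h3)
  have hdm : 0 ≤ 2 * d * mn3 y₁ y₂ y₃ := by positivity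
  refine R.poisC κ₁ {y₁, y₂, y₃} 0 0 _ (by linarith) (ok3 h1 h2 h3)
    (by rw [sm3]; linarith) (by rw [sm3]; linarith) ?_
  intro Y' m' a' i hYs hm0 hm1 ha0 ha1 hi hii
  obtain rfl : m' = 0 := le_antisymm hm1 hm0
  obtain rfl : a' = 0 := le_antisymm ha1 ha0
  obtain ⟨a₁, a₂, a₃, rfl, p1, p1', p2, p2', p3, p3'⟩ := sh3 hYs
  rw [sm3] at hii
  rw [sm3, sm3]
  have hmm : mn3 a₁ a₂ a₃ ≤ mn3 y₁ y₂ y₃ := mn3_mono p1' p2' p3'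
  have hm3 : 3 * mn3 a₁ a₂ a₃ ≤ a₁ + a₂ + a₃ := by
    have e1 : mn3 a₁ a₂ a₃ ≤ a₁ := min_le_left _ _
    have e2 : mn3 a₁ a₂ a₃ ≤ a₂ := (min_le_right _ _).trans (min_le_left _ _)
    have e3 : mn3 a₁ a₂ a₃ ≤ a₃ := (min_le_right _ _).trans (min_le_right _ _)
    linarith
  have hf := hfar (4 / 3 * (y₁ + y₂ + y₃)) i a₁ a₂ a₃ (by linarith) hi p1 p2 p3 (by linarith)
    (by linarith) (by linarith) (by linarith) (by linarith)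
  have hd2 : 2 * d * mn3 a₁ a₂ a₃ ≤ 2 * d * mn3 y₁ y₂ y₃ :=
    mul_le_mul_of_nonneg_left hmm (by linarith)
  linarith

/-- **the character side of every list** -/
theorem r_qb (R : ExpRules (7 / 8 + d) r s) (hfar : FarS d s) (hd : 0 ≤ d)
    {y₁ y₂ y₃ l : ℝ} (h1 : 0 ≤ y₁) (h2 : 0 ≤ y₂) (h3 : 0 ≤ y₃) :
    ∀ κ' : ℝ, 0 ≤ κ' → κ' ≤ l → r κ' {y₁, y₂, y₃} 0 0 + (l - κ') / 3 ≤
      (y₁ + y₂ + y₃) + Tqb l (y₁ + y₂ + y₃) + 2 * d * mn3 y₁ y₂ y₃ := by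
  intro κ' h0 hl
  obtain ⟨n, hn⟩ : ∃ n, n = y₁ + y₂ + y₃ := ⟨_, rfl⟩
  rw [← hn]
  have u1 : l ≤ Tqb l n := le_max_left _ _
  have u2 : 2 / 3 * l + 4 / 9 * n ≤ Tqb l n := (le_max_left _ _).trans (le_max_right _ _)
  have u3 : l / 3 + 22 / 27 * n ≤ Tqb l n := (le_max_right _ _).trans (le_max_right _ _)
  rcases le_total (10 / 9 * n) l with h | h
  · have := main_qb R hfar hd h1 h2 h3 (κ₁ := l) (by linarith) κ' h0 hl
    rw [← hn] at this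
    rcases max_choice l ((2 * l + 4 / 3 * n) / 3) with e | e <;> rw [e] at this <;> linarith
  · have := main_qb R hfar hd h1 h2 h3 (κ₁ := 10 / 9 * n) (by linarith) κ' h0 (by linarith)
    rw [← hn] at this
    have e : max (10 / 9 * n) ((2 * (10 / 9 * n) + 4 / 3 * n) / 3) = 32 / 27 * n := by
      rw [max_eq_right (by linarith)]; ring
    rw [e] at this
    linarith

/-- **(qa)** with `Full`: every family `l ≥ 0`, every list -/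
theorem qb_full (R : ExpRules (7 / 8 + d) r s) (hfar : FarS d s) (hd : 0 ≤ d)
    {z₁ z₂ z₃ l ρ : ℝ} (h1 : 0 ≤ z₁) (h2 : 0 ≤ z₂) (h3 : 0 ≤ z₃) (hl : 0 ≤ l)
    (hρ : (z₁ + z₂ + z₃) + Tqb l (z₁ + z₂ + z₃) + 2 * d * min z₁ (min z₂ z₃) ≤ ρ) :
    Full (7 / 8 + d) r l {z₁, z₂, z₃} 0 0 ρ := by
  have hmn0 : 0 ≤ min z₁ (min z₂ z₃) := le_min h1 (le_min h2 h3)
  have hdm : 0 ≤ 2 * d * min z₁ (min z₂ z₃) := by positivity
  refine ⟨fun Y'' κ' hs hκ0 hκ1 _ => ?_, ?_⟩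
  · obtain ⟨y₁, y₂, y₃, rfl, a1, b1, a2, b2, a3, b3⟩ := sh3 hs
    have k1 := r_qb R hfar hd (l := l) a1 a2 a3 κ' hκ0 hκ1
    have k2 := Tqb_mono (l := l) (show y₁ + y₂ + y₃ ≤ z₁ + z₂ + z₃ by linarith)
    have k3 : 2 * d * mn3 y₁ y₂ y₃ ≤ 2 * d * min z₁ (min z₂ z₃) :=
      mul_le_mul_of_nonneg_left (mn3_mono b1 b2 b3) (by linarith)
    linarith
  · have : l ≤ Tqb l (z₁ + z₂ + z₃) := le_max_left _ _
    linarith

/-! ### the budget -/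

/-- helper904's room of the class Gram (`P1N904.Gs`) -/
def Gs (k q p : ℝ) : ℝ :=
  max (max (26 / 15 * k) (q / 3 + 7 / 10 * k + 17 / 18 * p)) (2 / 3 * q + 13 / 9 * p)

set_option maxHeartbeats 4000000 in
/-- **the budget of NumEq** -/
theorem qb_num {K m l n' s f1 f3 η : ℝ} (hK : 0 ≤ K) (m3 : 1499 * K ≤ 2000 * m)
    (m5 : 5 * m ≤ 4 * K) (hf3 : f3 = max 0 ((4 * m - 3 * K) / 9))
    (hf1 : f3 ≤ f1) (hl0 : 0 ≤ l) (hl : l ≤ K - 3 * f1) (n1 : n' ≤ m)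
    (n2 : n' ≤ m - ((K - l) / 3 - 31 / 22 * f3 - (m - 3 / 4 * K) - s))
    (s1 : 20000 * s ≤ K) (η1 : η ≤ 2 * (f1 - f3)) (η2 : 10000 * η ≤ K) :
    n' + Tqb l n' + Gs K l m + 2 / 3 * (K - l) + η ≤ 2 * (K + m) := by
  have hf : (f3 = 0 ∧ 4 * m - 3 * K ≤ 0) ∨ (f3 = (4 * m - 3 * K) / 9 ∧ 0 ≤ 4 * m - 3 * K) := by
    rcases le_total 0 (4 * m - 3 * K) with h | h
    · right; rw [hf3, max_eq_right (by linarith)]; exact ⟨rfl, h⟩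
    · left; rw [hf3, max_eq_left (by linarith)]; exact ⟨rfl, h⟩
  clear hf3
  have key : ∀ T G : ℝ, (T = l ∨ T = 2 / 3 * l + 4 / 9 * n' ∨ T = l / 3 + 22 / 27 * n') →
      (G = 26 / 15 * K ∨ G = l / 3 + 7 / 10 * K + 17 / 18 * m ∨ G = 2 / 3 * l + 13 / 9 * m) →
      n' + T + G + 2 / 3 * (K - l) + η ≤ 2 * (K + m) := by
    intro T G hT hG
    rcases hf with ⟨rfl, hm⟩ | ⟨rfl, hm⟩ <;> rcases hT with rfl | rfl | rfl <;>
      rcases hG with rfl | rfl | rfl <;> linarith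
  have hT : Tqb l n' = l ∨ Tqb l n' = 2 / 3 * l + 4 / 9 * n' ∨ Tqb l n' = l / 3 + 22 / 27 * n' := by
    unfold Tqb
    rcases max_choice l (max (2 / 3 * l + 4 / 9 * n') (l / 3 + 22 / 27 * n')) with h | h
    · exact Or.inl h
    · rcases max_choice (2 / 3 * l + 4 / 9 * n') (l / 3 + 22 / 27 * n') with h' | h'
      · exact Or.inr (Or.inl (h.trans h'))
      · exact Or.inr (Or.inr (h.trans h'))
  have hG : Gs K l m = 26 / 15 * K ∨ Gs K l m = l / 3 + 7 / 10 * K + 17 / 18 * m ∨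
      Gs K l m = 2 / 3 * l + 13 / 9 * m := by
    unfold Gs
    rcases max_choice (max (26 / 15 * K) (l / 3 + 7 / 10 * K + 17 / 18 * m))
      (2 / 3 * l + 13 / 9 * m) with h | h
    · rcases max_choice (26 / 15 * K) (l / 3 + 7 / 10 * K + 17 / 18 * m) with h' | h'
      · exact Or.inl (h.trans h')
      · exact Or.inr (Or.inl (h.trans h'))
    · exact Or.inr (Or.inr h)
  exact key _ _ hT hG

end Crest.Agent.R017.QB603
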