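import Crest.Agent.R017.NEW_545
import Crest.Agent.R017.QB_603
import Crest.Agent.R017.ET2e_71

/-!
# Row 17, FlatNE: the line of `NumEq` from the far claims, and `QH` of class N (helper545)

* `farS_of` : helper603's `FarS` from helper71's `farS`
* `TqB`, `qmB` : the number and the range of the line
* `realQ_qb` : the side conditions of `dQa TqB qm`, both classes
* `qhN_qb`, `qhE_qb` : `QH`, `QHr` with it
-/

set_option autoImplicit false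
set_option linter.unusedVariables false

noncomputable section

open Set Filter Topology

namespace Crest.Agent.R017.RGB545

open Crest.Agent.R012 Crest.Agent.R012.Eis Crest.Agent.R012.LS2
open Crest.Agent.R017.B770
open Crest.Agent.R017.Prov71
open Crest.Agent.R017.XP699
open Crest.Agent.R017.ER911 (Ok Sh EF ExpRules)
open Crest.Agent.R017.RuleM545
open Crest.Agent.R017.XPD571
open Crest.Agent.R017.XS0298
open Crest.Agent.R017.Red848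
open Crest.Agent.R017.SC777 (Full PM sh3 sum3 ExpRGFz)
open Crest.Agent.R017.NE73 (flK QH NearDom)
open Crest.Agent.R017.NEx911 (QHr)
open Crest.Agent.R017.PM320 (Clo)
open Crest.Agent.R017.PX829 (PX PXs)
open Crest.Agent.R017.QB603 (FarS Tqb qb_full)

variable {Lam ι ι' : Type*} {p : ℕ} {π : Lam → DPar} {h : ℝ → ℝ} {c₁ θ d : ℝ} {r s s₀ : EF}

/-- **the far claims** -/
theorem farS_of (R : ExpRules (7 / 8 + d) r s) (Rm : ExpRGFz (7 / 8 + d) r s s₀) (hd : 0 ≤ d)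
    (hd8 : d ≤ 1 / 8) : FarS d s := by
  intro K v y₁ y₂ y₃ hK hv h1 h2 h3 hs h5 h12 h3v h2v
  have := ET71.farS R Rm hd (by linarith) (K := K) (v := v) (m := 0) (a := 0) hK hv h1 h2 h3
    le_rfl le_rfl (by linarith) hs (by linarith) (by linarith) h3v (by linarith)
  have e : QB603.mn3 y₁ y₂ y₃ = ET71.mn3 y₁ y₂ y₃ := rfl
  rw [e]
  linarith

/-- **the number of the line of `NumEq`**, `n` = length of the list, `a` = removed length -/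
def TqB (K V n l a : ℝ) : ℝ := Tqb l (n - a)

lemma TqB_lip {K V n l l' a a' x : ℝ} (hx : 0 ≤ x) (hl : l ≤ l' + x) (ha : a' - x ≤ a) :
    TqB K V n l a ≤ TqB K V n l' a' + 2 * x := by
  unfold TqB QB603.Tqb
  rw [← max_add_add_right, ← max_add_add_right]
  exact max_le_max (by linarith) (max_le_max (by linarith) (by linarith))

lemma TqB_cont : Continuous fun x : Fin 5 → ℝ => TqB (x 0) (x 1) (x 2) (x 3) (x 2 - x 4) := by
  unfold TqB QB603.Tqb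
  fun_prop

/-- **the side conditions of `dQa TqB qm`** -/
theorem realQ_qb (R : ExpRules (7 / 8 + d) r s) (hfar : FarS d s) (hd : 0 ≤ d)
    {NP : ℝ → ℝ → Multiset ℝ → ℝ → ℝ → ℝ → Prop} {κ : ℝ} (qm : ℝ → ℝ → ℝ → ℝ) {s₁ : EF} :
    RealQ d NP (fun l Y m a ρ => Full (7 / 8 + d) r l Y m a ρ) s₁ κ (dQa TqB qm) := by
  intro K V z₁ z₂ z₃ F hK hA
  have hfl : 4 / 3 * (z₁ + z₂ + z₃) + (V + K) / 3 ≤ flK K V (z₁ + z₂ + z₃) := by
    unfold NE73.flK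
    have := le_max_right 0 ((V + K - 2 * (z₁ + z₂ + z₃)) / 3)
    linarith
  have h1 := hA.h1
  have h2 := hA.h2
  have h3 := hA.h3
  have hV := hA.V0
  have hK0 := hA.K0
  have hF1 := hA.F1
  refine ⟨by linarith, ?_⟩
  intro j θ Y' m' a' i hs hm0 hm1 ha0 ha1 hi0 hi1 hG hz
  obtain rfl : m' = 0 := le_antisymm hm1 hm0
  obtain rfl : a' = 0 := le_antisymm ha1 ha0
  obtain ⟨y₁, y₂, y₃, rfl, a1, b1, a2, b2, a3, b3⟩ := sh3 hs
  rw [sum3n, sum3n]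
  have hmy : min y₁ (min y₂ y₃) ≤ min z₁ (min z₂ z₃) := min_le_min b1 (min_le_min b2 b3)
  have hdy := (mul_le_mul_of_nonneg_left hmy (by linarith : (0:ℝ) ≤ 2 * d)).trans hA.F0
  show Full (7 / 8 + d) r i {y₁, y₂, y₃} 0 0 (flK K V (z₁ + z₂ + z₃) + F +
    ((y₁ + y₂ + y₃) + TqB K V (z₁ + z₂ + z₃) i ((z₁ + z₂ + z₃) - (y₁ + y₂ + y₃)) -
      (4 / 3 * (z₁ + z₂ + z₃) + (V + K) / 3)))
  have e : TqB K V (z₁ + z₂ + z₃) i ((z₁ + z₂ + z₃) - (y₁ + y₂ + y₃)) =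
      Tqb i (y₁ + y₂ + y₃) := by
    unfold TqB
    rw [sub_sub_cancel]
  rw [e]
  exact qb_full R hfar hd a1 a2 a3 hi0 (by linarith)

/-- **class N, `QH` on the near domain** -/
theorem qhN_qb (H : DataN (7 / 8 + d) π h c₁)
    (R : ExpRules (7 / 8 + d) (ex Dq (RN0 π h)) (ex Dq (SP0 π h)))
    (Rm : ExpRGFz (7 / 8 + d) (ex Dq (RN0 π h)) (ex Dq (SP0 π h)) (ex Dq (S0f π h)))
    (hd : 0 ≤ d) (hd8 : d ≤ 1 / 8) {qm : ℝ → ℝ → ℝ → ℝ} (hq : ContH qm) {κ S y₁ y₂ y₃ : ℝ}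
    (hdom : NearDom κ S y₁ y₂ y₃) {a₁ a₂ μ e c : ℝ} (h1 : 0 ≤ a₁) (h1κ : 2000 * a₁ ≤ κ)
    (h2 : 0 ≤ a₂) (h2κ : 2000 * a₂ ≤ κ) (μ0 : 0 ≤ μ) (μκ : 100 * μ ≤ κ) (e0 : 0 ≤ e)
    (eκ : 2000 * e ≤ κ) (hc : 0 < c) (hcκ : 5000 * c ≤ κ) :
    QH (QG (LNk π h (DN TqB qm a₁ a₂ μ e))) c (κ + 100 * c) S y₁ y₂ y₃
      (2 * d * y₃ + 100 * c) :=
  qhN_fin H R hd hd8 TqB_cont hq (realQ_qb R (farS_of R Rm hd hd8) hd qm) hdom h1 h1κ h2 h2κ μ0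
    μκ e0 eκ hc hcκ

/-- **class E, `QH`, `QHr` on the near domain**, from the pair line -/
theorem qhE_qb (H : DataE (7 / 8 + d) π h c₁) (hcl : Clo π)
    (R : ExpRules (7 / 8 + d) (ex Dq (RNe π h)) (ex Dq (SPe π h)))
    (Rm : ExpRGFz (7 / 8 + d) (ex Dq (RNe π h)) (ex Dq (SPe π h)) (ex Dq (S0e π h)))
    (hd : 0 ≤ d) (hd8 : d ≤ 1 / 8)
    {P : LD Unit 9} (hPo : P.OK) {qm : ℝ → ℝ → ℝ → ℝ} (hq : ContH qm) {κ S y₁ y₂ y₃ : ℝ}
    (hP : RealQ d (fun l β Y m a ρ => PXs (7 / 8 + d) (ex Dq (RNe π h)) (ex Dq (SPe π h)) l β Y m a ρ)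
      (fun l Y m a ρ => Full (7 / 8 + d) (ex Dq (RNe π h)) l Y m a ρ) (ex Dq (S0e π h)) κ P)
    (hdom : NearDom κ S y₁ y₂ y₃) {a₂ μ e c : ℝ}
    (h2 : 0 ≤ a₂) (h2κ : 2000 * a₂ ≤ κ) (μ0 : 0 ≤ μ) (μκ : 100 * μ ≤ κ) (e0 : 0 ≤ e)
    (eκ : 2000 * e ≤ κ) (hc : 0 < c) (hcκ : 5000 * c ≤ κ) :
    QH (QG (LEk (rdE π) h (DG P TqB qm a₂ μ e))) c (κ + 100 * c) S y₁ y₂ y₃
        (2 * d * ((y₁ + y₂ + y₃) / 3) + 100 * c) ∧
      QHr (QG (LEk (rdE π) h (DG P TqB qm a₂ μ e))) c (κ + 100 * c) S (y₁ + y₂ + y₃) y₃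
        (2 * d * ((y₁ + y₂ + y₃) / 3) + 100 * c) :=
  qhE_fin H hcl R hd hd8 hPo TqB_cont hq hP (realQ_qb R (farS_of R Rm hd hd8) hd qm) hdom h2 h2κ
    μ0 μκ e0 eκ hc hcκ

end Crest.Agent.R017.RGB545
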