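import Crest.Agent.R017.NSqh_791

/-!
# Row 17, FlatNE, NumEq (helper791): the mean squares of the subsequences over dyadic blocks of `k`

* `RqLn`      : what the line is used for (value `T (K, v, m, κ, α)` + length of the child)
* `lineB_rq`  : `LineB` from the premises of the lines
* `nrq_core`  : `Σ_{k ~ X ^ κ} ‖CS (alr be a b) k‖ ^ 2`, flagged lists
* `nrqX_core` : the same for `xs` (cube-free `k`)
-/

set_option autoImplicit false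
set_option maxHeartbeats 400000

noncomputable section

open Complex
open scoped ComplexConjugate

namespace Crest.Agent.R017.SqB791

open Crest.Agent.R012 Crest.Agent.R012.Eis Crest.Agent.R012.LS2 Crest.Agent.R012.Gauss880
open Crest.Agent.R012.MC (Wgt)
open Crest.Agent.R012.T411 (NCube)
open Crest.Agent.R012.Weight600 (osc pw)
open Crest.Agent.R017.CM106 Crest.Agent.R017.FE47
open Crest.Agent.R017.B770
open Crest.Agent.R017.Prov71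
open Crest.Agent.R017.HP842 (sqc)
open Crest.Agent.R017.XP699 (LL Chd cst hcost)
open Crest.Agent.R017.Leg381 (Pf alF LF natl)
open Crest.Agent.R017.Win813 (WK)
open Crest.Agent.R017.RGw813 (bt T9)
open Crest.Agent.R017.RG64 (SbL Ht one_le_Ht)
open Crest.Agent.R017.LBu180 (SqQ)
open Crest.Agent.R017.RlB791
open Crest.Agent.R017.RGB545 (Line Th TK rbx)
open Crest.Agent.R017.XPD571 (RF0 RX)
open Crest.Agent.R017.RXk848 (LnP Lmp)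
open Crest.Agent.R017.RX298 (xs rpB Lg)
open Crest.Agent.R017.C70 (CbF)

variable {Lam ι : Type*} {d : ℕ}

/-- a weight for dyadic blocks -/
lemma exists_wb : ∃ w : ℝ → ℝ, Wgt w ∧ (∀ x, 0 ≤ w x) ∧ ∀ x, 1 ≤ x → x ≤ 2 → 1 ≤ w x := by
  let f : ContDiffBump (3 / 2 : ℝ) := ⟨1 / 2, 1, by norm_num, by norm_num⟩
  refine ⟨f, ⟨f.contDiff, f.hasCompactSupport, ?_⟩, fun x => f.nonneg, fun x h1 h2 => ?_⟩
  · rw [f.tsupport_eq]
    intro x hx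
    rw [Metric.mem_closedBall, Real.dist_eq] at hx
    have h3 : |x - 3 / 2| ≤ 1 := hx
    have := (abs_le.mp h3).1
    exact Set.mem_Ioi.mpr (by linarith)
  · have h3 : f x = 1 := by
      refine f.one_of_mem_closedBall ?_
      rw [Metric.mem_closedBall, Real.dist_eq]
      show |x - 3 / 2| ≤ 1 / 2
      rw [abs_le]
      constructor <;> linarith
    rw [h3]

/-- a dyadic block in the smooth square -/
lemma sum_le_SqQ {W : ℝ → ℝ} (hW : Wgt W) (hW0 : ∀ x, 0 ≤ W x)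
    (hW1 : ∀ x, 1 ≤ x → x ≤ 2 → 1 ≤ W x) {K : ℝ} (hK : 0 < K) (Q : Eis → Prop) (α : Eis → ℂ)
    (A : Finset Eis) (hA : ∀ k ∈ A, IsPrim k ∧ Q k ∧ K ≤ nm k ∧ (nm k : ℝ) ≤ 2 * K) :
    ∑ k ∈ A, ‖CS α k‖ ^ 2 ≤ SqQ W K Q α := by
  unfold LBu180.SqQ
  refine le_trans ?_ ((LBu180.summable_SqQ hW hK Q fun k => ‖CS α k‖ ^ 2).sum_le_tsum A ?_)
  · refine Finset.sum_le_sum fun k hk => ?_
    obtain ⟨h1, h2, h3, h4⟩ := hA k hk
    rw [if_pos ⟨h1, h2⟩]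
    have h5 : 1 ≤ W (nm k / K) := hW1 _ (by rw [le_div_iff₀ hK]; linarith)
      (by rw [div_le_iff₀ hK]; linarith)
    have h6 : 0 ≤ ‖CS α k‖ ^ 2 := by positivity
    nlinarith
  · intro k _
    split_ifs
    · have := hW0 (nm k / K)
      positivity
    · exact le_rfl

/-- what the line is used for: `T (K, v, m, κ, α)`, `α` = removed length, range `κ ≤ qm (K, v, m)` -/
structure RqLn (Ψ : Lam → ℝ → List Pq → ℝ) (T : ℝ → ℝ → ℝ → ℝ → ℝ → ℝ) (qm : ℝ → ℝ → ℝ → ℝ)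
    (L : Line Lam d) : Prop where
  Φ : ∀ lam l β ps, Ψ lam l ps ≤ L.Φ lam l β ps
  G : ∀ x θ, L.G x θ ≤ max (x 3 - qm (x 0) (x 1) (x 2)) (x 4 - x 2)
  F : ∀ x θ, 4 / 3 * x 2 + (x 1 + x 0) / 3 + L.F x θ ≤
    x 4 + T (x 0) (x 1) (x 2) (x 3) (x 2 - x 4)
  zl : ¬ L.zl

/-- one-sided Lipschitz condition -/
def LipT (Λ : ℝ) (T : ℝ → ℝ → ℝ → ℝ → ℝ → ℝ) : Prop :=
  ∀ K v m l a l' a' x : ℝ, 0 ≤ x → l ≤ l' + x → a' - x ≤ a → T K v m l a ≤ T K v m l' a' + Λ * x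

/-- **the premises of the lines give `LineB`**, family `X ^ κ`, removed length `A` -/
theorem lineB_rq {Q : Lam → Eis → Prop} {π : Lam → DPar} {h : ℝ → ℝ} {L : ι → Line Lam d}
    {j : ι} {T : ℝ → ℝ → ℝ → ℝ → ℝ → ℝ} {qm : ℝ → ℝ → ℝ → ℝ} {Λ : ℝ}
    (HL : RqLn (RX Q π h) T qm (L j)) (hT : LipT Λ T) {lam : Lam} {K ε M r bm X n₁ v₁ Bd : ℝ}
    {base : List Pq} (hX : 3 ≤ X) (hK : 0 ≤ K) (hBd : 0 ≤ Bd)
    (H : LnP L lam K ε M r bm X n₁ v₁ Bd base) {ε₁ κ A : ℝ} (h0 : 0 ≤ ε₁) (h1 : ε₁ ≤ ε)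
    (h2 : ε₁ ≤ 1) (hκ : κ ≤ qm K v₁ n₁) (hκK : κ ≤ K) (hA : 0 ≤ A) :
    LineB (Q lam) (π lam) h X r bm ε₁ M κ (T K v₁ n₁ κ (A / Real.log X) + Λ * ε₁) Bd base
      (n₁ * Real.log X - A) := by
  intro l ps' hl0 hl hch hLL
  have hX0 : 0 < X := by linarith
  have hX1 : 1 < X := by linarith
  have hl : l ≤ (κ + ε₁) * Real.log X := hl
  have hlX : 0 < Real.log X := Real.log_pos hX1
  have hTK : 0 ≤ TK K := by unfold RGB545.TK; positivity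
  have hs : LL Dq ps' / Real.log X ≤ n₁ - A / Real.log X + ε₁ := by
    have e : (n₁ - A / Real.log X + ε₁) * Real.log X = n₁ * Real.log X - A + ε₁ * Real.log X := by
      field_simp
    rw [div_le_iff₀ hlX, e]
    exact hLL
  have hAX : 0 ≤ A / Real.log X := by positivity
  have hl' : l / Real.log X ≤ κ + ε₁ := by rw [div_le_iff₀ hlX]; exact hl
  have key := H j ⟨0, by
      constructor
      · exact le_rfl
      · intro i; exact hTK⟩ l ps' hl0 (by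
      refine hl.trans (mul_le_mul_of_nonneg_right ?_ hlX.le)
      unfold RGB545.TK
      linarith) hch (by
      have h3 : LL Dq ps' ≤ n₁ * Real.log X + ε₁ * Real.log X := by linarith
      have h4 : ε₁ * Real.log X ≤ ε * Real.log X := mul_le_mul_of_nonneg_right h1 hlX.le
      linarith) (by
      refine (HL.G _ _).trans (max_le ?_ ?_)
      · show l / Real.log X - qm K v₁ n₁ ≤ ε
        linarith
      · show LL Dq ps' / Real.log X - n₁ ≤ ε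
        linarith) (fun hz => absurd hz HL.zl)
  refine ((HL.Φ lam l _ ps').trans key).trans ?_
  have hcs : 0 ≤ cst hcost ps' base ^ M :=
    Real.rpow_nonneg (by linarith [one_le_cst ps' base]) _
  refine mul_le_mul_of_nonneg_left (Real.rpow_le_rpow_of_exponent_le hX1.le ?_) (by positivity)
  have h3 := HL.F ![K, v₁, n₁, l / Real.log X, LL Dq ps' / Real.log X] 0
  have h4 : 4 / 3 * n₁ + (v₁ + K) / 3 +
      (L j).F ![K, v₁, n₁, l / Real.log X, LL Dq ps' / Real.log X] 0 ≤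
      LL Dq ps' / Real.log X +
        T K v₁ n₁ (l / Real.log X) (n₁ - LL Dq ps' / Real.log X) := h3
  have h5 := hT K v₁ n₁ (l / Real.log X) (n₁ - LL Dq ps' / Real.log X) κ (A / Real.log X) ε₁ h0
    hl' (by linarith)
  linarith

/-- the final inequality -/
lemma nrq_final {X K T Λ ε₁ ε C J₀ M H Bd Lf t na : ℝ} {Jn : ℕ} (hX : 3 ≤ X) (hC : 0 ≤ C)
    (hε : ε₁ + Λ * ε₁ ≤ ε) (hH : 1 ≤ H) (hJ : M ≤ J₀) (hBd : 0 ≤ Bd) (hna : 0 < na) :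
    C * X ^ ε₁ * H ^ M * Bd * (X ^ (T + Λ * ε₁) * Real.exp Lf / na) * (1 + |t|) ^ Jn ≤
    (X ^ K / Real.exp Lf) * ((C * X ^ ε * H ^ J₀ * Bd * Real.exp (2 * Lf)) * (1 + |t|) ^ Jn) *
      (X ^ (T - K) / na) := by
  have hX0 : 0 < X := by linarith
  have hX1 : 1 ≤ X := by linarith
  have e1 : Real.exp (2 * Lf) = Real.exp Lf * Real.exp Lf := by rw [← Real.exp_add]; congr 1; ring
  have e2 : X ^ K * X ^ (T - K) = X ^ T := by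
    rw [← Real.rpow_add hX0]
    congr 1
    ring
  have e3 : X ^ ε₁ * X ^ (T + Λ * ε₁) ≤ X ^ ε * X ^ T := by
    rw [← Real.rpow_add hX0, ← Real.rpow_add hX0]
    refine Real.rpow_le_rpow_of_exponent_le hX1 ?_
    linarith
  have e4 : H ^ M ≤ H ^ J₀ := Real.rpow_le_rpow_of_exponent_le hH hJ
  have hT : 0 ≤ (1 + |t|) ^ Jn := pow_nonneg (by positivity) _
  have hE : 0 < Real.exp Lf := Real.exp_pos _
  calc _ = (X ^ ε₁ * X ^ (T + Λ * ε₁)) * H ^ M * (C * Bd * (Real.exp Lf / na) *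
        (1 + |t|) ^ Jn) := by ring
    _ ≤ (X ^ ε * X ^ T) * H ^ J₀ * (C * Bd * (Real.exp Lf / na) * (1 + |t|) ^ Jn) := by gcongr
    _ = _ := by
      rw [← e2, e1]
      field_simp

/-- **the mean square over a dyadic block of frequencies**, flagged lists: `a ∣ n`, `(n, b) = 1` -/
theorem nrq_core {π : Lam → DPar} (hP : ∀ lam, (π lam).OK) {h : ℝ → ℝ} {c₁ : ℝ} (hpu : PU h c₁)
    {L : ι → Line Lam d} {j : ι} {K Λ : ℝ} {T : ℝ → ℝ → ℝ → ℝ → ℝ → ℝ} {qm : ℝ → ℝ → ℝ → ℝ}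
    (hK : 0 ≤ K) (hΛ : 0 ≤ Λ) (hT : LipT Λ T) (HL : RqLn (RF0 π h) T qm (L j))
    (lam : Lam) (N : ℕ) {c₀ : ℝ} (hc₀ : 1 ≤ c₀) {ε M : ℝ} (hε : 0 < ε) (hM : 0 ≤ M) :
    ∃ J₀ δ₀ : ℝ, 0 ≤ J₀ ∧ 0 < δ₀ ∧ ∀ (δ : ℝ) (Jn Aw : ℕ) (Cw R η S : ℝ), 0 ≤ δ → δ ≤ δ₀ →
    J₀ ≤ Jn → Jn + 2 ≤ Aw → 0 ≤ Cw → 0 ≤ R → 0 < η → η ≤ 1 / 2 → 0 ≤ S →
    ∃ C r X₁ : ℝ, 0 ≤ C ∧ 0 ≤ r ∧ ∀ X : ℝ, 3 ≤ X → X₁ ≤ X → ∀ ps₀ : List Pq, ps₀.length ≤ N →
    (∀ q ∈ ps₀, 0 ≤ Dq.len q ∧ Dq.len q ≤ c₀ * Real.log X) →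
    ∀ (q : Eis) (ps : List Pf) (Lv : ℝ), IsPrim q → (nm q : ℝ) ≤ X ^ c₀ → SbL S ps ps₀ →
    ∀ Bd : ℝ, 1 ≤ Bd →
    LnP L lam K ε M r (C * X ^ c₀) X (LF ps / Real.log X) (Lv / Real.log X) Bd ps₀ →
    ∀ (κ : ℝ) (a b : Eis), 0 ≤ κ → κ ≤ K →
    κ ≤ qm K (Lv / Real.log X) (LF ps / Real.log X) →
    IsPrim a → b ≠ 0 → (nm a : ℝ) ≤ X ^ c₀ → (nm b : ℝ) ≤ X ^ c₀ →
    ∀ p ∈ T9, ∀ (t X' : ℝ) (φ : ℝ → ℝ), 0 < X' →
      |Real.log X' - Real.log (Real.exp (LF ps))| ≤ R + 1 →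
      WK Cw η Aw φ → (∀ u, φ u ≠ 0 → |u - Real.log X'| ≤ η / 2) →
    ∀ A : Finset Eis, (∀ k ∈ A, IsPrim k ∧ X ^ κ ≤ nm k ∧ (nm k : ℝ) ≤ 2 * X ^ κ) →
    ∑ k ∈ A, ‖CS (CubP813.alr (fun n => bt φ (sqc q (alF (X ^ δ) (X ^ δ) (π lam) h ps)) p n *
        pw t (nm n)) a b) k‖ ^ 2 ≤
      (X ^ K / Real.exp (LF ps)) *
        ((C * X ^ ε * (Ht ps * Ht (natl ps₀)) ^ J₀ * Bd * Real.exp (2 * LF ps)) *
          (1 + |t|) ^ Jn) *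
        (X ^ (T K (Lv / Real.log X) (LF ps / Real.log X) κ (Real.log (nm a) / Real.log X) - K) /
          nm a) := by
  obtain ⟨W, hW, hW0, hW1⟩ := exists_wb
  obtain ⟨ε₁, hε₁⟩ : ∃ x : ℝ, x = min (ε / (1 + Λ)) 1 := ⟨_, rfl⟩
  have h1Λ : 0 < 1 + Λ := by linarith
  have hε₁0 : 0 < ε₁ := by rw [hε₁]; exact lt_min (by positivity) one_pos
  have hε₁a : ε₁ ≤ ε / (1 + Λ) := by rw [hε₁]; exact min_le_left _ _
  have hε₁b : ε₁ ≤ 1 := by rw [hε₁]; exact min_le_right _ _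
  have hε₁c : ε₁ + Λ * ε₁ ≤ ε := by
    rw [le_div_iff₀ h1Λ] at hε₁a
    linarith
  have hε₁d : ε₁ ≤ ε := by
    have : 0 ≤ Λ * ε₁ := by positivity
    linarith
  obtain ⟨J₀, δ₀, hJ₀, hδ₀, G⟩ := sq_alr hpu hW N hc₀ hε₁0 hM
  refine ⟨max J₀ M, δ₀, hJ₀.trans (le_max_left _ _), hδ₀, ?_⟩
  intro δ Jn Aw Cw R η S hδ0 hδ hJn hAw hCw hR hη hη1 hS
  obtain ⟨C, r, X₁, hC, hr, G⟩ := G δ Jn Aw Cw R η S hδ0 hδ ((le_max_left _ _).trans hJn) hAw hCw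
    hη (hη1.trans (by norm_num)) hS
  refine ⟨C, r, X₁, hC, hr, ?_⟩
  intro X hX3 hXX ps₀ hlen hz q ps Lv hq hqX hps Bd hBd hlnp κ a b hκ hκK hκm ha hb haX hbX
    p hp t X' φ hX' hXX' hWK hφs A hA
  have hX0 : 0 < X := by linarith
  have hX1 : 1 < X := by linarith
  have hlX : 0 < Real.log X := Real.log_pos hX1
  have hna1 : (1 : ℝ) ≤ nm a := by exact_mod_cast Nat.succ_le_of_lt (nm_pos.2 ha.ne_zero)
  have hla : 0 ≤ Real.log (nm a) := Real.log_nonneg hna1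
  have hline := lineB_rq HL hT hX3 hK (by linarith : 0 ≤ Bd) hlnp hε₁0.le hε₁d hε₁b hκm hκK hla
  rw [log_mul_div hX3] at hline
  have key := G X hX3 hXX (π lam) (hP lam) ps₀ hlen (fun q hq => (hz q hq).2) q ps hq.ne_zero
    hqX hps (fun _ _ => True) (fun k => k ≠ 0)
    (fun p _ k hk _ => mul_ne_zero hk.ne_zero (pow_ne_zero _
      (mul_ne_zero (pow_ne_zero _ isUnit_w.ne_zero) (pow_ne_zero _ lam_ne_zero)))) a b ha hb haX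
    hbX κ _ Bd hκ (by linarith) hline p hp t X' φ hX' (by rwa [Real.log_exp] at hXX') hWK hφs
  have hH : 1 ≤ Ht ps * Ht (natl ps₀) :=
    one_le_mul_of_one_le_of_one_le (one_le_Ht _) (one_le_Ht _)
  have fin := nrq_final (K := K) (Lf := LF ps) (t := t) (Jn := Jn) (T := T K (Lv / Real.log X)
    (LF ps / Real.log X) κ (Real.log (nm a) / Real.log X)) hX3 hC hε₁c hH (le_max_right J₀ M)
    (by linarith : 0 ≤ Bd) (by linarith : (0 : ℝ) < nm a)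
  rw [alr_eq]
  exact (sum_le_SqQ hW hW0 hW1 (Real.rpow_pos_of_pos hX0 κ) (fun _ => True) _ A
    (fun k hk => ⟨(hA k hk).1, trivial, (hA k hk).2⟩)).trans (key.trans fin)

/-- **the mean square over a dyadic block of cube-free frequencies**, exceptional class -/
theorem nrqX_core {π : Lam → DPar} (hP : ∀ lam, (π lam).OK) {h : ℝ → ℝ} {c₁ : ℝ} (hpu : PU h c₁)
    {L : ι → Line Lam d} {j : ι} {K Λ d₀ : ℝ} {T : ℝ → ℝ → ℝ → ℝ → ℝ → ℝ} {qm : ℝ → ℝ → ℝ → ℝ}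
    (hK : 0 ≤ K) (hΛ : 0 ≤ Λ) (hd₀ : 0 ≤ d₀) (hT : LipT Λ T)
    (HL : RqLn (RX (fun _ k => NCube k) π h) T qm (L j))
    (lam : Lam) (N : ℕ) {c₀ : ℝ} (hc₀ : 1 ≤ c₀) {ε M : ℝ} (hε : 0 < ε) (hM : 0 ≤ M) :
    ∃ J₀ δ₀ : ℝ, 0 ≤ J₀ ∧ 0 < δ₀ ∧ ∀ (δ : ℝ) (Jn Aw : ℕ) (Cw R η S : ℝ), 0 ≤ δ → δ ≤ δ₀ →
    J₀ ≤ Jn → Jn + 2 ≤ Aw → 0 ≤ Cw → 0 ≤ R → 0 < η → η ≤ 1 / 2 → 0 ≤ S →
    ∃ C r X₁ : ℝ, 0 ≤ C ∧ 0 ≤ r ∧ ∀ X : ℝ, 3 ≤ X → X₁ ≤ X → ∀ ps₀ : List Pq, ps₀.length ≤ N →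
    (∀ q ∈ ps₀, 0 ≤ Dq.len q ∧ Dq.len q ≤ c₀ * Real.log X) → Lmp (d₀ * Real.log X) ps₀ →
    ∀ (q : Eis) (ps : List Pf) (Lv : ℝ), IsPrim q → (nm q : ℝ) ≤ X ^ c₀ → SbL S ps ps₀ →
    Lg (d₀ * Real.log X) ps → ∀ Bd : ℝ, 1 ≤ Bd →
    (∀ t : Bool, LnP L lam K ε M r (C * X ^ (2 * c₀)) X (LF ps / Real.log X) (Lv / Real.log X) Bd
      (rbx d₀ t X ps₀)) →
    ∀ (κ : ℝ) (a b : Eis), 0 < κ → κ ≤ K →
    κ ≤ qm K (Lv / Real.log X) (LF ps / Real.log X) →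
    IsPrim a → b ≠ 0 → (nm a : ℝ) ≤ X ^ (2 * c₀) → (nm b : ℝ) ≤ X ^ (2 * c₀) →
    ∀ p ∈ T9, ∀ (t X' : ℝ) (φ : ℝ → ℝ), 0 < X' →
      |Real.log X' - Real.log (Real.exp (LF ps))| ≤ R + 1 →
      WK Cw η Aw φ → (∀ u, φ u ≠ 0 → |u - Real.log X'| ≤ η / 2) →
    ∀ A : Finset Eis, (∀ k ∈ A, IsPrim k ∧ CbF k ∧ X ^ κ ≤ nm k ∧ (nm k : ℝ) ≤ 2 * X ^ κ) →
    ∑ k ∈ A, ‖CS (CubP813.alr (fun n => bt φ (xs q (X ^ δ) (X ^ δ) (π lam) h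
        (d₀ * Real.log X) ps) p n * pw t (nm n)) a b) k‖ ^ 2 ≤
      (X ^ K / Real.exp (LF ps)) *
        ((C * X ^ ε * (Ht ps * Ht (natl ps₀)) ^ J₀ * Bd * Real.exp (2 * LF ps)) *
          (1 + |t|) ^ Jn) *
        (X ^ (T K (Lv / Real.log X) (LF ps / Real.log X) κ (Real.log (nm a) / Real.log X) - K) /
          nm a) := by
  obtain ⟨W, hW, hW0, hW1⟩ := exists_wb
  obtain ⟨ε₁, hε₁⟩ : ∃ x : ℝ, x = min (ε / (1 + Λ)) 1 := ⟨_, rfl⟩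
  have h1Λ : 0 < 1 + Λ := by linarith
  have hε₁0 : 0 < ε₁ := by rw [hε₁]; exact lt_min (by positivity) one_pos
  have hε₁a : ε₁ ≤ ε / (1 + Λ) := by rw [hε₁]; exact min_le_left _ _
  have hε₁b : ε₁ ≤ 1 := by rw [hε₁]; exact min_le_right _ _
  have hε₁c : ε₁ + Λ * ε₁ ≤ ε := by
    rw [le_div_iff₀ h1Λ] at hε₁a
    linarith
  have hε₁d : ε₁ ≤ ε := by
    have : 0 ≤ Λ * ε₁ := by positivity
    linarith
  obtain ⟨J₀, δ₀, hJ₀, hδ₀, G⟩ := sq_alrX hpu hW N (by linarith : (1 : ℝ) ≤ 2 * c₀) hε₁0 hM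
  refine ⟨max J₀ M, δ₀, hJ₀.trans (le_max_left _ _), hδ₀, ?_⟩
  intro δ Jn Aw Cw R η S hδ0 hδ hJn hAw hCw hR hη hη1 hS
  obtain ⟨C, r, X₁, hC, hr, G⟩ := G δ Jn Aw Cw R η S hδ0 hδ ((le_max_left _ _).trans hJn) hAw hCw
    hη (hη1.trans (by norm_num)) hS
  refine ⟨C, r, X₁, hC, hr, ?_⟩
  intro X hX3 hXX ps₀ hlen hz hLm q ps Lv hq hqX hps hLg Bd hBd hprem κ a b hκ hκK hκm ha hb haX
    hbX p hp t X' φ hX' hXX' hWK hφs A hA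
  have hX0 : 0 < X := by linarith
  have hX1 : 1 < X := by linarith
  have hlX : 0 < Real.log X := Real.log_pos hX1
  have hc₂c : c₀ ≤ 2 * c₀ := by linarith
  have hD : 0 ≤ d₀ * Real.log X := by positivity
  have hzr := len_rpB hD hz hLm (by positivity)
  have hp0 := hprem false
  have hp1 := hprem true
  have er0 : rbx d₀ false X ps₀ = ps₀ := by unfold RGB545.rbx; simp
  have er1 : rbx d₀ true X ps₀ = rpB (d₀ * Real.log X) ps₀ := by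
    rw [RHX116.rpB_eq]; unfold RGB545.rbx; simp
  rw [er0] at hp0
  rw [er1] at hp1
  have hna1 : (1 : ℝ) ≤ nm a := by exact_mod_cast Nat.succ_le_of_lt (nm_pos.2 ha.ne_zero)
  have hla : 0 ≤ Real.log (nm a) := Real.log_nonneg hna1
  have hline := lineB_rq HL hT hX3 hK (by linarith : 0 ≤ Bd) hp0 hε₁0.le hε₁d hε₁b hκm hκK hla
  have hline' := lineB_rq HL hT hX3 hK (by linarith : 0 ≤ Bd) hp1 hε₁0.le hε₁d hε₁b hκm hκK hla
  rw [log_mul_div hX3] at hline hline'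
  have hXκ : 1 < X ^ κ := Real.one_lt_rpow hX1 hκ
  have key := G X hX3 hXX (π lam) (hP lam) ps₀ hlen
    (fun q hq => (hz q hq).2.trans (mul_le_mul_of_nonneg_right hc₂c hlX.le))
    (d₀ * Real.log X) hD (fun q hq => (hzr q hq).trans (by rw [← mul_assoc])) q ps hq.ne_zero
    (hqX.trans (Real.rpow_le_rpow_of_exponent_le hX1.le hc₂c)) hps hLg
    (fun _ k => CbF k ∧ X ^ κ ≤ (nm k : ℝ) ∧ True) (fun k => NCube k)
    (cbf_hyp hXκ _) a b ha hb haX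
    hbX κ _ Bd hκ.le (by linarith) hline hline' p hp t X' φ hX'
    (by rwa [Real.log_exp] at hXX') hWK hφs
  have hH : 1 ≤ Ht ps * Ht (natl ps₀) :=
    one_le_mul_of_one_le_of_one_le (one_le_Ht _) (one_le_Ht _)
  have fin := nrq_final (K := K) (Lf := LF ps) (t := t) (Jn := Jn) (T := T K (Lv / Real.log X)
    (LF ps / Real.log X) κ (Real.log (nm a) / Real.log X)) hX3 hC hε₁c hH (le_max_right J₀ M)
    (by linarith : 0 ≤ Bd) (by linarith : (0 : ℝ) < nm a)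
  rw [alr_eq]
  exact (sum_le_SqQ hW hW0 hW1 (Real.rpow_pos_of_pos hX0 κ)
    (fun k => CbF k ∧ X ^ κ ≤ (nm k : ℝ) ∧ True) _ A
    (fun k hk => ⟨(hA k hk).1, ⟨(hA k hk).2.1, (hA k hk).2.2.1, trivial⟩,
      (hA k hk).2.2⟩)).trans (key.trans fin)

end Crest.Agent.R017.SqB791
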