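import Crest.Agent.R017.NEX_545
import Crest.Agent.R017.NRq_791

/-!
# Row 17, FlatNE: the lines of the near leaf in the form of their users (helper545)

* `lipT_TqB` : helper791's `LipT 2 TqB`
* `rqln_N`, `rqln_E` : helper791's `RqLn` for the third line
-/

set_option autoImplicit false
set_option linter.unusedVariables false

noncomputable section

open Set Filter Topology

namespace Crest.Agent.R017.RGB545

open Crest.Agent.R012 Crest.Agent.R012.Eis Crest.Agent.R012.LS2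
open Crest.Agent.R012.T411 (NCube)
open Crest.Agent.R017.B770
open Crest.Agent.R017.Prov71
open Crest.Agent.R017.XPD571
open Crest.Agent.R017.SqB791 (RqLn LipT)

variable {Lam : Type*} {π : Lam → DPar} {h : ℝ → ℝ}

/-- **one-sided Lipschitz condition** -/
theorem lipT_TqB : LipT 2 TqB := fun _ _ _ _ _ _ _ _ hx hl ha => TqB_lip hx hl ha

/-- **the line of `NumEq`, class N** -/
theorem rqln_N (T : TQ) (qm : ℝ → ℝ → ℝ → ℝ) (a₁ a₂ μ e : ℝ) :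
    RqLn (RF0 π h) T qm (LNk π h (DN T qm a₁ a₂ μ e) (.inr ())) where
  Φ _ _ _ _ := le_rfl
  G _ _ := le_rfl
  F x _ := by
    show 4 / 3 * x 2 + (x 1 + x 0) / 3 + (x 4 + T (x 0) (x 1) (x 2) (x 3) (x 2 - x 4) -
      (4 / 3 * x 2 + (x 1 + x 0) / 3)) ≤ x 4 + T (x 0) (x 1) (x 2) (x 3) (x 2 - x 4)
    linarith
  zl h := h

/-- **the line of `NumEq`, class E** -/
theorem rqln_E (P : LD Unit 9) (T : TQ) (qm : ℝ → ℝ → ℝ → ℝ) (a₂ μ e : ℝ) :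
    RqLn (RX (fun _ k => NCube k) π h) T qm (LEk π h (DG P T qm a₂ μ e) (.inr ())) where
  Φ _ _ _ _ := le_rfl
  G _ _ := le_rfl
  F x _ := by
    show 4 / 3 * x 2 + (x 1 + x 0) / 3 + (x 4 + T (x 0) (x 1) (x 2) (x 3) (x 2 - x 4) -
      (4 / 3 * x 2 + (x 1 + x 0) / 3)) ≤ x 4 + T (x 0) (x 1) (x 2) (x 3) (x 2 - x 4)
    linarith
  zl h := h

/-! ### the three lines -/

theorem lnk_r2 (T : TQ) (qm : ℝ → ℝ → ℝ → ℝ) (a₁ a₂ μ e : ℝ) :
    LNk π h (DN T qm a₁ a₂ μ e) (.inl (.inl ())) = LNk π h (dR2 (hC a₁)) () := rfl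

theorem lnk_rn (T : TQ) (qm : ℝ → ℝ → ℝ → ℝ) (a₁ a₂ μ e : ℝ) :
    LNk π h (DN T qm a₁ a₂ μ e) (.inl (.inr ())) = LNk π h (dRn (hC a₂) μ e) () := rfl

theorem lnk_qa (T : TQ) (qm : ℝ → ℝ → ℝ → ℝ) (a₁ a₂ μ e : ℝ) :
    LNk π h (DN T qm a₁ a₂ μ e) (.inr ()) = LNk π h (dQa T qm) () := rfl

theorem lek_r2 (P : LD Unit 9) (T : TQ) (qm : ℝ → ℝ → ℝ → ℝ) (a₂ μ e : ℝ) :
    LEk π h (DG P T qm a₂ μ e) (.inl (.inl ())) = LEk π h P () := rfl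

theorem lek_rn (P : LD Unit 9) (T : TQ) (qm : ℝ → ℝ → ℝ → ℝ) (a₂ μ e : ℝ) :
    LEk π h (DG P T qm a₂ μ e) (.inl (.inr ())) = LEk π h (dRn (hC a₂) μ e) () := rfl

theorem lek_qa (P : LD Unit 9) (T : TQ) (qm : ℝ → ℝ → ℝ → ℝ) (a₂ μ e : ℝ) :
    LEk π h (DG P T qm a₂ μ e) (.inr ()) = LEk π h (dQa T qm) () := rfl

end Crest.Agent.R017.RGB545
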