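import Crest.Agent.R017.RGi_64

/-!
# Row 17, near field (FlatNE), list level (helper551): the boundary of (SA0) / (L+) depends on the list

* `nt_step_g` : `nt_step` (RGf_64) with `g₀ : ℝ → ℝ` evaluated at the length of the list
* `rg_N_g` : `rg_N` (RGi_64) with `g₀ m = min cc (m - (n - cc))`: the flat claims of the terminal range
  are only used on `[n - cc - ε₁ l, n - cc + ε₁ l]`
-/

set_option autoImplicit false

noncomputable section

open Complex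
open scoped ComplexConjugate

namespace Crest.Agent.R017.NEg551

open Crest.Agent.R012 Crest.Agent.R012.Eis Crest.Agent.R012.LS2 Crest.Agent.R012.Gauss880
open Crest.Agent.R012.MC (Wgt)
open Crest.Agent.R012.Weight600 (osc pw)
open Crest.Agent.R017.CM106 Crest.Agent.R017.HP842 Crest.Agent.R017.FE47
open Crest.Agent.R017.End699 hiding pw
open Crest.Agent.R017.B770
open Crest.Agent.R017.Prov71
open Crest.Agent.R017.Rough381 (VF VF_nonneg)
open Crest.Agent.R017.Leg381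
open Crest.Agent.R017.C70 (JW)
open Crest.Agent.R017.E1551 (sg tws JB yv BU mem_BU CF BF mem_BF lm Wn cP Dg SqP XJw)
open Crest.Agent.R017.Win813
open Crest.Agent.R017.RGw813
open Crest.Agent.R017.RG64

set_option maxHeartbeats 1600000 in
/-- **the truncated lists**, the boundary `g₀` a function of the length of the list -/
theorem nt_step_g {h : ℝ → ℝ} {c : ℝ} (hpu : PU h c) (N : ℕ) {w : ℝ → ℝ} (hab : Abs4 w)
    {J e₃ ε R Ca c₁ : ℝ} {Jn Aw : ℕ} (hJ : 0 ≤ J) (he₃ : 0 < e₃) (hε : 0 < ε) (hR : 0 ≤ R)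
    (hJn : (N : ℝ) * J ≤ Jn) (hAw : Jn + 2 ≤ Aw) (hAL : ALp h N R Ca)
    (hc₁ : 0 ≤ c₁) :
    ∃ Cw C η₀ r X₁ : ℝ, 0 ≤ Cw ∧ 1 ≤ C ∧ 0 < η₀ ∧ η₀ ≤ 1 / 2 ∧ 0 ≤ r ∧ ∀ X : ℝ, 3 ≤ X → X₁ ≤ X →
    ∀ D : Dat, D.P.OK → D.h = h → 1 ≤ D.D0 → D.z = D.D0 → D.J = J → D.ps₀.length ≤ N →
    0 ≤ D.κ → ∀ (N0 N1 : ℝ → ℕ) (ρ : ℝ → ℕ → ℝ), Cut N0 N1 ρ c₁ →
    ∀ (B Bl El s a α Q q₀ e cc x₁ lo lo' σ₀ σ' : ℝ) (Dd g₀ : ℝ → ℝ), 0 ≤ B → 0 ≤ Bl → 0 ≤ El →
    0 ≤ a → Real.exp r ≤ q₀ → e₃ * Real.log X + c₁ + r ≤ α →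
    e + (N + 1) * r ≤ Real.log D.D0 → lo' ≤ 0 → 0 ≤ x₁ →
    D.n - cc ≤ σ₀ →
    (∀ ps : List Pf, SbL s ps D.ps₀ → LF ps ≤ σ' → σ₀ ≤ LF ps →
      LF ps + R ≤ Real.log X ∧ D.v + (D.n - LF ps) + (a + α) + g₀ (LF ps) ≤ Real.log X ∧
      0 ≤ D.v + (D.n - LF ps) + a ∧ 2 * LF ps - D.κ ≤ D.v + (D.n - LF ps) + a ∧
      LF ps - g₀ (LF ps) + r ≤ D.n - cc + x₁ ∧ 0 ≤ g₀ (LF ps) ∧ Real.exp (g₀ (LF ps)) ≤ Dd (LF ps) ∧
      lo + g₀ (LF ps) + N * Real.log D.D0 + r ≤ LF ps) →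
    Cl D (Ge lo) B (s + r) (a + α) (Q * q₀) (σ' - e - N * r) →
    ClN D (exJ D.κ D.v D.n cc) Bl (s + r) (a + α) (Q * q₀) lo' (D.n - cc + x₁) →
    (∀ (q : Eis) (ps : List Pf), IsPrim q → (nm q : ℝ) * Real.exp (LF ps) ≤ Q → NT ps →
      SbL s ps D.ps₀ → σ₀ ≤ LF ps → LF ps ≤ σ' →
      LBn w Cw η₀ Aw (Real.exp D.κ) (Real.exp (LF ps)) X (Dd (LF ps))
        (N1 (D.v + (D.n - LF ps) + a + e₃ * Real.log X))
        (ρ (D.v + (D.n - LF ps) + a + e₃ * Real.log X)) R Jn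
        (sqc q (alF D.z D.D0 D.P D.h ps)) (El * Ht ps ^ J * Real.exp (2 * LF ps))) →
    Cl D (NTGe σ₀) (C * X ^ (2 * ε) * (El + Bl * Real.exp (N * Real.log D.D0 + a + α) + 1) +
      C * X ^ (2 * ε) * B) s a Q σ' := by
  obtain ⟨Cw, C₀, η₁, hCw, hC₀, hη₁, hη₁1, hab'⟩ := hab Jn Aw R 3 e₃ ε hAw hR
    (by positivity) he₃ hε
  obtain ⟨η₀, hη₀d⟩ : ∃ x : ℝ, x = min η₁ (1 / 2) := ⟨_, rfl⟩
  have hη₀ : 0 < η₀ := by rw [hη₀d]; exact lt_min hη₁ (by norm_num)
  have hη₀1 : η₀ ≤ 1 / 2 := by rw [hη₀d]; exact min_le_right _ _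
  have hη₀2 : η₀ ≤ η₁ := by rw [hη₀d]; exact min_le_left _ _
  obtain ⟨C₁, r₁, hC₁, hr₁, hsub⟩ := sub_num hpu N (B₀ := 1) zero_le_one hε hJ
  obtain ⟨C₂, r₂, hC₂, hr₂, hlar⟩ := large_num hpu N (B₀ := 1) (ε := ε) hJ
    (mergeList_of hpu N zero_le_one hε hJ)
  set r := max r₁ r₂ with hr
  have hr1 : r₁ ≤ r := le_max_left _ _
  have hr2 : r₂ ≤ r := le_max_right _ _
  have hr0 : 0 ≤ r := hr₁.trans hr1
  set H : ℝ := (η₀⁻¹) ^ (2 * Jn + 2) with hH
  have hH0 : 0 ≤ H := by positivity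
  refine ⟨Cw, (C₀ * H + 1) * (C₁ * C₂), η₀, r, Ca, hCw, ?_, hη₀, hη₀1, hr0, ?_⟩
  · have h1 : 1 ≤ C₀ * H + 1 := by have : 0 ≤ C₀ * H := by positivity
                                   linarith
    exact one_le_mul_of_one_le_of_one_le h1 (one_le_mul_of_one_le_of_one_le hC₁ hC₂)
  intro X hX hXa D hP hh hD0 hz hDJ hN hκ N0 N1 ρ hcut B Bl El s a α Q q₀ e cc x₁ lo lo' σ₀ σ'
    Dd' g₀' hB hBl hEl ha hq₀ hα he hlo' hx₁ hcc hsize hCl hClN hLB
  intro q ps k hq hqQ hps₁ hps hL hk hk'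
  obtain ⟨hnt, hσ₀⟩ := hps₁
  have hX1 : (1 : ℝ) ≤ X := by linarith
  have hX0 : 0 < X := by linarith
  have hlX : 0 ≤ Real.log X := Real.log_nonneg hX1
  have hlD : 0 ≤ Real.log D.D0 := Real.log_nonneg hD0
  have hN0 : (0 : ℝ) ≤ N := Nat.cast_nonneg _
  have hlen : ps.length ≤ N := hps.length ▸ hN
  obtain ⟨z1, z2, z3, z4, z5, hg₀, hDd, hlo⟩ := hsize ps hps hL hσ₀
  have hz0 := hps.z_nonneg
  have hHt := one_le_Ht ps
  set m := LF ps with hm
  set g₀ : ℝ := g₀' m with hg₀d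
  set Dd : ℝ := Dd' m with hDdd
  have hm0 : 0 ≤ m := LF_nonneg hz0
  set L : ℝ := D.v + (D.n - m) + a + e₃ * Real.log X with hLd
  have he3X : 0 ≤ e₃ * Real.log X := by positivity
  have hL0 : 0 ≤ L := by rw [hLd]; linarith
  have hkL : k ≤ L := by rw [hLd]; linarith
  have hLα : L + c₁ + r ≤ D.v + (D.n - m) + (a + α) := by rw [hLd]; linarith
  set al := sqc q (alF D.z D.D0 D.P D.h ps) with hal
  obtain ⟨hsup, hwin, hL1, _⟩ := hAL D.z D.D0 D.P hP q ps hlen X hXa (by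
    rw [← Real.exp_add, ← Real.exp_log hX0]; exact Real.exp_le_exp.2 (by linarith))
  rw [← hh] at hsup hwin hL1
  have hN1 : 9 * (N1 L : ℝ) ≤ Real.exp (L + c₁) := hcut.hi L hL0
  have hN0L : Real.exp L ≤ N0 L := hcut.lo L hL0
  have hexpX : Real.exp (L + c₁) ≤ X := by
    rw [← Real.exp_log hX0]; exact Real.exp_le_exp.2 (by linarith)
  have hemX : Real.exp m ≤ X := by
    rw [← Real.exp_log hX0]; exact Real.exp_le_exp.2 (by linarith)
  have hXa1 : X ≤ X ^ (3 : ℝ) := by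
    calc X = X ^ (1 : ℝ) := (Real.rpow_one X).symm
      _ ≤ X ^ (3 : ℝ) := Real.rpow_le_rpow_of_exponent_le hX1 (by norm_num)
  -- the numbers
  set HJ : ℝ := Ht ps ^ J with hHJ
  have hHJ1 : 1 ≤ HJ := Real.one_le_rpow hHt hJ
  set Em : ℝ := Real.exp (2 * m) with hEm
  have hEm1 : 1 ≤ Em := Real.one_le_exp (by linarith)
  set Ms : ℝ := C₁ * X ^ ε * B * HJ * Em with hMs
  set Ml : ℝ := C₂ * X ^ ε * Bl * HJ * Real.exp (N * Real.log D.D0 + (a + α - r)) * Em with hMl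
  have hMs0 : 0 ≤ Ms := by positivity
  have hMl0 : 0 ≤ Ml := by positivity
  have hpow : ∀ t : ℝ, (1 + |t|) ^ ((N : ℝ) * J) ≤ (1 + |t|) ^ Jn := fun t => by
    rw [← Real.rpow_natCast]
    exact Real.rpow_le_rpow_of_exponent_le (by linarith [abs_nonneg t]) hJn
  have key := hab' (Real.exp D.κ) (Real.exp m) X η₀ Dd (Real.exp g₀) (N0 L) (N1 L) (ρ L)
    (by
      calc X ^ (-(3 : ℝ)) ≤ 1 := Real.rpow_le_one_of_one_le_of_nonpos hX1 (by norm_num)
        _ ≤ Real.exp D.κ := Real.one_le_exp hκ)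
    (Real.exp_pos _) (hemX.trans hXa1) hX1 hη₀ hη₀2
    ((Real.one_le_exp hg₀).trans hDd) hDd
    (by
      have h1 : (1 : ℝ) ≤ N0 L := (Real.one_le_exp hL0).trans hN0L
      exact_mod_cast h1)
    (hcut.le L hL0)
    (by
      have h1 : (N1 L : ℝ) ≤ 9 * N1 L := by
        have : (0 : ℝ) ≤ N1 L := Nat.cast_nonneg _
        linarith
      exact h1.trans (hN1.trans (hexpX.trans hXa1)))
    (hcut.anti L hL0) (hcut.one L hL0) (hcut.zero L hL0)
    (by
      have e1 : Real.exp m ^ 2 * X ^ e₃ = Real.exp (2 * m + e₃ * Real.log X) := by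
        rw [Real.exp_add, Real.rpow_def_of_pos hX0, mul_comm (Real.log X), ← Real.exp_nat_mul]
        norm_num
      rw [e1]
      calc Real.exp (2 * m + e₃ * Real.log X) ≤ Real.exp (D.κ + L) :=
            Real.exp_le_exp.2 (by rw [hLd]; linarith)
        _ = Real.exp D.κ * Real.exp L := Real.exp_add _ _
        _ ≤ Real.exp D.κ * N0 L := mul_le_mul_of_nonneg_left hN0L (Real.exp_pos _).le)
    al
    hsup hwin (hL1 3 le_rfl)
    (El * HJ * Em) Ms Ml (by positivity) hMs0 hMl0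
    (hLB q ps hq hqQ hnt hps hσ₀ hL)
    (by
      intro g hg hg1 hgG V hV hVN t
      have hg' := (mem_S hX0.le).1 hg
      have hgp := hg'.2.1
      have hng : (0 : ℝ) < nm g := by exact_mod_cast nm_pos.2 hgp.ne_zero
      have hlg : Real.log (nm g) ≤ g₀ := by
        rw [← Real.log_exp g₀]; exact Real.log_le_log hng hgG
      have hlg0 : 0 ≤ Real.log (nm g) := by
        refine Real.log_nonneg ?_
        exact_mod_cast nm_pos.2 hgp.ne_zero
      have hV0 : 0 < V := by linarith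
      have hlV : Real.log V ≤ L + c₁ + Real.log (nm g) := by
        have h1 : V ≤ Real.exp (L + c₁) * nm g :=
          hVN.trans (mul_le_mul_of_nonneg_right hN1 hng.le)
        have h2 := Real.log_le_log hV0 h1
        rwa [Real.log_mul (Real.exp_pos _).ne' hng.ne', Real.log_exp] at h2
      have h1 := hsub X hX D hP hh hD0 hDJ hN B s (a + α - r₁) Q q₀ (σ' - e - N * r) lo hB
        ((Real.exp_le_exp.2 hr1).trans hq₀)
        (hCl.mono le_rfl (by linarith) (by linarith) le_rfl le_rfl) q g ps t V hq hqQ hgp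
        (by rw [Real.rpow_one]; exact hg'.1) hps (by linarith)
        (fun x _ hx2 => by
          have h3 := hx2 hg1 (by rw [hz]; exact hD0) hnt
          rw [hz, min_self] at h3
          linarith)
        (by linarith) hV (by
          rw [← Real.exp_log hX0, ← Real.exp_log hV0]
          exact Real.exp_le_exp.2 (by linarith)) (by linarith)
      rw [exp_max_eq hV0 hng] at h1
      refine h1.trans ?_
      have h2 : 0 ≤ max 1 ((V * Real.exp D.κ / (Real.exp m / nm g) ^ 2) ^ (1 / 3 : ℝ)) :=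
        le_trans zero_le_one (le_max_left _ _)
      calc C₁ * X ^ ε * B * Ht ps ^ J * (1 + |t|) ^ ((N : ℝ) * J) *
            (Real.exp (2 * m) / (nm g : ℝ) ^ 2 *
              max 1 ((V * Real.exp D.κ / (Real.exp m / nm g) ^ 2) ^ (1 / 3 : ℝ))) ≤
          C₁ * X ^ ε * B * Ht ps ^ J * (1 + |t|) ^ Jn *
            (Real.exp (2 * m) / (nm g : ℝ) ^ 2 *
              max 1 ((V * Real.exp D.κ / (Real.exp m / nm g) ^ 2) ^ (1 / 3 : ℝ))) := by
            have := hpow t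
            gcongr
        _ = _ := by rw [hMs]; ring)
    (by
      intro g hg Bb V hBb hBbX hV hVN t
      have hg' := (mem_S hX0.le).1 hg
      have hgp := hg'.2.1
      have hng : (0 : ℝ) < nm g := by exact_mod_cast nm_pos.2 hgp.ne_zero
      have hng1 : (1 : ℝ) ≤ nm g := by exact_mod_cast nm_pos.2 hgp.ne_zero
      have hV0 : 0 < V := by linarith
      have hVN' : V * (nm g : ℝ) ^ 2 ≤ Real.exp (L + c₁) := by
        have h1 := (le_div_iff₀ (by positivity)).1 hVN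
        exact h1.trans hN1
      have hlV : Real.log V + 2 * Real.log (nm g) ≤ L + c₁ := by
        have h2 := Real.log_le_log (by positivity) hVN'
        rw [Real.log_mul hV0.ne' (by positivity), Real.log_pow, Real.log_exp] at h2
        push_cast at h2
        linarith
      have hVX : V ≤ X := by
        have h1 : V * 1 ≤ V * (nm g : ℝ) ^ 2 :=
          mul_le_mul_of_nonneg_left (one_le_pow₀ hng1) hV0.le
        linarith
      have h1 := hlar X hX D hP hh hD0 hDJ hN Bl s (a + α - r) Q q₀ cc lo' x₁ hBl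
        ((Real.exp_le_exp.2 hr2).trans hq₀) (by linarith) hlo' hx₁
        (fun q' ps' k' b1 b2 b3 b4 b5 b6 b7 b8 =>
          hClN q' ps' k' b1 b2 b3 (b4.mono (by linarith)) b5 b6 b7 (by linarith)) q g ps X
        (Real.exp g₀) Bb V t hq hqQ hgp (by rw [Real.rpow_one]; exact hg'.1) hps (by linarith)
        (by linarith) hX0.le hBb (by rw [Real.rpow_one]; exact hBbX) (Real.exp_pos _)
        (by rw [Real.log_exp]; linarith) hV hVX (by linarith)
      refine h1.trans ?_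
      have h2 : 0 ≤ yv (Real.exp D.κ) (Real.exp m) g V := by unfold yv; positivity
      calc (C₂ * X ^ ε * Bl * Ht ps ^ J * Real.exp (N * Real.log D.D0 + (a + α - r)) *
            Real.exp (2 * m)) / (nm g : ℝ) ^ 2 * yv (Real.exp D.κ) (Real.exp m) g V *
            (1 + |t|) ^ ((N : ℝ) * J) ≤
          (C₂ * X ^ ε * Bl * Ht ps ^ J * Real.exp (N * Real.log D.D0 + (a + α - r)) *
            Real.exp (2 * m)) / (nm g : ℝ) ^ 2 * yv (Real.exp D.κ) (Real.exp m) g V *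
            (1 + |t|) ^ Jn := by
            have := hpow t
            gcongr
        _ = _ := by rw [hMl])
  -- conclusion
  have hρ0 : ∀ n, 0 ≤ ρ L n := fun n => by
    have h4 := hcut.anti L hL0 (show n ≤ max n (N1 L + 1) from le_max_left _ _)
    rwa [hcut.zero L hL0 (max n (N1 L + 1)) (lt_of_lt_of_le (Nat.lt_succ_self _)
      (le_max_right _ _))] at h4
  have hfin := VF_le_of_Wn (V := Real.exp k) (Real.exp_pos D.κ) (Real.exp_pos m)
    (Real.one_le_exp hk) hρ0 (hcut.one L hL0) ((Real.exp_le_exp.2 hkL).trans hN0L)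
    (hcut.le L hL0) key
  have hM : max 1 ((Real.exp k * Real.exp D.κ / Real.exp m ^ 2) ^ (1 / 3 : ℝ)) * Em =
      Real.exp (fl D.κ k m) := by
    have h1 := exp_max_eq (V := Real.exp k) (m := m) (g := 1) (κ := D.κ) (Real.exp_pos _) one_pos
    rw [Real.log_one, Real.log_exp, mul_zero, sub_zero, add_zero, one_pow, div_one, div_one]
      at h1
    rw [mul_comm, hEm, ← h1]
    rfl
  show VF (Real.exp k) al ≤ _
  refine hfin.trans ?_
  rw [hDJ]
  set Mx := max 1 ((Real.exp k * Real.exp D.κ / Real.exp m ^ 2) ^ (1 / 3 : ℝ)) with hMx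
  have hMx0 : 0 ≤ Mx := le_trans zero_le_one (le_max_left _ _)
  have hXε : 1 ≤ X ^ ε := Real.one_le_rpow hX1 hε.le
  set Ex : ℝ := Real.exp (N * Real.log D.D0 + a + α) with hEx
  have hEx' : Real.exp (N * Real.log D.D0 + (a + α - r)) ≤ Ex :=
    Real.exp_le_exp.2 (by linarith)
  have hsum : El * HJ * Em + Ms + Ml + 1 ≤
      (C₁ * C₂) * X ^ ε * (El + Bl * Ex + 1 + B) * (HJ * Em) := by
    have hHE : 1 ≤ HJ * Em := one_le_mul_of_one_le_of_one_le hHJ1 hEm1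
    have hHE0 : 0 ≤ HJ * Em := by linarith
    have c1 : 1 ≤ (C₁ * C₂) * X ^ ε := one_le_mul_of_one_le_of_one_le
      (one_le_mul_of_one_le_of_one_le hC₁ hC₂) hXε
    have d1 : El * HJ * Em ≤ (C₁ * C₂) * X ^ ε * El * (HJ * Em) := by
      calc El * HJ * Em = 1 * (El * (HJ * Em)) := by ring
        _ ≤ ((C₁ * C₂) * X ^ ε) * (El * (HJ * Em)) :=
            mul_le_mul_of_nonneg_right c1 (by positivity)
        _ = _ := by ring
    have d2 : Ms ≤ (C₁ * C₂) * X ^ ε * B * (HJ * Em) := by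
      rw [hMs]
      calc C₁ * X ^ ε * B * HJ * Em = C₁ * 1 * (X ^ ε * B * (HJ * Em)) := by ring
        _ ≤ C₁ * C₂ * (X ^ ε * B * (HJ * Em)) :=
            mul_le_mul_of_nonneg_right (mul_le_mul_of_nonneg_left hC₂ (by linarith))
              (by positivity)
        _ = _ := by ring
    have d3 : Ml ≤ (C₁ * C₂) * X ^ ε * (Bl * Ex) * (HJ * Em) := by
      rw [hMl]
      calc C₂ * X ^ ε * Bl * HJ * Real.exp (N * Real.log D.D0 + (a + α - r)) * Em ≤
            C₂ * X ^ ε * Bl * HJ * Ex * Em := by gcongr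
        _ = 1 * C₂ * (X ^ ε * (Bl * Ex) * (HJ * Em)) := by ring
        _ ≤ C₁ * C₂ * (X ^ ε * (Bl * Ex) * (HJ * Em)) :=
            mul_le_mul_of_nonneg_right (mul_le_mul_of_nonneg_right hC₁ (by linarith))
              (by positivity)
        _ = _ := by ring
    have d4 : 1 ≤ (C₁ * C₂) * X ^ ε * 1 * (HJ * Em) := by
      rw [mul_one]
      exact one_le_mul_of_one_le_of_one_le c1 hHE
    calc El * HJ * Em + Ms + Ml + 1 ≤ (C₁ * C₂) * X ^ ε * El * (HJ * Em) +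
          (C₁ * C₂) * X ^ ε * B * (HJ * Em) + (C₁ * C₂) * X ^ ε * (Bl * Ex) * (HJ * Em) +
          (C₁ * C₂) * X ^ ε * 1 * (HJ * Em) := by linarith
      _ = _ := by ring
  have hXX : X ^ (2 * ε) = X ^ ε * X ^ ε := by
    rw [← Real.rpow_add hX0]; congr 1; ring
  calc Mx * (C₀ * H * X ^ ε * (El * HJ * Em + Ms + Ml + 1)) ≤
        Mx * ((C₀ * H + 1) * X ^ ε * ((C₁ * C₂) * X ^ ε * (El + Bl * Ex + 1 + B) *
          (HJ * Em))) := by
        refine mul_le_mul_of_nonneg_left ?_ hMx0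
        refine mul_le_mul ?_ hsum (by positivity) (by positivity)
        exact mul_le_mul_of_nonneg_right (by linarith) (by positivity)
    _ = ((C₀ * H + 1) * (C₁ * C₂) * X ^ (2 * ε) * (El + Bl * Ex + 1) +
          (C₀ * H + 1) * (C₁ * C₂) * X ^ (2 * ε) * B) * HJ * (Mx * Em) := by
        rw [hXX]; ring
    _ = _ := by rw [hM]


set_option maxHeartbeats 3200000 in
/-- **the recursion with its parameters**, flat claims only near `n - cc` -/
theorem rg_N_g {h : ℝ → ℝ} {c : ℝ} (hpu : PU h c) (N : ℕ) {w : ℝ → ℝ} (hab : Abs4 w)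
    {R Ca c₁ δ ε₁ e₃ ε J : ℝ} {m Jn Aw : ℕ} (hR : 0 ≤ R) (hAL : ALp h N R Ca) (hc₁ : 0 ≤ c₁)
    (hδ : 0 < δ) (hε₁ : 0 < ε₁) (hε₁1 : ε₁ ≤ 1 / 16) (he₃ : 0 < e₃) (hε : 0 < ε) (hJ : 0 ≤ J)
    (hJn : (N : ℝ) * J ≤ Jn) (hAw : Jn + 2 ≤ Aw) (hm : 4 ≤ m * δ) (hme : 8 * (m * e₃) ≤ ε₁)
    (hNδ : 4 * (N * δ) ≤ ε₁) :
    ∃ Cw η₀ C S X₁ : ℝ, 0 ≤ Cw ∧ 0 < η₀ ∧ η₀ ≤ 1 / 2 ∧ 1 ≤ C ∧ 0 ≤ S ∧ ∀ X : ℝ, 3 ≤ X → X₁ ≤ X →
    ∀ D : Dat, D.P.OK → D.h = h → D.D0 = X ^ δ → D.z = D.D0 → D.J = J → D.ps₀.length ≤ N →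
    (∀ p ∈ D.ps₀, 0 ≤ p.z) → D.n = LF (natl D.ps₀) → 0 ≤ D.κ → 0 ≤ D.v →
    D.n ≤ Real.log X / 4 → D.v ≤ Real.log X / 4 → 2 * D.n ≤ D.κ + D.v →
    ∀ (N0 N1 : ℝ → ℕ) (ρ : ℝ → ℕ → ℝ), Cut N0 N1 ρ c₁ →
    ∀ (cc Bd El : ℝ) (Dd : ℝ → ℝ), 0 ≤ cc → cc ≤ Real.log X / 8 →
    0 ≤ Bd → 0 ≤ El → (∀ m, Real.exp (min cc (m - (D.n - cc))) ≤ Dd m) →
    ClN D (exJ D.κ D.v D.n cc) Bd S (3 * (ε₁ * Real.log X)) (C * Real.exp D.n) 0
      (D.n - cc + ε₁ * Real.log X) →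
    ClN D (ex0 D.κ) Bd S (3 * (ε₁ * Real.log X)) (C * Real.exp D.n)
      (D.n - cc - ε₁ * Real.log X) (D.n - cc + ε₁ * Real.log X) →
    (∀ a : ℝ, ε₁ * Real.log X ≤ a → a ≤ 2 * (ε₁ * Real.log X) → ∀ (q : Eis) (ps : List Pf),
      IsPrim q → (nm q : ℝ) * Real.exp (LF ps) ≤ C * Real.exp D.n → NT ps →
      SbL S ps D.ps₀ → D.n - cc ≤ LF ps →
      LBn w Cw η₀ Aw (Real.exp D.κ) (Real.exp (LF ps)) X (Dd (LF ps))
        (N1 (D.v + (D.n - LF ps) + a + e₃ * Real.log X))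
        (ρ (D.v + (D.n - LF ps) + a + e₃ * Real.log X)) R Jn
        (sqc q (alF D.z D.D0 D.P D.h ps)) (El * Ht ps ^ J * Real.exp (2 * LF ps))) →
    ∀ k : ℝ, 0 ≤ k → k ≤ D.v → SF D.z D.D0 1 D.P D.h k (natl D.ps₀) ≤
      C * X ^ (3 * (m * ε) + 4 * ε + 4 * ε₁) * (El + Bd + 1) * Ht (natl D.ps₀) ^ J *
        Real.exp (fl D.κ k D.n) := by
  classical
  have hN0 : (0 : ℝ) ≤ N := Nat.cast_nonneg _
  have hm0 : (0 : ℝ) ≤ m := Nat.cast_nonneg _
  obtain ⟨C₁, r₁, hC₁, hr₁, hleg⟩ := leg_step2 hpu N hε hJ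
  obtain ⟨Cw, C₂, η₀, r₂, X₂, hCw, hC₂, hη₀, hη₀1, hr₂, hnt⟩ :=
    nt_step_g hpu N hab hJ he₃ hε hR hJn hAw hAL hc₁
  obtain ⟨C₃, r₃, hC₃, hr₃, hop⟩ := open_num hpu N hε hJ
  obtain ⟨r, hr1, hr2, hr3⟩ : ∃ r : ℝ, r₁ ≤ r ∧ r₂ ≤ r ∧ r₃ ≤ r :=
    ⟨max r₁ (max r₂ r₃), le_max_left _ _, (le_max_left _ _).trans (le_max_right _ _),
      (le_max_right _ _).trans (le_max_right _ _)⟩
  have hr0 : 0 ≤ r := hr₁.trans hr1
  set q₀ : ℝ := Real.exp ((N + 1) * r) with hq₀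
  have hq₀1 : 1 ≤ q₀ := Real.one_le_exp (by positivity)
  have hqN : Real.exp (N * r) ≤ q₀ := Real.exp_le_exp.2 (by linarith)
  have hqr : Real.exp r ≤ q₀ := Real.exp_le_exp.2 (by nlinarith)
  set S : ℝ := m * (2 * r) + r with hS
  have hS0 : 0 ≤ S := by positivity
  set Cq : ℝ := (q₀ ^ 2) ^ m * q₀ with hCq
  have hCq1 : 1 ≤ Cq := one_le_mul_of_one_le_of_one_le (one_le_pow₀ (one_le_pow₀ hq₀1)) hq₀1
  set Cf : ℝ := (3 * (C₁ * C₂)) ^ m * (2 * (C₂ * C₃)) with hCf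
  have hCf1 : 1 ≤ Cf := by
    have h1 : 1 ≤ C₁ * C₂ := one_le_mul_of_one_le_of_one_le hC₁ hC₂
    have h2 : 1 ≤ C₂ * C₃ := one_le_mul_of_one_le_of_one_le hC₂ hC₃
    exact one_le_mul_of_one_le_of_one_le (one_le_pow₀ (by linarith)) (by linarith)
  -- the threshold
  set T : ℝ := (16 * (m + 1) * (N + 1) * (r + 1) * (c₁ + 1) + 16 * R) / (δ * ε₁) +
    (16 * (m + 1) * (N + 1) * (r + 1) * (c₁ + 1) + 16 * R) / ε₁ +
    (16 * (m + 1) * (N + 1) * (r + 1) * (c₁ + 1) + 16 * R) / δ with hT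
  set U : ℝ := 16 * (m + 1) * (N + 1) * (r + 1) * (c₁ + 1) + 16 * R with hU
  have hU0 : 0 ≤ U := by positivity
  refine ⟨Cw, η₀, Cq * Cf, S, max X₂ (Real.exp T), hCw, hη₀, hη₀1,
    one_le_mul_of_one_le_of_one_le hCq1 hCf1, hS0, ?_⟩
  intro X hX hXT D hP hh hD0 hz hDJ hN hz0 hn hκ hv hn4 hv4 h2n N0 N1 ρ hcut cc Bd El Dd hcc hcc8
    hBd hEl hDd hClJ hClT hLB k hk hkv
  have hX1 : (1 : ℝ) ≤ X := by linarith
  have hX0 : 0 < X := by linarith
  set l : ℝ := Real.log X with hl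
  have hl0 : 0 ≤ l := Real.log_nonneg hX1
  have hTl : T ≤ l := by
    rw [hl, ← Real.log_exp T]
    exact Real.log_le_log (Real.exp_pos _) ((le_max_right _ _).trans hXT)
  have hUδ : U ≤ δ * l := by
    have h1 : U / δ ≤ l := by
      refine le_trans ?_ hTl
      rw [hT]
      have : 0 ≤ U / (δ * ε₁) := by positivity
      have : 0 ≤ U / ε₁ := by positivity
      linarith
    rwa [div_le_iff₀ hδ, mul_comm] at h1
  have hUε : U ≤ ε₁ * l := by
    have h1 : U / ε₁ ≤ l := by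
      refine le_trans ?_ hTl
      rw [hT]
      have : 0 ≤ U / (δ * ε₁) := by positivity
      have : 0 ≤ U / δ := by positivity
      linarith
    rwa [div_le_iff₀ hε₁, mul_comm] at h1
  have hεl : 0 ≤ ε₁ * l := by positivity
  -- consequences of the threshold
  obtain ⟨w1, w2, w3, w4, w5, w6, w7, hεl16⟩ :=
    rg_thr (n := (N : ℝ)) (m := (m : ℝ)) (e₃ := e₃) hN0 hm0 hr0 hc₁ hR hS hl0 hU hUδ hUε hm hme
      hNδ hε₁1
  have hlD : Real.log D.D0 = δ * l := by rw [hD0, Real.log_rpow hX0]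
  have hD01 : 1 ≤ D.D0 := by rw [hD0]; exact Real.one_le_rpow hX1 hδ.le
  have hδl : 0 ≤ δ * l := by positivity
  -- the parameters
  set e : ℝ := δ * l / 2 with he
  set α : ℝ := e₃ * l + c₁ + r with hα
  set σ₀ : ℝ := D.n - cc with hσ₀
  set lo : ℝ := D.n - cc - 2 * (N * (δ * l)) - (N + 1) * r with hlo
  have hmα : ε₁ * l + m * (2 * α) + r ≤ 2 * (ε₁ * l) := w5
  have hα0 : r ≤ α := by
    rw [hα]
    have : 0 ≤ e₃ * l := by positivity
    linarith
  have hαX : e₃ * Real.log X + c₁ + r₂ ≤ α := by rw [hα]; linarith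
  have hme' : l ≤ m * e := w6
  have hNS : 0 ≤ N * S := by positivity
  have hNδ0 : 0 ≤ N * (δ * l) := by positivity
  have hNr : 0 ≤ N * r := by positivity
  have hcc0 : 0 ≤ cc := hcc
  have hLFle : ∀ (s' : ℝ) (ps : List Pf), 0 ≤ s' → s' ≤ S → SbL s' ps D.ps₀ →
      LF ps ≤ D.n + N * S := by
    intro s' ps h0 h1 h2
    have := h2.LF_le h0 hN
    rw [← hn] at this
    have : (N : ℝ) * s' ≤ N * S := mul_le_mul_of_nonneg_left h1 hN0
    linarith
  -- the terminal range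
  have hterm : Cl D (Ge lo) (C₃ * X ^ ε * Bd) (0 + m * (2 * r)) (ε₁ * l + m * (2 * α))
      (Real.exp D.n * (q₀ ^ 2) ^ m) σ₀ := by
    have h1 := hop X hX D hP hh hD01 hDJ hN Bd (0 + m * (2 * r)) (ε₁ * l + m * (2 * α))
      (Real.exp D.n * (q₀ ^ 2) ^ m) q₀ lo (D.n - cc - ε₁ * l) σ₀ (D.n - cc + ε₁ * l) hBd
      ((Real.exp_le_exp.2 (mul_le_mul_of_nonneg_left hr3 hN0)).trans hqN)
      (fun ps h1 h2 h3 => by
        constructor
        · rw [hσ₀] at h2; linarith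
        · rw [hlo] at h3; linarith)
      (by
        rw [hσ₀]
        have : (N : ℝ) * r₃ ≤ N * r := mul_le_mul_of_nonneg_left hr3 hN0
        linarith)
      (by
        rw [hlo, hlD]
        have : (N : ℝ) * r₃ ≤ N * r := mul_le_mul_of_nonneg_left hr3 hN0
        linarith)
      (fun q ps' k' b1 b2 b3 b4 b5 b6 b7 b8 => hClT q ps' k' b1 (b2.trans (by
          rw [hCq]
          calc Real.exp D.n * (q₀ ^ 2) ^ m * q₀ = ((q₀ ^ 2) ^ m * q₀) * 1 * Real.exp D.n := by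
                ring
            _ ≤ ((q₀ ^ 2) ^ m * q₀) * Cf * Real.exp D.n := by gcongr))
        b3 (b4.mono (by rw [hS]; linarith)) b5 b6 b7 (by linarith))
    exact h1.expo (by positivity) (fun k m => ex0_le_fl D.κ k m)
  -- the recursion
  set Gc : ℝ := C₂ * X ^ (2 * ε) * (El + Bd * Real.exp (N * (δ * l) + 2 * (ε₁ * l)) + 1) with hGc
  have hrec := rec_j (D := D) (N := N) (C₁ := C₁ * X ^ ε) (C₂ := C₂ * X ^ (2 * ε)) (G := Gc)
    (B₀ := C₃ * X ^ ε * Bd) (r := r) (e := e) (α := α) (q₀ := q₀) (lo := lo) (σ₀ := σ₀)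
    (by
      have : 1 ≤ X ^ ε := Real.one_le_rpow hX1 hε.le
      exact one_le_mul_of_one_le_of_one_le hC₁ this)
    (by positivity) (by rw [hGc]; positivity) (by positivity) hr0 hα0 hq₀1 (by rw [he]; positivity)
    (s := 0) (a := ε₁ * l) (Q := Real.exp D.n) (Real.exp_pos _).le m hterm
    (by rw [hlo, hσ₀, hlD]; linarith)
    (by
      intro B B' s' a' Q' σ' hB hB' h1 h2 h3 h4 h5 h6 h7
      have h8 := hleg X hX D hP hh hD01 hDJ hN B B' s' a' Q' q₀ σ' e lo hB hB'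
        ((Real.exp_le_exp.2 (mul_le_mul_of_nonneg_left hr1 hN0)).trans hqN)
        (fun ps c1 c2 c3 => by
          have c4 := hLFle s' ps h1 (by rw [hS]; linarith) c1
          constructor
          · linarith
          · rw [hlo] at c3; linarith)
        (by
          rw [hlD, he]
          have : ((N : ℝ) + 1) * r₁ ≤ (N + 1) * r := mul_le_mul_of_nonneg_left hr1 (by linarith)
          linarith)
        (h6.mono le_rfl (by linarith) (by linarith) le_rfl (by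
          have : (N : ℝ) * r₁ ≤ N * r := mul_le_mul_of_nonneg_left hr1 hN0
          linarith))
        (h7.mono le_rfl (by linarith) (by linarith) le_rfl le_rfl)
      refine h8.weaken fun ps hps => ?_
      have h9 : lo + N * (2 * Real.log D.D0 + r) ≤ LF ps := hps
      show lo + N * (2 * Real.log D.D0 + r₁) ≤ LF ps
      have : (N : ℝ) * r₁ ≤ N * r := mul_le_mul_of_nonneg_left hr1 hN0
      linarith)
    (by
      intro B s' a' Q' σ' hB h1 h2 h3 h4 h5 h6 h7 h8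
      have hs'S : s' + r ≤ S := by rw [hS]; linarith
      have hQm : Real.exp D.n * (q₀ ^ 2) ^ m ≤ Cq * Cf * Real.exp D.n := by
        rw [hCq]
        have g1 : 0 ≤ (q₀ ^ 2) ^ m := by positivity
        have g2 : 1 ≤ q₀ * Cf := one_le_mul_of_one_le_of_one_le hq₀1 hCf1
        calc Real.exp D.n * (q₀ ^ 2) ^ m = (q₀ ^ 2) ^ m * Real.exp D.n * 1 := by ring
          _ ≤ (q₀ ^ 2) ^ m * Real.exp D.n * (q₀ * Cf) :=
              mul_le_mul_of_nonneg_left g2 (by positivity)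
          _ = _ := by ring
      have hQ' : Q' ≤ Cq * Cf * Real.exp D.n := by
        have : Q' ≤ Q' * q₀ := le_mul_of_one_le_right h5 hq₀1
        linarith
      have h9 := hnt X hX ((le_max_left _ _).trans hXT) D hP hh hD01 hz hDJ hN hκ N0 N1 ρ hcut
        B Bd El s' a' α Q' q₀ (e + N * (r - r₂)) cc (ε₁ * l) lo 0 σ₀ σ' Dd
        (fun m => min cc (m - (D.n - cc))) hB hBd hEl
        (by linarith) ((Real.exp_le_exp.2 hr2).trans hqr) hαX
        (by
          rw [hlD, he]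
          have q1 : (e + N * (r - r₂)) + (N + 1) * r₂ = e + N * r + r₂ := by ring
          rw [← he, q1, he]
          linarith)
        le_rfl hεl le_rfl
        (fun ps c1 c2 c3 => by
          have c4 := hLFle s' ps h1 (by linarith) c1
          rw [hσ₀] at c3
          have g1 : min cc (LF ps - (D.n - cc)) ≤ cc := min_le_left _ _
          have g2 : min cc (LF ps - (D.n - cc)) ≤ LF ps - (D.n - cc) := min_le_right _ _
          have g3 : LF ps - (ε₁ * l - r₂) - (D.n - cc) ≤ min cc (LF ps - (D.n - cc)) :=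
            le_min (by linarith) (by linarith)
          refine ⟨by linarith, by linarith, by linarith, by linarith, by linarith,
            le_min hcc0 (by linarith), hDd (LF ps), ?_⟩
          rw [hlo, hlD]; linarith)
        (h8.mono le_rfl (by linarith) le_rfl le_rfl (by linarith))
        (fun q ps' k' b1 b2 b3 b4 b5 b6 b7 b8 => hClJ q ps' k' b1 (by linarith)
          b3 (b4.mono (by linarith)) b5 b6 b7 (by linarith))
        (fun q ps c1 c2 c3 c4 c5 c6 => hLB a' h3 (by linarith) q ps c1 (by linarith) c3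
          (c4.mono (by linarith)) c5)
      refine h9.mono ?_ le_rfl le_rfl le_rfl le_rfl
      have h10 : Real.exp (N * Real.log D.D0 + a' + α) ≤
          Real.exp (N * (δ * l) + 2 * (ε₁ * l)) := by
        rw [hlD]; exact Real.exp_le_exp.2 (by linarith)
      rw [hGc]
      gcongr)
  -- the conclusion
  have hfin := hrec 1 (natl D.ps₀) k isPrim_one (by
      rw [nm_one, ← hn]; push_cast; linarith) (by
      show lo ≤ LF (natl D.ps₀)
      rw [← hn, hlo]; linarith) (SbL_natl hz0) (by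
      rw [← hn, hσ₀]; linarith) hk (by rw [← hn]; linarith)
  rw [← hn] at hfin
  refine hfin.trans ?_
  rw [hDJ]
  have hHt := one_le_Ht (natl D.ps₀)
  have hHJ : 0 ≤ Ht (natl D.ps₀) ^ J := Real.rpow_nonneg (by linarith) _
  refine mul_le_mul_of_nonneg_right ?_ (Real.exp_pos _).le
  refine mul_le_mul_of_nonneg_right ?_ hHJ
  refine rg_const hC₁ hC₂ hC₃ hCq1 hX1 hε hε₁ hBd hEl ?_ (Real.exp_pos _).le
  rw [Real.rpow_def_of_pos hX0]
  refine Real.exp_le_exp.2 ?_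
  rw [← hl]
  linarith


end Crest.Agent.R017.NEg551
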