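import Crest.Agent.R017.RGwP_813

/-!
# Row 17, FlatNE (helper499): the absorbed inequality from joint blocks

* `EGDJ_le` : the errors of `E1posW3` from the joint blocks `(h; B, V)` with the weight
  `max B⁻¹ (yv K X h V)` (all divisors `h U ≠ 1`) and the far blocks `D < nm (h U)`
* **`rg_absorbJ`** : `rg_absorb4` with the number (S) replaced by the joint number (J)
-/

set_option autoImplicit false

noncomputable section

open Complex MeasureTheory Filter Topology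
open scoped ComplexConjugate Classical

namespace Crest.Agent.R017.NEm499

open Crest.Agent.R012 Crest.Agent.R012.Eis Crest.Agent.R012.MC
open Crest.Agent.R012.LS2 (S mem_S bl)
open Crest.Agent.R012.Weight600 (osc pw)
open Crest.Agent.R017.CM106 (CS TG FS)
open Crest.Agent.R017.C70 (JW)
open Crest.Agent.R017.E1551
open Crest.Agent.R017.Rough381 (VF)
open Crest.Agent.R017.Win813
open Crest.Agent.R017.RGw813

/-- **the errors of `E1posW3` from joint blocks** (`Y₀ < 1`, `G₀ ≤ D`) -/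
theorem EGDJ_le {A J ε : ℝ} (hA : J + 1 < A) (hJ : 0 ≤ J) (hε : 0 < ε) : ∃ C : ℝ, 0 ≤ C ∧
    ∀ (P K X Y D Y₀ Y₁ G₀ Ms Ml : ℝ) (α : Eis → ℂ), 1 ≤ P → 0 < K → 0 < X → 1 ≤ Y → Y ≤ P →
      0 ≤ Y₀ → Y₀ < 1 → 0 ≤ Y₁ → Y₁ ≤ P → 0 ≤ Ms → 0 ≤ Ml → 1 ≤ D → G₀ ≤ D →
      (∀ n, α n ≠ 0 → n ∈ S Y) →
      (∀ h ∈ S Y, ∀ B V, 1 ≤ B → B ≤ Y → 1 ≤ V → V ≤ Y₁ / (nm h : ℝ) ^ 2 → ∀ t,
        JB Y α (fun U => (1 : ℝ) < nm (h * U)) h B V t ≤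
          Ms / (nm h : ℝ) ^ 2 * max B⁻¹ (yv K X h V) * (1 + |t|) ^ J) →
      (∀ h ∈ S Y, ∀ B V, 1 ≤ B → B ≤ Y → 1 ≤ V → V ≤ Y₁ / (nm h : ℝ) ^ 2 → ∀ t,
        JB Y α (fun U => G₀ < nm (h * U)) h B V t ≤
          Ml / (nm h : ℝ) ^ 2 * yv K X h V * (1 + |t|) ^ J) →
      EG A K X Y Y₀ Y₁ α + ED A K X Y D Y₁ α ≤ C * P ^ ε * (Ms + Ml) := by
  obtain ⟨C₁, hC₁, h1⟩ := EU_le (A := A) (J := J) (ε := ε) hA hJ hε
  obtain ⟨C₂, hC₂, h2⟩ := EDU_le (A := A) (J := J) (ε := ε) hA hJ hε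
  refine ⟨C₁ + C₂, by positivity, fun P K X Y D Y₀ Y₁ G₀ Ms Ml α hP hK hX hY hYP hY₀ hY₀1 hY₁ hY₁P
    hMs hMl hD hGD hα hS hL => ?_⟩
  have hY0 : 0 ≤ Y := by linarith
  have hP0 : 0 < P := by linarith
  have a1 := EPJ (A := A) (Y₀ := Y₀) (Y₁ := Y₁) hK hX hY0 hα
  rw [EU_zero551 A K X Y Y₁ hY0 hY₀ hY₀1] at a1
  have hone : ∀ g ∈ S Y, g ≠ 1 → (nm g : ℝ) ≤ 1 → False := by
    intro g hg hg1 hgn
    have hp := ((mem_S hY0).1 hg).2.1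
    have h0 : 0 < nm g := nm_pos.2 hp.ne_zero
    have h3 : nm g = 1 := le_antisymm (by exact_mod_cast hgn) h0
    exact hg1 (K695.prim_eq_one_of_isUnit hp (isUnit_iff.2 h3))
  have a2 := h1 P K X Y 0 Y₁ 1 0 Ms α hP hK hX hY hYP le_rfl hP0.le hY₁ hY₁P le_rfl hMs hα
    (fun g hg hg1 hgn => (hone g hg hg1 hgn).elim)
    (fun g hg hg1 hgn => (hone g hg hg1 hgn).elim)
    hS
    (fun h hh B V hB hB' hV hV' => by
      rw [zero_div] at hV'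
      linarith)
  have a3 := ED_le_EDU (A := A) (Z := Y₁) hK hX hY0 hD hα
  have a4 := h2 P K X Y D Y₁ G₀ Ml α hP hK hX hY hYP hY₁ hY₁P hMl hGD hα hL
  rw [zero_add] at a2
  have a5 : 0 ≤ C₂ * P ^ ε * Ms := by positivity
  have a6 : 0 ≤ C₁ * P ^ ε * Ml := by positivity
  calc EG A K X Y Y₀ Y₁ α + ED A K X Y D Y₁ α ≤ C₁ * P ^ ε * Ms + C₂ * P ^ ε * Ml :=
        add_le_add (a1.trans a2) (a3.trans a4)
    _ ≤ _ := by nlinarith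

set_option maxHeartbeats 1000000 in
/-- **RG, absorbed inequality, joint blocks.** Inputs: (LB), (J), (L+). -/
theorem rg_absorbJ : ∃ w : ℝ → ℝ, Wgt w ∧ (∀ x, 0 ≤ w x) ∧
    ∀ (J Aw : ℕ) (R a e₃ ε : ℝ), J + 2 ≤ Aw → 0 ≤ R → 0 ≤ a → 0 < e₃ → 0 < ε →
    ∃ Cw C η₀ : ℝ, 0 ≤ Cw ∧ 0 ≤ C ∧ 0 < η₀ ∧ η₀ ≤ 1 ∧
    ∀ (K X Y η D G₀ : ℝ) (N₀ N₁ : ℕ) (ρ : ℕ → ℝ), Y ^ (-a) ≤ K → 0 < X → X ≤ Y ^ a → 1 ≤ Y →
      0 < η → η ≤ η₀ → 1 ≤ D → G₀ ≤ D → 1 ≤ N₀ → N₀ ≤ N₁ → (N₁ : ℝ) ≤ Y ^ a → Antitone ρ →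
      (∀ n ≤ N₀, ρ n = 1) → (∀ n, N₁ < n → ρ n = 0) → X ^ 2 * Y ^ e₃ ≤ K * N₀ →
      ∀ α : Eis → ℂ, (∀ n, α n ≠ 0 → n ∈ S Y) →
      (∀ n, α n ≠ 0 → |Real.log (nm n) - Real.log X| ≤ R) → ∑ n ∈ S Y, ‖α n‖ ≤ Y ^ a →
      ∀ E Ms Ml : ℝ, 0 ≤ E → 0 ≤ Ms → 0 ≤ Ml →
      (∀ p ∈ T9, ∀ (t X' : ℝ) (φ : ℝ → ℝ), 0 < X' → |Real.log X' - Real.log X| ≤ R + 1 →
        WK Cw η Aw φ → (∀ u, φ u ≠ 0 → |u - Real.log X'| ≤ η / 2) →
        Dg w K Y (fun n => bt φ α p n * pw t (nm n)) + 2 * cP w * K ^ (2 / 3 : ℝ) *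
          (XJw ρ (JW D (1 / 10) N₁) (fun n => bt φ α p n * pw t (nm n))).re -
        SqP w K (fun n => bt φ α p n * pw t (nm n)) ≤ (K / X) * (E * (1 + |t|) ^ J)) →
      (∀ h ∈ S Y, ∀ B V : ℝ, 1 ≤ B → B ≤ Y → 1 ≤ V → V ≤ 9 * N₁ / (nm h : ℝ) ^ 2 → ∀ t : ℝ,
        E1551.JB Y α (fun U => (1 : ℝ) < nm (h * U)) h B V t ≤
          Ms / (nm h : ℝ) ^ 2 * max B⁻¹ (yv K X h V) * (1 + |t|) ^ J) →
      (∀ h ∈ S Y, ∀ B V : ℝ, 1 ≤ B → B ≤ Y → 1 ≤ V → V ≤ 9 * N₁ / (nm h : ℝ) ^ 2 → ∀ t : ℝ,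
        E1551.JB Y α (fun U => G₀ < nm (h * U)) h B V t ≤
          Ml / (nm h : ℝ) ^ 2 * yv K X h V * (1 + |t|) ^ J) →
      ∑ κ ∈ Wn (1 / 10) N₁, ρ (nm κ) * (min 1 (lm K X 1 κ) * ‖TG α κ‖ ^ 2) ≤
        C * (η⁻¹) ^ (2 * J + 2) * Y ^ ε * (E + Ms + Ml + 1) := by
  obtain ⟨w, hw, hw0, h1⟩ := rg_absorb4m
  refine ⟨w, hw, hw0, fun J Aw R a e₃ ε hJA hR ha he₃ hε => ?_⟩
  obtain ⟨B, CE, hB, hCE, h2⟩ := Et_small ((J + 2 : ℕ) : ℝ) (r := Real.exp (R + 1)) he₃ ha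
    (Real.one_le_exp (by linarith))
  obtain ⟨Cw, C, η₀, hCw, hC, hη₀, hη₀1, h2'⟩ := h1 J Aw R B hJA hR hB
  obtain ⟨C₁, hC₁, h3⟩ := EGDJ_le (A := ((J + 2 : ℕ) : ℝ)) (J := J) (ε := ε / (2 * (a + 1)))
    (by push_cast; linarith) (Nat.cast_nonneg J) (by positivity)
  obtain ⟨C₂, hC₂, hlg⟩ := PInv255.one_add_log_pow_le 2 (ε / 2) (by positivity)
  set ε' : ℝ := ε / (2 * (a + 1)) with hε'
  have hε'0 : 0 < ε' := by rw [hε']; positivity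
  have h9 : (1 : ℝ) ≤ 9 ^ ε' := Real.one_le_rpow (by norm_num) hε'0.le
  refine ⟨Cw, C * C₂ * (1 + CE + C₁ * 9 ^ ε'), η₀, hCw, by positivity, hη₀, hη₀1, ?_⟩
  intro K X Y η D G₀ N₀ N₁ ρ hK hX hXa hY hη hη₀' hD hGD hN₀ hN hNa hρ hρ1 hρ0 hKN α hα hαR hαa
    E Ms Ml hE hMs hMl hLB hS hL
  have hY0 : 0 < Y := by linarith
  have hK0 : 0 < K := lt_of_lt_of_le (by positivity) hK
  have hN0 : (0 : ℝ) < N₀ := by exact_mod_cast hN₀
  have hYa : 1 ≤ Y ^ a := Real.one_le_rpow hY ha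
  set P : ℝ := 9 * Y ^ (a + 1) with hP
  have hYa1 : Y ^ (a + 1) = Y ^ a * Y := by rw [Real.rpow_add hY0, Real.rpow_one]
  have hP1 : 1 ≤ P := by
    rw [hP, hYa1]; nlinarith [one_le_mul_of_one_le_of_one_le hYa hY]
  have hYP : Y ≤ P := by rw [hP, hYa1]; nlinarith [mul_le_mul_of_nonneg_right hYa hY0.le]
  have hNP : 9 * (N₁ : ℝ) ≤ P := by
    rw [hP, hYa1]
    nlinarith [mul_le_mul_of_nonneg_left hY (by positivity : 0 ≤ Y ^ a)]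
  have hPe : P ^ ε' = 9 ^ ε' * Y ^ (ε / 2) := by
    rw [hP, Real.mul_rpow (by norm_num) (by positivity), ← Real.rpow_mul hY0.le]
    congr 2
    rw [hε']; field_simp
  set E' : ℝ := E + C₁ * P ^ ε' * (Ms + Ml) + CE with hE'
  have hP0 : 0 < P := by linarith
  have hE'0 : 0 ≤ E' := by rw [hE']; positivity
  have hEE : E ≤ E' := by rw [hE']; linarith [(by positivity : 0 ≤ C₁ * P ^ ε' * (Ms + Ml))]
  have hη1 : 0 < η⁻¹ := inv_pos.mpr hη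
  have mono : ∀ t : ℝ, E * (1 + |t|) ^ J ≤ E' * (1 + |t|) ^ J := fun t => by gcongr
  have hJr : ∀ x : ℝ, 0 ≤ x → x ^ ((J : ℕ) : ℝ) = x ^ J := fun x _ => Real.rpow_natCast x J
  have hGD2 : ∀ t : ℝ, EG ((J + 2 : ℕ) : ℝ) K X Y (9 * (1 / 10)) (9 * N₁)
        (fun n => α n * pw t (nm n)) + ED ((J + 2 : ℕ) : ℝ) K X Y D (9 * N₁)
        (fun n => α n * pw t (nm n)) ≤ E' * (1 + |t|) ^ J := by
    intro t
    have ht0 : (0 : ℝ) ≤ (1 + |t|) ^ J := by positivity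
    have h4 := h3 P K X Y D (9 * (1 / 10)) (9 * N₁) G₀ (Ms * (1 + |t|) ^ J)
      (Ml * (1 + |t|) ^ J) (fun n => α n * pw t (nm n)) hP1 hK0 hX hY hYP (by norm_num)
      (by norm_num) (by positivity) hNP (by positivity) (by positivity) hD hGD
      (fun n hn => hα n (left_ne_zero_of_mul hn))
      (fun h hh B V hB1 hBY hV1 hV s => by
        rw [JB_shift hY0.le hα hh, hJr _ (by positivity)]
        have h5 := hS h hh B V hB1 hBY hV1 hV (t + s)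
        refine h5.trans ?_
        have h6 := one_add_le (t := t) (s := s) J
        have hyv : 0 ≤ max B⁻¹ (yv K X h V) := le_trans (by unfold yv; positivity) (le_max_right _ _)
        have hq : 0 ≤ Ms / (nm h : ℝ) ^ 2 * max B⁻¹ (yv K X h V) := by positivity
        calc Ms / (nm h : ℝ) ^ 2 * max B⁻¹ (yv K X h V) * (1 + |t + s|) ^ J ≤
              Ms / (nm h : ℝ) ^ 2 * max B⁻¹ (yv K X h V) *
              ((1 + |t|) ^ J * (1 + |s|) ^ J) := mul_le_mul_of_nonneg_left h6 hq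
          _ = _ := by ring)
      (fun h hh B V hB1 hBY hV1 hV s => by
        rw [JB_shift hY0.le hα hh, hJr _ (by positivity)]
        have h5 := hL h hh B V hB1 hBY hV1 hV (t + s)
        refine h5.trans ?_
        have h6 := one_add_le (t := t) (s := s) J
        have hyv : 0 ≤ yv K X h V := by unfold yv; positivity
        have hq : 0 ≤ Ml / (nm h : ℝ) ^ 2 * yv K X h V := by positivity
        calc Ml / (nm h : ℝ) ^ 2 * yv K X h V * (1 + |t + s|) ^ J ≤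
              Ml / (nm h : ℝ) ^ 2 * yv K X h V *
              ((1 + |t|) ^ J * (1 + |s|) ^ J) := mul_le_mul_of_nonneg_left h6 hq
          _ = _ := by ring)
    refine h4.trans ?_
    rw [hE']
    have : C₁ * P ^ ε' * (Ms * (1 + |t|) ^ J + Ml * (1 + |t|) ^ J) =
      (C₁ * P ^ ε' * (Ms + Ml)) * (1 + |t|) ^ J := by ring
    rw [this]
    exact mul_le_mul_of_nonneg_right (by linarith) ht0
  have h5 := h2' K X Y η D (1 / 10) N₀ N₁ ρ hK0 hX hY hη hη₀' hD hN₀ hN (by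
      have : (1 : ℝ) ≤ N₀ := by exact_mod_cast hN₀
      linarith) hρ hρ1 hρ0 α hα hαR E' hE'0
    (fun p hp t X' φ a1 a2 a3 a4 => (hLB p hp t X' φ a1 a2 a3 a4).trans
      (mul_le_mul_of_nonneg_left (mono t) (by positivity)))
    (fun t => by
      rw [BF_empty (by norm_num), Finset.sum_empty]
      positivity)
    (fun t => by
      have := ED_nonneg (A := ((J + 2 : ℕ) : ℝ)) hK0.le hX.le Y D (9 * N₁)
        (fun n => α n * pw t (nm n))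
      linarith [hGD2 t])
    (fun t => by
      have := EG_nonneg (A := ((J + 2 : ℕ) : ℝ)) hK0.le hX.le Y (9 * (1 / 10)) (9 * N₁)
        (fun n => α n * pw t (nm n))
      linarith [hGD2 t])
    ((h2 K X Y N₀ α hY hX hXa hK hN0 hKN hαa).trans (by
      rw [hE']; linarith [(by positivity : 0 ≤ C₁ * P ^ ε' * (Ms + Ml))]))
  refine h5.trans ?_
  have hYe : 1 ≤ Y ^ (ε / 2) := Real.one_le_rpow hY (by positivity)
  have h6 : E' ≤ (1 + CE + C₁ * 9 ^ ε') * Y ^ (ε / 2) * (E + Ms + Ml + 1) := by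
    have h7 : E + CE ≤ (1 + CE) * (Y ^ (ε / 2) * (E + Ms + Ml + 1)) := by
      have g1 : E + 1 ≤ Y ^ (ε / 2) * (E + Ms + Ml + 1) := by
        calc E + 1 = 1 * (E + 1) := by ring
          _ ≤ Y ^ (ε / 2) * (E + Ms + Ml + 1) := by
            apply mul_le_mul hYe (by linarith) (by positivity) (by positivity)
      calc E + CE ≤ (1 + CE) * (E + 1) := by nlinarith
        _ ≤ _ := mul_le_mul_of_nonneg_left g1 (by positivity)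
    have h8 : C₁ * P ^ ε' * (Ms + Ml) ≤ C₁ * 9 ^ ε' * (Y ^ (ε / 2) * (E + Ms + Ml + 1)) := by
      rw [hPe]
      calc C₁ * (9 ^ ε' * Y ^ (ε / 2)) * (Ms + Ml) =
            C₁ * 9 ^ ε' * (Y ^ (ε / 2) * (Ms + Ml)) := by ring
        _ ≤ _ := by
          refine mul_le_mul_of_nonneg_left ?_ (by positivity)
          exact mul_le_mul_of_nonneg_left (by linarith) (by positivity)
    rw [hE']
    calc E + C₁ * P ^ ε' * (Ms + Ml) + CE = (E + CE) + C₁ * P ^ ε' * (Ms + Ml) := by ring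
      _ ≤ (1 + CE) * (Y ^ (ε / 2) * (E + Ms + Ml + 1)) +
          C₁ * 9 ^ ε' * (Y ^ (ε / 2) * (E + Ms + Ml + 1)) := add_le_add h7 h8
      _ = _ := by ring
  have h10 := hlg Y hY
  have hlog := Real.log_nonneg hY
  have hYY : Y ^ (ε / 2) * Y ^ (ε / 2) = Y ^ ε := by
    rw [← Real.rpow_add hY0]; congr 1; ring
  calc C * (η⁻¹) ^ (2 * J + 2) * (1 + Real.log Y) ^ 2 * E' ≤
        C * (η⁻¹) ^ (2 * J + 2) * (C₂ * Y ^ (ε / 2)) *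
          ((1 + CE + C₁ * 9 ^ ε') * Y ^ (ε / 2) * (E + Ms + Ml + 1)) := by gcongr
    _ = C * C₂ * (1 + CE + C₁ * 9 ^ ε') * (η⁻¹) ^ (2 * J + 2) * (Y ^ (ε / 2) * Y ^ (ε / 2)) *
          (E + Ms + Ml + 1) := by ring
    _ = _ := by rw [hYY]

end Crest.Agent.R017.NEm499
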