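import Crest.Agent.R017.ETC_537

/-!
# Row 17, FlatNE, the compensated tail (helper83), part A: one block, Moebius over `a ∣ n` only

* `ex_q` : the conditions `a ∣ c`, `e ∣ c j` are one divisibility
* `v_le` : the complete sum over `c` with `a ∣ c`, `e ∣ c j`, `(δ, c) = 1` is tiny
* `small_le` : the part of the small `a`
* `etn_le` : the cross sum over the `k` with cube-free part in a block
-/

set_option autoImplicit false
set_option linter.unusedVariables false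

noncomputable section

open Complex MeasureTheory
open scoped ComplexConjugate Classical

namespace Crest.Agent.R017.NEq83

open Crest.Agent.R012 Crest.Agent.R012.Eis Crest.Agent.R012.MC
open Crest.Agent.R012.LS2 (S mem_S)
open Crest.Agent.R012.Mob705 (mu sum_mu_coprime)
open Crest.Agent.R012.Div277 (tau dvs mem_dvs)
open Crest.Agent.R017.X6C180 (n13 cM GF)
open Crest.Agent.R017.X6545 (TF Bd)
open Crest.Agent.R017.CM106 (CS FS)
open Crest.Agent.R017.C70 (JW OKJ okJ_JW CbF)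
open Crest.Agent.R017.E2440 (TE StE StT TOK tok_TE Fh)
open Crest.Agent.R017.Ex385 (CrQ)
open Crest.Agent.R017.End699 (prin0)
open Crest.Agent.R017.CubP813 (Qc alr BX CrQ_fin CrQ_zero CS_fin sum_k1c sum_dil bx_of one_le_nm3
  arg_dil norm_alr_le)
open Crest.Agent.R017.Et404 (GFh_supp)
open Crest.Agent.R017.Et813 (wnd mem_wnd abs_mu_le)
open Crest.Agent.R017.CubT90 (norm_CS_le1 norm_TE_le card_S card_dvs card_JW one_le_nmR)
open Crest.Agent.R017.PrW502 (Cn3 prW er F1)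
open Crest.Agent.R017.Etc537 (cr_two cnt_two)

/-! ### the divisibility conditions on `c` -/

lemma ex_q {a e : Eis} (ha : IsPrim a) (he : IsPrim e) (j : Eis) :
    ∃ q, IsPrim q ∧ (nm q : ℝ) ≤ nm a * nm e ∧ ∀ c, (a ∣ c ∧ e ∣ c * j) ↔ q ∣ c := by
  obtain ⟨g, hg⟩ : ∃ g, g = EuclideanDomain.gcd e j := ⟨_, rfl⟩
  have hg0 : g ≠ 0 := by
    rintro rfl
    exact he.ne_zero (EuclideanDomain.gcd_eq_zero_iff.1 hg.symm).1
  obtain ⟨e', he'⟩ : g ∣ e := hg ▸ EuclideanDomain.gcd_dvd_left e j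
  obtain ⟨j', hj'⟩ : g ∣ j := hg ▸ EuclideanDomain.gcd_dvd_right e j
  have hcop : IsCoprime e' j' := by
    have hbez := EuclideanDomain.gcd_eq_gcd_ab e j
    rw [← hg] at hbez
    refine ⟨EuclideanDomain.gcdA e j, EuclideanDomain.gcdB e j, mul_left_cancel₀ hg0 ?_⟩
    calc g * (EuclideanDomain.gcdA e j * e' + EuclideanDomain.gcdB e j * j') =
        (g * e') * EuclideanDomain.gcdA e j + (g * j') * EuclideanDomain.gcdB e j := by ring
      _ = e * EuclideanDomain.gcdA e j + j * EuclideanDomain.gcdB e j := by rw [← he', ← hj']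
      _ = g := hbez.symm
      _ = g * 1 := (mul_one g).symm
  have h1 : ∀ c, e ∣ c * j ↔ e' ∣ c := by
    intro c
    constructor
    · intro h
      have h2 : g * e' ∣ g * (c * j') := by
        rw [← he', show g * (c * j') = c * (g * j') by ring, ← hj']
        exact h
      have h3 := (mul_dvd_mul_iff_left hg0).1 h2
      exact hcop.dvd_of_dvd_mul_right h3
    · rintro ⟨d, rfl⟩
      refine ⟨d * j', ?_⟩
      rw [hj', he']
      ring
  obtain ⟨q0, hq0⟩ : ∃ q0, q0 = EuclideanDomain.lcm a e' := ⟨_, rfl⟩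
  have hdv : q0 ∣ a * e := by
    rw [hq0]
    refine EuclideanDomain.lcm_dvd (dvd_mul_right _ _) ?_
    rw [he']
    exact (dvd_mul_left e' g).mul_left a
  have hl : ¬ lam ∣ q0 := fun h => (ha.mul he).not_lam_dvd (h.trans hdv)
  obtain ⟨q, hq, has⟩ := exists_isPrim_associated hl
  refine ⟨q, hq, ?_, fun c => ?_⟩
  · have h2 : nm q ≤ nm (a * e) :=
      Div277.nm_le_of_dvd (ha.mul he).ne_zero (has.dvd_iff_dvd_left.1 hdv)
    rw [nm_mul] at h2
    exact_mod_cast h2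
  · rw [h1 c, ← has.dvd_iff_dvd_left, hq0]
    exact EuclideanDomain.lcm_dvd_iff.symm

/-! ### the complete sum over `c` -/

/-- **the complete sum over `c` is tiny** -/
theorem v_le (A : ℕ) : ∃ (N : ℕ) (C : ℝ), 0 ≤ C ∧ ∀ (F : ℝ → ℂ) (S₀ : ℝ), TF F → Bd F N S₀ →
    ∀ (K W h : ℝ) (X : ℕ) (a e j δ : Eis), 0 < K → 0 < W → 0 ≤ h → IsPrim a → IsPrim e →
      IsPrim j → IsPrim δ → Real.exp 2 * K ≤ X →
      Real.exp h * W * ((nm j : ℝ) * (nm a * nm e * nm δ) ^ 3) ≤ K →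
      ‖∑ c ∈ primBall X, (if a ∣ c ∧ e ∣ c * j ∧ IsCoprime δ c then
        GF (Fh F h) ((nm (c ^ 3 * j) : ℝ) / K) else 0)‖ ≤
        C * S₀ * Real.exp (h / 3) * nm δ * (W⁻¹) ^ A := by
  obtain ⟨N, C, hC, H⟩ := prW (3 * A)
  refine ⟨N, 2 * C * 100, by positivity,
    fun F S₀ hF hS K W h X a e j δ hK hW hh ha he hj hδ hX hgap => ?_⟩
  have hS0 : 0 ≤ S₀ := (norm_nonneg _).trans (hS 0 (Nat.zero_le _) 0)
  obtain ⟨q, hq, hqn, hqd⟩ := ex_q ha he j
  have nj : (0 : ℝ) < nm j := zero_lt_one.trans_le (one_le_nmR hj.ne_zero)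
  have nq : (0 : ℝ) < nm q := zero_lt_one.trans_le (one_le_nmR hq.ne_zero)
  have nδ : (1 : ℝ) ≤ nm δ := one_le_nmR hδ.ne_zero
  have nδ0 : (0 : ℝ) < nm δ := by linarith
  have b1 : BX (GF (Fh F h)) K X := by
    have := bx_of (U := GF (Fh F h)) (GFh_supp hF hh) hK hX le_rfl
    rwa [div_one] at this
  -- the sum over the multiples of `q`
  have e1 : ∑ c ∈ primBall X, (if a ∣ c ∧ e ∣ c * j ∧ IsCoprime δ c then
        GF (Fh F h) ((nm (c ^ 3 * j) : ℝ) / K) else 0) =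
      ∑ c ∈ primBall X, (if q ∣ c then (if IsPrim c ∧ IsCoprime δ c then
        GF (Fh F h) ((nm (c ^ 3 * j) : ℝ) / K) else 0) else 0) := by
    refine Finset.sum_congr rfl fun c hc => ?_
    have hcp := (mem_primBall.1 hc).2
    by_cases h1 : q ∣ c
    · obtain ⟨h2, h3⟩ := (hqd c).2 h1
      rw [if_pos h1]
      by_cases h4 : IsCoprime δ c
      · rw [if_pos ⟨h2, h3, h4⟩, if_pos ⟨hcp, h4⟩]
      · rw [if_neg fun h => h4 h.2.2, if_neg fun h => h4 h.2]
    · rw [if_neg h1, if_neg fun h => h1 ((hqd c).1 ⟨h.1, h.2.1⟩)]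
  have hsup : ∀ c : Eis, (if IsPrim c ∧ IsCoprime δ c then
        GF (Fh F h) ((nm (c ^ 3 * j) : ℝ) / K) else 0) ≠ 0 → nm c ≤ X := by
    intro c hc
    split_ifs at hc with h1
    · have h2 := b1 (c ^ 3 * j) (mul_ne_zero (pow_ne_zero _ h1.1.ne_zero) hj.ne_zero) hc
      refine le_trans ?_ h2
      rw [nm_mul, nm_pow]
      calc nm c ≤ nm c ^ 3 := Nat.le_self_pow (by norm_num) _
        _ ≤ nm c ^ 3 * nm j := Nat.le_mul_of_pos_right _ (nm_pos.2 hj.ne_zero)
    · exact absurd rfl hc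
  rw [e1, sum_dil hsup hq]
  set Y := K / ((nm j : ℝ) * (nm q : ℝ) ^ 3) with hY
  have hY0 : 0 < Y := by positivity
  have hP : (nm j : ℝ) * ((nm q : ℝ) * nm δ) ^ 3 ≤ (nm j : ℝ) * (nm a * nm e * nm δ) ^ 3 := by
    gcongr
  have hYW : Real.exp h * W * (nm δ : ℝ) ^ 3 ≤ Y := by
    rw [hY, le_div_iff₀ (by positivity)]
    calc Real.exp h * W * (nm δ : ℝ) ^ 3 * ((nm j : ℝ) * (nm q : ℝ) ^ 3) =
        Real.exp h * W * ((nm j : ℝ) * ((nm q : ℝ) * nm δ) ^ 3) := by ring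
      _ ≤ Real.exp h * W * ((nm j : ℝ) * (nm a * nm e * nm δ) ^ 3) := by gcongr
      _ ≤ K := hgap
  have hbnd : ‖∑ m ∈ primBall X, (if IsPrim (q * m) ∧ IsCoprime δ (q * m) then
      GF (Fh F h) ((nm ((q * m) ^ 3 * j) : ℝ) / K) else 0)‖ ≤ ‖Cn3 (F1 F h) δ Y‖ := by
    by_cases hqδ : IsCoprime δ q
    · refine le_of_eq (congrArg _ ?_)
      unfold PrW502.Cn3
      rw [tsum_eq_sum (s := primBall X)]
      · refine Finset.sum_congr rfl fun m hm => ?_
        have hmp := (mem_primBall.1 hm).2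
        by_cases hmδ : IsCoprime m δ
        · rw [if_pos ⟨hq.mul hmp, hqδ.mul_right hmδ.symm⟩, if_pos ⟨hmp, hmδ⟩]
          have n3 : (0 : ℝ) < nm m := zero_lt_one.trans_le (one_le_nmR hmp.ne_zero)
          have e : (nm ((q * m) ^ 3 * j) : ℝ) / K = (nm m : ℝ) ^ 3 / Y := by
            rw [nm_mul, nm_pow, nm_mul, hY]
            push_cast
            field_simp
          have hpos : 0 < (nm m : ℝ) ^ 3 / Y := by positivity
          rw [e]
          unfold X6C180.GF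
          rw [if_pos hpos]
          rfl
        · rw [if_neg fun h => hmδ (IsCoprime.mul_right_iff.1 h.2).2.symm,
            if_neg fun h => hmδ h.2]
      · intro m hm
        split_ifs with h1
        · by_contra h0
          apply hm
          rw [mem_primBall]
          refine ⟨?_, h1.1⟩
          have n3 : (0 : ℝ) < nm m := zero_lt_one.trans_le (one_le_nmR h1.1.ne_zero)
          have e : (nm ((q * m) ^ 3 * j) : ℝ) / K = (nm m : ℝ) ^ 3 / Y := by
            rw [nm_mul, nm_pow, nm_mul, hY]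
            push_cast
            field_simp
          have hpos : 0 < (nm m : ℝ) ^ 3 / Y := by positivity
          have h2 : GF (Fh F h) ((nm ((q * m) ^ 3 * j) : ℝ) / K) ≠ 0 := by
            rw [e]
            unfold X6C180.GF
            rw [if_pos hpos]
            exact h0
          have h3 := b1 ((q * m) ^ 3 * j) (mul_ne_zero (pow_ne_zero _
            (hq.mul h1.1).ne_zero) hj.ne_zero) h2
          refine le_trans ?_ h3
          rw [nm_mul, nm_pow, nm_mul]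
          have := nm_pos.2 hq.ne_zero
          have := nm_pos.2 hj.ne_zero
          calc nm m ≤ nm q * nm m := Nat.le_mul_of_pos_left _ (nm_pos.2 hq.ne_zero)
            _ ≤ (nm q * nm m) ^ 3 := Nat.le_self_pow (by norm_num) _
            _ ≤ (nm q * nm m) ^ 3 * nm j := Nat.le_mul_of_pos_right _ (nm_pos.2 hj.ne_zero)
        · rfl
    · rw [Finset.sum_eq_zero, norm_zero]
      · exact norm_nonneg _
      · intro m _
        rw [if_neg fun h => hqδ (IsCoprime.mul_right_iff.1 h.2).1]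
  refine hbnd.trans ?_
  have h1 := H F S₀ hF hS δ Y h hδ.ne_zero hY0
  have hE := Real.exp_pos h
  have hE1 : 1 ≤ Real.exp h := Real.one_le_exp hh
  have key : ∀ V : ℝ, 0 < V → W * (nm δ : ℝ) ^ 3 ≤ V →
      er (3 * A) δ (V ^ ((1 : ℝ) / 3)) ≤ 100 * nm δ * (W⁻¹) ^ A := by
    intro V hV0 hV
    have hW3 : 0 < W ^ ((1 : ℝ) / 3) := Real.rpow_pos_of_pos hW _
    have hV3 : 0 < V ^ ((1 : ℝ) / 3) := Real.rpow_pos_of_pos hV0 _
    have h2 : W ^ ((1 : ℝ) / 3) * nm δ ≤ V ^ ((1 : ℝ) / 3) := by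
      have e2 : ((nm δ : ℝ) ^ 3) ^ ((1 : ℝ) / 3) = nm δ := by
        rw [← Real.rpow_natCast, ← Real.rpow_mul nδ0.le]
        norm_num
      calc W ^ ((1 : ℝ) / 3) * nm δ = W ^ ((1 : ℝ) / 3) * ((nm δ : ℝ) ^ 3) ^ ((1 : ℝ) / 3) := by
            rw [e2]
        _ = (W * (nm δ : ℝ) ^ 3) ^ ((1 : ℝ) / 3) := by
            rw [Real.mul_rpow hW.le (by positivity)]
        _ ≤ V ^ ((1 : ℝ) / 3) := Real.rpow_le_rpow (by positivity) hV (by norm_num)
    have h3 := PrW502.er_le_small (3 * A) δ (Y := V ^ ((1 : ℝ) / 3)) hV3 hW3 (fun g hg _ => by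
      have hg2 := (mem_dvs hδ.ne_zero).1 hg
      have hgn : (nm g : ℝ) ≤ nm δ := by
        exact_mod_cast Div277.nm_le_of_dvd hδ.ne_zero hg2.2
      have hg0 : (0 : ℝ) < nm g := zero_lt_one.trans_le (one_le_nmR hg2.1.ne_zero)
      rw [le_div_iff₀ hg0]
      exact le_trans (by gcongr) h2)
    refine h3.trans ?_
    have e : ((W ^ ((1 : ℝ) / 3))⁻¹) ^ (3 * A) = (W⁻¹) ^ A := by
      rw [pow_mul, inv_pow]
      congr 2
      rw [← Real.rpow_natCast, ← Real.rpow_mul hW.le]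
      norm_num
    rw [e]
    refine mul_le_mul_of_nonneg_right ?_ (by positivity)
    exact card_dvs hδ.ne_zero
  have k1 := key Y hY0 (by
    refine le_trans ?_ hYW
    rw [mul_assoc]
    exact le_mul_of_one_le_left (by positivity) hE1)
  have k2 := key (Y * Real.exp (-h)) (by positivity) (by
    rw [Real.exp_neg, ← div_eq_mul_inv, le_div_iff₀ hE]
    calc W * (nm δ : ℝ) ^ 3 * Real.exp h = Real.exp h * W * (nm δ : ℝ) ^ 3 := by ring
      _ ≤ Y := hYW)
  have hE3 : 1 ≤ Real.exp (h / 3) := Real.one_le_exp (by positivity)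
  have hW0 : 0 ≤ 100 * (nm δ : ℝ) * (W⁻¹) ^ A := by positivity
  calc ‖Cn3 (F1 F h) δ Y‖ ≤ _ := h1
    _ ≤ C * S₀ * (100 * nm δ * (W⁻¹) ^ A + Real.exp (h / 3) * (100 * nm δ * (W⁻¹) ^ A)) := by
        gcongr
    _ ≤ C * S₀ * (Real.exp (h / 3) * (100 * nm δ * (W⁻¹) ^ A) +
        Real.exp (h / 3) * (100 * nm δ * (W⁻¹) ^ A)) := by
        refine mul_le_mul_of_nonneg_left (add_le_add_left ?_ _) (by positivity)
        exact le_mul_of_one_le_left hW0 hE3
    _ = _ := by ring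

/-! ### the part of the small `a` -/

/-- the structured function at `c³ j` -/
lemma st_eq {E0 : ℝ} {J : Finset (Eis × Eis)} (hJ : OKJ J) (om : Eis × Eis → ℂ)
    (T : Eis × Eis → Eis → ℂ) {c : Eis} (hc : IsPrim c) (j : Eis) :
    StT E0 J om T (c ^ 3 * j) = ∑ x ∈ J, ∑ e ∈ S E0,
      (om x * (sy j x.1 * conj (PX764.th (x.2 * j))) * ((mu e : ℂ) * T x e)) *
        (if e ∣ c * j ∧ IsCoprime x.1 c then 1 else 0) := by
  unfold E2440.StT
  refine Finset.sum_congr rfl fun x hx => ?_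
  have hxp := hJ.prim x hx
  have h2 : (S E0).filter (fun t => t ∣ c ^ 3 * j) = (S E0).filter (fun t => t ∣ c * j) := by
    refine Finset.filter_congr fun t ht => ?_
    have hs : Squarefree t := by
      unfold LS2.S at ht
      exact (Finset.mem_filter.1 ht).2
    exact E5Q571.sqf_dvd_cube hs
  rw [h2, mul_comm (c ^ 3) j, Lbc298.sy_mul_cube' hxp, ← mul_assoc x.2 j,
    PX764.th_cube_all hc.ne_zero, Finset.sum_filter]
  unfold prin0
  rw [Finset.mul_sum, Finset.mul_sum]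
  refine Finset.sum_congr rfl fun e _ => ?_
  by_cases h3 : IsCoprime x.1 c
  · rw [if_pos h3]
    by_cases h4 : e ∣ c * j
    · rw [if_pos h4, if_pos ⟨h4, h3⟩]; ring
    · rw [if_neg h4, if_neg (fun h : e ∣ c * j ∧ IsCoprime x.1 c => h4 h.1)]; ring
  · rw [if_neg h3, if_neg (fun h : e ∣ c * j ∧ IsCoprime x.1 c => h3 h.2)]; ring

/-- the part of one `a` -/
def Ta (U : ℝ → ℂ) (Q : Eis → Prop) (K : ℝ) (X : ℕ) (α St : Eis → ℂ) (a : Eis) : ℂ :=
  ∑ c ∈ primBall X, if a ∣ c then ∑ j ∈ (primBall X).filter Q,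
    U ((nm (c ^ 3 * j) : ℝ) / K) * (CS (alr α a 1) j * conj (St (c ^ 3 * j))) else 0

/-- **one small `a`** -/
theorem ta_le (A : ℕ) : ∃ (N : ℕ) (C : ℝ), 0 ≤ C ∧ ∀ (F : ℝ → ℂ) (S₀ : ℝ), TF F → Bd F N S₀ →
    ∀ (K W Z h E0 D M1 Mo MT : ℝ) (X : ℕ) (Q : Eis → Prop) (α : Eis → ℂ)
      (J : Finset (Eis × Eis)) (om : Eis × Eis → ℂ) (T : Eis × Eis → Eis → ℂ) (a : Eis) (A0 : ℝ)
      (hα : FS α), 0 < K → 0 < W → 0 ≤ Z → 0 ≤ h → 0 ≤ E0 → 0 ≤ D → IsPrim a → (nm a : ℝ) ≤ A0 →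
      Real.exp 2 * K ≤ X → Real.exp h * W * (Z * (A0 * E0 * D) ^ 3) ≤ K →
      (∀ k, IsPrim k → Q k → (nm k : ℝ) ≤ Z) → ∑ n ∈ hα.fin.toFinset, ‖α n‖ ≤ M1 →
      OKJ J → (∀ x ∈ J, (nm x.1 : ℝ) ≤ D) → (∀ x ∈ J, ‖om x‖ ≤ Mo) → 0 ≤ Mo →
      (∀ x ∈ J, ∀ e, ‖T x e‖ ≤ MT) → 0 ≤ MT →
      ‖Ta (GF (Fh F h)) Q K X α (StT E0 J om T) a‖ ≤
        C * S₀ * Real.exp (h / 3) * Z * M1 * ((J.card : ℝ) * (Mo * (E0 * (MT * D)))) *
          (W⁻¹) ^ A := by
  obtain ⟨N, C, hC, H⟩ := v_le A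
  have hB := E2440.Bth_nonneg
  refine ⟨N, 100 * 100 * E2440.Bth * C, by positivity, ?_⟩
  intro F S₀ hF hS K W Z h E0 D M1 Mo MT X Q α J om T a A0 hα hK hW hZ hh hE0 hD ha haA hX hgap hQ
    hM1 hJ hJD hMo hMo0 hMT hMT0
  have hS0 : 0 ≤ S₀ := (norm_nonneg _).trans (hS 0 (Nat.zero_le _) 0)
  have hM10 : 0 ≤ M1 := (Finset.sum_nonneg fun _ _ => norm_nonneg _).trans hM1
  have hA0 : 0 ≤ A0 := (Nat.cast_nonneg _).trans haA
  obtain ⟨V, hV⟩ : ∃ V : ℝ, V = C * S₀ * Real.exp (h / 3) * D * (W⁻¹) ^ A := ⟨_, rfl⟩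
  have hV0 : 0 ≤ V := by rw [hV]; positivity
  -- exchange
  have e1 : Ta (GF (Fh F h)) Q K X α (StT E0 J om T) a = ∑ j ∈ (primBall X).filter Q,
      CS (alr α a 1) j * ∑ x ∈ J, ∑ e ∈ S E0,
        conj (om x * (sy j x.1 * conj (PX764.th (x.2 * j))) * ((mu e : ℂ) * T x e)) *
        ∑ c ∈ primBall X, (if a ∣ c ∧ e ∣ c * j ∧ IsCoprime x.1 c then
          GF (Fh F h) ((nm (c ^ 3 * j) : ℝ) / K) else 0) := by
    unfold Ta
    have e2 : ∀ c ∈ primBall X, (if a ∣ c then ∑ j ∈ (primBall X).filter Q,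
        GF (Fh F h) ((nm (c ^ 3 * j) : ℝ) / K) *
          (CS (alr α a 1) j * conj (StT E0 J om T (c ^ 3 * j))) else 0) =
        ∑ j ∈ (primBall X).filter Q, ∑ x ∈ J, ∑ e ∈ S E0, CS (alr α a 1) j *
          (conj (om x * (sy j x.1 * conj (PX764.th (x.2 * j))) * ((mu e : ℂ) * T x e)) *
            (if a ∣ c ∧ e ∣ c * j ∧ IsCoprime x.1 c then
              GF (Fh F h) ((nm (c ^ 3 * j) : ℝ) / K) else 0)) := by
      intro c hc
      have hcp := (mem_primBall.1 hc).2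
      by_cases hac : a ∣ c
      · rw [if_pos hac]
        refine Finset.sum_congr rfl fun j _ => ?_
        rw [st_eq hJ om T hcp j, map_sum, Finset.mul_sum, Finset.mul_sum]
        refine Finset.sum_congr rfl fun x _ => ?_
        rw [map_sum, Finset.mul_sum, Finset.mul_sum]
        refine Finset.sum_congr rfl fun e _ => ?_
        rw [map_mul]
        by_cases h3 : e ∣ c * j ∧ IsCoprime x.1 c
        · rw [if_pos h3, if_pos ⟨hac, h3⟩, map_one]; ring
        · rw [if_neg h3, if_neg fun h => h3 h.2, map_zero]; ring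
      · rw [if_neg hac]
        symm
        refine Finset.sum_eq_zero fun j _ => Finset.sum_eq_zero fun x _ =>
          Finset.sum_eq_zero fun e _ => ?_
        rw [if_neg fun h => hac h.1, mul_zero, mul_zero]
    rw [Finset.sum_congr rfl e2, Finset.sum_comm]
    refine Finset.sum_congr rfl fun j _ => ?_
    rw [Finset.sum_comm, Finset.mul_sum]
    refine Finset.sum_congr rfl fun x _ => ?_
    rw [Finset.sum_comm, Finset.mul_sum]
    refine Finset.sum_congr rfl fun e _ => ?_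
    rw [← Finset.mul_sum, ← Finset.mul_sum]
  rw [e1]
  refine (norm_sum_le _ _).trans ?_
  have hj : ∀ j ∈ (primBall X).filter Q, ‖CS (alr α a 1) j * ∑ x ∈ J, ∑ e ∈ S E0,
        conj (om x * (sy j x.1 * conj (PX764.th (x.2 * j))) * ((mu e : ℂ) * T x e)) *
        ∑ c ∈ primBall X, (if a ∣ c ∧ e ∣ c * j ∧ IsCoprime x.1 c then
          GF (Fh F h) ((nm (c ^ 3 * j) : ℝ) / K) else 0)‖ ≤
      M1 * ((J.card : ℝ) * (100 * E0 * (Mo * E2440.Bth * MT * V))) := by
    intro j hj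
    rw [Finset.mem_filter, mem_primBall] at hj
    have hjp := hj.1.2
    have hjZ := hQ j hjp hj.2
    rw [norm_mul]
    refine mul_le_mul ((norm_CS_le1 hα (norm_alr_le α _ _) j).trans hM1) ?_ (norm_nonneg _) hM10
    refine (norm_sum_le _ _).trans ?_
    rw [← nsmul_eq_mul, ← Finset.sum_const]
    refine Finset.sum_le_sum fun x hx => ?_
    refine (norm_sum_le _ _).trans ?_
    have hxp := hJ.prim x hx
    have hx2 : x.2 ≠ 0 := by
      obtain ⟨c, hc, j', hj', -, e⟩ := hJ.jc x hx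
      rw [e]
      refine mul_ne_zero ?_ hj'.ne_zero
      have h3 : (3 : Eis) ≠ 0 := by norm_num
      have hw : (w : Eis) ≠ 0 := isUnit_w.ne_zero
      rcases hc with rfl | rfl | rfl | rfl
      · exact one_ne_zero
      · exact h3
      · exact mul_ne_zero h3 hw
      · exact mul_ne_zero h3 (pow_ne_zero _ hw)
    calc _ ≤ ∑ _e ∈ S E0, Mo * E2440.Bth * MT * V := by
          refine Finset.sum_le_sum fun e he => ?_
          obtain ⟨he1, he2, -⟩ := (mem_S hE0).1 he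
          have h1 : ‖sy j x.1‖ ≤ 1 := CM106.norm_sy_le' hxp
          have h2 : ‖PX764.th (x.2 * j)‖ ≤ E2440.Bth :=
            E2440.norm_th_le (mul_ne_zero hx2 hjp.ne_zero)
          have h4 : ‖(mu e : ℂ)‖ ≤ 1 := abs_mu_le e
          have h5 := H F S₀ hF hS K W h X a e j x.1 hK hW hh ha he2 hjp hxp hX (by
            refine le_trans ?_ hgap
            have := hJD x hx
            gcongr)
          have h6 : C * S₀ * Real.exp (h / 3) * nm x.1 * (W⁻¹) ^ A ≤ V := by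
            rw [hV]
            have := hJD x hx
            gcongr
          rw [norm_mul, RCLike.norm_conj, norm_mul, norm_mul, norm_mul, norm_mul,
            RCLike.norm_conj]
          calc ‖om x‖ * (‖sy j x.1‖ * ‖PX764.th (x.2 * j)‖) * (‖(mu e : ℂ)‖ * ‖T x e‖) * _ ≤
              Mo * (1 * E2440.Bth) * (1 * MT) * V := by
                have h7 := hMo x hx
                have h8 := hMT x hx e
                have h9 := h5.trans h6
                gcongr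
            _ = _ := by ring
      _ = ((S E0).card : ℝ) * (Mo * E2440.Bth * MT * V) := by
          rw [Finset.sum_const, nsmul_eq_mul]
      _ ≤ _ := mul_le_mul_of_nonneg_right (card_S hE0) (by positivity)
  have hcard : (((primBall X).filter Q).card : ℝ) ≤ 100 * Z := by
    have h1 : (primBall X).filter Q ⊆ primBall ⌊Z⌋₊ := by
      intro k hk
      rw [Finset.mem_filter, mem_primBall] at hk
      rw [mem_primBall]
      exact ⟨Nat.le_floor (hQ k hk.1.2 hk.2), hk.1.2⟩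
    have h2 : (((primBall X).filter Q).card : ℝ) ≤ ((primBall ⌊Z⌋₊).card : ℝ) := by
      exact_mod_cast Finset.card_le_card h1
    have h3 : ((primBall ⌊Z⌋₊).card : ℝ) ≤ 100 * ((⌊Z⌋₊ : ℕ) : ℝ) := Lat277.card_primBall_le _
    have h4 := Nat.floor_le hZ
    linarith
  calc _ ≤ ∑ _j ∈ (primBall X).filter Q,
        M1 * ((J.card : ℝ) * (100 * E0 * (Mo * E2440.Bth * MT * V))) := Finset.sum_le_sum hj
    _ = (((primBall X).filter Q).card : ℝ) *
        (M1 * ((J.card : ℝ) * (100 * E0 * (Mo * E2440.Bth * MT * V)))) := by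
        rw [Finset.sum_const, nsmul_eq_mul]
    _ ≤ (100 * Z) * (M1 * ((J.card : ℝ) * (100 * E0 * (Mo * E2440.Bth * MT * V)))) :=
        mul_le_mul_of_nonneg_right hcard (by positivity)
    _ = _ := by rw [hV]; ring

/-! ### the exact splitting -/

lemma cs_split {α : Eis → ℂ} (hα : FS α) {X : ℕ} {c : Eis} (hc : c ∈ primBall X) (j : Eis) :
    CS α (c ^ 3 * j) = ∑ a ∈ S (X : ℝ), (if a ∣ c then (mu a : ℂ) * CS (alr α a 1) j else 0) := by
  have hcp := (mem_primBall.1 hc).2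
  have hX0 : (0 : ℝ) ≤ X := Nat.cast_nonneg _
  have hs : ∀ n, α n ≠ 0 → n ∈ hα.fin.toFinset := fun n hn => by
    rw [Set.Finite.mem_toFinset]; exact hn
  have hs' : ∀ a n, alr α a 1 n ≠ 0 → n ∈ hα.fin.toFinset := fun a n hn =>
    hs n (CubP813.alr_ne hn).1
  rw [CS_fin hs]
  have e1 : ∀ a ∈ S (X : ℝ), (if a ∣ c then (mu a : ℂ) * CS (alr α a 1) j else 0) =
      ∑ n ∈ hα.fin.toFinset, (if a ∣ c then (if a ∣ n then (mu a : ℂ) else 0) else 0) *
        (α n * sy j n) := by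
    intro a _
    split_ifs with h
    · rw [CS_fin (hs' a), Finset.mul_sum]
      refine Finset.sum_congr rfl fun n _ => ?_
      unfold CubP813.alr
      by_cases h1 : a ∣ n
      · rw [if_pos ⟨h1, isCoprime_one_right⟩, if_pos h1]
      · rw [if_neg fun h => h1 h.1, if_neg h1, zero_mul, mul_zero, zero_mul]
    · simp
  rw [Finset.sum_congr rfl e1, Finset.sum_comm]
  refine Finset.sum_congr rfl fun n hn => ?_
  rw [Set.Finite.mem_toFinset, Function.mem_support] at hn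
  have hnp := hα.prim n hn
  rw [mul_comm (c ^ 3) j, Lbc298.sy_mul_cube' hnp, ← Finset.sum_mul]
  have h2 : prin0 c n = ∑ a ∈ S (X : ℝ), (if a ∣ c then (if a ∣ n then (mu a : ℂ) else 0)
      else 0) := by
    have h := sum_mu_coprime hnp hcp.ne_zero
    have h' : ∑ d ∈ dvs c, (if d ∣ n then mu d else 0) = if IsCoprime n c then 1 else 0 := h
    have h3 : ((∑ d ∈ dvs c, (if d ∣ n then mu d else 0) : ℤ) : ℂ) = prin0 c n := by
      rw [h']
      unfold prin0
      split_ifs <;> simp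
    have e6 : ∑ a ∈ S (X : ℝ), (if a ∣ c then (if a ∣ n then (mu a : ℂ) else 0) else 0) =
        ∑ a ∈ (S (X : ℝ)).filter (fun a => a ∣ c), (if a ∣ n then (mu a : ℂ) else 0) :=
      (Finset.sum_filter _ _).symm
    rw [← h3, e6, Int.cast_sum]
    have e5 : ∀ d ∈ dvs c, (((if d ∣ n then mu d else 0 : ℤ)) : ℂ) =
        if d ∣ n then (mu d : ℂ) else 0 := by
      intro d _
      split_ifs <;> simp
    rw [Finset.sum_congr rfl e5]
    symm
    refine Finset.sum_subset ?_ ?_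
    · intro d hd
      rw [Finset.mem_filter, mem_S hX0] at hd
      exact (mem_dvs hcp.ne_zero).2 ⟨hd.1.2.1, hd.2⟩
    · intro d hd hd'
      have h4 := (mem_dvs hcp.ne_zero).1 hd
      rw [Finset.mem_filter, mem_S hX0] at hd'
      have : ¬ Squarefree d := fun h => hd' ⟨⟨by
        have h5 := Div277.nm_le_of_dvd hcp.ne_zero h4.2
        exact_mod_cast h5.trans (mem_primBall.1 hc).1, h4.1, h⟩, h4.2⟩
      rw [Mob705.mu_of_not_squarefree this]
      simp
  rw [h2]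
  ring

/-- **the exact splitting** -/
theorem crq_split {F : ℝ → ℂ} (hF : TF F) {h K : ℝ} (hh : 0 ≤ h) (hK : 0 < K) {X : ℕ}
    (hX : Real.exp 2 * K ≤ X) {Pr Q : Eis → Prop} (hQd : ∀ k, Q k ↔ (CbF k ∧ Pr k))
    (hinv : ∀ k c, IsPrim k → IsPrim c → (Pr (c ^ 3 * k) ↔ Pr k)) {α : Eis → ℂ} (hα : FS α)
    (St : Eis → ℂ) :
    CrQ (GF (Fh F h)) Pr K α St =
      ∑ a ∈ S (X : ℝ), (mu a : ℂ) * Ta (GF (Fh F h)) Q K X α St a := by
  have b1 : BX (GF (Fh F h)) K X := by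
    have := bx_of (U := GF (Fh F h)) (GFh_supp hF hh) hK hX le_rfl
    rwa [div_one] at this
  rw [CrQ_fin b1, sum_k1c hinv
    (F := fun k => GF (Fh F h) ((nm k : ℝ) / K) * (CS α k * conj (St k)))
    (fun k hk h0 => b1 k hk (left_ne_zero_of_mul h0))]
  refine (Finset.sum_congr (s₂ := (primBall X).filter Q) (Finset.ext fun k => by
    simp only [Finset.mem_filter, hQd]) fun _ _ => rfl).trans ?_
  rw [Finset.sum_comm]
  have e1 : ∀ c ∈ primBall X, ∑ j ∈ (primBall X).filter Q,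
      GF (Fh F h) ((nm (c ^ 3 * j) : ℝ) / K) * (CS α (c ^ 3 * j) * conj (St (c ^ 3 * j))) =
      ∑ a ∈ S (X : ℝ), (mu a : ℂ) * (if a ∣ c then
        ∑ j ∈ (primBall X).filter Q,
        GF (Fh F h) ((nm (c ^ 3 * j) : ℝ) / K) *
          (CS (alr α a 1) j * conj (St (c ^ 3 * j))) else 0) := by
    intro c hc
    have e2 : ∀ a ∈ S (X : ℝ), (mu a : ℂ) * (if a ∣ c then
        ∑ j ∈ (primBall X).filter Q,
        GF (Fh F h) ((nm (c ^ 3 * j) : ℝ) / K) *
          (CS (alr α a 1) j * conj (St (c ^ 3 * j))) else 0) =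
        ∑ j ∈ (primBall X).filter Q,
        (if a ∣ c then (mu a : ℂ) * CS (alr α a 1) j else 0) *
          (GF (Fh F h) ((nm (c ^ 3 * j) : ℝ) / K) * conj (St (c ^ 3 * j))) := by
      intro a _
      split_ifs
      · rw [Finset.mul_sum]
        exact Finset.sum_congr rfl fun j _ => by ring
      · simp
    rw [Finset.sum_congr rfl e2, Finset.sum_comm]
    refine Finset.sum_congr rfl fun j _ => ?_
    rw [← Finset.sum_mul, ← cs_split hα hc j]
    ring
  rw [Finset.sum_congr rfl e1, Finset.sum_comm]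
  refine Finset.sum_congr rfl fun a _ => ?_
  rw [← Finset.mul_sum]
  rfl

/-! ### the large `a` -/

/-- **one large `a`** : Cauchy -/
theorem ta_cauchy {F : ℝ → ℂ} (hF : TF F) {S0 : ℝ} (hS0 : 0 ≤ S0) (hFb : Bd F 0 S0)
    {z Z K h Gr : ℝ} (hh : 0 ≤ h) (hz : 0 < z) (hZ : 0 ≤ Z) (hK : 0 < K) (hGr0 : 0 ≤ Gr) {X : ℕ}
    (hX : Real.exp 2 * K ≤ X) {Q : Eis → Prop} (hQf : ∀ k, Q k → CbF k)
    (hQ : ∀ k, IsPrim k → Q k → z ≤ (nm k : ℝ) ∧ (nm k : ℝ) ≤ Z) (α St : Eis → ℂ)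
    (hGr : ∀ c, IsPrim c → z * (nm c : ℝ) ^ 3 ≤ Real.exp 2 * K →
      ∑ k ∈ (wnd z Z).filter CbF, ‖St (c ^ 3 * k)‖ ^ 2 ≤ Gr) {a : Eis} (ha : IsPrim a) :
    ‖Ta (GF (Fh F h)) Q K X α St a‖ ≤
      if z * (nm a : ℝ) ^ 3 ≤ Real.exp 2 * K then
        200 * S0 * (Real.exp 2 * K / z) ^ (1 / 3 : ℝ) * ((nm a : ℝ)⁻¹ *
          (√(∑ k ∈ (wnd z Z).filter CbF, ‖CS (alr α a 1) k‖ ^ 2) * √Gr)) else 0 := by
  have b1 : BX (GF (Fh F h)) K X := by
    have := bx_of (U := GF (Fh F h)) (GFh_supp hF hh) hK hX le_rfl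
    rwa [div_one] at this
  obtain ⟨g, hg⟩ : ∃ g : Eis → ℂ, g = fun c => CrQ (GF (Fh F h)) Q
    (K / (nm c : ℝ) ^ 3) (alr α a 1) (fun j => St (c ^ 3 * j)) := ⟨_, rfl⟩
  have hgz : ∀ c, g c ≠ 0 → nm c ≤ X := by
    intro c hc
    by_contra h0
    apply hc
    rw [hg]
    exact CrQ_zero b1 h0
  have e1 : Ta (GF (Fh F h)) Q K X α St a =
      ∑ m ∈ primBall X, g (a * m) := by
    rw [← sum_dil hgz ha]
    unfold Ta
    refine Finset.sum_congr rfl fun c hc => ?_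
    have hcp := (mem_primBall.1 hc).2
    split_ifs
    · have b2 : BX (GF (Fh F h)) (K / (nm c : ℝ) ^ 3) X :=
        bx_of (U := GF (Fh F h)) (GFh_supp hF hh) hK hX (one_le_nm3 hcp)
      rw [hg]
      simp only
      rw [CrQ_fin b2]
      exact Finset.sum_congr rfl fun j _ => by rw [arg_dil]
    · rfl
  obtain ⟨R, hR⟩ : ∃ R : ℝ, R = ∑ k ∈ (wnd z Z).filter CbF, ‖CS (alr α a 1) k‖ ^ 2 := ⟨_, rfl⟩
  have hm : ∀ m ∈ primBall X, ‖g (a * m)‖ ≤
      ((if z ≤ Real.exp 2 * (K / (nm (a * m) : ℝ) ^ 3) then (1 : ℝ) else 0) +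
      Real.exp (h / 3) * (if z ≤ Real.exp 2 * (K / (nm (a * m) : ℝ) ^ 3 * Real.exp (-h))
        then (1 : ℝ) else 0)) * (S0 * (√R * √Gr)) := by
    intro m hm
    have hmp := (mem_primBall.1 hm).2
    have hap := ha.mul hmp
    have hn0 : (0 : ℝ) < nm (a * m) := by exact_mod_cast nm_pos.2 hap.ne_zero
    have hκ : 0 < K / (nm (a * m) : ℝ) ^ 3 := by positivity
    rw [hg]
    refine (cr_two hF hS0 hFb hh hZ hκ (Q := Q) hQ _ _).trans ?_
    by_cases hi : z ≤ Real.exp 2 * (K / (nm (a * m) : ℝ) ^ 3)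
    · refine mul_le_mul_of_nonneg_left ?_ (by positivity)
      refine mul_le_mul_of_nonneg_left ?_ hS0
      have hsub : (wnd z Z).filter Q ⊆ (wnd z Z).filter CbF := by
        intro k hk
        rw [Finset.mem_filter] at hk ⊢
        exact ⟨hk.1, hQf k hk.2⟩
      refine mul_le_mul (Real.sqrt_le_sqrt ?_) (Real.sqrt_le_sqrt ?_) (Real.sqrt_nonneg _)
        (Real.sqrt_nonneg _)
      · rw [hR]
        exact Finset.sum_le_sum_of_subset_of_nonneg hsub fun _ _ _ => sq_nonneg _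
      · refine (Finset.sum_le_sum_of_subset_of_nonneg hsub fun _ _ _ => sq_nonneg _).trans
          (hGr _ hap ?_)
        rw [← mul_div_assoc, le_div_iff₀ (by positivity)] at hi
        exact hi
    · have hi2 : ¬ z ≤ Real.exp 2 * (K / (nm (a * m) : ℝ) ^ 3 * Real.exp (-h)) := by
        intro h2
        apply hi
        refine h2.trans ?_
        have : Real.exp (-h) ≤ 1 := Real.exp_le_one_iff.2 (by linarith)
        have h3 : K / (nm (a * m) : ℝ) ^ 3 * Real.exp (-h) ≤ K / (nm (a * m) : ℝ) ^ 3 :=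
          mul_le_of_le_one_right hκ.le this
        gcongr
      rw [if_neg hi, if_neg hi2]
      simp
  rw [e1]
  refine (norm_sum_le _ _).trans ((Finset.sum_le_sum hm).trans ?_)
  rw [← Finset.sum_mul]
  have hc := cnt_two (h := h) hz hK hh X ha
  have hCl : 0 ≤ S0 * (√R * √Gr) := by positivity
  refine (mul_le_mul_of_nonneg_right hc hCl).trans (le_of_eq ?_)
  rw [← hR]
  split_ifs
  · ring
  · ring

/-- **the tail of one block** : `a ≤ A0` tiny, `a > A0` Cauchy -/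
theorem etn_le {B ε : ℝ} (hB : 0 ≤ B) (hε : 0 < ε) : ∃ (Nd : ℕ) (C : ℝ), 0 ≤ C ∧
    ∀ (F : ℝ → ℂ) (S₀ : ℝ), TF F → Bd F Nd S₀ →
    ∀ (P K z Z h E0 G A0 Y D Y₀ Y₁ Gr : ℝ) (Pr : Eis → Prop) (α : Eis → ℂ) (om : Eis × Eis → ℂ),
      1 ≤ P → 0 < K → 0 < z → 0 ≤ Z → 0 ≤ h → 0 ≤ E0 → 0 ≤ G → 0 ≤ A0 → 0 ≤ Y → 0 ≤ D → 0 ≤ Y₁ →
      0 ≤ Gr → Z ≤ P ^ B → Real.exp h ≤ P ^ B → E0 ≤ P ^ B → A0 ≤ P ^ B → Y ≤ P ^ B → D ≤ P ^ B →
      Y₁ ≤ P ^ B → (A0 < 1 ∨ P ^ ε * Real.exp h * (Z * (A0 * E0 * D) ^ 3) ≤ K) →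
      Real.exp 2 * K ≤ z * G ^ 3 →
      (∀ k c, IsPrim k → IsPrim c → (Pr (c ^ 3 * k) ↔ Pr k)) →
      (∀ k, IsPrim k → CbF k → Pr k → z ≤ (nm k : ℝ) ∧ (nm k : ℝ) ≤ Z) →
      (∀ n, α n ≠ 0 → n ∈ S Y) → (∀ n, ‖α n‖ ≤ P ^ B) → (∀ x, ‖om x‖ ≤ 1) →
      (∀ c, IsPrim c → z * (nm c : ℝ) ^ 3 ≤ Real.exp 2 * K →
        ∑ k ∈ (wnd z Z).filter CbF, ‖StE E0 (JW D Y₀ Y₁) om α (c ^ 3 * k)‖ ^ 2 ≤ Gr) →
      ‖CrQ (GF (Fh F h)) Pr K α (StE E0 (JW D Y₀ Y₁) om α)‖ ≤
        C * S₀ * P ^ (-B) + 200 * S₀ * (Real.exp 2 * K / z) ^ (1 / 3 : ℝ) *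
        ∑ a ∈ (S G).filter (fun a => A0 < (nm a : ℝ)), (nm a : ℝ)⁻¹ *
          (√(∑ k ∈ (wnd z Z).filter CbF, ‖CS (alr α a 1) k‖ ^ 2) * √Gr) := by
  obtain ⟨A, hA⟩ := exists_nat_ge (20 * B / ε)
  obtain ⟨Nd, C, hC, H⟩ := ta_le A
  refine ⟨Nd, C * 100 ^ 5, by positivity, ?_⟩
  intro F S₀ hF hS P K z Z h E0 G A0 Y D Y₀ Y₁ Gr Pr α om hP hK hz hZ hh hE0 hG hA0 hY hD hY1 hGr0
    hZB hhB hEB hAB hYB hDB hY1B hgap hGK hinv hQ hα hαB hom hGr
  have hS0 : 0 ≤ S₀ := (norm_nonneg _).trans (hS 0 (Nat.zero_le _) 0)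
  have hFb : Bd F 0 S₀ := fun i hi y => hS i (hi.trans (Nat.zero_le _)) y
  have hP0 : 0 < P := by linarith
  have hFS : FS α := by
    refine ⟨(S Y).finite_toSet.subset fun n hn => hα n hn, fun n hn => ?_⟩
    exact ((mem_S hY).1 (hα n hn)).2.1
  have hJ := okJ_JW D Y₀ Y₁
  set X : ℕ := ⌈Real.exp 2 * K⌉₊ with hX
  have hXκ : Real.exp 2 * K ≤ X := Nat.le_ceil _
  have hX0 : (0 : ℝ) ≤ X := Nat.cast_nonneg _
  have e0 : StE E0 (JW D Y₀ Y₁) om α = StT E0 (JW D Y₀ Y₁) om (TE α) := rfl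
  obtain ⟨St, hSt⟩ : ∃ St : Eis → ℂ, St = StE E0 (JW D Y₀ Y₁) om α := ⟨_, rfl⟩
  obtain ⟨Q, hQd⟩ : ∃ Q : Eis → Prop, ∀ k, Q k ↔ (CbF k ∧ Pr k) := ⟨_, fun _ => Iff.rfl⟩
  rw [← hSt] at hGr ⊢
  rw [crq_split hF hh hK hXκ hQd hinv hFS,
    ← Finset.sum_filter_add_sum_filter_not (S (X : ℝ)) (fun a => (nm a : ℝ) ≤ A0)]
  refine (norm_add_le _ _).trans (add_le_add ?_ ?_)
  · -- small `a`
    rcases hgap with hlt | hgap
    · rw [Finset.sum_eq_zero, norm_zero]
      · positivity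
      · intro a ha
        rw [Finset.mem_filter, mem_S hX0] at ha
        have := one_le_nmR ha.1.2.1.ne_zero
        linarith [ha.2]
    have hXB : 1 ≤ P ^ B := Real.one_le_rpow hP hB
    obtain ⟨b, hb⟩ : ∃ b : ℝ, b = P ^ B := ⟨_, rfl⟩
    rw [← hb] at hXB hZB hhB hEB hAB hYB hDB hY1B hαB
    have hb0 : 0 ≤ b := by linarith
    have hsum : ∑ n ∈ hFS.fin.toFinset, ‖α n‖ ≤ 100 * b * b := by
      have hsub : hFS.fin.toFinset ⊆ S Y := fun n hn => by
        rw [Set.Finite.mem_toFinset] at hn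
        exact hα n hn
      calc ∑ n ∈ hFS.fin.toFinset, ‖α n‖ ≤ ∑ n ∈ S Y, ‖α n‖ :=
            Finset.sum_le_sum_of_subset_of_nonneg hsub fun _ _ _ => norm_nonneg _
        _ ≤ ∑ _n ∈ S Y, b := Finset.sum_le_sum fun n _ => hαB n
        _ = ((S Y).card : ℝ) * b := by rw [Finset.sum_const, nsmul_eq_mul]
        _ ≤ (100 * b) * b := by
            refine mul_le_mul_of_nonneg_right ((card_S hY).trans (by gcongr)) hb0
    have hJ1 : ∀ x ∈ JW D Y₀ Y₁, (nm x.1 : ℝ) ≤ D := by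
      intro x hx
      unfold C70.JW at hx
      rw [Finset.mem_filter, Finset.mem_product, mem_primBall] at hx
      exact (Nat.le_floor_iff hD).1 hx.1.1.1
    have hW : 0 < P ^ ε := Real.rpow_pos_of_pos hP0 _
    have hone : ∀ a ∈ (S (X : ℝ)).filter (fun a => (nm a : ℝ) ≤ A0),
        ‖(mu a : ℂ) * Ta (GF (Fh F h)) Q K X α St a‖ ≤
        C * S₀ * b * b * (100 * b * b) * ((100 * b * (100 * b)) * (1 * (b * ((100 * b * b) * b)))) *
          ((P ^ ε)⁻¹) ^ A := by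
      intro a ha
      rw [Finset.mem_filter, mem_S hX0] at ha
      rw [norm_mul]
      refine (mul_le_of_le_one_left (norm_nonneg _) (abs_mu_le a)).trans ?_
      rw [hSt, e0]
      have h1 := H F S₀ hF hS K (P ^ ε) Z h E0 D (100 * b * b) 1 (100 * b * b) X
        Q α (JW D Y₀ Y₁) om (TE α) a A0 hFS hK hW hZ hh hE0 hD ha.1.2.1 ha.2
        hXκ (le_trans (le_of_eq (by ring)) hgap)
        (fun k hk hq => (hQ k hk ((hQd k).1 hq).1 ((hQd k).1 hq).2).2) hsum hJ hJ1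
        (fun x _ => hom x) zero_le_one
        (fun x hx e => (CubT90.norm_TE_le hFS (hJ.prim x hx) e).trans hsum) (by positivity)
      have h5 : Real.exp (h / 3) ≤ b := by
        refine le_trans ?_ hhB
        rw [Real.exp_le_exp]
        linarith
      have h6 : ((JW D Y₀ Y₁).card : ℝ) ≤ 100 * b * (100 * b) :=
        (card_JW hD hY1).trans (by gcongr)
      refine h1.trans ?_
      gcongr
    have hcard : (((S (X : ℝ)).filter (fun a => (nm a : ℝ) ≤ A0)).card : ℝ) ≤ 100 * b := by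
      have h1 : (S (X : ℝ)).filter (fun a => (nm a : ℝ) ≤ A0) ⊆ S A0 := by
        intro a ha
        rw [Finset.mem_filter, mem_S hX0] at ha
        rw [mem_S hA0]
        exact ⟨ha.2, ha.1.2⟩
      have h2 : (((S (X : ℝ)).filter (fun a => (nm a : ℝ) ≤ A0)).card : ℝ) ≤ ((S A0).card : ℝ) := by
        exact_mod_cast Finset.card_le_card h1
      exact h2.trans ((card_S hA0).trans (by gcongr))
    refine (norm_sum_le _ _).trans ((Finset.sum_le_sum hone).trans ?_)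
    rw [Finset.sum_const, nsmul_eq_mul]
    calc (((S (X : ℝ)).filter (fun a => (nm a : ℝ) ≤ A0)).card : ℝ) *
          (C * S₀ * b * b * (100 * b * b) *
          ((100 * b * (100 * b)) * (1 * (b * ((100 * b * b) * b)))) * ((P ^ ε)⁻¹) ^ A) ≤
          (100 * b) * (C * S₀ * b * b * (100 * b * b) *
          ((100 * b * (100 * b)) * (1 * (b * ((100 * b * b) * b)))) * ((P ^ ε)⁻¹) ^ A) :=
          mul_le_mul_of_nonneg_right hcard (by positivity)
      _ = C * 100 ^ 5 * S₀ * (b ^ 11 * ((P ^ ε)⁻¹) ^ A) := by ring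
      _ ≤ C * 100 ^ 5 * S₀ * P ^ (-B) := by
          refine mul_le_mul_of_nonneg_left ?_ (by positivity)
          have e1 : b ^ 11 = P ^ (11 * B) := by
            rw [hb, ← Real.rpow_natCast, ← Real.rpow_mul hP0.le]
            congr 1
            push_cast
            ring
          have e2 : ((P ^ ε)⁻¹) ^ A = P ^ (-(ε * A)) := by
            rw [← Real.rpow_neg hP0.le, ← Real.rpow_natCast, ← Real.rpow_mul hP0.le]
            congr 1
            ring
          rw [e1, e2, ← Real.rpow_add hP0]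
          refine Real.rpow_le_rpow_of_exponent_le hP ?_
          have h1 : 20 * B ≤ ε * A := by
            rw [div_le_iff₀ hε] at hA
            linarith
          linarith
  · -- large `a`
    obtain ⟨c, hc⟩ : ∃ c : ℝ, c = 200 * S₀ * (Real.exp 2 * K / z) ^ (1 / 3 : ℝ) := ⟨_, rfl⟩
    have hc0 : 0 ≤ c := by rw [hc]; positivity
    rw [← hc]
    obtain ⟨f, hf⟩ : ∃ f : Eis → ℝ, f = fun a => if z * (nm a : ℝ) ^ 3 ≤ Real.exp 2 * K then
      (nm a : ℝ)⁻¹ * (√(∑ k ∈ (wnd z Z).filter CbF, ‖CS (alr α a 1) k‖ ^ 2) * √Gr) else 0 :=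
      ⟨_, rfl⟩
    have hf0 : ∀ a, 0 ≤ f a := by
      intro a
      rw [hf]
      simp only
      split_ifs
      · positivity
      · exact le_rfl
    have h2 : ‖∑ a ∈ (S (X : ℝ)).filter (fun a => ¬ (nm a : ℝ) ≤ A0),
        (mu a : ℂ) * Ta (GF (Fh F h)) Q K X α St a‖ ≤
        ∑ a ∈ (S (X : ℝ)).filter (fun a => ¬ (nm a : ℝ) ≤ A0), c * f a := by
      refine (norm_sum_le _ _).trans (Finset.sum_le_sum fun a ha => ?_)
      have hap := ((mem_S hX0).1 (Finset.mem_filter.1 ha).1).2.1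
      rw [norm_mul]
      refine (mul_le_of_le_one_left (norm_nonneg _) (abs_mu_le a)).trans ?_
      refine (ta_cauchy hF hS0 hFb hh hz hZ hK hGr0 hXκ (fun k hk => ((hQd k).1 hk).1)
        (fun k hk hq => hQ k hk ((hQd k).1 hq).1 ((hQd k).1 hq).2) α St hGr hap).trans
        (le_of_eq ?_)
      rw [hf, hc]
      simp only
      split_ifs
      · rfl
      · ring
    refine h2.trans ?_
    rw [← Finset.mul_sum]
    refine mul_le_mul_of_nonneg_left ?_ hc0
    calc ∑ a ∈ (S (X : ℝ)).filter (fun a => ¬ (nm a : ℝ) ≤ A0), f a ≤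
        ∑ a ∈ (S G).filter (fun a => A0 < (nm a : ℝ)), f a := by
          rw [← Finset.sum_filter_ne_zero]
          refine Finset.sum_le_sum_of_subset_of_nonneg ?_ fun a _ _ => hf0 a
          intro a ha'
          rw [Finset.mem_filter] at ha'
          obtain ⟨ha, hne⟩ := ha'
          rw [Finset.mem_filter, mem_S hX0] at ha
          rw [Finset.mem_filter, mem_S hG]
          refine ⟨⟨?_, ha.1.2⟩, not_le.1 ha.2⟩
          by_contra hlt
          apply hne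
          rw [hf]
          simp only
          rw [if_neg]
          intro hle
          have h3 : z * G ^ 3 < z * (nm a : ℝ) ^ 3 := by
            have := pow_lt_pow_left₀ (not_le.1 hlt) hG (n := 3) (by norm_num)
            exact mul_lt_mul_of_pos_left this hz
          linarith
      _ ≤ _ := by
          refine Finset.sum_le_sum fun a _ => ?_
          rw [hf]
          simp only
          split_ifs
          · exact le_rfl
          · positivity

end Crest.Agent.R017.NEq83
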