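import Crest.Agent.R017.NTd_813

/-!
# Row 17, the near-top part of the tail of (LB) (helper813), part e: the sum over the cells

* `cell` : one cell `(g, a, e₀, m)`, both scales
* `nt_alpha` : **the near-top number**
-/

set_option autoImplicit false
set_option linter.unusedVariables false

noncomputable section

open Complex MeasureTheory
open scoped ComplexConjugate Classical

namespace Crest.Agent.R017.Et813

open Crest.Agent.R012 Crest.Agent.R012.Eis Crest.Agent.R012.MC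
open Crest.Agent.R012.LS2 (S mem_S)
open Crest.Agent.R012.Mob705 (mu IsPP)
open Crest.Agent.R012.Div277 (tau dvs mem_dvs)
open Crest.Agent.R017.X6C180 (n13 cM GF)
open Crest.Agent.R017.X6545 (TF)
open Crest.Agent.R017.X6W180 (tf1_tf)
open Crest.Agent.R017.CM106 (CS FS)
open Crest.Agent.R017.PX764 (th)
open Crest.Agent.R017.C70 (JW OKJ okJ_JW CbF)
open Crest.Agent.R017.E2440 (TE StE StT TOK tok_TE Fh)
open Crest.Agent.R017.Ex385 (CrQ CrQ_split)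
open Crest.Agent.R017.WDec180 (WD sc sc_pos)
open Crest.Agent.R017.LB48 (CrP GrP)
open Crest.Agent.R017.E3M829 (Cut Tal Sg)
open Crest.Agent.R017.LBu180 (SqQ)
open Crest.Agent.R017.CubP813 (alr alr_ne omb omc Te NTs Qc tsum_m BX bx_of)
open Crest.Agent.R017.Et404 (GFh_supp sc_le)

/-- the square input of NT: cube-free `k ≥ K₂`, all shortened sequences -/
def HSq (W : ℝ → ℝ) (K Km K₂ L2 D Y E0 : ℝ) (α : Eis → ℂ) (A' : ℝ) : Prop :=
  ∀ (K' : ℝ) (a b : Eis), Km ≤ K' → K' ≤ K → IsPrim a → Squarefree a → L2 / D ≤ nm a →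
    (nm a : ℝ) ≤ Y → IsPrim b → (nm b : ℝ) ≤ D * E0 →
    SqQ W K' (fun k => CbF k ∧ K₂ ≤ (nm k : ℝ)) (alr α a b) ≤
      (K' / K) ^ (1 / 3 : ℝ) * ((nm a : ℝ)⁻¹ * A')

/-- the Gram input of NT at the scale `K` -/
def HGr (W : ℝ → ℝ) (K E0 E1 : ℝ) (J : Finset (Eis × Eis)) (om : Eis × Eis → ℂ)
    (α : Eis → ℂ) (Bg : ℝ) : Prop :=
  ∀ b e : Eis, IsPrim b → IsPrim e →
    GrP W K (fun r => if Cut E1 r then StE E0 J (omc (omb om b) e) α r else 0) ≤ Bg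

lemma CS_zero {β : Eis → ℂ} (h : ∀ n, β n = 0) (k : Eis) : CS β k = 0 := by
  unfold CM106.CS
  refine (tsum_congr fun n => ?_).trans tsum_zero
  rw [h n, zero_mul]

lemma StT_zero {E0 : ℝ} {J : Finset (Eis × Eis)} {om : Eis × Eis → ℂ}
    (h : ∀ x ∈ J, om x = 0) (T : Eis × Eis → Eis → ℂ) (k : Eis) : StT E0 J om T k = 0 := by
  unfold E2440.StT
  refine Finset.sum_eq_zero fun x hx => ?_
  rw [h x hx, zero_mul]

/-- **one cell** -/
theorem cell {ε : ℝ} (hε : 0 < ε) : ∃ C κ₀ : ℝ, 0 ≤ C ∧ 1 ≤ κ₀ ∧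
    ∀ {W : ℝ → ℝ}, Wgt W → (∀ x, 0 ≤ W x) → ∀ {N : ℕ} {M : ℝ}, 0 ≤ M →
    (∀ x, Real.exp (-(2 + M)) ≤ x → x ≤ Real.exp (4 + N) → 1 ≤ W x) →
    ∀ {F : ℝ → ℂ}, TF F → ∀ {S0 : ℝ}, 0 ≤ S0 → X6545.Bd F 0 S0 →
    ∀ (P E0 D E1 K Y L2 K₁ K₂ Km h Bg Bg' A' : ℝ) (i : ℕ) (J : Finset (Eis × Eis))
      (om : Eis × Eis → ℂ) (α : Eis → ℂ), i < N → 1 ≤ P →
      0 < K → Real.exp (2 + N) * K ≤ P → 0 ≤ h →
      0 ≤ E0 → E0 ≤ P → OKJ J → 0 < D → (∀ x ∈ J, (nm x.1 : ℝ) ≤ D) → 0 ≤ Y →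
      (∀ n, α n ≠ 0 → n ∈ S Y) →
      Real.exp κ₀ ≤ L2 → E0 < L2 → D < L2 → 0 < K₂ → Real.exp (4 + N) * K ≤ K₂ * E1 ^ 3 →
      0 ≤ E1 → Real.exp (2 + N) * K ≤ K₂ * P ^ 3 → Km * Real.exp (h + (2 + N)) ≤ K₂ →
      0 ≤ A' → HSq W K Km K₂ L2 D Y E0 α A' → HGr W K E0 E1 J om α Bg →
      HGr W (K * Real.exp (-h)) E0 E1 J om α Bg' →
      ∀ g a e₀ m : Eis, IsPrim g → Squarefree g → L2 < (nm g : ℝ) → a ∈ dvs g → e₀ ∈ S E0 →
      IsPrim m →
      ‖(mu e₀ : ℂ) * CrQ (GF (Fh F h)) (fun k => CbF k ∧ (¬ Qc K₁ k ∧ ¬ (nm k : ℝ) < K₂) ∧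
        IsCoprime e₀ k) (sc K M i / (nm (g * e₀ * m) : ℝ) ^ 3) (alr α a (g / a * e₀))
        (StT E0 J (omb om (g / a)) (Te E0 e₀ (TE α)))‖ ≤
        C * P ^ ε * (S0 * (√(D / L2 * A' * (E0 * Bg)) +
          Real.exp (h / 6) * √(D / L2 * A' * (E0 * Bg'))) / (nm (g * e₀ * m) : ℝ)) := by
  obtain ⟨C, κ₀, hC, hκ₀, H⟩ := one_scale hε
  refine ⟨C, κ₀, hC, hκ₀, ?_⟩
  intro W hW hW0 N M hM hW1 F hF S0 hS0 hFb P E0 D E1 K Y L2 K₁ K₂ Km h Bg Bg' A' i J om α hi hP hK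
    hKP hh hE0 hE0P hJ hD hJD hY hα hL0 hL1 hL2 hK₂ hE1 hE10 hKP3 hKm hA hS hG hG' g a e₀ m hg hgs
    hgL ha he₀ hm
  obtain ⟨heE, hep, hes⟩ := (mem_S hE0).1 he₀
  set t : ℝ := (nm (g * e₀ * m) : ℝ) with ht
  have hprod : IsPrim (g * e₀ * m) := (hg.mul hep).mul hm
  have ht1 : 1 ≤ t := by rw [ht]; exact_mod_cast nm_pos.2 hprod.ne_zero
  have ht0 : 0 < t := by linarith
  have hP0 : 0 < P := by linarith
  have hL20 : 0 < L2 := (Real.exp_pos _).trans_le hL0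
  have hRHS : 0 ≤ C * P ^ ε * (S0 * (√(D / L2 * A' * (E0 * Bg)) +
          Real.exp (h / 6) * √(D / L2 * A' * (E0 * Bg'))) / t) := by positivity
  obtain ⟨hap, hag⟩ := (mem_dvs hg.ne_zero).1 ha
  have hgab := CubL813.mul_div_mem ha
  have hbp : IsPrim (g / a) := CubL813.prim_div hg ha
  have hnab : (nm g : ℝ) = nm a * nm (g / a) := by
    rw [← Nat.cast_mul, ← nm_mul, hgab]
  have hsc := sc_pos hK M i
  have hscle : sc K M i ≤ Real.exp N * K := sc_le hK hM (Finset.mem_range.2 hi)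
  -- the cube range
  by_cases hc1 : Real.exp (2 + N) * K < K₂ * t ^ 3
  · rw [zero_CrQ_s, mul_zero, norm_zero]
    · exact hRHS
    · intro k hk hQ
      by_contra hne
      have h1 := GFh_supp hF hh _ hne
      rw [div_le_iff₀ (by positivity)] at h1
      have h2 : K₂ ≤ nm k := not_lt.1 hQ.2.1.2
      have h3 : K₂ ≤ Real.exp 2 * (sc K M i / t ^ 3) := h2.trans h1
      rw [← mul_div_assoc, le_div_iff₀ (by positivity)] at h3
      have h4 : Real.exp 2 * sc K M i ≤ Real.exp (2 + N) * K := by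
        rw [Real.exp_add, mul_assoc]
        gcongr
      linarith
  rw [not_lt] at hc1
  -- `nm b ≤ D`
  by_cases hc2 : D < nm (g / a)
  · rw [zero_CrQ_u, mul_zero, norm_zero]
    · exact hRHS
    · intro k
      refine StT_zero (fun x hx => ?_) _ _
      unfold CubP813.omb
      rw [if_neg]
      intro hd
      have h1 : (nm (g / a) : ℝ) ≤ nm x.1 := by
        exact_mod_cast Div277.nm_le_of_dvd (hJ.prim x hx).ne_zero hd
      linarith [hJD x hx]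
  rw [not_lt] at hc2
  -- `nm a ≤ Y`
  by_cases hc3 : Y < nm a
  · rw [zero_CrQ_a, mul_zero, norm_zero]
    · exact hRHS
    · intro k
      refine CS_zero (fun n => ?_) k
      by_contra hne
      obtain ⟨h1, h2, -⟩ := alr_ne hne
      obtain ⟨h3, h4, -⟩ := (mem_S hY).1 (hα n h1)
      have h5 : (nm a : ℝ) ≤ nm n := by exact_mod_cast Div277.nm_le_of_dvd h4.ne_zero h2
      linarith
  rw [not_lt] at hc3
  have has : Squarefree a := hgs.squarefree_of_dvd hag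
  have hna : (1 : ℝ) ≤ nm a := by exact_mod_cast nm_pos.2 hap.ne_zero
  have hnb : (1 : ℝ) ≤ nm (g / a) := by exact_mod_cast nm_pos.2 hbp.ne_zero
  have hne : (1 : ℝ) ≤ nm e₀ := by exact_mod_cast nm_pos.2 hep.ne_zero
  have hnm : (1 : ℝ) ≤ nm m := by exact_mod_cast nm_pos.2 hm.ne_zero
  have haL : L2 / D ≤ nm a := by
    rw [div_le_iff₀ hD]
    calc L2 ≤ nm g := hgL.le
      _ = nm a * nm (g / a) := hnab
      _ ≤ _ := by gcongr
  have hbE : (nm (g / a * e₀) : ℝ) ≤ D * E0 := by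
    rw [nm_mul]
    push_cast
    gcongr
  have htE : L2 * nm e₀ ≤ t := by
    rw [ht, nm_mul, nm_mul]
    push_cast
    calc L2 * nm e₀ ≤ nm g * nm e₀ * 1 := by rw [mul_one]; gcongr
      _ ≤ _ := by gcongr
  have htP : t ≤ P := by
    have h1 : K₂ * t ^ 3 ≤ K₂ * P ^ 3 := hc1.trans hKP3
    have h2 : t ^ 3 ≤ P ^ 3 := le_of_mul_le_mul_left h1 hK₂
    exact le_of_pow_le_pow_left₀ (by norm_num) hP0.le h2
  have htE1 : Real.exp (2 / 3) * t ≤ E1 := by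
    have h1 : K₂ * (Real.exp (2 / 3) * t) ^ 3 ≤ K₂ * E1 ^ 3 := by
      refine le_trans ?_ hE1
      calc K₂ * (Real.exp (2 / 3) * t) ^ 3 = Real.exp 2 * (K₂ * t ^ 3) := by
            rw [mul_pow, ← Real.exp_nat_mul]
            push_cast
            rw [show (3 : ℝ) * (2 / 3) = 2 by norm_num]
            ring
        _ ≤ Real.exp 2 * (Real.exp (2 + N) * K) := by gcongr
        _ = Real.exp (4 + N) * K := by
            rw [← mul_assoc, ← Real.exp_add]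
            congr 2
            ring
    exact le_of_pow_le_pow_left₀ (by norm_num) hE10 (le_of_mul_le_mul_left h1 hK₂)
  have hTOK : TOK (TE α) := tok_TE fun n hn => ((mem_S hY).1 (hα n hn)).2.2
  have hQ : ∀ k, (CbF k ∧ (¬ Qc K₁ k ∧ ¬ (nm k : ℝ) < K₂) ∧ IsCoprime e₀ k) →
      CbF k ∧ IsCoprime e₀ k := fun k hk => ⟨hk.1, hk.2.2⟩
  have hQQ : ∀ k, (CbF k ∧ (¬ Qc K₁ k ∧ ¬ (nm k : ℝ) < K₂) ∧ IsCoprime e₀ k) →
      (CbF k ∧ K₂ ≤ (nm k : ℝ)) := fun k hk => ⟨hk.1, not_lt.1 hk.2.1.2⟩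
  have hinv : (nm a : ℝ)⁻¹ ≤ D / L2 := by
    rw [inv_le_comm₀ (by linarith) (by positivity), inv_div]
    exact haL
  -- the two scales
  have key : ∀ η : ℝ, 0 ≤ η → η ≤ h → ∀ B₀ : ℝ, HGr W (K * Real.exp (-η)) E0 E1 J om α B₀ →
      ‖(mu e₀ : ℂ) * CrQ (GF F) (fun k => CbF k ∧ (¬ Qc K₁ k ∧ ¬ (nm k : ℝ) < K₂) ∧
        IsCoprime e₀ k) (sc K M i / t ^ 3 * Real.exp (-η)) (alr α a (g / a * e₀))
        (StT E0 J (omb om (g / a)) (Te E0 e₀ (TE α)))‖ ≤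
        C * P ^ ε * (S0 * Real.exp (-(η / 6)) * √(D / L2 * A' * (E0 * B₀)) / t) := by
    intro η hη hηh B₀ hB₀
    refine H hW hW0 hM hW1 hF hS0 hFb P E0 D E1 K L2 t η B₀ A' (D / L2) i J (omb om (g / a)) (TE α)
      e₀ _ (fun k => CbF k ∧ K₂ ≤ (nm k : ℝ)) (alr α a (g / a * e₀)) hi hP hK hKP hη ht0 htP hE0
      hE0P hJ hJD hTOK hep hes heE hQ hL0 hL1 hL2 htE htE1 (hB₀ (g / a) e₀ hbp hep)
      (by positivity) hA hQQ ?_
    have h1 : Km ≤ K * Real.exp (-η) / t ^ 3 := by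
      rw [le_div_iff₀ (by positivity)]
      have h2 : Km * t ^ 3 ≤ K * Real.exp (-h) := by
        rcases le_or_gt Km 0 with h0 | h0
        · have : Km * t ^ 3 ≤ 0 := mul_nonpos_of_nonpos_of_nonneg h0 (by positivity)
          have h3 : 0 < K * Real.exp (-h) := by positivity
          linarith
        · have h3 : Km * Real.exp (h + (2 + N)) * t ^ 3 ≤ Real.exp (2 + N) * K :=
            (mul_le_mul_of_nonneg_right hKm (by positivity)).trans hc1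
          rw [Real.exp_add] at h3
          have h4 : Real.exp (2 + N) * (Km * t ^ 3) ≤ Real.exp (2 + N) * (K * Real.exp (-h)) := by
            calc Real.exp (2 + N) * (Km * t ^ 3) =
                Km * (Real.exp h * Real.exp (2 + N)) * t ^ 3 * Real.exp (-h) := by
                  have : Real.exp h * Real.exp (-h) = 1 := by
                    rw [← Real.exp_add, add_neg_cancel, Real.exp_zero]
                  calc _ = Real.exp (2 + N) * (Km * t ^ 3) * (Real.exp h * Real.exp (-h)) := by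
                        rw [this, mul_one]
                    _ = _ := by ring
              _ ≤ Real.exp (2 + N) * K * Real.exp (-h) := by gcongr
              _ = _ := by ring
          exact le_of_mul_le_mul_left h4 (Real.exp_pos _)
      refine h2.trans ?_
      have : Real.exp (-h) ≤ Real.exp (-η) := Real.exp_le_exp.2 (by linarith)
      gcongr
    have h2 : K * Real.exp (-η) / t ^ 3 ≤ K := by
      have h3 : Real.exp (-η) ≤ 1 := Real.exp_le_one_iff.2 (by linarith)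
      calc K * Real.exp (-η) / t ^ 3 ≤ K * Real.exp (-η) :=
            div_le_self (by positivity) (one_le_pow₀ ht1)
        _ ≤ K := mul_le_of_le_one_right hK.le h3
    refine (hS _ a (g / a * e₀) h1 h2 hap has haL hc3 (hbp.mul hep) hbE).trans ?_
    have h5 : (0 : ℝ) ≤ (K * Real.exp (-η) / t ^ 3 / K) ^ (1 / 3 : ℝ) := by positivity
    gcongr
  have hs0 : 0 < sc K M i / t ^ 3 := by positivity
  have hsplit := CrQ_split hF hh (fun k => CbF k ∧ (¬ Qc K₁ k ∧ ¬ (nm k : ℝ) < K₂) ∧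
        IsCoprime e₀ k) hs0 (alr α a (g / a * e₀)) (StT E0 J (omb om (g / a)) (Te E0 e₀ (TE α)))
  have k1 := key 0 le_rfl hh Bg (by rw [neg_zero, Real.exp_zero, mul_one]; exact hG)
  have k2 := key h hh le_rfl Bg' hG'
  rw [neg_zero, Real.exp_zero, mul_one, zero_div, neg_zero, Real.exp_zero, mul_one] at k1
  set c0 := CrQ (GF F) (fun k => CbF k ∧ (¬ Qc K₁ k ∧ ¬ (nm k : ℝ) < K₂) ∧
        IsCoprime e₀ k) (sc K M i / t ^ 3) (alr α a (g / a * e₀))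
        (StT E0 J (omb om (g / a)) (Te E0 e₀ (TE α))) with hc0
  set c2 := CrQ (GF F) (fun k => CbF k ∧ (¬ Qc K₁ k ∧ ¬ (nm k : ℝ) < K₂) ∧
        IsCoprime e₀ k) (sc K M i / t ^ 3 * Real.exp (-h)) (alr α a (g / a * e₀))
        (StT E0 J (omb om (g / a)) (Te E0 e₀ (TE α))) with hc2
  have e1 : CrQ (GF (Fh F h)) (fun k => CbF k ∧ (¬ Qc K₁ k ∧ ¬ (nm k : ℝ) < K₂) ∧
        IsCoprime e₀ k) (sc K M i / t ^ 3) (alr α a (g / a * e₀))
        (StT E0 J (omb om (g / a)) (Te E0 e₀ (TE α))) =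
      c0 - ((Real.exp (h / 3) : ℝ) : ℂ) * c2 := by
    rw [hsplit]; ring
  rw [e1, mul_sub]
  refine (norm_sub_le _ _).trans ?_
  have e2 : ‖(mu e₀ : ℂ) * (((Real.exp (h / 3) : ℝ) : ℂ) * c2)‖ =
      Real.exp (h / 3) * ‖(mu e₀ : ℂ) * c2‖ := by
    rw [mul_left_comm, norm_mul, Complex.norm_real, Real.norm_of_nonneg (Real.exp_pos _).le]
  rw [e2]
  have e3 : Real.exp (h / 3) * Real.exp (-(h / 6)) = Real.exp (h / 6) := by
    rw [← Real.exp_add]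
    congr 1
    ring
  calc ‖(mu e₀ : ℂ) * c0‖ + Real.exp (h / 3) * ‖(mu e₀ : ℂ) * c2‖ ≤
      C * P ^ ε * (S0 * √(D / L2 * A' * (E0 * Bg)) / t) + Real.exp (h / 3) *
        (C * P ^ ε * (S0 * Real.exp (-(h / 6)) * √(D / L2 * A' * (E0 * Bg')) / t)) := by
        gcongr
    _ = C * P ^ ε * (S0 * √(D / L2 * A' * (E0 * Bg)) / t) +
        C * P ^ ε * (S0 * (Real.exp (h / 3) * Real.exp (-(h / 6))) *
          √(D / L2 * A' * (E0 * Bg')) / t) := by ring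
    _ = _ := by rw [e3]; ring

/-! ### the sum -/

lemma sum_inv_S {L P : ℝ} (hL : 0 ≤ L) (hP : 1 ≤ P) (hLP : L ≤ P) :
    ∑ g ∈ S L, ((nm g : ℝ))⁻¹ ≤ 100 * (1 + Real.log P) := by
  have h1 : S L ⊆ primBall ⌊L⌋₊ := by
    intro g hg
    obtain ⟨h1, h2, -⟩ := (mem_S hL).1 hg
    exact mem_primBall.2 ⟨(Nat.le_floor_iff hL).2 h1, h2⟩
  have h2 : ∑ g ∈ S L, ((nm g : ℝ))⁻¹ ≤ ∑ g ∈ primBall ⌊L⌋₊, ((nm g : ℝ))⁻¹ :=
    Finset.sum_le_sum_of_subset_of_nonneg h1 fun _ _ _ => by positivity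
  have h3 := Div277.sum_inv_primBall_le ⌊L⌋₊
  simp only [one_div] at h3
  refine h2.trans (h3.trans ?_)
  have h4 : Real.log (⌊L⌋₊ : ℝ) ≤ Real.log P := by
    rcases Nat.eq_zero_or_pos ⌊L⌋₊ with h | h
    · rw [h, Nat.cast_zero, Real.log_zero]
      exact Real.log_nonneg hP
    · exact Real.log_le_log (by exact_mod_cast h) ((Nat.floor_le hL).trans hLP)
  linarith

lemma sum_inv_B {X : ℕ} {P : ℝ} (hP : 1 ≤ P) (hXP : (X : ℝ) ≤ P) :
    ∑ g ∈ primBall X, ((nm g : ℝ))⁻¹ ≤ 100 * (1 + Real.log P) := by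
  have h3 := Div277.sum_inv_primBall_le X
  simp only [one_div] at h3
  refine h3.trans ?_
  have h4 : Real.log (X : ℝ) ≤ Real.log P := by
    rcases Nat.eq_zero_or_pos X with h | h
    · rw [h, Nat.cast_zero, Real.log_zero]
      exact Real.log_nonneg hP
    · exact Real.log_le_log (by exact_mod_cast h) hXP
  linarith

lemma inv3 (a x y z : ℝ) : a / (x * y * z) = a * (x⁻¹ * y⁻¹ * z⁻¹) := by
  rw [div_eq_mul_inv, mul_inv, mul_inv]

/-- **the near-top number** -/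
theorem nt_alpha {w : ℝ → ℝ} {N : ℕ} {M : ℝ} {F : ℕ → ℝ → ℂ} (hD : WD w N M F) {ε : ℝ}
    (hε : 0 < ε) : ∃ C κ₀ : ℝ, 0 ≤ C ∧ 1 ≤ κ₀ ∧
    ∀ {W : ℝ → ℝ}, Wgt W → (∀ x, 0 ≤ W x) →
    (∀ x, Real.exp (-(2 + M)) ≤ x → x ≤ Real.exp (4 + N) → 1 ≤ W x) →
    ∀ (P E0 D E1 K Y L L2 K₁ K₂ Km h Bg Bg' A' : ℝ) (X : ℕ) (J : Finset (Eis × Eis))
      (om : Eis × Eis → ℂ) (α : Eis → ℂ), 1 ≤ P →
      0 < K → Real.exp (2 + N) * K ≤ X → (X : ℝ) ≤ P → 0 ≤ h →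
      0 ≤ E0 → E0 ≤ P → OKJ J → 0 < D → (∀ x ∈ J, (nm x.1 : ℝ) ≤ D) → 0 ≤ Y →
      (∀ n, α n ≠ 0 → n ∈ S Y) → 0 ≤ L → L ≤ P →
      Real.exp κ₀ ≤ L2 → E0 < L2 → D < L2 → 0 < K₂ → Real.exp (4 + N) * K ≤ K₂ * E1 ^ 3 →
      0 ≤ E1 → Real.exp (2 + N) * K ≤ K₂ * P ^ 3 → Km * Real.exp (h + (2 + N)) ≤ K₂ →
      0 ≤ A' → HSq W K Km K₂ L2 D Y E0 α A' → HGr W K E0 E1 J om α Bg →
      HGr W (K * Real.exp (-h)) E0 E1 J om α Bg' →
      NTn N F h M K E0 L L2 K₁ K₂ α J om ≤ C * P ^ ε * (√(D / L2 * A' * (E0 * Bg)) +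
          Real.exp (h / 6) * √(D / L2 * A' * (E0 * Bg'))) := by
  obtain ⟨C₁, κ₀, hC₁, hκ₀, H⟩ := cell (ε := ε / 4) (by positivity)
  obtain ⟨Ct, hCt, Ht⟩ := Div277.tau_le_rpow (ε := ε / 4) (by positivity)
  obtain ⟨Cl, hCl, Hl⟩ := PInv255.one_add_log_pow_le 3 (ε / 4) (by positivity)
  obtain ⟨S₀, hS0, hBd⟩ := hD.bd 0
  refine ⟨N * (C₁ * S₀ * (Ct * (100 ^ 3 * Cl))), κ₀, by positivity, hκ₀, ?_⟩
  intro W hW hW0 hW1 P E0 D E1 K Y L L2 K₁ K₂ Km h Bg Bg' A' X J om α hP hK hKX hXP hh hE0 hE0P hJ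
    hD0 hJD hY hα hL hLP hL0 hL1 hL2 hK₂ hE1 hE10 hKP3 hKm hA hS hG hG'
  have hP0 : 0 < P := by linarith
  have hlog : 0 ≤ Real.log P := Real.log_nonneg hP
  set Z := √(D / L2 * A' * (E0 * Bg)) + Real.exp (h / 6) * √(D / L2 * A' * (E0 * Bg')) with hZ
  have hZ0 : 0 ≤ Z := by rw [hZ]; positivity
  set V := C₁ * P ^ (ε / 4) * (S₀ * Z) with hV
  have hV0 : 0 ≤ V := by rw [hV]; positivity
  unfold NTn
  have hone : ∀ i ∈ Finset.range N, ‖∑ g ∈ (S L).filter (fun g => L2 < (nm g : ℝ)), (mu g : ℂ) *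
      NTs (GF (Fh (F i) h)) (fun k => ¬ Qc K₁ k ∧ ¬ (nm k : ℝ) < K₂) (sc K M i) E0 α J om
        (TE α) g‖ ≤ V * (Ct * P ^ (ε / 4)) * (100 * (1 + Real.log P)) ^ 3 := by
    intro i hi
    have hFi := tf1_tf (hD.tf i)
    have hsc := sc_pos hK M i
    have hscle : sc K M i ≤ Real.exp N * K := sc_le hK hD.M0 hi
    have hb : Real.exp 2 * sc K M i ≤ X := by
      refine le_trans ?_ hKX
      rw [Real.exp_add, mul_assoc]
      gcongr
    have hX1 : BX (GF (Fh (F i) h)) (sc K M i) X := by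
      have := bx_of (b0 := Real.exp 2) (GFh_supp hFi hh) hsc hb (le_refl (1 : ℝ))
      rwa [div_one] at this
    have hg1 : ∀ g ∈ (S L).filter (fun g => L2 < (nm g : ℝ)), ‖(mu g : ℂ) *
        NTs (GF (Fh (F i) h)) (fun k => ¬ Qc K₁ k ∧ ¬ (nm k : ℝ) < K₂) (sc K M i) E0 α J om
          (TE α) g‖ ≤ V * (Ct * P ^ (ε / 4)) * (100 * (1 + Real.log P)) ^ 2 *
            ((nm g : ℝ))⁻¹ := by
      intro g hg
      obtain ⟨hg1, hg2⟩ := Finset.mem_filter.1 hg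
      obtain ⟨hgL, hgp, hgs⟩ := (mem_S hL).1 hg1
      have h1 : ‖(mu g : ℂ) * NTs (GF (Fh (F i) h)) (fun k => ¬ Qc K₁ k ∧ ¬ (nm k : ℝ) < K₂)
          (sc K M i) E0 α J om (TE α) g‖ ≤ ‖NTs (GF (Fh (F i) h))
          (fun k => ¬ Qc K₁ k ∧ ¬ (nm k : ℝ) < K₂) (sc K M i) E0 α J om (TE α) g‖ := by
        rw [norm_mul]
        exact mul_le_of_le_one_left (norm_nonneg _) (abs_mu_le _)
      refine h1.trans ?_
      unfold CubP813.NTs
      have h2 : ∀ a ∈ dvs g, ‖∑ e₀ ∈ S E0, (mu e₀ : ℂ) * ∑' m : Eis, if IsPrim m then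
          CrQ (GF (Fh (F i) h)) (fun k => CbF k ∧ (¬ Qc K₁ k ∧ ¬ (nm k : ℝ) < K₂) ∧
            IsCoprime e₀ k) (sc K M i / (nm (g * e₀ * m) : ℝ) ^ 3)
            (alr α a (g / a * e₀)) (StT E0 J (omb om (g / a)) (Te E0 e₀ (TE α))) else 0‖ ≤
          V * ((nm g : ℝ))⁻¹ * (100 * (1 + Real.log P)) ^ 2 := by
        intro a ha
        have h3 : ∀ e₀ ∈ S E0, ‖(mu e₀ : ℂ) * ∑' m : Eis, if IsPrim m then
          CrQ (GF (Fh (F i) h)) (fun k => CbF k ∧ (¬ Qc K₁ k ∧ ¬ (nm k : ℝ) < K₂) ∧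
            IsCoprime e₀ k) (sc K M i / (nm (g * e₀ * m) : ℝ) ^ 3)
            (alr α a (g / a * e₀)) (StT E0 J (omb om (g / a)) (Te E0 e₀ (TE α))) else 0‖ ≤
            V * ((nm g : ℝ))⁻¹ * (100 * (1 + Real.log P)) * ((nm e₀ : ℝ))⁻¹ := by
          intro e₀ he₀
          obtain ⟨-, hep, -⟩ := (mem_S hE0).1 he₀
          rw [tsum_m hX1 (hgp.mul hep), Finset.mul_sum]
          refine (norm_sum_le _ _).trans ?_
          calc ∑ m ∈ primBall X, ‖(mu e₀ : ℂ) * CrQ (GF (Fh (F i) h))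
                (fun k => CbF k ∧ (¬ Qc K₁ k ∧ ¬ (nm k : ℝ) < K₂) ∧ IsCoprime e₀ k)
                (sc K M i / (nm (g * e₀ * m) : ℝ) ^ 3) (alr α a (g / a * e₀))
                (StT E0 J (omb om (g / a)) (Te E0 e₀ (TE α)))‖ ≤
              ∑ m ∈ primBall X, V * ((nm g : ℝ))⁻¹ * ((nm e₀ : ℝ))⁻¹ * ((nm m : ℝ))⁻¹ := by
                refine Finset.sum_le_sum fun m hm => ?_
                have h4 := H hW hW0 hD.M0 hW1 hFi hS0 (hBd i (Finset.mem_range.1 hi)) P E0 D E1 K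
                  Y L2 K₁ K₂ Km h Bg Bg' A' i J om α (Finset.mem_range.1 hi) hP hK
                  (hKX.trans hXP) hh hE0 hE0P hJ hD0 hJD hY hα hL0 hL1 hL2 hK₂ hE1 hE10 hKP3 hKm
                  hA hS hG hG' g a e₀ m hgp hgs hg2 ha he₀ (mem_primBall.1 hm).2
                rw [← hZ] at h4
                refine h4.trans (le_of_eq ?_)
                rw [hV, nm_mul, nm_mul]
                push_cast
                rw [inv3]
                ring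
            _ = V * ((nm g : ℝ))⁻¹ * ((nm e₀ : ℝ))⁻¹ * ∑ m ∈ primBall X, ((nm m : ℝ))⁻¹ := by
                rw [Finset.mul_sum]
            _ ≤ V * ((nm g : ℝ))⁻¹ * ((nm e₀ : ℝ))⁻¹ * (100 * (1 + Real.log P)) := by
                have := sum_inv_B (X := X) hP hXP
                gcongr
            _ = _ := by ring
        refine (norm_sum_le _ _).trans ((Finset.sum_le_sum h3).trans ?_)
        rw [← Finset.mul_sum]
        have := sum_inv_S hE0 hP hE0P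
        calc V * ((nm g : ℝ))⁻¹ * (100 * (1 + Real.log P)) * ∑ e₀ ∈ S E0, ((nm e₀ : ℝ))⁻¹ ≤
            V * ((nm g : ℝ))⁻¹ * (100 * (1 + Real.log P)) * (100 * (1 + Real.log P)) := by
              gcongr
          _ = _ := by ring
      refine (norm_sum_le _ _).trans ((Finset.sum_le_sum h2).trans ?_)
      rw [Finset.sum_const, nsmul_eq_mul]
      have hτ : ((dvs g).card : ℝ) ≤ Ct * P ^ (ε / 4) := by
        refine (Ht g hgp.ne_zero).trans ?_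
        gcongr
        exact hgL.trans hLP
      calc ((dvs g).card : ℝ) * (V * ((nm g : ℝ))⁻¹ * (100 * (1 + Real.log P)) ^ 2) ≤
          (Ct * P ^ (ε / 4)) * (V * ((nm g : ℝ))⁻¹ * (100 * (1 + Real.log P)) ^ 2) := by
            gcongr
        _ = _ := by ring
    refine (norm_sum_le _ _).trans ((Finset.sum_le_sum hg1).trans ?_)
    rw [← Finset.mul_sum]
    have h5 : ∑ g ∈ (S L).filter (fun g => L2 < (nm g : ℝ)), ((nm g : ℝ))⁻¹ ≤
        100 * (1 + Real.log P) :=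
      (Finset.sum_le_sum_of_subset_of_nonneg (Finset.filter_subset _ _)
        fun _ _ _ => by positivity).trans (sum_inv_S hL hP hLP)
    calc V * (Ct * P ^ (ε / 4)) * (100 * (1 + Real.log P)) ^ 2 *
        ∑ g ∈ (S L).filter (fun g => L2 < (nm g : ℝ)), ((nm g : ℝ))⁻¹ ≤
        V * (Ct * P ^ (ε / 4)) * (100 * (1 + Real.log P)) ^ 2 * (100 * (1 + Real.log P)) := by
          gcongr
      _ = _ := by ring
  refine (Finset.sum_le_sum hone).trans ?_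
  rw [Finset.sum_const, Finset.card_range, nsmul_eq_mul]
  have hl3 := Hl P hP
  have hPe : P ^ (ε / 4) * P ^ (ε / 4) * P ^ (ε / 4) ≤ P ^ ε := by
    rw [← Real.rpow_add hP0, ← Real.rpow_add hP0]
    exact Real.rpow_le_rpow_of_exponent_le hP (by linarith)
  calc (N : ℝ) * (V * (Ct * P ^ (ε / 4)) * (100 * (1 + Real.log P)) ^ 3) =
      N * (V * (Ct * P ^ (ε / 4)) * (100 ^ 3 * (1 + Real.log P) ^ 3)) := by ring
    _ ≤ N * (V * (Ct * P ^ (ε / 4)) * (100 ^ 3 * (Cl * P ^ (ε / 4)))) := by gcongr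
    _ = N * (C₁ * S₀ * (Ct * (100 ^ 3 * Cl))) * (P ^ (ε / 4) * P ^ (ε / 4) * P ^ (ε / 4)) * Z := by
        rw [hV]; ring
    _ ≤ N * (C₁ * S₀ * (Ct * (100 ^ 3 * Cl))) * P ^ ε * Z := by gcongr

end Crest.Agent.R017.Et813
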