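import Crest.Agent.R017.NEqA_83
import Crest.Agent.R017.NTe_813

/-!
# Row 17, FlatNE, the compensated tail (helper83), part B: all blocks

* `etb_le` : the cross sums of all pieces over the `k` with cube-free part `< K₁`, from the mean
  squares of the blocks
-/

set_option autoImplicit false
set_option linter.unusedVariables false

noncomputable section

open Complex MeasureTheory
open scoped ComplexConjugate Classical

namespace Crest.Agent.R017.NEq83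

open Crest.Agent.R012 Crest.Agent.R012.Eis Crest.Agent.R012.MC
open Crest.Agent.R012.LS2 (S mem_S)
open Crest.Agent.R017.X6C180 (n13 cM GF)
open Crest.Agent.R017.X6545 (TF Bd)
open Crest.Agent.R017.X6W180 (tf1_tf)
open Crest.Agent.R017.CM106 (CS FS)
open Crest.Agent.R017.C70 (JW OKJ okJ_JW CbF)
open Crest.Agent.R017.E2440 (TE StE StT TOK tok_TE Fh)
open Crest.Agent.R017.Ex385 (CrQ)
open Crest.Agent.R017.WDec180 (WD sc sc_pos)
open Crest.Agent.R017.CubP813 (Qc alr BX bx_of)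
open Crest.Agent.R017.Et404 (GFh_supp sc_le)
open Crest.Agent.R017.Et813 (wnd mem_wnd zero_CrQ_s sum_inv_S)
open Crest.Agent.R017.CubT90 (one_le_nmR)
open Crest.Agent.R017.Etc537 (Bk Bk_cube Bk_bd CrQ_blocks)

lemma exists_I {K₁ : ℝ} (hK₁ : 1 ≤ K₁) : ∃ I : ℕ, K₁ ≤ 2 ^ I ∧ ∀ i < I, (2 : ℝ) ^ i ≤ K₁ := by
  have hex : ∃ n : ℕ, K₁ ≤ 2 ^ n := (pow_unbounded_of_one_lt K₁ one_lt_two).imp fun n h => h.le
  refine ⟨Nat.find hex, Nat.find_spec hex, fun i hi => ?_⟩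
  exact (not_le.1 (Nat.find_min hex hi)).le

lemma I_log {K₁ Q : ℝ} {I : ℕ} (hQ1 : 1 ≤ Q) (hQ : K₁ ≤ Q) (h : ∀ i < I, (2 : ℝ) ^ i ≤ K₁) :
    (I : ℝ) ≤ 1 + 2 * Real.log Q := by
  have hq := Real.log_nonneg hQ1
  rcases Nat.eq_zero_or_pos I with h0 | h0
  · subst h0
    push_cast
    linarith
  · have h1 := h (I - 1) (by omega)
    have h2 : (0 : ℝ) < 2 ^ (I - 1) := by positivity
    have h3 : Real.log ((2 : ℝ) ^ (I - 1)) ≤ Real.log Q := Real.log_le_log h2 (h1.trans hQ)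
    rw [Real.log_pow] at h3
    have h4 : (1 / 2 : ℝ) ≤ Real.log 2 := by
      have := Real.log_two_gt_d9
      linarith
    have h5 : ((I - 1 : ℕ) : ℝ) = I - 1 := by
      rw [Nat.cast_sub h0]
      simp
    have h6 : (0 : ℝ) ≤ ((I - 1 : ℕ) : ℝ) := Nat.cast_nonneg _
    rw [h5] at h3 h6
    nlinarith

lemma fin_blk {c1 c2 b l Pm V : ℝ} (h1 : 0 ≤ c1) (h2 : 0 ≤ c2) (hb : 0 ≤ b) (hl : 0 ≤ l)
    (hPm : 0 ≤ Pm) (hV : 0 ≤ V) :
    c1 * Pm + c2 * (1 + b * l) * V ≤ (c1 + c2) * (1 + b) * (1 + l) * (Pm + V) := by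
  have e : (c1 + c2) * (1 + b) * (1 + l) * (Pm + V) - (c1 * Pm + c2 * (1 + b * l) * V) =
      c1 * (b + l + b * l) * Pm + c2 * (1 + b) * (1 + l) * Pm + c1 * (1 + b) * (1 + l) * V +
        c2 * (b + l) * V := by ring
  have : 0 ≤ c1 * (b + l + b * l) * Pm + c2 * (1 + b) * (1 + l) * Pm +
      c1 * (1 + b) * (1 + l) * V + c2 * (b + l) * V := by positivity
  linarith

set_option maxHeartbeats 1600000 in
/-- **all pieces, all blocks** -/
theorem etb_le {w : ℝ → ℝ} {N : ℕ} {M : ℝ} {F : ℕ → ℝ → ℂ} (hD : WD w N M F) {B ε : ℝ}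
    (hB : 0 ≤ B) (hε : 0 < ε) : ∃ C : ℝ, 0 ≤ C ∧
    ∀ (P K h E0 Y D Y₀ Y₁ K₁ V : ℝ) (A0 Rr Gr : ℝ → ℝ) (α : Eis → ℂ) (om : Eis × Eis → ℂ),
      1 ≤ P → 0 < K → 1 ≤ K₁ → 0 ≤ h → 0 ≤ E0 → 0 ≤ Y → 0 ≤ D → 0 ≤ Y₁ → 0 ≤ V →
      2 * K₁ ≤ P ^ B → Real.exp h ≤ P ^ B → E0 ≤ P ^ B → Y ≤ P ^ B → D ≤ P ^ B → Y₁ ≤ P ^ B →
      Real.exp (2 + N) * K ≤ P ^ B →
      (∀ z, 1 ≤ z → z ≤ K₁ → 0 ≤ A0 z ∧ A0 z ≤ P ^ B ∧
        (A0 z < 1 ∨ P ^ ε * Real.exp h * (2 * z * (A0 z * E0 * D) ^ 3) ≤ K * Real.exp (-M))) →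
      (∀ n, α n ≠ 0 → n ∈ S Y) → (∀ n, ‖α n‖ ≤ P ^ B) → (∀ x, ‖om x‖ ≤ 1) →
      (∀ z, 1 ≤ z → z ≤ K₁ → ∀ c, IsPrim c → z * (nm c : ℝ) ^ 3 ≤ Real.exp (2 + N) * K →
        ∑ k ∈ (wnd z (2 * z)).filter CbF, ‖StE E0 (JW D Y₀ Y₁) om α (c ^ 3 * k)‖ ^ 2 ≤ Gr z) →
      (∀ z, 1 ≤ z → z ≤ K₁ → ∀ a, IsPrim a → Squarefree a → A0 z < nm a →
        z * (nm a : ℝ) ^ 3 ≤ Real.exp (2 + N) * K →
        ∑ k ∈ (wnd z (2 * z)).filter CbF, ‖CS (alr α a 1) k‖ ^ 2 ≤ Rr z / nm a) →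
      (∀ z, 1 ≤ z → z ≤ K₁ → 0 ≤ Gr z ∧ 0 ≤ Rr z ∧
        (K / z) ^ (1 / 3 : ℝ) * (√(Rr z) * √(Gr z) * √((max 1 (A0 z))⁻¹)) ≤ V) →
      ∑ i ∈ Finset.range N, ‖CrQ (GF (Fh (F i) h)) (fun k => ¬ Qc K₁ k) (sc K M i) α
        (StE E0 (JW D Y₀ Y₁) om α)‖ ≤ C * (1 + Real.log P) ^ 2 * (P ^ (-B) + V) := by
  obtain ⟨Nd, C₁, hC₁, H₁⟩ := etn_le (B := B) (ε := ε) hB hε
  obtain ⟨S₀, hS0, hBd⟩ := hD.bd Nd
  obtain ⟨c₂, hc₂⟩ : ∃ c₂ : ℝ, c₂ = 200 * S₀ * Real.exp ((2 + N) / 3) * 100 := ⟨_, rfl⟩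
  have hc₂0 : 0 ≤ c₂ := by rw [hc₂]; positivity
  refine ⟨N * ((1 + 2 * B) * ((C₁ * S₀ + c₂) * (1 + B))), by positivity, ?_⟩
  intro P K h E0 Y D Y₀ Y₁ K₁ V A0 Rr Gr α om hP hK hK₁ hh hE0 hY hD0 hY1 hV0 hKP hhP hEP hYP hDP
    hY1P hKN hA0 hα hαB hom hGr hRr hV
  have hP0 : 0 < P := by linarith
  have hPB : 1 ≤ P ^ B := Real.one_le_rpow hP hB
  have hlP : 0 ≤ Real.log P := Real.log_nonneg hP
  have hlPB : Real.log (P ^ B) = B * Real.log P := Real.log_rpow hP0 B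
  obtain ⟨I, hI, hIi⟩ := exists_I hK₁
  have hIl : (I : ℝ) ≤ (1 + 2 * B) * (1 + Real.log P) := by
    have h1 := I_log (Q := P ^ B) hPB (by linarith : K₁ ≤ P ^ B) hIi
    rw [hlPB] at h1
    have h2 : 0 ≤ B * 1 := by linarith
    have h3 : 0 ≤ B * Real.log P := by positivity
    nlinarith
  obtain ⟨y, hy⟩ : ∃ y : ℕ → ℝ, y = fun i => min ((2 : ℝ) ^ i) K₁ := ⟨_, rfl⟩
  have hym : Monotone y := by
    intro i j hij
    rw [hy]
    exact min_le_min (pow_le_pow_right₀ one_le_two hij) le_rfl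
  have hyI : y I = K₁ := by rw [hy]; exact min_eq_right hI
  have hy0 : y 0 = 1 := by
    rw [hy]
    simp only [pow_zero]
    exact min_eq_left hK₁
  set X : ℕ := ⌈Real.exp (2 + N) * K⌉₊ with hX
  have hXκ : Real.exp (2 + N) * K ≤ X := Nat.le_ceil _
  obtain ⟨T, hT⟩ : ∃ T : ℝ, T = (C₁ * S₀ + c₂) * (1 + B) * (1 + Real.log P) * (P ^ (-B) + V) :=
    ⟨_, rfl⟩
  have hPm : 0 ≤ P ^ (-B) := by positivity
  have hT0 : 0 ≤ T := by rw [hT]; positivity
  have hone : ∀ i ∈ Finset.range N, ‖CrQ (GF (Fh (F i) h)) (fun k => ¬ Qc K₁ k) (sc K M i) α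
        (StE E0 (JW D Y₀ Y₁) om α)‖ ≤ (1 + 2 * B) * (1 + Real.log P) * T := by
    intro i hi
    have hFi := tf1_tf (hD.tf i)
    have hsc := sc_pos hK M i
    have hbd := hBd i (Finset.mem_range.1 hi)
    have hsle : sc K M i ≤ Real.exp N * K := sc_le hK hD.M0 hi
    have hsge : K * Real.exp (-M) ≤ sc K M i := by
      unfold WDec180.sc
      have : Real.exp (-M) ≤ Real.exp (i - M) := Real.exp_le_exp.mpr (by
        have : (0 : ℝ) ≤ i := Nat.cast_nonneg i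
        linarith)
      gcongr
    have hb : Real.exp 2 * sc K M i ≤ Real.exp (2 + N) * K := by
      rw [Real.exp_add, mul_assoc]
      gcongr
    have b1 : BX (GF (Fh (F i) h)) (sc K M i) X := by
      have := bx_of (U := GF (Fh (F i) h)) (GFh_supp hFi hh) hsc (hb.trans hXκ) le_rfl
      rwa [div_one] at this
    have h4 := CrQ_blocks b1 y hym α (StE E0 (JW D Y₀ Y₁) om α) I
    rw [hyI, hy0] at h4
    have h5 : CrQ (GF (Fh (F i) h)) (fun k => ¬ Qc 1 k) (sc K M i) α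
        (StE E0 (JW D Y₀ Y₁) om α) = 0 := by
      refine zero_CrQ_s _ _ _ _ _ fun k hk hq => ?_
      exfalso
      obtain ⟨j, c, hj, hc, hf, rfl⟩ := E5b54.exists_cf_prim hk
      exact hq ⟨j, c, hj, hc, hf, rfl, one_le_nmR hj.ne_zero⟩
    rw [h5, zero_add] at h4
    rw [h4]
    have hblk : ∀ n ∈ Finset.range I, ‖CrQ (GF (Fh (F i) h)) (Bk (y n) (y (n + 1))) (sc K M i) α
        (StE E0 (JW D Y₀ Y₁) om α)‖ ≤ T := by
      intro n hn
      have hn' := Finset.mem_range.1 hn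
      obtain ⟨z, hz⟩ : ∃ z : ℝ, z = 2 ^ n := ⟨_, rfl⟩
      have hz1 : 1 ≤ z := by rw [hz]; exact one_le_pow₀ one_le_two
      have hz0 : 0 < z := by linarith
      have hzK : z ≤ K₁ := by rw [hz]; exact hIi n hn'
      have hyn : y n = z := by rw [hy, hz]; exact min_eq_left (hIi n hn')
      have hyn1 : y (n + 1) ≤ 2 * z := by
        rw [hy, hz]
        refine (min_le_left _ _).trans (le_of_eq ?_)
        rw [pow_succ]; ring
      obtain ⟨a1, a2, a3⟩ := hA0 z hz1 hzK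
      obtain ⟨v1, v2, v3⟩ := hV z hz1 hzK
      obtain ⟨G, hG⟩ : ∃ G : ℝ, G = (Real.exp (2 + N) * K / z) ^ (1 / 3 : ℝ) := ⟨_, rfl⟩
      have hG0 : 0 ≤ G := by rw [hG]; positivity
      have hG3 : z * G ^ 3 = Real.exp (2 + N) * K := by
        rw [hG, ← Real.rpow_natCast, ← Real.rpow_mul (by positivity)]
        norm_num
        field_simp
      have hGP : G ≤ P ^ B := by
        have h1 : Real.exp (2 + N) * K / z ≤ P ^ B := (div_le_self (by positivity) hz1).trans hKN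
        calc G ≤ (P ^ B) ^ (1 / 3 : ℝ) := by
              rw [hG]
              exact Real.rpow_le_rpow (by positivity) h1 (by norm_num)
          _ ≤ (P ^ B) ^ (1 : ℝ) := Real.rpow_le_rpow_of_exponent_le hPB (by norm_num)
          _ = P ^ B := Real.rpow_one _
      have h6 := H₁ (F i) S₀ hFi hbd P (sc K M i) z (2 * z) h E0 G (A0 z) Y D Y₀ Y₁ (Gr z)
        (Bk (y n) (y (n + 1))) α om hP hsc hz0 (by linarith) hh hE0 hG0 a1 hY hD0 hY1 v1
        (by linarith) hhP hEP a2 hYP hDP hY1P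
        (a3.imp id fun h => h.trans hsge) (by rw [hG3]; exact hb)
        (fun k c hk hc => Bk_cube k c hk hc)
        (fun k hk hc hq => by
          obtain ⟨q1, q2⟩ := Bk_bd k hk hc hq
          rw [hyn] at q1
          exact ⟨q1, q2.trans hyn1⟩) hα hαB hom
        (fun c hc hcz => hGr z hz1 hzK c hc (hcz.trans hb))
      refine h6.trans ?_
      have h7 : ∑ a ∈ (S G).filter (fun a => A0 z < (nm a : ℝ)), (nm a : ℝ)⁻¹ *
          (√(∑ k ∈ (wnd z (2 * z)).filter CbF, ‖CS (alr α a 1) k‖ ^ 2) * √(Gr z)) ≤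
          √(Rr z) * √(Gr z) * √((max 1 (A0 z))⁻¹) * (100 * (1 + Real.log (P ^ B))) := by
        have h8 : ∀ a ∈ (S G).filter (fun a => A0 z < (nm a : ℝ)), (nm a : ℝ)⁻¹ *
            (√(∑ k ∈ (wnd z (2 * z)).filter CbF, ‖CS (alr α a 1) k‖ ^ 2) * √(Gr z)) ≤
            √(Rr z) * √(Gr z) * √((max 1 (A0 z))⁻¹) * (nm a : ℝ)⁻¹ := by
          intro a ha
          rw [Finset.mem_filter, mem_S hG0] at ha
          obtain ⟨⟨g1, g2, g3⟩, g4⟩ := ha
          have ha1 := one_le_nmR g2.ne_zero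
          have ha0 : (0 : ℝ) < nm a := by linarith
          have h9 := hRr z hz1 hzK a g2 g3 g4 (by rw [← hG3]; gcongr)
          have hm1 : (1 : ℝ) ≤ max 1 (A0 z) := le_max_left _ _
          have h10 : √(∑ k ∈ (wnd z (2 * z)).filter CbF, ‖CS (alr α a 1) k‖ ^ 2) ≤
              √(Rr z) * √((max 1 (A0 z))⁻¹) := by
            rw [← Real.sqrt_mul v2]
            refine Real.sqrt_le_sqrt (h9.trans ?_)
            rw [div_eq_mul_inv]
            refine mul_le_mul_of_nonneg_left (inv_anti₀ (by linarith) ?_) v2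
            exact max_le ha1 g4.le
          calc _ ≤ (nm a : ℝ)⁻¹ * ((√(Rr z) * √((max 1 (A0 z))⁻¹)) * √(Gr z)) := by gcongr
            _ = _ := by ring
        refine (Finset.sum_le_sum h8).trans ?_
        rw [← Finset.mul_sum]
        refine mul_le_mul_of_nonneg_left ?_ (by positivity)
        exact (Finset.sum_le_sum_of_subset_of_nonneg (Finset.filter_subset _ _)
          fun _ _ _ => by positivity).trans (sum_inv_S hG0 hPB hGP)
      have h8 : (Real.exp 2 * sc K M i / z) ^ (1 / 3 : ℝ) ≤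
          Real.exp ((2 + N) / 3) * (K / z) ^ (1 / 3 : ℝ) := by
        have e1 : Real.exp ((2 + N) / 3) = (Real.exp (2 + N)) ^ (1 / 3 : ℝ) := by
          rw [← Real.exp_mul]
          congr 1
          ring
        rw [e1, ← Real.mul_rpow (by positivity) (by positivity)]
        refine Real.rpow_le_rpow (by positivity) ?_ (by norm_num)
        rw [← mul_div_assoc]
        gcongr
      have hs0 : 0 ≤ √(Rr z) * √(Gr z) * √((max 1 (A0 z))⁻¹) := by positivity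
      have hsum0 : 0 ≤ ∑ a ∈ (S G).filter (fun a => A0 z < (nm a : ℝ)), (nm a : ℝ)⁻¹ *
          (√(∑ k ∈ (wnd z (2 * z)).filter CbF, ‖CS (alr α a 1) k‖ ^ 2) * √(Gr z)) :=
        Finset.sum_nonneg fun a _ => by positivity
      have e9 := mul_le_mul (mul_le_mul_of_nonneg_left h8 (by positivity : 0 ≤ 200 * S₀)) h7 hsum0
        (by positivity)
      refine (add_le_add le_rfl e9).trans ?_
      have e10 : 200 * S₀ * (Real.exp ((2 + N) / 3) * (K / z) ^ (1 / 3 : ℝ)) *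
            (√(Rr z) * √(Gr z) * √((max 1 (A0 z))⁻¹) * (100 * (1 + Real.log (P ^ B)))) =
          c₂ * (1 + B * Real.log P) * ((K / z) ^ (1 / 3 : ℝ) *
            (√(Rr z) * √(Gr z) * √((max 1 (A0 z))⁻¹))) := by
        rw [hlPB, hc₂]; ring
      rw [e10]
      have e11 := mul_le_mul_of_nonneg_left v3
        (by positivity : 0 ≤ c₂ * (1 + B * Real.log P))
      refine (add_le_add le_rfl e11).trans ?_
      rw [hT]
      exact fin_blk (by positivity) hc₂0 hB hlP hPm hV0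
    refine (norm_sum_le _ _).trans ((Finset.sum_le_sum hblk).trans ?_)
    rw [Finset.sum_const, Finset.card_range, nsmul_eq_mul]
    exact mul_le_mul_of_nonneg_right hIl hT0
  refine (Finset.sum_le_sum hone).trans (le_of_eq ?_)
  rw [Finset.sum_const, Finset.card_range, nsmul_eq_mul, hT]
  ring

end Crest.Agent.R017.NEq83
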