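import Crest.Agent.R017.NEqB_83

/-!
# Row 17, FlatNE, the compensated tail (helper83), part C: the number at the near leaf, class-free

* `neq_in` : the sum over the pieces from the mean squares of the dyadic blocks of frequencies
-/

set_option autoImplicit false
set_option linter.unusedVariables false

noncomputable section

open Complex MeasureTheory
open scoped ComplexConjugate Classical

namespace Crest.Agent.R017.NEq83

open Crest.Agent.R012 Crest.Agent.R012.Eis Crest.Agent.R012.MC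
open Crest.Agent.R012.LS2 (S mem_S)
open Crest.Agent.R017.X6C180 (n13 cM GF)
open Crest.Agent.R017.X6545 (TF Bd)
open Crest.Agent.R017.X6W180 (tf1_tf)
open Crest.Agent.R017.CM106 (CS FS)
open Crest.Agent.R017.C70 (JW OKJ okJ_JW CbF)
open Crest.Agent.R017.E2440 (TE StE StT TOK tok_TE Fh)
open Crest.Agent.R017.Ex385 (CrQ)
open Crest.Agent.R017.E3M829 (Cut)
open Crest.Agent.R017.WDec180 (WD sc sc_pos)
open Crest.Agent.R017.CubP813 (Qc Qc_cut alr BX bx_of)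
open Crest.Agent.R017.Et404 (GFh_supp sc_le)
open Crest.Agent.R017.Et813 (wnd mem_wnd zero_CrQ_s sum_inv_S)
open Crest.Agent.R017.CubT90 (one_le_nmR)

/-- `¬ (Qc ∧ Cut)` is `¬ Qc` on the support -/
lemma CrQ_qcut {U : ℝ → ℂ} {κ K₁ E1 b : ℝ} (hκ : 0 < κ) (hU : ∀ x, U x ≠ 0 → x ≤ b)
    (hK₁ : 0 < K₁) (hE : 0 ≤ E1) (hb : b * κ ≤ K₁ * E1 ^ 3) (α u : Eis → ℂ) :
    CrQ U (fun k => ¬ (Qc K₁ k ∧ Cut E1 k)) κ α u = CrQ U (fun k => ¬ Qc K₁ k) κ α u := by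
  unfold Ex385.CrQ
  refine tsum_congr fun k => ?_
  by_cases h0 : U ((nm k : ℝ) / κ) = 0
  · simp [h0]
  · have h1 : (nm k : ℝ) ≤ K₁ * E1 ^ 3 := by
      have := hU _ h0
      rw [div_le_iff₀ hκ] at this
      linarith
    have h2 : (¬ (Qc K₁ k ∧ Cut E1 k)) ↔ ¬ Qc K₁ k := by
      constructor
      · intro h hq
        exact h ⟨hq, Qc_cut hK₁ hq hE h1⟩
      · intro h hq
        exact h hq.1
    by_cases h3 : IsPrim k ∧ ¬ Qc K₁ k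
    · rw [if_pos h3, if_pos ⟨h3.1, h2.2 h3.2⟩]
    · rw [if_neg h3, if_neg (fun h4 => h3 ⟨h4.1, h2.1 h4.2⟩)]

/-- the removed length -/
def a0 (K κ φβ lD c : ℝ) : ℝ := max 0 ((K - κ) / 3 - φβ - lD - c)

lemma a0_nonneg (K κ φβ lD c : ℝ) : 0 ≤ a0 K κ φβ lD c := le_max_left _ _

/-- the threshold -/
def thr (X a : ℝ) : ℝ := if 0 < a then X ^ a else 1 / 2

lemma max_thr {X a : ℝ} (hX : 1 ≤ X) (ha : 0 ≤ a) : max 1 (thr X a) = X ^ a := by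
  unfold thr
  split_ifs with h
  · exact max_eq_right (Real.one_le_rpow hX ha)
  · have : a = 0 := le_antisymm (not_lt.1 h) ha
    rw [this, Real.rpow_zero]
    norm_num

lemma log_le_thr {X a n : ℝ} (hX : 1 < X) (ha : 0 ≤ a) (hn : 1 ≤ n) (h : thr X a < n) :
    a ≤ Real.log n / Real.log X := by
  have hl := Real.log_pos hX
  unfold thr at h
  split_ifs at h with h1
  · rw [le_div_iff₀ hl, ← Real.log_rpow (by linarith)]
    exact (Real.log_le_log (Real.rpow_pos_of_pos (by linarith) _) h.le)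
  · have : a = 0 := le_antisymm (not_lt.1 h1) ha
    rw [this]
    exact div_nonneg (Real.log_nonneg hn) hl.le

lemma rpow_kz {X z : ℝ} (hX : 1 < X) (hz : 0 < z) : X ^ (Real.log z / Real.log X) = z := by
  have hl := Real.log_pos hX
  rw [Real.rpow_def_of_pos (by linarith), mul_div_cancel₀ _ hl.ne', Real.exp_log hz]

lemma sqrt_VX {V X x : ℝ} (hV : 0 ≤ V) (hX : 0 < X) : √(V * X ^ x) = √V * X ^ (x / 2) := by
  rw [Real.sqrt_mul hV, Real.sqrt_eq_rpow (X ^ x), ← Real.rpow_mul hX.le]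
  congr 2
  ring

/-- the final exponent -/
lemma fin_V {V X K κ T G a z : ℝ} (hV : 0 ≤ V) (hX : 1 < X) (hz : X ^ κ = z)
    (h : (K - κ) / 3 + (T + G) / 2 - K - a / 2 ≤ 0) :
    (X ^ K / z) ^ (1 / 3 : ℝ) * (√(V * X ^ (T - K)) * √(V * X ^ (G - K)) * √((X ^ a)⁻¹)) ≤ V := by
  have hX0 : 0 < X := by linarith
  have e1 : X ^ K / z = X ^ (K - κ) := by rw [← hz, Real.rpow_sub hX0]
  have e2 : √((X ^ a)⁻¹) = X ^ (-a / 2) := by
    rw [← Real.rpow_neg hX0.le, Real.sqrt_eq_rpow, ← Real.rpow_mul hX0.le]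
    congr 1
    ring
  rw [e1, ← Real.rpow_mul hX0.le, sqrt_VX hV hX0, sqrt_VX hV hX0, e2]
  have e3 : X ^ ((K - κ) * (1 / 3)) * (√V * X ^ ((T - K) / 2) * (√V * X ^ ((G - K) / 2)) *
      X ^ (-a / 2)) = (√V * √V) * X ^ ((K - κ) / 3 + (T + G) / 2 - K - a / 2) := by
    have : (K - κ) / 3 + (T + G) / 2 - K - a / 2 =
      (K - κ) * (1 / 3) + (T - K) / 2 + (G - K) / 2 + (-a / 2) := by ring
    rw [this, Real.rpow_add hX0, Real.rpow_add hX0, Real.rpow_add hX0]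
    ring
  rw [e3, Real.mul_self_sqrt hV]
  calc V * X ^ ((K - κ) / 3 + (T + G) / 2 - K - a / 2) ≤ V * X ^ (0 : ℝ) :=
        mul_le_mul_of_nonneg_left (Real.rpow_le_rpow_of_exponent_le hX.le h) hV
    _ = V := by rw [Real.rpow_zero, mul_one]

lemma log_sq_le {X ε : ℝ} (hX : 1 ≤ X) (hε : 0 < ε) :
    (1 + Real.log X) ^ 2 ≤ (1 + 2 / ε) ^ 2 * X ^ ε := by
  have hX0 : 0 < X := by linarith
  have h1 : Real.log X ≤ X ^ (ε / 2) / (ε / 2) := Real.log_le_rpow_div hX0.le (by positivity)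
  have h2 : 1 ≤ X ^ (ε / 2) := Real.one_le_rpow hX (by positivity)
  have h3 : 1 + Real.log X ≤ (1 + 2 / ε) * X ^ (ε / 2) := by
    have : X ^ (ε / 2) / (ε / 2) = 2 / ε * X ^ (ε / 2) := by field_simp
    rw [this] at h1
    nlinarith
  have h4 : 0 ≤ 1 + Real.log X := by
    have := Real.log_nonneg hX
    linarith
  calc (1 + Real.log X) ^ 2 ≤ ((1 + 2 / ε) * X ^ (ε / 2)) ^ 2 := pow_le_pow_left₀ h4 h3 2
    _ = (1 + 2 / ε) ^ 2 * X ^ ε := by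
        rw [mul_pow, ← Real.rpow_natCast (X ^ (ε / 2)) 2, ← Real.rpow_mul hX0.le]
        congr 2
        push_cast
        ring

/-- the tiny condition -/
lemma tiny_ok {X K κ φ₀ φβ lD c D M z a : ℝ} (hX : 1 < X) (hz : X ^ κ = z)
    (ha : a = (K - κ) / 3 - φβ - lD - c) (hD0 : 0 ≤ D) (hD : D ≤ X ^ lD)
    (hM : 2 * Real.exp M ≤ X ^ (2 * c)) :
    X ^ c * Real.exp (3 * Real.log (X ^ φβ / X ^ φ₀)) * (2 * z * (X ^ a * X ^ φ₀ * D) ^ 3) ≤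
      X ^ K * Real.exp (-M) := by
  have hX0 : 0 < X := by linarith
  have e1 : Real.exp (3 * Real.log (X ^ φβ / X ^ φ₀)) = X ^ (3 * (φβ - φ₀)) := by
    rw [← Real.rpow_sub hX0, Real.log_rpow hX0, Real.rpow_def_of_pos hX0]
    congr 1
    ring
  have h3 : (X ^ a * X ^ φ₀ * D) ^ 3 ≤ (X ^ a * X ^ φ₀ * X ^ lD) ^ 3 := by
    have : 0 ≤ X ^ a * X ^ φ₀ := by positivity
    gcongr
  have e2 : (X ^ a * X ^ φ₀ * X ^ lD) ^ 3 = X ^ (3 * (a + φ₀ + lD)) := by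
    rw [← Real.rpow_add hX0, ← Real.rpow_add hX0, ← Real.rpow_natCast, ← Real.rpow_mul hX0.le]
    congr 1
    push_cast
    ring
  have e3 : X ^ c * X ^ (3 * (φβ - φ₀)) * (2 * z * X ^ (3 * (a + φ₀ + lD))) =
      2 * X ^ (K - 2 * c) := by
    rw [← hz]
    have : K - 2 * c = c + 3 * (φβ - φ₀) + κ + 3 * (a + φ₀ + lD) := by rw [ha]; ring
    rw [this, Real.rpow_add hX0, Real.rpow_add hX0, Real.rpow_add hX0]
    ring
  have hz0 : 0 < z := by rw [← hz]; exact Real.rpow_pos_of_pos hX0 _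
  have h4 : 2 * X ^ (K - 2 * c) ≤ X ^ K * Real.exp (-M) := by
    rw [Real.rpow_sub hX0, Real.exp_neg]
    have h5 : 0 < X ^ (2 * c) := Real.rpow_pos_of_pos hX0 _
    have h6 : 0 < Real.exp M := Real.exp_pos _
    have h7 : 0 < X ^ K := Real.rpow_pos_of_pos hX0 _
    rw [← mul_div_assoc, div_le_iff₀ h5]
    have h8 : X ^ K * (Real.exp M)⁻¹ * X ^ (2 * c) ≥ X ^ K * (Real.exp M)⁻¹ * (2 * Real.exp M) :=
      mul_le_mul_of_nonneg_left hM (by positivity)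
    have h9 : X ^ K * (Real.exp M)⁻¹ * (2 * Real.exp M) = 2 * X ^ K := by
      field_simp
    linarith
  calc _ ≤ X ^ c * X ^ (3 * (φβ - φ₀)) * (2 * z * (X ^ a * X ^ φ₀ * X ^ lD) ^ 3) := by
        rw [e1]
        gcongr
    _ = 2 * X ^ (K - 2 * c) := by rw [e2, e3]
    _ ≤ _ := h4

set_option maxHeartbeats 1600000 in
/-- **the number of the compensated tail**, class-free; the mean squares of the rough term only up
to `K₁ = C₀ K / E1³` -/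
theorem neq_in2 {w : ℝ → ℝ} {N : ℕ} {M : ℝ} {F : ℕ → ℝ → ℂ} (hD : WD w N M F)
    {K c C₀ Bs ε : ℝ} (hK : 0 ≤ K) (hc : 0 < c) (hC₀ : Real.exp (2 + N) ≤ C₀) (hBs : 0 ≤ Bs)
    (hε : 0 < ε) : ∃ C X₁ : ℝ, 0 ≤ C ∧
    ∀ (X φ₀ φ₁ φβ lD D Y Y₀ Y₁ V : ℝ) (T : ℝ → ℝ → ℝ) (Gx : ℝ → ℝ) (be : Eis → ℂ)
      (om : Eis × Eis → ℂ), 3 ≤ X → X₁ ≤ X → 0 ≤ φ₀ → φ₀ ≤ φβ → φβ ≤ Bs → 3 * φ₁ ≤ K →
      0 ≤ φ₁ → 0 ≤ lD → lD ≤ Bs → 0 ≤ D → D ≤ X ^ lD → 0 ≤ Y → Y ≤ X ^ Bs → 0 ≤ Y₁ → Y₁ ≤ X ^ Bs →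
      (∀ n, be n ≠ 0 → n ∈ S Y) → (∀ n, ‖be n‖ ≤ X ^ Bs) → (∀ x, ‖om x‖ ≤ 1) →
      0 ≤ V → X ^ (-Bs) ≤ V →
      (∀ κ a a', a' ≤ a → T κ a ≤ T κ a') →
      (∀ κ, 0 ≤ κ → κ ≤ K - 3 * φ₁ + c → (K - κ) / 3 +
        (T κ (a0 K κ φβ lD c) + Gx κ) / 2 - K - a0 K κ φβ lD c / 2 ≤ 0) →
      (∀ κ, 0 ≤ κ → κ ≤ K - 3 * φ₁ + c → ∀ a, IsPrim a → Squarefree a →
        X ^ κ * (nm a : ℝ) ^ 3 ≤ Real.exp (2 + N) * X ^ K → ∀ A : Finset Eis,
        (∀ k ∈ A, IsPrim k ∧ CbF k ∧ X ^ κ ≤ nm k ∧ (nm k : ℝ) ≤ 2 * X ^ κ) →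
        ∑ k ∈ A, ‖CS (alr be a 1) k‖ ^ 2 ≤
          V * (X ^ (T κ (Real.log (nm a) / Real.log X) - K) / nm a)) →
      (∀ κ, 0 ≤ κ → κ ≤ K - 3 * φ₁ + c → X ^ κ ≤ C₀ * X ^ K / (X ^ φ₁) ^ 3 → ∀ e, IsPrim e →
        X ^ κ * (nm e : ℝ) ^ 3 ≤ Real.exp (2 + N) * X ^ K →
        ∑ k ∈ (wnd (X ^ κ) (2 * X ^ κ)).filter CbF,
          ‖StE (X ^ φ₀) (JW D Y₀ Y₁) om be (e ^ 3 * k)‖ ^ 2 ≤ V * X ^ (Gx κ - K)) →
      ∑ i ∈ Finset.range N, ‖CrQ (GF (Fh (F i) (3 * Real.log (X ^ φβ / X ^ φ₀))))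
        (fun k => ¬ (Qc (C₀ * X ^ K / (X ^ φ₁) ^ 3) k ∧ Cut (X ^ φ₁) k)) (sc (X ^ K) M i) be
        (StE (X ^ φ₀) (JW D Y₀ Y₁) om be)‖ ≤ C * X ^ ε * V := by
  obtain ⟨B, hB⟩ : ∃ B : ℝ, B = 3 * Bs + K + 1 := ⟨_, rfl⟩
  have hB0 : 0 ≤ B := by rw [hB]; positivity
  obtain ⟨C, hC, H⟩ := etb_le hD hB0 hc
  have hC₀0 : 0 < C₀ := lt_of_lt_of_le (Real.exp_pos _) hC₀
  have hM2 : 0 < 2 * Real.exp M := by positivity
  refine ⟨C * (1 + 2 / ε) ^ 2 * 2, max (2 * C₀) (max (C₀ ^ (1 / c)) ((2 * Real.exp M) ^ (1 / (2 * c)))),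
    by positivity, ?_⟩
  intro X φ₀ φ₁ φβ lD D Y Y₀ Y₁ V T Gx be om hX3 hX1 h0 h0β hβs h1K h1 hl0 hls hD0 hDl hY hYs hY1 hY1s
    hbe hbe' hom hV hVs hT hline hR hG
  have hX0 : 0 < X := by linarith
  have hX : 1 < X := by linarith
  have hlX : 0 < Real.log X := Real.log_pos hX
  have hXa : 2 * C₀ ≤ X := (le_max_left _ _).trans hX1
  have hXb : C₀ ≤ X ^ c := by
    have h := ((le_max_left _ _).trans (le_max_right _ _)).trans hX1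
    calc C₀ = (C₀ ^ (1 / c)) ^ c := by
          rw [← Real.rpow_mul hC₀0.le, one_div_mul_cancel hc.ne', Real.rpow_one]
      _ ≤ X ^ c := Real.rpow_le_rpow (by positivity) h hc.le
  have hXc : 2 * Real.exp M ≤ X ^ (2 * c) := by
    have h := ((le_max_right _ _).trans (le_max_right _ _)).trans hX1
    calc 2 * Real.exp M = ((2 * Real.exp M) ^ (1 / (2 * c))) ^ (2 * c) := by
          rw [← Real.rpow_mul hM2.le, one_div_mul_cancel (by positivity), Real.rpow_one]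
      _ ≤ X ^ (2 * c) := Real.rpow_le_rpow (by positivity) h (by positivity)
  have hXe : ∀ {a b : ℝ}, a ≤ b → X ^ a ≤ X ^ b := fun h =>
    Real.rpow_le_rpow_of_exponent_le hX.le h
  have hXp : ∀ a : ℝ, 0 < X ^ a := fun a => Real.rpow_pos_of_pos hX0 a
  have hBsB : Bs ≤ B := by rw [hB]; linarith
  have hN1 : (1 : ℝ) ≤ Real.exp (2 + N) := Real.one_le_exp (by positivity)
  -- sizes
  obtain ⟨K₁, hK₁⟩ : ∃ K₁ : ℝ, K₁ = C₀ * X ^ K / (X ^ φ₁) ^ 3 := ⟨_, rfl⟩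
  have hK₁e : K₁ = C₀ * X ^ (K - 3 * φ₁) := by
    rw [hK₁, Real.rpow_sub hX0, ← Real.rpow_natCast (X ^ φ₁), ← Real.rpow_mul hX0.le, mul_div_assoc]
    congr 3
    push_cast
    ring
  have hK₁1 : 1 ≤ K₁ := by
    rw [hK₁e]
    have : 1 ≤ X ^ (K - 3 * φ₁) := Real.one_le_rpow hX.le (by linarith)
    nlinarith [hN1.trans hC₀]
  have hK₁b : 2 * K₁ ≤ X ^ B := by
    have e1 : X ^ (K - 3 * φ₁) ≤ X ^ K := hXe (by linarith)
    calc 2 * K₁ = (2 * C₀) * X ^ (K - 3 * φ₁) := by rw [hK₁e]; ring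
      _ ≤ X * X ^ K := by
          have := hXp (K - 3 * φ₁)
          gcongr
      _ = X ^ (1 + K) := by rw [Real.rpow_add hX0, Real.rpow_one]
      _ ≤ X ^ B := hXe (by rw [hB]; linarith)
  obtain ⟨h, hh⟩ : ∃ h : ℝ, h = 3 * Real.log (X ^ φβ / X ^ φ₀) := ⟨_, rfl⟩
  have hhe : h = 3 * ((φβ - φ₀) * Real.log X) := by
    rw [hh, ← Real.rpow_sub hX0, Real.log_rpow hX0]
  have hh0 : 0 ≤ h := by
    rw [hhe]
    have : 0 ≤ φβ - φ₀ := by linarith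
    positivity
  have heh : Real.exp h ≤ X ^ B := by
    have e1 : Real.exp h = X ^ (3 * (φβ - φ₀)) := by
      rw [hhe, Real.rpow_def_of_pos hX0]
      congr 1
      ring
    rw [e1]
    exact hXe (by rw [hB]; linarith)
  have hKN : Real.exp (2 + N) * X ^ K ≤ X ^ B := by
    calc Real.exp (2 + N) * X ^ K ≤ X * X ^ K := by
          have := hXp K
          have h2 : Real.exp (2 + N) ≤ X := by linarith
          gcongr
      _ = X ^ (1 + K) := by rw [Real.rpow_add hX0, Real.rpow_one]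
      _ ≤ X ^ B := hXe (by rw [hB]; linarith)
  have hkz : ∀ z, 1 ≤ z → z ≤ K₁ → 0 ≤ Real.log z / Real.log X ∧
      Real.log z / Real.log X ≤ K - 3 * φ₁ + c ∧ X ^ (Real.log z / Real.log X) = z := by
    intro z hz hzK
    have hz0 : 0 < z := by linarith
    refine ⟨div_nonneg (Real.log_nonneg hz) hlX.le, ?_, rpow_kz hX hz0⟩
    rw [div_le_iff₀ hlX]
    have e1 : z ≤ X ^ (K - 3 * φ₁ + c) := by
      rw [Real.rpow_add hX0]
      rw [hK₁e] at hzK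
      have := hXp (K - 3 * φ₁)
      nlinarith
    calc Real.log z ≤ Real.log (X ^ (K - 3 * φ₁ + c)) := Real.log_le_log hz0 e1
      _ = _ := Real.log_rpow hX0 _
  obtain ⟨κ, hκ⟩ : ∃ κ : ℝ → ℝ, κ = fun z => Real.log z / Real.log X := ⟨_, rfl⟩
  have hkz' : ∀ z, 1 ≤ z → z ≤ K₁ → 0 ≤ κ z ∧ κ z ≤ K - 3 * φ₁ + c ∧ X ^ κ z = z := by
    rw [hκ]
    exact hkz
  obtain ⟨ad, had⟩ : ∃ ad : ℝ → ℝ, ad = fun z => a0 K (κ z) φβ lD c := ⟨_, rfl⟩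
  have had0 : ∀ z, 0 ≤ ad z := fun z => by rw [had]; exact a0_nonneg _ _ _ _ _
  have key := H X (X ^ K) h (X ^ φ₀) Y D Y₀ Y₁ K₁ V (fun z => thr X (ad z))
    (fun z => V * X ^ (T (κ z) (ad z) - K)) (fun z => V * X ^ (Gx (κ z) - K)) be om hX.le (hXp K)
    hK₁1 hh0 (hXp φ₀).le hY hD0 hY1 hV hK₁b heh (hXe (by linarith)) (hYs.trans (hXe hBsB))
    (hDl.trans (hXe (by linarith))) (hY1s.trans (hXe hBsB)) hKN
    (by
      intro z hz hzK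
      obtain ⟨k0, k1, k2⟩ := hkz' z hz hzK
      have hadK : ad z ≤ K := by
        rw [had]
        refine max_le hK ?_
        have : φβ ≥ 0 := by linarith
        linarith
      have hadB : X ^ ad z ≤ X ^ B := hXe (by rw [hB]; linarith)
      refine ⟨?_, ?_, ?_⟩
      · show 0 ≤ thr X (ad z)
        unfold thr
        split_ifs
        · exact (hXp _).le
        · norm_num
      · show thr X (ad z) ≤ X ^ B
        unfold thr
        split_ifs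
        · exact hadB
        · have : 1 ≤ X ^ B := Real.one_le_rpow hX.le hB0
          linarith
      · show thr X (ad z) < 1 ∨ X ^ c * Real.exp h * (2 * z * (thr X (ad z) * X ^ φ₀ * D) ^ 3) ≤
          X ^ K * Real.exp (-M)
        unfold thr
        split_ifs with hp
        · right
          rw [hh]
          refine tiny_ok hX k2 ?_ hD0 hDl hXc
          have e1 : ad z = max 0 ((K - κ z) / 3 - φβ - lD - c) := by rw [had]; rfl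
          rw [e1] at hp ⊢
          rcases max_choice 0 ((K - κ z) / 3 - φβ - lD - c) with h3 | h3
          · rw [h3] at hp
            exact absurd hp (lt_irrefl _)
          · exact h3
        · left
          norm_num)
    hbe (fun n => (hbe' n).trans (hXe hBsB)) hom
    (by
      intro z hz hzK e he hze
      obtain ⟨k0, k1, k2⟩ := hkz' z hz hzK
      have := hG (κ z) k0 k1 (by rw [k2, ← hK₁]; exact hzK) e he (by rw [k2]; exact hze)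
      rw [k2] at this
      exact this)
    (by
      intro z hz hzK a ha hsq haA haz
      obtain ⟨k0, k1, k2⟩ := hkz' z hz hzK
      have hna : 1 ≤ (nm a : ℝ) := one_le_nmR ha.ne_zero
      have h4 := hR (κ z) k0 k1 a ha hsq (by rw [k2]; exact haz) ((wnd z (2 * z)).filter CbF)
        (by
          intro k hk
          rw [Finset.mem_filter, mem_wnd (by linarith)] at hk
          rw [k2]
          exact ⟨hk.1.1, hk.2, hk.1.2.1, hk.1.2.2⟩)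
      refine h4.trans ?_
      show V * (X ^ (T (κ z) (Real.log (nm a) / Real.log X) - K) / nm a) ≤
        V * X ^ (T (κ z) (ad z) - K) / nm a
      rw [← mul_div_assoc]
      have h5 := hT (κ z) _ _ (log_le_thr hX (had0 z) hna haA)
      gcongr
      exact hX.le)
    (by
      intro z hz hzK
      obtain ⟨k0, k1, k2⟩ := hkz' z hz hzK
      refine ⟨mul_nonneg hV (hXp _).le, mul_nonneg hV (hXp _).le, ?_⟩
      show (X ^ K / z) ^ (1 / 3 : ℝ) * (√(V * X ^ (T (κ z) (ad z) - K)) *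
        √(V * X ^ (Gx (κ z) - K)) * √((max 1 (thr X (ad z)))⁻¹)) ≤ V
      rw [max_thr hX.le (had0 z)]
      refine fin_V hV hX k2 ?_
      have := hline (κ z) k0 k1
      rw [had]
      exact this)
  have hcut : ∀ i ∈ Finset.range N, CrQ (GF (Fh (F i) h)) (fun k => ¬ (Qc K₁ k ∧ Cut (X ^ φ₁) k))
      (sc (X ^ K) M i) be (StE (X ^ φ₀) (JW D Y₀ Y₁) om be) =
      CrQ (GF (Fh (F i) h)) (fun k => ¬ Qc K₁ k) (sc (X ^ K) M i) be
      (StE (X ^ φ₀) (JW D Y₀ Y₁) om be) := by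
    intro i hi
    refine CrQ_qcut (sc_pos (hXp K) M i) (GFh_supp (tf1_tf (hD.tf i)) hh0)
      (by linarith) (hXp φ₁).le ?_ _ _
    have e1 : K₁ * (X ^ φ₁) ^ 3 = C₀ * X ^ K := by
      rw [hK₁]
      have := hXp φ₁
      field_simp
    rw [e1]
    have h2 := sc_le (hXp K) hD.M0 hi (M := M)
    calc Real.exp 2 * sc (X ^ K) M i ≤ Real.exp 2 * (Real.exp N * X ^ K) := by gcongr
      _ = Real.exp (2 + N) * X ^ K := by rw [Real.exp_add]; ring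
      _ ≤ C₀ * X ^ K := by
          have := hXp K
          gcongr
  rw [← hh, ← hK₁]
  rw [Finset.sum_congr rfl fun i hi => by rw [hcut i hi]]
  refine key.trans ?_
  have h6 : X ^ (-B) ≤ V := (hXe (by linarith)).trans hVs
  calc C * (1 + Real.log X) ^ 2 * (X ^ (-B) + V) ≤ C * ((1 + 2 / ε) ^ 2 * X ^ ε) * (V + V) := by
        have := log_sq_le hX.le hε
        have h7 : 0 ≤ X ^ (-B) := (hXp _).le
        gcongr
    _ = _ := by ring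

/-- **the number of the compensated tail**, class-free -/
theorem neq_in {w : ℝ → ℝ} {N : ℕ} {M : ℝ} {F : ℕ → ℝ → ℂ} (hD : WD w N M F)
    {K c C₀ Bs ε : ℝ} (hK : 0 ≤ K) (hc : 0 < c) (hC₀ : Real.exp (2 + N) ≤ C₀) (hBs : 0 ≤ Bs)
    (hε : 0 < ε) : ∃ C X₁ : ℝ, 0 ≤ C ∧
    ∀ (X φ₀ φ₁ φβ lD D Y Y₀ Y₁ V : ℝ) (T : ℝ → ℝ → ℝ) (Gx : ℝ → ℝ) (be : Eis → ℂ)
      (om : Eis × Eis → ℂ), 3 ≤ X → X₁ ≤ X → 0 ≤ φ₀ → φ₀ ≤ φβ → φβ ≤ Bs → 3 * φ₁ ≤ K →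
      0 ≤ φ₁ → 0 ≤ lD → lD ≤ Bs → 0 ≤ D → D ≤ X ^ lD → 0 ≤ Y → Y ≤ X ^ Bs → 0 ≤ Y₁ → Y₁ ≤ X ^ Bs →
      (∀ n, be n ≠ 0 → n ∈ S Y) → (∀ n, ‖be n‖ ≤ X ^ Bs) → (∀ x, ‖om x‖ ≤ 1) →
      0 ≤ V → X ^ (-Bs) ≤ V →
      (∀ κ a a', a' ≤ a → T κ a ≤ T κ a') →
      (∀ κ, 0 ≤ κ → κ ≤ K - 3 * φ₁ + c → (K - κ) / 3 +
        (T κ (a0 K κ φβ lD c) + Gx κ) / 2 - K - a0 K κ φβ lD c / 2 ≤ 0) →
      (∀ κ, 0 ≤ κ → κ ≤ K - 3 * φ₁ + c → ∀ a, IsPrim a → Squarefree a →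
        X ^ κ * (nm a : ℝ) ^ 3 ≤ Real.exp (2 + N) * X ^ K → ∀ A : Finset Eis,
        (∀ k ∈ A, IsPrim k ∧ CbF k ∧ X ^ κ ≤ nm k ∧ (nm k : ℝ) ≤ 2 * X ^ κ) →
        ∑ k ∈ A, ‖CS (alr be a 1) k‖ ^ 2 ≤
          V * (X ^ (T κ (Real.log (nm a) / Real.log X) - K) / nm a)) →
      (∀ κ, 0 ≤ κ → κ ≤ K - 3 * φ₁ + c → ∀ e, IsPrim e →
        X ^ κ * (nm e : ℝ) ^ 3 ≤ Real.exp (2 + N) * X ^ K →
        ∑ k ∈ (wnd (X ^ κ) (2 * X ^ κ)).filter CbF,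
          ‖StE (X ^ φ₀) (JW D Y₀ Y₁) om be (e ^ 3 * k)‖ ^ 2 ≤ V * X ^ (Gx κ - K)) →
      ∑ i ∈ Finset.range N, ‖CrQ (GF (Fh (F i) (3 * Real.log (X ^ φβ / X ^ φ₀))))
        (fun k => ¬ (Qc (C₀ * X ^ K / (X ^ φ₁) ^ 3) k ∧ Cut (X ^ φ₁) k)) (sc (X ^ K) M i) be
        (StE (X ^ φ₀) (JW D Y₀ Y₁) om be)‖ ≤ C * X ^ ε * V := by
  obtain ⟨C, X₁, hC, H⟩ := neq_in2 hD hK hc hC₀ hBs hε
  refine ⟨C, X₁, hC, ?_⟩
  intro X φ₀ φ₁ φβ lD D Y Y₀ Y₁ V T Gx be om a1 a2 a3 a4 a5 a6 a7 a8 a9 a10 a11 a12 a13 a14 a15 a16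
    a17 a18 a19 a20 a21 a22 a23 a24
  exact H X φ₀ φ₁ φβ lD D Y Y₀ Y₁ V T Gx be om a1 a2 a3 a4 a5 a6 a7 a8 a9 a10 a11 a12 a13 a14 a15
    a16 a17 a18 a19 a20 a21 a22 a23 fun κ h1 h2 _ => a24 κ h1 h2

end Crest.Agent.R017.NEq83
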