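import Crest.Agent.R017.P1Ng_904

/-!
# Row 17, FlatNE, the compensated tail (helper73): the real line of the plain Cauchy part

* `neq_line` : helper83's line for `T = Tqb` (helper994), `Gs` (helper904), total constant `30 c`
-/

set_option autoImplicit false
set_option linter.unusedVariables false

noncomputable section

namespace Crest.Agent.R017.NEqL73

open Crest.Agent.R017.P1N904 (Gs)

lemma neq_core {K m κ c lD F T G a₀ : ℝ} (hc : 0 ≤ c) (hcK : 1000000 * c ≤ K)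
    (hm0 : 3 * K ≤ 4 * m + 10 * c) (hm1 : 5 * m ≤ 4 * K + 10 * c)
    (hlD : lD ≤ m - 3 / 4 * K + 3 * c)
    (hF0 : 0 ≤ F) (hF1 : (4 * m - 3 * K) / 9 ≤ F) (hF : F = 0 ∨ F = (4 * m - 3 * K) / 9)
    (hκ0 : 0 ≤ κ) (hκ : κ ≤ K - 3 * (F + 20 * c) + c)
    (ha0 : 0 ≤ a₀) (ha1 : (K - κ) / 3 - (31 / 22 * F + 31 * c) - lD - c ≤ a₀)
    (hT : T ≤ κ ∨ T ≤ 2 / 3 * κ + 4 / 9 * (m - a₀) ∨ T ≤ κ / 3 + 22 / 27 * (m - a₀))
    (hG : G ≤ 26 / 15 * K ∨ G ≤ κ / 3 + 7 / 10 * K + 17 / 18 * m ∨ G ≤ 2 / 3 * κ + 13 / 9 * m) :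
    (K - κ) / 3 + (T + (G - m + 30 * c)) / 2 - K - a₀ / 2 ≤ 0 := by
  rcases hT with hT | hT | hT <;> rcases hG with hG | hG | hG <;> rcases hF with rfl | rfl <;>
    linarith

/-- **the line at any `a₀`** (the value falls in `a₀`) -/
theorem neq_line' {K m κ c lD φ₁ φβ a₀ : ℝ} (hc : 0 ≤ c) (hcK : 1000000 * c ≤ K)
    (hm0 : 3 * K ≤ 4 * m + 10 * c) (hm1 : 5 * m ≤ 4 * K + 10 * c)
    (hlD : lD ≤ m - 3 / 4 * K + 3 * c)
    (h1 : max 0 ((4 * m - 3 * K) / 9) + 20 * c ≤ φ₁)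
    (hβ : φβ ≤ 31 / 22 * max 0 ((4 * m - 3 * K) / 9) + 31 * c)
    (hκ0 : 0 ≤ κ) (hκ : κ ≤ K - 3 * φ₁ + c)
    (ha0 : 0 ≤ a₀) (ha1 : (K - κ) / 3 - φβ - lD - c ≤ a₀) :
    (K - κ) / 3 + (max κ (max (2 / 3 * κ + 4 / 9 * (m - a₀)) (κ / 3 + 22 / 27 * (m - a₀))) +
      (Gs K κ m - m + 30 * c)) / 2 - K - a₀ / 2 ≤ 0 := by
  refine neq_core (F := max 0 ((4 * m - 3 * K) / 9)) hc hcK hm0 hm1 hlD (le_max_left _ _)
    (le_max_right _ _) (max_choice _ _) hκ0 (by linarith) ha0 (by linarith) ?_ ?_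
  · rcases max_choice κ (max (2 / 3 * κ + 4 / 9 * (m - a₀)) (κ / 3 + 22 / 27 * (m - a₀)))
      with h | h
    · exact Or.inl h.le
    · rcases max_choice (2 / 3 * κ + 4 / 9 * (m - a₀)) (κ / 3 + 22 / 27 * (m - a₀)) with h2 | h2
      · exact Or.inr (Or.inl (h.le.trans h2.le))
      · exact Or.inr (Or.inr (h.le.trans h2.le))
  · unfold P1N904.Gs
    rcases max_choice (max (26 / 15 * K) (κ / 3 + 7 / 10 * K + 17 / 18 * m))
      (2 / 3 * κ + 13 / 9 * m) with h | h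
    · rcases max_choice (26 / 15 * K) (κ / 3 + 7 / 10 * K + 17 / 18 * m) with h2 | h2
      · exact Or.inl (h.le.trans h2.le)
      · exact Or.inr (Or.inl (h.le.trans h2.le))
    · exact Or.inr (Or.inr h.le)

/-- **the line** (helper83 #38277 (3)) -/
theorem neq_line {K m κ c lD φ₁ φβ : ℝ} (hc : 0 ≤ c) (hcK : 1000000 * c ≤ K)
    (hm0 : 3 * K ≤ 4 * m + 10 * c) (hm1 : 5 * m ≤ 4 * K + 10 * c)
    (hlD : lD ≤ m - 3 / 4 * K + 3 * c)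
    (h1 : max 0 ((4 * m - 3 * K) / 9) + 20 * c ≤ φ₁)
    (hβ : φβ ≤ 31 / 22 * max 0 ((4 * m - 3 * K) / 9) + 31 * c)
    (hκ0 : 0 ≤ κ) (hκ : κ ≤ K - 3 * φ₁ + c) :
    (K - κ) / 3 + (max κ (max (2 / 3 * κ + 4 / 9 * (m - max 0 ((K - κ) / 3 - φβ - lD - c)))
      (κ / 3 + 22 / 27 * (m - max 0 ((K - κ) / 3 - φβ - lD - c)))) +
      (Gs K κ m - m + 30 * c)) / 2 - K - max 0 ((K - κ) / 3 - φβ - lD - c) / 2 ≤ 0 :=
  neq_line' hc hcK hm0 hm1 hlD h1 hβ hκ0 hκ (le_max_left _ _) (le_max_right _ _)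

end Crest.Agent.R017.NEqL73
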