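import Crest.Agent.R017.NEqC_83
import Crest.Agent.R017.NGd_83
import Crest.Agent.R017.NRq_791
import Crest.Agent.R017.NEk_551

/-!
# Row 17, FlatNE NumEq (helper83): the compensated tail at the near leaf, class N

* `neqN_gen` : `NLeaf` of `NumEq` from the line of helper791's `nrq_core` and the Gram number
-/

set_option autoImplicit false
set_option linter.unusedVariables false

noncomputable section

open Complex
open scoped ComplexConjugate Classical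

namespace Crest.Agent.R017.NEq83

open Crest.Agent.R012 Crest.Agent.R012.Eis Crest.Agent.R012.LS2
open Crest.Agent.R012.Weight600 (osc pw)
open Crest.Agent.R017.CM106 Crest.Agent.R017.FE47
open Crest.Agent.R017.B770
open Crest.Agent.R017.Prov71
open Crest.Agent.R017.HP842 (sqc)
open Crest.Agent.R017.XP699 (LL Chd cst hcost)
open Crest.Agent.R017.Leg381 (Pf alF LF natl)
open Crest.Agent.R017.Win813 (WK iA iA_nonneg)
open Crest.Agent.R017.RGw813 (bt T9)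
open Crest.Agent.R017.RG64 (SbL Ht one_le_Ht exists_ALp)
open Crest.Agent.R017.RGB545 (Line Th TK)
open Crest.Agent.R017.XPD571 (RF0)
open Crest.Agent.R017.RXk848 (LnP)
open Crest.Agent.R017.SqB791 (RqLn LipT nrq_core lnP_of)
open Crest.Agent.R017.C70 (JW CbF)
open Crest.Agent.R017.E2440 (StE Fh)
open Crest.Agent.R017.X6C180 (GF)
open Crest.Agent.R017.Ex385 (CrQ)
open Crest.Agent.R017.I1146 (omr)
open Crest.Agent.R017.LBo813 (Om norm_list_le norm_bt_le bt_ne)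
open Crest.Agent.R017.E3M829 (Cut)
open Crest.Agent.R017.WDec180 (WD sc)
open Crest.Agent.R017.CubP813 (Qc alr)
open Crest.Agent.R017.Et813 (wnd)
open Crest.Agent.R017.NE73 (gN)
open Crest.Agent.R017.NEg551 (LBq NLeaf NNum NFacts NTc)
open Crest.Agent.R017.NEc180 (NumEq)
open Crest.Agent.R017.CubT90 (one_le_nmR)

variable {Lam ι : Type*} {d : ℕ}

lemma omr_le1 (N₀ N₁ : ℕ) (x : Eis × Eis) : ‖omr (Om N₀ N₁) x‖ ≤ 1 := by
  unfold I1146.omr
  rw [Complex.norm_real, Real.norm_of_nonneg (LBo813.Om_nonneg _ _ _)]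
  exact LBo813.Om_le_one _ _ _

/-- the sizes -/
lemma leaf_sizes {K v c ε X : ℝ} {ps₀ : List Pq} {ps : List Pf} {Lv : ℝ} {N₁ : ℕ} (hX : 3 ≤ X)
    (hc : 0 < c) (hcK : 2000 * c ≤ K) (hε : 0 < ε) (hnum : NNum K v c ε X ps₀)
    (hF : NFacts K v (gN K c (LL Dq ps₀ / Real.log X)) ε X ps₀ ps Lv N₁) :
    (3 / 4 * K - c) * Real.log X ≤ LF ps ∧ 5 * LF ps ≤ (4 * K + 6 * c) * Real.log X ∧
    Lv ≤ (K + 2 * c) * Real.log X ∧
    Real.exp (min (gN K c (LL Dq ps₀ / Real.log X) * Real.log X)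
      (LF ps - (LL Dq ps₀ - gN K c (LL Dq ps₀ / Real.log X) * Real.log X))) ≤
      X ^ (LF ps / Real.log X - 3 / 4 * K + c) := by
  have hX0 : 0 < X := by linarith
  have hL0 : 0 < Real.log X := Real.log_pos (by linarith)
  have h1lo := hF.lo
  have h1hi := hF.hi
  have h1lv := hF.lv
  have hec := hnum.ec
  have hvg := hnum.vg
  have hnK := hnum.nK
  obtain ⟨L', hL'⟩ : ∃ L' : ℝ, L' = Real.log X := ⟨_, rfl⟩
  rw [← hL'] at h1lo h1hi h1lv hvg hnK hL0 ⊢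
  obtain ⟨g, hg⟩ : ∃ g, g = gN K c (LL Dq ps₀ / L') := ⟨_, rfl⟩
  rw [← hg] at h1lo hvg ⊢
  have hG : g * L' = LL Dq ps₀ - 3 / 4 * (K * L') + c * L' := by
    rw [hg]
    unfold NE73.gN
    field_simp
  have hcL0 : 0 ≤ c * L' := by positivity
  have hεc : ε * L' ≤ c * L' := mul_le_mul_of_nonneg_right hec hL0.le
  have hcK' : 2000 * (c * L') ≤ K * L' := by nlinarith
  have e1 : (4 * K + ε) * L' = 4 * (K * L') + ε * L' := by ring
  have e2 : (v + ε) * L' = v * L' + ε * L' := by ring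
  have hvgL : 3 * (v * L' + g * L') + 100 * (c * L') ≤ 2 * (K * L') + ε * L' := by
    have := mul_le_mul_of_nonneg_right hvg hL0.le
    nlinarith
  refine ⟨?_, ?_, ?_, ?_⟩
  · have : (3 / 4 * K - c) * L' = 3 / 4 * (K * L') - c * L' := by ring
    linarith
  · have : (4 * K + 6 * c) * L' = 4 * (K * L') + 6 * (c * L') := by ring
    linarith
  · have : (K + 2 * c) * L' = K * L' + 2 * (c * L') := by ring
    have hKL0 : 0 ≤ K * L' := by
      have : 0 ≤ K := by linarith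
      positivity
    linarith
  · rw [Real.rpow_def_of_pos hX0, ← hL']
    refine Real.exp_le_exp.2 ((min_le_right _ _).trans (le_of_eq ?_))
    have : L' * (LF ps / L' - 3 / 4 * K + c) = LF ps - 3 / 4 * (K * L') + c * L' := by
      field_simp
    rw [this]
    linarith

set_option maxHeartbeats 3200000 in
/-- **the compensated tail at the near leaf** (class N), general form -/
theorem neqN_gen {π : Lam → DPar} (hP : ∀ lam, (π lam).OK) {h : ℝ → ℝ} {c₁ : ℝ} (hpu : PU h c₁)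
    {Nw : ℕ} {Mw : ℝ} {Fw : ℕ → ℝ → ℂ} {w : ℝ → ℝ} (hD : WD w Nw Mw Fw) {C₀ : ℝ}
    (hC₀ : Real.exp (2 + Nw) ≤ C₀) {L : ι → Line Lam d} {j : ι} {φ₀ φ₁ φβ : ℝ → ℝ → ℝ → ℝ}
    {K v c Λ s : ℝ} {T : ℝ → ℝ → ℝ → ℝ → ℝ → ℝ} {qm : ℝ → ℝ → ℝ → ℝ} (hc : 0 < c)
    (hcK : 2000 * c ≤ K) (hΛ : 0 ≤ Λ) (hT : LipT Λ T) (HL : RqLn (RF0 π h) T qm (L j))
    (hφ : ∀ a u m, 5 * m ≤ 4 * K + 6 * c → 3 * K ≤ 4 * m + 4 * c → 0 ≤ φ₀ a u m ∧
      φ₀ a u m ≤ φβ a u m ∧ φβ a u m ≤ K ∧ c ≤ 3 * φ₁ a u m ∧ 3 * φ₁ a u m ≤ K ∧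
      K - 3 * φ₁ a u m + c ≤ qm K u m)
    (hline : ∀ a u m, 5 * m ≤ 4 * K + 6 * c → 3 * K ≤ 4 * m + 4 * c → ∀ κ, 0 ≤ κ →
      κ ≤ K - 3 * φ₁ a u m + c → (K - κ) / 3 +
        (T K u m κ (a0 K κ (φβ a u m) (m - 3 / 4 * K + c) c) + Gxs K κ m (s * K)) / 2 - K -
          a0 K κ (φβ a u m) (m - 3 / 4 * K + c) c / 2 ≤ 0)
    (hG : NLeaf π h (NumGk (Real.exp (2 + Nw)) C₀ (Gfz s)) L φ₀ φ₁ φβ K v c) :
    NLeaf π h (fun q α Rn => NumEq Nw Mw Fw (fun k => Qc (C₀ * q.K / q.E1 ^ 3) k ∧ Cut q.E1 k)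
      q.Cw q.η q.Aw q.K q.X q.R q.J q.D q.E0 (3 * Real.log (q.B / q.E0)) q.N₁ α Rn)
      L φ₀ φ₁ φβ K v c := by
  have hK : 0 < K := by linarith
  intro lam N c₀ hc₀
  obtain ⟨B₁, hB₁, hG1⟩ := hG lam N c₀ hc₀
  obtain ⟨c₂, hc₂⟩ : ∃ c₂ : ℝ, c₂ = c₀ + K + 1 := ⟨_, rfl⟩
  have hc₂1 : 1 ≤ c₂ := by rw [hc₂]; linarith
  have hc₂0 : c₀ ≤ c₂ := by rw [hc₂]; linarith
  refine ⟨max B₁ c₂, le_max_of_le_left hB₁, fun ε M hε hM => ?_⟩
  obtain ⟨J₁, δ₁, hJ₁, hδ₁, hG2⟩ := hG1 ε M hε hM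
  have hε8 : 0 < ε / 8 := by positivity
  obtain ⟨J₂, δ₂, hJ₂, hδ₂, hR2⟩ := nrq_core hP hpu hK.le hΛ hT HL lam N hc₂1 hε8 hM
  refine ⟨max J₁ J₂, min δ₁ δ₂, le_max_of_le_left hJ₁, lt_min hδ₁ hδ₂, ?_⟩
  intro δ Jn Aw Cw R η S hδ0 hδ hJn hAw hCw hR hη hη1 hS
  obtain ⟨C₁, r₁, X₁, hC₁, hr₁, hG3⟩ := hG2 δ Jn Aw Cw R η S hδ0 (hδ.trans (min_le_left _ _))
    ((le_max_left _ _).trans hJn) hAw hCw hR hη hη1 hS
  obtain ⟨C₂, r₂, X₂, hC₂, hr₂, hR3⟩ := hR2 δ Jn Aw Cw R η S hδ0 (hδ.trans (min_le_right _ _))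
    ((le_max_right _ _).trans hJn) hAw hCw hR hη hη1 hS
  obtain ⟨b, hb⟩ : ∃ b : ℝ, b = 8 * (K + 1) := ⟨_, rfl⟩
  have hb8 : 8 ≤ b := by rw [hb]; linarith
  have hb0 : 0 < b := by linarith
  obtain ⟨C₃, X₃, hC₃, hN⟩ := neq_in2 hD (K := K) (c := c) (C₀ := C₀) (Bs := b) (ε := ε / 4) hK.le hc
    hC₀ hb0.le (by positivity)
  obtain ⟨R₁, Ca, hR₁, hCa, hAL⟩ := exists_ALp hpu N
  obtain ⟨C₄, hC₄, hbd⟩ := norm_list_le hpu N (ε := 1 / b) (by positivity)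
  have hAw2 : 2 ≤ Aw := by omega
  have hiA : 0 ≤ Cw * iA Aw := mul_nonneg hCw (iA_nonneg Aw)
  obtain ⟨C', hC'⟩ : ∃ C' : ℝ, C' = 1 + C₁ + C₂ := ⟨_, rfl⟩
  have hC'1 : 1 ≤ C' := by rw [hC']; linarith
  obtain ⟨X₀, hX₀⟩ : ∃ X₀ : ℝ, X₀ = Real.exp (7 + R₁ + Real.log Ca) := ⟨_, rfl⟩
  refine ⟨C₃ * C' + C₁ + C₂, max r₁ r₂, max (max X₁ X₂) (max X₃ (max X₀
    (max (Real.exp (2 + Nw)) (Cw * iA Aw * C₄)))), by positivity, le_max_of_le_left hr₁, ?_⟩
  intro X hX3 hXX ps₀ hlen hz hs2 hnum q ps Lv N₁ hF hq hqX hps Bd hBd hNT hprem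
  have hXX1 : X₁ ≤ X := ((le_max_left _ _).trans (le_max_left _ _)).trans hXX
  have hXX2 : X₂ ≤ X := ((le_max_right _ _).trans (le_max_left _ _)).trans hXX
  have hXX3 : X₃ ≤ X := ((le_max_left _ _).trans (le_max_right _ _)).trans hXX
  have hXX0 : X₀ ≤ X := ((le_max_left _ _).trans
    ((le_max_right _ _).trans (le_max_right _ _))).trans hXX
  have hXXe : Real.exp (2 + Nw) ≤ X := (((le_max_left _ _).trans (le_max_right _ _)).trans
    ((le_max_right _ _).trans (le_max_right _ _))).trans hXX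
  have hXXc : Cw * iA Aw * C₄ ≤ X := (((le_max_right _ _).trans (le_max_right _ _)).trans
    ((le_max_right _ _).trans (le_max_right _ _))).trans hXX
  have hX0 : 0 < X := by linarith
  have hX1 : 1 ≤ X := by linarith
  have hX1' : 1 < X := by linarith
  have hXp : ∀ a : ℝ, 0 < X ^ a := fun a => Real.rpow_pos_of_pos hX0 a
  have hXe : ∀ {a b : ℝ}, a ≤ b → X ^ a ≤ X ^ b := fun h =>
    Real.rpow_le_rpow_of_exponent_le hX1 h
  have hlog : 0 ≤ Real.log X := Real.log_nonneg hX1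
  have hL0 : 0 < Real.log X := Real.log_pos hX1'
  obtain ⟨s1, s2, s3, s4⟩ := leaf_sizes hX3 hc hcK hε hnum hF
  obtain ⟨m, hm⟩ : ∃ m : ℝ, m = LF ps / Real.log X := ⟨_, rfl⟩
  obtain ⟨u, hu⟩ : ∃ u : ℝ, u = Lv / Real.log X := ⟨_, rfl⟩
  obtain ⟨a', ha'⟩ : ∃ a' : ℝ, a' = LL Dq ps₀ / Real.log X := ⟨_, rfl⟩
  have hmL : m * Real.log X = LF ps := by rw [hm]; field_simp
  have hm5 : 5 * m ≤ 4 * K + 6 * c := by
    have h1 : 5 * m * Real.log X ≤ (4 * K + 6 * c) * Real.log X := by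
      rw [mul_assoc, hmL]; exact s2
    exact le_of_mul_le_mul_right h1 hL0
  have hm3 : 3 * K ≤ 4 * m + 4 * c := by
    have h1 : (3 / 4 * K - c) * Real.log X ≤ m * Real.log X := by rw [hmL]; exact s1
    have h2 := le_of_mul_le_mul_right h1 hL0
    linarith
  have hXm : X ^ m = Real.exp (LF ps) := by
    rw [Real.rpow_def_of_pos hX0, mul_comm, hmL]
  obtain ⟨f1, f2, f3, f4, f5, f6⟩ := hφ a' u m hm5 hm3
  -- the constants
  have hcon₁ : C₁ * X ^ B₁ ≤ (C₃ * C' + C₁ + C₂) * X ^ max B₁ c₂ := by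
    have : 0 ≤ C₃ * C' := by positivity
    exact mul_le_mul (by linarith) (hXe (le_max_left _ _)) (hXp _).le (by positivity)
  have hcon₂ : C₂ * X ^ c₂ ≤ (C₃ * C' + C₁ + C₂) * X ^ max B₁ c₂ := by
    have : 0 ≤ C₃ * C' := by positivity
    exact mul_le_mul (by linarith) (hXe (le_max_right _ _)) (hXp _).le (by positivity)
  have hHH : 1 ≤ Ht ps * Ht (natl ps₀) :=
    one_le_mul_of_one_le_of_one_le (one_le_Ht _) (one_le_Ht _)
  obtain ⟨HH, hHHd⟩ : ∃ HH : ℝ, HH = Ht ps * Ht (natl ps₀) := ⟨_, rfl⟩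
  rw [← hHHd] at hHH
  have hBd0 : 0 ≤ Bd := by linarith
  -- the Gram number
  have kG := hG3 X hX3 hXX1 ps₀ hlen hz hs2 hnum q ps Lv N₁ hF hq hqX hps Bd hBd
    (hNT.mono le_rfl (le_max_left _ _) hcon₁ hlog)
    fun j θ l ps' g1 g2 g3 => hprem j θ l ps' g1 g2 (RG64.Chd.mono' (le_max_left _ _) hcon₁ g3)
  -- the line
  have hlnp : LnP L lam K (ε / 8) M r₂ (C₂ * X ^ c₂) X (LF ps / Real.log X) (Lv / Real.log X) Bd
      ps₀ := by
    refine lnP_of hX3 fun j θ l ps' g1 g2 g3 g4 g5 g6 => ?_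
    have hεl : ε / 8 * Real.log X ≤ ε * Real.log X :=
      mul_le_mul_of_nonneg_right (by linarith) hlog
    exact hprem j θ l ps' g1 g2 (RG64.Chd.mono' (le_max_right _ _) hcon₂ g3) (by linarith)
      (by linarith) fun hz q hq hl => (g6 hz q hq hl).trans (by linarith)
  have kR := hR3 X hX3 hXX2 ps₀ hlen
    (fun q hq => ⟨(hz q hq).1, (hz q hq).2.trans (mul_le_mul_of_nonneg_right hc₂0 hlog)⟩) q ps Lv hq
    (hqX.trans (hXe hc₂0)) hps Bd hBd hlnp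
  rw [← hHHd] at kG kR
  rw [← ha', ← hu, ← hm] at kG
  rw [← hu, ← hm] at kR
  rw [← ha', ← hm] at s4
  -- the family
  obtain ⟨Y, hY⟩ : ∃ Y : ℝ, Y = X ^ b := ⟨_, rfl⟩
  have hY1 : 1 ≤ Y := by rw [hY]; exact Real.one_le_rpow hX1 hb0.le
  have hY0 : 0 < Y := by linarith
  have hlY : Real.log Y = b * Real.log X := by rw [hY, Real.log_rpow hX0]
  have hlCa : 0 ≤ Real.log Ca := Real.log_nonneg hCa
  have hLbig : 7 + R₁ + Real.log Ca ≤ Real.log X := by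
    rw [← Real.log_exp (7 + R₁ + Real.log Ca)]
    exact Real.log_le_log (Real.exp_pos _) (hX₀ ▸ hXX0)
  have hcL0 : 0 ≤ c * Real.log X := by positivity
  have hcKL : 2000 * (c * Real.log X) ≤ K * Real.log X := by nlinarith
  have hKL0 : 0 ≤ K * Real.log X := by positivity
  have ebL : b * Real.log X = 8 * (K * Real.log X) + 8 * Real.log X := by rw [hb]; ring
  have eK2 : (K + 2 * c) * Real.log X = K * Real.log X + 2 * (c * Real.log X) := by ring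
  have e46 : (4 * K + 6 * c) * Real.log X = 4 * (K * Real.log X) + 6 * (c * Real.log X) := by ring
  have e34 : (3 / 4 * K - c) * Real.log X = 3 / 4 * (K * Real.log X) - c * Real.log X := by ring
  have hLF0 : 0 ≤ LF ps := by linarith
  have hCaY : Ca ≤ Y := by
    rw [← Real.log_le_log_iff (by linarith) hY0, hlY]
    linarith
  have hRY : Real.exp R₁ * Real.exp (LF ps) ≤ Y := by
    rw [← Real.exp_add, ← Real.exp_log hY0, hlY]
    refine Real.exp_le_exp.2 ?_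
    linarith
  have hNY : (N₁ : ℝ) ≤ Y := by
    have h1 := hF.N1
    have h2 : (0 : ℝ) ≤ N₁ := Nat.cast_nonneg _
    have h3 : Real.exp (Lv + 4) ≤ Y := by
      rw [← Real.exp_log hY0, hlY]
      exact Real.exp_le_exp.2 (by linarith)
    linarith
  have hlen' : ps.length ≤ N := hps.length ▸ hlen
  obtain ⟨hsupp, -, -, hFS⟩ := hAL (X ^ δ) (X ^ δ) (π lam) (hP lam) q ps hlen' Y hCaY hRY
  have hYb : Y ^ (1 / b) = X := by
    rw [hY, ← Real.rpow_mul hX0.le, mul_one_div_cancel hb0.ne', Real.rpow_one]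
  have hαb : ∀ n, ‖sqc q (alF (X ^ δ) (X ^ δ) (π lam) h ps) n‖ ≤ C₄ * X := by
    intro n
    by_cases h0 : sqc q (alF (X ^ δ) (X ^ δ) (π lam) h ps) n = 0
    · rw [h0, norm_zero]
      positivity
    · have := hbd (X ^ δ) (X ^ δ) (π lam) (hP lam) q ps hlen' Y hY1 n (hsupp n h0)
      rwa [hYb] at this
  have hX2b : X * X ≤ X ^ b := by
    have : X * X = X ^ (2 : ℝ) := by
      rw [Real.rpow_two]; ring
    rw [this]
    exact hXe (by linarith)
  rw [← hHHd, ← ha', ← hu, ← hm]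
  intro p' hp' t X' φ w1 w2 w3 w4
  have hbe : ∀ n, bt φ (sqc q (alF (X ^ δ) (X ^ δ) (π lam) h ps)) p' n * pw t (nm n) ≠ 0 →
      n ∈ LS2.S Y := fun n hn => hsupp n (bt_ne hn)
  have hbe' : ∀ n, ‖bt φ (sqc q (alF (X ^ δ) (X ^ δ) (π lam) h ps)) p' n * pw t (nm n)‖ ≤
      X ^ b := by
    intro n
    refine (norm_bt_le w3 hη hAw2 hFS p' t n).trans ?_
    calc Cw * iA Aw * ‖sqc q (alF (X ^ δ) (X ^ δ) (π lam) h ps) n‖
        ≤ Cw * iA Aw * (C₄ * X) := mul_le_mul_of_nonneg_left (hαb n) hiA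
      _ = (Cw * iA Aw * C₄) * X := by ring
      _ ≤ X * X := mul_le_mul_of_nonneg_right hXXc hX0.le
      _ ≤ X ^ b := hX2b
  obtain ⟨tt, htt⟩ : ∃ tt : ℝ, tt = (1 + |t|) ^ Jn := ⟨_, rfl⟩
  have htt1 : 1 ≤ tt := by
    rw [htt]
    exact one_le_pow₀ (by linarith [abs_nonneg t])
  obtain ⟨V, hV⟩ : ∃ V : ℝ, V = (X ^ K / Real.exp (LF ps)) *
      ((C' * X ^ (3 * ε / 4) * HH ^ max J₁ J₂ * Bd * Real.exp (2 * LF ps)) * tt) := ⟨_, rfl⟩
  have hHJ : 1 ≤ HH ^ max J₁ J₂ := Real.one_le_rpow hHH (le_max_of_le_left hJ₁)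
  have hV1 : 1 ≤ V := by
    have e2 : Real.exp (2 * LF ps) = Real.exp (LF ps) * Real.exp (LF ps) := by
      rw [← Real.exp_add]; congr 1; ring
    have e3 : V = X ^ K * Real.exp (LF ps) * (C' * X ^ (3 * ε / 4) * HH ^ max J₁ J₂ * Bd * tt) := by
      rw [hV, e2]
      have := Real.exp_pos (LF ps)
      field_simp
    rw [e3]
    have g1 : 1 ≤ X ^ K := Real.one_le_rpow hX1 hK.le
    have g2 : 1 ≤ Real.exp (LF ps) := Real.one_le_exp hLF0
    have g3 : 1 ≤ X ^ (3 * ε / 4) := Real.one_le_rpow hX1 (by positivity)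
    exact one_le_mul_of_one_le_of_one_le (one_le_mul_of_one_le_of_one_le g1 g2)
      (one_le_mul_of_one_le_of_one_le (one_le_mul_of_one_le_of_one_le
        (one_le_mul_of_one_le_of_one_le (one_le_mul_of_one_le_of_one_le hC'1 g3) hHJ) hBd) htt1)
  have hV0 : 0 ≤ V := by linarith
  have hkx : 0 ≤ X ^ K / Real.exp (LF ps) := by positivity
  have hHHp : ∀ x : ℝ, 0 ≤ HH ^ x := fun x => Real.rpow_nonneg (by linarith) _
  -- the number of the tail
  have key := hN X (φ₀ a' u m) (φ₁ a' u m) (φβ a' u m) (m - 3 / 4 * K + c)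
    (Real.exp (min (gN K c a' * Real.log X)
      (LF ps - (LL Dq ps₀ - gN K c a' * Real.log X)))) Y (1 / 10) N₁ V
    (fun κ a => T K u m κ a - ε / 4) (fun κ => Gxs K κ m (s * K) + ε / 4)
    (fun n => bt φ (sqc q (alF (X ^ δ) (X ^ δ) (π lam) h ps)) p' n * pw t (nm n))
    (omr (Om (N₁ / 2) N₁)) hX3 hXX3 f1 f2 (f3.trans (by rw [hb]; linarith)) f5 (by linarith)
    (by linarith) (by rw [hb]; linarith) (Real.exp_pos _).le s4 hY0.le
    (by rw [hY]) (Nat.cast_nonneg _) (by rw [← hY]; exact hNY) hbe hbe' (omr_le1 _ _) hV0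
    ((Real.rpow_le_one_of_one_le_of_nonpos hX1 (by linarith)).trans hV1)
    (by
      intro κ a a' haa
      have := hT K u m κ a κ a' 0 le_rfl (by linarith) (by linarith)
      show T K u m κ a - ε / 4 ≤ T K u m κ a' - ε / 4
      linarith)
    (by
      intro κ k0 k1
      have := hline a' u m hm5 hm3 κ k0 k1
      show (K - κ) / 3 + (T K u m κ (a0 K κ (φβ a' u m) (m - 3 / 4 * K + c) c) - ε / 4 +
        (Gxs K κ m (s * K) + ε / 4)) / 2 - K - a0 K κ (φβ a' u m) (m - 3 / 4 * K + c) c / 2 ≤ 0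
      linarith)
    (by
      intro κ k0 k1 a ha hsq haK A hA
      have hXκ : 1 ≤ X ^ κ := Real.one_le_rpow hX1 k0
      have hna : (1 : ℝ) ≤ nm a := one_le_nmR ha.ne_zero
      have hnaX : (nm a : ℝ) ≤ X ^ c₂ := by
        have h1 : (nm a : ℝ) ≤ (nm a : ℝ) ^ 3 := le_self_pow₀ hna (by norm_num)
        have h2 : (nm a : ℝ) ^ 3 ≤ X ^ κ * (nm a : ℝ) ^ 3 := le_mul_of_one_le_left (by positivity) hXκ
        have h3 : Real.exp (2 + Nw) * X ^ K ≤ X * X ^ K :=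
          mul_le_mul_of_nonneg_right hXXe (hXp _).le
        have h4 : X * X ^ K = X ^ (1 + K) := by rw [Real.rpow_add hX0, Real.rpow_one]
        have h5 : X ^ (1 + K) ≤ X ^ c₂ := hXe (by rw [hc₂]; linarith)
        linarith
      have h1X : ((nm (1 : Eis) : ℕ) : ℝ) ≤ X ^ c₂ := by
        rw [nm_one]
        push_cast
        exact Real.one_le_rpow hX1 (by linarith)
      have key := kR κ a 1 k0 (by linarith) (by linarith) ha one_ne_zero hnaX h1X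
        p' hp' t X' φ w1 w2 w3 w4 A fun k hk => ⟨(hA k hk).1, (hA k hk).2.2.1, (hA k hk).2.2.2⟩
      refine key.trans ?_
      rw [← htt]
      obtain ⟨T', hT'⟩ : ∃ T', T' = T K u m κ (Real.log (nm a) / Real.log X) := ⟨_, rfl⟩
      show _ ≤ V * (X ^ (T K u m κ (Real.log (nm a) / Real.log X) - ε / 4 - K) / nm a)
      rw [← hT', hV]
      have hna0 : (0 : ℝ) < nm a := by linarith
      have e1 : X ^ (3 * ε / 4) * X ^ (T' - ε / 4 - K) = X ^ (ε / 2) * X ^ (T' - K) := by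
        rw [← Real.rpow_add hX0, ← Real.rpow_add hX0]
        congr 1
        ring
      have e2 : X ^ (ε / 8) ≤ X ^ (ε / 2) := hXe (by linarith)
      have e3 : HH ^ J₂ ≤ HH ^ max J₁ J₂ := Real.rpow_le_rpow_of_exponent_le hHH (le_max_right _ _)
      have e4 : C₂ ≤ C' := by rw [hC']; linarith
      have := hHHp J₂
      have := hXp (T' - K)
      calc X ^ K / Real.exp (LF ps) * (C₂ * X ^ (ε / 8) * HH ^ J₂ * Bd * Real.exp (2 * LF ps) * tt) *
            (X ^ (T' - K) / nm a)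
          ≤ X ^ K / Real.exp (LF ps) * (C' * X ^ (ε / 2) * HH ^ max J₁ J₂ * Bd *
            Real.exp (2 * LF ps) * tt) * (X ^ (T' - K) / nm a) := by gcongr
        _ = X ^ K / Real.exp (LF ps) * (C' * HH ^ max J₁ J₂ * Bd *
            Real.exp (2 * LF ps) * tt) * ((X ^ (ε / 2) * X ^ (T' - K)) / nm a) := by ring
        _ = _ := by rw [← e1]; ring)
    (by
      intro κ k0 k1 k2 e he heK
      have hXκ : 1 ≤ X ^ κ := Real.one_le_rpow hX1 k0
      have key := kG p' hp' t X' φ w1 w2 w3 w4 (X ^ κ) hXκ k2 e he heK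
      have e0 := gfz_eq (X := X) (K := K) (m := m) (κ := κ) (s := s) (p := ⟨Cw, η, Aw, X ^ K,
        Real.exp (LF ps), X ^ (8 * (K + 1)), R, Jn, N₁, X ^ φ₀ a' u m, X ^ φ₁ a' u m,
        X ^ φβ a' u m, X ^ (-φβ a' u m),
        Real.exp (min (gN K c a' * Real.log X) (LF ps - (LL Dq ps₀ - gN K c a' * Real.log X))),
        Real.exp (min (gN K c a' * Real.log X) (LF ps - (LL Dq ps₀ - gN K c a' * Real.log X)))⟩)
        hX1 rfl hXm.symm
      rw [e0] at key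
      refine key.trans ?_
      show X ^ K / Real.exp (LF ps) * (C₁ * X ^ ε * HH ^ J₁ * Bd * Real.exp (2 * LF ps) *
        (1 + |t|) ^ Jn) * X ^ (Gxs K κ m (s * K) - K) ≤ V * X ^ (Gxs K κ m (s * K) + ε / 4 - K)
      obtain ⟨G', hG'⟩ : ∃ G', G' = Gxs K κ m (s * K) := ⟨_, rfl⟩
      rw [← hG', ← htt, hV]
      have e1 : X ^ (3 * ε / 4) * X ^ (G' + ε / 4 - K) = X ^ ε * X ^ (G' - K) := by
        rw [← Real.rpow_add hX0, ← Real.rpow_add hX0]
        congr 1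
        ring
      have e3 : HH ^ J₁ ≤ HH ^ max J₁ J₂ := Real.rpow_le_rpow_of_exponent_le hHH (le_max_left _ _)
      have e4 : C₁ ≤ C' := by rw [hC']; linarith
      have := hHHp J₁
      have := hXp (G' - K)
      calc X ^ K / Real.exp (LF ps) * (C₁ * X ^ ε * HH ^ J₁ * Bd * Real.exp (2 * LF ps) * tt) *
            X ^ (G' - K)
          ≤ X ^ K / Real.exp (LF ps) * (C' * X ^ ε * HH ^ max J₁ J₂ * Bd *
            Real.exp (2 * LF ps) * tt) * X ^ (G' - K) := by gcongr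
        _ = X ^ K / Real.exp (LF ps) * (C' * HH ^ max J₁ J₂ * Bd *
            Real.exp (2 * LF ps) * tt) * (X ^ ε * X ^ (G' - K)) := by ring
        _ = _ := by rw [← e1]; ring)
  refine key.trans ?_
  show C₃ * X ^ (ε / 4) * V ≤ X ^ K / Real.exp (LF ps) * (((C₃ * C' + C₁ + C₂) * X ^ ε *
    HH ^ max J₁ J₂ * Bd * Real.exp (2 * LF ps)) * (1 + |t|) ^ Jn)
  rw [← htt, hV]
  have e1 : X ^ (ε / 4) * X ^ (3 * ε / 4) = X ^ ε := by
    rw [← Real.rpow_add hX0]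
    congr 1
    ring
  have hE := Real.exp_pos (2 * LF ps)
  calc C₃ * X ^ (ε / 4) * (X ^ K / Real.exp (LF ps) *
        (C' * X ^ (3 * ε / 4) * HH ^ max J₁ J₂ * Bd * Real.exp (2 * LF ps) * tt))
      = X ^ K / Real.exp (LF ps) * ((C₃ * C') * (X ^ (ε / 4) * X ^ (3 * ε / 4)) *
        HH ^ max J₁ J₂ * Bd * Real.exp (2 * LF ps) * tt) := by ring
    _ ≤ X ^ K / Real.exp (LF ps) * ((C₃ * C' + C₁ + C₂) * X ^ ε *
        HH ^ max J₁ J₂ * Bd * Real.exp (2 * LF ps) * tt) := by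
        rw [e1]
        have : C₃ * C' ≤ C₃ * C' + C₁ + C₂ := by linarith
        gcongr

end Crest.Agent.R017.NEq83
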