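import Crest.Agent.R017.NEw_911
import Crest.Agent.R017.NEd_180

/-!
# Row 17, FlatNE (helper499): the lower bound with the compensated cross number

* `NumSC` : the numbers at the parameter `h = 3 log (B / E0)` (helper180's two scales)
* **`lbs_C`** : `LBS w 0 (NumSC ..)` from helper911's `lb_bsQ` and helper180's `numCQ_of`
-/

set_option autoImplicit false
set_option linter.unusedVariables false

noncomputable section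

open Complex MeasureTheory
open scoped ComplexConjugate Classical

namespace Crest.Agent.R017.NE499

open Crest.Agent.R012 Crest.Agent.R012.Eis Crest.Agent.R012.MC
open Crest.Agent.R012.LS2 (S mem_S)
open Crest.Agent.R017.E1551 (tws sg yv)
open Crest.Agent.R017.WDec180 (WD)
open Crest.Agent.R017.E3M829 (Cut)
open Crest.Agent.R017.Rough381 (VF)
open Crest.Agent.R017.NEg551 (LBq LBS)
open Crest.Agent.R017.NEx911 (NumCQ lb_bsQ)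
open Crest.Agent.R017.NEc180 (Num2 NumEq NumSq NumCQl numCQ_of)
open Crest.Agent.R017.LBo813 (rho Om)

/-- the dilation -/
def hS (p : LBq) : ℝ := 3 * Real.log (p.B / p.E0)

/-- **the numbers of the near leaf, compensated weight at the dilation `h = 3 log (B / E0)`** -/
def NumSC (w : ℝ → ℝ) (N : ℕ) (M : ℝ) (F : ℕ → ℝ → ℂ) (Qf : LBq → Eis → Prop) (p : LBq)
    (α : Eis → ℂ) (Rn : ℝ) : Prop :=
  ∃ (Tt A₂ At Es Ro Ro' : ℝ) (I : ℕ), 0 ≤ Tt ∧ 0 ≤ A₂ ∧ 0 ≤ At ∧ 0 ≤ Es ∧ 0 ≤ Ro ∧ 0 ≤ Ro' ∧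
    p.E0 ≤ p.B ∧
    ((p.N₁ : ℝ) / (p.K * Real.exp (-hS p)) ^ 2) ^ (1 / 6 : ℝ) ≤ p.E0⁻¹ ∧ (p.N₁ : ℝ) < 2 ^ I ∧
    Tt + A₂ + At + Real.exp (hS p / 3) * (Es + Ro') + Ro ≤ Rn ∧
    NumT p.Cw p.η p.Aw p.K p.X p.Y p.R p.J p.D p.E0 p.N₁ α Tt ∧
    Num2 N M F p.Cw p.η p.Aw p.K p.X p.R p.J p.D p.E0 (hS p) p.N₁ I α A₂ ∧
    NumEq N M F (Qf p) p.Cw p.η p.Aw p.K p.X p.R p.J p.D p.E0 (hS p) p.N₁ α At ∧
    NumSq w (Qf p) p.Cw p.η p.Aw p.K p.X p.R p.J (hS p) α Es ∧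
    NumOs w p.Cw p.η p.Aw p.K p.X p.K p.R p.J p.D p.E0 p.E1 p.B (p.N₁ / 2) p.N₁ α Ro ∧
    NumOs w p.Cw p.η p.Aw p.K p.X (p.K * Real.exp (-hS p)) p.R p.J p.D p.E0 p.E1 p.E0
      (p.N₁ / 2) p.N₁ α Ro'

lemma NumSC.mono {w : ℝ → ℝ} {N : ℕ} {M : ℝ} {F : ℕ → ℝ → ℂ} {Qf : LBq → Eis → Prop} {p : LBq}
    {α : Eis → ℂ} {Rn Rn' : ℝ} (h : NumSC w N M F Qf p α Rn) (hR : Rn ≤ Rn') :
    NumSC w N M F Qf p α Rn' := by
  obtain ⟨Tt, A₂, At, Es, Ro, Ro', I, h1, h2, h3, h4, h5, h6, h7, h9, h10, h11, h12⟩ := h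
  exact ⟨Tt, A₂, At, Es, Ro, Ro', I, h1, h2, h3, h4, h5, h6, h7, h9, h10, h11.trans hR, h12⟩

/-- the size of the cross number -/
lemma ec_le {A₂ At q e1 s Es Ro' m : ℝ} (hq : 0 ≤ q) (hEs : 0 ≤ Es) (hRo : 0 ≤ Ro')
    (hm : 0 ≤ m) (he : 0 < e1) (hes : e1 ≤ s) :
    A₂ + At + q * e1 * m + e1⁻¹ * Real.sqrt (Es * (q * e1 ^ 2 * (2 * m) + Ro')) ≤
      2 * q * (s * m) + (A₂ + At + e1⁻¹ * (Es + Ro')) := by
  have hi : 0 < e1⁻¹ := inv_pos.2 he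
  obtain ⟨y, hy⟩ : ∃ y : ℝ, y = q * e1 ^ 2 * (2 * m) + Ro' := ⟨_, rfl⟩
  have hy0 : 0 ≤ y := by rw [hy]; positivity
  have h1 : Real.sqrt (Es * y) ≤ (Es + y) / 2 := by
    rw [Real.sqrt_le_left (by positivity)]
    nlinarith [sq_nonneg (Es - y)]
  have h2 : e1⁻¹ * Real.sqrt (Es * y) ≤ e1⁻¹ * ((Es + y) / 2) :=
    mul_le_mul_of_nonneg_left h1 hi.le
  have h3 : e1⁻¹ * ((Es + y) / 2) = e1⁻¹ * (Es + Ro') / 2 + q * e1 * m := by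
    rw [hy]
    field_simp
    ring
  have h5 : q * e1 * m ≤ q * (s * m) := by
    rw [mul_assoc]
    gcongr
  have h6 : 0 ≤ e1⁻¹ * (Es + Ro') := by positivity
  rw [← hy]
  linarith

set_option maxHeartbeats 400000 in
/-- **the lower bound with the compensated cross number** -/
theorem lbs_C {w : ℝ → ℝ} (hw : Wgt w) (hw0 : ∀ x, 0 ≤ w x) {N : ℕ} {M : ℝ}
    {F : ℕ → ℝ → ℂ} (hD : WD w N M F) {Qf : LBq → Eis → Prop}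
    (hQf : ∀ q k, IsPrim k → Qf q k → Cut q.E1 k) : LBS w 0 (NumSC w N M F Qf) := by
  intro Cw R ε Aw J hCw hR hε hJA
  obtain ⟨C₁, hC₁, H₁⟩ := lb_bsQ hw hw0 hCw hR hε hJA
  obtain ⟨C₂, hC₂, H₂⟩ := numCQ_of hw hw0 hD hCw hR (half_pos hε) hJA
  refine ⟨C₁ * (1 + 2 * C₂), by positivity, ?_⟩
  intro K X Y D G₀ E0 E1 B θ η N₁ hK hKY hX hY hD0 hDY hE0 hE0Y hB hθ hBθ hN₁ hN₁Y hKθ hη hη1
    α hα hαR hαn Ma Ml Rn hMa hMl hRn hSA hL hRh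
  obtain ⟨Tt, A₂, At, Es, Ro, Ro', I, g1, g2, g3, g4, g5, g6, hEB, hθh, hI, hsum, n1, n2,
    n3, n4, n5, n6⟩ := hRh
  simp only at hEB hθh hI hsum n1 n2 n3 n4 n5 n6
  have hE00 : 0 < E0 := by linarith
  have hB0 : 0 < B := by linarith
  obtain ⟨h, hh⟩ : ∃ h : ℝ, h = hS ⟨Cw, η, Aw, K, X, Y, R, J, N₁, E0, E1, B, θ, D, G₀⟩ := ⟨_, rfl⟩
  rw [← hh] at hθh hsum n2 n3 n4 n6
  have hhd : h = 3 * Real.log (B / E0) := hh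
  have hh0 : 0 ≤ h := by
    rw [hhd]
    have : 0 ≤ Real.log (B / E0) := Real.log_nonneg (by rwa [le_div_iff₀ hE00, one_mul])
    linarith
  have hex : Real.exp (h / 3) = B / E0 := by
    rw [hhd, mul_div_cancel_left₀ _ (by norm_num : (3 : ℝ) ≠ 0), Real.exp_log (by positivity)]
  have hexn : Real.exp (-(h / 3)) = E0 / B := by
    rw [Real.exp_neg, hex, inv_div]
  have hex2 : Real.exp (-(2 * h / 3)) = (E0 / B) ^ 2 := by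
    rw [← hexn, ← Real.exp_nat_mul]
    congr 1
    push_cast
    ring
  have hEi : E0⁻¹ * E0 = 1 := inv_mul_cancel₀ hE00.ne'
  have c1 := H₂ K X Y D G₀ E0 E1 E0 E0⁻¹ h η N₁ I hK hKY hX hY hD0 hDY hE0 hE0Y hE0
    (inv_pos.2 hE00).le le_rfl hN₁ hN₁Y hθh hh0 hI hη hη1 α hα Ma Ml A₂ At Es Ro' hMa hMl g2 g3 g4 g6 hSA hL
    (Qf ⟨Cw, η, Aw, K, X, Y, R, J, N₁, E0, E1, B, θ, D, G₀⟩) (fun k hk _ hq => hQf _ k hk hq)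
    n2 n3 n4 n6
  have hη' : 1 ≤ η⁻¹ := (one_le_inv₀ hη).mpr hη1
  have hY0 : 0 < Y := by linarith
  obtain ⟨q, hqd⟩ : ∃ q : ℝ, q = C₂ * (η⁻¹) ^ J * (Y ^ (ε / 2) * Y ^ (ε / 2)) := ⟨_, rfl⟩
  have hq0 : 0 ≤ q := by rw [hqd]; positivity
  have hm : 0 ≤ Ma + Ml := by linarith
  have hs0 : 0 ≤ θ * E0 := by positivity
  have hes : E0 / B ≤ θ * E0 := by
    rw [div_eq_mul_inv, mul_comm E0]
    exact mul_le_mul_of_nonneg_right hBθ hE00.le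
  rw [← hqd, hexn, hex2, hex, hEi, show (1 : ℝ) + 1 = 2 by norm_num] at c1
  obtain ⟨Ec, hEc⟩ : ∃ Ec : ℝ, Ec = A₂ + At + q * (E0 / B) * (Ma + Ml) +
      B / E0 * Real.sqrt (Es * (q * (E0 / B) ^ 2 * (2 * (Ma + Ml)) + Ro')) := ⟨_, rfl⟩
  have hEc0 : 0 ≤ Ec := by rw [hEc]; positivity
  rw [← hEc] at c1
  have hEcle : Ec ≤ 2 * q * (θ * E0 * (Ma + Ml)) + (A₂ + At + B / E0 * (Es + Ro')) := by
    have := ec_le (A₂ := A₂) (At := At) hq0 g4 g6 hm (div_pos hE00 hB0) hes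
    rw [inv_div] at this
    rw [hEc]
    exact this
  have key := H₁ K X Y D G₀ E0 E1 B θ η N₁ hK hKY hX hY hD0 hDY hE0 hE0Y hB hθ hBθ hN₁ hN₁Y hKθ
    hη hη1 α hα hαR hαn _ (hQf ⟨Cw, η, Aw, K, X, Y, R, J, N₁, E0, E1, B, θ, D, G₀⟩) Ma Ml Tt Ec Ro
    hMa hMl g1 hEc0 g5 hSA hL n1 c1 n5
  intro p hp t X' φ hX' hXX hφ hφs
  refine (key p hp t X' φ hX' hXX hφ hφs).trans ?_
  have hYe : Y ^ (ε / 2) * Y ^ (ε / 2) = Y ^ ε := by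
    rw [← Real.rpow_add hY0]
    congr 1
    ring
  have hYε : 1 ≤ Y ^ ε := Real.one_le_rpow hY hε.le
  have e2 : Y ^ ε * Y ^ ε * Y ^ ε * Y ^ ε = Y ^ (4 * ε) := by
    rw [← Real.rpow_add hY0, ← Real.rpow_add hY0, ← Real.rpow_add hY0]
    congr 1
    ring
  have hJ1 : 1 ≤ (η⁻¹) ^ J := one_le_pow₀ hη'
  have e1 : (η⁻¹) ^ J * (η⁻¹) ^ J ≤ (η⁻¹) ^ (2 * J + 2) := by
    rw [← pow_add]
    exact pow_le_pow_right₀ hη' (by omega)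
  rw [hex] at hsum
  have e3 : X ^ 2 + θ * E0 * (Ma + Ml) + Tt + Ec + Ro ≤
      (1 + 2 * C₂) * ((η⁻¹) ^ J * Y ^ ε) * (X ^ 2 + θ * E0 * (Ma + Ml) + Rn) := by
    have a1 : X ^ 2 + θ * E0 * (Ma + Ml) + Tt + Ec + Ro ≤
        (1 + 2 * q) * (X ^ 2 + θ * E0 * (Ma + Ml) + Rn) := by
      have b1 : 0 ≤ 2 * q * (X ^ 2 + Rn) := by positivity
      linarith
    have a2 : 1 + 2 * q ≤ (1 + 2 * C₂) * ((η⁻¹) ^ J * Y ^ ε) := by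
      have b1 : 1 ≤ (η⁻¹) ^ J * Y ^ ε := one_le_mul_of_one_le_of_one_le hJ1 hYε
      rw [hqd, hYe]
      linarith
    have a3 : 0 ≤ X ^ 2 + θ * E0 * (Ma + Ml) + Rn := by positivity
    exact a1.trans (mul_le_mul_of_nonneg_right a2 a3)
  have e5 : C₁ * (η⁻¹) ^ J * (Y ^ ε * Y ^ ε * Y ^ ε) *
      (X ^ 2 + θ * E0 * (Ma + Ml) + Tt + Ec + Ro) ≤
      C₁ * (1 + 2 * C₂) * (η⁻¹) ^ (2 * J + 2) * Y ^ (4 * ε) *
        (X ^ 2 + (θ * E0 + 0 * E0⁻¹) * (Ma + Ml) + Rn) := by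
    rw [zero_mul, add_zero]
    have a3 : 0 ≤ X ^ 2 + θ * E0 * (Ma + Ml) + Rn := by positivity
    calc C₁ * (η⁻¹) ^ J * (Y ^ ε * Y ^ ε * Y ^ ε) *
          (X ^ 2 + θ * E0 * (Ma + Ml) + Tt + Ec + Ro) ≤
        C₁ * (η⁻¹) ^ J * (Y ^ ε * Y ^ ε * Y ^ ε) *
          ((1 + 2 * C₂) * ((η⁻¹) ^ J * Y ^ ε) * (X ^ 2 + θ * E0 * (Ma + Ml) + Rn)) :=
          mul_le_mul_of_nonneg_left e3 (by positivity)
      _ = C₁ * (1 + 2 * C₂) * ((η⁻¹) ^ J * (η⁻¹) ^ J) * (Y ^ ε * Y ^ ε * Y ^ ε * Y ^ ε) *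
          (X ^ 2 + θ * E0 * (Ma + Ml) + Rn) := by ring
      _ ≤ C₁ * (1 + 2 * C₂) * (η⁻¹) ^ (2 * J + 2) * Y ^ (4 * ε) *
          (X ^ 2 + θ * E0 * (Ma + Ml) + Rn) := by
          rw [e2]
          gcongr
  have hKX : 0 ≤ K / X := by positivity
  refine mul_le_mul_of_nonneg_left (mul_le_mul_of_nonneg_right (e5.trans (le_of_eq (by ring)))
    (by positivity)) hKX

end Crest.Agent.R017.NE499
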