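import Crest.Agent.R017.NEb_499

/-!
# Row 17, FlatNE, list level (helper73): the tail squares from the T-claims

* `numT_of` : `NumT` from (SA0), (L+) : `Tt = C η^{-J} (9 Y)^ε E0⁻¹ (Ma + Ml)`
* `lb_bt`   : (LB) at `bt φ α p · pw t`, plain weight, weight `rhs N₁`, without `NumT`
-/

set_option autoImplicit false
set_option linter.unusedVariables false

noncomputable section

open Complex MeasureTheory
open scoped ComplexConjugate Classical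

namespace Crest.Agent.R017.NE73

open Crest.Agent.R012 Crest.Agent.R012.Eis Crest.Agent.R012.MC
open Crest.Agent.R012.LS2 (S mem_S)
open Crest.Agent.R012.Weight600 (osc pw)
open Crest.Agent.R017.CM106 (CS TG FS)
open Crest.Agent.R017.E1551 hiding tau Dg
open Crest.Agent.R017.C70 (JW JC OKJ okJ_JW)
open Crest.Agent.R017.EHu320 (EHc)
open Crest.Agent.R017.I1146 (M2o omr)
open Crest.Agent.R017.Win813 (WK)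
open Crest.Agent.R017.RGw813 (T9 bt)
open Crest.Agent.R017.LBo813 (Om rho)
open Crest.Agent.R017.NEsm551 (rhs)
open Crest.Agent.R017.Rough381 (VF)
open Crest.Agent.R017.LBx48 (EHs EHf EHt EHc_nonneg)
open Crest.Agent.R017.NE499

/-- **the tail squares** -/
theorem numT_of {Cw R ε : ℝ} {Aw J : ℕ} (hCw : 0 ≤ Cw) (hR : 0 ≤ R) (hε : 0 < ε)
    (hJA : J + 2 ≤ Aw) : ∃ C : ℝ, 0 ≤ C ∧
    ∀ (K X Y D G₀ E0 η : ℝ) (N₁ : ℕ), 0 < K → 0 < X → 1 ≤ Y → 1 ≤ E0 → (N₁ : ℝ) ≤ Y →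
    0 < η → η ≤ 1 → ∀ α : Eis → ℂ, (∀ n, α n ≠ 0 → n ∈ S Y) →
    ∀ Ma Ml : ℝ, 0 ≤ Ma → 0 ≤ Ml →
    (∀ g ∈ S Y, (nm g : ℝ) ≤ G₀ → ∀ V : ℝ, 1 ≤ V → V ≤ 9 * N₁ * nm g → ∀ t : ℝ,
      VF V (tws (sg α g) t) ≤
        Ma / (nm g : ℝ) ^ 2 * ((V * K / (X / nm g) ^ 2) ^ (1 / 3 : ℝ)) * (1 + |t|) ^ J) →
    (∀ g ∈ S Y, ∀ B V : ℝ, 1 ≤ B → B ≤ Y → 1 ≤ V → V ≤ 9 * N₁ / (nm g : ℝ) ^ 2 → ∀ t : ℝ,
      E1551.JB Y α (fun U => G₀ < nm (g * U)) g B V t ≤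
        Ml / (nm g : ℝ) ^ 2 * yv K X g V * (1 + |t|) ^ J) →
    NumT Cw η Aw K X Y R J D E0 N₁ α (C * (η⁻¹) ^ J * Y ^ ε * (E0⁻¹ * (Ma + Ml))) := by
  obtain ⟨C₁, hC₁, H₁⟩ := LBx48.M2_le 1 zero_le_one (J + 2) (by omega)
  obtain ⟨C₂, hC₂, H₂⟩ := LBT381.lbt_all4 (J := J) (Aw := Aw) (A := J + 2) le_rfl hJA hR hCw hε
  refine ⟨C₁ * (C₂ * 9 ^ ε), by positivity, ?_⟩
  intro K X Y D G₀ E0 η N₁ hK hX hY hE0 hN₁Y hη hη1 α hα Ma Ml hMa hMl hSA hL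
    p hp t X' φ hX' hXX hφ hφs
  have hY0 : 0 < Y := by linarith
  have hE00 : 0 < E0 := by linarith
  have hN0 : (0 : ℝ) ≤ N₁ := Nat.cast_nonneg _
  have hadm : Adm Y X' 1 (fun n => bt φ α p n * pw t (nm n)) :=
    adm_mz hη1 (RGw813.adm_bt hφs hα p t)
  have s2 := H₂ (9 * Y) K X X' Y η N₁ G₀ Ma Ml E0 0 0 1 0 α (by linarith) hK hX hX' hXX hY
    (by linarith) hN0 (by linarith) hη hη1 hMa hMl hE00 le_rfl le_rfl zero_le_one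
    le_rfl hα hSA hL p hp φ hφ t
  clear hSA hL
  generalize (fun n => bt φ α p n * pw t (nm n)) = β at hadm s2 ⊢
  have s1 := H₁ Y X' K D (1 / 10) N₁ hY hX' hK (fun e => e ∉ S E0) β hadm
  have s3 : K ^ (2 / 3 : ℝ) * M2J Y E0 (JW D (1 / 10) N₁) β ≤
      C₁ * ((K / X') * EHt ((J + 2 : ℕ) : ℝ) K X' Y N₁ E0 β) := by
    refine le_trans (le_of_eq ?_) (s1.trans (le_of_eq ?_))
    · unfold M2J I1146.M2o
      congr 1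
      refine Finset.sum_congr rfl fun x _ => ?_
      congr 1
      refine Finset.sum_congr ?_ fun _ _ => rfl
      ext e
      simp only [Finset.mem_filter]
    · unfold LBx48.EHt
      ring
  refine s3.trans ?_
  simp only [zero_mul, zero_add, add_zero, one_mul] at s2
  refine (mul_le_mul_of_nonneg_left s2 hC₁).trans (le_of_eq ?_)
  rw [Real.mul_rpow (by norm_num) hY0.le]
  ring

lemma mono_bz {w : ℝ → ℝ} {Cw η : ℝ} {Aw : ℕ} {K X Y D : ℝ} {N₁ : ℕ} {ρ : ℕ → ℝ} {R : ℝ}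
    {J : ℕ} {α : Eis → ℂ} {E E' : ℝ} (hK : 0 ≤ K) (hX : 0 ≤ X) (h : E ≤ E')
    (hh : LBnz w Cw η Aw K X Y D N₁ ρ R J α E) : LBnz w Cw η Aw K X Y D N₁ ρ R J α E' := by
  intro p hp t X' φ h1 h2 h3 h4
  refine (hh p hp t X' φ h1 h2 h3 h4).trans ?_
  have h5 : 0 ≤ (1 + |t|) ^ J := by positivity
  have h6 : 0 ≤ K / X := by positivity
  exact mul_le_mul_of_nonneg_left (mul_le_mul_of_nonneg_right h h5) h6

/-- **(LB), plain weight, weight `rhs N₁`, the tail squares from the `T`-claims** : literal form of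
helper551's `LBS w 1` -/
theorem lb_bt {w : ℝ → ℝ} (hw : Wgt w) (hw0 : ∀ x, 0 ≤ w x)
    {Cw R ε : ℝ} {Aw J : ℕ} (hCw : 0 ≤ Cw) (hR : 0 ≤ R) (hε : 0 < ε)
    (hJA : J + 2 ≤ Aw) : ∃ C : ℝ, 0 ≤ C ∧
    ∀ (K X Y D G₀ E0 E1 B θ η : ℝ) (N₁ : ℕ), 0 < K → K ≤ Y → 0 < X → 1 ≤ Y →
    0 ≤ D → D ≤ Y → 1 ≤ E0 → E0 ≤ Y → 1 ≤ B → 0 < θ → B⁻¹ ≤ θ →
    1 ≤ N₁ → (N₁ : ℝ) ≤ Y → ((N₁ : ℝ) / K ^ 2) ^ (1 / 6 : ℝ) ≤ θ → 0 < η → η ≤ 1 →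
    ∀ α : Eis → ℂ, (∀ n, α n ≠ 0 → n ∈ S Y) →
    (∀ n, α n ≠ 0 → |Real.log (nm n) - Real.log X| ≤ R) → (∀ n, ‖α n‖ ≤ Y ^ ε) →
    ∀ Ma Ml Ec Ro : ℝ, 0 ≤ Ma → 0 ≤ Ml → 0 ≤ Ec → 0 ≤ Ro →
    (∀ g ∈ S Y, (nm g : ℝ) ≤ G₀ → ∀ V : ℝ, 1 ≤ V → V ≤ 9 * N₁ * nm g → ∀ t : ℝ,
      VF V (tws (sg α g) t) ≤
        Ma / (nm g : ℝ) ^ 2 * ((V * K / (X / nm g) ^ 2) ^ (1 / 3 : ℝ)) * (1 + |t|) ^ J) →
    (∀ g ∈ S Y, ∀ B V : ℝ, 1 ≤ B → B ≤ Y → 1 ≤ V → V ≤ 9 * N₁ / (nm g : ℝ) ^ 2 → ∀ t : ℝ,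
      E1551.JB Y α (fun U => G₀ < nm (g * U)) g B V t ≤
        Ml / (nm g : ℝ) ^ 2 * yv K X g V * (1 + |t|) ^ J) →
    NumCs w Cw η Aw K X Y R J D E0 E1 N₁ α Ec →
    NumOs w Cw η Aw K X K R J D E0 E1 B (N₁ / 2) N₁ α Ro →
    LBnz w Cw η Aw K X Y D N₁ (rhs N₁) R J α
      (C * (η⁻¹) ^ (2 * J + 2) * Y ^ (4 * ε) *
        (X ^ 2 + (θ * E0 + E0⁻¹) * (Ma + Ml) + (Ec + Ro))) := by
  obtain ⟨C₁, hC₁, H₁⟩ := lb_bs hw hw0 hCw hR hε hJA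
  obtain ⟨C₂, hC₂, H₂⟩ := numT_of hCw hR hε hJA
  refine ⟨C₁ * (1 + C₂), by positivity, ?_⟩
  intro K X Y D G₀ E0 E1 B θ η N₁ hK hKY hX hY hD hDY hE0 hE0Y hB hθ hBθ hN₁ hN₁Y
    hKθ hη hη1 α hα hαR hαn Ma Ml Ec Ro hMa hMl hEc hRo hSA hL hNC hNO
  have hY0 : 0 < Y := by linarith
  have hq : 1 ≤ Y ^ ε := Real.one_le_rpow hY hε.le
  have hE00 : 0 < E0 := by linarith
  have hT := H₂ K X Y D G₀ E0 η N₁ hK hX hY hE0 hN₁Y hη hη1 α hα Ma Ml hMa hMl hSA hL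
  have h1 := H₁ K X Y D G₀ E0 E1 B θ η N₁ hK hKY hX hY hD hDY hE0 hE0Y hB hθ hBθ hN₁ hN₁Y
    hKθ hη hη1 α hα hαR hαn Ma Ml (C₂ * (η⁻¹) ^ J * Y ^ ε * (E0⁻¹ * (Ma + Ml))) Ec Ro hMa hMl
    (by positivity) hEc hRo hSA hL hT hNC hNO
  refine mono_bz hK.le hX.le ?_ h1
  have hi : 1 ≤ η⁻¹ := (one_le_inv₀ hη).mpr hη1
  obtain ⟨u, hu⟩ : ∃ u : ℝ, u = (η⁻¹) ^ J := ⟨_, rfl⟩
  have hu1 : 1 ≤ u := by rw [hu]; exact one_le_pow₀ hi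
  have e1 : (η⁻¹) ^ (2 * J + 2) = u * u * (η⁻¹) ^ 2 := by rw [hu]; ring
  have e2 : 1 ≤ (η⁻¹) ^ 2 := one_le_pow₀ hi
  obtain ⟨q, hqd⟩ : ∃ q : ℝ, q = Y ^ ε := ⟨_, rfl⟩
  have e3 : Y ^ (4 * ε) = q * q * q * q := by
    rw [hqd, mul_comm, Real.rpow_mul hY0.le]
    norm_cast
    ring
  rw [← hqd] at hq
  rw [e1, e3, ← hu, ← hqd]
  obtain ⟨m, hm⟩ : ∃ m : ℝ, m = E0⁻¹ * (Ma + Ml) := ⟨_, rfl⟩
  have hm0 : 0 ≤ m := by rw [hm]; positivity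
  obtain ⟨G, hG⟩ : ∃ G : ℝ, G = X ^ 2 + θ * E0 * (Ma + Ml) + Ec + Ro := ⟨_, rfl⟩
  have hG0 : 0 ≤ G := by rw [hG]; positivity
  have e4 : X ^ 2 + θ * E0 * (Ma + Ml) + C₂ * u * q * (E0⁻¹ * (Ma + Ml)) + Ec + Ro =
      G + C₂ * u * q * m := by rw [hG, hm]; ring
  have e5 : X ^ 2 + (θ * E0 + E0⁻¹) * (Ma + Ml) + (Ec + Ro) = G + m := by rw [hG, hm]; ring
  rw [e4, e5]
  have huq : 1 ≤ u * q := one_le_mul_of_one_le_of_one_le hu1 hq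
  have f1 : G + C₂ * u * q * m ≤ (1 + C₂) * (u * q) * (G + m) := by
    have g1 : G ≤ (u * q) * G := le_mul_of_one_le_left hG0 huq
    have g2 : 0 ≤ C₂ * ((u * q) * G) := by positivity
    have g3 : 0 ≤ (u * q) * m := by positivity
    nlinarith
  calc C₁ * u * (q * q * q) * (G + C₂ * u * q * m) ≤
        C₁ * u * (q * q * q) * ((1 + C₂) * (u * q) * (G + m)) := by
        refine mul_le_mul_of_nonneg_left f1 ?_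
        have : 0 ≤ q := by linarith
        have : 0 ≤ u := by linarith
        positivity
    _ = (C₁ * (1 + C₂) * (u * u) * (q * q * q * q) * (G + m)) * 1 := by ring
    _ ≤ (C₁ * (1 + C₂) * (u * u) * (q * q * q * q) * (G + m)) * (η⁻¹) ^ 2 := by
        refine mul_le_mul_of_nonneg_left e2 ?_
        have : 0 ≤ q := by linarith
        have : 0 ≤ u := by linarith
        positivity
    _ = _ := by ring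

end Crest.Agent.R017.NE73
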