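import Crest.Agent.R017.NEb_499
import Crest.Agent.R017.NEh_551
import Crest.Agent.R017.LBu_180

/-!
# Row 17, R8 / P1X: the near-equal triple, exceptional class (helper911): (LB) with a smooth level cut
and a cut `Q` of the frequencies

helper499's `LBsq`, `lb_bs` with `Q k → Cut E1 k` and ONE cross number

* `LBsqQ`  : `2 cP K^(2/3) XJw ρ - SqP ≤ C P^ε ((K/X) θ EHs + K^(2/3) M2J + e₂ + OFF)`
* `NumCQ`, `lb_bsQ` : at `bt φ α p · pw t`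
* `RhQ`, `lbs_Q` : the instance of helper551's `LBS`
-/

set_option autoImplicit false
set_option linter.unusedVariables false

noncomputable section

open Complex MeasureTheory
open scoped ComplexConjugate Classical

namespace Crest.Agent.R017.NEx911

open Crest.Agent.R012 Crest.Agent.R012.Eis Crest.Agent.R012.MC
open Crest.Agent.R012.LS2 (S mem_S)
open Crest.Agent.R012.Mob705 (pdiv kap0)
open Crest.Agent.R012.Div277 (tau)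
open Crest.Agent.R012.Weight600 (osc pw)
open Crest.Agent.R017.PX764 (Gh n6)
open Crest.Agent.R017.X6C180 (n13 GF)
open Crest.Agent.R017.CM106 (CS TG FS)
open Crest.Agent.R017.E1551 hiding tau Dg
open Crest.Agent.R017.C70 (JW JC OKJ okJ_JW)
open Crest.Agent.R017.E2440 (TE Jb Qs prs C4 StE Fh)
open Crest.Agent.R017.EHu320 (EHc)
open Crest.Agent.R017.LB48 (CrP GrP)
open Crest.Agent.R017.I1146 (omr E2s c3 c3_nonneg LBw Dfw M2o)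
open Crest.Agent.R017.E3M829 (Cut Tal TC_Tal Sg gram_fin TF)
open Crest.Agent.R017.E3A164 (SteT Ys Fy)
open Crest.Agent.R017.DgB829 (HS HS_nonneg HS_le)
open Crest.Agent.R017.Win813 (WK)
open Crest.Agent.R017.RGw813 (T9 bt)
open Crest.Agent.R017.LBo813 (Om rho Om_nonneg Om_le_one)
open Crest.Agent.R017.NEsm551 (rhs Om_01)
open Crest.Agent.R017.Rough381 (VF)
open Crest.Agent.R017.LBx48
open Crest.Agent.R017.NE499

set_option maxHeartbeats 4000000 in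
/-- **(LB), smooth level cut, frequencies cut by `Q`** (`Q k → Cut E1 k`) : ONE cross number -/
theorem LBsqQ {w : ℝ → ℝ} (hw : Wgt w) (hw0 : ∀ x, 0 ≤ w x) {R : ℝ} (hR : 0 ≤ R) {A : ℕ}
    (hA : 2 ≤ A) {ε : ℝ} (hε : 0 < ε) : ∃ C : ℝ, 0 ≤ C ∧
    ∀ (P K X Y D Y₀ Z E0 E1 B θ : ℝ), 1 ≤ P → 0 < K → K ≤ P → 0 < X → 1 ≤ Y → Y ≤ P →
    0 ≤ D → D ≤ P → 0 < Z → Z ≤ P → 0 ≤ E0 → E0 ≤ Y → 1 ≤ B → 0 < θ → B⁻¹ ≤ θ →
    (Z / K ^ 2) ^ (1 / 6 : ℝ) ≤ θ →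
    ∀ α : Eis → ℂ, Adm Y X R α → ∀ Om ρ : ℕ → ℝ, (∀ n, ρ n = (3 * Om n - Om n ^ 2) / 2) →
    (∀ n, 0 ≤ Om n ∧ Om n ≤ 1) → ∀ Q : Eis → Prop, (∀ k, IsPrim k → Q k → Cut E1 k) →
    ∀ e₂ OFF : ℝ, 0 ≤ OFF →
    ‖CrP w K α (fun k => if Q k then StE E0 (JW D Y₀ Z) (omr Om) α k else 0) -
      ((pC * (kap0 * mel w (2 / 3) * K ^ (2 / 3 : ℝ)) : ℝ) : ℂ) *
        I1146.X2 Y E0 (JW D Y₀ Z) (omr Om) α‖ ≤ e₂ →
    Sg w K B Z E1 (fun q t k₁ => ‖∑ y ∈ Ys (JW D Y₀ Z) E0 Z,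
        Fy (JW D Y₀ Z) (omr Om) (Tal α) q t k₁ y‖ ^ 2) ≤
      Sg w K B Z E1 (fun q t k₁ => E3M829.Dg (JW D Y₀ Z) (omr Om) (Tal α) E0 Z q t k₁) + OFF →
    2 * cP w * K ^ (2 / 3 : ℝ) * (XJw ρ (JW D Y₀ Z) α).re - SqP w K α ≤
      C * P ^ ε * (((K / X) * (θ * EHs A K X Y Z E0 α) +
        K ^ (2 / 3 : ℝ) * M2J Y E0 (JW D Y₀ Z) α) + e₂ + OFF) := by
  obtain ⟨C₃, hC₃, H₃⟩ := TF_le R hR A hA
  obtain ⟨C₄, hC₄, H₄⟩ := gram_fin hw hw0 hε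
  obtain ⟨C₅, hC₅, H₅⟩ := PInv255.one_add_log_pow_le 1 ε hε
  have hP := Cst401.pC_pos
  set M := |c3 w 1| with hM
  have hM0 : 0 ≤ M := abs_nonneg _
  set C := 2 * pC + pC ^ 2 * (2 * C₄ * C₃ + 1) + pC ^ 2 * M * (200 * C₅ * (3 * 1))
    with hCdef
  refine ⟨C, by positivity, ?_⟩
  intro P K X Y D Y₀ Z E0 E1 B θ hP1 hK hKP hX hY hYP hD hDP hZ hZP hE0 hE0Y hB hθ hBθ hKθ
    α hα Om ρ hρ h01 Q hQ e₂ OFF hOFF he₂ hoff
  have h0 : ∀ n, 0 ≤ Om n := fun n => (h01 n).1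
  have h1 : ∀ n, Om n ≤ 1 := fun n => (h01 n).2
  obtain ⟨I, hI⟩ := pow_unbounded_of_one_lt Z (by norm_num : (1 : ℝ) < 2)
  have hY0 : 0 ≤ Y := by linarith
  have hPe : 1 ≤ P ^ ε := Real.one_le_rpow hP1 hε.le
  set J := JW D Y₀ Z with hJ
  set om := omr Om with hom
  have hom1 : ∀ x, ‖om x‖ ≤ 1 := by
    intro x
    rw [hom]
    unfold I1146.omr
    rw [Complex.norm_real, Real.norm_of_nonneg (h0 _)]
    exact h1 _
  have hJok : OKJ J := okJ_JW D Y₀ Z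
  have hJm := fun x (hx : x ∈ J) => I1146.JW_mem (Y₀ := Y₀) hD hZ hI x hx
  -- the Gram sum
  have a1 := H₄ K P Z E0 E1 B hK hP1 hKP hE0 (hE0Y.trans hYP) hZP hB J hJok
    (fun x hx => ((mem_S hD).1 (hJm x hx).1).1.trans hDP) (fun x hx => (hJm x hx).2.1) om (Tal α)
    (TC_Tal fun n hn => ((mem_S hY0).1 (hα.sup n hn)).2.2) OFF hoff
  rw [E3M829.XT_eq hE0 hE0Y] at a1
  have e1 : GrP w K (fun k => if Cut E1 k then StE E0 J om α k else 0) =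
      ∑' k : Eis, if IsPrim k ∧ Cut E1 k then
        w ((nm k : ℝ) / K) * ‖SteT J om E0 (Tal α) k‖ ^ 2 else 0 := by
    unfold LB48.GrP
    refine tsum_congr fun k => ?_
    rw [E3M829.SteT_Tal]
    beta_reduce
    by_cases h2 : IsPrim k
    · by_cases h3 : Cut E1 k
      · rw [if_pos h2, if_pos h3, if_pos ⟨h2, h3⟩]
      · rw [if_pos h2, if_neg h3, if_neg (fun h => h3 h.2)]
        simp
    · rw [if_neg h2, if_neg (fun h => h2 h.1)]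
  rw [← e1] at a1
  set TFa := TF (1 / 2) J om E0 (Tal α) with hTFa
  set TFb := TF (-1) J om E0 (Tal α) with hTFb
  have e2 : kap0 * K ^ (2 / 3 : ℝ) * E3M829.Iw w = c3 w K := by
    rw [I1146.Iw_eq]; unfold I1146.c3; ring
  rw [e2] at a1
  set e₃ := C₄ * P ^ ε * K ^ (2 / 3 : ℝ) * ((Z / K ^ 2) ^ (1 / 6 : ℝ) * TFa + B⁻¹ * TFb) + OFF
    with he₃
  have h3 : GrP w K (fun k => if Cut E1 k then StE E0 J om α k else 0) ≤
      c3 w K * (I1146.X3 Y E0 J om α).re + e₃ := by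
    rw [he₃]; linarith
  have a2 : 2 * cP w * K ^ (2 / 3 : ℝ) * (XJw ρ J α).re - SqP w K α ≤
      2 * pC * (e₂ + 0) + pC ^ 2 * e₃ + pC ^ 2 * c3 w K * (HS Y * (2 * M2J Y E0 J α)) := by
    have hc := c3_nonneg hw0 hK
    have h3' : GrP w K (fun k => if Q k then StE E0 J om α k else 0) ≤
        c3 w K * (I1146.X3 Y E0 J om α).re + e₃ :=
      (LBu180.GrP_le hw hw0 hK fun k hk _ hq => hQ k hk hq).trans h3
    have het0 : ‖CrP w K α (fun k : Eis => @ite ℂ True (Classical.propDecidable True) 0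
        (if Q k then StE E0 J om α k else 0))‖ ≤ 0 := by
      unfold LB48.CrP
      simp
    have h3'' : GrP w K (fun k : Eis => @ite ℂ True (Classical.propDecidable True)
        (if Q k then StE E0 J om α k else 0) 0) ≤ c3 w K * (I1146.X3 Y E0 J om α).re + e₃ := by
      have e : (fun k : Eis => @ite ℂ True (Classical.propDecidable True)
          (if Q k then StE E0 J om α k else 0) 0) =
          fun k => if Q k then StE E0 J om α k else 0 := by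
        funext k
        rw [if_pos trivial]
      rw [e]
      exact h3'
    have a4 := I1146.core_lb hw hw0 hK α (fun k => if Q k then StE E0 J om α k else 0)
      (fun _ => True)
      (Z₁ := XJw ρ J α) (c₃ := c3 w K) hP.le he₂ het0 h3''
    have a6 := NEsm551.comb_m hY0 hα.sup hJok E0 h0 h1
    have hρ' : NEsm551.rhm Om = ρ := by
      funext n
      rw [hρ n]
      rfl
    rw [hρ'] at a6
    have a6' : (XJw ρ J α).re - 2 * (I1146.X2 Y E0 J om α).re + (I1146.X3 Y E0 J om α).re ≤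
        HS Y * (2 * M2J Y E0 J α) := a6.trans (le_of_eq (by unfold M2J; ring))
    have a7 : pC ^ 2 * c3 w K * ((XJw ρ J α).re -
        2 * (I1146.X2 Y E0 J om α).re + (I1146.X3 Y E0 J om α).re) ≤
        pC ^ 2 * c3 w K * (HS Y * (2 * M2J Y E0 J α)) :=
      mul_le_mul_of_nonneg_left a6' (by positivity)
    have e1 : 2 * cP w * K ^ (2 / 3 : ℝ) * (XJw ρ J α).re =
        pC ^ 2 * c3 w K * (XJw ρ J α).re := by
      rw [Cst401.two_cP hw]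
      unfold I1146.c3
      ring
    rw [e1]
    linarith
  -- the functionals
  have s0 : 0 ≤ EHs A K X Y Z E0 α := EHc_nonneg (fun n => Nat.cast_nonneg n) _ hK.le hX.le α
  have e20 : 0 ≤ e₂ := (norm_nonneg _).trans he₂
  have et0 : (0 : ℝ) ≤ 0 := le_rfl
  have hKX : 0 ≤ K / X := by positivity
  have hKp : 0 ≤ K ^ (2 / 3 : ℝ) := by positivity
  have hMJ : 0 ≤ M2J Y E0 J α := M2J_nonneg _ _ _ _
  -- Gram errors
  have b2 : K ^ (2 / 3 : ℝ) * ((Z / K ^ 2) ^ (1 / 6 : ℝ) * TFa + B⁻¹ * TFb) ≤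
      2 * C₃ * (θ * ((K / X) * EHs A K X Y Z E0 α)) := by
    have c1 := H₃ Y X K D Y₀ Z E0 hY hX hK (1 / 2) om hom1 α hα
    have c2 := H₃ Y X K D Y₀ Z E0 hY hX hK (-1) om hom1 α hα
    have d1 : EHc (fun n => (n : ℝ) ^ (1 / 2 : ℝ)) (fun e => e ∈ S E0) A K X Y Z α ≤
        EHs A K X Y Z E0 α := EHc_le_s (fun n hn => by
      have : (1 : ℝ) ≤ n := by exact_mod_cast hn
      calc (n : ℝ) ^ (1 / 2 : ℝ) ≤ (n : ℝ) ^ (1 : ℝ) :=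
            Real.rpow_le_rpow_of_exponent_le this (by norm_num)
        _ = n := Real.rpow_one _) hY0 hK.le hX.le α
    have d2 : EHc (fun n => (n : ℝ) ^ (-1 : ℝ)) (fun e => e ∈ S E0) A K X Y Z α ≤
        EHs A K X Y Z E0 α := EHc_le_s (fun n hn => by
      have : (1 : ℝ) ≤ n := by exact_mod_cast hn
      calc (n : ℝ) ^ (-1 : ℝ) ≤ (n : ℝ) ^ (1 : ℝ) :=
            Real.rpow_le_rpow_of_exponent_le this (by norm_num)
        _ = n := Real.rpow_one _) hY0 hK.le hX.le α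
    have c1' : K ^ (2 / 3 : ℝ) * TFa ≤ C₃ * (K / X) * EHs A K X Y Z E0 α :=
      c1.trans (mul_le_mul_of_nonneg_left d1 (by positivity))
    have c2' : K ^ (2 / 3 : ℝ) * TFb ≤ C₃ * (K / X) * EHs A K X Y Z E0 α :=
      c2.trans (mul_le_mul_of_nonneg_left d2 (by positivity))
    have n1 : 0 ≤ TFa := E3M829.TF_nonneg _ _ _ _ _
    have n2 : 0 ≤ TFb := E3M829.TF_nonneg _ _ _ _ _
    calc K ^ (2 / 3 : ℝ) * ((Z / K ^ 2) ^ (1 / 6 : ℝ) * TFa + B⁻¹ * TFb) ≤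
          K ^ (2 / 3 : ℝ) * (θ * TFa + θ * TFb) := by gcongr
      _ = θ * (K ^ (2 / 3 : ℝ) * TFa) + θ * (K ^ (2 / 3 : ℝ) * TFb) := by ring
      _ ≤ θ * (C₃ * (K / X) * EHs A K X Y Z E0 α) + θ * (C₃ * (K / X) * EHs A K X Y Z E0 α) := by
          gcongr
      _ = _ := by ring
  -- the defect
  have b3 : c3 w K = c3 w 1 * K ^ (2 / 3 : ℝ) := by
    unfold I1146.c3
    rw [Real.one_rpow]; ring
  set U := (K / X) * (θ * EHs A K X Y Z E0 α) + K ^ (2 / 3 : ℝ) * M2J Y E0 J α with hU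
  have hθE : 0 ≤ (K / X) * (θ * EHs A K X Y Z E0 α) := mul_nonneg hKX (mul_nonneg hθ.le s0)
  have hKM : 0 ≤ K ^ (2 / 3 : ℝ) * M2J Y E0 J α := mul_nonneg hKp hMJ
  have hU0 : 0 ≤ U := add_nonneg hθE hKM
  have b4 : c3 w K * (HS Y * (2 * M2J Y E0 J α)) ≤ M * (200 * C₅ * P ^ ε * (3 * 1 * U)) := by
    have hH : HS Y ≤ 200 * C₅ * P ^ ε := by
      refine (HS_le hY).trans ?_
      have h6 := H₅ P hP1
      rw [pow_one] at h6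
      have h7 : Real.log Y ≤ Real.log P := Real.log_le_log (by linarith) hYP
      nlinarith
    have hH0 := HS_nonneg Y
    have hc0 := c3_nonneg hw0 hK
    rw [b3] at hc0
    rw [b3]
    calc c3 w 1 * K ^ (2 / 3 : ℝ) * (HS Y * (2 * M2J Y E0 J α)) ≤
          M * K ^ (2 / 3 : ℝ) * (HS Y * (2 * M2J Y E0 J α)) := by
          have := le_abs_self (c3 w 1)
          have hn : 0 ≤ HS Y * (2 * M2J Y E0 J α) := by positivity
          rw [hM]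
          gcongr
      _ = M * (HS Y * (2 * (K ^ (2 / 3 : ℝ) * M2J Y E0 J α))) := by ring
      _ ≤ M * ((200 * C₅ * P ^ ε) * (3 * 1 * U)) := by
          refine mul_le_mul_of_nonneg_left ?_ hM0
          refine mul_le_mul hH ?_ (by positivity) (by positivity)
          rw [hU]
          linarith
      _ = _ := by ring
  -- assembly
  refine a2.trans ?_
  have hG : K ^ (2 / 3 : ℝ) * ((Z / K ^ 2) ^ (1 / 6 : ℝ) * TFa + B⁻¹ * TFb) ≤ 2 * C₃ * U := by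
    refine b2.trans (mul_le_mul_of_nonneg_left ?_ (by positivity))
    have : θ * ((K / X) * EHs A K X Y Z E0 α) = (K / X) * (θ * EHs A K X Y Z E0 α) := by ring
    rw [this, hU]
    linarith
  have h := asm_z (C₂ := 1) hP.le zero_le_one hC₃ hC₄ (zero_le_one.trans hC₅) hM0 hPe hU0 e20 et0
    hOFF hG
    (show e₃ = C₄ * P ^ ε * (K ^ (2 / 3 : ℝ) * ((Z / K ^ 2) ^ (1 / 6 : ℝ) * TFa + B⁻¹ * TFb)) +
      OFF by rw [he₃]; ring) b4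
  rw [hCdef]
  linarith

/-- the cross number with the plain weight, the level cut `Om (N₁ / 2) N₁` and the frequencies cut by `Q` -/
def NumCQ (w : ℝ → ℝ) (Q : Eis → Prop) (Cw η : ℝ) (Aw : ℕ) (K X Y : ℝ) (R : ℝ) (J : ℕ) (D E0 : ℝ)
    (N₁ : ℕ) (α : Eis → ℂ) (Ec : ℝ) : Prop :=
  ∀ p ∈ T9, ∀ (t X' : ℝ) (φ : ℝ → ℝ), 0 < X' → |Real.log X' - Real.log X| ≤ R + 1 →
    WK Cw η Aw φ → (∀ u, φ u ≠ 0 → |u - Real.log X'| ≤ η / 2) →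
    ‖CrP w K (fun n => bt φ α p n * pw t (nm n)) (fun k => if Q k then
        StE E0 (JW D (1 / 10) N₁) (omr (Om (N₁ / 2) N₁)) (fun n => bt φ α p n * pw t (nm n)) k else 0) -
      ((pC * (kap0 * mel w (2 / 3) * K ^ (2 / 3 : ℝ)) : ℝ) : ℂ) *
        I1146.X2 Y E0 (JW D (1 / 10) N₁) (omr (Om (N₁ / 2) N₁)) (fun n => bt φ α p n * pw t (nm n))‖ ≤
      (K / X) * (Ec * (1 + |t|) ^ J)

/-- **(LB) at `β = bt φ α p · pw t`, plain weight, smooth cut, frequencies cut by `Q`** -/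
theorem lb_bsQ {w : ℝ → ℝ} (hw : Wgt w) (hw0 : ∀ x, 0 ≤ w x)
    {Cw R ε : ℝ} {Aw J : ℕ} (hCw : 0 ≤ Cw) (hR : 0 ≤ R) (hε : 0 < ε)
    (hJA : J + 2 ≤ Aw) : ∃ C : ℝ, 0 ≤ C ∧
    ∀ (K X Y D G₀ E0 E1 B θ η : ℝ) (N₁ : ℕ), 0 < K → K ≤ Y → 0 < X → 1 ≤ Y →
    0 ≤ D → D ≤ Y → 1 ≤ E0 → E0 ≤ Y → 1 ≤ B → 0 < θ → B⁻¹ ≤ θ →
    1 ≤ N₁ → (N₁ : ℝ) ≤ Y → ((N₁ : ℝ) / K ^ 2) ^ (1 / 6 : ℝ) ≤ θ → 0 < η → η ≤ 1 →
    ∀ α : Eis → ℂ, (∀ n, α n ≠ 0 → n ∈ S Y) →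
    (∀ n, α n ≠ 0 → |Real.log (nm n) - Real.log X| ≤ R) → (∀ n, ‖α n‖ ≤ Y ^ ε) →
    ∀ Q : Eis → Prop, (∀ k, IsPrim k → Q k → Cut E1 k) →
    ∀ Ma Ml Tt Ec Ro : ℝ, 0 ≤ Ma → 0 ≤ Ml → 0 ≤ Tt → 0 ≤ Ec → 0 ≤ Ro →
    (∀ g ∈ S Y, (nm g : ℝ) ≤ G₀ → ∀ V : ℝ, 1 ≤ V → V ≤ 9 * N₁ * nm g → ∀ t : ℝ,
      VF V (tws (sg α g) t) ≤
        Ma / (nm g : ℝ) ^ 2 * ((V * K / (X / nm g) ^ 2) ^ (1 / 3 : ℝ)) * (1 + |t|) ^ J) →
    (∀ g ∈ S Y, ∀ B V : ℝ, 1 ≤ B → B ≤ Y → 1 ≤ V → V ≤ 9 * N₁ / (nm g : ℝ) ^ 2 → ∀ t : ℝ,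
      E1551.JB Y α (fun U => G₀ < nm (g * U)) g B V t ≤
        Ml / (nm g : ℝ) ^ 2 * yv K X g V * (1 + |t|) ^ J) →
    NumT Cw η Aw K X Y R J D E0 N₁ α Tt →
    NumCQ w Q Cw η Aw K X Y R J D E0 N₁ α Ec →
    NumOs w Cw η Aw K X K R J D E0 E1 B (N₁ / 2) N₁ α Ro →
    LBnz w Cw η Aw K X Y D N₁ (rhs N₁) R J α
      (C * (η⁻¹) ^ J * (Y ^ ε * Y ^ ε * Y ^ ε) *
        (X ^ 2 + θ * E0 * (Ma + Ml) + Tt + Ec + Ro)) := by
  obtain ⟨C₁, hC₁, H₁⟩ := LBsqQ hw hw0 (R := 1) zero_le_one (A := J + 2) (by omega) hε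
  obtain ⟨C₂, hC₂, H₂⟩ := LBT381.lbt_all4 (J := J) (Aw := Aw) (A := J + 2) le_rfl hJA hR hCw hε
  obtain ⟨CD, hCD, HD⟩ := LBo813.Dg_bt_le w Aw (by omega) Cw
  refine ⟨CD * Real.exp R + C₁ * (1 + 0) * (1 + C₂ * 9 ^ ε), by positivity, ?_⟩
  intro K X Y D G₀ E0 E1 B θ η N₁ hK hKY hX hY hD hDY hE0 hE0Y hB hθ hBθ hN₁ hN₁Y
    hKθ hη hη1 α hα hαR hαn Q hQ Ma Ml Tt Ec Ro hMa hMl hTt hEc hRo hSA hL
    hNT hNC hNO p hp t X' φ hX' hXX hφ hφs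
  have hY0 : 0 < Y := by linarith
  have hE00 : 0 < E0 := by linarith
  have hq : 1 ≤ Y ^ ε := Real.one_le_rpow hY hε.le
  have hN1 : (1 : ℝ) ≤ N₁ := by exact_mod_cast hN₁
  have hZ0 : (0 : ℝ) < N₁ := by linarith
  have hadm : Adm Y X' 1 (fun n => bt φ α p n * pw t (nm n)) :=
    adm_mz hη1 (RGw813.adm_bt hφs hα p t)
  have r1 := hNT p hp t X' φ hX' hXX hφ hφs
  have r2 := hNC p hp t X' φ hX' hXX hφ hφs
  have r3 := hNO p hp t X' φ hX' hXX hφ hφs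
  have s2 := H₂ (9 * Y) K X X' Y η N₁ G₀ Ma Ml E0 θ 0 0 0 α (by linarith) hK hX hX' hXX hY
    (by linarith) hZ0.le (by linarith) hη hη1 hMa hMl hE00 hθ.le le_rfl le_rfl
    le_rfl hα hSA hL p hp φ hφ t
  have s3 := HD K X X' Y R (Y ^ ε) η hK.le hX hY0.le (by linarith) hη hη1 hX' hXX α
    (RGw813.FS_of_S hY0.le hα) hα hαR (fun n _ => hαn n) φ hφ p t
  clear hNT hNC hNO hSA hL
  generalize (fun n => bt φ α p n * pw t (nm n)) = β at hadm r1 r2 r3 s2 s3 ⊢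
  obtain ⟨V, hV⟩ : ∃ V : ℝ, V = (1 + |t|) ^ J := ⟨_, rfl⟩
  rw [← hV] at r1 r2 r3 s2 ⊢
  have hV1 : 1 ≤ V := by rw [hV]; exact one_le_pow₀ (by linarith [abs_nonneg t])
  have hKX : 0 ≤ K / X := by positivity
  have hOO : 0 ≤ (K / X) * (Ro * V) := by positivity
  have s1 := H₁ Y K X' Y D (1 / 10) N₁ E0 E1 B θ hY hK hKY hX' hY le_rfl hD hDY
    hZ0 hN₁Y hE00.le hE0Y hB hθ hBθ hKθ β hadm (Om (N₁ / 2) N₁)
    (rhs N₁) (fun n => rfl) (Om_01 N₁) Q hQ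
    _ ((K / X) * (Ro * V)) hOO le_rfl r3
  have t1 : 0 ≤ EHs ((J + 2 : ℕ) : ℝ) K X' Y N₁ E0 β :=
    EHc_nonneg (fun n => Nat.cast_nonneg n) _ hK.le hX'.le β
  have hKX' : 0 ≤ K / X' := by positivity
  obtain ⟨Tk, hTk⟩ : ∃ Tk : ℝ, Tk = (K / X') * (θ * EHs ((J + 2 : ℕ) : ℝ) K X' Y N₁ E0 β) :=
    ⟨_, rfl⟩
  have hTk0 : 0 ≤ Tk := by
    rw [hTk]
    exact mul_nonneg hKX' (mul_nonneg hθ.le t1)
  obtain ⟨m, hm⟩ : ∃ m : ℝ, m = θ * E0 * (Ma + Ml) := ⟨_, rfl⟩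
  have hm0 : 0 ≤ m := by rw [hm]; positivity
  have hTk2 : Tk ≤ (K / X) * (C₂ * (η⁻¹) ^ J * (9 ^ ε * Y ^ ε) * m * V) := by
    rw [hTk, hm]
    simp only [zero_mul, add_zero] at s2
    rw [Real.mul_rpow (by norm_num) hY0.le] at s2
    exact s2.trans (le_of_eq (by ring))
  have hHj : 1 ≤ (η⁻¹) ^ J := one_le_pow₀ ((one_le_inv₀ hη).mpr hη1)
  have fin := fin_nz (C₁ := C₁) (C₂ := C₂) (CD := CD * Real.exp R) (Ce := 0)
    (Q9 := 9 ^ ε) (q := Y ^ ε) (kx := K / X)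
    (T := Tk) (Tk := Tk) (m := m) (U := 0) (V := V)
    (Xd := X ^ 2) (W := 0)
    (L := 2 * cP w * K ^ (2 / 3 : ℝ) * (XJw (rhs N₁) (JW D (1 / 10) N₁) β).re - SqP w K β)
    (dg := E1551.Dg w K Y β) (Hj := (η⁻¹) ^ J) (RR := Tt) (EE := Ec) (OO := Ro)
    (OO' := 0) hC₁ hC₂ (by positivity) le_rfl hq (by positivity)
    hHj hKX hm0 hV1 le_rfl le_rfl hTk0 hTk2 hTt hEc hRo le_rfl (by positivity) ?_ ?_
  · rw [← hm]
    refine le_trans (le_of_eq ?_) (fin.trans (le_of_eq ?_))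
    · ring
    · ring
  · refine s1.trans (mul_le_mul_of_nonneg_left ?_ (by positivity))
    rw [← hTk]
    linarith
  · refine s3.trans (le_of_eq ?_)
    ring

/-! ### the instance of `LBS` -/

open Crest.Agent.R017.NEg551 (LBq LBS)

/-- the numbers of the exceptional class : tail squares, cross number over `Qf`, off-diagonal -/
def RhQ (w : ℝ → ℝ) (Qf : LBq → Eis → Prop) (q : LBq) (α : Eis → ℂ) (Rn : ℝ) : Prop :=
  NumT q.Cw q.η q.Aw q.K q.X q.Y q.R q.J q.D q.E0 q.N₁ α Rn ∧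
  NumCQ w (Qf q) q.Cw q.η q.Aw q.K q.X q.Y q.R q.J q.D q.E0 q.N₁ α Rn ∧
  NumOs w q.Cw q.η q.Aw q.K q.X q.K q.R q.J q.D q.E0 q.E1 q.B (q.N₁ / 2) q.N₁ α Rn

/-- **the instance of `LBS`** with the cut `Qf` -/
theorem lbs_Q {w : ℝ → ℝ} (hw : Wgt w) (hw0 : ∀ x, 0 ≤ w x) {Qf : LBq → Eis → Prop}
    (hQf : ∀ q k, IsPrim k → Qf q k → Cut q.E1 k) : LBS w 0 (RhQ w Qf) := by
  intro Cw R ε Aw J hCw hR hε hJA
  obtain ⟨C, hC, H⟩ := lb_bsQ hw hw0 hCw hR hε hJA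
  refine ⟨3 * C, by positivity, ?_⟩
  intro K X Y D G₀ E0 E1 B θ η N₁ hK hKY hX hY hD hDY hE0 hE0Y hB hθ hBθ hN₁ hN₁Y hKθ hη hη1
    α hα hαR hαn Ma Ml Rn hMa hMl hRn hSA hL hRh
  obtain ⟨r1, r2, r3⟩ := hRh
  have h := H K X Y D G₀ E0 E1 B θ η N₁ hK hKY hX hY hD hDY hE0 hE0Y hB hθ hBθ hN₁ hN₁Y hKθ hη hη1
    α hα hαR hαn _ (hQf ⟨Cw, η, Aw, K, X, Y, R, J, N₁, E0, E1, B, θ, D, G₀⟩) Ma Ml Rn Rn Rn hMa hMl
    hRn hRn hRn hSA hL r1 r2 r3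
  intro p hp t X' φ hX' hXX hφ hφs
  refine (h p hp t X' φ hX' hXX hφ hφs).trans ?_
  have hq : 1 ≤ Y ^ ε := Real.one_le_rpow hY hε.le
  have hη' : 1 ≤ η⁻¹ := (one_le_inv₀ hη).mpr hη1
  have e1 : (η⁻¹) ^ J ≤ (η⁻¹) ^ (2 * J + 2) := pow_le_pow_right₀ hη' (by omega)
  have e2 : Y ^ ε * Y ^ ε * Y ^ ε ≤ Y ^ (4 * ε) := by
    rw [← Real.rpow_add (by linarith), ← Real.rpow_add (by linarith)]
    exact Real.rpow_le_rpow_of_exponent_le hY (by linarith)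
  have e3 : 0 ≤ θ * E0 * (Ma + Ml) := by positivity
  have e4 : X ^ 2 + θ * E0 * (Ma + Ml) + Rn + Rn + Rn ≤
      3 * (X ^ 2 + (θ * E0 + 0 * E0⁻¹) * (Ma + Ml) + Rn) := by
    have : 0 ≤ X ^ 2 := by positivity
    rw [zero_mul, add_zero]
    linarith
  have e5 : C * (η⁻¹) ^ J * (Y ^ ε * Y ^ ε * Y ^ ε) *
      (X ^ 2 + θ * E0 * (Ma + Ml) + Rn + Rn + Rn) ≤
      C * (η⁻¹) ^ (2 * J + 2) * Y ^ (4 * ε) *
        (3 * (X ^ 2 + (θ * E0 + 0 * E0⁻¹) * (Ma + Ml) + Rn)) := by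
    gcongr
  have hKX : 0 ≤ K / X := by positivity
  refine mul_le_mul_of_nonneg_left (mul_le_mul_of_nonneg_right (e5.trans (le_of_eq (by ring)))
    (by positivity)) hKX

end Crest.Agent.R017.NEx911
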