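import Crest.Agent.R017.NEt_73
import Crest.Agent.R017.NEw_911
import Crest.Agent.R017.NEd_180

/-!
# Row 17, FlatNE (helper73): the compensated near leaf as an instance of `LBS`, both classes

* `NumSC1` : the numbers (helper499's `NumSC` without the tail squares): compensated cross error,
  compensated tail outside `Q`, square at the second scale `K e^(-h)`, the off-diagonal sums at
  the two scales, `h = 3 log (B / E0)`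
* **`lbs_C1`** : `LBS w 1 (NumSC1 ..)`
-/

set_option autoImplicit false
set_option linter.unusedVariables false

noncomputable section

open Complex MeasureTheory
open scoped ComplexConjugate Classical

namespace Crest.Agent.R017.NE73

open Crest.Agent.R012 Crest.Agent.R012.Eis Crest.Agent.R012.MC
open Crest.Agent.R012.LS2 (S mem_S)
open Crest.Agent.R017.E3M829 (Cut)
open Crest.Agent.R017.WDec180 (WD)
open Crest.Agent.R017.NE499 (NumT NumOs)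
open Crest.Agent.R017.NEc180 (Num2 NumEq NumSq numCQ_of)
open Crest.Agent.R017.NEx911 (NumCQ lb_bsQ)
open Crest.Agent.R017.NEg551 (LBq LBS)

/-- the second scale is `K e^(-h)` -/
def hBE (p : LBq) : ℝ := 3 * Real.log (p.B / p.E0)

/-- the numbers of the compensated leaf (cut `Qf p`) -/
def NumSC1 (w : ℝ → ℝ) (N : ℕ) (M : ℝ) (F : ℕ → ℝ → ℂ) (Qf : LBq → Eis → Prop)
    (p : LBq) (α : Eis → ℂ) (Rn : ℝ) : Prop :=
  p.E0 ≤ p.B ∧ ∃ (I : ℕ) (B₂ A₂ At Es Ro Ro' : ℝ), p.E0 ≤ B₂ ∧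
    ((p.N₁ : ℝ) / (p.K * Real.exp (-hBE p)) ^ 2) ^ (1 / 6 : ℝ) ≤ B₂⁻¹ ∧
    (p.N₁ : ℝ) < 2 ^ I ∧ 0 ≤ A₂ ∧ 0 ≤ At ∧ 0 ≤ Es ∧ 0 ≤ Ro ∧ 0 ≤ Ro' ∧ A₂ + At + Real.exp (hBE p / 3) * (Es + Ro') + Ro ≤ Rn ∧
    Num2 N M F p.Cw p.η p.Aw p.K p.X p.R p.J p.D p.E0 (hBE p) p.N₁ I α A₂ ∧
    NumEq N M F (Qf p) p.Cw p.η p.Aw p.K p.X p.R p.J p.D p.E0 (hBE p) p.N₁ α At ∧
    NumSq w (Qf p) p.Cw p.η p.Aw p.K p.X p.R p.J (hBE p) α Es ∧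
    NumOs w p.Cw p.η p.Aw p.K p.X p.K p.R p.J p.D p.E0 p.E1 p.B (p.N₁ / 2) p.N₁ α Ro ∧
    NumOs w p.Cw p.η p.Aw p.K p.X (p.K * Real.exp (-hBE p)) p.R p.J p.D p.E0 p.E1 B₂ (p.N₁ / 2)
      p.N₁ α Ro'

lemma NumSC1.mono {w : ℝ → ℝ} {N : ℕ} {M : ℝ} {F : ℕ → ℝ → ℂ} {Qf : LBq → Eis → Prop}
    (p : LBq) (α : Eis → ℂ) (Rn Rn' : ℝ) (h : NumSC1 w N M F Qf p α Rn) (hR : Rn ≤ Rn') :
    NumSC1 w N M F Qf p α Rn' := by
  obtain ⟨h0, I, B₂, A₂, At, Es, Ro, Ro', hb, hb', h1, h2, h3, h4, h5, h6, h7, h8⟩ := h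
  exact ⟨h0, I, B₂, A₂, At, Es, Ro, Ro', hb, hb', h1, h2, h3, h4, h5, h6, h7.trans hR, h8⟩

lemma sqrt_le_add {a b : ℝ} (ha : 0 ≤ a) (hb : 0 ≤ b) : Real.sqrt (a * b) ≤ a + b := by
  refine Real.sqrt_le_iff.mpr ⟨by linarith, ?_⟩
  nlinarith [mul_nonneg ha hb, sq_nonneg a, sq_nonneg b]

/-- numbers -/
lemma s2_num {Ct Cc u q E0 θ θ₂ h Es Ro Ro' A₂ At m Xd Rn : ℝ} (hCt : 0 ≤ Ct) (hCc : 0 ≤ Cc)
    (hu : 1 ≤ u) (hq : 1 ≤ q) (hE0 : 1 ≤ E0) (hθ : 0 < θ) (hEs : 0 ≤ Es) (hRo : 0 ≤ Ro)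
    (hRo' : 0 ≤ Ro') (hA : 0 ≤ A₂) (hAt : 0 ≤ At) (hm : 0 ≤ m) (hXd : 0 ≤ Xd) (hh0 : 0 ≤ h)
    (hh : Real.exp (-(h / 3)) ≤ θ * E0) (hθ₂ : 0 ≤ θ₂) (hθ₂E : θ₂ * E0 ≤ 1)
    (hsum : A₂ + At + Real.exp (h / 3) * (Es + Ro') + Ro ≤ Rn) :
    Xd + θ * E0 * m + Ct * u * q * (E0⁻¹ * m) +
      (A₂ + At + Cc * u * q * Real.exp (-(h / 3)) * m +
        Real.exp (h / 3) * Real.sqrt (Es * (Cc * u * q * Real.exp (-(2 * h / 3)) *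
          ((1 + θ₂ * E0) * m) + Ro'))) + Ro ≤
    (1 + Ct + 3 * Cc) * (u * q) * (Xd + (θ * E0 + E0⁻¹) * m + Rn) := by
  have hE00 : 0 < E0 := by linarith
  have hi : 0 < E0⁻¹ := inv_pos.mpr hE00
  have huq : 1 ≤ u * q := one_le_mul_of_one_le_of_one_le hu hq
  obtain ⟨k, hk⟩ : ∃ k : ℝ, k = u * q := ⟨_, rfl⟩
  have hk1 : 1 ≤ k := by rw [hk]; exact huq
  have hθE : 0 ≤ θ * E0 := by positivity
  have hθE₂ : 0 ≤ θ₂ * E0 := by positivity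
  have he1 : Real.exp (-(h / 3)) ≤ 1 := Real.exp_le_one_iff.mpr (by linarith)
  have e1 : Real.exp (h / 3) * Real.exp (-(2 * h / 3)) = Real.exp (-(h / 3)) := by
    rw [← Real.exp_add]; congr 1; ring
  have s := mul_le_mul_of_nonneg_left (sqrt_le_add hEs
    (show 0 ≤ Cc * u * q * Real.exp (-(2 * h / 3)) * ((1 + θ₂ * E0) * m) + Ro' by positivity))
    (Real.exp_pos (h / 3)).le
  have s2 : Real.exp (h / 3) * (Es + (Cc * u * q * Real.exp (-(2 * h / 3)) *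
      ((1 + θ₂ * E0) * m) + Ro')) = Real.exp (h / 3) * (Es + Ro') +
        Cc * k * ((Real.exp (-(h / 3)) * (1 + θ₂ * E0)) * m) := by
    have : Real.exp (h / 3) * (Es + (Cc * u * q * Real.exp (-(2 * h / 3)) *
        ((1 + θ₂ * E0) * m) + Ro')) = Real.exp (h / 3) * (Es + Ro') +
        Cc * (u * q) * (((Real.exp (h / 3) * Real.exp (-(2 * h / 3))) * (1 + θ₂ * E0)) * m) := by
      ring
    rw [this, e1, ← hk]
  rw [s2] at s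
  have s3 : Real.exp (-(h / 3)) * (1 + θ₂ * E0) ≤ 2 * (θ * E0) := by
    calc Real.exp (-(h / 3)) * (1 + θ₂ * E0) ≤ (θ * E0) * 2 :=
          mul_le_mul hh (by linarith) (by linarith) hθE
      _ = 2 * (θ * E0) := by ring
  obtain ⟨g, hg⟩ : ∃ g : ℝ, g = (θ * E0 + E0⁻¹) * m := ⟨_, rfl⟩
  rw [← hg]
  have g0 : 0 ≤ g := by rw [hg]; positivity
  have g1 : E0⁻¹ * m ≤ g := by
    rw [hg]
    exact mul_le_mul_of_nonneg_right (by linarith) hm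
  have g2 : θ * E0 * m ≤ g := by
    rw [hg]
    exact mul_le_mul_of_nonneg_right (by linarith) hm
  have g3 : Real.exp (-(h / 3)) * m ≤ g := (mul_le_mul_of_nonneg_right hh hm).trans g2
  have g4 : (Real.exp (-(h / 3)) * (1 + θ₂ * E0)) * m ≤ 2 * g := by
    refine (mul_le_mul_of_nonneg_right s3 hm).trans ?_
    linarith
  have t1 : Ct * u * q * (E0⁻¹ * m) ≤ Ct * k * g := by
    have : Ct * u * q = Ct * k := by rw [hk]; ring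
    rw [this]
    exact mul_le_mul_of_nonneg_left g1 (by positivity)
  have t2 : Cc * u * q * Real.exp (-(h / 3)) * m ≤ Cc * k * g := by
    have : Cc * u * q * Real.exp (-(h / 3)) * m = Cc * k * (Real.exp (-(h / 3)) * m) := by
      rw [hk]; ring
    rw [this]
    exact mul_le_mul_of_nonneg_left g3 (by positivity)
  have t3 : Cc * k * ((Real.exp (-(h / 3)) * (1 + θ₂ * E0)) * m) ≤ Cc * k * (2 * g) :=
    mul_le_mul_of_nonneg_left g4 (by positivity)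
  have hRn : 0 ≤ Rn := by
    refine le_trans ?_ hsum
    positivity
  have t4 : Xd + g + Rn ≤ k * (Xd + g + Rn) := le_mul_of_one_le_left (by positivity) hk1
  have t5 : (Ct + 3 * Cc) * (k * g) ≤ (Ct + 3 * Cc) * (k * (Xd + g + Rn)) := by
    refine mul_le_mul_of_nonneg_left (mul_le_mul_of_nonneg_left ?_ (by linarith)) (by positivity)
    linarith
  have t6 : (1 + Ct + 3 * Cc) * (u * q) * (Xd + g + Rn) =
      k * (Xd + g + Rn) + (Ct + 3 * Cc) * (k * (Xd + g + Rn)) := by rw [hk]; ring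
  rw [t6]
  have t7 : (Ct + 3 * Cc) * (k * g) = Ct * k * g + Cc * k * g + Cc * k * (2 * g) := by ring
  linarith

/-- **the compensated leaf as an instance of `LBS`** -/
theorem lbs_C1 {w : ℝ → ℝ} (hw : Wgt w) (hw0 : ∀ x, 0 ≤ w x) {N : ℕ} {M : ℝ} {F : ℕ → ℝ → ℂ}
    (hD : WD w N M F) {Qf : LBq → Eis → Prop}
    (hQf : ∀ (q : LBq) (k : Eis), IsPrim k → Qf q k → Cut q.E1 k) :
    LBS w 1 (NumSC1 w N M F Qf) := by
  intro Cw R ε Aw J hCw hR hε hJA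
  obtain ⟨C₁, hC₁, H₁⟩ := lb_bsQ hw hw0 hCw hR hε hJA
  obtain ⟨Ct, hCt, H₂⟩ := numT_of hCw hR hε hJA
  obtain ⟨Cc, hCc, H₃⟩ := numCQ_of hw hw0 hD hCw hR (half_pos hε) hJA
  refine ⟨C₁ * (1 + Ct + 3 * Cc), by positivity, ?_⟩
  intro K X Y D G₀ E0 E1 B θ η N₁ hK hKY hX hY hD0 hDY hE0 hE0Y hB hθ hBθ hN₁ hN₁Y hKθ hη hη1 α
    hα hαR hαn Ma Ml Rn hMa hMl hRn hSA hL hnum
  obtain ⟨p, hp⟩ : ∃ p : LBq, p = ⟨Cw, η, Aw, K, X, Y, R, J, N₁, E0, E1, B, θ, D, G₀⟩ := ⟨_, rfl⟩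
  rw [← hp] at hnum
  obtain ⟨hEB, I, B₂, A₂, At, Es, Ro, Ro', hEB₂, hZ, hI, hA₂, hAt, hEs, hRo, hRo', hsum, n1, n2,
    n3, n4, n5⟩ := hnum
  have hQ' := hQf p
  obtain ⟨h, hh⟩ : ∃ h : ℝ, h = hBE p := ⟨_, rfl⟩
  have hh' : h = 3 * Real.log (B / E0) := by rw [hh, hp]; rfl
  obtain ⟨Q, hQ⟩ : ∃ Q : Eis → Prop, Q = Qf p := ⟨_, rfl⟩
  rw [← hh] at hZ hsum n1 n2 n3 n5
  rw [← hQ] at n2 n3 hQ'
  subst hp
  have hEB' : E0 ≤ B := hEB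
  have hEB₂' : E0 ≤ B₂ := hEB₂
  have hB₂1 : 1 ≤ B₂ := hE0.trans hEB₂'
  have hB₂0 : 0 < B₂ := by linarith
  have hZ' : ((N₁ : ℝ) / (K * Real.exp (-h)) ^ 2) ^ (1 / 6 : ℝ) ≤ B₂⁻¹ := hZ
  have hBE₂ : B₂⁻¹ * E0 ≤ 1 := by
    rw [inv_mul_le_iff₀ hB₂0, mul_one]
    exact hEB₂'
  have hE00 : 0 < E0 := by linarith
  have hB0 : 0 < B := by linarith
  have hBE1 : 1 ≤ B / E0 := (one_le_div₀ hE00).mpr hEB'
  have hh0 : 0 ≤ h := by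
    rw [hh']
    have := Real.log_nonneg hBE1
    linarith
  have hhθ : Real.exp (-(h / 3)) ≤ θ * E0 := by
    have e1 : -(h / 3) = -Real.log (B / E0) := by rw [hh']; ring
    rw [e1, Real.exp_neg, Real.exp_log (by positivity), inv_div, div_eq_mul_inv, mul_comm]
    exact mul_le_mul_of_nonneg_right hBθ hE00.le
  have hY0 : 0 < Y := by linarith
  have hT := H₂ K X Y D G₀ E0 η N₁ hK hX hY hE0 hN₁Y hη hη1 α hα Ma Ml hMa hMl hSA hL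
  have hC := H₃ K X Y D G₀ E0 E1 B₂ B₂⁻¹ h η N₁ I hK hKY hX hY hD0 hDY hE0 hE0Y hB₂1
    (inv_pos.mpr hB₂0).le le_rfl hN₁
    hN₁Y hZ' hh0 hI hη hη1 α hα Ma Ml A₂ At Es Ro' hMa hMl hA₂ hAt hEs hRo' hSA hL Q
    (fun k hk _ hq => hQ' k hk hq) n1 n2 n3 n5
  have hq0 : 0 ≤ Y ^ ε := (Real.rpow_pos_of_pos hY0 _).le
  have hq2 : Y ^ (ε / 2) * Y ^ (ε / 2) = Y ^ ε := by
    rw [← Real.rpow_add hY0]
    congr 1
    ring
  rw [hq2] at hC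
  have hu0 : 0 ≤ (η⁻¹) ^ J := by positivity
  obtain ⟨Tt, hTt⟩ : ∃ x : ℝ, x = Ct * (η⁻¹) ^ J * Y ^ ε * (E0⁻¹ * (Ma + Ml)) := ⟨_, rfl⟩
  obtain ⟨Ec, hEc⟩ : ∃ x : ℝ, x = A₂ + At + Cc * (η⁻¹) ^ J * Y ^ ε * Real.exp (-(h / 3)) *
      (Ma + Ml) + Real.exp (h / 3) * Real.sqrt (Es * (Cc * (η⁻¹) ^ J * Y ^ ε *
        Real.exp (-(2 * h / 3)) * ((1 + B₂⁻¹ * E0) * (Ma + Ml)) + Ro')) := ⟨_, rfl⟩
  rw [← hTt] at hT
  rw [← hEc] at hC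
  have hTt0 : 0 ≤ Tt := by rw [hTt]; positivity
  have hEc0 : 0 ≤ Ec := by rw [hEc]; positivity
  have key := H₁ K X Y D G₀ E0 E1 B θ η N₁ hK hKY hX hY hD0 hDY hE0 hE0Y hB hθ hBθ hN₁ hN₁Y hKθ
    hη hη1 α hα hαR hαn Q hQ' Ma Ml Tt Ec Ro hMa hMl hTt0 hEc0 hRo hSA hL hT hC n4
  have hi : 1 ≤ η⁻¹ := (one_le_inv₀ hη).mpr hη1
  refine mono_bz hK.le hX.le ?_ key
  have hu1 : 1 ≤ (η⁻¹) ^ J := one_le_pow₀ hi
  have hq1 : 1 ≤ Y ^ ε := Real.one_le_rpow hY hε.le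
  have fin := s2_num (Ct := Ct) (Cc := Cc) (u := (η⁻¹) ^ J) (q := Y ^ ε) (E0 := E0) (θ := θ)
    (θ₂ := B₂⁻¹) (h := h) (Es := Es) (Ro := Ro) (Ro' := Ro') (A₂ := A₂) (At := At) (m := Ma + Ml)
    (Xd := X ^ 2) (Rn := Rn) hCt hCc hu1 hq1 hE0 hθ hEs hRo hRo' hA₂ hAt (by linarith)
    (by positivity) hh0 hhθ (inv_pos.mpr hB₂0).le hBE₂ hsum
  rw [← hTt, ← hEc] at fin
  obtain ⟨q, hqd⟩ : ∃ q : ℝ, q = Y ^ ε := ⟨_, rfl⟩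
  obtain ⟨u, hu⟩ : ∃ u : ℝ, u = (η⁻¹) ^ J := ⟨_, rfl⟩
  have e1 : (η⁻¹) ^ (2 * J + 2) = u * u * (η⁻¹) ^ 2 := by rw [hu]; ring
  have e2 : 1 ≤ (η⁻¹) ^ 2 := one_le_pow₀ hi
  have e3 : Y ^ (4 * ε) = q * q * q * q := by
    rw [hqd, mul_comm, Real.rpow_mul hY0.le]
    norm_cast
    ring
  rw [e1, e3, ← hu, ← hqd, one_mul]
  rw [← hu, ← hqd] at fin
  rw [← hqd] at hq1
  rw [← hu] at hu1
  obtain ⟨W, hW⟩ : ∃ W : ℝ, W = X ^ 2 + (θ * E0 + E0⁻¹) * (Ma + Ml) + Rn := ⟨_, rfl⟩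
  have hW0 : 0 ≤ W := by rw [hW]; positivity
  rw [← hW] at fin ⊢
  have hq0 : 0 ≤ q := by linarith
  have hu0 : 0 ≤ u := by linarith
  calc C₁ * u * (q * q * q) * (X ^ 2 + θ * E0 * (Ma + Ml) + Tt + Ec + Ro) ≤
        C₁ * u * (q * q * q) * ((1 + Ct + 3 * Cc) * (u * q) * W) :=
        mul_le_mul_of_nonneg_left fin (by positivity)
    _ = (C₁ * (1 + Ct + 3 * Cc) * (u * u) * (q * q * q * q) * W) * 1 := by ring
    _ ≤ (C₁ * (1 + Ct + 3 * Cc) * (u * u) * (q * q * q * q) * W) * (η⁻¹) ^ 2 :=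
        mul_le_mul_of_nonneg_left e2 (by positivity)
    _ = _ := by ring

end Crest.Agent.R017.NE73
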