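import Crest.Agent.R017.Rw3_266

/-!
# Row 17, sextic F2: the vector law for `rowA`, every character (helper266), part 2

* `WfG N x s g ξ h` : the weight, `P(j) ξ(j) WS(hS)` at `h = hS j⁶`
* `law_rowA` : `S_a(h) + s S_a(-h) = 2 N(h) WfG(h) a'(r₀)`, `a' = rowA (gdual ψ γ hS)`
* `WS_dual` : the dual weights
* `Cls` : classes of `S`-parts; `lawV_fwd`, `lawV_bwd` : the vector laws
-/

set_option autoImplicit false

noncomputable section

open Complex
open scoped ComplexConjugate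

namespace Crest.Agent.R017.Rw266

open Crest.Agent.R012 Crest.Agent.R012.Eis Crest.Agent.R012.Gauss880 Crest.Agent.R017.Loc266
open Crest.Agent.R017.Sx440 Crest.Agent.R017.Kub664 Crest.Agent.R017.Tw266
open Crest.Agent.R017.Orth681 Crest.Agent.R017.Glue681 Crest.Agent.R017.GlueV266

variable {N : Eis}

/-! ### decompositions -/

lemma dec_unique {hS h' kS k' : Eis} (D : Dec N hS h') (E : Dec N kS k')
    (he : hS * h' = kS * k') : hS = kS ∧ h' = k' := by
  have h1 : h' ∣ k' := by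
    have h2 : h' ∣ kS * k' := ⟨hS, by rw [← he]; ring⟩
    exact (E.cop_S D.cop).symm.dvd_of_dvd_mul_left h2
  have h2 : k' ∣ h' := by
    have h2 : k' ∣ hS * h' := ⟨kS, by rw [he]; ring⟩
    exact (D.cop_S E.cop).symm.dvd_of_dvd_mul_left h2
  have h3 : h' = k' := D.gd.1.eq_of_associated E.gd.1 (associated_of_dvd_dvd h1 h2)
  refine ⟨?_, h3⟩
  rw [h3] at he
  exact mul_right_cancel₀ E.gd.ne he

lemma Dec.pow {hS j : Eis} (D : Dec N hS j) (n : ℕ) : Dec N hS (j ^ n) :=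
  ⟨D.ne, D.pr, D.gd.pow n, D.cop.pow_left⟩

lemma Dec.neg {hS h' : Eis} (D : Dec N hS h') : Dec N (-hS) h' :=
  ⟨neg_ne_zero.mpr D.ne, fun p hp hd => D.pr p hp ((dvd_neg).mp hd), D.gd, D.cop⟩

lemma gd_pow_inj {i j : Eis} (hi : Gd i) (hj : Gd j) (h : i ^ 6 = j ^ 6) : i = j := by
  refine hi.1.eq_of_associated hj.1 (associated_of_dvd_dvd ?_ ?_)
  · exact (IsIntegrallyClosed.pow_dvd_pow_iff (by norm_num : (6 : ℕ) ≠ 0)).mp (h ▸ dvd_rfl)
  · exact (IsIntegrallyClosed.pow_dvd_pow_iff (by norm_num : (6 : ℕ) ≠ 0)).mp (h ▸ dvd_rfl)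

/-- `h = hS j⁶` -/
def SD (N h : Eis) : Prop := ∃ p : Eis × Eis, h = p.1 * p.2 ^ 6 ∧ Dec N p.1 p.2

open Classical in
/-- the `S`-part -/
def sp (N h : Eis) : Eis := if hd : SD N h then hd.choose.1 else 0

open Classical in
/-- the root of the good part -/
def jp (N h : Eis) : Eis := if hd : SD N h then hd.choose.2 else 0

lemma sp_spec {h : Eis} (hd : SD N h) : h = sp N h * jp N h ^ 6 ∧ Dec N (sp N h) (jp N h) := by
  unfold sp jp
  rw [dif_pos hd, dif_pos hd]
  exact hd.choose_spec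

lemma sd_of {hS j : Eis} (D : Dec N hS j) : SD N (hS * j ^ 6) := ⟨(hS, j), rfl, D⟩

lemma sp_eq {hS j : Eis} (D : Dec N hS j) : sp N (hS * j ^ 6) = hS ∧ jp N (hS * j ^ 6) = j := by
  obtain ⟨h1, E⟩ := sp_spec (sd_of D)
  obtain ⟨e1, e2⟩ := dec_unique (E.pow 6) (D.pow 6) h1.symm
  exact ⟨e1, gd_pow_inj E.gd D.gd e2⟩

/-! ### the weights -/

/-- symmetrised local value -/
def WS (N x : Eis) (s : ℂ) (g : Eis → ℂ) (hS : Eis) : ℂ := (GG N x g hS 1 + s * GG N x g (-hS) 1) / 2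

open Classical in
/-- the weight of the constant term -/
def WfG (N x : Eis) (s : ℂ) (g ξ : Eis → ℂ) (h : Eis) : ℂ :=
  if SD N h then (F1.PL (jp N h) : ℂ) * (ξ (jp N h) * WS N x s g (sp N h)) else 0

theorem WfG_eq {x : Eis} {s : ℂ} {g ξ : Eis → ℂ} {hS j : Eis} (D : Dec N hS j) :
    WfG N x s g ξ (hS * j ^ 6) = (F1.PL j : ℂ) * (ξ j * WS N x s g hS) := by
  classical
  unfold WfG
  rw [if_pos (sd_of D), (sp_eq D).1, (sp_eq D).2]

lemma norm_WS_le (hN : Lev N) {x : Eis} {s : ℂ} (hs : ‖s‖ ≤ 1) {g : Eis → ℂ}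
    (hg : ∀ c, Gd c → IsCoprime c N → ‖g c‖ ≤ 1) {hS : Eis} (h : Ss N hS) :
    ‖WS N x s g hS‖ ≤ nm N := by
  classical
  have key : ∀ {z : Eis}, Ss N z → ‖GG N x g z 1‖ ≤ nm N := by
    intro z hz
    unfold GG
    refine (SumMod880.norm_sumMod_le hN.ne (B := 1) (fun c => ?_)).trans (by rw [mul_one])
    split_ifs with hc
    · rw [norm_mul, norm_mul, norm_ea, mul_one]
      have h1 : ‖etaH z 1 c‖ ≤ 1 := by
        unfold etaH
        rw [rho2_one_left c hc.1.2, mul_one]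
        exact norm_sy6_le hc.1.1 hc.1.2 _
      calc ‖g c‖ * ‖etaH z 1 c‖ ≤ 1 * 1 :=
            mul_le_mul (hg c hc.1 hc.2) h1 (norm_nonneg _) zero_le_one
        _ = 1 := by norm_num
    · rw [norm_zero]; exact zero_le_one
  unfold WS
  rw [norm_div]
  have h2 : ‖(2 : ℂ)‖ = 2 := by norm_num
  rw [h2, div_le_iff₀ (by norm_num)]
  refine (norm_add_le _ _).trans ?_
  rw [norm_mul]
  have h3 := key h
  have h4 := key h.neg
  have h5 : ‖s‖ * ‖GG N x g (-hS) 1‖ ≤ 1 * nm N :=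
    mul_le_mul hs h4 (norm_nonneg _) zero_le_one
  linarith

lemma bdd_WfG (hN : Lev N) {x : Eis} {s : ℂ} (hs : ‖s‖ ≤ 1) {g ξ : Eis → ℂ}
    (hg : ∀ c, Gd c → IsCoprime c N → ‖g c‖ ≤ 1) (hξ : ∀ j, Gd j → IsCoprime j N → ‖ξ j‖ ≤ 1) :
    Bdd (WfG N x s g ξ) := by
  classical
  refine ⟨nm N, fun h => ?_⟩
  unfold WfG
  split_ifs with hd
  · obtain ⟨-, D⟩ := sp_spec hd
    rw [norm_mul, norm_mul, Complex.norm_real, Real.norm_of_nonneg (F1.PL_nonneg _)]
    have h1 := F1.PL_le_one (jp N h)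
    have h2 := hξ _ D.gd D.cop
    have h3 := norm_WS_le hN (x := x) hs hg D.ss
    have h0 := F1.PL_nonneg (jp N h)
    calc F1.PL (jp N h) * (‖ξ (jp N h)‖ * ‖WS N x s g (sp N h)‖) ≤ 1 * (1 * nm N) :=
          mul_le_mul h1 (mul_le_mul h2 h3 (norm_nonneg _) zero_le_one)
            (by positivity) zero_le_one
      _ = nm N := by ring
  · rw [norm_zero]; positivity

lemma sy_neg' {c : Eis} (hc : Gd c) (z : Eis) : sy (-z) c = sy z c :=
  Sym645.sy_neg (Sym645.prim_nm_mod hc.1) z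

lemma gdual_neg {ψ γ : Eis → ℂ} {c : Eis} (hc : Gd c) (hS : Eis) :
    gdual ψ γ (-hS) c = gdual ψ γ hS c := by
  unfold gdual; rw [sy_neg' hc]

/-- **The law of `rowA`**, every `h ≠ 0`, every row with `c₀` good. -/
theorem law_rowA (hN : Lev N) {x : Eis} {s : ℂ} {ψ γ : Eis → ℂ} (hψ : IsCh N ψ) (hγ : Gm N γ)
    {g : SLE} (hc0 : Gd (br g).1) (hc0N : IsCoprime (br g).1 N) {h : Eis} (hh : h ≠ 0) :
    SA N (rowA N x (fun c => ψ c * γ c)) g h + s * SA N (rowA N x (fun c => ψ c * γ c)) g (-h) =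
      2 * ((nm h : ℂ) * (WfG N x s (fun c => ψ c * γ c) (fun j => ψ j ^ 6 * γ (j ^ 6)) h *
        rowA N x (gdual ψ γ (sp N h)) (br g))) := by
  classical
  obtain ⟨hS, h', rfl, D⟩ := exists_dec hN hh
  have e1 := sum_rowA_rmulS hN (x := x) hψ hγ D g hc0 hc0N
  have e2 := sum_rowA_rmulS hN (x := x) hψ hγ D.neg g hc0 hc0N
  have e3 : rowA N x (gdual ψ γ (-hS)) = rowA N x (gdual ψ γ hS) :=
    rowA_congr fun c hc _ => gdual_neg hc hS
  rw [e3, nm_neg] at e2
  unfold SA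
  have e4 : -(hS * h') = -hS * h' := by ring
  rw [e4, e1, e2]
  by_cases hj : ∃ j, Gd j ∧ h' = j ^ 6
  · obtain ⟨j, hj, rfl⟩ := hj
    have Dj : Dec N hS j := ⟨D.ne, D.pr, hj, (IsCoprime.pow_left_iff (by norm_num)).mp D.cop⟩
    rw [sum_sy6_six hj, WfG_eq Dj, (sp_eq Dj).1, GG_good hN hψ hγ D, GG_good hN hψ hγ D.neg, nm_mul]
    have f1 : ψ (j ^ 6) = ψ j ^ 6 := by
      simp only [pow_succ, pow_zero, one_mul, hψ.mul]
    have f2 : rho2 (j ^ 6) (j ^ 6) = 1 := by
      have h3 := rho2_mul_left (a := j ^ 3) (b := j ^ 3) (c := j ^ 6) (hj.pow 3).2 (hj.pow 3).2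
        (hj.pow 6).2
      rw [rho2_sq, ← pow_add] at h3
      exact h3
    have f3 : ∀ z, IsCoprime z j → sy6 z (j ^ 6) = 1 := by
      intro z hz
      rw [sy6_pow_right z hj.ne, sy6_pow_six hj.1 hj.2 hz]
    have f4 : IsCoprime hS j := D.ss.cop Dj.cop
    rw [f1, f2, f3 _ f4.neg_left, f3 _ (by rw [neg_neg]; exact f4)]
    unfold WS
    push_cast
    ring
  · rw [sum_sy6_zero D.gd hj]
    have e5 : WfG N x s (fun c => ψ c * γ c) (fun j => ψ j ^ 6 * γ (j ^ 6)) (hS * h') = 0 := by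
      unfold WfG
      rw [if_neg]
      intro hd
      obtain ⟨h1, E⟩ := sp_spec hd
      obtain ⟨-, e6⟩ := dec_unique D (E.pow 6) h1
      exact hj ⟨_, E.gd, e6⟩
    rw [e5]
    ring

/-! ### dual weights -/

lemma norm_sy' {z c : Eis} (hc : Gd c) (h : IsCoprime z c) : ‖sy z c‖ = 1 :=
  Char766.norm_sy hc.1 h

lemma sy_mul_conj {z c : Eis} (hc : Gd c) (h : IsCoprime z c) : sy z c * conj (sy z c) = 1 := by
  rw [Complex.mul_conj, Complex.normSq_eq_norm_sq, norm_sy' hc h]; simp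

lemma sy6_mul_conj {z c : Eis} (hc : Gd c) (h : IsCoprime z c) : sy6 z c * conj (sy6 z c) = 1 := by
  rw [Complex.mul_conj, Complex.normSq_eq_norm_sq, norm_sy6 hc.1 hc.2 h]; simp

lemma sy6_neg_one_sq {c : Eis} (hc : Gd c) : sy6 (-1) c * sy6 (-1) c = 1 := by
  rw [← sy6_mul_left hc.1 hc.2]; norm_num
  exact sy6_one_left hc.1 hc.2

lemma conj_sy6_neg_one {c : Eis} (hc : Gd c) : conj (sy6 (-1) c) = sy6 (-1) c := by
  have h1 := sy6_neg_one_sq hc
  have h3 : sy6 (-1) c * conj (sy6 (-1) c) = 1 :=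
    sy6_mul_conj hc (isCoprime_of_isUnit isUnit_one.neg _)
  exact mul_left_cancel₀ (left_ne_zero_of_mul_eq_one h1) (h3.trans h1.symm)

lemma conj_ea' {x z : Eis} : conj (ea N x z) = ea N x (-z) := by
  unfold ea
  rw [SumMod880.conj_eC]
  congr 1
  rw [map_neg]; ring

theorem GG_dual (hN : Lev N) {x : Eis} {ψ γ : Eis → ℂ} {k hS : Eis} (h : Ss N hS) :
    GG N x (gdual ψ γ k) hS 1 =
      conj (GG N x (fun c => ψ c * (sy k c * conj (sy hS c)) * γ c) (-hS) 1) := by
  classical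
  unfold GG
  rw [SumMod880.conj_sumMod hN.ne]
  refine sumMod_congr fun c => ?_
  by_cases hc : Gd c ∧ IsCoprime c N
  · rw [if_pos hc, if_pos hc, map_mul, map_mul, conj_ea']
    have e1 : etaH hS 1 c = sy6 (-1) c * sy6 hS c := by
      unfold etaH
      rw [rho2_one_left c hc.1.2, mul_one, ← sy6_mul_left hc.1.1 hc.1.2]
      congr 1; ring
    have e2 : etaH (-hS) 1 c = sy6 hS c := by
      unfold etaH
      rw [rho2_one_left c hc.1.2, mul_one, neg_neg]
    have e3 : -(-hS * 1) * ivN N c = -(-(hS * 1) * ivN N c) := by ring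
    have e4 : sy hS c = sy6 hS c * sy6 hS c := by rw [← sy6_sq hc.1.1 hc.1.2, pow_two]
    have e5 := sy6_mul_conj hc.1 (h.cop hc.2)
    have e6 := sy6_neg_one_sq hc.1
    rw [e1, e2, e3, neg_neg]
    unfold gdual
    simp only [map_mul, Complex.conj_conj]
    rw [e4]
    linear_combination (conj (ψ c) * conj (γ c) * conj (sy k c) * sy6 hS c *
      ea N x (-(hS * 1) * ivN N c)) * e6 - (conj (ψ c) * conj (γ c) * conj (sy k c) * sy6 hS c *
      ea N x (-(hS * 1) * ivN N c)) * e5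
  · rw [if_neg hc, if_neg hc, map_zero]

theorem WS_dual (hN : Lev N) {x : Eis} {s : ℂ} (hs : s = 1 ∨ s = -1) {ψ γ : Eis → ℂ} {k hS : Eis}
    (h : Ss N hS) :
    WS N x s (gdual ψ γ k) hS =
      s * conj (WS N x s (fun c => ψ c * (sy k c * conj (sy hS c)) * γ c) hS) := by
  have h1 := GG_dual hN (x := x) (ψ := ψ) (γ := γ) (k := k) h
  have h2 := GG_dual hN (x := x) (ψ := ψ) (γ := γ) (k := k) h.neg
  have h3 : GG N x (fun c => ψ c * (sy k c * conj (sy (-hS) c)) * γ c) (- -hS) 1 =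
      GG N x (fun c => ψ c * (sy k c * conj (sy hS c)) * γ c) hS 1 := by
    rw [neg_neg]
    exact GG_congr (fun c hc _ => by rw [sy_neg' hc]) _ _
  rw [h3] at h2
  unfold WS
  have e2 : conj (2 : ℂ) = 2 := Complex.conj_ofNat 2
  rw [h1, h2, map_div₀, map_add, map_mul, e2]
  rcases hs with rfl | rfl
  · rw [map_one]
    ring
  · rw [map_neg, map_one]
    ring

lemma gm_conj {γ : Eis → ℂ} (H : Gm N γ) : Gm N (fun c => conj (γ c)) where
  per c t := by
    change conj (γ (c + N * t)) = conj (γ c)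
    rw [H.per]
  mul a b ha hb := by
    change conj (γ (a * b)) = conj (γ a) * conj (γ b) * rho2 a b
    rw [H.mul a b ha hb, map_mul, map_mul, conj_rho2]
  norm a ha := by
    change ‖conj (γ a)‖ = 1
    rw [Complex.norm_conj, H.norm a ha]

/-- the character `conj ψ · (-1/·)_6 · conj (k/·)_3`. -/
theorem exists_dual_ch (hN : Lev N) {ψ : Eis → ℂ} (hψ : IsCh N ψ) {k : Eis} (hk : Ss N k) :
    ∃ ψ' : Eis → ℂ, IsCh N ψ' ∧
      ∀ c, Gd c → IsCoprime c N → ψ' c = conj (ψ c) * sy6 (-1) c * conj (sy k c) := by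
  refine exists_ext hN ?_ ?_ ?_
  · rw [hψ.one, sy6_one_right]
    have : sy k 1 = 1 := by rw [← sy6_sq isPrim_one od_one, sy6_one_right, one_pow]
    rw [this]; simp
  · intro a b ha hb _ _
    rw [hψ.mul, sy6_mul_right _ ha.ne hb.ne, Char766.sy_mul_right ha.1 hb.1]
    simp only [map_mul]
    ring
  · intro a b ha hb _ _ hab
    rw [hψ.per.congr hab, per_S hN (ss_neg_one (N := N)).ne (ss_neg_one (N := N)).pr ha.g6 hb.g6 hab,
      sy_per hN hk.ne hk.pr ha hb hab]

/-- twist of `ψ` by a cubic symbol. -/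
theorem exists_twist_ch (hN : Lev N) {ψ : Eis → ℂ} (hψ : IsCh N ψ) {k k' : Eis} (hk : Ss N k)
    (hk' : Ss N k') :
    ∃ ψ' : Eis → ℂ, IsCh N ψ' ∧
      ∀ c, Gd c → IsCoprime c N → ψ' c = ψ c * (sy k c * conj (sy k' c)) := by
  refine exists_ext hN ?_ ?_ ?_
  · rw [hψ.one]
    have : ∀ z, sy z 1 = 1 := fun z => by
      rw [← sy6_sq isPrim_one od_one, sy6_one_right, one_pow]
    rw [this, this]; simp
  · intro a b ha hb _ _
    rw [hψ.mul, Char766.sy_mul_right ha.1 hb.1, Char766.sy_mul_right ha.1 hb.1]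
    simp only [map_mul]
    ring
  · intro a b ha hb _ _ hab
    rw [hψ.per.congr hab, sy_per hN hk.ne hk.pr ha hb hab, sy_per hN hk'.ne hk'.pr ha hb hab]

lemma sy_pow_three {z c : Eis} (hc : Gd c) (h : IsCoprime z c) : sy z c ^ 3 = 1 := by
  have h1 := sy6_pow_six hc.1 hc.2 h
  rw [← sy6_sq hc.1 hc.2, ← pow_mul]
  exact h1

lemma WS_congr {x : Eis} {s : ℂ} {g g' : Eis → ℂ} (h : ∀ c, Gd c → IsCoprime c N → g c = g' c)
    (hS : Eis) : WS N x s g hS = WS N x s g' hS := by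
  unfold WS; rw [GG_congr h, GG_congr h]

/-- **The dual law.** -/
theorem law_dual (hN : Lev N) {x : Eis} {s : ℂ} (hs : s = 1 ∨ s = -1) {ψ γ : Eis → ℂ}
    (hψ : IsCh N ψ) (hγ : Gm N γ) {k : Eis} (hk : Ss N k)
    {g : SLE} (hc0 : Gd (br g).1) (hc0N : IsCoprime (br g).1 N) {h : Eis} (hh : h ≠ 0) :
    SA N (rowA N x (gdual ψ γ k)) g h + s * SA N (rowA N x (gdual ψ γ k)) g (-h) =
      2 * ((nm h : ℂ) * ((s * conj (WfG N x s (fun c => ψ c * (sy k c * conj (sy (sp N h) c)) * γ c)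
          (fun j => ψ j ^ 6 * γ (j ^ 6)) h)) *
        rowA N x (fun c => ψ c * (sy k c * conj (sy (sp N h) c)) * γ c) (br g))) := by
  classical
  obtain ⟨ψ', hψ', he⟩ := exists_dual_ch hN hψ hk
  have hγ' := gm_conj hγ
  have hg : ∀ c, Gd c → IsCoprime c N → gdual ψ γ k c = ψ' c * conj (γ c) := by
    intro c hc hcN
    rw [he c hc hcN]
    unfold gdual
    rw [map_mul]; ring
  have key := law_rowA hN (x := x) (s := s) hψ' hγ' hc0 hc0N hh
  rw [rowA_congr hg, key]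
  by_cases hd : SD N h
  · obtain ⟨h1, D⟩ := sp_spec hd
    have e1 : rowA N x (gdual ψ' (fun c => conj (γ c)) (sp N h)) =
        rowA N x (fun c => ψ c * (sy k c * conj (sy (sp N h) c)) * γ c) := by
      refine rowA_congr fun c hc hcN => ?_
      unfold gdual
      rw [he c hc hcN]
      simp only [map_mul, Complex.conj_conj, conj_sy6_neg_one hc]
      linear_combination (ψ c * sy k c * conj (sy (sp N h) c) * γ c) * sy6_neg_one_sq hc
    have e2 : WfG N x s (fun c => ψ' c * conj (γ c)) (fun j => ψ' j ^ 6 * conj (γ (j ^ 6))) h =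
        s * conj (WfG N x s (fun c => ψ c * (sy k c * conj (sy (sp N h) c)) * γ c)
          (fun j => ψ j ^ 6 * γ (j ^ 6)) h) := by
      unfold WfG
      rw [if_pos hd, if_pos hd, WS_congr (fun c hc hcN => (hg c hc hcN).symm), WS_dual hN hs D.ss]
      have e3 : ψ' (jp N h) ^ 6 = conj (ψ (jp N h)) ^ 6 := by
        rw [he _ D.gd D.cop, mul_pow, mul_pow]
        have e4 : sy6 (-1) (jp N h) ^ 6 = 1 :=
          sy6_pow_six D.gd.1 D.gd.2 (isCoprime_of_isUnit isUnit_one.neg _)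
        have e5 : conj (sy k (jp N h)) ^ 6 = 1 := by
          rw [← map_pow, show (6 : ℕ) = 3 * 2 from rfl, pow_mul,
            sy_pow_three D.gd (hk.cop D.cop), one_pow, map_one]
        rw [e4, e5]; ring
      simp only [map_mul, Complex.conj_ofReal, map_pow, e3]
      ring
    rw [e1, e2]
  · have e1 : ∀ (g ξ : Eis → ℂ), WfG N x s g ξ h = 0 := by
      intro g ξ
      unfold WfG
      rw [if_neg hd]
    rw [e1, e1, map_zero]
    ring

lemma norm_isCh (hN : N ≠ 0) {ψ : Eis → ℂ} (hψ : IsCh N ψ) {c : Eis} (hc : IsCoprime c N) :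
    ‖ψ c‖ = 1 := by
  have h1 := hψ.mul_conj_self hN hc
  have h2 : ‖ψ c‖ * ‖ψ c‖ = 1 := by
    have h3 := congrArg norm h1
    rwa [norm_mul, RCLike.norm_conj, norm_one] at h3
  nlinarith [norm_nonneg (ψ c)]

lemma norm_isCh_le (hN : N ≠ 0) {ψ : Eis → ℂ} (hψ : IsCh N ψ) (c : Eis) : ‖ψ c‖ ≤ 1 := by
  by_cases hc : IsCoprime c N
  · exact (norm_isCh hN hψ hc).le
  · rw [hψ.zero c hc, norm_zero]; exact zero_le_one

/-- `Cof` for `g = ψ γ`: only the values at good `c` matter. -/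
theorem cof_psi (hN : Lev N) (x : Eis) {ψ γ : Eis → ℂ} (hψ : IsCh N ψ) (hγ : Gm N γ) :
    Cof N (chiA N) (rowA N x (fun c => ψ c * γ c)) := by
  classical
  have h := cof_rowA hN x (g := fun c => ψ c * (if Od c then γ c else 0)) ?_ ?_
  · have e : rowA N x (fun c => ψ c * γ c) = rowA N x (fun c => ψ c * (if Od c then γ c else 0)) :=
      rowA_congr fun c hc _ => by rw [if_pos hc.2]
    rw [e]; exact h
  · refine hψ.per.mul ?_
    intro c t
    beta_reduce
    have hd : (2 : Eis) ∣ (c + N * t) - c := by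
      have : (c + N * t) - c = N * t := by ring
      rw [this]; exact (two_dvd_72.trans hN.d72).mul_right _
    by_cases hc : Od c
    · rw [if_pos hc, if_pos (od_congr' (by rw [← neg_sub, dvd_neg]; exact hd) hc), hγ.per]
    · rw [if_neg hc, if_neg (fun h => hc (od_congr' hd h))]
  · refine ⟨1, fun c => ?_⟩
    rw [norm_mul]
    have h1 : ‖ψ c‖ ≤ 1 := norm_isCh_le hN.ne hψ c
    have h2 : ‖(if Od c then γ c else 0 : ℂ)‖ ≤ 1 := by
      split_ifs with hc
      · exact (hγ.norm c hc).le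
      · rw [norm_zero]; exact zero_le_one
    calc ‖ψ c‖ * ‖(if Od c then γ c else 0 : ℂ)‖ ≤ 1 * 1 :=
          mul_le_mul h1 h2 (norm_nonneg _) zero_le_one
      _ = 1 := by norm_num

/-! ### classes -/

/-- the admissible rows -/
def RgA (N : Eis) (g : SLE) : Prop := Gd (br g).1 ∧ IsCoprime (br g).1 N

/-- a finite family of cubic classes of `S`-parts: `hS ~ R0 · rep k`. -/
structure Cls (N : Eis) (K : Type) [AddCommGroup K] (R0 : Eis) (rep : K → Eis)
    (cl : Eis → Option K) : Prop where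
  ss0 : Ss N R0
  ss : ∀ k, Ss N (rep k)
  sub : ∀ k k' c, Gd c → IsCoprime c N → sy (rep (k - k')) c = sy (rep k) c * conj (sy (rep k') c)
  cl : ∀ hS k, Ss N hS → cl hS = some k → ∀ c, Gd c → IsCoprime c N → sy hS c = sy (R0 * rep k) c

/-- vanishing outside the classes, for all cubic twists of `ψ`. -/
def Van (N x : Eis) (s : ℂ) (ψ γ : Eis → ℂ) {K : Type} (cl : Eis → Option K) : Prop :=
  ∀ θ : Eis → ℂ, IsCh N θ → (∀ c, Gd c → IsCoprime c N → θ c ^ 3 = ψ c ^ 3) →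
    ∀ hS, Ss N hS → cl hS = none → WS N x s (fun c => θ c * γ c) hS = 0

/-- twisted weight -/
def gT (ψ γ : Eis → ℂ) (z c : Eis) : ℂ := ψ c * sy z c * γ c

/-- `ξ(j)` -/
def xiA (ψ γ : Eis → ℂ) (j : Eis) : ℂ := ψ j ^ 6 * γ (j ^ 6)

open Classical in
/-- weights from `a` -/
def wK {K : Type} (N x : Eis) (s : ℂ) (ψ γ : Eis → ℂ) (cl : Eis → Option K) (k : K) (h : Eis) : ℂ :=
  if cl (sp N h) = some k then WfG N x s (fun c => ψ c * γ c) (xiA ψ γ) h else 0

open Classical in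
/-- weights from `a' k` to `am m` -/
def wM {K : Type} [AddCommGroup K] (N x : Eis) (s : ℂ) (ψ γ : Eis → ℂ) (rep : K → Eis)
    (cl : Eis → Option K) (k m : K) (h : Eis) : ℂ :=
  if cl (sp N h) = some (k - m) then s * conj (WfG N x s (gT ψ γ (rep m)) (xiA ψ γ) h) else 0

section vector

variable {K : Type} [AddCommGroup K] [Fintype K] [DecidableEq K] {R0 : Eis} {rep : K → Eis}
  {cl : Eis → Option K}

omit [Fintype K] [DecidableEq K] in
lemma Cls.zero (C : Cls N K R0 rep cl) {c : Eis} (hc : Gd c) (hcN : IsCoprime c N) :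
    sy (rep 0) c = 1 := by
  have h1 := C.sub 0 0 c hc hcN
  rw [sub_zero, sy_mul_conj hc ((C.ss 0).cop hcN)] at h1
  exact h1

theorem lawV_fwd (hN : Lev N) {x : Eis} {s : ℂ} {ψ γ : Eis → ℂ}
    (hψ : IsCh N ψ) (hγ : Gm N γ) (C : Cls N K R0 rep cl) (hV : Van N x s ψ γ cl) :
    LawV N (RgA N) s (wK N x s ψ γ cl) (rowA N x (fun c => ψ c * γ c))
      (fun k => rowA N x (gdual ψ γ (R0 * rep k))) := by
  classical
  intro g hg h hh
  rw [law_rowA hN hψ hγ hg.1 hg.2 hh]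
  congr 2
  change WfG N x s (fun c => ψ c * γ c) (xiA ψ γ) h * _ = _
  unfold wK
  by_cases hd : SD N h
  · obtain ⟨-, D⟩ := sp_spec hd
    cases hcl : cl (sp N h) with
    | none =>
      have h0 := hV ψ hψ (fun _ _ _ => rfl) _ D.ss hcl
      have h1 : WfG N x s (fun c => ψ c * γ c) (xiA ψ γ) h = 0 := by
        unfold WfG; rw [if_pos hd, h0]; ring
      rw [h1]; simp
    | some k0 =>
      rw [Finset.sum_eq_single k0]
      · rw [if_pos rfl]
        congr 1
        have : rowA N x (gdual ψ γ (sp N h)) = rowA N x (gdual ψ γ (R0 * rep k0)) := by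
          refine rowA_congr fun c hc hcN => ?_
          unfold gdual
          rw [C.cl _ _ D.ss hcl c hc hcN]
        rw [this]
      · intro k _ hk
        rw [if_neg (fun h => hk (Option.some.inj h).symm), zero_mul]
      · intro hk; exact absurd (Finset.mem_univ _) hk
  · have h1 : WfG N x s (fun c => ψ c * γ c) (xiA ψ γ) h = 0 := by
      unfold WfG; rw [if_neg hd]
    rw [h1]; simp

theorem lawV_bwd (hN : Lev N) {x : Eis} {s : ℂ} (hs : s = 1 ∨ s = -1) {ψ γ : Eis → ℂ}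
    (hψ : IsCh N ψ) (hγ : Gm N γ) (C : Cls N K R0 rep cl) (hV : Van N x s ψ γ cl) (k : K) :
    LawV N (RgA N) s (wM N x s ψ γ rep cl k) (rowA N x (gdual ψ γ (R0 * rep k)))
      (fun m => rowA N x (gT ψ γ (rep m))) := by
  classical
  intro g hg h hh
  rw [law_dual hN hs hψ hγ (C.ss0.mul (C.ss k)) hg.1 hg.2 hh]
  congr 2
  unfold wM
  by_cases hd : SD N h
  · obtain ⟨-, D⟩ := sp_spec hd
    cases hcl : cl (sp N h) with
    | none =>
      obtain ⟨θ, hθ, he⟩ := exists_twist_ch hN hψ (C.ss0.mul (C.ss k)) D.ss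
      have h0 := hV θ hθ (fun c hc hcN => by
        rw [he c hc hcN, mul_pow, mul_pow, sy_pow_three hc ((C.ss0.mul (C.ss k)).cop hcN),
          ← map_pow, sy_pow_three hc (D.ss.cop hcN), map_one]; ring) _ D.ss hcl
      have h1 : WfG N x s (fun c => ψ c * (sy (R0 * rep k) c * conj (sy (sp N h) c)) * γ c)
          (fun j => ψ j ^ 6 * γ (j ^ 6)) h = 0 := by
        unfold WfG
        rw [if_pos hd, WS_congr (g' := fun c => θ c * γ c) (fun c hc hcN => by rw [he c hc hcN]), h0]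
        ring
      rw [h1]; simp
    | some k0 =>
      have hg' : ∀ c, Gd c → IsCoprime c N →
          ψ c * (sy (R0 * rep k) c * conj (sy (sp N h) c)) * γ c = gT ψ γ (rep (k - k0)) c := by
        intro c hc hcN
        unfold gT
        rw [C.cl _ _ D.ss hcl c hc hcN, C.sub k k0 c hc hcN, Char766.sy_mul_left hc.1,
          Char766.sy_mul_left hc.1, map_mul]
        have := sy_mul_conj hc (C.ss0.cop hcN)
        linear_combination (ψ c * sy (rep k) c * conj (sy (rep k0) c) * γ c) * this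
      rw [Finset.sum_eq_single (k - k0)]
      · rw [if_pos (by rw [sub_sub_cancel])]
        congr 1
        · congr 1
          congr 1
          unfold WfG
          rw [if_pos hd, if_pos hd, WS_congr hg']
          rfl
        · rw [rowA_congr hg']
      · intro m _ hm
        rw [if_neg, zero_mul]
        intro h'
        apply hm
        have := Option.some.inj h'
        rw [this, sub_sub_cancel]
      · intro hk; exact absurd (Finset.mem_univ _) hk
  · have h1 : ∀ (g ξ : Eis → ℂ), WfG N x s g ξ h = 0 := by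
      intro g ξ
      unfold WfG
      rw [if_neg hd]
    simp [h1]

omit [Fintype K] [DecidableEq K] in
lemma unitAt_rowA {x : Eis} {g' : Eis → ℂ} {g : SLE} (hg : RgA N g) : UnitAt (rowA N x g') g := by
  intro y hy
  have e1 : rmulS (0, y) g = (y * (br g).1, y * (br g).2) := by simp [rmulS, br]
  rw [e1] at hy
  have h1 := rowA_ne_zero hy
  have hpy : IsPrim y := by
    have h2 : IsPrim ((br g).1 * y) := by rw [mul_comm]; exact h1.1.1
    exact Sym645.prim_of_mul_left hg.1.1 h2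
  have hcop : IsCoprime (y * (br g).1) (y * (br g).2) := by
    classical
    by_contra hcop
    apply hy
    unfold rowA
    rw [if_pos h1, sy6_eq_zero h1.1.1 h1.1.2 (fun h => hcop h.symm), mul_zero]
  have hu : IsUnit y := by
    have h2 : IsCoprime y y := (hcop.of_mul_left_left).of_mul_right_left
    exact isCoprime_self.mp h2
  exact K695.prim_eq_one_of_isUnit hpy hu

theorem cof_gdual (hN : Lev N) (x : Eis) {ψ γ : Eis → ℂ} (hψ : IsCh N ψ) (hγ : Gm N γ) {k : Eis}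
    (hk : Ss N k) : Cof N (chiA N) (rowA N x (gdual ψ γ k)) := by
  obtain ⟨ψ', hψ', he⟩ := exists_dual_ch hN hψ hk
  have hγ' := gm_conj hγ
  have hg : ∀ c, Gd c → IsCoprime c N → gdual ψ γ k c = ψ' c * conj (γ c) := by
    intro c hc hcN
    rw [he c hc hcN]
    unfold gdual
    rw [map_mul]; ring
  rw [rowA_congr hg]
  exact cof_psi hN x hψ' hγ'

end vector

end Crest.Agent.R017.Rw266
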