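import Crest.Agent.R017.GLs_74
import Crest.Agent.R017.GmK_411
import Crest.Agent.R017.GL2_64
import Crest.Agent.R017.Rw4_266

/-!
# Row 17 (A, norm): factorisation of `WS` over the blocks `2`, `λ`, `m`
-/

set_option autoImplicit false

noncomputable section

open Complex
open scoped ComplexConjugate

namespace Crest.Agent.R017.NF64

open Crest.Agent.R012 Crest.Agent.R012.Eis Crest.Agent.R012.Gauss880 Crest.Agent.R017.Loc266
open Crest.Agent.R017.Sx440 Crest.Agent.R017.Kub664 Crest.Agent.R017.Tw266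
open Crest.Agent.R017.Rw266 Crest.Agent.R017.GG90 Crest.Agent.R017.LamP64
open Crest.Agent.R017.GL64 Crest.Agent.R017.QS411 Crest.Agent.R017.GmK411
open Crest.Agent.R017.GLs74

/-! ### the sign `rho2` -/

lemma rho2_self {c : Eis} (hc : Od c) : rho2 c c = rho2 (-1) c := by
  rw [rho2_eq_eps4 hc hc, rho2_eq_eps4 (od_of_isUnit isUnit_one.neg) hc]
  unfold eps4 e4
  by_cases h1 : cA c.re c.im <;> by_cases h2 : cB c.re c.im <;>
    simp [h1, h2, cA, cB]

lemma rho2_sq3_neg_one : rho2 sq3 (-1) = -1 := by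
  rw [rho2_eq_eps4 od_sq3 (od_of_isUnit isUnit_one.neg)]
  have : eps4 sq3 (-1) = -1 := by decide
  rw [this]; norm_num

lemma rho2_neg_one_neg_one : rho2 (-1) (-1) = 1 := by
  rw [rho2_eq_eps4 (od_of_isUnit isUnit_one.neg) (od_of_isUnit isUnit_one.neg)]
  have : eps4 (-1) (-1) = 1 := by decide
  rw [this]; norm_num

lemma rho2_sq3_sq3 : rho2 sq3 sq3 = -1 := by
  rw [rho2_self od_sq3, rho2_symm, rho2_sq3_neg_one]

lemma rho2_w {c : Eis} (hc : Od c) : rho2 w c = 1 := by
  have hw : Od w := od_of_isUnit Crest.Agent.R017.GG90.isUnit_w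
  have h2 : rho2 (w ^ 2 * w ^ 2) c = 1 := by
    rw [rho2_mul_left (od_of_isUnit (Crest.Agent.R017.GG90.isUnit_w.pow 2))
      (od_of_isUnit (Crest.Agent.R017.GG90.isUnit_w.pow 2)) hc, rho2_sq]
  have h3 : w ^ 2 * w ^ 2 = w := by
    have := w_cube
    linear_combination w * this
  rwa [h3] at h2

end Crest.Agent.R017.NF64
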