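import Crest.Agent.R017.NF1_64

/-!
# Row 17 (A, norm): factorisation of `WS` over the blocks `2`, `λ`, `m`, II

* `QQ_lf_mul`, `SL_kap` : the phase `DD t0 b = ρ₂(lf b, lf b) QQ(t0, lf b)` of `SL (b t0)`
* multiplicativity of `DD`
-/

set_option autoImplicit false

noncomputable section

open Complex
open scoped ComplexConjugate

namespace Crest.Agent.R017.NF64

open Crest.Agent.R012 Crest.Agent.R012.Eis Crest.Agent.R012.Gauss880 Crest.Agent.R017.Loc266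
open Crest.Agent.R017.Sx440 Crest.Agent.R017.Kub664 Crest.Agent.R017.Tw266
open Crest.Agent.R017.Rw266 Crest.Agent.R017.GG90 Crest.Agent.R017.LamP64
open Crest.Agent.R017.GL64 Crest.Agent.R017.QS411 Crest.Agent.R017.GmK411
open Crest.Agent.R017.GLs74

/-- the phase of `SL (b t0)` relative to `SL t0` -/
def DD (N e : Eis) (ψ γ : Eis → ℂ) (t0 b : Eis) : ℂ :=
  rho2 (lf e b) (lf e b) * QQ N ψ γ t0 (lf e b)

section block

variable {N A B e x t0 : Eis} {ψ γ : Eis → ℂ}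

variable (H : Lvl A B e) (hN : A * B = N)
include H hN

lemma gn_lf' {b : Eis} (hb : Adm A b) : Gn N (lf e b) := hN ▸ gd_lf H hb

lemma QQ_lf_mul (hψ : IsCh N ψ) (hγ : Gam4 γ) (ht : SU N t0) {b b' : Eis} (hb : Adm A b)
    (hb' : Adm A b') :
    QQ N ψ γ t0 (lf e (b * b')) =
      QQ N ψ γ t0 (lf e b) * QQ N ψ γ t0 (lf e b') * rho2 (lf e b) (lf e b') := by
  rw [QQ_congr (hN ▸ H.lev) hψ hγ ht (hN ▸ lf_mul H.toBlk b b'),
    QQ_mul hψ hγ (gn_lf' H hN hb) (gn_lf' H hN hb')]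

lemma rho2_lf_mul {b b' c : Eis} (hb : Adm A b) (hb' : Adm A b') (hc : Od c) :
    rho2 (lf e (b * b')) c = rho2 (lf e b) c * rho2 (lf e b') c := by
  have g1 := (gn_lf' H hN hb).1.2
  have g2 := (gn_lf' H hN hb').1.2
  have g3 := (gn_lf' H hN (hb.mul hb')).1.2
  have h4 : (4 : Eis) ∣ lf e (b * b') - lf e b * lf e b' :=
    (four_dvd_72.trans H.lev.d72).trans (lf_mul H.toBlk b b')
  rw [rho2_congr_left g3 hc h4, rho2_mul_left g1 g2 hc]

lemma DD_mul (hψ : IsCh N ψ) (hγ : Gam4 γ) (ht : SU N t0) {b b' : Eis} (hb : Adm A b)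
    (hb' : Adm A b') :
    DD N e ψ γ t0 (b * b') = DD N e ψ γ t0 b * DD N e ψ γ t0 b' * rho2 (lf e b) (lf e b') := by
  have g1 := (gn_lf' H hN hb).1.2
  have g2 := (gn_lf' H hN hb').1.2
  have g3 := (gn_lf' H hN (hb.mul hb')).1.2
  unfold DD
  rw [QQ_lf_mul H hN hψ hγ ht hb hb', rho2_lf_mul H hN hb hb' g3, rho2_symm (lf e b),
    rho2_lf_mul H hN hb hb' g1, rho2_symm (lf e b') (lf e (b * b')),
    rho2_lf_mul H hN hb hb' g2, rho2_symm (lf e b') (lf e b)]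
  have h := rho2_sq (lf e b) (lf e b')
  linear_combination (rho2 (lf e b) (lf e b) * rho2 (lf e b') (lf e b') * QQ N ψ γ t0 (lf e b) *
    QQ N ψ γ t0 (lf e b') * rho2 (lf e b) (lf e b')) * h

lemma DD_one : DD N e ψ γ t0 1 = QQ N ψ γ t0 1 := by
  unfold DD
  rw [lf_one, GG90.rho2_one_left od_one, one_mul]

lemma DD_norm (hψ : IsCh N ψ) (hγ : Gam4 γ) (ht : SU N t0) {b : Eis} (hb : Adm A b) :
    ‖DD N e ψ γ t0 b‖ = 1 := by
  have g1 := gn_lf' H hN hb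
  unfold DD
  rw [norm_mul, norm_QQ (hN ▸ H.lev) hψ hγ ht g1, mul_one]
  have h := rho2_sq (lf e b) (lf e b)
  have h2 : ‖rho2 (lf e b) (lf e b)‖ ^ 2 = 1 := by rw [← norm_pow, pow_two, h, norm_one]
  exact (pow_eq_one_iff_of_nonneg (norm_nonneg _) (by norm_num)).mp h2

/-- the phase law -/
lemma SL_kap (hψ : IsCh N ψ) (hγ : Gam4 γ) (ht : SU N t0) {b : Eis} (hb : Kap A e b)
    (hbS : SU N b) : SL N A e x ψ γ (b * t0) = DD N e ψ γ t0 b * SL N A e x ψ γ t0 := by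
  have h1 := SL_equiv (x := x) H (by rwa [hN]) hγ (t := t0) (by rwa [hN]) hb (by rwa [hN])
  rw [hN] at h1
  rw [h1, QQ_smul (gn_lf' H hN hb.1), hb.2 b hb.1]
  rfl

/-- `DD` at a shifted frequency -/
lemma DD_smul {s b : Eis} (hb : Adm A b) :
    DD N e ψ γ (s * t0) b = sy6 s (lf e b) * DD N e ψ γ t0 b := by
  unfold DD
  rw [QQ_smul (gn_lf' H hN hb)]; ring

lemma sy6_lf_mul {s : Eis} (hs : SU N s) {b b' : Eis} (hb : Adm A b)
    (hb' : Adm A b') : sy6 s (lf e (b * b')) = sy6 s (lf e b) * sy6 s (lf e b') := by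
  have g1 := gn_lf' H hN hb
  have g2 := gn_lf' H hN hb'
  have g3 := gn_lf' H hN (hb.mul hb')
  have h : N ∣ lf e (b * b') - lf e b * lf e b' := hN ▸ lf_mul H.toBlk b b'
  rw [per_S (hN ▸ H.lev) hs.ne hs.pr g3.1.g6 (g1.mul g2).1.g6 h,
    sy6_mul_right _ g1.1.ne g2.1.ne]

end block

end Crest.Agent.R017.NF64
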