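import Crest.Agent.R017.NF2_64

/-!
# Row 17 (A, norm): factorisation of `WS` over the blocks `2`, `λ`, `m`, III

* `kap_gd` : `Gd` elements with all primes dividing `B` satisfy `Kap A e`
* `QMf` : values at `R0 ω^n λ^l` of a function multiplicative up to `ρ₂`
-/

set_option autoImplicit false

noncomputable section

open Complex
open scoped ComplexConjugate

namespace Crest.Agent.R017.NF64

open Crest.Agent.R012 Crest.Agent.R012.Eis Crest.Agent.R012.Gauss880 Crest.Agent.R017.Loc266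
open Crest.Agent.R017.Sx440 Crest.Agent.R017.Kub664 Crest.Agent.R017.Tw266
open Crest.Agent.R017.Rw266 Crest.Agent.R017.GG90 Crest.Agent.R017.LamP64
open Crest.Agent.R017.GL64 Crest.Agent.R017.QS411 Crest.Agent.R017.GmK411
open Crest.Agent.R017.GLs74

section kap

variable {A B e : Eis} (H : Lvl A B e)
include H

lemma kap_one' : Kap A e 1 := by
  refine ⟨adm_one, fun c hc => ?_⟩
  have g := gd_lf H hc
  rw [sy6_one_left g.1.1 g.1.2, lf_one, GG90.rho2_one_left g.1.2]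

lemma kap_pow' {b : Eis} (hb : Kap A e b) (n : ℕ) : Kap A e (b ^ n) := by
  by_cases h : n = 0
  · subst h; rw [pow_zero]; exact kap_one' H
  · exact hb.pow H n h

/-- products of `Gd` primes -/
lemma exists_kap_gd {q : Eis} (hq0 : q ≠ 0) (h2 : Od q) (hl : ¬ lam ∣ q)
    (hqs : ∀ p, Prime p → p ∣ q → p ∣ B) :
    ∃ u, IsUnit u ∧ IsPrim (u * q) ∧ Kap A e (u * q) := by
  induction q using UniqueFactorizationMonoid.induction_on_prime with
  | h₁ => exact absurd rfl hq0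
  | h₂ x hx =>
    obtain ⟨v, hv⟩ := isUnit_iff_exists_inv'.mp hx
    have hvu : IsUnit v := IsUnit.of_mul_eq_one x hv
    refine ⟨v, hvu, ?_, ?_⟩
    · rw [hv]; unfold IsPrim; simp
    · rw [hv]; exact kap_one' H
  | h₃ a p ha hp ih =>
    obtain ⟨u, hu, hP, hK⟩ := ih ha (fun h => h2 (h.mul_left _)) (fun h => hl (h.mul_left _))
      (fun p' hp' hd => hqs p' hp' (hd.mul_left _))
    have hpB : p ∣ B := hqs p hp (dvd_mul_right _ _)
    have hpl : ¬ lam ∣ p := fun h => hl (h.mul_right _)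
    have hp2 : ¬ (2 : Eis) ∣ p := fun h => h2 (h.mul_right _)
    obtain ⟨v, hv⟩ := exists_unit_mul_isPrim hpl
    have hod : Od ((v : Eis) * p) := fun h => hp2 ((v.isUnit.dvd_mul_left).mp h)
    have hvpB : (v : Eis) * p ∣ B := (v.isUnit.mul_left_dvd).mpr hpB
    have hcop : IsCoprime ((v : Eis) * p) A := by
      have := IsCoprime.of_isCoprime_of_dvd_right H.toBlk.cop hvpB
      exact this.symm
    have hvK := kap_prime H ⟨hv, hod⟩ hcop hvpB
    refine ⟨v * u, v.isUnit.mul hu, ?_, ?_⟩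
    · rw [show (v : Eis) * u * (p * a) = (v * p) * (u * a) by ring]; exact hv.mul hP
    · rw [show (v : Eis) * u * (p * a) = (v * p) * (u * a) by ring]; exact hvK.mul H hK

lemma kap_gd {q : Eis} (hq : Gd q) (hqs : ∀ p, Prime p → p ∣ q → p ∣ B) : Kap A e q := by
  have hl : ¬ lam ∣ q := fun h => hq.1.not_lam_dvd h
  obtain ⟨u, hu, hP, hK⟩ := exists_kap_gd H hq.ne hq.2 hl hqs
  have h2 : IsPrim u := by
    rw [mul_comm] at hP
    exact Sym645.prim_of_mul_left hq.1 hP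
  rwa [Sym645.prim_unit_eq_one hu h2, one_mul] at hK

end kap

lemma sg_succ (l : ℕ) : (-1 : ℂ) ^ ((l + 1).choose 2) = (-1) ^ (l.choose 2) * (-1) ^ l := by
  rw [← pow_add, Nat.choose_succ_succ' l 1, Nat.choose_one_right, add_comm]

lemma od_w_pow (n : ℕ) : Od (w ^ n) := od_of_isUnit (Crest.Agent.R017.GG90.isUnit_w.pow n)

lemma od_sq3_pow (l : ℕ) : Od (sq3 ^ l) := not_even_sq3_pow l

lemma rho2_w_pow {c : Eis} (hc : Od c) (n : ℕ) : rho2 (w ^ n) c = 1 := by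
  induction n with
  | zero => rw [pow_zero]; exact GG90.rho2_one_left hc
  | succ n ih =>
    rw [pow_succ, rho2_mul_left (od_w_pow n) (od_of_isUnit Crest.Agent.R017.GG90.isUnit_w) hc, ih,
      rho2_w hc, one_mul]

lemma rho2_sq3_pow {c : Eis} (hc : Od c) (l : ℕ) : rho2 (sq3 ^ l) c = rho2 sq3 c ^ l := by
  induction l with
  | zero => rw [pow_zero, pow_zero]; exact GG90.rho2_one_left hc
  | succ l ih =>
    rw [pow_succ, rho2_mul_left (od_sq3_pow l) od_sq3 hc, ih, pow_succ]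

/-- `ρ₂(R0 ω^n λ^l, c)` -/
lemma rho2_std {R0 c : Eis} (hR : Od R0) (hc : Od c) (n l : ℕ) :
    rho2 (R0 * (w ^ n * sq3 ^ l)) c = rho2 R0 c * rho2 sq3 c ^ l := by
  have h1 : Od (w ^ n * sq3 ^ l) := (od_w_pow n).mul (od_sq3_pow l)
  rw [rho2_mul_left hR h1 hc, rho2_mul_left (od_w_pow n) (od_sq3_pow l) hc, rho2_w_pow hc,
    one_mul, rho2_sq3_pow hc]

/-- a function multiplicative up to `ρ₂` on a set `S` of odd elements -/
structure QM (S : Eis → Prop) (f : Eis → ℂ) : Prop where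
  od : ∀ b, S b → Od b
  cl : ∀ b b', S b → S b' → S (b * b')
  mul : ∀ b b', S b → S b' → f (b * b') = f b * f b' * rho2 b b'

lemma QM.w_pow {S : Eis → Prop} {f : Eis → ℂ} (H : QM S f) {y : Eis} (hy : S y) (hw : S w) (n : ℕ) :
    S (y * w ^ n) ∧ f (y * w ^ n) = f y * f w ^ n := by
  induction n with
  | zero => rw [pow_zero, mul_one, pow_zero, mul_one]; exact ⟨hy, rfl⟩
  | succ n ih =>
    rw [pow_succ, ← mul_assoc]
    refine ⟨H.cl _ _ ih.1 hw, ?_⟩
    rw [H.mul _ _ ih.1 hw, ih.2, rho2_symm, rho2_w (H.od _ ih.1), pow_succ]; ring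

lemma QM.sq3_pow {S : Eis → Prop} {f : Eis → ℂ} (H : QM S f) {y : Eis} (hy : S y) (hs : S sq3)
    (l : ℕ) : S (y * sq3 ^ l) ∧
      f (y * sq3 ^ l) = f y * (f sq3 * rho2 y sq3) ^ l * (-1) ^ (l.choose 2) := by
  induction l with
  | zero => rw [pow_zero, mul_one, pow_zero, mul_one]; exact ⟨hy, by simp⟩
  | succ l ih =>
    rw [pow_succ, ← mul_assoc]
    refine ⟨H.cl _ _ ih.1 hs, ?_⟩
    have h1 : rho2 (y * sq3 ^ l) sq3 = rho2 y sq3 * (-1) ^ l := by
      rw [rho2_mul_left (H.od _ hy) (od_sq3_pow l) od_sq3, rho2_sq3_pow od_sq3, rho2_sq3_sq3]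
    rw [H.mul _ _ ih.1 hs, ih.2, h1, sg_succ, pow_succ]; ring

/-- value at `R0 ω^n λ^l` -/
lemma QM.std {S : Eis → Prop} {f : Eis → ℂ} (H : QM S f) {R0 : Eis} (hR : S R0) (hw : S w)
    (hs : S sq3) (n l : ℕ) : S (R0 * (w ^ n * sq3 ^ l)) ∧
      f (R0 * (w ^ n * sq3 ^ l)) =
        f R0 * f w ^ n * (f sq3 * rho2 R0 sq3) ^ l * (-1) ^ (l.choose 2) := by
  have h1 := H.w_pow hR hw n
  have h2 := H.sq3_pow h1.1 hs l
  have h3 : rho2 (R0 * w ^ n) sq3 = rho2 R0 sq3 := by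
    rw [rho2_mul_left (H.od _ hR) (od_w_pow n) od_sq3, rho2_w_pow od_sq3, mul_one]
  rw [mul_assoc] at h2
  rw [h2.2, h1.2, h3]
  exact ⟨h2.1, rfl⟩

/-- value at `-R0 ω^n λ^l` -/
lemma QM.std_neg {S : Eis → Prop} {f : Eis → ℂ} (H : QM S f) {R0 : Eis} (hR : S R0) (hw : S w)
    (hs : S sq3) (hn : S (-1)) (n l : ℕ) : S (-(R0 * (w ^ n * sq3 ^ l))) ∧
      f (-(R0 * (w ^ n * sq3 ^ l))) =
        (f (-1) * rho2 R0 (-1)) * (-1) ^ l * f (R0 * (w ^ n * sq3 ^ l)) := by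
  have h1 := H.std hR hw hs n l
  rw [← neg_one_mul (R0 * (w ^ n * sq3 ^ l))]
  refine ⟨H.cl _ _ hn h1.1, ?_⟩
  rw [H.mul _ _ hn h1.1, rho2_symm (-1), rho2_std (H.od _ hR) (od_of_isUnit isUnit_one.neg),
    rho2_sq3_neg_one]
  ring

end Crest.Agent.R017.NF64
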