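import Crest.Agent.R017.NF3_64

/-!
# Row 17 (A, norm): factorisation of `WS` over the blocks `2`, `λ`, `m`, IV

The characters of the three blocks on the `S`-units `± ω^n 2^a λ^l R0`.
-/

set_option autoImplicit false

noncomputable section

open Complex
open scoped ComplexConjugate

namespace Crest.Agent.R017.NF64

open Crest.Agent.R012 Crest.Agent.R012.Eis Crest.Agent.R012.Gauss880 Crest.Agent.R017.Loc266
open Crest.Agent.R017.Sx440 Crest.Agent.R017.Kub664 Crest.Agent.R017.Tw266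
open Crest.Agent.R017.Rw266 Crest.Agent.R017.GG90 Crest.Agent.R017.LamP64
open Crest.Agent.R017.GL64 Crest.Agent.R017.QS411 Crest.Agent.R017.GmK411
open Crest.Agent.R017.GLs74

variable {N A₁ A₃ e₁ e₂ e₃ x : Eis} {ψ γ : Eis → ℂ} {j : ℕ}

/-- the full setting -/
structure Stg (N A₁ A₃ e₁ e₂ e₃ : Eis) (j : ℕ) (ψ γ : Eis → ℂ) (R0 : Eis) : Prop where
  H : Lvl3 N A₁ (sq3 ^ (j + 4)) A₃ e₁ e₂ e₃
  h8 : (8 : Eis) ∣ A₁
  ch : IsCh N ψ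
  gam : Gam4 γ
  gd : Gd R0
  su : ∀ p, Prime p → p ∣ R0 → p ∣ A₃

variable {R0 : Eis}

section basic

variable (S : Stg N A₁ A₃ e₁ e₂ e₃ j ψ γ R0)
include S

lemma Stg.n1 : A₁ * (sq3 ^ (j + 4) * A₃) = N := by rw [← S.H.hN]; ring
lemma Stg.n2 : sq3 ^ (j + 4) * (A₁ * A₃) = N := by rw [← S.H.hN]; ring
lemma Stg.n3 : A₃ * (A₁ * sq3 ^ (j + 4)) = N := by rw [← S.H.hN]; ring

lemma Stg.lev : Lev N := S.n1 ▸ S.H.h1.lev

lemma Stg.d9_1 : (9 : Eis) ∣ sq3 ^ (j + 4) * A₃ := (nine_dvd j).mul_right _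
lemma Stg.d9_3 : (9 : Eis) ∣ A₁ * sq3 ^ (j + 4) := (nine_dvd j).mul_left _
lemma Stg.d8_3 : (8 : Eis) ∣ A₁ * sq3 ^ (j + 4) := S.h8.mul_right _

lemma Stg.su_R : SU N R0 := ⟨S.gd.ne, fun p hp hd => (S.su p hp hd).trans (by
  rw [← S.n3]; exact dvd_mul_right _ _)⟩

lemma Stg.two_dvd : (2 : Eis) ∣ N := two_dvd_72.trans S.lev.d72
lemma Stg.sq3_dvd : sq3 ∣ N := by
  rw [← S.n2]; exact (dvd_pow_self sq3 (by omega)).mul_right _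

lemma Stg.su_w (n : ℕ) : SU N (w ^ n) := SU.of_isUnit (Crest.Agent.R017.GG90.isUnit_w.pow n)

omit S in
lemma su_pow' {M t : Eis} (h : SU M t) (n : ℕ) : SU M (t ^ n) :=
  ⟨pow_ne_zero n h.ne, fun p hp hd => h.pr p hp (hp.dvd_of_dvd_pow hd)⟩

lemma Stg.su_two : SU N 2 := SU.of_prime prime_two S.two_dvd
lemma Stg.su_sq3 : SU N sq3 := SU.of_prime prime_sq3 S.sq3_dvd
lemma Stg.su_one : SU N 1 := SU.of_isUnit isUnit_one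

/-! Kap -/

lemma Stg.k1_neg : Kap A₁ e₁ (-1) := kap_neg_one S.H.h1 (not9 S.H.h1 S.d9_1)
lemma Stg.k1_w : Kap A₁ e₁ w := kap_w S.H.h1 S.d9_1
lemma Stg.k1_s : Kap A₁ e₁ sq3 := kap_sq3 S.H.h1 S.d9_1
lemma Stg.k1_R : Kap A₁ e₁ R0 := kap_gd S.H.h1 S.gd (fun p hp hd => (S.su p hp hd).mul_left _)

lemma Stg.k3_neg : Kap A₃ e₃ (-1) := kap_neg_one S.H.h3 (not9 S.H.h3 S.d9_3)
lemma Stg.k3_w : Kap A₃ e₃ w := kap_w S.H.h3 S.d9_3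
lemma Stg.k3_s : Kap A₃ e₃ sq3 := kap_sq3 S.H.h3 S.d9_3
lemma Stg.k3_two : Kap A₃ e₃ 2 := by
  have h := S.k3_neg.mul S.H.h3 (kap_neg_two S.H.h3 S.d8_3)
  rwa [show (-1 : Eis) * -2 = 2 by ring] at h

lemma Stg.k2 (a : ℕ) : Kap (sq3 ^ (j + 4)) e₂ (R0 * (-2) ^ a) := by
  have h2 : Lvl (sq3 ^ (j + 4)) (A₁ * A₃) e₂ := S.H.h2
  have hR : Kap (sq3 ^ (j + 4)) e₂ R0 :=
    kap_gd h2 S.gd (fun p hp hd => (S.su p hp hd).mul_left _)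
  have h8 : (8 : Eis) ∣ A₁ * A₃ := S.h8.mul_right _
  exact hR.mul h2 (kap_pow' h2 (kap_neg_two h2 h8) a)

lemma Stg.prim_b3 (a : ℕ) : IsPrim (R0 * (-2) ^ a) := adm_iff.mp (S.k2 a).1

/-! the 2-block -/

/-- the odd admissible elements at `2` -/
def S1 (A₁ b : Eis) : Prop := Adm A₁ b ∧ Od b

omit S in
lemma Stg.four_lf (S : Stg N A₁ A₃ e₁ e₂ e₃ j ψ γ R0) (b : Eis) : (4 : Eis) ∣ lf e₁ b - b :=
  ((show (4 : Eis) ∣ 8 from ⟨2, by norm_num⟩).trans S.h8).trans (lf_A S.H.h1.toBlk b)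

lemma Stg.rho_lf {b b' : Eis} (hb : S1 A₁ b) (hb' : S1 A₁ b') :
    rho2 (lf e₁ b) (lf e₁ b') = rho2 b b' := by
  have g1 := (gd_lf S.H.h1 hb.1).1.2
  have g2 := (gd_lf S.H.h1 hb'.1).1.2
  rw [rho2_congr_left g1 g2 (S.four_lf b), rho2_congr_right hb.2 g2 (S.four_lf b')]

lemma Stg.qm1 : QM (S1 A₁) (DD N e₁ ψ γ 1) where
  od b h := h.2
  cl b b' h h' := ⟨h.1.mul h'.1, h.2.mul h'.2⟩
  mul b b' h h' := by
    rw [DD_mul S.H.h1 S.n1 S.ch S.gam S.su_one h.1 h'.1, S.rho_lf h h']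

lemma Stg.s1_neg : S1 A₁ (-1) := ⟨S.k1_neg.1, od_of_isUnit isUnit_one.neg⟩
lemma Stg.s1_w : S1 A₁ w := ⟨S.k1_w.1, od_of_isUnit Crest.Agent.R017.GG90.isUnit_w⟩
lemma Stg.s1_s : S1 A₁ sq3 := ⟨S.k1_s.1, od_sq3⟩
lemma Stg.s1_R : S1 A₁ R0 := ⟨S.k1_R.1, S.gd.2⟩

omit S in
/-- `(2 / lf b)_6` -/
def et (e₁ b : Eis) : ℂ := sy6 2 (lf e₁ b)

lemma Stg.et_mul {b b' : Eis} (hb : Adm A₁ b) (hb' : Adm A₁ b') :
    et e₁ (b * b') = et e₁ b * et e₁ b' := sy6_lf_mul S.H.h1 S.n1 S.su_two hb hb'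

lemma Stg.et_pow {b : Eis} (hb : Adm A₁ b) (n : ℕ) : et e₁ (b ^ n) = et e₁ b ^ n ∧ Adm A₁ (b ^ n) := by
  induction n with
  | zero =>
    rw [pow_zero, pow_zero]
    refine ⟨?_, adm_one⟩
    unfold et
    rw [lf_one, Sx440.sy6_one_right]
  | succ n ih =>
    rw [pow_succ, pow_succ, S.et_mul ih.2 hb, ih.1]
    exact ⟨rfl, ih.2.mul hb⟩

/-- cubic part: `(2/lf b)_3 = 1` for `b ≡ 1 mod 2` -/
lemma Stg.sy_two_lf {b : Eis} (hb : Adm A₁ b) (h : (2 : Eis) ∣ b - 1) : sy 2 (lf e₁ b) = 1 := by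
  apply sy_two_one (gd_lf S.H.h1 hb).1.1
  have h1 : (2 : Eis) ∣ lf e₁ b - b := (Dvd.dvd.trans ⟨2, by norm_num⟩ (S.four_lf b))
  rw [show lf e₁ b - 1 = (lf e₁ b - b) + (b - 1) by ring]
  exact dvd_add h1 h

lemma Stg.sy2_two_lf {b : Eis} (hb : Adm A₁ b) : sy2 2 (lf e₁ b) = sy2 2 b := by
  apply sy2_two_congr (gd_lf S.H.h1 hb).1.2
  exact S.h8.trans (lf_A S.H.h1.toBlk b)

lemma Stg.et_neg : et e₁ (-1) = 1 := by
  unfold et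
  rw [sy6_eq, S.sy_two_lf S.k1_neg.1 ⟨-1, by norm_num⟩, S.sy2_two_lf S.k1_neg.1,
    sy2_unit_right _ isUnit_one.neg]
  simp

omit S in
lemma sy2_two_sq3 : sy2 2 sq3 = -1 := by
  have hq : sq3 * sq3 = (-3 : Eis) := by rw [← pow_two, sq3_sq]
  have h1 : sy2 (-2) sq3 = 1 := by
    rw [sy2_congr (x := -2) (y := 1) od_sq3 ⟨sq3, by rw [hq]; norm_num⟩,
      (isCh_sy2 od_sq3).one]
  have h2 : sy2 (-1) sq3 = -1 := by
    rw [sy2_unit_left isUnit_one.neg od_sq3, rho2_symm, rho2_sq3_neg_one]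
  have h3 : sy2 (-2) sq3 = sy2 (-1) sq3 * sy2 2 sq3 := by
    rw [← sy2_mul_left od_sq3]; congr 1
  rw [h1, h2] at h3
  linear_combination h3

lemma Stg.et_s : et e₁ sq3 = -1 := by
  unfold et
  rw [sy6_eq, S.sy_two_lf S.k1_s.1 ⟨w, by decide⟩, S.sy2_two_lf S.k1_s.1, sy2_two_sq3]
  simp

lemma Stg.et_w3 : et e₁ w ^ 3 = 1 := by
  have h := (S.et_pow S.k1_w.1 3).1
  rw [w_cube] at h
  rw [← h]
  unfold et
  rw [lf_one, Sx440.sy6_one_right]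

end basic

end Crest.Agent.R017.NF64
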