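import Crest.Agent.R017.NF4_64

/-!
# Row 17 (A, norm): factorisation of `WS` over the blocks `2`, `λ`, `m`, V

The three blocks at `± R0 ω^n 2^a λ^l`.
-/

set_option autoImplicit false

noncomputable section

open Complex
open scoped ComplexConjugate

namespace Crest.Agent.R017.NF64

open Crest.Agent.R012 Crest.Agent.R012.Eis Crest.Agent.R012.Gauss880 Crest.Agent.R017.Loc266
open Crest.Agent.R017.Sx440 Crest.Agent.R017.Kub664 Crest.Agent.R017.Tw266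
open Crest.Agent.R017.Rw266 Crest.Agent.R017.GG90 Crest.Agent.R017.LamP64
open Crest.Agent.R017.GL64 Crest.Agent.R017.QS411 Crest.Agent.R017.GmK411
open Crest.Agent.R017.GLs74

variable {N A₁ A₃ e₁ e₂ e₃ x : Eis} {ψ γ : Eis → ℂ} {j : ℕ} {R0 : Eis}

lemma sy6_pow_left {s c : Eis} (hc : Gd c) (n : ℕ) : sy6 (s ^ n) c = sy6 s c ^ n := by
  induction n with
  | zero => rw [pow_zero, pow_zero, sy6_one_left hc.1 hc.2]
  | succ n ih => rw [pow_succ, pow_succ, sy6_mul_left hc.1 hc.2, ih]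

section blocks

variable (S : Stg N A₁ A₃ e₁ e₂ e₃ j ψ γ R0)
include S

/-! the 2-block -/

lemma Stg.et_one : et e₁ 1 = 1 := by
  unfold et; rw [lf_one, Sx440.sy6_one_right]

lemma Stg.et_std (n l : ℕ) : et e₁ (R0 * (w ^ n * sq3 ^ l)) = et e₁ R0 * et e₁ w ^ n * (-1) ^ l := by
  have h1 := S.et_pow S.k1_w.1 n
  have h2 := S.et_pow S.k1_s.1 l
  rw [S.et_mul S.k1_R.1 (h1.2.mul h2.2), S.et_mul h1.2 h2.2, h1.1, h2.1, S.et_s]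
  ring

lemma Stg.kap1_std (n l : ℕ) : Kap A₁ e₁ (R0 * (w ^ n * sq3 ^ l)) :=
  S.k1_R.mul S.H.h1 ((kap_pow' S.H.h1 S.k1_w n).mul S.H.h1 (kap_pow' S.H.h1 S.k1_s l))

lemma Stg.su_std (n l : ℕ) : SU N (R0 * (w ^ n * sq3 ^ l)) :=
  S.su_R.mul ((S.su_w n).mul (su_pow' S.su_sq3 l))

lemma Stg.DD1 (a : ℕ) {b : Eis} (hb : Adm A₁ b) :
    DD N e₁ ψ γ (2 ^ a) b = et e₁ b ^ a * DD N e₁ ψ γ 1 b := by
  have h := DD_smul (t0 := 1) (ψ := ψ) (γ := γ) S.H.h1 S.n1 (s := 2 ^ a) hb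
  rw [mul_one] at h
  have g := (gn_lf' S.H.h1 S.n1 hb).1
  rw [h, sy6_pow_left g]
  rfl

lemma Stg.blk1 (a n l : ℕ) :
    SL N A₁ e₁ x ψ γ (R0 * (w ^ n * sq3 ^ l) * 2 ^ a) =
      (et e₁ R0 * et e₁ w ^ n * (-1) ^ l) ^ a *
        (DD N e₁ ψ γ 1 R0 * DD N e₁ ψ γ 1 w ^ n *
          (DD N e₁ ψ γ 1 sq3 * rho2 R0 sq3) ^ l * (-1) ^ (l.choose 2)) *
        SL N A₁ e₁ x ψ γ (2 ^ a) := by
  rw [SL_kap S.H.h1 S.n1 S.ch S.gam (su_pow' S.su_two a) (S.kap1_std n l) (S.su_std n l),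
    S.DD1 a (S.kap1_std n l).1, S.et_std, (S.qm1.std S.s1_R S.s1_w S.s1_s n l).2]

lemma Stg.blk1_neg (a n l : ℕ) :
    SL N A₁ e₁ x ψ γ (-(R0 * (w ^ n * sq3 ^ l)) * 2 ^ a) =
      (DD N e₁ ψ γ 1 (-1) * rho2 R0 (-1)) * (-1) ^ l *
        SL N A₁ e₁ x ψ γ (R0 * (w ^ n * sq3 ^ l) * 2 ^ a) := by
  have hk : Kap A₁ e₁ (-(R0 * (w ^ n * sq3 ^ l))) := by
    rw [← neg_one_mul]; exact S.k1_neg.mul S.H.h1 (S.kap1_std n l)
  have he : et e₁ (-(R0 * (w ^ n * sq3 ^ l))) = et e₁ (R0 * (w ^ n * sq3 ^ l)) := by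
    rw [← neg_one_mul, S.et_mul S.k1_neg.1 (S.kap1_std n l).1, S.et_neg, one_mul]
  rw [SL_kap S.H.h1 S.n1 S.ch S.gam (su_pow' S.su_two a) hk (S.su_std n l).neg,
    SL_kap S.H.h1 S.n1 S.ch S.gam (su_pow' S.su_two a) (S.kap1_std n l) (S.su_std n l),
    S.DD1 a hk.1, S.DD1 a (S.kap1_std n l).1, he,
    (S.qm1.std_neg S.s1_R S.s1_w S.s1_s S.s1_neg n l).2]
  ring

/-! the `m`-block -/

lemma Stg.lf3_four (b : Eis) : (4 : Eis) ∣ lf e₃ b - 1 :=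
  ((show (4 : Eis) ∣ 8 from ⟨2, by norm_num⟩).trans S.d8_3).trans (lf_B S.H.h3.toBlk b)

lemma Stg.g_mul {b b' : Eis} (hb : Adm A₃ b) (hb' : Adm A₃ b') :
    DD N e₃ ψ γ R0 (b * b') = DD N e₃ ψ γ R0 b * DD N e₃ ψ γ R0 b' := by
  rw [DD_mul S.H.h3 S.n3 S.ch S.gam S.su_R hb hb',
    rho2_of_four_right (gn_lf' S.H.h3 S.n3 hb).1.2 (S.lf3_four b'), mul_one]

lemma Stg.QQ_one (t : Eis) : QQ N ψ γ t 1 = 1 := by
  have g1 : Gn N 1 := ⟨⟨by unfold IsPrim; simp, od_one⟩, isCoprime_one_left⟩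
  rw [QQ_pos g1, S.ch.one, S.gam.one, Sx440.sy6_one_right]; ring

lemma Stg.g_one : DD N e₃ ψ γ R0 1 = 1 := by
  rw [DD_one S.H.h3 S.n3, S.QQ_one]

lemma Stg.g_pow {b : Eis} (hb : Adm A₃ b) (n : ℕ) :
    DD N e₃ ψ γ R0 (b ^ n) = DD N e₃ ψ γ R0 b ^ n ∧ Adm A₃ (b ^ n) := by
  induction n with
  | zero => rw [pow_zero, pow_zero, S.g_one]; exact ⟨rfl, adm_one⟩
  | succ n ih => rw [pow_succ, pow_succ, S.g_mul ih.2 hb, ih.1]; exact ⟨rfl, ih.2.mul hb⟩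

lemma Stg.kap3_std (a n l : ℕ) : Kap A₃ e₃ (2 ^ a * (w ^ n * sq3 ^ l)) :=
  (kap_pow' S.H.h3 S.k3_two a).mul S.H.h3
    ((kap_pow' S.H.h3 S.k3_w n).mul S.H.h3 (kap_pow' S.H.h3 S.k3_s l))

lemma Stg.su3_std (a n l : ℕ) : SU N (2 ^ a * (w ^ n * sq3 ^ l)) :=
  (su_pow' S.su_two a).mul ((S.su_w n).mul (su_pow' S.su_sq3 l))

lemma Stg.blk3 (a n l : ℕ) :
    SL N A₃ e₃ x ψ γ (2 ^ a * (w ^ n * sq3 ^ l) * R0) =
      DD N e₃ ψ γ R0 2 ^ a * (DD N e₃ ψ γ R0 w ^ n * DD N e₃ ψ γ R0 sq3 ^ l) *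
        SL N A₃ e₃ x ψ γ R0 := by
  have h1 := S.g_pow S.k3_two.1 a
  have h2 := S.g_pow S.k3_w.1 n
  have h3 := S.g_pow S.k3_s.1 l
  rw [SL_kap S.H.h3 S.n3 S.ch S.gam S.su_R (S.kap3_std a n l) (S.su3_std a n l),
    S.g_mul h1.2 (h2.2.mul h3.2), S.g_mul h2.2 h3.2, h1.1, h2.1, h3.1]

lemma Stg.blk3_neg (a n l : ℕ) :
    SL N A₃ e₃ x ψ γ (-(2 ^ a * (w ^ n * sq3 ^ l)) * R0) =
      DD N e₃ ψ γ R0 (-1) * SL N A₃ e₃ x ψ γ (2 ^ a * (w ^ n * sq3 ^ l) * R0) := by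
  have hk : Kap A₃ e₃ (-(2 ^ a * (w ^ n * sq3 ^ l))) := by
    rw [← neg_one_mul]; exact S.k3_neg.mul S.H.h3 (S.kap3_std a n l)
  rw [SL_kap S.H.h3 S.n3 S.ch S.gam S.su_R hk (S.su3_std a n l).neg,
    SL_kap S.H.h3 S.n3 S.ch S.gam S.su_R (S.kap3_std a n l) (S.su3_std a n l),
    ← neg_one_mul (2 ^ a * (w ^ n * sq3 ^ l)), S.g_mul S.k3_neg.1 (S.kap3_std a n l).1]
  ring

/-! the `λ`-block -/

omit S in
lemma prim_neg_two' : IsPrim (-2) := ⟨-1, by norm_num⟩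

omit S in
lemma sy_sq3_neg_two : sy sq3 (-2) = 1 := by
  have hc2 := isCh_sy syG prim_neg_two'
  have h' : (-2 : Eis) ∣ sq3 - 1 := ⟨-w, by decide⟩
  have := hc2.per.congr h'
  beta_reduce at this
  rw [this]; exact hc2.one

lemma Stg.lf2_mul {b b' : Eis} : ψ (lf e₂ (b * b')) = ψ (lf e₂ b) * ψ (lf e₂ b') := by
  have h : N ∣ lf e₂ (b * b') - lf e₂ b * lf e₂ b' := S.n2 ▸ lf_mul S.H.h2.toBlk b b'
  rw [S.ch.per.congr h, S.ch.mul]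

lemma Stg.lf2_pow (b : Eis) (n : ℕ) : ψ (lf e₂ (b ^ n)) = ψ (lf e₂ b) ^ n := by
  induction n with
  | zero => rw [pow_zero, pow_zero, lf_one, S.ch.one]
  | succ n ih => rw [pow_succ, pow_succ, S.lf2_mul, ih]

omit S in
lemma sy_b3 {R0 : Eis} (hR : IsPrim R0) (y : Eis) (a : ℕ) :
    sy y (R0 * (-2) ^ a) = sy y R0 * sy y (-2) ^ a := by
  induction a with
  | zero => rw [pow_zero, mul_one, pow_zero, mul_one]
  | succ a ih =>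
    have h1 : R0 * (-2) ^ a ≠ 0 := mul_ne_zero (Sym645.prim_ne_zero hR)
      (pow_ne_zero a (by norm_num))
    have h2 : (-2 : Eis) ≠ 0 := by norm_num
    rw [pow_succ, ← mul_assoc, Sym645.sy_mul_right y h1 h2, ih, pow_succ]
    ring

lemma Stg.blk2 {s : Eis} (hs : s = 1 ∨ s = -1) (a n l : ℕ) :
    SL N (sq3 ^ (j + 4)) e₂ x ψ γ (R0 * (-2) ^ a * (s * w ^ n * sq3 ^ l)) =
      ψ (lf e₂ R0) * ψ (lf e₂ (-2)) ^ a *
        ((conj (sy w R0) * conj (sy w (-2)) ^ a) ^ n * conj (sy sq3 R0) ^ l) *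
        SL N (sq3 ^ (j + 4)) e₂ x ψ γ (s * w ^ n * sq3 ^ l) := by
  have hsu : SU N (s * w ^ n * sq3 ^ l) := by
    have := GL64.su_std (q := 1) (i := n) (l := l) S.sq3_dvd hs S.su_one
    rwa [mul_one] at this
  have hb : Kap (sq3 ^ (j + 4)) e₂ (R0 * (-2) ^ a) := S.k2 a
  have hbS : SU N (R0 * (-2) ^ a) := S.su_R.mul (su_pow' S.su_two.neg a)
  rw [SL_kap S.H.h2 S.n2 S.ch S.gam hsu hb hbS]
  unfold DD
  have h4 : (4 : Eis) ∣ lf e₂ (R0 * (-2) ^ a) - 1 := by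
    have h8 : (8 : Eis) ∣ A₁ * A₃ := S.h8.mul_right _
    exact ((show (4 : Eis) ∣ 8 from ⟨2, by norm_num⟩).trans h8).trans (lf_B S.H.h2.toBlk _)
  rw [rho2_of_four_right (gn_lf' S.H.h2 S.n2 hb.1).1.2 h4, one_mul]
  have hQ := QQ_lf (ψ := ψ) (γ := γ) S.H.h2 S.gam hs (q := 1) (c := R0 * (-2) ^ a)
    (i := n) (l := l) (by unfold IsPrim; simp) (by rw [S.n2]; exact S.su_one) (S.prim_b3 a)
  rw [S.n2, mul_one] at hQ
  rw [hQ, S.lf2_mul, S.lf2_pow, sy_b3 S.gd.1, sy_b3 S.gd.1, sy_sq3_neg_two]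
  simp only [map_mul, map_pow, one_pow, mul_one]

end blocks

end Crest.Agent.R017.NF64
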