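import Crest.Agent.R017.NF5_64

/-!
# Row 17 (A, norm): factorisation of `WS` over the blocks `2`, `λ`, `m`, VI

* `fact` : `WS (R0 ω^n 2^a λ^b) = SL_m(R0) · (c g^a SL_2(2^a)) · vv n b · t₁^{na} t₁^{2ab}`
-/

set_option autoImplicit false

noncomputable section

open Complex
open scoped ComplexConjugate

namespace Crest.Agent.R017.NF64

open Crest.Agent.R012 Crest.Agent.R012.Eis Crest.Agent.R012.Gauss880 Crest.Agent.R017.Loc266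
open Crest.Agent.R017.Sx440 Crest.Agent.R017.Kub664 Crest.Agent.R017.Tw266
open Crest.Agent.R017.Rw266 Crest.Agent.R017.GG90 Crest.Agent.R017.LamP64
open Crest.Agent.R017.GL64 Crest.Agent.R017.QS411 Crest.Agent.R017.GmK411
open Crest.Agent.R017.GLs74

variable {N A₁ A₃ e₁ e₂ e₃ x : Eis} {ψ γ : Eis → ℂ} {j : ℕ} {R0 : Eis}

section algebra

variable {F W1 Sq ρ E Ew G2 Gw Gs P0 P2 C1 C2 C3 Yp Yn Z1 Z3 k1 k2 k3 s σ ε θ : ℂ} {n a b : ℕ}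

lemma alg_even (hk : s * (k1 * k2 * k3) = σ) (hε : ε ^ a = 1) (hσ : σ ^ a = 1) :
    ((E * Ew ^ (n + 2 * b) * ε) ^ a * (F * W1 ^ (n + 2 * b) * (Sq * ρ) ^ b * θ) * Z1 *
        (P0 * P2 ^ a * ((C1 * C2 ^ a) ^ (n + 2 * b) * C3 ^ b) * Yp) *
        (G2 ^ a * (Gw ^ (n + 2 * b) * Gs ^ b) * Z3) +
      s * ((k1 * k2) * ε * ((E * Ew ^ (n + 2 * b) * ε) ^ a *
        (F * W1 ^ (n + 2 * b) * (Sq * ρ) ^ b * θ) * Z1) *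
        (P0 * P2 ^ a * ((C1 * C2 ^ a) ^ (n + 2 * b) * C3 ^ b) * Yn) *
        (k3 * (G2 ^ a * (Gw ^ (n + 2 * b) * Gs ^ b) * Z3)))) / 2 =
    Z3 * ((F * P0 * (E * G2 * P2 * σ) ^ a * Z1) *
      (1 / 2 * ((W1 * Gw * C1) ^ (n + 2 * b) * (Sq * ρ * Gs * C3) ^ b * θ) *
        (Yp + σ * ε * Yn)) * ((Ew * C2) ^ (n * a) * ((Ew * C2) ^ 2) ^ (a * b))) := by
  have hM : ∃ M : ℂ, M = Z3 * F * P0 * E ^ a * G2 ^ a * P2 ^ a * Z1 *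
    ((W1 * Gw * C1) ^ (n + 2 * b)) * (Sq * ρ * Gs * C3) ^ b * θ *
    ((Ew * C2) ^ ((n + 2 * b) * a)) := ⟨_, rfl⟩
  obtain ⟨M, hM⟩ := hM
  have e1 : ((E * Ew ^ (n + 2 * b) * ε) ^ a * (F * W1 ^ (n + 2 * b) * (Sq * ρ) ^ b * θ) * Z1 *
        (P0 * P2 ^ a * ((C1 * C2 ^ a) ^ (n + 2 * b) * C3 ^ b) * Yp) *
        (G2 ^ a * (Gw ^ (n + 2 * b) * Gs ^ b) * Z3) +
      s * ((k1 * k2) * ε * ((E * Ew ^ (n + 2 * b) * ε) ^ a *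
        (F * W1 ^ (n + 2 * b) * (Sq * ρ) ^ b * θ) * Z1) *
        (P0 * P2 ^ a * ((C1 * C2 ^ a) ^ (n + 2 * b) * C3 ^ b) * Yn) *
        (k3 * (G2 ^ a * (Gw ^ (n + 2 * b) * Gs ^ b) * Z3)))) / 2 =
      M * ε ^ a * (Yp + s * (k1 * k2 * k3) * ε * Yn) / 2 := by
    rw [hM]; ring
  have e2 : Z3 * ((F * P0 * (E * G2 * P2 * σ) ^ a * Z1) *
      (1 / 2 * ((W1 * Gw * C1) ^ (n + 2 * b) * (Sq * ρ * Gs * C3) ^ b * θ) *
        (Yp + σ * ε * Yn)) * ((Ew * C2) ^ (n * a) * ((Ew * C2) ^ 2) ^ (a * b))) =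
      M * σ ^ a * (Yp + σ * ε * Yn) / 2 := by
    rw [hM]; ring
  rw [e1, e2, hk, hε, hσ]

lemma alg_odd (hk : s * (k1 * k2 * k3) = σ) (hε : ε ^ a = ε) (hσ : σ ^ a = σ)
    (hεε : ε * ε = 1) (hσσ : σ * σ = 1) :
    ((E * Ew ^ (n + 2 * b) * ε) ^ a * (F * W1 ^ (n + 2 * b) * (Sq * ρ) ^ b * θ) * Z1 *
        (P0 * P2 ^ a * ((C1 * C2 ^ a) ^ (n + 2 * b) * C3 ^ b) * Yn) *
        (G2 ^ a * (Gw ^ (n + 2 * b) * Gs ^ b) * Z3) +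
      s * ((k1 * k2) * ε * ((E * Ew ^ (n + 2 * b) * ε) ^ a *
        (F * W1 ^ (n + 2 * b) * (Sq * ρ) ^ b * θ) * Z1) *
        (P0 * P2 ^ a * ((C1 * C2 ^ a) ^ (n + 2 * b) * C3 ^ b) * Yp) *
        (k3 * (G2 ^ a * (Gw ^ (n + 2 * b) * Gs ^ b) * Z3)))) / 2 =
    Z3 * ((F * P0 * (E * G2 * P2 * σ) ^ a * Z1) *
      (1 / 2 * ((W1 * Gw * C1) ^ (n + 2 * b) * (Sq * ρ * Gs * C3) ^ b * θ) *
        (Yp + σ * ε * Yn)) * ((Ew * C2) ^ (n * a) * ((Ew * C2) ^ 2) ^ (a * b))) := by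
  have hM : ∃ M : ℂ, M = Z3 * F * P0 * E ^ a * G2 ^ a * P2 ^ a * Z1 *
    ((W1 * Gw * C1) ^ (n + 2 * b)) * (Sq * ρ * Gs * C3) ^ b * θ *
    ((Ew * C2) ^ ((n + 2 * b) * a)) := ⟨_, rfl⟩
  obtain ⟨M, hM⟩ := hM
  have e1 : ((E * Ew ^ (n + 2 * b) * ε) ^ a * (F * W1 ^ (n + 2 * b) * (Sq * ρ) ^ b * θ) * Z1 *
        (P0 * P2 ^ a * ((C1 * C2 ^ a) ^ (n + 2 * b) * C3 ^ b) * Yn) *
        (G2 ^ a * (Gw ^ (n + 2 * b) * Gs ^ b) * Z3) +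
      s * ((k1 * k2) * ε * ((E * Ew ^ (n + 2 * b) * ε) ^ a *
        (F * W1 ^ (n + 2 * b) * (Sq * ρ) ^ b * θ) * Z1) *
        (P0 * P2 ^ a * ((C1 * C2 ^ a) ^ (n + 2 * b) * C3 ^ b) * Yp) *
        (k3 * (G2 ^ a * (Gw ^ (n + 2 * b) * Gs ^ b) * Z3)))) / 2 =
      M * ε ^ a * (Yn + s * (k1 * k2 * k3) * ε * Yp) / 2 := by
    rw [hM]; ring
  have e2 : Z3 * ((F * P0 * (E * G2 * P2 * σ) ^ a * Z1) *
      (1 / 2 * ((W1 * Gw * C1) ^ (n + 2 * b) * (Sq * ρ * Gs * C3) ^ b * θ) *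
        (Yp + σ * ε * Yn)) * ((Ew * C2) ^ (n * a) * ((Ew * C2) ^ 2) ^ (a * b))) =
      M * σ ^ a * (Yp + σ * ε * Yn) / 2 := by
    rw [hM]; ring
  rw [e1, e2, hk, hε, hσ]
  linear_combination (M * σ * Yp / 2) * hεε - (M * ε * Yn / 2) * hσσ

end algebra

/-- the `λ`-factor: `½ Bw^{n+2b} Bs^b (-1)^{b(b-1)/2} (SL_λ(y) + σ (-1)^b SL_λ(-y))`,
`y = ω^{n+2b} (√-3)^b` (so that `ω^n λ^b = y`) -/
def vv (N e₂ x : Eis) (ψ γ : Eis → ℂ) (j : ℕ) (Bw Bs σ : ℂ) (n b : ℕ) : ℂ :=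
  1 / 2 * (Bw ^ (n + 2 * b) * Bs ^ b * (-1) ^ (b.choose 2)) *
    (SL N (sq3 ^ (j + 4)) e₂ x ψ γ (1 * w ^ (n + 2 * b) * sq3 ^ b) +
      σ * (-1) ^ b * SL N (sq3 ^ (j + 4)) e₂ x ψ γ (-1 * w ^ (n + 2 * b) * sq3 ^ b))

lemma lam_eq_w2_sq3 : lam = w ^ 2 * sq3 := by
  rw [sq3_eq, ← mul_assoc, ← pow_succ, w_cube, one_mul]

lemma lam_pow_eq (b : ℕ) : lam ^ b = w ^ (2 * b) * sq3 ^ b := by
  rw [lam_eq_w2_sq3, mul_pow, ← pow_mul]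

lemma isUnit_w' : IsUnit w := Crest.Agent.R017.GG90.isUnit_w

lemma sy_w_cube {c : Eis} (hc : IsPrim c) : sy w c ^ 3 = 1 :=
  Sym645.sy_cube (Sym645.prim_nm_mod hc) ⟨w ^ 2, 0, by rw [← pow_succ, w_cube]; ring⟩

section

variable (S : Stg N A₁ A₃ e₁ e₂ e₃ j ψ γ R0)
include S

lemma Stg.sgn1 : DD N e₁ ψ γ 1 (-1) = 1 ∨ DD N e₁ ψ γ 1 (-1) = -1 := by
  have h := S.qm1.mul (-1) (-1) S.s1_neg S.s1_neg
  rw [rho2_neg_one_neg_one, mul_one, neg_mul_neg, one_mul, DD_one S.H.h1 S.n1, S.QQ_one] at h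
  exact mul_self_eq_one_iff.mp h.symm

lemma Stg.sgn3 : DD N e₃ ψ γ R0 (-1) = 1 ∨ DD N e₃ ψ γ R0 (-1) = -1 := by
  have h := S.g_mul S.k3_neg.1 S.k3_neg.1
  rw [neg_mul_neg, one_mul, S.g_one] at h
  exact mul_self_eq_one_iff.mp h.symm

lemma Stg.fw3 : DD N e₁ ψ γ 1 w ^ 3 = 1 := by
  have h1 : S1 A₁ 1 := ⟨adm_one, od_one⟩
  have h := (S.qm1.w_pow h1 S.s1_w 3).2
  rw [w_cube, mul_one, DD_one S.H.h1 S.n1, S.QQ_one, one_mul] at h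
  exact h.symm

lemma Stg.gw3 : DD N e₃ ψ γ R0 w ^ 3 = 1 := by
  have h := (S.g_pow S.k3_w.1 3).1
  rw [w_cube, S.g_one] at h
  exact h.symm

lemma Stg.norm_psi2 {b : Eis} (hb : IsPrim b) : ‖ψ (lf e₂ b)‖ = 1 :=
  S.ch.norm_eq_one S.lev.ne (gn_lf' S.H.h2 S.n2 (adm_iff.mpr hb)).2

lemma Stg.norm_f {b : Eis} (hb : Adm A₁ b) : ‖DD N e₁ ψ γ 1 b‖ = 1 :=
  DD_norm S.H.h1 S.n1 S.ch S.gam S.su_one hb

lemma Stg.norm_g {b : Eis} (hb : Adm A₃ b) : ‖DD N e₃ ψ γ R0 b‖ = 1 :=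
  DD_norm S.H.h3 S.n3 S.ch S.gam S.su_R hb

lemma Stg.norm_et {b : Eis} (hb : Adm A₁ b) : ‖et e₁ b‖ = 1 := by
  have g := gn_lf' S.H.h1 S.n1 hb
  unfold et
  refine norm_sy6 g.1.1 g.1.2 ?_
  exact (IsCoprime.of_isCoprime_of_dvd_right g.2 S.two_dvd).symm

lemma Stg.cop_sq3_R : IsCoprime sq3 R0 := by
  refine isCoprime_of_prime_dvd (fun h => S.gd.ne h.2) (fun q hq h1 h2 => ?_)
  have h3 : Associated q sq3 := hq.associated_of_dvd prime_sq3 h1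
  exact not_sq3_dvd_of_prim S.gd.1 (h3.symm.dvd.trans h2)

/-- **the factorisation** -/
theorem fact {s : ℂ} (hs : s = 1 ∨ s = -1) :
    ∃ c g t1 Bw Bs σ : ℂ, ‖c‖ = 1 ∧ ‖g‖ = 1 ∧ t1 ^ 3 = 1 ∧ Bw ^ 3 = 1 ∧ ‖Bs‖ = 1 ∧
      (σ = 1 ∨ σ = -1) ∧ ∀ n a b : ℕ,
      WS N x s (fun c => ψ c * γ c) (R0 * (w ^ n * 2 ^ a * lam ^ b)) =
        SL N A₃ e₃ x ψ γ R0 * ((c * g ^ a * SL N A₁ e₁ x ψ γ (2 ^ a)) *
          vv N e₂ x ψ γ j Bw Bs σ n b * (t1 ^ (n * a) * (t1 ^ 2) ^ (a * b))) := by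
  obtain ⟨κ, hκ⟩ : ∃ κ, κ = DD N e₁ ψ γ 1 (-1) * rho2 R0 (-1) * DD N e₃ ψ γ R0 (-1) := ⟨_, rfl⟩
  have hρ : rho2 R0 (-1) = 1 ∨ rho2 R0 (-1) = -1 := mul_self_eq_one_iff.mp (rho2_sq _ _)
  have hκ1 : κ = 1 ∨ κ = -1 := by
    rw [hκ]
    rcases S.sgn1 with h1 | h1 <;> rcases S.sgn3 with h2 | h2 <;> rcases hρ with h3 | h3 <;>
      rw [h1, h2, h3] <;> norm_num
  obtain ⟨σ, hσd⟩ : ∃ σ, σ = s * κ := ⟨_, rfl⟩
  have hσ : σ = 1 ∨ σ = -1 := by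
    rw [hσd]
    rcases hs with h1 | h1 <;> rcases hκ1 with h2 | h2 <;> rw [h1, h2] <;> norm_num
  have hσn : ‖σ‖ = 1 := by rcases hσ with h | h <;> rw [h] <;> norm_num
  refine ⟨DD N e₁ ψ γ 1 R0 * ψ (lf e₂ R0),
    et e₁ R0 * DD N e₃ ψ γ R0 2 * ψ (lf e₂ (-2)) * σ,
    et e₁ w * conj (sy w (-2)),
    DD N e₁ ψ γ 1 w * DD N e₃ ψ γ R0 w * conj (sy w R0),
    DD N e₁ ψ γ 1 sq3 * rho2 R0 sq3 * DD N e₃ ψ γ R0 sq3 * conj (sy sq3 R0),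
    σ, ?_, ?_, ?_, ?_, ?_, hσ, ?_⟩
  · rw [norm_mul, S.norm_f S.k1_R.1, S.norm_psi2 S.gd.1, mul_one]
  · rw [norm_mul, norm_mul, norm_mul, S.norm_et S.k1_R.1, S.norm_g S.k3_two.1,
      S.norm_psi2 prim_neg_two', hσn]
    norm_num
  · rw [mul_pow, S.et_w3, ← map_pow, sy_w_cube prim_neg_two', map_one, one_mul]
  · rw [mul_pow, mul_pow, S.fw3, S.gw3, ← map_pow, sy_w_cube S.gd.1, map_one]
    norm_num
  · have h1 : ‖rho2 R0 sq3‖ = 1 := by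
      rcases mul_self_eq_one_iff.mp (rho2_sq R0 sq3) with h | h <;> rw [h] <;> norm_num
    have h2 : ‖sy sq3 R0‖ = 1 := norm_sy syG S.gd.1 S.cop_sq3_R
    rw [norm_mul, norm_mul, norm_mul, S.norm_f S.k1_s.1, h1, S.norm_g S.k3_s.1,
      RCLike.norm_conj, h2]
    norm_num
  · intro n a b
    obtain ⟨m, hm⟩ : ∃ m, m = n + 2 * b := ⟨_, rfl⟩
    have hT : R0 * (w ^ n * 2 ^ a * lam ^ b) = R0 * (w ^ m * sq3 ^ b) * 2 ^ a := by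
      rw [lam_pow_eq, hm, pow_add]; ring
    unfold WS vv
    rw [hT, ← hm, tot_eq_GG, tot_eq_GG]
    have hsu : SU N (R0 * (w ^ m * sq3 ^ b) * 2 ^ a) := (S.su_std m b).mul (su_pow' S.su_two a)
    rw [tot_split3 S.H S.ch S.gam hsu, tot_split3 S.H S.ch S.gam hsu.neg]
    have e11 : -(R0 * (w ^ m * sq3 ^ b) * 2 ^ a) = -(R0 * (w ^ m * sq3 ^ b)) * 2 ^ a := by ring
    have e31 : R0 * (w ^ m * sq3 ^ b) * 2 ^ a = 2 ^ a * (w ^ m * sq3 ^ b) * R0 := by ring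
    have e32 : -(R0 * (w ^ m * sq3 ^ b) * 2 ^ a) = -(2 ^ a * (w ^ m * sq3 ^ b)) * R0 := by ring
    have b1 := S.blk1 (x := x) a m b
    have b1n := S.blk1_neg (x := x) a m b
    have b3 := S.blk3 (x := x) a m b
    have b3n := S.blk3_neg (x := x) a m b
    rw [← e11] at b1n
    rw [← e31] at b3 b3n
    rw [← e32] at b3n
    rw [b1n, b1, b3n, b3]
    -- the `λ`-block
    have h4 : (-1 : ℂ) ^ b * (-1) ^ b = 1 := by rw [← mul_pow]; norm_num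
    have h5 : σ * σ = 1 := by rcases hσ with h | h <;> rw [h] <;> norm_num
    have hp : (-2 : Eis) ^ a * (-1) ^ a = 2 ^ a := by rw [← mul_pow]; congr 1
    rcases Nat.even_or_odd a with ha | ha
    · have hp1 : (-1 : Eis) ^ a = 1 := ha.neg_one_pow
      rw [hp1, mul_one] at hp
      have q1 : R0 * (w ^ m * sq3 ^ b) * 2 ^ a = R0 * (-2) ^ a * (1 * w ^ m * sq3 ^ b) := by
        rw [← hp]; ring
      have q2 : -(R0 * (w ^ m * sq3 ^ b) * 2 ^ a) = R0 * (-2) ^ a * (-1 * w ^ m * sq3 ^ b) := by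
        rw [← hp]; ring
      have b2 := S.blk2 (x := x) (s := 1) (Or.inl rfl) a m b
      have b2n := S.blk2 (x := x) (s := -1) (Or.inr rfl) a m b
      rw [← q1] at b2
      rw [← q2] at b2n
      rw [b2, b2n]
      have h6 : ((-1 : ℂ) ^ b) ^ a = 1 := by rw [← pow_mul, mul_comm, pow_mul, ha.neg_one_pow, one_pow]
      have h7 : σ ^ a = 1 := by
        rcases hσ with h | h
        · rw [h, one_pow]
        · rw [h, ha.neg_one_pow]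
      rw [hm]
      exact alg_even (by rw [← hκ, ← hσd]) h6 h7
    · have hp1 : (-1 : Eis) ^ a = -1 := ha.neg_one_pow
      rw [hp1, mul_neg, mul_one] at hp
      have q1 : R0 * (w ^ m * sq3 ^ b) * 2 ^ a = R0 * (-2) ^ a * (-1 * w ^ m * sq3 ^ b) := by
        rw [← hp]; ring
      have q2 : -(R0 * (w ^ m * sq3 ^ b) * 2 ^ a) = R0 * (-2) ^ a * (1 * w ^ m * sq3 ^ b) := by
        rw [← hp]; ring
      have b2 := S.blk2 (x := x) (s := -1) (Or.inr rfl) a m b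
      have b2n := S.blk2 (x := x) (s := 1) (Or.inl rfl) a m b
      rw [← q1] at b2
      rw [← q2] at b2n
      rw [b2, b2n]
      have h6 : ((-1 : ℂ) ^ b) ^ a = (-1) ^ b := by
        rw [← pow_mul, mul_comm, pow_mul, ha.neg_one_pow]
      have h7 : σ ^ a = σ := by
        rcases hσ with h | h
        · rw [h, one_pow]
        · rw [h, ha.neg_one_pow]
      rw [hm]
      exact alg_odd (by rw [← hκ, ← hσd]) h6 h7 h4 h5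

end

end Crest.Agent.R017.NF64
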