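import Crest.Agent.R017.NEZ_545

/-!
# Row 17, FlatNE: the lines of a sum (helper545)

* `lnk_inl`, `lnk_inr`, `lek_inl`, `lek_inr`
-/

set_option autoImplicit false

noncomputable section

namespace Crest.Agent.R017.RGB545

open Crest.Agent.R017.B770
open Crest.Agent.R017.Prov71

variable {Lam ι ι' : Type*} {p : ℕ} {π : Lam → DPar} {h : ℝ → ℝ}

theorem lnk_inl (D : LD ι p) (E : LD ι' p) (j : ι) :
    LNk π h (D.sum E) (.inl j) = LNk π h D j := rfl

theorem lnk_inr (D : LD ι p) (E : LD ι' p) (j : ι') :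
    LNk π h (D.sum E) (.inr j) = LNk π h E j := rfl

theorem lek_inl (D : LD ι p) (E : LD ι' p) (j : ι) :
    LEk π h (D.sum E) (.inl j) = LEk π h D j := rfl

theorem lek_inr (D : LD ι p) (E : LD ι' p) (j : ι') :
    LEk π h (D.sum E) (.inr j) = LEk π h E j := rfl

end Crest.Agent.R017.RGB545
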