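import Crest.Agent.R017.TJbe_180
import Crest.Agent.R017.TNj_90

/-!
# Row 17, FlatNE, NumEq (helper708): the joint numbers of the twisted windows

* **`jbc_be`** : helper90's `JBc` at `bt φ α p · pw t` from the `JBc` of `α`
-/

set_option autoImplicit false
set_option linter.unusedVariables false

noncomputable section

open Finset MeasureTheory
open scoped ComplexConjugate Classical

namespace Crest.Agent.R017.NGj708

open Crest.Agent.R012 Crest.Agent.R012.Eis Crest.Agent.R012.MC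
open Crest.Agent.R012.LS2 (S mem_S)
open Crest.Agent.R012.Weight600 (osc pw)
open Crest.Agent.R017.CM106 (CS TG FS)
open Crest.Agent.R017.E1551
open Crest.Agent.R017.Win813
open Crest.Agent.R017.RGw813
open Crest.Agent.R017.I1146 (LipS)
open Crest.Agent.R017.TNj90 (JBc)
open Crest.Agent.R017.TJbe180 (Rl tw_tgf2)

/-- the index set of a joint block -/
def XB (Y : ℝ) (Q : Eis → Prop) (B V : ℝ) : Finset (Σ _ : Eis, Eis) :=
  ((S Y).filter (fun U => B / 2 < nm U ∧ nm U ≤ B ∧ Q U)).sigma fun U => BU V U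

lemma JB_eq_PG (Y : ℝ) (α : Eis → ℂ) (Q : Eis → Prop) (d : Eis) (B V t : ℝ) :
    E1551.JB Y α Q d B V t =
      PG (XB Y Q B V) (fun _ => 1) (fun x => d * x.1) (fun x => x.2 * x.1) α t := by
  unfold E1551.JB PG XB
  rw [Finset.sum_sigma]
  refine Finset.sum_congr rfl fun U _ => Finset.sum_congr rfl fun κ _ => ?_
  rw [one_mul]
  rfl

lemma mem_XB {Y : ℝ} {Q : Eis → Prop} {B V : ℝ} {x : Σ _ : Eis, Eis} (hx : x ∈ XB Y Q B V) :
    x.1 ∈ S Y := by
  unfold XB at hx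
  exact (Finset.mem_filter.1 (Finset.mem_sigma.1 hx).1).1

/-- **joint blocks of a twist** -/
theorem JB_tw {Y : ℝ} (hY : 0 ≤ Y) {α : Eis → ℂ} (h : FS α) {a b : ℕ} (hb : b < 3) {d : Eis}
    (hd : IsPrim d) (Q : Eis → Prop) (B V t : ℝ) :
    E1551.JB Y (tw2 a b α) Q d B V t ≤ E1551.JB Y α Q d B (9 * V) t := by
  unfold E1551.JB
  refine Finset.sum_le_sum fun U hU => ?_
  have hUp := ((mem_S hY).1 (Finset.mem_filter.1 hU).1).2.1
  have h1 := tw_tgf2 h (a := a) hb (Z := V) (M := 1)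
    (W := fun r => if CF (r * U) then 1 else 0) zero_le_one
    (fun r => by split_ifs <;> norm_num)
    (fun r r' hr hr' hR => by
      by_cases hcf : CF (r * U)
      · rw [if_pos hcf, if_pos (hR.cf hr' hUp hcf), one_mul]
      · rw [if_neg hcf]
        split_ifs <;> norm_num) (hd.mul hUp) U t
  rw [one_mul] at h1
  have e : ∀ (β : Eis → ℂ) (Z : ℝ), ∑ κ ∈ BU Z U, ‖TG (tws (sg β (d * U)) t) (κ * U)‖ ^ 2 =
      ∑ r ∈ BF Z, (if CF (r * U) then 1 else 0) * tgf β (d * U) (r * U) t := by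
    intro β Z
    unfold BU
    rw [Finset.sum_filter]
    refine Finset.sum_congr rfl fun r _ => ?_
    split_ifs
    · rw [one_mul]; rfl
    · rw [zero_mul]
  rw [e, e]
  exact h1

lemma pow_shift (t s : ℝ) (J : ℕ) : (1 + |t + s|) ^ J ≤ (1 + |t|) ^ J * (1 + |s|) ^ J := by
  rw [← mul_pow]
  refine pow_le_pow_left₀ (by positivity) ?_ J
  nlinarith [abs_add_le t s, mul_nonneg (abs_nonneg t) (abs_nonneg s)]

/-- **the joint numbers of the twisted windows** -/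
theorem jbc_be {J Aw : ℕ} (hJA : J + 2 ≤ Aw) {Cw L : ℝ} (hCw : 0 ≤ Cw) (hL : 0 ≤ L) :
    ∃ C : ℝ, 0 ≤ C ∧ ∀ (Y W F η : ℝ) (Sh : ℝ → ℝ → ℝ → ℝ) (α : Eis → ℂ), 0 ≤ Y → 0 ≤ F →
      0 < η → η ≤ 1 → LipS L Sh → FS α → (∀ n, α n ≠ 0 → n ∈ S Y) →
      JBc Y (9 * W) F ((J : ℕ) : ℝ) Sh α →
      ∀ p ∈ T9, ∀ φ : ℝ → ℝ, WK Cw η Aw φ → ∀ t : ℝ,
        JBc Y W (C * (η⁻¹) ^ J * F * (1 + |t|) ^ J) ((J : ℕ) : ℝ) Sh
          (fun n => bt φ α p n * pw t (nm n)) := by
  have hi1 := iA_nonneg Aw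
  have hi2 := iA_nonneg 2
  refine ⟨Cw ^ 2 * iA Aw * iA 2 * Real.exp (L * Real.log 9), by positivity, ?_⟩
  intro Y W F η Sh α hY hF hη hη1 hLip hFS hα hjb p hp φ hφ t d hd B V hB1 hB2 hV1 hV2 s
  have hp2 : p.2 < 3 := by
    unfold T9 at hp
    simp only [Finset.mem_product, Finset.mem_range] at hp
    exact hp.2
  have hdp := ((mem_S hY).1 hd).2.1
  have hbS : ∀ n, bt φ α p n ≠ 0 → n ∈ S Y := fun n hn => hα n (wn_ne (tw2_ne hn)).1
  rw [JB_shift hY hbS hd]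
  obtain ⟨M, hM⟩ : ∃ M, M = F * (Real.exp (L * Real.log 9) *
      Real.exp (Sh (Real.log (nm d)) (Real.log B) (Real.log V))) := ⟨_, rfl⟩
  have hM0 : 0 ≤ M := by rw [hM]; positivity
  have h9 : 0 ≤ Real.log 9 := Real.log_nonneg (by norm_num)
  have hα' : ∀ u, PG (XB Y (fun _ => True) B V) (fun _ => 1) (fun x => d * x.1) (fun x => x.2 * x.1)
      (tw2 p.1 p.2 α) u ≤ M * (1 + |u|) ^ J := by
    intro u
    rw [← JB_eq_PG]
    refine (JB_tw hY hFS hp2 hdp _ B V u).trans ?_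
    have h1 := hjb d hd B (9 * V) hB1 hB2 (by linarith) (by
      rw [mul_div_assoc]; linarith) u
    rw [Real.rpow_natCast] at h1
    refine h1.trans (mul_le_mul_of_nonneg_right ?_ (by positivity))
    rw [hM]
    refine mul_le_mul_of_nonneg_left ?_ hF
    rw [← Real.exp_add]
    refine Real.exp_le_exp.2 ?_
    have h2 := hLip (Real.log (nm d)) (Real.log B) (Real.log (9 * V)) (Real.log B) (Real.log V)
    rw [sub_self, abs_zero, zero_add, Real.log_mul (by norm_num) (by linarith),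
      add_sub_cancel_right, abs_of_nonneg h9] at h2
    rw [Real.log_mul (by norm_num) (by linarith)]
    linarith
  have hg : ∀ x ∈ XB Y (fun _ => True) B V, (fun x : Σ _ : Eis, Eis => d * x.1) x ≠ 0 := by
    intro x hx
    exact mul_ne_zero hdp.ne_zero ((mem_S hY).1 (mem_XB hx)).2.1.ne_zero
  have h3 := PG_bt (X := XB Y (fun _ => True) B V) (W := fun _ => 1) (g := fun x => d * x.1)
    (l := fun x => x.2 * x.1) hCw hη hη1 hJA hφ hFS hg (fun _ _ => zero_le_one) hM0 p hα' (t + s)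
  rw [JB_eq_PG, Real.rpow_natCast]
  refine h3.trans ?_
  have h4 := pow_shift t s J
  have hηJ : 0 ≤ (η⁻¹) ^ J := by positivity
  calc Cw ^ 2 * iA Aw * iA 2 * (η⁻¹) ^ J * M * (1 + |t + s|) ^ J ≤
        Cw ^ 2 * iA Aw * iA 2 * (η⁻¹) ^ J * M * ((1 + |t|) ^ J * (1 + |s|) ^ J) :=
        mul_le_mul_of_nonneg_left h4 (by positivity)
    _ = _ := by rw [hM]; ring

end Crest.Agent.R017.NGj708
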