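import Crest.Agent.R017.RoE_116
import Crest.Agent.R017.E3Uh_829

/-!
# Row 17, T.7, (Ro) at the leaf, exceptional class (helper116): (RH) and the pair bound

* `RHRz` : (RH) in classes at finitely many pairs
* `PairX` : the pair bound in classes (helper744's theorem)
* `rhrz_of` : (RH) for the restricted sequences
-/

set_option autoImplicit false
set_option linter.unusedVariables false

noncomputable section

open Finset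
open scoped Classical

namespace Crest.Agent.R017.RoX116

open Crest.Agent.R012 Crest.Agent.R012.Eis
open Crest.Agent.R012.LS2 (S mem_S bl mem_bl)
open Crest.Agent.R012.Weight600 (pw)
open Crest.Agent.R017.C70 (JC OKJ JW okJ_JW)
open Crest.Agent.R017.CM106 (CS FS)
open Crest.Agent.R017.E3T1579 (T3)
open Crest.Agent.R017.E3T829 (RR)
open Crest.Agent.R017.PX764 (n6)
open Crest.Agent.R017.PoHx72 (Cls)
open Crest.Agent.R017.Mode405 (Slp)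
open Crest.Agent.R017.R3571 (RMm)
open Crest.Agent.R017.E3Kf548 (afR)
open Crest.Agent.R017.E3Kc548 (afT)
open Crest.Agent.R017.LBo813 (Om)
open Crest.Agent.R017.I1146 (omr)
open Crest.Agent.R017.ROX744 (PrU)

/-- (RH) in classes at the pairs of `R` -/
def RHRz (m : ℝ) (A : ℕ) (R : Finset (Eis × Eis)) (af : Eis → Eis → Eis → ℂ) (u : Eis)
    (W0 : Bool → Eis → Eis → ℝ → ℝ) : Prop :=
  ∀ jj, ∀ ρ ∈ R, ∀ γ π, IsPrim γ → IsPrim π → (nm π : ℝ) ≤ m →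
    ∀ P : ℝ, 0 < P → (nm γ : ℝ) * n6 γ ^ 2 * ∑ r ∈ (bl P).filter (Cls (PrU u) jj),
      R3571.RMm A (af ρ.1 ρ.2) ρ.2 γ π r ≤ W0 jj ρ.1 ρ.2 P

/-- **the pair bound in classes** -/
def PairX : Prop :=
  ∀ (R0 : ℝ), 0 ≤ R0 → ∀ (a A₁ : ℕ), 1 < A₁ → ∀ (b₀ : ℝ), 0 ≤ b₀ → ∀ (ε : ℝ), 0 < ε → ε ≤ 1 →
  ∃ (A₀ : ℕ) (c : ℝ), 1 ≤ c ∧ ∀ A : ℕ, A₀ ≤ A → ∀ Bw : ℕ, 4 ≤ Bw → ∃ C : ℝ, 0 ≤ C ∧
  ∀ (Z : ℝ), 1 ≤ Z → ∀ (D : ℝ) (N₀ N₁ : ℕ) (af : Eis → Eis → Eis → ℂ) (E0 E1 B K X H : ℝ)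
    (u : Eis) (W0 : Bool → Eis → Eis → ℝ → ℝ), u ≠ 0 → (∀ p, IsPrim p → IsCoprime u p) →
    0 ≤ D → 1 ≤ N₀ → 2 * N₀ ≤ N₁ → E3M829.TC (T3 af) → (∀ d e, FS (af d e)) →
    (∀ d e, e ∉ S E0 → ∀ j, T3 af d e j = 0) → 0 < K → K ≤ Z ^ 5 → (N₁ : ℝ) ≤ Z → 0 ≤ B →
    B ≤ Z → 0 ≤ E1 → E1 ≤ Z → 0 < X → X ≤ Z ^ 5 → 0 < H → c * (Real.exp 1 * N₁) ≤ Z ^ 5 →
    c * (H * (Real.exp 1 * N₁) ^ 2) ≤ K * X →
    (∀ ρ ∈ RR (JW D (1 / 10) N₁) (S E0), ∀ n, af ρ.1 ρ.2 n ≠ 0 → Squarefree n) →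
    (∀ ρ ∈ RR (JW D (1 / 10) N₁) (S E0), ∀ n, af ρ.1 ρ.2 n ≠ 0 →
      |Real.log (nm ρ.1 * nm n) - Real.log X| ≤ R0) →
    (∀ jj d e, Slp a (W0 jj d e)) →
    RHRz (c * Z ^ 300) A₁ (RR (JW D (1 / 10) N₁) (S E0)) af u W0 →
    PairB (C * Z ^ ε) c H A Bw K B E1 E0 b₀ Z N₁ (JW D (1 / 10) N₁) (omr (Om N₀ N₁)) af
      (fun i => RNX2 c K (Real.exp i) H X W0 ((JW D (1 / 10) N₁).image Prod.fst) (S E0))

lemma RMm_zero (A : ℝ) (e γ π r : Eis) : RMm A (fun _ => 0) e γ π r = 0 := by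
  unfold R3571.RMm
  have h : ∀ t : ℝ, (fun m : Eis => (if e ∣ γ * m ∧ IsCoprime m π then
      (fun _ : Eis => (0 : ℂ)) (γ * m) * (n6 m : ℂ) else 0) * pw t (nm m)) = fun _ => 0 := by
    intro t
    funext m
    simp
  have h2 : CS (fun _ : Eis => (0 : ℂ)) r = 0 := by
    unfold CM106.CS
    simp
  simp only [h, h2]
  simp

/-- **(RH) for the restricted sequences** -/
theorem rhrz_of {m : ℝ} {A : ℕ} {E0 D : ℝ} {Y₀ Y₁ : ℝ} {be : Eis → ℂ} {u b e₁ : Eis}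
    {W0 : Bool → Eis → Eis → ℝ → ℝ} (hD : 0 ≤ D) (hE : 0 ≤ E0)
    (hbe : ∀ n, be n ≠ 0 → IsPrim n)
    (hW : ∀ jj d e P, 0 < P → 0 ≤ W0 jj d e P)
    (h : ∀ d e : Eis, IsPrim d → IsPrim e → (nm d : ℝ) ≤ D → (nm e : ℝ) ≤ E0 → ∀ jj : Bool,
      ∀ γ π : Eis, IsPrim γ → IsPrim π → (nm π : ℝ) ≤ m → ∀ P : ℝ, 0 < P →
      (nm γ : ℝ) * n6 γ ^ 2 * ∑ r ∈ (bl P).filter (Cls (PrU u) jj),
        RMm A (fun k => be (d * k)) e γ π r ≤ W0 jj d e P) :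
    RHRz m A (RR (JW D Y₀ Y₁) (S E0)) (afR b e₁ be E0) u W0 := by
  intro jj ρ hρ γ π hγ hπ hπm P hP
  unfold E3T829.RR at hρ
  rw [mem_product] at hρ
  obtain ⟨h1, h2⟩ := hρ
  obtain ⟨d1, d2, d3⟩ := (mem_S hD).1 (fst_S hD h1)
  obtain ⟨e1, e2, e3⟩ := (mem_S hE).1 h2
  by_cases hc : b ∣ ρ.1 ∧ IsCoprime ρ.1 e₁
  · have he : afR b e₁ be E0 ρ.1 ρ.2 = fun k => be (ρ.1 * k) := by
      funext k
      unfold E3Kf548.afR E3Kc548.afT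
      rw [if_pos hc]
      by_cases hk : be (ρ.1 * k) = 0
      · rw [hk]; simp
      · have hkp : IsPrim k := (hbe _ hk).of_mul_left d2
        rw [if_pos ⟨hkp, d2, h2⟩]
    rw [he]
    exact h ρ.1 ρ.2 d2 e2 d1 e1 jj γ π hγ hπ hπm P hP
  · have he : afR b e₁ be E0 ρ.1 ρ.2 = fun _ => 0 := by
      funext k
      unfold E3Kf548.afR
      rw [if_neg hc]
    rw [he]
    simp only [RMm_zero, sum_const_zero, mul_zero]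
    exact hW _ _ _ _ hP

/-- the twist is coprime to the primary elements -/
lemma cop_tw (a : ℕ × ℕ) {p : Eis} (hp : IsPrim p) : IsCoprime (w ^ a.1 * lam ^ a.2) p := by
  refine IsCoprime.mul_left ?_ ?_
  · obtain ⟨v, hv⟩ := isUnit_w.pow a.1
    rw [← hv]
    exact ⟨((v⁻¹ : Eisˣ) : Eis), 0, by simp⟩
  · have h1 : IsCoprime lam p := by
      rw [prime_lam.irreducible.coprime_iff_not_dvd]
      exact hp.not_lam_dvd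
    exact h1.pow_left

lemma tw_ne (a : ℕ × ℕ) : (w ^ a.1 * lam ^ a.2 : Eis) ≠ 0 :=
  mul_ne_zero (pow_ne_zero _ isUnit_w.ne_zero) (pow_ne_zero _ lam_ne_zero)

end Crest.Agent.R017.RoX116
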