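import Crest.Agent.R017.NGkX_708
import Crest.Agent.R017.NGj_708
import Crest.Agent.R017.JBXs_320
import Crest.Agent.R017.NGd_83
import Crest.Agent.R017.P1Nh_73
import Crest.Agent.R017.RoF_116

/-!
# Row 17, FlatNE, NumEq, the Gram number at the near leaf, class E (helper590): the core

* `sh_T1`, `sh_T2`, `diag_n`, `lnT_n` : the real lines at helper320's `shJ`
* `RHW` : the `R`-half at one window (helper848's `rhX_half`)
* **`gk_core`** : the Gram number from the joint numbers and the `R`-half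
-/

set_option autoImplicit false
set_option linter.unusedVariables false

noncomputable section

open Finset MeasureTheory
open scoped ComplexConjugate Classical

namespace Crest.Agent.R017.NG590

open Crest.Agent.R012 Crest.Agent.R012.Eis Crest.Agent.R012.MC
open Crest.Agent.R012.LS2 (S mem_S bl)
open Crest.Agent.R017.CM106 (CS FS TG)
open Crest.Agent.R017.C70
open Crest.Agent.R017.E1551 hiding tau Dg
open Crest.Agent.R017.E3Kc548 (LI mem_LI card_LI)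
open Crest.Agent.R017.E3Z548 (FH FH_nonneg)
open Crest.Agent.R017.TNj90 (JBc)
open Crest.Agent.R017.E3Hi290 (RN2XF)
open Crest.Agent.R017.PoHx72 (Cls)
open Crest.Agent.R017.ROX744 (PrU)
open Crest.Agent.R017.E2440 (TE StE)
open Crest.Agent.R017.Mode405 (Slp)
open Crest.Agent.R017.PX764 (n6)
open Crest.Agent.R017.R3571 (RMm)
open Crest.Agent.R012.Weight600 (pw)
open Crest.Agent.R017.ET490 (LnT)
open Crest.Agent.R017.LBo813 (Om)
open Crest.Agent.R017.I1146 (omr LipS)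
open Crest.Agent.R017.Win813 (WK)
open Crest.Agent.R017.RGw813 (T9 bt)
open Crest.Agent.R017.Et813 (wnd mem_wnd)
open Crest.Agent.R017.RG64 (ex0)
open Crest.Agent.R017.NEg551 (F3 F3_nonneg)
open Crest.Agent.R017.JBX320 (shJ)
open Crest.Agent.R017.P1N904 (Gs Gs_ge)
open Crest.Agent.R017.P1N73 (Dl hN hN_lip thN_le c0_n c1_n)

/-! ### the real lines -/

lemma sh_T1 {κ g n m cL δ b l : ℝ} (hg : n - m ≤ g) (hb : 0 ≤ b) :
    shJ κ g n m cL δ b l ≤ 4 / 3 * (m - δ - b) + (κ + l + b) / 3 +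
      max 0 ((4 * (m - δ - b) - 3 * κ) / 9) + b + cL := by
  have h1 : max 0 (n - m + b - g) ≤ b := max_le hb (by linarith)
  have h2 : min (max 0 ((2 * (m - δ - b) - (l + b + κ)) / 3)) (F3 κ (m - δ - b)) ≤
      max 0 ((4 * (m - δ - b) - 3 * κ) / 9) := min_le_right _ _
  unfold shJ ex0
  linarith

lemma sh_T2 {κ g n m cL δ b l : ℝ} (hg : n - m ≤ g) (hb : 0 ≤ b) :
    shJ κ g n m cL δ b l ≤ max (2 * (m - δ - b)) (4 / 3 * (m - δ - b) + (κ + l + b) / 3) +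
      b + cL := by
  have h1 : max 0 (n - m + b - g) ≤ b := max_le hb (by linarith)
  have h2 : min (max 0 ((2 * (m - δ - b) - (l + b + κ)) / 3)) (F3 κ (m - δ - b)) ≤
      max 0 ((2 * (m - δ - b) - (l + b + κ)) / 3) := min_le_left _ _
  have h3 : 4 / 3 * (m - δ - b) + (κ + l + b) / 3 +
      max 0 ((2 * (m - δ - b) - (l + b + κ)) / 3) ≤
      max (2 * (m - δ - b)) (4 / 3 * (m - δ - b) + (κ + l + b) / 3) := by
    rcases le_total 0 ((2 * (m - δ - b) - (l + b + κ)) / 3) with h | h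
    · rw [max_eq_right h]
      exact le_trans (by linarith) (le_max_left _ _)
    · rw [max_eq_left h]
      exact le_trans (by linarith) (le_max_right _ _)
  unfold shJ ex0
  linarith

/-- the diagonal line -/
lemma diag_n {κ p q t s V i δ b l T E : ℝ} (k0 : 0 < κ) (t0 : 0 ≤ t) (t1 : t ≤ κ / 50000)
    (p0 : 3 / 4 * κ ≤ p + t) (p1 : p ≤ 4 / 5 * κ + t) (hV : 5 * (V + p) ≤ 7 * κ + t)
    (δ0 : 0 ≤ δ) (b0 : 0 ≤ b) (hl : l ≤ i - 2 * δ + t)
    (hT1 : T ≤ 4 / 3 * (p - δ - b) + (κ + l + b) / 3 + max 0 ((4 * (p - δ - b) - 3 * κ) / 9) +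
      b + s) :
    2 / 3 * q - i / 3 + T + 2 * δ - max 0 (b - E) - p / 3 ≤
      Gs κ q p + max 0 (κ / 40 - q / 3) + 3 * t + s - max 0 (V - q) := by
  obtain ⟨g1, g2, g3⟩ := Gs_ge κ q p
  have h1 := le_max_left 0 (b - E)
  have h2 := le_max_left 0 (κ / 40 - q / 3)
  have h3 := le_max_right 0 (κ / 40 - q / 3)
  have h4 : max 0 ((4 * (p - δ - b) - 3 * κ) / 9) ≤ max 0 ((4 * p - 3 * κ) / 9) :=
    max_le_max le_rfl (by linarith)
  have h5 : max 0 ((4 * p - 3 * κ) / 9) + (p + κ / 3) ≤ 13 / 9 * p + 4 / 9 * t := by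
    rw [← le_sub_iff_add_le]
    exact max_le (by linarith) (by linarith)
  have h6 : max 0 ((4 * p - 3 * κ) / 9) ≤ κ / 40 := max_le (by linarith) (by linarith)
  rcases le_total (V - q) 0 with h | h
  · rw [max_eq_left h]
    linarith
  · rw [max_eq_right h]
    linarith

/-- **the lines of `LnT` at `shJ`** -/
lemma lnT_n {κ g n m cL q t t' V i δ E : ℝ} (k0 : 0 < κ) (t0 : 0 ≤ t) (t1 : t ≤ κ / 50000)
    (p0 : 3 / 4 * κ ≤ m + t) (p1 : m ≤ 4 / 5 * κ + t) (hV : 5 * (V + m) ≤ 7 * κ + t)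
    (hq : q ≤ κ + t) (hg : n - m ≤ g) (ht' : t' ≤ t) (i0 : 0 ≤ i) (hi : i ≤ V) (δ0 : 0 ≤ δ) :
    LnT (shJ κ g n m cL) q i (hN κ q m δ) m E δ t' (Gs κ q m + 3 * t + cL) := by
  have hD : Dl κ m i q t := ⟨k0, t0, t1, p0, p1, by linarith, i0, hq⟩
  constructor
  · intro b l b0 l0 hl
    have h1 := c0_n hD δ0 b0 (by linarith : l ≤ i - 2 * δ + t) (sh_T1 (cL := cL) hg b0)
      (sh_T2 hg b0) (by linarith : hN κ q m δ - t ≤ hN κ q m δ)
    have h2 := le_max_left 0 (b - E)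
    have h3 : ET490.lw0 q i (hN κ q m δ) = P1N904.lw0 q i (hN κ q m δ) := rfl
    rw [h3]
    linarith
  · intro b l b0 l0 hl
    have h1 := c1_n hD δ0 b0 (by linarith : l ≤ i - 2 * δ + t) (sh_T1 (cL := cL) hg b0)
      (by linarith : hN κ q m δ - t ≤ hN κ q m δ) (by linarith : hN κ q m δ ≤ hN κ q m δ + t)
    have h2 := le_max_left 0 (b - E)
    have h3 : ET490.lw1 q i (hN κ q m δ) = P1N904.lw1 q i (hN κ q m δ) := rfl
    rw [h3]
    linarith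

/-- the closed form is Lipschitz -/
lemma lipS_shJ (κ g n m cL : ℝ) : LipS 3 (shJ κ g n m cL) := by
  intro η b v b' v'
  have hb := le_abs_self (b - b')
  have hb' := neg_abs_le (b - b')
  have hv := le_abs_self (v - v')
  have hv' := neg_abs_le (v - v')
  have ha := abs_nonneg (b - b')
  have hc := abs_nonneg (v - v')
  have h1 : max 0 ((2 * (m - η - b) - (v + b + κ)) / 3) ≤
      max 0 ((2 * (m - η - b') - (v' + b' + κ)) / 3) + (|b - b'| + |v - v'| / 3) := by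
    have e1 := le_max_left 0 ((2 * (m - η - b') - (v' + b' + κ)) / 3)
    have e2 := le_max_right 0 ((2 * (m - η - b') - (v' + b' + κ)) / 3)
    refine max_le (by linarith) (by linarith)
  have h2 : F3 κ (m - η - b) ≤ F3 κ (m - η - b') + |b - b'| := by
    unfold F3
    have e1 := le_max_left 0 ((4 * (m - η - b') - 3 * κ) / 9)
    have e2 := le_max_right 0 ((4 * (m - η - b') - 3 * κ) / 9)
    refine max_le (by linarith) (by linarith)
  have h3 : max 0 (n - m + b - g) ≤ max 0 (n - m + b' - g) + |b - b'| := by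
    have e1 := le_max_left 0 (n - m + b' - g)
    have e2 := le_max_right 0 (n - m + b' - g)
    refine max_le (by linarith) (by linarith)
  have h4 : min (max 0 ((2 * (m - η - b) - (v + b + κ)) / 3)) (F3 κ (m - η - b)) ≤
      min (max 0 ((2 * (m - η - b') - (v' + b' + κ)) / 3)) (F3 κ (m - η - b')) +
        (|b - b'| + |v - v'| / 3) := by
    rcases min_cases (max 0 ((2 * (m - η - b') - (v' + b' + κ)) / 3)) (F3 κ (m - η - b'))
      with h | h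
    · rw [h.1]
      exact (min_le_left _ _).trans h1
    · rw [h.1]
      refine (min_le_right _ _).trans (h2.trans ?_)
      linarith
  unfold shJ ex0
  linarith

/-! ### the core -/

/-- **the `R`-half at one window** -/
def RHW (a J : ℕ) (cg Z : ℝ) (u : Eis) (D E0 k p : ℝ) (N₁ : ℕ) (hf : ℕ → ℝ → ℝ)
    (be : Eis → ℂ) (MR : ℝ) : Prop :=
  ∃ W0 : ℕ → Bool → Eis → Eis → ℝ → ℝ, (∀ i jj d f, Slp a (W0 i jj d f)) ∧
    (∀ i ∈ LI (1 / 10) N₁, ∀ jj, ∀ d ∈ (JW D (1 / 10) N₁).image Prod.fst, ∀ f ∈ S E0, ∀ γ π,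
        IsPrim γ → IsPrim π → (nm π : ℝ) ≤ cg * Z ^ 300 → ∀ P : ℝ, 0 < P →
        (nm γ : ℝ) * n6 γ ^ 2 * ∑ r ∈ (bl P).filter (Cls (PrU u) jj),
          RMm ((J + 2 : ℕ) : ℝ) (fun n => be (d * n)) f γ π r ≤ W0 i jj d f P) ∧
    (∀ i ∈ LI (1 / 10) N₁, ∀ d ∈ (JW D (1 / 10) N₁).image Prod.fst, ∀ f ∈ S E0,
        FH (Real.exp k) (Real.exp (hf i (Real.log (nm d)))) (Real.exp i) *
          RN2XF cg (Real.exp k) (Real.exp i) (Real.exp p)
            (fun d _ => Real.exp (hf i (Real.log (nm d)))) (W0 i) d f ≤ MR / (nm d * nm f))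

/-- the factor of the diagonal -/
lemma qc_num {N₁ E0 k : ℝ} (hN : 1 ≤ N₁) (hE : 1 ≤ E0) (hEN : E0 ^ 3 ≤ N₁) (hk : 0 ≤ k) :
    1 ≤ Real.exp (max 0 (Real.log N₁ - k)) ∧
    (N₁ / Real.exp k ^ 2) ^ (1 / 6 : ℝ) * E0 ^ (1 / 2 : ℝ) ≤ Real.exp (max 0 (Real.log N₁ - k)) ∧
    N₁ / Real.exp k ≤ Real.exp (max 0 (Real.log N₁ - k)) := by
  have hN0 : 0 < N₁ := by linarith
  have hE0 : 0 < E0 := by linarith
  have h1 := le_max_left 0 (Real.log N₁ - k)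
  have h2 := le_max_right 0 (Real.log N₁ - k)
  have hlN := Real.log_nonneg hN
  have hlE : 3 * Real.log E0 ≤ Real.log N₁ := by
    have := Real.log_le_log (by positivity) hEN
    rwa [Real.log_pow] at this
  refine ⟨Real.one_le_exp h1, ?_, ?_⟩
  · have e1 : (N₁ / Real.exp k ^ 2) ^ (1 / 6 : ℝ) * E0 ^ (1 / 2 : ℝ) =
        Real.exp ((Real.log N₁ - 2 * k) / 6 + Real.log E0 / 2) := by
      rw [Real.rpow_def_of_pos (by positivity), Real.rpow_def_of_pos hE0, ← Real.exp_add,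
        Real.log_div hN0.ne' (by positivity), Real.log_pow, Real.log_exp]
      congr 1
      push_cast
      ring
    rw [e1]
    refine Real.exp_le_exp.2 ?_
    rcases le_total (Real.log N₁) k with h | h
    · exact le_trans (by linarith) h1
    · exact le_trans (by linarith) h2
  · have e1 : N₁ / Real.exp k = Real.exp (Real.log N₁ - k) := by
      rw [Real.exp_sub, Real.exp_log hN0]
    rw [e1]
    exact Real.exp_le_exp.2 h2

set_option maxHeartbeats 1600000 in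
/-- **the Gram number at one window** from the joint numbers and the `R`-half -/
theorem gk_core {R : ℝ} (hR : 0 ≤ R) (a : ℕ) {J Aw : ℕ} (hJA : J + 2 ≤ Aw) {Cw : ℝ}
    (hCw : 0 ≤ Cw) {ε : ℝ} (hε : 0 < ε) : ∃ cg C : ℝ, 1 ≤ cg ∧ 0 ≤ C ∧ ∀ Z : ℝ, 3 ≤ Z →
    cg * Real.exp 2 ≤ Z → ∀ (κ g n m cL t D E0 η F MR : ℝ) (N₁ : ℕ) (α : Eis → ℂ), 0 < κ →
    Real.log cg + 1 ≤ t → t ≤ κ / 50000 → 3 / 4 * κ ≤ m + t → m ≤ 4 / 5 * κ + t →
    5 * (1 + Real.log N₁ + m) ≤ 7 * κ + t → n - m ≤ g → 0 ≤ D → 1 ≤ E0 → E0 ≤ Z →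
    E0 ^ 3 ≤ (N₁ : ℝ) → 2 ≤ N₁ → (N₁ : ℝ) ≤ Z → Real.exp m ≤ Z ^ 5 → 0 < η → η ≤ 1 → 0 ≤ F →
    0 ≤ MR → (∀ n, α n ≠ 0 → n ∈ S Z) →
    JBc Z (9 * (cg * Real.exp 2 * N₁)) F ((J : ℕ) : ℝ) (shJ κ g n m cL) α →
    ∀ b ∈ T9, ∀ (t₀ X' : ℝ) (φ : ℝ → ℝ), 0 < X' → |Real.log X' - m| ≤ R + 1 →
    WK Cw η Aw φ → (∀ u, φ u ≠ 0 → |u - Real.log X'| ≤ η / 2) → ∀ z : ℝ, 1 ≤ z → 2 * z ≤ Z →
    Real.log (2 * z) ≤ κ + t → ∀ c, IsPrim c → (nm c : ℝ) ≤ Z →
    RHW a J cg Z (w ^ b.1 * lam ^ b.2) D E0 (Real.log (2 * z)) m N₁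
      (fun _ δ => hN κ (Real.log (2 * z)) m δ) (fun n => bt φ α b n * pw t₀ (nm n)) MR →
    ∑ k ∈ (wnd z (2 * z)).filter CbF,
      ‖StE E0 (JW D (1 / 10) N₁) (omr (Om (N₁ / 2) N₁))
        (fun n => bt φ α b n * pw t₀ (nm n)) (c ^ 3 * k)‖ ^ 2 ≤
      C * Z ^ ε * ((η⁻¹) ^ J * F * (1 + |t₀|) ^ J *
        Real.exp (Gs κ (Real.log (2 * z)) m + max 0 (κ / 40 - Real.log (2 * z) / 3) + 3 * t + cL) +
        MR) := by
  obtain ⟨cg, C₁, hcg, hC₁, H₁⟩ := NGkX708.gk_genX (ρ := 1 / 2) (by norm_num) (by norm_num)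
    (R0 := 2 * R + 3) (by linarith) a (J + 2) (by omega) (ε := ε) (J := ((J : ℕ) : ℝ)) (B₂ := 2)
    (Lh := 4 / 3) hε (Nat.cast_nonneg _) le_rfl (by norm_num)
  obtain ⟨C₂, hC₂, H₂⟩ := NGj708.jbc_be (J := J) (Aw := Aw) hJA (Cw := Cw) (L := 3) hCw (by norm_num)
  refine ⟨cg, C₁ * (2 * C₂ + 1), hcg, by positivity, ?_⟩
  intro Z hZ hcZ κ g n m cL t D E0 η F MR N₁ α hκ htg t1 p0 p1 hS hg hD hE1 hEZ hEN hN2 hNZ hmZ hη hη1
    hF hMR hα hJB b hb t₀ X' φ hX' hXX hφ hφs z hz hzZ hzκ c hc hcZ' hRH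
  obtain ⟨W0, hW1, hW2, hW3⟩ := hRH
  have hZ0 : 0 < Z := by linarith
  have hZ1 : 1 ≤ Z := by linarith
  have hz0 : 0 < 2 * z := by linarith
  have hcg0 : 0 < cg := by linarith
  have hlcg : 0 ≤ Real.log cg := Real.log_nonneg hcg
  have t0 : 0 ≤ t := by linarith
  obtain ⟨k, hk⟩ : ∃ k, k = Real.log (2 * z) := ⟨_, rfl⟩
  have hek : Real.exp k = 2 * z := by rw [hk, Real.exp_log hz0]
  have hk0 : 0 ≤ k := by rw [hk]; exact Real.log_nonneg (by linarith)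
  rw [← hk] at hzκ hW3 ⊢
  have hFS : FS α := RGw813.FS_of_S hZ0.le hα
  have hFSb : FS (fun n => bt φ α b n * pw t₀ (nm n)) :=
    Win813.FS_pw (RGw813.FS_bt hFS φ b) t₀
  have hadm0 := RGw813.adm_bt hφs hα b t₀
  have hwin : ∀ n, bt φ α b n * pw t₀ (nm n) ≠ 0 →
      |Real.log (nm n) - Real.log (Real.exp m)| ≤ (2 * R + 3) / 2 := by
    intro n hn
    have h1 := hadm0.win n hn
    rw [Real.log_exp]
    have h2 := abs_add_le (Real.log (nm n) - Real.log X') (Real.log X' - m)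
    have e : Real.log (nm n) - Real.log X' + (Real.log X' - m) = Real.log (nm n) - m := by ring
    rw [e] at h2
    linarith
  have hadm : Adm Z (Real.exp m) (2 * R + 3) (fun n => bt φ α b n * pw t₀ (nm n)) :=
    ⟨hadm0.sup, hwin⟩
  have hjb := H₂ Z (cg * Real.exp 2 * N₁) F η (shJ κ g n m cL) α hZ0.le hF hη hη1
    (lipS_shJ κ g n m cL) hFS hα hJB b hb φ hφ t₀
  have hN1 : (1 : ℝ) ≤ N₁ := by
    have : (2 : ℝ) ≤ N₁ := by exact_mod_cast hN2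
    linarith
  have hN0 : (0 : ℝ) < N₁ := by linarith
  obtain ⟨q1, q2, q3⟩ := qc_num (k := k) hN1 hE1 hEN hk0
  have hLI : ∀ i ∈ LI (1 / 10) (N₁ : ℝ), (0 : ℝ) ≤ (i : ℝ) ∧ (i : ℝ) ≤ 1 + Real.log N₁ := by
    intro i hi
    obtain ⟨h1, h2, h3⟩ := mem_LI hi
    refine ⟨Nat.cast_nonneg _, ?_⟩
    have h4 := Real.log_le_log (Real.exp_pos _) h3
    rwa [Real.log_exp, Real.log_mul (Real.exp_pos _).ne' hN0.ne', Real.log_exp] at h4
  have hηJ : 0 ≤ (η⁻¹) ^ J := by positivity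
  have hT1 : 0 ≤ (1 + |t₀|) ^ J := by positivity
  have hF' : 0 ≤ C₂ * (η⁻¹) ^ J * F * (1 + |t₀|) ^ J := by positivity
  have key := H₁ Z hZ hcZ D N₁ (fun n => bt φ α b n * pw t₀ (nm n)) E0 Z k m
    (C₂ * (η⁻¹) ^ J * F * (1 + |t₀|) ^ J) (Gs κ k m + 3 * t + cL)
    (Gs κ k m + max 0 (κ / 40 - k / 3) + 3 * t + cL - max 0 (1 + Real.log N₁ - k)) MR
    (Real.exp (max 0 (Real.log N₁ - k))) c ((wnd z (2 * z)).filter CbF)
    (fun _ δ => hN κ k m δ) (w ^ b.1 * lam ^ b.2) W0 (shJ κ g n m cL)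
    (by
      have h1 : (lam : Eis) ≠ 0 := lam_ne_zero
      have h2 : (w : Eis) ≠ 0 := w_ne_zero
      exact mul_ne_zero (pow_ne_zero _ h2) (pow_ne_zero _ h1))
    (fun n hn => RoX116.cop_tw b (hFSb.prim n hn)) hFSb
    (fun n hn => ((mem_S hZ0.le).1 (hadm0.sup n hn)).2.2) hadm hZ1
    (by
      calc Z = Z ^ (1 : ℝ) := (Real.rpow_one Z).symm
        _ ≤ Z ^ (2 : ℝ) := Real.rpow_le_rpow_of_exponent_le hZ1 (by norm_num))
    hc hcZ' hD hN2 hNZ hk0 (by rw [hek]; exact hzZ)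
    (fun v hv => by
      obtain ⟨h1, h2⟩ := mem_filter.1 hv
      obtain ⟨h3, h4, h5⟩ := (mem_wnd hz0.le).1 h1
      refine ⟨h3, h2, ?_, ?_⟩
      · rw [hek]; linarith
      · rw [hek]; exact h5)
    hE1 hEZ hmZ
    (fun i hi δ δ0 => by
      obtain ⟨i0, i1⟩ := hLI i hi
      obtain ⟨h1, h2⟩ := thN_le (⟨hκ, t0, t1, p0, p1, by linarith, i0, hzκ⟩ : Dl κ m i k t) δ0
      linarith)
    (fun i hi x y => hN_lip κ k m x y)
    hW1
    (fun i hi jj d hd f hf γ π hγ hπ hπ2 P hP => hW2 i hi jj d hd f hf γ π hγ hπ hπ2 P hP)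
    hF' hMR q1 q2 q3 hjb
    (fun i hi δ δ0 δ1 => by
      obtain ⟨i0, i1⟩ := hLI i hi
      exact lnT_n hκ t0 t1 p0 p1 hS hzκ hg htg i0 i1 δ0)
    (fun i hi δ δ0 δ1 b' l b0 l0 hl => by
      obtain ⟨i0, i1⟩ := hLI i hi
      exact diag_n hκ t0 t1 p0 p1 hS δ0 b0 (by linarith : l ≤ i - 2 * δ + t) (sh_T1 hg b0))
    hW3
  refine key.trans ?_
  obtain ⟨GG, hGG⟩ : ∃ G, G = Gs κ k m + max 0 (κ / 40 - k / 3) + 3 * t + cL := ⟨_, rfl⟩
  rw [← hGG]
  have g1 : Real.exp (max 0 (Real.log N₁ - k)) * Real.exp (GG - max 0 (1 + Real.log N₁ - k)) ≤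
      Real.exp GG := by
    rw [← Real.exp_add]
    refine Real.exp_le_exp.2 ?_
    have : max 0 (Real.log N₁ - k) ≤ max 0 (1 + Real.log N₁ - k) :=
      max_le_max le_rfl (by linarith)
    linarith
  have g2 : Real.exp (Gs κ k m + 3 * t + cL) ≤ Real.exp GG := by
    refine Real.exp_le_exp.2 ?_
    have := le_max_left 0 (κ / 40 - k / 3)
    rw [hGG]; linarith
  have hZe : 0 ≤ Z ^ ε := by positivity
  have hB : 0 ≤ (η⁻¹) ^ J * F * (1 + |t₀|) ^ J := by positivity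
  calc C₁ * Z ^ ε * (C₂ * (η⁻¹) ^ J * F * (1 + |t₀|) ^ J *
        (Real.exp (max 0 (Real.log N₁ - k)) * Real.exp (GG - max 0 (1 + Real.log N₁ - k)) +
          Real.exp (Gs κ k m + 3 * t + cL)) + MR) ≤
      C₁ * Z ^ ε * (C₂ * (η⁻¹) ^ J * F * (1 + |t₀|) ^ J * (Real.exp GG + Real.exp GG) + MR) := by
        gcongr
    _ = C₁ * Z ^ ε * (2 * C₂ * ((η⁻¹) ^ J * F * (1 + |t₀|) ^ J * Real.exp GG) + MR) := by ring
    _ ≤ C₁ * Z ^ ε * ((2 * C₂ + 1) * ((η⁻¹) ^ J * F * (1 + |t₀|) ^ J * Real.exp GG) +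
          (2 * C₂ + 1) * MR) := by
        refine mul_le_mul_of_nonneg_left (add_le_add ?_ ?_) (by positivity)
        · exact mul_le_mul_of_nonneg_right (by linarith) (by positivity)
        · nlinarith
    _ = _ := by ring

end Crest.Agent.R017.NG590
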