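import Crest.Agent.R017.LBo_813
import Crest.Agent.R017.E3Kc_548
import Crest.Agent.R017.I1c_146

/-!
# Row 17, T.5 / T.7, (Ro) at the leaf (helper116): the weight of the model on the levels

* `st_bd` : the smooth transition has bounded derivatives
* `OmS` : the smooth cutoff `Om N₀ N₁` as a function of the logarithm
* `OmS_bd`, `OmS_om`, `OmS_win` : what the pair bound needs
-/

set_option autoImplicit false
set_option linter.unusedVariables false

noncomputable section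

open Finset
open scoped Classical ContDiff Topology

namespace Crest.Agent.R017.RoX116

open Crest.Agent.R012 Crest.Agent.R012.Eis
open Crest.Agent.R012.Weight600 (pw)
open Crest.Agent.R017.LBo813 (Om Om_nonneg Om_le_one Om_den Om_zero)
open Crest.Agent.R017.I1146 (omr)

/-- the smooth transition, complex valued -/
def sT (u : ℝ) : ℂ := ((Real.smoothTransition u : ℝ) : ℂ)

lemma contDiff_sT : ContDiff ℝ ∞ sT :=
  Complex.ofRealCLM.contDiff.comp Real.smoothTransition.contDiff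

/-- bounded derivatives -/
lemma st_bd (n : ℕ) : ∃ M : ℝ, ∀ x, ‖iteratedDeriv n sT x‖ ≤ M := by
  have hc : Continuous (iteratedDeriv n sT) :=
    contDiff_sT.continuous_iteratedDeriv n (by exact_mod_cast le_top)
  obtain ⟨M, hM⟩ := (isCompact_Icc (a := (-1 : ℝ)) (b := 2)).exists_bound_of_continuousOn
    hc.continuousOn
  have hconst : ∀ (c : ℂ) (x : ℝ), ‖c‖ ≤ 1 → ‖iteratedDeriv n (fun _ : ℝ => c) x‖ ≤ 1 := by
    intro c x hc
    rw [iteratedDeriv_const]
    split_ifs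
    · exact hc
    · simp
  refine ⟨max M 1, fun x => ?_⟩
  by_cases h1 : x < -1
  · have he : sT =ᶠ[𝓝 x] fun _ => (0 : ℂ) := by
      filter_upwards [Iio_mem_nhds (show x < 0 by linarith)] with u hu
      unfold sT
      rw [Real.smoothTransition.zero_of_nonpos (le_of_lt hu), Complex.ofReal_zero]
    rw [(he.iteratedDeriv n).eq_of_nhds]
    exact (hconst 0 x (by simp)).trans (le_max_right _ _)
  · by_cases h2 : 2 < x
    · have he : sT =ᶠ[𝓝 x] fun _ => (1 : ℂ) := by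
        filter_upwards [Ioi_mem_nhds (show 1 < x by linarith)] with u hu
        unfold sT
        rw [Real.smoothTransition.one_of_one_le (le_of_lt hu), Complex.ofReal_one]
      rw [(he.iteratedDeriv n).eq_of_nhds]
      exact (hconst 1 x (by simp)).trans (le_max_right _ _)
    · exact (hM x ⟨not_lt.1 h1, not_lt.1 h2⟩).trans (le_max_left _ _)

/-- the smooth cutoff as a function of the logarithm -/
def OmS (N₀ N₁ : ℕ) (u : ℝ) : ℂ :=
  sT ((Real.log ((N₁ : ℝ) + 1) - u) / (Real.log ((N₁ : ℝ) + 1) - Real.log N₀))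

lemma contDiff_OmS (N₀ N₁ : ℕ) : ContDiff ℝ ∞ (OmS N₀ N₁) :=
  contDiff_sT.comp ((contDiff_const.sub contDiff_id).div_const _)

/-- **the derivatives of the cutoff** -/
theorem OmS_bd (n : ℕ) : ∃ M : ℝ, 0 ≤ M ∧ ∀ N₀ N₁ : ℕ, 1 ≤ N₀ → 2 * N₀ ≤ N₁ → ∀ k ≤ n, ∀ x,
    ‖iteratedDeriv k (OmS N₀ N₁) x‖ ≤ M := by
  choose M hM using st_bd
  have hM0 : ∀ k, 0 ≤ M k := fun k => (norm_nonneg _).trans (hM k 0)
  refine ⟨∑ k ∈ range (n + 1), (1 / Real.log 2) ^ k * M k, ?_, ?_⟩
  · refine sum_nonneg fun k _ => mul_nonneg ?_ (hM0 k)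
    have := Real.log_pos (show (1 : ℝ) < 2 by norm_num)
    positivity
  intro N₀ N₁ h0 h k hk x
  have hl2 : 0 < Real.log 2 := Real.log_pos (by norm_num)
  obtain ⟨D, hD⟩ : ∃ D, D = Real.log ((N₁ : ℝ) + 1) - Real.log N₀ := ⟨_, rfl⟩
  have hD2 : Real.log 2 ≤ D := by
    have h1 : (1 : ℝ) ≤ N₀ := by exact_mod_cast h0
    have h2 : (2 : ℝ) * N₀ ≤ N₁ := by exact_mod_cast h
    rw [hD, le_sub_iff_add_le, ← Real.log_mul (by norm_num) (by linarith)]
    exact Real.log_le_log (by linarith) (by linarith)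
  have hD0 : 0 < D := by linarith
  have e1 : OmS N₀ N₁ = fun u => (fun v => sT (v + Real.log ((N₁ : ℝ) + 1) / D)) (-(1 / D) * u) := by
    funext u
    unfold OmS
    rw [← hD]
    congr 1
    ring
  have hcd : ContDiff ℝ k (fun v => sT (v + Real.log ((N₁ : ℝ) + 1) / D)) :=
    (contDiff_sT.of_le (by exact_mod_cast le_top)).comp (contDiff_id.add contDiff_const)
  rw [e1, iteratedDeriv_comp_const_smul hcd, iteratedDeriv_comp_add_const, norm_smul]
  have e2 : ‖(-(1 / D)) ^ k‖ ≤ (1 / Real.log 2) ^ k := by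
    rw [norm_pow, norm_neg, Real.norm_of_nonneg (by positivity)]
    exact pow_le_pow_left₀ (by positivity) (one_div_le_one_div_of_le hl2 hD2) k
  calc ‖(-(1 / D)) ^ k‖ * ‖iteratedDeriv k sT (-(1 / D) * x + Real.log ((N₁ : ℝ) + 1) / D)‖
      ≤ (1 / Real.log 2) ^ k * M k :=
        mul_le_mul e2 (hM k _) (norm_nonneg _) (by positivity)
    _ ≤ _ := single_le_sum (f := fun k => (1 / Real.log 2) ^ k * M k)
        (fun i _ => mul_nonneg (by positivity) (hM0 i)) (mem_range.2 (by omega))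

lemma OmS_log (N₀ N₁ n : ℕ) : OmS N₀ N₁ (Real.log n) = ((Om N₀ N₁ n : ℝ) : ℂ) := rfl

/-- the weight of the model -/
lemma OmS_om (N₀ N₁ : ℕ) (x : Eis × Eis) : omr (Om N₀ N₁) x =
    1 * (OmS N₀ N₁ (Real.log (nm (x.2 * x.1 ^ 2))) * pw 0 (nm x.2)) := by
  rw [OmS_log]
  unfold I1146.omr Weight600.pw
  rw [Weight600.osc_zero_left, mul_one, one_mul]

/-- the window -/
lemma OmS_win {N₀ N₁ : ℕ} (h0 : 1 ≤ N₀) (h : N₀ ≤ N₁) (n : ℕ) (hn : 0 < n)
    (hne : OmS N₀ N₁ (Real.log n) ≠ 0) : (1 / 10 : ℝ) < n ∧ (n : ℝ) ≤ N₁ := by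
  have h1 : (1 : ℝ) ≤ n := by exact_mod_cast hn
  refine ⟨by linarith, ?_⟩
  by_contra hlt
  apply hne
  rw [OmS_log, Om_zero h0 h (by exact_mod_cast not_le.1 hlt), Complex.ofReal_zero]

end Crest.Agent.R017.RoX116
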