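import Crest.Agent.R017.RGe_64
import Crest.Agent.R017.RGwP_813
import Crest.Agent.R017.AL_813
import Crest.Agent.R017.RGm_381

/-!
# Row 17, C.REMg (RG), glue (helper64), part f: the truncated lists (NT step)
-/

set_option autoImplicit false

noncomputable section

open Complex
open scoped ComplexConjugate

namespace Crest.Agent.R017.RG64

open Crest.Agent.R012 Crest.Agent.R012.Eis Crest.Agent.R012.LS2 Crest.Agent.R012.Gauss880
open Crest.Agent.R012.MC (Wgt)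
open Crest.Agent.R012.Weight600 (osc pw)
open Crest.Agent.R017.CM106 Crest.Agent.R017.HP842 Crest.Agent.R017.FE47
open Crest.Agent.R017.End699 hiding pw
open Crest.Agent.R017.B770
open Crest.Agent.R017.Prov71
open Crest.Agent.R017.Rough381 (VF VF_nonneg)
open Crest.Agent.R017.Leg381
open Crest.Agent.R017.C70 (JW)
open Crest.Agent.R017.E1551 (sg tws JB yv BU mem_BU CF BF mem_BF lm Wn cP Dg SqP XJw)
open Crest.Agent.R017.Win813
open Crest.Agent.R017.RGw813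

/-- the lower bound (LB) for the sequence `α`, as consumed by `rg_absorb4` -/
def LBn (w : ℝ → ℝ) (Cw η : ℝ) (Aw : ℕ) (K X Y D : ℝ) (N₁ : ℕ) (ρ : ℕ → ℝ) (R : ℝ) (J : ℕ)
    (α : Eis → ℂ) (E : ℝ) : Prop :=
  ∀ p ∈ T9, ∀ (t X' : ℝ) (φ : ℝ → ℝ), 0 < X' → |Real.log X' - Real.log X| ≤ R + 1 →
    WK Cw η Aw φ → (∀ u, φ u ≠ 0 → |u - Real.log X'| ≤ η / 2) →
    Dg w K Y (fun n => bt φ α p n * pw t (nm n)) + 2 * cP w * K ^ (2 / 3 : ℝ) *
      (XJw ρ (JW D (1 / 10) N₁) (fun n => bt φ α p n * pw t (nm n))).re -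
    SqP w K (fun n => bt φ α p n * pw t (nm n)) ≤ (K / X) * (E * (1 + |t|) ^ J)

/-- literal text of `rg_absorb4` -/
def Abs4 (w : ℝ → ℝ) : Prop :=
    ∀ (J Aw : ℕ) (R a e₃ ε : ℝ), J + 2 ≤ Aw → 0 ≤ R → 0 ≤ a → 0 < e₃ → 0 < ε →
    ∃ Cw C η₀ : ℝ, 0 ≤ Cw ∧ 0 ≤ C ∧ 0 < η₀ ∧ η₀ ≤ 1 ∧
    ∀ (K X Y η D G₀ : ℝ) (N₀ N₁ : ℕ) (ρ : ℕ → ℝ), Y ^ (-a) ≤ K → 0 < X → X ≤ Y ^ a → 1 ≤ Y →
      0 < η → η ≤ η₀ → 1 ≤ D → G₀ ≤ D → 1 ≤ N₀ → N₀ ≤ N₁ → (N₁ : ℝ) ≤ Y ^ a →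
      Antitone ρ →
      (∀ n ≤ N₀, ρ n = 1) → (∀ n, N₁ < n → ρ n = 0) → X ^ 2 * Y ^ e₃ ≤ K * N₀ →
      ∀ α : Eis → ℂ, (∀ n, α n ≠ 0 → n ∈ S Y) →
      (∀ n, α n ≠ 0 → |Real.log (nm n) - Real.log X| ≤ R) → ∑ n ∈ S Y, ‖α n‖ ≤ Y ^ a →
      ∀ E Ms Ml : ℝ, 0 ≤ E → 0 ≤ Ms → 0 ≤ Ml → LBn w Cw η Aw K X Y D N₁ ρ R J α E →
      (∀ g ∈ S Y, g ≠ 1 → (nm g : ℝ) ≤ G₀ → ∀ V : ℝ, 1 ≤ V → V ≤ 9 * N₁ * nm g → ∀ t : ℝ,
        VF V (tws (sg α g) t) ≤ Ms / (nm g : ℝ) ^ 2 *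
          max 1 ((V * K / (X / nm g) ^ 2) ^ (1 / 3 : ℝ)) * (1 + |t|) ^ J) →
      (∀ h ∈ S Y, ∀ B V : ℝ, 1 ≤ B → B ≤ Y → 1 ≤ V → V ≤ 9 * N₁ / (nm h : ℝ) ^ 2 → ∀ t : ℝ,
        E1551.JB Y α (fun U => G₀ < nm (h * U)) h B V t ≤
          Ml / (nm h : ℝ) ^ 2 * yv K X h V * (1 + |t|) ^ J) →
      ∑ κ ∈ Wn (1 / 10) N₁, ρ (nm κ) * (min 1 (lm K X 1 κ) * ‖TG α κ‖ ^ 2) ≤
        C * (η⁻¹) ^ (2 * J + 2) * Y ^ ε * (E + Ms + Ml + 1)

lemma exists_abs4 : ∃ w : ℝ → ℝ, Wgt w ∧ (∀ x, 0 ≤ w x) ∧ Abs4 w := rg_absorb4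

/-- support, window and `L¹` norm of the sequences -/
def ALp (h : ℝ → ℝ) (N : ℕ) (R C : ℝ) : Prop :=
  ∀ (z D0 : ℝ) (P : DPar), P.OK → ∀ (q : Eis) (ps : List Pf), ps.length ≤ N → ∀ Y : ℝ, C ≤ Y →
      Real.exp R * Real.exp (LF ps) ≤ Y →
      (∀ n, sqc q (alF z D0 P h ps) n ≠ 0 → n ∈ S Y) ∧
      (∀ n, sqc q (alF z D0 P h ps) n ≠ 0 →
        |Real.log (nm n) - Real.log (Real.exp (LF ps))| ≤ R) ∧
      (∀ a : ℝ, 3 ≤ a → ∑ n ∈ S Y, ‖sqc q (alF z D0 P h ps) n‖ ≤ Y ^ a) ∧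
      FS (sqc q (alF z D0 P h ps))

lemma exists_ALp {h : ℝ → ℝ} {c : ℝ} (hpu : PU h c) (N : ℕ) :
    ∃ R C : ℝ, 0 ≤ R ∧ 1 ≤ C ∧ ALp h N R C := AL813.al_hyps hpu N

/-- cutoffs of the classes -/
structure Cut (N0 N1 : ℝ → ℕ) (ρ : ℝ → ℕ → ℝ) (c₁ : ℝ) : Prop where
  lo : ∀ L, 0 ≤ L → Real.exp L ≤ N0 L
  hi : ∀ L, 0 ≤ L → 9 * (N1 L : ℝ) ≤ Real.exp (L + c₁)
  le : ∀ L, 0 ≤ L → N0 L ≤ N1 L
  anti : ∀ L, 0 ≤ L → Antitone (ρ L)
  one : ∀ L, 0 ≤ L → ∀ n ≤ N0 L, ρ L n = 1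
  zero : ∀ L, 0 ≤ L → ∀ n, N1 L < n → ρ L n = 0

/-- the moment from the weighted moment -/
lemma VF_le_of_Wn {K X V A : ℝ} (hK : 0 < K) (hX : 0 < X) (hV : 1 ≤ V) {N₀ N₁ : ℕ} {ρ : ℕ → ℝ}
    (hρ0 : ∀ n, 0 ≤ ρ n) (hρ1 : ∀ n ≤ N₀, ρ n = 1) (hVN : V ≤ N₀) (hN : N₀ ≤ N₁)
    {α : Eis → ℂ} (h : ∑ κ ∈ Wn (1 / 10) N₁, ρ (nm κ) * (min 1 (lm K X 1 κ) * ‖TG α κ‖ ^ 2) ≤ A) :
    VF V α ≤ max 1 ((V * K / X ^ 2) ^ (1 / 3 : ℝ)) * A := by
  classical
  have hV0 : 0 < V := by linarith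
  set M := max 1 ((V * K / X ^ 2) ^ (1 / 3 : ℝ)) with hM
  have hM1 : 1 ≤ M := le_max_left _ _
  have hM0 : 0 < M := by linarith
  have hpt : ∀ κ ∈ (bl V).filter CubeFree, ‖TG α κ‖ ^ 2 ≤
      M * (ρ (nm κ) * (min 1 (lm K X 1 κ) * ‖TG α κ‖ ^ 2)) := by
    intro κ hκ
    obtain ⟨h1, h2⟩ := Finset.mem_filter.1 hκ
    rw [mem_bl hV0.le] at h1
    have hκ0 : (0 : ℝ) < nm κ := by exact_mod_cast nm_pos.2 h1.1
    have hκV : (nm κ : ℝ) ≤ V := h1.2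
    have hρκ : ρ (nm κ) = 1 := hρ1 _ (by
      have : (nm κ : ℝ) ≤ N₀ := hκV.trans hVN
      exact_mod_cast this)
    have hlm : 1 ≤ M * min 1 (lm K X 1 κ) := by
      rcases le_total 1 (lm K X 1 κ) with h3 | h3
      · rw [min_eq_left h3, mul_one]; exact hM1
      · rw [min_eq_right h3]
        have e1 : lm K X 1 κ = 3 * ((K * nm κ / X ^ 2) ^ (-(1 / 3) : ℝ)) := by
          have e6 : X ^ (((2 : ℕ) : ℝ) * (-(1 / 3) : ℝ)) = (X ^ (2 / 3 : ℝ))⁻¹ := by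
            rw [← Real.rpow_neg hX.le]; congr 1; push_cast; ring
          unfold lm
          rw [nm_one, Nat.cast_one, div_one, Real.div_rpow (by positivity) (by positivity),
            ← Real.rpow_natCast, ← Real.rpow_mul hX.le, e6, div_inv_eq_mul]
          ring
        have e2 : (V * K / X ^ 2) ^ (-(1 / 3) : ℝ) ≤ (K * nm κ / X ^ 2) ^ (-(1 / 3) : ℝ) := by
          refine Real.rpow_le_rpow_of_nonpos (by positivity) ?_ (by norm_num)
          have : K * nm κ ≤ V * K := by rw [mul_comm V]; gcongr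
          gcongr
        have e3 : 0 < V * K / X ^ 2 := by positivity
        have e4 : (V * K / X ^ 2) ^ (1 / 3 : ℝ) * (V * K / X ^ 2) ^ (-(1 / 3) : ℝ) = 1 := by
          rw [← Real.rpow_add e3]; norm_num
        have e5 : 0 < (V * K / X ^ 2) ^ (-(1 / 3) : ℝ) := by positivity
        calc (1 : ℝ) = (V * K / X ^ 2) ^ (1 / 3 : ℝ) * (V * K / X ^ 2) ^ (-(1 / 3) : ℝ) := e4.symm
          _ ≤ M * lm K X 1 κ := by
              refine mul_le_mul (le_max_right _ _) ?_ e5.le hM0.le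
              rw [e1]
              linarith
    rw [hρκ, one_mul, ← mul_assoc]
    exact le_mul_of_one_le_left (by positivity) hlm
  have hsub : (bl V).filter CubeFree ⊆ Wn (1 / 10) N₁ := by
    intro κ hκ
    obtain ⟨h1, h2⟩ := Finset.mem_filter.1 hκ
    rw [mem_bl hV0.le] at h1
    have hκ1 : (1 : ℝ) ≤ nm κ := by exact_mod_cast nm_pos.2 h1.1
    have hN' : (N₀ : ℝ) ≤ N₁ := by exact_mod_cast hN
    unfold Wn
    rw [Finset.mem_filter, mem_BF]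
    exact ⟨⟨h2, by linarith [h1.2]⟩, by linarith⟩
  have key : VF V α ≤ ∑ κ ∈ Wn (1 / 10) N₁, M * (ρ (nm κ) * (min 1 (lm K X 1 κ) *
      ‖TG α κ‖ ^ 2)) := by
    unfold VF
    refine (Finset.sum_le_sum hpt).trans ?_
    refine Finset.sum_le_sum_of_subset_of_nonneg hsub fun κ _ _ => ?_
    exact mul_nonneg hM0.le (mul_nonneg (hρ0 _) (mul_nonneg
      (le_min zero_le_one (E1551.lm_nonneg hK.le hX.le _ _)) (by positivity)))
  rw [← Finset.mul_sum] at key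
  exact key.trans (mul_le_mul_of_nonneg_left h hM0.le)

/-- exponents and powers -/
lemma exp_max_eq {V m g κ : ℝ} (hV : 0 < V) (hg : 0 < g) :
    Real.exp (2 * m - 2 * Real.log g + max 0 ((Real.log V - 2 * m + 2 * Real.log g + κ) / 3)) =
      Real.exp (2 * m) / g ^ 2 *
        max 1 ((V * Real.exp κ / (Real.exp m / g) ^ 2) ^ (1 / 3 : ℝ)) := by
  have e1 : Real.exp ((Real.log V - 2 * m + 2 * Real.log g + κ) / 3) =
      (V * Real.exp κ / (Real.exp m / g) ^ 2) ^ (1 / 3 : ℝ) := by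
    rw [Real.rpow_def_of_pos (by positivity)]
    congr 1
    rw [Real.log_div (by positivity) (by positivity), Real.log_mul hV.ne' (Real.exp_pos _).ne',
      Real.log_exp, Real.log_pow, Real.log_div (Real.exp_pos _).ne' hg.ne', Real.log_exp]
    push_cast
    ring
  have e2 : ∀ y : ℝ, Real.exp (max 0 y) = max 1 (Real.exp y) := fun y => by
    rcases le_total 0 y with h | h
    · rw [max_eq_right h, max_eq_right (Real.one_le_exp h)]
    · rw [max_eq_left h, Real.exp_zero, max_eq_left (Real.exp_le_one_iff.2 h)]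
  have e3 : Real.exp (2 * m - 2 * Real.log g) = Real.exp (2 * m) / g ^ 2 := by
    rw [Real.exp_sub]
    congr 1
    rw [mul_comm, Real.exp_mul, Real.exp_log hg]
    norm_num
  rw [Real.exp_add, e3, e2, e1]

set_option maxHeartbeats 1600000 in
/-- **the truncated lists.** -/
theorem nt_step {h : ℝ → ℝ} {c : ℝ} (hpu : PU h c) (N : ℕ) {w : ℝ → ℝ} (hab : Abs4 w)
    {J e₃ ε R Ca c₁ : ℝ} {Jn Aw : ℕ} (hJ : 0 ≤ J) (he₃ : 0 < e₃) (hε : 0 < ε) (hR : 0 ≤ R)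
    (hJn : (N : ℝ) * J ≤ Jn) (hAw : Jn + 2 ≤ Aw) (hAL : ALp h N R Ca)
    (hc₁ : 0 ≤ c₁) :
    ∃ Cw C η₀ r X₁ : ℝ, 0 ≤ Cw ∧ 1 ≤ C ∧ 0 < η₀ ∧ η₀ ≤ 1 / 2 ∧ 0 ≤ r ∧ ∀ X : ℝ, 3 ≤ X → X₁ ≤ X →
    ∀ D : Dat, D.P.OK → D.h = h → 1 ≤ D.D0 → D.z = D.D0 → D.J = J → D.ps₀.length ≤ N →
    0 ≤ D.κ → ∀ (N0 N1 : ℝ → ℕ) (ρ : ℝ → ℕ → ℝ), Cut N0 N1 ρ c₁ →
    ∀ (B Bl El s a α Q q₀ e cc x₁ lo lo' σ₀ σ' g₀ Dd : ℝ), 0 ≤ B → 0 ≤ Bl → 0 ≤ El →
    0 ≤ a → Real.exp r ≤ q₀ → e₃ * Real.log X + c₁ + r ≤ α →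
    e + (N + 1) * r ≤ Real.log D.D0 → lo' ≤ 0 → 0 ≤ x₁ → 0 ≤ g₀ → Real.exp g₀ ≤ Dd →
    D.n - cc ≤ σ₀ → lo + g₀ + N * Real.log D.D0 + r ≤ σ₀ →
    (∀ ps : List Pf, SbL s ps D.ps₀ → LF ps ≤ σ' → σ₀ ≤ LF ps →
      LF ps + R ≤ Real.log X ∧ D.v + (D.n - LF ps) + (a + α) + g₀ ≤ Real.log X ∧
      0 ≤ D.v + (D.n - LF ps) + a ∧ 2 * LF ps - D.κ ≤ D.v + (D.n - LF ps) + a ∧
      LF ps - g₀ + r ≤ D.n - cc + x₁) →
    Cl D (Ge lo) B (s + r) (a + α) (Q * q₀) (σ' - e - N * r) →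
    ClN D (exJ D.κ D.v D.n cc) Bl (s + r) (a + α) (Q * q₀) lo' (D.n - cc + x₁) →
    (∀ (q : Eis) (ps : List Pf), IsPrim q → (nm q : ℝ) * Real.exp (LF ps) ≤ Q → NT ps →
      SbL s ps D.ps₀ → σ₀ ≤ LF ps → LF ps ≤ σ' →
      LBn w Cw η₀ Aw (Real.exp D.κ) (Real.exp (LF ps)) X Dd
        (N1 (D.v + (D.n - LF ps) + a + e₃ * Real.log X))
        (ρ (D.v + (D.n - LF ps) + a + e₃ * Real.log X)) R Jn
        (sqc q (alF D.z D.D0 D.P D.h ps)) (El * Ht ps ^ J * Real.exp (2 * LF ps))) →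
    Cl D (NTGe σ₀) (C * X ^ (2 * ε) * (El + Bl * Real.exp (N * Real.log D.D0 + a + α) + 1) +
      C * X ^ (2 * ε) * B) s a Q σ' := by
  obtain ⟨Cw, C₀, η₁, hCw, hC₀, hη₁, hη₁1, hab'⟩ := hab Jn Aw R 3 e₃ ε hAw hR
    (by positivity) he₃ hε
  obtain ⟨η₀, hη₀d⟩ : ∃ x : ℝ, x = min η₁ (1 / 2) := ⟨_, rfl⟩
  have hη₀ : 0 < η₀ := by rw [hη₀d]; exact lt_min hη₁ (by norm_num)
  have hη₀1 : η₀ ≤ 1 / 2 := by rw [hη₀d]; exact min_le_right _ _
  have hη₀2 : η₀ ≤ η₁ := by rw [hη₀d]; exact min_le_left _ _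
  obtain ⟨C₁, r₁, hC₁, hr₁, hsub⟩ := sub_num hpu N (B₀ := 1) zero_le_one hε hJ
  obtain ⟨C₂, r₂, hC₂, hr₂, hlar⟩ := large_num hpu N (B₀ := 1) (ε := ε) hJ
    (mergeList_of hpu N zero_le_one hε hJ)
  set r := max r₁ r₂ with hr
  have hr1 : r₁ ≤ r := le_max_left _ _
  have hr2 : r₂ ≤ r := le_max_right _ _
  have hr0 : 0 ≤ r := hr₁.trans hr1
  set H : ℝ := (η₀⁻¹) ^ (2 * Jn + 2) with hH
  have hH0 : 0 ≤ H := by positivity
  refine ⟨Cw, (C₀ * H + 1) * (C₁ * C₂), η₀, r, Ca, hCw, ?_, hη₀, hη₀1, hr0, ?_⟩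
  · have h1 : 1 ≤ C₀ * H + 1 := by have : 0 ≤ C₀ * H := by positivity
                                   linarith
    exact one_le_mul_of_one_le_of_one_le h1 (one_le_mul_of_one_le_of_one_le hC₁ hC₂)
  intro X hX hXa D hP hh hD0 hz hDJ hN hκ N0 N1 ρ hcut B Bl El s a α Q q₀ e cc x₁ lo lo' σ₀ σ' g₀
    Dd hB hBl hEl ha hq₀ hα he hlo' hx₁ hg₀ hDd hcc hlo hsize hCl hClN hLB
  intro q ps k hq hqQ hps₁ hps hL hk hk'
  obtain ⟨hnt, hσ₀⟩ := hps₁
  have hX1 : (1 : ℝ) ≤ X := by linarith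
  have hX0 : 0 < X := by linarith
  have hlX : 0 ≤ Real.log X := Real.log_nonneg hX1
  have hlD : 0 ≤ Real.log D.D0 := Real.log_nonneg hD0
  have hN0 : (0 : ℝ) ≤ N := Nat.cast_nonneg _
  have hlen : ps.length ≤ N := hps.length ▸ hN
  obtain ⟨z1, z2, z3, z4, z5⟩ := hsize ps hps hL hσ₀
  have hz0 := hps.z_nonneg
  have hHt := one_le_Ht ps
  set m := LF ps with hm
  have hm0 : 0 ≤ m := LF_nonneg hz0
  set L : ℝ := D.v + (D.n - m) + a + e₃ * Real.log X with hLd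
  have he3X : 0 ≤ e₃ * Real.log X := by positivity
  have hL0 : 0 ≤ L := by rw [hLd]; linarith
  have hkL : k ≤ L := by rw [hLd]; linarith
  have hLα : L + c₁ + r ≤ D.v + (D.n - m) + (a + α) := by rw [hLd]; linarith
  set al := sqc q (alF D.z D.D0 D.P D.h ps) with hal
  obtain ⟨hsup, hwin, hL1, _⟩ := hAL D.z D.D0 D.P hP q ps hlen X hXa (by
    rw [← Real.exp_add, ← Real.exp_log hX0]; exact Real.exp_le_exp.2 (by linarith))
  rw [← hh] at hsup hwin hL1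
  have hN1 : 9 * (N1 L : ℝ) ≤ Real.exp (L + c₁) := hcut.hi L hL0
  have hN0L : Real.exp L ≤ N0 L := hcut.lo L hL0
  have hexpX : Real.exp (L + c₁) ≤ X := by
    rw [← Real.exp_log hX0]; exact Real.exp_le_exp.2 (by linarith)
  have hemX : Real.exp m ≤ X := by
    rw [← Real.exp_log hX0]; exact Real.exp_le_exp.2 (by linarith)
  have hXa1 : X ≤ X ^ (3 : ℝ) := by
    calc X = X ^ (1 : ℝ) := (Real.rpow_one X).symm
      _ ≤ X ^ (3 : ℝ) := Real.rpow_le_rpow_of_exponent_le hX1 (by norm_num)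
  -- the numbers
  set HJ : ℝ := Ht ps ^ J with hHJ
  have hHJ1 : 1 ≤ HJ := Real.one_le_rpow hHt hJ
  set Em : ℝ := Real.exp (2 * m) with hEm
  have hEm1 : 1 ≤ Em := Real.one_le_exp (by linarith)
  set Ms : ℝ := C₁ * X ^ ε * B * HJ * Em with hMs
  set Ml : ℝ := C₂ * X ^ ε * Bl * HJ * Real.exp (N * Real.log D.D0 + (a + α - r)) * Em with hMl
  have hMs0 : 0 ≤ Ms := by positivity
  have hMl0 : 0 ≤ Ml := by positivity
  have hpow : ∀ t : ℝ, (1 + |t|) ^ ((N : ℝ) * J) ≤ (1 + |t|) ^ Jn := fun t => by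
    rw [← Real.rpow_natCast]
    exact Real.rpow_le_rpow_of_exponent_le (by linarith [abs_nonneg t]) hJn
  have key := hab' (Real.exp D.κ) (Real.exp m) X η₀ Dd (Real.exp g₀) (N0 L) (N1 L) (ρ L)
    (by
      calc X ^ (-(3 : ℝ)) ≤ 1 := Real.rpow_le_one_of_one_le_of_nonpos hX1 (by norm_num)
        _ ≤ Real.exp D.κ := Real.one_le_exp hκ)
    (Real.exp_pos _) (hemX.trans hXa1) hX1 hη₀ hη₀2
    ((Real.one_le_exp hg₀).trans hDd) hDd
    (by
      have h1 : (1 : ℝ) ≤ N0 L := (Real.one_le_exp hL0).trans hN0L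
      exact_mod_cast h1)
    (hcut.le L hL0)
    (by
      have h1 : (N1 L : ℝ) ≤ 9 * N1 L := by
        have : (0 : ℝ) ≤ N1 L := Nat.cast_nonneg _
        linarith
      exact h1.trans (hN1.trans (hexpX.trans hXa1)))
    (hcut.anti L hL0) (hcut.one L hL0) (hcut.zero L hL0)
    (by
      have e1 : Real.exp m ^ 2 * X ^ e₃ = Real.exp (2 * m + e₃ * Real.log X) := by
        rw [Real.exp_add, Real.rpow_def_of_pos hX0, mul_comm (Real.log X), ← Real.exp_nat_mul]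
        norm_num
      rw [e1]
      calc Real.exp (2 * m + e₃ * Real.log X) ≤ Real.exp (D.κ + L) :=
            Real.exp_le_exp.2 (by rw [hLd]; linarith)
        _ = Real.exp D.κ * Real.exp L := Real.exp_add _ _
        _ ≤ Real.exp D.κ * N0 L := mul_le_mul_of_nonneg_left hN0L (Real.exp_pos _).le)
    al
    hsup hwin (hL1 3 le_rfl)
    (El * HJ * Em) Ms Ml (by positivity) hMs0 hMl0
    (hLB q ps hq hqQ hnt hps hσ₀ hL)
    (by
      intro g hg hg1 hgG V hV hVN t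
      have hg' := (mem_S hX0.le).1 hg
      have hgp := hg'.2.1
      have hng : (0 : ℝ) < nm g := by exact_mod_cast nm_pos.2 hgp.ne_zero
      have hlg : Real.log (nm g) ≤ g₀ := by
        rw [← Real.log_exp g₀]; exact Real.log_le_log hng hgG
      have hlg0 : 0 ≤ Real.log (nm g) := by
        refine Real.log_nonneg ?_
        exact_mod_cast nm_pos.2 hgp.ne_zero
      have hV0 : 0 < V := by linarith
      have hlV : Real.log V ≤ L + c₁ + Real.log (nm g) := by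
        have h1 : V ≤ Real.exp (L + c₁) * nm g :=
          hVN.trans (mul_le_mul_of_nonneg_right hN1 hng.le)
        have h2 := Real.log_le_log hV0 h1
        rwa [Real.log_mul (Real.exp_pos _).ne' hng.ne', Real.log_exp] at h2
      have h1 := hsub X hX D hP hh hD0 hDJ hN B s (a + α - r₁) Q q₀ (σ' - e - N * r) lo hB
        ((Real.exp_le_exp.2 hr1).trans hq₀)
        (hCl.mono le_rfl (by linarith) (by linarith) le_rfl le_rfl) q g ps t V hq hqQ hgp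
        (by rw [Real.rpow_one]; exact hg'.1) hps (by linarith)
        (fun x _ hx2 => by
          have h3 := hx2 hg1 (by rw [hz]; exact hD0) hnt
          rw [hz, min_self] at h3
          linarith)
        (by linarith) hV (by
          rw [← Real.exp_log hX0, ← Real.exp_log hV0]
          exact Real.exp_le_exp.2 (by linarith)) (by linarith)
      rw [exp_max_eq hV0 hng] at h1
      refine h1.trans ?_
      have h2 : 0 ≤ max 1 ((V * Real.exp D.κ / (Real.exp m / nm g) ^ 2) ^ (1 / 3 : ℝ)) :=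
        le_trans zero_le_one (le_max_left _ _)
      calc C₁ * X ^ ε * B * Ht ps ^ J * (1 + |t|) ^ ((N : ℝ) * J) *
            (Real.exp (2 * m) / (nm g : ℝ) ^ 2 *
              max 1 ((V * Real.exp D.κ / (Real.exp m / nm g) ^ 2) ^ (1 / 3 : ℝ))) ≤
          C₁ * X ^ ε * B * Ht ps ^ J * (1 + |t|) ^ Jn *
            (Real.exp (2 * m) / (nm g : ℝ) ^ 2 *
              max 1 ((V * Real.exp D.κ / (Real.exp m / nm g) ^ 2) ^ (1 / 3 : ℝ))) := by
            have := hpow t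
            gcongr
        _ = _ := by rw [hMs]; ring)
    (by
      intro g hg Bb V hBb hBbX hV hVN t
      have hg' := (mem_S hX0.le).1 hg
      have hgp := hg'.2.1
      have hng : (0 : ℝ) < nm g := by exact_mod_cast nm_pos.2 hgp.ne_zero
      have hng1 : (1 : ℝ) ≤ nm g := by exact_mod_cast nm_pos.2 hgp.ne_zero
      have hV0 : 0 < V := by linarith
      have hVN' : V * (nm g : ℝ) ^ 2 ≤ Real.exp (L + c₁) := by
        have h1 := (le_div_iff₀ (by positivity)).1 hVN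
        exact h1.trans hN1
      have hlV : Real.log V + 2 * Real.log (nm g) ≤ L + c₁ := by
        have h2 := Real.log_le_log (by positivity) hVN'
        rw [Real.log_mul hV0.ne' (by positivity), Real.log_pow, Real.log_exp] at h2
        push_cast at h2
        linarith
      have hVX : V ≤ X := by
        have h1 : V * 1 ≤ V * (nm g : ℝ) ^ 2 :=
          mul_le_mul_of_nonneg_left (one_le_pow₀ hng1) hV0.le
        linarith
      have h1 := hlar X hX D hP hh hD0 hDJ hN Bl s (a + α - r) Q q₀ cc lo' x₁ hBl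
        ((Real.exp_le_exp.2 hr2).trans hq₀) (by linarith) hlo' hx₁
        (fun q' ps' k' b1 b2 b3 b4 b5 b6 b7 b8 =>
          hClN q' ps' k' b1 b2 b3 (b4.mono (by linarith)) b5 b6 b7 (by linarith)) q g ps X
        (Real.exp g₀) Bb V t hq hqQ hgp (by rw [Real.rpow_one]; exact hg'.1) hps (by linarith)
        (by linarith) hX0.le hBb (by rw [Real.rpow_one]; exact hBbX) (Real.exp_pos _)
        (by rw [Real.log_exp]; linarith) hV hVX (by linarith)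
      refine h1.trans ?_
      have h2 : 0 ≤ yv (Real.exp D.κ) (Real.exp m) g V := by unfold yv; positivity
      calc (C₂ * X ^ ε * Bl * Ht ps ^ J * Real.exp (N * Real.log D.D0 + (a + α - r)) *
            Real.exp (2 * m)) / (nm g : ℝ) ^ 2 * yv (Real.exp D.κ) (Real.exp m) g V *
            (1 + |t|) ^ ((N : ℝ) * J) ≤
          (C₂ * X ^ ε * Bl * Ht ps ^ J * Real.exp (N * Real.log D.D0 + (a + α - r)) *
            Real.exp (2 * m)) / (nm g : ℝ) ^ 2 * yv (Real.exp D.κ) (Real.exp m) g V *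
            (1 + |t|) ^ Jn := by
            have := hpow t
            gcongr
        _ = _ := by rw [hMl])
  -- conclusion
  have hρ0 : ∀ n, 0 ≤ ρ L n := fun n => by
    have h4 := hcut.anti L hL0 (show n ≤ max n (N1 L + 1) from le_max_left _ _)
    rwa [hcut.zero L hL0 (max n (N1 L + 1)) (lt_of_lt_of_le (Nat.lt_succ_self _)
      (le_max_right _ _))] at h4
  have hfin := VF_le_of_Wn (V := Real.exp k) (Real.exp_pos D.κ) (Real.exp_pos m)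
    (Real.one_le_exp hk) hρ0 (hcut.one L hL0) ((Real.exp_le_exp.2 hkL).trans hN0L)
    (hcut.le L hL0) key
  have hM : max 1 ((Real.exp k * Real.exp D.κ / Real.exp m ^ 2) ^ (1 / 3 : ℝ)) * Em =
      Real.exp (fl D.κ k m) := by
    have h1 := exp_max_eq (V := Real.exp k) (m := m) (g := 1) (κ := D.κ) (Real.exp_pos _) one_pos
    rw [Real.log_one, Real.log_exp, mul_zero, sub_zero, add_zero, one_pow, div_one, div_one]
      at h1
    rw [mul_comm, hEm, ← h1]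
    rfl
  show VF (Real.exp k) al ≤ _
  refine hfin.trans ?_
  rw [hDJ]
  set Mx := max 1 ((Real.exp k * Real.exp D.κ / Real.exp m ^ 2) ^ (1 / 3 : ℝ)) with hMx
  have hMx0 : 0 ≤ Mx := le_trans zero_le_one (le_max_left _ _)
  have hXε : 1 ≤ X ^ ε := Real.one_le_rpow hX1 hε.le
  set Ex : ℝ := Real.exp (N * Real.log D.D0 + a + α) with hEx
  have hEx' : Real.exp (N * Real.log D.D0 + (a + α - r)) ≤ Ex :=
    Real.exp_le_exp.2 (by linarith)
  have hsum : El * HJ * Em + Ms + Ml + 1 ≤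
      (C₁ * C₂) * X ^ ε * (El + Bl * Ex + 1 + B) * (HJ * Em) := by
    have hHE : 1 ≤ HJ * Em := one_le_mul_of_one_le_of_one_le hHJ1 hEm1
    have hHE0 : 0 ≤ HJ * Em := by linarith
    have c1 : 1 ≤ (C₁ * C₂) * X ^ ε := one_le_mul_of_one_le_of_one_le
      (one_le_mul_of_one_le_of_one_le hC₁ hC₂) hXε
    have d1 : El * HJ * Em ≤ (C₁ * C₂) * X ^ ε * El * (HJ * Em) := by
      calc El * HJ * Em = 1 * (El * (HJ * Em)) := by ring
        _ ≤ ((C₁ * C₂) * X ^ ε) * (El * (HJ * Em)) :=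
            mul_le_mul_of_nonneg_right c1 (by positivity)
        _ = _ := by ring
    have d2 : Ms ≤ (C₁ * C₂) * X ^ ε * B * (HJ * Em) := by
      rw [hMs]
      calc C₁ * X ^ ε * B * HJ * Em = C₁ * 1 * (X ^ ε * B * (HJ * Em)) := by ring
        _ ≤ C₁ * C₂ * (X ^ ε * B * (HJ * Em)) :=
            mul_le_mul_of_nonneg_right (mul_le_mul_of_nonneg_left hC₂ (by linarith))
              (by positivity)
        _ = _ := by ring
    have d3 : Ml ≤ (C₁ * C₂) * X ^ ε * (Bl * Ex) * (HJ * Em) := by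
      rw [hMl]
      calc C₂ * X ^ ε * Bl * HJ * Real.exp (N * Real.log D.D0 + (a + α - r)) * Em ≤
            C₂ * X ^ ε * Bl * HJ * Ex * Em := by gcongr
        _ = 1 * C₂ * (X ^ ε * (Bl * Ex) * (HJ * Em)) := by ring
        _ ≤ C₁ * C₂ * (X ^ ε * (Bl * Ex) * (HJ * Em)) :=
            mul_le_mul_of_nonneg_right (mul_le_mul_of_nonneg_right hC₁ (by linarith))
              (by positivity)
        _ = _ := by ring
    have d4 : 1 ≤ (C₁ * C₂) * X ^ ε * 1 * (HJ * Em) := by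
      rw [mul_one]
      exact one_le_mul_of_one_le_of_one_le c1 hHE
    calc El * HJ * Em + Ms + Ml + 1 ≤ (C₁ * C₂) * X ^ ε * El * (HJ * Em) +
          (C₁ * C₂) * X ^ ε * B * (HJ * Em) + (C₁ * C₂) * X ^ ε * (Bl * Ex) * (HJ * Em) +
          (C₁ * C₂) * X ^ ε * 1 * (HJ * Em) := by linarith
      _ = _ := by ring
  have hXX : X ^ (2 * ε) = X ^ ε * X ^ ε := by
    rw [← Real.rpow_add hX0]; congr 1; ring
  calc Mx * (C₀ * H * X ^ ε * (El * HJ * Em + Ms + Ml + 1)) ≤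
        Mx * ((C₀ * H + 1) * X ^ ε * ((C₁ * C₂) * X ^ ε * (El + Bl * Ex + 1 + B) *
          (HJ * Em))) := by
        refine mul_le_mul_of_nonneg_left ?_ hMx0
        refine mul_le_mul ?_ hsum (by positivity) (by positivity)
        exact mul_le_mul_of_nonneg_right (by linarith) (by positivity)
    _ = ((C₀ * H + 1) * (C₁ * C₂) * X ^ (2 * ε) * (El + Bl * Ex + 1) +
          (C₀ * H + 1) * (C₁ * C₂) * X ^ (2 * ε) * B) * HJ * (Mx * Em) := by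
        rw [hXX]; ring
    _ = _ := by rw [hM]

end Crest.Agent.R017.RG64
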