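import Crest.Agent.R017.NTL_590
import Crest.Agent.R017.JBXn_320
import Crest.Agent.R017.RGf_64

/-!
# Row 17, FlatNE class E (helper590): the member `NumT` of the near leaf

* `numT_bind`   : the class-free end of the binding
* `numT_leafX`  : `NLeafX` of `NumT`
-/

set_option autoImplicit false

noncomputable section

open Complex
open scoped ComplexConjugate

namespace Crest.Agent.R017.NTX590

open Crest.Agent.R012 Crest.Agent.R012.Eis Crest.Agent.R012.Gauss880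
open Crest.Agent.R012.LS2 (S mem_S)
open Crest.Agent.R017.CM106 Crest.Agent.R017.FE47
open Crest.Agent.R017.HP842 hiding fl
open Crest.Agent.R017.End699 hiding pw
open Crest.Agent.R017.B770
open Crest.Agent.R017.Prov71
open Crest.Agent.R017.Leg381
open Crest.Agent.R017.RGB545 (Line Th TK)
open Crest.Agent.R017.RG64
open Crest.Agent.R017.XP699 (LL Chd hcost cst)
open Crest.Agent.R017.Sup271 (NPm)
open Crest.Agent.R017.NE73 (gN)
open Crest.Agent.R017.NE499 (NumT)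
open Crest.Agent.R017.NEg551 (NFacts NTc NNum NLeaf LBq F3 F3_nonneg)
open Crest.Agent.R017.RX298 (NLeafX NNumX NTcX NTcR xs zt norm_zt rpB LF_rp rp_length)
open Crest.Agent.R017.JBX320 (shJ jbx_core)
open Crest.Agent.R017.NTJ590 (numT_sh)

lemma numT_mono {Cw η : ℝ} {Aw : ℕ} {K X Y R : ℝ} {J : ℕ} {D E0 : ℝ} {N₁ : ℕ} {α : Eis → ℂ}
    {T T' : ℝ} (hK : 0 ≤ K) (hX : 0 ≤ X) (hT : T ≤ T') (H : NumT Cw η Aw K X Y R J D E0 N₁ α T) :
    NumT Cw η Aw K X Y R J D E0 N₁ α T' := by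
  intro p hp t X' φ h1 h2 h3 h4
  refine (H p hp t X' φ h1 h2 h3 h4).trans ?_
  have h5 : 0 ≤ K / X := div_nonneg hK hX
  gcongr

/-- support of the difference -/
lemma xs_sup {h : ℝ → ℝ} {N : ℕ} {R C : ℝ} (hAL : ALp h N R C) {P : DPar} (hP : P.OK) {q : Eis}
    {z D0 d₀ : ℝ} {ps : List Pf} (hlen : ps.length ≤ N) {Y : ℝ} (hY : C ≤ Y)
    (hY2 : Real.exp R * Real.exp (LF ps) ≤ Y) :
    ∀ n, xs q z D0 P h d₀ ps n ≠ 0 → n ∈ S Y := by
  intro n hn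
  obtain ⟨h1, _, _, _⟩ := hAL z D0 P hP q ps hlen Y hY hY2
  obtain ⟨h2, _, _, _⟩ := hAL z D0 P hP q (RX298.rp d₀ ps) (by rw [rp_length]; exact hlen) Y hY
    (by rw [LF_rp]; exact hY2)
  by_contra h0
  apply hn
  have e1 : sqc q (alF z D0 P h ps) n = 0 := by
    by_contra h3; exact h0 (h1 n h3)
  have e2 : sqc q (alF z D0 P h (RX298.rp d₀ ps)) n = 0 := by
    by_contra h3; exact h0 (h2 n h3)
  unfold RX298.xs
  rw [e1, e2]
  ring

variable {Lam ι : Type*} {p : ℕ}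

/-- the numerical facts about the leaf (both classes) -/
lemma leaf_num {K v c ε X Lv f : ℝ} {ps₀ : List Pq} {ps : List Pf} {N₁ : ℕ} (hX : 3 ≤ X)
    (hK : 0 < K) (hc : 0 < c) (hε : 0 < ε)
    (hn : NNum K v c ε X ps₀)
    (hF : NFacts K v (gN K c (LL Dq ps₀ / Real.log X)) ε X ps₀ ps Lv N₁)
    (hL4 : 4 ≤ Real.log X)
    (hf : 9 / 22 * max 0 ((4 * (LF ps / Real.log X) - 3 * K) / 9) + c ≤ f) :
    9 * (N₁ : ℝ) ≤ X ^ (8 * (K + 1)) ∧ 1 ≤ X ^ f ∧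
    9 / 22 * F3 (K * Real.log X) (LF ps) + c * Real.log X ≤ Real.log (X ^ f) ∧
    LL Dq ps₀ - LF ps - gN K c (LL Dq ps₀ / Real.log X) * Real.log X + c * Real.log X ≤
      Real.log (X ^ f) ∧
    4 * (LL Dq ps₀ - gN K c (LL Dq ps₀ / Real.log X) * Real.log X) ≤ 3 * (K * Real.log X) ∧
    LF ps ≤ (2 * K + 2) * Real.log X := by
  have hX0 : 0 < X := by linarith
  have hX1 : 1 ≤ X := by linarith
  have hL0 : 0 < Real.log X := by linarith
  have n1 := hn.top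
  have n3 := hn.Kn
  have n4 := hn.vg
  have n6 := hn.ec
  have f1 := hF.nK
  have f2 := hF.lo
  have f3 := hF.hi
  have f5 := hF.lv
  have f6 := hF.N1
  have hgL : gN K c (LL Dq ps₀ / Real.log X) * Real.log X =
      LL Dq ps₀ - 3 / 4 * (K * Real.log X) + c * Real.log X := JBX320.gL_eq hL0 rfl
  obtain ⟨L, hL⟩ : ∃ z : ℝ, z = Real.log X := ⟨_, rfl⟩
  obtain ⟨n, hnn⟩ : ∃ z : ℝ, z = LL Dq ps₀ := ⟨_, rfl⟩
  obtain ⟨m, hm⟩ : ∃ z : ℝ, z = LF ps := ⟨_, rfl⟩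
  rw [← hnn, ← hL] at hgL n4 f2
  rw [← hm] at f2
  rw [← hL, ← hnn] at n1 n3 f1
  rw [← hL, ← hnn, ← hm] at f3 f5
  rw [← hm, ← hL] at hf
  rw [← hL] at hL4 hL0
  rw [← hnn, ← hm, ← hL]
  obtain ⟨g, hg⟩ : ∃ z : ℝ, z = gN K c (n / L) := ⟨_, rfl⟩
  rw [← hg] at hgL n4 f2 ⊢
  have hcL : 0 < c * L := by positivity
  have hKL : 0 < K * L := by positivity
  have hεL0 : 0 < ε * L := by positivity
  have hεL : ε * L ≤ c * L := mul_le_mul_of_nonneg_right n6 hL0.le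
  have a1 := mul_le_mul_of_nonneg_right n4 hL0.le
  have e1 : (K + v + ε) * L = K * L + v * L + ε * L := by ring
  have e2 : (3 * (v + g) + 100 * c) * L = 3 * (v * L) + 3 * (g * L) + 100 * (c * L) := by ring
  have e3 : (2 * K + ε) * L = 2 * (K * L) + ε * L := by ring
  have e4 : (K + ε) * L = K * L + ε * L := by ring
  have e5 : (v + ε) * L = v * L + ε * L := by ring
  have e6 : 8 * (K + 1) * L = 8 * (K * L) + 8 * L := by ring
  have e7 : (2 * K + 2) * L = 2 * (K * L) + 2 * L := by ring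
  have e8 : 3 * K * L = 3 * (K * L) := by ring
  have e9 : 100 * c * L = 100 * (c * L) := by ring
  rw [e1, e9] at n1
  rw [e8] at n3
  rw [e2, e3] at a1
  rw [e4] at f1
  rw [e5] at f5
  have hF0 : 0 ≤ max 0 ((4 * (m / L) - 3 * K) / 9) := le_max_left _ _
  have hf0 : 0 ≤ f := by linarith
  have hlf : Real.log (X ^ f) = f * L := by rw [Real.log_rpow hX0, hL]
  have hF3 : F3 (K * L) m = max 0 ((4 * (m / L) - 3 * K) / 9) * L := by
    unfold F3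
    rw [max_mul_of_nonneg _ _ hL0.le, zero_mul]
    congr 1
    field_simp
  have hfL := mul_le_mul_of_nonneg_right hf hL0.le
  have e10 : (9 / 22 * max 0 ((4 * (m / L) - 3 * K) / 9) + c) * L =
      9 / 22 * F3 (K * L) m + c * L := by rw [hF3]; ring
  rw [e10] at hfL
  have hF30 : 0 ≤ F3 (K * L) m := F3_nonneg _ _
  refine ⟨?_, Real.one_le_rpow hX1 hf0, ?_, ?_, ?_, ?_⟩
  · rw [Real.rpow_def_of_pos hX0, ← hL]
    refine f6.trans (Real.exp_le_exp.2 ?_)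
    nlinarith
  · rw [hlf]; exact hfL
  · rw [hlf]; linarith
  · linarith
  · nlinarith

set_option maxHeartbeats 1600000 in
/-- **`NumT` at the near leaf, class E** -/
theorem numT_leafX {π : Lam → DPar} (hP : ∀ lam, (π lam).OK)
    (hnp : ∀ lam, ¬ NPm (π lam).n (π lam).ψ (π lam).l₂ 1) {h : ℝ → ℝ} {c₁ : ℝ} (hpu : PU h c₁)
    {L : ι → Line Lam p} {φ₀ φ₁ φβ : ℝ → ℝ → ℝ → ℝ} {K v c e₁ d : ℝ} (hK : 0 < K) (hc : 0 < c)
    (hd : 0 ≤ d) (hφ₀ : ∀ a u m, 9 / 22 * max 0 ((4 * m - 3 * K) / 9) + c ≤ φ₀ a u m) :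
    NLeafX π h (fun q α Rn => NumT q.Cw q.η q.Aw q.K q.X q.Y q.R q.J q.D q.E0 q.N₁ α Rn) L
      φ₀ φ₁ φβ K v c e₁ d := by
  intro lam N c₀ hc₀
  refine ⟨c₀ + 2 * K + 2, by linarith, fun ε M hε hM => ?_⟩
  obtain ⟨J₀, δ₀, hJ₀, hδ₀, H⟩ := jbx_core (v := v) (e₁ := e₁) hP hnp hpu hK.le hc hd lam N c₀ hc₀
    ε (ε / 2) M hε (by positivity) hM
  refine ⟨J₀, δ₀, hJ₀, hδ₀, ?_⟩
  intro δ Jn Aw Cw R η Ss hδ0 hδ hJn hAw hCw hR hη hη2 hS
  obtain ⟨C₁, X₁, hC₁, H1⟩ := H δ Jn Ss hδ0 hδ hJn hS 9 (by norm_num)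
  obtain ⟨b, hb⟩ : ∃ b : ℝ, b = 8 * (K + 1) := ⟨_, rfl⟩
  have hb8 : 8 ≤ b := by rw [hb]; linarith
  have hb0 : 0 < b := by linarith
  have hη1 : η ≤ 1 := by linarith
  obtain ⟨C₂, hC₂, HN⟩ := numT_sh (Cw := Cw) (R := R) (ε := ε / (2 * b)) (Aw := Aw) (J := Jn)
    hCw hR (by positivity) hAw
  obtain ⟨Ra, Ca, hRa, hCa, hAL⟩ := exists_ALp hpu N
  have hηJ : 0 ≤ (η⁻¹) ^ Jn := by positivity
  have hC0 : 0 ≤ C₂ * (η⁻¹) ^ Jn * C₁ := by positivity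
  refine ⟨C₁ + C₂ * (η⁻¹) ^ Jn * C₁, C₁, max (max X₁ Ca) (Real.exp (4 + Ra)), by positivity,
    by linarith, ?_⟩
  intro X hX3 hXX ps₀ hlen hz hs2 hnum hnx hlmp q ps Lv N₁ hF hq hqX hps Bd hBd hT hTR hln
  have hX0 : 0 < X := by linarith
  have hX1 : 1 ≤ X := by linarith
  have hLR : 4 + Ra ≤ Real.log X := by
    rw [Real.le_log_iff_exp_le hX0]
    exact (le_max_right _ _).trans hXX
  have hX₁ : X₁ ≤ X := (le_max_left _ _).trans ((le_max_left _ _).trans hXX)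
  have hXCa : Ca ≤ X := (le_max_right _ _).trans ((le_max_left _ _).trans hXX)
  obtain ⟨f, hfd⟩ : ∃ f : ℝ, f = φ₀ (LL Dq ps₀ / Real.log X) (Lv / Real.log X)
    (LF ps / Real.log X) := ⟨_, rfl⟩
  obtain ⟨k1, k2, k3, k4, k5, k6⟩ := leaf_num (f := f) hX3 hK hc hε hnum hF (by linarith)
    (by rw [hfd]; exact hφ₀ _ _ _)
  have hcL : 0 ≤ c * Real.log X := mul_nonneg hc.le (by linarith)
  have hlK : Real.log (X ^ K) = K * Real.log X := Real.log_rpow hX0 _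
  have hY1 : 1 ≤ X ^ (8 * (K + 1)) := Real.one_le_rpow hX1 (by linarith)
  have hXY : X ≤ X ^ (8 * (K + 1)) := by
    calc X = X ^ (1 : ℝ) := (Real.rpow_one X).symm
      _ ≤ _ := Real.rpow_le_rpow_of_exponent_le hX1 (by linarith)
  have hsup := xs_sup hAL (hP lam) (q := q) (z := X ^ δ) (D0 := X ^ δ)
    (d₀ := d * Real.log X) (hps.length ▸ hlen) (hXCa.trans hXY) (Y := X ^ (8 * (K + 1))) (by
      rw [← Real.exp_add, Real.rpow_def_of_pos hX0]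
      refine Real.exp_le_exp.2 ?_
      nlinarith)
  have hb' : C₁ * X ^ (c₀ + 2 * K + 2) ≤
      (C₁ + C₂ * (η⁻¹) ^ Jn * C₁) * X ^ (c₀ + 2 * K + 2) :=
    mul_le_mul_of_nonneg_right (by linarith) (by positivity)
  have hJB := H1 X hX3 hX₁ ps₀ hlen hs2 hnum hnx hlmp q ps Lv N₁ hF hq hqX hps Bd _ _ hBd le_rfl
    hb' hT hTR
  rw [← hlK] at hJB k3 k5
  have hH : 0 ≤ (Ht ps * Ht (natl ps₀)) ^ J₀ :=
    Real.rpow_nonneg (mul_nonneg (by linarith [one_le_Ht ps]) (by linarith [one_le_Ht (natl ps₀)])) _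
  have hBd0 : 0 ≤ Bd := by linarith
  have hFn : 0 ≤ C₁ * X ^ (ε / 2) * (Ht ps * Ht (natl ps₀)) ^ J₀ * Bd := by
    have : 0 ≤ X ^ (ε / 2) := by positivity
    positivity
  have key := HN (X ^ (8 * (K + 1))) (X ^ K) (X ^ (8 * (K + 1)))
    (Real.exp (min (gN K c (LL Dq ps₀ / Real.log X) * Real.log X)
      (LF ps - (LL Dq ps₀ - gN K c (LL Dq ps₀ / Real.log X) * Real.log X)))) (X ^ f) η N₁
    (gN K c (LL Dq ps₀ / Real.log X) * Real.log X) (LL Dq ps₀) (LF ps) (c * Real.log X)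
    (C₁ * X ^ (ε / 2) * (Ht ps * Ht (natl ps₀)) ^ J₀ * Bd) _ hY1 (Real.rpow_pos_of_pos hX0 _)
    hY1 le_rfl k1 k2 hη hη1 hFn hsup hJB hcL k3 k4 k5
  rw [← hfd]
  refine numT_mono (Real.rpow_pos_of_pos hX0 _).le (Real.exp_pos _).le ?_ key
  have hYe : (X ^ (8 * (K + 1))) ^ (ε / (2 * b)) = X ^ (ε / 2) := by
    rw [← hb, ← Real.rpow_mul hX0.le]
    congr 1
    field_simp
  have hXε : X ^ (ε / 2) * X ^ (ε / 2) = X ^ ε := by
    rw [← Real.rpow_add hX0]; congr 1; ring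
  rw [hYe]
  have hE2 := Real.exp_pos (2 * LF ps)
  have hXe0 : 0 ≤ X ^ ε := by positivity
  calc C₂ * (η⁻¹) ^ Jn * X ^ (ε / 2) * (C₁ * X ^ (ε / 2) * (Ht ps * Ht (natl ps₀)) ^ J₀ * Bd *
        Real.exp (2 * LF ps)) =
      C₂ * (η⁻¹) ^ Jn * C₁ * (X ^ (ε / 2) * X ^ (ε / 2)) * (Ht ps * Ht (natl ps₀)) ^ J₀ * Bd *
        Real.exp (2 * LF ps) := by ring
    _ ≤ _ := by
      rw [hXε]
      gcongr
      linarith

end Crest.Agent.R017.NTX590
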