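import Crest.Agent.R017.NGe_590
import Crest.Agent.R017.NTX_590

/-!
# Row 17, FlatNE, NumEq, the Gram number at the near leaf, class E (helper590): the leaf

* `RHL` : the `R`-half at the near leaf (helper848)
* **`gk_leafX`** : `NLeafX` of helper83's `NumGk` from `RHL`
-/

set_option autoImplicit false
set_option linter.unusedVariables false

noncomputable section

open Finset MeasureTheory
open scoped ComplexConjugate Classical

namespace Crest.Agent.R017.NG590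

open Crest.Agent.R012 Crest.Agent.R012.Eis Crest.Agent.R012.Gauss880
open Crest.Agent.R012.LS2 (S mem_S)
open Crest.Agent.R017.CM106 Crest.Agent.R017.FE47
open Crest.Agent.R017.HP842 hiding fl
open Crest.Agent.R017.End699 hiding pw
open Crest.Agent.R012.Weight600 (pw)
open Crest.Agent.R017.B770
open Crest.Agent.R017.Prov71
open Crest.Agent.R017.Leg381
open Crest.Agent.R017.RGB545 (Line Th TK rbx)
open Crest.Agent.R017.RG64
open Crest.Agent.R017.XP699 (LL Chd hcost cst)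
open Crest.Agent.R017.Sup271 (NPm)
open Crest.Agent.R017.NE73 (gN)
open Crest.Agent.R017.NEg551 (NFacts NNum LBq F3 F3_nonneg)
open Crest.Agent.R017.RX298 (NLeafX NNumX NTcX NTcR xs rpB)
open Crest.Agent.R017.RXk848 (LnP Lmp)
open Crest.Agent.R017.JBX320 (shJ jbx_core)
open Crest.Agent.R017.NTX590 (xs_sup)
open Crest.Agent.R017.NEq83 (NumGk Gfz Gxs gfz_eq)
open Crest.Agent.R017.P1N904 (Gs Gs_ge)
open Crest.Agent.R017.P1N73 (hN)
open Crest.Agent.R017.Win813 (WK)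
open Crest.Agent.R017.RGw813 (T9 bt)

variable {Lam ι : Type*} {p : ℕ}

/-- **the `R`-half of the Gram number at the near leaf**, class E -/
def RHL (π : Lam → DPar) (h : ℝ → ℝ) (L : ι → Line Lam p) (φ₀ : ℝ → ℝ → ℝ → ℝ)
    (K v c e₁ d : ℝ) : Prop :=
  ∀ (lam' : Lam) (N : ℕ) (c₀ : ℝ), 1 ≤ c₀ → ∃ B₀ : ℝ, 0 ≤ B₀ ∧ ∀ ε ε' M : ℝ, 0 < ε → 0 < ε' →
    0 ≤ M → ∃ (J₀ δ₀ : ℝ) (a : ℕ), 0 ≤ J₀ ∧ 0 < δ₀ ∧ ∀ (δ : ℝ) (Jn Aw : ℕ) (Cw R η S : ℝ), 0 ≤ δ →
    δ ≤ δ₀ → J₀ ≤ Jn → Jn + 2 ≤ Aw → 0 ≤ Cw → 0 ≤ R → 0 < η → η ≤ 1 / 2 → 0 ≤ S →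
    ∀ cg : ℝ, 1 ≤ cg →
    ∃ C r X₁ : ℝ, 0 ≤ C ∧ 0 ≤ r ∧ ∀ X : ℝ, 3 ≤ X → X₁ ≤ X → ∀ ps₀ : List Pq, ps₀.length ≤ N →
    (∀ q ∈ ps₀, 0 ≤ Dq.len q ∧ Dq.len q ≤ c₀ * Real.log X) → (∀ q ∈ ps₀, Dq.s2 q ≤ X ^ c₀) →
    NNum K v c ε X ps₀ → NNumX K v c e₁ d ε X ps₀ → Lmp ((d + 3 / 2 * c) * Real.log X) ps₀ →
    ∀ (q : Eis) (ps : List Pf) (Lv : ℝ) (N₁ : ℕ),
    NFacts K v (gN K c (LL Dq ps₀ / Real.log X)) ε X ps₀ ps Lv N₁ →
    IsPrim q → (nm q : ℝ) ≤ X ^ c₀ → SbL S ps ps₀ → ∀ Bd : ℝ, 1 ≤ Bd →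
    (∀ t : Bool, LnP L lam' K ε M r (C * X ^ B₀) X (LF ps / Real.log X) (Lv / Real.log X) Bd
      (rbx d t X ps₀)) →
    ∀ b ∈ T9, ∀ (t₀ X' : ℝ) (φ : ℝ → ℝ), 0 < X' → |Real.log X' - LF ps| ≤ R + 1 →
    WK Cw η Aw φ → (∀ u, φ u ≠ 0 → |u - Real.log X'| ≤ η / 2) → ∀ z : ℝ, 1 ≤ z →
    Real.log (2 * z) ≤ K * Real.log X + 2 * c * Real.log X →
    RHW a Jn cg (X ^ (8 * (K + 1))) (w ^ b.1 * lam ^ b.2)
      (Real.exp (min (gN K c (LL Dq ps₀ / Real.log X) * Real.log X)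
          (LF ps - (LL Dq ps₀ - gN K c (LL Dq ps₀ / Real.log X) * Real.log X))))
      (X ^ φ₀ (LL Dq ps₀ / Real.log X) (Lv / Real.log X) (LF ps / Real.log X))
      (Real.log (2 * z)) (LF ps) N₁
      (fun _ δ => hN (K * Real.log X) (Real.log (2 * z)) (LF ps) δ)
      (fun n => bt φ (xs q (X ^ δ) (X ^ δ) (π lam') h (d * Real.log X) ps) b n * pw t₀ (nm n))
      (C * X ^ ε' * (Ht ps * Ht (natl ps₀)) ^ J₀ * Bd * (1 + |t₀|) ^ Jn *
        Real.exp (Gs (K * Real.log X) (Real.log (2 * z)) (LF ps) +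
          max 0 (K * Real.log X / 40 - Real.log (2 * z) / 3) + 20 * c * Real.log X))

/-- the exponents -/
lemma gs_hom {L K κ m : ℝ} (hL : 0 ≤ L) : Gs (K * L) (κ * L) (m * L) = Gs K κ m * L := by
  unfold P1N904.Gs
  rw [max_mul_of_nonneg _ _ hL, max_mul_of_nonneg _ _ hL]
  congr 1
  · congr 1 <;> ring
  · ring

lemma gs_q {κ q q' m x : ℝ} (h : q ≤ q' + x) (hx : 0 ≤ x) : Gs κ q m ≤ Gs κ q' m + x := by
  obtain ⟨h1, h2, h3⟩ := Gs_ge κ q' m
  unfold P1N904.Gs at h1 h2 h3 ⊢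
  refine max_le (max_le (by linarith) (by linarith)) (by linarith)

/-- the right side in exponential form -/
lemma rhs_gk {X K m c z : ℝ} (hX : 1 < X) (hK : 0 < K) (hz : 1 ≤ z) {pq : LBq}
    (hpK : pq.K = X ^ K) (hpX : pq.X = Real.exp m) (Rn : ℝ) :
    (pq.K / pq.X) * (Rn * Real.exp (2 * m)) * Gfz (30 * c / K) pq z =
      Rn * Real.exp (Gs (K * Real.log X) (Real.log z) m +
        max 0 (K * Real.log X / 40 - Real.log z / 3) + 30 * c * Real.log X) := by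
  have hX0 : 0 < X := by linarith
  have hL : 0 < Real.log X := Real.log_pos hX
  have hz0 : 0 < z := by linarith
  have hzX : X ^ (Real.log z / Real.log X) = z := by
    rw [Real.rpow_def_of_pos hX0, mul_div_cancel₀ _ hL.ne', Real.exp_log hz0]
  have hmX : pq.X = X ^ (m / Real.log X) := by
    rw [hpX, Real.rpow_def_of_pos hX0, mul_div_cancel₀ _ hL.ne']
  have h1 := gfz_eq (s := 30 * c / K) (κ := Real.log z / Real.log X) hX.le hpK hmX
  rw [hzX] at h1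
  rw [h1, hpK, hpX, Real.rpow_def_of_pos hX0, Real.rpow_def_of_pos hX0]
  have e1 : 30 * c / K * K = 30 * c := by field_simp
  have e2 : Real.log X * (Gxs K (Real.log z / Real.log X) (m / Real.log X) (30 * c / K * K) - K) =
      Gs (K * Real.log X) (Real.log z) m - m + max 0 (K * Real.log X / 40 - Real.log z / 3) +
        30 * c * Real.log X - K * Real.log X := by
    rw [e1]
    have e3 : Gxs K (Real.log z / Real.log X) (m / Real.log X) (30 * c) =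
        Gs K (Real.log z / Real.log X) (m / Real.log X) - m / Real.log X +
          max 0 (K / 40 - Real.log z / Real.log X / 3) + 30 * c := rfl
    rw [e3]
    have e4 := gs_hom (K := K) (κ := Real.log z / Real.log X) (m := m / Real.log X) hL.le
    rw [div_mul_cancel₀ _ hL.ne', div_mul_cancel₀ _ hL.ne'] at e4
    rw [e4]
    have e5 : max 0 (K * Real.log X / 40 - Real.log z / 3) =
        max 0 (K / 40 - Real.log z / Real.log X / 3) * Real.log X := by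
      rw [max_mul_of_nonneg _ _ hL.le, zero_mul]
      congr 1
      field_simp
    rw [e5]
    field_simp
  rw [e2, div_mul_eq_mul_div, div_mul_eq_mul_div, div_eq_iff (Real.exp_pos _).ne']
  have e6 : Real.exp (Real.log X * K) * (Rn * Real.exp (2 * m)) * Real.exp
      (Gs (K * Real.log X) (Real.log z) m - m + max 0 (K * Real.log X / 40 - Real.log z / 3) +
        30 * c * Real.log X - K * Real.log X) =
      Rn * (Real.exp (Real.log X * K) * Real.exp (2 * m) * Real.exp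
      (Gs (K * Real.log X) (Real.log z) m - m + max 0 (K * Real.log X / 40 - Real.log z / 3) +
        30 * c * Real.log X - K * Real.log X)) := by ring
  rw [e6, mul_assoc Rn, ← Real.exp_add, ← Real.exp_add, ← Real.exp_add]
  congr 2
  ring

/-- the numerical facts -/
lemma leaf_gk {K v c ε X Lv f : ℝ} {ps₀ : List Pq} {ps : List Pf} {N₁ : ℕ} (hX : 3 ≤ X)
    (hc : 0 < c) (hcK : 1000000 * c ≤ K) (hε : 0 < ε)
    (hn : NNum K v c ε X ps₀)
    (hF : NFacts K v (gN K c (LL Dq ps₀ / Real.log X)) ε X ps₀ ps Lv N₁)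
    (hL : 30 ≤ c * Real.log X) (hL4 : 4 ≤ Real.log X) (hf0 : 0 ≤ f) (hf : 10 * f ≤ K) :
    3 / 4 * (K * Real.log X) ≤ LF ps + 2 * c * Real.log X ∧
    LF ps ≤ 4 / 5 * (K * Real.log X) + 2 * c * Real.log X ∧
    5 * (1 + Real.log N₁ + LF ps) ≤ 7 * (K * Real.log X) + 2 * c * Real.log X ∧
    LL Dq ps₀ - LF ps ≤ gN K c (LL Dq ps₀ / Real.log X) * Real.log X ∧
    1 ≤ X ^ f ∧ X ^ f ≤ X ^ (8 * (K + 1)) ∧ (X ^ f) ^ 3 ≤ (N₁ : ℝ) ∧ 2 ≤ N₁ ∧
    (N₁ : ℝ) ≤ X ^ (8 * (K + 1)) ∧ Real.exp (LF ps) ≤ (X ^ (8 * (K + 1))) ^ 5 := by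
  have hX0 : 0 < X := by linarith
  have hX1 : 1 ≤ X := by linarith
  have hL0 : 0 < Real.log X := by linarith
  have n1 := hn.top
  have n2 := hn.nK
  have n3 := hn.Kn
  have n5 := hn.sn
  have n6 := hn.ec
  have f1 := hF.nK
  have f2 := hF.lo
  have f3 := hF.hi
  have f4 := hF.v0
  have f5 := hF.lv
  have f5t := hF.top
  have f6 := hF.N1
  have f7 := hF.Nh
  have f8 := hF.N0
  have hgL : gN K c (LL Dq ps₀ / Real.log X) * Real.log X =
      LL Dq ps₀ - 3 / 4 * (K * Real.log X) + c * Real.log X := JBX320.gL_eq hL0 rfl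
  have hpowX : ∀ x : ℝ, X ^ x = Real.exp (x * Real.log X) := fun x => by
    rw [Real.rpow_def_of_pos hX0, mul_comm]
  obtain ⟨L, hL'⟩ : ∃ z : ℝ, z = Real.log X := ⟨_, rfl⟩
  obtain ⟨n, hnn⟩ : ∃ z : ℝ, z = LL Dq ps₀ := ⟨_, rfl⟩
  obtain ⟨m, hm⟩ : ∃ z : ℝ, z = LF ps := ⟨_, rfl⟩
  rw [← hnn, ← hL'] at hgL f2
  rw [← hm] at f2 f5t
  rw [← hL', ← hnn] at n1 n2 n3 n5 f1
  rw [← hL', ← hnn, ← hm] at f3 f5
  rw [← hL'] at f5t hL hL4 hL0
  rw [← hnn, ← hm, ← hL']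
  obtain ⟨g, hg⟩ : ∃ z : ℝ, z = gN K c (n / L) := ⟨_, rfl⟩
  rw [← hg] at hgL f2 ⊢
  have hcL : 0 < c * L := by positivity
  have hKL : 1000000 * (c * L) ≤ K * L := by
    have := mul_le_mul_of_nonneg_right hcK hL0.le
    linarith
  have hεL0 : 0 < ε * L := by positivity
  have hεL : ε * L ≤ c * L := mul_le_mul_of_nonneg_right n6 hL0.le
  have e1 : (K + v + ε) * L = K * L + v * L + ε * L := by ring
  have e4 : (K + ε) * L = K * L + ε * L := by ring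
  have e4' : (4 * K + ε) * L = 4 * (K * L) + ε * L := by ring
  have e7' : (7 * K + ε) * L = 7 * (K * L) + ε * L := by ring
  have e5 : (v + ε) * L = v * L + ε * L := by ring
  have e8 : 3 * K * L = 3 * (K * L) := by ring
  have e9 : 100 * c * L = 100 * (c * L) := by ring
  have e10 : 2 * c * L = 2 * (c * L) := by ring
  rw [e1, e9] at n1
  rw [e4'] at n2
  rw [e8] at n3
  rw [e9, e7'] at n5
  rw [e4] at f1
  rw [e5] at f5
  rw [e10]
  have hN9 : (0 : ℝ) < N₁ := lt_of_lt_of_le (Real.exp_pos _) f8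
  have hlN : Real.log N₁ ≤ Lv + 4 := by
    have h1 : (N₁ : ℝ) ≤ Real.exp (Lv + 4) := by linarith
    have := Real.log_le_log hN9 h1
    rwa [Real.log_exp] at this
  have hfL : 10 * (f * L) ≤ K * L := by
    have := mul_le_mul_of_nonneg_right hf hL0.le
    linarith
  have hfL0 : 0 ≤ f * L := by positivity
  have hN2 : 2 ≤ N₁ := by
    have h1 : (1 : ℝ) ≤ ((N₁ / 2 : ℕ) : ℝ) := (Real.one_le_exp f4).trans f7
    have h2 : 1 ≤ N₁ / 2 := by exact_mod_cast h1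
    omega
  refine ⟨by linarith, by linarith, by linarith, by linarith, Real.one_le_rpow hX1 hf0, ?_, ?_,
    hN2, ?_, ?_⟩
  · refine Real.rpow_le_rpow_of_exponent_le hX1 ?_
    linarith
  · refine le_trans ?_ f8
    rw [hpowX, ← hL', ← Real.exp_nat_mul]
    refine Real.exp_le_exp.2 ?_
    push_cast
    linarith
  · rw [hpowX, ← hL']
    refine le_trans (by linarith : (N₁ : ℝ) ≤ 9 * N₁) (f6.trans (Real.exp_le_exp.2 ?_))
    nlinarith
  · rw [hpowX, ← hL', ← Real.exp_nat_mul]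
    refine Real.exp_le_exp.2 ?_
    push_cast
    nlinarith

set_option maxHeartbeats 3200000 in
/-- **the Gram number at the near leaf**, class E, from its `R`-half -/
theorem gk_leafX {π : Lam → DPar} (hP : ∀ lam, (π lam).OK)
    (hnp : ∀ lam, ¬ NPm (π lam).n (π lam).ψ (π lam).l₂ 1) {h : ℝ → ℝ} {c₁ : ℝ} (hpu : PU h c₁)
    {L : ι → Line Lam p} {φ₀ φ₁ φβ : ℝ → ℝ → ℝ → ℝ} {K v c e₁ d bb C₀ : ℝ} (hc : 0 < c)
    (hcK : 1000000 * c ≤ K) (hd : 0 ≤ d) (hC₀ : 0 < C₀) (hφ₀ : ∀ a u m, 0 ≤ φ₀ a u m)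
    (hφ₀K : ∀ a u m, m ≤ 4 / 5 * K + 2 * c → 10 * φ₀ a u m ≤ K)
    (hφ₁ : ∀ a u m, 0 ≤ φ₁ a u m)
    (HR : RHL π h L φ₀ K v c e₁ d) :
    NLeafX π h (NumGk bb C₀ (Gfz (30 * c / K))) L φ₀ φ₁ φβ K v c e₁ d := by
  have hK : 0 < K := by linarith
  intro lam' N c₀ hc₀
  obtain ⟨B₁, hB₁, HR1⟩ := HR lam' N c₀ hc₀
  refine ⟨max B₁ (c₀ + 2 * K + 2), le_max_of_le_left hB₁, fun ε M hε hM => ?_⟩
  obtain ⟨J₁, δ₁, a, hJ₁, hδ₁, HR2⟩ := HR1 ε (ε / 2) M hε (by positivity) hM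
  obtain ⟨J₂, δ₂, hJ₂, hδ₂, HJ⟩ := jbx_core (v := v) (e₁ := e₁) hP hnp hpu hK.le hc hd lam' N c₀ hc₀
    ε (ε / 2) M hε (by positivity) hM
  refine ⟨max J₁ J₂, min δ₁ δ₂, le_max_of_le_left hJ₁, lt_min hδ₁ hδ₂, ?_⟩
  intro δ Jn Aw Cw R η Ss hδ0 hδ hJn hAw hCw hR hη hη2 hS
  obtain ⟨b₀, hb₀⟩ : ∃ b : ℝ, b = 8 * (K + 1) := ⟨_, rfl⟩
  have hb8 : 8 ≤ b₀ := by rw [hb₀]; linarith
  have hb0 : 0 < b₀ := by linarith
  have hη1 : η ≤ 1 := by linarith
  obtain ⟨cg, Cg, hcg, hCg, HG⟩ := gk_core hR a hAw hCw (ε := ε / (2 * b₀)) (by positivity)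
  have hcg9 : 1 ≤ 9 * (cg * Real.exp 2) := by
    have := Real.one_le_exp (show (0 : ℝ) ≤ 2 by norm_num)
    nlinarith
  obtain ⟨CR, rR, XR, hCR, hrR, HR3⟩ := HR2 δ Jn Aw Cw R η Ss hδ0 (hδ.trans (min_le_left _ _))
    ((le_max_left _ _).trans hJn) hAw hCw hR hη hη2 hS cg hcg
  obtain ⟨CJ, XJ, hCJ, HJ1⟩ := HJ δ Jn Ss hδ0 (hδ.trans (min_le_right _ _))
    ((le_max_right _ _).trans hJn) hS (9 * (cg * Real.exp 2)) hcg9
  obtain ⟨Ra, Ca, hRa, hCa, hAL⟩ := exists_ALp hpu N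
  have hηJ : 0 ≤ (η⁻¹) ^ Jn := by positivity
  obtain ⟨C, hCd⟩ : ∃ C, C = CR + CJ + Cg * ((η⁻¹) ^ Jn * CJ + CR) := ⟨_, rfl⟩
  have hC1 : CR ≤ C := by rw [hCd]; have : 0 ≤ Cg * ((η⁻¹) ^ Jn * CJ + CR) := by positivity
                          linarith
  have hC2 : CJ ≤ C := by rw [hCd]; have : 0 ≤ Cg * ((η⁻¹) ^ Jn * CJ + CR) := by positivity
                          linarith
  have hC3 : Cg * ((η⁻¹) ^ Jn * CJ + CR) ≤ C := by rw [hCd]; linarith
  have hC0 : 0 ≤ C := by linarith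
  obtain ⟨T₀, hT₀⟩ : ∃ T : ℝ, T = (30 + |Real.log (2 * C₀)| + Real.log cg) / c + 4 + Ra +
    (cg * Real.exp 2) + |bb| := ⟨_, rfl⟩
  have hlcg : 0 ≤ Real.log cg := Real.log_nonneg hcg
  refine ⟨C, max rR CJ, max (max XR XJ) (max Ca (Real.exp T₀)), hC0, le_max_of_le_left hrR, ?_⟩
  intro X hX3 hXX ps₀ hlen hz hs2 hnum hnx hlmp q ps Lv N₁ hF hq hqX hps Bd hBd hT hTR hln
  have hX0 : 0 < X := by linarith
  have hX1 : 1 ≤ X := by linarith
  have hXR : XR ≤ X := (le_max_left _ _).trans ((le_max_left _ _).trans hXX)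
  have hXJ : XJ ≤ X := (le_max_right _ _).trans ((le_max_left _ _).trans hXX)
  have hXCa : Ca ≤ X := (le_max_left _ _).trans ((le_max_right _ _).trans hXX)
  have hXT : T₀ ≤ Real.log X := by
    rw [Real.le_log_iff_exp_le hX0]
    exact (le_max_right _ _).trans ((le_max_right _ _).trans hXX)
  have hab := abs_nonneg (Real.log (2 * C₀))
  have habb := abs_nonneg bb
  have hcge : 0 ≤ cg * Real.exp 2 := by positivity
  have hTc : 0 ≤ (30 + |Real.log (2 * C₀)| + Real.log cg) / c := by positivity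
  have hL4 : 4 + Ra ≤ Real.log X := by linarith
  have hL0 : 0 < Real.log X := by linarith
  have hlX : Real.log X ≤ X := by
    have := Real.log_le_sub_one_of_pos hX0
    linarith
  have hTcL : 30 + |Real.log (2 * C₀)| + Real.log cg ≤ c * Real.log X := by
    have h1 : (30 + |Real.log (2 * C₀)| + Real.log cg) / c ≤ Real.log X := by linarith
    rw [div_le_iff₀ hc] at h1
    linarith
  have hpowX : ∀ x : ℝ, X ^ x = Real.exp (x * Real.log X) := fun x => by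
    rw [Real.rpow_def_of_pos hX0, mul_comm]
  obtain ⟨f, hfd⟩ : ∃ f : ℝ, f = φ₀ (LL Dq ps₀ / Real.log X) (Lv / Real.log X)
    (LF ps / Real.log X) := ⟨_, rfl⟩
  obtain ⟨f₁, hf₁d⟩ : ∃ f : ℝ, f = φ₁ (LL Dq ps₀ / Real.log X) (Lv / Real.log X)
    (LF ps / Real.log X) := ⟨_, rfl⟩
  have hf0 : 0 ≤ f := by rw [hfd]; exact hφ₀ _ _ _
  have hf₁0 : 0 ≤ f₁ := by rw [hf₁d]; exact hφ₁ _ _ _
  have hmK : LF ps / Real.log X ≤ 4 / 5 * K + 2 * c := by
    rw [div_le_iff₀ hL0]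
    have h1 := hF.hi
    have h2 := hnum.nK
    have h3 := mul_le_mul_of_nonneg_right hnum.ec hL0.le
    have e1 : (4 * K + ε) * Real.log X = 4 * (K * Real.log X) + ε * Real.log X := by ring
    have e2 : (4 / 5 * K + 2 * c) * Real.log X = 4 / 5 * (K * Real.log X) + 2 * (c * Real.log X) := by
      ring
    have h4 : 0 ≤ c * Real.log X := by positivity
    linarith
  have hfK : 10 * f ≤ K := by rw [hfd]; exact hφ₀K _ _ _ hmK
  obtain ⟨k1, k2, k3, k4, k5, k6, k7, k8, k9, k10⟩ := leaf_gk (f := f) hX3 hc hcK hε hnum hF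
    (by linarith) (by linarith) hf0 hfK
  have hlK : Real.log (X ^ K) = K * Real.log X := Real.log_rpow hX0 _
  have hXY : X ≤ X ^ (8 * (K + 1)) := by
    calc X = X ^ (1 : ℝ) := (Real.rpow_one X).symm
      _ ≤ _ := Real.rpow_le_rpow_of_exponent_le hX1 (by linarith)
  have hKL0 : 0 ≤ K * Real.log X := by positivity
  have hcKL : 1000000 * (c * Real.log X) ≤ K * Real.log X := by
    have := mul_le_mul_of_nonneg_right hcK hL0.le
    linarith
  have hsup := xs_sup hAL (hP lam') (q := q) (z := X ^ δ) (D0 := X ^ δ)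
    (d₀ := d * Real.log X) (hps.length ▸ hlen) (hXCa.trans hXY) (Y := X ^ (8 * (K + 1))) (by
      rw [← Real.exp_add, hpowX]
      refine Real.exp_le_exp.2 ?_
      have e1 : 8 * (K + 1) * Real.log X = 8 * (K * Real.log X) + 8 * Real.log X := by ring
      have e2 : 2 * c * Real.log X = 2 * (c * Real.log X) := by ring
      rw [e2] at k2
      linarith)
  have hXB : ∀ {B : ℝ}, B ≤ max B₁ (c₀ + 2 * K + 2) → ∀ {C' : ℝ}, 0 ≤ C' → C' ≤ C →
      C' * X ^ B ≤ C * X ^ max B₁ (c₀ + 2 * K + 2) := by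
    intro B hB C' hC'0 hC'
    have h1 : X ^ B ≤ X ^ max B₁ (c₀ + 2 * K + 2) := Real.rpow_le_rpow_of_exponent_le hX1 hB
    have h2 : 0 ≤ X ^ B := by positivity
    exact mul_le_mul hC' h1 h2 hC0
  have hJB := HJ1 X hX3 hXJ ps₀ hlen hs2 hnum hnx hlmp q ps Lv N₁ hF hq hqX hps Bd _ _ hBd
    (le_max_right rR CJ) (hXB (le_max_right _ _) (by linarith) hC2) hT hTR
  have hH1 : 1 ≤ Ht ps * Ht (natl ps₀) := one_le_mul_of_one_le_of_one_le (one_le_Ht _) (one_le_Ht _)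
  have hH0 : 0 < Ht ps * Ht (natl ps₀) := by linarith
  obtain ⟨HH, hHH⟩ : ∃ HH, HH = (Ht ps * Ht (natl ps₀)) ^ max J₁ J₂ := ⟨_, rfl⟩
  have hHH1 : (Ht ps * Ht (natl ps₀)) ^ J₁ ≤ HH := by
    rw [hHH]; exact Real.rpow_le_rpow_of_exponent_le hH1 (le_max_left _ _)
  have hHH2 : (Ht ps * Ht (natl ps₀)) ^ J₂ ≤ HH := by
    rw [hHH]; exact Real.rpow_le_rpow_of_exponent_le hH1 (le_max_right _ _)
  have hHH0 : 0 ≤ HH := by rw [hHH]; positivity
  have hBd0 : 0 ≤ Bd := by linarith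
  rw [← hHH]
  intro b hb t₀ X' φ hX' hXX' hφ hφs z hz1 hz2 e he hze
  simp only at hXX' hφ hφs hz2 hze ⊢
  rw [Real.log_exp] at hXX'
  rw [← hf₁d] at hz2
  have hz0 : 0 < z := by linarith
  have hE1 : 1 ≤ X ^ f₁ := Real.one_le_rpow hX1 hf₁0
  have hXK : 0 < X ^ K := Real.rpow_pos_of_pos hX0 _
  have hz3 : 2 * z ≤ 2 * C₀ * X ^ K := by
    have h1 : C₀ * X ^ K / (X ^ f₁) ^ 3 ≤ C₀ * X ^ K :=
      div_le_self (by positivity) (one_le_pow₀ hE1)
    linarith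
  have hlz : Real.log (2 * z) ≤ K * Real.log X + 2 * c * Real.log X := by
    have h1 := Real.log_le_log (by positivity) hz3
    rw [Real.log_mul (by positivity) hXK.ne', hlK] at h1
    have h2 := le_abs_self (Real.log (2 * C₀))
    have e1 : 2 * c * Real.log X = 2 * (c * Real.log X) := by ring
    linarith
  have hz2Z : 2 * z ≤ X ^ (8 * (K + 1)) := by
    rw [← Real.log_le_log_iff (by positivity) (by positivity), Real.log_rpow hX0]
    have e1 : 2 * c * Real.log X = 2 * (c * Real.log X) := by ring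
    have e2 : 8 * (K + 1) * Real.log X = 8 * (K * Real.log X) + 8 * Real.log X := by ring
    linarith
  have heZ : (nm e : ℝ) ≤ X ^ (8 * (K + 1)) := by
    have h1 : (1 : ℝ) ≤ nm e := by exact_mod_cast nm_pos.2 he.ne_zero
    have h2 : (nm e : ℝ) ≤ (nm e : ℝ) ^ 3 := le_self_pow₀ h1 (by norm_num)
    have h3 : (nm e : ℝ) ^ 3 ≤ z * (nm e : ℝ) ^ 3 := le_mul_of_one_le_left (by positivity) hz1
    have h4 : bb * X ^ K ≤ X * X ^ K := by
      refine mul_le_mul_of_nonneg_right ?_ hXK.le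
      have := le_abs_self bb
      linarith
    have h5 : X * X ^ K ≤ X ^ (8 * (K + 1)) := by
      calc X * X ^ K = X ^ (1 : ℝ) * X ^ K := by rw [Real.rpow_one]
        _ = X ^ (1 + K) := by rw [← Real.rpow_add hX0]
        _ ≤ _ := Real.rpow_le_rpow_of_exponent_le hX1 (by linarith)
    linarith
  have hRH := HR3 X hX3 hXR ps₀ hlen hz hs2 hnum hnx hlmp q ps Lv N₁ hF hq hqX hps Bd hBd
    (fun t j θ l ps' hl0 hl hch h1 h2 h3 => hln t j θ l ps' hl0 hl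
      (RG64.Chd.mono' (le_max_left _ _) (hXB (le_max_left _ _) hCR hC1) hch) h1 h2 h3)
    b hb t₀ X' φ hX' hXX' hφ hφs z hz1 hlz
  rw [← hfd] at hRH ⊢
  obtain ⟨GG, hGG⟩ : ∃ G, G = Gs (K * Real.log X) (Real.log (2 * z)) (LF ps) +
    max 0 (K * Real.log X / 40 - Real.log (2 * z) / 3) := ⟨_, rfl⟩
  rw [← hGG] at hRH
  have hT1 : 0 ≤ (1 + |t₀|) ^ Jn := by positivity
  have hXε2 : 0 ≤ X ^ (ε / 2) := by positivity
  have key := HG (X ^ (8 * (K + 1))) (by linarith) (by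
      have : cg * Real.exp 2 ≤ X := by linarith
      linarith) (K * Real.log X) (gN K c (LL Dq ps₀ / Real.log X) * Real.log X) (LL Dq ps₀)
    (LF ps) (c * Real.log X) (2 * c * Real.log X) _ (X ^ f) η
    (CJ * X ^ (ε / 2) * (Ht ps * Ht (natl ps₀)) ^ J₂ * Bd) _ N₁ _ (by positivity)
    (by
      have e1 : 2 * c * Real.log X = 2 * (c * Real.log X) := by ring
      linarith)
    (by
      have e1 : 2 * c * Real.log X = 2 * (c * Real.log X) := by ring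
      linarith) k1 k2 k3 k4 (Real.exp_pos _).le k5 k6 k7 k8 k9 k10 hη hη1
    (by positivity) (by positivity) hsup
    (by
      intro dd hdd B V h1 h2 h3 h4 tt
      exact hJB dd hdd B V h1 h2 h3 (by
        refine h4.trans (le_of_eq ?_)
        ring) tt) b hb t₀ X' φ hX' hXX' hφ hφs z hz1 hz2Z hlz e he heZ hRH
  refine key.trans ?_
  have hYe : (X ^ (8 * (K + 1))) ^ (ε / (2 * b₀)) = X ^ (ε / 2) := by
    rw [← hb₀, ← Real.rpow_mul hX0.le]
    congr 1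
    field_simp
  have hXε : X ^ (ε / 2) * X ^ (ε / 2) = X ^ ε := by
    rw [← Real.rpow_add hX0]; congr 1; ring
  rw [hYe, ← hGG]
  have hrhs := rhs_gk (c := c) (K := K) (m := LF ps) (by linarith : 1 < X) hK hz1
    (pq := ⟨Cw, η, Aw, X ^ K, Real.exp (LF ps), X ^ (8 * (K + 1)), R, Jn, N₁, X ^ f, X ^ f₁,
      X ^ φβ (LL Dq ps₀ / Real.log X) (Lv / Real.log X) (LF ps / Real.log X),
      X ^ (-φβ (LL Dq ps₀ / Real.log X) (Lv / Real.log X) (LF ps / Real.log X)),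
      Real.exp (min (gN K c (LL Dq ps₀ / Real.log X) * Real.log X)
          (LF ps - (LL Dq ps₀ - gN K c (LL Dq ps₀ / Real.log X) * Real.log X))),
      Real.exp (min (gN K c (LL Dq ps₀ / Real.log X) * Real.log X)
          (LF ps - (LL Dq ps₀ - gN K c (LL Dq ps₀ / Real.log X) * Real.log X)))⟩) rfl rfl
    (C * X ^ ε * HH * Bd * (1 + |t₀|) ^ Jn)
  simp only at hrhs
  have e3 : C * X ^ ε * HH * Bd * Real.exp (2 * LF ps) * (1 + |t₀|) ^ Jn =
      C * X ^ ε * HH * Bd * (1 + |t₀|) ^ Jn * Real.exp (2 * LF ps) := by ring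
  rw [← hf₁d, e3, hrhs]
  -- the exponents
  have hlz2 : Real.log (2 * z) = Real.log 2 + Real.log z := Real.log_mul (by norm_num) hz0.ne'
  have hl2 : 0 ≤ Real.log 2 := Real.log_nonneg (by norm_num)
  have hl2' : Real.log 2 ≤ 1 := by
    have := Real.log_le_sub_one_of_pos (show (0 : ℝ) < 2 by norm_num)
    linarith
  have hg1 : GG ≤ Gs (K * Real.log X) (Real.log z) (LF ps) +
      max 0 (K * Real.log X / 40 - Real.log z / 3) + 1 := by
    rw [hGG]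
    have h1 := gs_q (κ := K * Real.log X) (q := Real.log (2 * z)) (q' := Real.log z) (m := LF ps)
      (x := Real.log 2) (by linarith) hl2
    have h2 : max 0 (K * Real.log X / 40 - Real.log (2 * z) / 3) ≤
        max 0 (K * Real.log X / 40 - Real.log z / 3) := max_le_max le_rfl (by linarith)
    linarith
  obtain ⟨G', hG'⟩ : ∃ G, G = Gs (K * Real.log X) (Real.log z) (LF ps) +
    max 0 (K * Real.log X / 40 - Real.log z / 3) + 30 * c * Real.log X := ⟨_, rfl⟩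
  rw [← hG']
  have g1 : Real.exp (GG + 3 * (2 * c * Real.log X) + c * Real.log X) ≤ Real.exp G' := by
    refine Real.exp_le_exp.2 ?_
    have e1 : 3 * (2 * c * Real.log X) = 6 * (c * Real.log X) := by ring
    have e2 : 30 * c * Real.log X = 30 * (c * Real.log X) := by ring
    rw [hG', e1, e2]
    linarith
  have g2 : Real.exp (GG + 20 * c * Real.log X) ≤ Real.exp G' := by
    refine Real.exp_le_exp.2 ?_
    have e1 : 20 * c * Real.log X = 20 * (c * Real.log X) := by ring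
    have e2 : 30 * c * Real.log X = 30 * (c * Real.log X) := by ring
    rw [hG', e1, e2]
    linarith
  have hE0 := Real.exp_pos G'
  have p1 : (η⁻¹) ^ Jn * (CJ * X ^ (ε / 2) * (Ht ps * Ht (natl ps₀)) ^ J₂ * Bd) * (1 + |t₀|) ^ Jn *
      Real.exp (GG + 3 * (2 * c * Real.log X) + c * Real.log X) ≤
      (η⁻¹) ^ Jn * (CJ * X ^ (ε / 2) * HH * Bd) * (1 + |t₀|) ^ Jn * Real.exp G' := by gcongr
  have p2 : CR * X ^ (ε / 2) * (Ht ps * Ht (natl ps₀)) ^ J₁ * Bd * (1 + |t₀|) ^ Jn *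
      Real.exp (GG + 20 * c * Real.log X) ≤
      CR * X ^ (ε / 2) * HH * Bd * (1 + |t₀|) ^ Jn * Real.exp G' := by gcongr
  calc Cg * X ^ (ε / 2) * ((η⁻¹) ^ Jn * (CJ * X ^ (ε / 2) * (Ht ps * Ht (natl ps₀)) ^ J₂ * Bd) *
        (1 + |t₀|) ^ Jn * Real.exp (GG + 3 * (2 * c * Real.log X) + c * Real.log X) +
        CR * X ^ (ε / 2) * (Ht ps * Ht (natl ps₀)) ^ J₁ * Bd * (1 + |t₀|) ^ Jn *
          Real.exp (GG + 20 * c * Real.log X)) ≤
      Cg * X ^ (ε / 2) * ((η⁻¹) ^ Jn * (CJ * X ^ (ε / 2) * HH * Bd) * (1 + |t₀|) ^ Jn *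
        Real.exp G' + CR * X ^ (ε / 2) * HH * Bd * (1 + |t₀|) ^ Jn * Real.exp G') :=
        mul_le_mul_of_nonneg_left (add_le_add p1 p2) (by positivity)
    _ = Cg * ((η⁻¹) ^ Jn * CJ + CR) * (X ^ (ε / 2) * X ^ (ε / 2)) * HH * Bd * (1 + |t₀|) ^ Jn *
        Real.exp G' := by ring
    _ ≤ C * X ^ ε * HH * Bd * (1 + |t₀|) ^ Jn * Real.exp G' := by
        rw [hXε]
        gcongr

end Crest.Agent.R017.NG590
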