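import Crest.Agent.R017.NGk_708
import Crest.Agent.R017.RnPc_571

/-!
# Row 17, FlatNE, NumEq: the `R`-number of the class Gram sums (helper708)

* `gr_line` : the dual line
* `rn_num` : `FH * RN2F` at one `(i, d, f)` from one real line
-/

set_option autoImplicit false
set_option linter.unusedVariables false

noncomputable section

open Finset MeasureTheory
open scoped ComplexConjugate Classical

namespace Crest.Agent.R017.NGr708

open Crest.Agent.R012 Crest.Agent.R012.Eis Crest.Agent.R012.MC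
open Crest.Agent.R017.E3Z548 (FH FH_nonneg)
open Crest.Agent.R017.E3Hf290 (RN2F RN2F_nonneg)
open Crest.Agent.R017.E3Sz579 (Ld Md)
open Crest.Agent.R017.E3T829 (G2)
open Crest.Agent.R017.RnP571

/-- the dual line of the class Gram sum -/
theorem gr_line {κ q m V i δ e F h G y w B : ℝ} (hκ : 0 < κ) (hy : 0 ≤ y) (hyκ : 10000 * y ≤ κ)
    (q0 : 0 ≤ q) (hm5 : 5 * m ≤ 4 * κ + 6 * y) (hm3 : 3 * κ ≤ 4 * m + 4 * y)
    (hV : 5 * (V + m) ≤ 7 * κ) (hi : i ≤ V + y) (δ0 : 0 ≤ δ)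
    (he : e ≤ 9 / 22 * F + 10 * y) (hF : (F = 0 ∧ 4 * m - 3 * κ ≤ 0) ∨ (9 * F = 4 * m - 3 * κ))
    (hh : h ≤ 2 * q + 13 / 3 * m - 4 / 3 * δ + 2 * y - 3 * G) (G1 : 26 / 15 * κ ≤ G)
    (G2 : q / 3 + 7 / 10 * κ + 17 / 18 * m ≤ G) (G3 : 2 / 3 * q + 13 / 9 * m ≤ G)
    (hw : w ≤ m / 4) (hw2 : w ≤ 3 / 8 * (m + i + h - q + y))
    (hB : B ≤ (h + 2 * i - q - δ) / 3 ∨
      B ≤ (h + 2 * i - q - δ) - (m + i + h - q) / 2 ∨
      B ≤ 7 / 9 * (h + 2 * i - q - δ) - 2 / 3 * (m + i + h - q) ∨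
      B ≤ 11 / 18 * (h + 2 * i - q - δ) - 1 / 3 * (m + i + h - q)) :
    2 / 3 * q - (h + i) / 3 + 5 / 3 * δ + 2 * e + B + 2 / 3 * (m - δ) +
      ((m + i + h - q + y) + w) + κ / 200 ≤ G := by
  rcases hF with ⟨rfl, hF⟩ | hF <;> rcases hB with hB | hB | hB | hB <;> linarith

lemma g2_cases (l I : ℝ) : g2 l I ≤ l / 3 ∨ g2 l I ≤ l - I / 2 ∨
    g2 l I ≤ 7 / 9 * l - 2 / 3 * I ∨ g2 l I ≤ 11 / 18 * l - 1 / 3 * I := by
  unfold g2
  rcases max_choice (max (l / 3) (l - I / 2)) (max (7 / 9 * l - 2 / 3 * I) (11 / 18 * l - 1 / 3 * I))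
    with h | h
  · rw [h]
    rcases max_choice (l / 3) (l - I / 2) with h' | h'
    · exact Or.inl h'.le
    · exact Or.inr (Or.inl h'.le)
  · rw [h]
    rcases max_choice (7 / 9 * l - 2 / 3 * I) (11 / 18 * l - 1 / 3 * I) with h' | h'
    · exact Or.inr (Or.inr (Or.inl h'.le))
    · exact Or.inr (Or.inr (Or.inr h'.le))

/-- **the number of one `(i, d, f)`** -/
theorem rn_num {c : ℝ} (hc : 1 ≤ c) {q i m h k₁ T G : ℝ} (hk₁ : 0 ≤ k₁) {d f : Eis} (hd : d ≠ 0)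
    (hf : f ≠ 0) {Hf : Eis → Eis → ℝ} {W0 : Eis → Eis → ℝ → ℝ} (hH : Hf d f = Real.exp h)
    (hW : W0 d f (c * (Real.exp m * Real.exp i * Real.exp h / Real.exp q)) ≤
      k₁ * Real.exp T * (Real.exp m / nm d) ^ (2 / 3 : ℝ))
    (hE : 0 ≤ h + 2 * i - q - Real.log (nm d) →
      2 / 3 * q - (h + i) / 3 + 5 / 3 * Real.log (nm d) + 2 * Real.log (nm f) +
        g2 (h + 2 * i - q - Real.log (nm d)) (m + i + h - q) + 2 / 3 * (m - Real.log (nm d)) + T ≤
          G) :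
    FH (Real.exp q) (Hf d f) (Real.exp i) *
      RN2F c (Real.exp q) (Real.exp i) (Real.exp m) Hf W0 d f ≤
        ((3 + c) * k₁ * Real.exp G) / (nm d * nm f) := by
  have nd0 : (0 : ℝ) < nm d := by exact_mod_cast nm_pos.2 hd
  have nf0 : (0 : ℝ) < nm f := by exact_mod_cast nm_pos.2 hf
  have hc0 : 0 < c := by linarith
  have hRHS : 0 ≤ ((3 + c) * k₁ * Real.exp G) / (nm d * nm f) := by positivity
  unfold E3Hf290.RN2F
  rw [hH]
  by_cases h1 : 1 ≤ Ld (Real.exp q) (Real.exp i) (Real.exp h) d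
  swap
  · rw [if_neg h1, zero_mul, mul_zero, mul_zero]
    exact hRHS
  rw [if_pos h1]
  have hL := log_Ld (K := Real.exp q) (V := Real.exp i) (H := Real.exp h) (Real.exp_pos q)
    (Real.exp_pos i) (Real.exp_pos h) hd
  have hl : lL (Real.exp q) (Real.exp i) (Real.exp h) d = h + 2 * i - q - Real.log (nm d) := by
    unfold lL
    rw [Real.log_exp, Real.log_exp, Real.log_exp]
  have hI : lI (Real.exp q) (Real.exp i) (Real.exp h) m = m + i + h - q := by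
    unfold lI
    rw [Real.log_exp, Real.log_exp, Real.log_exp]
  have hl0 : 0 ≤ h + 2 * i - q - Real.log (nm d) := by
    rw [← hl, ← hL]
    exact Real.log_nonneg h1
  have hw2 := w2_le (n := m) hc (Real.exp_pos q) (Real.exp_pos i) (Real.exp_pos h) hd
  rw [hl, hI] at hw2
  have hfac := fac_eq (n := m) (Real.exp_pos q) (Real.exp_pos i) (Real.exp_pos h) nd0 nf0
  rw [Real.log_exp, Real.log_exp, Real.log_exp] at hfac
  rw [le_div_iff₀ (by positivity)]
  obtain ⟨g, hg⟩ : ∃ g, g = g2 (h + 2 * i - q - Real.log (nm d)) (m + i + h - q) := ⟨_, rfl⟩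
  rw [← hg] at hw2 hE
  have hFH : 0 ≤ Real.exp q ^ (2 / 3 : ℝ) * (Real.exp h * Real.exp i) ^ (-(1 / 3) : ℝ) := by
    positivity
  have hW0 : 0 ≤ k₁ * Real.exp T * (Real.exp m / nm d) ^ (2 / 3 : ℝ) := by positivity
  have e1 : FH (Real.exp q) (Real.exp h) (Real.exp i) * ((nm d : ℝ) ^ (2 / 3 : ℝ) * nm f *
      (G2 (Ld (Real.exp q) (Real.exp i) (Real.exp h) d)
        (Md c (Real.exp q) (Real.exp i) (Real.exp h) (Real.exp m) d)
        (Real.exp m * Real.exp i * Real.exp h / Real.exp q) *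
        W0 d f (c * (Real.exp m * Real.exp i * Real.exp h / Real.exp q)))) * (nm d * nm f) ≤
      Real.exp q ^ (2 / 3 : ℝ) * (Real.exp h * Real.exp i) ^ (-(1 / 3) : ℝ) *
        ((nm d : ℝ) ^ (2 / 3 : ℝ) * nm f * (((3 + c) * Real.exp g) *
          (k₁ * Real.exp T * (Real.exp m / nm d) ^ (2 / 3 : ℝ)))) * (nm d * nm f) := by
    unfold E3Z548.FH
    refine mul_le_mul_of_nonneg_right (mul_le_mul_of_nonneg_left (mul_le_mul_of_nonneg_left ?_
      (by positivity)) hFH) (by positivity)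
    have hG2 : 0 ≤ (3 + c) * Real.exp g := by positivity
    refine (mul_le_mul_of_nonneg_left hW ?_).trans (mul_le_mul_of_nonneg_right hw2 hW0)
    have := Ld_pos (K := Real.exp q) (V := Real.exp i) (H := Real.exp h) (Real.exp_pos q)
      (Real.exp_pos i) (Real.exp_pos h) hd
    refine E3T829.G2_nonneg this.le ?_ (by positivity)
    rw [Md_eq (Real.exp_pos q) (Real.exp_pos i) (Real.exp_pos h) hd]
    positivity
  refine e1.trans ?_
  have e2 : Real.exp q ^ (2 / 3 : ℝ) * (Real.exp h * Real.exp i) ^ (-(1 / 3) : ℝ) *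
        ((nm d : ℝ) ^ (2 / 3 : ℝ) * nm f * (((3 + c) * Real.exp g) *
          (k₁ * Real.exp T * (Real.exp m / nm d) ^ (2 / 3 : ℝ)))) * (nm d * nm f) =
      (3 + c) * k₁ * (Real.exp g * Real.exp T * (Real.exp q ^ (2 / 3 : ℝ) *
        (Real.exp h * Real.exp i) ^ (-(1 / 3) : ℝ) * ((nm d : ℝ) ^ (2 / 3 : ℝ) * nm f *
          (Real.exp m / nm d) ^ (2 / 3 : ℝ)) * (nm d * nm f))) := by ring
  rw [e2, hfac, ← Real.exp_add, ← Real.exp_add]
  refine mul_le_mul_of_nonneg_left (Real.exp_le_exp.2 ?_) (by positivity)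
  have := hE hl0
  linarith

end Crest.Agent.R017.NGr708
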