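import Crest.Agent.R017.NGnX_590
import Crest.Agent.R017.NGx_848
import Crest.Agent.R017.NGy_110
import Crest.Agent.R017.RHXf_116

/-!
# Row 17, FlatNE, NumEq class E (helper848): the `R`-half of the Gram number at the near leaf

* `tw_near`  : the lumps of a derived list, near parents
* `rhl_num`  : the numerical facts
* `hN_le0`, `hN_leD` : the exponent of `H`
* `rhl_gk`   : helper590's `RHL`
-/

set_option autoImplicit false
set_option linter.unusedVariables false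

noncomputable section

open Finset MeasureTheory
open scoped ComplexConjugate Classical

namespace Crest.Agent.R017.NX848

open Crest.Agent.R012 Crest.Agent.R012.Eis
open Crest.Agent.R012.LS2 (S mem_S)
open Crest.Agent.R017.FE47
open Crest.Agent.R017.B770
open Crest.Agent.R017.Prov71 hiding tl
open Crest.Agent.R017.Leg381 (Pf alF LF natl)
open Crest.Agent.R017.RGB545 (Line Th TK rbx LEk dGk)
open Crest.Agent.R017.RG64 (SbL Ht one_le_Ht LF_cons)
open Crest.Agent.R017.XP699 (LL Chd hcost cst)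
open Crest.Agent.R017.Sup271 (NPm)
open Crest.Agent.R017.NE73 (gN)
open Crest.Agent.R017.NEg551 (NFacts NNum)
open Crest.Agent.R017.RX298 (NNumX xs)
open Crest.Agent.R017.RXk848 (LnP Lmp)
open Crest.Agent.R017.RXi848 (LF_le_len)
open Crest.Agent.R017.ExD791 (Tw)
open Crest.Agent.R017.RHX116 (LL_cons' LL_natl)
open Crest.Agent.R017.P1N904 (Gs Gs_ge)
open Crest.Agent.R017.P1N73 (hN hN_cases)
open Crest.Agent.R017.Win813 (WK)
open Crest.Agent.R017.RGw813 (T9 bt mem_T9)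
open Crest.Agent.R017.NG590 (RHL RHW)
open Crest.Agent.R017.E3Kc548 (LI mem_LI)

/-- **the lumps of a derived list**, near parents (helper116's `tw_of`, removed length `γ`) -/
theorem tw_near {c X d c₀ S γ : ℝ} (hd : 0 ≤ d) (hX : 1 ≤ X) (hS : 0 ≤ S) (hc : 0 ≤ c)
    {ps₀ : List Pq} {ps : List Pf} (hlen : (ps₀.length : ℝ) * S ≤ c / 2 * Real.log X)
    (hs2 : ∀ q ∈ ps₀, Dq.s2 q ≤ X ^ c₀)
    (hL : Lmp ((d + 3 / 2 * c) * Real.log X) ps₀) (hlo : LL Dq ps₀ - γ ≤ LF ps) (hγ : 0 ≤ γ)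
    (hγd : γ ≤ d * Real.log X) (hs : SbL S ps ps₀) :
    Tw (d * Real.log X) (d * Real.log X - γ) (X ^ c₀) ps := by
  have hl0 : 0 ≤ Real.log X := Real.log_nonneg hX
  have hcl : 0 ≤ c * Real.log X := mul_nonneg hc hl0
  match ps, ps₀, hs, hL with
  | _ :: _ :: _ , [], h, hL => exact hL.elim
  | [], [], _, hL => exact hL.elim
  | [_], [_], _, hL => exact hL.elim
  | p1 :: p2 :: ps, q1 :: q2 :: [], h, hL => exact hL.elim
  | p1 :: p2 :: ps, q1 :: q2 :: q3 :: ps₀, h, hL =>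
    unfold RG64.SbL at h
    cases h with
    | cons h1 h =>
      cases h with
      | cons h2 h =>
        obtain ⟨⟨k1, u1⟩, ⟨k2, u2⟩, -, x1, x2⟩ := hL
        have h3 := LF_le_len hS h
        have h4 : p1.1.z ≤ q1.z + S := h1.2.2.2.2
        have h5 : p2.1.z ≤ q2.z + S := h2.2.2.2.2
        have h6 : (((q1 :: q2 :: q3 :: ps₀).length : ℕ) : ℝ) = (q3 :: ps₀).length + 2 := by
          rw [List.length_cons, List.length_cons]; push_cast; ring
        rw [h6] at hlen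
        rw [LL_cons', LL_cons', LL_natl, LF_cons, LF_cons] at hlo
        have hm1 : (nm p1.1.d : ℝ) ≤ X ^ c₀ := by
          rw [h1.2.1]
          exact hs2 q1 (by simp)
        have hm2 : (nm p2.1.d : ℝ) ≤ X ^ c₀ := by
          rw [h2.2.1]
          exact hs2 q2 (by simp)
        have y1 : d * Real.log X - γ ≤ p1.1.z := by nlinarith
        have y2 : d * Real.log X - γ ≤ p2.1.z := by nlinarith
        have y3 : d * Real.log X - γ ≤ p1.1.z + p2.1.z - d * Real.log X := by nlinarith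
        exact ⟨⟨h1.2.2.1 u1, h2.2.2.1 u2⟩, ⟨h1.1.trans k1, h2.1.trans k2⟩, ⟨hm1, hm2⟩, ⟨y1, y2⟩,
          y3, by linarith⟩

/-- `H ≤ 1` -/
lemma hN_le0 {κ q m y x : ℝ} (hm : 3 * κ ≤ 4 * m + 4 * y) (hy : 0 ≤ y) (hx : 0 ≤ x) :
    hN κ q m x ≤ 2 * y := by
  obtain ⟨h1, h2, h3⟩ := Gs_ge κ q m
  rcases hN_cases κ q m x with h | h <;> rw [h] <;> linarith

/-- the second form of `hN` in the near range -/
lemma hN_leD {κ q m y x : ℝ} (hy : 0 ≤ y) (hx : x ≤ m - 3 / 4 * κ + y) :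
    hN κ q m x ≤ 2 * q + 13 / 3 * m - 4 / 3 * x + 2 * y - 3 * Gs κ q m := by
  rcases hN_cases κ q m x with h | h <;> rw [h] <;> linarith

/-- **the numerical facts** -/
lemma rhl_num {K v c e₁ d ε X Lv : ℝ} {ps₀ : List Pq} {ps : List Pf} {N₁ : ℕ} (hX : 3 ≤ X)
    (hc : 0 < c) (hcK : 1000000 * c ≤ K) (hd : 0 ≤ d) (hε : 0 < ε)
    (hn : NNum K v c ε X ps₀) (hx : NNumX K v c e₁ d ε X ps₀)
    (hF : NFacts K v (gN K c (LL Dq ps₀ / Real.log X)) ε X ps₀ ps Lv N₁) :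
    5 * LF ps ≤ 4 * (K * Real.log X) + 6 * (c * Real.log X) ∧
    3 * (K * Real.log X) ≤ 4 * LF ps + 4 * (c * Real.log X) ∧
    5 * (Lv + LF ps) ≤ 7 * (K * Real.log X) ∧
    max 0 (LL Dq ps₀ - LF ps) ≤ d * Real.log X ∧
    Lv ≤ K * Real.log X ∧
    LF ps - (LL Dq ps₀ - gN K c (LL Dq ps₀ / Real.log X) * Real.log X) ≤
      LF ps - 3 / 4 * (K * Real.log X) + c * Real.log X ∧
    (∀ E : ℝ, E ≤ 9 / 22 * max 0 ((4 * LF ps - 3 * (K * Real.log X)) / 9) +
        10 * (c * Real.log X) →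
      4 / 3 * (Lv + LF ps) + 2 * E ≤ (d * Real.log X - max 0 (LL Dq ps₀ - LF ps)) +
        26 / 15 * (K * Real.log X) + 10 * (c * Real.log X)) := by
  have hL0 : 0 < Real.log X := Real.log_pos (by linarith)
  have n0 := hn.top
  have n1 := hn.nK
  have n2 := hn.Kn
  have n3 := mul_le_mul_of_nonneg_right hn.vg hL0.le
  have n4 := hn.sn
  have n5 := mul_le_mul_of_nonneg_right hn.ec hL0.le
  have b1 := hx.bg
  have f1 := hF.lo
  have f2 := hF.hi
  have f3 := hF.lv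
  have hgL : gN K c (LL Dq ps₀ / Real.log X) * Real.log X =
      LL Dq ps₀ - 3 / 4 * (K * Real.log X) + c * Real.log X := JBX320.gL_eq hL0 rfl
  obtain ⟨L, hL⟩ : ∃ z : ℝ, z = Real.log X := ⟨_, rfl⟩
  obtain ⟨n, hnn⟩ : ∃ z : ℝ, z = LL Dq ps₀ := ⟨_, rfl⟩
  obtain ⟨m, hm⟩ : ∃ z : ℝ, z = LF ps := ⟨_, rfl⟩
  rw [← hnn, ← hL] at hgL
  rw [← hm] at f1 f2 f3
  rw [← hnn, ← hL] at n0 n1 n2 n3 n4 b1 f1 f2 f3
  rw [← hL] at n5 hL0
  rw [← hnn, ← hm, ← hL]
  obtain ⟨g, hg⟩ : ∃ z : ℝ, z = gN K c (n / L) := ⟨_, rfl⟩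
  rw [← hg] at hgL n3 b1 f1 ⊢
  have hcL : 0 < c * L := by positivity
  have hεL0 : 0 < ε * L := by positivity
  have hdL : 0 ≤ d * L := by positivity
  have hKc : 1000000 * (c * L) ≤ K * L := by
    have := mul_le_mul_of_nonneg_right hcK hL0.le
    linarith
  have e1 : (K + v + ε) * L = K * L + v * L + ε * L := by ring
  have e2 : (3 * (v + g) + 100 * c) * L = 3 * (v * L) + 3 * (g * L) + 100 * (c * L) := by ring
  have e3 : (2 * K + ε) * L = 2 * (K * L) + ε * L := by ring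
  have e5 : (v + ε) * L = v * L + ε * L := by ring
  have e8 : 3 * K * L = 3 * (K * L) := by ring
  have e9 : 100 * c * L = 100 * (c * L) := by ring
  have e10 : (4 * K + ε) * L = 4 * (K * L) + ε * L := by ring
  have e11 : (7 * K + ε) * L = 7 * (K * L) + ε * L := by ring
  have e12 : (v + 3 * g + 90 * c) * L = v * L + 3 * (g * L) + 90 * (c * L) := by ring
  have e13 : (K + 3 * d + ε) * L = K * L + 3 * (d * L) + ε * L := by ring
  rw [e1, e9] at n0
  rw [e10] at n1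
  rw [e8] at n2
  rw [e2, e3] at n3
  rw [e9, e11] at n4
  rw [e12, e13] at b1
  rw [e5] at f3
  generalize hw1 : v * L = w at *
  generalize hk1 : K * L = κ at *
  generalize hc1 : c * L = C at *
  generalize hd1 : d * L = D at *
  generalize he1 : ε * L = e at *
  generalize hg1 : g * L = G at *
  refine ⟨by linarith, by linarith, by linarith, max_le hdL (by linarith), by linarith,
    by linarith, ?_⟩
  intro E hE
  rcases max_choice 0 ((4 * m - 3 * κ) / 9) with h1 | h1 <;>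
  rcases max_choice 0 (n - m) with h2 | h2 <;> rw [h1] at hE <;> rw [h2] <;>
  have h3 := le_max_left 0 ((4 * m - 3 * κ) / 9) <;>
  have h4 := le_max_left 0 (n - m) <;> rw [h1] at h3 <;> rw [h2] at h4 <;> linarith

/-- the constants -/
lemma fin_rhl {A C₁ x x' V W H Bd E E' : ℝ} (hA : 0 ≤ A) (hC : 0 ≤ C₁) (hx : 0 ≤ x) (hxx : x ≤ x')
    (hV : 0 ≤ V) (hW0 : 0 ≤ W) (hW : W ≤ 2 * (H * Bd)) (hE : 0 ≤ E) (hEE : E ≤ E') :
    A * (C₁ * x * V) * W * E ≤ (C₁ * (1 + 2 * A)) * x' * H * Bd * V * E' := by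
  have hHB : 0 ≤ H * Bd := by linarith
  have hx' : 0 ≤ x' := hx.trans hxx
  have hE' : 0 ≤ E' := hE.trans hEE
  calc A * (C₁ * x * V) * W * E ≤ A * (C₁ * x' * V) * (2 * (H * Bd)) * E' := by gcongr
    _ ≤ A * (C₁ * x' * V) * (2 * (H * Bd)) * E' + C₁ * x' * (H * Bd) * V * E' :=
        le_add_of_nonneg_right (by positivity)
    _ = _ := by ring

variable {Lam ι : Type*}

set_option maxHeartbeats 12800000 in
/-- **the `R`-half of the Gram number at the near leaf**, class E -/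
theorem rhl_gk {π : Lam → DPar} (hP : ∀ lam, (π lam).OK)
    (hnp : ∀ lam, ¬ NPm (π lam).n (π lam).ψ (π lam).l₂ 1) {h : ℝ → ℝ} {c₁ : ℝ} (hpu : PU h c₁)
    {L : ι → Line Lam 9} {j : ι} (hj : L j = LEk π h dGk ()) {φ₀ : ℝ → ℝ → ℝ → ℝ}
    {K v c e₁ d : ℝ} (hc : 0 < c) (hcK : 1000000 * c ≤ K) (hd : 0 ≤ d)
    (hφ₀ : ∀ a u m, φ₀ a u m ≤ 9 / 22 * max 0 ((4 * m - 3 * K) / 9) + 10 * c) :
    RHL π h L φ₀ K v c e₁ d := by
  intro lam' N c₀ hc₀
  have hK : 0 < K := by linarith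
  obtain ⟨c₂, hc₂⟩ : ∃ c₂ : ℝ, c₂ = c₀ + 2 * K + 5 := ⟨_, rfl⟩
  have hc₂1 : 1 ≤ c₂ := by rw [hc₂]; linarith
  have hm₀ : 0 ≤ 2400 * (K + 1) + 1 := by linarith
  refine ⟨2 * c₂ + 2, by linarith, fun ε ε' M hε hε' hM => ?_⟩
  obtain ⟨a, ha, H⟩ := rhX_half hpu N (c₀ := c₂) (m₀ := 2400 * (K + 1) + 1) (μ := c) (M := M) hc₂1
    hm₀ hc hM
  obtain ⟨ε₁, hε₁⟩ : ∃ ε₁ : ℝ, ε₁ = min ε (ε' / 2) := ⟨_, rfl⟩
  have hε₁0 : 0 < ε₁ := by rw [hε₁]; exact lt_min hε (by linarith)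
  have hε₁ε : ε₁ ≤ ε := by rw [hε₁]; exact min_le_left _ _
  have hε₁ε' : 2 * ε₁ ≤ ε' := by
    have : ε₁ ≤ ε' / 2 := by rw [hε₁]; exact min_le_right _ _
    linarith
  have hN0 : (0 : ℝ) ≤ N := Nat.cast_nonneg N
  refine ⟨(N : ℝ) ^ 2 * M + M + 12, min 1 (ε₁ / (3 * N + 3)), a, by positivity,
    lt_min one_pos (by positivity), ?_⟩
  intro δ Jn Aw Cw R η Ss hδ0 hδ hJn hAw hCw hR hη hη2 hS cg hcg
  obtain ⟨C, r, X₁, hC, hr, H⟩ := H ε₁ Ss hε₁0 hS
  have hC0 : 0 ≤ C := by linarith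
  have hδ1 : δ ≤ 1 := hδ.trans (min_le_left _ _)
  have hδε : 3 * N * δ ≤ ε₁ := by
    have h1 : δ ≤ ε₁ / (3 * N + 3) := hδ.trans (min_le_right _ _)
    rw [le_div_iff₀ (by positivity)] at h1
    have h2 : δ * (3 * N + 3) = 3 * N * δ + 3 * δ := by ring
    linarith
  have hNM : 0 ≤ (N : ℝ) ^ 2 * M := by positivity
  have hη1 : η ≤ 1 := by linarith
  have hηJ : 0 ≤ (η⁻¹) ^ Jn := by positivity
  obtain ⟨A, hA⟩ : ∃ A : ℝ, A = (3 + 2 * cg) * (Cw ^ 2 * (η⁻¹) ^ Jn) := ⟨_, rfl⟩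
  have hA0 : 0 ≤ A := by rw [hA]; positivity
  refine ⟨C * (1 + 2 * A), r, max (max X₁ cg) (max (nm (π lam').n)
    (Real.exp (max (max (N * Ss / (c / 2)) 1) (max (5 / c)
      ((Real.log 81 + Real.log cg) / (c / 2)))))), by positivity, hr, ?_⟩
  intro X hX3 hXX ps₀ hlen hz hs2 hnum hnx hlm q ps Lv N₁ hF hq hqX hps Bd hBd hln b hb t₀ X' φ
    hX' hXX' hWK hφs z hz1 hzK
  have hX0 : 0 < X := by linarith
  have hX1 : 1 ≤ X := by linarith
  have hXX₁ : X₁ ≤ X := (le_max_left _ _).trans ((le_max_left _ _).trans hXX)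
  have hXcg : cg ≤ X := (le_max_right _ _).trans ((le_max_left _ _).trans hXX)
  have hXn : (nm (π lam').n : ℝ) ≤ X := (le_max_left _ _).trans ((le_max_right _ _).trans hXX)
  have hXl : max (max (N * Ss / (c / 2)) 1) (max (5 / c)
      ((Real.log 81 + Real.log cg) / (c / 2))) ≤ Real.log X := by
    rw [Real.le_log_iff_exp_le hX0]
    exact (le_max_right _ _).trans ((le_max_right _ _).trans hXX)
  have hl1 : N * Ss / (c / 2) ≤ Real.log X := (le_max_left _ _).trans ((le_max_left _ _).trans hXl)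
  have hl2 : 1 ≤ Real.log X := (le_max_right _ _).trans ((le_max_left _ _).trans hXl)
  have hl3 : 5 / c ≤ Real.log X := (le_max_left _ _).trans ((le_max_right _ _).trans hXl)
  have hl4 : (Real.log 81 + Real.log cg) / (c / 2) ≤ Real.log X :=
    (le_max_right _ _).trans ((le_max_right _ _).trans hXl)
  rw [div_le_iff₀ (by positivity)] at hl1 hl3 hl4
  have hlX : 0 < Real.log X := by linarith
  have hcL : 0 < c * Real.log X := by positivity
  have hKL : 0 < K * Real.log X := by positivity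
  have hKc : 1000000 * (c * Real.log X) ≤ K * Real.log X := by
    have := mul_le_mul_of_nonneg_right hcK hlX.le
    linarith
  have hXe : ∀ {a b : ℝ}, a ≤ b → X ^ a ≤ X ^ b := fun h =>
    Real.rpow_le_rpow_of_exponent_le hX1 h
  obtain ⟨r1, r2, r3, r4, r5, r6, r7⟩ := rhl_num hX3 hc hcK hd hε hnum hnx hF
  have hNS : (ps₀.length : ℝ) * Ss ≤ c / 2 * Real.log X := by
    have h2 : (ps₀.length : ℝ) * Ss ≤ N * Ss :=
      mul_le_mul_of_nonneg_right (by exact_mod_cast hlen) hS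
    linarith
  have hlo : LL Dq ps₀ - max 0 (LL Dq ps₀ - LF ps) ≤ LF ps := by
    have := le_max_right 0 (LL Dq ps₀ - LF ps)
    linarith
  have hTw : Tw (d * Real.log X) (d * Real.log X - max 0 (LL Dq ps₀ - LF ps)) (X ^ c₂) ps :=
    tw_near hd hX1 hS hc.le hNS (fun q hq => (hs2 q hq).trans (hXe (by rw [hc₂]; linarith))) hlm
      hlo (le_max_left _ _) r4 hps
  have hLF0 : 0 ≤ LF ps := by linarith
  have hkq : 0 ≤ Real.log (2 * z) := Real.log_nonneg (by linarith)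
  -- `N₁`
  have hN₁e : (N₁ : ℝ) ≤ Real.exp (Lv + 4) := by
    have h1 := hF.N1
    have h2 := Real.exp_pos (Lv + 4)
    linarith
  have hN₁X : (N₁ : ℝ) ≤ X ^ c₂ := by
    refine hN₁e.trans ?_
    rw [Real.rpow_def_of_pos hX0]
    refine Real.exp_le_exp.2 ?_
    have h1 : Real.log X * c₂ = c₀ * Real.log X + 2 * (K * Real.log X) + 5 * Real.log X := by
      rw [hc₂]; ring
    rw [h1]
    have h2 := mul_le_mul_of_nonneg_right hc₀ hlX.le
    linarith
  have hLI : ∀ i ∈ LI (1 / 10) N₁, (i : ℝ) ≤ Lv + c * Real.log X := by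
    intro i hi
    obtain ⟨-, -, h1⟩ := mem_LI hi
    have h2 : Real.exp i ≤ Real.exp (Lv + 5) := by
      calc Real.exp i ≤ Real.exp 1 * N₁ := h1
        _ ≤ Real.exp 1 * Real.exp (Lv + 4) := by gcongr
        _ = Real.exp (Lv + 5) := by rw [← Real.exp_add]; congr 1; ring
    have h3 := Real.exp_le_exp.1 h2
    linarith
  -- `E0`
  obtain ⟨f, hfd⟩ : ∃ f : ℝ, f = φ₀ (LL Dq ps₀ / Real.log X) (Lv / Real.log X)
    (LF ps / Real.log X) := ⟨_, rfl⟩
  have hf1 := hφ₀ (LL Dq ps₀ / Real.log X) (Lv / Real.log X) (LF ps / Real.log X)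
  rw [← hfd] at hf1
  have hFm : max 0 ((4 * LF ps - 3 * (K * Real.log X)) / 9) =
      max 0 ((4 * (LF ps / Real.log X) - 3 * K) / 9) * Real.log X := by
    rw [max_mul_of_nonneg _ _ hlX.le, zero_mul]
    congr 1
    field_simp
  have hlE : Real.log (X ^ f) ≤ 9 / 22 * max 0 ((4 * LF ps - 3 * (K * Real.log X)) / 9) +
      10 * (c * Real.log X) := by
    rw [Real.log_rpow hX0, hFm]
    have := mul_le_mul_of_nonneg_right hf1 hlX.le
    linarith
  have hEX : X ^ f ≤ X ^ c₂ := by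
    rw [← Real.log_le_log_iff (Real.rpow_pos_of_pos hX0 _) (Real.rpow_pos_of_pos hX0 _)]
    refine hlE.trans ?_
    rw [Real.log_rpow hX0]
    have h1 : max 0 ((4 * LF ps - 3 * (K * Real.log X)) / 9) ≤ K * Real.log X :=
      max_le hKL.le (by linarith)
    have h2 : c₂ * Real.log X = c₀ * Real.log X + 2 * (K * Real.log X) + 5 * Real.log X := by
      rw [hc₂]; ring
    rw [h2]
    have h3 := mul_le_mul_of_nonneg_right hc₀ hlX.le
    linarith
  have hFF : (max 0 ((4 * LF ps - 3 * (K * Real.log X)) / 9) = 0 ∧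
      4 * LF ps - 3 * (K * Real.log X) ≤ 0) ∨
      9 * max 0 ((4 * LF ps - 3 * (K * Real.log X)) / 9) = 4 * LF ps - 3 * (K * Real.log X) := by
    rcases le_total ((4 * LF ps - 3 * (K * Real.log X)) / 9) 0 with h1 | h1
    · left
      exact ⟨max_eq_left h1, by linarith⟩
    · right
      rw [max_eq_right h1]
      ring
  obtain ⟨g1, g2, g3⟩ := Gs_ge (K * Real.log X) (Real.log (2 * z)) (LF ps)
  -- the premise of the line
  have hBd0 : 0 ≤ Bd := by linarith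
  have hLnP : ∀ t : Bool, LnP (LEk π h dGk) lam' K ε M r (C * (1 + 2 * A) * X ^ (2 * c₂ + 2)) X
      (LF ps / Real.log X) (Lv / Real.log X) Bd (rbx d t X ps₀) := by
    intro t j'
    cases j'
    have h1 := hln t j
    rw [hj] at h1
    exact h1
  have hbm : C * X ^ (2 * c₂ + 2) ≤ C * (1 + 2 * A) * X ^ (2 * c₂ + 2) := by
    have h1 : 0 ≤ X ^ (2 * c₂ + 2) := Real.rpow_nonneg hX0.le _
    have h2 : C ≤ C * (1 + 2 * A) := le_mul_of_one_le_right hC0 (by linarith)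
    exact mul_le_mul_of_nonneg_right h2 h1
  have hTK : 2 * (K * Real.log X) ≤ TK K * Real.log X := by
    have h1 : TK K * Real.log X = 10 * (K * Real.log X) + 10 * Real.log X := by
      unfold RGB545.TK; ring
    rw [h1]
    linarith
  have hImX : 2 * (K * Real.log X) ≤ c₂ * Real.log X := by
    have h2 : c₂ * Real.log X = c₀ * Real.log X + 2 * (K * Real.log X) + 5 * Real.log X := by
      rw [hc₂]; ring
    rw [h2]
    have h3 := mul_le_mul_of_nonneg_right hc₀ hlX.le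
    linarith
  have hb2 : b.2 ≤ 2 := by
    have := (mem_T9.1 hb).2
    omega
  have key := H X hX3 hXX₁ (π lam') (hP lam') (hnp lam')
    (hXn.trans (by
      calc X = X ^ (1 : ℝ) := (Real.rpow_one X).symm
        _ ≤ X ^ c₂ := hXe hc₂1)) ps₀ hlen
    (fun q hq => (hz q hq).2.trans (mul_le_mul_of_nonneg_right (by rw [hc₂]; linarith) hlX.le))
    q ps hq.ne_zero (hqX.trans (hXe (by rw [hc₂]; linarith))) hps d
    (d * Real.log X - max 0 (LL Dq ps₀ - LF ps)) hd (by linarith) hTw (X ^ δ) δ hδ0 hδ1 hδε Bd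
    (2 * (K * Real.log X)) hBd
    (fun I h1 h2 t l ps' h3 h4 h5 h6 => NGy110.gk_line (n := LF ps) (v := Lv) hX3 le_rfl hbm hε.le
      hε₁ε hBd0 hK.le hTK (hLnP t) I h1 h2 l ps' h3 h4 h5 h6)
    Cw η Aw Jn hCw hη hη1 hAw (by linarith) (by
      have : (12 : ℝ) ≤ Jn := by linarith
      exact_mod_cast this) φ hWK b hb2 t₀ ((Jn + 2 : ℕ) : ℝ) (by push_cast; exact le_rfl) cg
    (K * Real.log X) (c * Real.log X) (Real.log (2 * z)) Lv (X ^ f)
    (Gs (K * Real.log X) (Real.log (2 * z)) (LF ps))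
    (max 0 ((4 * LF ps - 3 * (K * Real.log X)) / 9))
    (Real.exp (min (gN K c (LL Dq ps₀ / Real.log X) * Real.log X)
          (LF ps - (LL Dq ps₀ - gN K c (LL Dq ps₀ / Real.log X) * Real.log X))))
    N₁ (fun _ δ => hN (K * Real.log X) (Real.log (2 * z)) (LF ps) δ) hcg hKL (by linarith)
    (by linarith) le_rfl hImX hkq hLF0 r1 r2 r3 hN₁X (Real.rpow_nonneg hX0.le _) hEX hlE hFF hLI
    g1 g2 g3
    (fun i _ x _ hx => by
      have h1 := Real.exp_le_exp.1 hx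
      have h2 := h1.trans (min_le_right _ _)
      exact hN_leD hcL.le (h2.trans r6))
    (fun i _ x hx => hN_le0 r2 hcL.le hx) (r7 _ hlE)
  obtain ⟨W0, k1, k2, k3⟩ := key
  rw [← hfd]
  refine ⟨W0, k1, ?_, ?_⟩
  · intro i hi jj d' hd' f' hf' γ ϖ hγ hϖ hϖX P hP0
    refine k2 i hi jj d' hd' f' hf' γ ϖ hγ hϖ (hϖX.trans ?_) P hP0
    have e1 : (X ^ (8 * (K + 1))) ^ 300 = X ^ (2400 * (K + 1)) := by
      rw [← Real.rpow_natCast, ← Real.rpow_mul hX0.le]
      congr 1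
      push_cast
      ring
    rw [e1, Real.rpow_add hX0, Real.rpow_one, mul_comm]
    exact mul_le_mul_of_nonneg_left hXcg (Real.rpow_nonneg hX0.le _)
  · intro i hi d' hd' f' hf'
    refine (k3 i hi d' hd' f' hf').trans ?_
    refine div_le_div_of_nonneg_right ?_ (by positivity)
    have hH1 : 1 ≤ Ht ps := one_le_Ht ps
    have hH2 : 1 ≤ Ht (natl ps₀) := one_le_Ht (natl ps₀)
    have hH : 1 ≤ Ht ps * Ht (natl ps₀) := one_le_mul_of_one_le_of_one_le hH1 hH2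
    have hJr : (12 : ℝ) ≤ (N : ℝ) ^ 2 * M + M + 12 := by linarith
    have w1 : (Ht ps * Ht (natl ps₀)) ^ M ≤
        (Ht ps * Ht (natl ps₀)) ^ ((N : ℝ) ^ 2 * M + M + 12) :=
      Real.rpow_le_rpow_of_exponent_le hH (by linarith)
    have w2 : Ht ps ^ 6 ≤ (Ht ps * Ht (natl ps₀)) ^ ((N : ℝ) ^ 2 * M + M + 12) := by
      calc Ht ps ^ 6 ≤ (Ht ps * Ht (natl ps₀)) ^ 6 := by
            exact pow_le_pow_left₀ (by linarith) (le_mul_of_one_le_right (by linarith) hH2) 6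
        _ = (Ht ps * Ht (natl ps₀)) ^ (6 : ℝ) := by
            rw [← Real.rpow_natCast]; norm_num
        _ ≤ _ := Real.rpow_le_rpow_of_exponent_le hH (by linarith)
    obtain ⟨HH, hHH⟩ : ∃ x : ℝ, x = (Ht ps * Ht (natl ps₀)) ^ ((N : ℝ) ^ 2 * M + M + 12) :=
      ⟨_, rfl⟩
    rw [← hHH] at w1 w2 ⊢
    obtain ⟨HM, hHM⟩ : ∃ x : ℝ, x = (Ht ps * Ht (natl ps₀)) ^ M := ⟨_, rfl⟩
    have hHM0 : 0 ≤ HM := by rw [hHM]; exact Real.rpow_nonneg (by linarith) _
    rw [← hHM] at w1 ⊢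
    have hH60 : 0 ≤ Ht ps ^ 6 := by positivity
    have hW : HM * Bd + Ht ps ^ 6 ≤ 2 * (HH * Bd) := by
      have p1 : HM * Bd ≤ HH * Bd := mul_le_mul_of_nonneg_right w1 hBd0
      have p2 : HH ≤ HH * Bd := le_mul_of_one_le_right (hHM0.trans w1) hBd
      linarith
    have hxx : X ^ (2 * ε₁) ≤ X ^ ε' := hXe hε₁ε'
    have hE : Real.exp (Gs (K * Real.log X) (Real.log (2 * z)) (LF ps) +
        20 * (c * Real.log X)) ≤ Real.exp (Gs (K * Real.log X) (Real.log (2 * z)) (LF ps) +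
          max 0 (K * Real.log X / 40 - Real.log (2 * z) / 3) + 20 * c * Real.log X) := by
      refine Real.exp_le_exp.2 ?_
      have := le_max_left 0 (K * Real.log X / 40 - Real.log (2 * z) / 3)
      linarith
    have hV : 0 ≤ (1 + |t₀|) ^ Jn := by positivity
    have fin := fin_rhl (V := (1 + |t₀|) ^ Jn) hA0 hC0 (Real.rpow_nonneg hX0.le (2 * ε₁)) hxx hV
      (by positivity) hW (Real.exp_pos _).le hE
    refine le_trans (le_of_eq ?_) fin
    rw [hA]
    ring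

end Crest.Agent.R017.NX848
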