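import Crest.Agent.R017.NAm_144
import Crest.Agent.R017.NGz_848

/-!
# Row 17, FlatNE class E (helper848): helper144's `GkEl`

* **`gkEl_of`** : the Gram leaf of class E
* `eqEl`        : helper144's `EqEl`
-/

set_option autoImplicit false

noncomputable section

open Complex

namespace Crest.Agent.R017.NX848

open Crest.Agent.R012 Crest.Agent.R012.Eis
open Crest.Agent.R017.FE47
open Crest.Agent.R017.B770
open Crest.Agent.R017.Prov71
open Crest.Agent.R017.Sup271 (NPm)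
open Crest.Agent.R017.NG590 (gk_leafX)
open Crest.Agent.R017.NZN551 (f3 f3_nonneg p0 p1 pb)
open Crest.Agent.R017.NAw144 (GkEl EqEl eqEl_of)

variable {Lam : Type*}

/-- **the Gram leaf of class E** -/
theorem gkEl_of {π : Lam → DPar} (hP : ∀ lam, (π lam).OK)
    (hnp : ∀ lam, ¬ NPm (π lam).n (π lam).ψ (π lam).l₂ 1) {h : ℝ → ℝ} {c₁ : ℝ} (hpu : PU h c₁)
    (E e₁ : ℝ) : GkEl π h E e₁ := by
  intro w hw hw0 Nw Mw Fw hD K v c d₀ hc hcK hv hv3 hd0 hd4
  refine gk_leafX (v := v) (e₁ := e₁) hP hnp hpu hc hcK hd0 (Real.exp_pos _) ?_ ?_ ?_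
    (rhl_gk hP hnp hpu (j := Sum.inr ()) rfl hc hcK hd0 (fun a u m => le_of_eq rfl))
  · intro a u m
    show 0 ≤ 9 / 22 * f3 K m + 10 * c
    have := f3_nonneg K m
    linarith
  · intro a u m hm
    show 10 * (9 / 22 * f3 K m + 10 * c) ≤ K
    have : f3 K m ≤ K / 45 + 8 / 9 * c := by
      unfold NZN551.f3
      refine max_le (by linarith) (by linarith)
    linarith
  · intro a u m
    show 0 ≤ f3 K m + 20 * c
    have := f3_nonneg K m
    linarith

/-- **the `NumEq` leaf of class E** -/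
theorem eqEl {π : Lam → DPar} (hP : ∀ lam, (π lam).OK)
    (hnp : ∀ lam, ¬ NPm (π lam).n (π lam).ψ (π lam).l₂ 1) {h : ℝ → ℝ} {c₁ : ℝ} (hpu : PU h c₁)
    (E e₁ : ℝ) : EqEl π h E e₁ :=
  eqEl_of hP hpu (gkEl_of hP hnp hpu E e₁)

end Crest.Agent.R017.NX848
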