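import Crest.Agent.R017.WPolyJ_681
import Crest.Agent.R017.Cond2_499

/-!
# Row 17 (A, norm): the product of the local autocorrelations (helper499)

* `Qs x u a = u a - x u(a-6)`
* `qT_prod` : `qT` of a product table
* `auto_h1`, `auto_h2` : the autocorrelations of `qT` of a product table
* `cst` : the constant
-/

set_option autoImplicit false

noncomputable section

open Complex
open scoped ComplexConjugate

namespace Crest.Agent.R017.NH499

open Crest.Agent.R012 Crest.Agent.R012.Eis Crest.Agent.R012.Gauss880 Crest.Agent.R017.Loc266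
open Crest.Agent.R017.Sx440 Crest.Agent.R017.Glue681 Crest.Agent.R017.Rw266
open Crest.Agent.R017.Cond499

/-- `(1 - x T⁶) u` -/
def Qs (x : ℂ) (u : ℕ → ℂ) (a : ℕ) : ℂ := u a - x * (if 6 ≤ a then u (a - 6) else 0)

/-- the cubic cross phases -/
def thc (t1 t2 : ℂ) (c a b : ℕ) : ℂ := t1 ^ (c * a) * t2 ^ (a * b)

section product

variable {t1 t2 : ℂ}

lemma pow_mod3 (h : t1 ^ 3 = 1) {m n : ℕ} (e : m % 3 = n % 3) : t1 ^ m = t1 ^ n := by
  rw [← Nat.div_add_mod m 3, ← Nat.div_add_mod n 3, pow_add, pow_add, pow_mul, pow_mul, h, one_pow,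
    one_pow, e]

lemma thc_per (h1 : t1 ^ 3 = 1) (h2 : t2 ^ 3 = 1) {c a b a' b' : ℕ} (ha : a % 3 = a' % 3)
    (hb : b % 3 = b' % 3) : thc t1 t2 c a b = thc t1 t2 c a' b' := by
  unfold thc
  rw [pow_mod3 h1 (m := c * a) (n := c * a') (by rw [Nat.mul_mod, ha, ← Nat.mul_mod]),
    pow_mod3 h2 (m := a * b) (n := a' * b') (by rw [Nat.mul_mod, ha, hb, ← Nat.mul_mod])]

lemma norm_root (h : t1 ^ 3 = 1) : ‖t1‖ = 1 := by
  have h1 : ‖t1‖ ^ 3 = 1 := by rw [← norm_pow, h, norm_one]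
  exact (pow_eq_one_iff_of_nonneg (norm_nonneg _) (by norm_num)).mp h1

lemma thc_conj (h1 : t1 ^ 3 = 1) (h2 : t2 ^ 3 = 1) (c a b : ℕ) :
    thc t1 t2 c a b * conj (thc t1 t2 c a b) = 1 := by
  rw [Complex.mul_conj, Complex.normSq_eq_norm_sq]
  unfold thc
  rw [norm_mul, norm_pow, norm_pow, norm_root h1, norm_root h2]
  simp

variable {t : Fin 3 → ℕ → ℕ → ℂ} {K : ℂ} {u : ℕ → ℂ} {v : Fin 3 → ℕ → ℂ}

/-- product tables -/
def PT (t : Fin 3 → ℕ → ℕ → ℂ) (K : ℂ) (u : ℕ → ℂ) (v : Fin 3 → ℕ → ℂ) (t1 t2 : ℂ) : Prop :=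
  ∀ (c : Fin 3) (a b : ℕ), t c a b = K * (u a * v c b * thc t1 t2 c a b)

theorem qT_prod (h1 : t1 ^ 3 = 1) (h2 : t2 ^ 3 = 1) (h : PT t K u v t1 t2) (x1 x2 : ℂ)
    (c : Fin 3) (a b : ℕ) :
    qT x1 x2 t c a b = K * (Qs x1 u a * Qs x2 (v c) b * thc t1 t2 c a b) := by
  rw [qT_apply, h]
  unfold Qs
  have ea : 6 ≤ a → (a - 6) % 3 = a % 3 := by omega
  have eb : 6 ≤ b → (b - 6) % 3 = b % 3 := by omega
  by_cases ha : 6 ≤ a <;> by_cases hb : 6 ≤ b
  · simp only [ha, hb, if_true, and_self]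
    rw [h, h, h, thc_per h1 h2 (c := (c : ℕ)) (ea ha) (rfl : b % 3 = b % 3),
      thc_per h1 h2 (c := (c : ℕ)) (rfl : a % 3 = a % 3) (eb hb),
      thc_per h1 h2 (c := (c : ℕ)) (ea ha) (eb hb)]
    ring
  · simp only [ha, hb, if_true, if_false, and_false]
    rw [h, thc_per h1 h2 (c := (c : ℕ)) (ea ha) (rfl : b % 3 = b % 3)]
    ring
  · simp only [ha, hb, if_true, if_false, false_and]
    rw [h, thc_per h1 h2 (c := (c : ℕ)) (rfl : a % 3 = a % 3) (eb hb)]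
    ring
  · simp only [ha, hb, if_false, and_false]
    ring

theorem auto_h1 (h1 : t1 ^ 3 = 1) (h2 : t2 ^ 3 = 1) (h : PT t K u v t1 t2) (x1 x2 : ℂ)
    (A B n m : ℕ) :
    ∑ c : Fin 3, ∑ a ∈ Finset.range A, ∑ b ∈ Finset.range B,
      qT x1 x2 t c a b * conj (qT x1 x2 t c (a + 3 * n) (b + 3 * m)) =
    (K * conj K) * ((∑ a ∈ Finset.range A, Qs x1 u a * conj (Qs x1 u (a + 3 * n))) *
      ∑ c : Fin 3, ∑ b ∈ Finset.range B, Qs x2 (v c) b * conj (Qs x2 (v c) (b + 3 * m))) := by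
  have e1 : ∀ (c : Fin 3) (a b : ℕ),
      qT x1 x2 t c a b * conj (qT x1 x2 t c (a + 3 * n) (b + 3 * m)) =
      (K * conj K) * ((Qs x1 u a * conj (Qs x1 u (a + 3 * n))) *
        (Qs x2 (v c) b * conj (Qs x2 (v c) (b + 3 * m)))) := by
    intro c a b
    rw [qT_prod h1 h2 h, qT_prod h1 h2 h,
      thc_per h1 h2 (c := (c : ℕ)) (show (a + 3 * n) % 3 = a % 3 by omega)
        (show (b + 3 * m) % 3 = b % 3 by omega)]
    have := thc_conj h1 h2 c a b
    rw [map_mul, map_mul, map_mul]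
    linear_combination (K * conj K) * ((Qs x1 u a * conj (Qs x1 u (a + 3 * n))) *
        (Qs x2 (v c) b * conj (Qs x2 (v c) (b + 3 * m)))) * this
  simp_rw [e1]
  rw [Finset.mul_sum, Finset.mul_sum]
  refine Finset.sum_congr rfl fun c _ => ?_
  rw [Finset.sum_mul, Finset.mul_sum]
  refine Finset.sum_congr rfl fun a _ => ?_
  rw [Finset.mul_sum, Finset.mul_sum]

theorem auto_h2 (h1 : t1 ^ 3 = 1) (h2 : t2 ^ 3 = 1) (h : PT t K u v t1 t2) (x1 x2 : ℂ)
    (A B n m : ℕ) :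
    ∑ c : Fin 3, ∑ a ∈ Finset.range A, ∑ b ∈ Finset.range B,
      qT x1 x2 t c a (b + 3 * m) * conj (qT x1 x2 t c (a + 3 * n) b) =
    (K * conj K) * ((∑ a ∈ Finset.range A, Qs x1 u a * conj (Qs x1 u (a + 3 * n))) *
      conj (∑ c : Fin 3, ∑ b ∈ Finset.range B, Qs x2 (v c) b * conj (Qs x2 (v c) (b + 3 * m)))) := by
  have e1 : ∀ (c : Fin 3) (a b : ℕ),
      qT x1 x2 t c a (b + 3 * m) * conj (qT x1 x2 t c (a + 3 * n) b) =
      (K * conj K) * ((Qs x1 u a * conj (Qs x1 u (a + 3 * n))) *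
        conj (Qs x2 (v c) b * conj (Qs x2 (v c) (b + 3 * m)))) := by
    intro c a b
    rw [qT_prod h1 h2 h, qT_prod h1 h2 h,
      thc_per h1 h2 (c := (c : ℕ)) (rfl : a % 3 = a % 3) (show (b + 3 * m) % 3 = b % 3 by omega),
      thc_per h1 h2 (c := (c : ℕ)) (show (a + 3 * n) % 3 = a % 3 by omega) (rfl : b % 3 = b % 3)]
    have := thc_conj h1 h2 c a b
    rw [map_mul, map_mul, map_mul, map_mul, Complex.conj_conj]
    linear_combination (K * conj K) * ((Qs x1 u a * conj (Qs x1 u (a + 3 * n))) *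
        (conj (Qs x2 (v c) b) * Qs x2 (v c) (b + 3 * m))) * this
  simp_rw [e1]
  rw [map_sum]
  simp_rw [map_sum]
  rw [Finset.mul_sum, Finset.mul_sum]
  refine Finset.sum_congr rfl fun c _ => ?_
  rw [Finset.sum_mul, Finset.mul_sum]
  refine Finset.sum_congr rfl fun a _ => ?_
  rw [Finset.mul_sum, Finset.mul_sum]

end product

/-! ### permutation of the unit classes: from `√-3` to `λ` -/

/-- `c ↦ c + 2 b` -/
def sft (b : ℕ) (c : Fin 3) : Fin 3 := ⟨(c + 2 * b) % 3, Nat.mod_lt _ (by norm_num)⟩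

lemma sft_bij (b : ℕ) : Function.Bijective (sft b) := by
  rw [Fintype.bijective_iff_injective_and_card]
  refine ⟨fun c d h => ?_, rfl⟩
  unfold sft at h
  rw [Fin.mk.injEq] at h
  ext
  have hc := c.2
  have hd := d.2
  omega

lemma sum_sft (b : ℕ) (f : Fin 3 → ℂ) : ∑ c, f (sft b c) = ∑ c, f c :=
  (Function.Bijective.sum_comp (sft_bij b) f)

lemma sft_add (b n : ℕ) (c : Fin 3) : sft (b + 3 * n) c = sft b c := by
  unfold sft
  rw [Fin.mk.injEq]
  omega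

/-- the autocorrelation does not see the shift of the unit classes. -/
theorem auto_sft {v v' : Fin 3 → ℕ → ℂ} (h : ∀ c b, v c b = v' (sft b c) b) (x : ℂ) (B m : ℕ) :
    ∑ c : Fin 3, ∑ b ∈ Finset.range B, Qs x (v c) b * conj (Qs x (v c) (b + 3 * m)) =
      ∑ c : Fin 3, ∑ b ∈ Finset.range B, Qs x (v' c) b * conj (Qs x (v' c) (b + 3 * m)) := by
  have hQ : ∀ c b, Qs x (v c) b = Qs x (v' (sft b c)) b := by
    intro c b
    unfold Qs
    rw [h]
    by_cases hb : 6 ≤ b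
    · rw [if_pos hb, if_pos hb, h]
      have : sft (b - 6) c = sft b c := by
        have := sft_add (b - 6) 2 c
        rw [show b - 6 + 3 * 2 = b by omega] at this
        exact this.symm
      rw [this]
    · rw [if_neg hb, if_neg hb]
  rw [Finset.sum_comm, Finset.sum_comm (s := Finset.univ)]
  refine Finset.sum_congr rfl fun b _ => ?_
  rw [← sum_sft b (fun c => Qs x (v' c) b * conj (Qs x (v' c) (b + 3 * m)))]
  refine Finset.sum_congr rfl fun c _ => ?_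
  rw [hQ, hQ, sft_add]

end Crest.Agent.R017.NH499
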