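import Crest.Agent.R017.NH1_499
import Crest.Agent.R017.NormG_358
import Crest.Agent.R017.GG8_90

/-!
# Row 17 (A, norm): the lag identities of a product table (helper499)

* `ACu`, `ACv` : autocorrelations of the factors
* `lags_of_prod` : `Norm358.Lags` for a product table
* `per_u`, `per_v` : the periodicity of the factors
* `const_K` : the constant
-/

set_option autoImplicit false

noncomputable section

open Complex
open scoped ComplexConjugate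

namespace Crest.Agent.R017.NH499

open Crest.Agent.R012 Crest.Agent.R012.Eis Crest.Agent.R012.Gauss880 Crest.Agent.R017.Loc266
open Crest.Agent.R017.Sx440 Crest.Agent.R017.Glue681 Crest.Agent.R017.Rw266
open Crest.Agent.R017.Cond499 Crest.Agent.R012.Parseval499
open Crest.Agent.R017.Norm358 (Eg Lags)

/-- autocorrelation of the factor at `2` -/
def ACu (X : ℂ) (p K2 : ℝ) (A : ℕ) (u : ℕ → ℂ) : Prop :=
  ∀ n : ℕ, ∑ a ∈ Finset.range A, Qs X u a * conj (Qs X u (a + 3 * n)) = (K2 : ℂ) * Eg X p n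

/-- autocorrelation of the factor at `√-3` -/
def ACv (X : ℂ) (p Kl : ℝ) (B : ℕ) (v : Fin 3 → ℕ → ℂ) : Prop :=
  ∀ m : ℕ, ∑ c : Fin 3, ∑ b ∈ Finset.range B, Qs X (v c) b * conj (Qs X (v c) (b + 3 * m)) =
    (Kl : ℂ) * Eg X p m

lemma qs_eq (x : ℂ) (u : ℕ → ℂ) (a : ℕ) : Qs x u a = GG90.Qs x u a := by
  unfold Qs GG90.Qs
  split_ifs <;> ring

/-- **the lag identities of a product table** -/
theorem lags_of_prod {t : Fin 3 → ℕ → ℕ → ℂ} {K : ℂ} {u : ℕ → ℂ} {v : Fin 3 → ℕ → ℂ} {t1 t2 : ℂ}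
    (h1 : t1 ^ 3 = 1) (h2 : t2 ^ 3 = 1) (h : PT t K u v t1 t2) {X2 Xl : ℂ} {p2 pl K2 Kl : ℝ}
    {A B : ℕ} (hu : ACu X2 p2 K2 A u) (hv : ACv Xl pl Kl B v) (hK : ‖K‖ ^ 2 * (K2 * Kl) = 1) :
    Lags A B X2 Xl p2 pl (qT X2 Xl t) := by
  have hKK : (K * conj K) * ((K2 : ℂ) * Kl) = 1 := by
    rw [Complex.mul_conj, Complex.normSq_eq_norm_sq]
    exact_mod_cast hK
  constructor
  · intro n m
    rw [auto_h1 h1 h2 h, hu n, hv m]
    linear_combination (Eg X2 p2 n * Eg Xl pl m) * hKK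
  · intro n m
    rw [auto_h2 h1 h2 h, hu n, hv m, map_mul, Complex.conj_ofReal]
    linear_combination (Eg X2 p2 n * conj (Eg Xl pl m)) * hKK

section per

variable {t : Fin 3 → ℕ → ℕ → ℂ} {K : ℂ} {u : ℕ → ℂ} {v : Fin 3 → ℕ → ℂ} {t1 t2 : ℂ}

lemma thc_ne (h1 : t1 ^ 3 = 1) (h2 : t2 ^ 3 = 1) (c a b : ℕ) : thc t1 t2 c a b ≠ 0 := by
  intro h
  have := thc_conj h1 h2 c a b
  rw [h, zero_mul] at this
  exact zero_ne_one this

lemma per_u (h1 : t1 ^ 3 = 1) (h2 : t2 ^ 3 = 1) (h : PT t K u v t1 t2) (hK : K ≠ 0)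
    (hv : ∃ c b, v c b ≠ 0) {X : ℂ} {r : ℕ}
    (ht : ∀ c a b, r ≤ a → t c (a + 6) b = X * t c a b) : ∀ a, r ≤ a → u (a + 6) = X * u a := by
  obtain ⟨c, b, hcb⟩ := hv
  intro a ha
  have key := ht c a b ha
  rw [h, h, thc_per h1 h2 (c := (c : ℕ)) (show (a + 6) % 3 = a % 3 by omega)
    (rfl : b % 3 = b % 3)] at key
  have h3 := thc_ne h1 h2 c a b
  have h4 : K * v c b * thc t1 t2 c a b ≠ 0 := mul_ne_zero (mul_ne_zero hK hcb) h3
  refine mul_left_cancel₀ h4 ?_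
  linear_combination key

lemma per_v (h1 : t1 ^ 3 = 1) (h2 : t2 ^ 3 = 1) (h : PT t K u v t1 t2) (hK : K ≠ 0)
    (hu : ∃ a, u a ≠ 0) {X : ℂ} {r : ℕ}
    (ht : ∀ c a b, r ≤ b → t c a (b + 6) = X * t c a b) :
    ∀ c b, r ≤ b → v c (b + 6) = X * v c b := by
  obtain ⟨a, ha0⟩ := hu
  intro c b hb
  have key := ht c a b hb
  rw [h, h, thc_per h1 h2 (c := (c : ℕ)) (rfl : a % 3 = a % 3)
    (show (b + 6) % 3 = b % 3 by omega)] at key
  have h3 := thc_ne h1 h2 c a b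
  have h4 : K * u a * thc t1 t2 c a b ≠ 0 := mul_ne_zero (mul_ne_zero hK ha0) h3
  refine mul_left_cancel₀ h4 ?_
  linear_combination key

end per

/-! ### the constant -/

/-- **the constant** -/
theorem const_K {N A m t0 m1 : Eis} {r2 rl s2 sl : ℕ} {w0 : ℂ}
    (hN : N = (2 : Eis) ^ r2 * (sq3 ^ rl * A)) (hm : nm m = 4 ^ s2 * 3 ^ sl * nm m1)
    (hA : nm A = nm m1 * nm t0) (hm1 : nm m1 ≠ 0) (hw : ‖w0‖ ^ 2 * (108 * (nm m : ℝ)) = 1) :
    ‖w0 * (covol (toC N) : ℂ)‖ ^ 2 =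
      ((nm t0 : ℝ) ^ 2 * nm m1) * ((16 : ℝ) ^ r2 / (4 * 4 ^ s2) * (9 ^ rl / (36 * 3 ^ sl))) := by
  have hn : (nm N : ℝ) = 4 ^ r2 * 3 ^ rl * (nm m1 * nm t0) := by
    have h2 : nm (2 : Eis) = 4 := by decide
    have h3 : nm sq3 = 3 := by decide
    rw [hN, nm_mul, nm_mul, nm_pow, nm_pow, h2, h3, hA]
    push_cast
    ring
  have hc : covol (toC N) = (nm N : ℝ) * (Real.sqrt 3 / 2) := by
    unfold covol
    rw [norm_toC_sq]
  have hs : Real.sqrt 3 ^ 2 = 3 := Real.sq_sqrt (by norm_num)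
  have hm' : (nm m : ℝ) = 4 ^ s2 * 3 ^ sl * nm m1 := by exact_mod_cast hm
  have hm1' : (nm m1 : ℝ) ≠ 0 := by exact_mod_cast hm1
  rw [hm'] at hw
  rw [norm_mul, mul_pow, Complex.norm_real, Real.norm_eq_abs, sq_abs, hc, hn]
  have h4 : (4 : ℝ) ^ s2 ≠ 0 := by positivity
  have h3 : (3 : ℝ) ^ sl ≠ 0 := by positivity
  have h16 : (16 : ℝ) ^ r2 = 4 ^ r2 * 4 ^ r2 := by rw [← mul_pow]; norm_num
  have h9 : (9 : ℝ) ^ rl = 3 ^ rl * 3 ^ rl := by rw [← mul_pow]; norm_num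
  rw [h16, h9]
  have hw' : ‖w0‖ ^ 2 = 1 / (108 * (4 ^ s2 * 3 ^ sl * (nm m1 : ℝ))) := by
    field_simp
    linarith [hw]
  rw [hw']
  field_simp
  rw [hs]
  ring

end Crest.Agent.R017.NH499
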