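import Crest.Agent.R017.NH2_499
import Crest.Agent.R017.FinA5_266
import Crest.Agent.R017.GG9_90
import Crest.Agent.R017.GLs_74

/-!
# Row 17 (A, norm): the data of the level for the lag identities (helper499)

* `lvl3` : the three idempotents with the given `e`
* `sq3_cases` : the exact level of `ψ` at `√-3`
* `exists_beta`, `kap_unit` : the additive characters
* `nm_m`, `xi_two`, `xi_lam` : the conductor of `ξ`
* `norm_K` : the block of the pure primes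
-/

set_option autoImplicit false

noncomputable section

open Complex
open scoped ComplexConjugate

namespace Crest.Agent.R017.NH499

open Crest.Agent.R012 Crest.Agent.R012.Eis Crest.Agent.R012.Gauss880 Crest.Agent.R017.Loc266
open Crest.Agent.R017.Sx440 Crest.Agent.R017.Glue681 Crest.Agent.R017.Rw266
open Crest.Agent.R017.Cond499 Crest.Agent.R012.Parseval499 Crest.Agent.R017.GG90
open Crest.Agent.R017.GLs74 Crest.Agent.R017.GLm74 Crest.Agent.R017.GLn74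
open Crest.Agent.R017.LamP64 Crest.Agent.R017.FinA266

section lev

variable {M A x e m1 R0 m : Eis} {ψ0 ψ ξ : Eis → ℂ} {r t : ℕ} {c : ℂ}
variable (D : DatA M ψ0 r t A e ψ m1 R0 m ξ c)
include D

lemma cop2A : IsCoprime (2 : Eis) A := (prime_two.irreducible.coprime_iff_not_dvd).mpr D.lv.A2

lemma cop3A : IsCoprime sq3 A := (prime_sq3.irreducible.coprime_iff_not_dvd).mpr D.lv.A3

lemma cop23 : IsCoprime (2 : Eis) sq3 :=
  (prime_two.irreducible.coprime_iff_not_dvd).mpr od_sq3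

lemma N0 : lvN r t A ≠ 0 := D.lv.lev.ne

/-- the three idempotents -/
theorem lvl3 : ∃ e₁ e₂, Lvl3 (lvN r t A) (2 ^ r) (sq3 ^ t) A e₁ e₂ e := by
  have hr := D.lv.r4
  have ht := D.lv.t5
  have h12 : IsCoprime ((2 : Eis) ^ r) (sq3 ^ t) := (cop23 D).pow
  have h13 : IsCoprime ((2 : Eis) ^ r) A := (cop2A D).pow_left
  have h23 : IsCoprime (sq3 ^ t) A := (cop3A D).pow_left
  have hA1 : (2 : Eis) ^ r ≠ 0 := pow_ne_zero _ two_ne_zero'
  have hA2 : sq3 ^ t ≠ 0 := sq3_pow_ne t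
  have hA3 := D.lv.A0
  have h8 : (8 : Eis) ∣ 2 ^ r := by
    have : (8 : Eis) = 2 ^ 3 := by norm_num
    rw [this]; exact pow_dvd_pow 2 (by omega)
  have h9 : (9 : Eis) ∣ sq3 ^ t := by
    rw [← sq3_pow_four]; exact pow_dvd_pow sq3 (by omega)
  obtain ⟨e₁, b1⟩ := exists_blk hA1 (mul_ne_zero hA2 hA3) (h12.mul_right h13)
  have hb := D.lvl.toBlk
  have hN : (2 : Eis) ^ r * sq3 ^ t * A = lvN r t A := rfl
  have f0 : (2 : Eis) ^ r * sq3 ^ t ∣ e := hb.e0
  have b2 : Blk (sq3 ^ t) ((2 : Eis) ^ r * A) (1 - e₁ - e) := by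
    refine ⟨hA2, mul_ne_zero hA1 hA3, ?_, ?_⟩
    · rw [show 1 - e₁ - e - 1 = -(e₁ + e) by ring, dvd_neg]
      exact dvd_add ((dvd_mul_right _ _).trans b1.e0) ((dvd_mul_left _ _).trans f0)
    · refine h13.mul_dvd ?_ ?_
      · rw [show 1 - e₁ - e = -((e₁ - 1) + e) by ring, dvd_neg]
        exact dvd_add b1.e1 ((dvd_mul_right _ _).trans f0)
      · rw [show 1 - e₁ - e = -((e - 1) + e₁) by ring, dvd_neg]
        exact dvd_add hb.e1 ((dvd_mul_left _ _).trans b1.e0)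
  refine ⟨e₁, 1 - e₁ - e, {
    hN := hN
    h1 := { toBlk := b1, lev := ?_, d8 := Or.inl h8, d9 := Or.inr (h9.mul_right _) }
    h2 := { toBlk := b2, lev := ?_, d8 := Or.inr (h8.mul_right _), d9 := Or.inl h9 }
    h3 := { toBlk := hb, lev := ?_, d8 := Or.inr (h8.mul_right _), d9 := Or.inr (h9.mul_left _) }
    sum := by ring }⟩
  · rw [← mul_assoc, hN]; exact D.lv.lev
  · rw [show sq3 ^ t * ((2 : Eis) ^ r * A) = lvN r t A by unfold lvN; ring]; exact D.lv.lev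
  · rw [show A * ((2 : Eis) ^ r * sq3 ^ t) = lvN r t A by unfold lvN; ring]; exact D.lv.lev

lemma eq2 : (2 : Eis) ^ r * (sq3 ^ t * A) = lvN r t A := by unfold lvN; ring

lemma eq3 : sq3 ^ t * ((2 : Eis) ^ r * A) = lvN r t A := by unfold lvN; ring

lemma ch2 : IsCh ((2 : Eis) ^ r * (sq3 ^ t * A)) ψ := by rw [eq2 D]; exact D.ch

lemma ch3 : IsCh (sq3 ^ t * ((2 : Eis) ^ r * A)) ψ := by rw [eq3 D]; exact D.ch

/-- **the exact level at `√-3`** -/
theorem sq3_cases : ∃ cl, Lvx (sq3 ^ t * ((2 : Eis) ^ r * A)) ((2 : Eis) ^ r * A) sq3 t cl ψ ∧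
    ((cl ≤ 4 ∧ t = 5) ∨ (cl = t)) := by
  obtain ⟨cl, hcl⟩ := exists_lvx (p := sq3) (r := t) (ch3 D)
  refine ⟨cl, hcl, ?_⟩
  have h1 := hcl.le
  by_cases h5 : t = 5
  · by_cases h4 : cl ≤ 4
    · exact Or.inl ⟨h4, h5⟩
    · right; omega
  · right
    by_contra hne
    obtain ⟨z, hz, hd, hψ⟩ := D.lv.ex3' D.row h5
    apply hψ
    have h2 : FL (sq3 ^ t * ((2 : Eis) ^ r * A)) (sq3 ^ (t - 1) * ((2 : Eis) ^ r * A)) ψ :=
      hcl.fl.mono (mul_dvd_mul_right (pow_dvd_pow sq3 (by omega)) _)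
    refine h2 z (by rw [eq3 D]; exact hz) ?_
    rw [show sq3 ^ (t - 1) * ((2 : Eis) ^ r * A) = lvN r (t - 1) A by unfold lvN; ring]
    exact hd

/-- the norm of the conductor of `ξ` -/
theorem nm_m {s2 sl : ℕ}
    (L2 : Lvx (lvN r t A) (sq3 ^ t * A) 2 r s2 (fun z => ψ z ^ 6))
    (Ll : Lvx (lvN r t A) ((2 : Eis) ^ r * A) sq3 t sl (fun z => ψ z ^ 6)) :
    nm m = 4 ^ s2 * 3 ^ sl * nm m1 := by
  refine nm_xi (eq2 D).symm D.lv.lev.ne D.lv.A2 D.lv.A3 D.ch D.xi.mN D.xi.ch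
    (prm_of_prp D.xi.m0 D.xi.prp) (fun a ha => D.xi_six ha) L2 Ll D.cnd

/-- `ξ` is ramified at `p` if `ψ^6` is -/
lemma xi_ram {p B : Eis} (hp : Prime p) {k s : ℕ} (hN : p ^ k * B = lvN r t A)
    (L : Lvx (lvN r t A) B p k s (fun z => ψ z ^ 6)) (hs : s ≠ 0) : ξ p = 0 := by
  have hpm : p ∣ m := by
    by_contra hpm
    apply L.nfl hs
    have hcop : IsCoprime m (p ^ k) :=
      (((hp.irreducible.coprime_iff_not_dvd).mpr hpm).symm).pow_right
    have hmB : m ∣ B := by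
      have h1 : m ∣ p ^ k * B := by rw [hN]; exact D.xi.mN
      exact hcop.dvd_of_dvd_mul_left h1
    intro z hz hd
    beta_reduce
    rw [← D.xi_six hz, D.xi.ch.per.congr ((hmB.mul_left _).trans hd), D.xi.ch.one]
  refine D.xi.ch.zero p (fun h => ?_)
  have h3 : IsCoprime p p := IsCoprime.of_isCoprime_of_dvd_right h hpm
  exact hp.not_isUnit (isCoprime_self.mp h3)

lemma xi_two {s2 : ℕ} (L2 : Lvx (lvN r t A) (sq3 ^ t * A) 2 r s2 (fun z => ψ z ^ 6))
    (hs : s2 ≠ 0) : ξ 2 = 0 := xi_ram D prime_two (eq2 D) L2 hs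

lemma xi_lam {sl : ℕ} (Ll : Lvx (lvN r t A) ((2 : Eis) ^ r * A) sq3 t sl (fun z => ψ z ^ 6))
    (hs : sl ≠ 0) : ξ lam = 0 := by
  have h := xi_ram D prime_sq3 (eq3 D) Ll hs
  have h2 : ξ sq3 = ξ lam := by
    rw [sq3_eq_lam, D.xi.ch.mul, D.xi.u w Eis.isUnit_w, one_mul]
  rw [← h2, h]

/-- **the block of the pure primes** -/
theorem norm_K (hx : IsCoprime x (lvN r t A)) :
    ‖SL (lvN r t A) A e x ψ gk R0‖ ^ 2 = (nm R0 : ℝ) ^ 2 * nm m1 := by
  have hxA : IsCoprime x A := IsCoprime.of_isCoprime_of_dvd_right hx D.A_dvd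
  have h := (pure_block_min D.lvl D.B8 D.B9 D.ch' gam4_gk hxA D.pu D.per D.min D.fac).2 1
    (SU.of_isUnit isUnit_one) isCoprime_one_left
  rw [lvN_eq, mul_one] at h
  exact h

lemma wt_gk : Wt gk := Or.inr rfl

lemma od_x (hx : IsCoprime x (lvN r t A)) : Od x := od_of_cop_lev D.lv.lev hx

lemma not_sq3_dvd_x (hx : IsCoprime x (lvN r t A)) : ¬ sq3 ∣ x := by
  intro h
  have h1 : sq3 ∣ lvN r t A := by
    unfold lvN
    have := D.lv.t5
    exact (((dvd_pow_self sq3 (by omega : t ≠ 0)).mul_left _).mul_right _)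
  have h3 : IsCoprime sq3 sq3 := IsCoprime.of_isCoprime_of_dvd_left
    (IsCoprime.of_isCoprime_of_dvd_right hx h1) h
  exact prime_sq3.not_isUnit (isCoprime_self.mp h3)

end lev

end Crest.Agent.R017.NH499
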