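import Crest.Agent.R017.NH3_499

/-!
# Row 17 (A, norm): the lag identities from the factorisation (helper499)

* `lags_of` : `Lags` from a factorisation of the weights and the autocorrelation at `√-3`
-/

set_option autoImplicit false

noncomputable section

open Complex
open scoped ComplexConjugate

namespace Crest.Agent.R017.NH499

open Crest.Agent.R012 Crest.Agent.R012.Eis Crest.Agent.R012.Gauss880 Crest.Agent.R017.Loc266
open Crest.Agent.R017.Sx440 Crest.Agent.R017.Glue681 Crest.Agent.R017.Rw266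
open Crest.Agent.R017.Cond499 Crest.Agent.R012.Parseval499 Crest.Agent.R017.GG90
open Crest.Agent.R017.GLs74 Crest.Agent.R017.GLm74 Crest.Agent.R017.GLn74
open Crest.Agent.R017.LamP64 Crest.Agent.R017.FinA266
open Crest.Agent.R017.Norm358 (Eg Lags)

variable {M A x e m1 R0 m : Eis} {ψ0 ψ ξ : Eis → ℂ} {r t : ℕ} {c : ℂ}

lemma eg_zero_zero (p : ℝ) : Eg 0 p 0 = 1 := by
  unfold Eg
  rw [if_pos rfl]; simp

/-- **the lag identities** -/
theorem lags_of (D : DatA M ψ0 r t A e ψ m1 R0 m ξ c) (hx : IsCoprime x (lvN r t A)) {s : ℂ}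
    {e₁ e₂ : Eis} (H : Lvl3 (lvN r t A) (2 ^ r) (sq3 ^ t) A e₁ e₂ e) {sl : ℕ}
    (Ll : Lvx (lvN r t A) ((2 : Eis) ^ r * A) sq3 t sl (fun z => ψ z ^ 6))
    {K t1 t2 cu gu : ℂ} {u : ℕ → ℂ} {v : Fin 3 → ℕ → ℂ} (h1 : t1 ^ 3 = 1) (h2 : t2 ^ 3 = 1)
    (hF : ∀ (c : Fin 3) (a b : ℕ), WS (lvN r t A) x s (fun c => ψ c * gk c) (R0 * e3 c a b) =
      K * (u a * v c b * (t1 ^ ((c : ℕ) * a) * t2 ^ (a * b))))
    (hK : ‖K‖ = ‖SL (lvN r t A) A e x ψ gk R0‖) (hcu : ‖cu‖ = 1) (hgu : ‖gu‖ = 1)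
    (hu : ∀ a, u a = cu * gu ^ a * SL (lvN r t A) (2 ^ r) e₁ x ψ gk (2 ^ a))
    (NL : ∀ X : ℂ, (∀ (c : Fin 3) (b : ℕ), t ≤ b → v c (b + 6) = X * v c b) →
      (sl ≠ 0 → X = 0) → ACv X 3 ((9 : ℝ) ^ t / (36 * 3 ^ sl)) (t + 6) v) :
    Lags (r + 6) (t + 6) (ξ 2) (ξ lam) (nm 2) (nm lam)
      (qT (ξ 2) (ξ lam) (Vt (lvN r t A) x s (w00 m) ψ gk R0)) := by
  obtain ⟨s2, L2'⟩ := exists_lvx (p := 2) (r := r) (isCh_pow (ch2 D) (n := 6) (by norm_num))
  have hr3 : 3 ≤ r := by have := D.lv.r4; omega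
  have hxo := od_x D hx
  -- the scaling
  set W : ℂ := w00 m * (covol (toC (lvN r t A)) : ℂ) with hW
  have hNC : toC (lvN r t A) ≠ 0 := by rw [Ne, toC_eq_zero]; exact D.lv.lev.ne
  have hW0 : W ≠ 0 := by
    refine mul_ne_zero ?_ (by exact_mod_cast (covol_pos hNC).ne')
    intro h0
    have := D.w00_eq
    rw [h0, norm_zero, zero_mul] at this
    exact zero_ne_one this
  have hPT : PT (Vt (lvN r t A) x s (w00 m) ψ gk R0) (W⁻¹ * K) u v t1 t2 := by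
    intro c a b
    unfold Vt thc
    rw [hF, ← hW]
    ring
  have hKn : ‖K‖ ^ 2 = (nm R0 : ℝ) ^ 2 * nm m1 := by rw [hK]; exact norm_K D hx
  have hm10 : nm m1 ≠ 0 := by
    intro h
    have h3 : m1 = 0 := by
      by_contra h4
      exact (nm_pos.mpr h4).ne' h
    exact D.lv.A0 (by rw [D.fac, h3, zero_mul])
  have hR00 : nm R0 ≠ 0 := (nm_pos.mpr D.R0_ne).ne'
  have hK0 : K ≠ 0 := by
    rintro rfl
    rw [norm_zero] at hKn
    have h3 : (0 : ℝ) < (nm R0 : ℝ) ^ 2 * nm m1 := by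
      have h4 : (0 : ℝ) < nm R0 := by exact_mod_cast Nat.pos_of_ne_zero hR00
      have h5 : (0 : ℝ) < nm m1 := by exact_mod_cast Nat.pos_of_ne_zero hm10
      positivity
    rw [← hKn] at h3
    norm_num at h3
  have hK' : W⁻¹ * K ≠ 0 := mul_ne_zero (inv_ne_zero hW0) hK0
  -- the factor at `2`
  have hH1 : Lvl (2 ^ r) (sq3 ^ t * A) e₁ := H.h1
  have hu' : ∀ a, u a = cu * gu ^ a *
      SL (2 ^ r * (sq3 ^ t * A)) (2 ^ r) e₁ x ψ gk (2 ^ a) := by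
    intro a
    rw [eq2 D]; exact hu a
  have L2 : Lvx (lvN r t A) (sq3 ^ t * A) 2 r s2 (fun z => ψ z ^ 6) := by
    rw [← eq2 D]; exact L2'
  have hX2 : s2 ≠ 0 → ξ 2 = 0 := xi_two D L2
  have hXl : sl ≠ 0 → ξ lam = 0 := xi_lam D Ll
  have key2 : ∀ {X : ℂ}, (∀ a, r ≤ a → u (a + 6) = X * u a) → (s2 ≠ 0 → X = 0) →
      ACu X 4 ((16 : ℝ) ^ r / 4 ^ (s2 + 1)) (r + 6) u := by
    intro X hX hX0 n
    obtain ⟨-, h4⟩ := N2_Eg hH1 hr3 (ch2 D) (wt_gk D) hxo L2' hcu hgu hu' hX hX0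
    have h5 := h4 (r + 6) le_rfl n
    have e4 : ∀ a, Qs X u a = GG90.Qs X u a := fun a => qs_eq X u a
    simp only [e4]
    rw [h5]
    unfold Eg
    push_cast
    rfl
  have hune : ∃ a, u a ≠ 0 := by
    by_contra hcon
    push Not at hcon
    have h4 := key2 (X := 0) (fun a _ => by rw [hcon, zero_mul]) (fun _ => rfl) 0
    have e5 : ∀ a, Qs 0 u a = 0 := by
      intro a; unfold Qs; rw [hcon, zero_mul, sub_zero]
    simp only [e5, zero_mul, Finset.sum_const_zero] at h4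
    rw [eg_zero_zero, mul_one] at h4
    have h5 : ((16 : ℝ) ^ r / 4 ^ (s2 + 1)) ≠ 0 := by positivity
    exact h5 (by exact_mod_cast h4.symm)
  -- the factor at `√-3`
  have keyl := @NL
  have hvne : ∃ c b, v c b ≠ 0 := by
    by_contra hcon
    push Not at hcon
    have h4 := keyl 0 (fun c b _ => by rw [hcon, hcon, zero_mul]) (fun _ => rfl) 0
    have e5 : ∀ c b, Qs 0 (v c) b = 0 := by
      intro c b; unfold Qs; rw [hcon, zero_mul, sub_zero]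
    simp only [e5, zero_mul, Finset.sum_const_zero] at h4
    rw [eg_zero_zero, mul_one] at h4
    have h5 : ((9 : ℝ) ^ t / (36 * 3 ^ sl)) ≠ 0 := by positivity
    exact h5 (by exact_mod_cast h4.symm)
  -- periodicity
  have hXu : ∀ a, r ≤ a → u (a + 6) = ξ 2 * u a := per_u h1 h2 hPT hK' hvne
    (fun c a b ha => Vt_two D.lv.lev D.ch D.gm D.xi D.rr D.lvl2 c ha b)
  have hXv : ∀ c b, t ≤ b → v c (b + 6) = ξ lam * v c b := per_v h1 h2 hPT hK' hune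
    (fun c a b hb => Vt_lam D.lv.lev D.ch D.gm D.xi D.rr D.lvl2 c a hb)
  have hAu := key2 hXu hX2
  have hAv := keyl _ hXv hXl
  have n2 : ((nm 2 : ℕ) : ℝ) = 4 := by
    have : nm (2 : Eis) = 4 := by decide
    rw [this]; norm_num
  have nl : ((nm lam : ℕ) : ℝ) = 3 := by
    have : nm lam = 3 := by decide
    rw [this]; norm_num
  rw [n2, nl]
  refine lags_of_prod h1 h2 hPT hAu hAv ?_
  -- the constant
  have hA : nm A = nm m1 * nm R0 := by rw [D.fac, nm_mul]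
  have hw : ‖w00 m‖ ^ 2 * (108 * (nm m : ℝ)) = 1 := by
    have h3 := D.w00_eq
    have h4 : ‖toC sq3 * toC m‖ ^ 2 = 3 * (nm m : ℝ) := by
      rw [norm_mul, mul_pow, norm_toC_sq, norm_toC_sq]
      have : nm sq3 = 3 := by decide
      rw [this]; norm_num
    have h5 : (‖w00 m‖ * (6 * ‖toC sq3 * toC m‖)) ^ 2 = 1 := by rw [h3]; norm_num
    rw [mul_pow, mul_pow, h4] at h5
    linarith [h5]
  have hc := const_K (w0 := w00 m) (eq2 D).symm (nm_m D L2 Ll) hA hm10 hw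
  have hWn : ‖W‖ ^ 2 ≠ 0 := pow_ne_zero 2 (norm_ne_zero_iff.mpr hW0)
  rw [norm_mul, mul_pow, norm_inv, _root_.inv_pow, hKn]
  rw [← hW] at hc
  have e7 : (16 : ℝ) ^ r / 4 ^ (s2 + 1) = 16 ^ r / (4 * 4 ^ s2) := by rw [pow_succ]; ring_nf
  rw [e7, mul_assoc, ← hc]
  exact inv_mul_cancel₀ hWn

end Crest.Agent.R017.NH499
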