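import Crest.Agent.R017.NH4_499
import Crest.Agent.R017.NF6_64

/-!
# Row 17 (A, norm): `LagsD` from the factorisation and the autocorrelation at `√-3` (helper499)
-/

set_option autoImplicit false

noncomputable section

open Complex
open scoped ComplexConjugate

namespace Crest.Agent.R017.NH499

open Crest.Agent.R012 Crest.Agent.R012.Eis Crest.Agent.R012.Gauss880 Crest.Agent.R017.Loc266
open Crest.Agent.R017.Sx440 Crest.Agent.R017.Glue681 Crest.Agent.R017.Rw266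
open Crest.Agent.R017.Cond499 Crest.Agent.R012.Parseval499 Crest.Agent.R017.GG90
open Crest.Agent.R017.GLs74 Crest.Agent.R017.GLm74 Crest.Agent.R017.GLn74
open Crest.Agent.R017.LamP64 Crest.Agent.R017.FinA266
open Crest.Agent.R017.Norm358 (Eg Lags)
open Crest.Agent.R017.NF64 (Stg vv fact)

variable {M A x e m1 R0 m : Eis} {ψ0 ψ ξ : Eis → ℂ} {r t : ℕ} {c : ℂ}

/-- 64's data -/
lemma stg (D : DatA M ψ0 r t A e ψ m1 R0 m ξ c) {j : ℕ} (hj : t = j + 4) {e₁ e₂ : Eis}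
    (H : Lvl3 (lvN r t A) (2 ^ r) (sq3 ^ t) A e₁ e₂ e) :
    Stg (lvN r t A) (2 ^ r) A e₁ e₂ e j ψ gk R0 where
  H := by subst hj; exact H
  h8 := by
    have : (8 : Eis) = 2 ^ 3 := by norm_num
    rw [this]
    have := D.lv.r4
    exact pow_dvd_pow 2 (by omega)
  ch := D.ch
  gam := gam4_gk
  gd := ⟨D.prim, D.rr.n2⟩
  su _ _ hd := hd.trans D.R0_dvd

/-- **(Nl)**: the autocorrelation at `√-3`, in the literal form used. -/
def NlQ (N e₂ x : Eis) (ψ : Eis → ℂ) (j sl : ℕ) : Prop :=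
  ∀ Bw Bs σ : ℂ, Bw ^ 3 = 1 → ‖Bs‖ = 1 → (σ = 1 ∨ σ = -1) → ∀ X : ℂ,
    (∀ (c : Fin 3) (b : ℕ), j + 4 ≤ b → vv N e₂ x ψ gk j Bw Bs σ c (b + 6) =
      X * vv N e₂ x ψ gk j Bw Bs σ c b) → (sl ≠ 0 → X = 0) →
    ACv X 3 ((9 : ℝ) ^ (j + 4) / (36 * 3 ^ sl)) (j + 10)
      (fun (c : Fin 3) b => vv N e₂ x ψ gk j Bw Bs σ c b)

/-- **the lag identities** from (Nl) -/
theorem lags_of_nl (D : DatA M ψ0 r t A e ψ m1 R0 m ξ c) (hx : IsCoprime x (lvN r t A)) {s : ℂ}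
    (hs : s = 1 ∨ s = -1) {j : ℕ} (hj : t = j + 4) {e₁ e₂ : Eis}
    (H : Lvl3 (lvN r t A) (2 ^ r) (sq3 ^ t) A e₁ e₂ e) {sl : ℕ}
    (Ll : Lvx (lvN r t A) ((2 : Eis) ^ r * A) sq3 t sl (fun z => ψ z ^ 6))
    (NL : NlQ (lvN r t A) e₂ x ψ j sl) :
    Lags (r + 6) (t + 6) (ξ 2) (ξ lam) (nm 2) (nm lam)
      (qT (ξ 2) (ξ lam) (Vt (lvN r t A) x s (w00 m) ψ gk R0)) := by
  obtain ⟨c', g, t1, Bw, Bs, σ, hc, hg, h1, hBw, hBs, hσ, hF⟩ := fact (x := x) (stg D hj H) hs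
  have h2 : (t1 ^ 2) ^ 3 = 1 := by rw [← pow_mul, mul_comm, pow_mul, h1, one_pow]
  refine lags_of D hx H Ll (K := SL (lvN r t A) A e x ψ gk R0)
    (u := fun a => c' * g ^ a * SL (lvN r t A) (2 ^ r) e₁ x ψ gk (2 ^ a))
    (v := fun (c : Fin 3) b => vv (lvN r t A) e₂ x ψ gk j Bw Bs σ c b) h1 h2
    (fun c a b => hF c a b) rfl hc hg (fun a => rfl) (fun X hX hX0 => ?_)
  subst hj
  exact NL Bw Bs σ hBw hBs hσ X hX hX0

end Crest.Agent.R017.NH499
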