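import Crest.Agent.R017.NH5_499
import Crest.Agent.R017.FinA6_266

/-!
# Row 17 (A, norm): `LagsD` (helper499)
-/

set_option autoImplicit false

noncomputable section

open Complex
open scoped ComplexConjugate

namespace Crest.Agent.R017.NH499

open Crest.Agent.R012 Crest.Agent.R012.Eis Crest.Agent.R012.Gauss880 Crest.Agent.R017.Loc266
open Crest.Agent.R017.Sx440 Crest.Agent.R017.Glue681 Crest.Agent.R017.Rw266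
open Crest.Agent.R017.Cond499 Crest.Agent.R012.Parseval499 Crest.Agent.R017.GG90
open Crest.Agent.R017.GLs74 Crest.Agent.R017.GLm74 Crest.Agent.R017.GLn74
open Crest.Agent.R017.LamP64 Crest.Agent.R017.FinA266
open Crest.Agent.R017.Norm358 (Eg Lags)
open Crest.Agent.R017.NF64 (Stg vv fact)

/-- (Nl), cubic type -/
def NlCub : Prop := ∀ {N A₁ A₃ e₁ e₂ e₃ : Eis} {j : ℕ} {ψ : Eis → ℂ} {R0 : Eis},
  Stg N A₁ A₃ e₁ e₂ e₃ j ψ gk R0 → 1 ≤ j → ∀ x : Eis, ¬ sq3 ∣ x → ∀ β : Eis,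
  (∀ y, ψ (lf e₂ (1 + sq3 ^ 2 * y)) = ea (sq3 ^ 2) β y) → NlQ N e₂ x ψ j 0

/-- (Nl), pure type -/
def NlPur : Prop := ∀ {N A₁ A₃ e₁ e₂ e₃ : Eis} {j : ℕ} {ψ : Eis → ℂ} {R0 : Eis},
  Stg N A₁ A₃ e₁ e₂ e₃ j ψ gk R0 → 1 ≤ j → ∀ x : Eis, ¬ sq3 ∣ x → ∀ κ : Eis, ¬ sq3 ∣ κ →
  (∀ y, ψ (lf e₂ (1 + sq3 ^ (j + 2) * y)) = ea (sq3 ^ 2) κ y) → NlQ N e₂ x ψ j (j + 2)

variable {M A x e m1 R0 m : Eis} {ψ0 ψ ξ : Eis → ℂ} {r t : ℕ} {c : ℂ}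

theorem lagsD_of (hC : NlCub) (hP : NlPur) (D : DatA M ψ0 r t A e ψ m1 R0 m ξ c) :
    LagsD r t A ψ R0 m ξ := by
  intro x hx s hs
  obtain ⟨e₁, e₂, H⟩ := lvl3 D
  have ht := D.lv.t5
  obtain ⟨j, hj⟩ : ∃ j, t = j + 4 := ⟨t - 4, by omega⟩
  obtain ⟨sl, hsl⟩ := D.exists_sl
  have S := stg D hj H
  have h3 := not_sq3_dvd_x D hx
  have hL : Lvl (sq3 ^ (j + 4)) ((2 : Eis) ^ r * A) e₂ := by subst hj; exact H.h2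
  refine lags_of_nl D hx hs hj H hsl ?_
  rcases D.lam hj hL hsl with ⟨rfl, β, hβ⟩ | ⟨rfl, κ, hκ, hκ2⟩
  · exact hC S (by omega) x h3 β hβ
  · exact hP S (by omega) x h3 κ hκ hκ2

end Crest.Agent.R017.NH499
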