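import Crest.Agent.R017.NL5_90
import Crest.Agent.R017.NF6_64
import Crest.Agent.R017.NH2_499

/-!
# Row 17 (A, norm): the autocorrelation at `λ`, pure type

* `exists_unit_res`, `unit_res_unique` : the six units mod `3`
* `vv_pos_zero` : `vv n b = 0` for `b ≥ 1`
* `acv_pure` : `ACv 0 p (3^{j+4}/4) B' (vv ..)`
-/

set_option autoImplicit false
set_option linter.unusedTactic false

noncomputable section

open Complex
open scoped ComplexConjugate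

namespace Crest.Agent.R017.NL90

open Crest.Agent.R012 Crest.Agent.R012.Eis Crest.Agent.R012.Gauss880 Crest.Agent.R017.Loc266
open Crest.Agent.R017.Sx440 Crest.Agent.R017.Kub664 Crest.Agent.R017.Tw266
open Crest.Agent.R017.Rw266 Crest.Agent.R017.GG90 Crest.Agent.R017.LamP64
open Crest.Agent.R017.GL64 Crest.Agent.R017.NF64 Crest.Agent.R017.NH499
open Crest.Agent.R017.Norm358 (Eg)

lemma lam_dvd_iff_sq3' (z : Eis) : lam ∣ z ↔ sq3 ∣ z := by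
  have h1 : lam = w ^ 2 * sq3 := lam_eq_w2_sq3
  have hu : IsUnit (w ^ 2) := (Crest.Agent.R012.Eis.isUnit_w).pow 2
  rw [h1]
  exact hu.mul_left_dvd

lemma unit_form {t : Eis} (ht : IsUnit t) :
    ∃ s : Eis, (s = 1 ∨ s = -1) ∧ ∃ i, i < 3 ∧ t = s * w ^ i := by
  obtain ⟨k, hk, h | h⟩ := isUnit_exists ht
  · exact ⟨1, Or.inl rfl, k, hk, by rw [h, one_mul]⟩
  · exact ⟨-1, Or.inr rfl, k, hk, by rw [h]; ring⟩

/-- the units represent all classes mod `3` prime to `λ` -/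
theorem exists_unit_res {z κ : Eis} (hz : ¬ sq3 ∣ z) (hκ : ¬ sq3 ∣ κ) :
    ∃ s : Eis, (s = 1 ∨ s = -1) ∧ ∃ i, i < 3 ∧ (3 : Eis) ∣ z * (s * w ^ i) + κ := by
  obtain ⟨u, hu⟩ := exists_unit_mul_isPrim (x := z) (fun h => hz ((lam_dvd_iff_sq3' z).mp h))
  obtain ⟨u', hu'⟩ := exists_unit_mul_isPrim (x := κ) (fun h => hκ ((lam_dvd_iff_sq3' κ).mp h))
  have ht : IsUnit (-((u : Eis) * ((u'⁻¹ : Eisˣ) : Eis))) := (u.isUnit.mul (u'⁻¹).isUnit).neg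
  obtain ⟨s, hs, i, hi, h⟩ := unit_form ht
  refine ⟨s, hs, i, hi, ?_⟩
  rw [← h]
  unfold IsPrim at hu hu'
  have h1 : ((u'⁻¹ : Eisˣ) : Eis) * (u' : Eis) = 1 := by simp
  have h2 : (3 : Eis) ∣ ((u' : Eis) * κ - 1) - ((u : Eis) * z - 1) := dvd_sub hu' hu
  have h3 : z * -((u : Eis) * ((u'⁻¹ : Eisˣ) : Eis)) + κ =
      ((u'⁻¹ : Eisˣ) : Eis) * (((u' : Eis) * κ - 1) - ((u : Eis) * z - 1)) := by
    linear_combination (-κ) * h1
  rw [h3]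
  exact h2.mul_left _

lemma w_pow_ne {i i' : ℕ} (hi : i < 3) (hi' : i' < 3) (h : w ^ i = w ^ i') : i = i' := by
  have e2 : w ^ 2 = (⟨-1, -1⟩ : Eis) := by
    rw [w_sq]; apply ext' <;> simp
  interval_cases i <;> interval_cases i' <;> first | rfl | (exfalso; revert h; rw [e2]; decide) |
    (exfalso; revert h; decide)

lemma w_pow_ne_neg {i i' : ℕ} (hi : i < 3) (hi' : i' < 3) : w ^ i ≠ -w ^ i' := by
  interval_cases i <;> interval_cases i' <;> decide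

lemma unit_form_inj {s s' : Eis} (hs : s = 1 ∨ s = -1) (hs' : s' = 1 ∨ s' = -1) {i i' : ℕ}
    (hi : i < 3) (hi' : i' < 3) (h : s * w ^ i = s' * w ^ i') : s = s' ∧ i = i' := by
  rcases hs with rfl | rfl <;> rcases hs' with rfl | rfl
  · exact ⟨rfl, w_pow_ne hi hi' (by simpa using h)⟩
  · exact absurd (by rw [one_mul, neg_one_mul] at h; exact h) (w_pow_ne_neg hi hi')
  · exact absurd (by rw [one_mul, neg_one_mul] at h; exact h.symm) (w_pow_ne_neg hi' hi)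
  · exact ⟨rfl, w_pow_ne hi hi' (by rw [neg_one_mul, neg_one_mul] at h; exact neg_injective h)⟩

/-- units congruent mod `3` are equal -/
lemma unit_eq_of_cong {t t' : Eis} (ht : IsUnit t) (ht' : IsUnit t') (h : (3 : Eis) ∣ t - t') :
    t = t' := by
  obtain ⟨u', rfl⟩ := ht'
  have h1 : IsPrim (t * ((u'⁻¹ : Eisˣ) : Eis)) := by
    unfold IsPrim
    have h2 : t * ((u'⁻¹ : Eisˣ) : Eis) - 1 = (t - u') * ((u'⁻¹ : Eisˣ) : Eis) := by
      have : (u' : Eis) * ((u'⁻¹ : Eisˣ) : Eis) = 1 := by simp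
      linear_combination this
    rw [h2]
    exact h.mul_right _
  have h3 : IsUnit (t * ((u'⁻¹ : Eisˣ) : Eis)) := ht.mul (u'⁻¹).isUnit
  have h4 : Associated (t * ((u'⁻¹ : Eisˣ) : Eis)) 1 := associated_one_iff_isUnit.mpr h3
  have h5 := h1.eq_of_associated isPrim_one h4
  have h6 : ((u'⁻¹ : Eisˣ) : Eis) * (u' : Eis) = 1 := by simp
  linear_combination (u' : Eis) * h5 - t * h6

lemma isUnit_form {s : Eis} (hs : s = 1 ∨ s = -1) (i : ℕ) : IsUnit (s * w ^ i) := by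
  refine IsUnit.mul ?_ ((Crest.Agent.R012.Eis.isUnit_w).pow i)
  rcases hs with rfl | rfl
  · exact isUnit_one
  · exact isUnit_one.neg

theorem unit_res_unique {z κ : Eis} (hz : ¬ sq3 ∣ z) {s s' : Eis} (hs : s = 1 ∨ s = -1)
    (hs' : s' = 1 ∨ s' = -1) {i i' : ℕ} (hi : i < 3) (hi' : i' < 3)
    (h : (3 : Eis) ∣ z * (s * w ^ i) + κ) (h' : (3 : Eis) ∣ z * (s' * w ^ i') + κ) :
    s = s' ∧ i = i' := by
  refine unit_form_inj hs hs' hi hi' (unit_eq_of_cong (isUnit_form hs i) (isUnit_form hs' i') ?_)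
  have h1 := dvd_sub h h'
  rw [show z * (s * w ^ i) + κ - (z * (s' * w ^ i') + κ) = z * (s * w ^ i - s' * w ^ i') by ring]
    at h1
  have hc : IsCoprime (3 : Eis) z := by
    have h2 : IsCoprime sq3 z := prime_sq3.irreducible.coprime_iff_not_dvd.mpr hz
    have h3 : (3 : Eis) = -sq3 ^ 2 := by decide
    rw [h3]
    exact (h2.pow_left).neg_left
  exact hc.dvd_of_dvd_mul_left h1

section main

variable {N A₁ A₃ e₁ e₂ e₃ x R0 κ : Eis} {ψ γ : Eis → ℂ} {j : ℕ} {Bw Bs σ : ℂ}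

/-- nothing at `b ≥ 1` -/
theorem vv_pos_zero (S : Stg N A₁ A₃ e₁ e₂ e₃ j ψ γ R0) (hj : 1 ≤ j)
    (hκ : ∀ y, ψ (lf e₂ (1 + sq3 ^ (j + 2) * y)) = ea (sq3 ^ 2) κ y) (hp : ¬ sq3 ∣ κ)
    (n : ℕ) {b : ℕ} (hb : 1 ≤ b) : vv N e₂ x ψ γ j Bw Bs σ n b = 0 := by
  have hch : IsCh (sq3 ^ (j + 4) * (A₁ * A₃)) ψ := by rw [S.n2]; exact S.ch
  have z1 := SL3_pure_zero S.H.h2 hj hch S.gam (x := x) hκ hp (s := 1) (Or.inl rfl) (n + 2 * b) hb
  have z2 := SL3_pure_zero S.H.h2 hj hch S.gam (x := x) hκ hp (s := -1) (Or.inr rfl) (n + 2 * b) hb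
  rw [S.n2] at z1 z2
  unfold vv
  rw [z1, z2]
  ring

/-- exactly one unit class at `b = 0` -/
theorem vv_zero_sq (S : Stg N A₁ A₃ e₁ e₂ e₃ j ψ γ R0) (hj : 1 ≤ j)
    (hκ : ∀ y, ψ (lf e₂ (1 + sq3 ^ (j + 2) * y)) = ea (sq3 ^ 2) κ y) (hp : ¬ sq3 ∣ κ)
    (hx : ¬ sq3 ∣ x) (hB : Bw ^ 3 = 1) (hσ : σ = 1 ∨ σ = -1) :
    ∃ n₀ : Fin 3, ∀ n : Fin 3, vv N e₂ x ψ γ j Bw Bs σ n 0 * conj (vv N e₂ x ψ γ j Bw Bs σ n 0) =
      if n = n₀ then 3 ^ (j + 4) / 4 else 0 := by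
  have hch : IsCh (sq3 ^ (j + 4) * (A₁ * A₃)) ψ := by rw [S.n2]; exact S.ch
  obtain ⟨e', he⟩ := S.H.h2.e0
  have he3 : ¬ sq3 ∣ e' := coprime_e' S.H.h2 he
  have hz : ¬ sq3 ∣ x * e' := fun h => (prime_sq3.dvd_or_dvd h).elim hx he3
  obtain ⟨s₀, hs₀, i₀, hi₀, h₀⟩ := exists_unit_res hz hp
  have key : ∀ (s : Eis), (s = 1 ∨ s = -1) → ∀ i, i < 3 →
      (s = s₀ ∧ i = i₀ → ‖SL N (sq3 ^ (j + 4)) e₂ x ψ γ (s * w ^ i)‖ ^ 2 = 3 ^ (j + 4)) ∧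
      (¬ (s = s₀ ∧ i = i₀) → SL N (sq3 ^ (j + 4)) e₂ x ψ γ (s * w ^ i) = 0) := by
    intro s hs i hi
    have q := SL3_pure_eq S.H.h2 hj hch S.gam (x := x) he hκ hp hs i
    rw [S.n2] at q
    constructor
    · rintro ⟨rfl, rfl⟩
      exact q.1 h₀
    · intro hne
      exact q.2 (fun h => hne (unit_res_unique hz hs hs₀ hi hi₀ h h₀))
  have hBn : ∀ n : ℕ, ‖Bw ^ n‖ = 1 := fun n => by rw [norm_pow, norm_root hB, one_pow]
  have hσn : ‖σ‖ = 1 := by rcases hσ with h | h <;> rw [h] <;> norm_num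
  refine ⟨⟨i₀, hi₀⟩, fun n => ?_⟩
  have hn := n.2
  have e1 : vv N e₂ x ψ γ j Bw Bs σ n 0 = 1 / 2 * Bw ^ (n : ℕ) *
      (SL N (sq3 ^ (j + 4)) e₂ x ψ γ (1 * w ^ (n : ℕ)) +
        σ * SL N (sq3 ^ (j + 4)) e₂ x ψ γ (-1 * w ^ (n : ℕ))) := by
    unfold vv
    simp
  have k1 := key 1 (Or.inl rfl) n hn
  have k2 := key (-1) (Or.inr rfl) n hn
  rw [Complex.mul_conj, Complex.normSq_eq_norm_sq, e1, norm_mul, norm_mul, hBn]
  by_cases hni : n = ⟨i₀, hi₀⟩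
  · have hni' : (n : ℕ) = i₀ := by rw [hni]
    rw [if_pos hni]
    rcases hs₀ with h | h
    · rw [k2.2 (fun hh => by rw [h] at hh; exact absurd hh.1 (by decide)), mul_zero, add_zero,
        mul_pow, k1.1 ⟨h.symm, hni'⟩]
      push_cast
      norm_num
      ring
    · rw [k1.2 (fun hh => by rw [h] at hh; exact absurd hh.1 (by decide)), zero_add,
        norm_mul, hσn, one_mul, mul_pow, k2.1 ⟨h.symm, hni'⟩]
      push_cast
      norm_num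
      ring
  · have hni' : (n : ℕ) ≠ i₀ := fun h => hni (Fin.ext h)
    rw [if_neg hni, k1.2 (fun hh => hni' hh.2), k2.2 (fun hh => hni' hh.2)]
    simp

/-- **autocorrelation at `λ`, pure type** -/
theorem acv_pure (S : Stg N A₁ A₃ e₁ e₂ e₃ j ψ γ R0) (hj : 1 ≤ j)
    (hκ : ∀ y, ψ (lf e₂ (1 + sq3 ^ (j + 2) * y)) = ea (sq3 ^ 2) κ y) (hp : ¬ sq3 ∣ κ)
    (hx : ¬ sq3 ∣ x) (hB : Bw ^ 3 = 1) (hσ : σ = 1 ∨ σ = -1) (p : ℝ) {B' : ℕ} (hB' : 1 ≤ B') :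
    ACv 0 p (3 ^ (j + 4) / 4) B' (fun c b => vv N e₂ x ψ γ j Bw Bs σ c b) := by
  obtain ⟨n₀, h⟩ := vv_zero_sq (Bs := Bs) S hj hκ hp hx hB hσ
  have hz : ∀ (c : ℕ) (b : ℕ), 1 ≤ b → vv N e₂ x ψ γ j Bw Bs σ c b = 0 :=
    fun c b hb => vv_pos_zero S hj hκ hp c hb
  intro m
  have e1 : ∀ c : Fin 3, ∑ b ∈ Finset.range B',
      NH499.Qs 0 ((fun (c : Fin 3) (b : ℕ) => vv N e₂ x ψ γ j Bw Bs σ c b) c) b *
        conj (NH499.Qs 0 ((fun (c : Fin 3) (b : ℕ) => vv N e₂ x ψ γ j Bw Bs σ c b) c) (b + 3 * m)) =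
      vv N e₂ x ψ γ j Bw Bs σ c 0 * conj (vv N e₂ x ψ γ j Bw Bs σ c (3 * m)) := by
    intro c
    rw [Finset.sum_eq_single 0]
    · unfold NH499.Qs
      rw [zero_mul, sub_zero, zero_mul, sub_zero, zero_add]
    · intro b _ hb
      unfold NH499.Qs
      rw [zero_mul, sub_zero]
      beta_reduce
      rw [hz _ b (by omega), zero_mul]
    · intro h0
      exact absurd (Finset.mem_range.mpr (by omega)) h0
  simp_rw [e1]
  by_cases hm : m = 0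
  · subst hm
    unfold Eg
    rw [if_pos rfl, mul_zero]
    simp_rw [h]
    simp
  · have h3 : ∀ c : Fin 3, vv N e₂ x ψ γ j Bw Bs σ c 0 *
        conj (vv N e₂ x ψ γ j Bw Bs σ c (3 * m)) = 0 := by
      intro c
      rw [hz _ (3 * m) (by omega), map_zero, mul_zero]
    simp_rw [h3]
    unfold Eg
    rw [if_neg hm]
    simp

end main

end Crest.Agent.R017.NL90
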