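import Crest.Agent.R017.NM2_64

/-!
# Row 17 (A, norm): the `λ`-factor `vv`, cubic type, III

* **`Nl_cub`** : the autocorrelation of `Qs X vv`
-/

set_option autoImplicit false

noncomputable section

open Complex
open scoped ComplexConjugate

namespace Crest.Agent.R017.NM64

open Crest.Agent.R012 Crest.Agent.R012.Eis Crest.Agent.R012.Gauss880 Crest.Agent.R017.Loc266
open Crest.Agent.R017.Sx440 Crest.Agent.R017.Kub664 Crest.Agent.R017.Tw266
open Crest.Agent.R017.Rw266 Crest.Agent.R017.GG90 Crest.Agent.R017.LamP64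
open Crest.Agent.R017.GL64 Crest.Agent.R017.NF64 Crest.Agent.R017.NL64

/-- the double sum, reindexed -/
lemma double_sum {F : ℕ → ℕ → ℂ} {j A : ℕ} (hF : ∀ i b, F (i + 3) b = F i b)
    (h1 : ∀ i b, b < j → F i b = 0) (h2 : ∀ i b, j + 10 ≤ b → F i b = 0) (hA : j + 10 ≤ A) :
    ∑ c ∈ Finset.range 3, ∑ b ∈ Finset.range A, F (c + 2 * b) b =
      ∑ i ∈ Finset.range 3, ∑ n ∈ Finset.range 10, F i (j + n) := by
  rw [Finset.sum_comm]
  have e : ∀ b ∈ Finset.range A, ∑ c ∈ Finset.range 3, F (c + 2 * b) b =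
      ∑ c ∈ Finset.range 3, F c b := by
    intro b _
    exact sum_shift3 (F := fun n => F n b) (fun n => hF n b) (2 * b)
  rw [Finset.sum_congr rfl e, Finset.sum_comm]
  refine Finset.sum_congr rfl fun i _ => ?_
  exact sum_window (h1 i) (h2 i) hA

section

variable {N B e₂ x β e' : Eis} {ψ γ : Eis → ℂ} {j : ℕ} {Bw Bs σ X : ℂ} {R : ℕ}

/-- **autocorrelation, cubic type** -/
theorem Nl_cub (H : Lvl (sq3 ^ (j + 4)) B e₂) (hN : sq3 ^ (j + 4) * B = N)
    (hψ : IsCh N ψ) (hγ : Gam4 γ)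
    (hβ : ∀ y, ψ (lf e₂ (1 + sq3 ^ 2 * y)) = ea (sq3 ^ 2) β y) (he : e₂ = B * e')
    (hx : ¬ sq3 ∣ x * e')
    (hBw : Bw ^ 3 = 1) (hBs : ‖Bs‖ = 1) (hσ : σ = 1 ∨ σ = -1)
    (hX : ∀ n b, R ≤ b → vv N e₂ x ψ γ j Bw Bs σ n (b + 6) =
      X * vv N e₂ x ψ γ j Bw Bs σ n b) :
    ‖X‖ = 1 ∧ (∀ n b, j + 10 ≤ b → Qs X (vv N e₂ x ψ γ j Bw Bs σ n) b = 0) ∧
    ∀ A, j + 10 ≤ A → ∀ m, ∑ c ∈ Finset.range 3, ∑ b ∈ Finset.range A,
      Qs X (vv N e₂ x ψ γ j Bw Bs σ c) b * conj (Qs X (vv N e₂ x ψ γ j Bw Bs σ c) (b + 3 * m)) =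
        9 ^ (j + 3) / 4 * (if m = 0 then 10 / 9 else if m = 2 then -(conj X / 3) else 0) := by
  have hXe := X_eq H hN hψ hγ hβ he hBw hBs hσ hX
  have hX1 : ‖X‖ = 1 := by rw [hXe, norm_neg, norm_pow, hBs, one_pow]
  have hQ := fun n b => Qs_vv (σ := σ) (x := x) H hN hψ hγ hβ he hBw hXe n b
  have hC : (3 : ℂ) ^ (j + 2) / 2 * ((3 : ℂ) ^ (j + 2) / 2) = 9 ^ (j + 2) / 4 := by
    rw [div_mul_div_comm, ← mul_pow]; norm_num
  have hCc : conj ((3 : ℂ) ^ (j + 2) / 2) = (3 : ℂ) ^ (j + 2) / 2 := by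
    have : (3 : ℂ) ^ (j + 2) / 2 = ((3 ^ (j + 2) / 2 : ℝ) : ℂ) := by push_cast; ring
    rw [this, Complex.conj_ofReal]
  have h0 : ∀ i b, j + 10 ≤ b → QF j (x * e') β σ i b = 0 := by
    intro i b hb
    obtain ⟨m, rfl⟩ : ∃ m, b = j + m := ⟨b - j, by omega⟩
    exact QF_zero (by omega)
  refine ⟨hX1, fun n b hb => ?_, fun A hA m => ?_⟩
  · rw [hQ, h0 _ _ hb, mul_zero]
  · -- the product
    have hP : ∀ c b, Qs X (vv N e₂ x ψ γ j Bw Bs σ c) b *
        conj (Qs X (vv N e₂ x ψ γ j Bw Bs σ c) (b + 3 * m)) =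
        9 ^ (j + 2) / 4 * ((th Bw Bs c b * conj (th Bw Bs c (b + 3 * m))) *
          (QF j (x * e') β σ (c + 2 * b) b * conj (QF j (x * e') β σ (c + 2 * b) (b + 3 * m)))) := by
      intro c b
      rw [hQ, hQ, map_mul, map_mul, hCc, ← hC,
        show c + 2 * (b + 3 * m) = (c + 2 * b) + 3 * (2 * m) by ring, QF_add_mul]
      ring
    simp only [hP]
    rcases m with _ | _ | _ | m
    · rw [if_pos rfl]
      simp only [mul_zero, add_zero, th_zero hBw hBs, one_mul, ← Finset.mul_sum]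
      rw [double_sum (F := fun i b => QF j (x * e') β σ i b * conj (QF j (x * e') β σ i b))
        (fun i b => by rw [QF_add_three]) (fun i b hb => by rw [QF_low hx hb, zero_mul])
        (fun i b hb => by rw [h0 i b hb, zero_mul]) hA, NN0 hx hσ]
      rw [pow_succ (9 : ℂ) (j + 2)]; ring
    · rw [if_neg (by norm_num), if_neg (by norm_num)]
      simp only [zero_add, mul_one, th_one hBw hBs, ← Finset.mul_sum]
      rw [double_sum (F := fun i b => -conj Bs ^ 3 * (-1) ^ b *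
          (QF j (x * e') β σ i b * conj (QF j (x * e') β σ i (b + 3))))
        (fun i b => by rw [QF_add_three, QF_add_three])
        (fun i b hb => by rw [QF_low hx hb, zero_mul, mul_zero])
        (fun i b hb => by rw [h0 i b hb, zero_mul, mul_zero]) hA]
      have h := NN1 (j := j) (β := β) hx hσ
      have e : ∀ i n, -conj Bs ^ 3 * (-1) ^ (j + n) *
          (QF j (x * e') β σ i (j + n) * conj (QF j (x * e') β σ i (j + n + 3))) =
          (-conj Bs ^ 3 * (-1) ^ j) * ((-1) ^ n *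
          (QF j (x * e') β σ i (j + n) * conj (QF j (x * e') β σ i (j + (n + 3))))) := by
        intro i n
        rw [pow_add, add_assoc]; ring
      simp only [e, ← Finset.mul_sum]
      rw [h]; ring
    · rw [if_neg (by norm_num), if_pos (by norm_num)]
      simp only [show 3 * (0 + 1 + 1) = 6 by norm_num, th_two hBw hBs, ← Finset.mul_sum]
      rw [double_sum (F := fun i b =>
          (QF j (x * e') β σ i b * conj (QF j (x * e') β σ i (b + 6))))
        (fun i b => by rw [QF_add_three, QF_add_three])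
        (fun i b hb => by rw [QF_low hx hb, zero_mul])
        (fun i b hb => by rw [h0 i b hb, zero_mul]) hA]
      simp only [add_assoc]
      rw [NN2 hx hσ, hXe, pow_succ (9 : ℂ) (j + 2), map_neg, map_pow]; ring
    · rw [if_neg (by omega), if_neg (by omega), mul_zero]
      have hz : ∀ c b, QF j (x * e') β σ (c + 2 * b) b *
          conj (QF j (x * e') β σ (c + 2 * b) (b + 3 * (m + 1 + 1 + 1))) = 0 := by
        intro c b
        rcases lt_or_ge b j with hb | hb
        · rw [QF_low hx hb, zero_mul]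
        · obtain ⟨n, rfl⟩ : ∃ n, b = j + n := ⟨b - j, by omega⟩
          obtain ⟨i, hi, k, hk⟩ : ∃ i, i < 3 ∧ ∃ k, c + 2 * (j + n) = i + 3 * k :=
            ⟨(c + 2 * (j + n)) % 3, Nat.mod_lt _ (by norm_num), (c + 2 * (j + n)) / 3,
              (Nat.mod_add_div _ _).symm⟩
          rw [hk, QF_add_mul, QF_add_mul, add_assoc]
          exact row3 hx hσ hi (by omega) n
      simp only [hz, mul_zero, Finset.sum_const_zero]

end

end Crest.Agent.R017.NM64
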