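import Crest.Agent.R017.NH6_499
import Crest.Agent.R017.NL6_90
import Crest.Agent.R017.NM3_64

/-!
# Row 17 (A, norm): `NlCub`, `NlPur`, `lagsD` (helper499)
-/

set_option autoImplicit false

noncomputable section

open Complex
open scoped ComplexConjugate

namespace Crest.Agent.R017.NH499

open Crest.Agent.R012 Crest.Agent.R012.Eis Crest.Agent.R012.Gauss880 Crest.Agent.R017.Loc266
open Crest.Agent.R017.Sx440 Crest.Agent.R017.Glue681 Crest.Agent.R017.Rw266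
open Crest.Agent.R017.Cond499 Crest.Agent.R012.Parseval499 Crest.Agent.R017.GG90
open Crest.Agent.R017.GLs74 Crest.Agent.R017.GLm74 Crest.Agent.R017.GLn74
open Crest.Agent.R017.LamP64 Crest.Agent.R017.FinA266
open Crest.Agent.R017.Norm358 (Eg Lags)
open Crest.Agent.R017.NF64 (Stg vv fact)

theorem nlPur : NlPur := by
  intro N A₁ A₃ e₁ e₂ e₃ j ψ R0 S hj x hx κ hκ hκ2 Bw Bs σ hBw hBs hσ X _ hX0
  have hX : X = 0 := hX0 (by omega)
  subst hX
  have h := NL90.acv_pure (Bs := Bs) S hj hκ2 hκ hx hBw hσ (3 : ℝ) (B' := j + 10) (by omega)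
  have e : (9 : ℝ) ^ (j + 4) / (36 * 3 ^ (j + 2)) = 3 ^ (j + 4) / 4 := by
    have h9 : (9 : ℝ) ^ (j + 4) = 3 ^ (j + 4) * 3 ^ (j + 4) := by rw [← mul_pow]; norm_num
    have h3 : (3 : ℝ) ^ (j + 4) = 9 * 3 ^ (j + 2) := by rw [pow_add, pow_add]; norm_num; ring
    have h0 : (3 : ℝ) ^ (j + 2) ≠ 0 := by positivity
    rw [h9]
    nth_rw 2 [h3]
    field_simp
    norm_num
  rw [e]
  exact h

lemma vv_mod3 (N e₂ x : Eis) (ψ γ : Eis → ℂ) (j : ℕ) {Bw : ℂ} (Bs σ : ℂ) (hB : Bw ^ 3 = 1)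
    (n b : ℕ) : vv N e₂ x ψ γ j Bw Bs σ (n % 3) b = vv N e₂ x ψ γ j Bw Bs σ n b := by
  have h1 : Bw ^ (n % 3 + 2 * b) = Bw ^ (n + 2 * b) := pow_mod3 hB (by omega)
  have h2 : w ^ (n % 3 + 2 * b) = w ^ (n + 2 * b) := by
    rw [w_pow_mod (n % 3 + 2 * b), w_pow_mod (n + 2 * b)]
    congr 1
    omega
  unfold vv
  rw [h1, h2]

theorem nlCub : NlCub := by
  intro N A₁ A₃ e₁ e₂ e₃ j ψ R0 S hj x hx β hβ Bw Bs σ hBw hBs hσ X hX _
  obtain ⟨e', he⟩ := S.H.h2.toBlk.e0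
  have hN : sq3 ^ (j + 4) * (A₁ * A₃) = N := S.n2
  have hx' : ¬ sq3 ∣ x * e' := by
    intro h
    rcases prime_sq3.dvd_or_dvd h with h1 | h1
    · exact hx h1
    · have h2 : sq3 ∣ e₂ := by rw [he]; exact h1.mul_left _
      have h3 : sq3 ∣ e₂ - 1 := (dvd_pow_self sq3 (by omega)).trans S.H.h2.toBlk.e1
      have h4 : sq3 ∣ 1 := by
        have := dvd_sub h2 h3
        rwa [show e₂ - (e₂ - 1) = 1 by ring] at this
      exact prime_sq3.not_isUnit (isUnit_of_dvd_one h4)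
  have hX' : ∀ n b : ℕ, j + 4 ≤ b → vv N e₂ x ψ gk j Bw Bs σ n (b + 6) =
      X * vv N e₂ x ψ gk j Bw Bs σ n b := by
    intro n b hb
    have h := hX ⟨n % 3, Nat.mod_lt _ (by norm_num)⟩ b hb
    beta_reduce at h
    rw [← vv_mod3 N e₂ x ψ gk j Bs σ hBw n (b + 6), ← vv_mod3 N e₂ x ψ gk j Bs σ hBw n b]
    exact h
  obtain ⟨h1, -, h2⟩ := NM64.Nl_cub S.H.h2 hN S.ch S.gam hβ he hx' hBw hBs hσ hX'
  intro m
  have h3 := h2 (j + 10) le_rfl m
  rw [Fin.sum_univ_three]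
  rw [Finset.sum_range_succ, Finset.sum_range_succ, Finset.sum_range_succ, Finset.sum_range_zero,
    zero_add] at h3
  have e0 : ∀ (v : ℕ → ℂ) (b : ℕ), Qs X v b = GG90.Qs X v b := fun v b => qs_eq X v b
  simp only [e0]
  simp only [Fin.val_zero, Fin.val_one, Fin.val_two]
  refine Eq.trans ?_ (h3.trans ?_)
  · rfl
  · have hXX : X * conj X = 1 := by
      rw [Complex.mul_conj, Complex.normSq_eq_norm_sq, h1]; norm_num
    have h9 : (9 : ℂ) ^ (j + 4) = 9 * 9 ^ (j + 3) := by rw [pow_succ _ (j + 3)]; ring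
    unfold Eg
    rw [hXX]
    push_cast
    rw [h9]
    by_cases hm : m = 0
    · rw [if_pos hm, if_pos hm]; ring
    · rw [if_neg hm, if_neg hm]
      by_cases hm2 : m = 2
      · rw [if_pos hm2, if_pos hm2]; ring
      · rw [if_neg hm2, if_neg hm2]; ring

/-- **the lag identities** -/
theorem lagsD {M A e m1 R0 m : Eis} {ψ0 ψ ξ : Eis → ℂ} {r t : ℕ} {c : ℂ}
    (D : DatA M ψ0 r t A e ψ m1 R0 m ξ c) : LagsD r t A ψ R0 m ξ := lagsD_of nlCub nlPur D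

end Crest.Agent.R017.NH499
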