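import Crest.Agent.R017.GL2_64

/-!
# Row 17 (A, norm): autocorrelation of the local sums at `λ`

`wl j x β s i l` = normalised value of `SL` at `t = s ω^i λ^l` (cubic type `β`, level `λ^{j+4}`),
`FF = wl(+) + σ (-1)^l wl(-)`.
-/

set_option autoImplicit false

noncomputable section

open Complex
open scoped ComplexConjugate

namespace Crest.Agent.R017.NL64

open Crest.Agent.R012 Crest.Agent.R012.Eis Crest.Agent.R012.Gauss880 Crest.Agent.R017.Loc266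
open Crest.Agent.R017.Sx440 Crest.Agent.R017.Kub664 Crest.Agent.R017.Tw266
open Crest.Agent.R017.Rw266 Crest.Agent.R017.GG90 Crest.Agent.R017.LamP64
open Crest.Agent.R017.GL64

open Classical in
/-- normalised local value at `s ω^i λ^l` -/
def wl (j : ℕ) (x β s : Eis) (i l : ℕ) : ℂ :=
  if sq3 ^ (j + 2) ∣ -(x * (s * w ^ i * sq3 ^ l)) + ((i : Eis) * sq3 - l - β) * sq3 ^ j then
    ea (sq3 ^ (j + 4)) (-(x * (s * w ^ i * sq3 ^ l))) 1 else 0

variable {j : ℕ} {x β s : Eis} {i l : ℕ}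

lemma re_arr (x s : Eis) (i l : ℕ) : x * (s * w ^ i * sq3 ^ l) = sq3 ^ l * (s * (x * w ^ i)) := by
  ring

lemma not_dvd_core (hx : ¬ sq3 ∣ x) (hs : s = 1 ∨ s = -1) : ¬ sq3 ∣ s * (x * w ^ i) := by
  intro h
  rcases hs with rfl | rfl
  · rw [one_mul] at h
    rcases prime_sq3.dvd_or_dvd h with h | h
    · exact hx h
    · exact not_sq3_dvd_unit (Crest.Agent.R017.GG90.isUnit_w.pow i) h
  · rw [neg_one_mul, dvd_neg] at h
    rcases prime_sq3.dvd_or_dvd h with h | h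
    · exact hx h
    · exact not_sq3_dvd_unit (Crest.Agent.R017.GG90.isUnit_w.pow i) h

lemma wl_low (hx : ¬ sq3 ∣ x) (hs : s = 1 ∨ s = -1) (hl : l < j) : wl j x β s i l = 0 := by
  unfold wl
  rw [if_neg]
  rw [re_arr]
  exact dvd_low hl (not_dvd_core hx hs)

lemma cond_j : sq3 ^ (j + 2) ∣ -(x * (s * w ^ i * sq3 ^ j)) + ((i : Eis) * sq3 - (j : ℕ) - β) * sq3 ^ j
    ↔ (3 : Eis) ∣ ((i : Eis) * sq3 - (j : ℕ) - β) - s * (x * w ^ i) := by
  rw [re_arr]; exact dvd_j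

lemma cond_j1 : sq3 ^ (j + 2) ∣ -(x * (s * w ^ i * sq3 ^ (j + 1))) +
    ((i : Eis) * sq3 - ((j + 1 : ℕ) : Eis) - β) * sq3 ^ j
    ↔ (3 : Eis) ∣ ((i : Eis) * sq3 - ((j + 1 : ℕ) : Eis) - β) - sq3 * (s * (x * w ^ i)) := by
  rw [re_arr]; exact dvd_j1

lemma cond_high (hl : j + 2 ≤ l) : sq3 ^ (j + 2) ∣ -(x * (s * w ^ i * sq3 ^ l)) +
    ((i : Eis) * sq3 - (l : ℕ) - β) * sq3 ^ j
    ↔ (3 : Eis) ∣ ((i : Eis) * sq3 - (l : ℕ) - β) := by
  rw [re_arr]; exact dvd_high hl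

lemma ea_shift (a b : ℕ) (y : Eis) : ea (sq3 ^ (a + b)) (-(sq3 ^ a * y)) 1 = ea (sq3 ^ b) (-y) 1 := by
  rw [pow_add, ea_comm, ea_comm (sq3 ^ b)]
  rw [show -(sq3 ^ a * y) = sq3 ^ a * (-y) by ring]
  exact ea_mul_mod (sq3_pow_ne a) 1 (-y)

open Classical in
lemma wl_j : wl j x β s i j = if (3 : Eis) ∣ ((i : Eis) * sq3 - (j : ℕ) - β) - s * (x * w ^ i)
    then ea (sq3 ^ 4) (-(s * (x * w ^ i))) 1 else 0 := by
  unfold wl
  by_cases h : (3 : Eis) ∣ ((i : Eis) * sq3 - (j : ℕ) - β) - s * (x * w ^ i)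
  · rw [if_pos h, if_pos (cond_j.mpr h), re_arr, ea_shift]
  · rw [if_neg h, if_neg (fun h' => h (cond_j.mp h'))]

open Classical in
lemma wl_j1 : wl j x β s i (j + 1) =
    if (3 : Eis) ∣ ((i : Eis) * sq3 - ((j + 1 : ℕ) : Eis) - β) - sq3 * (s * (x * w ^ i))
    then ea (sq3 ^ 3) (-(s * (x * w ^ i))) 1 else 0 := by
  unfold wl
  by_cases h : (3 : Eis) ∣ ((i : Eis) * sq3 - ((j + 1 : ℕ) : Eis) - β) - sq3 * (s * (x * w ^ i))
  · rw [if_pos h, if_pos (cond_j1.mpr h), re_arr, show j + 4 = (j + 1) + 3 by ring, ea_shift]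
  · rw [if_neg h, if_neg (fun h' => h (cond_j1.mp h'))]

open Classical in
lemma wl_j2 : wl j x β s i (j + 2) = if (3 : Eis) ∣ ((i : Eis) * sq3 - ((j + 2 : ℕ) : Eis) - β)
    then ea (sq3 ^ 2) (-(s * (x * w ^ i))) 1 else 0 := by
  unfold wl
  by_cases h : (3 : Eis) ∣ ((i : Eis) * sq3 - ((j + 2 : ℕ) : Eis) - β)
  · rw [if_pos h, if_pos ((cond_high le_rfl).mpr h), re_arr, show j + 4 = (j + 2) + 2 by ring,
      ea_shift]
  · rw [if_neg h, if_neg (fun h' => h ((cond_high le_rfl).mp h'))]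

open Classical in
lemma wl_j3 : wl j x β s i (j + 3) = if (3 : Eis) ∣ ((i : Eis) * sq3 - ((j + 3 : ℕ) : Eis) - β)
    then ea sq3 (-(s * (x * w ^ i))) 1 else 0 := by
  unfold wl
  by_cases h : (3 : Eis) ∣ ((i : Eis) * sq3 - ((j + 3 : ℕ) : Eis) - β)
  · rw [if_pos h, if_pos ((cond_high (by omega)).mpr h), re_arr,
      show j + 4 = (j + 3) + 1 by ring, ea_shift, pow_one]
  · rw [if_neg h, if_neg (fun h' => h ((cond_high (by omega)).mp h'))]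

open Classical in
lemma wl_high (hl : j + 4 ≤ l) : wl j x β s i l =
    if (3 : Eis) ∣ ((i : Eis) * sq3 - (l : ℕ) - β) then 1 else 0 := by
  unfold wl
  by_cases h : (3 : Eis) ∣ ((i : Eis) * sq3 - (l : ℕ) - β)
  · rw [if_pos h, if_pos ((cond_high (by omega)).mpr h), re_arr]
    apply ea_dvd (sq3_pow_ne _)
    rw [dvd_neg]
    exact (pow_dvd_pow sq3 hl).mul_right _
  · rw [if_neg h, if_neg (fun h' => h ((cond_high (by omega)).mp h'))]

/-! ### residues modulo 3 -/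

lemma dvd3_iff {z : Eis} : (3 : Eis) ∣ z ↔ (z.re : ZMod 3) = 0 ∧ (z.im : ZMod 3) = 0 := by
  rw [Eis.three_dvd_iff, ZMod.intCast_zmod_eq_zero_iff_dvd, ZMod.intCast_zmod_eq_zero_iff_dvd]
  rfl

lemma sq3_dvd_iff {z : Eis} : sq3 ∣ z ↔ (z.re : ZMod 3) + z.im = 0 := by
  constructor
  · rintro ⟨t, rfl⟩
    rw [re_mul', im_mul', sq3_re, sq3_im]
    push_cast
    generalize (t.re : ZMod 3) = a
    generalize (t.im : ZMod 3) = b
    revert a b; decide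
  · intro h
    rw [← Int.cast_add, ZMod.intCast_zmod_eq_zero_iff_dvd] at h
    obtain ⟨k, hk⟩ := h
    push_cast at hk
    -- `sq3 * (a + b ω) = (a - 2b) + (2a - b) ω`
    refine ⟨⟨2 * k - z.re, k - z.re⟩, ?_⟩
    apply ext'
    · rw [re_mul', sq3_re, sq3_im]; push_cast; linarith
    · rw [im_mul', sq3_re, sq3_im]; push_cast; linarith

/-- residues of `x ω^i` -/
def zr (p q : ZMod 3) : ℕ → ZMod 3
  | 0 => p
  | 1 => -q
  | _ => q - p

def zi (p q : ZMod 3) : ℕ → ZMod 3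
  | 0 => q
  | 1 => p - q
  | _ => -p

lemma xw_re (hi : i < 3) : ((x * w ^ i).re : ZMod 3) = zr (x.re : ZMod 3) (x.im : ZMod 3) i := by
  have e2 : w ^ 2 = (⟨-1, -1⟩ : Eis) := by rw [w_sq]; apply ext' <;> simp
  interval_cases i
  · simp [zr]
  · rw [pow_one, re_mul']; simp [zr]
  · rw [e2, re_mul']; simp [zr]; ring

lemma xw_im (hi : i < 3) : ((x * w ^ i).im : ZMod 3) = zi (x.re : ZMod 3) (x.im : ZMod 3) i := by
  have e2 : w ^ 2 = (⟨-1, -1⟩ : Eis) := by rw [w_sq]; apply ext' <;> simp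
  interval_cases i
  · simp [zi]
  · rw [pow_one, im_mul']; simp [zi]
  · rw [e2, im_mul']; simp [zi]

/-- condition at level `j` -/
abbrev c0 (p q b c J s : ZMod 3) (i : ℕ) : Prop :=
  (i : ZMod 3) - J - b - s * zr p q i = 0 ∧ 2 * (i : ZMod 3) - c - s * zi p q i = 0

/-- condition at level `j + 1` -/
abbrev c1 (p q b c J s : ZMod 3) (i : ℕ) : Prop :=
  (i : ZMod 3) - (J + 1) - b - s * (zr p q i - 2 * zi p q i) = 0 ∧
    2 * (i : ZMod 3) - c - s * (2 * zr p q i - zi p q i) = 0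

/-- condition at higher levels -/
abbrev c2 (b c L : ZMod 3) (i : ℕ) : Prop :=
  (i : ZMod 3) - L - b = 0 ∧ 2 * (i : ZMod 3) - c = 0

lemma bt_re (l : ℕ) : (((i : Eis) * sq3 - (l : ℕ) - β).re : ZMod 3) = (i : ZMod 3) - l - β.re := by
  have : ((i : Eis) * sq3 - (l : ℕ) - β).re = (i : ℤ) - l - β.re := by
    rw [QuadraticAlgebra.re_sub, QuadraticAlgebra.re_sub, re_mul', sq3_re, sq3_im]; simp
  rw [this]; push_cast; ring

lemma bt_im (l : ℕ) : (((i : Eis) * sq3 - (l : ℕ) - β).im : ZMod 3) = 2 * (i : ZMod 3) - β.im := by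
  have : ((i : Eis) * sq3 - (l : ℕ) - β).im = 2 * (i : ℤ) - β.im := by
    rw [QuadraticAlgebra.im_sub, QuadraticAlgebra.im_sub, im_mul', sq3_re, sq3_im]; simp; ring
  rw [this]; push_cast; ring

lemma c2_iff {l : ℕ} : (3 : Eis) ∣ ((i : Eis) * sq3 - (l : ℕ) - β) ↔
    c2 (β.re : ZMod 3) (β.im : ZMod 3) (l : ZMod 3) i := by
  rw [dvd3_iff, bt_re, bt_im]

lemma c0_iff (hi : i < 3) (S : ℤ) : (3 : Eis) ∣ ((i : Eis) * sq3 - (j : ℕ) - β) - (S : Eis) * (x * w ^ i)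
    ↔ c0 (x.re : ZMod 3) (x.im : ZMod 3) (β.re : ZMod 3) (β.im : ZMod 3) (j : ZMod 3)
      (S : ZMod 3) i := by
  rw [dvd3_iff, QuadraticAlgebra.re_sub, QuadraticAlgebra.im_sub, Int.cast_sub, Int.cast_sub,
    bt_re, bt_im]
  have h1 : (((S : Eis) * (x * w ^ i)).re : ZMod 3) = (S : ZMod 3) * zr (x.re : ZMod 3) (x.im : ZMod 3) i := by
    rw [← xw_re hi, re_mul']; simp
  have h2 : (((S : Eis) * (x * w ^ i)).im : ZMod 3) = (S : ZMod 3) * zi (x.re : ZMod 3) (x.im : ZMod 3) i := by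
    rw [← xw_im hi, im_mul']; simp
  rw [h1, h2]

lemma c1_iff (hi : i < 3) (S : ℤ) :
    (3 : Eis) ∣ ((i : Eis) * sq3 - ((j + 1 : ℕ) : Eis) - β) - sq3 * ((S : Eis) * (x * w ^ i))
    ↔ c1 (x.re : ZMod 3) (x.im : ZMod 3) (β.re : ZMod 3) (β.im : ZMod 3) (j : ZMod 3)
      (S : ZMod 3) i := by
  rw [dvd3_iff, QuadraticAlgebra.re_sub, QuadraticAlgebra.im_sub, Int.cast_sub, Int.cast_sub,
    bt_re, bt_im]
  have h1 : ((sq3 * ((S : Eis) * (x * w ^ i))).re : ZMod 3) =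
      (S : ZMod 3) * (zr (x.re : ZMod 3) (x.im : ZMod 3) i - 2 * zi (x.re : ZMod 3) (x.im : ZMod 3) i) := by
    rw [← xw_re hi, ← xw_im hi, re_mul', re_mul', im_mul', sq3_re, sq3_im]; simp; ring
  have h2 : ((sq3 * ((S : Eis) * (x * w ^ i))).im : ZMod 3) =
      (S : ZMod 3) * (2 * zr (x.re : ZMod 3) (x.im : ZMod 3) i - zi (x.re : ZMod 3) (x.im : ZMod 3) i) := by
    rw [← xw_re hi, ← xw_im hi, im_mul', re_mul', im_mul', sq3_re, sq3_im]; simp; ring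
  rw [h1, h2]
  push_cast
  rfl

end Crest.Agent.R017.NL64
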