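import Crest.Agent.R017.NL1_64

/-!
# Row 17 (A, norm): autocorrelation of the local sums at `λ`, II

* `count1`, `count2` : the finite counts modulo 3
* `FF` and its values
* `NN_zero`, `NN_one`, `NN_two`, `NN_high` : the autocorrelation of `(1 - Z) FF`
-/

set_option autoImplicit false

noncomputable section

open Complex
open scoped ComplexConjugate

namespace Crest.Agent.R017.NL64

open Crest.Agent.R012 Crest.Agent.R012.Eis Crest.Agent.R012.Gauss880 Crest.Agent.R017.Loc266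
open Crest.Agent.R017.Sx440 Crest.Agent.R017.Kub664 Crest.Agent.R017.Tw266
open Crest.Agent.R017.Rw266 Crest.Agent.R017.GG90 Crest.Agent.R017.LamP64
open Crest.Agent.R017.GL64

/-- indicator -/
def ct (P : Prop) [Decidable P] : ℕ := if P then 1 else 0

lemma ct_true {P : Prop} [Decidable P] (h : P) : ct P = 1 := if_pos h
lemma ct_false {P : Prop} [Decidable P] (h : ¬ P) : ct P = 0 := if_neg h

set_option maxRecDepth 100000 in
lemma excl0 : ∀ p q b c J s : ZMod 3, p + q ≠ 0 → s * s = 1 → ∀ i : Fin 3,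
    c0 p q b c J s i → ¬ c2 b c J i := by decide

set_option maxRecDepth 100000 in
lemma excl1 : ∀ p q b c J s : ZMod 3, p + q ≠ 0 → s * s = 1 → ∀ i : Fin 3,
    c1 p q b c J s i → ¬ c2 b c (J + 1) i := by decide

set_option maxRecDepth 100000 in
lemma both0 : ∀ p q b c J : ZMod 3, p + q ≠ 0 → ∀ i : Fin 3,
    c0 p q b c J 1 i → ¬ c0 p q b c J (-1) i := by decide

set_option maxRecDepth 100000 in
lemma both1 : ∀ p q b c J : ZMod 3, p + q ≠ 0 → ∀ i : Fin 3,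
    c1 p q b c J 1 i → ¬ c1 p q b c J (-1) i := by decide

set_option maxRecDepth 100000 in
set_option maxHeartbeats 2000000 in
lemma count1 : ∀ p q b c J : ZMod 3, p + q ≠ 0 →
    (∑ i : Fin 3, (ct (c0 p q b c J 1 i) + ct (c0 p q b c J (-1) i) +
      ct (c1 p q b c J 1 i) + ct (c1 p q b c J (-1) i))) +
    3 * (∑ i : Fin 3, (ct (c2 b c (J + 2) i) * ct (zi p q i ≠ 0) + ct (c2 b c J i))) = 3 := by
  decide

set_option maxRecDepth 100000 in
lemma count2 : ∀ b c J : ZMod 3,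
    (∑ i : Fin 3, (ct (c2 b c (J + 2) i) + ct (c2 b c J i) + ct (c2 b c (J + 1) i))) = 1 := by
  decide

/-! ### the symmetrised value -/

/-- `wl(+) + σ (-1)^l wl(-)` -/
def FF (j : ℕ) (x β : Eis) (σ : ℂ) (i l : ℕ) : ℂ :=
  wl j x β 1 i l + σ * (-1) ^ l * wl j x β (-1) i l

variable {j : ℕ} {x β : Eis} {σ : ℂ} {i l : ℕ}

lemma FF_low (hx : ¬ sq3 ∣ x) (hl : l < j) : FF j x β σ i l = 0 := by
  unfold FF
  rw [wl_low hx (Or.inl rfl) hl, wl_low hx (Or.inr rfl) hl, mul_zero, add_zero]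

lemma conj_ea_self (m y : Eis) : ea m y 1 * conj (ea m y 1) = 1 := by
  rw [Complex.mul_conj, Complex.normSq_eq_norm_sq, norm_ea]; norm_num

lemma sgn_conj (hσ : σ = 1 ∨ σ = -1) : conj σ = σ ∧ σ * σ = 1 := by
  rcases hσ with rfl | rfl <;> simp

lemma res_ne (hx : ¬ sq3 ∣ x) : (x.re : ZMod 3) + x.im ≠ 0 := fun h => hx (sq3_dvd_iff.mpr h)

/-- level `j` -/
lemma FF_j (hx : ¬ sq3 ∣ x) (hσ : σ = 1 ∨ σ = -1) (hi : i < 3) :
    FF j x β σ i j * conj (FF j x β σ i j) =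
      ((ct (c0 (x.re : ZMod 3) (x.im : ZMod 3) (β.re : ZMod 3) (β.im : ZMod 3) (j : ZMod 3) 1 i) +
       ct (c0 (x.re : ZMod 3) (x.im : ZMod 3) (β.re : ZMod 3) (β.im : ZMod 3) (j : ZMod 3) (-1) i)
        : ℕ) : ℂ) := by
  have k1 := c0_iff (j := j) (x := x) (β := β) hi 1
  have k2 := c0_iff (j := j) (x := x) (β := β) hi (-1)
  push_cast at k1 k2
  obtain ⟨hc, hq⟩ := sgn_conj hσ
  have hb := both0 _ _ (β.re : ZMod 3) (β.im : ZMod 3) (j : ZMod 3) (res_ne hx) ⟨i, hi⟩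
  have hsg : ((-1 : ℂ) ^ j) * ((-1 : ℂ) ^ j) = 1 := by rw [← mul_pow]; simp
  unfold FF
  rw [wl_j, wl_j]
  by_cases h1 : c0 (x.re : ZMod 3) (x.im : ZMod 3) (β.re : ZMod 3) (β.im : ZMod 3) (j : ZMod 3) 1 i
  · have h2 := hb h1
    rw [if_pos (k1.mpr h1), if_neg (fun h => h2 (k2.mp h)), ct_true h1, ct_false h2, mul_zero,
      add_zero, conj_ea_self]
    norm_num
  · rw [if_neg (fun h => h1 (k1.mp h)), ct_false h1]
    by_cases h2 : c0 (x.re : ZMod 3) (x.im : ZMod 3) (β.re : ZMod 3) (β.im : ZMod 3) (j : ZMod 3)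
      (-1) i
    · rw [if_pos (k2.mpr h2), ct_true h2, zero_add, map_mul, map_mul, hc, map_pow, map_neg, map_one]
      have := conj_ea_self (sq3 ^ 4) (-(-1 * (x * w ^ i)))
      push_cast
      linear_combination (σ * σ * ((-1) ^ j * (-1) ^ j)) * this + (-1 : ℂ) ^ j * (-1) ^ j * hq + hsg
    · rw [if_neg (fun h => h2 (k2.mp h)), ct_false h2]; simp

/-- level `j + 1` -/
lemma FF_j1 (hx : ¬ sq3 ∣ x) (hσ : σ = 1 ∨ σ = -1) (hi : i < 3) :
    FF j x β σ i (j + 1) * conj (FF j x β σ i (j + 1)) =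
      ((ct (c1 (x.re : ZMod 3) (x.im : ZMod 3) (β.re : ZMod 3) (β.im : ZMod 3) (j : ZMod 3) 1 i) +
       ct (c1 (x.re : ZMod 3) (x.im : ZMod 3) (β.re : ZMod 3) (β.im : ZMod 3) (j : ZMod 3) (-1) i)
        : ℕ) : ℂ) := by
  have k1 := c1_iff (j := j) (x := x) (β := β) hi 1
  have k2 := c1_iff (j := j) (x := x) (β := β) hi (-1)
  simp only [Int.cast_one, Int.cast_neg] at k1 k2
  obtain ⟨hc, hq⟩ := sgn_conj hσ
  have hb := both1 _ _ (β.re : ZMod 3) (β.im : ZMod 3) (j : ZMod 3) (res_ne hx) ⟨i, hi⟩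
  have hsg : ((-1 : ℂ) ^ (j + 1)) * ((-1 : ℂ) ^ (j + 1)) = 1 := by rw [← mul_pow]; simp
  unfold FF
  rw [wl_j1, wl_j1]
  by_cases h1 : c1 (x.re : ZMod 3) (x.im : ZMod 3) (β.re : ZMod 3) (β.im : ZMod 3) (j : ZMod 3) 1 i
  · have h2 := hb h1
    rw [if_pos (k1.mpr h1), if_neg (fun h => h2 (k2.mp h)), ct_true h1, ct_false h2, mul_zero,
      add_zero, conj_ea_self]
    norm_num
  · rw [if_neg (fun h => h1 (k1.mp h)), ct_false h1]
    by_cases h2 : c1 (x.re : ZMod 3) (x.im : ZMod 3) (β.re : ZMod 3) (β.im : ZMod 3) (j : ZMod 3)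
      (-1) i
    · rw [if_pos (k2.mpr h2), ct_true h2, zero_add, map_mul, map_mul, hc, map_pow, map_neg, map_one]
      have := conj_ea_self (sq3 ^ 3) (-(-1 * (x * w ^ i)))
      push_cast
      linear_combination (σ * σ * ((-1) ^ (j + 1) * (-1) ^ (j + 1))) * this +
        (-1 : ℂ) ^ (j + 1) * (-1) ^ (j + 1) * hq + hsg
    · rw [if_neg (fun h => h2 (k2.mp h)), ct_false h2]; simp

end Crest.Agent.R017.NL64
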