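import Crest.Agent.R017.NL2_64

/-!
# Row 17 (A, norm): autocorrelation of the local sums at `λ`, III

* values of `FF` at the levels `j+2`, `j+3`, `≥ j+4`
* `NN_zero`, `NN_one`, `NN_two`, `NN_high` : the autocorrelation of `(1 - Z) FF`
-/

set_option autoImplicit false

noncomputable section

open Complex
open scoped ComplexConjugate

namespace Crest.Agent.R017.NL64

open Crest.Agent.R012 Crest.Agent.R012.Eis Crest.Agent.R012.Gauss880 Crest.Agent.R017.Loc266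
open Crest.Agent.R017.Sx440 Crest.Agent.R017.Kub664 Crest.Agent.R017.Tw266
open Crest.Agent.R017.Rw266 Crest.Agent.R017.GG90 Crest.Agent.R017.LamP64
open Crest.Agent.R017.GL64

variable {j : ℕ} {x β : Eis} {σ : ℂ} {i l : ℕ}

/-- phase at level `j + 2` -/
def P2 (x : Eis) (i : ℕ) : ℂ := ea (sq3 ^ 2) (-(x * w ^ i)) 1
/-- phase at level `j + 3` -/
def P3 (x : Eis) (i : ℕ) : ℂ := ea sq3 (-(x * w ^ i)) 1

lemma P2_eq (x : Eis) (i : ℕ) : P2 x i = wC ^ ((x * w ^ i).im) := by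
  unfold P2; rw [ea_sq3_two]; congr 1; simp

lemma wC_zpow_eq_one_iff {n : ℤ} (h : (3 : ℤ) ∣ n) : wC ^ n = 1 := by
  obtain ⟨k, rfl⟩ := h
  rw [zpow_mul, show ((3 : ℤ)) = ((3 : ℕ) : ℤ) by rfl, zpow_natCast, wC_cube, one_zpow]

lemma conj_zpow_wC (n : ℤ) : conj (wC ^ n) = wC ^ (-n) := by
  have h1 : wC ^ n * conj (wC ^ n) = 1 := by
    have hn : ‖wC ^ n‖ = 1 := by
      rw [norm_zpow]
      have : ‖wC‖ ^ 3 = 1 := by rw [← norm_pow, wC_cube, norm_one]
      have h2 : ‖wC‖ = 1 := (pow_eq_one_iff_of_nonneg (norm_nonneg _) (by norm_num)).mp this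
      rw [h2, one_zpow]
    rw [Complex.mul_conj, Complex.normSq_eq_norm_sq, hn]; norm_num
  have h2 : wC ^ n * wC ^ (-n) = 1 := by
    rw [← zpow_add₀ wC_ne_zero, add_neg_cancel, zpow_zero]
  exact mul_left_cancel₀ (zpow_ne_zero n wC_ne_zero) (h1.trans h2.symm)

/-- nontrivial cube roots of unity -/
lemma wC_zpow_sum {n : ℤ} (h : ¬ (3 : ℤ) ∣ n) :
    wC ^ n + conj (wC ^ n) = -1 ∧ wC ^ n * wC ^ n = conj (wC ^ n) := by
  rw [conj_zpow_wC]
  have hs := wC_sq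
  have e1 : wC ^ (1 : ℤ) = wC := zpow_one _
  have e2 : wC ^ (2 : ℤ) = wC ^ 2 := by rw [show (2 : ℤ) = ((2 : ℕ) : ℤ) by rfl, zpow_natCast]
  constructor
  · have h3 : n % 3 = 1 ∨ n % 3 = 2 := by omega
    rcases h3 with h3 | h3
    · rw [Sym645.wC_zpow_mod n 1 (by omega), Sym645.wC_zpow_mod (-n) 2 (by omega), e1, e2, hs]
      ring
    · rw [Sym645.wC_zpow_mod n 2 (by omega), Sym645.wC_zpow_mod (-n) 1 (by omega), e1, e2, hs]
      ring
  · rw [← zpow_add₀ wC_ne_zero]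
    apply Sym645.wC_zpow_mod
    omega

lemma P2_norm (x : Eis) (i : ℕ) : P2 x i * conj (P2 x i) = 1 := conj_ea_self _ _
lemma P3_norm (x : Eis) (i : ℕ) : P3 x i * conj (P3 x i) = 1 := conj_ea_self _ _

lemma P2_one (hi : i < 3) (h : zi (x.re : ZMod 3) (x.im : ZMod 3) i = 0) : P2 x i = 1 := by
  rw [P2_eq]
  apply wC_zpow_eq_one_iff
  rw [← xw_im hi, ZMod.intCast_zmod_eq_zero_iff_dvd] at h
  exact_mod_cast h

lemma P2_sum (hi : i < 3) (h : zi (x.re : ZMod 3) (x.im : ZMod 3) i ≠ 0) :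
    P2 x i + conj (P2 x i) = -1 ∧ P2 x i * P2 x i = conj (P2 x i) := by
  rw [P2_eq]
  apply wC_zpow_sum
  intro h3
  apply h
  rw [← xw_im hi, ZMod.intCast_zmod_eq_zero_iff_dvd]
  exact_mod_cast h3

lemma trE_not_dvd {z : Eis} (h : ¬ sq3 ∣ z) : ¬ (3 : ℤ) ∣ trE z := by
  intro h3
  apply h
  rw [sq3_dvd_iff, ← Int.cast_add, ZMod.intCast_zmod_eq_zero_iff_dvd]
  unfold trE at h3
  push_cast
  omega

/-- `e(-z/λ²) = ω^{tr z}` -/
lemma ea_sq3_one (z : Eis) : ea sq3 (-z) 1 = wC ^ (trE z) := by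
  rw [← LS848.eC_third]
  unfold ea
  congr 1
  have h0 := sq3C_ne
  have h3 : toC sq3 * toC sq3 = -3 := by
    rw [← map_mul, ← pow_two, sq3_sq, map_neg, map_ofNat]
  rw [h3, map_neg, map_one]; ring

lemma P3_sum (hx : ¬ sq3 ∣ x) (i : ℕ) :
    P3 x i + conj (P3 x i) = -1 ∧ P3 x i * P3 x i = conj (P3 x i) := by
  unfold P3
  rw [ea_sq3_one]
  apply wC_zpow_sum
  apply trE_not_dvd
  have := not_dvd_core (i := i) hx (Or.inl rfl)
  rwa [one_mul] at this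

/-! ### values of `FF` -/

/-- indicator of the class condition -/
def ec (b c L : ZMod 3) (i : ℕ) : ℂ := (ct (c2 b c L i) : ℂ)

lemma ec_pos {b c L : ZMod 3} {i : ℕ} (h : c2 b c L i) : ec b c L i = 1 := by
  unfold ec; rw [ct_true h]; norm_num

lemma ec_neg {b c L : ZMod 3} {i : ℕ} (h : ¬ c2 b c L i) : ec b c L i = 0 := by
  unfold ec; rw [ct_false h]; norm_num

lemma neg_one_pow_add_two (j : ℕ) : (-1 : ℂ) ^ (j + 2) = (-1) ^ j := by rw [pow_add]; simp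

lemma FF_j2 (x β : Eis) (σ : ℂ) (i j : ℕ) :
    FF j x β σ i (j + 2) = ec (β.re : ZMod 3) (β.im : ZMod 3) ((j : ZMod 3) + 2) i *
      (P2 x i + σ * (-1) ^ j * conj (P2 x i)) := by
  unfold FF
  have k := c2_iff (β := β) (i := i) (l := j + 2)
  have e : (((j + 2 : ℕ)) : ZMod 3) = (j : ZMod 3) + 2 := by push_cast; rfl
  rw [e] at k
  rw [wl_j2, wl_j2, neg_one_pow_add_two]
  by_cases h : c2 (β.re : ZMod 3) (β.im : ZMod 3) ((j : ZMod 3) + 2) i
  · rw [if_pos (k.mpr h), if_pos (k.mpr h), ec_pos h]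
    unfold P2
    rw [star_ea, one_mul, one_mul, neg_one_mul, neg_neg]
  · rw [if_neg (fun h' => h (k.mp h')), if_neg (fun h' => h (k.mp h')), ec_neg h]; simp

lemma FF_j3 (x β : Eis) (σ : ℂ) (i j : ℕ) :
    FF j x β σ i (j + 3) = ec (β.re : ZMod 3) (β.im : ZMod 3) (j : ZMod 3) i *
      (P3 x i - σ * (-1) ^ j * conj (P3 x i)) := by
  unfold FF
  have k := c2_iff (β := β) (i := i) (l := j + 3)
  have e3 : (((j + 3 : ℕ) : ZMod 3)) = (j : ZMod 3) := by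
    push_cast
    have : (3 : ZMod 3) = 0 := by decide
    rw [this, add_zero]
  rw [e3] at k
  rw [wl_j3, wl_j3]
  by_cases h : c2 (β.re : ZMod 3) (β.im : ZMod 3) (j : ZMod 3) i
  · rw [if_pos (k.mpr h), if_pos (k.mpr h), ec_pos h]
    unfold P3
    rw [star_ea, one_mul, one_mul, pow_add, neg_one_mul, neg_neg]; ring
  · rw [if_neg (fun h' => h (k.mp h')), if_neg (fun h' => h (k.mp h')), ec_neg h]; simp

lemma FF_h (x β : Eis) (σ : ℂ) (i j n : ℕ) (hn : 4 ≤ n) :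
    FF j x β σ i (j + n) = ec (β.re : ZMod 3) (β.im : ZMod 3) ((j : ZMod 3) + n) i *
      (1 + σ * (-1) ^ j * (-1) ^ n) := by
  unfold FF
  have k := c2_iff (β := β) (i := i) (l := j + n)
  have e : (((j + n : ℕ)) : ZMod 3) = (j : ZMod 3) + n := by push_cast; rfl
  rw [e] at k
  rw [wl_high (by omega), wl_high (by omega)]
  by_cases h : c2 (β.re : ZMod 3) (β.im : ZMod 3) ((j : ZMod 3) + n) i
  · rw [if_pos (k.mpr h), ec_pos h, pow_add]; ring
  · rw [if_neg (fun h' => h (k.mp h')), ec_neg h]; simp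

/-! ### the polynomial `(1 - Z) FF` -/

/-- `FF(l) - FF(l-6)` -/
def QF (j : ℕ) (x β : Eis) (σ : ℂ) (i l : ℕ) : ℂ :=
  FF j x β σ i l - (if 6 ≤ l then FF j x β σ i (l - 6) else 0)

lemma QF_low (hx : ¬ sq3 ∣ x) (hl : l < j) : QF j x β σ i l = 0 := by
  unfold QF
  rw [FF_low hx hl]
  by_cases h : 6 ≤ l
  · rw [if_pos h, FF_low hx (by omega), sub_zero]
  · rw [if_neg h, sub_zero]

lemma QF_small (hx : ¬ sq3 ∣ x) {n : ℕ} (hn : n < 6) :
    QF j x β σ i (j + n) = FF j x β σ i (j + n) := by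
  unfold QF
  by_cases h : 6 ≤ j + n
  · rw [if_pos h, FF_low (l := j + n - 6) hx (by omega), sub_zero]
  · rw [if_neg h, sub_zero]

lemma QF_large {n : ℕ} :
    QF j x β σ i (j + (n + 6)) = FF j x β σ i (j + (n + 6)) - FF j x β σ i (j + n) := by
  unfold QF
  rw [if_pos (by omega), show j + (n + 6) - 6 = j + n by omega]

lemma cast6 (a : ZMod 3) : a + 6 = a := by
  have : (6 : ZMod 3) = 0 := by decide
  rw [this, add_zero]

lemma QF_zero {n : ℕ} (hn : 10 ≤ n) : QF j x β σ i (j + n) = 0 := by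
  obtain ⟨m, rfl⟩ : ∃ m, n = m + 6 := ⟨n - 6, by omega⟩
  rw [QF_large, FF_h _ _ _ _ _ _ (by omega), FF_h _ _ _ _ _ _ (by omega),
    show (((m + 6 : ℕ)) : ZMod 3) = (m : ZMod 3) + 6 by push_cast; rfl, cast6, show (-1 : ℂ) ^ (m + 6) = (-1) ^ m by rw [pow_add]; norm_num, sub_self]

lemma ct_cases (P : Prop) [Decidable P] : ct P = 0 ∨ ct P = 1 := by
  by_cases h : P
  · right; exact ct_true h
  · left; exact ct_false h

/-- the ten values -/
lemma QF_values (hx : ¬ sq3 ∣ x) (β : Eis) (σ : ℂ) (i j : ℕ) :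
    let b := (β.re : ZMod 3); let c := (β.im : ZMod 3); let J := (j : ZMod 3)
    let τ : ℂ := σ * (-1) ^ j
    let e2 : ℂ := ec b c (J + 2) i
    let e3 : ℂ := ec b c J i
    let e4 : ℂ := ec b c (J + 1) i
    QF j x β σ i (j + 0) = FF j x β σ i j ∧
    QF j x β σ i (j + 1) = FF j x β σ i (j + 1) ∧
    QF j x β σ i (j + 2) = e2 * (P2 x i + τ * conj (P2 x i)) ∧
    QF j x β σ i (j + 3) = e3 * (P3 x i - τ * conj (P3 x i)) ∧
    QF j x β σ i (j + 4) = e4 * (1 + τ) ∧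
    QF j x β σ i (j + 5) = e2 * (1 - τ) ∧
    QF j x β σ i (j + 6) = e3 * (1 + τ) - FF j x β σ i j ∧
    QF j x β σ i (j + 7) = e4 * (1 - τ) - FF j x β σ i (j + 1) ∧
    QF j x β σ i (j + 8) = e2 * (1 + τ) - e2 * (P2 x i + τ * conj (P2 x i)) ∧
    QF j x β σ i (j + 9) = e3 * (1 - τ) - e3 * (P3 x i - τ * conj (P3 x i)) := by
  intro b c J τ e2 e3 e4
  have z4 : ((4 : ℕ) : ZMod 3) = 1 := by decide
  have z5 : ((5 : ℕ) : ZMod 3) = 2 := by decide
  have z6 : ((0 + 6 : ℕ) : ZMod 3) = 0 := by decide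
  have z7 : ((1 + 6 : ℕ) : ZMod 3) = 1 := by decide
  have z8 : ((2 + 6 : ℕ) : ZMod 3) = 2 := by decide
  have z9 : ((3 + 6 : ℕ) : ZMod 3) = 0 := by decide
  refine ⟨?_, ?_, ?_, ?_, ?_, ?_, ?_, ?_, ?_, ?_⟩
  · rw [QF_small hx (by norm_num), add_zero]
  · rw [QF_small hx (by norm_num)]
  · rw [QF_small hx (by norm_num), FF_j2]
  · rw [QF_small hx (by norm_num), FF_j3]
  · rw [QF_small hx (by norm_num), FF_h _ _ _ _ _ 4 le_rfl, z4]
    norm_num [e4, b, c, J, τ]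
  · rw [QF_small hx (by norm_num), FF_h _ _ _ _ _ 5 (by norm_num), z5]
    norm_num [e2, b, c, J, τ]
    left; ring
  · have := QF_large (j := j) (x := x) (β := β) (σ := σ) (i := i) (n := 0)
    rw [FF_h _ _ _ _ _ (0 + 6) (by norm_num), z6, add_zero, add_zero] at this
    rw [show (6 : ℕ) = 0 + 6 by norm_num, this]
    norm_num [e3, b, c, J, τ]
  · have := QF_large (j := j) (x := x) (β := β) (σ := σ) (i := i) (n := 1)
    rw [FF_h _ _ _ _ _ (1 + 6) (by norm_num), z7] at this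
    rw [show (7 : ℕ) = 1 + 6 by norm_num, this]
    norm_num [e4, b, c, J, τ]
    left; ring
  · have := QF_large (j := j) (x := x) (β := β) (σ := σ) (i := i) (n := 2)
    rw [FF_h _ _ _ _ _ (2 + 6) (by norm_num), z8, FF_j2] at this
    rw [show (8 : ℕ) = 2 + 6 by norm_num, this]
    norm_num [e2, b, c, J, τ]
  · have := QF_large (j := j) (x := x) (β := β) (σ := σ) (i := i) (n := 3)
    rw [FF_h _ _ _ _ _ (3 + 6) (by norm_num), z9, FF_j3, add_zero] at this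
    rw [show (9 : ℕ) = 3 + 6 by norm_num, this]
    norm_num [e3, b, c, J, τ]
    left; ring

end Crest.Agent.R017.NL64
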