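import Crest.Agent.R017.NL3_64

/-!
# Row 17 (A, norm): autocorrelation of the local sums at `λ`, IV

`NN0 = 10`, `NN1 = 0`, `NN2 = -3`, `NN3` : all higher lags vanish.
-/

set_option autoImplicit false

noncomputable section

open Complex
open scoped ComplexConjugate

namespace Crest.Agent.R017.NL64

open Crest.Agent.R012 Crest.Agent.R012.Eis Crest.Agent.R012.Gauss880 Crest.Agent.R017.Loc266
open Crest.Agent.R017.Sx440 Crest.Agent.R017.Kub664 Crest.Agent.R017.Tw266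
open Crest.Agent.R017.Rw266 Crest.Agent.R017.GG90 Crest.Agent.R017.LamP64
open Crest.Agent.R017.GL64

/-! ### algebra -/

section algebra

variable {P P' R R' τ : ℂ}

lemma alg_G_one (hτ : τ = 1 ∨ τ = -1) (h1 : P = 1) (h2 : P' = 1) :
    (P + τ * P') * (P' + τ * P) + (1 - τ) * (1 - τ) +
      ((1 + τ) - (P + τ * P')) * ((1 + τ) - (P' + τ * P)) = 4 := by
  subst h1 h2
  rcases hτ with rfl | rfl <;> norm_num

lemma alg_G_gen (hτ : τ = 1 ∨ τ = -1) (hn : P * P' = 1) (hs : P + P' = -1) :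
    (P + τ * P') * (P' + τ * P) + (1 - τ) * (1 - τ) +
      ((1 + τ) - (P + τ * P')) * ((1 + τ) - (P' + τ * P)) = 10 := by
  rcases hτ with rfl | rfl
  · linear_combination (2 * (P + P') - 6) * hs
  · linear_combination 8 * hn - 2 * (P + P' - 1) * hs

lemma alg_L_one (hτ : τ = 1 ∨ τ = -1) (h1 : P = 1) (h2 : P' = 1) :
    (P + τ * P') * ((1 + τ) - (P' + τ * P)) = 0 := by
  subst h1 h2
  rcases hτ with rfl | rfl <;> norm_num

lemma alg_L_gen (hτ : τ = 1 ∨ τ = -1) (hn : P * P' = 1) (hs : P + P' = -1) :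
    (P + τ * P') * ((1 + τ) - (P' + τ * P)) = -3 := by
  rcases hτ with rfl | rfl
  · linear_combination (-(P + P') + 3) * hs
  · linear_combination -4 * hn + (P + P' - 1) * hs

lemma alg_M (hτ : τ = 1 ∨ τ = -1) :
    (P + τ * P') * (1 - τ) - (1 - τ) * ((1 + τ) - (P' + τ * P)) = 0 := by
  rcases hτ with rfl | rfl <;> ring

end algebra

variable {j : ℕ} {x β : Eis} {σ : ℂ} {i : ℕ}

lemma ec_cases (b c L : ZMod 3) (i : ℕ) : ec b c L i = 0 ∨ ec b c L i = 1 := by
  by_cases h : c2 b c L i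
  · right; exact ec_pos h
  · left; exact ec_neg h

lemma conj_ec (b c L : ZMod 3) (i : ℕ) : conj (ec b c L i) = ec b c L i := by
  rcases ec_cases b c L i with h | h <;> rw [h] <;> simp

lemma ec_mul_self (b c L : ZMod 3) (i : ℕ) : ec b c L i * ec b c L i = ec b c L i := by
  rcases ec_cases b c L i with h | h <;> rw [h] <;> simp

/-- `τ = σ (-1)^j` -/
lemma tau_cases (hσ : σ = 1 ∨ σ = -1) (j : ℕ) : σ * (-1) ^ j = 1 ∨ σ * (-1) ^ j = -1 := by
  rcases neg_one_pow_eq_or ℂ j with h | h <;> rcases hσ with rfl | rfl <;> rw [h] <;> simp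

/-- `FF_j` and class `j` exclude each other -/
lemma FF_j_ec (hx : ¬ sq3 ∣ x) (hσ : σ = 1 ∨ σ = -1) (hi : i < 3) :
    FF j x β σ i j * ec (β.re : ZMod 3) (β.im : ZMod 3) (j : ZMod 3) i = 0 := by
  by_cases h : c2 (β.re : ZMod 3) (β.im : ZMod 3) (j : ZMod 3) i
  · have h1 := FF_j (β := β) hx hσ hi (j := j)
    have h2 := excl0 _ _ (β.re : ZMod 3) (β.im : ZMod 3) (j : ZMod 3) 1 (res_ne hx) (by decide)
      ⟨i, hi⟩
    have h3 := excl0 _ _ (β.re : ZMod 3) (β.im : ZMod 3) (j : ZMod 3) (-1) (res_ne hx) (by decide)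
      ⟨i, hi⟩
    rw [ct_false (fun h' => h2 h' h), ct_false (fun h' => h3 h' h)] at h1
    have : FF j x β σ i j = 0 := by simpa using h1
    rw [this, zero_mul]
  · rw [ec_neg h, mul_zero]

lemma FF_j1_ec (hx : ¬ sq3 ∣ x) (hσ : σ = 1 ∨ σ = -1) (hi : i < 3) :
    FF j x β σ i (j + 1) * ec (β.re : ZMod 3) (β.im : ZMod 3) ((j : ZMod 3) + 1) i = 0 := by
  by_cases h : c2 (β.re : ZMod 3) (β.im : ZMod 3) ((j : ZMod 3) + 1) i
  · have h1 := FF_j1 (β := β) hx hσ hi (j := j)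
    have h2 := excl1 _ _ (β.re : ZMod 3) (β.im : ZMod 3) (j : ZMod 3) 1 (res_ne hx) (by decide)
      ⟨i, hi⟩
    have h3 := excl1 _ _ (β.re : ZMod 3) (β.im : ZMod 3) (j : ZMod 3) (-1) (res_ne hx) (by decide)
      ⟨i, hi⟩
    rw [ct_false (fun h' => h2 h' h), ct_false (fun h' => h3 h' h)] at h1
    have : FF j x β σ i (j + 1) = 0 := by simpa using h1
    rw [this, zero_mul]
  · rw [ec_neg h, mul_zero]

/-- lag 0, one row -/
lemma row0 (hx : ¬ sq3 ∣ x) (hσ : σ = 1 ∨ σ = -1) (hi : i < 3) :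
    ∑ n ∈ Finset.range 10, QF j x β σ i (j + n) * conj (QF j x β σ i (j + n)) =
      2 * (FF j x β σ i j * conj (FF j x β σ i j)) +
      2 * (FF j x β σ i (j + 1) * conj (FF j x β σ i (j + 1))) +
      4 * (ec (β.re : ZMod 3) (β.im : ZMod 3) ((j : ZMod 3) + 2) i +
        ec (β.re : ZMod 3) (β.im : ZMod 3) (j : ZMod 3) i +
        ec (β.re : ZMod 3) (β.im : ZMod 3) ((j : ZMod 3) + 1) i) +
      6 * (ec (β.re : ZMod 3) (β.im : ZMod 3) ((j : ZMod 3) + 2) i *
          (ct (zi (x.re : ZMod 3) (x.im : ZMod 3) i ≠ 0) : ℂ) +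
        ec (β.re : ZMod 3) (β.im : ZMod 3) (j : ZMod 3) i) := by
  obtain ⟨v0, v1, v2, v3, v4, v5, v6, v7, v8, v9⟩ := QF_values hx β σ i j
  have k0 := FF_j_ec (β := β) (j := j) hx hσ hi
  have k1 := FF_j1_ec (β := β) (j := j) hx hσ hi
  have k0' := congrArg conj k0
  have k1' := congrArg conj k1
  rw [map_mul, conj_ec, map_zero] at k0' k1'
  have hτ := tau_cases hσ j
  simp only [Finset.sum_range_succ, Finset.sum_range_zero, zero_add]
  rw [v0, v1, v2, v3, v4, v5, v6, v7, v8, v9]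
  have hτc : conj (σ * (-1) ^ j) = σ * (-1) ^ j := by
    rcases hτ with h | h <;> rw [h] <;> simp
  simp only [map_sub, map_add, map_mul (starRingEnd ℂ) (ec _ _ _ _), conj_ec, map_one,
    map_mul (starRingEnd ℂ) (σ * (-1) ^ j), hτc, Complex.conj_conj]
  have hG3 := alg_G_gen (P := P3 x i) (P' := conj (P3 x i)) (τ := -(σ * (-1) ^ j))
    (by rcases hτ with h | h <;> rw [h] <;> simp) (P3_norm x i) (P3_sum hx i).1
  have hG2 : (P2 x i + σ * (-1) ^ j * conj (P2 x i)) * (conj (P2 x i) + σ * (-1) ^ j * P2 x i) +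
      (1 - σ * (-1) ^ j) * (1 - σ * (-1) ^ j) +
      ((1 + σ * (-1) ^ j) - (P2 x i + σ * (-1) ^ j * conj (P2 x i))) *
      ((1 + σ * (-1) ^ j) - (conj (P2 x i) + σ * (-1) ^ j * P2 x i)) =
      4 + 6 * (ct (zi (x.re : ZMod 3) (x.im : ZMod 3) i ≠ 0) : ℂ) := by
    by_cases hz : zi (x.re : ZMod 3) (x.im : ZMod 3) i = 0
    · rw [ct_false (fun h => h hz)]
      have h1 := P2_one hi hz
      have := alg_G_one (P := P2 x i) (P' := conj (P2 x i)) hτ h1 (by rw [h1]; simp)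
      rw [this]; norm_num
    · rw [ct_true hz]
      have := alg_G_gen (P := P2 x i) (P' := conj (P2 x i)) hτ (P2_norm x i) (P2_sum hi hz).1
      rw [this]; norm_num
  have hττ : (σ * (-1) ^ j) * (σ * (-1) ^ j) = 1 := by
    rcases hτ with h | h <;> rw [h] <;> norm_num
  generalize FF j x β σ i j = a at *
  generalize FF j x β σ i (j + 1) = b at *
  generalize conj a = a' at *
  generalize conj b = b' at *
  generalize P2 x i = P at *
  generalize P3 x i = R at *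
  generalize conj P = P' at *
  generalize conj R = R' at *
  generalize σ * (-1) ^ j = τ at *
  have q2 := ec_mul_self (β.re : ZMod 3) (β.im : ZMod 3) ((j : ZMod 3) + 2) i
  have q3 := ec_mul_self (β.re : ZMod 3) (β.im : ZMod 3) (j : ZMod 3) i
  have q4 := ec_mul_self (β.re : ZMod 3) (β.im : ZMod 3) ((j : ZMod 3) + 1) i
  generalize ec (β.re : ZMod 3) (β.im : ZMod 3) ((j : ZMod 3) + 2) i = e2 at *
  generalize ec (β.re : ZMod 3) (β.im : ZMod 3) (j : ZMod 3) i = e3 at *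
  generalize ec (β.re : ZMod 3) (β.im : ZMod 3) ((j : ZMod 3) + 1) i = e4 at *
  generalize (ct (zi (x.re : ZMod 3) (x.im : ZMod 3) i ≠ 0) : ℂ) = np at *
  linear_combination (e2 * e2) * hG2 + (4 + 6 * np) * q2 + (e3 * e3) * hG3 + 10 * q3 +
    (2 + 2 * τ * τ) * q4 + 2 * e4 * hττ - (1 + τ) * k0 - (1 + τ) * k0' - (1 - τ) * k1 -
    (1 - τ) * k1'

/-- lag 1, one row -/
lemma row1 (hx : ¬ sq3 ∣ x) (hσ : σ = 1 ∨ σ = -1) (hi : i < 3) :
    ∑ n ∈ Finset.range 10, (-1 : ℂ) ^ n * (QF j x β σ i (j + n) * conj (QF j x β σ i (j + (n + 3))))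
      = 0 := by
  obtain ⟨v0, v1, v2, v3, v4, v5, v6, v7, v8, v9⟩ := QF_values hx β σ i j
  have v10 := QF_zero (j := j) (x := x) (β := β) (σ := σ) (i := i) (n := 10) le_rfl
  have v11 := QF_zero (j := j) (x := x) (β := β) (σ := σ) (i := i) (n := 11) (by norm_num)
  have v12 := QF_zero (j := j) (x := x) (β := β) (σ := σ) (i := i) (n := 12) (by norm_num)
  have k0 := FF_j_ec (β := β) (j := j) hx hσ hi
  have k1 := FF_j1_ec (β := β) (j := j) hx hσ hi
  have k0' := congrArg conj k0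
  have k1' := congrArg conj k1
  rw [map_mul, conj_ec, map_zero] at k0' k1'
  have hτ := tau_cases hσ j
  simp only [Finset.sum_range_succ, Finset.sum_range_zero, zero_add]
  simp only [show (1 + 3 : ℕ) = 4 by norm_num, show (2 + 3 : ℕ) = 5 by norm_num,
    show (3 + 3 : ℕ) = 6 by norm_num, show (4 + 3 : ℕ) = 7 by norm_num,
    show (5 + 3 : ℕ) = 8 by norm_num, show (6 + 3 : ℕ) = 9 by norm_num,
    show (7 + 3 : ℕ) = 10 by norm_num, show (8 + 3 : ℕ) = 11 by norm_num,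
    show (9 + 3 : ℕ) = 12 by norm_num]
  rw [v0, v1, v2, v3, v4, v5, v6, v7, v8, v9, v10, v11, v12]
  have hτc : conj (σ * (-1) ^ j) = σ * (-1) ^ j := by
    rcases hτ with h | h <;> rw [h] <;> simp
  simp only [map_sub, map_add, map_mul (starRingEnd ℂ) (ec _ _ _ _), conj_ec, map_one, map_zero,
    map_mul (starRingEnd ℂ) (σ * (-1) ^ j), hτc, Complex.conj_conj]
  have hM2 := alg_M (P := P2 x i) (P' := conj (P2 x i)) hτ
  have hM3 := alg_M (P := P3 x i) (P' := conj (P3 x i)) (τ := -(σ * (-1) ^ j))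
    (by rcases hτ with h | h <;> rw [h] <;> simp)
  have hττ : (σ * (-1) ^ j) * (σ * (-1) ^ j) = 1 := by
    rcases hτ with h | h <;> rw [h] <;> norm_num
  generalize FF j x β σ i j = a at *
  generalize FF j x β σ i (j + 1) = b at *
  generalize conj a = a' at *
  generalize conj b = b' at *
  generalize P2 x i = P at *
  generalize P3 x i = R at *
  generalize conj P = P' at *
  generalize conj R = R' at *
  generalize σ * (-1) ^ j = τ at *
  generalize ec (β.re : ZMod 3) (β.im : ZMod 3) ((j : ZMod 3) + 2) i = e2 at *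
  generalize ec (β.re : ZMod 3) (β.im : ZMod 3) (j : ZMod 3) i = e3 at *
  generalize ec (β.re : ZMod 3) (β.im : ZMod 3) ((j : ZMod 3) + 1) i = e4 at *
  norm_num
  linear_combination (R' - τ * R - (1 - τ) + (R' - τ * R)) * k0 - (1 + τ) * k1 -
    (1 + τ) * k1' + (R - τ * R') * k0' + (e2 * e2) * hM2 - (e3 * e3) * hM3 - e4 * e4 * hττ

/-- lag 2, one row -/
lemma row2 (hx : ¬ sq3 ∣ x) (hσ : σ = 1 ∨ σ = -1) (hi : i < 3) :
    ∑ n ∈ Finset.range 10, (QF j x β σ i (j + n) * conj (QF j x β σ i (j + (n + 6)))) =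
      -(FF j x β σ i j * conj (FF j x β σ i j)) -
      (FF j x β σ i (j + 1) * conj (FF j x β σ i (j + 1))) -
      3 * (ec (β.re : ZMod 3) (β.im : ZMod 3) ((j : ZMod 3) + 2) i *
          (ct (zi (x.re : ZMod 3) (x.im : ZMod 3) i ≠ 0) : ℂ) +
        ec (β.re : ZMod 3) (β.im : ZMod 3) (j : ZMod 3) i) := by
  obtain ⟨v0, v1, v2, v3, v4, v5, v6, v7, v8, v9⟩ := QF_values hx β σ i j
  have v10 := QF_zero (j := j) (x := x) (β := β) (σ := σ) (i := i) (n := 10) le_rfl
  have v11 := QF_zero (j := j) (x := x) (β := β) (σ := σ) (i := i) (n := 11) (by norm_num)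
  have v12 := QF_zero (j := j) (x := x) (β := β) (σ := σ) (i := i) (n := 12) (by norm_num)
  have v13 := QF_zero (j := j) (x := x) (β := β) (σ := σ) (i := i) (n := 13) (by norm_num)
  have v14 := QF_zero (j := j) (x := x) (β := β) (σ := σ) (i := i) (n := 14) (by norm_num)
  have v15 := QF_zero (j := j) (x := x) (β := β) (σ := σ) (i := i) (n := 15) (by norm_num)
  have k0 := FF_j_ec (β := β) (j := j) hx hσ hi
  have k1 := FF_j1_ec (β := β) (j := j) hx hσ hi
  have k0' := congrArg conj k0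
  have k1' := congrArg conj k1
  rw [map_mul, conj_ec, map_zero] at k0' k1'
  have hτ := tau_cases hσ j
  simp only [Finset.sum_range_succ, Finset.sum_range_zero, zero_add]
  simp only [show (1 + 6 : ℕ) = 7 by norm_num, show (2 + 6 : ℕ) = 8 by norm_num,
    show (3 + 6 : ℕ) = 9 by norm_num, show (4 + 6 : ℕ) = 10 by norm_num,
    show (5 + 6 : ℕ) = 11 by norm_num, show (6 + 6 : ℕ) = 12 by norm_num,
    show (7 + 6 : ℕ) = 13 by norm_num, show (8 + 6 : ℕ) = 14 by norm_num,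
    show (9 + 6 : ℕ) = 15 by norm_num]
  rw [v0, v1, v2, v3, v4, v5, v6, v7, v8, v9, v10, v11, v12, v13, v14, v15]
  have hτc : conj (σ * (-1) ^ j) = σ * (-1) ^ j := by
    rcases hτ with h | h <;> rw [h] <;> simp
  simp only [map_sub, map_add, map_mul (starRingEnd ℂ) (ec _ _ _ _), conj_ec, map_one, map_zero,
    map_mul (starRingEnd ℂ) (σ * (-1) ^ j), hτc, Complex.conj_conj]
  have hL3 := alg_L_gen (P := P3 x i) (P' := conj (P3 x i)) (τ := -(σ * (-1) ^ j))
    (by rcases hτ with h | h <;> rw [h] <;> simp) (P3_norm x i) (P3_sum hx i).1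
  have hL2 : (P2 x i + σ * (-1) ^ j * conj (P2 x i)) *
      ((1 + σ * (-1) ^ j) - (conj (P2 x i) + σ * (-1) ^ j * P2 x i)) =
      - 3 * (ct (zi (x.re : ZMod 3) (x.im : ZMod 3) i ≠ 0) : ℂ) := by
    by_cases hz : zi (x.re : ZMod 3) (x.im : ZMod 3) i = 0
    · rw [ct_false (fun h => h hz)]
      have h1 := P2_one hi hz
      have := alg_L_one (P := P2 x i) (P' := conj (P2 x i)) hτ h1 (by rw [h1]; simp)
      rw [this]; norm_num
    · rw [ct_true hz]
      have := alg_L_gen (P := P2 x i) (P' := conj (P2 x i)) hτ (P2_norm x i) (P2_sum hi hz).1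
      rw [this]; norm_num
  generalize FF j x β σ i j = a at *
  generalize FF j x β σ i (j + 1) = b at *
  generalize conj a = a' at *
  generalize conj b = b' at *
  generalize P2 x i = P at *
  generalize P3 x i = R at *
  generalize conj P = P' at *
  generalize conj R = R' at *
  generalize σ * (-1) ^ j = τ at *
  have q2 := ec_mul_self (β.re : ZMod 3) (β.im : ZMod 3) ((j : ZMod 3) + 2) i
  have q3 := ec_mul_self (β.re : ZMod 3) (β.im : ZMod 3) (j : ZMod 3) i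
  generalize ec (β.re : ZMod 3) (β.im : ZMod 3) ((j : ZMod 3) + 2) i = e2 at *
  generalize ec (β.re : ZMod 3) (β.im : ZMod 3) (j : ZMod 3) i = e3 at *
  generalize ec (β.re : ZMod 3) (β.im : ZMod 3) ((j : ZMod 3) + 1) i = e4 at *
  generalize (ct (zi (x.re : ZMod 3) (x.im : ZMod 3) i ≠ 0) : ℂ) = np at *
  linear_combination (1 + τ) * k0 + (1 - τ) * k1 + (e2 * e2) * hL2 - 3 * np * q2 +
    (e3 * e3) * hL3 - 3 * q3

/-- higher lags -/
lemma row3 (hx : ¬ sq3 ∣ x) (hσ : σ = 1 ∨ σ = -1) (hi : i < 3) {d : ℕ} (hd : 3 ≤ d) (n : ℕ) :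
    QF j x β σ i (j + n) * conj (QF j x β σ i (j + (n + 3 * d))) = 0 := by
  by_cases h : 10 ≤ n + 3 * d
  · rw [QF_zero h, map_zero, mul_zero]
  · have hn : n = 0 := by omega
    have hd3 : d = 3 := by omega
    subst hn hd3
    obtain ⟨v0, v1, v2, v3, v4, v5, v6, v7, v8, v9⟩ := QF_values hx β σ i j
    have k0 := FF_j_ec (β := β) (j := j) hx hσ hi
    rw [show (0 + 3 * 3 : ℕ) = 9 by norm_num, v0, v9, map_sub,
      map_mul (starRingEnd ℂ) (ec _ _ _ _), map_mul (starRingEnd ℂ) (ec _ _ _ _), conj_ec]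
    linear_combination (conj (1 - σ * (-1) ^ j) -
      conj (P3 x i - σ * (-1) ^ j * conj (P3 x i))) * k0

/-! ### totals -/

theorem NN0 (hx : ¬ sq3 ∣ x) (hσ : σ = 1 ∨ σ = -1) :
    ∑ i ∈ Finset.range 3, ∑ n ∈ Finset.range 10,
      QF j x β σ i (j + n) * conj (QF j x β σ i (j + n)) = 10 := by
  rw [Finset.sum_congr rfl (fun i hi => row0 (j := j) (β := β) hx hσ (Finset.mem_range.mp hi))]
  have h1 := congrArg (Nat.cast : ℕ → ℂ) (count1 (x.re : ZMod 3) (x.im : ZMod 3) (β.re : ZMod 3)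
    (β.im : ZMod 3) (j : ZMod 3) (res_ne hx))
  have h2 := congrArg (Nat.cast : ℕ → ℂ) (count2 (β.re : ZMod 3)
    (β.im : ZMod 3) (j : ZMod 3))
  rw [Fin.sum_univ_three, Fin.sum_univ_three] at h1
  rw [Fin.sum_univ_three] at h2
  rw [Finset.sum_range_succ, Finset.sum_range_succ, Finset.sum_range_succ, Finset.sum_range_zero,
    zero_add]
  rw [FF_j hx hσ (by norm_num), FF_j hx hσ (by norm_num), FF_j hx hσ (by norm_num),
    FF_j1 hx hσ (by norm_num), FF_j1 hx hσ (by norm_num), FF_j1 hx hσ (by norm_num)]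
  unfold ec
  push_cast at h1 h2 ⊢
  simp only [Fin.val_zero, Fin.val_one, Fin.val_two] at h1 h2
  linear_combination 2 * h1 + 4 * h2

theorem NN1 (hx : ¬ sq3 ∣ x) (hσ : σ = 1 ∨ σ = -1) :
    ∑ i ∈ Finset.range 3, ∑ n ∈ Finset.range 10,
      (-1 : ℂ) ^ n * (QF j x β σ i (j + n) * conj (QF j x β σ i (j + (n + 3)))) = 0 :=
  Finset.sum_eq_zero (fun i hi => row1 (j := j) (β := β) hx hσ (Finset.mem_range.mp hi))

theorem NN2 (hx : ¬ sq3 ∣ x) (hσ : σ = 1 ∨ σ = -1) :
    ∑ i ∈ Finset.range 3, ∑ n ∈ Finset.range 10,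
      QF j x β σ i (j + n) * conj (QF j x β σ i (j + (n + 6))) = -3 := by
  rw [Finset.sum_congr rfl (fun i hi => row2 (j := j) (β := β) hx hσ (Finset.mem_range.mp hi))]
  have h1 := congrArg (Nat.cast : ℕ → ℂ) (count1 (x.re : ZMod 3) (x.im : ZMod 3) (β.re : ZMod 3)
    (β.im : ZMod 3) (j : ZMod 3) (res_ne hx))
  rw [Fin.sum_univ_three, Fin.sum_univ_three] at h1
  rw [Finset.sum_range_succ, Finset.sum_range_succ, Finset.sum_range_succ, Finset.sum_range_zero,
    zero_add]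
  rw [FF_j hx hσ (by norm_num), FF_j hx hσ (by norm_num), FF_j hx hσ (by norm_num),
    FF_j1 hx hσ (by norm_num), FF_j1 hx hσ (by norm_num), FF_j1 hx hσ (by norm_num)]
  unfold ec
  push_cast at h1 ⊢
  simp only [Fin.val_zero, Fin.val_one, Fin.val_two] at h1
  linear_combination -h1

end Crest.Agent.R017.NL64
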