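import Crest.Agent.R017.Rw2_266
import Crest.Agent.R017.GlueV_266
import Crest.Agent.R017.F1CT_180

/-!
# Row 17, sextic F2: the vector law for `rowA`, every character (helper266)

* `sum_sy6_six`, `sum_sy6_zero` : `Σ_{y mod k} (y/k)_6`
* `GG_good` : `GG` at a good part `h'`
-/

set_option autoImplicit false

noncomputable section

open Complex
open scoped ComplexConjugate

namespace Crest.Agent.R017.Rw266

open Crest.Agent.R012 Crest.Agent.R012.Eis Crest.Agent.R012.Gauss880 Crest.Agent.R017.Loc266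
open Crest.Agent.R017.Sx440 Crest.Agent.R017.Kub664 Crest.Agent.R017.Tw266
open Crest.Agent.R017.Orth681 Crest.Agent.R017.Glue681

variable {N : Eis}

/-! ### complete sums of the sextic symbol -/

lemma gd_one : Gd 1 := ⟨isPrim_one, od_one⟩

lemma Gd.pow {j : Eis} (hj : Gd j) : ∀ n : ℕ, Gd (j ^ n)
  | 0 => by rw [pow_zero]; exact gd_one
  | n + 1 => by rw [pow_succ]; exact (Gd.pow hj n).mul hj

lemma crt_pm {p m : Eis} (h : IsCoprime p m) (x y : Eis) : ∃ u, p ∣ u - x ∧ m ∣ u - y := by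
  obtain ⟨a, b, hab⟩ := h
  refine ⟨x * (b * m) + y * (a * p), ⟨a * (y - x), ?_⟩, ⟨b * (x - y), ?_⟩⟩
  · linear_combination x * hab
  · linear_combination y * hab

lemma cop_of_congr {p u x : Eis} (h : p ∣ u - x) (hx : IsCoprime x p) : IsCoprime u p :=
  (cop_congr h).mpr hx

theorem sq_of_trivial : ∀ (n : ℕ) (k : Eis), nm k ≤ n → Gd k →
    (∀ u, IsCoprime u k → sy2 u k = 1) → ∃ j, Gd j ∧ k = j ^ 2 := by
  intro n
  induction n with
  | zero =>
    intro k hk hg _
    have := nm_pos.mpr hg.ne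
    omega
  | succ n ih =>
    intro k hk hg h
    by_cases h1 : k = 1
    · exact ⟨1, gd_one, by rw [h1]; ring⟩
    obtain ⟨p, hp, hpp, hpk⟩ := Char766.exists_prim_prime_dvd hg.1 h1
    have hfm : FiniteMultiplicity p k := FiniteMultiplicity.of_prime_left hp hg.ne
    obtain ⟨m, hm, hnd⟩ := hfm.exists_eq_pow_mul_and_not_dvd
    set e := multiplicity p k with he
    have he0 : e ≠ 0 := by
      intro h0
      rw [h0, pow_zero, one_mul] at hm
      rw [hm] at hpk
      exact hnd hpk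
    have hop : Od p := hg.2.of_dvd hpk
    have hgp : Gd p := ⟨hpp, hop⟩
    have hmk : m ∣ k := ⟨p ^ e, by rw [mul_comm]; exact hm⟩
    have hgm : Gd m := ⟨Sym645.prim_of_mul_left (hgp.pow e).1 (hm ▸ hg.1), hg.2.of_dvd hmk⟩
    have hcop : IsCoprime p m := (hp.irreducible.coprime_iff_not_dvd).mpr hnd
    have hpe : (p ^ e : Eis) ≠ 0 := pow_ne_zero _ hp.ne_zero
    have key : ∀ u, IsCoprime u p → IsCoprime u m → sy2 u p ^ e * sy2 u m = 1 := by
      intro u h2 h3
      have h4 : IsCoprime u k := by rw [hm]; exact h2.pow_right.mul_right h3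
      have h5 := h u h4
      rw [hm, sy2_mul_right u hpe hgm.ne, sy2_pow_right u hp.ne_zero] at h5
      exact h5
    -- the exponent is even
    obtain ⟨x, hx, hx1, -⟩ := exists_sy2_neg hp hpp hop
    obtain ⟨u, hu1, hu2⟩ := crt_pm hcop x 1
    have e1 := key u (cop_of_congr hu1 hx) (cop_of_congr hu2 isCoprime_one_left)
    rw [sy2_congr hop hu1, sy2_congr hgm.2 hu2, hx1, sy2_one_left hgm.2, mul_one] at e1
    have hev : Even e := by
      rcases Nat.even_or_odd e with h' | h'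
      · exact h'
      · rw [h'.neg_one_pow] at e1
        norm_num at e1
    obtain ⟨f, hf⟩ := hev
    -- induction
    have hm' : ∀ u, IsCoprime u m → sy2 u m = 1 := by
      intro u hu
      obtain ⟨v, hv1, hv2⟩ := crt_pm hcop 1 u
      have e2 := key v (cop_of_congr hv1 isCoprime_one_left) (cop_of_congr hv2 hu)
      rwa [sy2_congr hop hv1, sy2_congr hgm.2 hv2, sy2_one_left hop, one_pow, one_mul] at e2
    have hlt : nm m < nm k := by
      have h2 : nm k = nm p ^ e * nm m := by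
        conv_lhs => rw [hm]
        rw [nm_mul, nm_pow]
      have h3 : 1 < nm p := by
        have h4 := nm_pos.mpr hp.ne_zero
        have h5 : nm p ≠ 1 := fun h' => hp.not_isUnit (isUnit_iff.mpr h')
        omega
      have h6 : 1 < nm p ^ e := Nat.one_lt_pow he0 h3
      have h7 := nm_pos.mpr hgm.ne
      rw [h2]
      nlinarith
    obtain ⟨j, hj, hmj⟩ := ih m (by omega) hgm hm'
    refine ⟨p ^ f * j, (hgp.pow f).mul hj, ?_⟩
    rw [hm, hmj, hf]
    ring

/-- a good element with trivial sextic symbol is a sixth power. -/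
theorem six_of_trivial {k : Eis} (hk : Gd k) (h : ∀ u, IsCoprime u k → sy6 u k = 1) :
    ∃ j, Gd j ∧ k = j ^ 6 := by
  have h3 : ∃ t, k = t ^ 3 := by
    by_contra hn
    obtain ⟨b, -, hb, hb1⟩ := Char766.exists_sy_left_ne_one hk.1 hn
    apply hb1
    rw [← sy6_sq hk.1 hk.2, h b hb, one_pow]
  obtain ⟨t, ht⟩ := h3
  obtain ⟨t', ht', htt⟩ := Cusp852.prim_cube (e := t) (ht ▸ hk.1)
  rw [htt] at ht
  have hgt : Gd t' := ⟨ht', hk.2.of_dvd ⟨t' ^ 2, by rw [ht]; ring⟩⟩
  obtain ⟨j, hj, hj2⟩ := sq_of_trivial (nm t') t' le_rfl hgt (fun u hu => by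
    have h1 : IsCoprime u k := by rw [ht]; exact hu.pow_right
    have h2 := h u h1
    rw [ht, sy6_pow_right u hgt.ne, sy6_cube hgt.1 hgt.2] at h2
    exact h2)
  exact ⟨j, hj, by rw [ht, hj2]; ring⟩

theorem sum_sy6_zero {k : Eis} (hk : Gd k) (hn : ¬ ∃ j, Gd j ∧ k = j ^ 6) :
    sumMod k (fun y => sy6 y k) = 0 := by
  have h1 : ∃ u, IsCoprime u k ∧ sy6 u k ≠ 1 := by
    by_contra hcon
    push Not at hcon
    exact hn (six_of_trivial hk hcon)
  obtain ⟨u, hu, hu1⟩ := h1
  have hch := isCh_sy6 hk.1 hk.2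
  exact SumMod880.sumMod_eq_zero_of_mul hk.ne (fun x y h => hch.per.congr h) hu _ hu1
    (fun x => hch.mul u x)

theorem sum_sy6_six {j : Eis} (hj : Gd j) :
    sumMod (j ^ 6) (fun y => sy6 y (j ^ 6)) = ((nm (j ^ 6) * F1.PL j : ℝ) : ℂ) := by
  have h3 : Gd (j ^ 3) := hj.pow 3
  have e1 : ∀ y, sy6 y (j ^ 6) = sy y (j ^ 3) := by
    intro y
    rw [← sy6_sq h3.1 h3.2, ← sy6_pow_right y h3.ne]
    congr 1
    ring
  rw [sumMod_congr e1, show j ^ 6 = j ^ 3 * j ^ 3 by ring,
    sumMod_of_pmod_dvd h3.ne h3.ne (isCh_sy syG h3.1).per]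
  have e2 := Cusp852.T_cube Sym645.syFacts hj.1
  unfold Cusp852.T at e2
  rw [e2, Theta131.psi_cube hj.1]
  have e3 : F1.PL j = Mob705.PE j := by
    unfold F1.PL
    rw [if_neg hj.1.not_lam_dvd, one_mul]
  rw [e3, nm_mul]
  push_cast
  ring

/-! ### periodicity and congruence -/

lemma sy_per (hN : Lev N) {z : Eis} (hz : z ≠ 0) (hp : ∀ p, Prime p → p ∣ z → p ∣ N)
    {c c' : Eis} (hc : Gd c) (hc' : Gd c') (h : N ∣ c - c') : sy z c = sy z c' := by
  rw [← sy6_sq hc.1 hc.2, ← sy6_sq hc'.1 hc'.2, per_S hN hz hp hc.g6 hc'.g6 h]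

lemma cop_supp {z c : Eis} (hz : z ≠ 0) (hp : ∀ p, Prime p → p ∣ z → p ∣ N)
    (hc : IsCoprime c N) : IsCoprime z c := by
  refine isCoprime_of_prime_dvd (fun h => hz h.1) (fun q hq h1 h2 => ?_)
  have h3 : IsCoprime q q := IsCoprime.of_isCoprime_of_dvd_left
    (IsCoprime.of_isCoprime_of_dvd_right hc (hp q hq h1)) h2
  exact hq.not_isUnit (isCoprime_self.mp h3)

lemma rowA_congr {x : Eis} {g g' : Eis → ℂ} (h : ∀ c, Gd c → IsCoprime c N → g c = g' c) :
    rowA N x g = rowA N x g' := by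
  classical
  funext r
  unfold rowA
  by_cases hc : Gd r.1 ∧ IsCoprime r.1 N
  · rw [if_pos hc, if_pos hc, h _ hc.1 hc.2]
  · rw [if_neg hc, if_neg hc]

lemma GG_congr {x : Eis} {g g' : Eis → ℂ} (h : ∀ c, Gd c → IsCoprime c N → g c = g' c)
    (hS h' : Eis) : GG N x g hS h' = GG N x g' hS h' := by
  classical
  unfold GG
  refine sumMod_congr fun c => ?_
  by_cases hc : Gd c ∧ IsCoprime c N
  · rw [if_pos hc, if_pos hc, h _ hc.1 hc.2]
  · rw [if_neg hc, if_neg hc]

/-- extension of a character of the good classes. -/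
theorem exists_ext (hN : Lev N) {f : Eis → ℂ} (h1 : f 1 = 1)
    (hmul : ∀ a b, Gd a → Gd b → IsCoprime a N → IsCoprime b N → f (a * b) = f a * f b)
    (hper : ∀ a b, Gd a → Gd b → IsCoprime a N → IsCoprime b N → N ∣ a - b → f a = f b) :
    ∃ ψ : Eis → ℂ, IsCh N ψ ∧ (∀ c, Gd c → IsCoprime c N → ψ c = f c) := by
  classical
  have h3N : (3 : Eis) ∣ N := three_dvd_72.trans hN.d72
  have h2N : (2 : Eis) ∣ N := two_dvd_72.trans hN.d72
  have hlN : lam ∣ N := (Dvd.intro_left (-w ^ 2 * lam) (by rw [three_eq]; ring)).trans h3N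
  have hlam : ∀ c, IsCoprime c N → ¬ lam ∣ c := by
    intro c hc h'
    have h4 : IsCoprime lam lam := IsCoprime.of_isCoprime_of_dvd_left
      (IsCoprime.of_isCoprime_of_dvd_right hc hlN) h'
    exact prime_lam.not_isUnit (isCoprime_self.mp h4)
  have hodd : ∀ c, IsCoprime c N → Od c := by
    intro c hc h'
    have h4 : IsCoprime (2 : Eis) 2 := IsCoprime.of_isCoprime_of_dvd_left
      (IsCoprime.of_isCoprime_of_dvd_right hc h2N) h'
    exact prime_two.not_isUnit (isCoprime_self.mp h4)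
  have hcopp : ∀ c, IsCoprime c N → IsCoprime (prim c) N := by
    intro c hc
    exact IsCoprime.of_isCoprime_of_dvd_left hc (prim_associated c).symm.dvd
  have hgd : ∀ c, IsCoprime c N → Gd (prim c) := by
    intro c hc
    exact ⟨prim_isPrim (hlam c hc), hodd _ (hcopp c hc)⟩
  refine ⟨fun c => if IsCoprime c N then f (prim c) else 0, ⟨?_, ?_, ?_, ?_⟩, ?_⟩
  · beta_reduce
    rw [if_pos isCoprime_one_left, isPrim_one.prim_eq, h1]
  · intro a b
    beta_reduce
    by_cases ha : IsCoprime a N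
    · by_cases hb : IsCoprime b N
      · rw [if_pos (ha.mul_left hb), if_pos ha, if_pos hb, prim_mul (hlam a ha) (hlam b hb),
          hmul _ _ (hgd a ha) (hgd b hb) (hcopp a ha) (hcopp b hb)]
      · rw [if_neg (fun h => hb h.of_mul_left_right), if_neg hb, mul_zero]
    · rw [if_neg (fun h => ha h.of_mul_left_left), if_neg ha, zero_mul]
  · intro a t
    beta_reduce
    have hd : N ∣ (a + N * t) - a := ⟨t, by ring⟩
    by_cases ha : IsCoprime a N
    · have ha' : IsCoprime (a + N * t) N := (cop_congr hd).mpr ha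
      rw [if_pos ha, if_pos ha']
      refine hper _ _ (hgd _ ha') (hgd _ ha) (hcopp _ ha') (hcopp _ ha) ?_
      -- the units agree
      obtain ⟨u, hu⟩ := (prim_associated a).symm
      have hua : a = prim a * u := hu.symm
      have hv : (u : Eis) * ((u⁻¹ : Eisˣ) : Eis) = 1 := Units.mul_inv u
      have hpr : IsPrim ((a + N * t) * ((u⁻¹ : Eisˣ) : Eis)) := by
        have e : (a + N * t) * ((u⁻¹ : Eisˣ) : Eis) =
            prim a + N * (t * ((u⁻¹ : Eisˣ) : Eis)) := by
          linear_combination ((u⁻¹ : Eisˣ) : Eis) * hua + (prim a) * hv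
        rw [e]
        refine prim_congr' ?_ (hgd a ha).1
        have : prim a - (prim a + N * (t * ((u⁻¹ : Eisˣ) : Eis))) =
          -(N * (t * ((u⁻¹ : Eisˣ) : Eis))) := by ring
        rw [this, dvd_neg]
        exact h3N.mul_right _
      have e2 : prim (a + N * t) = (a + N * t) * ((u⁻¹ : Eisˣ) : Eis) := by
        refine (prim_isPrim (hlam _ ha')).eq_of_associated hpr ?_
        exact (prim_associated _).symm.trans ⟨u⁻¹, rfl⟩
      rw [e2]
      refine ⟨t * ((u⁻¹ : Eisˣ) : Eis), ?_⟩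
      linear_combination ((u⁻¹ : Eisˣ) : Eis) * hua + (prim a) * hv
    · rw [if_neg ha, if_neg (fun h => ha ((cop_congr hd).mp h))]
  · intro c hc
    beta_reduce
    rw [if_neg hc]
  · intro c hc hcN
    beta_reduce
    rw [if_pos hcN, hc.1.prim_eq]

/-! ### `GG` at good parts -/

lemma Gm.one {γ : Eis → ℂ} (H : Gm N γ) : γ 1 = 1 := by
  have h1 := H.mul 1 1 od_one od_one
  have h2 : rho2 1 1 = 1 := by
    have h3 := rho2_mul_left (a := 1) (b := 1) (c := 1) od_one od_one od_one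
    rw [mul_one, rho2_sq] at h3
    exact h3
  rw [mul_one, h2, mul_one] at h1
  have h4 := H.norm 1 od_one
  have h5 : γ 1 ≠ 0 := by intro h; rw [h, norm_zero] at h4; exact zero_ne_one h4
  exact mul_left_cancel₀ h5 (by rw [← h1, mul_one])

lemma rho2_one_left (c : Eis) (hc : Od c) : rho2 1 c = 1 := by
  have h3 := rho2_mul_left (a := 1) (b := 1) (c := c) od_one od_one hc
  rw [mul_one, rho2_sq] at h3
  exact h3

lemma rho2_one_right (c : Eis) (hc : Od c) : rho2 c 1 = 1 := by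
  rw [rho2_symm]; exact rho2_one_left c hc

/-- supports of `S`-parts -/
structure Ss (N z : Eis) : Prop where
  ne : z ≠ 0
  pr : ∀ p, Prime p → p ∣ z → p ∣ N

lemma Dec.ss {hS h' : Eis} (D : Dec N hS h') : Ss N hS := ⟨D.ne, D.pr⟩

lemma Ss.dec {z : Eis} (h : Ss N z) : Dec N z 1 := ⟨h.ne, h.pr, gd_one, isCoprime_one_left⟩

lemma Ss.neg {z : Eis} (h : Ss N z) : Ss N (-z) :=
  ⟨neg_ne_zero.mpr h.ne, fun p hp hd => h.pr p hp ((dvd_neg).mp hd)⟩

lemma Ss.mul {z z' : Eis} (h : Ss N z) (h' : Ss N z') : Ss N (z * z') :=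
  ⟨mul_ne_zero h.ne h'.ne, fun p hp hd => (hp.dvd_or_dvd hd).elim (h.pr p hp) (h'.pr p hp)⟩

lemma Ss.cop {z c : Eis} (h : Ss N z) (hc : IsCoprime c N) : IsCoprime z c :=
  cop_supp h.ne h.pr hc

lemma ss_neg_one : Ss N (-1) := ⟨by norm_num, fun p hp hd =>
  absurd (isUnit_of_dvd_unit hd isUnit_one.neg) hp.not_isUnit⟩

theorem GG_good (hN : Lev N) {x : Eis} {ψ γ : Eis → ℂ} (hψ : IsCh N ψ) (hγ : Gm N γ) {hS h' : Eis}
    (D : Dec N hS h') :
    GG N x (fun c => ψ c * γ c) hS h' =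
      ψ h' * γ h' * sy6 (-hS) h' * rho2 h' h' * GG N x (fun c => ψ c * γ c) hS 1 := by
  classical
  set H : Eis → ℂ := fun c => if Gd c ∧ IsCoprime c N then
    (ψ c * γ c) * etaH hS h' c * ea N x (-(hS * h') * ivN N c) else 0 with hH
  have hPH : PMod N H := by
    intro c t
    have hd : N ∣ (c + N * t) - c := ⟨t, by ring⟩
    have h72 := hN.d72.trans hd
    have e1 : (Gd (c + N * t) ∧ IsCoprime (c + N * t) N) ↔ (Gd c ∧ IsCoprime c N) :=
      and_congr (gd_congr h72) (cop_congr hd)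
    simp only [hH]
    by_cases hc : Gd c ∧ IsCoprime c N
    · have hc' := e1.mpr hc
      rw [if_pos hc, if_pos hc', hψ.per, hγ.per, etaH_congr hN D hc'.1 hc.1 hd]
      congr 1
      apply ea_congr_right hN.ne
      have h3 := ivN_congr hc'.2 hd
      have : -(hS * h') * ivN N (c + N * t) - -(hS * h') * ivN N c =
        (ivN N (c + N * t) - ivN N c) * (-(hS * h')) := by ring
      rw [this]; exact h3.mul_right _
    · rw [if_neg hc, if_neg (fun h => hc (e1.mp h))]
  have hGG : GG N x (fun c => ψ c * γ c) hS h' = sumMod N H := rfl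
  rw [hGG, ← sumMod_mul_coprime hN.ne hPH D.cop]
  unfold GG
  rw [← sumMod_mul_left hN.ne]
  refine sumMod_congr fun c => ?_
  simp only [hH]
  have e1 : (Gd (h' * c) ∧ IsCoprime (h' * c) N) ↔ (Gd c ∧ IsCoprime c N) := by
    refine and_congr (gd_mul_iff D.gd) ?_
    exact ⟨fun h => h.of_mul_left_right, fun h => D.cop.mul_left h⟩
  by_cases hc : Gd c ∧ IsCoprime c N
  · rw [if_pos hc, if_pos (e1.mpr hc)]
    have f1 : ψ (h' * c) = ψ h' * ψ c := hψ.mul _ _
    have f2 : γ (h' * c) = γ h' * γ c * rho2 h' c := hγ.mul _ _ D.gd.2 hc.1.2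
    have f3 : etaH hS h' (h' * c) = sy6 (-hS) h' * rho2 h' h' * (sy6 (-hS) c * rho2 h' c) := by
      unfold etaH
      rw [sy6_mul_right _ D.gd.ne hc.1.ne, rho2_mul_right D.gd.2 D.gd.2 hc.1.2]; ring
    have f5 : etaH hS 1 c = sy6 (-hS) c := by
      unfold etaH
      rw [rho2_one_left c hc.1.2, mul_one]
    have f4 : ea N x (-(hS * h') * ivN N (h' * c)) = ea N x (-(hS * 1) * ivN N c) := by
      apply ea_congr_right hN.ne
      have h3 := ivN_mul D.cop hc.2
      obtain ⟨t, ht⟩ := (ivN_spec D.cop).2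
      obtain ⟨v, hv⟩ := h3
      refine ⟨-(hS * h') * v - hS * ivN N c * t, ?_⟩
      linear_combination (-(hS * h')) * hv - (hS * ivN N c) * ht
    rw [f1, f2, f3, f4, f5]
    have g4 := rho2_sq h' c
    linear_combination (ψ h' * ψ c * (γ h' * γ c) * (sy6 (-hS) h' * rho2 h' h' * sy6 (-hS) c) *
      ea N x (-(hS * 1) * ivN N c)) * g4
  · rw [if_neg hc, if_neg (fun h => hc (e1.mp h)), mul_zero]

end Crest.Agent.R017.Rw266
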