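import Crest.Agent.R017.GL2_64
import Crest.Agent.R017.Rw3_266

/-!
# Row 17 (A, norm): autocorrelation at `λ`, pure type

`H : Lvl (λ^{j+4}) B e`, `1 ≤ j`, `ψ(lf (1 + λ^{j+2} y)) = e(κ y/λ³)`, `λ ∤ κ`, `λ ∤ x`.

* `SL3_pure_zero` : `SL (± ω^i λ^l) = 0` for `l ≥ 1`
* `SL3_pure_eq` : `‖SL (u)‖² = 3^{j+4}` for the unit `u` with `3 ∣ x e' u + κ`, `SL (u) = 0` else
* `Nl_pure` : the autocorrelation.
-/

set_option autoImplicit false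
set_option linter.unusedTactic false

noncomputable section

open Complex
open scoped ComplexConjugate

namespace Crest.Agent.R017.NL90

open Crest.Agent.R012 Crest.Agent.R012.Eis Crest.Agent.R012.Gauss880 Crest.Agent.R017.Loc266
open Crest.Agent.R017.Sx440 Crest.Agent.R017.Kub664 Crest.Agent.R017.Tw266
open Crest.Agent.R017.Rw266 Crest.Agent.R017.GG90 Crest.Agent.R017.LamP64
open Crest.Agent.R017.GL64

variable {B e : Eis} {j : ℕ} {ψ γ : Eis → ℂ}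

lemma sl_congr {r : ℕ} {χ χ' : Eis → ℂ} (h : ∀ c, IsPrim c → χ c = χ' c) (v : Eis) :
    Sl r χ v = Sl r χ' v := by
  rw [Sl_def, Sl_def]
  refine sumMod_congr fun c => ?_
  by_cases hc : (3 : Eis) ∣ c - 1
  · rw [cut_of hc, cut_of hc, h c hc]
  · rw [cut_of_not hc, cut_of_not hc]

/-- the character attached to an `S`-unit -/
theorem exists_chT (H : Lvl (sq3 ^ (j + 4)) B e) (hψ : IsCh (sq3 ^ (j + 4) * B) ψ) (hγ : Gam4 γ)
    {t : Eis} (ht : SU (sq3 ^ (j + 4) * B) t) :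
    ∃ χ, IsCh (sq3 ^ (j + 4)) χ ∧
      ∀ c, IsPrim c → χ c = conj (QQ (sq3 ^ (j + 4) * B) ψ γ t (lf e c)) := by
  obtain ⟨ψ', h1, h2⟩ := exists_ext H.lev (f := fun c => conj (ψ c * sy6 (-t) c))
    (by beta_reduce; rw [hψ.one, Sx440.sy6_one_right]; simp)
    (by
      intro a b ha hb _ _
      beta_reduce
      rw [hψ.mul, sy6_mul_right _ ha.ne hb.ne, ← map_mul]
      congr 1; ring)
    (by
      intro a b ha hb _ _ hd
      beta_reduce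
      rw [hψ.per.congr hd, per_S H.lev (neg_ne_zero.mpr ht.ne)
        (fun p hp hdp => ht.pr p hp ((dvd_neg).mp hdp)) ha.g6 hb.g6 hd])
  refine ⟨fun c => ψ' (lf e c), ?_, fun c hc => ?_⟩
  · exact {
      one := by rw [lf_one, h1.one]
      mul := fun x y => by rw [← h1.mul]; exact h1.per.congr (lf_mul H.toBlk x y)
      per := fun x t => h1.per.congr (lf_congr H.toBlk ⟨t, by ring⟩)
      zero := fun x hx => h1.zero _ (fun h => hx ((cop_lf H.toBlk x).mp h)) }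
  · have g := gn_lf H hc
    beta_reduce
    rw [h2 _ g.1 g.2, QQ_pos g, hγ.one_of (lf_four H c), mul_one]

lemma su_one {N : Eis} : SU N 1 := SU.of_isUnit isUnit_one

variable (H : Lvl (sq3 ^ (j + 4)) B e) (hj : 1 ≤ j)
include H

/-- `SL` at `± ω^i λ^l` through a character with known conductor value -/
theorem SL3_char (hj : 1 ≤ j) (hψ : IsCh (sq3 ^ (j + 4) * B) ψ) (hγ : Gam4 γ) {x e' κ : Eis}
    (he : e = B * e') (hκ : ∀ y, ψ (lf e (1 + sq3 ^ (j + 2) * y)) = ea (sq3 ^ 2) κ y)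
    {s : Eis} (hs : s = 1 ∨ s = -1) (i l : ℕ) :
    ∃ χ, IsCh (sq3 ^ (j + 4)) χ ∧
      (∀ y, χ (1 + sq3 ^ (j + 2) * y) = ea (sq3 ^ 2) (-κ - l * sq3 ^ j) y) ∧
      SL (sq3 ^ (j + 4) * B) (sq3 ^ (j + 4)) e x ψ γ (s * w ^ i * sq3 ^ l) =
        Sl (j + 4) χ (-(x * e' * (s * w ^ i * sq3 ^ l))) := by
  have ht : SU (sq3 ^ (j + 4) * B) (s * w ^ i * sq3 ^ l) := by
    have := su_std (N := sq3 ^ (j + 4) * B) (q := 1) (i := i) (l := l) (sq3_dvd_N H) hs su_one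
    rwa [mul_one] at this
  obtain ⟨χ, h1, h2⟩ := exists_chT H hψ hγ ht
  refine ⟨χ, h1, ?_, ?_⟩
  · intro y
    have hp : IsPrim (1 + sq3 ^ (j + 2) * y) := by
      have : 1 + sq3 ^ (j + 2) * y = 1 + sq3 ^ 2 * (sq3 ^ j * y) := by ring
      rw [this]; exact prim_one_add _
    have e1 := QQ_lf (ψ := ψ) (γ := γ) (q := 1) (i := i) (l := l) H hγ hs (by unfold IsPrim; simp)
      su_one hp
    rw [mul_one] at e1
    rw [h2 _ hp, e1, map_mul, hκ, map_mul, map_pow, map_pow, Complex.conj_conj, Complex.conj_conj,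
      star_ea]
    have e2 : 1 + sq3 ^ (j + 2) * y = 1 + sq3 ^ 2 * (sq3 ^ j * y) := by ring
    rw [e2, sy_w_one_add, sy_sq3_one_add]
    have e3 : ea (sq3 ^ 2) sq3 (sq3 ^ j * y) = 1 := by
      rw [ea_mul, ea_dvd (sq3_pow_ne 2)]
      obtain ⟨k, rfl⟩ : ∃ k, j = k + 1 := ⟨j - 1, by omega⟩
      exact ⟨sq3 ^ k, by ring⟩
    rw [e3, one_pow, one_mul, ea_pow]
    have e4 : ea (sq3 ^ 2) ((l : Eis) * -1) (sq3 ^ j * y) = ea (sq3 ^ 2) (-(l * sq3 ^ j)) y := by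
      rw [ea_mul]; congr 1; ring
    rw [e4, ← ea_add_left]
    congr 1
  · rw [SL_eq_Sl H hψ hγ ht he]
    exact sl_congr (fun c hc => (h2 c hc).symm) _

lemma coprime_e' {e' : Eis} (he : e = B * e') : ¬ sq3 ∣ e' := by
  intro h
  have h1 : sq3 ∣ e - 1 := (dvd_pow_self sq3 (by omega)).trans H.e1
  have h2 : sq3 ∣ e := by rw [he]; exact h.mul_left B
  have := dvd_sub h2 h1
  rw [show e - (e - 1) = 1 by ring] at this
  exact prime_sq3.not_isUnit (isUnit_of_dvd_one this)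

omit H in
lemma sq3_dvd_of_three {z : Eis} (h : (3 : Eis) ∣ z) : sq3 ∣ z := sq3_dvd_three.trans h

/-- nothing at `l ≥ 1` -/
theorem SL3_pure_zero (hj : 1 ≤ j) (hψ : IsCh (sq3 ^ (j + 4) * B) ψ) (hγ : Gam4 γ) {x κ : Eis}
    (hκ : ∀ y, ψ (lf e (1 + sq3 ^ (j + 2) * y)) = ea (sq3 ^ 2) κ y) (hp : ¬ sq3 ∣ κ)
    {s : Eis} (hs : s = 1 ∨ s = -1) (i : ℕ) {l : ℕ} (hl : 1 ≤ l) :
    SL (sq3 ^ (j + 4) * B) (sq3 ^ (j + 4)) e x ψ γ (s * w ^ i * sq3 ^ l) = 0 := by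
  obtain ⟨e', he⟩ := H.e0
  obtain ⟨χ, h1, h2, h3⟩ := SL3_char H hj hψ hγ (x := x) he hκ hs i l
  rw [h3]
  by_contra hne
  have h4 := sq3_dvd_of_three (Sl_supp h1 h2 hne)
  apply hp
  obtain ⟨k, rfl⟩ : ∃ k, l = k + 1 := ⟨l - 1, by omega⟩
  obtain ⟨m, rfl⟩ : ∃ m, j = m + 1 := ⟨j - 1, by omega⟩
  have h5 : sq3 ∣ -(x * e' * (s * w ^ i * sq3 ^ (k + 1))) + ((-((k + 1 : ℕ) : Eis)) * sq3 ^ (m + 1)) :=
    ⟨-(x * e' * (s * w ^ i * sq3 ^ k)) + (-((k + 1 : ℕ) : Eis)) * sq3 ^ m, by ring⟩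
  have := dvd_sub h5 h4
  rwa [show -(x * e' * (s * w ^ i * sq3 ^ (k + 1))) + ((-((k + 1 : ℕ) : Eis)) * sq3 ^ (m + 1)) -
    (-(x * e' * (s * w ^ i * sq3 ^ (k + 1))) + (-κ - ((k + 1 : ℕ) : Eis) * sq3 ^ (m + 1))) = κ by
    ring] at this

/-- units -/
theorem SL3_pure_eq (hj : 1 ≤ j) (hψ : IsCh (sq3 ^ (j + 4) * B) ψ) (hγ : Gam4 γ) {x κ e' : Eis}
    (he : e = B * e')
    (hκ : ∀ y, ψ (lf e (1 + sq3 ^ (j + 2) * y)) = ea (sq3 ^ 2) κ y) (hp : ¬ sq3 ∣ κ)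
    {s : Eis} (hs : s = 1 ∨ s = -1) (i : ℕ) :
    ((3 : Eis) ∣ x * e' * (s * w ^ i) + κ →
      ‖SL (sq3 ^ (j + 4) * B) (sq3 ^ (j + 4)) e x ψ γ (s * w ^ i)‖ ^ 2 = 3 ^ (j + 4)) ∧
    (¬ (3 : Eis) ∣ x * e' * (s * w ^ i) + κ →
      SL (sq3 ^ (j + 4) * B) (sq3 ^ (j + 4)) e x ψ γ (s * w ^ i) = 0) := by
  obtain ⟨χ, h1, h2, h3⟩ := SL3_char H hj hψ hγ (x := x) he hκ hs i 0
  have h2' : ∀ y, χ (1 + sq3 ^ (j + 2) * y) = ea (sq3 ^ 2) (-κ) y := by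
    intro y; rw [h2]; congr 1; push_cast; ring
  rw [pow_zero, mul_one] at h3
  have h4 : (3 : Eis) ∣ -(x * e' * (s * w ^ i)) + -κ ↔ (3 : Eis) ∣ x * e' * (s * w ^ i) + κ := by
    rw [show -(x * e' * (s * w ^ i)) + -κ = -(x * e' * (s * w ^ i) + κ) by ring, dvd_neg]
  constructor
  · intro h
    rw [h3]
    exact norm_Sl_sq h1 h2' (fun h' => hp ((dvd_neg).mp h')) (h4.mpr h)
  · intro h
    rw [h3]
    by_contra hne
    exact h (h4.mp (Sl_supp h1 h2' hne))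

end Crest.Agent.R017.NL90
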