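import Crest.Agent.R017.NL6_90
import Crest.Agent.R017.NH6_499

/-!
# Row 17 (A, norm): (Nl), pure type, in 499's literal form
-/

set_option autoImplicit false

noncomputable section

open Complex
open scoped ComplexConjugate

namespace Crest.Agent.R017.NL90

open Crest.Agent.R012 Crest.Agent.R012.Eis Crest.Agent.R012.Gauss880 Crest.Agent.R017.Loc266
open Crest.Agent.R017.Sx440 Crest.Agent.R017.Rw266 Crest.Agent.R017.GG90
open Crest.Agent.R017.NF64 Crest.Agent.R017.NH499

/-- **(Nl), pure type** -/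
theorem nlPur : NlPur := by
  intro N A₁ A₃ e₁ e₂ e₃ j ψ R0 S hj x hx κ hp hκ Bw Bs σ hB _ hσ X _ hX0
  have hX : X = 0 := hX0 (by omega)
  subst hX
  have h := acv_pure (Bs := Bs) S hj hκ hp hx hB hσ 3 (B' := j + 10) (by omega)
  have hK : ((9 : ℝ) ^ (j + 4) / (36 * 3 ^ (j + 2))) = 3 ^ (j + 4) / 4 := by
    have h9 : (9 : ℝ) ^ (j + 4) = 3 ^ (j + 4) * (3 ^ (j + 2) * 9) := by
      rw [show (9 : ℝ) = 3 * 3 by norm_num, mul_pow]; ring
    rw [h9]
    have : (3 : ℝ) ^ (j + 2) ≠ 0 := by positivity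
    field_simp
    norm_num
  rw [hK]
  exact h

end Crest.Agent.R017.NL90
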