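import Crest.Agent.R017.NEk_551
import Crest.Agent.R017.NEs_499

/-!
# Row 17, near field (FlatNE): composition of the leaf numbers (helper777)

* `lift` : a line with more parameters; `nleaf_sub` : the family of the lines may be enlarged
* `nleaf_add` : `NLeaf` of a sum of numbers; `nleaf_mono`
* `nleaf_five` : the sum of four numbers and a condition on the parameters
* `nleaf_cl` : the conditions `E0 ≤ B` and "no `Qc (C₀ K / E1³)` at the scale `K e^(-h)`"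
-/

set_option autoImplicit false

noncomputable section

open Complex
open scoped ComplexConjugate

namespace Crest.Agent.R017.NLg777

open Crest.Agent.R012 Crest.Agent.R012.Eis
open Crest.Agent.R017.CM106 Crest.Agent.R017.HP842
open Crest.Agent.R017.B770
open Crest.Agent.R017.Prov71
open Crest.Agent.R017.Leg381
open Crest.Agent.R017.RGB545
open Crest.Agent.R017.XP699 (LL Chd hcost cst)
open Crest.Agent.R017.RG64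
open Crest.Agent.R017.NE73 (gN)
open Crest.Agent.R017.NE499 (hS)
open Crest.Agent.R017.CubP813 (Qc)
open Crest.Agent.R017.NEg551

variable {Lam ι ι' : Type*} {p p' : ℕ}

/-- a line with more parameters -/
def lift (e : Fin p → Fin p') (L : Line Lam p) : Line Lam p' where
  Φ := L.Φ
  b := fun θ => L.b fun i => θ (e i)
  zl := L.zl
  G := fun x θ => L.G x fun i => θ (e i)
  F := fun x θ => L.F x fun i => θ (e i)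

lemma lift_id (L : Line Lam p) : lift id L = L := rfl

lemma cont_e (e : Fin p → Fin p') : Continuous fun (θ : Fin p' → ℝ) (i : Fin p) => θ (e i) :=
  continuous_pi fun i => continuous_apply (e i)

theorem lift_ok (e : Fin p → Fin p') {L : Line Lam p} (h : L.OK) : (lift e L).OK where
  tr := h.tr
  cb := h.cb.comp (cont_e e)
  b0 := fun _ hθ => h.b0 _ fun i => hθ (e i)
  cG := h.cG.comp ((continuous_fst).prodMk ((cont_e e).comp continuous_snd))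
  cF := h.cF.comp ((continuous_fst).prodMk ((cont_e e).comp continuous_snd))

/-- extension of the parameters by `0` -/
lemma ext_th {K : ℝ} (hK : 0 ≤ K) {e : Fin p → Fin p'} (he : Function.Injective e) (θ : Th p K) :
    ∃ θ' : Th p' K, (fun i => θ'.1 (e i)) = θ.1 := by
  have hT : 0 ≤ TK K := by unfold RGB545.TK; linarith
  refine ⟨⟨Function.extend e θ.1 0, ?_, ?_⟩, ?_⟩
  · intro j
    by_cases hj : ∃ i, e i = j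
    · obtain ⟨i, rfl⟩ := hj
      rw [he.extend_apply]
      exact θ.2.1 i
    · rw [Function.extend_apply' _ _ _ hj]
  · intro j
    by_cases hj : ∃ i, e i = j
    · obtain ⟨i, rfl⟩ := hj
      rw [he.extend_apply]
      exact θ.2.2 i
    · rw [Function.extend_apply' _ _ _ hj]
      exact hT
  · funext i
    exact he.extend_apply θ.1 0 i

variable {π : Lam → DPar} {h : ℝ → ℝ} {φ₀ φ₁ φβ : ℝ → ℝ → ℝ → ℝ} {K v c : ℝ}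

/-- **more lines** -/
theorem nleaf_sub {L : ι → Line Lam p} {L' : ι' → Line Lam p'} (hK : 0 ≤ K) (f : ι → ι')
    {e : Fin p → Fin p'} (he : Function.Injective e) (hL : ∀ j, L' (f j) = lift e (L j))
    {RR : LBq → (Eis → ℂ) → ℝ → Prop} (H : NLeaf π h RR L φ₀ φ₁ φβ K v c) :
    NLeaf π h RR L' φ₀ φ₁ φβ K v c := by
  intro lam N c₀ hc₀
  obtain ⟨B₀, hB₀, H1⟩ := H lam N c₀ hc₀
  refine ⟨B₀, hB₀, fun ε M hε hM => ?_⟩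
  obtain ⟨J₀, δ₀, hJ₀, hδ₀, H2⟩ := H1 ε M hε hM
  refine ⟨J₀, δ₀, hJ₀, hδ₀, ?_⟩
  intro δ Jn Aw Cw R η S h1 h2 h3 h4 h5 h6 h7 h8 h9
  obtain ⟨C, r, X₁, hC, hr, H3⟩ := H2 δ Jn Aw Cw R η S h1 h2 h3 h4 h5 h6 h7 h8 h9
  refine ⟨C, r, X₁, hC, hr, ?_⟩
  intro X hX3 hXX ps₀ hlen hps hs2 hnum q ps Lv N₁ hF hq hqX hps' Bd hBd hNT hline
  refine H3 X hX3 hXX ps₀ hlen hps hs2 hnum q ps Lv N₁ hF hq hqX hps' Bd hBd hNT ?_
  intro j θ l ps' hl hlT hch hLL hG hz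
  obtain ⟨θ', hθ'⟩ := ext_th (p' := p') hK he θ
  have key := hline (f j) θ' l ps' hl hlT hch hLL
  rw [hL j] at key
  unfold NLg777.lift at key
  simp only [hθ'] at key
  exact key hG hz

/-- **monotone** -/
theorem nleaf_mono {L : ι → Line Lam p} {R₁ R₂ : LBq → (Eis → ℂ) → ℝ → Prop}
    (hR : ∀ p α a, 0 ≤ a → R₁ p α a → R₂ p α a) (H : NLeaf π h R₁ L φ₀ φ₁ φβ K v c) :
    NLeaf π h R₂ L φ₀ φ₁ φβ K v c := by
  intro lam N c₀ hc₀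
  obtain ⟨B₀, hB₀, H1⟩ := H lam N c₀ hc₀
  refine ⟨B₀, hB₀, fun ε M hε hM => ?_⟩
  obtain ⟨J₀, δ₀, hJ₀, hδ₀, H2⟩ := H1 ε M hε hM
  refine ⟨J₀, δ₀, hJ₀, hδ₀, ?_⟩
  intro δ Jn Aw Cw R η S h1 h2 h3 h4 h5 h6 h7 h8 h9
  obtain ⟨C, r, X₁, hC, hr, H3⟩ := H2 δ Jn Aw Cw R η S h1 h2 h3 h4 h5 h6 h7 h8 h9
  refine ⟨C, r, X₁, hC, hr, ?_⟩
  intro X hX3 hXX ps₀ hlen hps hs2 hnum q ps Lv N₁ hF hq hqX hps' Bd hBd hNT hline
  have hX0 : 0 ≤ X := by linarith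
  have hHH : 1 ≤ Ht ps * Ht (natl ps₀) :=
    one_le_mul_of_one_le_of_one_le (one_le_Ht _) (one_le_Ht _)
  refine hR _ _ _ ?_ (H3 X hX3 hXX ps₀ hlen hps hs2 hnum q ps Lv N₁ hF hq hqX hps' Bd hBd hNT
    hline)
  have h10 : 0 ≤ X ^ ε := Real.rpow_nonneg hX0 _
  have h11 : 0 ≤ (Ht ps * Ht (natl ps₀)) ^ J₀ := Real.rpow_nonneg (by linarith) _
  positivity

/-- **sums** -/
theorem nleaf_add {L : ι → Line Lam p} {R₁ R₂ R : LBq → (Eis → ℂ) → ℝ → Prop}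
    (hm : ∀ p α a b, R p α a → a ≤ b → R p α b)
    (hadd : ∀ p α a b, 0 ≤ a → 0 ≤ b → R₁ p α a → R₂ p α b → R p α (a + b))
    (H₁ : NLeaf π h R₁ L φ₀ φ₁ φβ K v c) (H₂ : NLeaf π h R₂ L φ₀ φ₁ φβ K v c) :
    NLeaf π h R L φ₀ φ₁ φβ K v c := by
  intro lam N c₀ hc₀
  obtain ⟨B₁, hB₁, H1₁⟩ := H₁ lam N c₀ hc₀
  obtain ⟨B₂, hB₂, H1₂⟩ := H₂ lam N c₀ hc₀
  refine ⟨max B₁ B₂, le_max_of_le_left hB₁, fun ε M hε hM => ?_⟩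
  obtain ⟨J₁, δ₁, hJ₁, hδ₁, H2₁⟩ := H1₁ ε M hε hM
  obtain ⟨J₂, δ₂, hJ₂, hδ₂, H2₂⟩ := H1₂ ε M hε hM
  refine ⟨max J₁ J₂, min δ₁ δ₂, le_max_of_le_left hJ₁, lt_min hδ₁ hδ₂, ?_⟩
  intro δ Jn Aw Cw R' η S h1 h2 h3 h4 h5 h6 h7 h8 h9
  obtain ⟨C₁, r₁, X₁, hC₁, hr₁, H3₁⟩ := H2₁ δ Jn Aw Cw R' η S h1 (h2.trans (min_le_left _ _))
    ((le_max_left _ _).trans h3) h4 h5 h6 h7 h8 h9
  obtain ⟨C₂, r₂, X₂, hC₂, hr₂, H3₂⟩ := H2₂ δ Jn Aw Cw R' η S h1 (h2.trans (min_le_right _ _))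
    ((le_max_right _ _).trans h3) h4 h5 h6 h7 h8 h9
  refine ⟨C₁ + C₂, max r₁ r₂, max X₁ X₂, by positivity, le_max_of_le_left hr₁, ?_⟩
  intro X hX3 hXX ps₀ hlen hps hs2 hnum q ps Lv N₁ hF hq hqX hps' Bd hBd hNT hline
  have hX1 : 1 ≤ X := by linarith
  have hX0 : 0 ≤ X := by linarith
  have hlog : 0 ≤ Real.log X := Real.log_nonneg hX1
  have hHH : 1 ≤ Ht ps * Ht (natl ps₀) :=
    one_le_mul_of_one_le_of_one_le (one_le_Ht _) (one_le_Ht _)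
  set HH : ℝ := Ht ps * Ht (natl ps₀) with hHHd
  have hb₁ : C₁ * X ^ B₁ ≤ (C₁ + C₂) * X ^ max B₁ B₂ :=
    mul_le_mul (by linarith) (Real.rpow_le_rpow_of_exponent_le hX1 (le_max_left _ _))
      (Real.rpow_nonneg hX0 _) (by positivity)
  have hb₂ : C₂ * X ^ B₂ ≤ (C₁ + C₂) * X ^ max B₁ B₂ :=
    mul_le_mul (by linarith) (Real.rpow_le_rpow_of_exponent_le hX1 (le_max_right _ _))
      (Real.rpow_nonneg hX0 _) (by positivity)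
  have k₁ := H3₁ X hX3 ((le_max_left _ _).trans hXX) ps₀ hlen hps hs2 hnum q ps Lv N₁ hF hq hqX
    hps' Bd hBd (hNT.mono le_rfl (le_max_left _ _) hb₁ hlog)
    fun j θ l ps' g1 g2 g3 => hline j θ l ps' g1 g2 (Chd.mono' (le_max_left _ _) hb₁ g3)
  have k₂ := H3₂ X hX3 ((le_max_right _ _).trans hXX) ps₀ hlen hps hs2 hnum q ps Lv N₁ hF hq hqX
    hps' Bd hBd (hNT.mono le_rfl (le_max_right _ _) hb₂ hlog)
    fun j θ l ps' g1 g2 g3 => hline j θ l ps' g1 g2 (Chd.mono' (le_max_right _ _) hb₂ g3)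
  have hXe : 0 ≤ X ^ ε := Real.rpow_nonneg hX0 _
  have hH₁ : HH ^ J₁ ≤ HH ^ max J₁ J₂ := Real.rpow_le_rpow_of_exponent_le hHH (le_max_left _ _)
  have hH₂ : HH ^ J₂ ≤ HH ^ max J₁ J₂ := Real.rpow_le_rpow_of_exponent_le hHH (le_max_right _ _)
  have hp₁ : 0 ≤ HH ^ J₁ := Real.rpow_nonneg (by linarith) _
  have hp₂ : 0 ≤ HH ^ J₂ := Real.rpow_nonneg (by linarith) _
  refine hm _ _ _ _ (hadd _ _ _ _ (by positivity) (by positivity) k₁ k₂) ?_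
  have e₁ : C₁ * X ^ ε * HH ^ J₁ * Bd * Real.exp (2 * LF ps) ≤
      C₁ * X ^ ε * HH ^ max J₁ J₂ * Bd * Real.exp (2 * LF ps) := by gcongr
  have e₂ : C₂ * X ^ ε * HH ^ J₂ * Bd * Real.exp (2 * LF ps) ≤
      C₂ * X ^ ε * HH ^ max J₁ J₂ * Bd * Real.exp (2 * LF ps) := by gcongr
  calc _ ≤ C₁ * X ^ ε * HH ^ max J₁ J₂ * Bd * Real.exp (2 * LF ps) +
        C₂ * X ^ ε * HH ^ max J₁ J₂ * Bd * Real.exp (2 * LF ps) := add_le_add e₁ e₂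
    _ = _ := by ring

/-- **four numbers and a condition** -/
theorem nleaf_five {L : ι → Line Lam p} {R₁ R₂ R₃ R₄ R : LBq → (Eis → ℂ) → ℝ → Prop}
    {CL : LBq → Prop} (hm : ∀ p α a b, R p α a → a ≤ b → R p α b)
    (hadd : ∀ p α a₁ a₂ a₃ a₄, 0 ≤ a₁ → 0 ≤ a₂ → 0 ≤ a₃ → 0 ≤ a₄ → CL p → R₁ p α a₁ →
      R₂ p α a₂ → R₃ p α a₃ → R₄ p α a₄ → R p α (a₁ + a₂ + a₃ + a₄))
    (H₀ : NLeaf π h (fun p _ _ => CL p) L φ₀ φ₁ φβ K v c)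
    (H₁ : NLeaf π h R₁ L φ₀ φ₁ φβ K v c) (H₂ : NLeaf π h R₂ L φ₀ φ₁ φβ K v c)
    (H₃ : NLeaf π h R₃ L φ₀ φ₁ φβ K v c) (H₄ : NLeaf π h R₄ L φ₀ φ₁ φβ K v c) :
    NLeaf π h R L φ₀ φ₁ φβ K v c := by
  have g1 : NLeaf π h (fun p α a => ∃ a₁ a₂ : ℝ, 0 ≤ a₁ ∧ 0 ≤ a₂ ∧ a₁ + a₂ ≤ a ∧ R₁ p α a₁ ∧
      R₂ p α a₂) L φ₀ φ₁ φβ K v c :=
    nleaf_add (fun q α a b ⟨a₁, a₂, i1, i2, i3, i4, i5⟩ hab =>
        ⟨a₁, a₂, i1, i2, i3.trans hab, i4, i5⟩)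
      (fun q α a b ha hb k1 k2 => ⟨a, b, ha, hb, le_rfl, k1, k2⟩) H₁ H₂
  have g2 : NLeaf π h (fun p α a => ∃ a₁ a₂ : ℝ, 0 ≤ a₁ ∧ 0 ≤ a₂ ∧ a₁ + a₂ ≤ a ∧ R₃ p α a₁ ∧
      R₄ p α a₂) L φ₀ φ₁ φβ K v c :=
    nleaf_add (fun q α a b ⟨a₁, a₂, i1, i2, i3, i4, i5⟩ hab =>
        ⟨a₁, a₂, i1, i2, i3.trans hab, i4, i5⟩)
      (fun q α a b ha hb k1 k2 => ⟨a, b, ha, hb, le_rfl, k1, k2⟩) H₃ H₄
  have g3 : NLeaf π h (fun p α a => ∃ a₁ a₂ a₃ a₄ : ℝ, 0 ≤ a₁ ∧ 0 ≤ a₂ ∧ 0 ≤ a₃ ∧ 0 ≤ a₄ ∧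
      a₁ + a₂ + a₃ + a₄ ≤ a ∧ R₁ p α a₁ ∧ R₂ p α a₂ ∧ R₃ p α a₃ ∧ R₄ p α a₄)
      L φ₀ φ₁ φβ K v c :=
    nleaf_add (fun q α a b ⟨a₁, a₂, a₃, a₄, i1, i2, i3, i4, i5, i6⟩ hab =>
        ⟨a₁, a₂, a₃, a₄, i1, i2, i3, i4, i5.trans hab, i6⟩)
      (fun q α a b _ _ ⟨a₁, a₂, i1, i2, i3, i4, i5⟩ ⟨a₃, a₄, j1, j2, j3, j4, j5⟩ =>
        ⟨a₁, a₂, a₃, a₄, i1, i2, j1, j2, by linarith, i4, i5, j4, j5⟩) g1 g2
  refine nleaf_add hm ?_ g3 H₀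
  rintro q α a b ha hb ⟨a₁, a₂, a₃, a₄, i1, i2, i3, i4, i5, i6, i7, i8, i9⟩ hcl
  exact hm _ _ _ _ (hadd q α a₁ a₂ a₃ a₄ i1 i2 i3 i4 hcl i6 i7 i8 i9) (by linarith)

/-! ### the conditions on the parameters -/

/-- **no `Qc (C₀ K / E1³)` at the scale `K e^(-h)`** -/
lemma qc_empty {w : ℝ → ℝ} {b C₀ K₀ E0 E1 B : ℝ} (hw : ∀ x, w x ≠ 0 → x ≤ b)
    (hK : 0 < K₀) (hlt : b * (K₀ * Real.exp (-(3 * Real.log (B / E0)))) < C₀ * K₀ / E1 ^ 3)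
    {k : Eis} (hk : IsPrim k)
    (hwk : w (nm k / (K₀ * Real.exp (-(3 * Real.log (B / E0))))) ≠ 0) :
    ¬ Qc (C₀ * K₀ / E1 ^ 3) k := by
  rintro ⟨j, e, hj, he, hcf, hje, hK₁⟩
  have h1 := hw _ hwk
  have h2 : 0 < K₀ * Real.exp (-(3 * Real.log (B / E0))) := mul_pos hK (Real.exp_pos _)
  rw [div_le_iff₀ h2] at h1
  have h3 : (nm j : ℝ) ≤ nm k := by
    exact_mod_cast Div277.nm_le_of_dvd hk.ne_zero (hje ▸ dvd_mul_right j (e ^ 3))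
  linarith

/-- **the conditions hold** -/
theorem nleaf_cl {w : ℝ → ℝ} {b C₀ : ℝ} (hw : ∀ x, w x ≠ 0 → x ≤ b) (hC₀ : 0 < C₀)
    {Qf : LBq → Eis → Prop} (hQf : ∀ (q : LBq) (k : Eis), Qf q k → Qc (C₀ * q.K / q.E1 ^ 3) k)
    {L : ι → Line Lam p} (hc : 0 < c) (hφ : ∀ a u m, φ₁ a u m + c ≤ φβ a u m - φ₀ a u m)
    (hφ0 : ∀ a u m, 0 ≤ φβ a u m - φ₀ a u m) :
    NLeaf π h (fun q _ _ => q.E0 ≤ q.B ∧ ∀ k : Eis, IsPrim k →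
      w (nm k / (q.K * Real.exp (-hS q))) ≠ 0 → ¬ Qf q k) L φ₀ φ₁ φβ K v c := by
  intro lam N c₀ hc₀
  refine ⟨0, le_rfl, fun ε M hε hM => ?_⟩
  refine ⟨0, 1, le_rfl, one_pos, ?_⟩
  intro δ Jn Aw Cw R η S h1 h2 h3 h4 h5 h6 h7 h8 h9
  refine ⟨0, 0, Real.exp (b / C₀ / (3 * c)), le_rfl, le_rfl, ?_⟩
  intro X hX3 hXX ps₀ hlen hps hs2 hnum q ps Lv N₁ hF hq hqX hps' Bd hBd hNT hline
  have hX0 : 0 < X := by linarith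
  have hX1 : 1 ≤ X := by linarith
  obtain ⟨L₀, hL₀⟩ : ∃ x : ℝ, x = Real.log X := ⟨_, rfl⟩
  have hXe : ∀ x : ℝ, X ^ x = Real.exp (x * L₀) := fun x => by
    rw [Real.rpow_def_of_pos hX0, hL₀, mul_comm]
  have hL : 0 < L₀ := by rw [hL₀]; exact Real.log_pos (by linarith)
  have hbL : b / C₀ ≤ 3 * c * L₀ := by
    have h10 : b / C₀ / (3 * c) ≤ L₀ := by
      rw [hL₀]
      exact (Real.le_log_iff_exp_le hX0).2 hXX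
    rw [div_le_iff₀ (by positivity)] at h10
    linarith
  have hb : b < C₀ * Real.exp (3 * c * L₀) := by
    have h10 := Real.add_one_le_exp (3 * c * L₀)
    have h11 : b / C₀ < Real.exp (3 * c * L₀) := by linarith
    rw [div_lt_iff₀ hC₀] at h11
    linarith
  obtain ⟨f₀, hf₀⟩ : ∃ x : ℝ, x = φ₀ (LL Dq ps₀ / Real.log X) (Lv / Real.log X)
    (LF ps / Real.log X) := ⟨_, rfl⟩
  obtain ⟨f₁, hf₁⟩ : ∃ x : ℝ, x = φ₁ (LL Dq ps₀ / Real.log X) (Lv / Real.log X)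
    (LF ps / Real.log X) := ⟨_, rfl⟩
  obtain ⟨f₂, hf₂⟩ : ∃ x : ℝ, x = φβ (LL Dq ps₀ / Real.log X) (Lv / Real.log X)
    (LF ps / Real.log X) := ⟨_, rfl⟩
  have hcd : f₁ + c ≤ f₂ - f₀ := by rw [hf₁, hf₂, hf₀]; exact hφ _ _ _
  have hcd0 : 0 ≤ f₂ - f₀ := by rw [hf₂, hf₀]; exact hφ0 _ _ _
  rw [← hf₀, ← hf₁, ← hf₂]
  refine ⟨?_, ?_⟩
  · show X ^ f₀ ≤ X ^ f₂
    exact Real.rpow_le_rpow_of_exponent_le hX1 (by linarith)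
  intro k hk hwk hQ
  refine qc_empty (w := w) (b := b) (C₀ := C₀) (K₀ := X ^ K) (E0 := X ^ f₀) (E1 := X ^ f₁)
    (B := X ^ f₂) hw (Real.rpow_pos_of_pos hX0 _) ?_ hk hwk (hQf _ k hQ)
  have e1 : Real.log (X ^ f₂ / X ^ f₀) = (f₂ - f₀) * L₀ := by
    rw [hXe, hXe, ← Real.exp_sub, Real.log_exp]
    ring
  rw [e1, lt_div_iff₀ (pow_pos (Real.rpow_pos_of_pos hX0 _) 3), hXe, hXe, ← Real.exp_nat_mul]
  calc b * (Real.exp (K * L₀) * Real.exp (-(3 * ((f₂ - f₀) * L₀)))) *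
        Real.exp (((3 : ℕ) : ℝ) * (f₁ * L₀)) =
      b * (Real.exp (K * L₀) * Real.exp (-(3 * ((f₂ - f₀) * L₀)) + 3 * (f₁ * L₀))) := by
        rw [Real.exp_add]; push_cast; ring
    _ < C₀ * Real.exp (3 * c * L₀) * (Real.exp (K * L₀) *
        Real.exp (-(3 * ((f₂ - f₀) * L₀)) + 3 * (f₁ * L₀))) :=
        mul_lt_mul_of_pos_right hb (by positivity)
    _ = C₀ * Real.exp (K * L₀) * Real.exp (3 * c * L₀ + (-(3 * ((f₂ - f₀) * L₀)) +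
        3 * (f₁ * L₀))) := by rw [Real.exp_add (3 * c * L₀)]; ring
    _ ≤ C₀ * Real.exp (K * L₀) * 1 := by
        refine mul_le_mul_of_nonneg_left (Real.exp_le_one_iff.2 ?_) (by positivity)
        have := mul_le_mul_of_nonneg_right hcd hL.le
        linarith
    _ = C₀ * Real.exp (K * L₀) := mul_one _

end Crest.Agent.R017.NLg777
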