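import Crest.Agent.R017.NXe_298

/-!
# Row 17, T.7 (FlatNE, exceptional class): sums of near leaves (helper298)

* `RAdd`, `nleafX_add` : the sum of two leaves
* `nleafX_mono` : monotonicity
* `nleafX_line` : more lines
-/

set_option autoImplicit false

noncomputable section

open Complex
open scoped ComplexConjugate

namespace Crest.Agent.R017.RX298

open Crest.Agent.R012 Crest.Agent.R012.Eis Crest.Agent.R012.LS2 Crest.Agent.R012.Gauss880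
open Crest.Agent.R017.CM106 Crest.Agent.R017.HP842 Crest.Agent.R017.FE47
open Crest.Agent.R017.End699 hiding pw
open Crest.Agent.R017.B770
open Crest.Agent.R017.Prov71
open Crest.Agent.R017.Leg381
open Crest.Agent.R017.RGB545
open Crest.Agent.R017.RuleM545
open Crest.Agent.R017.XP699 (LL Chd hcost cst)
open Crest.Agent.R017.RG64
open Crest.Agent.R017.NEg551
open Crest.Agent.R017.NE73 (gN)
open Crest.Agent.R017.RXk848 (LnP Lmp)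

/-- the sum of two numbers -/
def RAdd (R₁ R₂ : LBq → (Eis → ℂ) → ℝ → Prop) (p : LBq) (α : Eis → ℂ) (x : ℝ) : Prop :=
  ∃ a b : ℝ, 0 ≤ a ∧ 0 ≤ b ∧ a + b ≤ x ∧ R₁ p α a ∧ R₂ p α b

variable {Lam ι ι' : Type*} {p : ℕ}

lemma LnP_mono_rb {L : ι → Line Lam p} {lam : Lam} {K ε M r r' bm bm' X n₁ v₁ Bd : ℝ}
    {base : List Pq} (h : LnP L lam K ε M r bm X n₁ v₁ Bd base) (hr : r' ≤ r) (hb : bm' ≤ bm) :
    LnP L lam K ε M r' bm' X n₁ v₁ Bd base :=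
  fun j θ l ps' h1 h2 h3 h4 h5 h6 => h j θ l ps' h1 h2 (Chd.mono' hr hb h3) h4 h5 h6

lemma LnP_line {L : ι → Line Lam p} {L' : ι' → Line Lam p} (e : ι → ι') (he : ∀ j, L' (e j) = L j)
    {lam : Lam} {K ε M r bm X n₁ v₁ Bd : ℝ} {base : List Pq}
    (h : LnP L' lam K ε M r bm X n₁ v₁ Bd base) : LnP L lam K ε M r bm X n₁ v₁ Bd base := by
  intro j θ l ps' h1 h2 h3 h4 h5 h6
  have := h (e j) θ l ps' h1 h2 h3 h4 (by rw [he]; exact h5) (by rw [he]; exact h6)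
  rwa [he] at this

variable {π : Lam → DPar} {h : ℝ → ℝ} {L : ι → Line Lam p} {φ₀ φ₁ φβ : ℝ → ℝ → ℝ → ℝ}
  {K v c e₁ d : ℝ}

/-- **more lines** -/
theorem nleafX_line {R : LBq → (Eis → ℂ) → ℝ → Prop} {L' : ι' → Line Lam p} (e : ι → ι')
    (he : ∀ j, L' (e j) = L j) (H : NLeafX π h R L φ₀ φ₁ φβ K v c e₁ d) :
    NLeafX π h R L' φ₀ φ₁ φβ K v c e₁ d := by
  intro lam N c₀ hc₀
  obtain ⟨B₀, hB₀, H1⟩ := H lam N c₀ hc₀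
  refine ⟨B₀, hB₀, fun ε M hε hM => ?_⟩
  obtain ⟨J₀, δ₀, hJ₀, hδ₀, H2⟩ := H1 ε M hε hM
  refine ⟨J₀, δ₀, hJ₀, hδ₀, fun δ Jn Aw Cw R η S hδ hδδ hJn hAw hCw hR hη hη1 hS => ?_⟩
  obtain ⟨C, r, X₁, hC, hr, H3⟩ := H2 δ Jn Aw Cw R η S hδ hδδ hJn hAw hCw hR hη hη1 hS
  refine ⟨C, r, X₁, hC, hr, ?_⟩
  intro X hX hXX ps₀ hlen hps hs2 hnum hnumX hLmp q ps Lv N₁ hf hq hqX hsb Bd hBd hT hTr hL
  exact H3 X hX hXX ps₀ hlen hps hs2 hnum hnumX hLmp q ps Lv N₁ hf hq hqX hsb Bd hBd hT hTr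
    (fun t => LnP_line e he (hL t))

/-- **monotonicity** -/
theorem nleafX_mono {R R' : LBq → (Eis → ℂ) → ℝ → Prop}
    (hRR : ∀ (q : LBq) (α : Eis → ℂ) (x : ℝ), R q α x → R' q α x)
    (H : NLeafX π h R L φ₀ φ₁ φβ K v c e₁ d) :
    NLeafX π h R' L φ₀ φ₁ φβ K v c e₁ d := by
  intro lam N c₀ hc₀
  obtain ⟨B₀, hB₀, H1⟩ := H lam N c₀ hc₀
  refine ⟨B₀, hB₀, fun ε M hε hM => ?_⟩
  obtain ⟨J₀, δ₀, hJ₀, hδ₀, H2⟩ := H1 ε M hε hM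
  refine ⟨J₀, δ₀, hJ₀, hδ₀, fun δ Jn Aw Cw R η S hδ hδδ hJn hAw hCw hR hη hη1 hS => ?_⟩
  obtain ⟨C, r, X₁, hC, hr, H3⟩ := H2 δ Jn Aw Cw R η S hδ hδδ hJn hAw hCw hR hη hη1 hS
  refine ⟨C, r, X₁, hC, hr, ?_⟩
  intro X hX hXX ps₀ hlen hps hs2 hnum hnumX hLmp q ps Lv N₁ hf hq hqX hsb Bd hBd hT hTr hL
  exact hRR _ _ _ (H3 X hX hXX ps₀ hlen hps hs2 hnum hnumX hLmp q ps Lv N₁ hf hq hqX hsb Bd hBd hT
    hTr hL)

set_option maxHeartbeats 1600000 in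
/-- **the sum of two leaves** -/
theorem nleafX_add {R₁ R₂ : LBq → (Eis → ℂ) → ℝ → Prop}
    (H₁ : NLeafX π h R₁ L φ₀ φ₁ φβ K v c e₁ d) (H₂ : NLeafX π h R₂ L φ₀ φ₁ φβ K v c e₁ d) :
    NLeafX π h (RAdd R₁ R₂) L φ₀ φ₁ φβ K v c e₁ d := by
  intro lam N c₀ hc₀
  obtain ⟨B₁, hB₁, G1⟩ := H₁ lam N c₀ hc₀
  obtain ⟨B₂, hB₂, G2⟩ := H₂ lam N c₀ hc₀
  refine ⟨max B₁ B₂, le_max_of_le_left hB₁, fun ε M hε hM => ?_⟩
  obtain ⟨J₁, δ₁, hJ₁, hδ₁, G1⟩ := G1 ε M hε hM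
  obtain ⟨J₂, δ₂, hJ₂, hδ₂, G2⟩ := G2 ε M hε hM
  refine ⟨max J₁ J₂, min δ₁ δ₂, le_max_of_le_left hJ₁, lt_min hδ₁ hδ₂,
    fun δ Jn Aw Cw R η S hδ hδδ hJn hAw hCw hR hη hη1 hS => ?_⟩
  obtain ⟨C₁, r₁, X₁, hC₁, hr₁, G1⟩ := G1 δ Jn Aw Cw R η S hδ (hδδ.trans (min_le_left _ _))
    ((le_max_left _ _).trans hJn) hAw hCw hR hη hη1 hS
  obtain ⟨C₂, r₂, X₂, hC₂, hr₂, G2⟩ := G2 δ Jn Aw Cw R η S hδ (hδδ.trans (min_le_right _ _))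
    ((le_max_right _ _).trans hJn) hAw hCw hR hη hη1 hS
  refine ⟨C₁ + C₂, max r₁ r₂, max X₁ X₂, by positivity, le_max_of_le_left hr₁, ?_⟩
  intro X hX hXX ps₀ hlen hps hs2 hnum hnumX hLmp q ps Lv N₁ hf hq hqX hsb Bd hBd hT hTr hL
  have hX1 : (1 : ℝ) ≤ X := by linarith
  have hX0 : 0 < X := by linarith
  have hl0 : 0 ≤ Real.log X := Real.log_nonneg hX1
  have hb1 : C₁ * X ^ B₁ ≤ (C₁ + C₂) * X ^ max B₁ B₂ := by
    have h1 : X ^ B₁ ≤ X ^ max B₁ B₂ := Real.rpow_le_rpow_of_exponent_le hX1 (le_max_left _ _)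
    exact mul_le_mul (by linarith) h1 (by positivity) (by positivity)
  have hb2 : C₂ * X ^ B₂ ≤ (C₁ + C₂) * X ^ max B₁ B₂ := by
    have h1 : X ^ B₂ ≤ X ^ max B₁ B₂ := Real.rpow_le_rpow_of_exponent_le hX1 (le_max_right _ _)
    exact mul_le_mul (by linarith) h1 (by positivity) (by positivity)
  have k1 := G1 X hX ((le_max_left _ _).trans hXX) ps₀ hlen hps hs2 hnum hnumX hLmp q ps Lv N₁ hf
    hq hqX hsb Bd hBd (hT.mono le_rfl (le_max_left _ _) hb1 hl0)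
    (hTr.mono le_rfl (le_max_left _ _) hb1 hl0) (fun t => LnP_mono_rb (hL t) (le_max_left _ _) hb1)
  have k2 := G2 X hX ((le_max_right _ _).trans hXX) ps₀ hlen hps hs2 hnum hnumX hLmp q ps Lv N₁ hf
    hq hqX hsb Bd hBd (hT.mono le_rfl (le_max_right _ _) hb2 hl0)
    (hTr.mono le_rfl (le_max_right _ _) hb2 hl0)
    (fun t => LnP_mono_rb (hL t) (le_max_right _ _) hb2)
  have hH : 1 ≤ Ht ps * Ht (natl ps₀) := by
    have a1 := one_le_Ht ps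
    have a2 := one_le_Ht (natl ps₀)
    nlinarith
  have hH0 : 0 ≤ Ht ps * Ht (natl ps₀) := by linarith
  have p1 : (Ht ps * Ht (natl ps₀)) ^ J₁ ≤ (Ht ps * Ht (natl ps₀)) ^ max J₁ J₂ :=
    Real.rpow_le_rpow_of_exponent_le hH (le_max_left _ _)
  have p2 : (Ht ps * Ht (natl ps₀)) ^ J₂ ≤ (Ht ps * Ht (natl ps₀)) ^ max J₁ J₂ :=
    Real.rpow_le_rpow_of_exponent_le hH (le_max_right _ _)
  have hXe : 0 ≤ X ^ ε := Real.rpow_nonneg hX0.le _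
  have hBd0 : 0 ≤ Bd := by linarith
  have hE : 0 ≤ Real.exp (2 * LF ps) := (Real.exp_pos _).le
  have n1 : 0 ≤ (Ht ps * Ht (natl ps₀)) ^ J₁ := Real.rpow_nonneg hH0 _
  have n2 : 0 ≤ (Ht ps * Ht (natl ps₀)) ^ J₂ := Real.rpow_nonneg hH0 _
  refine ⟨_, _, ?_, ?_, ?_, k1, k2⟩
  · positivity
  · positivity
  · calc C₁ * X ^ ε * (Ht ps * Ht (natl ps₀)) ^ J₁ * Bd * Real.exp (2 * LF ps) +
        C₂ * X ^ ε * (Ht ps * Ht (natl ps₀)) ^ J₂ * Bd * Real.exp (2 * LF ps) ≤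
        C₁ * X ^ ε * (Ht ps * Ht (natl ps₀)) ^ max J₁ J₂ * Bd * Real.exp (2 * LF ps) +
        C₂ * X ^ ε * (Ht ps * Ht (natl ps₀)) ^ max J₁ J₂ * Bd * Real.exp (2 * LF ps) := by
          gcongr
      _ = _ := by ring

end Crest.Agent.R017.RX298
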