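import Crest.Agent.R017.NLn_180
import Crest.Agent.R017.NXg_298
import Crest.Agent.R017.RX5e_298
import Crest.Agent.R017.JBXn_320

/-!
# Row 17, near field, class E (helper180): the T-half of `Num2` at the near leaf

* `jbr_of_jbc` : 320's joint numbers (full range) in the range `δ ∈ S D`, `B ≤ 3 E0`
* `JLfX`       : the joint numbers at the near leaf, class E
* `jlfX_of`    : `JLfX` from 320's `jbx_core`
* `num2_leafX_of` : `NLeafX` of `N2N` from `JLfX` and `NLeafX` of `RgN`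
* **`num2_leafX`** : `NLeafX` of `N2N` from `NLeafX` of `RgN`
-/

set_option autoImplicit false

noncomputable section

open Complex
open scoped ComplexConjugate

namespace Crest.Agent.R017.NLn180

open Crest.Agent.R012 Crest.Agent.R012.Eis Crest.Agent.R012.LS2 Crest.Agent.R012.Gauss880
open Crest.Agent.R017.CM106 Crest.Agent.R017.FE47
open Crest.Agent.R017.HP842 hiding fl
open Crest.Agent.R017.End699 hiding pw
open Crest.Agent.R017.B770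
open Crest.Agent.R017.Prov71
open Crest.Agent.R017.Leg381
open Crest.Agent.R017.RGB545 (Line Th TK)
open Crest.Agent.R017.RG64
open Crest.Agent.R017.XP699 (LL Chd hcost cst)
open Crest.Agent.R017.NE73 (gN)
open Crest.Agent.R017.NEg551 (NFacts NNum LBq F3)
open Crest.Agent.R017.NEc180 (JBr NumRg Num2 num2_r)
open Crest.Agent.R017.I1146 (rhoS LipS)
open Crest.Agent.R017.WDec180 (WD)
open Crest.Agent.R017.JBf180
open Crest.Agent.R017.TNj90 (JBc)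
open Crest.Agent.R017.JBX320 (shJ fl_eq)
open Crest.Agent.R017.RX298 (xs zt norm_zt rp rp_length LF_rp rpB XDp exists_XDp NTcX NTcR NNumX
  NLeafX LnP_mono_rb)
open Crest.Agent.R017.RXk848 (LnP Lmp)
open Crest.Agent.R017.Sup271 (NPm)

/-- the closed form of the joint exponent against the flat shape -/
lemma shJ_le_ShN {κ g n m cL c' η b k : ℝ} (h : max 0 (n - m + b - g) + cL ≤ c') :
    shJ κ g n m cL η b k ≤ ShN κ m c' η b k := by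
  unfold JBX320.shJ ShN
  rw [show k + b = k + b from rfl, fl_eq]
  have h1 := min_le_left (max 0 ((2 * (m - η - b) - (k + b + κ)) / 3)) (F3 κ (m - η - b))
  linarith

/-- 320's joint numbers in the range `δ ∈ S D`, `B ≤ 3 E0` -/
lemma jbr_of_jbc {Y W F J κ g n m cL c' D Bm : ℝ} {al : Eis → ℂ}
    (H : JBc Y W F J (shJ κ g n m cL) al) (hF : 0 ≤ F) (hD0 : 0 ≤ D) (hD : D ≤ Y) (hcL : cL ≤ c')
    (hb : n - m + Real.log Bm - g + cL ≤ c') : JBr Y D Bm W F J (ShN κ m c') al := by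
  intro d hd B V hB1 hB3 hBY hV1 hVW t
  have hB0 : 0 < B := by linarith
  obtain ⟨h1, h2, h3⟩ := (mem_S hD0).1 hd
  refine (H d ((mem_S (hD0.trans hD)).2 ⟨h1.trans hD, h2, h3⟩) B V hB1 hBY hV1 hVW t).trans ?_
  have ht : 0 ≤ (1 + |t|) ^ J := Real.rpow_nonneg (by linarith [abs_nonneg t]) _
  refine mul_le_mul_of_nonneg_right (mul_le_mul_of_nonneg_left (Real.exp_le_exp.2 ?_) hF) ht
  refine shJ_le_ShN ?_
  have hlB : Real.log B ≤ Real.log Bm := Real.log_le_log hB0 hB3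
  have h1 : max 0 (n - m + Real.log B - g) ≤ c' - cL := max_le (by linarith) (by linarith)
  linarith

/-- **the joint numbers at the near leaf**, class E, loss `ε / 2` -/
def JLfX {Lam : Type*} (π : Lam → DPar) (h : ℝ → ℝ) (K v c e₁ d : ℝ) : Prop :=
  ∀ (lam : Lam) (N : ℕ) (c₀ : ℝ), 1 ≤ c₀ → ∃ B₀ : ℝ, 0 ≤ B₀ ∧ ∀ ε M : ℝ, 0 < ε → 0 ≤ M →
    ∃ J₀ δ₀ : ℝ, 0 ≤ J₀ ∧ 0 < δ₀ ∧ ∀ (δ S : ℝ) (Jn : ℕ), 0 ≤ δ → δ ≤ δ₀ → J₀ ≤ Jn → 0 ≤ S →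
    ∃ C r X₁ : ℝ, 0 ≤ C ∧ 0 ≤ r ∧ ∀ X : ℝ, 3 ≤ X → X₁ ≤ X → ∀ ps₀ : List Pq, ps₀.length ≤ N →
    (∀ q ∈ ps₀, 0 ≤ Dq.len q ∧ Dq.len q ≤ c₀ * Real.log X) → (∀ q ∈ ps₀, Dq.s2 q ≤ X ^ c₀) →
    NNum K v c ε X ps₀ → NNumX K v c e₁ d ε X ps₀ → Lmp ((d + 3 / 2 * c) * Real.log X) ps₀ →
    ∀ (q : Eis) (ps : List Pf) (Lv : ℝ) (N₁ : ℕ),
    NFacts K v (gN K c (LL Dq ps₀ / Real.log X)) ε X ps₀ ps Lv N₁ →
    IsPrim q → (nm q : ℝ) ≤ X ^ c₀ → SbL S ps ps₀ → ∀ Bd : ℝ, 1 ≤ Bd →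
    NTcX (π lam) h K v c (2 * ε) X r (C * X ^ B₀) M Bd ps₀ →
    NTcR (π lam) h K v c (2 * ε) X r (C * X ^ B₀) M Bd (rpB (d * Real.log X) ps₀) →
    JBc (X ^ (8 * (K + 1))) (9 * N₁) (C * X ^ (ε / 2) * (Ht ps * Ht (natl ps₀)) ^ J₀ * Bd) Jn
      (shJ (K * Real.log X) (gN K c (LL Dq ps₀ / Real.log X) * Real.log X) (LL Dq ps₀) (LF ps)
        (c * Real.log X)) (xs q (X ^ δ) (X ^ δ) (π lam) h (d * Real.log X) ps)

variable {Lam ι : Type*} {p : ℕ}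

/-- the joint numbers at the near leaf, from 320's `jbx_core` -/
theorem jlfX_of {π : Lam → DPar} (hP : ∀ lam, (π lam).OK)
    (hnp : ∀ lam, ¬ NPm (π lam).n (π lam).ψ (π lam).l₂ 1) {h : ℝ → ℝ} {c₂ : ℝ} (hpu : PU h c₂)
    {K v c e₁ d : ℝ} (hK : 0 ≤ K) (hc : 0 < c) (hd : 0 ≤ d) : JLfX π h K v c e₁ d := by
  intro lam N c₀ hc₀
  refine ⟨c₀ + 2 * K + 2, by linarith, fun ε M hε hM => ?_⟩
  obtain ⟨J₀, δ₀, hJ₀, hδ₀, H⟩ := JBX320.jbx_core hP hnp hpu (v := v) (e₁ := e₁) hK hc hd lam N c₀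
    hc₀ ε (ε / 2) M hε (by positivity) hM
  refine ⟨J₀, δ₀, hJ₀, hδ₀, fun δ S Jn hδ hδδ hJn hS => ?_⟩
  obtain ⟨C, X₁, hC, H1⟩ := H δ Jn S hδ hδδ hJn hS 9 (by norm_num)
  refine ⟨C, C, X₁, by linarith, by linarith, ?_⟩
  intro X hX hXX ps₀ hlen hz hs2 hnum hnumX hLmp q ps Lv N₁ hF hq hqX hps Bd hBd hT hTr
  intro dd hdd B V hB1 hBY hV1 hVW t
  exact H1 X hX hXX ps₀ hlen hs2 hnum hnumX hLmp q ps Lv N₁ hF hq hqX hps Bd C
    (C * X ^ (c₀ + 2 * K + 2)) hBd le_rfl le_rfl hT hTr dd hdd B V hB1 hBY hV1 hVW t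

set_option maxHeartbeats 1600000 in
/-- **`Num2` at the near leaf, class E** from the joint numbers and its R-half -/
theorem num2_leafX_of {π : Lam → DPar} (hP : ∀ lam, (π lam).OK) {h : ℝ → ℝ} {c₂ : ℝ} (hpu : PU h c₂)
    {w : ℝ → ℝ} {Nw : ℕ} {Mw : ℝ} {Fw : ℕ → ℝ → ℂ} (hD : WD w Nw Mw Fw) (hf : LBq → ℝ)
    {L : ι → Line Lam p} {φ₀ φ₁ φβ : ℝ → ℝ → ℝ → ℝ} {K v c e₁ d y : ℝ} (hc : 0 < c)
    (hcK : 2000 * c ≤ K) (hy : 0 ≤ y) (hv : 0 ≤ v)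
    (hφ₀ : ∀ a u m, 3 / 4 * K - c ≤ m → φ₀ a u m ≤ m - 3 / 4 * K + (y + 3 / 4) * c)
    (HJ : JLfX π h K v c e₁ d)
    (H : NLeafX π h (RgN Nw Mw Fw hf ((y + 1) * (c / K))) L φ₀ φ₁ φβ K v c e₁ d) :
    NLeafX π h (N2N Nw Mw Fw hf) L φ₀ φ₁ φβ K v c e₁ d := by
  have hK : 0 < K := by linarith
  intro lam N c₀ hc₀
  obtain ⟨B₁, hB₁, H1⟩ := H lam N c₀ hc₀
  obtain ⟨B₂, hB₂, K1⟩ := HJ lam N c₀ hc₀
  refine ⟨max B₁ B₂, le_max_of_le_left hB₁, fun ε M hε hM => ?_⟩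
  obtain ⟨J₁, δ₁, hJ₁, hδ₁, H2⟩ := H1 ε M hε hM
  obtain ⟨J₂, δ₂, hJ₂, hδ₂, K2⟩ := K1 ε M hε hM
  refine ⟨max J₁ J₂, min δ₁ δ₂, le_max_of_le_left hJ₁, lt_min hδ₁ hδ₂, ?_⟩
  intro δ Jn Aw Cw R η S' hδ0 hδ hJn hAw hCw hR hη hη2 hS
  obtain ⟨C₁, r₁, X₁, hC₁, hr₁, H3⟩ := H2 δ Jn Aw Cw R η S' hδ0 (hδ.trans (min_le_left _ _))
    ((le_max_left _ _).trans hJn) hAw hCw hR hη hη2 hS
  obtain ⟨C₃, r₃, X₃, hC₃, hr₃, K3⟩ := K2 δ S' Jn hδ0 (hδ.trans (min_le_right _ _))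
    ((le_max_right _ _).trans hJn) hS
  obtain ⟨b, hb⟩ : ∃ b : ℝ, b = 8 * (K + 1) := ⟨_, rfl⟩
  have hb8 : 8 ≤ b := by rw [hb]; linarith
  have hb0 : 0 < b := by linarith
  have hη1 : η ≤ 1 := by linarith
  obtain ⟨C₂, hC₂, HN⟩ := num2_r hD (Cw := Cw) (R := R) (ε := ε / (2 * b)) (L := 3) (Aw := Aw)
    (J := Jn) hCw hR (by positivity) hAw (by norm_num)
  obtain ⟨Ra, Ca, hRa, hCa, hAL⟩ := exists_XDp hpu N
  obtain ⟨T₀, hT₀⟩ : ∃ T : ℝ, T = 6 + Ra := ⟨_, rfl⟩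
  have hT₀0 : 0 < T₀ := by rw [hT₀]; linarith
  have hC0 : 0 ≤ C₂ * (η⁻¹) ^ Jn * C₃ := by positivity
  refine ⟨C₁ + C₂ * (η⁻¹) ^ Jn * C₃ + C₃, max r₁ r₃,
    max (max X₁ X₃) (max Ca (Real.exp (T₀ / ε + 8 * T₀ / c + T₀))), by positivity,
    le_max_of_le_left hr₁, ?_⟩
  intro X hX3 hXX ps₀ hlen hz hs2 hnum hnumX hLmp q ps Lv N₁ hF hq hqX hps Bd hBd hT hTr hln
  have hX0 : 0 < X := by linarith
  have hX1 : 1 ≤ X := by linarith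
  obtain ⟨L', hL⟩ : ∃ L : ℝ, L = Real.log X := ⟨_, rfl⟩
  have hTL : T₀ / ε + 8 * T₀ / c + T₀ ≤ L' := by
    rw [hL, Real.le_log_iff_exp_le hX0]
    exact (le_max_right _ _).trans ((le_max_right _ _).trans hXX)
  have hTε0 : 0 ≤ T₀ / ε := by positivity
  have hTc0 : 0 ≤ 8 * T₀ / c := by positivity
  have hL0 : 0 < L' := by linarith
  have hTε : T₀ ≤ ε * L' := by
    have h1 : T₀ / ε ≤ L' := by linarith
    rw [div_le_iff₀ hε] at h1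
    linarith
  have hTc : 8 * T₀ ≤ c * L' := by
    have h1 : 8 * T₀ / c ≤ L' := by linarith
    rw [div_le_iff₀ hc] at h1
    linarith
  have hpowX : ∀ x : ℝ, X ^ x = Real.exp (x * L') := fun x => by
    rw [Real.rpow_def_of_pos hX0, hL, mul_comm]
  -- sizes
  have hεc := hnum.ec
  obtain ⟨n, hn⟩ : ∃ n : ℝ, n = LL Dq ps₀ := ⟨_, rfl⟩
  obtain ⟨m, hm⟩ : ∃ m : ℝ, m = LF ps := ⟨_, rfl⟩
  have hz' : ∀ q ∈ ps, 0 ≤ q.1.z := hps.z_nonneg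
  have hm0 : 0 ≤ m := by rw [hm]; exact LF_nonneg hz'
  obtain ⟨g, hg⟩ : ∃ x : ℝ, x = gN K c (LL Dq ps₀ / Real.log X) := ⟨_, rfl⟩
  have hgL : g * L' = n - 3 / 4 * (K * L') + c * L' := by
    rw [hg, ← hL, ← hn]
    unfold NE73.gN
    field_simp
  have f1 := hF.lo
  have f2 := hF.hi
  have f3 := hF.lv
  have f4 := hF.nK
  have f5 := hnum.nK
  have f6 := hnum.Kn
  have f7 := hnum.vg
  rw [← hg, ← hL, ← hn, ← hm] at f1
  rw [← hL, ← hn, ← hm] at f2 f3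
  rw [← hL, ← hn] at f4 f5 f6
  rw [← hg] at f7
  have hεL : 0 ≤ ε * L' := by positivity
  have hcL : 0 ≤ c * L' := by positivity
  have hyL : 0 ≤ y * (c * L') := by positivity
  have hεcL : ε * L' ≤ c * L' := mul_le_mul_of_nonneg_right hεc hL0.le
  have hcKL : 2000 * (c * L') ≤ K * L' := by
    have := mul_le_mul_of_nonneg_right hcK hL0.le
    linarith
  have e1 : (K + ε) * L' = K * L' + ε * L' := by ring
  have e2 : (4 * K + ε) * L' = 4 * (K * L') + ε * L' := by ring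
  have e3 : 3 * K * L' = 3 * (K * L') := by ring
  have e4 : (v + ε) * L' = v * L' + ε * L' := by ring
  rw [e1] at f4
  rw [e2] at f5
  rw [e3] at f6
  rw [e4] at f3
  have hvL : 0 ≤ v * L' := by positivity
  have f8 : 3 * (v * L' + g * L') + 100 * (c * L') ≤ 2 * (K * L') + ε * L' := by
    have := mul_le_mul_of_nonneg_right f7 hL0.le
    have e5 : (3 * (v + g) + 100 * c) * L' = 3 * (v * L' + g * L') + 100 * (c * L') := by ring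
    have e6 : (2 * K + ε) * L' = 2 * (K * L') + ε * L' := by ring
    linarith
  have hbL : b * L' = 8 * (K * L') + 8 * L' := by rw [hb]; ring
  have hKL : 0 ≤ K * L' := by positivity
  have hXp : (0 : ℝ) ≤ Real.log X := hL ▸ hL0.le
  -- the R-half and the joint numbers
  have hCX : C₁ * X ^ B₁ ≤ (C₁ + C₂ * (η⁻¹) ^ Jn * C₃ + C₃) * X ^ max B₁ B₂ := by
    have h1 : X ^ B₁ ≤ X ^ max B₁ B₂ :=
      Real.rpow_le_rpow_of_exponent_le hX1 (le_max_left _ _)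
    have h3 : 0 ≤ X ^ B₁ := by positivity
    calc C₁ * X ^ B₁ ≤ (C₁ + C₂ * (η⁻¹) ^ Jn * C₃ + C₃) * X ^ B₁ :=
          mul_le_mul_of_nonneg_right (by linarith) h3
      _ ≤ _ := mul_le_mul_of_nonneg_left h1 (by linarith)
  have hCX3 : C₃ * X ^ B₂ ≤ (C₁ + C₂ * (η⁻¹) ^ Jn * C₃ + C₃) * X ^ max B₁ B₂ := by
    have h1 : X ^ B₂ ≤ X ^ max B₁ B₂ :=
      Real.rpow_le_rpow_of_exponent_le hX1 (le_max_right _ _)
    have h3 : 0 ≤ X ^ B₂ := by positivity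
    calc C₃ * X ^ B₂ ≤ (C₁ + C₂ * (η⁻¹) ^ Jn * C₃ + C₃) * X ^ B₂ :=
          mul_le_mul_of_nonneg_right (by linarith) h3
      _ ≤ _ := mul_le_mul_of_nonneg_left h1 (by linarith)
  have HR := H3 X hX3 ((le_max_left _ _).trans ((le_max_left _ _).trans hXX)) ps₀ hlen hz hs2 hnum
    hnumX hLmp q ps Lv N₁ hF hq hqX hps Bd hBd (hT.mono le_rfl (le_max_left _ _) hCX hXp)
    (hTr.mono le_rfl (le_max_left _ _) hCX hXp)
    (fun t => LnP_mono_rb (hln t) (le_max_left _ _) hCX)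
  have HJ' := K3 X hX3 ((le_max_right _ _).trans ((le_max_left _ _).trans hXX)) ps₀ hlen hz hs2 hnum
    hnumX hLmp q ps Lv N₁ hF hq hqX hps Bd hBd (hT.mono le_rfl (le_max_right _ _) hCX3 hXp)
    (hTr.mono le_rfl (le_max_right _ _) hCX3 hXp)
  obtain ⟨D, hDd⟩ : ∃ D : ℝ, D = Real.exp (min (gN K c (LL Dq ps₀ / Real.log X) * Real.log X)
    (LF ps - (LL Dq ps₀ - gN K c (LL Dq ps₀ / Real.log X) * Real.log X))) := ⟨_, rfl⟩
  have hD0 : 0 ≤ D := by rw [hDd]; exact (Real.exp_pos _).le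
  have hDX : D ≤ X ^ (8 * (K + 1)) := by
    rw [hDd, hpowX, ← hb, hbL]
    refine Real.exp_le_exp.2 ((min_le_left _ _).trans ?_)
    rw [← hg, ← hL]
    linarith
  obtain ⟨f, hfd⟩ : ∃ f : ℝ, f = φ₀ (LL Dq ps₀ / Real.log X) (Lv / Real.log X)
    (LF ps / Real.log X) := ⟨_, rfl⟩
  have hfL : f * L' ≤ m - 3 / 4 * (K * L') + (y + 3 / 4) * (c * L') := by
    have h1 := hφ₀ (LL Dq ps₀ / Real.log X) (Lv / Real.log X) (LF ps / Real.log X) (by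
      rw [← hL, ← hm, le_div_iff₀ hL0]
      have : (3 / 4 * K - c) * L' = 3 / 4 * (K * L') - c * L' := by ring
      linarith)
    rw [← hfd, ← hL, ← hm] at h1
    have h2 := mul_le_mul_of_nonneg_right h1 hL0.le
    have h3 : (m / L' - 3 / 4 * K + (y + 3 / 4) * c) * L' =
        m - 3 / 4 * (K * L') + (y + 3 / 4) * (c * L') := by
      field_simp
    linarith
  have hE0 : 0 < X ^ f := Real.rpow_pos_of_pos hX0 _
  have hlE : Real.log (3 * X ^ f) ≤ 2 + f * L' := by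
    rw [Real.log_mul (by norm_num) hE0.ne', Real.log_rpow hX0, ← hL]
    have := Real.log_le_sub_one_of_pos (x := 3) (by norm_num)
    linarith
  have hHH0 : 1 ≤ Ht ps * Ht (natl ps₀) :=
    one_le_mul_of_one_le_of_one_le (one_le_Ht _) (one_le_Ht _)
  have hBd0 : 0 ≤ Bd := by linarith
  have hFn : 0 ≤ C₃ * X ^ (ε / 2) * (Ht ps * Ht (natl ps₀)) ^ J₂ * Bd := by
    have : 0 ≤ (Ht ps * Ht (natl ps₀)) ^ J₂ := Real.rpow_nonneg (by linarith) _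
    positivity
  have hJB : JBr (X ^ (8 * (K + 1))) D (3 * X ^ f) (9 * N₁)
      (C₃ * X ^ (ε / 2) * (Ht ps * Ht (natl ps₀)) ^ J₂ * Bd) ((Jn : ℕ) : ℝ)
      (ShN (K * L') (LF ps) ((y + 1) * c * L'))
      (xs q (X ^ δ) (X ^ δ) (π lam) h (d * Real.log X) ps) := by
    rw [← hg, ← hL, ← hn, ← hm] at HJ'
    rw [← hm, ← hL]
    refine jbr_of_jbc HJ' hFn hD0 hDX ?_ ?_
    · have h3 : (y + 1) * c * L' = y * (c * L') + c * L' := by ring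
      linarith
    · have h3 : (y + 1) * c * L' = (y + 3 / 4) * (c * L') + c * L' / 4 := by ring
      linarith
  -- the support
  have hX' : X ≤ X ^ (8 * (K + 1)) := by
    calc X = X ^ (1 : ℝ) := (Real.rpow_one X).symm
      _ ≤ _ := Real.rpow_le_rpow_of_exponent_le hX1 (by linarith)
  obtain ⟨hsup, _, _, _⟩ := hAL (X ^ δ) (X ^ δ) (π lam) (hP lam) q ps (rp (d * Real.log X) ps)
    (zt (d * Real.log X) ps) (hps.length ▸ hlen)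
    (by rw [rp_length]; exact hps.length ▸ hlen) (LF_rp _ _) (norm_zt _ _).le
    (X ^ (8 * (K + 1))) (((le_max_left _ _).trans ((le_max_right _ _).trans hXX)).trans hX') (by
      rw [← Real.exp_add, hpowX, ← hb, hbL, ← hm]
      refine Real.exp_le_exp.2 ?_
      linarith)
  have hN1 : 9 * (N₁ : ℝ) ≤ Real.exp (Lv + 4) := hF.N1
  have hN1' : (1 : ℝ) ≤ N₁ := (Real.one_le_exp hF.v0).trans hF.N0
  have hN1Y : (N₁ : ℝ) ≤ X ^ (8 * (K + 1)) := by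
    rw [hpowX, ← hb, hbL]
    refine le_trans (by linarith : (N₁ : ℝ) ≤ 9 * N₁) (hN1.trans (Real.exp_le_exp.2 ?_))
    linarith
  have hlK : Real.log (X ^ K) = K * L' := by rw [Real.log_rpow hX0, hL]
  have hcK' : (y + 1) * (c / K) * (K * L') = (y + 1) * c * L' := by field_simp
  have hHJ1 : (Ht ps * Ht (natl ps₀)) ^ J₁ ≤ (Ht ps * Ht (natl ps₀)) ^ (max J₁ J₂) :=
    Real.rpow_le_rpow_of_exponent_le hHH0 (le_max_left _ _)
  have hHJ2 : (Ht ps * Ht (natl ps₀)) ^ J₂ ≤ (Ht ps * Ht (natl ps₀)) ^ (max J₁ J₂) :=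
    Real.rpow_le_rpow_of_exponent_le hHH0 (le_max_right _ _)
  have hη1' : 0 ≤ (η⁻¹) ^ Jn := by positivity
  rw [← hDd, ← hfd] at HR ⊢
  intro I hI1 hI2
  have hRg := HR I hI1 hI2
  simp only [Real.log_exp] at hRg
  rw [hlK, hcK'] at hRg
  have key := HN (X ^ K) (Real.exp (LF ps)) (X ^ (8 * (K + 1))) D (X ^ f) (hf _) η
    (4 / 3 * LF ps) (C₃ * X ^ (ε / 2) * (Ht ps * Ht (natl ps₀)) ^ J₂ * Bd) N₁ I
    (ShN (K * L') (LF ps) ((y + 1) * c * L')) (Real.rpow_pos_of_pos hX0 _) (Real.exp_pos _)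
    (hX1.trans hX') hD0 hE0 (by exact_mod_cast hN1') hN1Y hη hη1 hFn
    (lipS_ShN _ _ _) _ hsup hJB _ (by rw [hlK]; exact hRg)
  intro a ha t X' φ c1 c2 c3 c4
  refine (key a ha t X' φ c1 c2 c3 c4).trans ?_
  refine mul_le_mul_of_nonneg_left (mul_le_mul_of_nonneg_right ?_ (by positivity))
    (div_nonneg (Real.rpow_nonneg hX0.le _) (Real.exp_pos _).le)
  have hYe : (X ^ (8 * (K + 1))) ^ (ε / (2 * b)) = X ^ (ε / 2) := by
    rw [← hb, ← Real.rpow_mul hX0.le]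
    congr 1
    field_simp
  have hXε : X ^ (ε / 2) * X ^ (ε / 2) = X ^ ε := by
    rw [← Real.rpow_add hX0]; congr 1; ring
  rw [hYe, Real.log_exp]
  have e7 : 4 / 3 * LF ps + 2 / 3 * LF ps = 2 * LF ps := by ring
  rw [e7]
  obtain ⟨HH, hHHd⟩ : ∃ x : ℝ, x = (Ht ps * Ht (natl ps₀)) ^ (max J₁ J₂) := ⟨_, rfl⟩
  rw [← hHHd] at hHJ1 hHJ2 ⊢
  have hHH0 : 0 ≤ HH := by rw [hHHd]; exact Real.rpow_nonneg (by linarith) _
  have hE2 := Real.exp_pos (2 * LF ps)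
  have hXe0 : 0 ≤ X ^ ε := by positivity
  have p1 : C₂ * (η⁻¹) ^ Jn * X ^ (ε / 2) * (C₃ * X ^ (ε / 2) *
      (Ht ps * Ht (natl ps₀)) ^ J₂ * Bd * Real.exp (2 * LF ps)) ≤
      C₂ * (η⁻¹) ^ Jn * C₃ * X ^ ε * HH * Bd * Real.exp (2 * LF ps) := by
    calc C₂ * (η⁻¹) ^ Jn * X ^ (ε / 2) * (C₃ * X ^ (ε / 2) *
          (Ht ps * Ht (natl ps₀)) ^ J₂ * Bd * Real.exp (2 * LF ps)) =
        C₂ * (η⁻¹) ^ Jn * C₃ * (X ^ (ε / 2) * X ^ (ε / 2)) * (Ht ps * Ht (natl ps₀)) ^ J₂ *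
          Bd * Real.exp (2 * LF ps) := by ring
      _ ≤ _ := by
        rw [hXε]
        gcongr
  have p2 : C₁ * X ^ ε * (Ht ps * Ht (natl ps₀)) ^ J₁ * Bd * Real.exp (2 * LF ps) ≤
      C₁ * X ^ ε * HH * Bd * Real.exp (2 * LF ps) := by gcongr
  have p3 : 0 ≤ C₃ * X ^ ε * HH * Bd * Real.exp (2 * LF ps) := by positivity
  have e8 : (C₁ + C₂ * (η⁻¹) ^ Jn * C₃ + C₃) * X ^ ε * HH * Bd * Real.exp (2 * LF ps) =
      C₁ * X ^ ε * HH * Bd * Real.exp (2 * LF ps) +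
      C₂ * (η⁻¹) ^ Jn * C₃ * X ^ ε * HH * Bd * Real.exp (2 * LF ps) +
      C₃ * X ^ ε * HH * Bd * Real.exp (2 * LF ps) := by ring
  rw [e8]
  linarith

/-- **`Num2` at the near leaf, class E** from its R-half -/
theorem num2_leafX {π : Lam → DPar} (hP : ∀ lam, (π lam).OK)
    (hnp : ∀ lam, ¬ NPm (π lam).n (π lam).ψ (π lam).l₂ 1) {h : ℝ → ℝ} {c₂ : ℝ} (hpu : PU h c₂)
    {w : ℝ → ℝ} {Nw : ℕ} {Mw : ℝ} {Fw : ℕ → ℝ → ℂ} (hD : WD w Nw Mw Fw) (hf : LBq → ℝ)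
    {L : ι → Line Lam p} {φ₀ φ₁ φβ : ℝ → ℝ → ℝ → ℝ} {K v c e₁ d y : ℝ} (hc : 0 < c)
    (hcK : 2000 * c ≤ K) (hy : 0 ≤ y) (hv : 0 ≤ v) (hd : 0 ≤ d)
    (hφ₀ : ∀ a u m, 3 / 4 * K - c ≤ m → φ₀ a u m ≤ m - 3 / 4 * K + (y + 3 / 4) * c)
    (H : NLeafX π h (RgN Nw Mw Fw hf ((y + 1) * (c / K))) L φ₀ φ₁ φβ K v c e₁ d) :
    NLeafX π h (N2N Nw Mw Fw hf) L φ₀ φ₁ φβ K v c e₁ d :=
  num2_leafX_of hP hpu hD hf hc hcK hy hv hφ₀ (jlfX_of hP hnp hpu (by linarith) hc hd) H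

end Crest.Agent.R017.NLn180
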