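import Crest.Agent.R017.NLg_777
import Crest.Agent.R017.LBZ_911

/-!
# Row 17, near field (FlatNE): the near leaf of `NumZ` (helper777)

* `QfZ` : the predicate `Qc (C₀ K / E1³)` and `Cut E1`
* **`nleaf_z`** : `NLeaf` of helper911's `NumZ` from the four numbers
-/

set_option autoImplicit false
set_option linter.unusedVariables false

noncomputable section

open Complex
open scoped ComplexConjugate

namespace Crest.Agent.R017.NLg777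

open Crest.Agent.R012 Crest.Agent.R012.Eis
open Crest.Agent.R012.MC (Wgt)
open Crest.Agent.R017.CM106 Crest.Agent.R017.HP842
open Crest.Agent.R017.B770
open Crest.Agent.R017.Prov71
open Crest.Agent.R017.Leg381
open Crest.Agent.R017.RGB545
open Crest.Agent.R017.XP699 (LL Chd hcost cst)
open Crest.Agent.R017.RG64
open Crest.Agent.R017.NE73 (gN)
open Crest.Agent.R017.E3M829 (Cut)
open Crest.Agent.R017.NE499 (hS NumT NumOs)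
open Crest.Agent.R017.NEc180 (Num2 NumEq)
open Crest.Agent.R017.LBZ911 (NumZ)
open Crest.Agent.R017.CubP813 (Qc)
open Crest.Agent.R017.NEg551

variable {Lam ι : Type*} {p : ℕ} {π : Lam → DPar} {h : ℝ → ℝ} {φ₀ φ₁ φβ : ℝ → ℝ → ℝ → ℝ}
  {K v c : ℝ}

/-- the predicate of the complete part: cube-free part `≥ C₀ K / E1³` -/
def QfZ (C₀ : ℝ) (q : LBq) (k : Eis) : Prop := Qc (C₀ * q.K / q.E1 ^ 3) k ∧ Cut q.E1 k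

lemma QfZ_cut {C₀ : ℝ} : ∀ (q : LBq) (k : Eis), IsPrim k → QfZ C₀ q k → Cut q.E1 k :=
  fun _ _ _ h => h.2

lemma QfZ_qc {C₀ : ℝ} : ∀ (q : LBq) (k : Eis), QfZ C₀ q k → Qc (C₀ * q.K / q.E1 ^ 3) k :=
  fun _ _ h => h.1

/-- **the near leaf of `NumZ`** -/
theorem nleaf_z {w : ℝ → ℝ} {b C₀ : ℝ} (hw : ∀ x, w x ≠ 0 → x ≤ b) (hC₀ : 0 < C₀) {N : ℕ}
    {M : ℝ} {F : ℕ → ℝ → ℂ} {Qf : LBq → Eis → Prop}
    (hQf : ∀ (q : LBq) (k : Eis), Qf q k → Qc (C₀ * q.K / q.E1 ^ 3) k) {L : ι → Line Lam p}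
    (hc : 0 < c) (hφ : ∀ a u m, φ₁ a u m + c ≤ φβ a u m - φ₀ a u m)
    (hφ0 : ∀ a u m, 0 ≤ φβ a u m - φ₀ a u m)
    (h1 : NLeaf π h (fun q α Rn => NumT q.Cw q.η q.Aw q.K q.X q.Y q.R q.J q.D q.E0 q.N₁ α Rn)
      L φ₀ φ₁ φβ K v c)
    (h2 : NLeaf π h (fun q α Rn => ∃ I : ℕ, (q.N₁ : ℝ) < 2 ^ I ∧
      Num2 N M F q.Cw q.η q.Aw q.K q.X q.R q.J q.D q.E0 (hS q) q.N₁ I α Rn) L φ₀ φ₁ φβ K v c)
    (h3 : NLeaf π h (fun q α Rn => NumEq N M F (Qf q) q.Cw q.η q.Aw q.K q.X q.R q.J q.D q.E0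
      (hS q) q.N₁ α Rn) L φ₀ φ₁ φβ K v c)
    (h4 : NLeaf π h (fun q α Rn => NumOs w q.Cw q.η q.Aw q.K q.X q.K q.R q.J q.D q.E0 q.E1
      (q.B / q.E0) (q.N₁ / 2) q.N₁ α Rn) L φ₀ φ₁ φβ K v c) :
    NLeaf π h (NumZ w N M F Qf) L φ₀ φ₁ φβ K v c :=
  nleaf_five (fun q α a b k1 hab => k1.mono hab)
    (fun q α a₁ a₂ a₃ a₄ i1 i2 i3 i4 ⟨c1, c2⟩ k1 ⟨I, hI, k2⟩ k3 k4 =>
      ⟨a₁, a₂, a₃, a₄, I, i1, i2, i3, i4, c1, hI, c2, le_rfl, k1, k2, k3, k4⟩)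
    (nleaf_cl hw hC₀ hQf hc hφ hφ0) h1 h2 h3 h4

/-- `∃ I` from a bound for every `I` -/
theorem nleaf_ex {Rf : ℕ → LBq → (Eis → ℂ) → ℝ → Prop} {L : ι → Line Lam p}
    (H : NLeaf π h (fun q α Rn => ∀ I : ℕ, (q.N₁ : ℝ) < 2 ^ I → (2 : ℝ) ^ I ≤ 2 * q.N₁ →
      Rf I q α Rn) L φ₀ φ₁ φβ K v c) :
    NLeaf π h (fun q α Rn => ∃ I : ℕ, (q.N₁ : ℝ) < 2 ^ I ∧ Rf I q α Rn) L φ₀ φ₁ φβ K v c := by
  intro lam N c₀ hc₀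
  obtain ⟨B₀, hB₀, H1⟩ := H lam N c₀ hc₀
  refine ⟨B₀, hB₀, fun ε M hε hM => ?_⟩
  obtain ⟨J₀, δ₀, hJ₀, hδ₀, H2⟩ := H1 ε M hε hM
  refine ⟨J₀, δ₀, hJ₀, hδ₀, ?_⟩
  intro δ Jn Aw Cw R η S h1 h2 h3 h4 h5 h6 h7 h8 h9
  obtain ⟨C, r, X₁, hC, hr, H3⟩ := H2 δ Jn Aw Cw R η S h1 h2 h3 h4 h5 h6 h7 h8 h9
  refine ⟨C, r, X₁, hC, hr, ?_⟩
  intro X hX3 hXX ps₀ hlen hps hs2 hnum q ps Lv N₁ hF hq hqX hps' Bd hBd hNT hline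
  have key := H3 X hX3 hXX ps₀ hlen hps hs2 hnum q ps Lv N₁ hF hq hqX hps' Bd hBd hNT hline
  have hN : N₁ ≠ 0 := by
    rintro rfl
    have h10 := hF.N0
    have h11 := Real.exp_pos Lv
    rw [Nat.cast_zero] at h10
    linarith
  have e1 : N₁ < 2 ^ (Nat.log 2 N₁ + 1) := Nat.lt_pow_succ_log_self (by norm_num) N₁
  have e2 : 2 ^ Nat.log 2 N₁ ≤ N₁ := Nat.pow_log_le_self 2 hN
  have e3 : (N₁ : ℝ) < 2 ^ (Nat.log 2 N₁ + 1) := by exact_mod_cast e1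
  have e4 : (2 : ℝ) ^ Nat.log 2 N₁ ≤ N₁ := by exact_mod_cast e2
  exact ⟨_, e3, key _ e3 (by rw [pow_succ]; show (2 : ℝ) ^ Nat.log 2 N₁ * 2 ≤ 2 * (N₁ : ℝ); linarith)⟩

end Crest.Agent.R017.NLg777
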