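import Crest.Agent.R017.NF6_64
import Crest.Agent.R017.NL4_64
import Crest.Agent.R017.GG8_90

/-!
# Row 17 (A, norm): the `λ`-factor `vv`, cubic type

* `wl_add_three`, `FF_add_three`, `QF_add_three` : periodicity in `i`
* `SL_wl`, `vv_eq` : `vv = 3^{j+2}/2 · θ · FF`
* `exists_FF_ne`, `X_eq` : `X = -Bs^6`
* `Qs_vv` : `Qs X vv = 3^{j+2}/2 · θ · QF`
-/

set_option autoImplicit false

noncomputable section

open Complex
open scoped ComplexConjugate

namespace Crest.Agent.R017.NM64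

open Crest.Agent.R012 Crest.Agent.R012.Eis Crest.Agent.R012.Gauss880 Crest.Agent.R017.Loc266
open Crest.Agent.R017.Sx440 Crest.Agent.R017.Kub664 Crest.Agent.R017.Tw266
open Crest.Agent.R017.Rw266 Crest.Agent.R017.GG90 Crest.Agent.R017.LamP64
open Crest.Agent.R017.GL64 Crest.Agent.R017.NF64 Crest.Agent.R017.NL64

section per

variable {j : ℕ} {x β s : Eis} {σ : ℂ} {i l : ℕ}

lemma w_pow_add_three (i : ℕ) : w ^ (i + 3) = w ^ i := by rw [pow_add, w_cube, mul_one]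

lemma wl_add_three : wl j x β s (i + 3) l = wl j x β s i l := by
  unfold wl
  rw [w_pow_add_three]
  have h : sq3 ^ (j + 2) ∣ -(x * (s * w ^ i * sq3 ^ l)) +
      (((i + 3 : ℕ) : Eis) * sq3 - l - β) * sq3 ^ j ↔
      sq3 ^ (j + 2) ∣ -(x * (s * w ^ i * sq3 ^ l)) + ((i : Eis) * sq3 - l - β) * sq3 ^ j := by
    have e : -(x * (s * w ^ i * sq3 ^ l)) + (((i + 3 : ℕ) : Eis) * sq3 - l - β) * sq3 ^ j =
        (-(x * (s * w ^ i * sq3 ^ l)) + ((i : Eis) * sq3 - l - β) * sq3 ^ j) +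
          sq3 ^ (j + 2) * (-sq3) := by
      have h3 := sq3_sq
      push_cast
      rw [pow_add]
      linear_combination (-sq3 * sq3 ^ j) * (-h3)
    rw [e]
    exact dvd_add_left (dvd_mul_right _ _)
  by_cases h1 : sq3 ^ (j + 2) ∣ -(x * (s * w ^ i * sq3 ^ l)) + ((i : Eis) * sq3 - l - β) * sq3 ^ j
  · rw [if_pos h1, if_pos (h.mpr h1)]
  · rw [if_neg h1, if_neg (fun h' => h1 (h.mp h'))]

lemma FF_add_three : FF j x β σ (i + 3) l = FF j x β σ i l := by
  unfold FF; rw [wl_add_three, wl_add_three]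

lemma FF_add_mul (k : ℕ) : FF j x β σ (i + 3 * k) l = FF j x β σ i l := by
  induction k with
  | zero => rw [mul_zero, add_zero]
  | succ k ih => rw [mul_add, mul_one, ← add_assoc, FF_add_three, ih]

lemma QF_add_three : QF j x β σ (i + 3) l = QF j x β σ i l := by
  unfold QF; rw [FF_add_three, FF_add_three]

lemma QF_add_mul (k : ℕ) : QF j x β σ (i + 3 * k) l = QF j x β σ i l := by
  induction k with
  | zero => rw [mul_zero, add_zero]
  | succ k ih => rw [mul_add, mul_one, ← add_assoc, QF_add_three, ih]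

lemma FF_add_six {n : ℕ} (hn : 4 ≤ n) : FF j x β σ i (j + (n + 6)) = FF j x β σ i (j + n) := by
  rw [FF_h _ _ _ _ _ _ (by omega), FF_h _ _ _ _ _ _ hn,
    show (((n + 6 : ℕ)) : ZMod 3) = (n : ZMod 3) + 6 by push_cast; rfl, cast6,
    show (-1 : ℂ) ^ (n + 6) = (-1) ^ n by rw [pow_add]; norm_num]

/-- a nonzero value in every range -/
lemma exists_FF_ne (j : ℕ) (x β : Eis) (hσ : σ = 1 ∨ σ = -1) (R : ℕ) :
    ∃ i l, R ≤ l ∧ FF j x β σ i l ≠ 0 := by
  -- `i` with `2 i = im β`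
  obtain ⟨i, hi⟩ : ∃ i : ℕ, (i : ZMod 3) = 2 * (β.im : ZMod 3) :=
    ⟨(2 * (β.im : ZMod 3)).val, ZMod.natCast_zmod_val _⟩
  obtain ⟨r, hr⟩ : ∃ r : ℕ, (r : ZMod 3) = (i : ZMod 3) - (j : ZMod 3) - (β.re : ZMod 3) :=
    ⟨((i : ZMod 3) - (j : ZMod 3) - (β.re : ZMod 3)).val, ZMod.natCast_zmod_val _⟩
  have key : ∀ n : ℕ, 4 ≤ n → (n : ZMod 3) = r → σ * (-1) ^ j * (-1) ^ n = 1 →
      FF j x β σ i (j + n) ≠ 0 := by
    intro n hn hnr hs
    rw [FF_h _ _ _ _ _ _ hn, hs, ec_pos]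
    · norm_num
    · refine ⟨?_, ?_⟩
      · rw [hnr, hr]; ring
      · rw [hi]
        have : ∀ c : ZMod 3, 2 * (2 * c) - c = 0 := by decide
        exact this _
  obtain ⟨n, hn⟩ : ∃ n, n = r + 6 * (R + 1) := ⟨_, rfl⟩
  have hn3 : (n : ZMod 3) = r := by
    rw [hn]; push_cast
    have : (6 : ZMod 3) = 0 := by decide
    rw [this]; ring
  have hn3' : ((n + 3 : ℕ) : ZMod 3) = r := by
    push_cast
    have : (3 : ZMod 3) = 0 := by decide
    rw [hn3, this, add_zero]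
  by_cases h : σ * (-1) ^ j * (-1) ^ n = 1
  · exact ⟨i, j + n, by omega, key n (by omega) hn3 h⟩
  · refine ⟨i, j + (n + 3), by omega, key (n + 3) (by omega) hn3' ?_⟩
    rcases neg_one_pow_eq_or ℂ j with h1 | h1 <;> rcases neg_one_pow_eq_or ℂ n with h2 | h2 <;>
      rcases hσ with h3 | h3 <;> rw [h1, h2, h3] at h <;> rw [pow_add, h1, h2, h3]
    all_goals first
      | (norm_num; done)
      | (exfalso; apply h; norm_num; done)

end per

/-! ### signs -/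

lemma sg6 (b : ℕ) : (-1 : ℂ) ^ ((b + 6).choose 2) = -(-1) ^ (b.choose 2) := by
  rw [show b + 6 = b + 5 + 1 by ring, sg_succ, show b + 5 = b + 4 + 1 by ring, sg_succ,
    show b + 4 = b + 3 + 1 by ring, sg_succ, show b + 3 = b + 2 + 1 by ring, sg_succ,
    show b + 2 = b + 1 + 1 by ring, sg_succ, sg_succ]
  have h : (-1 : ℂ) ^ b * (-1) ^ b = 1 := by rw [← mul_pow]; norm_num
  simp only [pow_succ]
  linear_combination (-(-1 : ℂ) ^ (b.choose 2) * (((-1) ^ b * (-1) ^ b) ^ 2 +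
    (-1) ^ b * (-1) ^ b + 1)) * h

lemma sg3 (b : ℕ) : (-1 : ℂ) ^ ((b + 3).choose 2) = -(-1) ^ (b.choose 2) * (-1) ^ b := by
  rw [show b + 3 = b + 2 + 1 by ring, sg_succ,
    show b + 2 = b + 1 + 1 by ring, sg_succ, sg_succ]
  have h : (-1 : ℂ) ^ b * (-1) ^ b = 1 := by rw [← mul_pow]; norm_num
  simp only [pow_succ]
  linear_combination (-(-1 : ℂ) ^ (b.choose 2) * (-1) ^ b) * h

lemma sg_sq (n : ℕ) : (-1 : ℂ) ^ n * (-1) ^ n = 1 := by rw [← mul_pow]; norm_num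

end Crest.Agent.R017.NM64
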