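import Crest.Agent.R017.NM1_64

/-!
# Row 17 (A, norm): the `λ`-factor `vv`, cubic type, II

* `vv_eq` : `vv = 3^{j+2}/2 · θ · FF`
* `X_eq` : `X = -Bs^6`
* `Qs_vv` : `Qs X vv = 3^{j+2}/2 · θ · QF`
* **`Nl_cub`** : the autocorrelation of `Qs X vv`
-/

set_option autoImplicit false

noncomputable section

open Complex
open scoped ComplexConjugate

namespace Crest.Agent.R017.NM64

open Crest.Agent.R012 Crest.Agent.R012.Eis Crest.Agent.R012.Gauss880 Crest.Agent.R017.Loc266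
open Crest.Agent.R017.Sx440 Crest.Agent.R017.Kub664 Crest.Agent.R017.Tw266
open Crest.Agent.R017.Rw266 Crest.Agent.R017.GG90 Crest.Agent.R017.LamP64
open Crest.Agent.R017.GL64 Crest.Agent.R017.NF64 Crest.Agent.R017.NL64

/-- the phase of `vv` -/
def th (Bw Bs : ℂ) (n b : ℕ) : ℂ := Bw ^ (n + 2 * b) * Bs ^ b * (-1) ^ (b.choose 2)

section

variable {N B e₂ x β e' : Eis} {ψ γ : Eis → ℂ} {j : ℕ} {Bw Bs σ X : ℂ} {R : ℕ}

variable (H : Lvl (sq3 ^ (j + 4)) B e₂) (hN : sq3 ^ (j + 4) * B = N)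
include H hN

lemma SL_wl (hψ : IsCh N ψ) (hγ : Gam4 γ)
    (hβ : ∀ y, ψ (lf e₂ (1 + sq3 ^ 2 * y)) = ea (sq3 ^ 2) β y) (he : e₂ = B * e')
    {s : Eis} (hs : s = 1 ∨ s = -1) (i l : ℕ) :
    SL N (sq3 ^ (j + 4)) e₂ x ψ γ (s * w ^ i * sq3 ^ l) =
      (3 : ℂ) ^ (j + 2) * wl j (x * e') β s i l := by
  subst hN
  have h := SL_cubic (x := x) (t := s * w ^ i * sq3 ^ l) (i := i) (l := l) (q := 1) H hψ hγ hβ hs
    (by unfold IsPrim; simp) (SU.of_isUnit isUnit_one) he (by rw [mul_one])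
  rw [h]
  unfold wl
  split_ifs with h1
  · rfl
  · rw [mul_zero]

lemma vv_eq (hψ : IsCh N ψ) (hγ : Gam4 γ)
    (hβ : ∀ y, ψ (lf e₂ (1 + sq3 ^ 2 * y)) = ea (sq3 ^ 2) β y) (he : e₂ = B * e') (n b : ℕ) :
    vv N e₂ x ψ γ j Bw Bs σ n b =
      (3 : ℂ) ^ (j + 2) / 2 * th Bw Bs n b * FF j (x * e') β σ (n + 2 * b) b := by
  unfold vv th FF
  rw [SL_wl H hN hψ hγ hβ he (Or.inl rfl), SL_wl H hN hψ hγ hβ he (Or.inr rfl)]
  ring

omit H hN in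
lemma th_add_six (hBw : Bw ^ 3 = 1) (n b : ℕ) :
    th Bw Bs n (b + 6) = -Bs ^ 6 * th Bw Bs n b := by
  unfold th
  rw [sg6, show n + 2 * (b + 6) = (n + 2 * b) + 3 * 4 by ring, pow_add, pow_mul, hBw]
  ring

omit H hN in
lemma FF_vv_add_six {y : Eis} (n b : ℕ) :
    FF j y β σ (n + 2 * (b + 6)) (j + b) = FF j y β σ (n + 2 * b) (j + b) := by
  rw [show n + 2 * (b + 6) = (n + 2 * b) + 3 * 4 by ring, FF_add_mul]

/-- `X = -Bs^6` -/
lemma X_eq (hψ : IsCh N ψ) (hγ : Gam4 γ)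
    (hβ : ∀ y, ψ (lf e₂ (1 + sq3 ^ 2 * y)) = ea (sq3 ^ 2) β y) (he : e₂ = B * e')
    (hBw : Bw ^ 3 = 1) (hBs : ‖Bs‖ = 1) (hσ : σ = 1 ∨ σ = -1)
    (hX : ∀ n b, R ≤ b → vv N e₂ x ψ γ j Bw Bs σ n (b + 6) =
      X * vv N e₂ x ψ γ j Bw Bs σ n b) : X = -Bs ^ 6 := by
  obtain ⟨i, l, hl, hne⟩ := exists_FF_ne j (x * e') β hσ (R + j + 4)
  obtain ⟨b, rfl⟩ : ∃ b, l = j + b := ⟨l - j, by omega⟩
  -- `n + 2 l ≡ i`
  have h := hX (i + (j + b)) (j + b) (by omega)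
  rw [vv_eq H hN hψ hγ hβ he, vv_eq H hN hψ hγ hβ he, th_add_six hBw] at h
  have e1 : FF j (x * e') β σ (i + (j + b) + 2 * (j + b + 6)) (j + b + 6) =
      FF j (x * e') β σ i (j + b) := by
    rw [show i + (j + b) + 2 * (j + b + 6) = i + 3 * (j + b + 4) by ring, FF_add_mul,
      show j + b + 6 = j + (b + 6) by ring, FF_add_six (by omega)]
  have e2 : FF j (x * e') β σ (i + (j + b) + 2 * (j + b)) (j + b) =
      FF j (x * e') β σ i (j + b) := by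
    rw [show i + (j + b) + 2 * (j + b) = i + 3 * (j + b) by ring, FF_add_mul]
  rw [e1, e2] at h
  have hBw0 : Bw ≠ 0 := by rintro rfl; norm_num at hBw
  have hBs0 : Bs ≠ 0 := by rintro rfl; norm_num at hBs
  have ht : th Bw Bs (i + (j + b)) (j + b) ≠ 0 := by
    unfold th
    exact mul_ne_zero (mul_ne_zero (pow_ne_zero _ hBw0) (pow_ne_zero _ hBs0))
      (pow_ne_zero _ (by norm_num))
  have h3 : (3 : ℂ) ^ (j + 2) / 2 ≠ 0 := div_ne_zero (pow_ne_zero _ (by norm_num)) (by norm_num)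
  have key : (3 : ℂ) ^ (j + 2) / 2 * th Bw Bs (i + (j + b)) (j + b) * FF j (x * e') β σ i (j + b) ≠ 0
    := mul_ne_zero (mul_ne_zero h3 ht) hne
  apply mul_right_cancel₀ key
  linear_combination -h

/-- `(1 - X [6]) vv` -/
lemma Qs_vv (hψ : IsCh N ψ) (hγ : Gam4 γ)
    (hβ : ∀ y, ψ (lf e₂ (1 + sq3 ^ 2 * y)) = ea (sq3 ^ 2) β y) (he : e₂ = B * e')
    (hBw : Bw ^ 3 = 1) (hX : X = -Bs ^ 6) (n b : ℕ) :
    Qs X (vv N e₂ x ψ γ j Bw Bs σ n) b =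
      (3 : ℂ) ^ (j + 2) / 2 * th Bw Bs n b * QF j (x * e') β σ (n + 2 * b) b := by
  unfold Qs QF
  rw [vv_eq H hN hψ hγ hβ he]
  by_cases h : 6 ≤ b
  · obtain ⟨m, rfl⟩ : ∃ m, b = m + 6 := ⟨b - 6, by omega⟩
    rw [if_pos h, if_pos h, Nat.add_sub_cancel, vv_eq H hN hψ hγ hβ he, th_add_six hBw, hX,
      show n + 2 * (m + 6) = (n + 2 * m) + 3 * 4 by ring, FF_add_mul, FF_add_mul]
    ring
  · rw [if_neg h, if_neg h]; ring

end

/-! ### phases -/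

lemma conj_pow_mul {z : ℂ} (h : ‖z‖ = 1) (n k : ℕ) : z ^ n * conj (z ^ (n + k)) = conj z ^ k := by
  have h1 : z * conj z = 1 := by rw [Complex.mul_conj, Complex.normSq_eq_norm_sq, h]; norm_num
  rw [map_pow, pow_add, ← mul_assoc, ← mul_pow, h1, one_pow, one_mul]

lemma norm_of_cube {z : ℂ} (h : z ^ 3 = 1) : ‖z‖ = 1 :=
  Complex.norm_eq_one_of_pow_eq_one h (by norm_num)

lemma conj_sg (n : ℕ) : conj ((-1 : ℂ) ^ n) = (-1) ^ n := by
  rw [map_pow, map_neg, map_one]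

lemma th_zero {Bw Bs : ℂ} (hBw : Bw ^ 3 = 1) (hBs : ‖Bs‖ = 1) (n b : ℕ) :
    th Bw Bs n b * conj (th Bw Bs n b) = 1 := by
  unfold th
  have h1 := conj_pow_mul (norm_of_cube hBw) (n + 2 * b) 0
  have h2 := conj_pow_mul hBs b 0
  rw [add_zero, pow_zero] at h1 h2
  have h3 := sg_sq (b.choose 2)
  rw [map_mul, map_mul, conj_sg]
  linear_combination (Bs ^ b * conj (Bs ^ b) * ((-1) ^ (b.choose 2) * (-1) ^ (b.choose 2))) * h1 +
    ((-1) ^ (b.choose 2) * (-1) ^ (b.choose 2)) * h2 + h3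

lemma th_one {Bw Bs : ℂ} (hBw : Bw ^ 3 = 1) (hBs : ‖Bs‖ = 1) (n b : ℕ) :
    th Bw Bs n b * conj (th Bw Bs n (b + 3)) = -conj Bs ^ 3 * (-1) ^ b := by
  unfold th
  have h1 := conj_pow_mul (norm_of_cube hBw) (n + 2 * b) 6
  have h2 := conj_pow_mul hBs b 3
  have h4 : conj Bw ^ 6 = 1 := by
    rw [← map_pow, show (6 : ℕ) = 3 * 2 by norm_num, pow_mul, hBw, one_pow, map_one]
  rw [h4] at h1
  have h3 := sg_sq (b.choose 2)
  rw [map_mul, map_mul, conj_sg, sg3, show n + 2 * (b + 3) = n + 2 * b + 6 by ring]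
  linear_combination (-Bs ^ b * conj (Bs ^ (b + 3)) *
    ((-1) ^ (b.choose 2) * (-1) ^ (b.choose 2)) * (-1) ^ b) * h1 -
    ((-1) ^ (b.choose 2) * (-1) ^ (b.choose 2)) * (-1) ^ b * h2 - conj Bs ^ 3 * (-1) ^ b * h3

lemma th_two {Bw Bs : ℂ} (hBw : Bw ^ 3 = 1) (hBs : ‖Bs‖ = 1) (n b : ℕ) :
    th Bw Bs n b * conj (th Bw Bs n (b + 6)) = -conj Bs ^ 6 := by
  rw [th_add_six hBw, map_mul]
  have := th_zero hBw hBs n b
  rw [map_neg, map_pow]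
  linear_combination (-conj Bs ^ 6) * this

/-! ### sums -/

lemma sum_shift3 {F : ℕ → ℂ} (hF : ∀ n, F (n + 3) = F n) (k : ℕ) :
    ∑ c ∈ Finset.range 3, F (c + k) = ∑ c ∈ Finset.range 3, F c := by
  induction k with
  | zero => rfl
  | succ k ih =>
    rw [← ih]
    simp only [Finset.sum_range_succ, Finset.sum_range_zero, zero_add]
    rw [show 2 + (k + 1) = k + 3 by ring, hF, show 1 + (k + 1) = 2 + k by ring,
      show k + 1 = 1 + k by ring]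
    ring

lemma sum_window {F : ℕ → ℂ} {j A : ℕ} (h1 : ∀ b, b < j → F b = 0)
    (h2 : ∀ b, j + 10 ≤ b → F b = 0) (hA : j + 10 ≤ A) :
    ∑ b ∈ Finset.range A, F b = ∑ n ∈ Finset.range 10, F (j + n) := by
  obtain ⟨m, rfl⟩ : ∃ m, A = j + 10 + m := ⟨A - (j + 10), by omega⟩
  rw [Finset.sum_range_add, Finset.sum_range_add,
    Finset.sum_eq_zero (fun b hb => h1 b (Finset.mem_range.mp hb)), zero_add,
    Finset.sum_eq_zero (s := Finset.range m) (fun b _ => h2 _ (by omega)), add_zero]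

end Crest.Agent.R017.NM64
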