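import Crest.Agent.R017.NM3_64
import Crest.Agent.R017.NH5_499

/-!
# Row 17 (A, norm): the `λ`-factor `vv`, cubic type, IV

* **`nlq_cub`** : 499's `NlQ` at `sl = 0`
-/

set_option autoImplicit false

noncomputable section

open Complex
open scoped ComplexConjugate

namespace Crest.Agent.R017.NM64

open Crest.Agent.R012 Crest.Agent.R012.Eis Crest.Agent.R012.Gauss880 Crest.Agent.R017.Loc266
open Crest.Agent.R017.Sx440 Crest.Agent.R017.Kub664 Crest.Agent.R017.Tw266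
open Crest.Agent.R017.Rw266 Crest.Agent.R017.GG90 Crest.Agent.R017.LamP64
open Crest.Agent.R017.GL64 Crest.Agent.R017.NF64 Crest.Agent.R017.NL64
open Crest.Agent.R017.FinA266
open Crest.Agent.R017.Norm358 (Eg)

variable {N B e₂ x : Eis} {ψ γ : Eis → ℂ} {j : ℕ} {Bw Bs σ X : ℂ} {R : ℕ}

lemma vv_add_three (hBw : Bw ^ 3 = 1) (n b : ℕ) :
    vv N e₂ x ψ γ j Bw Bs σ (n + 3) b = vv N e₂ x ψ γ j Bw Bs σ n b := by
  unfold vv
  rw [show n + 3 + 2 * b = n + 2 * b + 3 by ring, w_pow_add_three, pow_add Bw, hBw, mul_one]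

lemma vv_add_mul (hBw : Bw ^ 3 = 1) (n b k : ℕ) :
    vv N e₂ x ψ γ j Bw Bs σ (n + 3 * k) b = vv N e₂ x ψ γ j Bw Bs σ n b := by
  induction k with
  | zero => rw [mul_zero, add_zero]
  | succ k ih => rw [mul_add, mul_one, ← add_assoc, vv_add_three hBw, ih]

/-- periodicity for `n : Fin 3` suffices -/
lemma vv_per_of_fin (hBw : Bw ^ 3 = 1)
    (h : ∀ (c : Fin 3) (b : ℕ), R ≤ b → vv N e₂ x ψ γ j Bw Bs σ c (b + 6) =
      X * vv N e₂ x ψ γ j Bw Bs σ c b) (n b : ℕ) (hb : R ≤ b) :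
    vv N e₂ x ψ γ j Bw Bs σ n (b + 6) = X * vv N e₂ x ψ γ j Bw Bs σ n b := by
  have h1 := h ⟨n % 3, Nat.mod_lt _ (by norm_num)⟩ b hb
  have e := Nat.mod_add_div n 3
  rw [← e, vv_add_mul hBw, vv_add_mul hBw]
  exact h1

lemma not_sq3_dvd (H : Lvl (sq3 ^ (j + 4)) B e₂) {e' : Eis} (he : e₂ = B * e')
    (hx : IsCoprime x (sq3 ^ (j + 4) * B)) : ¬ sq3 ∣ x * e' := by
  intro h
  rcases prime_sq3.dvd_or_dvd h with h | h
  · have h1 : IsCoprime sq3 sq3 := IsCoprime.of_isCoprime_of_dvd_left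
      (IsCoprime.of_isCoprime_of_dvd_right hx
        ((dvd_pow_self sq3 (by omega)).mul_right B)) h
    exact prime_sq3.not_isUnit (isCoprime_self.mp h1)
  · have h1 : sq3 ∣ e₂ - 1 := (dvd_pow_self sq3 (by omega)).trans H.toBlk.e1
    have h2 : sq3 ∣ e₂ := by rw [he]; exact h.mul_left B
    have h3 := dvd_sub h2 h1
    rw [show e₂ - (e₂ - 1) = 1 by ring] at h3
    exact prime_sq3.not_isUnit (isUnit_of_dvd_one h3)

theorem nlq_cub (H : Lvl (sq3 ^ (j + 4)) B e₂) (hN : sq3 ^ (j + 4) * B = N) (hψ : IsCh N ψ)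
    (hβ : ∃ β, ∀ y, ψ (lf e₂ (1 + sq3 ^ 2 * y)) = ea (sq3 ^ 2) β y)
    (hx : IsCoprime x N) : NH499.NlQ N e₂ x ψ j 0 := by
  obtain ⟨β, hβ⟩ := hβ
  obtain ⟨e', he⟩ := H.toBlk.e0
  intro Bw Bs σ hBw hBs hσ X hX _ m
  have hx' := not_sq3_dvd H he (hN ▸ hx)
  obtain ⟨h1, h2, h3⟩ := Nl_cub (γ := gk) (σ := σ) (X := X) H hN hψ gam4_gk hβ he hx' hBw hBs hσ
    (fun n b hb => vv_per_of_fin (R := j + 4) hBw hX n b hb)
  have h4 := h3 (j + 10) le_rfl m
  have e1 : ∀ (v : ℕ → ℕ → ℂ), (∑ c : Fin 3, ∑ b ∈ Finset.range (j + 10),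
      NH499.Qs X (v c) b * conj (NH499.Qs X (v c) (b + 3 * m))) =
      ∑ c ∈ Finset.range 3, ∑ b ∈ Finset.range (j + 10),
        Qs X (v c) b * conj (Qs X (v c) (b + 3 * m)) := by
    intro v
    simp only [NH499.qs_eq]
    exact Fin.sum_univ_eq_sum_range (fun c => ∑ b ∈ Finset.range (j + 10),
      Qs X (v c) b * conj (Qs X (v c) (b + 3 * m))) 3
  refine (e1 (vv N e₂ x ψ gk j Bw Bs σ)).trans (h4.trans ?_)
  have hXX : X * conj X = 1 := by
    rw [Complex.mul_conj, Complex.normSq_eq_norm_sq, h1]; norm_num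
  have h9 : (9 : ℂ) ^ (j + 4) = 9 ^ (j + 3) * 9 := pow_succ _ _
  unfold Eg
  push_cast
  rcases m with _ | _ | _ | m
  · rw [if_pos rfl, if_pos rfl, h9]
    linear_combination (-(9 : ℂ) ^ (j + 3) / 36) * hXX
  · rw [if_neg (by norm_num), if_neg (by norm_num), if_neg (by norm_num), if_neg (by norm_num)]
    ring
  · rw [if_neg (by norm_num), if_pos (by norm_num), if_neg (by norm_num), if_pos (by norm_num), h9]
    ring
  · rw [if_neg (by omega), if_neg (by omega), if_neg (by omega), if_neg (by omega)]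
    ring

end Crest.Agent.R017.NM64
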