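import Crest.Agent.R017.R4g_571

/-!
# Row 17, the near leaf (helper64): (RH) from the premises, with the gain in `d` and `e`

* `RH_leafde` : helper571's `RH_leaf`, premises only for the children of length at most
  `LF ps - D'`, `D' ≤ log (nm d * nm e)`
-/

set_option autoImplicit false
set_option maxHeartbeats 400000

noncomputable section

open Complex MeasureTheory
open scoped ComplexConjugate

namespace Crest.Agent.R017.NO64

open Crest.Agent.R012 Crest.Agent.R012.Eis Crest.Agent.R012.MC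
open Crest.Agent.R012.LS2 (S mem_S bl mem_bl)
open Crest.Agent.R012.Weight600 (pw norm_pw pw_add_left)
open Crest.Agent.R017.CM106 (CS TG FS)
open Crest.Agent.R017.FE47
open Crest.Agent.R017.B770
open Crest.Agent.R017.Prov71 hiding tl
open Crest.Agent.R017.HP842 (sqc)
open Crest.Agent.R017.XHB411 (tl)
open Crest.Agent.R017.XRG106 (Rl RFp)
open Crest.Agent.R017.PX764 (n6)
open Crest.Agent.R017.E3D579 (n6_nonneg)
open Crest.Agent.R017.Leg381 (Pf alF LF alF_get LF_get natl)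
open Crest.Agent.R017.Win813 (WK wn iA iA_nonneg)
open Crest.Agent.R017.RGw813 (bt)
open Crest.Agent.R017.XP699 (LL Chd hcost cst)
open Crest.Agent.R017.RG64 (Sb SbL Ht one_le_Ht Ht_cons)
open Crest.Agent.R017.R3571

open Classical in
/-- **(RH) for all `P` from the premises of `RLeaf`** (the line (R3)): `T` = the exponent of the
line at the full length, `Im` = the top level -/
theorem RH_leafde {h : ℝ → ℝ} {c : ℝ} (hpu : PU h c) (N : ℕ) {c₀ m₀ μ M : ℝ} (hc₀ : 1 ≤ c₀)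
    (hm₀ : 0 ≤ m₀) (hμ : 0 < μ) (hM : 0 ≤ M) :
    ∃ a : ℕ, 1 ≤ a ∧ ∀ (ε s : ℝ), 0 < ε → 0 ≤ s →
    ∃ C r X₁ : ℝ, 1 ≤ C ∧ 0 ≤ r ∧ ∀ X : ℝ, 3 ≤ X → X₁ ≤ X → ∀ (P : DPar), P.OK →
    ∀ ps₀ : List Pq, ps₀.length ≤ N → (∀ q ∈ ps₀, Dq.len q ≤ c₀ * Real.log X) →
    ∀ (q : Eis) (ps : List Pf), q ≠ 0 → (nm q : ℝ) ≤ X ^ c₀ → SbL s ps ps₀ →
    ∀ (z δ : ℝ), 0 ≤ δ → δ ≤ 1 → 3 * N * δ ≤ ε → ∀ Bd T Im D' : ℝ, 1 ≤ Bd → LF ps ≤ T →
    (∀ (l : ℝ) (ps' : List Pq), 0 ≤ l → l ≤ Im →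
      List.Forall₂ (Chd Dq hcost r (C * X ^ c₀)) ps' ps₀ →
      LL Dq ps' ≤ LF ps - D' + ε * Real.log X →
      RFp P h l ps' ≤ Bd * cst hcost ps' ps₀ ^ M *
        Real.exp (T - LF ps + LL Dq ps' - (Im - l) / 3)) →
    ∀ (Cw η : ℝ) (Aw J : ℕ), 0 ≤ Cw → 0 < η → η ≤ 1 → J + 2 ≤ Aw → (N : ℝ) ^ 2 * M ≤ J →
    ∀ (φ : ℝ → ℝ), WK Cw η Aw φ → ∀ (b : ℕ × ℕ), b.2 ≤ 2 → ∀ (t₀ A : ℝ), (J : ℝ) + 2 ≤ A →
    ∀ d e : Eis, IsPrim d → IsPrim e → (nm d : ℝ) ≤ X ^ c₀ → (nm e : ℝ) ≤ X ^ c₀ →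
    D' ≤ Real.log (nm d * nm e) → ∀ P1 : ℝ, 0 < P1 → P1 ≤ X ^ c₀ → 81 * P1 * X ^ (μ / 2) ≤ Real.exp Im →
    ∀ γ π : Eis, IsPrim γ → IsPrim π → (nm π : ℝ) ≤ X ^ m₀ → ∀ Λ : ℝ, 0 < Λ →
      (nm γ : ℝ) * n6 γ ^ 2 * ∑ k ∈ bl Λ, RMm A
          (fun m => bt φ (sqc q (alF z (X ^ δ) P h ps)) b (d * m) * pw t₀ (nm (d * m))) e γ π k ≤
        W2 a P1 ((Cw ^ 2 * (η⁻¹) ^ J) * (C * X ^ (2 * ε) * (1 + |t₀|) ^ J *
          ((Ht ps * Ht (natl ps₀)) ^ M * Bd * Real.exp (T - LF ps))) *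
          (Real.exp (LF ps) / nm d) ^ (2 / 3 : ℝ)) Λ := by
  classical
  set m₁ : ℝ := c₀ + m₀ + 1 with hm₁
  have hm₁0 : 0 < m₁ := by linarith
  set μ' : ℝ := N * M / 2 with hμ'
  have hN0 : (0 : ℝ) ≤ N := Nat.cast_nonneg N
  have hμ'0 : 0 ≤ μ' := by positivity
  obtain ⟨a, ha, H⟩ := RH_all hpu hμ'0 N (δ := μ / 2 / m₁) (m := 1) (by positivity) (by norm_num)
  refine ⟨a, ha, fun ε s hε hs => ?_⟩
  obtain ⟨C, hC, H⟩ := H (ε / m₁) (by positivity)
  have hes : 1 ≤ Real.exp s := Real.one_le_exp hs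
  refine ⟨C * Real.exp s, C + s, max (Real.exp s) (Real.exp (C / ε)),
    one_le_mul_of_one_le_of_one_le hC hes, by linarith, ?_⟩
  intro X hX3 hXX P hP ps₀ hlen hz₀ q ps hq hqX hS z δ hδ0 hδ1 hδε Bd T Im D' hBd hT hyp Cw η Aw J hCw
    hη hη1 hAJ hJ φ hφ b hb t₀ A hA d e hd he hdX heX hdD P1 hP1 hP1X hP1I γ π hγ hπ hπX Λ hΛ
  have hX0 : 0 < X := by linarith
  have hX1 : 1 ≤ X := by linarith
  have hXs : Real.exp s ≤ X := (le_max_left _ _).trans hXX
  have hXC : C ≤ ε * Real.log X := by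
    have h1 : Real.exp (C / ε) ≤ X := (le_max_right _ _).trans hXX
    have h2 : C / ε ≤ Real.log X := by
      rw [← Real.log_exp (C / ε)]; exact Real.log_le_log (Real.exp_pos _) h1
    rw [div_le_iff₀ hε] at h2
    linarith
  have hlenps : ps.length ≤ N := by rw [hS.length]; exact hlen
  have hzps : ∀ p ∈ ps, 0 ≤ p.1.z := hS.z_nonneg
  have hX0m : ∀ y : ℝ, y ≤ m₁ → X ^ y ≤ X ^ m₁ := fun y hy =>
    Real.rpow_le_rpow_of_exponent_le hX1 hy
  have hX0X : 1 ≤ X ^ m₁ := Real.one_le_rpow hX1 hm₁0.le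
  have hD0 : 1 ≤ X ^ δ := Real.one_le_rpow hX1 hδ0
  have hezX : ∀ p ∈ ps, Real.exp p.1.z ≤ X ^ m₁ := by
    have key : ∀ (ps : List Pf) (ps₀ : List Pq), SbL s ps ps₀ →
        (∀ q ∈ ps₀, Dq.len q ≤ c₀ * Real.log X) → ∀ p ∈ ps, p.1.z ≤ c₀ * Real.log X + s := by
      intro ps ps₀ hS
      unfold RG64.SbL at hS
      induction hS with
      | nil => intro _ p hp; simp at hp
      | @cons p p₀ ps ps₀ h1 _ ih =>
        intro hz p' hp'
        rcases List.mem_cons.1 hp' with rfl | hp'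
        · have h2 := h1.2.2.2.2
          have h3 : p₀.z ≤ c₀ * Real.log X := hz p₀ List.mem_cons_self
          linarith
        · exact ih (fun q hq => hz q (List.mem_cons_of_mem _ hq)) p' hp'
    intro p hp
    have h1 := key ps ps₀ hS hz₀ p hp
    have h2 : s ≤ Real.log X := by
      rw [← Real.log_exp s]; exact Real.log_le_log (Real.exp_pos _) hXs
    rw [Real.rpow_def_of_pos hX0]
    refine Real.exp_le_exp.2 ?_
    have h3 : 0 ≤ Real.log X := Real.log_nonneg hX1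
    rw [hm₁]
    nlinarith
  have hHt : 1 ≤ Ht ps * Ht (natl ps₀) :=
    one_le_mul_of_one_le_of_one_le (one_le_Ht _) (one_le_Ht _)
  have hHt0 : 0 < Ht ps * Ht (natl ps₀) := by linarith
  have hHM : 1 ≤ (Ht ps * Ht (natl ps₀)) ^ M := Real.one_le_rpow hHt hM
  have hET : 1 ≤ Real.exp (T - LF ps) := Real.one_le_exp (by linarith)
  set B : ℝ := (Ht ps * Ht (natl ps₀)) ^ M * Bd * Real.exp (T - LF ps) with hB
  have hB1 : 1 ≤ B := one_le_mul_of_one_le_of_one_le (one_le_mul_of_one_le_of_one_le hHM hBd) hET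
  have hXμ : (X ^ m₁) ^ (μ / 2 / m₁) = X ^ (μ / 2) := by
    rw [← Real.rpow_mul hX0.le]; congr 1; field_simp
  have hXε : (X ^ m₁) ^ (ε / m₁) = X ^ ε := by
    rw [← Real.rpow_mul hX0.le]; congr 1; field_simp
  have hn1 : (nm (1 : Eis) : ℝ) = 1 := by simp
  have hXμ0 : 0 < X ^ (μ / 2) := by positivity
  have hmain := H P hP ps hlenps hzps z (X ^ δ) hD0 q d e 1 hq hd he one_ne_zero (X ^ m₁) hX0X
    (hX0m δ (by linarith)) (hqX.trans (hX0m _ (by linarith)))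
    (hdX.trans (hX0m _ (by linarith))) (heX.trans (hX0m _ (by linarith)))
    hezX Cw η Aw J hCw hη hη1 hAJ (by
      rw [hμ']
      calc 2 * ((N : ℝ) * (N * M / 2)) = (N : ℝ) ^ 2 * M := by ring
        _ ≤ J := hJ) φ hφ b hb t₀ A hA P1 B hP1 (by
      rw [Real.rpow_one]; exact hP1X.trans (hX0m _ (by linarith))) hB1
    (fun Λ hΛ1 hΛ2 ps' W hW hR hl => by
      rw [hXμ] at hΛ2 ⊢
      rw [hn1, mul_one]
      have hΛ0 : 0 < Λ := by linarith
      have h81 : 1 ≤ 81 * Λ := by linarith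
      have hd1 := one_le_nm hd.ne_zero
      have he1 := one_le_nm he.ne_zero
      have hl0 : 0 ≤ Real.log (nm d * nm e) :=
        Real.log_nonneg (one_le_mul_of_one_le_of_one_le hd1 he1)
      have hlI : Real.log (81 * Λ) ≤ Im := by
        rw [← Real.log_exp Im]
        refine Real.log_le_log (by linarith) (le_trans ?_ hP1I)
        calc 81 * Λ ≤ 81 * (P1 * X ^ (μ / 2)) := by gcongr
          _ = _ := by ring
      have h1 := hyp (Real.log (81 * Λ)) ps' (Real.log_nonneg h81) hlI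
        (chd_of (by linarith) hs hX0 hR hS hz₀) (by rw [← tl_LL]; linarith)
      have h2 := cst_le hW hR hS
      have hcst0 : 0 ≤ cst hcost ps' ps₀ := by
        unfold XP699.cst
        refine List.prod_nonneg fun x hx => ?_
        obtain ⟨i, hi, rfl⟩ := List.mem_iff_getElem.1 hx
        rw [List.getElem_zipWith]
        show 0 ≤ 1 + |_|
        positivity
      have hW0 : 0 < W := by linarith
      have h3 : cst hcost ps' ps₀ ^ M ≤ W ^ (2 * μ') * (Ht ps * Ht (natl ps₀)) ^ M := by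
        have g1 : W ^ ps₀.length ≤ W ^ N := pow_le_pow_right₀ hW hlen
        have g2 : cst hcost ps' ps₀ ≤ W ^ N * (Ht ps * Ht (natl ps₀)) := by
          refine h2.trans ?_
          gcongr
        calc cst hcost ps' ps₀ ^ M ≤ (W ^ N * (Ht ps * Ht (natl ps₀))) ^ M :=
              Real.rpow_le_rpow hcst0 g2 hM
          _ = (W ^ N) ^ M * (Ht ps * Ht (natl ps₀)) ^ M :=
              Real.mul_rpow (by positivity) hHt0.le
          _ = _ := by
              congr 1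
              rw [← Real.rpow_natCast, ← Real.rpow_mul hW0.le, hμ']
              congr 1; ring
      have h4 : Real.exp (T - LF ps + LL Dq ps' - (Im - Real.log (81 * Λ)) / 3) ≤
          (Λ / (P1 * X ^ (μ / 2))) ^ (1 / 3 : ℝ) * Real.exp (T - LF ps) *
            Real.exp (tl Dq ps') := by
        have g1 : Real.exp (T - LF ps + LL Dq ps' - (Im - Real.log (81 * Λ)) / 3) =
            Real.exp ((Real.log (81 * Λ) - Im) / 3) * Real.exp (T - LF ps) *
              Real.exp (tl Dq ps') := by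
          rw [← Real.exp_add, ← Real.exp_add, tl_LL]; congr 1; ring
        rw [g1]
        have g2 : Real.exp ((Real.log (81 * Λ) - Im) / 3) ≤
            (Λ / (P1 * X ^ (μ / 2))) ^ (1 / 3 : ℝ) := by
          rw [Real.rpow_def_of_pos (by positivity)]
          refine Real.exp_le_exp.2 ?_
          have g3 : Real.log (81 * P1 * X ^ (μ / 2)) ≤ Im := by
            rw [← Real.log_exp Im]; exact Real.log_le_log (by positivity) hP1I
          have g4 : Real.log (81 * Λ) - Real.log (81 * P1 * X ^ (μ / 2)) =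
              Real.log (Λ / (P1 * X ^ (μ / 2))) := by
            rw [← Real.log_div (by positivity) (by positivity)]
            congr 1; field_simp
          linarith
        gcongr
      calc RFp P h (Real.log (81 * Λ)) ps' ≤ Bd * cst hcost ps' ps₀ ^ M *
            Real.exp (T - LF ps + LL Dq ps' - (Im - Real.log (81 * Λ)) / 3) := h1
        _ ≤ Bd * (W ^ (2 * μ') * (Ht ps * Ht (natl ps₀)) ^ M) *
            ((Λ / (P1 * X ^ (μ / 2))) ^ (1 / 3 : ℝ) * Real.exp (T - LF ps) *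
              Real.exp (tl Dq ps')) := by gcongr
        _ = _ := by rw [hB]; ring) γ π hγ hπ (hπX.trans (hX0m _ (by linarith))) Λ hΛ
  simp only [mul_one] at hmain
  refine hmain.trans (W2_mono a hP1 hΛ ?_)
  rw [hXε]
  have h1 : ((X ^ δ) ^ N) ^ (3 : ℝ) ≤ X ^ ε := by
    rw [← Real.rpow_natCast, ← Real.rpow_mul hX0.le, ← Real.rpow_mul hX0.le]
    refine Real.rpow_le_rpow_of_exponent_le hX1 ?_
    linarith
  have h2 : X ^ (2 * ε) = X ^ ε * X ^ ε := by
    rw [← Real.rpow_add hX0]; congr 1; ring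
  have h3 : C ≤ C * Real.exp s := le_mul_of_one_le_right (by linarith) hes
  have hd0 := nm_cast_pos hd.ne_zero
  have hB0 : 0 ≤ B := by linarith
  calc (Cw ^ 2 * (η⁻¹) ^ J) * (C * ((X ^ δ) ^ N) ^ (3 : ℝ) * X ^ ε * (1 + |t₀|) ^ J * B) *
        (Real.exp (LF ps) / nm d) ^ (2 / 3 : ℝ)
      ≤ (Cw ^ 2 * (η⁻¹) ^ J) * ((C * Real.exp s) * X ^ ε * X ^ ε * (1 + |t₀|) ^ J * B) *
        (Real.exp (LF ps) / nm d) ^ (2 / 3 : ℝ) := by gcongr
    _ = _ := by rw [h2]; ring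

end Crest.Agent.R017.NO64
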