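import Crest.Agent.R017.NOxb_116
import Crest.Agent.R017.NOb_64

/-!
# Row 17, the near leaf, (Ro) (helper64): the `R`-numbers of the levels, gain in `d` and `e`

* `SEe` : `Σ_d Σ_e (nm e)^(1/3) / nm d`; `RN2_tope` : one level
* `np_gen` : the number at the top level, any `H`
-/

set_option autoImplicit false
set_option linter.unusedVariables false
set_option maxHeartbeats 400000

noncomputable section

open Finset
open scoped Classical

namespace Crest.Agent.R017.NO64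

open Crest.Agent.R012 Crest.Agent.R012.Eis
open Crest.Agent.R012.LS2 (S mem_S)
open Crest.Agent.R017.C70 (JW okJ_JW)
open Crest.Agent.R017.E3T829 (G2 G2_nonneg card_S16)
open Crest.Agent.R017.E3Z548 (FH)
open Crest.Agent.R017.E3Sz579 (Ld Md)
open Crest.Agent.R017.Rsx72 (RN2)
open Crest.Agent.R017.R3571 (W2)
open Crest.Agent.R017.E3Kc548 (LI mem_LI)
open Crest.Agent.R017.RoX116 (pw_lvl W2_lvl FH_lvl G2_lvld)

/-- the sum of the weights -/
def SEe (Ds EE : Finset Eis) : ℝ :=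
  ∑ d ∈ Ds, ∑ e ∈ EE, (nm e : ℝ) ^ (1 / 3 : ℝ) * (nm d : ℝ)⁻¹

lemma SEe_nonneg (Ds EE : Finset Eis) : 0 ≤ SEe Ds EE :=
  sum_nonneg fun _ _ => sum_nonneg fun _ _ => by positivity

/-- **the number of a level** -/
theorem RN2_tope {K H X V s c β K1 E : ℝ} {a : ℕ} {Ds EE : Finset Eis} (hK : 0 < K) (hH : 0 < H)
    (hX : 0 < X) (hV : 0 < V) (hs : 0 < s) (hs1 : s ≤ 1) (hc : 0 < c) (hβ : 0 < β)
    (hK1 : 0 ≤ K1) (hE : 0 ≤ E) (hDs : ∀ d ∈ Ds, (1 : ℝ) ≤ nm d)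
    (hEE : ∀ e ∈ EE, (1 : ℝ) ≤ nm e) :
    FH K H (V * s) * RN2 (Ld K (V * s) H) (Md c K (V * s) H X) (β * (X * (V * s) * H / K))
      (fun d e => W2 a (c * (X * V * H / K))
        (K1 * ((nm d : ℝ) * nm e) ^ (-(2 / 3) : ℝ) * (E / nm d) ^ (2 / 3 : ℝ))
        (c * (X * (V * s) * H / K))) Ds EE ≤
    (if 1 ≤ H * V ^ 2 / K then FH K H V * G2 (H * V ^ 2 / K)
      (c * (H * V ^ 2 / K) * (X * V * H / K) ^ (-(1 / 2) : ℝ)) (β * (X * V * H / K)) else 0) *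
      (K1 * E ^ (2 / 3 : ℝ)) * SEe Ds EE := by
  have hI : 0 < X * V * H / K := by positivity
  have hL : 0 ≤ H * V ^ 2 / K := by positivity
  have hFH : 0 ≤ FH K H (V * s) := by unfold E3Z548.FH; positivity
  obtain ⟨G, hG⟩ : ∃ G, G = G2 (H * V ^ 2 / K)
    (c * (H * V ^ 2 / K) * (X * V * H / K) ^ (-(1 / 2) : ℝ)) (β * (X * V * H / K)) := ⟨_, rfl⟩
  have hG0 : 0 ≤ G := by
    rw [hG]
    exact G2_nonneg hL (by positivity) (by positivity)
  have eI : X * (V * s) * H / K = X * V * H / K * s := by ring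
  rw [← hG]
  have hterm : ∀ d ∈ Ds, ∀ e ∈ EE, (nm d : ℝ) ^ (2 / 3 : ℝ) * nm e *
      ((if 1 ≤ Ld K (V * s) H d then G2 (Ld K (V * s) H d) (Md c K (V * s) H X d)
        (β * (X * (V * s) * H / K)) else 0) *
        W2 a (c * (X * V * H / K))
          (K1 * ((nm d : ℝ) * nm e) ^ (-(2 / 3) : ℝ) * (E / nm d) ^ (2 / 3 : ℝ))
        (c * (X * (V * s) * H / K))) ≤
      (if 1 ≤ H * V ^ 2 / K then s ^ (1 / 3 : ℝ) * G * (K1 * E ^ (2 / 3 : ℝ)) else 0) *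
        ((nm e : ℝ) ^ (1 / 3 : ℝ) * (nm d : ℝ)⁻¹) := by
    intro d hd e he
    have hnd := hDs d hd
    have hnd0 : (0 : ℝ) < nm d := by linarith
    have hne := hEE e he
    have hne0 : (0 : ℝ) < nm e := by linarith
    have eW : W2 a (c * (X * V * H / K))
        (K1 * ((nm d : ℝ) * nm e) ^ (-(2 / 3) : ℝ) * (E / nm d) ^ (2 / 3 : ℝ))
        (c * (X * (V * s) * H / K)) =
        s ^ (1 / 3 : ℝ) * (K1 * ((nm d : ℝ) * nm e) ^ (-(2 / 3) : ℝ) *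
          (E / nm d) ^ (2 / 3 : ℝ)) := by
      rw [eI, ← mul_assoc]
      exact W2_lvl a (by positivity) hs hs1
    have eL : Ld K (V * s) H d = H * V ^ 2 / K * s ^ 2 / nm d := by
      unfold E3Sz579.Ld
      field_simp
    have eM : Md c K (V * s) H X d = c * (H * V ^ 2 / K * s ^ 2 / nm d) *
        (X * V * H / K * s) ^ (-(1 / 2) : ℝ) := by
      unfold E3Sz579.Md
      rw [eI]
      congr 2
    rw [eW, eL, eM, eI]
    by_cases h1 : 1 ≤ H * V ^ 2 / K * s ^ 2 / nm d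
    · have h2 : 1 ≤ H * V ^ 2 / K := by
        refine h1.trans ((div_le_self (by positivity) hnd).trans ?_)
        exact mul_le_of_le_one_right hL (pow_le_one₀ hs.le hs1)
      rw [if_pos h1, if_pos h2]
      have h3 := G2_lvld (c := c) (β := β) hL hI hs hs1 hnd hc.le hβ
      rw [← hG] at h3
      have h4 : (nm d : ℝ) ^ (2 / 3 : ℝ) * (E / nm d) ^ (2 / 3 : ℝ) = E ^ (2 / 3 : ℝ) := by
        rw [← Real.mul_rpow hnd0.le (by positivity)]
        congr 1; field_simp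
      have h5 : (nm d : ℝ) ^ (-(1 / 3) : ℝ) * (nm d : ℝ) ^ (-(2 / 3) : ℝ) = (nm d : ℝ)⁻¹ := by
        rw [← Real.rpow_add hnd0, ← Real.rpow_neg_one]; norm_num
      have h6 : (nm e : ℝ) * (nm e : ℝ) ^ (-(2 / 3) : ℝ) = (nm e : ℝ) ^ (1 / 3 : ℝ) := by
        rw [mul_comm, ← Real.rpow_add_one hne0.ne']; norm_num
      have h7 : ((nm d : ℝ) * nm e) ^ (-(2 / 3) : ℝ) = (nm d : ℝ) ^ (-(2 / 3) : ℝ) *
          (nm e : ℝ) ^ (-(2 / 3) : ℝ) := Real.mul_rpow hnd0.le hne0.le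
      have hs3 : 0 ≤ s ^ (1 / 3 : ℝ) := by positivity
      have hq : 0 ≤ ((nm d : ℝ) * nm e) ^ (-(2 / 3) : ℝ) := by positivity
      calc (nm d : ℝ) ^ (2 / 3 : ℝ) * nm e * (G2 (H * V ^ 2 / K * s ^ 2 / nm d)
            (c * (H * V ^ 2 / K * s ^ 2 / nm d) * (X * V * H / K * s) ^ (-(1 / 2) : ℝ))
            (β * (X * V * H / K * s)) * (s ^ (1 / 3 : ℝ) *
              (K1 * ((nm d : ℝ) * nm e) ^ (-(2 / 3) : ℝ) * (E / nm d) ^ (2 / 3 : ℝ))))
          ≤ (nm d : ℝ) ^ (2 / 3 : ℝ) * nm e *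
            (((nm d : ℝ) ^ (-(1 / 3) : ℝ) * G) * (s ^ (1 / 3 : ℝ) *
              (K1 * ((nm d : ℝ) * nm e) ^ (-(2 / 3) : ℝ) * (E / nm d) ^ (2 / 3 : ℝ)))) := by
            gcongr
        _ = s ^ (1 / 3 : ℝ) * G * (K1 * ((nm d : ℝ) ^ (2 / 3 : ℝ) *
            (E / nm d) ^ (2 / 3 : ℝ))) * ((nm e * (nm e : ℝ) ^ (-(2 / 3) : ℝ)) *
              ((nm d : ℝ) ^ (-(1 / 3) : ℝ) * (nm d : ℝ) ^ (-(2 / 3) : ℝ))) := by
            rw [h7]; ring
        _ = _ := by rw [h4, h5, h6]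
    · rw [if_neg h1, zero_mul, mul_zero]
      refine mul_nonneg ?_ (by positivity)
      split_ifs
      · positivity
      · exact le_rfl
  unfold Rsx72.RN2 SEe
  calc FH K H (V * s) * ∑ d ∈ Ds, ∑ e ∈ EE, (nm d : ℝ) ^ (2 / 3 : ℝ) * nm e *
      ((if 1 ≤ Ld K (V * s) H d then G2 (Ld K (V * s) H d) (Md c K (V * s) H X d)
        (β * (X * (V * s) * H / K)) else 0) *
        W2 a (c * (X * V * H / K))
          (K1 * ((nm d : ℝ) * nm e) ^ (-(2 / 3) : ℝ) * (E / nm d) ^ (2 / 3 : ℝ))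
        (c * (X * (V * s) * H / K)))
      ≤ FH K H (V * s) * ∑ d ∈ Ds, ∑ e ∈ EE,
        (if 1 ≤ H * V ^ 2 / K then s ^ (1 / 3 : ℝ) * G * (K1 * E ^ (2 / 3 : ℝ)) else 0) *
          ((nm e : ℝ) ^ (1 / 3 : ℝ) * (nm d : ℝ)⁻¹) := by
        refine mul_le_mul_of_nonneg_left ?_ hFH
        exact sum_le_sum fun d hd => sum_le_sum fun e he => hterm d hd e he
    _ = FH K H (V * s) * ((if 1 ≤ H * V ^ 2 / K then s ^ (1 / 3 : ℝ) * G *
        (K1 * E ^ (2 / 3 : ℝ)) else 0) *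
          ∑ d ∈ Ds, ∑ e ∈ EE, (nm e : ℝ) ^ (1 / 3 : ℝ) * (nm d : ℝ)⁻¹) := by
        simp only [mul_sum]
    _ = _ := by
        split_ifs
        · rw [← FH_lvl (K := K) hH hV hs]; ring
        · ring

end Crest.Agent.R017.NO64
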