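import Crest.Agent.R017.NOc_64
import Crest.Agent.R017.RLoD_64

/-!
# Row 17, the near leaf, (Ro) (helper64): the numbers of the levels

* `SEe_le` : the sum of the weights; `np_gen` : the number at the top level, any `H`
* `lev_e` : the `R`-number of a level
-/

set_option autoImplicit false
set_option linter.unusedVariables false
set_option maxHeartbeats 400000

noncomputable section

open Finset
open scoped Classical

namespace Crest.Agent.R017.NO64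

open Crest.Agent.R012 Crest.Agent.R012.Eis
open Crest.Agent.R012.LS2 (S mem_S)
open Crest.Agent.R017.C70 (JW okJ_JW)
open Crest.Agent.R017.E3T829 (G2 G2_nonneg)
open Crest.Agent.R017.E3Z548 (FH)
open Crest.Agent.R017.E3Sz579 (Ld Md)
open Crest.Agent.R017.R3571 (W2)
open Crest.Agent.R017.E3Kc548 (LI mem_LI)
open Crest.Agent.R017.RoP579 (RNp)
open Crest.Agent.R017.RoX116 (G2_exp FH_exp)

/-- the sum of the weights -/
lemma SEe_le {D Y₀ Y₁ E0 : ℝ} (hD : 1 ≤ D) (hE : 1 ≤ E0) :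
    SEe ((JW D Y₀ Y₁).image Prod.fst) (S E0) ≤
      10000 * (1 + Real.log D) * E0 ^ (4 / 3 : ℝ) := by
  have hE0 : 0 ≤ E0 := by linarith
  have h1 : ∑ d ∈ (JW D Y₀ Y₁).image Prod.fst, (nm d : ℝ)⁻¹ ≤ 100 * (1 + Real.log D) := by
    have h2 : (JW D Y₀ Y₁).image Prod.fst ⊆ primBall ⌊D⌋₊ := by
      intro d hd
      obtain ⟨x, hx, rfl⟩ := mem_image.1 hd
      unfold C70.JW at hx
      exact (mem_product.1 (mem_filter.1 hx).1).1
    have h3 : ∑ d ∈ (JW D Y₀ Y₁).image Prod.fst, (nm d : ℝ)⁻¹ ≤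
        ∑ d ∈ primBall ⌊D⌋₊, (1 / (nm d : ℝ)) := by
      refine (Finset.sum_le_sum_of_subset_of_nonneg h2 fun _ _ _ => by positivity).trans
        (le_of_eq ?_)
      exact sum_congr rfl fun d _ => by rw [one_div]
    refine h3.trans ((Div277.sum_inv_primBall_le _).trans ?_)
    refine mul_le_mul_of_nonneg_left ?_ (by norm_num)
    have h4 : (1 : ℝ) ≤ ⌊D⌋₊ := by exact_mod_cast Nat.le_floor (by simpa using hD)
    have := Real.log_le_log (by linarith) (Nat.floor_le (by linarith : (0:ℝ) ≤ D))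
    linarith
  have h6 : ((S E0).card : ℝ) ≤ 100 * E0 := by
    have h1 : (S E0).card ≤ (primBall ⌊E0⌋₊).card := Finset.card_le_card (Finset.filter_subset _ _)
    have h2 : ((primBall ⌊E0⌋₊).card : ℝ) ≤ 100 * ((⌊E0⌋₊ : ℕ) : ℝ) := Lat277.card_primBall_le ⌊E0⌋₊
    have h3 := Nat.floor_le hE0
    have h1' : ((S E0).card : ℝ) ≤ ((primBall ⌊E0⌋₊).card : ℝ) := by exact_mod_cast h1
    linarith
  have h7 : ∑ e ∈ S E0, (nm e : ℝ) ^ (1 / 3 : ℝ) ≤ 100 * E0 ^ (4 / 3 : ℝ) := by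
    calc ∑ e ∈ S E0, (nm e : ℝ) ^ (1 / 3 : ℝ) ≤ ∑ _e ∈ S E0, E0 ^ (1 / 3 : ℝ) :=
          sum_le_sum fun e he => Real.rpow_le_rpow (Nat.cast_nonneg _) ((mem_S hE0).1 he).1
            (by norm_num)
      _ = (S E0).card * E0 ^ (1 / 3 : ℝ) := by rw [sum_const, nsmul_eq_mul]
      _ ≤ 100 * E0 * E0 ^ (1 / 3 : ℝ) :=
          mul_le_mul_of_nonneg_right h6 (by positivity)
      _ = 100 * (E0 ^ (1 / 3 : ℝ) * E0) := by ring
      _ = _ := by
          rw [← Real.rpow_add_one (by linarith : E0 ≠ 0)]; norm_num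
  have hlog : 0 ≤ Real.log D := Real.log_nonneg hD
  have h8 : SEe ((JW D Y₀ Y₁).image Prod.fst) (S E0) =
      (∑ e ∈ S E0, (nm e : ℝ) ^ (1 / 3 : ℝ)) *
        ∑ d ∈ (JW D Y₀ Y₁).image Prod.fst, (nm d : ℝ)⁻¹ := by
    unfold SEe
    rw [mul_sum]
    refine sum_congr rfl fun d _ => ?_
    rw [sum_mul]
  rw [h8]
  calc (∑ e ∈ S E0, (nm e : ℝ) ^ (1 / 3 : ℝ)) * ∑ d ∈ (JW D Y₀ Y₁).image Prod.fst, (nm d : ℝ)⁻¹
      ≤ (100 * E0 ^ (4 / 3 : ℝ)) * (100 * (1 + Real.log D)) :=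
        mul_le_mul h7 h1 (sum_nonneg fun _ _ => by positivity) (by positivity)
    _ = _ := by ring

/-- **the number at the top level**, any `H` -/
theorem np_gen {K' H V X c β κ h n v T m C₀ k₁ S₀ σ σ' : ℝ} (hK' : K' = Real.exp κ)
    (hH : H = Real.exp h) (hV : 0 < V) (hX : 0 < X) (hc : 0 ≤ c) (hβ : 0 < β)
    (hT : T = 4 / 3 * n + (v + κ) / 3 + h / 3 - m - σ') (m0 : 0 ≤ m)
    (m1 : (h + 2 * v - κ) / 3 ≤ m) (m2 : (h + 2 * v - κ) - (v + n + h - κ) / 2 ≤ m)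
    (hI : 0 ≤ v + n + h - κ) (hC₀ : 0 ≤ C₀)
    (hv1 : v ≤ Real.log V) (hv2 : Real.log V ≤ v + C₀) (hx : n - C₀ ≤ Real.log X)
    (hk₁ : 0 ≤ k₁) (hS : S₀ ≤ Real.exp (σ + C₀)) (hS0 : 0 ≤ S₀) :
    (if 1 ≤ H * V ^ 2 / K' then FH K' H V * G2 (H * V ^ 2 / K')
      (c * (H * V ^ 2 / K') * (X * V * H / K') ^ (-(1 / 2) : ℝ)) (β * (X * V * H / K')) else 0) *
      (k₁ * Real.exp (T - n) * Real.exp n ^ (2 / 3 : ℝ)) * S₀ ≤
    (1 + c + β ^ (-(2 / 3) : ℝ) + β ^ (-(1 / 3) : ℝ)) * Real.exp (11 * C₀) *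
      Real.exp (σ - σ') * ((Real.exp κ / Real.exp n) * (k₁ * Real.exp (2 * n))) := by
  obtain ⟨v₁, hv₁⟩ : ∃ v₁, v₁ = Real.log V := ⟨_, rfl⟩
  obtain ⟨x, hx'⟩ : ∃ x, x = Real.log X := ⟨_, rfl⟩
  have eV : V = Real.exp v₁ := by rw [hv₁, Real.exp_log hV]
  have eX : X = Real.exp x := by rw [hx', Real.exp_log hX]
  rw [← hv₁] at hv1 hv2
  rw [← hx'] at hx
  have eL : H * V ^ 2 / K' = Real.exp (h + 2 * v₁ - κ) := by
    rw [hH, eV, hK', ← Real.exp_nat_mul, ← Real.exp_add, ← Real.exp_sub]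
    congr 1
  have eI : X * V * H / K' = Real.exp (x + v₁ + h - κ) := by
    rw [hH, eV, hK', eX, ← Real.exp_add, ← Real.exp_add, ← Real.exp_sub]
  have hB : 0 ≤ 1 + c + β ^ (-(2 / 3) : ℝ) + β ^ (-(1 / 3) : ℝ) := by positivity
  rw [eL, eI]
  by_cases h1 : 1 ≤ Real.exp (h + 2 * v₁ - κ)
  · rw [if_pos h1]
    have hL : 0 ≤ h + 2 * v₁ - κ := by
      rw [← Real.exp_zero] at h1
      exact Real.exp_le_exp.1 h1
    have hG := G2_exp (c := c) (β := β) (l := h + 2 * v₁ - κ) (i := x + v₁ + h - κ)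
      (g := κ / 3 + 4 / 3 * n + (h + v₁) / 3 - T - σ' + 10 * C₀) hc hβ
      (by rw [hT]; linarith) (by rw [hT]; linarith) (by rw [hT]; linarith) (by rw [hT]; linarith)
    have hFH : FH K' H V = Real.exp (2 / 3 * κ - (h + v₁) / 3) := by
      rw [hH, eV, hK', FH_exp]
    have e1 : Real.exp n ^ (2 / 3 : ℝ) = Real.exp (2 / 3 * n) := by
      rw [← Real.exp_mul]; congr 1; ring
    have e3 : Real.exp κ / Real.exp n = Real.exp (κ - n) := by rw [← Real.exp_sub]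
    rw [hFH, e1, e3]
    calc Real.exp (2 / 3 * κ - (h + v₁) / 3) * G2 (Real.exp (h + 2 * v₁ - κ))
          (c * Real.exp (h + 2 * v₁ - κ) *
            Real.exp (x + v₁ + h - κ) ^ (-(1 / 2) : ℝ))
          (β * Real.exp (x + v₁ + h - κ)) *
          (k₁ * Real.exp (T - n) * Real.exp (2 / 3 * n)) * S₀
        ≤ Real.exp (2 / 3 * κ - (h + v₁) / 3) *
          ((1 + c + β ^ (-(2 / 3) : ℝ) + β ^ (-(1 / 3) : ℝ)) * Real.exp
          (κ / 3 + 4 / 3 * n + (h + v₁) / 3 - T - σ' + 10 * C₀)) *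
          (k₁ * Real.exp (T - n) * Real.exp (2 / 3 * n)) * Real.exp (σ + C₀) := by
          gcongr
      _ = (1 + c + β ^ (-(2 / 3) : ℝ) + β ^ (-(1 / 3) : ℝ)) * k₁ *
          (Real.exp (2 / 3 * κ - (h + v₁) / 3) * Real.exp
          (κ / 3 + 4 / 3 * n + (h + v₁) / 3 - T - σ' + 10 * C₀) *
          Real.exp (T - n) * Real.exp (2 / 3 * n) * Real.exp (σ + C₀)) := by ring
      _ = (1 + c + β ^ (-(2 / 3) : ℝ) + β ^ (-(1 / 3) : ℝ)) * k₁ *
          (Real.exp (11 * C₀) * Real.exp (σ - σ') * Real.exp (κ - n) *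
            Real.exp (2 * n)) := by
          rw [← Real.exp_add, ← Real.exp_add, ← Real.exp_add, ← Real.exp_add, ← Real.exp_add,
            ← Real.exp_add, ← Real.exp_add]
          congr 2
          ring
      _ = _ := by ring
  · rw [if_neg h1, zero_mul, zero_mul]
    positivity

/-- **the `R`-number of a level by the top level** -/
lemma lev_e {K' H X c K1 E E0 : ℝ} {N₁ a i : ℕ} {Ds : Finset Eis} (hK : 0 < K') (hH : 0 < H)
    (hX : 0 < X) (hN : 1 ≤ N₁) (hc : 0 < c) (hK1 : 0 ≤ K1) (hE : 0 ≤ E)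
    (hDs : ∀ d ∈ Ds, (1 : ℝ) ≤ nm d) (hE0 : 0 ≤ E0) (hi : i ∈ LI (1 / 10) N₁) :
    FH K' H (Real.exp i) * RNp c K' H X (Real.exp i)
      (fun d e => W2 a (c * (X * (Real.exp 1 * N₁) * H / K'))
        (K1 * ((nm d : ℝ) * nm e) ^ (-(2 / 3) : ℝ) * (E / nm d) ^ (2 / 3 : ℝ)))
      Ds (S E0) ≤
    (if 1 ≤ H * (Real.exp 1 * N₁) ^ 2 / K' then FH K' H (Real.exp 1 * N₁) *
      G2 (H * (Real.exp 1 * N₁) ^ 2 / K')
      (c * (H * (Real.exp 1 * N₁) ^ 2 / K') * (X * (Real.exp 1 * N₁) * H / K') ^ (-(1 / 2) : ℝ))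
      (1 * (X * (Real.exp 1 * N₁) * H / K')) else 0) * (K1 * E ^ (2 / 3 : ℝ)) *
      SEe Ds (S E0) := by
  obtain ⟨h1, -, h3⟩ := mem_LI hi
  have hN0 : (0 : ℝ) < N₁ := by exact_mod_cast hN
  have hV : (0 : ℝ) < Real.exp 1 * N₁ := by positivity
  obtain ⟨V, hVd⟩ : ∃ V, V = Real.exp 1 * (N₁ : ℝ) := ⟨_, rfl⟩
  rw [← hVd] at h3 hV ⊢
  have hs : 0 < Real.exp i / V := by positivity
  have hs1 : Real.exp i / V ≤ 1 := (div_le_one hV).2 h3
  have e1 : V * (Real.exp i / V) = Real.exp i := by field_simp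
  have hEE : ∀ e ∈ S E0, (1 : ℝ) ≤ nm e := fun e he => by
    exact_mod_cast nm_pos.2 ((mem_S hE0).1 he).2.1.ne_zero
  have key := RN2_tope (a := a) (β := 1) (Ds := Ds) (EE := S E0) hK hH hX hV hs hs1 hc one_pos hK1
    hE hDs hEE
  rw [e1] at key
  unfold RoP579.RNp
  refine le_trans (le_of_eq ?_) key
  rw [one_mul]
  rfl

end Crest.Agent.R017.NO64
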