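import Crest.Agent.R017.TNj_90

/-!
# Row 17, (Ro) at the near leaf: the T-half from joint numbers, level by level (helper126)

* `TNa`, `TNf`       : helper116's T-numbers of the core `ro_core4`
* **`tna_jb`**       : `TNa` from helper90's `JBc` and one line
* **`tnf_jb`**       : `TNf` (cube-free part, level-resolved) from `JBc` and one line
* `ShN`, **`ta_ShN`**, **`tf_ShN`** : the two lines for the closed form of the near lists
* **`tn_near`**      : both numbers for the closed form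
-/

set_option autoImplicit false
set_option linter.unusedVariables false

noncomputable section

open Finset MeasureTheory
open scoped ComplexConjugate Classical

namespace Crest.Agent.R017.NOt126

open Crest.Agent.R012 Crest.Agent.R012.Eis Crest.Agent.R012.MC
open Crest.Agent.R012.LS2 (S mem_S)
open Crest.Agent.R017.C70
open Crest.Agent.R017.E1551 hiding tau Dg

open Crest.Agent.R017.E3Z548 (TN JV JVc mem_JV)
open Crest.Agent.R017.TNj90 (JBc TNj)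

/-- the frequencies with a main term are cube-free -/
lemma cf_of_jc {j : Eis} (h : JC j) : CF j := by
  obtain ⟨c, hc, j', hj', hcf, rfl⟩ := h
  have hc3 : c ∣ 3 := by
    have e3 : (w : Eis) ^ 3 = 1 := by decide
    rcases hc with rfl | rfl | rfl | rfl
    · exact one_dvd _
    · exact dvd_rfl
    · exact ⟨w ^ 2, by linear_combination (-3) * e3⟩
    · exact ⟨w, by linear_combination (-3) * e3⟩
  have h30 : (3 : Eis) ≠ 0 := by decide
  have hc0 : c ≠ 0 := fun h0 => h30 (by rw [h0] at hc3; exact zero_dvd_iff.1 hc3)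
  refine ⟨mul_ne_zero hc0 hj'.ne_zero, fun p hp hd => ?_⟩
  by_cases h3 : p ∣ 3
  · have hcop : IsCoprime (p ^ 3) j' :=
      (IsCoprime.of_isCoprime_of_dvd_right hj'.isCoprime_three h3).symm.pow_left
    have h1 : p ^ 3 ∣ 3 := (hcop.dvd_of_dvd_mul_right hd).trans hc3
    obtain ⟨x, hx⟩ := h1
    have h2 : 9 = nm p ^ 3 * nm x := by
      rw [← nm_pow, ← nm_mul, ← hx, nm_three]
    have hp1 : nm p ≠ 1 := fun h4 => hp.not_isUnit (isUnit_iff.2 h4)
    have hp0 : nm p ≠ 0 := fun h4 => hp.ne_zero (nm_eq_zero.1 h4)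
    have hp2 : 2 ≤ nm p := by omega
    have hx0 : nm x ≠ 0 := fun h4 => by rw [h4] at h2; omega
    have h5 : 8 ≤ nm p ^ 3 := by
      calc 8 = 2 ^ 3 := by norm_num
        _ ≤ _ := Nat.pow_le_pow_left hp2 3
    rcases Nat.lt_or_ge (nm x) 2 with h6 | h6
    · have h7 : nm x = 1 := by omega
      rw [h7, mul_one] at h2
      rcases Nat.lt_or_ge (nm p) 3 with h8 | h8
      · have h9 : nm p = 2 := by omega
        rw [h9] at h2
        omega
      · have : 27 ≤ nm p ^ 3 := by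
          calc 27 = 3 ^ 3 := by norm_num
            _ ≤ _ := Nat.pow_le_pow_left h8 3
        omega
    · nlinarith
  · have hcop : IsCoprime p 3 := hp.irreducible.coprime_iff_not_dvd.2 h3
    have h1 : IsCoprime (p ^ 3) c := IsCoprime.of_isCoprime_of_dvd_right hcop.pow_left hc3
    exact hcf p hp (h1.dvd_of_dvd_mul_left hd)

/-- the uniform T-number of the off-diagonal part (helper116) -/
def TNa (K E0 D c : ℝ) (N₁ : ℕ) (α : Eis → ℂ) (τ : ℝ) : Prop :=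
  ∀ V : ℝ, 0 < V → V ≤ Real.exp 1 * (Real.exp 1 * N₁) →
    ∀ (om : Eis → ℝ) (Gs : Finset Eis) (As : Eis → Eis → Finset Eis) (dl : Eis → Eis),
    (∀ γ ∈ Gs, IsPrim γ ∧ 0 ≤ om γ ∧ om γ ≤ (nm γ : ℝ) ^ (-(1 / 2) : ℝ)) →
    (∀ d ∈ (JW D (1 / 10) (N₁ : ℝ)).image Prod.fst, ∀ γ ∈ Gs, As d γ ⊆ JV c V d γ) →
    K ^ (2 / 3 : ℝ) * V ^ (-(1 / 3) : ℝ) *
      TN (fun d _ m => α (d * m)) (fun e => (nm e : ℝ))
        ((JW D (1 / 10) (N₁ : ℝ)).image Prod.fst) (S E0) om Gs As dl ≤ τ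

/-- the cube-free T-number, level by level (helper116) -/
def TNf (K E0 D c : ℝ) (N₁ : ℕ) (α : Eis → ℂ) (τ₁ : ℝ) : Prop :=
  ∀ V : ℝ, 0 < V → V ≤ Real.exp 1 * N₁ →
    V ^ (1 / 3 : ℝ) * Real.sqrt (c * V) * (K ^ (2 / 3 : ℝ) * V ^ (-(1 / 3) : ℝ) *
      TN (fun d _ m => α (d * m)) (fun e => (nm e : ℝ))
        ((JW D (1 / 10) (N₁ : ℝ)).image Prod.fst) (S E0) (fun _ => 1) {1} (JVc c V) id) ≤ τ₁

/-- **the uniform T-number from joint numbers** -/
theorem tna_jb {R : ℝ} (hR : 0 ≤ R) {ε J B₂ : ℝ} (hε : 0 < ε) (hJ : 0 ≤ J) (hB₂ : 0 < B₂) :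
    ∃ C : ℝ, 0 ≤ C ∧ ∀ X : ℝ, 3 ≤ X → ∀ (n Y W K E0 D c F m : ℝ) (N₁ : ℕ)
      (Sh : ℝ → ℝ → ℝ → ℝ), 1 ≤ Y → Y ≤ X ^ B₂ → W ≤ X ^ B₂ → 0 < c →
      c * (Real.exp 1 * (Real.exp 1 * N₁)) ≤ W → 0 < E0 → 0 < K → 0 ≤ F →
      ∀ al : Eis → ℂ, JBc Y W F J Sh al → Adm Y (Real.exp n) R al →
      (∀ δ b v : ℝ, 0 ≤ δ → 0 ≤ b → 0 ≤ v →
        v + 2 * δ ≤ Real.log (c * (Real.exp 1 * (Real.exp 1 * N₁))) →
        Sh δ b v + 4 / 3 * δ + b - 2 * max 0 (b - Real.log E0) - v / 3 +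
          2 / 3 * Real.log K + Real.log c / 3 ≤ m) →
      TNa K E0 D c N₁ al (C * X ^ ε * F * Real.exp (-(n / 3)) * Real.exp m) := by
  obtain ⟨C, hC, H⟩ := TNj hR hε hJ hB₂
  refine ⟨C, hC, ?_⟩
  intro X hX n Y W K E0 D c F m N₁ Sh hY1 hYu hWX hc hcW hE0 hK hF al hjb hadm hm
  intro V hV hVN om Gs As dl hG hAs
  have hX0 : 0 < X := by linarith
  have hcV : 0 < c * V := by positivity
  have hcVW : c * V ≤ W := (mul_le_mul_of_nonneg_left hVN hc.le).trans hcW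
  have hlc : Real.log (c * V) = Real.log c + Real.log V := Real.log_mul hc.ne' hV.ne'
  have hlV : Real.log (c * V) ≤ Real.log (c * (Real.exp 1 * (Real.exp 1 * N₁))) :=
    Real.log_le_log hcV (mul_le_mul_of_nonneg_left hVN hc.le)
  have hd1 : ∀ d ∈ (JW D (1 / 10) (N₁ : ℝ)).image Prod.fst, IsPrim d := by
    intro d hd
    obtain ⟨x, hx, rfl⟩ := mem_image.1 hd
    exact ((okJ_JW D (1 / 10) (N₁ : ℝ)).prim x hx)
  have hdn : ∀ d ∈ (JW D (1 / 10) (N₁ : ℝ)).image Prod.fst, 0 ≤ Real.log (nm d) := by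
    intro d hd
    refine Real.log_nonneg ?_
    exact_mod_cast nm_pos.2 (hd1 d hd).ne_zero
  have key := (H X hX n Y (c * V) E0 F Sh hY1 hYu (hcVW.trans hWX) hE0 hF al (hjb.mono hcVW)
    hadm ((JW D (1 / 10) (N₁ : ℝ)).image Prod.fst) (S E0)
    (m - 2 / 3 * Real.log K + Real.log V / 3) hd1 (fun e he => he)).2
    (fun d hd b v hb hv hvW => by
      have h1 := hm (Real.log (nm d)) b v (hdn d hd) hb hv (by linarith)
      rw [hlc]
      linarith) om Gs As dl hG (fun d hd γ hγ j hj => by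
        exact (mem_JV (hd1 d hd).ne_zero (hG γ hγ).1.ne_zero).1 (hAs d hd γ hγ hj))
  have e1 : K ^ (2 / 3 : ℝ) * V ^ (-(1 / 3) : ℝ) *
      Real.exp (m - 2 / 3 * Real.log K + Real.log V / 3) = Real.exp m := by
    rw [Real.rpow_def_of_pos hK, Real.rpow_def_of_pos hV, ← Real.exp_add, ← Real.exp_add]
    congr 1
    ring
  have h0 : 0 ≤ K ^ (2 / 3 : ℝ) * V ^ (-(1 / 3) : ℝ) := by positivity
  calc _ ≤ K ^ (2 / 3 : ℝ) * V ^ (-(1 / 3) : ℝ) * (C * X ^ ε * F * Real.exp (-(n / 3)) *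
        Real.exp (m - 2 / 3 * Real.log K + Real.log V / 3)) :=
        mul_le_mul_of_nonneg_left key h0
    _ = C * X ^ ε * F * Real.exp (-(n / 3)) * (K ^ (2 / 3 : ℝ) * V ^ (-(1 / 3) : ℝ) *
        Real.exp (m - 2 / 3 * Real.log K + Real.log V / 3)) := by ring
    _ = _ := by rw [e1]

/-- **the cube-free T-number of a level from joint numbers** -/
theorem tnf_jb {R : ℝ} (hR : 0 ≤ R) {ε J B₂ : ℝ} (hε : 0 < ε) (hJ : 0 ≤ J) (hB₂ : 0 < B₂) :
    ∃ C : ℝ, 0 ≤ C ∧ ∀ X : ℝ, 3 ≤ X → ∀ (n Y W K E0 D c F m : ℝ) (N₁ : ℕ)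
      (Sh : ℝ → ℝ → ℝ → ℝ), 1 ≤ Y → Y ≤ X ^ B₂ → W ≤ X ^ B₂ → 0 < c →
      c * (Real.exp 1 * N₁) ≤ W → 0 < E0 → 0 < K → 0 ≤ F →
      ∀ al : Eis → ℂ, JBc Y W F J Sh al → Adm Y (Real.exp n) R al →
      (∀ δ b v w : ℝ, 0 ≤ δ → 0 ≤ b → 0 ≤ v → v + 2 * δ ≤ w →
        w ≤ Real.log (c * (Real.exp 1 * N₁)) →
        Sh δ b v + 2 * δ + b - 2 * max 0 (b - Real.log E0) + w / 2 +
          2 / 3 * Real.log K ≤ m) →
      TNf K E0 D c N₁ al (C * X ^ ε * F * Real.exp (-(n / 3)) * Real.exp m) := by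
  obtain ⟨C, hC, H⟩ := TNj hR hε hJ hB₂
  refine ⟨C, hC, ?_⟩
  intro X hX n Y W K E0 D c F m N₁ Sh hY1 hYu hWX hc hcW hE0 hK hF al hjb hadm hm
  intro V hV hVN
  have hX0 : 0 < X := by linarith
  have hcV : 0 < c * V := by positivity
  have hcVW : c * V ≤ W := (mul_le_mul_of_nonneg_left hVN hc.le).trans hcW
  have hlV : Real.log (c * V) ≤ Real.log (c * (Real.exp 1 * N₁)) :=
    Real.log_le_log hcV (mul_le_mul_of_nonneg_left hVN hc.le)
  have hd1 : ∀ d ∈ (JW D (1 / 10) (N₁ : ℝ)).image Prod.fst, IsPrim d := by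
    intro d hd
    obtain ⟨x, hx, rfl⟩ := mem_image.1 hd
    exact ((okJ_JW D (1 / 10) (N₁ : ℝ)).prim x hx)
  have hdn : ∀ d ∈ (JW D (1 / 10) (N₁ : ℝ)).image Prod.fst, 0 ≤ Real.log (nm d) := by
    intro d hd
    refine Real.log_nonneg ?_
    exact_mod_cast nm_pos.2 (hd1 d hd).ne_zero
  have key := (H X hX n Y (c * V) E0 F Sh hY1 hYu (hcVW.trans hWX) hE0 hF al (hjb.mono hcVW)
    hadm ((JW D (1 / 10) (N₁ : ℝ)).image Prod.fst) (S E0)
    (m - 2 / 3 * Real.log K - Real.log (c * V) / 2) hd1 (fun e he => he)).1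
    (fun d hd b v hb hv hvW => by
      have h1 := hm (Real.log (nm d)) b v (Real.log (c * V)) (hdn d hd) hb hv (by linarith) hlV
      linarith) (fun _ => 1) (JVc c V) id zero_le_one le_rfl (fun d hd j hj => by
        obtain ⟨h1, h2⟩ := mem_filter.1 hj
        obtain ⟨h3, h4⟩ := (mem_JV (hd1 d hd).ne_zero one_ne_zero).1 h1
        refine ⟨cf_of_jc h2, ?_⟩
        simpa using h4)
  have e1 : V ^ (1 / 3 : ℝ) * Real.sqrt (c * V) * (K ^ (2 / 3 : ℝ) * V ^ (-(1 / 3) : ℝ) *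
      Real.exp (m - 2 / 3 * Real.log K - Real.log (c * V) / 2)) = Real.exp m := by
    rw [Real.sqrt_eq_rpow, Real.rpow_def_of_pos hK, Real.rpow_def_of_pos hV,
      Real.rpow_def_of_pos hV, Real.rpow_def_of_pos hcV, ← Real.exp_add, ← Real.exp_add,
      ← Real.exp_add, ← Real.exp_add]
    congr 1
    ring
  have h0 : 0 ≤ V ^ (1 / 3 : ℝ) * Real.sqrt (c * V) := by positivity
  have h1 : 0 ≤ K ^ (2 / 3 : ℝ) * V ^ (-(1 / 3) : ℝ) := by positivity
  calc _ ≤ V ^ (1 / 3 : ℝ) * Real.sqrt (c * V) * (K ^ (2 / 3 : ℝ) * V ^ (-(1 / 3) : ℝ) *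
        (C * X ^ ε * F * Real.exp (-(n / 3)) *
        Real.exp (m - 2 / 3 * Real.log K - Real.log (c * V) / 2))) :=
        mul_le_mul_of_nonneg_left (mul_le_mul_of_nonneg_left key h1) h0
    _ = C * X ^ ε * F * Real.exp (-(n / 3)) * (V ^ (1 / 3 : ℝ) * Real.sqrt (c * V) *
        (K ^ (2 / 3 : ℝ) * V ^ (-(1 / 3) : ℝ) *
        Real.exp (m - 2 / 3 * Real.log K - Real.log (c * V) / 2))) := by ring
    _ = _ := by rw [e1]

/-! ### the closed form of the near lists -/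

/-- slack of the slope claims, `F3 κ m = max 0 ((4 m - 3 κ) / 9)` -/
def F3n (κ m : ℝ) : ℝ := max 0 ((4 * m - 3 * κ) / 9)

/-- the joint number of a near list (helper320's `shJ`, unfolded) -/
def ShN (κ g n m cL η b k : ℝ) : ℝ :=
  (4 / 3 * (m - η - b) + (k + b + κ) / 3) +
    min (max 0 ((2 * (m - η - b) - (k + b + κ)) / 3)) (F3n κ (m - η - b)) +
    max 0 (n - m + b - g) + cL

lemma bey_le {n m g b E : ℝ} : max 0 (n - m + b - g) - 2 * max 0 (b - E) ≤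
    max 0 (n - m + E - g) := by
  rcases le_total b E with h | h
  · rw [max_eq_left (by linarith : b - E ≤ 0)]
    have := max_le_max (le_refl (0 : ℝ)) (by linarith : n - m + b - g ≤ n - m + E - g)
    linarith
  · rw [max_eq_right (by linarith : 0 ≤ b - E)]
    have h1 : max 0 (n - m + b - g) ≤ max 0 (n - m + E - g) + (b - E) := by
      refine max_le ?_ ?_
      · have := le_max_left 0 (n - m + E - g)
        linarith
      · have := le_max_right 0 (n - m + E - g)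
        linarith
    linarith

/-- the line of `TNa` -/
lemma ta_ShN {κ g n m cL E δ b v lc : ℝ} (hδ : 0 ≤ δ) (hb : 0 ≤ b) :
    ShN κ g n m cL δ b v + 4 / 3 * δ + b - 2 * max 0 (b - E) - v / 3 + 2 / 3 * κ + lc / 3 ≤
      4 / 3 * m + κ + F3n κ m + max 0 (n - m + E - g) + cL + lc / 3 := by
  have h1 := bey_le (n := n) (m := m) (g := g) (b := b) (E := E)
  have h2 : min (max 0 ((2 * (m - δ - b) - (v + b + κ)) / 3)) (F3n κ (m - δ - b)) ≤
      F3n κ m := by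
    refine (min_le_right _ _).trans ?_
    unfold F3n
    exact max_le_max le_rfl (by linarith)
  unfold ShN
  linarith

/-- the line of `TNf` (flat claims only) -/
lemma tf_ShN {κ g n m cL E δ b v w w₁ : ℝ} (hδ : 0 ≤ δ) (hb : 0 ≤ b) (hv : v + 2 * δ ≤ w)
    (hw : w ≤ w₁) :
    ShN κ g n m cL δ b v + 2 * δ + b - 2 * max 0 (b - E) + w / 2 + 2 / 3 * κ ≤
      4 / 3 * m + κ + max w₁ (2 * m - κ) / 3 + w₁ / 2 + max 0 (n - m + E - g) + cL := by
  have h1 := bey_le (n := n) (m := m) (g := g) (b := b) (E := E)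
  have h2 : min (max 0 ((2 * (m - δ - b) - (v + b + κ)) / 3)) (F3n κ (m - δ - b)) ≤
      max w₁ (2 * m - κ) / 3 - v / 3 - 2 / 3 * δ := by
    refine (min_le_left _ _).trans (max_le ?_ ?_)
    · have := le_max_left w₁ (2 * m - κ)
      linarith
    · have := le_max_right w₁ (2 * m - κ)
      linarith
  unfold ShN
  linarith

/-- **the T-half of the off-diagonal part at a near list** -/
theorem tn_near {R : ℝ} (hR : 0 ≤ R) {ε J B₂ : ℝ} (hε : 0 < ε) (hJ : 0 ≤ J) (hB₂ : 0 < B₂) :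
    ∃ C : ℝ, 0 ≤ C ∧ ∀ X : ℝ, 3 ≤ X → ∀ (x Y W K E0 D c F : ℝ) (N₁ : ℕ) (g n m cL : ℝ),
      1 ≤ Y → Y ≤ X ^ B₂ → W ≤ X ^ B₂ → 0 < c →
      c * (Real.exp 1 * (Real.exp 1 * N₁)) ≤ W → 0 < E0 → 0 < K → 0 ≤ F →
      ∀ al : Eis → ℂ, JBc Y W F J (ShN (Real.log K) g n m cL) al → Adm Y (Real.exp x) R al →
      TNa K E0 D c N₁ al (C * X ^ ε * F * Real.exp (-(x / 3)) *
        Real.exp (4 / 3 * m + Real.log K + F3n (Real.log K) m +
          max 0 (n - m + Real.log E0 - g) + cL + Real.log c / 3)) ∧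
      TNf K E0 D c N₁ al (C * X ^ ε * F * Real.exp (-(x / 3)) *
        Real.exp (4 / 3 * m + Real.log K +
          max (Real.log (c * (Real.exp 1 * N₁))) (2 * m - Real.log K) / 3 +
          Real.log (c * (Real.exp 1 * N₁)) / 2 + max 0 (n - m + Real.log E0 - g) + cL)) := by
  obtain ⟨C₁, hC₁, H₁⟩ := tna_jb hR hε hJ hB₂
  obtain ⟨C₂, hC₂, H₂⟩ := tnf_jb hR hε hJ hB₂
  refine ⟨C₁ + C₂, by positivity, ?_⟩
  intro X hX x Y W K E0 D c F N₁ g n m cL hY1 hYu hWX hc hcW hE0 hK hF al hjb hadm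
  have hX0 : 0 < X := by linarith
  have he1 : (1 : ℝ) ≤ Real.exp 1 := Real.one_le_exp zero_le_one
  have hcW' : c * (Real.exp 1 * N₁) ≤ W := by
    refine le_trans (mul_le_mul_of_nonneg_left ?_ hc.le) hcW
    exact le_mul_of_one_le_left (by positivity) he1
  have k1 := H₁ X hX x Y W K E0 D c F _ N₁ _ hY1 hYu hWX hc hcW hE0 hK hF al hjb hadm
    (fun δ b v hδ hb _ _ => ta_ShN hδ hb)
  have k2 := H₂ X hX x Y W K E0 D c F _ N₁ _ hY1 hYu hWX hc hcW' hE0 hK hF al hjb hadm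
    (fun δ b v w hδ hb _ hv hw => tf_ShN hδ hb hv hw)
  have hq : ∀ z : ℝ, C₁ * X ^ ε * F * Real.exp (-(x / 3)) * Real.exp z ≤
      (C₁ + C₂) * X ^ ε * F * Real.exp (-(x / 3)) * Real.exp z := fun z => by
    gcongr
    linarith
  have hq' : ∀ z : ℝ, C₂ * X ^ ε * F * Real.exp (-(x / 3)) * Real.exp z ≤
      (C₁ + C₂) * X ^ ε * F * Real.exp (-(x / 3)) * Real.exp z := fun z => by
    gcongr
    linarith
  exact ⟨fun V hV hVN om Gs As dl hG hAs => (k1 V hV hVN om Gs As dl hG hAs).trans (hq _),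
    fun V hV hVN => (k2 V hV hVN).trans (hq' _)⟩

end Crest.Agent.R017.NOt126
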