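import Crest.Agent.R017.NOd_64
import Crest.Agent.R017.NOt_126
import Crest.Agent.R017.NEk_551

/-!
# Row 17, the near leaf, (Ro) (helper64): the line and the facts

* `nf_facts` : the facts of the leaf in logarithms
* `RonLn` : what the line (ro) is used for; `ron_of` : the premise of (RH)
-/

set_option autoImplicit false
set_option linter.unusedVariables false
set_option maxHeartbeats 400000

noncomputable section

open Finset MeasureTheory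
open scoped Classical

namespace Crest.Agent.R017.NO64

open Crest.Agent.R012 Crest.Agent.R012.Eis Crest.Agent.R012.MC
open Crest.Agent.R012.LS2 (S mem_S bl mem_bl)
open Crest.Agent.R017.B770
open Crest.Agent.R017.Prov71
open Crest.Agent.R017.Leg381 (Pf alF LF natl)
open Crest.Agent.R017.XRG106 (RFp)
open Crest.Agent.R017.XP699 (LL Chd hcost cst)
open Crest.Agent.R017.RGB545 (Line Th TK)
open Crest.Agent.R017.NE73 (gN)
open Crest.Agent.R017.NEg551 (NFacts)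
open Crest.Agent.R017.NEg551 (NNum)
open Crest.Agent.R017.NOt126 (F3n)

variable {Lam ι : Type*} {p : ℕ}

/-- the facts in logarithms -/
structure NoF (K L c n v D : ℝ) (N₁ : ℕ) : Prop where
  n0 : 3 / 4 * (K * L) - c * L ≤ n
  n1 : 5 * n ≤ 4 * (K * L) + 6 * (c * L)
  nv : 5 * (v + n) ≤ 7 * (K * L)
  v0 : 0 ≤ v
  nt : 2 * n ≤ K * L + v
  D0 : 1 ≤ D
  D1 : Real.log D ≤ n - 3 / 4 * (K * L) + c * L
  N1 : 1 ≤ N₁
  Nl : v ≤ Real.log N₁
  Nu : Real.log N₁ ≤ v + 4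
  Nh : 1 ≤ N₁ / 2

/-- **the facts of the leaf** -/
lemma nf_facts {K v c ε X : ℝ} {ps₀ : List Pq} {ps : List Pf} {Lv : ℝ} {N₁ : ℕ} (hX : 3 ≤ X)
    (hε : 0 < ε) (hnum : NNum K v c ε X ps₀)
    (hF : NFacts K v (gN K c (LL Dq ps₀ / Real.log X)) ε X ps₀ ps Lv N₁) :
    NoF K (Real.log X) c (LF ps) Lv
      (Real.exp (min (gN K c (LL Dq ps₀ / Real.log X) * Real.log X)
          (LF ps - (LL Dq ps₀ - gN K c (LL Dq ps₀ / Real.log X) * Real.log X)))) N₁ := by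
  have hL : 0 < Real.log X := Real.log_pos (by linarith)
  obtain ⟨L, hLd⟩ : ∃ L, L = Real.log X := ⟨_, rfl⟩
  obtain ⟨a, ha⟩ : ∃ a, a = LL Dq ps₀ := ⟨_, rfl⟩
  obtain ⟨n, hn⟩ : ∃ n, n = LF ps := ⟨_, rfl⟩
  have hg : gN K c (LL Dq ps₀ / Real.log X) * Real.log X = a - 3 / 4 * (K * L) + c * L := by
    unfold NE73.gN
    rw [← ha, ← hLd]
    rw [← hLd] at hL
    field_simp
  have f1 := hF.lo
  have f2 := hF.hi
  have f3 := hF.v0
  have f4 := hF.top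
  have f5 := hF.lv
  have f7 := hF.N0
  have f8 := hF.N1
  have f9 := hF.Nh
  have g2 := hnum.nK
  have g3 := hnum.Kn
  have g5 := hnum.sn
  have g6 := hnum.ec
  rw [hg] at f1 ⊢
  rw [← hLd] at hL f2 f4 f5 g2 g3 g5
  rw [← ha] at f1 f2 f5 g2 g3 g5 ⊢
  rw [← hn] at f1 f2 f4 f5 ⊢
  rw [← hLd] 
  have hεL : 0 < ε * L := mul_pos hε hL
  have hεc : ε * L ≤ c * L := mul_le_mul_of_nonneg_right g6 hL.le
  have hN0 : (0 : ℝ) < N₁ := (Real.exp_pos _).trans_le f7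
  have hNr : (1 : ℝ) ≤ N₁ := (Real.one_le_exp f3).trans f7
  have e1 : (v + ε) * L = v * L + ε * L := by ring
  have e2 : (4 * K + ε) * L = 4 * (K * L) + ε * L := by ring
  have e3 : (7 * K + ε) * L = 7 * (K * L) + ε * L := by ring
  have e4 : 3 * K * L = 3 * (K * L) := by ring
  have e5 : 100 * c * L = 100 * (c * L) := by ring
  rw [e1] at f5
  rw [e2] at g2
  rw [e4] at g3
  rw [e3, e5] at g5
  have hm0 : 0 ≤ min (a - 3 / 4 * (K * L) + c * L)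
      (n - (a - (a - 3 / 4 * (K * L) + c * L))) := by
    refine le_min ?_ ?_ <;> linarith
  refine ⟨by linarith, by linarith, by linarith, f3, by linarith, Real.one_le_exp hm0, ?_,
    by exact_mod_cast hNr, ?_, ?_, ?_⟩
  · rw [Real.log_exp]
    refine (min_le_right _ _).trans ?_
    linarith
  · rw [Real.le_log_iff_exp_le hN0]; exact f7
  · rw [Real.log_le_iff_le_exp hN0]; linarith
  · have h1 : (1 : ℝ) ≤ ((N₁ / 2 : ℕ) : ℝ) := (Real.one_le_exp f3).trans f9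
    exact_mod_cast h1

/-- the loss of the line, in units of `log X` -/
def mm (K v n hv : ℝ) : ℝ :=
  max 0 (max ((hv + 2 * v - K) / 3) ((hv + 2 * v - K) - (v + n + hv - K) / 2))

/-- what the line (ro) is used for -/
structure RonLn (π : Lam → DPar) (h : ℝ → ℝ) (hh : ℝ → ℝ → ℝ → ℝ) (μ c : ℝ)
    (L : Line Lam p) : Prop where
  Φ : ∀ lam l β ps, RFp (π lam) h l ps ≤ L.Φ lam l β ps
  G : ∀ x θ, L.G x θ ≤ x 3 - (x 1 + x 2 + hh (x 0) (x 1) (x 2) - x 0 + μ)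
  F : ∀ x θ, L.F x θ ≤ hh (x 0) (x 1) (x 2) / 3 - mm (x 0) (x 1) (x 2) (hh (x 0) (x 1) (x 2)) -
    (x 2 - x 4) - 2 / 3 * min (x 2 - x 4) (x 0 / 15) -
    (x 1 + x 2 + hh (x 0) (x 1) (x 2) - x 0 + μ - x 3) / 3 - μ -
    16 / 27 * max 0 ((4 * x 2 - 3 * x 0) / 9) - 4 * c
  zl : ¬ L.zl

/-- the constant part of the loss -/
def sg (K μ c ε L n : ℝ) : ℝ :=
  μ * L + 16 / 27 * F3n (K * L) n + 4 * (c * L) - 2 / 3 * (ε * L)

/-- the exponent of the line at the full length -/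
def TTe (K μ c ε L v n hv : ℝ) : ℝ :=
  4 / 3 * n + (v + K * L) / 3 + L * hv / 3 - L * mm K (v / L) (n / L) hv - sg K μ c ε L n

/-- **the premise of (RH)** -/
theorem ron_of {π : Lam → DPar} {h : ℝ → ℝ} {hh : ℝ → ℝ → ℝ → ℝ} {L : ι → Line Lam p} {j : ι}
    {lam : Lam} {K c μ ε ε₁ M r bm X Lf Lv Bd : ℝ} {base : List Pq}
    (HL : RonLn π h hh μ c (L j)) (hX : 3 ≤ X) (hK : 0 < K) (hε₁ : 0 ≤ ε₁) (hε : ε₁ ≤ ε)
    (hBd : 0 ≤ Bd)
    (H : ∀ (j : ι) (θ : Th p K) (l : ℝ) (ps' : List Pq), 0 ≤ l → l ≤ TK K * Real.log X →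
      List.Forall₂ (Chd Dq hcost r bm) ps' base →
      LL Dq ps' ≤ Lf + ε * Real.log X →
      (L j).G ![K, Lv / Real.log X, Lf / Real.log X, l / Real.log X,
        LL Dq ps' / Real.log X] θ.1 ≤ ε →
      ((L j).zl → ∀ q ∈ ps', Dq.lump q → Dq.len q ≤ l + ε * Real.log X) →
      (L j).Φ lam l ((L j).b θ.1 * Real.log X) ps' ≤ Bd * cst hcost ps' base ^ M *
        X ^ (4 / 3 * (Lf / Real.log X) + (Lv / Real.log X + K) / 3 +
          (L j).F ![K, Lv / Real.log X, Lf / Real.log X, l / Real.log X,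
            LL Dq ps' / Real.log X] θ.1)) {Im D' hv : ℝ}
    (hhv : hv = hh K (Lv / Real.log X) (Lf / Real.log X))
    (hIm : Im = Lv + Lf + Real.log X * hv - K * Real.log X + μ * Real.log X)
    (hIK : Im ≤ TK K * Real.log X) (hD0 : 0 ≤ D') (hD : D' ≤ K * Real.log X / 15)
    {l : ℝ} {ps' : List Pq} (hl0 : 0 ≤ l) (hl : l ≤ Im)
    (hch : List.Forall₂ (Chd Dq hcost r bm) ps' base)
    (hLL : LL Dq ps' ≤ Lf - D' + ε₁ * Real.log X) :
    RFp (π lam) h l ps' ≤ Bd * cst hcost ps' base ^ M *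
      Real.exp (TTe K μ c ε₁ (Real.log X) Lv Lf hv - 2 / 3 * D' - Lf + LL Dq ps' -
        (Im - l) / 3) := by
  have hX0 : 0 < X := by linarith
  obtain ⟨Lx, hLx⟩ : ∃ Lx, Lx = Real.log X := ⟨_, rfl⟩
  have hL : 0 < Lx := by rw [hLx]; exact Real.log_pos (by linarith)
  have hTK : 0 ≤ TK K := by unfold RGB545.TK; positivity
  rw [← hLx] at hhv hIm hIK hD hLL ⊢
  have hεL : ε₁ * Lx ≤ ε * Lx := mul_le_mul_of_nonneg_right hε hL.le
  have key := H j ⟨0, by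
      constructor
      · exact le_rfl
      · intro i; exact hTK⟩ l ps' hl0 (by rw [← hLx]; exact hl.trans hIK) hch
    (by rw [← hLx]; linarith) (by
      refine (HL.G _ _).trans ?_
      show l / Real.log X - (Lv / Real.log X + Lf / Real.log X +
        hh K (Lv / Real.log X) (Lf / Real.log X) - K + μ) ≤ ε
      rw [← hLx, ← hhv]
      have h1 : l / Lx ≤ Lv / Lx + Lf / Lx + hv - K + μ := by
        rw [div_le_iff₀ hL]
        have h2 : (Lv / Lx + Lf / Lx + hv - K + μ) * Lx =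
            Lv + Lf + Lx * hv - K * Lx + μ * Lx := by
          field_simp
        rw [h2, ← hIm]
        exact hl
      linarith) (fun hz => (HL.zl hz).elim)
  have hcs : 0 ≤ cst hcost ps' base ^ M :=
    Real.rpow_nonneg (by linarith [RlB791.one_le_cst ps' base]) _
  refine (HL.Φ lam l _ ps').trans (key.trans ?_)
  refine mul_le_mul_of_nonneg_left ?_ (by positivity)
  rw [Real.rpow_def_of_pos hX0]
  refine Real.exp_le_exp.2 ?_
  rw [← hLx]
  have h3 := HL.F ![K, Lv / Lx, Lf / Lx, l / Lx, LL Dq ps' / Lx] 0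
  have h4 : (![K, Lv / Lx, Lf / Lx, l / Lx, LL Dq ps' / Lx] : Fin 5 → ℝ) 0 = K := rfl
  have h5 : (![K, Lv / Lx, Lf / Lx, l / Lx, LL Dq ps' / Lx] : Fin 5 → ℝ) 1 = Lv / Lx := rfl
  have h6 : (![K, Lv / Lx, Lf / Lx, l / Lx, LL Dq ps' / Lx] : Fin 5 → ℝ) 2 = Lf / Lx := rfl
  have h7 : (![K, Lv / Lx, Lf / Lx, l / Lx, LL Dq ps' / Lx] : Fin 5 → ℝ) 3 = l / Lx := rfl
  have h8 : (![K, Lv / Lx, Lf / Lx, l / Lx, LL Dq ps' / Lx] : Fin 5 → ℝ) 4 =
    LL Dq ps' / Lx := rfl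
  rw [h4, h5, h6, h7, h8, ← hhv] at h3
  have h9 : D' / Lx - ε₁ ≤ min (Lf / Lx - LL Dq ps' / Lx) (K / 15) := by
    refine le_min ?_ ?_
    · rw [← sub_div, sub_le_iff_le_add, div_le_iff₀ hL]
      have : ((Lf - LL Dq ps') / Lx + ε₁) * Lx = Lf - LL Dq ps' + ε₁ * Lx := by
        field_simp
      rw [this]
      linarith
    · have h10 : D' / Lx ≤ K / 15 := by
        rw [div_le_iff₀ hL]
        linarith
      linarith
  have h11 : Lx * max 0 ((4 * (Lf / Lx) - 3 * K) / 9) = F3n (K * Lx) Lf := by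
    show _ = max 0 ((4 * Lf - 3 * (K * Lx)) / 9)
    rw [mul_max_of_nonneg _ _ hL.le, mul_zero]
    congr 1
    field_simp
  obtain ⟨F, hFd⟩ : ∃ F, F = (L j).F ![K, Lv / Lx, Lf / Lx, l / Lx, LL Dq ps' / Lx] 0 := ⟨_, rfl⟩
  obtain ⟨mx, hmx⟩ : ∃ mx, mx = mm K (Lv / Lx) (Lf / Lx) hv := ⟨_, rfl⟩
  obtain ⟨mn, hmn⟩ : ∃ mn, mn = min (Lf / Lx - LL Dq ps' / Lx) (K / 15) := ⟨_, rfl⟩
  obtain ⟨f3, hf3⟩ : ∃ f3, f3 = max 0 ((4 * (Lf / Lx) - 3 * K) / 9) := ⟨_, rfl⟩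
  rw [← hf3] at h11 h3
  rw [← hmn] at h3 h9
  rw [← hmx] at h3
  show Lx * (4 / 3 * (Lf / Lx) + (Lv / Lx + K) / 3 +
    (L j).F ![K, Lv / Lx, Lf / Lx, l / Lx, LL Dq ps' / Lx] 0) ≤ _
  rw [← hFd] at h3 ⊢
  unfold TTe sg
  rw [← hmx, ← h11, hIm]
  have h12 := mul_le_mul_of_nonneg_left h3 hL.le
  have h13 := mul_le_mul_of_nonneg_left h9 hL.le
  have e1 : Lx * (4 / 3 * (Lf / Lx) + (Lv / Lx + K) / 3 + F) =
      4 / 3 * Lf + (Lv + K * Lx) / 3 + Lx * F := by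
    field_simp
  have e2 : Lx * (hv / 3 - mx - (Lf / Lx - LL Dq ps' / Lx) - 2 / 3 * mn -
      (Lv / Lx + Lf / Lx + hv - K + μ - l / Lx) / 3 - μ - 16 / 27 * f3 - 4 * c) =
      Lx * hv / 3 - Lx * mx - (Lf - LL Dq ps') - 2 / 3 * (Lx * mn) -
      (Lv + Lf + Lx * hv - K * Lx + μ * Lx - l) / 3 - μ * Lx - 16 / 27 * (Lx * f3) -
        4 * (c * Lx) := by
    field_simp
    try ring
  have e3 : Lx * (D' / Lx - ε₁) = D' - ε₁ * Lx := by
    field_simp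
  rw [e1]
  rw [e2] at h12
  rw [e3] at h13
  linarith

end Crest.Agent.R017.NO64
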