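import Crest.Agent.R017.NOe_64

/-!
# Row 17, the near leaf, (Ro) (helper64): the real side

* `NoN` : the real inequalities; `no_num` : they hold for large `X`
-/

set_option autoImplicit false
set_option linter.unusedVariables false

noncomputable section

namespace Crest.Agent.R017.NO64

open Crest.Agent.R012 Crest.Agent.R012.Eis
open Crest.Agent.R017.RoNum298 (exp_pow')
open Crest.Agent.R017.RGB545 (TK)
open Crest.Agent.R017.NOt126 (F3n)

/-- the real inequalities of the off-diagonal leaf -/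
structure NoN (K μ c₁ X X' H E0 E1 B Lv n : ℝ) (N₁ : ℕ) : Prop where
  KZ : X ^ K ≤ (X ^ (K + 1)) ^ 5
  NZ : (N₁ : ℝ) ≤ X ^ (K + 1)
  BZ : B ≤ X ^ (K + 1)
  E1Z : E1 ≤ X ^ (K + 1)
  E0Z : E0 ≤ X ^ (K + 1)
  XZ : X' ≤ (X ^ (K + 1)) ^ 5
  cN : c₁ * (Real.exp 1 * N₁) ≤ (X ^ (K + 1)) ^ 5
  cH : c₁ * (H * (Real.exp 1 * N₁) ^ 2) ≤ X ^ K * X'
  P0 : 0 < c₁ * (X' * (Real.exp 1 * N₁) * H / X ^ K)
  P1X : c₁ * (X' * (Real.exp 1 * N₁) * H / X ^ K) ≤ X ^ (K + 3)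
  PI : 81 * (c₁ * (X' * (Real.exp 1 * N₁) * H / X ^ K)) * X ^ (μ / 2) ≤
    Real.exp (Lv + n + Real.log H - K * Real.log X + μ * Real.log X)
  Im : Lv + n + Real.log H - K * Real.log X + μ * Real.log X ≤ TK K * Real.log X
  cZ : c₁ * (X ^ (K + 1)) ^ 300 ≤ X ^ (300 * (K + 1) + 1)
  XY : ∀ m : ℝ, 0 < m → |Real.log m - Real.log X'| ≤ 1 → m ≤ X ^ (8 * (K + 1))

set_option maxHeartbeats 1000000 in
/-- **the real side** -/
theorem no_num {K c c' μ c₁ R : ℝ} (hc : 0 < c) (hcc : 30 * c ≤ c') (hcμ : 2000 * c ≤ μ)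
    (hμK : 100 * μ ≤ K) (hcK' : 1000 * c' ≤ K) (hc₁ : 1 ≤ c₁) (hR : 0 ≤ R) :
    ∃ X₁ : ℝ, ∀ X : ℝ, 3 ≤ X → X₁ ≤ X →
    ∀ (n Lv D : ℝ) (N₁ : ℕ), NoF K (Real.log X) c n Lv D N₁ →
    ∀ X' H E0 E1 B : ℝ, 0 < X' → |Real.log X' - n| ≤ R + 1 → 0 < H → 0 < E0 → 0 < E1 → 0 < B →
    Real.log H = 3 * F3n (K * Real.log X) n + 3 * (c' * Real.log X) →
    Real.log E0 ≤ F3n (K * Real.log X) n + 10 * (c * Real.log X) →
    Real.log E1 ≤ F3n (K * Real.log X) n + 20 * (c * Real.log X) →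
    Real.log B ≤ F3n (K * Real.log X) n + 21 * (c * Real.log X) →
    NoN K μ c₁ X X' H E0 E1 B Lv n N₁ := by
  obtain ⟨lc, hlc⟩ : ∃ x : ℝ, x = Real.log c₁ := ⟨_, rfl⟩
  have hlc0 : 0 ≤ lc := by rw [hlc]; exact Real.log_nonneg hc₁
  have ec₁ : c₁ = Real.exp lc := by rw [hlc, Real.exp_log (by linarith)]
  obtain ⟨T, hT⟩ : ∃ x : ℝ, x = 40 + lc + 2 * R := ⟨_, rfl⟩
  have hT0 : 0 < T := by rw [hT]; linarith
  refine ⟨max (Real.exp (T / c)) (Real.exp T), ?_⟩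
  intro X hX3 hXX n Lv D N₁ hF X' H E0 E1 B hX'0 hX' hH hE0 hE1 hB hlH hlE0 hlE1 hlB
  have hX0 : 0 < X := by linarith
  obtain ⟨l, hl⟩ : ∃ x : ℝ, x = Real.log X := ⟨_, rfl⟩
  have hlT : T / c ≤ l := by
    rw [hl, Real.le_log_iff_exp_le hX0]; exact (le_max_left _ _).trans hXX
  have hlT1 : T ≤ l := by
    rw [hl, Real.le_log_iff_exp_le hX0]; exact (le_max_right _ _).trans hXX
  have hcl : T ≤ c * l := by
    rw [div_le_iff₀ hc] at hlT
    linarith
  have hcl0 : 0 < c * l := by linarith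
  have hl0 : 0 < l := by linarith
  have hccl : 30 * (c * l) ≤ c' * l := by
    have := mul_le_mul_of_nonneg_right hcc hl0.le
    linarith
  have hcμl : 2000 * (c * l) ≤ μ * l := by
    have := mul_le_mul_of_nonneg_right hcμ hl0.le
    linarith
  have hμKl : 100 * (μ * l) ≤ K * l := by
    have := mul_le_mul_of_nonneg_right hμK hl0.le
    linarith
  have hcKl : 1000 * (c' * l) ≤ K * l := by
    have := mul_le_mul_of_nonneg_right hcK' hl0.le
    linarith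
  have hpowX : ∀ x : ℝ, X ^ x = Real.exp (x * l) := fun x => by
    rw [Real.rpow_def_of_pos hX0, hl, mul_comm]
  obtain ⟨f1, f2, f3, f4, f5, f6, f7, f8, f9, f10, f11⟩ := hF
  rw [← hl] at f1 f2 f3 f5 f7 hlH hlE0 hlE1 hlB
  obtain ⟨F, hFd⟩ : ∃ F, F = F3n (K * l) n := ⟨_, rfl⟩
  have hF0 : 0 ≤ F := by rw [hFd]; exact le_max_left _ _
  have hFu : F ≤ K * l / 45 + c * l := by
    rw [hFd]
    refine max_le (by linarith) ?_
    linarith
  rw [← hFd] at hlH hlE0 hlE1 hlB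
  -- logs
  have hN₁0 : (0 : ℝ) < N₁ := by exact_mod_cast f8
  obtain ⟨ν, hν⟩ : ∃ x : ℝ, x = Real.log N₁ := ⟨_, rfl⟩
  have eN : (N₁ : ℝ) = Real.exp ν := by rw [hν, Real.exp_log hN₁0]
  rw [← hν] at f9 f10
  obtain ⟨x', hx'⟩ : ∃ x : ℝ, x = Real.log X' := ⟨_, rfl⟩
  have eX' : X' = Real.exp x' := by rw [hx', Real.exp_log hX'0]
  rw [← hx'] at hX'
  obtain ⟨hX1, hX2⟩ := abs_le.1 hX'
  obtain ⟨lH, hlHd⟩ : ∃ x : ℝ, x = Real.log H := ⟨_, rfl⟩
  have eH : H = Real.exp lH := by rw [hlHd, Real.exp_log hH]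
  rw [← hlHd] at hlH
  have hZ : ∀ m : ℕ, (X ^ (K + 1)) ^ m = Real.exp (m * (K * l + l)) := fun m => by
    rw [hpowX, exp_pow']; congr 2; ring
  have hZ1 : X ^ (K + 1) = Real.exp (K * l + l) := by rw [hpowX]; congr 1; ring
  have hP1 : c₁ * (X' * (Real.exp 1 * N₁) * H / X ^ K) =
      Real.exp (lc + (x' + (1 + ν) + lH - K * l)) := by
    rw [ec₁, eX', eN, eH, hpowX]
    rw [← Real.exp_add, ← Real.exp_add, ← Real.exp_add, ← Real.exp_sub, ← Real.exp_add]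
  have hlog : ∀ {x y : ℝ}, 0 < x → Real.log x ≤ y → x ≤ Real.exp y := fun hx hy => by
    rw [← Real.log_le_iff_le_exp hx]; exact hy
  constructor
  · rw [hZ, hpowX]; push_cast; exact Real.exp_le_exp.2 (by linarith)
  · rw [hZ1, eN]; exact Real.exp_le_exp.2 (by linarith)
  · rw [hZ1]; exact hlog hB (by linarith)
  · rw [hZ1]; exact hlog hE1 (by linarith)
  · rw [hZ1]; exact hlog hE0 (by linarith)
  · rw [hZ, eX']; push_cast; exact Real.exp_le_exp.2 (by linarith)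
  · rw [hZ, ec₁, eN, ← Real.exp_add, ← Real.exp_add]; push_cast
    exact Real.exp_le_exp.2 (by linarith)
  · rw [eX', ec₁, eN, eH, hpowX, ← Real.exp_add, exp_pow', ← Real.exp_add,
      ← Real.exp_add, ← Real.exp_add]
    push_cast
    exact Real.exp_le_exp.2 (by linarith)
  · rw [hP1]; exact Real.exp_pos _
  · rw [hP1, hpowX]
    refine Real.exp_le_exp.2 ?_
    have : (K + 3) * l = K * l + 3 * l := by ring
    linarith
  · rw [hP1, hpowX, ← hl, ← hlHd]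
    have h81 : (81 : ℝ) ≤ Real.exp 5 := by
      have h1 := Real.add_one_le_exp (1 : ℝ)
      have h2 : (2.7 : ℝ) ≤ Real.exp 1 := by
        have := Real.exp_one_gt_d9
        linarith
      have h3 : Real.exp 5 = Real.exp 1 ^ 5 := by rw [exp_pow']; norm_num
      rw [h3]
      calc (81 : ℝ) ≤ 2.7 ^ 5 := by norm_num
        _ ≤ Real.exp 1 ^ 5 := by gcongr
    have h4 : 81 * Real.exp (lc + (x' + (1 + ν) + lH - K * l)) * Real.exp (μ / 2 * l) ≤
        Real.exp 5 * Real.exp (lc + (x' + (1 + ν) + lH - K * l)) * Real.exp (μ / 2 * l) := by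
      gcongr
    refine h4.trans ?_
    rw [← Real.exp_add, ← Real.exp_add]
    refine Real.exp_le_exp.2 ?_
    have : μ / 2 * l = μ * l / 2 := by ring
    linarith
  · rw [← hl, ← hlHd]
    have h1 : (K + 3) * l ≤ TK K * l := mul_le_mul_of_nonneg_right (by
      unfold RGB545.TK
      linarith) hl0.le
    have : (K + 3) * l = K * l + 3 * l := by ring
    linarith
  · rw [hZ, hpowX, ec₁, ← Real.exp_add]
    push_cast
    refine Real.exp_le_exp.2 ?_
    have : (300 * (K + 1) + 1) * l = 300 * (K * l) + 301 * l := by ring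
    linarith
  · intro m hm0 hm
    rw [hpowX]
    refine hlog hm0 ?_
    have h1 := (abs_le.1 hm).2
    have : 8 * (K + 1) * l = 8 * (K * l) + 8 * l := by ring
    linarith

end Crest.Agent.R017.NO64
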