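import Crest.Agent.R017.NOxc_116
import Crest.Agent.R017.DgB_829
import Crest.Agent.R017.E3Mj_829

/-!
# Row 17, (Ro) at the near leaf (helper116): the core with the `T`-numbers as hypotheses

* `TNa` : all lines of the `T`-part at one family, one number
* `TNf` : the cube-free line, with the factor of the level
* `LVn_le4`, `EF_a`, `core_num4`
* `ro_core4` : the core; no power of `E0`
-/

set_option autoImplicit false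
set_option linter.unusedVariables false

noncomputable section

open Finset
open scoped Classical ComplexConjugate

namespace Crest.Agent.R017.RoX116

open Crest.Agent.R012 Crest.Agent.R012.Eis
open Crest.Agent.R012.MC (Wgt)
open Crest.Agent.R012.LS2 (S mem_S)
open Crest.Agent.R012.Mob705 (pb mem_pb pdiv mem_pdiv)
open Crest.Agent.R017.C70 (JC OKJ JW okJ_JW)
open Crest.Agent.R017.CM106 (CS FS)
open Crest.Agent.R017.HB645 (hh sum_hh_eq_one)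
open Crest.Agent.R017.E1551 (Adm)
open Crest.Agent.R017.E3A164 (Yp Ys fq Cs mem_Cs be Fy)
open Crest.Agent.R017.E3M829 (TC Tal Sg W0)
open Crest.Agent.R017.E3F548 (MPTr EF EF_nonneg)
open Crest.Agent.R017.E3T1579 (T3)
open Crest.Agent.R017.E3T829 (hE hE_nonneg)
open Crest.Agent.R017.E3Z548 (FH LVn TN JV JVc TN_nonneg mem_JV)
open Crest.Agent.R017.E3Kc548 (LI omk mem_LI card_LI nm_pos_J mem_JW_win afT)
open Crest.Agent.R017.E3Kf548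
open Crest.Agent.R017.RoT813 (afP TPr TN_afP_le)
open Crest.Agent.R017.LBo813 (Om Om_nonneg Om_le_one)
open Crest.Agent.R017.I1146 (omr)

/-- the sum of the weights `1 / N(e)` -/
lemma hE_Z' {ε : ℝ} (hε : 0 < ε) {E0 Z : ℝ} (hE0 : 1 ≤ E0) (hEZ : E0 ≤ Z) :
    hE (S E0) ≤ 200 * (1 + 1 / ε) * Z ^ ε := by
  have hZ : 1 ≤ Z := hE0.trans hEZ
  have h1 : hE (S E0) ≤ 200 * (1 + Real.log E0) := DgB829.HS_le hE0
  have h2 : Real.log E0 ≤ Real.log Z := Real.log_le_log (by linarith) hEZ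
  have h3 := E3M829.log_Z hε hZ
  linarith

/-- **the `T`-numbers of the off-diagonal part**, all lines, one number -/
def TNa (K E0 D c : ℝ) (N₁ : ℕ) (α : Eis → ℂ) (τ : ℝ) : Prop :=
  ∀ V : ℝ, 0 < V → V ≤ Real.exp 1 * (Real.exp 1 * N₁) →
    ∀ (om : Eis → ℝ) (Gs : Finset Eis) (As : Eis → Eis → Finset Eis) (dl : Eis → Eis),
    (∀ γ ∈ Gs, IsPrim γ ∧ 0 ≤ om γ ∧ om γ ≤ (nm γ : ℝ) ^ (-(1 / 2) : ℝ)) →
    (∀ d ∈ (JW D (1 / 10) (N₁ : ℝ)).image Prod.fst, ∀ γ ∈ Gs, As d γ ⊆ JV c V d γ) →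
    K ^ (2 / 3 : ℝ) * V ^ (-(1 / 3) : ℝ) * TN (fun d _ m => α (d * m)) (fun e => (nm e : ℝ))
      ((JW D (1 / 10) (N₁ : ℝ)).image Prod.fst) (S E0) om Gs As dl ≤ τ

/-- **the cube-free line**, with the factor of the level -/
def TNf (K E0 D c : ℝ) (N₁ : ℕ) (α : Eis → ℂ) (τ : ℝ) : Prop :=
  ∀ V : ℝ, 0 < V → V ≤ Real.exp 1 * N₁ →
    V ^ (1 / 3 : ℝ) * Real.sqrt (c * V) * (K ^ (2 / 3 : ℝ) * V ^ (-(1 / 3) : ℝ) *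
      TN (fun d _ m => α (d * m)) (fun e => (nm e : ℝ))
      ((JW D (1 / 10) (N₁ : ℝ)).image Prod.fst) (S E0) (fun _ => 1) {1} (JVc c V) id) ≤ τ

/-- **one side of a pair** -/
theorem LVn_le4 {af : Eis → Eis → Eis → ℂ} {Ds EE : Finset Eis}
    {c Y K H V V' N E1 B RN τ τ₁ : ℝ}
    (hc : 1 ≤ c) (hH : 1 ≤ H) (hK : 0 < K) (hV1 : 0 < V)
    (hV : V ≤ N) (hV1' : 0 < V') (hV' : V' ≤ N) (hN : 1 ≤ N) (hE1 : 1 ≤ E1) (hB : 1 ≤ B)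
    (q2 : H * N ^ 3 * E1 ^ 3 * B ^ 2 ≤ K ^ 2) (q3 : H ^ 2 * N ^ 3 ≤ K ^ 2)
    (h0 : V ^ (1 / 3 : ℝ) * Real.sqrt (c * V) * (K ^ (2 / 3 : ℝ) * V ^ (-(1 / 3) : ℝ) *
      TN af (fun e => nm e) Ds EE (fun _ => 1) {1} (JVc c V) id) ≤ τ₁)
    (h1 : K ^ (2 / 3 : ℝ) * V ^ (-(1 / 3) : ℝ) *
      TN af (fun e => nm e) Ds EE (fun _ => 1) {1} (JVc c V) id ≤ τ)
    (h2 : K ^ (2 / 3 : ℝ) * V ^ (-(1 / 3) : ℝ) *
      TN af (fun e => nm e) Ds EE (fun γ => (nm γ : ℝ)⁻¹) (primBall ⌊Y⌋₊) (JV c V)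
        (fun _ => 1) ≤ τ)
    (h3 : K ^ (2 / 3 : ℝ) * V ^ (-(1 / 3) : ℝ) *
      TN af (fun e => nm e) Ds EE (fun γ => (nm γ : ℝ) ^ (-(1 / 2) : ℝ)) (primBall ⌊Y⌋₊)
        (JV c V) (fun _ => 1) ≤ τ) :
    LVn af Ds EE c Y K H V V' E1 B (Real.sqrt (c * V)) RN ≤
      (5 * (H ^ (-(1 / 3) : ℝ) * τ) + N ^ (2 / 3 : ℝ) * E1 ^ 2 * B ^ 2 / K * τ₁) +
        FH K H V * RN := by
  have hH0 : 0 < H := by linarith
  have hc0 : 0 < c := by linarith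
  have hE0 : 0 < E1 := by linarith
  have hB0 : 0 < B := by linarith
  have hN0 : 0 < N := by linarith
  have hK2 : 0 < K ^ 2 := by positivity
  have a3 : H ^ 2 * V ^ 3 / K ^ 2 ≤ 1 := by
    rw [div_le_one hK2]
    refine le_trans ?_ q3
    gcongr
  have a2 : H * V ^ 2 * V' * E1 ^ 3 * B ^ 2 / K ^ 2 ≤ 1 := by
    rw [div_le_one hK2]
    refine le_trans ?_ q2
    calc H * V ^ 2 * V' * E1 ^ 3 * B ^ 2 ≤ H * N ^ 2 * N * E1 ^ 3 * B ^ 2 := by gcongr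
      _ = _ := by ring
  have x2 := rp_le_one (by positivity : 0 ≤ H * V ^ 2 * V' * E1 ^ 3 * B ^ 2 / K ^ 2) a2
    (by norm_num : (0 : ℝ) ≤ 1 / 3)
  have x3 := rp_le_one (by positivity : 0 ≤ H ^ 2 * V ^ 3 / K ^ 2) a3
    (by norm_num : (0 : ℝ) ≤ 1 / 3)
  have x4 := rp_le_one (by positivity : 0 ≤ H ^ 2 * V ^ 3 / K ^ 2) a3
    (by norm_num : (0 : ℝ) ≤ 1 / 2)
  obtain ⟨T1, hT1⟩ : ∃ T1, T1 = TN af (fun e => nm e) Ds EE (fun _ => 1) {1} (JVc c V) id :=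
    ⟨_, rfl⟩
  obtain ⟨T2, hT2⟩ : ∃ T2, T2 = TN af (fun e => nm e) Ds EE (fun γ => (nm γ : ℝ)⁻¹)
    (primBall ⌊Y⌋₊) (JV c V) (fun _ => 1) := ⟨_, rfl⟩
  obtain ⟨T3', hT3⟩ : ∃ T3', T3' = TN af (fun e => nm e) Ds EE
    (fun γ => (nm γ : ℝ) ^ (-(1 / 2) : ℝ)) (primBall ⌊Y⌋₊) (JV c V) (fun _ => 1) := ⟨_, rfl⟩
  have p1 : 0 ≤ T1 := by
    rw [hT1]; exact TN_nonneg _ (fun e => Nat.cast_nonneg _) _ _ (fun _ => zero_le_one) _ _ _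
  have p2 : 0 ≤ T2 := by
    rw [hT2]; exact TN_nonneg _ (fun e => Nat.cast_nonneg _) _ _ (fun _ => by positivity) _ _ _
  have p3 : 0 ≤ T3' := by
    rw [hT3]; exact TN_nonneg _ (fun e => Nat.cast_nonneg _) _ _ (fun _ => by positivity) _ _ _
  unfold E3Z548.LVn
  rw [← hT1] at h1 h0 ⊢
  rw [← hT2] at h2 ⊢
  rw [← hT3] at h3 ⊢
  have hF := FH_eq (K := K) hH0.le hV1.le
  have hh : 0 ≤ H ^ (-(1 / 3) : ℝ) := by positivity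
  have hF0 : 0 ≤ K ^ (2 / 3 : ℝ) * V ^ (-(1 / 3) : ℝ) := by positivity
  obtain ⟨F, hFd⟩ : ∃ F, F = K ^ (2 / 3 : ℝ) * V ^ (-(1 / 3) : ℝ) := ⟨_, rfl⟩
  rw [← hFd] at h0 h1 h2 h3 hF hF0
  have hFF : 0 ≤ FH K H V := by rw [hF]; positivity
  -- the first line
  have y1 : FH K H V * ((H * (V / V')) ^ (1 / 3 : ℝ) * (V' / K) *
      (E1 ^ 2 * B ^ 2 * Real.sqrt (c * V)) * T1) ≤ N ^ (2 / 3 : ℝ) * E1 ^ 2 * B ^ 2 / K * τ₁ := by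
    have e1 : (H * (V / V')) ^ (1 / 3 : ℝ) * V' =
        H ^ (1 / 3 : ℝ) * (V ^ (1 / 3 : ℝ) * V' ^ (2 / 3 : ℝ)) := by
      rw [Real.mul_rpow hH0.le (by positivity), Real.div_rpow hV1.le hV1'.le]
      have e2 : V' = V' ^ (1 / 3 : ℝ) * V' ^ (2 / 3 : ℝ) := by
        rw [← Real.rpow_add hV1']; norm_num
      have e3 : 0 < V' ^ (1 / 3 : ℝ) := by positivity
      calc H ^ (1 / 3 : ℝ) * (V ^ (1 / 3 : ℝ) / V' ^ (1 / 3 : ℝ)) * V'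
          = H ^ (1 / 3 : ℝ) * (V ^ (1 / 3 : ℝ) / V' ^ (1 / 3 : ℝ)) *
            (V' ^ (1 / 3 : ℝ) * V' ^ (2 / 3 : ℝ)) := by rw [← e2]
        _ = _ := by field_simp
    have e3 : H ^ (-(1 / 3) : ℝ) * H ^ (1 / 3 : ℝ) = 1 := by
      rw [← Real.rpow_add hH0]; norm_num
    have e4 : 0 ≤ V ^ (1 / 3 : ℝ) * Real.sqrt (c * V) * (F * T1) := by positivity
    calc FH K H V * ((H * (V / V')) ^ (1 / 3 : ℝ) * (V' / K) *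
          (E1 ^ 2 * B ^ 2 * Real.sqrt (c * V)) * T1)
        = FH K H V * (((H * (V / V')) ^ (1 / 3 : ℝ) * V') *
          (E1 ^ 2 * B ^ 2 * Real.sqrt (c * V)) * T1) / K := by ring
      _ = (H ^ (-(1 / 3) : ℝ) * H ^ (1 / 3 : ℝ)) * (V' ^ (2 / 3 : ℝ) * E1 ^ 2 * B ^ 2 / K) *
          (V ^ (1 / 3 : ℝ) * Real.sqrt (c * V) * (F * T1)) := by rw [e1, hF]; ring
      _ = V' ^ (2 / 3 : ℝ) * E1 ^ 2 * B ^ 2 / K *
          (V ^ (1 / 3 : ℝ) * Real.sqrt (c * V) * (F * T1)) := by rw [e3]; ring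
      _ ≤ N ^ (2 / 3 : ℝ) * E1 ^ 2 * B ^ 2 / K *
          (V ^ (1 / 3 : ℝ) * Real.sqrt (c * V) * (F * T1)) := by gcongr
      _ ≤ _ := by gcongr
  have y2 : FH K H V * ((1 + (H * V ^ 2 * V' * E1 ^ 3 * B ^ 2 / K ^ 2) ^ (1 / 3 : ℝ)) * T1 +
      (1 + (H ^ 2 * V ^ 3 / K ^ 2) ^ (1 / 3 : ℝ)) * T2 +
      (H ^ 2 * V ^ 3 / K ^ 2) ^ (1 / 2 : ℝ) * T3') ≤ 5 * (H ^ (-(1 / 3) : ℝ) * τ) := by
    calc FH K H V * ((1 + (H * V ^ 2 * V' * E1 ^ 3 * B ^ 2 / K ^ 2) ^ (1 / 3 : ℝ)) * T1 +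
        (1 + (H ^ 2 * V ^ 3 / K ^ 2) ^ (1 / 3 : ℝ)) * T2 +
        (H ^ 2 * V ^ 3 / K ^ 2) ^ (1 / 2 : ℝ) * T3')
        ≤ FH K H V * ((1 + 1) * T1 + (1 + 1) * T2 + 1 * T3') := by gcongr
      _ = 2 * (H ^ (-(1 / 3) : ℝ) * (F * T1)) + 2 * (H ^ (-(1 / 3) : ℝ) * (F * T2)) +
          H ^ (-(1 / 3) : ℝ) * (F * T3') := by rw [hF]; ring
      _ ≤ 2 * (H ^ (-(1 / 3) : ℝ) * τ) + 2 * (H ^ (-(1 / 3) : ℝ) * τ) +
          H ^ (-(1 / 3) : ℝ) * τ := by gcongr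
      _ = _ := by ring
  calc FH K H V * ((1 + (H * (V / V')) ^ (1 / 3 : ℝ) * (V' / K) *
          (E1 ^ 2 * B ^ 2 * Real.sqrt (c * V)) +
          (H * V ^ 2 * V' * E1 ^ 3 * B ^ 2 / K ^ 2) ^ (1 / 3 : ℝ)) * T1 +
        (1 + (H ^ 2 * V ^ 3 / K ^ 2) ^ (1 / 3 : ℝ)) * T2 +
        (H ^ 2 * V ^ 3 / K ^ 2) ^ (1 / 2 : ℝ) * T3' + RN)
      = FH K H V * ((1 + (H * V ^ 2 * V' * E1 ^ 3 * B ^ 2 / K ^ 2) ^ (1 / 3 : ℝ)) * T1 +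
        (1 + (H ^ 2 * V ^ 3 / K ^ 2) ^ (1 / 3 : ℝ)) * T2 +
        (H ^ 2 * V ^ 3 / K ^ 2) ^ (1 / 2 : ℝ) * T3') +
        FH K H V * ((H * (V / V')) ^ (1 / 3 : ℝ) * (V' / K) *
          (E1 ^ 2 * B ^ 2 * Real.sqrt (c * V)) * T1) + FH K H V * RN := by ring
    _ ≤ 5 * (H ^ (-(1 / 3) : ℝ) * τ) + N ^ (2 / 3 : ℝ) * E1 ^ 2 * B ^ 2 / K * τ₁ +
        FH K H V * RN := by gcongr

/-- **the diagonal error** -/
theorem EF_a {K E0 D c τ : ℝ} {N₁ : ℕ} {α : Eis → ℂ} {Z ε : ℝ} (hK : 0 < K) (hc : 1 ≤ c)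
    (hZ : 1 ≤ Z) (hε : 0 < ε) (hNZ : (N₁ : ℝ) ≤ Z) (hT : TNa K E0 D c N₁ α τ) (hτ : 0 ≤ τ)
    {om : Eis × Eis → ℂ} (hom : ∀ x ∈ JW D (1 / 10) (N₁ : ℝ), ‖om x‖ ≤ 1) :
    K ^ (2 / 3 : ℝ) * ∑ x ∈ JW D (1 / 10) (N₁ : ℝ), EF om (Tal α) E0 x ≤
      (2 + 1 / ε) * Z ^ ε * (Real.exp 1 ^ (1 / 3 : ℝ) * hE (S E0) *
        (Real.exp 1 ^ (1 / 3 : ℝ) * τ)) := by
  have he1 : (1 : ℝ) ≤ Real.exp 1 := Real.one_le_exp zero_le_one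
  have he0 : (0 : ℝ) < Real.exp 1 := Real.exp_pos 1
  have hhE := hE_nonneg (S E0)
  have hcard := card_LI (1 / 10) hZ (Nat.cast_nonneg N₁) hNZ hε
  have e1 : ∑ x ∈ JW D (1 / 10) (N₁ : ℝ), EF om (Tal α) E0 x =
      ∑ k ∈ LI (1 / 10) (N₁ : ℝ), ∑ x ∈ JW D (1 / 10) (N₁ : ℝ),
      hh (Real.log (nm (x.2 * x.1 ^ 2)) - k) * EF om (Tal α) E0 x := by
    rw [sum_comm]
    refine sum_congr rfl fun x hx => ?_
    rw [← sum_mul, sum_hh hx, one_mul]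
  have key : ∀ k ∈ LI (1 / 10) (N₁ : ℝ), K ^ (2 / 3 : ℝ) * ∑ x ∈ JW D (1 / 10) (N₁ : ℝ),
      hh (Real.log (nm (x.2 * x.1 ^ 2)) - k) * EF om (Tal α) E0 x ≤
      Real.exp 1 ^ (1 / 3 : ℝ) * hE (S E0) * (Real.exp 1 ^ (1 / 3 : ℝ) * τ) := by
    intro k hk
    obtain ⟨h1, h2, h3⟩ := mem_LI hk
    have k1 := EF_level (α := α) (E0 := E0) hom k
    have k2 := hT (Real.exp 1 * Real.exp k) (by positivity)
      (mul_le_mul_of_nonneg_left h3 he0.le) (fun _ => 1) {1}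
      (JV (Real.exp 1) (Real.exp k)) id
      (fun γ hγ => by
        rw [mem_singleton] at hγ
        subst hγ
        refine ⟨isPrim_one, zero_le_one, ?_⟩
        simp)
      (fun d hd γ hγ j hj => by
        rw [mem_singleton] at hγ
        subst hγ
        obtain ⟨x, hx, rfl⟩ := mem_image.mp hd
        have hd0 : x.1 ≠ 0 := ((okJ_JW D (1 / 10) (N₁ : ℝ)).prim x hx).ne_zero
        have h10 : (1 : Eis) ≠ 0 := isPrim_one.ne_zero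
        rw [mem_JV hd0 h10] at hj ⊢
        refine ⟨hj.1, hj.2.trans ?_⟩
        exact le_mul_of_one_le_left (by positivity) hc)
    have hK23 : 0 ≤ K ^ (2 / 3 : ℝ) := by positivity
    have e3 : (Real.exp k) ^ (-(1 / 3) : ℝ) =
        Real.exp 1 ^ (1 / 3 : ℝ) * (Real.exp 1 * Real.exp k) ^ (-(1 / 3) : ℝ) := by
      rw [Real.mul_rpow he0.le (Real.exp_pos _).le, ← mul_assoc, ← Real.rpow_add he0]
      norm_num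
    calc K ^ (2 / 3 : ℝ) * ∑ x ∈ JW D (1 / 10) (N₁ : ℝ),
        hh (Real.log (nm (x.2 * x.1 ^ 2)) - k) * EF om (Tal α) E0 x ≤
        K ^ (2 / 3 : ℝ) * (Real.exp 1 ^ (1 / 3 : ℝ) * hE (S E0) * ((Real.exp k) ^ (-(1 / 3) : ℝ) *
        TN (fun d _ m => α (d * m)) (fun e => nm e) ((JW D (1 / 10) (N₁ : ℝ)).image Prod.fst)
          (S E0) (fun _ => 1) {1} (JV (Real.exp 1) (Real.exp k)) id)) :=
          mul_le_mul_of_nonneg_left k1 hK23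
      _ = Real.exp 1 ^ (1 / 3 : ℝ) * hE (S E0) * (Real.exp 1 ^ (1 / 3 : ℝ) *
        (K ^ (2 / 3 : ℝ) * (Real.exp 1 * Real.exp k) ^ (-(1 / 3) : ℝ) *
        TN (fun d _ m => α (d * m)) (fun e => nm e) ((JW D (1 / 10) (N₁ : ℝ)).image Prod.fst)
          (S E0) (fun _ => 1) {1} (JV (Real.exp 1) (Real.exp k)) id)) := by rw [e3]; ring
      _ ≤ _ := by
        refine mul_le_mul_of_nonneg_left (mul_le_mul_of_nonneg_left k2 (by positivity)) ?_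
        positivity
  rw [e1, mul_sum]
  refine (sum_le_sum key).trans ?_
  rw [sum_const, nsmul_eq_mul]
  exact mul_le_mul_of_nonneg_right hcard (by positivity)

/-- **the algebra of the core** -/
theorem core_num4 {SF SD M EFs C₁ Ch Cp H P K3 K2 R l q h T τ e3 : ℝ}
    (hC₁ : 0 ≤ C₁) (hCh : 0 ≤ Ch) (hCp : 0 ≤ Cp) (hH : 0 ≤ H) (hP : 1 ≤ P) (hR : 0 ≤ R)
    (hl0 : 0 ≤ l) (hl : l ≤ q * P) (hq : 0 ≤ q) (hh0 : 0 ≤ h) (hh : h ≤ Ch * P)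
    (hEFs : 0 ≤ EFs) (hK3 : 0 ≤ K3) (hT : 0 ≤ T) (hτ : 0 ≤ τ) (he : 0 ≤ e3)
    (h1 : SF ≤ SD + (C₁ * M + C₁ * P * K3 * EFs))
    (h2 : M ≤ 2 * Cp * h * l * (l * (5 * (H * τ) + T) + R))
    (h3 : K3 ≤ K2 * H) (h4 : K2 * EFs ≤ q * P * (e3 * h * (e3 * τ))) :
    SF ≤ SD + (C₁ * (10 * Ch * (q + 1) ^ 2 + q * e3 ^ 2 * Ch)) * (1 + Cp) * P ^ 4 *
      (H * τ + T + R) := by
  have hP0 : 0 ≤ P := by linarith
  have g1 : M ≤ 2 * Cp * (Ch * P) * (q * P) * ((q * P) * (5 * (H * τ) + T) + R) := by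
    refine h2.trans ?_
    gcongr
  have g2 : C₁ * P * K3 * EFs ≤ C₁ * P * (q * P * (e3 * (Ch * P) * (e3 * τ))) * H := by
    calc C₁ * P * K3 * EFs ≤ C₁ * P * (K2 * H) * EFs := by gcongr
      _ = C₁ * P * (K2 * EFs) * H := by ring
      _ ≤ C₁ * P * (q * P * (e3 * h * (e3 * τ))) * H := by gcongr
      _ ≤ _ := by gcongr
  obtain ⟨U, hU⟩ : ∃ U, U = H * τ := ⟨_, rfl⟩
  have hU0 : 0 ≤ U := by rw [hU]; positivity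
  have P2 : P ^ 2 ≤ P ^ 4 := pow_le_pow_right₀ hP (by norm_num)
  have P3 : P ^ 3 ≤ P ^ 4 := pow_le_pow_right₀ hP (by norm_num)
  have g3 : C₁ * M ≤ C₁ * (10 * Ch * (q + 1) ^ 2) * Cp * P ^ 4 * (U + T + R) := by
    refine (mul_le_mul_of_nonneg_left g1 hC₁).trans ?_
    rw [← hU]
    have k1 : 2 * Cp * (Ch * P) * (q * P) * ((q * P) * (5 * U + T) + R) =
        Cp * Ch * (10 * q ^ 2 * P ^ 3 * U + 2 * q ^ 2 * P ^ 3 * T + 2 * q * P ^ 2 * R) := by ring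
    have k2 : 10 * q ^ 2 * P ^ 3 * U + 2 * q ^ 2 * P ^ 3 * T + 2 * q * P ^ 2 * R ≤
        10 * (q + 1) ^ 2 * P ^ 4 * U + 10 * (q + 1) ^ 2 * P ^ 4 * T +
          10 * (q + 1) ^ 2 * P ^ 4 * R := by
      have a1 : 10 * q ^ 2 ≤ 10 * (q + 1) ^ 2 := by nlinarith
      have a2 : 2 * q ^ 2 ≤ 10 * (q + 1) ^ 2 := by nlinarith
      have a3 : 2 * q ≤ 10 * (q + 1) ^ 2 := by nlinarith
      gcongr
    rw [k1]
    calc C₁ * (Cp * Ch * (10 * q ^ 2 * P ^ 3 * U + 2 * q ^ 2 * P ^ 3 * T + 2 * q * P ^ 2 * R))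
        ≤ C₁ * (Cp * Ch * (10 * (q + 1) ^ 2 * P ^ 4 * U + 10 * (q + 1) ^ 2 * P ^ 4 * T +
          10 * (q + 1) ^ 2 * P ^ 4 * R)) := by gcongr
      _ = _ := by ring
  have g4 : C₁ * P * (q * P * (e3 * (Ch * P) * (e3 * τ))) * H ≤
      C₁ * (q * e3 ^ 2 * Ch) * P ^ 4 * U := by
    have : C₁ * P * (q * P * (e3 * (Ch * P) * (e3 * τ))) * H =
        C₁ * (q * e3 ^ 2 * Ch) * P ^ 3 * U := by rw [hU]; ring
    rw [this]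
    gcongr
  rw [← hU]
  have hA : 0 ≤ C₁ * (10 * Ch * (q + 1) ^ 2) * P ^ 4 * (U + T + R) := by positivity
  have hB1 : 0 ≤ C₁ * (q * e3 ^ 2 * Ch) * P ^ 4 * (T + R) := by positivity
  have hB2 : 0 ≤ C₁ * (q * e3 ^ 2 * Ch) * P ^ 4 * Cp * (U + T + R) := by positivity
  have e : (C₁ * (10 * Ch * (q + 1) ^ 2 + q * e3 ^ 2 * Ch)) * (1 + Cp) * P ^ 4 * (U + T + R) =
      C₁ * (10 * Ch * (q + 1) ^ 2) * Cp * P ^ 4 * (U + T + R) +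
      C₁ * (q * e3 ^ 2 * Ch) * P ^ 4 * U +
      (C₁ * (10 * Ch * (q + 1) ^ 2) * P ^ 4 * (U + T + R) +
        C₁ * (q * e3 ^ 2 * Ch) * P ^ 4 * (T + R) +
        C₁ * (q * e3 ^ 2 * Ch) * P ^ 4 * Cp * (U + T + R)) := by ring
  rw [e]
  linarith

set_option maxHeartbeats 1000000 in
/-- **the core of (Ro)**, cuts free, the `T`-numbers as hypotheses -/
theorem ro_core4 {w : ℝ → ℝ} (hw : Wgt w) {W b₀ : ℝ} (hW : W0 w W b₀)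
    {A Bw : ℕ} (hA : 1 < A) (hB : 1 < Bw) {ε : ℝ} (hε : 0 < ε) :
    ∃ C : ℝ, 0 ≤ C ∧ ∀ (c H Cp K Y X R Z E0 E1 B D τ τ₁ : ℝ) (N₀ N₁ : ℕ), 1 ≤ c → 1 ≤ H → 0 ≤ Cp →
    0 < K → 0 ≤ Y → 1 ≤ E0 → E0 ≤ Z → 1 ≤ N₁ → (N₁ : ℝ) ≤ Z → 1 ≤ E1 → 1 ≤ B → 0 ≤ τ → 0 ≤ τ₁ →
    H ^ (1 / 3 : ℝ) * N₁ * E1 ^ 2 * B ^ 2 ≤ K →
    H * (Real.exp 1 * N₁) ^ 3 * E1 ^ 3 * B ^ 2 ≤ K ^ 2 → H ^ 2 * (Real.exp 1 * N₁) ^ 3 ≤ K ^ 2 →
    ∀ α : Eis → ℂ, Adm Y X R α → TNa K E0 D c N₁ α τ → TNf K E0 D c N₁ α τ₁ →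
    ∀ (b e : Eis) (RN : ℕ → ℝ), (∀ i, 0 ≤ RN i) →
    PairB Cp c H A Bw K B E1 E0 b₀ Z N₁ (JW D (1 / 10) N₁) (omr (Om N₀ N₁))
      (afR b e α E0) RN →
    Sg w K B N₁ E1 (fun q t k₁ => ‖∑ y ∈ Ys (JW D (1 / 10) N₁) E0 N₁,
        Fy (JW D (1 / 10) N₁) (omq N₀ N₁ b e) (Tal α) q t k₁ y‖ ^ 2) ≤
      Sg w K B N₁ E1 (fun q t k₁ =>
        E3M829.Dg (JW D (1 / 10) N₁) (omq N₀ N₁ b e) (Tal α) E0 N₁ q t k₁) +
      C * (1 + Cp) * (Z ^ ε) ^ 4 * (H ^ (-(1 / 3) : ℝ) * τ +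
        (Real.exp 1 * N₁) ^ (2 / 3 : ℝ) * E1 ^ 2 * B ^ 2 / K * τ₁ +
        ∑ i ∈ LI (1 / 10) N₁, FH K H (Real.exp i) * RN i) := by
  obtain ⟨C₁, hC₁, H₁⟩ := Z1x hw (Rw := 2) (A := A) (Bw := Bw) le_rfl hA hB hε
  refine ⟨C₁ * (10 * (200 * (1 + 1 / ε)) * ((2 + 1 / ε) + 1) ^ 2 +
    (2 + 1 / ε) * (Real.exp 1 ^ (1 / 3 : ℝ)) ^ 2 * (200 * (1 + 1 / ε))), by positivity, ?_⟩
  intro c H Cp K Y X R Z E0 E1 B D τ τ₁ N₀ N₁ hc hH hCp hK hY hE0 hE0Z hN1 hN1Z hE14 hB1 hτ hτ₁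
    q0 q2 q3 α hα hTa hTf b e RN hRN hPB
  have hN : (1 : ℝ) ≤ N₁ := by exact_mod_cast hN1
  have he1 : (1 : ℝ) ≤ Real.exp 1 := Real.one_le_exp zero_le_one
  have hH0 : 0 < H := by linarith
  have hc0 : 0 < c := by linarith
  have hE00 : 0 < E0 := by linarith
  have hN' : (1 : ℝ) ≤ Real.exp 1 * N₁ := one_le_mul_of_one_le_of_one_le he1 hN
  have hZ : 1 ≤ Z := by linarith
  -- the sequence
  have hS : ∀ n, α n ≠ 0 → IsPrim n ∧ Squarefree n := by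
    intro n hn
    exact ((mem_S hY).1 (hα.sup n hn)).2
  have hT : TC (T3 (afR b e α E0)) := TC_afR fun n hn => (hS n hn).2
  have hom : ∀ x ∈ JW D (1 / 10) (N₁ : ℝ), ∀ e' ∈ S E0, omq N₀ N₁ b e x * Tal α x.1 e' x.2 =
      omr (Om N₀ N₁) x * T3 (afR b e α E0) x.1 e' x.2 := by
    intro x hx e' he'
    exact om_T3_afR (fun n hn => (hS n hn).1) ((okJ_JW D (1 / 10) (N₁ : ℝ)).prim x hx) he'
  have h1 := H₁ W b₀ hW D (1 / 10) N₁ (omr (Om N₀ N₁)) (omq N₀ N₁ b e) (Tal α)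
    (T3 (afR b e α E0)) K N₁ Z B E0 E1 hT hom hK hZ (by linarith) hN1Z hB1
    (by linarith) (fun x hx => (JW_nm hx).1.trans hN1Z) (fun x hx => (JW_nm hx).2)
  obtain ⟨P, hP⟩ : ∃ P, P = Z ^ ε := ⟨_, rfl⟩
  have hP1 : 1 ≤ P := by rw [hP]; exact Real.one_le_rpow hZ hε.le
  have hp : ∀ n, α n ≠ 0 → IsPrim n := fun n hn => (hS n hn).1
  have hDs : ∀ d ∈ (JW D (1 / 10) (N₁ : ℝ)).image Prod.fst, IsPrim d := fun d hd => by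
    obtain ⟨x, hx, rfl⟩ := mem_image.1 hd
    exact (okJ_JW D (1 / 10) (N₁ : ℝ)).prim x hx
  have haf : ∀ {om : Eis → ℝ} {Gs : Finset Eis} (hom : ∀ γ ∈ Gs, 0 ≤ om γ)
      (As : Eis → Eis → Finset Eis) (dl : Eis → Eis),
      TN (afR b e α E0) (fun e => (nm e : ℝ)) ((JW D (1 / 10) (N₁ : ℝ)).image Prod.fst) (S E0)
        om Gs As dl ≤ TN (fun d _ m => α (d * m)) (fun e => (nm e : ℝ))
        ((JW D (1 / 10) (N₁ : ℝ)).image Prod.fst) (S E0) om Gs As dl := by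
    intro om Gs hom As dl
    rw [afR_afP]
    exact TN_afP_le hp (fun e => Nat.cast_nonneg _) hDs (fun e he => he) hom As dl
  have hh0 := hE_nonneg (S E0)
  have hLV : ∀ i ∈ LI (1 / 10) (N₁ : ℝ), ∀ j ∈ LI (1 / 10) (N₁ : ℝ),
      LVn (afR b e α E0) ((JW D (1 / 10) N₁).image Prod.fst) (S E0) c (Z ^ 5) K H (Real.exp i)
        (Real.exp j) E1 B (Real.sqrt (c * Real.exp i)) (RN i) ≤
      (5 * (H ^ (-(1 / 3) : ℝ) * τ) +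
        (Real.exp 1 * N₁) ^ (2 / 3 : ℝ) * E1 ^ 2 * B ^ 2 / K * τ₁) +
        FH K H (Real.exp i) * RN i := by
    intro i hi j hj
    obtain ⟨-, -, i3⟩ := mem_LI hi
    obtain ⟨-, -, j3⟩ := mem_LI hj
    have i4 : Real.exp i ≤ Real.exp 1 * (Real.exp 1 * N₁) :=
      i3.trans (le_mul_of_one_le_left (by positivity) he1)
    have hK0 : 0 ≤ K ^ (2 / 3 : ℝ) * Real.exp i ^ (-(1 / 3) : ℝ) := by positivity
    have hKf : 0 ≤ Real.exp i ^ (1 / 3 : ℝ) * Real.sqrt (c * Real.exp i) := by positivity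
    have hg1 : ∀ γ ∈ ({1} : Finset Eis), IsPrim γ ∧ (0 : ℝ) ≤ (fun _ : Eis => (1 : ℝ)) γ ∧
        (fun _ : Eis => (1 : ℝ)) γ ≤ (nm γ : ℝ) ^ (-(1 / 2) : ℝ) := by
      intro γ hγ
      rw [mem_singleton] at hγ
      subst hγ
      refine ⟨isPrim_one, zero_le_one, ?_⟩
      rw [nm_one, Nat.cast_one, Real.one_rpow]
    have hg2 : ∀ γ ∈ primBall ⌊Z ^ 5⌋₊, IsPrim γ ∧ (0 : ℝ) ≤ (nm γ : ℝ)⁻¹ ∧
        (nm γ : ℝ)⁻¹ ≤ (nm γ : ℝ) ^ (-(1 / 2) : ℝ) := by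
      intro γ hγ
      have hγp := (mem_primBall.1 hγ).2
      have h1 : (1 : ℝ) ≤ nm γ := by exact_mod_cast nm_pos.2 hγp.ne_zero
      refine ⟨hγp, by positivity, ?_⟩
      rw [← Real.rpow_neg_one]
      exact Real.rpow_le_rpow_of_exponent_le h1 (by norm_num)
    have hg3 : ∀ γ ∈ primBall ⌊Z ^ 5⌋₊, IsPrim γ ∧ (0 : ℝ) ≤ (nm γ : ℝ) ^ (-(1 / 2) : ℝ) ∧
        (nm γ : ℝ) ^ (-(1 / 2) : ℝ) ≤ (nm γ : ℝ) ^ (-(1 / 2) : ℝ) := by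
      intro γ hγ
      exact ⟨(mem_primBall.1 hγ).2, by positivity, le_rfl⟩
    have t1 := hTa (Real.exp i) (Real.exp_pos _) i4 (fun _ => 1) {1} (JVc c (Real.exp i)) id hg1
      (fun d _ γ _ => filter_subset _ _)
    have t2 := hTa (Real.exp i) (Real.exp_pos _) i4 (fun γ => (nm γ : ℝ)⁻¹) (primBall ⌊Z ^ 5⌋₊)
      (JV c (Real.exp i)) (fun _ => 1) hg2 (fun _ _ _ _ => Subset.rfl)
    have t3 := hTa (Real.exp i) (Real.exp_pos _) i4 (fun γ => (nm γ : ℝ) ^ (-(1 / 2) : ℝ))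
      (primBall ⌊Z ^ 5⌋₊) (JV c (Real.exp i)) (fun _ => 1) hg3 (fun _ _ _ _ => Subset.rfl)
    have t0 := hTf (Real.exp i) (Real.exp_pos _) i3
    refine LVn_le4 (N := Real.exp 1 * N₁) hc hH hK (Real.exp_pos _) i3 (Real.exp_pos _) j3 hN'
      hE14 hB1 q2 q3 ?_ ?_ ?_ ?_
    · exact (mul_le_mul_of_nonneg_left (mul_le_mul_of_nonneg_left
        (haf (fun γ hγ => (hg1 γ hγ).2.1) _ _) hK0) hKf).trans t0
    · exact (mul_le_mul_of_nonneg_left (haf (fun γ hγ => (hg1 γ hγ).2.1) _ _) hK0).trans t1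
    · exact (mul_le_mul_of_nonneg_left (haf (fun γ hγ => (hg2 γ hγ).2.1) _ _) hK0).trans t2
    · exact (mul_le_mul_of_nonneg_left (haf (fun γ hγ => (hg3 γ hγ).2.1) _ _) hK0).trans t3
  have h2 := pairs_le (L := LI (1 / 10) (N₁ : ℝ))
    (M := fun i j => ∑ q ∈ S (N₁ : ℝ), ∑ t ∈ pb E1, MPTr (fun _ _ => True) A Bw K
      B (Real.exp i) (Real.exp j) (Z ^ 5) (JW D (1 / 10) N₁) (omk (omr (Om N₀ N₁)) i)
      (omk (omr (Om N₀ N₁)) j) (T3 (afR b e α E0)) E0 N₁ b₀ q t) (x := fun _ => 0)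
    (R := fun i => FH K H (Real.exp i) * RN i) (h := hE (S E0))
    (T := 5 * (H ^ (-(1 / 3) : ℝ) * τ) +
        (Real.exp 1 * N₁) ^ (2 / 3 : ℝ) * E1 ^ 2 * B ^ 2 / K * τ₁) hCp hh0
    (fun i hi j hj => (hPB i hi j hj).trans
      (mul_le_mul_of_nonneg_left (mul_le_mul_of_nonneg_left
        (add_le_add (hLV i hi j hj) (hLV j hj i hi)) hh0) hCp))
  -- the error term
  have h3 : K ^ (-(1 : ℝ) / 3) * E1 ^ 2 * B ^ 2 * N₁ ≤ K ^ (2 / 3 : ℝ) * H ^ (-(1 / 3) : ℝ) := by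
    have e2 : K ^ (2 / 3 : ℝ) = K ^ (-(1 : ℝ) / 3) * K := by
      rw [← Real.rpow_add_one hK.ne']; norm_num
    have e3 : H ^ (1 / 3 : ℝ) * H ^ (-(1 / 3) : ℝ) = 1 := by
      rw [← Real.rpow_add hH0]; norm_num
    have hK3 : 0 ≤ K ^ (-(1 : ℝ) / 3) := by positivity
    calc K ^ (-(1 : ℝ) / 3) * E1 ^ 2 * B ^ 2 * N₁
        = K ^ (-(1 : ℝ) / 3) * (E1 ^ 2 * B ^ 2 * N₁) *
          (H ^ (1 / 3 : ℝ) * H ^ (-(1 / 3) : ℝ)) := by rw [e3]; ring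
      _ = K ^ (-(1 : ℝ) / 3) * (H ^ (1 / 3 : ℝ) * N₁ * E1 ^ 2 * B ^ 2) *
          H ^ (-(1 / 3) : ℝ) := by ring
      _ ≤ K ^ (-(1 : ℝ) / 3) * K * H ^ (-(1 / 3) : ℝ) := by gcongr
      _ = _ := by rw [e2]
  have h4 := EF_a hK hc hZ hε hN1Z hTa hτ
    (om := omq N₀ N₁ b e) (fun x _ => norm_omq _ _ _ _ _)
  have hl : ((LI (1 / 10) (N₁ : ℝ)).card : ℝ) ≤ (2 + 1 / ε) * P := by
    rw [hP]; exact card_LI (1 / 10) hZ (by linarith) hN1Z hε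
  have hFH : ∀ i, 0 ≤ FH K H (Real.exp i) := fun i => by unfold E3Z548.FH; positivity
  have hhE := hE_Z' hε hE0 hE0Z
  rw [← hP] at h1 h4 hhE
  have key := core_num4 (SF := _) (SD := _) (by linarith : (0 : ℝ) ≤ C₁)
    (by positivity : (0 : ℝ) ≤ 200 * (1 + 1 / ε)) hCp (by positivity : 0 ≤ H ^ (-(1 / 3) : ℝ))
    hP1
    (sum_nonneg fun i _ => mul_nonneg (hFH i) (hRN i) :
      0 ≤ ∑ i ∈ LI (1 / 10) (N₁ : ℝ), FH K H (Real.exp i) * RN i)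
    (Nat.cast_nonneg _) hl (by positivity) hh0 hhE
    (sum_nonneg fun x _ => EF_nonneg _ _ _ _ :
      0 ≤ ∑ x ∈ JW D (1 / 10) (N₁ : ℝ), EF (omq N₀ N₁ b e) (Tal α) E0 x)
    (by positivity)
    (by positivity : 0 ≤ (Real.exp 1 * N₁) ^ (2 / 3 : ℝ) * E1 ^ 2 * B ^ 2 / K * τ₁) hτ
    (by positivity : 0 ≤ Real.exp 1 ^ (1 / 3 : ℝ)) h1 h2 h3 h4
  rw [← hP]
  exact key

end Crest.Agent.R017.RoX116
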