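import Crest.Agent.R017.NOf_64
import Crest.Agent.R017.NOxd_116

/-!
# Row 17, the near leaf, (Ro) (helper64): the levels

* `TTe_ge` : the target of (RH); `lev_no` : the `R`-number of a level at the leaf
-/

set_option autoImplicit false
set_option linter.unusedVariables false
set_option maxHeartbeats 400000

noncomputable section

open Finset MeasureTheory
open scoped Classical

namespace Crest.Agent.R017.NO64

open Crest.Agent.R012 Crest.Agent.R012.Eis Crest.Agent.R012.MC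
open Crest.Agent.R012.LS2 (S mem_S bl mem_bl)
open Crest.Agent.R017.C70 (JW okJ_JW)
open Crest.Agent.R017.E3Z548 (FH)
open Crest.Agent.R017.E3T829 (G2 G2_nonneg RR)
open Crest.Agent.R017.R3571 (W2 RMm RMm_nonneg slp_two)
open Crest.Agent.R017.E3Kc548 (afT LI mem_LI card_LI)
open Crest.Agent.R017.RoP579 (RNp)
open Crest.Agent.R017.NOt126 (F3n)

lemma mm_mul {K L v n hv : ℝ} (hL : 0 < L) : L * mm K (v / L) (n / L) hv =
    max 0 (max ((L * hv + 2 * v - K * L) / 3)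
      ((L * hv + 2 * v - K * L) - (v + n + L * hv - K * L) / 2)) := by
  unfold mm
  rw [mul_max_of_nonneg _ _ hL.le, mul_max_of_nonneg _ _ hL.le, mul_zero]
  congr 1
  congr 1
  · field_simp
  · field_simp

/-- `F3` -/
lemma F3_le {K L c n v D : ℝ} {N₁ : ℕ} (hF : NoF K L c n v D N₁) (h0 : 0 ≤ K * L)
    (hc : 0 ≤ c * L) : 0 ≤ F3n (K * L) n ∧ F3n (K * L) n ≤ K * L / 45 + c * L := by
  refine ⟨le_max_left _ _, max_le (by linarith) ?_⟩
  have := hF.n1
  linarith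

/-- the target of (RH) -/
lemma TTe_ge {K μ c c' ε L v n hv D' D : ℝ} {N₁ : ℕ} (hL : 0 < L) (hF : NoF K L c n v D N₁)
    (hc : 0 < c) (hcc : 30 * c ≤ c') (hcμ : 2000 * c ≤ μ) (hμ : 100 * μ ≤ K)
    (hc' : 1000 * c' ≤ K) (hhv : L * hv = 3 * F3n (K * L) n + 3 * (c' * L)) (hε : 0 ≤ ε)
    (hD' : D' ≤ K * L / 15) : n ≤ TTe K μ c ε L v n hv - 2 / 3 * D' := by
  have a1 : 0 < c * L := mul_pos hc hL
  have a2 : 30 * (c * L) ≤ c' * L := by
    have := mul_le_mul_of_nonneg_right hcc hL.le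
    linarith
  have a3 : 2000 * (c * L) ≤ μ * L := by
    have := mul_le_mul_of_nonneg_right hcμ hL.le
    linarith
  have a4 : 100 * (μ * L) ≤ K * L := by
    have := mul_le_mul_of_nonneg_right hμ hL.le
    linarith
  have a5 : 1000 * (c' * L) ≤ K * L := by
    have := mul_le_mul_of_nonneg_right hc' hL.le
    linarith
  have a6 : 0 ≤ ε * L := mul_nonneg hε hL.le
  obtain ⟨b1, b2⟩ := F3_le hF (by linarith) a1.le
  obtain ⟨f1, f2, f3, f4, f5, -, -, -, -, -, -⟩ := hF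
  unfold TTe sg
  rw [mm_mul hL, hhv]
  obtain ⟨F, hFd⟩ : ∃ F, F = F3n (K * L) n := ⟨_, rfl⟩
  rw [← hFd] at b1 b2 ⊢
  have key : max 0 (max ((3 * F + 3 * (c' * L) + 2 * v - K * L) / 3)
      ((3 * F + 3 * (c' * L) + 2 * v - K * L) - (v + n + (3 * F + 3 * (c' * L)) - K * L) / 2)) ≤
      n / 3 + (v + K * L) / 3 + (3 * F + 3 * (c' * L)) / 3 -
        (μ * L + 16 / 27 * F + 4 * (c * L)) - 2 / 3 * D' := by
    refine max_le ?_ (max_le ?_ ?_)
    · linarith
    · linarith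
    · linarith
  linarith

/-- the sum of the weights at the leaf -/
lemma SEe_no {K L c n v D E0 R : ℝ} {Y₀ Y₁ : ℝ} {N₁ : ℕ} (hL : 0 < L) (hK : 0 ≤ K) (hc : 0 < c)
    (hcK : 100 * c ≤ K)
    (hR : 0 ≤ R) (hF : NoF K L c n v D N₁) (hE0 : 1 ≤ E0)
    (hLc : 8 * K / c ^ 2 ≤ L)
    (hE : Real.log E0 ≤ 4 / 9 * F3n (K * L) n + 10 * (c * L)) :
    SEe ((JW D Y₀ Y₁).image Prod.fst) (S E0) ≤
      Real.exp (16 / 27 * F3n (K * L) n + 15 * (c * L) + (R + 15)) := by
  have a1 : 0 < c * L := mul_pos hc hL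
  have a2 : 0 ≤ K * L := mul_nonneg hK hL.le
  refine (SEe_le hF.D0 hE0).trans ?_
  have h1 : Real.log D ≤ K * L := by
    have g1 := hF.D1
    have g2 := hF.n1
    have g3 := hF.nv
    have g4 := hF.v0
    have g5 := hF.nt
    have g6 := hF.n0
    have g7 : 100 * (c * L) ≤ K * L := by
      have := mul_le_mul_of_nonneg_right hcK hL.le
      linarith
    linarith
  have h2 : 1 + K * L ≤ Real.exp (c * L / 2) := by
    have h3 := Real.quadratic_le_exp_of_nonneg (x := c * L / 2) (by positivity)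
    have h4 : K * L ≤ (c * L / 2) ^ 2 / 2 := by
      rw [div_le_iff₀ (by positivity)] at hLc
      have h5 : 8 * K * L ≤ L * c ^ 2 * L := mul_le_mul_of_nonneg_right hLc hL.le
      nlinarith
    linarith
  have h3 : 1 + Real.log D ≤ Real.exp (c * L / 2) := by linarith
  have h4 : E0 ^ (4 / 3 : ℝ) ≤ Real.exp (16 / 27 * F3n (K * L) n + 14 * (c * L)) := by
    rw [Real.rpow_def_of_pos (by linarith)]
    refine Real.exp_le_exp.2 ?_
    linarith
  have h5 : (10000 : ℝ) ≤ Real.exp (R + 15) := by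
    have h2 : (2 : ℝ) ≤ Real.exp 1 := by
      have := Real.add_one_le_exp (1 : ℝ)
      linarith
    have h3 : (2 : ℝ) ^ 15 ≤ Real.exp 1 ^ 15 := pow_le_pow_left₀ (by norm_num) h2 15
    have h4 : Real.exp 1 ^ 15 ≤ Real.exp (R + 15) := by
      rw [← Real.exp_nat_mul]
      refine Real.exp_le_exp.2 ?_
      push_cast; linarith
    linarith
  have h6 : 0 ≤ 1 + Real.log D := by
    have := Real.log_nonneg hF.D0
    linarith
  have h7 : 0 ≤ E0 ^ (4 / 3 : ℝ) := by positivity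
  calc 10000 * (1 + Real.log D) * E0 ^ (4 / 3 : ℝ) ≤
        Real.exp (R + 15) * Real.exp (c * L / 2) *
          Real.exp (16 / 27 * F3n (K * L) n + 14 * (c * L)) := by gcongr
    _ = Real.exp (R + 15 + c * L / 2 + (16 / 27 * F3n (K * L) n + 14 * (c * L))) := by
        rw [← Real.exp_add, ← Real.exp_add]
    _ ≤ _ := Real.exp_le_exp.2 (by linarith)

/-- **the `R`-number of a level at the leaf** -/
lemma lev_no {K c c' μ c₁ ε R L X X' Lv n k₁ E0 H hv D : ℝ} {N₁ a i : ℕ}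
    (hL : 0 < L) (hLX : L = Real.log X) (hX0 : 0 < X) (hK : 0 ≤ K)
    (hc : 0 < c) (hcc : 30 * c ≤ c') (hcμ : 2000 * c ≤ μ) (hμ : 100 * μ ≤ K)
    (hc' : 1000 * c' ≤ K) (hc₁ : 1 ≤ c₁) (hR : 0 ≤ R) (hε0 : 0 ≤ ε) (hε : ε ≤ c)
    (hF : NoF K L c n Lv D N₁) (hH : 0 < H) (hlH : Real.log H = L * hv)
    (hhv : L * hv = 3 * F3n (K * L) n + 3 * (c' * L)) (hX' : 0 < X')
    (hXn : |Real.log X' - n| ≤ R + 1) (hk₁ : 0 ≤ k₁) (hE0 : 1 ≤ E0)
    (hLc : 8 * K / c ^ 2 ≤ L) (hE : Real.log E0 ≤ 4 / 9 * F3n (K * L) n + 10 * (c * L))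
    (hi : i ∈ LI (1 / 10) N₁) :
    FH (X ^ K) H (Real.exp i) * RNp c₁ (X ^ K) H X' (Real.exp i)
      (fun d e => W2 a (c₁ * (X' * (Real.exp 1 * N₁) * H / X ^ K))
        ((k₁ * Real.exp (TTe K μ c ε L Lv n hv - n)) * ((nm d : ℝ) * nm e) ^ (-(2 / 3) : ℝ) *
          (Real.exp n / nm d) ^ (2 / 3 : ℝ)))
      ((JW D (1 / 10) N₁).image Prod.fst) (S E0) ≤
    (1 + c₁ + 1 ^ (-(2 / 3) : ℝ) + 1 ^ (-(1 / 3) : ℝ)) * Real.exp (11 * (R + 15)) *
      Real.exp (-(5 * (c * L))) * ((X ^ K / Real.exp n) * (k₁ * Real.exp (2 * n))) := by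
  have hKX : X ^ K = Real.exp (K * L) := by
    rw [Real.rpow_def_of_pos hX0, hLX, mul_comm]
  have hK0 : 0 < X ^ K := by positivity
  have hN1 := hF.N1
  have hN₁0 : (0 : ℝ) < N₁ := by exact_mod_cast hN1
  have hJ := okJ_JW D (1 / 10) N₁
  have hDs : ∀ d ∈ (JW D (1 / 10) N₁).image Prod.fst, (1 : ℝ) ≤ nm d := by
    intro d hd
    obtain ⟨x, hx, rfl⟩ := mem_image.1 hd
    exact_mod_cast nm_pos.2 (hJ.prim x hx).ne_zero
  have h1 := lev_e (a := a) (i := i) (E0 := E0) (K1 := k₁ * Real.exp (TTe K μ c ε L Lv n hv - n))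
    (E := Real.exp n) hK0 hH hX' hN1 (by linarith : 0 < c₁) (by positivity)
    (Real.exp_pos _).le hDs (by linarith) hi
  refine h1.trans ?_
  have hSE := SEe_no (Y₀ := 1 / 10) (Y₁ := N₁) (R := R) hL hK hc (by linarith) hR hF hE0 hLc hE
  have hSE0 := SEe_nonneg ((JW D (1 / 10) N₁).image Prod.fst) (S E0)
  have hV : (0 : ℝ) < Real.exp 1 * N₁ := by positivity
  have a1 : 0 < c * L := mul_pos hc hL
  have a3 : 2000 * (c * L) ≤ μ * L := by
    have := mul_le_mul_of_nonneg_right hcμ hL.le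
    linarith
  have a4 : 100 * (μ * L) ≤ K * L := by
    have := mul_le_mul_of_nonneg_right hμ hL.le
    linarith
  have a6 : ε * L ≤ c * L := mul_le_mul_of_nonneg_right hε hL.le
  have a7 : 0 ≤ ε * L := mul_nonneg hε0 hL.le
  have a8 : 0 ≤ c' * L := by
    have := mul_le_mul_of_nonneg_right hcc hL.le
    linarith
  have hmm := mm_mul (K := K) (v := Lv) (n := n) (hv := hv) hL
  have hlV : Real.log (Real.exp 1 * N₁) = 1 + Real.log N₁ := by
    rw [Real.log_mul (Real.exp_pos _).ne' hN₁0.ne', Real.log_exp]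
  have b1 : 0 ≤ F3n (K * L) n := le_max_left _ _
  have hnp := np_gen (K' := X ^ K) (H := H) (V := Real.exp 1 * N₁) (X := X') (c := c₁) (β := 1)
    (κ := K * L) (h := L * hv) (n := n) (v := Lv) (T := TTe K μ c ε L Lv n hv)
    (m := L * mm K (Lv / L) (n / L) hv) (C₀ := R + 15) (k₁ := k₁)
    (S₀ := SEe ((JW D (1 / 10) N₁).image Prod.fst) (S E0))
    (σ := 16 / 27 * F3n (K * L) n + 15 * (c * L)) (σ' := sg K μ c ε L n) hKX
    (by rw [← hlH, Real.exp_log hH]) hV hX' (by linarith) one_pos rfl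
    (by rw [hmm]; exact le_max_left _ _)
    (by rw [hmm]; exact (le_max_left _ _).trans (le_max_right _ _))
    (by rw [hmm]; exact (le_max_right _ _).trans (le_max_right _ _))
    (by
      have g1 := hF.n0
      have g2 := hF.nt
      rw [hhv]
      linarith) (by linarith)
    (by rw [hlV]; linarith [hF.Nl]) (by rw [hlV]; linarith [hF.Nu])
    (by
      have := (abs_le.1 hXn).1
      linarith) hk₁ hSE hSE0
  refine hnp.trans ?_
  rw [← hKX]
  have h2 : Real.exp (16 / 27 * F3n (K * L) n + 15 * (c * L) - sg K μ c ε L n) ≤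
      Real.exp (-(5 * (c * L))) := by
    refine Real.exp_le_exp.2 ?_
    unfold sg
    linarith
  have h3 : (0 : ℝ) ≤ 1 + c₁ + 1 ^ (-(2 / 3) : ℝ) + 1 ^ (-(1 / 3) : ℝ) := by
    have : 0 ≤ c₁ := by linarith
    positivity
  gcongr

end Crest.Agent.R017.NO64
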