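import Crest.Agent.R017.NOv_126
import Crest.Agent.R017.NGj_708

/-!
# Row 17, (Ro) at the near leaf: the T-half for the twisted windows (helper126)

* `lipS_ShN`   : the closed form is Lipschitz
* **`tn_win`** : `TNa`, `TNf` at `bt φ α p · pw t` from `JBc` of `α`
* **`os_T`**   : the same with the numerics of the near leaf
-/

set_option autoImplicit false
set_option linter.unusedVariables false

noncomputable section

open Finset MeasureTheory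
open scoped ComplexConjugate Classical

namespace Crest.Agent.R017.NOt126

open Crest.Agent.R012 Crest.Agent.R012.Eis Crest.Agent.R012.MC
open Crest.Agent.R012.LS2 (S mem_S)
open Crest.Agent.R012.Weight600 (osc pw)
open Crest.Agent.R017.CM106 (CS TG FS)
open Crest.Agent.R017.E1551
open Crest.Agent.R017.Win813
open Crest.Agent.R017.RGw813
open Crest.Agent.R017.I1146 (LipS)
open Crest.Agent.R017.TNj90 (JBc)

/-- the closed form is Lipschitz -/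
lemma lipS_ShN (κ g n m cL : ℝ) : LipS 3 (ShN κ g n m cL) := by
  intro η b v b' v'
  have hb := le_abs_self (b - b')
  have hb' := neg_abs_le (b - b')
  have hv := le_abs_self (v - v')
  have hv' := neg_abs_le (v - v')
  have ha := abs_nonneg (b - b')
  have hc := abs_nonneg (v - v')
  have h1 : max 0 ((2 * (m - η - b) - (v + b + κ)) / 3) ≤
      max 0 ((2 * (m - η - b') - (v' + b' + κ)) / 3) + (|b - b'| + |v - v'| / 3) := by
    have e1 := le_max_left 0 ((2 * (m - η - b') - (v' + b' + κ)) / 3)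
    have e2 := le_max_right 0 ((2 * (m - η - b') - (v' + b' + κ)) / 3)
    refine max_le (by linarith) (by linarith)
  have h2 : F3n κ (m - η - b) ≤ F3n κ (m - η - b') + |b - b'| := by
    unfold F3n
    have e1 := le_max_left 0 ((4 * (m - η - b') - 3 * κ) / 9)
    have e2 := le_max_right 0 ((4 * (m - η - b') - 3 * κ) / 9)
    refine max_le (by linarith) (by linarith)
  have h3 : max 0 (n - m + b - g) ≤ max 0 (n - m + b' - g) + |b - b'| := by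
    have e1 := le_max_left 0 (n - m + b' - g)
    have e2 := le_max_right 0 (n - m + b' - g)
    refine max_le (by linarith) (by linarith)
  have h4 : min (max 0 ((2 * (m - η - b) - (v + b + κ)) / 3)) (F3n κ (m - η - b)) ≤
      min (max 0 ((2 * (m - η - b') - (v' + b' + κ)) / 3)) (F3n κ (m - η - b')) +
        (|b - b'| + |v - v'| / 3) := by
    rcases min_cases (max 0 ((2 * (m - η - b') - (v' + b' + κ)) / 3)) (F3n κ (m - η - b'))
      with h | h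
    · rw [h.1]
      exact (min_le_left _ _).trans h1
    · rw [h.1]
      refine (min_le_right _ _).trans (h2.trans ?_)
      linarith
  unfold ShN
  linarith

/-- **the T-half for the twisted windows** -/
theorem tn_win {R : ℝ} (hR : 0 ≤ R) {J Aw : ℕ} (hJA : J + 2 ≤ Aw) {Cw : ℝ} (hCw : 0 ≤ Cw)
    {ε B₂ : ℝ} (hε : 0 < ε) (hB₂ : 0 < B₂) :
    ∃ C : ℝ, 0 ≤ C ∧ ∀ X : ℝ, 3 ≤ X → ∀ (Y W K E0 D c F η : ℝ) (N₁ : ℕ) (g n m cL : ℝ),
      1 ≤ Y → Y ≤ X ^ B₂ → W ≤ X ^ B₂ → 0 < c →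
      c * (Real.exp 1 * (Real.exp 1 * N₁)) ≤ W → 0 < E0 → 0 < K → 0 ≤ F → 0 < η → η ≤ 1 →
      ∀ α : Eis → ℂ, FS α → JBc Y (9 * W) F ((J : ℕ) : ℝ) (ShN (Real.log K) g n m cL) α →
      Adm Y (Real.exp m) R α → ∀ p ∈ T9, ∀ φ : ℝ → ℝ, WK Cw η Aw φ → ∀ t : ℝ,
      TNa K E0 D c N₁ (fun n => bt φ α p n * pw t (nm n))
        ((C * (η⁻¹) ^ J * X ^ ε * F * (1 + |t|) ^ J) * Real.exp (-(m / 3)) *
        Real.exp (4 / 3 * m + Real.log K + F3n (Real.log K) m +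
          max 0 (n - m + Real.log E0 - g) + cL + Real.log c / 3)) ∧
      TNf K E0 D c N₁ (fun n => bt φ α p n * pw t (nm n))
        ((C * (η⁻¹) ^ J * X ^ ε * F * (1 + |t|) ^ J) * Real.exp (-(m / 3)) *
        Real.exp (4 / 3 * m + Real.log K +
          max (Real.log (c * (Real.exp 1 * N₁))) (2 * m - Real.log K) / 3 +
          Real.log (c * (Real.exp 1 * N₁)) / 2 + max 0 (n - m + Real.log E0 - g) + cL)) := by
  obtain ⟨C₁, hC₁, H₁⟩ := tn_near hR (J := ((J : ℕ) : ℝ)) hε (Nat.cast_nonneg J) hB₂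
  obtain ⟨C₂, hC₂, H₂⟩ := NGj708.jbc_be hJA hCw (by norm_num : (0 : ℝ) ≤ 3)
  refine ⟨C₁ * C₂, by positivity, ?_⟩
  intro X hX Y W K E0 D c F η N₁ g n m cL hY1 hYu hWX hc hcW hE0 hK hF hη hη1 α hFS hjb hadm p hp
    φ hφ t
  have hX0 : 0 < X := by linarith
  have hη0 : 0 ≤ (η⁻¹) ^ J := by positivity
  have h1 := H₂ Y W F η (ShN (Real.log K) g n m cL) α (by linarith) hF hη hη1
    (lipS_ShN _ _ _ _ _) hFS hadm.sup hjb p hp φ hφ t
  have hsup : ∀ n, bt φ α p n * pw t (nm n) ≠ 0 → α n ≠ 0 := fun n hn =>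
    (wn_ne (tw2_ne (left_ne_zero_of_mul hn))).1
  have hadm' : Adm Y (Real.exp m) R (fun n => bt φ α p n * pw t (nm n)) :=
    ⟨fun n hn => hadm.sup n (hsup n hn), fun n hn => hadm.win n (hsup n hn)⟩
  have key := H₁ X hX m Y W K E0 D c (C₂ * (η⁻¹) ^ J * F * (1 + |t|) ^ J) N₁ g n m cL hY1 hYu hWX
    hc hcW hE0 hK (by positivity) _ h1 hadm'
  have e1 : ∀ z : ℝ, C₁ * X ^ ε * (C₂ * (η⁻¹) ^ J * F * (1 + |t|) ^ J) * Real.exp (-(m / 3)) *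
      Real.exp z = (C₁ * C₂ * (η⁻¹) ^ J * X ^ ε * F * (1 + |t|) ^ J) * Real.exp (-(m / 3)) *
        Real.exp z := fun z => by ring
  rw [e1, e1] at key
  exact key

/-- **the T-half at the near leaf**: `y = c₁ log X`, `y' = c' log X` -/
theorem os_T {R : ℝ} (hR : 0 ≤ R) {J Aw : ℕ} (hJA : J + 2 ≤ Aw) {Cw : ℝ} (hCw : 0 ≤ Cw)
    {ε B₂ : ℝ} (hε : 0 < ε) (hB₂ : 0 < B₂) :
    ∃ C : ℝ, 0 ≤ C ∧ ∀ X : ℝ, 3 ≤ X → ∀ (Y W K H E0 E1 B D c F η : ℝ) (N₁ : ℕ)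
      (g n m σ y y' Lv : ℝ),
      1 ≤ Y → Y ≤ X ^ B₂ → W ≤ X ^ B₂ →
      c * (Real.exp 1 * (Real.exp 1 * N₁)) ≤ W → 0 < K → 0 < H → 0 < E0 → 0 < E1 → 0 < B →
      1 ≤ c → 1 ≤ N₁ → 0 ≤ F → 0 < η → η ≤ 1 →
      Real.log c ≤ y → 10 ≤ y → 30 * y ≤ y' → 1000 * y' ≤ Real.log K → 0 ≤ Lv →
      5 * (Lv + m) ≤ 7 * Real.log K → 5 * m ≤ 4 * Real.log K + 6 * y →
      3 * Real.log K ≤ 4 * m + 4 * y → Real.log N₁ ≤ Lv + 4 →
      n - m - g ≤ 3 / 4 * Real.log K - m → σ ≤ 10 * y →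
      Real.log E0 ≤ F3n (Real.log K) m + 10 * y → Real.log E1 ≤ F3n (Real.log K) m + 20 * y →
      Real.log B ≤ F3n (Real.log K) m + 21 * y →
      Real.log H = 3 * F3n (Real.log K) m + 3 * y' →
      H ^ (1 / 3 : ℝ) * N₁ * E1 ^ 2 * B ^ 2 ≤ K ∧
      H * (Real.exp 1 * N₁) ^ 3 * E1 ^ 3 * B ^ 2 ≤ K ^ 2 ∧
      H ^ 2 * (Real.exp 1 * N₁) ^ 3 ≤ K ^ 2 ∧
      ∀ α : Eis → ℂ, FS α → JBc Y (9 * W) F ((J : ℕ) : ℝ) (ShN (Real.log K) g n m σ) α →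
      Adm Y (Real.exp m) R α → ∀ p ∈ T9, ∀ φ : ℝ → ℝ, WK Cw η Aw φ → ∀ t : ℝ,
      ∃ τ τ₁ : ℝ, 0 ≤ τ ∧ 0 ≤ τ₁ ∧ TNa K E0 D c N₁ (fun n => bt φ α p n * pw t (nm n)) τ ∧
        TNf K E0 D c N₁ (fun n => bt φ α p n * pw t (nm n)) τ₁ ∧
        H ^ (-(1 / 3) : ℝ) * τ ≤
          (C * (η⁻¹) ^ J * X ^ ε * F * (1 + |t|) ^ J) * (K * Real.exp m) ∧
        (Real.exp 1 * N₁) ^ (2 / 3 : ℝ) * E1 ^ 2 * B ^ 2 / K * τ₁ ≤
          (C * (η⁻¹) ^ J * X ^ ε * F * (1 + |t|) ^ J) * (K * Real.exp m) := by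
  obtain ⟨C, hC, G⟩ := tn_win hR hJA hCw hε hB₂
  refine ⟨C, hC, ?_⟩
  intro X hX Y W K H E0 E1 B D c F η N₁ g n m σ y y' Lv hY1 hYu hWX hcW hK hH hE0 hE1 hB hc hN hF
    hη hη1 hcy hy hy' hκ hz0 hz hm hm' hNL hg hσ h0 h1 h2 h3
  obtain ⟨q0, q2, q3, q4, q5⟩ := os_num hK hH hE1 hB hc hN hcy hy hy' hκ hz0 hz hm hm' hNL hg hσ
    h0 h1 h2 h3
  refine ⟨q0, q2, q3, ?_⟩
  intro α hFS hjb hadm p hp φ hφ t
  have hX0 : 0 < X := by linarith
  have hη0 : 0 ≤ (η⁻¹) ^ J := by positivity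
  have hA : 0 ≤ C * (η⁻¹) ^ J * X ^ ε * F * (1 + |t|) ^ J := by positivity
  obtain ⟨k1, k2⟩ := G X hX Y W K E0 D c F η N₁ g n m σ hY1 hYu hWX (by linarith) hcW hE0 hK hF
    hη hη1 α hFS hjb hadm p hp φ hφ t
  exact ⟨_, _, by positivity, by positivity, k1, k2, q4 _ hA, q5 _ hA⟩

end Crest.Agent.R017.NOt126
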