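import Crest.Agent.R017.NOg_64
import Crest.Agent.R017.NOw_126
import Crest.Agent.R017.JBN_551

/-!
# Row 17, the near leaf, (Ro) (helper64): the leaf, class N

* `no_end` : the final inequalities
-/

set_option autoImplicit false
set_option linter.unusedVariables false
set_option maxHeartbeats 400000

noncomputable section

open Finset MeasureTheory
open scoped Classical

namespace Crest.Agent.R017.NO64

open Crest.Agent.R012 Crest.Agent.R012.Eis Crest.Agent.R012.MC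
open Crest.Agent.R012.LS2 (S mem_S bl mem_bl)
open Crest.Agent.R012.Weight600 (pw)
open Crest.Agent.R017.CM106 (CS TG FS)
open Crest.Agent.R017.HP842 (sqc)
open Crest.Agent.R017.FE47
open Crest.Agent.R017.B770
open Crest.Agent.R017.Prov71
open Crest.Agent.R017.Leg381 (Pf alF LF natl)
open Crest.Agent.R017.XRG106 (RFp)
open Crest.Agent.R017.XP699 (LL Chd hcost cst)
open Crest.Agent.R017.RG64 (SbL Ht one_le_Ht ALp exists_ALp)
open Crest.Agent.R017.RGB545 (Line Th TK)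
open Crest.Agent.R017.C70 (JW okJ_JW)
open Crest.Agent.R017.E1551 (Adm)
open Crest.Agent.R017.E3Z548 (FH)
open Crest.Agent.R017.E3T829 (G2 G2_nonneg RR)
open Crest.Agent.R017.E3T1579 (T3)
open Crest.Agent.R017.E3A164 (Yp Ys fq Cs mem_Cs be Fy)
open Crest.Agent.R017.E3M829 (TC Tal Sg W0)
open Crest.Agent.R017.E3Sz579 (Ld Md)
open Crest.Agent.R017.E3Kc548 (afT LI mem_LI card_LI)
open Crest.Agent.R017.E3Kf548 (afR TC_afR FS_afR T3_afR_zero afR_sqf afR_win)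
open Crest.Agent.R017.E3Sx579 (RHR)
open Crest.Agent.R017.R3571 (W2 RMm RMm_nonneg slp_two)
open Crest.Agent.R017.QsO83 (bw bw_ne FS_bw)
open Crest.Agent.R017.RGw813 (bt T9 mem_T9)
open Crest.Agent.R017.Win813 (WK wn_ne)
open Crest.Agent.R017.PX764 (n6)
open Crest.Agent.R017.RoP579 (RNp)
open Crest.Agent.R017.RoX116
open Crest.Agent.R017.RLo64 (bw_win LF_nonneg sqc_sq rhr_of)
open Crest.Agent.R017.LBo813 (Om Om_nonneg Om_le_one)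
open Crest.Agent.R017.I1146 (omr)
open Crest.Agent.R017.NE73 (gN)
open Crest.Agent.R017.NEg551 (NFacts NNum NLeaf NTc LBq)
open Crest.Agent.R017.NE499 (NumOs)
open Crest.Agent.R017.NOt126 (F3n ShN)
open Crest.Agent.R017.TNj90 (JBc)

variable {Lam ι : Type*} {p : ℕ}

/-- numbers -/
lemma fin_no {SF SD CC CP P A B Sm U k k₀ q : ℝ} (hCC : 0 ≤ CC) (hCP : 0 ≤ CP) (hP : 1 ≤ P)
    (hA : A ≤ U) (hB : B ≤ U) (hU : 0 ≤ U) (hS : Sm ≤ k * q) (hk : k ≤ k₀ * P) (hq : 0 ≤ q)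
    (hk0 : 0 ≤ k₀) (h : SF ≤ SD + CC * (1 + CP * P) * P ^ 4 * (A + B + Sm)) :
    SF ≤ SD + (2 * (CC * (1 + CP)) * P ^ 5 * U + CC * (1 + CP) * k₀ * P ^ 6 * q) := by
  have h1 : 1 + CP * P ≤ (1 + CP) * P := by nlinarith
  have h2 : A + B + Sm ≤ 2 * U + k₀ * P * q := by
    have := mul_le_mul_of_nonneg_right hk hq
    linarith
  have h3 : 0 ≤ 2 * U + k₀ * P * q := by positivity
  have h4 : CC * (1 + CP * P) * P ^ 4 * (A + B + Sm) ≤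
      CC * ((1 + CP) * P) * P ^ 4 * (2 * U + k₀ * P * q) := by
    have h5 : 0 ≤ CC * (1 + CP * P) * P ^ 4 := by positivity
    calc CC * (1 + CP * P) * P ^ 4 * (A + B + Sm) ≤
          CC * (1 + CP * P) * P ^ 4 * (2 * U + k₀ * P * q) := mul_le_mul_of_nonneg_left h2 h5
      _ ≤ _ := by gcongr
  have h6 : CC * ((1 + CP) * P) * P ^ 4 * (2 * U + k₀ * P * q) =
      2 * (CC * (1 + CP)) * P ^ 5 * U + CC * (1 + CP) * k₀ * P ^ 6 * q := by ring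
  linarith

/-- numbers -/
lemma no_fin {X CC CP CT ηJ C₃ kQ CR k₀ P er Cw2 Bd tJ Ha Hb M J₀ ε K n e5 : ℝ} (hX : 1 ≤ X)
    (hCC : 0 ≤ CC) (hCP : 0 ≤ CP) (hCT : 0 ≤ CT) (hη : 0 ≤ ηJ) (hC₃ : 0 ≤ C₃) (hkQ : 0 ≤ kQ)
    (hCR : 0 ≤ CR) (hk₀ : 0 ≤ k₀) (hP : 1 ≤ P) (her : 0 ≤ er) (hCw : 0 ≤ Cw2) (hBd : 0 ≤ Bd)
    (ht : 0 ≤ tJ) (hHa : 1 ≤ Ha) (hHb : 1 ≤ Hb) (hMJ : M ≤ J₀) (hP5 : P ^ 5 ≤ X ^ (ε / 2))
    (hP6 : P ^ 6 * Real.exp e5 ≤ 1) :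
    2 * (CC * (1 + CP)) * P ^ 5 * ((CT * ηJ * X ^ (ε / 4) *
      (C₃ * X ^ (ε / 4) * (Bd * Hb ^ M) * Ha ^ M) * tJ) * (X ^ K * Real.exp n)) +
      CC * (1 + CP) * k₀ * P ^ 6 * (kQ * Real.exp e5 * ((X ^ K / Real.exp n) *
        ((Cw2 * ηJ) * (CR * X ^ (2 * (ε / 2)) * tJ * ((Ha * Hb) ^ M * Bd)) *
          Real.exp (2 * n)))) ≤
      X ^ K / Real.exp n * (((2 * (CC * (1 + CP)) * (CT * ηJ * C₃) +
        CC * (1 + CP) * k₀ * (kQ * ((Cw2 * ηJ) * CR)) + CR + er) * X ^ ε *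
        (Ha * Hb) ^ J₀ * Bd * Real.exp (2 * n)) * tJ) := by
  have hX0 : 0 < X := by linarith
  have hHt : 1 ≤ Ha * Hb := one_le_mul_of_one_le_of_one_le hHa hHb
  have hHJ : (Ha * Hb) ^ M ≤ (Ha * Hb) ^ J₀ := Real.rpow_le_rpow_of_exponent_le hHt hMJ
  have hXe : 0 ≤ X ^ ε := by positivity
  have hXK : 0 ≤ X ^ K / Real.exp n := by positivity
  have hXX2 : X ^ (ε / 2) * X ^ (ε / 4) * X ^ (ε / 4) = X ^ ε := by
    rw [← Real.rpow_add hX0, ← Real.rpow_add hX0]; congr 1; ring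
  have hXX3 : X ^ (2 * (ε / 2)) = X ^ ε := by congr 1; ring
  have hKn : X ^ K * Real.exp n = X ^ K / Real.exp n * Real.exp (2 * n) := by
    rw [two_mul, Real.exp_add]
    field_simp
  have hHH : Hb ^ M * Ha ^ M = (Ha * Hb) ^ M := by
    rw [Real.mul_rpow (by linarith) (by linarith), mul_comm]
  have h0M : 0 ≤ (Ha * Hb) ^ M := by positivity
  have h0a : 0 ≤ Ha ^ M := by positivity
  have h0b : 0 ≤ Hb ^ M := by positivity
  have h0X : 0 ≤ X ^ (ε / 4) := by positivity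
  have hT1 : 2 * (CC * (1 + CP)) * P ^ 5 * ((CT * ηJ * X ^ (ε / 4) *
      (C₃ * X ^ (ε / 4) * (Bd * Hb ^ M) * Ha ^ M) * tJ) * (X ^ K * Real.exp n)) ≤
      X ^ K / Real.exp n * ((2 * (CC * (1 + CP)) * (CT * ηJ * C₃) * X ^ ε * (Ha * Hb) ^ J₀ * Bd *
        Real.exp (2 * n)) * tJ) := by
    have g1 : 0 ≤ 2 * (CC * (1 + CP)) := by positivity
    calc 2 * (CC * (1 + CP)) * P ^ 5 * ((CT * ηJ * X ^ (ε / 4) *
        (C₃ * X ^ (ε / 4) * (Bd * Hb ^ M) * Ha ^ M) * tJ) * (X ^ K * Real.exp n)) ≤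
        2 * (CC * (1 + CP)) * X ^ (ε / 2) * ((CT * ηJ * X ^ (ε / 4) *
        (C₃ * X ^ (ε / 4) * (Bd * Hb ^ M) * Ha ^ M) * tJ) * (X ^ K * Real.exp n)) := by gcongr
      _ = X ^ K / Real.exp n * ((2 * (CC * (1 + CP)) * (CT * ηJ * C₃) *
          (X ^ (ε / 2) * X ^ (ε / 4) * X ^ (ε / 4)) *
          (Hb ^ M * Ha ^ M) * Bd * Real.exp (2 * n)) * tJ) := by
          rw [hKn]; ring
      _ = X ^ K / Real.exp n * ((2 * (CC * (1 + CP)) * (CT * ηJ * C₃) * X ^ ε *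
          (Ha * Hb) ^ M * Bd * Real.exp (2 * n)) * tJ) := by rw [hXX2, hHH]
      _ ≤ _ := by gcongr
  have hR1 : CC * (1 + CP) * k₀ * P ^ 6 * (kQ * Real.exp e5 * ((X ^ K / Real.exp n) *
        ((Cw2 * ηJ) * (CR * X ^ (2 * (ε / 2)) * tJ * ((Ha * Hb) ^ M * Bd)) *
          Real.exp (2 * n)))) ≤ X ^ K / Real.exp n *
      ((CC * (1 + CP) * k₀ * (kQ * ((Cw2 * ηJ) * CR)) * X ^ ε * (Ha * Hb) ^ J₀ * Bd *
        Real.exp (2 * n)) * tJ) := by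
    have g1 : 0 ≤ CC * (1 + CP) * k₀ := by positivity
    rw [hXX3]
    calc CC * (1 + CP) * k₀ * P ^ 6 * (kQ * Real.exp e5 * ((X ^ K / Real.exp n) *
        ((Cw2 * ηJ) * (CR * X ^ ε * tJ * ((Ha * Hb) ^ M * Bd)) *
          Real.exp (2 * n)))) =
          CC * (1 + CP) * k₀ * (P ^ 6 * Real.exp e5) * (kQ * ((X ^ K / Real.exp n) *
        ((Cw2 * ηJ) * (CR * X ^ ε * tJ * ((Ha * Hb) ^ M * Bd)) *
          Real.exp (2 * n)))) := by ring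
      _ ≤ CC * (1 + CP) * k₀ * 1 * (kQ * ((X ^ K / Real.exp n) *
        ((Cw2 * ηJ) * (CR * X ^ ε * tJ * ((Ha * Hb) ^ M * Bd)) *
          Real.exp (2 * n)))) := by gcongr
      _ = X ^ K / Real.exp n * ((CC * (1 + CP) * k₀ * (kQ * ((Cw2 * ηJ) * CR)) * X ^ ε *
          (Ha * Hb) ^ M * Bd * Real.exp (2 * n)) * tJ) := by ring
      _ ≤ _ := by gcongr
  refine (add_le_add hT1 hR1).trans ?_
  have g3 : 0 ≤ X ^ K / Real.exp n * (((CR + er) * X ^ ε *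
      (Ha * Hb) ^ J₀ * Bd * Real.exp (2 * n)) * tJ) := by positivity
  have g4 : X ^ K / Real.exp n * (((2 * (CC * (1 + CP)) * (CT * ηJ * C₃) +
        CC * (1 + CP) * k₀ * (kQ * ((Cw2 * ηJ) * CR)) + CR + er) * X ^ ε *
        (Ha * Hb) ^ J₀ * Bd * Real.exp (2 * n)) * tJ) =
      X ^ K / Real.exp n * ((2 * (CC * (1 + CP)) * (CT * ηJ * C₃) * X ^ ε * (Ha * Hb) ^ J₀ * Bd *
        Real.exp (2 * n)) * tJ) +
      X ^ K / Real.exp n * ((CC * (1 + CP) * k₀ * (kQ * ((Cw2 * ηJ) * CR)) * X ^ ε *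
        (Ha * Hb) ^ J₀ * Bd * Real.exp (2 * n)) * tJ) +
      X ^ K / Real.exp n * (((CR + er) * X ^ ε *
      (Ha * Hb) ^ J₀ * Bd * Real.exp (2 * n)) * tJ) := by ring
  rw [g4]
  linarith

/-- **the end of the leaf** -/
lemma no_end {X CC CP CT ηJ C₃ kQ CR k₀ P er Cw2 Bd tJ Ha Hb M J₀ ε e₀ K n c Lx SF SD A B Sm kk U Q
    k₁ FF G_T G_R ε' : ℝ} (hX : 1 ≤ X) (hLx : Lx = Real.log X) (hL : 0 < Lx) (hK : 0 < K)
    (he₀0 : 0 < e₀) (he₀ε : e₀ ≤ ε) (hεc : ε ≤ c)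
    (hCC : 0 ≤ CC) (hCP : 0 ≤ CP) (hCT : 0 ≤ CT) (hη : 0 ≤ ηJ) (hC₃ : 0 ≤ C₃) (hkQ : 0 ≤ kQ)
    (hCR : 0 ≤ CR) (hk₀ : 0 ≤ k₀) (hε' : ε' = e₀ / (16 * (K + 1))) (hPd : P = (X ^ (K + 1)) ^ ε')
    (her : 0 ≤ er) (hCw : 0 ≤ Cw2) (hBd : 0 ≤ Bd)
    (ht : 0 ≤ tJ) (hHa : 1 ≤ Ha) (hHb : 1 ≤ Hb) (hMJ : M ≤ J₀)
    (hG_T : G_T = 2 * (CC * (1 + CP)) * (CT * ηJ * C₃))
    (hG_R : G_R = CC * (1 + CP) * k₀ * (kQ * ((Cw2 * ηJ) * CR)))
    (hFF : FF = C₃ * X ^ (ε / 4) * (Bd * Hb ^ M) * Ha ^ M)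
    (hU : U = (CT * ηJ * X ^ (ε / 4) * FF * tJ) * (X ^ K * Real.exp n))
    (hk₁ : k₁ = (Cw2 * ηJ) * (CR * X ^ (2 * (ε / 2)) * tJ * ((Ha * Hb) ^ M * Bd)))
    (hQ : Q = kQ * Real.exp (-(5 * (c * Lx))) * ((X ^ K / Real.exp n) *
      (k₁ * Real.exp (2 * n))))
    (hA : A ≤ U) (hB : B ≤ U) (hS : Sm ≤ kk * Q) (hk : kk ≤ k₀ * P)
    (core : SF ≤ SD + CC * (1 + CP * P) * P ^ 4 * (A + B + Sm)) :
    SF ≤ SD + X ^ K / Real.exp n * (((G_T + G_R + CR + er) * X ^ ε *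
      (Ha * Hb) ^ J₀ * Bd * Real.exp (2 * n)) * tJ) := by
  have hX0 : 0 < X := by linarith
  have hPe : P = X ^ (e₀ / 16) := by
    rw [hPd, hε', ← Real.rpow_mul hX0.le]
    congr 1
    field_simp
  have hP1' : 1 ≤ P := by rw [hPe]; exact Real.one_le_rpow hX (by positivity)
  have hHa0 : 0 ≤ Ha ^ M := by positivity
  have hHb0 : 0 ≤ Hb ^ M := by positivity
  have hFF0 : 0 ≤ FF := by rw [hFF]; positivity
  have hU0 : 0 ≤ U := by rw [hU]; positivity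
  have hHH : 0 ≤ (Ha * Hb) ^ M := by positivity
  have hk₁0 : 0 ≤ k₁ := by rw [hk₁]; positivity
  have hQ0 : 0 ≤ Q := by rw [hQ]; positivity
  have key := fin_no hCC hCP hP1' hA hB hU0 hS hk hQ0 hk₀ core
  have hεL : ε * Lx ≤ c * Lx := mul_le_mul_of_nonneg_right hεc hL.le
  have hcL : 0 < c * Lx := lt_of_lt_of_le (mul_pos (by linarith) hL) hεL
  have hpowX : ∀ x : ℝ, X ^ x = Real.exp (x * Lx) := fun x => by
    rw [Real.rpow_def_of_pos hX0, hLx, mul_comm]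
  have hP5 : P ^ 5 ≤ X ^ (ε / 2) := by
    rw [hPe, ← Real.rpow_natCast, ← Real.rpow_mul hX0.le]
    refine Real.rpow_le_rpow_of_exponent_le hX ?_
    push_cast
    linarith
  have hP6 : P ^ 6 * Real.exp (-(5 * (c * Lx))) ≤ 1 := by
    have g1 : P ^ 6 ≤ Real.exp (ε * Lx) := by
      rw [hPe, ← Real.rpow_natCast, ← Real.rpow_mul hX0.le, hpowX]
      refine Real.exp_le_exp.2 (mul_le_mul_of_nonneg_right ?_ hL.le)
      push_cast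
      linarith
    calc P ^ 6 * Real.exp (-(5 * (c * Lx))) ≤ Real.exp (ε * Lx) * Real.exp (-(5 * (c * Lx))) :=
          mul_le_mul_of_nonneg_right g1 (Real.exp_pos _).le
      _ = Real.exp (ε * Lx + -(5 * (c * Lx))) := by rw [← Real.exp_add]
      _ ≤ 1 := Real.exp_le_one_iff.2 (by linarith)
  have hfin := no_fin hX hCC hCP hCT hη hC₃ hkQ hCR hk₀ hP1' her hCw hBd ht hHa hHb hMJ hP5 hP6
    (ε := ε) (n := n) (K := K) (M := M)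
  rw [← hG_T, ← hG_R, ← hFF, ← hU, ← hk₁, ← hQ] at hfin
  exact key.trans (add_le_add (le_refl _) hfin)

lemma omq_one (N₀ N₁ : ℕ) : omq N₀ N₁ 1 1 = omr (Om N₀ N₁) := by
  funext x
  unfold RoX116.omq
  rw [if_pos ⟨one_dvd _, isCoprime_one_right⟩]

end Crest.Agent.R017.NO64
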