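import Crest.Agent.R017.NOh_64

/-!
# Row 17, the near leaf, (Ro) (helper64): the leaf, class N

* `numos_leaf` : `NumOs` at the scale `K` with the cut `B / E0` as a member of `NLeaf`
-/

set_option autoImplicit false
set_option linter.unusedVariables false
set_option maxHeartbeats 400000

noncomputable section

open Finset MeasureTheory
open scoped Classical

namespace Crest.Agent.R017.NO64

open Crest.Agent.R012 Crest.Agent.R012.Eis Crest.Agent.R012.MC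
open Crest.Agent.R012.LS2 (S mem_S bl mem_bl)
open Crest.Agent.R012.Weight600 (pw)
open Crest.Agent.R017.CM106 (CS TG FS)
open Crest.Agent.R017.HP842 (sqc)
open Crest.Agent.R017.FE47
open Crest.Agent.R017.B770
open Crest.Agent.R017.Prov71
open Crest.Agent.R017.Leg381 (Pf alF LF natl)
open Crest.Agent.R017.XRG106 (RFp)
open Crest.Agent.R017.XP699 (LL Chd hcost cst)
open Crest.Agent.R017.RG64 (SbL Ht one_le_Ht ALp exists_ALp)
open Crest.Agent.R017.RGB545 (Line Th TK)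
open Crest.Agent.R017.C70 (JW okJ_JW)
open Crest.Agent.R017.E1551 (Adm)
open Crest.Agent.R017.E3Z548 (FH)
open Crest.Agent.R017.E3T829 (G2 G2_nonneg RR)
open Crest.Agent.R017.E3T1579 (T3)
open Crest.Agent.R017.E3A164 (Yp Ys fq Cs mem_Cs be Fy)
open Crest.Agent.R017.E3M829 (TC Tal Sg W0)
open Crest.Agent.R017.E3Sz579 (Ld Md)
open Crest.Agent.R017.E3Kc548 (afT LI mem_LI card_LI)
open Crest.Agent.R017.E3Kf548 (afR TC_afR FS_afR T3_afR_zero afR_sqf afR_win)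
open Crest.Agent.R017.E3Sx579 (RHR)
open Crest.Agent.R017.R3571 (W2 RMm RMm_nonneg slp_two)
open Crest.Agent.R017.QsO83 (bw bw_ne FS_bw)
open Crest.Agent.R017.RGw813 (bt T9 mem_T9)
open Crest.Agent.R017.Win813 (WK wn_ne)
open Crest.Agent.R017.PX764 (n6)
open Crest.Agent.R017.RoP579 (RNp)
open Crest.Agent.R017.RoX116
open Crest.Agent.R017.RLo64 (bw_win LF_nonneg sqc_sq rhr_of)
open Crest.Agent.R017.LBo813 (Om Om_nonneg Om_le_one)
open Crest.Agent.R017.I1146 (omr)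
open Crest.Agent.R017.NE73 (gN)
open Crest.Agent.R017.NEg551 (NFacts NNum NLeaf NTc LBq)
open Crest.Agent.R017.NE499 (NumOs)
open Crest.Agent.R017.NOt126 (F3n ShN)
open Crest.Agent.R017.TNj90 (JBc)

variable {Lam ι : Type*} {p : ℕ}

set_option maxHeartbeats 16000000 in
/-- **(Ro) at the near leaf, class N** -/
theorem numos_leaf {π : Lam → DPar} (hP : ∀ lam, (π lam).OK) {h : ℝ → ℝ} {cu : ℝ} (hpu : PU h cu)
    {w : ℝ → ℝ} (hw : Wgt w) (hw0 : ∀ x, 0 ≤ w x) {c c' μ K v : ℝ} {hh : ℝ → ℝ → ℝ → ℝ}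
    {L : ι → Line Lam p} {j : ι} (HL : RonLn π h hh μ c (L j))
    (hhc : ∀ K V n : ℝ, hh K V n = 3 * max 0 ((4 * n - 3 * K) / 9) + 3 * c')
    (hc : 0 < c) (hcc : 30 * c ≤ c') (hcμ : 2000 * c ≤ μ) (hμK : 100 * μ ≤ K)
    (hcK' : 1000 * c' ≤ K) {φ₀ φ₁ φβ : ℝ → ℝ → ℝ → ℝ}
    (h0 : ∀ a u m, 0 ≤ φ₀ a u m ∧ φ₀ a u m ≤ 4 / 9 * max 0 ((4 * m - 3 * K) / 9) + 10 * c)
    (h1 : ∀ a u m, 0 ≤ φ₁ a u m ∧ φ₁ a u m ≤ max 0 ((4 * m - 3 * K) / 9) + 20 * c)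
    (h2 : ∀ a u m, 0 ≤ φβ a u m - φ₀ a u m ∧
      φβ a u m - φ₀ a u m ≤ max 0 ((4 * m - 3 * K) / 9) + 21 * c) :
    NLeaf π h (fun q α Rn => NumOs w q.Cw q.η q.Aw q.K q.X q.K q.R q.J q.D q.E0 q.E1 (q.B / q.E0)
      (q.N₁ / 2) q.N₁ α Rn) L φ₀ φ₁ φβ K v c := by
  have hμ0 : 0 < μ := by linarith
  have hK : 0 < K := by linarith
  intro lam N c₀ hc₀
  obtain ⟨c₂, hc₂⟩ : ∃ x : ℝ, x = max c₀ (K + 3) := ⟨_, rfl⟩
  have hc₂a : c₀ ≤ c₂ := by rw [hc₂]; exact le_max_left _ _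
  have hc₂b : K + 3 ≤ c₂ := by rw [hc₂]; exact le_max_right _ _
  have hc₂1 : 1 ≤ c₂ := hc₀.trans hc₂a
  obtain ⟨W, b₀, hb₀, hW⟩ := E3M829.exists_W0 hw hw0
  have hN0 : (0 : ℝ) ≤ N := Nat.cast_nonneg _
  refine ⟨max c₂ (c₀ + 2 * K), le_max_of_le_left (by linarith), fun ε M hε hM => ?_⟩
  obtain ⟨a, ha, H₁⟩ := RH_leafde hpu N (c₀ := c₂) (m₀ := 300 * (K + 1) + 1) (μ := μ)
    (M := M) hc₂1 (by positivity) hμ0 hM
  refine ⟨max (max ((N : ℝ) ^ 2 * M) M) ((N + 1) * M),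
    min (min 1 (ε / 2 / (3 * N + 1))) (c / (8 * (N + 1))), le_max_of_le_left
      (hM.trans (le_max_right _ _)), lt_min (lt_min one_pos (by positivity)) (by positivity), ?_⟩
  intro δ Jn Aw Cw R η S' hδ0 hδ hJn hAw hCw hR hη hη1 hS
  have hJn1 : max ((N : ℝ) ^ 2 * M) M ≤ Jn := (le_max_left _ _).trans hJn
  have hJn2 : (N : ℝ) * M ≤ Jn := by
    have h1 := (le_max_right (max ((N : ℝ) ^ 2 * M) M) ((N + 1) * M)).trans hJn
    have h2 : (N + 1) * M = N * M + M := by ring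
    linarith
  obtain ⟨C_R, r, X_R, hC_R, hr, H₂⟩ := H₁ (ε / 2) S' (by positivity) hS
  obtain ⟨e₀, he₀⟩ : ∃ x : ℝ, x = min 1 ε := ⟨_, rfl⟩
  have he₀0 : 0 < e₀ := by rw [he₀]; exact lt_min one_pos hε
  have he₀1 : e₀ ≤ 1 := by rw [he₀]; exact min_le_left _ _
  have he₀ε : e₀ ≤ ε := by rw [he₀]; exact min_le_right _ _
  obtain ⟨ε', hε'⟩ : ∃ x : ℝ, x = e₀ / (16 * (K + 1)) := ⟨_, rfl⟩
  have hε'0 : 0 < ε' := by rw [hε']; positivity
  have hε'1 : ε' ≤ 1 := by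
    rw [hε', div_le_one (by positivity)]
    linarith
  obtain ⟨A₀, c₁, hc₁, H₃⟩ := RoP579.pairB_N (R0 := 1) zero_le_one a (Jn + 2) (by omega) hb₀.le
    hε'0 hε'1
  obtain ⟨C_P, hC_P, H₄⟩ := H₃ (max A₀ 2) (le_max_left _ _) 4 le_rfl
  obtain ⟨C_C, hC_C, H₅⟩ := ro_core4 hw hW
    (A := max A₀ 2) (Bw := 4) (lt_of_lt_of_le (by norm_num) (le_max_right _ _)) (by norm_num) hε'0
  obtain ⟨X_N, H₆⟩ := no_num hc hcc hcμ hμK hcK' hc₁ hR
  obtain ⟨C₃, r₃, hC₃, hr₃, HJ⟩ := JBN551.jbn_near hpu N hK (ε := ε / 4) (M := M) (by positivity) hM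
  obtain ⟨Ra, Ca, hRa, hCa, hAL⟩ := exists_ALp hpu N
  obtain ⟨C_T, hC_T, HT⟩ := NOt126.os_T (R := 2 * Ra) (by positivity) (J := Jn) (Aw := Aw) hAw
    (Cw := Cw) hCw (ε := ε / 4) (B₂ := 8 * (K + 1)) (by positivity) (by positivity)
  obtain ⟨kQ, hkQ⟩ : ∃ kQ, kQ = (1 + c₁ + 1 ^ (-(2 / 3) : ℝ) + 1 ^ (-(1 / 3) : ℝ)) *
    Real.exp (11 * (R + 15)) := ⟨_, rfl⟩
  have hkQ0 : 0 ≤ kQ := by
    have : 0 ≤ c₁ := by linarith
    rw [hkQ]; positivity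
  have he1 : (1 : ℝ) ≤ Real.exp 1 := Real.one_le_exp zero_le_one
  obtain ⟨cw, hcw⟩ : ∃ x : ℝ, x = 9 * c₁ * Real.exp 1 * Real.exp 1 := ⟨_, rfl⟩
  have hcw1 : 1 ≤ cw := by
    rw [hcw]
    have : 1 ≤ 9 * c₁ := by linarith
    exact one_le_mul_of_one_le_of_one_le (one_le_mul_of_one_le_of_one_le this he1) he1
  have hlcw : Real.log cw ≤ 12 + Real.log c₁ := by
    have h9 : Real.log 9 ≤ 8 := by
      have := Real.log_le_sub_one_of_pos (x := 9) (by norm_num)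
      linarith
    rw [hcw, Real.log_mul (by positivity) (by positivity), Real.log_mul (by positivity)
      (by positivity), Real.log_mul (by norm_num) (by positivity), Real.log_exp]
    linarith
  have hlc₁ : 0 ≤ Real.log c₁ := Real.log_nonneg hc₁
  obtain ⟨T₀, hT₀⟩ : ∃ T : ℝ, T = 40 + Real.log c₁ + r₃ + Ra + R := ⟨_, rfl⟩
  have hT₀0 : 0 < T₀ := by rw [hT₀]; linarith
  obtain ⟨G_T, hG_T⟩ : ∃ x : ℝ, x = 2 * (C_C * (1 + C_P)) * (C_T * (η⁻¹) ^ Jn * C₃) := ⟨_, rfl⟩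
  obtain ⟨G_R, hG_R⟩ : ∃ x : ℝ, x = C_C * (1 + C_P) * (2 + 1 / ε') *
    (kQ * ((Cw ^ 2 * (η⁻¹) ^ Jn) * C_R)) := ⟨_, rfl⟩
  have hηJ : 0 ≤ (η⁻¹) ^ Jn := by positivity
  have hG_T0 : 0 ≤ G_T := by rw [hG_T]; positivity
  have hG_R0 : 0 ≤ G_R := by rw [hG_R]; positivity
  refine ⟨G_T + G_R + C_R + Real.exp r₃, max r (S' + r₃),
    max (max X_R X_N) (max Ca (Real.exp (T₀ / ε + T₀ / c + T₀ + 8 * K / c ^ 2))),
    by positivity, le_max_of_le_left hr, ?_⟩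
  intro X hX3 hXX ps₀ hlen hz hs2 hnum q ps Lv N₁ hF hq hqX hps Bd hBd hNT hprem
  have hX0 : 0 < X := by linarith
  have hX1 : 1 ≤ X := by linarith
  obtain ⟨Lx, hLx⟩ : ∃ Lx, Lx = Real.log X := ⟨_, rfl⟩
  have hL : 0 < Lx := by rw [hLx]; exact Real.log_pos (by linarith)
  have hXR : X_R ≤ X := ((le_max_left _ _).trans (le_max_left _ _)).trans hXX
  have hXN : X_N ≤ X := ((le_max_right _ _).trans (le_max_left _ _)).trans hXX
  have hXa : Ca ≤ X := ((le_max_left _ _).trans (le_max_right _ _)).trans hXX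
  have hXT : T₀ / ε + T₀ / c + T₀ + 8 * K / c ^ 2 ≤ Lx := by
    rw [hLx, Real.le_log_iff_exp_le hX0]
    exact ((le_max_right _ _).trans (le_max_right _ _)).trans hXX
  have hp1 : 0 ≤ T₀ / ε := by positivity
  have hp2 : 0 ≤ T₀ / c := by positivity
  have hp3 : 0 ≤ 8 * K / c ^ 2 := by positivity
  have hTε : T₀ ≤ ε * Lx := by
    have : T₀ / ε ≤ Lx := by linarith
    rw [div_le_iff₀ hε] at this
    linarith
  have hTc : T₀ ≤ c * Lx := by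
    have : T₀ / c ≤ Lx := by linarith
    rw [div_le_iff₀ hc] at this
    linarith
  have hTL : T₀ ≤ Lx := by linarith
  have h8K : 8 * K / c ^ 2 ≤ Lx := by linarith
  have hpowX : ∀ x : ℝ, X ^ x = Real.exp (x * Lx) := fun x => by
    rw [Real.rpow_def_of_pos hX0, hLx, mul_comm]
  have hmono : ∀ u : ℝ, u ≤ c₂ → X ^ u ≤ X ^ c₂ := fun u hu =>
    Real.rpow_le_rpow_of_exponent_le hX1 hu
  have hεc : ε ≤ c := hnum.ec
  have hLF0 : 0 ≤ LF ps := LF_nonneg hps.z_nonneg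
  have hNF := nf_facts hX3 hε hnum hF
  obtain ⟨D, hDd⟩ : ∃ D, D = Real.exp (min (gN K c (LL Dq ps₀ / Real.log X) * Real.log X)
    (LF ps - (LL Dq ps₀ - gN K c (LL Dq ps₀ / Real.log X) * Real.log X))) := ⟨_, rfl⟩
  rw [← hDd] at hNF ⊢
  obtain ⟨f₀, hf₀⟩ : ∃ x, x = φ₀ (LL Dq ps₀ / Real.log X) (Lv / Real.log X)
    (LF ps / Real.log X) := ⟨_, rfl⟩
  obtain ⟨f₁, hf₁⟩ : ∃ x, x = φ₁ (LL Dq ps₀ / Real.log X) (Lv / Real.log X)
    (LF ps / Real.log X) := ⟨_, rfl⟩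
  obtain ⟨f₂, hf₂⟩ : ∃ x, x = φβ (LL Dq ps₀ / Real.log X) (Lv / Real.log X)
    (LF ps / Real.log X) := ⟨_, rfl⟩
  have hh0 := h0 (LL Dq ps₀ / Real.log X) (Lv / Real.log X) (LF ps / Real.log X)
  have hh1 := h1 (LL Dq ps₀ / Real.log X) (Lv / Real.log X) (LF ps / Real.log X)
  have hh2 := h2 (LL Dq ps₀ / Real.log X) (Lv / Real.log X) (LF ps / Real.log X)
  rw [← hf₀, ← hf₁, ← hf₂]
  rw [← hf₀] at hh0 hh2
  rw [← hf₁] at hh1
  rw [← hf₂] at hh2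
  rw [← hLx] at hh0 hh1 hh2 hNF
  obtain ⟨n, hn⟩ : ∃ n, n = LF ps := ⟨_, rfl⟩
  rw [← hn] at hh0 hh1 hh2 hNF hLF0
  have hF3 : Lx * max 0 ((4 * (n / Lx) - 3 * K) / 9) = F3n (K * Lx) n := by
    show _ = max 0 ((4 * n - 3 * (K * Lx)) / 9)
    rw [mul_max_of_nonneg _ _ hL.le, mul_zero]
    congr 1
    field_simp
  obtain ⟨F, hFd⟩ : ∃ F, F = F3n (K * Lx) n := ⟨_, rfl⟩
  have hF0 : 0 ≤ F := by rw [hFd]; exact le_max_left _ _
  rw [← hFd] at hF3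
  obtain ⟨E0, hE0d⟩ : ∃ E0, E0 = X ^ f₀ := ⟨_, rfl⟩
  obtain ⟨E1, hE1d⟩ : ∃ E1, E1 = X ^ f₁ := ⟨_, rfl⟩
  obtain ⟨B, hBd'⟩ : ∃ B, B = X ^ f₂ / X ^ f₀ := ⟨_, rfl⟩
  have hE01 : 1 ≤ E0 := by rw [hE0d]; exact Real.one_le_rpow hX1 hh0.1
  have hE11 : 1 ≤ E1 := by rw [hE1d]; exact Real.one_le_rpow hX1 hh1.1
  have hBe : B = X ^ (f₂ - f₀) := by rw [hBd', ← Real.rpow_sub hX0]
  have hB1 : 1 ≤ B := by rw [hBe]; exact Real.one_le_rpow hX1 hh2.1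
  have hlE0 : Real.log E0 ≤ 4 / 9 * F + 10 * (c * Lx) := by
    rw [hE0d, Real.log_rpow hX0, ← hLx]
    have := mul_le_mul_of_nonneg_right hh0.2 hL.le
    linarith
  have hlE1 : Real.log E1 ≤ F + 20 * (c * Lx) := by
    rw [hE1d, Real.log_rpow hX0, ← hLx]
    have := mul_le_mul_of_nonneg_right hh1.2 hL.le
    linarith
  have hlB : Real.log B ≤ F + 21 * (c * Lx) := by
    rw [hBe, Real.log_rpow hX0, ← hLx]
    have := mul_le_mul_of_nonneg_right hh2.2 hL.le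
    linarith
  obtain ⟨H, hHd⟩ : ∃ H, H = Real.exp (3 * F + 3 * (c' * Lx)) := ⟨_, rfl⟩
  have hH0 : 0 < H := by rw [hHd]; exact Real.exp_pos _
  have hlH : Real.log H = 3 * F + 3 * (c' * Lx) := by rw [hHd, Real.log_exp]
  have hcL0 : 0 < c * Lx := mul_pos hc hL
  have hccL : 30 * (c * Lx) ≤ c' * Lx := by
    have := mul_le_mul_of_nonneg_right hcc hL.le
    linarith
  have hH1 : 1 ≤ H := by
    rw [hHd]; exact Real.one_le_exp (by linarith)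
  obtain ⟨hv, hhv⟩ : ∃ hv, hv = hh K (Lv / Real.log X) (LF ps / Real.log X) := ⟨_, rfl⟩
  have hhv' : Lx * hv = 3 * F + 3 * (c' * Lx) := by
    rw [hhv, hhc, ← hLx, ← hn, mul_add]
    have : Lx * (3 * max 0 ((4 * (n / Lx) - 3 * K) / 9)) =
        3 * (Lx * max 0 ((4 * (n / Lx) - 3 * K) / 9)) := by ring
    rw [this, hF3]
    ring
  have hlHv : Real.log H = Lx * hv := by rw [hlH, hhv']
  have hE00 : 0 < E0 := by linarith
  have hE10 : 0 < E1 := by linarith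
  have hB0 : 0 < B := by linarith
  have hlogK : Real.log (X ^ K) = K * Lx := by rw [Real.log_rpow hX0, hLx]
  have hKL : 1000 * (c' * Lx) ≤ K * Lx := by
    have := mul_le_mul_of_nonneg_right hcK' hL.le
    linarith
  have hεL : ε * Lx ≤ c * Lx := mul_le_mul_of_nonneg_right hεc hL.le
  -- the joint numbers
  have hgE : gN K c (LL Dq ps₀ / Real.log X) * Real.log X =
      LL Dq ps₀ - 3 / 4 * (K * Lx) + c * Lx := by
    unfold NE73.gN
    rw [← hLx]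
    field_simp
  have hNe : (1 : ℝ) ≤ N₁ := by exact_mod_cast hNF.N1
  have hNp : (0 : ℝ) < N₁ := by linarith
  have hδ1 : δ ≤ 1 := hδ.trans ((min_le_left _ _).trans (min_le_left _ _))
  have hδN : 3 * N * δ ≤ ε / 2 := by
    have h1 : δ ≤ ε / 2 / (3 * N + 1) := hδ.trans ((min_le_left _ _).trans (min_le_right _ _))
    rw [le_div_iff₀ (by positivity)] at h1
    nlinarith
  have hδN2 : N * δ ≤ c / 8 := by
    have h1 := hδ.trans (min_le_right _ _)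
    rw [le_div_iff₀ (by positivity)] at h1
    nlinarith
  have hlogN1 : Real.log N₁ ≤ Lv + 4 := hNF.Nu
  have hLv1 : Lv ≤ K * Lx := by
    have g1 := hNF.nv
    have g2 := hNF.n0
    linarith
  have hnKL : n ≤ K * Lx := by
    have g1 := hNF.n1
    linarith
  have e8 : 8 * (K + 1) * Lx = 8 * (K * Lx) + 8 * Lx := by ring
  have hqb : (nm q : ℝ) * Real.exp (LF ps) * Real.exp r₃ ≤
      (G_T + G_R + C_R + Real.exp r₃) * X ^ max c₂ (c₀ + 2 * K) := by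
    have h1 : Real.exp (LF ps) ≤ X ^ (2 * K) := by
      rw [hpowX, ← hn]
      refine Real.exp_le_exp.2 ?_
      have : 2 * K * Lx = 2 * (K * Lx) := by ring
      have : 0 ≤ K * Lx := by positivity
      linarith
    have h2 : X ^ c₀ * X ^ (2 * K) ≤ X ^ max c₂ (c₀ + 2 * K) := by
      rw [← Real.rpow_add hX0]
      exact Real.rpow_le_rpow_of_exponent_le hX1 (le_max_right _ _)
    calc (nm q : ℝ) * Real.exp (LF ps) * Real.exp r₃ ≤ X ^ c₀ * X ^ (2 * K) * Real.exp r₃ := by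
          gcongr
      _ ≤ X ^ max c₂ (c₀ + 2 * K) * Real.exp r₃ :=
          mul_le_mul_of_nonneg_right h2 (Real.exp_pos _).le
      _ = Real.exp r₃ * X ^ max c₂ (c₀ + 2 * K) := by ring
      _ ≤ _ := mul_le_mul_of_nonneg_right (by linarith) (by positivity)
  have hJB := HJ X hX3 (π lam) (hP lam) ps₀ hlen v c
    (gN K c (LL Dq ps₀ / Real.log X)) ε (2 * ε) S' (max r (S' + r₃))
    ((G_T + G_R + C_R + Real.exp r₃) * X ^ max c₂ (c₀ + 2 * K)) Bd δ (3 * (c * Lx)) cw Jn hc.le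
    hcw1 (by positivity) hδ0 hJn2 (by linarith) (le_max_right _ _) hNT q ps Lv N₁ hF hq hqb hps
    (by rw [← hLx]; linarith)
    (by rw [← hLx, e8]; linarith)
    (by rw [← hLx, e8, ← hn]; linarith)
    (by
      rw [← hLx]
      have g1 : N * (δ * Lx) ≤ c / 8 * Lx := by
        rw [← mul_assoc]
        exact mul_le_mul_of_nonneg_right hδN2 hL.le
      have g2 : (c / 3 + 2 * ε) * Lx = c * Lx / 3 + 2 * (ε * Lx) := by ring
      have g3 : c / 8 * Lx = c * Lx / 8 := by ring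
      linarith)
  obtain ⟨FF, hFF⟩ : ∃ FF, FF = C₃ * X ^ (ε / 4) * (Bd * Ht (natl ps₀) ^ M) * Ht ps ^ M :=
    ⟨_, rfl⟩
  have hHt1 : 1 ≤ Ht ps := one_le_Ht _
  have hHt2 : 1 ≤ Ht (natl ps₀) := one_le_Ht _
  have hBd0 : 0 ≤ Bd := by linarith
  have hFF0 : 0 ≤ FF := by rw [hFF]; positivity
  rw [← hFF] at hJB
  obtain ⟨W', hW'⟩ : ∃ W', W' = c₁ * (Real.exp 1 * (Real.exp 1 * N₁)) := ⟨_, rfl⟩
  have hcwN : cw * N₁ = 9 * W' := by rw [hcw, hW']; ring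
  rw [hcwN] at hJB
  have hY : (1 : ℝ) ≤ X ^ (8 * (K + 1)) := Real.one_le_rpow hX1 (by positivity)
  have hW'X : W' ≤ X ^ (8 * (K + 1)) := by
    rw [hpowX, e8]
    have hW'0 : 0 < W' := by rw [hW']; positivity
    rw [← Real.log_le_iff_le_exp hW'0, hW', Real.log_mul (by positivity) (by positivity),
      Real.log_mul (by positivity) (by positivity), Real.log_mul (by positivity) (by positivity),
      Real.log_exp]
    linarith
  -- the sequence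
  obtain ⟨α, hα⟩ : ∃ α, α = sqc q (alF (X ^ δ) (X ^ δ) (π lam) h ps) := ⟨_, rfl⟩
  rw [← hα] at hJB
  obtain ⟨hsup, hwin, -, hFS'⟩ := hAL (X ^ δ) (X ^ δ) (π lam) (hP lam) q ps (hps.length ▸ hlen)
    (X ^ (8 * (K + 1))) (hXa.trans (by
      calc X = X ^ (1 : ℝ) := (Real.rpow_one X).symm
        _ ≤ _ := Real.rpow_le_rpow_of_exponent_le hX1 (by linarith))) (by
      rw [← Real.exp_add, hpowX, e8, ← hn]
      refine Real.exp_le_exp.2 ?_
      linarith)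
  rw [← hα, ← hn] at hwin
  rw [← hα] at hsup hFS'
  have hAdmα : Adm (X ^ (8 * (K + 1))) (Real.exp n) (2 * Ra) α :=
    ⟨hsup, fun m hm => (hwin m hm).trans (by linarith)⟩
  obtain ⟨q0, q2, q3, HTw⟩ := HT X hX3 (X ^ (8 * (K + 1))) W' (X ^ K) H E0 E1 B D c₁ FF η N₁
    (gN K c (LL Dq ps₀ / Real.log X) * Real.log X) (LL Dq ps₀) n (3 * (c * Lx)) (c * Lx)
    (c' * Lx) Lv hY le_rfl hW'X hW'.ge (by positivity) hH0 hE00 hE10 hB0 hc₁ hNF.N1 hFF0 hη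
    (by linarith) (by linarith) (by linarith) hccL (by rw [hlogK]; exact hKL) hNF.v0
    (by rw [hlogK]; exact hNF.nv) (by rw [hlogK]; exact hNF.n1)
    (by rw [hlogK]; have := hNF.n0; linarith) hlogN1
    (by rw [hlogK, hgE]; linarith) (by linarith)
    (by rw [hlogK, ← hFd]; linarith) (by rw [hlogK, ← hFd]; exact hlE1)
    (by rw [hlogK, ← hFd]; exact hlB) (by rw [hlogK, ← hFd]; exact hlH)
  have hJB' : JBc (X ^ (8 * (K + 1))) (9 * W') FF ((Jn : ℕ) : ℝ) (ShN (Real.log (X ^ K))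
      (gN K c (LL Dq ps₀ / Real.log X) * Real.log X) (LL Dq ps₀) n (3 * (c * Lx))) α := by
    rw [hlogK]
    rw [← hLx, ← hn] at hJB
    rw [← hLx]
    exact hJB
  have HTw' := HTw α hFS' hJB' hAdmα
  -- a window
  intro pp hpp t X' φ hX' hXX' hWK hφ
  have hXn : |Real.log X' - n| ≤ R + 1 := by
    have h1 : |Real.log X' - Real.log (Real.exp (LF ps))| ≤ R + 1 := hXX'
    rwa [Real.log_exp, ← hn] at h1
  have hWK' : WK Cw η Aw φ := hWK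
  obtain ⟨τ, τ₁, hτ, hτ₁, hTNa, hTNf, hU1, hU2⟩ := HTw' pp hpp φ hWK' t
  obtain ⟨be, hbe⟩ : ∃ be, be = bw φ pp t α := ⟨_, rfl⟩
  have hbe' : (fun n => bt φ α pp n * pw t (nm n)) = be := by rw [hbe]; rfl
  rw [hbe'] at hTNa hTNf
  have hN := H₆ X hX3 hXN n Lv D N₁ (by rw [← hLx]; exact hNF) X' H E0 E1 B hX' hXn hH0 hE00 hE10
    hB0 (by rw [← hLx, ← hFd]; exact hlH) (by rw [← hLx, ← hFd]; linarith)
    (by rw [← hLx, ← hFd]; exact hlE1) (by rw [← hLx, ← hFd]; exact hlB)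
  have hFSb : FS be := by rw [hbe]; exact FS_bw hFS'
  have hsq : ∀ m, be m ≠ 0 → Squarefree m := by
    intro m hm
    rw [hbe] at hm
    have h1 := bw_ne hm
    rw [hα] at h1
    exact sqc_sq h1
  have hwi : ∀ m, be m ≠ 0 → |Real.log (nm m) - Real.log X'| ≤ 1 := by
    intro m hm
    rw [hbe] at hm
    exact (bw_win hφ hm).trans (by show η / 2 ≤ 1; linarith)
  have hAdm : Adm (X ^ (8 * (K + 1))) X' 2 be := by
    refine ⟨fun m hm => ?_, fun m hm => (hwi m hm).trans (by norm_num)⟩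
    have h1 := hFSb.prim m hm
    rw [mem_S (by positivity)]
    refine ⟨hN.XY _ ?_ (hwi m hm), h1, hsq m hm⟩
    exact_mod_cast nm_pos.2 h1.ne_zero
  have hZ1 : 1 ≤ X ^ (K + 1) := Real.one_le_rpow hX1 (by linarith)
  have hD0 : 0 ≤ D := by linarith [hNF.D0]
  -- (RH)
  obtain ⟨T, hT⟩ : ∃ T, T = TTe K μ c (ε / 2) Lx Lv n hv := ⟨_, rfl⟩
  have hHt : 1 ≤ Ht ps * Ht (natl ps₀) := one_le_mul_of_one_le_of_one_le hHt1 hHt2
  have hHtM : 0 ≤ (Ht ps * Ht (natl ps₀)) ^ M := by positivity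
  obtain ⟨k₁, hk₁⟩ : ∃ k₁, k₁ = (Cw ^ 2 * (η⁻¹) ^ Jn) * (C_R * X ^ (2 * (ε / 2)) *
    (1 + |t|) ^ Jn * ((Ht ps * Ht (natl ps₀)) ^ M * Bd)) := ⟨_, rfl⟩
  have ht0 : (0 : ℝ) ≤ (1 + |t|) ^ Jn := pow_nonneg (by positivity) _
  have hk₁0 : 0 ≤ k₁ := by rw [hk₁]; positivity
  obtain ⟨P1, hP1⟩ : ∃ P1, P1 = c₁ * (X' * (Real.exp 1 * N₁) * H / X ^ K) := ⟨_, rfl⟩
  have hP0 : 0 < P1 := by rw [hP1]; exact hN.P0
  obtain ⟨W0f, hW0f⟩ : ∃ W0f : Eis → Eis → ℝ → ℝ, W0f = fun d e => W2 a P1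
    ((k₁ * Real.exp (T - n)) * ((nm d : ℝ) * nm e) ^ (-(2 / 3) : ℝ) *
      (Real.exp n / nm d) ^ (2 / 3 : ℝ)) := ⟨_, rfl⟩
  have hSlp : ∀ d e, Mode405.Slp a (W0f d e) := by
    intro d e
    rw [hW0f]
    exact slp_two ha hP0 (by positivity)
  obtain ⟨Im, hIm⟩ : ∃ Im, Im = Lv + n + Real.log H - K * Lx + μ * Lx := ⟨_, rfl⟩
  have hRHR : RHR (c₁ * (X ^ (K + 1)) ^ 300) (Jn + 2) (RR (JW D (1 / 10) N₁) (S E0))
      (afR 1 1 be E0) W0f := by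
    refine rhr_of (fun x hx => (okJ_JW _ _ _).prim x hx) hFSb.prim
      (fun d e P hP' => (hSlp d e).nonneg _ hP') ?_ 1 1
    intro d hd e he γ π' hγ hπ' hπm P hPp
    have hdp : IsPrim d := by
      obtain ⟨x, hx, rfl⟩ := mem_image.1 hd
      exact (okJ_JW _ _ _).prim x hx
    have hdN : (nm d : ℝ) ≤ N₁ := by
      obtain ⟨x, hx, rfl⟩ := mem_image.1 hd
      exact (RoP579.JW_nm hx).1
    have hdD : (nm d : ℝ) ≤ D := by
      obtain ⟨x, hx, rfl⟩ := mem_image.1 hd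
      unfold C70.JW at hx
      exact (Nat.cast_le.2 (mem_primBall.1 (mem_product.1 (mem_filter.1 hx).1).1).1).trans
        (Nat.floor_le hD0)
    have hdX : (nm d : ℝ) ≤ X ^ c₂ := (hdN.trans hN.NZ).trans (hmono _ (by linarith))
    have he2 := (mem_S hE00.le).1 he
    have heX : (nm e : ℝ) ≤ X ^ c₂ := he2.1.trans (hN.E0Z.trans (hmono _ (by linarith)))
    have hd1 : (1 : ℝ) ≤ nm d := by exact_mod_cast nm_pos.2 hdp.ne_zero
    have hne1 : (1 : ℝ) ≤ nm e := by exact_mod_cast nm_pos.2 he2.2.1.ne_zero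
    have hde : 0 < (nm d : ℝ) * nm e := by positivity
    obtain ⟨D', hD'⟩ : ∃ D', D' = Real.log ((nm d : ℝ) * nm e) := ⟨_, rfl⟩
    have hD'0 : 0 ≤ D' := by
      rw [hD']; exact Real.log_nonneg (one_le_mul_of_one_le_of_one_le hd1 hne1)
    have hD'K : D' ≤ K * Lx / 15 := by
      have g1 : Real.log (nm d : ℝ) ≤ Real.log D := Real.log_le_log (by linarith) hdD
      have g2 : Real.log (nm e : ℝ) ≤ Real.log E0 := Real.log_le_log (by linarith) he2.1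
      have g3 := hNF.D1
      have g4 := hNF.n1
      have g5 := (F3_le hNF (by positivity) hcL0.le).2
      rw [← hFd] at g5
      rw [hD', Real.log_mul (by linarith) (by linarith)]
      linarith
    have hTn : LF ps ≤ T - 2 / 3 * D' := by
      rw [← hn, hT]
      exact TTe_ge hL hNF hc hcc hcμ hμK hcK' (by rw [hhv', hFd]) (by positivity) hD'K
    have hprem' : ∀ (l : ℝ) (ps' : List Pq), 0 ≤ l → l ≤ Im →
        List.Forall₂ (Chd Dq hcost r (C_R * X ^ c₂)) ps' ps₀ →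
        LL Dq ps' ≤ LF ps - D' + ε / 2 * Real.log X →
        RFp (π lam) h l ps' ≤ Bd * cst hcost ps' ps₀ ^ M *
          Real.exp (T - 2 / 3 * D' - LF ps + LL Dq ps' - (Im - l) / 3) := by
      intro l ps' hl0 hl hch hLL
      have hCX : C_R * X ^ c₂ ≤ (G_T + G_R + C_R + Real.exp r₃) * X ^ max c₂ (c₀ + 2 * K) := by
        refine mul_le_mul ?_ (Real.rpow_le_rpow_of_exponent_le hX1 (le_max_left _ _))
          (by positivity) (by positivity)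
        have := Real.exp_pos r₃
        linarith
      have key := ron_of (ε := ε) (ε₁ := ε / 2) (Im := Im) (D' := D') (hv := hv) HL hX3 hK
        (by positivity) (by linarith) hBd0 hprem hhv (by
          rw [hIm, hn, hLx, hlHv, hLx]) (by
          rw [hIm, hLx]; exact hN.Im) hD'0 (by rw [← hLx]; exact hD'K) hl0 hl
        (RlB791.chdL_mono (le_max_left _ _) hCX hch) hLL
      rw [hT, hLx, hn]
      exact key
    have key := H₂ X hX3 hXR (π lam) (hP lam) ps₀ hlen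
      (fun q hq => (hz q hq).2.trans (mul_le_mul_of_nonneg_right hc₂a (hLx ▸ hL.le))) q ps
      hq.ne_zero (hqX.trans (hmono _ hc₂a)) hps (X ^ δ) δ hδ0 hδ1 hδN Bd (T - 2 / 3 * D') Im D' hBd
      hTn hprem' Cw η Aw Jn hCw
      hη (by linarith) hAw ((le_max_left _ _).trans hJn1) φ hWK' pp (by
        have := (mem_T9.1 hpp).2
        omega) t ((Jn + 2 : ℕ) : ℝ) (by push_cast; exact le_rfl) d e hdp he2.2.1 hdX heX hD'.le P1
      hP0
      (by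
        rw [hP1]
        exact hN.P1X.trans (hmono _ hc₂b)) (by
        rw [hP1, hIm, hn, hLx]
        have := hN.PI
        rw [hn] at this
        exact this) γ π' hγ hπ' (hπm.trans hN.cZ) P hPp
    have hK1 : (Cw ^ 2 * (η⁻¹) ^ Jn) * (C_R * X ^ (2 * (ε / 2)) * (1 + |t|) ^ Jn *
        ((Ht ps * Ht (natl ps₀)) ^ M * Bd * Real.exp (T - 2 / 3 * D' - LF ps))) =
        k₁ * Real.exp (T - n) * ((nm d : ℝ) * nm e) ^ (-(2 / 3) : ℝ) := by
      have g1 : Real.exp (T - 2 / 3 * D' - LF ps) = Real.exp (T - n) *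
          ((nm d : ℝ) * nm e) ^ (-(2 / 3) : ℝ) := by
        rw [Real.rpow_def_of_pos hde, ← hD', ← Real.exp_add, ← hn]
        congr 1; ring
      rw [g1, hk₁]; ring
    rw [hK1] at key
    rw [hW0f, hbe, hα, hn]
    rw [hn] at key
    exact key
  have hPB := H₄ (X ^ (K + 1)) hZ1 D (N₁ / 2) N₁ (afR 1 1 be E0) E0 E1
    B (X ^ K) X' H W0f hD0 hNF.Nh (by omega) (TC_afR hsq) (FS_afR hFSb)
    (fun d e he j => T3_afR_zero he d j) (by positivity) hN.KZ hN.NZ hB0.le hN.BZ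
    hE10.le hN.E1Z hX' hN.XZ hH0 hN.cN hN.cH
    (fun ρ _ n hn => afR_sqf hsq hn) (fun ρ _ n hn => afR_win hwi hn) hSlp hRHR
  obtain ⟨RN, hRN⟩ : ∃ RN : ℕ → ℝ, RN = fun i : ℕ => RNp c₁ (X ^ K) H X' (Real.exp i) W0f
    ((JW D (1 / 10) N₁).image Prod.fst) (S E0) := ⟨_, rfl⟩
  have hK'0 : 0 < X ^ K := by positivity
  have hRN0 : ∀ i, 0 ≤ RN i := by
    intro i
    rw [hRN]
    have hc₁0 : 0 < c₁ := by linarith
    exact E3Sz579.RN2_nonneg (E3Sz579.Ld_nonneg hK'0 hH0) (E3Sz579.Md_nonneg hc₁0.le hK'0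
      (Real.exp_pos _) hH0 hX') (by positivity) (fun d e => (hSlp d e).nonneg _ (by positivity)) _ _
  rw [← hRN] at hPB
  have core := H₅ c₁ H (C_P * (X ^ (K + 1)) ^ ε') (X ^ K) (X ^ (8 * (K + 1))) X' 2 (X ^ (K + 1))
    E0 E1 B D τ τ₁ (N₁ / 2) N₁ hc₁ hH1 (by positivity) hK'0 (by positivity) hE01 hN.E0Z hNF.N1
    hN.NZ hE11 hB1 hτ hτ₁ q0 q2 q3 be hAdm hTNa hTNf 1 1 RN hRN0 hPB
  rw [omq_one] at core
  obtain ⟨U, hU⟩ : ∃ U, U = (C_T * (η⁻¹) ^ Jn * X ^ (ε / 4) * FF * (1 + |t|) ^ Jn) *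
    (X ^ K * Real.exp n) := ⟨_, rfl⟩
  have hU0 : 0 ≤ U := by rw [hU]; positivity
  rw [← hU] at hU1 hU2
  obtain ⟨Q, hQ⟩ : ∃ Q, Q = kQ * Real.exp (-(5 * (c * Lx))) *
    ((X ^ K / Real.exp n) * (k₁ * Real.exp (2 * n))) := ⟨_, rfl⟩
  have hQ0 : 0 ≤ Q := by rw [hQ]; positivity
  have hlev : ∀ i ∈ LI (1 / 10) (N₁ : ℝ), FH (X ^ K) H (Real.exp i) * RN i ≤ Q := by
    intro i hi
    have h1 := lev_no (a := a) (i := i) (k₁ := k₁) (E0 := E0) (H := H) (ε := ε / 2) (hv := hv)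
      (R := R) (D := D) (μ := μ) (c' := c') hL hLx hX0 hK.le hc hcc hcμ hμK hcK' hc₁ hR
      (by positivity) (by linarith) hNF hH0 hlHv (by rw [hhv', hFd]) hX' hXn hk₁0 hE01 h8K
      (by rw [← hFd]; exact hlE0) hi
    rw [hRN, hQ, hkQ, hW0f, hP1, hT]
    exact h1
  have hsum : ∑ i ∈ LI (1 / 10) (N₁ : ℝ), FH (X ^ K) H (Real.exp i) * RN i ≤
      ((LI (1 / 10) (N₁ : ℝ)).card : ℝ) * Q := by
    calc ∑ i ∈ LI (1 / 10) (N₁ : ℝ), FH (X ^ K) H (Real.exp i) * RN i ≤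
          ∑ _i ∈ LI (1 / 10) (N₁ : ℝ), Q := sum_le_sum hlev
      _ = _ := by rw [sum_const, nsmul_eq_mul]
  have hcard := card_LI (1 / 10) hZ1 (Nat.cast_nonneg N₁) hN.NZ hε'0
  obtain ⟨P, hPd⟩ : ∃ P, P = (X ^ (K + 1)) ^ ε' := ⟨_, rfl⟩
  rw [← hPd] at core hcard
  have hres := no_end (J₀ := max (max ((N : ℝ) ^ 2 * M) M) ((N + 1) * M)) (er := Real.exp r₃)
    hX1 hLx hL hK he₀0 he₀ε hεc hC_C hC_P hC_T hηJ (by linarith : 0 ≤ C₃) hkQ0
    (by linarith : 0 ≤ C_R) (by positivity : 0 ≤ 2 + 1 / ε') hε' hPd (Real.exp_pos r₃).le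
    (sq_nonneg Cw) hBd0 ht0 hHt1 hHt2 ((le_max_right _ _).trans (le_max_left _ _)) hG_T hG_R hFF hU
    hk₁ hQ hU1 hU2 hsum hcard core
  rw [hbe, hα, hE0d, hE1d, hBd', hn] at hres
  exact hres

end Crest.Agent.R017.NO64
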