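import Crest.Agent.R017.NOe_64
import Crest.Agent.R017.NEU_603

/-!
# Row 17, the near leaf, (Ro) (helper64): helper603's line

* `ronLn_dRn` : the line `dRn hh μ c` is `RonLn`
-/

set_option autoImplicit false

noncomputable section

namespace Crest.Agent.R017.NO64

open Crest.Agent.R012 Crest.Agent.R012.Eis
open Crest.Agent.R017.B770
open Crest.Agent.R017.Prov71
open Crest.Agent.R017.RGB545

variable {Lam : Type*}

/-- **helper603's line** -/
theorem ronLn_dRn (π : Lam → DPar) (h : ℝ → ℝ) (hh : ℝ → ℝ → ℝ → ℝ) (μ c : ℝ) :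
    RonLn π h hh μ c (LNk π h (dRn hh μ c) ()) where
  Φ := fun _ _ _ _ => le_rfl
  G := fun x θ => by
    show x 3 - (I1 hh x + μ) ≤ x 3 - (x 1 + x 2 + hh (x 0) (x 1) (x 2) - x 0 + μ)
    unfold I1
    exact le_rfl
  F := fun x θ => by
    show hh (x 0) (x 1) (x 2) / 3 - max 0 (max (L1 hh x / 3) (L1 hh x - I1 hh x / 2)) -
      (x 2 - x 4) - 2 / 3 * min (x 2 - x 4) (x 0 / 15) - (I1 hh x + μ - x 3) / 3 - μ -
      16 / 27 * max 0 ((4 * x 2 - 3 * x 0) / 9) - 4 * c ≤ _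
    unfold I1 L1 mm
    exact le_rfl
  zl := fun h => h

/-- the line with a larger constant -/
theorem ronLn_dRn' (π : Lam → DPar) (h : ℝ → ℝ) (hh : ℝ → ℝ → ℝ → ℝ) (μ : ℝ) {c e : ℝ}
    (hce : c ≤ e) : RonLn π h hh μ c (LNk π h (dRn hh μ e) ()) where
  Φ := (ronLn_dRn π h hh μ e).Φ
  G := (ronLn_dRn π h hh μ e).G
  F := fun x θ => ((ronLn_dRn π h hh μ e).F x θ).trans (by linarith)
  zl := (ronLn_dRn π h hh μ e).zl

lemma hC_eq (c K V n : ℝ) : hC c K V n = 3 * max 0 ((4 * n - 3 * K) / 9) + 3 * c := rfl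

end Crest.Agent.R017.NO64
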