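import Crest.Agent.R017.NOi_64
import Crest.Agent.R017.NOj_64

/-!
# Row 17, the near leaf, (Ro) (helper64): class N at the final constants

* **`osN`** : `NumOs` at the constants of helper551 / helper144 (`E0 = 9/22 F3 + 10 c`,
  `E1 = F3 + 20 c`, `B = 31/22 F3 + 31 c`) for any family of lines with helper603's line
  `dRn (hC (30 c)) (2000 c) (E c)`, `1 ≤ E`
-/

set_option autoImplicit false

noncomputable section

namespace Crest.Agent.R017.NO64

open Crest.Agent.R012 Crest.Agent.R012.Eis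
open Crest.Agent.R012.MC (Wgt)
open Crest.Agent.R017.FE47
open Crest.Agent.R017.B770
open Crest.Agent.R017.Prov71
open Crest.Agent.R017.RGB545
open Crest.Agent.R017.NEg551 (NLeaf)
open Crest.Agent.R017.NE499 (NumOs)

variable {Lam ι : Type*}

/-- **(Ro) at the near leaf, class N, final constants** -/
theorem osN {π : Lam → DPar} (hP : ∀ lam, (π lam).OK) {h : ℝ → ℝ} {cu : ℝ} (hpu : PU h cu)
    {w : ℝ → ℝ} (hw : Wgt w) (hw0 : ∀ x, 0 ≤ w x) {E K v c : ℝ} (hE : 1 ≤ E) (hc : 0 < c)
    (hcK : 1000000 * c ≤ K) {L : ι → Line Lam 9} {j : ι}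
    (hL : L j = LNk π h (dRn (hC (30 * c)) (2000 * c) (E * c)) ()) :
    NLeaf π h (fun q α Rn => NumOs w q.Cw q.η q.Aw q.K q.X q.K q.R q.J q.D q.E0 q.E1 (q.B / q.E0)
      (q.N₁ / 2) q.N₁ α Rn) L
      (fun _ _ m => 9 / 22 * max 0 ((4 * m - 3 * K) / 9) + 10 * c)
      (fun _ _ m => max 0 ((4 * m - 3 * K) / 9) + 20 * c)
      (fun _ _ m => 31 / 22 * max 0 ((4 * m - 3 * K) / 9) + 31 * c) K v c := by
  have hcE : c ≤ E * c := by nlinarith
  have HL : RonLn π h (hC (30 * c)) (2000 * c) c (L j) := by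
    rw [hL]
    exact ronLn_dRn' π h (hC (30 * c)) (2000 * c) hcE
  refine numos_leaf hP hpu hw hw0 (c' := 30 * c) HL (fun K V n => hC_eq (30 * c) K V n) hc le_rfl
    le_rfl (by linarith) (by linarith) ?_ ?_ ?_
  · intro a u m
    have h1 := le_max_left 0 ((4 * m - 3 * K) / 9)
    constructor
    · positivity
    · linarith
  · intro a u m
    have h1 := le_max_left 0 ((4 * m - 3 * K) / 9)
    constructor
    · positivity
    · exact le_rfl
  · intro a u m
    have h1 := le_max_left 0 ((4 * m - 3 * K) / 9)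
    constructor <;> linarith

end Crest.Agent.R017.NO64
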