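import Crest.Agent.R017.RoCa_116
import Crest.Agent.R017.E3Zc_548
import Crest.Agent.R017.E3Um_829

/-!
# Row 17, T.5 / T.7, (Ro) at the leaf (helper116): the numbers of the pairs of levels

* `PairB` : the pair bound at all pairs of levels
* `LVn_le` : the number of one side by one `T`-number and the `R`-number
* `pairs_le` : the sum over the pairs of levels
-/

set_option autoImplicit false
set_option linter.unusedVariables false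

noncomputable section

open Finset
open scoped Classical ContDiff Topology

namespace Crest.Agent.R017.RoX116

open Crest.Agent.R012 Crest.Agent.R012.Eis
open Crest.Agent.R012.LS2 (S mem_S)
open Crest.Agent.R012.Mob705 (pb mem_pb pdiv mem_pdiv)
open Crest.Agent.R017.C70 (JC OKJ JW okJ_JW)
open Crest.Agent.R017.E3F548 (MPTr)
open Crest.Agent.R017.E3T1579 (T3)
open Crest.Agent.R017.E3T829 (hE hE_nonneg)
open Crest.Agent.R017.E3Z548 (FH LVn TN JV JVc TN_nonneg)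
open Crest.Agent.R017.E3Kc548 (LI omk mem_LI card_LI)

/-- **the bound of all pairs of levels** -/
def PairB (Cp c H : ℝ) (A Bw : ℕ) (K B E1 E0 b₀ Z : ℝ) (N₁ : ℕ) (J : Finset (Eis × Eis))
    (om : Eis × Eis → ℂ) (af : Eis → Eis → Eis → ℂ) (RN : ℕ → ℝ) : Prop :=
  ∀ i ∈ LI (1 / 10) N₁, ∀ j ∈ LI (1 / 10) N₁,
    ∑ q ∈ S (N₁ : ℝ), ∑ t ∈ pb E1, MPTr (fun _ _ => True) A Bw K B (Real.exp i) (Real.exp j) (Z ^ 5)
      J (omk om i) (omk om j) (T3 af) E0 N₁ b₀ q t ≤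
    Cp * (hE (S E0) *
      (LVn af (J.image Prod.fst) (S E0) c (Z ^ 5) K H (Real.exp i) (Real.exp j) E1 B
          (Real.sqrt (c * Real.exp i)) (RN i) +
        LVn af (J.image Prod.fst) (S E0) c (Z ^ 5) K H (Real.exp j) (Real.exp i) E1 B
          (Real.sqrt (c * Real.exp j)) (RN j)))

lemma FH_eq {K H V : ℝ} (hH : 0 ≤ H) (hV : 0 ≤ V) :
    FH K H V = H ^ (-(1 / 3) : ℝ) * (K ^ (2 / 3 : ℝ) * V ^ (-(1 / 3) : ℝ)) := by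
  unfold E3Z548.FH
  rw [Real.mul_rpow hH hV]
  ring

lemma rp_le_one {x p : ℝ} (h0 : 0 ≤ x) (h1 : x ≤ 1) (hp : 0 ≤ p) : x ^ p ≤ 1 :=
  Real.rpow_le_one h0 h1 hp

/-- the four factors are at most `1` -/
lemma factors {c H K V V' N E1 B : ℝ} (hc : 1 ≤ c) (hH : 1 ≤ H) (hK : 0 < K) (hV1 : 0 < V)
    (hV : V ≤ N) (hV1' : 0 < V') (hV' : V' ≤ N) (hN : 1 ≤ N) (hE1 : 1 ≤ E1) (hB : 1 ≤ B)
    (h : c * H ^ 2 * N ^ 3 * E1 ^ 4 * B ^ 4 ≤ K ^ 2) :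
    (H * (V / V')) ^ (1 / 3 : ℝ) * (V' / K) * (E1 ^ 2 * B ^ 2 * Real.sqrt (c * V)) ≤ 1 ∧
    (H * V ^ 2 * V' * E1 ^ 3 * B ^ 2 / K ^ 2) ^ (1 / 3 : ℝ) ≤ 1 ∧
    (H ^ 2 * V ^ 3 / K ^ 2) ^ (1 / 3 : ℝ) ≤ 1 ∧ (H ^ 2 * V ^ 3 / K ^ 2) ^ (1 / 2 : ℝ) ≤ 1 := by
  have hH0 : 0 < H := by linarith
  have hc0 : 0 < c := by linarith
  have hE0 : 0 < E1 := by linarith
  have hB0 : 0 < B := by linarith
  have hN0 : 0 < N := by linarith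
  have hK2 : 0 < K ^ 2 := by positivity
  -- the third and fourth
  have a3 : H ^ 2 * V ^ 3 / K ^ 2 ≤ 1 := by
    rw [div_le_one hK2]
    refine le_trans ?_ h
    calc H ^ 2 * V ^ 3 = 1 * H ^ 2 * V ^ 3 * 1 ^ 4 * 1 ^ 4 := by ring
      _ ≤ c * H ^ 2 * N ^ 3 * E1 ^ 4 * B ^ 4 := by gcongr
  have a2 : H * V ^ 2 * V' * E1 ^ 3 * B ^ 2 / K ^ 2 ≤ 1 := by
    rw [div_le_one hK2]
    refine le_trans ?_ h
    have e1 : H ≤ H ^ 2 := by nlinarith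
    have e2 : E1 ^ 3 ≤ E1 ^ 4 := pow_le_pow_right₀ hE1 (by norm_num)
    have e3 : B ^ 2 ≤ B ^ 4 := pow_le_pow_right₀ hB (by norm_num)
    calc H * V ^ 2 * V' * E1 ^ 3 * B ^ 2 = 1 * H * (V ^ 2 * V') * E1 ^ 3 * B ^ 2 := by ring
      _ ≤ c * H ^ 2 * (N ^ 2 * N) * E1 ^ 4 * B ^ 4 := by gcongr
      _ = _ := by ring
  -- the first
  have a1 : (H * (V / V')) ^ (1 / 3 : ℝ) * V' ≤ H * N := by
    by_cases h1 : 1 ≤ H * (V / V')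
    · have h2 : (H * (V / V')) ^ (1 / 3 : ℝ) ≤ H * (V / V') := by
        calc (H * (V / V')) ^ (1 / 3 : ℝ) ≤ (H * (V / V')) ^ (1 : ℝ) :=
              Real.rpow_le_rpow_of_exponent_le h1 (by norm_num)
          _ = _ := Real.rpow_one _
      calc (H * (V / V')) ^ (1 / 3 : ℝ) * V' ≤ H * (V / V') * V' := by gcongr
        _ = H * V := by field_simp
        _ ≤ H * N := by gcongr
    · have h2 : (H * (V / V')) ^ (1 / 3 : ℝ) ≤ 1 :=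
        rp_le_one (by positivity) (not_le.1 h1).le (by norm_num)
      calc (H * (V / V')) ^ (1 / 3 : ℝ) * V' ≤ 1 * N := by gcongr
        _ ≤ H * N := by gcongr
  have a4 : H * N * (E1 ^ 2 * B ^ 2 * Real.sqrt (c * V)) ≤ K := by
    have h1 : H * N * (E1 ^ 2 * B ^ 2 * Real.sqrt (c * V)) ≤
        H * N * (E1 ^ 2 * B ^ 2 * Real.sqrt (c * N)) := by gcongr
    refine h1.trans ?_
    refine abs_le_of_sq_le_sq' ?_ hK.le |>.2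
    have h2 : Real.sqrt (c * N) ^ 2 = c * N := Real.sq_sqrt (by positivity)
    calc (H * N * (E1 ^ 2 * B ^ 2 * Real.sqrt (c * N))) ^ 2
        = H ^ 2 * N ^ 2 * E1 ^ 4 * B ^ 4 * Real.sqrt (c * N) ^ 2 := by ring
      _ = c * H ^ 2 * N ^ 3 * E1 ^ 4 * B ^ 4 := by rw [h2]; ring
      _ ≤ K ^ 2 := h
  refine ⟨?_, rp_le_one (by positivity) a2 (by norm_num),
    rp_le_one (by positivity) a3 (by norm_num), rp_le_one (by positivity) a3 (by norm_num)⟩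
  calc (H * (V / V')) ^ (1 / 3 : ℝ) * (V' / K) * (E1 ^ 2 * B ^ 2 * Real.sqrt (c * V))
      = ((H * (V / V')) ^ (1 / 3 : ℝ) * V') * (E1 ^ 2 * B ^ 2 * Real.sqrt (c * V)) / K := by ring
    _ ≤ (H * N) * (E1 ^ 2 * B ^ 2 * Real.sqrt (c * V)) / K := by gcongr
    _ ≤ 1 := by rw [div_le_one hK]; exact a4

/-- **one side of a pair** -/
theorem LVn_le {af : Eis → Eis → Eis → ℂ} {Ds EE : Finset Eis} {c Y K H V V' N E1 B RN τ : ℝ}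
    (hc : 1 ≤ c) (hH : 1 ≤ H) (hK : 0 < K) (hV1 : 0 < V)
    (hV : V ≤ N) (hV1' : 0 < V') (hV' : V' ≤ N) (hN : 1 ≤ N) (hE1 : 1 ≤ E1) (hB : 1 ≤ B)
    (h : c * H ^ 2 * N ^ 3 * E1 ^ 4 * B ^ 4 ≤ K ^ 2)
    (h1 : K ^ (2 / 3 : ℝ) * V ^ (-(1 / 3) : ℝ) *
      TN af (fun e => nm e) Ds EE (fun _ => 1) {1} (JVc c V) id ≤ τ)
    (h2 : K ^ (2 / 3 : ℝ) * V ^ (-(1 / 3) : ℝ) *
      TN af (fun e => nm e) Ds EE (fun γ => (nm γ : ℝ)⁻¹) (primBall ⌊Y⌋₊) (JV c V)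
        (fun _ => 1) ≤ τ)
    (h3 : K ^ (2 / 3 : ℝ) * V ^ (-(1 / 3) : ℝ) *
      TN af (fun e => nm e) Ds EE (fun γ => (nm γ : ℝ) ^ (-(1 / 2) : ℝ)) (primBall ⌊Y⌋₊)
        (JV c V) (fun _ => 1) ≤ τ) :
    LVn af Ds EE c Y K H V V' E1 B (Real.sqrt (c * V)) RN ≤
      6 * (H ^ (-(1 / 3) : ℝ) * τ) + FH K H V * RN := by
  obtain ⟨x1, x2, x3, x4⟩ := factors hc hH hK hV1 hV hV1' hV' hN hE1 hB h
  obtain ⟨T1, hT1⟩ : ∃ T1, T1 = TN af (fun e => nm e) Ds EE (fun _ => 1) {1} (JVc c V) id :=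
    ⟨_, rfl⟩
  obtain ⟨T2, hT2⟩ : ∃ T2, T2 = TN af (fun e => nm e) Ds EE (fun γ => (nm γ : ℝ)⁻¹)
    (primBall ⌊Y⌋₊) (JV c V) (fun _ => 1) := ⟨_, rfl⟩
  obtain ⟨T3', hT3⟩ : ∃ T3', T3' = TN af (fun e => nm e) Ds EE
    (fun γ => (nm γ : ℝ) ^ (-(1 / 2) : ℝ)) (primBall ⌊Y⌋₊) (JV c V) (fun _ => 1) := ⟨_, rfl⟩
  have p1 : 0 ≤ T1 := by
    rw [hT1]; exact TN_nonneg _ (fun e => Nat.cast_nonneg _) _ _ (fun _ => zero_le_one) _ _ _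
  have p2 : 0 ≤ T2 := by
    rw [hT2]; exact TN_nonneg _ (fun e => Nat.cast_nonneg _) _ _ (fun _ => by positivity) _ _ _
  have p3 : 0 ≤ T3' := by
    rw [hT3]; exact TN_nonneg _ (fun e => Nat.cast_nonneg _) _ _ (fun _ => by positivity) _ _ _
  unfold E3Z548.LVn
  rw [← hT1] at h1 ⊢
  rw [← hT2] at h2 ⊢
  rw [← hT3] at h3 ⊢
  have hH0 : 0 < H := by linarith
  have hF := FH_eq (K := K) hH0.le hV1.le
  have hh : 0 ≤ H ^ (-(1 / 3) : ℝ) := by positivity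
  have hF0 : 0 ≤ K ^ (2 / 3 : ℝ) * V ^ (-(1 / 3) : ℝ) := by positivity
  obtain ⟨F, hFd⟩ : ∃ F, F = K ^ (2 / 3 : ℝ) * V ^ (-(1 / 3) : ℝ) := ⟨_, rfl⟩
  rw [← hFd] at h1 h2 h3 hF hF0
  have hFF : 0 ≤ FH K H V := by rw [hF]; positivity
  calc FH K H V * ((1 + (H * (V / V')) ^ (1 / 3 : ℝ) * (V' / K) *
          (E1 ^ 2 * B ^ 2 * Real.sqrt (c * V)) +
          (H * V ^ 2 * V' * E1 ^ 3 * B ^ 2 / K ^ 2) ^ (1 / 3 : ℝ)) * T1 +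
        (1 + (H ^ 2 * V ^ 3 / K ^ 2) ^ (1 / 3 : ℝ)) * T2 +
        (H ^ 2 * V ^ 3 / K ^ 2) ^ (1 / 2 : ℝ) * T3' + RN)
      ≤ FH K H V * ((1 + 1 + 1) * T1 + (1 + 1) * T2 + 1 * T3' + RN) := by gcongr
    _ = 3 * (H ^ (-(1 / 3) : ℝ) * (F * T1)) + 2 * (H ^ (-(1 / 3) : ℝ) * (F * T2)) +
        H ^ (-(1 / 3) : ℝ) * (F * T3') + FH K H V * RN := by rw [hF]; ring
    _ ≤ 3 * (H ^ (-(1 / 3) : ℝ) * τ) + 2 * (H ^ (-(1 / 3) : ℝ) * τ) +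
        H ^ (-(1 / 3) : ℝ) * τ + FH K H V * RN := by gcongr
    _ = _ := by ring

/-- **the sum over the pairs of levels** -/
theorem pairs_le {L : Finset ℕ} {M : ℕ → ℕ → ℝ} {x R : ℕ → ℝ} {Cp h T : ℝ} (hCp : 0 ≤ Cp)
    (hh : 0 ≤ h) (hM : ∀ i ∈ L, ∀ j ∈ L, M i j ≤ Cp * (h * ((T + R i) + (T + R j)))) :
    ∑ i ∈ L, ∑ j ∈ L, M i j ≤
      2 * Cp * h * L.card * (L.card * T + ∑ i ∈ L, R i) := by
  calc ∑ i ∈ L, ∑ j ∈ L, M i j ≤ ∑ i ∈ L, ∑ j ∈ L, Cp * (h * ((T + R i) + (T + R j))) :=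
        sum_le_sum fun i hi => sum_le_sum fun j hj => hM i hi j hj
    _ = Cp * (h * ∑ i ∈ L, ∑ j ∈ L, ((T + R i) + (T + R j))) := by
        simp only [mul_sum]
    _ = _ := by
        simp only [sum_add_distrib, sum_const, nsmul_eq_mul]
        rw [← mul_sum]
        ring

end Crest.Agent.R017.RoX116
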