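import Crest.Agent.R017.E3Sz3_579
import Crest.Agent.R017.E3Kc_548
import Crest.Agent.R017.RoCb_116

/-!
# Row 17, R8 (E3) (helper579): the pairs of levels from (RH)

* `pairB_of` : `PAIR_RH2'` at the levels `V = e ^ i` of helper548, for a smooth weight
* `pairB_N` : helper116's `PairB` in class N
-/

set_option autoImplicit false
set_option linter.unusedVariables false

noncomputable section

open Finset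
open scoped ComplexConjugate Classical ContDiff

namespace Crest.Agent.R017.RoP579

open Crest.Agent.R012 Crest.Agent.R012.Eis Crest.Agent.R012.MC
open Crest.Agent.R012.LS2 (S mem_S bl mem_bl)
open Crest.Agent.R012.Mob705 (pb mem_pb pdiv mem_pdiv)
open Crest.Agent.R012.Weight600 (pw)
open Crest.Agent.R017.CM106 (CS FS)
open Crest.Agent.R017.C70 (JC OKJ JW okJ_JW)
open Crest.Agent.R017.HB645 (hh contDiff_hh)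
open Crest.Agent.R017.E1551 (nmpos)
open Crest.Agent.R017.E3A164 (Yp Ys Cs mem_Cs)
open Crest.Agent.R017.GrB829 (IsC)
open Crest.Agent.R017.E3M829 (TC)
open Crest.Agent.R017.E3T829
open Crest.Agent.R017.E3T1579 (T3 WQ)
open Crest.Agent.R017.E3T2579 (wL w1L)
open Crest.Agent.R017.E3F548 (pc MPTr isC_ne)
open Crest.Agent.R017.Mode405
open Crest.Agent.R017.E3Sx579 (RHR)
open Crest.Agent.R017.E3Z548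
open Crest.Agent.R017.E3Sz579
open Crest.Agent.R017.E3Kc548

lemma JW_nm {D Y₀ Y₁ : ℝ} {x : Eis × Eis} (hx : x ∈ JW D Y₀ Y₁) :
    (nm x.1 : ℝ) ≤ Y₁ ∧ (nm x.2 : ℝ) ≤ Y₁ := by
  obtain ⟨-, h2⟩ := mem_JW_win hx
  have h1 := nmpos ((okJ_JW D Y₀ Y₁).prim x hx).ne_zero
  have h3 := nm_pos_J (okJ_JW D Y₀ Y₁) hx
  have e : nm (x.2 * x.1 ^ 2) = nm x.2 * nm x.1 ^ 2 := by
    rw [Eis.nm_mul, Eis.nm_pow]
  rw [e] at h2 h3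
  have h4 : 0 < nm x.2 := Nat.pos_of_mul_pos_right h3
  have h5 : 1 ≤ nm x.1 := by exact_mod_cast h1
  have k1 : nm x.1 ≤ nm x.2 * nm x.1 ^ 2 := by nlinarith [Nat.mul_le_mul h4 h5]
  have k2 : nm x.2 ≤ nm x.2 * nm x.1 ^ 2 := Nat.le_mul_of_pos_right _ (by positivity)
  exact ⟨le_trans (by exact_mod_cast k1) h2, le_trans (by exact_mod_cast k2) h2⟩

/-- the `R`-number of the level `V` -/
def RNp (c K H X V : ℝ) (W0 : Eis → Eis → ℝ → ℝ) (Ds EE : Finset Eis) : ℝ :=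
  RN2 (Ld K V H) (Md c K V H X) (X * V * H / K) (fun d e => W0 d e (c * (X * V * H / K))) Ds EE

/-- **the pairs of levels from (RH)** -/
theorem pairB_of {R0 : ℝ} (hR0 : 0 ≤ R0) (a A₁ : ℕ) (hA₁ : 1 < A₁) {b₀ : ℝ} (hb₀ : 0 ≤ b₀)
    {ε : ℝ} (hε : 0 < ε) (hε1 : ε ≤ 1) :
    ∃ (A₀ : ℕ) (c : ℝ), 1 ≤ c ∧ ∀ A : ℕ, A₀ ≤ A → ∀ Bw : ℕ, 4 ≤ Bw → ∃ C : ℝ, 0 ≤ C ∧
    ∀ (Om : ℝ → ℂ) (Mb : ℝ), 0 ≤ Mb → ContDiff ℝ ∞ Om →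
      (∀ n ≤ A + 2, ∀ x, ‖iteratedDeriv n Om x‖ ≤ Mb) →
    ∀ (τ : ℝ) (κ : ℂ), ‖κ‖ ≤ 1 → ∀ (Z : ℝ), 1 ≤ Z →
    ∀ (D Y₀ : ℝ) (N₁ : ℕ) (om : Eis × Eis → ℂ) (af : Eis → Eis → Eis → ℂ)
      (E0 E1 B K X H : ℝ) (W0 : Eis → Eis → ℝ → ℝ), 0 ≤ D →
      (∀ x ∈ JW D Y₀ N₁, om x = κ * (Om (Real.log (nm (x.2 * x.1 ^ 2))) * pw τ (nm x.2))) →
      (∀ n : ℕ, 0 < n → Om (Real.log n) ≠ 0 → Y₀ < n ∧ (n : ℝ) ≤ N₁) →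
      TC (T3 af) → (∀ d e, FS (af d e)) → (∀ d e, e ∉ S E0 → ∀ j, T3 af d e j = 0) →
      0 < K → K ≤ Z ^ 5 → (N₁ : ℝ) ≤ Z → 0 ≤ B → B ≤ Z → 0 ≤ E1 → E1 ≤ Z →
      0 < X → X ≤ Z ^ 5 → 0 < H → c * (Real.exp 1 * N₁) ≤ Z ^ 5 →
      c * (H * (Real.exp 1 * N₁) ^ 2) ≤ K * X →
      (∀ ρ ∈ RR (JW D Y₀ N₁) (S E0), ∀ n, af ρ.1 ρ.2 n ≠ 0 → Squarefree n) →
      (∀ ρ ∈ RR (JW D Y₀ N₁) (S E0), ∀ n, af ρ.1 ρ.2 n ≠ 0 →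
        |Real.log (nm ρ.1 * nm n) - Real.log X| ≤ R0) →
      (∀ d e, Slp a (W0 d e)) → RHR (c * Z ^ 300) A₁ (RR (JW D Y₀ N₁) (S E0)) af W0 →
      ∀ i ∈ LI Y₀ N₁, ∀ j ∈ LI Y₀ N₁, ∑ q ∈ S (N₁ : ℝ), ∑ t ∈ pb E1,
        MPTr (fun _ _ => True) A Bw K B (Real.exp i) (Real.exp j) (Z ^ 5) (JW D Y₀ N₁)
          (omk om i) (omk om j) (T3 af) E0 N₁ b₀ q t ≤
        (C * Mb ^ 2 * (1 + |τ|) ^ A * Z ^ ε) * (hE (S E0) *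
          (LVn af ((JW D Y₀ N₁).image Prod.fst) (S E0) c (Z ^ 5) K H (Real.exp i) (Real.exp j)
            E1 B (Real.sqrt (c * Real.exp i))
            (RNp c K H X (Real.exp i) W0 ((JW D Y₀ N₁).image Prod.fst) (S E0)) +
          LVn af ((JW D Y₀ N₁).image Prod.fst) (S E0) c (Z ^ 5) K H (Real.exp j) (Real.exp i)
            E1 B (Real.sqrt (c * Real.exp j))
            (RNp c K H X (Real.exp j) W0 ((JW D Y₀ N₁).image Prod.fst) (S E0)))) := by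
  obtain ⟨w1, hW1, hw, hw1⟩ := exists_w1
  obtain ⟨A₀, c, hc, h1⟩ := PAIR_RH2' (by norm_num : (0 : ℝ) ≤ 3) contDiff_hh hhc hW1 hw hw1 hR0 a
    A₁ hA₁ hb₀ hε hε1
  refine ⟨A₀, c, hc, fun A hA Bw hBw => ?_⟩
  obtain ⟨C, hC, h2⟩ := h1 A hA Bw hBw
  refine ⟨C, hC, ?_⟩
  intro Om Mb hMb hOm hOb τ κ hκ Z hZ D Y₀ N₁ om af E0 E1 B K X H W0 hD hom hwin hT haf hEE hK hKZ
    hN hB0 hBZ hE0 hE1 hX hXZ hH hcN hcH hsf hwi hS hRH i hi j hj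
  have hc0 : 0 < c := by linarith
  have hN0 : (0 : ℝ) ≤ N₁ := Nat.cast_nonneg _
  have hlev : ∀ i ∈ LI Y₀ (N₁ : ℝ), c * Real.exp i ≤ Z ^ 5 ∧
      c * (H * Real.exp i ^ 2) ≤ K * X := by
    intro i hi
    obtain ⟨-, -, h3⟩ := mem_LI hi
    have h0 := Real.exp_pos (i : ℝ)
    refine ⟨(mul_le_mul_of_nonneg_left h3 hc0.le).trans hcN, le_trans ?_ hcH⟩
    gcongr
  exact h2 Om Om Mb hMb hOm hOm hOb hOb (Real.exp i) (Real.exp j) τ κ κ (Real.exp_pos _)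
    (Real.exp_pos _) hκ hκ Z hZ (fun _ _ => True) (JW D Y₀ N₁) (omk om i) (omk om j) af (S E0) E0
    E1 N₁ B K X H (Real.sqrt (c * Real.exp i)) (Real.sqrt (c * Real.exp j)) W0 W0 hT haf
    (okJ_JW D Y₀ N₁) hEE hK hN0 hN hB0 hBZ hE0 hE1 (fun x hx => (JW_nm hx).1.trans hN)
    (fun x hx => (JW_nm hx).2)
    (omk_WQ hD hN0 hom i fun n h3 _ h5 => hwin n h3 h5)
    (omk_WQ hD hN0 hom j fun n h3 _ h5 => hwin n h3 h5) hX hH (Real.sqrt_nonneg _)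
    (Real.sqrt_nonneg _) hKZ hXZ (hlev i hi).1 (hlev j hj).1 (hlev i hi).2 (hlev j hj).2
    (Or.inl le_rfl) (Or.inl le_rfl) hsf hwi hS hS hRH hRH

/-- **helper116's `PairB` from (RH)** -/
theorem pairB_N {R0 : ℝ} (hR0 : 0 ≤ R0) (a A₁ : ℕ) (hA₁ : 1 < A₁) {b₀ : ℝ} (hb₀ : 0 ≤ b₀)
    {ε : ℝ} (hε : 0 < ε) (hε1 : ε ≤ 1) :
    ∃ (A₀ : ℕ) (c : ℝ), 1 ≤ c ∧ ∀ A : ℕ, A₀ ≤ A → ∀ Bw : ℕ, 4 ≤ Bw → ∃ C : ℝ, 0 ≤ C ∧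
    ∀ (Z : ℝ), 1 ≤ Z → ∀ (D : ℝ) (N₀ N₁ : ℕ) (af : Eis → Eis → Eis → ℂ)
      (E0 E1 B K X H : ℝ) (W0 : Eis → Eis → ℝ → ℝ), 0 ≤ D → 1 ≤ N₀ → 2 * N₀ ≤ N₁ →
      TC (T3 af) → (∀ d e, FS (af d e)) → (∀ d e, e ∉ S E0 → ∀ j, T3 af d e j = 0) →
      0 < K → K ≤ Z ^ 5 → (N₁ : ℝ) ≤ Z → 0 ≤ B → B ≤ Z → 0 ≤ E1 → E1 ≤ Z →
      0 < X → X ≤ Z ^ 5 → 0 < H → c * (Real.exp 1 * N₁) ≤ Z ^ 5 →
      c * (H * (Real.exp 1 * N₁) ^ 2) ≤ K * X →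
      (∀ ρ ∈ RR (JW D (1 / 10) N₁) (S E0), ∀ n, af ρ.1 ρ.2 n ≠ 0 → Squarefree n) →
      (∀ ρ ∈ RR (JW D (1 / 10) N₁) (S E0), ∀ n, af ρ.1 ρ.2 n ≠ 0 →
        |Real.log (nm ρ.1 * nm n) - Real.log X| ≤ R0) →
      (∀ d e, Slp a (W0 d e)) → RHR (c * Z ^ 300) A₁ (RR (JW D (1 / 10) N₁) (S E0)) af W0 →
      RoX116.PairB (C * Z ^ ε) c H A Bw K B E1 E0 b₀ Z N₁ (JW D (1 / 10) N₁)
        (I1146.omr (LBo813.Om N₀ N₁)) af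
        (fun i => RNp c K H X (Real.exp i) W0 ((JW D (1 / 10) N₁).image Prod.fst) (S E0)) := by
  obtain ⟨A₀, c, hc, h1⟩ := pairB_of hR0 a A₁ hA₁ hb₀ hε hε1
  refine ⟨A₀, c, hc, fun A hA Bw hBw => ?_⟩
  obtain ⟨C, hC, h2⟩ := h1 A hA Bw hBw
  obtain ⟨M, hM, hMb⟩ := RoX116.OmS_bd (A + 2)
  refine ⟨C * M ^ 2, by positivity, ?_⟩
  intro Z hZ D N₀ N₁ af E0 E1 B K X H W0 hD hN0 hN01 hT haf hEE hK hKZ
    hN hB0 hBZ hE0 hE1 hX hXZ hH hcN hcH hsf hwi hS hRH i hi j hj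
  have key := h2 (RoX116.OmS N₀ N₁) M hM (RoX116.contDiff_OmS N₀ N₁) (hMb N₀ N₁ hN0 hN01) 0 1
    (by simp) Z hZ D (1 / 10) N₁ (I1146.omr (LBo813.Om N₀ N₁)) af E0 E1 B K X H W0 hD
    (fun x _ => RoX116.OmS_om N₀ N₁ x) (fun n hn hne => RoX116.OmS_win hN0 (by omega) n hn hne)
    hT haf hEE hK hKZ hN hB0 hBZ hE0 hE1 hX hXZ hH hcN hcH hsf hwi hS hRH i hi j hj
  refine key.trans (le_of_eq ?_)
  rw [abs_zero, add_zero, one_pow, mul_one]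

end Crest.Agent.R017.RoP579
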