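import Crest.Agent.R017.RoY_116
import Crest.Agent.R017.RoPx_744

/-!
# Row 17, T.7, (Ro) at the leaf, exceptional class (helper116): the pair bound is known

* `pairX` : helper744's `pairB_Nx` is `PairX`
* `ro_leafX` : **the leaf of (Ro)**, exceptional class, unconditional
-/

set_option autoImplicit false

noncomputable section

namespace Crest.Agent.R017.RoX116

open Crest.Agent.R012 Crest.Agent.R012.Eis
open Crest.Agent.R012.MC (Wgt)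
open Crest.Agent.R017.FE47 (PU)
open Crest.Agent.R017.B770
open Crest.Agent.R017.Sup271 (NPm)
open Crest.Agent.R017.RGB545 (LE)
open Crest.Agent.R017.RXk848 (RLeafXL)
open Crest.Agent.R017.RLD381 (NRo BeAll)

/-- the pair bound in classes -/
theorem pairX : PairX := by
  intro R0 hR0 a A₁ hA₁ b₀ hb₀ ε hε hε1
  obtain ⟨A₀, c, hc, h⟩ := RoPx744.pairB_Nx hR0 a A₁ hA₁ hb₀ hε hε1
  refine ⟨A₀, c, hc, fun A hA Bw hBw => ?_⟩
  obtain ⟨C, hC, h⟩ := h A hA Bw hBw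
  refine ⟨C, hC, ?_⟩
  intro Z hZ D N₀ N₁ af E0 E1 B K X H u W0 hu hup hD hN0 hN01
  exact h Z hZ D N₀ N₁ af E0 E1 B K X H u W0 hD hN0 hN01 hu hup

/-- **the leaf of (Ro), exceptional class** -/
theorem ro_leafX {Lam : Type*} {π : Lam → DPar} {h : ℝ → ℝ} {c₁ : ℝ} (hpu : PU h c₁)
    (hπ : ∀ lam, (π lam).OK) (hnp : ∀ lam, ¬ NPm (π lam).n (π lam).ψ (π lam).l₂ 1)
    {w : ℝ → ℝ} (hw : Wgt w) (hw0 : ∀ x, 0 ≤ w x) {K c μ b d₀ y : ℝ} (hc : 0 < c)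
    (hμ : 1000 * c ≤ μ) (hμ1 : μ ≤ 1) (hK : 2000 * c ≤ K) (hb : 8 * (K + 1) ≤ b)
    (hd₀ : 0 ≤ d₀) (hy : 20 ≤ y) :
    RLeafXL π h (fun Λ => BeAll (NRo w Λ)) (LE π h c μ) K c b d₀ y :=
  roX_leaf pairX hpu hπ hnp hw hw0 hc hμ hμ1 hK hb hd₀ hy

end Crest.Agent.R017.RoX116
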