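import Crest.Agent.R017.NOxj_116
import Crest.Agent.R017.RoZ_116

/-!
# Row 17, FlatNE, (Ro) at the near leaf, exceptional class (helper126): the leaf

* `fin_nx`    : the last inequality
* `nosl_X` : `NumOs` at the near leaf, exceptional class
-/

set_option autoImplicit false
set_option linter.unusedVariables false

noncomputable section

open Finset
open scoped Classical

namespace Crest.Agent.R017.NOq126

open Crest.Agent.R012 Crest.Agent.R012.Eis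
open Crest.Agent.R012.MC (Wgt)
open Crest.Agent.R012.LS2 (S mem_S bl mem_bl)
open Crest.Agent.R012.Weight600 (pw)
open Crest.Agent.R017.FE47 (PU)
open Crest.Agent.R017.B770
open Crest.Agent.R017.Prov71
open Crest.Agent.R017.Leg381 (Pf alF LF natl)
open Crest.Agent.R017.C70 (JC OKJ JW okJ_JW)
open Crest.Agent.R017.CM106 (CS FS)
open Crest.Agent.R017.E1551 (Adm)
open Crest.Agent.R017.E3A164 (Ys Fy)
open Crest.Agent.R017.E3M829 (Sg Tal W0 exists_W0)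
open Crest.Agent.R017.PX764 (n6)
open Crest.Agent.R017.PoHx72 (Cls)
open Crest.Agent.R017.R3571 (RMm W2)
open Crest.Agent.R017.LBo813 (Om)
open Crest.Agent.R017.I1146 (omr)
open Crest.Agent.R017.RGw813 (bt T9 adm_bt FS_of_S)
open Crest.Agent.R017.LBx48 (adm_mono)
open Crest.Agent.R017.Win813 (WK)
open Crest.Agent.R017.QsO83 (bw)
open Crest.Agent.R017.Sup271 (NPm)
open Crest.Agent.R017.XP699 (LL Chd hcost cst)
open Crest.Agent.R017.RG64 (SbL Ht one_le_Ht)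
open Crest.Agent.R017.RGB545 (Line Th TK rbx hC)
open Crest.Agent.R017.RX298 (xs NNumX NLeafX LF_rp rp_length exists_XDp zt norm_zt)
open Crest.Agent.R017.RXk848 (LnP Lmp)
open Crest.Agent.R017.NEg551 (NNum NFacts)
open Crest.Agent.R017.NE73 (gN)
open Crest.Agent.R017.NE499 (NumOs)
open Crest.Agent.R017.NOt126 (F3n leafT_X)
open Crest.Agent.R017.NO64 (mm sg TTe nf_facts)
open Crest.Agent.R017.RoX116

/-- the last inequality -/
lemma fin_nx {eγ A B CT X2 XE Ch W2 V HM H1 H6 HJ Bd E2 q C e3 : ℝ} (hq : 0 ≤ q) (hE2 : 0 ≤ E2)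
    (hV : 0 ≤ V) (hBd : 1 ≤ Bd) (hCT : 0 ≤ CT) (hCh : 0 ≤ Ch) (hW2 : 0 ≤ W2) (heγ : 0 ≤ eγ)
    (hX2 : 0 ≤ X2) (he3 : 0 ≤ e3) (hA : A ≤ (CT * X2 * H1 * Bd * V) * (q * E2))
    (hB : B ≤ e3 * ((CT * X2 * H1 * Bd * V) * (q * E2))) (h1 : H1 ≤ HJ) (hM : HM ≤ HJ)
    (h6 : H6 ≤ HJ) (hH1 : 0 ≤ H1) (hHM : 0 ≤ HM) (hH6 : 0 ≤ H6) (hx1 : eγ * X2 ≤ XE)
    (hx2 : eγ * eγ ≤ XE) (hC : CT * (1 + e3) + 2 * (W2 * Ch) ≤ C) :
    eγ * (A + B + 1 * (q * ((W2 * (Ch * eγ * V * (HM * Bd)) + W2 * (Ch * eγ * V * H6)) * E2))) ≤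
      q * ((C * XE * HJ * Bd * E2) * V) := by
  have hBd0 : 0 ≤ Bd := by linarith
  have hXE : 0 ≤ XE := (mul_nonneg heγ heγ).trans hx2
  have hJ0 : 0 ≤ HJ := hH1.trans h1
  have p0 : 0 ≤ q * E2 := mul_nonneg hq hE2
  have a1 : eγ * (A + B) ≤ CT * (1 + e3) * XE * HJ * Bd * V * (q * E2) := by
    have b1 : A + B ≤ (1 + e3) * ((CT * X2 * H1 * Bd * V) * (q * E2)) := by linarith
    calc eγ * (A + B) ≤ eγ * ((1 + e3) * ((CT * X2 * H1 * Bd * V) * (q * E2))) := by gcongr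
      _ = CT * (1 + e3) * (eγ * X2) * H1 * Bd * V * (q * E2) := by ring
      _ ≤ CT * (1 + e3) * XE * HJ * Bd * V * (q * E2) := by gcongr
  have a2 : eγ * (q * ((W2 * (Ch * eγ * V * (HM * Bd)) + W2 * (Ch * eγ * V * H6)) * E2)) ≤
      2 * (W2 * Ch) * XE * HJ * Bd * V * (q * E2) := by
    have b1 : HM * Bd + H6 ≤ 2 * (HJ * Bd) := by
      have c1 : HM * Bd ≤ HJ * Bd := mul_le_mul_of_nonneg_right hM hBd0
      have c2 : H6 ≤ HJ * Bd := h6.trans (le_mul_of_one_le_right hJ0 hBd)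
      linarith
    calc eγ * (q * ((W2 * (Ch * eγ * V * (HM * Bd)) + W2 * (Ch * eγ * V * H6)) * E2)) =
          W2 * Ch * (eγ * eγ) * (HM * Bd + H6) * V * (q * E2) := by ring
      _ ≤ W2 * Ch * XE * (2 * (HJ * Bd)) * V * (q * E2) := by
          have : 0 ≤ HM * Bd + H6 := by positivity
          gcongr
      _ = _ := by ring
  have a3 : (CT * (1 + e3) + 2 * (W2 * Ch)) * (XE * HJ * Bd * V * (q * E2)) ≤
      C * (XE * HJ * Bd * V * (q * E2)) := mul_le_mul_of_nonneg_right hC (by positivity)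
  calc eγ * (A + B + 1 * (q * ((W2 * (Ch * eγ * V * (HM * Bd)) +
        W2 * (Ch * eγ * V * H6)) * E2))) =
        eγ * (A + B) + eγ * (q * ((W2 * (Ch * eγ * V * (HM * Bd)) +
          W2 * (Ch * eγ * V * H6)) * E2)) := by ring
    _ ≤ CT * (1 + e3) * XE * HJ * Bd * V * (q * E2) +
        2 * (W2 * Ch) * XE * HJ * Bd * V * (q * E2) := add_le_add a1 a2
    _ = (CT * (1 + e3) + 2 * (W2 * Ch)) * (XE * HJ * Bd * V * (q * E2)) := by ring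
    _ ≤ C * (XE * HJ * Bd * V * (q * E2)) := a3
    _ = _ := by ring

set_option maxHeartbeats 6400000 in
/-- **(Ro) at the near leaf**, exceptional class -/
theorem nosl_X {Lam ι : Type*} {p : ℕ} {π : Lam → DPar} (hP : ∀ lam, (π lam).OK)
    (hnp : ∀ lam, ¬ NPm (π lam).n (π lam).ψ (π lam).l₂ 1) {h : ℝ → ℝ} {c₁ : ℝ} (hpu : PU h c₁)
    {w : ℝ → ℝ} (hw : Wgt w) (hw0 : ∀ x, 0 ≤ w x)
    {L : ι → Line Lam p} {j : ι} {K v c c' e₁ d μ : ℝ} (HL : RonX π h (hC c') μ c (L j))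
    (hc : 0 < c) (hcc : 30 * c ≤ c') (hcc2 : c' ≤ 40 * c) (hcK : 1000000 * c ≤ K)
    (hμ0 : 2000 * c ≤ μ) (hμ1 : 100 * μ ≤ K) (hd : 0 ≤ d)
    {φ₀ φ₁ φβ : ℝ → ℝ → ℝ → ℝ}
    (h0 : ∀ a u m, 0 ≤ φ₀ a u m ∧ φ₀ a u m ≤ 4 / 9 * max 0 ((4 * m - 3 * K) / 9) + 10 * c)
    (h1 : ∀ a u m, 0 ≤ φ₁ a u m ∧ φ₁ a u m ≤ max 0 ((4 * m - 3 * K) / 9) + 20 * c)
    (h2 : ∀ a u m, 0 ≤ φβ a u m - φ₀ a u m ∧
      φβ a u m - φ₀ a u m ≤ max 0 ((4 * m - 3 * K) / 9) + 21 * c) :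
    NLeafX π h (fun q α Rn => NumOs w q.Cw q.η q.Aw q.K q.X q.K q.R q.J q.D q.E0 q.E1
      (q.B / q.E0) (q.N₁ / 2) q.N₁ α Rn) L φ₀ φ₁ φβ K v c e₁ d := by
  have hK : 0 < K := by linarith
  have hcK' : 1000 * c' ≤ K := by linarith
  intro lam N c₀ hc₀
  obtain ⟨c₂, hc₂⟩ : ∃ c₂, c₂ = c₀ + 10 * K + 10 := ⟨_, rfl⟩
  refine ⟨2 * c₂ + 2, by rw [hc₂]; linarith, fun ε M hε hM => ?_⟩
  obtain ⟨a, ha, HR⟩ := rh_near (v := v) (e₁ := e₁) hpu hP hnp HL hc hcc hcc2 hcK hμ0 hμ1 hd lam N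
    hc₀ hc₂.ge hε hM
  obtain ⟨J₁, δ₁, hJ₁, hδ₁, HT⟩ := leafT_X (v := v) (e₁ := e₁) hP hnp hpu hc hcc hcK' hd lam N c₀
    hc₀ ε (ε / 2) M hε (by positivity) hM
  have hN0 : (0 : ℝ) ≤ N := Nat.cast_nonneg N
  have hN2M : 0 ≤ (N : ℝ) ^ 2 * M := by positivity
  refine ⟨max J₁ ((N : ℝ) ^ 2 * M + M + 12), min δ₁ (min 1 (ε / 8 / (3 * N + 3))),
    le_max_of_le_left hJ₁, lt_min hδ₁ (lt_min one_pos (by positivity)), ?_⟩
  intro δ Jn Aw Cw R η S' hδ0 hδ hJn hAw hCw hR hη hη2 hS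
  have hδ1 : δ ≤ 1 := hδ.trans ((min_le_right _ _).trans (min_le_left _ _))
  have hδN : 3 * (N : ℝ) * δ ≤ ε / 8 := by
    have h1 : δ ≤ ε / 8 / (3 * N + 3) := hδ.trans ((min_le_right _ _).trans (min_le_right _ _))
    rw [le_div_iff₀ (by positivity)] at h1
    nlinarith
  have hJ1n : J₁ ≤ Jn := (le_max_left _ _).trans hJn
  have hJ2n : (N : ℝ) ^ 2 * M + M + 12 ≤ Jn := (le_max_right _ _).trans hJn
  obtain ⟨W, b₀, hb₀, hW⟩ := exists_W0 hw hw0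
  obtain ⟨e₀, he₀⟩ : ∃ x : ℝ, x = min 1 ε := ⟨_, rfl⟩
  have he₀0 : 0 < e₀ := by rw [he₀]; exact lt_min one_pos hε
  have he₀1 : e₀ ≤ 1 := by rw [he₀]; exact min_le_left _ _
  have he₀ε : e₀ ≤ ε := by rw [he₀]; exact min_le_right _ _
  obtain ⟨ε₁, hε₁⟩ : ∃ e, e = e₀ / (48 * (3 * K + 1)) := ⟨_, rfl⟩
  have hε₁0 : 0 < ε₁ := by rw [hε₁]; positivity
  have hε₁1 : ε₁ ≤ 1 := by
    rw [hε₁, div_le_one (by positivity)]; linarith
  obtain ⟨A₀, cp, hcp, HPx⟩ := pairX 1 zero_le_one a (Jn + 2) (by omega) b₀ hb₀.le ε₁ hε₁0 hε₁1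
  obtain ⟨Cb, hCb, HPx⟩ := HPx (max A₀ 2) (le_max_left _ _) 4 le_rfl
  obtain ⟨Cc, hCc, HC⟩ := ro_core4 hw hW (A := max A₀ 2) (Bw := 4) (by
      have := le_max_right A₀ 2
      omega) (by norm_num) hε₁0
  obtain ⟨Ch, rh, Xh, hCh, hrh, HR⟩ := HR δ Jn Aw Cw R η S' cp hδ0 hδ1 hδN hJ2n hAw hCw hR hη
    hη2 hS hcp
  obtain ⟨CT, XT, hCT, HT⟩ := HT δ Jn Aw Cw η S' hδ0 (hδ.trans (min_le_left _ _)) hJ1n hAw hCw
    hη hη2 hS cp hcp
  obtain ⟨Rx, Cx, hRx, hCx, hXD⟩ := exists_XDp hpu N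
  have hcp0 : 0 < cp := by linarith
  have hlcp : 0 ≤ Real.log cp := Real.log_nonneg hcp
  obtain ⟨G1, hG1⟩ : ∃ G, G = 3200 * (1 + 1 / ε₁) := ⟨_, rfl⟩
  obtain ⟨G2, hG2⟩ : ∃ G, G = Cc * (1 + Cb) * ((2 + 1 / ε₁) *
    ((3 + cp + cp * cp ^ (1 / 3 : ℝ)) * Real.exp (5 * (R + 6)))) := ⟨_, rfl⟩
  have hG10 : 0 ≤ G1 := by rw [hG1]; positivity
  have hG20 : 0 ≤ G2 := by rw [hG2]; positivity
  have hG12 : 1 ≤ G1 + G2 + 1 := by linarith
  have hlG : 0 ≤ Real.log (G1 + G2 + 1) := Real.log_nonneg hG12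
  obtain ⟨T₀, hT₀⟩ : ∃ T : ℝ, T = 20 + Real.log cp + R + Rx + Real.log (G1 + G2 + 1) := ⟨_, rfl⟩
  have hT₀0 : 0 < T₀ := by rw [hT₀]; linarith
  obtain ⟨W2', hW2'⟩ : ∃ x, x = Cw ^ 2 * (η⁻¹) ^ Jn := ⟨_, rfl⟩
  have hW20 : 0 ≤ W2' := by rw [hW2']; positivity
  have he3 : 0 < Real.exp 3 := Real.exp_pos 3
  have hCWC : 0 ≤ W2' * Ch := mul_nonneg hW20 (by linarith)
  have hCTe : 0 ≤ CT * Real.exp 3 := mul_nonneg (by linarith) he3.le
  obtain ⟨C, hCd⟩ : ∃ C, C = Ch + (CT * (1 + Real.exp 3) + 2 * (W2' * Ch)) := ⟨_, rfl⟩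
  have hCE : CT * (1 + Real.exp 3) = CT + CT * Real.exp 3 := by ring
  have hCCh : Ch ≤ C := by rw [hCd, hCE]; linarith
  have hCCT : CT ≤ C := by rw [hCd, hCE]; linarith
  have hC0 : 0 ≤ C := by linarith
  refine ⟨C, max rh CT, max (max Xh XT) (max Cx (Real.exp (T₀ / c + 8 * T₀ / ε + T₀))), hC0,
    le_max_of_le_left hrh, ?_⟩
  intro X hX3 hXX ps₀ hlen hz hs2 hnum hnx hlmp q ps Lv N₁ hF hq hqX hps Bd hBd hNT hNTR hLn
  have hX0 : 0 < X := by linarith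
  have hX1 : 1 ≤ X := by linarith
  have hXh : Xh ≤ X := (le_max_left _ _).trans ((le_max_left _ _).trans hXX)
  have hXT : XT ≤ X := (le_max_right _ _).trans ((le_max_left _ _).trans hXX)
  have hXCx : Cx ≤ X := (le_max_left _ _).trans ((le_max_right _ _).trans hXX)
  have hLT : T₀ / c + 8 * T₀ / ε + T₀ ≤ Real.log X := by
    rw [Real.le_log_iff_exp_le hX0]
    exact (le_max_right _ _).trans ((le_max_right _ _).trans hXX)
  have hp1 : 0 ≤ T₀ / c := by positivity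
  have hp2 : 0 ≤ 8 * T₀ / ε := by positivity
  have nf := nf_facts hX3 hε hnum hF
  have hgd := JBX320.g_le_dx hX3 hK.le hc.le hnum hnx
  obtain ⟨f₀, hf₀⟩ : ∃ x, x = φ₀ (LL Dq ps₀ / Real.log X) (Lv / Real.log X)
    (LF ps / Real.log X) := ⟨_, rfl⟩
  obtain ⟨f₁, hf₁⟩ : ∃ x, x = φ₁ (LL Dq ps₀ / Real.log X) (Lv / Real.log X)
    (LF ps / Real.log X) := ⟨_, rfl⟩
  obtain ⟨f₂, hf₂⟩ : ∃ x, x = φβ (LL Dq ps₀ / Real.log X) (Lv / Real.log X)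
    (LF ps / Real.log X) := ⟨_, rfl⟩
  have hh0 := h0 (LL Dq ps₀ / Real.log X) (Lv / Real.log X) (LF ps / Real.log X)
  have hh1 := h1 (LL Dq ps₀ / Real.log X) (Lv / Real.log X) (LF ps / Real.log X)
  have hh2 := h2 (LL Dq ps₀ / Real.log X) (Lv / Real.log X) (LF ps / Real.log X)
  rw [← hf₀, ← hf₁, ← hf₂]
  rw [← hf₀] at hh0 hh2
  rw [← hf₁] at hh1
  rw [← hf₂] at hh2
  obtain ⟨hv, hhv⟩ : ∃ hv, hv = hC c' K (Lv / Real.log X) (LF ps / Real.log X) := ⟨_, rfl⟩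
  obtain ⟨δD, hδD⟩ : ∃ x, x = min (gN K c (LL Dq ps₀ / Real.log X) * Real.log X)
    (LF ps - (LL Dq ps₀ - gN K c (LL Dq ps₀ / Real.log X) * Real.log X)) := ⟨_, rfl⟩
  rw [← hδD] at nf ⊢
  obtain ⟨Lx, hLx⟩ : ∃ Lx, Lx = Real.log X := ⟨_, rfl⟩
  obtain ⟨n, hn⟩ : ∃ n, n = LF ps := ⟨_, rfl⟩
  obtain ⟨κ, hκ⟩ : ∃ κ, κ = K * Real.log X := ⟨_, rfl⟩
  have hL0 : 0 < Lx := by rw [hLx]; linarith
  have hcT : T₀ ≤ c * Lx := by
    have h3 : T₀ / c ≤ Lx := by rw [hLx]; linarith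
    rw [div_le_iff₀ hc] at h3
    linarith
  have hεT : T₀ ≤ ε * Lx / 8 := by
    have h3 : 8 * T₀ / ε ≤ Lx := by rw [hLx]; linarith
    rw [div_le_iff₀ hε] at h3
    linarith
  have hLT0 : T₀ ≤ Lx := by rw [hLx]; linarith
  -- facts
  have n0 := nf.n0
  have n1 := nf.n1
  have nv := nf.nv
  have v0 := nf.v0
  have nt := nf.nt
  have nD0 := nf.D0
  have nD1 := nf.D1
  have nNl := nf.Nl
  have nNh := nf.Nh
  rw [Real.log_exp] at nD1
  have hδD0 : 0 ≤ δD := by rwa [Real.one_le_exp_iff] at nD0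
  rw [← hn, ← hκ] at n0 n1 nv nt nD1
  rw [← hLx] at n0 n1 nD1
  have hec := hnum.ec
  have hF3' : F3n κ n = Lx * max 0 ((4 * (n / Lx) - 3 * K) / 9) := by
    show max 0 ((4 * n - 3 * κ) / 9) = _
    rw [mul_max_of_nonneg _ _ hL0.le, mul_zero, hκ, ← hLx]
    congr 1
    field_simp
  obtain ⟨F, hFd⟩ : ∃ F, F = F3n κ n := ⟨_, rfl⟩
  have hF0 : 0 ≤ F := by rw [hFd]; exact le_max_left _ _
  have hκL : κ = K * Lx := by rw [hκ, hLx]
  have hcLp : 0 < c * Lx := by positivity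
  have hcL : 1000000 * (c * Lx) ≤ κ := by
    have := mul_le_mul_of_nonneg_right hcK hL0.le
    rw [hκL]; linarith
  have hccL : 30 * (c * Lx) ≤ c' * Lx := by
    have := mul_le_mul_of_nonneg_right hcc hL0.le
    linarith
  have hcc2L : c' * Lx ≤ 40 * (c * Lx) := by
    have := mul_le_mul_of_nonneg_right hcc2 hL0.le
    linarith
  have hμ0L : 2000 * (c * Lx) ≤ μ * Lx := by
    have := mul_le_mul_of_nonneg_right hμ0 hL0.le
    linarith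
  have hμ1L : 100 * (μ * Lx) ≤ κ := by
    have := mul_le_mul_of_nonneg_right hμ1 hL0.le
    rw [hκL]; linarith
  have hεL : ε * Lx ≤ c * Lx := mul_le_mul_of_nonneg_right hec hL0.le
  have hεL0 : 0 < ε * Lx := by positivity
  have hF1 : F ≤ (4 * n - 3 * κ) / 9 + 4 / 9 * (c * Lx) := by
    rw [hFd]; unfold NOt126.F3n
    exact max_le (by linarith) (by linarith)
  -- the exponents
  obtain ⟨ηE, hηE⟩ : ∃ x, x = f₀ * Lx := ⟨_, rfl⟩
  obtain ⟨e1, he1⟩ : ∃ x, x = f₁ * Lx := ⟨_, rfl⟩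
  obtain ⟨b1, hb1⟩ : ∃ x, x = (f₂ - f₀) * Lx := ⟨_, rfl⟩
  obtain ⟨hx, hhx⟩ : ∃ x, x = Real.log X * hv := ⟨_, rfl⟩
  have hhx' : hx = 3 * F + 3 * (c' * Lx) := by
    rw [hhx, hhv, hFd, hF3', ← hLx, ← hn]
    unfold RGB545.hC
    ring
  rw [← hLx, ← hn] at hh0 hh1 hh2
  have hηE0 : 0 ≤ ηE := by rw [hηE]; exact mul_nonneg hh0.1 hL0.le
  have he10 : 0 ≤ e1 := by rw [he1]; exact mul_nonneg hh1.1 hL0.le
  have hb10 : 0 ≤ b1 := by rw [hb1]; exact mul_nonneg hh2.1 hL0.le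
  have hηE1 : ηE ≤ 4 / 9 * F + 10 * (c * Lx) := by
    have := mul_le_mul_of_nonneg_right hh0.2 hL0.le
    rw [hηE, hFd, hF3']; linarith
  have he11 : e1 ≤ F + 20 * (c * Lx) := by
    have := mul_le_mul_of_nonneg_right hh1.2 hL0.le
    rw [he1, hFd, hF3']; linarith
  have hb11 : b1 ≤ F + 21 * (c * Lx) := by
    have := mul_le_mul_of_nonneg_right hh2.2 hL0.le
    rw [hb1, hFd, hF3']; linarith
  obtain ⟨sx, hsx⟩ : ∃ x, x = Real.log cp + R + 20 := ⟨_, rfl⟩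
  obtain ⟨r1, r2, r3, r4, r5, r6, r7, r8, r9, r10, r11, r12, r13⟩ := nx_num (κ := κ) (n := n)
    (v := Lv) (F := F) (c := c * Lx) (c' := c' * Lx) (μ := μ * Lx) (γ := 0) (x0 := ηE) (e1 := e1)
    (b1 := b1) (δD := δD) (h := hx) (s := sx) hcLp.le hccL hcc2L hcL hμ0L hμ1L n0 n1 nv v0
    (by linarith) nD1 hF0 hF1 hηE1 he11 hb11 hhx' (by rw [hsx]; linarith) (by rw [hsx]; linarith)
  have hXexp : ∀ z : ℝ, X ^ z = Real.exp (z * Lx) := fun z => by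
    rw [Real.rpow_def_of_pos hX0, hLx, mul_comm]
  have hXK : X ^ K = Real.exp κ := by rw [hXexp, hκL]
  have hE0e : X ^ f₀ = Real.exp ηE := by rw [hXexp, hηE]
  have hE1e : X ^ f₁ = Real.exp e1 := by rw [hXexp, he1]
  have hBe : X ^ f₂ / X ^ f₀ = Real.exp b1 := by
    rw [hXexp, hXexp, ← Real.exp_sub, hb1]; congr 1; ring
  obtain ⟨γ, hγ⟩ : ∃ γ, γ = ε / 4 * Real.log X := ⟨_, rfl⟩
  have hγL : γ = ε * Lx / 4 := by rw [hγ, hLx]; ring
  have hγ0 : 0 < γ := by rw [hγL]; positivity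
  -- the sequence
  have hXb : X ≤ X ^ (8 * (K + 1)) := by
    calc X = X ^ (1 : ℝ) := (Real.rpow_one X).symm
      _ ≤ _ := Real.rpow_le_rpow_of_exponent_le hX1 (by linarith)
  have hlenp : ps.length ≤ N := by rw [hps.length]; exact hlen
  obtain ⟨a1, -, -, -⟩ := hXD (X ^ δ) (X ^ δ) (π lam) (hP lam) q ps
    (RX298.rp (d * Real.log X) ps) (zt (d * Real.log X) ps) hlenp
    (by rw [rp_length]; exact hlenp) (LF_rp _ _) (norm_zt _ ps).le (X ^ (8 * (K + 1)))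
    (hXCx.trans hXb) (by
      rw [← Real.exp_add, hXexp, ← hn]
      refine Real.exp_le_exp.2 ?_
      have e8 : 8 * (K + 1) * Lx = 8 * (K * Lx) + 8 * Lx := by ring
      rw [e8, ← hκL]
      linarith)
  have hα : ∀ m, xs q (X ^ δ) (X ^ δ) (π lam) h (d * Real.log X) ps m ≠ 0 →
      m ∈ S (X ^ (8 * (K + 1))) := a1
  have hbm : Ch * X ^ (2 * c₂ + 2) ≤ C * X ^ (2 * c₂ + 2) :=
    mul_le_mul_of_nonneg_right hCCh (Real.rpow_nonneg hX0.le _)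
  have hbT : CT * X ^ (c₀ + 2 * K + 2) ≤ C * X ^ (2 * c₂ + 2) := by
    refine mul_le_mul hCCT (Real.rpow_le_rpow_of_exponent_le hX1 ?_) (Real.rpow_nonneg hX0.le _)
      hC0
    rw [hc₂]; linarith
  obtain ⟨-, -, -, HTw⟩ := HT X hX3 hXT ps₀ hlen hs2 hnum hnx hlmp q ps Lv N₁ hF hq hqX hps Bd
    (max rh CT) (C * X ^ (2 * c₂ + 2)) hBd (le_max_right _ _) hbT hNT hNTR (Real.exp ηE)
    (Real.exp e1) (Real.exp b1) (Real.exp hx) (Real.exp δD) (Real.exp_pos _) (Real.exp_pos _)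
    (Real.exp_pos _) (Real.exp_pos _)
    (by rw [Real.log_exp, ← hκ, ← hn, ← hFd, ← hLx]; linarith)
    (by rw [Real.log_exp, ← hκ, ← hn, ← hFd, ← hLx]; exact he11)
    (by rw [Real.log_exp, ← hκ, ← hn, ← hFd, ← hLx]; exact hb11)
    (by rw [Real.log_exp, ← hκ, ← hn, ← hFd, ← hLx]; exact hhx')
  intro pp hpp t X' φ hX' hXX' hφ hφs
  have hXX2 : |Real.log X' - n| ≤ R + 1 := by
    have h3 : |Real.log X' - Real.log (Real.exp (LF ps))| ≤ R + 1 := hXX'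
    rwa [Real.log_exp, ← hn] at h3
  obtain ⟨hx1, hx2⟩ := abs_le.1 hXX2
  obtain ⟨τ, τ₁, hτ, hτ₁, hTNa, hTNf, hU1, hU2⟩ := HTw pp hpp φ hφ t
  obtain ⟨k₁, hk₁⟩ : ∃ k, k = (Cw ^ 2 * (η⁻¹) ^ Jn) * (Ch * X ^ (2 * (ε / 8)) *
    (1 + |t|) ^ Jn * ((Ht ps * Ht (natl ps₀)) ^ M * Bd)) := ⟨_, rfl⟩
  obtain ⟨k₂, hk₂⟩ : ∃ k, k = (Cw ^ 2 * (η⁻¹) ^ Jn) * (Ch * X ^ (2 * (ε / 8)) *
    (1 + |t|) ^ Jn * Ht ps ^ 6) := ⟨_, rfl⟩
  have hHt1 := one_le_Ht ps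
  have hHt2 := one_le_Ht (natl ps₀)
  have hHH : 1 ≤ Ht ps * Ht (natl ps₀) := one_le_mul_of_one_le_of_one_le hHt1 hHt2
  have hHt0 : 0 < Ht ps := by linarith only [hHt1]
  have hHH0 : 0 < Ht ps * Ht (natl ps₀) := by linarith only [hHH]
  have hCh0 : 0 ≤ Ch := by linarith
  have hk₁0 : 0 ≤ k₁ := by rw [hk₁]; positivity
  have hk₂0 : 0 ≤ k₂ := by rw [hk₂]; positivity
  have hη1 : η ≤ 1 := by linarith only [hη2]
  have hXb0 : 0 ≤ X ^ (8 * (K + 1)) := by positivity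
  have hadm : Adm (X ^ (8 * (K + 1))) X' 1
      (bw φ pp t (xs q (X ^ δ) (X ^ δ) (π lam) h (d * Real.log X) ps)) :=
    adm_mono hη1 (adm_bt hφs hα pp t)
  have hFSb : FS (bw φ pp t (xs q (X ^ δ) (X ^ δ) (π lam) h (d * Real.log X) ps)) :=
    FS_of_S hXb0 hadm.sup
  have hTNa' : TNa (Real.exp κ) (Real.exp ηE) (Real.exp δD) cp N₁
      (bw φ pp t (xs q (X ^ δ) (X ^ δ) (π lam) h (d * Real.log X) ps)) τ := by
    rw [← hXK]; exact hTNa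
  have hTNf' : TNf (Real.exp κ) (Real.exp ηE) (Real.exp δD) cp N₁
      (bw φ pp t (xs q (X ^ δ) (X ^ δ) (π lam) h (d * Real.log X) ps)) τ₁ := by
    rw [← hXK]; exact hTNf
  obtain ⟨m1, m2, m3, m4⟩ := mm_scale (K := K) (v := Lv) (n := n) (hv := hv) hL0
  have hLhx : Lx * hv = hx := by rw [hhx, hLx]
  rw [hLhx, ← hκL] at m2 m3
  -- (RH)
  have hRH := HR X hX3 hXh ps₀ hlen hz hs2 hnum hnx hlmp q ps Lv N₁ hF hq hqX hps Bd (max rh CT)
    (C * X ^ (2 * c₂ + 2)) hBd (le_max_left _ _) hbm hLn hv hhv pp hpp t X' φ hX'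
    (by rw [← hn]; exact hXX2) hφ γ k₁ k₂ κ n hγ hκ hn hk₁ hk₂
  have hzLL : (3 * K + 1) * Real.log X = 3 * κ + Lx := by rw [hκ, hLx]; ring
  have hzε : (3 * K + 1) * Real.log X * ε₁ ≤ γ / 12 := by
    rw [← hLx, hε₁, hγL]
    have h3 : (3 * K + 1) * Lx * (e₀ / (48 * (3 * K + 1))) = e₀ * Lx / 48 := by
      field_simp
    rw [h3]
    have := mul_le_mul_of_nonneg_right he₀ε hL0.le
    linarith
  have hexp2 : G1 + G2 + 1 ≤ Real.exp (γ / 2) := by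
    rw [← Real.log_le_iff_le_exp (by linarith)]
    rw [hγL]
    linarith
  have hy : max 0 (LL Dq ps₀ - LF ps) ≤ 0 ∨ max 0 (LL Dq ps₀ - LF ps) ≤ LL Dq ps₀ - n := by
    rcases max_cases 0 (LL Dq ps₀ - LF ps) with h3 | h3
    · left; rw [h3.1]
    · right; rw [h3.1, hn]
  have hbg := hnx.bg
  have hvg := hnum.vg
  have hna := hF.hi
  have hlv := hF.lv
  have hgLx : gN K c (LL Dq ps₀ / Real.log X) * Lx = LL Dq ps₀ - 3 / 4 * κ + c * Lx := by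
    have h3 := JBX320.gL_eq (n := LL Dq ps₀) (K := K) (c := c) (L := Real.log X)
      (g := gN K c (LL Dq ps₀ / Real.log X)) (by rw [← hLx]; exact hL0) rfl
    rw [← hLx] at h3 ⊢
    rw [hκL]; exact h3
  have hbL : hx + 4 * Lv + n + 3 * (2 * ηE + γ) + 2 * γ / 2 + 3 * 0 ≤
      3 * κ + 3 * (d * Real.log X - max 0 (LL Dq ps₀ - LF ps)) := by
    refine nx_b (κ := κ) (n := n) (v := Lv) (F := F) (c := c * Lx) (c' := c' * Lx) (γ := γ)
      (x0 := ηE) (h := hx) (a := LL Dq ps₀) (u := v * Lx)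
      (g := gN K c (LL Dq ps₀ / Real.log X) * Lx) (d := d * Real.log X)
      (y := max 0 (LL Dq ps₀ - LF ps)) (ε := ε * Lx) hcLp.le hcc2L n0 hF0 hF1 hηE1 hhx' hεL0.le
      hεL (by rw [hγL]; linarith) hgLx ?_ ?_ ?_ ?_ hy
    · rw [← hLx, ← hn] at hna; linarith
    · rw [← hLx, ← hn] at hlv
      have e1 : (v + ε) * Lx = v * Lx + ε * Lx := by ring
      linarith
    · have h3 := mul_le_mul_of_nonneg_right hvg hL0.le
      have e1 : (3 * (v + gN K c (LL Dq ps₀ / Real.log X)) + 100 * c) * Lx =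
        3 * (v * Lx + gN K c (LL Dq ps₀ / Real.log X) * Lx) + 100 * (c * Lx) := by ring
      have e2 : (2 * K + ε) * Lx = 2 * κ + ε * Lx := by rw [hκL]; ring
      linarith
    · have h3 : (v + 3 * gN K c (LL Dq ps₀ / Real.log X) + 90 * c) * Real.log X =
        v * Lx + 3 * (gN K c (LL Dq ps₀ / Real.log X) * Lx) + 90 * (c * Lx) := by
        rw [hLx]; ring
      have h4 : (K + 3 * d + ε) * Real.log X = κ + 3 * (d * Real.log X) + ε * Lx := by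
        rw [hκ, hLx]; ring
      rw [h3, h4] at hbg
      linarith
  have main := nro_e (w := w) (Jn := Jn) (γ := γ) (κ := κ) (v := Lv) (n := n)
    (x := Real.log X') (R := R) (h := hx) (m := Lx * mm K (Lv / Lx) (n / Lx) hv)
    (wl := sg K μ c (ε / 8) Lx n) (w₀ := 0) (T := TTe K μ c (ε / 8) (Real.log X) Lv n hv)
    (zL := (3 * K + 1) * Real.log X) (ηE := ηE) (e1 := e1) (b1 := b1) (δD := δD) (X' := X')
    (Y := X ^ (8 * (K + 1))) (s₀ := d * Real.log X - max 0 (LL Dq ps₀ - LF ps)) (k₁ := k₁)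
    (k₂ := k₂) (N₀ := N₁ / 2) (N₁ := N₁)
    (be := bw φ pp t (xs q (X ^ δ) (X ^ δ) (π lam) h (d * Real.log X) ps))
    (u := Eis.w ^ pp.1 * Eis.lam ^ pp.2) (b := 1) (e := 1)
    hε₁0 hcp hCc hCb ha HC HPx hγ0.le v0 (by linarith) hηE0 he10 hb10 hδD0 hR
    (Real.exp_log hX').symm (by linarith) (by linarith) hF.Nh (by omega) hF.N1
    (by rw [hzLL]; linarith) (by rw [hzLL]; linarith) (by rw [hzLL]; linarith)
    (by rw [hzLL]; linarith) (by rw [hzLL]; linarith) (by rw [hzLL]; linarith)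
    (by rw [hzLL]; linarith) (by linarith) r8 r9 r10 hzε
    (by rw [← hG1]; linarith) (by rw [← hG2]; linarith) hXb0 (tw_ne pp)
    (fun p hp => cop_tw pp hp) hadm hFSb hτ hτ₁ hTNa' hTNf' m1 m2 m3 r11
    (by
      unfold NO64.TTe
      rw [← hLx, hLhx, ← hκL]) hk₁0 hk₂0
    (by
      unfold NO64.sg
      rw [← hκL, ← hFd, hγL]
      linarith) hbL (by
      intro d' e' hd' he' hd'D he'E jj γ' ϖ hγ' hϖ hϖX P hP'
      have hd1 : (1 : ℝ) ≤ nm d' := by exact_mod_cast nm_pos.2 hd'.ne_zero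
      have he1 : (1 : ℝ) ≤ nm e' := by exact_mod_cast nm_pos.2 he'.ne_zero
      have hlde : Real.log ((nm d' : ℝ) * nm e') ≤ κ / 15 := by
        rw [Real.log_mul (by linarith) (by linarith)]
        have g1 : Real.log (nm d' : ℝ) ≤ δD := by
          rw [Real.log_le_iff_le_exp (by linarith)]; exact hd'D
        have g2 : Real.log (nm e' : ℝ) ≤ ηE := by
          rw [Real.log_le_iff_le_exp (by linarith)]; exact he'E
        linarith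
      have key := hRH d' e' hd' he' hlde jj γ' ϖ hγ' hϖ hϖX P hP'
      rw [← hhx] at key
      exact key)
  rw [omq_one] at main
  have hfin : Real.exp γ * (Real.exp (-(hx / 3)) * τ +
        Real.exp (2 / 3 * (Lv + 5) + 2 * e1 + 2 * b1 - κ) * τ₁ +
        Real.exp (-0) * ((Real.exp κ / Real.exp n) * ((k₁ + k₂) * Real.exp (2 * n)))) ≤
      (X ^ K / Real.exp (LF ps)) * ((C * X ^ ε * (Ht ps * Ht (natl ps₀)) ^
        max J₁ ((N : ℝ) ^ 2 * M + M + 12) * Bd * Real.exp (2 * LF ps)) * (1 + |t|) ^ Jn) := by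
    have e4 : X ^ (2 * (ε / 8)) = Real.exp γ := by rw [hXexp, hγL]; congr 1; ring
    rw [hk₁, hk₂, e4, ← hn, hXK, neg_zero, Real.exp_zero, ← hW2']
    have hM6 : Ht ps ^ 6 ≤ (Ht ps * Ht (natl ps₀)) ^ max J₁ ((N : ℝ) ^ 2 * M + M + 12) := by
      calc Ht ps ^ 6 ≤ (Ht ps * Ht (natl ps₀)) ^ 6 :=
            pow_le_pow_left₀ hHt0.le (le_mul_of_one_le_right hHt0.le hHt2) 6
        _ = (Ht ps * Ht (natl ps₀)) ^ ((6 : ℕ) : ℝ) := (Real.rpow_natCast _ _).symm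
        _ ≤ _ := Real.rpow_le_rpow_of_exponent_le hHH (le_max_of_le_right (by
            push_cast; linarith only [hM, hN2M]))
    have hMM : (Ht ps * Ht (natl ps₀)) ^ M ≤
        (Ht ps * Ht (natl ps₀)) ^ max J₁ ((N : ℝ) ^ 2 * M + M + 12) :=
      Real.rpow_le_rpow_of_exponent_le hHH (le_max_of_le_right (by linarith only [hN2M]))
    have hM1 : (Ht ps * Ht (natl ps₀)) ^ J₁ ≤
        (Ht ps * Ht (natl ps₀)) ^ max J₁ ((N : ℝ) ^ 2 * M + M + 12) :=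
      Real.rpow_le_rpow_of_exponent_le hHH (le_max_left _ _)
    have hKn : Real.exp κ * Real.exp n = Real.exp κ / Real.exp n * Real.exp (2 * n) := by
      rw [two_mul, Real.exp_add]
      field_simp
    rw [hXK, ← hn, hKn] at hU1 hU2
    have hA' : Real.exp (-(hx / 3)) * τ ≤ (CT * X ^ (ε / 2) * (Ht ps * Ht (natl ps₀)) ^ J₁ * Bd *
        (1 + |t|) ^ Jn) * (Real.exp κ / Real.exp n * Real.exp (2 * n)) := by
      refine le_trans (le_of_eq ?_) hU1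
      rw [← Real.exp_mul]
      congr 2; ring
    have hB' : Real.exp (2 / 3 * (Lv + 5) + 2 * e1 + 2 * b1 - κ) * τ₁ ≤
        Real.exp 3 * ((CT * X ^ (ε / 2) * (Ht ps * Ht (natl ps₀)) ^ J₁ * Bd *
        (1 + |t|) ^ Jn) * (Real.exp κ / Real.exp n * Real.exp (2 * n))) := by
      have g1 : Real.exp (2 / 3 * (Lv + 5) + 2 * e1 + 2 * b1 - κ) ≤ Real.exp 3 *
          ((Real.exp 1 * N₁) ^ (2 / 3 : ℝ) * Real.exp e1 ^ 2 * Real.exp b1 ^ 2 /
            Real.exp κ) := by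
        have hN1' : (0 : ℝ) < N₁ := (Real.exp_pos _).trans_le hF.N0
        have g2 : (Real.exp 1 * (N₁ : ℝ)) ^ (2 / 3 : ℝ) =
            Real.exp (2 / 3 * (1 + Real.log N₁)) := by
          rw [Real.rpow_def_of_pos (by positivity), Real.log_mul (Real.exp_pos _).ne' hN1'.ne',
            Real.log_exp]
          congr 1; ring
        rw [g2, ← Real.exp_nat_mul, ← Real.exp_nat_mul, ← Real.exp_add, ← Real.exp_add,
          ← Real.exp_sub, ← Real.exp_add]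
        refine Real.exp_le_exp.2 ?_
        push_cast
        linarith
      calc Real.exp (2 / 3 * (Lv + 5) + 2 * e1 + 2 * b1 - κ) * τ₁ ≤
            (Real.exp 3 * ((Real.exp 1 * N₁) ^ (2 / 3 : ℝ) * Real.exp e1 ^ 2 *
              Real.exp b1 ^ 2 / Real.exp κ)) * τ₁ := mul_le_mul_of_nonneg_right g1 hτ₁
        _ = Real.exp 3 * ((Real.exp 1 * N₁) ^ (2 / 3 : ℝ) * Real.exp e1 ^ 2 *
              Real.exp b1 ^ 2 / Real.exp κ * τ₁) := by ring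
        _ ≤ _ := mul_le_mul_of_nonneg_left hU2 he3.le
    have e5 : Real.exp γ * X ^ (ε / 2) ≤ X ^ ε := by
      rw [← e4, ← Real.rpow_add hX0]
      exact Real.rpow_le_rpow_of_exponent_le hX1 (by linarith)
    have e6 : Real.exp γ * Real.exp γ ≤ X ^ ε := by
      rw [← e4, ← Real.rpow_add hX0]
      exact Real.rpow_le_rpow_of_exponent_le hX1 (by linarith)
    have hfx := fin_nx (eγ := Real.exp γ) (q := Real.exp κ / Real.exp n)
      (E2 := Real.exp (2 * n)) (V := (1 + |t|) ^ Jn) (Bd := Bd) (CT := CT) (Ch := Ch)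
      (W2 := W2') (X2 := X ^ (ε / 2)) (XE := X ^ ε) (e3 := Real.exp 3) (C := C)
      (H1 := (Ht ps * Ht (natl ps₀)) ^ J₁) (HM := (Ht ps * Ht (natl ps₀)) ^ M)
      (H6 := Ht ps ^ 6) (HJ := (Ht ps * Ht (natl ps₀)) ^ max J₁ ((N : ℝ) ^ 2 * M + M + 12))
      (by positivity) (Real.exp_pos _).le (by positivity) hBd (by linarith) hCh0 hW20
      (Real.exp_pos _).le (by positivity) he3.le hA' hB' hM1 hMM hM6 (by positivity)
      (by positivity) (by positivity) e5 e6 (by rw [hCd]; linarith)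
    exact hfx
  have main2 := main.trans (add_le_add (le_refl _) hfin)
  rw [← hE0e, ← hE1e, ← hBe, ← hXK] at main2
  exact main2

end Crest.Agent.R017.NOq126
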