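import Crest.Agent.R017.NOr_126
import Crest.Agent.R017.NAw_144

/-!
# Row 17, the near leaf, (Ro), class E (helper126): helper144's `OsEl`

* **`osEl`** : the leaf (Os) of class E, `1 ≤ E`
-/

set_option autoImplicit false

noncomputable section

namespace Crest.Agent.R017.NOq126

open Crest.Agent.R012 Crest.Agent.R012.Eis
open Crest.Agent.R017.FE47
open Crest.Agent.R017.B770
open Crest.Agent.R017.Prov71
open Crest.Agent.R017.RGB545
open Crest.Agent.R017.Sup271 (NPm)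
open Crest.Agent.R017.NAw144 (OsEl)

/-- **(Os) of class E** -/
theorem osEl {Lam : Type*} {π : Lam → DPar} (hP : ∀ lam, (π lam).OK)
    (hnp : ∀ lam, ¬ NPm (π lam).n (π lam).ψ (π lam).l₂ 1) {h : ℝ → ℝ} {cu : ℝ}
    (hpu : PU h cu) {E e₁ : ℝ} (hE : 1 ≤ E) : OsEl π h E e₁ :=
  fun _ hw hw0 _ _ _ _ hc hcK _ _ hd _ =>
    osX hP hnp hpu hw hw0 hE hc hcK hd (j := Sum.inl (Sum.inl (Sum.inr ()))) rfl

end Crest.Agent.R017.NOq126
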