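import Crest.Agent.R017.NOt_126

/-!
# Row 17, (Ro) at the near leaf: the numerics of the core (helper126)

* **`os_num`** : (q0), (q2), (q3) of helper116's `ro_core4` and the two `T`-numbers at the
  parameters of the near leaf
-/

set_option autoImplicit false
set_option linter.unusedVariables false

noncomputable section

open Finset MeasureTheory
open scoped ComplexConjugate Classical

namespace Crest.Agent.R017.NOt126

open Crest.Agent.R012 Crest.Agent.R012.Eis Crest.Agent.R012.MC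

/-- the linear facts -/
lemma os_lin {κ m F y y' Lv : ℝ} (hF : F = max 0 ((4 * m - 3 * κ) / 9)) (hy : 10 ≤ y)
    (hy' : 30 * y ≤ y') (hκ : 1000 * y' ≤ κ) (hz0 : 0 ≤ Lv) (hz : 5 * (Lv + m) ≤ 7 * κ)
    (hm : 5 * m ≤ 4 * κ + 6 * y) (hm' : 3 * κ ≤ 4 * m + 4 * y) :
    0 ≤ F ∧ 5 * F + Lv + y' + 100 * y ≤ κ ∧
    8 * F + 3 * Lv + 3 * y' + 120 * y ≤ 2 * κ ∧ 6 * F + 3 * Lv + 6 * y' + 15 ≤ 2 * κ ∧
    3 / 2 * Lv + 4 * F + 110 * y ≤ κ ∧
    7 / 6 * Lv + (2 * m - κ) / 3 + 4 * F + 110 * y ≤ κ ∧ F ≤ 4 / 9 * (m - 3 / 4 * κ + y) := by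
  rcases le_total ((4 * m - 3 * κ) / 9) 0 with h | h
  · rw [max_eq_left h] at hF
    refine ⟨by linarith, by linarith, by linarith, by linarith, by linarith, by linarith,
      by linarith⟩
  · rw [max_eq_right h] at hF
    refine ⟨by linarith, by linarith, by linarith, by linarith, by linarith, by linarith,
      by linarith⟩

/-- **the numerics of the core at the near leaf**: `y = c log X`, `y' = c' log X` -/
theorem os_num {K H E0 E1 B c m n g y y' σ Lv : ℝ} {N₁ : ℕ} (hK : 0 < K) (hH : 0 < H)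
    (hE1 : 0 < E1) (hB : 0 < B) (hc : 1 ≤ c) (hN : 1 ≤ N₁) (hcy : Real.log c ≤ y) (hy : 10 ≤ y)
    (hy' : 30 * y ≤ y') (hκ : 1000 * y' ≤ Real.log K) (hz0 : 0 ≤ Lv)
    (hz : 5 * (Lv + m) ≤ 7 * Real.log K) (hm : 5 * m ≤ 4 * Real.log K + 6 * y)
    (hm' : 3 * Real.log K ≤ 4 * m + 4 * y) (hNL : Real.log N₁ ≤ Lv + 4)
    (hg : n - m - g ≤ 3 / 4 * Real.log K - m) (hσ : σ ≤ 10 * y)
    (h0 : Real.log E0 ≤ F3n (Real.log K) m + 10 * y)
    (h1 : Real.log E1 ≤ F3n (Real.log K) m + 20 * y)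
    (h2 : Real.log B ≤ F3n (Real.log K) m + 21 * y)
    (h3 : Real.log H = 3 * F3n (Real.log K) m + 3 * y') :
    H ^ (1 / 3 : ℝ) * N₁ * E1 ^ 2 * B ^ 2 ≤ K ∧
    H * (Real.exp 1 * N₁) ^ 3 * E1 ^ 3 * B ^ 2 ≤ K ^ 2 ∧
    H ^ 2 * (Real.exp 1 * N₁) ^ 3 ≤ K ^ 2 ∧
    (∀ A : ℝ, 0 ≤ A → H ^ (-(1 / 3) : ℝ) * (A * Real.exp (-(m / 3)) *
      Real.exp (4 / 3 * m + Real.log K + F3n (Real.log K) m +
        max 0 (n - m + Real.log E0 - g) + σ + Real.log c / 3)) ≤ A * (K * Real.exp m)) ∧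
    (∀ A : ℝ, 0 ≤ A → (Real.exp 1 * N₁) ^ (2 / 3 : ℝ) * E1 ^ 2 * B ^ 2 / K *
      (A * Real.exp (-(m / 3)) * Real.exp (4 / 3 * m + Real.log K +
        max (Real.log (c * (Real.exp 1 * N₁))) (2 * m - Real.log K) / 3 +
        Real.log (c * (Real.exp 1 * N₁)) / 2 + max 0 (n - m + Real.log E0 - g) + σ)) ≤
      A * (K * Real.exp m)) := by
  obtain ⟨κ, hκd⟩ : ∃ κ, κ = Real.log K := ⟨_, rfl⟩
  obtain ⟨F, hFd⟩ : ∃ F, F = F3n (Real.log K) m := ⟨_, rfl⟩
  have hF : F = max 0 ((4 * m - 3 * κ) / 9) := by rw [hFd, hκd]; rfl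
  rw [← hκd] at hκ hz hm hm' hg
  rw [← hFd] at h0 h1 h2 h3
  obtain ⟨f0, l0, l2, l3, t1, t2, f3⟩ := os_lin hF hy hy' hκ hz0 hz hm hm'
  have hNp : (0 : ℝ) < N₁ := by exact_mod_cast hN
  have hc0 : 0 < c := by linarith
  have he0 := Real.exp_pos 1
  have hKe : K = Real.exp κ := by rw [hκd, Real.exp_log hK]
  have hNe : (N₁ : ℝ) = Real.exp (Real.log N₁) := (Real.exp_log hNp).symm
  have hHe : H = Real.exp (Real.log H) := (Real.exp_log hH).symm
  have hE1e : E1 = Real.exp (Real.log E1) := (Real.exp_log hE1).symm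
  have hBe : B = Real.exp (Real.log B) := (Real.exp_log hB).symm
  have hbey : max 0 (n - m + Real.log E0 - g) ≤ 12 * y := by
    refine max_le (by linarith) ?_
    linarith
  have hlw : Real.log (c * (Real.exp 1 * N₁)) ≤ Lv + 5 + y := by
    rw [Real.log_mul hc0.ne' (by positivity), Real.log_mul he0.ne' hNp.ne', Real.log_exp]
    linarith
  obtain ⟨w₁, hw₁⟩ : ∃ w, w = Real.log (c * (Real.exp 1 * N₁)) := ⟨_, rfl⟩
  obtain ⟨by', hby⟩ : ∃ w, w = max 0 (n - m + Real.log E0 - g) := ⟨_, rfl⟩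
  obtain ⟨lN, hlN⟩ : ∃ w, w = Real.log (N₁ : ℝ) := ⟨_, rfl⟩
  obtain ⟨lH, hlH⟩ : ∃ w, w = Real.log H := ⟨_, rfl⟩
  obtain ⟨lE, hlE⟩ : ∃ w, w = Real.log E1 := ⟨_, rfl⟩
  obtain ⟨lB, hlB⟩ : ∃ w, w = Real.log B := ⟨_, rfl⟩
  obtain ⟨lc, hlc⟩ : ∃ w, w = Real.log c := ⟨_, rfl⟩
  rw [← hw₁] at hlw
  rw [← hby] at hbey
  rw [← hlN] at hNe hNL
  rw [← hlH] at hHe h3
  rw [← hlE] at hE1e h1
  rw [← hlB] at hBe h2
  rw [← hlc] at hcy
  rw [← hw₁, ← hby, ← hlc, ← hFd, ← hκd]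
  have r : ∀ a b : ℝ, Real.exp a ^ b = Real.exp (b * a) := fun a b => by
    rw [← Real.exp_mul, mul_comm]
  have r2 : ∀ (a : ℝ) (k : ℕ), Real.exp a ^ k = Real.exp (k * a) := fun a k => by
    rw [← Real.exp_nat_mul]
  have ex3 : ∀ a b s A : ℝ, Real.exp a * (A * Real.exp b * Real.exp s) =
      A * Real.exp (a + (b + s)) := by
    intro a b s A
    rw [Real.exp_add, Real.exp_add]; ring
  have ex5 : ∀ a b c d e f A : ℝ, Real.exp a * Real.exp b * Real.exp c / Real.exp d *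
      (A * Real.exp e * Real.exp f) = A * Real.exp (a + b + c - d + (e + f)) := by
    intro a b c d e f A
    simp only [Real.exp_add, Real.exp_sub]; ring
  refine ⟨?_, ?_, ?_, ?_, ?_⟩
  · rw [hKe, hHe, hNe, hE1e, hBe, r, r2, r2, ← Real.exp_add, ← Real.exp_add, ← Real.exp_add]
    refine Real.exp_le_exp.2 ?_
    push_cast
    linarith
  · rw [hKe, hHe, hNe, hE1e, hBe, ← Real.exp_add, r2, r2, r2, r2, ← Real.exp_add, ← Real.exp_add,
      ← Real.exp_add]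
    refine Real.exp_le_exp.2 ?_
    push_cast
    linarith
  · rw [hKe, hHe, hNe, ← Real.exp_add, r2, r2, r2, ← Real.exp_add]
    refine Real.exp_le_exp.2 ?_
    push_cast
    linarith
  · intro A hA
    rw [hKe, hHe, r]
    calc Real.exp (-(1 / 3) * lH) * (A * Real.exp (-(m / 3)) *
          Real.exp (4 / 3 * m + κ + F + by' + σ + lc / 3)) =
        A * Real.exp (-(1 / 3) * lH + (-(m / 3) + (4 / 3 * m + κ + F + by' + σ + lc / 3))) := by
          exact ex3 _ _ _ _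
      _ ≤ A * Real.exp (κ + m) := by
          refine mul_le_mul_of_nonneg_left (Real.exp_le_exp.2 ?_) hA
          linarith
      _ = _ := by rw [Real.exp_add]
  · intro A hA
    have hmx : max w₁ (2 * m - κ) / 3 + 7 / 6 * Lv + 4 * F + 109 * y ≤ κ := by
      rcases le_total w₁ (2 * m - κ) with h | h
      · rw [max_eq_right h]
        linarith
      · rw [max_eq_left h]
        linarith
    rw [hKe, hNe, hE1e, hBe, ← Real.exp_add, r, r2, r2]
    obtain ⟨mx, hmxd⟩ : ∃ x, x = max w₁ (2 * m - κ) := ⟨_, rfl⟩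
    rw [← hmxd] at hmx ⊢
    calc Real.exp (2 / 3 * (1 + lN)) * Real.exp (((2 : ℕ) : ℝ) * lE) *
          Real.exp (((2 : ℕ) : ℝ) * lB) / Real.exp κ * (A * Real.exp (-(m / 3)) *
          Real.exp (4 / 3 * m + κ + mx / 3 + w₁ / 2 + by' + σ)) =
        A * Real.exp (2 / 3 * (1 + lN) + 2 * lE + 2 * lB - κ + (-(m / 3) +
          (4 / 3 * m + κ + mx / 3 + w₁ / 2 + by' + σ))) := by
          rw [ex5]
          push_cast
          rfl
      _ ≤ A * Real.exp (κ + m) := by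
          refine mul_le_mul_of_nonneg_left (Real.exp_le_exp.2 ?_) hA
          linarith
      _ = _ := by rw [Real.exp_add]

end Crest.Agent.R017.NOt126
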