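import Crest.Agent.R017.NOw_126
import Crest.Agent.R017.NEk_551

/-!
# Row 17, (Ro) at the near leaf: the T-half with the facts of the near leaf (helper126)

* **`os_leaf`** : `os_T` at the numbers of `NNum`, `NFacts` (both classes, any sequence)
-/

set_option autoImplicit false
set_option linter.unusedVariables false

noncomputable section

open Finset MeasureTheory
open scoped ComplexConjugate Classical

namespace Crest.Agent.R017.NOt126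

open Crest.Agent.R012 Crest.Agent.R012.Eis Crest.Agent.R012.MC
open Crest.Agent.R012.LS2 (S mem_S)
open Crest.Agent.R012.Weight600 (osc pw)
open Crest.Agent.R017.CM106 (CS TG FS)
open Crest.Agent.R017.E1551 (Adm)
open Crest.Agent.R017.Win813
open Crest.Agent.R017.RGw813
open Crest.Agent.R017.Prov71
open Crest.Agent.R017.Leg381
open Crest.Agent.R017.XP699 (LL)
open Crest.Agent.R017.NE73 (gN)
open Crest.Agent.R017.NEg551 (NFacts NNum)
open Crest.Agent.R017.TNj90 (JBc)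

set_option maxHeartbeats 800000 in
/-- **the T-half at the near leaf**, any sequence with the joint numbers `ShN` -/
theorem os_leaf {R : ℝ} (hR : 0 ≤ R) {J Aw : ℕ} (hJA : J + 2 ≤ Aw) {Cw : ℝ} (hCw : 0 ≤ Cw)
    {K c c' : ℝ} (hc : 0 < c) (hcc : 30 * c ≤ c') (hcK : 1000 * c' ≤ K) {ε : ℝ} (hε : 0 < ε)
    {cc : ℝ} (hcc1 : 1 ≤ cc) :
    ∃ C X₁ : ℝ, 0 ≤ C ∧ ∀ X : ℝ, 3 ≤ X → X₁ ≤ X → ∀ (v e₁ : ℝ) (ps₀ : List Pq) (ps : List Pf)
      (Lv : ℝ) (N₁ : ℕ), NNum K v c e₁ X ps₀ →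
      NFacts K v (gN K c (LL Dq ps₀ / Real.log X)) e₁ X ps₀ ps Lv N₁ →
      ∀ E0 E1 B H D : ℝ, 0 < E0 → 0 < E1 → 0 < B → 0 < H →
      Real.log E0 ≤ F3n (K * Real.log X) (LF ps) + 10 * (c * Real.log X) →
      Real.log E1 ≤ F3n (K * Real.log X) (LF ps) + 20 * (c * Real.log X) →
      Real.log B ≤ F3n (K * Real.log X) (LF ps) + 21 * (c * Real.log X) →
      Real.log H = 3 * F3n (K * Real.log X) (LF ps) + 3 * (c' * Real.log X) →
      H ^ (1 / 3 : ℝ) * N₁ * E1 ^ 2 * B ^ 2 ≤ X ^ K ∧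
      H * (Real.exp 1 * N₁) ^ 3 * E1 ^ 3 * B ^ 2 ≤ (X ^ K) ^ 2 ∧
      H ^ 2 * (Real.exp 1 * N₁) ^ 3 ≤ (X ^ K) ^ 2 ∧
      ∀ (F η σ : ℝ) (α : Eis → ℂ), 0 ≤ F → 0 < η → η ≤ 1 → σ ≤ 10 * (c * Real.log X) →
      FS α → Adm (X ^ (8 * (K + 1))) (Real.exp (LF ps)) R α →
      JBc (X ^ (8 * (K + 1))) (9 * Real.exp 1 ^ 2 * cc * N₁) F ((J : ℕ) : ℝ)
        (ShN (K * Real.log X) (gN K c (LL Dq ps₀ / Real.log X) * Real.log X) (LL Dq ps₀)
          (LF ps) σ) α →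
      ∀ p ∈ T9, ∀ φ : ℝ → ℝ, WK Cw η Aw φ → ∀ t : ℝ,
      ∃ τ τ₁ : ℝ, 0 ≤ τ ∧ 0 ≤ τ₁ ∧
        TNa (X ^ K) E0 D cc N₁ (fun n => bt φ α p n * pw t (nm n)) τ ∧
        TNf (X ^ K) E0 D cc N₁ (fun n => bt φ α p n * pw t (nm n)) τ₁ ∧
        H ^ (-(1 / 3) : ℝ) * τ ≤
          (C * (η⁻¹) ^ J * X ^ ε * F * (1 + |t|) ^ J) * (X ^ K * Real.exp (LF ps)) ∧
        (Real.exp 1 * N₁) ^ (2 / 3 : ℝ) * E1 ^ 2 * B ^ 2 / X ^ K * τ₁ ≤
          (C * (η⁻¹) ^ J * X ^ ε * F * (1 + |t|) ^ J) * (X ^ K * Real.exp (LF ps)) := by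
  have hc' : 0 < c' := by linarith
  have hK : 0 < K := by linarith
  have hlc : 0 ≤ Real.log cc := Real.log_nonneg hcc1
  have hcc0 : 0 < cc := by linarith
  obtain ⟨C, hC, G⟩ := os_T hR hJA hCw hε (by positivity : 0 < 8 * (K + 1))
  refine ⟨C, Real.exp ((10 + Real.log cc) / c + (10 + Real.log cc)), hC, ?_⟩
  intro X hX3 hXX v e₁ ps₀ ps Lv N₁ hnum hF E0 E1 B H D hE0 hE1 hB hH h0 h1 h2 h3
  have hX0 : 0 < X := by linarith
  have hX1 : 1 ≤ X := by linarith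
  obtain ⟨L, hL⟩ : ∃ L : ℝ, L = Real.log X := ⟨_, rfl⟩
  have hTL : (10 + Real.log cc) / c + (10 + Real.log cc) ≤ L := by
    rw [hL, Real.le_log_iff_exp_le hX0]
    exact hXX
  have hT0 : 0 ≤ (10 + Real.log cc) / c := by positivity
  have hL0 : 0 < L := by linarith
  have hcL : 10 + Real.log cc ≤ c * L := by
    have h4 : (10 + Real.log cc) / c ≤ L := by linarith
    rw [div_le_iff₀ hc] at h4
    linarith
  have hpowX : ∀ x : ℝ, X ^ x = Real.exp (x * L) := fun x => by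
    rw [Real.rpow_def_of_pos hX0, hL, mul_comm]
  have hεc := hnum.ec
  obtain ⟨n, hn⟩ : ∃ n : ℝ, n = LL Dq ps₀ := ⟨_, rfl⟩
  obtain ⟨m, hm⟩ : ∃ m : ℝ, m = LF ps := ⟨_, rfl⟩
  obtain ⟨g, hg⟩ : ∃ x : ℝ, x = gN K c (LL Dq ps₀ / Real.log X) := ⟨_, rfl⟩
  have hgL : g * L = n - 3 / 4 * (K * L) + c * L := by
    rw [hg, ← hL, ← hn]
    unfold NE73.gN
    field_simp
  have f1 := hF.lo
  have f2 := hF.hi
  have f3 := hF.lv
  have f5 := hnum.nK
  have f6 := hnum.sn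
  rw [← hg, ← hL, ← hn, ← hm] at f1
  rw [← hL, ← hn, ← hm] at f2 f3
  rw [← hL, ← hn] at f5 f6
  have hcL0 : 0 ≤ c * L := by positivity
  have hεcL : e₁ * L ≤ c * L := mul_le_mul_of_nonneg_right hεc hL0.le
  have e2 : (4 * K + e₁) * L = 4 * (K * L) + e₁ * L := by ring
  have e3 : (7 * K + e₁) * L = 7 * (K * L) + e₁ * L := by ring
  have e4 : (v + e₁) * L = v * L + e₁ * L := by ring
  have e5 : 100 * c * L = 100 * (c * L) := by ring
  rw [e2] at f5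
  rw [e3, e5] at f6
  rw [e4] at f3
  have hlK : Real.log (X ^ K) = K * L := by rw [Real.log_rpow hX0, hL]
  have hN1 : 9 * (N₁ : ℝ) ≤ Real.exp (Lv + 4) := hF.N1
  have hN1' : (1 : ℝ) ≤ N₁ := (Real.one_le_exp hF.v0).trans hF.N0
  have hN1n : 1 ≤ N₁ := by exact_mod_cast hN1'
  have hN10 : (0 : ℝ) < N₁ := by linarith
  have hN4 : (N₁ : ℝ) ≤ Real.exp (Lv + 4) := by linarith
  have hlN : Real.log N₁ ≤ Lv + 4 := by
    have h4 := Real.log_le_log hN10 hN4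
    rwa [Real.log_exp] at h4
  have hy' : 30 * (c * L) ≤ c' * L := by
    have := mul_le_mul_of_nonneg_right hcc hL0.le
    linarith
  have hκ : 1000 * (c' * L) ≤ K * L := by
    have := mul_le_mul_of_nonneg_right hcK hL0.le
    linarith
  have hY1 : (1 : ℝ) ≤ X ^ (8 * (K + 1)) := Real.one_le_rpow hX1 (by positivity)
  have hv0 := hF.v0
  have hm0 : 3 * (K * L) ≤ 4 * m + 4 * (c * L) := by linarith
  have hW : Real.exp 1 ^ 2 * cc * N₁ ≤ X ^ (8 * (K + 1)) := by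
    have e6 : cc = Real.exp (Real.log cc) := (Real.exp_log hcc0).symm
    have e7 : Real.exp 1 ^ 2 = Real.exp 2 := by rw [← Real.exp_nat_mul]; norm_num
    calc Real.exp 1 ^ 2 * cc * N₁ ≤ Real.exp 2 * Real.exp (Real.log cc) * Real.exp (Lv + 4) := by
          rw [e7, ← e6]
          exact mul_le_mul_of_nonneg_left hN4 (by positivity)
      _ = Real.exp (2 + Real.log cc + (Lv + 4)) := by rw [← Real.exp_add, ← Real.exp_add]
      _ ≤ _ := by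
        rw [hpowX]
        refine Real.exp_le_exp.2 ?_
        have e8 : 8 * (K + 1) * L = 8 * (K * L) + 8 * L := by ring
        rw [e8]
        linarith
  rw [← hL, ← hm] at h0 h1 h2 h3
  obtain ⟨q0, q2, q3, q4⟩ := G X hX3 (X ^ (8 * (K + 1))) (Real.exp 1 ^ 2 * cc * N₁) (X ^ K) H E0 E1 B
    D cc 0 1 N₁ (g * L) n m 0 (c * L) (c' * L) Lv hY1 le_rfl hW (by nlinarith [Real.exp_pos 1])
    (Real.rpow_pos_of_pos hX0 _) hH hE0 hE1 hB hcc1 hN1n le_rfl one_pos le_rfl (by linarith)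
    (by linarith) hy' (by rw [hlK]; exact hκ) hv0 (by rw [hlK]; linarith) (by rw [hlK]; linarith)
    (by rw [hlK]; linarith) hlN (by rw [hlK]; linarith) (by linarith) (by rw [hlK]; exact h0)
    (by rw [hlK]; exact h1) (by rw [hlK]; exact h2) (by rw [hlK]; exact h3)
  refine ⟨q0, q2, q3, ?_⟩
  intro F η σ α hF0 hη hη1 hσ hFS hadm hjb p hp φ hφ t
  rw [← hg, ← hL, ← hn, ← hm] at hjb
  rw [← hL] at hσ
  rw [← hm] at hadm ⊢
  obtain ⟨-, -, -, q5⟩ := G X hX3 (X ^ (8 * (K + 1))) (Real.exp 1 ^ 2 * cc * N₁) (X ^ K) H E0 E1 B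
    D cc F η N₁ (g * L) n m σ (c * L) (c' * L) Lv hY1 le_rfl hW (by nlinarith [Real.exp_pos 1])
    (Real.rpow_pos_of_pos hX0 _) hH hE0 hE1 hB hcc1 hN1n hF0 hη hη1 (by linarith)
    (by linarith) hy' (by rw [hlK]; exact hκ) hv0 (by rw [hlK]; linarith) (by rw [hlK]; linarith)
    (by rw [hlK]; linarith) hlN (by rw [hlK]; linarith) hσ (by rw [hlK]; exact h0)
    (by rw [hlK]; exact h1) (by rw [hlK]; exact h2) (by rw [hlK]; exact h3)
  refine q5 α hFS ?_ hadm p hp φ hφ t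
  rw [hlK]
  have e9 : 9 * (Real.exp 1 ^ 2 * cc * (N₁ : ℝ)) = 9 * Real.exp 1 ^ 2 * cc * N₁ := by ring
  rw [e9]
  exact hjb

end Crest.Agent.R017.NOt126
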