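import Crest.Agent.R017.RHXe_116

/-!
# Row 17, (RH) at the leaf, exceptional class (helper116): premises for short children only

* `RHx_leafd` : helper116's `RHx_leaf` at the divisor `d`, premises only for the children of length
  at most `LF ps - D'`, `D' ≤ log (nm d)`
-/

set_option autoImplicit false
set_option linter.unusedVariables false

noncomputable section

open Complex MeasureTheory
open scoped ComplexConjugate

namespace Crest.Agent.R017.RHX116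

open Crest.Agent.R012 Crest.Agent.R012.Eis Crest.Agent.R012.MC
open Crest.Agent.R012.LS2 (S mem_S bl mem_bl)
open Crest.Agent.R012.Weight600 (pw norm_pw pw_add_left)
open Crest.Agent.R017.CM106 (CS TG FS)
open Crest.Agent.R017.FE47
open Crest.Agent.R017.B770
open Crest.Agent.R017.Prov71 hiding tl
open Crest.Agent.R017.Sup271 (NPm)
open Crest.Agent.R017.XHB411 (tl)
open Crest.Agent.R017.XRG106 (Rl)
open Crest.Agent.R017.PX764 (n6)
open Crest.Agent.R017.Leg381 (Pf alF LF natl)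
open Crest.Agent.R017.Win813 (WK)
open Crest.Agent.R017.RGw813 (bt)
open Crest.Agent.R017.XPX241 (RN)
open Crest.Agent.R017.XP699 (LL Chd hcost cst)
open Crest.Agent.R017.RG64 (Sb SbL Ht one_le_Ht Ht_cons)
open Crest.Agent.R017.RX298 (xs rp rpB SbL_rp Lg LF_rp rp_length rpB_length Ht_rp)
open Crest.Agent.R017.RGB545 (rbx)
open Crest.Agent.R017.ExD791 (Tw)
open Crest.Agent.R017.PoHx72 (Cls)
open Crest.Agent.R017.R3571

set_option maxHeartbeats 1600000 in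
open Classical in
/-- **(RH) for all `P` and both classes, from the premises of the leaf**, premises only for the
children of length at most `LF ps - D'` -/
theorem RHx_leafd {h : ℝ → ℝ} {c : ℝ} (hpu : PU h c) (N : ℕ) {c₀ m₀ μ M : ℝ} (hc₀ : 1 ≤ c₀)
    (hm₀ : 0 ≤ m₀) (hμ : 0 < μ) (hM : 0 ≤ M) :
    ∃ a : ℕ, 1 ≤ a ∧ ∀ (ε s : ℝ), 0 < ε → 0 ≤ s →
    ∃ C r X₁ : ℝ, 1 ≤ C ∧ 0 ≤ r ∧ ∀ X : ℝ, 3 ≤ X → X₁ ≤ X → ∀ (P : DPar), P.OK →
    ¬ NPm P.n P.ψ P.l₂ 1 → (nm P.n : ℝ) ≤ X ^ c₀ →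
    ∀ ps₀ : List Pq, ps₀.length ≤ N → (∀ q ∈ ps₀, Dq.len q ≤ c₀ * Real.log X) →
    ∀ (q : Eis) (ps : List Pf), q ≠ 0 → (nm q : ℝ) ≤ X ^ c₀ → SbL s ps ps₀ →
    ∀ d₀ s₀ : ℝ, 0 ≤ d₀ → 0 ≤ s₀ → Tw (d₀ * Real.log X) s₀ (X ^ c₀) ps →
    ∀ (z δ : ℝ), 0 ≤ δ → δ ≤ 1 → 3 * N * δ ≤ ε → ∀ Bd T Im D' : ℝ, 1 ≤ Bd → LF ps ≤ T →
    (∀ (t : Bool) (l : ℝ) (ps' : List Pq), 0 ≤ l → l ≤ Im →
      List.Forall₂ (Chd Dq hcost r (C * X ^ (2 * c₀ + 2))) ps' (rbx d₀ t X ps₀) →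
      LL Dq ps' ≤ LF ps - D' + ε * Real.log X →
      RN P h l ps' ≤ Bd * cst hcost ps' (rbx d₀ t X ps₀) ^ M *
        Real.exp (T - LF ps + LL Dq ps' - (Im - l) / 3)) →
    ∀ (Cw η : ℝ) (Aw J : ℕ), 0 ≤ Cw → 0 < η → η ≤ 1 → J + 2 ≤ Aw → (N : ℝ) ^ 2 * M ≤ J → 12 ≤ J →
    ∀ (φ : ℝ → ℝ), WK Cw η Aw φ → ∀ (b : ℕ × ℕ), b.2 ≤ 2 → ∀ (t₀ A : ℝ), (J : ℝ) + 2 ≤ A →
    ∀ d e : Eis, IsPrim d → IsPrim e → (nm d : ℝ) ≤ X ^ c₀ → (nm e : ℝ) ≤ X ^ c₀ →
    D' ≤ Real.log (nm d) →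
    ∀ P1 : ℝ, 0 < P1 → P1 ≤ X ^ c₀ → 81 * P1 * X ^ (μ / 2) ≤ Real.exp Im →
    ∀ (jj : Bool) (γ π : Eis), IsPrim γ → IsPrim π → (nm π : ℝ) ≤ X ^ m₀ → ∀ Λ : ℝ, 0 < Λ →
      (nm γ : ℝ) * n6 γ ^ 2 * ∑ r ∈ (bl Λ).filter
          (Cls (fun r => ∃ c₀ : Eis, r * (w ^ b.1 * lam ^ b.2) ^ 2 = c₀ ^ 3) jj), RMm A
          (fun m => bt φ (xs q z (X ^ δ) P h (d₀ * Real.log X) ps) b (d * m) *
            pw t₀ (nm (d * m))) e γ π r ≤
        W2 a P1 (nmx ((Cw ^ 2 * (η⁻¹) ^ J) * (C * X ^ (2 * ε) * (1 + |t₀|) ^ J *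
            ((Ht ps * Ht (natl ps₀)) ^ M * Bd * Real.exp (T - LF ps))))
          ((Cw ^ 2 * (η⁻¹) ^ J) * (C * X ^ (2 * ε) * (1 + |t₀|) ^ J * Ht ps ^ 6))
          (P1 * X ^ (μ / 2)) s₀ (Real.exp (LF ps)) d e jj) Λ := by
  classical
  set m₁ : ℝ := 2 * c₀ + m₀ + 3 with hm₁
  have hm₁0 : 0 < m₁ := by linarith
  set μ' : ℝ := N * M / 2 with hμ'
  have hN0 : (0 : ℝ) ≤ N := Nat.cast_nonneg N
  have hμ'0 : 0 ≤ μ' := by positivity
  obtain ⟨a, ha, H⟩ := RHx_two hpu hμ'0 N (δ := μ / 2 / m₁) (m := 1) (B₀ := 1) (by positivity)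
    (by norm_num) (by norm_num)
  refine ⟨a, ha, fun ε s hε hs => ?_⟩
  obtain ⟨C, hC, H⟩ := H (ε / m₁) (by positivity)
  have hs2 : 0 ≤ 2 * s := by linarith
  have hes : 1 ≤ Real.exp (2 * s) := Real.one_le_exp hs2
  refine ⟨C * Real.exp (2 * s), C + 2 * s, max (Real.exp (2 * s)) (Real.exp (C / ε)),
    one_le_mul_of_one_le_of_one_le hC hes, by linarith, ?_⟩
  intro X hX3 hXX P hP hnp hPn ps₀ hlen hz₀ q ps hq hqX hS d₀ s₀ hd₀ hs₀ hT z δ hδ0 hδ1 hδε Bd T Im D'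
    hBd hLT hyp Cw η Aw J hCw hη hη1 hAJ hJ hJ12 φ hφ b hb t₀ A hA d e hd he hdX heX hdD P1 hP1 hP1X
    hP1I jj γ π hγ hπ hπX Λ hΛ
  have hX0 : 0 < X := by linarith
  have hX1 : 1 ≤ X := by linarith
  have hl0 : 0 ≤ Real.log X := Real.log_nonneg hX1
  have hXs : 2 * s ≤ Real.log X := by
    rw [← Real.log_exp (2 * s)]
    exact Real.log_le_log (Real.exp_pos _) ((le_max_left _ _).trans hXX)
  have hXC : C ≤ ε * Real.log X := by
    have h1 : Real.exp (C / ε) ≤ X := (le_max_right _ _).trans hXX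
    have h2 : C / ε ≤ Real.log X := by
      rw [← Real.log_exp (C / ε)]; exact Real.log_le_log (Real.exp_pos _) h1
    rw [div_le_iff₀ hε] at h2
    linarith
  have hD₀ : 0 ≤ d₀ * Real.log X := mul_nonneg hd₀ hl0
  have hlenps : ps.length ≤ N := by rw [hS.length]; exact hlen
  have hzps : ∀ p ∈ ps, 0 ≤ p.1.z := hS.z_nonneg
  have hSr : SbL (2 * s) (rp (d₀ * Real.log X) ps) (rpB (d₀ * Real.log X) ps₀) :=
    SbL_rp hs hD₀ hS (Tw_lg hs₀ hT)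
  have hS2 : SbL (2 * s) ps ps₀ := hS.mono (by linarith)
  have hzr : ∀ p ∈ rp (d₀ * Real.log X) ps, 0 ≤ p.1.z := hSr.z_nonneg
  -- the lengths
  have hzle : ∀ p ∈ ps, p.1.z ≤ c₀ * Real.log X + s := z_le hS hz₀
  have hD₀le : d₀ * Real.log X ≤ 2 * ((c₀ + 1) * Real.log X) := by
    match ps, hT, hzle with
    | p1 :: p2 :: l, hT, hzle =>
      have h1 := hT.2.2.2.2.1
      have h2 := hzle p1 (by simp)
      have h3 := hzle p2 (by simp)
      nlinarith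
  have hL0 : 0 ≤ (c₀ + 1) * Real.log X := by positivity
  have hz₀' : ∀ q ∈ ps₀, Dq.len q ≤ (c₀ + 1) * Real.log X := fun q hq =>
    (hz₀ q hq).trans (mul_le_mul_of_nonneg_right (by linarith) hl0)
  have hzB : ∀ q ∈ rpB (d₀ * Real.log X) ps₀, Dq.len q ≤ (2 * c₀ + 2) * Real.log X := fun q hq => by
    have := len_rpB hD₀ hD₀le hL0 hz₀' q hq
    linarith
  have hzA : ∀ q ∈ ps₀, Dq.len q ≤ (2 * c₀ + 2) * Real.log X := fun q hq =>
    (hz₀ q hq).trans (mul_le_mul_of_nonneg_right (by linarith) hl0)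
  have hX0m : ∀ y : ℝ, y ≤ m₁ → X ^ y ≤ X ^ m₁ := fun y hy =>
    Real.rpow_le_rpow_of_exponent_le hX1 hy
  have hX3m : 3 ≤ X ^ m₁ := by
    calc (3 : ℝ) ≤ X := hX3
      _ = X ^ (1 : ℝ) := (Real.rpow_one X).symm
      _ ≤ _ := hX0m _ (by linarith)
  have hD0 : 1 ≤ X ^ δ := Real.one_le_rpow hX1 hδ0
  have hexp : ∀ y : ℝ, y ≤ (2 * c₀ + 2) * Real.log X + 2 * s → Real.exp y ≤ X ^ m₁ := by
    intro y hy
    rw [Real.rpow_def_of_pos hX0]
    refine Real.exp_le_exp.2 ?_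
    rw [hm₁]
    nlinarith
  have hezX : ∀ p ∈ ps, Real.exp p.1.z ≤ X ^ m₁ := fun p hp => hexp _ (z_le hS2 hzA p hp)
  have hezX' : ∀ p ∈ rp (d₀ * Real.log X) ps, Real.exp p.1.z ≤ X ^ m₁ := fun p hp =>
    hexp _ (z_le hSr hzB p hp)
  have hHt : 1 ≤ Ht ps * Ht (natl ps₀) :=
    one_le_mul_of_one_le_of_one_le (one_le_Ht _) (one_le_Ht _)
  have hHM : 1 ≤ (Ht ps * Ht (natl ps₀)) ^ M := Real.one_le_rpow hHt hM
  have hET : 1 ≤ Real.exp (T - LF ps) := Real.one_le_exp (by linarith)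
  set B : ℝ := (Ht ps * Ht (natl ps₀)) ^ M * Bd * Real.exp (T - LF ps) with hB
  have hB1 : 1 ≤ B := one_le_mul_of_one_le_of_one_le (one_le_mul_of_one_le_of_one_le hHM hBd) hET
  have hXμ : (X ^ m₁) ^ (μ / 2 / m₁) = X ^ (μ / 2) := by
    rw [← Real.rpow_mul hX0.le]; congr 1; field_simp
  have hXε : (X ^ m₁) ^ (ε / m₁) = X ^ ε := by
    rw [← Real.rpow_mul hX0.le]; congr 1; field_simp
  have hP20 : 0 < P1 * X ^ (μ / 2) := by positivity
  have hP2I : 81 * (P1 * X ^ (μ / 2)) ≤ Real.exp Im := by rw [← mul_assoc]; exact hP1I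
  have hn2 : 2 ≤ N := (Tw_len hT).trans hlenps
  have hmain := H P hP hnp ps (d₀ * Real.log X) s₀ hlenps hzps hzr z (X ^ δ) hD0 q d e hq hd he
    (X ^ m₁) hX3m (hX0m δ (by linarith))
    (by rw [Real.rpow_one]; exact hPn.trans (hX0m _ (by linarith)))
    (by rw [Real.rpow_one]; exact Tw_mono (hX0m _ (by linarith)) hT)
    (hqX.trans (hX0m _ (by linarith))) (hdX.trans (hX0m _ (by linarith)))
    (heX.trans (hX0m _ (by linarith))) hezX hezX' Cw η Aw J hCw hη hη1 hAJ (by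
      rw [hμ']
      calc 2 * ((N : ℝ) * (N * M / 2)) = (N : ℝ) ^ 2 * M := by ring
        _ ≤ J := hJ) hJ12 φ hφ b hb t₀ A hA P1 B hP1 (by
      rw [Real.rpow_one]; exact hP1X.trans (hX0m _ (by linarith))) hB1
    (fun Λ hΛ1 hΛ2 ps' W hW hR hl => by
      rw [hXμ] at hΛ2 ⊢
      have hd1 := one_le_nm hd.ne_zero
      have he1 := one_le_nm he.ne_zero
      have hld : 0 ≤ Real.log (nm d * nm e) - D' := by
        rw [Real.log_mul (by linarith) (by linarith)]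
        have := Real.log_nonneg he1
        linarith
      rcases hR with hR | hR
      · have h1 := prem_one (P := P) (h := h) (μ' := μ') hC hs2 hX0 hM hμ' hXC hP20 hP2I hBd hS2 hlen
          hzA (F := LF ps - D') (T := T - D') (fun l ps' g1 g2 g3 g4 => by
            have h2 := hyp false l ps' g1 g2 g3 g4
            have e1 : T - D' - (LF ps - D') = T - LF ps := by ring
            rw [e1]
            exact h2) hΛ1 hΛ2 hW hR hld (by linarith)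
        have e1 : T - D' - (LF ps - D') = T - LF ps := by ring
        rw [e1] at h1
        exact h1
      · have h1 := prem_one (P := P) (h := h) (μ' := μ') hC hs2 hX0 hM hμ' hXC hP20 hP2I hBd hSr
          (by rw [rpB_length]; exact hlen) hzB (F := LF ps - D') (T := T - D')
          (fun l ps' g1 g2 g3 g4 => by
            have h2 := hyp true l ps' g1 g2
            rw [rpB_eq] at g3 ⊢
            have e1 : T - D' - (LF ps - D') = T - LF ps := by ring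
            rw [e1]
            exact h2 g3 g4) hΛ1 hΛ2 hW hR hld (by linarith)
        have e1 : T - D' - (LF ps - D') = T - LF ps := by ring
        rw [Ht_rp, Ht_natl_rpB, e1] at h1
        exact h1) jj γ π hγ hπ (hπX.trans (hX0m _ (by linarith))) Λ hΛ
  refine hmain.trans (W2_mono a hP1 hΛ ?_)
  rw [hXε, hXμ]
  have h1 : ((X ^ δ) ^ N) ^ (3 : ℝ) ≤ X ^ ε := by
    rw [← Real.rpow_natCast, ← Real.rpow_mul hX0.le, ← Real.rpow_mul hX0.le]
    refine Real.rpow_le_rpow_of_exponent_le hX1 ?_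
    linarith
  have h1' : (X ^ δ) ^ 4 ≤ X ^ ε := by
    rw [← Real.rpow_natCast, ← Real.rpow_mul hX0.le]
    refine Real.rpow_le_rpow_of_exponent_le hX1 ?_
    have h5 : (2 : ℝ) ≤ N := by exact_mod_cast hn2
    push_cast
    nlinarith
  have h2 : X ^ (2 * ε) = X ^ ε * X ^ ε := by
    rw [← Real.rpow_add hX0]; congr 1; ring
  have h3 : C ≤ C * Real.exp (2 * s) := le_mul_of_one_le_right (by linarith) hes
  have hd0 := nm_cast_pos hd.ne_zero
  have he0 := nm_cast_pos he.ne_zero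
  have hB0 : 0 ≤ B := by linarith
  have hHt1 := one_le_Ht ps
  have hmn : 0 ≤ min 1 ((nm d : ℝ) * nm e * Real.exp (-s₀)) := le_min zero_le_one (by positivity)
  unfold nmx
  cases jj
  · rw [if_neg (by decide), if_neg (by decide)]
    calc (Cw ^ 2 * (η⁻¹) ^ J) * (C * ((X ^ δ) ^ N) ^ (3 : ℝ) * X ^ ε * (1 + |t₀|) ^ J * B) *
          (Real.exp (LF ps) / nm d) ^ (2 / 3 : ℝ)
        ≤ (Cw ^ 2 * (η⁻¹) ^ J) * ((C * Real.exp (2 * s)) * X ^ ε * X ^ ε * (1 + |t₀|) ^ J * B) *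
          (Real.exp (LF ps) / nm d) ^ (2 / 3 : ℝ) := by gcongr
      _ = _ := by rw [h2]; ring
  · rw [if_pos rfl, if_pos rfl]
    refine mul_le_mul_of_nonneg_right ?_ (by positivity)
    calc (Cw ^ 2 * (η⁻¹) ^ J) * (C * (X ^ δ) ^ 4 * Ht ps ^ 6 * X ^ ε * (1 + |t₀|) ^ J)
        ≤ (Cw ^ 2 * (η⁻¹) ^ J) * ((C * Real.exp (2 * s)) * X ^ ε * Ht ps ^ 6 * X ^ ε *
          (1 + |t₀|) ^ J) := by gcongr
      _ = _ := by rw [h2]; ring

end Crest.Agent.R017.RHX116
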