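import Crest.Agent.R017.RoC2_116

/-!
# Row 17, (Ro) at the near leaf (helper116): the core with the exact cut conditions

* `factors3`, `LVn_le3`, `ef_num3` : the four factors from (q1), (q2), (q3)
* `ro_core3` : the core, cuts `B`, `E1` free, premises (q1), (q2), (q3)
-/

set_option autoImplicit false
set_option linter.unusedVariables false

noncomputable section

open Finset
open scoped Classical ComplexConjugate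

namespace Crest.Agent.R017.RoX116

open Crest.Agent.R012 Crest.Agent.R012.Eis
open Crest.Agent.R012.MC (Wgt)
open Crest.Agent.R012.LS2 (S mem_S)
open Crest.Agent.R012.Mob705 (pb mem_pb pdiv mem_pdiv)
open Crest.Agent.R017.C70 (JC OKJ JW okJ_JW)
open Crest.Agent.R017.CM106 (CS FS)
open Crest.Agent.R017.E1551 (Adm)
open Crest.Agent.R017.E3A164 (Yp Ys fq Cs mem_Cs be Fy)
open Crest.Agent.R017.E3M829 (TC Tal Sg W0)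
open Crest.Agent.R017.E3F548 (MPTr EF EF_nonneg)
open Crest.Agent.R017.E3T1579 (T3)
open Crest.Agent.R017.E3T829 (hE hE_nonneg)
open Crest.Agent.R017.E3Z548 (FH LVn TN JV JVc TN_nonneg)
open Crest.Agent.R017.E3Kc548 (LI omk mem_LI card_LI nm_pos_J mem_JW_win afT)
open Crest.Agent.R017.E3Kf548
open Crest.Agent.R017.RoT813 (afP TPr)
open Crest.Agent.R017.LBo813 (Om Om_nonneg Om_le_one)
open Crest.Agent.R017.I1146 (omr)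

/-- the four factors are at most `1` -/
lemma factors3 {c H K V V' N E1 B : ℝ} (hc : 1 ≤ c) (hH : 1 ≤ H) (hK : 0 < K) (hV1 : 0 < V)
    (hV : V ≤ N) (hV1' : 0 < V') (hV' : V' ≤ N) (hN : 1 ≤ N) (hE1 : 1 ≤ E1) (hB : 1 ≤ B)
    (q1 : H ^ (1 / 3 : ℝ) * N * E1 ^ 2 * B ^ 2 * Real.sqrt (c * N) ≤ K)
    (q2 : H * N ^ 3 * E1 ^ 3 * B ^ 2 ≤ K ^ 2) (q3 : H ^ 2 * N ^ 3 ≤ K ^ 2) :
    (H * (V / V')) ^ (1 / 3 : ℝ) * (V' / K) * (E1 ^ 2 * B ^ 2 * Real.sqrt (c * V)) ≤ 1 ∧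
    (H * V ^ 2 * V' * E1 ^ 3 * B ^ 2 / K ^ 2) ^ (1 / 3 : ℝ) ≤ 1 ∧
    (H ^ 2 * V ^ 3 / K ^ 2) ^ (1 / 3 : ℝ) ≤ 1 ∧ (H ^ 2 * V ^ 3 / K ^ 2) ^ (1 / 2 : ℝ) ≤ 1 := by
  have hH0 : 0 < H := by linarith
  have hc0 : 0 < c := by linarith
  have hE0 : 0 < E1 := by linarith
  have hB0 : 0 < B := by linarith
  have hN0 : 0 < N := by linarith
  have hK2 : 0 < K ^ 2 := by positivity
  have a3 : H ^ 2 * V ^ 3 / K ^ 2 ≤ 1 := by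
    rw [div_le_one hK2]
    refine le_trans ?_ q3
    gcongr
  have a2 : H * V ^ 2 * V' * E1 ^ 3 * B ^ 2 / K ^ 2 ≤ 1 := by
    rw [div_le_one hK2]
    refine le_trans ?_ q2
    calc H * V ^ 2 * V' * E1 ^ 3 * B ^ 2 ≤ H * N ^ 2 * N * E1 ^ 3 * B ^ 2 := by gcongr
      _ = _ := by ring
  have a1 : (H * (V / V')) ^ (1 / 3 : ℝ) * V' ≤ H ^ (1 / 3 : ℝ) * N := by
    rw [Real.mul_rpow hH0.le (by positivity), mul_assoc]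
    refine mul_le_mul_of_nonneg_left ?_ (by positivity)
    have e1 : (V / V') ^ (1 / 3 : ℝ) * V' = V ^ (1 / 3 : ℝ) * V' ^ (2 / 3 : ℝ) := by
      rw [Real.div_rpow hV1.le hV1'.le]
      have e2 : V' = V' ^ (1 / 3 : ℝ) * V' ^ (2 / 3 : ℝ) := by
        rw [← Real.rpow_add hV1']; norm_num
      have e3 : 0 < V' ^ (1 / 3 : ℝ) := by positivity
      calc V ^ (1 / 3 : ℝ) / V' ^ (1 / 3 : ℝ) * V'
          = V ^ (1 / 3 : ℝ) / V' ^ (1 / 3 : ℝ) * (V' ^ (1 / 3 : ℝ) * V' ^ (2 / 3 : ℝ)) := by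
            rw [← e2]
        _ = _ := by field_simp
    have e4 : N = N ^ (1 / 3 : ℝ) * N ^ (2 / 3 : ℝ) := by
      rw [← Real.rpow_add hN0]; norm_num
    rw [e1]
    calc V ^ (1 / 3 : ℝ) * V' ^ (2 / 3 : ℝ) ≤ N ^ (1 / 3 : ℝ) * N ^ (2 / 3 : ℝ) := by gcongr
      _ = N := e4.symm
  refine ⟨?_, rp_le_one (by positivity) a2 (by norm_num),
    rp_le_one (by positivity) a3 (by norm_num), rp_le_one (by positivity) a3 (by norm_num)⟩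
  calc (H * (V / V')) ^ (1 / 3 : ℝ) * (V' / K) * (E1 ^ 2 * B ^ 2 * Real.sqrt (c * V))
      = ((H * (V / V')) ^ (1 / 3 : ℝ) * V') * (E1 ^ 2 * B ^ 2 * Real.sqrt (c * V)) / K := by ring
    _ ≤ (H ^ (1 / 3 : ℝ) * N) * (E1 ^ 2 * B ^ 2 * Real.sqrt (c * N)) / K := by gcongr
    _ ≤ 1 := by
        rw [div_le_one hK]
        refine le_trans (le_of_eq ?_) q1
        ring

/-- **one side of a pair** -/
theorem LVn_le3 {af : Eis → Eis → Eis → ℂ} {Ds EE : Finset Eis} {c Y K H V V' N E1 B RN τ : ℝ}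
    (hc : 1 ≤ c) (hH : 1 ≤ H) (hK : 0 < K) (hV1 : 0 < V)
    (hV : V ≤ N) (hV1' : 0 < V') (hV' : V' ≤ N) (hN : 1 ≤ N) (hE1 : 1 ≤ E1) (hB : 1 ≤ B)
    (q1 : H ^ (1 / 3 : ℝ) * N * E1 ^ 2 * B ^ 2 * Real.sqrt (c * N) ≤ K)
    (q2 : H * N ^ 3 * E1 ^ 3 * B ^ 2 ≤ K ^ 2) (q3 : H ^ 2 * N ^ 3 ≤ K ^ 2)
    (h1 : K ^ (2 / 3 : ℝ) * V ^ (-(1 / 3) : ℝ) *
      TN af (fun e => nm e) Ds EE (fun _ => 1) {1} (JVc c V) id ≤ τ)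
    (h2 : K ^ (2 / 3 : ℝ) * V ^ (-(1 / 3) : ℝ) *
      TN af (fun e => nm e) Ds EE (fun γ => (nm γ : ℝ)⁻¹) (primBall ⌊Y⌋₊) (JV c V)
        (fun _ => 1) ≤ τ)
    (h3 : K ^ (2 / 3 : ℝ) * V ^ (-(1 / 3) : ℝ) *
      TN af (fun e => nm e) Ds EE (fun γ => (nm γ : ℝ) ^ (-(1 / 2) : ℝ)) (primBall ⌊Y⌋₊)
        (JV c V) (fun _ => 1) ≤ τ) :
    LVn af Ds EE c Y K H V V' E1 B (Real.sqrt (c * V)) RN ≤
      6 * (H ^ (-(1 / 3) : ℝ) * τ) + FH K H V * RN := by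
  obtain ⟨x1, x2, x3, x4⟩ := factors3 hc hH hK hV1 hV hV1' hV' hN hE1 hB q1 q2 q3
  obtain ⟨T1, hT1⟩ : ∃ T1, T1 = TN af (fun e => nm e) Ds EE (fun _ => 1) {1} (JVc c V) id :=
    ⟨_, rfl⟩
  obtain ⟨T2, hT2⟩ : ∃ T2, T2 = TN af (fun e => nm e) Ds EE (fun γ => (nm γ : ℝ)⁻¹)
    (primBall ⌊Y⌋₊) (JV c V) (fun _ => 1) := ⟨_, rfl⟩
  obtain ⟨T3', hT3⟩ : ∃ T3', T3' = TN af (fun e => nm e) Ds EE
    (fun γ => (nm γ : ℝ) ^ (-(1 / 2) : ℝ)) (primBall ⌊Y⌋₊) (JV c V) (fun _ => 1) := ⟨_, rfl⟩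
  have p1 : 0 ≤ T1 := by
    rw [hT1]; exact TN_nonneg _ (fun e => Nat.cast_nonneg _) _ _ (fun _ => zero_le_one) _ _ _
  have p2 : 0 ≤ T2 := by
    rw [hT2]; exact TN_nonneg _ (fun e => Nat.cast_nonneg _) _ _ (fun _ => by positivity) _ _ _
  have p3 : 0 ≤ T3' := by
    rw [hT3]; exact TN_nonneg _ (fun e => Nat.cast_nonneg _) _ _ (fun _ => by positivity) _ _ _
  unfold E3Z548.LVn
  rw [← hT1] at h1 ⊢
  rw [← hT2] at h2 ⊢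
  rw [← hT3] at h3 ⊢
  have hH0 : 0 < H := by linarith
  have hF := FH_eq (K := K) hH0.le hV1.le
  have hh : 0 ≤ H ^ (-(1 / 3) : ℝ) := by positivity
  have hF0 : 0 ≤ K ^ (2 / 3 : ℝ) * V ^ (-(1 / 3) : ℝ) := by positivity
  obtain ⟨F, hFd⟩ : ∃ F, F = K ^ (2 / 3 : ℝ) * V ^ (-(1 / 3) : ℝ) := ⟨_, rfl⟩
  rw [← hFd] at h1 h2 h3 hF hF0
  have hFF : 0 ≤ FH K H V := by rw [hF]; positivity
  calc FH K H V * ((1 + (H * (V / V')) ^ (1 / 3 : ℝ) * (V' / K) *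
          (E1 ^ 2 * B ^ 2 * Real.sqrt (c * V)) +
          (H * V ^ 2 * V' * E1 ^ 3 * B ^ 2 / K ^ 2) ^ (1 / 3 : ℝ)) * T1 +
        (1 + (H ^ 2 * V ^ 3 / K ^ 2) ^ (1 / 3 : ℝ)) * T2 +
        (H ^ 2 * V ^ 3 / K ^ 2) ^ (1 / 2 : ℝ) * T3' + RN)
      ≤ FH K H V * ((1 + 1 + 1) * T1 + (1 + 1) * T2 + 1 * T3' + RN) := by gcongr
    _ = 3 * (H ^ (-(1 / 3) : ℝ) * (F * T1)) + 2 * (H ^ (-(1 / 3) : ℝ) * (F * T2)) +
        H ^ (-(1 / 3) : ℝ) * (F * T3') + FH K H V * RN := by rw [hF]; ring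
    _ ≤ 3 * (H ^ (-(1 / 3) : ℝ) * τ) + 2 * (H ^ (-(1 / 3) : ℝ) * τ) +
        H ^ (-(1 / 3) : ℝ) * τ + FH K H V * RN := by gcongr
    _ = _ := by ring

/-- the factor of the error term -/
lemma ef_num3 {c H K N₁ N E1 B : ℝ} (hc : 1 ≤ c) (hH : 1 ≤ H) (hK : 0 < K) (hN1 : 0 ≤ N₁)
    (hN : N₁ ≤ N) (hN' : 1 ≤ N) (hE1 : 1 ≤ E1) (hB : 1 ≤ B)
    (q1 : H ^ (1 / 3 : ℝ) * N * E1 ^ 2 * B ^ 2 * Real.sqrt (c * N) ≤ K) :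
    K ^ (-(1 : ℝ) / 3) * E1 ^ 2 * B ^ 2 * N₁ ≤ K ^ (2 / 3 : ℝ) * H ^ (-(1 / 3) : ℝ) := by
  have hH0 : 0 < H := by linarith
  have hs : 1 ≤ Real.sqrt (c * N) := by
    rw [Real.one_le_sqrt]
    exact one_le_mul_of_one_le_of_one_le hc hN'
  have h1 : E1 ^ 2 * B ^ 2 * N₁ * H ^ (1 / 3 : ℝ) ≤ K := by
    calc E1 ^ 2 * B ^ 2 * N₁ * H ^ (1 / 3 : ℝ) ≤ E1 ^ 2 * B ^ 2 * N * H ^ (1 / 3 : ℝ) := by gcongr
      _ = H ^ (1 / 3 : ℝ) * N * E1 ^ 2 * B ^ 2 * 1 := by ring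
      _ ≤ H ^ (1 / 3 : ℝ) * N * E1 ^ 2 * B ^ 2 * Real.sqrt (c * N) := by gcongr
      _ ≤ K := q1
  have e2 : K ^ (2 / 3 : ℝ) = K ^ (-(1 : ℝ) / 3) * K := by
    rw [← Real.rpow_add_one hK.ne']; norm_num
  have e3 : H ^ (1 / 3 : ℝ) * H ^ (-(1 / 3) : ℝ) = 1 := by
    rw [← Real.rpow_add hH0]; norm_num
  have hK3 : 0 ≤ K ^ (-(1 : ℝ) / 3) := by positivity
  calc K ^ (-(1 : ℝ) / 3) * E1 ^ 2 * B ^ 2 * N₁
      = K ^ (-(1 : ℝ) / 3) * (E1 ^ 2 * B ^ 2 * N₁) * 1 := by ring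
    _ = K ^ (-(1 : ℝ) / 3) * (E1 ^ 2 * B ^ 2 * N₁) *
        (H ^ (1 / 3 : ℝ) * H ^ (-(1 / 3) : ℝ)) := by rw [e3]
    _ = K ^ (-(1 : ℝ) / 3) * (E1 ^ 2 * B ^ 2 * N₁ * H ^ (1 / 3 : ℝ)) *
        H ^ (-(1 / 3) : ℝ) := by ring
    _ ≤ K ^ (-(1 : ℝ) / 3) * K * H ^ (-(1 / 3) : ℝ) := by gcongr
    _ = _ := by rw [e2]

/-- **the core of (Ro)**, cuts `B`, `E1` free, exact conditions -/
theorem ro_core3 {w : ℝ → ℝ} (hw : Wgt w) {W b₀ : ℝ} (hW : W0 w W b₀) {R : ℝ} (hR : 0 ≤ R)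
    {A' : ℕ} (hA' : 2 ≤ A') {A Bw : ℕ} (hA : 1 < A) (hB : 1 < Bw) {ε : ℝ} (hε : 0 < ε) :
    ∃ C : ℝ, 0 ≤ C ∧ ∀ (c H Cp K K' X Y Z ZT E0 E1 B D : ℝ) (N₀ N₁ : ℕ), 1 ≤ c → 1 ≤ H → 0 ≤ Cp →
    0 < K' → K' ≤ K → 0 < X → 0 ≤ Y → 1 ≤ E0 → 1 ≤ N₁ → 1 ≤ E1 → 1 ≤ B → B ≤ Z →
    c * (Real.exp 1 * (Real.exp 1 * N₁)) ≤ ZT → ZT ≤ Z →
    H ^ (1 / 3 : ℝ) * (Real.exp 1 * N₁) * E1 ^ 2 * B ^ 2 * Real.sqrt (c * (Real.exp 1 * N₁)) ≤ K' →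
    H * (Real.exp 1 * N₁) ^ 3 * E1 ^ 3 * B ^ 2 ≤ K' ^ 2 → H ^ 2 * (Real.exp 1 * N₁) ^ 3 ≤ K' ^ 2 →
    ∀ α : Eis → ℂ, Adm Y X R α → ∀ (b e : Eis) (RN : ℕ → ℝ), (∀ i, 0 ≤ RN i) →
    PairB Cp c H A Bw K' B E1 E0 b₀ Z N₁ (JW D (1 / 10) N₁) (omr (Om N₀ N₁))
      (afR b e α E0) RN →
    Sg w K' B N₁ E1 (fun q t k₁ => ‖∑ y ∈ Ys (JW D (1 / 10) N₁) E0 N₁,
        Fy (JW D (1 / 10) N₁) (omq N₀ N₁ b e) (Tal α) q t k₁ y‖ ^ 2) ≤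
      Sg w K' B N₁ E1 (fun q t k₁ =>
        E3M829.Dg (JW D (1 / 10) N₁) (omq N₀ N₁ b e) (Tal α) E0 N₁ q t k₁) +
      C * (1 + Cp) * (Z ^ ε) ^ 3 * (c ^ (1 / 3 : ℝ) * H ^ (-(1 / 3) : ℝ) * E0 ^ 3 *
        ((K / X) * LBx48.EHf A' K X Y ZT α) +
        E0 * ∑ i ∈ LI (1 / 10) N₁, FH K' H (Real.exp i) * RN i) := by
  obtain ⟨C₁, hC₁, H₁⟩ := Z1x hw (Rw := 2) (A := A) (Bw := Bw) le_rfl hA hB hε
  obtain ⟨C₂, hC₂, H₂⟩ := TPr R hR A' hA' hε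
  obtain ⟨C₃, hC₃, H₃⟩ := EF_le R hR A' hA' hε
  refine ⟨C₁ * (32 * (2 + 1 / ε) + 192 * (2 + 1 / ε) ^ 2 * C₂ + C₃ * 16), by positivity, ?_⟩
  intro c H Cp K K' X Y Z ZT E0 E1 B D N₀ N₁ hc hH hCp hK' hKK hX hY hE0 hN1 hE14 hB1 hEZ hcZ hTZ
    q1 q2 q3 α hα b e RN hRN hPB
  have hN : (1 : ℝ) ≤ N₁ := by exact_mod_cast hN1
  have he1 : (1 : ℝ) ≤ Real.exp 1 := Real.one_le_exp zero_le_one
  have hH0 : 0 < H := by linarith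
  have hc0 : 0 < c := by linarith
  have hE00 : 0 < E0 := by linarith
  have hK : 0 < K := by linarith
  have hN' : (1 : ℝ) ≤ Real.exp 1 * N₁ := one_le_mul_of_one_le_of_one_le he1 hN
  have hNN : (N₁ : ℝ) ≤ Real.exp 1 * N₁ := le_mul_of_one_le_left (by linarith) he1
  have hNe : Real.exp 1 * (N₁ : ℝ) ≤ Real.exp 1 * (Real.exp 1 * N₁) :=
    le_mul_of_one_le_left (by linarith) he1
  have hNc : Real.exp 1 * (Real.exp 1 * (N₁ : ℝ)) ≤ c * (Real.exp 1 * (Real.exp 1 * N₁)) :=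
    le_mul_of_one_le_left (by linarith) hc
  have hZT : 1 ≤ ZT := by linarith
  have hZ : 1 ≤ Z := by linarith
  have hN1Z : (N₁ : ℝ) ≤ Z := by linarith
  -- the sequence
  have hS : ∀ n, α n ≠ 0 → IsPrim n ∧ Squarefree n := by
    intro n hn
    exact ((mem_S hY).1 (hα.sup n hn)).2
  have hT : TC (T3 (afR b e α E0)) := TC_afR fun n hn => (hS n hn).2
  have hom : ∀ x ∈ JW D (1 / 10) (N₁ : ℝ), ∀ e' ∈ S E0, omq N₀ N₁ b e x * Tal α x.1 e' x.2 =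
      omr (Om N₀ N₁) x * T3 (afR b e α E0) x.1 e' x.2 := by
    intro x hx e' he'
    exact om_T3_afR (fun n hn => (hS n hn).1) ((okJ_JW D (1 / 10) (N₁ : ℝ)).prim x hx) he'
  have h1 := H₁ W b₀ hW D (1 / 10) N₁ (omr (Om N₀ N₁)) (omq N₀ N₁ b e) (Tal α)
    (T3 (afR b e α E0)) K' N₁ Z B E0 E1 hT hom hK' hZ (by linarith) hN1Z hB1
    (by linarith) (fun x hx => (JW_nm hx).1.trans hN1Z) (fun x hx => (JW_nm hx).2)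
  -- the T-part
  obtain ⟨G, hG⟩ : ∃ G, G = (K / X) * LBx48.EHf A' K X Y ZT α := ⟨_, rfl⟩
  have hG0 : 0 ≤ G := by
    rw [hG]
    have := LBx48.EHc_nonneg (c := fun n => ((n : ℝ))⁻¹) (fun n => by positivity)
      (fun _ => True) (A := (A' : ℝ)) (K := K) (X := X) (Y := Y) (Z := ZT) hK.le hX.le α
    exact mul_nonneg (by positivity) this
  obtain ⟨P, hP⟩ : ∃ P, P = Z ^ ε := ⟨_, rfl⟩
  have hP1 : 1 ≤ P := by rw [hP]; exact Real.one_le_rpow hZ hε.le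
  have hZTP : ZT ^ ε ≤ P := by
    rw [hP]; exact Real.rpow_le_rpow (by linarith) hTZ hε.le
  have hτ : ∀ i ∈ LI (1 / 10) (N₁ : ℝ), ∀ j ∈ LI (1 / 10) (N₁ : ℝ),
      LVn (afR b e α E0) ((JW D (1 / 10) N₁).image Prod.fst) (S E0) c (Z ^ 5) K' H (Real.exp i)
        (Real.exp j) E1 B (Real.sqrt (c * Real.exp i)) (RN i) ≤
      6 * (H ^ (-(1 / 3) : ℝ) * (C₂ * (P * c ^ (1 / 3 : ℝ) * E0 ^ 2) * G)) +
        FH K' H (Real.exp i) * RN i := by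
    intro i hi j hj
    obtain ⟨-, -, i3⟩ := mem_LI hi
    obtain ⟨-, -, j3⟩ := mem_LI hj
    have hcV : c * Real.exp i ≤ ZT := by
      refine le_trans ?_ hcZ
      exact mul_le_mul_of_nonneg_left (i3.trans hNe) hc0.le
    obtain ⟨t1, t2, t3⟩ := H₂ Y X K K' ZT E0 (Real.exp i) c (Z ^ 5) hY hX hK' hKK hZT hE00.le
      (Real.exp_pos _) hc0.le hcV α hα (fun d => b ∣ d ∧ IsCoprime d e)
      ((JW D (1 / 10) N₁).image Prod.fst) (S E0)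
      (fun d hd => by
        obtain ⟨x, hx, rfl⟩ := mem_image.1 hd
        exact (okJ_JW D (1 / 10) (N₁ : ℝ)).prim x hx)
      (fun e he => he)
    rw [← afR_afP] at t1 t2 t3
    have hbd : C₂ * (ZT ^ ε * c ^ (1 / 3 : ℝ) * E0 ^ 2) * ((K / X) *
          EHu320.EHc (fun n => ((n : ℝ))⁻¹) (fun _ => True) A' K X Y ZT α) ≤
        C₂ * (P * c ^ (1 / 3 : ℝ) * E0 ^ 2) * G := by
      rw [hG]
      unfold LBx48.EHf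
      rw [hG] at hG0
      unfold LBx48.EHf at hG0
      gcongr
    exact LVn_le3 (N := Real.exp 1 * N₁) hc hH hK' (Real.exp_pos _) i3 (Real.exp_pos _) j3 hN'
      hE14 hB1 q1 q2 q3 (t1.trans hbd) (t2.trans hbd) (t3.trans hbd)
  have hh0 := hE_nonneg (S E0)
  have h2 := pairs_le (L := LI (1 / 10) (N₁ : ℝ))
    (M := fun i j => ∑ q ∈ S (N₁ : ℝ), ∑ t ∈ pb E1, MPTr (fun _ _ => True) A Bw K'
      B (Real.exp i) (Real.exp j) (Z ^ 5) (JW D (1 / 10) N₁) (omk (omr (Om N₀ N₁)) i)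
      (omk (omr (Om N₀ N₁)) j) (T3 (afR b e α E0)) E0 N₁ b₀ q t) (x := fun _ => 0)
    (R := fun i => FH K' H (Real.exp i) * RN i) (h := hE (S E0))
    (T := 6 * (H ^ (-(1 / 3) : ℝ) * (C₂ * (P * c ^ (1 / 3 : ℝ) * E0 ^ 2) * G))) hCp hh0
    (fun i hi j hj => (hPB i hi j hj).trans
      (mul_le_mul_of_nonneg_left (mul_le_mul_of_nonneg_left
        (add_le_add (hτ i hi j hj) (hτ j hj i hi)) hh0) hCp))
  -- the error term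
  have h3 := ef_num3 (c := c) (H := H) (K := K') (N₁ := N₁) (N := Real.exp 1 * N₁)
    (E1 := E1) (B := B) hc hH hK' (by linarith) hNN hN' hE14 hB1 q1
  have h4 : K' ^ (2 / 3 : ℝ) * ∑ x ∈ JW D (1 / 10) (N₁ : ℝ), EF (omq N₀ N₁ b e) (Tal α) E0 x ≤
      (C₃ * 16) * (P * E0 ^ 3) * G := by
    have k1 := H₃ Y X K ZT E0 D (1 / 10) N₁ hY hX hK hZT hE00.le (by linarith) (by linarith) α hα
      (omq N₀ N₁ b e) (fun x _ => norm_omq _ _ _ _ _)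
    have k0 : 0 ≤ ∑ x ∈ JW D (1 / 10) (N₁ : ℝ), EF (omq N₀ N₁ b e) (Tal α) E0 x :=
      sum_nonneg fun x _ => EF_nonneg _ _ _ _
    have k2 : K' ^ (2 / 3 : ℝ) ≤ K ^ (2 / 3 : ℝ) :=
      Real.rpow_le_rpow hK'.le hKK (by norm_num)
    have k3 := hE_S_le hE0
    rw [← hG] at k1
    calc K' ^ (2 / 3 : ℝ) * ∑ x ∈ JW D (1 / 10) (N₁ : ℝ), EF (omq N₀ N₁ b e) (Tal α) E0 x
        ≤ K ^ (2 / 3 : ℝ) * ∑ x ∈ JW D (1 / 10) (N₁ : ℝ), EF (omq N₀ N₁ b e) (Tal α) E0 x :=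
          mul_le_mul_of_nonneg_right k2 k0
      _ ≤ C₃ * (ZT ^ ε * hE (S E0) * E0 ^ 2) * G := k1
      _ ≤ C₃ * (P * (16 * E0) * E0 ^ 2) * G := by gcongr
      _ = _ := by ring
  have hl : ((LI (1 / 10) (N₁ : ℝ)).card : ℝ) ≤ (2 + 1 / ε) * P := by
    rw [hP]; exact card_LI (1 / 10) hZ (by linarith) hN1Z hε
  have hFH : ∀ i, 0 ≤ FH K' H (Real.exp i) := fun i => by unfold E3Z548.FH; positivity
  rw [← hP] at h1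
  have key := core_num (SF := _) (SD := _) (by linarith : (0 : ℝ) ≤ C₁) hC₂
    (by positivity : (0 : ℝ) ≤ C₃ * 16) hCp hE0 (by positivity : 0 ≤ H ^ (-(1 / 3) : ℝ))
    (Real.one_le_rpow hc (by norm_num) : 1 ≤ c ^ (1 / 3 : ℝ)) hG0 hP1
    (sum_nonneg fun i _ => mul_nonneg (hFH i) (hRN i) :
      0 ≤ ∑ i ∈ LI (1 / 10) (N₁ : ℝ), FH K' H (Real.exp i) * RN i)
    (Nat.cast_nonneg _) hl (by positivity) hh0 (hE_S_le hE0)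
    (sum_nonneg fun x _ => EF_nonneg _ _ _ _ :
      0 ≤ ∑ x ∈ JW D (1 / 10) (N₁ : ℝ), EF (omq N₀ N₁ b e) (Tal α) E0 x)
    (by positivity) h1 h2 h3 h4
  rw [← hP, ← hG]
  exact key

end Crest.Agent.R017.RoX116
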