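import Crest.Agent.R017.RHXe_116

/-!
# Row 17, (RH) at the leaf, exceptional class (helper116): premises for short children only, both
divisors

* `RHx_leafe` : helper116's `RHx_leaf` at the divisors `d`, `e`, premises only for the children of
  length at most `LF ps - D'`, `D' ≤ log (nm d * nm e)`
-/

set_option autoImplicit false
set_option linter.unusedVariables false

noncomputable section

open Complex MeasureTheory
open scoped ComplexConjugate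

namespace Crest.Agent.R017.RHX116

open Crest.Agent.R012 Crest.Agent.R012.Eis Crest.Agent.R012.MC
open Crest.Agent.R012.LS2 (S mem_S bl mem_bl)
open Crest.Agent.R012.Weight600 (pw norm_pw pw_add_left)
open Crest.Agent.R017.CM106 (CS TG FS)
open Crest.Agent.R017.FE47
open Crest.Agent.R017.B770
open Crest.Agent.R017.Prov71 hiding tl
open Crest.Agent.R017.Sup271 (NPm)
open Crest.Agent.R017.XHB411 (tl)
open Crest.Agent.R017.XRG106 (Rl)
open Crest.Agent.R017.PX764 (n6)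
open Crest.Agent.R017.Leg381 (Pf alF LF natl)
open Crest.Agent.R017.Win813 (WK)
open Crest.Agent.R017.RGw813 (bt)
open Crest.Agent.R017.XPX241 (RN)
open Crest.Agent.R017.XP699 (LL Chd hcost cst)
open Crest.Agent.R017.RG64 (Sb SbL Ht one_le_Ht Ht_cons)
open Crest.Agent.R017.RX298 (xs rp rpB SbL_rp Lg LF_rp rp_length rpB_length Ht_rp)
open Crest.Agent.R017.RGB545 (rbx)
open Crest.Agent.R017.ExD791 (Tw)
open Crest.Agent.R017.PoHx72 (Cls)
open Crest.Agent.R017.R3571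

set_option maxHeartbeats 1600000 in
open Classical in
/-- **(RH) for all `P` and both classes, from the premises of the leaf**, premises only for the
children of length at most `LF ps - D'` -/
theorem RHx_leafe {h : ℝ → ℝ} {c : ℝ} (hpu : PU h c) (N : ℕ) {c₀ m₀ μ M : ℝ} (hc₀ : 1 ≤ c₀)
    (hm₀ : 0 ≤ m₀) (hμ : 0 < μ) (hM : 0 ≤ M) :
    ∃ a : ℕ, 1 ≤ a ∧ ∀ (ε s : ℝ), 0 < ε → 0 ≤ s →
    ∃ C r X₁ : ℝ, 1 ≤ C ∧ 0 ≤ r ∧ ∀ X : ℝ, 3 ≤ X → X₁ ≤ X → ∀ (P : DPar), P.OK →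
    ¬ NPm P.n P.ψ P.l₂ 1 → (nm P.n : ℝ) ≤ X ^ c₀ →
    ∀ ps₀ : List Pq, ps₀.length ≤ N → (∀ q ∈ ps₀, Dq.len q ≤ c₀ * Real.log X) →
    ∀ (q : Eis) (ps : List Pf), q ≠ 0 → (nm q : ℝ) ≤ X ^ c₀ → SbL s ps ps₀ →
    ∀ d₀ s₀ : ℝ, 0 ≤ d₀ → 0 ≤ s₀ → Tw (d₀ * Real.log X) s₀ (X ^ c₀) ps →
    ∀ (z δ : ℝ), 0 ≤ δ → δ ≤ 1 → 3 * N * δ ≤ ε → ∀ Bd T Im D' : ℝ, 1 ≤ Bd → LF ps ≤ T →
    (∀ (t : Bool) (l : ℝ) (ps' : List Pq), 0 ≤ l → l ≤ Im →
      List.Forall₂ (Chd Dq hcost r (C * X ^ (2 * c₀ + 2))) ps' (rbx d₀ t X ps₀) →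
      LL Dq ps' ≤ LF ps - D' + ε * Real.log X →
      RN P h l ps' ≤ Bd * cst hcost ps' (rbx d₀ t X ps₀) ^ M *
        Real.exp (T - LF ps + LL Dq ps' - (Im - l) / 3)) →
    ∀ (Cw η : ℝ) (Aw J : ℕ), 0 ≤ Cw → 0 < η → η ≤ 1 → J + 2 ≤ Aw → (N : ℝ) ^ 2 * M ≤ J → 12 ≤ J →
    ∀ (φ : ℝ → ℝ), WK Cw η Aw φ → ∀ (b : ℕ × ℕ), b.2 ≤ 2 → ∀ (t₀ A : ℝ), (J : ℝ) + 2 ≤ A →
    ∀ d e : Eis, IsPrim d → IsPrim e → (nm d : ℝ) ≤ X ^ c₀ → (nm e : ℝ) ≤ X ^ c₀ →
    D' ≤ Real.log (nm d * nm e) →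
    ∀ P1 : ℝ, 0 < P1 → P1 ≤ X ^ c₀ → 81 * P1 * X ^ (μ / 2) ≤ Real.exp Im →
    ∀ (jj : Bool) (γ π : Eis), IsPrim γ → IsPrim π → (nm π : ℝ) ≤ X ^ m₀ → ∀ Λ : ℝ, 0 < Λ →
      (nm γ : ℝ) * n6 γ ^ 2 * ∑ r ∈ (bl Λ).filter
          (Cls (fun r => ∃ c₀ : Eis, r * (w ^ b.1 * lam ^ b.2) ^ 2 = c₀ ^ 3) jj), RMm A
          (fun m => bt φ (xs q z (X ^ δ) P h (d₀ * Real.log X) ps) b (d * m) *
            pw t₀ (nm (d * m))) e γ π r ≤
        W2 a P1 (nmx ((Cw ^ 2 * (η⁻¹) ^ J) * (C * X ^ (2 * ε) * (1 + |t₀|) ^ J *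
            ((Ht ps * Ht (natl ps₀)) ^ M * Bd * Real.exp (T - LF ps))))
          ((Cw ^ 2 * (η⁻¹) ^ J) * (C * X ^ (2 * ε) * (1 + |t₀|) ^ J * Ht ps ^ 6))
          (P1 * X ^ (μ / 2)) s₀ (Real.exp (LF ps)) d e jj) Λ := by
  classical
  set m₁ : ℝ := 2 * c₀ + m₀ + 3 with hm₁
  have hm₁0 : 0 < m₁ := by linarith
  set μ' : ℝ := N * M / 2 with hμ'
  have hN0 : (0 : ℝ) ≤ N := Nat.cast_nonneg N
  have hμ'0 : 0 ≤ μ' := by positivity
  obtain ⟨a, ha, H⟩ := RHx_two hpu hμ'0 N (δ := μ / 2 / m₁) (m := 1) (B₀ := 1) (by positivity)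
    (by norm_num) (by norm_num)
  refine ⟨a, ha, fun ε s hε hs => ?_⟩
  obtain ⟨C, hC, H⟩ := H (ε / m₁) (by positivity)
  have hs2 : 0 ≤ 2 * s := by linarith
  have hes : 1 ≤ Real.exp (2 * s) := Real.one_le_exp hs2
  refine ⟨C * Real.exp (2 * s), C + 2 * s, max (Real.exp (2 * s)) (Real.exp (C / ε)),
    one_le_mul_of_one_le_of_one_le hC hes, by linarith, ?_⟩
  intro X hX3 hXX P hP hnp hPn ps₀ hlen hz₀ q ps hq hqX hS d₀ s₀ hd₀ hs₀ hT z δ hδ0 hδ1 hδε Bd T Im D'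
    hBd hLT hyp Cw η Aw J hCw hη hη1 hAJ hJ hJ12 φ hφ b hb t₀ A hA d e hd he hdX heX hdD P1 hP1 hP1X
    hP1I jj γ π hγ hπ hπX Λ hΛ
  have hX0 : 0 < X := by linarith
  have hX1 : 1 ≤ X := by linarith
  have hl0 : 0 ≤ Real.log X := Real.log_nonneg hX1
  have hXs : 2 * s ≤ Real.log X := by
    rw [← Real.log_exp (2 * s)]
    exact Real.log_le_log (Real.exp_pos _) ((le_max_left _ _).trans hXX)
  have hXC : C ≤ ε * Real.log X := by
    have h1 : Real.exp (C / ε) ≤ X := (le_max_right _ _).trans hXX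
    have h2 : C / ε ≤ Real.log X := by
      rw [← Real.log_exp (C / ε)]; exact Real.log_le_log (Real.exp_pos _) h1
    rw [div_le_iff₀ hε] at h2
    linarith
  have hD₀ : 0 ≤ d₀ * Real.log X := mul_nonneg hd₀ hl0
  have hlenps : ps.length ≤ N := by rw [hS.length]; exact hlen
  have hzps : ∀ p ∈ ps, 0 ≤ p.1.z := hS.z_nonneg
  have hSr : SbL (2 * s) (rp (d₀ * Real.log X) ps) (rpB (d₀ * Real.log X) ps₀) :=
    SbL_rp hs hD₀ hS (Tw_lg hs₀ hT)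
  have hS2 : SbL (2 * s) ps ps₀ := hS.mono (by linarith)
  have hzr : ∀ p ∈ rp (d₀ * Real.log X) ps, 0 ≤ p.1.z := hSr.z_nonneg
  -- the lengths
  have hzle : ∀ p ∈ ps, p.1.z ≤ c₀ * Real.log X + s := z_le hS hz₀
  have hD₀le : d₀ * Real.log X ≤ 2 * ((c₀ + 1) * Real.log X) := by
    match ps, hT, hzle with
    | p1 :: p2 :: l, hT, hzle =>
      have h1 := hT.2.2.2.2.1
      have h2 := hzle p1 (by simp)
      have h3 := hzle p2 (by simp)
      nlinarith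
  have hL0 : 0 ≤ (c₀ + 1) * Real.log X := by positivity
  have hz₀' : ∀ q ∈ ps₀, Dq.len q ≤ (c₀ + 1) * Real.log X := fun q hq =>
    (hz₀ q hq).trans (mul_le_mul_of_nonneg_right (by linarith) hl0)
  have hzB : ∀ q ∈ rpB (d₀ * Real.log X) ps₀, Dq.len q ≤ (2 * c₀ + 2) * Real.log X := fun q hq => by
    have := len_rpB hD₀ hD₀le hL0 hz₀' q hq
    linarith
  have hzA : ∀ q ∈ ps₀, Dq.len q ≤ (2 * c₀ + 2) * Real.log X := fun q hq =>
    (hz₀ q hq).trans (mul_le_mul_of_nonneg_right (by linarith) hl0)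
  have hX0m : ∀ y : ℝ, y ≤ m₁ → X ^ y ≤ X ^ m₁ := fun y hy =>
    Real.rpow_le_rpow_of_exponent_le hX1 hy
  have hX3m : 3 ≤ X ^ m₁ := by
    calc (3 : ℝ) ≤ X := hX3
      _ = X ^ (1 : ℝ) := (Real.rpow_one X).symm
      _ ≤ _ := hX0m _ (by linarith)
  have hD0 : 1 ≤ X ^ δ := Real.one_le_rpow hX1 hδ0
  have hexp : ∀ y : ℝ, y ≤ (2 * c₀ + 2) * Real.log X + 2 * s → Real.exp y ≤ X ^ m₁ := by
    intro y hy
    rw [Real.rpow_def_of_pos hX0]
    refine Real.exp_le_exp.2 ?_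
    rw [hm₁]
    nlinarith
  have hezX : ∀ p ∈ ps, Real.exp p.1.z ≤ X ^ m₁ := fun p hp => hexp _ (z_le hS2 hzA p hp)
  have hezX' : ∀ p ∈ rp (d₀ * Real.log X) ps, Real.exp p.1.z ≤ X ^ m₁ := fun p hp =>
    hexp _ (z_le hSr hzB p hp)
  have hHt : 1 ≤ Ht ps * Ht (natl ps₀) :=
    one_le_mul_of_one_le_of_one_le (one_le_Ht _) (one_le_Ht _)
  have hHM : 1 ≤ (Ht ps * Ht (natl ps₀)) ^ M := Real.one_le_rpow hHt hM
  have hET : 1 ≤ Real.exp (T - LF ps) := Real.one_le_exp (by linarith)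
  set B : ℝ := (Ht ps * Ht (natl ps₀)) ^ M * Bd * Real.exp (T - LF ps) with hB
  have hB1 : 1 ≤ B := one_le_mul_of_one_le_of_one_le (one_le_mul_of_one_le_of_one_le hHM hBd) hET
  have hXμ : (X ^ m₁) ^ (μ / 2 / m₁) = X ^ (μ / 2) := by
    rw [← Real.rpow_mul hX0.le]; congr 1; field_simp
  have hXε : (X ^ m₁) ^ (ε / m₁) = X ^ ε := by
    rw [← Real.rpow_mul hX0.le]; congr 1; field_simp
  have hP20 : 0 < P1 * X ^ (μ / 2) := by positivity
  have hP2I : 81 * (P1 * X ^ (μ / 2)) ≤ Real.exp Im := by rw [← mul_assoc]; exact hP1I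
  have hn2 : 2 ≤ N := (Tw_len hT).trans hlenps
  have hmain := H P hP hnp ps (d₀ * Real.log X) s₀ hlenps hzps hzr z (X ^ δ) hD0 q d e hq hd he
    (X ^ m₁) hX3m (hX0m δ (by linarith))
    (by rw [Real.rpow_one]; exact hPn.trans (hX0m _ (by linarith)))
    (by rw [Real.rpow_one]; exact Tw_mono (hX0m _ (by linarith)) hT)
    (hqX.trans (hX0m _ (by linarith))) (hdX.trans (hX0m _ (by linarith)))
    (heX.trans (hX0m _ (by linarith))) hezX hezX' Cw η Aw J hCw hη hη1 hAJ (by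
      rw [hμ']
      calc 2 * ((N : ℝ) * (N * M / 2)) = (N : ℝ) ^ 2 * M := by ring
        _ ≤ J := hJ) hJ12 φ hφ b hb t₀ A hA P1 B hP1 (by
      rw [Real.rpow_one]; exact hP1X.trans (hX0m _ (by linarith))) hB1
    (fun Λ hΛ1 hΛ2 ps' W hW hR hl => by
      rw [hXμ] at hΛ2 ⊢
      have hd1 := one_le_nm hd.ne_zero
      have he1 := one_le_nm he.ne_zero
      have hld : 0 ≤ Real.log (nm d * nm e) - D' := by linarith
      rcases hR with hR | hR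
      · have h1 := prem_one (P := P) (h := h) (μ' := μ') hC hs2 hX0 hM hμ' hXC hP20 hP2I hBd hS2 hlen
          hzA (F := LF ps - D') (T := T - D') (fun l ps' g1 g2 g3 g4 => by
            have h2 := hyp false l ps' g1 g2 g3 g4
            have e1 : T - D' - (LF ps - D') = T - LF ps := by ring
            rw [e1]
            exact h2) hΛ1 hΛ2 hW hR hld (by linarith)
        have e1 : T - D' - (LF ps - D') = T - LF ps := by ring
        rw [e1] at h1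
        exact h1
      · have h1 := prem_one (P := P) (h := h) (μ' := μ') hC hs2 hX0 hM hμ' hXC hP20 hP2I hBd hSr
          (by rw [rpB_length]; exact hlen) hzB (F := LF ps - D') (T := T - D')
          (fun l ps' g1 g2 g3 g4 => by
            have h2 := hyp true l ps' g1 g2
            rw [rpB_eq] at g3 ⊢
            have e1 : T - D' - (LF ps - D') = T - LF ps := by ring
            rw [e1]
            exact h2 g3 g4) hΛ1 hΛ2 hW hR hld (by linarith)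
        have e1 : T - D' - (LF ps - D') = T - LF ps := by ring
        rw [Ht_rp, Ht_natl_rpB, e1] at h1
        exact h1) jj γ π hγ hπ (hπX.trans (hX0m _ (by linarith))) Λ hΛ
  refine hmain.trans (W2_mono a hP1 hΛ ?_)
  rw [hXε, hXμ]
  have h1 : ((X ^ δ) ^ N) ^ (3 : ℝ) ≤ X ^ ε := by
    rw [← Real.rpow_natCast, ← Real.rpow_mul hX0.le, ← Real.rpow_mul hX0.le]
    refine Real.rpow_le_rpow_of_exponent_le hX1 ?_
    linarith
  have h1' : (X ^ δ) ^ 4 ≤ X ^ ε := by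
    rw [← Real.rpow_natCast, ← Real.rpow_mul hX0.le]
    refine Real.rpow_le_rpow_of_exponent_le hX1 ?_
    have h5 : (2 : ℝ) ≤ N := by exact_mod_cast hn2
    push_cast
    nlinarith
  have h2 : X ^ (2 * ε) = X ^ ε * X ^ ε := by
    rw [← Real.rpow_add hX0]; congr 1; ring
  have h3 : C ≤ C * Real.exp (2 * s) := le_mul_of_one_le_right (by linarith) hes
  have hd0 := nm_cast_pos hd.ne_zero
  have he0 := nm_cast_pos he.ne_zero
  have hB0 : 0 ≤ B := by linarith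
  have hHt1 := one_le_Ht ps
  have hmn : 0 ≤ min 1 ((nm d : ℝ) * nm e * Real.exp (-s₀)) := le_min zero_le_one (by positivity)
  unfold nmx
  cases jj
  · rw [if_neg (by decide), if_neg (by decide)]
    calc (Cw ^ 2 * (η⁻¹) ^ J) * (C * ((X ^ δ) ^ N) ^ (3 : ℝ) * X ^ ε * (1 + |t₀|) ^ J * B) *
          (Real.exp (LF ps) / nm d) ^ (2 / 3 : ℝ)
        ≤ (Cw ^ 2 * (η⁻¹) ^ J) * ((C * Real.exp (2 * s)) * X ^ ε * X ^ ε * (1 + |t₀|) ^ J * B) *
          (Real.exp (LF ps) / nm d) ^ (2 / 3 : ℝ) := by gcongr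
      _ = _ := by rw [h2]; ring
  · rw [if_pos rfl, if_pos rfl]
    refine mul_le_mul_of_nonneg_right ?_ (by positivity)
    calc (Cw ^ 2 * (η⁻¹) ^ J) * (C * (X ^ δ) ^ 4 * Ht ps ^ 6 * X ^ ε * (1 + |t₀|) ^ J)
        ≤ (Cw ^ 2 * (η⁻¹) ^ J) * ((C * Real.exp (2 * s)) * X ^ ε * Ht ps ^ 6 * X ^ ε *
          (1 + |t₀|) ^ J) := by gcongr
      _ = _ := by rw [h2]; ring

end Crest.Agent.R017.RHX116
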