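import Crest.Agent.R017.NOxb_116
import Crest.Agent.R017.NOxd_116

/-!
# Row 17, FlatNE, E3 at the near leaf (helper116): the `R`-numbers of the levels, gain in both divisors

* `nme` : the numbers of (RH) with the additional factors `(nm d * nm e)^(-2/3)`
* `SEe` : `Σ_d Σ_e (nm e)^(1/3) / nm d`; `SEe_le`, `SEd_le`
* `lvl_e`, `sum_e` : one level, the sum over the levels
-/

set_option autoImplicit false
set_option linter.unusedVariables false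
set_option maxHeartbeats 400000

noncomputable section

open Finset
open scoped Classical

namespace Crest.Agent.R017.RoX116

open Crest.Agent.R012 Crest.Agent.R012.Eis
open Crest.Agent.R012.LS2 (S mem_S)
open Crest.Agent.R017.C70 (JW)
open Crest.Agent.R017.E3T829 (G2 G2_nonneg card_S16 hE hE_nonneg)
open Crest.Agent.R017.E3Z548 (FH)
open Crest.Agent.R017.E3Sz579 (Ld Md)
open Crest.Agent.R017.E3Sx744 (Mxd)
open Crest.Agent.R017.Rsx72 (RN2 RNp)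
open Crest.Agent.R017.R3571 (W2)
open Crest.Agent.R017.RHX116 (nmx)
open Crest.Agent.R017.E3Kc548 (LI mem_LI)

/-- the sum of the norms with the weights `(nm e)^(1/3) / nm d` -/
def SEe (Ds EE : Finset Eis) : ℝ := ∑ d ∈ Ds, ∑ e ∈ EE, (nm e : ℝ) ^ (1 / 3 : ℝ) * (nm d : ℝ)⁻¹

lemma SEe_nonneg (Ds EE : Finset Eis) : 0 ≤ SEe Ds EE :=
  sum_nonneg fun _ _ => sum_nonneg fun _ _ => by positivity

/-- **the non-principal number of a level** -/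
theorem RN2_tope {K H X V s c β K1 E : ℝ} {a : ℕ} {Ds EE : Finset Eis} (hK : 0 < K) (hH : 0 < H)
    (hX : 0 < X) (hV : 0 < V) (hs : 0 < s) (hs1 : s ≤ 1) (hc : 0 < c) (hβ : 0 < β)
    (hK1 : 0 ≤ K1) (hE : 0 ≤ E) (hDs : ∀ d ∈ Ds, (1 : ℝ) ≤ nm d)
    (hEE : ∀ e ∈ EE, (1 : ℝ) ≤ nm e) :
    FH K H (V * s) * RN2 (Ld K (V * s) H) (Md c K (V * s) H X) (β * (X * (V * s) * H / K))
      (fun d e => W2 a (c * (X * V * H / K))
        (K1 * ((nm d : ℝ) ^ (-(2 / 3) : ℝ) * (nm e : ℝ) ^ (-(2 / 3) : ℝ)) *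
          (E / nm d) ^ (2 / 3 : ℝ))
        (c * (X * (V * s) * H / K))) Ds EE ≤
    (if 1 ≤ H * V ^ 2 / K then FH K H V * G2 (H * V ^ 2 / K)
      (c * (H * V ^ 2 / K) * (X * V * H / K) ^ (-(1 / 2) : ℝ)) (β * (X * V * H / K)) else 0) *
      (K1 * E ^ (2 / 3 : ℝ)) * SEe Ds EE := by
  have hI : 0 < X * V * H / K := by positivity
  have hL : 0 ≤ H * V ^ 2 / K := by positivity
  have hFH : 0 ≤ FH K H (V * s) := by unfold E3Z548.FH; positivity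
  obtain ⟨G, hG⟩ : ∃ G, G = G2 (H * V ^ 2 / K)
    (c * (H * V ^ 2 / K) * (X * V * H / K) ^ (-(1 / 2) : ℝ)) (β * (X * V * H / K)) := ⟨_, rfl⟩
  have hG0 : 0 ≤ G := by
    rw [hG]
    exact G2_nonneg hL (by positivity) (by positivity)
  have eI : X * (V * s) * H / K = X * V * H / K * s := by ring
  rw [← hG]
  have hterm : ∀ d ∈ Ds, ∀ e ∈ EE, (nm d : ℝ) ^ (2 / 3 : ℝ) * nm e *
      ((if 1 ≤ Ld K (V * s) H d then G2 (Ld K (V * s) H d) (Md c K (V * s) H X d)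
        (β * (X * (V * s) * H / K)) else 0) *
        W2 a (c * (X * V * H / K))
          (K1 * ((nm d : ℝ) ^ (-(2 / 3) : ℝ) * (nm e : ℝ) ^ (-(2 / 3) : ℝ)) *
          (E / nm d) ^ (2 / 3 : ℝ))
        (c * (X * (V * s) * H / K))) ≤
      (if 1 ≤ H * V ^ 2 / K then s ^ (1 / 3 : ℝ) * G * (K1 * E ^ (2 / 3 : ℝ)) else 0) *
        ((nm e : ℝ) ^ (1 / 3 : ℝ) * (nm d : ℝ)⁻¹) := by
    intro d hd e he
    have hnd := hDs d hd
    have hne := hEE e he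
    have hne0 : (0 : ℝ) < nm e := by linarith
    have hnd0 : (0 : ℝ) < nm d := by linarith
    have eW : W2 a (c * (X * V * H / K))
        (K1 * ((nm d : ℝ) ^ (-(2 / 3) : ℝ) * (nm e : ℝ) ^ (-(2 / 3) : ℝ)) *
          (E / nm d) ^ (2 / 3 : ℝ))
        (c * (X * (V * s) * H / K)) =
        s ^ (1 / 3 : ℝ) * (K1 * ((nm d : ℝ) ^ (-(2 / 3) : ℝ) * (nm e : ℝ) ^ (-(2 / 3) : ℝ)) *
          (E / nm d) ^ (2 / 3 : ℝ)) := by
      rw [eI, ← mul_assoc c (X * V * H / K) s]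
      exact W2_lvl a (by positivity) hs hs1
    have eL : Ld K (V * s) H d = H * V ^ 2 / K * s ^ 2 / nm d := by
      unfold E3Sz579.Ld
      field_simp
    have eM : Md c K (V * s) H X d = c * (H * V ^ 2 / K * s ^ 2 / nm d) *
        (X * V * H / K * s) ^ (-(1 / 2) : ℝ) := by
      unfold E3Sz579.Md
      rw [eI]
      congr 2
    rw [eW, eL, eM, eI]
    by_cases h1 : 1 ≤ H * V ^ 2 / K * s ^ 2 / nm d
    · have h2 : 1 ≤ H * V ^ 2 / K := by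
        refine h1.trans ((div_le_self (by positivity) hnd).trans ?_)
        exact mul_le_of_le_one_right hL (pow_le_one₀ hs.le hs1)
      rw [if_pos h1, if_pos h2]
      have h3 := G2_lvld (c := c) (β := β) hL hI hs hs1 hnd hc.le hβ
      rw [← hG] at h3
      have h4 : (nm d : ℝ) ^ (2 / 3 : ℝ) * (E / nm d) ^ (2 / 3 : ℝ) = E ^ (2 / 3 : ℝ) := by
        rw [← Real.mul_rpow hnd0.le (by positivity)]
        congr 1; field_simp
      have h5 : (nm d : ℝ) ^ (-(1 / 3) : ℝ) * (nm d : ℝ) ^ (-(2 / 3) : ℝ) = (nm d : ℝ)⁻¹ := by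
        rw [← Real.rpow_add hnd0, ← Real.rpow_neg_one]; norm_num
      have hs3 : 0 ≤ s ^ (1 / 3 : ℝ) := by positivity
      have hq : 0 ≤ (nm d : ℝ) ^ (-(2 / 3) : ℝ) := by positivity
      have h6 : (nm e : ℝ) * (nm e : ℝ) ^ (-(2 / 3) : ℝ) = (nm e : ℝ) ^ (1 / 3 : ℝ) := by
        rw [mul_comm, ← Real.rpow_add_one hne0.ne']; norm_num
      calc (nm d : ℝ) ^ (2 / 3 : ℝ) * nm e * (G2 (H * V ^ 2 / K * s ^ 2 / nm d)
            (c * (H * V ^ 2 / K * s ^ 2 / nm d) * (X * V * H / K * s) ^ (-(1 / 2) : ℝ))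
            (β * (X * V * H / K * s)) * (s ^ (1 / 3 : ℝ) *
              (K1 * ((nm d : ℝ) ^ (-(2 / 3) : ℝ) * (nm e : ℝ) ^ (-(2 / 3) : ℝ)) *
          (E / nm d) ^ (2 / 3 : ℝ))))
          ≤ (nm d : ℝ) ^ (2 / 3 : ℝ) * nm e *
            (((nm d : ℝ) ^ (-(1 / 3) : ℝ) * G) * (s ^ (1 / 3 : ℝ) *
              (K1 * ((nm d : ℝ) ^ (-(2 / 3) : ℝ) * (nm e : ℝ) ^ (-(2 / 3) : ℝ)) *
          (E / nm d) ^ (2 / 3 : ℝ)))) := by gcongr
        _ = s ^ (1 / 3 : ℝ) * G * (K1 * ((nm d : ℝ) ^ (2 / 3 : ℝ) *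
            (E / nm d) ^ (2 / 3 : ℝ))) * (((nm e : ℝ) * (nm e : ℝ) ^ (-(2 / 3) : ℝ)) *
              ((nm d : ℝ) ^ (-(1 / 3) : ℝ) * (nm d : ℝ) ^ (-(2 / 3) : ℝ))) := by ring
        _ = _ := by rw [h4, h5, h6]
    · rw [if_neg h1, zero_mul, mul_zero]
      refine mul_nonneg ?_ (by positivity)
      split_ifs
      · positivity
      · exact le_rfl
  unfold Rsx72.RN2 SEe
  calc FH K H (V * s) * ∑ d ∈ Ds, ∑ e ∈ EE, (nm d : ℝ) ^ (2 / 3 : ℝ) * nm e *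
      ((if 1 ≤ Ld K (V * s) H d then G2 (Ld K (V * s) H d) (Md c K (V * s) H X d)
        (β * (X * (V * s) * H / K)) else 0) *
        W2 a (c * (X * V * H / K))
          (K1 * ((nm d : ℝ) ^ (-(2 / 3) : ℝ) * (nm e : ℝ) ^ (-(2 / 3) : ℝ)) *
          (E / nm d) ^ (2 / 3 : ℝ))
        (c * (X * (V * s) * H / K)))
      ≤ FH K H (V * s) * ∑ d ∈ Ds, ∑ e ∈ EE,
        (if 1 ≤ H * V ^ 2 / K then s ^ (1 / 3 : ℝ) * G * (K1 * E ^ (2 / 3 : ℝ)) else 0) *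
          ((nm e : ℝ) ^ (1 / 3 : ℝ) * (nm d : ℝ)⁻¹) := by
        refine mul_le_mul_of_nonneg_left ?_ hFH
        exact sum_le_sum fun d hd => sum_le_sum fun e he => hterm d hd e he
    _ = FH K H (V * s) * ((if 1 ≤ H * V ^ 2 / K then s ^ (1 / 3 : ℝ) * G *
        (K1 * E ^ (2 / 3 : ℝ)) else 0) * ∑ d ∈ Ds, ∑ e ∈ EE, (nm e : ℝ) ^ (1 / 3 : ℝ) * (nm d : ℝ)⁻¹) := by
        simp only [mul_sum]
    _ = _ := by
        split_ifs
        · rw [← FH_lvl (K := K) hH hV hs]; ring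
        · ring

/-- the sums over the divisors -/
lemma SEe_le {D E0 Z ε : ℝ} {N₁ : ℕ} (hε : 0 < ε) (hD : 1 ≤ D) (hDZ : D ≤ Z) (hE1 : 1 ≤ E0) :
    SEe ((JW D (1 / 10) (N₁ : ℝ)).image Prod.fst) (S E0) ≤
      16 * (200 * (1 + 1 / ε) * Z ^ ε) * (E0 ^ (1 / 3 : ℝ) * E0) := by
  have hD0 : 0 ≤ D := by linarith
  have hsub : (JW D (1 / 10) (N₁ : ℝ)).image Prod.fst ⊆ S D := fun d hd => fst_S hD0 hd
  have h1 : ∑ d ∈ (JW D (1 / 10) (N₁ : ℝ)).image Prod.fst, (nm d : ℝ)⁻¹ ≤ hE (S D) := by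
    have h0 := Finset.sum_le_sum_of_subset_of_nonneg (f := fun e : Eis => ((nm e : ℝ))⁻¹) hsub
      (fun e _ _ => inv_nonneg.2 (Nat.cast_nonneg _))
    refine h0.trans (le_of_eq ?_)
    unfold E3T829.hE
    exact sum_congr rfl fun e _ => by rw [one_div]
  have h2 := hE_Z' hε hD hDZ
  have h3 : ∑ e ∈ S E0, (nm e : ℝ) ^ (1 / 3 : ℝ) ≤ (16 * E0) * E0 ^ (1 / 3 : ℝ) := by
    calc ∑ e ∈ S E0, (nm e : ℝ) ^ (1 / 3 : ℝ) ≤ ∑ e ∈ S E0, E0 ^ (1 / 3 : ℝ) :=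
          sum_le_sum fun e he => Real.rpow_le_rpow (Nat.cast_nonneg _)
            ((mem_S (by linarith)).1 he).1 (by norm_num)
      _ = ((S E0).card : ℝ) * E0 ^ (1 / 3 : ℝ) := by rw [sum_const, nsmul_eq_mul]
      _ ≤ (16 * E0) * E0 ^ (1 / 3 : ℝ) :=
          mul_le_mul_of_nonneg_right (card_S16 (by linarith)) (by positivity)
  have h4 : 0 ≤ ∑ e ∈ S E0, (nm e : ℝ) ^ (1 / 3 : ℝ) := sum_nonneg fun _ _ => by positivity
  have e1 : SEe ((JW D (1 / 10) (N₁ : ℝ)).image Prod.fst) (S E0) =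
      (∑ d ∈ (JW D (1 / 10) (N₁ : ℝ)).image Prod.fst, (nm d : ℝ)⁻¹) *
        ∑ e ∈ S E0, (nm e : ℝ) ^ (1 / 3 : ℝ) := by
    unfold SEe
    rw [sum_mul_sum]
    exact sum_congr rfl fun d _ => sum_congr rfl fun e _ => by ring
  rw [e1]
  have h5 : 0 ≤ 200 * (1 + 1 / ε) * Z ^ ε := (hE_nonneg _).trans h2
  calc (∑ d ∈ (JW D (1 / 10) (N₁ : ℝ)).image Prod.fst, (nm d : ℝ)⁻¹) *
        ∑ e ∈ S E0, (nm e : ℝ) ^ (1 / 3 : ℝ)
      ≤ (200 * (1 + 1 / ε) * Z ^ ε) * ((16 * E0) * E0 ^ (1 / 3 : ℝ)) :=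
        mul_le_mul (h1.trans h2) h3 h4 h5
    _ = _ := by ring

/-- the sums over the divisors -/
lemma SEd_le {D E0 Z ε : ℝ} {N₁ : ℕ} (hε : 0 < ε) (hD : 1 ≤ D) (hDZ : D ≤ Z) (hE1 : 1 ≤ E0) :
    SEd ((JW D (1 / 10) (N₁ : ℝ)).image Prod.fst) (S E0) ≤
      16 * (200 * (1 + 1 / ε) * Z ^ ε) * (E0 * E0) := by
  have hD0 : 0 ≤ D := by linarith
  have hsub : (JW D (1 / 10) (N₁ : ℝ)).image Prod.fst ⊆ S D := fun d hd => fst_S hD0 hd
  have h1 : ∑ d ∈ (JW D (1 / 10) (N₁ : ℝ)).image Prod.fst, (nm d : ℝ)⁻¹ ≤ hE (S D) := by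
    have h0 := Finset.sum_le_sum_of_subset_of_nonneg (f := fun e : Eis => ((nm e : ℝ))⁻¹) hsub
      (fun e _ _ => inv_nonneg.2 (Nat.cast_nonneg _))
    refine h0.trans (le_of_eq ?_)
    unfold E3T829.hE
    exact sum_congr rfl fun e _ => by rw [one_div]
  have h2 := hE_Z' hε hD hDZ
  have h3 : ∑ e ∈ S E0, (nm e : ℝ) ≤ (16 * E0) * E0 := by
    calc ∑ e ∈ S E0, (nm e : ℝ) ≤ ∑ e ∈ S E0, E0 :=
          sum_le_sum fun e he => ((mem_S (by linarith)).1 he).1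
      _ = ((S E0).card : ℝ) * E0 := by rw [sum_const, nsmul_eq_mul]
      _ ≤ (16 * E0) * E0 := mul_le_mul_of_nonneg_right (card_S16 (by linarith)) (by linarith)
  have h4 : 0 ≤ ∑ e ∈ S E0, (nm e : ℝ) := sum_nonneg fun _ _ => by positivity
  have e1 : SEd ((JW D (1 / 10) (N₁ : ℝ)).image Prod.fst) (S E0) =
      (∑ d ∈ (JW D (1 / 10) (N₁ : ℝ)).image Prod.fst, (nm d : ℝ)⁻¹) *
        ∑ e ∈ S E0, (nm e : ℝ) := by
    unfold SEd
    rw [sum_mul_sum]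
    exact sum_congr rfl fun d _ => sum_congr rfl fun e _ => by ring
  rw [e1]
  have h5 : 0 ≤ 200 * (1 + 1 / ε) * Z ^ ε := (hE_nonneg _).trans h2
  calc (∑ d ∈ (JW D (1 / 10) (N₁ : ℝ)).image Prod.fst, (nm d : ℝ)⁻¹) *
        ∑ e ∈ S E0, (nm e : ℝ)
      ≤ (200 * (1 + 1 / ε) * Z ^ ε) * ((16 * E0) * E0) :=
        mul_le_mul (h1.trans h2) h3 h4 h5
    _ = _ := by ring

/-- the numbers of (RH) with the additional factors in `d`, `e` -/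
def nme (K1 K2 P2 s₀ E : ℝ) (d e : Eis) (jj : Bool) : ℝ :=
  nmx (K1 * ((nm d : ℝ) ^ (-(2 / 3) : ℝ) * (nm e : ℝ) ^ (-(2 / 3) : ℝ))) K2 P2 s₀ E d e jj

/-- **one level** -/
theorem lvl_e {K H X N c K1 K2 P2 E s₀ v : ℝ} {a : ℕ} {Ds EE : Finset Eis} (hK : 0 < K)
    (hH : 0 < H) (hX : 0 < X) (hv : 0 < v) (hvN : v ≤ N) (hc : 0 < c) (hK1 : 0 ≤ K1)
    (hK2 : 0 ≤ K2) (hP2 : 0 ≤ P2) (hE : 0 ≤ E) (hDs : ∀ d ∈ Ds, (1 : ℝ) ≤ nm d)
    (hEE : ∀ e ∈ EE, (1 : ℝ) ≤ nm e) :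
    FH K H v * RNX2 c K v H X (fun jj d e => W2 a (c * (X * N * H / K))
      (nme K1 K2 P2 s₀ E d e jj)) Ds EE ≤
      TPn K H N X c K1 E * SEe Ds EE + TPp K H N X c K2 P2 E s₀ * SEd Ds EE := by
  have hN : 0 < N := by linarith
  obtain ⟨s, hs⟩ : ∃ s, s = v / N := ⟨_, rfl⟩
  have hs0 : 0 < s := by rw [hs]; positivity
  have hs1 : s ≤ 1 := by rw [hs, div_le_one hN]; exact hvN
  have hvs : v = N * s := by rw [hs]; field_simp
  have h1 := RN2_tope (β := 1) (a := a) (Ds := Ds) (EE := EE) hK hH hX hN hs0 hs1 hc one_pos hK1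
    hE hDs hEE
  have h2 := RNp_topd (a := a) (s₀ := s₀) (Ds := Ds) (EE := EE) hK hH hX hN hs0 hs1 hc hK2 hP2 hE
    hDs hEE
  rw [← hvs] at h1 h2
  unfold RNX2 TPn TPp
  have e1 : (fun d e => (fun jj d e => W2 a (c * (X * N * H / K))
      (nme K1 K2 P2 s₀ E d e jj)) false d e (c * (X * v * H / K))) =
      fun d e => W2 a (c * (X * N * H / K))
        (K1 * ((nm d : ℝ) ^ (-(2 / 3) : ℝ) * (nm e : ℝ) ^ (-(2 / 3) : ℝ)) *
          (E / nm d) ^ (2 / 3 : ℝ))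
        (c * (X * v * H / K)) := by
    funext d e
    unfold nme RHX116.nmx
    simp
  have e2 : (fun d e => (fun jj d e => W2 a (c * (X * N * H / K))
      (nme K1 K2 P2 s₀ E d e jj)) true d e (c * (X * v * H / K))) =
      fun d e => W2 a (c * (X * N * H / K)) (K2 * (P2 ^ (1 / 3 : ℝ) *
        ((E / nm d) ^ (5 / 3 : ℝ) * (nm e : ℝ)⁻¹ *
          min 1 ((nm d : ℝ) * nm e * Real.exp (-s₀))))) (c * (X * v * H / K)) := by
    funext d e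
    unfold nme RHX116.nmx
    simp
  rw [one_mul (X * v * H / K)] at h1
  rw [mul_add]
  beta_reduce at e1 e2 ⊢
  rw [e1, e2]
  refine (add_le_add h1 h2).trans (le_of_eq ?_)
  ring

/-- **the sum over the levels** -/
theorem sum_e {K H X c K1 K2 P2 E s₀ : ℝ} {a : ℕ} {Ds EE : Finset Eis} {N₁ : ℕ} (hK : 0 < K)
    (hH : 0 < H) (hX : 0 < X) (hc : 0 < c) (hK1 : 0 ≤ K1)
    (hK2 : 0 ≤ K2) (hP2 : 0 ≤ P2) (hE : 0 ≤ E) (hDs : ∀ d ∈ Ds, (1 : ℝ) ≤ nm d)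
    (hEE : ∀ e ∈ EE, (1 : ℝ) ≤ nm e) :
    ∑ i ∈ LI (1 / 10) (N₁ : ℝ), FH K H (Real.exp i) * RNX2 c K (Real.exp i) H X
      (fun jj d e => W2 a (c * (X * (Real.exp 1 * N₁) * H / K)) (nme K1 K2 P2 s₀ E d e jj)) Ds EE ≤
      ((LI (1 / 10) (N₁ : ℝ)).card : ℝ) * (TPn K H (Real.exp 1 * N₁) X c K1 E * SEe Ds EE +
        TPp K H (Real.exp 1 * N₁) X c K2 P2 E s₀ * SEd Ds EE) := by
  rw [← nsmul_eq_mul]
  refine sum_le_card_nsmul _ _ _ fun i hi => ?_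
  obtain ⟨-, -, h3⟩ := mem_LI hi
  exact lvl_e hK hH hX (Real.exp_pos _) h3 hc hK1 hK2 hP2 hE hDs hEE

end Crest.Agent.R017.RoX116
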