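import Crest.Agent.R017.NOxf_116

/-!
# Row 17, FlatNE, E3 at the near leaf (helper116): the real inequalities of the `R`-numbers

* `np4`, `pr4` : the non-principal and the principal number at the top level, `H = e^h`
* `top4` : both together
-/

set_option autoImplicit false
set_option maxHeartbeats 400000

noncomputable section

open Finset
open scoped Classical

namespace Crest.Agent.R017.RoX116

open Crest.Agent.R012 Crest.Agent.R012.Eis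
open Crest.Agent.R017.E3T829 (G2 G2_nonneg)
open Crest.Agent.R017.E3Z548 (FH)

/-- **the non-principal number at the top level** -/
theorem np4 {K' H V X c κ h n v T m w C₀ k₁ S s : ℝ} (hK' : K' = Real.exp κ) (hH : H = Real.exp h)
    (hV : 0 < V) (hX : 0 < X) (hc : 0 ≤ c) (m0 : 0 ≤ m) (m1 : (h + 2 * v - κ) / 3 ≤ m)
    (m2 : (h + 2 * v - κ) - (v + n + h - κ) / 2 ≤ m) (hI : 0 ≤ v + n + h - κ)
    (hT : T = 4 / 3 * n + (v + κ) / 3 + h / 3 - m - w) (hC₀ : 0 ≤ C₀)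
    (hv1 : v ≤ Real.log V) (hv2 : Real.log V ≤ v + C₀) (hx : n - C₀ ≤ Real.log X)
    (hk₁ : 0 ≤ k₁) (hS : S ≤ Real.exp s) (hS0 : 0 ≤ S) :
    (if 1 ≤ H * V ^ 2 / K' then FH K' H V * G2 (H * V ^ 2 / K')
      (c * (H * V ^ 2 / K') * (X * V * H / K') ^ (-(1 / 2) : ℝ)) (1 * (X * V * H / K')) else 0) *
      (k₁ * Real.exp (T - n) * Real.exp n ^ (2 / 3 : ℝ)) * S ≤
    (3 + c) * Real.exp (5 * C₀) * Real.exp (s - w) *
      ((Real.exp κ / Real.exp n) * (k₁ * Real.exp (2 * n))) := by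
  obtain ⟨v₁, hv₁⟩ : ∃ v₁, v₁ = Real.log V := ⟨_, rfl⟩
  obtain ⟨x, hx'⟩ : ∃ x, x = Real.log X := ⟨_, rfl⟩
  have eV : V = Real.exp v₁ := by rw [hv₁, Real.exp_log hV]
  have eX : X = Real.exp x := by rw [hx', Real.exp_log hX]
  rw [← hv₁] at hv1 hv2
  rw [← hx'] at hx
  have eL : H * V ^ 2 / K' = Real.exp (h + 2 * v₁ - κ) := by
    rw [hH, eV, hK', ← Real.exp_nat_mul, ← Real.exp_add, ← Real.exp_sub]
    congr 1
  have eI : X * V * H / K' = Real.exp (x + v₁ + h - κ) := by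
    rw [hH, eV, hK', eX, ← Real.exp_add, ← Real.exp_add, ← Real.exp_sub]
  rw [eL, eI]
  by_cases h1 : 1 ≤ Real.exp (h + 2 * v₁ - κ)
  · rw [if_pos h1]
    have g1 : 1 / 3 * (h + 2 * v₁ - κ) ≤ m + 4 * C₀ := by linarith
    have g2 : (h + 2 * v₁ - κ) - 1 / 2 * (x + v₁ + h - κ) ≤ m + 4 * C₀ := by linarith
    have g3 : 7 / 9 * (h + 2 * v₁ - κ) - 2 / 3 * (x + v₁ + h - κ) ≤ m + 4 * C₀ := by linarith
    have g4 : 11 / 18 * (h + 2 * v₁ - κ) - 1 / 3 * (x + v₁ + h - κ) ≤ m + 4 * C₀ := by linarith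
    have hG := G2_exp (c := c) (β := 1) hc one_pos g1 g2 g3 g4
    have e2 : (1 + c + (1 : ℝ) ^ (-(2 / 3) : ℝ) + (1 : ℝ) ^ (-(1 / 3) : ℝ)) = 3 + c := by
      rw [Real.one_rpow, Real.one_rpow]; ring
    rw [e2] at hG
    have hFH : FH K' H V = Real.exp (2 / 3 * κ - (h + v₁) / 3) := by
      rw [hH, eV, hK', FH_exp]
    have e1 : Real.exp n ^ (2 / 3 : ℝ) = Real.exp (2 / 3 * n) := by
      rw [← Real.exp_mul]; congr 1; ring
    have e3 : Real.exp κ / Real.exp n = Real.exp (κ - n) := by rw [← Real.exp_sub]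
    rw [hFH, e1, e3]
    calc Real.exp (2 / 3 * κ - (h + v₁) / 3) * G2 (Real.exp (h + 2 * v₁ - κ))
          (c * Real.exp (h + 2 * v₁ - κ) * Real.exp (x + v₁ + h - κ) ^ (-(1 / 2) : ℝ))
          (1 * Real.exp (x + v₁ + h - κ)) *
          (k₁ * Real.exp (T - n) * Real.exp (2 / 3 * n)) * S
        ≤ Real.exp (2 / 3 * κ - (h + v₁) / 3) * ((3 + c) * Real.exp (m + 4 * C₀)) *
          (k₁ * Real.exp (T - n) * Real.exp (2 / 3 * n)) * Real.exp s := by gcongr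
      _ = (3 + c) * k₁ * (Real.exp (2 / 3 * κ - (h + v₁) / 3) * Real.exp (m + 4 * C₀) *
          Real.exp (T - n) * Real.exp (2 / 3 * n) * Real.exp s) := by ring
      _ ≤ (3 + c) * k₁ * (Real.exp (5 * C₀) * Real.exp (s - w) * Real.exp (κ - n) *
          Real.exp (2 * n)) := by
          refine mul_le_mul_of_nonneg_left ?_ (by positivity)
          rw [← Real.exp_add, ← Real.exp_add, ← Real.exp_add, ← Real.exp_add, ← Real.exp_add,
            ← Real.exp_add, ← Real.exp_add]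
          refine Real.exp_le_exp.2 ?_
          rw [hT]
          linarith
      _ = _ := by ring
  · rw [if_neg h1, zero_mul, zero_mul]
    positivity

/-- **the principal number at the top level** -/
theorem pr4 {K' H V X c κ h n v C₀ k₂ S s s₀ μ' w : ℝ} (hK' : K' = Real.exp κ)
    (hH : H = Real.exp h) (hV : 0 < V) (hX : 0 < X) (hc : 0 < c) (hC₀ : 0 ≤ C₀)
    (hv2 : Real.log V ≤ v + C₀) (hx : n - C₀ ≤ Real.log X)
    (hk₂ : 0 ≤ k₂) (hS : S ≤ Real.exp s) (hS0 : 0 ≤ S)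
    (hb : h + 4 * v + n + 3 * s + μ' / 2 + 3 * w ≤ 3 * κ + 3 * s₀) :
    (if 1 ≤ H * V ^ 2 / K' then FH K' H V * (c * (H * V ^ 2 / K') *
      (X * V * H / K') ^ (-(2 / 3) : ℝ)) else 0) *
      (k₂ * ((c * (X * V * H / K') * Real.exp (μ' / 2)) ^ (1 / 3 : ℝ) *
        (Real.exp n ^ (5 / 3 : ℝ) * Real.exp (-s₀)))) * S ≤
    c * c ^ (1 / 3 : ℝ) * Real.exp (5 * C₀) * Real.exp (-w) *
      ((Real.exp κ / Real.exp n) * (k₂ * Real.exp (2 * n))) := by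
  obtain ⟨v₁, hv₁⟩ : ∃ v₁, v₁ = Real.log V := ⟨_, rfl⟩
  obtain ⟨x, hx'⟩ : ∃ x, x = Real.log X := ⟨_, rfl⟩
  have eV : V = Real.exp v₁ := by rw [hv₁, Real.exp_log hV]
  have eX : X = Real.exp x := by rw [hx', Real.exp_log hX]
  rw [← hv₁] at hv2
  rw [← hx'] at hx
  have eL : H * V ^ 2 / K' = Real.exp (h + 2 * v₁ - κ) := by
    rw [hH, eV, hK', ← Real.exp_nat_mul, ← Real.exp_add, ← Real.exp_sub]
    congr 1
  have eI : X * V * H / K' = Real.exp (x + v₁ + h - κ) := by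
    rw [hH, eV, hK', eX, ← Real.exp_add, ← Real.exp_add, ← Real.exp_sub]
  have hc3 : 0 ≤ c ^ (1 / 3 : ℝ) := by positivity
  rw [eL, eI]
  by_cases h1 : 1 ≤ Real.exp (h + 2 * v₁ - κ)
  · rw [if_pos h1]
    have hFH : FH K' H V = Real.exp (2 / 3 * κ - (h + v₁) / 3) := by
      rw [hH, eV, hK', FH_exp]
    have e1 : Real.exp n ^ (5 / 3 : ℝ) = Real.exp (5 / 3 * n) := by
      rw [← Real.exp_mul]; congr 1; ring
    have e3 : Real.exp κ / Real.exp n = Real.exp (κ - n) := by rw [← Real.exp_sub]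
    have e4 : Real.exp (x + v₁ + h - κ) ^ (-(2 / 3) : ℝ) =
        Real.exp (-(2 / 3) * (x + v₁ + h - κ)) := by
      rw [← Real.exp_mul]; congr 1; ring
    have e5 : (c * Real.exp (x + v₁ + h - κ) * Real.exp (μ' / 2)) ^ (1 / 3 : ℝ) =
        c ^ (1 / 3 : ℝ) * Real.exp (1 / 3 * (x + v₁ + h - κ) + μ' / 6) := by
      rw [mul_assoc, ← Real.exp_add, Real.mul_rpow hc.le (Real.exp_pos _).le, ← Real.exp_mul]
      congr 2; ring
    rw [hFH, e1, e3, e4, e5]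
    calc Real.exp (2 / 3 * κ - (h + v₁) / 3) * (c * Real.exp (h + 2 * v₁ - κ) *
          Real.exp (-(2 / 3) * (x + v₁ + h - κ))) *
          (k₂ * (c ^ (1 / 3 : ℝ) * Real.exp (1 / 3 * (x + v₁ + h - κ) + μ' / 6) *
            (Real.exp (5 / 3 * n) * Real.exp (-s₀)))) * S
        ≤ Real.exp (2 / 3 * κ - (h + v₁) / 3) * (c * Real.exp (h + 2 * v₁ - κ) *
          Real.exp (-(2 / 3) * (x + v₁ + h - κ))) *
          (k₂ * (c ^ (1 / 3 : ℝ) * Real.exp (1 / 3 * (x + v₁ + h - κ) + μ' / 6) *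
            (Real.exp (5 / 3 * n) * Real.exp (-s₀)))) * Real.exp s := by gcongr
      _ = c * c ^ (1 / 3 : ℝ) * k₂ * (Real.exp (2 / 3 * κ - (h + v₁) / 3) *
          Real.exp (h + 2 * v₁ - κ) * Real.exp (-(2 / 3) * (x + v₁ + h - κ)) *
          Real.exp (1 / 3 * (x + v₁ + h - κ) + μ' / 6) * Real.exp (5 / 3 * n) *
          Real.exp (-s₀) * Real.exp s) := by ring
      _ ≤ c * c ^ (1 / 3 : ℝ) * k₂ * (Real.exp (5 * C₀) * Real.exp (-w) *
          Real.exp (κ - n) * Real.exp (2 * n)) := by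
          refine mul_le_mul_of_nonneg_left ?_ (by positivity)
          rw [← Real.exp_add, ← Real.exp_add, ← Real.exp_add, ← Real.exp_add, ← Real.exp_add,
            ← Real.exp_add, ← Real.exp_add, ← Real.exp_add, ← Real.exp_add]
          refine Real.exp_le_exp.2 ?_
          linarith
      _ = _ := by ring
  · rw [if_neg h1, zero_mul, zero_mul]
    positivity

/-- **the top level** -/
theorem top4 {K' H V X c κ h n v T m w w₀ C₀ k₁ k₂ S₁ S₂ s₁ s₂ s₀ μ' : ℝ}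
    (hK' : K' = Real.exp κ) (hH : H = Real.exp h) (hV : 0 < V) (hX : 0 < X) (hc : 0 < c)
    (m0 : 0 ≤ m) (m1 : (h + 2 * v - κ) / 3 ≤ m) (m2 : (h + 2 * v - κ) - (v + n + h - κ) / 2 ≤ m)
    (hI : 0 ≤ v + n + h - κ) (hT : T = 4 / 3 * n + (v + κ) / 3 + h / 3 - m - w) (hC₀ : 0 ≤ C₀)
    (hv1 : v ≤ Real.log V) (hv2 : Real.log V ≤ v + C₀) (hx : n - C₀ ≤ Real.log X)
    (hk₁ : 0 ≤ k₁) (hk₂ : 0 ≤ k₂) (hS₁ : S₁ ≤ Real.exp s₁) (hS₁0 : 0 ≤ S₁)
    (hS₂ : S₂ ≤ Real.exp s₂) (hS₂0 : 0 ≤ S₂) (hw : s₁ + w₀ ≤ w)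
    (hb : h + 4 * v + n + 3 * s₂ + μ' / 2 + 3 * w₀ ≤ 3 * κ + 3 * s₀) :
    TPn K' H V X c (k₁ * Real.exp (T - n)) (Real.exp n) * S₁ +
      TPp K' H V X c k₂ (c * (X * V * H / K') * Real.exp (μ' / 2)) (Real.exp n) s₀ * S₂ ≤
      ((3 + c + c * c ^ (1 / 3 : ℝ)) * Real.exp (5 * C₀)) * Real.exp (-w₀) *
        ((Real.exp κ / Real.exp n) * ((k₁ + k₂) * Real.exp (2 * n))) := by
  have r1 := np4 (k₁ := k₁) hK' hH hV hX hc.le m0 m1 m2 hI hT hC₀ hv1 hv2 hx hk₁ hS₁ hS₁0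
  have r2 := pr4 (k₂ := k₂) hK' hH hV hX hc hC₀ hv2 hx hk₂ hS₂ hS₂0 hb
  have hc3 : 0 ≤ c ^ (1 / 3 : ℝ) := by positivity
  have e1 : Real.exp (s₁ - w) ≤ Real.exp (-w₀) := Real.exp_le_exp.2 (by linarith)
  unfold TPn TPp
  obtain ⟨u, hu⟩ : ∃ u, u = (Real.exp κ / Real.exp n) * (k₁ * Real.exp (2 * n)) := ⟨_, rfl⟩
  obtain ⟨z, hz⟩ : ∃ z, z = (Real.exp κ / Real.exp n) * (k₂ * Real.exp (2 * n)) := ⟨_, rfl⟩
  have hu0 : 0 ≤ u := by rw [hu]; positivity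
  have hz0 : 0 ≤ z := by rw [hz]; positivity
  rw [← hu] at r1
  rw [← hz] at r2
  have hw0 : 0 ≤ Real.exp (-w₀) := (Real.exp_pos _).le
  have hC5 : 0 ≤ Real.exp (5 * C₀) := (Real.exp_pos _).le
  have r1' : (3 + c) * Real.exp (5 * C₀) * Real.exp (s₁ - w) * u ≤
      (3 + c) * Real.exp (5 * C₀) * Real.exp (-w₀) * u := by gcongr
  have e3 : ((3 + c + c * c ^ (1 / 3 : ℝ)) * Real.exp (5 * C₀)) * Real.exp (-w₀) *
      ((Real.exp κ / Real.exp n) * ((k₁ + k₂) * Real.exp (2 * n))) =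
      ((3 + c + c * c ^ (1 / 3 : ℝ)) * Real.exp (5 * C₀)) * Real.exp (-w₀) * (u + z) := by
    rw [hu, hz]; ring
  rw [e3]
  have a1 : 0 ≤ c * c ^ (1 / 3 : ℝ) * Real.exp (5 * C₀) * Real.exp (-w₀) * u := by positivity
  have a2 : 0 ≤ (3 + c) * Real.exp (5 * C₀) * Real.exp (-w₀) * z := by positivity
  have e4 : ((3 + c + c * c ^ (1 / 3 : ℝ)) * Real.exp (5 * C₀)) * Real.exp (-w₀) * (u + z) =
      (3 + c) * Real.exp (5 * C₀) * Real.exp (-w₀) * u +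
      c * c ^ (1 / 3 : ℝ) * Real.exp (5 * C₀) * Real.exp (-w₀) * z +
      (c * c ^ (1 / 3 : ℝ) * Real.exp (5 * C₀) * Real.exp (-w₀) * u +
      (3 + c) * Real.exp (5 * C₀) * Real.exp (-w₀) * z) := by ring
  rw [e4]
  linarith

end Crest.Agent.R017.RoX116
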