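import Crest.Agent.R017.NOxg_116
import Crest.Agent.R017.RoX_116

/-!
# Row 17, FlatNE, (Ro) at the near leaf, exceptional class (helper116): one windowed sequence

* `nro_e` : the off-diagonal part at one windowed sequence
-/

set_option autoImplicit false
set_option linter.unusedVariables false

noncomputable section

open Finset
open scoped Classical

namespace Crest.Agent.R017.RoX116

open Crest.Agent.R012 Crest.Agent.R012.Eis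
open Crest.Agent.R012.MC (Wgt)
open Crest.Agent.R012.LS2 (S mem_S bl mem_bl)
open Crest.Agent.R012.Weight600 (pw)
open Crest.Agent.R017.C70 (JC OKJ JW okJ_JW)
open Crest.Agent.R017.CM106 (CS FS)
open Crest.Agent.R017.E1551 (Adm)
open Crest.Agent.R017.E3A164 (Ys Fy)
open Crest.Agent.R017.E3M829 (Sg Tal W0 exists_W0)
open Crest.Agent.R017.E3T1579 (T3)
open Crest.Agent.R017.E3T829 (RR)
open Crest.Agent.R017.E3Z548 (FH)
open Crest.Agent.R017.PX764 (n6)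
open Crest.Agent.R017.PoHx72 (Cls)
open Crest.Agent.R017.R3571 (RMm W2 slp_two)
open Crest.Agent.R017.E3Kf548 (afR FS_afR TC_afR T3_afR_zero afR_sqf afR_win)
open Crest.Agent.R017.E3Kc548 (LI card_LI)
open Crest.Agent.R017.LBo813 (Om)
open Crest.Agent.R017.I1146 (omr)
open Crest.Agent.R017.RHX116 (nmx nmx_nonneg)

set_option maxHeartbeats 2000000 in
/-- **(Ro) at one windowed sequence**, near leaf -/
theorem nro_e {w : ℝ → ℝ} {A' Bw : ℕ} {b₀ ε₁ Cc Cb cp : ℝ} {a Jn : ℕ}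
    (hε₁ : 0 < ε₁) (hcp : 1 ≤ cp) (hCc : 0 ≤ Cc) (hCb : 0 ≤ Cb) (ha : 1 ≤ a)
    (hcore : ∀ (c H Cp K Y X R Z E0 E1 B D τ τ₁ : ℝ) (N₀ N₁ : ℕ), 1 ≤ c → 1 ≤ H → 0 ≤ Cp →
      0 < K → 0 ≤ Y → 1 ≤ E0 → E0 ≤ Z → 1 ≤ N₁ → (N₁ : ℝ) ≤ Z → 1 ≤ E1 → 1 ≤ B → 0 ≤ τ →
      0 ≤ τ₁ → H ^ (1 / 3 : ℝ) * N₁ * E1 ^ 2 * B ^ 2 ≤ K →
      H * (Real.exp 1 * N₁) ^ 3 * E1 ^ 3 * B ^ 2 ≤ K ^ 2 →
      H ^ 2 * (Real.exp 1 * N₁) ^ 3 ≤ K ^ 2 →
      ∀ α : Eis → ℂ, Adm Y X R α → TNa K E0 D c N₁ α τ → TNf K E0 D c N₁ α τ₁ →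
      ∀ (b e : Eis) (RN : ℕ → ℝ), (∀ i, 0 ≤ RN i) →
      PairB Cp c H A' Bw K B E1 E0 b₀ Z N₁ (JW D (1 / 10) N₁) (omr (Om N₀ N₁))
        (afR b e α E0) RN →
      Sg w K B N₁ E1 (fun q t k₁ => ‖∑ y ∈ Ys (JW D (1 / 10) N₁) E0 N₁,
          Fy (JW D (1 / 10) N₁) (omq N₀ N₁ b e) (Tal α) q t k₁ y‖ ^ 2) ≤
        Sg w K B N₁ E1 (fun q t k₁ =>
          E3M829.Dg (JW D (1 / 10) N₁) (omq N₀ N₁ b e) (Tal α) E0 N₁ q t k₁) +
        Cc * (1 + Cp) * (Z ^ ε₁) ^ 4 * (H ^ (-(1 / 3) : ℝ) * τ +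
          (Real.exp 1 * N₁) ^ (2 / 3 : ℝ) * E1 ^ 2 * B ^ 2 / K * τ₁ +
          ∑ i ∈ LI (1 / 10) N₁, FH K H (Real.exp i) * RN i))
    (hpair : ∀ (Z : ℝ), 1 ≤ Z → ∀ (D : ℝ) (N₀ N₁ : ℕ) (af : Eis → Eis → Eis → ℂ)
      (E0 E1 B K X H : ℝ) (u : Eis) (W0 : Bool → Eis → Eis → ℝ → ℝ), u ≠ 0 →
      (∀ p, IsPrim p → IsCoprime u p) →
      0 ≤ D → 1 ≤ N₀ → 2 * N₀ ≤ N₁ → E3M829.TC (T3 af) → (∀ d e, FS (af d e)) →
      (∀ d e, e ∉ S E0 → ∀ j, T3 af d e j = 0) → 0 < K → K ≤ Z ^ 5 → (N₁ : ℝ) ≤ Z → 0 ≤ B →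
      B ≤ Z → 0 ≤ E1 → E1 ≤ Z → 0 < X → X ≤ Z ^ 5 → 0 < H → cp * (Real.exp 1 * N₁) ≤ Z ^ 5 →
      cp * (H * (Real.exp 1 * N₁) ^ 2) ≤ K * X →
      (∀ ρ ∈ RR (JW D (1 / 10) N₁) (S E0), ∀ n, af ρ.1 ρ.2 n ≠ 0 → Squarefree n) →
      (∀ ρ ∈ RR (JW D (1 / 10) N₁) (S E0), ∀ n, af ρ.1 ρ.2 n ≠ 0 →
        |Real.log (nm ρ.1 * nm n) - Real.log X| ≤ 1) →
      (∀ jj d e, Mode405.Slp a (W0 jj d e)) →
      RHRz (cp * Z ^ 300) (Jn + 2) (RR (JW D (1 / 10) N₁) (S E0)) af u W0 →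
      PairB (Cb * Z ^ ε₁) cp H A' Bw K B E1 E0 b₀ Z N₁ (JW D (1 / 10) N₁) (omr (Om N₀ N₁)) af
        (fun i => RNX2 cp K (Real.exp i) H X W0 ((JW D (1 / 10) N₁).image Prod.fst) (S E0)))
    {γ κ v n x R h m wl w₀ T zL ηE e1 b1 δD X' Y s₀ k₁ k₂ τ τ₁ : ℝ} {N₀ N₁ : ℕ} {be : Eis → ℂ}
    {u b e : Eis}
    (hγ : 0 ≤ γ) (hv0 : 0 ≤ v) (hh0 : 0 ≤ h) (hηE : 0 ≤ ηE) (he1 : 0 ≤ e1) (hb1 : 0 ≤ b1)
    (hδD : 0 ≤ δD) (hR : 0 ≤ R) (hX' : X' = Real.exp x) (hx1 : n - R - 1 ≤ x) (hx2 : x ≤ n + R + 1)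
    (h0 : Real.exp v ≤ N₀) (h01 : 2 * N₀ ≤ N₁) (h1 : 9 * (N₁ : ℝ) ≤ Real.exp (v + 4))
    (hzv : v + 5 + Real.log cp ≤ zL) (hzE : ηE ≤ zL) (hz1 : e1 ≤ zL) (hzb : b1 ≤ zL)
    (hzD : δD ≤ zL) (hzκ : κ ≤ zL) (hzn : n + R + 1 ≤ zL)
    (hmul : Real.log cp + h + 2 * v + 10 ≤ κ + n - R - 1)
    (q0 : h / 3 + (v + 4) + 2 * e1 + 2 * b1 ≤ κ)
    (q2 : h + 3 * (v + 5) + 3 * e1 + 2 * b1 ≤ 2 * κ) (q3 : 2 * h + 3 * (v + 5) ≤ 2 * κ)
    (hzε : zL * ε₁ ≤ γ / 12) (hC1 : 3200 * (1 + 1 / ε₁) ≤ Real.exp (γ / 2))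
    (hC2 : Cc * (1 + Cb) * ((2 + 1 / ε₁) * ((3 + cp + cp * cp ^ (1 / 3 : ℝ)) *
      Real.exp (5 * (R + 6)))) ≤ Real.exp (γ / 2))
    (hY : 0 ≤ Y) (hu : u ≠ 0) (hup : ∀ p, IsPrim p → IsCoprime u p)
    (hbe : Adm Y X' 1 be) (hbF : FS be) (hτ : 0 ≤ τ) (hτ₁ : 0 ≤ τ₁)
    (hTa : TNa (Real.exp κ) (Real.exp ηE) (Real.exp δD) cp N₁ be τ)
    (hTf : TNf (Real.exp κ) (Real.exp ηE) (Real.exp δD) cp N₁ be τ₁)
    (m0 : 0 ≤ m) (m1 : (h + 2 * v - κ) / 3 ≤ m) (m2 : (h + 2 * v - κ) - (v + n + h - κ) / 2 ≤ m)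
    (hI : 0 ≤ v + n + h - κ) (hT : T = 4 / 3 * n + (v + κ) / 3 + h / 3 - m - wl)
    (hk₁ : 0 ≤ k₁) (hk₂ : 0 ≤ k₂) (hw : 4 / 3 * ηE + γ + w₀ ≤ wl)
    (hb : h + 4 * v + n + 3 * (2 * ηE + γ) + 2 * γ / 2 + 3 * w₀ ≤ 3 * κ + 3 * s₀)
    (hRH : ∀ d e : Eis, IsPrim d → IsPrim e → (nm d : ℝ) ≤ Real.exp δD →
      (nm e : ℝ) ≤ Real.exp ηE → ∀ jj : Bool, ∀ γ' π : Eis, IsPrim γ' → IsPrim π →
      (nm π : ℝ) ≤ cp * Real.exp zL ^ 300 → ∀ P : ℝ, 0 < P →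
      (nm γ' : ℝ) * n6 γ' ^ 2 * ∑ r ∈ (bl P).filter (Cls (ROX744.PrU u) jj),
        RMm ((Jn + 2 : ℕ) : ℝ) (fun k => be (d * k)) e γ' π r ≤
      W2 a (cp * (X' * (Real.exp 1 * N₁) * Real.exp h / Real.exp κ))
        (nme (k₁ * Real.exp (T - n)) k₂
          (cp * (X' * (Real.exp 1 * N₁) * Real.exp h / Real.exp κ) * Real.exp (2 * γ / 2))
          s₀ (Real.exp n) d e jj) P) :
    Sg w (Real.exp κ) (Real.exp b1) N₁ (Real.exp e1) (fun q t k₁ =>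
        ‖∑ y ∈ Ys (JW (Real.exp δD) (1 / 10) N₁) (Real.exp ηE) N₁,
          Fy (JW (Real.exp δD) (1 / 10) N₁) (omq N₀ N₁ b e) (Tal be) q t k₁ y‖ ^ 2) ≤
      Sg w (Real.exp κ) (Real.exp b1) N₁ (Real.exp e1) (fun q t k₁ =>
        E3M829.Dg (JW (Real.exp δD) (1 / 10) N₁) (omq N₀ N₁ b e) (Tal be) (Real.exp ηE) N₁
          q t k₁) +
      Real.exp γ * (Real.exp (-(h / 3)) * τ +
        Real.exp (2 / 3 * (v + 5) + 2 * e1 + 2 * b1 - κ) * τ₁ +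
        Real.exp (-w₀) * ((Real.exp κ / Real.exp n) * ((k₁ + k₂) * Real.exp (2 * n)))) := by
  obtain ⟨hN0, hNv, hN5, hN4⟩ := logN h0 h01 h1
  have hcp0 : 0 < cp := by linarith
  have hlcp : 0 ≤ Real.log cp := Real.log_nonneg hcp
  have hcpe : cp = Real.exp (Real.log cp) := (Real.exp_log hcp0).symm
  have hX'0 : 0 < X' := by rw [hX']; exact Real.exp_pos _
  have hv1 : (1 : ℝ) ≤ Real.exp v := Real.one_le_exp hv0
  have hN01 : (1 : ℝ) ≤ N₀ := hv1.trans h0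
  have hN0n : 1 ≤ N₀ := by exact_mod_cast hN01
  have hN1n : 1 ≤ N₁ := by omega
  -- `Z`
  obtain ⟨Z, hZ⟩ : ∃ Z, Z = Real.exp zL := ⟨_, rfl⟩
  rw [← hZ] at hRH
  have hZ1 : 1 ≤ Z := by rw [hZ]; exact Real.one_le_exp (by linarith)
  have hZZ : Z ≤ Z ^ 5 := le_self_pow₀ hZ1 (by norm_num)
  have hexZ : ∀ y : ℝ, y ≤ zL → Real.exp y ≤ Z := fun y hy => by
    rw [hZ]; exact Real.exp_le_exp.2 hy
  have hN1Z : (N₁ : ℝ) ≤ Z := hN4.trans (hexZ _ (by linarith))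
  have hcN : cp * (Real.exp 1 * (N₁ : ℝ)) ≤ Z ^ 5 := by
    refine le_trans ?_ hZZ
    calc cp * (Real.exp 1 * (N₁ : ℝ)) ≤ Real.exp (Real.log cp) * Real.exp (v + 5) := by
          rw [← hcpe]; gcongr
      _ = Real.exp (v + 5 + Real.log cp) := by rw [← Real.exp_add]; congr 1; ring
      _ ≤ Z := hexZ _ hzv
  have hXZ : X' ≤ Z ^ 5 := by
    refine le_trans ?_ hZZ
    rw [hX']
    exact hexZ _ (by linarith)
  have hmul' : cp * (Real.exp h * (Real.exp 1 * (N₁ : ℝ)) ^ 2) ≤ Real.exp κ * X' := by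
    calc cp * (Real.exp h * (Real.exp 1 * (N₁ : ℝ)) ^ 2) ≤
          Real.exp (Real.log cp) * (Real.exp h * Real.exp (v + 5) ^ 2) := by
            rw [← hcpe]; gcongr
      _ = Real.exp (Real.log cp + h + 2 * v + 10) := by
          simp only [← Real.exp_nat_mul, ← Real.exp_add]
          congr 1; push_cast; ring
      _ ≤ Real.exp (κ + x) := Real.exp_le_exp.2 (by linarith)
      _ = _ := by rw [hX']; exact Real.exp_add _ _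
  -- the cut conditions
  have hq0 : Real.exp h ^ (1 / 3 : ℝ) * N₁ * Real.exp e1 ^ 2 * Real.exp b1 ^ 2 ≤ Real.exp κ := by
    calc Real.exp h ^ (1 / 3 : ℝ) * N₁ * Real.exp e1 ^ 2 * Real.exp b1 ^ 2
        ≤ Real.exp h ^ (1 / 3 : ℝ) * Real.exp (v + 4) * Real.exp e1 ^ 2 * Real.exp b1 ^ 2 := by
          gcongr
      _ = Real.exp (h / 3 + (v + 4) + 2 * e1 + 2 * b1) := by
          rw [← Real.exp_mul]
          simp only [← Real.exp_nat_mul, ← Real.exp_add]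
          congr 1; push_cast; ring
      _ ≤ _ := Real.exp_le_exp.2 q0
  have hq2 : Real.exp h * (Real.exp 1 * N₁) ^ 3 * Real.exp e1 ^ 3 * Real.exp b1 ^ 2 ≤
      Real.exp κ ^ 2 := by
    calc Real.exp h * (Real.exp 1 * N₁) ^ 3 * Real.exp e1 ^ 3 * Real.exp b1 ^ 2
        ≤ Real.exp h * Real.exp (v + 5) ^ 3 * Real.exp e1 ^ 3 * Real.exp b1 ^ 2 := by gcongr
      _ = Real.exp (h + 3 * (v + 5) + 3 * e1 + 2 * b1) := by
          simp only [← Real.exp_nat_mul, ← Real.exp_add]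
          congr 1
      _ ≤ Real.exp (2 * κ) := Real.exp_le_exp.2 q2
      _ = _ := by rw [← Real.exp_nat_mul, Nat.cast_ofNat]
  have hq3 : Real.exp h ^ 2 * (Real.exp 1 * N₁) ^ 3 ≤ Real.exp κ ^ 2 := by
    calc Real.exp h ^ 2 * (Real.exp 1 * N₁) ^ 3 ≤ Real.exp h ^ 2 * Real.exp (v + 5) ^ 3 := by
          gcongr
      _ = Real.exp (2 * h + 3 * (v + 5)) := by
          simp only [← Real.exp_nat_mul, ← Real.exp_add]
          congr 1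
      _ ≤ Real.exp (2 * κ) := Real.exp_le_exp.2 q3
      _ = _ := by rw [← Real.exp_nat_mul, Nat.cast_ofNat]
  -- the test functions
  obtain ⟨P1, hP1⟩ : ∃ P1, P1 = cp * (X' * (Real.exp 1 * (N₁ : ℝ)) * Real.exp h /
    Real.exp κ) := ⟨_, rfl⟩
  have hP10 : 0 < P1 := by rw [hP1]; positivity
  rw [← hP1] at hRH
  obtain ⟨K1, hK1⟩ : ∃ K1, K1 = k₁ * Real.exp (T - n) := ⟨_, rfl⟩
  have hK10 : 0 ≤ K1 := by rw [hK1]; positivity
  rw [← hK1] at hRH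
  have hnm : ∀ d e jj, 0 ≤ nme K1 k₂ (P1 * Real.exp (2 * γ / 2)) s₀ (Real.exp n) d e jj :=
    fun d e jj => by
      unfold nme
      exact nmx_nonneg s₀ (by positivity) hk₂ (by positivity) (Real.exp_pos _).le d e jj
  have hslp : ∀ jj d e, Mode405.Slp a
      (W2 a P1 (nme K1 k₂ (P1 * Real.exp (2 * γ / 2)) s₀ (Real.exp n) d e jj)) :=
    fun jj d e => slp_two ha hP10 (hnm d e jj)
  have hS : ∀ k, be k ≠ 0 → IsPrim k ∧ Squarefree k := fun k hk =>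
    ((mem_S hY).1 (hbe.sup k hk)).2
  have hD0 : (0 : ℝ) ≤ Real.exp δD := (Real.exp_pos _).le
  have hE0 : (1 : ℝ) ≤ Real.exp ηE := Real.one_le_exp hηE
  have hE00 : (0 : ℝ) ≤ Real.exp ηE := (Real.exp_pos _).le
  have hRZ : RHRz (cp * Z ^ 300) (Jn + 2) (RR (JW (Real.exp δD) (1 / 10) N₁) (S (Real.exp ηE)))
      (afR b e be (Real.exp ηE)) u
      (fun jj d e => W2 a P1 (nme K1 k₂ (P1 * Real.exp (2 * γ / 2)) s₀ (Real.exp n) d e jj)) :=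
    rhrz_of hD0 hE00 (fun k hk => (hS k hk).1)
      (fun jj d e P hP => (hslp jj d e).nonneg P hP) hRH
  have hpb := hpair Z hZ1 (Real.exp δD) N₀ N₁ (afR b e be (Real.exp ηE)) (Real.exp ηE)
    (Real.exp e1) (Real.exp b1) (Real.exp κ) X' (Real.exp h) u
    (fun jj d e => W2 a P1 (nme K1 k₂ (P1 * Real.exp (2 * γ / 2)) s₀ (Real.exp n) d e jj)) hu hup
    hD0 hN0n h01 (TC_afR fun k hk => (hS k hk).2) (FS_afR hbF)
    (fun d e' he' j => T3_afR_zero he' d j) (Real.exp_pos _) ((hexZ _ hzκ).trans hZZ) hN1Z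
    (by positivity) (hexZ _ hzb) (by positivity) (hexZ _ hz1) hX'0 hXZ (Real.exp_pos _) hcN hmul'
    (fun ρ _ k hk => afR_sqf (fun k hk => (hS k hk).2) hk)
    (fun ρ _ k hk => (afR_win (R0 := 1 / 2) (fun k hk => hbe.win k hk) hk).trans (by norm_num))
    hslp hRZ
  have hRN : ∀ i : ℕ, 0 ≤ RNX2 cp (Real.exp κ) (Real.exp i) (Real.exp h) X'
      (fun jj d e => W2 a P1 (nme K1 k₂ (P1 * Real.exp (2 * γ / 2)) s₀ (Real.exp n) d e jj))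
      ((JW (Real.exp δD) (1 / 10) N₁).image Prod.fst) (S (Real.exp ηE)) := by
    intro i
    have hV := Real.exp_pos (i : ℝ)
    have hI : 0 < X' * Real.exp i * Real.exp h / Real.exp κ := by positivity
    unfold RNX2
    refine add_nonneg (Rsx72.RN2_nonneg (fun d => E3Sz579.Ld_nonneg (Real.exp_pos _)
      (Real.exp_pos _) d) (fun d => E3Sz579.Md_nonneg hcp0.le (Real.exp_pos _) hV
      (Real.exp_pos _) hX'0 d) hI.le (fun d e => ?_) _ _)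
      (Rsx72.RNp_nonneg (fun d => E3Sx744.Mxd_nonneg hcp0.le (Real.exp_pos _) hV
      (Real.exp_pos _) hX'0 d) (fun d e => ?_) _ _)
    · exact (hslp false d e).nonneg _ (by positivity)
    · exact (hslp true d e).nonneg _ (by positivity)
  have h3 := hcore cp (Real.exp h) (Cb * Z ^ ε₁) (Real.exp κ) Y X' 1 Z (Real.exp ηE)
    (Real.exp e1) (Real.exp b1) (Real.exp δD) τ τ₁ N₀ N₁ hcp (Real.one_le_exp hh0)
    (by positivity) (Real.exp_pos _) hY hE0 (hexZ _ hzE) hN1n hN1Z (Real.one_le_exp he1)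
    (Real.one_le_exp hb1) hτ hτ₁ hq0 hq2 hq3 be hbe hTa hTf b e _ hRN hpb
  refine h3.trans (add_le_add le_rfl ?_)
  -- the numbers
  obtain ⟨P, hP⟩ : ∃ P, P = Z ^ ε₁ := ⟨_, rfl⟩
  rw [← hP]
  have hPe : P = Real.exp (zL * ε₁) := by rw [hP, hZ, ← Real.exp_mul]
  have hP1' : 1 ≤ P := by rw [hP]; exact Real.one_le_rpow hZ1 hε₁.le
  have hP12 : P ≤ Real.exp (γ / 12) := by
    rw [hPe]
    exact Real.exp_le_exp.2 hzε
  have hP0 : 0 ≤ P := by linarith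
  -- the sums over the divisors
  have hSe := SEe_le (N₁ := N₁) hε₁ (Real.one_le_exp hδD) (hexZ _ hzD) hE0
  have hSd := SEd_le (N₁ := N₁) hε₁ (Real.one_le_exp hδD) (hexZ _ hzD) hE0
  rw [← hP] at hSe hSd
  have hSe' : SEe ((JW (Real.exp δD) (1 / 10) (N₁ : ℝ)).image Prod.fst) (S (Real.exp ηE)) ≤
      Real.exp (4 / 3 * ηE + γ) := by
    refine hSe.trans ?_
    calc 16 * (200 * (1 + 1 / ε₁) * P) * (Real.exp ηE ^ (1 / 3 : ℝ) * Real.exp ηE)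
        = (3200 * (1 + 1 / ε₁)) * P * (Real.exp ηE ^ (1 / 3 : ℝ) * Real.exp ηE) := by ring
      _ ≤ Real.exp (γ / 2) * Real.exp (γ / 12) * (Real.exp ηE ^ (1 / 3 : ℝ) * Real.exp ηE) := by
          gcongr
      _ = Real.exp (γ / 2 + γ / 12 + 4 / 3 * ηE) := by
          rw [← Real.exp_mul, ← Real.exp_add, ← Real.exp_add, ← Real.exp_add]
          congr 1; ring
      _ ≤ _ := Real.exp_le_exp.2 (by linarith)
  have hSd' : SEd ((JW (Real.exp δD) (1 / 10) (N₁ : ℝ)).image Prod.fst) (S (Real.exp ηE)) ≤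
      Real.exp (2 * ηE + γ) := by
    refine hSd.trans ?_
    calc 16 * (200 * (1 + 1 / ε₁) * P) * (Real.exp ηE * Real.exp ηE)
        = (3200 * (1 + 1 / ε₁)) * P * (Real.exp ηE * Real.exp ηE) := by ring
      _ ≤ Real.exp (γ / 2) * Real.exp (γ / 12) * (Real.exp ηE * Real.exp ηE) := by gcongr
      _ = Real.exp (γ / 2 + γ / 12 + 2 * ηE) := by
          rw [← Real.exp_add, ← Real.exp_add, ← Real.exp_add]
          congr 1; ring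
      _ ≤ _ := Real.exp_le_exp.2 (by linarith)
  have hnm1 : ∀ d : Eis, ∀ Y₀ : ℝ, 0 ≤ Y₀ → d ∈ S Y₀ → (1 : ℝ) ≤ nm d := fun d Y₀ hY₀ hd => by
    exact_mod_cast nm_pos.mpr ((mem_S hY₀).1 hd).2.1.ne_zero
  have hsum := sum_e (K := Real.exp κ) (H := Real.exp h) (X := X') (c := cp) (K1 := K1)
    (K2 := k₂) (P2 := P1 * Real.exp (2 * γ / 2)) (E := Real.exp n) (s₀ := s₀) (a := a)
    (Ds := (JW (Real.exp δD) (1 / 10) (N₁ : ℝ)).image Prod.fst) (EE := S (Real.exp ηE)) (N₁ := N₁)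
    (Real.exp_pos _) (Real.exp_pos _) hX'0 hcp0 hK10 hk₂ (by positivity) (Real.exp_pos _).le
    (fun d hd => hnm1 d _ hD0 (fst_S hD0 hd)) (fun d hd => hnm1 d _ hE00 hd)
  rw [← hP1] at hsum
  have htop := top4 (K' := Real.exp κ) (H := Real.exp h) (V := Real.exp 1 * N₁)
    (X := X') (c := cp) (κ := κ) (h := h) (n := n) (v := v) (T := T) (m := m) (w := wl)
    (w₀ := w₀) (C₀ := R + 6) (k₁ := k₁) (k₂ := k₂) (s₀ := s₀) (μ' := 2 * γ)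
    rfl rfl hN0 hX'0 hcp0 m0 m1 m2 hI hT (by linarith) hNv
    (by
      have := Real.log_le_log hN0 hN5
      rw [Real.log_exp] at this
      linarith)
    (by rw [hX', Real.log_exp]; linarith) hk₁ hk₂ hSe' (SEe_nonneg _ _) hSd' (SEd_nonneg _ _) hw
    (by linarith)
  rw [← hP1, ← hK1] at htop
  obtain ⟨TOP, hTOP⟩ : ∃ TOP, TOP = TPn (Real.exp κ) (Real.exp h) (Real.exp 1 * N₁) X' cp K1
    (Real.exp n) * SEe ((JW (Real.exp δD) (1 / 10) (N₁ : ℝ)).image Prod.fst) (S (Real.exp ηE)) +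
    TPp (Real.exp κ) (Real.exp h) (Real.exp 1 * N₁) X' cp k₂ (P1 * Real.exp (2 * γ / 2))
      (Real.exp n) s₀ * SEd ((JW (Real.exp δD) (1 / 10) (N₁ : ℝ)).image Prod.fst)
        (S (Real.exp ηE)) := ⟨_, rfl⟩
  rw [← hTOP] at hsum htop
  obtain ⟨U, hU⟩ : ∃ U, U = (Real.exp κ / Real.exp n) * ((k₁ + k₂) * Real.exp (2 * n)) :=
    ⟨_, rfl⟩
  have hU0 : 0 ≤ U := by rw [hU]; positivity
  rw [← hU] at htop ⊢
  have hl : ((LI (1 / 10) (N₁ : ℝ)).card : ℝ) ≤ (2 + 1 / ε₁) * P := by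
    rw [hP]; exact card_LI (1 / 10) hZ1 (Nat.cast_nonneg _) hN1Z hε₁
  obtain ⟨c5, hc5⟩ : ∃ c5, c5 = (3 + cp + cp * cp ^ (1 / 3 : ℝ)) * Real.exp (5 * (R + 6)) :=
    ⟨_, rfl⟩
  have hc51 : 1 ≤ c5 := by
    rw [hc5]
    refine one_le_mul_of_one_le_of_one_le ?_ (Real.one_le_exp (by linarith))
    have : 0 ≤ cp * cp ^ (1 / 3 : ℝ) := by positivity
    linarith
  rw [← hc5] at htop hC2
  have hε2 : 1 ≤ 2 + 1 / ε₁ := by
    have : 0 ≤ 1 / ε₁ := by positivity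
    linarith
  have hC3 : Cc * (1 + Cb) ≤ Real.exp (γ / 2) := by
    refine le_trans ?_ hC2
    exact le_mul_of_one_le_right (by positivity) (one_le_mul_of_one_le_of_one_le hε2 hc51)
  have hP4 : P ^ 4 ≤ Real.exp (γ / 3) := by
    calc P ^ 4 ≤ Real.exp (γ / 12) ^ 4 := by gcongr
      _ = Real.exp (γ / 3) := by rw [← Real.exp_nat_mul]; congr 1; push_cast; ring
  have h1P : 1 + Cb * P ≤ (1 + Cb) * Real.exp (γ / 12) := by
    have h2 : Cb * P ≤ Cb * Real.exp (γ / 12) := by gcongr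
    have h3 : (1 : ℝ) ≤ Real.exp (γ / 12) := Real.one_le_exp (by linarith)
    linarith
  -- the constant
  have hCP : Cc * (1 + Cb * P) * P ^ 4 ≤ Cc * (1 + Cb) * Real.exp (5 * γ / 12) := by
    calc Cc * (1 + Cb * P) * P ^ 4 ≤
          Cc * ((1 + Cb) * Real.exp (γ / 12)) * Real.exp (γ / 3) := by gcongr
      _ = Cc * (1 + Cb) * (Real.exp (γ / 12) * Real.exp (γ / 3)) := by ring
      _ = _ := by rw [← Real.exp_add]; congr 2; ring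
  have hCP0 : 0 ≤ Cc * (1 + Cb * P) * P ^ 4 := by positivity
  have hCPγ : Cc * (1 + Cb * P) * P ^ 4 ≤ Real.exp γ := by
    refine hCP.trans ?_
    calc Cc * (1 + Cb) * Real.exp (5 * γ / 12) ≤ Real.exp (γ / 2) * Real.exp (5 * γ / 12) := by
          gcongr
      _ = Real.exp (γ / 2 + 5 * γ / 12) := by rw [← Real.exp_add]
      _ ≤ _ := Real.exp_le_exp.2 (by linarith)
  -- the three terms
  have hH3 : Real.exp h ^ (-(1 / 3) : ℝ) = Real.exp (-(h / 3)) := by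
    rw [← Real.exp_mul]; congr 1; ring
  have t1 : Cc * (1 + Cb * P) * P ^ 4 * (Real.exp h ^ (-(1 / 3) : ℝ) * τ) ≤
      Real.exp γ * (Real.exp (-(h / 3)) * τ) := by
    rw [hH3]
    exact mul_le_mul_of_nonneg_right hCPγ (by positivity)
  have t2 : Cc * (1 + Cb * P) * P ^ 4 * ((Real.exp 1 * N₁) ^ (2 / 3 : ℝ) * Real.exp e1 ^ 2 *
      Real.exp b1 ^ 2 / Real.exp κ * τ₁) ≤
      Real.exp γ * (Real.exp (2 / 3 * (v + 5) + 2 * e1 + 2 * b1 - κ) * τ₁) := by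
    refine mul_le_mul hCPγ ?_ (by positivity) (Real.exp_pos _).le
    refine mul_le_mul_of_nonneg_right ?_ hτ₁
    calc (Real.exp 1 * (N₁ : ℝ)) ^ (2 / 3 : ℝ) * Real.exp e1 ^ 2 * Real.exp b1 ^ 2 / Real.exp κ
        ≤ Real.exp (v + 5) ^ (2 / 3 : ℝ) * Real.exp e1 ^ 2 * Real.exp b1 ^ 2 / Real.exp κ := by
          gcongr
      _ = _ := by
          rw [← Real.exp_mul]
          simp only [← Real.exp_nat_mul, ← Real.exp_add, ← Real.exp_sub]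
          congr 1; push_cast; ring
  have t3 : Cc * (1 + Cb * P) * P ^ 4 * ∑ i ∈ LI (1 / 10) (N₁ : ℝ), FH (Real.exp κ) (Real.exp h)
      (Real.exp i) * RNX2 cp (Real.exp κ) (Real.exp i) (Real.exp h) X'
      (fun jj d e => W2 a P1 (nme K1 k₂ (P1 * Real.exp (2 * γ / 2)) s₀ (Real.exp n) d e jj))
      ((JW (Real.exp δD) (1 / 10) N₁).image Prod.fst) (S (Real.exp ηE)) ≤
      Real.exp γ * (Real.exp (-w₀) * U) := by
    refine (mul_le_mul_of_nonneg_left hsum hCP0).trans ?_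
    have hw0 : 0 ≤ Real.exp (-w₀) := (Real.exp_pos _).le
    have hTOP2 : ((LI (1 / 10) (N₁ : ℝ)).card : ℝ) * TOP ≤
        ((2 + 1 / ε₁) * P) * (c5 * Real.exp (-w₀) * U) :=
      (mul_le_mul_of_nonneg_left htop (Nat.cast_nonneg _)).trans
        (mul_le_mul_of_nonneg_right hl (by positivity))
    calc Cc * (1 + Cb * P) * P ^ 4 * (((LI (1 / 10) (N₁ : ℝ)).card : ℝ) * TOP)
        ≤ Cc * (1 + Cb * P) * P ^ 4 * (((2 + 1 / ε₁) * P) * (c5 * Real.exp (-w₀) * U)) :=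
          mul_le_mul_of_nonneg_left hTOP2 hCP0
      _ ≤ (Cc * (1 + Cb) * Real.exp (5 * γ / 12)) *
          (((2 + 1 / ε₁) * Real.exp (γ / 12)) * (c5 * Real.exp (-w₀) * U)) := by gcongr
      _ = (Cc * (1 + Cb) * ((2 + 1 / ε₁) * c5)) *
          (Real.exp (5 * γ / 12) * Real.exp (γ / 12)) * (Real.exp (-w₀) * U) := by ring
      _ ≤ Real.exp (γ / 2) * (Real.exp (5 * γ / 12) * Real.exp (γ / 12)) *
          (Real.exp (-w₀) * U) := by gcongr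
      _ = Real.exp γ * (Real.exp (-w₀) * U) := by
          rw [← Real.exp_add, ← Real.exp_add]; congr 2; ring
  calc Cc * (1 + Cb * P) * P ^ 4 * (Real.exp h ^ (-(1 / 3) : ℝ) * τ +
        (Real.exp 1 * N₁) ^ (2 / 3 : ℝ) * Real.exp e1 ^ 2 * Real.exp b1 ^ 2 / Real.exp κ * τ₁ +
        ∑ i ∈ LI (1 / 10) (N₁ : ℝ), FH (Real.exp κ) (Real.exp h) (Real.exp i) *
          RNX2 cp (Real.exp κ) (Real.exp i) (Real.exp h) X'
          (fun jj d e => W2 a P1 (nme K1 k₂ (P1 * Real.exp (2 * γ / 2)) s₀ (Real.exp n) d e jj))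
          ((JW (Real.exp δD) (1 / 10) N₁).image Prod.fst) (S (Real.exp ηE)))
      = Cc * (1 + Cb * P) * P ^ 4 * (Real.exp h ^ (-(1 / 3) : ℝ) * τ) +
        Cc * (1 + Cb * P) * P ^ 4 * ((Real.exp 1 * N₁) ^ (2 / 3 : ℝ) * Real.exp e1 ^ 2 *
          Real.exp b1 ^ 2 / Real.exp κ * τ₁) +
        Cc * (1 + Cb * P) * P ^ 4 * ∑ i ∈ LI (1 / 10) (N₁ : ℝ), FH (Real.exp κ) (Real.exp h)
          (Real.exp i) * RNX2 cp (Real.exp κ) (Real.exp i) (Real.exp h) X'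
          (fun jj d e => W2 a P1 (nme K1 k₂ (P1 * Real.exp (2 * γ / 2)) s₀ (Real.exp n) d e jj))
          ((JW (Real.exp δD) (1 / 10) N₁).image Prod.fst) (S (Real.exp ηE)) := by ring
    _ ≤ Real.exp γ * (Real.exp (-(h / 3)) * τ) +
        Real.exp γ * (Real.exp (2 / 3 * (v + 5) + 2 * e1 + 2 * b1 - κ) * τ₁) +
        Real.exp γ * (Real.exp (-w₀) * U) := by gcongr
    _ = _ := by ring

end Crest.Agent.R017.RoX116
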