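import Crest.Agent.R017.NOxh_116
import Crest.Agent.R017.NEU_603
import Crest.Agent.R017.NXe_298
import Crest.Agent.R017.NOe_64

/-!
# Row 17, FlatNE, (Ro) at the near leaf, exceptional class (helper116): lumps, line, numbers

* `tw_near` : the lumps of a derived list, near parents
* `RonX`, `ronx_of` : the line
* `nx_num`, `nx_T`, `nx_b` : the numerical conditions of `nro_e`
-/

set_option autoImplicit false
set_option linter.unusedVariables false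
set_option maxHeartbeats 400000

noncomputable section

open Finset
open scoped Classical

namespace Crest.Agent.R017.RoX116

open Crest.Agent.R012 Crest.Agent.R012.Eis
open Crest.Agent.R012.T411 (NCube)
open Crest.Agent.R017.B770
open Crest.Agent.R017.Prov71
open Crest.Agent.R017.Leg381 (Pf alF LF natl)
open Crest.Agent.R017.RHX116 (LL_cons' LL_natl)
open Crest.Agent.R017.XP699 (LL Chd hcost cst)
open Crest.Agent.R017.RG64 (SbL Ht one_le_Ht LF_cons)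
open Crest.Agent.R017.RGB545 (Line Th TK LEk dRn hC rbx)
open Crest.Agent.R017.RXk848 (LnP Lmp)
open Crest.Agent.R017.RXi848 (LF_le_len)
open Crest.Agent.R017.ExD791 (Tw)
open Crest.Agent.R017.NOt126 (F3n)
open Crest.Agent.R017.NO64 (mm sg TTe)

lemma omq_one (N₀ N₁ : ℕ) : omq N₀ N₁ 1 1 = I1146.omr (LBo813.Om N₀ N₁) := by
  funext x
  unfold omq
  rw [if_pos ⟨one_dvd _, isCoprime_one_right⟩]

/-- **the lumps of a derived list**, near parents -/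
theorem tw_near {c X d y c₀ S : ℝ} (hd : 0 ≤ d) (hX : 1 ≤ X) (hS : 0 ≤ S) (hy : 0 ≤ y)
    {ps₀ : List Pq} {ps : List Pf} (hlen : (ps₀.length : ℝ) * S ≤ c * Real.log X)
    (hs2 : ∀ q ∈ ps₀, Dq.s2 q ≤ X ^ c₀)
    (hL : Lmp ((d + 3 / 2 * c) * Real.log X) ps₀) (hlo : LL Dq ps₀ - LF ps ≤ y)
    (hs : SbL S ps ps₀) : Tw (d * Real.log X) (d * Real.log X - y) (X ^ c₀) ps := by
  have hl0 : 0 ≤ Real.log X := Real.log_nonneg hX
  match ps, ps₀, hs, hL with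
  | _ :: _ :: _ , [], h, hL => exact hL.elim
  | [], [], _, hL => exact hL.elim
  | [_], [_], _, hL => exact hL.elim
  | p1 :: p2 :: ps, q1 :: q2 :: [], h, hL => exact hL.elim
  | p1 :: p2 :: ps, q1 :: q2 :: q3 :: ps₀, h, hL =>
    unfold RG64.SbL at h
    cases h with
    | cons h1 h =>
      cases h with
      | cons h2 h =>
        obtain ⟨⟨k1, u1⟩, ⟨k2, u2⟩, -, x1, x2⟩ := hL
        have h3 := LF_le_len hS h
        have h4 : p1.1.z ≤ q1.z + S := h1.2.2.2.2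
        have h5 : p2.1.z ≤ q2.z + S := h2.2.2.2.2
        have h6 : (((q1 :: q2 :: q3 :: ps₀).length : ℕ) : ℝ) = (q3 :: ps₀).length + 2 := by
          rw [List.length_cons, List.length_cons]; push_cast; ring
        rw [h6] at hlen
        rw [LL_cons', LL_cons', LL_natl, LF_cons, LF_cons] at hlo
        have hm1 : (nm p1.1.d : ℝ) ≤ X ^ c₀ := by
          rw [h1.2.1]
          exact hs2 q1 (by simp)
        have hm2 : (nm p2.1.d : ℝ) ≤ X ^ c₀ := by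
          rw [h2.2.1]
          exact hs2 q2 (by simp)
        have hD : 0 ≤ d * Real.log X := mul_nonneg hd hl0
        have y1 : d * Real.log X - y ≤ p1.1.z := by nlinarith
        have y2 : d * Real.log X - y ≤ p2.1.z := by nlinarith
        exact ⟨⟨h1.2.2.1 u1, h2.2.2.1 u2⟩, ⟨h1.1.trans k1, h2.1.trans k2⟩, ⟨hm1, hm2⟩, ⟨y1, y2⟩,
          by nlinarith, by linarith⟩

/-! ### the line -/

variable {Lam ι : Type*} {p : ℕ}

/-- what the line (ro) is used for, exceptional class -/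
structure RonX (π : Lam → DPar) (h : ℝ → ℝ) (hh : ℝ → ℝ → ℝ → ℝ) (μ c : ℝ)
    (L : Line Lam p) : Prop where
  Φ : ∀ lam l β ps, XPX241.RN (π lam) h l ps ≤ L.Φ lam l β ps
  G : ∀ x θ, L.G x θ ≤ x 3 - (x 1 + x 2 + hh (x 0) (x 1) (x 2) - x 0 + μ)
  F : ∀ x θ, L.F x θ ≤ hh (x 0) (x 1) (x 2) / 3 - mm (x 0) (x 1) (x 2) (hh (x 0) (x 1) (x 2)) -
    (x 2 - x 4) - 2 / 3 * min (x 2 - x 4) (x 0 / 15) -
    (x 1 + x 2 + hh (x 0) (x 1) (x 2) - x 0 + μ - x 3) / 3 - μ -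
    16 / 27 * max 0 ((4 * x 2 - 3 * x 0) / 9) - 4 * c
  zl : ¬ L.zl

lemma ronx_dRn (π : Lam → DPar) (h : ℝ → ℝ) (hh : ℝ → ℝ → ℝ → ℝ) (μ c : ℝ) :
    RonX π h hh μ c (LEk π h (dRn hh μ c) ()) where
  Φ _ _ _ _ := le_rfl
  G _ _ := le_rfl
  F _ _ := le_rfl
  zl := fun h => h

/-- **the premise of (RH)** -/
theorem ronx_of {π : Lam → DPar} {h : ℝ → ℝ} {hh : ℝ → ℝ → ℝ → ℝ} {L : ι → Line Lam p} {j : ι}
    {lam : Lam} {K c μ ε ε₁ M r bm r' bm' X Lf Lv Bd : ℝ} {base : List Pq}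
    (HL : RonX π h hh μ c (L j)) (hX : 3 ≤ X) (hK : 0 < K) (hε₁ : 0 ≤ ε₁) (hε : ε₁ ≤ ε)
    (hr : r ≤ r') (hbm : bm ≤ bm') (hBd : 0 ≤ Bd)
    (H : LnP L lam K ε M r' bm' X (Lf / Real.log X) (Lv / Real.log X) Bd base) {Im D' hv : ℝ}
    (hhv : hv = hh K (Lv / Real.log X) (Lf / Real.log X))
    (hIm : Im = Lv + Lf + Real.log X * hv - K * Real.log X + μ * Real.log X)
    (hIK : Im ≤ TK K * Real.log X) (hD0 : 0 ≤ D') (hD : D' ≤ K * Real.log X / 15)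
    {l : ℝ} {ps' : List Pq} (hl0 : 0 ≤ l) (hl : l ≤ Im)
    (hch : List.Forall₂ (Chd Dq hcost r bm) ps' base)
    (hLL : LL Dq ps' ≤ Lf - D' + ε₁ * Real.log X) :
    XPX241.RN (π lam) h l ps' ≤ Bd * cst hcost ps' base ^ M *
      Real.exp (TTe K μ c ε₁ (Real.log X) Lv Lf hv - 2 / 3 * D' - Lf + LL Dq ps' -
        (Im - l) / 3) := by
  have hX0 : 0 < X := by linarith
  obtain ⟨Lx, hLx⟩ : ∃ Lx, Lx = Real.log X := ⟨_, rfl⟩
  have hL : 0 < Lx := by rw [hLx]; exact Real.log_pos (by linarith)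
  have hTK : 0 ≤ TK K := by unfold RGB545.TK; positivity
  rw [← hLx] at hhv hIm hIK hD hLL ⊢
  have hεL : ε₁ * Lx ≤ ε * Lx := mul_le_mul_of_nonneg_right hε hL.le
  have key := H j ⟨0, by
      constructor
      · exact le_rfl
      · intro i; exact hTK⟩ l ps' hl0 (by rw [← hLx]; exact hl.trans hIK)
    (RlB791.chdL_mono hr hbm hch)
    (by
      rw [← hLx, add_mul, div_mul_cancel₀ _ hL.ne']
      linarith) (by
      refine (HL.G _ _).trans ?_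
      show l / Real.log X - (Lv / Real.log X + Lf / Real.log X +
        hh K (Lv / Real.log X) (Lf / Real.log X) - K + μ) ≤ ε
      rw [← hLx, ← hhv]
      have h1 : l / Lx ≤ Lv / Lx + Lf / Lx + hv - K + μ := by
        rw [div_le_iff₀ hL]
        have h2 : (Lv / Lx + Lf / Lx + hv - K + μ) * Lx =
            Lv + Lf + Lx * hv - K * Lx + μ * Lx := by
          field_simp
        rw [h2, ← hIm]
        exact hl
      linarith) (fun hz => (HL.zl hz).elim)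
  have hcs : 0 ≤ cst hcost ps' base ^ M :=
    Real.rpow_nonneg (by linarith [RlB791.one_le_cst ps' base]) _
  refine (HL.Φ lam l _ ps').trans (key.trans ?_)
  refine mul_le_mul_of_nonneg_left ?_ (by positivity)
  rw [Real.rpow_def_of_pos hX0]
  refine Real.exp_le_exp.2 ?_
  rw [← hLx]
  have h3 := HL.F ![K, Lv / Lx, Lf / Lx, l / Lx, LL Dq ps' / Lx] 0
  have h4 : (![K, Lv / Lx, Lf / Lx, l / Lx, LL Dq ps' / Lx] : Fin 5 → ℝ) 0 = K := rfl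
  have h5 : (![K, Lv / Lx, Lf / Lx, l / Lx, LL Dq ps' / Lx] : Fin 5 → ℝ) 1 = Lv / Lx := rfl
  have h6 : (![K, Lv / Lx, Lf / Lx, l / Lx, LL Dq ps' / Lx] : Fin 5 → ℝ) 2 = Lf / Lx := rfl
  have h7 : (![K, Lv / Lx, Lf / Lx, l / Lx, LL Dq ps' / Lx] : Fin 5 → ℝ) 3 = l / Lx := rfl
  have h8 : (![K, Lv / Lx, Lf / Lx, l / Lx, LL Dq ps' / Lx] : Fin 5 → ℝ) 4 =
    LL Dq ps' / Lx := rfl
  rw [h4, h5, h6, h7, h8, ← hhv] at h3
  have h9 : D' / Lx - ε₁ ≤ min (Lf / Lx - LL Dq ps' / Lx) (K / 15) := by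
    refine le_min ?_ ?_
    · rw [← sub_div, sub_le_iff_le_add, div_le_iff₀ hL]
      have : ((Lf - LL Dq ps') / Lx + ε₁) * Lx = Lf - LL Dq ps' + ε₁ * Lx := by
        field_simp
      rw [this]
      linarith
    · have h10 : D' / Lx ≤ K / 15 := by
        rw [div_le_iff₀ hL]
        linarith
      linarith
  have h11 : Lx * max 0 ((4 * (Lf / Lx) - 3 * K) / 9) = F3n (K * Lx) Lf := by
    show _ = max 0 ((4 * Lf - 3 * (K * Lx)) / 9)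
    rw [mul_max_of_nonneg _ _ hL.le, mul_zero]
    congr 1
    field_simp
  obtain ⟨F, hFd⟩ : ∃ F, F = (L j).F ![K, Lv / Lx, Lf / Lx, l / Lx, LL Dq ps' / Lx] 0 := ⟨_, rfl⟩
  obtain ⟨mx, hmx⟩ : ∃ mx, mx = mm K (Lv / Lx) (Lf / Lx) hv := ⟨_, rfl⟩
  obtain ⟨mn, hmn⟩ : ∃ mn, mn = min (Lf / Lx - LL Dq ps' / Lx) (K / 15) := ⟨_, rfl⟩
  obtain ⟨f3, hf3⟩ : ∃ f3, f3 = max 0 ((4 * (Lf / Lx) - 3 * K) / 9) := ⟨_, rfl⟩
  rw [← hf3] at h11 h3
  rw [← hmn] at h3 h9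
  rw [← hmx] at h3
  show Lx * (4 / 3 * (Lf / Lx) + (Lv / Lx + K) / 3 +
    (L j).F ![K, Lv / Lx, Lf / Lx, l / Lx, LL Dq ps' / Lx] 0) ≤ _
  rw [← hFd] at h3 ⊢
  unfold NO64.TTe NO64.sg
  rw [← hmx, ← h11, hIm]
  have h12 := mul_le_mul_of_nonneg_left h3 hL.le
  have h13 := mul_le_mul_of_nonneg_left h9 hL.le
  have e1 : Lx * (4 / 3 * (Lf / Lx) + (Lv / Lx + K) / 3 + F) =
      4 / 3 * Lf + (Lv + K * Lx) / 3 + Lx * F := by
    field_simp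
  have e2 : Lx * (hv / 3 - mx - (Lf / Lx - LL Dq ps' / Lx) - 2 / 3 * mn -
      (Lv / Lx + Lf / Lx + hv - K + μ - l / Lx) / 3 - μ - 16 / 27 * f3 - 4 * c) =
      Lx * hv / 3 - Lx * mx - (Lf - LL Dq ps') - 2 / 3 * (Lx * mn) -
      (Lv + Lf + Lx * hv - K * Lx + μ * Lx - l) / 3 - μ * Lx - 16 / 27 * (Lx * f3) -
        4 * (c * Lx) := by
    field_simp
    try ring
  have e3 : Lx * (D' / Lx - ε₁) = D' - ε₁ * Lx := by
    field_simp
  rw [e1]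
  rw [e2] at h12
  rw [e3] at h13
  linarith

/-! ### the numbers -/

/-- the loss, scaled -/
lemma mm_scale {K v n hv L : ℝ} (hL : 0 < L) :
    0 ≤ L * mm K (v / L) (n / L) hv ∧
    (L * hv + 2 * v - K * L) / 3 ≤ L * mm K (v / L) (n / L) hv ∧
    (L * hv + 2 * v - K * L) - (v + n + L * hv - K * L) / 2 ≤ L * mm K (v / L) (n / L) hv ∧
    (L * mm K (v / L) (n / L) hv ≤ 0 ∨
      L * mm K (v / L) (n / L) hv ≤ (L * hv + 2 * v - K * L) / 3 ∨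
      L * mm K (v / L) (n / L) hv ≤ (L * hv + 2 * v - K * L) - (v + n + L * hv - K * L) / 2) := by
  have e : L * mm K (v / L) (n / L) hv = max 0 (max ((L * hv + 2 * v - K * L) / 3)
      ((L * hv + 2 * v - K * L) - (v + n + L * hv - K * L) / 2)) := by
    unfold NO64.mm
    rw [mul_max_of_nonneg _ _ hL.le, mul_max_of_nonneg _ _ hL.le, mul_zero]
    congr 1
    congr 1
    · field_simp
    · field_simp
  rw [e]
  refine ⟨le_max_left _ _, (le_max_left _ _).trans (le_max_right _ _),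
    (le_max_right _ _).trans (le_max_right _ _), ?_⟩
  rcases max_cases 0 (max ((L * hv + 2 * v - K * L) / 3)
      ((L * hv + 2 * v - K * L) - (v + n + L * hv - K * L) / 2)) with h | h
  · left; rw [h.1]
  · rw [h.1]
    rcases max_cases ((L * hv + 2 * v - K * L) / 3)
      ((L * hv + 2 * v - K * L) - (v + n + L * hv - K * L) / 2) with h2 | h2
    · right; left; rw [h2.1]
    · right; right; rw [h2.1]

/-- the numbers of the leaf (all in absolute units) -/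
lemma nx_num {κ n v F c c' μ γ x0 e1 b1 δD h s : ℝ} (hc : 0 ≤ c) (hcc : 30 * c ≤ c')
    (hcc2 : c' ≤ 40 * c) (hκ : 1000000 * c ≤ κ) (hμ0 : 2000 * c ≤ μ) (hμ1 : 100 * μ ≤ κ)
    (n0 : 3 / 4 * κ - c ≤ n) (n1 : 5 * n ≤ 4 * κ + 6 * c) (nv : 5 * (v + n) ≤ 7 * κ)
    (v0 : 0 ≤ v) (nt : 2 * n ≤ κ + v) (hD : δD ≤ n - 3 / 4 * κ + c) (hF0 : 0 ≤ F)
    (hF1 : F ≤ (4 * n - 3 * κ) / 9 + 4 / 9 * c) (hx0 : x0 ≤ 4 / 9 * F + 10 * c)
    (he1 : e1 ≤ F + 20 * c) (hb1 : b1 ≤ F + 21 * c) (hh : h = 3 * F + 3 * c')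
    (hs : s ≤ c) (hs0 : 20 ≤ s) :
    v + s ≤ 3 * κ ∧ x0 ≤ 3 * κ ∧ e1 ≤ 3 * κ ∧ b1 ≤ 3 * κ ∧ δD ≤ 3 * κ ∧ n + s ≤ 3 * κ ∧
      s + h + 2 * v + 10 ≤ κ + n ∧ h / 3 + (v + 4) + 2 * e1 + 2 * b1 ≤ κ ∧
      h + 3 * (v + 5) + 3 * e1 + 2 * b1 ≤ 2 * κ ∧ 2 * h + 3 * (v + 5) ≤ 2 * κ ∧
      0 ≤ v + n + h - κ ∧ v + n + h - κ + μ ≤ 10 * κ ∧ δD + x0 ≤ κ / 15 := by
  refine ⟨?_, ?_, ?_, ?_, ?_, ?_, ?_, ?_, ?_, ?_, ?_, ?_, ?_⟩ <;> linarith

/-- the exponent of the line is at least the length -/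
lemma nx_T {κ n v F c c' μ x0 δD h m D' : ℝ} (hc : 0 ≤ c) (hcc : 30 * c ≤ c')
    (hcc2 : c' ≤ 40 * c) (hκ : 1000000 * c ≤ κ) (hμ1 : 100 * μ ≤ κ)
    (n0 : 3 / 4 * κ - c ≤ n) (n1 : 5 * n ≤ 4 * κ + 6 * c) (nv : 5 * (v + n) ≤ 7 * κ)
    (v0 : 0 ≤ v) (nt : 2 * n ≤ κ + v) (hF0 : 0 ≤ F)
    (hF1 : F ≤ (4 * n - 3 * κ) / 9 + 4 / 9 * c) (hh : h = 3 * F + 3 * c')
    (hm : m ≤ 0 ∨ m ≤ (h + 2 * v - κ) / 3 ∨ m ≤ (h + 2 * v - κ) - (v + n + h - κ) / 2)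
    (hD' : D' ≤ κ / 15) {sg : ℝ} (hsg : sg ≤ μ + 16 / 27 * F + 4 * c) :
    n ≤ 4 / 3 * n + (v + κ) / 3 + h / 3 - m - sg - 2 / 3 * D' := by
  rcases hm with h1 | h1 | h1 <;> linarith

/-- the bias -/
lemma nx_b {κ n v F c c' γ x0 h a u g d y ε : ℝ} (hc : 0 ≤ c)
    (hcc2 : c' ≤ 40 * c) (n0 : 3 / 4 * κ - c ≤ n) (hF0 : 0 ≤ F)
    (hF1 : F ≤ (4 * n - 3 * κ) / 9 + 4 / 9 * c) (hx0 : x0 ≤ 4 / 9 * F + 10 * c)
    (hh : h = 3 * F + 3 * c') (hε0 : 0 ≤ ε) (hε : ε ≤ c) (hγ : γ ≤ c / 4)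
    (hg : g = a - 3 / 4 * κ + c) (hna : n ≤ a + ε) (lv : v ≤ u + ε + (a - n))
    (vg : 3 * (u + g) + 100 * c ≤ 2 * κ + ε) (bg : a + u + 3 * g + 90 * c ≤ κ + 3 * d + ε)
    (hy : y ≤ 0 ∨ y ≤ a - n) :
    h + 4 * v + n + 3 * (2 * x0 + γ) + 2 * γ / 2 + 3 * 0 ≤ 3 * κ + 3 * (d - y) := by
  rcases hy with h1 | h1 <;> linarith

end Crest.Agent.R017.RoX116
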