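import Crest.Agent.R017.NOx_126
import Crest.Agent.R017.JBXn_320

/-!
# Row 17, (Ro) at the near leaf, class E: the T-half under the prefix of the leaf (helper126)

* **`leafT_X`** : (q0), (q2), (q3) and the two `T`-numbers of the twisted windows of the
  difference `xs`
-/

set_option autoImplicit false
set_option linter.unusedVariables false

noncomputable section

open Complex MeasureTheory
open scoped ComplexConjugate Classical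

namespace Crest.Agent.R017.NOt126

open Crest.Agent.R012 Crest.Agent.R012.Eis Crest.Agent.R012.LS2 Crest.Agent.R012.Gauss880
open Crest.Agent.R012.Weight600 (pw)
open Crest.Agent.R017.CM106 Crest.Agent.R017.FE47
open Crest.Agent.R017.HP842 hiding fl
open Crest.Agent.R017.End699 hiding pw
open Crest.Agent.R017.B770
open Crest.Agent.R017.Prov71
open Crest.Agent.R017.Leg381
open Crest.Agent.R017.Win813 (WK)
open Crest.Agent.R017.RGw813 (T9 bt)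
open Crest.Agent.R017.E1551 (Adm)
open Crest.Agent.R017.RG64
open Crest.Agent.R017.XP699 (LL Chd hcost cst)
open Crest.Agent.R017.NE73 (gN)
open Crest.Agent.R017.NEg551 (NFacts NTc NNum)
open Crest.Agent.R017.Sup271 (NPm)
open Crest.Agent.R017.RXk848 (Lmp)
open Crest.Agent.R017.RX298 (NNumX NTcX NTcR xs zt norm_zt rpB LF_rp rp_length exists_XDp)

variable {Lam : Type*}

set_option maxHeartbeats 1600000 in
/-- **the T-half of `NumOs` at the near leaf**, class E -/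
theorem leafT_X {π : Lam → DPar} (hP : ∀ lam, (π lam).OK)
    (hnp : ∀ lam, ¬ NPm (π lam).n (π lam).ψ (π lam).l₂ 1) {h : ℝ → ℝ} {c₂ : ℝ} (hpu : PU h c₂)
    {K v c c' e₁ d : ℝ} (hc : 0 < c) (hcc : 30 * c ≤ c') (hcK : 1000 * c' ≤ K) (hd : 0 ≤ d) :
    ∀ (lam : Lam) (N : ℕ) (c₀ : ℝ), 1 ≤ c₀ → ∀ ε ε' M : ℝ, 0 < ε →
    0 < ε' → 0 ≤ M →
    ∃ J₀ δ₀ : ℝ, 0 ≤ J₀ ∧ 0 < δ₀ ∧ ∀ (δ : ℝ) (Jn Aw : ℕ) (Cw η S' : ℝ), 0 ≤ δ → δ ≤ δ₀ →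
    J₀ ≤ Jn → Jn + 2 ≤ Aw → 0 ≤ Cw → 0 < η → η ≤ 1 / 2 → 0 ≤ S' → ∀ cc : ℝ, 1 ≤ cc →
    ∃ C X₁ : ℝ, 1 ≤ C ∧ ∀ X : ℝ, 3 ≤ X → X₁ ≤ X → ∀ ps₀ : List Pq, ps₀.length ≤ N →
    (∀ q ∈ ps₀, Dq.s2 q ≤ X ^ c₀) → NNum K v c ε X ps₀ → NNumX K v c e₁ d ε X ps₀ →
    Lmp ((d + 3 / 2 * c) * Real.log X) ps₀ →
    ∀ (q : Eis) (ps : List Pf) (Lv : ℝ) (N₁ : ℕ),
    NFacts K v (gN K c (LL Dq ps₀ / Real.log X)) ε X ps₀ ps Lv N₁ →
    IsPrim q → (nm q : ℝ) ≤ X ^ c₀ → SbL S' ps ps₀ → ∀ Bd r b : ℝ, 1 ≤ Bd → C ≤ r →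
    C * X ^ (c₀ + 2 * K + 2) ≤ b → NTcX (π lam) h K v c (2 * ε) X r b M Bd ps₀ →
    NTcR (π lam) h K v c (2 * ε) X r b M Bd (rpB (d * Real.log X) ps₀) →
    ∀ E0 E1 B H D : ℝ, 0 < E0 → 0 < E1 → 0 < B → 0 < H →
    Real.log E0 ≤ F3n (K * Real.log X) (LF ps) + 10 * (c * Real.log X) →
    Real.log E1 ≤ F3n (K * Real.log X) (LF ps) + 20 * (c * Real.log X) →
    Real.log B ≤ F3n (K * Real.log X) (LF ps) + 21 * (c * Real.log X) →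
    Real.log H = 3 * F3n (K * Real.log X) (LF ps) + 3 * (c' * Real.log X) →
    H ^ (1 / 3 : ℝ) * N₁ * E1 ^ 2 * B ^ 2 ≤ X ^ K ∧
    H * (Real.exp 1 * N₁) ^ 3 * E1 ^ 3 * B ^ 2 ≤ (X ^ K) ^ 2 ∧
    H ^ 2 * (Real.exp 1 * N₁) ^ 3 ≤ (X ^ K) ^ 2 ∧
    ∀ p ∈ T9, ∀ φ : ℝ → ℝ, WK Cw η Aw φ → ∀ t : ℝ,
    ∃ τ τ₁ : ℝ, 0 ≤ τ ∧ 0 ≤ τ₁ ∧
      TNa (X ^ K) E0 D cc N₁
        (fun n => bt φ (xs q (X ^ δ) (X ^ δ) (π lam) h (d * Real.log X) ps) p n *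
          pw t (nm n)) τ ∧
      TNf (X ^ K) E0 D cc N₁
        (fun n => bt φ (xs q (X ^ δ) (X ^ δ) (π lam) h (d * Real.log X) ps) p n *
          pw t (nm n)) τ₁ ∧
      H ^ (-(1 / 3) : ℝ) * τ ≤ (C * X ^ ε' * (Ht ps * Ht (natl ps₀)) ^ J₀ * Bd *
        (1 + |t|) ^ Jn) * (X ^ K * Real.exp (LF ps)) ∧
      (Real.exp 1 * N₁) ^ (2 / 3 : ℝ) * E1 ^ 2 * B ^ 2 / X ^ K * τ₁ ≤
        (C * X ^ ε' * (Ht ps * Ht (natl ps₀)) ^ J₀ * Bd *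
        (1 + |t|) ^ Jn) * (X ^ K * Real.exp (LF ps)) := by
  have hc' : 0 < c' := by linarith
  have hK : 0 < K := by linarith
  intro lam N c₀ hc₀ ε ε' M hε hε' hM
  obtain ⟨J₀, δ₀, hJ₀, hδ₀, HJ⟩ := JBX320.jbx_core (v := v) (e₁ := e₁) hP hnp hpu hK.le hc hd lam N
    c₀ hc₀ ε (ε' / 2) M hε (by positivity) hM
  refine ⟨J₀, δ₀, hJ₀, hδ₀, ?_⟩
  intro δ Jn Aw Cw η S' hδ0 hδ hJn hAw hCw hη hη2 hS cc hcc1
  obtain ⟨cw, hcw⟩ : ∃ x, x = 9 * Real.exp 1 ^ 2 * cc := ⟨_, rfl⟩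
  have hcw1 : 1 ≤ cw := by
    rw [hcw]
    have he1 : (1 : ℝ) ≤ Real.exp 1 ^ 2 := one_le_pow₀ (Real.one_le_exp zero_le_one)
    nlinarith
  obtain ⟨C₃, X₃, hC₃, HJ'⟩ := HJ δ Jn S' hδ0 hδ hJn hS cw hcw1
  obtain ⟨Ra, Ca, hRa, hCa, hAL⟩ := exists_XDp hpu N
  obtain ⟨C₁, X₁, hC₁, G⟩ := os_leaf (R := 2 * Ra) (by positivity) hAw hCw hc hcc hcK
    (by positivity : 0 < ε' / 2) hcc1
  have hη1' : 0 ≤ (η⁻¹) ^ Jn := by positivity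
  have hCC : 0 ≤ C₁ * (η⁻¹) ^ Jn * C₃ := by positivity
  refine ⟨C₁ * (η⁻¹) ^ Jn * C₃ + C₃, max (max X₁ X₃) (max Ca (Real.exp (1 + Ra))), by linarith, ?_⟩
  intro X hX3 hXX ps₀ hlen hs2 hnum hnx hlmp q ps Lv N₁ hF hq hqX hps Bd r b hBd hCr hCb hT hTR
    E0 E1 B H D hE0 hE1 hB hH h0 h1 h2 h3
  have hX0 : 0 < X := by linarith
  have hX1 : 1 ≤ X := by linarith
  obtain ⟨q0, q2, q3, q4⟩ := G X hX3 ((le_max_left _ _).trans ((le_max_left _ _).trans hXX)) v ε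
    ps₀ ps Lv N₁ hnum hF E0 E1 B H D hE0 hE1 hB hH h0 h1 h2 h3
  refine ⟨q0, q2, q3, ?_⟩
  intro p hp φ hφ t
  have hX₃ : X₃ ≤ X := (le_max_right _ _).trans ((le_max_left _ _).trans hXX)
  have hXCa : Ca ≤ X := (le_max_left _ _).trans ((le_max_right _ _).trans hXX)
  have hLR : 1 + Ra ≤ Real.log X := by
    rw [Real.le_log_iff_exp_le hX0]
    exact (le_max_right _ _).trans ((le_max_right _ _).trans hXX)
  have hL0 : 0 < Real.log X := by linarith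
  have f3 := hF.hi
  have f5 := hnum.nK
  have hm8 : LF ps + Ra ≤ 8 * (K + 1) * Real.log X := by
    have e8 : 8 * (K + 1) * Real.log X = 8 * (K * Real.log X) + 8 * Real.log X := by ring
    have hKL : 0 ≤ K * Real.log X := by positivity
    have e5 : (4 * K + ε) * Real.log X = 4 * (K * Real.log X) + ε * Real.log X := by ring
    have e6 : ε * Real.log X ≤ K * Real.log X :=
      mul_le_mul_of_nonneg_right (by linarith [hnum.ec]) hL0.le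
    linarith
  -- the joint numbers
  have hb' : C₃ * X ^ (c₀ + 2 * K + 2) ≤ b :=
    (mul_le_mul_of_nonneg_right (by linarith) (by positivity)).trans hCb
  have hJB := HJ' X hX3 hX₃ ps₀ hlen hs2 hnum hnx hlmp q ps Lv N₁ hF hq hqX hps Bd r b hBd
    (by linarith) hb' hT hTR
  -- the support
  have hX' : X ≤ X ^ (8 * (K + 1)) := by
    calc X = X ^ (1 : ℝ) := (Real.rpow_one X).symm
      _ ≤ _ := Real.rpow_le_rpow_of_exponent_le hX1 (by linarith)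
  obtain ⟨hsup, hwin, _, hFS⟩ := hAL (X ^ δ) (X ^ δ) (π lam) (hP lam) q ps
    (RX298.rp (d * Real.log X) ps) (zt (d * Real.log X) ps) (hps.length ▸ hlen)
    (by rw [rp_length]; exact hps.length ▸ hlen) (LF_rp _ _) (norm_zt _ _).le
    (X ^ (8 * (K + 1))) (hXCa.trans hX') (by
      rw [← Real.exp_add, Real.rpow_def_of_pos hX0]
      refine Real.exp_le_exp.2 ?_
      linarith)
  have hadm : Adm (X ^ (8 * (K + 1))) (Real.exp (LF ps)) (2 * Ra)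
      (xs q (X ^ δ) (X ^ δ) (π lam) h (d * Real.log X) ps) :=
    ⟨hsup, fun n hn => (hwin n hn).trans (by linarith)⟩
  have hFS' : FS (xs q (X ^ δ) (X ^ δ) (π lam) h (d * Real.log X) ps) := hFS
  have hJB' : TNj90.JBc (X ^ (8 * (K + 1))) (9 * Real.exp 1 ^ 2 * cc * N₁)
      (C₃ * X ^ (ε' / 2) * (Ht ps * Ht (natl ps₀)) ^ J₀ * Bd) ((Jn : ℕ) : ℝ)
      (ShN (K * Real.log X) (gN K c (LL Dq ps₀ / Real.log X) * Real.log X) (LL Dq ps₀)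
          (LF ps) (c * Real.log X))
      (xs q (X ^ δ) (X ^ δ) (π lam) h (d * Real.log X) ps) := by
    rw [← hcw]
    exact hJB
  have hBd0 : 0 ≤ Bd := by linarith
  have hHH : 0 ≤ (Ht ps * Ht (natl ps₀)) ^ J₀ :=
    Real.rpow_nonneg (mul_nonneg (by linarith [one_le_Ht ps]) (by linarith [one_le_Ht (natl ps₀)])) _
  have hC₃0 : 0 ≤ C₃ := by linarith
  obtain ⟨τ, τ₁, t1, t2, t3, t4, t5, t6⟩ := q4
    (C₃ * X ^ (ε' / 2) * (Ht ps * Ht (natl ps₀)) ^ J₀ * Bd) η (c * Real.log X) _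
    (by positivity) hη (by linarith) (by nlinarith) hFS' hadm hJB' p hp φ hφ t
  have hnum' : C₁ * (η⁻¹) ^ Jn * X ^ (ε' / 2) * (C₃ * X ^ (ε' / 2) *
      (Ht ps * Ht (natl ps₀)) ^ J₀ * Bd) * (1 + |t|) ^ Jn ≤ (C₁ * (η⁻¹) ^ Jn * C₃ + C₃) * X ^ ε' *
        (Ht ps * Ht (natl ps₀)) ^ J₀ * Bd * (1 + |t|) ^ Jn := by
    have hXε : X ^ (ε' / 2) * X ^ (ε' / 2) = X ^ ε' := by
      rw [← Real.rpow_add hX0]; congr 1; ring
    calc C₁ * (η⁻¹) ^ Jn * X ^ (ε' / 2) * (C₃ * X ^ (ε' / 2) *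
          (Ht ps * Ht (natl ps₀)) ^ J₀ * Bd) * (1 + |t|) ^ Jn =
        (C₁ * (η⁻¹) ^ Jn * C₃) * (X ^ (ε' / 2) * X ^ (ε' / 2)) *
          (Ht ps * Ht (natl ps₀)) ^ J₀ * Bd * (1 + |t|) ^ Jn := by ring
      _ ≤ _ := by
        rw [hXε]
        gcongr
        linarith
  have hKe : 0 ≤ X ^ K * Real.exp (LF ps) := by positivity
  exact ⟨τ, τ₁, t1, t2, t3, t4, t5.trans (mul_le_mul_of_nonneg_right hnum' hKe),
    t6.trans (mul_le_mul_of_nonneg_right hnum' hKe)⟩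

end Crest.Agent.R017.NOt126
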