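import Crest.Agent.R017.RoX_116

/-!
# Row 17, T.7, (Ro) at the leaf, exceptional class (helper116): the leaf

* `roX_leaf` : `RLeafXL π h (fun Λ => BeAll (NRo w Λ)) (LE π h c μ) K c b d₀ y`
-/

set_option autoImplicit false
set_option linter.unusedVariables false

noncomputable section

open Finset
open scoped Classical

namespace Crest.Agent.R017.RoX116

open Crest.Agent.R012 Crest.Agent.R012.Eis
open Crest.Agent.R012.MC (Wgt)
open Crest.Agent.R012.LS2 (S mem_S bl mem_bl)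
open Crest.Agent.R012.Weight600 (pw)
open Crest.Agent.R012.T411 (NCube)
open Crest.Agent.R017.FE47 (PU)
open Crest.Agent.R017.B770
open Crest.Agent.R017.Prov71
open Crest.Agent.R017.Leg381 (Pf alF LF natl)
open Crest.Agent.R017.C70 (JC OKJ JW okJ_JW)
open Crest.Agent.R017.CM106 (CS FS)
open Crest.Agent.R017.E1551 (Adm)
open Crest.Agent.R017.E3A164 (Ys Fy)
open Crest.Agent.R017.E3M829 (Sg Tal W0 exists_W0)
open Crest.Agent.R017.E3T1579 (T3)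
open Crest.Agent.R017.E3T829 (RR)
open Crest.Agent.R017.E3Z548 (FH)
open Crest.Agent.R017.PX764 (n6)
open Crest.Agent.R017.PoHx72 (Cls)
open Crest.Agent.R017.Mode405 (Slp)
open Crest.Agent.R017.R3571 (RMm W2 slp_two)
open Crest.Agent.R017.LBo813 (Om)
open Crest.Agent.R017.I1146 (omr)
open Crest.Agent.R017.RGw813 (bt T9 adm_bt FS_of_S)
open Crest.Agent.R017.LBx48 (adm_mono)
open Crest.Agent.R017.Win813 (WK)
open Crest.Agent.R017.QsO83 (bw)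
open Crest.Agent.R017.RHX116 (nmx nmx_nonneg RHx_leaf tw_leaf)
open Crest.Agent.R017.Sup271 (NPm)
open Crest.Agent.R017.XP699 (LL Chd hcost cst)
open Crest.Agent.R017.RG64 (SbL Ht one_le_Ht LBp RFacts)
open Crest.Agent.R017.RGB545 (Line Th TK LE rbx)
open Crest.Agent.R017.RX298 (xs rp LF_rp rp_length XDp exists_XDp zt norm_zt)
open Crest.Agent.R017.RXk848 (LnP RLeafXL Lmp bX)
open Crest.Agent.R017.RLD381 (NRo BeAll omx hE E1E)

/-- the arithmetic of the final comparison -/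
lemma fin_x {CF C W2' Ch Xε V HM H6 HJ Bd EbX E2 M1 : ℝ} (hCF : CF = W2' * Ch)
    (h0 : 0 ≤ W2') (h1 : 0 ≤ Ch) (hC : CF ≤ C) (hX : 0 ≤ Xε) (hV : 0 ≤ V) (hM : HM ≤ HJ)
    (h6 : H6 ≤ HJ) (hJ : 0 ≤ HJ) (hBd : 0 ≤ Bd) (hEb : 0 ≤ EbX) (hE2 : 0 ≤ E2)
    (hM1 : 0 ≤ M1) :
    W2' * ((Ch * Xε * V * (HM * Bd)) + (Ch * Xε * V * H6) * EbX) * E2 ≤
      (C * Xε * HJ * (EbX + Bd) * E2 + M1) * V := by
  have e1 : W2' * ((Ch * Xε * V * (HM * Bd)) + (Ch * Xε * V * H6) * EbX) * E2 =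
      CF * Xε * (HM * Bd + H6 * EbX) * E2 * V := by rw [hCF]; ring
  have hCF0 : 0 ≤ CF := by rw [hCF]; positivity
  have e2 : HM * Bd + H6 * EbX ≤ HJ * (EbX + Bd) := by
    have a1 := mul_le_mul_of_nonneg_right hM hBd
    have a2 := mul_le_mul_of_nonneg_right h6 hEb
    nlinarith
  rw [e1]
  calc CF * Xε * (HM * Bd + H6 * EbX) * E2 * V ≤ CF * Xε * (HJ * (EbX + Bd)) * E2 * V := by
        gcongr
    _ ≤ C * Xε * (HJ * (EbX + Bd)) * E2 * V := by gcongr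
    _ = (C * Xε * HJ * (EbX + Bd) * E2) * V := by ring
    _ ≤ _ := by
        refine mul_le_mul_of_nonneg_right ?_ hV
        linarith

set_option maxHeartbeats 3200000 in
/-- **the leaf of (Ro), exceptional class** -/
theorem roX_leaf {Lam : Type*} {π : Lam → DPar} {h : ℝ → ℝ} {c₁ : ℝ} (hPX : PairX)
    (hpu : PU h c₁) (hπ : ∀ lam, (π lam).OK)
    (hnp : ∀ lam, ¬ NPm (π lam).n (π lam).ψ (π lam).l₂ 1) {w : ℝ → ℝ} (hw : Wgt w)
    (hw0 : ∀ x, 0 ≤ w x) {K c μ b d₀ y : ℝ} (hc : 0 < c) (hμ : 1000 * c ≤ μ) (hμ1 : μ ≤ 1)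
    (hK : 2000 * c ≤ K) (hb : 8 * (K + 1) ≤ b) (hd₀ : 0 ≤ d₀) (hy : 20 ≤ y) :
    RLeafXL π h (fun Λ => BeAll (NRo w Λ)) (LE π h c μ) K c b d₀ y := by
  intro lam N c₀ hc₀
  have hK0 : 0 < K := by linarith
  obtain ⟨c₂, hc₂⟩ : ∃ c₂, c₂ = c₀ + 4 * K + 3 := ⟨_, rfl⟩
  refine ⟨2 * c₂ + 2, by rw [hc₂]; linarith, ?_⟩
  intro ε M hε hM
  obtain ⟨z₀, hz₀⟩ : ∃ z₀, z₀ = K + 14 * c := ⟨_, rfl⟩
  have hz₀0 : 0 < z₀ := by rw [hz₀]; linarith
  obtain ⟨a, ha, HR⟩ := RHx_leaf hpu N (c₀ := c₂) (m₀ := 300 * z₀ + 1) (μ := 2 * c) (M := M)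
    (by rw [hc₂]; linarith) (by linarith) (by linarith) hM
  obtain ⟨J₀, hJ₀⟩ : ∃ J₀ : ℝ, J₀ = (N : ℝ) ^ 2 * M + M + 12 := ⟨_, rfl⟩
  have hN0 : (0 : ℝ) ≤ N := Nat.cast_nonneg N
  have hN2M : 0 ≤ (N : ℝ) ^ 2 * M := by positivity
  refine ⟨J₀, min 1 (ε / 2 / (3 * N + 3)), by rw [hJ₀]; linarith,
    lt_min one_pos (by positivity), ?_⟩
  intro δ Jn Aw Cw R η S hδ0 hδ hJn hAw hCw hR hη hη2 hS
  have hδ1 : δ ≤ 1 := hδ.trans (min_le_left _ _)
  have hδN : 3 * (N : ℝ) * δ ≤ ε / 2 := by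
    have h1 : δ ≤ ε / 2 / (3 * N + 3) := hδ.trans (min_le_right _ _)
    rw [le_div_iff₀ (by positivity)] at h1
    linarith
  obtain ⟨W, b₀, hb₀, hW⟩ := exists_W0 hw hw0
  obtain ⟨ε₁, hε₁⟩ : ∃ e, e = c / (12 * z₀) := ⟨_, rfl⟩
  have hε₁0 : 0 < ε₁ := by rw [hε₁]; positivity
  have hε₁1 : ε₁ ≤ 1 := by
    rw [hε₁, div_le_one (by positivity), hz₀]; linarith
  obtain ⟨A₀, cp, hcp, HP⟩ := hPX 1 zero_le_one a (Jn + 2) (by omega) b₀ hb₀.le ε₁ hε₁0 hε₁1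
  obtain ⟨Cb, hCb, HP⟩ := HP (max A₀ 2) (le_max_left _ _) 4 le_rfl
  obtain ⟨Cc, hCc, HC⟩ := ro_core hw hW (R := 1) zero_le_one (A' := Jn + 2) (by omega)
    (A := max A₀ 2) (Bw := 4) (by
      have := le_max_right A₀ 2
      omega) (by norm_num) hε₁0
  obtain ⟨Ch, rh, Xh, hCh, hrh, HR⟩ := HR (ε / 2) S (by positivity) hS
  obtain ⟨Xt, HT⟩ := tw_leaf (c := c) (S := S) N hc hS
  obtain ⟨Rx, Cx, hRx, hCx, hXD⟩ := exists_XDp hpu N
  have hcp0 : 0 < cp := by linarith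
  obtain ⟨G, hG⟩ : ∃ G, G = Cc * (1 + Cb) * cp ^ (1 / 3 : ℝ) + cp * Real.exp (R + 20) +
    nm (π lam).n + Cx + Real.exp Rx := ⟨_, rfl⟩
  have hG1 : Cc * (1 + Cb) * cp ^ (1 / 3 : ℝ) ≤ G := by
    have : (0 : ℝ) ≤ nm (π lam).n := Nat.cast_nonneg _
    have h2 : 0 ≤ cp * Real.exp (R + 20) := by positivity
    have h3 := Real.exp_pos Rx
    linarith
  have hG0' : 0 ≤ Cc * (1 + Cb) * cp ^ (1 / 3 : ℝ) := by positivity
  have hn0' : (0 : ℝ) ≤ nm (π lam).n := Nat.cast_nonneg _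
  have hcR : 0 < cp * Real.exp (R + 20) := by positivity
  have hRx0 := Real.exp_pos Rx
  have hG2 : cp * Real.exp (R + 20) ≤ G := by linarith
  have hG3 : (nm (π lam).n : ℝ) ≤ G := by linarith
  have hG4 : Cx ≤ G := by linarith
  have hG5 : Real.exp Rx ≤ G := by linarith
  have hG0 : 0 ≤ G := by linarith
  obtain ⟨CF, hCF⟩ : ∃ CF, CF = (Cc * (1 + Cb) * (2 + 1 / ε₁) *
    ((3 + cp + cp * cp ^ (1 / 3 : ℝ)) * Real.exp (11 * (R + 6))) *
      (Cw ^ 2 * (η⁻¹) ^ Jn)) * Ch := ⟨_, rfl⟩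
  have hW2 : 0 ≤ Cc * (1 + Cb) * (2 + 1 / ε₁) *
    ((3 + cp + cp * cp ^ (1 / 3 : ℝ)) * Real.exp (11 * (R + 6))) *
      (Cw ^ 2 * (η⁻¹) ^ Jn) := by positivity
  have hCF0 : 0 ≤ CF := by rw [hCF]; positivity
  refine ⟨Ch + CF, rh, max (max Xh Xt) (G ^ (6 / c)), cp * (Real.exp 1 * Real.exp 1),
    by linarith, hrh, one_le_mul_of_one_le_of_one_le hcp (one_le_mul_of_one_le_of_one_le
      (Real.one_le_exp zero_le_one) (Real.one_le_exp zero_le_one)), ?_⟩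
  intro X hX3 hXX ps₀ hlen hps₀ hs2 hL3 q ps Lv N₀ N₁ hF hq hqX hSb Bd Ma Ml hBd hMa hMl hLn _ _
  have hXh : Xh ≤ X := (le_max_left _ _).trans ((le_max_left _ _).trans hXX)
  have hXt : Xt ≤ X := (le_max_right _ _).trans ((le_max_left _ _).trans hXX)
  have hXG : G ^ (6 / c) ≤ X := (le_max_right _ _).trans hXX
  have hX0 : 0 < X := by linarith
  have hX1 : 1 ≤ X := by linarith
  have hGX : G ≤ X ^ (c / 6) := by
    calc G = (G ^ (6 / c)) ^ (c / 6) := by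
          have h6 : 6 / c * (c / 6) = 1 := by field_simp
          rw [← Real.rpow_mul hG0, h6, Real.rpow_one]
      _ ≤ X ^ (c / 6) := Real.rpow_le_rpow (by positivity) hXG (by positivity)
  obtain ⟨L, hL⟩ : ∃ L, L = Real.log X := ⟨_, rfl⟩
  have hL0 : 0 < L := by rw [hL]; exact Real.log_pos (by linarith)
  obtain ⟨γ, hγ⟩ : ∃ g, g = c * L := ⟨_, rfl⟩
  obtain ⟨κ, hκ⟩ : ∃ g, g = K * L := ⟨_, rfl⟩
  obtain ⟨n, hn⟩ : ∃ g, g = LF ps := ⟨_, rfl⟩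
  obtain ⟨μl, hμl⟩ : ∃ g, g = μ * L := ⟨_, rfl⟩
  obtain ⟨s₀, hs₀⟩ : ∃ g, g = d₀ * L := ⟨_, rfl⟩
  have hγ0 : 0 < γ := by rw [hγ]; positivity
  have hκγ : 2000 * γ ≤ κ := by
    have := mul_le_mul_of_nonneg_right hK hL0.le
    rw [hγ, hκ]; linarith only [this]
  have hμγ : 1000 * γ ≤ μl := by
    have := mul_le_mul_of_nonneg_right hμ hL0.le
    rw [hγ, hμl]; linarith only [this]
  have hμlL : μl ≤ L := by rw [hμl]; exact mul_le_of_le_one_left hL0.le hμ1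
  have hs₀0 : 0 ≤ s₀ := by rw [hs₀]; positivity
  have hXc : X ^ c = Real.exp γ := by
    rw [Real.rpow_def_of_pos hX0, ← hL, hγ]; congr 1; ring
  have hXK : X ^ K = Real.exp κ := by
    rw [Real.rpow_def_of_pos hX0, ← hL, hκ]; congr 1; ring
  have hεL : ε * L ≤ γ := by
    rw [hγ]; exact mul_le_mul_of_nonneg_right hF.ec hL0.le
  have hn0 : 0 ≤ n := by rw [hn]; exact RG64.LF_nonneg hSb.z_nonneg
  have hnκ6 : 6 * n ≤ 5 * κ + 7 * γ := by
    have h1 := hF.n56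
    have h2 := hF.hi
    rw [← hL] at h1 h2
    rw [hn, hκ]
    linarith only [h1, h2, hεL]
  have hnκ : n ≤ κ := by linarith
  have hv0 := hF.v0
  have hv3 : 3 * Lv + 200 * γ ≤ 2 * κ := by
    have := hF.v3
    rw [← hL] at this
    rw [hγ, hκ]; linarith
  have hvn : Lv ≤ 2 * n + 20 * γ := by
    have := hF.vn
    rw [← hL] at this
    rw [hγ, hn]; linarith
  have hbL : Real.log cp + R + 20 ≤ γ := by
    have h1 : cp * Real.exp (R + 20) ≤ X ^ (c / 6) := hG2.trans hGX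
    have h2 := Real.log_le_log hcR h1
    rw [Real.log_mul hcp0.ne' (Real.exp_pos _).ne', Real.log_exp, Real.log_rpow hX0, ← hL] at h2
    have h3 : c / 6 * L = γ / 6 := by rw [hγ]; ring
    linarith
  have hlcp : 0 ≤ Real.log cp := Real.log_nonneg hcp
  have hγL : γ ≤ L := by rw [hγ]; exact mul_le_of_le_one_left hL0.le (by linarith only [hμ, hμ1, hc])
  obtain ⟨T, hT1, hT2, hT3⟩ := TC_of (n := n) (v := Lv) (κ := κ) (μl := μl) (Lm := 0)
  -- the data of the sequence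
  have hX16 : X ^ (c / 6) ≤ X := by
    calc X ^ (c / 6) ≤ X ^ (1 : ℝ) := Real.rpow_le_rpow_of_exponent_le hX1 (by linarith)
      _ = X := Real.rpow_one X
  have hGX1 : G ≤ X := hGX.trans hX16
  have hXb : X ≤ X ^ b := by
    calc X = X ^ (1 : ℝ) := (Real.rpow_one X).symm
      _ ≤ X ^ b := Real.rpow_le_rpow_of_exponent_le hX1 (by linarith)
  have hXb0 : 0 ≤ X ^ b := by positivity
  have hlenp : ps.length ≤ N := by rw [hSb.length]; exact hlen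
  obtain ⟨a1, a2, -, hFS⟩ := hXD (X ^ δ) (X ^ δ) (π lam) (hπ lam) q ps (rp (d₀ * Real.log X) ps)
    (zt (d₀ * Real.log X) ps) hlenp (by rw [rp_length]; exact hlenp) (LF_rp _ _)
    (norm_zt _ ps).le (X ^ b) (hG4.trans (hGX1.trans hXb)) (by
      calc Real.exp Rx * Real.exp (LF ps) ≤ X * Real.exp κ := by
            refine mul_le_mul (hG5.trans hGX1) (Real.exp_le_exp.2 (by rw [← hn]; exact hnκ))
              (Real.exp_pos _).le hX0.le
        _ = X ^ (1 + K) := by rw [Real.rpow_add hX0, Real.rpow_one, hXK]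
        _ ≤ X ^ b := Real.rpow_le_rpow_of_exponent_le hX1 (by linarith))
  have hα : ∀ m, xs q (X ^ δ) (X ^ δ) (π lam) h (d₀ * Real.log X) ps m ≠ 0 →
      m ∈ LS2.S (X ^ b) := a1
  clear a1 a2 hFS
  have hc02 : c₀ ≤ c₂ := by rw [hc₂]; linarith only [hK0]
  have hXc02 : X ^ c₀ ≤ X ^ c₂ := Real.rpow_le_rpow_of_exponent_le hX1 hc02
  have hTw := HT X hX1 hXt K ε d₀ c₂ hd₀ ps₀ hlen (fun q hq => (hs2 q hq).trans hXc02) hL3 ps Lv
    N₀ N₁ hF hSb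
  intro a' ha' t X' φ hX' hXX' hφ hφs K' b₁ e₁ hK' hb₁ he₁
  have hXX2 : |Real.log X' - n| ≤ R + 1 := by
    have h1 : |Real.log X' - Real.log (Real.exp (LF ps))| ≤ R + 1 := hXX'
    rwa [Real.log_exp, ← hn] at h1
  obtain ⟨hx1, hx2⟩ := abs_le.1 hXX2
  obtain ⟨κ', hk1, hk2, hk3⟩ : ∃ κ', κ - 7 * γ ≤ κ' ∧ κ' ≤ κ ∧ K' = Real.exp κ' := by
    rcases hK' with h1 | h1
    · refine ⟨κ, by linarith only [hγ0], le_rfl, ?_⟩
      rw [← hXK]; exact h1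
    · refine ⟨κ - 7 * γ, le_rfl, by linarith only [hγ0], ?_⟩
      have h2 : K' = X ^ K * Real.exp (-(7 * Real.log (X ^ c))) := h1
      rw [h2, hXc, Real.log_exp, hXK, ← Real.exp_add]
      congr 1
  subst hk3
  obtain ⟨k₁, hk₁⟩ : ∃ k, k = (Cw ^ 2 * (η⁻¹) ^ Jn) * (Ch * X ^ (2 * (ε / 2)) *
    (1 + |t|) ^ Jn * ((Ht ps * Ht (natl ps₀)) ^ M * Bd)) := ⟨_, rfl⟩
  obtain ⟨k₂, hk₂⟩ : ∃ k, k = (Cw ^ 2 * (η⁻¹) ^ Jn) * (Ch * X ^ (2 * (ε / 2)) *
    (1 + |t|) ^ Jn * Ht ps ^ 6) := ⟨_, rfl⟩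
  have hHt1 := one_le_Ht ps
  have hHt2 := one_le_Ht (natl ps₀)
  have hHH : 1 ≤ Ht ps * Ht (natl ps₀) := one_le_mul_of_one_le_of_one_le hHt1 hHt2
  have hHt0 : 0 < Ht ps := by linarith only [hHt1]
  have hHH0 : 0 < Ht ps * Ht (natl ps₀) := by linarith only [hHH]
  have hk₁0 : 0 ≤ k₁ := by rw [hk₁]; positivity
  have hk₂0 : 0 ≤ k₂ := by rw [hk₂]; positivity
  obtain ⟨bx, hbx⟩ : ∃ bx, bx = bX K c d₀ y (LF ps / Real.log X) (Lv / Real.log X) := ⟨_, rfl⟩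
  obtain ⟨b', hb'⟩ : ∃ b', b' = bx * L := ⟨_, rfl⟩
  have hbb : y * γ + (Lv + n - κ) / 3 - s₀ ≤ b' := by
    have h1 : y * c + (Lv / L + n / L - K) / 3 - d₀ ≤ bx := by
      rw [hbx, hn, hL]; exact le_max_right _ _
    have h2 := mul_le_mul_of_nonneg_right h1 hL0.le
    have h3 : (y * c + (Lv / L + n / L - K) / 3 - d₀) * L =
        y * γ + (Lv + n - κ) / 3 - s₀ := by
      rw [hγ, hκ, hs₀]; field_simp
    rw [← h3, hb']; exact h2
  -- (RH)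
  have hN5 := logN hF.N0 hF.N2 hF.N1
  have hRH : ∀ d e : Eis, IsPrim d → IsPrim e → (nm d : ℝ) ≤ Real.exp γ →
      (nm e : ℝ) ≤ Real.exp γ → ∀ jj : Bool, ∀ γ' ϖ : Eis, IsPrim γ' → IsPrim ϖ →
      (nm ϖ : ℝ) ≤ cp * Real.exp (z₀ * L) ^ 300 → ∀ P : ℝ, 0 < P →
      (nm γ' : ℝ) * n6 γ' ^ 2 * ∑ r ∈ (bl P).filter
        (Cls (ROX744.PrU (Eis.w ^ a'.1 * Eis.lam ^ a'.2)) jj),
        RMm ((Jn + 2 : ℕ) : ℝ) (fun k => bw φ a' t
          (xs q (X ^ δ) (X ^ δ) (π lam) h (d₀ * Real.log X) ps) (d * k)) e γ' ϖ r ≤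
      W2 a (cp * (X' * (Real.exp 1 * N₁) * Real.exp (20 * γ) / Real.exp κ'))
        (nmx (k₁ * Real.exp (T - n)) k₂
          (cp * (X' * (Real.exp 1 * N₁) * Real.exp (20 * γ) / Real.exp κ') * Real.exp γ)
          s₀ (Real.exp n) d e jj) P := by
    intro d e hd he hdX heX jj γ' ϖ hγ' hϖ hϖX P hP
    have hcX : Real.exp γ ≤ X ^ c₂ := by
      rw [← hXc]
      exact Real.rpow_le_rpow_of_exponent_le hX1 (by rw [hc₂]; linarith only [hK, hc, hc₀, hμ, hμ1])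
    have hP1 : 0 < cp * (X' * (Real.exp 1 * (N₁ : ℝ)) * Real.exp (20 * γ) / Real.exp κ') :=
      mul_pos hcp0 (div_pos (mul_pos (mul_pos hX' hN5.1) (Real.exp_pos _)) (Real.exp_pos _))
    have hP2 := num_P1 (cp := cp) (γ := γ) (κ := κ) (κ' := κ') (v := Lv) (n := n)
      (x := Real.log X') (R := R) (N := Real.exp 1 * N₁) hcp0 hN5.1.le hN5.2.2.1 hk1
      (by linarith only [hx2])
    rw [Real.exp_log hX'] at hP2
    have hPX2 : cp * (X' * (Real.exp 1 * (N₁ : ℝ)) * Real.exp (20 * γ) / Real.exp κ') ≤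
        X ^ c₂ := by
      refine hP2.trans ?_
      calc Real.exp (Real.log cp + n + R + 6 + Lv + 27 * γ - κ) ≤ Real.exp κ :=
            Real.exp_le_exp.2 (by linarith only [hbL, hnκ, hv3, hκγ, hγ0])
        _ = X ^ K := hXK.symm
        _ ≤ _ := Real.rpow_le_rpow_of_exponent_le hX1 (by rw [hc₂]; linarith only [hK0, hc₀])
    have hP81 := num_81 hcp0 hP1.le hP2 hμγ hγ0.le hbL
    have hμ2 : X ^ (2 * c / 2) = Real.exp γ := by
      rw [← hXc]; congr 1; ring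
    have hϖX2 : (nm ϖ : ℝ) ≤ X ^ (300 * z₀ + 1) := by
      refine hϖX.trans ?_
      calc cp * Real.exp (z₀ * L) ^ 300 ≤ X * Real.exp (z₀ * L) ^ 300 := by
            refine mul_le_mul_of_nonneg_right ?_ (by positivity)
            rw [← Real.exp_log hcp0]
            exact (Real.le_log_iff_exp_le hX0).1 (by rw [← hL]; linarith only [hbL, hγL, hR])
        _ = X ^ (300 * z₀ + 1) := by
            rw [Real.rpow_add hX0, Real.rpow_one, ← Real.exp_nat_mul, Real.rpow_def_of_pos hX0,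
              ← hL, mul_comm X]
            congr 2
            push_cast; ring
    have hLn2 : ∀ (t' : Bool) (l : ℝ) (ps' : List Pq), 0 ≤ l → l ≤ Lv + n - κ + μl →
        List.Forall₂ (Chd Dq hcost rh (Ch * X ^ (2 * c₂ + 2))) ps' (rbx d₀ t' X ps₀) →
        LL Dq ps' ≤ LF ps + ε / 2 * Real.log X →
        XPX241.RN (π lam) h l ps' ≤ Bd * cst hcost ps' (rbx d₀ t' X ps₀) ^ M *
          Real.exp (T - LF ps + LL Dq ps' - (Lv + n - κ + μl - l) / 3) := by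
      intro t' l ps' hl0 hl hch hLL
      have h1 := ln_r3 (T := T) (ε₂ := ε / 2) (r := rh) (bm := Ch * X ^ (2 * c₂ + 2)) hX3 hK0.le
        le_rfl (mul_le_mul_of_nonneg_right (by linarith only [hCF0] : Ch ≤ Ch + CF)
          (Real.rpow_nonneg hX0.le _)) hε.le (by linarith only [hε]) (by linarith only [hBd])
        (by
          rw [← hL, ← hn]
          have h2 : μ * L ≤ L := by rw [← hμl]; exact hμlL
          have h3 : TK K * L = 10 * κ + 10 * L := by unfold RGB545.TK; rw [hκ]; ring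
          rw [h3, ← hκ]
          linarith only [hnκ, hv3, hκγ, hγ0, h2, hL0])
        (by
          intro h0
          rw [← hL, ← hn, ← hκ, ← hμl] at h0 ⊢
          exact hT3 h0)
        (hLn t') l ps' hl0 (by rw [← hL, ← hn, ← hκ, ← hμl]; exact hl) hch hLL
      rw [← hL, ← hκ, ← hμl, ← hn] at h1
      rw [← hn]
      exact h1
    have key := HR X hX3 hXh (π lam) (hπ lam) (hnp lam) (hG3.trans (hGX1.trans (by
        calc X = X ^ (1 : ℝ) := (Real.rpow_one X).symm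
          _ ≤ X ^ c₂ := Real.rpow_le_rpow_of_exponent_le hX1 (by
              rw [hc₂]; linarith only [hK0, hc₀])))) ps₀ hlen
      (fun q hq => (hps₀ q hq).2.trans (mul_le_mul_of_nonneg_right hc02
        (by rw [← hL]; exact hL0.le))) q ps hq.ne_zero (hqX.trans hXc02) hSb d₀
      (d₀ * Real.log X) hd₀ (by rw [← hL, ← hs₀]; exact hs₀0) hTw (X ^ δ) δ hδ0 hδ1 hδN Bd T
      (Lv + n - κ + μl) hBd (by rw [← hn]; exact hT1) hLn2 Cw η Aw Jn hCw hη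
      (by linarith only [hη2]) hAw (by rw [hJ₀] at hJn; linarith only [hJn, hM])
      (by
        rw [hJ₀] at hJn
        have : (12 : ℝ) ≤ Jn := by linarith only [hJn, hM, hN2M]
        exact_mod_cast this)
      φ hφ a' (by have := (RGw813.mem_T9.1 ha').2; omega) t ((Jn + 2 : ℕ) : ℝ)
      (by push_cast; exact le_rfl) d e hd he (hdX.trans hcX) (heX.trans hcX) _ hP1 hPX2
      (by rw [hμ2]; exact hP81) jj γ' ϖ hγ' hϖ hϖX2 P hP
    rw [hμ2, ← hk₂, ← hn, ← hL, ← hs₀] at key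
    have ek : k₁ * Real.exp (T - n) = (Cw ^ 2 * (η⁻¹) ^ Jn) * (Ch * X ^ (2 * (ε / 2)) *
        (1 + |t|) ^ Jn * ((Ht ps * Ht (natl ps₀)) ^ M * Bd * Real.exp (T - n))) := by
      rw [hk₁]; ring
    rw [ek, ← hL, ← hs₀]
    exact key
  have hη1 : η ≤ 1 := by linarith only [hη2]
  have hadm : Adm (X ^ b) X' 1
      (bw φ a' t (xs q (X ^ δ) (X ^ δ) (π lam) h (d₀ * Real.log X) ps)) :=
    adm_mono hη1 (adm_bt hφs hα a' t)
  have hFSb : FS (bw φ a' t (xs q (X ^ δ) (X ^ δ) (π lam) h (d₀ * Real.log X) ps)) :=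
    FS_of_S hXb0 hadm.sup
  have hzz : κ + 14 * γ ≤ z₀ * L := by
    rw [hz₀, hκ, hγ]; exact le_of_eq (by ring)
  have hzε : z₀ * L * ε₁ ≤ γ / 12 := by
    rw [hε₁, hγ]; exact le_of_eq (by field_simp)
  have hbC : Cc * (1 + Cb) * cp ^ (1 / 3 : ℝ) ≤ Real.exp γ ^ (1 / 6 : ℝ) := by
    refine (hG1.trans hGX).trans (le_of_eq ?_)
    rw [← hXc, ← Real.rpow_mul hX0.le]; congr 1; ring
  have main := nro_x (w := w) (b := b₁) (e := e₁) (Nat.zero_le Jn) hε₁0 hcp hCc hCb ha HC HP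
    hγ0.le hk1 hk2 hv0 hv3
    hvn hn0 hnκ hκγ hR hμγ (by linarith only [hx1]) (by linarith only [hx2])
    (Real.exp_log hX').symm hF.N0 hF.N2 hF.N1 hzz hzε hbL hbC hXb0 (tw_ne a')
    (fun p hp => cop_tw a' hp) hadm hFSb hT2 hk₁0 hk₂0 hbb hy hRH
  rw [← hXc, ← hXK] at main
  refine main.trans (add_le_add le_rfl (mul_le_mul_of_nonneg_left (add_le_add le_rfl ?_) ?_))
  · show _ ≤ (X ^ K / Real.exp (LF ps)) *
      (((Ch + CF) * X ^ ε * (Ht ps * Ht (natl ps₀)) ^ J₀ *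
        (X ^ bX K c d₀ y (LF ps / Real.log X) (Lv / Real.log X) + Bd) * Real.exp (2 * LF ps) +
        (Ch + CF) * X ^ ε * X ^ (-(c / 2)) * (Ma + Ml)) * (1 + |t|) ^ Jn)
    have hEb : X ^ bX K c d₀ y (LF ps / Real.log X) (Lv / Real.log X) = Real.exp b' := by
      rw [Real.rpow_def_of_pos hX0, ← hbx, hb', ← hL]; congr 1; ring
    have hM6 : Ht ps ^ 6 ≤ (Ht ps * Ht (natl ps₀)) ^ J₀ := by
      calc Ht ps ^ 6 ≤ (Ht ps * Ht (natl ps₀)) ^ 6 :=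
            pow_le_pow_left₀ hHt0.le (le_mul_of_one_le_right hHt0.le hHt2) 6
        _ = (Ht ps * Ht (natl ps₀)) ^ ((6 : ℕ) : ℝ) := (Real.rpow_natCast _ _).symm
        _ ≤ _ := Real.rpow_le_rpow_of_exponent_le hHH (by
            rw [hJ₀]; push_cast; linarith only [hM, hN2M])
    have hMM : (Ht ps * Ht (natl ps₀)) ^ M ≤ (Ht ps * Ht (natl ps₀)) ^ J₀ :=
      Real.rpow_le_rpow_of_exponent_le hHH (by rw [hJ₀]; linarith only [hN2M])
    have hJ0' : 0 ≤ (Ht ps * Ht (natl ps₀)) ^ J₀ := Real.rpow_nonneg hHH0.le _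
    have hCC : 0 ≤ Ch + CF := by linarith only [hCh, hCF0]
    have hfin := fin_x (C := Ch + CF) (Xε := X ^ ε) (V := (1 + |t|) ^ Jn)
      (HM := (Ht ps * Ht (natl ps₀)) ^ M) (H6 := Ht ps ^ 6)
      (HJ := (Ht ps * Ht (natl ps₀)) ^ J₀) (Bd := Bd) (EbX := Real.exp b')
      (E2 := Real.exp (2 * n)) (M1 := (Ch + CF) * X ^ ε * X ^ (-(c / 2)) * (Ma + Ml)) hCF hW2
      (by linarith only [hCh]) (by linarith only [hCh]) (Real.rpow_nonneg hX0.le _)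
      (by positivity) hMM hM6 hJ0' (by linarith only [hBd]) (Real.exp_pos _).le
      (Real.exp_pos _).le (by
        have h1 : 0 ≤ X ^ ε := Real.rpow_nonneg hX0.le _
        have h2 : 0 ≤ X ^ (-(c / 2)) := Real.rpow_nonneg hX0.le _
        have h3 : 0 ≤ Ma + Ml := add_nonneg hMa hMl
        positivity)
    rw [hEb, ← hn]
    have hKn : 0 ≤ X ^ K / Real.exp n := div_nonneg (Real.rpow_nonneg hX0.le _) (Real.exp_pos _).le
    refine le_trans (le_of_eq ?_) (mul_le_mul_of_nonneg_left hfin hKn)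
    rw [hk₁, hk₂, show 2 * (ε / 2) = ε by ring]
    ring
  · exact inv_nonneg.2 (pow_nonneg (Real.rpow_nonneg hX0.le _) 3)

end Crest.Agent.R017.RoX116
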