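import Crest.Agent.R017.NOxi_116
import Crest.Agent.R017.NOz_126
import Crest.Agent.R017.NOxe_116
import Crest.Agent.R017.RoY_116

/-!
# Row 17, FlatNE, (Ro) at the near leaf, exceptional class (helper116): the R-half

* `rh_near` : (RH) of the windowed difference at the near leaf
-/

set_option autoImplicit false
set_option linter.unusedVariables false

noncomputable section

open Finset
open scoped Classical

namespace Crest.Agent.R017.RoX116

open Crest.Agent.R012 Crest.Agent.R012.Eis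
open Crest.Agent.R012.MC (Wgt)
open Crest.Agent.R012.LS2 (S mem_S bl mem_bl)
open Crest.Agent.R012.Weight600 (pw)
open Crest.Agent.R017.FE47 (PU)
open Crest.Agent.R017.B770
open Crest.Agent.R017.Prov71
open Crest.Agent.R017.Leg381 (Pf alF LF natl)
open Crest.Agent.R017.PX764 (n6)
open Crest.Agent.R017.PoHx72 (Cls)
open Crest.Agent.R017.R3571 (RMm W2)
open Crest.Agent.R017.RGw813 (T9)
open Crest.Agent.R017.Win813 (WK)
open Crest.Agent.R017.QsO83 (bw)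
open Crest.Agent.R017.RHX116 (nmx RHx_leafe)
open Crest.Agent.R017.Sup271 (NPm)
open Crest.Agent.R017.XP699 (LL Chd hcost cst)
open Crest.Agent.R017.RG64 (SbL Ht one_le_Ht)
open Crest.Agent.R017.RGB545 (Line Th TK rbx hC)
open Crest.Agent.R017.RX298 (xs NNumX)
open Crest.Agent.R017.RXk848 (LnP Lmp)
open Crest.Agent.R017.NEg551 (NNum NFacts)
open Crest.Agent.R017.NE73 (gN)
open Crest.Agent.R017.NOt126 (F3n)
open Crest.Agent.R017.NO64 (mm sg TTe nf_facts)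

set_option maxHeartbeats 3200000 in
/-- **(RH) at the near leaf**, exceptional class -/
theorem rh_near {Lam ι : Type*} {p : ℕ} {π : Lam → DPar} {h : ℝ → ℝ} {c₁ : ℝ} (hpu : PU h c₁)
    (hπ : ∀ lam, (π lam).OK) (hnp : ∀ lam, ¬ NPm (π lam).n (π lam).ψ (π lam).l₂ 1)
    {L : ι → Line Lam p} {j : ι} {K v c c' e₁ d μ : ℝ} (HL : RonX π h (hC c') μ c (L j))
    (hc : 0 < c) (hcc : 30 * c ≤ c') (hcc2 : c' ≤ 40 * c) (hcK : 1000000 * c ≤ K)
    (hμ0 : 2000 * c ≤ μ) (hμ1 : 100 * μ ≤ K) (hd : 0 ≤ d) (lam : Lam) (N : ℕ) {c₀ c₂ ε M : ℝ}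
    (hc₀ : 1 ≤ c₀) (hc₂ : c₀ + 10 * K + 10 ≤ c₂) (hε : 0 < ε) (hM : 0 ≤ M) :
    ∃ a : ℕ, 1 ≤ a ∧ ∀ (δ : ℝ) (Jn Aw : ℕ) (Cw R η S cp : ℝ), 0 ≤ δ → δ ≤ 1 →
      3 * (N : ℝ) * δ ≤ ε / 8 → (N : ℝ) ^ 2 * M + M + 12 ≤ Jn → Jn + 2 ≤ Aw → 0 ≤ Cw → 0 ≤ R →
      0 < η → η ≤ 1 / 2 → 0 ≤ S → 1 ≤ cp →
    ∃ C r X₁ : ℝ, 1 ≤ C ∧ 0 ≤ r ∧ ∀ X : ℝ, 3 ≤ X → X₁ ≤ X → ∀ ps₀ : List Pq, ps₀.length ≤ N →
    (∀ q ∈ ps₀, 0 ≤ Dq.len q ∧ Dq.len q ≤ c₀ * Real.log X) → (∀ q ∈ ps₀, Dq.s2 q ≤ X ^ c₀) →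
    NNum K v c ε X ps₀ → NNumX K v c e₁ d ε X ps₀ → Lmp ((d + 3 / 2 * c) * Real.log X) ps₀ →
    ∀ (q : Eis) (ps : List Pf) (Lv : ℝ) (N₁ : ℕ),
    NFacts K v (gN K c (LL Dq ps₀ / Real.log X)) ε X ps₀ ps Lv N₁ →
    IsPrim q → (nm q : ℝ) ≤ X ^ c₀ → SbL S ps ps₀ → ∀ Bd r' bm : ℝ, 1 ≤ Bd → r ≤ r' →
    C * X ^ (2 * c₂ + 2) ≤ bm →
    (∀ t : Bool, LnP L lam K ε M r' bm X (LF ps / Real.log X) (Lv / Real.log X) Bd
      (rbx d t X ps₀)) →
    ∀ hv : ℝ, hv = hC c' K (Lv / Real.log X) (LF ps / Real.log X) →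
    ∀ a' ∈ T9, ∀ (t X' : ℝ) (φ : ℝ → ℝ), 0 < X' → |Real.log X' - LF ps| ≤ R + 1 →
    WK Cw η Aw φ → ∀ (γ k₁ k₂ κ n : ℝ), γ = ε / 4 * Real.log X → κ = K * Real.log X → n = LF ps →
    k₁ = (Cw ^ 2 * (η⁻¹) ^ Jn) * (C * X ^ (2 * (ε / 8)) * (1 + |t|) ^ Jn *
      ((Ht ps * Ht (natl ps₀)) ^ M * Bd)) →
    k₂ = (Cw ^ 2 * (η⁻¹) ^ Jn) * (C * X ^ (2 * (ε / 8)) * (1 + |t|) ^ Jn * Ht ps ^ 6) →
    ∀ d' e' : Eis, IsPrim d' → IsPrim e' → Real.log (nm d' * nm e') ≤ κ / 15 → ∀ jj : Bool,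
    ∀ γ' ϖ : Eis, IsPrim γ' → IsPrim ϖ →
    (nm ϖ : ℝ) ≤ cp * Real.exp ((3 * K + 1) * Real.log X) ^ 300 → ∀ P : ℝ, 0 < P →
      (nm γ' : ℝ) * n6 γ' ^ 2 * ∑ r ∈ (bl P).filter
        (Cls (ROX744.PrU (Eis.w ^ a'.1 * Eis.lam ^ a'.2)) jj),
        RMm ((Jn + 2 : ℕ) : ℝ) (fun k => bw φ a' t
          (xs q (X ^ δ) (X ^ δ) (π lam) h (d * Real.log X) ps) (d' * k)) e' γ' ϖ r ≤
      W2 a (cp * (X' * (Real.exp 1 * N₁) * Real.exp (Real.log X * hv) / Real.exp κ))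
        (nme (k₁ * Real.exp (TTe K μ c (ε / 8) (Real.log X) Lv n hv - n)) k₂
          (cp * (X' * (Real.exp 1 * N₁) * Real.exp (Real.log X * hv) / Real.exp κ) *
            Real.exp (2 * γ / 2))
          (d * Real.log X - max 0 (LL Dq ps₀ - LF ps)) (Real.exp n) d' e' jj) P := by
  have hK : 0 < K := by linarith
  obtain ⟨a, ha, HR⟩ := RHx_leafe hpu N (c₀ := c₂) (m₀ := 300 * (3 * K + 1) + 1) (μ := ε / 2)
    (M := M) (by linarith) (by linarith) (by linarith) hM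
  refine ⟨a, ha, ?_⟩
  intro δ Jn Aw Cw R η S cp hδ0 hδ1 hδN hJn hAw hCw hR hη hη2 hS hcp
  obtain ⟨Ch, rh, Xh, hCh, hrh, HR⟩ := HR (ε / 8) S (by positivity) hS
  have hcp0 : 0 < cp := by linarith
  have hlcp : 0 ≤ Real.log cp := Real.log_nonneg hcp
  refine ⟨Ch, rh, max (max (max Xh cp) (nm (π lam).n)) (max (Real.exp (N * S / c))
    (Real.exp ((Real.log cp + R + 20) / c))), hCh, hrh, ?_⟩
  intro X hX3 hXX ps₀ hlen hz hs2 hnum hnx hlmp q ps Lv N₁ hF hq hqX hps Bd r' bm hBd hr' hbm hLn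
    hv hhv a' ha' t X' φ hX' hXX' hφ γ k₁ k₂ κ n hγ hκ hn hk₁ hk₂ d' e' hd' he' hde jj γ' ϖ hγ'
    hϖ hϖX P hP
  have hX0 : 0 < X := by linarith
  have hX1 : 1 ≤ X := by linarith
  have hXh : Xh ≤ X :=
    (le_max_left _ _).trans ((le_max_left _ _).trans ((le_max_left _ _).trans hXX))
  have hXcp : cp ≤ X :=
    (le_max_right _ _).trans ((le_max_left _ _).trans ((le_max_left _ _).trans hXX))
  have hXn : (nm (π lam).n : ℝ) ≤ X := (le_max_right _ _).trans ((le_max_left _ _).trans hXX)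
  have hA1 := (le_max_left _ _).trans ((le_max_right _ _).trans hXX)
  have hA2 := (le_max_right _ _).trans ((le_max_right _ _).trans hXX)
  rw [← Real.le_log_iff_exp_le hX0, div_le_iff₀ hc] at hA1 hA2
  have hL0 : 0 < Real.log X := Real.log_pos (by linarith)
  have nf := nf_facts hX3 hε hnum hF
  have hgd := JBX320.g_le_dx hX3 hK.le hc.le hnum hnx
  have hlo := hF.lo
  have hN1' := hF.N1
  have hN0' := hF.N0
  have hec := hnum.ec
  have n0 := nf.n0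
  have n1 := nf.n1
  have nv := nf.nv
  have v0 := nf.v0
  have nt := nf.nt
  clear nf
  rw [← hn, ← hκ] at n0
  rw [← hn, ← hκ] at n1
  rw [← hn, ← hκ] at nv
  rw [← hn, ← hκ] at nt
  rw [← hn] at hXX'
  obtain ⟨Lx, hL⟩ : ∃ Lx, Lx = Real.log X := ⟨_, rfl⟩
  obtain ⟨y, hy⟩ : ∃ y, y = max 0 (LL Dq ps₀ - LF ps) := ⟨_, rfl⟩
  have hy0 : 0 ≤ y := by rw [hy]; exact le_max_left _ _
  have hy1 : LL Dq ps₀ - LF ps ≤ y := by rw [hy]; exact le_max_right _ _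
  have hdL : 0 ≤ d * Real.log X := by positivity
  have hyd : y ≤ d * Real.log X := by rw [hy]; exact max_le hdL (by linarith)
  rw [← hy]
  have hXc02 : X ^ c₀ ≤ X ^ c₂ := Real.rpow_le_rpow_of_exponent_le hX1 (by linarith)
  have hTw : ExD791.Tw (d * Real.log X) (d * Real.log X - y) (X ^ c₂) ps := by
    refine tw_near hd hX1 hS hy0 ?_ (fun q hq => (hs2 q hq).trans hXc02) hlmp hy1 hps
    have h2 : (ps₀.length : ℝ) * S ≤ N * S :=
      mul_le_mul_of_nonneg_right (by exact_mod_cast hlen) hS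
    linarith
  have hXX1 : X ≤ X ^ c₂ := by
    calc X = X ^ (1 : ℝ) := (Real.rpow_one X).symm
      _ ≤ X ^ c₂ := Real.rpow_le_rpow_of_exponent_le hX1 (by linarith)
  -- numbers
  have hκ0 : 0 < κ := by rw [hκ]; positivity
  have hcL : 1000000 * (c * Lx) ≤ κ := by
    have := mul_le_mul_of_nonneg_right hcK hL0.le
    rw [hκ, hL]; linarith
  have hccL : 30 * (c * Lx) ≤ c' * Lx := by
    have := mul_le_mul_of_nonneg_right hcc hL0.le
    rw [hL]; linarith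
  have hcc2L : c' * Lx ≤ 40 * (c * Lx) := by
    have := mul_le_mul_of_nonneg_right hcc2 hL0.le
    rw [hL]; linarith
  have hμ0L : 2000 * (c * Lx) ≤ μ * Lx := by
    have := mul_le_mul_of_nonneg_right hμ0 hL0.le
    rw [hL]; linarith
  have hμ1L : 100 * (μ * Lx) ≤ κ := by
    have := mul_le_mul_of_nonneg_right hμ1 hL0.le
    rw [hκ, hL]; linarith
  have hεL : ε * Lx ≤ c * Lx := by
    rw [hL]; exact mul_le_mul_of_nonneg_right hec hL0.le
  have hL0' : 0 < Lx := by rw [hL]; exact hL0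
  have hεL0 : 0 < ε * Lx := by positivity
  have hcL0 : 0 < c * Lx := by positivity
  rw [← hL] at n0 n1 hhv hA1 hA2
  rw [← hn] at hhv
  obtain ⟨F, hFd⟩ : ∃ F, F = F3n κ n := ⟨_, rfl⟩
  have hF0 : 0 ≤ F := by rw [hFd]; exact le_max_left _ _
  have hF1 : F ≤ (4 * n - 3 * κ) / 9 + 4 / 9 * (c * Lx) := by
    rw [hFd]; unfold NOt126.F3n
    exact max_le (by linarith) (by linarith)
  have hLhv : Lx * hv = 3 * F + 3 * (c' * Lx) := by
    rw [hhv, hFd]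
    unfold RGB545.hC NOt126.F3n
    have e1 : Lx * max 0 ((4 * (n / Lx) - 3 * K) / 9) = max 0 ((4 * n - 3 * κ) / 9) := by
      rw [mul_max_of_nonneg _ _ hL0'.le, mul_zero, hκ, ← hL]
      congr 1
      field_simp
    rw [← e1]
    ring
  obtain ⟨D', hD'⟩ : ∃ D', D' = Real.log ((nm d' : ℝ) * nm e') := ⟨_, rfl⟩
  have hd1 : (1 : ℝ) ≤ nm d' := by exact_mod_cast nm_pos.2 hd'.ne_zero
  have he1 : (1 : ℝ) ≤ nm e' := by exact_mod_cast nm_pos.2 he'.ne_zero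
  have hD0 : 0 ≤ D' := by
    rw [hD']; exact Real.log_nonneg (one_le_mul_of_one_le_of_one_le hd1 he1)
  rw [← hD'] at hde
  obtain ⟨Im, hIm⟩ : ∃ Im, Im = Lv + n + Lx * hv - κ + μ * Lx := ⟨_, rfl⟩
  obtain ⟨m1, m2, m3, m4⟩ := mm_scale (K := K) (v := Lv) (n := n) (hv := hv) hL0'
  have hT1 : n ≤ TTe K μ c (ε / 8) Lx Lv n hv - 2 / 3 * D' := by
    have h1 := nx_T (κ := κ) (n := n) (v := Lv) (F := F) (c := c * Lx) (c' := c' * Lx)
      (μ := μ * Lx) (h := Lx * hv) (m := Lx * mm K (Lv / Lx) (n / Lx) hv) (D' := D')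
      (x0 := 0) (δD := 0) hcL0.le hccL hcc2L hcL hμ1L n0 n1 nv v0 (by linarith) hF0 hF1 hLhv
      (by rw [show κ = K * Lx by rw [hκ, hL]]; exact m4) hde
      (sg := sg K μ c (ε / 8) Lx n)
      (by
        unfold NO64.sg
        rw [show K * Lx = κ by rw [hκ, hL], ← hFd]
        linarith)
    unfold NO64.TTe
    rw [show K * Lx = κ by rw [hκ, hL]]
    linarith
  -- the level
  obtain ⟨c1, c2, c3, c4, c5, c6, c7, c8, c9, c10, c11, c12, c13⟩ := nx_num (κ := κ) (n := n)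
    (v := Lv) (F := F) (c := c * Lx) (c' := c' * Lx) (μ := μ * Lx) (γ := γ) (x0 := 0) (e1 := 0)
    (b1 := 0) (δD := 0) (h := Lx * hv) (s := c * Lx) hcL0.le hccL hcc2L hcL hμ0L hμ1L n0 n1 nv v0
    (by linarith) (by linarith) hF0 hF1 (by linarith) (by linarith) (by linarith) hLhv le_rfl
    (by linarith)
  have hIK : Im ≤ TK K * Real.log X := by
    have e1 : TK K * Real.log X = 10 * κ + 10 * Real.log X := by unfold RGB545.TK; rw [hκ]; ring
    rw [e1, hIm]; linarith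
  have hLn2 : ∀ (t' : Bool) (l : ℝ) (ps' : List Pq), 0 ≤ l → l ≤ Im →
      List.Forall₂ (Chd Dq hcost rh (Ch * X ^ (2 * c₂ + 2))) ps' (rbx d t' X ps₀) →
      LL Dq ps' ≤ LF ps - D' + ε / 8 * Real.log X →
      XPX241.RN (π lam) h l ps' ≤ Bd * cst hcost ps' (rbx d t' X ps₀) ^ M *
        Real.exp (TTe K μ c (ε / 8) Lx Lv n hv - 2 / 3 * D' - LF ps + LL Dq ps' -
          (Im - l) / 3) := by
    intro t' l ps' hl0 hl hch hLL
    have h1 := ronx_of (D' := D') (Im := Im) (hv := hv) (ε₁ := ε / 8) HL hX3 hK (by linarith)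
      (by linarith) hr' hbm (by linarith) (hLn t')
      (by rw [hhv, hL, hn]) (by rw [hIm, hn, hκ, hL]) hIK hD0
      (by rw [← hκ]; exact hde) hl0 hl hch hLL
    rw [← hL, ← hn] at h1
    rw [← hn]
    exact h1
  -- P1
  obtain ⟨P1, hP1⟩ : ∃ P1, P1 = cp * (X' * (Real.exp 1 * (N₁ : ℝ)) * Real.exp (Lx * hv) /
    Real.exp κ) := ⟨_, rfl⟩
  have hN0 : (0 : ℝ) < N₁ := (Real.exp_pos _).trans_le hN0'
  have hP10 : 0 < P1 := by rw [hP1]; positivity
  obtain ⟨hx1, hx2⟩ := abs_le.1 hXX'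
  have hP1e : P1 ≤ Real.exp (Real.log cp + (n + R + 1) + (Lv + 5) + Lx * hv - κ) := by
    have b1 : X' ≤ Real.exp (n + R + 1) := by
      rw [← Real.log_le_iff_le_exp hX']; linarith
    have b2 : Real.exp 1 * (N₁ : ℝ) ≤ Real.exp (Lv + 5) := by
      have : Real.exp (Lv + 5) = Real.exp 1 * Real.exp (Lv + 4) := by
        rw [← Real.exp_add]; congr 1; ring
      rw [this]
      refine mul_le_mul_of_nonneg_left ?_ (Real.exp_pos _).le
      linarith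
    rw [hP1]
    calc cp * (X' * (Real.exp 1 * (N₁ : ℝ)) * Real.exp (Lx * hv) / Real.exp κ) ≤
          cp * (Real.exp (n + R + 1) * Real.exp (Lv + 5) * Real.exp (Lx * hv) /
            Real.exp κ) := by gcongr
      _ = Real.exp (Real.log cp) * (Real.exp (n + R + 1) * Real.exp (Lv + 5) *
            Real.exp (Lx * hv) / Real.exp κ) := by rw [Real.exp_log hcp0]
      _ = _ := by
          rw [← Real.exp_add, ← Real.exp_add, ← Real.exp_sub, ← Real.exp_add]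
          congr 1; ring
  have hXexp : ∀ z : ℝ, X ^ z = Real.exp (z * Lx) := fun z => by
    rw [Real.rpow_def_of_pos hX0, hL, mul_comm]
  have hc₂L : c₀ * Lx + 10 * κ + 10 * Lx ≤ c₂ * Lx := by
    have := mul_le_mul_of_nonneg_right hc₂ hL0'.le
    have e1 : κ = K * Lx := by rw [hκ, hL]
    rw [e1]; linarith
  have hc₀L : 0 ≤ c₀ * Lx := by positivity
  have hP1X : P1 ≤ X ^ c₂ := by
    refine hP1e.trans ?_
    rw [hXexp]
    refine Real.exp_le_exp.2 ?_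
    linarith
  have hμ2 : X ^ (ε / 2 / 2) = Real.exp (2 * γ / 2) := by
    rw [hXexp, hγ, ← hL]; congr 1; ring
  have hP81 : 81 * P1 * X ^ (ε / 2 / 2) ≤ Real.exp Im := by
    have b1 : (81 : ℝ) ≤ Real.exp 5 := by
      have h2 : (2.7 : ℝ) ≤ Real.exp 1 := by
        have := Real.exp_one_gt_d9
        linarith
      calc (81 : ℝ) ≤ 2.7 ^ 5 := by norm_num
        _ ≤ (Real.exp 1) ^ 5 := by gcongr
        _ = Real.exp 5 := by rw [← Real.exp_nat_mul]; congr 1; norm_num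
    rw [hXexp]
    calc 81 * P1 * Real.exp (ε / 2 / 2 * Lx) ≤
          Real.exp 5 * Real.exp (Real.log cp + (n + R + 1) + (Lv + 5) + Lx * hv - κ) *
            Real.exp (ε / 2 / 2 * Lx) := by gcongr
      _ = Real.exp (5 + (Real.log cp + (n + R + 1) + (Lv + 5) + Lx * hv - κ) +
            ε / 2 / 2 * Lx) := by rw [← Real.exp_add, ← Real.exp_add]
      _ ≤ _ := by
          refine Real.exp_le_exp.2 ?_
          rw [hIm]
          have : ε / 2 / 2 * Lx = (ε * Lx) / 4 := by ring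
          linarith
  have hϖX2 : (nm ϖ : ℝ) ≤ X ^ (300 * (3 * K + 1) + 1) := by
    refine hϖX.trans ?_
    rw [hXexp, ← hL]
    calc cp * Real.exp ((3 * K + 1) * Lx) ^ 300 ≤
          Real.exp Lx * Real.exp ((3 * K + 1) * Lx) ^ 300 := by
            refine mul_le_mul_of_nonneg_right ?_ (by positivity)
            rw [hL, Real.exp_log hX0]
            exact hXcp
      _ = _ := by
          rw [← Real.exp_nat_mul, ← Real.exp_add]
          congr 1; push_cast; ring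
  have hdX : (nm d' : ℝ) ≤ X ^ c₂ := by
    have h1 : (nm d' : ℝ) ≤ Real.exp D' := by
      rw [hD', Real.exp_log (by positivity)]
      exact le_mul_of_one_le_right (by linarith) he1
    refine h1.trans ?_
    rw [hXexp]
    exact Real.exp_le_exp.2 (by linarith)
  have heX : (nm e' : ℝ) ≤ X ^ c₂ := by
    have h1 : (nm e' : ℝ) ≤ Real.exp D' := by
      rw [hD', Real.exp_log (by positivity)]
      exact le_mul_of_one_le_left (by linarith) hd1
    refine h1.trans ?_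
    rw [hXexp]
    exact Real.exp_le_exp.2 (by linarith)
  have key := HR X hX3 hXh (π lam) (hπ lam) (hnp lam) (hXn.trans hXX1) ps₀ hlen
    (fun q hq => (hz q hq).2.trans (mul_le_mul_of_nonneg_right (by linarith) hL0.le)) q ps
    hq.ne_zero (hqX.trans hXc02) hps d (d * Real.log X - y) hd (by linarith) hTw (X ^ δ) δ hδ0
    hδ1 hδN Bd (TTe K μ c (ε / 8) Lx Lv n hv - 2 / 3 * D') Im D' hBd (by rw [← hn]; exact hT1)
    hLn2 Cw η Aw Jn hCw hη (by linarith) hAw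
    (by linarith) (by
      have hN2M : 0 ≤ (N : ℝ) ^ 2 * M := by positivity
      have : (12 : ℝ) ≤ Jn := by linarith
      exact_mod_cast this)
    φ hφ a' (by have := (RGw813.mem_T9.1 ha').2; omega) t ((Jn + 2 : ℕ) : ℝ)
    (by push_cast; exact le_rfl) d' e' hd' he' hdX heX (by rw [hD']) P1 hP10 hP1X hP81 jj γ' ϖ
    hγ' hϖ hϖX2 P hP
  rw [hμ2, ← hk₂, ← hn] at key
  rw [← hL, ← hP1]
  have ek : k₁ * Real.exp (TTe K μ c (ε / 8) Lx Lv n hv - n) *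
      ((nm d' : ℝ) ^ (-(2 / 3) : ℝ) * (nm e' : ℝ) ^ (-(2 / 3) : ℝ)) =
      (Cw ^ 2 * (η⁻¹) ^ Jn) * (Ch * X ^ (2 * (ε / 8)) * (1 + |t|) ^ Jn *
        ((Ht ps * Ht (natl ps₀)) ^ M * Bd *
          Real.exp (TTe K μ c (ε / 8) Lx Lv n hv - 2 / 3 * D' - n))) := by
    have e1 : Real.exp (TTe K μ c (ε / 8) Lx Lv n hv - 2 / 3 * D' - n) =
        Real.exp (TTe K μ c (ε / 8) Lx Lv n hv - n) *
          ((nm d' : ℝ) ^ (-(2 / 3) : ℝ) * (nm e' : ℝ) ^ (-(2 / 3) : ℝ)) := by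
      rw [← Real.mul_rpow (by linarith) (by linarith), Real.rpow_def_of_pos (by positivity),
        ← hD', ← Real.exp_add]
      congr 1; ring
    rw [e1, hk₁]; ring
  unfold nme
  rw [ek, hL]
  rw [hL] at key
  exact key

end Crest.Agent.R017.RoX116
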