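import Crest.Agent.R017.NOxj_116

/-!
# Row 17, FlatNE, (Ro) at the near leaf, exceptional class (helper116): the leaf

* **`nos_leafX0`** : `NLeafX` for `NumOs` at `K`, cut `B / E0`
-/

set_option autoImplicit false
set_option linter.unusedVariables false

noncomputable section

open Finset
open scoped Classical

namespace Crest.Agent.R017.RoX116

open Crest.Agent.R012 Crest.Agent.R012.Eis
open Crest.Agent.R012.MC (Wgt)
open Crest.Agent.R012.LS2 (S mem_S bl mem_bl)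
open Crest.Agent.R012.Weight600 (pw)
open Crest.Agent.R017.FE47 (PU)
open Crest.Agent.R017.B770
open Crest.Agent.R017.Prov71
open Crest.Agent.R017.Leg381 (Pf alF LF natl)
open Crest.Agent.R017.C70 (JC OKJ JW okJ_JW)
open Crest.Agent.R017.CM106 (CS FS)
open Crest.Agent.R017.E1551 (Adm)
open Crest.Agent.R017.E3A164 (Ys Fy)
open Crest.Agent.R017.E3M829 (Sg Tal W0 exists_W0)
open Crest.Agent.R017.PX764 (n6)
open Crest.Agent.R017.PoHx72 (Cls)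
open Crest.Agent.R017.R3571 (RMm W2)
open Crest.Agent.R017.LBo813 (Om)
open Crest.Agent.R017.I1146 (omr)
open Crest.Agent.R017.RGw813 (bt T9 adm_bt FS_of_S)
open Crest.Agent.R017.LBx48 (adm_mono)
open Crest.Agent.R017.Win813 (WK)
open Crest.Agent.R017.QsO83 (bw)
open Crest.Agent.R017.Sup271 (NPm)
open Crest.Agent.R017.XP699 (LL Chd hcost cst)
open Crest.Agent.R017.RG64 (SbL Ht one_le_Ht)
open Crest.Agent.R017.RGB545 (Line Th TK rbx hC)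
open Crest.Agent.R017.RX298 (xs rp LF_rp rp_length XDp exists_XDp zt norm_zt NLeafX NNumX)
open Crest.Agent.R017.RXk848 (LnP Lmp)
open Crest.Agent.R017.NEg551 (NNum NFacts)
open Crest.Agent.R017.NE73 (gN)
open Crest.Agent.R017.NOt126 (F3n leafT_X)
open Crest.Agent.R017.NO64 (mm sg TTe nf_facts)
open Crest.Agent.R017.NE499 (NumOs)

/-- the arithmetic of the final comparison -/
lemma fin_n {g T1 T2 R1 CT W' Ch x2 x4 a8 HM H6 HT HJ Bd V U Xe : ℝ} (hg : 0 ≤ g)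
    (hCT : 0 ≤ CT) (hW : 0 ≤ W') (hCh : 0 ≤ Ch) (hx2 : 0 ≤ x2) (hx4 : 0 ≤ x4) (ha : 0 ≤ a8)
    (hHM : 0 ≤ HM) (hH6 : 0 ≤ H6) (hHT : 0 ≤ HT) (hBd : 1 ≤ Bd) (hV : 0 ≤ V) (hU : 0 ≤ U)
    (hT1 : T1 ≤ (CT * x2 * HT * Bd * V) * U) (hT2 : T2 ≤ a8 * ((CT * x2 * HT * Bd * V) * U))
    (hR1 : R1 ≤ (W' * (Ch * x4 * V * (HM * Bd)) + W' * (Ch * x4 * V * H6)) * U)
    (h1 : HT ≤ HJ) (h2 : HM ≤ HJ) (h3 : H6 ≤ HJ) (hg2 : g * x2 ≤ Xe) (hg4 : g * x4 ≤ Xe) :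
    g * (T1 + T2 + R1) ≤ (((1 + a8) * CT + 2 * (W' * Ch)) * Xe * HJ * Bd * V) * U := by
  have hHJ : 0 ≤ HJ := hHT.trans h1
  have hXe : 0 ≤ Xe := (mul_nonneg hg hx2).trans hg2
  have hBd0 : 0 ≤ Bd := by linarith
  have b1 : g * ((CT * x2 * HT * Bd * V) * U) ≤ CT * Xe * HJ * Bd * V * U := by
    calc g * ((CT * x2 * HT * Bd * V) * U) = CT * (g * x2) * HT * Bd * V * U := by ring
      _ ≤ _ := by gcongr
  have b2 : g * (W' * (Ch * x4 * V * (HM * Bd)) * U) ≤ (W' * Ch) * Xe * HJ * Bd * V * U := by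
    calc g * (W' * (Ch * x4 * V * (HM * Bd)) * U) = (W' * Ch) * (g * x4) * HM * Bd * V * U := by
          ring
      _ ≤ _ := by gcongr
  have b3 : g * (W' * (Ch * x4 * V * H6) * U) ≤ (W' * Ch) * Xe * HJ * Bd * V * U := by
    calc g * (W' * (Ch * x4 * V * H6) * U) = (W' * Ch) * (g * x4) * H6 * 1 * V * U := by ring
      _ ≤ _ := by gcongr
  calc g * (T1 + T2 + R1) ≤ g * ((CT * x2 * HT * Bd * V) * U +
        a8 * ((CT * x2 * HT * Bd * V) * U) +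
        (W' * (Ch * x4 * V * (HM * Bd)) + W' * (Ch * x4 * V * H6)) * U) :=
        mul_le_mul_of_nonneg_left (by linarith) hg
    _ = g * ((CT * x2 * HT * Bd * V) * U) + a8 * (g * ((CT * x2 * HT * Bd * V) * U)) +
        g * (W' * (Ch * x4 * V * (HM * Bd)) * U) + g * (W' * (Ch * x4 * V * H6) * U) := by ring
    _ ≤ CT * Xe * HJ * Bd * V * U + a8 * (CT * Xe * HJ * Bd * V * U) +
        (W' * Ch) * Xe * HJ * Bd * V * U + (W' * Ch) * Xe * HJ * Bd * V * U := by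
        gcongr
    _ = _ := by ring

set_option maxHeartbeats 3200000 in
/-- **(Ro) at the near leaf**, exceptional class -/
theorem nos_leafX0 {Lam ι : Type*} {p : ℕ} {π : Lam → DPar} {h : ℝ → ℝ} {c₁ : ℝ} (hPX : PairX)
    (hpu : PU h c₁)
    (hπ : ∀ lam, (π lam).OK) (hnp : ∀ lam, ¬ NPm (π lam).n (π lam).ψ (π lam).l₂ 1)
    {w : ℝ → ℝ} (hw : Wgt w) (hw0 : ∀ x, 0 ≤ w x)
    {L : ι → Line Lam p} {j : ι} {K v c c' e₁ d μ : ℝ} {φ₀ φ₁ φβ : ℝ → ℝ → ℝ → ℝ}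
    (HL : RonX π h (hC c') μ c (L j))
    (hc : 0 < c) (hcc : 30 * c ≤ c') (hcc2 : c' ≤ 40 * c) (hcK : 1000000 * c ≤ K)
    (hμ0 : 2000 * c ≤ μ) (hμ1 : 100 * μ ≤ K) (hd : 0 ≤ d)
    (h0 : ∀ a u m, 0 ≤ φ₀ a u m ∧ φ₀ a u m ≤ 4 / 9 * max 0 ((4 * m - 3 * K) / 9) + 10 * c)
    (h1 : ∀ a u m, 0 ≤ φ₁ a u m ∧ φ₁ a u m ≤ max 0 ((4 * m - 3 * K) / 9) + 20 * c)
    (h2 : ∀ a u m, 0 ≤ φβ a u m - φ₀ a u m ∧
      φβ a u m - φ₀ a u m ≤ max 0 ((4 * m - 3 * K) / 9) + 21 * c) :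
    NLeafX π h (fun q α Rn => NumOs w q.Cw q.η q.Aw q.K q.X q.K q.R q.J q.D q.E0 q.E1
      (q.B / q.E0) (q.N₁ / 2) q.N₁ α Rn) L φ₀ φ₁ φβ K v c e₁ d := by
  intro lam N c₀ hc₀
  have hK : 0 < K := by linarith
  obtain ⟨c₂, hc₂⟩ : ∃ c₂, c₂ = c₀ + 10 * K + 10 := ⟨_, rfl⟩
  refine ⟨2 * c₂ + 2, by rw [hc₂]; linarith, ?_⟩
  intro ε M hε hM
  have hN0 : (0 : ℝ) ≤ N := Nat.cast_nonneg N
  have hN2M : 0 ≤ (N : ℝ) ^ 2 * M := by positivity
  obtain ⟨a, ha, HR⟩ := rh_near (v := v) (e₁ := e₁) hpu hπ hnp HL hc hcc hcc2 hcK hμ0 hμ1 hd lam N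
    (c₂ := c₂) hc₀ hc₂.ge hε hM
  obtain ⟨J₁, δ₁, hJ₁, hδ₁, HT⟩ := leafT_X (v := v) (e₁ := e₁) hπ hnp hpu hc hcc
    (by linarith : 1000 * c' ≤ K) hd lam N c₀ hc₀ ε (ε / 2) M hε (by positivity) hM
  obtain ⟨J₀, hJ₀⟩ : ∃ J₀ : ℝ, J₀ = J₁ + (N : ℝ) ^ 2 * M + M + 12 := ⟨_, rfl⟩
  refine ⟨J₀, min δ₁ (min 1 (ε / 8 / (3 * N + 3))), by rw [hJ₀]; linarith,
    lt_min hδ₁ (lt_min one_pos (by positivity)), ?_⟩
  intro δ Jn Aw Cw R η S hδ0 hδ hJn hAw hCw hR hη hη2 hS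
  have hδ1 : δ ≤ 1 := hδ.trans ((min_le_right _ _).trans (min_le_left _ _))
  have hδN : 3 * (N : ℝ) * δ ≤ ε / 8 := by
    have h1 : δ ≤ ε / 8 / (3 * N + 3) := hδ.trans ((min_le_right _ _).trans (min_le_right _ _))
    rw [le_div_iff₀ (by positivity)] at h1
    linarith
  obtain ⟨W, b₀, hb₀, hW⟩ := exists_W0 hw hw0
  obtain ⟨z₀, hz₀⟩ : ∃ z₀, z₀ = 3 * K + 1 := ⟨_, rfl⟩
  have hz₀0 : 0 < z₀ := by rw [hz₀]; linarith
  obtain ⟨ε₁, hε₁⟩ : ∃ e, e = min 1 (ε / (48 * z₀)) := ⟨_, rfl⟩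
  have hε₁0 : 0 < ε₁ := by rw [hε₁]; exact lt_min one_pos (by positivity)
  have hε₁1 : ε₁ ≤ 1 := by rw [hε₁]; exact min_le_left _ _
  have hε₁2 : z₀ * ε₁ ≤ ε / 48 := by
    have h3 : ε₁ ≤ ε / (48 * z₀) := by rw [hε₁]; exact min_le_right _ _
    calc z₀ * ε₁ ≤ z₀ * (ε / (48 * z₀)) := mul_le_mul_of_nonneg_left h3 hz₀0.le
      _ = ε / 48 := by field_simp
  obtain ⟨A₀, cp, hcp, HP⟩ := hPX 1 zero_le_one a (Jn + 2) (by omega) b₀ hb₀.le ε₁ hε₁0 hε₁1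
  obtain ⟨Cb, hCb, HP⟩ := HP (max A₀ 2) (le_max_left _ _) 4 le_rfl
  obtain ⟨Cc, hCc, HC⟩ := ro_core4 hw hW (A := max A₀ 2) (Bw := 4) (by
      have := le_max_right A₀ 2
      omega) (by norm_num) hε₁0
  obtain ⟨Ch, rh, Xh, hCh, hrh, HR⟩ := HR δ Jn Aw Cw R η S cp hδ0 hδ1 hδN
    (by rw [hJ₀] at hJn; linarith) hAw hCw hR hη hη2 hS hcp
  obtain ⟨CT, XT, hCT, HT⟩ := HT δ Jn Aw Cw η S hδ0 (hδ.trans (min_le_left _ _))
    (by rw [hJ₀] at hJn; linarith) hAw hCw hη hη2 hS cp hcp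
  obtain ⟨Rx, Cx, hRx, hCx, hXD⟩ := exists_XDp hpu N
  have hcp0 : 0 < cp := by linarith
  obtain ⟨G, hG⟩ : ∃ G, G = 3200 * (1 + 1 / ε₁) + Cc * (1 + Cb) * ((2 + 1 / ε₁) *
    ((3 + cp + cp * cp ^ (1 / 3 : ℝ)) * Real.exp (5 * (R + 6)))) := ⟨_, rfl⟩
  have hG1 : 3200 * (1 + 1 / ε₁) ≤ G := by
    have : 0 ≤ Cc * (1 + Cb) * ((2 + 1 / ε₁) *
      ((3 + cp + cp * cp ^ (1 / 3 : ℝ)) * Real.exp (5 * (R + 6)))) := by positivity
    linarith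
  have hG2 : Cc * (1 + Cb) * ((2 + 1 / ε₁) * ((3 + cp + cp * cp ^ (1 / 3 : ℝ)) *
      Real.exp (5 * (R + 6)))) ≤ G := by
    have : 0 ≤ 3200 * (1 + 1 / ε₁) := by positivity
    linarith
  have hG0 : 0 ≤ G := by
    have : 0 ≤ 3200 * (1 + 1 / ε₁) := by positivity
    linarith
  obtain ⟨W', hW'⟩ : ∃ W', W' = Cw ^ 2 * (η⁻¹) ^ Jn := ⟨_, rfl⟩
  have hW'0 : 0 ≤ W' := by rw [hW']; positivity
  obtain ⟨CF, hCF⟩ : ∃ CF, CF = (1 + Real.exp (8 / 3)) * CT + 2 * (W' * Ch) := ⟨_, rfl⟩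
  have hCF0 : 0 ≤ CF := by rw [hCF]; positivity
  refine ⟨Ch + CT + CF, rh + CT, max (max (max Xh XT) (G ^ (8 / ε)))
    (max (max Cx (Real.exp Rx)) (Real.exp ((Real.log cp + R + 20) / c))), by linarith,
    by linarith, ?_⟩
  intro X hX3 hXX ps₀ hlen hz hs2 hnum hnx hlmp q ps Lv N₁ hF hq hqX hps Bd hBd hT hTR hLn
  have hX0 : 0 < X := by linarith
  have hX1 : 1 ≤ X := by linarith
  have hXh : Xh ≤ X :=
    (le_max_left _ _).trans ((le_max_left _ _).trans ((le_max_left _ _).trans hXX))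
  have hXT : XT ≤ X :=
    (le_max_right _ _).trans ((le_max_left _ _).trans ((le_max_left _ _).trans hXX))
  have hXG : G ^ (8 / ε) ≤ X := (le_max_right _ _).trans ((le_max_left _ _).trans hXX)
  have hXCx : Cx ≤ X :=
    (le_max_left _ _).trans ((le_max_left _ _).trans ((le_max_right _ _).trans hXX))
  have hXRx : Real.exp Rx ≤ X :=
    (le_max_right _ _).trans ((le_max_left _ _).trans ((le_max_right _ _).trans hXX))
  have hA2 := (le_max_right _ _).trans ((le_max_right _ _).trans hXX)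
  rw [← Real.le_log_iff_exp_le hX0, div_le_iff₀ hc] at hA2
  have hGX : G ≤ X ^ (ε / 8) := by
    calc G = (G ^ (8 / ε)) ^ (ε / 8) := by
          have h6 : 8 / ε * (ε / 8) = 1 := by field_simp
          rw [← Real.rpow_mul hG0, h6, Real.rpow_one]
      _ ≤ X ^ (ε / 8) := Real.rpow_le_rpow (by positivity) hXG (by positivity)
  have hL0 : 0 < Real.log X := Real.log_pos (by linarith)
  have nf := nf_facts hX3 hε hnum hF
  have hgd := JBX320.g_le_dx hX3 hK.le hc.le hnum hnx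
  have hlo := hF.lo
  have hhi := hF.hi
  have hlv := hF.lv
  have hN1' := hF.N1
  have hN0' := hF.N0
  have hNh := hF.Nh
  have hec := hnum.ec
  have hvg := hnum.vg
  have hbg := hnx.bg
  have hgN : gN K c (LL Dq ps₀ / Real.log X) = LL Dq ps₀ / Real.log X - 3 / 4 * K + c := rfl
  have hr1 : rh ≤ rh + CT := by linarith
  have hr2 : CT ≤ rh + CT := by linarith
  have hXB : 0 ≤ X ^ (2 * c₂ + 2) := Real.rpow_nonneg hX0.le _
  have hbm1 : Ch * X ^ (2 * c₂ + 2) ≤ (Ch + CT + CF) * X ^ (2 * c₂ + 2) :=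
    mul_le_mul_of_nonneg_right (by linarith) hXB
  have hbm2 : CT * X ^ (c₀ + 2 * K + 2) ≤ (Ch + CT + CF) * X ^ (2 * c₂ + 2) := by
    refine mul_le_mul (by linarith) (Real.rpow_le_rpow_of_exponent_le hX1 ?_)
      (Real.rpow_nonneg hX0.le _) (by linarith)
    rw [hc₂]; linarith
  have HR := HR X hX3 hXh ps₀ hlen hz hs2 hnum hnx hlmp q ps Lv N₁ hF hq hqX hps Bd _ _ hBd hr1
    hbm1 hLn _ rfl
  have HT := HT X hX3 hXT ps₀ hlen hs2 hnum hnx hlmp q ps Lv N₁ hF hq hqX hps Bd _ _ hBd hr2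
    hbm2 hT hTR
  -- the parameters
  obtain ⟨Lx, hL⟩ : ∃ Lx, Lx = Real.log X := ⟨_, rfl⟩
  have hXexp : ∀ z : ℝ, X ^ z = Real.exp (z * Lx) := fun z => by
    rw [Real.rpow_def_of_pos hX0, hL, mul_comm]
  have f0 := h0 (LL Dq ps₀ / Real.log X) (Lv / Real.log X) (LF ps / Real.log X)
  have f1 := h1 (LL Dq ps₀ / Real.log X) (Lv / Real.log X) (LF ps / Real.log X)
  have f2 := h2 (LL Dq ps₀ / Real.log X) (Lv / Real.log X) (LF ps / Real.log X)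
  obtain ⟨δD, hδD⟩ : ∃ y, y = min (gN K c (LL Dq ps₀ / Real.log X) * Real.log X)
    (LF ps - (LL Dq ps₀ - gN K c (LL Dq ps₀ / Real.log X) * Real.log X)) := ⟨_, rfl⟩
  rw [← hδD] at nf ⊢
  obtain ⟨g, hg⟩ : ∃ g, g = gN K c (LL Dq ps₀ / Real.log X) := ⟨_, rfl⟩
  rw [← hg] at hgd hlo hvg hbg hgN
  obtain ⟨p0, hp0⟩ : ∃ y, y = φ₀ (LL Dq ps₀ / Real.log X) (Lv / Real.log X)
    (LF ps / Real.log X) := ⟨_, rfl⟩
  obtain ⟨p1, hp1⟩ : ∃ y, y = φ₁ (LL Dq ps₀ / Real.log X) (Lv / Real.log X)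
    (LF ps / Real.log X) := ⟨_, rfl⟩
  obtain ⟨pb, hpb⟩ : ∃ y, y = φβ (LL Dq ps₀ / Real.log X) (Lv / Real.log X)
    (LF ps / Real.log X) := ⟨_, rfl⟩
  rw [← hp0] at f0
  rw [← hp1] at f1
  rw [← hpb, ← hp0] at f2
  rw [← hp0, ← hp1, ← hpb]
  obtain ⟨hv, hhv⟩ : ∃ hv, hv = hC c' K (Lv / Real.log X) (LF ps / Real.log X) := ⟨_, rfl⟩
  rw [← hhv] at HR
  obtain ⟨n, hn⟩ : ∃ n, n = LF ps := ⟨_, rfl⟩
  obtain ⟨κ, hκ⟩ : ∃ κ, κ = K * Real.log X := ⟨_, rfl⟩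
  obtain ⟨al, hal⟩ : ∃ al, al = LL Dq ps₀ := ⟨_, rfl⟩
  obtain ⟨F, hFd⟩ : ∃ F, F = F3n κ n := ⟨_, rfl⟩
  obtain ⟨γ, hγ⟩ : ∃ γ, γ = ε / 4 * Real.log X := ⟨_, rfl⟩
  obtain ⟨y, hy⟩ : ∃ y, y = max 0 (al - n) := ⟨_, rfl⟩
  have n0 := nf.n0
  have n1 := nf.n1
  have nv := nf.nv
  have v0 := nf.v0
  have nt := nf.nt
  have nD0 := nf.D0
  have nD1 := nf.D1
  clear nf
  rw [Real.log_exp] at nD1
  have hδD0 : 0 ≤ δD := by
    rw [← Real.exp_zero] at nD0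
    exact Real.exp_le_exp.1 nD0
  rw [← hn, ← hκ, ← hL] at n0
  rw [← hn, ← hκ, ← hL] at n1
  rw [← hn, ← hκ] at nv
  rw [← hn, ← hκ] at nt
  rw [← hn, ← hκ, ← hL] at nD1
  rw [← hL] at hL0 hhi hlv hbg hgd hlo hgN hhv hA2 f0 f1 f2
  rw [← hal] at hhi hlv hbg hlo hgN
  rw [← hn] at hhi hlv hlo hhv f0 f1 f2
  have hκL : κ = K * Lx := by rw [hκ, hL]
  have hy0 : 0 ≤ y := by rw [hy]; exact le_max_left _ _
  have hκ0 : 0 < κ := by rw [hκL]; positivity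
  have hcL : 1000000 * (c * Lx) ≤ κ := by
    have := mul_le_mul_of_nonneg_right hcK hL0.le
    rw [hκL]; linarith only [this]
  have hccL : 30 * (c * Lx) ≤ c' * Lx := by
    have := mul_le_mul_of_nonneg_right hcc hL0.le
    linarith only [this]
  have hcc2L : c' * Lx ≤ 40 * (c * Lx) := by
    have := mul_le_mul_of_nonneg_right hcc2 hL0.le
    linarith only [this]
  have hμ0L : 2000 * (c * Lx) ≤ μ * Lx := by
    have := mul_le_mul_of_nonneg_right hμ0 hL0.le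
    linarith only [this]
  have hμ1L : 100 * (μ * Lx) ≤ κ := by
    have := mul_le_mul_of_nonneg_right hμ1 hL0.le
    rw [hκL]; linarith only [this]
  have hεL : ε * Lx ≤ c * Lx := mul_le_mul_of_nonneg_right hec hL0.le
  have hεL0 : 0 < ε * Lx := by positivity
  have hcL0 : 0 < c * Lx := by positivity
  have hγL : γ = (ε * Lx) / 4 := by rw [hγ, hL]; ring
  have hF0 : 0 ≤ F := by rw [hFd]; exact le_max_left _ _
  have hF1 : F ≤ (4 * n - 3 * κ) / 9 + 4 / 9 * (c * Lx) := by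
    rw [hFd]; unfold NOt126.F3n
    exact max_le (by linarith only [n0]) (by linarith only [hcL0])
  have hFL : Lx * max 0 ((4 * (n / Lx) - 3 * K) / 9) = F := by
    rw [mul_max_of_nonneg _ _ hL0.le, mul_zero, hFd, hκL]
    unfold NOt126.F3n
    congr 1
    field_simp
  have hLhv : Lx * hv = 3 * F + 3 * (c' * Lx) := by
    rw [hhv, ← hFL]
    unfold RGB545.hC
    ring
  have hgL : g * Lx = al - 3 / 4 * κ + c * Lx := by
    rw [hgN, hκL]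
    field_simp
  obtain ⟨ηE, hηE⟩ : ∃ ηE, ηE = p0 * Lx := ⟨_, rfl⟩
  obtain ⟨e1, he1⟩ : ∃ e1, e1 = p1 * Lx := ⟨_, rfl⟩
  obtain ⟨b1, hb1⟩ : ∃ b1, b1 = (pb - p0) * Lx := ⟨_, rfl⟩
  have hηE0 : 0 ≤ ηE := by rw [hηE]; exact mul_nonneg f0.1 hL0.le
  have he10 : 0 ≤ e1 := by rw [he1]; exact mul_nonneg f1.1 hL0.le
  have hb10 : 0 ≤ b1 := by rw [hb1]; exact mul_nonneg f2.1 hL0.le
  have hηE1 : ηE ≤ 4 / 9 * F + 10 * (c * Lx) := by
    have := mul_le_mul_of_nonneg_right f0.2 hL0.le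
    rw [hηE, ← hFL]; linarith only [this]
  have he11 : e1 ≤ F + 20 * (c * Lx) := by
    have := mul_le_mul_of_nonneg_right f1.2 hL0.le
    rw [he1, ← hFL]; linarith only [this]
  have hb11 : b1 ≤ F + 21 * (c * Lx) := by
    have := mul_le_mul_of_nonneg_right f2.2 hL0.le
    rw [hb1, ← hFL]; linarith only [this]
  have eE0 : X ^ p0 = Real.exp ηE := by rw [hXexp, hηE]
  have eE1 : X ^ p1 = Real.exp e1 := by rw [hXexp, he1]
  have eB : X ^ pb / X ^ p0 = Real.exp b1 := by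
    rw [hXexp, hXexp, ← Real.exp_sub, hb1]; congr 1; ring
  have eK : X ^ K = Real.exp κ := by rw [hXexp, hκL]
  obtain ⟨-, -, -, HT⟩ := HT (Real.exp ηE) (Real.exp e1) (Real.exp b1) (Real.exp (Lx * hv))
    (Real.exp δD) (Real.exp_pos _) (Real.exp_pos _) (Real.exp_pos _) (Real.exp_pos _)
    (by rw [Real.log_exp, ← hκ, ← hn, ← hFd, ← hL]; linarith only [hηE1, hF0])
    (by rw [Real.log_exp, ← hκ, ← hn, ← hFd, ← hL]; exact he11)
    (by rw [Real.log_exp, ← hκ, ← hn, ← hFd, ← hL]; exact hb11)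
    (by rw [Real.log_exp, ← hκ, ← hn, ← hFd, ← hL]; exact hLhv)
  rw [eK] at HT
  obtain ⟨m1, m2, m3, m4⟩ := mm_scale (K := K) (v := Lv) (n := n) (hv := hv) hL0
  rw [← hκL] at m2 m3
  have hlcp : 0 ≤ Real.log cp := Real.log_nonneg hcp
  obtain ⟨c1, c2, c3, c4, c5, c6, c7, c8, c9, c10, c11, c12, c13⟩ := nx_num (κ := κ) (n := n)
    (v := Lv) (F := F) (c := c * Lx) (c' := c' * Lx) (μ := μ * Lx) (γ := γ) (x0 := ηE) (e1 := e1)
    (b1 := b1) (δD := δD) (h := Lx * hv) (s := c * Lx) hcL0.le hccL hcc2L hcL hμ0L hμ1L n0 n1 nv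
    v0 nt (by linarith only [nD1]) hF0 hF1 hηE1 he11 hb11 hLhv le_rfl
    (by linarith only [hlcp, hA2, hR])
  have hbias := nx_b (κ := κ) (n := n) (v := Lv) (F := F) (c := c * Lx) (c' := c' * Lx) (γ := γ)
    (x0 := ηE) (h := Lx * hv) (a := al) (u := v * Lx) (g := g * Lx) (d := d * Lx) (y := y)
    (ε := ε * Lx) hcL0.le hcc2L n0 hF0 hF1 hηE1 hLhv hεL0.le hεL
    (by rw [hγL]; linarith only [hεL]) hgL hhi (by linarith only [hlv])
    (by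
      have := mul_le_mul_of_nonneg_right hvg hL0.le
      rw [hκL]; linarith only [this])
    (by rw [hκL]; linarith only [hbg])
    (by
      rw [hy]
      rcases le_total (al - n) 0 with h5 | h5
      · left; rw [max_eq_left h5]
      · right; rw [max_eq_right h5])
  have hwl : 4 / 3 * ηE + γ + 0 ≤ sg K μ c (ε / 8) Lx n := by
    unfold NO64.sg
    rw [← hκL, ← hFd, hγL]
    linarith only [hηE1, hεL, hμ0L, hcL0]
  have hz₀L : 3 * κ ≤ z₀ * Lx := by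
    rw [hz₀, hκL]; linarith only [hL0]
  have hzε : z₀ * Lx * ε₁ ≤ γ / 12 := by
    have := mul_le_mul_of_nonneg_right hε₁2 hL0.le
    rw [hγL]; linarith only [this]
  have hγ2 : X ^ (ε / 8) = Real.exp (γ / 2) := by
    rw [hXexp, hγL]; congr 1; ring
  have hXb0 : 0 ≤ X ^ (8 * (K + 1)) := Real.rpow_nonneg hX0.le _
  have hlenp : ps.length ≤ N := by rw [hps.length]; exact hlen
  obtain ⟨a1, a2, -, hFS⟩ := hXD (X ^ δ) (X ^ δ) (π lam) (hπ lam) q ps (rp (d * Real.log X) ps)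
    (zt (d * Real.log X) ps) hlenp (by rw [rp_length]; exact hlenp) (LF_rp _ _)
    (norm_zt _ ps).le (X ^ (8 * (K + 1))) (by
      refine hXCx.trans ?_
      calc X = X ^ (1 : ℝ) := (Real.rpow_one X).symm
        _ ≤ X ^ (8 * (K + 1)) := Real.rpow_le_rpow_of_exponent_le hX1
            (by linarith only [hK])) (by
      calc Real.exp Rx * Real.exp (LF ps) ≤ X * Real.exp (K * Lx) := by
            refine mul_le_mul hXRx (Real.exp_le_exp.2 (by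
              rw [← hn, ← hκL]; linarith only [n1, hcL, hcL0]))
              (Real.exp_pos _).le hX0.le
        _ = X ^ (1 + K) := by rw [Real.rpow_add hX0, Real.rpow_one, ← hXexp]
        _ ≤ X ^ (8 * (K + 1)) := Real.rpow_le_rpow_of_exponent_le hX1
            (by linarith only [hK]))
  have hγ0 : 0 ≤ γ := by rw [hγL]; positivity
  have hc'L0 : 0 ≤ c' * Lx := by linarith only [hccL, hcL0]
  have hh0 : 0 ≤ Lx * hv := by rw [hLhv]; positivity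
  have hN2 : 2 * (N₁ / 2) ≤ N₁ := by omega
  have z1 : Lv + 5 + Real.log cp ≤ z₀ * Lx := by linarith only [c1, hz₀L, hA2, hR]
  have z2 : ηE ≤ z₀ * Lx := c2.trans hz₀L
  have z3 : e1 ≤ z₀ * Lx := c3.trans hz₀L
  have z4 : b1 ≤ z₀ * Lx := c4.trans hz₀L
  have z5 : δD ≤ z₀ * Lx := c5.trans hz₀L
  have z6 : κ ≤ z₀ * Lx := by linarith only [hz₀L, hκ0]
  have z7 : n + R + 1 ≤ z₀ * Lx := by linarith only [c6, hz₀L, hA2, hlcp]
  have z8 : Real.log cp + Lx * hv + 2 * Lv + 10 ≤ κ + n - R - 1 := by linarith only [c7, hA2]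
  have hGa : 3200 * (1 + 1 / ε₁) ≤ Real.exp (γ / 2) := by rw [← hγ2]; exact hG1.trans hGX
  have hGb : Cc * (1 + Cb) * ((2 + 1 / ε₁) * ((3 + cp + cp * cp ^ (1 / 3 : ℝ)) *
      Real.exp (5 * (R + 6)))) ≤ Real.exp (γ / 2) := by rw [← hγ2]; exact hG2.trans hGX
  have hα : ∀ m, xs q (X ^ δ) (X ^ δ) (π lam) h (d * Real.log X) ps m ≠ 0 →
      m ∈ LS2.S (X ^ (8 * (K + 1))) := a1
  clear a1 a2 hFS
  show NumOs w Cw η Aw (X ^ K) (Real.exp (LF ps)) (X ^ K) R Jn (Real.exp δD) (X ^ p0) (X ^ p1)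
    (X ^ pb / X ^ p0) (N₁ / 2) N₁ (xs q (X ^ δ) (X ^ δ) (π lam) h (d * Real.log X) ps)
    ((Ch + CT + CF) * X ^ ε * (Ht ps * Ht (natl ps₀)) ^ J₀ * Bd * Real.exp (2 * LF ps))
  rw [eB, eE0, eE1, eK, ← hn]
  intro a' ha' t X' φ hX' hXX' hφ hφs
  rw [Real.log_exp] at hXX'
  obtain ⟨hx1, hx2⟩ := abs_le.1 hXX'
  obtain ⟨τ, τ₁, hτ, hτ₁, hTa, hTf, hb3, hb4⟩ := HT a' ha' φ hφ t
  obtain ⟨k₁, hk₁⟩ : ∃ k, k = (Cw ^ 2 * (η⁻¹) ^ Jn) * (Ch * X ^ (2 * (ε / 8)) *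
    (1 + |t|) ^ Jn * ((Ht ps * Ht (natl ps₀)) ^ M * Bd)) := ⟨_, rfl⟩
  obtain ⟨k₂, hk₂⟩ : ∃ k, k = (Cw ^ 2 * (η⁻¹) ^ Jn) * (Ch * X ^ (2 * (ε / 8)) *
    (1 + |t|) ^ Jn * Ht ps ^ 6) := ⟨_, rfl⟩
  have hHt1 := one_le_Ht ps
  have hHt2 := one_le_Ht (natl ps₀)
  have hHH : 1 ≤ Ht ps * Ht (natl ps₀) := one_le_mul_of_one_le_of_one_le hHt1 hHt2
  have hHt0 : 0 < Ht ps := by linarith only [hHt1]
  have hHH0 : 0 < Ht ps * Ht (natl ps₀) := by linarith only [hHH]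
  have hBd0 : 0 ≤ Bd := by linarith only [hBd]
  have hCh0 : 0 ≤ Ch := by linarith only [hCh]
  have hk₁0 : 0 ≤ k₁ := by rw [hk₁]; positivity
  have hk₂0 : 0 ≤ k₂ := by rw [hk₂]; positivity
  have HR := HR a' ha' t X' φ hX' (by rw [← hn]; exact hXX') hφ γ k₁ k₂ κ n hγ hκ hn hk₁ hk₂
  rw [← hal, ← hn, ← hy, ← hL] at HR
  have hadm : Adm (X ^ (8 * (K + 1))) X' 1
      (bw φ a' t (xs q (X ^ δ) (X ^ δ) (π lam) h (d * Real.log X) ps)) :=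
    adm_mono (by linarith only [hη2] : η ≤ 1) (adm_bt hφs hα a' t)
  have hFSb : FS (bw φ a' t (xs q (X ^ δ) (X ^ δ) (π lam) h (d * Real.log X) ps)) :=
    FS_of_S hXb0 hadm.sup
  have main := nro_e (w := w) (b := 1) (e := 1) (γ := γ) (κ := κ) (v := Lv) (n := n)
    (x := Real.log X') (R := R) (h := Lx * hv) (m := Lx * mm K (Lv / Lx) (n / Lx) hv)
    (wl := sg K μ c (ε / 8) Lx n) (w₀ := 0) (T := TTe K μ c (ε / 8) Lx Lv n hv)
    (zL := z₀ * Lx) (ηE := ηE) (e1 := e1) (b1 := b1) (δD := δD) (X' := X')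
    (Y := X ^ (8 * (K + 1))) (s₀ := d * Lx - y) (k₁ := k₁) (k₂ := k₂) (τ := τ) (τ₁ := τ₁)
    (N₀ := N₁ / 2) (N₁ := N₁)
    (be := bw φ a' t (xs q (X ^ δ) (X ^ δ) (π lam) h (d * Real.log X) ps))
    (u := Eis.w ^ a'.1 * Eis.lam ^ a'.2) hε₁0 hcp hCc hCb ha HC HP
    hγ0 v0 hh0 hηE0 he10 hb10 hδD0 hR
    (Real.exp_log hX').symm (by linarith only [hx1]) (by linarith only [hx2]) hNh hN2 hN1'
    z1 z2 z3 z4 z5 z6 z7 z8 c8 c9 c10 hzε hGa hGb hXb0 (tw_ne a') (fun p hp => cop_tw a' hp)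
    hadm hFSb hτ hτ₁ hTa hTf m1 m2 m3 c11
    (by unfold NO64.TTe; rw [← hκL]) hk₁0 hk₂0 hwl hbias
    (fun d' e' hd' he' hdX heX jj γ' ϖ hγ' hϖ hϖX P hP => by
      have hd1 : (1 : ℝ) ≤ nm d' := by exact_mod_cast nm_pos.2 hd'.ne_zero
      have he1' : (1 : ℝ) ≤ nm e' := by exact_mod_cast nm_pos.2 he'.ne_zero
      have h5 : Real.log ((nm d' : ℝ) * nm e') ≤ δD + ηE := by
        rw [Real.log_le_iff_le_exp (by positivity), Real.exp_add]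
        exact mul_le_mul hdX heX (by positivity) (Real.exp_pos _).le
      have h6 := HR d' e' hd' he' (by linarith only [h5, c13]) jj γ' ϖ hγ' hϖ
        (by rw [← hz₀]; exact hϖX) P hP
      rw [hL] at h6 ⊢
      exact h6)
  rw [omq_one] at main
  refine main.trans (add_le_add le_rfl ?_)
  -- the final comparison
  have hV0 : 0 ≤ (1 + |t|) ^ Jn := by positivity
  have hM6 : Ht ps ^ 6 ≤ (Ht ps * Ht (natl ps₀)) ^ J₀ := by
    calc Ht ps ^ 6 ≤ (Ht ps * Ht (natl ps₀)) ^ 6 :=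
          pow_le_pow_left₀ hHt0.le (le_mul_of_one_le_right hHt0.le hHt2) 6
      _ = (Ht ps * Ht (natl ps₀)) ^ ((6 : ℕ) : ℝ) := (Real.rpow_natCast _ _).symm
      _ ≤ _ := Real.rpow_le_rpow_of_exponent_le hHH (by
          rw [hJ₀]; push_cast; linarith only [hJ₁, hN2M, hM])
  have hMM : (Ht ps * Ht (natl ps₀)) ^ M ≤ (Ht ps * Ht (natl ps₀)) ^ J₀ :=
    Real.rpow_le_rpow_of_exponent_le hHH (by rw [hJ₀]; linarith only [hJ₁, hN2M])
  have hMJ : (Ht ps * Ht (natl ps₀)) ^ J₁ ≤ (Ht ps * Ht (natl ps₀)) ^ J₀ :=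
    Real.rpow_le_rpow_of_exponent_le hHH (by rw [hJ₀]; linarith only [hM, hN2M])
  have eH : Real.exp (Lx * hv) ^ (-(1 / 3) : ℝ) = Real.exp (-(Lx * hv / 3)) := by
    rw [← Real.exp_mul]; congr 1; ring
  rw [eH, ← hn] at hb3
  rw [← hn] at hb4
  have hT2 : Real.exp (2 / 3 * (Lv + 5) + 2 * e1 + 2 * b1 - κ) * τ₁ ≤
      Real.exp (8 / 3) * ((CT * X ^ (ε / 2) * (Ht ps * Ht (natl ps₀)) ^ J₁ * Bd *
        (1 + |t|) ^ Jn) * (Real.exp κ * Real.exp n)) := by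
    have h5 : Real.exp (2 / 3 * (Lv + 5) + 2 * e1 + 2 * b1 - κ) ≤ Real.exp (8 / 3) *
        ((Real.exp 1 * (N₁ : ℝ)) ^ (2 / 3 : ℝ) * Real.exp e1 ^ 2 * Real.exp b1 ^ 2 /
          Real.exp κ) := by
      have h6 : Real.exp (2 / 3 * (Lv + 1)) ≤ (Real.exp 1 * (N₁ : ℝ)) ^ (2 / 3 : ℝ) := by
        calc Real.exp (2 / 3 * (Lv + 1)) = (Real.exp 1 * Real.exp Lv) ^ (2 / 3 : ℝ) := by
              rw [← Real.exp_add, ← Real.exp_mul]; congr 1; ring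
          _ ≤ _ := by
              refine Real.rpow_le_rpow (by positivity) ?_ (by norm_num)
              exact mul_le_mul_of_nonneg_left hN0' (Real.exp_pos _).le
      calc Real.exp (2 / 3 * (Lv + 5) + 2 * e1 + 2 * b1 - κ) = Real.exp (8 / 3) *
            (Real.exp (2 / 3 * (Lv + 1)) * Real.exp e1 ^ 2 * Real.exp b1 ^ 2 /
              Real.exp κ) := by
            simp only [← Real.exp_nat_mul, ← Real.exp_add, ← Real.exp_sub]
            congr 1; push_cast; ring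
        _ ≤ _ := by gcongr
    calc Real.exp (2 / 3 * (Lv + 5) + 2 * e1 + 2 * b1 - κ) * τ₁ ≤ (Real.exp (8 / 3) *
          ((Real.exp 1 * (N₁ : ℝ)) ^ (2 / 3 : ℝ) * Real.exp e1 ^ 2 * Real.exp b1 ^ 2 /
            Real.exp κ)) * τ₁ := mul_le_mul_of_nonneg_right h5 hτ₁
      _ = Real.exp (8 / 3) * ((Real.exp 1 * (N₁ : ℝ)) ^ (2 / 3 : ℝ) * Real.exp e1 ^ 2 *
          Real.exp b1 ^ 2 / Real.exp κ * τ₁) := by ring
      _ ≤ _ := mul_le_mul_of_nonneg_left hb4 (Real.exp_pos _).le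
  have hU : Real.exp κ / Real.exp n * Real.exp (2 * n) = Real.exp κ * Real.exp n := by
    rw [← Real.exp_sub, ← Real.exp_add, ← Real.exp_add]; congr 1; ring
  have hR1 : Real.exp (-0) * ((Real.exp κ / Real.exp n) * ((k₁ + k₂) * Real.exp (2 * n))) ≤
      (W' * (Ch * X ^ (2 * (ε / 8)) * (1 + |t|) ^ Jn * ((Ht ps * Ht (natl ps₀)) ^ M * Bd)) +
        W' * (Ch * X ^ (2 * (ε / 8)) * (1 + |t|) ^ Jn * Ht ps ^ 6)) *
          (Real.exp κ * Real.exp n) := by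
    rw [neg_zero, Real.exp_zero, one_mul, ← hU, hk₁, hk₂, hW']
    exact le_of_eq (by ring)
  have hfin := fin_n (g := Real.exp γ) (a8 := Real.exp (8 / 3))
    (HM := (Ht ps * Ht (natl ps₀)) ^ M) (H6 := Ht ps ^ 6)
    (HT := (Ht ps * Ht (natl ps₀)) ^ J₁) (HJ := (Ht ps * Ht (natl ps₀)) ^ J₀) (Bd := Bd)
    (V := (1 + |t|) ^ Jn) (U := Real.exp κ * Real.exp n) (Xe := X ^ ε) (Real.exp_pos _).le
    (by linarith only [hCT]) hW'0 hCh0 (Real.rpow_nonneg hX0.le (ε / 2))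
    (Real.rpow_nonneg hX0.le (2 * (ε / 8))) (Real.exp_pos _).le (Real.rpow_nonneg hHH0.le _)
    (by positivity) (Real.rpow_nonneg hHH0.le _) hBd hV0 (by positivity) hb3 hT2 hR1 hMJ hMM hM6
    (by
      rw [hXexp, hXexp, ← Real.exp_add]
      refine Real.exp_le_exp.2 ?_
      have e5 : ε / 2 * Lx = (ε * Lx) / 2 := by ring
      rw [hγL, e5]; linarith only [hεL0])
    (by
      rw [hXexp, hXexp, ← Real.exp_add]
      refine Real.exp_le_exp.2 ?_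
      have e5 : 2 * (ε / 8) * Lx = (ε * Lx) / 4 := by ring
      rw [hγL, e5]; linarith only [hεL0])
  refine hfin.trans ?_
  rw [← hCF, ← hU]
  have hCle : CF ≤ Ch + CT + CF := by linarith only [hCh0, hCT]
  have hXε : 0 ≤ X ^ ε := Real.rpow_nonneg hX0.le _
  have hHJ0 : 0 ≤ (Ht ps * Ht (natl ps₀)) ^ J₀ := Real.rpow_nonneg hHH0.le _
  have hP0 : 0 ≤ X ^ ε * (Ht ps * Ht (natl ps₀)) ^ J₀ * Bd * (1 + |t|) ^ Jn *
      (Real.exp κ / Real.exp n * Real.exp (2 * n)) :=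
    mul_nonneg (mul_nonneg (mul_nonneg (mul_nonneg hXε hHJ0) hBd0) hV0) (by positivity)
  have hP1 := mul_le_mul_of_nonneg_right hCle hP0
  refine (le_of_eq ?_).trans (hP1.trans (le_of_eq ?_))
  · ring
  · ring

end Crest.Agent.R017.RoX116
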