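import Crest.Agent.R017.NOxk_116
import Crest.Agent.R017.RoZ_116

/-!
# Row 17, FlatNE, (Ro) at the near leaf, exceptional class (helper116): the final form

* `ronx_dRn'` : the line of helper603 with any constant `c ≤ e`
* **`nos_leafX`** : `NLeafX` for `NumOs` at `K`, cut `B / E0`
-/

set_option autoImplicit false
set_option linter.unusedVariables false

noncomputable section

namespace Crest.Agent.R017.RoX116

open Crest.Agent.R012 Crest.Agent.R012.Eis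
open Crest.Agent.R012.MC (Wgt)
open Crest.Agent.R017.FE47 (PU)
open Crest.Agent.R017.B770
open Crest.Agent.R017.Prov71
open Crest.Agent.R017.Sup271 (NPm)
open Crest.Agent.R017.RGB545 (Line LEk dRn hC)
open Crest.Agent.R017.RX298 (NLeafX)
open Crest.Agent.R017.NE499 (NumOs)

lemma RonX.mono {Lam : Type*} {p : ℕ} {π : Lam → DPar} {h : ℝ → ℝ} {hh : ℝ → ℝ → ℝ → ℝ}
    {μ c e : ℝ} {L : Line Lam p} (H : RonX π h hh μ e L) (hce : c ≤ e) : RonX π h hh μ c L where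
  Φ := H.Φ
  G := H.G
  F x θ := (H.F x θ).trans (by linarith)
  zl := H.zl

lemma ronx_dRn' {Lam : Type*} (π : Lam → DPar) (h : ℝ → ℝ) (hh : ℝ → ℝ → ℝ → ℝ) (μ : ℝ) {c e : ℝ}
    (hce : c ≤ e) : RonX π h hh μ c (LEk π h (dRn hh μ e) ()) :=
  (ronx_dRn π h hh μ e).mono hce

/-- **(Ro) at the near leaf**, exceptional class -/
theorem nos_leafX {Lam ι : Type*} {p : ℕ} {π : Lam → DPar} {h : ℝ → ℝ} {c₁ : ℝ} (hpu : PU h c₁)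
    (hπ : ∀ lam, (π lam).OK) (hnp : ∀ lam, ¬ NPm (π lam).n (π lam).ψ (π lam).l₂ 1)
    {w : ℝ → ℝ} (hw : Wgt w) (hw0 : ∀ x, 0 ≤ w x)
    {L : ι → Line Lam p} {j : ι} {K v c c' e₁ d μ : ℝ} {φ₀ φ₁ φβ : ℝ → ℝ → ℝ → ℝ}
    (HL : RonX π h (hC c') μ c (L j))
    (hc : 0 < c) (hcc : 30 * c ≤ c') (hcc2 : c' ≤ 40 * c) (hcK : 1000000 * c ≤ K)
    (hμ0 : 2000 * c ≤ μ) (hμ1 : 100 * μ ≤ K) (hd : 0 ≤ d)
    (h0 : ∀ a u m, 0 ≤ φ₀ a u m ∧ φ₀ a u m ≤ 4 / 9 * max 0 ((4 * m - 3 * K) / 9) + 10 * c)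
    (h1 : ∀ a u m, 0 ≤ φ₁ a u m ∧ φ₁ a u m ≤ max 0 ((4 * m - 3 * K) / 9) + 20 * c)
    (h2 : ∀ a u m, 0 ≤ φβ a u m - φ₀ a u m ∧
      φβ a u m - φ₀ a u m ≤ max 0 ((4 * m - 3 * K) / 9) + 21 * c) :
    NLeafX π h (fun q α Rn => NumOs w q.Cw q.η q.Aw q.K q.X q.K q.R q.J q.D q.E0 q.E1
      (q.B / q.E0) (q.N₁ / 2) q.N₁ α Rn) L φ₀ φ₁ φβ K v c e₁ d :=
  nos_leafX0 pairX hpu hπ hnp hw hw0 HL hc hcc hcc2 hcK hμ0 hμ1 hd h0 h1 h2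

end Crest.Agent.R017.RoX116
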