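import Crest.Agent.R017.RoE_116

/-!
# Row 17, FlatNE, NumOs class E (helper110, second hand of helper116): the real side for any `H`

* `ex_e` : the exponents of the non-principal number, any `H = exp hx`
* `np_top` : helper116's `TPn` times the sum over the divisors
* `pr_top` : helper116's `TPp` times the sum over the divisors
-/

set_option autoImplicit false
set_option maxHeartbeats 400000

noncomputable section

open Finset
open scoped Classical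

namespace Crest.Agent.R017.NOy110

open Crest.Agent.R017.E3T829 (G2 G2_nonneg)
open Crest.Agent.R017.E3Z548 (FH)
open Crest.Agent.R017.RoX116 (TPn TPp G2_exp FH_exp)

/-- the two cases of the target: no line, or the line of the Gram sums with the room `σ` -/
def TE (T n v κ hx M σ : ℝ) : Prop :=
  20 * (T - n) ≤ κ ∨ (T ≤ 4 / 3 * n + (v + κ) / 3 + hx / 3 - M - σ ∧ 0 ≤ M ∧
    (hx + 2 * v - κ) / 3 ≤ M ∧ (hx + 2 * v - κ) - (v + n + hx - κ) / 2 ≤ M)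

/-- **the exponents** -/
lemma ex_e {T n v κ hx M σ v₁ x C₀ : ℝ} (hT : TE T n v κ hx M σ) (hh : 0 ≤ hx)
    (hhκ : 5 * hx ≤ κ) (hκn : κ ≤ 2 * n) (hv3 : 3 * v ≤ 2 * κ) (hσ : 10 * σ ≤ κ)
    (hC₀ : 0 ≤ C₀) (hv1 : v ≤ v₁) (hv2 : v₁ ≤ v + C₀) (hx' : n - C₀ ≤ x)
    (hL : 0 ≤ hx + 2 * v₁ - κ) :
    (1 / 3 * (hx + 2 * v₁ - κ) ≤ κ / 3 + 4 / 3 * n + (hx + v₁) / 3 - T - σ + 10 * C₀) ∧
    ((hx + 2 * v₁ - κ) - 1 / 2 * (x + v₁ + hx - κ) ≤
      κ / 3 + 4 / 3 * n + (hx + v₁) / 3 - T - σ + 10 * C₀) ∧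
    (7 / 9 * (hx + 2 * v₁ - κ) - 2 / 3 * (x + v₁ + hx - κ) ≤
      κ / 3 + 4 / 3 * n + (hx + v₁) / 3 - T - σ + 10 * C₀) ∧
    (11 / 18 * (hx + 2 * v₁ - κ) - 1 / 3 * (x + v₁ + hx - κ) ≤
      κ / 3 + 4 / 3 * n + (hx + v₁) / 3 - T - σ + 10 * C₀) := by
  rcases hT with hT | ⟨hT, m0, m1, m2⟩
  · refine ⟨?_, ?_, ?_, ?_⟩ <;> linarith
  · refine ⟨?_, ?_, ?_, ?_⟩ <;> linarith

/-- **the non-principal number at the top level**, any `H` -/
theorem np_top {K H V X c κ hx n v T M σ C₀ k₁ Se : ℝ} (hK : K = Real.exp κ)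
    (hH : H = Real.exp hx) (hV : 0 < V) (hX : 0 < X) (hc : 0 ≤ c) (hT : TE T n v κ hx M σ)
    (hh : 0 ≤ hx) (hhκ : 5 * hx ≤ κ) (hκn : κ ≤ 2 * n) (hv3 : 3 * v ≤ 2 * κ)
    (hσ : 10 * σ ≤ κ) (hC₀ : 0 ≤ C₀) (hv1 : v ≤ Real.log V) (hv2 : Real.log V ≤ v + C₀)
    (hx' : n - C₀ ≤ Real.log X) (hk₁ : 0 ≤ k₁) (hS : Se ≤ Real.exp σ) (hS0 : 0 ≤ Se) :
    TPn K H V X c (k₁ * Real.exp (T - n)) (Real.exp n) * Se ≤
      (3 + c) * Real.exp (10 * C₀) * (k₁ * Real.exp (κ + n)) := by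
  obtain ⟨v₁, hv₁⟩ : ∃ v₁, v₁ = Real.log V := ⟨_, rfl⟩
  obtain ⟨x, hx''⟩ : ∃ x, x = Real.log X := ⟨_, rfl⟩
  have eV : V = Real.exp v₁ := by rw [hv₁, Real.exp_log hV]
  have eX : X = Real.exp x := by rw [hx'', Real.exp_log hX]
  rw [← hv₁] at hv1 hv2
  rw [← hx''] at hx'
  have eL : H * V ^ 2 / K = Real.exp (hx + 2 * v₁ - κ) := by
    rw [hH, eV, hK, ← Real.exp_nat_mul, ← Real.exp_add, ← Real.exp_sub]
    congr 1
  have eI : X * V * H / K = Real.exp (x + v₁ + hx - κ) := by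
    rw [hH, eV, hK, eX, ← Real.exp_add, ← Real.exp_add, ← Real.exp_sub]
  unfold RoX116.TPn
  rw [eL, eI]
  by_cases h : 1 ≤ Real.exp (hx + 2 * v₁ - κ)
  · rw [if_pos h]
    have hL : 0 ≤ hx + 2 * v₁ - κ := by
      rw [← Real.exp_zero] at h
      exact Real.exp_le_exp.1 h
    obtain ⟨g1, g2, g3, g4⟩ := ex_e hT hh hhκ hκn hv3 hσ hC₀ hv1 hv2 hx' hL
    have hG := G2_exp (c := c) (β := 1) hc one_pos g1 g2 g3 g4
    have e0 : (1 + c + (1 : ℝ) ^ (-(2 / 3) : ℝ) + (1 : ℝ) ^ (-(1 / 3) : ℝ)) = 3 + c := by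
      rw [Real.one_rpow, Real.one_rpow]; ring
    rw [e0] at hG
    have hFH : FH K H V = Real.exp (2 / 3 * κ - (hx + v₁) / 3) := by
      rw [hH, eV, hK, FH_exp]
    have e1 : Real.exp n ^ (2 / 3 : ℝ) = Real.exp (2 / 3 * n) := by
      rw [← Real.exp_mul]; congr 1; ring
    rw [hFH, e1]
    have hG0 : 0 ≤ G2 (Real.exp (hx + 2 * v₁ - κ)) (c * Real.exp (hx + 2 * v₁ - κ) *
        Real.exp (x + v₁ + hx - κ) ^ (-(1 / 2) : ℝ)) (1 * Real.exp (x + v₁ + hx - κ)) :=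
      G2_nonneg (by positivity) (by positivity) (by positivity)
    calc Real.exp (2 / 3 * κ - (hx + v₁) / 3) * G2 (Real.exp (hx + 2 * v₁ - κ))
          (c * Real.exp (hx + 2 * v₁ - κ) * Real.exp (x + v₁ + hx - κ) ^ (-(1 / 2) : ℝ))
          (1 * Real.exp (x + v₁ + hx - κ)) *
          (k₁ * Real.exp (T - n) * Real.exp (2 / 3 * n)) * Se
        ≤ Real.exp (2 / 3 * κ - (hx + v₁) / 3) * ((3 + c) * Real.exp
          (κ / 3 + 4 / 3 * n + (hx + v₁) / 3 - T - σ + 10 * C₀)) *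
          (k₁ * Real.exp (T - n) * Real.exp (2 / 3 * n)) * Real.exp σ := by
          gcongr
      _ = (3 + c) * k₁ * (Real.exp (2 / 3 * κ - (hx + v₁) / 3) * Real.exp
          (κ / 3 + 4 / 3 * n + (hx + v₁) / 3 - T - σ + 10 * C₀) *
          Real.exp (T - n) * Real.exp (2 / 3 * n) * Real.exp σ) := by ring
      _ = (3 + c) * k₁ * (Real.exp (10 * C₀) * Real.exp (κ + n)) := by
          rw [← Real.exp_add, ← Real.exp_add, ← Real.exp_add, ← Real.exp_add, ← Real.exp_add]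
          congr 2
          ring
      _ = _ := by ring
  · rw [if_neg h, zero_mul, zero_mul]
    positivity

/-- **the principal number at the top level**, any `H` -/
theorem pr_top {K H V X c κ hx n v C₀ k₂ Se s₀ μ' σ : ℝ} (hK : K = Real.exp κ)
    (hH : H = Real.exp hx) (hV : 0 < V) (hX : 0 < X) (hc : 0 < c) (hC₀ : 0 ≤ C₀)
    (hv2 : Real.log V ≤ v + C₀) (hx' : n - C₀ ≤ Real.log X) (hk₂ : 0 ≤ k₂)
    (hS : Se ≤ Real.exp σ) (hS0 : 0 ≤ Se)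
    (hb : hx + 4 * v + n + μ' / 2 + 3 * σ ≤ 3 * κ + 3 * s₀) :
    TPp K H V X c k₂ (c * (X * V * H / K) * Real.exp (μ' / 2)) (Real.exp n) s₀ * Se ≤
      c * c ^ (1 / 3 : ℝ) * Real.exp (2 * C₀) * (k₂ * Real.exp (κ + n)) := by
  obtain ⟨v₁, hv₁⟩ : ∃ v₁, v₁ = Real.log V := ⟨_, rfl⟩
  obtain ⟨x, hx''⟩ : ∃ x, x = Real.log X := ⟨_, rfl⟩
  have eV : V = Real.exp v₁ := by rw [hv₁, Real.exp_log hV]
  have eX : X = Real.exp x := by rw [hx'', Real.exp_log hX]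
  rw [← hv₁] at hv2
  rw [← hx''] at hx'
  have eL : H * V ^ 2 / K = Real.exp (hx + 2 * v₁ - κ) := by
    rw [hH, eV, hK, ← Real.exp_nat_mul, ← Real.exp_add, ← Real.exp_sub]
    congr 1
  have eI : X * V * H / K = Real.exp (x + v₁ + hx - κ) := by
    rw [hH, eV, hK, eX, ← Real.exp_add, ← Real.exp_add, ← Real.exp_sub]
  unfold RoX116.TPp
  rw [eL, eI]
  by_cases h : 1 ≤ Real.exp (hx + 2 * v₁ - κ)
  · rw [if_pos h]
    have hFH : FH K H V = Real.exp (2 / 3 * κ - (hx + v₁) / 3) := by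
      rw [hH, eV, hK, FH_exp]
    have e1 : Real.exp n ^ (5 / 3 : ℝ) = Real.exp (5 / 3 * n) := by
      rw [← Real.exp_mul]; congr 1; ring
    have e4 : Real.exp (x + v₁ + hx - κ) ^ (-(2 / 3) : ℝ) =
        Real.exp (-(2 / 3) * (x + v₁ + hx - κ)) := by
      rw [← Real.exp_mul]; congr 1; ring
    have e5 : (c * Real.exp (x + v₁ + hx - κ) * Real.exp (μ' / 2)) ^ (1 / 3 : ℝ) =
        c ^ (1 / 3 : ℝ) * Real.exp (1 / 3 * (x + v₁ + hx - κ) + μ' / 6) := by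
      rw [mul_assoc, ← Real.exp_add, Real.mul_rpow hc.le (Real.exp_pos _).le, ← Real.exp_mul]
      congr 2; ring
    have hc3 : 0 ≤ c ^ (1 / 3 : ℝ) := by positivity
    rw [hFH, e1, e4, e5]
    calc Real.exp (2 / 3 * κ - (hx + v₁) / 3) * (c * Real.exp (hx + 2 * v₁ - κ) *
          Real.exp (-(2 / 3) * (x + v₁ + hx - κ))) *
          (k₂ * (c ^ (1 / 3 : ℝ) * Real.exp (1 / 3 * (x + v₁ + hx - κ) + μ' / 6) *
            (Real.exp (5 / 3 * n) * Real.exp (-s₀)))) * Se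
        ≤ Real.exp (2 / 3 * κ - (hx + v₁) / 3) * (c * Real.exp (hx + 2 * v₁ - κ) *
          Real.exp (-(2 / 3) * (x + v₁ + hx - κ))) *
          (k₂ * (c ^ (1 / 3 : ℝ) * Real.exp (1 / 3 * (x + v₁ + hx - κ) + μ' / 6) *
            (Real.exp (5 / 3 * n) * Real.exp (-s₀)))) * Real.exp σ := by
          gcongr
      _ = c * c ^ (1 / 3 : ℝ) * k₂ * (Real.exp (2 / 3 * κ - (hx + v₁) / 3) *
          Real.exp (hx + 2 * v₁ - κ) * Real.exp (-(2 / 3) * (x + v₁ + hx - κ)) *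
          Real.exp (1 / 3 * (x + v₁ + hx - κ) + μ' / 6) * Real.exp (5 / 3 * n) *
          Real.exp (-s₀) * Real.exp σ) := by ring
      _ ≤ c * c ^ (1 / 3 : ℝ) * k₂ * (Real.exp (2 * C₀) * Real.exp (κ + n)) := by
          refine mul_le_mul_of_nonneg_left ?_ (by positivity)
          rw [← Real.exp_add, ← Real.exp_add, ← Real.exp_add, ← Real.exp_add, ← Real.exp_add,
            ← Real.exp_add, ← Real.exp_add]
          refine Real.exp_le_exp.2 ?_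
          linarith
      _ = _ := by ring
  · rw [if_neg h, zero_mul, zero_mul]
    positivity

/-- **the bias budget** (class E): `pr_top`'s hypothesis from `NNum`, `NNumX`, `NFacts` -/
lemma bias {κ v₀ n₀ m γ e g s₀ Lv F hx y μ' σ : ℝ} (hγ : 0 ≤ γ) (hκ : 1000 * γ ≤ κ)
    (he0 : 0 ≤ e) (he : e ≤ γ) (hg : g = n₀ - 3 / 4 * κ + γ) (lo : n₀ - g ≤ m)
    (lv : Lv ≤ v₀ + e + (n₀ - m)) (sn : 5 * (v₀ + n₀) + 100 * γ ≤ 7 * κ + e)
    (Kn : 3 * κ ≤ 4 * n₀ + e)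
    (bg : n₀ + (v₀ + 3 * g + 90 * γ) ≤ κ + 3 * s₀ + e)
    (hF : F = max 0 ((4 * m - 3 * κ) / 9)) (hy : 1000 * y ≤ κ) (hx' : hx ≤ 3 * F + 3 * y)
    (hμ : μ' ≤ y) (hσ : σ ≤ 8 / 9 * F + 3 * y) :
    hx + 4 * Lv + m + μ' / 2 + 3 * σ ≤ 3 * κ + 3 * s₀ := by
  have hFc : F = 0 ∨ F = (4 * m - 3 * κ) / 9 := by
    rcases max_choice 0 ((4 * m - 3 * κ) / 9) with h | h
    · exact Or.inl (hF.trans h)
    · exact Or.inr (hF.trans h)
  subst hg
  clear hF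
  rcases hFc with hF | hF <;> subst hF <;> linarith

end Crest.Agent.R017.NOy110
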