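import Crest.Agent.R017.NOx_126
import Crest.Agent.R017.JBN_551

/-!
# Row 17, (Ro) at the near leaf, class N: the T-half under the prefix of the leaf (helper126)

* **`leafT_N`** : (q0), (q2), (q3) and the two `T`-numbers of the twisted windows
-/

set_option autoImplicit false
set_option linter.unusedVariables false

noncomputable section

open Complex MeasureTheory
open scoped ComplexConjugate Classical

namespace Crest.Agent.R017.NOt126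

open Crest.Agent.R012 Crest.Agent.R012.Eis Crest.Agent.R012.LS2 Crest.Agent.R012.Gauss880
open Crest.Agent.R012.Weight600 (pw)
open Crest.Agent.R017.CM106 Crest.Agent.R017.FE47
open Crest.Agent.R017.HP842 hiding fl
open Crest.Agent.R017.End699 hiding pw
open Crest.Agent.R017.B770
open Crest.Agent.R017.Prov71
open Crest.Agent.R017.Leg381
open Crest.Agent.R017.Win813 (WK)
open Crest.Agent.R017.RGw813 (T9 bt)
open Crest.Agent.R017.E1551 (Adm)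
open Crest.Agent.R017.RG64
open Crest.Agent.R017.XP699 (LL Chd hcost cst)
open Crest.Agent.R017.NE73 (gN)
open Crest.Agent.R017.NEg551 (NFacts NTc NNum)

variable {Lam : Type*}

set_option maxHeartbeats 1600000 in
/-- **the T-half of `NumOs` at the near leaf**, class N -/
theorem leafT_N {π : Lam → DPar} (hP : ∀ lam, (π lam).OK) {h : ℝ → ℝ} {c₂ : ℝ} (hpu : PU h c₂)
    {K v c c' : ℝ} (hc : 0 < c) (hcc : 30 * c ≤ c') (hcK : 1000 * c' ≤ K) :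
    ∀ (lam : Lam) (N : ℕ) (c₀ : ℝ), 1 ≤ c₀ → ∀ ε ε' M : ℝ, 0 < ε →
    0 < ε' → 0 ≤ M →
    ∃ J₀ δ₀ : ℝ, 0 ≤ J₀ ∧ 0 < δ₀ ∧ ∀ (δ : ℝ) (Jn Aw : ℕ) (Cw η S' : ℝ), 0 ≤ δ → δ ≤ δ₀ →
    J₀ ≤ Jn → Jn + 2 ≤ Aw → 0 ≤ Cw → 0 < η → η ≤ 1 / 2 → 0 ≤ S' → ∀ cc : ℝ, 1 ≤ cc →
    ∃ C X₁ : ℝ, 1 ≤ C ∧ ∀ X : ℝ, 3 ≤ X → X₁ ≤ X → ∀ ps₀ : List Pq, ps₀.length ≤ N →
    NNum K v c ε X ps₀ → ∀ (q : Eis) (ps : List Pf) (Lv : ℝ) (N₁ : ℕ),
    NFacts K v (gN K c (LL Dq ps₀ / Real.log X)) ε X ps₀ ps Lv N₁ →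
    IsPrim q → (nm q : ℝ) ≤ X ^ c₀ → SbL S' ps ps₀ → ∀ Bd r b : ℝ, 1 ≤ Bd → C ≤ r →
    C * X ^ (c₀ + 2 * K) ≤ b → NTc (π lam) h K v c (2 * ε) X r b M Bd ps₀ →
    ∀ E0 E1 B H D : ℝ, 0 < E0 → 0 < E1 → 0 < B → 0 < H →
    Real.log E0 ≤ F3n (K * Real.log X) (LF ps) + 10 * (c * Real.log X) →
    Real.log E1 ≤ F3n (K * Real.log X) (LF ps) + 20 * (c * Real.log X) →
    Real.log B ≤ F3n (K * Real.log X) (LF ps) + 21 * (c * Real.log X) →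
    Real.log H = 3 * F3n (K * Real.log X) (LF ps) + 3 * (c' * Real.log X) →
    H ^ (1 / 3 : ℝ) * N₁ * E1 ^ 2 * B ^ 2 ≤ X ^ K ∧
    H * (Real.exp 1 * N₁) ^ 3 * E1 ^ 3 * B ^ 2 ≤ (X ^ K) ^ 2 ∧
    H ^ 2 * (Real.exp 1 * N₁) ^ 3 ≤ (X ^ K) ^ 2 ∧
    ∀ p ∈ T9, ∀ φ : ℝ → ℝ, WK Cw η Aw φ → ∀ t : ℝ,
    ∃ τ τ₁ : ℝ, 0 ≤ τ ∧ 0 ≤ τ₁ ∧
      TNa (X ^ K) E0 D cc N₁
        (fun n => bt φ (sqc q (alF (X ^ δ) (X ^ δ) (π lam) h ps)) p n * pw t (nm n)) τ ∧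
      TNf (X ^ K) E0 D cc N₁
        (fun n => bt φ (sqc q (alF (X ^ δ) (X ^ δ) (π lam) h ps)) p n * pw t (nm n)) τ₁ ∧
      H ^ (-(1 / 3) : ℝ) * τ ≤ (C * X ^ ε' * (Ht ps * Ht (natl ps₀)) ^ J₀ * Bd *
        (1 + |t|) ^ Jn) * (X ^ K * Real.exp (LF ps)) ∧
      (Real.exp 1 * N₁) ^ (2 / 3 : ℝ) * E1 ^ 2 * B ^ 2 / X ^ K * τ₁ ≤
        (C * X ^ ε' * (Ht ps * Ht (natl ps₀)) ^ J₀ * Bd *
        (1 + |t|) ^ Jn) * (X ^ K * Real.exp (LF ps)) := by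
  have hc' : 0 < c' := by linarith
  have hK : 0 < K := by linarith
  intro lam N c₀ hc₀ ε ε' M hε hε' hM
  have hN0 : (0 : ℝ) ≤ N := Nat.cast_nonneg N
  refine ⟨(N + 1) * M, c / (N + 1), by positivity, by positivity, ?_⟩
  intro δ Jn Aw Cw η S' hδ0 hδ hJn hAw hCw hη hη2 hS cc hcc1
  have hlc : 0 ≤ Real.log cc := Real.log_nonneg hcc1
  obtain ⟨Ra, Ca, hRa, hCa, hAL⟩ := exists_ALp hpu N
  obtain ⟨C₁, X₁, hC₁, G⟩ := os_leaf (R := 2 * Ra) (by positivity) hAw hCw hc hcc hcK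
    (by positivity : 0 < ε' / 2) hcc1
  obtain ⟨C₃, r₃, hC₃, hr₃, HJ⟩ := JBN551.jbn_near hpu N hK (ε := ε' / 2) (M := M)
    (by positivity) hM
  have hNM : (N : ℝ) * M ≤ Jn := by
    have h2 : (N + 1) * M = N * M + M := by ring
    linarith
  have hδN : N * δ ≤ c := by
    rw [le_div_iff₀ (by positivity)] at hδ
    nlinarith
  obtain ⟨cw, hcw⟩ : ∃ x, x = 9 * Real.exp 1 ^ 2 * cc := ⟨_, rfl⟩
  have hcw1 : 1 ≤ cw := by
    rw [hcw]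
    have he1 : (1 : ℝ) ≤ Real.exp 1 ^ 2 := one_le_pow₀ (Real.one_le_exp zero_le_one)
    nlinarith
  have hlw : 0 ≤ Real.log cw := Real.log_nonneg hcw1
  obtain ⟨T₀, hT₀⟩ : ∃ T : ℝ, T = 6 + r₃ + Ra + Real.log cw := ⟨_, rfl⟩
  have hT₀0 : 0 < T₀ := by rw [hT₀]; linarith
  have hη1' : 0 ≤ (η⁻¹) ^ Jn := by positivity
  refine ⟨C₁ * (η⁻¹) ^ Jn * C₃ + Real.exp r₃ + (S' + r₃) + 1,
    max (max X₁ Ca) (Real.exp (T₀ / ε + T₀)), ?_, ?_⟩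
  · have h1 : 0 ≤ C₁ * (η⁻¹) ^ Jn * C₃ := by positivity
    have h2 := Real.exp_pos r₃
    linarith
  intro X hX3 hXX ps₀ hlen hnum q ps Lv N₁ hF hq hqX hps Bd r b hBd hCr hCb hT E0 E1 B H D hE0 hE1
    hB hH h0 h1 h2 h3
  have hX0 : 0 < X := by linarith
  have hX1 : 1 ≤ X := by linarith
  obtain ⟨q0, q2, q3, q4⟩ := G X hX3 ((le_max_left _ _).trans ((le_max_left _ _).trans hXX)) v ε
    ps₀ ps Lv N₁ hnum hF E0 E1 B H D hE0 hE1 hB hH h0 h1 h2 h3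
  refine ⟨q0, q2, q3, ?_⟩
  intro p hp φ hφ t
  obtain ⟨L', hL⟩ : ∃ L : ℝ, L = Real.log X := ⟨_, rfl⟩
  have hTL : T₀ / ε + T₀ ≤ L' := by
    rw [hL, Real.le_log_iff_exp_le hX0]
    exact (le_max_right _ _).trans hXX
  have hTε0 : 0 ≤ T₀ / ε := by positivity
  have hL0 : 0 < L' := by linarith
  have hTε : T₀ ≤ ε * L' := by
    have h1 : T₀ / ε ≤ L' := by linarith
    rw [div_le_iff₀ hε] at h1
    linarith
  have hpowX : ∀ x : ℝ, X ^ x = Real.exp (x * L') := fun x => by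
    rw [Real.rpow_def_of_pos hX0, hL, mul_comm]
  have hεc := hnum.ec
  obtain ⟨n, hn⟩ : ∃ n : ℝ, n = LL Dq ps₀ := ⟨_, rfl⟩
  obtain ⟨m, hm⟩ : ∃ m : ℝ, m = LF ps := ⟨_, rfl⟩
  have f2 := hF.hi
  have f3 := hF.lv
  have f4 := hF.top
  have f5 := hnum.nK
  have f6 := hnum.sn
  have f8 := hF.lo
  have hgL : gN K c (LL Dq ps₀ / Real.log X) * Real.log X = n - 3 / 4 * (K * L') + c * L' := by
    rw [← hL, ← hn]
    unfold NE73.gN
    field_simp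
  rw [hgL, ← hn, ← hm] at f8
  rw [← hL, ← hn, ← hm] at f2 f3
  rw [← hL, ← hm] at f4
  rw [← hL, ← hn] at f5 f6
  have hcL : 0 ≤ c * L' := by positivity
  have hεcL : ε * L' ≤ c * L' := mul_le_mul_of_nonneg_right hεc hL0.le
  have hcKL : 30000 * (c * L') ≤ K * L' := by
    have h4 : 30000 * c ≤ K := by linarith
    have := mul_le_mul_of_nonneg_right h4 hL0.le
    linarith
  have e2 : (4 * K + ε) * L' = 4 * (K * L') + ε * L' := by ring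
  have e3 : (7 * K + ε) * L' = 7 * (K * L') + ε * L' := by ring
  have e4 : (v + ε) * L' = v * L' + ε * L' := by ring
  have e5 : 100 * c * L' = 100 * (c * L') := by ring
  rw [e2] at f5
  rw [e3, e5] at f6
  rw [e4] at f3
  have hKL : 0 ≤ K * L' := by positivity
  have e8 : 8 * (K + 1) * L' = 8 * (K * L') + 8 * L' := by ring
  -- the joint numbers
  have hqb : (nm q : ℝ) * Real.exp (LF ps) * Real.exp r₃ ≤ b := by
    have h1 : Real.exp (LF ps) ≤ X ^ (2 * K) := by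
      rw [hpowX, ← hm]
      refine Real.exp_le_exp.2 ?_
      linarith
    have h2 : X ^ c₀ * X ^ (2 * K) = X ^ (c₀ + 2 * K) := by rw [← Real.rpow_add hX0]
    calc (nm q : ℝ) * Real.exp (LF ps) * Real.exp r₃ ≤ X ^ c₀ * X ^ (2 * K) * Real.exp r₃ := by
          gcongr
      _ = Real.exp r₃ * X ^ (c₀ + 2 * K) := by rw [h2]; ring
      _ ≤ (C₁ * (η⁻¹) ^ Jn * C₃ + Real.exp r₃ + (S' + r₃) + 1) * X ^ (c₀ + 2 * K) := by
          refine mul_le_mul_of_nonneg_right ?_ (by positivity)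
          have h5 : 0 ≤ C₁ * (η⁻¹) ^ Jn * C₃ := by positivity
          linarith
      _ ≤ b := hCb
  have hSr : S' + r₃ ≤ r := by
    refine le_trans ?_ hCr
    have h5 : 0 ≤ C₁ * (η⁻¹) ^ Jn * C₃ := by positivity
    have h6 := Real.exp_pos r₃
    linarith
  have hJB := HJ X hX3 (π lam) (hP lam) ps₀ hlen v c (gN K c (LL Dq ps₀ / Real.log X)) ε (2 * ε) S'
    r b Bd δ (3 * (c * L') + c * L') cw Jn hc.le hcw1 (by positivity) hδ0 hNM (by linarith) hSr hT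
    q ps Lv N₁ hF hq hqb hps (by rw [← hL]; linarith) (by rw [← hL, e8]; linarith)
    (by rw [← hL, e8, ← hm]; linarith) (by
      rw [← hL]
      have h5 : N * (δ * L') ≤ c * L' := by
        rw [← mul_assoc]
        exact mul_le_mul_of_nonneg_right hδN hL0.le
      have h6 : (c / 3 + 2 * ε) * L' = (c * L') / 3 + 2 * (ε * L') := by ring
      linarith)
  -- the support
  have hX' : X ≤ X ^ (8 * (K + 1)) := by
    calc X = X ^ (1 : ℝ) := (Real.rpow_one X).symm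
      _ ≤ _ := Real.rpow_le_rpow_of_exponent_le hX1 (by linarith)
  obtain ⟨hsup, hwin, _, hFS⟩ := hAL (X ^ δ) (X ^ δ) (π lam) (hP lam) q ps (hps.length ▸ hlen)
    (X ^ (8 * (K + 1))) (((le_max_right _ _).trans ((le_max_left _ _).trans hXX)).trans hX') (by
      rw [← Real.exp_add, hpowX, e8, ← hm]
      refine Real.exp_le_exp.2 ?_
      linarith)
  have hadm : Adm (X ^ (8 * (K + 1))) (Real.exp (LF ps)) (2 * Ra)
      (sqc q (alF (X ^ δ) (X ^ δ) (π lam) h ps)) :=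
    ⟨hsup, fun n hn => (hwin n hn).trans (by linarith)⟩
  have hJB' : TNj90.JBc (X ^ (8 * (K + 1))) (9 * Real.exp 1 ^ 2 * cc * N₁)
      (C₃ * X ^ (ε' / 2) * (Bd * Ht (natl ps₀) ^ M) * Ht ps ^ M) ((Jn : ℕ) : ℝ)
      (ShN (K * Real.log X) (gN K c (LL Dq ps₀ / Real.log X) * Real.log X) (LL Dq ps₀)
          (LF ps) (3 * (c * L') + c * L')) (sqc q (alF (X ^ δ) (X ^ δ) (π lam) h ps)) := by
    rw [← hcw]
    exact hJB
  have hBd0 : 0 ≤ Bd := by linarith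
  have hH1 : 1 ≤ Ht ps := one_le_Ht _
  have hH2 : 1 ≤ Ht (natl ps₀) := one_le_Ht _
  have hHH : 1 ≤ Ht ps * Ht (natl ps₀) := one_le_mul_of_one_le_of_one_le hH1 hH2
  obtain ⟨τ, τ₁, t1, t2, t3, t4, t5, t6⟩ := q4
    (C₃ * X ^ (ε' / 2) * (Bd * Ht (natl ps₀) ^ M) * Ht ps ^ M) η (3 * (c * L') + c * L') _
    (by positivity) hη (by linarith) (by rw [← hL]; linarith) hFS hadm hJB' p hp φ hφ t
  have hnum' : C₁ * (η⁻¹) ^ Jn * X ^ (ε' / 2) * (C₃ * X ^ (ε' / 2) * (Bd * Ht (natl ps₀) ^ M) *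
      Ht ps ^ M) * (1 + |t|) ^ Jn ≤ (C₁ * (η⁻¹) ^ Jn * C₃ + Real.exp r₃ + (S' + r₃) + 1) * X ^ ε' *
        (Ht ps * Ht (natl ps₀)) ^ ((N + 1) * M) * Bd * (1 + |t|) ^ Jn := by
    have hHM : Ht (natl ps₀) ^ M * Ht ps ^ M ≤ (Ht ps * Ht (natl ps₀)) ^ ((N + 1) * M) := by
      rw [← Real.mul_rpow (by linarith) (by linarith), mul_comm (Ht (natl ps₀)) (Ht ps)]
      refine Real.rpow_le_rpow_of_exponent_le hHH ?_
      nlinarith
    have hXε : X ^ (ε' / 2) * X ^ (ε' / 2) = X ^ ε' := by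
      rw [← Real.rpow_add hX0]; congr 1; ring
    have h5 : 0 ≤ C₁ * (η⁻¹) ^ Jn * C₃ := by positivity
    have h6 := Real.exp_pos r₃
    calc C₁ * (η⁻¹) ^ Jn * X ^ (ε' / 2) * (C₃ * X ^ (ε' / 2) * (Bd * Ht (natl ps₀) ^ M) *
          Ht ps ^ M) * (1 + |t|) ^ Jn =
        (C₁ * (η⁻¹) ^ Jn * C₃) * (X ^ (ε' / 2) * X ^ (ε' / 2)) *
          (Ht (natl ps₀) ^ M * Ht ps ^ M) * Bd * (1 + |t|) ^ Jn := by ring
      _ ≤ _ := by
        rw [hXε]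
        gcongr
        linarith
  have hKe : 0 ≤ X ^ K * Real.exp (LF ps) := by positivity
  exact ⟨τ, τ₁, t1, t2, t3, t4, t5.trans (mul_le_mul_of_nonneg_right hnum' hKe),
    t6.trans (mul_le_mul_of_nonneg_right hnum' hKe)⟩

end Crest.Agent.R017.NOt126
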