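import Crest.Agent.R017.NEU_603
import Crest.Agent.R017.RoX_116

/-!
# Row 17, FlatNE, NumOs class E (helper110, second hand of helper116): the line of the Gram sums as
the premise of (RH)

* `ln_rn` : `LnP (LEk π h (dRn hh μ c))` gives helper116's premise (RHx_leafe) for the children of
  length at most `LF ps - D'`, with the target `T - 2/3 D'`
-/

set_option autoImplicit false
set_option maxHeartbeats 800000

noncomputable section

open scoped Classical

namespace Crest.Agent.R017.NOz110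

open Crest.Agent.R012 Crest.Agent.R012.Eis
open Crest.Agent.R017.FE47
open Crest.Agent.R017.B770
open Crest.Agent.R017.Prov71 hiding tl
open Crest.Agent.R017.XP699 (LL Chd hcost cst)
open Crest.Agent.R017.RGB545 (Line TK Th LEk dRn)
open Crest.Agent.R017.RXk848 (LnP)

/-- **the line as the premise of (RH)**, children shorter by `D'` -/
theorem ln_rn {Lam : Type*} {π : Lam → DPar} {h : ℝ → ℝ} {hh : ℝ → ℝ → ℝ → ℝ}
    {c μ K ε ε₂ M r r' bm bm' X n v Bd T D' κ γ μl h' F Im : ℝ}
    {lam : Lam} {base : List Pq} (hX : 3 ≤ X) (hK : 0 ≤ K) (hr : r ≤ r') (hbm : bm ≤ bm')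
    (hε : 0 ≤ ε) (hε₂ : ε₂ ≤ ε) (hε₂0 : 0 ≤ ε₂) (hεc : ε₂ ≤ c) (hBd : 0 ≤ Bd)
    (hκ : κ = K * Real.log X) (hγ : γ = c * Real.log X) (hμl : μl = μ * Real.log X)
    (hh' : h' = hh K (v / Real.log X) (n / Real.log X) * Real.log X)
    (hF : F = max 0 ((4 * n - 3 * κ) / 9)) (hIm : Im = v + n + h' - κ + μl)
    (hTK : Im ≤ TK K * Real.log X) (hD0 : 0 ≤ D') (hDK : 15 * D' ≤ κ)
    (hT : 0 ≤ Im → 4 / 3 * n + (v + κ) / 3 + h' / 3 -
      max 0 (max ((h' + 2 * v - κ) / 3) ((h' + 2 * v - κ) - (v + n + h' - κ) / 2)) - μl -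
        16 / 27 * F ≤ T)
    (H : LnP (LEk π h (dRn hh μ c)) lam K ε M r' bm' X (n / Real.log X) (v / Real.log X) Bd base)
    (l : ℝ) (ps' : List Pq) (hl0 : 0 ≤ l) (hl : l ≤ Im)
    (hch : List.Forall₂ (Chd Dq hcost r bm) ps' base)
    (hLL : LL Dq ps' ≤ n - D' + ε₂ * Real.log X) :
    XPX241.RN (π lam) h l ps' ≤ Bd * cst hcost ps' base ^ M *
      Real.exp (T - 2 / 3 * D' - n + LL Dq ps' - (Im - l) / 3) := by
  have hX0 : 0 < X := by linarith
  have hL : 0 < Real.log X := Real.log_pos (by linarith)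
  have hTK0 : 0 ≤ TK K := by unfold RGB545.TK; positivity
  have h1 := H () ⟨0, ⟨le_rfl, fun _ => hTK0⟩⟩ l ps' hl0 (hl.trans hTK)
    (RlB791.chdL_mono hr hbm hch)
    (by
      rw [add_mul, div_mul_cancel₀ _ hL.ne']
      have : ε₂ * Real.log X ≤ ε * Real.log X := mul_le_mul_of_nonneg_right hε₂ hL.le
      linarith)
    (by
      show l / Real.log X - (v / Real.log X + n / Real.log X +
        hh K (v / Real.log X) (n / Real.log X) - K + μ) ≤ ε
      have h2 : l / Real.log X ≤ v / Real.log X + n / Real.log X +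
          hh K (v / Real.log X) (n / Real.log X) - K + μ := by
        rw [div_le_iff₀ hL]
        have : (v / Real.log X + n / Real.log X + hh K (v / Real.log X) (n / Real.log X) - K + μ) *
            Real.log X = Im := by
          rw [hIm, hh', hκ, hμl]; field_simp
        rw [this]; exact hl
      linarith)
    (fun hz => hz.elim)
  have h2 : XPX241.RN (π lam) h l ps' ≤ Bd * cst hcost ps' base ^ M *
      X ^ (4 / 3 * (n / Real.log X) + (v / Real.log X + K) / 3 +
        (hh K (v / Real.log X) (n / Real.log X) / 3 -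
          max 0 (max ((hh K (v / Real.log X) (n / Real.log X) + 2 * (v / Real.log X) - K) / 3)
            ((hh K (v / Real.log X) (n / Real.log X) + 2 * (v / Real.log X) - K) -
              (v / Real.log X + n / Real.log X + hh K (v / Real.log X) (n / Real.log X) - K) / 2)) -
          (n / Real.log X - LL Dq ps' / Real.log X) -
          2 / 3 * min (n / Real.log X - LL Dq ps' / Real.log X) (K / 15) -
          ((v / Real.log X + n / Real.log X + hh K (v / Real.log X) (n / Real.log X) - K) + μ -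
            l / Real.log X) / 3 - μ -
          16 / 27 * max 0 ((4 * (n / Real.log X) - 3 * K) / 9) - 4 * c)) := h1
  refine h2.trans (mul_le_mul_of_nonneg_left ?_ ?_)
  · rw [Real.rpow_def_of_pos hX0]
    refine Real.exp_le_exp.2 ?_
    have h4 := hT (hl0.trans hl)
    obtain ⟨a, ha⟩ : ∃ a, a = hh K (v / Real.log X) (n / Real.log X) := ⟨_, rfl⟩
    obtain ⟨L, hLd⟩ : ∃ L, L = Real.log X := ⟨_, rfl⟩
    rw [← ha] at hh' ⊢
    rw [← hLd] at hκ hγ hμl hh' hLL hL ⊢
    obtain ⟨s, hs⟩ : ∃ s, s = LL Dq ps' := ⟨_, rfl⟩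
    rw [← hs] at hLL ⊢
    have e1 : max 0 (max ((a + 2 * (v / L) - K) / 3)
        ((a + 2 * (v / L) - K) - (v / L + n / L + a - K) / 2)) * L =
        max 0 (max ((h' + 2 * v - κ) / 3) ((h' + 2 * v - κ) - (v + n + h' - κ) / 2)) := by
      rw [max_mul_of_nonneg _ _ hL.le, max_mul_of_nonneg _ _ hL.le, zero_mul, hh', hκ]
      congr 2 <;> field_simp
    have e2 : min (n / L - s / L) (K / 15) * L = min (n - s) (κ / 15) := by
      rw [min_mul_of_nonneg _ _ hL.le, hκ]
      congr 1 <;> field_simp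
    have e3 : max 0 ((4 * (n / L) - 3 * K) / 9) * L = F := by
      rw [hF, max_mul_of_nonneg _ _ hL.le, zero_mul, hκ]
      congr 1
      field_simp
    have h5 : D' - ε₂ * L ≤ min (n - s) (κ / 15) := by
      have h6 : 0 ≤ ε₂ * L := mul_nonneg hε₂0 hL.le
      refine le_min (by linarith) (by linarith)
    have h7 : ε₂ * L ≤ γ := by rw [hγ]; exact mul_le_mul_of_nonneg_right hεc hL.le
    have h8 : 0 ≤ ε₂ * L := mul_nonneg hε₂0 hL.le
    obtain ⟨m1, hm1⟩ : ∃ m, m = max 0 (max ((a + 2 * (v / L) - K) / 3)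
        ((a + 2 * (v / L) - K) - (v / L + n / L + a - K) / 2)) := ⟨_, rfl⟩
    obtain ⟨m2, hm2⟩ : ∃ m, m = min (n / L - s / L) (K / 15) := ⟨_, rfl⟩
    obtain ⟨m3, hm3⟩ : ∃ m, m = max 0 ((4 * (n / L) - 3 * K) / 9) := ⟨_, rfl⟩
    rw [← hm1] at e1
    rw [← hm2] at e2
    rw [← hm3] at e3
    rw [← hm1, ← hm2, ← hm3]
    rw [← e1, ← e3] at h4
    rw [← e2] at h5
    have e4 : L * (4 / 3 * (n / L) + (v / L + K) / 3 + (a / 3 - m1 - (n / L - s / L) -
        2 / 3 * m2 - ((v / L + n / L + a - K) + μ - l / L) / 3 - μ - 16 / 27 * m3 - 4 * c)) =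
        4 / 3 * n + (v + κ) / 3 + h' / 3 - m1 * L - (n - s) - 2 / 3 * (m2 * L) -
          (Im - l) / 3 - μl - 16 / 27 * (m3 * L) - 4 * γ := by
      rw [hIm, hh', hκ, hμl, hγ]
      field_simp
      ring
    rw [e4]
    linarith
  · have := RlB791.one_le_cst ps' base
    positivity

end Crest.Agent.R017.NOz110
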