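import Crest.Agent.R017.UrB_699
import Crest.Agent.R017.BEndA3_699
import Crest.Agent.R017.L6d_106
import Crest.Agent.R017.L7a_858
import Crest.Agent.R017.NatZ3_571
import Crest.Agent.R017.BL5S2a_880

/-!
# Row 17, section B, leaf NPL, part a: elementary facts on `NSumS` (helper699)
-/

set_option autoImplicit false

noncomputable section

open MeasureTheory Complex Set Filter Topology
open scoped ComplexConjugate ContDiff

namespace Crest.Agent.R017.NPL699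

open Crest.Agent.R012 Crest.Agent.R012.Eis Crest.Agent.R012.Mob705 Crest.Agent.R012.Gauss880
open Crest.Agent.R012.PSer47
open Crest.Agent.R017.End699 Crest.Agent.R017.Sx440 Crest.Agent.R017.Sx545 Crest.Agent.R017.B770
open Crest.Agent.R017.Asm986 Crest.Agent.R017.BEndA699

variable {M m₀ : Eis}

/-- `k = 0` does not contribute -/
lemma DM_zero (h36 : (36 : Eis) ∣ M) (hr : Rad0 M m₀) :
    FE47.DM (3 * m₀) (fun a => sy a m₀) 0 = 0 := by
  obtain ⟨c₀, hc₀, hc⟩ := S2a880.s2a M m₀ h36 hr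
  have hnu : ¬ IsCoprime (0 : Eis) m₀ := by
    rw [isCoprime_zero_left]
    intro hu
    have h2 := (L6106.Rad0.two hr h36)
    rcases Crest.Agent.R017.Sx440.prime_two.dvd_or_dvd h2 with h | h
    · obtain ⟨t, ht⟩ := h
      have h1 := congrArg QuadraticAlgebra.re ht
      simp at h1
      omega
    · exact Crest.Agent.R017.Sx440.prime_two.not_isUnit (isUnit_of_dvd_unit h hu)
  have := (hc 0).2 hnu
  simpa using this

lemma twt_zero' (φ : Eis → ℂ) (l : ℤ) : twt φ l 0 = tw φ l := by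
  funext b
  unfold twt; simp

/-- a prime occurring in an amplifier tuple with nonzero weight is large -/
lemma coprime_of_weight {h : ℝ → ℂ} (hh : HW h) {r : ℕ} {y Q : ℝ} (hQ : 1 ≤ Q) {M : Eis}
    (hM : M ≠ 0) (hMQ : (nm M : ℝ) < Q ^ (y / r) / 9) {i : Fin r} {p : Eis}
    (hp : p ∈ prS (kap r y Q i)) (hw : h (Real.log (nm p) - kap r y Q i) ≠ 0) :
    IsCoprime p M := by
  classical
  have hp1 : IsPrim p ∧ Prime p := by
    unfold prS at hp
    rw [Finset.mem_filter, mem_primBall] at hp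
    exact ⟨hp.1.2, hp.2⟩
  have h1 := (abs_le.mp (hh.supp _ hw)).1
  have hQ0 : 0 < Q := by linarith
  have hnp : (0 : ℝ) < nm p := by exact_mod_cast nm_pos.mpr hp1.1.ne_zero
  have h2 : y / r * Real.log Q - 1 ≤ Real.log (nm p) := by
    unfold B770.kap at h1
    have : (0 : ℝ) ≤ (i : ℕ) := by positivity
    linarith
  have h3 : Q ^ (y / r) / Real.exp 1 ≤ nm p := by
    rw [← Real.exp_log hnp]
    calc Q ^ (y / r) / Real.exp 1 = Real.exp (y / r * Real.log Q - 1) := by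
          rw [Real.exp_sub, Real.rpow_def_of_pos hQ0, mul_comm (Real.log Q)]
      _ ≤ Real.exp (Real.log (nm p)) := Real.exp_le_exp.mpr h2
  have h4 : Q ^ (y / r) / 9 ≤ Q ^ (y / r) / Real.exp 1 := by
    have := Real.exp_one_lt_d9
    gcongr
    linarith
  have h5 : nm M < nm p := by
    have : (nm M : ℝ) < nm p := by linarith
    exact_mod_cast this
  rw [hp1.2.irreducible.coprime_iff_not_dvd]
  rintro ⟨t, ht⟩
  have h6 : nm M = nm p * nm t := by rw [ht, nm_mul]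
  have h7 : 0 < nm t := by
    apply nm_pos.mpr
    rintro rfl
    exact hM (by rw [ht, mul_zero])
  have h8 : nm p ≤ nm M := by rw [h6]; exact Nat.le_mul_of_pos_right _ h7
  omega

/-- `NSumS` with `g = 1` -/
lemma NSumS_one_eq {h₀ h : ℝ → ℂ} (hh : HW h) {r : ℕ} {y δ Q κ₀ : ℝ} (hδ : 0 ≤ δ) (hQ : 1 ≤ Q)
    {M : Eis} (hM : M ≠ 0) (hMQ : (nm M : ℝ) * Q ^ δ * 9 < Q ^ (y / r)) (J : Finset (Fin r))
    (f : Eis → ℂ) (V : ℝ → ℂ) (Q' : ℝ) (k : Eis) :
    NSumS h₀ h r y Q κ₀ J M f (fun _ => 1) V Q' k =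
      NSumS h₀ h r y Q κ₀ J M f (prin0 M) V Q' k := by
  have hMQ' : (nm M : ℝ) < Q ^ (y / r) / 9 := by
    have h1 : (1 : ℝ) ≤ Q ^ δ := Real.one_le_rpow hQ hδ
    have h2 : (0 : ℝ) ≤ nm M := Nat.cast_nonneg _
    have h3 : (nm M : ℝ) ≤ nm M * Q ^ δ := le_mul_of_one_le_right h2 h1
    linarith
  unfold NSumS
  apply Finset.sum_congr rfl
  intro c hc
  congr 1
  apply Finset.sum_congr rfl
  intro p hp
  by_cases hw : ∏ i : J, h (Real.log (nm (p i)) - kap r y Q i) = 0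
  · rw [hw]; ring
  · have h1 : IsCoprime (∏ i : J, p i) M := by
      apply IsCoprime.prod_left
      intro i _
      have h2 : h (Real.log (nm (p i)) - kap r y Q i) ≠ 0 :=
        Finset.prod_ne_zero_iff.mp hw i (Finset.mem_univ i)
      have h3 : p i ∈ prS (kap r y Q i) := by
        unfold tup at hp
        rw [Fintype.mem_piFinset] at hp
        exact hp i
      exact coprime_of_weight hh hQ hM hMQ' h3 h2
    have h2 : IsCoprime (c * ∏ i : J, p i) M :=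
      (NatZ3571.mem_sqS.mp hc).2.mul_left h1
    have h4 : prin0 M (c * ∏ i : J, p i) = 1 := by
      unfold prin0; rw [if_pos h2]
    rw [h4]

/-- change of scale of the weight -/
lemma NSumS_scale {h₀ h : ℝ → ℂ} {r : ℕ} {y Q₀ κ₀ : ℝ} {J : Finset (Fin r)} {M : Eis}
    {f g : Eis → ℂ} {V : ℝ → ℂ} {R Q : ℝ} (hR : 0 < R) (k : Eis) :
    NSumS h₀ h r y Q₀ κ₀ J M f g V Q k =
      NSumS h₀ h r y Q₀ κ₀ J M f g (fun x => V (R * x)) (R * Q) k := by
  unfold NSumS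
  refine Finset.sum_congr rfl fun c _ => ?_
  congr 1
  refine Finset.sum_congr rfl fun p _ => ?_
  congr 1
  refine tsum_congr fun b => ?_
  have : R * ((nm b : ℝ) / (R * Q)) = nm b / Q := by
    field_simp
  simp only [this]

/-- the inner sum is a finite sum -/
lemma inner_fin {V : ℝ → ℂ} {R Q : ℝ} (hRV : ∀ x, V x ≠ 0 → x ≤ R) (hQ : 0 < Q) (f : Eis → ℂ)
    (M k c : Eis) :
    (∑' b : Eis, (open Classical in if Sm M b then f b * tk k b c * V (nm b / Q) else 0)) =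
      ∑ b ∈ L6106.SF M ⌊R * Q⌋₊, f b * tk k b c * V (nm b / Q) := by
  classical
  have h1 : Sm M 1 := ⟨isPrim_one, isCoprime_one_left⟩
  have h := L6106.inner_eq (M := M) hRV hQ f h1 k c
  have h2 : ((nm (1 : Eis) : ℕ) : ℝ) = 1 := by simp
  rw [h2] at h
  simp only [one_pow, div_one, mul_one] at h
  rw [h]
  refine Finset.sum_congr rfl fun b _ => ?_
  ring

/-- trivial bound -/
theorem NSumS_triv {h₀ h : ℝ → ℂ} (hh₀ : HW h₀) (hh : HW h) {V : ℝ → ℂ} (hV : SW V) (r : ℕ)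
    (hr : 0 < r) (y δ : ℝ) : ∃ C : ℝ, 0 ≤ C ∧
    ∀ (M : Eis) (f g : Eis → ℂ), (2 : Eis) ∣ M → (∀ b, Sm M b → ‖f b‖ ≤ 1) → (∀ b, ‖g b‖ ≤ 1) →
    ∀ Q₀ Q : ℝ, 1 ≤ Q₀ → 0 < Q → ∀ k : Eis,
      ‖NSumS h₀ h r y Q₀ (δ * Real.log Q₀) Finset.univ M f g V Q k‖ ≤
        C * Q ^ 2 * Q₀ ^ (3 / 2 * (y + δ)) := by
  obtain ⟨Bv, R, hBv, hR1, hVB, hRV⟩ := NatZ571.SW.bounds hV
  obtain ⟨B0, hB0⟩ : ∃ B, ∀ u, ‖h₀ u‖ ≤ B := by
    obtain ⟨B, hB⟩ := hh₀.cd.continuous.bounded_above_of_compact_support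
      (HasCompactSupport.of_support_subset_isCompact (K := Icc (-1) 1) isCompact_Icc
        (fun u hu => abs_le.mp (hh₀.supp u hu)))
    exact ⟨B, hB⟩
  obtain ⟨B1, hB1⟩ : ∃ B, ∀ u, ‖h u‖ ≤ B := by
    obtain ⟨B, hB⟩ := hh.cd.continuous.bounded_above_of_compact_support
      (HasCompactSupport.of_support_subset_isCompact (K := Icc (-1) 1) isCompact_Icc
        (fun u hu => abs_le.mp (hh.supp u hu)))
    exact ⟨B, hB⟩
  have hB00 : 0 ≤ B0 := (norm_nonneg _).trans (hB0 0)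
  obtain ⟨D, hD0, hD⟩ := NatZ571.amp_sum_le r y hB1 (a := 1 / 2) (by norm_num)
  refine ⟨100 * B0 * Real.exp (3 / 2) * D * (100 * R * (R * Bv)), by positivity, ?_⟩
  intro M f g h2M hf hg Q₀ Q hQ₀ hQ k
  have hQ00 : 0 < Q₀ := by linarith
  have hin : ∀ c : Eis, IsPrim c →
      ‖∑' b : Eis, (open Classical in if Sm M b then f b * tk k b c * V (nm b / Q) else 0)‖ ≤
        (100 * R * (R * Bv)) * Q ^ 2 * Real.sqrt (nm c) := by
    intro c hc
    rw [inner_fin hRV hQ]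
    have h1 : ∀ b ∈ L6106.SF M ⌊R * Q⌋₊, ‖f b * tk k b c * V (nm b / Q)‖ ≤
        (R * Q) * Real.sqrt (nm c) * Bv := by
      intro b hb
      rw [L6106.mem_SF] at hb
      have hb2 : Sm 2 b := ⟨hb.2.1, hb.2.2.of_isCoprime_of_dvd_right h2M⟩
      have hb3 : (nm b : ℝ) ≤ R * Q :=
        (Nat.cast_le.mpr hb.1).trans (Nat.floor_le (by positivity))
      rw [norm_mul, norm_mul]
      have h2 := L7858.norm_tk_le (k := k) hb2 hc
      have h3 : ‖tk k b c‖ ≤ (R * Q) * Real.sqrt (nm c) :=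
        h2.trans (mul_le_mul_of_nonneg_right hb3 (Real.sqrt_nonneg _))
      calc ‖f b‖ * ‖tk k b c‖ * ‖V (nm b / Q)‖ ≤ 1 * ((R * Q) * Real.sqrt (nm c)) * Bv := by
            gcongr
            · exact hf b hb.2
            · exact hVB _
        _ = _ := by ring
    refine (norm_sum_le_of_le _ h1).trans ?_
    rw [Finset.sum_const, nsmul_eq_mul]
    have h4 : ((L6106.SF M ⌊R * Q⌋₊).card : ℝ) ≤ 100 * (R * Q) := by
      have h5 : (L6106.SF M ⌊R * Q⌋₊).card ≤ (primBall ⌊R * Q⌋₊).card := by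
        classical
        unfold L6106.SF
        exact Finset.card_filter_le _ _
      have h6 := Lat277.card_primBall_le ⌊R * Q⌋₊
      have h7 : ((⌊R * Q⌋₊ : ℕ) : ℝ) ≤ R * Q := Nat.floor_le (by positivity)
      calc ((L6106.SF M ⌊R * Q⌋₊).card : ℝ) ≤ (primBall ⌊R * Q⌋₊).card := by exact_mod_cast h5
        _ ≤ 100 * ((⌊R * Q⌋₊ : ℕ) : ℝ) := h6
        _ ≤ _ := by gcongr
    calc ((L6106.SF M ⌊R * Q⌋₊).card : ℝ) * ((R * Q) * Real.sqrt (nm c) * Bv)
        ≤ (100 * (R * Q)) * ((R * Q) * Real.sqrt (nm c) * Bv) := by gcongr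
      _ = _ := by ring
  have hmain : ‖NSumS h₀ h r y Q₀ (δ * Real.log Q₀) Finset.univ M f g V Q k‖ ≤
      ∑ c₀ ∈ sqS M (δ * Real.log Q₀), ‖h₀ (Real.log (nm c₀) - δ * Real.log Q₀)‖ *
        (nm c₀ : ℝ) ^ (1 / 2 : ℝ) * ∑ p ∈ tup r y Q₀ Finset.univ,
        (∏ i : (Finset.univ : Finset (Fin r)), ‖h (Real.log (nm (p i)) - kap r y Q₀ i)‖) *
          (nm (∏ i : (Finset.univ : Finset (Fin r)), p i) : ℝ) ^ (1 / 2 : ℝ) *
          ((100 * R * (R * Bv)) * Q ^ 2) := by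
    unfold NSumS
    refine norm_sum_le_of_le _ fun c hc => ?_
    have hcm := NatZ3571.mem_sqS.mp hc
    rw [norm_mul, mul_assoc]
    refine mul_le_mul_of_nonneg_left ?_ (norm_nonneg _)
    rw [Finset.mul_sum]
    refine norm_sum_le_of_le _ fun p hp => ?_
    have hP : IsPrim (∏ i : (Finset.univ : Finset (Fin r)), p i) := L6106.tup_prim hp
    rw [norm_mul, norm_mul, norm_prod]
    have h1 := hin (c * ∏ i : (Finset.univ : Finset (Fin r)), p i)
      (hcm.1.1.2.mul hP)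
    rw [nm_mul, Nat.cast_mul, Real.sqrt_mul (Nat.cast_nonneg _), Real.sqrt_eq_rpow,
      Real.sqrt_eq_rpow] at h1
    calc (∏ i : (Finset.univ : Finset (Fin r)), ‖h (Real.log (nm (p i)) - kap r y Q₀ i)‖) *
          ‖g (c * ∏ i : (Finset.univ : Finset (Fin r)), p i)‖ * _
        ≤ (∏ i : (Finset.univ : Finset (Fin r)), ‖h (Real.log (nm (p i)) - kap r y Q₀ i)‖) *
          1 * ((100 * R * (R * Bv)) * Q ^ 2 * ((nm c : ℝ) ^ (1 / 2 : ℝ) *
            (nm (∏ i : (Finset.univ : Finset (Fin r)), p i) : ℝ) ^ (1 / 2 : ℝ))) := by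
          gcongr
          · exact hg _
      _ = _ := by ring
  refine hmain.trans ?_
  have h2 := hD Q₀ hQ₀ Finset.univ
  have h3 := NatZ3571.sum_sqS_le hB00 hB0 (a := 1 / 2) (by norm_num) M (δ * Real.log Q₀)
  have h4 : CJ r y Q₀ Finset.univ = Q₀ ^ y := by
    unfold CJ
    rw [Finset.card_univ, Fintype.card_fin]
    congr 1
    have : (r : ℝ) ≠ 0 := by positivity
    field_simp
  rw [h4, ← Real.rpow_mul hQ00.le] at h2
  rw [← Finset.sum_mul, ← Finset.sum_mul] 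
  have h5 : Real.exp ((1 + 1 / 2) * (δ * Real.log Q₀ + 1)) =
      Real.exp (3 / 2) * Q₀ ^ (3 / 2 * δ) := by
    rw [Real.rpow_def_of_pos hQ00, ← Real.exp_add]; ring_nf
  rw [h5] at h3
  have h6 : Q₀ ^ (3 / 2 * (y + δ)) = Q₀ ^ (y * (1 + 1 / 2)) * Q₀ ^ (3 / 2 * δ) := by
    rw [← Real.rpow_add hQ00]; ring_nf
  calc _ ≤ (100 * B0 * (Real.exp (3 / 2) * Q₀ ^ (3 / 2 * δ))) *
        ((D * Q₀ ^ (y * (1 + 1 / 2))) * ((100 * R * (R * Bv)) * Q ^ 2)) := by
        gcongr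
    _ = _ := by rw [h6]; ring

end Crest.Agent.R017.NPL699
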