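import Crest.Agent.R017.NPLa_699

/-!
# Row 17, section B, leaf NPL, part b: the dyadic sums from `NatNP3` (helper699)
-/

set_option autoImplicit false

noncomputable section

open MeasureTheory Complex Set Filter Topology
open scoped ComplexConjugate ContDiff

namespace Crest.Agent.R017.NPL699

open Crest.Agent.R012 Crest.Agent.R012.Eis Crest.Agent.R012.Mob705 Crest.Agent.R012.Gauss880
open Crest.Agent.R012.PSer47
open Crest.Agent.R012.Weight600 (osc norm_osc)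
open Crest.Agent.R017.FE47 (h00)
open Crest.Agent.R017.End699 Crest.Agent.R017.Sx440 Crest.Agent.R017.Sx545 Crest.Agent.R017.B770
open Crest.Agent.R017.Asm986 Crest.Agent.R017.BEndA699

variable {M m₀ : Eis}

/-- the dyadic weight on `(0, ∞)` -/
def U0 (x : ℝ) : ℂ := if 0 < x then (h00 (Real.log x) : ℂ) else 0

lemma U0_pos {x : ℝ} (hx : 0 < x) : U0 x = (h00 (Real.log x) : ℂ) := if_pos hx

lemma U0_ne {x : ℝ} (hx : U0 x ≠ 0) : Real.exp (-(3 / 2)) ≤ x ∧ x ≤ Real.exp (1 / 2) := by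
  unfold U0 at hx
  split_ifs at hx with h0
  · have h1 : h00 (Real.log x) ≠ 0 := by exact_mod_cast hx
    obtain ⟨h2, h3⟩ := UrA699.h00_supp h1
    constructor
    · rw [← Real.exp_log h0]; exact Real.exp_le_exp.mpr h2.le
    · rw [← Real.exp_log h0]; exact Real.exp_le_exp.mpr h3.le
  · exact absurd rfl hx

lemma U0_sw : SW U0 := by
  have hsub : Function.support U0 ⊆ Icc (Real.exp (-(3 / 2))) (Real.exp (1 / 2)) :=
    fun x hx => U0_ne hx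
  have hts : tsupport U0 ⊆ Icc (Real.exp (-(3 / 2))) (Real.exp (1 / 2)) :=
    closure_minimal hsub isClosed_Icc
  refine ⟨?_, HasCompactSupport.of_support_subset_isCompact isCompact_Icc hsub, ?_⟩
  · rw [contDiff_iff_contDiffAt]
    intro x
    by_cases hx : 0 < x
    · have h1 : U0 =ᶠ[𝓝 x] fun x => (h00 (Real.log x) : ℂ) := by
        filter_upwards [lt_mem_nhds hx] with z hz using U0_pos hz
      refine ContDiffAt.congr_of_eventuallyEq ?_ h1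
      have h2 : ContDiffAt ℝ ∞ (fun x => h00 (Real.log x)) x :=
        FE47.pu0.cd.contDiffAt.comp x (Real.contDiffAt_log.mpr hx.ne')
      exact Complex.ofRealCLM.contDiff.contDiffAt.comp x h2
    · have h1 : U0 =ᶠ[𝓝 x] fun _ => (0 : ℂ) := by
        have h2 : x < Real.exp (-(3 / 2)) := lt_of_le_of_lt (not_lt.mp hx) (Real.exp_pos _)
        filter_upwards [gt_mem_nhds h2] with z hz
        by_contra h3
        exact absurd (U0_ne h3).1 (not_le.mpr hz)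
      exact ContDiffAt.congr_of_eventuallyEq contDiffAt_const h1
  · intro x hx
    exact lt_of_lt_of_le (Real.exp_pos _) (hts hx).1

/-- the parameters of case (L) -/
def PL (h₀ h V : ℝ → ℂ) (M m₀ : Eis) (ψ : Eis → ℂ) (l : ℤ) : DPar where
  h₀ := h₀
  h := h
  V := V
  U := U0
  n := M
  φ := prin0 M
  ψ := ψ
  n₃ := 3 * m₀
  χ₃ := fun a => sy a m₀
  l₁ := 0
  l₂ := l
  l₃ := 0

lemma PL_ok {h₀ h V : ℝ → ℂ} (hh₀ : HW h₀) (hh : HW h) (hV : SW V) (h36 : (36 : Eis) ∣ M)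
    (hr : Rad0 M m₀) {ψ : Eis → ℂ} (hψ : HC M ψ) (l : ℤ) : (PL h₀ h V M m₀ ψ l).OK where
  h₀ := hh₀
  h := hh
  V := hV
  U := U0_sw
  n36 := h36
  φ := hc_prin0 (L6106.Rad0.M_ne hr) (Dvd.dvd.trans ⟨12, by norm_num⟩ h36)
  ψ := hψ
  χ₃ := L6106.hc_m0 hr.prim
  rad := hr.iff
  cases := Or.inl ⟨rfl, rfl, rfl, m₀, hr, rfl, rfl⟩

lemma tw_zero (φ : Eis → ℂ) : tw φ 0 = φ := by
  funext b
  unfold End699.tw ang
  simp

/-- the data of the dyadic sums -/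
lemma wk_eq {h₀ h V : ℝ → ℂ} {ψ : Eis → ℂ} {l : ℤ} (t : ℝ) (n : ℕ) {k : Eis} (hk : k ≠ 0) :
    (PL h₀ h V M m₀ ψ l).wk t (Real.exp n) k =
      Weight600.pw t (nm k) * (h00 (Real.log (nm k) - n) : ℂ) *
        FE47.DM (3 * m₀) (fun a => sy a m₀) k := by
  have hk0 : (0 : ℝ) < nm k := by exact_mod_cast nm_pos.mpr hk
  have e1 : ang 0 k = 1 := by unfold ang; simp
  have e2 : (nm k : ℂ) ^ (I * t) = Weight600.pw t (nm k) := by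
    unfold Weight600.pw osc
    have h1 : ((nm k : ℕ) : ℂ) = ((nm k : ℝ) : ℂ) := by norm_cast
    rw [h1, Complex.cpow_def_of_ne_zero (by exact_mod_cast hk0.ne'), ← Complex.ofReal_log hk0.le]
    congr 1
    push_cast
    ring
  have e3 : U0 (nm k / Real.exp n) = (h00 (Real.log (nm k) - n) : ℂ) := by
    rw [U0_pos (div_pos hk0 (Real.exp_pos _)), Real.log_div hk0.ne' (Real.exp_pos _).ne',
      Real.log_exp]
  unfold DPar.wk PL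
  simp only
  rw [e1, e2, e3]
  ring

/-- monotonicity of the target in the length -/
lemma TgB_H {θ η₁ η₂ y₀ Q₀ Q Cc H X : ℝ} (hQ₀ : 0 < Q₀) (hQ : 0 ≤ Q) (hC : 0 ≤ Cc) (hH : 0 ≤ H)
    (hX : 0 < X) : TgB θ η₁ η₂ y₀ Q₀ Q H Cc ≤ (1 + H / X) * TgB θ η₁ η₂ y₀ Q₀ Q X Cc := by
  have hK : 0 < Q₀ ^ (1 / 2 + y₀) := by positivity
  have key : ∀ α : ℝ, 0 ≤ α → α ≤ 1 → (H / Q₀ ^ (1 / 2 + y₀)) ^ α ≤
      (1 + H / X) * (X / Q₀ ^ (1 / 2 + y₀)) ^ α := by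
    intro α h0 h1
    have e1 : H / Q₀ ^ (1 / 2 + y₀) = (H / X) * (X / Q₀ ^ (1 / 2 + y₀)) := by
      field_simp
    rw [e1, Real.mul_rpow (by positivity) (by positivity)]
    refine mul_le_mul_of_nonneg_right ?_ (by positivity)
    calc (H / X) ^ α ≤ (1 + H / X) ^ α :=
          Real.rpow_le_rpow (by positivity) (by linarith) h0
      _ ≤ (1 + H / X) ^ (1 : ℝ) := Real.rpow_le_rpow_of_exponent_le
          (by have : 0 ≤ H / X := by positivity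
              linarith) h1
      _ = _ := Real.rpow_one _
  have k1 := key 1 zero_le_one le_rfl
  have k2 := key (1 / 2) (by norm_num) (by norm_num)
  have k3 := key (1 / 6) (by norm_num) (by norm_num)
  rw [Real.rpow_one, Real.rpow_one] at k1
  unfold TgB
  calc Q₀ ^ ((1 / 2 + y₀) / 3 + y₀ + θ) *
      (Q₀ ^ (-η₁) * (H / Q₀ ^ (1 / 2 + y₀) * (Q / Q₀) ^ (1 / 2 : ℝ) * (Cc / Q₀ ^ y₀) ^ (1 / 2 : ℝ) +
        (H / Q₀ ^ (1 / 2 + y₀)) ^ (1 / 2 : ℝ) * (Q / Q₀) ^ (3 / 4 : ℝ) *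
          (Cc / Q₀ ^ y₀) ^ (1 / 4 : ℝ)) +
        Q₀ ^ (-η₂) * ((H / Q₀ ^ (1 / 2 + y₀)) ^ (1 / 6 : ℝ) * (Q / Q₀) ^ θ * (Cc / Q₀ ^ y₀) ^ θ))
      ≤ Q₀ ^ ((1 / 2 + y₀) / 3 + y₀ + θ) *
      (Q₀ ^ (-η₁) * (((1 + H / X) * (X / Q₀ ^ (1 / 2 + y₀))) * (Q / Q₀) ^ (1 / 2 : ℝ) *
          (Cc / Q₀ ^ y₀) ^ (1 / 2 : ℝ) +
        ((1 + H / X) * (X / Q₀ ^ (1 / 2 + y₀)) ^ (1 / 2 : ℝ)) * (Q / Q₀) ^ (3 / 4 : ℝ) *
          (Cc / Q₀ ^ y₀) ^ (1 / 4 : ℝ)) +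
        Q₀ ^ (-η₂) * (((1 + H / X) * (X / Q₀ ^ (1 / 2 + y₀)) ^ (1 / 6 : ℝ)) * (Q / Q₀) ^ θ *
          (Cc / Q₀ ^ y₀) ^ θ)) := by
        gcongr
    _ = _ := by ring

/-- monotonicity of the target in `Q` -/
lemma TgB_Q {θ η₁ η₂ y₀ Q₀ Q Cc H R : ℝ} (hQ₀ : 0 < Q₀) (hQ : 0 < Q) (hC : 0 ≤ Cc) (hH : 0 ≤ H)
    (hR : 1 ≤ R) (hθ0 : 0 ≤ θ) (hθ : θ ≤ 1) :
    TgB θ η₁ η₂ y₀ Q₀ (R * Q) H Cc ≤ R * TgB θ η₁ η₂ y₀ Q₀ Q H Cc := by
  have hR0 : 0 < R := by linarith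
  have key : ∀ α : ℝ, 0 ≤ α → α ≤ 1 → (R * Q / Q₀) ^ α ≤ R * (Q / Q₀) ^ α := by
    intro α h0 h1
    rw [mul_div_assoc, Real.mul_rpow hR0.le (by positivity)]
    refine mul_le_mul_of_nonneg_right ?_ (by positivity)
    calc R ^ α ≤ R ^ (1 : ℝ) := Real.rpow_le_rpow_of_exponent_le hR h1
      _ = _ := Real.rpow_one _
  have k1 := key (1 / 2) (by norm_num) (by norm_num)
  have k2 := key (3 / 4) (by norm_num) (by norm_num)
  have k3 := key θ hθ0 hθ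
  unfold TgB
  calc Q₀ ^ ((1 / 2 + y₀) / 3 + y₀ + θ) *
      (Q₀ ^ (-η₁) * (H / Q₀ ^ (1 / 2 + y₀) * (R * Q / Q₀) ^ (1 / 2 : ℝ) *
          (Cc / Q₀ ^ y₀) ^ (1 / 2 : ℝ) +
        (H / Q₀ ^ (1 / 2 + y₀)) ^ (1 / 2 : ℝ) * (R * Q / Q₀) ^ (3 / 4 : ℝ) *
          (Cc / Q₀ ^ y₀) ^ (1 / 4 : ℝ)) +
        Q₀ ^ (-η₂) * ((H / Q₀ ^ (1 / 2 + y₀)) ^ (1 / 6 : ℝ) * (R * Q / Q₀) ^ θ *
          (Cc / Q₀ ^ y₀) ^ θ))
      ≤ Q₀ ^ ((1 / 2 + y₀) / 3 + y₀ + θ) *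
      (Q₀ ^ (-η₁) * (H / Q₀ ^ (1 / 2 + y₀) * (R * (Q / Q₀) ^ (1 / 2 : ℝ)) *
          (Cc / Q₀ ^ y₀) ^ (1 / 2 : ℝ) +
        (H / Q₀ ^ (1 / 2 + y₀)) ^ (1 / 2 : ℝ) * (R * (Q / Q₀) ^ (3 / 4 : ℝ)) *
          (Cc / Q₀ ^ y₀) ^ (1 / 4 : ℝ)) +
        Q₀ ^ (-η₂) * ((H / Q₀ ^ (1 / 2 + y₀)) ^ (1 / 6 : ℝ) * (R * (Q / Q₀) ^ θ) *
          (Cc / Q₀ ^ y₀) ^ θ)) := by
        gcongr
    _ = _ := by ring

lemma TgB_nonneg {θ η₁ η₂ y₀ Q₀ Q Cc H : ℝ} (hQ₀ : 0 < Q₀) (hQ : 0 ≤ Q) (hC : 0 ≤ Cc)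
    (hH : 0 ≤ H) : 0 ≤ TgB θ η₁ η₂ y₀ Q₀ Q H Cc := by
  unfold TgB
  positivity

open Classical in
/-- **the dyadic sums** -/
theorem dyadic {θ : ℝ} (hθ : 0 ≤ θ) (hθ1 : θ ≤ 1) {r : ℕ} {y δ η η' : ℝ} (hδ : 0 ≤ δ)
    (hN : NatNP3 θ r y δ η η')
    {h₀ h V : ℝ → ℂ} (hh₀ : HW h₀) (hh : HW h) (hV : SW V) (h36 : (36 : Eis) ∣ M)
    (hr : Rad0 M m₀) {ψ : Eis → ℂ} (hψ : HC M ψ) (l : ℤ) {ε : ℝ} (hε : 0 < ε) :
    ∃ (C : ℝ) (A : ℕ) (R : ℝ), 0 ≤ C ∧ 1 ≤ R ∧ ∀ Q₀ Q : ℝ, R ≤ Q₀ → 0 < Q → Q ≤ Q₀ →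
      (nm M : ℝ) * Q₀ ^ δ * 9 < Q₀ ^ (y / r) → ∀ n : ℕ, Real.exp n ≤ Q₀ ^ (1 / 2 + (y + δ) + η) →
      ∀ t : ℝ, ‖∑' k : Eis, if k ≠ 0 ∧ ¬ Prn M k then
          Weight600.pw t (nm k) * (h00 (Real.log (nm k) - n) : ℂ) *
            (FE47.DM (3 * m₀) (fun a => sy a m₀) k *
              NSumS h₀ h r y Q₀ (δ * Real.log Q₀) Finset.univ M (tw ψ l) (fun _ => 1) V Q k)
          else 0‖ ≤
        (1 + |t|) ^ A * (C * Q₀ ^ ε * TgB θ η' η' (y + δ) Q₀ Q (Real.exp n) (Q₀ ^ (y + δ))) := by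
  obtain ⟨Bv, R, hBv, hR1, hVB, hRV⟩ := NatZ571.SW.bounds hV
  have hR0 : 0 < R := by linarith
  have hVR : SW (fun x => V (R * x)) := sw_scale hV hR0
  obtain ⟨C₁, A₁, hC₁, hA₁, H₁⟩ := hN (PL h₀ h V M m₀ ψ l) (PL_ok hh₀ hh hV h36 hr hψ l) ε hε
  obtain ⟨C₂, A₂, hC₂, hA₂, H₂⟩ := hN (PL h₀ h (fun x => V (R * x)) M m₀ ψ l)
    (PL_ok hh₀ hh hVR h36 hr hψ l) ε hε
  have hM0 := L6106.Rad0.M_ne hr
  refine ⟨C₁ + C₂ * R, ⌈max A₁ A₂⌉₊, R, by positivity, hR1, ?_⟩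
  intro Q₀ Q hRQ₀ hQ hQQ₀ hMQ n hn t
  have hQ₀1 : 1 ≤ Q₀ := hR1.trans hRQ₀
  have hQ₀0 : 0 < Q₀ := by linarith
  set Cc : ℝ := Q₀ ^ (y + δ) with hCc
  have hCc0 : 0 ≤ Cc := by positivity
  have hT0 := TgB_nonneg (θ := θ) (η₁ := η') (η₂ := η') (y₀ := y + δ) (H := Real.exp n) hQ₀0 hQ.le
    hCc0 (Real.exp_pos _).le
  have h1t : (1 : ℝ) ≤ 1 + |t| := by linarith [abs_nonneg t]
  have pwr : ∀ A : ℝ, A ≤ max A₁ A₂ → (1 + |t|) ^ A ≤ (1 + |t|) ^ ⌈max A₁ A₂⌉₊ := by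
    intro A hA
    rw [← Real.rpow_natCast]
    exact Real.rpow_le_rpow_of_exponent_le h1t (hA.trans (Nat.le_ceil _))
  -- the general identity
  have gen : ∀ (W : ℝ → ℂ) (Q' : ℝ), (∑' k : Eis, if k ≠ 0 ∧ ¬ Prn M k then
          Weight600.pw t (nm k) * (h00 (Real.log (nm k) - n) : ℂ) *
            (FE47.DM (3 * m₀) (fun a => sy a m₀) k *
              NSumS h₀ h r y Q₀ (δ * Real.log Q₀) Finset.univ M (tw ψ l) (fun _ => 1) W Q' k)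
          else 0) =
      ∑' k : Eis, (if k ≠ 0 ∧ NPk (PL h₀ h W M m₀ ψ l).n (PL h₀ h W M m₀ ψ l).φ
          (PL h₀ h W M m₀ ψ l).l₁ k then
        (PL h₀ h W M m₀ ψ l).wk t (Real.exp n) k *
          NSumS (PL h₀ h W M m₀ ψ l).h₀ (PL h₀ h W M m₀ ψ l).h r y Q₀ (δ * Real.log Q₀)
          Finset.univ (PL h₀ h W M m₀ ψ l).n
          (twt (PL h₀ h W M m₀ ψ l).ψ (PL h₀ h W M m₀ ψ l).l₂ 0)
          (twt (PL h₀ h W M m₀ ψ l).φ (PL h₀ h W M m₀ ψ l).l₁ 0) (PL h₀ h W M m₀ ψ l).V Q' k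
        else 0) := by
    intro W Q'
    refine tsum_congr fun k => ?_
    have e0 : (k ≠ 0 ∧ ¬ Prn M k) ↔ (k ≠ 0 ∧ NPk M (prin0 M) 0 k) := by
      unfold Prn; rw [not_not]
    by_cases hk : k ≠ 0 ∧ ¬ Prn M k
    · rw [if_pos hk]
      have hk' := e0.mp hk
      have : (PL h₀ h W M m₀ ψ l).n = M := rfl
      rw [if_pos (show k ≠ 0 ∧ NPk (PL h₀ h W M m₀ ψ l).n (PL h₀ h W M m₀ ψ l).φ
          (PL h₀ h W M m₀ ψ l).l₁ k from hk'), wk_eq t n hk.1]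
      change _ = _ * NSumS h₀ h r y Q₀ (δ * Real.log Q₀) Finset.univ M (twt ψ l 0)
        (twt (prin0 M) 0 0) W Q' k
      rw [twt_zero', twt_zero', tw_zero, NSumS_one_eq hh hδ hQ₀1 hM0 hMQ]
      ring
    · rw [if_neg hk, if_neg (show ¬ (k ≠ 0 ∧ NPk (PL h₀ h W M m₀ ψ l).n (PL h₀ h W M m₀ ψ l).φ
          (PL h₀ h W M m₀ ψ l).l₁ k) from fun h => hk (e0.mpr h))]
  by_cases hQ1 : 1 ≤ Q
  · rw [gen]
    have h3 := H₁ Q₀ Q hQ1 hQQ₀ hMQ (Real.exp n) (Real.exp_pos _) hn 0 0 t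
    refine h3.trans ?_
    rw [abs_zero, add_zero, add_zero]
    have h4 := pwr A₁ (le_max_left _ _)
    have h5 : C₁ ≤ C₁ + C₂ * R := by
      have : 0 ≤ C₂ * R := by positivity
      linarith
    calc C₁ * Q₀ ^ ε * (1 + |t|) ^ A₁ * TgB θ η' η' (y + δ) Q₀ Q (Real.exp n) Cc
        = (1 + |t|) ^ A₁ * (C₁ * Q₀ ^ ε * TgB θ η' η' (y + δ) Q₀ Q (Real.exp n) Cc) := by ring
      _ ≤ _ := by gcongr
  · rw [not_le] at hQ1
    by_cases hRQ : 1 ≤ R * Q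
    · have e1 : ∀ k : Eis,
          NSumS h₀ h r y Q₀ (δ * Real.log Q₀) Finset.univ M (tw ψ l) (fun _ => 1) V Q k =
          NSumS h₀ h r y Q₀ (δ * Real.log Q₀) Finset.univ M (tw ψ l) (fun _ => 1)
            (fun x => V (R * x)) (R * Q) k := fun k => NSumS_scale hR0 k
      simp only [e1]
      rw [gen]
      have h3 := H₂ Q₀ (R * Q) hRQ (by nlinarith) hMQ (Real.exp n) (Real.exp_pos _) hn 0 0 t
      refine h3.trans ?_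
      rw [abs_zero, add_zero, add_zero]
      have h4 := pwr A₂ (le_max_right _ _)
      have h5 := TgB_Q (θ := θ) (η₁ := η') (η₂ := η') (y₀ := y + δ) (H := Real.exp n) hQ₀0 hQ
        hCc0 (Real.exp_pos _).le hR1 hθ hθ1
      calc C₂ * Q₀ ^ ε * (1 + |t|) ^ A₂ * TgB θ η' η' (y + δ) Q₀ (R * Q) (Real.exp n) Cc
          ≤ C₂ * Q₀ ^ ε * (1 + |t|) ^ A₂ * (R * TgB θ η' η' (y + δ) Q₀ Q (Real.exp n) Cc) := by
            gcongr
        _ = (1 + |t|) ^ A₂ * ((C₂ * R) * Q₀ ^ ε * TgB θ η' η' (y + δ) Q₀ Q (Real.exp n) Cc) := by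
            ring
        _ ≤ _ := by
            gcongr
            linarith
    · have e1 : ∀ k : Eis,
          NSumS h₀ h r y Q₀ (δ * Real.log Q₀) Finset.univ M (tw ψ l) (fun _ => 1) V Q k = 0 := by
        intro k
        unfold NSumS
        refine Finset.sum_eq_zero fun c _ => ?_
        rw [Finset.sum_eq_zero, mul_zero]
        intro p _
        have : ∀ b : Eis, (if Sm M b then tw ψ l b * tk k b (c * ∏ i, p i) * V (nm b / Q)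
            else 0) = 0 := by
          intro b
          split_ifs with hb
          · have hb1 : (1 : ℝ) ≤ nm b := by
              exact_mod_cast nm_pos.mpr hb.1.ne_zero
            have : V (nm b / Q) = 0 := by
              by_contra hne
              have h6 := hRV _ hne
              rw [div_le_iff₀ hQ] at h6
              linarith
            rw [this, mul_zero]
          · rfl
        simp only [this, tsum_zero, mul_zero]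
      simp only [e1, mul_zero, ite_self, tsum_zero, norm_zero]
      positivity

end Crest.Agent.R017.NPL699
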