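import Crest.Agent.R017.NPLb_699
import Crest.Agent.R017.Master3_699
import Crest.Agent.R012.LatW_413

/-!
# Row 17, section B, leaf NPL, part c: assembly (helper699)
-/

set_option autoImplicit false

noncomputable section

open MeasureTheory Complex Set Filter Topology
open scoped ComplexConjugate ContDiff

namespace Crest.Agent.R017.NPL699

open Crest.Agent.R012 Crest.Agent.R012.Eis Crest.Agent.R012.Mob705 Crest.Agent.R012.Gauss880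
open Crest.Agent.R012.PSer47
open Crest.Agent.R017.FE47 (h00)
open Crest.Agent.R017.End699 Crest.Agent.R017.Sx440 Crest.Agent.R017.Sx545 Crest.Agent.R017.B770
open Crest.Agent.R017.Asm986 Crest.Agent.R017.BEndA699
open Crest.Agent.R017.L6106 (SF mem_SF)

variable {M m₀ : Eis}

/-- the `k`-term of the primal form -/
def Wk (h₀ h : ℝ → ℂ) (r : ℕ) (y δ Q₀ : ℝ) (M m₀ : Eis) (f : Eis → ℂ) (V om : ℝ → ℂ)
    (K Q : ℝ) (e k : Eis) : ℂ :=
  FE47.DM (3 * m₀) (fun a => sy a m₀) k * Ur om (nm k * (nm e : ℝ) ^ 6 / K) *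
    NSumS h₀ h r y Q₀ (δ * Real.log Q₀) Finset.univ M f (fun _ => 1) V (Q / (nm e : ℝ) ^ 6) k

lemma NSumS_zero_e {h₀ h : ℝ → ℂ} {r : ℕ} {y Q₀ κ₀ R Q : ℝ} {f : Eis → ℂ} {V : ℝ → ℂ}
    (hRV : ∀ x, V x ≠ 0 → x ≤ R) (hQ : 0 < Q) {e : Eis} (he : e ≠ 0) (hn : ¬ nm e ≤ ⌊R * Q⌋₊)
    (k : Eis) :
    NSumS h₀ h r y Q₀ κ₀ Finset.univ M f (fun _ => 1) V (Q / (nm e : ℝ) ^ 6) k = 0 := by
  classical
  unfold NSumS
  refine Finset.sum_eq_zero fun c _ => ?_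
  rw [Finset.sum_eq_zero, mul_zero]
  intro p _
  have he0 : (0 : ℝ) < nm e := by exact_mod_cast nm_pos.mpr he
  have : ∀ b : Eis, (if Sm M b then f b * tk k b (c * ∏ i, p i) * V (nm b / (Q / (nm e : ℝ) ^ 6))
      else 0) = 0 := by
    intro b
    split_ifs with hb
    · have h1 : (nm b : ℝ) / (Q / (nm e : ℝ) ^ 6) = nm b * (nm e : ℝ) ^ 6 / Q := by field_simp
      rw [h1, L6106.V_zero_e hRV hQ he hb.1.ne_zero (by
        by_contra hle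
        exact hn (not_lt.mp hle)), mul_zero]
    · rfl
  simp only [this, tsum_zero, mul_zero]

lemma Wk_summable {h₀ h : ℝ → ℂ} {r : ℕ} {y δ Q₀ : ℝ} {f : Eis → ℂ} {V om : ℝ → ℂ} (hV : SW V)
    (hom : SW om) (hr : Rad0 M m₀) {K Q : ℝ} (hK : 0 < K) (hQ : 0 < Q) {e : Eis} (he : Sm M e) :
    Summable (Wk h₀ h r y δ Q₀ M m₀ f V om K Q e) := by
  classical
  obtain ⟨B, R, hB0, hR1, hB, hRV⟩ := NatZ571.SW.bounds hV
  have h1 : ∀ k : Eis, Wk h₀ h r y δ Q₀ M m₀ f V om K Q e k =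
      ∑ c₀ ∈ sqS M (δ * Real.log Q₀), ∑ p ∈ tup r y Q₀ Finset.univ, ∑ b ∈ SF M ⌊R * Q⌋₊,
        (h₀ (Real.log (nm c₀) - δ * Real.log Q₀) *
          (∏ i : (Finset.univ : Finset (Fin r)), h (Real.log (nm (p i)) - B770.kap r y Q₀ i)) *
          (f b * V (nm b * (nm e : ℝ) ^ 6 / Q))) *
        (FE47.DM (3 * m₀) (fun a => sy a m₀) k * Ur om (nm k * (nm e : ℝ) ^ 6 / K) *
          tk k b (c₀ * ∏ i, p i)) := by
    intro k
    unfold Wk NSumS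
    rw [Finset.mul_sum]
    refine Finset.sum_congr rfl fun c₀ _ => ?_
    rw [← mul_assoc, Finset.mul_sum]
    refine Finset.sum_congr rfl fun p _ => ?_
    rw [L6106.inner_eq hRV hQ f he, mul_one, Finset.mul_sum, Finset.mul_sum]
    refine Finset.sum_congr rfl fun b _ => ?_
    ring
  rw [show Wk h₀ h r y δ Q₀ M m₀ f V om K Q e = _ from funext h1]
  refine summable_sum fun c₀ hc₀ => summable_sum fun p hp => summable_sum fun b hb => ?_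
  exact (L6106.KS_summable hom hr.prim he.ne_zero (mem_SF.mp hb).2.ne_zero
    ((NatZ3571.mem_sqS.mp hc₀).1.1.2.mul (L6106.tup_prim hp)) hK).mul_left _

open Classical in
/-- the primal form as a finite sum over `e` -/
lemma LK3_eq {h₀ h : ℝ → ℂ} {r : ℕ} {y δ Q₀ R : ℝ} {ξ f : Eis → ℂ} {V om : ℝ → ℂ}
    (hRV : ∀ x, V x ≠ 0 → x ≤ R) {K Q : ℝ} (hQ : 0 < Q) (P : Eis → Prop) :
    LK3 h₀ h r y δ Q₀ M m₀ ξ f V om P K Q =
      ∑ e ∈ SF M ⌊R * Q⌋₊, ξ e * (nm e : ℂ) ^ 5 *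
        ∑' k : Eis, (if P k then Wk h₀ h r y δ Q₀ M m₀ f V om K Q e k else 0) := by
  unfold LK3
  rw [tsum_eq_sum (s := SF M ⌊R * Q⌋₊)]
  · refine Finset.sum_congr rfl fun e he => ?_
    rw [if_pos (mem_SF.mp he).2]
    rfl
  · intro e he
    split_ifs with hes
    · have h0 : ¬ nm e ≤ ⌊R * Q⌋₊ := fun h => he (mem_SF.mpr ⟨h, hes⟩)
      have h1 : ∀ k : Eis, (if P k then FE47.DM (3 * m₀) (fun a => sy a m₀) k *
          Ur om (nm k * (nm e : ℝ) ^ 6 / K) *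
          NSumS h₀ h r y Q₀ (δ * Real.log Q₀) Finset.univ M f (fun _ => 1) V
            (Q / (nm e : ℝ) ^ 6) k else 0) = 0 := by
        intro k
        split_ifs
        · rw [NSumS_zero_e hRV hQ hes.ne_zero h0, mul_zero]
        · rfl
      simp only [h1, tsum_zero, mul_zero]
    · rfl

open Classical in
lemma LK3_split {h₀ h : ℝ → ℂ} {r : ℕ} {y δ Q₀ : ℝ} {ξ f : Eis → ℂ} {V om : ℝ → ℂ}
    (hV : SW V) (hom : SW om) (hr : Rad0 M m₀) {K Q : ℝ} (hK : 0 < K) (hQ : 0 < Q)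
    (P : Eis → Prop) :
    LK3 h₀ h r y δ Q₀ M m₀ ξ f V om (fun _ => True) K Q =
      LK3 h₀ h r y δ Q₀ M m₀ ξ f V om P K Q +
      LK3 h₀ h r y δ Q₀ M m₀ ξ f V om (fun k => ¬ P k) K Q := by
  obtain ⟨B, R, hB0, hR1, hB, hRV⟩ := NatZ571.SW.bounds hV
  rw [LK3_eq hRV hQ, LK3_eq hRV hQ, LK3_eq hRV hQ, ← Finset.sum_add_distrib]
  refine Finset.sum_congr rfl fun e he => ?_
  have hs := Wk_summable (h₀ := h₀) (h := h) (r := r) (y := y) (δ := δ) (Q₀ := Q₀) (f := f)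
    hV hom hr hK hQ (mem_SF.mp he).2
  have s1 : Summable (fun k => if P k then Wk h₀ h r y δ Q₀ M m₀ f V om K Q e k else 0) := by
    have := hs.indicator {k | P k}
    refine this.congr fun k => ?_
    simp [Set.indicator, Set.mem_ofPred_eq]
  have s2 : Summable (fun k => if ¬ P k then Wk h₀ h r y δ Q₀ M m₀ f V om K Q e k else 0) := by
    have := hs.indicator {k | ¬ P k}
    refine this.congr fun k => ?_
    simp [Set.indicator, Set.mem_ofPred_eq]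
  have e3 : (∑' k : Eis, if True then Wk h₀ h r y δ Q₀ M m₀ f V om K Q e k else 0) =
      (∑' k : Eis, if P k then Wk h₀ h r y δ Q₀ M m₀ f V om K Q e k else 0) +
      ∑' k : Eis, if ¬ P k then Wk h₀ h r y δ Q₀ M m₀ f V om K Q e k else 0 := by
    rw [← Summable.tsum_add s1 s2]
    refine tsum_congr fun k => ?_
    by_cases h : P k <;> simp [h]
  rw [← mul_add]
  convert congrArg (fun z => ξ e * (nm e : ℂ) ^ 5 * z) e3

/-- the size of the target, summed against `nm e ^ 5` -/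
lemma target_e {θ η' y₀ Q n d X Q' : ℝ} (hθ : 7 / 8 < θ) (hQ : 1 ≤ Q) (hn : 1 ≤ n) (hd : 0 ≤ d)
    (hX0 : 0 ≤ X) (hX : X ≤ Q ^ (1 / 2 + y₀ + d) / n ^ 6) (hQ'0 : 0 ≤ Q') (hQ' : Q' ≤ Q / n ^ 6) :
    n ^ 5 * TgB θ η' η' y₀ Q Q' X (Q ^ y₀) ≤
      3 * Q ^ ((1 / 2 + y₀) / 3 + y₀ + θ - η' + d) * n ^ (-(5 / 4) : ℝ) := by
  have hQ0 : 0 < Q := by linarith
  have hn0 : 0 < n := by linarith
  have hn6 : n ^ (6 : ℝ) = n ^ 6 := by exact_mod_cast Real.rpow_natCast n 6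
  have hx : X / Q ^ (1 / 2 + y₀) ≤ Q ^ d * n ^ (-6 : ℝ) := by
    rw [div_le_iff₀ (by positivity)]
    refine hX.trans (le_of_eq ?_)
    rw [Real.rpow_add hQ0, Real.rpow_neg hn0.le, hn6]
    field_simp
  have hx0 : 0 ≤ X / Q ^ (1 / 2 + y₀) := by positivity
  have hq : Q' / Q ≤ n ^ (-6 : ℝ) := by
    rw [div_le_iff₀ hQ0]
    refine hQ'.trans (le_of_eq ?_)
    rw [Real.rpow_neg hn0.le, hn6]
    field_simp
  have hq0 : 0 ≤ Q' / Q := by positivity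
  have hc : Q ^ y₀ / Q ^ y₀ = 1 := div_self (by positivity)
  have hQd : 1 ≤ Q ^ d := Real.one_le_rpow hQ hd
  have hQd0 : 0 < Q ^ d := by positivity
  have key : ∀ α : ℝ, 0 ≤ α → α ≤ 1 →
      (X / Q ^ (1 / 2 + y₀)) ^ α ≤ Q ^ d * n ^ (-6 * α : ℝ) := by
    intro α h0 h1
    calc (X / Q ^ (1 / 2 + y₀)) ^ α ≤ (Q ^ d * n ^ (-6 : ℝ)) ^ α :=
          Real.rpow_le_rpow hx0 hx h0
      _ = (Q ^ d) ^ α * n ^ (-6 * α : ℝ) := by
          rw [Real.mul_rpow (by positivity) (by positivity), ← Real.rpow_mul hn0.le]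
      _ ≤ (Q ^ d) ^ (1 : ℝ) * n ^ (-6 * α : ℝ) := by
          have := Real.rpow_le_rpow_of_exponent_le hQd h1
          gcongr
      _ = _ := by rw [Real.rpow_one]
  have keyq : ∀ α : ℝ, 0 ≤ α → (Q' / Q) ^ α ≤ n ^ (-6 * α : ℝ) := by
    intro α h0
    calc (Q' / Q) ^ α ≤ (n ^ (-6 : ℝ)) ^ α := Real.rpow_le_rpow hq0 hq h0
      _ = _ := by rw [← Real.rpow_mul hn0.le]
  have fin : ∀ α β : ℝ, 0 ≤ α → α ≤ 1 → 0 ≤ β → 25 / 24 ≤ α + β →
      (X / Q ^ (1 / 2 + y₀)) ^ α * (Q' / Q) ^ β ≤ Q ^ d * n ^ (-(25 / 4) : ℝ) := by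
    intro α β h0 h1 h2 h3
    calc (X / Q ^ (1 / 2 + y₀)) ^ α * (Q' / Q) ^ β
        ≤ (Q ^ d * n ^ (-6 * α : ℝ)) * n ^ (-6 * β : ℝ) := by
          have := key α h0 h1
          have := keyq β h2
          gcongr
      _ = Q ^ d * n ^ (-6 * α + -6 * β : ℝ) := by rw [Real.rpow_add hn0]; ring
      _ ≤ Q ^ d * n ^ (-(25 / 4) : ℝ) := by
          have := Real.rpow_le_rpow_of_exponent_le hn
            (show -6 * α + -6 * β ≤ -(25 / 4) by linarith)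
          gcongr
  have t1 := fin 1 (1 / 2) (by norm_num) (by norm_num) (by norm_num) (by norm_num)
  have t2 := fin (1 / 2) (3 / 4) (by norm_num) (by norm_num) (by norm_num) (by norm_num)
  have t3 := fin (1 / 6) θ (by norm_num) (by norm_num) (by linarith) (by linarith)
  rw [Real.rpow_one] at t1
  unfold TgB
  rw [hc]
  simp only [Real.one_rpow, mul_one]
  have hn5 : n ^ 5 * n ^ (-(25 / 4) : ℝ) = n ^ (-(5 / 4) : ℝ) := by
    have : n ^ 5 = n ^ (5 : ℝ) := by exact_mod_cast (Real.rpow_natCast n 5).symm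
    rw [this, ← Real.rpow_add hn0]
    norm_num
  have hE : Q ^ ((1 / 2 + y₀) / 3 + y₀ + θ - η' + d) =
      Q ^ ((1 / 2 + y₀) / 3 + y₀ + θ) * Q ^ (-η') * Q ^ d := by
    rw [← Real.rpow_add hQ0, ← Real.rpow_add hQ0]; ring_nf
  rw [hE]
  calc n ^ 5 * (Q ^ ((1 / 2 + y₀) / 3 + y₀ + θ) *
        (Q ^ (-η') * (X / Q ^ (1 / 2 + y₀) * (Q' / Q) ^ (1 / 2 : ℝ) +
          (X / Q ^ (1 / 2 + y₀)) ^ (1 / 2 : ℝ) * (Q' / Q) ^ (3 / 4 : ℝ)) +
          Q ^ (-η') * ((X / Q ^ (1 / 2 + y₀)) ^ (1 / 6 : ℝ) * (Q' / Q) ^ θ)))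
      ≤ n ^ 5 * (Q ^ ((1 / 2 + y₀) / 3 + y₀ + θ) *
        (Q ^ (-η') * (Q ^ d * n ^ (-(25 / 4) : ℝ) + Q ^ d * n ^ (-(25 / 4) : ℝ)) +
          Q ^ (-η') * (Q ^ d * n ^ (-(25 / 4) : ℝ)))) := by gcongr
    _ = 3 * (Q ^ ((1 / 2 + y₀) / 3 + y₀ + θ) * Q ^ (-η') * Q ^ d) *
        (n ^ 5 * n ^ (-(25 / 4) : ℝ)) := by ring
    _ = _ := by rw [hn5]

end Crest.Agent.R017.NPL699
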