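import Crest.Agent.R017.QsO_83
import Crest.Agent.R017.MoL1_106
import Crest.Agent.R017.E2sp_579

/-!
# Row 17, E2: the moments as quadratic functionals (helper739)

* `QF_MoP`, `QF_agbw`, `QF_sup`, `QF_sub` : quadratic functionals
* `MNn` : the moment functional with a predicate, as a supremum over `(i, t)`;
  `MNn_spec`, `MH_MNn`, `MNn_le`, `QF_MNn`
* `PrQ` : principal frequencies, `np_freq` : the merged frequency of a non principal one is `NCube`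
-/

set_option autoImplicit false

noncomputable section

open MeasureTheory Finset Filter
open scoped ComplexConjugate

namespace Crest.Agent.R017.NPx739

open Crest.Agent.R012
open Eis CharSum852 Gauss880 LS2 CR2 MelSep811
open Crest.Agent.R012.Weight600 (osc norm_osc pw)
open Crest.Agent.R017.CM106 (CS TG FS sub)
open Crest.Agent.R017.E2440 (cT ag DH Cf GK)
open Crest.Agent.R017.H1401 (pb mem_pb DN WM)
open Crest.Agent.R017.X6C180 (IX dl' Sg)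
open Crest.Agent.R017.MoF106 (MoP MoP_nonneg)
open Crest.Agent.R017.RGw813 (tw2 bt)
open Crest.Agent.R017.NtC320 (QF QF_sum CS_sum sq_sum_le sub_cT_fin)
open Crest.Agent.R017.E2sp579 (fP MH)
open Crest.Agent.R017.QsO83 (bw FS_bw bw_lin ag_lin QF_sum1)
open Div277 (tau dvs mem_dvs)

/-! ### quadratic functionals -/

/-- the sub-sequences of the windowed, twisted sequence -/
theorem QF_agbw {Φ : (Eis → ℂ) → ℝ} (hΦ : QF Φ) {g : Eis} (hg : IsPrim g) (δ : Eis)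
    (φ : ℝ → ℝ) (p : ℕ × ℕ) (t : ℝ) : QF (fun α => Φ (ag (bw φ p t α) δ g)) := by
  intro κ T c β hc hβ
  show Φ (ag (bw φ p t (fun n => ∑ x ∈ T, c x * β x n)) δ g) ≤
    T.card * ∑ x ∈ T, Φ (ag (bw φ p t (β x)) δ g)
  rw [bw_lin, ag_lin]
  exact hΦ κ T c _ hc fun x hx => E2440.fs_ag (FS_bw (hβ x hx)) hg

open Classical in
theorem QF_MoP {E B τ : Eis} (hB : B ≠ 0) {X : ℝ} (hX : 0 ≤ X) (t Z : ℝ) {W : Eis → Eis → ℝ}
    (P : Eis → Eis → Eis → Prop) (hW : ∀ g₂ ∈ S X, ∀ g₃ ∈ S X, 0 ≤ W g₂ g₃) :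
    QF (fun α => MoP α E B τ X t Z W P) := by
  intro κ T c β hc hβ
  show MoP (fun n => ∑ x ∈ T, c x * β x n) E B τ X t Z W P ≤
    T.card * ∑ x ∈ T, MoP (β x) E B τ X t Z W P
  unfold MoF106.MoP
  rw [Finset.sum_comm (s := T), Finset.mul_sum]
  refine Finset.sum_le_sum fun g₂ hg₂ => ?_
  rw [Finset.sum_comm (s := T), Finset.mul_sum]
  refine Finset.sum_le_sum fun g₃ hg₃ => ?_
  have h₂ := ((mem_S hX).1 hg₂).2.1.ne_zero
  have h₃ := ((mem_S hX).1 hg₃).2.1.ne_zero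
  rw [← Finset.mul_sum, mul_left_comm]
  refine mul_le_mul_of_nonneg_left ?_ (hW g₂ hg₂ g₃ hg₃)
  rw [Finset.sum_comm (s := T), Finset.mul_sum]
  refine Finset.sum_le_sum fun d _ => ?_
  have e1 : sub (cT (fun n => ∑ x ∈ T, c x * β x n) E B τ t) (g₂ * g₃) =
      fun n => ∑ x ∈ T, c x * sub (cT (β x) E B τ t) (g₂ * g₃) n := by
    funext n
    show cT _ E B τ t (g₂ * g₃ * n) = ∑ x ∈ T, c x * cT (β x) E B τ t (g₂ * g₃ * n)
    simp only [NtC320.cT_eq, CM106.sub, Finset.sum_mul]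
    exact Finset.sum_congr rfl fun x _ => by ring
  rw [e1, CS_sum T c (fun x hx => sub_cT_fin (hβ x hx).fin hB (mul_ne_zero h₂ h₃))]
  exact sq_sum_le T c hc _

theorem QF_sup {Θ : Type*} [Nonempty Θ] {Φ : Θ → (Eis → ℂ) → ℝ} (hΦ : ∀ θ, QF (Φ θ))
    (hb : ∀ α, FS α → BddAbove (Set.range fun θ => Φ θ α)) :
    QF (fun α => ⨆ θ, Φ θ α) := by
  intro κ T c β hc hβ
  refine ciSup_le fun θ => (hΦ θ κ T c β hc hβ).trans ?_
  refine mul_le_mul_of_nonneg_left ?_ (Nat.cast_nonneg _)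
  exact Finset.sum_le_sum fun x hx => le_ciSup (hb _ (hβ x hx)) θ

theorem QF_mul {Φ : (Eis → ℂ) → ℝ} (hΦ : QF Φ) {c : ℝ} (hc : 0 ≤ c) :
    QF (fun α => c * Φ α) := by
  intro κ T a β ha hβ
  show c * Φ _ ≤ T.card * ∑ x ∈ T, c * Φ (β x)
  rw [← Finset.mul_sum, mul_left_comm]
  exact mul_le_mul_of_nonneg_left (hΦ κ T a β ha hβ) hc

/-- **the two lists** -/
theorem QF_sub {Φ : (Eis → ℂ) → ℝ} (hΦ : QF Φ) {a b : Eis → ℂ} (ha : FS a) (hb : FS b) {ζ : ℂ}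
    (hζ : ‖ζ‖ ≤ 1) : Φ (fun n => a n - ζ * b n) ≤ 2 * (Φ a + Φ b) := by
  have h := hΦ Bool Finset.univ (fun i => if i then 1 else -ζ) (fun i => if i then a else b)
    (fun i _ => by
      cases i
      · simpa using hζ
      · simp) (fun i _ => by
      cases i
      · simpa using hb
      · simpa using ha)
  have e1 : (fun n => ∑ x : Bool, (if x then (1 : ℂ) else -ζ) * (if x then a else b) n) =
      fun n => a n - ζ * b n := by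
    funext n
    rw [Fintype.sum_bool]
    simp
    ring
  rw [e1] at h
  refine h.trans (le_of_eq ?_)
  rw [Fintype.sum_bool, Finset.card_univ, Fintype.card_bool]
  simp

/-! ### bounds of the moment functional -/

lemma CS_norm_le {α : Eis → ℂ} (hα : FS α) {E B τ : Eis} (hB : B ≠ 0) (t : ℝ) {G : Eis}
    (hG : G ≠ 0) (d : Eis) : ‖CS (sub (cT α E B τ t) G) d‖ ≤ ∑' n, ‖α n‖ := by
  have hs : Summable fun n => ‖α n‖ := by
    refine summable_of_hasFiniteSupport (hα.fin.subset fun m hm h0 => hm ?_)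
    show ‖α m‖ = 0
    rw [h0, norm_zero]
  have hinj : Function.Injective fun D : Eis => B * (G * D) := fun x y h =>
    mul_left_cancel₀ hG (mul_left_cancel₀ hB h)
  have h1 : ∑' D, ‖α (B * (G * D))‖ ≤ ∑' n, ‖α n‖ :=
    tsum_comp_le_tsum_of_inj hs (fun _ => norm_nonneg _) hinj
  refine le_trans ?_ h1
  unfold CM106.CS CM106.sub
  refine tsum_of_norm_bounded (hs.comp_injective hinj).hasSum fun D => ?_
  rw [NtC320.cT_eq, norm_mul, norm_mul]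
  show ‖α (B * (G * D))‖ * _ * _ ≤ ‖α (B * (G * D))‖
  have h2 := NtC320.norm_tw_le (E := E) (B := B) (τ := τ) (t := t) (D := G * D)
  have h3 := CF61.norm_sy_le d D
  have h0 := norm_nonneg (α (B * (G * D)))
  calc ‖α (B * (G * D))‖ * ‖NtC320.tw E B τ t (G * D)‖ * ‖sy d D‖
      ≤ ‖α (B * (G * D))‖ * 1 * 1 := by gcongr
    _ = _ := by ring

open Classical in
lemma MoP_bdd {α : Eis → ℂ} (hα : FS α) {B : Eis} (hB : B ≠ 0) {X : ℝ} (hX : 0 ≤ X) (Z : ℝ)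
    {W : Eis → Eis → ℝ} (hW : ∀ g₂ ∈ S X, ∀ g₃ ∈ S X, 0 ≤ W g₂ g₃) : ∃ M : ℝ, 0 ≤ M ∧
    ∀ (E τ : Eis) (t : ℝ) (P : Eis → Eis → Eis → Prop), MoP α E B τ X t Z W P ≤ M := by
  refine ⟨∑ g₂ ∈ S X, ∑ g₃ ∈ S X, W g₂ g₃ * ((pb Z).card * (∑' n, ‖α n‖) ^ 2),
    Finset.sum_nonneg fun g₂ h₂ => Finset.sum_nonneg fun g₃ h₃ =>
      mul_nonneg (hW g₂ h₂ g₃ h₃) (by positivity), fun E τ t P => ?_⟩
  unfold MoF106.MoP
  refine Finset.sum_le_sum fun g₂ h₂ => Finset.sum_le_sum fun g₃ h₃ => ?_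
  refine mul_le_mul_of_nonneg_left ?_ (hW g₂ h₂ g₃ h₃)
  have p₂ := ((mem_S hX).1 h₂).2.1.ne_zero
  have p₃ := ((mem_S hX).1 h₃).2.1.ne_zero
  calc ∑ d ∈ (pb Z).filter (P g₂ g₃), ‖CS (sub (cT α E B τ t) (g₂ * g₃)) d‖ ^ 2
      ≤ ∑ d ∈ (pb Z).filter (P g₂ g₃), (∑' n, ‖α n‖) ^ 2 :=
        Finset.sum_le_sum fun d _ => pow_le_pow_left₀ (norm_nonneg _)
          (CS_norm_le hα hB t (mul_ne_zero p₂ p₃) d) 2
    _ = ((pb Z).filter (P g₂ g₃)).card * (∑' n, ‖α n‖) ^ 2 := by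
        rw [Finset.sum_const, nsmul_eq_mul]
    _ ≤ _ := by
        refine mul_le_mul_of_nonneg_right ?_ (by positivity)
        exact_mod_cast Finset.card_le_card (Finset.filter_subset _ _)

/-! ### the functional -/

/-- **the moment functional with a predicate** -/
def MNn (J : ℕ) (W : Eis → Eis → ℝ) (P : Eis → Eis → Eis → Prop) (Q : Eis → Eis → Eis → Prop)
    (E σ : Eis) (X Z : ℝ) (B : Eis) (α : Eis → ℂ) : ℝ :=
  ⨆ p : IX σ × ℝ, ((1 + |p.2|) ^ J)⁻¹ *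
    MoP α E B (dl' σ p.1) X p.2 Z W (fP P (Q B (dl' σ p.1)))

lemma inv_pow_le (J : ℕ) (t : ℝ) : ((1 + |t|) ^ J)⁻¹ ≤ 1 :=
  inv_le_one_of_one_le₀ (one_le_pow₀ (by have := abs_nonneg t; linarith))

section

variable {J : ℕ} {W : Eis → Eis → ℝ} {P : Eis → Eis → Eis → Prop}
  {Q : Eis → Eis → Eis → Prop} {E σ : Eis} {X Z : ℝ} {B : Eis}

lemma MNn_bdd (hW : ∀ g₂ ∈ S X, ∀ g₃ ∈ S X, 0 ≤ W g₂ g₃) (hX : 0 ≤ X) (hB : B ≠ 0) {α : Eis → ℂ}
    (hα : FS α) : BddAbove (Set.range fun p : IX σ × ℝ => ((1 + |p.2|) ^ J)⁻¹ *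
      MoP α E B (dl' σ p.1) X p.2 Z W (fP P (Q B (dl' σ p.1)))) := by
  obtain ⟨M, hM0, hM⟩ := MoP_bdd hα hB hX Z hW
  refine ⟨M, ?_⟩
  rintro _ ⟨p, rfl⟩
  show ((1 + |p.2|) ^ J)⁻¹ * MoP α E B (dl' σ p.1) X p.2 Z W (fP P (Q B (dl' σ p.1))) ≤ M
  calc ((1 + |p.2|) ^ J)⁻¹ * MoP α E B (dl' σ p.1) X p.2 Z W (fP P (Q B (dl' σ p.1)))
      ≤ 1 * MoP α E B (dl' σ p.1) X p.2 Z W (fP P (Q B (dl' σ p.1))) :=
        mul_le_mul_of_nonneg_right (inv_pow_le J _) (MoP_nonneg hW)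
    _ ≤ M := by rw [one_mul]; exact hM _ _ _ _

lemma MNn_spec (hW : ∀ g₂ ∈ S X, ∀ g₃ ∈ S X, 0 ≤ W g₂ g₃) (hX : 0 ≤ X) (hB : B ≠ 0)
    {α : Eis → ℂ} (hα : FS α) (i : IX σ) (t : ℝ) :
    MoP α E B (dl' σ i) X t Z W (fP P (Q B (dl' σ i))) ≤
      (1 + |t|) ^ J * MNn J W P Q E σ X Z B α := by
  have h := le_ciSup (MNn_bdd (J := J) (P := P) (Q := Q) (σ := σ) (Z := Z) (E := E) hW hX hB hα)
    (i, t)
  have ht : (0 : ℝ) < (1 + |t|) ^ J := by positivity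
  have h2 : ((1 + |t|) ^ J)⁻¹ * MoP α E B (dl' σ i) X t Z W (fP P (Q B (dl' σ i))) ≤
      MNn J W P Q E σ X Z B α := h
  rwa [inv_mul_le_iff₀ ht] at h2

theorem MNn_le {α : Eis → ℂ} {M : ℝ}
    (h : ∀ (i : IX σ) (t : ℝ), MoP α E B (dl' σ i) X t Z W (fP P (Q B (dl' σ i))) ≤
      (1 + |t|) ^ J * M) : MNn J W P Q E σ X Z B α ≤ M := by
  haveI : Nonempty (IX σ × ℝ) := ⟨(none, 0)⟩
  refine ciSup_le fun p => ?_
  have ht : (0 : ℝ) < (1 + |p.2|) ^ J := by positivity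
  rw [inv_mul_le_iff₀ ht]
  exact h p.1 p.2

lemma MNn_nonneg (hW : ∀ g₂ ∈ S X, ∀ g₃ ∈ S X, 0 ≤ W g₂ g₃) (α : Eis → ℂ) :
    0 ≤ MNn J W P Q E σ X Z B α :=
  Real.iSup_nonneg fun p => mul_nonneg (by positivity) (MoP_nonneg hW)

theorem QF_MNn (hW : ∀ g₂ ∈ S X, ∀ g₃ ∈ S X, 0 ≤ W g₂ g₃) (hX : 0 ≤ X) (hB : B ≠ 0) :
    QF (MNn J W P Q E σ X Z B) := by
  haveI : Nonempty (IX σ × ℝ) := ⟨(none, 0)⟩
  exact QF_sup (Φ := fun (p : IX σ × ℝ) α => ((1 + |p.2|) ^ J)⁻¹ *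
    MoP α E B (dl' σ p.1) X p.2 Z W (fP P (Q B (dl' σ p.1))))
    (fun p => QF_mul (QF_MoP hB hX p.2 Z _ hW) (by positivity))
    fun α hα => MNn_bdd hW hX hB hα

end

/-- **the functional fulfils the moment hypothesis** -/
theorem MH_MNn {J : ℕ} {W : ℝ → Eis → Eis → ℝ} {P : Eis → ℕ → Eis → Eis → Eis → Prop}
    {Q : Eis → Eis → Eis → Prop} {E σ ν : Eis} {X : ℝ}
    (hW : ∀ Z x y, 0 ≤ Z → 0 ≤ W Z x y) (hX : 0 ≤ X) {α : Eis → ℂ} (hα : FS α) (N : Eis → ℕ) :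
    MH W P Q α E σ ν X J N (fun B j => ∑ n ∈ dvs ν, (nm n : ℝ) *
      MNn J (W (2 ^ j / (nm n : ℝ) ^ 3)) (P n j) Q E σ X (2 ^ j) B α) := by
  intro B hB i t j _
  rw [Finset.mul_sum]
  refine Finset.sum_le_sum fun n _ => ?_
  rw [mul_left_comm]
  refine mul_le_mul_of_nonneg_left ?_ (Nat.cast_nonneg _)
  exact MNn_spec (fun g₂ _ g₃ _ => hW _ g₂ g₃ (by positivity)) hX
    ((mem_S hX).1 hB).2.1.ne_zero hα i t

/-! ### principal frequencies -/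

/-- the frequency `d` is principal -/
def PrQ (E B τ d : Eis) : Prop := ∃ c : Eis, d * E * τ * B ^ 2 = c ^ 3

/-- the merged frequency of a non principal `d` is not a cube -/
lemma np_freq {E B τ g₂ g₃ m : Eis} (hE : E ≠ 0) (hτ : τ ≠ 0) (hB : B ≠ 0) (hg₂ : g₂ ≠ 0)
    (hm : m ≠ 0) (h : ¬ PrQ E B τ (g₂ ^ 2 * g₃ ^ 3 * m)) :
    T411.NCube (E * τ * (m * (g₂ * B) ^ 2)) := by
  refine ⟨mul_ne_zero (mul_ne_zero hE hτ) (mul_ne_zero hm (pow_ne_zero 2 (mul_ne_zero hg₂ hB))),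
    fun c hc => h ⟨g₃ * c, ?_⟩⟩
  rw [mul_pow, ← hc]
  ring

end Crest.Agent.R017.NPx739
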