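import Crest.Agent.R017.MoN3_106
import Crest.Agent.R017.MoN4_106
import Crest.Agent.R017.RQd_385

/-!
# Row 17, E2, class E, R-side (helper739): cell numbers with a predicate

* `cell_r2Q`, `cell_gaQ`, `cell_ga2Q` : 106's cell numbers with a predicate on the frequencies
  (functionals `PM2Q`, `RQ`)
-/

set_option autoImplicit false
set_option linter.unusedVariables false
set_option maxHeartbeats 800000

noncomputable section

open Finset
open scoped ComplexConjugate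

namespace Crest.Agent.R017.NPz739

open Crest.Agent.R012 Crest.Agent.R012.Eis Crest.Agent.R012.LS2
open Crest.Agent.R017.B770
open Crest.Agent.R017.Prov71
open Crest.Agent.R017.CM106 (CS)
open Crest.Agent.R017.HP842 (pc)
open Crest.Agent.R017.H1401 (pb mem_pb WM HW)
open Crest.Agent.R017.MoF106
open Crest.Agent.R017.MoL106
open Crest.Agent.R017.PML320 (PMp)
open Crest.Agent.R017.MoJ401 (q4_RQ wJc)
open Crest.Agent.R017.RQd385 (PMpQ PM2Q PM2Q_neg PMpQ_Bb_le q4_PMQ)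

/-- **one natural cell, from the two-level functional,
with a predicate** -/
theorem cell_r2Q {ε : ℝ} (hε : 0 < ε) : ∃ C : ℝ, 1 ≤ C ∧
    ∀ (Q : Eis → Prop) (P : DPar) (h : ℝ → ℝ) (T : Finset Eis) (X Z : ℝ) (l u v w : ℕ)
      (Pr : Eis → Eis → Eis → Eis → Eis → Prop)
      (g₃ g₀ E τ : Eis), 0 ≤ X → 1 ≤ Z → E ≠ 0 → τ ≠ 0 → IsPrim g₀ →
      (∀ y ∈ T, IsPrim y ∧ (nm y : ℝ) ≤ Real.exp ((l : ℝ) / 3 + 1 / 3)) → g₃ ∈ bk X w →
      (∀ x ∈ Q4 T X Z u v Pr g₃, Q (f4 E τ x)) →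
      ∀ X0 : ℝ, Real.exp ((l : ℝ) / 3 + 1 / 3) * Z ≤ X0 →
      Real.exp (((u + v : ℕ) : ℝ) / 3 + 2 / 3) ≤ X0 →
      ∀ s₁ : ℝ, Real.log (nm (E * τ)) + 1 / 3 ≤ s₁ →
      ∀ {r : ℕ} (s' : Fin r → Pq) (n K Lv s Bd Wt : ℝ), 0 ≤ Bd → 0 ≤ Wt →
      (0 ≤ Real.log Z + l / 3 + s₁ - 2 * (v / 3) →
        PM2Q Q P h (Real.log Z + l / 3 + s₁ - 2 * (v / 3)) (u / 3 + 2 / 3 + v / 3) (List.ofFn s') ≤
          Bd * Wt * Real.exp (n + K + (Real.log Z + l / 3 + s₁) -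
            nr Lv (Real.log Z + l / 3 + s₁) - (n - (u / 3 + 2 / 3) - ∑ k, (s' k).z))) →
      Real.exp (v / 3 + nr Lv (Real.log Z + l / 3) - l / 3 + s) * Real.exp ((w : ℝ) / 3) *
        ∑ x ∈ Q4 T X Z u v Pr g₃, ∏ k, ‖CS (pc h ((s' k).pc P)) (f4 E τ x)‖ ^ 2 ≤
      C * X0 ^ ε * (Z * (Bd * Real.exp (n + K + s + s₁ + 2 / 3))) *
        Real.exp (∑ k, (s' k).z - (n - (Real.log (nm g₀) + ((u : ℝ) / 3 + v / 3 + w / 3)))) *
          Wt := by
  obtain ⟨C, hC, hq⟩ := q4_PMQ hε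
  refine ⟨C, hC, ?_⟩
  intro Q P h T X Z l u v w Pr g₃ g₀ E τ hX hZ hE hτ hg₀ hT hg₃ hQ X0 hX0 hB s₁ hs₁ r s' n K Lv s
    Bd Wt hBd hWt hpm
  set a : ℝ := (l : ℝ) / 3 with ha
  set b : ℝ := (u : ℝ) / 3 with hb
  set g : ℝ := (v : ℝ) / 3 with hg
  set o : ℝ := (w : ℝ) / 3 with ho
  set z : ℝ := Real.log Z with hz
  set n' : ℝ := ∑ k, (s' k).z with hn'
  have hZ0 : 0 < Z := by linarith
  have eZ : Z = Real.exp z := (Real.exp_log hZ0).symm
  have hX00 : 0 < X0 := (Real.exp_pos _).trans_le hB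
  have ho0 : 0 ≤ o := by positivity
  have hg0 : 0 ≤ g := by positivity
  have hEτ : (0 : ℝ) < nm (E * τ) := by exact_mod_cast nm_pos.2 (mul_ne_zero hE hτ)
  have hEτ1 : (1 : ℝ) ≤ nm (E * τ) := by exact_mod_cast nm_pos.2 (mul_ne_zero hE hτ)
  have hlogE : 0 ≤ Real.log (nm (E * τ)) := Real.log_nonneg hEτ1
  have hs10 : 0 ≤ s₁ := by linarith
  have hKb : Kb (Real.exp (a + 1 / 3)) Z v w = Real.exp (a + 1 / 3 + z - 2 * g - 3 * o) := by
    have e1 : Real.exp (a + 1 / 3 + z - 2 * g - 3 * o) =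
        Real.exp (a + 1 / 3) * (Real.exp z * Real.exp (-(2 * ((v : ℝ) / 3)) - w)) := by
      rw [← Real.exp_add, ← Real.exp_add]
      congr 1
      rw [hg, ho]; ring
    rw [e1, ← eZ]
    rfl
  have hKX : Kb (Real.exp (a + 1 / 3)) Z v w ≤ X0 := by
    rw [hKb]
    refine le_trans ?_ hX0
    have e1 : Real.exp (a + 1 / 3) * Z = Real.exp (a + 1 / 3 + z) := by
      rw [Real.exp_add (a + 1 / 3) z, ← eZ]
    rw [e1]
    exact Real.exp_le_exp.2 (by linarith)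
  have h1 := hq T X Z (Real.exp (a + 1 / 3)) u v w Pr g₃ E τ hX hZ0.le (Real.exp_pos _).le hE hτ
    hT hg₃ X0 hKX hB (z + a + s₁ - 2 * g) (by
      rw [hKb]
      have e1 : (nm (E * τ) : ℝ) = Real.exp (Real.log (nm (E * τ))) := (Real.exp_log hEτ).symm
      rw [e1, ← Real.exp_add]
      exact Real.exp_le_exp.2 (by linarith)) Q hQ P h s'
  have h2 : PMpQ Q P h (z + a + s₁ - 2 * g) (Bb (u + v)) (List.ofFn s') ≤
      Bd * Wt * Real.exp (n + K + (z + a + s₁) - nr Lv (z + a + s₁) - (n - (b + 2 / 3) - n')) := by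
    refine (PMpQ_Bb_le (β := b + 2 / 3 + g) (by push_cast; rw [hb, hg]; linarith) _).trans ?_
    by_cases h0 : 0 ≤ z + a + s₁ - 2 * g
    · exact hpm h0
    · rw [PM2Q_neg (by linarith)]
      positivity
  have hgg : 0 ≤ Real.log (nm g₀) := by
    refine Real.log_nonneg ?_
    exact_mod_cast nm_pos.2 hg₀.ne_zero
  have hnr : nr Lv (z + a) ≤ nr Lv (z + a + s₁) := by
    unfold nr
    refine max_le_max le_rfl (max_le_max (by linarith) (by linarith))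
  have hW0 : 0 < Real.exp (g + nr Lv (z + a) - a + s) * Real.exp o := by positivity
  have hCX : 0 ≤ C * X0 ^ ε := by
    have : 0 ≤ C := by linarith
    positivity
  calc Real.exp (g + nr Lv (z + a) - a + s) * Real.exp o *
        ∑ x ∈ Q4 T X Z u v Pr g₃, ∏ k, ‖CS (pc h ((s' k).pc P)) (f4 E τ x)‖ ^ 2
      ≤ Real.exp (g + nr Lv (z + a) - a + s) * Real.exp o * (C * X0 ^ ε *
        (Bd * Wt * Real.exp (n + K + (z + a + s₁) - nr Lv (z + a + s₁) -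
          (n - (b + 2 / 3) - n')))) := by
        refine mul_le_mul_of_nonneg_left (h1.trans ?_) hW0.le
        exact mul_le_mul_of_nonneg_left h2 hCX
    _ = C * X0 ^ ε * (Bd * Wt) * Real.exp ((g + nr Lv (z + a) - a + s) + o +
        (n + K + (z + a + s₁) - nr Lv (z + a + s₁) - (n - (b + 2 / 3) - n'))) := by
        obtain ⟨A, hA⟩ : ∃ A, A = g + nr Lv (z + a) - a + s := ⟨_, rfl⟩
        obtain ⟨A', hA'⟩ : ∃ A', A' = n + K + (z + a + s₁) - nr Lv (z + a + s₁) -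
          (n - (b + 2 / 3) - n') := ⟨_, rfl⟩
        rw [← hA, ← hA', Real.exp_add (A + o) A', Real.exp_add A o]; ring
    _ ≤ C * X0 ^ ε * (Bd * Wt) * Real.exp (z + (n + K + s + s₁ + 2 / 3) +
        (n' - (n - (Real.log (nm g₀) + (b + g + o))))) := by
        refine mul_le_mul_of_nonneg_left (Real.exp_le_exp.2 ?_) (mul_nonneg hCX (by positivity))
        linarith
    _ = _ := by
        obtain ⟨A, hA⟩ : ∃ A, A = n + K + s + s₁ + 2 / 3 := ⟨_, rfl⟩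
        obtain ⟨A', hA'⟩ : ∃ A', A' = n' - (n - (Real.log (nm g₀) + (b + g + o))) := ⟨_, rfl⟩
        rw [← hA, ← hA', Real.exp_add (z + A) A', Real.exp_add z A, ← eZ]; ring

/-- **one natural joint cell, from the merged functional,
with a predicate** -/
theorem cell_gaQ {ε : ℝ} (hε : 0 < ε) : ∃ C : ℝ, 1 ≤ C ∧
    ∀ (Q : Eis → Prop) (P : DPar) (h : ℝ → ℝ) (T : Finset Eis) (X Z U R : ℝ) (l u v w : ℕ)
      (Pr : Eis → Eis → Eis → Eis → Eis → Prop)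
      (g₃ g₀ E τ n₀ g : Eis), 0 ≤ X → 1 ≤ Z → 1 ≤ U → 0 ≤ R → E ≠ 0 → τ ≠ 0 → IsPrim g₀ →
      IsPrim n₀ → IsPrim g →
      (∀ y ∈ T, IsPrim y ∧ (nm y : ℝ) ≤ Real.exp ((l : ℝ) / 3 + 1 / 3)) → g₃ ∈ bk X w →
      Real.exp ((u : ℝ) / 3) * nm g ≤ U →
      (∀ x ∈ Q4 T X (Z / nm g) u v Pr g₃, Q (f4 E τ x)) → U ≤ 2 * (Real.exp ((u : ℝ) / 3 + 1 / 3) * nm g) →
      ∀ X0 s₁ : ℝ, Real.log (nm (E * τ)) + 1 ≤ s₁ →
      Real.exp (Real.log Z + l / 3 + s₁ + 2 * Real.log U) ≤ X0 → 1 ≤ X0 →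
      ∀ {r : ℕ} (s' : Fin r → Pq) (n K Lv s Bd Wt : ℝ), 0 ≤ Bd → 0 ≤ Wt →
      0 ≤ s → R ≤ Real.exp (s + Lv - 2 * (l / 3)) →
      2 * (Real.log Z + l / 3 + Real.log U) ≤ Lv →
      (Real.log (nm g) ≤ Real.log Z → RQ Q h
        (Real.log Z + l / 3 + s₁ + 2 * Real.log U - 3 * Real.log (nm g))
        ((List.ofFn s').map (Pq.pc P)) ≤
          Bd * Wt * Real.exp (n + K - (Lv - (Real.log Z + l / 3 + s₁) - Real.log U +
            2 * Real.log (nm g) + (n - Real.log U - ∑ k, (s' k).z)))) →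
      (nm n₀ : ℝ) * nm g * wJc R (Z / (nm n₀ : ℝ) ^ 3) U (nm g) (Real.exp ((v : ℝ) / 3)) *
          Real.exp ((w : ℝ) / 3) *
        ∑ x ∈ Q4 T X (Z / nm g) u v Pr g₃, ∏ k, ‖CS (pc h ((s' k).pc P)) (f4 E τ x)‖ ^ 2 ≤
      C * X0 ^ ε * (nm n₀ * (Z * U * (Bd * Real.exp (n + K + s + s₁)))) *
        Real.exp (∑ k, (s' k).z - (n - (Real.log (nm (g₀ * g)) +
          ((u : ℝ) / 3 + v / 3 + w / 3)))) * Wt := by
  obtain ⟨C, hC, hq⟩ := q4_RQ hε
  refine ⟨C * (2 * Real.exp 2), one_le_mul_of_one_le_of_one_le hC (by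
    have := Real.one_le_exp (show (0 : ℝ) ≤ 2 by norm_num); linarith), ?_⟩
  intro Q P h T X Z U R l u v w Pr g₃ g₀ E τ n₀ g hX hZ hU hR0 hE hτ hg₀ hn₀ hgp hT hg₃ hu1 hQ
    hu2 X0 s₁ hs₁ hX0 hX01 r s' n K Lv s Bd Wt hBd hWt hs hR hJ hga
  have hZ0 : 0 < Z := by linarith
  have hU0 : 0 < U := by linarith
  have hG1 : (1 : ℝ) ≤ nm g := by exact_mod_cast nm_pos.2 hgp.ne_zero
  have hG0 : (0 : ℝ) < nm g := by linarith
  have hn1 : (1 : ℝ) ≤ nm n₀ := by exact_mod_cast nm_pos.2 hn₀.ne_zero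
  have hX00 : 0 < X0 := by linarith
  have hEτ : (0 : ℝ) < nm (E * τ) := by exact_mod_cast nm_pos.2 (mul_ne_zero hE hτ)
  have hEτ1 : (1 : ℝ) ≤ nm (E * τ) := by exact_mod_cast nm_pos.2 (mul_ne_zero hE hτ)
  have hlogE : 0 ≤ Real.log (nm (E * τ)) := Real.log_nonneg hEτ1
  have hC0 : 0 ≤ C := by linarith
  set a : ℝ := (l : ℝ) / 3 with ha
  set b : ℝ := (u : ℝ) / 3 with hb
  set x : ℝ := (v : ℝ) / 3 with hx
  set o : ℝ := (w : ℝ) / 3 with ho
  set z : ℝ := Real.log Z with hz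
  set β : ℝ := Real.log U with hβ
  set γ : ℝ := Real.log (nm g) with hγ
  set n' : ℝ := ∑ k, (s' k).z with hn'
  have eG : (nm g : ℝ) = Real.exp γ := (Real.exp_log hG0).symm
  have eZ : Z = Real.exp z := (Real.exp_log hZ0).symm
  have eU : U = Real.exp β := (Real.exp_log hU0).symm
  have hγ0 : 0 ≤ γ := Real.log_nonneg hG1
  have ha0 : 0 ≤ a := by positivity
  have hx0 : 0 ≤ x := by positivity
  have hbγ : b + γ ≤ β := by
    have h1 : Real.exp (b + γ) ≤ Real.exp β := by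
      rw [Real.exp_add, ← eG, ← eU]; exact hu1
    exact Real.exp_le_exp.1 h1
  have hgg0 : Real.log (nm (g₀ * g)) = Real.log (nm g₀) + γ := by
    rw [nm_mul, Nat.cast_mul, Real.log_mul (by exact_mod_cast (nm_pos.2 hg₀.ne_zero).ne') hG0.ne']
  have hg₀0 : 0 ≤ Real.log (nm g₀) := by
    refine Real.log_nonneg ?_
    exact_mod_cast nm_pos.2 hg₀.ne_zero
  have hβ2 : β ≤ b + γ + 2 := by
    have h1 : Real.exp β ≤ Real.exp (b + γ + 2) := by
      rw [← eU]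
      refine hu2.trans ?_
      have e2 : (2 : ℝ) ≤ Real.exp (5 / 3) := by
        have := Real.add_one_le_exp (5 / 3 : ℝ)
        linarith
      calc 2 * (Real.exp (b + 1 / 3) * nm g) ≤ Real.exp (5 / 3) * (Real.exp (b + 1 / 3) * nm g) := by
            gcongr
        _ = _ := by
            rw [eG, ← Real.exp_add, ← Real.exp_add]; congr 1; ring
    exact Real.exp_le_exp.1 h1
  have hRHS : 0 ≤ C * (2 * Real.exp 2) * X0 ^ ε * (nm n₀ * (Z * U * (Bd * Real.exp (n + K + s +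
      s₁)))) * Real.exp (n' - (n - (Real.log (nm (g₀ * g)) + (b + x + o)))) * Wt := by positivity
  by_cases hcase : γ ≤ z
  swap
  · -- empty
    have hemp : Q4 T X (Z / nm g) u v Pr g₃ = ∅ := by
      rw [Finset.eq_empty_iff_forall_notMem]
      intro y hy
      rw [mem_Q4] at hy
      have hZg : 0 ≤ Z / nm g := by positivity
      have h1 := (mem_pb hZg).1 hy.2.1
      have h2 : (1 : ℝ) ≤ nm (y.2.2.1 ^ 2 * g₃ ^ 3 * y.2.2.2) := by
        exact_mod_cast nm_pos.2 h1.2.ne_zero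
      have h3 : Z / nm g < 1 := by
        rw [div_lt_one hG0, eZ, eG]
        exact Real.exp_lt_exp.2 (not_le.1 hcase)
      linarith [h1.1]
    rw [hemp, Finset.sum_empty, mul_zero]
    exact hRHS
  have hZg1 : 0 ≤ Z / nm g := by positivity
  -- the quadruple sum
  have hlev : Lam (nm (E * τ) * Real.exp (a + 1 / 3) * (Z / nm g)) u w ≤
      Real.exp (z + a + s₁ + 2 * β - 3 * γ) := by
    unfold Lam
    have e1 : (nm (E * τ) : ℝ) = Real.exp (Real.log (nm (E * τ))) := (Real.exp_log hEτ).symm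
    have e2 : Z / nm g = Real.exp (z - γ) := by rw [Real.exp_sub, ← eZ, ← eG]
    have e3 : (nm (E * τ) : ℝ) * Real.exp (a + 1 / 3) * (Z / nm g) *
        Real.exp (2 * ((u : ℝ) / 3 + 1 / 3) - w) =
        Real.exp (Real.log (nm (E * τ)) + (a + 1 / 3) + (z - γ) +
          (2 * ((u : ℝ) / 3 + 1 / 3) - w)) := by
      obtain ⟨A, hA⟩ : ∃ A, A = a + 1 / 3 := ⟨_, rfl⟩
      obtain ⟨A', hA'⟩ : ∃ A', A' = 2 * ((u : ℝ) / 3 + 1 / 3) - w := ⟨_, rfl⟩
      obtain ⟨A₂, hA₂⟩ : ∃ A₂, A₂ = Real.log (nm (E * τ)) := ⟨_, rfl⟩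
      obtain ⟨A₃, hA₃⟩ : ∃ A₃, A₃ = z - γ := ⟨_, rfl⟩
      rw [← hA₂] at e1
      rw [← hA₃] at e2
      rw [← hA, ← hA', ← hA₂, ← hA₃, e1, e2, Real.exp_add (A₂ + A + A₃) A',
        Real.exp_add (A₂ + A) A₃, Real.exp_add A₂ A]
    rw [e3]
    refine Real.exp_le_exp.2 ?_
    have hw0 : (0 : ℝ) ≤ w := Nat.cast_nonneg w
    have : 2 * ((u : ℝ) / 3 + 1 / 3) ≤ 2 * (β - γ) + 2 / 3 := by
      have : (u : ℝ) / 3 = b := rfl
      linarith
    linarith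
  have h1 := hq T X (Z / nm g) (Real.exp (a + 1 / 3)) u v w Pr g₃ E τ hX hZg1 (Real.exp_pos _).le
    hE hτ hT hg₃ (z + a + s₁ + 2 * β - 3 * γ) hlev Q hQ P h s'
  have h2 := hga hcase
  have hXe : Real.exp (z + a + s₁ + 2 * β - 3 * γ) ^ ε ≤ X0 ^ ε := by
    refine Real.rpow_le_rpow (Real.exp_pos _).le (le_trans ?_ hX0) hε.le
    exact Real.exp_le_exp.2 (by linarith)
  -- the weight
  have hwt : wJc R (Z / (nm n₀ : ℝ) ^ 3) U (nm g) (Real.exp x) ≤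
      2 * Real.exp (x + γ + (s + Lv - 2 * a)) := by
    unfold MoJ401.wJc
    have hn3 : (1 : ℝ) ≤ (nm n₀ : ℝ) ^ 3 := one_le_pow₀ hn1
    have ex1 : 1 ≤ Real.exp x := Real.one_le_exp hx0
    have hZn : Z / (nm n₀ : ℝ) ^ 3 ≤ Z := div_le_self hZ0.le hn3
    have q1 : Z / (nm n₀ : ℝ) ^ 3 * U / (Real.exp x * (nm g : ℝ) ^ 2) ≤ Z * U := by
      have hden : 1 ≤ Real.exp x * (nm g : ℝ) ^ 2 :=
        one_le_mul_of_one_le_of_one_le ex1 (one_le_pow₀ hG1)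
      refine (div_le_self (by positivity) hden).trans ?_
      exact mul_le_mul_of_nonneg_right hZn hU0.le
    have q2 : (Z / (nm n₀ : ℝ) ^ 3 * U / (Real.exp x * (nm g : ℝ) ^ 2)) ^ 2 ≤
        Real.exp (s + Lv - 2 * a) := by
      refine (pow_le_pow_left₀ (by positivity) q1 2).trans ?_
      rw [eZ, eU, ← Real.exp_add, ← Real.exp_nat_mul]
      refine Real.exp_le_exp.2 ?_
      push_cast
      linarith
    calc Real.exp x * (nm g * (R + (Z / (nm n₀ : ℝ) ^ 3 * U /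
          (Real.exp x * (nm g : ℝ) ^ 2)) ^ 2))
        ≤ Real.exp x * (nm g * (Real.exp (s + Lv - 2 * a) + Real.exp (s + Lv - 2 * a))) := by
          gcongr
      _ = _ := by
          obtain ⟨A, hA⟩ : ∃ A, A = s + Lv - 2 * a := ⟨_, rfl⟩
          rw [← hA, Real.exp_add (x + γ) A, Real.exp_add x γ, ← eG]; ring
  have hCX : 0 ≤ C * X0 ^ ε := by positivity
  calc (nm n₀ : ℝ) * nm g * wJc R (Z / (nm n₀ : ℝ) ^ 3) U (nm g) (Real.exp x) * Real.exp o *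
        ∑ x ∈ Q4 T X (Z / nm g) u v Pr g₃, ∏ k, ‖CS (pc h ((s' k).pc P)) (f4 E τ x)‖ ^ 2
      ≤ (nm n₀ : ℝ) * nm g * (2 * Real.exp (x + γ + (s + Lv - 2 * a))) * Real.exp o *
        (C * X0 ^ ε * (Bd * Wt * Real.exp (n + K - (Lv - (z + a + s₁) - β + 2 * γ +
          (n - β - n'))))) := by
        have p1 : (nm n₀ : ℝ) * nm g * wJc R (Z / (nm n₀ : ℝ) ^ 3) U (nm g) (Real.exp x) *
            Real.exp o ≤ (nm n₀ : ℝ) * nm g * (2 * Real.exp (x + γ + (s + Lv - 2 * a))) *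
            Real.exp o := by gcongr
        have p2 : ∑ x ∈ Q4 T X (Z / nm g) u v Pr g₃,
            ∏ k, ‖CS (pc h ((s' k).pc P)) (f4 E τ x)‖ ^ 2 ≤
            C * X0 ^ ε * (Bd * Wt * Real.exp (n + K - (Lv - (z + a + s₁) - β + 2 * γ +
          (n - β - n')))) := by
          refine h1.trans ?_
          refine mul_le_mul (mul_le_mul_of_nonneg_left hXe hC0) h2 (RQ_nonneg _ _ _ _) hCX
        exact mul_le_mul p1 p2 (Finset.sum_nonneg fun _ _ => Finset.prod_nonneg fun _ _ =>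
          sq_nonneg _) (by positivity)
    _ = C * X0 ^ ε * (nm n₀ * (Bd * Wt)) * 2 * Real.exp (γ + (x + γ + (s + Lv - 2 * a)) + o +
          (n + K - (Lv - (z + a + s₁) - β + 2 * γ + (n - β - n')))) := by
        obtain ⟨A, hA⟩ : ∃ A, A = x + γ + (s + Lv - 2 * a) := ⟨_, rfl⟩
        obtain ⟨A', hA'⟩ : ∃ A', A' = n + K - (Lv - (z + a + s₁) - β + 2 * γ + (n - β - n')) :=
          ⟨_, rfl⟩
        rw [← hA, ← hA', Real.exp_add (γ + A + o) A', Real.exp_add (γ + A) o, Real.exp_add γ A,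
          ← eG]
        ring
    _ ≤ C * X0 ^ ε * (nm n₀ * (Bd * Wt)) * 2 * Real.exp (2 + z + β + (n + K + s + s₁) +
          (n' - (n - (Real.log (nm g₀) + γ + (b + x + o))))) := by
        refine mul_le_mul_of_nonneg_left (Real.exp_le_exp.2 ?_) (by positivity)
        linarith
    _ = _ := by
        obtain ⟨A, hA⟩ : ∃ A, A = n + K + s + s₁ := ⟨_, rfl⟩
        obtain ⟨A', hA'⟩ : ∃ A', A' = n' - (n - (Real.log (nm g₀) + γ + (b + x + o))) := ⟨_, rfl⟩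
        rw [hgg0, ← hA, ← hA', Real.exp_add (2 + z + β + A) A', Real.exp_add (2 + z + β) A,
          Real.exp_add (2 + z) β, Real.exp_add 2 z, ← eZ, ← eU]
        ring

/-- **one natural joint cell, from the two-level functional,
with a predicate** -/
theorem cell_ga2Q {ε : ℝ} (hε : 0 < ε) : ∃ C : ℝ, 1 ≤ C ∧
    ∀ (Q : Eis → Prop) (P : DPar) (h : ℝ → ℝ) (T : Finset Eis) (X Z U R : ℝ) (l u v w : ℕ)
      (Pr : Eis → Eis → Eis → Eis → Eis → Prop)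
      (g₃ g₀ E τ n₀ g : Eis), 0 ≤ X → 1 ≤ Z → 1 ≤ U → 0 ≤ R → E ≠ 0 → τ ≠ 0 → IsPrim g₀ →
      IsPrim n₀ → IsPrim g →
      (∀ y ∈ T, IsPrim y ∧ (nm y : ℝ) ≤ Real.exp ((l : ℝ) / 3 + 1 / 3)) → g₃ ∈ bk X w →
      Real.exp ((u : ℝ) / 3) * nm g ≤ U →
      (∀ x ∈ Q4 T X (Z / nm g) u v Pr g₃, Q (f4 E τ x)) →
      ∀ X0 s₁ : ℝ, Real.log (nm (E * τ)) + 1 / 3 ≤ s₁ →
      Real.exp ((l : ℝ) / 3 + 1 / 3) * Z ≤ X0 → Real.exp (((u + v : ℕ) : ℝ) / 3 + 2 / 3) ≤ X0 →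
      ∀ {r : ℕ} (s' : Fin r → Pq) (n K Lv s Bd Wt : ℝ), 0 ≤ Bd → 0 ≤ Wt →
      0 ≤ s → R ≤ Real.exp (s + Lv - 2 * (l / 3)) →
      2 * (Real.log Z + l / 3 + Real.log U) ≤ Lv →
      (0 ≤ Real.log Z + l / 3 + s₁ - Real.log (nm g) - 2 * (v / 3) →
        PM2Q Q P h (Real.log Z + l / 3 + s₁ - Real.log (nm g) - 2 * (v / 3))
          (u / 3 + 2 / 3 + v / 3) (List.ofFn s') ≤
          Bd * Wt * Real.exp (n + K - (Lv - (Real.log Z + l / 3 + s₁) -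
            (u / 3 + 2 / 3 + Real.log (nm g)) + 2 * Real.log (nm g) +
            (n - (u / 3 + 2 / 3 + Real.log (nm g)) - ∑ k, (s' k).z)))) →
      (nm n₀ : ℝ) * nm g * wJc R (Z / (nm n₀ : ℝ) ^ 3) U (nm g) (Real.exp ((v : ℝ) / 3)) *
          Real.exp ((w : ℝ) / 3) *
        ∑ x ∈ Q4 T X (Z / nm g) u v Pr g₃, ∏ k, ‖CS (pc h ((s' k).pc P)) (f4 E τ x)‖ ^ 2 ≤
      C * X0 ^ ε * (nm n₀ * (Z * U * (Bd * Real.exp (n + K + s + s₁)))) *
        Real.exp (∑ k, (s' k).z - (n - (Real.log (nm (g₀ * g)) +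
          ((u : ℝ) / 3 + v / 3 + w / 3)))) * Wt := by
  obtain ⟨C, hC, hq⟩ := q4_PMQ hε
  refine ⟨C * (2 * Real.exp (4 / 3)), one_le_mul_of_one_le_of_one_le hC (by
    have := Real.one_le_exp (show (0 : ℝ) ≤ 4 / 3 by norm_num); linarith), ?_⟩
  intro Q P h T X Z U R l u v w Pr g₃ g₀ E τ n₀ g hX hZ hU hR0 hE hτ hg₀ hn₀ hgp hT hg₃ hu1 hQ
    X0 s₁ hs₁ hX0 hB r s' n K Lv s Bd Wt hBd hWt hs hR hJ hga
  have hZ0 : 0 < Z := by linarith
  have hU0 : 0 < U := by linarith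
  have hG1 : (1 : ℝ) ≤ nm g := by exact_mod_cast nm_pos.2 hgp.ne_zero
  have hG0 : (0 : ℝ) < nm g := by linarith
  have hn1 : (1 : ℝ) ≤ nm n₀ := by exact_mod_cast nm_pos.2 hn₀.ne_zero
  have hX00 : 0 < X0 := (Real.exp_pos _).trans_le hB
  have hEτ : (0 : ℝ) < nm (E * τ) := by exact_mod_cast nm_pos.2 (mul_ne_zero hE hτ)
  have hEτ1 : (1 : ℝ) ≤ nm (E * τ) := by exact_mod_cast nm_pos.2 (mul_ne_zero hE hτ)
  have hlogE : 0 ≤ Real.log (nm (E * τ)) := Real.log_nonneg hEτ1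
  have hC0 : 0 ≤ C := by linarith
  set a : ℝ := (l : ℝ) / 3 with ha
  set b : ℝ := (u : ℝ) / 3 with hb
  set x : ℝ := (v : ℝ) / 3 with hx
  set o : ℝ := (w : ℝ) / 3 with ho
  set z : ℝ := Real.log Z with hz
  set β : ℝ := Real.log U with hβ
  set γ : ℝ := Real.log (nm g) with hγ
  set n' : ℝ := ∑ k, (s' k).z with hn'
  have eG : (nm g : ℝ) = Real.exp γ := (Real.exp_log hG0).symm
  have eZ : Z = Real.exp z := (Real.exp_log hZ0).symm
  have eU : U = Real.exp β := (Real.exp_log hU0).symm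
  have hγ0 : 0 ≤ γ := Real.log_nonneg hG1
  have ha0 : 0 ≤ a := by positivity
  have hx0 : 0 ≤ x := by positivity
  have ho0 : 0 ≤ o := by positivity
  have hbγ : b + γ ≤ β := by
    have h1 : Real.exp (b + γ) ≤ Real.exp β := by
      rw [Real.exp_add, ← eG, ← eU]; exact hu1
    exact Real.exp_le_exp.1 h1
  have hgg0 : Real.log (nm (g₀ * g)) = Real.log (nm g₀) + γ := by
    rw [nm_mul, Nat.cast_mul, Real.log_mul (by exact_mod_cast (nm_pos.2 hg₀.ne_zero).ne') hG0.ne']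
  have hg₀0 : 0 ≤ Real.log (nm g₀) := by
    refine Real.log_nonneg ?_
    exact_mod_cast nm_pos.2 hg₀.ne_zero
  have hZg0 : 0 < Z / nm g := by positivity
  have eZg : Z / nm g = Real.exp (z - γ) := by rw [Real.exp_sub, ← eZ, ← eG]
  have hKb : Kb (Real.exp (a + 1 / 3)) (Z / nm g) v w =
      Real.exp (a + 1 / 3 + (z - γ) - 2 * x - 3 * o) := by
    have e1 : Real.exp (a + 1 / 3 + (z - γ) - 2 * x - 3 * o) =
        Real.exp (a + 1 / 3) * (Real.exp (z - γ) * Real.exp (-(2 * ((v : ℝ) / 3)) - w)) := by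
      rw [← Real.exp_add, ← Real.exp_add]
      congr 1
      rw [ho]; ring
    rw [e1, ← eZg]
    rfl
  have hKX : Kb (Real.exp (a + 1 / 3)) (Z / nm g) v w ≤ X0 := by
    rw [hKb]
    refine le_trans ?_ hX0
    have e1 : Real.exp (a + 1 / 3) * Z = Real.exp (a + 1 / 3 + z) := by
      rw [Real.exp_add (a + 1 / 3) z, ← eZ]
    rw [e1]
    exact Real.exp_le_exp.2 (by linarith)
  have h1 := hq T X (Z / nm g) (Real.exp (a + 1 / 3)) u v w Pr g₃ E τ hX hZg0.le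
    (Real.exp_pos _).le hE hτ hT hg₃ X0 hKX hB (z + a + s₁ - γ - 2 * x) (by
      rw [hKb]
      have e1 : (nm (E * τ) : ℝ) = Real.exp (Real.log (nm (E * τ))) := (Real.exp_log hEτ).symm
      rw [e1, ← Real.exp_add]
      exact Real.exp_le_exp.2 (by linarith)) Q hQ P h s'
  have h2 : PMpQ Q P h (z + a + s₁ - γ - 2 * x) (Bb (u + v)) (List.ofFn s') ≤
      Bd * Wt * Real.exp (n + K - (Lv - (z + a + s₁) - (b + 2 / 3 + γ) + 2 * γ +
        (n - (b + 2 / 3 + γ) - n'))) := by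
    refine (PMpQ_Bb_le (β := b + 2 / 3 + x) (by push_cast; rw [hb, hx]; linarith) _).trans ?_
    by_cases h0 : 0 ≤ z + a + s₁ - γ - 2 * x
    · exact hga h0
    · rw [PM2Q_neg (by linarith)]
      positivity
  -- the weight
  have hwt : wJc R (Z / (nm n₀ : ℝ) ^ 3) U (nm g) (Real.exp x) ≤
      2 * Real.exp (x + γ + (s + Lv - 2 * a)) := by
    unfold MoJ401.wJc
    have hn3 : (1 : ℝ) ≤ (nm n₀ : ℝ) ^ 3 := one_le_pow₀ hn1
    have ex1 : 1 ≤ Real.exp x := Real.one_le_exp hx0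
    have hZn : Z / (nm n₀ : ℝ) ^ 3 ≤ Z := div_le_self hZ0.le hn3
    have q1 : Z / (nm n₀ : ℝ) ^ 3 * U / (Real.exp x * (nm g : ℝ) ^ 2) ≤ Z * U := by
      have hden : 1 ≤ Real.exp x * (nm g : ℝ) ^ 2 :=
        one_le_mul_of_one_le_of_one_le ex1 (one_le_pow₀ hG1)
      refine (div_le_self (by positivity) hden).trans ?_
      exact mul_le_mul_of_nonneg_right hZn hU0.le
    have q2 : (Z / (nm n₀ : ℝ) ^ 3 * U / (Real.exp x * (nm g : ℝ) ^ 2)) ^ 2 ≤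
        Real.exp (s + Lv - 2 * a) := by
      refine (pow_le_pow_left₀ (by positivity) q1 2).trans ?_
      rw [eZ, eU, ← Real.exp_add, ← Real.exp_nat_mul]
      refine Real.exp_le_exp.2 ?_
      push_cast
      linarith
    calc Real.exp x * (nm g * (R + (Z / (nm n₀ : ℝ) ^ 3 * U /
          (Real.exp x * (nm g : ℝ) ^ 2)) ^ 2))
        ≤ Real.exp x * (nm g * (Real.exp (s + Lv - 2 * a) + Real.exp (s + Lv - 2 * a))) := by
          gcongr
      _ = _ := by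
          obtain ⟨A, hA⟩ : ∃ A, A = s + Lv - 2 * a := ⟨_, rfl⟩
          rw [← hA, Real.exp_add (x + γ) A, Real.exp_add x γ, ← eG]; ring
  have hCX : 0 ≤ C * X0 ^ ε := by positivity
  calc (nm n₀ : ℝ) * nm g * wJc R (Z / (nm n₀ : ℝ) ^ 3) U (nm g) (Real.exp x) * Real.exp o *
        ∑ x ∈ Q4 T X (Z / nm g) u v Pr g₃, ∏ k, ‖CS (pc h ((s' k).pc P)) (f4 E τ x)‖ ^ 2
      ≤ (nm n₀ : ℝ) * nm g * (2 * Real.exp (x + γ + (s + Lv - 2 * a))) * Real.exp o *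
        (C * X0 ^ ε * (Bd * Wt * Real.exp (n + K - (Lv - (z + a + s₁) - (b + 2 / 3 + γ) + 2 * γ +
          (n - (b + 2 / 3 + γ) - n'))))) := by
        have p1 : (nm n₀ : ℝ) * nm g * wJc R (Z / (nm n₀ : ℝ) ^ 3) U (nm g) (Real.exp x) *
            Real.exp o ≤ (nm n₀ : ℝ) * nm g * (2 * Real.exp (x + γ + (s + Lv - 2 * a))) *
            Real.exp o := by gcongr
        have p2 : ∑ x ∈ Q4 T X (Z / nm g) u v Pr g₃,
            ∏ k, ‖CS (pc h ((s' k).pc P)) (f4 E τ x)‖ ^ 2 ≤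
            C * X0 ^ ε * (Bd * Wt * Real.exp (n + K - (Lv - (z + a + s₁) - (b + 2 / 3 + γ) +
              2 * γ + (n - (b + 2 / 3 + γ) - n')))) :=
          h1.trans (mul_le_mul_of_nonneg_left h2 hCX)
        exact mul_le_mul p1 p2 (Finset.sum_nonneg fun _ _ => Finset.prod_nonneg fun _ _ =>
          sq_nonneg _) (by positivity)
    _ = C * X0 ^ ε * (nm n₀ * (Bd * Wt)) * 2 * Real.exp (γ + (x + γ + (s + Lv - 2 * a)) + o +
          (n + K - (Lv - (z + a + s₁) - (b + 2 / 3 + γ) + 2 * γ +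
            (n - (b + 2 / 3 + γ) - n')))) := by
        obtain ⟨A, hA⟩ : ∃ A, A = x + γ + (s + Lv - 2 * a) := ⟨_, rfl⟩
        obtain ⟨A', hA'⟩ : ∃ A', A' = n + K - (Lv - (z + a + s₁) - (b + 2 / 3 + γ) + 2 * γ +
            (n - (b + 2 / 3 + γ) - n')) := ⟨_, rfl⟩
        rw [← hA, ← hA', Real.exp_add (γ + A + o) A', Real.exp_add (γ + A) o, Real.exp_add γ A,
          ← eG]
        ring
    _ ≤ C * X0 ^ ε * (nm n₀ * (Bd * Wt)) * 2 * Real.exp (4 / 3 + z + β + (n + K + s + s₁) +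
          (n' - (n - (Real.log (nm g₀) + γ + (b + x + o))))) := by
        refine mul_le_mul_of_nonneg_left (Real.exp_le_exp.2 ?_) (by positivity)
        linarith
    _ = _ := by
        obtain ⟨A, hA⟩ : ∃ A, A = n + K + s + s₁ := ⟨_, rfl⟩
        obtain ⟨A', hA'⟩ : ∃ A', A' = n' - (n - (Real.log (nm g₀) + γ + (b + x + o))) := ⟨_, rfl⟩
        rw [hgg0, ← hA, ← hA', Real.exp_add (4 / 3 + z + β + A) A', Real.exp_add (4 / 3 + z + β) A,
          Real.exp_add (4 / 3 + z) β, Real.exp_add (4 / 3) z, ← eZ, ← eU]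
        ring

end Crest.Agent.R017.NPz739
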