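import Crest.Agent.R017.NES_994

/-!
# Row 17, FlatNE: the character side of the compensated tail (helper994)

* `Tq`, `r_qa`, `qa_full` : `R (l; n') ≤ n' + Tq K l n'` for every list, `5 n' ≤ 4 K`, from `T3Fld`
* `qa_num` : the inequality of the blocks (helper83)
-/

set_option autoImplicit false
set_option linter.unusedVariables false

noncomputable section

namespace Crest.Agent.R017.NQA994

open Crest.Agent.R017.ER911 (Ok Sh EF ExpRules)
open Crest.Agent.R017.SC777 (Full sh3)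
open Crest.Agent.R017.NE73 (flK)
open Crest.Agent.R017.NES994

variable {d : ℝ} {r s : EF}

/-- the excess of the character side over the length of the list -/
def Tq (K l n' : ℝ) : ℝ :=
  min ((2 * K + l) / 3) (max (max (l / 3 + 37 / 45 * n') (2 / 3 * l + 4 / 9 * n')) l)

/-- **the character side**, at the families `κ ≤ l` -/
theorem r_qa (Rm : T3F986.T3Fld (7 / 8 + d) r) {K κ l n' z₁ z₂ z₃ : ℝ} (hK : 0 ≤ K) (h1 : 0 ≤ z₁)
    (h2 : 0 ≤ z₂) (h3 : 0 ≤ z₃) (hn : z₁ + z₂ + z₃ ≤ n') (n5 : 5 * n' ≤ 4 * K) (hκ0 : 0 ≤ κ)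
    (hκ : κ ≤ l) (hl : l ≤ K - max 0 ((4 * n' - 3 * K) / 3)) :
    r κ {z₁, z₂, z₃} 0 0 + (l - κ) / 3 ≤ n' + Tq K l n' + 2 * d * min z₁ (min z₂ z₃) := by
  have A : r κ {z₁, z₂, z₃} 0 0 + (l - κ) / 3 - n' - 2 * d * min z₁ (min z₂ z₃) ≤
      (2 * K + l) / 3 := by
    have hx : max 0 ((4 * (z₁ + z₂ + z₃) - 3 * K) / 3) ≤ max 0 ((4 * n' - 3 * K) / 3) :=
      max_le_max le_rfl (by linarith)
    have := r_sq Rm hK h1 h2 h3 (by linarith) hκ0 (by linarith)
    linarith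
  have B : r κ {z₁, z₂, z₃} 0 0 + (l - κ) / 3 - n' - 2 * d * min z₁ (min z₂ z₃) ≤
      max (max (l / 3 + 37 / 45 * n') (2 / 3 * l + 4 / 9 * n')) l := by
    obtain ⟨a, b, c, hM, c0, cb, ba, hs, hc⟩ := sort3 h1 h2 h3
    rw [hM, ← hc]
    rw [← hs] at hn
    have e : 2 * (7 / 8 + d - 7 / 8) * (c + (0 + 0)) = 2 * d * c := by ring
    rcases le_total l (17 / 15 * n') with hl1 | hl1
    · refine le_trans ?_ ((le_max_left _ _).trans (le_max_left _ _))
      have key := Rm.t3n (17 / 15 * n') (n' / 15) a b c 0 0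
        ⟨by linarith, by linarith, c0, by linarith, cb, le_rfl, le_rfl, Or.inl (by norm_num),
          by linarith, by linarith, by linarith,
          Or.inr ⟨by norm_num, by linarith, by linarith, by linarith⟩⟩ κ hκ0 (by linarith)
      rw [e] at key
      linarith
    rcases le_total l (4 / 3 * n') with hl2 | hl2
    · refine le_trans ?_ ((le_max_right _ _).trans (le_max_left _ _))
      have key := Rm.t3n l ((4 / 3 * n' - l) / 3) a b c 0 0
        ⟨by linarith, by linarith, c0, by linarith, cb, le_rfl, le_rfl, Or.inl (by norm_num),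
          by linarith, by linarith, by linarith,
          Or.inr ⟨by norm_num, by linarith, by linarith, by linarith⟩⟩ κ hκ0 hκ
      rw [e] at key
      linarith
    · refine le_trans ?_ (le_max_right _ _)
      have key := Rm.t3n l 0 a b c 0 0
        ⟨by linarith, by linarith, c0, by linarith, cb, le_rfl, le_rfl, Or.inl (by norm_num),
          by linarith, by linarith, by linarith,
          Or.inr ⟨by norm_num, by linarith, by linarith, by linarith⟩⟩ κ hκ0 hκ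
      rw [e] at key
      linarith
  have := le_min A B
  unfold Tq
  linarith

/-- **the line (qa)** -/
theorem qa_full (Rm : T3F986.T3Fld (7 / 8 + d) r) (hd : 0 ≤ d) {K V n n' l F z₁ z₂ z₃ : ℝ}
    (hK : 0 ≤ K) (n5 : 5 * n ≤ 4 * K)
    (h1 : 0 ≤ z₁) (h2 : 0 ≤ z₂) (h3 : 0 ≤ z₃) (hz : z₁ + z₂ + z₃ ≤ n') (hn : n' ≤ n)
    (hl0 : 0 ≤ l) (hl : l ≤ K - max 0 ((4 * n - 3 * K) / 3))
    (hF : 2 * d * min z₁ (min z₂ z₃) ≤ F) :
    Full (7 / 8 + d) r l {z₁, z₂, z₃} 0 0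
      (flK K V n + F + (n' + Tq K l n' - (4 / 3 * n + (V + K) / 3))) := by
  have hfl : 4 / 3 * n + (V + K) / 3 ≤ flK K V n := by
    unfold NE73.flK
    have := le_max_right 0 ((V + K - 2 * n) / 3)
    linarith
  have hm0 : 0 ≤ min z₁ (min z₂ z₃) := le_min h1 (le_min h2 h3)
  have hF0 : 0 ≤ F := (mul_nonneg (by linarith) hm0).trans hF
  have hmm : max 0 ((4 * n' - 3 * K) / 3) ≤ max 0 ((4 * n - 3 * K) / 3) :=
    max_le_max le_rfl (by linarith)
  have hT : l / 3 ≤ Tq K l n' := by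
    refine le_min (by linarith) ?_
    exact (by linarith : l / 3 ≤ l).trans (le_max_right _ _)
  refine ⟨fun Y'' κ' hs hκ0 hκ1 _ => ?_, by linarith⟩
  obtain ⟨y₁, y₂, y₃, rfl, a1, b1, a2, b2, a3, b3⟩ := sh3 hs
  have key := r_qa (κ := κ') (l := l) (n' := n') Rm hK a1 a2 a3 (by linarith) (by linarith) hκ0
    hκ1 (by linarith)
  have hm : min y₁ (min y₂ y₃) ≤ min z₁ (min z₂ z₃) := min_le_min b1 (min_le_min b2 b3)
  have hm' := mul_le_mul_of_nonneg_left hm (by linarith : (0 : ℝ) ≤ 2 * d)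
  linarith

/-- the cases of `Tq` -/
lemma Tq_le (K l n' : ℝ) : Tq K l n' ≤ (2 * K + l) / 3 ∧
    (Tq K l n' ≤ l / 3 + 37 / 45 * n' ∨ Tq K l n' ≤ 2 / 3 * l + 4 / 9 * n' ∨ Tq K l n' ≤ l) := by
  refine ⟨min_le_left _ _, ?_⟩
  have h : Tq K l n' ≤ max (max (l / 3 + 37 / 45 * n') (2 / 3 * l + 4 / 9 * n')) l :=
    min_le_right _ _
  rcases max_choice (max (l / 3 + 37 / 45 * n') (2 / 3 * l + 4 / 9 * n')) l with h' | h'
  · rw [h'] at h
    rcases max_choice (l / 3 + 37 / 45 * n') (2 / 3 * l + 4 / 9 * n') with h'' | h''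
    · rw [h''] at h; exact Or.inl h
    · rw [h''] at h; exact Or.inr (Or.inl h)
  · rw [h'] at h; exact Or.inr (Or.inr h)

/-- **the inequality of the blocks** (helper83): family `l`, removed part at least
`(K - l)/3 - F3 - (m - 3/4 K) - s` -/
theorem qa_num {K V m l n' f1 s η : ℝ} (hK : 0 ≤ K) (m5 : 5 * m ≤ 4 * K)
    (m3 : 1499 * K ≤ 2000 * m) (vm : 5 * (V + m) ≤ 7 * K) (hl0 : 0 ≤ l) (hl : l ≤ K - 3 * f1)
    (hn0 : 0 ≤ n') (hn : n' ≤ m)
    (ha : n' ≤ m - ((K - l) / 3 - max 0 ((4 * m - 3 * K) / 9) - (m - 3 / 4 * K) - s))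
    (hs : 1000 * s ≤ K) (hη : η ≤ f1 - max 0 ((4 * m - 3 * K) / 9)) (hη1 : 1000 * η ≤ K) :
    n' + Tq K l n' + (m + max (K / 3 + 2 / 3 * l + max 0 ((4 * m - 3 * K) / 9)) (V + K / 3)) +
      2 / 3 * (K - l) + η ≤ 2 * (K + m) := by
  obtain ⟨t1, t2⟩ := Tq_le K l n'
  have hF : (max 0 ((4 * m - 3 * K) / 9) = 0 ∧ 4 * m - 3 * K ≤ 0) ∨
      (max 0 ((4 * m - 3 * K) / 9) = (4 * m - 3 * K) / 9 ∧ 0 ≤ 4 * m - 3 * K) := by
    rcases le_total 0 ((4 * m - 3 * K) / 9) with h | h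
    · exact Or.inr ⟨max_eq_right h, by linarith⟩
    · exact Or.inl ⟨max_eq_left h, by linarith⟩
  generalize max 0 ((4 * m - 3 * K) / 9) = M at *
  rcases max_choice (K / 3 + 2 / 3 * l + M) (V + K / 3) with h | h
  · rw [h]
    linarith
  · rw [h]
    rcases hF with ⟨rfl, hF⟩ | ⟨rfl, hF⟩ <;> rcases t2 with t2 | t2 | t2 <;> linarith

end Crest.Agent.R017.NQA994
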