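import Crest.Agent.R017.NQAa_994
import Crest.Agent.R017.ET2e_71

/-!
# Row 17, FlatNE: the character side of the compensated tail from the far claims (helper994)

* `Tqb`, `r_qb` : `R (l; n') ≤ n' + Tqb l n'` for every list of three lumps (helper71's `r_E3s` with
  the family `4/3 n'` of the far claims)
* `qb_full` : the complete character side in the form of the line (qa)
-/

set_option autoImplicit false
set_option linter.unusedVariables false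

noncomputable section

namespace Crest.Agent.R017.NQA994

open Crest.Agent.R017.ER911 (Ok Sh EF ExpRules)
open Crest.Agent.R017.SC777
open Crest.Agent.R017.NE73 (flK)
open Crest.Agent.R017.NES994
open Crest.Agent.R017.ET71 (mn3 mn3_mono mn3_nonneg mn3_1 mn3_2 mn3_3 farS)
open Crest.Agent.R017.R8T70 (Sh_triple sum_triple ok_triple)

variable {d : ℝ} {r s s₀ : EF}

/-- the excess of the character side over the length, from the far claims -/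
def Tqb (l n' : ℝ) : ℝ := max l (max (2 / 3 * l + 4 / 9 * n') (l / 3 + 22 / 27 * n'))

/-- the direct range -/
theorem r_dir (R : ExpRules (7 / 8 + d) r s) (Rm : ExpRGFz (7 / 8 + d) r s s₀) (hd : 0 ≤ d)
    (hd8 : 8 * d ≤ 1) {κ₁ n' y₁ y₂ y₃ : ℝ} (h1 : 0 ≤ y₁) (h2 : 0 ≤ y₂) (h3 : 0 ≤ y₃)
    (hn : y₁ + y₂ + y₃ ≤ n') (hκ : 10 / 9 * n' ≤ κ₁) :
    ∀ κ' : ℝ, 0 ≤ κ' → κ' ≤ κ₁ → r κ' {y₁, y₂, y₃} 0 0 + (κ₁ - κ') / 3 ≤
      n' + max κ₁ (2 / 3 * κ₁ + 4 / 9 * n') + 2 * d * mn3 y₁ y₂ y₃ := by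
  have m1 := le_max_left κ₁ (2 / 3 * κ₁ + 4 / 9 * n')
  have m2 := le_max_right κ₁ (2 / 3 * κ₁ + 4 / 9 * n')
  have hmn := mn3_nonneg h1 h2 h3
  have hdw : 0 ≤ 2 * d * mn3 y₁ y₂ y₃ := by positivity
  refine R.poisC κ₁ {y₁, y₂, y₃} 0 0 _ (by linarith) (ok_triple h1 h2 h3 le_rfl le_rfl)
    (by rw [sum_triple]; linarith) (by rw [sum_triple]; linarith) ?_
  intro Y' m' a' i hYs hm0 hm1 ha0 ha1 hi hii
  obtain rfl : m' = 0 := le_antisymm hm1 hm0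
  obtain rfl : a' = 0 := le_antisymm ha1 ha0
  obtain ⟨a₁, a₂, a₃, rfl, p1, p1', p2, p2', p3, p3'⟩ := Sh_triple hYs
  rw [sum_triple] at hii
  rw [sum_triple, sum_triple]
  have hmm : mn3 a₁ a₂ a₃ ≤ mn3 y₁ y₂ y₃ := mn3_mono p1' p2' p3'
  have e1 := mn3_1 a₁ a₂ a₃
  have e2 := mn3_2 a₁ a₂ a₃
  have e3 := mn3_3 a₁ a₂ a₃
  have hfar := farS R Rm hd hd8 (K := 4 / 3 * n') (v := i) (y₁ := a₁) (y₂ := a₂) (y₃ := a₃)
    (m := 0) (a := 0) (by linarith) hi p1 p2 p3 le_rfl le_rfl (by linarith) (by linarith)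
    (by linarith) (by linarith) (by linarith) (by linarith)
  have hd2 : 2 * d * (mn3 a₁ a₂ a₃ + (0 + 0)) ≤ 2 * d * mn3 y₁ y₂ y₃ :=
    mul_le_mul_of_nonneg_left (by linarith) (by linarith)
  linarith

/-- **the character side**, every list -/
theorem r_qb (R : ExpRules (7 / 8 + d) r s) (Rm : ExpRGFz (7 / 8 + d) r s s₀) (hd : 0 ≤ d)
    (hd8 : 8 * d ≤ 1) {κ l n' y₁ y₂ y₃ : ℝ} (h1 : 0 ≤ y₁) (h2 : 0 ≤ y₂) (h3 : 0 ≤ y₃)
    (hn : y₁ + y₂ + y₃ ≤ n') (hκ0 : 0 ≤ κ) (hκ : κ ≤ l) :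
    r κ {y₁, y₂, y₃} 0 0 + (l - κ) / 3 ≤ n' + Tqb l n' + 2 * d * mn3 y₁ y₂ y₃ := by
  have t1 : l ≤ Tqb l n' := le_max_left _ _
  have t2 : 2 / 3 * l + 4 / 9 * n' ≤ Tqb l n' := (le_max_left _ _).trans (le_max_right _ _)
  have t3 : l / 3 + 22 / 27 * n' ≤ Tqb l n' := (le_max_right _ _).trans (le_max_right _ _)
  rcases le_total (10 / 9 * n') l with h | h
  · have := r_dir R Rm hd hd8 h1 h2 h3 hn h κ hκ0 hκ
    rcases max_choice l (2 / 3 * l + 4 / 9 * n') with e | e <;> rw [e] at this <;> linarith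
  · have := r_dir R Rm hd hd8 h1 h2 h3 hn le_rfl κ hκ0 (hκ.trans h)
    rw [max_eq_right (by linarith)] at this
    linarith

/-- **the line (qa)** -/
theorem qb_full (R : ExpRules (7 / 8 + d) r s) (Rm : ExpRGFz (7 / 8 + d) r s s₀) (hd : 0 ≤ d)
    (hd8 : 8 * d ≤ 1) {K V n n' l F z₁ z₂ z₃ : ℝ}
    (h1 : 0 ≤ z₁) (h2 : 0 ≤ z₂) (h3 : 0 ≤ z₃) (hz : z₁ + z₂ + z₃ ≤ n')
    (hl0 : 0 ≤ l) (hF : 2 * d * min z₁ (min z₂ z₃) ≤ F) :
    Full (7 / 8 + d) r l {z₁, z₂, z₃} 0 0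
      (flK K V n + F + (n' + Tqb l n' - (4 / 3 * n + (V + K) / 3))) := by
  have hfl : 4 / 3 * n + (V + K) / 3 ≤ flK K V n := by
    unfold NE73.flK
    have := le_max_right 0 ((V + K - 2 * n) / 3)
    linarith
  have hm0 : 0 ≤ min z₁ (min z₂ z₃) := le_min h1 (le_min h2 h3)
  have hF0 : 0 ≤ F := (mul_nonneg (by linarith) hm0).trans hF
  have hT : l ≤ Tqb l n' := le_max_left _ _
  refine ⟨fun Y'' κ' hs hκ0 hκ1 _ => ?_, by linarith⟩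
  obtain ⟨y₁, y₂, y₃, rfl, a1, b1, a2, b2, a3, b3⟩ := sh3 hs
  have key := r_qb (κ := κ') (l := l) (n' := n') R Rm hd hd8 a1 a2 a3 (by linarith) hκ0 hκ1
  have hm : mn3 y₁ y₂ y₃ ≤ min z₁ (min z₂ z₃) := min_le_min b1 (min_le_min b2 b3)
  have hm' := mul_le_mul_of_nonneg_left hm (by linarith : (0 : ℝ) ≤ 2 * d)
  linarith

/-- the cases of `Tqb` -/
lemma Tqb_le (l n' : ℝ) : Tqb l n' ≤ l ∨ Tqb l n' ≤ 2 / 3 * l + 4 / 9 * n' ∨
    Tqb l n' ≤ l / 3 + 22 / 27 * n' := by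
  unfold Tqb
  rcases max_choice l (max (2 / 3 * l + 4 / 9 * n') (l / 3 + 22 / 27 * n')) with h | h
  · rw [h]; exact Or.inl le_rfl
  · rw [h]
    rcases max_choice (2 / 3 * l + 4 / 9 * n') (l / 3 + 22 / 27 * n') with h' | h'
    · rw [h']; exact Or.inr (Or.inl le_rfl)
    · rw [h']; exact Or.inr (Or.inr le_rfl)

end Crest.Agent.R017.NQA994
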