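import Mathlib

/-!
# Row 17, FlatNE NumEq: the budget inequality (49 #37883 (3))

Pure real inequality, all branches by `linarith`.  `Gs` is 904's `P1N904.Gs` (written out),
`Tqa` is 49's number (written out), `F = max 0 ((4 m - 3 K) / 9)`.
-/

set_option autoImplicit false

namespace Crest.Agent.R017.NQB110

/-- 49's budget lemma: `(m - a) + Tqa l (m - a) + Gs K l m + 2/3 (K - l) + 40 c ≤ 2 (K + m)`. -/
theorem budget {K m l a c F : ℝ} (hc : 0 ≤ c) (hcK : 1000000 * c ≤ K)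
    (hF : F = max 0 ((4 * m - 3 * K) / 9))
    (hm1 : 1499 * K ≤ 2000 * m) (hm2 : 5 * m ≤ 4 * K)
    (hl : l ≤ K - 3 * F - 60 * c) (ha : 0 ≤ a)
    (ha2 : (K - l) / 3 - (F + 21 * c) - (9 / 22 * F + 10 * c) - (m - 3 / 4 * K) - 4 * c ≤ a) :
    (m - a) + max l (max (2 / 3 * l + 4 / 9 * (m - a))
        (min (2 / 3 * l + (m - a) / 2) (28 / 69 * l + 103 / 138 * (m - a))))
      + max (max (26 / 15 * K) (l / 3 + 7 / 10 * K + 17 / 18 * m)) (2 / 3 * l + 13 / 9 * m)
      + 2 / 3 * (K - l) + 40 * c ≤ 2 * (K + m) := by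
  have hFc : F = 0 ∨ F = (4 * m - 3 * K) / 9 := by
    rcases max_choice 0 ((4 * m - 3 * K) / 9) with h | h
    · exact Or.inl (hF.trans h)
    · exact Or.inr (hF.trans h)
  have hF0 : 0 ≤ F := hF ▸ le_max_left _ _
  have hF1 : (4 * m - 3 * K) / 9 ≤ F := hF ▸ le_max_right _ _
  clear hF
  have hT : max l (max (2 / 3 * l + 4 / 9 * (m - a))
        (min (2 / 3 * l + (m - a) / 2) (28 / 69 * l + 103 / 138 * (m - a))))
      ≤ 2 * (K + m) - (m - a)
        - max (max (26 / 15 * K) (l / 3 + 7 / 10 * K + 17 / 18 * m)) (2 / 3 * l + 13 / 9 * m)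
        - 2 / 3 * (K - l) - 40 * c := by
    have key : ∀ T : ℝ, (T = l ∨ T = 2 / 3 * l + 4 / 9 * (m - a) ∨
        (T ≤ 2 / 3 * l + (m - a) / 2 ∧ T ≤ 28 / 69 * l + 103 / 138 * (m - a))) →
        ∀ G : ℝ, (G = 26 / 15 * K ∨ G = l / 3 + 7 / 10 * K + 17 / 18 * m ∨
          G = 2 / 3 * l + 13 / 9 * m) →
        T ≤ 2 * (K + m) - (m - a) - G - 2 / 3 * (K - l) - 40 * c := by
      intro T hT G hG
      rcases hFc with hF | hF <;> rcases hT with hT | hT | ⟨hT, hT'⟩ <;>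
        rcases hG with hG | hG | hG <;> linarith
    have hG : (max (max (26 / 15 * K) (l / 3 + 7 / 10 * K + 17 / 18 * m))
          (2 / 3 * l + 13 / 9 * m) = 26 / 15 * K ∨
        max (max (26 / 15 * K) (l / 3 + 7 / 10 * K + 17 / 18 * m))
          (2 / 3 * l + 13 / 9 * m) = l / 3 + 7 / 10 * K + 17 / 18 * m ∨
        max (max (26 / 15 * K) (l / 3 + 7 / 10 * K + 17 / 18 * m))
          (2 / 3 * l + 13 / 9 * m) = 2 / 3 * l + 13 / 9 * m) := by
      rcases max_choice (max (26 / 15 * K) (l / 3 + 7 / 10 * K + 17 / 18 * m))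
        (2 / 3 * l + 13 / 9 * m) with h | h
      · rw [h]
        rcases max_choice (26 / 15 * K) (l / 3 + 7 / 10 * K + 17 / 18 * m) with h | h
        · exact Or.inl h
        · exact Or.inr (Or.inl h)
      · exact Or.inr (Or.inr h)
    refine max_le (key _ (Or.inl rfl) _ hG) (max_le (key _ (Or.inr (Or.inl rfl)) _ hG)
      (key _ (Or.inr (Or.inr ⟨min_le_left _ _, min_le_right _ _⟩)) _ hG))
  linarith

/-- The same with `n' = m - a` as the variable. -/
theorem budget' {K m l n' c F : ℝ} (hc : 0 ≤ c) (hcK : 1000000 * c ≤ K)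
    (hF : F = max 0 ((4 * m - 3 * K) / 9))
    (hm1 : 1499 * K ≤ 2000 * m) (hm2 : 5 * m ≤ 4 * K)
    (hl : l ≤ K - 3 * F - 60 * c) (ha : n' ≤ m)
    (ha2 : n' ≤ m - ((K - l) / 3 - (F + 21 * c) - (9 / 22 * F + 10 * c)
      - (m - 3 / 4 * K) - 4 * c)) :
    n' + max l (max (2 / 3 * l + 4 / 9 * n')
        (min (2 / 3 * l + n' / 2) (28 / 69 * l + 103 / 138 * n')))
      + max (max (26 / 15 * K) (l / 3 + 7 / 10 * K + 17 / 18 * m)) (2 / 3 * l + 13 / 9 * m)
      + 2 / 3 * (K - l) + 40 * c ≤ 2 * (K + m) := by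
  have h := budget (a := m - n') hc hcK hF hm1 hm2 hl (by linarith) (by linarith)
  have e : m - (m - n') = n' := by ring
  rw [e] at h
  exact h

end Crest.Agent.R017.NQB110
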