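import Mathlib

/-!
# Row 17, FlatNE NumEq: the budget inequality for the two corrected numbers (helper963)

Pure real inequalities, all branches by `linarith`.  `Gs` is 904's `P1N904.Gs` (written out),
`F = max 0 ((4 m - 3 K) / 9)`.

* `budgetA` : 499's number `max l (max (2/3 l + 4/9 n') (max (l/3 + 3/4 n') (min (2/3 l + n'/2)
  (28/69 l + 103/138 n'))))`;
* `budgetB` : 994's number `max l (max (2/3 l + 4/9 n') (l/3 + 22/27 n'))`.
-/

set_option autoImplicit false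

namespace Crest.Agent.R017.NQB963

lemma F_cases {K m F : ℝ} (hF : F = max 0 ((4 * m - 3 * K) / 9)) :
    (F = 0 ∨ F = (4 * m - 3 * K) / 9) ∧ 0 ≤ F ∧ (4 * m - 3 * K) / 9 ≤ F := by
  refine ⟨?_, hF ▸ le_max_left _ _, hF ▸ le_max_right _ _⟩
  rcases max_choice 0 ((4 * m - 3 * K) / 9) with h | h
  · exact Or.inl (hF.trans h)
  · exact Or.inr (hF.trans h)

lemma G_cases (K m l : ℝ) :
    (max (max (26 / 15 * K) (l / 3 + 7 / 10 * K + 17 / 18 * m)) (2 / 3 * l + 13 / 9 * m) =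
      26 / 15 * K ∨
    max (max (26 / 15 * K) (l / 3 + 7 / 10 * K + 17 / 18 * m)) (2 / 3 * l + 13 / 9 * m) =
      l / 3 + 7 / 10 * K + 17 / 18 * m ∨
    max (max (26 / 15 * K) (l / 3 + 7 / 10 * K + 17 / 18 * m)) (2 / 3 * l + 13 / 9 * m) =
      2 / 3 * l + 13 / 9 * m) := by
  rcases max_choice (max (26 / 15 * K) (l / 3 + 7 / 10 * K + 17 / 18 * m))
    (2 / 3 * l + 13 / 9 * m) with h | h
  · rw [h]
    rcases max_choice (26 / 15 * K) (l / 3 + 7 / 10 * K + 17 / 18 * m) with h | h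
    · exact Or.inl h
    · exact Or.inr (Or.inl h)
  · exact Or.inr (Or.inr h)

/-- the budget for 499's number -/
theorem budgetA {K m l a c F : ℝ} (hc : 0 ≤ c) (hcK : 1000000 * c ≤ K)
    (hF : F = max 0 ((4 * m - 3 * K) / 9))
    (hm1 : 1499 * K ≤ 2000 * m) (hm2 : 5 * m ≤ 4 * K)
    (hl : l ≤ K - 3 * F - 60 * c) (ha : 0 ≤ a)
    (ha2 : (K - l) / 3 - (F + 21 * c) - (9 / 22 * F + 10 * c) - (m - 3 / 4 * K) - 4 * c ≤ a) :
    (m - a) + max l (max (2 / 3 * l + 4 / 9 * (m - a)) (max (l / 3 + 3 / 4 * (m - a))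
        (min (2 / 3 * l + (m - a) / 2) (28 / 69 * l + 103 / 138 * (m - a)))))
      + max (max (26 / 15 * K) (l / 3 + 7 / 10 * K + 17 / 18 * m)) (2 / 3 * l + 13 / 9 * m)
      + 2 / 3 * (K - l) + 40 * c ≤ 2 * (K + m) := by
  obtain ⟨hFc, hF0, hF1⟩ := F_cases hF
  clear hF
  have key : ∀ T : ℝ, (T = l ∨ T = 2 / 3 * l + 4 / 9 * (m - a) ∨ T = l / 3 + 3 / 4 * (m - a) ∨
      (T ≤ 2 / 3 * l + (m - a) / 2 ∧ T ≤ 28 / 69 * l + 103 / 138 * (m - a))) →
      ∀ G : ℝ, (G = 26 / 15 * K ∨ G = l / 3 + 7 / 10 * K + 17 / 18 * m ∨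
        G = 2 / 3 * l + 13 / 9 * m) →
      T ≤ 2 * (K + m) - (m - a) - G - 2 / 3 * (K - l) - 40 * c := by
    intro T hT G hG
    rcases hFc with hF | hF <;> rcases hT with hT | hT | hT | ⟨hT, hT'⟩ <;>
      rcases hG with hG | hG | hG <;> linarith
  have hT := max_le (key _ (Or.inl rfl) _ (G_cases K m l))
    (max_le (key _ (Or.inr (Or.inl rfl)) _ (G_cases K m l))
      (max_le (key _ (Or.inr (Or.inr (Or.inl rfl))) _ (G_cases K m l))
        (key _ (Or.inr (Or.inr (Or.inr ⟨min_le_left _ _, min_le_right _ _⟩))) _ (G_cases K m l))))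
  linarith

/-- the budget for 994's number -/
theorem budgetB {K m l a c F : ℝ} (hc : 0 ≤ c) (hcK : 1000000 * c ≤ K)
    (hF : F = max 0 ((4 * m - 3 * K) / 9))
    (hm1 : 1499 * K ≤ 2000 * m) (hm2 : 5 * m ≤ 4 * K)
    (hl : l ≤ K - 3 * F - 60 * c) (ha : 0 ≤ a)
    (ha2 : (K - l) / 3 - (F + 21 * c) - (9 / 22 * F + 10 * c) - (m - 3 / 4 * K) - 4 * c ≤ a) :
    (m - a) + max l (max (2 / 3 * l + 4 / 9 * (m - a)) (l / 3 + 22 / 27 * (m - a)))
      + max (max (26 / 15 * K) (l / 3 + 7 / 10 * K + 17 / 18 * m)) (2 / 3 * l + 13 / 9 * m)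
      + 2 / 3 * (K - l) + 40 * c ≤ 2 * (K + m) := by
  obtain ⟨hFc, hF0, hF1⟩ := F_cases hF
  clear hF
  have key : ∀ T : ℝ, (T = l ∨ T = 2 / 3 * l + 4 / 9 * (m - a) ∨
      T = l / 3 + 22 / 27 * (m - a)) →
      ∀ G : ℝ, (G = 26 / 15 * K ∨ G = l / 3 + 7 / 10 * K + 17 / 18 * m ∨
        G = 2 / 3 * l + 13 / 9 * m) →
      T ≤ 2 * (K + m) - (m - a) - G - 2 / 3 * (K - l) - 40 * c := by
    intro T hT G hG
    rcases hFc with hF | hF <;> rcases hT with hT | hT | hT <;>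
      rcases hG with hG | hG | hG <;> linarith
  have hT := max_le (key _ (Or.inl rfl) _ (G_cases K m l))
    (max_le (key _ (Or.inr (Or.inl rfl)) _ (G_cases K m l))
      (key _ (Or.inr (Or.inr rfl)) _ (G_cases K m l)))
  linarith

end Crest.Agent.R017.NQB963
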