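import Mathlib

/-! Row 17 (helper114): `neq_line` of 83's #38277 (3) at the exponent `Gx` of 49 #38476 / 708 #38290
(r17_jobs 14), pure reals, Mathlib only; `Gs` (904) and `Tqb` (603) written out, so it applies by
`unfold`/`exact` (both are these expressions definitionally). -/

set_option autoImplicit false

namespace Crest.Agent.R017.NQC114

theorem core {K m l a c F T G E : ℝ} (hc : 0 ≤ c) (hcK : 1000000 * c ≤ K) (hl0 : 0 ≤ l)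
    (hm1 : 3 * K ≤ 4 * m + 10 * c) (hm2 : 5 * m ≤ 4 * K + 10 * c) (ha : 0 ≤ a)
    (h0 : 0 ≤ F) (h1 : (4 * m - 3 * K) / 9 ≤ F)
    (hF : F ≤ 0 ∨ F ≤ (4 * m - 3 * K) / 9) (h2 : l ≤ K - 3 * (F + 20 * c) + c)
    (h3 : (K - l) / 3 - (31 / 22 * F + 31 * c) - (m - 3 / 4 * K + 3 * c) - c ≤ a)
    (hT : T ≤ l ∨ T ≤ 2 / 3 * l + 4 / 9 * (m - a) ∨ T ≤ l / 3 + 22 / 27 * (m - a))
    (hG : G ≤ 26 / 15 * K ∨ G ≤ l / 3 + 7 / 10 * K + 17 / 18 * m ∨ G ≤ 2 / 3 * l + 13 / 9 * m)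
    (hE : E ≤ 0 ∨ E ≤ K / 40 - l / 3) :
    (K - l) / 3 + (T + (G + E + 30 * c - m)) / 2 - K - a / 2 ≤ 0 := by
  rcases hF with hF | hF <;> rcases hT with hT | hT | hT <;>
    rcases hG with hG | hG | hG <;> rcases hE with hE | hE <;> linarith

theorem max_cases2 (a b : ℝ) : max a b ≤ a ∨ max a b ≤ b := by
  rcases le_total a b with h | h
  · right; rw [max_eq_right h]
  · left; rw [max_eq_left h]

theorem max_cases3 (a b c : ℝ) : max a (max b c) ≤ a ∨ max a (max b c) ≤ b ∨ max a (max b c) ≤ c := by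
  rcases max_cases2 a (max b c) with h | h
  · exact Or.inl h
  · rcases max_cases2 b c with h' | h'
    · exact Or.inr (Or.inl (h.trans h'))
    · exact Or.inr (Or.inr (h.trans h'))

/-- **neq_line** (job 14): `Gx = Gs K κ m + max 0 (K/40 - κ/3) + 30 c`. -/
theorem neq_line {K m κ c φ₁ φβ lD : ℝ} (hc : 0 ≤ c) (hcK : 1000000 * c ≤ K)
    (hm1 : 3 * K ≤ 4 * m + 10 * c) (hm2 : 5 * m ≤ 4 * K + 10 * c)
    (hφ₁ : φ₁ = max 0 ((4 * m - 3 * K) / 9) + 20 * c)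
    (hφβ : φβ = 31 / 22 * max 0 ((4 * m - 3 * K) / 9) + 31 * c)
    (hlD : lD ≤ m - 3 / 4 * K + 3 * c) (hκ0 : 0 ≤ κ) (hκ : κ ≤ K - 3 * φ₁ + c) :
    (K - κ) / 3 + (max κ (max (2 / 3 * κ + 4 / 9 * (m - max 0 ((K - κ) / 3 - φβ - lD - c)))
        (κ / 3 + 22 / 27 * (m - max 0 ((K - κ) / 3 - φβ - lD - c)))) +
      (max (max (26 / 15 * K) (κ / 3 + 7 / 10 * K + 17 / 18 * m)) (2 / 3 * κ + 13 / 9 * m) +
        max 0 (K / 40 - κ / 3) + 30 * c - m)) / 2 - K -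
      max 0 ((K - κ) / 3 - φβ - lD - c) / 2 ≤ 0 := by
  subst hφ₁ hφβ
  have hG : max (max (26 / 15 * K) (κ / 3 + 7 / 10 * K + 17 / 18 * m)) (2 / 3 * κ + 13 / 9 * m) ≤
      26 / 15 * K ∨ max (max (26 / 15 * K) (κ / 3 + 7 / 10 * K + 17 / 18 * m))
        (2 / 3 * κ + 13 / 9 * m) ≤ κ / 3 + 7 / 10 * K + 17 / 18 * m ∨
      max (max (26 / 15 * K) (κ / 3 + 7 / 10 * K + 17 / 18 * m)) (2 / 3 * κ + 13 / 9 * m) ≤
        2 / 3 * κ + 13 / 9 * m := by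
    rw [max_assoc]; exact max_cases3 _ _ _
  refine core hc hcK hκ0 hm1 hm2 (le_max_left _ _) (le_max_left _ _) (le_max_right _ _)
    (max_cases2 0 ((4 * m - 3 * K) / 9)) hκ ?_ (max_cases3 _ _ _) hG
    (max_cases2 0 (K / 40 - κ / 3))
  refine le_trans ?_ (le_max_right _ _)
  linarith

/-- the same without the small-level term. -/
theorem neq_line' {K m κ c φ₁ φβ lD : ℝ} (hc : 0 ≤ c) (hcK : 1000000 * c ≤ K)
    (hm1 : 3 * K ≤ 4 * m + 10 * c) (hm2 : 5 * m ≤ 4 * K + 10 * c)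
    (hφ₁ : φ₁ = max 0 ((4 * m - 3 * K) / 9) + 20 * c)
    (hφβ : φβ = 31 / 22 * max 0 ((4 * m - 3 * K) / 9) + 31 * c)
    (hlD : lD ≤ m - 3 / 4 * K + 3 * c) (hκ0 : 0 ≤ κ) (hκ : κ ≤ K - 3 * φ₁ + c) :
    (K - κ) / 3 + (max κ (max (2 / 3 * κ + 4 / 9 * (m - max 0 ((K - κ) / 3 - φβ - lD - c)))
        (κ / 3 + 22 / 27 * (m - max 0 ((K - κ) / 3 - φβ - lD - c)))) +
      (max (max (26 / 15 * K) (κ / 3 + 7 / 10 * K + 17 / 18 * m)) (2 / 3 * κ + 13 / 9 * m) -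
        m + 30 * c)) / 2 - K - max 0 ((K - κ) / 3 - φβ - lD - c) / 2 ≤ 0 := by
  have h := neq_line hc hcK hm1 hm2 hφ₁ hφβ hlD hκ0 hκ
  have h2 : 0 ≤ max 0 (K / 40 - κ / 3) := le_max_left _ _
  linarith

end Crest.Agent.R017.NQC114
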