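import Mathlib

/-!
# Row 17, FlatNE NumEq: the real line `neq_line` (helper462)

Pure real inequality, all branches by `linarith`.  `Gs` is 904's `P1N904.Gs` (written out), `Tqb` is
603's `QB603.Tqb` (written out), `F = max 0 ((4 m - 3 K) / 9)`,
`Gx = Gs + max 0 (K / 40 - κ / 3) + 30 c`.
-/

set_option autoImplicit false

namespace Crest.Agent.R017.NQL462

/-- the three branches of `Gs` -/
lemma G_cases (K m l : ℝ) :
    (max (max (26 / 15 * K) (l / 3 + 7 / 10 * K + 17 / 18 * m)) (2 / 3 * l + 13 / 9 * m) =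
      26 / 15 * K ∨
    max (max (26 / 15 * K) (l / 3 + 7 / 10 * K + 17 / 18 * m)) (2 / 3 * l + 13 / 9 * m) =
      l / 3 + 7 / 10 * K + 17 / 18 * m ∨
    max (max (26 / 15 * K) (l / 3 + 7 / 10 * K + 17 / 18 * m)) (2 / 3 * l + 13 / 9 * m) =
      2 / 3 * l + 13 / 9 * m) := by
  rcases max_choice (max (26 / 15 * K) (l / 3 + 7 / 10 * K + 17 / 18 * m))
    (2 / 3 * l + 13 / 9 * m) with h | h
  · rw [h]
    rcases max_choice (26 / 15 * K) (l / 3 + 7 / 10 * K + 17 / 18 * m) with h | h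
    · exact Or.inl h
    · exact Or.inr (Or.inl h)
  · exact Or.inr (Or.inr h)

/-- the three branches of `Tqb` -/
lemma T_cases (l n : ℝ) :
    (max l (max (2 / 3 * l + 4 / 9 * n) (l / 3 + 22 / 27 * n)) = l ∨
    max l (max (2 / 3 * l + 4 / 9 * n) (l / 3 + 22 / 27 * n)) = 2 / 3 * l + 4 / 9 * n ∨
    max l (max (2 / 3 * l + 4 / 9 * n) (l / 3 + 22 / 27 * n)) = l / 3 + 22 / 27 * n) := by
  rcases max_choice l (max (2 / 3 * l + 4 / 9 * n) (l / 3 + 22 / 27 * n)) with h | h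
  · exact Or.inl h
  · rw [h]
    rcases max_choice (2 / 3 * l + 4 / 9 * n) (l / 3 + 22 / 27 * n) with h | h
    · exact Or.inr (Or.inl h)
    · exact Or.inr (Or.inr h)

lemma Z_cases (x : ℝ) : max 0 x = 0 ∨ max 0 x = x := max_choice 0 x

/-- the room is attained for every `a` above the two lower bounds -/
theorem line_a {K m κ c F a T G Z : ℝ} (hc : 0 ≤ c) (hcK : 1000000 * c ≤ K)
    (hF : F = 0 ∨ F = (4 * m - 3 * K) / 9) (hF0 : 0 ≤ F) (hF1 : (4 * m - 3 * K) / 9 ≤ F)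
    (m3 : 3 * K ≤ 4 * m + 10 * c) (m5 : 5 * m ≤ 4 * K + 10 * c) (hκ : 0 ≤ κ)
    (hκ1 : κ ≤ K - 3 * (F + 20 * c) + c) (ha : 0 ≤ a)
    (ha2 : (K - κ) / 3 - (31 / 22 * F + 31 * c) - (m - 3 / 4 * K + 3 * c) - c ≤ a)
    (hT : T = κ ∨ T = 2 / 3 * κ + 4 / 9 * (m - a) ∨ T = κ / 3 + 22 / 27 * (m - a))
    (hG : G = 26 / 15 * K ∨ G = κ / 3 + 7 / 10 * K + 17 / 18 * m ∨ G = 2 / 3 * κ + 13 / 9 * m)
    (hZ : Z = 0 ∨ Z = K / 40 - κ / 3) :
    (K - κ) / 3 + (T + (G + Z + 30 * c - m)) / 2 - K - a / 2 ≤ 0 := by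
  rcases hF with hF | hF <;> rcases hT with hT | hT | hT <;> rcases hG with hG | hG | hG <;>
    rcases hZ with hZ | hZ <;> linarith

/-- **`neq_line`**, everything written out -/
theorem neq_line {K m κ c lD φ₁ φb a₀ : ℝ} (hc : 0 ≤ c) (hcK : 1000000 * c ≤ K)
    (hφ₁ : φ₁ = max 0 ((4 * m - 3 * K) / 9) + 20 * c)
    (hφb : φb = 31 / 22 * max 0 ((4 * m - 3 * K) / 9) + 31 * c)
    (m3 : 3 * K ≤ 4 * m + 10 * c) (m5 : 5 * m ≤ 4 * K + 10 * c)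
    (hlD : lD ≤ m - 3 / 4 * K + 3 * c) (hκ : 0 ≤ κ) (hκ1 : κ ≤ K - 3 * φ₁ + c)
    (ha₀ : a₀ = max 0 ((K - κ) / 3 - φb - lD - c)) :
    (K - κ) / 3 + (max κ (max (2 / 3 * κ + 4 / 9 * (m - a₀)) (κ / 3 + 22 / 27 * (m - a₀))) +
      (max (max (26 / 15 * K) (κ / 3 + 7 / 10 * K + 17 / 18 * m)) (2 / 3 * κ + 13 / 9 * m) +
        max 0 (K / 40 - κ / 3) + 30 * c - m)) / 2 - K - a₀ / 2 ≤ 0 := by
  obtain ⟨F, hF⟩ : ∃ F, F = max 0 ((4 * m - 3 * K) / 9) := ⟨_, rfl⟩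
  rw [← hF] at hφ₁ hφb
  have hF0 : 0 ≤ F := hF ▸ le_max_left _ _
  have hF1 : (4 * m - 3 * K) / 9 ≤ F := hF ▸ le_max_right _ _
  have hFc : F = 0 ∨ F = (4 * m - 3 * K) / 9 := by
    rcases Z_cases ((4 * m - 3 * K) / 9) with h | h
    · exact Or.inl (hF.trans h)
    · exact Or.inr (hF.trans h)
  have ha : 0 ≤ a₀ := ha₀ ▸ le_max_left _ _
  have ha1 : (K - κ) / 3 - φb - lD - c ≤ a₀ := ha₀ ▸ le_max_right _ _
  refine line_a hc hcK hFc hF0 hF1 m3 m5 hκ (by rw [← hφ₁]; exact hκ1) ha ?_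
    (T_cases κ (m - a₀)) (G_cases K m κ) (Z_cases _)
  rw [← hφb]
  linarith

end Crest.Agent.R017.NQL462
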