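import Crest.Agent.R017.P1N_904

/-!
# Row 17, R8: the class-form Gram sum at near lists, all blocks (helper904)

Homogeneous, `k` = family, `q` = family of the Gram sum (`q ≤ k`), `p` = length of the list,
`u` = smallest lump, `v` = level, `t` = tolerance. The room
`Gs = max (max (26/15 k) (q/3 + 7/10 k + 17/18 p)) (2/3 q + 13/9 p)`
`  = p + k/3 + max (max V (q/3 + V/2 + F3)) (2/3 q + F3)` at `V = 7/5 k - p`, `F3 = (4p - 3k)/9`.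
`hg` : the exponent of `H`; `thg_le` : `2 h + 3 v ≤ 2 q`, `h ≤ 0`; `c0_g`, `c1_g` : the lines of
helper90's `LnT`; `coreG`, `coreG2` : the structured part.
-/

set_option autoImplicit false
set_option linter.unusedVariables false

noncomputable section

namespace Crest.Agent.R017.P1N904

open Crest.Agent.R017.P1Q904 (gQ gQ_cases min3_le)
open Crest.Agent.R017.P1L904 (tL hL hL_ge hL_le tL_cases)

/-- the near lists, every block -/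
structure Dg (k p u v q t : ℝ) : Prop where
  k0 : 0 < k
  t0 : 0 ≤ t
  t1 : t ≤ k / 20000
  p0 : 3 / 4 * k ≤ p + t
  p1 : p ≤ 4 / 5 * k + t
  near : k ≤ p + u + t
  u3 : 3 * u ≤ p + t
  S : 5 * (v + p) ≤ 7 * k + t
  v0 : 0 ≤ v
  q1 : q ≤ k + t

/-- the room -/
def Gs (k q p : ℝ) : ℝ :=
  max (max (26 / 15 * k) (q / 3 + 7 / 10 * k + 17 / 18 * p)) (2 / 3 * q + 13 / 9 * p)

/-- the exponent of `H` -/
def hg (k q v p δ : ℝ) : ℝ := hL q v p δ 0 k (Gs k q p)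

lemma Gs_ge (k q p : ℝ) : 26 / 15 * k ≤ Gs k q p ∧ q / 3 + 7 / 10 * k + 17 / 18 * p ≤ Gs k q p ∧
    2 / 3 * q + 13 / 9 * p ≤ Gs k q p :=
  ⟨(le_max_left _ _).trans (le_max_left _ _), (le_max_right _ _).trans (le_max_left _ _),
    le_max_right _ _⟩

/-- in terms of the excess and the level -/
theorem Gs_eq (k q p V F : ℝ) (hV : V = 7 / 5 * k - p) (hF : F = (4 * p - 3 * k) / 9) :
    Gs k q p = p + k / 3 + max (max V (q / 3 + V / 2 + F)) (2 / 3 * q + F) := by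
  unfold Gs
  rw [← max_add_add_left, ← max_add_add_left]
  congr 1
  · congr 1 <;> (subst hV hF; ring)
  · subst hV hF; ring

lemma coreTg {k p u v q t δ b l n m h G T : ℝ} (hD : Dg k p u v q t) (δ0 : 0 ≤ δ) (b0 : 0 ≤ b)
    (hl : l ≤ v - 2 * δ + b + t) (hn : n ≤ p - δ - b + t) (hm : 3 * m ≤ n)
    (hh0 : 2 * q + 4 * p - δ - 3 * G ≤ h)
    (hh : 2 * q + 2 * v + 3 * p + 2 * 0 - 4 * δ - 3 * G ≤ h ∨
      (2 * q + 3 * p + k - 3 * G ≤ h ∧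
        2 * q + 3 * p + (4 / 3 * p + 2 / 3 * 0 - 4 / 3 * δ) - 3 * G ≤ h))
    (hT : T ≤ l + n ∨ ((T ≤ l + n + m ∨ T ≤ 5 / 3 * n + l / 3) ∧
      (T ≤ 2 * n ∨ T ≤ 4 / 3 * n + (k + b / 2 + l) / 3 ∨ T ≤ 4 / 3 * n + (3 / 2 * l + l) / 3))) :
    2 / 3 * q - (h + p) / 3 + 4 / 3 * δ + b / 3 + T - l / 3 ≤ G + 10 * t := by
  obtain ⟨k0, t0, t1, p0, p1, near, u3, S, v0, q1⟩ := hD
  rcases hT with hT | ⟨hT1, hT2⟩
  · rcases hh with hh | ⟨h1, h2⟩ <;> linarith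
  rcases hT1 with hT1 | hT1
  swap
  · linarith
  rcases hh with hh | ⟨h1, h2⟩
  · linarith
  · rcases hT2 with hT2 | hT2 | hT2 <;> linarith

lemma coreSg {k p u v q t δ b l n m G T : ℝ} (hD : Dg k p u v q t) (δ0 : 0 ≤ δ) (b0 : 0 ≤ b)
    (hl : l ≤ v - 2 * δ + b + t) (hn : n ≤ p - δ - b + t) (hm : 3 * m ≤ n)
    (hG : 26 / 15 * k ≤ G)
    (hT : T ≤ l + n ∨ ((T ≤ l + n + m ∨ T ≤ 5 / 3 * n + l / 3) ∧
      (T ≤ 2 * n ∨ T ≤ 4 / 3 * n + (k + b / 2 + l) / 3 ∨ T ≤ 4 / 3 * n + (3 / 2 * l + l) / 3))) :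
    2 / 3 * v + 2 * δ + T - p / 3 ≤ G + 10 * t := by
  obtain ⟨k0, t0, t1, p0, p1, near, u3, S, v0, q1⟩ := hD
  rcases hT with hT | ⟨hT1 | hT1, hT2 | hT2 | hT2⟩ <;> linarith

lemma coreThg {k p u v q t δ h G : ℝ} (hD : Dg k p u v q t) (δ0 : 0 ≤ δ)
    (hG1 : 26 / 15 * k ≤ G) (hG2 : q / 3 + 7 / 10 * k + 17 / 18 * p ≤ G)
    (hG3 : 2 / 3 * q + 13 / 9 * p ≤ G)
    (hh : h = 2 * q + 4 * p - δ - 3 * G ∨ h ≤ 2 * q + 3 * p + k - 3 * G ∨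
        h ≤ 2 * q + 3 * p + (4 / 3 * p + 2 / 3 * 0 - 4 / 3 * δ) - 3 * G) :
    2 * h + 3 * v ≤ 2 * q + 5 * t ∧ h ≤ 5 * t := by
  obtain ⟨k0, t0, t1, p0, p1, near, u3, S, v0, q1⟩ := hD
  rcases hh with hh | hh | hh <;> constructor <;> linarith

theorem thg_le {k p u v q t δ : ℝ} (hD : Dg k p u v q t) (δ0 : 0 ≤ δ) :
    2 * hg k q v p δ + 3 * v ≤ 2 * q + 5 * t ∧ hg k q v p δ ≤ 5 * t := by
  obtain ⟨h1, h2, h3⟩ := Gs_ge k q p
  refine coreThg hD δ0 h1 h2 h3 ?_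
  rcases hL_le q v p δ 0 k (Gs k q p) with ⟨h, -⟩ | ⟨-, h | h⟩
  · exact Or.inl h
  · exact Or.inr (Or.inl h)
  · exact Or.inr (Or.inr h)

/-- **`c0` of `LnT`** -/
theorem c0_g {k p u v q t δ b v' n m T h : ℝ} (hD : Dg k p u v q t) (δ0 : 0 ≤ δ) (b0 : 0 ≤ b)
    (hl : v' ≤ v - 2 * δ + t) (hn' : n ≤ p - δ - b + t) (hm : 3 * m ≤ n)
    (hT : T ≤ max (tL k b (v' + b) n m) (v' + b + n))
    (h1 : hg k q v p δ - t ≤ h) (h2 : h ≤ hg k q v p δ + t) :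
    lw0 q v h + T + 2 * δ - p / 3 ≤ Gs k q p + 20 * t := by
  have k0 := hD.k0
  have t0 := hD.t0
  have t1 := hD.t1
  obtain ⟨g1, g2, g3⟩ := Gs_ge k q p
  obtain ⟨-, hN⟩ := thg_le hD δ0
  have hA := coreTg (G := Gs k q p) hD δ0 b0 (by linarith : v' + b ≤ v - 2 * δ + b + t) hn' hm
    (hL_ge _ _ _ _ _ _ _).1 (hL_ge _ _ _ _ _ _ _).2 (tcase hT)
  have hB := coreSg (G := Gs k q p) hD δ0 b0
    (by linarith : v' + b ≤ v - 2 * δ + b + t) hn' hm g1 (tcase hT)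
  change 2 / 3 * q - (hg k q v p δ + p) / 3 + 4 / 3 * δ + b / 3 + T - (v' + b) / 3 ≤
    Gs k q p + 10 * t at hA
  generalize hg k q v p δ = H at *
  have hw : lw0 q v h ≤ Gs k q p + 20 * t - (T + 2 * δ - p / 3) :=
    max_le (by linarith) (max_le (by linarith) (by linarith))
  linarith

/-- **`c1` of `LnT`** -/
theorem c1_g {k p u v q t δ b v' n m T h : ℝ} (hD : Dg k p u v q t) (δ0 : 0 ≤ δ) (b0 : 0 ≤ b)
    (hl : v' ≤ v - 2 * δ + t) (hn' : n ≤ p - δ - b + t) (hm : 3 * m ≤ n)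
    (hT : T ≤ max (tL k b (v' + b) n m) (v' + b + n))
    (h1 : hg k q v p δ - t ≤ h) (h2 : h ≤ hg k q v p δ + t) :
    lw1 q v h + T + 2 * δ + (v - 2 * δ - v') / 3 - p / 3 ≤ Gs k q p + 20 * t := by
  have k0 := hD.k0
  have t0 := hD.t0
  have t1 := hD.t1
  obtain ⟨hth, -⟩ := thg_le hD δ0
  have hA := coreTg (G := Gs k q p) hD δ0 b0 (by linarith : v' + b ≤ v - 2 * δ + b + t) hn' hm
    (hL_ge _ _ _ _ _ _ _).1 (hL_ge _ _ _ _ _ _ _).2 (tcase hT)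
  change 2 / 3 * q - (hg k q v p δ + p) / 3 + 4 / 3 * δ + b / 3 + T - (v' + b) / 3 ≤
    Gs k q p + 10 * t at hA
  generalize hg k q v p δ = H at *
  have hw : lw1 q v h ≤ Gs k q p + 20 * t - (T + 2 * δ + (v - 2 * δ - v') / 3 - p / 3) :=
    max_le (by linarith) (max_le (by linarith) (by linarith))
  linarith

/-- in the low regime there is no structured part -/
lemma coreEg {k p u v q t w δ h G : ℝ} (hD : Dg k p u v q t) (δ0 : 0 ≤ δ)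
    (hG1 : 26 / 15 * k ≤ G) (hG2 : q / 3 + 7 / 10 * k + 17 / 18 * p ≤ G)
    (hG3 : 2 / 3 * q + 13 / 9 * p ≤ G)
    (hh : h = 2 * q + 4 * p - δ - 3 * G)
    (hh' : 2 * q + 2 * v + 3 * p + 2 * 0 - 4 * δ - 3 * G ≤ 2 * q + 4 * p - δ - 3 * G ∨
        (2 * q + 3 * p + k - 3 * G ≤ 2 * q + 4 * p - δ - 3 * G ∧
          2 * q + 3 * p + (4 / 3 * p + 2 / 3 * 0 - 4 / 3 * δ) - 3 * G ≤
            2 * q + 4 * p - δ - 3 * G))
    (hw : w ≤ v + h + t) (hL : 0 ≤ w + v - q - δ + t) : False := by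
  obtain ⟨k0, t0, t1, p0, p1, near, u3, S, v0, q1⟩ := hD
  rcases hh' with hh' | ⟨hh', hh''⟩ <;> linarith

set_option maxHeartbeats 8000000 in
lemma coreRg {k p u v q t w δ e i n S h g G : ℝ} (hD : Dg k p u v q t) (δ0 : 0 ≤ δ)
    (hG1 : 26 / 15 * k ≤ G) (hG2 : q / 3 + 7 / 10 * k + 17 / 18 * p ≤ G)
    (hG3 : 2 / 3 * q + 13 / 9 * p ≤ G)
    (hh : h ≤ 2 * q + 2 * v + 3 * p + 2 * 0 - 4 * δ - 3 * G)
    (hh' : h ≤ 2 * q + 3 * p + k - 3 * G ∨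
        h ≤ 2 * q + 3 * p + (4 / 3 * p + 2 / 3 * 0 - 4 / 3 * δ) - 3 * G)
    (hw : w ≤ v + h + t) (hL : 0 ≤ w + v - q - δ + t) (e0 : 0 ≤ e) (e1 : e ≤ k / 64 + t)
    (hn' : n ≤ p - δ - e + t) (i0 : 0 ≤ i) (hi : i ≤ w + p - q + t) (s1 : S ≤ u + t)
    (s2 : 3 * S ≤ n) (s3 : 2 * S ≤ i)
    (hg : g = (w + v - q - δ) / 3 ∨ g = (w + v - q - δ) - (w + p - q) / 2 ∨
      g = 7 / 9 * (w + v - q - δ) - 2 / 3 * (w + p - q) ∨
      g = 11 / 18 * (w + v - q - δ) - (w + p - q) / 3) :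
    2 / 3 * q - w / 3 + 5 / 3 * δ + e + g + 2 / 3 * (p - δ) + (i + 4 / 5 * S) +
      (w + p - q - i) / 3 + k / 500 ≤ G ∧
    2 / 3 * q - w / 3 + 5 / 3 * δ + e + g + 2 / 3 * (p - δ) + 7 / 20 * k + k / 500 ≤ G := by
  obtain ⟨k0, t0, t1, p0, p1, near, u3, S', v0, q1⟩ := hD
  rcases hh' with hh' | hh' <;>
  rcases hg with rfl | rfl | rfl | rfl <;> constructor <;> linarith

/-- **the structured part, second form** (`w = log (H V)`, `S` bounds the smallest lump) -/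
theorem coreG {k p u v q t w δ e i n S : ℝ} (hD : Dg k p u v q t) (δ0 : 0 ≤ δ)
    (hw : w ≤ v + hg k q v p δ + t) (hL : 0 ≤ w + v - q - δ + t) (e0 : 0 ≤ e)
    (e1 : e ≤ k / 64 + t) (hn' : n ≤ p - δ - e + t) (i0 : 0 ≤ i) (hi : i ≤ w + p - q + t)
    (s1 : S ≤ u + t) (s2 : 3 * S ≤ n) (s3 : 2 * S ≤ i) :
    2 / 3 * q - w / 3 + 5 / 3 * δ + e + gQ (w + v - q - δ) (w + p - q) + 2 / 3 * (p - δ) +
      (i + 4 / 5 * S) + (w + p - q - i) / 3 + k / 500 ≤ Gs k q p := by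
  have hg := gQ_cases (w + v - q - δ) (w + p - q)
  obtain ⟨g1, g2, g3⟩ := Gs_ge k q p
  rcases hL_le q v p δ 0 k (Gs k q p) with ⟨h, h'⟩ | ⟨h, h'⟩
  · exact (coreEg hD δ0 g1 g2 g3 h h' hw hL).elim
  · exact (coreRg hD δ0 g1 g2 g3 h h' hw hL e0 e1 hn' i0 hi s1 s2 s3 hg).1

/-- the principal part -/
theorem coreG2 {k p u v q t w δ e : ℝ} (hD : Dg k p u v q t) (δ0 : 0 ≤ δ)
    (hw : w ≤ v + hg k q v p δ + t) (hL : 0 ≤ w + v - q - δ + t) (e0 : 0 ≤ e)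
    (e1 : e ≤ k / 64 + t) (he : e ≤ p - δ + t) (hi : 0 ≤ w + p - q + t) :
    2 / 3 * q - w / 3 + 5 / 3 * δ + e + gQ (w + v - q - δ) (w + p - q) + 2 / 3 * (p - δ) +
      max 0 ((w + p - q) / 3) + k / 500 ≤ Gs k q p := by
  have hg := gQ_cases (w + v - q - δ) (w + p - q)
  obtain ⟨g1, g2, g3⟩ := Gs_ge k q p
  obtain ⟨hth, hN⟩ := thg_le hD δ0
  have hM : max 0 ((w + p - q) / 3) ≤ 7 / 20 * k := by
    obtain ⟨k0, t0, t1, p0, p1, near, u3, S, v0, q1⟩ := hD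
    exact max_le (by linarith) (by linarith)
  rcases hL_le q v p δ 0 k (Gs k q p) with ⟨h, h'⟩ | ⟨h, h'⟩
  · exact (coreEg hD δ0 g1 g2 g3 h h' hw hL).elim
  · have := (coreRg (n := p - δ - e + t) (i := 0) (S := 0) hD δ0 g1 g2 g3 h h' hw hL e0 e1 le_rfl
      le_rfl (by linarith)
      (by have := hD.near; have := hD.t1; have := hD.p1; have := hD.k0; linarith)
      (by linarith [hD.t0]) (by linarith) hg).2
    linarith

end Crest.Agent.R017.P1N904
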