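import Crest.Agent.R017.NQL_462
import Crest.Agent.R017.QB_603
import Crest.Agent.R017.P1Ng_904

/-!
# Row 17, FlatNE NumEq: `neq_line` with 904's `Gs` and 603's `Tqb` (helper462)
-/

set_option autoImplicit false

namespace Crest.Agent.R017.NQM462

open Crest.Agent.R017.P1N904 (Gs)
open Crest.Agent.R017.QB603 (Tqb)

/-- the exponent of the Gram number -/
noncomputable def Gx (c K κ m : ℝ) : ℝ := Gs K κ m + max 0 (K / 40 - κ / 3) + 30 * c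

/-- **`neq_line`** (83's #38277 (3) at `Gx`) -/
theorem neq_line {K m κ c lD φ₁ φb a₀ : ℝ} (hc : 0 ≤ c) (hcK : 1000000 * c ≤ K)
    (hφ₁ : φ₁ = max 0 ((4 * m - 3 * K) / 9) + 20 * c)
    (hφb : φb = 31 / 22 * max 0 ((4 * m - 3 * K) / 9) + 31 * c)
    (m3 : 3 * K ≤ 4 * m + 10 * c) (m5 : 5 * m ≤ 4 * K + 10 * c)
    (hlD : lD ≤ m - 3 / 4 * K + 3 * c) (hκ : 0 ≤ κ) (hκ1 : κ ≤ K - 3 * φ₁ + c)
    (ha₀ : a₀ = max 0 ((K - κ) / 3 - φb - lD - c)) :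
    (K - κ) / 3 + (Tqb κ (m - a₀) + (Gs K κ m + max 0 (K / 40 - κ / 3) + 30 * c - m)) / 2 - K -
      a₀ / 2 ≤ 0 :=
  NQL462.neq_line hc hcK hφ₁ hφb m3 m5 hlD hκ hκ1 ha₀

/-- the same without the term `max 0 (K / 40 - κ / 3)` -/
theorem neq_line0 {K m κ c lD φ₁ φb a₀ : ℝ} (hc : 0 ≤ c) (hcK : 1000000 * c ≤ K)
    (hφ₁ : φ₁ = max 0 ((4 * m - 3 * K) / 9) + 20 * c)
    (hφb : φb = 31 / 22 * max 0 ((4 * m - 3 * K) / 9) + 31 * c)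
    (m3 : 3 * K ≤ 4 * m + 10 * c) (m5 : 5 * m ≤ 4 * K + 10 * c)
    (hlD : lD ≤ m - 3 / 4 * K + 3 * c) (hκ : 0 ≤ κ) (hκ1 : κ ≤ K - 3 * φ₁ + c)
    (ha₀ : a₀ = max 0 ((K - κ) / 3 - φb - lD - c)) :
    (K - κ) / 3 + (Tqb κ (m - a₀) + (Gs K κ m - m + 30 * c)) / 2 - K - a₀ / 2 ≤ 0 := by
  have h := neq_line hc hcK hφ₁ hφb m3 m5 hlD hκ hκ1 ha₀
  have h0 : 0 ≤ max 0 (K / 40 - κ / 3) := le_max_left _ _
  linarith

/-- any `a` above the two lower bounds -/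
theorem neq_line_a {K m κ c F a : ℝ} (hc : 0 ≤ c) (hcK : 1000000 * c ≤ K)
    (hF : F = max 0 ((4 * m - 3 * K) / 9))
    (m3 : 3 * K ≤ 4 * m + 10 * c) (m5 : 5 * m ≤ 4 * K + 10 * c) (hκ : 0 ≤ κ)
    (hκ1 : κ ≤ K - 3 * (F + 20 * c) + c) (ha : 0 ≤ a)
    (ha2 : (K - κ) / 3 - (31 / 22 * F + 31 * c) - (m - 3 / 4 * K + 3 * c) - c ≤ a) :
    (K - κ) / 3 + (Tqb κ (m - a) + (Gs K κ m + max 0 (K / 40 - κ / 3) + 30 * c - m)) / 2 - K -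
      a / 2 ≤ 0 := by
  have hF0 : 0 ≤ F := hF ▸ le_max_left _ _
  have hF1 : (4 * m - 3 * K) / 9 ≤ F := hF ▸ le_max_right _ _
  have hFc : F = 0 ∨ F = (4 * m - 3 * K) / 9 := by
    rcases NQL462.Z_cases ((4 * m - 3 * K) / 9) with h | h
    · exact Or.inl (hF.trans h)
    · exact Or.inr (hF.trans h)
  exact NQL462.line_a hc hcK hFc hF0 hF1 m3 m5 hκ hκ1 ha ha2 (NQL462.T_cases κ (m - a))
    (NQL462.G_cases K m κ) (NQL462.Z_cases _)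

end Crest.Agent.R017.NQM462
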