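import Crest.Agent.R017.R2N_777

/-!
# Row 17: the principal line of the near leaf, class E (helper320's #38331 (2), typed by helper893)

`prinN`: pure real inequality; `PjN` = the exponent of `PrE_176.PJm`.
-/

set_option autoImplicit false
set_option linter.unusedVariables false

noncomputable section

namespace Crest.Agent.R017.NRPa893

open Crest.Agent.R017.R2N777 (ThN StN)
open Crest.Agent.R017.NE73 (flK)

/-- exponent of `PJm` -/
def PjN (K x a v ν h σ : ℝ) : ℝ :=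
  max (max (-σ + 2/3 * K + v/6 - a) (max (-σ + K - x/3 - 2/3 * ν - a) (-σ + 4/3 * K - 2/3 * x - ν - a)))
    (max ((v + K + h)/3 - σ/3) (2/3 * v + a + ν/3 + 2/3 * h))

lemma pjN_cases (K x a v ν h σ : ℝ) :
    PjN K x a v ν h σ = -σ + 2/3 * K + v/6 - a ∨ PjN K x a v ν h σ = -σ + K - x/3 - 2/3 * ν - a ∨
    PjN K x a v ν h σ = -σ + 4/3 * K - 2/3 * x - ν - a ∨ PjN K x a v ν h σ = (v + K + h)/3 - σ/3 ∨
    PjN K x a v ν h σ = 2/3 * v + a + ν/3 + 2/3 * h := by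
  unfold PjN
  rcases max_choice (max (-σ + 2/3 * K + v/6 - a) (max (-σ + K - x/3 - 2/3 * ν - a)
    (-σ + 4/3 * K - 2/3 * x - ν - a))) (max ((v + K + h)/3 - σ/3)
      (2/3 * v + a + ν/3 + 2/3 * h)) with q | q <;> rw [q]
  · rcases max_choice (-σ + 2/3 * K + v/6 - a) (max (-σ + K - x/3 - 2/3 * ν - a)
      (-σ + 4/3 * K - 2/3 * x - ν - a)) with q | q <;> rw [q]
    · tauto
    · rcases max_choice (-σ + K - x/3 - 2/3 * ν - a)
        (-σ + 4/3 * K - 2/3 * x - ν - a) with q | q <;> rw [q] <;> tauto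
  · rcases max_choice ((v + K + h)/3 - σ/3) (2/3 * v + a + ν/3 + 2/3 * h) with q | q <;>
      rw [q] <;> tauto

/-- **(2)** all monomials of the principal class at the near leaf -/
theorem prinN {K n V t w s₀ h ν A d₀ e v σ : ℝ} (H : StN K n V t) (w0 : 0 ≤ w) (w1 : 100 * w ≤ K)
    (h1 : 2 * n - K + w ≤ V) (h2 : 3 * K ≤ 4 * n + t) (h3 : (V + n - K)/3 + (n - 3/4 * K) + w ≤ s₀)
    (h0 : 0 ≤ h) (h4 : 3 * h ≤ max 0 (4 * n - 3 * K) + K/200) (ν0 : 0 ≤ ν) (A0 : 0 ≤ A) (A1 : A ≤ d₀)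
    (e0 : 0 ≤ e) (e1 : 9 * e ≤ max 0 (4 * n - 3 * K) + K/100) (v0 : 0 ≤ v)
    (v1 : v + 2 * (d₀ + ν) ≤ V + t) (σ1 : s₀ - d₀ ≤ σ) (σ0 : 0 ≤ σ) :
    (d₀ + ν) + v/3 - 2/3 * K + e + 2 * (n - d₀) + PjN K (n - d₀) (e + A) v ν h σ + w
      ≤ 2 * (K + n) - ThN K n (d₀ + ν) e v + 4 * t := by
  obtain ⟨K0, t0, tK, n5, n3, vn⟩ := H
  have hp : ∃ p : ℝ, p = max 0 (4 * n - 3 * K) ∧ (p = 0 ∨ p = 4 * n - 3 * K) := by
    refine ⟨_, rfl, ?_⟩
    rcases max_choice 0 (4 * n - 3 * K) with q | q <;> simp [q]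
  obtain ⟨p, hp, hq⟩ := hp
  rw [← hp] at h4 e1
  have p0 : 0 ≤ p := by rw [hp]; exact le_max_left _ _
  have p1 : 4 * n - 3 * K ≤ p := by rw [hp]; exact le_max_right _ _
  have key : ∀ f : ℝ, (f = 0 ∨ f = ((v + e) + K - 2 * (n - (d₀ + ν) - e)) / 3) →
      ∀ P : ℝ, (P = -σ + 2/3 * K + v/6 - (e + A) ∨ P = -σ + K - (n - d₀)/3 - 2/3 * ν - (e + A) ∨
        P = -σ + 4/3 * K - 2/3 * (n - d₀) - ν - (e + A) ∨ P = (v + K + h)/3 - σ/3 ∨
        P = 2/3 * v + (e + A) + ν/3 + 2/3 * h) →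
      (d₀ + ν) + v/3 - 2/3 * K + e + 2 * (n - d₀) + P + w ≤
        2 * (K + n) - ((d₀ + ν) + 2 / 3 * K - v / 3 - (n - (d₀ + ν)) / 3 +
          (2 * (n - (d₀ + ν) - e) + f)) + 4 * t := by
    intro f hf P hP
    rcases hq with q | q <;> rcases hf with f' | f' <;> rcases hP with g | g | g | g | g <;>
      subst q <;> subst f' <;> subst g <;> linarith
  have hf : max 0 (((v + e) + K - 2 * (n - (d₀ + ν) - e)) / 3) = 0 ∨
      max 0 (((v + e) + K - 2 * (n - (d₀ + ν) - e)) / 3) =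
        ((v + e) + K - 2 * (n - (d₀ + ν) - e)) / 3 := max_choice _ _
  have := key _ hf _ (pjN_cases K (n - d₀) (e + A) v ν h σ)
  simpa only [ThN, flK] using this

end Crest.Agent.R017.NRPa893
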