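import Crest.Agent.R017.NRPa_893

/-!
# Row 17: `PJm` in exponents, the gain in exponents (helper320's #38331 (1), typed by helper893)

* `pjm_exp'` : the body of `PrE176.PJm` at `T = 1`: `by unfold PJm; exact pjm_exp' hM`
* `min_exp`  : `min 1 (y * exp (-s)) = exp (-(max 0 (s - log y)))` (`Mu s₀ g` at `y = nm g`)
-/

set_option autoImplicit false
set_option linter.unusedVariables false

noncomputable section

namespace Crest.Agent.R017.NRPb893

open Crest.Agent.R017.NRPa893 (PjN)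

/-- body of `PrE176.PJm` -/
theorem pjm_exp' {K v x a ν h σ nM : ℝ} (hM : 1 ≤ nM) :
    Real.exp (-σ) * (Real.exp K ^ ((2 : ℝ) / 3) * Real.exp v ^ ((1 : ℝ) / 6) / Real.exp a +
    Real.exp K * Real.exp x ^ (-(1 / 3) : ℝ) * Real.exp ν ^ (-(2 / 3) : ℝ) / Real.exp a +
    Real.exp K ^ ((4 : ℝ) / 3) * Real.exp x ^ (-(2 / 3) : ℝ) * nM ^ ((1 : ℝ) / 3) * (Real.exp ν)⁻¹ / Real.exp a) +
  (Real.exp v * Real.exp K * Real.exp h) ^ ((1 : ℝ) / 3) * Real.exp (-σ) ^ ((1 : ℝ) / 3) +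
  1 * (Real.exp v ^ ((2 : ℝ) / 3) * Real.exp a * (nM * Real.exp ν) ^ ((1 : ℝ) / 3) * Real.exp h ^ ((2 : ℝ) / 3))
    ≤ 6 * nM * Real.exp (PjN K x a v ν h σ) := by
  have hM0 : 0 < nM := by linarith
  have h13 : nM ^ ((1 : ℝ) / 3) ≤ nM := by
    calc nM ^ ((1 : ℝ) / 3) ≤ nM ^ (1 : ℝ) := Real.rpow_le_rpow_of_exponent_le hM (by norm_num)
      _ = nM := Real.rpow_one _
  have h130 : 0 ≤ nM ^ ((1 : ℝ) / 3) := by positivity
  set P := PjN K x a v ν h σ with hP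
  have g1 : -σ + 2/3 * K + v/6 - a ≤ P := (le_max_left _ _).trans (le_max_left _ _)
  have g2 : -σ + K - x/3 - 2/3 * ν - a ≤ P :=
    ((le_max_left _ _).trans (le_max_right _ _)).trans (le_max_left _ _)
  have g3 : -σ + 4/3 * K - 2/3 * x - ν - a ≤ P :=
    ((le_max_right _ _).trans (le_max_right _ _)).trans (le_max_left _ _)
  have g4 : (v + K + h)/3 - σ/3 ≤ P := (le_max_left _ _).trans (le_max_right _ _)
  have g5 : 2/3 * v + a + ν/3 + 2/3 * h ≤ P := (le_max_right _ _).trans (le_max_right _ _)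
  have E1 : Real.exp (-σ) * (Real.exp K ^ ((2 : ℝ) / 3) * Real.exp v ^ ((1 : ℝ) / 6) / Real.exp a) ≤
      nM * Real.exp P := by
    have : Real.exp (-σ) * (Real.exp K ^ ((2 : ℝ) / 3) * Real.exp v ^ ((1 : ℝ) / 6) / Real.exp a) =
        Real.exp (-σ + 2/3 * K + v/6 - a) := by
      rw [← Real.exp_mul, ← Real.exp_mul, ← Real.exp_add, ← Real.exp_sub, ← Real.exp_add]
      congr 1; ring
    rw [this]
    nlinarith [Real.exp_le_exp.2 g1, Real.exp_pos P]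
  have E2 : Real.exp (-σ) * (Real.exp K * Real.exp x ^ (-(1 / 3) : ℝ) * Real.exp ν ^ (-(2 / 3) : ℝ) /
      Real.exp a) ≤ nM * Real.exp P := by
    have : Real.exp (-σ) * (Real.exp K * Real.exp x ^ (-(1 / 3) : ℝ) * Real.exp ν ^ (-(2 / 3) : ℝ) /
      Real.exp a) = Real.exp (-σ + K - x/3 - 2/3 * ν - a) := by
      rw [← Real.exp_mul, ← Real.exp_mul, ← Real.exp_add, ← Real.exp_add, ← Real.exp_sub, ← Real.exp_add]
      congr 1; ring
    rw [this]
    nlinarith [Real.exp_le_exp.2 g2, Real.exp_pos P]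
  have E3 : Real.exp (-σ) * (Real.exp K ^ ((4 : ℝ) / 3) * Real.exp x ^ (-(2 / 3) : ℝ) *
      nM ^ ((1 : ℝ) / 3) * (Real.exp ν)⁻¹ / Real.exp a) ≤ nM * Real.exp P := by
    have : Real.exp (-σ) * (Real.exp K ^ ((4 : ℝ) / 3) * Real.exp x ^ (-(2 / 3) : ℝ) *
        nM ^ ((1 : ℝ) / 3) * (Real.exp ν)⁻¹ / Real.exp a) =
        nM ^ ((1 : ℝ) / 3) * Real.exp (-σ + 4/3 * K - 2/3 * x - ν - a) := by
      have e : Real.exp (-σ + 4/3 * K - 2/3 * x - ν - a) = Real.exp (-σ) * (Real.exp K ^ ((4 : ℝ) / 3) *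
          Real.exp x ^ (-(2 / 3) : ℝ) * (Real.exp ν)⁻¹ / Real.exp a) := by
        rw [← Real.exp_mul, ← Real.exp_mul, ← Real.exp_neg, ← Real.exp_add, ← Real.exp_add,
          ← Real.exp_sub, ← Real.exp_add]
        congr 1; ring
      rw [e]; ring
    rw [this]
    exact mul_le_mul h13 (Real.exp_le_exp.2 g3) (Real.exp_pos _).le hM0.le
  have E4 : (Real.exp v * Real.exp K * Real.exp h) ^ ((1 : ℝ) / 3) * Real.exp (-σ) ^ ((1 : ℝ) / 3) ≤
      nM * Real.exp P := by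
    have : (Real.exp v * Real.exp K * Real.exp h) ^ ((1 : ℝ) / 3) * Real.exp (-σ) ^ ((1 : ℝ) / 3) =
        Real.exp ((v + K + h)/3 - σ/3) := by
      rw [← Real.exp_add, ← Real.exp_add, ← Real.exp_mul, ← Real.exp_mul, ← Real.exp_add]
      congr 1; ring
    rw [this]
    nlinarith [Real.exp_le_exp.2 g4, Real.exp_pos P]
  have E5 : 1 * (Real.exp v ^ ((2 : ℝ) / 3) * Real.exp a * (nM * Real.exp ν) ^ ((1 : ℝ) / 3) *
      Real.exp h ^ ((2 : ℝ) / 3)) ≤ nM * Real.exp P := by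
    have : 1 * (Real.exp v ^ ((2 : ℝ) / 3) * Real.exp a * (nM * Real.exp ν) ^ ((1 : ℝ) / 3) *
        Real.exp h ^ ((2 : ℝ) / 3)) = nM ^ ((1 : ℝ) / 3) * Real.exp (2/3 * v + a + ν/3 + 2/3 * h) := by
      rw [Real.mul_rpow hM0.le (Real.exp_pos _).le]
      have e : Real.exp (2/3 * v + a + ν/3 + 2/3 * h) = Real.exp v ^ ((2 : ℝ) / 3) * Real.exp a *
          Real.exp ν ^ ((1 : ℝ) / 3) * Real.exp h ^ ((2 : ℝ) / 3) := by
        rw [← Real.exp_mul, ← Real.exp_mul, ← Real.exp_mul, ← Real.exp_add, ← Real.exp_add,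
          ← Real.exp_add]
        congr 1; ring
      rw [e]; ring
    rw [this]
    exact mul_le_mul h13 (Real.exp_le_exp.2 g5) (Real.exp_pos _).le hM0.le
  have E0 : 0 ≤ nM * Real.exp P := by positivity
  calc _ = Real.exp (-σ) * (Real.exp K ^ ((2 : ℝ) / 3) * Real.exp v ^ ((1 : ℝ) / 6) / Real.exp a) +
      Real.exp (-σ) * (Real.exp K * Real.exp x ^ (-(1 / 3) : ℝ) * Real.exp ν ^ (-(2 / 3) : ℝ) /
      Real.exp a) + Real.exp (-σ) * (Real.exp K ^ ((4 : ℝ) / 3) * Real.exp x ^ (-(2 / 3) : ℝ) *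
      nM ^ ((1 : ℝ) / 3) * (Real.exp ν)⁻¹ / Real.exp a) +
      (Real.exp v * Real.exp K * Real.exp h) ^ ((1 : ℝ) / 3) * Real.exp (-σ) ^ ((1 : ℝ) / 3) +
      1 * (Real.exp v ^ ((2 : ℝ) / 3) * Real.exp a * (nM * Real.exp ν) ^ ((1 : ℝ) / 3) *
      Real.exp h ^ ((2 : ℝ) / 3)) := by ring
    _ ≤ _ := by linarith

theorem min_exp {s y : ℝ} (hy : 0 < y) :
    min 1 (y * Real.exp (-s)) = Real.exp (-(max 0 (s - Real.log y))) := by
  have e : y * Real.exp (-s) = Real.exp (-(s - Real.log y)) := by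
    rw [neg_sub, sub_eq_add_neg, Real.exp_add, Real.exp_log hy]
  rw [e]
  rcases le_total 0 (s - Real.log y) with h | h
  · rw [max_eq_right h, min_eq_right (by simpa using h)]
  · rw [max_eq_left h, min_eq_left (by simpa using h)]; simp
end Crest.Agent.R017.NRPb893
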