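import Crest.Agent.R017.NRP_320

/-!
# Row 17, FlatNE class E (helper320): the principal term of one cell at the near leaf

* `pjN_le` : `PjN` is Lipschitz
* **`prin_cell`** : the principal number of one cell against the weight of the block
-/

set_option autoImplicit false
set_option linter.unusedVariables false

noncomputable section

namespace Crest.Agent.R017.NRP320

open Crest.Agent.R012 Crest.Agent.R012.Eis
open Crest.Agent.R017.NE73 (flK)
open Crest.Agent.R017.R2N777 (ThN StN fl_le)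
open Crest.Agent.R017.PrE176 (PJm)
open Crest.Agent.R017.PrD502 (Mu)

lemma pjN_le {K K' x x' a v ν h σ m : ℝ} (hm : 0 ≤ m) (hK : K' ≤ K + m) (hx : x ≤ x' + m) :
    PjN K' x' a v ν h σ ≤ PjN K x a v ν h σ + 2 * m := by
  unfold PjN
  refine max_le (max_le ?_ (max_le ?_ ?_)) (max_le ?_ ?_)
  · refine le_trans ?_ (add_le_add ((le_max_left (-σ + 2 / 3 * K + v / 6 - a) _).trans
      (le_max_left _ _)) le_rfl)
    linarith
  · refine le_trans ?_ (add_le_add (((le_max_left (-σ + K - x / 3 - 2 / 3 * ν - a) _).trans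
        (le_max_right _ _)).trans (le_max_left _ _)) le_rfl)
    linarith
  · refine le_trans ?_ (add_le_add (((le_max_right _ (-σ + 4 / 3 * K - 2 / 3 * x - ν - a)).trans
        (le_max_right _ _)).trans (le_max_left _ _)) le_rfl)
    linarith
  · refine le_trans ?_ (add_le_add ((le_max_left ((v + K + h) / 3 - σ / 3) _).trans
      (le_max_right _ _)) le_rfl)
    linarith
  · refine le_trans ?_ (add_le_add ((le_max_right _ (2 / 3 * v + a + ν / 3 + 2 / 3 * h)).trans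
      (le_max_right _ _)) le_rfl)
    linarith

/-- **the real line of the principal term**, two tolerances -/
theorem prinN2 {K n V t t₂ w h d₀ ν A e v s₀ σ : ℝ} (hS : StN K n V t) (hw0 : 0 ≤ w)
    (hw : 100 * w ≤ K) (hV : 2 * n - K + w ≤ V) (hn : 3 * K ≤ 4 * n + t₂) (ht₂ : 0 ≤ t₂) (ht₂K : 1000 * t₂ ≤ K)
    (hs : (V + n - K) / 3 + (n - 3 / 4 * K) + w ≤ s₀) (hh0 : 0 ≤ h)
    (hh : 3 * h ≤ max 0 (4 * n - 3 * K) + K / 200) (hν : 0 ≤ ν) (hA : 0 ≤ A) (hAd : A ≤ d₀)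
    (he : 0 ≤ e) (he9 : 9 * e ≤ max 0 (4 * n - 3 * K) + K / 100) (hv : 0 ≤ v)
    (hvV : v + 2 * (d₀ + ν) ≤ V + t) (hσ : s₀ - d₀ ≤ σ) (hσ0 : 0 ≤ σ) :
    (d₀ + ν) + v / 3 - 2 / 3 * K + e + 2 * (n - d₀) +
      PjN K (n - d₀) (e + A) v ν h σ + w ≤
      2 * (K + n) - ThN K n (d₀ + ν) e v + 4 * t + t₂ := by
  obtain ⟨K0, t0, tK, n5, n3, vn⟩ := hS
  have hmx : max 0 (4 * n - 3 * K) ≤ 4 * n - 3 * K + t₂ := max_le (by linarith) (by linarith)
  have hh' : 3 * h ≤ 4 * n - 3 * K + t₂ + K / 200 := hh.trans (by linarith)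
  have he' : 9 * e ≤ 4 * n - 3 * K + t₂ + K / 100 := he9.trans (by linarith)
  clear hh he9 hmx
  unfold ThN
  have hF := fl_le K (v + e) (n - (d₀ + ν) - e)
  unfold PjN
  have key : ∀ P : ℝ, (P ≤ -σ + 2 / 3 * K + v / 6 - (e + A) ∨
      P ≤ -σ + K - (n - d₀) / 3 - 2 / 3 * ν - (e + A) ∨
      P ≤ -σ + 4 / 3 * K - 2 / 3 * (n - d₀) - ν - (e + A) ∨
      P ≤ (v + K + h) / 3 - σ / 3 ∨ P ≤ 2 / 3 * v + (e + A) + ν / 3 + 2 / 3 * h) →
      (d₀ + ν) + v / 3 - 2 / 3 * K + e + 2 * (n - d₀) + P + w ≤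
      2 * (K + n) - ((d₀ + ν) + 2 / 3 * K - v / 3 - (n - (d₀ + ν)) / 3 +
        flK K (v + e) (n - (d₀ + ν) - e)) + 4 * t + t₂ := by
    intro P hP
    rcases hF with hF | hF <;> rcases hP with hP | hP | hP | hP | hP <;> linarith
  rcases le_total (max (-σ + 2 / 3 * K + v / 6 - (e + A)) (max (-σ + K - (n - d₀) / 3 -
    2 / 3 * ν - (e + A)) (-σ + 4 / 3 * K - 2 / 3 * (n - d₀) - ν - (e + A))))
    (max ((v + K + h) / 3 - σ / 3) (2 / 3 * v + (e + A) + ν / 3 + 2 / 3 * h)) with h1 | h1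
  · rw [max_eq_right h1]
    rcases le_total ((v + K + h) / 3 - σ / 3) (2 / 3 * v + (e + A) + ν / 3 + 2 / 3 * h)
      with h2 | h2
    · rw [max_eq_right h2]
      exact key _ (Or.inr (Or.inr (Or.inr (Or.inr le_rfl))))
    · rw [max_eq_left h2]
      exact key _ (Or.inr (Or.inr (Or.inr (Or.inl le_rfl))))
  · rw [max_eq_left h1]
    rcases le_total (-σ + 2 / 3 * K + v / 6 - (e + A)) (max (-σ + K - (n - d₀) / 3 -
      2 / 3 * ν - (e + A)) (-σ + 4 / 3 * K - 2 / 3 * (n - d₀) - ν - (e + A))) with h2 | h2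
    · rw [max_eq_right h2]
      rcases le_total (-σ + K - (n - d₀) / 3 - 2 / 3 * ν - (e + A))
        (-σ + 4 / 3 * K - 2 / 3 * (n - d₀) - ν - (e + A)) with h3 | h3
      · rw [max_eq_right h3]
        exact key _ (Or.inr (Or.inr (Or.inl le_rfl)))
      · rw [max_eq_left h3]
        exact key _ (Or.inr (Or.inl le_rfl))
    · rw [max_eq_left h2]
      exact key _ (Or.inl le_rfl)

/-- **the principal number of one cell**: `e` block `(δ, e, V)`, `δ = y₁ y₂`, `A ∣ y₁` -/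
theorem prin_cell {K n Lv t t₂ w hh d₀ ν a e v s₀ m B₀ B₁ nM Kf V X nE : ℝ} {g y₂ : Eis}
    (hg : g ≠ 0) (hy₂ : y₂ ≠ 0) (hS : StN K n Lv t) (hw0 : 0 ≤ w) (hw : 100 * w ≤ K)
    (hV : 2 * n - K + w ≤ Lv) (hn : 3 * K ≤ 4 * n + t₂)
    (ht₂ : 0 ≤ t₂) (ht₂K : 1000 * t₂ ≤ K)
    (hs : (Lv + n - K) / 3 + (n - 3 / 4 * K) + w ≤ s₀) (hh0 : 0 ≤ hh)
    (hh3 : 3 * hh ≤ max 0 (4 * n - 3 * K) + K / 200) (ha : 0 ≤ a) (had : a ≤ d₀)
    (he : 0 ≤ e) (he9 : 9 * e ≤ max 0 (4 * n - 3 * K) + K / 100) (hv : 0 ≤ v)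
    (hvV : v + 2 * (d₀ + ν) ≤ Lv + t) (hd : d₀ = Real.log (nm g)) (hν : ν = Real.log (nm y₂))
    (hVv : v = Real.log V) (hV0 : 0 < V) (hK0 : 0 < Kf) (hX0 : 0 < X) (hE0 : 0 < nE)
    (hnE : Real.log nE = e + a) (hm : 0 ≤ m) (hKf : Real.log Kf ≤ K + m)
    (hX : n ≤ Real.log X + m) (hM : 1 ≤ nM) (hB₀ : 0 ≤ B₀) (hB : B₀ ≤ B₁ * Real.exp n) :
    (B₀ / nm g) ^ 2 * PJm Kf V (X / nm g) nE nM (nm y₂) (Real.exp hh) (Mu s₀ g) 1 ≤
      6 * nM * B₁ ^ 2 * Real.exp (2 * (K + n) - ThN K n (d₀ + ν) e v - (d₀ + ν) - v / 3 +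
        2 / 3 * K - e - w + (4 * t + t₂ + 2 * m)) := by
  have hg0 : (0 : ℝ) < nm g := by exact_mod_cast nm_pos.2 hg
  have hy0 : (0 : ℝ) < nm y₂ := by exact_mod_cast nm_pos.2 hy₂
  have hd0 : 0 ≤ d₀ := ha.trans had
  have hν0 : 0 ≤ ν := by
    rw [hν]
    refine Real.log_nonneg ?_
    exact_mod_cast nm_pos.2 hy₂
  obtain ⟨σ, hσ⟩ : ∃ z : ℝ, z = max 0 (s₀ - Real.log (nm g)) := ⟨_, rfl⟩
  have hσ0 : 0 ≤ σ := by rw [hσ]; exact le_max_left _ _
  have hσ1 : s₀ - d₀ ≤ σ := by rw [hσ, hd]; exact le_max_right _ _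
  have e1 : Mu s₀ g = Real.exp (-σ) := by rw [mu_exp hg, hσ]
  have e2 : X / nm g = Real.exp (Real.log X - d₀) := by
    rw [Real.exp_sub, Real.exp_log hX0, hd, Real.exp_log hg0]
  have e3 : nE = Real.exp (e + a) := by rw [← hnE, Real.exp_log hE0]
  have e4 : (nm y₂ : ℝ) = Real.exp ν := by rw [hν, Real.exp_log hy0]
  have e5 : V = Real.exp v := by rw [hVv, Real.exp_log hV0]
  have e6 : Kf = Real.exp (Real.log Kf) := by rw [Real.exp_log hK0]
  have e7 : (nm g : ℝ) = Real.exp d₀ := by rw [hd, Real.exp_log hg0]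
  have h1 := pjm_exp (K := Real.log Kf) (x := Real.log X - d₀) (a := e + a) (v := v) (ν := ν)
    (h := hh) (σ := σ) hM
  have h2 : PJm Kf V (X / nm g) nE nM (nm y₂) (Real.exp hh) (Mu s₀ g) 1 ≤
      6 * nM * Real.exp (PjN (Real.log Kf) (Real.log X - d₀) (e + a) v ν hh σ) := by
    rw [e1, e2, e3, e4, e5, e6, Real.log_exp]
    exact h1
  have h3 := pjN_le (K := K) (K' := Real.log Kf) (x := n - d₀) (x' := Real.log X - d₀)
    (a := e + a) (v := v) (ν := ν) (h := hh) (σ := σ) hm hKf (by linarith)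
  have h4 := prinN2 hS hw0 hw hV hn ht₂ ht₂K hs hh0 hh3 hν0 ha had he he9 hv hvV hσ1 hσ0
  have h5 : (B₀ / nm g) ^ 2 ≤ B₁ ^ 2 * Real.exp (2 * (n - d₀)) := by
    have a1 : B₀ / nm g ≤ B₁ * Real.exp (n - d₀) := by
      rw [e7, Real.exp_sub, ← mul_div_assoc]
      exact div_le_div_of_nonneg_right hB (Real.exp_pos _).le
    calc (B₀ / nm g) ^ 2 ≤ (B₁ * Real.exp (n - d₀)) ^ 2 :=
          pow_le_pow_left₀ (by positivity) a1 2
      _ = _ := by
        rw [mul_pow, ← Real.exp_nat_mul]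
        push_cast
        rfl
  have hM0 : 0 ≤ nM := by linarith
  calc (B₀ / nm g) ^ 2 * PJm Kf V (X / nm g) nE nM (nm y₂) (Real.exp hh) (Mu s₀ g) 1 ≤
        (B₁ ^ 2 * Real.exp (2 * (n - d₀))) *
          (6 * nM * Real.exp (PjN (Real.log Kf) (Real.log X - d₀) (e + a) v ν hh σ)) := by
        refine (mul_le_mul_of_nonneg_left h2 (by positivity)).trans
          (mul_le_mul_of_nonneg_right h5 (by positivity))
    _ = 6 * nM * B₁ ^ 2 * Real.exp (2 * (n - d₀) +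
        PjN (Real.log Kf) (Real.log X - d₀) (e + a) v ν hh σ) := by
        rw [Real.exp_add]; ring
    _ ≤ _ := by
        refine mul_le_mul_of_nonneg_left (Real.exp_le_exp.2 ?_) (by positivity)
        linarith

end Crest.Agent.R017.NRP320
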