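import Crest.Agent.R017.NSb1_986

/-!
# Row 17, section B, leaf L3b, part 2: the exponents
-/

set_option autoImplicit false

noncomputable section

open scoped ComplexConjugate

namespace Crest.Agent.R017.Asm986

open Crest.Agent.R012 Crest.Agent.R012.Eis Crest.Agent.R012.PSer47
open Crest.Agent.R017.End699 Crest.Agent.R017.Sx545 Crest.Agent.R017.B770

lemma rpow_div' {a b s : ℝ} (ha : 0 ≤ a) (hb : 0 ≤ b) : (a / b) ^ s = a ^ s * b ^ (-s) := by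
  rw [Real.div_rpow ha hb, Real.rpow_neg hb]; rfl

/-- `C_{J \ J'} = C_J P^{-#J'}` -/
lemma CJ_sdiff {r : ℕ} {y Q₀ : ℝ} (hQ₀ : 0 < Q₀) {J J' : Finset (Fin r)} (hJ : J' ⊆ J) :
    CJ r y Q₀ (J \ J') = CJ r y Q₀ J / (Q₀ ^ (y / r)) ^ J'.card := by
  unfold CJ
  rw [Finset.card_sdiff_of_subset hJ, Nat.cast_sub (Finset.card_le_card hJ), mul_sub,
    Real.rpow_sub hQ₀, ← Real.rpow_mul_natCast hQ₀.le]

/-- the effect of the modifications on the target. -/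
theorem tgt_step {θ η : ℝ} {r : ℕ} {y Q₀ Q H : ℝ} (hθ : 5 / 6 ≤ θ) (hθ1 : θ ≤ 1)
    (hQ₀ : 1 ≤ Q₀) (hy : 0 ≤ y / r) (hQ : 0 ≤ Q) (hH : 0 ≤ H) {J J' : Finset (Fin r)}
    (hJ : J' ⊆ J) {nb S N Pi E : ℝ} (hnb : 1 ≤ nb) (hS : 1 ≤ S) (hN : 1 ≤ N) (hE : 1 ≤ E)
    (hN' : N ≤ (E * Q₀ ^ (y / r)) ^ J'.card) (hPi : (Q₀ ^ (y / r) / 3) ^ J'.card ≤ Pi) :
    S * N * Tgt θ η r y Q₀ (Q / (nb * Pi)) (H / (S * N ^ 2)) (J \ J') ≤
      (3 * E) ^ J'.card * (Q₀ ^ (y / r))⁻¹ ^ J'.card *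
        (nb ^ (-(1 / 2) : ℝ) + S ^ (5 / 6 : ℝ) * nb ^ (-θ)) * Tgt θ η r y Q₀ Q H J := by
  have hQ₀0 : 0 < Q₀ := by linarith
  set n := J'.card with hn
  set P : ℝ := Q₀ ^ (y / r) with hP
  have hP1 : 1 ≤ P := Real.one_le_rpow hQ₀ hy
  have hP0 : 0 < P := by linarith
  have hPn : 0 < P ^ n := by positivity
  have hS0 : 0 < S := by linarith
  have hN0 : 0 < N := by linarith
  have hnb0 : 0 < nb := by linarith
  have hE0 : 0 < E := by linarith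
  have hPi0 : 0 < Pi := lt_of_lt_of_le (by positivity) hPi
  unfold Tgt
  rw [CJ_sdiff hQ₀0 hJ, ← hn, ← hP]
  set K₀ : ℝ := Q₀ ^ (1 / 2 + y) with hK₀
  set C₀ : ℝ := Q₀ ^ y with hC₀
  set c := CJ r y Q₀ J with hc
  have hK₀0 : 0 < K₀ := by positivity
  have hC₀0 : 0 < C₀ := by positivity
  have hc0 : 0 ≤ c := CJ_nonneg hQ₀0.le J
  set a := H / K₀ with ha
  set b := Q / Q₀ with hb
  set g := c / C₀ with hg
  have ha0 : 0 ≤ a := by positivity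
  have hb0 : 0 ≤ b := by positivity
  have hg0 : 0 ≤ g := by positivity
  have e1 : H / (S * N ^ 2) / K₀ = a / (S * N ^ 2) := by rw [ha]; field_simp
  have e2 : Q / (nb * Pi) / Q₀ = b / (nb * Pi) := by rw [hb]; field_simp
  have e3 : c / P ^ n / C₀ = g / P ^ n := by rw [hg]; field_simp
  rw [e1, e2, e3]
  -- the key product
  have hX : (P ^ 2 / 3) ^ n ≤ Pi * P ^ n := by
    calc (P ^ 2 / 3) ^ n = (P / 3) ^ n * P ^ n := by rw [← mul_pow]; ring_nf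
      _ ≤ Pi * P ^ n := by gcongr
  have hX0 : 0 < (P ^ 2 / 3) ^ n := by positivity
  -- general exponent
  have key : ∀ s : ℝ, 0 ≤ s → (Pi * P ^ n) ^ (-s) ≤ (3 : ℝ) ^ (s * n) * P ^ (-(2 * s * n)) := by
    intro s hs
    calc (Pi * P ^ n) ^ (-s) ≤ ((P ^ 2 / 3) ^ n) ^ (-s) :=
          Real.rpow_le_rpow_of_nonpos hX0 hX (by linarith)
      _ = (3 : ℝ) ^ (s * n) * P ^ (-(2 * s * n)) := by
          rw [div_pow, rpow_div' (by positivity) (by positivity), neg_neg, ← pow_mul,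
            ← Real.rpow_natCast_mul (by norm_num : (0 : ℝ) ≤ 3), ← Real.rpow_natCast_mul hP0.le,
            mul_comm]
          congr 1
          · congr 1; ring
          · congr 1; push_cast; ring
  -- the first term
  have t1 : S * N * (a / (S * N ^ 2) * (b / (nb * Pi)) ^ (1 / 2 : ℝ) * (g / P ^ n) ^ (1 / 2 : ℝ)) ≤
      (3 * E) ^ n * P⁻¹ ^ n * nb ^ (-(1 / 2) : ℝ) * (a * b ^ (1 / 2 : ℝ) * g ^ (1 / 2 : ℝ)) := by
    have f1 : S * N * (a / (S * N ^ 2) * (b / (nb * Pi)) ^ (1 / 2 : ℝ) *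
        (g / P ^ n) ^ (1 / 2 : ℝ)) = N⁻¹ * nb ^ (-(1 / 2) : ℝ) * (Pi * P ^ n) ^ (-(1 / 2) : ℝ) *
        (a * b ^ (1 / 2 : ℝ) * g ^ (1 / 2 : ℝ)) := by
      rw [rpow_div' hb0 (by positivity), rpow_div' hg0 hPn.le,
        Real.mul_rpow hnb0.le hPi0.le, Real.mul_rpow hPi0.le hPn.le]
      field_simp
    rw [f1]
    have f2 := key (1 / 2) (by norm_num)
    have f3 : (3 : ℝ) ^ ((1 / 2 : ℝ) * n) * P ^ (-(2 * (1 / 2 : ℝ) * n)) ≤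
        (3 * E) ^ n * P⁻¹ ^ n := by
      have g1 : (3 : ℝ) ^ ((1 / 2 : ℝ) * n) ≤ (3 * E) ^ n := by
        calc (3 : ℝ) ^ ((1 / 2 : ℝ) * n) ≤ (3 : ℝ) ^ (n : ℝ) :=
              Real.rpow_le_rpow_of_exponent_le (by norm_num) (by
                have : (0 : ℝ) ≤ n := by positivity
                linarith)
          _ = 3 ^ n := Real.rpow_natCast _ _
          _ ≤ (3 * E) ^ n := by gcongr; linarith
      have g2 : P ^ (-(2 * (1 / 2 : ℝ) * n)) = P⁻¹ ^ n := by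
        rw [show -(2 * (1 / 2 : ℝ) * n) = -(n : ℝ) by ring, Real.rpow_neg hP0.le,
          Real.rpow_natCast, inv_pow]
      rw [g2]
      gcongr
    have f4 : N⁻¹ ≤ 1 := inv_le_one_of_one_le₀ hN
    have f5 : 0 ≤ a * b ^ (1 / 2 : ℝ) * g ^ (1 / 2 : ℝ) := by positivity
    have f6 : (Pi * P ^ n) ^ (-(1 / 2) : ℝ) ≤ (3 * E) ^ n * P⁻¹ ^ n := by
      have := f2.trans f3
      simpa using this
    calc N⁻¹ * nb ^ (-(1 / 2) : ℝ) * (Pi * P ^ n) ^ (-(1 / 2) : ℝ) *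
          (a * b ^ (1 / 2 : ℝ) * g ^ (1 / 2 : ℝ))
        ≤ 1 * nb ^ (-(1 / 2) : ℝ) * ((3 * E) ^ n * P⁻¹ ^ n) *
          (a * b ^ (1 / 2 : ℝ) * g ^ (1 / 2 : ℝ)) := by gcongr
      _ = _ := by ring
  -- the second term
  have t2 : S * N * ((a / (S * N ^ 2)) ^ (1 / 6 : ℝ) * (b / (nb * Pi)) ^ θ * (g / P ^ n) ^ θ) ≤
      (3 * E) ^ n * P⁻¹ ^ n * (S ^ (5 / 6 : ℝ) * nb ^ (-θ)) *
        (a ^ (1 / 6 : ℝ) * b ^ θ * g ^ θ) := by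
    have f1 : S * N * ((a / (S * N ^ 2)) ^ (1 / 6 : ℝ) * (b / (nb * Pi)) ^ θ * (g / P ^ n) ^ θ) =
        S ^ (5 / 6 : ℝ) * N ^ (2 / 3 : ℝ) * nb ^ (-θ) * (Pi * P ^ n) ^ (-θ) *
        (a ^ (1 / 6 : ℝ) * b ^ θ * g ^ θ) := by
      rw [rpow_div' ha0 (by positivity), rpow_div' hb0 (by positivity), rpow_div' hg0 hPn.le,
        Real.mul_rpow hnb0.le hPi0.le, Real.mul_rpow hPi0.le hPn.le,
        Real.mul_rpow hS0.le (by positivity)]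
      have g1 : S = S ^ (5 / 6 : ℝ) * S ^ (1 / 6 : ℝ) := by
        rw [← Real.rpow_add hS0]; norm_num
      have g2 : N = N ^ (2 / 3 : ℝ) * (N ^ 2) ^ (1 / 6 : ℝ) := by
        rw [← Real.rpow_natCast_mul hN0.le, ← Real.rpow_add hN0]; norm_num
      have g3 : S ^ (1 / 6 : ℝ) * S ^ (-(1 / 6) : ℝ) = 1 := by
        rw [← Real.rpow_add hS0]; norm_num
      have g4 : (N ^ 2) ^ (1 / 6 : ℝ) * (N ^ 2) ^ (-(1 / 6) : ℝ) = 1 := by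
        rw [← Real.rpow_add (by positivity)]; norm_num
      calc S * N * (a ^ (1 / 6 : ℝ) * (S ^ (-(1 / 6) : ℝ) * (N ^ 2) ^ (-(1 / 6) : ℝ)) *
            (b ^ θ * (nb ^ (-θ) * Pi ^ (-θ))) * (g ^ θ * (P ^ n) ^ (-θ)))
          = (S ^ (5 / 6 : ℝ) * S ^ (1 / 6 : ℝ)) * (N ^ (2 / 3 : ℝ) * (N ^ 2) ^ (1 / 6 : ℝ)) *
            (a ^ (1 / 6 : ℝ) * (S ^ (-(1 / 6) : ℝ) * (N ^ 2) ^ (-(1 / 6) : ℝ)) *
            (b ^ θ * (nb ^ (-θ) * Pi ^ (-θ))) * (g ^ θ * (P ^ n) ^ (-θ))) := by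
              rw [← g1, ← g2]
        _ = (S ^ (1 / 6 : ℝ) * S ^ (-(1 / 6) : ℝ)) *
            ((N ^ 2) ^ (1 / 6 : ℝ) * (N ^ 2) ^ (-(1 / 6) : ℝ)) *
            (S ^ (5 / 6 : ℝ) * N ^ (2 / 3 : ℝ) * nb ^ (-θ) * (Pi ^ (-θ) * (P ^ n) ^ (-θ)) *
              (a ^ (1 / 6 : ℝ) * b ^ θ * g ^ θ)) := by ring
        _ = _ := by rw [g3, g4]; ring
    rw [f1]
    have f2 := key θ (by linarith)
    have f3 : N ^ (2 / 3 : ℝ) ≤ E ^ n * P ^ ((2 / 3 : ℝ) * n) := by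
      calc N ^ (2 / 3 : ℝ) ≤ ((E * P) ^ n) ^ (2 / 3 : ℝ) := by gcongr
        _ = (E ^ n) ^ (2 / 3 : ℝ) * P ^ ((2 / 3 : ℝ) * n) := by
            rw [mul_pow, Real.mul_rpow (by positivity) (by positivity),
              ← Real.rpow_natCast_mul hP0.le, mul_comm (n : ℝ) (2 / 3)]
        _ ≤ (E ^ n) ^ (1 : ℝ) * P ^ ((2 / 3 : ℝ) * n) := by
            gcongr
            · exact one_le_pow₀ hE
            · norm_num
        _ = _ := by rw [Real.rpow_one]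
    have f4 : N ^ (2 / 3 : ℝ) * (Pi * P ^ n) ^ (-θ) ≤ (3 * E) ^ n * P⁻¹ ^ n := by
      have hn0 : (0 : ℝ) ≤ n := by positivity
      calc N ^ (2 / 3 : ℝ) * (Pi * P ^ n) ^ (-θ)
          ≤ (E ^ n * P ^ ((2 / 3 : ℝ) * n)) * ((3 : ℝ) ^ (θ * n) * P ^ (-(2 * θ * n))) := by
            gcongr
        _ = E ^ n * (3 : ℝ) ^ (θ * n) * (P ^ ((2 / 3 : ℝ) * n) * P ^ (-(2 * θ * n))) := by ring
        _ = E ^ n * (3 : ℝ) ^ (θ * n) * P ^ ((2 / 3 - 2 * θ) * n) := by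
            rw [← Real.rpow_add hP0]; congr 2; ring
        _ ≤ E ^ n * (3 : ℝ) ^ ((1 : ℝ) * n) * P ^ ((-1 : ℝ) * n) := by
            have q1 : (3 : ℝ) ^ (θ * n) ≤ (3 : ℝ) ^ ((1 : ℝ) * n) :=
              Real.rpow_le_rpow_of_exponent_le (by norm_num) (by gcongr)
            have q2 : P ^ ((2 / 3 - 2 * θ) * n) ≤ P ^ ((-1 : ℝ) * n) :=
              Real.rpow_le_rpow_of_exponent_le hP1
                (mul_le_mul_of_nonneg_right (by linarith) hn0)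
            gcongr
        _ = (3 * E) ^ n * P⁻¹ ^ n := by
            rw [one_mul, Real.rpow_natCast, mul_pow, neg_mul, one_mul, Real.rpow_neg hP0.le,
              Real.rpow_natCast, inv_pow]
            ring
    have f5 : 0 ≤ a ^ (1 / 6 : ℝ) * b ^ θ * g ^ θ := by positivity
    calc S ^ (5 / 6 : ℝ) * N ^ (2 / 3 : ℝ) * nb ^ (-θ) * (Pi * P ^ n) ^ (-θ) *
          (a ^ (1 / 6 : ℝ) * b ^ θ * g ^ θ)
        = (S ^ (5 / 6 : ℝ) * nb ^ (-θ)) * (N ^ (2 / 3 : ℝ) * (Pi * P ^ n) ^ (-θ)) *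
          (a ^ (1 / 6 : ℝ) * b ^ θ * g ^ θ) := by ring
      _ ≤ (S ^ (5 / 6 : ℝ) * nb ^ (-θ)) * ((3 * E) ^ n * P⁻¹ ^ n) *
          (a ^ (1 / 6 : ℝ) * b ^ θ * g ^ θ) := by gcongr
      _ = _ := by ring
  set L : ℝ := Q₀ ^ ((1 / 2 + y) / 3 + y + θ - η) with hL
  have hL0 : 0 ≤ L := by positivity
  set A1 := a * b ^ (1 / 2 : ℝ) * g ^ (1 / 2 : ℝ) with hA1
  set A2 := a ^ (1 / 6 : ℝ) * b ^ θ * g ^ θ with hA2
  have hA10 : 0 ≤ A1 := by positivity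
  have hA20 : 0 ≤ A2 := by positivity
  have hD : 0 ≤ (3 * E) ^ n * P⁻¹ ^ n := by positivity
  have hs1 : 0 ≤ nb ^ (-(1 / 2) : ℝ) := by positivity
  have hs2 : 0 ≤ S ^ (5 / 6 : ℝ) * nb ^ (-θ) := by positivity
  calc S * N * (L * (a / (S * N ^ 2) * (b / (nb * Pi)) ^ (1 / 2 : ℝ) * (g / P ^ n) ^ (1 / 2 : ℝ) +
        (a / (S * N ^ 2)) ^ (1 / 6 : ℝ) * (b / (nb * Pi)) ^ θ * (g / P ^ n) ^ θ))
      = L * (S * N * (a / (S * N ^ 2) * (b / (nb * Pi)) ^ (1 / 2 : ℝ) *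
          (g / P ^ n) ^ (1 / 2 : ℝ)) +
        S * N * ((a / (S * N ^ 2)) ^ (1 / 6 : ℝ) * (b / (nb * Pi)) ^ θ * (g / P ^ n) ^ θ)) := by
        ring
    _ ≤ L * ((3 * E) ^ n * P⁻¹ ^ n * nb ^ (-(1 / 2) : ℝ) * A1 +
          (3 * E) ^ n * P⁻¹ ^ n * (S ^ (5 / 6 : ℝ) * nb ^ (-θ)) * A2) := by gcongr
    _ ≤ L * ((3 * E) ^ n * P⁻¹ ^ n * (nb ^ (-(1 / 2) : ℝ) + S ^ (5 / 6 : ℝ) * nb ^ (-θ)) * A1 +
          (3 * E) ^ n * P⁻¹ ^ n * (nb ^ (-(1 / 2) : ℝ) + S ^ (5 / 6 : ℝ) * nb ^ (-θ)) * A2) := by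
        gcongr
        · linarith
        · linarith
    _ = _ := by ring

end Crest.Agent.R017.Asm986
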