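import Crest.Agent.R017.NSb2_986

/-!
# Row 17, section B, leaf L3b, part 3: amplifier primes, twists, the substitution `k = T k'`
-/

set_option autoImplicit false

noncomputable section

open scoped ComplexConjugate

namespace Crest.Agent.R017.Asm986

open Crest.Agent.R012 Crest.Agent.R012.Eis Crest.Agent.R012.PSer47
open Crest.Agent.R017.End699 Crest.Agent.R017.Sx545 Crest.Agent.R017.B770

/-! ### amplifier primes -/

/-- `E = e^{3r+1}` -/
def EE' (r : ℕ) : ℝ := Real.exp (3 * r + 1)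

lemma one_le_EE' (r : ℕ) : 1 ≤ EE' r := Real.one_le_exp (by positivity)

lemma exp_kap {r : ℕ} {y Q₀ : ℝ} (hQ₀ : 0 < Q₀) (i : Fin r) :
    Real.exp (kap r y Q₀ i) = Q₀ ^ (y / r) * Real.exp (3 * (i : ℕ)) := by
  unfold kap
  rw [Real.exp_add, Real.rpow_def_of_pos hQ₀, mul_comm (y / r)]

lemma exp_kap_le {r : ℕ} {y Q₀ : ℝ} (hQ₀ : 0 < Q₀) (i : Fin r) :
    Real.exp (kap r y Q₀ i + 1) ≤ EE' r * Q₀ ^ (y / r) := by
  rw [Real.exp_add, exp_kap hQ₀]
  have h1 : Real.exp (3 * (i : ℕ)) * Real.exp 1 ≤ EE' r := by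
    rw [← Real.exp_add]
    apply Real.exp_le_exp.mpr
    have : ((i : ℕ) : ℝ) ≤ r := by exact_mod_cast i.2.le
    linarith
  have h2 : 0 ≤ Q₀ ^ (y / r) := by positivity
  nlinarith

lemma range_of_ne {h : ℝ → ℂ} (hh : HW h) {r : ℕ} {y Q₀ : ℝ} (hQ₀ : 0 < Q₀) (i : Fin r) {p : Eis}
    (hp : p ≠ 0) (h0 : h (Real.log (nm p) - kap r y Q₀ i) ≠ 0) :
    Q₀ ^ (y / r) * Real.exp (3 * (i : ℕ)) ≤ Real.exp 1 * nm p ∧
      (nm p : ℝ) ≤ Real.exp 1 * (Q₀ ^ (y / r) * Real.exp (3 * (i : ℕ))) := by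
  have hp0 : (0 : ℝ) < nm p := by exact_mod_cast nm_pos.mpr hp
  have h1 := abs_le.mp (hh.supp _ h0)
  rw [← exp_kap hQ₀]
  constructor
  · calc Real.exp (kap r y Q₀ i) ≤ Real.exp (1 + Real.log (nm p)) :=
          Real.exp_le_exp.mpr (by linarith [h1.1])
      _ = _ := by rw [Real.exp_add, Real.exp_log hp0]
  · calc (nm p : ℝ) = Real.exp (Real.log (nm p)) := (Real.exp_log hp0).symm
      _ ≤ Real.exp (1 + kap r y Q₀ i) := Real.exp_le_exp.mpr (by linarith [h1.2])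
      _ = _ := by rw [Real.exp_add]

lemma exp_one_lt_three : Real.exp 1 < 3 := by
  have := Real.exp_one_lt_d9
  linarith

lemma range_of_ne' {h : ℝ → ℂ} (hh : HW h) {r : ℕ} {y Q₀ : ℝ} (hQ₀ : 0 < Q₀) (i : Fin r) {p : Eis}
    (hp : p ≠ 0) (h0 : h (Real.log (nm p) - kap r y Q₀ i) ≠ 0) :
    Q₀ ^ (y / r) / 3 ≤ nm p ∧ (nm p : ℝ) ≤ EE' r * Q₀ ^ (y / r) := by
  obtain ⟨h1, h2⟩ := range_of_ne hh hQ₀ i hp h0
  have hP : 0 < Q₀ ^ (y / r) := by positivity
  have he : 1 ≤ Real.exp (3 * (i : ℕ)) := Real.one_le_exp (by positivity)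
  have hn : (0 : ℝ) ≤ nm p := by positivity
  constructor
  · rw [div_le_iff₀ (by norm_num)]
    have := exp_one_lt_three
    calc Q₀ ^ (y / r) ≤ Q₀ ^ (y / r) * Real.exp (3 * (i : ℕ)) := le_mul_of_one_le_right hP.le he
      _ ≤ Real.exp 1 * nm p := h1
      _ ≤ nm p * 3 := by nlinarith
  · refine h2.trans ?_
    have h3 := exp_kap_le (y := y) hQ₀ i
    rw [Real.exp_add, exp_kap hQ₀] at h3
    linarith

/-- primes of different pieces are coprime -/
lemma coprime_of_ne {h : ℝ → ℂ} (hh : HW h) {r : ℕ} {y Q₀ : ℝ} {i j : Fin r}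
    (hij : i ≠ j) {p q : Eis} (hp : Mob705.IsPP p) (hq : Mob705.IsPP q)
    (h1 : h (Real.log (nm p) - kap r y Q₀ i) ≠ 0) (h2 : h (Real.log (nm q) - kap r y Q₀ j) ≠ 0) :
    IsCoprime p q := by
  refine hp.isCoprime hq ?_
  rintro rfl
  have h3 := abs_le.mp (hh.supp _ h1)
  have h4 := abs_le.mp (hh.supp _ h2)
  unfold kap at h3 h4
  have h5 : |((i : ℕ) : ℝ) - ((j : ℕ) : ℝ)| < 1 := by
    rw [abs_lt]
    constructor <;> linarith [h3.1, h3.2, h4.1, h4.2]
  have h6 : |((i : ℕ) : ℤ) - ((j : ℕ) : ℤ)| < 1 := by exact_mod_cast h5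
  have h7 : ((i : ℕ) : ℤ) = ((j : ℕ) : ℤ) := by
    have := Int.abs_lt_one_iff.mp h6
    omega
  exact hij (Fin.ext (by exact_mod_cast h7))

lemma mem_tup {r : ℕ} {y Q₀ : ℝ} {J : Finset (Fin r)} {p : ∀ _ : J, Eis} :
    p ∈ tup r y Q₀ J ↔ ∀ i : J, p i ∈ prS (kap r y Q₀ i) := by
  unfold tup
  exact Fintype.mem_piFinset

lemma isPP_of_mem_tup {r : ℕ} {y Q₀ : ℝ} {J : Finset (Fin r)} {p : ∀ _ : J, Eis}
    (hp : p ∈ tup r y Q₀ J) (i : J) : Mob705.IsPP (p i) := by
  have h := mem_prS.mp (mem_tup.mp hp i)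
  exact ⟨h.1.2, h.2⟩

/-- the number of tuples -/
theorem sum_tup_le {h : ℝ → ℂ} {B : ℝ} (hB : ∀ u, ‖h u‖ ≤ B) {r : ℕ} {y Q₀ : ℝ} (hQ₀ : 0 < Q₀)
    (J : Finset (Fin r)) :
    ∑ p ∈ tup r y Q₀ J, ∏ i : J, ‖h (Real.log (nm (p i)) - kap r y Q₀ i)‖ ≤
      (18 * B * EE' r * Q₀ ^ (y / r)) ^ J.card := by
  classical
  have hB0 : 0 ≤ B := (norm_nonneg _).trans (hB 0)
  unfold tup
  rw [← Finset.prod_univ_sum (fun i : J => prS (kap r y Q₀ i))
    (fun i p => ‖h (Real.log (nm p) - kap r y Q₀ i)‖)]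
  calc _ ≤ ∏ i : J, (18 * B * EE' r * Q₀ ^ (y / r)) := by
        apply Finset.prod_le_prod
        · intro i _
          exact Finset.sum_nonneg fun _ _ => norm_nonneg _
        · intro i _
          have hcard : ((prS (kap r y Q₀ i)).card : ℝ) ≤ 18 * Real.exp (kap r y Q₀ i + 1) := by
            have h1 : (prS (kap r y Q₀ i)).card ≤ (primBall ⌊Real.exp (kap r y Q₀ i + 1)⌋₊).card := by
              apply Finset.card_le_card
              intro p hp
              rw [mem_primBall, Nat.le_floor_iff (Real.exp_pos _).le]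
              exact (mem_prS.mp hp).1
            calc ((prS (kap r y Q₀ i)).card : ℝ)
                ≤ ((18 * ⌊Real.exp (kap r y Q₀ i + 1)⌋₊ : ℕ) : ℝ) := by
                  exact_mod_cast h1.trans (card_primBall_le' _)
              _ = 18 * (⌊Real.exp (kap r y Q₀ i + 1)⌋₊ : ℝ) := by push_cast; ring
              _ ≤ _ := by
                  gcongr
                  exact Nat.floor_le (Real.exp_pos _).le
          calc ∑ p ∈ prS (kap r y Q₀ i), ‖h (Real.log (nm p) - kap r y Q₀ i)‖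
              ≤ ∑ _p ∈ prS (kap r y Q₀ i), B := Finset.sum_le_sum fun p _ => hB _
            _ = (prS (kap r y Q₀ i)).card * B := by rw [Finset.sum_const, nsmul_eq_mul]
            _ ≤ (18 * Real.exp (kap r y Q₀ i + 1)) * B := by gcongr
            _ ≤ (18 * (EE' r * Q₀ ^ (y / r))) * B := by
                gcongr
                exact exp_kap_le hQ₀ (i : Fin r)
            _ = _ := by ring
    _ = _ := by rw [Finset.prod_const, Finset.card_univ, Fintype.card_coe]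

/-! ### twists -/

lemma twt_prin0 {M : Eis} {φ : Eis → ℂ} (hφ : HC M φ) (l : ℤ) (t : ℝ) (D : Eis) {q : Eis}
    (hq : IsPrim q) : twt φ l t q * prin0 D q = twt φ l t q * prin0 (M * D) q := by
  by_cases h : IsCoprime q M
  · unfold prin0
    by_cases h2 : IsCoprime q D
    · rw [if_pos h2, if_pos (h.mul_right h2)]
    · rw [if_neg h2, if_neg fun h3 => h2 h3.of_mul_right_right]
  · have h0 : φ q = 0 := hφ.van q hq h
    unfold twt End699.tw
    rw [h0]; ring

/-- the modified character -/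
def mch (φ : Eis → ℂ) (D : Eis) (T : Eis → ℂ) (q : Eis) : ℂ := φ q * prin0 D q * T q

lemma hc_mch {M : Eis} {φ : Eis → ℂ} (hφ : HC M φ) {D : Eis} (hD : D ≠ 0) {T : Eis}
    (hT : T ≠ 0) : HC (M * (M * D) * (9 * T)) (mch φ (M * D) (fun q => sy T q)) := by
  have h1 := hc_prin0 (mul_ne_zero hφ.q0 hD) (hφ.three.mul_right D)
  exact (hφ.mul h1).mul (hc_sy hT)

lemma hc_mch' {M : Eis} {φ : Eis → ℂ} (hφ : HC M φ) {D : Eis} (hD : D ≠ 0) {T : Eis}
    (hT : T ≠ 0) : HC (M * (M * D) * (9 * T)) (mch φ (M * D) (fun q => conj (sy T q))) := by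
  have h1 := hc_prin0 (mul_ne_zero hφ.q0 hD) (hφ.three.mul_right D)
  exact (hφ.mul h1).mul (hc_sy hT).conj

lemma sy_mul' {T k q : Eis} (hq : IsPrim q) : sy (T * k) q = sy T q * sy k q :=
  Char766.sy_mul_left hq

lemma amp_mch {M : Eis} {φ : Eis → ℂ} (hφ : HC M φ) (l : ℤ) (t : ℝ) (D T k : Eis) {h : ℝ → ℂ}
    {r : ℕ} {y Q₀ : ℝ} {J : Finset (Fin r)} :
    Amp h r y Q₀ J (fun q => twt φ l t q * prin0 D q * conj (sy (T * k) q)) =
      Amp h r y Q₀ J (fun q => twt (mch φ (M * D) (fun q => conj (sy T q))) l t q *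
        conj (sy k q)) := by
  refine Amp_congr fun q hq => ?_
  rw [twt_prin0 hφ l t D hq, sy_mul' hq, map_mul]
  unfold twt End699.tw mch
  ring

lemma mv_mch {M : Eis} {ψ : Eis → ℂ} (l : ℤ) (t : ℝ) (D T k : Eis) {V : ℝ → ℂ} {Q : ℝ} :
    MV V Q (fun q => twt ψ l t q * prin0 (M * D) q * sy (T * k) q) =
      MV V Q (fun q => twt (mch ψ (M * D) (fun q => sy T q)) l t q * sy k q) := by
  refine MV_congr fun q hq => ?_
  rw [sy_mul' hq]
  unfold twt End699.tw mch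
  ring

lemma npk_mch {M : Eis} {φ : Eis → ℂ} (hφ : HC M φ) {l : ℤ} {D : Eis} (hD : D ≠ 0) {T : Eis}
    (hT : T ≠ 0) {k : Eis} (hk : k ≠ 0) (h : NPk M φ l (T * k)) :
    NPk (M * (M * D) * (9 * T)) (mch φ (M * D) (fun q => conj (sy T q))) l k := by
  unfold NPk at h ⊢
  have hTk : T * k ≠ 0 := mul_ne_zero hT hk
  have hc : HC (M * (9 * (T * k))) (fun b => φ b * conj (sy (T * k) b)) :=
    hφ.mul (hc_sy hTk).conj
  have hq' : M * (M * D) * (9 * T) * (9 * k) ≠ 0 := by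
    have h9 : (9 : Eis) ≠ 0 := nine_ne_zero
    have := hφ.q0
    positivity
  rcases h.changeMod hc hq' with h1 | ⟨a, ha1, ha2, ha3⟩
  · left; exact h1
  · right
    refine ⟨a, ha1, ha2, ?_⟩
    unfold prin0 at ha3
    beta_reduce at ha3 ⊢
    rw [if_pos ha2, mul_one, sy_mul' ha1, map_mul] at ha3
    have hcop : IsCoprime a (M * D) := ha2.of_mul_right_left.of_mul_right_left.of_mul_right_right
    unfold mch prin0
    rw [if_pos hcop, mul_one]
    intro h4
    apply ha3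
    rw [← h4]; ring

/-! ### the substitution `k = T k'` -/

open Classical in
theorem sum_dvd_le {H : ℝ} {T : Eis} (hT : T ≠ 0) {P P' : Eis → Prop}
    (hP : ∀ k, k ≠ 0 → P (T * k) → P' k) {F G' : Eis → ℝ} (hG : ∀ k, 0 ≤ G' k)
    (hF : ∀ k, k ≠ 0 → F (T * k) ≤ G' k) {N : ℕ} (hN : (N : ℝ) ≤ H) :
    ∑ k ∈ (ball N).filter (fun k => k ≠ 0 ∧ P k), (if T ∣ k then F k else 0) ≤
      ∑ k ∈ (ball ⌊H / nm T⌋₊).filter (fun k => k ≠ 0 ∧ P' k), G' k := by
  have hT0 : (0 : ℝ) < nm T := by exact_mod_cast nm_pos.mpr hT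
  rw [← Finset.sum_filter]
  set A := ((ball N).filter (fun k => k ≠ 0 ∧ P k)).filter (fun k => T ∣ k) with hA
  set B := (ball ⌊H / nm T⌋₊).filter (fun k => k ≠ 0 ∧ P' k) with hB
  -- choose quotient
  have hq : ∀ k ∈ A, ∃ k', k = T * k' ∧ k' ∈ B := by
    intro k hk
    rw [hA, Finset.mem_filter, Finset.mem_filter, mem_ball] at hk
    obtain ⟨⟨h1, h2, h3⟩, k', rfl⟩ := hk
    refine ⟨k', rfl, ?_⟩
    have hk' : k' ≠ 0 := right_ne_zero_of_mul h2
    rw [hB, Finset.mem_filter, mem_ball]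
    refine ⟨?_, hk', hP k' hk' h3⟩
    apply Nat.le_floor
    rw [le_div_iff₀ hT0]
    rw [nm_mul] at h1
    have h4 : ((nm T * nm k' : ℕ) : ℝ) ≤ N := by exact_mod_cast h1
    push_cast at h4
    linarith
  have hsub : A ⊆ B.image (fun k => T * k) := by
    intro k hk
    obtain ⟨k', h1, h2⟩ := hq k hk
    exact Finset.mem_image.mpr ⟨k', h2, h1.symm⟩
  have hinj : Set.InjOn (fun k => T * k) (B : Set Eis) := fun a _ b _ hab =>
    mul_left_cancel₀ hT hab
  calc ∑ k ∈ A, F k ≤ ∑ k ∈ A, (if h : ∃ k', k = T * k' then G' h.choose else 0) := by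
        apply Finset.sum_le_sum
        intro k hk
        obtain ⟨k', h1, h2⟩ := hq k hk
        have hex : ∃ k', k = T * k' := ⟨k', h1⟩
        rw [dif_pos hex]
        have h3 : k = T * hex.choose := hex.choose_spec
        have h4 : hex.choose ≠ 0 := by
          intro h5
          rw [h5, mul_zero] at h3
          rw [hA, Finset.mem_filter, Finset.mem_filter] at hk
          exact hk.1.2.1 h3
        calc F k = F (T * hex.choose) := by rw [← h3]
          _ ≤ G' hex.choose := hF _ h4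
    _ ≤ ∑ k ∈ B.image (fun k => T * k), (if h : ∃ k', k = T * k' then G' h.choose else 0) := by
        apply Finset.sum_le_sum_of_subset_of_nonneg hsub
        intro k _ _
        split_ifs
        · exact hG _
        · exact le_rfl
    _ = ∑ k ∈ B, G' k := by
        rw [Finset.sum_image hinj]
        apply Finset.sum_congr rfl
        intro k _
        have hex : ∃ k', T * k = T * k' := ⟨k, rfl⟩
        rw [dif_pos hex]
        congr 1
        exact (mul_left_cancel₀ hT hex.choose_spec).symm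

end Crest.Agent.R017.Asm986
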