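import Crest.Agent.R017.NSb3_986

/-!
# Row 17, section B, leaf L3b, part 4: the natural bound `NatNP` from `NSExpLe`, `PowS` and D-OUT
-/

set_option autoImplicit false

noncomputable section

open scoped ComplexConjugate

namespace Crest.Agent.R017.Asm986

open Crest.Agent.R012 Crest.Agent.R012.Eis Crest.Agent.R012.PSer47
open Crest.Agent.R017.End699 Crest.Agent.R017.Sx545 Crest.Agent.R017.B770

open Classical in
/-- what is needed about `tk k b 1` for powerful `b`. -/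
def PowS (θ : ℝ) : Prop :=
  ∃ (S : Eis → Eis) (ω : Eis → ℝ), (∀ b, 0 ≤ ω b) ∧
    (∀ b, Sm 2 b → Pf b → IsPrim (S b) ∧ (∀ x, IsCoprime b x → IsCoprime (S b) x) ∧
      (∀ k, k ≠ 0 → ‖tk k b 1‖ ≤ if S b ∣ k then (nm (S b) : ℝ) * ω b else 0)) ∧
    Summable (fun b => if Sm 2 b ∧ Pf b then ω b * (nm b : ℝ) ^ (-(1 / 2) : ℝ) else 0) ∧
    Summable (fun b => if Sm 2 b ∧ Pf b then
      (nm (S b) : ℝ) ^ (5 / 6 : ℝ) * ω b * (nm b : ℝ) ^ (-θ) else 0)

open Classical in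
/-- expansion of the `uw` factors -/
lemma prod_uw_le {r : ℕ} {J : Finset (Fin r)} (p : ∀ _ : J, Eis) (k : Eis) :
    ∏ i : J, ‖uw k (p i)‖ ≤ ∑ I ∈ (Finset.univ : Finset J).powerset,
      ∏ i ∈ I, (if (p i) ^ 2 ∣ k then (nm (p i) : ℝ) else 0) := by
  classical
  rw [← Finset.prod_add_one]
  apply Finset.prod_le_prod (fun _ _ => norm_nonneg _)
  intro i _
  unfold uw
  refine (norm_sub_le _ _).trans ?_
  rw [norm_one, add_comm]
  gcongr
  split_ifs
  · simp
  · simp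

open Classical in
lemma prod_ite_dvd {ι : Type*} (I : Finset ι) (a : ι → Eis) (w : ι → ℝ) (k : Eis)
    (hcop : (I : Set ι).Pairwise (fun i j => IsCoprime (a i) (a j))) :
    ∏ i ∈ I, (if (a i) ^ 2 ∣ k then w i else 0) =
      if (∏ i ∈ I, a i ^ 2) ∣ k then ∏ i ∈ I, w i else 0 := by
  classical
  by_cases h : ∀ i ∈ I, a i ^ 2 ∣ k
  · have hd : (∏ i ∈ I, a i ^ 2) ∣ k := by
      apply Finset.prod_dvd_of_coprime
      · intro i hi j hj hij
        exact (hcop hi hj hij).pow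
      · exact h
    rw [if_pos hd]
    exact Finset.prod_congr rfl fun i hi => if_pos (h i hi)
  · push Not at h
    obtain ⟨i, hi, hni⟩ := h
    have hd : ¬ (∏ i ∈ I, a i ^ 2) ∣ k := fun h' =>
      hni ((Finset.dvd_prod_of_mem (fun i => a i ^ 2) hi).trans h')
    rw [if_neg hd]
    exact Finset.prod_eq_zero hi (if_neg hni)

/-- the modulus `T = S(b) ∏_{i ∈ I} p_i²` -/
def Tm {r : ℕ} {J : Finset (Fin r)} (s : Eis) (p : ∀ _ : J, Eis) (I : Finset J) : Eis :=
  s * ∏ i ∈ I, p i ^ 2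

lemma nm_prod {ι : Type*} (I : Finset ι) (a : ι → Eis) :
    nm (∏ i ∈ I, a i) = ∏ i ∈ I, nm (a i) := by
  classical
  induction I using Finset.induction_on with
  | empty => simp
  | insert i s hi ih => rw [Finset.prod_insert hi, Finset.prod_insert hi, nm_mul, ih]

lemma nm_Tm {r : ℕ} {J : Finset (Fin r)} (s : Eis) (p : ∀ _ : J, Eis) (I : Finset J) :
    (nm (Tm s p I) : ℝ) = nm s * (∏ i ∈ I, (nm (p i) : ℝ)) ^ 2 := by
  unfold Tm
  rw [nm_mul, nm_prod, ← Finset.prod_pow]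
  simp_rw [nm_pow]
  push_cast
  rfl

open Classical in
/-- pointwise domination of the weights of one tuple -/
lemma pointwise_le {r : ℕ} {J : Finset (Fin r)} (p : ∀ _ : J, Eis)
    (hcop : ∀ i j : J, i ≠ j → IsCoprime (p i) (p j)) {s b k : Eis} {om X : ℝ} (hX : 0 ≤ X)
    (hsb : ∀ x, IsCoprime b x → IsCoprime s x) (hb : IsCoprime b (∏ i : J, p i))
    (ht : ‖tk k b 1‖ ≤ if s ∣ k then (nm s : ℝ) * om else 0) :
    (∏ i : J, ‖uw k (p i)‖) * (‖tk k b 1‖ * X) ≤
      ∑ I ∈ (Finset.univ : Finset J).powerset,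
        (nm s * om * ∏ i ∈ I, (nm (p i) : ℝ)) * (if Tm s p I ∣ k then X else 0) := by
  have h0 : 0 ≤ ‖tk k b 1‖ * X := mul_nonneg (norm_nonneg _) hX
  refine (mul_le_mul_of_nonneg_right (prod_uw_le p k) h0).trans ?_
  rw [Finset.sum_mul]
  apply Finset.sum_le_sum
  intro I _
  rw [prod_ite_dvd I p (fun i => (nm (p i) : ℝ)) k (fun i _ j _ hij => hcop i j hij)]
  by_cases h1 : (∏ i ∈ I, p i ^ 2) ∣ k
  · rw [if_pos h1]
    by_cases h2 : s ∣ k
    · rw [if_pos h2] at ht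
      have hc : IsCoprime s (∏ i ∈ I, p i ^ 2) := by
        apply IsCoprime.prod_right
        intro i _
        apply IsCoprime.pow_right
        exact hsb _ (hb.of_isCoprime_of_dvd_right (Finset.dvd_prod_of_mem p (Finset.mem_univ i)))
      have h3 : Tm s p I ∣ k := hc.mul_dvd h2 h1
      rw [if_pos h3]
      have hN : 0 ≤ ∏ i ∈ I, (nm (p i) : ℝ) := Finset.prod_nonneg fun _ _ => by positivity
      calc (∏ i ∈ I, (nm (p i) : ℝ)) * (‖tk k b 1‖ * X)
          ≤ (∏ i ∈ I, (nm (p i) : ℝ)) * ((nm s * om) * X) := by gcongr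
        _ = _ := by ring
    · rw [if_neg h2] at ht
      have h4 : ‖tk k b 1‖ = 0 := le_antisymm ht (norm_nonneg _)
      have h3 : ¬ Tm s p I ∣ k := fun h => h2 ((Dvd.intro _ rfl).trans h)
      rw [h4, if_neg h3]; simp
  · have h3 : ¬ Tm s p I ∣ k := fun h => h1 ((Dvd.intro_left _ rfl).trans h)
    rw [if_neg h1, if_neg h3]; simp

end Crest.Agent.R017.Asm986
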