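import Crest.Agent.R017.NSb4_986

/-!
# Row 17, section B, leaf L3b, part 5: the natural bound `NatNP` from `NSExpLe`, `PowS` and D-OUT
-/

set_option autoImplicit false

noncomputable section

open scoped ComplexConjugate

namespace Crest.Agent.R017.Asm986

open Crest.Agent.R012 Crest.Agent.R012.Eis Crest.Agent.R012.PSer47
open Crest.Agent.R017.End699 Crest.Agent.R017.Sx545 Crest.Agent.R017.B770

lemma nm_nine_mul (T : Eis) : nm (9 * T) = 81 * nm T := by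
  have h9 : nm (9 : Eis) = 81 := by
    have : (9 : Eis) = ((9 : ℕ) : Eis) := by norm_num
    rw [this, nm_natCast]; norm_num
  rw [nm_mul, h9]

lemma one_le_nmR {x : Eis} (hx : x ≠ 0) : (1 : ℝ) ≤ nm x := by exact_mod_cast nm_pos.mpr hx

/-- the conductor bound -/
lemma cond_le {β y η Q₀ ε' : ℝ} (hβ : 1 ≤ β) (hy : 0 < y) (hη : 0 < η) (hQ₀ : 1 ≤ Q₀)
    (hε' : 0 ≤ ε') {M b c T : Eis} (hM : M ≠ 0) (hb : b ≠ 0) (hc : c ≠ 0)
    (hbc : (nm b : ℝ) * nm c ≤ β * Q₀) (hT : (nm T : ℝ) ≤ Q₀ ^ (1 / 2 + y + η)) :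
    ((nm (M * (M * b) * (9 * T)) : ℝ) * nm (M * (M * (b * c)) * (9 * T)) * Q₀) ^ ε' ≤
      ((81 * β) ^ 2) ^ ε' * ((nm M : ℝ) * Q₀) ^ ((4 + 2 * y + 2 * η) * ε') := by
  have hM1 := one_le_nmR hM
  have hb1 := one_le_nmR hb
  have hc1 := one_le_nmR hc
  have hQ0 : 0 < Q₀ := by linarith
  set e : ℝ := 1 / 2 + y + η with he
  have hnb : (nm b : ℝ) ≤ β * Q₀ := by nlinarith
  have hT0 : (0 : ℝ) ≤ nm T := by positivity
  have h1 : (nm (M * (M * b) * (9 * T)) : ℝ) * nm (M * (M * (b * c)) * (9 * T)) * Q₀ ≤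
      (81 * β) ^ 2 * ((nm M : ℝ) * Q₀) ^ (4 + 2 * y + 2 * η) := by
    simp only [nm_mul]
    push_cast
    calc (nm M : ℝ) * (nm M * nm b) * (81 * nm T) *
          (nm M * (nm M * (nm b * nm c)) * (81 * nm T)) * Q₀
        = 81 ^ 2 * (nm M : ℝ) ^ 4 * nm b * (nm b * nm c) * nm T ^ 2 * Q₀ := by ring
      _ ≤ 81 ^ 2 * (nm M : ℝ) ^ 4 * (β * Q₀) * (β * Q₀) * (Q₀ ^ e) ^ 2 * Q₀ := by gcongr
      _ = (81 * β) ^ 2 * ((nm M : ℝ) ^ 4 * Q₀ ^ (4 + 2 * y + 2 * η)) := by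
          have e1 : (Q₀ ^ e) ^ 2 = Q₀ ^ (2 * e) := by
            rw [← Real.rpow_mul_natCast hQ0.le]; congr 1; push_cast; ring
          have e2 : Q₀ ^ (4 + 2 * y + 2 * η) = Q₀ ^ (2 * e) * Q₀ ^ 3 := by
            rw [← Real.rpow_add_natCast hQ0.ne']; congr 1; rw [he]; push_cast; ring
          rw [e1, e2]; ring
      _ ≤ (81 * β) ^ 2 * ((nm M : ℝ) ^ (4 + 2 * y + 2 * η) * Q₀ ^ (4 + 2 * y + 2 * η)) := by
          gcongr
          calc (nm M : ℝ) ^ 4 = (nm M : ℝ) ^ (4 : ℝ) := by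
                rw [← Real.rpow_natCast]; norm_num
            _ ≤ _ := Real.rpow_le_rpow_of_exponent_le hM1 (by linarith)
      _ = _ := by rw [Real.mul_rpow (by positivity) (by positivity)]
  calc _ ≤ ((81 * β) ^ 2 * ((nm M : ℝ) * Q₀) ^ (4 + 2 * y + 2 * η)) ^ ε' := by
        gcongr
    _ = _ := by
        rw [Real.mul_rpow (by positivity) (by positivity), ← Real.rpow_mul (by positivity)]

open Classical in
/-- the bound for the inner sum over `k` -/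
theorem inner_bound {θ : ℝ} {r : ℕ} {y η β C A ε' : ℝ} (hβ1 : 1 ≤ β) (hy : 0 < y) (hη : 0 < η)
    (hC0 : 0 ≤ C) (hε' : 0 ≤ ε') {h V : ℝ → ℂ} (hβ : ∀ x, V x ≠ 0 → 0 < x ∧ x ≤ β) {l₁ l₂ : ℤ}
    (hC : ∀ (n₁ n₂ : Eis) (φ ψ : Eis → ℂ), HC n₁ φ → HC n₂ ψ →
      ∀ (Q₀ Q : ℝ), 0 < Q → Q ≤ Q₀ → 2 ≤ Q₀ → ∀ (J : Finset (Fin r)) (H : ℝ), 0 ≤ H →
      H ≤ Q₀ ^ (1 / 2 + y + η) → ∀ t₁ t₂ : ℝ,
      ∑ k ∈ (ball ⌊H⌋₊).filter (fun k => k ≠ 0 ∧ NPk n₁ φ l₁ k),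
        ‖Amp h r y Q₀ J (fun p => twt φ l₁ t₁ p * conj (sy k p))‖ *
          ‖MV V Q (fun b => twt ψ l₂ t₂ b * sy k b)‖ ≤
        C * ((nm n₁ : ℝ) * nm n₂ * Q₀) ^ ε' * (1 + |t₁| + |t₂|) ^ A * Tgt θ η r y Q₀ Q H J)
    {M : Eis} {φ ψ : Eis → ℂ} (hφ : HC M φ) (hψ : HC M ψ) {Q₀ Q : ℝ} (hQ : 0 < Q)
    (hQQ₀ : Q ≤ Q₀) (hQ₀ : 2 ≤ Q₀) (J : Finset (Fin r)) {H : ℕ}
    (hH : (H : ℝ) ≤ Q₀ ^ (1 / 2 + y + η)) (t₁ t₂ : ℝ) {b c T : Eis} (hb : b ≠ 0) (hc : c ≠ 0)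
    (hT : T ≠ 0) :
    ∑ k ∈ (ball H).filter (fun k => k ≠ 0 ∧ NPk M φ l₁ k), (if T ∣ k then
      ‖Amp h r y Q₀ J (fun q => twt φ l₁ t₁ q * prin0 b q * conj (sy k q))‖ *
        ‖MV V (Q / (nm b * nm c)) (fun q => twt ψ l₂ t₂ q * prin0 (M * b * c) q * sy k q)‖
        else 0) ≤
      C * (((81 * β) ^ 2) ^ ε' * ((nm M : ℝ) * Q₀) ^ ((4 + 2 * y + 2 * η) * ε')) *
        (1 + |t₁| + |t₂|) ^ A * Tgt θ η r y Q₀ (Q / (nm b * nm c)) (H / nm T) J := by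
  have hQ₀0 : 0 < Q₀ := by linarith
  have hb1 := one_le_nmR hb
  have hc1 := one_le_nmR hc
  have hT1 := one_le_nmR hT
  have hM1 := one_le_nmR hφ.q0
  have hQ' : 0 < Q / (nm b * nm c) := by positivity
  have hR0 : 0 ≤ C * (((81 * β) ^ 2) ^ ε' * ((nm M : ℝ) * Q₀) ^ ((4 + 2 * y + 2 * η) * ε')) *
        (1 + |t₁| + |t₂|) ^ A * Tgt θ η r y Q₀ (Q / (nm b * nm c)) (H / nm T) J := by
    have h2 := Tgt_nonneg (θ := θ) (η := η) (y := y) hQ₀0.le hQ'.le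
      (by positivity : (0 : ℝ) ≤ (H : ℝ) / nm T) J
    positivity
  by_cases h1 : β * (Q / (nm b * nm c)) < 1
  · refine (Finset.sum_nonpos fun k _ => ?_).trans hR0
    rw [MV_eq_zero hβ hQ' h1]; simp
  push Not at h1
  have hbc : (nm b : ℝ) * nm c ≤ β * Q₀ := by
    rw [mul_div_assoc', le_div_iff₀ (by positivity), one_mul] at h1
    exact h1.trans (by gcongr)
  set n₁ := M * (M * b) * (9 * T) with hn₁
  set n₂ := M * (M * (b * c)) * (9 * T) with hn₂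
  have hF1 : HC n₁ (mch φ (M * b) (fun q => conj (sy T q))) := hc_mch' hφ hb hT
  have hF2 : HC n₂ (mch ψ (M * (b * c)) (fun q => sy T q)) := hc_mch hψ (mul_ne_zero hb hc) hT
  have hsub := sum_dvd_le (H := (H : ℝ)) (N := H) hT (P := NPk M φ l₁)
    (P' := NPk n₁ (mch φ (M * b) (fun q => conj (sy T q))) l₁)
    (fun k hk hPk => npk_mch hφ hb hT hk hPk)
    (F := fun k => ‖Amp h r y Q₀ J (fun q => twt φ l₁ t₁ q * prin0 b q * conj (sy k q))‖ *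
        ‖MV V (Q / (nm b * nm c)) (fun q => twt ψ l₂ t₂ q * prin0 (M * b * c) q * sy k q)‖)
    (G' := fun k => ‖Amp h r y Q₀ J (fun q =>
        twt (mch φ (M * b) (fun q => conj (sy T q))) l₁ t₁ q * conj (sy k q))‖ *
        ‖MV V (Q / (nm b * nm c)) (fun q =>
          twt (mch ψ (M * (b * c)) (fun q => sy T q)) l₂ t₂ q * sy k q)‖)
    (fun k => by positivity)
    (fun k _ => by
      rw [amp_mch hφ, mul_assoc M b c, mv_mch])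
    le_rfl
  refine hsub.trans ?_
  by_cases h2 : (H : ℝ) / nm T < 1
  · refine (Finset.sum_nonpos fun k hk => ?_).trans hR0
    exfalso
    rw [Finset.mem_filter, mem_ball, Nat.floor_eq_zero.mpr h2] at hk
    have := nm_pos.mpr hk.2.1
    omega
  push Not at h2
  have hTle : (nm T : ℝ) ≤ Q₀ ^ (1 / 2 + y + η) := by
    rw [le_div_iff₀ (by linarith), one_mul] at h2
    exact h2.trans hH
  have hHT : (H : ℝ) / nm T ≤ Q₀ ^ (1 / 2 + y + η) :=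
    (div_le_self (by positivity) hT1).trans hH
  have key := hC n₁ n₂ _ _ hF1 hF2 Q₀ (Q / (nm b * nm c)) hQ'
    ((div_le_self hQ.le (by nlinarith)).trans hQQ₀) hQ₀ J ((H : ℝ) / nm T) (by positivity) hHT t₁ t₂
  refine key.trans ?_
  have hcond := cond_le (ε' := ε') hβ1 hy hη (by linarith : (1 : ℝ) ≤ Q₀) hε' hφ.q0 hb hc hbc hTle
  have h5 := Tgt_nonneg (θ := θ) (η := η) (y := y) hQ₀0.le hQ'.le
      (by positivity : (0 : ℝ) ≤ (H : ℝ) / nm T) J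
  gcongr

/-- the product of the norms of sub-amplifier and Möbius sum attached to `(J', p, b, k)` -/
def AMd (h V : ℝ → ℂ) (r : ℕ) (y Q₀ Q : ℝ) (J J' : Finset (Fin r)) (M : Eis) (f g : Eis → ℂ)
    (p : ∀ _ : J', Eis) (b k : Eis) : ℝ :=
  ‖Amp h r y Q₀ (J \ J') (fun q => g q * prin0 b q * conj (sy k q))‖ *
    ‖MV V (Q / (nm b * nm (∏ i : J', p i)))
      (fun q => f q * prin0 (M * b * ∏ i : J', p i) q * sy k q)‖

lemma AMd_nonneg (h V : ℝ → ℂ) (r : ℕ) (y Q₀ Q : ℝ) (J J' : Finset (Fin r)) (M : Eis)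
    (f g : Eis → ℂ) (p : ∀ _ : J', Eis) (b k : Eis) : 0 ≤ AMd h V r y Q₀ Q J J' M f g p b k :=
  mul_nonneg (norm_nonneg _) (norm_nonneg _)

lemma isChar_twt {M : Eis} {φ : Eis → ℂ} (hφ : HC M φ) (l : ℤ) (t : ℝ) : IsChar (twt φ l t) := by
  have h := (hφ.isChar_tw l).mul' (nmTwist_isChar t)
  have e : twt φ l t = fun b => End699.tw φ l b * (nm b : ℂ) ^ (t * Complex.I) := by
    funext b; unfold twt; rw [mul_comm Complex.I]
  rw [e]; exact h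

open Classical in
/-- the range of `b` -/
def Bf (M : Eis) (X : ℝ) : Finset Eis := (primBall ⌊X⌋₊).filter (fun b => Sm M b ∧ Pf b)

open Classical in
lemma mem_Bf {M : Eis} {X : ℝ} (hX : 0 ≤ X) {b : Eis} :
    b ∈ Bf M X ↔ ((nm b : ℝ) ≤ X ∧ IsPrim b) ∧ Sm M b ∧ Pf b := by
  unfold Bf
  rw [Finset.mem_filter, mem_primBall, Nat.le_floor_iff hX]

open Classical in
lemma tsum_to_sum {h V : ℝ → ℂ} {r : ℕ} {y Q₀ Q β : ℝ} (hβ : ∀ x, V x ≠ 0 → 0 < x ∧ x ≤ β)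
    (hβ0 : 0 ≤ β) (hQ : 0 < Q) {J J' : Finset (Fin r)} {M : Eis} {f g : Eis → ℂ}
    {p : ∀ _ : J', Eis} (hprod0 : (∏ i : J', p i) ≠ 0) (k : Eis) :
    ∑' b : Eis, (if Sm M b ∧ Pf b ∧ IsCoprime b (∏ i : J', p i) then
            ‖tk k b 1‖ *
              ‖Amp h r y Q₀ (J \ J') (fun q => g q * prin0 b q * conj (sy k q))‖ *
              ‖MV V (Q / (nm b * nm (∏ i : J', p i)))
                (fun q => f q * prin0 (M * b * ∏ i : J', p i) q * sy k q)‖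
            else 0) = ∑ b ∈ Bf M (β * Q), (if Sm M b ∧ Pf b ∧ IsCoprime b (∏ i : J', p i) then
            ‖tk k b 1‖ * AMd h V r y Q₀ Q J J' M f g p b k else 0) := by
  rw [tsum_eq_sum (s := Bf M (β * Q))]
  · refine Finset.sum_congr rfl fun b _ => ?_
    split_ifs
    · unfold AMd; ring
    · rfl
  · intro b hb
    split_ifs with hc
    · have hbp : IsPrim b := hc.1.prim
      have hb0 : b ≠ 0 := hbp.ne_zero
      have hb1 := one_le_nmR hb0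
      have hc1 := one_le_nmR hprod0
      have hgt : β * Q < nm b := by
        by_contra hle
        push Not at hle
        exact hb ((mem_Bf (by positivity)).mpr ⟨⟨hle, hbp⟩, hc.1, hc.2.1⟩)
      have hz := MV_eq_zero (Q := Q / (nm b * nm (∏ i : J', p i))) hβ (by positivity) (by
        rw [mul_div_assoc', div_lt_one (by positivity)]
        nlinarith) (fun q => f q * prin0 (M * b * ∏ i : J', p i) q * sy k q)
      rw [hz, norm_zero, mul_zero]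
    · rfl

open Classical in
/-- pointwise bound -/
theorem pt_bound (hE : NSExpLe) {S : Eis → Eis} {ω : Eis → ℝ} (hω : ∀ b, 0 ≤ ω b)
    (hSt : ∀ b, Sm 2 b → Pf b → IsPrim (S b) ∧ (∀ x, IsCoprime b x → IsCoprime (S b) x) ∧
      (∀ k, k ≠ 0 → ‖tk k b 1‖ ≤ if S b ∣ k then (nm (S b) : ℝ) * ω b else 0))
    {h V : ℝ → ℂ} (hh : HW h) (hV : SW V) {β : ℝ} (hβ : ∀ x, V x ≠ 0 → 0 < x ∧ x ≤ β)
    (hβ0 : 0 ≤ β) {r : ℕ} {y Q₀ Q : ℝ} (hr : 0 < r) (hy : 0 < y) (hQ₀1 : 1 ≤ Q₀) (hQ : 0 < Q)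
    (J : Finset (Fin r)) {M : Eis} {f g : Eis → ℂ} (h2M : (2 : Eis) ∣ M) (h3M : (3 : Eis) ∣ M)
    (hM0 : M ≠ 0) (hf : IsChar f) (hg : IsChar g) (hMQ : (nm M : ℝ) < Q₀ ^ (y / r) / 9)
    {k : Eis} (hk0 : k ≠ 0) :
    ‖NSum h r y Q₀ J M f g V Q k‖ ≤
      ∑ J' ∈ J.powerset, ∑ p ∈ tup r y Q₀ J',
        (∏ i : J', ‖h (Real.log (nm (p i)) - kap r y Q₀ i)‖) *
        ∑ b ∈ Bf M (β * Q), ∑ I ∈ (Finset.univ : Finset J').powerset,
          (nm (S b) * ω b * ∏ i ∈ I, (nm (p i) : ℝ)) *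
            (if Tm (S b) p I ∣ k then AMd h V r y Q₀ Q J J' M f g p b k else 0) := by
  refine (hE h hh V hV M f g h2M h3M hM0 hf hg r y Q₀ Q hr hy hQ₀1 hQ hMQ J k hk0).trans ?_
  refine Finset.sum_le_sum fun J' _ => Finset.sum_le_sum fun p hp => ?_
  rw [Finset.prod_mul_distrib, mul_assoc]
  by_cases hh0 : ∀ i : J', h (Real.log (nm (p i)) - kap r y Q₀ i) ≠ 0
  · apply mul_le_mul_of_nonneg_left _ (Finset.prod_nonneg fun _ _ => norm_nonneg _)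
    have hcop : ∀ i j : J', i ≠ j → IsCoprime (p i) (p j) := by
      intro i j hij
      exact coprime_of_ne hh (fun h' => hij (Subtype.ext h')) (isPP_of_mem_tup hp i)
        (isPP_of_mem_tup hp j) (hh0 i) (hh0 j)
    have hprod0 : (∏ i : J', p i) ≠ 0 :=
      Finset.prod_ne_zero_iff.mpr fun i _ => (isPP_of_mem_tup hp i).ne_zero
    rw [tsum_to_sum hβ hβ0 hQ hprod0 k, Finset.mul_sum]
    refine Finset.sum_le_sum fun b hb => ?_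
    rw [mem_Bf (by positivity)] at hb
    obtain ⟨hs1, hs2, hs3⟩ := hSt b (hb.2.1.mono h2M) hb.2.2
    split_ifs with hc
    · exact pointwise_le p hcop (AMd_nonneg _ _ _ _ _ _ _ _ _ _ _ _ _ _) hs2 hc.2.2 (hs3 k hk0)
    · rw [mul_zero]
      apply Finset.sum_nonneg
      intro I _
      have h1 := hω b
      have h2 := AMd_nonneg h V r y Q₀ Q J J' M f g p b k
      have h3 : 0 ≤ ∏ i ∈ I, (nm (p i) : ℝ) := Finset.prod_nonneg fun _ _ => by positivity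
      split_ifs <;> positivity
  · push Not at hh0
    obtain ⟨i, hi⟩ := hh0
    have hz : ∏ i : J', ‖h (Real.log (nm (p i)) - kap r y Q₀ i)‖ = 0 :=
      Finset.prod_eq_zero (Finset.mem_univ i) (by rw [hi, norm_zero])
    rw [hz, zero_mul, zero_mul]

open Classical in
/-- the sum over `k` of one term -/
theorem step2 {θ : ℝ} {r : ℕ} {y η β C A ε' : ℝ} (hθ : 5 / 6 ≤ θ) (hθ1 : θ ≤ 1) (hβ1 : 1 ≤ β)
    (hy : 0 < y) (hη : 0 < η) (hC0 : 0 ≤ C) (hε' : 0 ≤ ε') {h V : ℝ → ℂ} (hh : HW h)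
    (hβ : ∀ x, V x ≠ 0 → 0 < x ∧ x ≤ β) {l₁ l₂ : ℤ}
    (hC : ∀ (n₁ n₂ : Eis) (φ ψ : Eis → ℂ), HC n₁ φ → HC n₂ ψ →
      ∀ (Q₀ Q : ℝ), 0 < Q → Q ≤ Q₀ → 2 ≤ Q₀ → ∀ (J : Finset (Fin r)) (H : ℝ), 0 ≤ H →
      H ≤ Q₀ ^ (1 / 2 + y + η) → ∀ t₁ t₂ : ℝ,
      ∑ k ∈ (ball ⌊H⌋₊).filter (fun k => k ≠ 0 ∧ NPk n₁ φ l₁ k),
        ‖Amp h r y Q₀ J (fun p => twt φ l₁ t₁ p * conj (sy k p))‖ *
          ‖MV V Q (fun b => twt ψ l₂ t₂ b * sy k b)‖ ≤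
        C * ((nm n₁ : ℝ) * nm n₂ * Q₀) ^ ε' * (1 + |t₁| + |t₂|) ^ A * Tgt θ η r y Q₀ Q H J)
    {M : Eis} {φ ψ : Eis → ℂ} (hφ : HC M φ) (hψ : HC M ψ) {Q₀ Q : ℝ} (hQ : 0 < Q)
    (hQQ₀ : Q ≤ Q₀) (hQ₀ : 2 ≤ Q₀) (hP1 : 1 ≤ Q₀ ^ (y / r)) {J J' : Finset (Fin r)}
    (hJ' : J' ⊆ J) {H : ℕ}
    (hH : (H : ℝ) ≤ Q₀ ^ (1 / 2 + y + η)) (t₁ t₂ : ℝ) {p : ∀ _ : J', Eis}
    (hp : p ∈ tup r y Q₀ J') (hh0 : ∀ i : J', h (Real.log (nm (p i)) - kap r y Q₀ i) ≠ 0)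
    {b s : Eis} (hb0 : b ≠ 0) (hs0 : s ≠ 0) {om : ℝ} (hom : 0 ≤ om) (I : Finset J') :
    (nm s * om * ∏ i ∈ I, (nm (p i) : ℝ)) *
      ∑ k ∈ (ball H).filter (fun k => k ≠ 0 ∧ NPk M φ l₁ k), (if Tm s p I ∣ k then
        AMd h V r y Q₀ Q J J' M (twt ψ l₂ t₂) (twt φ l₁ t₁) p b k else 0) ≤
      (C * (((81 * β) ^ 2) ^ ε' * ((nm M : ℝ) * Q₀) ^ ((4 + 2 * y + 2 * η) * ε')) *
        (1 + |t₁| + |t₂|) ^ A) * ((3 * EE' r) ^ J'.card * (Q₀ ^ (y / r))⁻¹ ^ J'.card *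
        (om * ((nm b : ℝ) ^ (-(1 / 2) : ℝ) + (nm s : ℝ) ^ (5 / 6 : ℝ) * (nm b : ℝ) ^ (-θ)))) *
        Tgt θ η r y Q₀ Q H J := by
  have hQ₀0 : 0 < Q₀ := by linarith
  have hpi : ∀ i : J', p i ≠ 0 := fun i => (isPP_of_mem_tup hp i).ne_zero
  have hprod0 : (∏ i : J', p i) ≠ 0 := Finset.prod_ne_zero_iff.mpr fun i _ => hpi i
  have hT0 : Tm s p I ≠ 0 :=
    mul_ne_zero hs0 (Finset.prod_ne_zero_iff.mpr fun i _ => pow_ne_zero 2 (hpi i))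
  have hin := inner_bound (θ := θ) hβ1 hy hη hC0 hε' hβ hC hφ hψ hQ hQQ₀ hQ₀ (J \ J') hH
    t₁ t₂ hb0 hprod0 hT0
  rw [nm_Tm] at hin
  set P : ℝ := Q₀ ^ (y / r) with hP
  set N₁ : ℝ := ∏ i ∈ I, (nm (p i) : ℝ) with hN₁
  have hrange : ∀ i : J', P / 3 ≤ nm (p i) ∧ (nm (p i) : ℝ) ≤ EE' r * P := fun i =>
    range_of_ne' hh hQ₀0 i (hpi i) (hh0 i)
  have hEE := one_le_EE' r
  have hP0 : 0 < P := by linarith
  have hN₁1 : 1 ≤ N₁ := by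
    rw [hN₁]
    calc (1 : ℝ) = ∏ i ∈ I, (1 : ℝ) := by simp
      _ ≤ _ := Finset.prod_le_prod (fun _ _ => zero_le_one) (fun i _ => one_le_nmR (hpi i))
  have hN₁2 : N₁ ≤ (EE' r * P) ^ J'.card := by
    calc N₁ ≤ ∏ _i ∈ I, (EE' r * P) :=
          Finset.prod_le_prod (fun _ _ => by positivity) (fun i _ => (hrange i).2)
      _ = (EE' r * P) ^ I.card := by rw [Finset.prod_const]
      _ ≤ (EE' r * P) ^ J'.card := by
          apply pow_le_pow_right₀ (by nlinarith)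
          calc I.card ≤ (Finset.univ : Finset J').card := Finset.card_le_univ _
            _ = J'.card := by rw [Finset.card_univ, Fintype.card_coe]
  have hPi : (P / 3) ^ J'.card ≤ (nm (∏ i : J', p i) : ℝ) := by
    rw [nm_prod]
    push_cast
    calc (P / 3) ^ J'.card = ∏ _i : J', (P / 3) := by
          rw [Finset.prod_const, Finset.card_univ, Fintype.card_coe]
      _ ≤ _ := Finset.prod_le_prod (fun _ _ => by positivity) (fun i _ => (hrange i).1)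
  have hyr : 0 ≤ y / r := by positivity
  have hts := tgt_step (θ := θ) (η := η) (r := r) (y := y) (Q₀ := Q₀) (Q := Q) (H := (H : ℝ))
    hθ hθ1 (by linarith) hyr hQ.le (by positivity) hJ' (one_le_nmR hb0)
    (one_le_nmR hs0) hN₁1 hEE hN₁2 hPi
  set cst : ℝ := C * (((81 * β) ^ 2) ^ ε' * ((nm M : ℝ) * Q₀) ^ ((4 + 2 * y + 2 * η) * ε')) *
    (1 + |t₁| + |t₂|) ^ A with hcst
  have hcst0 : 0 ≤ cst := by positivity
  calc (nm s * om * N₁) * ∑ k ∈ (ball H).filter (fun k => k ≠ 0 ∧ NPk M φ l₁ k),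
        (if Tm s p I ∣ k then
          AMd h V r y Q₀ Q J J' M (twt ψ l₂ t₂) (twt φ l₁ t₁) p b k else 0)
      ≤ (nm s * om * N₁) * (cst * Tgt θ η r y Q₀ (Q / (nm b * nm (∏ i : J', p i)))
          (H / (nm s * N₁ ^ 2)) (J \ J')) := by
        have hX0 : 0 ≤ nm s * om * N₁ :=
          mul_nonneg (mul_nonneg (Nat.cast_nonneg _) hom) (zero_le_one.trans hN₁1)
        have hin' : ∑ k ∈ (ball H).filter (fun k => k ≠ 0 ∧ NPk M φ l₁ k),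
            (if Tm s p I ∣ k then
              AMd h V r y Q₀ Q J J' M (twt ψ l₂ t₂) (twt φ l₁ t₁) p b k else 0) ≤
            cst * Tgt θ η r y Q₀ (Q / (nm b * nm (∏ i : J', p i)))
              (H / (nm s * N₁ ^ 2)) (J \ J') := by
          unfold AMd
          exact hin
        exact mul_le_mul_of_nonneg_left hin' hX0
    _ = cst * om * (nm s * N₁ * Tgt θ η r y Q₀ (Q / (nm b * nm (∏ i : J', p i)))
          (H / (nm s * N₁ ^ 2)) (J \ J')) := by ring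
    _ ≤ cst * om * ((3 * EE' r) ^ J'.card * (Q₀ ^ (y / r))⁻¹ ^ J'.card *
      ((nm b : ℝ) ^ (-(1 / 2) : ℝ) + (nm s : ℝ) ^ (5 / 6 : ℝ) * (nm b : ℝ) ^ (-θ)) *
        Tgt θ η r y Q₀ Q H J) := mul_le_mul_of_nonneg_left hts (mul_nonneg hcst0 hom)
    _ = _ := by ring

end Crest.Agent.R017.Asm986
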