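import Crest.Agent.R017.NSb5_986

/-!
# Row 17, section B, leaf L3b, part 6: `NatNP` from `NSExpLe`, `PowS` and D-OUT
-/

set_option autoImplicit false

noncomputable section

open scoped ComplexConjugate

namespace Crest.Agent.R017.Asm986

open Crest.Agent.R012 Crest.Agent.R012.Eis Crest.Agent.R012.PSer47
open Crest.Agent.R017.End699 Crest.Agent.R017.Sx545 Crest.Agent.R017.B770

/-- the final summation -/
lemma final_sum {r : ℕ} {y Q₀ B X W D₀ : ℝ} {h : ℝ → ℂ} (hB : ∀ u, ‖h u‖ ≤ B) (hQ₀ : 0 < Q₀)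
    (hX : 0 ≤ X) (hW : 0 ≤ W) (hD₀1 : 1 ≤ D₀) (hD₀ : 108 * B * EE' r ^ 2 ≤ D₀)
    (J : Finset (Fin r)) :
    ∑ J' ∈ J.powerset, ∑ p ∈ tup r y Q₀ J',
      (∏ i : J', ‖h (Real.log (nm (p i)) - kap r y Q₀ i)‖) *
        (X * ((3 * EE' r) ^ J'.card * (Q₀ ^ (y / r))⁻¹ ^ J'.card * W) * 2 ^ J'.card) ≤
      2 ^ r * (D₀ ^ r * (W * X)) := by
  have hP0 : 0 < Q₀ ^ (y / r) := by positivity
  have hE := one_le_EE' r
  have hB0 : 0 ≤ B := (norm_nonneg _).trans (hB 0)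
  have h1 : ∀ J' ∈ J.powerset, ∑ p ∈ tup r y Q₀ J',
      (∏ i : J', ‖h (Real.log (nm (p i)) - kap r y Q₀ i)‖) *
        (X * ((3 * EE' r) ^ J'.card * (Q₀ ^ (y / r))⁻¹ ^ J'.card * W) * 2 ^ J'.card) ≤
      D₀ ^ r * (W * X) := by
    intro J' _
    rw [← Finset.sum_mul]
    have h2 := sum_tup_le (y := y) hB hQ₀ J'
    have h3 : J'.card ≤ r := by
      calc J'.card ≤ (Finset.univ : Finset (Fin r)).card := Finset.card_le_univ _
        _ = r := by simp
    calc _ ≤ (18 * B * EE' r * Q₀ ^ (y / r)) ^ J'.card *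
          (X * ((3 * EE' r) ^ J'.card * (Q₀ ^ (y / r))⁻¹ ^ J'.card * W) * 2 ^ J'.card) := by
          gcongr
      _ = (108 * B * EE' r ^ 2) ^ J'.card * (Q₀ ^ (y / r) * (Q₀ ^ (y / r))⁻¹) ^ J'.card *
          (W * X) := by
          rw [← mul_pow]
          calc _ = ((18 * B * EE' r * Q₀ ^ (y / r)) ^ J'.card * (3 * EE' r) ^ J'.card *
                ((Q₀ ^ (y / r))⁻¹) ^ J'.card * 2 ^ J'.card) * (W * X) := by ring
            _ = _ := by
                congr 1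
                rw [← mul_pow, ← mul_pow, ← mul_pow]
                congr 1
                ring
      _ = (108 * B * EE' r ^ 2) ^ J'.card * (W * X) := by
          rw [mul_inv_cancel₀ hP0.ne', one_pow, mul_one]
      _ ≤ D₀ ^ J'.card * (W * X) := by gcongr
      _ ≤ D₀ ^ r * (W * X) := by gcongr
  refine (Finset.sum_le_sum h1).trans ?_
  rw [Finset.sum_const, nsmul_eq_mul, Finset.card_powerset]
  have h4 : J.card ≤ r := by
    calc J.card ≤ (Finset.univ : Finset (Fin r)).card := Finset.card_le_univ _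
      _ = r := by simp
  push_cast
  have h5 : (2 : ℝ) ^ J.card ≤ 2 ^ r := pow_le_pow_right₀ (by norm_num) h4
  have h6 : 0 ≤ D₀ ^ r * (W * X) := by positivity
  exact mul_le_mul_of_nonneg_right h5 h6

open Classical in
/-- **L3b** -/
theorem natNP_of {θ : ℝ} {r : ℕ} {y η : ℝ} (hθ : 7 / 8 < θ) (hθ1 : θ ≤ 1) (hr : 0 < r)
    (hy : 0 < y) (hy1 : y < 1) (hη : 0 < η) (hE : NSExpLe) (hS : PowS θ)
    (hD : DOUTi θ r y η) : NatNP θ r y η := by
  intro h hh V hV l₁ l₂ ε hε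
  obtain ⟨β, hβ1, hβ⟩ := sw_bound hV
  obtain ⟨B, hB⟩ := hh.bounded
  have hB0 : 0 ≤ B := (norm_nonneg _).trans (hB 0)
  obtain ⟨S, ω, hω, hSt, hsum1, hsum2⟩ := hS
  have hB'0 : 0 < 4 + 2 * y + 2 * η := by positivity
  set ε' : ℝ := ε / (4 + 2 * y + 2 * η) with hε'
  have hε'0 : 0 < ε' := by positivity
  have hεe : (4 + 2 * y + 2 * η) * ε' = ε := by rw [hε']; field_simp
  obtain ⟨C, A, hC0, hA0, hC⟩ := dout_ext hθ1 hD hh hV l₁ l₂ hε'0
  set w : Eis → ℝ := fun b => (if Sm 2 b ∧ Pf b then ω b * (nm b : ℝ) ^ (-(1 / 2) : ℝ) else 0) +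
    (if Sm 2 b ∧ Pf b then (nm (S b) : ℝ) ^ (5 / 6 : ℝ) * ω b * (nm b : ℝ) ^ (-θ) else 0) with hw
  have hw0 : ∀ b, 0 ≤ w b := by
    intro b
    have := hω b
    simp only [hw]
    split_ifs <;> positivity
  have hwsum : Summable w := hsum1.add hsum2
  set W : ℝ := ∑' b, w b with hW
  have hW0 : 0 ≤ W := tsum_nonneg hw0
  set D₀ : ℝ := max 1 (108 * B * EE' r ^ 2) with hD₀
  have hD₀1 : 1 ≤ D₀ := le_max_left _ _
  refine ⟨2 ^ r * (D₀ ^ r * (W * (C * ((81 * β) ^ 2) ^ ε'))), A, by positivity, ?_⟩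
  intro M φ ψ h2M hφ hψ Q₀ Q hQ1 hQQ₀ hMQ J H hH1 hH t₁ t₂
  have hQ : 0 < Q := by linarith
  have hQ₀1 : 1 ≤ Q₀ := hQ1.trans hQQ₀
  have hQ₀0 : 0 < Q₀ := by linarith
  have hM1 := one_le_nmR hφ.q0
  have hyr : 0 < y / r := by positivity
  have hP9 : 9 < Q₀ ^ (y / r) := by linarith
  have hQ₀2 : 2 ≤ Q₀ := by
    by_contra hlt
    push Not at hlt
    have hr1 : (1 : ℝ) ≤ r := by exact_mod_cast hr
    have h1 : y / r ≤ 1 := by
      rw [div_le_one (by linarith)]; linarith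
    have h2 : Q₀ ^ (y / r) ≤ Q₀ := by
      calc Q₀ ^ (y / r) ≤ Q₀ ^ (1 : ℝ) := Real.rpow_le_rpow_of_exponent_le hQ₀1 h1
        _ = Q₀ := Real.rpow_one _
    linarith
  set Kf := (ball H).filter (fun k => k ≠ 0 ∧ NPk M φ l₁ k) with hKf
  set cst : ℝ := C * (((81 * β) ^ 2) ^ ε' * ((nm M : ℝ) * Q₀) ^ ((4 + 2 * y + 2 * η) * ε')) *
    (1 + |t₁| + |t₂|) ^ A with hcst
  have hcst0 : 0 ≤ cst := by positivity
  have hTT0 : 0 ≤ Tgt θ η r y Q₀ Q H J := Tgt_nonneg hQ₀0.le hQ.le (by positivity) J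
  have hE1 := one_le_EE' r
  have hP0 : 0 < Q₀ ^ (y / r) := by positivity
  -- the pointwise bound, summed and exchanged
  have h1 : ∑ k ∈ Kf, ‖NSum h r y Q₀ J M (twt ψ l₂ t₂) (twt φ l₁ t₁) V Q k‖ ≤
      ∑ J' ∈ J.powerset, ∑ p ∈ tup r y Q₀ J',
        (∏ i : J', ‖h (Real.log (nm (p i)) - kap r y Q₀ i)‖) *
        ∑ b ∈ Bf M (β * Q), ∑ I ∈ (Finset.univ : Finset J').powerset,
          (nm (S b) * ω b * ∏ i ∈ I, (nm (p i) : ℝ)) *
            ∑ k ∈ Kf, (if Tm (S b) p I ∣ k then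
              AMd h V r y Q₀ Q J J' M (twt ψ l₂ t₂) (twt φ l₁ t₁) p b k else 0) := by
    calc _ ≤ ∑ k ∈ Kf, ∑ J' ∈ J.powerset, ∑ p ∈ tup r y Q₀ J',
        (∏ i : J', ‖h (Real.log (nm (p i)) - kap r y Q₀ i)‖) *
        ∑ b ∈ Bf M (β * Q), ∑ I ∈ (Finset.univ : Finset J').powerset,
          (nm (S b) * ω b * ∏ i ∈ I, (nm (p i) : ℝ)) *
            (if Tm (S b) p I ∣ k then
              AMd h V r y Q₀ Q J J' M (twt ψ l₂ t₂) (twt φ l₁ t₁) p b k else 0) :=
          Finset.sum_le_sum fun k hk =>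
            pt_bound hE hω hSt hh hV hβ (by linarith) hr hy hQ₀1 hQ J h2M hφ.three hφ.q0
              (isChar_twt hψ _ _) (isChar_twt hφ _ _) hMQ (Finset.mem_filter.mp hk).2.1
      _ = _ := by
          rw [Finset.sum_comm]
          refine Finset.sum_congr rfl fun J' _ => ?_
          rw [Finset.sum_comm]
          refine Finset.sum_congr rfl fun p _ => ?_
          rw [← Finset.mul_sum, Finset.sum_comm]
          congr 1
          refine Finset.sum_congr rfl fun b _ => ?_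
          rw [Finset.sum_comm]
          refine Finset.sum_congr rfl fun I _ => ?_
          rw [Finset.mul_sum]
  refine h1.trans ?_
  -- bound of each tuple
  have h2 : ∀ J' ∈ J.powerset, ∀ p ∈ tup r y Q₀ J',
      (∏ i : J', ‖h (Real.log (nm (p i)) - kap r y Q₀ i)‖) *
        ∑ b ∈ Bf M (β * Q), ∑ I ∈ (Finset.univ : Finset J').powerset,
          (nm (S b) * ω b * ∏ i ∈ I, (nm (p i) : ℝ)) *
            ∑ k ∈ Kf, (if Tm (S b) p I ∣ k then
              AMd h V r y Q₀ Q J J' M (twt ψ l₂ t₂) (twt φ l₁ t₁) p b k else 0) ≤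
      (∏ i : J', ‖h (Real.log (nm (p i)) - kap r y Q₀ i)‖) *
        ((cst * Tgt θ η r y Q₀ Q H J) *
          ((3 * EE' r) ^ J'.card * (Q₀ ^ (y / r))⁻¹ ^ J'.card * W) * 2 ^ J'.card) := by
    intro J' hJ' p hp
    by_cases hh0 : ∀ i : J', h (Real.log (nm (p i)) - kap r y Q₀ i) ≠ 0
    · apply mul_le_mul_of_nonneg_left _ (Finset.prod_nonneg fun _ _ => norm_nonneg _)
      calc _ ≤ ∑ b ∈ Bf M (β * Q), ∑ I ∈ (Finset.univ : Finset J').powerset,
            cst * ((3 * EE' r) ^ J'.card * (Q₀ ^ (y / r))⁻¹ ^ J'.card * w b) *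
              Tgt θ η r y Q₀ Q H J := by
            refine Finset.sum_le_sum fun b hb => Finset.sum_le_sum fun I _ => ?_
            rw [mem_Bf (by positivity)] at hb
            have hb2 : Sm 2 b := hb.2.1.mono h2M
            obtain ⟨hs1, hs2, hs3⟩ := hSt b hb2 hb.2.2
            have hwb : ω b * ((nm b : ℝ) ^ (-(1 / 2) : ℝ) + (nm (S b) : ℝ) ^ (5 / 6 : ℝ) *
                (nm b : ℝ) ^ (-θ)) = w b := by
              simp only [hw]
              rw [if_pos ⟨hb2, hb.2.2⟩, if_pos ⟨hb2, hb.2.2⟩]; ring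
            have := step2 (θ := θ) (by linarith) hθ1 hβ1 hy hη hC0 hε'0.le hh hβ hC hφ hψ hQ
              hQQ₀ hQ₀2 (by linarith) (Finset.mem_powerset.mp hJ') hH t₁ t₂ hp hh0 hb2.ne_zero
              hs1.ne_zero (hω b) I
            rw [hwb] at this
            exact this
        _ = (cst * ((3 * EE' r) ^ J'.card * (Q₀ ^ (y / r))⁻¹ ^ J'.card) *
              Tgt θ η r y Q₀ Q H J * 2 ^ J'.card) * ∑ b ∈ Bf M (β * Q), w b := by
            rw [Finset.mul_sum]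
            refine Finset.sum_congr rfl fun b _ => ?_
            rw [Finset.sum_const, nsmul_eq_mul, Finset.card_powerset, Finset.card_univ,
              Fintype.card_coe]
            push_cast
            ring
        _ ≤ (cst * ((3 * EE' r) ^ J'.card * (Q₀ ^ (y / r))⁻¹ ^ J'.card) *
              Tgt θ η r y Q₀ Q H J * 2 ^ J'.card) * W := by
            apply mul_le_mul_of_nonneg_left (hwsum.sum_le_tsum _ fun b _ => hw0 b)
            positivity
        _ = _ := by ring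
    · push Not at hh0
      obtain ⟨i, hi⟩ := hh0
      have hz : ∏ i : J', ‖h (Real.log (nm (p i)) - kap r y Q₀ i)‖ = 0 :=
        Finset.prod_eq_zero (Finset.mem_univ i) (by rw [hi, norm_zero])
      rw [hz, zero_mul, zero_mul]
  refine (Finset.sum_le_sum fun J' hJ' => Finset.sum_le_sum fun p hp => h2 J' hJ' p hp).trans ?_
  refine (final_sum hB hQ₀0 (mul_nonneg hcst0 hTT0) hW0 hD₀1 (le_max_right _ _) J).trans ?_
  apply le_of_eq
  rw [hcst, hεe]
  ring

end Crest.Agent.R017.Asm986
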