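import Crest.Agent.R017.NSqX_791
import Crest.Agent.R017.NEd_180

/-!
# Row 17, FlatNE (helper791): helper180's `NumSq` (square at the second scale) from one line

* `SqhLn`     : what the line of the second scale is used for
* `nsqh_core` : the numbers from the line, free exponents
* `nsqhX_core` : the same for `xs` (exceptional class)
-/

set_option autoImplicit false
set_option maxHeartbeats 400000

noncomputable section

open Complex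
open scoped ComplexConjugate

namespace Crest.Agent.R017.SqB791

open Crest.Agent.R012 Crest.Agent.R012.Eis Crest.Agent.R012.LS2 Crest.Agent.R012.Gauss880
open Crest.Agent.R012.MC (Wgt)
open Crest.Agent.R012.Weight600 (osc pw)
open Crest.Agent.R017.CM106 Crest.Agent.R017.FE47
open Crest.Agent.R017.B770
open Crest.Agent.R017.Prov71
open Crest.Agent.R017.HP842 (sqc)
open Crest.Agent.R017.XP699 (LL Chd cst hcost)
open Crest.Agent.R017.Leg381 (Pf alF LF natl)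
open Crest.Agent.R017.Win813 (WK)
open Crest.Agent.R017.RGw813 (bt T9)
open Crest.Agent.R017.RG64 (SbL Ht one_le_Ht)
open Crest.Agent.R017.LBu180 (SqQ)
open Crest.Agent.R017.RlB791
open Crest.Agent.R017.RGB545 (Line Th TK)
open Crest.Agent.R017.XPD571 (RF0 RX)
open Crest.Agent.R017.RXk848 (LnP Lmp)
open Crest.Agent.R017.RX298 (xs rpB Lg)
open Crest.Agent.R017.RGB545 (rbx)
open Crest.Agent.R012.T411 (NCube)
open Crest.Agent.R017.NEc180 (NumSq)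

variable {Lam ι : Type*} {d : ℕ}

/-- what the line of the second scale is used for -/
structure SqhLn (Ψ : Lam → ℝ → List Pq → ℝ) (hh : ℝ → ℝ → ℝ → ℝ) (L : Line Lam d) : Prop where
  Φ : ∀ lam l β ps, Ψ lam l ps ≤ L.Φ lam l β ps
  G : ∀ x θ, L.G x θ ≤ max (x 3 - (x 0 - hh (x 0) (x 1) (x 2))) (x 4 - x 2)
  F : ∀ x θ, L.F x θ ≤ -((x 0 - x 3) / 3 + (x 2 - x 4) + (x 1 + x 2 - 2 * x 0) / 3)
  zl : ¬ L.zl

/-- **the premises of the lines give `LineB`**, second scale -/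
theorem lineB_of_LnPh {Q : Lam → Eis → Prop} {π : Lam → DPar} {h : ℝ → ℝ} {L : ι → Line Lam d}
    {j : ι} {hh : ℝ → ℝ → ℝ → ℝ} (HL : SqhLn (RX Q π h) hh (L j)) {lam : Lam}
    {K ε M r bm X n₁ v₁ Bd : ℝ}
    {base : List Pq} (hX : 3 ≤ X) (hK : 0 ≤ K) (hBd : 0 ≤ Bd)
    (H : LnP L lam K ε M r bm X n₁ v₁ Bd base) {ε₁ K' : ℝ} (h1 : ε₁ ≤ ε)
    (h2 : ε₁ ≤ 1) (hK' : K' ≤ K - hh K v₁ n₁) (hKK : K' ≤ K) :
    LineB (Q lam) (π lam) h X r bm ε₁ M K' ((K' + 2 * K + ε₁) / 3) Bd base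
      (n₁ * Real.log X) := by
  intro l ps' hl0 hl hch hLL
  have hX0 : 0 < X := by linarith
  have hX1 : 1 < X := by linarith
  have hl : l ≤ (K' + ε₁) * Real.log X := hl
  have hlX : 0 < Real.log X := Real.log_pos hX1
  have hTK : 0 ≤ TK K := by unfold RGB545.TK; positivity
  have key := H j ⟨0, by
      constructor
      · exact le_rfl
      · intro i; exact hTK⟩ l ps' hl0 (by
      refine hl.trans (mul_le_mul_of_nonneg_right ?_ hlX.le)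
      unfold RGB545.TK
      linarith) hch (by nlinarith) (by
      refine (HL.G _ _).trans (max_le ?_ ?_)
      · show l / Real.log X - (K - hh K v₁ n₁) ≤ ε
        have : l / Real.log X ≤ K' + ε₁ := by rw [div_le_iff₀ hlX]; exact hl
        linarith
      · show LL Dq ps' / Real.log X - n₁ ≤ ε
        have : LL Dq ps' / Real.log X ≤ n₁ + ε₁ := by
          rw [div_le_iff₀ hlX]
          linarith
        linarith) (fun hz => absurd hz HL.zl)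
  refine ((HL.Φ lam l _ ps').trans key).trans ?_
  have hcs : 0 ≤ cst hcost ps' base ^ M :=
    Real.rpow_nonneg (by linarith [one_le_cst ps' base]) _
  refine mul_le_mul_of_nonneg_left (Real.rpow_le_rpow_of_exponent_le hX1.le ?_) (by positivity)
  have h3 := HL.F ![K, v₁, n₁, l / Real.log X, LL Dq ps' / Real.log X] 0
  have h4 : (L j).F ![K, v₁, n₁, l / Real.log X, LL Dq ps' / Real.log X] 0 ≤
      -((K - l / Real.log X) / 3 + (n₁ - LL Dq ps' / Real.log X) + (v₁ + n₁ - 2 * K) / 3) := h3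
  have h5 : l / Real.log X ≤ K' + ε₁ := by rw [div_le_iff₀ hlX]; exact hl
  linarith

/-- the final inequality, second scale `h = 3 y` -/
lemma nsqh_final {X K y ε₁ ε C J₀ M H Bd Lf T : ℝ} {Jn : ℕ} (hX : 3 ≤ X) (hC : 0 ≤ C)
    (hε : ε₁ + ε₁ / 3 ≤ ε) (hH : 1 ≤ H) (hJ : M ≤ J₀) (hBd : 0 ≤ Bd) :
    (X ^ (K - 3 * y) / Real.exp Lf) * ((C * X ^ ε₁ * H ^ M * Bd *
      (X ^ ((K - 3 * y + 2 * K + ε₁) / 3) * Real.exp (2 * Lf) / X ^ (K - 3 * y))) *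
        (1 + |T|) ^ Jn) ≤
    (X ^ K / Real.exp Lf) * (X ^ (-y) * (C * X ^ ε * H ^ J₀ * Bd * Real.exp (2 * Lf)) *
      (1 + |T|) ^ Jn) := by
  have hX0 : 0 < X := by linarith
  have hX1 : 1 ≤ X := by linarith
  have e3 : X ^ ε₁ * X ^ ((K - 3 * y + 2 * K + ε₁) / 3) ≤ X ^ ε * (X ^ (-y) * X ^ K) := by
    rw [← Real.rpow_add hX0, ← Real.rpow_add hX0, ← Real.rpow_add hX0]
    refine Real.rpow_le_rpow_of_exponent_le hX1 ?_
    linarith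
  have e4 : H ^ M ≤ H ^ J₀ := Real.rpow_le_rpow_of_exponent_le hH hJ
  have hT : 0 ≤ (1 + |T|) ^ Jn := pow_nonneg (by positivity) _
  have hEx : 0 < Real.exp Lf := Real.exp_pos _
  have hKp : 0 < X ^ (K - 3 * y) := Real.rpow_pos_of_pos hX0 _
  calc _ = (X ^ ε₁ * X ^ ((K - 3 * y + 2 * K + ε₁) / 3)) * H ^ M *
        (C * Bd * (Real.exp (2 * Lf) / Real.exp Lf) * (1 + |T|) ^ Jn) := by
          field_simp
    _ ≤ (X ^ ε * (X ^ (-y) * X ^ K)) * H ^ J₀ *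
        (C * Bd * (Real.exp (2 * Lf) / Real.exp Lf) * (1 + |T|) ^ Jn) := by gcongr
    _ = _ := by
          field_simp

/-- **the square at the second scale `K e ^ (-3 y log X)`** (flagged lists), core -/
theorem nsqh_core {π : Lam → DPar} (hP : ∀ lam, (π lam).OK) {h : ℝ → ℝ} {c₁ : ℝ} (hpu : PU h c₁)
    {w : ℝ → ℝ} (hw : Wgt w) (hw0 : ∀ x, 0 ≤ w x) {L : ι → Line Lam d} {j : ι}
    {K : ℝ} {hh : ℝ → ℝ → ℝ → ℝ} (hK : 0 ≤ K) (HL : SqhLn (RF0 π h) hh (L j))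
    (lam : Lam) (N : ℕ) {c₀ : ℝ} (hc₀ : 1 ≤ c₀) {ε M : ℝ} (hε : 0 < ε) (hM : 0 ≤ M) :
    ∃ J₀ δ₀ : ℝ, 0 ≤ J₀ ∧ 0 < δ₀ ∧ ∀ (δ : ℝ) (Jn Aw : ℕ) (Cw R η S : ℝ), 0 ≤ δ → δ ≤ δ₀ →
    J₀ ≤ Jn → Jn + 2 ≤ Aw → 0 ≤ Cw → 0 ≤ R → 0 < η → η ≤ 1 / 2 → 0 ≤ S →
    ∃ C r X₁ : ℝ, 0 ≤ C ∧ 0 ≤ r ∧ ∀ X : ℝ, 3 ≤ X → X₁ ≤ X → ∀ ps₀ : List Pq, ps₀.length ≤ N →
    (∀ q ∈ ps₀, 0 ≤ Dq.len q ∧ Dq.len q ≤ c₀ * Real.log X) →
    ∀ (q : Eis) (ps : List Pf) (Lv : ℝ), IsPrim q → (nm q : ℝ) ≤ X ^ c₀ → SbL S ps ps₀ →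
    ∀ Bd : ℝ, 1 ≤ Bd →
    LnP L lam K ε M r (C * X ^ c₀) X (LF ps / Real.log X) (Lv / Real.log X) Bd ps₀ →
    ∀ b₀ bβ : ℝ, b₀ ≤ bβ → 3 * (bβ - b₀) ≤ K →
    hh K (Lv / Real.log X) (LF ps / Real.log X) ≤ 3 * (bβ - b₀) → ∀ Q : Eis → Prop,
    NumSq w Q Cw η Aw (X ^ K) (Real.exp (LF ps)) R Jn (3 * Real.log (X ^ bβ / X ^ b₀))
      (sqc q (alF (X ^ δ) (X ^ δ) (π lam) h ps))
      (Real.exp (-Real.log (X ^ bβ / X ^ b₀)) *
        (C * X ^ ε * (Ht ps * Ht (natl ps₀)) ^ J₀ * Bd * Real.exp (2 * LF ps))) := by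
  obtain ⟨ε₁, hε₁⟩ : ∃ x : ℝ, x = min (ε / 2) 1 := ⟨_, rfl⟩
  have hε₁0 : 0 < ε₁ := by rw [hε₁]; exact lt_min (by linarith) one_pos
  have hε₁a : ε₁ ≤ ε / 2 := by rw [hε₁]; exact min_le_left _ _
  have hε₁b : ε₁ ≤ 1 := by rw [hε₁]; exact min_le_right _ _
  obtain ⟨J₀, δ₀, hJ₀, hδ₀, G⟩ := sq_leaf hpu hw N hc₀ hε₁0 hM
  refine ⟨max J₀ M, δ₀, hJ₀.trans (le_max_left _ _), hδ₀, ?_⟩
  intro δ Jn Aw Cw R η S hδ0 hδ hJn hAw hCw hR hη hη1 hS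
  obtain ⟨C, r, X₁, hC, hr, G⟩ := G δ Jn Aw Cw R η S hδ0 hδ ((le_max_left _ _).trans hJn) hAw hCw
    hη (hη1.trans (by norm_num)) hS
  refine ⟨C, r, X₁, hC, hr, ?_⟩
  intro X hX3 hXX ps₀ hlen hz q ps Lv hq hqX hps Bd hBd hlnp b₀ bβ hb hbK hhb Q
  have hX0 : 0 < X := by linarith
  have hX1 : 1 < X := by linarith
  have hlX : 0 < Real.log X := Real.log_pos hX1
  obtain ⟨y, hy⟩ : ∃ y : ℝ, y = bβ - b₀ := ⟨_, rfl⟩
  rw [← hy] at hbK hhb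
  have hy0 : 0 ≤ y := by rw [hy]; linarith
  have hline := lineB_of_LnPh (K' := K - 3 * y) HL hX3 hK (by linarith : 0 ≤ Bd) hlnp
    (by linarith : ε₁ ≤ ε) hε₁b (by linarith) (by linarith)
  rw [log_mul_div hX3] at hline
  have eB : Real.log (X ^ bβ / X ^ b₀) = y * Real.log X := by
    rw [← Real.rpow_sub hX0, Real.log_rpow hX0, hy]
  have eK : X ^ K * Real.exp (-(3 * (y * Real.log X))) = X ^ (K - 3 * y) := by
    rw [Real.rpow_def_of_pos hX0, Real.rpow_def_of_pos hX0, ← Real.exp_add]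
    congr 1
    ring
  have ey : Real.exp (-(y * Real.log X)) = X ^ (-y) := by
    rw [Real.rpow_def_of_pos hX0]
    congr 1
    ring
  rw [eB, ey]
  intro p hp t X' φ hX' hXX' hWK hφs
  have key := G X hX3 hXX (π lam) (hP lam) ps₀ hlen (fun q hq => (hz q hq).2) q ps hq.ne_zero
    hqX hps (fun _ _ => True) (fun k => k ≠ 0)
    (fun p _ k hk _ => mul_ne_zero hk.ne_zero (pow_ne_zero _
      (mul_ne_zero (pow_ne_zero _ isUnit_w.ne_zero) (pow_ne_zero _ lam_ne_zero)))) (K - 3 * y) _ Bd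
    (by linarith) (by linarith) hline p hp t X' φ hX' hXX' hWK hφs
  have hH : 1 ≤ Ht ps * Ht (natl ps₀) :=
    one_le_mul_of_one_le_of_one_le (one_le_Ht _) (one_le_Ht _)
  have fin := nsqh_final (K := K) (y := y) (Lf := LF ps) (T := t) (Jn := Jn) hX3 hC
    (by linarith : ε₁ + ε₁ / 3 ≤ ε) hH (le_max_right J₀ M) (by linarith : 0 ≤ Bd)
  have hKp : 0 < X ^ (K - 3 * y) := Real.rpow_pos_of_pos hX0 _
  rw [eK]
  exact ((LBW180.SqQ_mono hw hw0 hKp (fun _ _ _ _ => trivial) _).trans key).trans fin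

/-- **the square at the second scale** (exceptional class), core -/
theorem nsqhX_core {π : Lam → DPar} (hP : ∀ lam, (π lam).OK) {h : ℝ → ℝ} {c₁ : ℝ} (hpu : PU h c₁)
    {w : ℝ → ℝ} (hw : Wgt w) {L : ι → Line Lam d} {j : ι}
    {K d₀ : ℝ} {hh : ℝ → ℝ → ℝ → ℝ} (hK : 0 ≤ K) (hd₀ : 0 ≤ d₀)
    (HL : SqhLn (RX (fun _ k => NCube k) π h) hh (L j))
    (lam : Lam) (N : ℕ) {c₀ : ℝ} (hc₀ : 1 ≤ c₀) {ε M : ℝ} (hε : 0 < ε) (hM : 0 ≤ M) :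
    ∃ J₀ δ₀ : ℝ, 0 ≤ J₀ ∧ 0 < δ₀ ∧ ∀ (δ : ℝ) (Jn Aw : ℕ) (Cw R η S : ℝ), 0 ≤ δ → δ ≤ δ₀ →
    J₀ ≤ Jn → Jn + 2 ≤ Aw → 0 ≤ Cw → 0 ≤ R → 0 < η → η ≤ 1 / 2 → 0 ≤ S →
    ∃ C r X₁ : ℝ, 0 ≤ C ∧ 0 ≤ r ∧ ∀ X : ℝ, 3 ≤ X → X₁ ≤ X → ∀ ps₀ : List Pq, ps₀.length ≤ N →
    (∀ q ∈ ps₀, 0 ≤ Dq.len q ∧ Dq.len q ≤ c₀ * Real.log X) → Lmp (d₀ * Real.log X) ps₀ →
    ∀ (q : Eis) (ps : List Pf) (Lv : ℝ), IsPrim q → (nm q : ℝ) ≤ X ^ c₀ → SbL S ps ps₀ →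
    Lg (d₀ * Real.log X) ps → ∀ Bd : ℝ, 1 ≤ Bd →
    (∀ t : Bool, LnP L lam K ε M r (C * X ^ (2 * c₀)) X (LF ps / Real.log X) (Lv / Real.log X) Bd
      (rbx d₀ t X ps₀)) →
    ∀ b₀ bβ : ℝ, b₀ ≤ bβ → 3 * (bβ - b₀) ≤ K →
    hh K (Lv / Real.log X) (LF ps / Real.log X) ≤ 3 * (bβ - b₀) → ∀ Q : Eis → Prop,
    (∀ p ∈ T9, ∀ k, IsPrim k → Q k → NCube (k * (Eis.w ^ p.1 * Eis.lam ^ p.2) ^ 2)) →
    NumSq w Q Cw η Aw (X ^ K) (Real.exp (LF ps)) R Jn (3 * Real.log (X ^ bβ / X ^ b₀))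
      (xs q (X ^ δ) (X ^ δ) (π lam) h (d₀ * Real.log X) ps)
      (Real.exp (-Real.log (X ^ bβ / X ^ b₀)) *
        (C * X ^ ε * (Ht ps * Ht (natl ps₀)) ^ J₀ * Bd * Real.exp (2 * LF ps))) := by
  obtain ⟨ε₁, hε₁⟩ : ∃ x : ℝ, x = min (ε / 2) 1 := ⟨_, rfl⟩
  have hε₁0 : 0 < ε₁ := by rw [hε₁]; exact lt_min (by linarith) one_pos
  have hε₁a : ε₁ ≤ ε / 2 := by rw [hε₁]; exact min_le_left _ _
  have hε₁b : ε₁ ≤ 1 := by rw [hε₁]; exact min_le_right _ _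
  obtain ⟨J₀, δ₀, hJ₀, hδ₀, G⟩ := sq_leafX hpu hw N (by linarith : (1 : ℝ) ≤ 2 * c₀) hε₁0 hM
  refine ⟨max J₀ M, δ₀, hJ₀.trans (le_max_left _ _), hδ₀, ?_⟩
  intro δ Jn Aw Cw R η S hδ0 hδ hJn hAw hCw hR hη hη1 hS
  obtain ⟨C, r, X₁, hC, hr, G⟩ := G δ Jn Aw Cw R η S hδ0 hδ ((le_max_left _ _).trans hJn) hAw hCw
    hη (hη1.trans (by norm_num)) hS
  refine ⟨C, r, X₁, hC, hr, ?_⟩
  intro X hX3 hXX ps₀ hlen hz hLm q ps Lv hq hqX hps hLg Bd hBd hprem b₀ bβ hb hbK hhb Q hQ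
  have hX0 : 0 < X := by linarith
  have hX1 : 1 < X := by linarith
  have hlX : 0 < Real.log X := Real.log_pos hX1
  have hc₂c : c₀ ≤ 2 * c₀ := by linarith
  have hD : 0 ≤ d₀ * Real.log X := by positivity
  have hzr := len_rpB hD hz hLm (by positivity)
  have hp0 := hprem false
  have hp1 := hprem true
  have er0 : rbx d₀ false X ps₀ = ps₀ := by unfold RGB545.rbx; simp
  have er1 : rbx d₀ true X ps₀ = rpB (d₀ * Real.log X) ps₀ := by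
    rw [RHX116.rpB_eq]; unfold RGB545.rbx; simp
  rw [er0] at hp0
  rw [er1] at hp1
  obtain ⟨y, hy⟩ : ∃ y : ℝ, y = bβ - b₀ := ⟨_, rfl⟩
  rw [← hy] at hbK hhb
  have hy0 : 0 ≤ y := by rw [hy]; linarith
  have hline := lineB_of_LnPh (K' := K - 3 * y) HL hX3 hK (by linarith : 0 ≤ Bd) hp0
    (by linarith : ε₁ ≤ ε) hε₁b (by linarith) (by linarith)
  have hline' := lineB_of_LnPh (K' := K - 3 * y) HL hX3 hK (by linarith : 0 ≤ Bd) hp1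
    (by linarith : ε₁ ≤ ε) hε₁b (by linarith) (by linarith)
  rw [log_mul_div hX3] at hline hline'
  have eB : Real.log (X ^ bβ / X ^ b₀) = y * Real.log X := by
    rw [← Real.rpow_sub hX0, Real.log_rpow hX0, hy]
  have eK : X ^ K * Real.exp (-(3 * (y * Real.log X))) = X ^ (K - 3 * y) := by
    rw [Real.rpow_def_of_pos hX0, Real.rpow_def_of_pos hX0, ← Real.exp_add]
    congr 1
    ring
  have ey : Real.exp (-(y * Real.log X)) = X ^ (-y) := by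
    rw [Real.rpow_def_of_pos hX0]
    congr 1
    ring
  rw [eB, ey]
  intro p hp t X' φ hX' hXX' hWK hφs
  have key := G X hX3 hXX (π lam) (hP lam) ps₀ hlen
    (fun q hq => (hz q hq).2.trans (mul_le_mul_of_nonneg_right hc₂c hlX.le))
    (d₀ * Real.log X) hD (fun q hq => (hzr q hq).trans (by rw [← mul_assoc])) q ps hq.ne_zero
    (hqX.trans (Real.rpow_le_rpow_of_exponent_le hX1.le hc₂c)) hps hLg
    (fun _ => Q) (fun k => NCube k) hQ (K - 3 * y) _ Bd (by linarith)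
    (by linarith) hline hline' p hp t X' φ hX' hXX' hWK hφs
  have hH : 1 ≤ Ht ps * Ht (natl ps₀) :=
    one_le_mul_of_one_le_of_one_le (one_le_Ht _) (one_le_Ht _)
  have fin := nsqh_final (K := K) (y := y) (Lf := LF ps) (T := t) (Jn := Jn) hX3 hC
    (by linarith : ε₁ + ε₁ / 3 ≤ ε) hH (le_max_right J₀ M) (by linarith : 0 ≤ Bd)
  rw [eK]
  exact key.trans fin

end Crest.Agent.R017.SqB791
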