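import Crest.Agent.R017.NSqh_791
import Crest.Agent.R017.NEk_551

/-!
# Row 17, FlatNE (helper791): the square at the second scale at the near leaf (class N)

* `NSqh`      : helper180's `NumSq` at `h = 3 log (B / E0)`, bound `exp (-h / 3) * Rn`
* `nsqh_leaf` : `NLeaf π h (NSqh w Qf) L φ₀ φ₁ φβ K v c`
-/

set_option autoImplicit false
set_option maxHeartbeats 400000

noncomputable section

open Complex
open scoped ComplexConjugate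

namespace Crest.Agent.R017.SqB791

open Crest.Agent.R012 Crest.Agent.R012.Eis Crest.Agent.R012.LS2 Crest.Agent.R012.Gauss880
open Crest.Agent.R012.MC (Wgt)
open Crest.Agent.R017.CM106 Crest.Agent.R017.FE47
open Crest.Agent.R017.B770
open Crest.Agent.R017.Prov71
open Crest.Agent.R017.XP699 (LL Chd cst hcost)
open Crest.Agent.R017.Leg381 (Pf alF LF natl)
open Crest.Agent.R017.RG64 (SbL Ht one_le_Ht)
open Crest.Agent.R017.RGB545 (Line Th TK)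
open Crest.Agent.R017.XPD571 (RF0 RX)
open Crest.Agent.R017.NEg551 (LBq NLeaf NNum NFacts NTc)
open Crest.Agent.R017.NEc180 (NumSq)

variable {Lam ι : Type*} {d : ℕ}

/-- the square at the second scale over the `k` in `Qf p`, `h = 3 log (B / E0)`, size
`exp (-h / 3) * Rn` -/
def NSqh (w : ℝ → ℝ) (Qf : LBq → Eis → Prop) (p : LBq) (α : Eis → ℂ) (Rn : ℝ) : Prop :=
  NumSq w (Qf p) p.Cw p.η p.Aw p.K p.X p.R p.J (3 * Real.log (p.B / p.E0)) α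
    (Real.exp (-Real.log (p.B / p.E0)) * Rn)

/-- the numbers of the near leaf: the second scale stays above `1` -/
lemma range_h {K c ε X : ℝ} {φ₀ φβ : ℝ → ℝ → ℝ → ℝ} {ps₀ : List Pq} {Lf u : ℝ} (hX : 3 ≤ X)
    (hec : ε ≤ c) (hφ₀ : ∀ a u m, 0 ≤ φ₀ a u m) (hφ : ∀ a u m, φ₀ a u m ≤ φβ a u m)
    (hφK : ∀ a u m, 5 * a ≤ 4 * K + c → m ≤ a + c → 5 * φβ a u m ≤ K)
    (hnK : 5 * LL Dq ps₀ ≤ (4 * K + ε) * Real.log X) (hhi : Lf ≤ LL Dq ps₀ + ε * Real.log X) :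
    3 * (φβ (LL Dq ps₀ / Real.log X) u (Lf / Real.log X) -
      φ₀ (LL Dq ps₀ / Real.log X) u (Lf / Real.log X)) ≤ K := by
  have hlX : 0 < Real.log X := Real.log_pos (by linarith)
  have ha5 : 5 * (LL Dq ps₀ / Real.log X) ≤ 4 * K + c := by
    have h1 : LL Dq ps₀ / Real.log X ≤ (4 * K + ε) / 5 := by
      rw [div_le_iff₀ hlX]; linarith
    linarith
  have hma : Lf / Real.log X ≤ LL Dq ps₀ / Real.log X + c := by
    have h1 : Lf / Real.log X ≤ LL Dq ps₀ / Real.log X + ε := by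
      rw [div_add' _ _ _ hlX.ne']
      exact div_le_div_of_nonneg_right hhi hlX.le
    linarith
  have h1 := hφK _ u _ ha5 hma
  have h2 := hφ₀ (LL Dq ps₀ / Real.log X) u (Lf / Real.log X)
  have h3 := hφ (LL Dq ps₀ / Real.log X) u (Lf / Real.log X)
  linarith

/-- **the square at the second scale at the near leaf** (class N) -/
theorem nsqh_leaf {π : Lam → DPar} (hP : ∀ lam, (π lam).OK) {h : ℝ → ℝ} {c₁ : ℝ} (hpu : PU h c₁)
    {w : ℝ → ℝ} (hw : Wgt w) (hw0 : ∀ x, 0 ≤ w x) (Qf : LBq → Eis → Prop) {L : ι → Line Lam d}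
    {j : ι} {φ₀ φ₁ φβ : ℝ → ℝ → ℝ → ℝ} {K v c : ℝ} {hh : ℝ → ℝ → ℝ → ℝ} (hK : 0 ≤ K)
    (hφ₀ : ∀ a u m, 0 ≤ φ₀ a u m) (hφ : ∀ a u m, φ₀ a u m ≤ φβ a u m)
    (hφK : ∀ a u m, 5 * a ≤ 4 * K + c → m ≤ a + c → 5 * φβ a u m ≤ K)
    (hhφ : ∀ a u m, hh K u m ≤ 3 * (φβ a u m - φ₀ a u m))
    (HL : SqhLn (RF0 π h) hh (L j)) :
    NLeaf π h (NSqh w Qf) L φ₀ φ₁ φβ K v c := by
  intro lam N c₀ hc₀
  refine ⟨c₀, by linarith, fun ε M hε hM => ?_⟩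
  obtain ⟨J₀, δ₀, hJ₀, hδ₀, G⟩ := nsqh_core hP hpu hw hw0 hK HL lam N hc₀ hε hM
  refine ⟨J₀, δ₀, hJ₀, hδ₀, ?_⟩
  intro δ Jn Aw Cw R η S hδ0 hδ hJn hAw hCw hR hη hη1 hS
  obtain ⟨C, r, X₁, hC, hr, G⟩ := G δ Jn Aw Cw R η S hδ0 hδ hJn hAw hCw hR hη hη1 hS
  refine ⟨C, r, X₁, hC, hr, ?_⟩
  intro X hX3 hXX ps₀ hlen hz _ hnum q ps Lv N₁ hF hq hqX hps Bd hBd _ hprem
  exact G X hX3 hXX ps₀ hlen hz q ps Lv hq hqX hps Bd hBd (lnP_of hX3 hprem) _ _ (hφ _ _ _)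
    (range_h hX3 hnum.ec hφ₀ hφ hφK hnum.nK hF.hi) (hhφ _ _ _) _

end Crest.Agent.R017.SqB791
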