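import Crest.Agent.R017.NSxA_545
import Crest.Agent.R017.NSDefs_986

/-!
# Row 17, section B, leaf L3a (B): the squarefree part of the `b`-sum

* `Th f V k c e Q = Σ_{v squarefree, (v,e)=1} f(v) tk(k;v,c) V(nm v/Q)`
* `Th_rec` : peeling off one prime of `c`
* `Th_prod` : the expansion over subsets
-/

set_option autoImplicit false

noncomputable section

open Complex
open scoped ComplexConjugate

namespace Crest.Agent.R017.NSx545

open Crest.Agent.R012 Crest.Agent.R012.Eis Crest.Agent.R012.Mob705 Crest.Agent.R012.Div277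
open Crest.Agent.R012.PSer47 (IsChar)
open Crest.Agent.R017.End699 Crest.Agent.R017.Sx545 Crest.Agent.R017.B770
open Crest.Agent.R017.Asm986 Crest.Agent.R017.PowS571

open Classical in
/-- splitting a sum over squarefree `v` at a prime. -/
lemma tsum_split_prime {p e : Eis} (hp : IsPP p) (F : Eis → ℂ) (X : ℕ)
    (hF : ∀ v, IsPrim v → X < nm v → F v = 0) :
    ∑' v, (if IsPrim v ∧ Squarefree v ∧ IsCoprime v e ∧ (p ∣ e → False) then F v else 0) =
      (∑' v, (if IsPrim v ∧ Squarefree v ∧ IsCoprime v (p * e) ∧ (p ∣ e → False) then F v else 0)) +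
      ∑' v, (if IsPrim v ∧ Squarefree v ∧ IsCoprime v (p * e) ∧ (p ∣ e → False)
        then F (p * v) else 0) := by
  by_cases hpe : p ∣ e
  · simp [hpe]
  have hsA : Summable (fun v => if IsPrim v ∧ Squarefree v ∧
      IsCoprime v e ∧ ¬ p ∣ v then F v else 0) := by
    apply summable_of_ne_finset_zero (s := primBall X)
    intro v hv
    split_ifs with h
    · apply hF v h.1
      by_contra hlt
      exact hv (mem_primBall.mpr ⟨not_lt.mp hlt, h.1⟩)
    · rfl
  have hsB : Summable (fun v => if IsPrim v ∧ Squarefree v ∧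
      IsCoprime v e ∧ p ∣ v then F v else 0) := by
    apply summable_of_ne_finset_zero (s := primBall X)
    intro v hv
    split_ifs with h
    · apply hF v h.1
      by_contra hlt
      exact hv (mem_primBall.mpr ⟨not_lt.mp hlt, h.1⟩)
    · rfl
  have e0 : ∀ v, (if IsPrim v ∧ Squarefree v ∧ IsCoprime v e ∧ (p ∣ e → False) then F v else 0) =
      (if IsPrim v ∧ Squarefree v ∧ IsCoprime v e ∧ ¬ p ∣ v then F v else 0) +
      (if IsPrim v ∧ Squarefree v ∧ IsCoprime v e ∧ p ∣ v then F v else 0) := by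
    intro v
    by_cases h : p ∣ v <;> simp [h, hpe]
  rw [tsum_congr e0, hsA.tsum_add hsB]
  congr 1
  · refine tsum_congr fun v => ?_
    have : (IsPrim v ∧ Squarefree v ∧ IsCoprime v e ∧ ¬ p ∣ v) ↔
        (IsPrim v ∧ Squarefree v ∧ IsCoprime v (p * e) ∧ (p ∣ e → False)) := by
      rw [IsCoprime.mul_right_iff, isCoprime_comm (x := v) (y := p), hp.isCoprime_iff]
      constructor
      · rintro ⟨h1, h2, h3, h4⟩; exact ⟨h1, h2, ⟨h4, h3⟩, hpe⟩
      · rintro ⟨h1, h2, ⟨h4, h3⟩, -⟩; exact ⟨h1, h2, h3, h4⟩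
    simp only [this]
  · have hinj : Function.Injective (fun v : Eis => p * v) := mul_right_injective₀ hp.ne_zero
    rw [← hinj.tsum_eq (f := fun v => if IsPrim v ∧ Squarefree v ∧ IsCoprime v e ∧ p ∣ v
      then F v else 0)]
    · refine tsum_congr fun v => ?_
      have : (IsPrim (p * v) ∧ Squarefree (p * v) ∧ IsCoprime (p * v) e ∧ p ∣ p * v) ↔
          (IsPrim v ∧ Squarefree v ∧ IsCoprime v (p * e) ∧ (p ∣ e → False)) := by
        rw [IsCoprime.mul_right_iff, isCoprime_comm (x := v) (y := p), squarefree_mul_iff,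
          IsCoprime.mul_left_iff]
        constructor
        · rintro ⟨h1, ⟨h2, h3, h4⟩, ⟨h5, h6⟩, -⟩
          exact ⟨h1.of_mul_left hp.isPrim, h4, ⟨h2.isCoprime, h6⟩, hpe⟩
        · rintro ⟨h1, h4, ⟨h2, h6⟩, -⟩
          exact ⟨hp.isPrim.mul h1, ⟨h2.isRelPrime, hp.prime.squarefree, h4⟩,
            ⟨hp.isCoprime_iff.mpr hpe, h6⟩, dvd_mul_right _ _⟩
      simp only [this]
    · intro v hv
      rw [Function.mem_support] at hv
      by_cases h : p ∣ v
      · obtain ⟨w, rfl⟩ := h; exact ⟨w, rfl⟩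
      · exact absurd (by simp [h]) hv

open Classical in
/-- the squarefree part of the natural `b`-sum. -/
def Th (f : Eis → ℂ) (V : ℝ → ℂ) (k c e : Eis) (Q : ℝ) : ℂ :=
  ∑' v : Eis, if IsPrim v ∧ Squarefree v ∧ IsCoprime v e then
    f v * tk k v c * V (nm v / Q) else 0

/-- peeling off one prime. -/
theorem Th_rec (T : TkAlg) {f : Eis → ℂ} (hf : IsChar f) {V : ℝ → ℂ} (hV : SW V) {k c e p : Eis}
    {Q : ℝ} (hQ : 0 < Q) (hp : IsPP p) (hp2 : Sm 2 p) (hc : Sm 2 c) (hpc : ¬ p ∣ c)
    (hpe : ¬ p ∣ e) (h2e : (2 : Eis) ∣ e) :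
    Th f V k (p * c) e Q = conj (sy k p) * Th f V k c e Q +
      f p * uw k p * Th f V k c (p * e) (Q / nm p) := by
  classical
  obtain ⟨β, hβ1, hβ⟩ := sw_bound hV
  have hnp : (0 : ℝ) < nm p := by exact_mod_cast nm_pos.mpr hp.ne_zero
  have hcop : ∀ {v : Eis}, IsCoprime v (p * e) → IsCoprime p (v * c) := fun {v} h =>
    (h.of_mul_right_left).symm.mul_right (hp.isCoprime_iff.mpr hpc)
  have hsm : ∀ {v : Eis}, IsPrim v → IsCoprime v (p * e) → Sm 2 v := fun {v} h h' =>
    ⟨h, (h'.of_mul_right_right).of_isCoprime_of_dvd_right h2e⟩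
  have hzero : ∀ (c' : Eis) (v : Eis), IsPrim v → ⌊β * Q⌋₊ < nm v →
      f v * tk k v c' * V (nm v / Q) = 0 := by
    intro c' v _ hlt
    have h1 : V (nm v / Q) = 0 := by
      by_contra h0
      have h2 := (hβ _ h0).2
      rw [div_le_iff₀ hQ] at h2
      exact absurd (Nat.le_floor h2) (not_le.mpr hlt)
    rw [h1, mul_zero]
  have key : ∀ c' : Eis, Th f V k c' e Q =
      (∑' v, (if IsPrim v ∧ Squarefree v ∧ IsCoprime v (p * e) then
        f v * tk k v c' * V (nm v / Q) else 0)) +
      ∑' v, (if IsPrim v ∧ Squarefree v ∧ IsCoprime v (p * e)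
        then f (p * v) * tk k (p * v) c' * V (nm (p * v) / Q) else 0) := by
    intro c'
    have h := tsum_split_prime (e := e) hp (fun v => f v * tk k v c' * V (nm v / Q)) ⌊β * Q⌋₊
      (hzero c')
    have h3 : (p ∣ e → False) ↔ True := ⟨fun _ => trivial, fun _ => hpe⟩
    simp only [h3, and_true] at h
    exact h
  have hVs : ∀ v : Eis, V (nm (p * v) / Q) = V (nm v / (Q / nm p)) := by
    intro v
    congr 1
    rw [nm_mul]; push_cast
    field_simp
  -- the four sums
  have a1 : ∑' v, (if IsPrim v ∧ Squarefree v ∧ IsCoprime v (p * e) then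
        f v * tk k v (p * c) * V (nm v / Q) else 0) = conj (sy k p) * Th f V k c (p * e) Q := by
    unfold Th
    rw [← tsum_mul_left]
    refine tsum_congr fun v => ?_
    split_ifs with h
    · have e1 := T.mul k 1 v p c (Sm.one 2) (hsm h.1 h.2.2) hp2 hc
        (by rw [one_mul]; exact hcop h.2.2)
      rw [one_mul] at e1
      rw [e1, T.c1 k p hp2 hp.prime.squarefree]; ring
    · rw [mul_zero]
  have a2 : ∑' v, (if IsPrim v ∧ Squarefree v ∧ IsCoprime v (p * e)
        then f (p * v) * tk k (p * v) (p * c) * V (nm (p * v) / Q) else 0) =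
      f p * tk k p p * Th f V k c (p * e) (Q / nm p) := by
    unfold Th
    rw [← tsum_mul_left]
    refine tsum_congr fun v => ?_
    split_ifs with h
    · have e1 := T.mul k p v p c hp2 (hsm h.1 h.2.2) hp2 hc
        ((hcop h.2.2).mul_left (hcop h.2.2))
      rw [e1, hVs, hf.mul _ _ hp.isPrim h.1]; ring
    · rw [mul_zero]
  have a3 : ∑' v, (if IsPrim v ∧ Squarefree v ∧ IsCoprime v (p * e) then
        f v * tk k v c * V (nm v / Q) else 0) = Th f V k c (p * e) Q := rfl
  have a4 : ∑' v, (if IsPrim v ∧ Squarefree v ∧ IsCoprime v (p * e)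
        then f (p * v) * tk k (p * v) c * V (nm (p * v) / Q) else 0) =
      - (f p * sy k p * Th f V k c (p * e) (Q / nm p)) := by
    unfold Th
    rw [← tsum_mul_left, ← tsum_neg]
    refine tsum_congr fun v => ?_
    split_ifs with h
    · have e1 := T.mul k p v 1 c hp2 (hsm h.1 h.2.2) (Sm.one 2) hc
        (by rw [mul_one]; exact hcop h.2.2)
      rw [one_mul] at e1
      rw [e1, hVs, hf.mul _ _ hp.isPrim h.1, T.b1 k p hp2 hp.prime.squarefree,
        muE_prime hp.prime]
      push_cast; ring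
    · rw [mul_zero, neg_zero]
  rw [key (p * c), key c, a1, a2, a3, a4, T.pp k p hp2 hp.prime]
  unfold uw
  by_cases hk : p ∣ k
  · have h1 : sy k p = 0 := NatP401.sy_of_dvd hp hk
    rw [h1, if_pos hk, map_zero]
    ring_nf
    split_ifs <;> ring
  · have h1 : sy k p * conj (sy k p) = 1 :=
      Gauss880.sy_conj_mul_self Gauss880.syG hp.isPrim
        ((Res.isCoprime_iff_not_dvd hp.prime k).mpr hk)
    have h2 : ¬ p ^ 2 ∣ k := fun h => hk ((dvd_pow_self p two_ne_zero).trans h)
    rw [if_neg hk, if_neg h2, if_neg h2]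
    linear_combination (f p * Th f V k c (p * e) (Q / nm p)) * h1

/-- the bottom of the recursion is the Möbius sum. -/
lemma Th_one (T : TkAlg) (f : Eis → ℂ) (V : ℝ → ℂ) (k : Eis) {e : Eis} (h2e : (2 : Eis) ∣ e)
    (Q : ℝ) : Th f V k 1 e Q = MV V Q (fun q => f q * prin0 e q * sy k q) := by
  classical
  unfold Th MV
  refine tsum_congr fun v => ?_
  by_cases h : IsPrim v
  · rw [if_pos h]
    by_cases hs : Squarefree v
    · by_cases hc : IsCoprime v e
      · have h1 : prin0 e v = 1 := by unfold prin0; rw [if_pos hc]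
        beta_reduce
        rw [if_pos ⟨h, hs, hc⟩, T.b1 k v ⟨h, hc.of_isCoprime_of_dvd_right h2e⟩ hs, h1]
        ring
      · have h1 : prin0 e v = 0 := by unfold prin0; rw [if_neg hc]
        beta_reduce
        rw [if_neg (fun h' => hc h'.2.2), h1]; ring
    · rw [if_neg (fun h' => hs h'.2.1), muE_of_not_squarefree hs]; simp
  · rw [if_neg h, if_neg (fun h' => h h'.1)]

/-- the expansion over subsets. -/
theorem Th_prod (T : TkAlg) {f : Eis → ℂ} (hf : IsChar f) {V : ℝ → ℂ} (hV : SW V) (k : Eis)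
    {ι : Type*} [DecidableEq ι] (P : ι → Eis) (s : Finset ι) :
    (∀ i ∈ s, IsPP (P i) ∧ Sm 2 (P i)) → (∀ i ∈ s, ∀ j ∈ s, i ≠ j → ¬ P i ∣ P j) →
    ∀ (e : Eis) (Q : ℝ), 0 < Q → (2 : Eis) ∣ e → (∀ i ∈ s, ¬ P i ∣ e) →
    Th f V k (∏ i ∈ s, P i) e Q = ∑ S ∈ s.powerset,
      (∏ i ∈ S, f (P i) * uw k (P i)) * (∏ i ∈ s \ S, conj (sy k (P i))) *
        MV V (Q / nm (∏ i ∈ S, P i)) (fun q => f q * prin0 (e * ∏ i ∈ S, P i) q * sy k q) := by
  classical
  induction s using Finset.induction_on with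
  | empty =>
    intro _ _ e Q hQ h2e _
    simp only [Finset.prod_empty, Finset.powerset_empty, Finset.sum_singleton, Finset.sdiff_self,
      one_mul, mul_one]
    rw [Th_one T f V k h2e Q, nm_one, Nat.cast_one, div_one]
  | insert a s ha ih =>
    intro h1 h2 e Q hQ h2e h3
    have ha1 := h1 a (Finset.mem_insert_self a s)
    have hs1 : ∀ i ∈ s, IsPP (P i) ∧ Sm 2 (P i) := fun i hi => h1 i (Finset.mem_insert_of_mem hi)
    have hs2 : ∀ i ∈ s, ∀ j ∈ s, i ≠ j → ¬ P i ∣ P j := fun i hi j hj =>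
      h2 i (Finset.mem_insert_of_mem hi) j (Finset.mem_insert_of_mem hj)
    have hnot : ¬ P a ∣ ∏ i ∈ s, P i := by
      intro h
      obtain ⟨j, hj, hd⟩ := (Prime.dvd_finsetProd_iff ha1.1.prime _).mp h
      exact h2 a (Finset.mem_insert_self a s) j (Finset.mem_insert_of_mem hj)
        (fun h => ha (h ▸ hj)) hd
    have hcs : Sm 2 (∏ i ∈ s, P i) := Finset.prod_induction _ (Sm 2) (fun _ _ => Sm.mul) (Sm.one 2)
      (fun i hi => (hs1 i hi).2)
    have hnp : (0 : ℝ) < nm (P a) := by exact_mod_cast nm_pos.mpr ha1.1.ne_zero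
    rw [Finset.prod_insert ha, Th_rec T hf hV hQ ha1.1 ha1.2 hcs hnot
      (h3 a (Finset.mem_insert_self a s)) h2e,
      ih hs1 hs2 e Q hQ h2e (fun i hi => h3 i (Finset.mem_insert_of_mem hi)),
      ih hs1 hs2 (P a * e) (Q / nm (P a)) (by positivity) (h2e.mul_left _) (fun i hi hd => ?_),
      Finset.sum_powerset_insert ha, Finset.mul_sum, Finset.mul_sum]
    · congr 1
      · refine Finset.sum_congr rfl fun S hS => ?_
        have hS' : S ⊆ s := Finset.mem_powerset.mp hS
        have e1 : insert a s \ S = insert a (s \ S) := by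
          rw [Finset.insert_sdiff_of_notMem _ (fun h => ha (hS' h))]
        rw [e1, Finset.prod_insert (fun h => ha (Finset.mem_sdiff.mp h).1)]
        ring
      · refine Finset.sum_congr rfl fun S hS => ?_
        have hS' : S ⊆ s := Finset.mem_powerset.mp hS
        have haS : a ∉ S := fun h => ha (hS' h)
        have e1 : insert a s \ insert a S = s \ S := by
          ext i
          simp only [Finset.mem_sdiff, Finset.mem_insert]
          constructor
          · rintro ⟨h | h, h'⟩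
            · exact absurd (Or.inl h) h'
            · exact ⟨h, fun hh => h' (Or.inr hh)⟩
          · rintro ⟨h, h'⟩
            exact ⟨Or.inr h, fun hh => hh.elim (fun hh => ha (hh ▸ h)) h'⟩
        have e2 : Q / nm (P a) / nm (∏ i ∈ S, P i) = Q / nm (P a * ∏ i ∈ S, P i) := by
          rw [nm_mul]; push_cast; rw [div_div]
        have e3 : (fun q => f q * prin0 (P a * e * ∏ i ∈ S, P i) q * sy k q) =
            (fun q => f q * prin0 (e * (P a * ∏ i ∈ S, P i)) q * sy k q) := by
          rw [show P a * e * ∏ i ∈ S, P i = e * (P a * ∏ i ∈ S, P i) by ring]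
        rw [e1, Finset.prod_insert haS, Finset.prod_insert haS, e2, e3]
        ring
    · rcases (hs1 i hi).1.prime.dvd_or_dvd hd with h | h
      · exact h2 i (Finset.mem_insert_of_mem hi) a (Finset.mem_insert_self a s)
          (fun h => ha (h ▸ hi)) h
      · exact h3 i (Finset.mem_insert_of_mem hi) h

end Crest.Agent.R017.NSx545
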