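import Crest.Agent.R017.NSxB_545

/-!
# Row 17, section B, leaf L3a (C): `NSExp` and `NSExpLe` from `TkAlg`
-/

set_option autoImplicit false

noncomputable section

open Complex
open scoped ComplexConjugate

namespace Crest.Agent.R017.NSx545

open Crest.Agent.R012 Crest.Agent.R012.Eis Crest.Agent.R012.Mob705 Crest.Agent.R012.Div277
open Crest.Agent.R012.PSer47 (IsChar)
open Crest.Agent.R017.End699 Crest.Agent.R017.Sx545 Crest.Agent.R017.B770
open Crest.Agent.R017.Asm986 Crest.Agent.R017.PowS571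

/-- `tk` at `u v`, `u` powerful. -/
lemma tk_uv (T : TkAlg) {k u v c : Eis} (hu : Sm 2 u) (hv : Sm 2 v) (hc : Sm 2 c)
    (hsq : Squarefree c) (hpf : Pf u) (hco : IsCoprime u v) :
    (IsCoprime u c → tk k (u * v) c = tk k u 1 * tk k v c) ∧
      (¬ IsCoprime u c → tk k (u * v) c = 0) := by
  constructor
  · intro h
    have e1 := T.mul k u v 1 c hu hv (Sm.one 2) hc (by rw [mul_one]; exact hco.mul_right h)
    rw [one_mul] at e1
    exact e1
  · intro h
    obtain ⟨p, hp, hpu, hpc⟩ := exists_common_pp hu.prim h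
    obtain ⟨j, w, rfl, hw, hwp⟩ := NatP401.exists_pow_mul hp hu.prim
    obtain ⟨d, rfl⟩ := hpc
    have hj : 1 ≤ j := by
      by_contra hcon
      have : j = 0 := by omega
      rw [this, pow_zero, one_mul] at hpu
      exact hw hpu
    have hj2 := (pf_mul hp hj hw hpf).1
    have hdp : IsPrim d := hc.prim.of_mul_left hp.isPrim
    have hpd : ¬ p ∣ d := by
      rintro ⟨e, rfl⟩
      have h1 := hsq p ⟨e, by ring⟩
      exact hp.prime.not_isUnit h1
    have hp2 : Sm 2 p := hc.of_dvd hp.isPrim (dvd_mul_right _ _)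
    have hd2 : Sm 2 d := hc.of_dvd hdp (dvd_mul_left _ _)
    have hw2 : Sm 2 w := hu.of_dvd hwp (dvd_mul_left _ _)
    have hpv : ¬ p ∣ v := fun h' => hp.prime.not_isUnit (hco.isUnit_of_dvd' hpu h')
    have hcop : IsCoprime (p ^ j * p) (w * v * d) := by
      rw [← pow_succ]
      exact (((hp.isCoprime_iff.mpr hw).mul_right (hp.isCoprime_iff.mpr hpv)).mul_right
        (hp.isCoprime_iff.mpr hpd)).pow_left
    have e1 := T.mul k (p ^ j) (w * v) p d (hp2.pow j) (hw2.mul hv) hp2 hd2 hcop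
    rw [mul_assoc, e1, T.powc k p j hp2 hp.prime hj2, zero_mul]

open Classical in
/-- the pointwise expansion, for fixed amplifier primes. -/
theorem TS_expand (T : TkAlg) {f : Eis → ℂ} (hf : IsChar f) {V : ℝ → ℂ} (hV : SW V) {M : Eis}
    (h2M : (2 : Eis) ∣ M) (k : Eis) {β : ℝ}
    (hβ : ∀ x, V x ≠ 0 → 0 < x ∧ x ≤ β) {Q : ℝ} (hQ : 0 < Q)
    {ι : Type*} [DecidableEq ι] (P : ι → Eis) (s : Finset ι)
    (h1 : ∀ i ∈ s, IsPP (P i) ∧ Sm M (P i)) (h2 : ∀ i ∈ s, ∀ j ∈ s, i ≠ j → ¬ P i ∣ P j) :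
    (∑' b : Eis, if Sm M b then f b * tk k b (∏ i ∈ s, P i) * V (nm b / Q) else 0) =
      ∑ S ∈ s.powerset, ∑ u ∈ primBall ⌊β * Q⌋₊,
        if Sm M u ∧ Pf u ∧ IsCoprime u (∏ i ∈ S, P i) then
          (∏ i ∈ S, f (P i) * uw k (P i)) * (f u * tk k u 1) *
          (∏ i ∈ s \ S, prin0 u (P i) * conj (sy k (P i))) *
          MV V (Q / (nm u * nm (∏ i ∈ S, P i)))
            (fun q => f q * prin0 (M * u * ∏ i ∈ S, P i) q * sy k q) else 0 := by
  set c := ∏ i ∈ s, P i with hc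
  have hcM : Sm M c := Finset.prod_induction _ (Sm M) (fun _ _ => Sm.mul) (Sm.one M)
      (fun i hi => (h1 i hi).2)
  have hm2 : ∀ {b}, Sm M b → Sm 2 b := fun h => ⟨h.1, h.2.of_isCoprime_of_dvd_right h2M⟩
  have hsq : Squarefree c := by
    apply Finset.squarefree_prod_of_pairwise_isCoprime
    · intro i hi j hj hij
      exact ((h1 i hi).1.isCoprime_iff.mpr (h2 i hi j hj hij)).isRelPrime
    · intro i hi
      exact (h1 i hi).1.prime.squarefree
  -- the sum over b, finite form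
  have e0 : (∑' b : Eis, if Sm M b then f b * tk k b c * V (nm b / Q) else 0) =
      ∑ b ∈ primBall ⌊β * Q⌋₊, if Sm M b then f b * tk k b c * V (nm b / Q) else 0 := by
    apply tsum_eq_sum
    intro b hb
    split_ifs with h
    · have h0 : V (nm b / Q) = 0 := by
        by_contra h0
        have h3 := (hβ _ h0).2
        rw [div_le_iff₀ hQ] at h3
        exact hb (mem_primBall.mpr ⟨Nat.le_floor h3, h.1⟩)
      rw [h0, mul_zero]
    · rfl
  rw [e0, sum_pfsf]
  -- the inner sum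
  have e1 : ∀ u ∈ (primBall ⌊β * Q⌋₊).filter Pf,
      ∑ v ∈ (primBall ⌊β * Q⌋₊).filter (fun v => Squarefree v ∧ IsCoprime u v ∧
        nm (u * v) ≤ ⌊β * Q⌋₊),
        (if Sm M (u * v) then f (u * v) * tk k (u * v) c * V (nm (u * v) / Q) else 0) =
      if Sm M u ∧ IsCoprime u c then f u * tk k u 1 * Th f V k c (M * u) (Q / nm u) else 0 := by
    intro u hu
    rw [Finset.mem_filter, mem_primBall] at hu
    obtain ⟨⟨hun, hup⟩, hupf⟩ := hu
    have hnu : (0 : ℝ) < nm u := by exact_mod_cast nm_pos.mpr hup.ne_zero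
    have hV' : ∀ v : Eis, V (nm (u * v) / Q) = V (nm v / (Q / nm u)) := by
      intro v
      congr 1
      rw [nm_mul]; push_cast
      field_simp
    split_ifs with h
    · unfold Th
      rw [← tsum_mul_left]
      rw [tsum_eq_sum (s := (primBall ⌊β * Q⌋₊).filter (fun v => Squarefree v ∧ IsCoprime u v ∧
        nm (u * v) ≤ ⌊β * Q⌋₊))]
      · refine Finset.sum_congr rfl fun v hv => ?_
        rw [Finset.mem_filter, mem_primBall] at hv
        obtain ⟨⟨hvn, hvp⟩, hvsf, huv, -⟩ := hv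
        by_cases hvM : IsCoprime v M
        · have hv2 : Sm M v := ⟨hvp, hvM⟩
          rw [if_pos (h.1.mul hv2), if_pos ⟨hvp, hvsf, hvM.mul_right huv.symm⟩,
            (tk_uv T (hm2 h.1) (hm2 hv2) (hm2 hcM) hsq hupf huv).1 h.2, hV',
            hf.mul _ _ hup hvp]
          ring
        · rw [if_neg (fun h' => hvM h'.2.of_mul_left_right), if_neg (fun h' =>
            hvM h'.2.2.of_mul_right_left), mul_zero]
      · intro v hv
        split_ifs with h'
        · have h0 : V (nm v / (Q / nm u)) = 0 := by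
            by_contra h0
            apply hv
            rw [← hV'] at h0
            have h3 := (hβ _ h0).2
            rw [div_le_iff₀ hQ] at h3
            have h4 : nm (u * v) ≤ ⌊β * Q⌋₊ := Nat.le_floor h3
            rw [Finset.mem_filter, mem_primBall]
            exact ⟨⟨(nm_le_of_dvd (hup.mul h'.1).ne_zero (dvd_mul_left _ _)).trans h4, h'.1⟩,
              h'.2.1, h'.2.2.of_mul_right_right.symm, h4⟩
          rw [h0, mul_zero, mul_zero]
        · rw [mul_zero]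
    · refine Finset.sum_eq_zero fun v hv => ?_
      rw [Finset.mem_filter, mem_primBall] at hv
      obtain ⟨⟨hvn, hvp⟩, hvsf, huv, -⟩ := hv
      split_ifs with h'
      · have hu2 : Sm M u := ⟨hup, h'.2.of_mul_left_left⟩
        have hv2 : Sm M v := ⟨hvp, h'.2.of_mul_left_right⟩
        rw [(tk_uv T (hm2 hu2) (hm2 hv2) (hm2 hcM) hsq hupf huv).2 (fun hh => h ⟨hu2, hh⟩)]
        ring
      · rfl
  rw [Finset.sum_congr rfl e1, Finset.sum_filter, Finset.sum_comm]
  refine Finset.sum_congr rfl fun u hu => ?_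
  rw [mem_primBall] at hu
  have hnu : (0 : ℝ) < nm u := by exact_mod_cast nm_pos.mpr hu.2.ne_zero
  by_cases hpf : Pf u
  swap
  · rw [if_neg hpf]
    symm
    refine Finset.sum_eq_zero fun S _ => ?_
    rw [if_neg (fun h => hpf h.2.1)]
  rw [if_pos hpf]
  by_cases hMu : Sm M u
  swap
  · rw [if_neg (fun h => hMu h.1)]
    symm
    refine Finset.sum_eq_zero fun S _ => ?_
    rw [if_neg (fun h => hMu h.1)]
  by_cases huc : IsCoprime u c
  · rw [if_pos ⟨hMu, huc⟩, hc, Th_prod T hf hV k P s (fun i hi => ⟨(h1 i hi).1, hm2 (h1 i hi).2⟩)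
      h2 (M * u) (Q / nm u) (by positivity) (h2M.mul_right u) (fun i hi hd => ?_), Finset.mul_sum]
    · refine Finset.sum_congr rfl fun S hS => ?_
      have hS' : S ⊆ s := Finset.mem_powerset.mp hS
      have h5 : IsCoprime u (∏ i ∈ S, P i) :=
        huc.of_isCoprime_of_dvd_right (Finset.prod_dvd_prod_of_subset _ _ _ hS')
      have h6 : ∏ i ∈ s \ S, prin0 u (P i) * conj (sy k (P i)) =
          ∏ i ∈ s \ S, conj (sy k (P i)) := by
        refine Finset.prod_congr rfl fun i hi => ?_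
        have h7 : IsCoprime (P i) u := (huc.of_isCoprime_of_dvd_right
          (Finset.dvd_prod_of_mem P (Finset.mem_sdiff.mp hi).1)).symm
        unfold prin0
        rw [if_pos h7, one_mul]
      rw [if_pos ⟨hMu, hpf, h5⟩, h6, div_div]
      ring
    · rcases (h1 i hi).1.prime.dvd_or_dvd hd with h | h
      · exact (h1 i hi).1.prime.not_isUnit ((h1 i hi).2.2.isUnit_of_dvd' dvd_rfl h)
      · exact (h1 i hi).1.prime.not_isUnit (huc.isUnit_of_dvd' h (Finset.dvd_prod_of_mem P hi))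
  · rw [if_neg (fun h => huc h.2)]
    symm
    refine Finset.sum_eq_zero fun S hS => ?_
    have hS' : S ⊆ s := Finset.mem_powerset.mp hS
    by_cases h5 : IsCoprime u (∏ i ∈ S, P i)
    · rw [if_pos ⟨hMu, hpf, h5⟩]
      obtain ⟨p, hp, hpu, hpc⟩ := exists_common_pp hMu.prim huc
      obtain ⟨i, hi, hd⟩ := (Prime.dvd_finsetProd_iff hp.prime _).mp hpc
      have hpi : p = P i := hp.eq_of_dvd (h1 i hi).1 hd
      have hiS : i ∉ S := by
        intro hiS
        exact hp.prime.not_isUnit (h5.isUnit_of_dvd' hpu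
          (hd.trans (Finset.dvd_prod_of_mem P hiS)))
      have h8 : ∏ i ∈ s \ S, prin0 u (P i) * conj (sy k (P i)) = 0 := by
        apply Finset.prod_eq_zero (Finset.mem_sdiff.mpr ⟨hi, hiS⟩)
        unfold prin0
        rw [if_neg, zero_mul]
        intro h9
        exact hp.prime.not_isUnit (h9.isUnit_of_dvd' hd hpu)
      rw [h8]; ring
    · rw [if_neg (fun h => h5 h.2.2)]

lemma isChar_prod {g : Eis → ℂ} (hg : IsChar g) {ι : Type*} [DecidableEq ι] (P : ι → Eis)
    (s : Finset ι) : (∀ i ∈ s, IsPrim (P i)) →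
    IsPrim (∏ i ∈ s, P i) ∧ g (∏ i ∈ s, P i) = ∏ i ∈ s, g (P i) := by
  induction s using Finset.induction_on with
  | empty => intro _; simp [hg.one, isPrim_one]
  | insert a s ha ih =>
    intro h
    obtain ⟨h1, h2⟩ := ih (fun i hi => h i (Finset.mem_insert_of_mem hi))
    have h3 := h a (Finset.mem_insert_self a s)
    rw [Finset.prod_insert ha, Finset.prod_insert ha, hg.mul _ _ h3 h1, h2]
    exact ⟨h3.mul h1, rfl⟩

open Classical in
/-- facts on the tuples of positive weight. -/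
lemma tup_good {h : ℝ → ℂ} (hh : HW h) {r : ℕ} {y Q₀ : ℝ} {J : Finset (Fin r)}
    {M : Eis} (hM0 : M ≠ 0) (hM : (nm M : ℝ) < Q₀ ^ (y / r) / 9) (hQ₀ : 1 ≤ Q₀)
    {p : ∀ _ : J, Eis} (hp : p ∈ tup r y Q₀ J)
    (hne : (∏ i : J, h (Real.log (nm (p i)) - kap r y Q₀ i)) ≠ 0) :
    (∀ i ∈ J, IsPP (ex J p i) ∧ Sm M (ex J p i)) ∧
      (∀ i ∈ J, ∀ j ∈ J, i ≠ j → ¬ ex J p i ∣ ex J p j) := by
  obtain ⟨c₁, c₂, e, hc1, hc2, hsq, -⟩ := NatP401.tuple_facts (k := 0) hh hM0 hM hQ₀ hp hne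
  have hpp : ∀ i ∈ J, IsPP (ex J p i) := by
    intro i hi
    have h1 := (NatP401.mem_prS.mp (Fintype.mem_piFinset.mp hp ⟨i, hi⟩)).1
    rwa [← ex_coe J p ⟨i, hi⟩] at h1
  have hprod : ∏ i ∈ J, ex J p i = c₂ * c₁ := by
    rw [← e]; exact (prod_ex J p (fun _ q => q)).symm
  refine ⟨fun i hi => ⟨hpp i hi, (hc2.mul hc1).of_dvd (hpp i hi).isPrim ?_⟩, ?_⟩
  · rw [← hprod]; exact Finset.dvd_prod_of_mem _ hi
  · intro i hi j hj hij hd
    have h2 := (hpp i hi).eq_of_dvd (hpp j hj) hd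
    have h3 : ex J p i * ex J p i ∣ ∏ i ∈ J, ex J p i := by
      rw [← Finset.mul_prod_erase J _ hi]
      apply mul_dvd_mul_left
      rw [h2]
      exact Finset.dvd_prod_of_mem _ (Finset.mem_erase.mpr ⟨hij.symm, hj⟩)
    rw [hprod] at h3
    exact (hpp i hi).prime.not_isUnit (hsq _ h3)

/-- the Möbius sums vanish for large `u`. -/
lemma MV_large {V : ℝ → ℂ} {β : ℝ} (hβ : ∀ x, V x ≠ 0 → 0 < x ∧ x ≤ β) {Q : ℝ} (hQ : 0 < Q)
    {c : Eis} (hc0 : c ≠ 0) {u : Eis} (hu : IsPrim u) (hX : u ∉ primBall ⌊β * Q⌋₊)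
    (F : Eis → ℂ) : MV V (Q / (nm u * nm c)) F = 0 := by
  have hnu : (0 : ℝ) < nm u := by exact_mod_cast nm_pos.mpr hu.ne_zero
  have hc1 : (1 : ℝ) ≤ nm c := by exact_mod_cast nm_pos.mpr hc0
  have h2 : β * Q < nm u := by
    apply Nat.lt_of_floor_lt
    by_contra h2
    exact hX (mem_primBall.mpr ⟨not_lt.mp h2, hu⟩)
  apply MV_eq_zero hβ (by positivity)
  rw [← mul_div_assoc, div_lt_one (by positivity)]
  calc β * Q < nm u := h2
    _ = nm u * 1 := (mul_one _).symm
    _ ≤ nm u * nm c := by gcongr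

/-- **L3a**. -/
theorem nsExp (T : TkAlg) : NSExp := by
  classical
  intro h hh V hV M f g h2M h3M hM0 hf hg r y Q₀ Q hr hy hQ₀ hQ hM J k hk
  obtain ⟨β, hβ1, hβ⟩ := sw_bound hV
  set X := ⌊β * Q⌋₊ with hX
  set A : Eis → Fin r → Eis → ℂ := fun u i q => (g q * prin0 u q * conj (sy k q)) *
    h (Real.log (nm q) - kap r y Q₀ i) with hA
  set B : Fin r → Eis → ℂ := fun i q => h (Real.log (nm q) - kap r y Q₀ i) * (f q * g q) * uw k q
    with hB
  set Φ : ∀ (S : Finset (Fin r)) (_ : Eis) (_ : ∀ _ : S, Eis), ℂ := fun S u z =>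
    (∏ i : S, B i (z i)) * (if Sm M u ∧ Pf u ∧ IsCoprime u (∏ i : S, z i) then
      f u * tk k u 1 * MV V (Q / (nm u * nm (∏ i : S, z i)))
        (fun q => f q * prin0 (M * u * ∏ i : S, z i) q * sy k q) else 0) with hΦ
  -- the term
  have key : ∀ p ∈ tup r y Q₀ J,
      (∏ i : J, h (Real.log (nm (p i)) - kap r y Q₀ i)) * g (∏ i : J, p i) *
        (∑' b : Eis, if Sm M b then f b * tk k b (∏ i : J, p i) * V (nm b / Q) else 0) =
      ∑ S ∈ J.powerset, ∑ u ∈ primBall X,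
        (if hS : S ⊆ J then Φ S u (res hS p) * ∏ i ∈ J \ S, A u i (ex J p i) else 0) := by
    intro p hp
    have hprim : ∀ i ∈ J, IsPrim (ex J p i) := by
      intro i hi
      have h1 := (NatP401.mem_prS.mp (Fintype.mem_piFinset.mp hp ⟨i, hi⟩)).1
      rw [← ex_coe J p ⟨i, hi⟩] at h1
      exact h1.isPrim
    have hgp : g (∏ i : J, p i) = ∏ i ∈ J, g (ex J p i) := by
      rw [show ∏ i : J, p i = ∏ i ∈ J, ex J p i from prod_ex J p (fun _ q => q)]
      exact (isChar_prod hg _ J hprim).2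
    have hhp : (∏ i : J, h (Real.log (nm (p i)) - kap r y Q₀ i)) =
        ∏ i ∈ J, h (Real.log (nm (ex J p i)) - kap r y Q₀ i) :=
      prod_ex J p (fun i q => h (Real.log (nm q) - kap r y Q₀ i))
    have hterm : ∀ S ∈ J.powerset, ∀ u ∈ primBall X,
        (if hS : S ⊆ J then Φ S u (res hS p) * ∏ i ∈ J \ S, A u i (ex J p i) else 0) =
        (∏ i : J, h (Real.log (nm (p i)) - kap r y Q₀ i)) * g (∏ i : J, p i) *
        (if Sm M u ∧ Pf u ∧ IsCoprime u (∏ i ∈ S, ex J p i) then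
          (∏ i ∈ S, f (ex J p i) * uw k (ex J p i)) * (f u * tk k u 1) *
          (∏ i ∈ J \ S, prin0 u (ex J p i) * conj (sy k (ex J p i))) *
          MV V (Q / (nm u * nm (∏ i ∈ S, ex J p i)))
            (fun q => f q * prin0 (M * u * ∏ i ∈ S, ex J p i) q * sy k q) else 0) := by
      intro S hS u _
      have hSJ : S ⊆ J := Finset.mem_powerset.mp hS
      rw [dif_pos hSJ, hgp, hhp]
      have e1 : ∏ i : S, res hSJ p i = ∏ i ∈ S, ex J p i := by
        rw [prod_ex S (res hSJ p) (fun _ q => q)]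
        exact Finset.prod_congr rfl fun i hi => ex_res hSJ p hi
      have e2 : ∏ i : S, B i (res hSJ p i) = ∏ i ∈ S, B i (ex J p i) := by
        rw [prod_ex S (res hSJ p) B]
        exact Finset.prod_congr rfl fun i hi => by rw [ex_res hSJ p hi]
      simp only [hΦ]
      rw [e1, e2, ← Finset.prod_sdiff hSJ, ← Finset.prod_sdiff hSJ (f := fun i => g (ex J p i))]
      simp only [hA, hB, Finset.prod_mul_distrib]
      split_ifs
      · ring
      · ring
    rw [Finset.sum_congr rfl fun S hS => Finset.sum_congr rfl fun u hu => hterm S hS u hu]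
    simp only [← Finset.mul_sum]
    by_cases h0 : (∏ i : J, h (Real.log (nm (p i)) - kap r y Q₀ i)) = 0
    · rw [h0, zero_mul, zero_mul, zero_mul]
    · obtain ⟨g1, g2⟩ := tup_good hh hM0 hM hQ₀ hp h0
      congr 1
      have e3 : ∏ i : J, p i = ∏ i ∈ J, ex J p i := prod_ex J p (fun _ q => q)
      rw [e3]
      exact TS_expand T hf hV h2M k hβ hQ (ex J p) J g1 g2
  unfold NSum
  rw [Finset.sum_congr rfl key, Finset.sum_comm]
  refine Finset.sum_congr rfl fun S hS => ?_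
  have hSJ : S ⊆ J := Finset.mem_powerset.mp hS
  rw [Finset.sum_comm]
  have e4 : ∀ u ∈ primBall X, ∑ p ∈ tup r y Q₀ J,
      (if hS : S ⊆ J then Φ S u (res hS p) * ∏ i ∈ J \ S, A u i (ex J p i) else 0) =
      (∑ z ∈ tup r y Q₀ S, Φ S u z) *
        Amp h r y Q₀ (J \ S) (fun q => g q * prin0 u q * conj (sy k q)) := by
    intro u _
    simp only [dif_pos hSJ]
    exact sum_tup_split (fun i => prS (kap r y Q₀ i)) hSJ (Φ S u) (A u)
  rw [Finset.sum_congr rfl e4]
  simp only [Finset.sum_mul]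
  rw [Finset.sum_comm]
  refine Finset.sum_congr rfl fun z hz => ?_
  have hz0 : ∀ i : S, z i ≠ 0 := fun i =>
    (NatP401.mem_prS.mp (Fintype.mem_piFinset.mp hz i)).1.ne_zero
  have hc0 : (∏ i : S, z i) ≠ 0 := Finset.prod_ne_zero_iff.mpr fun i _ => hz0 i
  have hc1 : (1 : ℝ) ≤ nm (∏ i : S, z i) := by exact_mod_cast nm_pos.mpr hc0
  rw [tsum_eq_sum (s := primBall X)]
  · rw [Finset.mul_sum]
    refine Finset.sum_congr rfl fun u _ => ?_
    simp only [hΦ, hB]
    split_ifs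
    · ring
    · ring
  · intro u hu
    split_ifs with h1
    · rw [MV_large hβ hQ hc0 h1.1.prim hu, mul_zero]
    · rfl

/-- **L3a**, norm version. -/
theorem nsExpLe (T : TkAlg) : NSExpLe := by
  classical
  intro h hh V hV M f g h2M h3M hM0 hf hg r y Q₀ Q hr hy hQ₀ hQ hM J k hk
  obtain ⟨β, hβ1, hβ⟩ := sw_bound hV
  rw [nsExp T h hh V hV M f g h2M h3M hM0 hf hg r y Q₀ Q hr hy hQ₀ hQ hM J k hk]
  refine (norm_sum_le _ _).trans (Finset.sum_le_sum fun S hS => ?_)
  refine (norm_sum_le _ _).trans (Finset.sum_le_sum fun z hz => ?_)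
  have hzp : ∀ i : S, IsPP (z i) := fun i =>
    (NatP401.mem_prS.mp (Fintype.mem_piFinset.mp hz i)).1
  have hc0 : (∏ i : S, z i) ≠ 0 := Finset.prod_ne_zero_iff.mpr fun i _ => (hzp i).ne_zero
  rw [norm_mul, norm_prod]
  have hle : ∀ u : Eis, ‖(if Sm M u ∧ Pf u ∧ IsCoprime u (∏ i : S, z i) then
      f u * tk k u 1 * Amp h r y Q₀ (J \ S) (fun q => g q * prin0 u q * conj (sy k q)) *
        MV V (Q / (nm u * nm (∏ i : S, z i)))
          (fun q => f q * prin0 (M * u * ∏ i : S, z i) q * sy k q) else 0)‖ ≤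
      (if Sm M u ∧ Pf u ∧ IsCoprime u (∏ i : S, z i) then
        ‖tk k u 1‖ * ‖Amp h r y Q₀ (J \ S) (fun q => g q * prin0 u q * conj (sy k q))‖ *
        ‖MV V (Q / (nm u * nm (∏ i : S, z i)))
          (fun q => f q * prin0 (M * u * ∏ i : S, z i) q * sy k q)‖ else 0) := by
    intro u
    split_ifs with h1
    · rw [norm_mul, norm_mul, norm_mul]
      have h2 := hf.norm_le h1.1.prim
      gcongr
      calc ‖f u‖ * ‖tk k u 1‖ ≤ 1 * ‖tk k u 1‖ := by gcongr
        _ = ‖tk k u 1‖ := one_mul _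
    · rw [norm_zero]
  have hs : Summable (fun u : Eis => if Sm M u ∧ Pf u ∧ IsCoprime u (∏ i : S, z i) then
        ‖tk k u 1‖ * ‖Amp h r y Q₀ (J \ S) (fun q => g q * prin0 u q * conj (sy k q))‖ *
        ‖MV V (Q / (nm u * nm (∏ i : S, z i)))
          (fun q => f q * prin0 (M * u * ∏ i : S, z i) q * sy k q)‖ else 0) := by
    apply summable_of_ne_finset_zero (s := primBall ⌊β * Q⌋₊)
    intro u hu
    split_ifs with h1
    · rw [MV_large hβ hQ hc0 h1.1.prim hu, norm_zero, mul_zero]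
    · rfl
  refine mul_le_mul ?_ (tsum_of_norm_bounded hs.hasSum hle) (norm_nonneg _)
    (Finset.prod_nonneg fun i _ => by positivity)
  refine Finset.prod_le_prod (fun i _ => norm_nonneg _) fun i _ => ?_
  rw [norm_mul, norm_mul, norm_mul]
  have h2 := hf.norm_le (hzp i).isPrim
  have h3 := hg.norm_le (hzp i).isPrim
  have h4 : ‖f (z i)‖ * ‖g (z i)‖ ≤ 1 := by
    calc ‖f (z i)‖ * ‖g (z i)‖ ≤ 1 * 1 := by gcongr
      _ = 1 := one_mul 1
  calc ‖h (Real.log (nm (z i)) - kap r y Q₀ i)‖ * (‖f (z i)‖ * ‖g (z i)‖) * ‖uw k (z i)‖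
      ≤ ‖h (Real.log (nm (z i)) - kap r y Q₀ i)‖ * 1 * ‖uw k (z i)‖ := by gcongr
    _ = _ := by rw [mul_one]

end Crest.Agent.R017.NSx545
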