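import Crest.Agent.R017.NSxC_545
import Crest.Agent.R017.TkAlg_545

/-!
# Row 17, section B: `NSExp`, `NSExpLe` unconditional
-/

set_option autoImplicit false

namespace Crest.Agent.R017.NSx545

/-- **L3a**, unconditional. -/
theorem nsExp' : Asm986.NSExp := nsExp Tk545.tkAlg

/-- **L3a**, norm version, unconditional. -/
theorem nsExpLe' : Asm986.NSExpLe := nsExpLe Tk545.tkAlg

end Crest.Agent.R017.NSx545
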