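import Crest.Agent.R017.NSxD_545

/-!
# Row 17, section B, leaf L3a (E): the core identity for ONE squarefree `c`

* `core_subsets` : sum over subsets of the primes of `c`
* `core` : sum over the divisors `d` of `c`
-/

set_option autoImplicit false

noncomputable section

open Complex
open scoped ComplexConjugate

namespace Crest.Agent.R017.NSx545

open Crest.Agent.R012 Crest.Agent.R012.Eis Crest.Agent.R012.Mob705 Crest.Agent.R012.Div277
open Crest.Agent.R012.PSer47 (IsChar)
open Crest.Agent.R017.End699 Crest.Agent.R017.Sx545 Crest.Agent.R017.B770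
open Crest.Agent.R017.Asm986 Crest.Agent.R017.PowS571

/-- `c / d` for `d ∣ c` squarefree. -/
def cof (c d : Eis) : Eis := by
  classical
  exact ∏ p ∈ pp c \ pp d, p

/-- `∏_{p ∣ d} (1 - q 1_{p² ∣ k})`. -/
def uwd (k d : Eis) : ℂ := ∏ p ∈ pp d, uw k p

lemma ppset_facts {c : Eis} : (∀ p ∈ pp c, ∀ q ∈ pp c, p ≠ q → ¬ p ∣ q) := by
  intro p hp q hq hpq hd
  exact hpq ((isPP_of_mem_pp hp).eq_of_dvd (isPP_of_mem_pp hq) hd)

lemma mul_cof {c d : Eis} (hc : IsPrim c) (hsq : Squarefree c) (hd : d ∈ dvs c) :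
    d * cof c d = c := by
  classical
  have h1 := (mem_dvs hc.ne_zero).mp hd
  have h2 : Squarefree d := hsq.squarefree_of_dvd h1.2
  have h3 : pp d ⊆ pp c := pp_mono hc.ne_zero h1.2
  unfold cof
  nth_rw 1 [← prod_pp h1.1 h2]
  rw [mul_comm, Finset.prod_sdiff h3, prod_pp hc hsq]

lemma isPrim_cof {c d : Eis} : IsPrim (cof c d) := by
  classical
  unfold cof
  exact (PPSet.subset (ppSet_pp c) Finset.sdiff_subset).isPrim_prod

open Classical in
lemma sy_prod {k : Eis} (s : Finset Eis) : PPSet s →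
    ∏ p ∈ s, conj (sy k p) = conj (sy k (∏ p ∈ s, p)) := by
  induction s using Finset.induction_on with
  | empty => intro _; simp [Sym645.sy_one_right]
  | insert a s ha ih =>
    intro h
    have h2 : PPSet s := h.subset (Finset.subset_insert _ _)
    rw [Finset.prod_insert ha, Finset.prod_insert ha, ih h2,
      res_sy.mul_right k a _ (sm_one_iff.mpr (h a (Finset.mem_insert_self _ _)).isPrim)
        (sm_one_iff.mpr h2.isPrim_prod), map_mul]

open Classical in
/-- the core identity, subsets of the primes of `c`. -/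
theorem core_subsets (T : TkAlg) {f : Eis → ℂ} (hf : IsChar f) {V : ℝ → ℂ} (hV : SW V) {M : Eis}
    (h2M : (2 : Eis) ∣ M) (k : Eis) {Q : ℝ} (hQ : 0 < Q) {c : Eis} (hc : Sm M c)
    (hsq : Squarefree c) :
    (∑' b : Eis, if Sm M b then f b * tk k b c * V (nm b / Q) else 0) =
      ∑ S ∈ (pp c).powerset, f (∏ p ∈ S, p) * (∏ p ∈ S, uw k p) *
        conj (sy k (∏ p ∈ pp c \ S, p)) *
        ∑' u : Eis, if Sm M u ∧ Pf u ∧ IsCoprime u c then f u * tk k u 1 *
          MV V (Q / (nm u * nm (∏ p ∈ S, p)))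
            (fun q => f q * prin0 (M * u * ∏ p ∈ S, p) q * sy k q) else 0 := by
  obtain ⟨β, hβ1, hβ⟩ := sw_bound hV
  have hc0 := hc.ne_zero
  have h1 : ∀ p ∈ pp c, IsPP p ∧ Sm M p := fun p hp =>
    ⟨isPP_of_mem_pp hp, hc.of_dvd (isPP_of_mem_pp hp).isPrim (dvd_of_mem_pp hp)⟩
  have key := TS_expand T hf hV h2M k hβ hQ (fun p : Eis => p) (pp c) h1 ppset_facts
  rw [prod_pp hc.prim hsq] at key
  rw [key]
  refine Finset.sum_congr rfl fun S hS => ?_
  have hS' : S ⊆ pp c := Finset.mem_powerset.mp hS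
  have hSP : PPSet S := (ppSet_pp c).subset hS'
  have hTP : PPSet (pp c \ S) := (ppSet_pp c).subset Finset.sdiff_subset
  have hfS := (isChar_prod hf (fun p : Eis => p) S (fun p hp => (hSP p hp).isPrim)).2
  rw [tsum_eq_sum (s := primBall ⌊β * Q⌋₊), Finset.mul_sum]
  · refine Finset.sum_congr rfl fun u hu => ?_
    by_cases hu1 : Sm M u ∧ Pf u
    swap
    · rw [if_neg (fun h => hu1 ⟨h.1, h.2.1⟩), if_neg (fun h => hu1 ⟨h.1, h.2.1⟩), mul_zero]
    by_cases huS : IsCoprime u (∏ p ∈ S, p)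
    · rw [if_pos ⟨hu1.1, hu1.2, huS⟩]
      by_cases huc : IsCoprime u c
      · rw [if_pos ⟨hu1.1, hu1.2, huc⟩]
        have h6 : ∏ i ∈ pp c \ S, prin0 u i * conj (sy k i) =
            conj (sy k (∏ p ∈ pp c \ S, p)) := by
          rw [← sy_prod _ hTP]
          refine Finset.prod_congr rfl fun i hi => ?_
          have h7 : IsCoprime i u := (huc.of_isCoprime_of_dvd_right
            (dvd_of_mem_pp (Finset.mem_sdiff.mp hi).1)).symm
          unfold prin0
          rw [if_pos h7, one_mul]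
        rw [h6, Finset.prod_mul_distrib, hfS]
        ring
      · rw [if_neg (fun h => huc h.2.2), mul_zero]
        obtain ⟨p, hp, hpu, hpc⟩ := exists_common_pp hu1.1.prim huc
        have hpS : p ∉ S := fun h => hp.prime.not_isUnit
          (huS.isUnit_of_dvd' hpu (Finset.dvd_prod_of_mem (fun x => x) h))
        have h8 : ∏ i ∈ pp c \ S, prin0 u i * conj (sy k i) = 0 := by
          apply Finset.prod_eq_zero (Finset.mem_sdiff.mpr ⟨(mem_pp hc0).mpr ⟨hp, hpc⟩, hpS⟩)
          unfold prin0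
          rw [if_neg, zero_mul]
          intro h9
          exact hp.prime.not_isUnit (h9.isUnit_of_dvd' dvd_rfl hpu)
        rw [h8]; ring
    · have huc : ¬ IsCoprime u c := fun h => huS (h.of_isCoprime_of_dvd_right
        (hSP.prod_dvd.mpr fun p hp => dvd_of_mem_pp (hS' hp)))
      rw [if_neg (fun h => huS h.2.2), if_neg (fun h => huc h.2.2), mul_zero]
  · intro u hu
    split_ifs with h
    · rw [MV_large hβ hQ hSP.prod_ne_zero h.1.prim hu, mul_zero]
    · rfl

open Classical in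
/-- the core identity, divisors of `c`. -/
theorem core (T : TkAlg) {f : Eis → ℂ} (hf : IsChar f) {V : ℝ → ℂ} (hV : SW V) {M : Eis}
    (h2M : (2 : Eis) ∣ M) (k : Eis) {Q : ℝ} (hQ : 0 < Q) {c : Eis} (hc : Sm M c)
    (hsq : Squarefree c) :
    (∑' b : Eis, if Sm M b then f b * tk k b c * V (nm b / Q) else 0) =
      ∑ d ∈ dvs c, f d * uwd k d * conj (sy k (cof c d)) *
        ∑' u : Eis, if Sm M u ∧ Pf u ∧ IsCoprime u c then f u * tk k u 1 *
          MV V (Q / (nm u * nm d))
            (fun q => f q * prin0 (M * u * d) q * sy k q) else 0 := by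
  rw [core_subsets T hf hV h2M k hQ hc hsq]
  have hc0 := hc.ne_zero
  refine Finset.sum_nbij' (fun S => ∏ p ∈ S, p) (fun d => pp d) ?_ ?_ ?_ ?_ ?_
  · intro S hS
    have hS' := Finset.mem_powerset.mp hS
    have hSP := (ppSet_pp c).subset hS'
    exact (mem_dvs hc0).mpr ⟨hSP.isPrim_prod, hSP.prod_dvd.mpr fun p hp => dvd_of_mem_pp (hS' hp)⟩
  · intro d hd
    exact Finset.mem_powerset.mpr (pp_mono hc0 ((mem_dvs hc0).mp hd).2)
  · intro S hS
    exact ((ppSet_pp c).subset (Finset.mem_powerset.mp hS)).pp_prod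
  · intro d hd
    have h1 := (mem_dvs hc0).mp hd
    exact prod_pp h1.1 (hsq.squarefree_of_dvd h1.2)
  · intro S hS
    have hSP := (ppSet_pp c).subset (Finset.mem_powerset.mp hS)
    unfold uwd cof
    rw [hSP.pp_prod]

end Crest.Agent.R017.NSx545
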