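import Crest.Agent.R017.NSxE_545

/-!
# Row 17, section B, leaf L3a (F): expansion for `c = c₀ ∏ p_i`

* `TS_expand0` : the pointwise expansion, `c₀` squarefree
* `sum_dvs_sqf` : `Σ_{c₀} Σ_{d ∣ c₀} = Σ_d Σ_e`, `c₀ = d e`
-/

set_option autoImplicit false

noncomputable section

open Complex
open scoped ComplexConjugate

namespace Crest.Agent.R017.NSx545

open Crest.Agent.R012 Crest.Agent.R012.Eis Crest.Agent.R012.Mob705 Crest.Agent.R012.Div277
open Crest.Agent.R012.PSer47 (IsChar)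
open Crest.Agent.R017.End699 Crest.Agent.R017.Sx545 Crest.Agent.R017.B770
open Crest.Agent.R017.Asm986 Crest.Agent.R017.PowS571

lemma sum_powerset_disjSum {α β : Type*} [DecidableEq α] [DecidableEq β] (A : Finset α)
    (B : Finset β) (F : Finset (α ⊕ β) → ℂ) :
    ∑ S ∈ (A.disjSum B).powerset, F S =
      ∑ S₁ ∈ A.powerset, ∑ S₂ ∈ B.powerset, F (S₁.disjSum S₂) := by
  rw [← Finset.sum_product']
  refine Finset.sum_nbij' (fun S => (S.toLeft, S.toRight)) (fun x => x.1.disjSum x.2) ?_ ?_ ?_ ?_ ?_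
  · intro S hS
    rw [Finset.mem_powerset, Finset.subset_disjSum] at hS
    exact Finset.mem_product.mpr ⟨Finset.mem_powerset.mpr hS.1, Finset.mem_powerset.mpr hS.2⟩
  · intro x hx
    rw [Finset.mem_product, Finset.mem_powerset, Finset.mem_powerset] at hx
    rw [Finset.mem_powerset, Finset.subset_disjSum, Finset.toLeft_disjSum, Finset.toRight_disjSum]
    exact hx
  · intro S _
    exact Finset.toLeft_disjSum_toRight
  · intro x _
    simp
  · intro S _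
    simp [Finset.toLeft_disjSum_toRight]

open Classical in
lemma prod_prin_sy {u k : Eis} (s : Finset Eis) (hs : PPSet s) :
    ∏ p ∈ s, prin0 u p * conj (sy k p) =
      prin0 u (∏ p ∈ s, p) * conj (sy k (∏ p ∈ s, p)) := by
  rw [Finset.prod_mul_distrib, sy_prod s hs]
  congr 1
  unfold prin0
  by_cases h : IsCoprime (∏ p ∈ s, p) u
  · rw [if_pos h]
    refine Finset.prod_eq_one fun p hp => ?_
    rw [if_pos (h.of_isCoprime_of_dvd_left (Finset.dvd_prod_of_mem (fun x => x) hp))]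
  · rw [if_neg h]
    by_contra hcon
    apply h
    apply IsCoprime.prod_left
    intro p hp
    by_contra h2
    exact hcon (Finset.prod_eq_zero hp (if_neg h2))

open Classical in
/-- the pointwise expansion at `c₀ ∏ P_i`. -/
theorem TS_expand0 (T : TkAlg) {f : Eis → ℂ} (hf : IsChar f) {V : ℝ → ℂ} (hV : SW V) {M : Eis}
    (h2M : (2 : Eis) ∣ M) (k : Eis) {β : ℝ}
    (hβ : ∀ x, V x ≠ 0 → 0 < x ∧ x ≤ β) {Q : ℝ} (hQ : 0 < Q) {c₀ : Eis} (hc : Sm M c₀)
    (hsq : Squarefree c₀) {ι : Type*} [DecidableEq ι] (P : ι → Eis) (s : Finset ι)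
    (h1 : ∀ i ∈ s, IsPP (P i) ∧ Sm M (P i)) (h2 : ∀ i ∈ s, ∀ j ∈ s, i ≠ j → ¬ P i ∣ P j)
    (h3 : ∀ i ∈ s, ¬ P i ∣ c₀) :
    (∑' b : Eis, if Sm M b then f b * tk k b (c₀ * ∏ i ∈ s, P i) * V (nm b / Q) else 0) =
      ∑ S ∈ s.powerset, ∑ d ∈ dvs c₀, ∑ u ∈ primBall ⌊β * Q⌋₊,
        if Sm M u ∧ Pf u ∧ IsCoprime u (d * ∏ i ∈ S, P i) then
          (∏ i ∈ S, f (P i) * uw k (P i)) * (f d * uwd k d) * (f u * tk k u 1) *
          (prin0 u (cof c₀ d) * conj (sy k (cof c₀ d))) *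
          (∏ i ∈ s \ S, prin0 u (P i) * conj (sy k (P i))) *
          MV V (Q / (nm u * (nm d * nm (∏ i ∈ S, P i))))
            (fun q => f q * prin0 (M * u * (d * ∏ i ∈ S, P i)) q * sy k q) else 0 := by
  have hc0 := hc.ne_zero
  set P' : Eis ⊕ ι → Eis := Sum.elim (fun p => p) P with hP'
  have hA1 : ∀ i ∈ (pp c₀).disjSum s, IsPP (P' i) ∧ Sm M (P' i) := by
    intro i hi
    rcases i with p | i
    · have hp := Finset.inl_mem_disjSum.mp hi
      exact ⟨isPP_of_mem_pp hp, hc.of_dvd (isPP_of_mem_pp hp).isPrim (dvd_of_mem_pp hp)⟩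
    · exact h1 i (Finset.inr_mem_disjSum.mp hi)
  have hA2 : ∀ i ∈ (pp c₀).disjSum s, ∀ j ∈ (pp c₀).disjSum s, i ≠ j → ¬ P' i ∣ P' j := by
    intro i hi j hj hij
    rcases i with p | i
    · have hp := Finset.inl_mem_disjSum.mp hi
      rcases j with q | j
      · exact ppset_facts p hp q (Finset.inl_mem_disjSum.mp hj) (fun h => hij (by rw [h]))
      · intro hd
        have hj' := Finset.inr_mem_disjSum.mp hj
        have e := (isPP_of_mem_pp hp).eq_of_dvd (h1 j hj').1 hd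
        exact h3 j hj' (by
          have := dvd_of_mem_pp hp
          rwa [show p = P j from e] at this)
    · have hi' := Finset.inr_mem_disjSum.mp hi
      rcases j with q | j
      · intro hd
        exact h3 i hi' (hd.trans (dvd_of_mem_pp (Finset.inl_mem_disjSum.mp hj)))
      · exact h2 i hi' j (Finset.inr_mem_disjSum.mp hj) (fun h => hij (by rw [h]))
  have key := TS_expand T hf hV h2M k hβ hQ P' ((pp c₀).disjSum s) hA1 hA2
  have eprod : ∏ i ∈ (pp c₀).disjSum s, P' i = c₀ * ∏ i ∈ s, P i := by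
    rw [Finset.prod_disjSum]
    simp only [hP', Sum.elim_inl, Sum.elim_inr]
    rw [prod_pp hc.prim hsq]
  rw [eprod] at key
  rw [key, sum_powerset_disjSum, Finset.sum_comm]
  refine Finset.sum_congr rfl fun S hS => ?_
  refine Finset.sum_nbij' (fun S => ∏ p ∈ S, p) (fun d => pp d) ?_ ?_ ?_ ?_ ?_
  · intro D hD
    have hD' := Finset.mem_powerset.mp hD
    have hDP := (ppSet_pp c₀).subset hD'
    exact (mem_dvs hc0).mpr ⟨hDP.isPrim_prod, hDP.prod_dvd.mpr fun p hp => dvd_of_mem_pp (hD' hp)⟩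
  · intro d hd
    exact Finset.mem_powerset.mpr (pp_mono hc0 ((mem_dvs hc0).mp hd).2)
  · intro D hD
    exact ((ppSet_pp c₀).subset (Finset.mem_powerset.mp hD)).pp_prod
  · intro d hd
    have h1 := (mem_dvs hc0).mp hd
    exact prod_pp h1.1 (hsq.squarefree_of_dvd h1.2)
  · intro D hD
    have hDP := (ppSet_pp c₀).subset (Finset.mem_powerset.mp hD)
    have hTP : PPSet (pp c₀ \ D) := (ppSet_pp c₀).subset Finset.sdiff_subset
    have e1 : ∏ i ∈ D.disjSum S, P' i = (∏ p ∈ D, p) * ∏ i ∈ S, P i := by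
      rw [Finset.prod_disjSum]; rfl
    have e2 : ∏ i ∈ D.disjSum S, f (P' i) * uw k (P' i) =
        (∏ p ∈ D, f p * uw k p) * ∏ i ∈ S, f (P i) * uw k (P i) := by
      rw [Finset.prod_disjSum]; rfl
    have e3 : (pp c₀).disjSum s \ D.disjSum S = (pp c₀ \ D).disjSum (s \ S) := by
      ext x
      rcases x with x | x <;> simp
    have e4 : ∀ u : Eis, ∏ i ∈ (pp c₀).disjSum s \ D.disjSum S, prin0 u (P' i) * conj (sy k (P' i)) =
        (∏ p ∈ pp c₀ \ D, prin0 u p * conj (sy k p)) *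
          ∏ i ∈ s \ S, prin0 u (P i) * conj (sy k (P i)) := by
      intro u
      rw [e3, Finset.prod_disjSum]; rfl
    have hfD := (isChar_prod hf (fun p : Eis => p) D (fun p hp => (hDP p hp).isPrim)).2
    refine Finset.sum_congr rfl fun u _ => ?_
    rw [e1, e2, e4]
    have e5 : cof c₀ (∏ p ∈ D, p) = ∏ p ∈ pp c₀ \ D, p := by
      unfold cof
      rw [hDP.pp_prod]
    have e6 : uwd k (∏ p ∈ D, p) = ∏ p ∈ D, uw k p := by
      unfold uwd
      rw [hDP.pp_prod]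
    split_ifs
    · rw [e5, e6, hfD, prod_prin_sy _ hTP, Finset.prod_mul_distrib, nm_mul]
      push_cast
      ring
    · rfl

open Classical in
/-- `Σ_{c squarefree} Σ_{d ∣ c} F(d, c/d) = Σ_d Σ_e F(d, e)`. -/
theorem sum_dvs_sqf (Z : ℕ) (G : Eis → ℂ) (F : Eis → Eis → ℂ) :
    ∑ c ∈ (primBall Z).filter Squarefree, G c * ∑ d ∈ dvs c, F d (cof c d) =
      ∑ d ∈ (primBall Z).filter Squarefree,
        ∑ e ∈ (primBall Z).filter (fun e => Squarefree e ∧ IsCoprime e d ∧ nm (d * e) ≤ Z),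
          G (d * e) * F d e := by
  simp only [Finset.mul_sum]
  rw [Finset.sum_sigma', Finset.sum_sigma']
  refine Finset.sum_nbij' (fun x => ⟨x.2, cof x.1 x.2⟩) (fun x => ⟨x.1 * x.2, x.1⟩) ?_ ?_ ?_ ?_ ?_
  · rintro ⟨c, d⟩ h
    simp only [Finset.mem_sigma, Finset.mem_filter, mem_primBall] at h ⊢
    obtain ⟨⟨⟨h1, h2⟩, h3⟩, h4⟩ := h
    have h5 := (mem_dvs h2.ne_zero).mp h4
    have h6 := mul_cof h2 h3 h4
    have h7 : Squarefree (d * cof c d) := by rw [h6]; exact h3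
    have h8 : nm d ≤ nm c := nm_le_of_dvd h2.ne_zero h5.2
    have h9 : nm (cof c d) ≤ nm c := nm_le_of_dvd h2.ne_zero (Dvd.intro_left d h6)
    have h10 := (squarefree_mul_iff.mp h7)
    exact ⟨⟨⟨h8.trans h1, h5.1⟩, h3.squarefree_of_dvd h5.2⟩, ⟨h9.trans h1, isPrim_cof⟩,
      h10.2.2, h10.1.isCoprime.symm, by rw [h6]; exact h1⟩
  · rintro ⟨d, e⟩ h
    simp only [Finset.mem_sigma, Finset.mem_filter, mem_primBall] at h ⊢
    obtain ⟨⟨⟨h1, h2⟩, h3⟩, ⟨h4, h5⟩, h6, h7, h8⟩ := h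
    have hp := h2.mul h5
    exact ⟨⟨⟨h8, hp⟩, squarefree_mul_iff.mpr ⟨h7.symm.isRelPrime, h3, h6⟩⟩,
      (mem_dvs hp.ne_zero).mpr ⟨h2, dvd_mul_right _ _⟩⟩
  · rintro ⟨c, d⟩ h
    simp only [Finset.mem_sigma, Finset.mem_filter, mem_primBall] at h ⊢
    obtain ⟨⟨⟨h1, h2⟩, h3⟩, h4⟩ := h
    rw [mul_cof h2 h3 h4]
  · rintro ⟨d, e⟩ h
    simp only [Finset.mem_sigma, Finset.mem_filter, mem_primBall] at h ⊢
    obtain ⟨⟨⟨h1, h2⟩, h3⟩, ⟨h4, h5⟩, h6, h7, h8⟩ := h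
    have hp := h2.mul h5
    have hsq := squarefree_mul_iff.mpr ⟨h7.symm.isRelPrime, h3, h6⟩
    have := mul_cof hp hsq ((mem_dvs hp.ne_zero).mpr ⟨h2, dvd_mul_right _ _⟩)
    rw [mul_left_cancel₀ h2.ne_zero this]
  · rintro ⟨c, d⟩ h
    simp only [Finset.mem_sigma, Finset.mem_filter, mem_primBall] at h ⊢
    obtain ⟨⟨⟨h1, h2⟩, h3⟩, h4⟩ := h
    rw [mul_cof h2 h3 h4]

end Crest.Agent.R017.NSx545
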