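import Crest.Agent.R017.NSxF_545
import Crest.Agent.R017.NWDefs_986

/-!
# Row 17, section B, leaf L3a2 (G): the pointwise expansion `NSExp2`
-/

set_option autoImplicit false

noncomputable section

open Complex
open scoped ComplexConjugate

namespace Crest.Agent.R017.NSx545

open Crest.Agent.R012 Crest.Agent.R012.Eis Crest.Agent.R012.Mob705 Crest.Agent.R012.Div277
open Crest.Agent.R012.PSer47 (IsChar)
open Crest.Agent.R017.End699 Crest.Agent.R017.Sx545 Crest.Agent.R017.B770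
open Crest.Agent.R017.Asm986 hiding uwd
open Crest.Agent.R017.PowS571

open Classical in
lemma prod_uw_eq (k : Eis) (s : Finset Eis) : PPSet s →
    ∏ p ∈ s, uw k p =
      ∑ a ∈ dvs (∏ p ∈ s, p), if a ^ 2 ∣ k then (muE a : ℂ) * nm a else 0 := by
  intro hs
  have e1 : ∑ a ∈ dvs (∏ p ∈ s, p), (if a ^ 2 ∣ k then (muE a : ℂ) * nm a else 0) =
      ∑ S ∈ s.powerset, ∏ p ∈ S, (-(if p ^ 2 ∣ k then (nm p : ℂ) else 0)) := by
    have hP0 : (∏ p ∈ s, p) ≠ 0 := hs.prod_ne_zero
    refine Finset.sum_nbij' (fun a => pp a) (fun S => ∏ p ∈ S, p) ?_ ?_ ?_ ?_ ?_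
    · intro a ha
      rw [Finset.mem_powerset, ← hs.pp_prod]
      exact pp_mono hP0 ((mem_dvs hP0).mp ha).2
    · intro S hS
      have hS' := Finset.mem_powerset.mp hS
      exact (mem_dvs hP0).mpr ⟨(hs.subset hS').isPrim_prod,
        Finset.prod_dvd_prod_of_subset _ _ _ hS'⟩
    · intro a ha
      have h1 := (mem_dvs hP0).mp ha
      have h2 : Squarefree (∏ p ∈ s, p) := by
        apply Finset.squarefree_prod_of_pairwise_isCoprime
        · intro i hi j hj hij
          exact ((hs i hi).isCoprime (hs j hj) hij).isRelPrime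
        · intro i hi
          exact (hs i hi).prime.squarefree
      exact prod_pp h1.1 (h2.squarefree_of_dvd h1.2)
    · intro S hS
      exact (hs.subset (Finset.mem_powerset.mp hS)).pp_prod
    · intro a ha
      have h1 := (mem_dvs hP0).mp ha
      have h2 : Squarefree (∏ p ∈ s, p) := by
        apply Finset.squarefree_prod_of_pairwise_isCoprime
        · intro i hi j hj hij
          exact ((hs i hi).isCoprime (hs j hj) hij).isRelPrime
        · intro i hi
          exact (hs i hi).prime.squarefree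
      have h3 := h2.squarefree_of_dvd h1.2
      have h4 := prod_pp h1.1 h3
      -- by induction on the set of primes
      have key : ∀ S : Finset Eis, PPSet S →
          (if (∏ p ∈ S, p) ^ 2 ∣ k then (muE (∏ p ∈ S, p) : ℂ) * nm (∏ p ∈ S, p) else 0) =
            ∏ p ∈ S, (-(if p ^ 2 ∣ k then (nm p : ℂ) else 0)) := by
        intro S
        induction S using Finset.induction_on with
        | empty => intro _; simp
        | insert q S hq ih =>
          intro hqS
          have hS : PPSet S := hqS.subset (Finset.subset_insert _ _)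
          have hqp := hqS q (Finset.mem_insert_self _ _)
          have hnd : ¬ q ∣ ∏ p ∈ S, p := by
            intro hd
            obtain ⟨x, hx, hdx⟩ := (Prime.dvd_finsetProd_iff hqp.prime _).mp hd
            have := hqp.eq_of_dvd (hS x hx) hdx
            exact hq (this ▸ hx)
          rw [Finset.prod_insert hq, Finset.prod_insert hq, ← ih hS]
          have hco : IsCoprime (q ^ 2) ((∏ p ∈ S, p) ^ 2) :=
            (hqp.isCoprime_iff.mpr hnd).pow
          have hdvd : (q * ∏ p ∈ S, p) ^ 2 ∣ k ↔ q ^ 2 ∣ k ∧ (∏ p ∈ S, p) ^ 2 ∣ k := by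
            rw [mul_pow]
            exact ⟨fun h => ⟨(dvd_mul_right _ _).trans h, (dvd_mul_left _ _).trans h⟩,
              fun h => hco.mul_dvd h.1 h.2⟩
          have hmu : (muE (q * ∏ p ∈ S, p) : ℂ) = -(muE (∏ p ∈ S, p) : ℂ) := by
            rw [muE_mul hqp.ne_zero hS.prod_ne_zero (hqp.isCoprime_iff.mpr hnd),
              muE_prime hqp.prime]
            push_cast; ring
          by_cases h5 : q ^ 2 ∣ k
          · by_cases h6 : (∏ p ∈ S, p) ^ 2 ∣ k
            · rw [if_pos (hdvd.mpr ⟨h5, h6⟩), if_pos h5, if_pos h6, hmu, nm_mul]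
              push_cast; ring
            · rw [if_neg (fun h => h6 (hdvd.mp h).2), if_neg h6, mul_zero]
          · rw [if_neg (fun h => h5 (hdvd.mp h).1), if_neg h5, neg_zero, zero_mul]
      have := key (pp a) (ppSet_pp a)
      rw [h4] at this
      exact this
  rw [e1, ← Finset.prod_one_add]
  refine Finset.prod_congr rfl fun p _ => ?_
  unfold uw
  ring

lemma uwd_eq {k d : Eis} (hd : IsPrim d) (hsq : Squarefree d) :
    Crest.Agent.R017.Asm986.uwd k d = uwd k d := by
  have h := prod_uw_eq k (pp d) (ppSet_pp d)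
  rw [prod_pp hd hsq] at h
  unfold uwd Crest.Agent.R017.Asm986.uwd
  rw [h]

open Classical in
/-- the amplifier primes are larger than `c₀`. -/
lemma tup_ndvd {h : ℝ → ℂ} (hh : HW h) {r : ℕ} {y Q₀ κ₀ : ℝ} {J : Finset (Fin r)}
    {M c₀ : Eis} (hM0 : M ≠ 0) (hc₀ : c₀ ≠ 0) (hQ₀ : 1 ≤ Q₀)
    (hM : (nm M : ℝ) * Real.exp κ₀ * 9 < Q₀ ^ (y / r))
    (hn : (nm c₀ : ℝ) ≤ Real.exp (κ₀ + 1))
    {p : ∀ _ : J, Eis} (hp : p ∈ tup r y Q₀ J)
    (hne : (∏ i : J, h (Real.log (nm (p i)) - kap r y Q₀ i)) ≠ 0) :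
    ∀ i ∈ J, ¬ ex J p i ∣ c₀ := by
  have hQ0 : 0 < Q₀ := by linarith
  intro i hi hd
  rw [ex_coe J p ⟨i, hi⟩] at hd
  have h1 := NatP401.mem_prS.mp (Fintype.mem_piFinset.mp hp ⟨i, hi⟩)
  have h2 : |Real.log (nm (p ⟨i, hi⟩)) - kap r y Q₀ i| ≤ 1 := by
    apply hh.supp
    intro h0
    apply hne
    apply Finset.prod_eq_zero (i := (⟨i, hi⟩ : J)) (Finset.mem_univ _)
    exact h0
  have h3 := (abs_le.mp h2).1
  have hpos : (0 : ℝ) < nm (p ⟨i, hi⟩) := by exact_mod_cast nm_pos.mpr h1.1.ne_zero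
  have h5 : Real.exp (kap r y Q₀ i - 1) ≤ nm (p ⟨i, hi⟩) := by
    rw [← Real.exp_log hpos]
    exact Real.exp_le_exp.mpr (by linarith)
  have h6 : Q₀ ^ (y / r) * Real.exp (-1) ≤ Real.exp (kap r y Q₀ i - 1) := by
    rw [Real.rpow_def_of_pos hQ0, ← Real.exp_add]
    apply Real.exp_le_exp.mpr
    unfold kap
    have : (0 : ℝ) ≤ ((i : Fin r) : ℝ) := by positivity
    have e : Real.log Q₀ * (y / r) = y / r * Real.log Q₀ := by ring
    rw [e]
    linarith
  have h7 : (nm (p ⟨i, hi⟩) : ℝ) ≤ nm c₀ := by exact_mod_cast nm_le_of_dvd hc₀ hd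
  have hM1 : (1 : ℝ) ≤ nm M := by exact_mod_cast nm_pos.mpr hM0
  have h8 : Q₀ ^ (y / r) ≤ Real.exp κ₀ * (Real.exp 1 * Real.exp 1) := by
    have e1 : Q₀ ^ (y / r) * Real.exp (-1) ≤ Real.exp (κ₀ + 1) := by linarith
    have e2 : Q₀ ^ (y / r) = Q₀ ^ (y / r) * Real.exp (-1) * Real.exp 1 := by
      rw [mul_assoc, ← Real.exp_add]; simp
    rw [e2]
    calc Q₀ ^ (y / r) * Real.exp (-1) * Real.exp 1 ≤ Real.exp (κ₀ + 1) * Real.exp 1 := by gcongr
      _ = _ := by rw [Real.exp_add]; ring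
  have h9 : Real.exp 1 * Real.exp 1 ≤ 9 := by
    have := Real.exp_one_lt_d9
    have h0 := Real.exp_pos 1
    nlinarith
  have h10 := Real.exp_pos κ₀
  have h11 : Real.exp κ₀ * (Real.exp 1 * Real.exp 1) ≤ (nm M : ℝ) * Real.exp κ₀ * 9 := by
    calc Real.exp κ₀ * (Real.exp 1 * Real.exp 1) ≤ Real.exp κ₀ * 9 := by gcongr
      _ = 1 * Real.exp κ₀ * 9 := by ring
      _ ≤ _ := by gcongr
  linarith

lemma mem_sqB {κ : ℝ} {c : Eis} :
    c ∈ sqB κ ↔ (IsPrim c ∧ Squarefree c) ∧ (nm c : ℝ) ≤ Real.exp (κ + 1) := by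
  classical
  unfold sqB
  rw [Finset.mem_filter, mem_primBall, Nat.le_floor_iff (Real.exp_pos _).le]
  tauto

lemma mem_sqS {M : Eis} {κ : ℝ} {c : Eis} :
    c ∈ sqS M κ ↔ ((IsPrim c ∧ Squarefree c) ∧ (nm c : ℝ) ≤ Real.exp (κ + 1)) ∧ IsCoprime c M := by
  classical
  unfold sqS
  rw [Finset.mem_filter, mem_sqB]

open Classical in
/-- **L3a2**: the pointwise expansion of `NSumS`. -/
theorem nsExp2 (T : TkAlg) : NSExp2 := by
  intro h₀ h hh₀ hh V hV M f g h2M h3M hM0 hf hg r y Q₀ κ₀ Q hr hy hQ₀ hκ₀ hQ hM J k hk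
  obtain ⟨β, hβ1, hβ⟩ := sw_bound hV
  set X := ⌊β * Q⌋₊ with hX
  have hM9 : (nm M : ℝ) < Q₀ ^ (y / r) / 9 := by
    rw [lt_div_iff₀ (by norm_num)]
    refine lt_of_le_of_lt ?_ hM
    have h1 : (1 : ℝ) ≤ Real.exp κ₀ := Real.one_le_exp hκ₀
    have h2 : (0 : ℝ) ≤ nm M := by positivity
    nlinarith [mul_le_mul_of_nonneg_left h1 h2]
  set A : Eis → Fin r → Eis → ℂ := fun u i q => (g q * prin0 u q * conj (sy k q)) *
    h (Real.log (nm q) - kap r y Q₀ i) with hA
  set B : Fin r → Eis → ℂ := fun i q => h (Real.log (nm q) - kap r y Q₀ i) * (f q * g q) * uw k q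
    with hB
  set Φ : ∀ (_ : Eis) (S : Finset (Fin r)) (_ : Eis) (_ : ∀ _ : S, Eis), ℂ := fun d S u z =>
    (∏ i : S, B i (z i)) * (if Sm M u ∧ Pf u ∧ IsCoprime u (d * ∏ i : S, z i) then
      f u * tk k u 1 * MV V (Q / (nm u * (nm d * nm (∏ i : S, z i))))
        (fun q => f q * prin0 (M * (u * (d * ∏ i : S, z i))) q * sy k q) else 0) with hΦ
  set E : Eis → Eis → ℂ := fun u e => g e * prin0 u e * conj (sy k e) with hE
  set INN : Eis → Eis → ℂ := fun d e => (f d * g d) * uwd k d * ∑ S ∈ J.powerset,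
    ∑ u ∈ primBall X, E u e * ((∑ z ∈ tup r y Q₀ S, Φ d S u z) *
      Amp h r y Q₀ (J \ S) (fun q => g q * prin0 u q * conj (sy k q))) with hINN
  -- the sum for one `c₀`
  have step1 : ∀ c₀ ∈ sqS M κ₀,
      ∑ p ∈ tup r y Q₀ J, (∏ i : J, h (Real.log (nm (p i)) - kap r y Q₀ i)) *
        g (c₀ * ∏ i : J, p i) *
        (∑' b : Eis, if Sm M b then f b * tk k b (c₀ * ∏ i : J, p i) * V (nm b / Q) else 0) =
      ∑ d ∈ dvs c₀, INN d (cof c₀ d) := by
    intro c₀ hc₀
    obtain ⟨⟨⟨hcp, hcsq⟩, hcn⟩, hcM⟩ := mem_sqS.mp hc₀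
    have hcS : Sm M c₀ := ⟨hcp, hcM⟩
    have key : ∀ p ∈ tup r y Q₀ J,
        (∏ i : J, h (Real.log (nm (p i)) - kap r y Q₀ i)) * g (c₀ * ∏ i : J, p i) *
          (∑' b : Eis, if Sm M b then f b * tk k b (c₀ * ∏ i : J, p i) * V (nm b / Q) else 0) =
        ∑ S ∈ J.powerset, ∑ d ∈ dvs c₀, ∑ u ∈ primBall X,
          ((f d * g d) * uwd k d * E u (cof c₀ d)) *
          (if hS : S ⊆ J then Φ d S u (res hS p) * ∏ i ∈ J \ S, A u i (ex J p i) else 0) := by
      intro p hp
      have hprim : ∀ i ∈ J, IsPrim (ex J p i) := by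
        intro i hi
        have h1 := (NatP401.mem_prS.mp (Fintype.mem_piFinset.mp hp ⟨i, hi⟩)).1
        rw [← ex_coe J p ⟨i, hi⟩] at h1
        exact h1.isPrim
      have hprod : ∏ i : J, p i = ∏ i ∈ J, ex J p i := prod_ex J p (fun _ q => q)
      have hgp : g (∏ i : J, p i) = ∏ i ∈ J, g (ex J p i) := by
        rw [hprod]
        exact (isChar_prod hg _ J hprim).2
      have hPp : IsPrim (∏ i : J, p i) := by
        rw [hprod]
        exact (isChar_prod hg _ J hprim).1
      have hgc : g (c₀ * ∏ i : J, p i) = g c₀ * ∏ i ∈ J, g (ex J p i) := by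
        rw [hg.mul _ _ hcp hPp, hgp]
      have hhp : (∏ i : J, h (Real.log (nm (p i)) - kap r y Q₀ i)) =
          ∏ i ∈ J, h (Real.log (nm (ex J p i)) - kap r y Q₀ i) :=
        prod_ex J p (fun i q => h (Real.log (nm q) - kap r y Q₀ i))
      have hterm : ∀ S ∈ J.powerset, ∀ d ∈ dvs c₀, ∀ u ∈ primBall X,
          ((f d * g d) * uwd k d * E u (cof c₀ d)) *
          (if hS : S ⊆ J then Φ d S u (res hS p) * ∏ i ∈ J \ S, A u i (ex J p i) else 0) =
          (∏ i : J, h (Real.log (nm (p i)) - kap r y Q₀ i)) * g (c₀ * ∏ i : J, p i) *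
          (if Sm M u ∧ Pf u ∧ IsCoprime u (d * ∏ i ∈ S, ex J p i) then
            (∏ i ∈ S, f (ex J p i) * uw k (ex J p i)) * (f d * uwd k d) * (f u * tk k u 1) *
            (prin0 u (cof c₀ d) * conj (sy k (cof c₀ d))) *
            (∏ i ∈ J \ S, prin0 u (ex J p i) * conj (sy k (ex J p i))) *
            MV V (Q / (nm u * (nm d * nm (∏ i ∈ S, ex J p i))))
              (fun q => f q * prin0 (M * u * (d * ∏ i ∈ S, ex J p i)) q * sy k q) else 0) := by
        intro S hS d hd u _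
        have hSJ : S ⊆ J := Finset.mem_powerset.mp hS
        have hdp := (mem_dvs hcp.ne_zero).mp hd
        have hgcd : g c₀ = g d * g (cof c₀ d) := by
          nth_rw 1 [← mul_cof hcp hcsq hd]
          rw [hg.mul _ _ hdp.1 isPrim_cof]
        rw [dif_pos hSJ, hgc, hhp, hgcd]
        have e1 : ∏ i : S, res hSJ p i = ∏ i ∈ S, ex J p i := by
          rw [prod_ex S (res hSJ p) (fun _ q => q)]
          exact Finset.prod_congr rfl fun i hi => ex_res hSJ p hi
        have e2 : ∏ i : S, B i (res hSJ p i) = ∏ i ∈ S, B i (ex J p i) := by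
          rw [prod_ex S (res hSJ p) B]
          exact Finset.prod_congr rfl fun i hi => by rw [ex_res hSJ p hi]
        simp only [hΦ, hE]
        rw [e1, e2, ← Finset.prod_sdiff hSJ, ← Finset.prod_sdiff hSJ (f := fun i => g (ex J p i))]
        simp only [hA, hB, Finset.prod_mul_distrib, mul_assoc M u]
        split_ifs
        · ring
        · ring
      rw [Finset.sum_congr rfl fun S hS => Finset.sum_congr rfl fun d hd =>
        Finset.sum_congr rfl fun u hu => hterm S hS d hd u hu]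
      simp only [← Finset.mul_sum]
      by_cases h0 : (∏ i : J, h (Real.log (nm (p i)) - kap r y Q₀ i)) = 0
      · rw [h0, zero_mul, zero_mul, zero_mul]
      · obtain ⟨g1, g2⟩ := tup_good hh hM0 hM9 hQ₀ hp h0
        have g3 := tup_ndvd hh hM0 hcp.ne_zero hQ₀ hM hcn hp h0
        congr 1
        rw [hprod]
        exact TS_expand0 T hf hV h2M k hβ hQ hcS hcsq (ex J p) J g1 g2 g3
    rw [Finset.sum_congr rfl key]
    rw [Finset.sum_comm]
    have key2 : ∀ S ∈ J.powerset, ∑ p ∈ tup r y Q₀ J, ∑ d ∈ dvs c₀, ∑ u ∈ primBall X,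
          ((f d * g d) * uwd k d * E u (cof c₀ d)) *
          (if hS : S ⊆ J then Φ d S u (res hS p) * ∏ i ∈ J \ S, A u i (ex J p i) else 0) =
        ∑ d ∈ dvs c₀, ∑ u ∈ primBall X, ((f d * g d) * uwd k d * E u (cof c₀ d)) *
          ((∑ z ∈ tup r y Q₀ S, Φ d S u z) *
            Amp h r y Q₀ (J \ S) (fun q => g q * prin0 u q * conj (sy k q))) := by
      intro S hS
      have hSJ : S ⊆ J := Finset.mem_powerset.mp hS
      rw [Finset.sum_comm]
      refine Finset.sum_congr rfl fun d _ => ?_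
      rw [Finset.sum_comm]
      refine Finset.sum_congr rfl fun u _ => ?_
      rw [← Finset.mul_sum]
      congr 1
      simp only [dif_pos hSJ]
      exact sum_tup_split (fun i => prS (kap r y Q₀ i)) hSJ (Φ d S u) (A u)
    rw [Finset.sum_congr rfl key2, Finset.sum_comm]
    refine Finset.sum_congr rfl fun d _ => ?_
    simp only [hINN]
    rw [Finset.mul_sum]
    refine Finset.sum_congr rfl fun S _ => ?_
    rw [Finset.mul_sum]
    refine Finset.sum_congr rfl fun u _ => ?_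
    ring
  -- the left side
  have step2 : NSumS h₀ h r y Q₀ κ₀ J M f g V Q k =
      ∑ c₀ ∈ (primBall ⌊Real.exp (κ₀ + 1)⌋₊).filter Squarefree,
        (if IsCoprime c₀ M then h₀ (Real.log (nm c₀) - κ₀) else 0) *
          ∑ d ∈ dvs c₀, INN d (cof c₀ d) := by
    unfold NSumS
    rw [show (primBall ⌊Real.exp (κ₀ + 1)⌋₊).filter Squarefree = sqB κ₀ from rfl]
    have e1 : ∑ c₀ ∈ sqB κ₀, (if IsCoprime c₀ M then h₀ (Real.log (nm c₀) - κ₀) else 0) *
          ∑ d ∈ dvs c₀, INN d (cof c₀ d) =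
        ∑ c₀ ∈ sqS M κ₀, h₀ (Real.log (nm c₀) - κ₀) * ∑ d ∈ dvs c₀, INN d (cof c₀ d) := by
      unfold sqS
      rw [Finset.sum_filter]
      refine Finset.sum_congr rfl fun c _ => ?_
      split_ifs <;> ring
    rw [e1]
    refine Finset.sum_congr rfl fun c₀ hc₀ => ?_
    rw [step1 c₀ hc₀]
  rw [step2, sum_dvs_sqf]
  -- the right side
  rw [show sqS M κ₀ = (((primBall ⌊Real.exp (κ₀ + 1)⌋₊).filter Squarefree).filter
    (fun c => IsCoprime c M)) from rfl]
  rw [Finset.sum_filter (s := (primBall ⌊Real.exp (κ₀ + 1)⌋₊).filter Squarefree)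
    (fun c => IsCoprime c M)]
  refine Finset.sum_congr rfl fun d hd => ?_
  rw [show (primBall ⌊Real.exp (κ₀ + 1)⌋₊).filter Squarefree = sqB κ₀ from rfl] at hd
  obtain ⟨⟨hdp, hdsq⟩, hdn⟩ := mem_sqB.mp hd
  have hd0 := hdp.ne_zero
  have hdpos : (0 : ℝ) < nm d := by exact_mod_cast nm_pos.mpr hd0
  split_ifs with hdM
  swap
  · refine Finset.sum_eq_zero fun e _ => ?_
    rw [if_neg (fun h' => hdM h'.of_mul_left_left), zero_mul]
  -- the cofactor sum
  have hexp : Real.exp (κ₀ - Real.log (nm d) + 1) = Real.exp (κ₀ + 1) / nm d := by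
    rw [show κ₀ - Real.log (nm d) + 1 = (κ₀ + 1) - Real.log (nm d) by ring, Real.exp_sub,
      Real.exp_log hdpos]
  have step3 : ∑ e ∈ (primBall ⌊Real.exp (κ₀ + 1)⌋₊).filter
        (fun e => Squarefree e ∧ IsCoprime e d ∧ nm (d * e) ≤ ⌊Real.exp (κ₀ + 1)⌋₊),
        (if IsCoprime (d * e) M then h₀ (Real.log (nm (d * e)) - κ₀) else 0) * INN d e =
      ∑ e ∈ sqB (κ₀ - Real.log (nm d)),
        (prin0 (M * d) e * h₀ (Real.log (nm e) - (κ₀ - Real.log (nm d)))) * INN d e := by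
    have hset : (primBall ⌊Real.exp (κ₀ + 1)⌋₊).filter
        (fun e => Squarefree e ∧ IsCoprime e d ∧ nm (d * e) ≤ ⌊Real.exp (κ₀ + 1)⌋₊) =
        (sqB (κ₀ - Real.log (nm d))).filter (fun e => IsCoprime e d) := by
      ext e
      rw [Finset.mem_filter, Finset.mem_filter, mem_sqB, mem_primBall,
        Nat.le_floor_iff (Real.exp_pos _).le, Nat.le_floor_iff (Real.exp_pos _).le, hexp,
        le_div_iff₀ hdpos, nm_mul]
      push_cast
      constructor
      · rintro ⟨⟨h1, h2⟩, h3, h4, h5⟩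
        exact ⟨⟨⟨h2, h3⟩, by linarith⟩, h4⟩
      · rintro ⟨⟨⟨h2, h3⟩, h5⟩, h4⟩
        have hd1 : (1 : ℝ) ≤ nm d := by exact_mod_cast nm_pos.mpr hd0
        have he0 : (0 : ℝ) ≤ nm e := by positivity
        exact ⟨⟨by nlinarith, h2⟩, h3, h4, by linarith⟩
    rw [hset, Finset.sum_filter]
    refine Finset.sum_congr rfl fun e he => ?_
    obtain ⟨⟨hep, hesq⟩, hen⟩ := mem_sqB.mp he
    have hepos : (0 : ℝ) < nm e := by exact_mod_cast nm_pos.mpr hep.ne_zero
    by_cases hed : IsCoprime e d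
    · rw [if_pos hed]
      by_cases heM : IsCoprime e M
      · rw [if_pos (hdM.mul_left heM)]
        unfold prin0
        rw [if_pos (heM.mul_right hed), one_mul, nm_mul]
        push_cast
        rw [Real.log_mul hdpos.ne' hepos.ne']
        congr 2
        ring
      · unfold prin0
        rw [if_neg (fun h' => heM h'.of_mul_left_right),
          if_neg (fun h' => heM h'.of_mul_right_left), zero_mul, zero_mul]
        ring
    · unfold prin0
      rw [if_neg hed, if_neg (fun h' => hed h'.of_mul_right_right), zero_mul, zero_mul]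
  rw [step3]
  simp only [hINN]
  rw [uwd_eq hdp hdsq]
  -- pull out
  have step4 : ∀ e : Eis, (prin0 (M * d) e * h₀ (Real.log (nm e) - (κ₀ - Real.log (nm d)))) *
      ((f d * g d) * uwd k d * ∑ S ∈ J.powerset,
        ∑ u ∈ primBall X, E u e * ((∑ z ∈ tup r y Q₀ S, Φ d S u z) *
          Amp h r y Q₀ (J \ S) (fun q => g q * prin0 u q * conj (sy k q)))) =
      (f d * g d) * uwd k d * ∑ S ∈ J.powerset, ∑ u ∈ primBall X,
        ((prin0 (M * d) e * h₀ (Real.log (nm e) - (κ₀ - Real.log (nm d)))) * E u e) *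
        ((∑ z ∈ tup r y Q₀ S, Φ d S u z) *
          Amp h r y Q₀ (J \ S) (fun q => g q * prin0 u q * conj (sy k q))) := by
    intro e
    rw [mul_left_comm]
    congr 1
    rw [Finset.mul_sum]
    refine Finset.sum_congr rfl fun S _ => ?_
    rw [Finset.mul_sum]
    refine Finset.sum_congr rfl fun u _ => ?_
    ring
  rw [Finset.sum_congr rfl fun e _ => step4 e, ← Finset.mul_sum, Finset.sum_comm]
  congr 1
  refine Finset.sum_congr rfl fun S hS => ?_
  have hSJ : S ⊆ J := Finset.mem_powerset.mp hS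
  rw [Finset.sum_comm]
  have step5 : ∀ u ∈ primBall X, ∑ e ∈ sqB (κ₀ - Real.log (nm d)),
      ((prin0 (M * d) e * h₀ (Real.log (nm e) - (κ₀ - Real.log (nm d)))) * E u e) *
        ((∑ z ∈ tup r y Q₀ S, Φ d S u z) *
          Amp h r y Q₀ (J \ S) (fun q => g q * prin0 u q * conj (sy k q))) =
      ∑ z ∈ tup r y Q₀ S, Φ d S u z * (AS h₀ (κ₀ - Real.log (nm d))
        (fun q => g q * prin0 (M * (d * u)) q * conj (sy k q)) *
          Amp h r y Q₀ (J \ S) (fun q => g q * prin0 u q * conj (sy k q))) := by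
    intro u _
    rw [← Finset.sum_mul, ← Finset.sum_mul]
    have e1 : ∑ e ∈ sqB (κ₀ - Real.log (nm d)),
        (prin0 (M * d) e * h₀ (Real.log (nm e) - (κ₀ - Real.log (nm d)))) * E u e =
        AS h₀ (κ₀ - Real.log (nm d)) (fun q => g q * prin0 (M * (d * u)) q * conj (sy k q)) := by
      unfold AS
      refine Finset.sum_congr rfl fun e _ => ?_
      simp only [hE]
      have e2 : prin0 (M * (d * u)) e = prin0 (M * d) e * prin0 u e := by
        unfold prin0
        rw [← mul_assoc]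
        by_cases h1 : IsCoprime e (M * d)
        · by_cases h2 : IsCoprime e u
          · rw [if_pos (h1.mul_right h2), if_pos h1, if_pos h2, one_mul]
          · rw [if_neg (fun h' => h2 h'.of_mul_right_right), if_neg h2, mul_zero]
        · rw [if_neg (fun h' => h1 h'.of_mul_right_left), if_neg h1, zero_mul]
      rw [e2]
      ring
    rw [e1]
    ring
  rw [Finset.sum_congr rfl step5, Finset.sum_comm]
  refine Finset.sum_congr rfl fun z hz => ?_
  have hz0 : ∀ i : S, z i ≠ 0 := fun i =>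
    (NatP401.mem_prS.mp (Fintype.mem_piFinset.mp hz i)).1.ne_zero
  have hc0 : (d * ∏ i : S, z i) ≠ 0 :=
    mul_ne_zero hd0 (Finset.prod_ne_zero_iff.mpr fun i _ => hz0 i)
  rw [tsum_eq_sum (s := primBall X)]
  · rw [Finset.mul_sum]
    refine Finset.sum_congr rfl fun u _ => ?_
    simp only [hΦ, hB]
    split_ifs
    · ring
    · ring
  · intro u hu
    split_ifs with h1
    · have h2 : (nm u : ℝ) * (nm d * nm (∏ i : S, z i)) = nm u * nm (d * ∏ i : S, z i) := by
        rw [nm_mul]; push_cast; ring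
      rw [h2, MV_large hβ hQ hc0 h1.1.prim hu, mul_zero, mul_zero]
    · rfl

/-- **L3a2**, unconditional. -/
theorem nsExp2' : Asm986.NSExp2 := nsExp2 Tk545.tkAlg

end Crest.Agent.R017.NSx545
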