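import Crest.Agent.R017.E2b_440

/-!
# Row 17, natural cubic series at frequencies with cubes (helper47)

* `gs_p3 : gs (r p³) (p³ d) = q³ gs r d - [p ∤ d] q² gs r d` (any `r`)
* `DS_cube`, `NT_cube : NT M (h p³) φ = NT (M p) h φ + q³ NT M h (φ (p³ ·))` (any `h`)
-/

set_option autoImplicit false
set_option linter.unusedVariables false

noncomputable section

open Complex
open scoped ComplexConjugate

namespace Crest.Agent.R017.NT47

open Crest.Agent.R012 Crest.Agent.R012.Eis Crest.Agent.R012.GaussLoc283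
open Crest.Agent.R017.Sx545 (Sm)
open Crest.Agent.R017.E2440

variable {M p h : Eis}

lemma gs_shift (hp : IsPrim p) (r : Eis) (j : ℕ) :
    gs (r * p ^ 3) (p ^ (j + 1 + 3)) = (nm p : ℂ) ^ 3 * gs r (p ^ (j + 1)) := by
  by_cases h : p ^ j ∣ r
  · obtain ⟨s, rfl⟩ := h
    have e1 : p ^ j * s * p ^ 3 = s * p ^ (j + 3) := by ring
    have e2 : p ^ j * s = s * p ^ j := by ring
    have e3 : j + 1 + 3 = (j + 3) + 1 := by ring
    rw [e1, e3, gs_pow syAx s hp (j + 3), e2, gs_pow syAx s hp j]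
    have h1 : tw (j + 3 + 1) s p = tw (j + 1) s p := by
      rw [show j + 3 + 1 = j + 1 + 3 by ring]
      exact tw_add_three syAx j s hp
    rw [h1]; ring
  · have h1 : ¬ p ^ (j + 3) ∣ r * p ^ 3 := by
      intro h2
      apply h
      rw [pow_add] at h2
      exact (mul_dvd_mul_iff_right (pow_ne_zero 3 hp.ne_zero)).mp h2
    rw [gs_pow_of_not_dvd syAx hp h, show j + 1 + 3 = (j + 3) + 1 by ring,
      gs_pow_of_not_dvd syAx hp h1, mul_zero]

lemma gs_shift0 (hp : IsPrim p) (hpp : Prime p) (r : Eis) :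
    gs (r * p ^ 3) (p ^ 3) = (nm p : ℂ) ^ 3 - (nm p : ℂ) ^ 2 := by
  have e : r * p ^ 3 = (r * p) * p ^ 2 := by ring
  rw [e, gs_pow_three syAx (r * p) hp hpp (k := 2) rfl, if_pos (dvd_mul_left _ _)]
  ring

lemma gs_shift1 (hp : IsPrim p) (hpp : Prime p) (r : Eis) : gs (r * p ^ 3) p = 0 :=
  gs_prime_of_dvd syAx hp hpp (dvd_mul_of_dvd_right (dvd_pow_self p (by norm_num)) r)

lemma gs_shift2 (hp : IsPrim p) (hpp : Prime p) (r : Eis) : gs (r * p ^ 3) (p ^ 2) = 0 := by
  have e : r * p ^ 3 = (r * p ^ 2) * p ^ 1 := by ring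
  rw [e, gs_pow_two syAx (r * p ^ 2) hp (k := 1) rfl,
    gs_prime_of_dvd syAx hp hpp (dvd_mul_of_dvd_right (dvd_pow_self p (by norm_num)) r)]
  simp

/-- `d = p^j d'` -/
lemma exists_pd (hp : IsPrim p) (hpp : Prime p) {d : Eis} (hd : IsPrim d) :
    ∃ (j : ℕ) (d' : Eis), IsPrim d' ∧ IsCoprime d' p ∧ d = p ^ j * d' := by
  have hfin : FiniteMultiplicity p d := FiniteMultiplicity.of_prime_left hpp hd.ne_zero
  obtain ⟨d', h1, h2⟩ := hfin.exists_eq_pow_mul_and_not_dvd
  have hdp : IsPrim d' := (h1 ▸ hd : IsPrim (p ^ multiplicity p d * d')).of_mul_left (hp.pow _)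
  exact ⟨_, d', hdp, (cop_iff hpp d').mpr h2, h1⟩

open Classical in
theorem gs_p3 (hp : IsPrim p) (hpp : Prime p) (r : Eis) {d : Eis} (hd : IsPrim d) :
    gs (r * p ^ 3) (p ^ 3 * d) = (nm p : ℂ) ^ 3 * gs r d -
      (if IsCoprime d p then (nm p : ℂ) ^ 2 * gs r d else 0) := by
  obtain ⟨j, d', hd', hc, rfl⟩ := exists_pd hp hpp hd
  have e0 : p ^ 3 * (p ^ j * d') = p ^ (j + 3) * d' := by ring
  rw [e0, gs_mul' syAx (r * p ^ 3) (hp.pow (j + 3)) hd' (hc.symm.pow_left)]
  have e1 : r * p ^ 3 * p ^ (j + 3) = ((r * p ^ j) * p ^ 3) * p ^ 3 := by ring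
  rw [e1, gs_cube_left syAx _ hd' hc.symm, gs_cube_left syAx _ hd' hc.symm,
    gs_mul' syAx r (hp.pow j) hd' (hc.symm.pow_left)]
  rcases j with _ | j
  · have h1 : IsCoprime (p ^ 0 * d') p := by rw [pow_zero, one_mul]; exact hc
    rw [if_pos h1]
    simp only [pow_zero, zero_add, mul_one]
    rw [gs_shift0 hp hpp, gs_one_right syAx]
    ring
  · have h1 : ¬ IsCoprime (p ^ (j + 1) * d') p := by
      intro h2
      rw [cop_iff hpp] at h2
      exact h2 (dvd_mul_of_dvd_left (dvd_pow_self p (by omega)) d')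
    rw [if_neg h1, gs_shift hp]
    ring

open Classical in
lemma DS_eq {M u : Eis} {ψ : Eis → ℂ} :
    DS M u ψ = ∑' d : Eis, if Sm M d then conj (gs u d) * ψ d else 0 := by
  unfold DS
  refine tsum_congr fun d => ?_
  split_ifs <;> rfl

theorem DS_cube (hp : Sm M p) (hpp : Prime p) (h : Eis) {ψ : Eis → ℂ} (hψ : Dcy ψ) :
    DS M (h * p ^ 3) ψ = DS (M * p) h ψ + (nm p : ℂ) ^ 3 * DS M h (fun d => ψ (p ^ 3 * d)) -
      (nm p : ℂ) ^ 2 * DS (M * p) h (fun d => ψ (p ^ 3 * d)) := by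
  classical
  have hp0 := hp.ne_zero
  have hs := summable_DS (M := M) (u := h * p ^ 3) hψ
  have hs1 := summable_dil hp hs
  have hs2 := summable_dil hp hs1
  have h1 : DS M (h * p ^ 3) ψ = _ := sum_split hp hpp hs
  have h2 := sum_split hp hpp hs1
  have h3 := sum_split hp hpp hs2
  rw [h1, h2, h3]
  have z1 : ∀ d, (if Sm (M * p) d then conj (gs (h * p ^ 3) (p * d)) * ψ (p * d) else 0) = 0 := by
    intro d
    split_ifs with hd
    · rw [sm_mul_right] at hd
      have := gs_pow_mul_eq_zero (u := h * p ^ 3) (j := 1) hp.prim hd.1.prim hd.2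
        (by rw [pow_one]; exact gs_shift1 hp.prim hpp h)
      rw [pow_one] at this
      rw [this]; simp
    · rfl
  have z2 : ∀ d, (if Sm (M * p) d then conj (gs (h * p ^ 3) (p * (p * d))) * ψ (p * (p * d))
      else 0) = 0 := by
    intro d
    split_ifs with hd
    · rw [sm_mul_right] at hd
      have := gs_pow_mul_eq_zero (u := h * p ^ 3) (j := 2) hp.prim hd.1.prim hd.2
        (gs_shift2 hp.prim hpp h)
      have e : p * (p * d) = p ^ 2 * d := by ring
      rw [e, this]; simp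
    · rfl
  have hd3 := hψ.dil (pow_ne_zero 3 hp0)
  have k1 := summable_DS (M := M) (u := h) hd3
  have k2 := summable_DS (M := M * p) (u := h) hd3
  have z3 : ∑' d, (if Sm M d then conj (gs (h * p ^ 3) (p * (p * (p * d)))) *
      ψ (p * (p * (p * d))) else 0) =
      (nm p : ℂ) ^ 3 * DS M h (fun d => ψ (p ^ 3 * d)) -
        (nm p : ℂ) ^ 2 * DS (M * p) h (fun d => ψ (p ^ 3 * d)) := by
    unfold DS
    rw [← tsum_mul_left, ← tsum_mul_left, ← (k1.mul_left _).tsum_sub (k2.mul_left _)]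
    refine tsum_congr fun d => ?_
    have hmr : Sm (M * p) d ↔ Sm M d ∧ IsCoprime d p := by rw [sm_mul_right]
    by_cases hd : Sm M d
    · have e : p * (p * (p * d)) = p ^ 3 * d := by ring
      by_cases hc : IsCoprime d p
      · rw [if_pos hd, if_pos hd, if_pos (hmr.mpr ⟨hd, hc⟩), e, gs_p3 hp.prim hpp h hd.prim,
          if_pos hc]
        simp only [map_sub, map_mul, map_pow, map_natCast]
        ring
      · rw [if_pos hd, if_pos hd, if_neg (fun h' => hc (hmr.mp h').2), e,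
          gs_p3 hp.prim hpp h hd.prim, if_neg hc]
        simp only [sub_zero, map_mul, map_pow, map_natCast]
        ring
    · rw [if_neg hd, if_neg hd, if_neg (fun h' => hd (hmr.mp h').1)]
      ring
  rw [tsum_congr z1, tsum_congr z2, tsum_zero, zero_add, zero_add, z3]
  have z0 : ∑' d, (if Sm (M * p) d then conj (gs (h * p ^ 3) d) * ψ d else 0) =
      DS (M * p) h ψ := by
    unfold DS
    refine tsum_congr fun d => ?_
    split_ifs with hd
    · have hd' := hd
      rw [sm_mul_right] at hd'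
      rw [gs_cube_left syAx h hd.prim hd'.2.symm]
    · rfl
  rw [z0]
  ring

/-- **removal of a prime at a frequency divisible by its cube** -/
theorem NT_cube (hp : Sm M p) (hpp : Prime p) (h : Eis) {φ : Eis → ℂ} (hφ : Dcy φ) :
    NT M (h * p ^ 3) φ = NT (M * p) h φ + (nm p : ℂ) ^ 3 * NT M h (fun k => φ (p ^ 3 * k)) := by
  classical
  obtain ⟨C, hC0, hC⟩ := hφ.nonneg
  have hp0 := hp.ne_zero
  have hs1 := summable_NT (M := M) (u := h * p ^ 3) hφ
  have hs2 := (summable_NT (M := M) (u := h) (hφ.dil (pow_ne_zero 3 hp0))).mul_left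
    ((nm p : ℂ) ^ 3)
  have e1 : NT M (h * p ^ 3) φ - (nm p : ℂ) ^ 3 * NT M h (fun k => φ (p ^ 3 * k)) =
      ∑' e, (if Sm M e then (nm e : ℂ) ^ 2 *
        (DS (M * p) h (fun d => φ (d * e ^ 3)) - (nm p : ℂ) ^ 2 *
          DS (M * p) h (fun d => φ (d * (p * e) ^ 3))) else 0) := by
    unfold NT
    rw [← tsum_mul_left, ← hs1.tsum_sub hs2]
    refine tsum_congr fun e => ?_
    split_ifs with he
    · rw [DS_cube hp hpp h (hφ.cube he.ne_zero)]
      have h3 : (fun d => φ (p ^ 3 * d * e ^ 3)) = (fun d => φ (d * (p * e) ^ 3)) := by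
        funext d; congr 1; ring
      have h4 : (fun d => φ (p ^ 3 * d * e ^ 3)) = (fun d => φ (p ^ 3 * (d * e ^ 3))) := by
        funext d; congr 1; ring
      rw [← h3, h4]
      ring
    · simp
  rw [tele hp hpp (C := C * K0) (mul_nonneg hC0 K0_nonneg)
    (A := fun e => DS (M * p) h (fun d => φ (d * e ^ 3)))
    (fun e he => norm_DS_cube_le hC0 hC e he)] at e1
  have e2 : NT (M * p) h φ = ∑' e, (if Sm (M * p) e then (nm e : ℂ) ^ 2 *
      DS (M * p) h (fun d => φ (d * e ^ 3)) else 0) := by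
    unfold NT
    refine tsum_congr fun e => ?_
    split_ifs <;> rfl
  rw [e2, ← e1]
  ring

end Crest.Agent.R017.NT47
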