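import Crest.Agent.R017.NT1_47
import Crest.Agent.R017.E2d_440

/-!
# Row 17, natural cubic series: removal of a squarefree modulus at nominal frequency (helper47)

* `NT_rmt : NT (M t) h φ = Σ_{t = b a} μ(b) N(b)³ NT M (h a³) (φ (b³ ·))`, any `h`
-/

set_option autoImplicit false
set_option linter.unusedVariables false

noncomputable section

open Complex
open scoped ComplexConjugate

namespace Crest.Agent.R017.NT47

open Crest.Agent.R012 Crest.Agent.R012.Eis Crest.Agent.R012.GaussLoc283
open Crest.Agent.R012.Mob705 Crest.Agent.R012.Div277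
open Crest.Agent.R017.Sx545 (Sm)
open Crest.Agent.R017.E2440

/-- **removal of a squarefree modulus, any frequency** -/
theorem NT_rmt : ∀ (N : ℕ) (t : Eis), nm t ≤ N → Squarefree t → ∀ (M h : Eis), Sm M t →
    ∀ φ : Eis → ℂ, Dcy φ →
    NT (M * t) h φ = ∑ x ∈ prs t, ((muE x.1 : ℂ) * (nm x.1 : ℂ) ^ 3) *
      NT M (h * x.2 ^ 3) (fun k => φ (x.1 ^ 3 * k)) := by
  intro N
  induction N with
  | zero =>
    intro n hn _ M v hM
    have := nm_pos.mpr hM.ne_zero
    omega
  | succ N ih =>
    intro n hn hsq M v hM φ hφ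
    by_cases h1 : n = 1
    · subst h1
      rw [prs_one, Finset.sum_singleton, muE_one, nm_one]
      simp
    · obtain ⟨p, hp, hpn⟩ := exists_pp_dvd_of_isPrim hM.prim h1
      obtain ⟨m, rfl⟩ := hpn
      have hp1 := hp.isPrim
      have hpp := hp.prime
      have hp0 := hpp.ne_zero
      have hm1 : IsPrim m := hM.prim.of_mul_left hp1
      have hmS : Sm M m := hM.of_mul_left hp1
      have hpS : Sm M p := hM.of_dvd hp1 (dvd_mul_right _ _)
      have hsm : Squarefree m := hsq.of_mul_right
      have hpm : ¬ p ∣ m := by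
        intro h
        exact hpp.not_isUnit (hsq p (mul_dvd_mul_left p h))
      have hcop : IsCoprime p m := ((hpp.irreducible).coprime_iff_not_dvd).mpr hpm
      have hnm : nm m ≤ N := by
        have h2 : nm (p * m) = nm p * nm m := nm_mul _ _
        have h3 := hp.four_le_nm
        have h4 := nm_pos.mpr hm1.ne_zero
        have h5 : 4 * nm m ≤ nm p * nm m := Nat.mul_le_mul_right _ h3
        omega
      have hMm : Sm (M * p) m := ⟨hm1, hmS.2.mul_right hcop.symm⟩
      have e1 : M * (p * m) = (M * p) * m := by ring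
      rw [e1, ih m hnm hsm (M * p) v hMm φ hφ, sum_prs_p hp1 hpp hm1 hpm]
      refine Finset.sum_congr rfl fun x hx => ?_
      obtain ⟨hx1, hx2, hx3⟩ := (mem_prs hm1).mp hx
      have hpx1 : ¬ p ∣ x.1 := fun h => hpm (hx3 ▸ h.mul_right _)
      have hcx : IsCoprime p x.1 := ((hpp.irreducible).coprime_iff_not_dvd).mpr hpx1
      have hφ2 : Dcy (fun k => φ (x.1 ^ 3 * k)) := hφ.dil (pow_ne_zero 3 hx1.ne_zero)
      have hc := NT_cube hpS hpp (v * x.2 ^ 3) hφ2
      simp only
      have e4 : v * (p * x.2) ^ 3 = (v * x.2 ^ 3) * p ^ 3 := by ring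
      have e6 : (fun k => φ ((p * x.1) ^ 3 * k)) = fun k => φ (x.1 ^ 3 * (p ^ 3 * k)) := by
        funext k
        congr 1
        ring
      rw [e4, hc, e6, muE_mul hp0 hx1.ne_zero hcx, muE_prime hpp, nm_mul]
      push_cast
      ring

end Crest.Agent.R017.NT47
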