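import Crest.Agent.R017.RGwM_813
import Crest.Agent.R017.RGwL_813
import Crest.Agent.R017.I1e_146
import Crest.Agent.R017.EHu_320

/-!
# Row 17 (helper180): the T-functional with level weights under twisted windows

* `tw_sumG2`, `tw_tgf2` : 813's `tw_sumG`, `tw_tgf` with a two-sided condition on the weights
* `FT_le`  : 146's `TJ_le` for the joint index sets
* **`TJ_be`** : the T-functional `TJ c` at `bt φ α p · pw t` from the joint blocks of `α`
-/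

set_option autoImplicit false
set_option linter.unusedVariables false

noncomputable section

open Complex MeasureTheory Filter Topology
open scoped ComplexConjugate Classical

namespace Crest.Agent.R017.TJbe180

open Crest.Agent.R012 Crest.Agent.R012.Eis Crest.Agent.R012.MC
open Crest.Agent.R012.LS2 (S mem_S)
open Crest.Agent.R012.Weight600 (osc pw)
open Crest.Agent.R017.CM106 (CS TG FS)
open Crest.Agent.R017.C70 (JW)
open Crest.Agent.R017.E1551
open Crest.Agent.R017.Win813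
open Crest.Agent.R017.RGw813
open Crest.Agent.R017.I1146 (TJ TJ_le_TH gen_h mem_TH)

/-- the relation between a class and the class of `w^a λ^b r` -/
def Rl (a b : ℕ) (r r' : Eis) : Prop := r' = w ^ a * lam ^ b * r ∨ lam ^ 3 * r' = w ^ a * lam ^ b * r

lemma Rl.nm_le {a b : ℕ} (hb : b < 3) {r r' : Eis} (h : Rl a b r r') :
    nm r' ≤ 9 * nm r ∧ nm r ≤ 27 * nm r' := by
  have hnms : nm (w ^ a * lam ^ b) = 3 ^ b := by
    have := nm_wl (e := 1) (Or.inl rfl) a b 1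
    rw [one_mul, mul_one, nm_one, mul_one] at this
    exact this
  have hb9 : 3 ^ b ≤ 9 := by
    calc 3 ^ b ≤ 3 ^ 2 := Nat.pow_le_pow_right (by norm_num) (by omega)
      _ = 9 := by norm_num
  have hb1 : 1 ≤ 3 ^ b := Nat.one_le_pow _ _ (by norm_num)
  have h3 : 3 ^ b * nm r ≤ 9 * nm r := Nat.mul_le_mul_right _ hb9
  have h4 : 1 * nm r ≤ 3 ^ b * nm r := Nat.mul_le_mul_right _ hb1
  rcases h with h1 | h1
  · rw [h1, nm_mul, hnms]
    constructor
    · exact h3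
    · omega
  · have h2 := congrArg nm h1
    rw [nm_mul, nm_mul, hnms, nm_pow, nm_lam] at h2
    constructor <;> omega

lemma Rl.cf {a b : ℕ} {r r' e : Eis} (h : Rl a b r r') (hr' : CF r') (he : IsPrim e)
    (hre : CF (r * e)) : CF (r' * e) := by
  have hwa : IsUnit (w ^ a : Eis) := isUnit_w.pow a
  refine ⟨mul_ne_zero hr'.1 he.ne_zero, ?_⟩
  intro p hp hd
  by_cases hl : lam ∣ p
  · have h1 : lam ^ 3 ∣ r' * e := (pow_dvd_pow_of_dvd hl 3).trans hd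
    have h2 : IsCoprime (lam ^ 3) e := (he.isCoprime_lam.symm).pow_left
    exact hr'.2 lam prime_lam (h2.dvd_of_dvd_mul_right h1)
  · have hc : IsCoprime p lam := isCoprime_lam_iff.2 hl
    have hc1 : IsCoprime (p ^ 3) (w ^ a * lam ^ b) :=
      IsCoprime.mul_right (isCoprime_of_isUnit hwa _).symm (hc.pow)
    have h3 : p ^ 3 ∣ w ^ a * lam ^ b * (r * e) := by
      rcases h with h1 | h1
      · rw [h1] at hd
        rwa [← mul_assoc]
      · rw [← mul_assoc, ← h1, mul_assoc]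
        exact hd.mul_left _
    exact hre.2 p hp (hc1.dvd_of_dvd_mul_left h3)

/-- **moments of a twist**, at multiples of `G`, two-sided weights -/
theorem tw_sumG2 {β : Eis → ℂ} (h : FS β) {a b : ℕ} (hb : b < 3) {W : Eis → ℝ}
    {M Z : ℝ} (hM : 0 ≤ M) (hW0 : ∀ r, 0 ≤ W r)
    (hW : ∀ r r', CF r → CF r' → Rl a b r r' → W r ≤ M * W r') (G : Eis) :
    ∑ r ∈ BF Z, W r * ‖TG (tw2 a b β) (r * G)‖ ^ 2 ≤
      M * ∑ r ∈ BF (9 * Z), W r * ‖TG β (r * G)‖ ^ 2 := by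
  rw [Finset.mul_sum]
  have hwa : IsUnit (w ^ a : Eis) := isUnit_w.pow a
  set s : Eis := w ^ a * lam ^ b with hs
  have hs0 : s ≠ 0 := mul_ne_zero hwa.ne_zero (pow_ne_zero _ lam_ne_zero)
  have hex : ∀ r : Eis, ∃ r' : Eis, CF r → (CF r' ∧ (r' = s * r ∨ lam ^ 3 * r' = s * r)) := by
    intro r
    by_cases hr : CF r
    · obtain ⟨r', h1, h2⟩ := exists_red (a := a) hb hr
      exact ⟨r', fun _ => ⟨h1, h2⟩⟩
    · exact ⟨0, fun h => absurd h hr⟩
  choose ψ hψ using hex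
  have hnm : ∀ r, CF r → nm (ψ r) ≤ 9 * nm r := fun r hr =>
    (Rl.nm_le (a := a) hb (hψ r hr).2).1
  refine sum_le_inj _ _ _ _ (fun x _ => mul_nonneg hM (mul_nonneg (hW0 _) (by positivity)))
    ψ ?_ ?_ ?_
  · intro r hr
    obtain ⟨h1, h2⟩ := mem_BF.1 hr
    refine mem_BF.2 ⟨(hψ r h1).1, ?_⟩
    have h3 : (nm (ψ r) : ℝ) ≤ 9 * nm r := by exact_mod_cast hnm r h1
    linarith
  · intro r hr
    obtain ⟨h1, h2⟩ := mem_BF.1 hr
    have e1 : TG (tw2 a b β) (r * G) = TG β (ψ r * G) := by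
      have e2 := TG_wl h (e := 1) (Or.inl rfl) a b (r * G)
      rw [one_mul] at e2
      rw [← e2]
      rcases (hψ r h1).2 with h3 | h3
      · rw [h3, hs]
        congr 1
        ring
      · have e3 : w ^ a * lam ^ b * (r * G) = lam ^ 3 * (ψ r * G) := by
          rw [← mul_assoc, ← hs, ← h3]; ring
        rw [e3, TG_lam3 h]
    rw [e1, ← mul_assoc]
    exact mul_le_mul_of_nonneg_right (hW r (ψ r) h1 (hψ r h1).1 (hψ r h1).2) (by positivity)
  · intro r hr r₂ hr₂ he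
    have h1 := (mem_BF.1 hr).1
    have h2 := (mem_BF.1 hr₂).1
    have key : ∀ r r₂ : Eis, CF r₂ → ψ r = s * r → lam ^ 3 * ψ r = s * r₂ → False := by
      intro r r₂ h2 h3 h4
      rw [h3] at h4
      have h5 : s * (lam ^ 3 * r) = s * r₂ := by rw [← h4]; ring
      exact h2.2 lam prime_lam ⟨r, (mul_left_cancel₀ hs0 h5).symm⟩
    rcases (hψ r h1).2 with h3 | h3 <;> rcases (hψ r₂ h2).2 with h4 | h4
    · rw [he, h4] at h3
      exact (mul_left_cancel₀ hs0 h3).symm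
    · rw [← he] at h4
      exact (key r r₂ h2 h3 h4).elim
    · rw [he] at h3
      exact (key r₂ r h1 h4 h3).elim
    · rw [he, h4] at h3
      exact (mul_left_cancel₀ hs0 h3).symm

/-- **moments of a twist**, subsequences -/
theorem tw_tgf2 {α : Eis → ℂ} (h : FS α) {a b : ℕ} (hb : b < 3) {W : Eis → ℝ}
    {M Z : ℝ} (hM : 0 ≤ M) (hW0 : ∀ r, 0 ≤ W r)
    (hW : ∀ r r', CF r → CF r' → Rl a b r r' → W r ≤ M * W r') {g : Eis} (hg : IsPrim g)
    (G : Eis) (t : ℝ) :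
    ∑ r ∈ BF Z, W r * tgf (tw2 a b α) g (r * G) t ≤
      M * ∑ r ∈ BF (9 * Z), W r * tgf α g (r * G) t := by
  have hF : FS (fun m => α (g * m) * pw t (nm m)) :=
    ⟨(h.fin.preimage (f := fun m => g * m) (fun x _ y _ hxy =>
      mul_left_cancel₀ hg.ne_zero hxy)).subset fun m hm => left_ne_zero_of_mul hm,
      fun m hm => IsPrim.of_mul_left (h.prim _ (left_ne_zero_of_mul hm)) hg⟩
  have h1 := tw_sumG2 hF hb (Z := Z) hM hW0 hW G (a := a)
  have e1 : ∑ r ∈ BF Z, W r * tgf (tw2 a b α) g (r * G) t = ∑ r ∈ BF Z, W r *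
      ‖TG (tw2 a b (fun m => α (g * m) * pw t (nm m))) (r * G)‖ ^ 2 :=
    Finset.sum_congr rfl fun r _ => by rw [tgf_tw2 h a b hg]
  rw [e1]
  exact h1

/-! ### the joint index sets -/

/-- index set -/
def XT (Y Z : ℝ) : Finset (Σ _ : Eis, Eis × Eis) :=
  (S Y).sigma fun δ => TH Y (Z / (nm δ : ℝ) ^ 2) (fun _ => True)

/-- the divisor -/
def gT (x : Σ _ : Eis, Eis × Eis) : Eis := x.1 * x.2.1

/-- the class -/
def lT (x : Σ _ : Eis, Eis × Eis) : Eis := x.2.2 * x.2.1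

/-- the weight -/
def WT (c : Eis × Eis → Eis → ℝ) (K X : ℝ) (x : Σ _ : Eis, Eis × Eis) : ℝ :=
  c (x.1, x.2.2) x.2.1 * (nm x.1 * lm K X x.1 x.2.2)

lemma WT_nonneg {c : Eis × Eis → Eis → ℝ} (hc : ∀ x t, 0 ≤ c x t) {K X : ℝ} (hK : 0 ≤ K)
    (hX : 0 ≤ X) (x : Σ _ : Eis, Eis × Eis) : 0 ≤ WT c K X x :=
  mul_nonneg (hc _ _) (mul_nonneg (Nat.cast_nonneg _) (lm_nonneg hK hX _ _))

lemma gT_ne {Y Z : ℝ} (hY : 0 ≤ Y) {x : Σ _ : Eis, Eis × Eis} (hx : x ∈ XT Y Z) : gT x ≠ 0 := by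
  unfold XT at hx
  obtain ⟨h1, h2⟩ := Finset.mem_sigma.1 hx
  exact mul_ne_zero ((mem_S hY).1 h1).2.1.ne_zero
    ((mem_S hY).1 (mem_TH.mp h2).1.1).2.1.ne_zero

/-- the functional over the joint index sets -/
def FT (c : Eis × Eis → Eis → ℝ) (A K X Y Z : ℝ) (α : Eis → ℂ) : ℝ :=
  ∑ δ ∈ S Y, ∑ x ∈ TH Y (Z / (nm δ : ℝ) ^ 2) (fun _ => True),
    (c (δ, x.2) x.1 * (nm δ * lm K X δ x.2)) * Wb A (sg α (δ * x.1)) (x.2 * x.1)

lemma FT_eq (c : Eis × Eis → Eis → ℝ) (A : ℕ) (K X Y Z : ℝ) (α : Eis → ℂ) (t : ℝ) :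
    FT c A K X Y Z (fun n => α n * pw t (nm n)) = MG A (XT Y Z) (WT c K X) gT lT α t := by
  unfold FT MG XT
  rw [Finset.sum_sigma]
  refine Finset.sum_congr rfl fun δ _ => Finset.sum_congr rfl fun x _ => ?_
  rw [← EHu320.Wf_eq_Wb', Wf_eq]
  rfl

lemma PG_T (c : Eis × Eis → Eis → ℝ) (K X Y Z : ℝ) (α : Eis → ℂ) (t : ℝ) :
    PG (XT Y Z) (WT c K X) gT lT α t =
    ∑ δ ∈ S Y, ∑ e ∈ S Y, ∑ j ∈ BF (Z / (nm δ : ℝ) ^ 2),
      (if CF (j * e) then c (δ, j) e * (nm δ * lm K X δ j) else 0) *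
        tgf α (δ * e) (j * e) t := by
  unfold PG XT
  rw [Finset.sum_sigma]
  refine Finset.sum_congr rfl fun δ _ => ?_
  have h1 := sum_TH Y (Z / (nm δ : ℝ) ^ 2) (fun _ => True) (fun U κ =>
    c (δ, κ) U * (nm δ * lm K X δ κ) * tgf α (δ * U) (κ * U) t)
  refine (Eq.trans ?_ h1).trans ?_
  · rfl
  · refine Finset.sum_congr (by ext y; simp) fun e _ => ?_
    unfold BU
    rw [Finset.sum_filter]
    refine Finset.sum_congr rfl fun j _ => ?_
    split_ifs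
    · rfl
    · rw [zero_mul]

lemma PG_tw_T {c : Eis × Eis → Eis → ℝ} (hc : ∀ x t, 0 ≤ c x t) {m : ℝ} (hm : 0 ≤ m)
    (hcr : ∀ δ e r r', r ≠ 0 → r' ≠ 0 → nm r' ≤ 9 * nm r → nm r ≤ 27 * nm r' →
      c (δ, r) e ≤ m * c (δ, r') e)
    {K X X' Y Z r : ℝ} (hK : 0 < K) (hX : 0 < X) (hX' : 0 < X') (hY : 0 ≤ Y) (hr : 1 ≤ r)
    (hXX : X' ≤ r * X) {α : Eis → ℂ} (h : FS α) {a b : ℕ} (hb : b < 3) (t : ℝ) :
    PG (XT Y Z) (WT c K X') gT lT (tw2 a b α) t ≤
      3 * m * r * PG (XT Y (9 * Z)) (WT c K X) gT lT α t := by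
  rw [PG_T, PG_T, Finset.mul_sum]
  refine Finset.sum_le_sum fun δ hδ => ?_
  rw [Finset.mul_sum]
  refine Finset.sum_le_sum fun e he => ?_
  have hδp := ((mem_S hY).1 hδ).2.1
  have hep := ((mem_S hY).1 he).2.1
  have hδ0 := hδp.ne_zero
  have h1 := tw_tgf2 h (a := a) hb (Z := Z / (nm δ : ℝ) ^ 2) (M := 3 * m)
    (W := fun j => if CF (j * e) then c (δ, j) e * (nm δ * lm K X' δ j) else 0) (by positivity)
    (fun j => by
      split_ifs
      · exact mul_nonneg (hc _ _) (mul_nonneg (Nat.cast_nonneg _) (lm_nonneg hK.le hX'.le _ _))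
      · exact le_rfl)
    (fun j j' hj hj' hR => by
      obtain ⟨k1, k2⟩ := hR.nm_le hb
      have l0 := lm_nonneg hK.le hX'.le δ j
      have l1 := lm_nonneg hK.le hX'.le δ j'
      have l2 := lm_nine hK hX' hδ0 hj.1 hj'.1 k1
      have l3 := hcr δ e j j' hj.1 hj'.1 k1 k2
      by_cases hcf : CF (j * e)
      · rw [if_pos hcf, if_pos (hR.cf hj' hep hcf)]
        calc c (δ, j) e * (nm δ * lm K X' δ j) ≤
              (m * c (δ, j') e) * (nm δ * (3 * lm K X' δ j')) := by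
              have := hc (δ, j') e
              gcongr
          _ = _ := by ring
      · rw [if_neg hcf]
        split_ifs
        · have := hc (δ, j') e
          positivity
        · simp) (hδp.mul hep) e t
  rw [← mul_div_assoc] at h1
  refine h1.trans ?_
  rw [mul_assoc (3 * m) r]
  refine mul_le_mul_of_nonneg_left ?_ (by positivity)
  rw [Finset.mul_sum]
  refine Finset.sum_le_sum fun j _ => ?_
  refine (mul_le_mul_of_nonneg_right (b := (if CF (j * e) then c (δ, j) e *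
    (nm δ * lm K X' δ j) else 0)) (c := r * (if CF (j * e) then c (δ, j) e *
    (nm δ * lm K X δ j) else 0)) ?_ (tgf_nonneg _ _ _ _)).trans (le_of_eq (by ring))
  by_cases hcf : CF (j * e)
  · simp only [if_pos hcf]
    calc c (δ, j) e * (nm δ * lm K X' δ j) ≤ c (δ, j) e * (nm δ * (r * lm K X δ j)) := by
          have := hc (δ, j) e
          have := lm_scale (d := δ) (κ := j) hK hX hX' hr hXX
          gcongr
      _ = _ := by ring
  · simp [if_neg hcf]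

/-- **the functional over the joint index sets as one number** (146's `TJ_le`) -/
theorem FT_le {A J ε : ℝ} (hA : J + 1 < A) (hJ : 0 ≤ J) (hε : 0 < ε) : ∃ C : ℝ, 0 ≤ C ∧
    ∀ (P K X Y Z M : ℝ) (α : Eis → ℂ), 1 ≤ P → 0 < K → 0 < X → 1 ≤ Y → Y ≤ P → Z ≤ P →
      0 ≤ M → (∀ n, α n ≠ 0 → n ∈ S Y) →
      ∀ (c : Eis × Eis → Eis → ℝ), (∀ x t, 0 ≤ c x t) →
      ∀ (cb : Eis → ℝ → ℝ → ℝ), (∀ δ B V, 0 ≤ cb δ B V) →
      (∀ δ ∈ S Y, ∀ t ∈ S Y, ∀ j : Eis, j ≠ 0 → ∀ B V : ℝ, (nm t : ℝ) ≤ B → B < 2 * nm t →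
        (nm j : ℝ) ≤ V → V < 2 * nm j → c (δ, j) t ≤ cb δ B V) →
      (∀ δ ∈ S Y, ∀ B V, 1 ≤ B → B ≤ Y → 1 ≤ V → V ≤ Z / (nm δ : ℝ) ^ 2 → ∀ t,
        cb δ B V * (nm δ * (yv K X δ V)⁻¹) * E1551.JB Y α (fun _ => True) δ B V t ≤
          M / nm δ * (1 + |t|) ^ J) →
      FT c A K X Y Z α ≤ C * P ^ ε * M := by
  obtain ⟨C₄, hC₄, hlg⟩ := PInv255.one_add_log_pow_le 3 ε hε
  set I := ∫ t, jb (A - J) t with hIdef
  have hI : 0 ≤ I := integral_nonneg fun t => (jb_pos _ t).le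
  refine ⟨1600 * I * C₄, by positivity, fun P K X Y Z M α hP hK hX hY hYP hZP hM hα c hc cb
    hcb hccb hyp => ?_⟩
  have hY0 : 0 ≤ Y := by linarith
  have hlP := Real.log_nonneg hP
  have hlY := Real.log_nonneg hY
  have hlYP : Real.log Y ≤ Real.log P := Real.log_le_log (by linarith) hYP
  unfold FT
  have hδb : ∀ δ ∈ S Y, ∑ x ∈ TH Y (Z / (nm δ : ℝ) ^ 2) (fun _ => True),
      (c (δ, x.2) x.1 * (nm δ * lm K X δ x.2)) * Wb A (sg α (δ * x.1)) (x.2 * x.1) ≤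
      (1 / (nm δ : ℝ)) * (4 * I * (1 + 2 * Real.log P) * (1 + 2 * Real.log P) * M) := by
    intro δ hδ
    have hδp := ((mem_S hY0).1 hδ).2.1
    have hδn := nmpos hδp.ne_zero
    have hδ1 : (1 : ℝ) ≤ nm δ := nm_ge_one hδp.ne_zero
    have h1 := gen_h (A := A) (J := J) hA hJ (Y := Y) (Z' := Z / (nm δ : ℝ) ^ 2)
      (M := 4 * (M / nm δ)) hY (by positivity) hα hδp (Q := fun _ => True)
      (ω := fun U κ => if U ∈ S Y ∧ κ ≠ 0 then c (δ, κ) U * (nm δ * lm K X δ κ) else 0)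
      (fun U κ => by
        split_ifs
        · exact mul_nonneg (hc _ _) (mul_nonneg hδn.le (lm_nonneg hK.le hX.le _ _))
        · exact le_rfl)
      (Ω := fun B V => cb δ B V * (nm δ * (4 * (yv K X δ V)⁻¹)))
      (fun B V hB hV => mul_nonneg (hcb _ _ _) (by
        have := yv_pos hK hX hV hδp.ne_zero
        positivity))
      (fun U κ B V hU hκ h2 h3 h4 h5 => by
        rw [if_pos ⟨hU, hκ⟩]
        have h6 := lm_block hK hX hδp.ne_zero hκ h4 h5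
        have h7 := hccb δ hδ U hU κ hκ B V h2 h3 h4 h5
        have h8 := lm_nonneg hK.le hX.le δ κ
        calc c (δ, κ) U * (nm δ * lm K X δ κ) ≤ cb δ B V * (nm δ * lm K X δ κ) :=
              mul_le_mul_of_nonneg_right h7 (by positivity)
          _ ≤ _ := mul_le_mul_of_nonneg_left (mul_le_mul_of_nonneg_left h6 hδn.le)
              (hcb _ _ _))
      (fun B V hB1 hB2 hV1 hV2 t => by
        have h2 := hyp δ hδ B V hB1 hB2 hV1 hV2 t
        have e : cb δ B V * (nm δ * (4 * (yv K X δ V)⁻¹)) *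
            E1551.JB Y α (fun _ => True) δ B V t =
            4 * (cb δ B V * (nm δ * (yv K X δ V)⁻¹) *
              E1551.JB Y α (fun _ => True) δ B V t) := by ring
        rw [e]
        have e2 : 4 * (M / nm δ) * (1 + |t|) ^ J = 4 * (M / nm δ * (1 + |t|) ^ J) := by ring
        rw [e2]
        linarith)
    have e1 : ∑ x ∈ TH Y (Z / (nm δ : ℝ) ^ 2) (fun _ => True),
        (c (δ, x.2) x.1 * (nm δ * lm K X δ x.2)) * Wb A (sg α (δ * x.1)) (x.2 * x.1) =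
        ∑ x ∈ TH Y (Z / (nm δ : ℝ) ^ 2) (fun _ => True),
        (if x.1 ∈ S Y ∧ x.2 ≠ 0 then c (δ, x.2) x.1 * (nm δ * lm K X δ x.2) else 0) *
          Wb A (sg α (δ * x.1)) (x.2 * x.1) := by
      refine Finset.sum_congr rfl fun x hx => ?_
      have h2 := mem_TH.mp hx
      rw [if_pos ⟨h2.1.1, h2.2.1.1.1⟩]
    rw [e1]
    refine h1.trans ?_
    have h4 : Real.log (max 1 (Z / (nm δ : ℝ) ^ 2)) ≤ Real.log P := by
      refine Real.log_le_log (lt_of_lt_of_le one_pos (le_max_left _ _)) (max_le hP ?_)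
      rw [div_le_iff₀ (by positivity)]
      nlinarith [one_le_pow₀ hδ1 (n := 2)]
    have h5 := Real.log_nonneg (le_max_left 1 (Z / (nm δ : ℝ) ^ 2))
    calc I * (1 + 2 * Real.log Y) * (1 + 2 * Real.log (max 1 (Z / (nm δ : ℝ) ^ 2))) *
          (4 * (M / nm δ)) ≤
          I * (1 + 2 * Real.log P) * (1 + 2 * Real.log P) * (4 * (M / nm δ)) := by
          gcongr
      _ = _ := by ring
  refine (Finset.sum_le_sum hδb).trans ?_
  rw [← Finset.sum_mul]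
  have hs : ∑ δ ∈ S Y, 1 / (nm δ : ℝ) ≤ 100 * (1 + Real.log P) :=
    (sum_inv_S551 hY).trans (by linarith)
  have hl4 := hlg P hP
  have h6 : 0 ≤ 4 * I * (1 + 2 * Real.log P) * (1 + 2 * Real.log P) * M := by positivity
  refine (mul_le_mul_of_nonneg_right hs h6).trans ?_
  have h7 : (1 + 2 * Real.log P) ≤ 2 * (1 + Real.log P) := by linarith
  calc 100 * (1 + Real.log P) * (4 * I * (1 + 2 * Real.log P) * (1 + 2 * Real.log P) * M) ≤
        100 * (1 + Real.log P) * (4 * I * (2 * (1 + Real.log P)) * (2 * (1 + Real.log P)) * M) := by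
        gcongr
    _ = 1600 * I * M * (1 + Real.log P) ^ 3 := by ring
    _ ≤ 1600 * I * M * (C₄ * P ^ ε) := mul_le_mul_of_nonneg_left hl4 (by positivity)
    _ = _ := by ring

/-- **the T-functional with level weights under twisted windows** -/
theorem TJ_be {J Aw A : ℕ} (hA : J + 2 ≤ A) (hJA : J + 2 ≤ Aw) {R Cw ε m : ℝ} (hR : 0 ≤ R)
    (hCw : 0 ≤ Cw) (hε : 0 < ε) (hm : 0 ≤ m) : ∃ C : ℝ, 0 ≤ C ∧
    ∀ (P K X X' Y η D Y₀ Z M : ℝ) (α : Eis → ℂ), 1 ≤ P → 0 < K → 0 < X → 0 < X' →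
      |Real.log X' - Real.log X| ≤ R + 1 → 1 ≤ Y → Y ≤ P → 9 * Z ≤ P → 0 < η → η ≤ 1 →
      0 ≤ M → (∀ n, α n ≠ 0 → n ∈ S Y) →
      ∀ (c : Eis × Eis → Eis → ℝ), (∀ x t, 0 ≤ c x t) →
      (∀ δ e r r', r ≠ 0 → r' ≠ 0 → nm r' ≤ 9 * nm r → nm r ≤ 27 * nm r' →
        c (δ, r) e ≤ m * c (δ, r') e) →
      ∀ (cb : Eis → ℝ → ℝ → ℝ), (∀ δ B V, 0 ≤ cb δ B V) →
      (∀ δ ∈ S Y, ∀ t ∈ S Y, ∀ j : Eis, j ≠ 0 → ∀ B V : ℝ, (nm t : ℝ) ≤ B → B < 2 * nm t →
        (nm j : ℝ) ≤ V → V < 2 * nm j → c (δ, j) t ≤ cb δ B V) →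
      (∀ δ ∈ S Y, ∀ B V, 1 ≤ B → B ≤ Y → 1 ≤ V → V ≤ 9 * Z / (nm δ : ℝ) ^ 2 → ∀ t : ℝ,
        cb δ B V * (nm δ * (yv K X δ V)⁻¹) * E1551.JB Y α (fun _ => True) δ B V t ≤
          M / nm δ * (1 + |t|) ^ J) →
      ∀ p ∈ T9, ∀ φ : ℝ → ℝ, WK Cw η Aw φ → ∀ t : ℝ,
        TJ c A K X' Y (JW D Y₀ Z) (fun n => bt φ α p n * pw t (nm n)) ≤
          C * (η⁻¹) ^ J * P ^ ε * M * (1 + |t|) ^ J := by
  have hA' : ((J : ℕ) : ℝ) + 1 < A := by
    have : ((J + 2 : ℕ) : ℝ) ≤ A := by exact_mod_cast hA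
    push_cast at this
    linarith
  have hA2 : 2 ≤ A := by omega
  obtain ⟨C₁, hC₁, H₁⟩ := FT_le (A := (A : ℝ)) (J := ((J : ℕ) : ℝ)) hA' (Nat.cast_nonneg J) hε
  have hi1 := iA_nonneg Aw
  have hi2 := iA_nonneg 2
  set r := Real.exp (R + 1) with hr
  have hr1 : 1 ≤ r := Real.one_le_exp (by linarith)
  refine ⟨Cw ^ 2 * iA Aw * iA 2 * (3 * m * r * C₁), by positivity, ?_⟩
  intro P K X X' Y η D Y₀ Z M α hP hK hX hX' hXX hY hYP hZP hη hη1 hM hα c hc hcr cb hcb hccb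
    hyp p hp φ hφ t
  have hY0 : 0 ≤ Y := by linarith
  have hXr : X' ≤ r * X := by
    have h1 : Real.log X' ≤ Real.log X + (R + 1) := by linarith [(abs_le.mp hXX).2]
    calc X' = Real.exp (Real.log X') := (Real.exp_log hX').symm
      _ ≤ Real.exp (Real.log X + (R + 1)) := Real.exp_le_exp.mpr h1
      _ = r * X := by rw [Real.exp_add, Real.exp_log hX, mul_comm]
  have hF : FS α := FS_of_S hY0 hα
  have hPe : 0 ≤ P ^ ε := by positivity
  have hJr : ∀ x : ℝ, x ^ ((J : ℕ) : ℝ) = x ^ J := fun x => Real.rpow_natCast x J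
  -- the support of the windowed sequence
  have hsup : ∀ n, bt φ α p n * pw t (nm n) ≠ 0 → n ∈ S Y := by
    intro n hn
    have h1 := left_ne_zero_of_mul hn
    refine hα n fun h0 => h1 ?_
    simp [RGw813.bt, tw2, Win813.wn, h0]
  have s1 := TJ_le_TH (c := c) hc (A := (A : ℝ)) (D := D) (Y₀ := Y₀) (Z := Z) hK hX' hY0 hsup
  have e1 : (∑ δ ∈ S Y, ∑ x ∈ TH Y (Z / (nm δ : ℝ) ^ 2) (fun _ => True),
      (c (δ, x.2) x.1 * (nm δ * lm K X' δ x.2)) *
        Wb A (sg (fun n => bt φ α p n * pw t (nm n)) (δ * x.1)) (x.2 * x.1)) =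
      FT c A K X' Y Z (fun n => bt φ α p n * pw t (nm n)) := rfl
  rw [e1] at s1
  refine s1.trans ?_
  rw [FT_eq]
  refine (MG_bt (X := XT Y Z) (W := WT c K X') (g := gT) (l := lT) hCw hη hη1 hJA hA2 hφ hF
    (fun x hx => gT_ne hY0 hx) (fun x _ => WT_nonneg hc hK.le hX'.le x)
    (M := 3 * m * r * (C₁ * P ^ ε * M)) (by positivity) p (fun s => ?_) t).trans
    (le_of_eq (by ring))
  refine (MG_le hA2 (FS_tw2 hF p.1 p.2) hF (fun x hx => gT_ne hY0 hx)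
    (fun x hx => gT_ne hY0 hx) (fun x _ => WT_nonneg hc hK.le hX'.le x)
    (fun x _ => WT_nonneg hc hK.le hX.le x)
    (PG_tw_T hc hm hcr hK hX hX' hY0 hr1 hXr hF (mem_T9.1 hp).2) s).trans ?_
  rw [mul_assoc (3 * m * r), ← FT_eq]
  refine mul_le_mul_of_nonneg_left ?_ (by positivity)
  -- the functional of the shifted sequence
  have hsup' : ∀ n, α n * pw s (nm n) ≠ 0 → n ∈ S Y := fun n hn => hα n (left_ne_zero_of_mul hn)
  have key := H₁ P K X Y (9 * Z) (M * (1 + |s|) ^ J) (fun n => α n * pw s (nm n)) hP hK hX hY hYP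
    hZP (by positivity) hsup' c hc cb hcb hccb (fun δ hδ B V hB1 hB2 hV1 hV2 u => by
      rw [JB_shift hY0 hα hδ, hJr]
      have hδ1 : (0 : ℝ) < nm δ := nmpos ((mem_S hY0).1 hδ).2.1.ne_zero
      refine (hyp δ hδ B V hB1 hB2 hV1 hV2 (s + u)).trans ?_
      have h2 : (1 + |s + u|) ^ J ≤ ((1 + |s|) * (1 + |u|)) ^ J := by
        refine pow_le_pow_left₀ (by positivity) ?_ J
        have h3 := abs_add_le s u
        have h4 := mul_nonneg (abs_nonneg s) (abs_nonneg u)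
        nlinarith
      rw [mul_pow] at h2
      calc M / nm δ * (1 + |s + u|) ^ J ≤ M / nm δ * ((1 + |s|) ^ J * (1 + |u|) ^ J) :=
            mul_le_mul_of_nonneg_left h2 (by positivity)
        _ = _ := by ring)
  refine key.trans (le_of_eq (by ring))

end Crest.Agent.R017.TJbe180
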