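import Crest.Agent.R017.NEb_499
import Crest.Agent.R017.TJbe_180
import Crest.Agent.R017.LBT_381
import Crest.Agent.R017.EHw_83
import Crest.Agent.R017.I1h_146

/-!
# Row 17, FlatNE (helper590): the tail squares and the squares `θ² EHs` from joint numbers

* `numT_jb` : `NumT` from the joint blocks (`JBc`) and one real line
* `ehs_jb`  : `EHs` at `bt φ α p · pw t` from the joint blocks `B ≤ 2 E0`
* `numH_jb` : the same from `JBc` and one real line
-/

set_option autoImplicit false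
set_option linter.unusedVariables false

noncomputable section

open Complex MeasureTheory
open scoped ComplexConjugate Classical

namespace Crest.Agent.R017.NTJ590

open Crest.Agent.R012 Crest.Agent.R012.Eis Crest.Agent.R012.MC
open Crest.Agent.R012.LS2 (S mem_S)
open Crest.Agent.R012.Weight600 (osc pw)
open Crest.Agent.R017.CM106 (CS TG FS)
open Crest.Agent.R017.E1551 hiding tau Dg
open Crest.Agent.R017.C70 (JW JC OKJ okJ_JW)
open Crest.Agent.R017.E2440 (TE)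
open Crest.Agent.R017.X6C180 (n13 n13_nonneg)
open Crest.Agent.R017.EHu320 (EHc regroup tws_supp JB_tws)
open Crest.Agent.R017.EHv83 (EHv EVU NV EHv_le_EVU EHc_le_EHv)
open Crest.Agent.R017.I1146 (M2o TJ W_le_TJ yv_exp)
open Crest.Agent.R017.Win813 (WK)
open Crest.Agent.R017.RGw813 (T9 bt)
open Crest.Agent.R017.LBx48 (EHs EHf EHt EHc_nonneg)
open Crest.Agent.R017.LBT381 (EHc_bt)
open Crest.Agent.R017.TJbe180 (TJ_be)
open Crest.Agent.R017.NE499

lemma mem_S' {Y E0 : ℝ} (hY : 0 ≤ Y) (hE : 0 ≤ E0) {t : Eis} (ht : t ∈ S Y) (h : t ∉ S E0) :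
    E0 < nm t := by
  by_contra hc
  obtain ⟨-, h2, h3⟩ := (mem_S hY).1 ht
  exact h ((mem_S hE).2 ⟨not_lt.1 hc, h2, h3⟩)

/-- **the tail squares from joint numbers** -/
theorem numT_jb {Cw R ε : ℝ} {Aw J : ℕ} (hCw : 0 ≤ Cw) (hR : 0 ≤ R) (hε : 0 < ε)
    (hJA : J + 2 ≤ Aw) : ∃ C : ℝ, 0 ≤ C ∧
    ∀ (P K X Y D E0 η : ℝ) (N₁ : ℕ) (Tg Fn : ℝ) (Sh : ℝ → ℝ → ℝ → ℝ) (α : Eis → ℂ), 1 ≤ P →
    0 < K → 0 < X → 1 ≤ Y → Y ≤ P → 9 * (N₁ : ℝ) ≤ P → 1 ≤ E0 → 0 < η → η ≤ 1 → 0 ≤ Fn →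
    (∀ n, α n ≠ 0 → n ∈ S Y) →
    (∀ d ∈ S Y, ∀ B V : ℝ, 1 ≤ B → B ≤ Y → 1 ≤ V → V ≤ 9 * N₁ / (nm d : ℝ) ^ 2 → ∀ t : ℝ,
      E1551.JB Y α (fun _ => True) d B V t ≤
        Fn * Real.exp (Sh (Real.log (nm d)) (Real.log B) (Real.log V)) *
          (1 + |t|) ^ ((J : ℕ) : ℝ)) →
    (∀ d b v : ℝ, 0 ≤ d → Real.log E0 ≤ b → 0 ≤ v → v + 2 * d ≤ Real.log (9 * N₁) →
      Sh d b v ≤ Tg + b + (Real.log K + v) / 3 - 4 / 3 * d) →
    NumT Cw η Aw K X Y R J D E0 N₁ α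
      (C * (η⁻¹) ^ J * P ^ ε * (Fn * Real.exp (Tg + 2 / 3 * Real.log X))) := by
  obtain ⟨C₁, hC₁, H₁⟩ := W_le_TJ 1 zero_le_one (J + 2) (by omega)
  obtain ⟨C₂, hC₂, H₂⟩ := TJ_be (J := J) (Aw := Aw) (A := J + 2) (ε := ε / 2) (m := 1) le_rfl hJA
    hR hCw (by positivity) zero_le_one
  obtain ⟨C₃, hC₃, hτ⟩ := CR3436.tau_pow_le 1 (ε := ε / 2) (by positivity)
  refine ⟨C₁ * Real.exp (R + 1) * (C₂ * (2 * C₃)), by positivity, ?_⟩
  intro P K X Y D E0 η N₁ Tg Fn Sh α hP hK hX hY hYP hNP hE0 hη hη1 hFn hα hJB hline p hp t X' φ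
    hX' hXX hφ hφs
  have hY0 : 0 ≤ Y := by linarith
  have hP0 : 0 < P := by linarith
  have hE00 : 0 ≤ E0 := by linarith
  have hadm : Adm Y X' 1 (fun n => bt φ α p n * pw t (nm n)) :=
    adm_mz hη1 (RGw813.adm_bt hφs hα p t)
  have hPe : 0 < P ^ (ε / 2) := by positivity
  have hC₃0 : 0 ≤ C₃ := by linarith
  set Q : ℝ := C₃ * P ^ (ε / 2) with hQ
  have hQ0 : 0 ≤ Q := by positivity
  -- the weights
  set c : Eis × Eis → Eis → ℝ := fun _ e => if e ∈ S E0 then 0 else Q * (nm e : ℝ)⁻¹ with hc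
  have hc0 : ∀ x e, 0 ≤ c x e := by
    intro x e
    simp only [hc]
    split_ifs
    · exact le_rfl
    · positivity
  set n := Real.log X with hn
  have hXn : X = Real.exp n := (Real.exp_log hX).symm
  set M : ℝ := 2 * Q * (Fn * Real.exp (Tg + 2 / 3 * n)) with hM
  have hM0 : 0 ≤ M := by positivity
  have key := H₂ P K X X' Y η D (1 / 10) N₁ M α hP hK hX hX' hXX hY hYP hNP hη hη1 hM0 hα c hc0
    (fun δ e r r' _ _ _ _ => by rw [one_mul])
    (fun δ B V => if E0 ≤ B then Q * (2 * B⁻¹) else 0)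
    (fun δ B V => by
      split_ifs with h
      · have : 0 < B := by linarith
        positivity
      · exact le_rfl)
    (fun δ hδ e he j hj B V hB1 hB2 hV1 hV2 => by
      simp only [hc]
      have hep := ((mem_S hY0).1 he).2.1
      have he0 : (0 : ℝ) < nm e := nmpos hep.ne_zero
      by_cases heE : e ∈ S E0
      · rw [if_pos heE]
        split_ifs
        · have : 0 < B := by linarith
          positivity
        · exact le_rfl
      · rw [if_neg heE]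
        have h1 := mem_S' hY0 hE00 he heE
        rw [if_pos (by linarith)]
        refine mul_le_mul_of_nonneg_left ?_ hQ0
        have hB0 : 0 < B := by linarith
        rw [← div_eq_mul_inv, inv_eq_one_div, div_le_div_iff₀ he0 hB0]
        linarith)
    (fun δ hδ B V hB1 hBY hV1 hV2 t => by
      have hδp := ((mem_S hY0).1 hδ).2.1
      have hδ0 : (0 : ℝ) < nm δ := nmpos hδp.ne_zero
      have hδ1 : (1 : ℝ) ≤ nm δ := nm_ge_one hδp.ne_zero
      have hB0 : 0 < B := by linarith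
      have hV0 : 0 < V := by linarith
      have hT0 : 0 ≤ (1 + |t|) ^ J := by positivity
      split_ifs with hEB
      swap
      · rw [zero_mul, zero_mul]
        positivity
      have h1 := hJB δ hδ B V hB1 hBY hV1 hV2 t
      rw [Real.rpow_natCast] at h1
      have hld : 0 ≤ Real.log (nm δ) := Real.log_nonneg hδ1
      have hlv : 0 ≤ Real.log V := Real.log_nonneg hV1
      have hlb : Real.log E0 ≤ Real.log B := Real.log_le_log (by linarith) hEB
      have hVd : Real.log V + 2 * Real.log (nm δ) ≤ Real.log (9 * N₁) := by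
        have h3 : V * (nm δ : ℝ) ^ 2 ≤ 9 * N₁ := (le_div_iff₀ (by positivity)).mp hV2
        have h4 := Real.log_le_log (by positivity) h3
        rw [Real.log_mul hV0.ne' (by positivity), Real.log_pow] at h4
        push_cast at h4
        exact h4
      have h2 := hline _ _ _ hld hlb hlv hVd
      have hyv : (yv K X δ V)⁻¹ = Real.exp (-((Real.log K + Real.log V) / 3 -
          2 / 3 * (n - Real.log (nm δ)))) := by
        rw [hXn, yv_exp hK hV0 n hδp.ne_zero, ← Real.exp_neg]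
      have hδe : (nm δ : ℝ) = Real.exp (Real.log (nm δ)) := (Real.exp_log hδ0).symm
      have hBe : B⁻¹ = Real.exp (-Real.log B) := by rw [Real.exp_neg, Real.exp_log hB0]
      have h3 : 0 ≤ Q * (2 * B⁻¹) * (nm δ * (yv K X δ V)⁻¹) := by
        have := yv_pos hK hX hV0 hδp.ne_zero
        positivity
      calc Q * (2 * B⁻¹) * (nm δ * (yv K X δ V)⁻¹) * E1551.JB Y α (fun _ => True) δ B V t
          ≤ Q * (2 * B⁻¹) * (nm δ * (yv K X δ V)⁻¹) *
            (Fn * Real.exp (Tg + Real.log B + (Real.log K + Real.log V) / 3 -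
              4 / 3 * Real.log (nm δ)) * (1 + |t|) ^ J) := by
            refine mul_le_mul_of_nonneg_left (h1.trans ?_) h3
            refine mul_le_mul_of_nonneg_right (mul_le_mul_of_nonneg_left
              (Real.exp_le_exp.2 h2) hFn) hT0
        _ = 2 * Q * Fn * (Real.exp (-Real.log B) * (Real.exp (Real.log (nm δ)) *
            Real.exp (-((Real.log K + Real.log V) / 3 - 2 / 3 * (n - Real.log (nm δ))))) *
            Real.exp (Tg + Real.log B + (Real.log K + Real.log V) / 3 -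
              4 / 3 * Real.log (nm δ))) * (1 + |t|) ^ J := by
            rw [hyv, hBe, ← hδe]; ring
        _ = 2 * Q * Fn * (Real.exp (Tg + 2 / 3 * n) * Real.exp (-Real.log (nm δ))) *
            (1 + |t|) ^ J := by
            congr 2
            rw [← Real.exp_add, ← Real.exp_add, ← Real.exp_add, ← Real.exp_add]
            congr 1
            ring
        _ = M / nm δ * (1 + |t|) ^ J := by
            rw [Real.exp_neg, Real.exp_log hδ0, hM]
            ring) p hp φ hφ t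
  have s1 := H₁ Y X' K hY0 hX' hK (fun n => bt φ α p n * pw t (nm n)) hadm (JW D (1 / 10) N₁)
    (okJ_JW D (1 / 10) N₁) c hc0
  generalize (fun n => bt φ α p n * pw t (nm n)) = β at hadm key s1 ⊢
  have s2 : M2J Y E0 (JW D (1 / 10) N₁) β ≤
      ∑ x ∈ JW D (1 / 10) N₁, n13 x.2 * ∑ e ∈ S Y, c x e * ‖TE β x e‖ ^ 2 := by
    unfold M2J I1146.M2o
    refine Finset.sum_le_sum fun x _ => mul_le_mul_of_nonneg_left ?_ (n13_nonneg _)
    refine (Finset.sum_le_sum fun e he => ?_).trans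
      (Finset.sum_le_sum_of_subset_of_nonneg (Finset.filter_subset _ _) fun e _ _ =>
        mul_nonneg (hc0 x e) (sq_nonneg _))
    obtain ⟨he1, he2⟩ := Finset.mem_filter.1 he
    have hep := ((mem_S hY0).1 he1).2.1
    have he0 : (0 : ℝ) < nm e := nmpos hep.ne_zero
    simp only [hc]
    rw [if_neg he2]
    refine mul_le_mul_of_nonneg_right ?_ (sq_nonneg _)
    rw [div_eq_mul_inv]
    refine mul_le_mul_of_nonneg_right ?_ (by positivity)
    have := hτ P e hep (((mem_S hY0).1 he1).1.trans hYP)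
    rw [pow_one] at this
    exact this
  have hKX : K / X' ≤ Real.exp (R + 1) * (K / X) := by
    have h1 : Real.log X ≤ Real.log X' + (R + 1) := by linarith [(abs_le.mp hXX).1]
    have h2 : X ≤ Real.exp (R + 1) * X' := by
      calc X = Real.exp (Real.log X) := (Real.exp_log hX).symm
        _ ≤ Real.exp (Real.log X' + (R + 1)) := Real.exp_le_exp.mpr h1
        _ = _ := by rw [Real.exp_add, Real.exp_log hX', mul_comm]
    rw [← mul_div_assoc, div_le_div_iff₀ hX' hX]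
    nlinarith [mul_le_mul_of_nonneg_left h2 hK.le]
  have hT0 : 0 ≤ (1 + |t|) ^ J := by positivity
  have hi : 0 ≤ (η⁻¹) ^ J := by positivity
  have hPP : P ^ (ε / 2) * P ^ (ε / 2) = P ^ ε := by
    rw [← Real.rpow_add hP0]; congr 1; ring
  have hTJ0 : 0 ≤ C₂ * (η⁻¹) ^ J * P ^ (ε / 2) * M * (1 + |t|) ^ J := by positivity
  calc K ^ (2 / 3 : ℝ) * M2J Y E0 (JW D (1 / 10) N₁) β ≤
        K ^ (2 / 3 : ℝ) * ∑ x ∈ JW D (1 / 10) N₁, n13 x.2 *
          ∑ e ∈ S Y, c x e * ‖TE β x e‖ ^ 2 := mul_le_mul_of_nonneg_left s2 (by positivity)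
    _ ≤ C₁ * (K / X') * TJ c ((J + 2 : ℕ) : ℝ) K X' Y (JW D (1 / 10) N₁) β := s1
    _ ≤ C₁ * (K / X') * (C₂ * (η⁻¹) ^ J * P ^ (ε / 2) * M * (1 + |t|) ^ J) :=
        mul_le_mul_of_nonneg_left key (by positivity)
    _ ≤ C₁ * (Real.exp (R + 1) * (K / X)) *
        (C₂ * (η⁻¹) ^ J * P ^ (ε / 2) * M * (1 + |t|) ^ J) := by
        refine mul_le_mul_of_nonneg_right (mul_le_mul_of_nonneg_left hKX hC₁) hTJ0
    _ = (K / X) * (C₁ * Real.exp (R + 1) * (C₂ * (2 * C₃)) * (η⁻¹) ^ J *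
        (P ^ (ε / 2) * P ^ (ε / 2)) * (Fn * Real.exp (Tg + 2 / 3 * n)) * (1 + |t|) ^ J) := by
        rw [hM, hQ]; ring
    _ = _ := by rw [hPP]

/-! ### the squares with the weight `nm e`, `e ≤ E0` -/

/-- the weight `u` up to `E0` -/
def cE (E0 : ℝ) (u : ℝ) : ℝ := if u ≤ E0 then u else 0

lemma NV_cE (E0 A K X Z : ℝ) (α : Eis → ℂ) (h U : Eis) :
    NV (fun u _ => cE E0 u) A K X Z α h U = cE E0 (nm U) * UL A K X Z α h U := by
  unfold EHv83.NV UL
  rw [Finset.mul_sum]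

set_option maxHeartbeats 3200000 in
/-- **`EHs` from the joint blocks `B ≤ 2 E0`** -/
theorem EHs_jb0 {A J ε : ℝ} (hA : J + 1 < A) (hJ : 0 ≤ J) (hε : 0 < ε) : ∃ C : ℝ, 0 ≤ C ∧
    ∀ (P K X Y Z E0 M : ℝ) (α : Eis → ℂ), 1 ≤ P → 0 < K → 0 < X → 1 ≤ Y → Y ≤ P → Z ≤ P →
      0 ≤ E0 → 0 ≤ M → (∀ n, α n ≠ 0 → n ∈ S Y) →
      (∀ h ∈ S Y, ∀ B V, 1 ≤ B → B ≤ Y → B ≤ 2 * E0 → 1 ≤ V → V ≤ Z / (nm h : ℝ) ^ 2 → ∀ t,
        JB Y α (fun _ => True) h B V t ≤
          M / (nm h : ℝ) ^ 2 * (B⁻¹ * yv K X h V) * (1 + |t|) ^ J) →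
      EHs A K X Y Z E0 α ≤ C * P ^ ε * M := by
  obtain ⟨C₂, hC₂, hτ7⟩ := CR3436.tau_pow_le 7 (ε := ε / 4) (by positivity)
  obtain ⟨C₃, hC₃, hτ4⟩ := CR3436.tau_pow_le 4 (ε := ε / 4) (by positivity)
  obtain ⟨C₄, hC₄, hlg⟩ := PInv255.one_add_log_pow_le 4 (ε / 2) (by positivity)
  set I := ∫ t, jb (A - J) t with hIdef
  have hI : 0 ≤ I := integral_nonneg fun t => (jb_pos _ t).le
  refine ⟨1600 * I * (C₂ * C₃) * C₄, by positivity,
    fun P K X Y Z E0 M α hP hK hX hY hYP hZP hE0 hM hα hyp => ?_⟩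
  have hY0 : 0 ≤ Y := by linarith
  have hP0 : 0 < P := by linarith
  have hlP := Real.log_nonneg hP
  have hlYP : Real.log Y ≤ Real.log P := Real.log_le_log (by linarith) hYP
  have hsum : ∑ g ∈ S Y, 1 / (nm g : ℝ) ≤ 100 * (1 + Real.log P) :=
    (sum_inv_S551 hY).trans (by linarith)
  have hl4 := hlg P hP
  have hPe : P ^ (ε / 2) * P ^ (ε / 2) = P ^ ε := by
    rw [← Real.rpow_add hP0]; congr 1; ring
  have hPe4 : P ^ (ε / 4) * P ^ (ε / 4) = P ^ (ε / 2) := by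
    rw [← Real.rpow_add hP0]; congr 1; ring
  set l := Real.log P with hl
  have hPp : 0 < P ^ (ε / 2) := by positivity
  have hl34 : (1 + l) ^ 3 ≤ (1 + l) ^ 4 := pow_le_pow_right₀ (by linarith) (by norm_num)
  have hcE0 : ∀ u, 0 ≤ u → 0 ≤ cE E0 u := by
    intro u hu
    unfold cE
    split_ifs
    · exact hu
    · exact le_rfl
  have s1 : EHs A K X Y Z E0 α ≤ EHv (fun u _ => cE E0 u) A K X Y Z α := by
    refine EHc_le_EHv hK.le hX.le (fun e _ V => hcE0 _ (Nat.cast_nonneg _)) (fun e he hQ V => ?_) α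
    have h1 := ((mem_S hE0).1 hQ).1
    unfold cE
    rw [if_pos h1]
  have s2 : EHv (fun u _ => cE E0 u) A K X Y Z α ≤
      EVU (fun u _ => cE E0 (max 0 u)) A K X Y Z α := by
    refine EHv_le_EVU (fun u V => hcE0 _ (le_max_left _ _)) (fun x u V hx hu hV => ?_) hK hX hY hα
    rw [max_eq_right (by linarith)]
    unfold cE
    by_cases h1 : x * u ≤ E0
    · have h2 : u ≤ E0 := by nlinarith
      rw [if_pos h1, if_pos h2]
    · rw [if_neg h1]
      split_ifs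
      · positivity
      · rw [mul_zero]
  have hU0 : ∀ h U, 0 ≤ UL A K X Z α h U := fun h U => UL_nonneg hK.le hX.le α h U
  have h2 : EVU (fun u _ => cE E0 (max 0 u)) A K X Y Z α ≤ ∑ h ∈ S Y, (C₂ * C₃ * P ^ (ε / 2)) *
      (nm h * ∑ U ∈ (S Y).filter (fun U => (nm U : ℝ) ≤ E0), nm U * (nm U * UL A K X Z α h U)) := by
    unfold EHv83.EVU
    rw [Finset.sum_product]
    refine Finset.sum_le_sum fun h hh => ?_
    rw [Finset.sum_filter, Finset.mul_sum, Finset.mul_sum]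
    refine Finset.sum_le_sum fun U hU => ?_
    have d1 := (mem_S hY0).1 hh
    have d2 := (mem_S hY0).1 hU
    have a1 := hτ7 P h d1.2.1 (d1.1.trans hYP)
    have a2 := hτ4 P U d2.2.1 (d2.1.trans hYP)
    have h4 := hU0 h U
    have h5 : (Div277.tau h : ℝ) ^ 7 * (Div277.tau U : ℝ) ^ 4 ≤ C₂ * C₃ * P ^ (ε / 2) := by
      calc (Div277.tau h : ℝ) ^ 7 * (Div277.tau U : ℝ) ^ 4
          ≤ (C₂ * P ^ (ε / 4)) * (C₃ * P ^ (ε / 4)) := by gcongr
        _ = C₂ * C₃ * (P ^ (ε / 4) * P ^ (ε / 4)) := by ring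
        _ = _ := by rw [hPe4]
    have e1 : NV (fun u _ => cE E0 (max 0 u)) A K X Z α h U =
        cE E0 (nm U) * UL A K X Z α h U := by
      unfold EHv83.NV UL
      rw [Finset.mul_sum]
      refine Finset.sum_congr rfl fun κ _ => ?_
      show cE E0 (max 0 (nm U : ℝ)) * _ = cE E0 (nm U) * _
      rw [max_eq_right (Nat.cast_nonneg _)]
    show (Div277.tau h : ℝ) ^ 7 * (Div277.tau U : ℝ) ^ 4 *
      ((nm h * nm U) * NV (fun u _ => cE E0 (max 0 u)) A K X Z α h U) ≤ _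
    rw [e1]
    unfold cE
    split_ifs with hUE
    · calc (Div277.tau h : ℝ) ^ 7 * (Div277.tau U : ℝ) ^ 4 *
            ((nm h * nm U) * (nm U * UL A K X Z α h U))
          ≤ (C₂ * C₃ * P ^ (ε / 2)) * ((nm h * nm U) * (nm U * UL A K X Z α h U)) :=
            mul_le_mul_of_nonneg_right h5 (by positivity)
        _ = _ := by ring
    · simp
  refine (s1.trans s2).trans (h2.trans ?_)
  have h3 : ∀ h ∈ S Y, (C₂ * C₃ * P ^ (ε / 2)) *
      (nm h * ∑ U ∈ (S Y).filter (fun U => (nm U : ℝ) ≤ E0), nm U * (nm U * UL A K X Z α h U)) ≤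
      (C₂ * C₃ * P ^ (ε / 2) * (4 * I * (1 + 2 * l) ^ 2 * M)) * (1 / (nm h : ℝ)) := by
    intro h hh
    have hhS := (mem_S hY0).1 hh
    have hh0 := nmpos hhS.2.1.ne_zero
    have hh1 := nm_ge_one hhS.2.1.ne_zero
    have b2 := EHu320.large_hE (M := M / (nm h : ℝ) ^ 2) (Z := Z)
      (Q := fun U => (nm U : ℝ) ≤ E0)
      hA hJ hK hX hY (by positivity) hα hhS.2.1 (fun B V hB1 hB2 hV1 hV2 t => by
        have hV0 : 0 < V := by linarith
        have hB0 : 0 < B := by linarith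
        rcases le_or_gt B (2 * E0) with hBE | hBE
        · refine le_trans ?_ (hyp h hh B V hB1 hB2 hBE hV1 hV2 t)
          unfold JB
          refine Finset.sum_le_sum_of_subset_of_nonneg (fun U hU => ?_) fun U _ _ =>
            Finset.sum_nonneg fun κ _ => by positivity
          simp only [Finset.mem_filter] at hU ⊢
          exact ⟨hU.1, hU.2.1, hU.2.2.1, trivial⟩
        · have e0 : JB Y α (fun U => (nm U : ℝ) ≤ E0) h B V t = 0 := by
            unfold JB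
            refine Finset.sum_eq_zero fun U hU => ?_
            exfalso
            simp only [Finset.mem_filter] at hU
            linarith [hU.2.1, hU.2.2.2]
          rw [e0]
          have := yv_pos hK hX hV0 hhS.2.1.ne_zero
          positivity)
    rw [← hIdef] at b2
    have c2 : Real.log (max 1 (Z / (nm h : ℝ) ^ 2)) ≤ l := by
      refine Real.log_le_log (by positivity) (max_le hP ?_)
      rcases le_total 0 Z with h5 | h5
      · exact (div_le_self h5 (one_le_pow₀ hh1)).trans hZP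
      · exact (div_nonpos_of_nonpos_of_nonneg h5 (by positivity)).trans hP0.le
    have c4 := Real.log_nonneg (le_max_left 1 (Z / (nm h : ℝ) ^ 2))
    have hlY := Real.log_nonneg hY
    have b5 : ∑ U ∈ (S Y).filter (fun U => (nm U : ℝ) ≤ E0), nm U * (nm U * UL A K X Z α h U) ≤
        4 * I * (1 + 2 * l) * (1 + 2 * l) * (M / (nm h : ℝ) ^ 2) := by
      refine b2.trans ?_
      gcongr
    calc (C₂ * C₃ * P ^ (ε / 2)) * (nm h *
          ∑ U ∈ (S Y).filter (fun U => (nm U : ℝ) ≤ E0), nm U * (nm U * UL A K X Z α h U))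
        ≤ (C₂ * C₃ * P ^ (ε / 2)) * (nm h *
            (4 * I * (1 + 2 * l) * (1 + 2 * l) * (M / (nm h : ℝ) ^ 2))) := by
          gcongr
      _ = _ := by field_simp
  refine (Finset.sum_le_sum h3).trans ?_
  rw [← Finset.mul_sum]
  calc (C₂ * C₃ * P ^ (ε / 2) * (4 * I * (1 + 2 * l) ^ 2 * M)) * ∑ h ∈ S Y, 1 / (nm h : ℝ)
      ≤ (C₂ * C₃ * P ^ (ε / 2) * (4 * I * (2 * (1 + l)) ^ 2 * M)) * (100 * (1 + l)) := by
        have : 1 + 2 * l ≤ 2 * (1 + l) := by linarith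
        gcongr
    _ = 1600 * I * (C₂ * C₃) * P ^ (ε / 2) * M * (1 + l) ^ 3 := by ring
    _ ≤ 1600 * I * (C₂ * C₃) * P ^ (ε / 2) * M * (C₄ * P ^ (ε / 2)) := by
        have := hl34.trans hl4
        gcongr
    _ = 1600 * I * (C₂ * C₃) * C₄ * (P ^ (ε / 2) * P ^ (ε / 2)) * M := by ring
    _ = _ := by rw [hPe]

/-- **`EHs` under twisted windows from the joint blocks `B ≤ 2 E0`** -/
theorem ehs_jb {J Aw A : ℕ} (hA : J + 2 ≤ A) (hJA : J + 2 ≤ Aw) {R Cw ε : ℝ} (hR : 0 ≤ R)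
    (hCw : 0 ≤ Cw) (hε : 0 < ε) : ∃ C : ℝ, 0 ≤ C ∧
    ∀ (P K X X' Y η Z E0 M : ℝ) (α : Eis → ℂ), 1 ≤ P → 0 < K → 0 < X → 0 < X' →
      |Real.log X' - Real.log X| ≤ R + 1 → 1 ≤ Y → Y ≤ P → 9 * Z ≤ P → 0 < η → η ≤ 1 →
      0 ≤ E0 → 0 ≤ M → (∀ n, α n ≠ 0 → n ∈ S Y) →
      (∀ h ∈ S Y, ∀ B V, 1 ≤ B → B ≤ Y → B ≤ 2 * E0 → 1 ≤ V → V ≤ 9 * Z / (nm h : ℝ) ^ 2 →
        ∀ t : ℝ, JB Y α (fun _ => True) h B V t ≤
          M / (nm h : ℝ) ^ 2 * (B⁻¹ * yv K X h V) * (1 + |t|) ^ ((J : ℕ) : ℝ)) →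
      ∀ p ∈ T9, ∀ φ : ℝ → ℝ, WK Cw η Aw φ → ∀ t : ℝ,
        EHs A K X' Y Z E0 (fun n => bt φ α p n * pw t (nm n)) ≤
          C * (η⁻¹) ^ J * P ^ ε * M * (1 + |t|) ^ J := by
  have hA' : ((J : ℕ) : ℝ) + 1 < A := by
    have : ((J + 2 : ℕ) : ℝ) ≤ A := by exact_mod_cast hA
    push_cast at this
    linarith
  obtain ⟨C₁, hC₁, H₁⟩ := EHs_jb0 (A := (A : ℝ)) (J := ((J : ℕ) : ℝ)) hA' (Nat.cast_nonneg J) hε
  have hi1 := Win813.iA_nonneg Aw
  have hi2 := Win813.iA_nonneg 2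
  set r := Real.exp (R + 1) with hr
  have hr1 : 1 ≤ r := Real.one_le_exp (by linarith)
  refine ⟨3 * r * (Cw ^ 2 * Win813.iA Aw * Win813.iA 2) * C₁, by positivity, ?_⟩
  intro P K X X' Y η Z E0 M α hP hK hX hX' hXX hY hYP hZP hη hη1 hE0 hM hα hyp p hp φ hφ t
  have hY0 : 0 ≤ Y := by linarith
  have hP0 : 0 < P := by linarith
  have hXr : X' ≤ r * X := by
    have h1 : Real.log X' ≤ Real.log X + (R + 1) := by linarith [(abs_le.mp hXX).2]
    calc X' = Real.exp (Real.log X') := (Real.exp_log hX').symm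
      _ ≤ Real.exp (Real.log X + (R + 1)) := Real.exp_le_exp.mpr h1
      _ = r * X := by rw [Real.exp_add, Real.exp_log hX, mul_comm]
  have hPe : 0 ≤ P ^ ε := by positivity
  have h1 := EHc_bt (A := A) (B := Aw) (J := J) (M := C₁ * P ^ ε * M) hCw hη hη1 hJA (by omega)
    hφ hK hX hX' hY0 hr1 hXr (by positivity) hα (c := fun n => (n : ℝ)) (Z := Z)
    (fun n => Nat.cast_nonneg n) (Q := fun e => e ∈ S E0) (fun s => by
      have key := H₁ P K X Y (9 * Z) E0 (M * (1 + |s|) ^ ((J : ℕ) : ℝ)) (tws α s) hP hK hX hY hYP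
        hZP hE0 (by positivity) (tws_supp hα s) (fun h hh B V hB1 hB2 hBE hV1 hV2 u => by
          have hhp := ((mem_S hY0).1 hh).2.1
          have hV0 : 0 < V := by linarith
          have hy := yv_pos hK hX hV0 hhp.ne_zero
          rw [JB_tws hY0 hα _ hhp.ne_zero]
          refine (hyp h hh B V hB1 hB2 hBE hV1 hV2 (s + u)).trans ?_
          have h2 : (1 + |s + u|) ^ ((J : ℕ) : ℝ) ≤
              (1 + |s|) ^ ((J : ℕ) : ℝ) * (1 + |u|) ^ ((J : ℕ) : ℝ) := by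
            rw [← Real.mul_rpow (by positivity) (by positivity)]
            refine Real.rpow_le_rpow (by positivity) ?_ (Nat.cast_nonneg _)
            have := abs_add_le s u
            nlinarith [abs_nonneg s, abs_nonneg u]
          have hB0 : 0 < B := by linarith
          calc M / (nm h : ℝ) ^ 2 * (B⁻¹ * yv K X h V) * (1 + |s + u|) ^ ((J : ℕ) : ℝ)
              ≤ M / (nm h : ℝ) ^ 2 * (B⁻¹ * yv K X h V) *
                ((1 + |s|) ^ ((J : ℕ) : ℝ) * (1 + |u|) ^ ((J : ℕ) : ℝ)) :=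
                mul_le_mul_of_nonneg_left h2 (by positivity)
            _ = _ := by ring)
      rw [Real.rpow_natCast] at key
      refine le_trans (le_of_eq ?_) (key.trans (le_of_eq ?_))
      · rfl
      · ring) hp t
  refine h1.trans (le_of_eq ?_)
  ring

/-- **the squares `EHs` from joint numbers** -/
theorem numH_jb {J Aw A : ℕ} (hA : J + 2 ≤ A) (hJA : J + 2 ≤ Aw) {R Cw ε : ℝ} (hR : 0 ≤ R)
    (hCw : 0 ≤ Cw) (hε : 0 < ε) : ∃ C : ℝ, 0 ≤ C ∧
    ∀ (P K X X' Y E0 η : ℝ) (N₁ : ℕ) (Tg Fn : ℝ) (Sh : ℝ → ℝ → ℝ → ℝ) (α : Eis → ℂ), 1 ≤ P →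
      0 < K → 0 < X → 0 < X' → |Real.log X' - Real.log X| ≤ R + 1 → 1 ≤ Y → Y ≤ P →
      9 * (N₁ : ℝ) ≤ P → 1 ≤ E0 → 0 < η → η ≤ 1 → 0 ≤ Fn → (∀ n, α n ≠ 0 → n ∈ S Y) →
      (∀ d ∈ S Y, ∀ B V : ℝ, 1 ≤ B → B ≤ Y → 1 ≤ V → V ≤ 9 * N₁ / (nm d : ℝ) ^ 2 → ∀ t : ℝ,
        E1551.JB Y α (fun _ => True) d B V t ≤
          Fn * Real.exp (Sh (Real.log (nm d)) (Real.log B) (Real.log V)) *
            (1 + |t|) ^ ((J : ℕ) : ℝ)) →
      (∀ d b v : ℝ, 0 ≤ d → 0 ≤ b → b ≤ Real.log E0 + 1 → 0 ≤ v →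
        v + 2 * d ≤ Real.log (9 * N₁) → Sh d b v ≤ Tg - b + (Real.log K + v) / 3 - 4 / 3 * d) →
      ∀ p ∈ T9, ∀ φ : ℝ → ℝ, WK Cw η Aw φ → ∀ t : ℝ,
        EHs A K X' Y N₁ E0 (fun n => bt φ α p n * pw t (nm n)) ≤
          C * (η⁻¹) ^ J * P ^ ε * (Fn * Real.exp (Tg + 2 / 3 * Real.log X)) * (1 + |t|) ^ J := by
  obtain ⟨C, hC, H⟩ := ehs_jb hA hJA hR hCw hε
  refine ⟨C, hC, ?_⟩
  intro P K X X' Y E0 η N₁ Tg Fn Sh α hP hK hX hX' hXX hY hYP hNP hE0 hη hη1 hFn hα hJB hline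
    p hp φ hφ t
  have hY0 : 0 ≤ Y := by linarith
  set n := Real.log X with hn
  have hXn : X = Real.exp n := (Real.exp_log hX).symm
  refine H P K X X' Y η N₁ E0 (Fn * Real.exp (Tg + 2 / 3 * n)) α hP hK hX hX' hXX hY hYP hNP hη hη1
    (by linarith) (by positivity) hα (fun δ hδ B V hB1 hBY hBE hV1 hV2 t => ?_) p hp φ hφ t
  have hδp := ((mem_S hY0).1 hδ).2.1
  have hδ0 : (0 : ℝ) < nm δ := nmpos hδp.ne_zero
  have hδ1 : (1 : ℝ) ≤ nm δ := nm_ge_one hδp.ne_zero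
  have hB0 : 0 < B := by linarith
  have hV0 : 0 < V := by linarith
  have h1 := hJB δ hδ B V hB1 hBY hV1 hV2 t
  have hld : 0 ≤ Real.log (nm δ) := Real.log_nonneg hδ1
  have hlv : 0 ≤ Real.log V := Real.log_nonneg hV1
  have hlB : 0 ≤ Real.log B := Real.log_nonneg hB1
  have hlb : Real.log B ≤ Real.log E0 + 1 := by
    have h2 := Real.log_le_log hB0 hBE
    rw [Real.log_mul (by norm_num) (by linarith)] at h2
    linarith [Real.log_two_lt_d9]
  have hVd : Real.log V + 2 * Real.log (nm δ) ≤ Real.log (9 * N₁) := by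
    have h3 : V * (nm δ : ℝ) ^ 2 ≤ 9 * N₁ := (le_div_iff₀ (by positivity)).mp hV2
    have h4 := Real.log_le_log (by positivity) h3
    rw [Real.log_mul hV0.ne' (by positivity), Real.log_pow] at h4
    push_cast at h4
    exact h4
  have h2 := hline _ _ _ hld hlB hlb hlv hVd
  have hyv : yv K X δ V = Real.exp ((Real.log K + Real.log V) / 3 -
      2 / 3 * (n - Real.log (nm δ))) := by
    rw [hXn, yv_exp hK hV0 n hδp.ne_zero]
  have hBe : B⁻¹ = Real.exp (-Real.log B) := by rw [Real.exp_neg, Real.exp_log hB0]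
  have hT0 : 0 ≤ (1 + |t|) ^ ((J : ℕ) : ℝ) := by positivity
  refine h1.trans (mul_le_mul_of_nonneg_right ?_ hT0)
  calc Fn * Real.exp (Sh (Real.log (nm δ)) (Real.log B) (Real.log V))
      ≤ Fn * Real.exp (Tg - Real.log B + (Real.log K + Real.log V) / 3 -
          4 / 3 * Real.log (nm δ)) := mul_le_mul_of_nonneg_left (Real.exp_le_exp.2 h2) hFn
    _ = Fn * (Real.exp (Tg + 2 / 3 * n) * Real.exp (-(2 * Real.log (nm δ))) *
        (Real.exp (-Real.log B) * Real.exp ((Real.log K + Real.log V) / 3 -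
          2 / 3 * (n - Real.log (nm δ))))) := by
        rw [← Real.exp_add, ← Real.exp_add, ← Real.exp_add]
        congr 2
        ring
    _ = Fn * Real.exp (Tg + 2 / 3 * n) / (nm δ : ℝ) ^ 2 * (B⁻¹ * yv K X δ V) := by
        have e1 : Real.exp (-(2 * Real.log (nm δ))) = ((nm δ : ℝ) ^ 2)⁻¹ := by
          rw [Real.exp_neg]
          congr 1
          rw [show 2 * Real.log (nm δ) = Real.log (nm δ) + Real.log (nm δ) by ring, Real.exp_add,
            Real.exp_log hδ0, sq]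
        rw [hyv, hBe, e1, div_eq_mul_inv]
        ring

end Crest.Agent.R017.NTJ590
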