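import Crest.Agent.R017.NTJ_590
import Crest.Agent.R017.JBXs_320

/-!
# Row 17, FlatNE (helper590): the number of `NumT` from the closed joint exponent

* `lnT`     : the real line
* `numT_sh` : `NumT` from `shJ`
-/

set_option autoImplicit false

noncomputable section

open Complex
open scoped ComplexConjugate

namespace Crest.Agent.R017.NTJ590

open Crest.Agent.R012 Crest.Agent.R012.Eis
open Crest.Agent.R012.LS2 (S mem_S)
open Crest.Agent.R017.NE499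
open Crest.Agent.R017.RG64
open Crest.Agent.R017.JBX320 (shJ)
open Crest.Agent.R017.NEg551 (F3 F3_mono F3_nonneg F3_add)

/-- **the real line of `NumT`** -/
theorem lnT {κ g n m cL φ : ℝ} (hcL : 0 ≤ cL) (h1 : 9 / 22 * F3 κ m + cL ≤ φ)
    (h2 : n - m - g + cL ≤ φ) (h3 : 4 * (n - g) ≤ 3 * κ) {d b v : ℝ} (hd : 0 ≤ d) (hb : φ ≤ b) :
    shJ κ g n m cL d b v ≤ 4 / 3 * m + b + (κ + v) / 3 - 4 / 3 * d := by
  have e1 : min (max 0 ((2 * (m - d - b) - (v + b + κ)) / 3)) (F3 κ (m - d - b)) ≤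
      F3 κ (m - d - b) := min_le_right _ _
  have h4 := F3_nonneg κ m
  have h5 : (4 * m - 3 * κ) / 9 ≤ F3 κ m := le_max_right _ _
  have hb0 : 0 ≤ b := by linarith
  unfold shJ ex0
  rcases le_total (n - m + b) g with h | h
  · rw [max_eq_left (by linarith : n - m + b - g ≤ 0)]
    have h6 : F3 κ (m - d - b) ≤ 2 * b - cL := by
      unfold F3
      refine max_le (by linarith) ?_
      linarith
    linarith
  · rw [max_eq_right (by linarith : 0 ≤ n - m + b - g)]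
    have h6 : F3 κ (m - d - b) ≤ 0 := by
      unfold F3
      refine max_le le_rfl ?_
      linarith
    linarith

/-- **`NumT` from the closed joint exponent** -/
theorem numT_sh {Cw R ε : ℝ} {Aw J : ℕ} (hCw : 0 ≤ Cw) (hR : 0 ≤ R) (hε : 0 < ε)
    (hJA : J + 2 ≤ Aw) : ∃ C : ℝ, 0 ≤ C ∧
    ∀ (P K Y D E0 η : ℝ) (N₁ : ℕ) (g n m cL Fn : ℝ) (α : Eis → ℂ), 1 ≤ P →
    0 < K → 1 ≤ Y → Y ≤ P → 9 * (N₁ : ℝ) ≤ P → 1 ≤ E0 → 0 < η → η ≤ 1 → 0 ≤ Fn →
    (∀ n, α n ≠ 0 → n ∈ S Y) →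
    (∀ d ∈ S Y, ∀ B V : ℝ, 1 ≤ B → B ≤ Y → 1 ≤ V → V ≤ 9 * N₁ / (nm d : ℝ) ^ 2 → ∀ t : ℝ,
      E1551.JB Y α (fun _ => True) d B V t ≤
        Fn * Real.exp (shJ (Real.log K) g n m cL (Real.log (nm d)) (Real.log B) (Real.log V)) *
          (1 + |t|) ^ ((J : ℕ) : ℝ)) →
    0 ≤ cL → 9 / 22 * F3 (Real.log K) m + cL ≤ Real.log E0 → n - m - g + cL ≤ Real.log E0 →
    4 * (n - g) ≤ 3 * Real.log K →
    NumT Cw η Aw K (Real.exp m) Y R J D E0 N₁ α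
      (C * (η⁻¹) ^ J * P ^ ε * (Fn * Real.exp (2 * m))) := by
  obtain ⟨C, hC, H⟩ := numT_jb hCw hR hε hJA
  refine ⟨C, hC, ?_⟩
  intro P K Y D E0 η N₁ g n m cL Fn α hP hK hY hYP hNP hE0 hη hη1 hFn hα hJB hcL h1 h2 h3
  have key := H P K (Real.exp m) Y D E0 η N₁ (4 / 3 * m) Fn (shJ (Real.log K) g n m cL) α hP hK
    (Real.exp_pos m) hY hYP hNP hE0 hη hη1 hFn hα hJB
    (fun d b v hd hb hv hvd => lnT hcL h1 h2 h3 hd hb)
  rw [Real.log_exp] at key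
  have e : 4 / 3 * m + 2 / 3 * m = 2 * m := by ring
  rwa [e] at key

end Crest.Agent.R017.NTJ590
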