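import Crest.Agent.R017.NTJ_590
import Crest.Agent.R017.JBN_551

/-!
# Row 17, near field (helper551): the tail squares at the near leaf, class N

* `lnT`       : the real line of helper590's `numT_jb` for the joint numbers `shJ`
* **`numT_leaf`** : `NLeaf π h (NumT ..) L φ₀ φ₁ φβ K v c` for `9/22 F3 + c ≤ φ₀`
-/

set_option autoImplicit false

noncomputable section

open Complex
open scoped ComplexConjugate

namespace Crest.Agent.R017.JBN551

open Crest.Agent.R012 Crest.Agent.R012.Eis Crest.Agent.R012.LS2 Crest.Agent.R012.Gauss880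
open Crest.Agent.R012.Weight600 (osc pw)
open Crest.Agent.R017.CM106 Crest.Agent.R017.FE47
open Crest.Agent.R017.HP842 hiding fl
open Crest.Agent.R017.End699 hiding pw
open Crest.Agent.R017.B770
open Crest.Agent.R017.Prov71
open Crest.Agent.R017.Leg381
open Crest.Agent.R017.RG64
open Crest.Agent.R017.RGB545 (Line Th TK)
open Crest.Agent.R017.XP699 (LL Chd hcost cst)
open Crest.Agent.R017.NE73 (gN)
open Crest.Agent.R017.NE499 (NumT)
open Crest.Agent.R017.NEg551 (NFacts NNum NTc NLeaf LBq F3 F3_mono F3_nonneg F3_add)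
open Crest.Agent.R017.TNj90 (JBc)
open Crest.Agent.R017.NTJ590 (numT_jb)

/-- **the real line of `NumT`** -/
lemma lnT {κ G n m cL b₀ d b v c₁ : ℝ} (hG : G = n - 3 / 4 * κ + c₁) (hc₁ : 0 ≤ c₁)
    (hm : n - G ≤ m) (hcL : 0 ≤ cL) (hb₀ : 9 / 22 * F3 κ m + cL ≤ b₀) (hb : b₀ ≤ b) (hd : 0 ≤ d) :
    shJ κ G n m cL d b v ≤ 4 / 3 * m + b + (κ + v) / 3 - 4 / 3 * d := by
  have h0 := F3_nonneg κ m
  have h1 : F3 κ (m - d - b) ≤ F3 κ (m - b) := F3_mono κ (by linarith)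
  have h2 : min (max 0 ((2 * (m - d - b) - (v + b + κ)) / 3)) (F3 κ (m - d - b)) ≤
      F3 κ (m - b) := (min_le_right _ _).trans h1
  have key : F3 κ (m - b) + max 0 (n - m + b - G) + cL ≤ 2 * b := by
    rcases le_total (n - m + b) G with h3 | h3
    · rw [max_eq_left (by linarith)]
      have h4 : F3 κ (m - b) ≤ max 0 (F3 κ m - 4 / 9 * b) := by
        unfold F3
        refine max_le (le_max_left _ _) ?_
        refine le_max_of_le_right ?_
        have := le_max_right 0 ((4 * m - 3 * κ) / 9)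
        linarith
      rcases le_total 0 (F3 κ m - 4 / 9 * b) with h5 | h5
      · rw [max_eq_right h5] at h4
        linarith
      · rw [max_eq_left h5] at h4
        linarith
    · rw [max_eq_right (by linarith)]
      have h4 : F3 κ (m - b) = 0 := by
        unfold F3
        rw [max_eq_left (by linarith)]
      rw [h4]
      linarith
  unfold shJ ex0
  linarith

variable {Lam ι : Type*} {p : ℕ}

/-- `F3` at the scale `log X` -/
lemma F3_scale {K m L : ℝ} (hL : 0 < L) :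
    max 0 ((4 * (m / L) - 3 * K) / 9) * L = F3 (K * L) m := by
  unfold F3
  rw [max_mul_of_nonneg _ _ hL.le, zero_mul]
  congr 1
  field_simp

set_option maxHeartbeats 1600000 in
/-- **the tail squares at the near leaf** (class N) -/
theorem numT_leaf {π : Lam → DPar} (hP : ∀ lam, (π lam).OK) {h : ℝ → ℝ} {c₁ : ℝ} (hpu : PU h c₁)
    {L : ι → Line Lam p} {φ₀ φ₁ φβ : ℝ → ℝ → ℝ → ℝ} {K v c : ℝ} (hc : 0 < c)
    (hcK : 2000 * c ≤ K)
    (hφ₀ : ∀ a u m, 9 / 22 * max 0 ((4 * m - 3 * K) / 9) + c ≤ φ₀ a u m) :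
    NLeaf π h (fun q α Rn => NumT q.Cw q.η q.Aw q.K q.X q.Y q.R q.J q.D q.E0 q.N₁ α Rn)
      L φ₀ φ₁ φβ K v c := by
  have hK : 0 < K := by linarith
  intro lam N c₀ hc₀
  refine ⟨c₀ + (K + 2 * c), by linarith, fun ε M hε hM => ?_⟩
  refine ⟨max M (N * M), c / (3 * (N + 1)), hM.trans (le_max_left _ _), by positivity, ?_⟩
  intro δ Jn Aw Cw R η S hδ0 hδ hJn hAw hCw hR hη hη1 hS
  have hN0 : (0 : ℝ) ≤ N := Nat.cast_nonneg _
  have hNδ : N * δ ≤ c / 3 := by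
    have h1 : N * δ ≤ N * (c / (3 * (N + 1))) := mul_le_mul_of_nonneg_left hδ hN0
    have h2 : N * (c / (3 * (N + 1))) ≤ c / 3 := by
      rw [mul_div_assoc', div_le_div_iff₀ (by positivity) (by norm_num)]
      nlinarith
    linarith
  obtain ⟨b, hb⟩ : ∃ b : ℝ, b = 8 * (K + 1) := ⟨_, rfl⟩
  have hb8 : 8 ≤ b := by rw [hb]; linarith
  obtain ⟨C₂, r₂, hC₂, hr₂, H₂⟩ := jbn_near2 hpu N hK (ε := ε / 2) (by positivity) hM
  obtain ⟨C₁, hC₁, H₁⟩ := numT_jb (Cw := Cw) (R := R) (ε := ε / (2 * b)) (Aw := Aw) (J := Jn)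
    hCw hR (by positivity) hAw
  obtain ⟨R₁, Ca, hR₁, hCa, hAL⟩ := exists_ALp hpu N
  obtain ⟨X₁, hX₁⟩ : ∃ X₁ : ℝ, X₁ = Real.exp (1 + (7 + r₂) / ε + R₁ + Real.log Ca) := ⟨_, rfl⟩
  refine ⟨C₁ * (η⁻¹) ^ Jn * C₂ + Real.exp r₂, S + r₂, X₁, by positivity, by linarith, ?_⟩
  intro X hX3 hXX ps₀ hlen hz _ hnum q ps Lv N₁ hF hq hqX hps Bd hBd hNT _
  have hX0 : 0 < X := by linarith
  have hX1 : 1 ≤ X := by linarith
  obtain ⟨L', hL'⟩ : ∃ L' : ℝ, L' = Real.log X := ⟨_, rfl⟩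
  have hlCa : 0 ≤ Real.log Ca := Real.log_nonneg hCa
  have hq7 : 0 ≤ (7 + r₂) / ε := by positivity
  have hLbig : 1 + (7 + r₂) / ε + R₁ + Real.log Ca ≤ L' := by
    rw [hL', ← Real.log_exp (1 + (7 + r₂) / ε + R₁ + Real.log Ca)]
    exact Real.log_le_log (Real.exp_pos _) (hX₁ ▸ hXX)
  have hL0 : 0 < L' := by linarith
  have hεL : 7 + r₂ ≤ ε * L' := by
    have h1 : (7 + r₂) / ε ≤ L' := by linarith
    rw [div_le_iff₀ hε] at h1
    linarith
  have hl9 : Real.log 9 ≤ 3 := by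
    rw [Real.log_le_iff_le_exp (by norm_num)]
    have := Real.exp_one_gt_d9
    have h3 : Real.exp 3 = Real.exp 1 ^ 3 := by rw [← Real.exp_nat_mul]; norm_num
    rw [h3]
    nlinarith [sq_nonneg (Real.exp 1), mul_pos (Real.exp_pos 1) (Real.exp_pos 1)]
  have hlog9 : 0 ≤ Real.log 9 := Real.log_nonneg (by norm_num)
  -- the numbers
  have h1nK := hF.nK
  have h1lo := hF.lo
  have h1hi := hF.hi
  have h1lv := hF.lv
  have hec := hnum.ec
  have hvg := hnum.vg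
  rw [← hL'] at h1nK h1lo h1hi h1lv hvg
  obtain ⟨g, hg⟩ : ∃ g, g = gN K c (LL Dq ps₀ / L') := ⟨_, rfl⟩
  rw [← hg] at h1lo hvg
  have hcL0 : 0 ≤ c * L' := by positivity
  have hεL0 : 0 ≤ ε * L' := by positivity
  have hεc : ε * L' ≤ c * L' := mul_le_mul_of_nonneg_right hec hL0.le
  have hcK' : c * L' ≤ K * L' := mul_le_mul_of_nonneg_right (by linarith) hL0.le
  have hKL0 : 0 ≤ K * L' := by positivity
  have e1 : (K + ε) * L' = K * L' + ε * L' := by ring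
  have e2 : (v + ε) * L' = v * L' + ε * L' := by ring
  have hLF : LF ps ≤ (K + 2 * c) * L' := by
    have : (K + 2 * c) * L' = K * L' + 2 * (c * L') := by ring
    linarith
  have hvgL : 3 * (v * L' + g * L') + 100 * (c * L') ≤ 2 * (K * L') + ε * L' := by
    have := mul_le_mul_of_nonneg_right hvg hL0.le
    nlinarith
  have hLv : Lv + 4 + Real.log 9 ≤ b * L' := by
    have h2 : b * L' = 8 * (K * L') + 8 * L' := by rw [hb]; ring
    linarith
  have hLFb : LF ps ≤ b * L' := by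
    have h2 : b * L' = 8 * (K * L') + 8 * L' := by rw [hb]; ring
    have h3 : (K + 2 * c) * L' = K * L' + 2 * (c * L') := by ring
    linarith
  -- the family
  obtain ⟨Y, hY⟩ : ∃ Y : ℝ, Y = X ^ b := ⟨_, rfl⟩
  have hY1 : 1 ≤ Y := by rw [hY]; exact Real.one_le_rpow hX1 (by linarith)
  have hY0 : 0 < Y := by linarith
  have hlY : Real.log Y = b * L' := by rw [hY, Real.log_rpow hX0, hL']
  have hYe : Y ^ (ε / (2 * b)) = X ^ (ε / 2) := by
    rw [hY, ← Real.rpow_mul hX0.le]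
    congr 1
    field_simp
  have hCaY : Ca ≤ Y := by
    rw [← Real.log_le_log_iff (by linarith) hY0, hlY]
    have h2 : b * L' = 8 * (K * L') + 8 * L' := by rw [hb]; ring
    linarith
  have hRY : Real.exp R₁ * Real.exp (LF ps) ≤ Y := by
    rw [← Real.exp_add, ← Real.exp_log hY0, hlY]
    refine Real.exp_le_exp.2 ?_
    have h2 : b * L' = 8 * (K * L') + 8 * L' := by rw [hb]; ring
    have h3 : (K + 2 * c) * L' = K * L' + 2 * (c * L') := by ring
    linarith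
  have h9N : 9 * (N₁ : ℝ) ≤ Y := by
    refine hF.N1.trans ?_
    rw [← Real.exp_log hY0, hlY]
    exact Real.exp_le_exp.2 (by linarith)
  have hlen' : ps.length ≤ N := hps.length ▸ hlen
  obtain ⟨hsupp, -, -, -⟩ := hAL (X ^ δ) (X ^ δ) (π lam) (hP lam) q ps hlen' Y hCaY hRY
  -- the joint numbers
  have hJM : (N : ℝ) * M ≤ Jn := (le_max_right _ _).trans hJn
  have hqb : (nm q : ℝ) * Real.exp (LF ps) * Real.exp r₂ ≤
      (C₁ * (η⁻¹) ^ Jn * C₂ + Real.exp r₂) * X ^ (c₀ + (K + 2 * c)) := by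
    have h2 : Real.exp (LF ps) ≤ X ^ (K + 2 * c) := by
      rw [Real.rpow_def_of_pos hX0, ← hL', mul_comm L']
      exact Real.exp_le_exp.2 hLF
    have h3 : 0 ≤ C₁ * (η⁻¹) ^ Jn * C₂ := by positivity
    rw [Real.rpow_add hX0]
    calc (nm q : ℝ) * Real.exp (LF ps) * Real.exp r₂ ≤ X ^ c₀ * X ^ (K + 2 * c) * Real.exp r₂ := by
          gcongr
      _ = Real.exp r₂ * (X ^ c₀ * X ^ (K + 2 * c)) := by ring
      _ ≤ _ := mul_le_mul_of_nonneg_right (by linarith) (by positivity)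
  have hJB := H₂ X hX3 (π lam) (hP lam) ps₀ hlen v c (gN K c (LL Dq ps₀ / Real.log X)) ε (2 * ε) S
    (S + r₂) ((C₁ * (η⁻¹) ^ Jn * C₂ + Real.exp r₂) * X ^ (c₀ + (K + 2 * c))) Bd δ (c * L') 9
    (2 / 3 * c) Jn hc.le (by linarith) (by linarith) (by norm_num) (by linarith) hδ0 hJM
    (by linarith) le_rfl hNT q ps Lv N₁ hF hq hqb hps
    (by rw [← hL']; linarith) (by rw [← hL', ← hb]; exact hLv) (by rw [← hL', ← hb]; exact hLFb)
    (by
      rw [← hL']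
      have : N * (δ * L') = (N * δ) * L' := by ring
      rw [this]
      nlinarith [mul_le_mul_of_nonneg_right hNδ hL0.le])
  rw [← hL', ← hg, ← hb, ← hY] at hJB
  -- the cut
  have hφ := hφ₀ (LL Dq ps₀ / L') (Lv / L') (LF ps / L')
  obtain ⟨f₀, hf₀⟩ : ∃ f₀, f₀ = φ₀ (LL Dq ps₀ / L') (Lv / L') (LF ps / L') := ⟨_, rfl⟩
  rw [← hf₀] at hφ
  have hf0 : 0 ≤ f₀ := by
    have := le_max_left 0 ((4 * (LF ps / L') - 3 * K) / 9)
    linarith
  have hE1 : 1 ≤ X ^ f₀ := Real.one_le_rpow hX1 hf0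
  have hlE : Real.log (X ^ f₀) = f₀ * L' := by rw [Real.log_rpow hX0, hL']
  have hφL : 9 / 22 * F3 (K * L') (LF ps) + c * L' ≤ f₀ * L' := by
    rw [← F3_scale hL0]
    have := mul_le_mul_of_nonneg_right hφ hL0.le
    linarith
  have hlK : Real.log (X ^ K) = K * L' := by rw [Real.log_rpow hX0, hL']
  have hG : g * L' = LL Dq ps₀ - 3 / 4 * (K * L') + c * L' := by
    rw [hg]
    unfold NE73.gN
    field_simp
  have key := H₁ Y (X ^ K) (Real.exp (LF ps)) Y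
    (Real.exp (min (g * L') (LF ps - (LL Dq ps₀ - g * L')))) (X ^ f₀) η N₁
    (4 / 3 * LF ps) (C₂ * X ^ (ε / 2) * (Bd * Ht (natl ps₀) ^ M) * Ht ps ^ M)
    (shJ (K * L') (g * L') (LL Dq ps₀) (LF ps) (c * L'))
    (sqc q (alF (X ^ δ) (X ^ δ) (π lam) h ps)) hY1 (Real.rpow_pos_of_pos hX0 _) (Real.exp_pos _)
    hY1 le_rfl h9N hE1 hη (by linarith) (by
      have h1 : 0 ≤ Ht (natl ps₀) ^ M := Real.rpow_nonneg (zero_le_one.trans (one_le_Ht _)) _
      have h2 : 0 ≤ Ht ps ^ M := Real.rpow_nonneg (zero_le_one.trans (one_le_Ht _)) _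
      have h3 : 0 ≤ Bd := by linarith
      positivity) hsupp
    (fun d hd B V hB1 hBY hV1 hVW t => hJB d hd B V hB1 hBY hV1 hVW t)
    (fun d b' v' hd hb' _ _ => by
      rw [hlK]
      exact lnT hG hcL0 (by linarith) hcL0 hφL (hlE ▸ hb') hd)
  rw [Real.log_exp, hYe] at key
  -- comparison
  have hHt1 := one_le_Ht ps
  have hHt2 := one_le_Ht (natl ps₀)
  have hHH : 1 ≤ Ht ps * Ht (natl ps₀) := one_le_mul_of_one_le_of_one_le hHt1 hHt2
  have h1 : Ht (natl ps₀) ^ M * Ht ps ^ M ≤ (Ht ps * Ht (natl ps₀)) ^ max M (N * M) := by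
    rw [mul_comm, ← Real.mul_rpow (by linarith) (by linarith)]
    exact Real.rpow_le_rpow_of_exponent_le hHH (le_max_left _ _)
  have h2 : X ^ (ε / 2) * X ^ (ε / 2) = X ^ ε := by
    rw [← Real.rpow_add hX0]
    congr 1
    ring
  have hle : C₁ * (η⁻¹) ^ Jn * X ^ (ε / 2) * (C₂ * X ^ (ε / 2) * (Bd * Ht (natl ps₀) ^ M) *
      Ht ps ^ M * Real.exp (4 / 3 * LF ps + 2 / 3 * LF ps)) ≤
      (C₁ * (η⁻¹) ^ Jn * C₂ + Real.exp r₂) * X ^ ε *
        (Ht ps * Ht (natl ps₀)) ^ max M (N * M) * Bd * Real.exp (2 * LF ps) := by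
    have e3 : 4 / 3 * LF ps + 2 / 3 * LF ps = 2 * LF ps := by ring
    rw [e3]
    have h5 : 0 ≤ C₁ * (η⁻¹) ^ Jn * C₂ := by positivity
    have hBd0 : 0 ≤ Bd := by linarith
    calc C₁ * (η⁻¹) ^ Jn * X ^ (ε / 2) * (C₂ * X ^ (ε / 2) * (Bd * Ht (natl ps₀) ^ M) *
          Ht ps ^ M * Real.exp (2 * LF ps)) =
        C₁ * (η⁻¹) ^ Jn * C₂ * (X ^ (ε / 2) * X ^ (ε / 2)) *
          (Ht (natl ps₀) ^ M * Ht ps ^ M) * Bd * Real.exp (2 * LF ps) := by ring
      _ ≤ (C₁ * (η⁻¹) ^ Jn * C₂ + Real.exp r₂) * X ^ ε *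
          (Ht ps * Ht (natl ps₀)) ^ max M (N * M) * Bd * Real.exp (2 * LF ps) := by
          rw [h2]
          have h6 : C₁ * (η⁻¹) ^ Jn * C₂ ≤ C₁ * (η⁻¹) ^ Jn * C₂ + Real.exp r₂ := by
            linarith [Real.exp_pos r₂]
          have h7 : 0 ≤ Ht (natl ps₀) ^ M * Ht ps ^ M := mul_nonneg
            (Real.rpow_nonneg (by linarith) _) (Real.rpow_nonneg (by linarith) _)
          gcongr
  show NumT Cw η Aw (X ^ K) (Real.exp (LF ps)) (X ^ (8 * (K + 1))) R Jn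
    (Real.exp (min (gN K c (LL Dq ps₀ / Real.log X) * Real.log X)
      (LF ps - (LL Dq ps₀ - gN K c (LL Dq ps₀ / Real.log X) * Real.log X))))
    (X ^ φ₀ (LL Dq ps₀ / Real.log X) (Lv / Real.log X) (LF ps / Real.log X)) N₁
    (sqc q (alF (X ^ δ) (X ^ δ) (π lam) h ps)) _
  rw [← hL', ← hg, ← hf₀, ← hb, ← hY]
  intro p' hp' t X' φ a1 a2 a3 a4
  refine (key p' hp' t X' φ a1 a2 a3 a4).trans ?_
  refine mul_le_mul_of_nonneg_left (mul_le_mul_of_nonneg_right hle (by positivity)) (by positivity)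

end Crest.Agent.R017.JBN551
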