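import Crest.Agent.R017.NTc_813

/-!
# Row 17, the near-top part of the tail of (LB) (helper813), part d: one cell

* `cauchyQ` : Cauchy for `CrQ`
* `gw_le` : the Gram side of one cell
* `cell` : one cell `(g, a, e₀, m)`
-/

set_option autoImplicit false
set_option linter.unusedVariables false

noncomputable section

open Complex MeasureTheory
open scoped ComplexConjugate Classical

namespace Crest.Agent.R017.Et813

open Crest.Agent.R012 Crest.Agent.R012.Eis Crest.Agent.R012.MC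
open Crest.Agent.R012.LS2 (S mem_S)
open Crest.Agent.R012.Mob705 (mu IsPP)
open Crest.Agent.R012.Div277 (tau dvs mem_dvs)
open Crest.Agent.R017.X6C180 (n13 cM GF)
open Crest.Agent.R017.X6545 (TF)
open Crest.Agent.R017.CM106 (CS FS)
open Crest.Agent.R017.PX764 (th)
open Crest.Agent.R017.C70 (JW OKJ okJ_JW CbF)
open Crest.Agent.R017.E2440 (TE StE StT TOK tok_TE Fh)
open Crest.Agent.R017.Ex385 (CrQ)
open Crest.Agent.R017.WDec180 (WD sc sc_pos)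
open Crest.Agent.R017.LB48 (CrP GrP)
open Crest.Agent.R017.E3M829 (Cut Tal Sg)
open Crest.Agent.R017.LBu180 (SqQ)
open Crest.Agent.R017.CubP813 (alr omb omc Te)

/-! ### Cauchy -/

lemma cauchyQ {U : ℝ → ℂ} {S0 : ℝ} (hS0 : 0 ≤ S0) (hUb : ∀ t, ‖U t‖ ≤ S0) {Q Q' : Eis → Prop}
    (hQQ : ∀ k, Q k → Q' k) {κ a b : ℝ} (hb : 0 ≤ b)
    (hw : ∀ k : Eis, IsPrim k → Q k → U ((nm k : ℝ) / κ) ≠ 0 → a ≤ (nm k : ℝ) ∧ (nm k : ℝ) ≤ b)
    (α u : Eis → ℂ) :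
    ‖CrQ U Q κ α u‖ ≤ S0 * (√(∑ k ∈ (wnd a b).filter Q', ‖CS α k‖ ^ 2) *
      √(∑ k ∈ (wnd a b).filter Q, ‖u k‖ ^ 2)) := by
  have e1 : CrQ U Q κ α u = ∑ k ∈ (wnd a b).filter Q,
      U ((nm k : ℝ) / κ) * (CS α k * conj (u k)) := by
    unfold Ex385.CrQ
    rw [tsum_eq_sum (s := (wnd a b).filter Q)]
    · refine Finset.sum_congr rfl fun k hk => ?_
      obtain ⟨h1, h2⟩ := Finset.mem_filter.1 hk
      rw [if_pos ⟨((mem_wnd hb).1 h1).1, h2⟩]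
    · intro k hk
      split_ifs with h
      · by_contra h0
        obtain ⟨h1, h2⟩ := hw k h.1 h.2 (left_ne_zero_of_mul h0)
        exact hk (Finset.mem_filter.2 ⟨(mem_wnd hb).2 ⟨h.1, h1, h2⟩, h.2⟩)
      · rfl
  rw [e1]
  calc ‖∑ k ∈ (wnd a b).filter Q, U ((nm k : ℝ) / κ) * (CS α k * conj (u k))‖ ≤
      ∑ k ∈ (wnd a b).filter Q, S0 * (‖CS α k‖ * ‖u k‖) := by
        refine (norm_sum_le _ _).trans (Finset.sum_le_sum fun k _ => ?_)
        rw [norm_mul, norm_mul, RCLike.norm_conj]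
        exact mul_le_mul_of_nonneg_right (hUb _) (by positivity)
    _ = S0 * ∑ k ∈ (wnd a b).filter Q, ‖CS α k‖ * ‖u k‖ := by rw [Finset.mul_sum]
    _ ≤ S0 * (√(∑ k ∈ (wnd a b).filter Q, ‖CS α k‖ ^ 2) *
      √(∑ k ∈ (wnd a b).filter Q, ‖u k‖ ^ 2)) :=
        mul_le_mul_of_nonneg_left (Real.sum_mul_le_sqrt_mul_sqrt _ _ _) hS0
    _ ≤ _ := by
        refine mul_le_mul_of_nonneg_left (mul_le_mul_of_nonneg_right ?_ (Real.sqrt_nonneg _)) hS0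
        refine Real.sqrt_le_sqrt (Finset.sum_le_sum_of_subset_of_nonneg
          (fun k hk => ?_) fun _ _ _ => sq_nonneg _)
        rw [Finset.mem_filter] at hk ⊢
        exact ⟨hk.1, hQQ k hk.2⟩

lemma mu_CrQ (U : ℝ → ℂ) (Q : Eis → Prop) (κ : ℝ) (α u : Eis → ℂ) (e : Eis) :
    (mu e : ℂ) * CrQ U Q κ α u = CrQ U Q κ α (fun k => (mu e : ℂ) * u k) := by
  unfold Ex385.CrQ
  rw [← tsum_mul_left]
  refine tsum_congr fun k => ?_
  split_ifs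
  · rw [map_mul, map_intCast]
    ring
  · rw [mul_zero]

lemma zero_CrQ_u (U : ℝ → ℂ) (Q : Eis → Prop) (κ : ℝ) (α u : Eis → ℂ) (h : ∀ k, u k = 0) :
    CrQ U Q κ α u = 0 := by
  unfold Ex385.CrQ
  refine (tsum_congr fun k => ?_).trans tsum_zero
  rw [h k]
  simp

lemma zero_CrQ_a (U : ℝ → ℂ) (Q : Eis → Prop) (κ : ℝ) (α u : Eis → ℂ) (h : ∀ k, CS α k = 0) :
    CrQ U Q κ α u = 0 := by
  unfold Ex385.CrQ
  refine (tsum_congr fun k => ?_).trans tsum_zero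
  rw [h k]
  simp

lemma zero_CrQ_s (U : ℝ → ℂ) (Q : Eis → Prop) (κ : ℝ) (α u : Eis → ℂ)
    (h : ∀ k, IsPrim k → Q k → U ((nm k : ℝ) / κ) = 0) :
    CrQ U Q κ α u = 0 := by
  unfold Ex385.CrQ
  refine (tsum_congr fun k => ?_).trans tsum_zero
  split_ifs with hk
  · rw [h k hk.1 hk.2, zero_mul]
  · rfl

/-! ### the Gram side -/

lemma abs_mu_le (n : Eis) : ‖(mu n : ℂ)‖ ≤ 1 := by
  rw [Complex.norm_intCast]
  exact_mod_cast Mob705.abs_mu_le_one n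

/-- **the Gram side of one cell** -/
theorem gw_le {ε : ℝ} (hε : 0 < ε) : ∃ C κ₀ : ℝ, 0 ≤ C ∧ 1 ≤ κ₀ ∧
    ∀ {W : ℝ → ℝ}, Wgt W → (∀ x, 0 ≤ W x) → ∀ {lo hi : ℝ}, 0 ≤ lo → 0 ≤ hi →
    (∀ x, lo ≤ x → x ≤ Real.exp 2 * hi → 1 ≤ W x) →
    ∀ (P E0 D E1 Kg K' L2 t Bg : ℝ) (J : Finset (Eis × Eis)) (om : Eis × Eis → ℂ)
      (T : Eis × Eis → Eis → ℂ) (e₀ : Eis) (Q : Eis → Prop), 1 ≤ P → 0 < Kg → hi * Kg ≤ P →
      0 < t → t ≤ P → K' * t ^ 3 = Kg →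
      0 ≤ E0 → E0 ≤ P → OKJ J → (∀ x ∈ J, (nm x.1 : ℝ) ≤ D) → TOK T → IsPrim e₀ →
      Squarefree e₀ → (nm e₀ : ℝ) ≤ E0 → (∀ k, Q k → CbF k ∧ IsCoprime e₀ k) →
      Real.exp κ₀ ≤ L2 → E0 < L2 → D < L2 → L2 * nm e₀ ≤ t → Real.exp (2 / 3) * t ≤ E1 →
      GrP W Kg (fun r => if Cut E1 r then StT E0 J (omc om e₀) T r else 0) ≤ Bg →
      ∑ k ∈ (wnd (lo * K') (hi * K')).filter Q,
        ‖(mu e₀ : ℂ) * StT E0 J om (Te E0 e₀ T) k‖ ^ 2 ≤ C * P ^ ε * (E0 / t) * Bg := by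
  obtain ⟨C₁, κ₀, hC₁, hκ₀, H₁⟩ := embed (ε := ε / 4) (by positivity)
  obtain ⟨Ct, hCt, Ht⟩ := Div277.tau_le_rpow (ε := ε / 4) (by positivity)
  obtain ⟨Cl, hCl, Hl⟩ := PInv255.one_add_log_pow_le 1 (ε / 4) (by positivity)
  refine ⟨Ct ^ 2 * C₁ * Cl, κ₀, by positivity, hκ₀, ?_⟩
  intro W hW hW0 lo hi hlo hhi hW1 P E0 D E1 Kg K' L2 t Bg J om T e₀ Q hP hKg hKP ht htP hK' hE0
    hE0P hJ hJD hT he hes heE hQ hL0 hL1 hL2 hLt hE1 hBg
  have hP0 : 0 < P := by linarith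
  have hK'0 : 0 < K' := by
    rcases lt_or_ge 0 K' with h | h
    · exact h
    · exfalso
      have : K' * t ^ 3 ≤ 0 := mul_nonpos_of_nonpos_of_nonneg h (by positivity)
      linarith
  have hne : (1 : ℝ) ≤ nm e₀ := by exact_mod_cast nm_pos.2 he.ne_zero
  have hL20 : 0 < L2 := (Real.exp_pos _).trans_le hL0
  have hG0 : 0 ≤ GrP W Kg (fun r => if Cut E1 r then StT E0 J (omc om e₀) T r else 0) := by
    unfold LB48.GrP
    refine tsum_nonneg fun k => ?_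
    have := hW0 (nm k / Kg)
    split_ifs <;> positivity
  have hBg0 : 0 ≤ Bg := hG0.trans hBg
  set B := (wnd (lo * K') (hi * K')).filter Q with hB
  -- one divisor
  have hd1 : ∀ d ∈ dvs e₀, ∑ k ∈ B, ‖StT E0 J (omc om e₀) T (d ^ 3 * k)‖ ^ 2 ≤
      C₁ * P ^ (ε / 4) * (Cl * P ^ (ε / 4) * (E0 / t)) * Bg := by
    intro d hd
    obtain ⟨hdp, hde⟩ := (mem_dvs he.ne_zero).1 hd
    have hnd : (1 : ℝ) ≤ nm d := by exact_mod_cast nm_pos.2 hdp.ne_zero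
    have hnd2 : (nm d : ℝ) ≤ nm e₀ := by exact_mod_cast Div277.nm_le_of_dvd he.ne_zero hde
    have hq : L2 ≤ t / nm d := by
      rw [le_div_iff₀ (by linarith)]
      refine le_trans ?_ hLt
      gcongr
    have hq0 : 0 < t / nm d := hL20.trans_le hq
    have hex : Real.exp (Real.log (t / nm d)) = t / nm d := Real.exp_log hq0
    have hdt : (nm d : ℝ) * (t / nm d) = t := by field_simp
    have h1 := H₁ hW hW0 hlo hhi hW1 P E0 D E1 Kg (Real.log (t / nm d)) J (omc om e₀) T d B hP hKg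
      hKP hE0 (fun x hx => ⟨hJ.prim x hx, hJD x hx⟩) hdp
      (by
        intro k hk
        rw [hB, Finset.mem_filter] at hk
        obtain ⟨h1, h2, h3⟩ := (mem_wnd (by positivity)).1 hk.1
        refine ⟨h1, (hQ k hk.2).1, ?_, ?_⟩
        · rw [hex, hdt, ← hK']
          calc lo * (K' * t ^ 3) = lo * K' * t ^ 3 := by ring
            _ ≤ nm k * t ^ 3 := by gcongr
        · rw [hex, hdt, ← hK']
          calc (nm k : ℝ) * t ^ 3 ≤ hi * K' * t ^ 3 := by gcongr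
            _ = _ := by ring)
      (by rw [Real.le_log_iff_exp_le hq0]; exact hL0.trans hq)
      (by rw [hex]; exact hL1.trans_le hq) (by rw [hex]; exact hL2.trans_le hq)
      (by
        rw [Real.exp_add, hex, ← mul_assoc, hdt, mul_comm]
        exact hE1)
    refine h1.trans ?_
    have h2 : Real.log (t / nm d) * Real.exp (-Real.log (t / nm d)) ≤
        Cl * P ^ (ε / 4) * (E0 / t) := by
      rw [Real.exp_neg, hex, inv_div]
      have h3 : Real.log (t / nm d) ≤ Cl * P ^ (ε / 4) := by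
        have h4 := Hl P hP
        rw [pow_one] at h4
        have h5 : Real.log (t / nm d) ≤ Real.log P :=
          Real.log_le_log hq0 ((div_le_self ht.le hnd).trans htP)
        linarith
      have h6 : (nm d : ℝ) / t ≤ E0 / t := by
        gcongr
        exact hnd2.trans heE
      have h7 : 0 ≤ Cl * P ^ (ε / 4) := by positivity
      calc Real.log (t / nm d) * (nm d / t) ≤ Cl * P ^ (ε / 4) * (nm d / t) := by
            gcongr
        _ ≤ _ := by gcongr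
    have h8 : 0 ≤ C₁ * P ^ (ε / 4) := by positivity
    have h9 : 0 ≤ Cl * P ^ (ε / 4) * (E0 / t) := by positivity
    calc C₁ * P ^ (ε / 4) * (Real.log (t / nm d) * Real.exp (-Real.log (t / nm d))) *
        GrP W Kg (fun r => if Cut E1 r then StT E0 J (omc om e₀) T r else 0) ≤
        C₁ * P ^ (ε / 4) * (Cl * P ^ (ε / 4) * (E0 / t)) *
        GrP W Kg (fun r => if Cut E1 r then StT E0 J (omc om e₀) T r else 0) := by
          gcongr
      _ ≤ _ := by gcongr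
  -- all divisors
  have hk1 : ∀ k ∈ B, ‖(mu e₀ : ℂ) * StT E0 J om (Te E0 e₀ T) k‖ ^ 2 ≤
      tau e₀ * ∑ d ∈ dvs e₀, ‖StT E0 J (omc om e₀) T (d ^ 3 * k)‖ ^ 2 := by
    intro k hk
    rw [hB, Finset.mem_filter] at hk
    obtain ⟨h1, h2, h3⟩ := (mem_wnd (by positivity)).1 hk.1
    rw [CubP813.StT_Te hE0 hJ om hT he hes h1 (hQ k hk.2).2]
    have h4 : ‖∑ d ∈ dvs e₀, (mu (e₀ / d) : ℂ) * StT E0 J (omc om e₀) T (d ^ 3 * k)‖ ≤
        ∑ d ∈ dvs e₀, ‖StT E0 J (omc om e₀) T (d ^ 3 * k)‖ := by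
      refine (norm_sum_le _ _).trans (Finset.sum_le_sum fun d _ => ?_)
      rw [norm_mul]
      exact mul_le_of_le_one_left (norm_nonneg _) (abs_mu_le _)
    calc ‖∑ d ∈ dvs e₀, (mu (e₀ / d) : ℂ) * StT E0 J (omc om e₀) T (d ^ 3 * k)‖ ^ 2 ≤
        (∑ d ∈ dvs e₀, ‖StT E0 J (omc om e₀) T (d ^ 3 * k)‖) ^ 2 := by gcongr
      _ ≤ ((dvs e₀).card : ℝ) * ∑ d ∈ dvs e₀, ‖StT E0 J (omc om e₀) T (d ^ 3 * k)‖ ^ 2 :=
        sq_sum_le_card_mul_sum_sq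
      _ = _ := rfl
  have hτ : (tau e₀ : ℝ) ≤ Ct * P ^ (ε / 4) := by
    refine (Ht e₀ he.ne_zero).trans ?_
    gcongr
    exact heE.trans hE0P
  have hτ0 : (0 : ℝ) ≤ tau e₀ := Nat.cast_nonneg _
  set V := C₁ * P ^ (ε / 4) * (Cl * P ^ (ε / 4) * (E0 / t)) * Bg with hV
  have hV0 : 0 ≤ V := by rw [hV]; positivity
  calc ∑ k ∈ B, ‖(mu e₀ : ℂ) * StT E0 J om (Te E0 e₀ T) k‖ ^ 2 ≤
      ∑ k ∈ B, tau e₀ * ∑ d ∈ dvs e₀, ‖StT E0 J (omc om e₀) T (d ^ 3 * k)‖ ^ 2 :=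
        Finset.sum_le_sum hk1
    _ = tau e₀ * ∑ d ∈ dvs e₀, ∑ k ∈ B, ‖StT E0 J (omc om e₀) T (d ^ 3 * k)‖ ^ 2 := by
        rw [← Finset.mul_sum, Finset.sum_comm]
    _ ≤ tau e₀ * ∑ d ∈ dvs e₀, V := by
        gcongr with d hd
        exact hd1 d hd
    _ = tau e₀ * (tau e₀ * V) := by
        rw [Finset.sum_const, nsmul_eq_mul]; rfl
    _ ≤ Ct * P ^ (ε / 4) * (Ct * P ^ (ε / 4) * V) := by
        have : 0 ≤ Ct * P ^ (ε / 4) := by positivity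
        gcongr
    _ = Ct ^ 2 * C₁ * Cl * (P ^ (ε / 4) * P ^ (ε / 4) * P ^ (ε / 4) * P ^ (ε / 4)) *
        (E0 / t) * Bg := by rw [hV]; ring
    _ = _ := by
        rw [← Real.rpow_add hP0, ← Real.rpow_add hP0, ← Real.rpow_add hP0]
        congr 4
        ring

/-! ### one cell -/

lemma gf_supp {F : ℝ → ℂ} (hF : TF F) {x : ℝ} (hx : GF F x ≠ 0) :
    Real.exp (-2) ≤ x ∧ x ≤ Real.exp 2 := by
  unfold X6C180.GF at hx
  split_ifs at hx with h0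
  · have h1 : |Real.log x| ≤ 2 := by
      by_contra hc
      exact hx (hF.supp _ (not_le.mp hc))
    obtain ⟨h2, h3⟩ := abs_le.1 h1
    exact ⟨(Real.le_log_iff_exp_le h0).1 h2, (Real.log_le_iff_le_exp h0).1 h3⟩
  · exact absurd rfl hx

lemma gf_bd {F : ℝ → ℂ} {S : ℝ} (hS : 0 ≤ S) (hB : X6545.Bd F 0 S) (x : ℝ) : ‖GF F x‖ ≤ S := by
  unfold X6C180.GF
  split_ifs
  · have := hB 0 le_rfl (Real.log x)
    rwa [iteratedDeriv_zero] at this
  · rw [norm_zero]; exact hS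

lemma sqrt_real {x y r V Z t : ℝ} (hr : 0 ≤ r) (hV : 0 ≤ V) (hZ : 0 ≤ Z) (ht : 0 < t)
    (hx : 0 ≤ x) (h : x * y ≤ r * V * Z / t ^ 2) : √x * √y ≤ √r * √V * √Z / t := by
  rw [← Real.sqrt_mul hx, Real.sqrt_le_iff]
  refine ⟨by positivity, h.trans (le_of_eq ?_)⟩
  rw [div_pow, mul_pow, mul_pow, Real.sq_sqrt hr, Real.sq_sqrt hV, Real.sq_sqrt hZ]

/-- **one scale of one cell** -/
theorem one_scale {ε : ℝ} (hε : 0 < ε) : ∃ C κ₀ : ℝ, 0 ≤ C ∧ 1 ≤ κ₀ ∧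
    ∀ {W : ℝ → ℝ}, Wgt W → (∀ x, 0 ≤ W x) → ∀ {N : ℕ} {M : ℝ}, 0 ≤ M →
    (∀ x, Real.exp (-(2 + M)) ≤ x → x ≤ Real.exp (4 + N) → 1 ≤ W x) →
    ∀ {F : ℝ → ℂ}, TF F → ∀ {S0 : ℝ}, 0 ≤ S0 → X6545.Bd F 0 S0 →
    ∀ (P E0 D E1 K L2 t η Bg A' y : ℝ) (i : ℕ) (J : Finset (Eis × Eis)) (om : Eis × Eis → ℂ)
      (T : Eis × Eis → Eis → ℂ) (e₀ : Eis) (Q Q' : Eis → Prop) (α : Eis → ℂ), i < N → 1 ≤ P →
      0 < K → Real.exp (2 + N) * K ≤ P → 0 ≤ η → 0 < t → t ≤ P → 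
      0 ≤ E0 → E0 ≤ P → OKJ J → (∀ x ∈ J, (nm x.1 : ℝ) ≤ D) → TOK T → IsPrim e₀ →
      Squarefree e₀ → (nm e₀ : ℝ) ≤ E0 → (∀ k, Q k → CbF k ∧ IsCoprime e₀ k) →
      Real.exp κ₀ ≤ L2 → E0 < L2 → D < L2 → L2 * nm e₀ ≤ t → Real.exp (2 / 3) * t ≤ E1 →
      GrP W (K * Real.exp (-η)) (fun r => if Cut E1 r then StT E0 J (omc om e₀) T r else 0) ≤ Bg →
      0 ≤ y → 0 ≤ A' → (∀ k, Q k → Q' k) →
      SqQ W (K * Real.exp (-η) / t ^ 3) Q' α ≤
        (K * Real.exp (-η) / t ^ 3 / K) ^ (1 / 3 : ℝ) * (y * A') →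
      ‖(mu e₀ : ℂ) * CrQ (GF F) Q (sc K M i / t ^ 3 * Real.exp (-η)) α
        (StT E0 J om (Te E0 e₀ T))‖ ≤
        C * P ^ ε * (S0 * Real.exp (-(η / 6)) * √(y * A' * (E0 * Bg)) / t) := by
  obtain ⟨C, κ₀, hC, hκ₀, H⟩ := gw_le (ε := 2 * ε) (by positivity)
  refine ⟨√C, κ₀, by positivity, hκ₀, ?_⟩
  intro W hW hW0 N M hM hW1 F hF S0 hS0 hFb P E0 D E1 K L2 t η Bg A' y i J om T e₀ Q Q' α hi hP hK
    hKP hη ht htP hE0 hE0P hJ hJD hT he hes heE hQ hL0 hL1 hL2 hLt hE1 hBg hy hA hQQ hS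
  have hP0 : 0 < P := by linarith
  set K' := K * Real.exp (-η) / t ^ 3 with hK'
  have hK'0 : 0 < K' := by rw [hK']; positivity
  have hη1 : Real.exp (-η) ≤ 1 := Real.exp_le_one_iff.2 (by linarith)
  have hKg : Real.exp (2 + N) * (K * Real.exp (-η)) ≤ P := by
    refine le_trans ?_ hKP
    have : K * Real.exp (-η) ≤ K := mul_le_of_le_one_right hK.le hη1
    gcongr
  have hW1' : ∀ x, Real.exp (-(2 + M)) ≤ x → x ≤ Real.exp 2 * Real.exp (2 + N) → 1 ≤ W x := by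
    intro x h1 h2
    refine hW1 x h1 ?_
    rwa [← Real.exp_add, show (2 : ℝ) + (2 + N) = 4 + N by ring] at h2
  have hW1'' : ∀ x, Real.exp (-(2 + M)) ≤ x → x ≤ Real.exp (2 + N) → 1 ≤ W x := fun x h1 h2 =>
    hW1 x h1 (h2.trans (Real.exp_le_exp.2 (by linarith)))
  have hgw := H hW hW0 (Real.exp_pos (-(2 + M))).le (Real.exp_pos (2 + (N : ℝ))).le hW1' P E0 D E1
    (K * Real.exp (-η)) K' L2 t Bg J om T e₀ Q hP (by positivity) hKg ht htP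
    (by rw [hK']; field_simp) hE0 hE0P hJ hJD hT he hes heE hQ hL0 hL1 hL2 hLt hE1 hBg
  have hsq := sq_lower hW hW0 hW1'' (Real.exp_pos (2 + (N : ℝ))).le hK'0 α Q'
  rw [mu_CrQ]
  have hsc : sc K M i / t ^ 3 * Real.exp (-η) = K' * Real.exp (i - M) := by
    rw [hK']
    unfold WDec180.sc
    ring
  have hiN : (i : ℝ) ≤ N := by exact_mod_cast hi.le
  have hi0 : (0 : ℝ) ≤ i := Nat.cast_nonneg i
  have h1 := cauchyQ (U := GF F) (Q := Q) (κ := sc K M i / t ^ 3 * Real.exp (-η))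
    (a := Real.exp (-(2 + M)) * K') (b := Real.exp (2 + N) * K') hS0 (gf_bd hS0 hFb) hQQ
    (by positivity)
    (by
      intro k hk hQk hne
      rw [hsc] at hne
      obtain ⟨h1, h2⟩ := gf_supp hF hne
      have h3 : 0 < K' * Real.exp (i - M) := by positivity
      rw [le_div_iff₀ h3] at h1
      rw [div_le_iff₀ h3] at h2
      constructor
      · refine le_trans ?_ h1
        have h4 : Real.exp (-(2 + M)) ≤ Real.exp (-2) * Real.exp (i - M) := by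
          rw [← Real.exp_add]
          exact Real.exp_le_exp.2 (by linarith)
        calc Real.exp (-(2 + M)) * K' ≤ Real.exp (-2) * Real.exp (i - M) * K' := by gcongr
          _ = _ := by ring
      · refine h2.trans ?_
        have h4 : Real.exp 2 * Real.exp (i - M) ≤ Real.exp (2 + N) := by
          rw [← Real.exp_add]
          exact Real.exp_le_exp.2 (by linarith)
        calc Real.exp 2 * (K' * Real.exp (i - M)) = Real.exp 2 * Real.exp (i - M) * K' := by ring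
          _ ≤ _ := by gcongr)
    α (fun k => (mu e₀ : ℂ) * StT E0 J om (Te E0 e₀ T) k)
  refine h1.trans ?_
  set s1 := ∑ k ∈ (wnd (Real.exp (-(2 + M)) * K') (Real.exp (2 + N) * K')).filter Q',
    ‖CS α k‖ ^ 2 with hs1
  set s2 := ∑ k ∈ (wnd (Real.exp (-(2 + M)) * K') (Real.exp (2 + N) * K')).filter Q,
    ‖(mu e₀ : ℂ) * StT E0 J om (Te E0 e₀ T) k‖ ^ 2 with hs2
  have hs10 : 0 ≤ s1 := Finset.sum_nonneg fun _ _ => sq_nonneg _
  have hs20 : 0 ≤ s2 := Finset.sum_nonneg fun _ _ => sq_nonneg _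
  have hBg0 : 0 ≤ Bg := by
    refine le_trans ?_ hBg
    unfold LB48.GrP
    refine tsum_nonneg fun k => ?_
    have := hW0 (nm k / (K * Real.exp (-η)))
    split_ifs <;> positivity
  have hr : (K' / K) ^ (1 / 3 : ℝ) = Real.exp (-(η / 3)) / t := by
    have e1 : K' / K = (Real.exp (-(η / 3)) / t) ^ 3 := by
      rw [hK', div_pow, ← Real.exp_nat_mul]
      push_cast
      rw [show 3 * -(η / 3) = -η by ring]
      field_simp
    rw [e1, ← Real.rpow_natCast, ← Real.rpow_mul (by positivity)]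
    norm_num
  have h2 : √s1 * √s2 ≤ √(Real.exp (-(η / 3))) * √(C * P ^ (2 * ε)) * √(y * A' * (E0 * Bg)) / t := by
    refine sqrt_real (Real.exp_pos _).le (by positivity) (by positivity) ht hs10 ?_
    have a1 : s1 ≤ Real.exp (-(η / 3)) / t * (y * A') := by
      rw [← hr]
      exact hsq.trans hS
    calc s1 * s2 ≤ (Real.exp (-(η / 3)) / t * (y * A')) *
        (C * P ^ (2 * ε) * (E0 / t) * Bg) := by gcongr
      _ = _ := by ring
  have e2 : √(Real.exp (-(η / 3))) = Real.exp (-(η / 6)) := by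
    rw [show -(η / 6) = -(η / 3) / 2 by ring, Real.exp_half]
  have e3 : √(C * P ^ (2 * ε)) = √C * P ^ ε := by
    rw [Real.sqrt_mul hC, Real.sqrt_eq_rpow (P ^ (2 * ε)), ← Real.rpow_mul hP0.le]
    congr 2
    ring
  rw [e2, e3] at h2
  calc S0 * (√s1 * √s2) ≤ S0 * (Real.exp (-(η / 6)) * (√C * P ^ ε) *
      √(y * A' * (E0 * Bg)) / t) := mul_le_mul_of_nonneg_left h2 hS0
    _ = _ := by ring

end Crest.Agent.R017.Et813
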