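import Crest.Agent.R017.NTb_813

/-!
# Row 17 (helper813): a dominating weight
-/

set_option autoImplicit false

noncomputable section

open scoped ContDiff

namespace Crest.Agent.R017.Et813

open Crest.Agent.R012.MC

/-- a weight with `1 ≤ W` on `[a, b]` -/
theorem exists_dom {a b : ℝ} (ha : 0 < a) : ∃ W : ℝ → ℝ, Wgt W ∧ (∀ x, 0 ≤ W x) ∧
    (∀ x, W x ≤ 1) ∧ ∀ x, a ≤ x → x ≤ b → 1 ≤ W x := by
  set W : ℝ → ℝ := fun x => Real.smoothTransition ((x - a / 2) / (a / 2)) *
    Real.smoothTransition (b + 1 - x) with hW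
  have hs : Function.support W ⊆ Set.Icc (a / 2) (b + 1) := by
    intro x hx
    rw [Function.mem_support] at hx
    constructor
    · by_contra h
      rw [not_le] at h
      apply hx
      simp only [hW]
      rw [Real.smoothTransition.zero_of_nonpos, zero_mul]
      exact div_nonpos_of_nonpos_of_nonneg (by linarith) (by linarith)
    · by_contra h
      rw [not_le] at h
      apply hx
      simp only [hW]
      rw [Real.smoothTransition.zero_of_nonpos (x := b + 1 - x) (by linarith), mul_zero]
  have ht : tsupport W ⊆ Set.Icc (a / 2) (b + 1) :=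
    closure_minimal hs isClosed_Icc
  refine ⟨W, ⟨?_, ?_, ?_⟩, fun x => ?_, fun x => ?_, fun x h1 h2 => ?_⟩
  · have h : ContDiff ℝ ∞ Real.smoothTransition := Real.smoothTransition.contDiff
    exact (h.comp ((contDiff_id.sub contDiff_const).div_const _)).mul
      (h.comp (contDiff_const.sub contDiff_id))
  · exact IsCompact.of_isClosed_subset isCompact_Icc (isClosed_tsupport W) ht
  · intro x hx
    have := (ht hx).1
    exact Set.mem_Ioi.2 (by linarith)
  · exact mul_nonneg (Real.smoothTransition.nonneg _) (Real.smoothTransition.nonneg _)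
  · exact mul_le_one₀ (Real.smoothTransition.le_one _) (Real.smoothTransition.nonneg _)
      (Real.smoothTransition.le_one _)
  · simp only [hW]
    rw [Real.smoothTransition.one_of_one_le, Real.smoothTransition.one_of_one_le (by linarith),
      one_mul]
    rw [le_div_iff₀ (by linarith)]
    linarith

/-- the weight of the near-top part -/
theorem exists_domW (M : ℝ) (N : ℕ) : ∃ W : ℝ → ℝ, Wgt W ∧ (∀ x, 0 ≤ W x) ∧
    ∀ x, Real.exp (-(2 + M)) ≤ x → x ≤ Real.exp (4 + N) → 1 ≤ W x := by
  obtain ⟨W, h1, h2, -, h3⟩ := exists_dom (a := Real.exp (-(2 + M))) (b := Real.exp (4 + N))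
    (Real.exp_pos _)
  exact ⟨W, h1, h2, h3⟩

end Crest.Agent.R017.Et813
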