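import Crest.Agent.R017.NWDefs_986
import Crest.Agent.R017.BL4_858

/-!
# Row 17, section B, leaf L3b in general form, part 1: the `k`-sum, the smooth piece, small `Q`
-/

set_option autoImplicit false

noncomputable section

open scoped ComplexConjugate ContDiff

namespace Crest.Agent.R017.Asm986

open Crest.Agent.R012 Crest.Agent.R012.Eis Crest.Agent.R012.PSer47 Crest.Agent.R012.Div277
open Crest.Agent.R017.End699 Crest.Agent.R017.Sx545 Crest.Agent.R017.B770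

/-! ### the smooth piece -/

open Classical in
lemma mem_sqB {κ : ℝ} {c : Eis} : c ∈ sqB κ ↔ ((nm c : ℝ) ≤ Real.exp (κ + 1) ∧ IsPrim c) ∧
    Squarefree c := by
  unfold sqB
  rw [Finset.mem_filter, mem_primBall, Nat.le_floor_iff (Real.exp_pos _).le]

open Classical in
lemma mem_sqS {M : Eis} {κ : ℝ} {c : Eis} : c ∈ sqS M κ ↔
    (((nm c : ℝ) ≤ Real.exp (κ + 1) ∧ IsPrim c) ∧ Squarefree c) ∧ IsCoprime c M := by
  unfold sqS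
  rw [Finset.mem_filter, mem_sqB]

lemma AS_congr {h : ℝ → ℂ} {κ : ℝ} {f g : Eis → ℂ} (hfg : ∀ b, IsPrim b → f b = g b) :
    AS h κ f = AS h κ g := by
  unfold AS
  refine Finset.sum_congr rfl fun p hp => ?_
  rw [hfg p (mem_sqB.mp hp).1.2]

lemma AP_congr' {h : ℝ → ℂ} {κ : ℝ} {f g : Eis → ℂ}
    (hfg : ∀ b, Mob705.IsPP b → h (Real.log (nm b) - κ) ≠ 0 → f b = g b) :
    AP h κ f = AP h κ g := by
  unfold AP
  refine Finset.sum_congr rfl fun p hp => ?_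
  by_cases h0 : h (Real.log (nm p) - κ) = 0
  · rw [h0, mul_zero, mul_zero]
  · rw [hfg p ⟨(mem_prS.mp hp).1.2, (mem_prS.mp hp).2⟩ h0]

lemma Amp_congr' {h : ℝ → ℂ} {r : ℕ} {y Q₀ : ℝ} {J : Finset (Fin r)} {f g : Eis → ℂ}
    (hfg : ∀ b, Mob705.IsPP b → ∀ i : Fin r, h (Real.log (nm b) - kap r y Q₀ i) ≠ 0 →
      f b = g b) : Amp h r y Q₀ J f = Amp h r y Q₀ J g := by
  unfold Amp
  exact Finset.prod_congr rfl fun i _ => AP_congr' fun b hb h0 => hfg b hb i h0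

/-- primes of the amplifier are prime to `d` if `d` is small -/
lemma amp_prin0 {h : ℝ → ℂ} (hh : HW h) {r : ℕ} {y Q₀ : ℝ} (hQ₀ : 0 < Q₀) {J : Finset (Fin r)}
    {g F : Eis → ℂ} {b d : Eis} (hd : IsPrim d) (hdP : (nm d : ℝ) < Q₀ ^ (y / r) / 3) :
    Amp h r y Q₀ J (fun q => g q * prin0 b q * F q) =
      Amp h r y Q₀ J (fun q => g q * prin0 (d * b) q * F q) := by
  refine Amp_congr' fun q hq i h0 => ?_
  have h1 := (range_of_ne' hh hQ₀ i hq.ne_zero h0).1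
  have hcop : IsCoprime q d := by
    refine (hq.prime.coprime_iff_not_dvd.mpr fun hdvd => ?_)
    have h2 : nm q ≤ nm d := nm_le_of_dvd hd.ne_zero hdvd
    have h3 : (nm q : ℝ) ≤ nm d := by exact_mod_cast h2
    linarith
  have h2 : prin0 b q = prin0 (d * b) q := by
    unfold prin0
    by_cases h3 : IsCoprime q b
    · rw [if_pos h3, if_pos (hcop.mul_right h3)]
    · rw [if_neg h3, if_neg fun h4 => h3 h4.of_mul_right_right]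
  rw [h2]

/-! ### the `k`-sum -/

open Classical in
lemma kSum_congr {n : Eis} {φ : Eis → ℂ} {l : ℤ} {wt F G : Eis → ℂ}
    (h : ∀ k, k ≠ 0 → F k = G k) : kSum n φ l wt F = kSum n φ l wt G := by
  unfold kSum
  refine tsum_congr fun k => ?_
  split_ifs with hk
  · rw [h k hk.1]
  · rfl

open Classical in
/-- the range of `k` -/
def kF (n : Eis) (φ : Eis → ℂ) (l : ℤ) (X : ℝ) : Finset Eis :=
  (ball ⌊X⌋₊).filter (fun k => k ≠ 0 ∧ NPk n φ l k)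

open Classical in
lemma kSum_eq {n : Eis} {φ : Eis → ℂ} {l : ℤ} {wt F : Eis → ℂ} {X : ℝ}
    (hwt : ∀ k, wt k ≠ 0 → (nm k : ℝ) ≤ X) :
    kSum n φ l wt F = ∑ k ∈ kF n φ l X, wt k * F k := by
  unfold kSum kF
  rw [tsum_eq_sum (s := ball ⌊X⌋₊), Finset.sum_filter]
  intro k hk
  split_ifs with h
  · have h0 : wt k = 0 := by
      by_contra h0
      exact hk (mem_ball.mpr (Nat.le_floor (hwt k h0)))
    rw [h0, zero_mul]
  · rfl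

open Classical in
lemma npk_mch_iff {M : Eis} {φ : Eis → ℂ} (hφ : HC M φ) {l : ℤ} {D : Eis} (hD : D ≠ 0) {T : Eis}
    (hT : T ≠ 0) {k : Eis} (hk : k ≠ 0) : NPk M φ l (T * k) ↔
    NPk (M * (M * D) * (9 * T)) (mch φ (M * D) (fun q => conj (sy T q))) l k := by
  refine ⟨npk_mch hφ hD hT hk, ?_⟩
  intro h
  unfold NPk at h ⊢
  rcases h with h1 | ⟨a, ha1, ha2, ha3⟩
  · left; exact h1
  · right
    have hcop : IsCoprime a (M * D) := ha2.of_mul_right_left.of_mul_right_left.of_mul_right_right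
    have hM : IsCoprime a M := hcop.of_mul_right_left
    have h9T : IsCoprime a (9 * T) := ha2.of_mul_right_left.of_mul_right_right
    have h9k : IsCoprime a (9 * k) := ha2.of_mul_right_right
    refine ⟨a, ha1, hM.mul_right (h9T.of_mul_right_left.mul_right
      (h9T.of_mul_right_right.mul_right h9k.of_mul_right_right)), ?_⟩
    unfold mch prin0 at ha3
    beta_reduce at ha3 ⊢
    rw [if_pos hcop, mul_one] at ha3
    intro h4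
    apply ha3
    rw [← h4, sy_mul' ha1, map_mul]; ring

open Classical in
/-- the substitution `k = T k'` -/
lemma kSum_dvd {M : Eis} {φ : Eis → ℂ} (hφ : HC M φ) {l : ℤ} {D : Eis} (hD : D ≠ 0) {T : Eis}
    (hT : T ≠ 0) {wt F : Eis → ℂ} (hF : ∀ k, ¬ T ∣ k → F k = 0) :
    kSum M φ l wt F = kSum (M * (M * D) * (9 * T)) (mch φ (M * D) (fun q => conj (sy T q))) l
      (fun k => wt (T * k)) (fun k => F (T * k)) := by
  unfold kSum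
  rw [BL4858.tsum_dvd hT (F := fun k => if k ≠ 0 ∧ NPk M φ l k then wt k * F k else 0)
    (fun x hx => by rw [hF x hx]; simp)]
  refine tsum_congr fun k => ?_
  by_cases hk : k = 0
  · subst hk; simp
  · have h1 : T * k ≠ 0 := mul_ne_zero hT hk
    simp only [ne_eq, h1, hk, not_false_eq_true, true_and, npk_mch_iff hφ hD hT hk]

/-! ### D-OUT for small `Q` -/

lemma TgA_nonneg {θ η₁ η₂ y₀ Q₀ Q H Cc : ℝ} (hQ₀ : 0 ≤ Q₀) (hQ : 0 ≤ Q) (hH : 0 ≤ H)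
    (hC : 0 ≤ Cc) : 0 ≤ TgA θ η₁ η₂ y₀ Q₀ Q H Cc := by
  unfold TgA
  positivity

lemma TgA_mul_Q {θ η₁ η₂ y₀ Q₀ Q H Cc c : ℝ} (hQ₀ : 0 ≤ Q₀) (hQ : 0 ≤ Q) (hH : 0 ≤ H)
    (hC : 0 ≤ Cc) (hc : 1 ≤ c) (hθ : θ ≤ 1) :
    TgA θ η₁ η₂ y₀ Q₀ (c * Q) H Cc ≤ c * TgA θ η₁ η₂ y₀ Q₀ Q H Cc := by
  have hc0 : 0 ≤ c := by linarith
  unfold TgA
  rw [mul_div_assoc, Real.mul_rpow hc0 (by positivity), Real.mul_rpow hc0 (by positivity)]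
  have h1 : c ^ (1 / 2 : ℝ) ≤ c := by
    calc c ^ (1 / 2 : ℝ) ≤ c ^ (1 : ℝ) := Real.rpow_le_rpow_of_exponent_le hc (by norm_num)
      _ = c := Real.rpow_one c
  have h2 : c ^ θ ≤ c := by
    calc c ^ θ ≤ c ^ (1 : ℝ) := Real.rpow_le_rpow_of_exponent_le hc hθ
      _ = c := Real.rpow_one c
  calc _ ≤ Q₀ ^ ((1 / 2 + y₀) / 3 + y₀ + θ) *
    (Q₀ ^ (-η₁) * (H / Q₀ ^ (1 / 2 + y₀) * (c * (Q / Q₀) ^ (1 / 2 : ℝ)) *
        (Cc / Q₀ ^ y₀) ^ (1 / 2 : ℝ)) +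
      Q₀ ^ (-η₂) * ((H / Q₀ ^ (1 / 2 + y₀)) ^ (1 / 6 : ℝ) * (c * (Q / Q₀) ^ θ) *
        (Cc / Q₀ ^ y₀) ^ θ)) := by gcongr
    _ = _ := by ring

/-- D-OUT for all `Q > 0`. -/
theorem doutw_ext {𝒲 : ℝ → ℝ → (Eis → ℂ) → Prop} {θ : ℝ} {r : ℕ} {y δ η η₂ B : ℝ} {κm : ℝ → ℝ}
    (hθ : θ ≤ 1) (hD : DOUTW 𝒲 θ r y δ η η₂ B κm) {h₀ h : ℝ → ℂ}
    (hh₀ : HW h₀) (hh : HW h) {V : ℝ → ℂ} (hV : SW V) (l₁ l₂ : ℤ) {ε C₁ : ℝ} (hε : 0 < ε)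
    (hC₁ : 0 < C₁) :
    ∃ C A : ℝ, 0 ≤ C ∧ 0 ≤ A ∧
    ∀ (n₁ n₂ : Eis) (φ ψ : Eis → ℂ), HC n₁ φ → HC n₂ ψ → ∀ D : Eis, IsPrim D →
    ∀ (Q₀ Q : ℝ), 0 < Q → Q ≤ Q₀ → 2 ≤ Q₀ → ∀ κ : ℝ, κm Q₀ ≤ κ → κ ≤ δ * Real.log Q₀ →
    ∀ (J : Finset (Fin r)) (H s : ℝ) (wt : Eis → ℂ), 0 < H → 1 ≤ s → 𝒲 H s wt →
      H ≤ Q₀ ^ (1 / 2 + (y + δ) + η) →
      Q ≤ C₁ * Q₀ * (CJ r y Q₀ J * Real.exp κ / Q₀ ^ (y + δ)) → ∀ t₁ t₂ : ℝ,
      ‖kSum n₁ φ l₁ wt (fun k => sy k D * (AS h₀ κ (fun p => twt φ l₁ t₁ p * conj (sy k p)) *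
        Amp h r y Q₀ J (fun p => twt φ l₁ t₁ p * conj (sy k p)) *
          MV V Q (fun b => twt ψ l₂ t₂ b * sy k b)))‖ ≤
        C * ((nm n₁ : ℝ) * nm n₂ * nm D * Q₀) ^ ε * ((nm n₁ : ℝ) * nm n₂ * nm D) ^ B *
          (s * (1 + |t₁| + |t₂|)) ^ A *
          TgA θ η η₂ (y + δ) Q₀ Q H (CJ r y Q₀ J * Real.exp κ) := by
  classical
  obtain ⟨β, hβ1, hβ⟩ := sw_bound hV
  obtain ⟨N, hN⟩ := pow_unbounded_of_one_lt β (one_lt_two (α := ℝ))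
  have hC₁' : 0 < 2 ^ (N + 2) * C₁ := by positivity
  choose C A hC0 hA0 hC using fun n : ℕ =>
    hD h₀ h hh₀ hh (fun x => V ((2 : ℝ) ^ n * x)) (sw_scale hV (by positivity)) l₁ l₂ ε
      (2 ^ (N + 2) * C₁) hε hC₁'
  set A' : ℝ := ∑ n ∈ Finset.range (N + 2), A n with hA'
  refine ⟨∑ n ∈ Finset.range (N + 2), (2 : ℝ) ^ n * C n, A', ?_, ?_, ?_⟩
  · exact Finset.sum_nonneg fun n _ => mul_nonneg (by positivity) (hC0 n)
  · exact Finset.sum_nonneg fun n _ => hA0 n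
  intro n₁ n₂ φ ψ hφ hψ D hDp Q₀ Q hQ hQQ₀ hQ₀ κ hκ1 hκ2 J H s wt hH hs hwt hHle hQle t₁ t₂
  have hQ₀0 : 0 ≤ Q₀ := by linarith
  have hT1 : 1 ≤ s * (1 + |t₁| + |t₂|) := by
    have := abs_nonneg t₁
    have := abs_nonneg t₂
    nlinarith
  have hT0 : 0 ≤ s * (1 + |t₁| + |t₂|) := by linarith
  have hCJ := CJ_nonneg (r := r) (y := y) hQ₀0 J
  have hCc : 0 ≤ CJ r y Q₀ J * Real.exp κ := by positivity
  have hR0 : 0 ≤ (∑ n ∈ Finset.range (N + 2), (2 : ℝ) ^ n * C n) *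
      ((nm n₁ : ℝ) * nm n₂ * nm D * Q₀) ^ ε * ((nm n₁ : ℝ) * nm n₂ * nm D) ^ B *
          (s * (1 + |t₁| + |t₂|)) ^ A' *
          TgA θ η η₂ (y + δ) Q₀ Q H (CJ r y Q₀ J * Real.exp κ) := by
    have h1 : 0 ≤ ∑ n ∈ Finset.range (N + 2), (2 : ℝ) ^ n * C n :=
      Finset.sum_nonneg fun n _ => mul_nonneg (by positivity) (hC0 n)
    have h2 := TgA_nonneg (θ := θ) (η₁ := η) (η₂ := η₂) (y₀ := y + δ) hQ₀0 hQ.le hH.le hCc
    positivity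
  by_cases hβQ : β * Q < 1
  · have hz : kSum n₁ φ l₁ wt (fun k => sy k D * (AS h₀ κ (fun p => twt φ l₁ t₁ p * conj (sy k p)) *
        Amp h r y Q₀ J (fun p => twt φ l₁ t₁ p * conj (sy k p)) *
          MV V Q (fun b => twt ψ l₂ t₂ b * sy k b))) = 0 := by
      unfold kSum
      rw [tsum_congr (g := fun _ => 0) fun k => ?_, tsum_zero]
      beta_reduce
      rw [MV_eq_zero hβ hQ hβQ]; simp
    rw [hz, norm_zero]
    exact hR0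
  push Not at hβQ
  -- choose `n`
  have hn : ∃ n < N + 2, 1 ≤ (2 : ℝ) ^ n * Q ∧ (2 : ℝ) ^ n * Q ≤ Q₀ := by
    by_cases hQ1 : 1 ≤ Q
    · exact ⟨0, by omega, by simpa using hQ1, by simpa using hQQ₀⟩
    · push Not at hQ1
      have h1 : 1 ≤ Q⁻¹ := (one_le_inv₀ hQ).mpr hQ1.le
      obtain ⟨m, hm1, hm2⟩ := exists_nat_pow_near h1 (one_lt_two (α := ℝ))
      have hm3 : (2 : ℝ) ^ m * Q ≤ 1 := by
        calc (2 : ℝ) ^ m * Q ≤ Q⁻¹ * Q := by gcongr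
          _ = 1 := inv_mul_cancel₀ hQ.ne'
      have hm4 : 1 ≤ (2 : ℝ) ^ (m + 1) * Q := by
        calc 1 = Q⁻¹ * Q := (inv_mul_cancel₀ hQ.ne').symm
          _ ≤ (2 : ℝ) ^ (m + 1) * Q := by gcongr
      refine ⟨m + 1, ?_, hm4, ?_⟩
      · have h3 : (2 : ℝ) ^ m < 2 ^ N := by
          refine hm1.trans_lt (lt_of_le_of_lt ?_ hN)
          rw [inv_le_iff_one_le_mul₀ hQ]; exact hβQ
        have := (pow_lt_pow_iff_right₀ (one_lt_two (α := ℝ))).mp h3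
        omega
      · calc (2 : ℝ) ^ (m + 1) * Q = 2 * (2 ^ m * Q) := by ring
          _ ≤ 2 * 1 := by gcongr
          _ ≤ Q₀ := by linarith
  obtain ⟨n, hnN, hn1, hn2⟩ := hn
  have hpow : (2 : ℝ) ^ n ≤ 2 ^ (N + 2) := pow_le_pow_right₀ (by norm_num) (by omega)
  have hQle' : (2 : ℝ) ^ n * Q ≤
      2 ^ (N + 2) * C₁ * Q₀ * (CJ r y Q₀ J * Real.exp κ / Q₀ ^ (y + δ)) := by
    calc (2 : ℝ) ^ n * Q ≤ 2 ^ (N + 2) * (C₁ * Q₀ * (CJ r y Q₀ J * Real.exp κ / Q₀ ^ (y + δ))) :=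
          mul_le_mul hpow hQle hQ.le (by positivity)
      _ = _ := by ring
  have key := hC n n₁ n₂ φ ψ hφ hψ D hDp Q₀ ((2 : ℝ) ^ n * Q) hn1 hn2 κ hκ1 hκ2 J H s wt hH hs hwt
    hHle hQle' t₁ t₂
  have e1 : ∀ k, MV V Q (fun b => twt ψ l₂ t₂ b * sy k b) =
      MV (fun x => V ((2 : ℝ) ^ n * x)) ((2 : ℝ) ^ n * Q) (fun b => twt ψ l₂ t₂ b * sy k b) :=
    fun k => MV_scale (by positivity) _
  simp only [e1]
  refine key.trans ?_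
  have h1 : TgA θ η η₂ (y + δ) Q₀ ((2 : ℝ) ^ n * Q) H (CJ r y Q₀ J * Real.exp κ) ≤
      (2 : ℝ) ^ n * TgA θ η η₂ (y + δ) Q₀ Q H (CJ r y Q₀ J * Real.exp κ) :=
    TgA_mul_Q hQ₀0 hQ.le hH.le hCc (one_le_pow₀ one_le_two) hθ
  have h2 : (s * (1 + |t₁| + |t₂|)) ^ A n ≤ (s * (1 + |t₁| + |t₂|)) ^ A' := by
    apply Real.rpow_le_rpow_of_exponent_le hT1
    exact Finset.single_le_sum (f := fun n => A n) (fun i _ => hA0 _)
      (Finset.mem_range.mpr hnN)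
  have h3 : (2 : ℝ) ^ n * C n ≤ ∑ n ∈ Finset.range (N + 2), (2 : ℝ) ^ n * C n :=
    Finset.single_le_sum (f := fun n => (2 : ℝ) ^ n * C n)
      (fun i _ => mul_nonneg (by positivity) (hC0 i)) (Finset.mem_range.mpr hnN)
  have h4 := TgA_nonneg (θ := θ) (η₁ := η) (η₂ := η₂) (y₀ := y + δ) hQ₀0 hQ.le hH.le hCc
  have h5 := TgA_nonneg (θ := θ) (η₁ := η) (η₂ := η₂) (y₀ := y + δ) (Q := (2 : ℝ) ^ n * Q)
    hQ₀0 (by positivity) hH.le hCc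
  have hCn := hC0 n
  set E₁ : ℝ := ((nm n₁ : ℝ) * nm n₂ * nm D * Q₀) ^ ε with hE₁
  set E₂ : ℝ := ((nm n₁ : ℝ) * nm n₂ * nm D) ^ B with hE₂
  have hE₁0 : 0 ≤ E₁ := by positivity
  have hE₂0 : 0 ≤ E₂ := by positivity
  calc C n * E₁ * E₂ * (s * (1 + |t₁| + |t₂|)) ^ A n *
        TgA θ η η₂ (y + δ) Q₀ ((2 : ℝ) ^ n * Q) H (CJ r y Q₀ J * Real.exp κ)
      ≤ C n * E₁ * E₂ * (s * (1 + |t₁| + |t₂|)) ^ A' *
        ((2 : ℝ) ^ n * TgA θ η η₂ (y + δ) Q₀ Q H (CJ r y Q₀ J * Real.exp κ)) := by gcongr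
    _ = ((2 : ℝ) ^ n * C n) * E₁ * E₂ * (s * (1 + |t₁| + |t₂|)) ^ A' *
        TgA θ η η₂ (y + δ) Q₀ Q H (CJ r y Q₀ J * Real.exp κ) := by ring
    _ ≤ _ := by gcongr

end Crest.Agent.R017.Asm986
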