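import Crest.Agent.R017.NVDefs_986
import Crest.Agent.R017.NW1_986

/-!
# Row 17, section B, leaf L3b, final form, part 1: the substitution `k = d³ k'`
-/

set_option autoImplicit false

noncomputable section

open scoped ComplexConjugate ContDiff

namespace Crest.Agent.R017.Asm986

open Crest.Agent.R012 Crest.Agent.R012.Eis Crest.Agent.R012.PSer47 Crest.Agent.R012.Div277
open Crest.Agent.R017.End699 Crest.Agent.R017.Sx545 Crest.Agent.R017.B770

/-! ### coprimality -/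

lemma isCoprime_of_primes {x y : Eis} (hx : x ≠ 0)
    (h : ∀ p, Prime p → p ∣ x → ¬ p ∣ y) : IsCoprime x y :=
  isCoprime_of_prime_dvd (fun h' => hx h'.1) h

lemma cop_rad {x n n₃ : Eis} (hx : x ≠ 0) (hr : ∀ p : Eis, Prime p → (p ∣ n₃ ↔ p ∣ n))
    (h : IsCoprime x n) : IsCoprime x n₃ := by
  refine isCoprime_of_primes hx fun p hp hpx hpn => ?_
  exact hp.not_isUnit (h.isUnit_of_dvd' hpx ((hr p hp).mp hpn))

/-! ### the weight -/

/-- the constant of the dilation -/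
def wc (P : DPar) (τ : ℝ) (d : Eis) : ℂ :=
  conj (P.χ₃ (d ^ 3)) * ang P.l₃ (d ^ 3) * (nm (d ^ 3) : ℂ) ^ (Complex.I * τ)

lemma norm_nmI {d : Eis} (hd : d ≠ 0) (τ : ℝ) : ‖(nm d : ℂ) ^ (Complex.I * τ)‖ = 1 := by
  have h0 : (0 : ℝ) < nm d := by exact_mod_cast nm_pos.mpr hd
  have e1 : ((nm d : ℂ)) = ((nm d : ℝ) : ℂ) := by push_cast; rfl
  rw [e1, Complex.norm_cpow_eq_rpow_re_of_pos h0]
  simp

lemma norm_wc_le {P : DPar} (hP : P.OK) (τ : ℝ) {d : Eis} (hd : IsPrim d) :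
    ‖wc P τ d‖ ≤ 1 := by
  unfold wc
  have hd3 : IsPrim (d ^ 3) := hd.pow 3
  rw [norm_mul, norm_mul, norm_nmI hd3.ne_zero, mul_one, RCLike.norm_conj]
  have h1 := hP.χ₃.char.norm_le hd3
  have h2 := P355.norm_ang_le P.l₃ (d ^ 3)
  calc ‖P.χ₃ (d ^ 3)‖ * ‖ang P.l₃ (d ^ 3)‖ ≤ 1 * 1 := by gcongr
    _ = 1 := one_mul 1

lemma wk_dil {P : DPar} (hP : P.OK) (τ H : ℝ) {d : Eis} (hd : IsPrim d) (hdn : IsCoprime d P.n)
    (k : Eis) : P.wk τ H (d ^ 3 * k) = wc P τ d * P.wk τ (H / nm (d ^ 3)) k := by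
  unfold DPar.wk wc
  have hd3 : IsPrim (d ^ 3) := hd.pow 3
  have hc : IsCoprime (d ^ 3) P.n₃ := (cop_rad hd.ne_zero hP.rad hdn).pow_left
  have h1 : FE47.DM P.n₃ P.χ₃ (d ^ 3 * k) = conj (P.χ₃ (d ^ 3)) * FE47.DM P.n₃ P.χ₃ k := by
    rw [mul_comm (d ^ 3) k, FE47.DM_mul hP.χ₃ (e := k) (b := d ^ 3) ⟨hd3, hc⟩]
  have h2 : ((nm (d ^ 3 * k) : ℕ) : ℂ) ^ (Complex.I * τ) =
      (nm (d ^ 3) : ℂ) ^ (Complex.I * τ) * (nm k : ℂ) ^ (Complex.I * τ) := by
    rw [nm_mul, Nat.cast_mul]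
    exact Complex.natCast_mul_natCast_cpow _ _ _
  have h3 : ((nm (d ^ 3 * k) : ℕ) : ℝ) / H = nm k / (H / nm (d ^ 3)) := by
    have h4 : (0 : ℝ) < nm (d ^ 3) := by exact_mod_cast nm_pos.mpr hd3.ne_zero
    rw [nm_mul]
    push_cast
    rw [div_div_eq_mul_div, mul_comm]
  rw [h1, h2, h3, P355.ang_mul]
  ring

/-! ### nonprincipality -/

lemma sy_cube_mul {d k q : Eis} (hq : IsPrim q) :
    sy (d ^ 3 * k) q = prin0 d q * sy k q := by
  rw [sy_mul' hq]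
  congr 1
  unfold prin0
  by_cases h : IsCoprime q d
  · rw [if_pos h, Char766.sy_cube_left hq h.symm]
  · rw [if_neg h]
    exact Char766.sy_eq_zero hq fun h' => h (IsCoprime.pow_left_iff (by norm_num)|>.mp h').symm

lemma npk_cube {n : Eis} {φ : Eis → ℂ} (hφ : HC n φ) {l : ℤ} {d : Eis} (hd : IsPrim d)
    {k : Eis} (hk : k ≠ 0) : NPk n φ l (d ^ 3 * k) ↔ NPk n φ l k := by
  have hd3 : d ^ 3 ≠ 0 := pow_ne_zero 3 hd.ne_zero
  unfold NPk
  constructor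
  · rintro (h | ⟨a, ha1, ha2, ha3⟩)
    · left; exact h
    · right
      have h1 : IsCoprime a n := ha2.of_mul_right_left
      have h2 : IsCoprime a (9 * (d ^ 3 * k)) := ha2.of_mul_right_right
      have h3 : IsCoprime a (d ^ 3) := h2.of_mul_right_right.of_mul_right_left
      have h4 : IsCoprime a d := (IsCoprime.pow_right_iff (by norm_num)).mp h3
      refine ⟨a, ha1, h1.mul_right (h2.of_mul_right_left.mul_right
        h2.of_mul_right_right.of_mul_right_right), ?_⟩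
      beta_reduce at ha3 ⊢
      rw [sy_cube_mul ha1] at ha3
      unfold prin0 at ha3
      rw [if_pos h4, one_mul] at ha3
      exact ha3
  · intro h
    have hc : HC (n * (9 * k)) (fun b => φ b * conj (sy k b)) := hφ.mul (hc_sy hk).conj
    have hq' : n * (9 * (d ^ 3 * k)) ≠ 0 :=
      mul_ne_zero hφ.q0 (mul_ne_zero nine_ne_zero (mul_ne_zero hd3 hk))
    rcases h.changeMod hc hq' with h1 | ⟨a, ha1, ha2, ha3⟩
    · left; exact h1
    · right
      refine ⟨a, ha1, ha2, ?_⟩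
      have h3 : IsCoprime a (d ^ 3) := ha2.of_mul_right_right.of_mul_right_right.of_mul_right_left
      have h4 : IsCoprime a d := (IsCoprime.pow_right_iff (by norm_num)).mp h3
      beta_reduce at ha3 ⊢
      rw [sy_cube_mul ha1]
      unfold prin0 at ha3 ⊢
      rw [if_pos ha2, mul_one] at ha3
      rw [if_pos h4, one_mul]
      exact ha3

/-! ### the twists -/

lemma twt_eq_zero {M : Eis} {φ : Eis → ℂ} (hφ : HC M φ) (l : ℤ) (t : ℝ) {q : Eis}
    (hq : IsPrim q) (h : ¬ IsCoprime q M) : twt φ l t q = 0 := by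
  unfold twt End699.tw
  rw [hφ.van q hq h]; ring

/-- removal of the parts of the coprimality conditions which are automatic -/
lemma twist_sy {M : Eis} {φ : Eis → ℂ} (hφ : HC M φ) (l : ℤ) (t : ℝ) {X Y d k : Eis} {q : Eis}
    (hq : IsPrim q) (hX : IsCoprime q k → IsCoprime q M →
      ((IsCoprime q X ∧ IsCoprime q d) ↔ IsCoprime q Y)) :
    twt φ l t q * prin0 X q * sy (d ^ 3 * k) q = twt φ l t q * prin0 Y q * sy k q := by
  rw [sy_cube_mul hq]
  by_cases hM : IsCoprime q M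
  · by_cases hk : IsCoprime q k
    · have h := hX hk hM
      unfold prin0
      by_cases hY : IsCoprime q Y
      · obtain ⟨h1, h2⟩ := h.mpr hY
        rw [if_pos h1, if_pos h2, if_pos hY]; ring
      · rw [if_neg hY]
        by_cases h1 : IsCoprime q X
        · rw [if_neg fun h2 => hY (h.mp ⟨h1, h2⟩)]; ring
        · rw [if_neg h1]; ring
    · rw [Char766.sy_eq_zero hq fun h' => hk h'.symm]; ring
  · rw [twt_eq_zero hφ l t hq hM]; ring

lemma twist_csy {M : Eis} {φ : Eis → ℂ} (hφ : HC M φ) (l : ℤ) (t : ℝ) {X Y d k : Eis} {q : Eis}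
    (hq : IsPrim q) (hX : IsCoprime q k → IsCoprime q M →
      ((IsCoprime q X ∧ IsCoprime q d) ↔ IsCoprime q Y)) :
    twt φ l t q * prin0 X q * conj (sy (d ^ 3 * k) q) =
      twt φ l t q * prin0 Y q * conj (sy k q) := by
  rw [sy_cube_mul hq, map_mul]
  by_cases hM : IsCoprime q M
  · by_cases hk : IsCoprime q k
    · have h := hX hk hM
      unfold prin0
      by_cases hY : IsCoprime q Y
      · obtain ⟨h1, h2⟩ := h.mpr hY
        rw [if_pos h1, if_pos h2, if_pos hY]; simp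
      · rw [if_neg hY]
        by_cases h1 : IsCoprime q X
        · rw [if_neg fun h2 => hY (h.mp ⟨h1, h2⟩)]; simp
        · rw [if_neg h1]; simp
    · rw [Char766.sy_eq_zero hq fun h' => hk h'.symm]; simp
  · rw [twt_eq_zero hφ l t hq hM]; simp

/-! ### the sum over `k` of one term -/

open Classical in
/-- one term of the expansion -/
def trm (P : DPar) (r : ℕ) (y Q₀ κ : ℝ) (J : Finset (Fin r)) (Q : ℝ) (X₁ X₂ g b : Eis)
    (t₁ t₂ : ℝ) (k : Eis) : ℂ :=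
  if g ^ 2 ∣ k then
    tk k b 1 * ((AS P.h₀ κ (fun q => twt P.φ P.l₁ t₁ q * prin0 X₁ q * conj (sy k q)) *
      Amp P.h r y Q₀ J (fun q => twt P.φ P.l₁ t₁ q * prin0 X₁ q * conj (sy k q))) *
      MV P.V Q (fun q => twt P.ψ P.l₂ t₂ q * prin0 X₂ q * sy k q)) else 0

open Classical in
theorem kSum_trm {P : DPar} (hP : P.OK) {r : ℕ} {y Q₀ κ : ℝ} {J : Finset (Fin r)} {Q H : ℝ}
    {X₁ X₂ Y₁ Y₂ g b d e : Eis} {E : Finset Eis} {kp : Eis → ℂ} {t₁ t₂ τ : ℝ}
    (hd : IsPrim d) (hdn : IsCoprime d P.n) (hgd : IsCoprime g d)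
    (h1 : ∀ k', k' ≠ 0 → tk (d ^ 3 * k') b 1 = sy k' e * ∑ t ∈ E, kp t * prin0 t k')
    (h0 : ∀ k, k ≠ 0 → ¬ d ^ 3 ∣ k → tk k b 1 = 0)
    (hX₁ : ∀ q, IsPrim q → IsCoprime q g → IsCoprime q P.n →
      ((IsCoprime q X₁ ∧ IsCoprime q d) ↔ IsCoprime q Y₁))
    (hX₂ : ∀ q, IsPrim q → IsCoprime q g → IsCoprime q P.n →
      ((IsCoprime q X₂ ∧ IsCoprime q d) ↔ IsCoprime q Y₂))
    (hfin : ∀ H : ℝ, 0 < H → ∃ X : ℝ, ∀ k, P.wk τ H k ≠ 0 → (nm k : ℝ) ≤ X) (hH : 0 < H) :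
    ‖kSum P.n P.φ P.l₁ (P.wk τ H) (trm P r y Q₀ κ J Q X₁ X₂ g b t₁ t₂)‖ ≤
      ∑ t ∈ E, ‖kp t‖ * ‖P.ds r y Q₀ κ J Q (H / nm (d ^ 3)) Y₁ Y₂ t e t₁ t₂ τ g‖ := by
  have hd3 : d ^ 3 ≠ 0 := pow_ne_zero 3 hd.ne_zero
  have hH' : 0 < H / nm (d ^ 3) := by
    have : (0 : ℝ) < nm (d ^ 3) := by exact_mod_cast nm_pos.mpr hd3
    positivity
  obtain ⟨X, hX⟩ := hfin _ hH'
  -- the finite form of `ds`
  have hds : ∀ t, P.ds r y Q₀ κ J Q (H / nm (d ^ 3)) Y₁ Y₂ t e t₁ t₂ τ g =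
      ∑ k ∈ ball ⌊X⌋₊, if k ≠ 0 ∧ g ^ 2 ∣ k ∧ NPk P.n P.φ P.l₁ k then
        P.wk τ (H / nm (d ^ 3)) k * (prin0 t k * sy k e) *
          (P.am r y Q₀ κ J Y₁ t₁ k * P.mo Q Y₂ t₂ k) else 0 := by
    intro t
    unfold DPar.ds
    rw [tsum_eq_sum (s := ball ⌊X⌋₊)]
    intro k hk
    split_ifs with h
    · have hz : P.wk τ (H / nm (d ^ 3)) k = 0 := by
        by_contra hz
        exact hk (mem_ball.mpr (Nat.le_floor (hX k hz)))
      rw [hz]; ring
    · rfl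
  have hsum : kSum P.n P.φ P.l₁ (P.wk τ H) (trm P r y Q₀ κ J Q X₁ X₂ g b t₁ t₂) =
      wc P τ d * ∑ t ∈ E, kp t *
        P.ds r y Q₀ κ J Q (H / nm (d ^ 3)) Y₁ Y₂ t e t₁ t₂ τ g := by
    unfold kSum
    rw [BL4858.tsum_dvd hd3 (F := fun k => if k ≠ 0 ∧ NPk P.n P.φ P.l₁ k then
      P.wk τ H k * trm P r y Q₀ κ J Q X₁ X₂ g b t₁ t₂ k else 0) (fun x hx => by
        split_ifs with hx0
        · unfold trm
          split_ifs
          · rw [h0 x hx0.1 hx]; ring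
          · ring
        · rfl)]
    have e1 : ∀ k, (if d ^ 3 * k ≠ 0 ∧ NPk P.n P.φ P.l₁ (d ^ 3 * k) then
        P.wk τ H (d ^ 3 * k) * trm P r y Q₀ κ J Q X₁ X₂ g b t₁ t₂ (d ^ 3 * k) else 0) =
        wc P τ d * ∑ t ∈ E, kp t * (if k ≠ 0 ∧ g ^ 2 ∣ k ∧ NPk P.n P.φ P.l₁ k then
        P.wk τ (H / nm (d ^ 3)) k * (prin0 t k * sy k e) *
          (P.am r y Q₀ κ J Y₁ t₁ k * P.mo Q Y₂ t₂ k) else 0) := by
      intro k
      by_cases hk : k = 0
      · subst hk; simp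
      have hk3 : d ^ 3 * k ≠ 0 := mul_ne_zero hd3 hk
      have hdv : g ^ 2 ∣ d ^ 3 * k ↔ g ^ 2 ∣ k := by
        constructor
        · intro h
          exact (hgd.pow (m := 2) (n := 3)).dvd_of_dvd_mul_left h
        · intro h; exact h.mul_left _
      have hnp := npk_cube hP.φ (l := P.l₁) hd hk
      by_cases hg : g ^ 2 ∣ k
      · by_cases hn : NPk P.n P.φ P.l₁ k
        · rw [if_pos ⟨hk3, hnp.mpr hn⟩]
          have hgk : ∀ q, IsCoprime q k → IsCoprime q g := fun q hq =>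
            hq.of_isCoprime_of_dvd_right ((dvd_pow_self g two_ne_zero).trans hg)
          unfold trm
          rw [if_pos (hdv.mpr hg), h1 k hk, wk_dil hP τ H hd hdn]
          have a1 : AS P.h₀ κ (fun q => twt P.φ P.l₁ t₁ q * prin0 X₁ q *
              conj (sy (d ^ 3 * k) q)) =
              AS P.h₀ κ (fun q => twt P.φ P.l₁ t₁ q * prin0 Y₁ q * conj (sy k q)) :=
            AS_congr fun q hq => twist_csy hP.φ _ _ hq fun hqk hqM => hX₁ q hq (hgk q hqk) hqM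
          have a2 : Amp P.h r y Q₀ J (fun q => twt P.φ P.l₁ t₁ q * prin0 X₁ q *
              conj (sy (d ^ 3 * k) q)) =
              Amp P.h r y Q₀ J (fun q => twt P.φ P.l₁ t₁ q * prin0 Y₁ q * conj (sy k q)) :=
            Amp_congr fun q hq => twist_csy hP.φ _ _ hq fun hqk hqM => hX₁ q hq (hgk q hqk) hqM
          have a3 : MV P.V Q (fun q => twt P.ψ P.l₂ t₂ q * prin0 X₂ q * sy (d ^ 3 * k) q) =
              MV P.V Q (fun q => twt P.ψ P.l₂ t₂ q * prin0 Y₂ q * sy k q) :=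
            MV_congr fun q hq => twist_sy hP.ψ _ _ hq fun hqk hqM => hX₂ q hq (hgk q hqk) hqM
          rw [a1, a2, a3]
          have e2 : ∀ t ∈ E, kp t * (if k ≠ 0 ∧ g ^ 2 ∣ k ∧ NPk P.n P.φ P.l₁ k then
              P.wk τ (H / nm (d ^ 3)) k * (prin0 t k * sy k e) *
              (P.am r y Q₀ κ J Y₁ t₁ k * P.mo Q Y₂ t₂ k) else 0) =
              (kp t * prin0 t k) * (P.wk τ (H / nm (d ^ 3)) k * sy k e *
              (P.am r y Q₀ κ J Y₁ t₁ k * P.mo Q Y₂ t₂ k)) := by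
            intro t _
            rw [if_pos ⟨hk, hg, hn⟩]; ring
          rw [Finset.sum_congr rfl e2, ← Finset.sum_mul]
          unfold DPar.am DPar.mo
          ring
        · rw [if_neg fun h => hn (hnp.mp h.2)]
          rw [Finset.sum_eq_zero fun t _ => by rw [if_neg fun h => hn h.2.2]; ring]
          ring
      · rw [Finset.sum_eq_zero fun t _ => by rw [if_neg fun h => hg h.2.1]; ring]
        split_ifs with h
        · unfold trm
          rw [if_neg fun h' => hg (hdv.mp h')]; ring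
        · ring
    rw [tsum_congr e1, tsum_mul_left]
    congr 1
    rw [tsum_eq_sum (s := ball ⌊X⌋₊), Finset.sum_comm]
    · refine Finset.sum_congr rfl fun t _ => ?_
      rw [hds t, Finset.mul_sum]
    · intro k hk
      refine Finset.sum_eq_zero fun t _ => ?_
      split_ifs with h
      · have hz : P.wk τ (H / nm (d ^ 3)) k = 0 := by
          by_contra hz
          exact hk (mem_ball.mpr (Nat.le_floor (hX k hz)))
        rw [hz]; ring
      · ring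
  rw [hsum, norm_mul]
  calc ‖wc P τ d‖ * ‖∑ t ∈ E, kp t *
        P.ds r y Q₀ κ J Q (H / nm (d ^ 3)) Y₁ Y₂ t e t₁ t₂ τ g‖
      ≤ 1 * ∑ t ∈ E, ‖kp t *
        P.ds r y Q₀ κ J Q (H / nm (d ^ 3)) Y₁ Y₂ t e t₁ t₂ τ g‖ :=
        mul_le_mul (norm_wc_le hP τ hd) (norm_sum_le _ _) (norm_nonneg _) zero_le_one
    _ = _ := by
        rw [one_mul]
        exact Finset.sum_congr rfl fun t _ => norm_mul _ _

end Crest.Agent.R017.Asm986
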