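import Crest.Agent.R017.NV1_986

/-!
# Row 17, section B, leaf L3b, final form, part 2: D-OUT for small `Q` and indexed outer sums
-/

set_option autoImplicit false

noncomputable section

open scoped ComplexConjugate ContDiff

namespace Crest.Agent.R017.Asm986

open Crest.Agent.R012 Crest.Agent.R012.Eis Crest.Agent.R012.PSer47 Crest.Agent.R012.Div277
open Crest.Agent.R017.End699 Crest.Agent.R017.Sx545 Crest.Agent.R017.B770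

/-! ### the target -/

/-- the three monomials -/
def m1 (y₀ Q₀ Q H Cc : ℝ) : ℝ :=
  H / Q₀ ^ (1 / 2 + y₀) * (Q / Q₀) ^ (1 / 2 : ℝ) * (Cc / Q₀ ^ y₀) ^ (1 / 2 : ℝ)

def m2 (y₀ Q₀ Q H Cc : ℝ) : ℝ :=
  (H / Q₀ ^ (1 / 2 + y₀)) ^ (1 / 2 : ℝ) * (Q / Q₀) ^ (3 / 4 : ℝ) * (Cc / Q₀ ^ y₀) ^ (1 / 4 : ℝ)

def m3 (θ y₀ Q₀ Q H Cc : ℝ) : ℝ :=
  (H / Q₀ ^ (1 / 2 + y₀)) ^ (1 / 6 : ℝ) * (Q / Q₀) ^ θ * (Cc / Q₀ ^ y₀) ^ θ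

/-- the prefactor -/
def LL (θ y₀ Q₀ : ℝ) : ℝ := Q₀ ^ ((1 / 2 + y₀) / 3 + y₀ + θ)

lemma TgB_eq (θ η₁ η₂ y₀ Q₀ Q H Cc : ℝ) : TgB θ η₁ η₂ y₀ Q₀ Q H Cc =
    LL θ y₀ Q₀ * (Q₀ ^ (-η₁) * (m1 y₀ Q₀ Q H Cc + m2 y₀ Q₀ Q H Cc) +
      Q₀ ^ (-η₂) * m3 θ y₀ Q₀ Q H Cc) := rfl

lemma m1_nonneg {y₀ Q₀ Q H Cc : ℝ} (hQ₀ : 0 ≤ Q₀) (hQ : 0 ≤ Q) (hH : 0 ≤ H)
    (hC : 0 ≤ Cc) : 0 ≤ m1 y₀ Q₀ Q H Cc := by
  unfold m1; positivity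

lemma m2_nonneg {y₀ Q₀ Q H Cc : ℝ} (hQ₀ : 0 ≤ Q₀) (hQ : 0 ≤ Q) (hH : 0 ≤ H)
    (hC : 0 ≤ Cc) : 0 ≤ m2 y₀ Q₀ Q H Cc := by
  unfold m2; positivity

lemma m3_nonneg {θ y₀ Q₀ Q H Cc : ℝ} (hQ₀ : 0 ≤ Q₀) (hQ : 0 ≤ Q) (hH : 0 ≤ H)
    (hC : 0 ≤ Cc) : 0 ≤ m3 θ y₀ Q₀ Q H Cc := by
  unfold m3; positivity

lemma LL_nonneg {θ y₀ Q₀ : ℝ} (hQ₀ : 0 ≤ Q₀) : 0 ≤ LL θ y₀ Q₀ := Real.rpow_nonneg hQ₀ _

lemma TgB_nonneg {θ η₁ η₂ y₀ Q₀ Q H Cc : ℝ} (hQ₀ : 0 ≤ Q₀) (hQ : 0 ≤ Q) (hH : 0 ≤ H)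
    (hC : 0 ≤ Cc) : 0 ≤ TgB θ η₁ η₂ y₀ Q₀ Q H Cc := by
  unfold TgB
  positivity

lemma rpow_le_self_of_one_le {c s : ℝ} (hc : 1 ≤ c) (hs : s ≤ 1) : c ^ s ≤ c := by
  calc c ^ s ≤ c ^ (1 : ℝ) := Real.rpow_le_rpow_of_exponent_le hc hs
    _ = c := Real.rpow_one c

lemma TgB_mul_Q {θ η₁ η₂ y₀ Q₀ Q H Cc c : ℝ} (hQ₀ : 0 ≤ Q₀) (hQ : 0 ≤ Q) (hH : 0 ≤ H)
    (hC : 0 ≤ Cc) (hc : 1 ≤ c) (hθ : θ ≤ 1) :
    TgB θ η₁ η₂ y₀ Q₀ (c * Q) H Cc ≤ c * TgB θ η₁ η₂ y₀ Q₀ Q H Cc := by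
  have hc0 : 0 ≤ c := by linarith
  unfold TgB
  rw [mul_div_assoc, Real.mul_rpow hc0 (by positivity), Real.mul_rpow hc0 (by positivity),
    Real.mul_rpow hc0 (by positivity)]
  have h1 : c ^ (1 / 2 : ℝ) ≤ c := rpow_le_self_of_one_le hc (by norm_num)
  have h2 : c ^ θ ≤ c := rpow_le_self_of_one_le hc hθ
  have h3 : c ^ (3 / 4 : ℝ) ≤ c := rpow_le_self_of_one_le hc (by norm_num)
  calc _ ≤ Q₀ ^ ((1 / 2 + y₀) / 3 + y₀ + θ) *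
    (Q₀ ^ (-η₁) * (H / Q₀ ^ (1 / 2 + y₀) * (c * (Q / Q₀) ^ (1 / 2 : ℝ)) *
        (Cc / Q₀ ^ y₀) ^ (1 / 2 : ℝ) +
        (H / Q₀ ^ (1 / 2 + y₀)) ^ (1 / 2 : ℝ) * (c * (Q / Q₀) ^ (3 / 4 : ℝ)) *
        (Cc / Q₀ ^ y₀) ^ (1 / 4 : ℝ)) +
      Q₀ ^ (-η₂) * ((H / Q₀ ^ (1 / 2 + y₀)) ^ (1 / 6 : ℝ) * (c * (Q / Q₀) ^ θ) *
        (Cc / Q₀ ^ y₀) ^ θ)) := by gcongr
    _ = _ := by ring

/-! ### changing `V` -/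

/-- the data with `V` replaced by `V(2^n ·)` -/
def DPar.sc (P : DPar) (n : ℕ) : DPar := { P with V := fun x => P.V ((2 : ℝ) ^ n * x) }

lemma DPar.sc_ok {P : DPar} (hP : P.OK) (n : ℕ) : (DPar.sc P n).OK where
  h₀ := hP.h₀
  h := hP.h
  V := sw_scale hP.V (by positivity)
  U := hP.U
  n36 := hP.n36
  φ := hP.φ
  ψ := hP.ψ
  χ₃ := hP.χ₃
  rad := hP.rad
  cases := hP.cases

open Classical in
lemma DPar.ds_sc (P : DPar) (n : ℕ) (r : ℕ) (y Q₀ κ : ℝ) (J : Finset (Fin r)) (Q H : ℝ)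
    (d₁ d₂ d₃ e : Eis) (t₁ t₂ τ : ℝ) (D : Eis) :
    P.ds r y Q₀ κ J Q H d₁ d₂ d₃ e t₁ t₂ τ D =
      (DPar.sc P n).ds r y Q₀ κ J ((2 : ℝ) ^ n * Q) H d₁ d₂ d₃ e t₁ t₂ τ D := by
  unfold DPar.ds
  refine tsum_congr fun k => ?_
  have e1 : P.mo Q d₂ t₂ k = (DPar.sc P n).mo ((2 : ℝ) ^ n * Q) d₂ t₂ k := by
    unfold DPar.mo
    exact MV_scale (by positivity) _
  rw [e1]
  rfl

lemma DPar.ds_zero (P : DPar) {β : ℝ} (hβ : ∀ x, P.V x ≠ 0 → 0 < x ∧ x ≤ β) {Q : ℝ} (hQ : 0 < Q)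
    (hβQ : β * Q < 1) (r : ℕ) (y Q₀ κ : ℝ) (J : Finset (Fin r)) (H : ℝ)
    (d₁ d₂ d₃ e : Eis) (t₁ t₂ τ : ℝ) (D : Eis) :
    P.ds r y Q₀ κ J Q H d₁ d₂ d₃ e t₁ t₂ τ D = 0 := by
  unfold DPar.ds
  rw [tsum_congr (g := fun _ => 0) fun k => ?_, tsum_zero]
  unfold DPar.mo
  rw [MV_eq_zero hβ hQ hβQ]; simp

/-- D-OUT for all `Q > 0`. -/
theorem dout3_ext {θ : ℝ} {r : ℕ} {y δ η : ℝ} (hθ : θ ≤ 1) (hD : DOUT3i θ r y δ η) {P : DPar}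
    (hP : P.OK) {ε C₁ : ℝ} (hε : 0 < ε) (hC₁ : 0 < C₁) :
    ∃ C A : ℝ, 0 ≤ C ∧ 0 ≤ A ∧
    ∀ (Q₀ Q : ℝ), 0 < Q → Q ≤ Q₀ → 2 ≤ Q₀ → ∀ κ : ℝ, -1 ≤ κ → κ ≤ δ * Real.log Q₀ →
    ∀ (J : Finset (Fin r)) (H : ℝ), 0 < H → H ≤ Q₀ ^ (1 / 2 + (y + δ) + η) →
    ∀ d₁ d₂ d₃ e : Eis, d₁ ≠ 0 → d₂ ≠ 0 → d₃ ≠ 0 → Sm P.n e →
      (∀ p : Eis, Prime p → p ∣ e → p ^ 5 ∣ e) →
      Q * nm e ≤ C₁ * Q₀ * (CJ r y Q₀ J * Real.exp κ / Q₀ ^ (y + δ)) →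
    ∀ (t₁ t₂ τ : ℝ) (𝒟 : Finset Eis), (∀ D ∈ 𝒟, Sm P.n D ∧ Squarefree D) →
    ∀ u v : Eis → ℝ, (∀ D, 0 ≤ u D ∧ u D ≤ C₁) → (∀ D, 0 ≤ v D ∧ v D ≤ C₁) →
      ∑ D ∈ 𝒟, ‖P.ds r y Q₀ (κ - u D) J (Q * Real.exp (-(v D))) H d₁ d₂ d₃ e t₁ t₂ τ D‖ ≤
        C * ((nm d₁ : ℝ) * nm d₂ * nm d₃ * nm e * Q₀) ^ ε * (1 + |t₁| + |t₂| + |τ|) ^ A *
          TgB θ η (if δ / 2 * Real.log Q₀ ≤ κ then η else -η) (y + δ) Q₀ Q H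
            (CJ r y Q₀ J * Real.exp κ) := by
  classical
  obtain ⟨β, hβ1, hβ⟩ := sw_bound hP.V
  obtain ⟨N, hN⟩ := pow_unbounded_of_one_lt β (one_lt_two (α := ℝ))
  have hC₁' : 0 < 2 ^ (N + 2) * C₁ := by positivity
  have hC₁le : C₁ ≤ 2 ^ (N + 2) * C₁ := by
    have : (1 : ℝ) ≤ 2 ^ (N + 2) := one_le_pow₀ one_le_two
    nlinarith
  choose C A hC0 hA0 hC using fun n : ℕ =>
    hD (DPar.sc P n) (DPar.sc_ok hP n) ε (2 ^ (N + 2) * C₁) hε hC₁'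
  set A' : ℝ := ∑ n ∈ Finset.range (N + 2), A n with hA'
  refine ⟨∑ n ∈ Finset.range (N + 2), (2 : ℝ) ^ n * C n, A', ?_, ?_, ?_⟩
  · exact Finset.sum_nonneg fun n _ => mul_nonneg (by positivity) (hC0 n)
  · exact Finset.sum_nonneg fun n _ => hA0 n
  intro Q₀ Q hQ hQQ₀ hQ₀ κ hκ1 hκ2 J H hH hHle d₁ d₂ d₃ e hd₁ hd₂ hd₃ he he5 hQle t₁ t₂ τ 𝒟 h𝒟
    u v hu hv
  have hQ₀0 : 0 ≤ Q₀ := by linarith
  set T : ℝ := 1 + |t₁| + |t₂| + |τ| with hT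
  have hT1 : 1 ≤ T := by
    have := abs_nonneg t₁
    have := abs_nonneg t₂
    have := abs_nonneg τ
    rw [hT]; linarith
  have hT0 : 0 ≤ T := by linarith
  have hCJ := CJ_nonneg (r := r) (y := y) hQ₀0 J
  have hCc : 0 ≤ CJ r y Q₀ J * Real.exp κ := by positivity
  set η₂ : ℝ := (if δ / 2 * Real.log Q₀ ≤ κ then η else -η) with hη₂
  set E₁ : ℝ := ((nm d₁ : ℝ) * nm d₂ * nm d₃ * nm e * Q₀) ^ ε with hE₁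
  have hE₁0 : 0 ≤ E₁ := by positivity
  have hR0 : 0 ≤ (∑ n ∈ Finset.range (N + 2), (2 : ℝ) ^ n * C n) * E₁ * T ^ A' *
          TgB θ η η₂ (y + δ) Q₀ Q H (CJ r y Q₀ J * Real.exp κ) := by
    have h1 : 0 ≤ ∑ n ∈ Finset.range (N + 2), (2 : ℝ) ^ n * C n :=
      Finset.sum_nonneg fun n _ => mul_nonneg (by positivity) (hC0 n)
    have h2 := TgB_nonneg (θ := θ) (η₁ := η) (η₂ := η₂) (y₀ := y + δ) hQ₀0 hQ.le hH.le hCc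
    positivity
  by_cases hβQ : β * Q < 1
  · refine (Finset.sum_nonpos fun D _ => ?_).trans hR0
    have hv1 : Real.exp (-(v D)) ≤ 1 := Real.exp_le_one_iff.mpr (by linarith [(hv D).1])
    rw [DPar.ds_zero P hβ (mul_pos hQ (Real.exp_pos _)) (lt_of_le_of_lt ?_ hβQ), norm_zero]
    have : Q * Real.exp (-(v D)) ≤ Q := mul_le_of_le_one_right hQ.le hv1
    nlinarith
  push Not at hβQ
  -- choose `n`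
  have hn : ∃ n < N + 2, 1 ≤ (2 : ℝ) ^ n * Q ∧ (2 : ℝ) ^ n * Q ≤ Q₀ := by
    by_cases hQ1 : 1 ≤ Q
    · exact ⟨0, by omega, by simpa using hQ1, by simpa using hQQ₀⟩
    · push Not at hQ1
      have h1 : 1 ≤ Q⁻¹ := (one_le_inv₀ hQ).mpr hQ1.le
      obtain ⟨m, hm1, hm2⟩ := exists_nat_pow_near h1 (one_lt_two (α := ℝ))
      have hm3 : (2 : ℝ) ^ m * Q ≤ 1 := by
        calc (2 : ℝ) ^ m * Q ≤ Q⁻¹ * Q := by gcongr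
          _ = 1 := inv_mul_cancel₀ hQ.ne'
      have hm4 : 1 ≤ (2 : ℝ) ^ (m + 1) * Q := by
        calc 1 = Q⁻¹ * Q := (inv_mul_cancel₀ hQ.ne').symm
          _ ≤ (2 : ℝ) ^ (m + 1) * Q := by gcongr
      refine ⟨m + 1, ?_, hm4, ?_⟩
      · have h3 : (2 : ℝ) ^ m < 2 ^ N := by
          refine hm1.trans_lt (lt_of_le_of_lt ?_ hN)
          rw [inv_le_iff_one_le_mul₀ hQ]; exact hβQ
        have := (pow_lt_pow_iff_right₀ (one_lt_two (α := ℝ))).mp h3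
        omega
      · calc (2 : ℝ) ^ (m + 1) * Q = 2 * (2 ^ m * Q) := by ring
          _ ≤ 2 * 1 := by gcongr
          _ ≤ Q₀ := by linarith
  obtain ⟨n, hnN, hn1, hn2⟩ := hn
  have hpow : (2 : ℝ) ^ n ≤ 2 ^ (N + 2) := pow_le_pow_right₀ (by norm_num) (by omega)
  have hQle' : (2 : ℝ) ^ n * Q * nm e ≤
      2 ^ (N + 2) * C₁ * Q₀ * (CJ r y Q₀ J * Real.exp κ / Q₀ ^ (y + δ)) := by
    calc (2 : ℝ) ^ n * Q * nm e = 2 ^ n * (Q * nm e) := by ring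
      _ ≤ 2 ^ (N + 2) * (C₁ * Q₀ * (CJ r y Q₀ J * Real.exp κ / Q₀ ^ (y + δ))) :=
          mul_le_mul hpow hQle (by positivity) (by positivity)
      _ = _ := by ring
  have key := hC n Q₀ ((2 : ℝ) ^ n * Q) hn1 hn2 κ hκ1 hκ2 J H hH hHle d₁ d₂ d₃ e hd₁ hd₂ hd₃
    he he5 hQle' t₁ t₂ τ 𝒟 h𝒟 u v (fun D => ⟨(hu D).1, (hu D).2.trans hC₁le⟩)
    (fun D => ⟨(hv D).1, (hv D).2.trans hC₁le⟩)
  have e1 : ∀ D, P.ds r y Q₀ (κ - u D) J (Q * Real.exp (-(v D))) H d₁ d₂ d₃ e t₁ t₂ τ D =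
      (DPar.sc P n).ds r y Q₀ (κ - u D) J ((2 : ℝ) ^ n * Q * Real.exp (-(v D))) H d₁ d₂ d₃ e
        t₁ t₂ τ D := by
    intro D
    rw [DPar.ds_sc P n, mul_assoc]
  simp only [e1]
  refine key.trans ?_
  have h1 : TgB θ η η₂ (y + δ) Q₀ ((2 : ℝ) ^ n * Q) H (CJ r y Q₀ J * Real.exp κ) ≤
      (2 : ℝ) ^ n * TgB θ η η₂ (y + δ) Q₀ Q H (CJ r y Q₀ J * Real.exp κ) :=
    TgB_mul_Q hQ₀0 hQ.le hH.le hCc (one_le_pow₀ one_le_two) hθ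
  have h2 : T ^ A n ≤ T ^ A' := by
    apply Real.rpow_le_rpow_of_exponent_le hT1
    exact Finset.single_le_sum (f := fun n => A n) (fun i _ => hA0 _)
      (Finset.mem_range.mpr hnN)
  have h3 : (2 : ℝ) ^ n * C n ≤ ∑ n ∈ Finset.range (N + 2), (2 : ℝ) ^ n * C n :=
    Finset.single_le_sum (f := fun n => (2 : ℝ) ^ n * C n)
      (fun i _ => mul_nonneg (by positivity) (hC0 i)) (Finset.mem_range.mpr hnN)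
  have h4 := TgB_nonneg (θ := θ) (η₁ := η) (η₂ := η₂) (y₀ := y + δ) hQ₀0 hQ.le hH.le hCc
  have h5 := TgB_nonneg (θ := θ) (η₁ := η) (η₂ := η₂) (y₀ := y + δ) (Q := (2 : ℝ) ^ n * Q)
    hQ₀0 (by positivity) hH.le hCc
  have hCn := hC0 n
  calc C n * E₁ * T ^ A n *
        TgB θ η η₂ (y + δ) Q₀ ((2 : ℝ) ^ n * Q) H (CJ r y Q₀ J * Real.exp κ)
      ≤ C n * E₁ * T ^ A' *
        ((2 : ℝ) ^ n * TgB θ η η₂ (y + δ) Q₀ Q H (CJ r y Q₀ J * Real.exp κ)) := by gcongr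
    _ = ((2 : ℝ) ^ n * C n) * E₁ * T ^ A' *
        TgB θ η η₂ (y + δ) Q₀ Q H (CJ r y Q₀ J * Real.exp κ) := by ring
    _ ≤ _ := by gcongr

/-- D-OUT with an indexed outer sum -/
theorem dout3_idx {θ : ℝ} {r : ℕ} {y δ η : ℝ} (hθ : θ ≤ 1) (hD : DOUT3i θ r y δ η) {P : DPar}
    (hP : P.OK) {ε C₁ : ℝ} (hε : 0 < ε) (hC₁ : 0 < C₁) :
    ∃ C A : ℝ, 0 ≤ C ∧ 0 ≤ A ∧
    ∀ (Q₀ Q : ℝ), 0 < Q → Q ≤ Q₀ → 2 ≤ Q₀ → ∀ κ : ℝ, -1 ≤ κ → κ ≤ δ * Real.log Q₀ →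
    ∀ (J : Finset (Fin r)) (H : ℝ), 0 < H → H ≤ Q₀ ^ (1 / 2 + (y + δ) + η) →
    ∀ d₁ d₂ d₃ e : Eis, d₁ ≠ 0 → d₂ ≠ 0 → d₃ ≠ 0 → Sm P.n e →
      (∀ p : Eis, Prime p → p ∣ e → p ^ 5 ∣ e) →
      Q * nm e ≤ C₁ * Q₀ * (CJ r y Q₀ J * Real.exp κ / Q₀ ^ (y + δ)) →
    ∀ (t₁ t₂ τ : ℝ) (ι : Type) (S : Finset ι) (D : ι → Eis), Set.InjOn D S →
      (∀ i ∈ S, Sm P.n (D i) ∧ Squarefree (D i)) → ∀ kp qp : ι → ℝ,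
      (∀ i ∈ S, κ - C₁ ≤ kp i ∧ kp i ≤ κ) →
      (∀ i ∈ S, 0 < qp i ∧ Q * Real.exp (-C₁) ≤ qp i ∧ qp i ≤ Q) →
      ∑ i ∈ S, ‖P.ds r y Q₀ (kp i) J (qp i) H d₁ d₂ d₃ e t₁ t₂ τ (D i)‖ ≤
        C * ((nm d₁ : ℝ) * nm d₂ * nm d₃ * nm e * Q₀) ^ ε * (1 + |t₁| + |t₂| + |τ|) ^ A *
          TgB θ η (if δ / 2 * Real.log Q₀ ≤ κ then η else -η) (y + δ) Q₀ Q H
            (CJ r y Q₀ J * Real.exp κ) := by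
  classical
  obtain ⟨C, A, hC0, hA0, hC⟩ := dout3_ext hθ hD hP hε hC₁
  refine ⟨C, A, hC0, hA0, ?_⟩
  intro Q₀ Q hQ hQQ₀ hQ₀ κ hκ1 hκ2 J H hH hHle d₁ d₂ d₃ e hd₁ hd₂ hd₃ he he5 hQle t₁ t₂ τ ι S D
    hinj hDS kp qp hkp hqp
  set u : Eis → ℝ := fun x => if h : ∃ i ∈ S, D i = x then κ - kp h.choose else 0 with hu
  set v : Eis → ℝ := fun x => if h : ∃ i ∈ S, D i = x then Real.log (Q / qp h.choose) else 0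
    with hv
  have key := hC Q₀ Q hQ hQQ₀ hQ₀ κ hκ1 hκ2 J H hH hHle d₁ d₂ d₃ e hd₁ hd₂ hd₃ he he5 hQle t₁ t₂ τ
    (S.image D) (fun x hx => by
      obtain ⟨i, hi, rfl⟩ := Finset.mem_image.mp hx
      exact hDS i hi) u v (fun x => by
      simp only [hu]
      split_ifs with h
      · have := hkp _ h.choose_spec.1
        constructor <;> linarith [this.1, this.2]
      · exact ⟨le_rfl, hC₁.le⟩) (fun x => by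
      simp only [hv]
      split_ifs with h
      · obtain ⟨a1, a2, a3⟩ := hqp _ h.choose_spec.1
        constructor
        · exact Real.log_nonneg (by rw [le_div_iff₀ a1]; linarith)
        · rw [Real.log_le_iff_le_exp (by positivity), div_le_iff₀ a1]
          calc Q = Real.exp C₁ * (Q * Real.exp (-C₁)) := by
                rw [mul_comm Q, ← mul_assoc, ← Real.exp_add]; simp
            _ ≤ _ := by gcongr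
      · exact ⟨le_rfl, hC₁.le⟩)
  refine le_trans (le_of_eq ?_) key
  rw [Finset.sum_image hinj]
  refine Finset.sum_congr rfl fun i hi => ?_
  have hex : ∃ j ∈ S, D j = D i := ⟨i, hi, rfl⟩
  have hch : hex.choose = i := hinj hex.choose_spec.1 hi hex.choose_spec.2
  have e1 : u (D i) = κ - kp i := by
    simp only [hu]
    rw [dif_pos hex, hch]
  have e2 : v (D i) = Real.log (Q / qp i) := by
    simp only [hv]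
    rw [dif_pos hex, hch]
  obtain ⟨a1, a2, a3⟩ := hqp i hi
  rw [e1, e2]
  have e3 : κ - (κ - kp i) = kp i := by ring
  have e4 : Q * Real.exp (-Real.log (Q / qp i)) = qp i := by
    rw [Real.exp_neg, Real.exp_log (by positivity)]
    field_simp
  rw [e3, e4]

end Crest.Agent.R017.Asm986
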