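import Crest.Agent.R017.NV2_986

/-!
# Row 17, section B, leaf L3b, final form, part 3: the exponents
-/

set_option autoImplicit false

noncomputable section

open scoped ComplexConjugate ContDiff

namespace Crest.Agent.R017.Asm986

open Crest.Agent.R012 Crest.Agent.R012.Eis Crest.Agent.R012.PSer47 Crest.Agent.R012.Div277
open Crest.Agent.R017.End699 Crest.Agent.R017.Sx545 Crest.Agent.R017.B770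

lemma RP_le {P R s₁ s₂ : ℝ} {m : ℕ} (hP : 1 ≤ P) (hR : (P / 3) ^ m ≤ R) (h1 : 0 ≤ s₁)
    (h1' : s₁ ≤ 1) (h12 : 1 ≤ s₁ + s₂) :
    R ^ (-s₁) * (P ^ m) ^ (-s₂) ≤ 3 ^ m * P⁻¹ ^ m := by
  have hP0 : 0 < P := by linarith
  have hX0 : 0 < (P / 3) ^ m := by positivity
  calc R ^ (-s₁) * (P ^ m) ^ (-s₂) ≤ ((P / 3) ^ m) ^ (-s₁) * (P ^ m) ^ (-s₂) :=
        mul_le_mul_of_nonneg_right (Real.rpow_le_rpow_of_nonpos hX0 hR (by linarith))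
          (by positivity)
    _ = (3 : ℝ) ^ (s₁ * m) * (P ^ (-(s₁ + s₂) * m)) := by
        rw [div_pow, rpow_div' (by positivity) (by positivity), neg_neg,
          ← Real.rpow_natCast_mul hP0.le, ← Real.rpow_natCast_mul hP0.le,
          ← Real.rpow_natCast_mul (by norm_num : (0 : ℝ) ≤ 3)]
        rw [mul_comm (P ^ _) ((3 : ℝ) ^ _), mul_assoc, ← Real.rpow_add hP0]
        congr 1
        · congr 1; ring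
        · congr 1; ring
    _ ≤ (3 : ℝ) ^ ((1 : ℝ) * m) * P ^ ((-1 : ℝ) * m) := by
        have hm : (0 : ℝ) ≤ m := by positivity
        have q1 : (3 : ℝ) ^ (s₁ * m) ≤ (3 : ℝ) ^ ((1 : ℝ) * m) :=
          Real.rpow_le_rpow_of_exponent_le (by norm_num) (by gcongr)
        have q2 : P ^ (-(s₁ + s₂) * m) ≤ P ^ ((-1 : ℝ) * m) :=
          Real.rpow_le_rpow_of_exponent_le hP (mul_le_mul_of_nonneg_right (by linarith) hm)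
        gcongr
    _ = _ := by
        rw [one_mul, Real.rpow_natCast, neg_mul, one_mul, Real.rpow_neg hP0.le,
          Real.rpow_natCast, inv_pow]

section Step

variable {θ y₀ Q₀ Q H P nb z R nd : ℝ} {m : ℕ}

lemma cc_eq (hQ₀ : 0 < Q₀) {X : ℝ} : Q₀ ^ y₀ / X / Q₀ ^ y₀ = X⁻¹ := by
  have : Q₀ ^ y₀ ≠ 0 := by positivity
  field_simp

lemma m1_step (hQ₀ : 0 < Q₀) (hQ : 0 ≤ Q) (hH : 0 ≤ H) (hP : 1 ≤ P) (hnb : 0 < nb) (hz : 0 < z)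
    (hnd : 0 < nd) (hR : (P / 3) ^ m ≤ R) :
    m1 y₀ Q₀ (Q / (nb * z * R)) (H / nd ^ 3) (Q₀ ^ y₀ / (P ^ m * z)) ≤
      3 ^ m * P⁻¹ ^ m * z⁻¹ * (nd ^ (-3 : ℝ) * nb ^ (-(1 / 2) : ℝ)) *
        m1 y₀ Q₀ Q H (Q₀ ^ y₀) := by
  have hP0 : 0 < P := by linarith
  have hR0 : 0 < R := lt_of_lt_of_le (by positivity) hR
  unfold m1
  rw [cc_eq hQ₀, div_self (by positivity : Q₀ ^ y₀ ≠ 0), Real.one_rpow, mul_one]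
  have e1 : H / nd ^ 3 / Q₀ ^ (1 / 2 + y₀) = nd ^ (-3 : ℝ) * (H / Q₀ ^ (1 / 2 + y₀)) := by
    rw [show (-3 : ℝ) = -((3 : ℕ) : ℝ) by norm_num, Real.rpow_neg hnd.le, Real.rpow_natCast]
    ring
  have e2 : (Q / (nb * z * R) / Q₀) ^ (1 / 2 : ℝ) =
      nb ^ (-(1 / 2) : ℝ) * z ^ (-(1 / 2) : ℝ) * R ^ (-(1 / 2) : ℝ) * (Q / Q₀) ^ (1 / 2 : ℝ) := by
    rw [show Q / (nb * z * R) / Q₀ = (Q / Q₀) / (nb * z * R) by ring,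
      rpow_div' (by positivity) (by positivity), Real.mul_rpow (by positivity) hR0.le,
      Real.mul_rpow hnb.le hz.le]
    ring
  have e3 : ((P ^ m * z)⁻¹ : ℝ) ^ (1 / 2 : ℝ) = (P ^ m) ^ (-(1 / 2) : ℝ) * z ^ (-(1 / 2) : ℝ) := by
    rw [Real.inv_rpow (by positivity), ← Real.rpow_neg (by positivity),
      Real.mul_rpow (by positivity) hz.le]
  have e4 : z ^ (-(1 / 2) : ℝ) * z ^ (-(1 / 2) : ℝ) = z⁻¹ := by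
    rw [← Real.rpow_add hz, ← Real.rpow_neg_one]; norm_num
  rw [e1, e2, e3]
  have h0 : 0 ≤ H / Q₀ ^ (1 / 2 + y₀) * (Q / Q₀) ^ (1 / 2 : ℝ) := by positivity
  have h1 := RP_le (s₁ := 1 / 2) (s₂ := 1 / 2) hP hR (by norm_num) (by norm_num) (by norm_num)
  have h2 : 0 ≤ nd ^ (-3 : ℝ) * nb ^ (-(1 / 2) : ℝ) * z⁻¹ := by positivity
  calc nd ^ (-3 : ℝ) * (H / Q₀ ^ (1 / 2 + y₀)) *
        (nb ^ (-(1 / 2) : ℝ) * z ^ (-(1 / 2) : ℝ) * R ^ (-(1 / 2) : ℝ) * (Q / Q₀) ^ (1 / 2 : ℝ)) *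
        ((P ^ m) ^ (-(1 / 2) : ℝ) * z ^ (-(1 / 2) : ℝ))
      = (nd ^ (-3 : ℝ) * nb ^ (-(1 / 2) : ℝ) * (z ^ (-(1 / 2) : ℝ) * z ^ (-(1 / 2) : ℝ))) *
        (R ^ (-(1 / 2) : ℝ) * (P ^ m) ^ (-(1 / 2) : ℝ)) *
        (H / Q₀ ^ (1 / 2 + y₀) * (Q / Q₀) ^ (1 / 2 : ℝ)) := by ring
    _ ≤ (nd ^ (-3 : ℝ) * nb ^ (-(1 / 2) : ℝ) * z⁻¹) * (3 ^ m * P⁻¹ ^ m) *
        (H / Q₀ ^ (1 / 2 + y₀) * (Q / Q₀) ^ (1 / 2 : ℝ)) := by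
        rw [e4]; gcongr
    _ = _ := by ring

lemma m2_step (hQ₀ : 0 < Q₀) (hQ : 0 ≤ Q) (hH : 0 ≤ H) (hP : 1 ≤ P) (hnb : 0 < nb) (hz : 0 < z)
    (hnd : 0 < nd) (hR : (P / 3) ^ m ≤ R) :
    m2 y₀ Q₀ (Q / (nb * z * R)) (H / nd ^ 3) (Q₀ ^ y₀ / (P ^ m * z)) ≤
      3 ^ m * P⁻¹ ^ m * z⁻¹ * (nd ^ (-(3 / 2) : ℝ) * nb ^ (-(3 / 4) : ℝ)) *
        m2 y₀ Q₀ Q H (Q₀ ^ y₀) := by
  have hP0 : 0 < P := by linarith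
  have hR0 : 0 < R := lt_of_lt_of_le (by positivity) hR
  unfold m2
  rw [cc_eq hQ₀, div_self (by positivity : Q₀ ^ y₀ ≠ 0), Real.one_rpow, mul_one]
  have e1 : (H / nd ^ 3 / Q₀ ^ (1 / 2 + y₀)) ^ (1 / 2 : ℝ) =
      nd ^ (-(3 / 2) : ℝ) * (H / Q₀ ^ (1 / 2 + y₀)) ^ (1 / 2 : ℝ) := by
    rw [show H / nd ^ 3 / Q₀ ^ (1 / 2 + y₀) = (H / Q₀ ^ (1 / 2 + y₀)) / nd ^ 3 by ring,
      rpow_div' (by positivity) (by positivity), ← Real.rpow_natCast_mul hnd.le]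
    rw [mul_comm]
    congr 2
    norm_num
  have e2 : (Q / (nb * z * R) / Q₀) ^ (3 / 4 : ℝ) =
      nb ^ (-(3 / 4) : ℝ) * z ^ (-(3 / 4) : ℝ) * R ^ (-(3 / 4) : ℝ) * (Q / Q₀) ^ (3 / 4 : ℝ) := by
    rw [show Q / (nb * z * R) / Q₀ = (Q / Q₀) / (nb * z * R) by ring,
      rpow_div' (by positivity) (by positivity), Real.mul_rpow (by positivity) hR0.le,
      Real.mul_rpow hnb.le hz.le]
    ring
  have e3 : ((P ^ m * z)⁻¹ : ℝ) ^ (1 / 4 : ℝ) = (P ^ m) ^ (-(1 / 4) : ℝ) * z ^ (-(1 / 4) : ℝ) := by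
    rw [Real.inv_rpow (by positivity), ← Real.rpow_neg (by positivity),
      Real.mul_rpow (by positivity) hz.le]
  have e4 : z ^ (-(3 / 4) : ℝ) * z ^ (-(1 / 4) : ℝ) = z⁻¹ := by
    rw [← Real.rpow_add hz, ← Real.rpow_neg_one]; norm_num
  rw [e1, e2, e3]
  have h0 : 0 ≤ (H / Q₀ ^ (1 / 2 + y₀)) ^ (1 / 2 : ℝ) * (Q / Q₀) ^ (3 / 4 : ℝ) := by positivity
  have h1 := RP_le (s₁ := 3 / 4) (s₂ := 1 / 4) hP hR (by norm_num) (by norm_num) (by norm_num)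
  have h2 : 0 ≤ nd ^ (-(3 / 2) : ℝ) * nb ^ (-(3 / 4) : ℝ) * z⁻¹ := by positivity
  calc nd ^ (-(3 / 2) : ℝ) * (H / Q₀ ^ (1 / 2 + y₀)) ^ (1 / 2 : ℝ) *
        (nb ^ (-(3 / 4) : ℝ) * z ^ (-(3 / 4) : ℝ) * R ^ (-(3 / 4) : ℝ) * (Q / Q₀) ^ (3 / 4 : ℝ)) *
        ((P ^ m) ^ (-(1 / 4) : ℝ) * z ^ (-(1 / 4) : ℝ))
      = (nd ^ (-(3 / 2) : ℝ) * nb ^ (-(3 / 4) : ℝ) * (z ^ (-(3 / 4) : ℝ) * z ^ (-(1 / 4) : ℝ))) *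
        (R ^ (-(3 / 4) : ℝ) * (P ^ m) ^ (-(1 / 4) : ℝ)) *
        ((H / Q₀ ^ (1 / 2 + y₀)) ^ (1 / 2 : ℝ) * (Q / Q₀) ^ (3 / 4 : ℝ)) := by ring
    _ ≤ (nd ^ (-(3 / 2) : ℝ) * nb ^ (-(3 / 4) : ℝ) * z⁻¹) * (3 ^ m * P⁻¹ ^ m) *
        ((H / Q₀ ^ (1 / 2 + y₀)) ^ (1 / 2 : ℝ) * (Q / Q₀) ^ (3 / 4 : ℝ)) := by
        rw [e4]; gcongr
    _ = _ := by ring

lemma m3_step (hθ : 1 / 2 ≤ θ) (hθ1 : θ ≤ 1) (hQ₀ : 0 < Q₀) (hQ : 0 ≤ Q) (hH : 0 ≤ H)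
    (hP : 1 ≤ P) (hnb : 0 < nb) (hz : 0 < z) (hnd : 0 < nd) (hR : (P / 3) ^ m ≤ R) :
    m3 θ y₀ Q₀ (Q / (nb * z * R)) (H / nd ^ 3) (Q₀ ^ y₀ / (P ^ m * z)) ≤
      3 ^ m * P⁻¹ ^ m * (z⁻¹ * z ^ (-(2 * θ - 1))) * (nd ^ (-(1 / 2) : ℝ) * nb ^ (-θ)) *
        m3 θ y₀ Q₀ Q H (Q₀ ^ y₀) := by
  have hP0 : 0 < P := by linarith
  have hR0 : 0 < R := lt_of_lt_of_le (by positivity) hR
  unfold m3
  rw [cc_eq hQ₀, div_self (by positivity : Q₀ ^ y₀ ≠ 0), Real.one_rpow, mul_one]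
  have e1 : (H / nd ^ 3 / Q₀ ^ (1 / 2 + y₀)) ^ (1 / 6 : ℝ) =
      nd ^ (-(1 / 2) : ℝ) * (H / Q₀ ^ (1 / 2 + y₀)) ^ (1 / 6 : ℝ) := by
    rw [show H / nd ^ 3 / Q₀ ^ (1 / 2 + y₀) = (H / Q₀ ^ (1 / 2 + y₀)) / nd ^ 3 by ring,
      rpow_div' (by positivity) (by positivity), ← Real.rpow_natCast_mul hnd.le]
    rw [mul_comm]
    congr 2
    norm_num
  have e2 : (Q / (nb * z * R) / Q₀) ^ θ =
      nb ^ (-θ) * z ^ (-θ) * R ^ (-θ) * (Q / Q₀) ^ θ := by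
    rw [show Q / (nb * z * R) / Q₀ = (Q / Q₀) / (nb * z * R) by ring,
      rpow_div' (by positivity) (by positivity), Real.mul_rpow (by positivity) hR0.le,
      Real.mul_rpow hnb.le hz.le]
    ring
  have e3 : ((P ^ m * z)⁻¹ : ℝ) ^ θ = (P ^ m) ^ (-θ) * z ^ (-θ) := by
    rw [Real.inv_rpow (by positivity), ← Real.rpow_neg (by positivity),
      Real.mul_rpow (by positivity) hz.le]
  have e4 : z ^ (-θ) * z ^ (-θ) = z⁻¹ * z ^ (-(2 * θ - 1)) := by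
    rw [← Real.rpow_add hz, ← Real.rpow_neg_one, ← Real.rpow_add hz]; congr 1; ring
  rw [e1, e2, e3]
  have h0 : 0 ≤ (H / Q₀ ^ (1 / 2 + y₀)) ^ (1 / 6 : ℝ) * (Q / Q₀) ^ θ := by positivity
  have h1 := RP_le (s₁ := θ) (s₂ := θ) hP hR (by linarith) hθ1 (by linarith)
  have h2 : 0 ≤ nd ^ (-(1 / 2) : ℝ) * nb ^ (-θ) * (z⁻¹ * z ^ (-(2 * θ - 1))) := by positivity
  calc nd ^ (-(1 / 2) : ℝ) * (H / Q₀ ^ (1 / 2 + y₀)) ^ (1 / 6 : ℝ) *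
        (nb ^ (-θ) * z ^ (-θ) * R ^ (-θ) * (Q / Q₀) ^ θ) *
        ((P ^ m) ^ (-θ) * z ^ (-θ))
      = (nd ^ (-(1 / 2) : ℝ) * nb ^ (-θ) * (z ^ (-θ) * z ^ (-θ))) *
        (R ^ (-θ) * (P ^ m) ^ (-θ)) *
        ((H / Q₀ ^ (1 / 2 + y₀)) ^ (1 / 6 : ℝ) * (Q / Q₀) ^ θ) := by ring
    _ ≤ (nd ^ (-(1 / 2) : ℝ) * nb ^ (-θ) * (z⁻¹ * z ^ (-(2 * θ - 1)))) * (3 ^ m * P⁻¹ ^ m) *
        ((H / Q₀ ^ (1 / 2 + y₀)) ^ (1 / 6 : ℝ) * (Q / Q₀) ^ θ) := by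
        rw [e4]; gcongr
    _ = _ := by ring

/-- the total weight of `b` -/
def wb (θ nb nd : ℝ) : ℝ :=
  nd ^ (-3 : ℝ) * nb ^ (-(1 / 2) : ℝ) + nd ^ (-(3 / 2) : ℝ) * nb ^ (-(3 / 4) : ℝ) +
    nd ^ (-(1 / 2) : ℝ) * nb ^ (-θ)

theorem TgB_step {η η₂ : ℝ} (hθ : 1 / 2 ≤ θ) (hθ1 : θ ≤ 1) (hQ₀ : 0 < Q₀) (hQ : 0 ≤ Q)
    (hH : 0 ≤ H) (hP : 1 ≤ P) (hnb : 0 < nb) (hz : 0 < z) (hnd : 0 < nd) (hR : (P / 3) ^ m ≤ R)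
    (hgain : Q₀ ^ (-η₂) * z ^ (-(2 * θ - 1)) ≤ Q₀ ^ (-η)) :
    TgB θ η η₂ y₀ Q₀ (Q / (nb * z * R)) (H / nd ^ 3) (Q₀ ^ y₀ / (P ^ m * z)) ≤
      3 ^ m * P⁻¹ ^ m * z⁻¹ * wb θ nb nd * TgB θ η η y₀ Q₀ Q H (Q₀ ^ y₀) := by
  have hP0 : 0 < P := by linarith
  have h1 := m1_step (y₀ := y₀) hQ₀ hQ hH hP hnb hz hnd hR
  have h2 := m2_step (y₀ := y₀) hQ₀ hQ hH hP hnb hz hnd hR
  have h3 := m3_step (y₀ := y₀) hθ hθ1 hQ₀ hQ hH hP hnb hz hnd hR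
  have hC : 0 ≤ Q₀ ^ y₀ := by positivity
  have n1 := m1_nonneg (y₀ := y₀) hQ₀.le hQ hH hC
  have n2 := m2_nonneg (y₀ := y₀) hQ₀.le hQ hH hC
  have n3 := m3_nonneg (θ := θ) (y₀ := y₀) hQ₀.le hQ hH hC
  rw [TgB_eq, TgB_eq]
  set M1 := m1 y₀ Q₀ Q H (Q₀ ^ y₀) with hM1
  set M2 := m2 y₀ Q₀ Q H (Q₀ ^ y₀) with hM2
  set M3 := m3 θ y₀ Q₀ Q H (Q₀ ^ y₀) with hM3
  have hL := LL_nonneg (θ := θ) (y₀ := y₀) hQ₀.le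
  set c : ℝ := 3 ^ m * P⁻¹ ^ m * z⁻¹ with hc
  have hc0 : 0 ≤ c := by positivity
  have w1 : 0 ≤ nd ^ (-3 : ℝ) * nb ^ (-(1 / 2) : ℝ) := by positivity
  have w2 : 0 ≤ nd ^ (-(3 / 2) : ℝ) * nb ^ (-(3 / 4) : ℝ) := by positivity
  have w3 : 0 ≤ nd ^ (-(1 / 2) : ℝ) * nb ^ (-θ) := by positivity
  have hη0 : 0 ≤ Q₀ ^ (-η) := by positivity
  have hη20 : 0 ≤ Q₀ ^ (-η₂) := by positivity
  have hw1 : nd ^ (-3 : ℝ) * nb ^ (-(1 / 2) : ℝ) ≤ wb θ nb nd := by unfold wb; linarith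
  have hw2 : nd ^ (-(3 / 2) : ℝ) * nb ^ (-(3 / 4) : ℝ) ≤ wb θ nb nd := by unfold wb; linarith
  have hw3 : nd ^ (-(1 / 2) : ℝ) * nb ^ (-θ) ≤ wb θ nb nd := by unfold wb; linarith
  have hw0 : 0 ≤ wb θ nb nd := w1.trans hw1
  have a1 : Q₀ ^ (-η) * m1 y₀ Q₀ (Q / (nb * z * R)) (H / nd ^ 3) (Q₀ ^ y₀ / (P ^ m * z)) ≤
      c * wb θ nb nd * (Q₀ ^ (-η) * M1) := by
    calc _ ≤ Q₀ ^ (-η) * (c * (nd ^ (-3 : ℝ) * nb ^ (-(1 / 2) : ℝ)) * M1) := by gcongr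
      _ ≤ Q₀ ^ (-η) * (c * wb θ nb nd * M1) := by gcongr
      _ = _ := by ring
  have a2 : Q₀ ^ (-η) * m2 y₀ Q₀ (Q / (nb * z * R)) (H / nd ^ 3) (Q₀ ^ y₀ / (P ^ m * z)) ≤
      c * wb θ nb nd * (Q₀ ^ (-η) * M2) := by
    calc _ ≤ Q₀ ^ (-η) * (c * (nd ^ (-(3 / 2) : ℝ) * nb ^ (-(3 / 4) : ℝ)) * M2) := by gcongr
      _ ≤ Q₀ ^ (-η) * (c * wb θ nb nd * M2) := by gcongr
      _ = _ := by ring
  have a3 : Q₀ ^ (-η₂) * m3 θ y₀ Q₀ (Q / (nb * z * R)) (H / nd ^ 3) (Q₀ ^ y₀ / (P ^ m * z)) ≤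
      c * wb θ nb nd * (Q₀ ^ (-η) * M3) := by
    calc _ ≤ Q₀ ^ (-η₂) * (3 ^ m * P⁻¹ ^ m * (z⁻¹ * z ^ (-(2 * θ - 1))) *
          (nd ^ (-(1 / 2) : ℝ) * nb ^ (-θ)) * M3) := by gcongr
      _ = (Q₀ ^ (-η₂) * z ^ (-(2 * θ - 1))) * (c * (nd ^ (-(1 / 2) : ℝ) * nb ^ (-θ)) * M3) := by
          rw [hc]; ring
      _ ≤ Q₀ ^ (-η) * (c * wb θ nb nd * M3) := by
          apply mul_le_mul hgain _ (by positivity) hη0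
          gcongr
      _ = _ := by ring
  calc _ = LL θ y₀ Q₀ *
        (Q₀ ^ (-η) * m1 y₀ Q₀ (Q / (nb * z * R)) (H / nd ^ 3) (Q₀ ^ y₀ / (P ^ m * z)) +
        Q₀ ^ (-η) * m2 y₀ Q₀ (Q / (nb * z * R)) (H / nd ^ 3) (Q₀ ^ y₀ / (P ^ m * z)) +
        Q₀ ^ (-η₂) * m3 θ y₀ Q₀ (Q / (nb * z * R)) (H / nd ^ 3) (Q₀ ^ y₀ / (P ^ m * z))) := by
        ring
    _ ≤ LL θ y₀ Q₀ * (c * wb θ nb nd * (Q₀ ^ (-η) * M1) + c * wb θ nb nd * (Q₀ ^ (-η) * M2) +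
        c * wb θ nb nd * (Q₀ ^ (-η) * M3)) := by gcongr
    _ = _ := by ring

end Step

/-- the gain in the third monomial -/
lemma gain_le {θ δ η Q₀ z κ : ℝ} (hθ : 7 / 8 < θ) (hδ : 0 < δ) (hη : 0 < η) (hηδ : η ≤ δ / 16)
    (hQ₀ : 1 ≤ Q₀) (hz : 1 ≤ z) (hκ : κ = δ * Real.log Q₀ - Real.log z) :
    Q₀ ^ (-(if δ / 2 * Real.log Q₀ ≤ κ then η else -η)) * z ^ (-(2 * θ - 1)) ≤ Q₀ ^ (-η) := by
  have hQ0 : 0 < Q₀ := by linarith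
  have hz0 : 0 < z := by linarith
  split_ifs with h
  · have h1 : z ^ (-(2 * θ - 1)) ≤ 1 :=
      Real.rpow_le_one_of_one_le_of_nonpos hz (by linarith)
    have h2 : 0 ≤ Q₀ ^ (-η) := by positivity
    calc Q₀ ^ (-η) * z ^ (-(2 * θ - 1)) ≤ Q₀ ^ (-η) * 1 := by gcongr
      _ = _ := mul_one _
  · push Not at h
    have hlog : 0 ≤ Real.log Q₀ := Real.log_nonneg hQ₀
    have h1 : δ / 2 * Real.log Q₀ ≤ Real.log z := by linarith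
    rw [Real.rpow_def_of_pos hQ0, Real.rpow_def_of_pos hz0, Real.rpow_def_of_pos hQ0,
      ← Real.exp_add]
    apply Real.exp_le_exp.mpr
    have h2 : Real.log z * (3 / 4) ≤ Real.log z * (2 * θ - 1) := by
      apply mul_le_mul_of_nonneg_left (by linarith)
      exact le_trans (by positivity) h1
    have h3 : η * Real.log Q₀ ≤ δ / 16 * Real.log Q₀ := by gcongr
    have h4 : 0 ≤ δ * Real.log Q₀ := by positivity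
    nlinarith

end Crest.Agent.R017.Asm986
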