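import Crest.Agent.R017.NV3_986
import Crest.Agent.R017.NSxG_545

/-!
# Row 17, section B, leaf L3b, final form, part 4: the expansion under the `k`-sum
-/

set_option autoImplicit false

noncomputable section

open scoped ComplexConjugate ContDiff

namespace Crest.Agent.R017.Asm986

open Crest.Agent.R012 Crest.Agent.R012.Eis Crest.Agent.R012.PSer47 Crest.Agent.R012.Div277
open Crest.Agent.R017.End699 Crest.Agent.R017.Sx545 Crest.Agent.R017.B770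

open Classical in
/-- expansion of the `uw` factors -/
lemma prod_uw_exp {r : ℕ} {J : Finset (Fin r)} (p : ∀ _ : J, Eis) (k : Eis)
    (hcop : ∀ i j : J, i ≠ j → IsCoprime (p i) (p j)) :
    ∏ i : J, uw k (p i) = ∑ I ∈ (Finset.univ : Finset J).powerset,
      if (∏ i ∈ I, p i) ^ 2 ∣ k then ∏ i ∈ I, (-(nm (p i) : ℂ)) else 0 := by
  have e1 : ∀ i : J, uw k (p i) = 1 + (if (p i) ^ 2 ∣ k then (-(nm (p i) : ℂ)) else 0) := by
    intro i
    unfold uw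
    split_ifs <;> ring
  simp_rw [e1]
  rw [Finset.prod_one_add]
  refine Finset.sum_congr rfl fun I _ => ?_
  by_cases h : ∀ i ∈ I, p i ^ 2 ∣ k
  · have hd : (∏ i ∈ I, p i) ^ 2 ∣ k := by
      rw [← Finset.prod_pow]
      apply Finset.prod_dvd_of_coprime
      · intro i _ j _ hij
        exact (hcop i j hij).pow
      · exact h
    rw [if_pos hd]
    exact Finset.prod_congr rfl fun i hi => if_pos (h i hi)
  · push Not at h
    obtain ⟨i, hi, hni⟩ := h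
    have hd : ¬ (∏ i ∈ I, p i) ^ 2 ∣ k := fun h' => hni (by
      rw [← Finset.prod_pow] at h'
      exact (Finset.dvd_prod_of_mem (fun i => p i ^ 2) hi).trans h')
    rw [if_neg hd]
    exact Finset.prod_eq_zero hi (if_neg hni)

/-- the coefficients of the expansion -/
def cf (P : DPar) (r : ℕ) (y Q₀ t₁ t₂ : ℝ) {J : Finset (Fin r)} (d : Eis) (p : ∀ _ : J, Eis)
    (b a : Eis) (I : Finset J) : ℂ :=
  (twt P.ψ P.l₂ t₂ d * twt P.φ P.l₁ t₁ d) * ((muE a : ℂ) * nm a) *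
    (∏ i : J, P.h (Real.log (nm (p i)) - kap r y Q₀ i) *
      (twt P.ψ P.l₂ t₂ (p i) * twt P.φ P.l₁ t₁ (p i))) *
    (∏ i ∈ I, (-(nm (p i) : ℂ))) * twt P.ψ P.l₂ t₂ b

lemma norm_twt_le {M : Eis} {φ : Eis → ℂ} (hφ : HC M φ) (l : ℤ) (t : ℝ) {q : Eis}
    (hq : IsPrim q) : ‖twt φ l t q‖ ≤ 1 := (isChar_twt hφ l t).norm_le hq

lemma norm_muE_le (a : Eis) : ‖((muE a : ℤ) : ℂ)‖ ≤ 1 := by
  have h : |muE a| ≤ 1 := by
    rw [Mob705.abs_muE]
    split_ifs <;> norm_num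
  rw [Complex.norm_intCast]
  exact_mod_cast h

lemma norm_cf_le {P : DPar} (hP : P.OK) {r : ℕ} {y Q₀ t₁ t₂ : ℝ} {J : Finset (Fin r)} {d : Eis}
    {p : ∀ _ : J, Eis} {b a : Eis} (I : Finset J) (hd : IsPrim d) (hb : IsPrim b)
    (hp : ∀ i, IsPrim (p i)) : ‖cf P r y Q₀ t₁ t₂ d p b a I‖ ≤
      nm a * (∏ i : J, ‖P.h (Real.log (nm (p i)) - kap r y Q₀ i)‖) *
        ∏ i ∈ I, (nm (p i) : ℝ) := by
  unfold cf
  rw [norm_mul, norm_mul, norm_mul, norm_mul, norm_mul, norm_prod, norm_prod]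
  have h1 := norm_twt_le hP.ψ P.l₂ t₂ hd
  have h2 := norm_twt_le hP.φ P.l₁ t₁ hd
  have h3 := norm_twt_le hP.ψ P.l₂ t₂ hb
  have h4 : ‖((muE a : ℤ) : ℂ) * (nm a : ℂ)‖ ≤ nm a := by
    rw [norm_mul, Complex.norm_natCast]
    have := norm_muE_le a
    have h0 : (0 : ℝ) ≤ nm a := by positivity
    calc ‖((muE a : ℤ) : ℂ)‖ * (nm a : ℝ) ≤ 1 * nm a := by gcongr
      _ = _ := one_mul _
  have h5 : ∏ i : J, ‖P.h (Real.log (nm (p i)) - kap r y Q₀ i) *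
      (twt P.ψ P.l₂ t₂ (p i) * twt P.φ P.l₁ t₁ (p i))‖ ≤
      ∏ i : J, ‖P.h (Real.log (nm (p i)) - kap r y Q₀ i)‖ := by
    apply Finset.prod_le_prod (fun _ _ => norm_nonneg _)
    intro i _
    rw [norm_mul, norm_mul]
    have a1 := norm_twt_le hP.ψ P.l₂ t₂ (hp i)
    have a2 := norm_twt_le hP.φ P.l₁ t₁ (hp i)
    calc ‖P.h (Real.log (nm (p i)) - kap r y Q₀ i)‖ *
          (‖twt P.ψ P.l₂ t₂ (p i)‖ * ‖twt P.φ P.l₁ t₁ (p i)‖)
        ≤ ‖P.h (Real.log (nm (p i)) - kap r y Q₀ i)‖ * (1 * 1) := by gcongr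
      _ = _ := by ring
  have h6 : ∏ i ∈ I, ‖(-(nm (p i) : ℂ))‖ = ∏ i ∈ I, (nm (p i) : ℝ) :=
    Finset.prod_congr rfl fun i _ => by rw [norm_neg, Complex.norm_natCast]
  rw [h6]
  have h7 : 0 ≤ ∏ i : J, ‖P.h (Real.log (nm (p i)) - kap r y Q₀ i)‖ :=
    Finset.prod_nonneg fun _ _ => norm_nonneg _
  have h8 : 0 ≤ ∏ i ∈ I, (nm (p i) : ℝ) := Finset.prod_nonneg fun _ _ => by positivity
  have h9 : (0 : ℝ) ≤ nm a := by positivity
  set A₁ := ‖twt P.ψ P.l₂ t₂ d‖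
  set A₂ := ‖twt P.φ P.l₁ t₁ d‖
  set A₃ := ‖((muE a : ℤ) : ℂ) * (nm a : ℂ)‖
  set A₄ := ∏ i : J, ‖P.h (Real.log (nm (p i)) - kap r y Q₀ i) *
          (twt P.ψ P.l₂ t₂ (p i) * twt P.φ P.l₁ t₁ (p i))‖
  set A₅ := ∏ i ∈ I, (nm (p i) : ℝ)
  set A₆ := ‖twt P.ψ P.l₂ t₂ b‖
  set A₇ := ∏ i : J, ‖P.h (Real.log (nm (p i)) - kap r y Q₀ i)‖
  have g1 : 0 ≤ A₁ := norm_nonneg _
  have g2 : 0 ≤ A₂ := norm_nonneg _
  have g3 : 0 ≤ A₃ := norm_nonneg _
  have g4 : 0 ≤ A₄ := Finset.prod_nonneg fun _ _ => norm_nonneg _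
  have g6 : 0 ≤ A₆ := norm_nonneg _
  have i1 : A₁ * A₂ ≤ 1 := mul_le_one₀ h1 g2 h2
  have i2 : A₁ * A₂ * A₃ ≤ nm a := by
    calc A₁ * A₂ * A₃ ≤ 1 * A₃ := mul_le_mul_of_nonneg_right i1 g3
      _ ≤ nm a := by rw [one_mul]; exact h4
  have i3 : A₁ * A₂ * A₃ * A₄ ≤ nm a * A₇ := mul_le_mul i2 h5 g4 h9
  have i4 : A₁ * A₂ * A₃ * A₄ * A₅ ≤ nm a * A₇ * A₅ := mul_le_mul_of_nonneg_right i3 h8
  calc A₁ * A₂ * A₃ * A₄ * A₅ * A₆ ≤ nm a * A₇ * A₅ * 1 :=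
        mul_le_mul i4 h3 g6 (mul_nonneg (mul_nonneg h9 h7) h8)
    _ = _ := mul_one _

open Classical in
/-- the condition on `b, d, p` -/
def cnd (P : DPar) (r : ℕ) (y Q₀ : ℝ) {J : Finset (Fin r)} (d : Eis) (p : ∀ _ : J, Eis)
    (b : Eis) : Prop :=
  IsCoprime b (d * ∏ i : J, p i) ∧ ∀ i : J, P.h (Real.log (nm (p i)) - kap r y Q₀ i) ≠ 0

/-- the term attached to `(d, J', p, b, a, I)` -/
def tr6 (P : DPar) (r : ℕ) (y Q₀ κ₀ Q t₁ t₂ : ℝ) (J' : Finset (Fin r)) (d : Eis)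
    (p : ∀ _ : J', Eis) (b a : Eis) (I : Finset J') (k : Eis) : ℂ :=
  trm P r y Q₀ (κ₀ - Real.log (nm d)) (Finset.univ \ J')
    (Q / (nm b * (nm d * nm (∏ i : J', p i)))) (d * b) (b * (d * ∏ i : J', p i))
    (a * ∏ i ∈ I, p i) b t₁ t₂ k

lemma small_cop {P : DPar} (hP : P.OK) {r : ℕ} {y Q₀ : ℝ} (hQ₀ : 0 < Q₀) {i : Fin r} {q a : Eis}
    (hq : Mob705.IsPP q) (h0 : P.h (Real.log (nm q) - kap r y Q₀ i) ≠ 0) (ha : a ≠ 0)
    (haP : (nm a : ℝ) < Q₀ ^ (y / r) / 3) : IsCoprime q a := by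
  refine (hq.prime.coprime_iff_not_dvd.mpr fun hdvd => ?_)
  have h1 := (range_of_ne' hP.h hQ₀ i hq.ne_zero h0).1
  have h2 : nm q ≤ nm a := nm_le_of_dvd ha hdvd
  have h3 : (nm q : ℝ) ≤ nm a := by exact_mod_cast h2
  linarith

open Classical in
/-- pointwise expansion -/
theorem pt_exp {P : DPar} (hP : P.OK) {r : ℕ} {y Q₀ κ₀ Q β t₁ t₂ : ℝ} (hr : 0 < r) (hy : 0 < y)
    (hQ₀ : 1 ≤ Q₀) (hκ₀ : 0 ≤ κ₀) (hQ : 0 < Q) (hMQ : (nm P.n : ℝ) * Real.exp κ₀ * 9 < Q₀ ^ (y / r))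
    (hβ : ∀ x, P.V x ≠ 0 → 0 < x ∧ x ≤ β) (hβ0 : 0 ≤ β) {k : Eis} (hk : k ≠ 0) :
    NSumS P.h₀ P.h r y Q₀ κ₀ Finset.univ P.n (twt P.ψ P.l₂ t₂) (twt P.φ P.l₁ t₁) P.V Q k =
      ∑ d ∈ sqS P.n κ₀, ∑ J' ∈ (Finset.univ : Finset (Fin r)).powerset, ∑ p ∈ tup r y Q₀ J',
        ∑ b ∈ Bf P.n (β * Q), ∑ a ∈ dvs d, ∑ I ∈ (Finset.univ : Finset J').powerset,
          if cnd P r y Q₀ d p b then
            cf P r y Q₀ t₁ t₂ d p b a I * tr6 P r y Q₀ κ₀ Q t₁ t₂ J' d p b a I k else 0 := by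
  have hn0 := hP.φ.q0
  have hn1 := one_le_nmR hn0
  have h2n : (2 : Eis) ∣ P.n := (Dvd.intro 18 (by norm_num)).trans hP.n36
  have h3n : (3 : Eis) ∣ P.n := hP.φ.three
  have hQ₀0 : 0 < Q₀ := by linarith
  rw [NSx545.nsExp2' P.h₀ P.h hP.h₀ hP.h P.V hP.V P.n (twt P.ψ P.l₂ t₂) (twt P.φ P.l₁ t₁) h2n h3n
    hn0 (isChar_twt hP.ψ _ _) (isChar_twt hP.φ _ _) r y Q₀ κ₀ Q hr hy hQ₀ hκ₀ hQ hMQ
    Finset.univ k hk]
  refine Finset.sum_congr rfl fun d hd => ?_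
  rw [mem_sqS] at hd
  obtain ⟨⟨⟨hd1, hdp⟩, hdsq⟩, hdM⟩ := hd
  -- `d` is small
  have hdP : (nm d : ℝ) < Q₀ ^ (y / r) / 3 := by
    rw [Real.exp_add] at hd1
    have h3 := exp_one_lt_three
    have h4 : 0 < Real.exp κ₀ := Real.exp_pos _
    have h5 : Real.exp κ₀ * 9 ≤ nm P.n * Real.exp κ₀ * 9 := by nlinarith
    nlinarith
  rw [Finset.mul_sum]
  refine Finset.sum_congr rfl fun J' _ => ?_
  rw [Finset.mul_sum]
  refine Finset.sum_congr rfl fun p hp => ?_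
  have hpp : ∀ i : J', Mob705.IsPP (p i) := isPP_of_mem_tup hp
  have hprod0 : (∏ i : J', p i) ≠ 0 := Finset.prod_ne_zero_iff.mpr fun i _ => (hpp i).ne_zero
  by_cases hh0 : ∀ i : J', P.h (Real.log (nm (p i)) - kap r y Q₀ i) ≠ 0
  swap
  · have hz : ∀ b, ¬ cnd P r y Q₀ d p b := fun b h => hh0 h.2
    rw [Finset.sum_eq_zero fun b _ => Finset.sum_eq_zero fun a _ => Finset.sum_eq_zero fun I _ =>
      if_neg (hz b)]
    push Not at hh0
    obtain ⟨i, hi⟩ := hh0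
    rw [Finset.prod_eq_zero (Finset.mem_univ i) (by rw [hi]; ring)]
    ring
  have hcop : ∀ i j : J', i ≠ j → IsCoprime (p i) (p j) := fun i j hij =>
    coprime_of_ne hP.h (fun h' => hij (Subtype.ext h')) (hpp i) (hpp j) (hh0 i) (hh0 j)
  -- the `b`-sum
  set G : Eis → ℂ := fun b =>
    (AS P.h₀ (κ₀ - Real.log (nm d)) (fun q => twt P.φ P.l₁ t₁ q * prin0 (d * b) q *
        conj (sy k q)) *
      Amp P.h r y Q₀ (Finset.univ \ J') (fun q => twt P.φ P.l₁ t₁ q * prin0 (d * b) q *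
        conj (sy k q))) *
      MV P.V (Q / (nm b * (nm d * nm (∏ i : J', p i))))
        (fun q => twt P.ψ P.l₂ t₂ q * prin0 (b * (d * ∏ i : J', p i)) q * sy k q) with hG
  have hb : (∑' b : Eis, if Sm P.n b ∧ Pf b ∧ IsCoprime b (d * ∏ i : J', p i) then
      twt P.ψ P.l₂ t₂ b * tk k b 1 *
        (AS P.h₀ (κ₀ - Real.log (nm d))
          (fun q => twt P.φ P.l₁ t₁ q * prin0 (P.n * (d * b)) q * conj (sy k q)) *
        Amp P.h r y Q₀ (Finset.univ \ J') (fun q => twt P.φ P.l₁ t₁ q * prin0 b q *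
          conj (sy k q)) *
        MV P.V (Q / (nm b * (nm d * nm (∏ i : J', p i))))
          (fun q => twt P.ψ P.l₂ t₂ q * prin0 (P.n * (b * (d * ∏ i : J', p i))) q * sy k q))
      else 0) = ∑ b ∈ Bf P.n (β * Q), if cnd P r y Q₀ d p b then
        twt P.ψ P.l₂ t₂ b * (tk k b 1 * G b) else 0 := by
    rw [tsum_eq_sum (s := Bf P.n (β * Q))]
    · refine Finset.sum_congr rfl fun b hbB => ?_
      rw [mem_Bf (by positivity)] at hbB
      obtain ⟨⟨hb1, hb2⟩, hb3, hb4⟩ := hbB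
      by_cases hc : IsCoprime b (d * ∏ i : J', p i)
      · rw [if_pos ⟨hb3, hb4, hc⟩, if_pos ⟨hc, hh0⟩]
        have a1 : AS P.h₀ (κ₀ - Real.log (nm d))
            (fun q => twt P.φ P.l₁ t₁ q * prin0 (P.n * (d * b)) q * conj (sy k q)) =
            AS P.h₀ (κ₀ - Real.log (nm d))
            (fun q => twt P.φ P.l₁ t₁ q * prin0 (d * b) q * conj (sy k q)) :=
          AS_congr fun q hq => by rw [← twt_prin0 hP.φ _ _ _ hq]
        have a2 := amp_prin0 (h := P.h) hP.h hQ₀0 (J := Finset.univ \ J')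
          (g := twt P.φ P.l₁ t₁) (F := fun q => conj (sy k q)) (b := b) hdp hdP
        have a3 : MV P.V (Q / (nm b * (nm d * nm (∏ i : J', p i))))
            (fun q => twt P.ψ P.l₂ t₂ q * prin0 (P.n * (b * (d * ∏ i : J', p i))) q * sy k q) =
            MV P.V (Q / (nm b * (nm d * nm (∏ i : J', p i))))
            (fun q => twt P.ψ P.l₂ t₂ q * prin0 (b * (d * ∏ i : J', p i)) q * sy k q) :=
          MV_congr fun q hq => by rw [← twt_prin0 hP.ψ _ _ _ hq]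
        rw [a1, a2, a3, hG]
        ring
      · rw [if_neg fun h => hc h.2.2, if_neg fun h => hc h.1]
    · intro b hbB
      split_ifs with hc
      · have hbp : IsPrim b := hc.1.prim
        have hb0 : b ≠ 0 := hbp.ne_zero
        have hb1 := one_le_nmR hb0
        have hc1 := one_le_nmR hprod0
        have hd1' := one_le_nmR hdp.ne_zero
        have hgt : β * Q < nm b := by
          by_contra hle
          push Not at hle
          exact hbB ((mem_Bf (by positivity)).mpr ⟨⟨hle, hbp⟩, hc.1, hc.2.1⟩)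
        have hz := MV_eq_zero (Q := Q / (nm b * (nm d * nm (∏ i : J', p i)))) hβ (by positivity) (by
          rw [mul_div_assoc', div_lt_one (by positivity)]
          have : (1 : ℝ) ≤ nm d * nm (∏ i : J', p i) := one_le_mul_of_one_le_of_one_le hd1' hc1
          nlinarith)
          (fun q => twt P.ψ P.l₂ t₂ q * prin0 (P.n * (b * (d * ∏ i : J', p i))) q * sy k q)
        rw [hz]; ring
      · rfl
  rw [hb, Finset.mul_sum, Finset.mul_sum]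
  refine Finset.sum_congr rfl fun b _ => ?_
  by_cases hc : cnd P r y Q₀ d p b
  swap
  · rw [if_neg hc, Finset.sum_eq_zero fun a _ => Finset.sum_eq_zero fun I _ => if_neg hc]
    ring
  rw [if_pos hc]
  have e1 : ∏ i : J', (P.h (Real.log (nm (p i)) - kap r y Q₀ i) *
      (twt P.ψ P.l₂ t₂ (p i) * twt P.φ P.l₁ t₁ (p i)) * uw k (p i)) =
      (∏ i : J', P.h (Real.log (nm (p i)) - kap r y Q₀ i) *
      (twt P.ψ P.l₂ t₂ (p i) * twt P.φ P.l₁ t₁ (p i))) * ∏ i : J', uw k (p i) :=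
    Finset.prod_mul_distrib
  rw [e1, prod_uw_exp p k hcop]
  unfold uwd
  -- both sides as double sums
  have e2 : ∀ a ∈ dvs d, ∀ I ∈ (Finset.univ : Finset J').powerset,
      (if cnd P r y Q₀ d p b then
            cf P r y Q₀ t₁ t₂ d p b a I * tr6 P r y Q₀ κ₀ Q t₁ t₂ J' d p b a I k else 0) =
      (twt P.ψ P.l₂ t₂ d * twt P.φ P.l₁ t₁ d) *
        (if a ^ 2 ∣ k then ((muE a : ℤ) : ℂ) * nm a else 0) *
        ((∏ i : J', P.h (Real.log (nm (p i)) - kap r y Q₀ i) *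
          (twt P.ψ P.l₂ t₂ (p i) * twt P.φ P.l₁ t₁ (p i))) *
          (if (∏ i ∈ I, p i) ^ 2 ∣ k then ∏ i ∈ I, (-(nm (p i) : ℂ)) else 0)) *
        (twt P.ψ P.l₂ t₂ b * (tk k b 1 * G b)) := by
    intro a ha I _
    rw [if_pos hc]
    have had : a ∣ d := dvd_of_mem_dvs ha
    have hap : IsPrim a := isPrim_of_mem_dvs ha
    have haP : (nm a : ℝ) < Q₀ ^ (y / r) / 3 := by
      have : (nm a : ℝ) ≤ nm d := by exact_mod_cast nm_le_of_dvd hdp.ne_zero had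
      linarith
    have hcop2 : IsCoprime (a ^ 2) ((∏ i ∈ I, p i) ^ 2) := by
      apply IsCoprime.pow
      apply IsCoprime.prod_right
      intro i _
      exact (small_cop hP hQ₀0 (hpp i) (hh0 i) hap.ne_zero haP).symm
    unfold tr6 trm cf
    rw [mul_pow]
    by_cases h1 : a ^ 2 ∣ k
    · by_cases h2 : (∏ i ∈ I, p i) ^ 2 ∣ k
      · rw [if_pos h1, if_pos h2, if_pos (hcop2.mul_dvd h1 h2), hG]
        ring
      · rw [if_neg h2, if_neg fun h => h2 ((Dvd.intro_left _ rfl).trans h)]; ring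
    · rw [if_neg h1, if_neg fun h => h1 ((Dvd.intro _ rfl).trans h)]; ring
  rw [Finset.sum_congr rfl fun a ha => Finset.sum_congr rfl fun I hI => e2 a ha I hI]
  rw [Finset.mul_sum, Finset.mul_sum, ← mul_assoc, Finset.sum_mul_sum, Finset.sum_mul]
  refine Finset.sum_congr rfl fun a _ => ?_
  rw [Finset.sum_mul]

end Crest.Agent.R017.Asm986
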