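import Crest.Agent.R017.NV4_986

/-!
# Row 17, section B, leaf L3b, final form, part 5: the sum over one fiber
-/

set_option autoImplicit false

noncomputable section

open scoped ComplexConjugate ContDiff

namespace Crest.Agent.R017.Asm986

open Crest.Agent.R012 Crest.Agent.R012.Eis Crest.Agent.R012.PSer47 Crest.Agent.R012.Div277
open Crest.Agent.R017.End699 Crest.Agent.R017.Sx545 Crest.Agent.R017.B770

/-- the statement of `dout3_idx` with its constants -/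
def DIdx (θ : ℝ) (r : ℕ) (y δ η : ℝ) (P : DPar) (ε C₁ C A : ℝ) : Prop :=
  ∀ (Q₀ Q : ℝ), 0 < Q → Q ≤ Q₀ → 2 ≤ Q₀ → ∀ κ : ℝ, -1 ≤ κ → κ ≤ δ * Real.log Q₀ →
    ∀ (J : Finset (Fin r)) (H : ℝ), 0 < H → H ≤ Q₀ ^ (1 / 2 + (y + δ) + η) →
    ∀ d₁ d₂ d₃ e : Eis, d₁ ≠ 0 → d₂ ≠ 0 → d₃ ≠ 0 → Sm P.n e →
      (∀ p : Eis, Prime p → p ∣ e → p ^ 5 ∣ e) →
      Q * nm e ≤ C₁ * Q₀ * (CJ r y Q₀ J * Real.exp κ / Q₀ ^ (y + δ)) →
    ∀ (t₁ t₂ τ : ℝ) (ι : Type) (S : Finset ι) (D : ι → Eis), Set.InjOn D S →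
      (∀ i ∈ S, Sm P.n (D i) ∧ Squarefree (D i)) → ∀ kp qp : ι → ℝ,
      (∀ i ∈ S, κ - C₁ ≤ kp i ∧ kp i ≤ κ) →
      (∀ i ∈ S, 0 < qp i ∧ Q * Real.exp (-C₁) ≤ qp i ∧ qp i ≤ Q) →
      ∑ i ∈ S, ‖P.ds r y Q₀ (kp i) J (qp i) H d₁ d₂ d₃ e t₁ t₂ τ (D i)‖ ≤
        C * ((nm d₁ : ℝ) * nm d₂ * nm d₃ * nm e * Q₀) ^ ε * (1 + |t₁| + |t₂| + |τ|) ^ A *
          TgB θ η (if δ / 2 * Real.log Q₀ ≤ κ then η else -η) (y + δ) Q₀ Q H
            (CJ r y Q₀ J * Real.exp κ)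

/-- the index type of the outer sum: `((d, a), p)` -/
abbrev Ix {r : ℕ} (J' : Finset (Fin r)) : Type := (Eis × Eis) × (∀ _ : J', Eis)

/-- the squarefree `q` with `q² ∣ k` -/
def Dx {r : ℕ} {J' : Finset (Fin r)} (I : Finset J') (x : Ix J') : Eis :=
  x.1.2 * ∏ i ∈ I, x.2 i

/-- the fiber over `(a', n, q)` -/
structure Fib (P : DPar) (r : ℕ) (y Q₀ κ₀ : ℝ) {J' : Finset (Fin r)} (I : Finset J') (b a' : Eis)
    (n : ℕ) (q : ∀ _ : J', Eis) (x : Ix J') : Prop where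
  d_le : (nm x.1.1 : ℝ) ≤ Real.exp (κ₀ + 1)
  d_prim : IsPrim x.1.1
  d_sqf : Squarefree x.1.1
  d_cop : IsCoprime x.1.1 P.n
  a_prim : IsPrim x.1.2
  eq : x.1.2 * a' = x.1.1
  lo : 2 ^ n ≤ nm x.1.2
  hi : nm x.1.2 < 2 ^ (n + 1)
  p_tup : x.2 ∈ tup r y Q₀ J'
  h_ne : ∀ i : J', P.h (Real.log (nm (x.2 i)) - kap r y Q₀ i) ≠ 0
  b_cop : IsCoprime b (x.1.1 * ∏ i : J', x.2 i)
  q_eq : ∀ i : J', i ∉ I → x.2 i = q i

section Fib

variable {P : DPar} {r : ℕ} {y Q₀ κ₀ : ℝ} {J' : Finset (Fin r)} {I : Finset J'} {b a' : Eis}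
  {n : ℕ} {q : ∀ _ : J', Eis} {x x' : Ix J'}

lemma Fib.pp (hx : Fib P r y Q₀ κ₀ I b a' n q x) (i : J') : Mob705.IsPP (x.2 i) :=
  isPP_of_mem_tup hx.p_tup i

lemma Fib.a_dvd (hx : Fib P r y Q₀ κ₀ I b a' n q x) : x.1.2 ∣ x.1.1 := Dvd.intro _ hx.eq

lemma Fib.a_small (hx : Fib P r y Q₀ κ₀ I b a' n q x)
    (hMQ : (nm P.n : ℝ) * Real.exp κ₀ * 9 < Q₀ ^ (y / r)) (hn : P.n ≠ 0) :
    (nm x.1.2 : ℝ) < Q₀ ^ (y / r) / 3 := by
  have hn1 := one_le_nmR hn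
  have h1 := hx.d_le
  have h2 : (nm x.1.2 : ℝ) ≤ nm x.1.1 := by
    exact_mod_cast nm_le_of_dvd hx.d_prim.ne_zero hx.a_dvd
  rw [Real.exp_add] at h1
  have h3 := exp_one_lt_three
  have h4 : 0 < Real.exp κ₀ := Real.exp_pos _
  have h5 : Real.exp κ₀ * 9 ≤ nm P.n * Real.exp κ₀ * 9 := by nlinarith
  nlinarith

lemma Fib.n_small (hMQ : (nm P.n : ℝ) * Real.exp κ₀ * 9 < Q₀ ^ (y / r)) (hκ₀ : 0 ≤ κ₀) :
    (nm P.n : ℝ) < Q₀ ^ (y / r) / 3 := by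
  have h4 : 1 ≤ Real.exp κ₀ := Real.one_le_exp hκ₀
  have h5 : (0 : ℝ) ≤ nm P.n := by positivity
  nlinarith

lemma Fib.cop (hx : Fib P r y Q₀ κ₀ I b a' n q x) (hP : P.OK) {i j : J'} (hij : i ≠ j) :
    IsCoprime (x.2 i) (x.2 j) :=
  coprime_of_ne hP.h (fun h' => hij (Subtype.ext h')) (hx.pp i) (hx.pp j) (hx.h_ne i) (hx.h_ne j)

/-- injectivity of `Dx` on the fiber -/
lemma Fib.inj (hP : P.OK) (hQ₀ : 0 < Q₀)
    (hMQ : (nm P.n : ℝ) * Real.exp κ₀ * 9 < Q₀ ^ (y / r))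
    (hx : Fib P r y Q₀ κ₀ I b a' n q x) (hx' : Fib P r y Q₀ κ₀ I b a' n q x')
    (h : Dx I x = Dx I x') : x = x' := by
  unfold Dx at h
  have hn := hP.φ.q0
  have hp : ∀ i : J', x.2 i = x'.2 i := by
    intro i
    by_cases hi : i ∈ I
    · by_contra hne
      have h1 : x.2 i ∣ x'.1.2 * ∏ j ∈ I, x'.2 j := by
        rw [← h]
        exact (Finset.dvd_prod_of_mem x.2 hi).trans (Dvd.intro_left _ rfl)
      rcases (hx.pp i).prime.dvd_or_dvd h1 with h2 | h2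
      · have h3 := small_cop hP hQ₀ (hx.pp i) (hx.h_ne i) hx'.a_prim.ne_zero (hx'.a_small hMQ hn)
        exact (hx.pp i).prime.not_isUnit (h3.isUnit_of_dvd' dvd_rfl h2)
      · obtain ⟨j, hj, hdj⟩ := (hx.pp i).prime.exists_mem_finset_dvd h2
        by_cases hij : i = j
        · subst hij
          exact hne ((hx.pp i).eq_of_dvd (hx'.pp i) hdj)
        · have h3 := coprime_of_ne hP.h (fun h' => hij (Subtype.ext h')) (hx.pp i) (hx'.pp j)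
            (hx.h_ne i) (hx'.h_ne j)
          exact (hx.pp i).prime.not_isUnit (h3.isUnit_of_dvd' dvd_rfl hdj)
    · rw [hx.q_eq i hi, hx'.q_eq i hi]
  have hp' : x.2 = x'.2 := funext hp
  rw [hp'] at h
  have hprod : (∏ i ∈ I, x'.2 i) ≠ 0 :=
    Finset.prod_ne_zero_iff.mpr fun i _ => (hx'.pp i).ne_zero
  have ha : x.1.2 = x'.1.2 := mul_right_cancel₀ hprod h
  have hd : x.1.1 = x'.1.1 := by rw [← hx.eq, ← hx'.eq, ha]
  exact Prod.ext (Prod.ext hd ha) hp'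

lemma Fib.sm (hP : P.OK) (hQ₀ : 0 < Q₀) (hκ₀ : 0 ≤ κ₀)
    (hMQ : (nm P.n : ℝ) * Real.exp κ₀ * 9 < Q₀ ^ (y / r))
    (hx : Fib P r y Q₀ κ₀ I b a' n q x) : Sm P.n (Dx I x) ∧ Squarefree (Dx I x) := by
  have hn := hP.φ.q0
  have hpi : ∀ i : J', IsCoprime (x.2 i) P.n := fun i =>
    small_cop hP hQ₀ (hx.pp i) (hx.h_ne i) hn (Fib.n_small hMQ hκ₀)
  have hprim : IsPrim (∏ i ∈ I, x.2 i) :=
    Finset.prod_induction _ _ (fun _ _ h1 h2 => h1.mul h2) isPrim_one fun i _ => (hx.pp i).1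
  have hcop : IsCoprime (∏ i ∈ I, x.2 i) P.n := IsCoprime.prod_left fun i _ => hpi i
  have ha : Sm P.n x.1.2 := ⟨hx.a_prim, hx.d_cop.of_isCoprime_of_dvd_left hx.a_dvd⟩
  refine ⟨ha.mul ⟨hprim, hcop⟩, ?_⟩
  unfold Dx
  rw [squarefree_mul_iff]
  refine ⟨?_, hx.d_sqf.squarefree_of_dvd hx.a_dvd, ?_⟩
  · apply IsCoprime.isRelPrime
    apply IsCoprime.prod_right
    intro i _
    exact (small_cop hP hQ₀ (hx.pp i) (hx.h_ne i) hx.a_prim.ne_zero (hx.a_small hMQ hn)).symm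
  · apply Finset.squarefree_prod_of_pairwise_isCoprime
    · intro i _ j _ hij
      exact (hx.cop hP hij).isRelPrime
    · intro i _
      exact (hx.pp i).prime.squarefree

/-- splitting of the product over `J'` -/
lemma prod_split (I : Finset J') (p : ∀ _ : J', Eis) (F : Eis → J' → ℝ) :
    ∏ i : J', F (p i) i = (∏ i ∈ I, F (p i) i) * ∏ i ∈ Finset.univ \ I, F (p i) i := by
  classical
  rw [mul_comm, Finset.prod_sdiff (Finset.subset_univ I)]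

end Fib

/-- the product of the weights `h` outside `I` -/
def hq (P : DPar) (r : ℕ) (y Q₀ : ℝ) {J' : Finset (Fin r)} (I : Finset J') (q : ∀ _ : J', Eis) :
    ℝ := ∏ i ∈ Finset.univ \ I, ‖P.h (Real.log (nm (q i)) - kap r y Q₀ i)‖

lemma hq_nonneg (P : DPar) (r : ℕ) (y Q₀ : ℝ) {J' : Finset (Fin r)} (I : Finset J')
    (q : ∀ _ : J', Eis) : 0 ≤ hq P r y Q₀ I q := Finset.prod_nonneg fun _ _ => norm_nonneg _

lemma CJ_key {r : ℕ} {y δ Q₀ z : ℝ} (hr : 0 < r) (hQ₀ : 0 < Q₀) (hz : 0 < z)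
    (J' : Finset (Fin r)) :
    CJ r y Q₀ (Finset.univ \ J') * Real.exp (δ * Real.log Q₀ - Real.log z) =
      Q₀ ^ (y + δ) / ((Q₀ ^ (y / r)) ^ J'.card * z) := by
  have hr' : (r : ℝ) ≠ 0 := by exact_mod_cast hr.ne'
  rw [CJ_sdiff hQ₀ (Finset.subset_univ J'), Real.exp_sub, Real.exp_log hz, Real.rpow_add hQ₀]
  have e1 : CJ r y Q₀ Finset.univ = Q₀ ^ y := by
    unfold CJ
    rw [Finset.card_univ, Fintype.card_fin]
    congr 1
    field_simp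
  have e2 : Real.exp (δ * Real.log Q₀) = Q₀ ^ δ := by
    rw [Real.rpow_def_of_pos hQ₀, mul_comm]
  rw [e1, e2]
  field_simp

/-- bounds for the lengths -/
lemma len_bounds {nb D₁ z Nq X Pin Y ex Q : ℝ} (hnb : 0 < nb) (hz : 0 < z) (hNq : 0 < Nq)
    (hX : 0 < X) (hXP : X ≤ Pin) (hPY : Pin ≤ Y) (hzD : z ≤ D₁) (hDz : D₁ ≤ 2 * z)
    (hY : 2 * Y ≤ ex * X) (hex : 0 < ex) (hQ : 0 < Q) :
    0 < Q / (nb * (D₁ * (Pin * Nq))) ∧
      Q / (nb * z * (Nq * X)) * ex⁻¹ ≤ Q / (nb * (D₁ * (Pin * Nq))) ∧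
      Q / (nb * (D₁ * (Pin * Nq))) ≤ Q / (nb * z * (Nq * X)) := by
  have hPin : 0 < Pin := lt_of_lt_of_le hX hXP
  have hD₁ : 0 < D₁ := lt_of_lt_of_le hz hzD
  refine ⟨by positivity, ?_, ?_⟩
  · rw [div_mul_eq_mul_div, div_le_div_iff₀ (by positivity) (by positivity)]
    have h1 : D₁ * (Pin * Nq) ≤ ex * (z * (Nq * X)) := by
      calc D₁ * (Pin * Nq) ≤ (2 * z) * (Y * Nq) := by gcongr
        _ = (2 * Y) * (z * Nq) := by ring
        _ ≤ (ex * X) * (z * Nq) := by gcongr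
        _ = _ := by ring
    calc Q * ex⁻¹ * (nb * (D₁ * (Pin * Nq))) ≤ Q * ex⁻¹ * (nb * (ex * (z * (Nq * X)))) := by
          gcongr
      _ = Q * (nb * z * (Nq * X)) := by field_simp
  · rw [div_le_div_iff₀ (by positivity) (by positivity)]
    calc Q * (nb * (D₁ * (Pin * Nq))) ≥ Q * (nb * (z * (X * Nq))) := by gcongr
      _ = Q * (nb * z * (Nq * X)) := by ring

/-- the hypothesis on `Q nm e` -/
lemma qe_bound {nb ne z R Pp Q Q₀ C₁ : ℝ} {m : ℕ} (hnb : 0 < nb) (hne : ne ≤ nb) (hz : 0 < z)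
    (hPp : 0 < Pp) (hR : (Pp / 3) ^ m ≤ R) (hQ : 0 < Q) (hQ₀ : Q ≤ Q₀) (hC₁ : 3 ^ m ≤ C₁) :
    Q / (nb * z * R) * ne ≤ C₁ * Q₀ * (Pp ^ m * z)⁻¹ := by
  have hX : 0 < (Pp / 3) ^ m := by positivity
  have hR0 : 0 < R := lt_of_lt_of_le hX hR
  have hQ₀0 : 0 < Q₀ := by linarith
  have h1 : Q / (nb * z * R) * ne ≤ Q / (z * R) := by
    rw [div_mul_eq_mul_div, div_le_div_iff₀ (by positivity) (by positivity)]
    calc Q * ne * (z * R) ≤ Q * nb * (z * R) := by gcongr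
      _ = Q * (nb * z * R) := by ring
  have h2 : Q / (z * R) ≤ Q₀ / (z * (Pp / 3) ^ m) := by gcongr
  have h3 : Q₀ / (z * (Pp / 3) ^ m) = 3 ^ m * Q₀ * (Pp ^ m * z)⁻¹ := by
    rw [div_pow]; field_simp
  calc Q / (nb * z * R) * ne ≤ 3 ^ m * Q₀ * (Pp ^ m * z)⁻¹ := by rw [← h3]; exact h1.trans h2
    _ ≤ C₁ * Q₀ * (Pp ^ m * z)⁻¹ := by gcongr

/-- the conductors -/
lemma cond_bound {na nb nq nt ne Q₀ β Er ε' : ℝ} (hna : 0 ≤ na) (hnb : 0 ≤ nb) (hnq : 0 ≤ nq)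
    (hnt : 0 ≤ nt) (hne : 0 ≤ ne) (hQ₀ : 0 ≤ Q₀) (hβ : 0 ≤ β) (hEr : 0 ≤ Er) (hε' : 0 ≤ ε')
    (h1 : na ≤ 3 * Q₀) (h2 : nb ≤ β * Q₀) (h3 : nq ≤ Er * Q₀) (h4 : nt ≤ nb) (h5 : ne ≤ nb) :
    (na * nb * (nb * (na * nq)) * nt * ne * Q₀) ^ ε' ≤ ((9 * β ^ 4 * Er) * Q₀ ^ 8) ^ ε' := by
  apply Real.rpow_le_rpow (by positivity) _ hε'
  have h6 : nt ≤ β * Q₀ := h4.trans h2
  have h7 : ne ≤ β * Q₀ := h5.trans h2
  calc na * nb * (nb * (na * nq)) * nt * ne * Q₀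
      ≤ (3 * Q₀) * (β * Q₀) * ((β * Q₀) * ((3 * Q₀) * (Er * Q₀))) * (β * Q₀) * (β * Q₀) * Q₀ := by
        gcongr
    _ = _ := by ring

set_option maxHeartbeats 1000000 in
open Classical in
/-- **the sum over one fiber** -/
theorem key_bound {P : DPar} (hP : P.OK) {θ : ℝ} {r : ℕ} {y δ η ε' C₁ C A β B E Pp : ℝ}
    (hθ : 7 / 8 < θ) (hθ1 : θ ≤ 1) (hr : 0 < r) (hy1 : y ≤ 1) (hδ : 0 < δ)
    (hδ1 : δ ≤ 1) (hη : 0 < η) (hηδ : η ≤ δ / 16) (hε' : 0 ≤ ε') (hC0 : 0 ≤ C)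
    (hE : EE' r = E) (hC₁ : C₁ = 2 * (3 * E) ^ r) (hD : DIdx θ r y δ η P ε' C₁ C A)
    (hB : ∀ u, ‖P.h u‖ ≤ B) (hB1 : 1 ≤ B) (hβ1 : 1 ≤ β) {Q₀ Q κ₀ : ℝ} (hQ₀ : 2 ≤ Q₀) (hQ : 0 < Q)
    (hQQ₀ : Q ≤ Q₀) (hκ₀ : κ₀ = δ * Real.log Q₀) (hPp : Q₀ ^ (y / r) = Pp)
    (hMQ : (nm P.n : ℝ) * Real.exp κ₀ * 9 < Pp) {H : ℝ} (hH : 0 < H)
    (hHle : H ≤ Q₀ ^ (1 / 2 + (y + δ) + η)) (t₁ t₂ τ : ℝ) {J' : Finset (Fin r)} (I : Finset J')
    {b db eb t : Eis} (hb : Sm P.n b) (hbQ : (nm b : ℝ) ≤ β * Q₀) (hdb : IsPrim db)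
    (heb : IsPrim eb) (hebb : eb ∣ b) (heb5 : ∀ p : Eis, Prime p → p ∣ eb → p ^ 5 ∣ eb)
    (ht : IsPrim t) (htb : t ∣ b) {a' : Eis} (ha' : IsPrim a') (n : ℕ) {q : ∀ _ : J', Eis}
    (hq1 : ∀ i ∈ I, q i = 1) (S : Finset (Ix J')) (hS : ∀ x ∈ S, Fib P r y Q₀ κ₀ I b a' n q x) :
    ∑ x ∈ S, ‖cf P r y Q₀ t₁ t₂ x.1.1 x.2 b x.1.2 I‖ *
      ‖P.ds r y Q₀ (κ₀ - Real.log (nm x.1.1)) (Finset.univ \ J')
        (Q / (nm b * (nm x.1.1 * nm (∏ i : J', x.2 i)))) (H / nm (db ^ 3)) (a' * b)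
        (b * (a' * ∏ i : J', q i)) t eb t₁ t₂ τ (Dx I x)‖ ≤
      (C * ((9 * β ^ 4 * E ^ r) * Q₀ ^ 8) ^ ε' * (1 + |t₁| + |t₂| + |τ|) ^ A) *
        (2 * (nm a' : ℝ)⁻¹ * hq P r y Q₀ I q *
          ((B * (E * Pp)) ^ I.card * (3 ^ J'.card * Pp⁻¹ ^ J'.card))) *
        wb θ (nm b) (nm db) * TgB θ η η (y + δ) Q₀ Q H (Q₀ ^ (y + δ)) := by
  have hQ₀0 : 0 < Q₀ := by linarith
  have hQ₀1 : 1 ≤ Q₀ := by linarith
  have hκ₀0 : 0 ≤ κ₀ := by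
    rw [hκ₀]
    exact mul_nonneg hδ.le (Real.log_nonneg hQ₀1)
  have hn := hP.φ.q0
  have hn1 := one_le_nmR hn
  have hE1 : 1 ≤ E := by rw [← hE]; exact one_le_EE' r
  have hMQ' : (nm P.n : ℝ) * Real.exp κ₀ * 9 < Q₀ ^ (y / r) := by rw [hPp]; exact hMQ
  have hP9 : 9 < Pp := by
    have h4 : 1 ≤ Real.exp κ₀ := Real.one_le_exp hκ₀0
    nlinarith
  have hP1 : 1 ≤ Pp := by linarith
  have hP0 : 0 < Pp := by linarith
  have hnb1 := one_le_nmR hb.ne_zero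
  have hna1 := one_le_nmR ha'.ne_zero
  have hnd1 := one_le_nmR hdb.ne_zero
  have hT0 : 0 ≤ 1 + |t₁| + |t₂| + |τ| := by positivity
  have hTg0 : 0 ≤ TgB θ η η (y + δ) Q₀ Q H (Q₀ ^ (y + δ)) :=
    TgB_nonneg hQ₀0.le hQ.le hH.le (by positivity)
  have hwb0 : 0 ≤ wb θ (nm b) (nm db) := by unfold wb; positivity
  have hhq0 := hq_nonneg P r y Q₀ I q
  have hB0 : 0 ≤ B := by linarith
  have hE0 : 0 < E := by linarith
  -- the case of the empty fiber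
  rcases S.eq_empty_or_nonempty with hSe | ⟨x₀, hx₀⟩
  · rw [hSe, Finset.sum_empty]
    positivity
  have hF₀ := hS x₀ hx₀
  obtain ⟨m, hm⟩ : ∃ m, m = J'.card := ⟨_, rfl⟩
  obtain ⟨ci, hci⟩ : ∃ ci, ci = I.card := ⟨_, rfl⟩
  obtain ⟨na, hnae⟩ : ∃ na : ℝ, na = nm a' := ⟨_, rfl⟩
  obtain ⟨z, hz⟩ : ∃ z : ℝ, z = na * 2 ^ n := ⟨_, rfl⟩
  rw [← hnae] at hna1
  have h2n : (1 : ℝ) ≤ 2 ^ n := one_le_pow₀ one_le_two
  have hz1 : 1 ≤ z := by rw [hz]; exact one_le_mul_of_one_le_of_one_le hna1 h2n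
  have hz0 : 0 < z := by linarith
  have hcardI : ci ≤ m := by
    rw [hci, hm]
    calc I.card ≤ (Finset.univ : Finset J').card := Finset.card_le_univ _
      _ = J'.card := by rw [Finset.card_univ, Fintype.card_coe]
  have hmr : m ≤ r := by
    rw [hm]
    calc J'.card ≤ (Finset.univ : Finset (Fin r)).card := Finset.card_le_univ _
      _ = r := by simp
  -- ranges of the primes
  have hrange : ∀ x ∈ S, ∀ i : J', Pp / 3 ≤ nm (x.2 i) ∧ (nm (x.2 i) : ℝ) ≤ E * Pp := by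
    intro x hx i
    have h1 := (hS x hx).h_ne i
    have h2 := ((hS x hx).pp i).ne_zero
    have h3 := range_of_ne' (r := r) (y := y) hP.h hQ₀0 (i : Fin r) h2 h1
    rw [hPp, hE] at h3
    exact h3
  -- the products
  obtain ⟨Nq, hNq⟩ : ∃ Nq : ℝ, Nq = nm (∏ i : J', q i) := ⟨_, rfl⟩
  have hprodq : ∀ x ∈ S, (nm (∏ i : J', x.2 i) : ℝ) =
      (∏ i ∈ I, (nm (x.2 i) : ℝ)) * Nq := by
    intro x hx
    rw [hNq, nm_prod, nm_prod]
    push_cast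
    have e1 := prod_split I x.2 (fun z _ => (nm z : ℝ))
    have e2 := prod_split I q (fun z _ => (nm z : ℝ))
    rw [e1, e2]
    have e3 : ∏ i ∈ I, (nm (q i) : ℝ) = 1 := Finset.prod_eq_one fun i hi => by
      rw [hq1 i hi, nm_one]; norm_num
    rw [e3, one_mul]
    congr 1
    refine Finset.prod_congr rfl fun i hi => ?_
    rw [(hS x hx).q_eq i (Finset.mem_sdiff.mp hi).2]
  have hq0 : ∀ i : J', q i ≠ 0 := by
    intro i
    by_cases hi : i ∈ I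
    · rw [hq1 i hi]; exact one_ne_zero
    · rw [← hF₀.q_eq i hi]; exact (hF₀.pp i).ne_zero
  have hprodq0 : (∏ i : J', q i) ≠ 0 := Finset.prod_ne_zero_iff.mpr fun i _ => hq0 i
  have hnq1 : 1 ≤ Nq := by rw [hNq]; exact one_le_nmR hprodq0
  have hPin : ∀ x ∈ S, (Pp / 3) ^ ci ≤ ∏ i ∈ I, (nm (x.2 i) : ℝ) ∧
      ∏ i ∈ I, (nm (x.2 i) : ℝ) ≤ (E * Pp) ^ ci := by
    intro x hx
    rw [hci]
    constructor
    · calc (Pp / 3) ^ I.card = ∏ _i ∈ I, (Pp / 3) := by rw [Finset.prod_const]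
        _ ≤ _ := Finset.prod_le_prod (fun _ _ => by positivity) fun i _ => (hrange x hx i).1
    · calc _ ≤ ∏ _i ∈ I, (E * Pp) :=
            Finset.prod_le_prod (fun _ _ => by positivity) fun i _ => (hrange x hx i).2
        _ = _ := by rw [Finset.prod_const]
  have hP3 : 1 ≤ Pp / 3 := by linarith
  have hP3i : 1 ≤ (Pp / 3) ^ ci := one_le_pow₀ hP3
  have hR1 : 1 ≤ Nq * (Pp / 3) ^ ci := one_le_mul_of_one_le_of_one_le hnq1 hP3i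
  -- lower bound for `R`
  have hRm : (Pp / 3) ^ m ≤ Nq * (Pp / 3) ^ ci := by
    have e2 := prod_split I q (fun z _ => (nm z : ℝ))
    have e3 : ∏ i ∈ I, (nm (q i) : ℝ) = 1 := Finset.prod_eq_one fun i hi => by
      rw [hq1 i hi, nm_one]; norm_num
    have e4 : Nq = ∏ i ∈ Finset.univ \ I, (nm (q i) : ℝ) := by
      rw [hNq, nm_prod]
      push_cast
      rw [e2, e3, one_mul]
    have e5 : (Pp / 3) ^ (Finset.univ \ I).card ≤ ∏ i ∈ Finset.univ \ I, (nm (q i) : ℝ) := by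
      calc (Pp / 3) ^ (Finset.univ \ I).card = ∏ _i ∈ Finset.univ \ I, (Pp / 3) := by
            rw [Finset.prod_const]
        _ ≤ _ := Finset.prod_le_prod (fun _ _ => by positivity) fun i hi => by
            rw [← hF₀.q_eq i (Finset.mem_sdiff.mp hi).2]
            exact (hrange x₀ hx₀ i).1
    have e6 : (Finset.univ \ I).card = m - ci := by
      rw [Finset.card_sdiff_of_subset (Finset.subset_univ I), Finset.card_univ, Fintype.card_coe,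
        hm, hci]
    calc (Pp / 3) ^ m = (Pp / 3) ^ (m - ci) * (Pp / 3) ^ ci := by
          rw [← pow_add]; congr 1; omega
      _ = (Pp / 3) ^ (Finset.univ \ I).card * (Pp / 3) ^ ci := by rw [e6]
      _ ≤ Nq * (Pp / 3) ^ ci := by
          apply mul_le_mul_of_nonneg_right _ (by positivity)
          rw [e4]; exact e5
  -- upper bound for `nm (∏ q)`
  have hQm : Nq ≤ E ^ r * Q₀ := by
    have e1 : ∀ i : J', (nm (q i) : ℝ) ≤ E * Pp := by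
      intro i
      by_cases hi : i ∈ I
      · rw [hq1 i hi, nm_one]
        push_cast
        nlinarith
      · rw [← hF₀.q_eq i hi]
        exact (hrange x₀ hx₀ i).2
    rw [hNq, nm_prod]
    push_cast
    calc ∏ i : J', (nm (q i) : ℝ) ≤ ∏ _i : J', (E * Pp) :=
          Finset.prod_le_prod (fun _ _ => by positivity) fun i _ => e1 i
      _ = (E * Pp) ^ m := by rw [Finset.prod_const, Finset.card_univ, Fintype.card_coe, hm]
      _ ≤ (E * Pp) ^ r := pow_le_pow_right₀ (by nlinarith) hmr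
      _ = E ^ r * Q₀ ^ y := by
          rw [mul_pow]
          congr 1
          rw [← hPp, ← Real.rpow_mul_natCast hQ₀0.le]
          congr 1
          have hr' : (r : ℝ) ≠ 0 := by exact_mod_cast hr.ne'
          field_simp
      _ ≤ E ^ r * Q₀ := by
          apply mul_le_mul_of_nonneg_left _ (by positivity)
          calc Q₀ ^ y ≤ Q₀ ^ (1 : ℝ) := Real.rpow_le_rpow_of_exponent_le hQ₀1 hy1
            _ = Q₀ := Real.rpow_one _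
  -- `a'` and `z`
  have hna : ∀ x ∈ S, (nm x.1.1 : ℝ) = nm x.1.2 * na := by
    intro x hx
    rw [← (hS x hx).eq, nm_mul, hnae]
    push_cast
    rfl
  have hlo : ∀ x ∈ S, (2 : ℝ) ^ n ≤ nm x.1.2 := fun x hx => by exact_mod_cast (hS x hx).lo
  have hhi : ∀ x ∈ S, (nm x.1.2 : ℝ) ≤ 2 * 2 ^ n := fun x hx => by
    have : (nm x.1.2 : ℝ) < 2 ^ (n + 1) := by exact_mod_cast (hS x hx).hi
    rw [pow_succ] at this
    linarith
  have hzd : ∀ x ∈ S, z ≤ nm x.1.1 ∧ (nm x.1.1 : ℝ) ≤ 2 * z := by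
    intro x hx
    rw [hna x hx, hz]
    have h1 := hlo x hx
    have h2 := hhi x hx
    have h3 : 0 ≤ na := by linarith
    constructor
    · nlinarith
    · nlinarith
  have hzle : z ≤ Real.exp (κ₀ + 1) := (hzd x₀ hx₀).1.trans hF₀.d_le
  have hexpκ : Real.exp κ₀ = Q₀ ^ δ := by
    rw [hκ₀, Real.rpow_def_of_pos hQ₀0, mul_comm]
  have ha'le : na ≤ 3 * Q₀ := by
    have h4 : Real.exp κ₀ ≤ Q₀ := by
      rw [hexpκ]
      calc Q₀ ^ δ ≤ Q₀ ^ (1 : ℝ) := Real.rpow_le_rpow_of_exponent_le hQ₀1 hδ1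
        _ = Q₀ := Real.rpow_one _
    have h3 := exp_one_lt_three
    have h5 : 0 < Real.exp 1 := Real.exp_pos _
    calc na ≤ z := by rw [hz]; exact le_mul_of_one_le_right (by linarith) h2n
      _ ≤ Real.exp (κ₀ + 1) := hzle
      _ = Real.exp κ₀ * Real.exp 1 := Real.exp_add _ _
      _ ≤ Q₀ * 3 := mul_le_mul h4 h3.le h5.le hQ₀0.le
      _ = _ := by ring
  obtain ⟨κ, hκ⟩ : ∃ κ, κ = δ * Real.log Q₀ - Real.log z := ⟨_, rfl⟩
  have hlogz : 0 ≤ Real.log z := Real.log_nonneg hz1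
  have hnb0 : (0 : ℝ) < nm b := by linarith
  have hnd0 : (0 : ℝ) < nm db := by linarith
  have hCJk := CJ_key (δ := δ) (y := y) hr hQ₀0 hz0 J'
  rw [← hκ, hPp, ← hm] at hCJk
  have hEr : 1 ≤ (3 * E) ^ r := one_le_pow₀ (by linarith)
  have h3r : (3 : ℝ) ^ m ≤ C₁ := by
    calc (3 : ℝ) ^ m ≤ 3 ^ r := pow_le_pow_right₀ (by norm_num) hmr
      _ ≤ (3 * E) ^ r := pow_le_pow_left₀ (by norm_num) (by linarith) r
      _ ≤ C₁ := by rw [hC₁]; linarith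
  -- the conductors
  have heSm : Sm P.n eb := hb.of_dvd heb hebb
  have hne_le : (nm eb : ℝ) ≤ nm b := by exact_mod_cast nm_le_of_dvd hb.ne_zero hebb
  have hnt_le : (nm t : ℝ) ≤ nm b := by exact_mod_cast nm_le_of_dvd hb.ne_zero htb
  have hdb3 : (nm (db ^ 3) : ℝ) = (nm db : ℝ) ^ 3 := by rw [nm_pow]; push_cast; rfl
  have hH' : 0 < H / nm (db ^ 3) := by rw [hdb3]; positivity
  have hH'le : H / nm (db ^ 3) ≤ Q₀ ^ (1 / 2 + (y + δ) + η) := by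
    refine (div_le_self hH.le ?_).trans hHle
    rw [hdb3]; exact one_le_pow₀ hnd1
  have hκlo : -1 ≤ κ := by
    have h1 : Real.log z ≤ κ₀ + 1 := by
      rw [Real.log_le_iff_le_exp hz0]; exact hzle
    rw [hκ, ← hκ₀]; linarith
  have hexpC : 2 * (3 * E) ^ ci ≤ Real.exp C₁ := by
    have h1 := Real.add_one_le_exp C₁
    have h2 : (3 * E) ^ ci ≤ (3 * E) ^ r :=
      pow_le_pow_right₀ (by linarith) (hcardI.trans hmr)
    rw [hC₁] at h1 ⊢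
    linarith
  have hYX : 2 * (E * Pp) ^ ci ≤ Real.exp C₁ * (Pp / 3) ^ ci := by
    have e1 : (E * Pp) ^ ci = (3 * E) ^ ci * (Pp / 3) ^ ci := by
      rw [← mul_pow]; congr 1; ring
    rw [e1, ← mul_assoc]
    exact mul_le_mul_of_nonneg_right hexpC (by positivity)
  obtain ⟨R, hR⟩ : ∃ R : ℝ, R = Nq * (Pp / 3) ^ ci := ⟨_, rfl⟩
  rw [← hR] at hRm hR1
  have hR0 : 0 < R := by linarith
  have hlen : ∀ x ∈ S, 0 < Q / (nm b * (nm x.1.1 * nm (∏ i : J', x.2 i))) ∧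
      Q / (nm b * z * R) * Real.exp (-C₁) ≤ Q / (nm b * (nm x.1.1 * nm (∏ i : J', x.2 i))) ∧
      Q / (nm b * (nm x.1.1 * nm (∏ i : J', x.2 i))) ≤ Q / (nm b * z * R) := by
    intro x hx
    obtain ⟨h1, h2⟩ := hzd x hx
    obtain ⟨h3, h4⟩ := hPin x hx
    rw [hprodq x hx, Real.exp_neg, hR]
    exact len_bounds hnb0 hz0 (by linarith) (by positivity) h3 h4 h1 h2 hYX (Real.exp_pos _) hQ
  have hQe : Q / (nm b * z * R) * nm eb ≤ C₁ * Q₀ *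
      (CJ r y Q₀ (Finset.univ \ J') * Real.exp κ / Q₀ ^ (y + δ)) := by
    rw [hCJk, cc_eq hQ₀0]
    exact qe_bound hnb0 hne_le hz0 hP0 hRm hQ hQQ₀ h3r
  have hQk0 : 0 < Q / (nm b * z * R) := by positivity
  have hQkQ : Q / (nm b * z * R) ≤ Q := by
    apply div_le_self hQ.le
    exact one_le_mul_of_one_le_of_one_le (one_le_mul_of_one_le_of_one_le hnb1 hz1) hR1
  have hinj : Set.InjOn (Dx I) (S : Set (Ix J')) := by
    intro x hx x' hx' h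
    exact Fib.inj hP hQ₀0 hMQ' (hS x hx) (hS x' hx') h
  have key := hD Q₀ (Q / (nm b * z * R)) hQk0 (hQkQ.trans hQQ₀) hQ₀ κ hκlo
    (by rw [hκ]; linarith)
    (Finset.univ \ J') (H / nm (db ^ 3)) hH' hH'le (a' * b) (b * (a' * ∏ i : J', q i)) t eb
    (mul_ne_zero ha'.ne_zero hb.ne_zero)
    (mul_ne_zero hb.ne_zero (mul_ne_zero ha'.ne_zero hprodq0)) ht.ne_zero heSm heb5 hQe t₁ t₂ τ
    (Ix J') S (Dx I) hinj (fun x hx => (hS x hx).sm hP hQ₀0 hκ₀0 hMQ')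
    (fun x => κ₀ - Real.log (nm x.1.1))
    (fun x => Q / (nm b * (nm x.1.1 * nm (∏ i : J', x.2 i))))
    (fun x hx => by
      obtain ⟨h1, h2⟩ := hzd x hx
      have h3 : Real.log z ≤ Real.log (nm x.1.1) := Real.log_le_log hz0 h1
      have h4 : Real.log (nm x.1.1) ≤ Real.log z + Real.log 2 := by
        rw [← Real.log_mul hz0.ne' (by norm_num), mul_comm]
        exact Real.log_le_log (by linarith) h2
      have h5 : Real.log 2 ≤ C₁ := by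
        have := Real.log_two_lt_d9
        rw [hC₁]; linarith
      rw [hκ, ← hκ₀]
      constructor <;> linarith)
    hlen
  -- the conductor bound
  have hcond : ((nm (a' * b) : ℝ) * nm (b * (a' * ∏ i : J', q i)) * nm t * nm eb * Q₀) ^ ε' ≤
      ((9 * β ^ 4 * E ^ r) * Q₀ ^ 8) ^ ε' := by
    simp only [nm_mul]
    push_cast
    rw [← hNq, ← hnae]
    exact cond_bound (by linarith) hnb0.le (by linarith) (Nat.cast_nonneg _) (Nat.cast_nonneg _)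
      hQ₀0.le (by linarith) (by positivity) hε' ha'le hbQ hQm hnt_le hne_le
  -- the target
  have hgain := gain_le (κ := κ) hθ hδ hη hηδ hQ₀1 hz1 hκ
  have hTg := TgB_step (y₀ := y + δ) (Q := Q) (H := H) (P := Pp) (nb := nm b) (z := z) (R := R)
    (nd := nm db) (m := m) (by linarith) hθ1 hQ₀0 hQ.le hH.le hP1 hnb0 hz0 hnd0 hRm hgain
  rw [hCJk] at key
  rw [← hdb3] at hTg
  -- the coefficients
  have hcf : ∀ x ∈ S, ‖cf P r y Q₀ t₁ t₂ x.1.1 x.2 b x.1.2 I‖ ≤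
      2 * 2 ^ n * (hq P r y Q₀ I q * (B * (E * Pp)) ^ ci) := by
    intro x hx
    have hFx := hS x hx
    refine (norm_cf_le hP I hFx.d_prim hb.prim fun i => (hFx.pp i).1).trans ?_
    have e1 := prod_split I x.2 (fun z i => ‖P.h (Real.log (nm z) - kap r y Q₀ i)‖)
    have e2 : ∏ i ∈ Finset.univ \ I, ‖P.h (Real.log (nm (x.2 i)) - kap r y Q₀ i)‖ =
        hq P r y Q₀ I q := by
      unfold hq
      refine Finset.prod_congr rfl fun i hi => ?_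
      rw [hFx.q_eq i (Finset.mem_sdiff.mp hi).2]
    have e3 : ∏ i ∈ I, ‖P.h (Real.log (nm (x.2 i)) - kap r y Q₀ i)‖ ≤ B ^ ci := by
      rw [hci]
      calc _ ≤ ∏ _i ∈ I, B :=
            Finset.prod_le_prod (fun _ _ => norm_nonneg _) fun i _ => hB _
        _ = _ := by rw [Finset.prod_const]
    have e4 := (hPin x hx).2
    have e5 := hhi x hx
    have e6 : 0 ≤ ∏ i ∈ I, ‖P.h (Real.log (nm (x.2 i)) - kap r y Q₀ i)‖ :=
      Finset.prod_nonneg fun _ _ => norm_nonneg _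
    have e7 : (0 : ℝ) ≤ ∏ i ∈ I, (nm (x.2 i) : ℝ) :=
      Finset.prod_nonneg fun _ _ => Nat.cast_nonneg _
    rw [e1, e2]
    have e8 : (nm x.1.2 : ℝ) * ((∏ i ∈ I, ‖P.h (Real.log (nm (x.2 i)) - kap r y Q₀ i)‖) *
          hq P r y Q₀ I q) ≤ (2 * 2 ^ n) * (B ^ ci * hq P r y Q₀ I q) :=
      mul_le_mul e5 (mul_le_mul_of_nonneg_right e3 hhq0) (mul_nonneg e6 hhq0) (by positivity)
    calc (nm x.1.2 : ℝ) * ((∏ i ∈ I, ‖P.h (Real.log (nm (x.2 i)) - kap r y Q₀ i)‖) *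
          hq P r y Q₀ I q) * ∏ i ∈ I, (nm (x.2 i) : ℝ)
        ≤ (2 * 2 ^ n) * (B ^ ci * hq P r y Q₀ I q) * (E * Pp) ^ ci :=
          mul_le_mul e8 e4 e7 (by positivity)
      _ = _ := by rw [mul_pow]; ring
  have hW0 : 0 ≤ 2 * 2 ^ n * (hq P r y Q₀ I q * (B * (E * Pp)) ^ ci) := by positivity
  have hsum : ∑ x ∈ S, ‖cf P r y Q₀ t₁ t₂ x.1.1 x.2 b x.1.2 I‖ *
      ‖P.ds r y Q₀ (κ₀ - Real.log (nm x.1.1)) (Finset.univ \ J')
        (Q / (nm b * (nm x.1.1 * nm (∏ i : J', x.2 i)))) (H / nm (db ^ 3)) (a' * b)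
        (b * (a' * ∏ i : J', q i)) t eb t₁ t₂ τ (Dx I x)‖ ≤
      (2 * 2 ^ n * (hq P r y Q₀ I q * (B * (E * Pp)) ^ ci)) * ∑ x ∈ S,
      ‖P.ds r y Q₀ (κ₀ - Real.log (nm x.1.1)) (Finset.univ \ J')
        (Q / (nm b * (nm x.1.1 * nm (∏ i : J', x.2 i)))) (H / nm (db ^ 3)) (a' * b)
        (b * (a' * ∏ i : J', q i)) t eb t₁ t₂ τ (Dx I x)‖ := by
    rw [Finset.mul_sum]
    exact Finset.sum_le_sum fun x hx => mul_le_mul_of_nonneg_right (hcf x hx) (norm_nonneg _)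
  refine hsum.trans ?_
  refine (mul_le_mul_of_nonneg_left key hW0).trans ?_
  have hK0 : 0 ≤ ((9 * β ^ 4 * E ^ r) * Q₀ ^ 8) ^ ε' := by positivity
  have hTk0 : 0 ≤ TgB θ η (if δ / 2 * Real.log Q₀ ≤ κ then η else -η) (y + δ) Q₀
      (Q / (nm b * z * R)) (H / nm (db ^ 3)) (Q₀ ^ (y + δ) / (Pp ^ m * z)) :=
    TgB_nonneg hQ₀0.le hQk0.le hH'.le (by positivity)
  have hTA0 : 0 ≤ (1 + |t₁| + |t₂| + |τ|) ^ A := by positivity
  have hkey2 : C * ((nm (a' * b) : ℝ) * nm (b * (a' * ∏ i : J', q i)) * nm t * nm eb * Q₀) ^ ε' *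
      (1 + |t₁| + |t₂| + |τ|) ^ A *
      TgB θ η (if δ / 2 * Real.log Q₀ ≤ κ then η else -η) (y + δ) Q₀
      (Q / (nm b * z * R)) (H / nm (db ^ 3)) (Q₀ ^ (y + δ) / (Pp ^ m * z)) ≤
      C * ((9 * β ^ 4 * E ^ r) * Q₀ ^ 8) ^ ε' * (1 + |t₁| + |t₂| + |τ|) ^ A *
      (3 ^ m * Pp⁻¹ ^ m * z⁻¹ * wb θ (nm b) (nm db) *
            TgB θ η η (y + δ) Q₀ Q H (Q₀ ^ (y + δ))) := by
    apply mul_le_mul _ hTg hTk0 (by positivity)
    apply mul_le_mul_of_nonneg_right _ hTA0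
    exact mul_le_mul_of_nonneg_left hcond hC0
  refine (mul_le_mul_of_nonneg_left hkey2 hW0).trans (le_of_eq ?_)
  have e1 : 2 * (2 : ℝ) ^ n * z⁻¹ = 2 * na⁻¹ := by
    rw [hz]
    have : na ≠ 0 := by linarith
    field_simp
  rw [← hm, ← hci, ← hnae]
  calc _ = (C * ((9 * β ^ 4 * E ^ r) * Q₀ ^ 8) ^ ε' * (1 + |t₁| + |t₂| + |τ|) ^ A) *
        ((2 * (2 : ℝ) ^ n * z⁻¹) * hq P r y Q₀ I q *
        ((B * (E * Pp)) ^ ci * (3 ^ m * Pp⁻¹ ^ m))) *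
        wb θ (nm b) (nm db) * TgB θ η η (y + δ) Q₀ Q H (Q₀ ^ (y + δ)) := by ring
    _ = _ := by rw [e1]

end Crest.Agent.R017.Asm986
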