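import Crest.Agent.R017.NV5_986

/-!
# Row 17, section B, leaf L3b, final form, part 6: the sum over the fibers
-/

set_option autoImplicit false

noncomputable section

open scoped ComplexConjugate ContDiff

namespace Crest.Agent.R017.Asm986

open Crest.Agent.R012 Crest.Agent.R012.Eis Crest.Agent.R012.PSer47 Crest.Agent.R012.Div277
open Crest.Agent.R017.End699 Crest.Agent.R017.Sx545 Crest.Agent.R017.B770

/-! ### logarithms -/

lemma keyN_bound {ε : ℝ} (hε : 0 < ε) : ∃ C : ℝ, 0 ≤ C ∧ ∀ X : ℝ, 1 ≤ X → ∀ Z : ℕ,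
    (Z : ℝ) ≤ 3 * X →
    (∑ a ∈ primBall Z, (nm a : ℝ)⁻¹) * (Nat.log 2 Z + 1) ≤ C * X ^ ε := by
  set s : ℝ := ε / 2 with hs
  have hs0 : 0 < s := by positivity
  refine ⟨200 * (3 + 1 / s) ^ 2, by positivity, ?_⟩
  intro X hX Z hZ
  have hX0 : 0 < X := by linarith
  have hXs : 1 ≤ X ^ s := Real.one_le_rpow hX hs0.le
  have hlogX : Real.log X ≤ X ^ s / s := Real.log_le_rpow_div hX0.le hs0
  have hlogZ : Real.log Z ≤ 2 + Real.log X := by
    rcases Nat.eq_zero_or_pos Z with h | h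
    · subst h
      have := Real.log_nonneg hX
      simp; linarith
    · have hZ0 : (0 : ℝ) < Z := by exact_mod_cast h
      have h1 : Real.log Z ≤ Real.log (3 * X) := Real.log_le_log hZ0 hZ
      rw [Real.log_mul (by norm_num) hX0.ne'] at h1
      have h3 : Real.log 3 ≤ 2 := by
        rw [Real.log_le_iff_le_exp (by norm_num)]
        have := Real.add_one_le_exp (2 : ℝ)
        linarith
      linarith
  have hb : 3 + Real.log X ≤ (3 + 1 / s) * X ^ s := by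
    calc 3 + Real.log X ≤ 3 * X ^ s + X ^ s / s := by nlinarith
      _ = _ := by ring
  have h1 : ∑ a ∈ primBall Z, (nm a : ℝ)⁻¹ ≤ 100 * ((3 + 1 / s) * X ^ s) := by
    have := sum_inv_primBall_le Z
    simp only [one_div] at this ⊢
    refine this.trans ?_
    simp only [one_div] at hb
    linarith
  have h2 : ((Nat.log 2 Z : ℕ) : ℝ) + 1 ≤ 2 * ((3 + 1 / s) * X ^ s) := by
    rcases Nat.eq_zero_or_pos Z with h | h
    · subst h
      have h5 : 0 ≤ Real.log X := Real.log_nonneg hX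
      simp only [Nat.log_zero_right, Nat.cast_zero, zero_add]
      linarith
    · have hZ0 : (0 : ℝ) < Z := by exact_mod_cast h
      have h3 : (2 : ℝ) ^ (Nat.log 2 Z) ≤ Z := by exact_mod_cast Nat.pow_log_le_self 2 h.ne'
      have h4 : (Nat.log 2 Z : ℝ) * Real.log 2 ≤ Real.log Z := by
        rw [← Real.log_pow]
        exact Real.log_le_log (by positivity) h3
      have h5 : (1 / 2 : ℝ) < Real.log 2 := by
        have := Real.log_two_gt_d9
        linarith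
      have h6 : (0 : ℝ) ≤ Nat.log 2 Z := Nat.cast_nonneg _
      have h7 : (Nat.log 2 Z : ℝ) ≤ 2 * Real.log Z := by nlinarith
      linarith
  have h3 : 0 ≤ ∑ a ∈ primBall Z, (nm a : ℝ)⁻¹ := Finset.sum_nonneg fun _ _ => by positivity
  calc (∑ a ∈ primBall Z, (nm a : ℝ)⁻¹) * (Nat.log 2 Z + 1)
      ≤ (100 * ((3 + 1 / s) * X ^ s)) * (2 * ((3 + 1 / s) * X ^ s)) := by gcongr
    _ = 200 * (3 + 1 / s) ^ 2 * (X ^ s * X ^ s) := by ring
    _ = _ := by rw [← Real.rpow_add hX0, hs]; ring_nf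

/-! ### tuples outside `I` -/

open Classical in
/-- tuples with `q_i = 1` for `i ∈ I` -/
def tupO (r : ℕ) (y Q₀ : ℝ) {J' : Finset (Fin r)} (I : Finset J') : Finset (∀ _ : J', Eis) :=
  Fintype.piFinset (fun i : J' => if i ∈ I then {1} else prS (kap r y Q₀ i))

lemma sum_prS_le {h : ℝ → ℂ} {B : ℝ} (hB : ∀ u, ‖h u‖ ≤ B) {r : ℕ} {y Q₀ : ℝ} (hQ₀ : 0 < Q₀)
    (i : Fin r) : ∑ p ∈ prS (kap r y Q₀ i), ‖h (Real.log (nm p) - kap r y Q₀ i)‖ ≤
      18 * (B * (EE' r * Q₀ ^ (y / r))) := by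
  have hB0 : 0 ≤ B := (norm_nonneg _).trans (hB 0)
  have hcard : ((prS (kap r y Q₀ i)).card : ℝ) ≤ 18 * Real.exp (kap r y Q₀ i + 1) := by
    have h1 : (prS (kap r y Q₀ i)).card ≤ (primBall ⌊Real.exp (kap r y Q₀ i + 1)⌋₊).card := by
      apply Finset.card_le_card
      intro p hp
      rw [mem_primBall, Nat.le_floor_iff (Real.exp_pos _).le]
      exact (mem_prS.mp hp).1
    calc ((prS (kap r y Q₀ i)).card : ℝ)
        ≤ ((18 * ⌊Real.exp (kap r y Q₀ i + 1)⌋₊ : ℕ) : ℝ) := by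
          exact_mod_cast h1.trans (card_primBall_le' _)
      _ = 18 * (⌊Real.exp (kap r y Q₀ i + 1)⌋₊ : ℝ) := by push_cast; ring
      _ ≤ _ := by
          gcongr
          exact Nat.floor_le (Real.exp_pos _).le
  calc ∑ p ∈ prS (kap r y Q₀ i), ‖h (Real.log (nm p) - kap r y Q₀ i)‖
      ≤ ∑ _p ∈ prS (kap r y Q₀ i), B := Finset.sum_le_sum fun p _ => hB _
    _ = (prS (kap r y Q₀ i)).card * B := by rw [Finset.sum_const, nsmul_eq_mul]
    _ ≤ (18 * Real.exp (kap r y Q₀ i + 1)) * B := by gcongr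
    _ ≤ (18 * (EE' r * Q₀ ^ (y / r))) * B := by
        gcongr
        exact exp_kap_le hQ₀ (i : Fin r)
    _ = _ := by ring

open Classical in
theorem sum_tupO_le {P : DPar} {B E Pp : ℝ} (hB : ∀ u, ‖P.h u‖ ≤ B) {r : ℕ} {y Q₀ : ℝ}
    (hQ₀ : 0 < Q₀) (hE : EE' r = E) (hPp : Q₀ ^ (y / r) = Pp) {J' : Finset (Fin r)}
    (I : Finset J') :
    ∑ q ∈ tupO r y Q₀ I, hq P r y Q₀ I q * (B * (E * Pp)) ^ I.card ≤
      (18 * (B * (E * Pp))) ^ J'.card := by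
  have hB0 : 0 ≤ B := (norm_nonneg _).trans (hB 0)
  have hE0 : 0 ≤ E := by rw [← hE]; exact zero_le_one.trans (one_le_EE' r)
  have hP0 : 0 ≤ Pp := by rw [← hPp]; positivity
  have hX0 : 0 ≤ B * (E * Pp) := by positivity
  set g : J' → Eis → ℝ := fun i z => if i ∈ I then B * (E * Pp) else
    ‖P.h (Real.log (nm z) - kap r y Q₀ i)‖ with hg
  have e1 : ∀ q : (∀ _ : J', Eis), hq P r y Q₀ I q * (B * (E * Pp)) ^ I.card =
      ∏ i : J', g i (q i) := by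
    intro q
    rw [prod_split I q (fun z i => g i z), mul_comm]
    unfold hq
    congr 1
    · rw [← Finset.prod_const]
      refine Finset.prod_congr rfl fun i hi => ?_
      simp only [hg, if_pos hi]
    · refine Finset.prod_congr rfl fun i hi => ?_
      simp only [hg, if_neg (Finset.mem_sdiff.mp hi).2]
  rw [Finset.sum_congr rfl fun q _ => e1 q]
  unfold tupO
  rw [← Finset.prod_univ_sum (fun i : J' => if i ∈ I then {1} else prS (kap r y Q₀ i)) g]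
  calc _ ≤ ∏ _i : J', (18 * (B * (E * Pp))) := by
        apply Finset.prod_le_prod
        · intro i _
          apply Finset.sum_nonneg
          intro z _
          simp only [hg]
          split_ifs
          · exact hX0
          · exact norm_nonneg _
        · intro i _
          by_cases hi : i ∈ I
          · rw [if_pos hi, Finset.sum_singleton]
            simp only [hg, if_pos hi]
            linarith
          · rw [if_neg hi]
            simp only [hg, if_neg hi]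
            have := sum_prS_le (y := y) hB hQ₀ (i : Fin r)
            rw [hE, hPp] at this
            exact this
    _ = _ := by rw [Finset.prod_const, Finset.card_univ, Fintype.card_coe]

/-! ### the sum over all fibers -/

open Classical in
/-- the index set -/
def SS0 (P : DPar) (r : ℕ) (y Q₀ κ₀ : ℝ) (J' : Finset (Fin r)) (b : Eis) : Finset (Ix J') :=
  (((sqS P.n κ₀) ×ˢ primBall ⌊Real.exp (κ₀ + 1)⌋₊) ×ˢ tup r y Q₀ J').filter
    (fun x => x.1.2 ∣ x.1.1 ∧ cnd P r y Q₀ x.1.1 x.2 b)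

open Classical in
/-- the part of the tuple outside `I` -/
def qx {r : ℕ} {J' : Finset (Fin r)} (I : Finset J') (x : Ix J') : ∀ _ : J', Eis :=
  fun i => if i ∈ I then 1 else x.2 i

/-- the outer sum of D-OUT at `x` -/
def dsx (P : DPar) (r : ℕ) (y Q₀ κ₀ Q H t₁ t₂ τ : ℝ) {J' : Finset (Fin r)} (I : Finset J')
    (b db eb t : Eis) (x : Ix J') : ℂ :=
  P.ds r y Q₀ (κ₀ - Real.log (nm x.1.1)) (Finset.univ \ J')
    (Q / (nm b * (nm x.1.1 * nm (∏ i : J', x.2 i)))) (H / nm (db ^ 3)) ((x.1.1 / x.1.2) * b)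
    (b * ((x.1.1 / x.1.2) * ∏ i : J', qx I x i)) t eb t₁ t₂ τ (Dx I x)

open Classical in
theorem sum_SS0 {P : DPar} (hP : P.OK) {θ : ℝ} {r : ℕ} {y δ η ε' C₁ C A β B E Pp : ℝ}
    (hθ : 7 / 8 < θ) (hθ1 : θ ≤ 1) (hr : 0 < r) (hy1 : y ≤ 1) (hδ : 0 < δ)
    (hδ1 : δ ≤ 1) (hη : 0 < η) (hηδ : η ≤ δ / 16) (hε' : 0 ≤ ε') (hC0 : 0 ≤ C)
    (hE : EE' r = E) (hC₁ : C₁ = 2 * (3 * E) ^ r) (hD : DIdx θ r y δ η P ε' C₁ C A)
    (hB : ∀ u, ‖P.h u‖ ≤ B) (hB1 : 1 ≤ B) (hβ1 : 1 ≤ β) {Q₀ Q κ₀ : ℝ} (hQ₀ : 2 ≤ Q₀) (hQ : 0 < Q)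
    (hQQ₀ : Q ≤ Q₀) (hκ₀ : κ₀ = δ * Real.log Q₀) (hPp : Q₀ ^ (y / r) = Pp)
    (hMQ : (nm P.n : ℝ) * Real.exp κ₀ * 9 < Pp) {H : ℝ} (hH : 0 < H)
    (hHle : H ≤ Q₀ ^ (1 / 2 + (y + δ) + η)) (t₁ t₂ τ : ℝ) {J' : Finset (Fin r)} (I : Finset J')
    {b db eb t : Eis} (hb : Sm P.n b) (hbQ : (nm b : ℝ) ≤ β * Q₀) (hdb : IsPrim db)
    (heb : IsPrim eb) (hebb : eb ∣ b) (heb5 : ∀ p : Eis, Prime p → p ∣ eb → p ^ 5 ∣ eb)
    (ht : IsPrim t) (htb : t ∣ b) :
    ∑ x ∈ SS0 P r y Q₀ κ₀ J' b, ‖cf P r y Q₀ t₁ t₂ x.1.1 x.2 b x.1.2 I‖ *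
      ‖dsx P r y Q₀ κ₀ Q H t₁ t₂ τ I b db eb t x‖ ≤
      (C * ((9 * β ^ 4 * E ^ r) * Q₀ ^ 8) ^ ε' * (1 + |t₁| + |t₂| + |τ|) ^ A) *
        (2 * (54 * (B * E)) ^ J'.card *
          ((∑ a ∈ primBall ⌊Real.exp (κ₀ + 1)⌋₊, (nm a : ℝ)⁻¹) *
            (Nat.log 2 ⌊Real.exp (κ₀ + 1)⌋₊ + 1))) *
        wb θ (nm b) (nm db) * TgB θ η η (y + δ) Q₀ Q H (Q₀ ^ (y + δ)) := by
  have hQ₀0 : 0 < Q₀ := by linarith
  set Z := ⌊Real.exp (κ₀ + 1)⌋₊ with hZ
  set Ks : Finset ((Eis × ℕ) × (∀ _ : J', Eis)) :=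
    (primBall Z ×ˢ Finset.range (Nat.log 2 Z + 1)) ×ˢ tupO r y Q₀ I with hKs
  set ky : Ix J' → (Eis × ℕ) × (∀ _ : J', Eis) :=
    fun x => ((x.1.1 / x.1.2, Nat.log 2 (nm x.1.2)), qx I x) with hky
  -- membership facts
  have hmem : ∀ x ∈ SS0 P r y Q₀ κ₀ J' b, x.1.1 ∈ sqS P.n κ₀ ∧ x.1.2 ∈ primBall Z ∧
      x.2 ∈ tup r y Q₀ J' ∧ x.1.2 ∣ x.1.1 ∧ cnd P r y Q₀ x.1.1 x.2 b := by
    intro x hx
    unfold SS0 at hx
    rw [Finset.mem_filter, Finset.mem_product, Finset.mem_product] at hx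
    exact ⟨hx.1.1.1, hx.1.1.2, hx.1.2, hx.2.1, hx.2.2⟩
  have hdiv : ∀ x ∈ SS0 P r y Q₀ κ₀ J' b, x.1.2 * (x.1.1 / x.1.2) = x.1.1 := by
    intro x hx
    obtain ⟨h1, h2, h3, h4, h5⟩ := hmem x hx
    exact EuclideanDomain.mul_div_cancel' (mem_primBall.mp h2).2.ne_zero h4
  have hprimq : ∀ x ∈ SS0 P r y Q₀ κ₀ J' b, IsPrim (x.1.1 / x.1.2) := by
    intro x hx
    obtain ⟨h1, h2, h3, h4, h5⟩ := hmem x hx
    have h6 := (mem_sqS.mp h1).1.1.2
    rw [← hdiv x hx] at h6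
    exact (P355.isPrim_mul_iff (mem_primBall.mp h2).2).mp h6
  have hmaps : ∀ x ∈ SS0 P r y Q₀ κ₀ J' b, ky x ∈ Ks := by
    intro x hx
    obtain ⟨h1, h2, h3, h4, h5⟩ := hmem x hx
    have hd := mem_sqS.mp h1
    have hdZ : nm x.1.1 ≤ Z := Nat.le_floor hd.1.1.1
    rw [hKs, Finset.mem_product, Finset.mem_product, Finset.mem_range, mem_primBall]
    refine ⟨⟨⟨?_, hprimq x hx⟩, ?_⟩, ?_⟩
    · refine le_trans ?_ hdZ
      apply nm_le_of_dvd hd.1.1.2.ne_zero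
      exact Dvd.intro_left _ (hdiv x hx)
    · have h6 : nm x.1.2 ≤ Z := (mem_primBall.mp h2).1
      have h7 : Nat.log 2 (nm x.1.2) ≤ Nat.log 2 Z := Nat.log_mono_right h6
      exact Nat.lt_succ_of_le h7
    · unfold tupO
      rw [Fintype.mem_piFinset]
      intro i
      simp only [hky, qx]
      split_ifs with hi
      · exact Finset.mem_singleton_self _
      · exact mem_tup.mp h3 i
  rw [← Finset.sum_fiberwise_of_maps_to hmaps]
  -- each fiber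
  have hfib : ∀ j ∈ Ks, ∑ x ∈ (SS0 P r y Q₀ κ₀ J' b).filter (fun x => ky x = j),
      ‖cf P r y Q₀ t₁ t₂ x.1.1 x.2 b x.1.2 I‖ *
      ‖dsx P r y Q₀ κ₀ Q H t₁ t₂ τ I b db eb t x‖ ≤
      (C * ((9 * β ^ 4 * E ^ r) * Q₀ ^ 8) ^ ε' * (1 + |t₁| + |t₂| + |τ|) ^ A) *
        (2 * (nm j.1.1 : ℝ)⁻¹ * hq P r y Q₀ I j.2 *
          ((B * (E * Pp)) ^ I.card * (3 ^ J'.card * Pp⁻¹ ^ J'.card))) *
        wb θ (nm b) (nm db) * TgB θ η η (y + δ) Q₀ Q H (Q₀ ^ (y + δ)) := by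
    intro j hj
    rw [hKs, Finset.mem_product, Finset.mem_product, mem_primBall] at hj
    obtain ⟨⟨⟨hj1, hj2⟩, hj3⟩, hj4⟩ := hj
    have hq1 : ∀ i ∈ I, j.2 i = 1 := by
      intro i hi
      unfold tupO at hj4
      have := Fintype.mem_piFinset.mp hj4 i
      rw [if_pos hi] at this
      exact Finset.mem_singleton.mp this
    have hF : ∀ x ∈ (SS0 P r y Q₀ κ₀ J' b).filter (fun x => ky x = j),
        Fib P r y Q₀ κ₀ I b j.1.1 j.1.2 j.2 x := by
      intro x hx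
      rw [Finset.mem_filter] at hx
      obtain ⟨hx1, hx2⟩ := hx
      obtain ⟨h1, h2, h3, h4, h5⟩ := hmem x hx1
      obtain ⟨⟨⟨h6, h7⟩, h8⟩, h9⟩ := mem_sqS.mp h1
      have e1 : x.1.1 / x.1.2 = j.1.1 := by rw [← hx2]
      have e2 : Nat.log 2 (nm x.1.2) = j.1.2 := by rw [← hx2]
      have e3 : qx I x = j.2 := by rw [← hx2]
      have hap := (mem_primBall.mp h2).2
      have hnm : nm x.1.2 ≠ 0 := (nm_pos.mpr hap.ne_zero).ne'
      exact {
        d_le := h6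
        d_prim := h7
        d_sqf := h8
        d_cop := h9
        a_prim := hap
        eq := by rw [← e1]; exact hdiv x hx1
        lo := by rw [← e2]; exact Nat.pow_log_le_self 2 hnm
        hi := by rw [← e2]; exact Nat.lt_pow_succ_log_self (by norm_num) _
        p_tup := h3
        h_ne := h5.2
        b_cop := h5.1
        q_eq := by
          intro i hi
          rw [← e3]
          unfold qx
          rw [if_neg hi] }
    have hk := key_bound hP hθ hθ1 hr hy1 hδ hδ1 hη hηδ hε' hC0 hE hC₁ hD hB hB1 hβ1 hQ₀ hQ hQQ₀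
      hκ₀ hPp hMQ hH hHle t₁ t₂ τ I hb hbQ hdb heb hebb heb5 ht htb hj2 j.1.2 hq1 _ hF
    refine le_trans (le_of_eq ?_) hk
    refine Finset.sum_congr rfl fun x hx => ?_
    rw [Finset.mem_filter] at hx
    have e1 : x.1.1 / x.1.2 = j.1.1 := by rw [← hx.2]
    have e3 : qx I x = j.2 := by rw [← hx.2]
    unfold dsx
    rw [e1, e3]
  refine (Finset.sum_le_sum hfib).trans ?_
  -- sum over the keys
  have hsumK : ∑ j ∈ Ks, 2 * (nm j.1.1 : ℝ)⁻¹ * hq P r y Q₀ I j.2 *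
          ((B * (E * Pp)) ^ I.card * (3 ^ J'.card * Pp⁻¹ ^ J'.card)) ≤
      2 * (54 * (B * E)) ^ J'.card *
          ((∑ a ∈ primBall Z, (nm a : ℝ)⁻¹) * (Nat.log 2 Z + 1)) := by
    have hP0 : 0 < Pp := by rw [← hPp]; positivity
    have h0 : 0 ≤ ∑ a ∈ primBall Z, (nm a : ℝ)⁻¹ := Finset.sum_nonneg fun _ _ => by positivity
    rw [hKs, Finset.sum_product, Finset.sum_product]
    have e1 : ∀ a ∈ primBall Z, ∀ n ∈ Finset.range (Nat.log 2 Z + 1),
        ∑ q ∈ tupO r y Q₀ I, 2 * (nm a : ℝ)⁻¹ * hq P r y Q₀ I q *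
          ((B * (E * Pp)) ^ I.card * (3 ^ J'.card * Pp⁻¹ ^ J'.card)) ≤
        2 * (54 * (B * E)) ^ J'.card * (nm a : ℝ)⁻¹ := by
      intro a _ n _
      have h1 := sum_tupO_le (P := P) hB hQ₀0 hE hPp I
      have h2 : (18 * (B * (E * Pp))) ^ J'.card * (3 ^ J'.card * Pp⁻¹ ^ J'.card) =
          (54 * (B * E)) ^ J'.card := by
        rw [← mul_pow, ← mul_pow]
        congr 1
        field_simp
        ring
      have h3 : 0 ≤ 2 * (nm a : ℝ)⁻¹ * (3 ^ J'.card * Pp⁻¹ ^ J'.card) := by positivity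
      calc _ = (2 * (nm a : ℝ)⁻¹ * (3 ^ J'.card * Pp⁻¹ ^ J'.card)) *
            ∑ q ∈ tupO r y Q₀ I, hq P r y Q₀ I q * (B * (E * Pp)) ^ I.card := by
            rw [Finset.mul_sum]
            refine Finset.sum_congr rfl fun q _ => ?_
            ring
        _ ≤ (2 * (nm a : ℝ)⁻¹ * (3 ^ J'.card * Pp⁻¹ ^ J'.card)) *
            (18 * (B * (E * Pp))) ^ J'.card := mul_le_mul_of_nonneg_left h1 h3
        _ = 2 * ((18 * (B * (E * Pp))) ^ J'.card * (3 ^ J'.card * Pp⁻¹ ^ J'.card)) *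
            (nm a : ℝ)⁻¹ := by ring
        _ = _ := by rw [h2]
    refine (Finset.sum_le_sum fun a ha => Finset.sum_le_sum fun n hn => e1 a ha n hn).trans ?_
    apply le_of_eq
    have e2 : ∀ a ∈ primBall Z, ∑ _n ∈ Finset.range (Nat.log 2 Z + 1),
        2 * (54 * (B * E)) ^ J'.card * (nm a : ℝ)⁻¹ =
        2 * (54 * (B * E)) ^ J'.card * (Nat.log 2 Z + 1) * (nm a : ℝ)⁻¹ := by
      intro a _
      rw [Finset.sum_const, Finset.card_range, nsmul_eq_mul]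
      push_cast
      ring
    rw [Finset.sum_congr rfl e2, ← Finset.mul_sum]
    ring
  have hTg0 : 0 ≤ TgB θ η η (y + δ) Q₀ Q H (Q₀ ^ (y + δ)) :=
    TgB_nonneg hQ₀0.le hQ.le hH.le (by positivity)
  have hnb1 := one_le_nmR hb.ne_zero
  have hnd1 := one_le_nmR hdb.ne_zero
  have hwb0 : 0 ≤ wb θ (nm b) (nm db) := by unfold wb; positivity
  have hE0 : 0 ≤ E := by rw [← hE]; exact zero_le_one.trans (one_le_EE' r)
  have hK0 : 0 ≤ C * ((9 * β ^ 4 * E ^ r) * Q₀ ^ 8) ^ ε' * (1 + |t₁| + |t₂| + |τ|) ^ A := by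
    positivity
  rw [← Finset.sum_mul, ← Finset.sum_mul, ← Finset.mul_sum]
  apply mul_le_mul_of_nonneg_right _ hTg0
  apply mul_le_mul_of_nonneg_right _ hwb0
  exact mul_le_mul_of_nonneg_left hsumK hK0

end Crest.Agent.R017.Asm986
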