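import Crest.Agent.R017.RX8_298
import Crest.Agent.R017.RXi_848

/-!
# Row 17, near field (FlatNE), exceptional class (helper848), part a: the boundary of (SA0) / (L+)
depends on the list

* `nt_step_x_g` : helper298's `nt_step_x` with `g₀, s₀ : ℝ → ℝ` evaluated at the length of the list
  (`s₀` = the gain of the difference)
-/

set_option autoImplicit false
set_option maxHeartbeats 3200000

noncomputable section

open Complex
open scoped ComplexConjugate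

namespace Crest.Agent.R017.NX848

open Crest.Agent.R012 Crest.Agent.R012.Eis Crest.Agent.R012.LS2 Crest.Agent.R012.Gauss880
open Crest.Agent.R012.Weight600 (osc pw)
open Crest.Agent.R017.CM106 Crest.Agent.R017.HP842 Crest.Agent.R017.FE47
open Crest.Agent.R017.End699 hiding pw
open Crest.Agent.R017.B770
open Crest.Agent.R017.Prov71
open Crest.Agent.R017.Rough381 (VF VF_nonneg)
open Crest.Agent.R017.Leg381
open Crest.Agent.R017.E1551 (sg tws yv JB)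
open Crest.Agent.R017.RG64
open Crest.Agent.R017.LegK545 (VK SFK JBK VK_nonneg)
open Crest.Agent.R017.RGK545 (ClXK ClK ClNK)
open Crest.Agent.R017.PX764 (Dk)
open Crest.Agent.R017.RX298

/-- **the truncated lists, exceptional class**, the boundary `g₀` a function of the length -/
theorem nt_step_x_g {h : ℝ → ℝ} {c : ℝ} (hpu : PU h c) (N : ℕ) {w : ℝ → ℝ} (hab : Abs4 w)
    {J e₃ ε R Ca c₁ B₀ : ℝ} {Jn Aw : ℕ} (hJ : 6 ≤ J) (he₃ : 0 < e₃) (hε : 0 < ε) (hR : 0 ≤ R)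
    (hJn : (N : ℝ) * J ≤ Jn) (hJ12 : 12 ≤ Jn) (hAw : Jn + 2 ≤ Aw) (hAL : XDp h N R Ca)
    (hc₁ : 0 ≤ c₁) (hB₀ : 1 ≤ B₀) :
    ∃ Cw C η₀ r X₁ : ℝ, 0 ≤ Cw ∧ 1 ≤ C ∧ 0 < η₀ ∧ η₀ ≤ 1 / 2 ∧ 0 ≤ r ∧ ∀ X : ℝ, 3 ≤ X → X₁ ≤ X →
    ∀ D : Dat, DX h N J B₀ X D → D.z = D.D0 →
    0 ≤ D.κ → ∀ (N0 N1 : ℝ → ℕ) (ρ : ℝ → ℕ → ℝ), Cut N0 N1 ρ c₁ →
    ∀ (B Br Bl El bb s a α Q q₀ e cc x₁ lo lo' σ₀ σ' d₀ : ℝ) (s₀ g₀ Dd : ℝ → ℝ), 0 ≤ B → 0 ≤ Br →
    0 ≤ Bl → 0 ≤ El → 0 ≤ s → 0 ≤ a → 0 ≤ d₀ → Real.exp r ≤ q₀ → e₃ * Real.log X + c₁ + r ≤ α →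
    e + (N + 1) * r ≤ Real.log D.D0 → lo' ≤ 0 → 0 ≤ x₁ →
    D.n - cc ≤ σ₀ → Q ≤ X ^ B₀ →
    (∀ ps : List Pf, SbL s ps D.ps₀ → LF ps ≤ σ' → σ₀ ≤ LF ps →
      LF ps + R ≤ Real.log X ∧ D.v + (D.n - LF ps) + (a + α) + g₀ (LF ps) ≤ Real.log X ∧
      0 ≤ D.v + (D.n - LF ps) + a ∧ 2 * LF ps - D.κ ≤ D.v + (D.n - LF ps) + a ∧
      LF ps - g₀ (LF ps) + r ≤ D.n - cc + x₁ ∧ Lg3 (s₀ (LF ps)) d₀ ps ∧
      0 ≤ g₀ (LF ps) ∧ Real.exp (g₀ (LF ps)) ≤ Dd (LF ps) ∧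
      lo + g₀ (LF ps) + N * Real.log D.D0 + r ≤ LF ps ∧
      0 ≤ s₀ (LF ps) ∧ s₀ (LF ps) ≤ d₀ ∧
      g₀ (LF ps) + 4 * Real.log D.D0 - s₀ (LF ps) +
        (D.v + D.n + a + e₃ * Real.log X + c₁ - D.κ) / 3 ≤ bb) →
    ClK Dk D (Ge lo) B (s + r) (a + α) (Q * q₀) (σ' - e - N * r) →
    ClXK Dk (ex0 D.κ) (Dr d₀ D) (Ge lo) Br (2 * s + r) (a + α) (Q * q₀) (σ' + r) →
    ClNK Dk D (exJ D.κ D.v D.n cc) Bl (s + r) (a + α) (Q * q₀) lo' (D.n - cc + x₁) →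
    ClNK Dk (Dr d₀ D) (exJ D.κ D.v D.n cc) Bl (2 * s + r) (a + α) (Q * q₀) lo'
      (D.n - cc + x₁) →
    (∀ (q : Eis) (ps : List Pf), IsPrim q → (nm q : ℝ) * Real.exp (LF ps) ≤ Q → NT ps →
      SbL s ps D.ps₀ → σ₀ ≤ LF ps → LF ps ≤ σ' →
      LBn w Cw η₀ Aw (Real.exp D.κ) (Real.exp (LF ps)) X (Dd (LF ps))
        (N1 (D.v + (D.n - LF ps) + a + e₃ * Real.log X))
        (ρ (D.v + (D.n - LF ps) + a + e₃ * Real.log X)) R Jn
        (xs q D.z D.D0 D.P D.h d₀ ps) (El * Ht ps ^ J * Real.exp (2 * LF ps))) →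
    ClK Dk D (NTGe σ₀) (C * X ^ (2 * ε) * (El + Br + Real.exp bb +
      Bl * Real.exp (N * Real.log D.D0 + a + α) + 1) + C * X ^ (2 * ε) * B) s a Q σ' := by
  have hJ0 : (0 : ℝ) ≤ J := by linarith
  have hJ12' : (12 : ℝ) ≤ Jn := by exact_mod_cast hJ12
  obtain ⟨Cw, C₀, η₁, hCw, hC₀, hη₁, -, hab'⟩ := hab Jn Aw R 4 e₃ ε hAw hR
    (by positivity) he₃ hε
  obtain ⟨η₀, hη₀e⟩ : ∃ x : ℝ, x = min η₁ (1 / 2) := ⟨_, rfl⟩
  have hη₀ : 0 < η₀ := by rw [hη₀e]; exact lt_min hη₁ (by norm_num)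
  have hη₀1 : η₀ ≤ 1 / 2 := by rw [hη₀e]; exact min_le_right _ _
  have hη₀2 : η₀ ≤ η₁ := by rw [hη₀e]; exact min_le_left _ _
  obtain ⟨C₁, r₁, hC₁, hr₁, hsub⟩ := x_numSm hpu N hB₀ hε hJ hJ12' hJn
  obtain ⟨C₂, r₂, hC₂, hr₂, hlar⟩ := x_numLm hpu N hB₀ hε hJ hJ12' hJn
  obtain ⟨C₃, hC₃, hback⟩ := x_backm hpu N hB₀ hε hJ
  set r := max r₁ r₂ with hr
  have hr1 : r₁ ≤ r := le_max_left _ _
  have hr2 : r₂ ≤ r := le_max_right _ _
  have hr0 : 0 ≤ r := hr₁.trans hr1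
  set H : ℝ := (η₀⁻¹) ^ (2 * Jn + 2) with hH
  have hH0 : 0 ≤ H := by positivity
  refine ⟨Cw, 2 * ((3 * (C₀ * H) + 1) * (2 * (C₁ * C₂))) + C₃, η₀, r, Ca, hCw, ?_, hη₀, hη₀1,
    hr0, ?_⟩
  · have h1 : 0 ≤ 2 * ((3 * (C₀ * H) + 1) * (2 * (C₁ * C₂))) := by positivity
    linarith
  intro X hX hXa D hD hz hκ N0 N1 ρ hcut B Br Bl El bb s a α Q q₀ e cc x₁ lo lo' σ₀ σ'
    d₀ s₀' g₀' Dd hB hBr hBl hEl hs ha hd₀ hq₀ hα he hlo' hx₁ hcc hQX hsize hCl hClr hClN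
    hClNr hLB
  intro q ps k hq hqQ hps₁ hps hL hk hk'
  obtain ⟨hnt, hσ₀⟩ := hps₁
  have hX1 : (1 : ℝ) ≤ X := by linarith
  have hX0 : 0 < X := by linarith
  have hlX : 0 ≤ Real.log X := Real.log_nonneg hX1
  have hD0 := hD.D0
  have hlD : 0 ≤ Real.log D.D0 := Real.log_nonneg hD0
  have hN0 : (0 : ℝ) ≤ N := Nat.cast_nonneg _
  have hNlD : 0 ≤ (N : ℝ) * Real.log D.D0 := mul_nonneg hN0 hlD
  have hlen : ps.length ≤ N := hps.length ▸ hD.len
  obtain ⟨z1, z2, z3, z4, z5, z6, hg₀, hDd, hlo, hs₀0, hs₀d, hbb⟩ := hsize ps hps hL hσ₀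
  have hz0 := hps.z_nonneg
  have hHt := one_le_Ht ps
  have hm00 : 0 ≤ LF ps := LF_nonneg hz0
  have hnq : (0 : ℝ) < nm q := by exact_mod_cast nm_pos.2 hq.ne_zero
  have hQ0 : 0 ≤ Q := (by positivity : (0 : ℝ) ≤ nm q * Real.exp (LF ps)).trans hqQ
  have hqX : (nm q : ℝ) ≤ X ^ B₀ := by
    have h1 : (nm q : ℝ) * 1 ≤ nm q * Real.exp (LF ps) :=
      mul_le_mul_of_nonneg_left (Real.one_le_exp hm00) hnq.le
    linarith
  have hq₀1 : 1 ≤ q₀ := (Real.one_le_exp hr0).trans hq₀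
  have hQQ : Q ≤ Q * q₀ := le_mul_of_one_le_right hQ0 hq₀1
  set m := LF ps with hm
  set g₀ : ℝ := g₀' m with hg₀d
  set s₀ : ℝ := s₀' m with hs₀f
  have hm0 : 0 ≤ m := hm00
  have hQX' : QXm B₀ X s Q s₀ d₀ D q ps :=
    ⟨hq, hqX, hqQ, hps, z6, by linarith, hd₀, hs, hs₀0, hs₀d⟩
  set L : ℝ := D.v + (D.n - m) + a + e₃ * Real.log X with hLd
  have he3X : 0 ≤ e₃ * Real.log X := by positivity
  have hL0 : 0 ≤ L := by rw [hLd]; linarith
  have hkL : k ≤ L := by rw [hLd]; linarith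
  have hLα : L + c₁ + r ≤ D.v + (D.n - m) + (a + α) := by rw [hLd]; linarith
  have hα0 : 0 ≤ α := by linarith
  set al := xs q D.z D.D0 D.P D.h d₀ ps with hal
  obtain ⟨hsup, hwin, hL1, _⟩ := hAL D.z D.D0 D.P hD.ok q ps (rp d₀ ps) (zt d₀ ps) hlen
    (by rw [rp_length]; exact hlen) (LF_rp d₀ ps) (norm_zt d₀ ps).le X hXa (by
    rw [← Real.exp_add, ← Real.exp_log hX0]; exact Real.exp_le_exp.2 (by linarith))
  rw [← hD.hh] at hsup hwin hL1
  have hN1 : 9 * (N1 L : ℝ) ≤ Real.exp (L + c₁) := hcut.hi L hL0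
  have hN0L : Real.exp L ≤ N0 L := hcut.lo L hL0
  have hN01 : (N0 L : ℝ) ≤ N1 L := by exact_mod_cast hcut.le L hL0
  have hN1p : (0 : ℝ) < N1 L := by
    have := Real.exp_pos L
    linarith
  have hN1e : (N1 L : ℝ) ≤ Real.exp (L + c₁) := by linarith
  have hexpX : Real.exp (L + c₁) ≤ X := by
    rw [← Real.exp_log hX0]; exact Real.exp_le_exp.2 (by linarith)
  have hemX : Real.exp m ≤ X := by
    rw [← Real.exp_log hX0]; exact Real.exp_le_exp.2 (by linarith)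
  have hXa1 : X ≤ X ^ (4 : ℝ) := by
    calc X = X ^ (1 : ℝ) := (Real.rpow_one X).symm
      _ ≤ X ^ (4 : ℝ) := Real.rpow_le_rpow_of_exponent_le hX1 (by norm_num)
  have hXB : X ≤ X ^ B₀ := by
    calc X = X ^ (1 : ℝ) := (Real.rpow_one X).symm
      _ ≤ X ^ B₀ := Real.rpow_le_rpow_of_exponent_le hX1 hB₀
  -- the numbers
  set HJ : ℝ := Ht ps ^ J with hHJ
  have hHJ1 : 1 ≤ HJ := Real.one_le_rpow hHt hJ0
  set Em : ℝ := Real.exp (2 * m) with hEm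
  have hEm1 : 1 ≤ Em := Real.one_le_exp (by linarith)
  set Eb : ℝ := Real.exp bb with hEb
  have hEb0 : 0 < Eb := Real.exp_pos _
  set Ms : ℝ := C₁ * X ^ ε * (B + Br + Eb) * HJ * Em with hMs
  set Ml : ℝ := C₂ * X ^ ε * ((Bl + Bl) * Real.exp (N * Real.log D.D0 + (a + α - r)) + Eb) *
    HJ * Em with hMl
  have hMs0 : 0 ≤ Ms := by positivity
  have hMl0 : 0 ≤ Ml := by positivity
  have hbias := bias_exp (g₀ := g₀) (D0 := D.D0) (m := m) (d₀ := s₀) (L := L + c₁) (κ := D.κ)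
    (N1 := (N1 L : ℝ)) (bb := bb) hD0 hN1p hN1e (by rw [hLd]; linarith)
  have key := hab' (Real.exp D.κ) (Real.exp m) X η₀ (Dd m) (Real.exp g₀) (N0 L) (N1 L) (ρ L)
    (by
      calc X ^ (-(4 : ℝ)) ≤ 1 := Real.rpow_le_one_of_one_le_of_nonpos hX1 (by norm_num)
        _ ≤ Real.exp D.κ := Real.one_le_exp hκ)
    (Real.exp_pos _) (hemX.trans hXa1) hX1 hη₀ hη₀2
    ((Real.one_le_exp hg₀).trans hDd) hDd
    (by
      have h1 : (1 : ℝ) ≤ N0 L := (Real.one_le_exp hL0).trans hN0L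
      exact_mod_cast h1)
    (hcut.le L hL0)
    (by
      have h1 : (N1 L : ℝ) ≤ 9 * N1 L := by
        have : (0 : ℝ) ≤ N1 L := Nat.cast_nonneg _
        linarith
      exact h1.trans (hN1.trans (hexpX.trans hXa1)))
    (hcut.anti L hL0) (hcut.one L hL0) (hcut.zero L hL0)
    (by
      have e1 : Real.exp m ^ 2 * X ^ e₃ = Real.exp (2 * m + e₃ * Real.log X) := by
        rw [Real.exp_add, Real.rpow_def_of_pos hX0, mul_comm (Real.log X), ← Real.exp_nat_mul]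
        norm_num
      rw [e1]
      calc Real.exp (2 * m + e₃ * Real.log X) ≤ Real.exp (D.κ + L) :=
            Real.exp_le_exp.2 (by rw [hLd]; linarith)
        _ = Real.exp D.κ * Real.exp L := Real.exp_add _ _
        _ ≤ Real.exp D.κ * N0 L := mul_le_mul_of_nonneg_left hN0L (Real.exp_pos _).le)
    al
    hsup hwin (hL1 4 le_rfl)
    (El * HJ * Em) Ms Ml (by positivity) hMs0 hMl0
    (hLB q ps hq hqQ hnt hps hσ₀ hL)
    (by
      intro g hg hg1 hgG V hV hVN t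
      have hg' := (mem_S hX0.le).1 hg
      have hgp := hg'.2.1
      have hng : (0 : ℝ) < nm g := by exact_mod_cast nm_pos.2 hgp.ne_zero
      have hlg : Real.log (nm g) ≤ g₀ := by
        rw [← Real.log_exp g₀]; exact Real.log_le_log hng hgG
      have hV0 : 0 < V := by linarith
      have hlV : Real.log V ≤ L + c₁ + Real.log (nm g) := by
        have h1 : V ≤ Real.exp (L + c₁) * nm g :=
          hVN.trans (mul_le_mul_of_nonneg_right hN1 hng.le)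
        have h2 := Real.log_le_log hV0 h1
        rwa [Real.log_mul (Real.exp_pos _).ne' hng.ne', Real.log_exp] at h2
      have h1 := hsub X hX D hD B Br Eb s (a + α - r₁) Q q₀ (σ' - e - N * r) (σ' + r) lo s₀ d₀ hB
        hBr ((Real.exp_le_exp.2 hr1).trans hq₀)
        (hCl.mono le_rfl (by linarith) (by linarith) le_rfl le_rfl)
        (hClr.mono le_rfl (by linarith) (by linarith) le_rfl le_rfl) q ps hQX' hnt
        (by
          rw [hz, min_self]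
          linarith) (by rw [hz]; exact hD0) (by linarith)
        g t V (N1 L) (Real.exp g₀) hgp hg1 (hg'.1.trans hXB) hgG (by linarith) hV (by
          rw [← Real.exp_log hX0, ← Real.exp_log hV0]
          exact Real.exp_le_exp.2 (by linarith)) hN1p hVN (by linarith) hbias
      rw [Real.rpow_natCast] at h1
      exact h1)
    (by
      intro g hg Bu V hBu hBuX hV hVN t
      have hg' := (mem_S hX0.le).1 hg
      have hgp := hg'.2.1
      have hng : (0 : ℝ) < nm g := by exact_mod_cast nm_pos.2 hgp.ne_zero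
      have hng1 : (1 : ℝ) ≤ nm g := by exact_mod_cast nm_pos.2 hgp.ne_zero
      have hV0 : 0 < V := by linarith
      have hVN' : V * (nm g : ℝ) ^ 2 ≤ Real.exp (L + c₁) := by
        have h1 := (le_div_iff₀ (by positivity)).1 hVN
        exact h1.trans hN1
      have hlV : Real.log V + 2 * Real.log (nm g) ≤ L + c₁ := by
        have h2 := Real.log_le_log (by positivity) hVN'
        rw [Real.log_mul hV0.ne' (by positivity), Real.log_pow, Real.log_exp] at h2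
        push_cast at h2
        linarith
      have hVX : V ≤ X := by
        have h1 : V * 1 ≤ V * (nm g : ℝ) ^ 2 :=
          mul_le_mul_of_nonneg_left (one_le_pow₀ hng1) hV0.le
        linarith
      have hb1 : D.D0 ^ 4 * Real.exp (m / 3 - s₀) * ((N1 L : ℝ) / Real.exp D.κ) ^ (1 / 3 : ℝ) ≤
          Eb := by
        refine le_trans ?_ hbias
        have h1 : (1 : ℝ) ≤ Real.exp g₀ := Real.one_le_exp hg₀
        have h2 : 0 ≤ D.D0 ^ 4 * Real.exp (m / 3 - s₀) *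
          ((N1 L : ℝ) / Real.exp D.κ) ^ (1 / 3 : ℝ) := by positivity
        calc _ = 1 * (D.D0 ^ 4 * Real.exp (m / 3 - s₀) *
              ((N1 L : ℝ) / Real.exp D.κ) ^ (1 / 3 : ℝ)) := (one_mul _).symm
          _ ≤ Real.exp g₀ * (D.D0 ^ 4 * Real.exp (m / 3 - s₀) *
              ((N1 L : ℝ) / Real.exp D.κ) ^ (1 / 3 : ℝ)) := mul_le_mul_of_nonneg_right h1 h2
          _ = _ := by ring
      have h1 := hlar X hX D hD Bl Bl Eb s (a + α - r) Q q₀ cc lo' x₁ s₀ d₀ hBl hBl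
        ((Real.exp_le_exp.2 hr2).trans hq₀) (by linarith) hlo' hx₁
        (fun q' ps' k' b1 b2 b3 b4 b5 b6 b7 b8 =>
          hClN q' ps' k' b1 b2 b3 (b4.mono (by linarith)) b5 b6 b7 (by linarith))
        (fun q' ps' k' b1 b2 b3 b4 b5 b6 b7 b8 =>
          hClNr q' ps' k' b1 b2 b3 (b4.mono (by linarith)) b5 b6 b7 (by linarith)) q ps hQX'
        (by linarith) g X (Real.exp g₀) Bu t V (N1 L) hgp (hg'.1.trans hXB) hX0.le hBu
        (hBuX.trans hXB) (Real.exp_pos _) (by rw [Real.log_exp]; linarith) hV hVX hN1p hVN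
        (by linarith) hb1
      rw [Real.rpow_natCast] at h1
      exact h1)
  -- conclusion
  have hρ0 : ∀ n, 0 ≤ ρ L n := fun n => by
    have h4 := hcut.anti L hL0 (show n ≤ max n (N1 L + 1) from le_max_left _ _)
    rwa [hcut.zero L hL0 (max n (N1 L + 1)) (lt_of_lt_of_le (Nat.lt_succ_self _)
      (le_max_right _ _))] at h4
  have hfin := VF_le_of_Wn (V := Real.exp k) (Real.exp_pos D.κ) (Real.exp_pos m)
    (Real.one_le_exp hk) hρ0 (hcut.one L hL0) ((Real.exp_le_exp.2 hkL).trans hN0L)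
    (hcut.le L hL0) key
  have hM : max 1 ((Real.exp k * Real.exp D.κ / Real.exp m ^ 2) ^ (1 / 3 : ℝ)) * Em =
      Real.exp (fl D.κ k m) := by
    have h1 := exp_max_eq (V := Real.exp k) (m := m) (g := 1) (κ := D.κ) (Real.exp_pos _) one_pos
    rw [Real.log_one, Real.log_exp, mul_zero, sub_zero, add_zero, one_pow, div_one, div_one]
      at h1
    rw [mul_comm, hEm, ← h1]
    rfl
  have hb2 : D.D0 ^ 4 * Real.exp (m / 3 - s₀) * (Real.exp k / Real.exp D.κ) ^ (1 / 3 : ℝ) ≤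
      Eb := by
    have h1 := bias_exp (g₀ := 0) (D0 := D.D0) (m := m) (d₀ := s₀) (L := L + c₁) (κ := D.κ)
      (N1 := Real.exp k) (bb := bb) hD0 (Real.exp_pos _) (Real.exp_le_exp.2 (by linarith))
      (by rw [hLd]; linarith)
    rwa [Real.exp_zero, one_mul] at h1
  have hbk := hback X hX D hD Br Eb s a Q (σ' + r) lo s₀ d₀ hBr
    (hClr.mono le_rfl (by linarith) (by linarith) hQQ le_rfl) q ps hQX' (by linarith)
    (by linarith [hNlD]) k hk (by linarith) hk' hb2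
  refine hbk.trans ?_
  rw [hD.J]
  set Mx := max 1 ((Real.exp k * Real.exp D.κ / Real.exp m ^ 2) ^ (1 / 3 : ℝ)) with hMx
  have hMx0 : 0 ≤ Mx := le_trans zero_le_one (le_max_left _ _)
  have hXε : 1 ≤ X ^ ε := Real.one_le_rpow hX1 hε.le
  set Ex : ℝ := Real.exp (N * Real.log D.D0 + a + α) with hEx
  have hEx' : Real.exp (N * Real.log D.D0 + (a + α - r)) ≤ Ex :=
    Real.exp_le_exp.2 (by linarith)
  have hEx0 : 0 < Ex := Real.exp_pos _
  set T : ℝ := El + Br + Eb + Bl * Ex + 1 + B with hT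
  have hBlE : 0 ≤ Bl * Ex := by positivity
  have hsum : El * HJ * Em + Ms + Ml + 1 ≤ (2 * (C₁ * C₂)) * X ^ ε * (2 * T) * (HJ * Em) := by
    have hHE : 1 ≤ HJ * Em := one_le_mul_of_one_le_of_one_le hHJ1 hEm1
    have hHE0 : 0 ≤ HJ * Em := by linarith
    have hCC : 1 ≤ C₁ * C₂ := one_le_mul_of_one_le_of_one_le hC₁ hC₂
    have c1 : 1 ≤ (C₁ * C₂) * X ^ ε := one_le_mul_of_one_le_of_one_le hCC hXε
    have hc0 : 0 ≤ (C₁ * C₂) * X ^ ε := by linarith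
    have d1 : El * HJ * Em ≤ (C₁ * C₂) * X ^ ε * El * (HJ * Em) := by
      calc El * HJ * Em = 1 * (El * (HJ * Em)) := by ring
        _ ≤ ((C₁ * C₂) * X ^ ε) * (El * (HJ * Em)) :=
            mul_le_mul_of_nonneg_right c1 (by positivity)
        _ = _ := by ring
    have d2 : Ms ≤ (C₁ * C₂) * X ^ ε * (B + Br + Eb) * (HJ * Em) := by
      rw [hMs]
      calc C₁ * X ^ ε * (B + Br + Eb) * HJ * Em =
            C₁ * 1 * (X ^ ε * (B + Br + Eb) * (HJ * Em)) := by ring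
        _ ≤ C₁ * C₂ * (X ^ ε * (B + Br + Eb) * (HJ * Em)) :=
            mul_le_mul_of_nonneg_right (mul_le_mul_of_nonneg_left hC₂ (by linarith))
              (by positivity)
        _ = _ := by ring
    have d3 : Ml ≤ (C₁ * C₂) * X ^ ε * ((Bl + Bl) * Ex + Eb) * (HJ * Em) := by
      rw [hMl]
      calc C₂ * X ^ ε * ((Bl + Bl) * Real.exp (N * Real.log D.D0 + (a + α - r)) + Eb) * HJ * Em ≤
            C₂ * X ^ ε * ((Bl + Bl) * Ex + Eb) * HJ * Em := by gcongr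
        _ = 1 * C₂ * (X ^ ε * ((Bl + Bl) * Ex + Eb) * (HJ * Em)) := by ring
        _ ≤ C₁ * C₂ * (X ^ ε * ((Bl + Bl) * Ex + Eb) * (HJ * Em)) :=
            mul_le_mul_of_nonneg_right (mul_le_mul_of_nonneg_right hC₁ (by linarith))
              (by positivity)
        _ = _ := by ring
    have d4 : 1 ≤ (C₁ * C₂) * X ^ ε * 1 * (HJ * Em) := by
      rw [mul_one]
      exact one_le_mul_of_one_le_of_one_le c1 hHE
    have d5 : (C₁ * C₂) * X ^ ε * (El + (B + Br + Eb) + ((Bl + Bl) * Ex + Eb) + 1) * (HJ * Em) ≤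
        (C₁ * C₂) * X ^ ε * (2 * (2 * T)) * (HJ * Em) := by
      refine mul_le_mul_of_nonneg_right (mul_le_mul_of_nonneg_left ?_ hc0) hHE0
      rw [hT, add_mul]
      exact arith_a hEl hB hBr hEb0.le hBlE
    calc El * HJ * Em + Ms + Ml + 1 ≤ (C₁ * C₂) * X ^ ε *
          (El + (B + Br + Eb) + ((Bl + Bl) * Ex + Eb) + 1) * (HJ * Em) := arith_c d1 d2 d3 d4
      _ ≤ _ := d5
      _ = _ := by ring
  have hT0 : 0 ≤ T := by rw [hT]; positivity
  have hf0 : 0 ≤ HJ * Real.exp (fl D.κ k m) := by positivity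
  have h2e : X ^ ε * X ^ ε = X ^ (2 * ε) := by
    rw [← Real.rpow_add hX0]; congr 1; ring
  have hX2 : X ^ ε ≤ X ^ (2 * ε) := Real.rpow_le_rpow_of_exponent_le hX1 (by linarith)
  -- the first part
  have hV1 : 3 * VF (Real.exp k) al ≤
      (3 * (C₀ * H)) * (2 * (2 * (C₁ * C₂))) * X ^ (2 * ε) * T *
        (HJ * Real.exp (fl D.κ k m)) := by
    calc 3 * VF (Real.exp k) al ≤ 3 * (Mx * (C₀ * H * X ^ ε * (El * HJ * Em + Ms + Ml + 1))) := by
          linarith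
      _ ≤ 3 * (Mx * (C₀ * H * X ^ ε * ((2 * (C₁ * C₂)) * X ^ ε * (2 * T) * (HJ * Em)))) := by
          have : 0 ≤ C₀ * H * X ^ ε := by positivity
          gcongr
      _ = (3 * (C₀ * H)) * (2 * (2 * (C₁ * C₂))) * (X ^ ε * X ^ ε) * T * (HJ * (Mx * Em)) := by
          ring
      _ = _ := by rw [h2e, hM]
  have hV2 : C₃ * X ^ ε * (Br + Eb) * Ht ps ^ J * Real.exp (fl D.κ k (LF ps)) ≤
      C₃ * X ^ (2 * ε) * T * (HJ * Real.exp (fl D.κ k m)) := by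
    have h1 : Br + Eb ≤ T := by rw [hT]; linarith only [hEl, hBlE, hB]
    calc C₃ * X ^ ε * (Br + Eb) * HJ * Real.exp (fl D.κ k m) ≤
          C₃ * X ^ (2 * ε) * T * HJ * Real.exp (fl D.κ k m) := by gcongr
      _ = _ := by ring
  have hfinal : (3 * (C₀ * H)) * (2 * (2 * (C₁ * C₂))) * X ^ (2 * ε) * T *
        (HJ * Real.exp (fl D.κ k m)) + C₃ * X ^ (2 * ε) * T * (HJ * Real.exp (fl D.κ k m)) ≤
      (2 * ((3 * (C₀ * H) + 1) * (2 * (C₁ * C₂))) + C₃) * X ^ (2 * ε) * T *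
        (HJ * Real.exp (fl D.κ k m)) := by
    have h1 : 0 ≤ X ^ (2 * ε) * T * (HJ * Real.exp (fl D.κ k m)) := by positivity
    have h2 : 0 ≤ (2 * (C₁ * C₂)) := by positivity
    have h3 := arith_b (a := 3 * (C₀ * H)) (b := 2 * (C₁ * C₂)) (c := C₃) h2 h1
    calc _ = 3 * (C₀ * H) * (2 * (2 * (C₁ * C₂))) * (X ^ (2 * ε) * T *
          (HJ * Real.exp (fl D.κ k m))) + C₃ * (X ^ (2 * ε) * T *
          (HJ * Real.exp (fl D.κ k m))) := by ring
      _ ≤ _ := h3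
      _ = _ := by ring
  calc 3 * VF (Real.exp k) al + C₃ * X ^ ε * (Br + Eb) * Ht ps ^ J *
        Real.exp (fl D.κ k (LF ps)) ≤
      (2 * ((3 * (C₀ * H) + 1) * (2 * (C₁ * C₂))) + C₃) * X ^ (2 * ε) * T *
        (HJ * Real.exp (fl D.κ k m)) := (add_le_add hV1 hV2).trans hfinal
    _ = _ := by rw [hT]; ring


end Crest.Agent.R017.NX848
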