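import Crest.Agent.R017.NXa_848

/-!
# Row 17, near field (FlatNE), exceptional class (helper848), part b: the recursion

* `lg3_of` : the first lengths of the derived lists
* `rg_X_g` : `rg_X` (RXi_848) with the boundary `g₀ m = min cc (m - (n - cc))` and the gain
  `s₀ m = d₀ - (n - m)⁺`: the flat claims of the terminal range are only used near `n - cc`
-/

set_option autoImplicit false
set_option maxHeartbeats 1600000

noncomputable section

open Complex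
open scoped ComplexConjugate

namespace Crest.Agent.R017.NX848

open Crest.Agent.R012 Crest.Agent.R012.Eis Crest.Agent.R012.LS2 Crest.Agent.R012.Gauss880
open Crest.Agent.R012.MC (Wgt)
open Crest.Agent.R012.Weight600 (osc pw)
open Crest.Agent.R017.CM106 Crest.Agent.R017.HP842 Crest.Agent.R017.FE47
open Crest.Agent.R017.End699 hiding pw
open Crest.Agent.R017.B770
open Crest.Agent.R017.Prov71
open Crest.Agent.R017.Rough381 (VF VF_nonneg)
open Crest.Agent.R017.Leg381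
open Crest.Agent.R017.RG64 (Dat Ht Ht_nil Ht_cons one_le_Ht cstF_nonneg Ht_le_cst Sb SbL LF_cons
  LF_nonneg z_le_LF NT Ge NTGe fl ex0 exJ ex0_le_fl LBn Abs4 Cut SbL_natl rg_const rg_thr)
open Crest.Agent.R017.LegK545 (VK SFK JBK VK_nonneg)
open Crest.Agent.R017.RGK545 (ClXK ClK ClNK)
open Crest.Agent.R017.PX764 (Dk)
open Crest.Agent.R017.Dk848 (ker_Dk)
open Crest.Agent.R017.RX298
open Crest.Agent.R017.RXi848 (Lg2B LF_le_len)

lemma lg3_of {s x y d₀ Nr : ℝ} (hs : 0 ≤ s) (hd₀ : 0 ≤ d₀) {ps : List Pf} {ps₀ : List Pq}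
    (h : SbL s ps ps₀) (hx : Lg2B x ps₀) (hn : LF (natl ps₀) - LF ps ≤ y) (hy : 0 ≤ y)
    (hN : (ps₀.length : ℝ) ≤ Nr) (hd : d₀ + Nr * s ≤ x) : Lg3 (d₀ - y) d₀ ps := by
  match ps, ps₀, h, hx with
  | [], [], _, hx => exact hx.elim
  | [_], [_], _, hx => exact hx.elim
  | p :: p' :: ps, q :: q' :: ps₀, h, hx =>
    unfold SbL at h
    cases h with
    | cons h1 h =>
      cases h with
      | cons h2 h =>
        obtain ⟨x1, x2⟩ := hx
        have e1 : natl (q :: q' :: ps₀) = (q, false) :: (q', false) :: natl ps₀ := rfl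
        rw [e1, LF_cons, LF_cons, LF_cons, LF_cons] at hn
        have h3 := LF_le_len hs h
        have h4 : p.1.z ≤ q.z + s := h1.2.2.2.2
        have h5 : p'.1.z ≤ q'.z + s := h2.2.2.2.2
        have h6 : (((q :: q' :: ps₀).length : ℕ) : ℝ) = ps₀.length + 2 := by
          rw [List.length_cons, List.length_cons]; push_cast; ring
        have h7 : ((ps₀.length : ℝ) + 2) * s ≤ Nr * s := by
          refine mul_le_mul_of_nonneg_right ?_ hs
          rw [← h6]; exact hN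
        have h8 : 0 ≤ Nr * s := le_trans (by positivity) h7
        show d₀ - y ≤ p.1.z ∧ d₀ - y ≤ p'.1.z ∧ d₀ - y ≤ p.1.z + p'.1.z - d₀
        have e2 : ((q, false) : Pf).1.z = q.z := rfl
        have e3 : ((q', false) : Pf).1.z = q'.z := rfl
        rw [e2, e3] at hn
        refine ⟨by linarith, by linarith, by linarith⟩

set_option maxHeartbeats 6400000 in
/-- **the recursion with its parameters, exceptional class**, claims only near `n - cc` -/
theorem rg_X_g {h : ℝ → ℝ} {c : ℝ} (hpu : PU h c) (N : ℕ) {w : ℝ → ℝ} (hab : Abs4 w)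
    {R Ca c₁ δ ε₁ e₃ ε J B₀ : ℝ} {m Jn Aw : ℕ} (hR : 0 ≤ R) (hAL : XDp h N R Ca) (hc₁ : 0 ≤ c₁)
    (hδ : 0 < δ) (hε₁ : 0 < ε₁) (hε₁1 : ε₁ ≤ 1 / 16) (he₃ : 0 < e₃) (hε : 0 < ε) (hJ : 6 ≤ J)
    (hJn : (N : ℝ) * J ≤ Jn) (hJ12 : 12 ≤ Jn) (hAw : Jn + 2 ≤ Aw) (hB₀ : 1 ≤ B₀)
    (hm : 4 ≤ m * δ) (hme : 8 * (m * e₃) ≤ ε₁) (hNδ : 4 * (N * δ) ≤ ε₁) :
    ∃ Cw η₀ C S X₁ : ℝ, 0 ≤ Cw ∧ 0 < η₀ ∧ η₀ ≤ 1 / 2 ∧ 1 ≤ C ∧ 0 ≤ S ∧ ∀ X : ℝ, 3 ≤ X → X₁ ≤ X →
    ∀ D : Dat, DX h N J B₀ X D → D.D0 = X ^ δ → D.z = D.D0 →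
    (∀ p ∈ D.ps₀, 0 ≤ p.z) → D.n = LF (natl D.ps₀) → 0 ≤ D.κ → 0 ≤ D.v →
    D.n ≤ Real.log X / 4 → D.v ≤ Real.log X / 4 → 2 * D.n ≤ D.κ + D.v →
    ∀ (N0 N1 : ℝ → ℕ) (ρ : ℝ → ℕ → ℝ), Cut N0 N1 ρ c₁ →
    ∀ (cc Bd El d₀ bb : ℝ) (Dd : ℝ → ℝ), 0 ≤ cc → cc ≤ Real.log X / 8 →
    0 ≤ Bd → 0 ≤ El → (∀ m : ℝ, Real.exp (min cc (m - (D.n - cc))) ≤ Dd m) → cc ≤ d₀ →
    Lg2B (d₀ + ε₁ * Real.log X) D.ps₀ →
    cc + 4 * (δ * Real.log X) - d₀ + (D.v + D.n + 2 * (ε₁ * Real.log X) - D.κ) / 3 ≤ bb →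
    ClNK Dk D (exJ D.κ D.v D.n cc) Bd S (3 * (ε₁ * Real.log X)) (C * Real.exp D.n) 0
      (D.n - cc + ε₁ * Real.log X) →
    ClNK Dk D (ex0 D.κ) Bd S (3 * (ε₁ * Real.log X)) (C * Real.exp D.n)
      (D.n - cc - ε₁ * Real.log X) (D.n - cc + ε₁ * Real.log X) →
    ClNK Dk (Dr d₀ D) (exJ D.κ D.v D.n cc) Bd (2 * S) (3 * (ε₁ * Real.log X))
      (C * Real.exp D.n) 0 (D.n - cc + ε₁ * Real.log X) →
    ClNK Dk (Dr d₀ D) (ex0 D.κ) Bd (2 * S) (3 * (ε₁ * Real.log X)) (C * Real.exp D.n)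
      (D.n - cc - ε₁ * Real.log X) (D.n + ε₁ * Real.log X) →
    (∀ a : ℝ, ε₁ * Real.log X ≤ a → a ≤ 2 * (ε₁ * Real.log X) → ∀ (q : Eis) (ps : List Pf),
      IsPrim q → (nm q : ℝ) * Real.exp (LF ps) ≤ C * Real.exp D.n → NT ps →
      SbL S ps D.ps₀ → D.n - cc ≤ LF ps →
      LBn w Cw η₀ Aw (Real.exp D.κ) (Real.exp (LF ps)) X (Dd (LF ps))
        (N1 (D.v + (D.n - LF ps) + a + e₃ * Real.log X))
        (ρ (D.v + (D.n - LF ps) + a + e₃ * Real.log X)) R Jn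
        (xs q D.z D.D0 D.P D.h d₀ ps) (El * Ht ps ^ J * Real.exp (2 * LF ps))) →
    ∀ k : ℝ, 0 ≤ k → k ≤ D.v → SFK Dk D.z D.D0 1 D.P D.h k (natl D.ps₀) ≤
      C * X ^ (3 * (m * ε) + 5 * ε + 4 * ε₁) * (El + Bd + Real.exp bb + 1) *
        Ht (natl D.ps₀) ^ J * Real.exp (fl D.κ k D.n) := by
  classical
  have hJ0 : (0 : ℝ) ≤ J := by linarith
  have hN0 : (0 : ℝ) ≤ N := Nat.cast_nonneg _
  have hm0 : (0 : ℝ) ≤ m := Nat.cast_nonneg _
  obtain ⟨C₁, r₁, hC₁, hr₁, hleg⟩ := RGK545.leg_step2 ker_Dk hpu N hε hJ0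
  obtain ⟨Cw, C₂, η₀, r₂, X₂, hCw, hC₂, hη₀, hη₀1, hr₂, hnt⟩ :=
    nt_step_x_g hpu N hab hJ he₃ hε hR hJn hJ12 hAw hAL hc₁ hB₀
  obtain ⟨C₃, r₃, hC₃, hr₃, hop⟩ := RGK545.open_num ker_Dk hpu N hε hJ0
  obtain ⟨r, hr1, hr2, hr3⟩ : ∃ r : ℝ, r₁ ≤ r ∧ r₂ ≤ r ∧ r₃ ≤ r :=
    ⟨max r₁ (max r₂ r₃), le_max_left _ _, (le_max_left _ _).trans (le_max_right _ _),
      (le_max_right _ _).trans (le_max_right _ _)⟩
  have hr0 : 0 ≤ r := hr₁.trans hr1
  set q₀ : ℝ := Real.exp ((N + 1) * r) with hq₀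
  have hq₀1 : 1 ≤ q₀ := Real.one_le_exp (by positivity)
  have hqN : Real.exp (N * r) ≤ q₀ := Real.exp_le_exp.2 (by linarith)
  have hqr : Real.exp r ≤ q₀ := Real.exp_le_exp.2 (by nlinarith)
  set S : ℝ := m * (2 * r) + r with hS
  have hS0 : 0 ≤ S := by positivity
  set Cq : ℝ := (q₀ ^ 2) ^ m * q₀ with hCq
  have hCq1 : 1 ≤ Cq := one_le_mul_of_one_le_of_one_le (one_le_pow₀ (one_le_pow₀ hq₀1)) hq₀1
  set Cf : ℝ := (3 * (C₁ * C₂)) ^ m * (2 * (C₂ * C₃)) with hCf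
  have hCf1 : 1 ≤ Cf := by
    have h1 : 1 ≤ C₁ * C₂ := one_le_mul_of_one_le_of_one_le hC₁ hC₂
    have h2 : 1 ≤ C₂ * C₃ := one_le_mul_of_one_le_of_one_le hC₂ hC₃
    exact one_le_mul_of_one_le_of_one_le (one_le_pow₀ (by linarith)) (by linarith)
  -- the threshold
  set T : ℝ := (16 * (m + 1) * (N + 1) * (r + 1) * (c₁ + 1) + 16 * R) / (δ * ε₁) +
    (16 * (m + 1) * (N + 1) * (r + 1) * (c₁ + 1) + 16 * R) / ε₁ +
    (16 * (m + 1) * (N + 1) * (r + 1) * (c₁ + 1) + 16 * R) / δ with hT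
  set U : ℝ := 16 * (m + 1) * (N + 1) * (r + 1) * (c₁ + 1) + 16 * R with hU
  have hU0 : 0 ≤ U := by positivity
  have hqf : 1 ≤ Cq * Cf := one_le_mul_of_one_le_of_one_le hCq1 hCf1
  have hCC : 1 ≤ Cq * Cf * (2 * C₃) := one_le_mul_of_one_le_of_one_le hqf (by linarith)
  refine ⟨Cw, η₀, Cq * Cf * (2 * C₃), S, max X₂ (max (Real.exp T) ((Cq * Cf * (2 * C₃)) ^ 2)),
    hCw, hη₀, hη₀1, hCC, hS0, ?_⟩
  intro X hX hXT D hDX hD0 hz hz0 hn hκ hv hn4 hv4 h2n N0 N1 ρ hcut cc Bd El d₀ bb Dd hcc hcc8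
    hBd hEl hDd hccd hLg hbb hClJ hClT hClJr hClTr hLB k hk hkv
  have hP := hDX.ok
  have hh := hDX.hh
  have hDJ := hDX.J
  have hN := hDX.len
  have hX1 : (1 : ℝ) ≤ X := by linarith
  have hX0 : 0 < X := by linarith
  set l : ℝ := Real.log X with hl
  have hl0 : 0 ≤ l := Real.log_nonneg hX1
  have hXT1 : Real.exp T ≤ X := (le_max_left _ _).trans ((le_max_right _ _).trans hXT)
  have hXC : (Cq * Cf * (2 * C₃)) ^ 2 ≤ X := (le_max_right _ _).trans ((le_max_right _ _).trans hXT)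
  have hTl : T ≤ l := by
    rw [hl, ← Real.log_exp T]
    exact Real.log_le_log (Real.exp_pos _) hXT1
  have hUδ : U ≤ δ * l := by
    have h1 : U / δ ≤ l := by
      refine le_trans ?_ hTl
      rw [hT]
      have : 0 ≤ U / (δ * ε₁) := by positivity
      have : 0 ≤ U / ε₁ := by positivity
      linarith
    rwa [div_le_iff₀ hδ, mul_comm] at h1
  have hUε : U ≤ ε₁ * l := by
    have h1 : U / ε₁ ≤ l := by
      refine le_trans ?_ hTl
      rw [hT]
      have : 0 ≤ U / (δ * ε₁) := by positivity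
      have : 0 ≤ U / δ := by positivity
      linarith
    rwa [div_le_iff₀ hε₁, mul_comm] at h1
  have hεl : 0 ≤ ε₁ * l := by positivity
  -- consequences of the threshold
  obtain ⟨w1, w2, w3, w4, w5, w6, w7, hεl16⟩ :=
    rg_thr (n := (N : ℝ)) (m := (m : ℝ)) (e₃ := e₃) hN0 hm0 hr0 hc₁ hR hS hl0 hU hUδ hUε hm hme
      hNδ hε₁1
  have hlD : Real.log D.D0 = δ * l := by rw [hD0, Real.log_rpow hX0]
  have hD01 : 1 ≤ D.D0 := by rw [hD0]; exact Real.one_le_rpow hX1 hδ.le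
  have hδl : 0 ≤ δ * l := by positivity
  have hn0 : 0 ≤ D.n := by
    rw [hn]; exact LF_nonneg (by
      intro p hp
      unfold natl at hp
      obtain ⟨q, hq, rfl⟩ := List.mem_map.1 hp
      exact hz0 q hq)
  -- moduli
  have hCX : Cq * Cf * (2 * C₃) * Real.exp D.n ≤ X ^ B₀ := by
    have g1 : (Cq * Cf * (2 * C₃)) ≤ X ^ (1 / 2 : ℝ) := by
      rw [← Real.sqrt_eq_rpow]
      exact Real.le_sqrt_of_sq_le hXC
    have g2 : Real.exp D.n ≤ X ^ (1 / 2 : ℝ) := by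
      rw [Real.rpow_def_of_pos hX0, ← hl]
      exact Real.exp_le_exp.2 (by linarith)
    calc Cq * Cf * (2 * C₃) * Real.exp D.n ≤ X ^ (1 / 2 : ℝ) * X ^ (1 / 2 : ℝ) := by gcongr
      _ = X ^ (1 : ℝ) := by rw [← Real.rpow_add hX0]; norm_num
      _ ≤ X ^ B₀ := Real.rpow_le_rpow_of_exponent_le hX1 hB₀
  -- the parameters
  set e : ℝ := δ * l / 2 with he
  set α : ℝ := e₃ * l + c₁ + r with hα
  set σ₀ : ℝ := D.n - cc with hσ₀
  set lo : ℝ := D.n - cc - 2 * (N * (δ * l)) - (N + 1) * r with hlo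
  have hmα : ε₁ * l + m * (2 * α) + r ≤ 2 * (ε₁ * l) := w5
  have he3l : 0 ≤ e₃ * l := by positivity
  have hα0 : r ≤ α := by
    rw [hα]
    linarith
  have hαX : e₃ * Real.log X + c₁ + r₂ ≤ α := by rw [hα]; linarith
  have hme' : l ≤ m * e := w6
  have hNS : 0 ≤ N * S := by positivity
  have hNδ0 : 0 ≤ N * (δ * l) := by positivity
  have hNr : 0 ≤ N * r := by positivity
  have hcc0 : 0 ≤ cc := hcc
  have hd₀ : 0 ≤ d₀ := hcc0.trans hccd
  have hLFle : ∀ (s' : ℝ) (ps : List Pf), 0 ≤ s' → s' ≤ S → SbL s' ps D.ps₀ →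
      LF ps ≤ D.n + N * S := by
    intro s' ps h0 h1 h2
    have := h2.LF_le h0 hN
    rw [← hn] at this
    have : (N : ℝ) * s' ≤ N * S := mul_le_mul_of_nonneg_left h1 hN0
    linarith
  have hLFler : ∀ (s' : ℝ) (ps : List Pf), 0 ≤ s' → s' ≤ 2 * S → SbL s' ps (Dr d₀ D).ps₀ →
      LF ps ≤ D.n + N * (2 * S) := by
    intro s' ps h0 h1 h2
    have h3 : (Dr d₀ D).ps₀.length ≤ N := by
      show (rpB d₀ D.ps₀).length ≤ N
      rw [rpB_length]; exact hN
    have := h2.LF_le h0 h3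
    have e1 : LF (natl (Dr d₀ D).ps₀) = D.n := by
      show LF (natl (rpB d₀ D.ps₀)) = D.n
      rw [LF_natl_rpB, hn]
    rw [e1] at this
    have : (N : ℝ) * s' ≤ N * (2 * S) := mul_le_mul_of_nonneg_left h1 hN0
    linarith
  have hNr3 : (N : ℝ) * r₃ ≤ N * r := mul_le_mul_of_nonneg_left hr3 hN0
  have hQc : Real.exp D.n * (q₀ ^ 2) ^ m * q₀ ≤ Cq * Cf * (2 * C₃) * Real.exp D.n := by
    rw [hCq]
    have g1 : 1 ≤ Cf * (2 * C₃) := one_le_mul_of_one_le_of_one_le hCf1 (by linarith)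
    calc Real.exp D.n * (q₀ ^ 2) ^ m * q₀ = ((q₀ ^ 2) ^ m * q₀) * Real.exp D.n * 1 := by ring
      _ ≤ ((q₀ ^ 2) ^ m * q₀) * Real.exp D.n * (Cf * (2 * C₃)) :=
          mul_le_mul_of_nonneg_left g1 (by positivity)
      _ = _ := by ring
  -- the terminal range
  have hterm : ClK Dk D (Ge lo) (C₃ * X ^ ε * Bd) (0 + m * (2 * r)) (ε₁ * l + m * (2 * α))
      (Real.exp D.n * (q₀ ^ 2) ^ m) σ₀ := by
    have h1 := hop X hX D hP hh hD01 hDJ hN Bd (0 + m * (2 * r)) (ε₁ * l + m * (2 * α))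
      (Real.exp D.n * (q₀ ^ 2) ^ m) q₀ lo (D.n - cc - ε₁ * l) σ₀ (D.n - cc + ε₁ * l) hBd
      ((Real.exp_le_exp.2 (mul_le_mul_of_nonneg_left hr3 hN0)).trans hqN)
      (fun ps h1 h2 h3 => by
        constructor
        · rw [hσ₀] at h2; linarith
        · rw [hlo] at h3; linarith)
      (by
        rw [hσ₀]
        linarith)
      (by
        rw [hlo, hlD]
        linarith)
      (fun q ps' k' b1 b2 b3 b4 b5 b6 b7 b8 => hClT q ps' k' b1 (b2.trans hQc)
        b3 (b4.mono (by rw [hS]; linarith)) b5 b6 b7 (by linarith))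
    exact h1.expo (by positivity) (fun k m => ex0_le_fl D.κ k m)
  -- the replaced lists
  have hrepl : ClXK Dk (ex0 D.κ) (Dr d₀ D) (Ge lo) (C₃ * X ^ ε * Bd) (2 * (m * (2 * r)) + r)
      (ε₁ * l + m * (2 * α)) (Real.exp D.n * (q₀ ^ 2) ^ m) (D.n + N * (2 * S)) := by
    refine hop X hX (Dr d₀ D) hP hh hD01 hDJ (by
        show (rpB d₀ D.ps₀).length ≤ N
        rw [rpB_length]; exact hN) Bd (2 * (m * (2 * r)) + r) (ε₁ * l + m * (2 * α))
      (Real.exp D.n * (q₀ ^ 2) ^ m) q₀ lo (D.n - cc - ε₁ * l) (D.n + N * (2 * S))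
      (D.n + ε₁ * l) hBd
      ((Real.exp_le_exp.2 (mul_le_mul_of_nonneg_left hr3 hN0)).trans hqN)
      (fun ps h1 h2 h3 => by
        constructor
        · linarith
        · rw [hlo] at h3
          show D.v + (D.n - LF ps) + (ε₁ * l + m * (2 * α)) ≤ l
          linarith)
      (by linarith)
      (by
        show D.n - cc - ε₁ * l ≤ lo - N * (Real.log D.D0 + r₃)
        rw [hlo, hlD]
        linarith)
      (fun q ps' k' b1 b2 b3 b4 b5 b6 b7 b8 => hClTr q ps' k' b1 (b2.trans hQc)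
        b3 (b4.mono (by rw [hS]; linarith)) b5 b6 b7 (by linarith))
  -- the recursion
  set Bd' : ℝ := C₃ * X ^ ε * Bd with hBd'
  have hBd'0 : 0 ≤ Bd' := by positivity
  have hXε : 1 ≤ X ^ ε := Real.one_le_rpow hX1 hε.le
  have hBB : Bd ≤ Bd' := by
    rw [hBd']
    exact le_mul_of_one_le_left hBd (one_le_mul_of_one_le_of_one_le hC₃ hXε)
  set El' : ℝ := El + Real.exp bb + Bd' with hEl'
  have hEl'0 : 0 ≤ El' := by positivity
  set Gc : ℝ := C₂ * X ^ (2 * ε) * (El' + Bd' * Real.exp (N * (δ * l) + 2 * (ε₁ * l)) + 1)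
    with hGc
  have hrec := RGK545.rec_j (Kn := Dk) (D := D) (N := N) (C₁ := C₁ * X ^ ε)
    (C₂ := C₂ * X ^ (2 * ε)) (G := Gc)
    (B₀ := Bd') (r := r) (e := e) (α := α) (q₀ := q₀) (lo := lo) (σ₀ := σ₀)
    (one_le_mul_of_one_le_of_one_le hC₁ hXε)
    (by positivity) (by rw [hGc]; positivity) (by positivity) hr0 hα0 hq₀1 (by rw [he]; positivity)
    (s := 0) (a := ε₁ * l) (Q := Real.exp D.n) (Real.exp_pos _).le m hterm
    (by rw [hlo, hσ₀, hlD]; linarith)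
    (by
      intro B B' s' a' Q' σ' hB hB' h1 h2 h3 h4 h5 h6 h7
      have h8 := hleg X hX D hP hh hD01 hDJ hN B B' s' a' Q' q₀ σ' e lo hB hB'
        ((Real.exp_le_exp.2 (mul_le_mul_of_nonneg_left hr1 hN0)).trans hqN)
        (fun ps c1 c2 c3 => by
          have c4 := hLFle s' ps h1 (by rw [hS]; linarith) c1
          constructor
          · linarith
          · rw [hlo] at c3; linarith)
        (by
          rw [hlD, he]
          have : ((N : ℝ) + 1) * r₁ ≤ (N + 1) * r := mul_le_mul_of_nonneg_left hr1 (by linarith)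
          linarith)
        (h6.mono le_rfl (by linarith) (by linarith) le_rfl (by
          have : (N : ℝ) * r₁ ≤ N * r := mul_le_mul_of_nonneg_left hr1 hN0
          linarith))
        (h7.mono le_rfl (by linarith) (by linarith) le_rfl le_rfl)
      refine h8.weaken fun ps hps => ?_
      have h9 : lo + N * (2 * Real.log D.D0 + r) ≤ LF ps := hps
      show lo + N * (2 * Real.log D.D0 + r₁) ≤ LF ps
      have : (N : ℝ) * r₁ ≤ N * r := mul_le_mul_of_nonneg_left hr1 hN0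
      linarith)
    (by
      intro B s' a' Q' σ' hB h1 h2 h3 h4 h5 h6 h7 h8
      have hs'S : s' + r ≤ S := by rw [hS]; linarith
      have hQm : Real.exp D.n * (q₀ ^ 2) ^ m ≤ Cq * Cf * (2 * C₃) * Real.exp D.n := by
        refine le_trans ?_ hQc
        exact le_mul_of_one_le_right (by positivity) hq₀1
      have hQ' : Q' ≤ Cq * Cf * (2 * C₃) * Real.exp D.n := by
        have : Q' ≤ Q' * q₀ := le_mul_of_one_le_right h5 hq₀1
        linarith
      have h9 := hnt X hX ((le_max_left _ _).trans hXT) D hDX hz hκ N0 N1 ρ hcut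
        B Bd' Bd El bb s' a' α Q' q₀ (e + N * (r - r₂)) cc (ε₁ * l) lo 0 σ₀ σ' d₀
        (fun m => d₀ - max 0 (D.n - m)) (fun m => min cc (m - (D.n - cc))) Dd hB hBd'0
        hBd hEl h1 (by linarith) hd₀ ((Real.exp_le_exp.2 hr2).trans hqr) hαX
        (by
          rw [hlD, he]
          have q1 : (e + N * (r - r₂)) + (N + 1) * r₂ = e + N * r + r₂ := by ring
          rw [← he, q1, he]
          linarith)
        le_rfl hεl le_rfl
        (hQ'.trans hCX)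
        (fun ps c1 c2 c3 => by
          have c4 := hLFle s' ps h1 (by linarith) c1
          rw [hσ₀] at c3
          have g1 : min cc (LF ps - (D.n - cc)) ≤ cc := min_le_left _ _
          have g2 : min cc (LF ps - (D.n - cc)) ≤ LF ps - (D.n - cc) := min_le_right _ _
          have g3 : LF ps - (ε₁ * l - r₂) - (D.n - cc) ≤ min cc (LF ps - (D.n - cc)) :=
            le_min (by linarith) (by linarith)
          have g4 : max 0 (D.n - LF ps) ≤ cc := max_le hcc0 (by linarith)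
          have g5 : 0 ≤ max 0 (D.n - LF ps) := le_max_left _ _
          have g6 : min cc (LF ps - (D.n - cc)) + max 0 (D.n - LF ps) ≤ cc := by
            rcases max_cases 0 (D.n - LF ps) with ⟨h, _⟩ | ⟨h, _⟩ <;> rw [h] <;> linarith
          have hNs : (N : ℝ) * s' ≤ N * S := mul_le_mul_of_nonneg_left (by linarith) hN0
          refine ⟨by linarith, by linarith, by linarith, by linarith, by linarith, ?_,
            le_min hcc0 (by linarith), hDd _, ?_, by linarith,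
            by linarith, ?_⟩
          · exact lg3_of (Nr := N) h1 hd₀ c1 hLg (by rw [← hn]; exact le_max_right _ _) g5
              (by exact_mod_cast hN) (by linarith)
          · rw [hlo, hlD]; linarith
          · rw [hlD]
            have : a' + e₃ * l + c₁ ≤ 2 * (ε₁ * l) := by linarith
            linarith)
        (h8.mono le_rfl (by linarith) le_rfl le_rfl (by linarith))
        (by
          intro q ps' k' b1 b2 b3 b4 b5 b6 b7
          have b8 := hLFler (2 * s' + r₂) ps' (by linarith) (by linarith) b4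
          exact hrepl q ps' k' b1 (b2.trans h6) b3 (b4.mono (by linarith)) b8 b6
            (by linarith))
        (fun q ps' k' b1 b2 b3 b4 b5 b6 b7 b8 => hClJ q ps' k' b1 (by linarith)
          b3 (b4.mono (by linarith)) b5 b6 b7 (by linarith))
        (fun q ps' k' b1 b2 b3 b4 b5 b6 b7 b8 => hClJr q ps' k' b1 (by linarith)
          b3 (b4.mono (by linarith)) b5 b6 b7 (by linarith))
        (fun q ps c1 c2 c3 c4 c5 c6 => hLB a' h3 (by linarith) q ps c1 (by linarith) c3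
          (c4.mono (by linarith)) c5)
      refine h9.mono ?_ le_rfl le_rfl le_rfl le_rfl
      have h10 : Real.exp (N * Real.log D.D0 + a' + α) ≤
          Real.exp (N * (δ * l) + 2 * (ε₁ * l)) := by
        rw [hlD]; exact Real.exp_le_exp.2 (by linarith)
      have h11 : El + Bd' + Real.exp bb + Bd * Real.exp (N * Real.log D.D0 + a' + α) + 1 ≤
          El' + Bd' * Real.exp (N * (δ * l) + 2 * (ε₁ * l)) + 1 := by
        have : Bd * Real.exp (N * Real.log D.D0 + a' + α) ≤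
            Bd' * Real.exp (N * (δ * l) + 2 * (ε₁ * l)) :=
          mul_le_mul hBB h10 (Real.exp_pos _).le hBd'0
        rw [hEl']
        linarith
      rw [hGc]
      gcongr)
  -- the conclusion
  have hfin := hrec 1 (natl D.ps₀) k isPrim_one (by
      rw [nm_one, ← hn]; push_cast; linarith) (by
      show lo ≤ LF (natl D.ps₀)
      rw [← hn, hlo]; linarith) (SbL_natl hz0) (by
      rw [← hn, hσ₀]; linarith) hk (by rw [← hn]; linarith)
  rw [← hn] at hfin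
  refine hfin.trans ?_
  rw [hDJ]
  have hHt := one_le_Ht (natl D.ps₀)
  have hHJ : 0 ≤ Ht (natl D.ps₀) ^ J := Real.rpow_nonneg (by linarith) _
  refine mul_le_mul_of_nonneg_right ?_ (Real.exp_pos _).le
  refine mul_le_mul_of_nonneg_right ?_ hHJ
  have hE0 : Real.exp (N * (δ * l) + 2 * (ε₁ * l)) ≤ X ^ (3 * ε₁) := by
    rw [Real.rpow_def_of_pos hX0]
    refine Real.exp_le_exp.2 ?_
    rw [← hl]
    linarith
  have hB3 : Bd' ≤ C₃ * X ^ ε * Bd' :=
    le_mul_of_one_le_left hBd'0 (one_le_mul_of_one_le_of_one_le hC₃ hXε)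
  have k1 := rg_const (m := m) (El := El') (Bd := Bd') hC₁ hC₂ hC₃ hCq1 hX1 hε hε₁ hBd'0 hEl'0
    hE0 (Real.exp_pos _).le
  have k2 : (C₁ * X ^ ε * (2 + C₂ * X ^ (2 * ε))) ^ m * (Gc + Bd') ≤
      (C₁ * X ^ ε * (2 + C₂ * X ^ (2 * ε))) ^ m *
        (C₂ * X ^ (2 * ε) * (El' + Bd' * Real.exp (N * (δ * l) + 2 * (ε₁ * l)) + 1) +
          C₃ * X ^ ε * Bd') := by
    rw [hGc]
    refine mul_le_mul_of_nonneg_left (by linarith) (by positivity)
  refine (k2.trans k1).trans ?_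
  have k3 : El' + Bd' + 1 ≤ (2 * C₃) * X ^ ε * (El + Bd + Real.exp bb + 1) := by
    rw [hEl', hBd']
    have j1 : 1 ≤ (2 * C₃) * X ^ ε := one_le_mul_of_one_le_of_one_le (by linarith) hXε
    have j2 : 1 * (El + Real.exp bb + 1) ≤ (2 * C₃) * X ^ ε * (El + Real.exp bb + 1) :=
      mul_le_mul_of_nonneg_right j1 (by positivity)
    linarith
  have k4 : X ^ (3 * (m * ε) + 5 * ε + 4 * ε₁) = X ^ (3 * (m * ε) + 4 * ε + 4 * ε₁) * X ^ ε := by
    rw [← Real.rpow_add hX0]; congr 1; ring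
  calc (Cq * Cf) * X ^ (3 * (m * ε) + 4 * ε + 4 * ε₁) * (El' + Bd' + 1) ≤
        (Cq * Cf) * X ^ (3 * (m * ε) + 4 * ε + 4 * ε₁) *
          ((2 * C₃) * X ^ ε * (El + Bd + Real.exp bb + 1)) := by gcongr
    _ = _ := by rw [k4]; ring


end Crest.Agent.R017.NX848
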