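import Crest.Agent.R017.NRq_791
import Crest.Agent.R017.RGn_64
import Crest.Agent.R017.RXi_848

/-!
# Row 17, FlatNE, NumEq class E (helper848): the block `nm k < 2` (cube frequencies)

* `xs_fct`     : support, window and size of `xs`
* `cs_alr_le`  : the trivial bound of `CS (alr be a b) k`
* `nrqX_zero`  : `Σ_{nm k ≤ 2} ‖CS (alr be a b) k‖ ^ 2`, form of `nrqX_core` with `T = m - α`
* `nrqX_all`   : `nrqX_core` for all `0 ≤ κ`
-/

set_option autoImplicit false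
set_option linter.unusedVariables false
set_option maxHeartbeats 400000

noncomputable section

open Complex
open scoped ComplexConjugate

namespace Crest.Agent.R017.NX848

open Crest.Agent.R012 Crest.Agent.R012.Eis Crest.Agent.R012.Gauss880
open Crest.Agent.R012.LS2 (S mem_S bl mem_bl)
open Crest.Agent.R012.T411 (NCube)
open Crest.Agent.R012.Weight600 (osc pw)
open Crest.Agent.R017.CM106 Crest.Agent.R017.FE47
open Crest.Agent.R017.B770
open Crest.Agent.R017.Prov71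
open Crest.Agent.R017.HP842 (sqc)
open Crest.Agent.R017.XP699 (LL Chd cst hcost)
open Crest.Agent.R017.Leg381 (Pf alF LF natl)
open Crest.Agent.R017.Win813 (WK iA iA_nonneg)
open Crest.Agent.R017.RGw813 (bt T9)
open Crest.Agent.R017.RG64 (SbL Ht one_le_Ht)
open Crest.Agent.R017.RGB545 (Line Th TK rbx)
open Crest.Agent.R017.XPD571 (RF0 RX)
open Crest.Agent.R017.RXk848 (LnP Lmp)
open Crest.Agent.R017.RX298 (xs rpB Lg zt norm_zt rp LF_rp rp_length XDp exists_XDp)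
open Crest.Agent.R017.C70 (CbF)
open Crest.Agent.R017.SqB791 (RqLn LipT nrqX_core)

variable {Lam ι : Type*} {d : ℕ}

/-- **support, window and size of the differences** (502's `xs_facts`, copied) -/
theorem xs_fct {h : ℝ → ℝ} {c : ℝ} (hpu : PU h c) (N : ℕ) {ε : ℝ} (hε : 0 < ε) :
    ∃ R C : ℝ, 0 ≤ R ∧ 1 ≤ C ∧ ∀ P : DPar, P.OK → ∀ (q : Eis) (z D0 d₀ : ℝ) (ps : List Pf),
      ps.length ≤ N → ∀ Y : ℝ, C ≤ Y → Real.exp R * Real.exp (LF ps) ≤ Y →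
      FS (xs q z D0 P h d₀ ps) ∧ (∀ n, xs q z D0 P h d₀ ps n ≠ 0 → n ∈ S Y) ∧
      (∀ n, xs q z D0 P h d₀ ps n ≠ 0 → Squarefree n ∧ |Real.log (nm n) - LF ps| ≤ R) ∧
      (∀ n, ‖xs q z D0 P h d₀ ps n‖ ≤ C * Y ^ ε) := by
  obtain ⟨R, Ca, hR, hCa, hX⟩ := exists_XDp hpu N
  obtain ⟨C₄, hC₄, hnl⟩ := LBo813.norm_list_le hpu N hε
  refine ⟨R, max Ca (2 * C₄), hR, hCa.trans (le_max_left _ _), ?_⟩
  intro P hP q z D0 d₀ ps hlen Y hY hRY
  have hY1 : 1 ≤ Y := by linarith [le_max_left Ca (2 * C₄)]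
  have hY0 : (0 : ℝ) ≤ Y := by linarith
  have hlenr : (rp d₀ ps).length ≤ N := by rw [rp_length]; exact hlen
  obtain ⟨a1, a2, -, hFS⟩ := hX z D0 P hP q ps (rp d₀ ps) (zt d₀ ps) hlen hlenr
    (LF_rp _ _) (norm_zt d₀ ps).le Y ((le_max_left _ _).trans hY) hRY
  refine ⟨hFS, a1, fun n hn => ⟨((mem_S hY0).1 (a1 n hn)).2.2, ?_⟩, fun n => ?_⟩
  · have := a2 n hn
    rwa [Real.log_exp] at this
  · by_cases h0 : xs q z D0 P h d₀ ps n = 0
    · rw [h0, norm_zero]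
      have : 0 ≤ max Ca (2 * C₄) := by linarith [le_max_left Ca (2 * C₄)]
      positivity
    have hn := a1 n h0
    have h1 := hnl z D0 P hP q ps hlen Y hY1 n hn
    have h1r := hnl z D0 P hP q (rp d₀ ps) hlenr Y hY1 n hn
    have h3 : ‖xs q z D0 P h d₀ ps n‖ ≤ 2 * C₄ * Y ^ ε := by
      unfold RX298.xs
      refine (norm_sub_le _ _).trans ?_
      rw [norm_mul, norm_zt, one_mul]
      linarith
    refine h3.trans ?_
    have : 2 * C₄ ≤ max Ca (2 * C₄) := le_max_right _ _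
    have h4 : 0 ≤ Y ^ ε := Real.rpow_nonneg hY0 _
    gcongr

/-- the multiples of `a` in `S Y` -/
lemma card_mul_le {Y : ℝ} (hY : 0 ≤ Y) {a : Eis} (ha : IsPrim a) (A : Finset Eis)
    (hA : ∀ n ∈ A, n ∈ S Y ∧ a ∣ n) : (A.card : ℝ) ≤ 16 * (Y / nm a) := by
  have hna : (0 : ℝ) < nm a := by exact_mod_cast nm_pos.2 ha.ne_zero
  have h1 : A ⊆ (bl (Y / nm a)).image (fun m => a * m) := by
    intro n hn
    obtain ⟨h1, m, rfl⟩ := hA n hn
    obtain ⟨h2, h3, -⟩ := (mem_S hY).1 h1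
    refine Finset.mem_image.2 ⟨m, ?_, rfl⟩
    rw [mem_bl (by positivity)]
    refine ⟨(IsPrim.of_mul_left h3 ha).ne_zero, ?_⟩
    rw [le_div_iff₀ hna]
    rw [nm_mul] at h2
    push_cast at h2
    linarith
  have h2 := (Finset.card_le_card h1).trans Finset.card_image_le
  have h3 := CR2.card_bl_le (Y := Y / nm a) (by positivity)
  calc (A.card : ℝ) ≤ ((bl (Y / nm a)).card : ℝ) := by exact_mod_cast h2
    _ ≤ _ := h3

/-- **the trivial bound of the subsequence sums** -/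
lemma cs_alr_le {be : Eis → ℂ} {Y Z M : ℝ} (hY : 0 ≤ Y) (hZ : 0 ≤ Z) (hM0 : 0 ≤ M)
    (hbe : ∀ n, be n ≠ 0 → n ∈ S Y ∧ (nm n : ℝ) ≤ Z) (hM : ∀ n, ‖be n‖ ≤ M)
    {a : Eis} (ha : IsPrim a) (b k : Eis) :
    ‖CS (CubP813.alr be a b) k‖ ≤ 16 * M * (Z / nm a) := by
  classical
  have hna : (0 : ℝ) < nm a := by exact_mod_cast nm_pos.2 ha.ne_zero
  set A : Finset Eis := (S Z).filter (fun n => a ∣ n) with hA
  have hsum : CS (CubP813.alr be a b) k = ∑ n ∈ A, CubP813.alr be a b n * sy k n := by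
    unfold CM106.CS
    apply tsum_eq_sum
    intro n hn
    by_contra h0
    refine hn ?_
    have h1 := left_ne_zero_of_mul h0
    unfold CubP813.alr at h1
    split_ifs at h1 with h2
    · obtain ⟨h3, h4⟩ := hbe n h1
      rw [hA, Finset.mem_filter]
      refine ⟨(mem_S hZ).2 ⟨h4, ((mem_S hY).1 h3).2⟩, h2.1⟩
    · exact absurd rfl h1
  rw [hsum]
  refine (norm_sum_le _ _).trans ?_
  have h1 : ∀ n ∈ A, ‖CubP813.alr be a b n * sy k n‖ ≤ M := by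
    intro n hn
    rw [hA, Finset.mem_filter] at hn
    rw [norm_mul]
    have h2 : ‖sy k n‖ ≤ 1 := CM106.norm_sy_le' ((mem_S hZ).1 hn.1).2.1
    have h3 : ‖CubP813.alr be a b n‖ ≤ M := by
      unfold CubP813.alr
      split_ifs
      · exact hM n
      · rw [norm_zero]; exact hM0
    calc _ ≤ M * 1 := mul_le_mul h3 h2 (norm_nonneg _) hM0
      _ = M := mul_one _
  refine (Finset.sum_le_card_nsmul _ _ _ h1).trans ?_
  rw [nsmul_eq_mul]
  have h2 := card_mul_le hZ ha A (fun n hn => by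
    rw [hA, Finset.mem_filter] at hn
    exact hn)
  calc (A.card : ℝ) * M ≤ 16 * (Z / nm a) * M := mul_le_mul_of_nonneg_right h2 hM0
    _ = _ := by ring

/-- the final inequality -/
lemma nrq0_final {X K ε C₀ Cf ε' b J₀ H Bd Lf t na R : ℝ} {Jn : ℕ} (hX : 3 ≤ X)
    (hC₀ : 0 ≤ C₀) (hCf : 0 ≤ Cf) (hε : 2 * (b * ε') ≤ ε)
    (hH : 1 ≤ H) (hJ : 0 ≤ J₀) (hBd : 1 ≤ Bd) (hna : 0 < na) :
    32 * (16 * (C₀ * (Cf * (X ^ b) ^ ε')) * (Real.exp (Lf + R) / na)) ^ 2 ≤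
    (X ^ K / Real.exp Lf) * ((32 * (16 * (C₀ * Cf) * Real.exp R) ^ 2 * X ^ ε * H ^ J₀ * Bd *
      Real.exp (2 * Lf)) * (1 + |t|) ^ Jn) * (X ^ ((Lf - Real.log na) / Real.log X - K) / na) := by
  have hX0 : 0 < X := by linarith
  have hX1 : 1 ≤ X := by linarith
  have hlX : 0 < Real.log X := Real.log_pos (by linarith)
  have hE : 0 < Real.exp Lf := Real.exp_pos _
  have e0 : X ^ ((Lf - Real.log na) / Real.log X - K) = Real.exp Lf / na / X ^ K := by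
    rw [Real.rpow_sub hX0, Real.rpow_def_of_pos hX0 ((Lf - Real.log na) / Real.log X)]
    congr 1
    rw [mul_div_cancel₀ _ hlX.ne', Real.exp_sub, Real.exp_log hna]
  have e1 : Real.exp (2 * Lf) = Real.exp Lf * Real.exp Lf := by rw [← Real.exp_add]; congr 1; ring
  have e2 : ((X ^ b) ^ ε') ^ 2 ≤ X ^ ε := by
    rw [← Real.rpow_mul hX0.le, ← Real.rpow_natCast, ← Real.rpow_mul hX0.le]
    refine Real.rpow_le_rpow_of_exponent_le hX1 ?_
    push_cast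
    linarith
  have e3 : 1 ≤ H ^ J₀ := Real.one_le_rpow hH hJ
  have hT : 1 ≤ (1 + |t|) ^ Jn := one_le_pow₀ (by linarith [abs_nonneg t])
  have hK : 0 < X ^ K := Real.rpow_pos_of_pos hX0 _
  have e4 : 1 ≤ H ^ J₀ * Bd * (1 + |t|) ^ Jn :=
    one_le_mul_of_one_le_of_one_le (one_le_mul_of_one_le_of_one_le e3 hBd) hT
  have e5 : 0 ≤ X ^ ε := Real.rpow_nonneg hX0.le _
  rw [e0, e1, Real.exp_add]
  calc 32 * (16 * (C₀ * (Cf * (X ^ b) ^ ε')) * (Real.exp Lf * Real.exp R / na)) ^ 2 =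
      32 * (16 * (C₀ * Cf) * Real.exp R) ^ 2 * (Real.exp Lf / na) ^ 2 *
        (((X ^ b) ^ ε') ^ 2) * 1 := by ring
    _ ≤ 32 * (16 * (C₀ * Cf) * Real.exp R) ^ 2 * (Real.exp Lf / na) ^ 2 * X ^ ε *
        (H ^ J₀ * Bd * (1 + |t|) ^ Jn) := by gcongr
    _ = _ := by
      field_simp

/-- the length of a derived list -/
lemma LF_le_N {S L : ℝ} {N : ℕ} (hS : 0 ≤ S) (hL : 0 ≤ L) {ps₀ : List Pq} {ps : List Pf}
    (hps : SbL S ps ps₀) (hlen : ps₀.length ≤ N) (hz : ∀ q ∈ ps₀, Dq.len q ≤ L) :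
    LF ps ≤ N * (L + S) := by
  have h1 := RXi848.LF_le_len hS hps
  have h2 : LF (natl ps₀) ≤ ps₀.length * L := by
    rw [← RHX116.LL_natl]
    unfold LL
    refine (List.sum_le_card_nsmul _ L ?_).trans ?_
    · intro x hx
      obtain ⟨q, hq, rfl⟩ := List.mem_map.1 hx
      exact hz q hq
    · rw [List.length_map, nsmul_eq_mul]
  have h3 : (ps₀.length : ℝ) ≤ N := by exact_mod_cast hlen
  nlinarith [mul_le_mul_of_nonneg_right h3 (add_nonneg hL hS)]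

/-- **the block `nm k ≤ 2`**, form of `nrqX_core` with `T = m - α` -/
theorem nrqX_zero {π : Lam → DPar} (hP : ∀ lam, (π lam).OK) {h : ℝ → ℝ} {c₁ : ℝ} (hpu : PU h c₁)
    (N : ℕ) {c₀ ε S : ℝ} (hc₀ : 0 ≤ c₀) (hε : 0 < ε) (hS : 0 ≤ S) {Aw : ℕ} {Cw η : ℝ}
    (hAw : 2 ≤ Aw) (hCw : 0 ≤ Cw) (hη : 0 < η) :
    ∃ C X₁ : ℝ, 0 ≤ C ∧ ∀ X : ℝ, 3 ≤ X → X₁ ≤ X → ∀ (lam : Lam) (ps₀ : List Pq),
    ps₀.length ≤ N → (∀ q ∈ ps₀, Dq.len q ≤ c₀ * Real.log X) →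
    ∀ (q : Eis) (ps : List Pf), SbL S ps ps₀ → ∀ (δ d₀ K Bd J₀ : ℝ) (Jn : ℕ), 1 ≤ Bd → 0 ≤ J₀ →
    ∀ a b : Eis, IsPrim a → ∀ p ∈ T9, ∀ (t : ℝ) (φ : ℝ → ℝ), WK Cw η Aw φ →
    ∀ A : Finset Eis, (∀ k ∈ A, IsPrim k ∧ (nm k : ℝ) ≤ 2) →
    ∑ k ∈ A, ‖CS (CubP813.alr (fun n => bt φ (xs q (X ^ δ) (X ^ δ) (π lam) h
        (d₀ * Real.log X) ps) p n * pw t (nm n)) a b) k‖ ^ 2 ≤
      (X ^ K / Real.exp (LF ps)) *
        ((C * X ^ ε * (Ht ps * Ht (natl ps₀)) ^ J₀ * Bd * Real.exp (2 * LF ps)) *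
          (1 + |t|) ^ Jn) *
        (X ^ ((LF ps - Real.log (nm a)) / Real.log X - K) / nm a) := by
  obtain ⟨b', hb'⟩ : ∃ x : ℝ, x = N * c₀ + 1 := ⟨_, rfl⟩
  have hb0 : 1 ≤ b' := by
    rw [hb']
    have : 0 ≤ (N : ℝ) * c₀ := by positivity
    linarith
  have hbp : 0 < b' := by linarith
  obtain ⟨R, Cf, hR, hCf, G⟩ := xs_fct hpu N (ε := ε / (2 * b')) (by positivity)
  refine ⟨32 * (16 * (Cw * iA Aw * Cf) * Real.exp R) ^ 2, max Cf (Real.exp (R + N * S)),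
    by positivity, ?_⟩
  intro X hX3 hXX lam ps₀ hlen hz q ps hps δ d₀ K Bd J₀ Jn hBd hJ₀ a b ha p hp t φ hφ A hA
  have hX0 : 0 < X := by linarith
  have hX1 : 1 ≤ X := by linarith
  have hlX : 0 < Real.log X := Real.log_pos (by linarith)
  have hXb : X ≤ X ^ b' := by
    calc X = X ^ (1 : ℝ) := (Real.rpow_one X).symm
      _ ≤ X ^ b' := Real.rpow_le_rpow_of_exponent_le hX1 hb0
  have hcl : 0 ≤ c₀ * Real.log X := by positivity
  have hLF := LF_le_N hS hcl hps hlen hz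
  have hRX : R + N * S ≤ Real.log X := by
    rw [Real.le_log_iff_exp_le hX0]
    exact (le_max_right _ _).trans hXX
  have hRY : Real.exp R * Real.exp (LF ps) ≤ X ^ b' := by
    rw [← Real.exp_add, Real.rpow_def_of_pos hX0]
    refine Real.exp_le_exp.2 ?_
    rw [hb']
    nlinarith
  have hlen1 : ps.length ≤ N := by rw [hps.length]; exact hlen
  obtain ⟨hFS, h1, h2, h3⟩ := G (π lam) (hP lam) q (X ^ δ) (X ^ δ) (d₀ * Real.log X) ps hlen1
    (X ^ b') (((le_max_left _ _).trans hXX).trans hXb) hRY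
  have hYb : 0 ≤ X ^ b' := by positivity
  have hiA := iA_nonneg Aw
  have hC0 : 0 ≤ Cw * iA Aw := by positivity
  have hM : 0 ≤ Cw * iA Aw * (Cf * (X ^ b') ^ (ε / (2 * b'))) := by positivity
  have hbe : ∀ n, bt φ (xs q (X ^ δ) (X ^ δ) (π lam) h (d₀ * Real.log X) ps) p n *
      pw t (nm n) ≠ 0 → n ∈ LS2.S (X ^ b') ∧ (nm n : ℝ) ≤ Real.exp (LF ps + R) := by
    intro n hn
    have h4 := LBo813.bt_ne hn
    refine ⟨h1 n h4, ?_⟩
    obtain ⟨-, h5⟩ := h2 n h4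
    have h6 : (0 : ℝ) < nm n := by
      exact_mod_cast nm_pos.2 ((mem_S hYb).1 (h1 n h4)).2.1.ne_zero
    have h7 := (abs_le.1 h5).2
    rw [← Real.log_le_iff_le_exp h6]
    linarith
  have hbM : ∀ n, ‖bt φ (xs q (X ^ δ) (X ^ δ) (π lam) h (d₀ * Real.log X) ps) p n *
      pw t (nm n)‖ ≤ Cw * iA Aw * (Cf * (X ^ b') ^ (ε / (2 * b'))) := fun n =>
    (LBo813.norm_bt_le hφ hη hAw hFS p t n).trans (mul_le_mul_of_nonneg_left (h3 n) hC0)
  have hna : (0 : ℝ) < nm a := by exact_mod_cast nm_pos.2 ha.ne_zero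
  have hcard : (A.card : ℝ) ≤ 32 := by
    have h4 : A ⊆ bl 2 := fun k hk => by
      rw [mem_bl (by norm_num)]
      exact ⟨(hA k hk).1.ne_zero, (hA k hk).2⟩
    have h5 := CR2.card_bl_le (Y := 2) (by norm_num)
    calc (A.card : ℝ) ≤ ((bl 2).card : ℝ) := by exact_mod_cast Finset.card_le_card h4
      _ ≤ 16 * 2 := h5
      _ = 32 := by norm_num
  have hk : ∀ k ∈ A, ‖CS (CubP813.alr (fun n => bt φ (xs q (X ^ δ) (X ^ δ) (π lam) h
        (d₀ * Real.log X) ps) p n * pw t (nm n)) a b) k‖ ^ 2 ≤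
      (16 * (Cw * iA Aw * (Cf * (X ^ b') ^ (ε / (2 * b')))) *
        (Real.exp (LF ps + R) / nm a)) ^ 2 := fun k _ =>
    pow_le_pow_left₀ (norm_nonneg _)
      (cs_alr_le hYb (Real.exp_pos _).le hM hbe hbM ha b k) 2
  refine (Finset.sum_le_card_nsmul _ _ _ hk).trans ?_
  rw [nsmul_eq_mul]
  refine (mul_le_mul_of_nonneg_right hcard (by positivity)).trans ?_
  refine nrq0_final hX3 hC0 (by linarith) ?_
    (one_le_mul_of_one_le_of_one_le (one_le_Ht _) (one_le_Ht _)) hJ₀ hBd hna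
  refine le_of_eq ?_
  field_simp

end Crest.Agent.R017.NX848
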