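import Crest.Agent.R017.NXg_298
import Crest.Agent.R017.LBZ_911

/-!
# Row 17, T.7 (FlatNE, exceptional class): the near leaf from its four numbers (helper298)

* `nleafX_cl` : the parameter clause of `NumZ`
* `nleafX_z` : `NLeafX` of helper911's `NumZ`
-/

set_option autoImplicit false

noncomputable section

open Complex
open scoped ComplexConjugate

namespace Crest.Agent.R017.RX298

open Crest.Agent.R012 Crest.Agent.R012.Eis Crest.Agent.R012.LS2 Crest.Agent.R012.Gauss880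
open Crest.Agent.R012.MC (Wgt)
open Crest.Agent.R017.CM106 Crest.Agent.R017.HP842 Crest.Agent.R017.FE47
open Crest.Agent.R017.End699 hiding pw
open Crest.Agent.R017.B770
open Crest.Agent.R017.Prov71
open Crest.Agent.R017.Leg381
open Crest.Agent.R017.RGB545
open Crest.Agent.R017.RuleM545
open Crest.Agent.R017.XP699 (LL Chd hcost cst)
open Crest.Agent.R017.RG64
open Crest.Agent.R017.NEg551
open Crest.Agent.R017.NE499 (NumT NumOs hS)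
open Crest.Agent.R017.NEc180 (Num2 NumEq)
open Crest.Agent.R017.CubP813 (Qc)
open Crest.Agent.R017.LBZ911 (NumZ)
open Crest.Agent.R017.NE73 (gN)
open Crest.Agent.R017.RXk848 (LnP Lmp)

variable {Lam ι : Type*} {p : ℕ} {π : Lam → DPar} {h : ℝ → ℝ} {L : ι → Line Lam p}
  {φ₀ φ₁ φβ : ℝ → ℝ → ℝ → ℝ} {K v c e₁ d : ℝ}

/-- **the parameter clause** -/
theorem nleafX_cl {w : ℝ → ℝ} {b C₀ : ℝ} (hw : ∀ x, w x ≠ 0 → x ≤ b) (hC₀ : 0 < C₀)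
    {Qf : LBq → Eis → Prop} (hQf : ∀ q k, Qf q k → Qc (C₀ * q.K / q.E1 ^ 3) k) (hc : 0 < c)
    (h1 : ∀ a u m, φ₁ a u m + c ≤ φβ a u m - φ₀ a u m) (h0 : ∀ a u m, 0 ≤ φβ a u m - φ₀ a u m) :
    NLeafX π h (fun q _ _ => 1 ≤ q.N₁ ∧ q.E0 ≤ q.B ∧
      ∀ k : Eis, IsPrim k → w (nm k / (q.K * Real.exp (-hS q))) ≠ 0 → ¬ Qf q k) L φ₀ φ₁ φβ K v c
      e₁ d := by
  intro lam N c₀ hc₀
  refine ⟨0, le_rfl, fun ε M hε hM => ?_⟩
  refine ⟨0, 1, le_rfl, one_pos, fun δ Jn Aw Cw R η S hδ hδδ hJn hAw hCw hR hη hη1 hS => ?_⟩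
  refine ⟨0, 0, ((|b| + 1) / C₀) ^ (1 / (3 * c)), le_rfl, le_rfl, ?_⟩
  intro X hX hXX ps₀ hlen hps hs2 hnum hnumX hLmp q ps Lv N₁ hf hq hqX hsb Bd hBd hT hTr hL
  have hX0 : 0 < X := by linarith
  have hX1 : (1 : ℝ) ≤ X := by linarith
  obtain ⟨a, ha⟩ : ∃ a, a = LL Dq ps₀ / Real.log X := ⟨_, rfl⟩
  obtain ⟨u, hu⟩ : ∃ u, u = Lv / Real.log X := ⟨_, rfl⟩
  obtain ⟨m, hm⟩ : ∃ m, m = LF ps / Real.log X := ⟨_, rfl⟩
  rw [← ha, ← hu, ← hm]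
  refine ⟨?_, ?_, ?_⟩
  · have h2 := hf.N0
    have h3 : (1 : ℝ) ≤ Real.exp Lv := Real.one_le_exp hf.v0
    have h4 : (1 : ℝ) ≤ (N₁ : ℝ) := h3.trans h2
    exact_mod_cast h4
  · exact Real.rpow_le_rpow_of_exponent_le hX1 (by linarith [h0 a u m])
  · intro k hk hwk hQ
    have hQ' := hQf _ _ hQ
    obtain ⟨j, x, hj, hx, -, rfl, hjn⟩ := hQ'
    have e1 := hw _ hwk
    have e2 : NE499.hS (⟨Cw, η, Aw, X ^ K, Real.exp (LF ps), X ^ (8 * (K + 1)), R, Jn, N₁,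
        X ^ φ₀ a u m, X ^ φ₁ a u m, X ^ φβ a u m, X ^ (-φβ a u m),
        Real.exp (min (gN K c a * Real.log X) (LF ps - (LL Dq ps₀ - gN K c a * Real.log X))),
        Real.exp (min (gN K c a * Real.log X) (LF ps - (LL Dq ps₀ - gN K c a * Real.log X)))⟩ : LBq)
        = 3 * ((φβ a u m - φ₀ a u m) * Real.log X) := by
      unfold NE499.hS
      show 3 * Real.log (X ^ φβ a u m / X ^ φ₀ a u m) = _
      rw [← Real.rpow_sub hX0, Real.log_rpow hX0]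
    rw [e2] at e1
    have e3 : (nm (j * x ^ 3) : ℝ) / (X ^ K * Real.exp (-(3 * ((φβ a u m - φ₀ a u m) *
        Real.log X)))) ≤ b := e1
    have hjn' : C₀ * X ^ K / (X ^ φ₁ a u m) ^ 3 ≤ (nm j : ℝ) := hjn
    have e4 : Real.exp (-(3 * ((φβ a u m - φ₀ a u m) * Real.log X))) =
        X ^ (-(3 * (φβ a u m - φ₀ a u m))) := by
      rw [Real.rpow_def_of_pos hX0]
      congr 1
      ring
    have e5 : (X ^ φ₁ a u m) ^ 3 = X ^ (3 * φ₁ a u m) := by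
      rw [← Real.rpow_natCast, ← Real.rpow_mul hX0.le]
      congr 1
      push_cast
      ring
    rw [e4, ← Real.rpow_add hX0, div_le_iff₀ (Real.rpow_pos_of_pos hX0 _)] at e3
    rw [e5, mul_div_assoc, ← Real.rpow_sub hX0] at hjn'
    have hjx : (nm j : ℝ) ≤ nm (j * x ^ 3) := by
      have h5 : (1 : ℝ) ≤ nm (x ^ 3) := by
        exact_mod_cast nm_pos.2 (pow_ne_zero 3 hx.ne_zero)
      rw [nm_mul]
      push_cast
      have h6 : (0 : ℝ) ≤ nm j := Nat.cast_nonneg _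
      nlinarith
    have h7 : C₀ * X ^ (K - 3 * φ₁ a u m) ≤ b * X ^ (K + -(3 * (φβ a u m - φ₀ a u m))) :=
      hjn'.trans (hjx.trans e3)
    have h8 : X ^ (K - 3 * φ₁ a u m) = X ^ (K + -(3 * (φβ a u m - φ₀ a u m))) *
        X ^ (3 * (φβ a u m - φ₀ a u m - φ₁ a u m)) := by
      rw [← Real.rpow_add hX0]
      congr 1
      ring
    have h9 : X ^ (3 * c) ≤ X ^ (3 * (φβ a u m - φ₀ a u m - φ₁ a u m)) :=
      Real.rpow_le_rpow_of_exponent_le hX1 (by linarith [h1 a u m])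
    have h10 : (|b| + 1) / C₀ ≤ X ^ (3 * c) := by
      have h11 : 0 ≤ (|b| + 1) / C₀ := by positivity
      calc (|b| + 1) / C₀ = (((|b| + 1) / C₀) ^ (1 / (3 * c))) ^ (3 * c) := by
            rw [← Real.rpow_mul h11, one_div_mul_cancel (by positivity), Real.rpow_one]
        _ ≤ X ^ (3 * c) := Real.rpow_le_rpow (Real.rpow_nonneg h11 _) hXX (by positivity)
    have h12 : |b| + 1 ≤ C₀ * X ^ (3 * (φβ a u m - φ₀ a u m - φ₁ a u m)) := by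
      have := h10.trans h9
      rwa [div_le_iff₀' hC₀] at this
    have hp : 0 < X ^ (K + -(3 * (φβ a u m - φ₀ a u m))) := Real.rpow_pos_of_pos hX0 _
    rw [h8] at h7
    have h13 : C₀ * X ^ (3 * (φβ a u m - φ₀ a u m - φ₁ a u m)) ≤ b := by
      refine le_of_mul_le_mul_right ?_ hp
      calc _ = C₀ * (X ^ (K + -(3 * (φβ a u m - φ₀ a u m))) *
            X ^ (3 * (φβ a u m - φ₀ a u m - φ₁ a u m))) := by ring
        _ ≤ _ := h7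
    have := le_abs_self b
    linarith

lemma exists_I {N₁ : ℕ} (h : 1 ≤ N₁) : ∃ I : ℕ, (N₁ : ℝ) < 2 ^ I ∧ (2 : ℝ) ^ I ≤ 2 * N₁ := by
  refine ⟨Nat.log 2 N₁ + 1, ?_, ?_⟩
  · exact_mod_cast Nat.lt_pow_succ_log_self (by norm_num) N₁
  · rw [pow_succ, mul_comm]
    have := Nat.pow_log_le_self 2 (by omega : N₁ ≠ 0)
    have h2 : ((2 : ℝ)) ^ Nat.log 2 N₁ ≤ N₁ := by exact_mod_cast this
    linarith

/-- **the near leaf from its four numbers**, exceptional class -/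
theorem nleafX_z {w : ℝ → ℝ} {Nw : ℕ} {Mw : ℝ} {Fw : ℕ → ℝ → ℂ} {b C₀ : ℝ}
    (hw : ∀ x, w x ≠ 0 → x ≤ b) (hC₀ : 0 < C₀)
    {Qf : LBq → Eis → Prop} (hQf : ∀ q k, Qf q k → Qc (C₀ * q.K / q.E1 ^ 3) k) (hc : 0 < c)
    (h1 : ∀ a u m, φ₁ a u m + c ≤ φβ a u m - φ₀ a u m) (h0 : ∀ a u m, 0 ≤ φβ a u m - φ₀ a u m)
    (HT : NLeafX π h (fun q α Rn => NumT q.Cw q.η q.Aw q.K q.X q.Y q.R q.J q.D q.E0 q.N₁ α Rn)
      L φ₀ φ₁ φβ K v c e₁ d)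
    (H2 : NLeafX π h (fun q α Rn => ∀ I : ℕ, (q.N₁ : ℝ) < 2 ^ I → (2 : ℝ) ^ I ≤ 2 * q.N₁ →
      Num2 Nw Mw Fw q.Cw q.η q.Aw q.K q.X q.R q.J q.D q.E0 (hS q) q.N₁ I α Rn)
      L φ₀ φ₁ φβ K v c e₁ d)
    (HE : NLeafX π h (fun q α Rn =>
      NumEq Nw Mw Fw (Qf q) q.Cw q.η q.Aw q.K q.X q.R q.J q.D q.E0 (hS q) q.N₁ α Rn)
      L φ₀ φ₁ φβ K v c e₁ d)
    (HO : NLeafX π h (fun q α Rn => NumOs w q.Cw q.η q.Aw q.K q.X q.K q.R q.J q.D q.E0 q.E1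
      (q.B / q.E0) (q.N₁ / 2) q.N₁ α Rn) L φ₀ φ₁ φβ K v c e₁ d) :
    NLeafX π h (NumZ w Nw Mw Fw Qf) L φ₀ φ₁ φβ K v c e₁ d := by
  refine nleafX_mono ?_ (nleafX_add (nleafX_add (nleafX_add (nleafX_add HT H2) HE) HO)
    (nleafX_cl (w := w) hw hC₀ hQf hc h1 h0))
  rintro q α x ⟨a4, b4, ha4, hb4, hs4, ⟨a3, b3, ha3, hb3, hs3, ⟨a2, b2, ha2, hb2, hs2,
    ⟨a1, b1, ha1, hb1, hs1, n1, n2⟩, n3⟩, n4⟩, hN, hEB, hcl⟩
  obtain ⟨I, hI1, hI2⟩ := exists_I hN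
  exact ⟨a1, b1, b2, b3, I, ha1, hb1, hb2, hb3, hEB, hI1, hcl, by linarith, n1, n2 I hI1 hI2, n3,
    n4⟩

end Crest.Agent.R017.RX298
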