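import Crest.Agent.R017.NXe_298
import Crest.Agent.R017.NLg_777

/-!
# Row 17, T.7 (FlatNE, exceptional class): more lines and parameters (helper298)

* `nleafX_sub` : helper777's `nleaf_sub` for the class E leaf
-/

set_option autoImplicit false

noncomputable section

open Complex
open scoped ComplexConjugate

namespace Crest.Agent.R017.RX298

open Crest.Agent.R012 Crest.Agent.R012.Eis Crest.Agent.R012.LS2 Crest.Agent.R012.Gauss880
open Crest.Agent.R017.CM106 Crest.Agent.R017.HP842 Crest.Agent.R017.FE47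
open Crest.Agent.R017.End699 hiding pw
open Crest.Agent.R017.B770
open Crest.Agent.R017.Prov71
open Crest.Agent.R017.Leg381
open Crest.Agent.R017.RGB545
open Crest.Agent.R017.RuleM545
open Crest.Agent.R017.XP699 (LL Chd hcost cst)
open Crest.Agent.R017.RG64
open Crest.Agent.R017.NEg551
open Crest.Agent.R017.NE73 (gN)
open Crest.Agent.R017.RXk848 (LnP Lmp)
open Crest.Agent.R017.NLg777 (lift ext_th)

variable {Lam ι ι' : Type*} {p p' : ℕ}

lemma LnP_sub {L : ι → Line Lam p} {L' : ι' → Line Lam p'} {K : ℝ} (hK : 0 ≤ K) (f : ι → ι')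
    {e : Fin p → Fin p'} (he : Function.Injective e) (hL : ∀ j, L' (f j) = lift e (L j))
    {lam : Lam} {ε M r bm X n₁ v₁ Bd : ℝ} {base : List Pq}
    (h : LnP L' lam K ε M r bm X n₁ v₁ Bd base) : LnP L lam K ε M r bm X n₁ v₁ Bd base := by
  intro j θ l ps' hl hlT hch hLL hG hz
  obtain ⟨θ', hθ'⟩ := ext_th (p' := p') hK he θ
  have key := h (f j) θ' l ps' hl hlT hch hLL
  rw [hL j] at key
  unfold NLg777.lift at key
  simp only [hθ'] at key
  exact key hG hz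

variable {π : Lam → DPar} {h : ℝ → ℝ} {φ₀ φ₁ φβ : ℝ → ℝ → ℝ → ℝ} {K v c e₁ d : ℝ}

/-- **more lines, more parameters** -/
theorem nleafX_sub {R : LBq → (Eis → ℂ) → ℝ → Prop} {L : ι → Line Lam p} {L' : ι' → Line Lam p'}
    (hK : 0 ≤ K) (f : ι → ι') {e : Fin p → Fin p'} (he : Function.Injective e)
    (hL : ∀ j, L' (f j) = lift e (L j)) (H : NLeafX π h R L φ₀ φ₁ φβ K v c e₁ d) :
    NLeafX π h R L' φ₀ φ₁ φβ K v c e₁ d := by
  intro lam N c₀ hc₀
  obtain ⟨B₀, hB₀, H1⟩ := H lam N c₀ hc₀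
  refine ⟨B₀, hB₀, fun ε M hε hM => ?_⟩
  obtain ⟨J₀, δ₀, hJ₀, hδ₀, H2⟩ := H1 ε M hε hM
  refine ⟨J₀, δ₀, hJ₀, hδ₀, fun δ Jn Aw Cw R η S hδ hδδ hJn hAw hCw hR hη hη1 hS => ?_⟩
  obtain ⟨C, r, X₁, hC, hr, H3⟩ := H2 δ Jn Aw Cw R η S hδ hδδ hJn hAw hCw hR hη hη1 hS
  refine ⟨C, r, X₁, hC, hr, ?_⟩
  intro X hX hXX ps₀ hlen hps hs2 hnum hnumX hLmp q ps Lv N₁ hf hq hqX hsb Bd hBd hT hTr hLn
  exact H3 X hX hXX ps₀ hlen hps hs2 hnum hnumX hLmp q ps Lv N₁ hf hq hqX hsb Bd hBd hT hTr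
    (fun t => LnP_sub hK f he hL (hLn t))

end Crest.Agent.R017.RX298
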