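import Crest.Agent.R017.NLz_777
import Crest.Agent.R017.NLn_180
import Crest.Agent.R017.NTN_551

/-!
# Row 17, near field (helper551): class N, composition down to three open leaves

* `f3`, `p0`, `p1`, `pb` : the parameters (helper49)
* **`leafZ_N`** : the near leaf of `NumZ` from `RgN`, `NumEq`, `NumOs`
* **`neFin_N`** : `NeFin` from the same
-/

set_option autoImplicit false
set_option linter.unusedVariables false

noncomputable section

open Complex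
open scoped ComplexConjugate

namespace Crest.Agent.R017.NZN551

open Crest.Agent.R012 Crest.Agent.R012.Eis
open Crest.Agent.R012.MC (Wgt)
open Crest.Agent.R017.CM106 Crest.Agent.R017.HP842 Crest.Agent.R017.FE47
open Crest.Agent.R017.End699 hiding pw
open Crest.Agent.R017.B770
open Crest.Agent.R017.Prov71
open Crest.Agent.R017.Leg381
open Crest.Agent.R017.RGB545
open Crest.Agent.R017.XP699 (LL Chd hcost cst)
open Crest.Agent.R017.RG64
open Crest.Agent.R017.NE73 (gN NeFin)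
open Crest.Agent.R017.E3M829 (Cut)
open Crest.Agent.R017.NE499 (hS NumT NumOs)
open Crest.Agent.R017.NEc180 (Num2 NumEq)
open Crest.Agent.R017.LBZ911 (NumZ)
open Crest.Agent.R017.CubP813 (Qc)
open Crest.Agent.R017.NEg551
open Crest.Agent.R017.WDec180 (WD)
open Crest.Agent.R017.NLn180 (RgN N2N num2_leaf)
open Crest.Agent.R017.NLg777 (QfZ QfZ_cut QfZ_qc nleaf_z nleaf_ex)
open Crest.Agent.R017.JBN551 (numT_leaf)

/-- the loss `F3` (slopes in units of `log X`) -/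
def f3 (K m : ℝ) : ℝ := max 0 ((4 * m - 3 * K) / 9)

/-- `log E0 / log X` -/
def p0 (c K _a _u m : ℝ) : ℝ := 9 / 22 * f3 K m + 10 * c

/-- `log E1 / log X` -/
def p1 (c K _a _u m : ℝ) : ℝ := f3 K m + 20 * c

/-- `log B / log X` -/
def pb (c K _a _u m : ℝ) : ℝ := 31 / 22 * f3 K m + 31 * c

lemma f3_nonneg (K m : ℝ) : 0 ≤ f3 K m := le_max_left _ _

variable {Lam ι : Type*} {p : ℕ} {π : Lam → DPar} {h : ℝ → ℝ} {K v c : ℝ}

/-- **the near leaf of `NumZ`**, class N, from three leaves -/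
theorem leafZ_N (hP : ∀ lam, (π lam).OK) {c₂ : ℝ} (hpu : PU h c₂) {w : ℝ → ℝ} (hw : Wgt w)
    {Nw : ℕ} {Mw : ℝ} {Fw : ℕ → ℝ → ℂ} (hD : WD w Nw Mw Fw) {C₀ : ℝ} (hC₀ : 0 < C₀)
    {L : ι → Line Lam p} (hc : 0 < c) (hcK : 2000 * c ≤ K) (hv : 0 ≤ v)
    (hRg : NLeaf π h (RgN Nw Mw Fw hS (12 * (c / K))) L (p0 c K) (p1 c K) (pb c K) K v c)
    (hEq : NLeaf π h (fun q α Rn => NumEq Nw Mw Fw (QfZ C₀ q) q.Cw q.η q.Aw q.K q.X q.R q.J
      q.D q.E0 (hS q) q.N₁ α Rn) L (p0 c K) (p1 c K) (pb c K) K v c)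
    (hOs : NLeaf π h (fun q α Rn => NumOs w q.Cw q.η q.Aw q.K q.X q.K q.R q.J q.D q.E0 q.E1
      (q.B / q.E0) (q.N₁ / 2) q.N₁ α Rn) L (p0 c K) (p1 c K) (pb c K) K v c) :
    NLeaf π h (NumZ w Nw Mw Fw (QfZ C₀)) L (p0 c K) (p1 c K) (pb c K) K v c := by
  obtain ⟨c1, c2, -, -, hcc⟩ := hw.exists_bounds
  have h2 : NLeaf π h (N2N Nw Mw Fw hS) L (p0 c K) (p1 c K) (pb c K) K v c := by
    refine num2_leaf (y := 11) hP hpu hD hS hc hcK (by norm_num) hv ?_ ?_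
    · intro a u m hm
      show 9 / 22 * f3 K m + 10 * c ≤ m - 3 / 4 * K + (11 + 3 / 4) * c
      unfold f3
      rcases le_total 0 ((4 * m - 3 * K) / 9) with h1 | h1
      · rw [max_eq_right h1]; linarith
      · rw [max_eq_left h1]; linarith
    · have e1 : ((11 : ℝ) + 1) * (c / K) = 12 * (c / K) := by ring
      rw [e1]
      exact hRg
  refine nleaf_z (b := c2) (fun x hx => (hcc x hx).2) hC₀ QfZ_qc hc ?_ ?_ ?_ ?_ hEq hOs
  · intro a u m
    show f3 K m + 20 * c + c ≤ 31 / 22 * f3 K m + 31 * c - (9 / 22 * f3 K m + 10 * c)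
    linarith
  · intro a u m
    show 0 ≤ 31 / 22 * f3 K m + 31 * c - (9 / 22 * f3 K m + 10 * c)
    linarith [f3_nonneg K m]
  · refine numT_leaf hP hpu hc hcK ?_
    intro a u m
    show 9 / 22 * f3 K m + c ≤ 9 / 22 * f3 K m + 10 * c
    linarith
  · exact nleaf_ex h2

/-- **the finite theorem of the near recursion**, class N, from three leaves -/
theorem neFin_N (hP : ∀ lam, (π lam).OK) {c₂ : ℝ} (hpu : PU h c₂) {w : ℝ → ℝ} (hw : Wgt w)
    (hw0 : ∀ x, 0 ≤ w x) (hab : Abs4 w)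
    {Nw : ℕ} {Mw : ℝ} {Fw : ℕ → ℝ → ℂ} (hD : WD w Nw Mw Fw) {C₀ : ℝ} (hC₀ : 0 < C₀)
    {L : ι → Line Lam p} (hc : 0 < c) (hcK : 2000 * c ≤ K) (hv : 0 ≤ v)
    (hRg : NLeaf π h (RgN Nw Mw Fw hS (12 * (c / K))) L (p0 c K) (p1 c K) (pb c K) K v c)
    (hEq : NLeaf π h (fun q α Rn => NumEq Nw Mw Fw (QfZ C₀ q) q.Cw q.η q.Aw q.K q.X q.R q.J
      q.D q.E0 (hS q) q.N₁ α Rn) L (p0 c K) (p1 c K) (pb c K) K v c)
    (hOs : NLeaf π h (fun q α Rn => NumOs w q.Cw q.η q.Aw q.K q.X q.K q.R q.J q.D q.E0 q.E1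
      (q.B / q.E0) (q.N₁ / 2) q.N₁ α Rn) L (p0 c K) (p1 c K) (pb c K) K v c) :
    NeFin (fun lam => S0p (π lam) h) L (min (c / 2) 1 / 100) K v c := by
  have hK : 0 < K := by linarith
  refine ne_fin hP hpu hab le_rfl zero_le_one (LBZ911.lbs_Z hw hw0 hD QfZ_cut)
    (fun p α Rn Rn' h1 h2 => h1.mono h2) hc hcK hv ?_ ?_ (Or.inl rfl) ?_
    (leafZ_N hP hpu hw hD hC₀ hc hcK hv hRg hEq hOs)
  · intro a u m
    show 0 ≤ 9 / 22 * f3 K m + 10 * c
    have := f3_nonneg K m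
    linarith
  · intro a u m
    show 9 / 22 * f3 K m + 10 * c + max 0 ((4 * m - 3 * K) / 9) + c / 2 ≤
      31 / 22 * f3 K m + 31 * c
    unfold f3
    linarith
  · intro a u m h1 h2
    show 5 * (31 / 22 * f3 K m + 31 * c) ≤ K
    have h3 : f3 K m ≤ K / 45 + 6 / 10 * c := by
      unfold f3
      refine max_le (by positivity) ?_
      linarith
    linarith

end Crest.Agent.R017.NZN551
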