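import Crest.Agent.R017.NTX_590
import Crest.Agent.R017.NXh_298
import Crest.Agent.R017.NXf_298
import Crest.Agent.R017.NLx_180
import Crest.Agent.R017.NZN_551

/-!
# Row 17, FlatNE class E (helper590): the composition down to the three open leaves

* `exists_wz` : the weight
* **`leafZ_X`** : `NLeafX` of `NumZ` from `RgN`, `NumEq`, `NumOs`
* **`neFin_X`** : `NeFinX` from the same
-/

set_option autoImplicit false

noncomputable section

open Complex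
open scoped ComplexConjugate

namespace Crest.Agent.R017.NZX590

open Crest.Agent.R012 Crest.Agent.R012.Eis Crest.Agent.R012.Gauss880
open Crest.Agent.R012.MC (Wgt)
open Crest.Agent.R017.CM106
open Crest.Agent.R017.FE47
open Crest.Agent.R017.End699 hiding pw
open Crest.Agent.R017.B770
open Crest.Agent.R017.Prov71
open Crest.Agent.R017.Leg381
open Crest.Agent.R017.RGB545
open Crest.Agent.R017.RG64
open Crest.Agent.R017.NE73
open Crest.Agent.R017.XP699 (LL Chd hcost cst)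
open Crest.Agent.R017.Sup271 (NPm)
open Crest.Agent.R017.WDec180 (WD)
open Crest.Agent.R017.NE499 (NumT NumOs hS)
open Crest.Agent.R017.NEc180 (Num2 NumEq)
open Crest.Agent.R017.NEg551 (LBq LBS)
open Crest.Agent.R017.PX764 (Dk)
open Crest.Agent.R017.XS0298 (S0K)
open Crest.Agent.R017.RX298 (NLeafX nleafX_z ne_finX)
open Crest.Agent.R017.NEx911 (NeFinX)
open Crest.Agent.R017.LBZ911 (NumZ NumZ.mono lbs_Z)
open Crest.Agent.R017.NLg777 (QfZ QfZ_cut QfZ_qc)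
open Crest.Agent.R017.NLn180 (RgN N2N num2_leafX)
open Crest.Agent.R017.NTX590 (numT_leafX)
open Crest.Agent.R017.NZN551 (f3 p0 p1 pb f3_nonneg)

/-- **the weight** -/
theorem exists_wz : ∃ (w : ℝ → ℝ) (Nw : ℕ) (Mw : ℝ) (Fw : ℕ → ℝ → ℂ), Wgt w ∧
    (∀ x, 0 ≤ w x) ∧ Abs4 w ∧ WD w Nw Mw Fw := by
  obtain ⟨w, hw, hw0, hw4⟩ := exists_abs4
  obtain ⟨N, M, F, hD⟩ := WDec180.exists_WD hw
  exact ⟨w, N, M, F, hw, hw0, hw4, hD⟩

variable {Lam ι : Type*} {p : ℕ} {π : Lam → DPar} {h : ℝ → ℝ} {K v c e₁ d : ℝ}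

/-- **the near leaf of `NumZ` from the three open leaves**, class E -/
theorem leafZ_X (hP : ∀ lam, (π lam).OK)
    (hnp : ∀ lam, ¬ NPm (π lam).n (π lam).ψ (π lam).l₂ 1) {c₂ : ℝ} (hpu : PU h c₂)
    {w : ℝ → ℝ} (hw : Wgt w) {Nw : ℕ} {Mw : ℝ} {Fw : ℕ → ℝ → ℂ} (hD : WD w Nw Mw Fw) {C₀ : ℝ}
    (hC₀ : 0 < C₀) {L : ι → Line Lam p} (hc : 0 < c) (hcK : 2000 * c ≤ K) (hv : 0 ≤ v)
    (hd : 0 ≤ d)
    (hRg : NLeafX π h (RgN Nw Mw Fw hS (12 * (c / K))) L (p0 c K) (p1 c K) (pb c K) K v c e₁ d)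
    (hEq : NLeafX π h (fun q α Rn => NumEq Nw Mw Fw (QfZ C₀ q) q.Cw q.η q.Aw q.K q.X q.R q.J
      q.D q.E0 (hS q) q.N₁ α Rn) L (p0 c K) (p1 c K) (pb c K) K v c e₁ d)
    (hOs : NLeafX π h (fun q α Rn => NumOs w q.Cw q.η q.Aw q.K q.X q.K q.R q.J q.D q.E0 q.E1
      (q.B / q.E0) (q.N₁ / 2) q.N₁ α Rn) L (p0 c K) (p1 c K) (pb c K) K v c e₁ d) :
    NLeafX π h (NumZ w Nw Mw Fw (QfZ C₀)) L (p0 c K) (p1 c K) (pb c K) K v c e₁ d := by
  have hK : 0 < K := by linarith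
  obtain ⟨c1, c2, -, -, hcc⟩ := hw.exists_bounds
  have h2 : NLeafX π h (N2N Nw Mw Fw hS) L (p0 c K) (p1 c K) (pb c K) K v c e₁ d := by
    refine num2_leafX (y := 11) hP hnp hpu hD hS hc hcK (by norm_num) hv hd ?_ ?_
    · intro a u m hm
      show 9 / 22 * f3 K m + 10 * c ≤ m - 3 / 4 * K + (11 + 3 / 4) * c
      unfold NZN551.f3
      rcases le_total 0 ((4 * m - 3 * K) / 9) with h1 | h1
      · rw [max_eq_right h1]; linarith
      · rw [max_eq_left h1]; linarith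
    · have e1 : ((11 : ℝ) + 1) * (c / K) = 12 * (c / K) := by ring
      rw [e1]
      exact hRg
  refine nleafX_z (b := c2) (fun x hx => (hcc x hx).2) hC₀ QfZ_qc hc ?_ ?_ ?_ h2 hEq hOs
  · intro a u m
    show f3 K m + 20 * c + c ≤ 31 / 22 * f3 K m + 31 * c - (9 / 22 * f3 K m + 10 * c)
    linarith
  · intro a u m
    show 0 ≤ 31 / 22 * f3 K m + 31 * c - (9 / 22 * f3 K m + 10 * c)
    linarith [f3_nonneg K m]
  · refine numT_leafX hP hnp hpu hK hc hd ?_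
    intro a u m
    show 9 / 22 * f3 K m + c ≤ 9 / 22 * f3 K m + 10 * c
    linarith

/-- **the finite theorem of the near recursion from the three open leaves**, class E -/
theorem neFin_X (hP : ∀ lam, (π lam).OK)
    (hnp : ∀ lam, ¬ NPm (π lam).n (π lam).ψ (π lam).l₂ 1) {c₂ : ℝ} (hpu : PU h c₂)
    {w : ℝ → ℝ} (hw : Wgt w) (hw0 : ∀ x, 0 ≤ w x) (hab : Abs4 w)
    {Nw : ℕ} {Mw : ℝ} {Fw : ℕ → ℝ → ℂ} (hD : WD w Nw Mw Fw) {C₀ : ℝ}
    (hC₀ : 0 < C₀) {L : ι → Line Lam p} (hc : 0 < c) (hcK : 2000 * c ≤ K) (hv : 0 ≤ v)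
    (hd : 0 ≤ d)
    (hRg : NLeafX π h (RgN Nw Mw Fw hS (12 * (c / K))) L (p0 c K) (p1 c K) (pb c K) K v c e₁ d)
    (hEq : NLeafX π h (fun q α Rn => NumEq Nw Mw Fw (QfZ C₀ q) q.Cw q.η q.Aw q.K q.X q.R q.J
      q.D q.E0 (hS q) q.N₁ α Rn) L (p0 c K) (p1 c K) (pb c K) K v c e₁ d)
    (hOs : NLeafX π h (fun q α Rn => NumOs w q.Cw q.η q.Aw q.K q.X q.K q.R q.J q.D q.E0 q.E1
      (q.B / q.E0) (q.N₁ / 2) q.N₁ α Rn) L (p0 c K) (p1 c K) (pb c K) K v c e₁ d) :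
    NeFinX (fun lam => S0K Dk (π lam) h) L (min (c / 2) 1 / 100) K v c e₁ d := by
  refine ne_finX hP hnp hpu hab le_rfl zero_le_one (lbs_Z hw hw0 hD (QfZ_cut (C₀ := C₀)))
    (fun q α Rn Rn' h1 h2 => h1.mono h2) hc hcK hv ?_ ?_ (Or.inl rfl) ?_
    (leafZ_X hP hnp hpu hw hD hC₀ hc hcK hv hd hRg hEq hOs)
  · intro a u m
    show 0 ≤ 9 / 22 * f3 K m + 10 * c
    have := f3_nonneg K m
    linarith
  · intro a u m
    show 9 / 22 * f3 K m + 10 * c + max 0 ((4 * m - 3 * K) / 9) + c / 2 ≤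
      31 / 22 * f3 K m + 31 * c
    unfold NZN551.f3
    linarith
  · intro a u m h1 h2
    show 5 * (31 / 22 * f3 K m + 31 * c) ≤ K
    have h3 : f3 K m ≤ K / 45 + 6 / 10 * c := by
      unfold NZN551.f3
      refine max_le (by linarith) ?_
      linarith
    linarith

end Crest.Agent.R017.NZX590
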