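import Crest.Agent.R017.NatPB_401

/-!
# Row 17, section B, leaf L4 `NatP` (C): the `b`-sum for one `k` and one `c` (helper401)
-/

set_option autoImplicit false

noncomputable section

open Complex
open scoped ComplexConjugate ContDiff

namespace Crest.Agent.R017.NatP401

open Crest.Agent.R012 Crest.Agent.R012.Eis Crest.Agent.R012.Mob705 Crest.Agent.R012.Div277
open Crest.Agent.R012.PSer47
open Crest.Agent.R017.End699 Crest.Agent.R017.Sx545 Crest.Agent.R017.B770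

open Classical in
/-- summation over `b = u v`, the primes of `u` divide `k`, `v` coprime to `k` -/
lemma sum_decomp {k : Eis} (X : ℕ) (F : Eis → ℂ) :
    ∑ b ∈ primBall X, F b = ∑ u ∈ (primBall X).filter (KS k),
      ∑ v ∈ (primBall X).filter (fun v => IsCoprime v k ∧ nm (u * v) ≤ X), F (u * v) := by
  rw [Finset.sum_sigma']
  symm
  refine Finset.sum_bij (fun x _ => x.1 * x.2) ?_ ?_ ?_ ?_
  · rintro ⟨u, v⟩ h
    simp only [Finset.mem_sigma, Finset.mem_filter, mem_primBall] at h ⊢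
    exact ⟨h.2.2.2, h.1.1.2.mul h.2.1.2⟩
  · rintro ⟨u, v⟩ h ⟨u', v'⟩ h' e
    simp only [Finset.mem_sigma, Finset.mem_filter, mem_primBall] at h h'
    obtain ⟨e1, e2⟩ := decomp_unique h.1.1.2 h'.1.1.2 h.1.2 h'.1.2 h.2.2.1 h'.2.2.1 e
    subst e1; subst e2; rfl
  · intro b hb
    rw [mem_primBall] at hb
    obtain ⟨u, v, hu, hv, rfl, hk, hc⟩ := exists_decomp (k := k) _ le_rfl hb.2
    have h1 : nm u ≤ X := (nm_le_of_dvd (hu.mul hv).ne_zero (dvd_mul_right _ _)).trans hb.1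
    have h2 : nm v ≤ X := (nm_le_of_dvd (hu.mul hv).ne_zero (dvd_mul_left _ _)).trans hb.1
    refine ⟨⟨u, v⟩, ?_, rfl⟩
    simp only [Finset.mem_sigma, Finset.mem_filter, mem_primBall]
    exact ⟨⟨⟨h1, hu⟩, hk⟩, ⟨h2, hv⟩, hc, hb.1⟩
  · intros; rfl

/-- an upper bound for the support -/
lemma exists_beta {V : ℝ → ℂ} (hV : SW V) : ∃ β : ℝ, 1 ≤ β ∧ ∀ y, β < y → V y = 0 := by
  obtain ⟨B, hB⟩ := hV.cpt.isCompact.bddAbove
  refine ⟨max B 1, le_max_right _ _, fun y hy => ?_⟩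
  by_contra hne
  have h1 : y ∈ tsupport V := subset_tsupport _ hne
  have h2 : y ≤ B := hB h1
  exact absurd (lt_of_le_of_lt (le_max_left B 1) hy) (not_lt.mpr h2)

/-- the `b`-sum -/
def TS (M : Eis) (f : Eis → ℂ) (V : ℝ → ℂ) (Q : ℝ) (k c : Eis) : ℂ := by
  classical
  exact ∑' b : Eis, if Sm M b then f b * tk k b c * V (nm b / Q) else 0

open Classical in
lemma TS_eq_sum {V : ℝ → ℂ} {β : ℝ} (hβ : ∀ y, β < y → V y = 0) (M : Eis) (f : Eis → ℂ)
    {Q : ℝ} (hQ : 0 < Q) (k c : Eis) :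
    TS M f V Q k c = ∑ b ∈ primBall ⌊β * Q⌋₊,
      (if Sm M b then f b * tk k b c * V (nm b / Q) else 0) := by
  unfold TS
  rw [tsum_eq_sum]
  intro b hb
  split_ifs with h
  · have h1 : β < nm b / Q := by
      rw [lt_div_iff₀ hQ]
      apply Nat.lt_of_floor_lt
      by_contra h2
      exact hb (mem_primBall.mpr ⟨not_lt.mp h2, h.prim⟩)
    rw [hβ _ h1, mul_zero]
  · rfl

/-- the character of the inner sum -/
def chK (M : Eis) (ψ : Eis → ℂ) (k c : Eis) (b : Eis) : ℂ :=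
  tws ψ k b * prin0 (M * (9 * k) * c) b

lemma hc_chK {M : Eis} {ψ : Eis → ℂ} (h : HC M ψ) {k c : Eis} (hk : k ≠ 0) (hc : c ≠ 0) :
    HC (M * (9 * k) * c) (chK M ψ k c) :=
  (h.tws hk).changeMod (mul_ne_zero (h.tws hk).q0 hc) (dvd_mul_right _ _)

lemma chK_eq {M : Eis} {ψ : Eis → ℂ} (h : HC M ψ) {k c : Eis} (hk : k ≠ 0) {b : Eis}
    (hb : IsPrim b) : chK M ψ k c b = ψ b * sy k b * prin0 c b := by
  unfold chK
  by_cases h1 : IsCoprime b (M * (9 * k))
  · unfold tws prin0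
    by_cases h2 : IsCoprime b c
    · rw [if_pos h2, if_pos (h1.mul_right h2)]
    · rw [if_neg h2, if_neg (fun h => h2 h.of_mul_right_right)]
  · have h3 := (h.tws hk).van b hb h1
    rw [h3, zero_mul]
    unfold tws at h3
    rw [h3, zero_mul]

lemma isChar_twt {M : Eis} {ψ : Eis → ℂ} (h : HC M ψ) (l : ℤ) (t : ℝ) :
    IsChar (twt ψ l t) := by
  have h1 := (h.isChar_tw l).mul' (nmTwist_isChar t)
  have e : twt ψ l t = fun b => End699.tw ψ l b * (nm b : ℂ) ^ (t * I) := by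
    funext b
    unfold twt
    rw [mul_comm (I : ℂ) t]
  rw [e]
  exact h1

variable (T : TkAlg)
include T

open Classical in
/-- the inner sum over `v` -/
lemma inner_eq {M : Eis} {ψ : Eis → ℂ} (hψ : HC M ψ) (h2 : (2 : Eis) ∣ M) {V : ℝ → ℂ}
    {β : ℝ} (hβ1 : 1 ≤ β) (l : ℤ) (t : ℝ)
    {Q : ℝ} (hQ : 0 < Q) {k c₁ c₂ : Eis} (hk : k ≠ 0) (hc₁ : Sm M c₁) (hc₂ : Sm M c₂)
    (hsq : Squarefree (c₂ * c₁)) (hks : KS k c₂) (hck : IsCoprime c₁ k) {u : Eis} (hu : IsPrim u)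
    (hku : KS k u) :
    ∑ v ∈ (primBall ⌊β * Q⌋₊).filter (fun v => IsCoprime v k ∧ nm (u * v) ≤ ⌊β * Q⌋₊),
      (if Sm M (u * v) then twt ψ l t (u * v) * tk k (u * v) (c₂ * c₁) *
        V (nm (u * v) / Q) else 0) =
    (if Sm M u then twt ψ l t u * tk k u c₂ * conj (sy k c₁) *
      ∑ v ∈ primBall ⌊1 * (β * Q / nm u)⌋₊, (muE v : ℂ) * End699.tw (chK M ψ k c₁) l v *
        ((nm v : ℂ) ^ (-((-t : ℝ) * Complex.I : ℂ)) * V (β * (nm v / (β * Q / nm u)))) else 0) := by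
  have hnu : (0 : ℝ) < nm u := by exact_mod_cast nm_pos.mpr hu.ne_zero
  have hβ0 : 0 < β := by linarith
  split_ifs with hMu
  · rw [Finset.mul_sum]
    have hsub : (primBall ⌊β * Q⌋₊).filter (fun v => IsCoprime v k ∧ nm (u * v) ≤ ⌊β * Q⌋₊) ⊆
        primBall ⌊1 * (β * Q / nm u)⌋₊ := by
      intro v hv
      rw [Finset.mem_filter, mem_primBall] at hv
      rw [mem_primBall]
      refine ⟨?_, hv.1.2⟩
      apply Nat.le_floor
      rw [one_mul, le_div_iff₀ hnu]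
      have h1 := hv.2.2
      rw [nm_mul] at h1
      calc (nm v : ℝ) * nm u = ((nm u * nm v : ℕ) : ℝ) := by push_cast; ring
        _ ≤ (⌊β * Q⌋₊ : ℝ) := by exact_mod_cast h1
        _ ≤ β * Q := Nat.floor_le (by positivity)
    apply Finset.sum_subset_zero_on_sdiff hsub
    · intro v hv
      rw [Finset.mem_sdiff, Finset.mem_filter, mem_primBall, mem_primBall] at hv
      obtain ⟨⟨hv1, hvp⟩, hv2⟩ := hv
      have hcop : ¬ IsCoprime v k := by
        intro hcop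
        apply hv2
        have h3 : (nm v : ℝ) ≤ β * Q / nm u := by
          rw [one_mul] at hv1
          exact (Nat.le_floor_iff (by positivity)).mp hv1
        have h4 : nm (u * v) ≤ ⌊β * Q⌋₊ := by
          apply Nat.le_floor
          rw [nm_mul]; push_cast
          rw [le_div_iff₀ hnu] at h3
          linarith
        refine ⟨⟨?_, hvp⟩, hcop, h4⟩
        refine le_trans ?_ h4
        rw [nm_mul]
        exact Nat.le_mul_of_pos_left _ (nm_pos.mpr hu.ne_zero)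
      have h5 : sy k v = 0 := by
        apply (Sym645.sy_eq_zero_iff (Sym645.prim_nm_mod hvp)).mpr
        exact fun h => hcop h.symm
      have h6 : End699.tw (chK M ψ k c₁) l v = 0 := by
        unfold End699.tw
        rw [chK_eq hψ hk hvp, h5]
        simp
      rw [h6]; ring
    · intro v hv
      rw [Finset.mem_filter, mem_primBall] at hv
      obtain ⟨⟨_, hvp⟩, hvk, -⟩ := hv
      have hdiv : (nm (u * v) : ℝ) / Q = β * (nm v / (β * Q / nm u)) := by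
        rw [nm_mul]; push_cast
        field_simp
      rw [hdiv]
      have htw : twt ψ l t (u * v) = twt ψ l t u * twt ψ l t v := (isChar_twt hψ l t).mul u v hu hvp
      have hcpow : (nm v : ℂ) ^ (-((-t : ℝ) * Complex.I : ℂ)) = (nm v : ℂ) ^ (I * t) := by
        congr 1
        push_cast
        ring
      rw [hcpow]
      by_cases hMv : IsCoprime v M
      · have hMv' : Sm M v := ⟨hvp, hMv⟩
        rw [if_pos (hMu.mul hMv')]
        have sm2 : ∀ {x : Eis}, Sm M x → Sm 2 x := fun hx =>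
          ⟨hx.prim, hx.cop.of_isCoprime_of_dvd_right h2⟩
        have hcop : IsCoprime (u * c₂) (v * c₁) :=
          (hku.mul hks).isCoprime (hu.mul hc₂.prim) (hvk.mul_left hck)
        rw [T.mul k u v c₂ c₁ (sm2 hMu) (sm2 hMv') (sm2 hc₂) (sm2 hc₁) hcop,
          tk_cop T (sm2 hMv') (sm2 hc₁) (hsq.squarefree_of_dvd (dvd_mul_left _ _)) hvk hck, htw]
        unfold End699.tw
        rw [chK_eq hψ hk hvp]
        have e2 : twt ψ l t v = ψ v * ang l v * (nm v : ℂ) ^ (I * t) := rfl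
        rw [e2]
        ring
      · rw [if_neg (fun h => hMv h.cop.of_mul_left_right)]
        have h7 : ψ v = 0 := hψ.van v hvp hMv
        unfold End699.tw
        rw [chK_eq hψ hk hvp, h7]
        simp
  · apply Finset.sum_eq_zero
    intro v hv
    rw [if_neg (fun h => hMu ⟨hu, h.cop.of_mul_left_left⟩)]

/-- **the `b`-sum for one `k` and one `c`** -/
theorem TS_bound {θ : ℝ} (hθ : 7 / 8 ≤ θ) (hθ1 : θ ≤ 1) (hPF : PF Set.univ θ) {V : ℝ → ℂ}
    (hV : SW V) {β : ℝ} (hβ1 : 1 ≤ β) (hβ : ∀ y, β < y → V y = 0) (l : ℤ) {ε : ℝ} (hε : 0 < ε)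
    (hε1 : ε ≤ 1) : ∃ C : ℝ, 0 ≤ C ∧ ∀ (M : Eis) (ψ : Eis → ℂ), HC M ψ → (2 : Eis) ∣ M →
      ∀ (t Q : ℝ), 1 ≤ Q → ∀ (k c₁ c₂ : Eis), k ≠ 0 → Sm M c₁ → Sm M c₂ →
      Squarefree (c₂ * c₁) → KS k c₂ → IsCoprime c₁ k →
      ‖TS M (twt ψ l t) V Q k (c₂ * c₁)‖ ≤
        (tau (k ^ 2) : ℝ) * (C * ((nm (M * (9 * k) * c₁) : ℝ) * (1 + |t|)) ^ ε *
          (β * Q) ^ (θ + ε)) * (nm c₂ : ℝ) ^ (1 / 8 : ℝ) := by
  classical
  have hβ0 : 0 < β := by linarith
  set V1 : ℝ → ℂ := fun y => V (β * y) with hV1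
  have c1 : ContDiff ℝ ∞ V1 := hV.smooth.comp (contDiff_const.mul contDiff_id)
  have c2 : HasCompactSupport V1 := by
    have := hV.cpt.comp_smul (c := β) hβ0.ne'
    simpa [hV1, smul_eq_mul] using this
  have c3 : tsupport V1 ⊆ Set.Ioi 0 := by
    intro x hx
    have h1 : tsupport V1 ⊆ (fun y => β * y) ⁻¹' tsupport V := by
      apply closure_minimal
      · intro y hy
        exact subset_tsupport V hy
      · exact (isClosed_tsupport V).preimage (by fun_prop)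
    have h2 := hV.supp (h1 hx)
    simp only [Set.mem_Ioi] at h2 ⊢
    exact (mul_pos_iff_of_pos_left hβ0).mp h2
  have c4 : ∀ y, (1 : ℝ) < y → V1 y = 0 := by
    intro y hy
    apply hβ
    nlinarith
  obtain ⟨C, hC0, hC⟩ := pf_moebius (S := Set.univ) (θ := θ) (ε := ε) (by linarith) hθ1 hPF hε
    hε1 (Set.mem_univ l) c1 c2 c3 (β := 1) zero_le_one c4
  refine ⟨C, hC0, fun M ψ hψ h2 t Q hQ k c₁ c₂ hk hc₁ hc₂ hsq hks hck => ?_⟩
  have hQ0 : 0 < Q := by linarith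
  set K : ℝ := C * ((nm (M * (9 * k) * c₁) : ℝ) * (1 + |t|)) ^ ε * (β * Q) ^ (θ + ε) with hK
  have hK0 : 0 ≤ K := by positivity
  rw [TS_eq_sum hβ M _ hQ0, sum_decomp (k := k)]
  have hterm : ∀ u ∈ (primBall ⌊β * Q⌋₊).filter (KS k),
      ‖∑ v ∈ (primBall ⌊β * Q⌋₊).filter (fun v => IsCoprime v k ∧ nm (u * v) ≤ ⌊β * Q⌋₊),
        (if Sm M (u * v) then twt ψ l t (u * v) * tk k (u * v) (c₂ * c₁) *
          V (nm (u * v) / Q) else 0)‖ ≤
      (if u ∣ k ^ 2 then K * (nm c₂ : ℝ) ^ (1 / 8 : ℝ) else 0) := by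
    intro u hu
    rw [Finset.mem_filter, mem_primBall] at hu
    obtain ⟨⟨hu1, hup⟩, hku⟩ := hu
    have hnu1 : 1 ≤ nm u := nm_pos.mpr hup.ne_zero
    have hnu : (1 : ℝ) ≤ nm u := by exact_mod_cast hnu1
    have hnu0 : (0 : ℝ) < nm u := by linarith
    rw [inner_eq T hψ h2 hβ1 l t hQ0 hk hc₁ hc₂ hsq hks hck hup hku]
    split_ifs with hMu hdk hdk
    · -- main case
      have hQ1 : 1 ≤ β * Q / nm u := by
        rw [le_div_iff₀ hnu0, one_mul]
        calc (nm u : ℝ) ≤ (⌊β * Q⌋₊ : ℝ) := by exact_mod_cast hu1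
          _ ≤ β * Q := Nat.floor_le (by positivity)
      have key := hC _ _ (hc_chK hψ hk hc₁.ne_zero) (-t) _ hQ1
      rw [abs_neg] at key
      have sm2 : ∀ {x : Eis}, Sm M x → Sm 2 x := fun hx =>
        ⟨hx.prim, hx.cop.of_isCoprime_of_dvd_right h2⟩
      have htk := (tk_sm T _ le_rfl (sm2 hMu) (sm2 hc₂)
        (hsq.squarefree_of_dvd (dvd_mul_right _ _)) (hku.mul hks)).2
      rw [norm_mul, norm_mul, norm_mul]
      have n1 : ‖twt ψ l t u‖ ≤ 1 := (isChar_twt hψ l t).norm_le hup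
      have n2 : ‖conj (sy k c₁)‖ ≤ 1 := by
        rw [Complex.norm_conj]
        exact (hc_sy hk).char.norm_le hc₁.prim
      have e1 : (β * Q / nm u) ^ (θ + ε) = (β * Q) ^ (θ + ε) * (nm u : ℝ) ^ (-(θ + ε)) := by
        rw [Real.div_rpow (by positivity) (by positivity), Real.rpow_neg (by positivity)]
        rfl
      have e2 : (nm u : ℝ) ^ (7 / 8 : ℝ) * (nm u : ℝ) ^ (-(θ + ε)) ≤ 1 := by
        rw [← Real.rpow_add hnu0]
        apply Real.rpow_le_one_of_one_le_of_nonpos hnu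
        linarith
      calc ‖twt ψ l t u‖ * ‖tk k u c₂‖ * ‖conj (sy k c₁)‖ *
            ‖∑ v ∈ primBall ⌊1 * (β * Q / nm u)⌋₊, (muE v : ℂ) * End699.tw (chK M ψ k c₁) l v *
        ((nm v : ℂ) ^ (-((-t : ℝ) * Complex.I : ℂ)) * V (β * (nm v / (β * Q / nm u))))‖
          ≤ 1 * ((nm u : ℝ) ^ (7 / 8 : ℝ) * (nm c₂ : ℝ) ^ (1 / 8 : ℝ)) * 1 *
            (C * ((nm (M * (9 * k) * c₁) : ℝ) * (1 + |t|)) ^ ε * (β * Q / nm u) ^ (θ + ε)) := by
            gcongr
        _ = (C * ((nm (M * (9 * k) * c₁) : ℝ) * (1 + |t|)) ^ ε * (β * Q) ^ (θ + ε)) *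
            (nm c₂ : ℝ) ^ (1 / 8 : ℝ) *
            ((nm u : ℝ) ^ (7 / 8 : ℝ) * (nm u : ℝ) ^ (-(θ + ε))) := by rw [e1]; ring
        _ ≤ (C * ((nm (M * (9 * k) * c₁) : ℝ) * (1 + |t|)) ^ ε * (β * Q) ^ (θ + ε)) *
            (nm c₂ : ℝ) ^ (1 / 8 : ℝ) * 1 := by gcongr
        _ = K * (nm c₂ : ℝ) ^ (1 / 8 : ℝ) := by rw [mul_one]
    · -- u does not divide k^2
      have sm2 : ∀ {x : Eis}, Sm M x → Sm 2 x := fun hx =>
        ⟨hx.prim, hx.cop.of_isCoprime_of_dvd_right h2⟩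
      have htk : tk k u c₂ = 0 := by
        by_contra hne
        exact hdk ((tk_sm T _ le_rfl (sm2 hMu) (sm2 hc₂)
          (hsq.squarefree_of_dvd (dvd_mul_right _ _)) (hku.mul hks)).1 hne)
      rw [htk]; simp
    · rw [norm_zero]; positivity
    · rw [norm_zero]
  refine (norm_sum_le _ _).trans ((Finset.sum_le_sum hterm).trans ?_)
  rw [← Finset.sum_filter, Finset.sum_const, nsmul_eq_mul]
  have hcard : ((((primBall ⌊β * Q⌋₊).filter (KS k)).filter (fun u => u ∣ k ^ 2)).card : ℝ) ≤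
      tau (k ^ 2) := by
    unfold tau
    have : (((primBall ⌊β * Q⌋₊).filter (KS k)).filter (fun u => u ∣ k ^ 2)).card ≤
        (dvs (k ^ 2)).card := by
      apply Finset.card_le_card
      intro u hu
      rw [Finset.mem_filter, Finset.mem_filter, mem_primBall] at hu
      exact (mem_dvs (pow_ne_zero 2 hk)).mpr ⟨hu.1.1.2, hu.2⟩
    exact_mod_cast this
  calc _ ≤ (tau (k ^ 2) : ℝ) * (K * (nm c₂ : ℝ) ^ (1 / 8 : ℝ)) := by gcongr
    _ = _ := by ring

end Crest.Agent.R017.NatP401
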