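import Crest.Agent.R017.NatPD_401
import Crest.Agent.R017.NWDefs_986

/-!
# Row 17, section B, leaf L4 for `NSumS` (extra squarefree factor of the amplifier) (helper401)
-/

set_option autoImplicit false

noncomputable section

open Complex
open scoped ComplexConjugate ContDiff

namespace Crest.Agent.R017.NatP401

open Crest.Agent.R012 Crest.Agent.R012.Eis Crest.Agent.R012.Mob705 Crest.Agent.R012.Div277
open Crest.Agent.R012.PSer47
open Crest.Agent.R017.End699 Crest.Agent.R017.Sx545 Crest.Agent.R017.B770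
open Crest.Agent.R017.Asm986

open Classical in
/-- **the contribution of the principal `k`** to the natural sum with the factor `c₀` -/
def NatPS (θ : ℝ) (r : ℕ) (y : ℝ) : Prop :=
  ∀ h₀ h : ℝ → ℂ, HW h₀ → HW h → ∀ V : ℝ → ℂ, SW V → ∀ l₁ l₂ : ℤ, ∀ ε : ℝ, 0 < ε →
    ∃ C A : ℝ, 0 ≤ C ∧
    ∀ (M : Eis) (φ ψ : Eis → ℂ), (2 : Eis) ∣ M → HC M φ → HC M ψ →
    ∀ (Q₀ Q κ₀ : ℝ), 1 ≤ Q → Q ≤ Q₀ → 0 ≤ κ₀ →
    (nm M : ℝ) * Real.exp κ₀ * 9 < Q₀ ^ (y / r) →
    ∀ (J : Finset (Fin r)) (H : ℕ), 1 ≤ H → ∀ t₁ t₂ : ℝ,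
    ∑ k ∈ (ball H).filter (fun k => k ≠ 0 ∧ ¬ NPk M φ l₁ k),
      ‖NSumS h₀ h r y Q₀ κ₀ J M (twt ψ l₂ t₂) (twt φ l₁ t₁) V Q k‖ ≤
    C * (((nm M : ℝ) * Q₀ * H) ^ ε * (1 + |t₁| + |t₂|) ^ A *
      ((H : ℝ) ^ (1 / 3 : ℝ) * (CJ r y Q₀ J * Real.exp κ₀ * Q ^ θ)))

open Classical in
/-- the number of primary multiples of `u` -/
lemma card_mult_le {u : Eis} (hu : IsPrim u) {X : ℝ} (hX : 0 ≤ X) :
    (((primBall ⌊X⌋₊).filter (fun c => u ∣ c)).card : ℝ) * nm u ≤ 18 * X := by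
  have hnu : (0 : ℝ) < nm u := by exact_mod_cast nm_pos.mpr hu.ne_zero
  have h1 : ((primBall ⌊X⌋₊).filter (fun c => u ∣ c)).card ≤
      (primBall ⌊X / nm u⌋₊).card := by
    apply Finset.card_le_card_of_injOn (fun c => c / u)
    · intro c hc
      rw [Finset.mem_coe, Finset.mem_filter, mem_primBall] at hc
      obtain ⟨⟨h1, h2⟩, v, rfl⟩ := hc
      rw [Finset.mem_coe, mem_primBall]
      have e : u * v / u = v := by
        exact mul_div_cancel_left₀ v hu.ne_zero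
      simp only [e]
      refine ⟨?_, ?_⟩
      · apply Nat.le_floor
        rw [le_div_iff₀ hnu]
        rw [nm_mul] at h1
        have h3 := (Nat.le_floor_iff hX).mp h1
        push_cast at h3
        linarith
      · exact IsPrim.of_mul_left h2 hu
    · intro c hc c' hc' e
      rw [Finset.mem_coe, Finset.mem_filter] at hc hc'
      obtain ⟨-, v, rfl⟩ := hc
      obtain ⟨-, v', rfl⟩ := hc'
      simp only [mul_div_cancel_left₀ _ hu.ne_zero] at e
      rw [e]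
  have h2 := h1.trans (card_primBall_le' _)
  have h3 : (((primBall ⌊X⌋₊).filter (fun c => u ∣ c)).card : ℝ) ≤ 18 * (X / nm u) := by
    calc (((primBall ⌊X⌋₊).filter (fun c => u ∣ c)).card : ℝ) ≤
          ((18 * ⌊X / nm u⌋₊ : ℕ) : ℝ) := by exact_mod_cast h2
      _ = 18 * (⌊X / nm u⌋₊ : ℝ) := by push_cast; ring
      _ ≤ 18 * (X / nm u) := by
          gcongr
          exact Nat.floor_le (by positivity)
  calc _ ≤ 18 * (X / nm u) * nm u := by gcongr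
    _ = 18 * X := by field_simp

open Classical in
/-- the weight of the squarefree piece: `∑_{c ≤ X} ∑_{u ∣ k, u ∣ c} N u ≤ 18 τ(k) X`. -/
lemma sum_sq_le {k : Eis} (hk : k ≠ 0) {X : ℝ} (hX : 0 ≤ X) :
    ∑ c ∈ primBall ⌊X⌋₊, ∑ u ∈ (dvs k).filter (fun u => u ∣ c), (nm u : ℝ) ≤
      tau k * (18 * X) := by
  have e : ∀ c, ∑ u ∈ (dvs k).filter (fun u => u ∣ c), (nm u : ℝ) =
      ∑ u ∈ dvs k, if u ∣ c then (nm u : ℝ) else 0 := fun c => Finset.sum_filter _ _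
  simp_rw [e]
  rw [Finset.sum_comm]
  have h1 : ∀ u ∈ dvs k, (∑ c ∈ primBall ⌊X⌋₊, if u ∣ c then (nm u : ℝ) else 0) ≤ 18 * X := by
    intro u hu
    rw [← Finset.sum_filter, Finset.sum_const, nsmul_eq_mul]
    exact card_mult_le ((mem_dvs hk).mp hu).1 hX
  refine (Finset.sum_le_sum h1).trans ?_
  rw [Finset.sum_const, nsmul_eq_mul]
  unfold tau
  exact le_rfl

lemma KS_dvd' {k : Eis} : ∀ (n : ℕ) {u : Eis}, nm u ≤ n → IsPrim u → Squarefree u → KS k u →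
    u ∣ k := by
  intro n
  induction n with
  | zero =>
    intro b hb hp
    exact absurd (nm_eq_zero.mp (Nat.le_zero.mp hb)) hp.ne_zero
  | succ n ih =>
    intro b hb hp hsq hks
    by_cases hc : IsCoprime b k
    · exact (isCoprime_self.mp (KS.isCoprime hp hks hc)).dvd
    · obtain ⟨p, hpp, ⟨c, rfl⟩, hpk⟩ := exists_common_pp hp hc
      have hcp : IsPrim c := hp.of_mul_left hpp.isPrim
      have hcn : nm c ≤ n := by
        rw [nm_mul] at hb
        have h1 := hpp.one_lt_nm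
        have h2 : 0 < nm c := nm_pos.mpr hcp.ne_zero
        nlinarith
      have h3 := ih hcn hcp (hsq.squarefree_of_dvd (dvd_mul_left _ _))
        (hks.of_dvd (dvd_mul_left _ _))
      have h4 : IsCoprime p c := by
        refine (hpp.isCoprime_iff).mpr fun hd => ?_
        exact hpp.prime.not_isUnit (hsq p (mul_dvd_mul_left p hd))
      exact h4.mul_dvd hpk h3

lemma KS_dvd {k u : Eis} (hu : IsPrim u) (hsq : Squarefree u) (h : KS k u) : u ∣ k :=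
  KS_dvd' _ le_rfl hu hsq h

set_option maxHeartbeats 1600000 in
/-- pointwise bound for `NSumS` -/
theorem NSumS_bound (T : TkAlg) {θ : ℝ} (hθ : 7 / 8 ≤ θ) (hθ1 : θ ≤ 1) (hPF : PF Set.univ θ)
    {h₀ h : ℝ → ℂ} (hh₀ : HW h₀) (hh : HW h) {V : ℝ → ℂ} (hV : SW V) {r : ℕ} {y : ℝ} (l₁ l₂ : ℤ)
    {ε : ℝ} (hε : 0 < ε) (hε1 : ε ≤ 1) : ∃ C β B : ℝ, 0 ≤ C ∧ 1 ≤ β ∧ 1 ≤ B ∧
      ∀ (M : Eis) (φ ψ : Eis → ℂ), (2 : Eis) ∣ M → HC M φ → HC M ψ →
      ∀ (Q₀ Q κ₀ : ℝ), 1 ≤ Q → Q ≤ Q₀ → 0 ≤ κ₀ →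
      (nm M : ℝ) * Real.exp κ₀ * 9 < Q₀ ^ (y / r) →
      ∀ (J : Finset (Fin r)) (k : Eis), k ≠ 0 → ∀ t₁ t₂ : ℝ,
      ‖NSumS h₀ h r y Q₀ κ₀ J M (twt ψ l₂ t₂) (twt φ l₁ t₁) V Q k‖ ≤
        (tau (k ^ 2) : ℝ) * (C * (((nm (M * (9 * k)) : ℝ) * (P1 r y Q₀ J *
          Real.exp (κ₀ + 1))) * (1 + |t₂|)) ^ ε *
          (β * Q) ^ (θ + ε)) * ((19 * B * tau k) ^ r * P1 r y Q₀ J) *
          (B * (tau k * (18 * Real.exp (κ₀ + 1)))) := by
  classical
  obtain ⟨β, hβ1, hβ⟩ := exists_beta hV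
  obtain ⟨C, hC0, hC⟩ := TS_bound T hθ hθ1 hPF hV hβ1 hβ l₂ hε hε1
  obtain ⟨B0, hB0⟩ := hh.bounded
  obtain ⟨B0', hB0'⟩ := hh₀.bounded
  refine ⟨C, β, max (max B0 B0') 1, hC0, hβ1, le_max_right _ _, ?_⟩
  set B : ℝ := max (max B0 B0') 1 with hB
  have hB1 : 1 ≤ B := le_max_right _ _
  have hBh : ∀ u, ‖h u‖ ≤ B := fun u => (hB0 u).trans ((le_max_left _ _).trans (le_max_left _ _))
  have hBh₀ : ∀ u, ‖h₀ u‖ ≤ B :=
    fun u => (hB0' u).trans ((le_max_right _ _).trans (le_max_left _ _))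
  intro M φ ψ h2 hφ hψ Q₀ Q κ₀ hQ hQQ hκ hM9 J k hk t₁ t₂
  have hQ₀ : 1 ≤ Q₀ := hQ.trans hQQ
  have hQ00 : 0 < Q₀ := by linarith
  have hM0 : M ≠ 0 := hφ.q0
  have hM1 : (1 : ℝ) ≤ nm M := by exact_mod_cast nm_pos.mpr hM0
  have hexp1 : 1 ≤ Real.exp κ₀ := Real.one_le_exp hκ
  have hM : (nm M : ℝ) < Q₀ ^ (y / r) / 9 := by
    rw [lt_div_iff₀ (by norm_num : (0:ℝ) < 9)]
    refine lt_of_le_of_lt ?_ hM9
    have : (nm M : ℝ) * 1 ≤ nm M * Real.exp κ₀ := by gcongr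
    linarith
  have hP := P1_pos r y Q₀ J
  have he0 := Real.exp_pos (κ₀ + 1)
  have ht1 : (1 : ℝ) ≤ tau k := by exact_mod_cast one_le_tau hk
  have hat := abs_nonneg t₂
  set K : ℝ := (tau (k ^ 2) : ℝ) * (C * (((nm (M * (9 * k)) : ℝ) * (P1 r y Q₀ J *
    Real.exp (κ₀ + 1))) * (1 + |t₂|)) ^ ε * (β * Q) ^ (θ + ε)) with hK
  have hK0 : 0 ≤ K := by positivity
  have hterm : ∀ c₀ ∈ sqS M κ₀, ∀ p ∈ tup r y Q₀ J,
      ‖(∏ i : J, h (Real.log (nm (p i)) - kap r y Q₀ i)) * twt φ l₁ t₁ (c₀ * ∏ i : J, p i) *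
        TS M (twt ψ l₂ t₂) V Q k (c₀ * ∏ i : J, p i)‖ ≤
      (K * ∏ i : J, (‖h (Real.log (nm (p i)) - kap r y Q₀ i)‖ *
        (if p i ∣ k then (nm (p i) : ℝ) else 1))) *
        ∑ u ∈ (dvs k).filter (fun u => u ∣ c₀), (nm u : ℝ) := by
    intro c₀ hc₀ p hp
    unfold sqS sqB at hc₀
    rw [Finset.mem_filter, Finset.mem_filter, mem_primBall] at hc₀
    obtain ⟨⟨⟨hc0n, hc0p⟩, hc0s⟩, hc0M⟩ := hc₀
    have hc0n' : (nm c₀ : ℝ) ≤ Real.exp (κ₀ + 1) := by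
      exact (Nat.le_floor_iff he0.le).mp hc0n
    by_cases hne : (∏ i : J, h (Real.log (nm (p i)) - kap r y Q₀ i)) = 0
    · rw [hne, zero_mul, zero_mul, norm_zero]
      apply mul_nonneg (mul_nonneg hK0 _) (Finset.sum_nonneg fun _ _ => Nat.cast_nonneg _)
      apply Finset.prod_nonneg
      intro i _
      positivity
    · obtain ⟨c₁, c₂, hc, hc₁, hc₂, hsq, hks, hck, hn1, hn2⟩ :=
        tuple_facts hh hM0 hM hQ₀ (k := k) hp hne
      -- the primes `p i` are larger than `c₀`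
      have hpc : ∀ i : J, IsCoprime (p i) c₀ := by
        intro i
        have hmem : Mob705.IsPP (p i) := (mem_prS.mp (Fintype.mem_piFinset.mp hp i)).1
        have habs : |Real.log (nm (p i)) - kap r y Q₀ i| ≤ 1 := by
          apply hh.supp
          intro h0
          exact hne (Finset.prod_eq_zero (Finset.mem_univ i) h0)
        refine (hmem.isCoprime_iff).mpr fun hd => ?_
        have h1 := nm_le_of_dvd hc0p.ne_zero hd
        have h2' : (nm (p i) : ℝ) ≤ Real.exp (κ₀ + 1) :=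
          (by exact_mod_cast h1 : (nm (p i) : ℝ) ≤ nm c₀).trans hc0n'
        have h3 := (abs_le.mp habs).1
        have hpos : (0 : ℝ) < nm (p i) := by exact_mod_cast nm_pos.mpr hmem.ne_zero
        have h4 : kap r y Q₀ i - 1 ≤ Real.log (nm (p i)) := by linarith
        have h5 : Real.exp (kap r y Q₀ i - 1) ≤ nm (p i) := by
          rw [← Real.exp_log hpos]
          exact Real.exp_le_exp.mpr h4
        have h6 : Q₀ ^ (y / r) * Real.exp (-1) ≤ Real.exp (kap r y Q₀ i - 1) := by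
          rw [Real.rpow_def_of_pos hQ00, ← Real.exp_add]
          apply Real.exp_le_exp.mpr
          unfold kap
          have : (0 : ℝ) ≤ ((i : Fin r) : ℝ) := by positivity
          have e : Real.log Q₀ * (y / r) = y / r * Real.log Q₀ := by ring
          rw [e]
          linarith
        have h7 : Real.exp κ₀ * 9 < Q₀ ^ (y / r) := by
          refine lt_of_le_of_lt ?_ hM9
          have : 1 * Real.exp κ₀ ≤ nm M * Real.exp κ₀ := by gcongr
          linarith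
        have h8 : Real.exp κ₀ * 9 * Real.exp (-1) ≤ Real.exp (κ₀ + 1) := by
          refine le_trans ?_ (h6.trans (h5.trans h2'))
          gcongr
        have h9 : Real.exp (κ₀ + 1) = Real.exp κ₀ * Real.exp 1 := Real.exp_add _ _
        have h10 : (9 : ℝ) * Real.exp (-1) ≤ Real.exp 1 := by
          rw [h9] at h8
          have h11 : Real.exp κ₀ * (9 * Real.exp (-1)) ≤ Real.exp κ₀ * Real.exp 1 := by
            linarith
          exact le_of_mul_le_mul_left h11 (Real.exp_pos _)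
        have h12 : (9 : ℝ) ≤ Real.exp 1 * Real.exp 1 := by
          have h13 : (9 : ℝ) * Real.exp (-1) * Real.exp 1 ≤ Real.exp 1 * Real.exp 1 := by gcongr
          have h14 : (9 : ℝ) * Real.exp (-1) * Real.exp 1 = 9 := by
            rw [mul_assoc, ← Real.exp_add]; norm_num
          linarith
        have h15 := Real.exp_one_lt_d9
        have h16 := Real.exp_pos 1
        nlinarith
      have hPc : IsCoprime (c₂ * c₁) c₀ := by
        rw [← hc]
        exact IsCoprime.prod_left fun i _ => hpc i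
      obtain ⟨u, v, hu, hv, huv, hku, hcv⟩ := exists_decomp (k := k) _ le_rfl hc0p
      have hsmc : Sm M c₀ := ⟨hc0p, hc0M⟩
      have huM : Sm M u := ⟨hu, (huv ▸ hc0M).of_mul_left_left⟩
      have hvM : Sm M v := ⟨hv, (huv ▸ hc0M).of_mul_left_right⟩
      have hC1 : Sm M (c₁ * v) := hc₁.mul hvM
      have hC2 : Sm M (c₂ * u) := hc₂.mul huM
      have heq : c₀ * ∏ i : J, p i = (c₂ * u) * (c₁ * v) := by
        rw [hc, huv]; ring
      have hSQ : Squarefree ((c₂ * u) * (c₁ * v)) := by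
        have e1 : (c₂ * u) * (c₁ * v) = (c₂ * c₁) * c₀ := by rw [huv]; ring
        rw [e1]
        exact (squarefree_mul_iff).mpr ⟨hPc.isRelPrime, hsq, hc0s⟩
      have key := hC M ψ hψ h2 t₂ Q hQ k (c₁ * v) (c₂ * u) hk hC1 hC2 hSQ (hks.mul hku)
        (hck.mul_left hcv)
      rw [heq]
      have hcp : IsPrim ((c₂ * u) * (c₁ * v)) := hC2.prim.mul hC1.prim
      have n1 : ‖twt φ l₁ t₁ ((c₂ * u) * (c₁ * v))‖ ≤ 1 := (isChar_twt hφ l₁ t₁).norm_le hcp
      have hud : u ∈ (dvs k).filter (fun u => u ∣ c₀) := by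
        rw [Finset.mem_filter, mem_dvs hk]
        have huc : u ∣ c₀ := huv ▸ dvd_mul_right _ _
        refine ⟨⟨hu, ?_⟩, huc⟩
        exact KS_dvd hu (hc0s.squarefree_of_dvd huc) hku
      have hnsum : (nm u : ℝ) ≤ ∑ u ∈ (dvs k).filter (fun u => u ∣ c₀), (nm u : ℝ) :=
        Finset.single_le_sum (f := fun u => (nm u : ℝ)) (fun _ _ => Nat.cast_nonneg _) hud
      rw [norm_mul, norm_mul, Finset.prod_mul_distrib, ← hn2]
      have hc2n : (1 : ℝ) ≤ nm (c₂ * u) := by exact_mod_cast nm_pos.mpr hC2.ne_zero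
      have e8 : (nm (c₂ * u) : ℝ) ^ (1 / 8 : ℝ) ≤ nm (c₂ * u) := by
        calc (nm (c₂ * u) : ℝ) ^ (1 / 8 : ℝ) ≤ (nm (c₂ * u) : ℝ) ^ (1 : ℝ) :=
              Real.rpow_le_rpow_of_exponent_le hc2n (by norm_num)
          _ = nm (c₂ * u) := Real.rpow_one _
      have hnv : (nm v : ℝ) ≤ Real.exp (κ₀ + 1) := by
        refine le_trans ?_ hc0n'
        exact_mod_cast nm_le_of_dvd hc0p.ne_zero (huv ▸ dvd_mul_left _ _)
      have e9 : (nm (M * (9 * k) * (c₁ * v)) : ℝ) ≤ (nm (M * (9 * k)) : ℝ) *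
          (P1 r y Q₀ J * Real.exp (κ₀ + 1)) := by
        rw [nm_mul (M * (9 * k)) (c₁ * v), nm_mul c₁ v]
        push_cast
        gcongr
      have e10 : (nm (c₂ * u) : ℝ) = nm c₂ * nm u := by rw [nm_mul]; push_cast; ring
      calc ‖∏ i : J, h (Real.log (nm (p i)) - kap r y Q₀ i)‖ *
              ‖twt φ l₁ t₁ ((c₂ * u) * (c₁ * v))‖ *
            ‖TS M (twt ψ l₂ t₂) V Q k ((c₂ * u) * (c₁ * v))‖
          ≤ ‖∏ i : J, h (Real.log (nm (p i)) - kap r y Q₀ i)‖ * 1 *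
            ((tau (k ^ 2) : ℝ) * (C * (((nm (M * (9 * k)) : ℝ) * (P1 r y Q₀ J *
              Real.exp (κ₀ + 1))) * (1 + |t₂|)) ^ ε * (β * Q) ^ (θ + ε)) * nm (c₂ * u)) := by
            refine mul_le_mul (mul_le_mul_of_nonneg_left n1 (norm_nonneg _)) (key.trans ?_)
              (norm_nonneg _) (by positivity)
            gcongr
        _ = K * (‖∏ i : J, h (Real.log (nm (p i)) - kap r y Q₀ i)‖ * nm c₂) * nm u := by
            rw [hK, e10]; ring
        _ ≤ _ := by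
            rw [norm_prod]
            apply mul_le_mul_of_nonneg_left hnsum
            positivity
  have e0 : NSumS h₀ h r y Q₀ κ₀ J M (twt ψ l₂ t₂) (twt φ l₁ t₁) V Q k =
      ∑ c₀ ∈ sqS M κ₀, h₀ (Real.log (nm c₀) - κ₀) *
        ∑ p ∈ tup r y Q₀ J, (∏ i : J, h (Real.log (nm (p i)) - kap r y Q₀ i)) *
        twt φ l₁ t₁ (c₀ * ∏ i : J, p i) * TS M (twt ψ l₂ t₂) V Q k (c₀ * ∏ i : J, p i) := rfl
  have e1 : ∑ p ∈ tup r y Q₀ J, ∏ i : J, (‖h (Real.log (nm (p i)) - kap r y Q₀ i)‖ *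
        (if p i ∣ k then (nm (p i) : ℝ) else 1)) =
      ∏ i : J, ∑ x ∈ prS (kap r y Q₀ i), (‖h (Real.log (nm x) - kap r y Q₀ i)‖ *
        (if x ∣ k then (nm x : ℝ) else 1)) := by
    unfold tup
    exact (Finset.prod_univ_sum (fun i : J => prS (kap r y Q₀ i))
      (fun (i : J) (x : Eis) => ‖h (Real.log (nm x) - kap r y Q₀ i)‖ *
        (if x ∣ k then (nm x : ℝ) else 1))).symm
  have e2 : ∏ i : J, ∑ x ∈ prS (kap r y Q₀ i), (‖h (Real.log (nm x) - kap r y Q₀ i)‖ *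
        (if x ∣ k then (nm x : ℝ) else 1)) ≤
      ∏ i : J, (19 * B * tau k * Real.exp (kap r y Q₀ i + 1)) := by
    apply Finset.prod_le_prod
    · intro i _
      apply Finset.sum_nonneg
      intro x _
      positivity
    · intro i _
      exact sum_prS_le hBh (by linarith) _ hk
  have e3 : ∏ i : J, (19 * B * tau k * Real.exp (kap r y Q₀ i + 1)) ≤
      (19 * B * tau k) ^ r * P1 r y Q₀ J := by
    rw [Finset.prod_mul_distrib, Finset.prod_const, Finset.card_univ, Fintype.card_coe]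
    apply mul_le_mul_of_nonneg_right _ hP.le
    apply pow_le_pow_right₀
    · nlinarith
    · have := Finset.card_le_univ J
      rwa [Fintype.card_fin] at this
  have hin : ∀ c₀ ∈ sqS M κ₀, ‖h₀ (Real.log (nm c₀) - κ₀) *
        ∑ p ∈ tup r y Q₀ J, (∏ i : J, h (Real.log (nm (p i)) - kap r y Q₀ i)) *
        twt φ l₁ t₁ (c₀ * ∏ i : J, p i) * TS M (twt ψ l₂ t₂) V Q k (c₀ * ∏ i : J, p i)‖ ≤
      (K * ((19 * B * tau k) ^ r * P1 r y Q₀ J)) * B *
        ∑ u ∈ (dvs k).filter (fun u => u ∣ c₀), (nm u : ℝ) := by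
    intro c₀ hc₀
    have hS : (0 : ℝ) ≤ ∑ u ∈ (dvs k).filter (fun u => u ∣ c₀), (nm u : ℝ) :=
      Finset.sum_nonneg fun _ _ => Nat.cast_nonneg _
    rw [norm_mul]
    have h1 : ‖∑ p ∈ tup r y Q₀ J, (∏ i : J, h (Real.log (nm (p i)) - kap r y Q₀ i)) *
        twt φ l₁ t₁ (c₀ * ∏ i : J, p i) * TS M (twt ψ l₂ t₂) V Q k (c₀ * ∏ i : J, p i)‖ ≤
        (K * ((19 * B * tau k) ^ r * P1 r y Q₀ J)) *
        ∑ u ∈ (dvs k).filter (fun u => u ∣ c₀), (nm u : ℝ) := by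
      refine (norm_sum_le _ _).trans ((Finset.sum_le_sum (hterm c₀ hc₀)).trans ?_)
      rw [← Finset.sum_mul, ← Finset.mul_sum]
      apply mul_le_mul_of_nonneg_right _ hS
      apply mul_le_mul_of_nonneg_left _ hK0
      rw [e1]
      exact e2.trans e3
    calc _ ≤ B * ((K * ((19 * B * tau k) ^ r * P1 r y Q₀ J)) *
        ∑ u ∈ (dvs k).filter (fun u => u ∣ c₀), (nm u : ℝ)) :=
          mul_le_mul (hBh₀ _) h1 (norm_nonneg _) (by linarith)
      _ = _ := by ring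
  rw [e0]
  refine (norm_sum_le _ _).trans ((Finset.sum_le_sum hin).trans ?_)
  rw [← Finset.mul_sum]
  have hfin : ∑ c₀ ∈ sqS M κ₀, ∑ u ∈ (dvs k).filter (fun u => u ∣ c₀), (nm u : ℝ) ≤
      tau k * (18 * Real.exp (κ₀ + 1)) := by
    refine le_trans ?_ (sum_sq_le hk he0.le)
    apply Finset.sum_le_sum_of_subset_of_nonneg
    · unfold sqS sqB
      exact (Finset.filter_subset _ _).trans (Finset.filter_subset _ _)
    · intro _ _ _
      exact Finset.sum_nonneg fun _ _ => Nat.cast_nonneg _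
  calc _ ≤ (K * ((19 * B * tau k) ^ r * P1 r y Q₀ J)) * B *
        (tau k * (18 * Real.exp (κ₀ + 1))) := by
        apply mul_le_mul_of_nonneg_left hfin
        positivity
    _ = _ := by ring

set_option maxHeartbeats 1600000 in
/-- **leaf L4 for `NSumS`**: the contribution of the principal `k` -/
theorem natPS (T : TkAlg) {θ : ℝ} (hθ : 7 / 8 ≤ θ) (hθ1 : θ ≤ 1) (hPF : PF Set.univ θ)
    {r : ℕ} (hr : 0 < r) {y : ℝ} (hy : 0 ≤ y) : NatPS θ r y := by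
  classical
  intro h₀ h hh₀ hh V hV l₁ l₂ ε hε
  have hr' : (0 : ℝ) < r := by exact_mod_cast hr
  have hr1 : (1 : ℝ) ≤ r := by exact_mod_cast hr
  set δ : ℝ := min 1 (ε / (5 + r + 2 * y)) with hδ
  have hd0 : 0 < δ := lt_min one_pos (by positivity)
  have hd1 : δ ≤ 1 := min_le_left _ _
  have hd2 : (5 + r + 2 * y) * δ ≤ ε := by
    have h1 : δ ≤ ε / (5 + r + 2 * y) := min_le_right _ _
    have h2 : (0 : ℝ) < 5 + r + 2 * y := by positivity
    calc (5 + r + 2 * y) * δ ≤ (5 + r + 2 * y) * (ε / (5 + r + 2 * y)) := by gcongr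
      _ = ε := by field_simp
  obtain ⟨C, β, B, hC0, hβ1, hB1, hC⟩ := NSumS_bound T hθ hθ1 hPF hh₀ hh hV (r := r) (y := y)
    l₁ l₂ hd0 hd1
  obtain ⟨C1, hC11, hC1⟩ := tau_le_rpow hd0
  set E : ℝ := Real.exp (r * (3 * r + 1)) with hE
  have hE1 : 1 ≤ E := Real.one_le_exp (by positivity)
  set E1 : ℝ := Real.exp 1 with hE1d
  have hE11 : 1 ≤ E1 := Real.one_le_exp (by norm_num)
  refine ⟨18 * ((C1 * (C * (81 * (E * E1)) * β ^ 2) * ((19 * B * C1) ^ r * E)) *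
    (B * (C1 * (18 * E1)))), 1, by positivity, ?_⟩
  intro M φ ψ h2 hφ hψ Q₀ Q κ₀ hQ hQQ hκ hM9 J H hH t₁ t₂
  have hQ₀ : 1 ≤ Q₀ := hQ.trans hQQ
  have hQ0 : 0 < Q₀ := by linarith
  have hM1 : (1 : ℝ) ≤ nm M := by exact_mod_cast nm_pos.mpr hφ.q0
  have hH1 : (1 : ℝ) ≤ H := by exact_mod_cast hH
  have hexp0 := Real.exp_pos κ₀
  have hexpy : Real.exp κ₀ ≤ Q₀ ^ y := by
    have h1 : Real.exp κ₀ ≤ Q₀ ^ (y / r) := by
      have h3 : 1 * Real.exp κ₀ ≤ nm M * Real.exp κ₀ := by gcongr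
      nlinarith
    refine h1.trans (Real.rpow_le_rpow_of_exponent_le hQ₀ ?_)
    rw [div_le_iff₀ hr']
    nlinarith
  set Z : ℝ := (nm M : ℝ) * Q₀ * H with hZ
  have hZ1 : 1 ≤ Z := by
    have h1 : (1 : ℝ) ≤ (nm M : ℝ) * Q₀ := by nlinarith
    nlinarith
  have hZ0 : 0 < Z := by linarith
  have hHZ : (H : ℝ) ≤ Z := by
    have h1 : (1 : ℝ) ≤ (nm M : ℝ) * Q₀ := by nlinarith
    rw [hZ]; nlinarith
  have hQZ : Q₀ ≤ Z := by
    have h1 : (1 : ℝ) ≤ (nm M : ℝ) * H := by nlinarith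
    calc Q₀ ≤ Q₀ * ((nm M : ℝ) * H) := le_mul_of_one_le_right hQ0.le h1
      _ = Z := by rw [hZ]; ring
  have hMHZ : (nm M : ℝ) * H ≤ Z := by
    rw [hZ]
    nlinarith [mul_nonneg (by linarith : (0 : ℝ) ≤ nm M) (by linarith : (0 : ℝ) ≤ (H : ℝ))]
  have hCJ := CJ_pos (y := y) hQ₀ J
  have hP := P1_pos r y Q₀ J
  have hPE : P1 r y Q₀ J ≤ E * CJ r y Q₀ J := P1_le hQ₀ J
  have hCJy := CJ_le hr hy hQ₀ J
  have he1 : Real.exp (κ₀ + 1) = Real.exp κ₀ * E1 := Real.exp_add _ _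
  set U : ℝ := 1 + |t₁| + |t₂| with hU
  have hU1 : 1 ≤ U := by have := abs_nonneg t₁; have := abs_nonneg t₂; rw [hU]; linarith
  -- pointwise bound
  have hpt : ∀ k ∈ (ball H).filter (fun k => k ≠ 0 ∧ ¬ NPk M φ l₁ k),
      ‖NSumS h₀ h r y Q₀ κ₀ J M (twt ψ l₂ t₂) (twt φ l₁ t₁) V Q k‖ ≤
        ((C1 * (C * (81 * (E * E1)) * β ^ 2) * ((19 * B * C1) ^ r * E)) *
          (B * (C1 * (18 * E1)))) * (Z ^ ε * U *
          (CJ r y Q₀ J * Real.exp κ₀ * Q ^ θ)) := by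
    intro k hk
    rw [Finset.mem_filter, mem_ball] at hk
    obtain ⟨hkH, hk0, -⟩ := hk
    have hkH' : (nm k : ℝ) ≤ H := by exact_mod_cast hkH
    have hk1 : (1 : ℝ) ≤ nm k := by exact_mod_cast nm_pos.mpr hk0
    refine (hC M φ ψ h2 hφ hψ Q₀ Q κ₀ hQ hQQ hκ hM9 J k hk0 t₁ t₂).trans ?_
    rw [he1]
    have b0 : (tau k : ℝ) ≤ C1 * Z ^ δ := by
      refine (hC1 _ hk0).trans ?_
      have : (nm k : ℝ) ^ δ ≤ Z ^ δ := Real.rpow_le_rpow (by positivity) (hkH'.trans hHZ) hd0.le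
      gcongr
    have b1 : (tau (k ^ 2) : ℝ) ≤ C1 * Z ^ (2 * δ) := by
      refine (hC1 _ (pow_ne_zero 2 hk0)).trans ?_
      have h3 : (nm (k ^ 2) : ℝ) ≤ Z ^ (2 : ℝ) := by
        rw [nm_pow]; push_cast
        rw [Real.rpow_two]
        exact pow_le_pow_left₀ (by positivity) (hkH'.trans hHZ) 2
      have h4 : (nm (k ^ 2) : ℝ) ^ δ ≤ Z ^ (2 * δ) := by
        rw [Real.rpow_mul hZ0.le]
        exact Real.rpow_le_rpow (by positivity) h3 hd0.le
      gcongr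
    have b2 : (19 * B * tau k : ℝ) ^ r ≤ (19 * B * C1) ^ r * Z ^ (r * δ) := by
      calc (19 * B * tau k : ℝ) ^ r ≤ (19 * B * (C1 * Z ^ δ)) ^ r := by gcongr
        _ = (19 * B * C1) ^ r * (Z ^ δ) ^ r := by rw [← mul_pow]; ring
        _ = (19 * B * C1) ^ r * Z ^ (r * δ) := by
            rw [← Real.rpow_natCast (Z ^ δ) r, ← Real.rpow_mul hZ0.le, mul_comm δ]
    have b3 : (((nm (M * (9 * k)) : ℝ) * (P1 r y Q₀ J * (Real.exp κ₀ * E1))) *
        (1 + |t₂|)) ^ δ ≤ (81 * (E * E1)) * Z ^ ((1 + 2 * y) * δ) * U := by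
      have h9 : nm (9 : Eis) = 81 := by
        have : (9 : Eis) = ((9 : ℕ) : Eis) := by norm_num
        rw [this, nm_natCast]; norm_num
      have h3 : (nm (M * (9 * k)) : ℝ) = 81 * (nm M * nm k) := by
        rw [nm_mul, nm_mul, h9]; push_cast; ring
      have h4 : (nm (M * (9 * k)) : ℝ) * (P1 r y Q₀ J * (Real.exp κ₀ * E1)) ≤
          (81 * (E * E1)) * Z ^ (1 + 2 * y) := by
        rw [h3]
        calc 81 * ((nm M : ℝ) * nm k) * (P1 r y Q₀ J * (Real.exp κ₀ * E1))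
            ≤ 81 * ((nm M : ℝ) * H) * ((E * Q₀ ^ y) * (Q₀ ^ y * E1)) := by
              have : P1 r y Q₀ J ≤ E * Q₀ ^ y := hPE.trans (by gcongr)
              gcongr
          _ = (81 * (E * E1)) * (((nm M : ℝ) * H) * (Q₀ ^ y * Q₀ ^ y)) := by ring
          _ ≤ (81 * (E * E1)) * (Z * (Z ^ y * Z ^ y)) := by
              have : Q₀ ^ y ≤ Z ^ y := Real.rpow_le_rpow hQ0.le hQZ hy
              gcongr
          _ = (81 * (E * E1)) * Z ^ (1 + 2 * y) := by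
              rw [Real.rpow_add hZ0, Real.rpow_one, two_mul, Real.rpow_add hZ0]
      have h5 : 1 + |t₂| ≤ U := by have := abs_nonneg t₁; rw [hU]; linarith
      have hat := abs_nonneg t₂
      have h81 : (1 : ℝ) ≤ 81 * (E * E1) := by nlinarith
      calc (((nm (M * (9 * k)) : ℝ) * (P1 r y Q₀ J * (Real.exp κ₀ * E1))) * (1 + |t₂|)) ^ δ
          ≤ (((81 * (E * E1)) * Z ^ (1 + 2 * y)) * U) ^ δ := by
            apply Real.rpow_le_rpow (by positivity) _ hd0.le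
            gcongr
        _ = (81 * (E * E1)) ^ δ * Z ^ ((1 + 2 * y) * δ) * U ^ δ := by
            rw [Real.mul_rpow (by positivity) (by positivity),
              Real.mul_rpow (by positivity) (by positivity), Real.rpow_mul hZ0.le]
        _ ≤ (81 * (E * E1)) * Z ^ ((1 + 2 * y) * δ) * U := by
            have h6 : (81 * (E * E1)) ^ δ ≤ 81 * (E * E1) := by
              calc (81 * (E * E1)) ^ δ ≤ (81 * (E * E1)) ^ (1 : ℝ) :=
                    Real.rpow_le_rpow_of_exponent_le h81 hd1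
                _ = _ := Real.rpow_one _
            have h7 : U ^ δ ≤ U := by
              calc U ^ δ ≤ U ^ (1 : ℝ) := Real.rpow_le_rpow_of_exponent_le hU1 hd1
                _ = _ := Real.rpow_one _
            gcongr
    have b4 : (β * Q) ^ (θ + δ) ≤ β ^ 2 * Q ^ θ * Z ^ δ := by
      have hQp : 0 < Q := by linarith
      have hβp : 0 < β := by linarith
      rw [Real.mul_rpow hβp.le hQp.le, Real.rpow_add hQp]
      have h6 : β ^ (θ + δ) ≤ β ^ 2 := by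
        rw [← Real.rpow_two]
        exact Real.rpow_le_rpow_of_exponent_le hβ1 (by linarith)
      have h7 : Q ^ δ ≤ Z ^ δ := Real.rpow_le_rpow hQp.le (hQQ.trans hQZ) hd0.le
      calc β ^ (θ + δ) * (Q ^ θ * Q ^ δ) ≤ β ^ 2 * (Q ^ θ * Z ^ δ) := by gcongr
        _ = _ := by ring
    have hU0 : 0 < U := by linarith
    have hQθ : 0 ≤ Q ^ θ := by positivity
    calc (tau (k ^ 2) : ℝ) * (C * (((nm (M * (9 * k)) : ℝ) * (P1 r y Q₀ J *
          (Real.exp κ₀ * E1))) * (1 + |t₂|)) ^ δ *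
          (β * Q) ^ (θ + δ)) * ((19 * B * tau k) ^ r * P1 r y Q₀ J) *
          (B * (tau k * (18 * (Real.exp κ₀ * E1))))
        ≤ (C1 * Z ^ (2 * δ)) * (C * ((81 * (E * E1)) * Z ^ ((1 + 2 * y) * δ) * U) *
          (β ^ 2 * Q ^ θ * Z ^ δ)) * (((19 * B * C1) ^ r * Z ^ (r * δ)) *
            (E * CJ r y Q₀ J)) * (B * ((C1 * Z ^ δ) * (18 * (Real.exp κ₀ * E1)))) := by
          have hat := abs_nonneg t₂
          gcongr
      _ = ((C1 * (C * (81 * (E * E1)) * β ^ 2) * ((19 * B * C1) ^ r * E)) *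
          (B * (C1 * (18 * E1)))) *
          ((Z ^ (2 * δ) * Z ^ ((1 + 2 * y) * δ) * Z ^ δ * Z ^ (r * δ) * Z ^ δ) * U *
            (CJ r y Q₀ J * Real.exp κ₀ * Q ^ θ)) := by ring
      _ ≤ ((C1 * (C * (81 * (E * E1)) * β ^ 2) * ((19 * B * C1) ^ r * E)) *
          (B * (C1 * (18 * E1)))) *
          (Z ^ ε * U * (CJ r y Q₀ J * Real.exp κ₀ * Q ^ θ)) := by
          have h8 : Z ^ (2 * δ) * Z ^ ((1 + 2 * y) * δ) * Z ^ δ * Z ^ (r * δ) * Z ^ δ ≤
              Z ^ ε := by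
            rw [← Real.rpow_add hZ0, ← Real.rpow_add hZ0, ← Real.rpow_add hZ0,
              ← Real.rpow_add hZ0]
            apply Real.rpow_le_rpow_of_exponent_le hZ1
            linarith
          gcongr
  have hcard := card_principal hφ l₁ hH
    ((ball H).filter (fun k => k ≠ 0 ∧ ¬ NPk M φ l₁ k)) (fun k hk => by
      rw [Finset.mem_filter] at hk; exact hk)
  refine (Finset.sum_le_sum hpt).trans ?_
  rw [Finset.sum_const, nsmul_eq_mul, Real.rpow_one]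
  have hU0 : 0 < U := by linarith
  have hQθ : 0 ≤ Q ^ θ := by positivity
  calc _ ≤ (18 * (H : ℝ) ^ (1 / 3 : ℝ)) *
        (((C1 * (C * (81 * (E * E1)) * β ^ 2) * ((19 * B * C1) ^ r * E)) *
          (B * (C1 * (18 * E1)))) * (Z ^ ε * U *
          (CJ r y Q₀ J * Real.exp κ₀ * Q ^ θ))) := by gcongr
    _ = _ := by ring

end Crest.Agent.R017.NatP401
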