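import Crest.Agent.R017.NSxG_545
import Crest.Agent.R017.NatZ_571
import Crest.Agent.R017.BDefs3_770

/-!
# Row 17, section B, leaf L4' in the frozen form: `NatZ3` (`k = 0`, with the squarefree piece `c₀`)
-/

set_option autoImplicit false

noncomputable section

open Complex
open scoped ComplexConjugate

namespace Crest.Agent.R017.NSx545

open Crest.Agent.R012 Crest.Agent.R012.Eis Crest.Agent.R012.Mob705 Crest.Agent.R012.Div277
open Crest.Agent.R012.PSer47 (IsChar)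
open Crest.Agent.R017.End699 Crest.Agent.R017.Sx545 Crest.Agent.R017.B770
open Crest.Agent.R017.Asm986 hiding uwd
open Crest.Agent.R017.NatZ571

open Classical in
/-- the `b`-sum at `k = 0` for fixed `c`. -/
lemma sum0_le (H : TkAlg) {V : ℝ → ℂ} (hV : SW V) : ∃ C : ℝ, 0 ≤ C ∧
    ∀ (M : Eis), (2 : Eis) ∣ M → ∀ f : Eis → ℂ, (∀ b, ‖f b‖ ≤ 1) → ∀ Q : ℝ, 0 < Q →
    ∀ c : Eis, Sm 2 c → Squarefree c →
      ‖∑' b : Eis, if Sm M b then f b * tk 0 b c * V (nm b / Q) else 0‖ ≤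
        C * Q ^ (19 / 20 : ℝ) * (nm c : ℝ) ^ (1 / 20 : ℝ) := by
  obtain ⟨B, R, hB0, hR1, hB, hR⟩ := NatZ571.SW.bounds hV
  obtain ⟨C₁, hC₁0, hC₁⟩ := sum_tk_le H
  refine ⟨B * C₁ * R ^ (19 / 20 : ℝ), by positivity, ?_⟩
  intro M h2M f hf Q hQp c hc hsq
  set X := ⌊R * Q⌋₊ with hX
  have hXY : (X : ℝ) ≤ R * Q := Nat.floor_le (by positivity)
  have hsupp : ∀ b ∉ (primBall X).filter (Sm 2),
      (if Sm M b then f b * tk 0 b c * V (nm b / Q) else 0) = 0 := by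
    intro b hb
    by_cases hS : Sm M b
    · rw [if_pos hS]
      by_cases hV0 : V (nm b / Q) = 0
      · rw [hV0, mul_zero]
      · exfalso
        apply hb
        have h1 := hR _ hV0
        rw [div_le_iff₀ hQp] at h1
        rw [Finset.mem_filter, mem_primBall]
        refine ⟨⟨Nat.le_floor h1, hS.1⟩, hS.1, ?_⟩
        exact hS.2.of_isCoprime_of_dvd_right h2M
    · rw [if_neg hS]
  rw [tsum_eq_sum hsupp]
  calc ‖∑ b ∈ (primBall X).filter (Sm 2),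
        (if Sm M b then f b * tk 0 b c * V (nm b / Q) else 0)‖
      ≤ ∑ b ∈ (primBall X).filter (Sm 2), ‖tk 0 b c‖ * B := by
        refine (norm_sum_le _ _).trans (Finset.sum_le_sum fun b _ => ?_)
        by_cases hS : Sm M b
        · rw [if_pos hS, norm_mul, norm_mul]
          refine mul_le_mul ?_ (hB _) (norm_nonneg _) (norm_nonneg _)
          calc ‖f b‖ * ‖tk 0 b c‖ ≤ 1 * ‖tk 0 b c‖ :=
                mul_le_mul_of_nonneg_right (hf b) (norm_nonneg _)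
            _ = ‖tk 0 b c‖ := one_mul _
        · rw [if_neg hS, norm_zero]; positivity
    _ = (∑ b ∈ (primBall X).filter (Sm 2), ‖tk 0 b c‖) * B := by rw [Finset.sum_mul]
    _ ≤ (C₁ * (nm c : ℝ) ^ (1 / 20 : ℝ) * (R * Q) ^ (19 / 20 : ℝ)) * B :=
        mul_le_mul_of_nonneg_right (hC₁ c hc hsq X (R * Q) hXY) hB0
    _ = _ := by rw [Real.mul_rpow (by positivity) hQp.le]; ring

open Classical in
/-- the sum over the squarefree piece. -/
lemma sqS_sum_le {h₀ : ℝ → ℂ} (hh₀ : HW h₀) : ∃ B : ℝ, 0 ≤ B ∧ ∀ (M : Eis) (κ : ℝ),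
    ∑ c ∈ sqS M κ, ‖h₀ (Real.log (nm c) - κ)‖ * (nm c : ℝ) ^ (1 / 20 : ℝ) ≤
      B * Real.exp κ ^ (21 / 20 : ℝ) := by
  obtain ⟨Bh, hBh⟩ := hh₀.bounded
  have hB0 : 0 ≤ Bh := (norm_nonneg _).trans (hBh 0)
  refine ⟨Bh * 100 * Real.exp 1 ^ (21 / 20 : ℝ), by positivity, fun M κ => ?_⟩
  set E := Real.exp (κ + 1) with hE
  have hE0 : 0 < E := Real.exp_pos _
  calc ∑ c ∈ sqS M κ, ‖h₀ (Real.log (nm c) - κ)‖ * (nm c : ℝ) ^ (1 / 20 : ℝ)
      ≤ ∑ _c ∈ sqS M κ, Bh * E ^ (1 / 20 : ℝ) := by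
        refine Finset.sum_le_sum fun c hc => ?_
        have h1 := (mem_sqS.mp hc).1.2
        gcongr
        exact hBh _
    _ = (sqS M κ).card * (Bh * E ^ (1 / 20 : ℝ)) := by rw [Finset.sum_const, nsmul_eq_mul]
    _ ≤ (100 * E) * (Bh * E ^ (1 / 20 : ℝ)) := by
        have h2 : ((sqS M κ).card : ℝ) ≤ 100 * E := by
          have h3 : (sqS M κ).card ≤ (primBall ⌊E⌋₊).card := by
            unfold sqS sqB
            exact (Finset.card_filter_le _ _).trans (Finset.card_filter_le _ _)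
          calc ((sqS M κ).card : ℝ) ≤ ((primBall ⌊E⌋₊).card : ℝ) := by exact_mod_cast h3
            _ ≤ 100 * (⌊E⌋₊ : ℝ) := Lat277.card_primBall_le _
            _ ≤ 100 * E := mul_le_mul_of_nonneg_left (Nat.floor_le hE0.le) (by norm_num)
        gcongr
    _ = Bh * 100 * (E * E ^ (1 / 20 : ℝ)) := by ring
    _ = Bh * 100 * (Real.exp 1 ^ (21 / 20 : ℝ)) * Real.exp κ ^ (21 / 20 : ℝ) := by
        have h4 : E * E ^ (1 / 20 : ℝ) = E ^ (21 / 20 : ℝ) := by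
          nth_rw 1 [← Real.rpow_one E]
          rw [← Real.rpow_add hE0]; norm_num
        rw [h4, hE, Real.exp_add, Real.mul_rpow (Real.exp_pos _).le (Real.exp_pos _).le]
        ring

lemma CJ_univ {r : ℕ} (hr : 0 < r) (y Q₀ : ℝ) : CJ r y Q₀ Finset.univ = Q₀ ^ y := by
  unfold CJ
  congr 1
  rw [Finset.card_univ, Fintype.card_fin]
  have : (r : ℝ) ≠ 0 := by exact_mod_cast hr.ne'
  field_simp

/-- **L4'** in the frozen form. -/
theorem natZ3 (H : TkAlg) {r : ℕ} {y δ : ℝ} (hr : 0 < r) (hδ : 0 ≤ δ) : NatZ3 r y δ := by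
  classical
  intro h₀ h hh₀ hh V hV ε hε
  obtain ⟨Bh, hBh⟩ := hh.bounded
  obtain ⟨K, hK0, hK⟩ := sum0_le H hV
  obtain ⟨D, hD0, hD⟩ := amp_sum_le r y hBh (a := 1 / 20) (by norm_num)
  obtain ⟨B₀, hB₀0, hB₀⟩ := sqS_sum_le hh₀
  refine ⟨B₀ * D * K, by positivity, ?_⟩
  intro M f g hM0 h2M hf hg Q₀ Q hQ hQQ hMQ
  have hQ₀ : 1 ≤ Q₀ := hQ.trans hQQ
  have hQ0 : 0 < Q₀ := by linarith
  have hQp : 0 < Q := by linarith
  set κ₀ := δ * Real.log Q₀ with hκ₀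
  have hexpκ : Real.exp κ₀ = Q₀ ^ δ := by
    rw [hκ₀, Real.rpow_def_of_pos hQ0]; congr 1; ring
  have hκ0 : 0 ≤ κ₀ := mul_nonneg hδ (Real.log_nonneg hQ₀)
  have hM' : (nm M : ℝ) * Real.exp κ₀ * 9 < Q₀ ^ (y / r) := by rw [hexpκ]; exact hMQ
  have hM9 : (nm M : ℝ) < Q₀ ^ (y / r) / 9 := by
    rw [lt_div_iff₀ (by norm_num)]
    refine lt_of_le_of_lt ?_ hM'
    have h1 : (1 : ℝ) ≤ Real.exp κ₀ := Real.one_le_exp hκ0
    have h2 : (0 : ℝ) ≤ nm M := by positivity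
    nlinarith [mul_le_mul_of_nonneg_left h1 h2]
  have hterm : ∀ c₀ ∈ sqS M κ₀, ∀ p ∈ tup r y Q₀ Finset.univ,
      ‖(∏ i : (Finset.univ : Finset (Fin r)), h (Real.log (nm (p i)) - kap r y Q₀ i)) *
        g (c₀ * ∏ i, p i) *
        ∑' b : Eis, if Sm M b then f b * tk 0 b (c₀ * ∏ i, p i) * V (nm b / Q) else 0‖ ≤
      (nm c₀ : ℝ) ^ (1 / 20 : ℝ) * (K * Q ^ (19 / 20 : ℝ)) *
        ((∏ i : (Finset.univ : Finset (Fin r)), ‖h (Real.log (nm (p i)) - kap r y Q₀ i)‖) *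
          (nm (∏ i, p i) : ℝ) ^ (1 / 20 : ℝ)) := by
    intro c₀ hc₀ p hp
    obtain ⟨⟨⟨hcp, hcsq⟩, hcn⟩, hcM⟩ := mem_sqS.mp hc₀
    by_cases hne : (∏ i : (Finset.univ : Finset (Fin r)),
        h (Real.log (nm (p i)) - kap r y Q₀ i)) = 0
    · rw [hne, zero_mul, zero_mul, norm_zero]; positivity
    · obtain ⟨hS, hsq⟩ := prod_good h2M hM0 hh hQ₀ hM9 hp hne
      have hnd := tup_ndvd hh hM0 hcp.ne_zero hQ₀ hM' hcn hp hne
      have hc2 : Sm 2 c₀ := ⟨hcp, hcM.of_isCoprime_of_dvd_right h2M⟩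
      have hcop : IsCoprime c₀ (∏ i, p i) := by
        apply IsCoprime.prod_right
        intro i _
        have h1 : IsPP (p i) := ⟨(NatZ571.mem_prS.mp (Fintype.mem_piFinset.mp hp i)).1.2,
          (NatZ571.mem_prS.mp (Fintype.mem_piFinset.mp hp i)).2⟩
        refine (h1.isCoprime_iff.mpr ?_).symm
        have h2 := hnd i (Finset.mem_univ _)
        rwa [ex_coe Finset.univ p i] at h2
      have hsq' : Squarefree (c₀ * ∏ i, p i) :=
        squarefree_mul_iff.mpr ⟨hcop.isRelPrime, hcsq, hsq⟩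
      have h3 := hK M h2M f hf Q hQp (c₀ * ∏ i, p i) (hc2.mul hS) hsq'
      rw [norm_mul, norm_mul, norm_prod]
      calc (∏ i : (Finset.univ : Finset (Fin r)), ‖h (Real.log (nm (p i)) - kap r y Q₀ i)‖) *
            ‖g (c₀ * ∏ i, p i)‖ *
            ‖∑' b : Eis, if Sm M b then f b * tk 0 b (c₀ * ∏ i, p i) * V (nm b / Q) else 0‖
          ≤ (∏ i : (Finset.univ : Finset (Fin r)), ‖h (Real.log (nm (p i)) - kap r y Q₀ i)‖) *
            1 * (K * Q ^ (19 / 20 : ℝ) * (nm (c₀ * ∏ i, p i) : ℝ) ^ (1 / 20 : ℝ)) := by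
            refine mul_le_mul ?_ h3 (norm_nonneg _) (by positivity)
            exact mul_le_mul_of_nonneg_left (hg _) (by positivity)
        _ = _ := by
            rw [nm_mul]; push_cast
            rw [Real.mul_rpow (by positivity) (by positivity)]
            ring
  unfold NSumS
  calc ‖∑ c₀ ∈ sqS M κ₀, h₀ (Real.log (nm c₀) - κ₀) * ∑ p ∈ tup r y Q₀ Finset.univ,
        (∏ i : (Finset.univ : Finset (Fin r)), h (Real.log (nm (p i)) - kap r y Q₀ i)) *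
          g (c₀ * ∏ i, p i) *
          ∑' b : Eis, if Sm M b then f b * tk 0 b (c₀ * ∏ i, p i) * V (nm b / Q) else 0‖
      ≤ ∑ c₀ ∈ sqS M κ₀, ‖h₀ (Real.log (nm c₀) - κ₀)‖ *
          ((nm c₀ : ℝ) ^ (1 / 20 : ℝ) * (K * Q ^ (19 / 20 : ℝ)) *
            (D * CJ r y Q₀ Finset.univ ^ (1 + 1 / 20 : ℝ))) := by
        refine (norm_sum_le _ _).trans (Finset.sum_le_sum fun c₀ hc₀ => ?_)
        rw [norm_mul]
        refine mul_le_mul_of_nonneg_left ?_ (norm_nonneg _)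
        refine (norm_sum_le _ _).trans ((Finset.sum_le_sum (hterm c₀ hc₀)).trans ?_)
        rw [← Finset.mul_sum]
        exact mul_le_mul_of_nonneg_left (hD Q₀ hQ₀ Finset.univ) (by positivity)
    _ = (∑ c₀ ∈ sqS M κ₀, ‖h₀ (Real.log (nm c₀) - κ₀)‖ * (nm c₀ : ℝ) ^ (1 / 20 : ℝ)) *
          ((K * Q ^ (19 / 20 : ℝ)) * (D * CJ r y Q₀ Finset.univ ^ (1 + 1 / 20 : ℝ))) := by
        rw [Finset.sum_mul]
        exact Finset.sum_congr rfl fun _ _ => by ring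
    _ ≤ (B₀ * Real.exp κ₀ ^ (21 / 20 : ℝ)) *
          ((K * Q ^ (19 / 20 : ℝ)) * (D * CJ r y Q₀ Finset.univ ^ (1 + 1 / 20 : ℝ))) := by
        have hCJ : 0 ≤ CJ r y Q₀ Finset.univ := by unfold CJ; positivity
        exact mul_le_mul_of_nonneg_right (hB₀ M κ₀) (by positivity)
    _ = B₀ * D * K * ((Q₀ ^ (y + δ)) ^ 2 * (Q / Q₀ ^ (y + δ)) ^ (19 / 20 : ℝ)) := by
        rw [hexpκ, CJ_univ hr]
        have hY : 0 < Q₀ ^ (y + δ) := Real.rpow_pos_of_pos hQ0 _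
        have e1 : (Q₀ ^ (y + δ)) ^ 2 * (Q / Q₀ ^ (y + δ)) ^ (19 / 20 : ℝ) =
            (Q₀ ^ (y + δ)) ^ (21 / 20 : ℝ) * Q ^ (19 / 20 : ℝ) := by
          rw [Real.div_rpow hQp.le hY.le, show (21 / 20 : ℝ) = 2 - 19 / 20 by norm_num,
            Real.rpow_sub hY]
          have h1 : (Q₀ ^ (y + δ)) ^ (2 : ℝ) = (Q₀ ^ (y + δ)) ^ 2 := by norm_num
          rw [h1]; ring
        have e2 : (Q₀ ^ (y + δ)) ^ (21 / 20 : ℝ) =
            (Q₀ ^ δ) ^ (21 / 20 : ℝ) * (Q₀ ^ y) ^ (1 + 1 / 20 : ℝ) := by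
          rw [Real.rpow_add hQ0, Real.mul_rpow (by positivity) (by positivity)]
          norm_num
          ring
        rw [e1, e2]
        ring
    _ ≤ _ := by
        have hε1 : 1 ≤ Q₀ ^ ε := Real.one_le_rpow hQ₀ hε.le
        have hX : 0 ≤ (Q₀ ^ (y + δ)) ^ 2 * (Q / Q₀ ^ (y + δ)) ^ (19 / 20 : ℝ) := by positivity
        calc B₀ * D * K * ((Q₀ ^ (y + δ)) ^ 2 * (Q / Q₀ ^ (y + δ)) ^ (19 / 20 : ℝ))
            = B₀ * D * K * 1 * ((Q₀ ^ (y + δ)) ^ 2 * (Q / Q₀ ^ (y + δ)) ^ (19 / 20 : ℝ)) := by ring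
          _ ≤ _ := by gcongr

/-- **L4'** in the frozen form, unconditional. -/
theorem natZ3' {r : ℕ} {y δ : ℝ} (hr : 0 < r) (hδ : 0 ≤ δ) : NatZ3 r y δ :=
  natZ3 Tk545.tkAlg hr hδ

end Crest.Agent.R017.NSx545
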