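import Crest.Agent.R017.R8Cert_918
import Crest.Agent.R017.R8Side_918
import Crest.Agent.R017.ExpCdef_702

/-!
# Row 17, section D: near-equal boxes over short families, the two sides (helper59)

Family `1`, `ρ = 1/κ ≥ 10/9`; `y₁ ≥ … ≥ y₅`, `V` the other lumps.
* `H3 d r` : three pure lumps `A, B ≥ C` with `A + B ≤ 3 C`, ideal over the family
  `S = A + B + 2 C` (instance of helper777's `T3a`; idea of helper702)
* `sides` : if `y₃ + y₄ + 2 y₅ ≥ max 1 (3/4 Σ u)` and `y₃ + y₄ + y₅ ≤ 24/25`, the two sides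
  `{y₃, y₄, y₅ | 0, 0}`, `{y₁, y₂} · V | m, a` close the box.
-/

set_option autoImplicit false

noncomputable section

namespace Crest.Agent.R017.Near59

open Crest.Agent.R017.ER911 Crest.Agent.R017.SC777 Crest.Agent.R017.R8C918
open Crest.Agent.R017.ExpC702

variable {d : ℝ} {r s s₀ rc : EF}

/-- **three pure lumps over the family `S = A + B + 2 C`** -/
def H3 (d : ℝ) (r : EF) : Prop :=
  ∀ A B C : ℝ, 0 < C → C ≤ A → C ≤ B → A + B ≤ 3 * C → ∀ κ' : ℝ, 0 ≤ κ' →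
    κ' ≤ A + B + 2 * C → r κ' {A, B, C} 0 0 + (A + B + 2 * C - κ') / 3 ≤
      (A + B + 2 * C) + (A + B + C) + 2 * d * C + d / 10 * (A + B + 2 * C)

/-- the real inequality, `d = 0` -/
theorem certS {ρ N M u b c : ℝ} (hu : 3 * u ≤ N) (hMN : 2 * N ≤ 3 * M) (hb : 0 ≤ b)
    (hρ : 10 / 9 ≤ ρ) (hD : N + M + b - c ≤ ρ)
    (hP : N + M + b + c ≤ 5 / 3 * ρ) (hcr : 3 * c ≤ ρ) :
    3 / 4 * max 0 (b + c - 7 / 9 * (1 - M)) + 2 / 3 * (N + u - 1) ≤ A0 ρ (N + M + b) c := by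
  refine A0_ge fun ⟨h0, h1, h2⟩ => ?_
  rcases le_total (b + c - 7 / 9 * (1 - M)) 0 with h | h
  · rw [max_eq_left h] at h0 h1 h2
    linarith
  · rw [max_eq_right h] at h0 h1 h2
    linarith

/-- growth of the allowed loss in `d`, `r ≤ 9/4` -/
lemma Al_slack2 {d r N M u b c : ℝ} (hd : 0 ≤ d) (hNM : 1 ≤ N + M - u)
    (hP : N + M + b + c ≤ 5 / 3 * r) (hr : r ≤ 9 / 4) :
    A0 r (N + M + b) c + 2 * d * (u + b + c) + d / 2 ≤ Al d r (N + M + b) c := by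
  have k1 : 2 * (u + b + c) + 1 / 2 ≤ 8 / 3 * r := by linarith
  have k2 : 2 * (u + b + c) + 1 / 2 ≤ 2 * (N + M + b + c) - 2 / 3 * r := by linarith
  have m1 := mul_le_mul_of_nonneg_left k1 hd
  have m2 := mul_le_mul_of_nonneg_left k2 hd
  have h1 : 0 + 2 * d * (u + b + c) + d / 2 ≤ Al d r (N + M + b) c :=
    (by linarith : _ ≤ 8 / 3 * d * r).trans (le_max_left _ _)
  have h2 : (r / 2 - 1 + (N + M + b - c) / 2) + 2 * d * (u + b + c) + d / 2 ≤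
      Al d r (N + M + b) c :=
    (by linarith : _ ≤ r * (8 / 3 * d + 1 / 2) - 1 + ((N + M + b) - c) / 2).trans
      ((le_max_left _ _).trans (le_max_right _ _))
  have h3 : (5 / 12 * r - 5 / 3 + 3 / 4 * (N + M + b + c)) + 2 * d * (u + b + c) + d / 2 ≤
      Al d r (N + M + b) c :=
    (by linarith : _ ≤ r * (5 / 12 - 2 / 3 * d) - 5 / 3 +
      (3 / 4 + 2 * d) * ((N + M + b) + c)).trans ((le_max_right _ _).trans (le_max_right _ _))
  have h4 : A0 r (N + M + b) c ≤ Al d r (N + M + b) c - 2 * d * (u + b + c) - d / 2 := by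
    unfold A0
    exact max_le (by linarith) (max_le (by linarith) (by linarith))
  linarith

/-- the real inequality, all `d` -/
theorem certSd {d ρ N M u b c : ℝ} (hd : 0 ≤ d) (hd8 : d ≤ 1 / 8)
    (hu : 3 * u ≤ N) (hMN : 2 * N ≤ 3 * M) (hM1 : M ≤ 1) (hN : 1 ≤ N + u)
    (hb : 0 ≤ b) (hc : 0 ≤ c) (hρ : 10 / 9 ≤ ρ) (hD : N + M + b - c ≤ ρ)
    (hP : N + M + b + c ≤ 5 / 3 * ρ) (hcr : 3 * c ≤ ρ) :
    3 / 4 * max 0 (b + c - 7 / 9 * (1 - M)) + 2 / 3 * (N + u - 1) + 2 * d * (u + b + c) +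
        d / 2 ≤ Al d ρ (N + M + b) c := by
  rcases le_total ρ (9 / 4) with h | h
  · have h1 := certS hu hMN hb hρ hD hP hcr
    have h2 := Al_slack2 (u := u) hd (by linarith) hP h
    linarith
  · have e1 : max 0 (b + c - 7 / 9 * (1 - M)) ≤ b + c := max_le (by linarith) (by linarith)
    have e3 : ρ * (5 / 12 - 2 / 3 * d) - 5 / 3 + (3 / 4 + 2 * d) * ((N + M + b) + c) ≤
        Al d ρ (N + M + b) c := (le_max_right _ _).trans (le_max_right _ _)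
    have e4 : 9 / 4 * (5 / 12 - 2 / 3 * d) ≤ ρ * (5 / 12 - 2 / 3 * d) :=
      mul_le_mul_of_nonneg_right h (by linarith)
    have e5 : 0 ≤ d * (N + M - u - 1) := mul_nonneg hd (by linarith)
    linarith

/-- **the two sides of a near-equal box, `N ≤ 24/25`** -/
theorem sides (R : ExpRules (7 / 8 + d) r s) (T : H3 d r) (K : ExpC r rc)
    (hd : 0 ≤ d) (hd8 : d ≤ 1 / 8) {y₁ y₂ y₃ y₄ y₅ m a ρ : ℝ} {V : Multiset ℝ} (h21 : y₂ ≤ y₁)
    (h32 : y₃ ≤ y₂) (h43 : y₄ ≤ y₃) (h54 : y₅ ≤ y₄) (h5 : 0 < y₅) (hV : ∀ y ∈ V, 0 ≤ y)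
    (hm : 0 ≤ m) (ha : 0 ≤ a) (h1 : 1 ≤ y₃ + y₄ + 2 * y₅)
    (hk : 3 / 4 * (y₁ + y₂ + y₃ + y₄ + y₅ + V.sum) ≤ y₃ + y₄ + 2 * y₅)
    (hN : y₃ + y₄ + y₅ ≤ 24 / 25) (hρ : 10 / 9 ≤ ρ)
    (hD : (y₁ + y₂ + y₃ + y₄ + y₅ + V.sum) + m - a ≤ ρ)
    (hP : (y₁ + y₂ + y₃ + y₄ + y₅ + V.sum) + m + a ≤ 5 / 3 * ρ) (har : 3 * a ≤ ρ) :
    ∃ E₁ E₂ : ℝ, rc 1 {y₃, y₄, y₅} 0 0 ≤ E₁ ∧ rc 1 (V + {y₁, y₂}) m a ≤ E₂ ∧
      E₁ + E₂ ≤ 2 + ((y₁ + y₂ + y₃ + y₄ + y₅ + V.sum) + m + a) +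
        (Al d ρ ((y₁ + y₂ + y₃ + y₄ + y₅ + V.sum) + m) a - d / 3) := by
  have hV0 : 0 ≤ V.sum := Multiset.sum_nonneg hV
  obtain ⟨N, hNe⟩ : ∃ N, N = y₃ + y₄ + y₅ := ⟨_, rfl⟩
  obtain ⟨M, hMe⟩ : ∃ M, M = y₁ + y₂ := ⟨_, rfl⟩
  obtain ⟨v, hv⟩ : ∃ v, v = V.sum := ⟨_, rfl⟩
  have hq : (y₁ + y₂ + y₃ + y₄ + y₅ + V.sum) + m = N + M + (v + m) := by
    rw [hNe, hMe, hv]; ring
  have hu3 : 3 * y₅ ≤ N := by linarith
  have hMN : 2 * N ≤ 3 * M := by linarith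
  have hM1 : M ≤ 1 := by linarith
  have hVM : 27 * V.sum ≤ 8 * (1 - (y₁ + y₂)) := by linarith
  refine ⟨1 + N + 2 / 3 * (N + y₅ - 1) + 2 * d * y₅ + d / 10 * (N + y₅),
    1 + (v + M + m + a) + 2 * d * (v + m + a) + 3 / 4 * max 0 (v + m + a - 7 / 9 * (1 - M)),
    ?_, ?_, ?_⟩
  · refine K.le 1 _ _ _ _ zero_le_one ⟨fun y hy => ?_, le_rfl, le_rfl⟩ fun κ' k0 k1 => ?_
    · simp only [Multiset.insert_eq_cons, Multiset.mem_cons, Multiset.mem_singleton] at hy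
      rcases hy with rfl | rfl | rfl <;> linarith
    · have := T y₃ y₄ y₅ h5 (by linarith) h54 (by linarith) κ' k0 (by linarith)
      have e1 : y₃ + y₄ + 2 * y₅ = N + y₅ := by rw [hNe]; ring
      rw [e1] at this
      linarith
  · refine K.le 1 _ _ _ _ zero_le_one ⟨fun y hy => ?_, hm, by linarith⟩ fun κ' k0 k1 => ?_
    · rcases Multiset.mem_add.1 hy with h | h
      · exact hV y h
      · exact (ok_pair (m := 0) (a := 0) (by linarith : 0 ≤ y₁) (by linarith : 0 ≤ y₂) le_rfl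
          le_rfl).1 y h
    · have := sideE R hd (κ := 1) (y₁ := y₁) (y₂ := y₂) (m := m) (a := a) (V := V)
        (by linarith) (by linarith) hm (by linarith) hV (by linarith) hVM (by linarith) k0 k1
      rw [← hv] at this
      have e1 : y₁ + y₂ = M := hMe.symm
      rw [e1] at this
      linarith
  · have h := certSd hd hd8 hu3 hMN hM1 (by linarith) (b := v + m) (by linarith) ha hρ
      (by linarith) (by linarith) har
    rw [hq]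
    have e3 : d * (N + y₅) ≤ d * (5 / 3) := mul_le_mul_of_nonneg_left (by linarith) hd
    linarith

end Crest.Agent.R017.Near59
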