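import Crest.Agent.R017.NearA_59
import Crest.Agent.R017.CovBig_954

/-!
# Row 17, section D: all boxes over short families `κ ≤ 9/10` (helper59)

* `box_small` : family `1`, `ρ = 1/κ ≥ 10/9`, every box (near-equal or not), from helper954's
  `CoreL`
* `Al_target` : the allowed loss is the target
-/

set_option autoImplicit false

noncomputable section

namespace Crest.Agent.R017.Near59

open Crest.Agent.R017.ER911 Crest.Agent.R017.SC777 Crest.Agent.R017.R8C918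
open Crest.Agent.R017.ExpC702 Crest.Agent.R017.Hull741
open Crest.Agent.R017.Cone59 hiding Al
open Crest.Agent.R017.BoxCov741 Crest.Agent.R017.CovM59
open Crest.Agent.R017.CovBig954 Crest.Agent.R017.Prov71

variable {θ d : ℝ} {r s s₀ rc bx : EF}

lemma r2_le {L a ρ : ℝ} (h1 : 1 ≤ ρ) (h2 : 3 * a ≤ ρ) (h3 : L ≤ 5 / 3 * ρ)
    (h4 : L - 2 * a ≤ ρ) : r2 L a ≤ ρ := by
  unfold r2
  exact max_le h1 (max_le h2 (max_le (by linarith) h4))

lemma b2_d (d : ℝ) : b2 (7 / 8 + d) = 8 / 3 * d := by unfold b2; ring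

/-- the allowed loss with the true `ρ` -/
lemma Al2_le_Al {L a ρ : ℝ} (hd : 0 ≤ d) (hd8 : d ≤ 1 / 8) (h1 : 1 ≤ ρ) (h2 : 3 * a ≤ ρ)
    (h3 : L ≤ 5 / 3 * ρ) (h4 : L - 2 * a ≤ ρ) : Al2 (7 / 8 + d) L a ≤ Al d ρ (L - a) a := by
  have hr := r2_le h1 h2 h3 h4
  have m1 : 8 / 3 * d * r2 L a ≤ 8 / 3 * d * ρ :=
    mul_le_mul_of_nonneg_left hr (by linarith)
  have m2 : (5 / 12 - 2 / 3 * d) * r2 L a ≤ (5 / 12 - 2 / 3 * d) * ρ :=
    mul_le_mul_of_nonneg_left hr (by linarith)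
  unfold Al2 Al
  rw [b2_d]
  refine max_le ?_ (max_le ?_ ?_)
  · exact m1.trans (le_max_left _ _)
  · refine le_trans ?_ ((le_max_left _ _).trans (le_max_right _ _))
    linarith
  · refine le_trans ?_ ((le_max_right _ _).trans (le_max_right _ _))
    linarith

/-- **dropping the lumps after the fourth one** -/
theorem drop4 {S x m a ρ : ℝ} (hd : 0 ≤ d) (hd8 : d ≤ 1 / 8) (hS : 19 / 15 ≤ S)
    (hSx : 8 / 5 ≤ S + x) (hx : 0 ≤ x) (hm : 0 ≤ m) (ha : 0 ≤ a) (h1 : 1 ≤ ρ)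
    (h2 : 3 * a ≤ ρ) (_h3 : S + x + m + a ≤ 5 / 3 * ρ) (h4 : S + x + m - a ≤ ρ) :
    (3 / 4 + 2 * d) * x + Al2 (7 / 8 + d) (S + m + a) a ≤ Al d ρ (S + x + m) a := by
  have hr : r2 (S + m + a) a ≤ ρ := r2_le h1 h2 (by linarith) (by linarith)
  have m1 : 8 / 3 * d * r2 (S + m + a) a ≤ 8 / 3 * d * ρ :=
    mul_le_mul_of_nonneg_left hr (by linarith)
  have m2 : (5 / 12 - 2 / 3 * d) * r2 (S + m + a) a ≤ (5 / 12 - 2 / 3 * d) * ρ :=
    mul_le_mul_of_nonneg_left hr (by linarith)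
  have A2 : ρ * (8 / 3 * d + 1 / 2) - 1 + ((S + x + m) - a) / 2 ≤ Al d ρ (S + x + m) a :=
    (le_max_left _ _).trans (le_max_right _ _)
  have A3 : ρ * (5 / 12 - 2 / 3 * d) - 5 / 3 + (3 / 4 + 2 * d) * ((S + x + m) + a) ≤
      Al d ρ (S + x + m) a := (le_max_right _ _).trans (le_max_right _ _)
  have hxd : 0 ≤ (1 / 8 - d) * x := mul_nonneg (by linarith) hx
  -- `w = 1`, `w = 3 a`
  have B2 : 8 / 3 * d * (S + x + m - a) + (S + x + m - a) - 1 ≤ Al d ρ (S + x + m) a := by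
    have : 8 / 3 * d * (S + x + m - a) ≤ 8 / 3 * d * ρ :=
      mul_le_mul_of_nonneg_left h4 (by linarith)
    linarith
  have hbase : 8 / 3 * d * max 1 (3 * a) + (3 / 4 + 2 * d) * x ≤ Al d ρ (S + x + m) a := by
    rcases le_total a (1 / 3) with h | h
    · rw [max_eq_left (by linarith)]
      have p1 : 0 ≤ (3 / 4 + 2 * d) * (4 / 3 * (S + x + m - a - 1) - x) :=
        mul_nonneg (by linarith) (by linarith)
      linarith
    · rw [max_eq_right (by linarith)]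
      rcases le_total (5 / 3 - S) a with h' | h'
      · have B3 : 3 * a * (5 / 12 - 2 / 3 * d) ≤ ρ * (5 / 12 - 2 / 3 * d) :=
          mul_le_mul_of_nonneg_right h2 (by linarith)
        have f0 : 0 ≤ 2 * a + 3 / 4 * (S + m) - 5 / 3 := by
          rcases le_total S (4 / 3) with hS' | hS' <;> linarith
        have f1 : 0 ≤ a + (S + m) - 5 / 3 := by linarith
        have p0 := mul_nonneg (by linarith : 0 ≤ 1 / 8 - d) f0
        have p1 := mul_nonneg hd f1
        linarith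
      · have B3 : (S + x + m - a) * (5 / 12 - 2 / 3 * d) ≤ ρ * (5 / 12 - 2 / 3 * d) :=
          mul_le_mul_of_nonneg_right h4 (by linarith)
        have f0 : 0 ≤ 7 / 6 * (S + m) + 5 / 12 * x + a / 3 - 5 / 3 := by linarith
        have f1 : 0 ≤ 4 / 3 * (S + m) + x / 3 - a / 3 - 5 / 3 := by linarith
        have p0 := mul_nonneg (by linarith : 0 ≤ 1 / 8 - d) f0
        have p1 := mul_nonneg hd f1
        linarith
  have hdom : ∀ w : ℝ, w ≤ max 1 (3 * a) →
      8 / 3 * d * w + (3 / 4 + 2 * d) * x ≤ Al d ρ (S + x + m) a := by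
    intro w hw
    have : 8 / 3 * d * w ≤ 8 / 3 * d * max 1 (3 * a) := mul_le_mul_of_nonneg_left hw (by linarith)
    linarith
  have hb1 : 8 / 3 * d * r2 (S + m + a) a + (3 / 4 + 2 * d) * x ≤ Al d ρ (S + x + m) a := by
    unfold r2
    rcases le_total (max (3 / 5 * (S + m + a)) ((S + m + a) - 2 * a)) (max 1 (3 * a)) with h | h
    · refine hdom _ (max_le (le_max_left _ _) (max_le (le_max_right _ _) h))
    · have e : max 1 (max (3 * a) (max (3 / 5 * (S + m + a)) ((S + m + a) - 2 * a))) =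
          max (3 / 5 * (S + m + a)) ((S + m + a) - 2 * a) := by
        rw [max_eq_right ((le_max_right _ _).trans h),
          max_eq_right ((le_max_left _ _).trans h)]
      rw [e]
      rcases le_total (3 / 5 * (S + m + a)) ((S + m + a) - 2 * a) with h' | h'
      · rw [max_eq_right h'] at h ⊢
        have h6 : 1 ≤ (S + m + a) - 2 * a := (le_max_left _ _).trans h
        have p1 : 0 ≤ d * x := mul_nonneg hd hx
        linarith
      · rw [max_eq_left h'] at h ⊢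
        have h6 : 1 ≤ 3 / 5 * (S + m + a) := (le_max_left _ _).trans h
        have B3 : 3 / 5 * (S + x + m + a) * (5 / 12 - 2 / 3 * d) ≤ ρ * (5 / 12 - 2 / 3 * d) :=
          mul_le_mul_of_nonneg_right (by linarith) (by linarith)
        have p1 : 0 ≤ (5 / 8 - d) * x := mul_nonneg (by linarith) hx
        linarith
  have hmain : Al2 (7 / 8 + d) (S + m + a) a ≤
      Al d ρ (S + x + m) a - (3 / 4 + 2 * d) * x := by
    unfold Al2
    rw [b2_d]
    refine max_le ?_ (max_le ?_ ?_)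
    · linarith
    · linarith
    · linarith
  linarith

/-- dropping a multiset of lumps -/
theorem box_supV (B : ExpBox θ rc bx) {κ m a : ℝ} (hκ : 0 ≤ κ) (Y Z : Multiset ℝ)
    (hY : ∀ y ∈ Y, 0 ≤ y) (hZ : ∀ y ∈ Z, 0 ≤ y) (hm : 0 ≤ m) (ha : 0 ≤ a) :
    bx κ (Z + Y) m a ≤ θ * Z.sum + bx κ Y m a := by
  induction Z using Multiset.induction_on with
  | empty => simp
  | cons z Z ih =>
    have hz : 0 ≤ z := hZ z (Multiset.mem_cons_self z Z)
    have hZ' : ∀ y ∈ Z, 0 ≤ y := fun y hy => hZ y (Multiset.mem_cons_of_mem hy)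
    have h1 := B.supS κ z (Z + Y) m a hκ hz ⟨fun y hy => by
      rcases Multiset.mem_add.1 hy with h | h
      · exact hZ' y h
      · exact hY y h, hm, ha⟩
    have h2 := ih hZ'
    rw [Multiset.cons_add, Multiset.sum_cons]
    linarith

/-- Cauchy: two complementary sides -/
theorem two_col (B : ExpBox θ rc bx) {N : ℕ} (u : Fin N → ℝ) (hu : ∀ j, 0 ≤ u j)
    (n₁ n₂ : Fin N → ℕ) (hn : ∀ j, n₁ j + n₂ j = 1) {m a f₁ f₂ g₁ g₂ E₁ E₂ : ℝ}
    (hf₁ : 0 ≤ f₁) (hf₂ : 0 ≤ f₂) (hg₁ : 0 ≤ g₁) (hg₂ : 0 ≤ g₂) (hf : f₁ + f₂ = m)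
    (hg : g₁ + g₂ = a)
    (h₁ : rc 1 (∑ j, Multiset.replicate (n₁ j) (u j)) f₁ g₁ ≤ E₁)
    (h₂ : rc 1 (∑ j, Multiset.replicate (n₂ j) (u j)) f₂ g₂ ≤ E₂) :
    bx 1 (Finset.univ.val.map u) m a ≤ (E₁ + E₂) / 2 := by
  have hn' : ∀ j, (n₁ j : ℝ) + (n₂ j : ℝ) = 1 := fun j => by exact_mod_cast hn j
  have h := outer_hull B u 1 m a zero_le_one hu (by linarith) (by linarith) (M := 2)
    ![1 / 2, 1 / 2] (by intro q; fin_cases q <;> norm_num) (by simp; norm_num) ![n₁, n₂] ![f₁, f₂]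
    ![g₁, g₂] (by intro q; fin_cases q <;> assumption) (by intro q; fin_cases q <;> assumption)
    ![E₁, E₂] (by intro q; fin_cases q <;> assumption)
    (by
      intro j
      rw [Fin.sum_univ_two]
      simp only [Matrix.cons_val_zero, Matrix.cons_val_one]
      linarith [hn' j])
    (by
      rw [Fin.sum_univ_two]
      simp only [Matrix.cons_val_zero, Matrix.cons_val_one]
      linarith)
    (by
      rw [Fin.sum_univ_two]
      simp only [Matrix.cons_val_zero, Matrix.cons_val_one]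
      linarith)
  simp only [Fin.sum_univ_two, Matrix.cons_val_zero, Matrix.cons_val_one] at h
  have e : ∑ j, (n₁ j : ℝ) * u j + ∑ j, (n₂ j : ℝ) * u j = ∑ j, u j := by
    rw [← Finset.sum_add_distrib]
    exact Finset.sum_congr rfl fun j _ => by rw [← add_mul, hn' j, one_mul]
  have e2 : (∑ j, u j) + m + a - 2 * (1 / 2 * ((∑ j, (n₁ j : ℝ) * u j) + f₁ + g₁) +
      1 / 2 * ((∑ j, (n₂ j : ℝ) * u j) + f₂ + g₂)) = 0 := by linarith
  rw [e2, mul_zero] at h
  linarith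

/-- **the box theorem, `Σ u ≥ 4/3`** (helper954's `box_big`, the near-equal condition only for
the scaled box) -/
theorem box_big' (hθ : 7 / 8 ≤ θ) (hθ1 : θ ≤ 1) (R : ExpRules θ r s) (C : ExpC r rc)
    (B : ExpBox θ rc bx) {e₀ t₀ μ : ℝ} (ht0 : 0 ≤ t₀) (ht3 : t₀ ≤ 1 / 3) (hμ : 0 ≤ μ)
    (he : 2 * e₀ + (2 * θ - 1) * t₀ + μ ≤ b2 θ)
    (H : ∀ h : ℝ, 1 ≤ h → CoreL e₀ t₀ (cr (sc h r))) {N : ℕ} (u : Fin N → ℝ)
    (hu : ∀ j, 0 < u j) (hNE : NoNE5 fun j => (3 / 4 * ∑ i, u i)⁻¹ * u j)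
    (hs : 4 / 3 ≤ ∑ j, u j) {m a : ℝ} (hm : 0 ≤ m) (ha : 0 ≤ a) :
    bx 1 (Finset.univ.val.map u) m a ≤
      1 + (((∑ j, u j) + m + a) + (Al2 θ ((∑ j, u j) + m + a) a - μ)) / 2 := by
  set S := ∑ j, u j with hS
  set h : ℝ := 3 / 4 * S with hh
  have h1 : 1 ≤ h := by rw [hh]; linarith
  have h0 : 0 < h := by linarith
  have hsum : ∑ j, h⁻¹ * u j = 4 / 3 := by
    rw [← Finset.mul_sum, ← hS, inv_mul_eq_iff_eq_mul₀ h0.ne', hh]; ring
  have hcov := H h h1 N (fun j => h⁻¹ * u j) (fun j => mul_pos (inv_pos.2 h0) (hu j))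
    hNE hsum.le
  unfold CovM at hcov
  have e1 : (4 / 3 - ∑ j, (1 : ℝ) * (h⁻¹ * u j)) / 2 = 0 := by
    simp only [one_mul]; rw [hsum]; norm_num
  rw [e1] at hcov
  -- the masses
  obtain ⟨m', a', hm0, hm1, ha0, ha1, hA, hB⟩ : ∃ m' a' : ℝ, 0 ≤ m' ∧ m' ≤ m ∧ 0 ≤ a' ∧ a' ≤ a ∧
      m' + a' ≤ h * (1 / 3 - t₀) ∧
      (m + a) - (m' + a') ≤ max 0 (m + a - S / 4) + h * t₀ := by
    have hht : 0 ≤ h * t₀ := mul_nonneg h0.le ht0
    have hh3 : h * (1 / 3) = S / 4 := by rw [hh]; ring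
    have hG : 0 ≤ h * (1 / 3 - t₀) := mul_nonneg h0.le (by linarith)
    rcases le_total (m + a) (h * (1 / 3 - t₀)) with hle | hle
    · exact ⟨m, a, hm, le_rfl, ha, le_rfl, hle, by
        have := le_max_left 0 (m + a - S / 4); linarith⟩
    · have e5 : h * (1 / 3 - t₀) = S / 4 - h * t₀ := by rw [mul_sub, hh3]
      have e6 := le_max_right 0 (m + a - S / 4)
      rcases le_total a (h * (1 / 3 - t₀)) with hle' | hle'
      · exact ⟨h * (1 / 3 - t₀) - a, a, by linarith, by linarith, ha, le_rfl, by linarith,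
          by linarith⟩
      · exact ⟨0, h * (1 / 3 - t₀), le_rfl, hm, hG, hle', by linarith, by linarith⟩
  have hA' : h⁻¹ * (m' / 2) + h⁻¹ * (a' / 2) ≤ 1 / 6 - t₀ / 2 := by
    rw [← mul_add, inv_mul_le_iff₀ h0]
    nlinarith
  have hf0 : 0 ≤ h⁻¹ * (m' / 2) := mul_nonneg (inv_nonneg.2 h0.le) (by linarith)
  have hg0 : 0 ≤ h⁻¹ * (a' / 2) := mul_nonneg (inv_nonneg.2 h0.le) (by linarith)
  have hmem := hull_of_col hcov (f := h⁻¹ * (m' / 2)) (g := h⁻¹ * (a' / 2)) hf0 hg0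
    (by linarith) (by linarith)
  have hmem2 := hull_scaled R C h1 (fun j => (hu j).le) hmem
  have e2 : h * (h⁻¹ * (m' / 2)) = m' / 2 := by field_simp
  have e3 : h * (h⁻¹ * (a' / 2)) = a' / 2 := by field_simp
  rw [e2, e3] at hmem2
  have hb := outer_le B u 1 m a (h * e₀ + 2 / 3 * (h - 1)) zero_le_one (fun j => (hu j).le) hm ha
    (fun _ => 1) m' a' (fun _ => le_rfl) hm1 ha1 hmem2
  simp only [one_mul] at hb
  rw [← hS] at hb
  have hkey := key (a := a) hθ hθ1 hs hm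
  have hsp : 0 ≤ 2 * θ - 1 := by linarith
  have hd := mul_le_mul_of_nonneg_left hB hsp
  have hee := mul_le_mul_of_nonneg_left he h0.le
  have hμh : μ ≤ h * μ := by nlinarith
  have e4 : b2 θ * (3 / 4 * S) = h * b2 θ := by rw [hh]; ring
  have e7 : S - 4 / 3 = 4 / 3 * (h - 1) := by rw [hh]; ring
  rw [e4, e7] at hkey
  rw [mul_add] at hd
  have hfin : 2 * (h * e₀ + 2 / 3 * (h - 1)) + (2 * θ - 1) * ((m + a) - (m' + a')) + μ ≤
      Al2 θ (S + m + a) a := by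
    have e8 : h * (2 * e₀ + (2 * θ - 1) * t₀ + μ) =
        2 * (h * e₀) + (2 * θ - 1) * (h * t₀) + h * μ := by ring
    rw [e8] at hee
    linarith
  have e9 : (S + m + a) - (S + m' + a') = (m + a) - (m' + a') := by ring
  rw [e9] at hb
  linarith

/-- near-equal condition from the top five (helper702) -/
lemma noNE5_top {N : ℕ} {u : Fin N → ℝ} (hu : Antitone u)
    (h : ∀ h5 : 5 ≤ N, u ⟨2, by omega⟩ + u ⟨3, by omega⟩ + 2 * u ⟨4, by omega⟩ ≤ 1) :
    NoNE5 u := by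
  intro s hs
  have hN : 5 ≤ N := by
    have := Fintype.card_le_of_injective s hs
    simpa using this
  refine ⟨Tuple.sort s, ?_⟩
  set f := fun i => s (Tuple.sort s i) with hf
  have hf1 : StrictMono f :=
    (Tuple.monotone_sort s).strictMono_of_injective (hs.comp (Tuple.sort s).injective)
  have h01 : (f 0).val < (f 1).val := hf1 (by decide)
  have h12 : (f 1).val < (f 2).val := hf1 (by decide)
  have h23 : (f 2).val < (f 3).val := hf1 (by decide)
  have h34 : (f 3).val < (f 4).val := hf1 (by decide)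
  have k2 : u (f 2) ≤ u ⟨2, by omega⟩ := hu (by rw [Fin.le_def]; simp only; omega)
  have k3 : u (f 3) ≤ u ⟨3, by omega⟩ := hu (by rw [Fin.le_def]; simp only; omega)
  have k4 : u (f 4) ≤ u ⟨4, by omega⟩ := hu (by rw [Fin.le_def]; simp only; omega)
  have h0 := h hN
  have e : ∑ i, w5 i * u (s (Tuple.sort s i)) = u (f 2) + u (f 3) + 2 * u (f 4) := by
    simp only [Fin.sum_univ_five, w5, Matrix.cons_val_zero, Matrix.cons_val_one, Matrix.cons_val]
    simp only [hf]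
    ring
  rw [e]
  linarith

/-- **near-equal boxes over short families** -/
theorem near_box (hd : 0 ≤ d) (hd8 : d ≤ 1 / 8) (R : ExpRules (7 / 8 + d) r s)
    (T : H3 d r) (K : ExpC r rc) (B : ExpBox (7 / 8 + d) rc bx) {μ : ℝ}
    (HB : BoxB (7 / 8 + d) μ bx) {n : ℕ} {u : Fin (n + 5) → ℝ} (hua : Antitone u)
    (hu : ∀ j, 0 < u j) {m a ρ : ℝ} (hm : 0 ≤ m) (ha : 0 ≤ a) (hρ : 10 / 9 ≤ ρ)
    (h1 : 1 ≤ u 2 + u 3 + 2 * u 4) (hk : 3 / 4 * ∑ j, u j ≤ u 2 + u 3 + 2 * u 4)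
    (hD : (∑ j, u j) + m - a ≤ ρ) (hP : (∑ j, u j) + m + a ≤ 5 / 3 * ρ) (har : 3 * a ≤ ρ) :
    bx 1 (Finset.univ.val.map u) m a ≤
      1 + (((∑ j, u j) + m + a) + (Al d ρ ((∑ j, u j) + m) a - min μ (d / 3))) / 2 := by
  obtain ⟨V, hV⟩ : ∃ V : Multiset ℝ, V =
    Finset.univ.val.map fun j : Fin n => u j.succ.succ.succ.succ.succ := ⟨_, rfl⟩
  have q0 : (⟨0, by omega⟩ : Fin (n + 5)) = 0 := rfl
  have q1 : (Fin.succ 0 : Fin (n + 5)) = 1 := rfl
  have q2 : (Fin.succ (Fin.succ 0) : Fin (n + 5)) = 2 := rfl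
  have q3 : (Fin.succ (Fin.succ (Fin.succ 0)) : Fin (n + 5)) = 3 := rfl
  have q4 : (Fin.succ (Fin.succ (Fin.succ (Fin.succ 0))) : Fin (n + 5)) = 4 := rfl
  have eM : Finset.univ.val.map u = u 0 ::ₘ u 1 ::ₘ u 2 ::ₘ u 3 ::ₘ u 4 ::ₘ V := by
    rw [hV, Fin.univ_val_map, Fin.univ_val_map]
    rw [List.ofFn_succ, List.ofFn_succ, List.ofFn_succ, List.ofFn_succ, List.ofFn_succ]
    rfl
  have eS : ∑ j, u j = u 0 + u 1 + u 2 + u 3 + u 4 + V.sum := by
    have h1 : ∑ j, u j = (Finset.univ.val.map u).sum := rfl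
    rw [h1, eM]
    simp only [Multiset.sum_cons]
    ring
  have hmono : ∀ i j : Fin (n + 5), i ≤ j → u j ≤ u i := fun i j h => hua h
  have h01 : u 1 ≤ u 0 := hmono 0 1 (by rw [Fin.le_def]; simp)
  have h12 : u 2 ≤ u 1 := hmono 1 2 (by
    rw [Fin.le_def]
    have e1 : ((1 : Fin (n + 5)) : ℕ) = 1 := rfl
    have e2 : ((2 : Fin (n + 5)) : ℕ) = 2 := rfl
    omega)
  have h23 : u 3 ≤ u 2 := hmono 2 3 (by
    rw [Fin.le_def]
    have e1 : ((3 : Fin (n + 5)) : ℕ) = 3 := rfl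
    have e2 : ((2 : Fin (n + 5)) : ℕ) = 2 := rfl
    omega)
  have h34 : u 4 ≤ u 3 := hmono 3 4 (by
    rw [Fin.le_def]
    have e1 : ((3 : Fin (n + 5)) : ℕ) = 3 := rfl
    have e2 : ((4 : Fin (n + 5)) : ℕ) = 4 := rfl
    omega)
  have hV0 : ∀ y ∈ V, 0 ≤ y := by
    intro y hy
    rw [hV] at hy
    obtain ⟨j, _, rfl⟩ := Multiset.mem_map.1 hy
    exact (hu _).le
  have hVs : 0 ≤ V.sum := Multiset.sum_nonneg hV0
  have u4 := hu 4
  rw [eS] at hk hD hP
  have hmin1 := min_le_left μ (d / 3)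
  have hmin2 := min_le_right μ (d / 3)
  rcases le_or_gt (u 2 + u 3 + u 4) (24 / 25) with hN | hN
  · -- two sides
    obtain ⟨E₁, E₂, hE₁, hE₂, hE⟩ := sides R T K hd hd8 h01 h12 h23 h34 u4 hV0 hm
      ha h1 hk hN hρ hD hP har
    let n₁ : Fin (n + 5) → ℕ := Fin.cons 0 (Fin.cons 0 (Fin.cons 1 (Fin.cons 1 (Fin.cons 1
      (fun _ => 0)))))
    let n₂ : Fin (n + 5) → ℕ := Fin.cons 1 (Fin.cons 1 (Fin.cons 0 (Fin.cons 0 (Fin.cons 0
      (fun _ => 1)))))
    have hn : ∀ j, n₁ j + n₂ j = 1 := by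
      intro j
      refine Fin.cases rfl (fun j => ?_) j
      refine Fin.cases rfl (fun j => ?_) j
      refine Fin.cases rfl (fun j => ?_) j
      refine Fin.cases rfl (fun j => ?_) j
      refine Fin.cases rfl (fun j => ?_) j
      rfl
    have s1 : ∑ j, Multiset.replicate (n₁ j) (u j) = {u 2, u 3, u 4} := by
      rw [Fin.sum_univ_succ, Fin.sum_univ_succ, Fin.sum_univ_succ, Fin.sum_univ_succ,
        Fin.sum_univ_succ]
      simp only [n₁, Fin.cons_zero, Fin.cons_succ, Multiset.replicate_zero,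
        Multiset.replicate_one, Finset.sum_const_zero, zero_add, add_zero]
      rfl
    have s2 : ∑ j, Multiset.replicate (n₂ j) (u j) = V + {u 0, u 1} := by
      rw [Fin.sum_univ_succ, Fin.sum_univ_succ, Fin.sum_univ_succ, Fin.sum_univ_succ,
        Fin.sum_univ_succ]
      simp only [n₂, Fin.cons_zero, Fin.cons_succ, Multiset.replicate_zero,
        Multiset.replicate_one, zero_add]
      have e1 : ∑ j : Fin n, ({u j.succ.succ.succ.succ.succ} : Multiset ℝ) = V := by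
        have h := Multiset.sum_map_singleton V
        rw [hV, Multiset.map_map] at h
        rw [hV]
        exact h
      rw [e1, add_comm V, ← add_assoc]
      rfl
    have h := two_col B u (fun j => (hu j).le) n₁ n₂ hn (m := m) (a := a) (f₁ := 0) (f₂ := m)
      (g₁ := 0) (g₂ := a) (E₁ := E₁) (E₂ := E₂) le_rfl hm le_rfl ha (by ring)
      (by ring) (by rw [s1]; exact hE₁) (by rw [s2]; exact hE₂)
    rw [eS]
    linarith
  · -- four lumps
    have hNE : NoNE5 ![u 0, u 1, u 2, u 3] := by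
      intro s hs
      have := Fintype.card_le_of_injective s hs
      simp at this
    have h4 := HB 4 ![u 0, u 1, u 2, u 3] (by
      intro j
      fin_cases j <;> simp [hu]) hNE m a hm ha
    have e4 : ∑ j, (![u 0, u 1, u 2, u 3] : Fin 4 → ℝ) j = u 0 + u 1 + u 2 + u 3 := by
      simp [Fin.sum_univ_four]
    have eY : Finset.univ.val.map (![u 0, u 1, u 2, u 3] : Fin 4 → ℝ) =
        {u 0, u 1, u 2, u 3} := by
      rw [Fin.univ_val_map]
      rfl
    rw [e4, eY] at h4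
    have hdrop := box_supV B (κ := 1) (m := m) (a := a) zero_le_one {u 0, u 1, u 2, u 3}
      (u 4 ::ₘ V) (by
        intro y hy
        simp only [Multiset.insert_eq_cons, Multiset.mem_cons, Multiset.mem_singleton] at hy
        rcases hy with rfl | rfl | rfl | rfl <;> exact (hu _).le)
      (by
        intro y hy
        rcases Multiset.mem_cons.1 hy with rfl | h
        · exact u4.le
        · exact hV0 y h) hm ha
    have eM' : (u 4 ::ₘ V) + {u 0, u 1, u 2, u 3} = Finset.univ.val.map u := by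
      rw [eM, add_comm]
      simp only [Multiset.insert_eq_cons, Multiset.cons_add, Multiset.singleton_add]
    rw [eM', Multiset.sum_cons] at hdrop
    have hal := drop4 (d := d) (S := u 0 + u 1 + u 2 + u 3) (x := u 4 + V.sum) (m := m) (a := a)
      (ρ := ρ) hd hd8 (by linarith) (by linarith) (by linarith) hm ha (by linarith) har
      (by linarith) (by linarith)
    have e5 : u 0 + u 1 + u 2 + u 3 + (u 4 + V.sum) + m =
        u 0 + u 1 + u 2 + u 3 + u 4 + V.sum + m := by ring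
    rw [e5] at hal
    rw [eS]
    linarith

/-- **every box over a short family** (near-equal or not), sorted -/
theorem box_small (hd : 0 ≤ d) (hd8 : d ≤ 1 / 8) {e₀ t₀ μ : ℝ} (ht0 : 0 ≤ t₀)
    (ht3 : t₀ ≤ 1 / 3) (hμ : 0 ≤ μ)
    (he : 2 * e₀ + (2 * (7 / 8 + d) - 1) * t₀ + μ ≤ b2 (7 / 8 + d))
    (H : ∀ r s s₀ rc bc : EF, ProvE (7 / 8 + d) r s s₀ rc bc → CoreL e₀ t₀ rc)
    (P : ProvE (7 / 8 + d) r s s₀ rc bx) (T : H3 d r) {N : ℕ} {u : Fin N → ℝ} (hua : Antitone u)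
    (hu : ∀ j, 0 < u j) {m a ρ : ℝ} (hm : 0 ≤ m) (ha : 0 ≤ a) (hρ : 10 / 9 ≤ ρ)
    (hD : (∑ j, u j) + m - a ≤ ρ) (hP : (∑ j, u j) + m + a ≤ 5 / 3 * ρ) (har : 3 * a ≤ ρ) :
    bx 1 (Finset.univ.val.map u) m a ≤
      1 + (((∑ j, u j) + m + a) + (Al d ρ ((∑ j, u j) + m) a - min μ (d / 3))) / 2 := by
  have hθ : (7 : ℝ) / 8 ≤ 7 / 8 + d := by linarith
  have hθ1 : 7 / 8 + d ≤ 1 := by linarith
  have HB : BoxB (7 / 8 + d) μ bx := core_box hθ hθ1 ht0 ht3 hμ he H P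
  have hmin1 := min_le_left μ (d / 3)
  have hAl := Al2_le_Al (L := (∑ j, u j) + m + a) (a := a) (ρ := ρ) hd hd8 (by linarith) har hP
    (by linarith)
  have e1 : (∑ j, u j) + m + a - a = (∑ j, u j) + m := by ring
  rw [e1] at hAl
  by_cases hc : ∀ h5 : 5 ≤ N, u ⟨2, by omega⟩ + u ⟨3, by omega⟩ + 2 * u ⟨4, by omega⟩ ≤
      max 1 (3 / 4 * ∑ j, u j)
  · rcases le_total (4 / 3) (∑ j, u j) with hs | hs
    · -- change of the family
      have hmax : max 1 (3 / 4 * ∑ j, u j) = 3 / 4 * ∑ j, u j := max_eq_right (by linarith)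
      rw [hmax] at hc
      have h0 : 0 < 3 / 4 * ∑ j, u j := by linarith
      have hinv : 0 < (3 / 4 * ∑ j, u j)⁻¹ := inv_pos.2 h0
      have hNE : NoNE5 fun j => (3 / 4 * ∑ i, u i)⁻¹ * u j := by
        refine noNE5_top (fun i j hij => mul_le_mul_of_nonneg_left (hua hij) hinv.le)
          fun h5 => ?_
        have h6 := hc h5
        have e2 : (3 / 4 * ∑ i, u i)⁻¹ * u ⟨2, by omega⟩ + (3 / 4 * ∑ i, u i)⁻¹ * u ⟨3, by omega⟩ +
            2 * ((3 / 4 * ∑ i, u i)⁻¹ * u ⟨4, by omega⟩) =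
            (3 / 4 * ∑ i, u i)⁻¹ *
              (u ⟨2, by omega⟩ + u ⟨3, by omega⟩ + 2 * u ⟨4, by omega⟩) := by ring
        rw [e2, inv_mul_le_iff₀ h0, mul_one]
        exact h6
      have h := box_big' hθ hθ1 P.rules P.cpl P.box ht0 ht3 hμ he
        (fun _ h1 => H _ _ _ _ _ (provE_cr P (by linarith))) u hu hNE hs hm ha
      linarith
    · have hmax : max 1 (3 / 4 * ∑ j, u j) = 1 := max_eq_left (by linarith)
      rw [hmax] at hc
      have h := HB N u hu (noNE5_top hua hc) m a hm ha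
      linarith
  · push Not at hc
    obtain ⟨h5, hlt⟩ := hc
    obtain ⟨n, rfl⟩ : ∃ n, N = n + 5 := ⟨N - 5, by omega⟩
    have hlt' : max 1 (3 / 4 * ∑ j, u j) < u 2 + u 3 + 2 * u 4 := hlt
    exact near_box hd hd8 P.rules T P.cpl P.box HB hua hu hm ha hρ
      ((le_max_left _ _).trans hlt'.le) ((le_max_right _ _).trans hlt'.le) hD hP har

/-- the allowed loss is the target: `h + (q + c)/2 + h Al/2 = Tg2` -/
theorem Al_target {h q c : ℝ} (h0 : 0 < h) :
    h * (1 + ((q + c) / h + Al d h⁻¹ (q / h) (c / h)) / 2) = Tg2 (7 / 8 + d) h q c := by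
  have e : h * Al d h⁻¹ (q / h) (c / h) = max (8 / 3 * d) (max (8 / 3 * d + 1 / 2 - h +
      (q - c) / 2) (5 / 12 - 2 / 3 * d - 5 / 3 * h + (3 / 4 + 2 * d) * (q + c))) := by
    unfold Al
    rw [mul_max_of_nonneg _ _ h0.le, mul_max_of_nonneg _ _ h0.le]
    congr 1
    · field_simp
    · congr 1 <;> field_simp
  have e2 : h * (1 + ((q + c) / h + Al d h⁻¹ (q / h) (c / h)) / 2) =
      h + (q + c) / 2 + (h * Al d h⁻¹ (q / h) (c / h)) / 2 := by
    field_simp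
    ring
  rw [e2, e]
  unfold Tg2
  have e3 : ∀ x y z : ℝ, max x (max y z) / 2 = max (x / 2) (max (y / 2) (z / 2)) := by
    intro x y z
    rw [max_div_div_right (by norm_num : (0 : ℝ) ≤ 2), max_div_div_right (by norm_num : (0 : ℝ) ≤ 2)]
  have e4 : ∀ w x y z : ℝ, w + max x (max y z) = max (w + x) (max (w + y) (w + z)) := by
    intro w x y z
    rw [← max_add_add_left, ← max_add_add_left]
  rw [e3, e4, e4]
  congr 1
  · ring
  · congr 1 <;> ring

end Crest.Agent.R017.Near59
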