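import Crest.Agent.R017.NearC_59
import Crest.Agent.R017.CovMap_702

/-!
# Row 17, T.2 : the leaf `NearAll` from the coverage (helper59)
-/

set_option autoImplicit false

noncomputable section

namespace Crest.Agent.R017.Near59

open Crest.Agent.R017.CovMap702

/-- **`NearAll`** from the leaves of the coverage -/
theorem nearAll (H : Leaves) : NearAll := by
  intro d hd hd8
  obtain ⟨e₀, t, μ, ht, ht3, hμ, he, hc⟩ := covAll_of_map H hd hd8
  refine ⟨min μ ((7 / 8 + d - 7 / 8) / 3) / 20, ?_, fun r s s₀ rc bc P => ?_⟩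
  · have : 0 < min μ ((7 / 8 + d - 7 / 8) / 3) := lt_min hμ (by linarith)
    linarith
  · exact nearB (by linarith) (by linarith) ht ht3 hμ.le he hc P

/-- **the certificate of the absolute boxes from the leaves of the coverage alone** -/
theorem certA (H : Leaves) {θ : ℝ} (hθ : 7 / 8 < θ) (hθ1 : θ < 1) :
    ∃ μ : ℝ, 0 < μ ∧ μ ≤ 1 / 12 ∧
      ∀ r s s₀ rc bc : ER911.EF, Prov71.ProvE θ r s s₀ rc bc →
        TopC702.BoxAll θ μ (BxE986.AL (9 / 10) 1 CovM59.w5) bc :=
  certA_of_map H (nearAll H) hθ hθ1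

end Crest.Agent.R017.Near59
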