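import Crest.Agent.R017.OrthG_681

/-!
# Row 17, section A, the norm glue, part A (helper358): unfolding as an equality

* `unfold_eq` : `∫ Σ_r Ψ(M, r) dν = Σ_{ω ∈ Om N} ∫_{Sl} Ψ(M, ω)`
* `fr p`, `slab_int` : `∫_{Sl N g} f = ∫_{(ζ, δ)} CT N g f (fr (ζ, δ))`
* `pairing` : the scalar product of two truncated Eisenstein series
-/

set_option autoImplicit false

noncomputable section

open MeasureTheory Complex Set Filter
open scoped ENNReal ComplexConjugate Topology

namespace Crest.Agent.R017.Norm358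

open Crest.Agent.R012 Crest.Agent.R012.Eis Crest.Agent.R012.K695 Crest.Agent.R012.AU681
  Crest.Agent.R012.Parseval499 Crest.Agent.R017.Orth681

attribute [local instance] rowAct

/-- **Unfolding**, as an equality. -/
theorem unfold_eq {N : Eis} (hN : N ≠ 0) {Ψ : K695.Frm → Eis × Eis → ℂ}
    (hm : ∀ r : CR, Measurable (fun M => Ψ M r.1))
    (hinv : ∀ (g : GN N) (M : K695.Frm) (r : CR), Ψ (g • M) r.1 = Ψ M (rmulS r.1 g))
    (hint : ∫⁻ M, ∑' r : CR, ‖Ψ M r.1‖ₑ ∂(nuS (GN N)) ≠ ∞) :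
    (∀ ω : Om N, IntegrableOn (fun M => Ψ M ω.out.1) (Sl N (sg ω.out))) ∧
    ∫ M, ∑' r : CR, Ψ M r.1 ∂(nuS (GN N)) = ∑' ω : Om N, ∫ M in Sl N (sg ω.out), Ψ M ω.out.1 := by
  classical
  set ν := nuS (GN N) with hν
  have hwt := isWt_sub (GN N)
  have hdet : ∀ᵐ M ∂ν, det2 M ≠ 0 := (nuS_ac (GN N)).ae_le ae_det_ne
  let e : CR ≃ Σ ω : Om N, MulAction.orbit (GN N) ω.out := MulAction.selfEquivSigmaOrbits (GN N) CR
  let ψ : Om N → K695.Frm → ℂ := fun ω => (Sl N (sg ω.out)).indicator (fun M => Ψ M ω.out.1)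
  have hψm : ∀ ω, Measurable (ψ ω) := fun ω => (hm ω.out).indicator (measurableSet_Sl hN _)
  let f : Om N → K695.Frm → ℂ := fun ω M => ∑' g : GN N, ψ ω (g • M)
  have hEsum : ∀ M, ∑' r : CR, ‖Ψ M r.1‖ₑ =
      ∑' ω : Om N, ∑' r : MulAction.orbit (GN N) ω.out, ‖Ψ M r.1.1‖ₑ := by
    intro M
    rw [← e.symm.tsum_eq, ENNReal.tsum_sigma']
    rfl
  have hEorb : ∀ (ω : Om N) M, det2 M ≠ 0 → ∑' g : GN N, ‖ψ ω (g • M)‖ₑ =
      ∑' r : MulAction.orbit (GN N) ω.out, ‖Ψ M r.1.1‖ₑ := by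
    intro ω M hM
    rw [← tsum_orbit hN ω.out hM (fun M r => ‖Ψ M r‖ₑ) (fun g M r => by rw [hinv])]
    refine tsum_congr fun g => ?_
    exact enorm_indicator_eq_indicator_enorm _ _
  have hmorb : ∀ ω : Om N, Measurable (fun M => ∑' r : MulAction.orbit (GN N) ω.out, ‖Ψ M r.1.1‖ₑ) :=
    fun ω => Measurable.tsum fun r => (hm r.1).enorm
  have htot : ∑' ω : Om N, ∫⁻ M, ∑' r : MulAction.orbit (GN N) ω.out, ‖Ψ M r.1.1‖ₑ ∂ν ≠ ∞ := by
    rw [← lintegral_tsum (fun ω => (hmorb ω).aemeasurable)]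
    simp_rw [← hEsum]
    exact hint
  have hψi : ∀ ω : Om N, Integrable (ψ ω) volume := by
    intro ω
    refine ⟨(hψm ω).aestronglyMeasurable, ?_⟩
    change ∫⁻ M, ‖ψ ω M‖ₑ < ∞
    rw [← lintegral_enorm_unfold hwt (hψm ω).aestronglyMeasurable]
    refine lt_of_le_of_lt (le_of_eq ?_) (ENNReal.ne_top_of_tsum_ne_top htot ω).lt_top
    apply lintegral_congr_ae
    filter_upwards [hdet] with M hM
    exact hEorb ω M hM
  have hfi : ∀ ω : Om N, Integrable (f ω) ν := fun ω => integrable_unfold hwt (hψi ω)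
  have hf0 : ∀ ω : Om N, ∫ M, f ω M ∂ν = ∫ M in Sl N (sg ω.out), Ψ M ω.out.1 := by
    intro ω
    have h1 := integral_unfold hwt (hψi ω)
    change ∫ M, f ω M ∂ν = _ at h1
    rw [h1]
    change ∫ M, (Sl N (sg ω.out)).indicator (fun M => Ψ M ω.out.1) M = _
    rw [integral_indicator (measurableSet_Sl hN _)]
  have hsum : ∀ᵐ M ∂ν, ∑' r : CR, Ψ M r.1 = ∑' ω : Om N, f ω M := by
    have hmeas : AEMeasurable (fun M => ∑' r : CR, ‖Ψ M r.1‖ₑ) ν :=
      (Measurable.tsum fun r => (hm r).enorm).aemeasurable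
    filter_upwards [hdet, ae_lt_top' hmeas hint] with M hM hfin
    have hs : Summable (fun r : CR => Ψ M r.1) := by
      have h3 : ∑' r : CR, ((‖Ψ M r.1‖₊ : NNReal) : ℝ≥0∞) ≠ ∞ := hfin.ne
      exact (ENNReal.tsum_coe_ne_top_iff_summable_coe.mp h3).of_norm
    have hs' : Summable (fun p : Σ ω : Om N, MulAction.orbit (GN N) ω.out => Ψ M (e.symm p).1) :=
      (e.symm.summable_iff (f := fun r : CR => Ψ M r.1)).mpr hs
    rw [← e.symm.tsum_eq (fun r : CR => Ψ M r.1), hs'.tsum_sigma]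
    refine tsum_congr fun ω => ?_
    change _ = ∑' g : GN N, (Sl N (sg ω.out)).indicator (fun M => Ψ M ω.out.1) (g • M)
    rw [tsum_orbit hN ω.out hM Ψ hinv]
    rfl
  refine ⟨fun ω => (integrable_indicator_iff (measurableSet_Sl hN _)).mp (hψi ω), ?_⟩
  rw [integral_congr_ae hsum, integral_tsum (fun ω => (hfi ω).aestronglyMeasurable)]
  · exact tsum_congr hf0
  · refine ne_top_of_le_ne_top htot (ENNReal.tsum_le_tsum fun ω => ?_)
    apply lintegral_mono_ae
    filter_upwards [hdet] with M hM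
    rw [← hEorb ω M hM]
    exact enorm_tsum_le_tsum_enorm

/-! ### Coordinates -/

/-- the frame with coordinates `(ζ, δ)` : second vector `ζ`, determinant `δ`. -/
def fr (p : Vec × ℂ) : K695.Frm := (pz p.1 (0, -p.2), p.1)

@[simp] lemma fr_snd (p : Vec × ℂ) : (fr p).2 = p.1 := rfl

lemma det2_fr {p : Vec × ℂ} (hp : p.1 ≠ 0) : det2 (fr p) = p.2 := by
  unfold fr
  rw [det2_pz hp]
  simp

/-- `((ζ, δ), z) ↦ (η + z ζ, ζ)`. -/
def Th (q : (Vec × ℂ) × ℂ) : K695.Frm := ((fr q.1).1 + q.2 • q.1.1, q.1.1)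

lemma Th_eq (q : (Vec × ℂ) × ℂ) : Th q = (pz q.1.1 (q.2, -q.1.2), q.1.1) := by
  unfold Th fr
  rw [pz_add q.1.1 q.2 (-q.1.2)]

lemma measurable_pz2 : Measurable (fun q : Vec × (ℂ × ℂ) => pz q.1 q.2) := by
  have hn : Measurable (fun q : Vec × (ℂ × ℂ) => (n2 q.1 : ℂ)) :=
    Complex.measurable_ofReal.comp (continuous_n2.measurable.comp measurable_fst)
  have h1 : Measurable (fun q : Vec × (ℂ × ℂ) => q.1.1) := measurable_fst.comp measurable_fst
  have h2 : Measurable (fun q : Vec × (ℂ × ℂ) => q.1.2) := measurable_snd.comp measurable_fst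
  have h3 : Measurable (fun q : Vec × (ℂ × ℂ) => q.2.1) := measurable_fst.comp measurable_snd
  have h4 : Measurable (fun q : Vec × (ℂ × ℂ) => q.2.2) := measurable_snd.comp measurable_snd
  have h5 : Measurable (fun q : Vec × (ℂ × ℂ) => (starRingEnd ℂ) q.1.1) :=
    Complex.continuous_conj.measurable.comp h1
  have h6 : Measurable (fun q : Vec × (ℂ × ℂ) => (starRingEnd ℂ) q.1.2) :=
    Complex.continuous_conj.measurable.comp h2
  unfold pz mact
  simp only [smul_eq_mul]
  refine Measurable.prodMk ?_ ?_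
  · exact (h1.mul h3).add ((h6.neg.div hn).mul h4)
  · exact (h2.mul h3).add ((h5.div hn).mul h4)

lemma ae_vec_ne : ∀ᵐ ζ : Vec, ζ ≠ 0 := by
  rw [ae_iff]
  simp

lemma ae_fst_ne : ∀ᵐ p : Vec × ℂ, p.1 ≠ 0 :=
  (Measure.quasiMeasurePreserving_fst (μ := (volume : Measure Vec))
    (ν := (volume : Measure ℂ))).ae ae_vec_ne

/-- the coordinates preserve the measure. -/
lemma mp_Th : MeasurePreserving Th (volume : Measure ((Vec × ℂ) × ℂ)) (volume : Measure K695.Frm) := by
  -- `(ζ, p) ↦ (ζ, pz ζ p)`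
  have h1 : MeasurePreserving (fun q : Vec × (ℂ × ℂ) => (q.1, pz q.1 q.2))
      ((volume : Measure Vec).prod (volume : Measure (ℂ × ℂ)))
      ((volume : Measure Vec).prod (volume : Measure Vec)) := by
    refine (MeasurePreserving.id volume).skew_product measurable_pz2 ?_
    filter_upwards [ae_vec_ne] with ζ hζ
    exact (mp_pz hζ).map_eq
  have h2 : MeasurePreserving (Prod.swap : Vec × Vec → Vec × Vec)
      ((volume : Measure Vec).prod (volume : Measure Vec))
      ((volume : Measure Vec).prod (volume : Measure Vec)) := Measure.measurePreserving_swap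
  -- `(δ, z) ↦ (z, -δ)`
  have h3 : MeasurePreserving (fun q : ℂ × ℂ => (q.2, -q.1))
      ((volume : Measure ℂ).prod (volume : Measure ℂ))
      ((volume : Measure ℂ).prod (volume : Measure ℂ)) := by
    have h4 : MeasurePreserving (Prod.swap : ℂ × ℂ → ℂ × ℂ)
      ((volume : Measure ℂ).prod (volume : Measure ℂ))
      ((volume : Measure ℂ).prod (volume : Measure ℂ)) := Measure.measurePreserving_swap
    have h5 : MeasurePreserving (Prod.map (id : ℂ → ℂ) (Neg.neg : ℂ → ℂ))
      ((volume : Measure ℂ).prod (volume : Measure ℂ))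
      ((volume : Measure ℂ).prod (volume : Measure ℂ)) :=
      (MeasurePreserving.id volume).prod (Measure.measurePreserving_neg volume)
    exact h5.comp h4
  have h6 : MeasurePreserving (Prod.map (id : Vec → Vec) (fun q : ℂ × ℂ => (q.2, -q.1)))
      ((volume : Measure Vec).prod (volume : Measure (ℂ × ℂ)))
      ((volume : Measure Vec).prod (volume : Measure (ℂ × ℂ))) :=
    (MeasurePreserving.id volume).prod h3
  have h7 := MeasureTheory.volume_preserving_prodAssoc (α₁ := Vec) (β₁ := ℂ) (γ₁ := ℂ)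
  have h8 := h2.comp (h1.comp (h6.comp h7))
  have e : (Prod.swap ∘ (fun q : Vec × (ℂ × ℂ) => (q.1, pz q.1 q.2)) ∘
      (Prod.map (id : Vec → Vec) (fun q : ℂ × ℂ => (q.2, -q.1))) ∘
      (MeasurableEquiv.prodAssoc : (Vec × ℂ) × ℂ ≃ᵐ Vec × (ℂ × ℂ))) = Th := by
    funext q
    rw [Th_eq]
    rfl
  rw [← e]
  exact h8

lemma measurable_fr : Measurable fr := by
  unfold fr
  refine Measurable.prodMk ?_ measurable_fst
  exact measurable_pz2.comp (measurable_fst.prodMk (measurable_const.prodMk measurable_snd.neg))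

/-- **Slab integrals** through the constant terms. -/
theorem slab_int {N : Eis} (hN : N ≠ 0) (g : SLE) {f : K695.Frm → ℂ}
    (hint : IntegrableOn f (Sl N g)) :
    Integrable (fun p : Vec × ℂ => CT N g f (fr p)) ∧
    ∫ M in Sl N g, f M = ∫ p : Vec × ℂ, CT N g f (fr p) := by
  have ha : toC N ≠ 0 := by rwa [Ne, toC_eq_zero]
  set F : K695.Frm → ℂ := (Sl0 N).indicator (fun M => f (g⁻¹ • M)) with hF
  have hFe : F = fun M => (Sl N g).indicator f (g⁻¹ • M) := by
    funext M
    by_cases h : M ∈ Sl0 N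
    · rw [hF, Set.indicator_of_mem h, Set.indicator_of_mem]
      change zc (g • g⁻¹ • M) ∈ par (toC N)
      rw [smul_inv_smul]
      exact h
    · rw [hF, Set.indicator_of_notMem h, Set.indicator_of_notMem]
      change ¬ (zc (g • g⁻¹ • M) ∈ par (toC N))
      rw [smul_inv_smul]
      exact h
  have hFi : Integrable F := by
    rw [hFe]
    have h1 : Integrable ((Sl N g).indicator f) :=
      (integrable_indicator_iff (measurableSet_Sl hN g)).mpr hint
    exact ((mp_smul g⁻¹).integrable_comp h1.aestronglyMeasurable).mpr h1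
  have hmp := mp_Th
  have hTi : Integrable (fun q => F (Th q)) := (hmp.integrable_comp hFi.aestronglyMeasurable).mpr hFi
  have hTe : ∫ M, F M = ∫ q, F (Th q) := by
    have h1 := integral_map (μ := (volume : Measure ((Vec × ℂ) × ℂ))) hmp.measurable.aemeasurable
      (f := F) (by rw [hmp.map_eq]; exact hFi.aestronglyMeasurable)
    rw [hmp.map_eq] at h1
    exact h1
  have hin : ∀ᵐ p : Vec × ℂ, ∫ z, F (Th (p, z)) = CT N g f (fr p) := by
    filter_upwards [ae_fst_ne] with p hp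
    unfold CT
    rw [← integral_indicator (measurableSet_par ha)]
    congr 1
    ext z
    have hiff : Th (p, z) ∈ Sl0 N ↔ z ∈ par (toC N) := by
      change zc (Th (p, z)) ∈ par (toC N) ↔ _
      rw [Th_eq, zc_pz hp]
    by_cases hz : z ∈ par (toC N)
    · rw [Set.indicator_of_mem hz, hF, Set.indicator_of_mem (hiff.mpr hz)]
      rfl
    · rw [Set.indicator_of_notMem hz, hF, Set.indicator_of_notMem (fun h => hz (hiff.mp h))]
  rw [Measure.volume_eq_prod] at hTi
  refine ⟨?_, ?_⟩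
  · exact hTi.integral_prod_left.congr hin
  · rw [integral_Sl hN, ← integral_indicator (measurableSet_Sl0 hN)]
    change ∫ M, F M = _
    rw [hTe, Measure.volume_eq_prod, integral_prod _ hTi]
    exact integral_congr_ae hin

end Crest.Agent.R017.Norm358
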