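import Crest.Agent.R017.NormA_358
import Crest.Agent.R017.GlueV_266

/-!
# Row 17, section A, the norm glue, part B (helper358): scalar products, rotation

* `pairing` : `⟨E_{a₁,H₁}, E_{a₂,H₂}⟩` (truncated) through the constant terms of `E_{a₁,H₁}`
* `slab_unit` : if `H₁, H₂` have central types `μ₁, μ₂`, `μ₁ μ₂ ≠ 1`, only the unit term contributes
* `JJ_zero` : `μ₁ ≠ μ₂` ⇒ the unit term vanishes
-/

set_option autoImplicit false

noncomputable section

open MeasureTheory Complex Set Filter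
open scoped ENNReal ComplexConjugate Topology

namespace Crest.Agent.R017.Norm358

open Crest.Agent.R012 Crest.Agent.R012.Eis Crest.Agent.R012.K695 Crest.Agent.R012.AU681
  Crest.Agent.R012.Parseval499 Crest.Agent.R017.Orth681 Crest.Agent.R017.Glue681
  Crest.Agent.R017.GlueV266 Crest.Agent.R017.F1

attribute [local instance] rowAct

/-- indicator of the annulus, complex valued. -/
def jA (D : ℝ) (δ : ℂ) : ℂ := (An D).indicator (fun _ => (1 : ℂ)) δ

lemma jA_mem {D : ℝ} {δ : ℂ} (h : δ ∈ An D) : jA D δ = 1 := Set.indicator_of_mem h _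

lemma jA_notMem {D : ℝ} {δ : ℂ} (h : δ ∉ An D) : jA D δ = 0 := Set.indicator_of_notMem h _

/-- **The scalar product** of two truncated series. -/
theorem pairing {N : Eis} (hN : N ≠ 0) {χ : GN N → ℂ} (hχ : ∀ g, ‖χ g‖ = 1)
    {a₁ a₂ : Eis × Eis → ℂ} {H₁ H₂ : ℂ → Vec → ℂ} (ha₁ : Cof N χ a₁) (ha₂ : Cof N χ a₂)
    (hH₁ : TFD H₁) (hH₂ : TFD H₂) (D : ℝ) :
    Integrable (fun M => TD D a₁ H₁ M * conj (TD D a₂ H₂ M)) (nuS (GN N)) ∧
    (∀ ω : Om N, Integrable (fun p : Vec × ℂ => jA D p.2 * conj (a₂ ω.out.1 * H₂ p.2 p.1) *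
      CT N (sg ω.out) (ED a₁ H₁) (fr p))) ∧
    ∫ M, TD D a₁ H₁ M * conj (TD D a₂ H₂ M) ∂(nuS (GN N)) =
      ∑' ω : Om N, ∫ p : Vec × ℂ, jA D p.2 * conj (a₂ ω.out.1 * H₂ p.2 p.1) *
        CT N (sg ω.out) (ED a₁ H₁) (fr p) := by
  classical
  set T : K695.Frm → ℂ := TD D a₁ H₁ with hT
  have hTm : Measurable T := measurable_TD D ha₁.bdd ha₁.cop hH₁
  obtain ⟨C₁, hC₁t, -, hC₁⟩ := TD_le D ha₁.bdd hH₁
  obtain ⟨C₂, hC₂t, hC₂r, hC₂⟩ := TD_le D ha₂.bdd hH₂
  have hTs : ∀ (g : GN N) M, T (g • M) = χ g * T M := fun g M => TD_smul hχ ha₁ D H₁ g M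
  set ν := nuS (GN N) with hν
  have hGram := gram_fin hN D
  have hprod : ∫⁻ M, ‖T M‖ₑ * (C₂ * iA D (det2 M) * SG M) ∂ν ≠ ∞ := by
    have h1 : ∀ M, ‖T M‖ₑ * (C₂ * iA D (det2 M) * SG M) ≤
        (C₁ * C₂) * (iA D (det2 M) * SG M * SG M) := by
      intro M
      calc ‖T M‖ₑ * (C₂ * iA D (det2 M) * SG M)
          ≤ (C₁ * iA D (det2 M) * SG M) * (C₂ * 1 * SG M) := by
            gcongr
            · exact hC₁ M
            · exact iA_le_one D _
        _ = _ := by ring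
    refine ne_top_of_le_ne_top ?_ (lintegral_mono h1)
    rw [lintegral_const_mul' _ _ (ENNReal.mul_ne_top hC₁t hC₂t)]
    exact ENNReal.mul_ne_top (ENNReal.mul_ne_top hC₁t hC₂t) hGram
  let Ψ : K695.Frm → Eis × Eis → ℂ := fun M r => T M * conj (a₂ r * Hd D H₂ (det2 M) (rowv r M))
  have e1 : ∀ M, T M * conj (TD D a₂ H₂ M) = ∑' r : CR, Ψ M r.1 := by
    intro M
    unfold TD
    rw [Complex.conj_tsum, ← tsum_mul_left]
  have hmr : ∀ r : CR, Measurable (fun M : K695.Frm => Hd D H₂ (det2 M) (rowv r.1 M)) := by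
    intro r
    exact (measurable_Hd D hH₂).comp (measurable_det2.prodMk (measurable_rowv r.1))
  have hΨm : ∀ r : CR, Measurable (fun M => Ψ M r.1) := by
    intro r
    exact hTm.mul (Complex.continuous_conj.measurable.comp ((hmr r).const_mul _))
  have hU := unfold_eq hN hΨm (by
    intro g M r
    change T (g • M) * conj (a₂ r.1 * Hd D H₂ (det2 ((g : SLE) • M)) (rowv r.1 ((g : SLE) • M))) =
      T M * conj (a₂ (rmulS r.1 g) * Hd D H₂ (det2 M) (rowv (rmulS r.1 g) M))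
    rw [hTs, det2_smul, rowv_smul, ha₂.equiv]
    simp only [map_mul, Complex.conj_conj]
    ring) (by
    refine ne_top_of_le_ne_top hprod (lintegral_mono fun M => ?_)
    simp only
    have h2 : ∀ r : CR, ‖Ψ M r.1‖ₑ ≤ ‖T M‖ₑ * (C₂ * iA D (det2 M) * GE (rowv r.1 M)) := by
      intro r
      change ‖T M * conj (a₂ r.1 * Hd D H₂ (det2 M) (rowv r.1 M))‖ₑ ≤ _
      rw [enorm_mul]
      refine mul_le_mul' le_rfl ?_
      rw [← ofReal_norm, RCLike.norm_conj, ofReal_norm]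
      exact hC₂r r M
    refine (ENNReal.tsum_le_tsum h2).trans (le_of_eq ?_)
    rw [ENNReal.tsum_mul_left, ENNReal.tsum_mul_left]
    rfl)
  have hS : ∀ ω : Om N, (fun p : Vec × ℂ => CT N (sg ω.out) (fun M => Ψ M ω.out.1) (fr p)) =ᵐ[volume]
      fun p : Vec × ℂ => jA D p.2 * conj (a₂ ω.out.1 * H₂ p.2 p.1) *
        CT N (sg ω.out) (ED a₁ H₁) (fr p) := by
    intro ω
    filter_upwards [ae_fst_ne] with p hp
    unfold CT
    rw [← integral_const_mul]
    refine integral_congr_ae (Filter.Eventually.of_forall fun x => ?_)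
    simp only
    set M' : K695.Frm := (sg ω.out)⁻¹ • (((fr p).1 + x • (fr p).2, (fr p).2) : K695.Frm) with hM'
    have hd' : det2 M' = p.2 := by
      rw [hM', det2_smul]
      have h3 : det2 (((fr p).1 + x • (fr p).2, (fr p).2) : K695.Frm) = det2 (fr p) := by
        unfold det2
        simp
        ring
      rw [h3, det2_fr hp]
    have hr' : rowv ω.out.1 M' = p.1 := by
      have := rowv_inv_smul (sg ω.out) (((fr p).1 + x • (fr p).2, (fr p).2) : K695.Frm)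
      rwa [br_sg] at this
    change T M' * conj (a₂ ω.out.1 * Hd D H₂ (det2 M') (rowv ω.out.1 M')) = _
    rw [hd', hr']
    by_cases hmem : p.2 ∈ An D
    · rw [hT, TD_mem ha₁.cop _ (by rwa [hd']), Hd_mem hmem, jA_mem hmem]
      ring
    · rw [hT, TD_notMem _ (by rwa [hd']), jA_notMem hmem]
      ring
  refine ⟨?_, ?_, ?_⟩
  · refine ⟨(hTm.mul (Complex.continuous_conj.measurable.comp
      (measurable_TD D ha₂.bdd ha₂.cop hH₂))).aestronglyMeasurable, ?_⟩
    refine lt_of_le_of_lt (lintegral_mono fun M => ?_) hprod.lt_top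
    simp only
    rw [enorm_mul]
    refine mul_le_mul' le_rfl ?_
    rw [← ofReal_norm, RCLike.norm_conj, ofReal_norm]
    exact hC₂ M
  · intro ω
    exact ((slab_int hN (sg ω.out) (hU.1 ω)).1).congr (hS ω)
  · simp_rw [e1]
    rw [hU.2]
    refine tsum_congr fun ω => ?_
    rw [(slab_int hN (sg ω.out) (hU.1 ω)).2]
    exact integral_congr_ae (hS ω)

/-! ### The unit integrals -/

/-- `∫ 1_{An}(δ) conj H₂(δ, ζ) H₁(δ, ζ)`. -/
def JJ (D : ℝ) (H₁ H₂ : ℂ → Vec → ℂ) : ℂ :=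
  ∫ p : Vec × ℂ, jA D p.2 * conj (H₂ p.2 p.1) * H₁ p.2 p.1

lemma integrable_GG : Integrable (fun u : Vec => GG u) := by
  have h := lint_GG3
  refine ⟨continuous_GG.aestronglyMeasurable, ?_⟩
  refine lt_of_le_of_lt (lintegral_mono fun u => ?_) h.lt_top
  rw [← ofReal_norm, Real.norm_of_nonneg (GG_nonneg u)]
  change GE u ≤ _
  have h7 : (1 : ℝ≥0∞) ≤ ENNReal.ofReal (1 + n2 u) := by
    rw [← ENNReal.ofReal_one]
    apply ENNReal.ofReal_le_ofReal
    linarith [n2_nonneg u]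
  calc GE u = GE u * 1 := by rw [mul_one]
    _ ≤ _ := by gcongr

lemma integrable_An (D : ℝ) : Integrable ((An D).indicator (fun _ : ℂ => (1 : ℝ))) := by
  rw [integrable_indicator_iff (measurableSet_An D)]
  exact integrableOn_const (vol_An_ne_top D)

/-- truncated functions are `jA * H`. -/
lemma Hd_eq (D : ℝ) (H : ℂ → Vec → ℂ) (δ : ℂ) (u : Vec) : Hd D H δ u = jA D δ * H δ u := by
  by_cases h : δ ∈ An D
  · rw [Hd_mem h, jA_mem h, one_mul]
  · rw [Hd_notMem h, jA_notMem h, zero_mul]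

lemma jA_mul (D : ℝ) (δ : ℂ) : jA D δ * jA D δ = jA D δ := by
  by_cases h : δ ∈ An D
  · rw [jA_mem h, one_mul]
  · rw [jA_notMem h, zero_mul]

lemma conj_jA (D : ℝ) (δ : ℂ) : conj (jA D δ) = jA D δ := by
  by_cases h : δ ∈ An D
  · rw [jA_mem h, map_one]
  · rw [jA_notMem h, map_zero]

lemma JJ_integrable (D : ℝ) {H₁ H₂ : ℂ → Vec → ℂ} (hH₁ : TFD H₁) (hH₂ : TFD H₂) :
    Integrable (fun p : Vec × ℂ => jA D p.2 * conj (H₂ p.2 p.1) * H₁ p.2 p.1) := by
  have e : (fun p : Vec × ℂ => jA D p.2 * conj (H₂ p.2 p.1) * H₁ p.2 p.1) =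
      fun p : Vec × ℂ => conj (Hd D H₂ p.2 p.1) * Hd D H₁ p.2 p.1 := by
    funext p
    rw [Hd_eq, Hd_eq, map_mul, conj_jA]
    linear_combination (-(conj (H₂ p.2 p.1) * H₁ p.2 p.1)) * jA_mul D p.2
  rw [e]
  have hm : ∀ {H : ℂ → Vec → ℂ}, TFD H → Measurable (fun p : Vec × ℂ => Hd D H p.2 p.1) := by
    intro H hH
    exact (measurable_Hd D hH).comp (measurable_snd.prodMk measurable_fst)
  obtain ⟨C₁, hC₁⟩ := hH₁.dec D
  obtain ⟨C₂, hC₂⟩ := hH₂.dec D
  have h1 : Integrable (fun p : Vec × ℂ => |C₁| * |C₂| *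
      (GG p.1 * (An D).indicator (fun _ : ℂ => (1 : ℝ)) p.2)) := by
    rw [Measure.volume_eq_prod]
    exact (integrable_GG.mul_prod (integrable_An D)).const_mul _
  refine h1.mono' (((Complex.continuous_conj.measurable.comp (hm hH₂)).mul (hm hH₁)).aestronglyMeasurable) ?_
  refine Filter.Eventually.of_forall fun p => ?_
  by_cases h : p.2 ∈ An D
  · rw [Hd_mem h, Hd_mem h, Set.indicator_of_mem h, mul_one, norm_mul, RCLike.norm_conj]
    have hg := GG_nonneg p.1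
    have hg1 := GG_le_one p.1
    have i1 : ‖H₁ p.2 p.1‖ ≤ |C₁| * GG p.1 := (hC₁ _ h _).trans (by gcongr; exact le_abs_self _)
    have i2 : ‖H₂ p.2 p.1‖ ≤ |C₂| * 1 := (hC₂ _ h _).trans (by
      calc C₂ * GG p.1 ≤ |C₂| * GG p.1 := by gcongr; exact le_abs_self _
        _ ≤ |C₂| * 1 := by gcongr)
    calc ‖H₂ p.2 p.1‖ * ‖H₁ p.2 p.1‖ ≤ (|C₂| * 1) * (|C₁| * GG p.1) := by gcongr
      _ = _ := by ring
  · rw [Hd_notMem h, map_zero, zero_mul, norm_zero, Set.indicator_of_notMem h]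
    simp

/-! ### Rotation -/

/-- rotation of the second vector. -/
def rotP (e : ℂ) (p : Vec × ℂ) : Vec × ℂ := (e • p.1, p.2)

lemma map_smul_vec {c : ℂ} (hc : c ≠ 0) :
    Measure.map (fun u : Vec => c • u) (volume : Measure Vec) =
      ENNReal.ofReal ((‖c‖ ^ 4)⁻¹) • (volume : Measure Vec) := by
  have h1 : Measure.map (fun z : ℂ => c * z) (volume : Measure ℂ) =
      ENNReal.ofReal ((‖c‖ ^ 2)⁻¹) • (volume : Measure ℂ) := Gram858.map_mul_left hc
  have hm : Measurable (fun z : ℂ => c * z) := measurable_const_mul c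
  have h2 := Measure.map_prod_map (volume : Measure ℂ) (volume : Measure ℂ) hm hm
  have e : (fun u : Vec => c • u) = Prod.map (fun z : ℂ => c * z) (fun z : ℂ => c * z) := by
    funext u
    rfl
  rw [e, Measure.volume_eq_prod, ← h2, h1, Measure.prod_smul_left, Measure.prod_smul_right, smul_smul,
    ← ENNReal.ofReal_mul (by positivity)]
  congr 2
  rw [← mul_inv, ← pow_add]

lemma mp_rot {e : ℂ} (he : ‖e‖ = 1) :
    MeasurePreserving (fun u : Vec => e • u) (volume : Measure Vec) volume := by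
  have he0 : e ≠ 0 := by
    rintro rfl
    rw [norm_zero] at he
    exact zero_ne_one he
  refine ⟨measurable_const_smul e, ?_⟩
  rw [map_smul_vec he0, he]
  simp

lemma mp_rotP {e : ℂ} (he : ‖e‖ = 1) :
    MeasurePreserving (rotP e) (volume : Measure (Vec × ℂ)) volume :=
  (mp_rot he).prod (MeasurePreserving.id volume)

lemma emb_rotP {e : ℂ} (he : ‖e‖ = 1) : MeasurableEmbedding (rotP e) := by
  have he0 : e ≠ 0 := by
    rintro rfl
    rw [norm_zero] at he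
    exact zero_ne_one he
  have h : Topology.IsClosedEmbedding (rotP e) := by
    let h : (Vec × ℂ) ≃ₜ (Vec × ℂ) := (Homeomorph.smulOfNeZero e he0).prodCongr (Homeomorph.refl ℂ)
    exact h.isClosedEmbedding
  exact h.measurableEmbedding

/-- functions with a nontrivial character under rotation have integral zero. -/
lemma int_rot_zero {e ν : ℂ} (he : ‖e‖ = 1) (hν : ν ≠ 1) {Φ : Vec × ℂ → ℂ}
    (h : ∀ᵐ p, Φ (rotP e p) = ν * Φ p) : ∫ p, Φ p = 0 := by
  have h1 := (mp_rotP he).integral_comp (emb_rotP he) Φ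
  have h2 : ∫ p, Φ (rotP e p) = ν * ∫ p, Φ p := by
    rw [← integral_const_mul]
    exact integral_congr_ae h
  have h3 : (1 - ν) * ∫ p, Φ p = 0 := by
    rw [sub_mul, one_mul, ← h2, h1, sub_self]
  rcases mul_eq_zero.mp h3 with h4 | h4
  · exact absurd (sub_eq_zero.mp h4).symm hν
  · exact h4

lemma JJ_zero (D : ℝ) {H₁ H₂ : ℂ → Vec → ℂ} {e μ₁ μ₂ : ℂ} (he : ‖e‖ = 1)
    (h₁ : ∀ δ u, H₁ δ (e • u) = μ₁ * H₁ δ u) (h₂ : ∀ δ u, H₂ δ (e • u) = μ₂ * H₂ δ u)
    (hμ : conj μ₂ * μ₁ ≠ 1) : JJ D H₁ H₂ = 0 := by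
  unfold JJ
  refine int_rot_zero he hμ (Filter.Eventually.of_forall fun p => ?_)
  unfold rotP
  simp only
  rw [h₁, h₂, map_mul]
  ring

/-- the big-cell part of the constant term. -/
def BC (N : Eis) (g : SLE) (a : Eis × Eis → ℂ) (H : ℂ → Vec → ℂ) (M : K695.Frm) : ℂ := by
  classical
  exact ∑' h : Eis, if h = 0 then 0 else ((nm h : ℂ))⁻¹ *
        (sumMod (h * N) (fun y => a (rmulS (h, y) g)) *
          ∫ z : ℂ, H (det2 M) (toC h • M.1 + z • M.2))

lemma conj_of_norm {e : ℂ} (he : ‖e‖ = 1) : conj e = e⁻¹ := by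
  have he0 : e ≠ 0 := by
    rintro rfl
    rw [norm_zero] at he
    exact zero_ne_one he
  apply mul_left_cancel₀ he0
  rw [Complex.mul_conj, Complex.normSq_eq_norm_sq, he, mul_inv_cancel₀ he0]
  simp

lemma fr_rotP {e : ℂ} (he : ‖e‖ = 1) (p : Vec × ℂ) :
    fr (rotP e p) = (e⁻¹ • (fr p).1, e • (fr p).2) := by
  have hn : n2 (e • p.1) = n2 p.1 := by
    rw [n2_smul, he]
    ring
  unfold fr rotP pz mact
  simp only [hn, Prod.smul_fst, Prod.smul_snd, smul_eq_mul, map_mul, conj_of_norm he]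
  ext1
  · ext1
    · simp only [Prod.smul_fst, smul_eq_mul]; ring
    · simp only [Prod.smul_snd, smul_eq_mul]; ring
  · rfl

lemma BC_rot {N : Eis} (g : SLE) (a : Eis × Eis → ℂ) {H : ℂ → Vec → ℂ} {e μ : ℂ} (he : ‖e‖ = 1)
    (hμ : μ ≠ 0) (hH : ∀ δ u, H δ (e • u) = μ * H δ u) (M : K695.Frm) :
    BC N g a H ((e⁻¹ • M.1, e • M.2) : K695.Frm) = μ⁻¹ * BC N g a H M := by
  classical
  have he0 : e ≠ 0 := by
    rintro rfl
    rw [norm_zero] at he
    exact zero_ne_one he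
  have hinv : ∀ δ u, H δ (e⁻¹ • u) = μ⁻¹ * H δ u := by
    intro δ u
    have h := hH δ (e⁻¹ • u)
    rw [smul_smul, mul_inv_cancel₀ he0, one_smul] at h
    rw [h]
    field_simp
  have hd : det2 ((e⁻¹ • M.1, e • M.2) : K695.Frm) = det2 M := by
    unfold det2
    simp only [Prod.smul_fst, Prod.smul_snd, smul_eq_mul]
    field_simp
  unfold BC
  rw [← tsum_mul_left]
  refine tsum_congr fun h => ?_
  by_cases h0 : h = 0
  · rw [if_pos h0, if_pos h0, mul_zero]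
  · rw [if_neg h0, if_neg h0, hd]
    have e1 : ∫ z : ℂ, H (det2 M) (toC h • e⁻¹ • M.1 + z • e • M.2) =
        μ⁻¹ * ∫ z : ℂ, H (det2 M) (toC h • M.1 + z • M.2) := by
      have h2 := int_affine (pow_ne_zero 2 he0) 0 (fun z : ℂ => H (det2 M) (toC h • M.1 + z • M.2))
      rw [norm_pow, he] at h2
      simp only [one_pow, inv_one, Complex.ofReal_one, one_mul] at h2
      rw [← h2, ← integral_const_mul]
      refine integral_congr_ae (Filter.Eventually.of_forall fun z => ?_)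
      simp only
      rw [← hinv, add_zero, smul_add, smul_smul, smul_smul, smul_smul, smul_smul]
      congr 3
      · ring
      · field_simp
    simp only
    rw [e1]
    ring

/-- **Only the unit term contributes.** -/
theorem slab_unit {N : Eis} (hN : N ≠ 0) {χ : GN N → ℂ}
    {a₁ a₂ : Eis × Eis → ℂ} {H₁ H₂ : ℂ → Vec → ℂ} (ha₁ : Cof N χ a₁)
    (hH₁ : TFD H₁) (hH₂ : TFD H₂) (D : ℝ) (r : CR) (hreg : Reg χ (sg r))
    (hu : UnitAt a₁ (sg r))
    (hi : Integrable (fun p : Vec × ℂ => jA D p.2 * conj (a₂ r.1 * H₂ p.2 p.1) *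
      CT N (sg r) (ED a₁ H₁) (fr p)))
    {e μ₁ μ₂ : ℂ} (he : ‖e‖ = 1) (hμ₁ : μ₁ ≠ 0)
    (h₁ : ∀ δ u, H₁ δ (e • u) = μ₁ * H₁ δ u) (h₂ : ∀ δ u, H₂ δ (e • u) = μ₂ * H₂ δ u)
    (hμ : conj μ₂ * μ₁⁻¹ ≠ 1) :
    ∫ p : Vec × ℂ, jA D p.2 * conj (a₂ r.1 * H₂ p.2 p.1) * CT N (sg r) (ED a₁ H₁) (fr p) =
      (covol (toC N) : ℂ) * (a₁ r.1 * conj (a₂ r.1)) * JJ D H₁ H₂ := by
  have hJ := JJ_integrable D hH₁ hH₂
  unfold JJ
  rw [← integral_const_mul, ← sub_eq_zero, ← integral_sub hi (hJ.const_mul _)]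
  have h3 : (fun p : Vec × ℂ => jA D p.2 * conj (a₂ r.1 * H₂ p.2 p.1) *
      CT N (sg r) (ED a₁ H₁) (fr p) - (covol (toC N) : ℂ) * (a₁ r.1 * conj (a₂ r.1)) *
        (jA D p.2 * conj (H₂ p.2 p.1) * H₁ p.2 p.1)) =ᵐ[volume]
      fun p : Vec × ℂ => jA D p.2 * conj (a₂ r.1 * H₂ p.2 p.1) * BC N (sg r) a₁ H₁ (fr p) := by
    filter_upwards [ae_fst_ne] with p hp
    by_cases hmem : p.2 ∈ An D
    · have hd : det2 (fr p) ≠ 0 := by rw [det2_fr hp]; exact An_ne hmem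
      rw [ct_formula hN ha₁ hH₁ hreg hd]
      have h4 : ∑' y : Eis, a₁ (rmulS (0, y) (sg r)) * H₁ (det2 (fr p)) (toC y • (fr p).2) =
          a₁ (br (sg r)) * H₁ (det2 (fr p)) (fr p).2 := unit_at hu (H₁ (det2 (fr p))) _
      rw [h4, br_sg, fr_snd, det2_fr hp]
      have h5 : BC N (sg r) a₁ H₁ (fr p) = ∑' h : Eis, if h = 0 then 0 else ((nm h : ℂ))⁻¹ *
        (sumMod (h * N) (fun y => a₁ (rmulS (h, y) (sg r))) *
          ∫ z : ℂ, H₁ p.2 (toC h • (fr p).1 + z • p.1)) := by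
        unfold BC
        rw [det2_fr hp]
        refine tsum_congr fun h => ?_
        by_cases h0 : h = 0
        · rw [if_pos h0, if_pos h0]
        · rw [if_neg h0, if_neg h0]
          rfl
      rw [h5, map_mul]
      ring
    · rw [jA_notMem hmem]
      ring
  rw [integral_congr_ae h3]
  refine int_rot_zero he hμ (Filter.Eventually.of_forall fun p => ?_)
  rw [fr_rotP he, BC_rot (sg r) a₁ he hμ₁ h₁]
  unfold rotP
  simp only
  rw [h₂, map_mul, map_mul, map_mul]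
  ring

end Crest.Agent.R017.Norm358
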