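import Crest.Agent.R017.NormB_358

/-!
# Row 17, section A, the norm glue, part C (helper358): the theorem

* `glueN` : the vector glue with ONE direction of the law and the norm identity instead of the
  second direction.
-/

set_option autoImplicit false

noncomputable section

open MeasureTheory Complex Set Filter
open scoped ENNReal ComplexConjugate Topology

namespace Crest.Agent.R017.Norm358

open Crest.Agent.R012 Crest.Agent.R012.Eis Crest.Agent.R012.K695 Crest.Agent.R012.AU681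
  Crest.Agent.R012.Parseval499 Crest.Agent.R017.Orth681 Crest.Agent.R017.Xn590
  Crest.Agent.R017.Glue681 Crest.Agent.R017.GlueV266 Crest.Agent.R017.F1

attribute [local instance] rowAct

/-! ### Values of the unit integrals -/

lemma int_smul_vec {c : ℂ} (hc : c ≠ 0) (f : Vec → ℂ) :
    ∫ u : Vec, f (c • u) = (((‖c‖ ^ 4)⁻¹ : ℝ) : ℂ) * ∫ u, f u := by
  have h : MeasurableEmbedding (fun u : Vec => c • u) :=
    (Homeomorph.smulOfNeZero c hc).measurableEmbedding
  rw [← h.integral_map f, map_smul_vec hc, integral_smul_measure, ENNReal.toReal_ofReal (by positivity),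
    Complex.real_smul]

/-- mass of the annulus. -/
def vA (D : ℝ) : ℂ := ∫ δ, jA D δ

lemma conj_vA (D : ℝ) : conj (vA D) = vA D := by
  unfold vA
  rw [← integral_conj]
  exact integral_congr_ae (Filter.Eventually.of_forall fun δ => conj_jA D δ)

lemma JJ_val (D : ℝ) {H : ℂ → Vec → ℂ} (hH : TFD H) {n : ℂ}
    (hn : ∀ δ, δ ≠ 0 → ∫ u, conj (H δ u) * H δ u = n) : JJ D H H = vA D * n := by
  have hi := JJ_integrable D hH hH
  unfold JJ
  rw [Measure.volume_eq_prod] at hi ⊢
  rw [integral_prod_symm _ hi]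
  unfold vA
  rw [← integral_mul_const]
  refine integral_congr_ae (Filter.Eventually.of_forall fun δ => ?_)
  simp only
  by_cases h : δ ∈ An D
  · rw [jA_mem h]
    simp only [one_mul]
    exact hn δ (An_ne h)
  · rw [jA_notMem h]
    simp

lemma JJ_const (D : ℝ) {F : Vec → ℂ} (hH : TFD (fun _ u => F u)) :
    JJ D (fun _ u => F u) (fun _ u => F u) = vA D * ∫ u, conj (F u) * F u :=
  JJ_val D hH fun _ _ => rfl

lemma JJ_scl (D : ℝ) {F : Vec → ℂ} (hH : TFD (fun δ u => scl δ F u)) :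
    JJ D (fun δ u => scl δ F u) (fun δ u => scl δ F u) = vA D * ∫ u, conj (F u) * F u := by
  refine JJ_val D hH fun δ hδ => ?_
  have h1 := int_smul_vec (inv_ne_zero hδ) (fun u => conj (F u) * F u)
  have hn : ((‖δ‖ : ℝ) : ℂ) ≠ 0 := by
    exact_mod_cast norm_ne_zero_iff.mpr hδ
  have e1 : ∀ u, conj (scl δ F u) * scl δ F u =
      (((‖δ‖ ^ 4)⁻¹ : ℝ) : ℂ) * (conj (F (δ⁻¹ • u)) * F (δ⁻¹ • u)) := by
    intro u
    unfold F1.scl
    rw [map_mul, Complex.conj_ofReal]
    push_cast
    field_simp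
  simp_rw [e1]
  rw [integral_const_mul, h1, norm_inv]
  push_cast
  field_simp

/-! ### Gram sums -/

/-- the Gram sum of two row functions. -/
def gram (N : Eis) (a b : Eis × Eis → ℂ) : ℂ := ∑' ω : Om N, a ω.out.1 * conj (b ω.out.1)

lemma gram_symm {N : Eis} (hN : N ≠ 0) (a b : Eis × Eis → ℂ) : conj (gram N a b) = gram N b a := by
  have := finite_Om hN
  have := Fintype.ofFinite (Om N)
  unfold gram
  rw [tsum_fintype, tsum_fintype, map_sum]
  refine Finset.sum_congr rfl fun ω _ => ?_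
  rw [map_mul, Complex.conj_conj, mul_comm]

/-! ### The law at one row -/

variable {κ : Type} [Fintype κ]

/-- the constant term of `E_{a,F}` at a row where the law holds. -/
theorem ct_row {N : Eis} (hN : N ≠ 0) {χ : GN N → ℂ} {s : ℂ} {W : κ → Eis → ℂ}
    {a : Eis × Eis → ℂ} {a' : κ → Eis × Eis → ℂ} (ha : Cof N χ a) {g : SLE} (hreg : Reg χ g)
    (hlaw : ∀ h : Eis, h ≠ 0 →
      SA N a g h + s * SA N a g (-h) = 2 * ((nm h : ℂ) * ∑ k, W k h * a' k (br g)))
    (hu : UnitAt a g) {F : Vec → ℂ} {F' : κ → Vec → ℂ} (tst : TstN s F)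
    (bW : ∀ k, Bdd (W k))
    (m1 : ∀ (k : κ) (M : K695.Frm), det2 M ≠ 0 →
      opW (fun h => (covol (toC N) : ℂ)⁻¹ * W k h) F M = scl (det2 M) (F' k) M.2)
    {X : K695.Frm} (hX : det2 X ≠ 0) :
    CT N g (ED a (fun _ u => F u)) X = (covol (toC N) : ℂ) * (a (br g) * F X.2) +
      ∑ k, (covol (toC N) : ℂ) * (a' k (br g) * scl (det2 X) (F' k) X.2) := by
  classical
  have hNC : toC N ≠ 0 := by rwa [Ne, toC_eq_zero]
  have hcv : (covol (toC N) : ℂ) ≠ 0 := by exact_mod_cast (covol_pos hNC).ne'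
  have hc1 := ct_at hN ha (s := s) (U := fun h => ∑ k, W k h * a' k (br g))
    (tfd_const tst) (fun _ u => tst.par u) hreg hlaw hX
  rw [unit_at hu] at hc1
  have hb2 : ∀ (c : ℂ) {U : Eis → ℂ}, Bdd U → Bdd (fun h => U h * c) := by
    intro c U hU
    obtain ⟨K, hK⟩ := hU
    exact ⟨K * ‖c‖, fun h => by
      rw [norm_mul]
      exact mul_le_mul_of_nonneg_right (hK h) (norm_nonneg _)⟩
  have hswap : ∀ (c : ℂ) (U : Eis → ℂ) (G : Vec → ℂ), opW (fun h => U h * c) G X =
      c * opW U G X := by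
    intro c U G
    rw [← opW_smulW]
    exact opW_congr (fun h _ => mul_comm _ _) _ _
  rw [opW_sumW Finset.univ (fun k => hb2 _ (bW k)) (adm_tst tst) hX] at hc1
  simp_rw [hswap] at hc1
  have hm1 : ∀ k, opW (W k) (fun u => F u) X = covol (toC N) * scl (det2 X) (F' k) X.2 := by
    intro k
    have h1 := m1 k X hX
    rw [opW_smulW] at h1
    rw [← h1]
    field_simp
  simp_rw [hm1] at hc1
  rw [hc1]
  congr 1
  exact Finset.sum_congr rfl fun k _ => by ring

/-- the slab integral by the law. -/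
theorem slab_law {N : Eis} (hN : N ≠ 0) {χ : GN N → ℂ} {s : ℂ} {W : κ → Eis → ℂ}
    {a : Eis × Eis → ℂ} {a' : κ → Eis × Eis → ℂ} (ha : Cof N χ a) (r : CR)
    (hreg : Reg χ (sg r))
    (hlaw : ∀ h : Eis, h ≠ 0 →
      SA N a (sg r) h + s * SA N a (sg r) (-h) = 2 * ((nm h : ℂ) * ∑ k, W k h * a' k (br (sg r))))
    (hu : UnitAt a (sg r)) {F : Vec → ℂ} {F' : κ → Vec → ℂ} (tst : TstN s F)
    (tst' : ∀ k, TstN s (F' k))
    (bW : ∀ k, Bdd (W k))
    (m1 : ∀ (k : κ) (M : K695.Frm), det2 M ≠ 0 →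
      opW (fun h => (covol (toC N) : ℂ)⁻¹ * W k h) F M = scl (det2 M) (F' k) M.2)
    (D : ℝ) (l : κ) (b : Eis × Eis → ℂ)
    (hz : JJ D (fun _ u => F u) (fun δ u => scl δ (F' l) u) = 0) :
    ∫ p : Vec × ℂ, jA D p.2 * conj (b r.1 * scl p.2 (F' l) p.1) *
      CT N (sg r) (ED a (fun _ u => F u)) (fr p) =
    ∑ k, (covol (toC N) : ℂ) * (a' k r.1 * conj (b r.1)) *
      JJ D (fun δ u => scl δ (F' k) u) (fun δ u => scl δ (F' l) u) := by
  classical
  have hT' : ∀ k, TFD (fun δ u => scl δ (F' k) u) := fun k => tfd_scl (tst' k)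
  have hT : TFD (fun _ u => F u) := tfd_const tst
  have h1 : (fun p : Vec × ℂ => jA D p.2 * conj (b r.1 * scl p.2 (F' l) p.1) *
      CT N (sg r) (ED a (fun _ u => F u)) (fr p)) =ᵐ[volume]
      fun p : Vec × ℂ => (covol (toC N) : ℂ) * (a r.1 * conj (b r.1)) *
        (jA D p.2 * conj (scl p.2 (F' l) p.1) * F p.1) +
        ∑ k, (covol (toC N) : ℂ) * (a' k r.1 * conj (b r.1)) *
          (jA D p.2 * conj (scl p.2 (F' l) p.1) * scl p.2 (F' k) p.1) := by
    filter_upwards [ae_fst_ne] with p hp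
    by_cases hmem : p.2 ∈ An D
    · have hd : det2 (fr p) ≠ 0 := by rw [det2_fr hp]; exact An_ne hmem
      rw [ct_row hN ha hreg hlaw hu tst bW m1 hd, br_sg, fr_snd, det2_fr hp, map_mul, mul_add,
        Finset.mul_sum]
      congr 1
      · ring
      · exact Finset.sum_congr rfl fun k _ => by ring
    · rw [jA_notMem hmem]
      simp
  rw [integral_congr_ae h1, integral_add, integral_const_mul, integral_finsetSum]
  · have h2 : ∫ p : Vec × ℂ, jA D p.2 * conj (scl p.2 (F' l) p.1) * F p.1 = 0 := hz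
    rw [h2, mul_zero, zero_add]
    refine Finset.sum_congr rfl fun k _ => ?_
    rw [integral_const_mul]
    rfl
  · intro k _
    exact (JJ_integrable D (hT' k) (hT' l)).const_mul _
  · exact (JJ_integrable D hT (hT' l)).const_mul _
  · exact integrable_finsetSum _ fun k _ => (JJ_integrable D (hT' k) (hT' l)).const_mul _

/-- **The norm glue.** -/
theorem glueN [DecidableEq κ] {N : Eis} (hN : N ≠ 0) {χ : GN N → ℂ} (hχ : ∀ g, ‖χ g‖ = 1)
    {s : ℂ} {Rg : SLE → Prop} {W : κ → Eis → ℂ}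
    {a : Eis × Eis → ℂ} {a' : κ → Eis × Eis → ℂ}
    (ha : Cof N χ a) (ha' : ∀ k, Cof N χ (a' k))
    (hR : ∀ g, a (br g) ≠ 0 → Rg g) (hR' : ∀ k g, a' k (br g) ≠ 0 → Rg g)
    (hlaw : LawV N Rg s W a a')
    (hu : ∀ g, Rg g → UnitAt a g) (hu' : ∀ k g, Rg g → UnitAt (a' k) g)
    {F : Vec → ℂ} {F' : κ → Vec → ℂ} (tst : TstN s F) (tst' : ∀ k, TstN s (F' k))
    (bW : ∀ k, Bdd (W k))
    (m1 : ∀ (k : κ) (M : K695.Frm), det2 M ≠ 0 →
      opW (fun h => (covol (toC N) : ℂ)⁻¹ * W k h) F M = scl (det2 M) (F' k) M.2)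
    {e μ : ℂ} (he : ‖e‖ = 1) (hμ : ‖μ‖ = 1) (hμ2 : μ ^ 2 ≠ 1)
    (rot : ∀ u, F (e • u) = μ * F u) (rot' : ∀ k u, F' k (e • u) = μ⁻¹ * F' k u)
    {G : ℂ} (gram0 : gram N a a = G)
    (gram1 : ∀ k l, gram N (a' k) (a' l) = if k = l then G else 0)
    (nrm : ∑ k, ∫ u, conj (F' k u) * F' k u = ∫ u, conj (F u) * F u)
    {M : K695.Frm} (hM : det2 M ≠ 0) :
    EC a F M = ∑ k, EC (a' k) (scl (det2 M) (F' k)) M := by
  classical
  have hfin := finite_Om hN
  have hft := Fintype.ofFinite (Om N)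
  have hT : TFD (fun _ u => F u) := tfd_const tst
  have hT' : ∀ k, TFD (fun δ u => scl δ (F' k) u) := fun k => tfd_scl (tst' k)
  have hμ0 : μ ≠ 0 := by
    rintro rfl
    rw [norm_zero] at hμ
    exact zero_ne_one hμ
  have hcμ : conj μ = μ⁻¹ := conj_of_norm hμ
  have hμi : μ⁻¹ * μ⁻¹ ≠ 1 := by
    intro h
    apply hμ2
    have : μ ^ 2 * (μ⁻¹ * μ⁻¹) = 1 := by field_simp
    rwa [h, mul_one] at this
  have hμm : μ * μ ≠ 1 := by rwa [← sq]
  have rots : ∀ k δ u, scl δ (F' k) (e • u) = μ⁻¹ * scl δ (F' k) u := by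
    intro k δ u
    unfold F1.scl
    rw [smul_comm δ⁻¹ e u, rot']
    ring
  set c : ℂ := (covol (toC N) : ℂ) with hc
  set nF : ℂ := ∫ u, conj (F u) * F u with hnF
  set nk : κ → ℂ := fun k => ∫ u, conj (F' k u) * F' k u with hnk
  -- the four families of scalar products
  have P00 : ∀ D : ℝ, ∫ M, TD D a (fun _ u => F u) M * conj (TD D a (fun _ u => F u) M) ∂(nuS (GN N)) =
      c * G * (vA D * nF) := by
    intro D
    obtain ⟨-, hi, hv⟩ := pairing hN hχ ha ha hT hT D
    rw [hv, ← gram0, gram, ← tsum_mul_left, ← tsum_mul_right]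
    refine tsum_congr fun ω => ?_
    by_cases h0 : a ω.out.1 = 0
    · simp [h0]
    · have hb : a (br (sg ω.out)) ≠ 0 := by rwa [br_sg]
      rw [slab_unit hN ha hT hT D ω.out (reg_of_ne ha hb) (hu _ (hR _ hb)) (hi ω) he hμ0
        (fun _ u => rot u) (fun _ u => rot u) (by rw [hcμ]; exact hμi), JJ_const D hT]
  have Pkl : ∀ (D : ℝ) (k l : κ), ∫ M, TD D (a' k) (fun δ u => scl δ (F' k) u) M *
      conj (TD D (a' l) (fun δ u => scl δ (F' l) u) M) ∂(nuS (GN N)) =
      if k = l then c * G * (vA D * nk k) else 0 := by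
    intro D k l
    obtain ⟨-, hi, hv⟩ := pairing hN hχ (ha' k) (ha' l) (hT' k) (hT' l) D
    have e1 : ∀ ω : Om N, ∫ p : Vec × ℂ, jA D p.2 * conj (a' l ω.out.1 * scl p.2 (F' l) p.1) *
        CT N (sg ω.out) (ED (a' k) (fun δ u => scl δ (F' k) u)) (fr p) =
        c * (a' k ω.out.1 * conj (a' l ω.out.1)) *
          JJ D (fun δ u => scl δ (F' k) u) (fun δ u => scl δ (F' l) u) := by
      intro ω
      by_cases h0 : a' l ω.out.1 = 0
      · simp [h0]
      · have hb : a' l (br (sg ω.out)) ≠ 0 := by rwa [br_sg]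
        rw [slab_unit hN (ha' k) (hT' k) (hT' l) D ω.out (reg_of_ne (ha' l) hb)
          (hu' k _ (hR' l _ hb)) (hi ω) he (inv_ne_zero hμ0)
          (rots k) (rots l) (by rw [map_inv₀, hcμ, inv_inv]; exact hμm)]
    rw [hv]
    simp_rw [e1]
    rw [tsum_mul_right, tsum_mul_left]
    change c * gram N (a' k) (a' l) * _ = _
    rw [gram1 k l]
    by_cases hkl : k = l
    · subst hkl
      rw [if_pos rfl, if_pos rfl, JJ_scl D (hT' k)]
    · rw [if_neg hkl, if_neg hkl, mul_zero, zero_mul]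
  have P0l : ∀ (D : ℝ) (l : κ), ∫ M, TD D a (fun _ u => F u) M *
      conj (TD D (a' l) (fun δ u => scl δ (F' l) u) M) ∂(nuS (GN N)) = c * G * (vA D * nk l) := by
    intro D l
    obtain ⟨-, hi, hv⟩ := pairing hN hχ ha (ha' l) hT (hT' l) D
    have hz : JJ D (fun _ u => F u) (fun δ u => scl δ (F' l) u) = 0 :=
      JJ_zero D he (fun _ u => rot u) (rots l) (by rw [map_inv₀, hcμ, inv_inv]; exact hμm)
    have e1 : ∀ ω : Om N, ∫ p : Vec × ℂ, jA D p.2 * conj (a' l ω.out.1 * scl p.2 (F' l) p.1) *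
        CT N (sg ω.out) (ED a (fun _ u => F u)) (fr p) =
        ∑ k, c * (a' k ω.out.1 * conj (a' l ω.out.1)) *
          JJ D (fun δ u => scl δ (F' k) u) (fun δ u => scl δ (F' l) u) := by
      intro ω
      by_cases h0 : a' l ω.out.1 = 0
      · simp [h0]
      · have hb : a' l (br (sg ω.out)) ≠ 0 := by rwa [br_sg]
        have hrg := hR' l _ hb
        exact slab_law hN ha ω.out (reg_of_ne (ha' l) hb) (fun h h0 => hlaw _ hrg h h0) (hu _ hrg)
          tst tst' bW m1 D l (a' l) hz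
    rw [hv]
    simp_rw [e1]
    rw [tsum_fintype, Finset.sum_comm]
    have e2 : ∀ k, ∑ ω : Om N, c * (a' k ω.out.1 * conj (a' l ω.out.1)) *
          JJ D (fun δ u => scl δ (F' k) u) (fun δ u => scl δ (F' l) u) =
        c * gram N (a' k) (a' l) * JJ D (fun δ u => scl δ (F' k) u) (fun δ u => scl δ (F' l) u) := by
      intro k
      unfold gram
      rw [tsum_fintype, ← Finset.sum_mul, ← Finset.mul_sum]
    simp_rw [e2, gram1]
    rw [Finset.sum_eq_single l]
    · rw [if_pos rfl, JJ_scl D (hT' l)]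
    · intro k _ hk
      rw [if_neg hk, mul_zero, zero_mul]
    · intro h
      exact absurd (Finset.mem_univ l) h
  have hcc : conj c = c := by rw [hc, Complex.conj_ofReal]
  have hGG : conj G = G := by rw [← gram0, gram_symm hN]
  have hnn : ∀ H : Vec → ℂ, conj (∫ u, conj (H u) * H u) = ∫ u, conj (H u) * H u := by
    intro H
    rw [← integral_conj]
    refine integral_congr_ae (Filter.Eventually.of_forall fun u => ?_)
    simp only [map_mul, Complex.conj_conj]
    ring
  have Pk0 : ∀ (D : ℝ) (k : κ), ∫ M, TD D (a' k) (fun δ u => scl δ (F' k) u) M *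
      conj (TD D a (fun _ u => F u) M) ∂(nuS (GN N)) = c * G * (vA D * nk k) := by
    intro D k
    have h1 : ∫ M, TD D (a' k) (fun δ u => scl δ (F' k) u) M *
      conj (TD D a (fun _ u => F u) M) ∂(nuS (GN N)) = conj (∫ M, TD D a (fun _ u => F u) M *
      conj (TD D (a' k) (fun δ u => scl δ (F' k) u) M) ∂(nuS (GN N))) := by
      rw [← integral_conj]
      refine integral_congr_ae (Filter.Eventually.of_forall fun X => ?_)
      simp only [map_mul, Complex.conj_conj]
      ring
    rw [h1, P0l, map_mul, map_mul, map_mul, hcc, hGG, conj_vA, hnk]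
    simp only
    rw [hnn]
  -- the truncated difference vanishes almost everywhere
  have hT0 : ∀ D : ℝ, ∀ᵐ M ∂(volume : Measure K695.Frm),
      TD D a (fun _ u => F u) M - ∑ k, TD D (a' k) (fun δ u => scl δ (F' k) u) M = 0 := by
    intro D
    set X : K695.Frm → ℂ := TD D a (fun _ u => F u) with hX
    set Y : κ → K695.Frm → ℂ := fun k => TD D (a' k) (fun δ u => scl δ (F' k) u) with hY
    set T : K695.Frm → ℂ := fun M => X M - ∑ k, Y k M with hTT
    set ν := nuS (GN N) with hν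
    have hXm : Measurable X := measurable_TD D ha.bdd ha.cop hT
    have hYm : ∀ k, Measurable (Y k) := fun k => measurable_TD D (ha' k).bdd (ha' k).cop (hT' k)
    have hTm : Measurable T := hXm.sub (Finset.measurable_sum _ fun k _ => hYm k)
    have hTs : ∀ (g : GN N) M, T (g • M) = χ g * T M := by
      intro g M
      simp only [hTT]
      have e1 : X (g • M) = χ g * X M := TD_smul hχ ha D _ g M
      have e2 : ∀ k, Y k (g • M) = χ g * Y k M := fun k => TD_smul hχ (ha' k) D _ g M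
      rw [e1, mul_sub, Finset.mul_sum]
      congr 1
      exact Finset.sum_congr rfl fun k _ => e2 k
    have i00 : Integrable (fun M => X M * conj (X M)) ν := (pairing hN hχ ha ha hT hT D).1
    have i0l : ∀ l, Integrable (fun M => X M * conj (Y l M)) ν :=
      fun l => (pairing hN hχ ha (ha' l) hT (hT' l) D).1
    have ik0 : ∀ k, Integrable (fun M => Y k M * conj (X M)) ν :=
      fun k => (pairing hN hχ (ha' k) ha (hT' k) hT D).1
    have ikl : ∀ k l, Integrable (fun M => Y k M * conj (Y l M)) ν :=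
      fun k l => (pairing hN hχ (ha' k) (ha' l) (hT' k) (hT' l) D).1
    have hsq : ∀ M, ((Complex.normSq (T M) : ℝ) : ℂ) =
        (X M * conj (X M) - ∑ l, X M * conj (Y l M)) -
          (∑ k, Y k M * conj (X M) - ∑ k, ∑ l, Y k M * conj (Y l M)) := by
      intro M
      rw [← Complex.mul_conj, hTT]
      simp only
      rw [map_sub, map_sum, ← Finset.mul_sum, ← Finset.sum_mul]
      have e3 : ∑ k, ∑ l, Y k M * conj (Y l M) = (∑ k, Y k M) * ∑ l, conj (Y l M) := by
        rw [Finset.sum_mul]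
        exact Finset.sum_congr rfl fun k _ => (Finset.mul_sum _ _ _).symm
      rw [e3]
      ring
    have j1 : Integrable (fun M => X M * conj (X M) - ∑ l, X M * conj (Y l M)) ν :=
      i00.sub (integrable_finsetSum _ fun l _ => i0l l)
    have j2 : Integrable (fun M => ∑ k, Y k M * conj (X M) - ∑ k, ∑ l, Y k M * conj (Y l M)) ν :=
      (integrable_finsetSum _ fun k _ => ik0 k).sub
        (integrable_finsetSum _ fun k _ => integrable_finsetSum _ fun l _ => ikl k l)
    have hI : ∫ M, ((Complex.normSq (T M) : ℝ) : ℂ) ∂ν = 0 := by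
      simp_rw [hsq]
      rw [integral_sub j1 j2, integral_sub i00 (integrable_finsetSum _ fun l _ => i0l l),
        integral_sub (integrable_finsetSum _ fun k _ => ik0 k)
          (integrable_finsetSum _ fun k _ => integrable_finsetSum _ fun l _ => ikl k l),
        integral_finsetSum _ (fun l _ => i0l l), integral_finsetSum _ (fun k _ => ik0 k),
        integral_finsetSum _ (fun k _ => integrable_finsetSum _ fun l _ => ikl k l)]
      simp_rw [fun k => integral_finsetSum (μ := ν) Finset.univ (fun l _ => ikl k l)]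
      have q1 : ∫ M, X M * conj (X M) ∂ν = c * G * (vA D * nF) := P00 D
      have q2 : ∀ l, ∫ M, X M * conj (Y l M) ∂ν = c * G * (vA D * nk l) := P0l D
      have q3 : ∀ k, ∫ M, Y k M * conj (X M) ∂ν = c * G * (vA D * nk k) := Pk0 D
      have q4 : ∀ k l, ∫ M, Y k M * conj (Y l M) ∂ν = if k = l then c * G * (vA D * nk k) else 0 :=
        Pkl D
      simp_rw [q1, q2, q3, q4]
      simp only [Finset.sum_ite_eq, Finset.mem_univ, if_true]
      rw [sub_self, sub_zero, ← Finset.mul_sum, ← Finset.mul_sum, nrm]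
      ring
    have hsqi : Integrable (fun M => ((Complex.normSq (T M) : ℝ) : ℂ)) ν := by
      simp_rw [hsq]
      exact j1.sub j2
    have hI2 : ∫ M, Complex.normSq (T M) ∂ν = 0 := by
      rw [integral_complex_ofReal] at hI
      exact_mod_cast hI
    have hsqr : Integrable (fun M => Complex.normSq (T M)) ν := by
      have := hsqi.re
      simpa using this
    have h3 := (integral_eq_zero_iff_of_nonneg (fun M => Complex.normSq_nonneg (T M)) hsqr).mp hI2
    have hms : MeasurableSet {M : K695.Frm | T M ≠ 0} := (hTm (measurableSet_singleton 0)).compl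
    have h4 : ν {M : K695.Frm | T M ≠ 0} = 0 := by
      have h5 : ∀ᵐ M ∂ν, T M = 0 := by
        filter_upwards [h3] with M hM
        exact Complex.normSq_eq_zero.mp hM
      rw [ae_iff] at h5
      exact h5
    have h6 := ae_of_ae_nu (isWt_sub (GN N)) hms (fun g M => by
      simp only [Set.mem_ofPred_eq]
      rw [hTs]
      have : χ g ≠ 0 := by
        intro h
        have := hχ g
        rw [h, norm_zero] at this
        exact zero_ne_one this
      simp [this]) h4
    rw [ae_iff]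
    exact h6
  -- continuity
  have key : ED a (fun _ u => F u) M - ∑ k, ED (a' k) (fun δ u => scl δ (F' k) u) M = 0 := by
    by_contra hne
    obtain ⟨b, hb1, hMb⟩ := exists_Ub hM
    set DD : K695.Frm → ℂ := fun M => ED a (fun _ u => F u) M -
      ∑ k, ED (a' k) (fun δ u => scl δ (F' k) u) M with hDD
    have hsubn : ∀ X ∈ Ub b, X ∈ {M : K695.Frm | det2 M ≠ 0} := fun X hX => An_ne (Ub_An hb1 hX)
    have hcont : ContinuousOn DD (Ub b) := by
      refine ((ED_continuousOn ha.bdd hT).mono hsubn).sub ?_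
      apply continuousOn_finsetSum
      intro k _
      exact (ED_continuousOn (ha' k).bdd (hT' k)).mono hsubn
    have hopen : IsOpen (Ub b ∩ DD ⁻¹' {0}ᶜ) :=
      hcont.isOpen_inter_preimage (isOpen_Ub b) isOpen_compl_singleton
    have hpos : 0 < (volume : Measure K695.Frm) (Ub b ∩ DD ⁻¹' {0}ᶜ) :=
      hopen.measure_pos volume ⟨M, hMb, hne⟩
    have hz := hT0 b
    rw [ae_iff] at hz
    have hsub : (Ub b ∩ DD ⁻¹' {0}ᶜ) ⊆ {M | ¬ (TD b a (fun _ u => F u) M -
        ∑ k, TD b (a' k) (fun δ u => scl δ (F' k) u) M = 0)} := by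
      rintro X ⟨hX1, hX2⟩ hX3
      apply hX2
      change DD X = 0
      rw [← hX3, hDD]
      simp only
      rw [TD_mem ha.cop _ (Ub_An hb1 hX1)]
      congr 1
      exact Finset.sum_congr rfl fun k _ => (TD_mem (ha' k).cop _ (Ub_An hb1 hX1)).symm
    exact (hpos.trans_le (measure_mono hsub)).ne' hz
  exact sub_eq_zero.mp key

end Crest.Agent.R017.Norm358
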