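import Crest.Agent.R017.NormC_358
import Crest.Agent.R017.Rw6_266

/-!
# Row 17, section A, the norm glue, part D (helper358): Gram sums of `rowA`

* `sum_Om_perm` : right multiplication permutes the classes of rows
* `gramA`, `gramD` : Gram sums of `rowA N x (ψ γ)` and of the dual family `rowA N x (gdual ψ γ (R0 rep3 k))`
-/

set_option autoImplicit false

noncomputable section

open MeasureTheory Complex Set Filter
open scoped ENNReal ComplexConjugate Topology

namespace Crest.Agent.R017.Norm358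

open Crest.Agent.R012 Crest.Agent.R012.Eis Crest.Agent.R012.K695 Crest.Agent.R012.AU681
  Crest.Agent.R012.Parseval499 Crest.Agent.R012.Gauss880
  Crest.Agent.R017.Orth681 Crest.Agent.R017.Xn590
  Crest.Agent.R017.Sx440 Crest.Agent.R017.Loc266
  Crest.Agent.R017.Glue681 Crest.Agent.R017.GlueV266 Crest.Agent.R017.Rw266

attribute [local instance] rowAct

/-- right multiplication of a coprime row. -/
def rmC (r : CR) (g : SLE) : CR := ⟨rmulS r.1 g, cop_rmulS r.2 g⟩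

lemma rmC_mul (r : CR) (g h : SLE) : rmC r (g * h) = rmC (rmC r g) h := Subtype.ext (rmulS_mul _ _ _)

lemma rmC_one (r : CR) : rmC r 1 = r := Subtype.ext (rmulS_one _)

lemma mem_orbit_iff {N : Eis} {a b : CR} : a ∈ MulAction.orbit (GN N) b ↔ ∃ h : GN N, a = rmC b h := by
  constructor
  · rintro ⟨g, hg⟩
    exact ⟨g⁻¹, hg.symm.trans (Subtype.ext rfl)⟩
  · rintro ⟨h, rfl⟩
    refine ⟨h⁻¹, Subtype.ext ?_⟩
    change rmulS b.1 ((h⁻¹ : GN N) : SLE)⁻¹ = rmulS b.1 h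
    simp

/-- the permutation of the classes. -/
def omMap {N : Eis} (g : SLE) : Om N → Om N :=
  Quotient.map' (s₁ := MulAction.orbitRel (GN N) CR) (s₂ := MulAction.orbitRel (GN N) CR)
    (fun r => rmC r g) (by
      intro a b hab
      change MulAction.orbitRel (GN N) CR _ _ at hab
      change MulAction.orbitRel (GN N) CR _ _
      rw [MulAction.orbitRel_apply] at hab ⊢
      rw [mem_orbit_iff] at hab ⊢
      obtain ⟨h, rfl⟩ := hab
      have hn : (GN N).Normal := (redN N).normal_ker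
      refine ⟨⟨g⁻¹ * h * g, by simpa using hn.conj_mem _ h.2 g⁻¹⟩, ?_⟩
      rw [← rmC_mul, ← rmC_mul]
      congr 1
      simp only
      group)

lemma omMap_mk {N : Eis} (g : SLE) (r : CR) :
    omMap g (Quotient.mk'' r : Om N) = Quotient.mk'' (rmC r g) := rfl

lemma omMap_comp {N : Eis} (g h : SLE) (ω : Om N) : omMap h (omMap g ω) = omMap (g * h) ω := by
  induction ω using Quotient.inductionOn' with
  | h r => rw [omMap_mk, omMap_mk, omMap_mk, rmC_mul]

lemma omMap_one {N : Eis} (ω : Om N) : omMap 1 ω = ω := by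
  induction ω using Quotient.inductionOn' with
  | h r => rw [omMap_mk, rmC_one]

def omEquiv {N : Eis} (g : SLE) : Om N ≃ Om N where
  toFun := omMap g
  invFun := omMap g⁻¹
  left_inv ω := by rw [omMap_comp, mul_inv_cancel, omMap_one]
  right_inv ω := by rw [omMap_comp, inv_mul_cancel, omMap_one]

/-- a class function depends only on the class. -/
lemma class_fun {N : Eis} {f : CR → ℂ} (hf : ∀ (h : GN N) (r : CR), f (rmC r h) = f r)
    {a b : CR} (hab : (Quotient.mk'' a : Om N) = Quotient.mk'' b) : f a = f b := by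
  have h1 : MulAction.orbitRel (GN N) CR a b := Quotient.exact' hab
  rw [MulAction.orbitRel_apply, mem_orbit_iff] at h1
  obtain ⟨h, rfl⟩ := h1
  exact hf h b

/-- **Permutation of the classes.** -/
theorem sum_Om_perm {N : Eis} (g : SLE) {f : CR → ℂ}
    (hf : ∀ (h : GN N) (r : CR), f (rmC r h) = f r) :
    ∑' ω : Om N, f (rmC ω.out g) = ∑' ω : Om N, f ω.out := by
  rw [← (omEquiv g).tsum_eq (fun ω : Om N => f ω.out)]
  refine tsum_congr fun ω => ?_
  apply class_fun hf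
  have h1 : (Quotient.mk'' (omMap g ω).out : Om N) = omMap g ω := Quotient.out_eq' _
  have h2 : (Quotient.mk'' ω.out : Om N) = ω := Quotient.out_eq' _
  change _ = (Quotient.mk'' (omMap g ω).out : Om N)
  rw [h1]
  conv_rhs => rw [← h2]
  rw [omMap_mk]

/-! ### Products of `rowA` -/

variable {N : Eis}

open Classical in
/-- `(z / c)_3` on the rows with `c` good. -/
def fz (N z : Eis) (r : CR) : ℂ := if Gd r.1.1 ∧ IsCoprime r.1.1 N then sy z r.1.1 else 0

lemma rowA_mul_conj (x : Eis) (g g' : Eis → ℂ) (r : CR) :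
    rowA N x g r.1 * conj (rowA N x g' r.1) =
      by classical exact if Gd r.1.1 ∧ IsCoprime r.1.1 N then g r.1.1 * conj (g' r.1.1) else 0 := by
  classical
  unfold rowA
  by_cases h : Gd r.1.1 ∧ IsCoprime r.1.1 N
  · rw [if_pos h, if_pos h, if_pos h]
    have e1 : ea N x (r.1.2 * ivN N r.1.1) * conj (ea N x (r.1.2 * ivN N r.1.1)) = 1 := by
      rw [Complex.mul_conj, Complex.normSq_eq_norm_sq, norm_ea]; simp
    have e2 : sy6 r.1.2 r.1.1 * conj (sy6 r.1.2 r.1.1) = 1 := sy6_mul_conj h.1 r.2.symm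
    simp only [map_mul]
    linear_combination (g r.1.1 * conj (g' r.1.1) * (sy6 r.1.2 r.1.1 * conj (sy6 r.1.2 r.1.1))) * e1
      + (g r.1.1 * conj (g' r.1.1)) * e2
  · rw [if_neg h, if_neg h, if_neg h, zero_mul]

lemma conj_sy {z c : Eis} (hc : Gd c) (h : IsCoprime z c) : conj (sy z c) = sy z c ^ 2 := by
  have h1 := sy_mul_conj hc h
  have h3 := sy_pow_three hc h
  have hz : sy z c ≠ 0 := left_ne_zero_of_mul_eq_one h1
  apply mul_left_cancel₀ hz
  rw [h1, ← h3]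
  ring

lemma dual_mul {x : Eis} {ψ γ : Eis → ℂ} (hN : Lev N) (hψ : IsCh N ψ) (hγ : Gm N γ) {k l : Eis}
    (hk : Ss N k) (hl : Ss N l) (r : CR) :
    rowA N x (gdual ψ γ k) r.1 * conj (rowA N x (gdual ψ γ l) r.1) = fz N (k ^ 2 * l) r := by
  classical
  rw [rowA_mul_conj]
  unfold fz
  by_cases h : Gd r.1.1 ∧ IsCoprime r.1.1 N
  · rw [if_pos h, if_pos h]
    have e1 := hψ.mul_conj_self hN.ne h.2
    have e2 := hγ.mul_conj h.1.2
    have e3 := sy6_neg_one_sq h.1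
    have e4 := conj_sy h.1 (hk.cop h.2)
    have e5 : sy (k ^ 2 * l) r.1.1 = sy k r.1.1 ^ 2 * sy l r.1.1 := by
      rw [Char766.sy_mul_left h.1.1, sy_pow' h.1]
    unfold gdual
    simp only [map_mul, Complex.conj_conj, conj_sy6_neg_one h.1]
    rw [e5, ← e4]
    linear_combination (sy6 (-1) r.1.1 * sy6 (-1) r.1.1 * conj (sy k r.1.1) * sy l r.1.1 *
      (γ r.1.1 * conj (γ r.1.1))) * e1 + (sy6 (-1) r.1.1 * sy6 (-1) r.1.1 * conj (sy k r.1.1) *
      sy l r.1.1) * e2 + (conj (sy k r.1.1) * sy l r.1.1) * e3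
  · rw [if_neg h, if_neg h]

lemma self_mul {x : Eis} {ψ γ : Eis → ℂ} (hN : Lev N) (hψ : IsCh N ψ) (hγ : Gm N γ) (r : CR) :
    rowA N x (fun c => ψ c * γ c) r.1 * conj (rowA N x (fun c => ψ c * γ c) r.1) = fz N 1 r := by
  classical
  rw [rowA_mul_conj]
  unfold fz
  by_cases h : Gd r.1.1 ∧ IsCoprime r.1.1 N
  · rw [if_pos h, if_pos h]
    have e1 := hψ.mul_conj_self hN.ne h.2
    have e2 := hγ.mul_conj h.1.2
    have e3 : sy 1 r.1.1 = 1 := Char766.sy_one_left h.1.1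
    rw [e3]
    simp only [map_mul]
    linear_combination (γ r.1.1 * conj (γ r.1.1)) * e1 + e2
  · rw [if_neg h, if_neg h]

/-- the entries modulo `N` -/
lemma rmulS_mod {c d : Eis} {g : SLE} {h : SLE} (hh : h ∈ GN N) :
    N ∣ (rmulS (rmulS (c, d) g) h).1 - (rmulS (c, d) g).1 := by
  obtain ⟨⟨t1, ht1⟩, ⟨t2, ht2⟩, ⟨t3, ht3⟩, ⟨t4, ht4⟩⟩ := mem_GN.mp hh
  refine ⟨(rmulS (c, d) g).1 * t1 + (rmulS (c, d) g).2 * t3, ?_⟩
  unfold rmulS
  simp only
  linear_combination (c * g 0 0 + d * g 1 0) * ht1 + (c * g 0 1 + d * g 1 1) * ht3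

lemma fz_congr (hN : Lev N) {z : Eis} (hz : Ss N z) {r r' : CR} (h : N ∣ r'.1.1 - r.1.1) :
    fz N z r' = fz N z r := by
  classical
  unfold fz
  have hiff : (Gd r'.1.1 ∧ IsCoprime r'.1.1 N) ↔ (Gd r.1.1 ∧ IsCoprime r.1.1 N) :=
    and_congr (gd_congr (hN.d72.trans h)) (cop_congr h)
  by_cases hc : Gd r.1.1 ∧ IsCoprime r.1.1 N
  · rw [if_pos hc, if_pos (hiff.mpr hc), sy_per hN hz.ne hz.pr (hiff.mpr hc).1 hc.1 h]
  · rw [if_neg hc, if_neg (fun h => hc (hiff.mp h))]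

lemma fz_inv (hN : Lev N) {z : Eis} (hz : Ss N z) (h : GN N) (r : CR) :
    fz N z (rmC r h) = fz N z r := by
  apply fz_congr hN hz
  have h1 := rmulS_mod (N := N) (c := r.1.1) (d := r.1.2) (g := 1) h.2
  rw [rmulS_one] at h1
  exact h1

/-- `diag(u, u⁻¹)` modulo `N`. -/
def dg (u v : Eis) : SLE := mk2 (2 * u - u ^ 2 * v) (u * v - 1) (1 - u * v) v (by ring)

/-- nontrivial twists have sum zero. -/
theorem sum_fz_zero (hN : Lev N) {z : Eis} (hz : Ss N z) (hc : ¬ ∃ t, z = t ^ 3) :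
    ∑' ω : Om N, fz N z ω.out = 0 := by
  classical
  obtain ⟨u, hu1, hu2, hu3, hu4⟩ := Char766.exists_sy_ne_one Char766.suppl hz.ne hc hN.ne
  have h2N : (2 : Eis) ∣ N := two_dvd_72.trans hN.d72
  have huo : Od u := by
    intro h
    have h4 : IsCoprime (2 : Eis) 2 :=
      IsCoprime.of_isCoprime_of_dvd_left (IsCoprime.of_isCoprime_of_dvd_right hu2 h2N) h
    exact prime_two.not_isUnit (isCoprime_self.mp h4)
  have hug : Gd u := ⟨hu1, huo⟩
  obtain ⟨-, hv⟩ := ivN_spec hu2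
  set v := ivN N u with hvdef
  have key : ∀ r : CR, fz N z (rmC r (dg u v)) = sy z u * fz N z r := by
    intro r
    have hd : N ∣ (rmC r (dg u v)).1.1 - u * r.1.1 := by
      obtain ⟨t, ht⟩ := hv
      refine ⟨-(r.1.1 * u * t) - r.1.2 * t, ?_⟩
      change (r.1.1 * (2 * u - u ^ 2 * v) + r.1.2 * (1 - u * v)) - u * r.1.1 = _
      linear_combination (-(r.1.1 * u) - r.1.2) * ht
    have hiff : (Gd (rmC r (dg u v)).1.1 ∧ IsCoprime (rmC r (dg u v)).1.1 N) ↔
        (Gd r.1.1 ∧ IsCoprime r.1.1 N) := by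
      refine (and_congr (gd_congr (hN.d72.trans hd)) (cop_congr hd)).trans ?_
      refine and_congr (gd_mul_iff hug) ?_
      exact ⟨fun h => h.of_mul_left_right, fun h => hu2.mul_left h⟩
    unfold fz
    by_cases hc : Gd r.1.1 ∧ IsCoprime r.1.1 N
    · rw [if_pos hc, if_pos (hiff.mpr hc),
        sy_per hN hz.ne hz.pr (hiff.mpr hc).1 (hug.mul hc.1) hd, Char766.sy_mul_right hu1 hc.1.1]
    · rw [if_neg hc, if_neg (fun h => hc (hiff.mp h)), mul_zero]
  have h1 := sum_Om_perm (N := N) (dg u v) (f := fz N z) (fz_inv hN hz)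
  simp_rw [key] at h1
  rw [tsum_mul_left] at h1
  have h2 : (sy z u - 1) * ∑' ω : Om N, fz N z ω.out = 0 := by
    rw [sub_mul, one_mul, h1, sub_self]
  rcases mul_eq_zero.mp h2 with h3 | h3
  · exact absurd (sub_eq_zero.mp h3) hu4
  · exact h3

/-- the Gram constant -/
def GA (N : Eis) : ℂ := ∑' ω : Om N, fz N 1 ω.out

/-- **Gram**, the left function. -/
theorem gramA (hN : Lev N) {x : Eis} {ψ γ : Eis → ℂ} (hψ : IsCh N ψ) (hγ : Gm N γ) :
    gram N (rowA N x (fun c => ψ c * γ c)) (rowA N x (fun c => ψ c * γ c)) = GA N := by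
  unfold gram GA
  exact tsum_congr fun ω => self_mul hN hψ hγ ω.out

/-- cubes among `e3`. -/
lemma e3_cube {n a b : ℕ} (h : ∃ t, e3 n a b = t ^ 3) : n % 3 = 0 ∧ a % 3 = 0 ∧ b % 3 = 0 := by
  obtain ⟨t, ht⟩ := h
  have ht0 : t ≠ 0 := by
    rintro rfl
    exact e3_ne n a b (by rw [ht]; ring)
  obtain ⟨n', a', b', h1⟩ := exists_e3 ht0 (fun p hp hpt => by
    have h2 : p ∣ e3 n a b := by
      rw [ht]
      exact dvd_pow hpt (by norm_num)
    unfold e3 at h2
    have e6 : (6 : Eis) = 2 * (lam * (lam * (-w ^ 2))) := by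
      have : (6 : Eis) = 2 * 3 := by norm_num
      rw [this, three_eq]; ring
    rw [e6]
    rcases hp.dvd_or_dvd h2 with h3 | h3
    · rcases hp.dvd_or_dvd h3 with h4 | h4
      · exact absurd (isUnit_of_dvd_unit h4 (isUnit_w.pow n)) hp.not_isUnit
      · exact (hp.dvd_of_dvd_pow h4).mul_right _
    · exact ((hp.dvd_of_dvd_pow h3).mul_right _).mul_left _)
  have h3 : ∃ σ : Eis, (σ = 1 ∨ σ = -1) ∧ e3 n a b = σ * e3 (3 * n') (3 * a') (3 * b') := by
    have e : (e3 n' a' b') ^ 3 = e3 (3 * n') (3 * a') (3 * b') := by unfold e3; ring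
    rcases h1 with h1 | h1
    · exact ⟨1, Or.inl rfl, by rw [ht, h1, one_mul, e]⟩
    · exact ⟨-1, Or.inr rfl, by rw [ht, h1, ← e]; ring⟩
  obtain ⟨σ, hσ, h4⟩ := h3
  obtain ⟨h5, h6, h7⟩ := e3_inj hσ h4
  refine ⟨by omega, by omega, by omega⟩

lemma rep3_not_cube {k l : K3} (hkl : k ≠ l) : ¬ ∃ t, (rep3 k) ^ 2 * rep3 l = t ^ 3 := by
  intro h
  apply hkl
  have e : (rep3 k) ^ 2 * rep3 l = e3 (2 * k.1.val + l.1.val) (2 * k.2.1.val + l.2.1.val)
      (2 * k.2.2.val + l.2.2.val) := by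
    unfold rep3 e3; ring
  rw [e] at h
  obtain ⟨h1, h2, h3⟩ := e3_cube h
  have key : ∀ i j : ZMod 3, (2 * i.val + j.val) % 3 = 0 → i = j := by decide
  exact Prod.ext (key _ _ h1) (Prod.ext (key _ _ h2) (key _ _ h3))

/-- **Gram**, the dual family. -/
theorem gramD (hN : Lev N) {x : Eis} {ψ γ : Eis → ℂ} (hψ : IsCh N ψ) (hγ : Gm N γ) {R0 : Eis}
    (hR : Ss N R0) (k l : K3) :
    gram N (rowA N x (gdual ψ γ (R0 * rep3 k))) (rowA N x (gdual ψ γ (R0 * rep3 l))) =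
      if k = l then GA N else 0 := by
  classical
  have hk : Ss N (R0 * rep3 k) := hR.mul (ss_e3 hN _ _ _)
  have hl : Ss N (R0 * rep3 l) := hR.mul (ss_e3 hN _ _ _)
  have e1 : gram N (rowA N x (gdual ψ γ (R0 * rep3 k))) (rowA N x (gdual ψ γ (R0 * rep3 l))) =
      ∑' ω : Om N, fz N ((R0 * rep3 k) ^ 2 * (R0 * rep3 l)) ω.out := by
    unfold gram
    exact tsum_congr fun ω => dual_mul hN hψ hγ hk hl ω.out
  have e2 : ∀ r : CR, fz N ((R0 * rep3 k) ^ 2 * (R0 * rep3 l)) r = fz N ((rep3 k) ^ 2 * rep3 l) r := by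
    intro r
    unfold fz
    by_cases h : Gd r.1.1 ∧ IsCoprime r.1.1 N
    · rw [if_pos h, if_pos h,
        show (R0 * rep3 k) ^ 2 * (R0 * rep3 l) = R0 ^ 3 * ((rep3 k) ^ 2 * rep3 l) by ring,
        Char766.sy_mul_left h.1.1, sy_pow' h.1, sy_pow_three h.1 (hR.cop h.2), one_mul]
    · rw [if_neg h, if_neg h]
  rw [e1]
  simp_rw [e2]
  by_cases hkl : k = l
  · subst hkl
    rw [if_pos rfl]
    unfold GA
    refine tsum_congr fun ω => ?_
    unfold fz
    by_cases h : Gd ω.out.1.1 ∧ IsCoprime ω.out.1.1 N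
    · have h3 : Ss N (rep3 k) := ss_e3 hN _ _ _
      rw [if_pos h, if_pos h, show (rep3 k) ^ 2 * rep3 k = rep3 k ^ 3 by ring, sy_pow' h.1,
        sy_pow_three h.1 (h3.cop h.2), Char766.sy_one_left h.1.1]
    · rw [if_neg h, if_neg h]
  · rw [if_neg hkl]
    exact sum_fz_zero hN (((ss_e3 hN _ _ _ : Ss N (rep3 k)).pow 2).mul (ss_e3 hN _ _ _))
      (rep3_not_cube hkl)

end Crest.Agent.R017.Norm358
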