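import Crest.Agent.R017.NormG_358
import Crest.Agent.R017.FinA3_266
import Crest.Agent.R017.EndA0_92

/-!
# Row 17, section A: `EndX` from the lag identities (helper358)
-/

set_option autoImplicit false

noncomputable section

open Complex MeasureTheory
open scoped ComplexConjugate SchwartzMap

namespace Crest.Agent.R017.Norm358

open Crest.Agent.R012 Crest.Agent.R012.Eis Crest.Agent.R012.K695 Crest.Agent.R012.AU681
  Crest.Agent.R012.Gauss880 Crest.Agent.R017.Loc266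
  Crest.Agent.R012.Parseval499 Crest.Agent.R017.Orth681 Crest.Agent.R017.Xn590
  Crest.Agent.R017.Glue681 Crest.Agent.R017.Rw266 Crest.Agent.R017.GlueV266
  Crest.Agent.R017.FinA266 Crest.Agent.R017.EndA92 Crest.Agent.R017.Wt92 Crest.Agent.R017.Coef92
open Crest.Agent.R017.XiI590 (lin datN_lin)

variable {N x : Eis} {s : ℂ} {ψ γ : Eis → ℂ} {m : Eis} {ξ : Eis → ℂ} {kp c0' w0 : ℂ}
    {R0 : Eis} {r2 rl : ℕ}

/-- `AutoA` from the lags. -/
theorem autoA_of_lags (H : CtxA N x s ψ γ m ξ kp c0' w0 R0 r2 rl)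
    (HL : Lags (r2 + 6) (rl + 6) (ξ 2) (ξ lam) (nm 2) (nm lam)
      (qT (ξ 2) (ξ lam) (Vt N x s w0 ψ γ R0))) : AutoA N x s ψ γ ξ w0 R0 r2 rl :=
  fun T _ _ => auto_of_lags (by have := H.h2; omega) (by have := H.hl; omega)
    (fun c a b hab => qT_supp' H.lev H.ch H.gm H.xi H.rr H.lvl c a b hab) HL.nn HL.np T

lemma rot_I {L : ℤ} (hL : L ≠ 0) : ∃ e : ℂ, ‖e‖ = 1 ∧ e ^ L = I := by
  refine ⟨Complex.exp (((Real.pi / 2 / (L : ℝ) : ℝ) : ℂ) * I), Complex.norm_exp_ofReal_mul_I _, ?_⟩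
  rw [← Complex.exp_int_mul]
  have hL' : (L : ℂ) ≠ 0 := by exact_mod_cast hL
  have e1 : (L : ℂ) * (((Real.pi / 2 / (L : ℝ) : ℝ) : ℂ) * I) = (Real.pi / 2 : ℂ) * I := by
    push_cast
    field_simp
  rw [e1, Complex.exp_mul_I]
  rw [Complex.cos_pi_div_two, Complex.sin_pi_div_two]
  ring

lemma datN_zero : DatN 6 s ξ (fun _ => (0 : ℂ)) where
  smooth := contDiff_const
  supp := ⟨1, 2, one_pos, one_lt_two, fun _ _ => rfl⟩
  par _ := (mul_zero s).symm
  mom := by
    right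
    constructor
    · simp
    · have h : ∀ z : ℂ, F1.Phi (fun _ => (0 : ℂ)) z = 0 := by
        intro z
        unfold F1.Phi
        simp
      simp [h]

/-- **`EndX`** from the lag identities. -/
theorem endX_of_lags (H : CtxA N x s ψ γ m ξ kp c0' w0 R0 r2 rl)
    (HL : Lags (r2 + 6) (rl + 6) (ξ 2) (ξ lam) (nm 2) (nm lam)
      (qT (ξ 2) (ξ lam) (Vt N x s w0 ψ γ R0))) {L : ℤ} (hL : L ≠ 0) :
    EndX N x s kp ξ ψ γ L (r2 + 6) (rl + 6) := by
  obtain ⟨e, he, heL⟩ := rot_I hL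
  refine ⟨K3, Glue681.JJ (r2 + 6) (rl + 6), inferInstance, inferInstance, 1, toC R0, w0 * 2,
    s * conj w0 * 2, fun k => R0 * rep3 k,
    fun k j => cR N x s w0 ψ γ ξ R0 k j * ((‖toC (mo j)‖ ^ 2 : ℝ) : ℂ), fun j => toC (mo j),
    ?_, fun k => H.rr.ss.mul (ss_e3 H.lev _ _ _), fun j => moC_ne j, ?_⟩
  · have hC := (pair_base6 (f := fun _ => (0 : ℂ)) H.xip H.xi.u H.hs H.rr.ss.ne H.w one_pos ?_ 0).1
    · have e1 : w0 * (2 * ((1 : ℝ) : ℂ)) = w0 * 2 := by push_cast; ring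
      have e2 : s * conj w0 * (2 * ((1 : ℝ) : ℂ)) = s * conj w0 * 2 := by push_cast; ring
      rw [e1, e2] at hC
      exact hC
    · exact datN_zero
  · intro f hf hr k0 y
    have hdet : det2 (stF y) = 1 := det2_stF y
    have key := ecA H (autoA_of_lags H HL) hf (e := e) (μ := I) he (by simp)
      (by rw [Complex.I_sq]; norm_num) (fun y => by rw [hr e he, heL]) k0
      (M := stF y) (by rw [hdet]; exact one_ne_zero)
    rw [hdet] at key
    have hs1 : ∀ F : Vec → ℂ, F1.scl 1 F = F := by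
      intro F
      funext u
      unfold F1.scl
      simp
    simp_rw [hs1] at key
    exact key

end Crest.Agent.R017.Norm358
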