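import Crest.Agent.R017.Leg5_381

/-!
# Row 17, RG (helper320): opening the truncated Legendre weights on the character side

* `sum_gen`  : for a system of weights of the entries (`WSy` of 381) and any `F`,
  `∑ n, sqc q (alW h s W) n F n = ∑_x coef x ∑ m, sqc (q ∏x) (alf (shS s x) ..) m F (∏ x * m)`
* `dil g β`  : dilation, `β (n / g)` on the multiples of `g`
* `nt_open`  : the flagged sequence = a sum over the divisor tuples (norms `≤ D0`) of dilated
  *natural* sequences
-/

set_option autoImplicit false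
set_option linter.unusedSectionVars false
set_option linter.unusedVariables false

noncomputable section

open Complex
open scoped ComplexConjugate

namespace Crest.Agent.R017.NtC320

open Crest.Agent.R012 Crest.Agent.R012.Eis Crest.Agent.R012.LS2 Crest.Agent.R012.Gauss880
open Crest.Agent.R012.Mob705
open Crest.Agent.R012.Div277 (tau dvs mem_dvs isPrim_of_mem_dvs dvd_of_mem_dvs tau_le_rpow)
open Crest.Agent.R017.CM106 Crest.Agent.R017.HP842 Crest.Agent.R017.FE47
open Crest.Agent.R017.End699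
open Crest.Agent.R017.TP320 (mul_div_of_mem mul_div_left')
open Crest.Agent.R017.Rough381 Crest.Agent.R017.Leg381

/-- the indicator, general product of primary elements -/
lemma Th_mul_gen (q : Eis) {x y : Eis} (hx : IsPrim x) (hy : IsPrim y) :
    Th q (x * y) = Th q x * Th (q * x) y := by
  classical
  unfold Th
  by_cases hc : IsCoprime x y
  · have h1 : Squarefree (x * y) ↔ Squarefree x ∧ Squarefree y := by
      rw [squarefree_mul_iff]
      exact ⟨fun h => h.2, fun h => ⟨hc.isRelPrime, h⟩⟩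
    have h2 : IsCoprime (x * y) q ↔ IsCoprime x q ∧ IsCoprime y q := IsCoprime.mul_left_iff
    have h3 : IsCoprime y (q * x) ↔ IsCoprime y q ∧ IsCoprime y x := IsCoprime.mul_right_iff
    have e1 : (Squarefree (x * y) ∧ IsCoprime (x * y) q) ↔
        (Squarefree x ∧ IsCoprime x q) ∧ (Squarefree y ∧ IsCoprime y (q * x)) := by
      rw [h1, h2, h3]
      constructor
      · rintro ⟨⟨a, b⟩, c, d⟩
        exact ⟨⟨a, c⟩, b, d, hc.symm⟩
      · rintro ⟨⟨a, c⟩, b, d, _⟩
        exact ⟨⟨a, b⟩, c, d⟩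
    by_cases hX : Squarefree x ∧ IsCoprime x q
    · by_cases hY : Squarefree y ∧ IsCoprime y (q * x)
      · rw [if_pos (e1.2 ⟨hX, hY⟩), if_pos hX, if_pos hY, mul_one]
      · rw [if_neg (fun h => hY (e1.1 h).2), if_neg hY, mul_zero]
    · rw [if_neg (fun h => hX (e1.1 h).1), if_neg hX, zero_mul]
  · have h1 : ¬ Squarefree (x * y) := by
      intro h
      rw [squarefree_mul_iff] at h
      exact hc (isRelPrime_iff_isCoprime.1 h.1)
    rw [if_neg (fun h => h1 h.1), if_neg (fun h : Squarefree y ∧ IsCoprime y (q * x) => hc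
      (IsCoprime.of_mul_right_right h.2).symm), mul_zero]

variable {ι : Type} [Fintype ι] [DecidableEq ι]

lemma sum_sqc (q : Eis) (w F : Eis → ℂ) :
    ∑' n, sqc q w n * F n = ∑' n, w n * (Th q n * F n) := by
  unfold sqc
  exact tsum_congr fun n => by ring

/-- **exact splitting, arbitrary test function** -/
theorem sum_gen {h : ℝ → ℝ} {R : ℝ} (hR : ∀ u, cx h u ≠ 0 → |u| ≤ R) {s : ι → Pc}
    (hs : ∀ i, (s i).OK) {X : ℕ} (hX : ∀ i, (s i).Y * Real.exp R ≤ X) {z D0 : ℝ}
    {W c : ι → Eis → ℂ} {φ : ι → Eis → Bool} (hW : WSy z D0 W c φ) (q : Eis) (F : Eis → ℂ) :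
    ∑' n, sqc q (alW h s W) n * F n =
      ∑ x ∈ smT ι X z, Th q (∏ i, x i) * scS s x * (∏ i, c i (x i)) *
        ∑' m, sqc (q * ∏ i, x i) (alf z D0 h (shS s x) (fun i => φ i (x i))) m *
          F ((∏ i, x i) * m) := by
  classical
  set A := Fintype.piFinset (fun _ : ι => primBall X) with hA
  have hbd : Bd X (fun i n => pc h (s i) n * W i n) := fun i b hb =>
    Bd_pc hR (hs i).Y0 (hX i) (left_ne_zero_of_mul hb)
  unfold alW alf
  rw [sum_sqc, sum_cv hbd (fun n => Th q n * F n)]
  -- the full sum over all primary tuples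
  have hall : ∑ x ∈ smT ι X z, Th q (∏ i, x i) * scS s x * (∏ i, c i (x i)) *
        ∑' m, sqc (q * ∏ i, x i) (cv fun i => fpc z D0 h (shS s x i) (φ i (x i))) m *
          F ((∏ i, x i) * m) =
      ∑ x ∈ A, ∑ y ∈ A, (∏ i, (c i (x i) * fw z D0 (φ i (x i)) (y i) *
        pc h (s i) (x i * y i))) * (Th q (∏ i, x i * y i) * F (∏ i, x i * y i)) := by
    have hsub : smT ι X z ⊆ A := by
      unfold smT
      exact Finset.filter_subset _ _
    have hz : ∀ x ∈ A, x ∉ smT ι X z → (∑ y ∈ A, (∏ i, (c i (x i) *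
        fw z D0 (φ i (x i)) (y i) * pc h (s i) (x i * y i))) *
        (Th q (∏ i, x i * y i) * F (∏ i, x i * y i))) = 0 := by
      intro x hx hx'
      have : ∃ i, ¬ Sm z (x i) := by
        by_contra hcon
        push Not at hcon
        apply hx'
        unfold smT
        rw [Finset.mem_filter]
        exact ⟨hx, hcon⟩
      obtain ⟨i, hi⟩ := this
      refine Finset.sum_eq_zero fun y _ => ?_
      rw [Finset.prod_eq_zero (Finset.mem_univ i), zero_mul]
      have : c i (x i) = 0 := by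
        by_contra h0; exact hi (hW.sm i _ h0)
      rw [this]; ring
    rw [← Finset.sum_subset hsub hz]
    refine Finset.sum_congr rfl fun x hx => ?_
    rw [mem_smT] at hx
    have hxp : ∀ i, IsPrim (x i) := fun i => (hx i).1.2
    have hbd' : Bd X (fun i => fpc z D0 h (shS s x i) (φ i (x i))) := by
      refine Bd_fpc hR (fun i => (sh_OK (hs i) (hxp i)).Y0) (fun i => ?_) z D0 _
      exact (mul_le_mul_of_nonneg_right (sh_Y_le (hs i).Y0 (hxp i)) (Real.exp_pos _).le).trans
        (hX i)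
    rw [sum_sqc, sum_cv hbd' (fun m => Th (q * ∏ i, x i) m * F ((∏ i, x i) * m)),
      Finset.mul_sum]
    refine Finset.sum_congr rfl fun y hy => ?_
    rw [hA, Fintype.mem_piFinset] at hy
    have hyp : ∀ i, IsPrim (y i) := fun i => (mem_primBall.1 (hy i)).2
    have e2 : ∏ i, x i * y i = (∏ i, x i) * ∏ i, y i := Finset.prod_mul_distrib
    rw [e2, Th_mul_gen q (isPrim_prod hxp) (isPrim_prod hyp)]
    by_cases hc : IsCoprime (∏ i, x i) (∏ i, y i)
    · have hci : ∀ i, IsCoprime (x i) (y i) := fun i =>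
        (hc.of_isCoprime_of_dvd_left (Finset.dvd_prod_of_mem _ (Finset.mem_univ i))
          ).of_isCoprime_of_dvd_right (Finset.dvd_prod_of_mem _ (Finset.mem_univ i))
      have e4 : ∏ i, (c i (x i) * fw z D0 (φ i (x i)) (y i) *
          pc h (s i) (x i * y i)) = scS s x * (∏ i, c i (x i)) *
          ∏ i, fpc z D0 h (shS s x i) (φ i (x i)) (y i) := by
        unfold scS
        rw [← Finset.prod_mul_distrib, ← Finset.prod_mul_distrib]
        refine Finset.prod_congr rfl fun i _ => ?_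
        rw [pc_mul h (hs i).ch (hs i).Y0 (hxp i), pc_sub_rough (s i) (hci i)]
        unfold fpc shS
        ring
      rw [e4]
      ring
    · have h2 : Th (q * ∏ i, x i) (∏ i, y i) = 0 := by
        unfold Th
        rw [if_neg]
        rintro ⟨_, h'⟩
        exact hc (IsCoprime.of_mul_right_right h').symm
      rw [h2]; ring
  rw [hall]
  -- the left side
  have hlhs : ∀ b ∈ A, (∏ i, pc h (s i) (b i) * W i (b i)) *
      (Th q (∏ i, b i) * F (∏ i, b i)) =
      ∑ x ∈ Fintype.piFinset (fun i => dvs (b i)), (∏ i, (c i (x i) *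
        fw z D0 (φ i (x i)) (b i / x i) * pc h (s i) (x i * (b i / x i)))) *
        (Th q (∏ i, x i * (b i / x i)) * F (∏ i, x i * (b i / x i))) := by
    intro b hb
    rw [hA, Fintype.mem_piFinset] at hb
    have hbp : ∀ i, IsPrim (b i) := fun i => (mem_primBall.1 (hb i)).2
    have e1 : ∀ i, pc h (s i) (b i) * W i (b i) = ∑ x ∈ dvs (b i),
        c i x * fw z D0 (φ i x) (b i / x) * pc h (s i) (b i) := by
      intro i
      rw [hW.eq i (b i) (hbp i), Finset.mul_sum]
      exact Finset.sum_congr rfl fun x _ => by ring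
    rw [Finset.prod_congr rfl fun i _ => e1 i, Finset.prod_univ_sum, Finset.sum_mul]
    refine Finset.sum_congr rfl fun x hx => ?_
    rw [Fintype.mem_piFinset] at hx
    have e5 : ∀ i, x i * (b i / x i) = b i := fun i => mul_div_of_mem (hx i)
    simp only [e5]
  rw [Finset.sum_congr rfl hlhs, ← Finset.sum_product', Finset.sum_sigma']
  symm
  refine Finset.sum_bij_ne_zero (fun p _ _ => ⟨fun i => p.1 i * p.2 i, p.1⟩) ?_ ?_ ?_ ?_
  · rintro ⟨x, y⟩ hp hne
    rw [Finset.mem_product, Fintype.mem_piFinset, Fintype.mem_piFinset] at hp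
    have hxp : ∀ i, IsPrim (x i) := fun i => (mem_primBall.1 (hp.1 i)).2
    have hyp : ∀ i, IsPrim (y i) := fun i => (mem_primBall.1 (hp.2 i)).2
    have h1 : ∀ i, pc h (s i) (x i * y i) ≠ 0 := fun i => right_ne_zero_of_mul
      (Finset.prod_ne_zero_iff.1 (left_ne_zero_of_mul hne) i (Finset.mem_univ i))
    rw [Finset.mem_sigma, Fintype.mem_piFinset, Fintype.mem_piFinset]
    refine ⟨fun i => Bd_pc hR (hs i).Y0 (hX i) (h1 i), fun i => ?_⟩
    exact (mem_dvs ((hxp i).mul (hyp i)).ne_zero).2 ⟨hxp i, dvd_mul_right _ _⟩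
  · rintro ⟨x, y⟩ hp _ ⟨x', y'⟩ hp' _ e
    rw [Finset.mem_product, Fintype.mem_piFinset, Fintype.mem_piFinset] at hp hp'
    simp only [Sigma.mk.injEq, heq_eq_eq] at e
    obtain ⟨e1, e2⟩ := e
    have e2' : x = x' := e2
    subst e2'
    have : y = y' := by
      funext i
      have h0 := (mem_primBall.1 (hp.1 i)).2.ne_zero
      have h1 : x i * y i = x i * y' i := congrFun e1 i
      exact mul_left_cancel₀ h0 h1
    rw [this]
  · rintro ⟨b, x⟩ hp hne
    rw [Finset.mem_sigma, Fintype.mem_piFinset, Fintype.mem_piFinset] at hp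
    obtain ⟨hb, hx⟩ := hp
    have hb' : ∀ i, b i ∈ primBall X := hb
    have hx' : ∀ i, x i ∈ dvs (b i) := hx
    have hbp : ∀ i, IsPrim (b i) := fun i => (mem_primBall.1 (hb' i)).2
    have hdiv : ∀ (i : ι) (d : Eis), d ∈ dvs (b i) → d ∈ primBall X := by
      intro i d hd
      rw [mem_primBall]
      refine ⟨?_, isPrim_of_mem_dvs hd⟩
      exact (nm_le_of_dvd' (hbp i).ne_zero (dvd_of_mem_dvs hd)).trans (mem_primBall.1 (hb' i)).1
    have hmul : ∀ i, x i * (b i / x i) = b i := fun i => mul_div_of_mem (hx' i)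
    refine ⟨(x, fun i => b i / x i), ?_, ?_, ?_⟩
    · rw [Finset.mem_product, Fintype.mem_piFinset, Fintype.mem_piFinset]
      exact ⟨fun i => hdiv i _ (hx' i), fun i => hdiv i _ (div_mem_dvs (hbp i) (hx' i))⟩
    · exact hne
    · simp only [hmul]
  · rintro ⟨x, y⟩ hp hne
    rw [Finset.mem_product, Fintype.mem_piFinset, Fintype.mem_piFinset] at hp
    have e : ∀ i, x i * y i / x i = y i := fun i =>
      mul_div_left' (mem_primBall.1 (hp.1 i)).2.ne_zero
    simp only [e]

/-! ### dilations -/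

open Classical in
/-- the dilation of a sequence -/
def dil (g : Eis) (β : Eis → ℂ) (n : Eis) : ℂ := if g ∣ n then β (n / g) else 0

lemma dil_mul {g : Eis} (hg : g ≠ 0) (β : Eis → ℂ) (m : Eis) : dil g β (g * m) = β m := by
  unfold dil
  rw [if_pos (dvd_mul_right g m), mul_div_cancel_left₀ _ hg]

lemma dil_of_not_dvd {g n : Eis} (h : ¬ g ∣ n) (β : Eis → ℂ) : dil g β n = 0 := by
  unfold dil
  rw [if_neg h]

lemma FS_dil {g : Eis} (hg : IsPrim g) {β : Eis → ℂ} (hβ : FS β) : FS (dil g β) where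
  fin := by
    refine (hβ.fin.image (fun m => g * m)).subset ?_
    intro n hn
    have hn' : dil g β n ≠ 0 := hn
    by_cases h : g ∣ n
    · obtain ⟨m, rfl⟩ := h
      rw [dil_mul hg.ne_zero] at hn'
      exact ⟨m, hn', rfl⟩
    · exact absurd (dil_of_not_dvd h β) hn'
  prim := fun n hn => by
    by_cases h : g ∣ n
    · obtain ⟨m, rfl⟩ := h
      rw [dil_mul hg.ne_zero] at hn
      exact hg.mul (hβ.prim m hn)
    · exact absurd (dil_of_not_dvd h β) hn

/-- sums against a dilation -/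
lemma tsum_dil {g : Eis} (hg : g ≠ 0) (β F : Eis → ℂ) :
    ∑' n, dil g β n * F n = ∑' m, β m * F (g * m) := by
  have hinj : Function.Injective (fun m : Eis => g * m) := fun a b h => mul_left_cancel₀ hg h
  have h1 : ∑' m, dil g β (g * m) * F (g * m) = ∑' n, dil g β n * F n := by
    refine hinj.tsum_eq (f := fun n => dil g β n * F n) ?_
    intro n hn
    have hn' : dil g β n * F n ≠ 0 := hn
    by_contra hcon
    have : ¬ g ∣ n := by
      rintro ⟨m, rfl⟩
      exact hcon ⟨m, rfl⟩
    rw [dil_of_not_dvd this, zero_mul] at hn'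
    exact hn' rfl
  rw [← h1]
  exact tsum_congr fun m => by rw [dil_mul hg]

/-! ### opening the weights -/

open Classical in
/-- the coefficients of the opened weight -/
def cM (z D0 : ℝ) (f : Bool) (x : Eis) : ℂ :=
  if f = true then (if Sm z x ∧ (nm x : ℝ) ≤ D0 then (muE x : ℂ) else 0)
  else (if x = 1 then 1 else 0)

lemma norm_cM_le (z D0 : ℝ) (f : Bool) (x : Eis) : ‖cM z D0 f x‖ ≤ 1 := by
  unfold cM
  split_ifs
  · exact Leg381.norm_muE_le x
  · simp
  · simp
  · simp

lemma cM_sm {z D0 : ℝ} {f : Bool} {x : Eis} (h : cM z D0 f x ≠ 0) : Sm z x := by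
  unfold cM at h
  split_ifs at h with h1 h2 h3
  · exact h2.1
  · exact absurd rfl h
  · rw [h3]; exact Sm_one z
  · exact absurd rfl h

lemma cM_le {z D0 : ℝ} (hD : 1 ≤ D0) {f : Bool} {x : Eis} (h : cM z D0 f x ≠ 0) :
    (nm x : ℝ) ≤ D0 := by
  unfold cM at h
  split_ifs at h with h1 h2 h3
  · exact h2.2
  · exact absurd rfl h
  · rw [h3]; simpa using hD
  · exact absurd rfl h

/-- the weight system -/
lemma wsy_cM (z D0 : ℝ) (f : ι → Bool) :
    WSy z D0 (fun i => fw z D0 (f i)) (fun i => cM z D0 (f i)) (fun _ _ => false) where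
  eq := by
    classical
    intro i m hm
    have e : ∀ d, fw z D0 false (m / d) = 1 := by intro d; unfold fw; simp
    simp only [e, mul_one]
    unfold fw cM
    cases f i with
    | true =>
      simp only [if_true]
      rfl
    | false =>
      simp only [Bool.false_eq_true, if_false]
      rw [Finset.sum_ite_eq' (dvs m) 1 (fun _ => (1 : ℂ)), if_pos]
      exact (mem_dvs hm.ne_zero).2 ⟨isPrim_one, one_dvd m⟩
  sm := fun i d h => cM_sm h

lemma alW_fw (z D0 : ℝ) (h : ℝ → ℝ) (s : ι → Pc) (f : ι → Bool) :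
    alW h s (fun i => fw z D0 (f i)) = alf z D0 h s f := rfl

lemma alf_false (z D0 : ℝ) (h : ℝ → ℝ) (s : ι → Pc) :
    alf z D0 h s (fun _ => false) = al h s := by
  unfold alf al
  congr 1
  funext i n
  unfold fpc fw
  simp

/-- **the opening**, against a test function -/
theorem sum_open {h : ℝ → ℝ} {R : ℝ} (hR : ∀ u, cx h u ≠ 0 → |u| ≤ R) {s : ι → Pc}
    (hs : ∀ i, (s i).OK) {X : ℕ} (hX : ∀ i, (s i).Y * Real.exp R ≤ X) (z D0 : ℝ)
    (f : ι → Bool) (q : Eis) (F : Eis → ℂ) :
    ∑' n, sqc q (alf z D0 h s f) n * F n =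
      ∑ x ∈ smT ι X z, Th q (∏ i, x i) * scS s x * (∏ i, cM z D0 (f i) (x i)) *
        ∑' m, sqc (q * ∏ i, x i) (al h (shS s x)) m * F ((∏ i, x i) * m) := by
  have h1 := sum_gen hR hs hX (wsy_cM z D0 f) q F
  rw [alW_fw] at h1
  rw [h1]
  refine Finset.sum_congr rfl fun x _ => ?_
  rw [alf_false]

/-- **the opening**, pointwise -/
theorem nt_open {h : ℝ → ℝ} {R : ℝ} (hR : ∀ u, cx h u ≠ 0 → |u| ≤ R) {s : ι → Pc}
    (hs : ∀ i, (s i).OK) {X : ℕ} (hX : ∀ i, (s i).Y * Real.exp R ≤ X) (z D0 : ℝ)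
    (f : ι → Bool) (q n : Eis) :
    sqc q (alf z D0 h s f) n =
      ∑ x ∈ smT ι X z, (Th q (∏ i, x i) * scS s x * (∏ i, cM z D0 (f i) (x i))) *
        dil (∏ i, x i) (sqc (q * ∏ i, x i) (al h (shS s x))) n := by
  classical
  have h1 := sum_open hR hs hX z D0 f q (fun m => if m = n then 1 else 0)
  have e1 : ∑' m, sqc q (alf z D0 h s f) m * (if m = n then (1 : ℂ) else 0) =
      sqc q (alf z D0 h s f) n := by
    rw [tsum_eq_single n]
    · simp
    · intro m hm
      rw [if_neg hm, mul_zero]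
  rw [e1] at h1
  rw [h1]
  refine Finset.sum_congr rfl fun x hx => ?_
  rw [mem_smT] at hx
  have hxp : IsPrim (∏ i, x i) := isPrim_prod fun i => (hx i).1.2
  congr 1
  rw [← tsum_dil hxp.ne_zero _ (fun m => if m = n then (1 : ℂ) else 0), tsum_eq_single n]
  · simp
  · intro m hm
    rw [if_neg hm, mul_zero]

end Crest.Agent.R017.NtC320
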