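import Crest.Agent.R017.NtC1_320
import Crest.Agent.R017.StA_828
import Crest.Agent.R017.E2h_440
import Crest.Agent.R017.FYpv_61

/-!
# Row 17, RG (helper320): dilations in the moment functional of E2

* `sub_dil`  : `sub (dil g γ) B = dil (g / (g, B)) (sub γ (B / (g, B)))`
* `sub_cT_dil`, `CS_sub_cT_dil` : the coefficients of the dual form of a dilated sequence
* `MoF_dil`  : `MoF (dil g γ) E B ≤ tau(g)^2 nm(g)^2 MoF γ (E (g, B)^2) (B / (g, B))`
-/

set_option autoImplicit false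
set_option linter.unusedSectionVars false
set_option linter.unusedVariables false

noncomputable section

open Complex
open scoped ComplexConjugate

namespace Crest.Agent.R017.NtC320

open Crest.Agent.R012 Crest.Agent.R012.Eis Crest.Agent.R012.Gauss880
open Crest.Agent.R012.Mob705 hiding pb mem_pb
open Crest.Agent.R012.LS2 (S mem_S)
open Crest.Agent.R012.Weight600 (osc norm_osc osc_add_right)
open Crest.Agent.R012.Div277 (tau dvs mem_dvs isPrim_of_mem_dvs dvd_of_mem_dvs tau_le_rpow)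
open Crest.Agent.R017.CM106 Crest.Agent.R017.HP842
open Crest.Agent.R017.StA828 (gp gp_spec)
open Crest.Agent.R017.H1401 (pb mem_pb)
open Crest.Agent.R017.E2440 (cT MoF MoF_nonneg)

/-- the cofactor of the primary gcd, on the dilation side -/
def cg (g B : Eis) : Eis := g / gp g B

/-- the cofactor of the primary gcd, on the argument side -/
def cB (g B : Eis) : Eis := B / gp g B

lemma gp_prim {g B : Eis} (hB : IsPrim B) : IsPrim (gp g B) := (gp_spec g hB).1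

lemma cB_prim {g B : Eis} (hB : IsPrim B) : IsPrim (cB g B) := (gp_spec g hB).2.1

lemma gp_cg {g B : Eis} (hB : IsPrim B) : gp g B * cg g B = g := (gp_spec g hB).2.2.1.symm

lemma gp_cB {g B : Eis} (hB : IsPrim B) : gp g B * cB g B = B := (gp_spec g hB).2.2.2.1.symm

lemma cg_prim {g B : Eis} (hg : IsPrim g) (hB : IsPrim B) : IsPrim (cg g B) := by
  have h1 := gp_cg (g := g) hB
  rw [mul_comm] at h1
  exact IsPrim.of_mul_left (by rw [mul_comm, h1]; exact hg) (gp_prim hB)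

lemma cop {g B : Eis} (hB : IsPrim B) : IsCoprime (cg g B) (cB g B) := (gp_spec g hB).2.2.2.2

lemma gp_dvd {g B : Eis} (hB : IsPrim B) : gp g B ∣ g := ⟨_, (gp_cg hB).symm⟩

lemma cg_dvd {g B : Eis} (hB : IsPrim B) : cg g B ∣ g :=
  ⟨gp g B, by rw [mul_comm]; exact (gp_cg hB).symm⟩

lemma gp_dvd_right {g B : Eis} (hB : IsPrim B) : gp g B ∣ B := ⟨_, (gp_cB hB).symm⟩

lemma cB_dvd {g B : Eis} (hB : IsPrim B) : cB g B ∣ B :=
  ⟨gp g B, by rw [mul_comm]; exact (gp_cB hB).symm⟩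

/-- **one step** -/
theorem sub_dil {g B : Eis} (hg : IsPrim g) (hB : IsPrim B) (γ : Eis → ℂ) :
    sub (dil g γ) B = dil (cg g B) (sub γ (cB g B)) := by
  funext n
  show dil g γ (B * n) = dil (cg g B) (fun m => γ (cB g B * m)) n
  have e1 := gp_cg (g := g) hB
  have e2 := gp_cB (g := g) hB
  have hc0 : gp g B ≠ 0 := (gp_prim hB).ne_zero
  have hg0 : cg g B ≠ 0 := (cg_prim hg hB).ne_zero
  by_cases h : cg g B ∣ n
  · obtain ⟨m, rfl⟩ := h
    have e3 : B * (cg g B * m) = g * (cB g B * m) := by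
      linear_combination (-(cg g B * m)) * e2 + (cB g B * m) * e1
    rw [dil_mul hg0, e3, dil_mul hg.ne_zero]
  · rw [dil_of_not_dvd h, dil_of_not_dvd]
    rintro ⟨k, hk⟩
    apply h
    have e3 : cB g B * n = cg g B * k := by
      apply mul_left_cancel₀ hc0
      linear_combination hk + n * e2 - k * e1
    exact (cop hB).dvd_of_dvd_mul_left ⟨k, e3⟩

/-! ### the twist -/

/-- the twist of the dual form -/
def tw (E B τ : Eis) (t : ℝ) (D : Eis) : ℂ :=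
  (sy E D * conj (sy D B)) * (sy τ D * osc t (-Real.log (nm D)))

lemma cT_eq (α : Eis → ℂ) (E B τ : Eis) (t : ℝ) (D : Eis) :
    cT α E B τ t D = sub α B D * tw E B τ t D := by
  unfold cT tw sub
  ring

lemma norm_tw_le {E B τ : Eis} {t : ℝ} {D : Eis} : ‖tw E B τ t D‖ ≤ 1 := by
  unfold tw
  rw [norm_mul, norm_mul, norm_mul, norm_osc, mul_one, RCLike.norm_conj]
  exact mul_le_one₀ (mul_le_one₀ (CF61.norm_sy_le _ _) (norm_nonneg _) (CF61.norm_sy_le _ _))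
    (norm_nonneg _) (CF61.norm_sy_le _ _)

lemma tw_mul {E B τ : Eis} (hB : IsPrim B) (t : ℝ) {D D' : Eis} (hD : IsPrim D)
    (hD' : IsPrim D') : tw E B τ t (D * D') = tw E B τ t D * tw E B τ t D' := by
  unfold tw
  rw [Sym645.syFacts.mul_right E D D' hD hD', Sym645.syFacts.mul_right τ D D' hD hD',
    Char766.sy_mul_left hB, map_mul, nm_mul]
  have h1 : ((nm D : ℕ) : ℝ) ≠ 0 := by
    have := nm_pos.2 hD.ne_zero
    positivity
  have h2 : ((nm D' : ℕ) : ℝ) ≠ 0 := by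
    have := nm_pos.2 hD'.ne_zero
    positivity
  have h3 : -Real.log ((nm D * nm D' : ℕ) : ℝ) = -Real.log (nm D) + -Real.log (nm D') := by
    rw [Nat.cast_mul, Real.log_mul h1 h2]; ring
  rw [h3, osc_add_right]
  ring

lemma tw_gcd {E c B τ : Eis} (hc : IsPrim c) (hB : IsPrim B) (t : ℝ) {D : Eis}
    (hD : IsPrim D) : tw E (c * B) τ t D = tw (E * c ^ 2) B τ t D := by
  unfold tw
  rw [Sym645.syFacts.mul_right D c B hc hB, Char766.sy_mul_left hD, map_mul,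
    Sym645.sy_reciprocity hD hc, Crest.Agent.R017.FY61.conj_sy_eq hD]
  ring


/-! ### the coefficients of the dual form -/

lemma dil_mul_left (g : Eis) (β ρ : Eis → ℂ) (hg : g ≠ 0) (n : Eis) :
    dil g β n * ρ n = dil g (fun m => β m * ρ (g * m)) n := by
  by_cases h : g ∣ n
  · obtain ⟨m, rfl⟩ := h
    rw [dil_mul hg, dil_mul hg]
  · rw [dil_of_not_dvd h, dil_of_not_dvd h, zero_mul]

lemma CS_dil {g : Eis} (hg : IsPrim g) {β : Eis → ℂ} (hβ : ∀ m, β m ≠ 0 → IsPrim m) (d : Eis) :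
    CS (dil g β) d = sy d g * CS β d := by
  unfold CS
  rw [tsum_dil hg.ne_zero β (fun m => sy d m), ← tsum_mul_left]
  refine tsum_congr fun m => ?_
  by_cases h : β m = 0
  · rw [h, zero_mul, zero_mul, mul_zero]
  · rw [Sym645.syFacts.mul_right d g m hg (hβ m h)]
    ring

/-- three successive gcds -/
def r1 (g B : Eis) : Eis := cg g B
def r2 (g B g₂ : Eis) : Eis := cg (cg g B) g₂
def r3 (g B g₂ g₃ : Eis) : Eis := cg (cg (cg g B) g₂) g₃

theorem sub_cT_dil {g B E τ : Eis} (hg : IsPrim g) (hB : IsPrim B) {γ : Eis → ℂ}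
    (hγ : ∀ m, γ m ≠ 0 → IsPrim m) (t : ℝ) {g₂ g₃ : Eis} (h₂ : IsPrim g₂) (h₃ : IsPrim g₃) :
    ∃ u : ℂ, ‖u‖ ≤ 1 ∧ sub (cT (dil g γ) E B τ t) (g₂ * g₃) =
      fun n => u * dil (cg (cg (cg g B) g₂) g₃)
        (sub (cT γ (E * gp g B ^ 2) (cB g B) τ t) (cB (cg g B) g₂ * cB (cg (cg g B) g₂) g₃)) n := by
  have p1 := cg_prim hg hB
  have p2 := cg_prim p1 h₂
  have p3 := cg_prim p2 h₃
  have q1 := cB_prim (g := g) hB
  have q2 := cB_prim (g := cg g B) h₂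
  have q3 := cB_prim (g := cg (cg g B) g₂) h₃
  have c1 := gp_prim (g := g) hB
  have c2 := gp_prim (g := cg g B) h₂
  have c3 := gp_prim (g := cg (cg g B) g₂) h₃
  set G := cg (cg (cg g B) g₂) g₃ with hG
  set b₂ := cB (cg g B) g₂ with hb₂
  set b₃ := cB (cg (cg g B) g₂) g₃ with hb₃
  set e₂ := gp (cg g B) g₂ with he₂
  set e₃ := gp (cg (cg g B) g₂) g₃ with he₃
  have s2 : e₂ * b₂ = g₂ := gp_cB h₂
  have s3 : e₃ * b₃ = g₃ := gp_cB h₃
  refine ⟨tw E B τ t (e₂ * e₃ * G), norm_tw_le, ?_⟩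
  funext n
  have hL : sub (cT (dil g γ) E B τ t) (g₂ * g₃) n =
      dil G (sub (sub (sub γ (cB g B)) b₂) b₃) n * tw E B τ t (g₂ * g₃ * n) := by
    show cT (dil g γ) E B τ t (g₂ * g₃ * n) = _
    rw [cT_eq, sub_dil hg hB]
    congr 1
    have e1 : dil (cg g B) (sub γ (cB g B)) (g₂ * g₃ * n) =
        sub (sub (dil (cg g B) (sub γ (cB g B))) g₂) g₃ n := by
      unfold sub; rw [mul_assoc]
    rw [e1, sub_dil p1 h₂, sub_dil p2 h₃]
  rw [hL]
  by_cases hn : G ∣ n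
  · obtain ⟨m, rfl⟩ := hn
    rw [dil_mul p3.ne_zero, dil_mul p3.ne_zero]
    have e2 : sub (cT γ (E * gp g B ^ 2) (cB g B) τ t) (b₂ * b₃) m =
        sub (sub (sub γ (cB g B)) b₂) b₃ m * tw (E * gp g B ^ 2) (cB g B) τ t (b₂ * b₃ * m) := by
      show cT γ (E * gp g B ^ 2) (cB g B) τ t (b₂ * b₃ * m) = _
      rw [cT_eq]
      unfold sub; rw [mul_assoc b₂ b₃ m]
    rw [e2]
    by_cases h0 : sub (sub (sub γ (cB g B)) b₂) b₃ m = 0
    · rw [h0]; ring
    · have hm : IsPrim m := by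
        have h1 : IsPrim (cB g B * (b₂ * (b₃ * m))) := hγ _ h0
        exact IsPrim.of_mul_left (IsPrim.of_mul_left (IsPrim.of_mul_left h1 q1) q2) q3
      have e3 : g₂ * g₃ * (G * m) = (e₂ * e₃ * G) * (b₂ * b₃ * m) := by
        rw [← s2, ← s3]; ring
      have e4 : tw E B τ t (b₂ * b₃ * m) = tw (E * gp g B ^ 2) (cB g B) τ t (b₂ * b₃ * m) := by
        conv_lhs => rw [← gp_cB (g := g) hB]
        exact tw_gcd c1 q1 t ((q2.mul q3).mul hm)
      rw [e3, tw_mul hB t ((c2.mul c3).mul p3) ((q2.mul q3).mul hm), e4]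
      ring
  · rw [dil_of_not_dvd hn, dil_of_not_dvd hn, zero_mul, mul_zero]

lemma CS_const_mul (u : ℂ) (β : Eis → ℂ) (d : Eis) : CS (fun n => u * β n) d = u * CS β d := by
  unfold CS
  rw [← tsum_mul_left]
  exact tsum_congr fun m => by ring

lemma cT_ne_prim {γ : Eis → ℂ} (hγ : ∀ m, γ m ≠ 0 → IsPrim m) {E B τ : Eis} (hB : IsPrim B)
    {t : ℝ} {h : Eis} (hh : IsPrim h) (m : Eis) (hm : sub (cT γ E B τ t) h m ≠ 0) : IsPrim m := by
  have h1 : cT γ E B τ t (h * m) ≠ 0 := hm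
  rw [cT_eq] at h1
  have h2 : IsPrim (B * (h * m)) := hγ _ (left_ne_zero_of_mul h1)
  exact IsPrim.of_mul_left (IsPrim.of_mul_left h2 hB) hh

theorem norm_CS_sub_cT_dil {g B E τ : Eis} (hg : IsPrim g) (hB : IsPrim B) {γ : Eis → ℂ}
    (hγ : ∀ m, γ m ≠ 0 → IsPrim m) (t : ℝ) {g₂ g₃ : Eis} (h₂ : IsPrim g₂) (h₃ : IsPrim g₃)
    (d : Eis) :
    ‖CS (sub (cT (dil g γ) E B τ t) (g₂ * g₃)) d‖ ≤
      ‖CS (sub (cT γ (E * gp g B ^ 2) (cB g B) τ t)
        (cB (cg g B) g₂ * cB (cg (cg g B) g₂) g₃)) d‖ := by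
  obtain ⟨u, hu, h⟩ := sub_cT_dil (E := E) (τ := τ) hg hB hγ t h₂ h₃
  have p1 := cg_prim hg hB
  have p2 := cg_prim p1 h₂
  have p3 := cg_prim p2 h₃
  have q1 := cB_prim (g := g) hB
  have q2 := cB_prim (g := cg g B) h₂
  have q3 := cB_prim (g := cg (cg g B) g₂) h₃
  rw [h, CS_const_mul, CS_dil p3 (fun m hm => cT_ne_prim hγ q1 (q2.mul q3) m hm), norm_mul,
    norm_mul]
  calc ‖u‖ * (‖sy d (cg (cg (cg g B) g₂) g₃)‖ * _)
      ≤ 1 * (1 * _) := by
        gcongr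
        exact CF61.norm_sy_le _ _
    _ = _ := by rw [one_mul, one_mul]


/-! ### the moment functional -/

/-- the counting lemma: `n ↦ ((g, n), n / (g, n))` is injective -/
lemma sum_cB_le {g : Eis} (hg : IsPrim g) {X : ℝ} (hX : 0 ≤ X) {F : Eis → ℝ}
    (hF : ∀ n, 0 ≤ F n) :
    ∑ n ∈ S X, F (cB g n) ≤ tau g * ∑ n ∈ S X, F n := by
  classical
  have h1 : ∑ n ∈ S X, F (cB g n) = ∑ c ∈ dvs g, ∑ n ∈ (S X).filter (fun n => gp g n = c),
      F (cB g n) := by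
    rw [Finset.sum_fiberwise_of_maps_to]
    intro n hn
    have hnp := ((mem_S hX).1 hn).2.1
    exact (mem_dvs hg.ne_zero).2 ⟨gp_prim hnp, gp_dvd hnp⟩
  rw [h1]
  have h2 : ∀ c ∈ dvs g, ∑ n ∈ (S X).filter (fun n => gp g n = c), F (cB g n) ≤
      ∑ n ∈ S X, F n := by
    intro c hc
    have hinj : Set.InjOn (fun n => cB g n) ((S X).filter (fun n => gp g n = c) : Set Eis) := by
      intro a ha b hb hab
      have ha' := Finset.mem_filter.1 (Finset.mem_coe.1 ha)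
      have hb' := Finset.mem_filter.1 (Finset.mem_coe.1 hb)
      have e1 := gp_cB (g := g) ((mem_S hX).1 ha'.1).2.1
      have e2 := gp_cB (g := g) ((mem_S hX).1 hb'.1).2.1
      have e3 : cB g a = cB g b := hab
      rw [← e1, ← e2, ha'.2, hb'.2, e3]
    rw [← Finset.sum_image (f := F) hinj]
    refine Finset.sum_le_sum_of_subset_of_nonneg ?_ fun n _ _ => hF n
    intro n hn
    rw [Finset.mem_image] at hn
    obtain ⟨a, ha, rfl⟩ := hn
    have ha' := (Finset.mem_filter.1 ha).1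
    obtain ⟨h3, h4, h5⟩ := (mem_S hX).1 ha'
    refine (mem_S hX).2 ⟨?_, cB_prim h4, h5.squarefree_of_dvd (cB_dvd h4)⟩
    have h6 : nm (cB g a) ≤ nm a := Div277.nm_le_of_dvd h4.ne_zero (cB_dvd h4)
    exact (by exact_mod_cast h6 : (nm (cB g a) : ℝ) ≤ nm a).trans h3
  refine (Finset.sum_le_sum h2).trans ?_
  rw [Finset.sum_const, nsmul_eq_mul]
  exact le_of_eq rfl

lemma tau_le_of_dvd {a b : Eis} (hb : b ≠ 0) (h : a ∣ b) : tau a ≤ tau b := by
  unfold tau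
  refine Finset.card_le_card fun d hd => ?_
  have ha : a ≠ 0 := by rintro rfl; exact hb (zero_dvd_iff.1 h)
  rw [mem_dvs ha] at hd
  exact (mem_dvs hb).2 ⟨hd.1, hd.2.trans h⟩

theorem MoF_dil {g B : Eis} (hg : IsPrim g) (hB : IsPrim B) {γ : Eis → ℂ}
    (hγ : ∀ m, γ m ≠ 0 → IsPrim m) (E τ : Eis) {X : ℝ} (hX : 0 ≤ X) (t Z : ℝ) :
    MoF (dil g γ) E B τ X t Z ≤ (tau g : ℝ) ^ 2 * (nm g : ℝ) ^ 2 *
      MoF γ (E * gp g B ^ 2) (B / gp g B) τ X t Z := by
  classical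
  -- the right functional, as a double sum
  set V : Eis → Eis → ℝ := fun a b => (nm a : ℝ) ^ 2 *
    ∑ d ∈ (pb Z).filter (fun d => a ^ 2 * b ^ 3 ∣ d),
      ‖CS (sub (cT γ (E * gp g B ^ 2) (cB g B) τ t) (a * b)) d‖ ^ 2 with hV
  have hV0 : ∀ a b, 0 ≤ V a b := fun a b =>
    mul_nonneg (by positivity) (Finset.sum_nonneg fun _ _ => by positivity)
  have e0 : MoF γ (E * gp g B ^ 2) (B / gp g B) τ X t Z = ∑ a ∈ S X, ∑ b ∈ S X, V a b := by
    unfold MoF
    rfl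
  rw [e0]
  have hng : ∀ n : Eis, 0 ≤ (nm n : ℝ) := fun n => Nat.cast_nonneg _
  -- termwise
  have hterm : ∀ g₂ ∈ S X, ∀ g₃ ∈ S X, (nm g₂ : ℝ) ^ 2 *
      ∑ d ∈ (pb Z).filter (fun d => g₂ ^ 2 * g₃ ^ 3 ∣ d),
        ‖CS (sub (cT (dil g γ) E B τ t) (g₂ * g₃)) d‖ ^ 2 ≤
      (nm g : ℝ) ^ 2 * V (cB (cg g B) g₂) (cB (cg (cg g B) g₂) g₃) := by
    intro g₂ hg₂ g₃ hg₃
    have h₂ := ((mem_S hX).1 hg₂).2.1
    have h₃ := ((mem_S hX).1 hg₃).2.1
    have p1 := cg_prim hg hB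
    have p2 := cg_prim p1 h₂
    rw [hV]
    show _ ≤ (nm g : ℝ) ^ 2 * ((nm (cB (cg g B) g₂) : ℝ) ^ 2 * _)
    rw [← mul_assoc]
    have h1 : (nm g₂ : ℝ) ^ 2 ≤ (nm g : ℝ) ^ 2 * (nm (cB (cg g B) g₂) : ℝ) ^ 2 := by
      rw [← mul_pow]
      refine pow_le_pow_left₀ (hng _) ?_ 2
      have h2 := gp_cB (g := cg g B) h₂
      have h3 : nm (gp (cg g B) g₂) ≤ nm g :=
        Div277.nm_le_of_dvd hg.ne_zero ((gp_dvd h₂).trans (cg_dvd hB))
      calc (nm g₂ : ℝ) = nm (gp (cg g B) g₂ * cB (cg g B) g₂) := by rw [h2]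
        _ = (nm (gp (cg g B) g₂) : ℝ) * nm (cB (cg g B) g₂) := by rw [nm_mul]; push_cast; rfl
        _ ≤ _ := by
          gcongr
    refine mul_le_mul h1 ?_ (Finset.sum_nonneg fun _ _ => by positivity) (by positivity)
    refine (Finset.sum_le_sum fun d _ => pow_le_pow_left₀ (norm_nonneg _)
      (norm_CS_sub_cT_dil hg hB hγ t h₂ h₃ d) 2).trans ?_
    refine Finset.sum_le_sum_of_subset_of_nonneg ?_ fun _ _ _ => by positivity
    intro d hd
    rw [Finset.mem_filter] at hd ⊢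
    exact ⟨hd.1, (mul_dvd_mul (pow_dvd_pow_of_dvd (cB_dvd h₂) 2)
      (pow_dvd_pow_of_dvd (cB_dvd h₃) 3)).trans hd.2⟩
  calc MoF (dil g γ) E B τ X t Z = ∑ g₂ ∈ S X, ∑ g₃ ∈ S X, (nm g₂ : ℝ) ^ 2 *
        ∑ d ∈ (pb Z).filter (fun d => g₂ ^ 2 * g₃ ^ 3 ∣ d),
          ‖CS (sub (cT (dil g γ) E B τ t) (g₂ * g₃)) d‖ ^ 2 := by
        unfold MoF
        rfl
    _ ≤ ∑ g₂ ∈ S X, ∑ g₃ ∈ S X, (nm g : ℝ) ^ 2 * V (cB (cg g B) g₂)
          (cB (cg (cg g B) g₂) g₃) :=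
        Finset.sum_le_sum fun a ha => Finset.sum_le_sum fun b hb => hterm a ha b hb
    _ ≤ ∑ g₂ ∈ S X, (nm g : ℝ) ^ 2 * (tau g * ∑ b ∈ S X, V (cB (cg g B) g₂) b) := by
        refine Finset.sum_le_sum fun a ha => ?_
        have h₂ := ((mem_S hX).1 ha).2.1
        have p1 := cg_prim hg hB
        have p2 := cg_prim p1 h₂
        rw [← Finset.mul_sum]
        refine mul_le_mul_of_nonneg_left ?_ (by positivity)
        refine (sum_cB_le p2 hX (F := fun b => V (cB (cg g B) a) b) fun b => hV0 _ _).trans ?_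
        refine mul_le_mul_of_nonneg_right ?_ (Finset.sum_nonneg fun _ _ => hV0 _ _)
        exact_mod_cast tau_le_of_dvd hg.ne_zero ((cg_dvd h₂).trans (cg_dvd hB))
    _ = (nm g : ℝ) ^ 2 * (tau g * ∑ g₂ ∈ S X, ∑ b ∈ S X, V (cB (cg g B) g₂) b) := by
        rw [← Finset.mul_sum, ← Finset.mul_sum]
    _ ≤ (nm g : ℝ) ^ 2 * (tau g * (tau g * ∑ a ∈ S X, ∑ b ∈ S X, V a b)) := by
        have p1 := cg_prim hg hB
        gcongr
        refine (sum_cB_le p1 hX (F := fun a => ∑ b ∈ S X, V a b)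
          fun a => Finset.sum_nonneg fun _ _ => hV0 _ _).trans ?_
        refine mul_le_mul_of_nonneg_right ?_
          (Finset.sum_nonneg fun _ _ => Finset.sum_nonneg fun _ _ => hV0 _ _)
        exact_mod_cast tau_le_of_dvd hg.ne_zero (cg_dvd hB)
    _ = _ := by ring


/-! ### linear combinations -/

lemma summable_fin {β : Eis → ℂ} (h : (Function.support β).Finite) (F : Eis → ℂ) :
    Summable (fun n => β n * F n) :=
  summable_of_hasFiniteSupport (h.subset fun n hn => by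
    intro h0
    apply hn
    show β n * F n = 0
    rw [h0, zero_mul])

lemma CS_sum {κ : Type*} (T : Finset κ) (c : κ → ℂ) {β : κ → Eis → ℂ}
    (hβ : ∀ x ∈ T, (Function.support (β x)).Finite) (d : Eis) :
    CS (fun n => ∑ x ∈ T, c x * β x n) d = ∑ x ∈ T, c x * CS (β x) d := by
  unfold CS
  have e1 : ∀ n, (∑ x ∈ T, c x * β x n) * sy d n = ∑ x ∈ T, c x * (β x n * sy d n) := by
    intro n
    rw [Finset.sum_mul]
    exact Finset.sum_congr rfl fun x _ => by ring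
  rw [tsum_congr e1, Summable.tsum_finsetSum fun x hx =>
    (summable_fin (hβ x hx) (fun n => sy d n)).mul_left _]
  exact Finset.sum_congr rfl fun x _ => tsum_mul_left

/-- Cauchy for a sum with coefficients of absolute value at most one -/
lemma sq_sum_le {κ : Type*} (T : Finset κ) (c : κ → ℂ) (hc : ∀ x ∈ T, ‖c x‖ ≤ 1) (a : κ → ℂ) :
    ‖∑ x ∈ T, c x * a x‖ ^ 2 ≤ T.card * ∑ x ∈ T, ‖a x‖ ^ 2 := by
  have h1 : ‖∑ x ∈ T, c x * a x‖ ≤ ∑ x ∈ T, ‖a x‖ := by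
    refine (norm_sum_le _ _).trans (Finset.sum_le_sum fun x hx => ?_)
    rw [norm_mul]
    exact mul_le_of_le_one_left (norm_nonneg _) (hc x hx)
  exact (pow_le_pow_left₀ (norm_nonneg _) h1 2).trans (sq_sum_le_card_mul_sum_sq)

lemma sub_cT_fin {γ : Eis → ℂ} (hγ : (Function.support γ).Finite) {E B τ : Eis} (hB : B ≠ 0)
    {t : ℝ} {h : Eis} (hh : h ≠ 0) : (Function.support (sub (cT γ E B τ t) h)).Finite := by
  have hinj : Function.Injective (fun m : Eis => B * (h * m)) := fun a b hab =>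
    mul_left_cancel₀ hh (mul_left_cancel₀ hB hab)
  refine (hγ.preimage hinj.injOn).subset fun n hn => ?_
  have h1 : cT γ E B τ t (h * n) ≠ 0 := hn
  rw [cT_eq] at h1
  exact left_ne_zero_of_mul h1

theorem MoF_sum {κ : Type*} (T : Finset κ) (c : κ → ℂ) (hc : ∀ x ∈ T, ‖c x‖ ≤ 1)
    {β : κ → Eis → ℂ} (hβ : ∀ x ∈ T, (Function.support (β x)).Finite) {E B τ : Eis}
    (hB : B ≠ 0) {X : ℝ} (hX : 0 ≤ X) (t Z : ℝ) :
    MoF (fun n => ∑ x ∈ T, c x * β x n) E B τ X t Z ≤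
      T.card * ∑ x ∈ T, MoF (β x) E B τ X t Z := by
  classical
  unfold MoF
  rw [Finset.sum_comm (s := T), Finset.mul_sum]
  refine Finset.sum_le_sum fun g₂ hg₂ => ?_
  rw [Finset.sum_comm (s := T), Finset.mul_sum]
  refine Finset.sum_le_sum fun g₃ hg₃ => ?_
  have h₂ := ((mem_S hX).1 hg₂).2.1.ne_zero
  have h₃ := ((mem_S hX).1 hg₃).2.1.ne_zero
  rw [← Finset.mul_sum, mul_left_comm]
  refine mul_le_mul_of_nonneg_left ?_ (by positivity)
  rw [Finset.sum_comm (s := T), Finset.mul_sum]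
  refine Finset.sum_le_sum fun d _ => ?_
  have e1 : sub (cT (fun n => ∑ x ∈ T, c x * β x n) E B τ t) (g₂ * g₃) =
      fun n => ∑ x ∈ T, c x * sub (cT (β x) E B τ t) (g₂ * g₃) n := by
    funext n
    show cT _ E B τ t (g₂ * g₃ * n) = ∑ x ∈ T, c x * cT (β x) E B τ t (g₂ * g₃ * n)
    simp only [cT_eq, sub, Finset.sum_mul]
    exact Finset.sum_congr rfl fun x _ => by ring
  rw [e1, CS_sum T c (fun x hx => sub_cT_fin (hβ x hx) hB (mul_ne_zero h₂ h₃))]
  exact sq_sum_le T c hc _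

end Crest.Agent.R017.NtC320
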