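import Crest.Agent.R017.TJbe_180
import Crest.Agent.R017.NEd_180
import Crest.Agent.R017.TNj_90
import Crest.Agent.R017.E2Xa_764

/-!
# Row 17, FlatNE (helper180): the cross number from joint blocks with level weights, be level

* `TJS_be` : 146's T-functional with the adapted weight at `be` from 90's `JBc`
* `NumRg`  : the R-number at `be`, level weights
* **`num2_of`** : `Num2` from `JBc` and `NumRg` (764's `E2Gx`)
-/

set_option autoImplicit false
set_option linter.unusedVariables false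

noncomputable section

open Complex MeasureTheory
open scoped ComplexConjugate Classical

namespace Crest.Agent.R017.NEc180

open Crest.Agent.R012 Crest.Agent.R012.Eis Crest.Agent.R012.MC
open Crest.Agent.R012.LS2 (S mem_S)
open Crest.Agent.R012.Weight600 (osc pw)
open Crest.Agent.R017.CM106 (CS FS TG)
open Crest.Agent.R017.E1551 (Adm yv yv_pos)
open Crest.Agent.R017.C70 (JW okJ_JW)
open Crest.Agent.R017.E2440 (TE StE Fh)
open Crest.Agent.R017.X6C180 (n13 n13_nonneg GF)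
open Crest.Agent.R017.I1146 (omr TJ cG cG_nonneg RW RPg LipS rhoS rw_rhoS yv_exp)
open Crest.Agent.R017.WDec180 (WD sc sc_pos E2e)
open Crest.Agent.R017.Win813 (WK)
open Crest.Agent.R017.RGw813 (T9 bt)
open Crest.Agent.R017.LBo813 (Om Om_nonneg Om_le_one)
open Crest.Agent.R017.NE499 (adm_mz)
open Crest.Agent.R017.TNj90 (JBc)
open Crest.Agent.R017.TJbe180 (TJ_be)

/-- **the T-functional with the adapted weight** at `be`, from joint numbers -/
theorem TJS_be {J Aw A : ℕ} (hA : J + 2 ≤ A) (hJA : J + 2 ≤ Aw) {R Cw ε L : ℝ} (hR : 0 ≤ R)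
    (hCw : 0 ≤ Cw) (hε : 0 < ε) (hL : 0 ≤ L) : ∃ C : ℝ, 0 ≤ C ∧
    ∀ (P K X X' Y η D Y₀ Z E0 Tg Fn : ℝ) (Sh : ℝ → ℝ → ℝ → ℝ) (α : Eis → ℂ), 1 ≤ P → 0 < K →
      0 < X → 0 < X' → |Real.log X' - Real.log X| ≤ R + 1 → 1 ≤ Y → Y ≤ P → 9 * Z ≤ P →
      0 < η → η ≤ 1 → 0 < E0 → 0 ≤ Fn → LipS L Sh → (∀ n, α n ≠ 0 → n ∈ S Y) →
      JBc Y (9 * Z) Fn ((J : ℕ) : ℝ) Sh α →
      ∀ p ∈ T9, ∀ φ : ℝ → ℝ, WK Cw η Aw φ → ∀ t : ℝ,
        TJ (cG (rhoS Tg (Real.log K) Sh) E0) A K X' Y (JW D Y₀ Z)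
          (fun n => bt φ α p n * pw t (nm n)) ≤
          C * (η⁻¹) ^ J * P ^ ε * (Fn * Real.exp (Tg + 2 / 3 * Real.log X)) * (1 + |t|) ^ J := by
  obtain ⟨C, hC, H⟩ := TJ_be hA hJA hR hCw hε (m := Real.exp (26 * (1 + L))) (Real.exp_pos _).le
  refine ⟨C * Real.exp (1 + L + L * 3), by positivity, ?_⟩
  intro P K X X' Y η D Y₀ Z E0 Tg Fn Sh α hP hK hX hX' hXX hY hYP hZP hη hη1 hE0 hFn hLip hα
    hJB p hp φ hφ t
  have hY0 : 0 < Y := by linarith
  set κ := Real.log K with hκ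
  set n := Real.log X with hn
  have hXn : X = Real.exp n := (Real.exp_log hX).symm
  have hrw := rw_rhoS hLip hL Tg κ
  have hl2 : Real.log 2 ≤ 1 := by
    have := Real.log_two_lt_d9
    linarith
  have key := H P K X X' Y η D Y₀ Z (Real.exp (1 + L + L * 3) *
      (Fn * Real.exp (Tg + 2 / 3 * n))) α hP hK hX hX' hXX hY hYP hZP hη hη1 (by positivity) hα
    (cG (rhoS Tg κ Sh) E0) (cG_nonneg hrw E0)
    (fun δ e r r' hr hr' h1 h2 => by
      have hr0 : (0 : ℝ) < nm r := by exact_mod_cast nm_pos.2 hr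
      have hr0' : (0 : ℝ) < nm r' := by exact_mod_cast nm_pos.2 hr'
      have h1' : (nm r' : ℝ) ≤ 9 * nm r := by exact_mod_cast h1
      have h2' : (nm r : ℝ) ≤ 27 * nm r' := by exact_mod_cast h2
      have k1 : Real.log (nm r') ≤ 26 + Real.log (nm r) := by
        have h3 := Real.log_le_log hr0' h1'
        rw [Real.log_mul (by norm_num) hr0.ne'] at h3
        have h4 := Real.log_le_sub_one_of_pos (x := 9) (by norm_num)
        linarith
      have k2 : Real.log (nm r) ≤ 26 + Real.log (nm r') := by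
        have h3 := Real.log_le_log hr0 h2'
        rw [Real.log_mul (by norm_num) hr0'.ne'] at h3
        have h4 := Real.log_le_sub_one_of_pos (x := 27) (by norm_num)
        linarith
      unfold I1146.cG
      by_cases he : e ∈ S E0
      · rw [if_pos he, if_pos he]
        unfold I1146.rhoS
        rw [← Real.exp_add]
        refine Real.exp_le_exp.2 ?_
        have h3 := hLip (Real.log (nm δ)) (Real.log (nm e)) (Real.log (nm r'))
          (Real.log (nm e)) (Real.log (nm r))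
        rw [sub_self, abs_zero, zero_add] at h3
        have h4 : |Real.log (nm r') - Real.log (nm r)| ≤ 26 := by
          rw [abs_le]; constructor <;> linarith
        have h5 := mul_le_mul_of_nonneg_left h4 hL
        show Tg + (κ + Real.log (nm r)) / 3 - 4 / 3 * Real.log (nm δ) -
          Sh (Real.log (nm δ)) (Real.log (nm e)) (Real.log (nm r)) ≤ 26 * (1 + L) +
          (Tg + (κ + Real.log (nm r')) / 3 - 4 / 3 * Real.log (nm δ) -
          Sh (Real.log (nm δ)) (Real.log (nm e)) (Real.log (nm r')))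
        linarith
      · rw [if_neg he, if_neg he, mul_zero])
    (fun δ B V => if Real.log B ≤ Real.log E0 + 1 then
      Real.exp (1 + L + L * 3) * Real.exp (Tg + (κ + Real.log V) / 3 - 4 / 3 * Real.log (nm δ) -
        Sh (Real.log (nm δ)) (Real.log B) (Real.log V)) else 0)
    (fun δ B V => by
      split_ifs
      · positivity
      · exact le_rfl)
    (fun δ hδ t ht j hj B V hB1 hB2 hV1 hV2 => by
      have htp := ((mem_S hY0.le).1 ht).2.1
      have ht0 : (0 : ℝ) < nm t := by exact_mod_cast nm_pos.2 htp.ne_zero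
      have hj0 : (0 : ℝ) < nm j := by exact_mod_cast nm_pos.2 hj
      unfold I1146.cG
      by_cases hE : t ∈ S E0
      swap
      · rw [if_neg hE]
        split_ifs
        · positivity
        · exact le_rfl
      rw [if_pos hE]
      have htE := ((mem_S hE0.le).1 hE).1
      have hbt : Real.log (nm t) ≤ Real.log B := Real.log_le_log ht0 hB1
      have hbt2 : Real.log B ≤ Real.log (nm t) + Real.log 2 := by
        rw [← Real.log_mul ht0.ne' (by norm_num)]
        exact Real.log_le_log (ht0.trans_le hB1) (by linarith)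
      have hvt : Real.log (nm j) ≤ Real.log V := Real.log_le_log hj0 hV1
      have hvt2 : Real.log V ≤ Real.log (nm j) + Real.log 2 := by
        rw [← Real.log_mul hj0.ne' (by norm_num)]
        exact Real.log_le_log (hj0.trans_le hV1) (by linarith)
      have hlE : Real.log (nm t) ≤ Real.log E0 := Real.log_le_log ht0 htE
      rw [if_pos (by linarith)]
      unfold I1146.rhoS
      rw [← Real.exp_add]
      refine Real.exp_le_exp.2 ?_
      have h3 := hLip (Real.log (nm δ)) (Real.log B) (Real.log V) (Real.log (nm t))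
        (Real.log (nm j))
      rw [abs_of_nonneg (by linarith), abs_of_nonneg (by linarith)] at h3
      have h5 : L * (Real.log B - Real.log (nm t) + (Real.log V - Real.log (nm j))) ≤ L * 2 :=
        mul_le_mul_of_nonneg_left (by linarith) hL
      show Tg + (κ + Real.log (nm j)) / 3 - 4 / 3 * Real.log (nm δ) -
        Sh (Real.log (nm δ)) (Real.log (nm t)) (Real.log (nm j)) ≤ _
      linarith)
    (fun δ hδ B V hB1 hB2 hV1 hV2 t => by
      obtain ⟨h2, h1, -⟩ := (mem_S hY0.le).1 hδ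
      have hδn : (0 : ℝ) < nm δ := by exact_mod_cast nm_pos.2 h1.ne_zero
      have hV0 : 0 < V := by linarith
      have hB0 : 0 < B := by linarith
      by_cases hBE : Real.log B ≤ Real.log E0 + 1
      swap
      · rw [if_neg hBE]
        simp only [zero_mul]
        positivity
      rw [if_pos hBE]
      have h5 := hJB δ hδ B V hB1 hB2 hV1 hV2 t
      rw [Real.rpow_natCast] at h5
      set s₀ := Sh (Real.log (nm δ)) (Real.log B) (Real.log V) with hs₀
      have hyv : nm δ * (E1551.yv K X δ V)⁻¹ =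
          Real.exp (Real.log (nm δ) - ((κ + Real.log V) / 3 -
            2 / 3 * (n - Real.log (nm δ)))) := by
        rw [hXn, yv_exp hK hV0 n h1.ne_zero, ← Real.exp_neg]
        calc (nm δ : ℝ) * Real.exp (-((Real.log K + Real.log V) / 3 -
              2 / 3 * (n - Real.log (nm δ)))) =
              Real.exp (Real.log (nm δ)) * Real.exp (-((Real.log K + Real.log V) / 3 -
              2 / 3 * (n - Real.log (nm δ)))) := by rw [Real.exp_log hδn]
          _ = _ := by rw [← Real.exp_add, hκ]; congr 1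
      have h8 : Real.exp (Tg + (κ + Real.log V) / 3 - 4 / 3 * Real.log (nm δ) - s₀) *
          (nm δ * (E1551.yv K X δ V)⁻¹) * Real.exp s₀ =
          Real.exp (Tg + 2 / 3 * n) / nm δ := by
        rw [hyv, ← Real.exp_add, ← Real.exp_add]
        have e1 : Real.exp (Tg + 2 / 3 * n) / nm δ =
            Real.exp (Tg + 2 / 3 * n - Real.log (nm δ)) := by
          rw [Real.exp_sub, Real.exp_log hδn]
        rw [e1]
        congr 1
        ring
      have hyn : 0 ≤ nm δ * (E1551.yv K X δ V)⁻¹ := by rw [hyv]; positivity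
      calc Real.exp (1 + L + L * 3) * Real.exp (Tg + (κ + Real.log V) / 3 -
            4 / 3 * Real.log (nm δ) - s₀) * (nm δ * (E1551.yv K X δ V)⁻¹) *
            E1551.JB Y α (fun _ => True) δ B V t ≤
          Real.exp (1 + L + L * 3) * Real.exp (Tg + (κ + Real.log V) / 3 -
            4 / 3 * Real.log (nm δ) - s₀) * (nm δ * (E1551.yv K X δ V)⁻¹) *
            (Fn * Real.exp s₀ * (1 + |t|) ^ J) :=
            mul_le_mul_of_nonneg_left h5 (by positivity)
        _ = Real.exp (1 + L + L * 3) * ((Real.exp (Tg + (κ + Real.log V) / 3 -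
              4 / 3 * Real.log (nm δ) - s₀) *
              (nm δ * (E1551.yv K X δ V)⁻¹) * Real.exp s₀) * Fn) * (1 + |t|) ^ J := by ring
        _ = _ := by rw [h8]; ring) p hp φ hφ t
  refine key.trans (le_of_eq (by ring))

/-- **the R-number of the cross error at `be`**, level weights `ρ` -/
def NumRg (N : ℕ) (M : ℝ) (F : ℕ → ℝ → ℂ) (Cw η : ℝ) (Aw : ℕ) (K X : ℝ) (R : ℝ) (J : ℕ)
    (D E0 h : ℝ) (N₁ I : ℕ) (ρ : Eis → Eis → ℝ → ℝ) (α : Eis → ℂ) (Rg : ℝ) : Prop :=
  ∀ p ∈ T9, ∀ (t X' : ℝ) (φ : ℝ → ℝ), 0 < X' → |Real.log X' - Real.log X| ≤ R + 1 →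
    WK Cw η Aw φ → (∀ u, φ u ≠ 0 → |u - Real.log X'| ≤ η / 2) →
    ∑ i ∈ Finset.range N, RPg ρ (fun n => bt φ α p n * pw t (nm n)) (sc K M i)
      (GF (Fh (F i) h)) (S D) I E0 N₁ ≤ (K / X) * (Rg * (1 + |t|) ^ J)

/-- **the compensated cross number at `be`** from joint numbers and the R-number -/
theorem num2_of {w : ℝ → ℝ} {N : ℕ} {M : ℝ} {F : ℕ → ℝ → ℂ} (hD : WD w N M F)
    {Cw R ε L : ℝ} {Aw J : ℕ} (hCw : 0 ≤ Cw) (hR : 0 ≤ R) (hε : 0 < ε) (hJA : J + 2 ≤ Aw)
    (hL : 0 ≤ L) : ∃ C : ℝ, 0 ≤ C ∧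
    ∀ (K X Y D E0 h η Tg Fn : ℝ) (N₁ I : ℕ) (Sh : ℝ → ℝ → ℝ → ℝ), 0 < K → 0 < X → 1 ≤ Y →
      0 ≤ D → 0 < E0 → 1 ≤ N₁ → (N₁ : ℝ) ≤ Y → 0 < η → η ≤ 1 → 0 ≤ Fn → LipS L Sh →
      ∀ α : Eis → ℂ, (∀ n, α n ≠ 0 → n ∈ S Y) → JBc Y (9 * N₁) Fn ((J : ℕ) : ℝ) Sh α →
      ∀ Rg : ℝ, NumRg N M F Cw η Aw K X R J D E0 h N₁ I (rhoS Tg (Real.log K) Sh) α Rg →
      Num2 N M F Cw η Aw K X R J D E0 h N₁ I α
        (C * (η⁻¹) ^ J * Y ^ ε * (Fn * Real.exp (Tg + 2 / 3 * Real.log X)) + Rg) := by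
  obtain ⟨C₁, hC₁, H₁⟩ := TJS_be (J := J) (Aw := Aw) (A := J + 2) le_rfl hJA hR hCw hε hL
  obtain ⟨C₃, hC₃, H₃⟩ := I1K764.E2Gx hD 1 zero_le_one (J + 2) (by omega)
    (c := Real.exp (1 + L)) (Real.exp_pos _).le
  have h9 : (0 : ℝ) ≤ 9 ^ ε := by positivity
  set r := Real.exp (R + 1) with hr
  refine ⟨C₃ * r * (C₁ * 9 ^ ε), by positivity, ?_⟩
  intro K X Y D E0 h η Tg Fn N₁ I Sh hK hX hY hD0 hE0 hN₁ hNY hη hη1 hFn hLip α hα hJB Rg hRg
    p hp t X' φ hX' hXX hφ hφs
  have hY0 : 0 < Y := by linarith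
  have hN1 : (1 : ℝ) ≤ N₁ := by exact_mod_cast hN₁
  have hZ0 : (0 : ℝ) < N₁ := by linarith
  have hadm : Adm Y X' 1 (fun n => bt φ α p n * pw t (nm n)) :=
    adm_mz hη1 (RGw813.adm_bt hφs hα p t)
  have s1 := H₁ (9 * Y) K X X' Y η D (1 / 10) N₁ E0 Tg Fn Sh α (by linarith) hK hX hX' hXX hY
    (by linarith) (by linarith) hη hη1 hE0 hFn hLip hα hJB p hp φ hφ t
  have s2 := hRg p hp t X' φ hX' hXX hφ hφs
  have hom : ∀ x, ‖omr (Om (N₁ / 2) N₁) x‖ ≤ 1 := by
    intro x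
    unfold I1146.omr
    rw [Complex.norm_real, Real.norm_eq_abs, abs_of_nonneg (Om_nonneg _ _ _)]
    exact Om_le_one _ _ _
  have s3 := H₃ (rhoS Tg (Real.log K) Sh) (rw_rhoS hLip hL Tg (Real.log K)) Y X' K D (1 / 10) N₁
    E0 h I hY0.le hX' hK hD0 hZ0 hE0.le _ hadm (omr (Om (N₁ / 2) N₁)) hom
  refine s3.trans ?_
  have hXr : X ≤ r * X' := by
    have h1 : Real.log X ≤ Real.log X' + (R + 1) := by linarith [(abs_le.mp hXX).1]
    calc X = Real.exp (Real.log X) := (Real.exp_log hX).symm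
      _ ≤ Real.exp (Real.log X' + (R + 1)) := Real.exp_le_exp.mpr h1
      _ = r * X' := by rw [Real.exp_add, Real.exp_log hX', mul_comm]
  have hKX : K / X' ≤ r * (K / X) := by
    rw [← mul_div_assoc, div_le_div_iff₀ hX' hX]
    nlinarith [mul_le_mul_of_nonneg_left hXr hK.le]
  have hKX0 : 0 ≤ K / X' := by positivity
  have e9 : (9 * Y) ^ ε = 9 ^ ε * Y ^ ε := Real.mul_rpow (by norm_num) hY0.le
  rw [e9] at s1
  generalize (fun n => bt φ α p n * pw t (nm n)) = β at s1 s2 s3 ⊢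
  have hHj : 0 ≤ (η⁻¹) ^ J := by positivity
  have hU0 : 0 ≤ C₁ * (η⁻¹) ^ J * (9 ^ ε * Y ^ ε) *
      (Fn * Real.exp (Tg + 2 / 3 * Real.log X)) * (1 + |t|) ^ J := by positivity
  calc C₃ * (K / X') * TJ (cG (rhoS Tg (Real.log K) Sh) E0) ((J + 2 : ℕ) : ℝ) K X' Y
        (JW D (1 / 10) N₁) β + ∑ i ∈ Finset.range N, RPg (rhoS Tg (Real.log K) Sh) β
          (sc K M i) (GF (Fh (F i) h)) (S D) I E0 N₁ ≤
      C₃ * (r * (K / X)) * (C₁ * (η⁻¹) ^ J * (9 ^ ε * Y ^ ε) *
        (Fn * Real.exp (Tg + 2 / 3 * Real.log X)) * (1 + |t|) ^ J) +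
        (K / X) * (Rg * (1 + |t|) ^ J) := by
        refine add_le_add ?_ s2
        calc C₃ * (K / X') * TJ (cG (rhoS Tg (Real.log K) Sh) E0) ((J + 2 : ℕ) : ℝ) K X' Y
              (JW D (1 / 10) N₁) β ≤ C₃ * (K / X') * (C₁ * (η⁻¹) ^ J * (9 ^ ε * Y ^ ε) *
                (Fn * Real.exp (Tg + 2 / 3 * Real.log X)) * (1 + |t|) ^ J) :=
              mul_le_mul_of_nonneg_left s1 (by positivity)
          _ ≤ _ := mul_le_mul_of_nonneg_right (mul_le_mul_of_nonneg_left hKX hC₃) hU0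
    _ = _ := by ring

end Crest.Agent.R017.NEc180
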