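import Crest.Agent.R017.ExpRules_911

/-!
# Row 17, section D: zero lumps may be deleted (helper59)

`rz r κ Y m a = r κ (Y without zeros) m a`. The rules hold for `rz r, rz s`, so a theorem on the
sides `{y₁, y₂ | m, a}` gives, for `y₂ = 0`, the sides `{y₁ | m, a}` and `{ | m, a}`.
-/

set_option autoImplicit false

namespace Crest.Agent.R017.Nz59

open Crest.Agent.R017.ER911

/-- the nonzero lumps -/
noncomputable def nz (Y : Multiset ℝ) : Multiset ℝ := Y.filter (· ≠ 0)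

/-- the exponent function with the zero lumps deleted -/
noncomputable def rz (r : EF) : EF := fun κ Y m a => r κ (nz Y) m a

theorem nz_zero : nz 0 = 0 := rfl

theorem nz_cons_zero (Y : Multiset ℝ) : nz (0 ::ₘ Y) = nz Y := by
  unfold nz; rw [Multiset.filter_cons]; simp

theorem nz_cons {y : ℝ} (hy : y ≠ 0) (Y : Multiset ℝ) : nz (y ::ₘ Y) = y ::ₘ nz Y := by
  unfold nz; exact Multiset.filter_cons_of_pos _ hy

theorem nz_add (Y Z : Multiset ℝ) : nz (Y + Z) = nz Y + nz Z := by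
  unfold nz; exact Multiset.filter_add _ _ _

theorem nz_sum (Y : Multiset ℝ) : (nz Y).sum = Y.sum := by
  induction Y using Multiset.induction_on with
  | empty => rfl
  | cons y Y ih =>
    rcases eq_or_ne y 0 with rfl | h
    · rw [nz_cons_zero, Multiset.sum_cons, ih, zero_add]
    · rw [nz_cons h, Multiset.sum_cons, Multiset.sum_cons, ih]

theorem nz_nz (Y : Multiset ℝ) : nz (nz Y) = nz Y := by
  unfold nz; rw [Multiset.filter_filter]; simp

theorem mem_nz {y : ℝ} {Y : Multiset ℝ} : y ∈ nz Y ↔ y ∈ Y ∧ y ≠ 0 := by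
  unfold nz; exact Multiset.mem_filter

theorem nz_eq_self {Y : Multiset ℝ} (h : ∀ y ∈ Y, y ≠ 0) : nz Y = Y := by
  unfold nz; exact Multiset.filter_eq_self.2 h

theorem ok_nz {Y : Multiset ℝ} {m a : ℝ} (h : Ok Y m a) : Ok (nz Y) m a :=
  ⟨fun y hy => h.1 y (mem_nz.1 hy).1, h.2⟩

/-- a shortening of the nonzero lumps extends to a shortening of all lumps -/
theorem sh_ext {Y'' Y : Multiset ℝ} (h : Sh Y'' (nz Y)) :
    ∃ Y' : Multiset ℝ, Sh Y' Y ∧ nz Y' = nz Y'' ∧ Y'.sum = Y''.sum ∧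
      ∀ y ∈ Y', y ∈ Y'' ∨ y = 0 := by
  induction Y using Multiset.induction_on generalizing Y'' with
  | empty =>
    have h0 : Y'' = 0 := Sh.zero h
    exact ⟨0, Multiset.Rel.zero, by rw [h0], by rw [h0], fun y hy => by simp at hy⟩
  | cons y Y ih =>
    rcases eq_or_ne y 0 with rfl | hy
    · rw [nz_cons_zero] at h
      obtain ⟨Y', h1, h2, h3, h4⟩ := ih h
      refine ⟨0 ::ₘ Y', Sh.cons le_rfl le_rfl h1, by rw [nz_cons_zero, h2], ?_, ?_⟩
      · rw [Multiset.sum_cons, h3, zero_add]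
      · intro z hz
        rcases Multiset.mem_cons.1 hz with rfl | hz
        · exact Or.inr rfl
        · exact h4 z hz
    · rw [nz_cons hy] at h
      obtain ⟨a, Z, rfl, ha0, ha1, hZ⟩ := Sh.of_cons h
      obtain ⟨Y', h1, h2, h3, h4⟩ := ih hZ
      refine ⟨a ::ₘ Y', Sh.cons ha0 ha1 h1, ?_, ?_, ?_⟩
      · rcases eq_or_ne a 0 with rfl | ha
        · rw [nz_cons_zero, nz_cons_zero, h2]
        · rw [nz_cons ha, nz_cons ha, h2]
      · rw [Multiset.sum_cons, Multiset.sum_cons, h3]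
      · intro z hz
        rcases Multiset.mem_cons.1 hz with rfl | hz
        · exact Or.inl (Multiset.mem_cons_self _ _)
        · rcases h4 z hz with h | h
          · exact Or.inl (Multiset.mem_cons_of_mem h)
          · exact Or.inr h

variable {θ : ℝ} {r s : EF}

theorem r_le_nz (R : ExpRules θ r s) {κ m a : ℝ} (hκ : 0 ≤ κ) {Y : Multiset ℝ} (h : Ok Y m a) :
    r κ Y m a ≤ r κ (nz Y) m a := by
  obtain ⟨h1, h2⟩ := h
  have key : ∀ Z : Multiset ℝ, (∀ y ∈ Z, 0 ≤ y) → ∀ W : Multiset ℝ, (∀ y ∈ W, 0 ≤ y) →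
      r κ (Z + W) m a ≤ r κ (nz Z + W) m a := by
    intro Z
    induction Z using Multiset.induction_on with
    | empty => intro _ W _; exact le_rfl
    | cons y Z ih =>
      intro hZ W hW
      have hZ' : ∀ x ∈ Z, 0 ≤ x := fun x hx => hZ x (Multiset.mem_cons_of_mem hx)
      have hsum : ∀ x ∈ Z + W, 0 ≤ x := fun x hx => by
        rcases Multiset.mem_add.1 hx with h | h
        · exact hZ' x h
        · exact hW x h
      rcases eq_or_ne y 0 with rfl | hy
      · rw [nz_cons_zero, Multiset.cons_add]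
        exact (R.zero κ _ m a hκ ⟨hsum, h2⟩).trans (ih hZ' W hW)
      · rw [nz_cons hy, Multiset.cons_add, Multiset.cons_add, ← Multiset.add_cons,
          ← Multiset.add_cons]
        refine ih hZ' (y ::ₘ W) fun x hx => ?_
        rcases Multiset.mem_cons.1 hx with rfl | hx
        · exact hZ _ (Multiset.mem_cons_self _ _)
        · exact hW x hx
  have := key Y h1 0 (by simp)
  simpa using this

theorem s_le_nz (R : ExpRules θ r s) {κ m a : ℝ} (hκ : 0 ≤ κ) {Y : Multiset ℝ} (h : Ok Y m a) :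
    s κ Y m a ≤ s κ (nz Y) m a := by
  obtain ⟨h1, h2⟩ := h
  have key : ∀ Z : Multiset ℝ, (∀ y ∈ Z, 0 ≤ y) → ∀ W : Multiset ℝ, (∀ y ∈ W, 0 ≤ y) →
      s κ (Z + W) m a ≤ s κ (nz Z + W) m a := by
    intro Z
    induction Z using Multiset.induction_on with
    | empty => intro _ W _; exact le_rfl
    | cons y Z ih =>
      intro hZ W hW
      have hZ' : ∀ x ∈ Z, 0 ≤ x := fun x hx => hZ x (Multiset.mem_cons_of_mem hx)
      have hsum : ∀ x ∈ Z + W, 0 ≤ x := fun x hx => by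
        rcases Multiset.mem_add.1 hx with h | h
        · exact hZ' x h
        · exact hW x h
      rcases eq_or_ne y 0 with rfl | hy
      · rw [nz_cons_zero, Multiset.cons_add]
        exact (R.zeroG κ _ m a hκ ⟨hsum, h2⟩).trans (ih hZ' W hW)
      · rw [nz_cons hy, Multiset.cons_add, Multiset.cons_add, ← Multiset.add_cons,
          ← Multiset.add_cons]
        refine ih hZ' (y ::ₘ W) fun x hx => ?_
        rcases Multiset.mem_cons.1 hx with rfl | hx
        · exact hZ _ (Multiset.mem_cons_self _ _)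
        · exact hW x hx
  have := key Y h1 0 (by simp)
  simpa using this

/-- no lump at all: the large sieve -/
theorem tf0 (R : ExpRules θ r s) {κ : ℝ} (hκ : 0 ≤ κ) : r κ 0 0 0 ≤ κ := by
  have := R.hbC κ 0 0 0 hκ ⟨by simp, le_rfl, le_rfl⟩
  rw [Multiset.sum_zero] at this
  refine this.trans (max_le ?_ (max_le ?_ ?_)) <;> linarith

/-- one lump: flip and the large sieve -/
theorem tf1 (R : ExpRules θ r s) {κ y : ℝ} (hκ : 0 ≤ κ) (hy : 0 ≤ y) (_hyκ : y ≤ κ) :
    r κ {y} 0 0 ≤ κ + y := by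
  have hb : ∀ v : ℝ, 0 ≤ v → 2 * v ≤ κ → r κ {v} 0 0 ≤ κ + v := by
    intro v hv hv2
    have := R.hbC κ {v} 0 0 hκ ⟨by simpa using hv, le_rfl, le_rfl⟩
    rw [Multiset.sum_singleton] at this
    refine this.trans (max_le ?_ (max_le ?_ ?_)) <;> linarith
  refine R.flip κ y 0 0 0 _ hκ hy ⟨by simp, le_rfl, le_rfl⟩ ?_ ?_
  · intro y' h0 h1 h2
    have := hb y' h0 h2
    rw [Multiset.cons_zero]; linarith
  · intro y' t h1 h2 h3 h4 h5
    have := hb (κ - t - y') (by linarith) (by linarith)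
    rw [Multiset.cons_zero]; linarith

/-- **the rules with the zero lumps deleted** -/
theorem rules (R : ExpRules θ r s) : ExpRules θ (rz r) (rz s) where
  hbC κ Y m a hκ hY := by
    have := R.hbC κ (nz Y) m a hκ (ok_nz hY)
    rw [nz_sum] at this; exact this
  hbG κ Y m a hκ hY := by
    have := R.hbG κ (nz Y) m a hκ (ok_nz hY)
    rw [nz_sum] at this; exact this
  tf κ y₁ y₂ h1 h2 h3 h4 := by
    have hκ : 0 ≤ κ := h1.trans h3
    show r κ (nz {y₁, y₂}) 0 0 ≤ _
    rw [Multiset.insert_eq_cons]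
    rcases eq_or_ne y₁ 0 with rfl | hy₁
    · rw [nz_cons_zero]
      rcases eq_or_ne y₂ 0 with rfl | hy₂
      · rw [show ({0} : Multiset ℝ) = 0 ::ₘ 0 from rfl, nz_cons_zero, nz_zero]
        have := tf0 R hκ; linarith
      · rw [nz_eq_self (by simpa using hy₂)]
        have := tf1 R hκ h2 h4; linarith
    · rw [nz_cons hy₁]
      rcases eq_or_ne y₂ 0 with rfl | hy₂
      · rw [show ({0} : Multiset ℝ) = 0 ::ₘ 0 from rfl, nz_cons_zero, nz_zero, Multiset.cons_zero]
        have := tf1 R hκ h1 h3; linarith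
      · rw [nz_eq_self (by simpa using hy₂)]
        exact R.tf κ y₁ y₂ h1 h2 h3 h4
  poisC κ Y m a E hκ hY h1 h2 h3 := by
    refine R.poisC κ (nz Y) m a E hκ (ok_nz hY) (by rw [nz_sum]; exact h1)
      (by rw [nz_sum]; exact h2) ?_
    intro Y'' m' a' i hS hm0 hm1 ha0 ha1 hi hi'
    obtain ⟨Y', g1, g2, g3, _⟩ := sh_ext hS
    have := h3 Y' m' a' i g1 hm0 hm1 ha0 ha1 hi (by rw [g3]; exact hi')
    have e : s i Y'' m' a' ≤ rz s i Y' m' a' := by
      show _ ≤ s i (nz Y') m' a'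
      rw [g2]; exact s_le_nz R hi (hS.ok hm0 ha0)
    rw [nz_sum]; rw [g3] at this; linarith
  poisG κ Y m a E hκ hY h1 h2 h3 := by
    refine R.poisG κ (nz Y) m a E hκ (ok_nz hY) (by rw [nz_sum]; exact h1) ?_ ?_
    · intro Y'' m' a' i hS hm0 hm1 ha0 ha1 hi hyi hi'
      obtain ⟨Y', g1, g2, g3, g4⟩ := sh_ext hS
      have := h2 Y' m' a' i g1 hm0 hm1 ha0 ha1 hi (fun y hy => by
        rcases g4 y hy with h | h
        · exact hyi y h
        · rw [h]; exact hi) (by rw [nz_sum] at hi'; exact hi')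
      have e : r i Y'' m' a' ≤ rz r i Y' m' a' := by
        show _ ≤ r i (nz Y') m' a'
        rw [g2]; exact r_le_nz R hi (hS.ok hm0 ha0)
      rw [nz_sum]; rw [g3] at this; linarith
    · intro Y'' m' a' hS hm0 hm1 ha0 ha1 hk
      obtain ⟨Y', g1, g2, g3, g4⟩ := sh_ext hS
      have := h3 Y' m' a' g1 hm0 hm1 ha0 ha1 (by rw [nz_sum] at hk; exact hk)
      rw [nz_sum]; rw [g3] at this; linarith
  cau κ Y m a b c hκ hY hb hbm hc hca := R.cau κ (nz Y) m a b c hκ (ok_nz hY) hb hbm hc hca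
  cauS κ y Y m a hκ hy hY := by
    show s κ (nz (y ::ₘ Y)) m a ≤ y + s (κ + y) (nz Y) m a
    rcases eq_or_ne y 0 with rfl | h
    · rw [nz_cons_zero]; simp
    · rw [nz_cons h]; exact R.cauS κ y (nz Y) m a hκ hy (ok_nz hY)
  flip κ y Y m a E hκ hy hY h1 h2 := by
    show r κ (nz (y ::ₘ Y)) m a ≤ E
    have hz : ∀ v : ℝ, 0 ≤ v → r κ (v ::ₘ nz Y) m a ≤ rz r κ (v ::ₘ Y) m a := by
      intro v hv
      show _ ≤ r κ (nz (v ::ₘ Y)) m a
      rcases eq_or_ne v 0 with rfl | h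
      · rw [nz_cons_zero]; exact R.zero κ (nz Y) m a hκ (ok_nz hY)
      · rw [nz_cons h]
    rcases eq_or_ne y 0 with rfl | h
    · exact h1 0 le_rfl le_rfl (by linarith)
    · rw [nz_cons h]
      refine R.flip κ y (nz Y) m a E hκ hy (ok_nz hY) ?_ ?_
      · intro y' g0 g1 g2
        exact (hz y' g0).trans (h1 y' g0 g1 g2)
      · intro y' t g1 g2 g3 g4 g5
        have := h2 y' t g1 g2 g3 g4 g5
        have := hz (κ - t - y') (by linarith)
        linarith
  sup κ Y m a b c hκ hY hb hbm hc hca := R.sup κ (nz Y) m a b c hκ (ok_nz hY) hb hbm hc hca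
  supS κ y Y m a hκ hy hY := by
    show r κ (nz (y ::ₘ Y)) m a ≤ 2 * θ * y + r κ (nz Y) m a
    rcases eq_or_ne y 0 with rfl | h
    · rw [nz_cons_zero]; simp
    · rw [nz_cons h]; exact R.supS κ y (nz Y) m a hκ hy (ok_nz hY)
  zero κ Y m a hκ hY := by
    show r κ (nz (0 ::ₘ Y)) m a ≤ r κ (nz Y) m a
    rw [nz_cons_zero]
  zeroG κ Y m a hκ hY := by
    show s κ (nz (0 ::ₘ Y)) m a ≤ s κ (nz Y) m a
    rw [nz_cons_zero]

/-- the B-line with the zero lumps deleted -/
theorem lb (L : ExpLB θ r) : ExpLB θ (rz r) where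
  lb e κ Y m a m₀ a₀ h1 h2 h3 h4 h5 h6 h7 h8 h9 h10 h11 := by
    have := L.lb e κ (nz Y) m a m₀ a₀ h1 h2 (ok_nz h3) (fun y hy => h4 y (mem_nz.1 hy).1) h5 h6 h7
      h8 (by rw [nz_sum]; exact h9) (by rw [nz_sum]; exact h10) (by rw [nz_sum]; exact h11)
    rw [nz_sum] at this; exact this

end Crest.Agent.R017.Nz59
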