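import Crest.Agent.R017.LBf_48
import Crest.Agent.R017.E3Ub_829

/-!
# Row 17, C.REMg, R8 (E3): the T-lines of OFF through the T-functional (helper551)

* `norm_T1_sq_le` : `‖Σ_{e | m, (m, j) = 1} α(δ m) n6 m Gh j m‖² ≤ C (X/nm δ)^(-1/3) Wf A α δ j e`
* `norm_TE0_cg_sq` : `TE0 (cg γ (α (δ ·))) dl j e` for every `γ`, `dl`
* `TM_le_EHf` : one T-line (any `dl`, any `γ`-weight `≤ nm γ^(-1/2)`) is
  `≤ C H c^(1/3) E0² (K/X) EHf`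
-/

set_option autoImplicit false

noncomputable section

open Complex MeasureTheory
open scoped ComplexConjugate Classical

namespace Crest.Agent.R017.OT551

open Crest.Agent.R012 Crest.Agent.R012.Eis Crest.Agent.R012.MC
open Crest.Agent.R012.LS2 (S mem_S)
open Crest.Agent.R012.Mob705 (pdiv mem_pdiv kap0 mu PE)
open Crest.Agent.R012.Div277 (tau dvs mem_dvs)
open Crest.Agent.R017.PX764 (Gh n6 th)
open Crest.Agent.R017.X6C180 (n13 cM)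
open Crest.Agent.R017.CM106 (CS TG FS)
open Crest.Agent.R017.E1551 hiding tau Dg
open Crest.Agent.R017.C70 (JW JC OKJ okJ_JW)
open Crest.Agent.R017.E2440 (TE)
open Crest.Agent.R017.DgA829 (lc lc_prim lc_dvd nm_lc)
open Crest.Agent.R017.End699 (prin0)
open Crest.Agent.R017.LBx48 (norm_TE_sq_le TE_prin one_le_tauR tau_mono TE_zero_e norm_prin0_le)
open Crest.Agent.R017.E3D579 (TE0)
open Crest.Agent.R017.E3T829 (cg TM)
open Crest.Agent.R017.EHu320 (EHc)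

/-- the coefficient without the condition at `δ` -/
def T1 (α : Eis → ℂ) (d j e : Eis) : ℂ := TE (sg α d) (1, j) e

lemma adm_sg {Y X R : ℝ} (hY : 0 ≤ Y) (hX : 0 < X) {α : Eis → ℂ} (h : Adm Y X R α) {d : Eis}
    (hd : IsPrim d) : Adm Y (X / nm d) R (sg α d) where
  sup := fun n hn => by
    have h1 := h.sup _ (show α (d * n) ≠ 0 from hn)
    exact Dual2813.S_of_dvd hY h1 (((mem_S hY).1 h1).2.1.of_mul_left hd) (dvd_mul_left _ _)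
  win := fun n hn => by
    have h1 := h.sup _ (show α (d * n) ≠ 0 from hn)
    have hn0 := (((mem_S hY).1 h1).2.1.of_mul_left hd).ne_zero
    have h2 := h.win _ (show α (d * n) ≠ 0 from hn)
    have hn' := nmpos hn0
    have hd' := nmpos hd.ne_zero
    rw [nm_mul] at h2
    push_cast at h2
    rw [Real.log_mul hd'.ne' hn'.ne'] at h2
    rw [Real.log_div hX.ne' hd'.ne']
    have e : Real.log (nm n) - (Real.log X - Real.log (nm d)) =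
      Real.log (nm d) + Real.log (nm n) - Real.log X := by ring
    rw [e]; exact h2

lemma Wf_sg (A : ℝ) (α : Eis → ℂ) (d j e : Eis) : Wf A (sg α d) 1 j e = Wf A α d j e := by
  unfold Wf sg
  simp only [one_mul]

/-- **the coefficient without the condition at `δ`** -/
theorem norm_T1_sq_le (R : ℝ) (hR : 0 ≤ R) (A : ℕ) (hA : 2 ≤ A) : ∃ C : ℝ, 0 ≤ C ∧
    ∀ (Y X : ℝ), 0 ≤ Y → 0 < X → ∀ α : Eis → ℂ, Adm Y X R α → ∀ d j e : Eis, IsPrim d →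
      IsPrim e →
      ‖T1 α d j e‖ ^ 2 ≤ C * (X / nm d) ^ (-(1 / 3) : ℝ) * Wf (A : ℝ) α d j e := by
  obtain ⟨C, hC, h⟩ := norm_TE_sq_le R hR A hA
  refine ⟨C, hC, fun Y X hY hX α hα d j e hd he => ?_⟩
  have hd' := nmpos hd.ne_zero
  have h1 := h Y (X / nm d) hY (by positivity) (sg α d) (adm_sg hY hX hα hd) 1 j e isPrim_one he
  rw [Wf_sg] at h1
  have e1 : (nm (1 : Eis) : ℝ) = 1 := by simp
  rw [e1, div_one] at h1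
  exact h1

/-- `TE0` of the part prime to `γ`, any `dl` -/
lemma norm_TE0_cg_sq {γ : Eis} (hγ : IsPrim γ) {Y : ℝ} (hY : 0 ≤ Y) {α : Eis → ℂ}
    (hα : ∀ n, α n ≠ 0 → n ∈ S Y) {d : Eis} (hd : IsPrim d) (dl j : Eis) {e : Eis}
    (he : IsPrim e) :
    ‖TE0 (cg γ (fun m => α (d * m))) dl j e‖ ^ 2 ≤
      (tau γ : ℝ) * ∑ t ∈ dvs γ, (if Squarefree t then ‖T1 α d j (lc e t)‖ ^ 2 else 0) := by
  have hRn : 0 ≤ (tau γ : ℝ) * ∑ t ∈ dvs γ,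
      (if Squarefree t then ‖T1 α d j (lc e t)‖ ^ 2 else 0) :=
    mul_nonneg (Nat.cast_nonneg _) (Finset.sum_nonneg fun t _ => by split_ifs <;> positivity)
  by_cases hc : IsCoprime j dl
  swap
  · have : TE0 (cg γ (fun m => α (d * m))) dl j e = 0 := by
      unfold E3D579.TE0
      refine (tsum_congr fun m => ?_).trans tsum_zero
      exact if_neg (fun h => hc h.2.of_mul_right_left)
    rw [this]
    simpa using hRn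
  have hs : ∀ n, sg α d n ≠ 0 → n ∈ S Y := fun n hn => by
    have h1 := hα _ (show α (d * n) ≠ 0 from hn)
    exact Dual2813.S_of_dvd hY h1 (((mem_S hY).1 h1).2.1.of_mul_left hd) (dvd_mul_left _ _)
  have e1 : TE0 (cg γ (fun m => α (d * m))) dl j e =
      TE (fun n => sg α d n * prin0 γ n) (1, j) e := by
    unfold E3D579.TE0 E2440.TE
    refine tsum_congr fun m => ?_
    have h1 : IsCoprime j (dl * m) ↔ IsCoprime j (1 * m) := by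
      rw [one_mul]
      exact ⟨fun h => h.of_mul_right_right, fun h => hc.mul_right h⟩
    have h2 : cg γ (fun m => α (d * m)) m = sg α d (1 * m) * prin0 γ (1 * m) := by
      rw [one_mul]
      unfold E3T829.cg End699.prin0 sg
      split_ifs <;> simp
    rw [h2]
    by_cases h3 : e ∣ m ∧ IsCoprime j (dl * m)
    · rw [if_pos h3, if_pos ⟨h3.1, h1.mp h3.2⟩]
    · rw [if_neg h3, if_neg (fun h => h3 ⟨h.1, h1.mpr h.2⟩)]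
  have e2 := TE_prin hγ hY hs (x := (1, j)) isPrim_one he
  rw [e1, e2, norm_mul]
  have h3 := norm_sum_le (dvs γ) (fun t => (mu t : ℂ) * TE (sg α d) (1, j) (lc e t))
  have h4 : (∑ t ∈ dvs γ, ‖(mu t : ℂ) * TE (sg α d) (1, j) (lc e t)‖) ^ 2 ≤
      ((dvs γ).card : ℝ) * ∑ t ∈ dvs γ, ‖(mu t : ℂ) * TE (sg α d) (1, j) (lc e t)‖ ^ 2 :=
    sq_sum_le_card_mul_sum_sq
  have h5 : ‖prin0 γ 1‖ * ‖∑ t ∈ dvs γ, (mu t : ℂ) * TE (sg α d) (1, j) (lc e t)‖ ≤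
      ∑ t ∈ dvs γ, ‖(mu t : ℂ) * TE (sg α d) (1, j) (lc e t)‖ :=
    (mul_le_of_le_one_left (norm_nonneg _) (norm_prin0_le _ _)).trans h3
  refine (pow_le_pow_left₀ (by positivity) h5 2).trans (h4.trans ?_)
  refine mul_le_mul_of_nonneg_left (Finset.sum_le_sum fun t _ => ?_) (Nat.cast_nonneg _)
  by_cases hq : Squarefree t
  · rw [if_pos hq, norm_mul]
    have m1 : ‖(mu t : ℂ)‖ ≤ 1 := by
      rw [Complex.norm_intCast]; exact_mod_cast Mob705.abs_mu_le_one t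
    exact pow_le_pow_left₀ (by positivity) (mul_le_of_le_one_left (norm_nonneg _) m1) 2
  · rw [if_neg hq, show mu t = 0 from Mob705.mu_of_not_squarefree hq]
    simp

lemma T1_zero_e {Y : ℝ} (hY : 0 ≤ Y) {α : Eis → ℂ} (hα : ∀ n, α n ≠ 0 → n ∈ S Y) {d : Eis}
    (hd : IsPrim d) (j : Eis) {u : Eis} (hu : IsPrim u) (hn : u ∉ S Y) : T1 α d j u = 0 :=
  TE_zero_e hY (fun n hn => by
    have h1 := hα _ (show α (d * n) ≠ 0 from hn)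
    exact Dual2813.S_of_dvd hY h1 (((mem_S hY).1 h1).2.1.of_mul_left hd) (dvd_mul_left _ _))
    hu hn _

lemma T1_zero_d {Y : ℝ} (hY : 0 ≤ Y) {α : Eis → ℂ} (hα : ∀ n, α n ≠ 0 → n ∈ S Y) {d : Eis}
    (hd : IsPrim d) (hn : d ∉ S Y) (j u : Eis) : T1 α d j u = 0 := by
  unfold T1 E2440.TE
  refine (tsum_congr fun k => ?_).trans tsum_zero
  have : sg α d (1 * k) = 0 := by
    by_contra h
    exact hn (Dual2813.S_of_dvd hY (hα _ (show α (d * (1 * k)) ≠ 0 from h)) hd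
      (dvd_mul_right d _))
  show (if u ∣ k ∧ IsCoprime j (1 * k) then sg α d (1 * k) * ((n6 k : ℂ) * Gh j k) else 0) = 0
  rw [this]; simp

/-! ### the sums over `γ` and `t` -/

/-- the sum over the multiples of `t` -/
lemma sum_mult : ∃ C : ℝ, 0 ≤ C ∧ ∀ (Gs : Finset Eis), (∀ γ ∈ Gs, IsPrim γ) →
    ∀ (g : Eis → ℝ), (∀ t, 0 ≤ g t) →
      ∑ γ ∈ Gs, (nm γ : ℝ) ^ (-(3 / 2) : ℝ) * ((tau γ : ℝ) * ∑ t ∈ dvs γ, g t) ≤
        C * ∑ t ∈ Gs.biUnion dvs, (nm t : ℝ)⁻¹ * g t := by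
  obtain ⟨C1, hC1, h1⟩ := Div277.tau_le_rpow (ε := 1 / 8) (by norm_num)
  obtain ⟨C2, hC2, h2⟩ := Eul571.sum_nm_rpow_le (s := 11 / 8) (by norm_num)
  refine ⟨C1 * C2, by positivity, fun Gs hG g hg => ?_⟩
  set T := Gs.biUnion dvs with hT
  have a1 : ∀ γ ∈ Gs, (nm γ : ℝ) ^ (-(3 / 2) : ℝ) * ((tau γ : ℝ) * ∑ t ∈ dvs γ, g t) ≤
      ∑ t ∈ T, (if t ∣ γ then C1 * (nm γ : ℝ) ^ (-(11 / 8) : ℝ) * g t else 0) := by
    intro γ hγ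
    have hγn := nmpos (hG γ hγ).ne_zero
    have b1 : ∑ t ∈ dvs γ, g t ≤ ∑ t ∈ T, (if t ∣ γ then g t else 0) := by
      rw [← Finset.sum_filter]
      refine Finset.sum_le_sum_of_subset_of_nonneg ?_ fun t _ _ => hg t
      intro t ht
      rw [Finset.mem_filter]
      exact ⟨Finset.mem_biUnion.mpr ⟨γ, hγ, ht⟩, ((mem_dvs (hG γ hγ).ne_zero).mp ht).2⟩
    have b2 : (nm γ : ℝ) ^ (-(3 / 2) : ℝ) * tau γ ≤ C1 * (nm γ : ℝ) ^ (-(11 / 8) : ℝ) := by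
      have := h1 γ (hG γ hγ).ne_zero
      calc (nm γ : ℝ) ^ (-(3 / 2) : ℝ) * tau γ ≤
            (nm γ : ℝ) ^ (-(3 / 2) : ℝ) * (C1 * (nm γ : ℝ) ^ (1 / 8 : ℝ)) := by gcongr
        _ = C1 * ((nm γ : ℝ) ^ (-(3 / 2) : ℝ) * (nm γ : ℝ) ^ (1 / 8 : ℝ)) := by ring
        _ = _ := by
            rw [← Real.rpow_add hγn]
            norm_num
    have b3 : 0 ≤ ∑ t ∈ T, (if t ∣ γ then g t else 0) :=
      Finset.sum_nonneg fun t _ => by split_ifs; exacts [hg t, le_rfl]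
    calc (nm γ : ℝ) ^ (-(3 / 2) : ℝ) * ((tau γ : ℝ) * ∑ t ∈ dvs γ, g t) ≤
          (nm γ : ℝ) ^ (-(3 / 2) : ℝ) * ((tau γ : ℝ) * ∑ t ∈ T, (if t ∣ γ then g t else 0)) := by
          gcongr
      _ = ((nm γ : ℝ) ^ (-(3 / 2) : ℝ) * tau γ) * ∑ t ∈ T, (if t ∣ γ then g t else 0) := by ring
      _ ≤ (C1 * (nm γ : ℝ) ^ (-(11 / 8) : ℝ)) * ∑ t ∈ T, (if t ∣ γ then g t else 0) :=
          mul_le_mul_of_nonneg_right b2 b3
      _ = _ := by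
          rw [Finset.mul_sum]
          refine Finset.sum_congr rfl fun t _ => ?_
          split_ifs
          · rfl
          · rw [mul_zero]
  refine (Finset.sum_le_sum a1).trans ?_
  rw [Finset.sum_comm, Finset.mul_sum]
  refine Finset.sum_le_sum fun t ht => ?_
  obtain ⟨γ0, hγ0, ht0⟩ := Finset.mem_biUnion.mp ht
  have htp := ((mem_dvs (hG γ0 hγ0).ne_zero).mp ht0).1
  have htn := nmpos htp.ne_zero
  have ht1 : (1 : ℝ) ≤ nm t := by exact_mod_cast nm_pos.mpr htp.ne_zero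
  rw [← Finset.sum_filter]
  -- the cofactors
  have key : ∑ γ ∈ Gs.filter (fun γ => t ∣ γ), (nm γ : ℝ) ^ (-(11 / 8) : ℝ) ≤
      (nm t : ℝ)⁻¹ * C2 := by
    have c1 : ∀ γ ∈ Gs.filter (fun γ => t ∣ γ), (nm γ : ℝ) ^ (-(11 / 8) : ℝ) =
        (nm t : ℝ) ^ (-(11 / 8) : ℝ) * (nm (γ / t) : ℝ) ^ (-(11 / 8) : ℝ) := by
      intro γ hγ
      obtain ⟨-, s, rfl⟩ := Finset.mem_filter.mp hγ
      rw [mul_div_cancel_left₀ s htp.ne_zero, nm_mul]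
      push_cast
      rw [Real.mul_rpow (Nat.cast_nonneg _) (Nat.cast_nonneg _)]
    rw [Finset.sum_congr rfl c1, ← Finset.mul_sum]
    have hinj : Set.InjOn (fun γ : Eis => γ / t) (Gs.filter (fun γ => t ∣ γ) : Set Eis) := by
      intro a ha b hb hab
      obtain ⟨-, s, rfl⟩ := Finset.mem_filter.mp ha
      obtain ⟨-, s', rfl⟩ := Finset.mem_filter.mp hb
      beta_reduce at hab
      rw [mul_div_cancel_left₀ s htp.ne_zero, mul_div_cancel_left₀ s' htp.ne_zero] at hab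
      rw [hab]
    have c2 := h2 ((Gs.filter (fun γ => t ∣ γ)).image (fun γ => γ / t))
    rw [Finset.sum_image hinj] at c2
    have c3 : (nm t : ℝ) ^ (-(11 / 8) : ℝ) ≤ (nm t : ℝ)⁻¹ := by
      rw [← Real.rpow_neg_one]
      exact Real.rpow_le_rpow_of_exponent_le ht1 (by norm_num)
    exact mul_le_mul c3 c2 (Finset.sum_nonneg fun _ _ => by positivity) (by positivity)
  calc ∑ γ ∈ Gs.filter (fun γ => t ∣ γ), C1 * (nm γ : ℝ) ^ (-(11 / 8) : ℝ) * g t =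
        C1 * g t * ∑ γ ∈ Gs.filter (fun γ => t ∣ γ), (nm γ : ℝ) ^ (-(11 / 8) : ℝ) := by
        rw [Finset.mul_sum]
        exact Finset.sum_congr rfl fun γ _ => by ring
    _ ≤ C1 * g t * ((nm t : ℝ)⁻¹ * C2) :=
        mul_le_mul_of_nonneg_left key (mul_nonneg (by linarith) (hg t))
    _ = _ := by ring

/-- the pairs `(e, t)` -/
lemma sum_lc {Y E0 : ℝ} (hE0 : 0 ≤ E0) {Es T : Finset Eis}
    (hE : ∀ e ∈ Es, e ∈ S E0) (hT : ∀ t ∈ T, IsPrim t) {G : Eis → ℝ} (hG : ∀ u, 0 ≤ G u)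
    (hG0 : ∀ u, IsPrim u → u ∉ S Y → G u = 0) :
    ∑ e ∈ Es, (nm e : ℝ) * ∑ t ∈ T, (nm t : ℝ)⁻¹ * (if Squarefree t then G (lc e t) else 0) ≤
      E0 ^ 2 * ∑ u ∈ S Y, ((nm u : ℝ)⁻¹ * (tau u : ℝ) ^ 2) * G u := by
  have hnn : ∀ (e t u : Eis), 0 ≤ (if e ∈ dvs u ∧ t ∈ dvs u then
      E0 ^ 2 * ((nm u : ℝ)⁻¹ * G u) else 0) := fun e t u => by
    have := hG u
    split_ifs <;> positivity
  have a1 : ∀ e ∈ Es, ∀ t ∈ T, (nm e : ℝ) * ((nm t : ℝ)⁻¹ *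
      (if Squarefree t then G (lc e t) else 0)) ≤
      ∑ u ∈ S Y, (if e ∈ dvs u ∧ t ∈ dvs u then E0 ^ 2 * ((nm u : ℝ)⁻¹ * G u) else 0) := by
    intro e he t ht
    have hR0 : 0 ≤ ∑ u ∈ S Y, (if e ∈ dvs u ∧ t ∈ dvs u then
      E0 ^ 2 * ((nm u : ℝ)⁻¹ * G u) else 0) := Finset.sum_nonneg fun u _ => hnn e t u
    have he' := (mem_S hE0).1 (hE e he)
    have htp := hT t ht
    by_cases hs : Squarefree t
    swap
    · rw [if_neg hs]; simpa using hR0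
    rw [if_pos hs]
    have hlp := lc_prim he'.2.1 htp
    by_cases hl : lc e t ∈ S Y
    swap
    · rw [hG0 _ hlp hl]; simpa using hR0
    refine le_trans ?_ (Finset.single_le_sum (fun u _ => hnn e t u) hl)
    have hd := (lc_dvd he'.2.1 htp _).1 dvd_rfl
    rw [if_pos ⟨(mem_dvs hlp.ne_zero).2 ⟨he'.2.1, hd.1⟩, (mem_dvs hlp.ne_zero).2 ⟨htp, hd.2⟩⟩]
    obtain ⟨g, hg, -, -, -, hgn, -⟩ := nm_lc he'.2.1 htp he'.2.2 hs
    have hg1 : (1 : ℝ) ≤ nm g := by exact_mod_cast nm_pos.mpr hg.ne_zero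
    have hen := nmpos he'.2.1.ne_zero
    have htn := nmpos htp.ne_zero
    have hln := nmpos hlp.ne_zero
    have h8 : (nm (lc e t) : ℝ) ≤ nm e * nm t := by
      have : (nm (lc e t) : ℝ) ≤ nm (lc e t) * nm g := le_mul_of_one_le_right hln.le hg1
      exact this.trans (le_of_eq hgn)
    have h9 : (nm e : ℝ) * (nm t : ℝ)⁻¹ ≤ E0 ^ 2 * (nm (lc e t) : ℝ)⁻¹ := by
      rw [← div_eq_mul_inv, ← div_eq_mul_inv, div_le_div_iff₀ htn hln]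
      have h10 : (nm e : ℝ) ≤ E0 := he'.1
      calc (nm e : ℝ) * nm (lc e t) ≤ nm e * (nm e * nm t) := by gcongr
        _ = nm e ^ 2 * nm t := by ring
        _ ≤ E0 ^ 2 * nm t := by gcongr
    calc (nm e : ℝ) * ((nm t : ℝ)⁻¹ * G (lc e t)) = (nm e * (nm t : ℝ)⁻¹) * G (lc e t) := by ring
      _ ≤ (E0 ^ 2 * (nm (lc e t) : ℝ)⁻¹) * G (lc e t) := mul_le_mul_of_nonneg_right h9 (hG _)
      _ = _ := by ring
  have a2 : ∑ e ∈ Es, (nm e : ℝ) * ∑ t ∈ T, (nm t : ℝ)⁻¹ *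
      (if Squarefree t then G (lc e t) else 0) ≤
      ∑ e ∈ Es, ∑ t ∈ T, ∑ u ∈ S Y,
        (if e ∈ dvs u ∧ t ∈ dvs u then E0 ^ 2 * ((nm u : ℝ)⁻¹ * G u) else 0) := by
    refine Finset.sum_le_sum fun e he => ?_
    rw [Finset.mul_sum]
    exact Finset.sum_le_sum fun t ht => a1 e he t ht
  refine a2.trans ?_
  have e1 : ∑ e ∈ Es, ∑ t ∈ T, ∑ u ∈ S Y,
      (if e ∈ dvs u ∧ t ∈ dvs u then E0 ^ 2 * ((nm u : ℝ)⁻¹ * G u) else 0) =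
      ∑ u ∈ S Y, ∑ e ∈ Es, ∑ t ∈ T,
      (if e ∈ dvs u ∧ t ∈ dvs u then E0 ^ 2 * ((nm u : ℝ)⁻¹ * G u) else 0) := by
    have : ∀ e ∈ Es, ∑ t ∈ T, ∑ u ∈ S Y,
        (if e ∈ dvs u ∧ t ∈ dvs u then E0 ^ 2 * ((nm u : ℝ)⁻¹ * G u) else 0) =
        ∑ u ∈ S Y, ∑ t ∈ T,
        (if e ∈ dvs u ∧ t ∈ dvs u then E0 ^ 2 * ((nm u : ℝ)⁻¹ * G u) else 0) :=
      fun e _ => Finset.sum_comm
    rw [Finset.sum_congr rfl this, Finset.sum_comm]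
  rw [e1, Finset.mul_sum]
  refine Finset.sum_le_sum fun u _ => ?_
  have hu0 : 0 ≤ E0 ^ 2 * ((nm u : ℝ)⁻¹ * G u) := by
    have := hG u
    positivity
  have e2 : ∀ e ∈ Es, ∑ t ∈ T, (if e ∈ dvs u ∧ t ∈ dvs u then
      E0 ^ 2 * ((nm u : ℝ)⁻¹ * G u) else 0) ≤
      (if e ∈ dvs u then (tau u : ℝ) * (E0 ^ 2 * ((nm u : ℝ)⁻¹ * G u)) else 0) := by
    intro e _
    by_cases h : e ∈ dvs u
    · rw [if_pos h]
      have : ∀ t ∈ T, (if e ∈ dvs u ∧ t ∈ dvs u then E0 ^ 2 * ((nm u : ℝ)⁻¹ * G u) else 0) =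
          (if t ∈ dvs u then E0 ^ 2 * ((nm u : ℝ)⁻¹ * G u) else 0) := by
        intro t _
        by_cases h' : t ∈ dvs u
        · rw [if_pos h', if_pos ⟨h, h'⟩]
        · rw [if_neg h', if_neg (fun hh => h' hh.2)]
      rw [Finset.sum_congr rfl this, ← Finset.sum_filter, Finset.sum_const, nsmul_eq_mul]
      refine mul_le_mul_of_nonneg_right ?_ hu0
      have h5 : T.filter (fun t => t ∈ dvs u) ⊆ dvs u := fun t ht => (Finset.mem_filter.mp ht).2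
      unfold Div277.tau
      exact_mod_cast Finset.card_le_card h5
    · rw [if_neg h]
      exact le_of_eq (Finset.sum_eq_zero fun t _ => if_neg (fun hh => h hh.1))
  refine (Finset.sum_le_sum e2).trans ?_
  rw [← Finset.sum_filter, Finset.sum_const, nsmul_eq_mul]
  have h6 : ((Es.filter (fun e => e ∈ dvs u)).card : ℝ) ≤ tau u := by
    have h5 : Es.filter (fun e => e ∈ dvs u) ⊆ dvs u := fun t ht => (Finset.mem_filter.mp ht).2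
    unfold Div277.tau
    exact_mod_cast Finset.card_le_card h5
  calc ((Es.filter (fun e => e ∈ dvs u)).card : ℝ) *
        ((tau u : ℝ) * (E0 ^ 2 * ((nm u : ℝ)⁻¹ * G u))) ≤
        (tau u : ℝ) * ((tau u : ℝ) * (E0 ^ 2 * ((nm u : ℝ)⁻¹ * G u))) := by gcongr
    _ = _ := by ring

/-! ### the T-line -/

lemma wt_le {V c a b g : ℝ} (hV : 0 < V) (hc : 0 ≤ c) (ha : 0 < a) (hb : 0 < b) (hg : 0 < g)
    (h : a * b ^ 2 * g ^ 3 ≤ c * V) :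
    V ^ (-(1 / 3) : ℝ) * b ^ (2 / 3 : ℝ) * g ^ (-(1 / 2) : ℝ) ≤
      c ^ (1 / 3 : ℝ) * (a ^ (-(1 : ℝ) / 3) * g ^ (-(3 / 2) : ℝ)) := by
  have h1 : (a * b ^ 2 * g ^ 3) ^ (1 / 3 : ℝ) ≤ (c * V) ^ (1 / 3 : ℝ) :=
    Real.rpow_le_rpow (by positivity) h (by norm_num)
  have e1 : (a * b ^ 2 * g ^ 3) ^ (1 / 3 : ℝ) = a ^ (1 / 3 : ℝ) * b ^ (2 / 3 : ℝ) * g := by
    rw [Real.mul_rpow (by positivity) (by positivity), Real.mul_rpow ha.le (by positivity),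
      ← Real.rpow_natCast b 2, ← Real.rpow_mul hb.le, ← Real.rpow_natCast g 3,
      ← Real.rpow_mul hg.le]
    have b1 : ((2 : ℕ) : ℝ) * (1 / 3) = 2 / 3 := by norm_num
    have b2 : ((3 : ℕ) : ℝ) * (1 / 3) = 1 := by norm_num
    rw [b1, b2, Real.rpow_one]
  rw [e1, Real.mul_rpow hc hV.le] at h1
  have c1 : V ^ (-(1 / 3) : ℝ) * V ^ (1 / 3 : ℝ) = 1 := by
    rw [← Real.rpow_add hV]; norm_num
  have c2 : a ^ (-(1 : ℝ) / 3) * a ^ (1 / 3 : ℝ) = 1 := by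
    rw [← Real.rpow_add ha]; norm_num
  have c3 : g ^ (-(3 / 2) : ℝ) * g = g ^ (-(1 / 2) : ℝ) := by
    nth_rewrite 2 [← Real.rpow_one g]
    rw [← Real.rpow_add hg]; norm_num
  calc V ^ (-(1 / 3) : ℝ) * b ^ (2 / 3 : ℝ) * g ^ (-(1 / 2) : ℝ) =
        V ^ (-(1 / 3) : ℝ) * a ^ (-(1 : ℝ) / 3) * g ^ (-(3 / 2) : ℝ) *
          (a ^ (1 / 3 : ℝ) * b ^ (2 / 3 : ℝ) * g) := by
        rw [← c3]
        calc V ^ (-(1 / 3) : ℝ) * b ^ (2 / 3 : ℝ) * (g ^ (-(3 / 2) : ℝ) * g) =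
              V ^ (-(1 / 3) : ℝ) * b ^ (2 / 3 : ℝ) * (g ^ (-(3 / 2) : ℝ) * g) * 1 := by ring
          _ = V ^ (-(1 / 3) : ℝ) * b ^ (2 / 3 : ℝ) * (g ^ (-(3 / 2) : ℝ) * g) *
              (a ^ (-(1 : ℝ) / 3) * a ^ (1 / 3 : ℝ)) := by rw [c2]
          _ = _ := by ring
    _ ≤ V ^ (-(1 / 3) : ℝ) * a ^ (-(1 : ℝ) / 3) * g ^ (-(3 / 2) : ℝ) *
          (c ^ (1 / 3 : ℝ) * V ^ (1 / 3 : ℝ)) := mul_le_mul_of_nonneg_left h1 (by positivity)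
    _ = (V ^ (-(1 / 3) : ℝ) * V ^ (1 / 3 : ℝ)) *
          (c ^ (1 / 3 : ℝ) * (a ^ (-(1 : ℝ) / 3) * g ^ (-(3 / 2) : ℝ))) := by ring
    _ = _ := by rw [c1, one_mul]

/-- the weight of one `(δ, j)` -/
lemma wt_lm {K X : ℝ} (hK : 0 < K) (hX : 0 < X) {d j : Eis} (hd : d ≠ 0) (hj : j ≠ 0) :
    K ^ (2 / 3 : ℝ) * n13 j * (X / nm d) ^ (-(1 / 3) : ℝ) =
      (K / X) * (nm d * lm K X d j) / 3 := by
  have hdn := nmpos hd
  have hjn := nmpos hj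
  have hXδ : 0 < X / nm d := by positivity
  unfold lm X6C180.n13
  have a1 : (K * nm j) ^ (-(1 / 3) : ℝ) = K ^ (2 / 3 : ℝ) / K * (nm j : ℝ) ^ (-(1 : ℝ) / 3) := by
    rw [Real.mul_rpow hK.le hjn.le]
    have b1 : K ^ (-(1 / 3) : ℝ) = K ^ (2 / 3 : ℝ) / K := by
      rw [show (-(1 / 3) : ℝ) = 2 / 3 - 1 by norm_num, Real.rpow_sub hK, Real.rpow_one]
    rw [b1]
    congr 2
    norm_num
  have a2 : (X / nm d) ^ (-(1 / 3) : ℝ) = (X / nm d) ^ (2 / 3 : ℝ) / (X / nm d) := by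
    rw [show (-(1 / 3) : ℝ) = 2 / 3 - 1 by norm_num, Real.rpow_sub hXδ, Real.rpow_one]
  rw [a1, a2]
  field_simp

/-- **one T-line of OFF**: the second argument of `TE0` is any `dl d`; `P` and `om` are any
weights below `H K^(2/3) V^(-1/3) nm d^(2/3) nm e` and `nm γ^(-1/2)`. -/
theorem TM_le_EHf (R : ℝ) (hR : 0 ≤ R) (A : ℕ) (hA : 2 ≤ A) : ∃ C : ℝ, 0 ≤ C ∧
    ∀ (Y X K Z E0 V c H : ℝ), 0 ≤ Y → 0 < X → 0 < K → 0 ≤ E0 → 0 < V → 0 ≤ c → 0 ≤ H →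
    ∀ α : Eis → ℂ, Adm Y X R α →
    ∀ (dl : Eis → Eis) (P : Eis → Eis → ℝ) (om : Eis → ℝ) (Gs : Finset Eis)
      (As : Eis → Eis → Eis → Finset Eis) (Rs : Finset (Eis × Eis)),
      (∀ ρ ∈ Rs, IsPrim ρ.1 ∧ ρ.2 ∈ S E0) →
      (∀ ρ ∈ Rs, P ρ.1 ρ.2 ≤ H * (K ^ (2 / 3 : ℝ) * V ^ (-(1 / 3) : ℝ) *
        (nm ρ.1 : ℝ) ^ (2 / 3 : ℝ) * nm ρ.2)) →
      (∀ γ ∈ Gs, IsPrim γ ∧ 0 ≤ om γ ∧ om γ ≤ (nm γ : ℝ) ^ (-(1 / 2) : ℝ)) →
      (∀ ρ ∈ Rs, ∀ γ ∈ Gs, ∀ j ∈ As ρ.1 ρ.2 γ, CF j ∧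
        (nm j : ℝ) * (nm ρ.1 : ℝ) ^ 2 * (nm γ : ℝ) ^ 3 ≤ c * V ∧
        (nm j : ℝ) * (nm ρ.1 : ℝ) ^ 2 ≤ Z) →
      ∑ ρ ∈ Rs, P ρ.1 ρ.2 * ∑ γ ∈ Gs, om γ * ∑ j ∈ As ρ.1 ρ.2 γ,
        ‖TE0 (cg γ (fun m => α (ρ.1 * m))) (dl ρ.1) j ρ.2‖ ^ 2 ≤
      C * (H * c ^ (1 / 3 : ℝ) * E0 ^ 2) * ((K / X) *
        EHc (fun n => ((n : ℝ))⁻¹) (fun _ => True) A K X Y Z α) := by
  obtain ⟨C0, hC0, h0⟩ := norm_T1_sq_le R hR A hA
  obtain ⟨C1, hC1, h1⟩ := sum_mult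
  refine ⟨C0 * C1, by positivity, ?_⟩
  intro Y X K Z E0 V c H hY hX hK hE0 hV hc hH α hα dl P om Gs As Rs hRs hP hG hA'
  have hGp : ∀ γ ∈ Gs, IsPrim γ := fun γ hγ => (hG γ hγ).1
  set T := Gs.biUnion dvs with hT
  have hTp : ∀ t ∈ T, IsPrim t := fun t ht => by
    obtain ⟨γ, hγ, h⟩ := Finset.mem_biUnion.mp ht
    exact ((mem_dvs (hGp γ hγ).ne_zero).mp h).1
  set B : ℝ := H * c ^ (1 / 3 : ℝ) * K ^ (2 / 3 : ℝ) with hB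
  have hB0 : 0 ≤ B := by positivity
  set gt : Eis → Eis → Eis → Eis → ℝ := fun d j e t =>
    if Squarefree t then ‖T1 α d j (lc e t)‖ ^ 2 else 0 with hgt
  have hgt0 : ∀ d j e t, 0 ≤ gt d j e t := fun d j e t => by
    simp only [hgt]; split_ifs <;> positivity
  set JJ : Eis → Finset Eis := fun d => BF (Z / (nm d : ℝ) ^ 2) with hJJ
  -- one pair
  have s1 : ∀ ρ ∈ Rs, P ρ.1 ρ.2 * ∑ γ ∈ Gs, om γ * ∑ j ∈ As ρ.1 ρ.2 γ,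
        ‖TE0 (cg γ (fun m => α (ρ.1 * m))) (dl ρ.1) j ρ.2‖ ^ 2 ≤
      B * ∑ j ∈ JJ ρ.1, n13 j * (nm ρ.2 * (C1 * ∑ t ∈ T, (nm t : ℝ)⁻¹ * gt ρ.1 j ρ.2 t)) := by
    intro ρ hρ
    have hdp := (hRs ρ hρ).1
    have hep := ((mem_S hE0).1 (hRs ρ hρ).2).2.1
    have hdn := nmpos hdp.ne_zero
    have hen := nmpos hep.ne_zero
    have b0 : ∀ γ ∈ Gs, 0 ≤ ∑ j ∈ As ρ.1 ρ.2 γ,
        ‖TE0 (cg γ (fun m => α (ρ.1 * m))) (dl ρ.1) j ρ.2‖ ^ 2 := fun γ _ =>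
      Finset.sum_nonneg fun _ _ => by positivity
    -- the weights of γ
    have b1 : ∑ γ ∈ Gs, om γ * ∑ j ∈ As ρ.1 ρ.2 γ,
        ‖TE0 (cg γ (fun m => α (ρ.1 * m))) (dl ρ.1) j ρ.2‖ ^ 2 ≤
        ∑ γ ∈ Gs, (nm γ : ℝ) ^ (-(1 / 2) : ℝ) * ∑ j ∈ As ρ.1 ρ.2 γ,
        ‖TE0 (cg γ (fun m => α (ρ.1 * m))) (dl ρ.1) j ρ.2‖ ^ 2 :=
      Finset.sum_le_sum fun γ hγ => mul_le_mul_of_nonneg_right (hG γ hγ).2.2 (b0 γ hγ)
    have b1' : 0 ≤ ∑ γ ∈ Gs, om γ * ∑ j ∈ As ρ.1 ρ.2 γ,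
        ‖TE0 (cg γ (fun m => α (ρ.1 * m))) (dl ρ.1) j ρ.2‖ ^ 2 :=
      Finset.sum_nonneg fun γ hγ => mul_nonneg (hG γ hγ).2.1 (b0 γ hγ)
    set Q : ℝ := H * (K ^ (2 / 3 : ℝ) * V ^ (-(1 / 3) : ℝ) * (nm ρ.1 : ℝ) ^ (2 / 3 : ℝ) * nm ρ.2)
      with hQ
    have hQ0 : 0 ≤ Q := by positivity
    have b3 : P ρ.1 ρ.2 * ∑ γ ∈ Gs, om γ * ∑ j ∈ As ρ.1 ρ.2 γ,
        ‖TE0 (cg γ (fun m => α (ρ.1 * m))) (dl ρ.1) j ρ.2‖ ^ 2 ≤
        Q * ∑ γ ∈ Gs, (nm γ : ℝ) ^ (-(1 / 2) : ℝ) * ∑ j ∈ As ρ.1 ρ.2 γ,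
        ‖TE0 (cg γ (fun m => α (ρ.1 * m))) (dl ρ.1) j ρ.2‖ ^ 2 :=
      (mul_le_mul_of_nonneg_right (hP ρ hρ) b1').trans (mul_le_mul_of_nonneg_left b1 hQ0)
    refine b3.trans ?_
    rw [Finset.mul_sum]
    have b4 : ∀ γ ∈ Gs, Q * ((nm γ : ℝ) ^ (-(1 / 2) : ℝ) * ∑ j ∈ As ρ.1 ρ.2 γ,
        ‖TE0 (cg γ (fun m => α (ρ.1 * m))) (dl ρ.1) j ρ.2‖ ^ 2) ≤
        ∑ j ∈ JJ ρ.1, B * (n13 j * (nm ρ.2 * ((nm γ : ℝ) ^ (-(3 / 2) : ℝ) *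
          ((tau γ : ℝ) * ∑ t ∈ dvs γ, gt ρ.1 j ρ.2 t)))) := by
      intro γ hγ
      have hγn := nmpos (hGp γ hγ).ne_zero
      have hnn : ∀ j, 0 ≤ B * (n13 j * (nm ρ.2 * ((nm γ : ℝ) ^ (-(3 / 2) : ℝ) *
          ((tau γ : ℝ) * ∑ t ∈ dvs γ, gt ρ.1 j ρ.2 t)))) := fun j => by
        have := Finset.sum_nonneg fun t (_ : t ∈ dvs γ) => hgt0 ρ.1 j ρ.2 t
        have := X6C180.n13_nonneg j
        positivity
      have hsub : As ρ.1 ρ.2 γ ⊆ JJ ρ.1 := by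
        intro j hj
        obtain ⟨q1, -, q3⟩ := hA' ρ hρ γ hγ j hj
        simp only [hJJ]
        rw [mem_BF]
        exact ⟨q1, (le_div_iff₀ (by positivity)).mpr q3⟩
      refine le_trans ?_ (Finset.sum_le_sum_of_subset_of_nonneg hsub fun j _ _ => hnn j)
      rw [Finset.mul_sum, Finset.mul_sum]
      refine Finset.sum_le_sum fun j hj => ?_
      obtain ⟨q1, q2, -⟩ := hA' ρ hρ γ hγ j hj
      have hjn := nmpos q1.1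
      have w1 := wt_le hV hc hjn hdn hγn q2
      have w2 := norm_TE0_cg_sq (hGp γ hγ) hY hα.sup hdp (dl ρ.1) j hep
      have w3 : 0 ≤ ∑ t ∈ dvs γ, gt ρ.1 j ρ.2 t :=
        Finset.sum_nonneg fun t _ => hgt0 ρ.1 j ρ.2 t
      calc Q * ((nm γ : ℝ) ^ (-(1 / 2) : ℝ) *
            ‖TE0 (cg γ (fun m => α (ρ.1 * m))) (dl ρ.1) j ρ.2‖ ^ 2) =
            H * K ^ (2 / 3 : ℝ) * nm ρ.2 * (V ^ (-(1 / 3) : ℝ) * (nm ρ.1 : ℝ) ^ (2 / 3 : ℝ) *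
              (nm γ : ℝ) ^ (-(1 / 2) : ℝ)) *
              ‖TE0 (cg γ (fun m => α (ρ.1 * m))) (dl ρ.1) j ρ.2‖ ^ 2 := by
            rw [hQ]; ring
        _ ≤ H * K ^ (2 / 3 : ℝ) * nm ρ.2 * (c ^ (1 / 3 : ℝ) *
              ((nm j : ℝ) ^ (-(1 : ℝ) / 3) * (nm γ : ℝ) ^ (-(3 / 2) : ℝ))) *
              ((tau γ : ℝ) * ∑ t ∈ dvs γ, gt ρ.1 j ρ.2 t) := by
            gcongr
        _ = _ := by
            rw [hB]
            unfold X6C180.n13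
            ring
    refine (Finset.sum_le_sum b4).trans ?_
    rw [Finset.sum_comm, Finset.mul_sum]
    refine Finset.sum_le_sum fun j _ => ?_
    have b5 := h1 Gs hGp (gt ρ.1 j ρ.2) (hgt0 ρ.1 j ρ.2)
    have hn3 := X6C180.n13_nonneg j
    calc ∑ γ ∈ Gs, B * (n13 j * (nm ρ.2 * ((nm γ : ℝ) ^ (-(3 / 2) : ℝ) *
          ((tau γ : ℝ) * ∑ t ∈ dvs γ, gt ρ.1 j ρ.2 t)))) =
          B * (n13 j * (nm ρ.2 * ∑ γ ∈ Gs, ((nm γ : ℝ) ^ (-(3 / 2) : ℝ) *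
          ((tau γ : ℝ) * ∑ t ∈ dvs γ, gt ρ.1 j ρ.2 t)))) := by
          rw [Finset.mul_sum, Finset.mul_sum, Finset.mul_sum]
      _ ≤ B * (n13 j * (nm ρ.2 * (C1 * ∑ t ∈ T, (nm t : ℝ)⁻¹ * gt ρ.1 j ρ.2 t))) := by
          gcongr
  refine (Finset.sum_le_sum s1).trans ?_
  -- all pairs
  set Dd := Rs.image Prod.fst with hDd
  set Es := Rs.image Prod.snd with hEs
  have hDp : ∀ d ∈ Dd, IsPrim d := fun d hd => by
    obtain ⟨ρ, hρ, rfl⟩ := Finset.mem_image.mp hd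
    exact (hRs ρ hρ).1
  have hEp : ∀ e ∈ Es, e ∈ S E0 := fun e he => by
    obtain ⟨ρ, hρ, rfl⟩ := Finset.mem_image.mp he
    exact (hRs ρ hρ).2
  set F : Eis → Eis → ℝ := fun d e =>
    B * ∑ j ∈ JJ d, n13 j * (nm e * (C1 * ∑ t ∈ T, (nm t : ℝ)⁻¹ * gt d j e t)) with hF
  have hF0 : ∀ d e, 0 ≤ F d e := fun d e => mul_nonneg hB0 (Finset.sum_nonneg fun j _ =>
    mul_nonneg (X6C180.n13_nonneg _) (mul_nonneg (Nat.cast_nonneg _) (mul_nonneg hC1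
      (Finset.sum_nonneg fun t _ => mul_nonneg (by positivity) (hgt0 d j e t)))))
  have s2 : ∑ ρ ∈ Rs, F ρ.1 ρ.2 ≤ ∑ d ∈ Dd, ∑ e ∈ Es, F d e := by
    rw [← Finset.sum_product']
    refine Finset.sum_le_sum_of_subset_of_nonneg ?_ fun x _ _ => hF0 _ _
    intro ρ hρ
    rw [Finset.mem_product]
    exact ⟨Finset.mem_image_of_mem _ hρ, Finset.mem_image_of_mem _ hρ⟩
  refine s2.trans ?_
  -- one δ
  have s3 : ∀ d ∈ Dd, ∑ e ∈ Es, F d e ≤ if d ∈ S Y then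
      C0 * C1 * (H * c ^ (1 / 3 : ℝ) * E0 ^ 2) * ((K / X) * ∑ u ∈ S Y,
        (nm d * tau d * (tau u : ℝ) ^ 4) * ((nm u : ℝ)⁻¹ * LJ A K X Z α d u)) else 0 := by
    intro d hd
    have hdp := hDp d hd
    have hdn := nmpos hdp.ne_zero
    have e1 : ∑ e ∈ Es, F d e = B * C1 * ∑ j ∈ JJ d, n13 j *
        ∑ e ∈ Es, (nm e : ℝ) * ∑ t ∈ T, (nm t : ℝ)⁻¹ * gt d j e t := by
      simp only [hF]
      rw [← Finset.mul_sum, Finset.sum_comm, mul_assoc B C1, Finset.mul_sum (a := C1)]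
      congr 1
      refine Finset.sum_congr rfl fun j _ => ?_
      rw [← Finset.mul_sum]
      have : ∑ e ∈ Es, (nm e : ℝ) * (C1 * ∑ t ∈ T, (nm t : ℝ)⁻¹ * gt d j e t) =
          C1 * ∑ e ∈ Es, (nm e : ℝ) * ∑ t ∈ T, (nm t : ℝ)⁻¹ * gt d j e t := by
        rw [Finset.mul_sum]
        exact Finset.sum_congr rfl fun e _ => by ring
      rw [this]
      ring
    rw [e1]
    have e2 : ∀ j, ∑ e ∈ Es, (nm e : ℝ) * ∑ t ∈ T, (nm t : ℝ)⁻¹ * gt d j e t ≤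
        E0 ^ 2 * ∑ u ∈ S Y, ((nm u : ℝ)⁻¹ * (tau u : ℝ) ^ 2) * ‖T1 α d j u‖ ^ 2 := by
      intro j
      exact sum_lc (Y := Y) hE0 hEp hTp (G := fun u => ‖T1 α d j u‖ ^ 2)
        (fun u => by positivity) (fun u hu hn => by
          show ‖T1 α d j u‖ ^ 2 = 0
          rw [T1_zero_e hY hα.sup hdp j hu hn]; simp)
    have e3 : B * C1 * ∑ j ∈ JJ d, n13 j *
        ∑ e ∈ Es, (nm e : ℝ) * ∑ t ∈ T, (nm t : ℝ)⁻¹ * gt d j e t ≤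
        B * C1 * ∑ j ∈ JJ d, n13 j * (E0 ^ 2 *
          ∑ u ∈ S Y, ((nm u : ℝ)⁻¹ * (tau u : ℝ) ^ 2) * ‖T1 α d j u‖ ^ 2) :=
      mul_le_mul_of_nonneg_left (Finset.sum_le_sum fun j _ =>
        mul_le_mul_of_nonneg_left (e2 j) (X6C180.n13_nonneg _)) (by positivity)
    refine e3.trans ?_
    by_cases hS : d ∈ S Y
    swap
    · rw [if_neg hS]
      refine le_of_eq ?_
      have : ∀ j ∈ JJ d, n13 j * (E0 ^ 2 *
          ∑ u ∈ S Y, ((nm u : ℝ)⁻¹ * (tau u : ℝ) ^ 2) * ‖T1 α d j u‖ ^ 2) = 0 := by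
        intro j _
        have : ∀ u ∈ S Y, ((nm u : ℝ)⁻¹ * (tau u : ℝ) ^ 2) * ‖T1 α d j u‖ ^ 2 = 0 := by
          intro u _
          rw [T1_zero_d hY hα.sup hdp hS]; simp
        rw [Finset.sum_eq_zero this]; simp
      rw [Finset.sum_eq_zero this, mul_zero]
    rw [if_pos hS]
    -- one (j, u)
    have e4 : ∀ j ∈ JJ d, ∀ u ∈ S Y, B * (n13 j * (((nm u : ℝ)⁻¹ * (tau u : ℝ) ^ 2) *
        ‖T1 α d j u‖ ^ 2)) ≤ C0 * (H * c ^ (1 / 3 : ℝ)) * ((K / X) *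
          ((nm d * tau d * (tau u : ℝ) ^ 4) * ((nm u : ℝ)⁻¹ *
            (lm K X d j * Wf A α d j u)))) := by
      intro j hj u hu
      have hup := ((mem_S hY).1 hu).2.1
      have hun := nmpos hup.ne_zero
      have hjc : CF j := by
        simp only [hJJ] at hj
        exact (mem_BF.mp hj).1
      have hj0 := hjc.1
      have f1 := h0 Y X hY hX α hα d j u hdp hup
      have hn3 := X6C180.n13_nonneg j
      have hW := Wf_nonneg (A : ℝ) α d j u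
      have hl := lm_nonneg hK.le hX.le d j
      have hτ := one_le_tauR hup
      have hτd := one_le_tauR hdp
      have hτ4 : (tau u : ℝ) ^ 2 ≤ (tau u : ℝ) ^ 4 := pow_le_pow_right₀ hτ (by norm_num)
      calc B * (n13 j * (((nm u : ℝ)⁻¹ * (tau u : ℝ) ^ 2) * ‖T1 α d j u‖ ^ 2)) ≤
            B * (n13 j * (((nm u : ℝ)⁻¹ * (tau u : ℝ) ^ 2) *
              (C0 * (X / nm d) ^ (-(1 / 3) : ℝ) * Wf (A : ℝ) α d j u))) := by gcongr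
        _ = C0 * (H * c ^ (1 / 3 : ℝ)) * (((nm u : ℝ)⁻¹ * (tau u : ℝ) ^ 2) * Wf (A : ℝ) α d j u) *
            (K ^ (2 / 3 : ℝ) * n13 j * (X / nm d) ^ (-(1 / 3) : ℝ)) := by rw [hB]; ring
        _ = C0 * (H * c ^ (1 / 3 : ℝ)) * ((K / X) * ((nm d * 1 * (tau u : ℝ) ^ 2) *
            ((nm u : ℝ)⁻¹ * (lm K X d j * Wf A α d j u)))) / 3 := by
            rw [wt_lm hK hX hdp.ne_zero hj0]; ring
        _ ≤ C0 * (H * c ^ (1 / 3 : ℝ)) * ((K / X) * ((nm d * tau d * (tau u : ℝ) ^ 4) *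
            ((nm u : ℝ)⁻¹ * (lm K X d j * Wf A α d j u)))) / 3 := by gcongr
        _ ≤ C0 * (H * c ^ (1 / 3 : ℝ)) * ((K / X) * ((nm d * tau d * (tau u : ℝ) ^ 4) *
            ((nm u : ℝ)⁻¹ * (lm K X d j * Wf A α d j u)))) := by
            refine div_le_self (by positivity) (by norm_num)
    have e5 : B * C1 * ∑ j ∈ JJ d, n13 j * (E0 ^ 2 *
          ∑ u ∈ S Y, ((nm u : ℝ)⁻¹ * (tau u : ℝ) ^ 2) * ‖T1 α d j u‖ ^ 2) =
        C1 * E0 ^ 2 * ∑ u ∈ S Y, ∑ j ∈ JJ d, B * (n13 j * (((nm u : ℝ)⁻¹ * (tau u : ℝ) ^ 2) *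
        ‖T1 α d j u‖ ^ 2)) := by
      rw [Finset.sum_comm, Finset.mul_sum, Finset.mul_sum]
      refine Finset.sum_congr rfl fun j _ => ?_
      rw [← Finset.mul_sum, ← Finset.mul_sum]
      ring
    rw [e5]
    have e6 : ∑ u ∈ S Y, ∑ j ∈ JJ d, B * (n13 j * (((nm u : ℝ)⁻¹ * (tau u : ℝ) ^ 2) *
        ‖T1 α d j u‖ ^ 2)) ≤ ∑ u ∈ S Y, ∑ j ∈ JJ d, C0 * (H * c ^ (1 / 3 : ℝ)) * ((K / X) *
          ((nm d * tau d * (tau u : ℝ) ^ 4) * ((nm u : ℝ)⁻¹ *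
            (lm K X d j * Wf A α d j u)))) :=
      Finset.sum_le_sum fun u hu => Finset.sum_le_sum fun j hj => e4 j hj u hu
    refine (mul_le_mul_of_nonneg_left e6 (by positivity)).trans (le_of_eq ?_)
    unfold LJ
    simp_rw [Finset.mul_sum]
    refine Finset.sum_congr rfl fun u _ => Finset.sum_congr rfl fun j _ => ?_
    ring
  refine (Finset.sum_le_sum s3).trans ?_
  rw [← Finset.sum_filter, ← Finset.mul_sum, ← Finset.mul_sum]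
  refine mul_le_mul_of_nonneg_left ?_ (by positivity)
  refine mul_le_mul_of_nonneg_left ?_ (by positivity)
  unfold EHu320.EHc
  rw [Finset.filter_true]
  refine Finset.sum_le_sum_of_subset_of_nonneg (fun d hd => (Finset.mem_filter.mp hd).2)
    fun d _ _ => Finset.sum_nonneg fun u _ => ?_
  have := LJ_nonneg (A := (A : ℝ)) (Z := Z) hK.le hX.le α d u
  positivity

/-- 829's `TM` (second argument of `TE0` = `δ`) -/
theorem TM_le (R : ℝ) (hR : 0 ≤ R) (A : ℕ) (hA : 2 ≤ A) : ∃ C : ℝ, 0 ≤ C ∧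
    ∀ (Y X K Z E0 V c H : ℝ), 0 ≤ Y → 0 < X → 0 < K → 0 ≤ E0 → 0 < V → 0 ≤ c → 0 ≤ H →
    ∀ α : Eis → ℂ, Adm Y X R α →
    ∀ (P : Eis → Eis → ℝ) (om : Eis → ℝ) (Gs : Finset Eis)
      (As : Eis → Eis → Eis → Finset Eis) (Rs : Finset (Eis × Eis)),
      (∀ ρ ∈ Rs, IsPrim ρ.1 ∧ ρ.2 ∈ S E0) →
      (∀ ρ ∈ Rs, P ρ.1 ρ.2 ≤ H * (K ^ (2 / 3 : ℝ) * V ^ (-(1 / 3) : ℝ) *
        (nm ρ.1 : ℝ) ^ (2 / 3 : ℝ) * nm ρ.2)) →
      (∀ γ ∈ Gs, IsPrim γ ∧ 0 ≤ om γ ∧ om γ ≤ (nm γ : ℝ) ^ (-(1 / 2) : ℝ)) →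
      (∀ ρ ∈ Rs, ∀ γ ∈ Gs, ∀ j ∈ As ρ.1 ρ.2 γ, CF j ∧
        (nm j : ℝ) * (nm ρ.1 : ℝ) ^ 2 * (nm γ : ℝ) ^ 3 ≤ c * V ∧
        (nm j : ℝ) * (nm ρ.1 : ℝ) ^ 2 ≤ Z) →
      TM (fun d _ m => α (d * m)) P om Gs As Rs ≤
      C * (H * c ^ (1 / 3 : ℝ) * E0 ^ 2) * ((K / X) *
        EHc (fun n => ((n : ℝ))⁻¹) (fun _ => True) A K X Y Z α) := by
  obtain ⟨C, hC, h⟩ := TM_le_EHf R hR A hA
  refine ⟨C, hC, ?_⟩
  intro Y X K Z E0 V c H hY hX hK hE0 hV hc hH α hα P om Gs As Rs hRs hP hG hA'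
  exact h Y X K Z E0 V c H hY hX hK hE0 hV hc hH α hα id P om Gs As Rs hRs hP hG hA'

end Crest.Agent.R017.OT551
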