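import Crest.Agent.R017.OTb_551
import Crest.Agent.R017.I1e_146

/-!
# Row 17, C.REMg, R8 (E3): the T-lines of OFF, joint numbers (helper551)

* `bw E0 u = min (nm u) (E0² / nm u)` : the weight after Moebius;  `sum_lc2g`
* `TM_core` : a T-line through `Σ_δ Σ_κ nm κ^(-1/3) Σ_u bw E0 u τ(u)^4 ‖T1 α δ κ u‖²`
* `T1_sum` : weighted sums of `‖T1‖²` through the joint blocks `JB`
* `TN_cf_J` (cube-free lines), `TN_J` (all lines) : 548's `TN` from the joint numbers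
-/

set_option autoImplicit false

noncomputable section

open Complex MeasureTheory
open scoped ComplexConjugate Classical

namespace Crest.Agent.R017.OT551

open Crest.Agent.R012 Crest.Agent.R012.Eis Crest.Agent.R012.MC
open Crest.Agent.R012.LS2 (S mem_S bl mem_bl)
open Crest.Agent.R012.Mob705 (pdiv mem_pdiv kap0 mu PE)
open Crest.Agent.R012.Div277 (tau dvs mem_dvs)
open Crest.Agent.R017.PX764 (Gh n6 th)
open Crest.Agent.R017.X6C180 (n13 cM)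
open Crest.Agent.R017.CM106 (CS TG FS)
open Crest.Agent.R017.E1551 hiding tau Dg
open Crest.Agent.R017.E2440 (TE)
open Crest.Agent.R017.DgA829 (lc lc_prim lc_dvd nm_lc)
open Crest.Agent.R017.LBx48 (one_le_tauR tau_mono)
open Crest.Agent.R017.E3D579 (TE0)
open Crest.Agent.R017.E3T829 (cg TM)

/-! ### the weight -/

/-- the weight of `u = lcm` -/
def bw (E0 : ℝ) (u : Eis) : ℝ := min (nm u : ℝ) (E0 ^ 2 * (nm u : ℝ)⁻¹)

lemma bw_nonneg (E0 : ℝ) (u : Eis) : 0 ≤ bw E0 u := by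
  unfold bw; positivity

/-- both Moebius sums, weight `bw` -/
lemma sum_lc2g {Y E0 : ℝ} (hY : 0 ≤ Y) (hE0 : 0 ≤ E0) {Es T T' : Finset Eis}
    (hE : ∀ e ∈ Es, e ∈ S E0) (hT : ∀ t ∈ T, IsPrim t) (hT' : ∀ t ∈ T', IsPrim t)
    {G : Eis → ℝ} (hG : ∀ u, 0 ≤ G u) (hG0 : ∀ u, IsPrim u → u ∉ S Y → G u = 0) :
    ∑ e ∈ Es, (nm e : ℝ) * ∑ s ∈ T, (nm s : ℝ)⁻¹ * (if Squarefree s then
      ∑ t ∈ T', (nm t : ℝ)⁻¹ * (if Squarefree t then G (lc (lc e s) t) else 0) else 0) ≤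
      ∑ u ∈ S Y, (bw E0 u * (tau u : ℝ) ^ 4) * G u := by
  set G' : Eis → ℝ := fun v => if v ∈ S Y then
    ∑ t ∈ T', (nm t : ℝ)⁻¹ * (if Squarefree t then G (lc v t) else 0) else 0 with hG'
  have hnn : ∀ v, 0 ≤ ∑ t ∈ T', (nm t : ℝ)⁻¹ * (if Squarefree t then G (lc v t) else 0) :=
    fun v => Finset.sum_nonneg fun t _ => mul_nonneg (by positivity) (by
      split_ifs; exacts [hG _, le_rfl])
  have hG'0 : ∀ v, 0 ≤ G' v := fun v => by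
    simp only [hG']; split_ifs; exacts [hnn v, le_rfl]
  have e1 : ∀ v, IsPrim v →
      ∑ t ∈ T', (nm t : ℝ)⁻¹ * (if Squarefree t then G (lc v t) else 0) = G' v := by
    intro v hv
    simp only [hG']
    by_cases h : v ∈ S Y
    · rw [if_pos h]
    · rw [if_neg h]
      refine Finset.sum_eq_zero fun t ht => ?_
      by_cases hs : Squarefree t
      · rw [if_pos hs, hG0 _ (lc_prim hv (hT' t ht)) (fun h1 => h
          (Dual2813.S_of_dvd hY h1 hv ((lc_dvd hv (hT' t ht) _).1 dvd_rfl).1)), mul_zero]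
      · rw [if_neg hs, mul_zero]
  have e2 : ∑ e ∈ Es, (nm e : ℝ) * ∑ s ∈ T, (nm s : ℝ)⁻¹ * (if Squarefree s then
      ∑ t ∈ T', (nm t : ℝ)⁻¹ * (if Squarefree t then G (lc (lc e s) t) else 0) else 0) =
      ∑ e ∈ Es, (nm e : ℝ) * ∑ s ∈ T, (nm s : ℝ)⁻¹ *
        (if Squarefree s then G' (lc e s) else 0) := by
    refine Finset.sum_congr rfl fun e he => ?_
    congr 1
    refine Finset.sum_congr rfl fun s hs => ?_
    congr 1
    by_cases h : Squarefree s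
    · rw [if_pos h, if_pos h]
      exact e1 _ (lc_prim ((mem_S hE0).1 (hE e he)).2.1 (hT s hs))
    · rw [if_neg h, if_neg h]
  rw [e2]
  have s1 := sum_lc_gen (Y := Y) (Es := Es) (T := T) (a := fun e => (nm e : ℝ))
    (b := bw E0) (fun e he => ((mem_S hE0).1 (hE e he)).2.1) hT
    (bw_nonneg E0) (fun e he t ht hs => by
      have he' := (mem_S hE0).1 (hE e he)
      have h1 := nm_lc_le he'.2.1 (hT t ht) he'.2.2 hs
      have htn := nmpos (hT t ht).ne_zero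
      have ht1 : (1 : ℝ) ≤ nm t := nm_ge_one (hT t ht).ne_zero
      have hlp := lc_prim he'.2.1 (hT t ht)
      have hln := nmpos hlp.ne_zero
      have h10 : (nm e : ℝ) ≤ E0 := he'.1
      show (nm e : ℝ) * (nm t : ℝ)⁻¹ ≤ bw E0 (lc e t)
      unfold bw
      refine le_min ?_ ?_
      · have h2 : (nm e : ℝ) ≤ nm (lc e t) := by
          exact_mod_cast Div277.nm_le_of_dvd hlp.ne_zero
            ((lc_dvd he'.2.1 (hT t ht) _).1 dvd_rfl).1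
        calc (nm e : ℝ) * (nm t : ℝ)⁻¹ ≤ nm e * 1 := by
              refine mul_le_mul_of_nonneg_left (inv_le_one_of_one_le₀ ht1) (Nat.cast_nonneg _)
          _ ≤ _ := by rw [mul_one]; exact h2
      · rw [← div_eq_mul_inv, ← div_eq_mul_inv, div_le_div_iff₀ htn hln]
        calc (nm e : ℝ) * nm (lc e t) ≤ nm e * (nm e * nm t) := by gcongr
          _ = nm e ^ 2 * nm t := by ring
          _ ≤ E0 ^ 2 * nm t := by gcongr) hG'0 (fun u _ hn => by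
      simp only [hG']; exact if_neg hn)
  refine s1.trans ?_
  have e3 : ∑ u ∈ S Y, (bw E0 u * (tau u : ℝ) ^ 2) * G' u =
      ∑ u ∈ S Y, (bw E0 u * (tau u : ℝ) ^ 2) *
        ∑ t ∈ T', (nm t : ℝ)⁻¹ * (if Squarefree t then G (lc u t) else 0) := by
    refine Finset.sum_congr rfl fun u hu => ?_
    simp only [hG']
    rw [if_pos hu]
  rw [e3]
  have s2 := sum_lc_gen (Y := Y) (Es := S Y) (T := T')
    (a := fun u => bw E0 u * (tau u : ℝ) ^ 2)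
    (b := fun u => bw E0 u * (tau u : ℝ) ^ 2)
    (fun e he => ((mem_S hY).1 he).2.1) hT'
    (fun u => mul_nonneg (bw_nonneg _ _) (by positivity)) (fun e he t ht hs => by
      have he' := (mem_S hY).1 he
      have h1 := nm_lc_le he'.2.1 (hT' t ht) he'.2.2 hs
      have htn := nmpos (hT' t ht).ne_zero
      have ht1 : (1 : ℝ) ≤ nm t := nm_ge_one (hT' t ht).ne_zero
      have hen := nmpos he'.2.1.ne_zero
      have hlp := lc_prim he'.2.1 (hT' t ht)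
      have hln := nmpos hlp.ne_zero
      have hdv := ((lc_dvd he'.2.1 (hT' t ht) _).1 dvd_rfl).1
      have hτ : (tau e : ℝ) ≤ tau (lc e t) := tau_mono hlp.ne_zero hdv
      have h2 : bw E0 e * (nm t : ℝ)⁻¹ ≤ bw E0 (lc e t) := by
        unfold bw
        refine le_min ?_ ?_
        · have h3 : (nm e : ℝ) ≤ nm (lc e t) := by
            exact_mod_cast Div277.nm_le_of_dvd hlp.ne_zero hdv
          calc min (nm e : ℝ) (E0 ^ 2 * (nm e : ℝ)⁻¹) * (nm t : ℝ)⁻¹ ≤ nm e * 1 := by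
                refine mul_le_mul (min_le_left _ _) (inv_le_one_of_one_le₀ ht1)
                  (by positivity) (Nat.cast_nonneg _)
            _ ≤ _ := by rw [mul_one]; exact h3
        · calc min (nm e : ℝ) (E0 ^ 2 * (nm e : ℝ)⁻¹) * (nm t : ℝ)⁻¹ ≤
                E0 ^ 2 * (nm e : ℝ)⁻¹ * (nm t : ℝ)⁻¹ := by
                refine mul_le_mul_of_nonneg_right (min_le_right _ _) (by positivity)
            _ = E0 ^ 2 * ((nm e : ℝ) * nm t)⁻¹ := by rw [mul_inv]; ring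
            _ ≤ _ := by
                refine mul_le_mul_of_nonneg_left (inv_anti₀ hln h1) (by positivity)
      have h4 := bw_nonneg E0 e
      have h5 := bw_nonneg E0 (lc e t)
      show bw E0 e * (tau e : ℝ) ^ 2 * (nm t : ℝ)⁻¹ ≤
        bw E0 (lc e t) * (tau (lc e t) : ℝ) ^ 2
      calc bw E0 e * (tau e : ℝ) ^ 2 * (nm t : ℝ)⁻¹ =
            (bw E0 e * (nm t : ℝ)⁻¹) * (tau e : ℝ) ^ 2 := by ring
        _ ≤ bw E0 (lc e t) * (tau (lc e t) : ℝ) ^ 2 := by gcongr) hG hG0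
  refine s2.trans (le_of_eq (Finset.sum_congr rfl fun u _ => ?_))
  ring

/-- **one T-line, all frequencies `j ≠ 0`, through `‖T1‖²`** -/
theorem TM_core {ε : ℝ} (hε : 0 < ε) : ∃ C : ℝ, 0 ≤ C ∧
    ∀ (Y Z E0 V c H : ℝ), 0 ≤ Y → 1 ≤ Z → 0 ≤ E0 → 0 < V → 0 ≤ c → 0 ≤ H →
    ∀ α : Eis → ℂ, (∀ n, α n ≠ 0 → n ∈ S Y) →
    ∀ (dl : Eis → Eis) (P : Eis → Eis → ℝ) (om : Eis → ℝ) (Gs : Finset Eis)
      (As : Eis → Eis → Eis → Finset Eis) (Rs : Finset (Eis × Eis)),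
      (∀ ρ ∈ Rs, IsPrim ρ.1 ∧ ρ.2 ∈ S E0) →
      (∀ ρ ∈ Rs, P ρ.1 ρ.2 ≤ H * (V ^ (-(1 / 3) : ℝ) *
        (nm ρ.1 : ℝ) ^ (2 / 3 : ℝ) * nm ρ.2)) →
      (∀ γ ∈ Gs, IsPrim γ ∧ 0 ≤ om γ ∧ om γ ≤ (nm γ : ℝ) ^ (-(1 / 2) : ℝ)) →
      (∀ ρ ∈ Rs, ∀ γ ∈ Gs, ∀ j ∈ As ρ.1 ρ.2 γ, j ≠ 0 ∧
        (nm j : ℝ) * (nm ρ.1 : ℝ) ^ 2 * (nm γ : ℝ) ^ 3 ≤ c * V ∧
        (nm j : ℝ) * (nm ρ.1 : ℝ) ^ 2 ≤ Z) →
      ∑ ρ ∈ Rs, P ρ.1 ρ.2 * ∑ γ ∈ Gs, om γ * ∑ j ∈ As ρ.1 ρ.2 γ,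
        ‖TE0 (cg γ (fun m => α (ρ.1 * m))) (dl ρ.1) j ρ.2‖ ^ 2 ≤
      C * (Z ^ ε * H * c ^ (1 / 3 : ℝ)) *
        ∑ d ∈ (Rs.image Prod.fst).filter (fun d => d ∈ S Y),
          ∑ κ ∈ BF (Z / (nm d : ℝ) ^ 2), n13 κ *
            ∑ u ∈ S Y, (bw E0 u * (tau u : ℝ) ^ 4) * ‖T1 α d κ u‖ ^ 2 := by
  obtain ⟨C1, hC1, h1⟩ := sum_mult
  obtain ⟨C2, hC2, h2⟩ := sum_mult_c hε
  refine ⟨C1 * C2, by positivity, ?_⟩
  intro Y Z E0 V c H hY hZ hE0 hV hc hH α hα dl P om Gs As Rs hRs hP hG hA'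
  have hZ0 : 0 < Z := by linarith
  have hGp : ∀ γ ∈ Gs, IsPrim γ := fun γ hγ => (hG γ hγ).1
  -- the decomposition of the frequencies
  have hdec : ∀ j : Eis, ∃ x : Eis × Eis, j ≠ 0 → j = x.1 * x.2 ^ 3 ∧ CF x.1 ∧ x.2 ≠ 0 := by
    intro j
    by_cases hj : j = 0
    · exact ⟨(1, 1), fun h => absurd hj h⟩
    · obtain ⟨κ, s, h⟩ := exists_cf hj
      exact ⟨(κ, s), fun _ => h⟩
  choose kc hkc using hdec
  set Cs := bl Z with hCs
  have hCs' : ∀ s ∈ Cs, s ≠ 0 ∧ (nm s : ℝ) ≤ Z := fun s hs => (mem_bl hZ0.le).mp hs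
  set T := Gs.biUnion dvs with hT
  have hTp : ∀ t ∈ T, IsPrim t := fun t ht => by
    obtain ⟨γ, hγ, h⟩ := Finset.mem_biUnion.mp ht
    exact ((mem_dvs (hGp γ hγ).ne_zero).mp h).1
  set T2 := Cs.biUnion dvs with hT2
  have hT2p : ∀ t ∈ T2, IsPrim t := fun t ht => by
    obtain ⟨γ, hγ, h⟩ := Finset.mem_biUnion.mp ht
    exact ((mem_dvs (hCs' γ hγ).1).mp h).1
  set B : ℝ := H * c ^ (1 / 3 : ℝ) with hB
  have hB0 : 0 ≤ B := by positivity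
  set gt : Eis → Eis → Eis → Eis → ℝ := fun d κ v t =>
    if Squarefree t then ‖T1 α d κ (lc v t)‖ ^ 2 else 0 with hgt
  have hgt0 : ∀ d j e t, 0 ≤ gt d j e t := fun d j e t => by
    simp only [hgt]; split_ifs <;> positivity
  set JJ : Eis → Finset Eis := fun d => BF (Z / (nm d : ℝ) ^ 2) with hJJ
  -- one pair
  have s1 : ∀ ρ ∈ Rs, P ρ.1 ρ.2 * ∑ γ ∈ Gs, om γ * ∑ j ∈ As ρ.1 ρ.2 γ,
        ‖TE0 (cg γ (fun m => α (ρ.1 * m))) (dl ρ.1) j ρ.2‖ ^ 2 ≤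
      B * ∑ κ ∈ JJ ρ.1, n13 κ * (nm ρ.2 * (C2 * Z ^ ε * C1 * ∑ s ∈ T2, (nm s : ℝ)⁻¹ *
        (if Squarefree s then ∑ t ∈ T, (nm t : ℝ)⁻¹ * gt ρ.1 κ (lc ρ.2 s) t else 0))) := by
    intro ρ hρ
    have hdp := (hRs ρ hρ).1
    have hep := ((mem_S hE0).1 (hRs ρ hρ).2).2.1
    have hdn := nmpos hdp.ne_zero
    have hd1 : (1 : ℝ) ≤ nm ρ.1 := by exact_mod_cast nm_pos.mpr hdp.ne_zero
    have hen := nmpos hep.ne_zero
    have b0 : ∀ γ ∈ Gs, 0 ≤ ∑ j ∈ As ρ.1 ρ.2 γ,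
        ‖TE0 (cg γ (fun m => α (ρ.1 * m))) (dl ρ.1) j ρ.2‖ ^ 2 := fun γ _ =>
      Finset.sum_nonneg fun _ _ => by positivity
    -- the weights of γ
    have b1 : ∑ γ ∈ Gs, om γ * ∑ j ∈ As ρ.1 ρ.2 γ,
        ‖TE0 (cg γ (fun m => α (ρ.1 * m))) (dl ρ.1) j ρ.2‖ ^ 2 ≤
        ∑ γ ∈ Gs, (nm γ : ℝ) ^ (-(1 / 2) : ℝ) * ∑ j ∈ As ρ.1 ρ.2 γ,
        ‖TE0 (cg γ (fun m => α (ρ.1 * m))) (dl ρ.1) j ρ.2‖ ^ 2 :=
      Finset.sum_le_sum fun γ hγ => mul_le_mul_of_nonneg_right (hG γ hγ).2.2 (b0 γ hγ)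
    have b1' : 0 ≤ ∑ γ ∈ Gs, om γ * ∑ j ∈ As ρ.1 ρ.2 γ,
        ‖TE0 (cg γ (fun m => α (ρ.1 * m))) (dl ρ.1) j ρ.2‖ ^ 2 :=
      Finset.sum_nonneg fun γ hγ => mul_nonneg (hG γ hγ).2.1 (b0 γ hγ)
    set Q : ℝ := H * (V ^ (-(1 / 3) : ℝ) * (nm ρ.1 : ℝ) ^ (2 / 3 : ℝ) * nm ρ.2)
      with hQ
    have hQ0 : 0 ≤ Q := by positivity
    have b3 : P ρ.1 ρ.2 * ∑ γ ∈ Gs, om γ * ∑ j ∈ As ρ.1 ρ.2 γ,
        ‖TE0 (cg γ (fun m => α (ρ.1 * m))) (dl ρ.1) j ρ.2‖ ^ 2 ≤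
        Q * ∑ γ ∈ Gs, (nm γ : ℝ) ^ (-(1 / 2) : ℝ) * ∑ j ∈ As ρ.1 ρ.2 γ,
        ‖TE0 (cg γ (fun m => α (ρ.1 * m))) (dl ρ.1) j ρ.2‖ ^ 2 :=
      (mul_le_mul_of_nonneg_right (hP ρ hρ) b1').trans (mul_le_mul_of_nonneg_left b1 hQ0)
    refine b3.trans ?_
    rw [Finset.mul_sum]
    -- the bound of one (γ, κ, s)
    set W : Eis → Eis → Eis → ℝ := fun γ κ s => B * (n13 κ * (nm ρ.2 * ((nm s : ℝ)⁻¹ *
      ((tau s : ℝ) * ∑ s' ∈ dvs s, (if Squarefree s' then (nm γ : ℝ) ^ (-(3 / 2) : ℝ) *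
        ((tau γ : ℝ) * ∑ t ∈ dvs γ, gt ρ.1 κ (lc ρ.2 s') t) else 0))))) with hW
    have hW0 : ∀ γ κ s, 0 ≤ W γ κ s := fun γ κ s => by
      simp only [hW]
      refine mul_nonneg hB0 (mul_nonneg (X6C180.n13_nonneg _) (mul_nonneg (Nat.cast_nonneg _)
        (mul_nonneg (by positivity) (mul_nonneg (Nat.cast_nonneg _)
        (Finset.sum_nonneg fun s' _ => ?_)))))
      split_ifs
      · exact mul_nonneg (by positivity) (mul_nonneg (Nat.cast_nonneg _)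
          (Finset.sum_nonneg fun t _ => hgt0 _ _ _ _))
      · exact le_rfl
    have b4 : ∀ γ ∈ Gs, Q * ((nm γ : ℝ) ^ (-(1 / 2) : ℝ) * ∑ j ∈ As ρ.1 ρ.2 γ,
        ‖TE0 (cg γ (fun m => α (ρ.1 * m))) (dl ρ.1) j ρ.2‖ ^ 2) ≤
        ∑ x ∈ JJ ρ.1 ×ˢ Cs, W γ x.1 x.2 := by
      intro γ hγ
      have hγn := nmpos (hGp γ hγ).ne_zero
      have hfac : ∀ j ∈ As ρ.1 ρ.2 γ, j = (kc j).1 * (kc j).2 ^ 3 ∧ CF (kc j).1 ∧
          (kc j).2 ≠ 0 := fun j hj => hkc j (hA' ρ hρ γ hγ j hj).1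
      have hinj : Set.InjOn kc (As ρ.1 ρ.2 γ : Set Eis) := by
        intro a ha b hb hab
        rw [(hfac a ha).1, (hfac b hb).1, hab]
      have hsub : (As ρ.1 ρ.2 γ).image kc ⊆ JJ ρ.1 ×ˢ Cs := by
        intro x hx
        obtain ⟨j, hj, rfl⟩ := Finset.mem_image.mp hx
        obtain ⟨q0, -, q3⟩ := hA' ρ hρ γ hγ j hj
        obtain ⟨f1, f2, f3⟩ := hfac j hj
        have f4 : (nm j : ℝ) = nm (kc j).1 * (nm (kc j).2 : ℝ) ^ 3 := by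
          conv_lhs => rw [f1]
          rw [nm_mul, nm_pow]; push_cast; ring
        have g1 : (1 : ℝ) ≤ nm (kc j).1 := by exact_mod_cast nm_pos.mpr f2.1
        have g2 : (1 : ℝ) ≤ nm (kc j).2 := by exact_mod_cast nm_pos.mpr f3
        have g3 : (1 : ℝ) ≤ (nm (kc j).2 : ℝ) ^ 3 := one_le_pow₀ g2
        have g4 : (1 : ℝ) ≤ (nm ρ.1 : ℝ) ^ 2 := one_le_pow₀ hd1
        rw [Finset.mem_product]
        refine ⟨?_, ?_⟩
        · simp only [hJJ]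
          rw [mem_BF]
          refine ⟨f2, (le_div_iff₀ (by positivity)).mpr (le_trans ?_ q3)⟩
          rw [f4]
          have : (nm (kc j).1 : ℝ) ≤ nm (kc j).1 * (nm (kc j).2 : ℝ) ^ 3 :=
            le_mul_of_one_le_right (by positivity) g3
          gcongr
        · refine (mem_bl hZ0.le).mpr ⟨f3, le_trans ?_ q3⟩
          have g5 : (nm (kc j).2 : ℝ) ≤ (nm (kc j).2 : ℝ) ^ 3 :=
            le_self_pow₀ g2 (by norm_num)
          have g6 : (nm (kc j).2 : ℝ) ^ 3 ≤ nm j := by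
            rw [f4]; exact le_mul_of_one_le_left (by positivity) g1
          have g7 : (nm j : ℝ) ≤ nm j * (nm ρ.1 : ℝ) ^ 2 :=
            le_mul_of_one_le_right (Nat.cast_nonneg _) g4
          linarith
      rw [Finset.mul_sum, Finset.mul_sum]
      refine le_trans ?_ (Finset.sum_le_sum_of_subset_of_nonneg hsub fun x _ _ => hW0 _ _ _)
      rw [Finset.sum_image hinj]
      refine Finset.sum_le_sum fun j hj => ?_
      obtain ⟨q1, q2, -⟩ := hA' ρ hρ γ hγ j hj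
      obtain ⟨f1, f2, f3⟩ := hfac j hj
      have hjn := nmpos q1
      have hκn := nmpos f2.1
      have hsn := nmpos f3
      have w1 := wt_le hV hc hjn hdn hγn q2
      have w2 := norm_TE0_cg_cube_sq (hGp γ hγ) f3 hY hα hdp (dl ρ.1) (kc j).1 hep
      rw [← f1] at w2
      have w3 : (nm j : ℝ) ^ (-(1 : ℝ) / 3) = n13 (kc j).1 * (nm (kc j).2 : ℝ)⁻¹ := by
        have f4 : (nm j : ℝ) = nm (kc j).1 * (nm (kc j).2 : ℝ) ^ 3 := by
          conv_lhs => rw [f1]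
          rw [nm_mul, nm_pow]; push_cast; ring
        rw [f4, Real.mul_rpow hκn.le (by positivity), ← Real.rpow_natCast (nm (kc j).2 : ℝ) 3,
          ← Real.rpow_mul hsn.le]
        have : ((3 : ℕ) : ℝ) * (-(1 : ℝ) / 3) = -1 := by norm_num
        rw [this, Real.rpow_neg_one]
        rfl
      have w4 : 0 ≤ (tau (kc j).2 : ℝ) * ∑ s ∈ dvs (kc j).2, (if Squarefree s then
          (tau γ : ℝ) * ∑ t ∈ dvs γ, gt ρ.1 (kc j).1 (lc ρ.2 s) t else 0) :=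
        mul_nonneg (Nat.cast_nonneg _) (Finset.sum_nonneg fun s _ => by
          split_ifs
          · exact mul_nonneg (Nat.cast_nonneg _) (Finset.sum_nonneg fun t _ => hgt0 _ _ _ _)
          · exact le_rfl)
      calc Q * ((nm γ : ℝ) ^ (-(1 / 2) : ℝ) *
            ‖TE0 (cg γ (fun m => α (ρ.1 * m))) (dl ρ.1) j ρ.2‖ ^ 2) =
            H * nm ρ.2 * (V ^ (-(1 / 3) : ℝ) * (nm ρ.1 : ℝ) ^ (2 / 3 : ℝ) *
              (nm γ : ℝ) ^ (-(1 / 2) : ℝ)) *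
              ‖TE0 (cg γ (fun m => α (ρ.1 * m))) (dl ρ.1) j ρ.2‖ ^ 2 := by
            rw [hQ]; ring
        _ ≤ H * nm ρ.2 * (c ^ (1 / 3 : ℝ) *
              ((nm j : ℝ) ^ (-(1 : ℝ) / 3) * (nm γ : ℝ) ^ (-(3 / 2) : ℝ))) *
              ((tau (kc j).2 : ℝ) * ∑ s ∈ dvs (kc j).2, (if Squarefree s then
                (tau γ : ℝ) * ∑ t ∈ dvs γ, gt ρ.1 (kc j).1 (lc ρ.2 s) t else 0)) := by
            gcongr
        _ = W γ (kc j).1 (kc j).2 := by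
            simp only [hW]
            have : ∑ s' ∈ dvs (kc j).2, (if Squarefree s' then (nm γ : ℝ) ^ (-(3 / 2) : ℝ) *
                ((tau γ : ℝ) * ∑ t ∈ dvs γ, gt ρ.1 (kc j).1 (lc ρ.2 s') t) else 0) =
                (nm γ : ℝ) ^ (-(3 / 2) : ℝ) * ∑ s ∈ dvs (kc j).2, (if Squarefree s then
                (tau γ : ℝ) * ∑ t ∈ dvs γ, gt ρ.1 (kc j).1 (lc ρ.2 s) t else 0) := by
              rw [Finset.mul_sum]
              refine Finset.sum_congr rfl fun s _ => ?_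
              split_ifs
              · rfl
              · rw [mul_zero]
            rw [this, w3, hB]
            ring
    refine (Finset.sum_le_sum b4).trans ?_
    rw [Finset.sum_comm, Finset.sum_product, Finset.mul_sum]
    refine Finset.sum_le_sum fun κ _ => ?_
    have hn3 := X6C180.n13_nonneg κ
    -- sum over γ, then over s
    have b5 : ∀ s' : Eis, ∑ γ ∈ Gs, (nm γ : ℝ) ^ (-(3 / 2) : ℝ) *
        ((tau γ : ℝ) * ∑ t ∈ dvs γ, gt ρ.1 κ (lc ρ.2 s') t) ≤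
        C1 * ∑ t ∈ T, (nm t : ℝ)⁻¹ * gt ρ.1 κ (lc ρ.2 s') t := fun s' =>
      h1 Gs hGp (gt ρ.1 κ (lc ρ.2 s')) (hgt0 ρ.1 κ (lc ρ.2 s'))
    set G2 : Eis → ℝ := fun s' => if Squarefree s' then
      C1 * ∑ t ∈ T, (nm t : ℝ)⁻¹ * gt ρ.1 κ (lc ρ.2 s') t else 0 with hG2
    have hG20 : ∀ s', 0 ≤ G2 s' := fun s' => by
      simp only [hG2]
      split_ifs
      · exact mul_nonneg hC1 (Finset.sum_nonneg fun t _ => mul_nonneg (by positivity)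
          (hgt0 _ _ _ _))
      · exact le_rfl
    have b6 : ∀ s ∈ Cs, ∑ γ ∈ Gs, W γ κ s ≤
        B * (n13 κ * (nm ρ.2 * ((nm s : ℝ)⁻¹ * ((tau s : ℝ) * ∑ s' ∈ dvs s, G2 s')))) := by
      intro s _
      have e1 : ∑ γ ∈ Gs, W γ κ s = B * (n13 κ * (nm ρ.2 * ((nm s : ℝ)⁻¹ *
          ((tau s : ℝ) * ∑ s' ∈ dvs s, (if Squarefree s' then
            ∑ γ ∈ Gs, (nm γ : ℝ) ^ (-(3 / 2) : ℝ) *
            ((tau γ : ℝ) * ∑ t ∈ dvs γ, gt ρ.1 κ (lc ρ.2 s') t) else 0))))) := by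
        simp only [hW]
        rw [← Finset.mul_sum, ← Finset.mul_sum, ← Finset.mul_sum, ← Finset.mul_sum,
          ← Finset.mul_sum, Finset.sum_comm]
        congr 5
        refine Finset.sum_congr rfl fun s' _ => ?_
        split_ifs
        · rfl
        · exact Finset.sum_const_zero
      rw [e1]
      have e2 : ∑ s' ∈ dvs s, (if Squarefree s' then
            ∑ γ ∈ Gs, (nm γ : ℝ) ^ (-(3 / 2) : ℝ) *
            ((tau γ : ℝ) * ∑ t ∈ dvs γ, gt ρ.1 κ (lc ρ.2 s') t) else 0) ≤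
          ∑ s' ∈ dvs s, G2 s' := by
        refine Finset.sum_le_sum fun s' _ => ?_
        simp only [hG2]
        split_ifs
        · exact b5 s'
        · exact le_rfl
      have e3 : 0 ≤ (tau s : ℝ) := Nat.cast_nonneg _
      exact mul_le_mul_of_nonneg_left (mul_le_mul_of_nonneg_left (mul_le_mul_of_nonneg_left
        (mul_le_mul_of_nonneg_left (mul_le_mul_of_nonneg_left e2 e3) (by positivity)) hen.le)
        hn3) hB0
    refine (Finset.sum_le_sum b6).trans ?_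
    have b7 := h2 Z hZ Cs hCs' G2 hG20
    have e4 : ∑ s ∈ T2, (nm s : ℝ)⁻¹ * G2 s = C1 * ∑ s ∈ T2, (nm s : ℝ)⁻¹ *
        (if Squarefree s then ∑ t ∈ T, (nm t : ℝ)⁻¹ * gt ρ.1 κ (lc ρ.2 s) t else 0) := by
      rw [Finset.mul_sum]
      refine Finset.sum_congr rfl fun s _ => ?_
      simp only [hG2]
      split_ifs
      · ring
      · ring
    rw [← Finset.mul_sum, ← Finset.mul_sum, ← Finset.mul_sum]
    calc B * (n13 κ * (nm ρ.2 * ∑ s ∈ Cs, (nm s : ℝ)⁻¹ * ((tau s : ℝ) * ∑ s' ∈ dvs s, G2 s'))) ≤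
          B * (n13 κ * (nm ρ.2 * (C2 * Z ^ ε * ∑ s ∈ T2, (nm s : ℝ)⁻¹ * G2 s))) := by
          gcongr
      _ = _ := by
          rw [e4]; ring
  refine (Finset.sum_le_sum s1).trans ?_
  -- all pairs
  set Dd := Rs.image Prod.fst with hDd
  set Es := Rs.image Prod.snd with hEs
  have hDp : ∀ d ∈ Dd, IsPrim d := fun d hd => by
    obtain ⟨ρ, hρ, rfl⟩ := Finset.mem_image.mp hd
    exact (hRs ρ hρ).1
  have hEp : ∀ e ∈ Es, e ∈ S E0 := fun e he => by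
    obtain ⟨ρ, hρ, rfl⟩ := Finset.mem_image.mp he
    exact (hRs ρ hρ).2
  set D0 : ℝ := C2 * Z ^ ε * C1 with hD0
  have hD00 : 0 ≤ D0 := by positivity
  set U : Eis → Eis → Eis → ℝ := fun d κ e => ∑ s ∈ T2, (nm s : ℝ)⁻¹ *
    (if Squarefree s then ∑ t ∈ T, (nm t : ℝ)⁻¹ * gt d κ (lc e s) t else 0) with hU
  have hU0 : ∀ d κ e, 0 ≤ U d κ e := fun d κ e => Finset.sum_nonneg fun s _ =>
    mul_nonneg (by positivity) (by
      split_ifs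
      · exact Finset.sum_nonneg fun t _ => mul_nonneg (by positivity) (hgt0 _ _ _ _)
      · exact le_rfl)
  set F : Eis → Eis → ℝ := fun d e => B * ∑ κ ∈ JJ d, n13 κ * (nm e * (D0 * U d κ e)) with hF
  have hF0 : ∀ d e, 0 ≤ F d e := fun d e => mul_nonneg hB0 (Finset.sum_nonneg fun j _ =>
    mul_nonneg (X6C180.n13_nonneg _) (mul_nonneg (Nat.cast_nonneg _) (mul_nonneg hD00
      (hU0 _ _ _))))
  have s2 : ∑ ρ ∈ Rs, F ρ.1 ρ.2 ≤ ∑ d ∈ Dd, ∑ e ∈ Es, F d e := by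
    rw [← Finset.sum_product']
    refine Finset.sum_le_sum_of_subset_of_nonneg ?_ fun x _ _ => hF0 _ _
    intro ρ hρ
    rw [Finset.mem_product]
    exact ⟨Finset.mem_image_of_mem _ hρ, Finset.mem_image_of_mem _ hρ⟩
  refine s2.trans ?_
  -- one δ
  have s3 : ∀ d ∈ Dd, ∑ e ∈ Es, F d e ≤ if d ∈ S Y then
      C1 * C2 * (Z ^ ε * H * c ^ (1 / 3 : ℝ)) * ∑ κ ∈ JJ d, n13 κ *
        ∑ u ∈ S Y, (bw E0 u * (tau u : ℝ) ^ 4) * ‖T1 α d κ u‖ ^ 2 else 0 := by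
    intro d hd
    have hdp := hDp d hd
    have hdn := nmpos hdp.ne_zero
    have e1 : ∑ e ∈ Es, F d e = B * D0 * ∑ κ ∈ JJ d, n13 κ *
        ∑ e ∈ Es, (nm e : ℝ) * U d κ e := by
      simp only [hF]
      rw [← Finset.mul_sum, Finset.sum_comm, mul_assoc B D0, Finset.mul_sum (a := D0)]
      congr 1
      refine Finset.sum_congr rfl fun j _ => ?_
      rw [← Finset.mul_sum]
      have : ∑ e ∈ Es, (nm e : ℝ) * (D0 * U d j e) = D0 * ∑ e ∈ Es, (nm e : ℝ) * U d j e := by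
        rw [Finset.mul_sum]
        exact Finset.sum_congr rfl fun e _ => by ring
      rw [this]
      ring
    rw [e1]
    have e2 : ∀ κ, ∑ e ∈ Es, (nm e : ℝ) * U d κ e ≤
        ∑ u ∈ S Y, (bw E0 u * (tau u : ℝ) ^ 4) * ‖T1 α d κ u‖ ^ 2 := by
      intro κ
      exact sum_lc2g (Y := Y) hY hE0 hEp hT2p hTp (G := fun u => ‖T1 α d κ u‖ ^ 2)
        (fun u => by positivity) (fun u hu hn => by
          show ‖T1 α d κ u‖ ^ 2 = 0
          rw [T1_zero_e hY hα hdp κ hu hn]; simp)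
    have e3 : B * D0 * ∑ κ ∈ JJ d, n13 κ * ∑ e ∈ Es, (nm e : ℝ) * U d κ e ≤
        B * D0 * ∑ j ∈ JJ d, n13 j * (
          ∑ u ∈ S Y, (bw E0 u * (tau u : ℝ) ^ 4) * ‖T1 α d j u‖ ^ 2) :=
      mul_le_mul_of_nonneg_left (Finset.sum_le_sum fun j _ =>
        mul_le_mul_of_nonneg_left (e2 j) (X6C180.n13_nonneg _)) (by positivity)
    refine e3.trans ?_
    by_cases hS : d ∈ S Y
    · rw [if_pos hS]
      refine le_of_eq ?_
      rw [hB, hD0]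
      ring
    · rw [if_neg hS]
      refine le_of_eq ?_
      have : ∀ j ∈ JJ d, n13 j * (
          ∑ u ∈ S Y, (bw E0 u * (tau u : ℝ) ^ 4) * ‖T1 α d j u‖ ^ 2) = 0 := by
        intro j _
        have : ∀ u ∈ S Y, (bw E0 u * (tau u : ℝ) ^ 4) * ‖T1 α d j u‖ ^ 2 = 0 := by
          intro u _
          rw [T1_zero_d hY hα hdp hS]; simp
        rw [Finset.sum_eq_zero this]; simp
      rw [Finset.sum_eq_zero this, mul_zero]
  refine (Finset.sum_le_sum s3).trans ?_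
  rw [← Finset.sum_filter, ← Finset.mul_sum]

/-! ### joint blocks -/

/-- **weighted sums of `‖T1‖²` through the joint blocks** -/
theorem T1_sum (R : ℝ) (hR : 0 ≤ R) (A : ℕ) (hA : 2 ≤ A) {J : ℝ} (hAJ : J + 1 < A) (hJ : 0 ≤ J) :
    ∃ C : ℝ, 0 ≤ C ∧ ∀ (Y X Zd M : ℝ), 1 ≤ Y → 0 < X → 0 ≤ M → ∀ α : Eis → ℂ, Adm Y X R α →
      ∀ d : Eis, IsPrim d → ∀ (ω : Eis → Eis → ℝ), (∀ U κ, 0 ≤ ω U κ) → ∀ (Ω : ℝ → ℝ → ℝ),
      (∀ B V, 0 < B → 0 < V → 0 ≤ Ω B V) →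
      (∀ U κ B V, U ∈ S Y → κ ≠ 0 → (nm U : ℝ) ≤ B → B < 2 * nm U → (nm κ : ℝ) ≤ V →
        V < 2 * nm κ → ω U κ ≤ Ω B V) →
      (∀ B V, 1 ≤ B → B ≤ Y → 1 ≤ V → V ≤ Zd → ∀ t,
        Ω B V * JB Y α (fun _ => True) d B V t ≤ M * (1 + |t|) ^ J) →
      ∑ κ ∈ BF Zd, ∑ u ∈ S Y, ω u κ * ‖T1 α d κ u‖ ^ 2 ≤
        C * (X / nm d) ^ (-(1 / 3) : ℝ) * ((1 + 2 * Real.log Y) *
          (1 + 2 * Real.log (max 1 Zd)) * M) := by
  obtain ⟨C0, hC0, h0⟩ := norm_T1_sq_le R hR A hA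
  have hI : 0 ≤ ∫ t, jb (A - J) t := integral_nonneg fun t => (jb_pos _ t).le
  refine ⟨C0 * ∫ t, jb (A - J) t, by positivity, ?_⟩
  intro Y X Zd M hY hX hM α hα d hd ω hω0 Ω hΩ hω hyp
  have hY0 : 0 ≤ Y := by linarith
  have hdn := nmpos hd.ne_zero
  have key := I1146.gen_h (A := (A : ℝ)) hAJ hJ (Z' := Zd) hY hM hα.sup hd (Q := fun _ => True)
    hω0 hΩ hω hyp
  have e1 : ∑ κ ∈ BF Zd, ∑ u ∈ S Y, ω u κ * ‖T1 α d κ u‖ ^ 2 ≤
      ∑ x ∈ (BF Zd).sigma fun κ => (S Y).filter (fun u => IsCoprime κ u),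
        ω x.2 x.1 * (C0 * (X / nm d) ^ (-(1 / 3) : ℝ) * Wf (A : ℝ) α d x.1 x.2) := by
    rw [Finset.sum_sigma]
    refine Finset.sum_le_sum fun κ _ => ?_
    rw [Finset.sum_filter]
    refine Finset.sum_le_sum fun u hu => ?_
    have hup := ((mem_S hY0).1 hu).2.1
    split_ifs with hc
    · exact mul_le_mul_of_nonneg_left (h0 Y X hY0 hX α hα d κ u hd hup) (hω0 _ _)
    · have : T1 α d κ u = 0 := I1146.TE_zero_e hc
      rw [this]; simp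
  refine e1.trans ?_
  have hsub : ((BF Zd).sigma fun κ => (S Y).filter (fun u => IsCoprime κ u)).image
      (fun s => (s.2, s.1)) ⊆ TH Y Zd (fun _ => True) := by
    intro y hy
    obtain ⟨s, hs, rfl⟩ := Finset.mem_image.mp hy
    rw [Finset.mem_sigma] at hs
    obtain ⟨hs1, hs2⟩ := hs
    obtain ⟨ht1, ht2⟩ := Finset.mem_filter.mp hs2
    have ht3 := (mem_S hY0).1 ht1
    have h5 := mem_BF.mp hs1
    exact I1146.mem_TH.mpr ⟨⟨ht1, trivial⟩, h5,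
      I1146.CF_mul h5.1 (I1146.CF_sqf ht3.2.1.ne_zero ht3.2.2) ht2⟩
  have hinj : Set.InjOn (fun s : (_ : Eis) × Eis => (s.2, s.1))
      ((BF Zd).sigma fun κ => (S Y).filter (fun u => IsCoprime κ u) :
        Set ((_ : Eis) × Eis)) := by
    intro a _ b _ hab
    obtain ⟨a1, a2⟩ := a
    obtain ⟨b1, b2⟩ := b
    simp only [Prod.mk.injEq] at hab
    obtain ⟨h1, h2⟩ := hab
    subst h1; subst h2; rfl
  have e2 : ∑ x ∈ (BF Zd).sigma fun κ => (S Y).filter (fun u => IsCoprime κ u),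
        ω x.2 x.1 * (C0 * (X / nm d) ^ (-(1 / 3) : ℝ) * Wf (A : ℝ) α d x.1 x.2) =
      C0 * (X / nm d) ^ (-(1 / 3) : ℝ) *
        ∑ y ∈ ((BF Zd).sigma fun κ => (S Y).filter (fun u => IsCoprime κ u)).image
          (fun s => (s.2, s.1)), ω y.1 y.2 * Wb (A : ℝ) (sg α (d * y.1)) (y.2 * y.1) := by
    rw [Finset.sum_image hinj, Finset.mul_sum]
    refine Finset.sum_congr rfl fun x _ => ?_
    rw [EHu320.Wf_eq_Wb']
    ring
  rw [e2]
  have hX3 : 0 ≤ C0 * (X / nm d) ^ (-(1 / 3) : ℝ) := by positivity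
  refine (mul_le_mul_of_nonneg_left (Finset.sum_le_sum_of_subset_of_nonneg hsub
    fun y _ _ => mul_nonneg (hω0 _ _) (Wb_nonneg _ _ _)) hX3).trans ?_
  refine (mul_le_mul_of_nonneg_left key hX3).trans (le_of_eq ?_)
  ring

/-- the block weight -/
def bB (E0 B : ℝ) : ℝ := min B (2 * E0 ^ 2 / B)

lemma bB_nonneg {E0 B : ℝ} (hB : 0 ≤ B) : 0 ≤ bB E0 B := by
  unfold bB; positivity

lemma bw_le_bB {E0 B : ℝ} {U : Eis} (hU : U ≠ 0) (h1 : (nm U : ℝ) ≤ B) (h2 : B < 2 * nm U) :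
    bw E0 U ≤ bB E0 B := by
  have hUn := nmpos hU
  have hB : 0 < B := hUn.trans_le h1
  unfold bw bB
  refine min_le_min h1 ?_
  rw [← div_eq_mul_inv, div_le_div_iff₀ hUn hB]
  nlinarith [sq_nonneg E0]

/-- the block weight against the joint number -/
lemma bB_mul {E0 B : ℝ} (hE0 : 0 < E0) (hB : 0 < B) :
    bB E0 B * (B⁻¹ * (max 1 (B / E0)) ^ 2) ≤ 2 := by
  unfold bB
  rcases le_total B E0 with h | h
  · have h1 : max 1 (B / E0) = 1 := max_eq_left ((div_le_one hE0).mpr h)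
    rw [h1, one_pow, mul_one]
    calc min B (2 * E0 ^ 2 / B) * B⁻¹ ≤ B * B⁻¹ :=
          mul_le_mul_of_nonneg_right (min_le_left _ _) (by positivity)
      _ = 1 := by field_simp
      _ ≤ 2 := by norm_num
  · have h1 : max 1 (B / E0) = B / E0 := max_eq_right ((one_le_div hE0).mpr h)
    rw [h1]
    calc min B (2 * E0 ^ 2 / B) * (B⁻¹ * (B / E0) ^ 2) ≤
          (2 * E0 ^ 2 / B) * (B⁻¹ * (B / E0) ^ 2) :=
          mul_le_mul_of_nonneg_right (min_le_right _ _) (by positivity)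
      _ = 2 := by field_simp

/-- logarithms and divisor numbers -/
lemma logs {ε : ℝ} (hε : 0 < ε) : ∃ C : ℝ, 0 ≤ C ∧ ∀ Pb : ℝ, 1 ≤ Pb →
    (1 + Real.log Pb) * ((1 + 2 * Real.log Pb) * (1 + 2 * Real.log Pb)) ≤ C * Pb ^ ε := by
  obtain ⟨C, hC, h⟩ := PInv255.one_add_log_pow_le 3 ε hε
  refine ⟨4 * C, by positivity, fun Pb hP => ?_⟩
  have hl := Real.log_nonneg hP
  have h1 := h Pb hP
  calc (1 + Real.log Pb) * ((1 + 2 * Real.log Pb) * (1 + 2 * Real.log Pb)) ≤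
        (1 + Real.log Pb) * ((2 * (1 + Real.log Pb)) * (2 * (1 + Real.log Pb))) := by
        gcongr <;> linarith
    _ = 4 * (1 + Real.log Pb) ^ 3 := by ring
    _ ≤ 4 * (C * Pb ^ ε) := by linarith
    _ = _ := by ring

/-- **the cube-free lines from joint numbers** (no loss in the level) -/
theorem TN_cf_J (R : ℝ) (hR : 0 ≤ R) (A : ℕ) (hA : 2 ≤ A) {J : ℝ} (hAJ : J + 1 < A)
    (hJ : 0 ≤ J) {ε : ℝ} (hε : 0 < ε) : ∃ C : ℝ, 0 ≤ C ∧
    ∀ (Pb Y X W E0 M : ℝ), 1 ≤ Pb → 1 ≤ Y → Y ≤ Pb → 0 < X → W ≤ Pb → 0 < E0 → 0 ≤ M →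
    ∀ α : Eis → ℂ, Adm Y X R α →
      (∀ d ∈ S Y, ∀ B V, 1 ≤ B → B ≤ Y → 1 ≤ V → V ≤ W / (nm d : ℝ) ^ 2 → ∀ t,
        JB Y α (fun _ => True) d B V t ≤
          M / (nm d : ℝ) ^ 2 * (B⁻¹ * (max 1 (B / E0)) ^ 2) * (1 + |t|) ^ J) →
    ∀ (Ds EE : Finset Eis) (om : Eis → ℝ) (As : Eis → Eis → Finset Eis) (dl : Eis → Eis),
      (∀ d ∈ Ds, IsPrim d) → (∀ e ∈ EE, e ∈ S E0) → 0 ≤ om 1 → om 1 ≤ 1 →
      (∀ d ∈ Ds, ∀ j ∈ As d 1, CF j ∧ (nm j : ℝ) * (nm d : ℝ) ^ 2 ≤ W) →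
      E3Z548.TN (fun d _ m => α (d * m)) (fun e => (nm e : ℝ)) Ds EE om {1} As dl ≤
        C * Pb ^ ε * X ^ (-(1 / 3) : ℝ) * M := by
  obtain ⟨C1, hC1, h1⟩ := T1_sum R hR A hA hAJ hJ
  obtain ⟨C2, hC2, h2⟩ := logs hε
  refine ⟨C1 * 200 * C2, by positivity, ?_⟩
  intro Pb Y X W E0 M hPb hY hYP hX hWP hE0 hM α hα hyp Ds EE om As dl hDs hEE hom0 hom1 hAs
  have hY0 : 0 ≤ Y := by linarith
  have hX3 : 0 ≤ X ^ (-(1 / 3) : ℝ) := by positivity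
  have hlP := Real.log_nonneg hPb
  have hlY := Real.log_nonneg hY
  have hlYP : Real.log Y ≤ Real.log Pb := Real.log_le_log (by linarith) hYP
  have hd : ∀ d ∈ Ds, ∑ e ∈ EE, (nm d : ℝ) ^ (2 / 3 : ℝ) * (nm e : ℝ) *
      ∑ γ ∈ ({1} : Finset Eis), om γ * ∑ j ∈ As d γ,
        ‖TE0 (cg γ (fun m => α (d * m))) (dl d) j e‖ ^ 2 ≤
      if d ∈ S Y then 1 / (nm d : ℝ) * (C1 * 2 * X ^ (-(1 / 3) : ℝ) * M *
        ((1 + 2 * Real.log Pb) * (1 + 2 * Real.log Pb))) else 0 := by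
    intro d hd
    have hdp := hDs d hd
    have hdn := nmpos hdp.ne_zero
    have hd1 : (1 : ℝ) ≤ nm d := nm_ge_one hdp.ne_zero
    -- one `e`
    have a1 : ∀ e ∈ EE, (nm d : ℝ) ^ (2 / 3 : ℝ) * (nm e : ℝ) *
        ∑ γ ∈ ({1} : Finset Eis), om γ * ∑ j ∈ As d γ,
        ‖TE0 (cg γ (fun m => α (d * m))) (dl d) j e‖ ^ 2 ≤
        (nm d : ℝ) ^ (2 / 3 : ℝ) * ∑ j ∈ BF (W / (nm d : ℝ) ^ 2),
          bw E0 e * ‖T1 α d j e‖ ^ 2 := by
      intro e he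
      have he' := (mem_S hE0.le).1 (hEE e he)
      have hen := nmpos he'.2.1.ne_zero
      have hbw : (nm e : ℝ) = bw E0 e := by
        unfold bw
        refine (min_eq_left ?_).symm
        rw [← div_eq_mul_inv, le_div_iff₀ hen]
        have : (nm e : ℝ) ≤ E0 := he'.1
        nlinarith
      rw [Finset.sum_singleton, mul_assoc]
      refine mul_le_mul_of_nonneg_left ?_ (by positivity)
      have a2 : om 1 * ∑ j ∈ As d 1, ‖TE0 (cg 1 (fun m => α (d * m))) (dl d) j e‖ ^ 2 ≤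
          ∑ j ∈ BF (W / (nm d : ℝ) ^ 2), ‖T1 α d j e‖ ^ 2 := by
        have a3 : om 1 * ∑ j ∈ As d 1, ‖TE0 (cg 1 (fun m => α (d * m))) (dl d) j e‖ ^ 2 ≤
            ∑ j ∈ As d 1, ‖TE0 (cg 1 (fun m => α (d * m))) (dl d) j e‖ ^ 2 :=
          mul_le_of_le_one_left (Finset.sum_nonneg fun _ _ => by positivity) hom1
        refine a3.trans ?_
        have hsub : As d 1 ⊆ BF (W / (nm d : ℝ) ^ 2) := by
          intro j hj
          obtain ⟨q1, q2⟩ := hAs d hd j hj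
          exact mem_BF.mpr ⟨q1, (le_div_iff₀ (by positivity)).mpr q2⟩
        refine le_trans (Finset.sum_le_sum fun j _ => ?_)
          (Finset.sum_le_sum_of_subset_of_nonneg hsub fun _ _ _ => by positivity)
        have b1 := norm_TE0_cg_sq isPrim_one hY0 hα.sup hdp (dl d) j he'.2.1
        have b2 : dvs (1 : Eis) = {1} := by
          ext t
          rw [mem_dvs one_ne_zero, Finset.mem_singleton]
          constructor
          · rintro ⟨h1, h2⟩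
            exact h1.eq_of_associated isPrim_one
              (associated_one_iff_isUnit.mpr (isUnit_of_dvd_one h2))
          · rintro rfl
            exact ⟨isPrim_one, dvd_rfl⟩
        have b3 : (tau (1 : Eis) : ℝ) = 1 := by
          unfold Div277.tau
          rw [b2]; simp
        have b4 : lc e 1 = e := DgA829.lc_unique he'.2.1 isPrim_one he'.2.1 fun k =>
          ⟨fun h => ⟨h, one_dvd _⟩, fun h => h.1⟩
        rw [b2, Finset.sum_singleton, if_pos squarefree_one, b3, one_mul, b4] at b1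
        exact b1
      calc (nm e : ℝ) * (om 1 * ∑ j ∈ As d 1,
            ‖TE0 (cg 1 (fun m => α (d * m))) (dl d) j e‖ ^ 2) ≤
            nm e * ∑ j ∈ BF (W / (nm d : ℝ) ^ 2), ‖T1 α d j e‖ ^ 2 :=
            mul_le_mul_of_nonneg_left a2 hen.le
        _ = _ := by
            rw [hbw, Finset.mul_sum]
    refine (Finset.sum_le_sum a1).trans ?_
    rw [← Finset.mul_sum]
    by_cases hS : d ∈ S Y
    swap
    · rw [if_neg hS]
      refine le_of_eq ?_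
      have : ∀ e ∈ EE, ∑ j ∈ BF (W / (nm d : ℝ) ^ 2), bw E0 e * ‖T1 α d j e‖ ^ 2 = 0 := by
        intro e _
        refine Finset.sum_eq_zero fun j _ => ?_
        rw [T1_zero_d hY0 hα.sup hdp hS]; simp
      rw [Finset.sum_eq_zero this, mul_zero]
    rw [if_pos hS]
    have a4 : ∑ e ∈ EE, ∑ j ∈ BF (W / (nm d : ℝ) ^ 2), bw E0 e * ‖T1 α d j e‖ ^ 2 ≤
        ∑ κ ∈ BF (W / (nm d : ℝ) ^ 2), ∑ u ∈ S Y, bw E0 u * ‖T1 α d κ u‖ ^ 2 := by
      rw [Finset.sum_comm]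
      refine Finset.sum_le_sum fun κ _ => ?_
      have hz : ∑ u ∈ EE, bw E0 u * ‖T1 α d κ u‖ ^ 2 =
          ∑ u ∈ EE.filter (fun u => u ∈ S Y), bw E0 u * ‖T1 α d κ u‖ ^ 2 := by
        symm
        refine Finset.sum_subset (Finset.filter_subset _ _) fun u hu hn => ?_
        have h5 : u ∉ S Y := fun h => hn (Finset.mem_filter.mpr ⟨hu, h⟩)
        rw [T1_zero_e hY0 hα.sup hdp κ ((mem_S hE0.le).1 (hEE u hu)).2.1 h5]
        simp
      rw [hz]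
      exact Finset.sum_le_sum_of_subset_of_nonneg
        (fun u hu => (Finset.mem_filter.mp hu).2) fun u _ _ =>
        mul_nonneg (bw_nonneg _ _) (by positivity)
    have a5 := h1 Y X (W / (nm d : ℝ) ^ 2) (2 * (M / (nm d : ℝ) ^ 2)) hY hX (by positivity) α hα d
      hdp (fun u _ => bw E0 u) (fun U _ => bw_nonneg _ _) (fun B _ => bB E0 B)
      (fun B V hB _ => bB_nonneg hB.le)
      (fun U κ B V hU _ h3 h4 _ _ => bw_le_bB ((mem_S hY0).1 hU).2.1.ne_zero h3 h4)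
      (fun B V hB1 hB2 hV1 hV2 t => by
        have hB0 : 0 < B := by linarith
        have h6 := hyp d hS B V hB1 hB2 hV1 hV2 t
        have h7 := bB_mul hE0 hB0
        have h8 := bB_nonneg (E0 := E0) hB0.le
        calc bB E0 B * JB Y α (fun _ => True) d B V t ≤
              bB E0 B * (M / (nm d : ℝ) ^ 2 * (B⁻¹ * (max 1 (B / E0)) ^ 2) * (1 + |t|) ^ J) :=
              mul_le_mul_of_nonneg_left h6 h8
          _ = (bB E0 B * (B⁻¹ * (max 1 (B / E0)) ^ 2)) *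
              (M / (nm d : ℝ) ^ 2 * (1 + |t|) ^ J) := by ring
          _ ≤ 2 * (M / (nm d : ℝ) ^ 2 * (1 + |t|) ^ J) :=
              mul_le_mul_of_nonneg_right h7 (by positivity)
          _ = _ := by ring)
    have a6 : Real.log (max 1 (W / (nm d : ℝ) ^ 2)) ≤ Real.log Pb := by
      refine Real.log_le_log (lt_of_lt_of_le one_pos (le_max_left _ _)) (max_le hPb ?_)
      rw [div_le_iff₀ (by positivity)]
      nlinarith [one_le_pow₀ hd1 (n := 2)]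
    have a7 := Real.log_nonneg (le_max_left 1 (W / (nm d : ℝ) ^ 2))
    have a8 : (nm d : ℝ) ^ (2 / 3 : ℝ) * (X / nm d) ^ (-(1 / 3) : ℝ) =
        nm d * X ^ (-(1 / 3) : ℝ) := by
      rw [Real.div_rpow hX.le hdn.le, Real.rpow_neg hdn.le, div_inv_eq_mul]
      calc (nm d : ℝ) ^ (2 / 3 : ℝ) * (X ^ (-(1 / 3) : ℝ) * (nm d : ℝ) ^ (1 / 3 : ℝ)) =
            ((nm d : ℝ) ^ (2 / 3 : ℝ) * (nm d : ℝ) ^ (1 / 3 : ℝ)) * X ^ (-(1 / 3) : ℝ) := by ring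
        _ = _ := by
            rw [← Real.rpow_add hdn]
            norm_num
    calc (nm d : ℝ) ^ (2 / 3 : ℝ) * ∑ e ∈ EE, ∑ j ∈ BF (W / (nm d : ℝ) ^ 2),
          bw E0 e * ‖T1 α d j e‖ ^ 2 ≤
          (nm d : ℝ) ^ (2 / 3 : ℝ) * (C1 * (X / nm d) ^ (-(1 / 3) : ℝ) * ((1 + 2 * Real.log Y) *
          (1 + 2 * Real.log (max 1 (W / (nm d : ℝ) ^ 2))) * (2 * (M / (nm d : ℝ) ^ 2)))) :=
          mul_le_mul_of_nonneg_left (a4.trans a5) (by positivity)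
      _ ≤ (nm d : ℝ) ^ (2 / 3 : ℝ) * (C1 * (X / nm d) ^ (-(1 / 3) : ℝ) * ((1 + 2 * Real.log Pb) *
          (1 + 2 * Real.log Pb) * (2 * (M / (nm d : ℝ) ^ 2)))) := by
          gcongr
      _ = ((nm d : ℝ) ^ (2 / 3 : ℝ) * (X / nm d) ^ (-(1 / 3) : ℝ)) * (C1 * ((1 + 2 * Real.log Pb) *
          (1 + 2 * Real.log Pb) * (2 * (M / (nm d : ℝ) ^ 2)))) := by ring
      _ = _ := by
          rw [a8]
          field_simp
  unfold E3Z548.TN
  refine (Finset.sum_le_sum hd).trans ?_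
  rw [← Finset.sum_filter, ← Finset.sum_mul]
  have hs : ∑ δ ∈ Ds.filter (fun d => d ∈ S Y), 1 / (nm δ : ℝ) ≤ 100 * (1 + Real.log Pb) :=
    (Finset.sum_le_sum_of_subset_of_nonneg (fun d hd => (Finset.mem_filter.mp hd).2)
      fun _ _ _ => by positivity).trans ((sum_inv_S551 hY).trans (by linarith))
  have h9 := h2 Pb hPb
  calc (∑ δ ∈ Ds.filter (fun d => d ∈ S Y), 1 / (nm δ : ℝ)) *
        (C1 * 2 * X ^ (-(1 / 3) : ℝ) * M * ((1 + 2 * Real.log Pb) * (1 + 2 * Real.log Pb))) ≤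
        (100 * (1 + Real.log Pb)) *
        (C1 * 2 * X ^ (-(1 / 3) : ℝ) * M * ((1 + 2 * Real.log Pb) * (1 + 2 * Real.log Pb))) := by
        gcongr
    _ = C1 * 200 * X ^ (-(1 / 3) : ℝ) * M *
        ((1 + Real.log Pb) * ((1 + 2 * Real.log Pb) * (1 + 2 * Real.log Pb))) := by ring
    _ ≤ C1 * 200 * X ^ (-(1 / 3) : ℝ) * M * (C2 * Pb ^ ε) := by gcongr
    _ = _ := by ring

/-- **all lines from joint numbers with level decay** -/
theorem TN_J (R : ℝ) (hR : 0 ≤ R) (A : ℕ) (hA : 2 ≤ A) {J : ℝ} (hAJ : J + 1 < A)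
    (hJ : 0 ≤ J) {ε : ℝ} (hε : 0 < ε) : ∃ C : ℝ, 0 ≤ C ∧
    ∀ (Pb Y X W E0 M : ℝ), 1 ≤ Pb → 1 ≤ Y → Y ≤ Pb → 0 < X → W ≤ Pb → 0 < E0 → 0 ≤ M →
    ∀ α : Eis → ℂ, Adm Y X R α →
      (∀ d ∈ S Y, ∀ B V, 1 ≤ B → B ≤ Y → 1 ≤ V → V ≤ W / (nm d : ℝ) ^ 2 → ∀ t,
        JB Y α (fun _ => True) d B V t ≤
          M * (V * (nm d : ℝ) ^ 2 / W) ^ (1 / 3 : ℝ) / (nm d : ℝ) ^ 2 *
            (B⁻¹ * (max 1 (B / E0)) ^ 2) * (1 + |t|) ^ J) →
    ∀ (Ds EE : Finset Eis) (om : Eis → ℝ) (Gs : Finset Eis) (As : Eis → Eis → Finset Eis)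
      (dl : Eis → Eis),
      (∀ d ∈ Ds, IsPrim d) → (∀ e ∈ EE, e ∈ S E0) →
      (∀ γ ∈ Gs, IsPrim γ ∧ 0 ≤ om γ ∧ om γ ≤ (nm γ : ℝ) ^ (-(1 / 2) : ℝ)) →
      (∀ d ∈ Ds, ∀ γ ∈ Gs, ∀ j ∈ As d γ, j ≠ 0 ∧
        (nm j : ℝ) * (nm d : ℝ) ^ 2 * (nm γ : ℝ) ^ 3 ≤ W) →
      E3Z548.TN (fun d _ m => α (d * m)) (fun e => (nm e : ℝ)) Ds EE om Gs As dl ≤
        C * Pb ^ ε * X ^ (-(1 / 3) : ℝ) * M := by
  have hε3 : 0 < ε / 3 := by positivity
  have hε12 : 0 < ε / 12 := by positivity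
  obtain ⟨C0, hC0, h0⟩ := TM_core hε3
  obtain ⟨C1, hC1, h1⟩ := T1_sum R hR A hA hAJ hJ
  obtain ⟨C2, hC2, h2⟩ := logs hε3
  obtain ⟨C3, hC3, h3⟩ := Div277.tau_le_rpow hε12
  refine ⟨C0 * C1 * 400 * C2 * C3 ^ 4, by positivity, ?_⟩
  intro Pb Y X W E0 M hPb hY hYP hX hWP hE0 hM α hα hyp Ds EE om Gs As dl hDs hEE hG hAs
  have hY0 : 0 ≤ Y := by linarith
  have hP0 : 0 < Pb := by linarith
  have hX3 : 0 ≤ X ^ (-(1 / 3) : ℝ) := by positivity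
  have hRHS : 0 ≤ C0 * C1 * 400 * C2 * C3 ^ 4 * Pb ^ ε * X ^ (-(1 / 3) : ℝ) * M := by positivity
  by_cases hW1 : 1 ≤ W
  swap
  · refine le_trans (le_of_eq ?_) hRHS
    unfold E3Z548.TN
    refine Finset.sum_eq_zero fun d hd => Finset.sum_eq_zero fun e he => ?_
    have : ∀ γ ∈ Gs, om γ * ∑ j ∈ As d γ,
        ‖TE0 (cg γ (fun m => α (d * m))) (dl d) j e‖ ^ 2 = 0 := by
      intro γ hγ
      have : As d γ = ∅ := by
        rw [Finset.eq_empty_iff_forall_notMem]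
        intro j hj
        obtain ⟨q1, q2⟩ := hAs d hd γ hγ j hj
        have g1 : (1 : ℝ) ≤ nm j := nm_ge_one q1
        have g2 : (1 : ℝ) ≤ nm d := nm_ge_one (hDs d hd).ne_zero
        have g3 : (1 : ℝ) ≤ nm γ := nm_ge_one (hG γ hγ).1.ne_zero
        have g4 : (1 : ℝ) ≤ (nm j : ℝ) * (nm d : ℝ) ^ 2 * (nm γ : ℝ) ^ 3 :=
          one_le_mul_of_one_le_of_one_le
            (one_le_mul_of_one_le_of_one_le g1 (one_le_pow₀ g2)) (one_le_pow₀ g3)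
        exact hW1 (g4.trans q2)
      rw [this]; simp
    rw [Finset.sum_eq_zero this, mul_zero]
  have hW0 : 0 < W := by linarith
  have hlP := Real.log_nonneg hPb
  have hlY := Real.log_nonneg hY
  have hlYP : Real.log Y ≤ Real.log Pb := Real.log_le_log (by linarith) hYP
  have hW3 : 0 < W ^ (1 / 3 : ℝ) := by positivity
  have hWW : W ^ (1 / 3 : ℝ) * W ^ (-(1 / 3) : ℝ) = 1 := by
    rw [← Real.rpow_add hW0]; norm_num
  -- through `T1`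
  have k1 := h0 Y W E0 W 1 (W ^ (1 / 3 : ℝ)) hY0 hW1 hE0.le hW0 zero_le_one hW3.le α hα.sup dl
    (fun d e => (nm d : ℝ) ^ (2 / 3 : ℝ) * nm e) om Gs (fun d _ γ => As d γ) (Ds ×ˢ EE)
    (fun ρ hρ => ⟨hDs _ (Finset.mem_product.mp hρ).1, hEE _ (Finset.mem_product.mp hρ).2⟩)
    (fun ρ _ => by
      refine le_of_eq ?_
      calc (nm ρ.1 : ℝ) ^ (2 / 3 : ℝ) * nm ρ.2 =
            (W ^ (1 / 3 : ℝ) * W ^ (-(1 / 3) : ℝ)) *
              ((nm ρ.1 : ℝ) ^ (2 / 3 : ℝ) * nm ρ.2) := by rw [hWW, one_mul]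
        _ = _ := by ring) hG
    (fun ρ hρ γ hγ j hj => by
      obtain ⟨q1, q2⟩ := hAs _ (Finset.mem_product.mp hρ).1 γ hγ j hj
      refine ⟨q1, by rw [one_mul]; exact q2, le_trans ?_ q2⟩
      have hg1 : (1 : ℝ) ≤ nm γ := nm_ge_one (hG γ hγ).1.ne_zero
      exact le_mul_of_one_le_right (by positivity) (one_le_pow₀ hg1))
  have k2 : E3Z548.TN (fun d _ m => α (d * m)) (fun e => (nm e : ℝ)) Ds EE om Gs As dl =
      ∑ ρ ∈ Ds ×ˢ EE, (nm ρ.1 : ℝ) ^ (2 / 3 : ℝ) * nm ρ.2 * ∑ γ ∈ Gs, om γ *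
        ∑ j ∈ As ρ.1 γ, ‖TE0 (cg γ (fun m => α (ρ.1 * m))) (dl ρ.1) j ρ.2‖ ^ 2 := by
    unfold E3Z548.TN
    rw [Finset.sum_product]
  rw [k2]
  refine k1.trans ?_
  rw [Real.one_rpow, mul_one]
  -- one `d`
  have k3 : ∀ d ∈ ((Ds ×ˢ EE).image Prod.fst).filter (fun d => d ∈ S Y),
      ∑ κ ∈ BF (W / (nm d : ℝ) ^ 2), n13 κ *
        ∑ u ∈ S Y, (bw E0 u * (tau u : ℝ) ^ 4) * ‖T1 α d κ u‖ ^ 2 ≤
      1 / (nm d : ℝ) * (C1 * 4 * C3 ^ 4 * Pb ^ (ε / 3) * W ^ (-(1 / 3) : ℝ) *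
        X ^ (-(1 / 3) : ℝ) * M * ((1 + 2 * Real.log Pb) * (1 + 2 * Real.log Pb))) := by
    intro d hd
    have hS := (Finset.mem_filter.mp hd).2
    have hdp := ((mem_S hY0).1 hS).2.1
    have hdn := nmpos hdp.ne_zero
    have hd1 : (1 : ℝ) ≤ nm d := nm_ge_one hdp.ne_zero
    have hτ : ∀ u ∈ S Y, (tau u : ℝ) ^ 4 ≤ C3 ^ 4 * Pb ^ (ε / 3) := by
      intro u hu
      have hu' := (mem_S hY0).1 hu
      have h5 := h3 u hu'.2.1.ne_zero
      have h6 : (tau u : ℝ) ≤ C3 * Pb ^ (ε / 12) := by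
        refine h5.trans (mul_le_mul_of_nonneg_left ?_ (by linarith))
        exact Real.rpow_le_rpow (Nat.cast_nonneg _) (hu'.1.trans hYP) hε12.le
      calc (tau u : ℝ) ^ 4 ≤ (C3 * Pb ^ (ε / 12)) ^ 4 :=
            pow_le_pow_left₀ (Nat.cast_nonneg _) h6 4
        _ = _ := by
            rw [mul_pow, ← Real.rpow_natCast (Pb ^ (ε / 12)) 4, ← Real.rpow_mul hP0.le]
            congr 2
            push_cast
            ring
    have a1 : ∑ κ ∈ BF (W / (nm d : ℝ) ^ 2), n13 κ *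
        ∑ u ∈ S Y, (bw E0 u * (tau u : ℝ) ^ 4) * ‖T1 α d κ u‖ ^ 2 ≤
        C3 ^ 4 * Pb ^ (ε / 3) * ∑ κ ∈ BF (W / (nm d : ℝ) ^ 2), ∑ u ∈ S Y,
          (n13 κ * bw E0 u) * ‖T1 α d κ u‖ ^ 2 := by
      rw [Finset.mul_sum]
      refine Finset.sum_le_sum fun κ _ => ?_
      rw [Finset.mul_sum, Finset.mul_sum]
      refine Finset.sum_le_sum fun u hu => ?_
      have b1 := hτ u hu
      have b2 := bw_nonneg E0 u
      have b3 := X6C180.n13_nonneg κ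
      calc n13 κ * ((bw E0 u * (tau u : ℝ) ^ 4) * ‖T1 α d κ u‖ ^ 2) ≤
            n13 κ * ((bw E0 u * (C3 ^ 4 * Pb ^ (ε / 3))) * ‖T1 α d κ u‖ ^ 2) := by gcongr
        _ = _ := by ring
    have a5 := h1 Y X (W / (nm d : ℝ) ^ 2)
      (4 * (M * ((nm d : ℝ) ^ 2 / W) ^ (1 / 3 : ℝ) / (nm d : ℝ) ^ 2)) hY hX (by positivity) α hα d
      hdp (fun u κ => n13 κ * bw E0 u)
      (fun U κ => mul_nonneg (X6C180.n13_nonneg _) (bw_nonneg _ _))
      (fun B V => (2 * V ^ (-(1 / 3) : ℝ)) * bB E0 B)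
      (fun B V hB hV => mul_nonneg (by positivity) (bB_nonneg hB.le))
      (fun U κ B V hU hκ h3 h4 h5 h6 => by
        have hκn := nmpos hκ
        have hV0 : 0 < V := hκn.trans_le h5
        refine mul_le_mul ?_ (bw_le_bB ((mem_S hY0).1 hU).2.1.ne_zero h3 h4) (bw_nonneg _ _)
          (by positivity)
        unfold X6C180.n13
        rw [show (-(1 : ℝ) / 3) = (-(1 / 3) : ℝ) by norm_num]
        have h7 : (nm κ : ℝ) ^ (-(1 / 3) : ℝ) ≤ (V / 2) ^ (-(1 / 3) : ℝ) :=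
          Real.rpow_le_rpow_of_nonpos (by positivity) (by linarith) (by norm_num)
        refine h7.trans ?_
        rw [Real.div_rpow hV0.le (by norm_num), Real.rpow_neg (by norm_num : (0 : ℝ) ≤ 2),
          div_inv_eq_mul, mul_comm]
        refine mul_le_mul_of_nonneg_right ?_ (by positivity)
        calc (2 : ℝ) ^ (1 / 3 : ℝ) ≤ 2 ^ (1 : ℝ) :=
              Real.rpow_le_rpow_of_exponent_le (by norm_num) (by norm_num)
          _ = 2 := Real.rpow_one 2)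
      (fun B V hB1 hB2 hV1 hV2 t => by
        have hB0 : 0 < B := by linarith
        have hV0 : 0 < V := by linarith
        have h6 := hyp d hS B V hB1 hB2 hV1 hV2 t
        have h7 := bB_mul hE0 hB0
        have h8 := bB_nonneg (E0 := E0) hB0.le
        have h9 : V ^ (-(1 / 3) : ℝ) * (V * (nm d : ℝ) ^ 2 / W) ^ (1 / 3 : ℝ) =
            ((nm d : ℝ) ^ 2 / W) ^ (1 / 3 : ℝ) := by
          rw [mul_div_assoc, Real.mul_rpow hV0.le (by positivity), ← mul_assoc,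
            ← Real.rpow_add hV0]
          norm_num
        calc (2 * V ^ (-(1 / 3) : ℝ)) * bB E0 B * JB Y α (fun _ => True) d B V t ≤
              (2 * V ^ (-(1 / 3) : ℝ)) * bB E0 B *
                (M * (V * (nm d : ℝ) ^ 2 / W) ^ (1 / 3 : ℝ) / (nm d : ℝ) ^ 2 *
                  (B⁻¹ * (max 1 (B / E0)) ^ 2) * (1 + |t|) ^ J) :=
              mul_le_mul_of_nonneg_left h6 (by positivity)
          _ = (bB E0 B * (B⁻¹ * (max 1 (B / E0)) ^ 2)) * (2 * (M *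
                (V ^ (-(1 / 3) : ℝ) * (V * (nm d : ℝ) ^ 2 / W) ^ (1 / 3 : ℝ)) /
                (nm d : ℝ) ^ 2) * (1 + |t|) ^ J) := by ring
          _ ≤ 2 * (2 * (M *
                (V ^ (-(1 / 3) : ℝ) * (V * (nm d : ℝ) ^ 2 / W) ^ (1 / 3 : ℝ)) /
                (nm d : ℝ) ^ 2) * (1 + |t|) ^ J) :=
              mul_le_mul_of_nonneg_right h7 (by positivity)
          _ = _ := by
              rw [h9]; ring)
    have a6 : Real.log (max 1 (W / (nm d : ℝ) ^ 2)) ≤ Real.log Pb := by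
      refine Real.log_le_log (lt_of_lt_of_le one_pos (le_max_left _ _)) (max_le hPb ?_)
      rw [div_le_iff₀ (by positivity)]
      nlinarith [one_le_pow₀ hd1 (n := 2)]
    have a7 := Real.log_nonneg (le_max_left 1 (W / (nm d : ℝ) ^ 2))
    have a8 : (X / nm d) ^ (-(1 / 3) : ℝ) * ((nm d : ℝ) ^ 2 / W) ^ (1 / 3 : ℝ) =
        nm d * (X ^ (-(1 / 3) : ℝ) * W ^ (-(1 / 3) : ℝ)) := by
      rw [Real.div_rpow hX.le hdn.le, Real.rpow_neg hdn.le, div_inv_eq_mul,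
        Real.div_rpow (by positivity) hW0.le, ← Real.rpow_natCast (nm d : ℝ) 2,
        ← Real.rpow_mul hdn.le, Real.rpow_neg hW0.le]
      have : (nm d : ℝ) ^ (1 / 3 : ℝ) * (nm d : ℝ) ^ (((2 : ℕ) : ℝ) * (1 / 3)) = nm d := by
        rw [← Real.rpow_add hdn]
        norm_num
      calc X ^ (-(1 / 3) : ℝ) * (nm d : ℝ) ^ (1 / 3 : ℝ) *
            ((nm d : ℝ) ^ (((2 : ℕ) : ℝ) * (1 / 3)) / W ^ (1 / 3 : ℝ)) =
            ((nm d : ℝ) ^ (1 / 3 : ℝ) * (nm d : ℝ) ^ (((2 : ℕ) : ℝ) * (1 / 3))) *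
              (X ^ (-(1 / 3) : ℝ) / W ^ (1 / 3 : ℝ)) := by ring
        _ = _ := by rw [this]; ring
    calc ∑ κ ∈ BF (W / (nm d : ℝ) ^ 2), n13 κ *
          ∑ u ∈ S Y, (bw E0 u * (tau u : ℝ) ^ 4) * ‖T1 α d κ u‖ ^ 2 ≤
          C3 ^ 4 * Pb ^ (ε / 3) * (C1 * (X / nm d) ^ (-(1 / 3) : ℝ) * ((1 + 2 * Real.log Y) *
          (1 + 2 * Real.log (max 1 (W / (nm d : ℝ) ^ 2))) *
          (4 * (M * ((nm d : ℝ) ^ 2 / W) ^ (1 / 3 : ℝ) / (nm d : ℝ) ^ 2)))) :=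
          a1.trans (mul_le_mul_of_nonneg_left a5 (by positivity))
      _ ≤ C3 ^ 4 * Pb ^ (ε / 3) * (C1 * (X / nm d) ^ (-(1 / 3) : ℝ) * ((1 + 2 * Real.log Pb) *
          (1 + 2 * Real.log Pb) *
          (4 * (M * ((nm d : ℝ) ^ 2 / W) ^ (1 / 3 : ℝ) / (nm d : ℝ) ^ 2)))) := by
          gcongr
      _ = ((X / nm d) ^ (-(1 / 3) : ℝ) * ((nm d : ℝ) ^ 2 / W) ^ (1 / 3 : ℝ)) *
          (C3 ^ 4 * Pb ^ (ε / 3) * (C1 * ((1 + 2 * Real.log Pb) *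
          (1 + 2 * Real.log Pb) * (4 * (M / (nm d : ℝ) ^ 2))))) := by ring
      _ = _ := by
          rw [a8]
          field_simp
  have k4 := Finset.sum_le_sum k3
  rw [← Finset.sum_mul] at k4
  have hs : ∑ δ ∈ ((Ds ×ˢ EE).image Prod.fst).filter (fun d => d ∈ S Y), 1 / (nm δ : ℝ) ≤
      100 * (1 + Real.log Pb) :=
    (Finset.sum_le_sum_of_subset_of_nonneg (fun d hd => (Finset.mem_filter.mp hd).2)
      fun _ _ _ => by positivity).trans ((sum_inv_S551 hY).trans (by linarith))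
  have h9 := h2 Pb hPb
  have hWP3 : W ^ (ε / 3) ≤ Pb ^ (ε / 3) := Real.rpow_le_rpow hW0.le hWP hε3.le
  have hPe : Pb ^ (ε / 3) * Pb ^ (ε / 3) * Pb ^ (ε / 3) = Pb ^ ε := by
    rw [← Real.rpow_add hP0, ← Real.rpow_add hP0]
    congr 1; ring
  calc C0 * (W ^ (ε / 3) * W ^ (1 / 3 : ℝ)) *
        ∑ d ∈ ((Ds ×ˢ EE).image Prod.fst).filter (fun d => d ∈ S Y),
          ∑ κ ∈ BF (W / (nm d : ℝ) ^ 2), n13 κ *
            ∑ u ∈ S Y, (bw E0 u * (tau u : ℝ) ^ 4) * ‖T1 α d κ u‖ ^ 2 ≤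
        C0 * (Pb ^ (ε / 3) * W ^ (1 / 3 : ℝ)) * ((100 * (1 + Real.log Pb)) *
          (C1 * 4 * C3 ^ 4 * Pb ^ (ε / 3) * W ^ (-(1 / 3) : ℝ) *
        X ^ (-(1 / 3) : ℝ) * M * ((1 + 2 * Real.log Pb) * (1 + 2 * Real.log Pb)))) := by
        refine mul_le_mul (by gcongr) (k4.trans ?_) ?_ (by positivity)
        · gcongr
        · refine Finset.sum_nonneg fun d _ => Finset.sum_nonneg fun κ _ =>
            mul_nonneg (X6C180.n13_nonneg _) (Finset.sum_nonneg fun u _ =>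
            mul_nonneg (mul_nonneg (bw_nonneg _ _) (by positivity)) (by positivity))
    _ = C0 * C1 * 400 * C3 ^ 4 * (Pb ^ (ε / 3) * Pb ^ (ε / 3)) *
        (W ^ (1 / 3 : ℝ) * W ^ (-(1 / 3) : ℝ)) * X ^ (-(1 / 3) : ℝ) * M *
        ((1 + Real.log Pb) * ((1 + 2 * Real.log Pb) * (1 + 2 * Real.log Pb))) := by ring
    _ ≤ C0 * C1 * 400 * C3 ^ 4 * (Pb ^ (ε / 3) * Pb ^ (ε / 3)) *
        (W ^ (1 / 3 : ℝ) * W ^ (-(1 / 3) : ℝ)) * X ^ (-(1 / 3) : ℝ) * M *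
        (C2 * Pb ^ (ε / 3)) := by gcongr
    _ = C0 * C1 * 400 * C2 * C3 ^ 4 * (Pb ^ (ε / 3) * Pb ^ (ε / 3) * Pb ^ (ε / 3)) *
        X ^ (-(1 / 3) : ℝ) * M * (W ^ (1 / 3 : ℝ) * W ^ (-(1 / 3) : ℝ)) := by ring
    _ = _ := by rw [hPe, hWW]; ring

end Crest.Agent.R017.OT551
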