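import Crest.Agent.R017.OTc_551

/-!
# Row 17, C.REMg, R8 (E3): the T-lines of OFF, joint numbers only on the family `Ds` (helper551)

* `TN_cf_Jd`, `TN_Jd` : `TN_cf_J`, `TN_J` with the joint numbers only for `d ∈ Ds` (so the number
  `M` may depend on the block of `d`)
-/

set_option autoImplicit false

noncomputable section

open Complex MeasureTheory
open scoped ComplexConjugate Classical

namespace Crest.Agent.R017.OT551

open Crest.Agent.R012 Crest.Agent.R012.Eis Crest.Agent.R012.MC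
open Crest.Agent.R012.LS2 (S mem_S bl mem_bl)
open Crest.Agent.R012.Mob705 (pdiv mem_pdiv kap0 mu PE)
open Crest.Agent.R012.Div277 (tau dvs mem_dvs)
open Crest.Agent.R017.PX764 (Gh n6 th)
open Crest.Agent.R017.X6C180 (n13 cM)
open Crest.Agent.R017.CM106 (CS TG FS)
open Crest.Agent.R017.E1551 hiding tau Dg
open Crest.Agent.R017.E2440 (TE)
open Crest.Agent.R017.DgA829 (lc lc_prim lc_dvd nm_lc)
open Crest.Agent.R017.LBx48 (one_le_tauR tau_mono)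
open Crest.Agent.R017.E3D579 (TE0)
open Crest.Agent.R017.E3T829 (cg TM)

/-- **the cube-free lines from joint numbers on the family** (no loss in the level) -/
theorem TN_cf_Jd (R : ℝ) (hR : 0 ≤ R) (A : ℕ) (hA : 2 ≤ A) {J : ℝ} (hAJ : J + 1 < A)
    (hJ : 0 ≤ J) {ε : ℝ} (hε : 0 < ε) : ∃ C : ℝ, 0 ≤ C ∧
    ∀ (Pb Y X W E0 M : ℝ), 1 ≤ Pb → 1 ≤ Y → Y ≤ Pb → 0 < X → W ≤ Pb → 0 < E0 → 0 ≤ M →
    ∀ α : Eis → ℂ, Adm Y X R α →
    ∀ (Ds EE : Finset Eis) (om : Eis → ℝ) (As : Eis → Eis → Finset Eis) (dl : Eis → Eis),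
      (∀ d ∈ Ds, d ∈ S Y → ∀ B V, 1 ≤ B → B ≤ Y → 1 ≤ V → V ≤ W / (nm d : ℝ) ^ 2 → ∀ t,
        JB Y α (fun _ => True) d B V t ≤
          M / (nm d : ℝ) ^ 2 * (B⁻¹ * (max 1 (B / E0)) ^ 2) * (1 + |t|) ^ J) →
      (∀ d ∈ Ds, IsPrim d) → (∀ e ∈ EE, e ∈ S E0) → 0 ≤ om 1 → om 1 ≤ 1 →
      (∀ d ∈ Ds, ∀ j ∈ As d 1, CF j ∧ (nm j : ℝ) * (nm d : ℝ) ^ 2 ≤ W) →
      E3Z548.TN (fun d _ m => α (d * m)) (fun e => (nm e : ℝ)) Ds EE om {1} As dl ≤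
        C * Pb ^ ε * X ^ (-(1 / 3) : ℝ) * M := by
  obtain ⟨C1, hC1, h1⟩ := T1_sum R hR A hA hAJ hJ
  obtain ⟨C2, hC2, h2⟩ := logs hε
  refine ⟨C1 * 200 * C2, by positivity, ?_⟩
  intro Pb Y X W E0 M hPb hY hYP hX hWP hE0 hM α hα Ds EE om As dl hyp hDs hEE hom0 hom1 hAs
  have hY0 : 0 ≤ Y := by linarith
  have hX3 : 0 ≤ X ^ (-(1 / 3) : ℝ) := by positivity
  have hlP := Real.log_nonneg hPb
  have hlY := Real.log_nonneg hY
  have hlYP : Real.log Y ≤ Real.log Pb := Real.log_le_log (by linarith) hYP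
  have hd : ∀ d ∈ Ds, ∑ e ∈ EE, (nm d : ℝ) ^ (2 / 3 : ℝ) * (nm e : ℝ) *
      ∑ γ ∈ ({1} : Finset Eis), om γ * ∑ j ∈ As d γ,
        ‖TE0 (cg γ (fun m => α (d * m))) (dl d) j e‖ ^ 2 ≤
      if d ∈ S Y then 1 / (nm d : ℝ) * (C1 * 2 * X ^ (-(1 / 3) : ℝ) * M *
        ((1 + 2 * Real.log Pb) * (1 + 2 * Real.log Pb))) else 0 := by
    intro d hd
    have hdp := hDs d hd
    have hdn := nmpos hdp.ne_zero
    have hd1 : (1 : ℝ) ≤ nm d := nm_ge_one hdp.ne_zero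
    -- one `e`
    have a1 : ∀ e ∈ EE, (nm d : ℝ) ^ (2 / 3 : ℝ) * (nm e : ℝ) *
        ∑ γ ∈ ({1} : Finset Eis), om γ * ∑ j ∈ As d γ,
        ‖TE0 (cg γ (fun m => α (d * m))) (dl d) j e‖ ^ 2 ≤
        (nm d : ℝ) ^ (2 / 3 : ℝ) * ∑ j ∈ BF (W / (nm d : ℝ) ^ 2),
          bw E0 e * ‖T1 α d j e‖ ^ 2 := by
      intro e he
      have he' := (mem_S hE0.le).1 (hEE e he)
      have hen := nmpos he'.2.1.ne_zero
      have hbw : (nm e : ℝ) = bw E0 e := by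
        unfold bw
        refine (min_eq_left ?_).symm
        rw [← div_eq_mul_inv, le_div_iff₀ hen]
        have : (nm e : ℝ) ≤ E0 := he'.1
        nlinarith
      rw [Finset.sum_singleton, mul_assoc]
      refine mul_le_mul_of_nonneg_left ?_ (by positivity)
      have a2 : om 1 * ∑ j ∈ As d 1, ‖TE0 (cg 1 (fun m => α (d * m))) (dl d) j e‖ ^ 2 ≤
          ∑ j ∈ BF (W / (nm d : ℝ) ^ 2), ‖T1 α d j e‖ ^ 2 := by
        have a3 : om 1 * ∑ j ∈ As d 1, ‖TE0 (cg 1 (fun m => α (d * m))) (dl d) j e‖ ^ 2 ≤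
            ∑ j ∈ As d 1, ‖TE0 (cg 1 (fun m => α (d * m))) (dl d) j e‖ ^ 2 :=
          mul_le_of_le_one_left (Finset.sum_nonneg fun _ _ => by positivity) hom1
        refine a3.trans ?_
        have hsub : As d 1 ⊆ BF (W / (nm d : ℝ) ^ 2) := by
          intro j hj
          obtain ⟨q1, q2⟩ := hAs d hd j hj
          exact mem_BF.mpr ⟨q1, (le_div_iff₀ (by positivity)).mpr q2⟩
        refine le_trans (Finset.sum_le_sum fun j _ => ?_)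
          (Finset.sum_le_sum_of_subset_of_nonneg hsub fun _ _ _ => by positivity)
        have b1 := norm_TE0_cg_sq isPrim_one hY0 hα.sup hdp (dl d) j he'.2.1
        have b2 : dvs (1 : Eis) = {1} := by
          ext t
          rw [mem_dvs one_ne_zero, Finset.mem_singleton]
          constructor
          · rintro ⟨h1, h2⟩
            exact h1.eq_of_associated isPrim_one
              (associated_one_iff_isUnit.mpr (isUnit_of_dvd_one h2))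
          · rintro rfl
            exact ⟨isPrim_one, dvd_rfl⟩
        have b3 : (tau (1 : Eis) : ℝ) = 1 := by
          unfold Div277.tau
          rw [b2]; simp
        have b4 : lc e 1 = e := DgA829.lc_unique he'.2.1 isPrim_one he'.2.1 fun k =>
          ⟨fun h => ⟨h, one_dvd _⟩, fun h => h.1⟩
        rw [b2, Finset.sum_singleton, if_pos squarefree_one, b3, one_mul, b4] at b1
        exact b1
      calc (nm e : ℝ) * (om 1 * ∑ j ∈ As d 1,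
            ‖TE0 (cg 1 (fun m => α (d * m))) (dl d) j e‖ ^ 2) ≤
            nm e * ∑ j ∈ BF (W / (nm d : ℝ) ^ 2), ‖T1 α d j e‖ ^ 2 :=
            mul_le_mul_of_nonneg_left a2 hen.le
        _ = _ := by
            rw [hbw, Finset.mul_sum]
    refine (Finset.sum_le_sum a1).trans ?_
    rw [← Finset.mul_sum]
    by_cases hS : d ∈ S Y
    swap
    · rw [if_neg hS]
      refine le_of_eq ?_
      have : ∀ e ∈ EE, ∑ j ∈ BF (W / (nm d : ℝ) ^ 2), bw E0 e * ‖T1 α d j e‖ ^ 2 = 0 := by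
        intro e _
        refine Finset.sum_eq_zero fun j _ => ?_
        rw [T1_zero_d hY0 hα.sup hdp hS]; simp
      rw [Finset.sum_eq_zero this, mul_zero]
    rw [if_pos hS]
    have a4 : ∑ e ∈ EE, ∑ j ∈ BF (W / (nm d : ℝ) ^ 2), bw E0 e * ‖T1 α d j e‖ ^ 2 ≤
        ∑ κ ∈ BF (W / (nm d : ℝ) ^ 2), ∑ u ∈ S Y, bw E0 u * ‖T1 α d κ u‖ ^ 2 := by
      rw [Finset.sum_comm]
      refine Finset.sum_le_sum fun κ _ => ?_
      have hz : ∑ u ∈ EE, bw E0 u * ‖T1 α d κ u‖ ^ 2 =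
          ∑ u ∈ EE.filter (fun u => u ∈ S Y), bw E0 u * ‖T1 α d κ u‖ ^ 2 := by
        symm
        refine Finset.sum_subset (Finset.filter_subset _ _) fun u hu hn => ?_
        have h5 : u ∉ S Y := fun h => hn (Finset.mem_filter.mpr ⟨hu, h⟩)
        rw [T1_zero_e hY0 hα.sup hdp κ ((mem_S hE0.le).1 (hEE u hu)).2.1 h5]
        simp
      rw [hz]
      exact Finset.sum_le_sum_of_subset_of_nonneg
        (fun u hu => (Finset.mem_filter.mp hu).2) fun u _ _ =>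
        mul_nonneg (bw_nonneg _ _) (by positivity)
    have a5 := h1 Y X (W / (nm d : ℝ) ^ 2) (2 * (M / (nm d : ℝ) ^ 2)) hY hX (by positivity) α hα d
      hdp (fun u _ => bw E0 u) (fun U _ => bw_nonneg _ _) (fun B _ => bB E0 B)
      (fun B V hB _ => bB_nonneg hB.le)
      (fun U κ B V hU _ h3 h4 _ _ => bw_le_bB ((mem_S hY0).1 hU).2.1.ne_zero h3 h4)
      (fun B V hB1 hB2 hV1 hV2 t => by
        have hB0 : 0 < B := by linarith
        have h6 := hyp d hd hS B V hB1 hB2 hV1 hV2 t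
        have h7 := bB_mul hE0 hB0
        have h8 := bB_nonneg (E0 := E0) hB0.le
        calc bB E0 B * JB Y α (fun _ => True) d B V t ≤
              bB E0 B * (M / (nm d : ℝ) ^ 2 * (B⁻¹ * (max 1 (B / E0)) ^ 2) * (1 + |t|) ^ J) :=
              mul_le_mul_of_nonneg_left h6 h8
          _ = (bB E0 B * (B⁻¹ * (max 1 (B / E0)) ^ 2)) *
              (M / (nm d : ℝ) ^ 2 * (1 + |t|) ^ J) := by ring
          _ ≤ 2 * (M / (nm d : ℝ) ^ 2 * (1 + |t|) ^ J) :=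
              mul_le_mul_of_nonneg_right h7 (by positivity)
          _ = _ := by ring)
    have a6 : Real.log (max 1 (W / (nm d : ℝ) ^ 2)) ≤ Real.log Pb := by
      refine Real.log_le_log (lt_of_lt_of_le one_pos (le_max_left _ _)) (max_le hPb ?_)
      rw [div_le_iff₀ (by positivity)]
      nlinarith [one_le_pow₀ hd1 (n := 2)]
    have a7 := Real.log_nonneg (le_max_left 1 (W / (nm d : ℝ) ^ 2))
    have a8 : (nm d : ℝ) ^ (2 / 3 : ℝ) * (X / nm d) ^ (-(1 / 3) : ℝ) =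
        nm d * X ^ (-(1 / 3) : ℝ) := by
      rw [Real.div_rpow hX.le hdn.le, Real.rpow_neg hdn.le, div_inv_eq_mul]
      calc (nm d : ℝ) ^ (2 / 3 : ℝ) * (X ^ (-(1 / 3) : ℝ) * (nm d : ℝ) ^ (1 / 3 : ℝ)) =
            ((nm d : ℝ) ^ (2 / 3 : ℝ) * (nm d : ℝ) ^ (1 / 3 : ℝ)) * X ^ (-(1 / 3) : ℝ) := by ring
        _ = _ := by
            rw [← Real.rpow_add hdn]
            norm_num
    calc (nm d : ℝ) ^ (2 / 3 : ℝ) * ∑ e ∈ EE, ∑ j ∈ BF (W / (nm d : ℝ) ^ 2),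
          bw E0 e * ‖T1 α d j e‖ ^ 2 ≤
          (nm d : ℝ) ^ (2 / 3 : ℝ) * (C1 * (X / nm d) ^ (-(1 / 3) : ℝ) * ((1 + 2 * Real.log Y) *
          (1 + 2 * Real.log (max 1 (W / (nm d : ℝ) ^ 2))) * (2 * (M / (nm d : ℝ) ^ 2)))) :=
          mul_le_mul_of_nonneg_left (a4.trans a5) (by positivity)
      _ ≤ (nm d : ℝ) ^ (2 / 3 : ℝ) * (C1 * (X / nm d) ^ (-(1 / 3) : ℝ) * ((1 + 2 * Real.log Pb) *
          (1 + 2 * Real.log Pb) * (2 * (M / (nm d : ℝ) ^ 2)))) := by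
          gcongr
      _ = ((nm d : ℝ) ^ (2 / 3 : ℝ) * (X / nm d) ^ (-(1 / 3) : ℝ)) * (C1 * ((1 + 2 * Real.log Pb) *
          (1 + 2 * Real.log Pb) * (2 * (M / (nm d : ℝ) ^ 2)))) := by ring
      _ = _ := by
          rw [a8]
          field_simp
  unfold E3Z548.TN
  refine (Finset.sum_le_sum hd).trans ?_
  rw [← Finset.sum_filter, ← Finset.sum_mul]
  have hs : ∑ δ ∈ Ds.filter (fun d => d ∈ S Y), 1 / (nm δ : ℝ) ≤ 100 * (1 + Real.log Pb) :=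
    (Finset.sum_le_sum_of_subset_of_nonneg (fun d hd => (Finset.mem_filter.mp hd).2)
      fun _ _ _ => by positivity).trans ((sum_inv_S551 hY).trans (by linarith))
  have h9 := h2 Pb hPb
  calc (∑ δ ∈ Ds.filter (fun d => d ∈ S Y), 1 / (nm δ : ℝ)) *
        (C1 * 2 * X ^ (-(1 / 3) : ℝ) * M * ((1 + 2 * Real.log Pb) * (1 + 2 * Real.log Pb))) ≤
        (100 * (1 + Real.log Pb)) *
        (C1 * 2 * X ^ (-(1 / 3) : ℝ) * M * ((1 + 2 * Real.log Pb) * (1 + 2 * Real.log Pb))) := by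
        gcongr
    _ = C1 * 200 * X ^ (-(1 / 3) : ℝ) * M *
        ((1 + Real.log Pb) * ((1 + 2 * Real.log Pb) * (1 + 2 * Real.log Pb))) := by ring
    _ ≤ C1 * 200 * X ^ (-(1 / 3) : ℝ) * M * (C2 * Pb ^ ε) := by gcongr
    _ = _ := by ring

/-- **all lines from joint numbers with level decay, numbers on the family** -/
theorem TN_Jd (R : ℝ) (hR : 0 ≤ R) (A : ℕ) (hA : 2 ≤ A) {J : ℝ} (hAJ : J + 1 < A)
    (hJ : 0 ≤ J) {ε : ℝ} (hε : 0 < ε) : ∃ C : ℝ, 0 ≤ C ∧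
    ∀ (Pb Y X W E0 M : ℝ), 1 ≤ Pb → 1 ≤ Y → Y ≤ Pb → 0 < X → W ≤ Pb → 0 < E0 → 0 ≤ M →
    ∀ α : Eis → ℂ, Adm Y X R α →
    ∀ (Ds EE : Finset Eis) (om : Eis → ℝ) (Gs : Finset Eis) (As : Eis → Eis → Finset Eis)
      (dl : Eis → Eis),
      (∀ d ∈ Ds, d ∈ S Y → ∀ B V, 1 ≤ B → B ≤ Y → 1 ≤ V → V ≤ W / (nm d : ℝ) ^ 2 → ∀ t,
        JB Y α (fun _ => True) d B V t ≤
          M * (V * (nm d : ℝ) ^ 2 / W) ^ (1 / 3 : ℝ) / (nm d : ℝ) ^ 2 *
            (B⁻¹ * (max 1 (B / E0)) ^ 2) * (1 + |t|) ^ J) →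
      (∀ d ∈ Ds, IsPrim d) → (∀ e ∈ EE, e ∈ S E0) →
      (∀ γ ∈ Gs, IsPrim γ ∧ 0 ≤ om γ ∧ om γ ≤ (nm γ : ℝ) ^ (-(1 / 2) : ℝ)) →
      (∀ d ∈ Ds, ∀ γ ∈ Gs, ∀ j ∈ As d γ, j ≠ 0 ∧
        (nm j : ℝ) * (nm d : ℝ) ^ 2 * (nm γ : ℝ) ^ 3 ≤ W) →
      E3Z548.TN (fun d _ m => α (d * m)) (fun e => (nm e : ℝ)) Ds EE om Gs As dl ≤
        C * Pb ^ ε * X ^ (-(1 / 3) : ℝ) * M := by
  have hε3 : 0 < ε / 3 := by positivity
  have hε12 : 0 < ε / 12 := by positivity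
  obtain ⟨C0, hC0, h0⟩ := TM_core hε3
  obtain ⟨C1, hC1, h1⟩ := T1_sum R hR A hA hAJ hJ
  obtain ⟨C2, hC2, h2⟩ := logs hε3
  obtain ⟨C3, hC3, h3⟩ := Div277.tau_le_rpow hε12
  refine ⟨C0 * C1 * 400 * C2 * C3 ^ 4, by positivity, ?_⟩
  intro Pb Y X W E0 M hPb hY hYP hX hWP hE0 hM α hα Ds EE om Gs As dl hyp hDs hEE hG hAs
  have hY0 : 0 ≤ Y := by linarith
  have hP0 : 0 < Pb := by linarith
  have hX3 : 0 ≤ X ^ (-(1 / 3) : ℝ) := by positivity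
  have hRHS : 0 ≤ C0 * C1 * 400 * C2 * C3 ^ 4 * Pb ^ ε * X ^ (-(1 / 3) : ℝ) * M := by positivity
  by_cases hW1 : 1 ≤ W
  swap
  · refine le_trans (le_of_eq ?_) hRHS
    unfold E3Z548.TN
    refine Finset.sum_eq_zero fun d hd => Finset.sum_eq_zero fun e he => ?_
    have : ∀ γ ∈ Gs, om γ * ∑ j ∈ As d γ,
        ‖TE0 (cg γ (fun m => α (d * m))) (dl d) j e‖ ^ 2 = 0 := by
      intro γ hγ
      have : As d γ = ∅ := by
        rw [Finset.eq_empty_iff_forall_notMem]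
        intro j hj
        obtain ⟨q1, q2⟩ := hAs d hd γ hγ j hj
        have g1 : (1 : ℝ) ≤ nm j := nm_ge_one q1
        have g2 : (1 : ℝ) ≤ nm d := nm_ge_one (hDs d hd).ne_zero
        have g3 : (1 : ℝ) ≤ nm γ := nm_ge_one (hG γ hγ).1.ne_zero
        have g4 : (1 : ℝ) ≤ (nm j : ℝ) * (nm d : ℝ) ^ 2 * (nm γ : ℝ) ^ 3 :=
          one_le_mul_of_one_le_of_one_le
            (one_le_mul_of_one_le_of_one_le g1 (one_le_pow₀ g2)) (one_le_pow₀ g3)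
        exact hW1 (g4.trans q2)
      rw [this]; simp
    rw [Finset.sum_eq_zero this, mul_zero]
  have hW0 : 0 < W := by linarith
  have hlP := Real.log_nonneg hPb
  have hlY := Real.log_nonneg hY
  have hlYP : Real.log Y ≤ Real.log Pb := Real.log_le_log (by linarith) hYP
  have hW3 : 0 < W ^ (1 / 3 : ℝ) := by positivity
  have hWW : W ^ (1 / 3 : ℝ) * W ^ (-(1 / 3) : ℝ) = 1 := by
    rw [← Real.rpow_add hW0]; norm_num
  -- through `T1`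
  have k1 := h0 Y W E0 W 1 (W ^ (1 / 3 : ℝ)) hY0 hW1 hE0.le hW0 zero_le_one hW3.le α hα.sup dl
    (fun d e => (nm d : ℝ) ^ (2 / 3 : ℝ) * nm e) om Gs (fun d _ γ => As d γ) (Ds ×ˢ EE)
    (fun ρ hρ => ⟨hDs _ (Finset.mem_product.mp hρ).1, hEE _ (Finset.mem_product.mp hρ).2⟩)
    (fun ρ _ => by
      refine le_of_eq ?_
      calc (nm ρ.1 : ℝ) ^ (2 / 3 : ℝ) * nm ρ.2 =
            (W ^ (1 / 3 : ℝ) * W ^ (-(1 / 3) : ℝ)) *
              ((nm ρ.1 : ℝ) ^ (2 / 3 : ℝ) * nm ρ.2) := by rw [hWW, one_mul]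
        _ = _ := by ring) hG
    (fun ρ hρ γ hγ j hj => by
      obtain ⟨q1, q2⟩ := hAs _ (Finset.mem_product.mp hρ).1 γ hγ j hj
      refine ⟨q1, by rw [one_mul]; exact q2, le_trans ?_ q2⟩
      have hg1 : (1 : ℝ) ≤ nm γ := nm_ge_one (hG γ hγ).1.ne_zero
      exact le_mul_of_one_le_right (by positivity) (one_le_pow₀ hg1))
  have k2 : E3Z548.TN (fun d _ m => α (d * m)) (fun e => (nm e : ℝ)) Ds EE om Gs As dl =
      ∑ ρ ∈ Ds ×ˢ EE, (nm ρ.1 : ℝ) ^ (2 / 3 : ℝ) * nm ρ.2 * ∑ γ ∈ Gs, om γ *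
        ∑ j ∈ As ρ.1 γ, ‖TE0 (cg γ (fun m => α (ρ.1 * m))) (dl ρ.1) j ρ.2‖ ^ 2 := by
    unfold E3Z548.TN
    rw [Finset.sum_product]
  rw [k2]
  refine k1.trans ?_
  rw [Real.one_rpow, mul_one]
  -- one `d`
  have k3 : ∀ d ∈ ((Ds ×ˢ EE).image Prod.fst).filter (fun d => d ∈ S Y),
      ∑ κ ∈ BF (W / (nm d : ℝ) ^ 2), n13 κ *
        ∑ u ∈ S Y, (bw E0 u * (tau u : ℝ) ^ 4) * ‖T1 α d κ u‖ ^ 2 ≤
      1 / (nm d : ℝ) * (C1 * 4 * C3 ^ 4 * Pb ^ (ε / 3) * W ^ (-(1 / 3) : ℝ) *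
        X ^ (-(1 / 3) : ℝ) * M * ((1 + 2 * Real.log Pb) * (1 + 2 * Real.log Pb))) := by
    intro d hd
    have hS := (Finset.mem_filter.mp hd).2
    have hdD : d ∈ Ds := by
      obtain ⟨ρ, hρ, rfl⟩ := Finset.mem_image.mp (Finset.mem_filter.mp hd).1
      exact (Finset.mem_product.mp hρ).1
    have hdp := ((mem_S hY0).1 hS).2.1
    have hdn := nmpos hdp.ne_zero
    have hd1 : (1 : ℝ) ≤ nm d := nm_ge_one hdp.ne_zero
    have hτ : ∀ u ∈ S Y, (tau u : ℝ) ^ 4 ≤ C3 ^ 4 * Pb ^ (ε / 3) := by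
      intro u hu
      have hu' := (mem_S hY0).1 hu
      have h5 := h3 u hu'.2.1.ne_zero
      have h6 : (tau u : ℝ) ≤ C3 * Pb ^ (ε / 12) := by
        refine h5.trans (mul_le_mul_of_nonneg_left ?_ (by linarith))
        exact Real.rpow_le_rpow (Nat.cast_nonneg _) (hu'.1.trans hYP) hε12.le
      calc (tau u : ℝ) ^ 4 ≤ (C3 * Pb ^ (ε / 12)) ^ 4 :=
            pow_le_pow_left₀ (Nat.cast_nonneg _) h6 4
        _ = _ := by
            rw [mul_pow, ← Real.rpow_natCast (Pb ^ (ε / 12)) 4, ← Real.rpow_mul hP0.le]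
            congr 2
            push_cast
            ring
    have a1 : ∑ κ ∈ BF (W / (nm d : ℝ) ^ 2), n13 κ *
        ∑ u ∈ S Y, (bw E0 u * (tau u : ℝ) ^ 4) * ‖T1 α d κ u‖ ^ 2 ≤
        C3 ^ 4 * Pb ^ (ε / 3) * ∑ κ ∈ BF (W / (nm d : ℝ) ^ 2), ∑ u ∈ S Y,
          (n13 κ * bw E0 u) * ‖T1 α d κ u‖ ^ 2 := by
      rw [Finset.mul_sum]
      refine Finset.sum_le_sum fun κ _ => ?_
      rw [Finset.mul_sum, Finset.mul_sum]
      refine Finset.sum_le_sum fun u hu => ?_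
      have b1 := hτ u hu
      have b2 := bw_nonneg E0 u
      have b3 := X6C180.n13_nonneg κ
      calc n13 κ * ((bw E0 u * (tau u : ℝ) ^ 4) * ‖T1 α d κ u‖ ^ 2) ≤
            n13 κ * ((bw E0 u * (C3 ^ 4 * Pb ^ (ε / 3))) * ‖T1 α d κ u‖ ^ 2) := by gcongr
        _ = _ := by ring
    have a5 := h1 Y X (W / (nm d : ℝ) ^ 2)
      (4 * (M * ((nm d : ℝ) ^ 2 / W) ^ (1 / 3 : ℝ) / (nm d : ℝ) ^ 2)) hY hX (by positivity) α hα d
      hdp (fun u κ => n13 κ * bw E0 u)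
      (fun U κ => mul_nonneg (X6C180.n13_nonneg _) (bw_nonneg _ _))
      (fun B V => (2 * V ^ (-(1 / 3) : ℝ)) * bB E0 B)
      (fun B V hB hV => mul_nonneg (by positivity) (bB_nonneg hB.le))
      (fun U κ B V hU hκ h3 h4 h5 h6 => by
        have hκn := nmpos hκ
        have hV0 : 0 < V := hκn.trans_le h5
        refine mul_le_mul ?_ (bw_le_bB ((mem_S hY0).1 hU).2.1.ne_zero h3 h4) (bw_nonneg _ _)
          (by positivity)
        unfold X6C180.n13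
        rw [show (-(1 : ℝ) / 3) = (-(1 / 3) : ℝ) by norm_num]
        have h7 : (nm κ : ℝ) ^ (-(1 / 3) : ℝ) ≤ (V / 2) ^ (-(1 / 3) : ℝ) :=
          Real.rpow_le_rpow_of_nonpos (by positivity) (by linarith) (by norm_num)
        refine h7.trans ?_
        rw [Real.div_rpow hV0.le (by norm_num), Real.rpow_neg (by norm_num : (0 : ℝ) ≤ 2),
          div_inv_eq_mul, mul_comm]
        refine mul_le_mul_of_nonneg_right ?_ (by positivity)
        calc (2 : ℝ) ^ (1 / 3 : ℝ) ≤ 2 ^ (1 : ℝ) :=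
              Real.rpow_le_rpow_of_exponent_le (by norm_num) (by norm_num)
          _ = 2 := Real.rpow_one 2)
      (fun B V hB1 hB2 hV1 hV2 t => by
        have hB0 : 0 < B := by linarith
        have hV0 : 0 < V := by linarith
        have h6 := hyp d hdD hS B V hB1 hB2 hV1 hV2 t
        have h7 := bB_mul hE0 hB0
        have h8 := bB_nonneg (E0 := E0) hB0.le
        have h9 : V ^ (-(1 / 3) : ℝ) * (V * (nm d : ℝ) ^ 2 / W) ^ (1 / 3 : ℝ) =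
            ((nm d : ℝ) ^ 2 / W) ^ (1 / 3 : ℝ) := by
          rw [mul_div_assoc, Real.mul_rpow hV0.le (by positivity), ← mul_assoc,
            ← Real.rpow_add hV0]
          norm_num
        calc (2 * V ^ (-(1 / 3) : ℝ)) * bB E0 B * JB Y α (fun _ => True) d B V t ≤
              (2 * V ^ (-(1 / 3) : ℝ)) * bB E0 B *
                (M * (V * (nm d : ℝ) ^ 2 / W) ^ (1 / 3 : ℝ) / (nm d : ℝ) ^ 2 *
                  (B⁻¹ * (max 1 (B / E0)) ^ 2) * (1 + |t|) ^ J) :=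
              mul_le_mul_of_nonneg_left h6 (by positivity)
          _ = (bB E0 B * (B⁻¹ * (max 1 (B / E0)) ^ 2)) * (2 * (M *
                (V ^ (-(1 / 3) : ℝ) * (V * (nm d : ℝ) ^ 2 / W) ^ (1 / 3 : ℝ)) /
                (nm d : ℝ) ^ 2) * (1 + |t|) ^ J) := by ring
          _ ≤ 2 * (2 * (M *
                (V ^ (-(1 / 3) : ℝ) * (V * (nm d : ℝ) ^ 2 / W) ^ (1 / 3 : ℝ)) /
                (nm d : ℝ) ^ 2) * (1 + |t|) ^ J) :=
              mul_le_mul_of_nonneg_right h7 (by positivity)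
          _ = _ := by
              rw [h9]; ring)
    have a6 : Real.log (max 1 (W / (nm d : ℝ) ^ 2)) ≤ Real.log Pb := by
      refine Real.log_le_log (lt_of_lt_of_le one_pos (le_max_left _ _)) (max_le hPb ?_)
      rw [div_le_iff₀ (by positivity)]
      nlinarith [one_le_pow₀ hd1 (n := 2)]
    have a7 := Real.log_nonneg (le_max_left 1 (W / (nm d : ℝ) ^ 2))
    have a8 : (X / nm d) ^ (-(1 / 3) : ℝ) * ((nm d : ℝ) ^ 2 / W) ^ (1 / 3 : ℝ) =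
        nm d * (X ^ (-(1 / 3) : ℝ) * W ^ (-(1 / 3) : ℝ)) := by
      rw [Real.div_rpow hX.le hdn.le, Real.rpow_neg hdn.le, div_inv_eq_mul,
        Real.div_rpow (by positivity) hW0.le, ← Real.rpow_natCast (nm d : ℝ) 2,
        ← Real.rpow_mul hdn.le, Real.rpow_neg hW0.le]
      have : (nm d : ℝ) ^ (1 / 3 : ℝ) * (nm d : ℝ) ^ (((2 : ℕ) : ℝ) * (1 / 3)) = nm d := by
        rw [← Real.rpow_add hdn]
        norm_num
      calc X ^ (-(1 / 3) : ℝ) * (nm d : ℝ) ^ (1 / 3 : ℝ) *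
            ((nm d : ℝ) ^ (((2 : ℕ) : ℝ) * (1 / 3)) / W ^ (1 / 3 : ℝ)) =
            ((nm d : ℝ) ^ (1 / 3 : ℝ) * (nm d : ℝ) ^ (((2 : ℕ) : ℝ) * (1 / 3))) *
              (X ^ (-(1 / 3) : ℝ) / W ^ (1 / 3 : ℝ)) := by ring
        _ = _ := by rw [this]; ring
    calc ∑ κ ∈ BF (W / (nm d : ℝ) ^ 2), n13 κ *
          ∑ u ∈ S Y, (bw E0 u * (tau u : ℝ) ^ 4) * ‖T1 α d κ u‖ ^ 2 ≤
          C3 ^ 4 * Pb ^ (ε / 3) * (C1 * (X / nm d) ^ (-(1 / 3) : ℝ) * ((1 + 2 * Real.log Y) *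
          (1 + 2 * Real.log (max 1 (W / (nm d : ℝ) ^ 2))) *
          (4 * (M * ((nm d : ℝ) ^ 2 / W) ^ (1 / 3 : ℝ) / (nm d : ℝ) ^ 2)))) :=
          a1.trans (mul_le_mul_of_nonneg_left a5 (by positivity))
      _ ≤ C3 ^ 4 * Pb ^ (ε / 3) * (C1 * (X / nm d) ^ (-(1 / 3) : ℝ) * ((1 + 2 * Real.log Pb) *
          (1 + 2 * Real.log Pb) *
          (4 * (M * ((nm d : ℝ) ^ 2 / W) ^ (1 / 3 : ℝ) / (nm d : ℝ) ^ 2)))) := by
          gcongr
      _ = ((X / nm d) ^ (-(1 / 3) : ℝ) * ((nm d : ℝ) ^ 2 / W) ^ (1 / 3 : ℝ)) *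
          (C3 ^ 4 * Pb ^ (ε / 3) * (C1 * ((1 + 2 * Real.log Pb) *
          (1 + 2 * Real.log Pb) * (4 * (M / (nm d : ℝ) ^ 2))))) := by ring
      _ = _ := by
          rw [a8]
          field_simp
  have k4 := Finset.sum_le_sum k3
  rw [← Finset.sum_mul] at k4
  have hs : ∑ δ ∈ ((Ds ×ˢ EE).image Prod.fst).filter (fun d => d ∈ S Y), 1 / (nm δ : ℝ) ≤
      100 * (1 + Real.log Pb) :=
    (Finset.sum_le_sum_of_subset_of_nonneg (fun d hd => (Finset.mem_filter.mp hd).2)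
      fun _ _ _ => by positivity).trans ((sum_inv_S551 hY).trans (by linarith))
  have h9 := h2 Pb hPb
  have hWP3 : W ^ (ε / 3) ≤ Pb ^ (ε / 3) := Real.rpow_le_rpow hW0.le hWP hε3.le
  have hPe : Pb ^ (ε / 3) * Pb ^ (ε / 3) * Pb ^ (ε / 3) = Pb ^ ε := by
    rw [← Real.rpow_add hP0, ← Real.rpow_add hP0]
    congr 1; ring
  calc C0 * (W ^ (ε / 3) * W ^ (1 / 3 : ℝ)) *
        ∑ d ∈ ((Ds ×ˢ EE).image Prod.fst).filter (fun d => d ∈ S Y),
          ∑ κ ∈ BF (W / (nm d : ℝ) ^ 2), n13 κ *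
            ∑ u ∈ S Y, (bw E0 u * (tau u : ℝ) ^ 4) * ‖T1 α d κ u‖ ^ 2 ≤
        C0 * (Pb ^ (ε / 3) * W ^ (1 / 3 : ℝ)) * ((100 * (1 + Real.log Pb)) *
          (C1 * 4 * C3 ^ 4 * Pb ^ (ε / 3) * W ^ (-(1 / 3) : ℝ) *
        X ^ (-(1 / 3) : ℝ) * M * ((1 + 2 * Real.log Pb) * (1 + 2 * Real.log Pb)))) := by
        refine mul_le_mul (by gcongr) (k4.trans ?_) ?_ (by positivity)
        · gcongr
        · refine Finset.sum_nonneg fun d _ => Finset.sum_nonneg fun κ _ =>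
            mul_nonneg (X6C180.n13_nonneg _) (Finset.sum_nonneg fun u _ =>
            mul_nonneg (mul_nonneg (bw_nonneg _ _) (by positivity)) (by positivity))
    _ = C0 * C1 * 400 * C3 ^ 4 * (Pb ^ (ε / 3) * Pb ^ (ε / 3)) *
        (W ^ (1 / 3 : ℝ) * W ^ (-(1 / 3) : ℝ)) * X ^ (-(1 / 3) : ℝ) * M *
        ((1 + Real.log Pb) * ((1 + 2 * Real.log Pb) * (1 + 2 * Real.log Pb))) := by ring
    _ ≤ C0 * C1 * 400 * C3 ^ 4 * (Pb ^ (ε / 3) * Pb ^ (ε / 3)) *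
        (W ^ (1 / 3 : ℝ) * W ^ (-(1 / 3) : ℝ)) * X ^ (-(1 / 3) : ℝ) * M *
        (C2 * Pb ^ (ε / 3)) := by gcongr
    _ = C0 * C1 * 400 * C2 * C3 ^ 4 * (Pb ^ (ε / 3) * Pb ^ (ε / 3) * Pb ^ (ε / 3)) *
        X ^ (-(1 / 3) : ℝ) * M * (W ^ (1 / 3 : ℝ) * W ^ (-(1 / 3) : ℝ)) := by ring
    _ = _ := by rw [hPe, hWW]; ring

end Crest.Agent.R017.OT551
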