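import Crest.Agent.R017.OneDefs_319

/-!
# Row 17, the case θ = 1: the assembly, literal leaves (helper319)

`y + δ = 1/6`, `δ = 1/10000`, `r = 160`, `η = 1/10^7`, `L = 10`.
-/

set_option autoImplicit false

noncomputable section

open MeasureTheory Complex Set
open scoped ComplexConjugate ContDiff

namespace Crest.Agent.R017.One319

open Crest.Agent.R012 Crest.Agent.R012.Eis Crest.Agent.R012.LS2 Crest.Agent.R012.CR2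
open Crest.Agent.R012.Gauss880 Crest.Agent.R012.Div277
open Crest.Agent.R017.End699 Crest.Agent.R017.B770 Crest.Agent.R017.Asm986
open Crest.Agent.R017.Sup271 Crest.Agent.R017.HB645 Crest.Agent.R017.HBS271 Crest.Agent.R017.Sx545
open Crest.Agent.R017.CM106 (CS TG FS)
open Crest.Agent.R017.TP320 (conv sq VC)

/-- a piece of a box at `k` -/
def pcB (P : DPar) (d₂ : Eis) (t₂ z : ℝ) {j : ℕ} (c : Fin (j - 1) ⊕ Fin j → ℕ) (k : Eis) :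
    Fin (j - 1) ⊕ Fin j → ℂ
  | Sum.inl i => PS (P.ch d₂ t₂ k) (c (Sum.inl i)) 0
  | Sum.inr i => PM (P.ch d₂ t₂ k) z (c (Sum.inr i)) 0

/-- a prime piece of the amplifier at `k` -/
def pcA (P : DPar) (r : ℕ) (y Q₀ : ℝ) (d₁ : Eis) (t₁ : ℝ) (k : Eis) (i : Fin r) : ℂ :=
  AP P.h (kap r y Q₀ i) (fun c => twt P.φ P.l₁ t₁ c * prin0 d₁ c * conj (sy k c))

/-- (O8) second moment of one side: amplifier pieces `Ja` merged (rule C), `Jb` and the box pieces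
`T` not. -/
def SideM2 : Prop := ∀ P : DPar, P.OK → ∀ (r L : ℕ) (ε : ℝ), 0 < ε → ∃ C : ℝ, 0 ≤ C ∧
  ∀ (y Q₀ H : ℝ), 0 ≤ y → 1 ≤ Q₀ → 1 ≤ H → ∀ (Ja Jb : Finset (Fin r)), Disjoint Ja Jb →
    ∀ j : ℕ, j ≤ L → ∀ (c : Fin (j - 1) ⊕ Fin j → ℕ) (T : Finset (Fin (j - 1) ⊕ Fin j))
      (z : ℕ), 1 ≤ z → ∀ (d₁ d₂ : Eis) (t₁ t₂ : ℝ),
      ∑ k ∈ bl H, ((∏ i ∈ Ja ∪ Jb, ‖pcA P r y Q₀ d₁ t₁ k i‖) *
          ∏ i ∈ T, ‖pcB P d₂ t₂ z c k i‖) ^ 2 ≤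
        C * Real.exp (ε * (Real.log H + y / r * Real.log Q₀ * (Ja.card + Jb.card) +
            ∑ i ∈ T, (c i : ℝ))) *
          Real.exp (e4 (Real.log H) (y / r * Real.log Q₀ * Ja.card)
            (∑ i ∈ T, (c i : ℝ) + y / r * Real.log Q₀ * Jb.card))

open Classical in
/-- (O9) from the signed box sums to an absolute sum over `k` with a `q`-free majorant `F`. -/
def BxSum : Prop := ∀ P : DPar, P.OK → ∀ ε : ℝ, 0 < ε → ∃ C β : ℝ, 0 ≤ C ∧ 1 ≤ β ∧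
  ∀ (r : ℕ) (y Q₀ κ : ℝ) (J : Finset (Fin r)) (H : ℝ), 0 < H →
    ∀ (d₁ d₂ d₃ e : Eis) (t₁ t₂ τ z : ℝ) (j : ℕ) (c : Fin (j - 1) ⊕ Fin j → ℕ)
      (𝒟 : Finset Eis), (∀ q ∈ 𝒟, Sm P.n q ∧ Squarefree q) → ∀ (u : Eis → ℝ) (F : Eis → ℝ),
      (∀ k, 0 ≤ F k) →
      (∀ q ∈ 𝒟, ∀ k ∈ bl (β * H), P.NP2 k → ‖P.am r y Q₀ (κ - u q) J d₁ t₁ k‖ *
        ‖GC (P.ch d₂ t₂ k) z c 0‖ ≤ F k) →
      ∑ q ∈ 𝒟, ‖P.bx r y Q₀ (κ - u q) J H d₁ d₂ d₃ e t₁ t₂ τ z c q‖ ≤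
        C * (1 + H) ^ ε * ∑ k ∈ (bl (β * H)).filter (fun k => P.NP2 k), F k

/-- the target exponent -/
def Tm (h q c κ x : ℝ) : ℝ :=
  max (max (t1 h q (c + κ) x) (t2 h q (c + κ) x) - x / 1000)
    (max (h / 3 + q + c + κ) (t3 h q (c + κ) x - x / 1000))

/-- (O10) combinatorial core: direct, Pólya–Vinogradov, or type II. `g` = log-length of one prime
piece of the amplifier, `nJ` = number of pieces. -/
def Comb : Prop := ∀ (j : ℕ) (cs : Fin (j - 1) ⊕ Fin j → ℕ) (h κ x g : ℝ) (nJ : ℕ),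
  0 ≤ x → 0 ≤ g → g ≤ x / 150 → Cone h (∑ i, (cs i : ℝ)) (g * nJ) κ x →
  (∀ i : Fin j, (cs (Sum.inr i) : ℝ) ≤ 9 / 50 * x) →
  ((h + e4 h 0 (∑ i, (cs i : ℝ) + g * nJ)) / 2 + κ ≤ Tm h (∑ i, (cs i : ℝ)) (g * nJ) κ x) ∨
  (∃ i₀ : Fin (j - 1), h / 2 + (h + e4 h 0 (∑ i, (cs i : ℝ) - cs (Sum.inl i₀) + g * nJ)) / 2 + κ ≤
    Tm h (∑ i, (cs i : ℝ)) (g * nJ) κ x) ∨
  (∃ (T : Finset (Fin (j - 1) ⊕ Fin j)) (n₁ n₂ n₃ : ℕ), n₁ + n₂ + n₃ = nJ ∧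
    (e4 h (g * n₁) (∑ i, (cs i : ℝ) - ∑ i ∈ T, (cs i : ℝ)) +
      e4 h (g * n₂) (∑ i ∈ T, (cs i : ℝ) + g * n₃)) / 2 + κ ≤
    Tm h (∑ i, (cs i : ℝ)) (g * nJ) κ x)

/-- (O11) the literal target. -/
def TgbEq : Prop := ∀ η₁ η₂ Q₀ Q H Cc : ℝ, 0 < Q₀ → 0 < Q → 0 < H → 0 < Cc →
  TgB 1 η₁ η₂ (1 / 6) Q₀ Q H Cc =
    Real.exp (t1 (Real.log H) (Real.log Q) (Real.log Cc) (Real.log Q₀) - η₁ * Real.log Q₀) +
    Real.exp (t2 (Real.log H) (Real.log Q) (Real.log Cc) (Real.log Q₀) - η₁ * Real.log Q₀) +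
    Real.exp (t3 (Real.log H) (Real.log Q) (Real.log Cc) (Real.log Q₀) - η₂ * Real.log Q₀)

end Crest.Agent.R017.One319
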