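import Mathlib

/-!
# Row 17, the case θ = 1: the linear inequalities and the subset-sum lemma (helper319)
-/

set_option autoImplicit false

noncomputable section

namespace Crest.Agent.R017.One319

/-! ### linear inequalities (logarithms) -/

/-- the logarithms of the three monomials of `TgB 1` at `y + δ = 1/6`, without gains
(`h, q, c, x` = logs of `H, Q, C, Q₀`) -/
def t1 (h q c x : ℝ) : ℝ := h + (q + c) / 2 + 5 / 36 * x
def t2 (h q c x : ℝ) : ℝ := h / 2 + 3 / 4 * q + c / 4 + 19 / 72 * x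
def t3 (h q c x : ℝ) : ℝ := h / 6 + q + c + x / 9

/-- logarithm of `E4` : `a, b` = logs of the lengths -/
def e4 (h a b : ℝ) : ℝ :=
  max (max (h + (a + b)) (h / 3 + 2 * (a + b))) (max (2 * (a + b) + a) (2 / 3 * h + a + 5 / 3 * b))

/-- the cone of exponents: `c` = amplifier without the squarefree piece `κ`, `g` = granularity -/
structure Cone (h q c κ x : ℝ) : Prop where
  h0 : 0 ≤ h
  q0 : 0 ≤ q
  c0 : 0 ≤ c
  κ0 : 0 ≤ κ
  hx : h ≤ (2 / 3 + 1 / 10000) * x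
  κx : κ ≤ x / 1000
  cx : c + κ ≤ x / 6
  qx : q ≤ x * (1 - 1 / 6) + (c + κ)

/-- (O7a) direct estimate: everything in one side. -/
def LPdir : Prop := ∀ h q c κ x : ℝ, Cone h q c κ x → (q + c ≤ h ∨ h ≤ x / 5) →
  (h + e4 h 0 (q + c)) / 2 + κ ≤ max (max (t1 h q (c + κ) x) (t2 h q (c + κ) x)
    - x / 1000) (max (h / 3 + q + c + κ) (t3 h q (c + κ) x - x / 1000))

/-- (O7b) a smooth piece of length `s ≥ (9/10) h` : Pólya–Vinogradov. -/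
def LPpv : Prop := ∀ h q c κ x s : ℝ, Cone h q c κ x → h ≤ q + c → 9 / 10 * h ≤ s → s ≤ q →
  h / 2 + (h + e4 h 0 (q - s + c)) / 2 + κ ≤ max (max (t1 h q (c + κ) x) (t2 h q (c + κ) x)
    - x / 1000) (h / 3 + q + c + κ)

/-- (O7c) type II: sides `(q - b, a₁)` and `(b, a₂)`, `a₁ + a₂ = c`, on the first side the factor of
length `a₁` is merged, on the second side the factor of length `f ≤ a₂`. -/
def LPii : Prop := ∀ h q c κ x b a₁ a₂ f : ℝ, Cone h q c κ x → h ≤ q + c → x / 5 ≤ h →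
  0 ≤ b → b ≤ q / 2 → (11 / 25 * h ≤ b ∨ q - 21 / 20 * h ≤ b) →
  0 ≤ a₁ → 0 ≤ a₂ → a₁ + a₂ = c →
  (a₂ = 0 ∨ h - (q - b) ≤ 3 * a₁) → (a₁ = 0 ∨ 3 * a₁ ≤ h - (q - b) + x / 50) →
  0 ≤ f → f ≤ a₂ → 3 * f ≤ h → (f = a₂ ∨ h ≤ 3 * f + x / 50) →
  (e4 h a₁ (q - b) + e4 h f (b + (a₂ - f))) / 2 + κ ≤
    max (max (t1 h q (c + κ) x) (t2 h q (c + κ) x) - x / 1000) (h / 3 + q + c + κ)

/-- (O7d) subset sums. -/
def SubSum : Prop := ∀ (ι : Type) [Fintype ι] [DecidableEq ι] (c : ι → ℝ) (s : ℝ),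
  (∀ i, 0 ≤ c i) → (∀ i, c i ≤ s) → s ≤ ∑ i, c i → ∃ T : Finset ι,
    ∑ i ∈ T, c i ≤ (∑ i, c i) / 2 ∧ min ((∑ i, c i) / 3) (∑ i, c i - s) ≤ ∑ i ∈ T, c i

end Crest.Agent.R017.One319
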