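import Crest.Agent.R017.One_Asm_770

/-!
# Row 17, θ = 1: `BOX3 1` (helper770)
-/

set_option autoImplicit false

noncomputable section

open MeasureTheory Complex Set
open scoped ComplexConjugate ContDiff

namespace Crest.Agent.R017.One319

open Crest.Agent.R012 Crest.Agent.R012.Eis Crest.Agent.R012.LS2 Crest.Agent.R012.CR2
open Crest.Agent.R012.PSer47
open Crest.Agent.R017.End699 Crest.Agent.R017.B770 Crest.Agent.R017.Asm986
open Crest.Agent.R017.Sup271 Crest.Agent.R017.HB645 Crest.Agent.R017.HBS271 Crest.Agent.R017.Sx545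
open Crest.Agent.R017.BoxP271

lemma CJ_log {r : ℕ} {y Q₀ : ℝ} (hQ₀ : 0 < Q₀) (J : Finset (Fin r)) :
    CJ r y Q₀ J = Real.exp (y / r * Real.log Q₀ * J.card) := by
  unfold CJ
  rw [Real.rpow_def_of_pos hQ₀]
  congr 1
  ring

lemma TgB_nonneg' (η₁ η₂ : ℝ) {Q₀ Q H Cc : ℝ} (hQ₀ : 0 < Q₀) (hQ : 0 < Q) (hH : 0 < H)
    (hC : 0 < Cc) : 0 ≤ TgB 1 η₁ η₂ (1 / 6) Q₀ Q H Cc := by
  rw [TgB_exp η₁ η₂ hQ₀ hQ hH hC]
  positivity

/-- the trivial bound of the squarefree piece -/
lemma AS_triv {P : DPar} (hP : P.OK) : ∃ C : ℝ, 0 ≤ C ∧ ∀ (κ : ℝ) (d₁ : Eis) (t₁ : ℝ) (k : Eis),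
    ‖AS P.h₀ κ (fun c => twt P.φ P.l₁ t₁ c * prin0 d₁ c * conj (sy k c))‖ ≤ C * Real.exp κ := by
  obtain ⟨B, hB⟩ := hP.h₀.cd.continuous.bounded_above_of_compact_support (HW.cpt hP.h₀)
  have hB0 : 0 ≤ B := (norm_nonneg _).trans (hB 0)
  refine ⟨18 * Real.exp 1 * B, by positivity, fun κ d₁ t₁ k => ?_⟩
  refine (norm_AS_le hB (fun b hb => norm_amc_le hP d₁ t₁ k hb) κ).trans (le_of_eq ?_)
  rw [Real.exp_add]; ring

set_option maxHeartbeats 3200000 in
theorem box3_one (hM : SideM2) (hB : BxSum) (hPV : PVs) (hF : FYcount) : BOX3 1 := by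
  classical
  refine ⟨160, 1 / 6 - 1 / 10000, 1 / 10000, 1 / 10 ^ 7, 10, by norm_num, by norm_num,
    by norm_num, by norm_num, by norm_num, by norm_num, by norm_num, by norm_num, by norm_num, ?_⟩
  intro P hP ε C₁ hε hC₁
  obtain ⟨CG, AG, hCG0, hAG0, hCG⟩ := sum_GG hM hPV P hP (ε := ε / 4) (by positivity)
  obtain ⟨CB, β, hCB0, hβ1, hCB⟩ := hB P hP (ε / 4) (by positivity)
  obtain ⟨CA, hCA0, hCA⟩ := AS_triv hP
  obtain ⟨CT, hCT0, hCT⟩ := GG_le hP
  set M : ℝ := 20000 + Real.log β with hMdef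
  have hlβ : 0 ≤ Real.log β := Real.log_nonneg hβ1
  have hβ0 : 0 < β := by linarith
  obtain ⟨CF, AF, hCF0, hAF0, hCF⟩ := hF P hP (ε / 4) C₁ M (by positivity) hC₁
    (by rw [hMdef]; positivity)
  -- constants
  set K : ℝ := 2 * Real.log β + 2 * (C₁ + |Real.log C₁|) + 6 * C₁ with hK
  have hal := abs_nonneg (Real.log C₁)
  have hal' := le_abs_self (Real.log C₁)
  have hK0 : 0 ≤ K := by rw [hK]; positivity
  set K' : ℝ := 2 * (Real.log β + C₁ + 1 + K) with hK'
  set CC : ℝ := CB * 2 ^ (ε / 4) * ((CA * CG * Real.exp (ε / 4 * K) +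
    CA * CT * CF + CF * CG * Real.exp (ε / 4 * K)) * Real.exp K') with hCC
  refine ⟨CC, AF + AG, by positivity, by positivity, ?_⟩
  intro Q₀ Q hQ1 hQQ₀ κ hκ1 hκ2 J H hH0 hH d₁ d₂ d₃ e hd₁ hd₂ hd₃ he _ hQe t₁ t₂ τ 𝒟 h𝒟 u hu z hz
    hlz j hj1 hj c hc hcM
  have hQ₀1 : 1 ≤ Q₀ := hQ1.trans hQQ₀
  have hQ₀0 : 0 < Q₀ := by linarith
  have hQ0 : 0 < Q := by linarith
  set x : ℝ := Real.log Q₀ with hx
  have hx0 : 0 ≤ x := Real.log_nonneg hQ₀1
  set y : ℝ := 1 / 6 - 1 / 10000 with hy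
  have hy0 : 0 ≤ y := by rw [hy]; norm_num
  have hy6 : y + 1 / 10000 = 1 / 6 := by rw [hy]; norm_num
  set g : ℝ := y / (160 : ℕ) * x with hg
  have hg0 : 0 ≤ g := by positivity
  have hJ : (J.card : ℝ) ≤ 160 := by
    have h1 : J.card ≤ Fintype.card (Fin 160) := Finset.card_le_univ J
    rw [Fintype.card_fin] at h1
    exact_mod_cast h1
  have hgJ : g * J.card ≤ y * x := by
    have h1 : g * J.card ≤ g * 160 := mul_le_mul_of_nonneg_left hJ hg0
    have h2 : g * 160 = y * x := by rw [hg]; push_cast; ring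
    linarith
  have hCJ : CJ 160 y Q₀ J = Real.exp (g * J.card) := by rw [CJ_log hQ₀0, hg]
  have hCc : CJ 160 y Q₀ J * Real.exp κ = Real.exp (g * J.card + κ) := by
    rw [hCJ, Real.exp_add]
  have hCc0 : 0 < CJ 160 y Q₀ J * Real.exp κ := by rw [hCc]; positivity
  have hlCc : Real.log (CJ 160 y Q₀ J * Real.exp κ) = g * J.card + κ := by
    rw [hCc, Real.log_exp]
  rw [hy6]
  set Tg : ℝ := TgB 1 (1 / 10 ^ 7) (if 1 / 10000 / 2 * x ≤ κ then 1 / 10 ^ 7 else -(1 / 10 ^ 7))
    (1 / 6) Q₀ Q H (CJ 160 y Q₀ J * Real.exp κ) with hTg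
  have hTg0 : 0 ≤ Tg := TgB_nonneg' _ _ hQ₀0 hQ0 hH0 hCc0
  have hnm : ∀ {d : Eis}, d ≠ 0 → (1 : ℝ) ≤ nm d := fun h => by exact_mod_cast nm_pos.mpr h
  have he0 : e ≠ 0 := he.ne_zero
  have hn1 := hnm hd₁
  have hn2 := hnm hd₂
  have hn3 := hnm hd₃
  have hn4 := hnm he0
  -- logarithms
  set h : ℝ := Real.log H with hhdef
  have hhx : h ≤ (2 / 3 + 1 / 10 ^ 7) * x := by
    have h1 := Real.log_le_log hH0 hH
    rw [Real.log_rpow hQ₀0, hy6] at h1
    calc h ≤ _ := h1
      _ = (2 / 3 + 1 / 10 ^ 7) * x := by ring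
  have hHQ : H ≤ Q₀ := by
    refine hH.trans ?_
    rw [hy6]
    calc Q₀ ^ (1 / 2 + 1 / 6 + 1 / 10 ^ 7 : ℝ) ≤ Q₀ ^ (1 : ℝ) :=
          Real.rpow_le_rpow_of_exponent_le hQ₀1 (by norm_num)
      _ = Q₀ := Real.rpow_one _
  have hq0 : 0 ≤ Real.log Q := Real.log_nonneg hQ1
  have hqx : Real.log Q ≤ x := Real.log_le_log hQ0 hQQ₀
  have hqe : Real.log Q ≤ Real.log C₁ + 5 / 6 * x + (g * J.card + κ) := by
    have h1 : Q ≤ C₁ * Q₀ * (CJ 160 y Q₀ J * Real.exp κ / Q₀ ^ (y + 1 / 10000)) := by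
      refine le_trans ?_ hQe
      nlinarith
    have h2 := Real.log_le_log hQ0 h1
    have h3 : 0 < Q₀ ^ (y + 1 / 10000) := Real.rpow_pos_of_pos hQ₀0 _
    rw [Real.log_mul (by positivity) (by positivity), Real.log_mul hC₁.ne' hQ₀0.ne',
      Real.log_div hCc0.ne' h3.ne', hlCc, Real.log_rpow hQ₀0, hy6] at h2
    linarith
  -- the box
  set q' : ℝ := ∑ i, (c i : ℝ) with hq'
  have hq'0 : 0 ≤ q' := Finset.sum_nonneg fun _ _ => Nat.cast_nonneg _
  have hq'1 : q' ≤ Real.log Q + C₁ := by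
    have h1 : q' = ∑ i, (c (Sum.inl i) : ℝ) + ∑ i, (c (Sum.inr i) : ℝ) :=
      Fintype.sum_sum_type _
    have := (abs_le.mp hc).2
    linarith
  -- trivial case
  by_cases hH1 : 1 ≤ β * H
  swap
  · rw [not_le] at hH1
    have hemp : bl (β * H) = ∅ := by
      apply Finset.eq_empty_of_forall_notMem
      intro k hk
      obtain ⟨h1, h2⟩ := (mem_bl (by positivity)).mp hk
      have h3 : (1 : ℝ) ≤ nm k := hnm h1
      linarith
    have h1 := hCB 160 y Q₀ κ J H hH0 d₁ d₂ d₃ e t₁ t₂ τ z j c 𝒟 h𝒟 u (fun _ => 0)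
      (fun _ => le_rfl) (fun q _ k hk _ => by rw [hemp] at hk; simp at hk)
    refine h1.trans ?_
    rw [Finset.sum_const_zero, mul_zero]
    positivity
  have hβH0 : 0 < β * H := by positivity
  have hh' : Real.log (β * H) = Real.log β + h := Real.log_mul hβ0.ne' hH0.ne'
  set h' : ℝ := Real.log (β * H) with hh'def
  have hh'0 : 0 ≤ h' := Real.log_nonneg hH1
  set κ' : ℝ := max κ 0 with hκ'
  have hκ'0 : 0 ≤ κ' := le_max_right _ _
  have hκκ' : κ ≤ κ' := le_max_left _ _
  have hκ'1 : κ' ≤ κ + 1 := max_le (by linarith) (by linarith)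
  have hκ'2 : κ' ≤ 1 / 10000 * x := max_le hκ2 (by positivity)
  have hCone : Cone h' q' (g * J.card) κ' (x + K) := by
    refine ⟨hh'0, hq'0, by positivity, hκ'0, ?_, ?_, ?_, ?_⟩
    · nlinarith
    · linarith
    · have e1 : g * J.card + κ' ≤ x / 6 := by
        calc g * J.card + κ' ≤ (1 / 6 - 1 / 10000) * x + 1 / 10000 * x := add_le_add hgJ hκ'2
          _ = x / 6 := by ring
      exact e1.trans (div_le_div_of_nonneg_right (le_add_of_nonneg_right hK0) (by norm_num))
    · linarith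
  have hgx : g ≤ (x + K) / 150 := by
    have : g = y / 160 * x := by rw [hg]; push_cast; ring
    rw [this, hy]
    nlinarith
  have hcM' : ∀ i : Fin j, (c (Sum.inr i) : ℝ) ≤ 9 / 50 * (x + K) := by
    intro i
    have h1 := hcM i
    push_cast at h1
    linarith
  set S : Finset Eis := (bl (β * H)).filter (fun k => P.NP2 k) with hS
  have hGG := hCG y Q₀ (β * H) (x + K) κ' J hy0 hQ₀1 hH1 hgx j hj c z hz d₁ d₂ hd₂ t₁ t₂ hCone
    hcM' S (Finset.filter_subset _ _) (fun k hk => (Finset.mem_filter.mp hk).2)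
  -- abbreviations
  set T₁ : ℝ := (1 + |t₁|) ^ AF with hT₁
  set T₂ : ℝ := (1 + |t₂|) ^ AG with hT₂
  have hT₁1 : 1 ≤ T₁ := Real.one_le_rpow (by linarith [abs_nonneg t₁]) hAF0
  have hT₂1 : 1 ≤ T₂ := Real.one_le_rpow (by linarith [abs_nonneg t₂]) hAG0
  set N₁ : ℝ := (nm d₁ : ℝ) ^ (ε / 4) with hN₁
  set N₂ : ℝ := (nm d₂ : ℝ) ^ (ε / 4) with hN₂
  have hN₁1 : 1 ≤ N₁ := Real.one_le_rpow hn1 (by positivity)
  have hN₂1 : 1 ≤ N₂ := Real.one_le_rpow hn2 (by positivity)
  set Qe : ℝ := Q₀ ^ (ε / 4) with hQe'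
  have hQe1 : 1 ≤ Qe := Real.one_le_rpow hQ₀1 (by positivity)
  have hQex : Real.exp (ε / 4 * x) = Qe := by
    rw [hQe', Real.rpow_def_of_pos hQ₀0]; congr 1; ring
  have hexpK : Real.exp (ε / 4 * (x + K)) = Qe * Real.exp (ε / 4 * K) := by
    rw [mul_add, Real.exp_add, hQex]
  rw [hexpK] at hGG
  -- the sum of a majorant
  have main : ∃ F : Eis → ℝ, (∀ k, 0 ≤ F k) ∧ (∀ q ∈ 𝒟, ∀ k ∈ bl (β * H), P.NP2 k →
      ‖P.am 160 y Q₀ (κ - u q) J d₁ t₁ k‖ * ‖GC (P.ch d₂ t₂ k) z c 0‖ ≤ F k) ∧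
      ∑ k ∈ S, F k ≤ (CA * CG * Real.exp (ε / 4 * K) + CA * CT * CF +
        CF * CG * Real.exp (ε / 4 * K)) * Real.exp K' * (N₁ * N₂ * Qe) * (T₁ * T₂) * Tg := by
    by_cases hκ : 1 / 10000 / 2 * x ≤ κ
    · -- long squarefree piece
      have hκ0 : 0 ≤ κ := le_trans (by positivity) hκ
      have hκe : κ' = κ := max_eq_left hκ0
      rw [hκe] at hGG
      have hTgE : ∀ E₀ : ℝ, E₀ ≤ Tm h' q' (g * J.card) κ (x + K) - κ / 72 →
          Real.exp E₀ ≤ Real.exp K' * Tg := by
        intro E₀ hE₀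
        have h1 := target_B (h := h) (q := Real.log Q) (b := Real.log β) hx0 hlβ hC₁.le hK0 hhx
          (by rw [hh']; linarith) hq'1 hκ hE₀
        have h2 := TgB_ge (η₁ := 1 / 10 ^ 7) (η₂ := 1 / 10 ^ 7) hQ₀0 hQ0 hH0 hCc0
          (E := E₀ - 2 * (Real.log β + C₁ + 1 + K)) (by rw [hlCc]; exact h1)
        rw [hTg, if_pos hκ]
        calc Real.exp E₀ = Real.exp K' * Real.exp (E₀ - 2 * (Real.log β + C₁ + 1 + K)) := by
              rw [← Real.exp_add]; congr 1; rw [hK']; ring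
          _ ≤ _ := mul_le_mul_of_nonneg_left h2 (Real.exp_pos _).le
      have hHM : β * H ≤ Real.exp (M * (κ + 1)) := by
        rw [← Real.exp_log hβH0]
        refine Real.exp_le_exp.mpr ?_
        show h' ≤ _
        rw [hh', hMdef]
        nlinarith
      obtain ⟨E, hE1, hE2⟩ := hCF κ (β * H) hκ0 hH1 hHM d₁ hd₁ t₁
      set W : ℝ := CF * N₁ * T₁ * Real.exp ((1 - 1 / 72) * κ) with hW
      have hW0 : 0 ≤ W := by positivity
      set G₀ : ℝ := CT * Real.exp (g * J.card + q') with hG₀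
      refine ⟨fun k => (if k ∈ E then CA * Real.exp κ else W) *
        GG P 160 y Q₀ J d₁ d₂ t₁ t₂ z c k, fun k => ?_, fun q hq k hk hNP => ?_, ?_⟩
      · refine mul_nonneg ?_ (GG_nonneg ..)
        split_ifs <;> positivity
      · rw [norm_am_GC]
        refine mul_le_mul_of_nonneg_right ?_ (GG_nonneg ..)
        split_ifs with hkE
        · refine (hCA _ _ _ _).trans ?_
          refine mul_le_mul_of_nonneg_left (Real.exp_le_exp.mpr ?_) hCA0
          have := (hu q).1
          linarith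
        · exact hE2 k hk hNP.1 hkE (u q) (hu q).1 (hu q).2
      · have hpt : ∀ k ∈ S, (if k ∈ E then CA * Real.exp κ else W) *
            GG P 160 y Q₀ J d₁ d₂ t₁ t₂ z c k ≤
            (if k ∈ E then CA * Real.exp κ * G₀ else 0) +
              W * GG P 160 y Q₀ J d₁ d₂ t₁ t₂ z c k := by
          intro k _
          have h1 := hCT y Q₀ hy0 hQ₀1 J d₁ d₂ t₁ t₂ z j hj c k
          have h2 := GG_nonneg P 160 y Q₀ J d₁ d₂ t₁ t₂ z c k
          split_ifs with hkE
          · have h3 : CA * Real.exp κ * GG P 160 y Q₀ J d₁ d₂ t₁ t₂ z c k ≤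
                CA * Real.exp κ * G₀ := mul_le_mul_of_nonneg_left h1 (by positivity)
            have h4 := mul_nonneg hW0 h2
            linarith
          · rw [zero_add]
        refine (Finset.sum_le_sum hpt).trans ?_
        rw [Finset.sum_add_distrib, ← Finset.mul_sum]
        -- the exceptional set
        have hexc : ∑ k ∈ S, (if k ∈ E then CA * Real.exp κ * G₀ else 0) ≤
            CA * CT * CF * Real.exp K' * (N₁ * Qe) * T₁ * Tg := by
          have h0 : 0 ≤ CA * Real.exp κ * G₀ := by positivity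
          calc ∑ k ∈ S, (if k ∈ E then CA * Real.exp κ * G₀ else 0) =
              (S.filter (· ∈ E)).card * (CA * Real.exp κ * G₀) := by
                rw [← Finset.sum_filter, Finset.sum_const, nsmul_eq_mul]
            _ ≤ E.card * (CA * Real.exp κ * G₀) := by
                refine mul_le_mul_of_nonneg_right ?_ h0
                have : S.filter (· ∈ E) ⊆ E := fun k hk => (Finset.mem_filter.mp hk).2
                exact_mod_cast Finset.card_le_card this
            _ ≤ (CF * N₁ * T₁ * Real.exp (ε / 4 * κ) * ((β * H) ^ (1 / 3 : ℝ) *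
                Real.exp (-(κ / 8)))) * (CA * Real.exp κ * G₀) :=
                mul_le_mul_of_nonneg_right hE1 h0
            _ = CA * CT * CF * N₁ * T₁ * Real.exp (ε / 4 * κ) *
                Real.exp (h' / 3 + q' + g * J.card + κ - κ / 8) := by
                have e1 : (β * H) ^ (1 / 3 : ℝ) = Real.exp (h' / 3) := by
                  rw [Real.rpow_def_of_pos hβH0]; congr 1; ring
                have e2 : Real.exp (h' / 3 + q' + g * J.card + κ - κ / 8) =
                    Real.exp (h' / 3) * Real.exp (g * J.card + q') * Real.exp κ *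
                      Real.exp (-(κ / 8)) := by
                  rw [← Real.exp_add, ← Real.exp_add, ← Real.exp_add]; congr 1; ring
                rw [e1, e2, hG₀]; ring
            _ ≤ CA * CT * CF * N₁ * T₁ * Qe * (Real.exp K' * Tg) := by
                have e1 : Real.exp (ε / 4 * κ) ≤ Qe := by
                  rw [← hQex]
                  refine Real.exp_le_exp.mpr ?_
                  have : κ ≤ x := by linarith
                  nlinarith
                have e2 : Real.exp (h' / 3 + q' + g * J.card + κ - κ / 8) ≤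
                    Real.exp K' * Tg := by
                  refine hTgE _ ?_
                  have : h' / 3 + q' + g * J.card + κ ≤ Tm h' q' (g * J.card) κ (x + K) := by
                    unfold Tm
                    exact le_max_of_le_right (le_max_left _ _)
                  linarith
                gcongr
            _ = _ := by ring
        have hgen : W * ∑ k ∈ S, GG P 160 y Q₀ J d₁ d₂ t₁ t₂ z c k ≤
            CF * CG * Real.exp (ε / 4 * K) * Real.exp K' * (N₁ * N₂ * Qe) * (T₁ * T₂) * Tg := by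
          calc W * ∑ k ∈ S, GG P 160 y Q₀ J d₁ d₂ t₁ t₂ z c k ≤
              W * (CG * N₂ * T₂ * (Qe * Real.exp (ε / 4 * K)) *
                Real.exp (Tm h' q' (g * J.card) κ (x + K) - κ)) :=
                mul_le_mul_of_nonneg_left hGG hW0
            _ = CF * CG * Real.exp (ε / 4 * K) * (N₁ * N₂ * Qe) * (T₁ * T₂) *
                Real.exp (Tm h' q' (g * J.card) κ (x + K) - κ / 72) := by
                have e1 : Real.exp (Tm h' q' (g * J.card) κ (x + K) - κ / 72) =
                    Real.exp ((1 - 1 / 72) * κ) *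
                      Real.exp (Tm h' q' (g * J.card) κ (x + K) - κ) := by
                  rw [← Real.exp_add]; congr 1; ring
                rw [e1, hW]; ring
            _ ≤ CF * CG * Real.exp (ε / 4 * K) * (N₁ * N₂ * Qe) * (T₁ * T₂) *
                (Real.exp K' * Tg) := by
                refine mul_le_mul_of_nonneg_left (hTgE _ le_rfl) (by positivity)
            _ = _ := by ring
        have hexc2 : CA * CT * CF * Real.exp K' * (N₁ * Qe) * T₁ * Tg ≤
            CA * CT * CF * Real.exp K' * (N₁ * N₂ * Qe) * (T₁ * T₂) * Tg := by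
          have e1 : N₁ * Qe ≤ N₁ * N₂ * Qe := by
            have : N₁ * 1 * Qe ≤ N₁ * N₂ * Qe := by gcongr
            linarith
          have e2 : T₁ ≤ T₁ * T₂ := le_mul_of_one_le_right (by linarith) hT₂1
          gcongr
        have hfirst : 0 ≤ CA * CG * Real.exp (ε / 4 * K) * Real.exp K' * (N₁ * N₂ * Qe) *
            (T₁ * T₂) * Tg := by positivity
        have hsum := add_le_add (hexc.trans hexc2) hgen
        refine hsum.trans ?_
        have : (CA * CG * Real.exp (ε / 4 * K) + CA * CT * CF +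
          CF * CG * Real.exp (ε / 4 * K)) * Real.exp K' * (N₁ * N₂ * Qe) * (T₁ * T₂) * Tg =
          CA * CG * Real.exp (ε / 4 * K) * Real.exp K' * (N₁ * N₂ * Qe) * (T₁ * T₂) * Tg +
          (CA * CT * CF * Real.exp K' * (N₁ * N₂ * Qe) * (T₁ * T₂) * Tg +
          CF * CG * Real.exp (ε / 4 * K) * Real.exp K' * (N₁ * N₂ * Qe) * (T₁ * T₂) * Tg) := by
            ring
        rw [this]
        linarith
    · -- short squarefree piece
      have hTgE : ∀ E₀ : ℝ, E₀ ≤ Tm h' q' (g * J.card) κ' (x + K) →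
          Real.exp E₀ ≤ Real.exp K' * Tg := by
        intro E₀ hE₀
        have h1 := target_A (h := h) (q := Real.log Q) (b := Real.log β) (κ := κ) hx0 hlβ hC₁.le
          hK0 hhx (by rw [hh']; linarith) hq'1 hκ'1 hE₀
        have h2 := TgB_ge (η₁ := 1 / 10 ^ 7) (η₂ := -(1 / 10 ^ 7)) hQ₀0 hQ0 hH0 hCc0
          (E := E₀ - 2 * (Real.log β + C₁ + 1 + K)) (by rw [hlCc]; exact h1)
        rw [hTg, if_neg hκ]
        calc Real.exp E₀ = Real.exp K' * Real.exp (E₀ - 2 * (Real.log β + C₁ + 1 + K)) := by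
              rw [← Real.exp_add]; congr 1; rw [hK']; ring
          _ ≤ _ := mul_le_mul_of_nonneg_left h2 (Real.exp_pos _).le
      refine ⟨fun k => CA * Real.exp κ' * GG P 160 y Q₀ J d₁ d₂ t₁ t₂ z c k, fun k => ?_,
        fun q hq k hk hNP => ?_, ?_⟩
      · exact mul_nonneg (by positivity) (GG_nonneg ..)
      · rw [norm_am_GC]
        refine mul_le_mul_of_nonneg_right ?_ (GG_nonneg ..)
        refine (hCA _ _ _ _).trans ?_
        refine mul_le_mul_of_nonneg_left (Real.exp_le_exp.mpr ?_) hCA0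
        have := (hu q).1
        linarith
      · rw [← Finset.mul_sum]
        calc CA * Real.exp κ' * ∑ k ∈ S, GG P 160 y Q₀ J d₁ d₂ t₁ t₂ z c k ≤
            CA * Real.exp κ' * (CG * N₂ * T₂ * (Qe * Real.exp (ε / 4 * K)) *
              Real.exp (Tm h' q' (g * J.card) κ' (x + K) - κ')) :=
              mul_le_mul_of_nonneg_left hGG (by positivity)
          _ = CA * CG * Real.exp (ε / 4 * K) * (1 * N₂ * Qe) * (1 * T₂) *
              Real.exp (Tm h' q' (g * J.card) κ' (x + K)) := by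
              have e1 : Real.exp (Tm h' q' (g * J.card) κ' (x + K)) = Real.exp κ' *
                  Real.exp (Tm h' q' (g * J.card) κ' (x + K) - κ') := by
                rw [← Real.exp_add]; congr 1; ring
              rw [e1]; ring
          _ ≤ CA * CG * Real.exp (ε / 4 * K) * (N₁ * N₂ * Qe) * (T₁ * T₂) *
              (Real.exp K' * Tg) := by
              have := hTgE _ le_rfl
              gcongr
          _ ≤ _ := by
              have h1 : 0 ≤ (CA * CT * CF + CF * CG * Real.exp (ε / 4 * K)) * Real.exp K' *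
                (N₁ * N₂ * Qe) * (T₁ * T₂) * Tg := by positivity
              have h2 : (CA * CG * Real.exp (ε / 4 * K) + CA * CT * CF +
                CF * CG * Real.exp (ε / 4 * K)) * Real.exp K' * (N₁ * N₂ * Qe) * (T₁ * T₂) * Tg =
                CA * CG * Real.exp (ε / 4 * K) * (N₁ * N₂ * Qe) * (T₁ * T₂) * (Real.exp K' * Tg) +
                (CA * CT * CF + CF * CG * Real.exp (ε / 4 * K)) * Real.exp K' *
                (N₁ * N₂ * Qe) * (T₁ * T₂) * Tg := by ring
              rw [h2]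
              linarith
  obtain ⟨F, hF0, hFm, hFs⟩ := main
  have h1 := hCB 160 y Q₀ κ J H hH0 d₁ d₂ d₃ e t₁ t₂ τ z j c 𝒟 h𝒟 u F hF0 hFm
  refine h1.trans ?_
  have h2 : (1 + H) ^ (ε / 4) ≤ 2 ^ (ε / 4) * Qe := by
    rw [hQe', ← Real.mul_rpow (by norm_num) hQ₀0.le]
    exact Real.rpow_le_rpow (by positivity) (by linarith) (by positivity)
  have h3 := absorb (n₁ := nm d₁) (n₂ := nm d₂) (n₃ := nm d₃) (n₄ := nm e) (Q₀ := Q₀) (ε := ε)
    (t₁ := t₁) (t₂ := t₂) (τ := τ) hn1 hn2 hn3 hn4 hQ₀1 hε hAF0 hAG0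
  set R : ℝ := (CA * CG * Real.exp (ε / 4 * K) + CA * CT * CF +
        CF * CG * Real.exp (ε / 4 * K)) * Real.exp K' with hR
  have hR0 : 0 ≤ R := by positivity
  calc CB * (1 + H) ^ (ε / 4) * ∑ k ∈ S, F k ≤ CB * (2 ^ (ε / 4) * Qe) *
        (R * (N₁ * N₂ * Qe) * (T₁ * T₂) * Tg) := by
        refine mul_le_mul (mul_le_mul_of_nonneg_left h2 hCB0) hFs
          (Finset.sum_nonneg fun k _ => hF0 k) (by positivity)
    _ = CC * ((N₁ * N₂ * (Qe * Qe)) * (T₁ * T₂)) * Tg := by rw [hCC]; ring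
    _ ≤ CC * (((nm d₁ : ℝ) * nm d₂ * nm d₃ * nm e * Q₀) ^ ε *
        (1 + |t₁| + |t₂| + |τ|) ^ (AF + AG)) * Tg := by
        refine mul_le_mul_of_nonneg_right (mul_le_mul_of_nonneg_left h3 (by positivity)) hTg0
    _ = _ := by ring

end Crest.Agent.R017.One319
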