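import Crest.Agent.R017.One_Comb_770
import Crest.Agent.R017.BoxP3_271
import Crest.Agent.R017.Box_271

/-!
# Row 17, θ = 1: the assembly of `BOX3 1` (helper770)
-/

set_option autoImplicit false

noncomputable section

open MeasureTheory Complex Set
open scoped ComplexConjugate ContDiff

namespace Crest.Agent.R017.One319

open Crest.Agent.R012 Crest.Agent.R012.Eis Crest.Agent.R012.LS2 Crest.Agent.R012.CR2
open Crest.Agent.R012.PSer47
open Crest.Agent.R017.End699 Crest.Agent.R017.B770 Crest.Agent.R017.Asm986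
open Crest.Agent.R017.Sup271 Crest.Agent.R017.HB645 Crest.Agent.R017.HBS271 Crest.Agent.R017.Sx545
open Crest.Agent.R017.BoxP271

/-! ### trivial bounds of the pieces -/

lemma card_pb_le (s : ℝ) : ((primBall ⌊Real.exp (s + 1)⌋₊).card : ℝ) ≤ 18 * Real.exp (s + 1) := by
  have h := card_primBall_le' ⌊Real.exp (s + 1)⌋₊
  calc ((primBall ⌊Real.exp (s + 1)⌋₊).card : ℝ) ≤ ((18 * ⌊Real.exp (s + 1)⌋₊ : ℕ) : ℝ) := by
        exact_mod_cast h
    _ = 18 * (⌊Real.exp (s + 1)⌋₊ : ℝ) := by push_cast; ring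
    _ ≤ _ := by
        gcongr
        exact Nat.floor_le (Real.exp_pos _).le

lemma norm_cM_le (z : ℝ) (b : Eis) : ‖cM z b‖ ≤ 1 := by
  unfold HB645.cM
  rw [norm_mul]
  have h1 : ‖((muE b : ℤ) : ℂ)‖ ≤ 1 := by
    have h : |muE b| ≤ 1 := by
      rw [Mob705.abs_muE]
      split_ifs <;> norm_num
    rw [Complex.norm_intCast]
    exact_mod_cast h
  have h2 : ‖(((1 - sg (Real.log (nm b) - Real.log z) : ℝ)) : ℂ)‖ ≤ 1 := by
    rw [Complex.norm_real, Real.norm_eq_abs, abs_le]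
    have a := sg_nonneg (Real.log (nm b) - Real.log z)
    have b' := sg_le_one (Real.log (nm b) - Real.log z)
    constructor <;> linarith
  calc _ ≤ 1 * 1 := mul_le_mul h1 h2 (norm_nonneg _) zero_le_one
    _ = 1 := one_mul _

lemma norm_pcB_le {P : DPar} (hP : P.OK) (d₂ : Eis) (t₂ z : ℝ) {j : ℕ}
    (c : Fin (j - 1) ⊕ Fin j → ℕ) (k : Eis) (i : Fin (j - 1) ⊕ Fin j) :
    ‖pcB P d₂ t₂ z c k i‖ ≤ 18 * Real.exp 1 * Real.exp (c i) := by
  have hch := Box271.isChar_ch P hP d₂ t₂ k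
  have key : ∀ (g : Eis → ℂ) (s : ℕ), (∀ b, IsPrim b → ‖g b‖ ≤ 1) →
      ‖∑ b ∈ primBall ⌊Real.exp (s + 1)⌋₊, g b * Weight600.pw 0 (nm b) *
        (hh (Real.log (nm b) - s) : ℂ)‖ ≤ 18 * Real.exp 1 * Real.exp s := by
    intro g s hg
    refine (norm_sum_le _ _).trans ?_
    have h1 : ∀ b ∈ primBall ⌊Real.exp (s + 1)⌋₊, ‖g b * Weight600.pw 0 (nm b) *
        (hh (Real.log (nm b) - s) : ℂ)‖ ≤ 1 := by
      intro b hb
      have hb' := (mem_primBall.mp hb).2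
      rw [Box271.pw_zero, mul_one, norm_mul, Complex.norm_real, Real.norm_eq_abs,
        abs_of_nonneg (hh_nonneg _)]
      calc _ ≤ 1 * 1 := mul_le_mul (hg b hb') (hh_le_one _) (hh_nonneg _) zero_le_one
        _ = 1 := one_mul _
    refine (Finset.sum_le_card_nsmul _ _ _ h1).trans ?_
    rw [nsmul_eq_mul, mul_one]
    refine (card_pb_le s).trans (le_of_eq ?_)
    rw [Real.exp_add]
    ring
  cases i with
  | inl i =>
    show ‖PS (P.ch d₂ t₂ k) (c (Sum.inl i)) 0‖ ≤ _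
    unfold HB645.PS
    exact key _ _ fun b hb => hch.norm_le hb
  | inr i =>
    show ‖PM (P.ch d₂ t₂ k) z (c (Sum.inr i)) 0‖ ≤ _
    unfold HB645.PM
    refine key (fun b => cM z b * P.ch d₂ t₂ k b) _ fun b hb => ?_
    rw [norm_mul]
    calc _ ≤ 1 * 1 := mul_le_mul (norm_cM_le _ _) (hch.norm_le hb) (norm_nonneg _) zero_le_one
      _ = 1 := one_mul _

/-- the coefficients of the amplifier -/
lemma norm_amc_le {P : DPar} (hP : P.OK) (d₁ : Eis) (t₁ : ℝ) (k : Eis) {c : Eis}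
    (hc : IsPrim c) : ‖twt P.φ P.l₁ t₁ c * prin0 d₁ c * conj (sy k c)‖ ≤ 1 := by
  have h := ((isChar_twt hP.φ P.l₁ t₁).mul' (isChar_prin0 d₁)).norm_le hc
  have h2 : ‖conj (sy k c)‖ ≤ 1 := by
    rw [RCLike.norm_conj]
    exact (Char766.isChar_sy k).norm_le hc
  rw [norm_mul]
  calc _ ≤ 1 * 1 := mul_le_mul h h2 (norm_nonneg _) zero_le_one
    _ = 1 := one_mul _

lemma norm_pcA_le {P : DPar} (hP : P.OK) {B : ℝ} (hB : ∀ u, ‖P.h u‖ ≤ B) (r : ℕ) (y Q₀ : ℝ)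
    (d₁ : Eis) (t₁ : ℝ) (k : Eis) (i : Fin r) :
    ‖pcA P r y Q₀ d₁ t₁ k i‖ ≤
      18 * Real.exp (3 * r + 1) * B * Real.exp (y / r * Real.log Q₀) := by
  classical
  have hB0 : 0 ≤ B := (norm_nonneg _).trans (hB 0)
  unfold pcA AP
  refine (norm_sum_le _ _).trans ?_
  have h1 : ∀ c ∈ prS (kap r y Q₀ i), ‖twt P.φ P.l₁ t₁ c * prin0 d₁ c * conj (sy k c) *
      P.h (Real.log (nm c) - kap r y Q₀ i)‖ ≤ B := by
    intro c hc
    unfold prS at hc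
    rw [Finset.mem_filter, mem_primBall] at hc
    rw [norm_mul]
    calc _ ≤ 1 * B := mul_le_mul (norm_amc_le hP d₁ t₁ k hc.1.2) (hB _) (norm_nonneg _)
          zero_le_one
      _ = B := one_mul _
  refine (Finset.sum_le_card_nsmul _ _ _ h1).trans ?_
  rw [nsmul_eq_mul]
  have h2 : ((prS (kap r y Q₀ i)).card : ℝ) ≤ 18 * Real.exp (kap r y Q₀ i + 1) := by
    refine le_trans ?_ (card_pb_le _)
    unfold prS
    exact_mod_cast Finset.card_filter_le _ _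
  have h3 : kap r y Q₀ i + 1 ≤ (3 * r + 1) + y / r * Real.log Q₀ := by
    unfold kap
    have : ((i : ℕ) : ℝ) ≤ r := by exact_mod_cast i.2.le
    linarith
  calc ((prS (kap r y Q₀ i)).card : ℝ) * B ≤ (18 * Real.exp (kap r y Q₀ i + 1)) * B := by gcongr
    _ ≤ (18 * Real.exp ((3 * r + 1) + y / r * Real.log Q₀)) * B := by gcongr
    _ = _ := by rw [Real.exp_add]; ring

/-! ### Cauchy–Schwarz with the second moments -/

lemma le_exp_of_sq {a A E : ℝ} (ha : 0 ≤ a) (hA : 0 ≤ A)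
    (h : a ^ 2 ≤ A ^ 2 * Real.exp (2 * E)) : a ≤ A * Real.exp E := by
  have h1 : A ^ 2 * Real.exp (2 * E) = (A * Real.exp E) ^ 2 := by
    rw [mul_pow, ← Real.exp_nat_mul]
    norm_num
  rw [h1] at h
  exact (sq_le_sq₀ ha (by positivity)).mp h

/-- the product of the pieces of the amplifier and of the box -/
def GG (P : DPar) (r : ℕ) (y Q₀ : ℝ) (J : Finset (Fin r)) (d₁ d₂ : Eis) (t₁ t₂ z : ℝ) {j : ℕ}
    (c : Fin (j - 1) ⊕ Fin j → ℕ) (k : Eis) : ℝ :=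
  (∏ i ∈ J, ‖pcA P r y Q₀ d₁ t₁ k i‖) * ∏ i, ‖pcB P d₂ t₂ z c k i‖

lemma GG_nonneg (P : DPar) (r : ℕ) (y Q₀ : ℝ) (J : Finset (Fin r)) (d₁ d₂ : Eis) (t₁ t₂ z : ℝ)
    {j : ℕ} (c : Fin (j - 1) ⊕ Fin j → ℕ) (k : Eis) : 0 ≤ GG P r y Q₀ J d₁ d₂ t₁ t₂ z c k := by
  unfold GG
  positivity

lemma norm_am_GC (P : DPar) (r : ℕ) (y Q₀ κ : ℝ) (J : Finset (Fin r)) (d₁ d₂ : Eis)
    (t₁ t₂ z : ℝ) {j : ℕ} (c : Fin (j - 1) ⊕ Fin j → ℕ) (k : Eis) :
    ‖P.am r y Q₀ κ J d₁ t₁ k‖ * ‖GC (P.ch d₂ t₂ k) z c 0‖ =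
      ‖AS P.h₀ κ (fun c => twt P.φ P.l₁ t₁ c * prin0 d₁ c * conj (sy k c))‖ *
        GG P r y Q₀ J d₁ d₂ t₁ t₂ z c k := by
  unfold DPar.am GG Amp GC
  rw [norm_mul, norm_mul, norm_prod, norm_prod, norm_prod, Fintype.prod_sum_type]
  unfold pcA pcB
  ring

/-- sum over `bl H`: Cauchy–Schwarz with the number of `k` -/
lemma cs_card {H : ℝ} (hH : 1 ≤ H) {s : Finset Eis} (hs : s ⊆ bl H) {F G : Eis → ℝ}
    (hF : ∀ k ∈ s, 0 ≤ F k) {W A E : ℝ} (hW : 0 ≤ W) (hA : 0 ≤ A)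
    (hFG : ∀ k ∈ s, F k ≤ W * G k)
    (hG : ∑ k ∈ bl H, G k ^ 2 ≤ A ^ 2 * Real.exp (2 * E)) :
    ∑ k ∈ s, F k ≤ (4 * W * A) * Real.exp (Real.log H / 2 + E) := by
  have hH0 : 0 < H := by linarith
  refine le_exp_of_sq (Finset.sum_nonneg hF) (by positivity) ?_
  calc (∑ k ∈ s, F k) ^ 2 ≤ s.card * ∑ k ∈ s, F k ^ 2 := sq_sum_le_card_mul_sum_sq
    _ ≤ (16 * H) * (W ^ 2 * ∑ k ∈ bl H, G k ^ 2) := by
        refine mul_le_mul ?_ ?_ (Finset.sum_nonneg fun _ _ => by positivity) (by positivity)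
        · refine le_trans ?_ (card_bl_le hH0.le)
          exact_mod_cast Finset.card_le_card hs
        · calc ∑ k ∈ s, F k ^ 2 ≤ ∑ k ∈ s, W ^ 2 * G k ^ 2 := by
                refine Finset.sum_le_sum fun k hk => ?_
                rw [← mul_pow]
                exact pow_le_pow_left₀ (hF k hk) (hFG k hk) 2
            _ ≤ ∑ k ∈ bl H, W ^ 2 * G k ^ 2 :=
                Finset.sum_le_sum_of_subset_of_nonneg hs fun _ _ _ => by positivity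
            _ = _ := by rw [Finset.mul_sum]
    _ ≤ (16 * H) * (W ^ 2 * (A ^ 2 * Real.exp (2 * E))) := by gcongr
    _ = (4 * W * A) ^ 2 * Real.exp (2 * (Real.log H / 2 + E)) := by
        have : Real.exp (2 * (Real.log H / 2 + E)) = H * Real.exp (2 * E) := by
          rw [mul_add, Real.exp_add, mul_div_cancel₀ _ (two_ne_zero), Real.exp_log hH0]
        rw [this]
        ring

/-- sum over `bl H`: Cauchy–Schwarz with two sides -/
lemma cs_two {s t : Finset Eis} (hs : s ⊆ t) {F G₁ G₂ : Eis → ℝ}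
    (hF : ∀ k ∈ s, 0 ≤ F k) {A₁ A₂ E₁ E₂ : ℝ} (hA₁ : 0 ≤ A₁) (hA₂ : 0 ≤ A₂)
    (hFG : ∀ k ∈ s, F k ≤ G₁ k * G₂ k)
    (hG₁ : ∑ k ∈ t, G₁ k ^ 2 ≤ A₁ ^ 2 * Real.exp (2 * E₁))
    (hG₂ : ∑ k ∈ t, G₂ k ^ 2 ≤ A₂ ^ 2 * Real.exp (2 * E₂)) :
    ∑ k ∈ s, F k ≤ (A₁ * A₂) * Real.exp (E₁ + E₂) := by
  refine le_exp_of_sq (Finset.sum_nonneg hF) (by positivity) ?_
  calc (∑ k ∈ s, F k) ^ 2 ≤ (∑ k ∈ s, G₁ k * G₂ k) ^ 2 :=
        pow_le_pow_left₀ (Finset.sum_nonneg hF) (Finset.sum_le_sum hFG) 2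
    _ ≤ (∑ k ∈ s, G₁ k ^ 2) * ∑ k ∈ s, G₂ k ^ 2 := Finset.sum_mul_sq_le_sq_mul_sq _ _ _
    _ ≤ (∑ k ∈ t, G₁ k ^ 2) * ∑ k ∈ t, G₂ k ^ 2 := by
        refine mul_le_mul ?_ ?_ (Finset.sum_nonneg fun _ _ => by positivity)
          (Finset.sum_nonneg fun _ _ => by positivity)
        · exact Finset.sum_le_sum_of_subset_of_nonneg hs fun _ _ _ => by positivity
        · exact Finset.sum_le_sum_of_subset_of_nonneg hs fun _ _ _ => by positivity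
    _ ≤ (A₁ ^ 2 * Real.exp (2 * E₁)) * (A₂ ^ 2 * Real.exp (2 * E₂)) := by
        refine mul_le_mul hG₁ hG₂ (Finset.sum_nonneg fun _ _ => by positivity) (by positivity)
    _ = (A₁ * A₂) ^ 2 * Real.exp (2 * (E₁ + E₂)) := by
        rw [mul_add 2 E₁ E₂, Real.exp_add]; ring

/-! ### the sum over `k` -/

lemma Cone.x0 {h q c κ x : ℝ} (hC : Cone h q c κ x) : 0 ≤ x := by
  have := hC.h0
  have := hC.hx
  nlinarith

set_option maxHeartbeats 3200000 in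
theorem sum_GG (hM : SideM2) (hPV : PVs) (P : DPar) (hP : P.OK) {ε : ℝ} (hε : 0 < ε) :
    ∃ C A : ℝ, 0 ≤ C ∧ 0 ≤ A ∧ ∀ (y Q₀ H x' κ : ℝ) (J : Finset (Fin 160)), 0 ≤ y → 1 ≤ Q₀ →
      1 ≤ H → y / (160 : ℕ) * Real.log Q₀ ≤ x' / 150 → ∀ j : ℕ, j ≤ 10 →
      ∀ (c : Fin (j - 1) ⊕ Fin j → ℕ) (z : ℕ), 1 ≤ z → ∀ d₁ d₂ : Eis, d₂ ≠ 0 → ∀ t₁ t₂ : ℝ,
      Cone (Real.log H) (∑ i, (c i : ℝ)) (y / (160 : ℕ) * Real.log Q₀ * J.card) κ x' →
      (∀ i : Fin j, (c (Sum.inr i) : ℝ) ≤ 9 / 50 * x') →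
      ∀ s : Finset Eis, s ⊆ bl H → (∀ k ∈ s, P.NP2 k) →
      ∑ k ∈ s, GG P 160 y Q₀ J d₁ d₂ t₁ t₂ z c k ≤
        C * (nm d₂ : ℝ) ^ ε * (1 + |t₂|) ^ A * Real.exp (ε * x') *
          Real.exp (Tm (Real.log H) (∑ i, (c i : ℝ)) (y / (160 : ℕ) * Real.log Q₀ * J.card) κ x' -
            κ) := by
  classical
  set ε₁ : ℝ := ε / 8 with hε₁
  have hε₁0 : 0 < ε₁ := by positivity
  obtain ⟨CM, hCM0, hCM⟩ := hM P hP 160 10 ε₁ hε₁0
  obtain ⟨CP, AP', hCP0, hAP0, hCP⟩ := hPV P hP ε₁ hε₁0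
  refine ⟨4 * (1 + CP) * (1 + CM) ^ 2, AP', by positivity, hAP0, ?_⟩
  intro y Q₀ H x' κ J hy hQ₀ hH hg j hj c z hz d₁ d₂ hd₂ t₁ t₂ hC hcM s hs hsNP
  have hx' : 0 ≤ x' := hC.x0
  set g : ℝ := y / (160 : ℕ) * Real.log Q₀ with hgdef
  have hlQ : 0 ≤ Real.log Q₀ := Real.log_nonneg hQ₀
  have hg0 : 0 ≤ g := by positivity
  set h : ℝ := Real.log H with hh
  have hh0 : 0 ≤ h := hC.h0
  have hhx : h ≤ x' := by have := hC.hx; nlinarith
  set q : ℝ := ∑ i, (c i : ℝ) with hq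
  have hcx : g * J.card ≤ x' / 6 := by have := hC.cx; have := hC.κ0; linarith
  have hqx : q ≤ x' := by have := hC.qx; have := hC.cx; linarith
  have hH0 : 0 < H := by linarith
  set A₀ : ℝ := (1 + CM) * Real.exp (2 * ε₁ * x') with hA₀
  have hA₀0 : 0 ≤ A₀ := by positivity
  -- the second moments
  have side : ∀ (Ja Jb : Finset (Fin 160)), Disjoint Ja Jb → Ja ∪ Jb ⊆ J →
      ∀ T : Finset (Fin (j - 1) ⊕ Fin j),
      ∑ k ∈ bl H, ((∏ i ∈ Ja ∪ Jb, ‖pcA P 160 y Q₀ d₁ t₁ k i‖) *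
          ∏ i ∈ T, ‖pcB P d₂ t₂ z c k i‖) ^ 2 ≤
        A₀ ^ 2 * Real.exp (2 * (e4 h (g * Ja.card) (∑ i ∈ T, (c i : ℝ) + g * Jb.card) / 2)) := by
    intro Ja Jb hdis hsub T
    have h1 := hCM y Q₀ H hy hQ₀ hH Ja Jb hdis j hj c T z hz d₁ d₂ t₁ t₂
    refine h1.trans ?_
    have e1 : 2 * (e4 h (g * Ja.card) (∑ i ∈ T, (c i : ℝ) + g * Jb.card) / 2) =
        e4 h (g * Ja.card) (∑ i ∈ T, (c i : ℝ) + g * Jb.card) := by ring
    rw [e1]
    refine mul_le_mul_of_nonneg_right ?_ (Real.exp_pos _).le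
    have h2 : ∑ i ∈ T, (c i : ℝ) ≤ q :=
      Finset.sum_le_sum_of_subset_of_nonneg (Finset.subset_univ _) fun _ _ _ => Nat.cast_nonneg _
    have h3 : ((Ja.card : ℝ) + Jb.card) ≤ J.card := by
      have := Finset.card_le_card hsub
      rw [Finset.card_union_of_disjoint hdis] at this
      exact_mod_cast this
    have h4 : g * ((Ja.card : ℝ) + Jb.card) ≤ x' / 6 :=
      (mul_le_mul_of_nonneg_left h3 hg0).trans hcx
    have h5 : ε₁ * (h + g * ((Ja.card : ℝ) + Jb.card) + ∑ i ∈ T, (c i : ℝ)) ≤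
        4 * ε₁ * x' := by
      have : h + g * ((Ja.card : ℝ) + Jb.card) + ∑ i ∈ T, (c i : ℝ) ≤ 4 * x' := by linarith
      nlinarith
    calc CM * Real.exp (ε₁ * (h + g * ((Ja.card : ℝ) + Jb.card) + ∑ i ∈ T, (c i : ℝ))) ≤
        (1 + CM) ^ 2 * Real.exp (4 * ε₁ * x') := by
          refine mul_le_mul ?_ (Real.exp_le_exp.mpr h5) (Real.exp_pos _).le (by positivity)
          nlinarith
      _ = A₀ ^ 2 := by
          rw [hA₀, mul_pow, ← Real.exp_nat_mul]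
          congr 2
          push_cast
          ring
  have hFnn : ∀ k ∈ s, 0 ≤ GG P 160 y Q₀ J d₁ d₂ t₁ t₂ z c k := fun k _ => GG_nonneg ..
  -- final comparison
  have hd1 : (1 : ℝ) ≤ nm d₂ := by exact_mod_cast nm_pos.mpr hd₂
  have hT1 : 1 ≤ (1 + |t₂|) ^ AP' := Real.one_le_rpow (by linarith [abs_nonneg t₂]) hAP0
  have hD1 : 1 ≤ (nm d₂ : ℝ) ^ ε := Real.one_le_rpow hd1 hε.le
  have hexp1 : ∀ a : ℝ, a ≤ 8 → Real.exp (a * ε₁ * x') ≤ Real.exp (ε * x') := by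
    intro a ha
    refine Real.exp_le_exp.mpr ?_
    have : a * ε₁ ≤ ε := by rw [hε₁]; nlinarith
    exact mul_le_mul_of_nonneg_right this hx'
  have fin : ∀ (a W E : ℝ), 0 ≤ a → a ≤ 4 * (1 + CP) * (1 + CM) ^ 2 → 0 ≤ W →
      W ≤ (nm d₂ : ℝ) ^ ε * (1 + |t₂|) ^ AP' * Real.exp (ε * x') →
      E + κ ≤ Tm h q (g * J.card) κ x' →
      a * W * Real.exp E ≤ 4 * (1 + CP) * (1 + CM) ^ 2 * (nm d₂ : ℝ) ^ ε * (1 + |t₂|) ^ AP' *
        Real.exp (ε * x') * Real.exp (Tm h q (g * J.card) κ x' - κ) := by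
    intro a W E ha ha2 hW hW2 hE
    calc a * W * Real.exp E ≤ (4 * (1 + CP) * (1 + CM) ^ 2) *
          ((nm d₂ : ℝ) ^ ε * (1 + |t₂|) ^ AP' * Real.exp (ε * x')) *
          Real.exp (Tm h q (g * J.card) κ x' - κ) := by
          refine mul_le_mul (mul_le_mul ha2 hW2 hW (by positivity))
            (Real.exp_le_exp.mpr (by linarith)) (Real.exp_pos _).le (by positivity)
      _ = _ := by ring
  rcases comb j c h κ x' g J.card hx' hg0 hg hC hcM with hcase | ⟨i₀, hcase⟩ |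
    ⟨T, n₁, n₂, n₃, hn, hcase⟩
  · -- direct
    have h1 := side ∅ J (Finset.disjoint_empty_left _) (by simp) Finset.univ
    have h2 := cs_card hH hs (F := GG P 160 y Q₀ J d₁ d₂ t₁ t₂ z c) hFnn (W := 1) zero_le_one
      hA₀0 (fun k _ => by
        rw [one_mul]
        show _ ≤ (∏ i ∈ ∅ ∪ J, ‖pcA P 160 y Q₀ d₁ t₁ k i‖) *
          ∏ i ∈ Finset.univ, ‖pcB P d₂ t₂ z c k i‖
        rw [Finset.empty_union]
        exact le_rfl) h1
    refine h2.trans ?_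
    have h3 := fin (4 * 1 * (1 + CM)) (Real.exp (2 * ε₁ * x'))
      (h / 2 + e4 h (g * (∅ : Finset (Fin 160)).card) (∑ i, (c i : ℝ) + g * J.card) / 2)
      (by positivity) (by nlinarith [mul_nonneg hCP0 hCM0]) (Real.exp_pos _).le ?_ ?_
    · refine le_trans (le_of_eq ?_) h3
      rw [hA₀]; ring
    · calc Real.exp (2 * ε₁ * x') ≤ Real.exp (ε * x') := hexp1 2 (by norm_num)
        _ = 1 * 1 * Real.exp (ε * x') := by ring
        _ ≤ _ := by gcongr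
    · rw [Finset.card_empty, Nat.cast_zero, mul_zero]
      refine le_trans (le_of_eq ?_) hcase
      rw [← hq]; ring
  · -- Pólya–Vinogradov
    have h1 := side ∅ J (Finset.disjoint_empty_left _) (by simp)
      (Finset.univ.erase (Sum.inl i₀))
    set W : ℝ := CP * ((nm d₂ : ℝ) ^ ε₁ * Real.exp (ε₁ * x')) * (1 + |t₂|) ^ AP' *
      Real.exp (h / 2) with hWdef
    have hW0 : 0 ≤ W := by positivity
    have h2 := cs_card hH hs (F := GG P 160 y Q₀ J d₁ d₂ t₁ t₂ z c) hFnn (W := W) hW0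
      hA₀0 (fun k hk => by
        show _ ≤ W * ((∏ i ∈ ∅ ∪ J, ‖pcA P 160 y Q₀ d₁ t₁ k i‖) *
          ∏ i ∈ Finset.univ.erase (Sum.inl i₀), ‖pcB P d₂ t₂ z c k i‖)
        rw [Finset.empty_union]
        unfold GG
        obtain ⟨hka, hkb⟩ := (mem_bl hH0.le).mp (hs hk)
        have hk1 : (nm k : ℝ) ≤ H ∧ k ≠ 0 := ⟨hkb, hka⟩
        have hpv := hCP k hk1.2 (hsNP k hk).2 d₂ hd₂ t₂ (c (Sum.inl i₀))
        have hkn : (0 : ℝ) < nm k := by exact_mod_cast nm_pos.mpr hk1.2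
        have hkH : (nm k : ℝ) ≤ H := hk1.1
        have hbnd : ‖pcB P d₂ t₂ z c k (Sum.inl i₀)‖ ≤ W := by
          refine hpv.trans ?_
          rw [Real.mul_rpow (by positivity) hkn.le]
          have e1 : (nm k : ℝ) ^ ε₁ ≤ Real.exp (ε₁ * x') := by
            calc (nm k : ℝ) ^ ε₁ ≤ H ^ ε₁ := Real.rpow_le_rpow hkn.le hkH hε₁0.le
              _ = Real.exp (h * ε₁) := Real.rpow_def_of_pos hH0 _
              _ ≤ _ := Real.exp_le_exp.mpr (by nlinarith)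
          have e2 : (nm k : ℝ) ^ (1 / 2 : ℝ) ≤ Real.exp (h / 2) := by
            calc (nm k : ℝ) ^ (1 / 2 : ℝ) ≤ H ^ (1 / 2 : ℝ) :=
                  Real.rpow_le_rpow hkn.le hkH (by norm_num)
              _ = Real.exp (h * (1 / 2)) := Real.rpow_def_of_pos hH0 _
              _ = _ := by congr 1; ring
          rw [hWdef]
          gcongr
        rw [← Finset.mul_prod_erase Finset.univ (fun i => ‖pcB P d₂ t₂ z c k i‖)
          (Finset.mem_univ (Sum.inl i₀))]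
        calc (∏ i ∈ J, ‖pcA P 160 y Q₀ d₁ t₁ k i‖) * (‖pcB P d₂ t₂ z c k (Sum.inl i₀)‖ *
              ∏ i ∈ Finset.univ.erase (Sum.inl i₀), ‖pcB P d₂ t₂ z c k i‖) =
            ‖pcB P d₂ t₂ z c k (Sum.inl i₀)‖ * ((∏ i ∈ J, ‖pcA P 160 y Q₀ d₁ t₁ k i‖) *
              ∏ i ∈ Finset.univ.erase (Sum.inl i₀), ‖pcB P d₂ t₂ z c k i‖) := by ring
          _ ≤ _ := mul_le_mul_of_nonneg_right hbnd (by positivity)) h1
    refine h2.trans ?_
    have hsum : ∑ i ∈ Finset.univ.erase (Sum.inl i₀), (c i : ℝ) = q - c (Sum.inl i₀) := by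
      rw [hq, ← Finset.add_sum_erase Finset.univ (fun i => (c i : ℝ))
        (Finset.mem_univ (Sum.inl i₀))]
      ring
    rw [hsum]
    have h3 := fin (4 * CP * (1 + CM)) ((nm d₂ : ℝ) ^ ε₁ * Real.exp (ε₁ * x') *
        (1 + |t₂|) ^ AP' * Real.exp (2 * ε₁ * x'))
      (h / 2 + (h / 2 + e4 h (g * (∅ : Finset (Fin 160)).card)
        (q - c (Sum.inl i₀) + g * J.card) / 2))
      (by positivity) ?_ (by positivity) ?_ ?_
    · refine le_trans (le_of_eq ?_) h3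
      rw [hA₀, hWdef, Real.exp_add (h / 2) (h / 2 + e4 h (g * (∅ : Finset (Fin 160)).card)
        (q - c (Sum.inl i₀) + g * J.card) / 2)]; ring
    · have : (1 + CM) ≤ (1 + CM) ^ 2 := by nlinarith
      nlinarith [mul_nonneg hCP0 hCM0]
    · calc (nm d₂ : ℝ) ^ ε₁ * Real.exp (ε₁ * x') * (1 + |t₂|) ^ AP' * Real.exp (2 * ε₁ * x') =
          (nm d₂ : ℝ) ^ ε₁ * (1 + |t₂|) ^ AP' * Real.exp (3 * ε₁ * x') := by
            have : Real.exp (3 * ε₁ * x') = Real.exp (ε₁ * x') * Real.exp (2 * ε₁ * x') := by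
              rw [← Real.exp_add]; congr 1; ring
            rw [this]; ring
        _ ≤ (nm d₂ : ℝ) ^ ε * (1 + |t₂|) ^ AP' * Real.exp (ε * x') := by
            have e1 : (nm d₂ : ℝ) ^ ε₁ ≤ (nm d₂ : ℝ) ^ ε :=
              Real.rpow_le_rpow_of_exponent_le hd1 (by rw [hε₁]; linarith)
            have e2 := hexp1 3 (by norm_num)
            gcongr
    · rw [Finset.card_empty, Nat.cast_zero, mul_zero]
      refine le_trans (le_of_eq ?_) hcase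
      ring
  · -- type II
    obtain ⟨J₁, hJ₁, hJ₁c⟩ := Finset.exists_subset_card_eq (s := J) (n := n₁) (by omega)
    obtain ⟨J₂, hJ₂, hJ₂c⟩ := Finset.exists_subset_card_eq (s := J \ J₁) (n := n₂)
      (by rw [Finset.card_sdiff_of_subset hJ₁]; omega)
    set J₃ := (J \ J₁) \ J₂ with hJ₃
    have hJ₃c : J₃.card = n₃ := by
      rw [hJ₃, Finset.card_sdiff_of_subset hJ₂, Finset.card_sdiff_of_subset hJ₁]; omega
    have hd1' : Disjoint J₁ (∅ : Finset (Fin 160)) := Finset.disjoint_empty_right _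
    have hd2' : Disjoint J₂ J₃ := Finset.disjoint_sdiff
    have hu : J₂ ∪ J₃ = J \ J₁ := Finset.union_sdiff_of_subset hJ₂
    have h1 := side J₁ ∅ hd1' (by simpa using hJ₁) Tᶜ
    have h2 := side J₂ J₃ hd2' (by rw [hu]; exact Finset.sdiff_subset) T
    have h3 := cs_two hs (F := GG P 160 y Q₀ J d₁ d₂ t₁ t₂ z c) hFnn hA₀0 hA₀0
      (fun k _ => by
        show GG P 160 y Q₀ J d₁ d₂ t₁ t₂ z c k ≤
          ((∏ i ∈ J₁ ∪ ∅, ‖pcA P 160 y Q₀ d₁ t₁ k i‖) * ∏ i ∈ Tᶜ, ‖pcB P d₂ t₂ z c k i‖) *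
          ((∏ i ∈ J₂ ∪ J₃, ‖pcA P 160 y Q₀ d₁ t₁ k i‖) * ∏ i ∈ T, ‖pcB P d₂ t₂ z c k i‖)
        rw [Finset.union_empty, hu]
        unfold GG
        rw [← Finset.prod_sdiff hJ₁, ← Finset.prod_compl_mul_prod T]
        refine le_of_eq ?_
        ring) h1 h2
    refine h3.trans ?_
    have hsum : ∑ i ∈ Tᶜ, (c i : ℝ) = q - ∑ i ∈ T, (c i : ℝ) := by
      rw [hq, ← Finset.sum_compl_add_sum T]; ring
    rw [hsum, hJ₁c, hJ₂c, hJ₃c, Finset.card_empty, Nat.cast_zero, mul_zero, add_zero]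
    have h4 := fin ((1 + CM) * (1 + CM)) (Real.exp (4 * ε₁ * x'))
      (e4 h (g * n₁) (q - ∑ i ∈ T, (c i : ℝ)) / 2 +
        e4 h (g * n₂) (∑ i ∈ T, (c i : ℝ) + g * n₃) / 2)
      (by positivity) (by nlinarith [mul_nonneg hCP0 (sq_nonneg (1 + CM)), sq_nonneg (1 + CM)])
      (Real.exp_pos _).le ?_ ?_
    · refine le_trans (le_of_eq ?_) h4
      rw [hA₀]
      have : Real.exp (4 * ε₁ * x') = Real.exp (2 * ε₁ * x') * Real.exp (2 * ε₁ * x') := by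
        rw [← Real.exp_add]; congr 1; ring
      rw [this]; ring
    · calc Real.exp (4 * ε₁ * x') ≤ Real.exp (ε * x') := hexp1 4 (by norm_num)
        _ = 1 * 1 * Real.exp (ε * x') := by ring
        _ ≤ _ := by gcongr
    · refine le_trans (le_of_eq ?_) hcase
      ring

/-! ### trivial bound of the product -/

theorem GG_le {P : DPar} (hP : P.OK) : ∃ C : ℝ, 0 ≤ C ∧ ∀ (y Q₀ : ℝ), 0 ≤ y → 1 ≤ Q₀ →
    ∀ (J : Finset (Fin 160)) (d₁ d₂ : Eis) (t₁ t₂ z : ℝ) (j : ℕ), j ≤ 10 →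
    ∀ (c : Fin (j - 1) ⊕ Fin j → ℕ) (k : Eis),
    GG P 160 y Q₀ J d₁ d₂ t₁ t₂ z c k ≤
      C * Real.exp (y / (160 : ℕ) * Real.log Q₀ * J.card + ∑ i, (c i : ℝ)) := by
  obtain ⟨B, hB⟩ := hP.h.cd.continuous.bounded_above_of_compact_support (HW.cpt hP.h)
  have hB0 : 0 ≤ B := (norm_nonneg _).trans (hB 0)
  obtain ⟨D, hD⟩ : ∃ D : ℝ, D = 1 + 18 * Real.exp (3 * (160 : ℕ) + 1) * B := ⟨_, rfl⟩
  obtain ⟨E, hE⟩ : ∃ E : ℝ, E = 18 * Real.exp 1 := ⟨_, rfl⟩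
  have hD0 : 18 * Real.exp (3 * (160 : ℕ) + 1) * B ≤ D := by rw [hD]; linarith
  have hD1 : 1 ≤ D := by
    have : 0 ≤ 18 * Real.exp (3 * ((160 : ℕ) : ℝ) + 1) * B := by positivity
    linarith
  have hE1 : 1 ≤ E := by
    have := Real.one_le_exp (zero_le_one (α := ℝ))
    rw [hE]
    linarith
  clear hD
  refine ⟨D ^ 160 * E ^ 20, by positivity, ?_⟩
  intro y Q₀ hy hQ₀ J d₁ d₂ t₁ t₂ z j hj c k
  set g : ℝ := y / (160 : ℕ) * Real.log Q₀ with hg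
  have h1 : ∏ i ∈ J, ‖pcA P 160 y Q₀ d₁ t₁ k i‖ ≤ D ^ 160 * Real.exp (g * J.card) := by
    calc ∏ i ∈ J, ‖pcA P 160 y Q₀ d₁ t₁ k i‖ ≤ ∏ _i ∈ J, (D * Real.exp g) := by
          refine Finset.prod_le_prod (fun _ _ => norm_nonneg _) fun i _ => ?_
          refine (norm_pcA_le hP hB 160 y Q₀ d₁ t₁ k i).trans ?_
          exact mul_le_mul_of_nonneg_right hD0 (Real.exp_pos _).le
      _ = D ^ J.card * Real.exp (g * J.card) := by
          rw [Finset.prod_const, mul_pow, ← Real.exp_nat_mul, mul_comm g]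
      _ ≤ D ^ 160 * Real.exp (g * J.card) := by
          refine mul_le_mul_of_nonneg_right (pow_le_pow_right₀ hD1 ?_) (Real.exp_pos _).le
          calc J.card ≤ Fintype.card (Fin 160) := Finset.card_le_univ J
            _ = 160 := Fintype.card_fin 160
  have h2 : ∏ i, ‖pcB P d₂ t₂ z c k i‖ ≤ E ^ 20 * Real.exp (∑ i, (c i : ℝ)) := by
    calc ∏ i, ‖pcB P d₂ t₂ z c k i‖ ≤ ∏ i, (E * Real.exp (c i)) := by
          refine Finset.prod_le_prod (fun _ _ => norm_nonneg _) fun i _ => ?_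
          rw [hE]
          exact norm_pcB_le hP d₂ t₂ z c k i
      _ = E ^ (Fintype.card (Fin (j - 1) ⊕ Fin j)) * Real.exp (∑ i, (c i : ℝ)) := by
          rw [Finset.prod_mul_distrib, Finset.prod_const, ← Real.exp_sum, Finset.card_univ]
      _ ≤ _ := by
          refine mul_le_mul_of_nonneg_right (pow_le_pow_right₀ hE1 ?_) (Real.exp_pos _).le
          rw [Fintype.card_sum, Fintype.card_fin, Fintype.card_fin]
          omega
  unfold GG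
  have h3 : 0 ≤ D ^ 160 * Real.exp (g * J.card) :=
    mul_nonneg (pow_nonneg (by linarith) _) (Real.exp_pos _).le
  have h4 := mul_le_mul h1 h2 (Finset.prod_nonneg fun _ _ => norm_nonneg _) h3
  rw [mul_mul_mul_comm, ← Real.exp_add] at h4
  exact h4

/-! ### the target -/

lemma target_A {h q c κ x h' q' κ' b C₁ K E₀ : ℝ} (hx : 0 ≤ x) (hb : 0 ≤ b) (hC₁ : 0 ≤ C₁)
    (hK : 0 ≤ K) (hh : h ≤ (2 / 3 + 1 / 10 ^ 7) * x) (h1 : h' ≤ h + b) (h2 : q' ≤ q + C₁)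
    (h3 : κ' ≤ κ + 1) (hE : E₀ ≤ Tm h' q' c κ' (x + K)) :
    E₀ - 2 * (b + C₁ + 1 + K) ≤ max (max (t1 h q (c + κ) x) (t2 h q (c + κ) x) - 1 / 10 ^ 7 * x)
      (t3 h q (c + κ) x - -(1 / 10 ^ 7) * x) := by
  unfold Tm at hE
  rcases le_max_iff.mp hE with h4 | h4
  · refine le_max_of_le_left ?_
    have h4' : E₀ + (x + K) / 1000 ≤ max (t1 h' q' (c + κ') (x + K)) (t2 h' q' (c + κ') (x + K)) :=
      by linarith
    rcases le_max_iff.mp h4' with h5 | h5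
    · have : E₀ - 2 * (b + C₁ + 1 + K) + 1 / 10 ^ 7 * x ≤ t1 h q (c + κ) x := by
        unfold t1 at h5 ⊢; linarith
      have := this.trans (le_max_left _ (t2 h q (c + κ) x))
      linarith
    · have : E₀ - 2 * (b + C₁ + 1 + K) + 1 / 10 ^ 7 * x ≤ t2 h q (c + κ) x := by
        unfold t2 at h5 ⊢; linarith
      have := this.trans (le_max_right (t1 h q (c + κ) x) _)
      linarith
  · refine le_max_of_le_right ?_
    rcases le_max_iff.mp h4 with h5 | h5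
    · unfold t3; linarith
    · unfold t3 at h5 ⊢; linarith

lemma target_B {h q c κ x h' q' b C₁ K E₀ : ℝ} (hx : 0 ≤ x) (hb : 0 ≤ b) (hC₁ : 0 ≤ C₁)
    (hK : 0 ≤ K) (hh : h ≤ (2 / 3 + 1 / 10 ^ 7) * x) (h1 : h' ≤ h + b) (h2 : q' ≤ q + C₁)
    (hκ : 1 / 10000 / 2 * x ≤ κ) (hE : E₀ ≤ Tm h' q' c κ (x + K) - κ / 72) :
    E₀ - 2 * (b + C₁ + 1 + K) ≤ max (max (t1 h q (c + κ) x) (t2 h q (c + κ) x) - 1 / 10 ^ 7 * x)
      (t3 h q (c + κ) x - 1 / 10 ^ 7 * x) := by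
  unfold Tm at hE
  have hE' : E₀ + κ / 72 ≤ max (max (t1 h' q' (c + κ) (x + K)) (t2 h' q' (c + κ) (x + K)) -
      (x + K) / 1000) (max (h' / 3 + q' + c + κ) (t3 h' q' (c + κ) (x + K) - (x + K) / 1000)) := by
    linarith
  rcases le_max_iff.mp hE' with h4 | h4
  · refine le_max_of_le_left ?_
    have h4' : E₀ + κ / 72 + (x + K) / 1000 ≤
        max (t1 h' q' (c + κ) (x + K)) (t2 h' q' (c + κ) (x + K)) := by linarith
    rcases le_max_iff.mp h4' with h5 | h5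
    · have : E₀ - 2 * (b + C₁ + 1 + K) + 1 / 10 ^ 7 * x ≤ t1 h q (c + κ) x := by
        unfold t1 at h5 ⊢; linarith
      have := this.trans (le_max_left _ (t2 h q (c + κ) x))
      linarith
    · have : E₀ - 2 * (b + C₁ + 1 + K) + 1 / 10 ^ 7 * x ≤ t2 h q (c + κ) x := by
        unfold t2 at h5 ⊢; linarith
      have := this.trans (le_max_right (t1 h q (c + κ) x) _)
      linarith
  · refine le_max_of_le_right ?_
    rcases le_max_iff.mp h4 with h5 | h5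
    · unfold t3; linarith
    · unfold t3 at h5 ⊢; linarith

/-- absorbing the `ε`-factors -/
lemma absorb {n₁ n₂ n₃ n₄ Q₀ ε t₁ t₂ τ A₁ A₂ : ℝ} (h₁ : 1 ≤ n₁) (h₂ : 1 ≤ n₂) (h₃ : 1 ≤ n₃)
    (h₄ : 1 ≤ n₄) (hQ : 1 ≤ Q₀) (hε : 0 < ε) (hA₁ : 0 ≤ A₁) (hA₂ : 0 ≤ A₂) :
    (n₁ ^ (ε / 4) * n₂ ^ (ε / 4) * (Q₀ ^ (ε / 4) * Q₀ ^ (ε / 4))) *
      ((1 + |t₁|) ^ A₁ * (1 + |t₂|) ^ A₂) ≤
      (n₁ * n₂ * n₃ * n₄ * Q₀) ^ ε * (1 + |t₁| + |t₂| + |τ|) ^ (A₁ + A₂) := by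
  have a1 := abs_nonneg t₁
  have a2 := abs_nonneg t₂
  have a3 := abs_nonneg τ
  have e0 : (n₁ * n₂ * n₃ * n₄ * Q₀) ^ ε = n₁ ^ ε * n₂ ^ ε * n₃ ^ ε * n₄ ^ ε * Q₀ ^ ε := by
    rw [Real.mul_rpow (by positivity) (by positivity), Real.mul_rpow (by positivity)
      (by positivity), Real.mul_rpow (by positivity) (by positivity),
      Real.mul_rpow (by positivity) (by positivity)]
  have m : ∀ {n : ℝ}, 1 ≤ n → n ^ (ε / 4) ≤ n ^ ε := fun hn =>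
    Real.rpow_le_rpow_of_exponent_le hn (by linarith)
  have o : ∀ {n : ℝ}, 1 ≤ n → 1 ≤ n ^ ε := fun hn => Real.one_le_rpow hn hε.le
  have eQ : Q₀ ^ (ε / 4) * Q₀ ^ (ε / 4) ≤ Q₀ ^ ε := by
    rw [← Real.rpow_add (by linarith)]
    exact Real.rpow_le_rpow_of_exponent_le hQ (by linarith)
  have eT : (1 + |t₁|) ^ A₁ * (1 + |t₂|) ^ A₂ ≤ (1 + |t₁| + |t₂| + |τ|) ^ (A₁ + A₂) := by
    rw [Real.rpow_add (by positivity)]
    exact mul_le_mul (Real.rpow_le_rpow (by positivity) (by linarith) hA₁)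
      (Real.rpow_le_rpow (by positivity) (by linarith) hA₂) (by positivity) (by positivity)
  refine mul_le_mul ?_ eT (by positivity) (by positivity)
  rw [e0]
  calc n₁ ^ (ε / 4) * n₂ ^ (ε / 4) * (Q₀ ^ (ε / 4) * Q₀ ^ (ε / 4)) ≤
      n₁ ^ ε * n₂ ^ ε * Q₀ ^ ε := by
        have := m h₁; have := m h₂
        gcongr
    _ = n₁ ^ ε * n₂ ^ ε * 1 * 1 * Q₀ ^ ε := by ring
    _ ≤ _ := by
        have := o h₃; have := o h₄
        gcongr

end Crest.Agent.R017.One319
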