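import Crest.Agent.R017.OneLP_319

/-!
# Row 17, the case θ = 1: `LPdir`, `LPpv`, `SubSum` (helper90)
-/

set_option autoImplicit false

noncomputable section

namespace Crest.Agent.R017.One90

open Crest.Agent.R017.One319

lemma e4_cases (h a b : ℝ) : e4 h a b = h + (a + b) ∨ e4 h a b = h / 3 + 2 * (a + b) ∨
    e4 h a b = 2 * (a + b) + a ∨ e4 h a b = 2 / 3 * h + a + 5 / 3 * b := by
  unfold e4
  rcases max_choice (max (h + (a + b)) (h / 3 + 2 * (a + b)))
    (max (2 * (a + b) + a) (2 / 3 * h + a + 5 / 3 * b)) with h1 | h1 <;> rw [h1]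
  · rcases max_choice (h + (a + b)) (h / 3 + 2 * (a + b)) with h2 | h2 <;> rw [h2]
    · exact Or.inl rfl
    · exact Or.inr (Or.inl rfl)
  · rcases max_choice (2 * (a + b) + a) (2 / 3 * h + a + 5 / 3 * b) with h2 | h2 <;> rw [h2]
    · exact Or.inr (Or.inr (Or.inl rfl))
    · exact Or.inr (Or.inr (Or.inr rfl))

theorem lpdir : LPdir := by
  intro h q c κ x C hd
  obtain ⟨h0, q0, c0, κ0, hx, κx, cx, qx⟩ := C
  by_contra hcon
  rw [not_le, max_lt_iff, max_lt_iff, sub_lt_iff_lt_add, max_lt_iff] at hcon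
  obtain ⟨⟨h1, h2⟩, h3, h4⟩ := hcon
  unfold t1 at h1
  unfold t2 at h2
  unfold t3 at h4
  rcases e4_cases h 0 (q + c) with e | e | e | e <;> rw [e] at h1 h2 h3 h4 <;>
    rcases hd with hd | hd <;> linarith

theorem lppv : LPpv := by
  intro h q c κ x s C h5 h6 h7
  obtain ⟨h0, q0, c0, κ0, hx, κx, cx, qx⟩ := C
  by_contra hcon
  rw [not_le, max_lt_iff, sub_lt_iff_lt_add, max_lt_iff] at hcon
  obtain ⟨⟨h1, h2⟩, h3⟩ := hcon
  unfold t1 at h1
  unfold t2 at h2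
  rcases e4_cases h 0 (q - s + c) with e | e | e | e <;> rw [e] at h1 h2 h3 <;> linarith

theorem subSum : SubSum := by
  intro ι _ _ c s hc hs hsum
  obtain ⟨Q, hQ⟩ : ∃ Q, Q = ∑ i, c i := ⟨_, rfl⟩
  rw [← hQ] at hsum ⊢
  have hQ0 : 0 ≤ Q := by rw [hQ]; exact Finset.sum_nonneg fun i _ => hc i
  obtain ⟨T, hT, hmax⟩ := Finset.exists_max_image
    ((Finset.univ : Finset (Finset ι)).filter (fun T => ∑ i ∈ T, c i ≤ Q / 2))
    (fun T => ∑ i ∈ T, c i) ⟨∅, by simp; linarith⟩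
  rw [Finset.mem_filter] at hT
  have hM : ∀ T' : Finset ι, ∑ i ∈ T', c i ≤ Q / 2 → ∑ i ∈ T', c i ≤ ∑ i ∈ T, c i :=
    fun T' h => hmax T' (Finset.mem_filter.mpr ⟨Finset.mem_univ _, h⟩)
  have hcompl : ∀ T' : Finset ι, ∑ i ∈ T'ᶜ, c i = Q - ∑ i ∈ T', c i := by
    intro T'
    rw [hQ, ← Finset.sum_add_sum_compl T' c]
    ring
  refine ⟨T, hT.2, ?_⟩
  by_contra hcon
  rw [not_le, lt_min_iff] at hcon
  obtain ⟨h1, h2⟩ := hcon
  have hb0 : 0 ≤ ∑ i ∈ T, c i := Finset.sum_nonneg fun i _ => hc i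
  have hpos : 0 < ∑ i ∈ Tᶜ, c i := by rw [hcompl]; linarith
  obtain ⟨i, hi, hci⟩ : ∃ i ∈ Tᶜ, 0 < c i := by
    by_contra hne
    push Not at hne
    exact absurd (Finset.sum_nonpos hne) (not_le.mpr hpos)
  rw [Finset.mem_compl] at hi
  have hins : ∑ j ∈ insert i T, c j = c i + ∑ j ∈ T, c j := Finset.sum_insert hi
  have h3 : Q / 2 < c i + ∑ j ∈ T, c j := by
    by_contra hle
    rw [not_lt] at hle
    have := hM (insert i T) (by rw [hins]; exact hle)
    rw [hins] at this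
    linarith
  have h4 : Q - (c i + ∑ j ∈ T, c j) ≤ ∑ j ∈ T, c j := by
    have h := hM (insert i T)ᶜ (by rw [hcompl, hins]; linarith)
    rwa [hcompl, hins] at h
  have hsing : ∑ j ∈ ({i} : Finset ι), c j = c i := Finset.sum_singleton _ _
  have h5 : Q / 2 < c i := by
    by_contra hle
    rw [not_lt] at hle
    have := hM {i} (by rw [hsing]; exact hle)
    rw [hsing] at this
    linarith
  have h6 : Q - c i ≤ ∑ j ∈ T, c j := by
    have h := hM ({i} : Finset ι)ᶜ (by rw [hcompl, hsing]; linarith)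
    rwa [hcompl, hsing] at h
  linarith [hs i]

end Crest.Agent.R017.One90
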