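import Crest.Agent.R017.OneLP_319

/-!
# Row 17, θ = 1: the type II inequality (helper770)
-/

set_option autoImplicit false

noncomputable section

namespace Crest.Agent.R017.One319

lemma e4_cases (h a b : ℝ) : e4 h a b = h + (a + b) ∨ e4 h a b = h / 3 + 2 * (a + b) ∨
    e4 h a b = 2 * (a + b) + a ∨ e4 h a b = 2 / 3 * h + a + 5 / 3 * b := by
  unfold e4
  rcases max_choice (max (h + (a + b)) (h / 3 + 2 * (a + b)))
    (max (2 * (a + b) + a) (2 / 3 * h + a + 5 / 3 * b)) with h1 | h1 <;> rw [h1]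
  · rcases max_choice (h + (a + b)) (h / 3 + 2 * (a + b)) with h2 | h2 <;> rw [h2] <;> simp
  · rcases max_choice (2 * (a + b) + a) (2 / 3 * h + a + 5 / 3 * b) with h2 | h2 <;> rw [h2] <;> simp

set_option maxHeartbeats 4000000 in
theorem lpii : LPii := by
  intro h q c κ x b a₁ a₂ f hC hhq hxh hb0 hbq hb ha1 ha2 hac hA2 hA1 hf0 hf1 hf3 hf
  obtain ⟨h0, q0, c0, κ0, hx, κx, cx, qx⟩ := hC
  by_contra hcon
  rw [not_le] at hcon
  obtain ⟨h12, h3⟩ := max_lt_iff.mp hcon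
  have h12' : max (t1 h q (c + κ) x) (t2 h q (c + κ) x) <
    (e4 h a₁ (q - b) + e4 h f (b + (a₂ - f))) / 2 + κ + x / 1000 := by linarith
  obtain ⟨h1, h2⟩ := max_lt_iff.mp h12'
  unfold t1 at h1
  unfold t2 at h2
  clear hcon h12 h12'
  rcases e4_cases h a₁ (q - b) with e1 | e1 | e1 | e1 <;>
  rcases e4_cases h f (b + (a₂ - f)) with e2 | e2 | e2 | e2 <;>
  rw [e1, e2] at h1 h2 h3 <;> clear e1 e2 <;>
  rcases hb with hb | hb <;> rcases hA2 with hA2 | hA2 <;> rcases hA1 with hA1 | hA1 <;>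
  rcases hf with hf | hf <;> linarith

end Crest.Agent.R017.One319
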