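import Crest.Agent.R017.OneLP_319
import Crest.Agent.R017.BDefs3_770

/-!
# Row 17, θ = 1: the target `TgB 1` in exponents (helper770)
-/

set_option autoImplicit false

noncomputable section

namespace Crest.Agent.R017.One319

open Crest.Agent.R017.B770

/-- the three monomials of the target at `θ = 1`, `y + δ = 1/6` -/
theorem TgB_exp (η₁ η₂ : ℝ) {Q₀ Q H Cc : ℝ} (hQ₀ : 0 < Q₀) (hQ : 0 < Q) (hH : 0 < H)
    (hC : 0 < Cc) : TgB 1 η₁ η₂ (1 / 6) Q₀ Q H Cc =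
      Real.exp (t1 (Real.log H) (Real.log Q) (Real.log Cc) (Real.log Q₀) - η₁ * Real.log Q₀) +
      Real.exp (t2 (Real.log H) (Real.log Q) (Real.log Cc) (Real.log Q₀) - η₁ * Real.log Q₀) +
      Real.exp (t3 (Real.log H) (Real.log Q) (Real.log Cc) (Real.log Q₀) - η₂ * Real.log Q₀) := by
  have hp : ∀ {a : ℝ}, 0 < a → ∀ s : ℝ, a ^ s = Real.exp (Real.log a * s) := fun ha s =>
    Real.rpow_def_of_pos ha s
  obtain ⟨X, rfl⟩ : ∃ X, Q₀ = Real.exp X := ⟨Real.log Q₀, (Real.exp_log hQ₀).symm⟩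
  obtain ⟨q, rfl⟩ : ∃ X, Q = Real.exp X := ⟨Real.log Q, (Real.exp_log hQ).symm⟩
  obtain ⟨h, rfl⟩ : ∃ X, H = Real.exp X := ⟨Real.log H, (Real.exp_log hH).symm⟩
  obtain ⟨c, rfl⟩ : ∃ X, Cc = Real.exp X := ⟨Real.log Cc, (Real.exp_log hC).symm⟩
  unfold TgB t1 t2 t3
  simp only [Real.log_exp, ← Real.exp_sub, ← Real.exp_mul]
  rw [mul_add, mul_add]
  simp only [← Real.exp_add, ← mul_assoc]
  congr 1
  · rw [mul_add]
    simp only [← Real.exp_add]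
    congr 1
    · congr 1; ring
    · congr 1; ring
  · congr 1; ring

theorem TgB_ge1 (η₁ η₂ : ℝ) {Q₀ Q H Cc : ℝ} (hQ₀ : 0 < Q₀) (hQ : 0 < Q) (hH : 0 < H)
    (hC : 0 < Cc) :
    Real.exp (t1 (Real.log H) (Real.log Q) (Real.log Cc) (Real.log Q₀) - η₁ * Real.log Q₀) ≤
      TgB 1 η₁ η₂ (1 / 6) Q₀ Q H Cc := by
  rw [TgB_exp η₁ η₂ hQ₀ hQ hH hC]
  have h2 := Real.exp_nonneg
    (t2 (Real.log H) (Real.log Q) (Real.log Cc) (Real.log Q₀) - η₁ * Real.log Q₀)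
  have h3 := Real.exp_nonneg
    (t3 (Real.log H) (Real.log Q) (Real.log Cc) (Real.log Q₀) - η₂ * Real.log Q₀)
  linarith

theorem TgB_ge2 (η₁ η₂ : ℝ) {Q₀ Q H Cc : ℝ} (hQ₀ : 0 < Q₀) (hQ : 0 < Q) (hH : 0 < H)
    (hC : 0 < Cc) :
    Real.exp (t2 (Real.log H) (Real.log Q) (Real.log Cc) (Real.log Q₀) - η₁ * Real.log Q₀) ≤
      TgB 1 η₁ η₂ (1 / 6) Q₀ Q H Cc := by
  rw [TgB_exp η₁ η₂ hQ₀ hQ hH hC]
  have h2 := Real.exp_nonneg
    (t1 (Real.log H) (Real.log Q) (Real.log Cc) (Real.log Q₀) - η₁ * Real.log Q₀)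
  have h3 := Real.exp_nonneg
    (t3 (Real.log H) (Real.log Q) (Real.log Cc) (Real.log Q₀) - η₂ * Real.log Q₀)
  linarith

theorem TgB_ge3 (η₁ η₂ : ℝ) {Q₀ Q H Cc : ℝ} (hQ₀ : 0 < Q₀) (hQ : 0 < Q) (hH : 0 < H)
    (hC : 0 < Cc) :
    Real.exp (t3 (Real.log H) (Real.log Q) (Real.log Cc) (Real.log Q₀) - η₂ * Real.log Q₀) ≤
      TgB 1 η₁ η₂ (1 / 6) Q₀ Q H Cc := by
  rw [TgB_exp η₁ η₂ hQ₀ hQ hH hC]
  have h2 := Real.exp_nonneg
    (t1 (Real.log H) (Real.log Q) (Real.log Cc) (Real.log Q₀) - η₁ * Real.log Q₀)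
  have h3 := Real.exp_nonneg
    (t2 (Real.log H) (Real.log Q) (Real.log Cc) (Real.log Q₀) - η₁ * Real.log Q₀)
  linarith

/-- `exp` of anything below the maximum of the three exponents -/
theorem TgB_ge {η₁ η₂ : ℝ} {Q₀ Q H Cc : ℝ} (hQ₀ : 0 < Q₀) (hQ : 0 < Q) (hH : 0 < H)
    (hC : 0 < Cc) {E : ℝ} (hE : E ≤ max (max
      (t1 (Real.log H) (Real.log Q) (Real.log Cc) (Real.log Q₀))
      (t2 (Real.log H) (Real.log Q) (Real.log Cc) (Real.log Q₀)) - η₁ * Real.log Q₀)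
      (t3 (Real.log H) (Real.log Q) (Real.log Cc) (Real.log Q₀) - η₂ * Real.log Q₀)) :
    Real.exp E ≤ TgB 1 η₁ η₂ (1 / 6) Q₀ Q H Cc := by
  rcases le_max_iff.mp hE with h | h
  · have h' : E + η₁ * Real.log Q₀ ≤ max
      (t1 (Real.log H) (Real.log Q) (Real.log Cc) (Real.log Q₀))
      (t2 (Real.log H) (Real.log Q) (Real.log Cc) (Real.log Q₀)) := by linarith
    rcases le_max_iff.mp h' with h | h
    · refine (Real.exp_le_exp.mpr ?_).trans (TgB_ge1 η₁ η₂ hQ₀ hQ hH hC)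
      linarith
    · refine (Real.exp_le_exp.mpr ?_).trans (TgB_ge2 η₁ η₂ hQ₀ hQ hH hC)
      linarith
  · exact (Real.exp_le_exp.mpr h).trans (TgB_ge3 η₁ η₂ hQ₀ hQ hH hC)

end Crest.Agent.R017.One319
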