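import Crest.Agent.R017.OneDefs2_319
import Crest.Agent.R017.One_LPii_770
import Crest.Agent.R017.One_LP_90
import Crest.Agent.R017.One_TgB_770

/-!
# Row 17, θ = 1: the combinatorial core (helper770)
-/

set_option autoImplicit false

noncomputable section

namespace Crest.Agent.R017.One319

open Crest.Agent.R017.B770

theorem tgbEq : TgbEq := fun η₁ η₂ _ _ _ _ h1 h2 h3 h4 => TgB_exp η₁ η₂ h1 h2 h3 h4

/-- number of amplifier pieces merged on the first side -/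
lemma step_up {x g : ℝ} (hg1 : g ≤ x / 150) (N : ℕ) (A : ℝ) :
    ∃ n ≤ N, (n = N ∨ A ≤ 3 * (g * n)) ∧ (n = 0 ∨ 3 * (g * n) ≤ A + x / 50) := by
  induction N with
  | zero => exact ⟨0, le_rfl, Or.inl rfl, Or.inl rfl⟩
  | succ N ih =>
    obtain ⟨n, hn, h1, h2⟩ := ih
    rcases h1 with h1 | h1
    · subst h1
      by_cases hA : A ≤ 3 * (g * n)
      · exact ⟨n, Nat.le_succ n, Or.inr hA, h2⟩
      · rw [not_le] at hA
        refine ⟨n + 1, le_rfl, Or.inl rfl, Or.inr ?_⟩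
        push_cast
        nlinarith
    · exact ⟨n, hn.trans (Nat.le_succ N), Or.inr h1, h2⟩

/-- number of amplifier pieces merged on the second side -/
lemma step_down {x g h : ℝ} (hg1 : g ≤ x / 150) (hh : 0 ≤ h) (N : ℕ) :
    ∃ n ≤ N, 3 * (g * n) ≤ h ∧ (n = N ∨ h ≤ 3 * (g * n) + x / 50) := by
  induction N with
  | zero => exact ⟨0, le_rfl, by simpa using hh, Or.inl rfl⟩
  | succ N ih =>
    obtain ⟨n, hn, h1, h2⟩ := ih
    rcases h2 with h2 | h2
    · subst h2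
      by_cases hA : 3 * (g * ((n + 1 : ℕ) : ℝ)) ≤ h
      · exact ⟨n + 1, le_rfl, hA, Or.inl rfl⟩
      · rw [not_le] at hA
        refine ⟨n, Nat.le_succ n, h1, Or.inr ?_⟩
        push_cast at hA
        nlinarith
    · exact ⟨n, hn.trans (Nat.le_succ N), h1, Or.inr h2⟩

lemma Tm_ge_ii {h q c κ x E : ℝ} (hE : E ≤ max (max (t1 h q (c + κ) x) (t2 h q (c + κ) x)
    - x / 1000) (h / 3 + q + c + κ)) : E ≤ Tm h q c κ x := by
  unfold Tm
  rcases le_max_iff.mp hE with h1 | h1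
  · exact le_max_of_le_left h1
  · exact le_max_of_le_right (le_max_of_le_left h1)

theorem comb : Comb := by
  intro j cs h κ x g nJ hx hg hg1 hC hM
  classical
  set q : ℝ := ∑ i, (cs i : ℝ) with hq
  have hpos : ∀ i, (0 : ℝ) ≤ cs i := fun i => Nat.cast_nonneg _
  have hle : ∀ i, (cs i : ℝ) ≤ q := fun i =>
    Finset.single_le_sum (f := fun i => (cs i : ℝ)) (fun i _ => hpos i) (Finset.mem_univ i)
  have hC' := hC
  obtain ⟨h0, q0, c0, κ0, hx1, κx, cx, qx⟩ := hC'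
  by_cases hdir : q + g * nJ ≤ h ∨ h ≤ x / 5
  · exact Or.inl (One90.lpdir h q (g * nJ) κ x hC hdir)
  push Not at hdir
  obtain ⟨hd1, hd2⟩ := hdir
  right
  by_cases hpv : ∃ i₀ : Fin (j - 1), 9 / 10 * h ≤ cs (Sum.inl i₀)
  · obtain ⟨i₀, hi₀⟩ := hpv
    left
    exact ⟨i₀, Tm_ge_ii (One90.lppv h q (g * nJ) κ x _ hC hd1.le hi₀ (hle _))⟩
  push Not at hpv
  right
  have hall : ∀ i, (cs i : ℝ) ≤ 9 / 10 * h := by
    rintro (i | i)
    · exact (hpv i).le
    · have := hM i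
      linarith
  -- the subset
  obtain ⟨T, hT1, hT2⟩ : ∃ T : Finset (Fin (j - 1) ⊕ Fin j), ∑ i ∈ T, (cs i : ℝ) ≤ q / 2 ∧
      (11 / 25 * h ≤ ∑ i ∈ T, (cs i : ℝ) ∨ q - 21 / 20 * h ≤ ∑ i ∈ T, (cs i : ℝ)) := by
    by_cases hs : 9 / 10 * h ≤ q
    · obtain ⟨T, h1, h2⟩ := One90.subSum (Fin (j - 1) ⊕ Fin j) (fun i => (cs i : ℝ))
        (9 / 10 * h) hpos hall hs
      refine ⟨T, h1, ?_⟩
      rcases min_le_iff.mp h2 with h3 | h3
      · by_cases h4 : 33 / 25 * h ≤ q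
        · left; linarith
        · right; linarith
      · right; linarith
    · refine ⟨∅, by simpa using (by linarith : (0 : ℝ) ≤ q / 2), Or.inr ?_⟩
      rw [Finset.sum_empty]
      linarith
  set b : ℝ := ∑ i ∈ T, (cs i : ℝ) with hb
  have hb0 : 0 ≤ b := Finset.sum_nonneg fun i _ => hpos i
  -- the amplifier
  obtain ⟨n₁, hn₁, hA, hB⟩ := step_up hg1 nJ (h - (q - b))
  obtain ⟨n₂, hn₂, hD, hE⟩ := step_down hg1 h0 (nJ - n₁)
  refine ⟨T, n₁, n₂, nJ - n₁ - n₂, by omega, Tm_ge_ii ?_⟩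
  have e1 : ((nJ - n₁ : ℕ) : ℝ) = nJ - n₁ := Nat.cast_sub hn₁
  have e2 : ((nJ - n₁ - n₂ : ℕ) : ℝ) = nJ - n₁ - n₂ := by rw [Nat.cast_sub hn₂, e1]
  have key := lpii h q (g * nJ) κ x b (g * n₁) (g * (nJ - n₁ : ℕ)) (g * n₂) hC hd1.le hd2.le hb0
    hT1 hT2 (by positivity) (by positivity) (by rw [e1]; ring) ?_ ?_ (by positivity) ?_ hD ?_
  · have e3 : g * (nJ - n₁ : ℕ) - g * n₂ = g * (nJ - n₁ - n₂ : ℕ) := by rw [e1, e2]; ring
    rw [e3] at key
    exact key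
  · rcases hA with hA | hA
    · left
      rw [hA, Nat.sub_self, Nat.cast_zero, mul_zero]
    · exact Or.inr hA
  · rcases hB with hB | hB
    · left
      rw [hB, Nat.cast_zero, mul_zero]
    · exact Or.inr hB
  · exact mul_le_mul_of_nonneg_left (by exact_mod_cast hn₂) hg
  · rcases hE with hE | hE
    · left
      rw [hE]
    · exact Or.inr hE

end Crest.Agent.R017.One319
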