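import Crest.Agent.R017.BoxDefs_271
import Crest.Agent.R017.FE7_47
import Crest.Agent.R017.Two1_939
import Crest.Agent.R017.BEndC_699

/-!
# Row 17: S-unit splitting of the sums over `k` (helper770)

`k = s k'`, `s` with all primes dividing `n`, `k'` primary and prime to `n`.

* `SU n B`, `card_SU` : the `S`-units of norm at most `B`
* `tsum_split` : the sum over `k ≠ 0`
* `wk_mul` : the weight of `DPar` at `s k'`
* `shift` lemmas : `am`, `mo`, the boxes, `NPk`, `NPm` at `s k'` in terms of the data twisted by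
  `sy s`
* `exists_reps` : only finitely many twists
* `bx_split` : the box sum
-/

set_option autoImplicit false

noncomputable section

open MeasureTheory Complex Set
open scoped ComplexConjugate ContDiff

namespace Crest.Agent.R017.SU770

open Crest.Agent.R012 Crest.Agent.R012.Eis Crest.Agent.R012.Mob705 Crest.Agent.R012.Gauss880
open Crest.Agent.R017.End699 Crest.Agent.R017.Sx440 Crest.Agent.R017.Sx545
open Crest.Agent.R017.Asm986 Crest.Agent.R017.HBS271 Crest.Agent.R017.Sup271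
open Crest.Agent.R017.FE47 Crest.Agent.R017.B770

/-! ### the `S`-units of bounded norm -/

open Classical in
/-- elements of norm `≤ B` all of whose primes divide `n` -/
def SU (n : Eis) (B : ℕ) : Finset Eis := (ball B).filter (fun s => s ∈ SM n)

lemma mem_SU {n s : Eis} {B : ℕ} : s ∈ SU n B ↔ nm s ≤ B ∧ s ∈ SM n := by
  classical
  unfold SU
  rw [Finset.mem_filter, mem_ball]

theorem card_SU {ε : ℝ} (hε : 0 < ε) {n : Eis} (hn : n ≠ 0) : ∃ C : ℝ, 0 ≤ C ∧ ∀ B : ℕ,
    ((SU n B).card : ℝ) ≤ C * (B : ℝ) ^ ε := by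
  refine ⟨UM ε n, UM_nonneg ε n, fun B => ?_⟩
  have hsum : ∑ s ∈ SU n B, (nm s : ℝ) ^ (-ε) ≤ UM ε n := by
    have h1 : ∑ s ∈ SU n B, (nm s : ℝ) ^ (-ε) =
        ∑ s ∈ (SU n B).attach.map ⟨fun s => (⟨s.1, (mem_SU.mp s.2).2⟩ : SM n), fun a b h => by
          apply Subtype.ext
          exact congrArg (fun x : SM n => (x : Eis)) h⟩, (nm (s : Eis) : ℝ) ^ (-ε) := by
      rw [Finset.sum_map, ← Finset.sum_attach]
      rfl
    rw [h1]
    exact (summable_SM hε hn).sum_le_tsum _ (fun _ _ => by positivity)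
  rcases Nat.eq_zero_or_pos B with h0 | h0
  · subst h0
    have : SU n 0 = ∅ := by
      apply Finset.eq_empty_of_forall_notMem
      intro s hs
      obtain ⟨h1, h2⟩ := mem_SU.mp hs
      have := nm_pos.mpr h2.1
      omega
    rw [this]
    simp only [Finset.card_empty, Nat.cast_zero]
    exact mul_nonneg (UM_nonneg ε n) (by positivity)
  have hB : (0 : ℝ) < B := by exact_mod_cast h0
  calc ((SU n B).card : ℝ) = ∑ s ∈ SU n B, (1 : ℝ) := by simp
    _ ≤ ∑ s ∈ SU n B, (B : ℝ) ^ ε * (nm s : ℝ) ^ (-ε) := by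
        refine Finset.sum_le_sum fun s hs => ?_
        obtain ⟨h1, h2⟩ := mem_SU.mp hs
        have h3 : (0 : ℝ) < nm s := by exact_mod_cast nm_pos.mpr h2.1
        have h4 : (nm s : ℝ) ≤ B := by exact_mod_cast h1
        rw [Real.rpow_neg h3.le, ← div_eq_mul_inv, le_div_iff₀ (Real.rpow_pos_of_pos h3 _), one_mul]
        exact Real.rpow_le_rpow h3.le h4 hε.le
    _ = (B : ℝ) ^ ε * ∑ s ∈ SU n B, (nm s : ℝ) ^ (-ε) := by rw [Finset.mul_sum]
    _ ≤ (B : ℝ) ^ ε * UM ε n := mul_le_mul_of_nonneg_left hsum (by positivity)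
    _ = UM ε n * (B : ℝ) ^ ε := mul_comm _ _

/-! ### splitting the sum -/

open Classical in
theorem tsum_split {n : Eis} (h3 : (3 : Eis) ∣ n) (F : Eis → ℂ) {B : ℕ}
    (hF : ∀ k, F k ≠ 0 → nm k ≤ B) :
    ∑' k : Eis, (if k ≠ 0 then F k else 0) =
      ∑ s ∈ SU n B, ∑' k' : Eis, if IsPrim k' ∧ IsCoprime k' n then F (s * k') else 0 := by
  set F' : Eis → ℂ := fun k => if k ≠ 0 then F k else 0 with hF'
  have h0 : F' 0 = 0 := by simp [hF']
  have hs : Summable F' := by
    refine summable_of_ne_finset_zero (s := ball B) fun k hk => ?_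
    by_contra hne
    apply hk
    rw [mem_ball]
    apply hF
    intro h
    apply hne
    simp [hF', h]
  rw [tsum_decomp h3 h0 hs]
  -- the inner sums
  have hin : ∀ e : SM n, ∑' b : BM n, F' (e.1 * b.1) =
      ∑' k' : Eis, if IsPrim k' ∧ IsCoprime k' n then F (e.1 * k') else 0 := by
    intro e
    have e1 : ∑' b : BM n, F' (e.1 * b.1) = ∑' b : BM n,
        (fun k' : Eis => if IsPrim k' ∧ IsCoprime k' n then F (e.1 * k') else 0) b := by
      refine tsum_congr fun b => ?_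
      have h1 : e.1 * b.1 ≠ 0 := mul_ne_zero e.2.1 b.2.1.ne_zero
      simp only [hF', if_pos h1]
      rw [if_pos (show IsPrim b.1 ∧ IsCoprime b.1 n from b.2)]
    rw [e1]
    refine tsum_subtype_eq_of_support_subset (s := BM n)
      (f := fun k' : Eis => if IsPrim k' ∧ IsCoprime k' n then F (e.1 * k') else 0) ?_
    intro k hk
    by_contra hne
    apply hk
    simp only
    rw [if_neg]
    exact fun h => hne h
  rw [tsum_congr hin]
  -- only finitely many `e`
  have hz : ∀ e : Eis, e ∈ SM n → e ∉ SU n B →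
      (∑' k' : Eis, if IsPrim k' ∧ IsCoprime k' n then F (e * k') else 0) = 0 := by
    intro e he hne
    have : ∀ k' : Eis, (if IsPrim k' ∧ IsCoprime k' n then F (e * k') else 0) = 0 := by
      intro k'
      split_ifs with hk
      · by_contra hF0
        apply hne
        rw [mem_SU]
        refine ⟨?_, he⟩
        have h1 := hF _ hF0
        rw [nm_mul] at h1
        have h2 := nm_pos.mpr hk.1.ne_zero
        exact le_trans (Nat.le_mul_of_pos_right _ h2) h1
      · rfl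
    simp [this]
  have e2 : ∑' e : SM n, (∑' k' : Eis, if IsPrim k' ∧ IsCoprime k' n then F (e.1 * k') else 0) =
      ∑' e : Eis, if e ∈ SM n then
        (∑' k' : Eis, if IsPrim k' ∧ IsCoprime k' n then F (e * k') else 0) else 0 := by
    have e3 : ∑' e : SM n, (∑' k' : Eis, if IsPrim k' ∧ IsCoprime k' n then F (e.1 * k') else 0) =
        ∑' e : SM n, (fun e : Eis => if e ∈ SM n then
        (∑' k' : Eis, if IsPrim k' ∧ IsCoprime k' n then F (e * k') else 0) else 0) e := by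
      refine tsum_congr fun e => ?_
      simp only
      rw [if_pos e.2]
    rw [e3]
    refine tsum_subtype_eq_of_support_subset (s := SM n) (f := fun e : Eis => if e ∈ SM n then
        (∑' k' : Eis, if IsPrim k' ∧ IsCoprime k' n then F (e * k') else 0) else 0) ?_
    intro k hk
    by_contra hne
    apply hk
    simp only
    rw [if_neg hne]
  rw [e2, tsum_eq_sum (s := SU n B)]
  · refine Finset.sum_congr rfl fun s hs => ?_
    rw [if_pos (mem_SU.mp hs).2]
  · intro e he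
    split_ifs with h
    · exact hz e h he
    · rfl

/-! ### radicals -/

lemma SM_congr {m n : Eis} (h : ∀ p : Eis, Prime p → (p ∣ m ↔ p ∣ n)) {s : Eis} :
    s ∈ SM m ↔ s ∈ SM n :=
  ⟨fun hs => ⟨hs.1, fun p hp hd => (h p hp).mp (hs.2 p hp hd)⟩,
    fun hs => ⟨hs.1, fun p hp hd => (h p hp).mpr (hs.2 p hp hd)⟩⟩

lemma coprime_congr {m n : Eis} (hm : m ≠ 0) (h : ∀ p : Eis, Prime p → (p ∣ m ↔ p ∣ n)) {b : Eis}
    (hb : IsCoprime b n) : IsCoprime b m := by
  rw [isCoprime_comm]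
  refine isCoprime_of_prime_dvd (fun h => hm h.1) fun p hp hpm hpb => ?_
  exact hp.not_isUnit (hb.isUnit_of_dvd' hpb ((h p hp).mp hpm))

/-! ### the weight -/

/-- the Hecke character of the weight on the primary `k'` prime to `n` -/
def DPar.wp (P : DPar) (τ H : ℝ) (k : Eis) : ℂ :=
  conj (P.χ₃ k) * ang P.l₃ k * (nm k : ℂ) ^ (I * τ) * P.U (nm k / H)

/-- the factor of the `S`-unit -/
def DPar.ws (P : DPar) (τ : ℝ) (s : Eis) : ℂ :=
  FE47.DM P.n₃ P.χ₃ s * ang P.l₃ s * (nm s : ℂ) ^ (I * τ)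

lemma norm_ang_le (l : ℤ) (b : Eis) : ‖ang l b‖ ≤ 1 := BEndA699.norm_ang_le l b

lemma norm_ws_le {P : DPar} (hP : HC P.n₃ P.χ₃) (τ : ℝ) {s : Eis} (hs : s ≠ 0) :
    ‖DPar.ws P τ s‖ ≤ nm P.n₃ := by
  unfold DPar.ws
  rw [norm_mul, norm_mul]
  have h1 := norm_DM_le hP s
  have h2 := norm_ang_le P.l₃ s
  have h3 : ‖(nm s : ℂ) ^ (I * τ)‖ = 1 := by
    have h4 : (0 : ℝ) < nm s := by exact_mod_cast nm_pos.mpr hs
    have h5 : ((nm s : ℕ) : ℂ) = ((nm s : ℝ) : ℂ) := by push_cast; rfl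
    rw [h5, Complex.norm_cpow_eq_rpow_re_of_pos h4]
    simp
  rw [h3, mul_one]
  calc ‖FE47.DM P.n₃ P.χ₃ s‖ * ‖ang P.l₃ s‖ ≤ nm P.n₃ * 1 := by gcongr
    _ = _ := mul_one _

theorem wk_mul {P : DPar} (hP : P.OK) (τ H : ℝ) (s : Eis) {k' : Eis} (hk : IsPrim k')
    (hc : IsCoprime k' P.n) :
    P.wk τ H (s * k') = DPar.ws P τ s * DPar.wp P τ (H / nm s) k' := by
  unfold DPar.wk DPar.ws DPar.wp
  have hb : k' ∈ BM P.n₃ := ⟨hk, coprime_congr hP.χ₃.q0 hP.rad hc⟩
  rw [DM_mul hP.χ₃ hb, P355.ang_mul, nm_mul]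
  have h1 : ((nm s * nm k' : ℕ) : ℂ) ^ (I * τ) = (nm s : ℂ) ^ (I * τ) * (nm k' : ℂ) ^ (I * τ) := by
    push_cast
    exact Complex.natCast_mul_natCast_cpow (nm s) (nm k') (I * τ)
  have h2 : ((nm s * nm k' : ℕ) : ℝ) / H = (nm k' : ℝ) / (H / nm s) := by
    push_cast
    rw [div_div_eq_mul_div]
    ring
  rw [h1, h2]
  ring

end Crest.Agent.R017.SU770
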