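import Crest.Agent.R017.FYpv_61
import Crest.Agent.R017.SU_770
import Crest.Agent.R012.Glue1_372

/-!
# Row 17, θ = 1: the count of the exceptional `k` of the squarefree amplifier piece (helper579)

* `moment_L1` : moments of `∑_{b ∈ T} β b (k₁ k₂² / b)` over kernels of bounded conductor
* `count_one` : the squarefree amplifier piece at ONE length is `≤ e^{(1-1/72)κ}` off a set of
  `≤ H^{1/3} e^{-κ/4 + εκ}` elements.
-/

set_option autoImplicit false

noncomputable section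

open Complex MeasureTheory Filter Topology
open scoped ContDiff ComplexConjugate

namespace Crest.Agent.R017.One579

open Crest.Agent.R012 Crest.Agent.R012.Eis Crest.Agent.R012.Gauss880
open Crest.Agent.R012.Div277 Crest.Agent.R012.Mob705
open Crest.Agent.R012.LS2 (bl mem_bl)
open Crest.Agent.R017.End699 Crest.Agent.R017.FE47 Crest.Agent.R017.Two939
open Crest.Agent.R017.FY813 (one_le_nm')
open Crest.Agent.R017.B770 Crest.Agent.R017.Asm986 Crest.Agent.R017.SU770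

/-! ### the moment large sieve over kernels -/

lemma sy_prod {j : ℕ} {h : Eis} (x : Fin j → Eis) (hx : ∀ i, IsPrim (x i)) :
    sy h (∏ i, x i) = ∏ i, sy h (x i) := by
  classical
  have key : ∀ s : Finset (Fin j), IsPrim (∏ i ∈ s, x i) ∧ sy h (∏ i ∈ s, x i) = ∏ i ∈ s, sy h (x i) := by
    intro s
    induction s using Finset.induction_on with
    | empty => exact ⟨by simpa using isPrim_one, by simp [Char766.sy_one_right h]⟩
    | insert a s ha ih =>
      rw [Finset.prod_insert ha, Finset.prod_insert ha]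
      exact ⟨(hx a).mul ih.1, by rw [Char766.sy_mul_right (hx a) ih.1, ih.2]⟩
  exact (key Finset.univ).2

lemma prim_prod {j : ℕ} (x : Fin j → Eis) (hx : ∀ i, IsPrim (x i)) : IsPrim (∏ i, x i) := by
  classical
  have key : ∀ s : Finset (Fin j), IsPrim (∏ i ∈ s, x i) := by
    intro s
    induction s using Finset.induction_on with
    | empty => simpa using isPrim_one
    | insert a s ha ih => rw [Finset.prod_insert ha]; exact (hx a).mul ih
  exact key Finset.univ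

lemma nm_prod {j : ℕ} (x : Fin j → Eis) : nm (∏ i, x i) = ∏ i, nm (x i) := by
  classical
  have key : ∀ s : Finset (Fin j), nm (∏ i ∈ s, x i) = ∏ i ∈ s, nm (x i) := by
    intro s
    induction s using Finset.induction_on with
    | empty => simp
    | insert a s ha ih => rw [Finset.prod_insert ha, Finset.prod_insert ha, nm_mul, ih]
  exact key Finset.univ

/-- **moments over kernels**. -/
theorem moment_L1 (j : ℕ) {ε : ℝ} (hε : 0 < ε) : ∃ C : ℝ, 0 < C ∧ ∀ B Q D : ℝ, 1 ≤ B → 1 ≤ Q →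
    0 ≤ D → ∀ 𝒦 : Finset NonCube52.Ker,
    (∀ κ ∈ 𝒦, NonCube52.Good κ ∧ (nm κ.2.1 : ℝ) * nm κ.2.2 ≤ Q) →
    ∀ T : Finset Eis, (∀ b ∈ T, IsPrim b ∧ (nm b : ℝ) ≤ B) → ∀ β : Eis → ℂ,
      (∀ b ∈ T, ‖β b‖ ≤ D) →
      ∑ κ ∈ 𝒦, ‖∑ b ∈ T, β b * sy (NonCube52.kv κ) b‖ ^ (2 * j) ≤
        C * (B ^ j + Q ^ 2) * (D ^ (2 * j) * (B ^ j) ^ (1 + ε)) := by
  classical
  obtain ⟨C, hC, hL⟩ := Glue372.L1Prop_holds
  set K1 : ℝ := (100 * (1 + ((2 ^ (2 * j) : ℕ) : ℝ) / ε)) ^ (2 ^ (2 * j)) with hK1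
  have hK1p : 0 < K1 := by positivity
  refine ⟨C * K1, by positivity, ?_⟩
  intro B Q D hB hQ hD 𝒦 h𝒦 T hT β hβ
  set P : Finset (Fin j → Eis) := Fintype.piFinset (fun _ => T) with hP
  set pr : (Fin j → Eis) → Eis := fun x => ∏ i, x i with hpr
  set T' : Finset Eis := P.image pr with hT'
  set β' : Eis → ℂ := fun b => ∑ x ∈ P.filter (fun x => pr x = b), ∏ i, β (x i) with hβ'
  have hPm : ∀ x ∈ P, ∀ i, x i ∈ T := fun x hx i => (Fintype.mem_piFinset.mp hx) i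
  have hBj : (1 : ℝ) ≤ B ^ j := one_le_pow₀ hB
  -- the power as a sum
  have hpow : ∀ h : Eis, (∑ b ∈ T, β b * sy h b) ^ j = ∑ b ∈ T', β' b * sy h b := by
    intro h
    have e1 : (∑ b ∈ T, β b * sy h b) ^ j = ∏ _i : Fin j, ∑ b ∈ T, β b * sy h b := by
      rw [Finset.prod_const, Finset.card_univ, Fintype.card_fin]
    rw [e1, Finset.prod_univ_sum]
    rw [← Finset.sum_fiberwise_of_maps_to (s := P) (t := T') (g := pr)
      (fun x hx => Finset.mem_image_of_mem _ hx)]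
    refine Finset.sum_congr rfl fun b _ => ?_
    rw [hβ']
    beta_reduce
    rw [Finset.sum_mul]
    refine Finset.sum_congr rfl fun x hx => ?_
    rw [Finset.mem_filter] at hx
    rw [Finset.prod_mul_distrib, ← hx.2, hpr]
    beta_reduce
    rw [sy_prod x (fun i => (hT _ (hPm x hx.1 i)).1)]
  have hT'm : ∀ b ∈ T', IsPrim b ∧ (nm b : ℝ) ≤ B ^ j := by
    intro b hb
    obtain ⟨x, hx, rfl⟩ := Finset.mem_image.mp hb
    refine ⟨prim_prod x (fun i => (hT _ (hPm x hx i)).1), ?_⟩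
    rw [hpr]
    beta_reduce
    rw [nm_prod]
    push_cast
    calc ∏ i, (nm (x i) : ℝ) ≤ ∏ _i : Fin j, B :=
          Finset.prod_le_prod (fun i _ => by positivity) (fun i _ => (hT _ (hPm x hx i)).2)
      _ = B ^ j := by rw [Finset.prod_const, Finset.card_univ, Fintype.card_fin]
  have hβ'b : ∀ b ∈ T', ‖β' b‖ ≤ D ^ j * (tau b : ℝ) ^ j := by
    intro b hb
    have hbp := (hT'm b hb).1
    have hb0 : b ≠ 0 := hbp.ne_zero
    rw [hβ']
    beta_reduce
    refine (norm_sum_le _ _).trans ?_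
    have h1 : ∀ x ∈ P.filter (fun x => pr x = b), ‖∏ i, β (x i)‖ ≤ D ^ j := by
      intro x hx
      rw [Finset.mem_filter] at hx
      rw [norm_prod]
      calc ∏ i, ‖β (x i)‖ ≤ ∏ _i : Fin j, D :=
            Finset.prod_le_prod (fun i _ => norm_nonneg _) (fun i _ => hβ _ (hPm x hx.1 i))
        _ = D ^ j := by rw [Finset.prod_const, Finset.card_univ, Fintype.card_fin]
    have h2 : (P.filter (fun x => pr x = b)).card ≤ tau b ^ j := by
      have h3 : P.filter (fun x => pr x = b) ⊆ Fintype.piFinset (fun _ : Fin j => dvs b) := by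
        intro x hx
        rw [Finset.mem_filter] at hx
        rw [Fintype.mem_piFinset]
        intro i
        rw [mem_dvs hb0]
        refine ⟨(hT _ (hPm x hx.1 i)).1, ?_⟩
        rw [← hx.2]
        exact Finset.dvd_prod_of_mem _ (Finset.mem_univ i)
      refine (Finset.card_le_card h3).trans (le_of_eq ?_)
      rw [Fintype.card_piFinset_const]
      rfl
    calc ∑ x ∈ P.filter (fun x => pr x = b), ‖∏ i, β (x i)‖
        ≤ ∑ _x ∈ P.filter (fun x => pr x = b), D ^ j := Finset.sum_le_sum h1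
      _ = ((P.filter (fun x => pr x = b)).card : ℝ) * D ^ j := by
          rw [Finset.sum_const, nsmul_eq_mul]
      _ ≤ ((tau b ^ j : ℕ) : ℝ) * D ^ j := by
          gcongr
      _ = _ := by push_cast; ring
  have hmain := hL (B ^ j) Q hBj hQ 𝒦 h𝒦 T' hT'm β'
  have e2 : ∑ κ ∈ 𝒦, ‖∑ b ∈ T, β b * sy (NonCube52.kv κ) b‖ ^ (2 * j) =
      ∑ κ ∈ 𝒦, ‖∑ b ∈ T', β' b * sy (NonCube52.kv κ) b‖ ^ 2 := by
    refine Finset.sum_congr rfl fun κ _ => ?_
    rw [← hpow, norm_pow]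
    ring
  rw [e2]
  refine hmain.trans ?_
  have hsub : T' ⊆ nz ⌊B ^ j⌋₊ := by
    intro b hb
    rw [mem_nz]
    exact ⟨(hT'm b hb).1.ne_zero, Nat.le_floor (hT'm b hb).2⟩
  have h5 : ∑ b ∈ T', ‖β' b‖ ^ 2 ≤ D ^ (2 * j) * (K1 * (B ^ j) ^ (1 + ε)) := by
    calc ∑ b ∈ T', ‖β' b‖ ^ 2 ≤ ∑ b ∈ T', D ^ (2 * j) * (tau b : ℝ) ^ (2 * j) := by
          refine Finset.sum_le_sum fun b hb => ?_
          calc ‖β' b‖ ^ 2 ≤ (D ^ j * (tau b : ℝ) ^ j) ^ 2 := by
                gcongr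
                exact hβ'b b hb
            _ = _ := by ring
      _ ≤ ∑ b ∈ nz ⌊B ^ j⌋₊, D ^ (2 * j) * (tau b : ℝ) ^ (2 * j) :=
          Finset.sum_le_sum_of_subset_of_nonneg hsub (fun _ _ _ => by positivity)
      _ = D ^ (2 * j) * ∑ b ∈ nz ⌊B ^ j⌋₊, (tau b : ℝ) ^ (2 * j) := by rw [Finset.mul_sum]
      _ ≤ D ^ (2 * j) * (K1 * (B ^ j) ^ (1 + ε)) := by
          refine mul_le_mul_of_nonneg_left ?_ (by positivity)
          refine (sum_tau_pow_le (2 * j) ⌊B ^ j⌋₊).trans ?_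
          have hf1 : (⌊B ^ j⌋₊ : ℝ) ≤ B ^ j := Nat.floor_le (by positivity)
          have hf2 : (1 : ℝ) ≤ (⌊B ^ j⌋₊ : ℝ) := by
            exact_mod_cast (Nat.one_le_floor_iff _).mpr hBj
          have hf3 : 0 ≤ Real.log (⌊B ^ j⌋₊ : ℝ) := Real.log_nonneg hf2
          have hf4 : Real.log (⌊B ^ j⌋₊ : ℝ) ≤ Real.log (B ^ j) :=
            Real.log_le_log (by linarith) hf1
          calc (⌊B ^ j⌋₊ : ℝ) * (100 * (1 + Real.log (⌊B ^ j⌋₊ : ℝ))) ^ (2 ^ (2 * j))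
              ≤ B ^ j * (100 * (1 + Real.log (B ^ j))) ^ (2 ^ (2 * j)) := by gcongr
            _ ≤ B ^ j * (K1 * (B ^ j) ^ ε) := by
                refine mul_le_mul_of_nonneg_left ?_ (by positivity)
                exact poly_log_le (2 ^ (2 * j)) hBj hε
            _ = K1 * (B ^ j) ^ (1 + ε) := by
                rw [Real.rpow_add (by positivity), Real.rpow_one]; ring
  calc C * (B ^ j + Q ^ 2) * ∑ b ∈ T', ‖β' b‖ ^ 2
      ≤ C * (B ^ j + Q ^ 2) * (D ^ (2 * j) * (K1 * (B ^ j) ^ (1 + ε))) := by gcongr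
    _ = _ := by ring

/-! ### the amplifier piece as a character sum over the kernel -/

lemma norm_twt_le' {M : Eis} {φ : Eis → ℂ} (hφ : HC M φ) (l : ℤ) (t : ℝ) {q : Eis}
    (hq : IsPrim q) : ‖twt φ l t q‖ ≤ 1 := by
  unfold twt
  rw [norm_mul, FY61.cpow_eq_osc hq.ne_zero, Weight600.norm_osc, mul_one]
  exact (hφ.isChar_tw l).norm_le hq

open Classical in
lemma AS_kernel {h : ℝ → ℂ} (l : ℤ) {n : Eis} {φ : Eis → ℂ} (hφ : HC n φ) {D : ℝ}
    (hD : ∀ u, ‖h u‖ ≤ D) (κ' t : ℝ) (d e m : Eis) :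
    ∃ β : Eis → ℂ, (∀ b ∈ sqB κ', ‖β b‖ ≤ D) ∧ ∀ k1 k2 : Eis,
      ‖AS h κ' (fun c => twt φ l t c * prin0 d c * conj (sy (e * k1 * k2 ^ 2 * m ^ 3) c))‖ =
        ‖∑ b ∈ sqB κ', β b * sy (NonCube52.kv ((0, 0), (k1, k2))) b‖ := by
  refine ⟨fun b => conj (twt φ l t b * prin0 d b * h (Real.log (nm b) - κ')) * sy (e * m ^ 3) b,
    ?_, ?_⟩
  · intro b hb
    have hp : IsPrim b := by
      unfold sqB at hb
      exact (mem_primBall.mp (Finset.mem_filter.mp hb).1).2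
    have h1 : ‖twt φ l t b‖ ≤ 1 := norm_twt_le' hφ l t hp
    have h2 : ‖prin0 d b‖ ≤ 1 := by unfold prin0; split_ifs <;> simp
    have h3 : ‖sy (e * m ^ 3) b‖ ≤ 1 := Char766.norm_sy_le hp
    have h4 := hD (Real.log (nm b) - κ')
    have hD0 : 0 ≤ D := (norm_nonneg _).trans h4
    rw [norm_mul, RCLike.norm_conj, norm_mul, norm_mul]
    calc ‖twt φ l t b‖ * ‖prin0 d b‖ * ‖h (Real.log (nm b) - κ')‖ * ‖sy (e * m ^ 3) b‖
        ≤ 1 * 1 * D * 1 := by gcongr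
      _ = D := by ring
  · intro k1 k2
    have e1 : AS h κ' (fun c => twt φ l t c * prin0 d c * conj (sy (e * k1 * k2 ^ 2 * m ^ 3) c)) =
        conj (∑ b ∈ sqB κ', conj (twt φ l t b * prin0 d b * h (Real.log (nm b) - κ')) *
          sy (e * m ^ 3) b * sy (NonCube52.kv ((0, 0), (k1, k2))) b) := by
      unfold AS
      rw [map_sum]
      refine Finset.sum_congr rfl fun b hb => ?_
      have hp : IsPrim b := by
        unfold sqB at hb
        exact (mem_primBall.mp (Finset.mem_filter.mp hb).1).2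
      have e2 : e * k1 * k2 ^ 2 * m ^ 3 = (e * m ^ 3) * (NonCube52.kv ((0, 0), (k1, k2))) := by
        unfold NonCube52.kv; simp only [pow_zero]; ring
      beta_reduce
      rw [e2, Char766.sy_mul_left (x := e * m ^ 3) hp, map_mul, map_mul, map_mul,
        Complex.conj_conj]
      ring
    rw [e1, RCLike.norm_conj]

open Classical in
lemma mem_sqB {κ' : ℝ} {b : Eis} (hb : b ∈ sqB κ') : IsPrim b ∧ (nm b : ℝ) ≤ Real.exp (κ' + 1) := by
  unfold sqB at hb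
  have h1 := mem_primBall.mp (Finset.mem_filter.mp hb).1
  exact ⟨h1.2, (Nat.le_floor_iff (Real.exp_pos _).le).mp h1.1⟩

/-- the bad kernels for fixed `(e, m)` -/
theorem count_em {h : ℝ → ℂ} (l : ℤ) {n : Eis} {φ : Eis → ℂ} (hφ : HC n φ) {D : ℝ} (hD1 : 0 < D)
    (hD : ∀ u, ‖h u‖ ≤ D) (j : ℕ) {ε : ℝ} (hε : 0 < ε) : ∃ C : ℝ, 0 < C ∧
    ∀ κ κ' : ℝ, 0 ≤ κ → κ' ≤ κ → ∀ (t : ℝ) (d e m : Eis) (K : Finset (Eis × Eis)),
      (∀ k ∈ K, IsPrim k.1 ∧ IsPrim k.2 ∧ Squarefree k.1 ∧ Squarefree k.2 ∧ IsCoprime k.1 k.2 ∧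
        (nm (k.1 * k.2) : ℝ) ≤ Real.exp (j * κ / 2) ∧
        D * Real.exp ((1 - 1 / 72) * κ) < ‖AS h κ' (fun c => twt φ l t c * prin0 d c *
          conj (sy (e * k.1 * k.2 ^ 2 * m ^ 3) c))‖) →
      (K.card : ℝ) ≤ C * Real.exp ((1 / 36 + ε) * j * κ) := by
  classical
  obtain ⟨C, hC, hmom⟩ := moment_L1 j hε
  refine ⟨C * 2 * Real.exp (j * (2 + ε)), by positivity, ?_⟩
  intro κ κ' hκ hκ' t d e m K hK
  obtain ⟨β, hβ, hAS⟩ := AS_kernel l hφ hD κ' t d e m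
  have hB : (1 : ℝ) ≤ Real.exp (κ + 1) := Real.one_le_exp (by linarith)
  have hQ : (1 : ℝ) ≤ Real.exp (j * κ / 2) := Real.one_le_exp (by positivity)
  set emb : Eis × Eis → NonCube52.Ker := fun k => ((0, 0), k) with hemb
  have hinj : Function.Injective emb := fun a b hab => (Prod.ext_iff.mp hab).2
  have hm := hmom (Real.exp (κ + 1)) (Real.exp (j * κ / 2)) D hB hQ hD1.le (K.image emb) (by
    intro x hx
    obtain ⟨k, hk, rfl⟩ := Finset.mem_image.mp hx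
    obtain ⟨a1, a2, a3, a4, a5, a6, a7⟩ := hK k hk
    refine ⟨⟨by simp [hemb], by simp [hemb], a1, a2, a3, a4, a5⟩, ?_⟩
    rw [nm_mul] at a6
    push_cast at a6
    exact a6) (sqB κ') (by
    intro b hb
    obtain ⟨h1, h2⟩ := mem_sqB hb
    exact ⟨h1, h2.trans (Real.exp_le_exp.mpr (by linarith))⟩) β hβ
  rw [Finset.sum_image (fun x _ y _ hxy => hinj hxy)] at hm
  have hlow : (K.card : ℝ) * (D * Real.exp ((1 - 1 / 72) * κ)) ^ (2 * j) ≤
      ∑ x ∈ K, ‖∑ b ∈ sqB κ', β b * sy (NonCube52.kv (emb x)) b‖ ^ (2 * j) := by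
    rw [← nsmul_eq_mul, ← Finset.sum_const]
    refine Finset.sum_le_sum fun k hk => ?_
    obtain ⟨a1, a2, a3, a4, a5, a6, a7⟩ := hK k hk
    rw [hAS] at a7
    exact pow_le_pow_left₀ (by positivity) a7.le _
  have h1 := hlow.trans hm
  have hDj : 0 < D ^ (2 * j) := by positivity
  have h2 : (K.card : ℝ) * Real.exp ((1 - 1 / 72) * κ) ^ (2 * j) ≤
      C * (Real.exp (κ + 1) ^ j + Real.exp (j * κ / 2) ^ 2) *
        (Real.exp (κ + 1) ^ j) ^ (1 + ε) := by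
    rw [mul_pow] at h1
    have h3 : D ^ (2 * j) * ((K.card : ℝ) * Real.exp ((1 - 1 / 72) * κ) ^ (2 * j)) ≤
        D ^ (2 * j) * (C * (Real.exp (κ + 1) ^ j + Real.exp (j * κ / 2) ^ 2) *
        (Real.exp (κ + 1) ^ j) ^ (1 + ε)) := by
      calc _ = (K.card : ℝ) * (D ^ (2 * j) * Real.exp ((1 - 1 / 72) * κ) ^ (2 * j)) := by ring
        _ ≤ _ := h1
        _ = _ := by ring
    exact le_of_mul_le_mul_left h3 hDj
  have e1 : Real.exp (κ + 1) ^ j = Real.exp (j * (κ + 1)) := by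
    rw [← Real.exp_nat_mul]
  have e2 : Real.exp (j * κ / 2) ^ 2 = Real.exp (j * κ) := by
    rw [← Real.exp_nat_mul]; congr 1; push_cast; ring
  have e3 : Real.exp ((1 - 1 / 72) * κ) ^ (2 * j) = Real.exp (2 * j * ((1 - 1 / 72) * κ)) := by
    rw [← Real.exp_nat_mul]; congr 1; push_cast; ring
  rw [e1, e2, e3, ← Real.exp_mul] at h2
  have h4 : Real.exp (j * κ) ≤ Real.exp (j * (κ + 1)) := by
    apply Real.exp_le_exp.mpr
    have : (0 : ℝ) ≤ j := Nat.cast_nonneg j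
    nlinarith
  have h5 : (K.card : ℝ) * Real.exp (2 * j * ((1 - 1 / 72) * κ)) ≤
      C * 2 * (Real.exp (j * (κ + 1)) * Real.exp (j * (κ + 1) * (1 + ε))) := by
    refine h2.trans ?_
    calc C * (Real.exp (j * (κ + 1)) + Real.exp (j * κ)) * Real.exp (j * (κ + 1) * (1 + ε))
        ≤ C * (Real.exp (j * (κ + 1)) + Real.exp (j * (κ + 1))) *
          Real.exp (j * (κ + 1) * (1 + ε)) := by gcongr
      _ = _ := by ring
  have h6 : (K.card : ℝ) = (K.card : ℝ) * Real.exp (2 * j * ((1 - 1 / 72) * κ)) *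
      Real.exp (-(2 * j * ((1 - 1 / 72) * κ))) := by
    rw [mul_assoc, ← Real.exp_add, add_neg_cancel, Real.exp_zero, mul_one]
  rw [h6]
  calc (K.card : ℝ) * Real.exp (2 * j * ((1 - 1 / 72) * κ)) *
      Real.exp (-(2 * j * ((1 - 1 / 72) * κ)))
      ≤ C * 2 * (Real.exp (j * (κ + 1)) * Real.exp (j * (κ + 1) * (1 + ε))) *
        Real.exp (-(2 * j * ((1 - 1 / 72) * κ))) := by gcongr
    _ = C * 2 * Real.exp (j * (2 + ε)) * Real.exp ((1 / 36 + ε) * j * κ) := by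
        rw [mul_assoc (C * 2), mul_assoc (C * 2), ← Real.exp_add, ← Real.exp_add, ← Real.exp_add]
        congr 2
        ring

/-- the blocks of the kernels -/
lemma exists_block {M κ x : ℝ} (hκ : 1 ≤ κ) (hM : 0 < M) (h1 : Real.exp κ < x)
    (h2 : x ≤ Real.exp (M * (κ + 1))) {J : ℕ} (hJ : 4 * M ≤ J) :
    ∃ j ∈ Finset.Icc 3 J, Real.exp ((j - 1) * κ / 2) < x ∧ x ≤ Real.exp (j * κ / 2) := by
  have hx : 0 < x := (Real.exp_pos _).trans h1
  have hκ0 : 0 < κ := by linarith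
  have hl1 : κ < Real.log x := (Real.lt_log_iff_exp_lt hx).mpr h1
  have hl2 : Real.log x ≤ M * (κ + 1) := (Real.log_le_iff_le_exp hx).mpr h2
  set y := 2 * Real.log x / κ with hy
  have hy2 : 2 < y := by
    rw [hy, lt_div_iff₀ hκ0]; linarith
  have hyJ : y ≤ J := by
    refine le_trans ?_ hJ
    rw [hy, div_le_iff₀ hκ0]
    nlinarith
  refine ⟨⌈y⌉₊, ?_, ?_, ?_⟩
  · rw [Finset.mem_Icc]
    refine ⟨?_, Nat.ceil_le.mpr hyJ⟩
    have : (2 : ℕ) < ⌈y⌉₊ := Nat.lt_ceil.mpr (by exact_mod_cast hy2)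
    omega
  · rw [← Real.lt_log_iff_exp_lt hx]
    have h3 := Nat.ceil_lt_add_one (by linarith : (0 : ℝ) ≤ y)
    have h4 : ((⌈y⌉₊ : ℝ) - 1) * κ < y * κ := by
      apply mul_lt_mul_of_pos_right _ hκ0
      linarith
    have h5 : y * κ = 2 * Real.log x := by rw [hy]; field_simp
    linarith
  · rw [← Real.log_le_iff_le_exp hx]
    have h3 := Nat.le_ceil y
    have h4 : y * κ ≤ (⌈y⌉₊ : ℝ) * κ := mul_le_mul_of_nonneg_right h3 hκ0.le
    have h5 : y * κ = 2 * Real.log x := by rw [hy]; field_simp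
    linarith

lemma exp_one_add_pow_le {M κ H ε₁ : ℝ} (hH1 : 1 ≤ H) (hH : H ≤ Real.exp (M * (κ + 1)))
    (hε₁ : 0 ≤ ε₁) {x : ℝ} (hx0 : 0 ≤ x) (hx : x ≤ H) :
    x ^ ε₁ ≤ Real.exp (ε₁ * M * (κ + 1)) := by
  calc x ^ ε₁ ≤ (Real.exp (M * (κ + 1))) ^ ε₁ := Real.rpow_le_rpow hx0 (hx.trans hH) hε₁
    _ = _ := by rw [← Real.exp_mul]; ring_nf

/-- the cardinality of one block -/
lemma card_block {h : ℝ → ℂ} (l : ℤ) {n : Eis} {φ : Eis → ℂ} (hφ : HC n φ) {D : ℝ} (hD1 : 0 < D)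
    (hD : ∀ u, ‖h u‖ ≤ D) {j : ℕ} (hj : 3 ≤ j) {J : ℕ} (hjJ : j ≤ J) {ε M : ℝ} (hε : 0 < ε)
    (hM : 0 < M) : ∃ C : ℝ, 0 < C ∧ ∀ κ H κ' : ℝ, 0 ≤ κ → 1 ≤ H → H ≤ Real.exp (M * (κ + 1)) →
      κ' ≤ κ → ∀ (t : ℝ) (d : Eis), ∃ E : Finset Eis,
        (E.card : ℝ) ≤ C * Real.exp (ε * κ) * (H ^ (1 / 3 : ℝ) * Real.exp (-(κ / 4))) ∧
        ∀ e ∈ SM n, ∀ k1 k2 m : Eis, IsPrim k1 → IsPrim k2 → IsPrim m → Squarefree k1 →
          Squarefree k2 → IsCoprime k1 k2 → (nm (e * k1 * k2 ^ 2 * m ^ 3) : ℝ) ≤ H →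
          Real.exp ((j - 1) * κ / 2) < nm (k1 * k2) → (nm (k1 * k2) : ℝ) ≤ Real.exp (j * κ / 2) →
          D * Real.exp ((1 - 1 / 72) * κ) < ‖AS h κ' (fun c => twt φ l t c * prin0 d c *
            conj (sy (e * k1 * k2 ^ 2 * m ^ 3) c))‖ → e * k1 * k2 ^ 2 * m ^ 3 ∈ E := by
  classical
  have hJ0 : (0 : ℝ) < J := by
    have : 0 < J := by omega
    exact_mod_cast this
  obtain ⟨C1, hC1, hem⟩ := count_em l hφ hD1 hD j (ε := ε / (2 * J)) (by positivity)
  obtain ⟨C2, hC2, hSU⟩ := card_SU (ε := ε / (2 * M)) (by positivity) hφ.q0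
  refine ⟨(C2 + 1) * Real.exp (ε / 2) * 100 * C1, by positivity, ?_⟩
  intro κ H κ' hκ hH1 hH hκ' t d
  have hH0 : 0 < H := by linarith
  set X : ℝ := (H * Real.exp (-((j - 1) * κ / 2))) ^ (1 / 3 : ℝ) with hX
  have hX0 : 0 ≤ X := by positivity
  set N := ⌊H⌋₊ with hN
  set Kb : Eis × Eis → Finset (Eis × Eis) := fun em => (nz N ×ˢ nz N).filter (fun k =>
    IsPrim k.1 ∧ IsPrim k.2 ∧ Squarefree k.1 ∧ Squarefree k.2 ∧ IsCoprime k.1 k.2 ∧
        (nm (k.1 * k.2) : ℝ) ≤ Real.exp (j * κ / 2) ∧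
        D * Real.exp ((1 - 1 / 72) * κ) < ‖AS h κ' (fun c => twt φ l t c * prin0 d c *
          conj (sy (em.1 * k.1 * k.2 ^ 2 * em.2 ^ 3) c))‖) with hKb
  set EM : Finset (Eis × Eis) := SU n N ×ˢ nz ⌊X⌋₊ with hEM
  refine ⟨EM.biUnion (fun em => (Kb em).image (fun k => em.1 * k.1 * k.2 ^ 2 * em.2 ^ 3)), ?_, ?_⟩
  · have h1 : ((EM.biUnion (fun em => (Kb em).image
        (fun k => em.1 * k.1 * k.2 ^ 2 * em.2 ^ 3))).card : ℝ) ≤
        EM.card * (C1 * Real.exp ((1 / 36 + ε / (2 * J)) * j * κ)) := by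
      calc ((EM.biUnion (fun em => (Kb em).image
            (fun k => em.1 * k.1 * k.2 ^ 2 * em.2 ^ 3))).card : ℝ)
          ≤ ((∑ em ∈ EM, ((Kb em).image (fun k => em.1 * k.1 * k.2 ^ 2 * em.2 ^ 3)).card : ℕ) : ℝ) := by
            exact_mod_cast Finset.card_biUnion_le
        _ ≤ ∑ em ∈ EM, ((Kb em).card : ℝ) := by
            push_cast
            exact Finset.sum_le_sum fun em _ => by exact_mod_cast Finset.card_image_le
        _ ≤ ∑ _em ∈ EM, C1 * Real.exp ((1 / 36 + ε / (2 * J)) * j * κ) := by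
            refine Finset.sum_le_sum fun em _ => ?_
            refine hem κ κ' hκ hκ' t d em.1 em.2 (Kb em) (fun k hk => ?_)
            exact (Finset.mem_filter.mp hk).2
        _ = _ := by rw [Finset.sum_const, nsmul_eq_mul]
    have h2 : (EM.card : ℝ) ≤ (C2 * Real.exp (ε / 2 * (κ + 1))) * (100 * X) := by
      rw [hEM, Finset.card_product]
      push_cast
      have a1 : ((SU n N).card : ℝ) ≤ C2 * Real.exp (ε / 2 * (κ + 1)) := by
        refine (hSU N).trans ?_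
        refine mul_le_mul_of_nonneg_left ?_ hC2
        have a2 := exp_one_add_pow_le (ε₁ := ε / (2 * M)) hH1 hH (by positivity)
          (x := (N : ℝ)) (by positivity) (Nat.floor_le hH0.le)
        refine a2.trans (le_of_eq ?_)
        congr 1
        field_simp
      have a3 : ((nz ⌊X⌋₊).card : ℝ) ≤ 100 * X := by
        refine (card_nz_le _).trans ?_
        have := Nat.floor_le hX0
        linarith
      exact mul_le_mul a1 a3 (by positivity) (by positivity)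
    have h3 : X = H ^ (1 / 3 : ℝ) * Real.exp (-((j - 1) * κ / 6)) := by
      rw [hX, Real.mul_rpow hH0.le (Real.exp_pos _).le, ← Real.exp_mul]
      congr 2
      ring
    have hj3 : (3 : ℝ) ≤ j := by exact_mod_cast hj
    have hjJ' : (j : ℝ) ≤ J := by exact_mod_cast hjJ
    refine h1.trans ?_
    calc (EM.card : ℝ) * (C1 * Real.exp ((1 / 36 + ε / (2 * J)) * j * κ))
        ≤ ((C2 * Real.exp (ε / 2 * (κ + 1))) * (100 * X)) *
          (C1 * Real.exp ((1 / 36 + ε / (2 * J)) * j * κ)) := by gcongr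
      _ = (C2 * 100 * C1 * H ^ (1 / 3 : ℝ)) * (Real.exp (ε / 2 * (κ + 1)) *
          Real.exp (-((j - 1) * κ / 6)) * Real.exp ((1 / 36 + ε / (2 * J)) * j * κ)) := by
          rw [h3]; ring
      _ ≤ (C2 * 100 * C1 * H ^ (1 / 3 : ℝ)) * (Real.exp (ε / 2) * Real.exp (ε * κ) *
          Real.exp (-(κ / 4))) := by
          refine mul_le_mul_of_nonneg_left ?_ (by positivity)
          rw [← Real.exp_add, ← Real.exp_add, ← Real.exp_add, ← Real.exp_add]
          apply Real.exp_le_exp.mpr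
          have b1 : ε / (2 * J) * j ≤ ε / 2 := by
            rw [div_mul_eq_mul_div, div_le_div_iff₀ (by positivity) (by norm_num)]
            nlinarith
          have b2 : ε / (2 * J) * j * κ ≤ ε / 2 * κ := mul_le_mul_of_nonneg_right b1 hκ
          have b3 : 3 * κ ≤ j * κ := mul_le_mul_of_nonneg_right hj3 hκ
          nlinarith
      _ ≤ (C2 + 1) * Real.exp (ε / 2) * 100 * C1 * Real.exp (ε * κ) *
          (H ^ (1 / 3 : ℝ) * Real.exp (-(κ / 4))) := by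
          have b4 : 0 ≤ 100 * C1 * H ^ (1 / 3 : ℝ) * (Real.exp (ε / 2) * Real.exp (ε * κ) *
            Real.exp (-(κ / 4))) := by positivity
          nlinarith
  · intro e he k1 k2 m p1 p2 pm s1 s2 hcop hnm hlo hhi hbad
    have n1 : (1 : ℝ) ≤ nm k1 := one_le_nm' p1
    have n2 : (1 : ℝ) ≤ nm k2 := one_le_nm' p2
    have n3 : (1 : ℝ) ≤ nm m := one_le_nm' pm
    have n4 : (1 : ℝ) ≤ nm e := by exact_mod_cast nm_pos.mpr he.1
    have hexp : (nm (e * k1 * k2 ^ 2 * m ^ 3) : ℝ) =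
        nm e * nm k1 * (nm k2 : ℝ) ^ 2 * (nm m : ℝ) ^ 3 := by
      rw [nm_mul, nm_mul, nm_mul, nm_pow, nm_pow]; push_cast; ring
    rw [hexp] at hnm
    rw [nm_mul] at hlo
    push_cast at hlo
    have hk12 : (1 : ℝ) ≤ nm k1 * nm k2 := one_le_mul_of_one_le_of_one_le n1 n2
    rw [Finset.mem_biUnion]
    refine ⟨(e, m), ?_, ?_⟩
    · rw [hEM, Finset.mem_product]
      refine ⟨?_, ?_⟩
      · rw [mem_SU]
        refine ⟨Nat.le_floor ?_, he⟩
        refine le_trans ?_ hnm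
        have q1 : (1 : ℝ) ≤ nm k1 * (nm k2 : ℝ) ^ 2 * (nm m : ℝ) ^ 3 :=
          one_le_mul_of_one_le_of_one_le (one_le_mul_of_one_le_of_one_le n1 (one_le_pow₀ n2))
            (one_le_pow₀ n3)
        calc (nm e : ℝ) = nm e * 1 := (mul_one _).symm
          _ ≤ nm e * (nm k1 * (nm k2 : ℝ) ^ 2 * (nm m : ℝ) ^ 3) := by gcongr
          _ = _ := by ring
      · rw [mem_nz]
        refine ⟨pm.ne_zero, Nat.le_floor ?_⟩
        change (nm m : ℝ) ≤ X
        have q2 : (nm m : ℝ) ^ 3 * Real.exp ((j - 1) * κ / 2) ≤ H := by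
          refine le_trans ?_ hnm
          calc (nm m : ℝ) ^ 3 * Real.exp ((j - 1) * κ / 2)
              ≤ (nm m : ℝ) ^ 3 * (nm k1 * nm k2) := by gcongr
            _ = 1 * nm k1 * (nm k2 : ℝ) * (nm m : ℝ) ^ 3 := by ring
            _ ≤ nm e * nm k1 * (nm k2 : ℝ) ^ 2 * (nm m : ℝ) ^ 3 := by
                gcongr
                calc (nm k2 : ℝ) = nm k2 * 1 := (mul_one _).symm
                  _ ≤ nm k2 * nm k2 := by gcongr
                  _ = _ := by ring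
        have q3 : (nm m : ℝ) ^ 3 ≤ H * Real.exp (-((j - 1) * κ / 2)) := by
          rw [Real.exp_neg, ← div_eq_mul_inv, le_div_iff₀ (Real.exp_pos _)]
          exact q2
        calc (nm m : ℝ) = ((nm m : ℝ) ^ 3) ^ (1 / 3 : ℝ) := by
              rw [← Real.rpow_natCast, ← Real.rpow_mul (by positivity)]
              norm_num
          _ ≤ X := Real.rpow_le_rpow (by positivity) q3 (by norm_num)
    · rw [Finset.mem_image]
      refine ⟨(k1, k2), ?_, rfl⟩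
      rw [hKb]
      beta_reduce
      rw [Finset.mem_filter, Finset.mem_product, mem_nz, mem_nz]
      have q4 : (nm k1 : ℝ) * nm k2 ≤ H := by
        refine le_trans ?_ hnm
        calc (nm k1 : ℝ) * nm k2 = 1 * nm k1 * nm k2 * 1 := by ring
          _ ≤ nm e * nm k1 * (nm k2 : ℝ) ^ 2 * (nm m : ℝ) ^ 3 := by
              gcongr
              · calc (nm k2 : ℝ) = nm k2 * 1 := (mul_one _).symm
                  _ ≤ nm k2 * nm k2 := by gcongr
                  _ = _ := by ring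
              · exact one_le_pow₀ n3
      refine ⟨⟨⟨p1.ne_zero, Nat.le_floor ?_⟩, p2.ne_zero, Nat.le_floor ?_⟩, p1, p2, s1, s2, hcop,
        hhi, hbad⟩
      · refine le_trans ?_ q4
        change (nm k1 : ℝ) ≤ _
        calc (nm k1 : ℝ) = nm k1 * 1 := (mul_one _).symm
          _ ≤ nm k1 * nm k2 := by gcongr
      · refine le_trans ?_ q4
        change (nm k2 : ℝ) ≤ _
        calc (nm k2 : ℝ) = 1 * nm k2 := (one_mul _).symm
          _ ≤ nm k1 * nm k2 := by gcongr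

/-- the trivial bound -/
lemma AS_triv {h : ℝ → ℂ} (l : ℤ) {n : Eis} {φ : Eis → ℂ} (hφ : HC n φ) {D : ℝ}
    (hD : ∀ u, ‖h u‖ ≤ D) (κ' t : ℝ) (d k : Eis) :
    ‖AS h κ' (fun c => twt φ l t c * prin0 d c * conj (sy k c))‖ ≤
      100 * D * Real.exp (κ' + 1) := by
  have hD0 : 0 ≤ D := (norm_nonneg _).trans (hD 0)
  unfold AS
  refine (norm_sum_le _ _).trans ?_
  have hcard : ((sqB κ').card : ℝ) ≤ 100 * Real.exp (κ' + 1) := by
    have h1 : sqB κ' ⊆ nz ⌊Real.exp (κ' + 1)⌋₊ := by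
      intro b hb
      obtain ⟨hb1, hb2⟩ := mem_sqB hb
      rw [mem_nz]
      exact ⟨hb1.ne_zero, Nat.le_floor hb2⟩
    have h2 : ((sqB κ').card : ℝ) ≤ ((nz ⌊Real.exp (κ' + 1)⌋₊).card : ℝ) := by
      exact_mod_cast Finset.card_le_card h1
    refine h2.trans ((card_nz_le _).trans ?_)
    have := Nat.floor_le (Real.exp_pos (κ' + 1)).le
    linarith
  calc ∑ c ∈ sqB κ', ‖twt φ l t c * prin0 d c * conj (sy k c) * h (Real.log (nm c) - κ')‖
      ≤ ∑ _c ∈ sqB κ', D := by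
        refine Finset.sum_le_sum fun b hb => ?_
        obtain ⟨hp, -⟩ := mem_sqB hb
        have h1 : ‖twt φ l t b‖ ≤ 1 := norm_twt_le' hφ l t hp
        have h2 : ‖prin0 d b‖ ≤ 1 := by unfold prin0; split_ifs <;> simp
        have h3 : ‖sy k b‖ ≤ 1 := Char766.norm_sy_le hp
        have h4 := hD (Real.log (nm b) - κ')
        rw [norm_mul, norm_mul, norm_mul, RCLike.norm_conj]
        calc ‖twt φ l t b‖ * ‖prin0 d b‖ * ‖sy k b‖ * ‖h (Real.log (nm b) - κ')‖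
            ≤ 1 * 1 * 1 * D := by gcongr
          _ = D := by ring
    _ = (sqB κ').card * D := by rw [Finset.sum_const, nsmul_eq_mul]
    _ ≤ (100 * Real.exp (κ' + 1)) * D := by gcongr
    _ = _ := by ring

/-- **the squarefree amplifier piece at one length.** -/
theorem count_one {h : ℝ → ℂ} (hh : HW h) (l : ℤ) {n : Eis} {φ : Eis → ℂ} (hφ : HC n φ) {ε M : ℝ}
    (hε : 0 < ε) (hM : 0 < M) : ∃ C A : ℝ, 0 ≤ C ∧ 0 ≤ A ∧ ∀ κ H : ℝ, 0 ≤ κ → 1 ≤ H →
      H ≤ Real.exp (M * (κ + 1)) → ∀ κ' : ℝ, κ' ≤ κ → ∀ d₁ : Eis, d₁ ≠ 0 → ∀ t₁ : ℝ,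
      ∃ E : Finset Eis, (E.card : ℝ) ≤ C * Real.exp (ε * κ) *
        (H ^ (1 / 3 : ℝ) * Real.exp (-(κ / 4))) ∧
      ∀ k ∈ bl H, NPk n φ l k → k ∉ E →
        ‖AS h κ' (fun c => twt φ l t₁ c * prin0 d₁ c * conj (sy k c))‖ ≤
          C * (nm d₁ : ℝ) ^ ε * (1 + |t₁|) ^ A * Real.exp ((1 - 1 / 72) * κ) := by
  classical
  obtain ⟨D0, hD0⟩ := hh.bounded
  set D := max D0 1 with hDdef
  have hD1 : 0 < D := lt_of_lt_of_le one_pos (le_max_right _ _)
  have hD : ∀ u, ‖h u‖ ≤ D := fun u => (hD0 u).trans (le_max_left _ _)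
  obtain ⟨J, hJ⟩ := exists_nat_ge (max (4 * M) 3)
  have hJM : 4 * M ≤ J := (le_max_left _ _).trans hJ
  obtain ⟨C0, J0, hC0, hpv⟩ := FY61.AS_pv hh l (a := 1 / 4) (by norm_num) (by norm_num) hφ
  obtain ⟨C1, hC1, htau1⟩ := tau_le_rpow (ε := 1 / (16 * M)) (by positivity)
  obtain ⟨C2, hC2, htau2⟩ := tau_le_rpow hε
  have hblk : ∀ j : ℕ, ∃ C : ℝ, 0 < C ∧ (3 ≤ j → j ≤ J → ∀ κ H κ' : ℝ, 0 ≤ κ → 1 ≤ H →
      H ≤ Real.exp (M * (κ + 1)) → κ' ≤ κ → ∀ (t : ℝ) (d : Eis), ∃ E : Finset Eis,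
        (E.card : ℝ) ≤ C * Real.exp (ε * κ) * (H ^ (1 / 3 : ℝ) * Real.exp (-(κ / 4))) ∧
        ∀ e ∈ SM n, ∀ k1 k2 m : Eis, IsPrim k1 → IsPrim k2 → IsPrim m → Squarefree k1 →
          Squarefree k2 → IsCoprime k1 k2 → (nm (e * k1 * k2 ^ 2 * m ^ 3) : ℝ) ≤ H →
          Real.exp ((j - 1) * κ / 2) < nm (k1 * k2) → (nm (k1 * k2) : ℝ) ≤ Real.exp (j * κ / 2) →
          D * Real.exp ((1 - 1 / 72) * κ) < ‖AS h κ' (fun c => twt φ l t c * prin0 d c *
            conj (sy (e * k1 * k2 ^ 2 * m ^ 3) c))‖ → e * k1 * k2 ^ 2 * m ^ 3 ∈ E) := by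
    intro j
    by_cases h3 : 3 ≤ j ∧ j ≤ J
    · obtain ⟨C, hC, hb⟩ := card_block l hφ hD1 hD h3.1 h3.2 hε hM
      exact ⟨C, hC, fun _ _ => hb⟩
    · exact ⟨1, one_pos, fun a b => absurd ⟨a, b⟩ h3⟩
  choose CB hCB hB using hblk
  have hCBs : 0 ≤ ∑ j ∈ Finset.Icc 3 J, CB j := Finset.sum_nonneg fun j _ => (hCB j).le
  set CT : ℝ := (∑ j ∈ Finset.Icc 3 J, CB j) + 100 * D * Real.exp 2 + D +
    C0 * C1 * C2 * Real.exp 1 with hCT
  have hCT1 : (∑ j ∈ Finset.Icc 3 J, CB j) ≤ CT := by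
    have : 0 ≤ 100 * D * Real.exp 2 + D + C0 * C1 * C2 * Real.exp 1 := by positivity
    linarith
  have hCT2 : 100 * D * Real.exp 2 ≤ CT := by
    have : 0 ≤ D + C0 * C1 * C2 * Real.exp 1 := by positivity
    linarith
  have hCT3 : D ≤ CT := by
    have : 0 ≤ 100 * D * Real.exp 2 + C0 * C1 * C2 * Real.exp 1 := by positivity
    linarith
  have hCT4 : C0 * C1 * C2 * Real.exp 1 ≤ CT := by
    have : 0 ≤ 100 * D * Real.exp 2 + D := by positivity
    linarith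
  have hCT0 : 0 ≤ CT := hCBs.trans hCT1
  refine ⟨CT, J0, hCT0, Nat.cast_nonneg _, ?_⟩
  intro κ H hκ hH1 hH κ' hκ' d₁ hd₁ t₁
  have hH0 : 0 < H := by linarith
  have hdn : (1 : ℝ) ≤ (nm d₁ : ℝ) ^ ε := Real.one_le_rpow (by exact_mod_cast nm_pos.mpr hd₁) hε.le
  have ht1 : (1 : ℝ) ≤ 1 + |t₁| := by linarith [abs_nonneg t₁]
  have htn : (1 : ℝ) ≤ (1 + |t₁|) ^ (J0 : ℝ) := Real.one_le_rpow ht1 (Nat.cast_nonneg _)
  have hdt : (1 : ℝ) ≤ (nm d₁ : ℝ) ^ ε * (1 + |t₁|) ^ (J0 : ℝ) :=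
    one_le_mul_of_one_le_of_one_le hdn htn
  rcases lt_or_ge κ 1 with hκ1 | hκ1
  · -- small length: trivial bound
    refine ⟨∅, ?_, ?_⟩
    · simp only [Finset.card_empty, Nat.cast_zero]
      positivity
    · intro k _ _ _
      refine (AS_triv l hφ hD κ' t₁ d₁ k).trans ?_
      have h1 : Real.exp (κ' + 1) ≤ Real.exp 2 := Real.exp_le_exp.mpr (by linarith)
      have h2 : 1 ≤ Real.exp ((1 - 1 / 72) * κ) := Real.one_le_exp (by nlinarith)
      calc 100 * D * Real.exp (κ' + 1) ≤ 100 * D * Real.exp 2 := by gcongr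
        _ ≤ CT := hCT2
        _ = CT * 1 * 1 := by ring
        _ ≤ CT * ((nm d₁ : ℝ) ^ ε * (1 + |t₁|) ^ (J0 : ℝ)) * Real.exp ((1 - 1 / 72) * κ) := by
            gcongr
        _ = _ := by ring
  · choose EB hEB1 hEB2 using fun j (h3 : 3 ≤ j) (hjJ : j ≤ J) =>
      hB j h3 hjJ κ H κ' hκ hH1 hH hκ' t₁ d₁
    set EE : ℕ → Finset Eis := fun j => if hj : 3 ≤ j ∧ j ≤ J then EB j hj.1 hj.2 else ∅ with hEE
    have hEE1 : ∀ j ∈ Finset.Icc 3 J, ((EE j).card : ℝ) ≤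
        CB j * Real.exp (ε * κ) * (H ^ (1 / 3 : ℝ) * Real.exp (-(κ / 4))) := by
      intro j hj
      have hj' := Finset.mem_Icc.mp hj
      rw [hEE]
      beta_reduce
      rw [dif_pos hj']
      exact hEB1 j hj'.1 hj'.2
    refine ⟨(Finset.Icc 3 J).biUnion EE, ?_, ?_⟩
    · calc (((Finset.Icc 3 J).biUnion EE).card : ℝ)
          ≤ ((∑ j ∈ Finset.Icc 3 J, (EE j).card : ℕ) : ℝ) := by
            exact_mod_cast Finset.card_biUnion_le
        _ ≤ ∑ j ∈ Finset.Icc 3 J, CB j * Real.exp (ε * κ) *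
              (H ^ (1 / 3 : ℝ) * Real.exp (-(κ / 4))) := by
            push_cast
            exact Finset.sum_le_sum hEE1
        _ = (∑ j ∈ Finset.Icc 3 J, CB j) * (Real.exp (ε * κ) *
              (H ^ (1 / 3 : ℝ) * Real.exp (-(κ / 4)))) := by
            rw [Finset.sum_mul]
            exact Finset.sum_congr rfl fun j _ => by ring
        _ ≤ CT * (Real.exp (ε * κ) * (H ^ (1 / 3 : ℝ) * Real.exp (-(κ / 4)))) := by gcongr
        _ = _ := by ring
    · intro k hk hnp hkE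
      obtain ⟨hk0, hkH⟩ := (mem_bl hH0.le).mp hk
      obtain ⟨e, he, k1, k2, m, p1, p2, pm, s1, s2, hcop, hcM, hmM, hkd, hAS⟩ := hpv k hk0 hnp
      have n1 : (1 : ℝ) ≤ nm k1 := one_le_nm' p1
      have n2 : (1 : ℝ) ≤ nm k2 := one_le_nm' p2
      have n3 : (1 : ℝ) ≤ nm m := one_le_nm' pm
      have n4 : (1 : ℝ) ≤ nm e := by exact_mod_cast nm_pos.mpr he.1
      have hexp : (nm k : ℝ) = nm e * nm k1 * (nm k2 : ℝ) ^ 2 * (nm m : ℝ) ^ 3 := by
        rw [hkd, nm_mul, nm_mul, nm_mul, nm_pow, nm_pow]; push_cast; ring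
      have hmH : (nm m : ℝ) ≤ H := by
        refine le_trans ?_ hkH
        rw [hexp]
        calc (nm m : ℝ) = 1 * 1 * 1 ^ 2 * nm m := by ring
          _ ≤ nm e * nm k1 * (nm k2 : ℝ) ^ 2 * nm m := by gcongr
          _ ≤ nm e * nm k1 * (nm k2 : ℝ) ^ 2 * (nm m : ℝ) ^ 3 := by
              gcongr
              exact le_self_pow₀ n3 (by norm_num)
      have hk12H : (nm (k1 * k2) : ℝ) ≤ H := by
        refine le_trans ?_ hkH
        rw [hexp, nm_mul]
        push_cast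
        calc (nm k1 : ℝ) * nm k2 = 1 * nm k1 * nm k2 * 1 := by ring
          _ ≤ nm e * nm k1 * (nm k2 : ℝ) ^ 2 * (nm m : ℝ) ^ 3 := by
              gcongr
              · exact le_self_pow₀ n2 (by norm_num)
              · exact one_le_pow₀ n3
      rcases le_or_gt ((nm (k1 * k2) : ℝ)) (Real.exp κ) with hle | hgt
      · -- small kernel: Pólya–Vinogradov
        refine (hAS d₁ hd₁ κ' t₁).trans ?_
        have g1 : (tau (m * d₁) : ℝ) ≤ (C1 * (nm m : ℝ) ^ (1 / (16 * M))) *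
            (C2 * (nm d₁ : ℝ) ^ ε) := by
          calc (tau (m * d₁) : ℝ) ≤ (tau m : ℝ) * tau d₁ := by exact_mod_cast tau_mul_le m d₁
            _ ≤ _ := mul_le_mul (htau1 m pm.ne_zero) (htau2 d₁ hd₁) (Nat.cast_nonneg _)
                (by positivity)
        have g2 : (nm m : ℝ) ^ (1 / (16 * M)) ≤ Real.exp ((κ + 1) / 16) := by
          have := exp_one_add_pow_le (ε₁ := 1 / (16 * M)) hH1 hH (by positivity)
            (x := (nm m : ℝ)) (by positivity) hmH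
          refine this.trans (le_of_eq ?_)
          congr 1
          field_simp
        have g3 : (nm (k1 * k2) : ℝ) ^ ((1 / 4 : ℝ) / 2) ≤ Real.exp (κ / 8) := by
          calc (nm (k1 * k2) : ℝ) ^ ((1 / 4 : ℝ) / 2) ≤ (Real.exp κ) ^ ((1 / 4 : ℝ) / 2) :=
                Real.rpow_le_rpow (Nat.cast_nonneg _) hle (by norm_num)
            _ = _ := by rw [← Real.exp_mul]; congr 1; ring
        have g4 : Real.exp ((1 - 1 / 4) * κ') ≤ Real.exp ((1 - 1 / 4) * κ) :=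
          Real.exp_le_exp.mpr (by linarith)
        calc C0 * ((1 + |t₁|) ^ J0 * ((tau (m * d₁) : ℝ) *
              ((nm (k1 * k2) : ℝ) ^ ((1 / 4 : ℝ) / 2) * Real.exp ((1 - 1 / 4) * κ'))))
            ≤ C0 * ((1 + |t₁|) ^ J0 * (((C1 * Real.exp ((κ + 1) / 16)) *
              (C2 * (nm d₁ : ℝ) ^ ε)) * (Real.exp (κ / 8) * Real.exp ((1 - 1 / 4) * κ)))) := by
              gcongr
              exact g1.trans (by gcongr)
          _ = (C0 * C1 * C2) * ((nm d₁ : ℝ) ^ ε * (1 + |t₁|) ^ J0) *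
              (Real.exp ((κ + 1) / 16) * Real.exp (κ / 8) * Real.exp ((1 - 1 / 4) * κ)) := by ring
          _ ≤ (C0 * C1 * C2) * ((nm d₁ : ℝ) ^ ε * (1 + |t₁|) ^ J0) *
              (Real.exp 1 * Real.exp ((1 - 1 / 72) * κ)) := by
              refine mul_le_mul_of_nonneg_left ?_ (by positivity)
              rw [← Real.exp_add, ← Real.exp_add, ← Real.exp_add]
              apply Real.exp_le_exp.mpr
              linarith
          _ = (C0 * C1 * C2 * Real.exp 1) * ((nm d₁ : ℝ) ^ ε * (1 + |t₁|) ^ J0) *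
              Real.exp ((1 - 1 / 72) * κ) := by ring
          _ ≤ CT * ((nm d₁ : ℝ) ^ ε * (1 + |t₁|) ^ J0) * Real.exp ((1 - 1 / 72) * κ) := by gcongr
          _ = _ := by rw [Real.rpow_natCast]; ring
      · -- large kernel
        obtain ⟨j, hj, hlo, hhi⟩ := exists_block hκ1 hM hgt (hk12H.trans hH) hJM
        have hj' := Finset.mem_Icc.mp hj
        by_contra hbad
        rw [not_le] at hbad
        apply hkE
        rw [Finset.mem_biUnion]
        refine ⟨j, hj, ?_⟩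
        rw [hEE]
        beta_reduce
        rw [dif_pos hj']
        have hb2 : D * Real.exp ((1 - 1 / 72) * κ) <
            ‖AS h κ' (fun c => twt φ l t₁ c * prin0 d₁ c *
            conj (sy (e * k1 * k2 ^ 2 * m ^ 3) c))‖ := by
          rw [← hkd]
          refine lt_of_le_of_lt ?_ hbad
          calc D * Real.exp ((1 - 1 / 72) * κ) ≤ CT * Real.exp ((1 - 1 / 72) * κ) := by gcongr
            _ = CT * 1 * Real.exp ((1 - 1 / 72) * κ) := by ring
            _ ≤ CT * ((nm d₁ : ℝ) ^ ε * (1 + |t₁|) ^ (J0 : ℝ)) *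
                Real.exp ((1 - 1 / 72) * κ) := by gcongr
            _ = _ := by ring
        have := hEB2 j hj'.1 hj'.2 e he k1 k2 m p1 p2 pm s1 s2 hcop (by rw [← hkd]; exact hkH)
          hlo hhi hb2
        rw [← hkd] at this
        exact this

end Crest.Agent.R017.One579
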