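import Crest.Agent.R017.BDefs3_770

/-!
# Row 17, the case θ = 1: supremum over the length of the squarefree piece (helper90)

* `hw_deriv` : `HW h → HW (deriv h)`
* `AS_sup` : `‖AS h (κ - u) f‖ ≤ ‖AS h κ f‖ + ∫₀^{C₁} ‖AS h' (κ - v) f‖ dv`
* `count_sup` : moments + Chebyshev
-/

set_option autoImplicit false

noncomputable section

open Complex MeasureTheory Filter Topology
open scoped ContDiff

namespace Crest.Agent.R017.One90

open Crest.Agent.R012 Crest.Agent.R012.Eis Crest.Agent.R012.Mob705 Crest.Agent.R012.Gauss880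
open Crest.Agent.R017.End699 Crest.Agent.R017.Asm986

variable {h : ℝ → ℂ}

lemma hw_zero_of (hh : HW h) {u : ℝ} (hu : 1 < |u|) : h u = 0 := by
  by_contra hne
  exact absurd (hh.supp u hne) (not_le.mpr hu)

theorem hw_deriv (hh : HW h) : HW (deriv h) where
  cd := (contDiff_infty_iff_deriv.mp hh.cd).2
  supp := by
    intro u hu
    by_contra hlt
    rw [not_le] at hlt
    apply hu
    have : h =ᶠ[𝓝 u] fun _ => (0 : ℂ) := by
      have ho : IsOpen {x : ℝ | 1 < |x|} := isOpen_lt continuous_const continuous_abs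
      filter_upwards [ho.mem_nhds hlt] with x hx
      exact hw_zero_of hh hx
    rw [this.deriv_eq]
    simp

lemma mem_sqB {κ : ℝ} {c : Eis} :
    c ∈ sqB κ ↔ (nm c ≤ ⌊Real.exp (κ + 1)⌋₊ ∧ IsPrim c) ∧ Squarefree c := by
  classical
  unfold sqB
  rw [Finset.mem_filter, mem_primBall]

/-- the finite set may be enlarged -/
lemma AS_eq (hh : HW h) {κ K : ℝ} (hK : κ ≤ K) (f : Eis → ℂ) :
    AS h κ f = ∑ c ∈ sqB K, f c * h (Real.log (nm c) - κ) := by
  unfold AS
  refine Finset.sum_subset ?_ ?_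
  · intro c hc
    rw [mem_sqB] at hc ⊢
    exact ⟨⟨hc.1.1.trans (Nat.floor_mono (Real.exp_le_exp.mpr (by linarith))), hc.1.2⟩, hc.2⟩
  · intro c hc hc'
    rw [mem_sqB] at hc hc'
    have hp : IsPrim c := hc.1.2
    have h1 : h (Real.log (nm c) - κ) = 0 := by
      by_contra h2
      apply hc'
      refine ⟨⟨?_, hp⟩, hc.2⟩
      have h3 := (abs_le.mp (hh.supp _ h2)).2
      have hpos : (0 : ℝ) < nm c := by exact_mod_cast nm_pos.mpr hp.ne_zero
      have h4 : (nm c : ℝ) ≤ Real.exp (κ + 1) := by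
        rw [← Real.log_le_iff_le_exp hpos]
        linarith
      exact Nat.le_floor h4
    rw [h1, mul_zero]

lemma hasDerivAt_AS (hh : HW h) (f : Eis → ℂ) (κ : ℝ) (S : Finset Eis) (v : ℝ) :
    HasDerivAt (fun v => ∑ c ∈ S, f c * h (Real.log (nm c) - (κ - v)))
      (∑ c ∈ S, f c * deriv h (Real.log (nm c) - (κ - v))) v := by
  have e1 : (fun v => ∑ c ∈ S, f c * h (Real.log (nm c) - (κ - v))) =
      ∑ c ∈ S, fun v => f c * h (Real.log (nm c) - (κ - v)) := by
    funext v; rw [Finset.sum_apply]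
  rw [e1]
  refine HasDerivAt.sum fun c _ => ?_
  have hd : Differentiable ℝ h := hh.cd.differentiable (by simp)
  have h1 : HasDerivAt (fun v : ℝ => Real.log (nm c) - (κ - v)) 1 v := by
    have := ((hasDerivAt_id v).const_sub κ).const_sub (Real.log (nm c))
    simpa using this
  have h2 := (hd (Real.log (nm c) - (κ - v))).hasDerivAt.scomp v h1
  rw [one_smul] at h2
  exact h2.const_mul (f c)

lemma cont_AS (hh : HW h) (f : Eis → ℂ) (κ : ℝ) (S : Finset Eis) :
    Continuous (fun v => ∑ c ∈ S, f c * h (Real.log (nm c) - (κ - v))) := by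
  have hc : Continuous h := hh.cd.continuous
  fun_prop

/-- `‖AS h' (κ - v) f‖` as a continuous function of `v` (for `v ≥ 0`) -/
def GG (h : ℝ → ℂ) (f : Eis → ℂ) (κ v : ℝ) : ℝ :=
  ‖∑ c ∈ sqB κ, f c * h (Real.log (nm c) - (κ - v))‖

lemma GG_eq (hh : HW h) (f : Eis → ℂ) (κ : ℝ) {v : ℝ} (hv : 0 ≤ v) :
    GG h f κ v = ‖AS h (κ - v) f‖ := by
  unfold GG
  rw [AS_eq hh (by linarith : κ - v ≤ κ)]

lemma GG_cont (hh : HW h) (f : Eis → ℂ) (κ : ℝ) : Continuous (GG h f κ) :=
  (cont_AS hh f κ _).norm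

lemma GG_nonneg (f : Eis → ℂ) (κ v : ℝ) : 0 ≤ GG h f κ v := norm_nonneg _

theorem AS_sup' (hh : HW h) {C₁ : ℝ} (f : Eis → ℂ) (κ : ℝ) {u : ℝ} (hu : 0 ≤ u) (hu1 : u ≤ C₁) :
    ‖AS h (κ - u) f‖ ≤ ‖AS h κ f‖ + ∫ v in (0 : ℝ)..C₁, GG (deriv h) f κ v := by
  have hh' := hw_deriv hh
  have hcont := cont_AS hh' f κ (sqB κ)
  have hcn : Continuous (GG (deriv h) f κ) := GG_cont hh' f κ
  have h1 : (∫ v in (0 : ℝ)..u, ∑ c ∈ sqB κ, f c * deriv h (Real.log (nm c) - (κ - v))) =
      (∑ c ∈ sqB κ, f c * h (Real.log (nm c) - (κ - u))) -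
        ∑ c ∈ sqB κ, f c * h (Real.log (nm c) - (κ - 0)) :=
    intervalIntegral.integral_eq_sub_of_hasDerivAt
      (f := fun v => ∑ c ∈ sqB κ, f c * h (Real.log (nm c) - (κ - v)))
      (fun v _ => hasDerivAt_AS hh f κ (sqB κ) v) (hcont.intervalIntegrable _ _)
  have h2 : AS h (κ - u) f = ∑ c ∈ sqB κ, f c * h (Real.log (nm c) - (κ - u)) :=
    AS_eq hh (by linarith) f
  have h3 : AS h κ f = ∑ c ∈ sqB κ, f c * h (Real.log (nm c) - (κ - 0)) := by
    rw [AS_eq hh le_rfl f]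
    simp
  have h4 : AS h (κ - u) f = AS h κ f +
      ∫ v in (0 : ℝ)..u, ∑ c ∈ sqB κ, f c * deriv h (Real.log (nm c) - (κ - v)) := by
    rw [h1, h2, h3]; ring
  rw [h4]
  refine (norm_add_le _ _).trans (add_le_add le_rfl ?_)
  refine (intervalIntegral.norm_integral_le_integral_norm hu).trans ?_
  have h5 : (∫ v in (0 : ℝ)..u, GG (deriv h) f κ v) + ∫ v in u..C₁, GG (deriv h) f κ v =
      ∫ v in (0 : ℝ)..C₁, GG (deriv h) f κ v :=
    intervalIntegral.integral_add_adjacent_intervals (hcn.intervalIntegrable _ _)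
      (hcn.intervalIntegrable _ _)
  have h6 : 0 ≤ ∫ v in u..C₁, GG (deriv h) f κ v :=
    intervalIntegral.integral_nonneg hu1 fun v _ => GG_nonneg f κ v
  have h7 : (∫ v in (0 : ℝ)..u, ‖∑ c ∈ sqB κ, f c * deriv h (Real.log (nm c) - (κ - v))‖) =
      ∫ v in (0 : ℝ)..u, GG (deriv h) f κ v := rfl
  rw [h7]
  linarith

theorem AS_sup (hh : HW h) {C₁ : ℝ} (f : Eis → ℂ) (κ : ℝ) {u : ℝ} (hu : 0 ≤ u) (hu1 : u ≤ C₁) :
    ‖AS h (κ - u) f‖ ≤ ‖AS h κ f‖ + ∫ v in (0 : ℝ)..C₁, ‖AS (deriv h) (κ - v) f‖ := by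
  refine (AS_sup' hh f κ hu hu1).trans (le_of_eq ?_)
  congr 1
  refine intervalIntegral.integral_congr fun v hv => ?_
  rw [Set.uIcc_of_le (hu.trans hu1)] at hv
  exact GG_eq (hw_deriv hh) f κ hv.1

/-- Jensen, by the tangent line -/
lemma int_pow_ge {g : ℝ → ℝ} (hg : Continuous g) (h0 : ∀ v, 0 ≤ g v) {C₁ t : ℝ} (hC : 0 < C₁)
    (ht : 0 < t) (n : ℕ) (h : C₁ * t < ∫ v in (0 : ℝ)..C₁, g v) :
    C₁ * t ^ n ≤ ∫ v in (0 : ℝ)..C₁, g v ^ n := by
  have h1 : ∀ v, t ^ n * (1 + n * (g v / t - 1)) ≤ g v ^ n := by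
    intro v
    have h2 : (1 : ℝ) + n * (g v / t - 1) ≤ (1 + (g v / t - 1)) ^ n :=
      one_add_mul_le_pow (by
        have : 0 ≤ g v / t := div_nonneg (h0 v) ht.le
        linarith) n
    have h3 : (1 + (g v / t - 1)) ^ n = g v ^ n / t ^ n := by
      rw [← div_pow]; congr 1; ring
    rw [h3] at h2
    have htn : 0 < t ^ n := pow_pos ht n
    calc t ^ n * (1 + n * (g v / t - 1)) ≤ t ^ n * (g v ^ n / t ^ n) :=
          mul_le_mul_of_nonneg_left h2 htn.le
      _ = g v ^ n := by field_simp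
  have hgi : IntervalIntegrable g volume 0 C₁ := hg.intervalIntegrable _ _
  have h4 : (∫ v in (0 : ℝ)..C₁, t ^ n * (1 + n * (g v / t - 1))) ≤
      ∫ v in (0 : ℝ)..C₁, g v ^ n := by
    refine intervalIntegral.integral_mono_on hC.le ?_ ((hg.pow n).intervalIntegrable _ _)
      (fun v _ => h1 v)
    exact Continuous.intervalIntegrable (by fun_prop) _ _
  refine le_trans ?_ h4
  have h5 : (∫ v in (0 : ℝ)..C₁, t ^ n * (1 + n * (g v / t - 1))) =
      t ^ n * (C₁ + n * ((∫ v in (0 : ℝ)..C₁, g v) / t - C₁)) := by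
    rw [intervalIntegral.integral_const_mul]
    congr 1
    rw [intervalIntegral.integral_add (by simp) (by
      exact Continuous.intervalIntegrable (by fun_prop) _ _)]
    rw [intervalIntegral.integral_const_mul, intervalIntegral.integral_sub (by
      exact Continuous.intervalIntegrable (by fun_prop) _ _) (by simp)]
    rw [intervalIntegral.integral_div]
    simp
  rw [h5]
  have h6 : 0 ≤ (∫ v in (0 : ℝ)..C₁, g v) / t - C₁ := by
    rw [sub_nonneg, le_div_iff₀ ht]
    exact h.le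
  have htn : 0 < t ^ n := pow_pos ht n
  have h7 : 0 ≤ t ^ n * (n * ((∫ v in (0 : ℝ)..C₁, g v) / t - C₁)) := by positivity
  nlinarith [h7]

/-- **Chebyshev with the supremum over the length** -/
theorem count_sup (hh : HW h) {m : ℕ} (hm : 1 ≤ m) {C₁ : ℝ} (hC : 0 ≤ C₁) (K : Finset Eis)
    (f : Eis → Eis → ℂ) {κ B T : ℝ} (hT : 0 < T)
    (h0 : ∑ k ∈ K, ‖AS h κ (f k)‖ ^ (2 * m) ≤ B)
    (h1 : ∀ v, 0 ≤ v → v ≤ C₁ → ∑ k ∈ K, ‖AS (deriv h) (κ - v) (f k)‖ ^ (2 * m) ≤ B) :
    ∃ E, E ⊆ K ∧ (E.card : ℝ) ≤ (2 * (1 + C₁)) ^ (2 * m) * B / T ^ (2 * m) ∧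
      ∀ k ∈ K, k ∉ E → ∀ u, 0 ≤ u → u ≤ C₁ → ‖AS h (κ - u) (f k)‖ ≤ T := by
  classical
  have hh' := hw_deriv hh
  obtain ⟨n, hn⟩ : ∃ n, n = 2 * m := ⟨_, rfl⟩
  rw [← hn] at h0 h1 ⊢
  have hn0 : n ≠ 0 := by omega
  have hB : 0 ≤ B := le_trans (Finset.sum_nonneg fun k _ => by positivity) h0
  have hTn : 0 < T ^ n := pow_pos hT n
  refine ⟨K.filter (fun k => T / 2 < ‖AS h κ (f k)‖) ∪
    K.filter (fun k => T / 2 < ∫ v in (0 : ℝ)..C₁, GG (deriv h) (f k) κ v), ?_, ?_, ?_⟩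
  · exact Finset.union_subset (Finset.filter_subset _ _) (Finset.filter_subset _ _)
  · have c1 : ((K.filter (fun k => T / 2 < ‖AS h κ (f k)‖)).card : ℝ) * (T / 2) ^ n ≤ B := by
      rw [← nsmul_eq_mul, ← Finset.sum_const]
      refine le_trans ?_ h0
      refine le_trans (Finset.sum_le_sum (fun k hk => ?_)) (Finset.sum_le_sum_of_subset_of_nonneg
        (Finset.filter_subset _ _) fun k _ _ => by positivity)
      exact pow_le_pow_left₀ (by positivity) (Finset.mem_filter.mp hk).2.le n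
    have c2 : ((K.filter (fun k => T / 2 < ∫ v in (0 : ℝ)..C₁,
        GG (deriv h) (f k) κ v)).card : ℝ) * T ^ n ≤ (2 * C₁) ^ n * B := by
      rcases hC.eq_or_lt with hC0 | hC0
      · have : K.filter (fun k => T / 2 < ∫ v in (0 : ℝ)..C₁, GG (deriv h) (f k) κ v) = ∅ := by
          rw [Finset.filter_eq_empty_iff]
          intro k _
          rw [← hC0, intervalIntegral.integral_same]
          linarith
        rw [this, ← hC0]
        simp [hn0]
      · have ht : 0 < T / (2 * C₁) := by positivity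
        have s1 : ((K.filter (fun k => T / 2 < ∫ v in (0 : ℝ)..C₁,
            GG (deriv h) (f k) κ v)).card : ℝ) * (C₁ * (T / (2 * C₁)) ^ n) ≤ C₁ * B := by
          rw [← nsmul_eq_mul, ← Finset.sum_const]
          have s2 : ∑ k ∈ K, ∫ v in (0 : ℝ)..C₁, GG (deriv h) (f k) κ v ^ n ≤ C₁ * B := by
            have s5 := intervalIntegral.integral_finsetSum (μ := volume) (a := 0) (b := C₁)
              (s := K) (f := fun k v => GG (deriv h) (f k) κ v ^ n) (fun k _ =>
              ((GG_cont hh' (f k) κ).pow n).intervalIntegrable _ _)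
            rw [← s5]
            have s3 : (∫ v in (0 : ℝ)..C₁, ∑ k ∈ K, GG (deriv h) (f k) κ v ^ n) ≤
                ∫ v in (0 : ℝ)..C₁, B := by
              refine intervalIntegral.integral_mono_on hC0.le ?_ (by simp) ?_
              · refine Continuous.intervalIntegrable ?_ _ _
                exact continuous_finsetSum _ fun k _ => (GG_cont hh' (f k) κ).pow n
              · intro v hv
                simp_rw [GG_eq hh' (f _) κ hv.1]
                exact h1 v hv.1 hv.2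
            refine s3.trans (le_of_eq ?_)
            simp
          refine le_trans ?_ s2
          refine le_trans (Finset.sum_le_sum (fun k hk => ?_))
            (Finset.sum_le_sum_of_subset_of_nonneg (Finset.filter_subset _ _) fun k _ _ =>
              intervalIntegral.integral_nonneg hC0.le fun v _ => pow_nonneg (GG_nonneg _ _ _) _)
          refine int_pow_ge (GG_cont hh' (f k) κ) (fun v => GG_nonneg _ _ _) hC0 ht n ?_
          have := (Finset.mem_filter.mp hk).2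
          have e : C₁ * (T / (2 * C₁)) = T / 2 := by field_simp
          rw [e]
          exact this
        have e2 : (T / (2 * C₁)) ^ n = T ^ n / (2 * C₁) ^ n := div_pow _ _ _
        rw [e2] at s1
        have hCn : 0 < (2 * C₁) ^ n := by positivity
        have s4 : C₁ * (((K.filter (fun k => T / 2 < ∫ v in (0 : ℝ)..C₁,
            GG (deriv h) (f k) κ v)).card : ℝ) * T ^ n) ≤ C₁ * ((2 * C₁) ^ n * B) := by
          calc _ = (((K.filter (fun k => T / 2 < ∫ v in (0 : ℝ)..C₁,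
              GG (deriv h) (f k) κ v)).card : ℝ) * (C₁ * (T ^ n / (2 * C₁) ^ n))) *
                (2 * C₁) ^ n := by field_simp
            _ ≤ (C₁ * B) * (2 * C₁) ^ n := mul_le_mul_of_nonneg_right s1 hCn.le
            _ = _ := by ring
        exact le_of_mul_le_mul_left s4 hC0
    have c1' : ((K.filter (fun k => T / 2 < ‖AS h κ (f k)‖)).card : ℝ) * T ^ n ≤ 2 ^ n * B := by
      have e3 : (T / 2) ^ n = T ^ n / 2 ^ n := div_pow _ _ _
      rw [e3] at c1
      have h2n : (0 : ℝ) < 2 ^ n := by positivity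
      calc _ = ((K.filter (fun k => T / 2 < ‖AS h κ (f k)‖)).card : ℝ) * (T ^ n / 2 ^ n) *
            2 ^ n := by field_simp
        _ ≤ B * 2 ^ n := mul_le_mul_of_nonneg_right c1 h2n.le
        _ = _ := by ring
    rw [le_div_iff₀ hTn]
    have hcard : ((K.filter (fun k => T / 2 < ‖AS h κ (f k)‖) ∪
        K.filter (fun k => T / 2 < ∫ v in (0 : ℝ)..C₁, GG (deriv h) (f k) κ v)).card : ℝ) ≤
        (K.filter (fun k => T / 2 < ‖AS h κ (f k)‖)).card +
        (K.filter (fun k => T / 2 < ∫ v in (0 : ℝ)..C₁, GG (deriv h) (f k) κ v)).card := by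
      exact_mod_cast Finset.card_union_le _ _
    have hp : (2 : ℝ) ^ n + (2 * C₁) ^ n ≤ (2 * (1 + C₁)) ^ n := by
      have := pow_add_pow_le (show (0 : ℝ) ≤ 2 by norm_num) (show 0 ≤ 2 * C₁ by positivity) hn0
      rwa [show (2 : ℝ) + 2 * C₁ = 2 * (1 + C₁) by ring] at this
    calc _ ≤ _ * T ^ n := mul_le_mul_of_nonneg_right hcard hTn.le
      _ ≤ 2 ^ n * B + (2 * C₁) ^ n * B := by rw [add_mul]; exact add_le_add c1' c2
      _ = (2 ^ n + (2 * C₁) ^ n) * B := by ring
      _ ≤ (2 * (1 + C₁)) ^ n * B := mul_le_mul_of_nonneg_right hp hB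
  · intro k hk hkE u hu hu1
    rw [Finset.mem_union, Finset.mem_filter, Finset.mem_filter, not_or] at hkE
    have h2 : ‖AS h κ (f k)‖ ≤ T / 2 := by
      by_contra hne
      exact hkE.1 ⟨hk, not_le.mp hne⟩
    have h3 : (∫ v in (0 : ℝ)..C₁, GG (deriv h) (f k) κ v) ≤ T / 2 := by
      by_contra hne
      exact hkE.2 ⟨hk, not_le.mp hne⟩
    have := AS_sup' hh (f k) κ hu hu1
    linarith

end Crest.Agent.R017.One90
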