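import Crest.Agent.R017.One_Asm2_770
import Crest.Agent.R017.One_SideM2_64
import Crest.Agent.R017.One_V2nat_64
import Crest.Agent.R017.One_V2_319
import Crest.Agent.R017.One_BxSum_986
import Crest.Agent.R017.One_PVs_61
import Crest.Agent.R017.One_FYc_579

/-!
# Row 17, θ = 1: `BOX3 1` holds unconditionally (helper770)
-/

set_option autoImplicit false

namespace Crest.Agent.R017.One770

open Crest.Agent.R017.B770 Crest.Agent.R017.One319

theorem box3_1 : BOX3 1 :=
  box3_one (OneS64.sideM2 (OneV64.v2nat v2sf')) bxSum FY61.pvs One579.fycount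

end Crest.Agent.R017.One770
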