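import Crest.Agent.R017.OneDefs_319
import Crest.Agent.R017.TPD_813

/-!
# Row 17, θ = 1: the dual sum of a convolution (helper319)
-/

set_option autoImplicit false

noncomputable section

open MeasureTheory Complex Set
open scoped ComplexConjugate

namespace Crest.Agent.R017.One319

open Crest.Agent.R012 Crest.Agent.R012.Eis Crest.Agent.R012.LS2 Crest.Agent.R012.CR2
open Crest.Agent.R012.Gauss880 Crest.Agent.R012.Div277
open Crest.Agent.R017.CM106 (CS TG FS TG2 sub ruleC cauchy norm_Gsy_le TG2_split)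
open Crest.Agent.R017.TP320 (conv sq VC mul_div_of_mem)
open Crest.Agent.R017.PA842 (Supp V DI)

open Classical in
/-- coefficients of the dual sum -/
def tw1 (α : Eis → ℂ) (u g e f : Eis) (s : ℂ) (a : Eis) : ℂ :=
  if IsPrim a ∧ Squarefree a ∧ IsCoprime a g then
    α (u * a) * (sy (e * sq3) a * conj (sy f a)) * (nm a : ℂ) ^ (s - 1 / 2) else 0

lemma tw1_ne {α : Eis → ℂ} {u g e f : Eis} {s : ℂ} {a : Eis} (h : tw1 α u g e f s a ≠ 0) :
    (IsPrim a ∧ Squarefree a ∧ IsCoprime a g) ∧ α (u * a) ≠ 0 := by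
  unfold tw1 at h
  split_ifs at h with h1
  · exact ⟨h1, left_ne_zero_of_mul (left_ne_zero_of_mul h)⟩
  · exact absurd rfl h

lemma nm_u_mul {A : ℝ} {α : Eis → ℂ} (hα : ∀ n, α n ≠ 0 → IsPrim n ∧ (nm n : ℝ) ≤ A)
    {u : Eis} (hu : IsPrim u) {a : Eis} (h : α (u * a) ≠ 0) : (nm a : ℝ) ≤ A / nm u := by
  have h1 := (hα _ h).2
  have hu0 : (0 : ℝ) < nm u := by exact_mod_cast nm_pos.2 hu.ne_zero
  rw [le_div_iff₀ hu0]
  rw [nm_mul] at h1
  push_cast at h1
  linarith

lemma tw1_supp {A : ℝ} {α : Eis → ℂ} (hα : ∀ n, α n ≠ 0 → IsPrim n ∧ (nm n : ℝ) ≤ A)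
    {u : Eis} (hu : IsPrim u) {g e f : Eis} {s : ℂ} {a : Eis} (h : tw1 α u g e f s a ≠ 0) :
    IsPrim a ∧ Squarefree a ∧ (nm a : ℝ) ≤ A / nm u :=
  ⟨(tw1_ne h).1.1, (tw1_ne h).1.2.1, nm_u_mul hα hu (tw1_ne h).2⟩

lemma FS_tw1 {A : ℝ} (hA : 0 ≤ A) {α : Eis → ℂ}
    (hα : ∀ n, α n ≠ 0 → IsPrim n ∧ (nm n : ℝ) ≤ A)
    {u : Eis} (hu : IsPrim u) (g e f : Eis) (s : ℂ) : FS (tw1 α u g e f s) where
  fin := by
    refine Set.Finite.subset (S (A / nm u)).finite_toSet fun a ha => ?_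
    have h := tw1_supp hα hu ha
    rw [Finset.mem_coe, mem_S (by positivity)]
    exact ⟨h.2.2, h.1, h.2.1⟩
  prim := fun a ha => (tw1_supp hα hu ha).1

/-- size of the coefficients -/
lemma norm_tw1_sq_le {α : Eis → ℂ} (hα1 : ∀ n, ‖α n‖ ≤ 1) (u g e f : Eis) {s : ℂ} {σ : ℝ}
    (hs : s.re = σ) {a : Eis} (ha : IsPrim a) :
    ‖tw1 α u g e f s a‖ ^ 2 ≤ (nm a : ℝ) ^ (2 * σ - 1) := by
  have ha0 : (0 : ℝ) < nm a := by exact_mod_cast nm_pos.2 ha.ne_zero
  unfold tw1
  split_ifs with h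
  · have e1 : ‖(nm a : ℂ) ^ (s - 1 / 2)‖ = (nm a : ℝ) ^ (σ - 1 / 2) := by
      have := Complex.norm_cpow_eq_rpow_re_of_pos ha0 (s - 1 / 2)
      push_cast at this
      rw [this]
      congr 1
      simp [hs]
    rw [norm_mul, e1]
    have h1 : ‖α (u * a) * (sy (e * sq3) a * conj (sy f a))‖ ≤ 1 := by
      rw [norm_mul, norm_mul, RCLike.norm_conj]
      have b1 := hα1 (u * a)
      have b2 := CM106.norm_sy_le' (k := e * sq3) ha
      have b3 := CM106.norm_sy_le' (k := f) ha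
      calc ‖α (u * a)‖ * (‖sy (e * sq3) a‖ * ‖sy f a‖) ≤ 1 * (1 * 1) := by gcongr
        _ = 1 := by ring
    calc (‖α (u * a) * (sy (e * sq3) a * conj (sy f a))‖ * (nm a : ℝ) ^ (σ - 1 / 2)) ^ 2
        ≤ (1 * (nm a : ℝ) ^ (σ - 1 / 2)) ^ 2 := by gcongr
      _ = (nm a : ℝ) ^ (2 * σ - 1) := by
        rw [one_mul, ← Real.rpow_natCast, ← Real.rpow_mul ha0.le]
        congr 1; push_cast; ring
  · simp
    positivity


lemma sy_mul_r {k a b : Eis} (ha : a ≠ 0) (hb : b ≠ 0) : sy k (a * b) = sy k a * sy k b :=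
  Sym645.sy_mul_right k ha hb

/-- termwise identity -/
lemma term_eq {X : ℝ} (hX : 0 ≤ X) {α β : Eis → ℂ} {g q u v a b : Eis} (ha : IsPrim a)
    (hb : IsPrim b) (hn : α (u * a) ≠ 0 → β (v * b) ≠ 0 → (nm (a * b) : ℝ) ≤ X)
    (e f l : Eis) (s : ℂ) :
    (open Classical in if a * b ∈ S X ∧ IsCoprime (a * b) (g * q) then
      (α (u * a) * β (v * b)) * ((sy (e * sq3) (a * b) * conj (sy (f * l) (a * b)) * G (a * b)) *
        (nm (a * b) : ℂ) ^ (s - 1 / 2)) else 0) =
    tw1 α u (g * q) e f s a * (tw1 β v (g * q) e f s b * (G (a * b) * conj (sy l (a * b)))) := by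
  classical
  have hab : IsPrim (a * b) := ha.mul hb
  by_cases h1 : α (u * a) = 0
  · have e1 : tw1 α u (g * q) e f s a = 0 := by
      by_contra h; exact (tw1_ne h).2 h1
    rw [e1, h1]; simp
  by_cases h2 : β (v * b) = 0
  · have e1 : tw1 β v (g * q) e f s b = 0 := by
      by_contra h; exact (tw1_ne h).2 h2
    rw [e1, h2]; simp
  by_cases h3 : Squarefree (a * b)
  swap
  · rw [G_eq_zero syG hab h3, if_neg]
    · ring
    · rintro ⟨h4, _⟩
      exact h3 ((mem_S hX).1 h4).2.2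
  have hS : a * b ∈ S X := (mem_S hX).2 ⟨hn h1 h2, hab, h3⟩
  have ha2 : Squarefree a := h3.squarefree_of_dvd (dvd_mul_right _ _)
  have hb2 : Squarefree b := h3.squarefree_of_dvd (dvd_mul_left _ _)
  by_cases h4 : IsCoprime (a * b) (g * q)
  swap
  · rw [if_neg (fun h => h4 h.2)]
    rw [IsCoprime.mul_left_iff, not_and_or] at h4
    rcases h4 with h4 | h4
    · have e1 : tw1 α u (g * q) e f s a = 0 := by
        by_contra h; exact h4 (tw1_ne h).1.2.2
      rw [e1]; ring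
    · have e1 : tw1 β v (g * q) e f s b = 0 := by
        by_contra h; exact h4 (tw1_ne h).1.2.2
      rw [e1]; ring
  rw [if_pos ⟨hS, h4⟩]
  have h5 := IsCoprime.mul_left_iff.mp h4
  unfold tw1
  rw [if_pos ⟨ha, ha2, h5.1⟩, if_pos ⟨hb, hb2, h5.2⟩]
  have ha0 := ha.ne_zero
  have hb0 := hb.ne_zero
  have e2 : (nm (a * b) : ℂ) ^ (s - 1 / 2) = (nm a : ℂ) ^ (s - 1 / 2) * (nm b : ℂ) ^ (s - 1 / 2) := by
    rw [nm_mul]
    push_cast
    have := Complex.mul_cpow_ofReal_nonneg (a := (nm a : ℝ)) (b := (nm b : ℝ)) (by positivity)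
      (by positivity) (s - 1 / 2)
    push_cast at this
    exact this
  have e3 : sy (f * l) (a * b) = sy f a * sy f b * sy l (a * b) := by
    rw [Sym645.sy_mul_left (Sym645.prim_nm_mod hab), sy_mul_r ha0 hb0 (k := f)]
  rw [e2, e3, sy_mul_r ha0 hb0 (k := e * sq3), map_mul, map_mul]
  ring

/-- the dual sum of `sq q (conv α β)` -/
theorem dsum_eq {A B X : ℝ} (hA : 1 ≤ A) (hB : 1 ≤ B) (hX : A * B ≤ X) {α β : Eis → ℂ}
    (hα : ∀ n, α n ≠ 0 → IsPrim n ∧ (nm n : ℝ) ≤ A)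
    (hβ : ∀ n, β n ≠ 0 → IsPrim n ∧ (nm n : ℝ) ≤ B) (q : Eis) {d f : Eis} (hd : IsPrim d)
    (hf : IsPrim f) (hdf : Squarefree (d * f)) (hq : IsCoprime (d * f) q) (e l : Eis) (s : ℂ) :
    dsum (sq q (conv α β)) X d e f l s =
      ∑ u ∈ dvs (d * f), TG2 (S (A / nm u)) (tw1 α u (d * f * q) e f s)
        (tw1 β (d * f / u) (d * f * q) e f s) l := by
  classical
  have hA0 : 0 ≤ A := by linarith
  have hB0 : 0 ≤ B := by linarith
  have hX0 : 0 ≤ X := (mul_nonneg hA0 hB0).trans hX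
  have hAX : A ≤ X := le_trans (by nlinarith) hX
  have hBX : B ≤ X := le_trans (by nlinarith) hX
  set g := d * f with hg
  have hgp : IsPrim g := hd.mul hf
  have hg0 := hgp.ne_zero
  set PB := primBall ⌊X⌋₊ with hPB
  have memPB : ∀ {a : Eis}, IsPrim a → (nm a : ℝ) ≤ X → a ∈ PB := by
    intro a h1 h2
    rw [hPB, mem_primBall]
    exact ⟨Nat.le_floor h2, h1⟩
  have hprod : ∀ u ∈ dvs g, ∀ a b : Eis, α (u * a) ≠ 0 → β (g / u * b) ≠ 0 →
      (nm (a * b) : ℝ) ≤ X := by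
    intro u hu a b h1 h2
    have hup := isPrim_of_mem_dvs hu
    have hvp : IsPrim (g / u) := TPD813.prim_div hgp hu
    have h3 := nm_u_mul hα hup h1
    have h4 := nm_u_mul hβ hvp h2
    have h5 : (1 : ℝ) ≤ nm u := by exact_mod_cast nm_pos.2 hup.ne_zero
    have h6 : (1 : ℝ) ≤ nm (g / u) := by exact_mod_cast nm_pos.2 hvp.ne_zero
    rw [nm_mul]; push_cast
    calc (nm a : ℝ) * nm b ≤ (A / nm u) * (B / nm (g / u)) := by gcongr
      _ ≤ A * B := by
          gcongr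
          · exact div_le_self hA0 h5
          · exact div_le_self hB0 h6
      _ ≤ X := hX
  have suppA : ∀ u ∈ dvs g, ∀ a, α (u * a) ≠ 0 → a ∈ PB := by
    intro u hu a h
    have hup := isPrim_of_mem_dvs hu
    have h5 : (1 : ℝ) ≤ nm u := by exact_mod_cast nm_pos.2 hup.ne_zero
    exact memPB ((hα _ h).1.of_mul_left hup)
      (((nm_u_mul hα hup h).trans (div_le_self hA0 h5)).trans hAX)
  have suppB : ∀ u ∈ dvs g, ∀ a, β (g / u * a) ≠ 0 → a ∈ PB := by
    intro u hu a h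
    have hvp : IsPrim (g / u) := TPD813.prim_div hgp hu
    have h5 : (1 : ℝ) ≤ nm (g / u) := by exact_mod_cast nm_pos.2 hvp.ne_zero
    exact memPB ((hβ _ h).1.of_mul_left hvp)
      (((nm_u_mul hβ hvp h).trans (div_le_self hB0 h5)).trans hBX)
  set Ψ : Eis → ℂ := fun k => (sy (e * sq3) k * conj (sy (f * l) k) * G k) *
    (nm k : ℂ) ^ (s - 1 / 2) with hΨ
  -- the left side
  have hL : dsum (sq q (conv α β)) X d e f l s = ∑ u ∈ dvs g, ∑ p ∈ PB ×ˢ PB,
      tw1 α u (g * q) e f s p.1 * (tw1 β (g / u) (g * q) e f s p.2 *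
        (G (p.1 * p.2) * conj (sy l (p.1 * p.2)))) := by
    have h1 : ∀ k ∈ S X, sq q (conv α β) (d * f * k) *
        (sy (e * sq3) k * conj (sy (f * l) k) * G k) * (nm k : ℂ) ^ (s - 1 / 2) =
        ∑ u ∈ dvs g, ∑ p ∈ PB ×ˢ PB, if p.1 * p.2 = k then
          (if IsCoprime k (g * q) then (α (u * p.1) * β (g / u * p.2)) * Ψ k else 0) else 0 := by
      intro k hk
      have hk' := (mem_S hX0).1 hk
      by_cases hc : IsCoprime k (g * q)
      · have hc2 := IsCoprime.mul_right_iff.mp hc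
        have hgood : IsPrim (g * k) ∧ Squarefree (g * k) ∧ IsCoprime (g * k) q :=
          ⟨hgp.mul hk'.2.1, (squarefree_mul_iff).2 ⟨hc2.1.symm.isRelPrime, hdf, hk'.2.2⟩,
            IsCoprime.mul_left hq hc2.2⟩
        have e1 : sq q (conv α β) (g * k) = conv α β (g * k) := by
          unfold TP320.sq
          rw [if_pos hgood]
        rw [e1, TPD813.conv_mul α β hg0 hk'.2.1.ne_zero hc2.1.symm, Finset.sum_mul, Finset.sum_mul]
        refine Finset.sum_congr rfl fun u hu => ?_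
        rw [TP320.conv_eq (a := sub α u) (b := sub β (g / u)) (A := PB) (B := PB)
          (fun x hx => (hα _ hx).1.of_mul_left (isPrim_of_mem_dvs hu))
          (fun x hx => suppA u hu x hx) (fun x hx => suppB u hu x hx) hk'.2.1.ne_zero,
          Finset.sum_mul, Finset.sum_mul, Finset.sum_filter]
        refine Finset.sum_congr rfl fun p _ => ?_
        by_cases h3 : p.1 * p.2 = k
        · rw [if_pos h3, if_pos h3, if_pos hc]
          unfold CM106.sub
          rw [hΨ]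
          ring
        · rw [if_neg h3, if_neg h3]
      · have e1 : sq q (conv α β) (g * k) = 0 := by
          unfold TP320.sq
          rw [if_neg]
          rintro ⟨_, h4, h5⟩
          apply hc
          have h6 := (squarefree_mul_iff).1 h4
          refine IsCoprime.mul_right ?_ (IsCoprime.mul_left_iff.mp h5).2
          exact (isRelPrime_iff_isCoprime.mp h6.1).symm
        rw [e1]
        symm
        rw [zero_mul, zero_mul]
        refine Finset.sum_eq_zero fun u _ => Finset.sum_eq_zero fun p _ => ?_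
        simp [hc]
    unfold dsum
    rw [Finset.sum_congr rfl h1, Finset.sum_comm]
    refine Finset.sum_congr rfl fun u hu => ?_
    rw [Finset.sum_comm]
    refine Finset.sum_congr rfl fun p hp => ?_
    rw [Finset.mem_product, hPB, mem_primBall, mem_primBall] at hp
    rw [← term_eq hX0 hp.1.2 hp.2.2 (fun h1 h2 => hprod u hu _ _ h1 h2)]
    rw [Finset.sum_ite_eq]
    by_cases h1 : p.1 * p.2 ∈ S X
    · rw [if_pos h1]
      by_cases h2 : IsCoprime (p.1 * p.2) (g * q)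
      · rw [if_pos h2, if_pos ⟨h1, h2⟩]
      · rw [if_neg h2, if_neg (fun h => h2 h.2)]
    · rw [if_neg h1, if_neg (fun h => h1 h.1)]
  rw [hL]
  refine Finset.sum_congr rfl fun u hu => ?_
  have hup := isPrim_of_mem_dvs hu
  have hvp : IsPrim (g / u) := TPD813.prim_div hgp hu
  have hu1 : (1 : ℝ) ≤ nm u := by exact_mod_cast nm_pos.2 hup.ne_zero
  have hv1 : (1 : ℝ) ≤ nm (g / u) := by exact_mod_cast nm_pos.2 hvp.ne_zero
  unfold TG2
  rw [Finset.sum_product]
  have hsub : S (A / nm u) ⊆ PB := by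
    intro a ha
    have ha' := (mem_S (by positivity)).1 ha
    exact memPB ha'.2.1 ((ha'.1.trans (div_le_self hA0 hu1)).trans hAX)
  rw [← Finset.sum_subset hsub]
  · refine Finset.sum_congr rfl fun a _ => ?_
    rw [tsum_eq_sum (s := PB), Finset.mul_sum]
    intro b hb
    have h0 : tw1 β (g / u) (g * q) e f s b = 0 := by
      by_contra h
      have h4 := tw1_supp hβ hvp h
      exact hb (memPB h4.1 ((h4.2.2.trans (div_le_self hB0 hv1)).trans hBX))
    rw [h0, zero_mul]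
  · intro a _ ha
    refine Finset.sum_eq_zero fun b _ => ?_
    have h0 : tw1 α u (g * q) e f s a = 0 := by
      by_contra h
      have h4 := tw1_supp hα hup h
      exact ha ((mem_S (by positivity)).2 ⟨h4.2.2, h4.1, h4.2.1⟩)
    rw [h0, zero_mul]

end Crest.Agent.R017.One319
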