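import Mathlib

/-!
# Row 17, θ = 1: the inequality behind `V2sf` (helper319), pure reals
-/

set_option autoImplicit false

noncomputable section

namespace Crest.Agent.R017.One319

lemma cbrt_le {x z : ℝ} (hx : 0 ≤ x) (hz : 0 ≤ z) (h : x ≤ z ^ 3) : x ^ (1 / 3 : ℝ) ≤ z := by
  calc x ^ (1 / 3 : ℝ) ≤ (z ^ 3) ^ (1 / 3 : ℝ) := Real.rpow_le_rpow hx h (by norm_num)
    _ = z := by
      rw [← Real.rpow_natCast, ← Real.rpow_mul hz]; norm_num

lemma cbrt2_le {x z : ℝ} (hx : 0 ≤ x) (hz : 0 ≤ z) (h : x ^ 2 ≤ z ^ 3) : x ^ (2 / 3 : ℝ) ≤ z := by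
  have e : x ^ (2 / 3 : ℝ) = (x ^ 2) ^ (1 / 3 : ℝ) := by
    rw [← Real.rpow_natCast x 2, ← Real.rpow_mul hx]; norm_num
  rw [e]
  exact cbrt_le (by positivity) hz h

/-- Heath-Brown's three monomials (all numerators) -/
def Mn (R B : ℝ) : ℝ := R + R ^ (1 / 3 : ℝ) * B + (R * B) ^ (2 / 3 : ℝ)

lemma Mn_split {l s t A B : ℝ} (hl : 1 ≤ l) (hs : 0 ≤ s) (ht : 0 ≤ t) (hA : 0 ≤ A) (hB : 0 ≤ B) :
    Mn (l * (s + t) * A) B ≤ l * (Mn (s * A) B + Mn (t * A) B) := by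
  have hl0 : 0 ≤ l := by linarith
  have l1 : l ^ (1 / 3 : ℝ) ≤ l := by
    calc l ^ (1 / 3 : ℝ) ≤ l ^ (1 : ℝ) := Real.rpow_le_rpow_of_exponent_le hl (by norm_num)
      _ = l := Real.rpow_one l
  have l2 : l ^ (2 / 3 : ℝ) ≤ l := by
    calc l ^ (2 / 3 : ℝ) ≤ l ^ (1 : ℝ) := Real.rpow_le_rpow_of_exponent_le hl (by norm_num)
      _ = l := Real.rpow_one l
  have a1 : (l * (s + t) * A) ^ (1 / 3 : ℝ) ≤ l * ((s * A) ^ (1 / 3 : ℝ) + (t * A) ^ (1 / 3 : ℝ)) := by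
    rw [mul_assoc, Real.mul_rpow hl0 (by positivity), add_mul]
    have := Real.rpow_add_le_add_rpow (a := s * A) (b := t * A) (by positivity) (by positivity)
      (p := 1 / 3) (by norm_num) (by norm_num)
    gcongr
  have a2 : (l * (s + t) * A * B) ^ (2 / 3 : ℝ) ≤
      l * ((s * A * B) ^ (2 / 3 : ℝ) + (t * A * B) ^ (2 / 3 : ℝ)) := by
    have e : l * (s + t) * A * B = l * (s * A * B + t * A * B) := by ring
    rw [e, Real.mul_rpow hl0 (by positivity)]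
    have := Real.rpow_add_le_add_rpow (a := s * A * B) (b := t * A * B) (by positivity)
      (by positivity) (p := 2 / 3) (by norm_num) (by norm_num)
    gcongr
  unfold Mn
  have b1 := mul_le_mul_of_nonneg_right a1 hB
  nlinarith [b1, a2]

/-- first group: `A', B' ≥ 1` -/
lemma Mn_le_prod {A B : ℝ} (hA : 1 ≤ A) (hB : 1 ≤ B) : Mn A B ≤ 3 * (A * B) := by
  have hA0 : 0 ≤ A := by linarith
  have h1 : A ^ (1 / 3 : ℝ) ≤ A := by
    calc A ^ (1 / 3 : ℝ) ≤ A ^ (1 : ℝ) := Real.rpow_le_rpow_of_exponent_le hA (by norm_num)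
      _ = A := Real.rpow_one A
  have hAB : 1 ≤ A * B := one_le_mul_of_one_le_of_one_le hA hB
  have h2 : (A * B) ^ (2 / 3 : ℝ) ≤ A * B := by
    calc (A * B) ^ (2 / 3 : ℝ) ≤ (A * B) ^ (1 : ℝ) :=
        Real.rpow_le_rpow_of_exponent_le hAB (by norm_num)
      _ = A * B := Real.rpow_one _
  have h3 : A ≤ A * B := le_mul_of_one_le_right hA0 hB
  have h4 := mul_le_mul_of_nonneg_right h1 (by linarith : (0 : ℝ) ≤ B)
  unfold Mn
  linarith

/-- the core inequality; `H = h³`, `B = b³`. -/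
theorem core_le {l h b A D E F δ : ℝ} (hl : 1 ≤ l) (hh : 1 ≤ h) (hb : 1 ≤ b) (hA : 1 ≤ A)
    (hD : 1 ≤ D) (hE : 1 ≤ E) (hF : 1 ≤ F) (hδ : 1 ≤ δ) (hδ2 : δ ≤ D * F) (hA' : 1 ≤ A / δ)
    (hB' : 1 ≤ b ^ 3 * δ / (D * F)) :
    h ^ 3 / (E * F) * Mn (l * (1 + E * (A * b ^ 3) ^ 2 / (D ^ 2 * h ^ 3)) * (A / δ))
      (b ^ 3 * δ / (D * F)) ≤
      3 * l / (D * F) * (h ^ 3 * (A * b ^ 3) + h * (A * b ^ 3) ^ 2 + (A * b ^ 3) ^ 2 * A +
        h ^ 2 * (A * b ^ 5)) := by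
  have hh0 : 0 < h := by linarith
  have hb0 : 0 < b := by linarith
  have hA0 : 0 < A := by linarith
  have hD0 : 0 < D := by linarith
  have hE0 : 0 < E := by linarith
  have hF0 : 0 < F := by linarith
  have hδ0 : 0 < δ := by linarith
  have hl0 : 0 < l := by linarith
  set t : ℝ := E * (A * b ^ 3) ^ 2 / (D ^ 2 * h ^ 3) with ht
  have ht0 : 0 < t := by positivity
  set A' := A / δ with hA'd
  set B' := b ^ 3 * δ / (D * F) with hB'd
  have hA'0 : 0 < A' := by linarith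
  have hB'0 : 0 < B' := by linarith
  have hAB : A' * B' = A * b ^ 3 / (D * F) := by
    rw [hA'd, hB'd]; field_simp
  have key := Mn_split (l := l) (s := 1) (t := t) (A := A') (B := B') hl zero_le_one ht0.le
    hA'0.le hB'0.le
  rw [one_mul] at key
  have g1 : h ^ 3 / (E * F) * Mn A' B' ≤ 3 / (D * F) * (h ^ 3 * (A * b ^ 3)) := by
    calc h ^ 3 / (E * F) * Mn A' B' ≤ h ^ 3 / (E * F) * (3 * (A' * B')) := by
          gcongr; exact Mn_le_prod hA' hB'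
      _ = 3 / (D * F) * (h ^ 3 * (A * b ^ 3)) / (E * F) := by rw [hAB]; field_simp
      _ ≤ _ := div_le_self (by positivity) (by nlinarith)
  -- the three dual monomials
  have m1 : h ^ 3 / (E * F) * (t * A') ≤ 1 / (D * F) * ((A * b ^ 3) ^ 2 * A) := by
    have e : h ^ 3 / (E * F) * (t * A') = 1 / (D * F) * ((A * b ^ 3) ^ 2 * A) / (D * δ) := by
      rw [ht, hA'd]; field_simp
    rw [e]
    exact div_le_self (by positivity) (by nlinarith)
  have m2 : h ^ 3 / (E * F) * ((t * A') ^ (1 / 3 : ℝ) * B') ≤ 1 / (D * F) * (h ^ 2 * (A * b ^ 5)) := by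
    have c1 : (t * A') ^ (1 / 3 : ℝ) ≤ A * b ^ 2 * E * F / (h * δ) := by
      refine cbrt_le (by positivity) (by positivity) ?_
      have e1 : t * A' = E * A ^ 3 * b ^ 6 / (D ^ 2 * h ^ 3 * δ) := by
        rw [ht, hA'd]; field_simp
      have e2 : (A * b ^ 2 * E * F / (h * δ)) ^ 3 =
          E * A ^ 3 * b ^ 6 / (D ^ 2 * h ^ 3 * δ) * (E ^ 2 * F ^ 3 * D ^ 2 / δ ^ 2) := by
        field_simp
      rw [e1, e2]
      refine le_mul_of_one_le_right (by positivity) ?_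
      rw [le_div_iff₀ (by positivity), one_mul]
      calc δ ^ 2 ≤ (D * F) ^ 2 := by gcongr
        _ = 1 * F ^ 2 * D ^ 2 := by ring
        _ ≤ E ^ 2 * F ^ 3 * D ^ 2 := by
          gcongr
          · exact one_le_pow₀ hE
          · norm_num
    calc h ^ 3 / (E * F) * ((t * A') ^ (1 / 3 : ℝ) * B')
        ≤ h ^ 3 / (E * F) * ((A * b ^ 2 * E * F / (h * δ)) * B') := by gcongr
      _ = _ := by rw [hB'd]; field_simp
  have m3 : h ^ 3 / (E * F) * (t * A' * B') ^ (2 / 3 : ℝ) ≤ 1 / (D * F) * (h * (A * b ^ 3) ^ 2) := by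
    have c1 : (t * A' * B') ^ (2 / 3 : ℝ) ≤ (A * b ^ 3) ^ 2 * E / (h ^ 2 * D) := by
      refine cbrt2_le (by positivity) (by positivity) ?_
      have e1 : t * A' * B' = E * (A * b ^ 3) ^ 3 / (D ^ 3 * h ^ 3 * F) := by
        rw [mul_assoc, hAB, ht]; field_simp
      have e2 : ((A * b ^ 3) ^ 2 * E / (h ^ 2 * D)) ^ 3 =
          (E * (A * b ^ 3) ^ 3 / (D ^ 3 * h ^ 3 * F)) ^ 2 * (E * D ^ 3 * F ^ 2) := by
        field_simp
      rw [e1, e2]
      refine le_mul_of_one_le_right (by positivity) ?_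
      have := one_le_pow₀ hD (n := 3)
      have := one_le_pow₀ hF (n := 2)
      calc (1 : ℝ) = 1 * 1 * 1 := by norm_num
        _ ≤ E * D ^ 3 * F ^ 2 := by gcongr
    calc h ^ 3 / (E * F) * (t * A' * B') ^ (2 / 3 : ℝ)
        ≤ h ^ 3 / (E * F) * ((A * b ^ 3) ^ 2 * E / (h ^ 2 * D)) := by gcongr
      _ = _ := by field_simp
  have g2 : h ^ 3 / (E * F) * Mn (t * A') B' ≤ 1 / (D * F) * (h * (A * b ^ 3) ^ 2 +
      (A * b ^ 3) ^ 2 * A + h ^ 2 * (A * b ^ 5)) := by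
    unfold Mn
    rw [mul_add, mul_add]
    linarith
  have q0 : 0 ≤ h ^ 3 / (E * F) := by positivity
  have q1 : 0 ≤ 1 / (D * F) := by positivity
  have q2 : 0 ≤ h * (A * b ^ 3) ^ 2 + (A * b ^ 3) ^ 2 * A + h ^ 2 * (A * b ^ 5) := by positivity
  calc h ^ 3 / (E * F) * Mn (l * (1 + t) * A') B'
      ≤ h ^ 3 / (E * F) * (l * (Mn A' B' + Mn (t * A') B')) :=
        mul_le_mul_of_nonneg_left key q0
    _ = l * (h ^ 3 / (E * F) * Mn A' B' + h ^ 3 / (E * F) * Mn (t * A') B') := by ring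
    _ ≤ l * (3 / (D * F) * (h ^ 3 * (A * b ^ 3)) + 1 / (D * F) * (h * (A * b ^ 3) ^ 2 +
      (A * b ^ 3) ^ 2 * A + h ^ 2 * (A * b ^ 5))) := by gcongr
    _ ≤ l * (3 * (1 / (D * F)) * (h ^ 3 * (A * b ^ 3)) + 3 * (1 / (D * F)) * (h * (A * b ^ 3) ^ 2 +
      (A * b ^ 3) ^ 2 * A + h ^ 2 * (A * b ^ 5))) := by
        have := mul_nonneg q1 q2
        have e : 3 / (D * F) = 3 * (1 / (D * F)) := by ring
        rw [e]
        gcongr
        linarith
    _ = _ := by ring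

end Crest.Agent.R017.One319
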