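import Crest.Agent.R017.One_V2a_319
import Crest.Agent.R017.One_V2b_319

/-!
# Row 17, θ = 1: `V2sf` (helper319)
-/

set_option autoImplicit false

noncomputable section

open MeasureTheory Complex Set
open scoped ComplexConjugate

namespace Crest.Agent.R017.One319

open Crest.Agent.R012 Crest.Agent.R012.Eis Crest.Agent.R012.LS2 Crest.Agent.R012.CR2
open Crest.Agent.R012.Gauss880 Crest.Agent.R012.Div277
open Crest.Agent.R017.CM106 (CS TG FS TG2 sub ruleC cauchy norm_Gsy_le TG2_split)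
open Crest.Agent.R017.TP320 (conv sq VC mul_div_of_mem)
open Crest.Agent.R017.PA842 (Supp V DI)

/-- power sums over `S Y` -/
lemma sumS_le {σ : ℝ} (hσ : 0 < σ) : ∃ C : ℝ, 0 < C ∧ ∀ Y : ℝ, 1 ≤ Y →
    ∑ a ∈ S Y, (nm a : ℝ) ^ (2 * σ - 1) ≤ C * Y ^ (3 * σ) := by
  have hs := LatSum413.summable_nm_rpow (s := 1 + σ) (by linarith)
  refine ⟨∑' z : Eis, (nm z : ℝ) ^ (-(1 + σ)) + 1, by
    have : 0 ≤ ∑' z : Eis, (nm z : ℝ) ^ (-(1 + σ)) := tsum_nonneg fun z => by positivity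
    linarith, fun Y hY => ?_⟩
  have hY0 : 0 ≤ Y := by linarith
  calc ∑ a ∈ S Y, (nm a : ℝ) ^ (2 * σ - 1)
      ≤ ∑ a ∈ S Y, Y ^ (3 * σ) * (nm a : ℝ) ^ (-(1 + σ)) := by
        refine Finset.sum_le_sum fun a ha => ?_
        have ha' := (mem_S hY0).1 ha
        have ha0 : (0 : ℝ) < nm a := by exact_mod_cast nm_pos.2 ha'.2.1.ne_zero
        have e : (nm a : ℝ) ^ (2 * σ - 1) = (nm a : ℝ) ^ (3 * σ) * (nm a : ℝ) ^ (-(1 + σ)) := by
          rw [← Real.rpow_add ha0]; congr 1; ring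
        rw [e]
        have := ha'.1
        gcongr
    _ = Y ^ (3 * σ) * ∑ a ∈ S Y, (nm a : ℝ) ^ (-(1 + σ)) := by rw [Finset.mul_sum]
    _ ≤ Y ^ (3 * σ) * (∑' z : Eis, (nm z : ℝ) ^ (-(1 + σ)) + 1) := by
        have h1 : ∑ a ∈ S Y, (nm a : ℝ) ^ (-(1 + σ)) ≤ ∑' z : Eis, (nm z : ℝ) ^ (-(1 + σ)) :=
          hs.sum_le_tsum _ fun _ _ => by positivity
        have : 0 ≤ Y ^ (3 * σ) := by positivity
        nlinarith
    _ = _ := by ring

/-- Heath-Brown on the Gauss side -/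
lemma TG_HB (H : HBall) {ε : ℝ} (hε : 0 < ε) : ∃ C : ℝ, 0 < C ∧ ∀ R B : ℝ, 1 ≤ R → 1 ≤ B →
    ∀ γ : Eis → ℂ, (∀ b, γ b ≠ 0 → b ∈ S B) →
    ∑ r ∈ bl R, ‖TG γ r‖ ^ 2 ≤ C * (R * B) ^ ε * Mn R B * ∑ b ∈ S B, ‖γ b‖ ^ 2 := by
  obtain ⟨C, hC, h⟩ := H ε hε
  refine ⟨C, hC, fun R B hR hB γ hγ => ?_⟩
  have hB0 : 0 ≤ B := by linarith
  have h1 := h R B hR hB (fun b => conj (γ b * G b))
  have e1 : ∀ r, ‖∑ n ∈ S B, conj (γ n * G n) * sy r n‖ = ‖TG γ r‖ := by
    intro r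
    have e2 : TG γ r = ∑ n ∈ S B, γ n * (G n * conj (sy r n)) := by
      unfold CM106.TG
      apply tsum_eq_sum
      intro b hb
      have : γ b = 0 := by
        by_contra h0
        exact hb (hγ b h0)
      rw [this, zero_mul]
    rw [e2, ← RCLike.norm_conj, map_sum]
    congr 1
    refine Finset.sum_congr rfl fun n _ => ?_
    simp only [map_mul, Complex.conj_conj]
    ring
  simp_rw [e1] at h1
  refine h1.trans ?_
  have h2 : ∑ n ∈ S B, ‖conj (γ n * G n)‖ ^ 2 ≤ ∑ b ∈ S B, ‖γ b‖ ^ 2 := by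
    refine Finset.sum_le_sum fun n hn => ?_
    have hn' := (mem_S hB0).1 hn
    rw [RCLike.norm_conj, norm_mul]
    have := norm_G_le syG hn'.2.1
    calc (‖γ n‖ * ‖G n‖) ^ 2 ≤ (‖γ n‖ * 1) ^ 2 := by gcongr
      _ = _ := by rw [mul_one]
  unfold Mn
  have : 0 ≤ R + R ^ (1 / 3 : ℝ) * B + (R * B) ^ (2 / 3 : ℝ) := by positivity
  gcongr

lemma Mn_nonneg {R B : ℝ} (hR : 0 ≤ R) (hB : 0 ≤ B) : 0 ≤ Mn R B := by
  unfold Mn; positivity

open Classical in
/-- the bound of one `u` -/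
def Bu (A B L : ℝ) (g u : Eis) : ℝ :=
  if 1 ≤ A / nm u ∧ 1 ≤ B / nm (g / u) then Mn (L * (A / nm u)) (B / nm (g / u)) else 0

lemma Bu_nonneg {A B L : ℝ} (hA : 0 ≤ A) (hB : 0 ≤ B) (hL : 0 ≤ L) (g u : Eis) :
    0 ≤ Bu A B L g u := by
  unfold Bu
  split_ifs
  · exact Mn_nonneg (by positivity) (by positivity)
  · exact le_rfl

/-- **the dual second moment at one `(d, e, f)`** -/
theorem dual_le (HB : HBall) {η : ℝ} (hη : 0 < η) (hη1 : η ≤ 1) : ∃ C : ℝ, 0 < C ∧ ∀ (A B L : ℝ),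
    1 ≤ A → 1 ≤ B → 1 ≤ L → ∀ α β : Eis → ℂ, (∀ n, α n ≠ 0 → IsPrim n ∧ (nm n : ℝ) ≤ A) →
    (∀ n, β n ≠ 0 → IsPrim n ∧ (nm n : ℝ) ≤ B) → (∀ n, ‖α n‖ ≤ 1) → (∀ n, ‖β n‖ ≤ 1) →
    ∀ q d e f : Eis, IsPrim d → IsPrim f → ∀ s : ℂ, s.re = η →
    ∑ l ∈ bl L, ‖dsum (sq q (conv α β)) (A * B) d e f l s‖ ^ 2 ≤
      C * (A * B * L) ^ (5 * η) * (tau (d * f) : ℝ) * ∑ u ∈ dvs (d * f), Bu A B L (d * f) u := by
  classical
  obtain ⟨C1, hC1, h1⟩ := TG_HB HB hη
  obtain ⟨C2, hC2, h2⟩ := sumS_le hη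
  obtain ⟨C3, hC3, h3⟩ := CM106.sum_tau_le hη
  refine ⟨C2 ^ 2 * C3 * C1, by positivity, ?_⟩
  intro A B L hA hB hL α β hα hβ hα1 hβ1 q d e f hd hf s hs
  have hA0 : 0 ≤ A := by linarith
  have hB0 : 0 ≤ B := by linarith
  have hL0 : 0 ≤ L := by linarith
  have hX0 : 0 ≤ A * B := by positivity
  set g := d * f with hg
  have hgp : IsPrim g := hd.mul hf
  have hR0 : 0 ≤ C2 ^ 2 * C3 * C1 * (A * B * L) ^ (5 * η) * (tau g : ℝ) *
      ∑ u ∈ dvs g, Bu A B L g u :=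
    mul_nonneg (by positivity) (Finset.sum_nonneg fun u _ => Bu_nonneg hA0 hB0 hL0 g u)
  by_cases hgood : Squarefree g ∧ IsCoprime g q
  swap
  · refine le_trans (le_of_eq ?_) hR0
    refine Finset.sum_eq_zero fun l _ => ?_
    have : dsum (sq q (conv α β)) (A * B) d e f l s = 0 := by
      unfold dsum
      refine Finset.sum_eq_zero fun k _ => ?_
      have : sq q (conv α β) (d * f * k) = 0 := by
        unfold TP320.sq
        rw [if_neg]
        rintro ⟨_, h4, h5⟩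
        exact hgood ⟨h4.squarefree_of_dvd (dvd_mul_right _ _), (IsCoprime.mul_left_iff.mp h5).1⟩
      rw [this]; ring
    rw [this]; simp
  have hstep : ∀ l ∈ bl L, ‖dsum (sq q (conv α β)) (A * B) d e f l s‖ ^ 2 ≤
      (tau g : ℝ) * ∑ u ∈ dvs g, ‖TG2 (S (A / nm u)) (tw1 α u (g * q) e f s)
        (tw1 β (g / u) (g * q) e f s) l‖ ^ 2 := by
    intro l _
    rw [dsum_eq hA hB le_rfl hα hβ q hd hf hgood.1 hgood.2 e l s]
    have := cauchy (dvs g) (fun _ => (1 : ℂ)) (fun u => TG2 (S (A / nm u))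
      (tw1 α u (g * q) e f s) (tw1 β (g / u) (g * q) e f s) l)
    simp only [one_mul, norm_one, one_pow, Finset.sum_const, nsmul_eq_mul, mul_one] at this
    exact this
  refine (Finset.sum_le_sum hstep).trans ?_
  rw [← Finset.mul_sum, Finset.sum_comm]
  have hu : ∀ u ∈ dvs g, ∑ l ∈ bl L, ‖TG2 (S (A / nm u)) (tw1 α u (g * q) e f s)
        (tw1 β (g / u) (g * q) e f s) l‖ ^ 2 ≤
      (C2 ^ 2 * C3 * C1 * (A * B * L) ^ (5 * η)) * Bu A B L g u := by
    intro u hu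
    have hup := isPrim_of_mem_dvs hu
    have hvp : IsPrim (g / u) := TPD813.prim_div hgp hu
    have hu0 : (0 : ℝ) < nm u := by exact_mod_cast nm_pos.2 hup.ne_zero
    have hv0 : (0 : ℝ) < nm (g / u) := by exact_mod_cast nm_pos.2 hvp.ne_zero
    have hu1 : (1 : ℝ) ≤ nm u := by exact_mod_cast nm_pos.2 hup.ne_zero
    have hv1 : (1 : ℝ) ≤ nm (g / u) := by exact_mod_cast nm_pos.2 hvp.ne_zero
    set A' := A / nm u with hA'
    set B' := B / nm (g / u) with hB'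
    have hA'0 : 0 ≤ A' := by positivity
    have hB'0 : 0 ≤ B' := by positivity
    have hA'A : A' ≤ A := div_le_self hA0 hu1
    have hB'B : B' ≤ B := div_le_self hB0 hv1
    have hFS : FS (tw1 β (g / u) (g * q) e f s) := FS_tw1 hB0 hβ hvp _ _ _ _
    have hr := ruleC (B := A') (L := L) hA'0 hL0 (Bs := S A') (fun b hb => by
      have := (mem_S hA'0).1 hb
      exact ⟨this.2.1, this.1⟩) (tw1 α u (g * q) e f s) hFS
    refine hr.trans ?_
    unfold Bu
    by_cases hc : 1 ≤ A' ∧ 1 ≤ B'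
    · rw [if_pos hc]
      have k1 : ∑ b ∈ S A', ‖tw1 α u (g * q) e f s b‖ ^ 2 ≤ C2 * A' ^ (3 * η) := by
        refine le_trans (Finset.sum_le_sum fun a ha => ?_) (h2 A' hc.1)
        exact norm_tw1_sq_le hα1 _ _ _ _ hs ((mem_S hA'0).1 ha).2.1
      have k2 : ∑ b ∈ S B', ‖tw1 β (g / u) (g * q) e f s b‖ ^ 2 ≤ C2 * B' ^ (3 * η) := by
        refine le_trans (Finset.sum_le_sum fun a ha => ?_) (h2 B' hc.2)
        exact norm_tw1_sq_le hβ1 _ _ _ _ hs ((mem_S hB'0).1 ha).2.1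
      have hR1 : 1 ≤ L * A' := one_le_mul_of_one_le_of_one_le hL hc.1
      have k3 := h3 (L * A') (by positivity) (fun r => ‖TG (tw1 β (g / u) (g * q) e f s) r‖ ^ 2)
        (fun r => by positivity)
      have k4 := h1 (L * A') B' hR1 hc.2 (tw1 β (g / u) (g * q) e f s) (fun b hb => by
        have := tw1_supp hβ hvp hb
        exact (mem_S hB'0).2 ⟨this.2.2, this.1, this.2.1⟩)
      have hMn := Mn_nonneg (R := L * A') (B := B') (by positivity) hB'0
      have p1 : A' ^ (3 * η) * B' ^ (3 * η) ≤ (A * B * L) ^ (3 * η) := by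
        rw [← Real.mul_rpow hA'0 hB'0]
        apply Real.rpow_le_rpow (by positivity) _ (by positivity)
        calc A' * B' ≤ A * B := by gcongr
          _ ≤ A * B * L := le_mul_of_one_le_right hX0 hL
      have p2 : (L * A') ^ η ≤ (A * B * L) ^ η := by
        apply Real.rpow_le_rpow (by positivity) _ hη.le
        calc L * A' ≤ L * A := by gcongr
          _ = A * 1 * L := by ring
          _ ≤ A * B * L := by gcongr
      have p3 : (L * A' * B') ^ η ≤ (A * B * L) ^ η := by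
        apply Real.rpow_le_rpow (by positivity) _ hη.le
        calc L * A' * B' ≤ L * A * B := by gcongr
          _ = A * B * L := by ring
      have pos : 0 < A * B * L := by positivity
      calc (∑ b ∈ S A', ‖tw1 α u (g * q) e f s b‖ ^ 2) *
            ∑ r ∈ bl (L * A'), (tau r : ℝ) * ‖TG (tw1 β (g / u) (g * q) e f s) r‖ ^ 2
          ≤ (C2 * A' ^ (3 * η)) * (C3 * (L * A') ^ η * (C1 * (L * A' * B') ^ η * Mn (L * A') B' *
            (C2 * B' ^ (3 * η)))) := by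
            refine mul_le_mul k1 (k3.trans ?_) (Finset.sum_nonneg fun _ _ => by positivity)
              (by positivity)
            refine mul_le_mul_of_nonneg_left (k4.trans ?_) (by positivity)
            exact mul_le_mul_of_nonneg_left k2 (by positivity)
        _ = C2 ^ 2 * C3 * C1 * ((A' ^ (3 * η) * B' ^ (3 * η)) * (L * A') ^ η *
            (L * A' * B') ^ η) * Mn (L * A') B' := by ring
        _ ≤ C2 ^ 2 * C3 * C1 * ((A * B * L) ^ (3 * η) * (A * B * L) ^ η * (A * B * L) ^ η) *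
            Mn (L * A') B' := by gcongr
        _ = _ := by
            rw [← Real.rpow_add pos, ← Real.rpow_add pos]
            congr 3; ring
    · rw [if_neg hc, mul_zero]
      refine le_of_eq ?_
      rw [not_and_or, not_le, not_le] at hc
      rcases hc with hc | hc
      · have : S A' = ∅ := PA842.S_empty hA'0 hc
        rw [this]; simp
      · have : ∀ r, TG (tw1 β (g / u) (g * q) e f s) r = 0 := by
          intro r
          unfold CM106.TG
          have : ∀ m, tw1 β (g / u) (g * q) e f s m = 0 := by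
            intro m
            by_contra h0
            have h4 := tw1_supp hβ hvp h0
            have h5 : (1 : ℝ) ≤ nm m := by exact_mod_cast nm_pos.2 h4.1.ne_zero
            linarith [h4.2.2]
          simp [this]
        simp [this]
  calc (tau g : ℝ) * ∑ u ∈ dvs g, ∑ l ∈ bl L, _
      ≤ (tau g : ℝ) * ∑ u ∈ dvs g, (C2 ^ 2 * C3 * C1 * (A * B * L) ^ (5 * η)) * Bu A B L g u :=
        mul_le_mul_of_nonneg_left (Finset.sum_le_sum hu) (Nat.cast_nonneg _)
    _ = _ := by rw [← Finset.mul_sum]; ring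

end Crest.Agent.R017.One319
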