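import Crest.Agent.R017.PM1_106
import Crest.Agent.R017.TPDefs_320

/-!
# Row 17, rule (P'): one step on the Gauss side (helper106)

* `cG w h = conj (w h * G h)`, `VGe Z w = ∑' n, exp (-nm n / Z) ‖TG w n‖²`, `V_cG : V X Z (cG w) = VGe Z w`
* `dG` : the dual sums, `DICM` : their second moment; no Gauss sums are left
* `one_stepG`
-/

set_option autoImplicit false

noncomputable section

open MeasureTheory Finset
open scoped ComplexConjugate

namespace Crest.Agent.R017.PG106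

open Crest.Agent.R012
open Eis CharSum852 Gauss880 Tau671 Mob705 LS2 CR2 DualIneq811 MelSep811
open Crest.Agent.R017.PA842 (V Supp V_nonneg summable_V Lde_nonneg)
open Crest.Agent.R017.PM106
open Crest.Agent.R017.CM106 (CS TG FS sub)
open Crest.Agent.R017.TP320 (VC VG)
open Div277 (tau dvs mem_dvs tau_le_rpow)

/-! ### the coefficients `conj (w G)` -/

/-- `conj (w G)` -/
def cG (w : Eis → ℂ) (h : Eis) : ℂ := conj (w h * G h)

lemma FS_of_supp {X : ℝ} (hX : 0 ≤ X) {w : Eis → ℂ} (hw : Supp w X) : FS w where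
  fin := (S X).finite_toSet.subset fun h hh => hw h hh
  prim := fun h hh => ((mem_S hX).1 (hw h hh)).2.1

lemma supp_cG {X : ℝ} {w : Eis → ℂ} (hw : Supp w X) : Supp (cG w) X := by
  intro h hh
  apply hw
  intro h0
  apply hh
  unfold cG
  rw [h0, zero_mul, map_zero]

lemma norm_cG_le {w : Eis → ℂ} {h : Eis} (hh : IsPrim h) : ‖cG w h‖ ≤ ‖w h‖ := by
  unfold cG
  rw [RCLike.norm_conj, norm_mul]
  exact mul_le_of_le_one_right (norm_nonneg _) (norm_G_le syG hh)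

lemma TG_eq_sum {X : ℝ} {w : Eis → ℂ} (hw : Supp w X) (l : Eis) :
    TG w l = ∑ m ∈ S X, w m * (G m * conj (sy l m)) := by
  unfold TG
  refine tsum_eq_sum fun m hm => ?_
  have : w m = 0 := by
    by_contra h; exact hm (hw m h)
  rw [this, zero_mul]

lemma CS_eq_sum {X : ℝ} {w : Eis → ℂ} (hw : Supp w X) (l : Eis) :
    CS w l = ∑ m ∈ S X, w m * sy l m := by
  unfold CS
  refine tsum_eq_sum fun m hm => ?_
  have : w m = 0 := by
    by_contra h; exact hm (hw m h)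
  rw [this, zero_mul]

lemma sum_cG {X : ℝ} {w : Eis → ℂ} (hw : Supp w X) (n : Eis) :
    ∑ h ∈ S X, cG w h * sy n h = conj (TG w n) := by
  rw [TG_eq_sum hw, map_sum]
  refine Finset.sum_congr rfl fun h _ => ?_
  unfold cG
  simp only [map_mul, Complex.conj_conj]
  ring

/-- exponentially weighted second moment, Gauss side -/
def VGe (Z : ℝ) (w : Eis → ℂ) : ℝ := ∑' n : Eis, Real.exp (-(nm n : ℝ) / Z) * ‖TG w n‖ ^ 2

/-- exponentially weighted second moment, character side -/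
def VCe (Z : ℝ) (w : Eis → ℂ) : ℝ := ∑' n : Eis, Real.exp (-(nm n : ℝ) / Z) * ‖CS w n‖ ^ 2

lemma VGe_nonneg (Z : ℝ) (w : Eis → ℂ) : 0 ≤ VGe Z w := tsum_nonneg fun _ => by positivity

lemma VCe_nonneg (Z : ℝ) (w : Eis → ℂ) : 0 ≤ VCe Z w := tsum_nonneg fun _ => by positivity

lemma V_cG {X : ℝ} {w : Eis → ℂ} (hw : Supp w X) (Z : ℝ) : V X Z (cG w) = VGe Z w := by
  unfold V VGe
  refine tsum_congr fun n => ?_
  rw [sum_cG hw, RCLike.norm_conj]

lemma V_eq_VCe {X : ℝ} {w : Eis → ℂ} (hw : Supp w X) (Z : ℝ) : V X Z w = VCe Z w := by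
  unfold V VCe
  refine tsum_congr fun n => ?_
  rw [CS_eq_sum hw]

lemma summable_VGe {X Z : ℝ} (hX : 0 ≤ X) (hZ : 0 < Z) {w : Eis → ℂ} (hw : Supp w X) :
    Summable fun n : Eis => Real.exp (-(nm n : ℝ) / Z) * ‖TG w n‖ ^ 2 := by
  refine (summable_V hX hZ (cG w)).congr fun n => ?_
  rw [sum_cG hw, RCLike.norm_conj]

lemma summable_VCe {X Z : ℝ} (hX : 0 ≤ X) (hZ : 0 < Z) {w : Eis → ℂ} (hw : Supp w X) :
    Summable fun n : Eis => Real.exp (-(nm n : ℝ) / Z) * ‖CS w n‖ ^ 2 := by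
  refine (summable_V hX hZ w).congr fun n => ?_
  rw [CS_eq_sum hw]

lemma exp_ge_of_mem_bl {L : ℝ} (hL : 0 < L) {k : Eis} (hk : k ∈ bl L) :
    1 ≤ Real.exp 1 * Real.exp (-(nm k : ℝ) / L) := by
  rw [← Real.exp_add]
  apply Real.one_le_exp
  have := ((mem_bl hL.le).1 hk).2
  rw [neg_div]
  have h2 : (nm k : ℝ) / L ≤ 1 := (div_le_one hL).2 this
  linarith

/-- ball sums are bounded by the exponentially weighted sums -/
theorem VG_le_VGe {X L : ℝ} (hX : 0 ≤ X) (hL : 0 < L) {w : Eis → ℂ} (hw : Supp w X) :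
    VG L w ≤ Real.exp 1 * VGe L w := by
  unfold VG VGe
  calc ∑ k ∈ bl L, ‖TG w k‖ ^ 2
      ≤ ∑ k ∈ bl L, Real.exp 1 * (Real.exp (-(nm k : ℝ) / L) * ‖TG w k‖ ^ 2) := by
        refine Finset.sum_le_sum fun k hk => ?_
        have h1 := exp_ge_of_mem_bl hL hk
        have h2 : 0 ≤ ‖TG w k‖ ^ 2 := by positivity
        nlinarith
    _ = Real.exp 1 * ∑ k ∈ bl L, Real.exp (-(nm k : ℝ) / L) * ‖TG w k‖ ^ 2 := by
        rw [Finset.mul_sum]
    _ ≤ _ := by
        refine mul_le_mul_of_nonneg_left ?_ (Real.exp_pos _).le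
        exact (summable_VGe hX hL hw).sum_le_tsum _ fun _ _ => by positivity

theorem VC_le_VCe {X L : ℝ} (hX : 0 ≤ X) (hL : 0 < L) {w : Eis → ℂ} (hw : Supp w X) :
    VC L w ≤ Real.exp 1 * VCe L w := by
  unfold VC VCe
  calc ∑ k ∈ bl L, ‖CS w k‖ ^ 2
      ≤ ∑ k ∈ bl L, Real.exp 1 * (Real.exp (-(nm k : ℝ) / L) * ‖CS w k‖ ^ 2) := by
        refine Finset.sum_le_sum fun k hk => ?_
        have h1 := exp_ge_of_mem_bl hL hk
        have h2 : 0 ≤ ‖CS w k‖ ^ 2 := by positivity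
        nlinarith
    _ = Real.exp 1 * ∑ k ∈ bl L, Real.exp (-(nm k : ℝ) / L) * ‖CS w k‖ ^ 2 := by
        rw [Finset.mul_sum]
    _ ≤ _ := by
        refine mul_le_mul_of_nonneg_left ?_ (Real.exp_pos _).le
        exact (summable_VCe hX hL hw).sum_le_tsum _ fun _ _ => by positivity

/-! ### the dual sums -/

lemma conj_sy {x k : Eis} (hk : IsPrim k) (h : IsCoprime x k) : conj (sy x k) = sy x k ^ 2 := by
  have h3 := syG.cube x k hk h
  have hn : ‖sy x k‖ ^ 3 = 1 := by rw [← norm_pow, h3, norm_one]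
  have hn1 : ‖sy x k‖ = 1 := (pow_eq_one_iff_of_nonneg (norm_nonneg _) (by norm_num)).mp hn
  have h1 : sy x k * conj (sy x k) = 1 := by
    rw [Complex.mul_conj, Complex.normSq_eq_norm_sq, hn1]; norm_num
  have h0 : sy x k ≠ 0 := by
    intro h0; rw [h0] at h1; simp at h1
  apply mul_left_cancel₀ h0
  rw [h1, ← h3]; ring

lemma mul_conj_sy {x k : Eis} (hk : IsPrim k) (h : IsCoprime x k) :
    sy x k * conj (sy x k) = 1 := by
  rw [conj_sy hk h]
  have := syG.cube x k hk h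
  rw [← this]; ring

lemma G_mul_conj {k : Eis} (hk : IsPrim k) (hsf : Squarefree k) : conj (G k) * G k = 1 := by
  rw [mul_comm, Complex.mul_conj, Complex.normSq_eq_norm_sq, norm_G syG hk hsf]; norm_num

lemma cop_of_sqf {a b : Eis} (h : Squarefree (a * b)) : IsCoprime a b :=
  ((squarefree_mul_iff.mp h).1).isCoprime

/-- coefficient of the dual sum -/
def dG (w : Eis → ℂ) (X : ℝ) (d e f l : Eis) (s : ℂ) : ℂ :=
  ∑ k ∈ S X, w (d * f * k) * sy (l * (d * e * sq3) ^ 2) k * (nm k : ℂ) ^ (s - 1 / 2)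

lemma term_cG {X : ℝ} (hX : 0 ≤ X) {w : Eis → ℂ} (hw : Supp w X) {d e f k : Eis} (l : Eis)
    (hd : IsPrim d) (hf : IsPrim f) (he : e ∣ d) (hk : k ∈ S X) :
    cG w (d * f * k) * (sy (e * sq3) k * conj (sy (f * l) k) * G k) =
      conj (G (d * f)) * conj (w (d * f * k) * sy (l * (d * e * sq3) ^ 2) k) := by
  have hk' := (mem_S hX).1 hk
  by_cases h0 : w (d * f * k) = 0
  · unfold cG; rw [h0]; simp
  have hdf : Squarefree (d * f * k) := ((mem_S hX).1 (hw _ h0)).2.2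
  have hc : IsCoprime (d * f) k := cop_of_sqf hdf
  have hcd : IsCoprime d k := hc.of_mul_left_left
  have hcf : IsCoprime f k := hc.of_mul_left_right
  have hce : IsCoprime e k := hcd.of_isCoprime_of_dvd_left he
  have hc3 : IsCoprime sq3 k := by
    have h3 : IsCoprime (3 : Eis) k := hk'.2.1.isCoprime_three.symm
    refine h3.of_isCoprime_of_dvd_left ?_
    exact ⟨-sq3, by decide⟩
  have hcu : IsCoprime (d * e * sq3) k := (hcd.mul_left hce).mul_left hc3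
  unfold cG
  rw [G_mul_all syG (hd.mul hf) hk'.2.1]
  have hn := Sym645.prim_nm_mod hk'.2.1
  have e1 : sy (d * f) k * (sy (e * sq3) k * conj (sy (f * l) k)) =
      conj (sy (l * (d * e * sq3) ^ 2) k) := by
    set u := sy (d * e * sq3) k with hu
    have hu3 : u ^ 3 = 1 := syG.cube _ _ hk'.2.1 hcu
    have hcj : conj u = u ^ 2 := conj_sy hk'.2.1 hcu
    have hF := mul_conj_sy hk'.2.1 hcf
    rw [Sym645.sy_mul_left hn l, Sym645.sy_pow_left hn, ← hu, map_mul, map_pow, hcj]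
    have e2 : (u ^ 2) ^ 2 = u := by
      calc (u ^ 2) ^ 2 = u ^ 3 * u := by ring
        _ = u := by rw [hu3, one_mul]
    rw [e2, hu]
    simp only [Sym645.sy_mul_left hn, map_mul]
    linear_combination (sy d k * sy e k * sy sq3 k * conj (sy l k)) * hF
  have e3 := G_mul_conj hk'.2.1 hk'.2.2
  simp only [map_mul, Complex.conj_conj]
  rw [← e1]
  linear_combination (conj (w (d * f * k)) * conj (G (d * f)) * sy (d * f) k *
    (sy (e * sq3) k * conj (sy (f * l) k))) * e3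

lemma norm_dsum_cG_le {X : ℝ} (hX : 0 ≤ X) {w : Eis → ℂ} (hw : Supp w X) {d e f : Eis} (l : Eis)
    (hd : IsPrim d) (hf : IsPrim f) (he : e ∣ d) (σ t : ℝ) :
    ‖dsum (cG w) X d e f l (σ + t * Complex.I)‖ ≤
      ‖dG w X d e f l (σ + (-t : ℝ) * Complex.I)‖ := by
  have e1 : dsum (cG w) X d e f l (σ + t * Complex.I) =
      conj (G (d * f)) * conj (dG w X d e f l (σ + (-t : ℝ) * Complex.I)) := by
    unfold dsum dG
    rw [map_sum, Finset.mul_sum]
    refine Finset.sum_congr rfl fun k hk => ?_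
    have h1 := term_cG hX hw l hd hf he hk
    rw [h1]
    simp only [map_mul, conj_natCast_cpow]
    have e2 : conj ((σ : ℂ) + (-t : ℝ) * Complex.I - 1 / 2) = (σ : ℂ) + t * Complex.I - 1 / 2 := by
      simp only [map_sub, map_add, map_mul, map_div₀, map_one, map_ofNat, Complex.conj_ofReal,
        Complex.conj_I]
      push_cast; ring
    rw [e2]
    ring
  rw [e1, norm_mul, RCLike.norm_conj, RCLike.norm_conj]
  exact mul_le_of_le_one_left (norm_nonneg _) (norm_G_le syG (hd.mul hf))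

/-- the dual second moment: pure character side -/
def DICM (M : ℕ) (σ : ℝ) (w : Eis → ℂ) (X : ℝ) (d e f : Eis) (L : ℝ) : ℝ :=
  ∫ t : ℝ, ((1 + t ^ 2) ^ M)⁻¹ * ∑ l ∈ bl L, ‖dG w X d e f l (σ + t * Complex.I)‖ ^ 2

lemma dG_eq (w : Eis → ℂ) (X : ℝ) (d e f l : Eis) (s : ℂ) :
    dG w X d e f l s = dp (S X) (fun k => w (d * f * k) * sy (l * (d * e * sq3) ^ 2) k) s := rfl

lemma integrable_dG {M : ℕ} (hM : 1 ≤ M) {X : ℝ} (hX : 0 ≤ X) (w : Eis → ℂ) (d e f l : Eis)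
    (σ : ℝ) :
    Integrable (fun t : ℝ => ((1 + t ^ 2) ^ M)⁻¹ * ‖dG w X d e f l (σ + t * Complex.I)‖ ^ 2) := by
  simp only [dG_eq]
  exact integrable_dp_sqM hM (S X) _ (fun k hk => ((mem_S hX).1 hk).2.1.ne_zero) σ

lemma integrable_DICM {M : ℕ} (hM : 1 ≤ M) (σ : ℝ) {X : ℝ} (hX : 0 ≤ X) (w : Eis → ℂ)
    (d e f : Eis) (L : ℝ) :
    Integrable (fun t : ℝ => ((1 + t ^ 2) ^ M)⁻¹ *
      ∑ l ∈ bl L, ‖dG w X d e f l (σ + t * Complex.I)‖ ^ 2) := by
  have : (fun t : ℝ => ((1 + t ^ 2) ^ M)⁻¹ *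
      ∑ l ∈ bl L, ‖dG w X d e f l (σ + t * Complex.I)‖ ^ 2) =
      fun t : ℝ => ∑ l ∈ bl L, ((1 + t ^ 2) ^ M)⁻¹ * ‖dG w X d e f l (σ + t * Complex.I)‖ ^ 2 := by
    funext t; rw [Finset.mul_sum]
  rw [this]
  exact integrable_finsetSum _ fun l _ => integrable_dG hM hX w d e f l σ

lemma DICM_nonneg (M : ℕ) (σ : ℝ) (w : Eis → ℂ) (X : ℝ) (d e f : Eis) (L : ℝ) :
    0 ≤ DICM M σ w X d e f L :=
  integral_nonneg fun t => by positivity

lemma DICM_mono {M : ℕ} (hM : 1 ≤ M) (σ : ℝ) {X : ℝ} (hX : 0 ≤ X) (w : Eis → ℂ) (d e f : Eis)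
    {L L' : ℝ} (hL0 : 0 ≤ L) (hL : L ≤ L') : DICM M σ w X d e f L ≤ DICM M σ w X d e f L' := by
  unfold DICM
  refine integral_mono (integrable_DICM hM σ hX w d e f L) (integrable_DICM hM σ hX w d e f L')
    (fun t => ?_)
  refine mul_le_mul_of_nonneg_left ?_ (by positivity)
  refine Finset.sum_le_sum_of_subset_of_nonneg ?_ (fun _ _ _ => by positivity)
  intro l hl
  rw [mem_bl hL0] at hl
  rw [mem_bl (by linarith)]
  exact ⟨hl.1, hl.2.trans hL⟩

lemma DIM_cG_le {M : ℕ} (hM : 1 ≤ M) (σ : ℝ) {X : ℝ} (hX : 0 ≤ X) {w : Eis → ℂ} (hw : Supp w X)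
    {d e f : Eis} (hd : IsPrim d) (hf : IsPrim f) (he : e ∣ d) (L : ℝ) :
    DIM M σ (cG w) X d e f L ≤ DICM M σ w X d e f L := by
  unfold DIM DICM
  have hi := integrable_DICM hM σ hX w d e f L
  rw [← integral_neg_eq_self (fun t : ℝ => ((1 + t ^ 2) ^ M)⁻¹ *
      ∑ l ∈ bl L, ‖dG w X d e f l (σ + t * Complex.I)‖ ^ 2)]
  refine integral_mono (integrable_DIM hM σ hX (cG w) d e f L) hi.comp_neg (fun t => ?_)
  simp only [neg_sq]
  refine mul_le_mul_of_nonneg_left ?_ (by positivity)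
  refine Finset.sum_le_sum fun l _ => ?_
  exact pow_le_pow_left₀ (norm_nonneg _) (norm_dsum_cG_le hX hw l hd hf he σ t) 2

/-! ### the large common divisors -/

/-- subsequence of the multiples of `g`, at the frequencies `n g` -/
def VGg (Z : ℝ) (w : Eis → ℂ) (g : Eis) : ℝ :=
  ∑' n : Eis, Real.exp (-(nm n : ℝ) / Z) * ‖TG (sub w g) (n * g)‖ ^ 2

lemma VGg_nonneg (Z : ℝ) (w : Eis → ℂ) (g : Eis) : 0 ≤ VGg Z w g :=
  tsum_nonneg fun _ => by positivity

lemma supp_sub' {w : Eis → ℂ} {X : ℝ} (hX : 0 ≤ X) (hw : Supp w X) {g : Eis} (hg : IsPrim g) :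
    Supp (sub w g) (X / nm g) := PA842.supp_sub hX hw hg

lemma conj_TG_sub {X : ℝ} (hX : 0 ≤ X) {w : Eis → ℂ} (hw : Supp w X) {g : Eis} (hg : IsPrim g)
    (n : Eis) : ∑ k ∈ S (X / nm g), (cG (sub w g) k * sy g k) * sy n k =
      conj (TG (sub w g) (n * g)) := by
  have hX' : 0 ≤ X / nm g := by positivity
  rw [TG_eq_sum (supp_sub' hX hw hg), map_sum]
  refine Finset.sum_congr rfl fun k hk => ?_
  have hk' := (mem_S hX').1 hk
  have hn := Sym645.prim_nm_mod hk'.2.1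
  unfold cG
  rw [Sym645.sy_mul_left hn]
  simp only [map_mul, Complex.conj_conj]
  ring

lemma sub_cG {w : Eis → ℂ} {g k : Eis} (hg : IsPrim g) (hk : IsPrim k) :
    PA842.sub (cG w) g k = conj (G g) * (cG (sub w g) k * sy g k) := by
  unfold PA842.sub cG sub
  rw [G_mul_all syG hg hk]
  simp only [map_mul, Complex.conj_conj]
  ring

lemma V_sub_cG_le {X Z : ℝ} (hX : 0 ≤ X) (hZ : 0 < Z) {w : Eis → ℂ} (hw : Supp w X) {g : Eis}
    (hg : IsPrim g) : V (X / nm g) Z (PA842.sub (cG w) g) ≤ VGg Z w g := by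
  have hX' : 0 ≤ X / nm g := by positivity
  unfold V VGg
  refine (summable_V hX' hZ _).tsum_le_tsum (fun n => ?_) ?_
  · refine mul_le_mul_of_nonneg_left ?_ (Real.exp_pos _).le
    apply pow_le_pow_left₀ (norm_nonneg _)
    have e1 : ∑ k ∈ S (X / nm g), PA842.sub (cG w) g k * sy n k =
        conj (G g) * conj (TG (sub w g) (n * g)) := by
      rw [← conj_TG_sub hX hw hg, Finset.mul_sum]
      refine Finset.sum_congr rfl fun k hk => ?_
      rw [sub_cG hg ((mem_S hX').1 hk).2.1]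
      ring
    rw [e1, norm_mul, RCLike.norm_conj, RCLike.norm_conj]
    exact mul_le_of_le_one_left (norm_nonneg _) (norm_G_le syG hg)
  · refine (summable_V hX' hZ (fun k => cG (sub w g) k * sy g k)).congr fun n => ?_
    rw [conj_TG_sub hX hw hg, RCLike.norm_conj]

open Classical in
/-- **the one-step inequality on the Gauss side** -/
theorem one_stepG {σ ε : ℝ} (hσ : 0 < σ) (hσ1 : σ ≤ 1 / 2) (hε : 0 < ε) {M : ℕ} (hM : 1 ≤ M) :
    ∃ C : ℝ, 1 ≤ C ∧ ∀ X Z Y : ℝ, 1 ≤ X → 1 ≤ Z → ∀ w : Eis → ℂ, Supp w X →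
    VGe Z w ≤ C * Z * ∑ h ∈ S X, ‖w h‖ ^ 2 +
      C * X ^ (3 * σ) * ∑ d ∈ (S X).filter (fun d => (nm d : ℝ) ≤ Y),
        ∑ e ∈ (S X).filter (· ∣ d), ∑ f ∈ S X, Z / nm f * DICM M σ w X d e f (Lde X Z ε d e) +
      ∑ g ∈ (S X).filter (fun g => Y < (nm g : ℝ)), (tau g : ℝ) * VGg Z w g := by
  obtain ⟨C, hC, h⟩ := one_stepM hσ hσ1 hε hM
  refine ⟨C, hC, fun X Z Y hX hZ w hw => ?_⟩
  have hX0 : (0 : ℝ) ≤ X := by linarith
  have hZ0 : (0 : ℝ) < Z := by linarith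
  have h1 := h X Z Y hX hZ (cG w) (supp_cG hw)
  rw [V_cG hw] at h1
  refine h1.trans (add_le_add (add_le_add ?_ ?_) ?_)
  · refine mul_le_mul_of_nonneg_left ?_ (by positivity)
    refine Finset.sum_le_sum fun k hk => ?_
    exact pow_le_pow_left₀ (norm_nonneg _) (norm_cG_le ((mem_S hX0).1 hk).2.1) 2
  · refine mul_le_mul_of_nonneg_left ?_ (by positivity)
    refine Finset.sum_le_sum fun d hd => Finset.sum_le_sum fun e he =>
      Finset.sum_le_sum fun f hf => ?_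
    refine mul_le_mul_of_nonneg_left ?_ (by positivity)
    exact DIM_cG_le hM σ hX0 hw ((mem_S hX0).1 (Finset.mem_filter.1 hd).1).2.1
      ((mem_S hX0).1 hf).2.1 (Finset.mem_filter.1 he).2 _
  · refine Finset.sum_le_sum fun g hg => ?_
    refine mul_le_mul_of_nonneg_left ?_ (Nat.cast_nonneg _)
    exact V_sub_cG_le hX0 hZ0 hw ((mem_S hX0).1 (Finset.mem_filter.1 hg).1).2.1

end Crest.Agent.R017.PG106
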