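import Crest.Agent.R017.One_V2c_319
import Crest.Agent.R017.PG1_106
import Crest.Agent.R012.LS2Tail_381

/-!
# Row 17, θ = 1: `v2sf : HBall → OneStepE → V2sf` (helper319)
-/

set_option autoImplicit false

noncomputable section

open MeasureTheory Complex Set
open scoped ComplexConjugate

namespace Crest.Agent.R017.One319

open Crest.Agent.R012 Crest.Agent.R012.Eis Crest.Agent.R012.LS2 Crest.Agent.R012.CR2
open Crest.Agent.R012.Gauss880 Crest.Agent.R012.Div277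
open Crest.Agent.R017.CM106 (CS TG FS TG2 sub ruleC cauchy norm_Gsy_le TG2_split)
open Crest.Agent.R017.TP320 (conv sq VC mul_div_of_mem)
open Crest.Agent.R017.PA842 (Supp V DI)

lemma one_le_Lde {X Z ε : ℝ} (hX : 1 ≤ X) (hZ : 1 ≤ Z) (hε : 0 ≤ ε) (d e : Eis) :
    1 ≤ Lde X Z ε d e := by
  unfold Lde
  have h1 : 1 ≤ (X * Z) ^ ε := Real.one_le_rpow (one_le_mul_of_one_le_of_one_le hX hZ) hε
  have h2 : 1 ≤ 1 + nm e * X ^ 2 / ((nm d : ℝ) ^ 2 * Z) := by
    have : 0 ≤ nm e * X ^ 2 / ((nm d : ℝ) ^ 2 * Z) := by positivity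
    linarith
  exact one_le_mul_of_one_le_of_one_le h1 h2

lemma Lde_le {X Z ε : ℝ} (hX : 1 ≤ X) (hZ : 1 ≤ Z) (hε1 : ε ≤ 1) {d e : Eis}
    (hd : IsPrim d) (he : (nm e : ℝ) ≤ X) : Lde X Z ε d e ≤ 2 * (X * Z) ^ 4 := by
  unfold Lde
  have hXZ : 1 ≤ X * Z := one_le_mul_of_one_le_of_one_le hX hZ
  have hd1 : (1 : ℝ) ≤ nm d := by exact_mod_cast nm_pos.2 hd.ne_zero
  have h1 : (X * Z) ^ ε ≤ X * Z := by
    calc (X * Z) ^ ε ≤ (X * Z) ^ (1 : ℝ) := Real.rpow_le_rpow_of_exponent_le hXZ hε1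
      _ = X * Z := Real.rpow_one _
  have h2 : nm e * X ^ 2 / ((nm d : ℝ) ^ 2 * Z) ≤ (X * Z) ^ 3 := by
    have a1 : (1 : ℝ) ≤ (nm d : ℝ) ^ 2 * Z := one_le_mul_of_one_le_of_one_le (one_le_pow₀ hd1) hZ
    calc nm e * X ^ 2 / ((nm d : ℝ) ^ 2 * Z) ≤ nm e * X ^ 2 := div_le_self (by positivity) a1
      _ ≤ X * X ^ 2 := by gcongr
      _ = (X * 1) ^ 3 := by ring
      _ ≤ (X * Z) ^ 3 := by gcongr
  have h3 : 1 ≤ (X * Z) ^ 3 := one_le_pow₀ hXZ
  calc (X * Z) ^ ε * (1 + nm e * X ^ 2 / ((nm d : ℝ) ^ 2 * Z)) ≤ (X * Z) * (2 * (X * Z) ^ 3) := by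
        have : 0 ≤ nm e * X ^ 2 / ((nm d : ℝ) ^ 2 * Z) := by positivity
        refine mul_le_mul h1 (by linarith) (by linarith) (by linarith)
    _ = _ := by ring

/-- the integral over `t` -/
lemma DI_le {σ X L Bd : ℝ} (hX : 0 ≤ X) {w : Eis → ℂ} {d e f : Eis}
    (h : ∀ s : ℂ, s.re = σ → ∑ l ∈ bl L, ‖dsum w X d e f l s‖ ^ 2 ≤ Bd) :
    DI σ w X d e f L ≤ Real.pi * Bd := by
  unfold PA842.DI
  calc ∫ t : ℝ, (1 + t ^ 2)⁻¹ * ∑ l ∈ bl L, ‖dsum w X d e f l (σ + t * Complex.I)‖ ^ 2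
      ≤ ∫ t : ℝ, (1 + t ^ 2)⁻¹ * Bd := by
        refine integral_mono (PA842.integrable_DI σ hX w d e f L)
          (integrable_inv_one_add_sq.mul_const _) fun t => ?_
        refine mul_le_mul_of_nonneg_left (h _ ?_) (by positivity)
        simp
    _ = Real.pi * Bd := by
        rw [integral_mul_const, integral_univ_inv_one_add_sq]

/-- one `(d, e, f, u)` -/
lemma Bu_le {A B H η : ℝ} (hA : 1 ≤ A) (hB : 1 ≤ B) (hH : 1 ≤ H) (hη : 0 ≤ η) {d e f u : Eis}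
    (hd : IsPrim d) (he : IsPrim e) (hf : IsPrim f) (hu : u ∈ dvs (d * f)) :
    H / (nm e * nm f) * Bu A B (Lde (A * B) H η d e) (d * f) u ≤
      3 * (A * B * H) ^ η / (nm d * nm f) * E4 H A B := by
  have hg : IsPrim (d * f) := hd.mul hf
  have hup := isPrim_of_mem_dvs hu
  have hD : (1 : ℝ) ≤ nm d := by exact_mod_cast nm_pos.2 hd.ne_zero
  have hE : (1 : ℝ) ≤ nm e := by exact_mod_cast nm_pos.2 he.ne_zero
  have hF : (1 : ℝ) ≤ nm f := by exact_mod_cast nm_pos.2 hf.ne_zero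
  have hδ : (1 : ℝ) ≤ nm u := by exact_mod_cast nm_pos.2 hup.ne_zero
  have hvp : IsPrim (d * f / u) := TPD813.prim_div hg hu
  have hv : (1 : ℝ) ≤ nm (d * f / u) := by exact_mod_cast nm_pos.2 hvp.ne_zero
  have hmul : u * (d * f / u) = d * f := mul_div_of_mem hu
  have hnm : (nm u : ℝ) * nm (d * f / u) = nm d * nm f := by
    have : nm (u * (d * f / u)) = nm (d * f) := by rw [hmul]
    rw [nm_mul, nm_mul] at this
    exact_mod_cast this
  have hE40 : 0 ≤ E4 H A B := by unfold E4; positivity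
  have hK : 0 ≤ 3 * (A * B * H) ^ η / (nm d * nm f) * E4 H A B := by positivity
  unfold Bu
  split_ifs with hc
  swap
  · rw [mul_zero]; exact hK
  set h : ℝ := H ^ (1 / 3 : ℝ) with hh
  set b : ℝ := B ^ (1 / 3 : ℝ) with hb
  have hH0 : 0 ≤ H := by linarith
  have hB0 : 0 ≤ B := by linarith
  have h3 : h ^ 3 = H := by
    rw [hh, ← Real.rpow_natCast, ← Real.rpow_mul hH0]; norm_num
  have b3 : b ^ 3 = B := by
    rw [hb, ← Real.rpow_natCast, ← Real.rpow_mul hB0]; norm_num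
  have h2 : h ^ 2 = H ^ (2 / 3 : ℝ) := by
    rw [hh, ← Real.rpow_natCast, ← Real.rpow_mul hH0]; norm_num
  have b5 : b ^ 5 = B ^ (5 / 3 : ℝ) := by
    rw [hb, ← Real.rpow_natCast, ← Real.rpow_mul hB0]; norm_num
  have hh1 : 1 ≤ h := Real.one_le_rpow hH (by norm_num)
  have hb1 : 1 ≤ b := Real.one_le_rpow hB (by norm_num)
  have hX : 1 ≤ A * B := one_le_mul_of_one_le_of_one_le hA hB
  have hl : 1 ≤ (A * B * H) ^ η := Real.one_le_rpow (one_le_mul_of_one_le_of_one_le hX hH) hη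
  have hBv : B / nm (d * f / u) = b ^ 3 * nm u / (nm d * nm f) := by
    rw [b3, ← hnm]
    field_simp
  have key := core_le (l := (A * B * H) ^ η) (h := h) (b := b) (A := A) (D := nm d) (E := nm e)
    (F := nm f) (δ := nm u) hl hh1 hb1 hA hD hE hF hδ (by
      rw [← hnm]; exact le_mul_of_one_le_right (by positivity) hv) hc.1 (by rw [← hBv]; exact hc.2)
  have e1 : Lde (A * B) H η d e * (A / nm u) = (A * B * H) ^ η *
      (1 + nm e * (A * b ^ 3) ^ 2 / ((nm d : ℝ) ^ 2 * h ^ 3)) * (A / nm u) := by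
    unfold Lde
    rw [h3, b3]
  rw [e1, hBv]
  rw [h3] at key ⊢
  refine key.trans (le_of_eq ?_)
  unfold E4
  rw [b3, h2, b5]

/-- one `(d, e, f)` -/
lemma term_le (HB : HBall) {η : ℝ} (hη : 0 < η) (hη1 : η ≤ 1) : ∃ C : ℝ, 0 < C ∧ ∀ (A B H : ℝ),
    1 ≤ A → 1 ≤ B → 1 ≤ H → ∀ α β : Eis → ℂ, (∀ n, α n ≠ 0 → IsPrim n ∧ (nm n : ℝ) ≤ A) →
    (∀ n, β n ≠ 0 → IsPrim n ∧ (nm n : ℝ) ≤ B) → (∀ n, ‖α n‖ ≤ 1) → (∀ n, ‖β n‖ ≤ 1) →
    ∀ q d e f : Eis, d ∈ S (A * B) → e ∈ S (A * B) → f ∈ S (A * B) →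
    H / (nm e * nm f) * DI η (sq q (conv α β)) (A * B) d e f (Lde (A * B) H η d e) ≤
      C * (A * B * H) ^ (30 * η) / (nm d * nm f) * E4 H A B := by
  obtain ⟨C1, hC1, h1⟩ := dual_le HB hη hη1
  obtain ⟨C2, hC2, h2⟩ := tau_le_rpow hη
  refine ⟨Real.pi * C1 * 2 ^ (5 * η) * C2 ^ 2 * 3, by positivity, ?_⟩
  intro A B H hA hB hH α β hα hβ hα1 hβ1 q d e f hd he hf
  have hX : 1 ≤ A * B := one_le_mul_of_one_le_of_one_le hA hB
  have hX0 : 0 ≤ A * B := by linarith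
  have hH0 : 0 < H := by linarith
  have hK : 1 ≤ A * B * H := one_le_mul_of_one_le_of_one_le hX hH
  have hK0 : 0 < A * B * H := by linarith
  have hd' := (mem_S hX0).1 hd
  have he' := (mem_S hX0).1 he
  have hf' := (mem_S hX0).1 hf
  have hdp := hd'.2.1
  have hep := he'.2.1
  have hfp := hf'.2.1
  have hgp : IsPrim (d * f) := hdp.mul hfp
  set L := Lde (A * B) H η d e with hL
  have hL1 : 1 ≤ L := one_le_Lde hX hH hη.le d e
  have hLK : L ≤ 2 * (A * B * H) ^ 4 := Lde_le hX hH hη1 hdp he'.1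
  have hBu0 : ∀ u, 0 ≤ Bu A B L (d * f) u := fun u =>
    Bu_nonneg (by linarith) (by linarith) (by linarith) _ _
  have a1 := DI_le (σ := η) (L := L) hX0 (w := sq q (conv α β)) (d := d) (e := e) (f := f)
    (fun s hs => h1 A B L hA hB hL1 α β hα hβ hα1 hβ1 q d e f hdp hfp s hs)
  have a2 : (A * B * L) ^ (5 * η) ≤ 2 ^ (5 * η) * (A * B * H) ^ (25 * η) := by
    have : A * B * L ≤ 2 * (A * B * H) ^ (5 : ℝ) := by
      calc A * B * L ≤ (A * B * H) * (2 * (A * B * H) ^ 4) := by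
            refine mul_le_mul ?_ hLK (by linarith) (by linarith)
            exact le_mul_of_one_le_right hX0 hH
        _ = 2 * (A * B * H) ^ 5 := by ring
        _ = _ := by norm_cast
    calc (A * B * L) ^ (5 * η) ≤ (2 * (A * B * H) ^ (5 : ℝ)) ^ (5 * η) :=
          Real.rpow_le_rpow (by positivity) this (by positivity)
      _ = 2 ^ (5 * η) * (A * B * H) ^ (25 * η) := by
          rw [Real.mul_rpow (by norm_num) (by positivity), ← Real.rpow_mul hK0.le]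
          congr 2; ring
  have a3 : (tau (d * f) : ℝ) ≤ C2 * (A * B * H) ^ (2 * η) := by
    refine (h2 _ hgp.ne_zero).trans ?_
    have : (nm (d * f) : ℝ) ≤ (A * B * H) ^ (2 : ℝ) := by
      rw [nm_mul]; push_cast
      calc (nm d : ℝ) * nm f ≤ (A * B) * (A * B) := mul_le_mul hd'.1 hf'.1 (by positivity) hX0
        _ = (A * B * 1) ^ (2 : ℝ) := by norm_cast; ring
        _ ≤ (A * B * H) ^ (2 : ℝ) := by gcongr
    calc C2 * (nm (d * f) : ℝ) ^ η ≤ C2 * ((A * B * H) ^ (2 : ℝ)) ^ η := by gcongr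
      _ = _ := by rw [← Real.rpow_mul hK0.le]
  have a4 : ∑ u ∈ dvs (d * f), H / (nm e * nm f) * Bu A B L (d * f) u ≤
      (tau (d * f) : ℝ) * (3 * (A * B * H) ^ η / (nm d * nm f) * E4 H A B) := by
    have := Finset.sum_le_card_nsmul (dvs (d * f)) (fun u => H / (nm e * nm f) *
      Bu A B L (d * f) u) _ (fun u hu => Bu_le hA hB hH hη.le hdp hep hfp hu)
    rw [nsmul_eq_mul] at this
    exact this
  have hE40 : 0 ≤ E4 H A B := by unfold E4; positivity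
  have hd0 : (0 : ℝ) < nm d := by exact_mod_cast nm_pos.2 hdp.ne_zero
  have he0 : (0 : ℝ) < nm e := by exact_mod_cast nm_pos.2 hep.ne_zero
  have hf0 : (0 : ℝ) < nm f := by exact_mod_cast nm_pos.2 hfp.ne_zero
  set K := A * B * H with hKd
  calc H / (nm e * nm f) * DI η (sq q (conv α β)) (A * B) d e f L
      ≤ H / (nm e * nm f) * (Real.pi * (C1 * (A * B * L) ^ (5 * η) * (tau (d * f) : ℝ) *
        ∑ u ∈ dvs (d * f), Bu A B L (d * f) u)) := by gcongr
    _ = Real.pi * C1 * (A * B * L) ^ (5 * η) * (tau (d * f) : ℝ) *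
        ∑ u ∈ dvs (d * f), H / (nm e * nm f) * Bu A B L (d * f) u := by
          rw [← Finset.mul_sum]; ring
    _ ≤ Real.pi * C1 * (2 ^ (5 * η) * K ^ (25 * η)) * (C2 * K ^ (2 * η)) *
        ((C2 * K ^ (2 * η)) * (3 * K ^ η / (nm d * nm f) * E4 H A B)) := by
          refine mul_le_mul ?_ (a4.trans ?_) (Finset.sum_nonneg fun u _ =>
            mul_nonneg (by positivity) (hBu0 u)) (by positivity)
          · gcongr
          · gcongr
    _ = Real.pi * C1 * 2 ^ (5 * η) * C2 ^ 2 * 3 * (K ^ (25 * η) * K ^ (2 * η) * K ^ (2 * η) *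
        K ^ η) / (nm d * nm f) * E4 H A B := by ring
    _ = _ := by
          rw [← Real.rpow_add hK0, ← Real.rpow_add hK0, ← Real.rpow_add hK0]
          congr 4; ring

lemma supp_conv {A B : ℝ} (hA : 1 ≤ A) (hB : 1 ≤ B) {α β : Eis → ℂ}
    (hα : ∀ n, α n ≠ 0 → IsPrim n ∧ (nm n : ℝ) ≤ A)
    (hβ : ∀ n, β n ≠ 0 → IsPrim n ∧ (nm n : ℝ) ≤ B) (q : Eis) :
    Supp (sq q (conv α β)) (A * B) := by
  intro n hn
  have hX0 : 0 ≤ A * B := by positivity
  unfold TP320.sq at hn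
  split_ifs at hn with h
  · rw [mem_S hX0]
    refine ⟨?_, h.1, h.2.1⟩
    unfold TP320.conv at hn
    obtain ⟨d, hd, hne⟩ := Finset.exists_ne_zero_of_sum_ne_zero hn
    have h1 := hα d (left_ne_zero_of_mul hne)
    have h2 := hβ (n / d) (right_ne_zero_of_mul hne)
    have h3 : d * (n / d) = n := mul_div_of_mem hd
    rw [← h3, nm_mul]
    push_cast
    exact mul_le_mul h1.2 h2.2 (by positivity) (by positivity)
  · exact absurd rfl hn

lemma norm_sq_conv_le {α β : Eis → ℂ} (hα1 : ∀ n, ‖α n‖ ≤ 1) (hβ1 : ∀ n, ‖β n‖ ≤ 1) (q n : Eis) :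
    ‖sq q (conv α β) n‖ ≤ tau n := by
  unfold TP320.sq
  split_ifs with h
  · unfold TP320.conv
    refine (norm_sum_le _ _).trans ?_
    calc ∑ d ∈ dvs n, ‖α d * β (n / d)‖ ≤ ∑ d ∈ dvs n, (1 : ℝ) := by
          refine Finset.sum_le_sum fun d _ => ?_
          rw [norm_mul]
          have h1 := hα1 d
          have h2 := hβ1 (n / d)
          calc ‖α d‖ * ‖β (n / d)‖ ≤ 1 * 1 := by gcongr
            _ = 1 := one_mul 1
      _ = tau n := by simp [tau]
  · simp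

/-- **V2sf** -/
theorem v2sf (HB : HBall) (OS : OneStepE) : V2sf := by
  classical
  intro ε hε
  set η := min (ε / 40) (1 / 2) with hηd
  have hη : 0 < η := by positivity
  have hη2 : η ≤ 1 / 2 := min_le_right _ _
  have hη1 : η ≤ 1 := by linarith
  have hη40 : 40 * η ≤ ε := by
    have := min_le_left (ε / 40) (1 / 2 : ℝ)
    rw [← hηd] at this
    linarith
  obtain ⟨C0, hC0, h0⟩ := OS η η hη hη2 hη
  obtain ⟨C1, hC1, h1⟩ := term_le HB hη hη1
  obtain ⟨C2, hC2, h2⟩ := sumS_le hη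
  obtain ⟨C3, hC3, h3⟩ := tau_le_rpow hη
  refine ⟨Real.exp 1 * (C0 * (16 * C3 ^ 2) + C0 * (C1 * C3 * C2 ^ 2)), by positivity, ?_⟩
  intro A B H hA hB hH α β hα hβ hα1 hβ1 q
  have hX : 1 ≤ A * B := one_le_mul_of_one_le_of_one_le hA hB
  have hX0 : 0 ≤ A * B := by linarith
  have hXp : 0 < A * B := by linarith
  have hH0 : 0 < H := by linarith
  have hK : 1 ≤ A * B * H := one_le_mul_of_one_le_of_one_le hX hH
  have hK0 : 0 < A * B * H := by linarith
  have hXK : A * B ≤ A * B * H := le_mul_of_one_le_right hX0 hH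
  have hsupp := supp_conv hA hB hα hβ q
  set w := sq q (conv α β) with hw
  have b1 : VC H w ≤ Real.exp 1 * V (A * B) H w := by
    have := PG106.VC_le_VCe hX0 hH0 hsupp
    rwa [← PG106.V_eq_VCe hsupp] at this
  have b2 := h0 (A * B) H hX hH w hsupp
  have hE4 : H * (A * B) ≤ E4 H A B := by
    unfold E4
    have : 0 ≤ H ^ (1 / 3 : ℝ) * (A * B) ^ 2 + (A * B) ^ 2 * A +
      H ^ (2 / 3 : ℝ) * (A * B ^ (5 / 3 : ℝ)) := by positivity
    linarith
  have hE40 : 0 ≤ E4 H A B := (by positivity : 0 ≤ H * (A * B)).trans hE4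
  set K := A * B * H with hKd
  -- diagonal
  have b3 : H * ∑ h ∈ S (A * B), ‖w h‖ ^ 2 ≤ 16 * C3 ^ 2 * K ^ (2 * η) * E4 H A B := by
    have c1 : ∀ h ∈ S (A * B), ‖w h‖ ^ 2 ≤ (C3 * K ^ η) ^ 2 := by
      intro h hh
      have hh' := (mem_S hX0).1 hh
      have hh1 : (nm h : ℝ) ≤ K := hh'.1.trans hXK
      have := (norm_sq_conv_le hα1 hβ1 q h).trans (h3 h hh'.2.1.ne_zero)
      have c2 : ‖w h‖ ≤ C3 * K ^ η := this.trans (by gcongr)
      gcongr
    have c2 := Finset.sum_le_card_nsmul _ _ _ c1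
    rw [nsmul_eq_mul] at c2
    have c3 := card_S_le' hX
    calc H * ∑ h ∈ S (A * B), ‖w h‖ ^ 2 ≤ H * ((16 * (A * B)) * (C3 * K ^ η) ^ 2) := by
          gcongr
          exact c2.trans (by gcongr)
      _ = 16 * C3 ^ 2 * (K ^ η) ^ 2 * (H * (A * B)) := by ring
      _ ≤ 16 * C3 ^ 2 * (K ^ η) ^ 2 * E4 H A B := by gcongr
      _ = _ := by
          rw [← Real.rpow_natCast (K ^ η) 2, ← Real.rpow_mul hK0.le]
          congr 3; push_cast; ring
  -- the dual terms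
  have b4 : ∑ d ∈ S (A * B), ∑ e ∈ (S (A * B)).filter (· ∣ d), ∑ f ∈ S (A * B),
      H / (nm e * nm f) * DI η w (A * B) d e f (Lde (A * B) H η d e) ≤
      C1 * C3 * C2 ^ 2 * K ^ (37 * η) * E4 H A B := by
    have c1 : ∀ d ∈ S (A * B), ∀ e ∈ (S (A * B)).filter (· ∣ d), ∀ f ∈ S (A * B),
        H / (nm e * nm f) * DI η w (A * B) d e f (Lde (A * B) H η d e) ≤
        C1 * K ^ (30 * η) * E4 H A B * ((nm d : ℝ) ^ (2 * η - 1) * (nm f : ℝ) ^ (2 * η - 1)) := by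
      intro d hd e he f hf
      refine (h1 A B H hA hB hH α β hα hβ hα1 hβ1 q d e f hd (Finset.mem_filter.1 he).1 hf).trans ?_
      have hd1 : (1 : ℝ) ≤ nm d := by exact_mod_cast nm_pos.2 ((mem_S hX0).1 hd).2.1.ne_zero
      have hf1 : (1 : ℝ) ≤ nm f := by exact_mod_cast nm_pos.2 ((mem_S hX0).1 hf).2.1.ne_zero
      have e1 : ∀ x : ℝ, 1 ≤ x → x⁻¹ ≤ x ^ (2 * η - 1) := by
        intro x hx
        rw [← Real.rpow_neg_one]
        exact Real.rpow_le_rpow_of_exponent_le hx (by linarith)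
      have e2 := e1 _ hd1
      have e3 := e1 _ hf1
      calc C1 * K ^ (30 * η) / (nm d * nm f) * E4 H A B
          = C1 * K ^ (30 * η) * E4 H A B * ((nm d : ℝ)⁻¹ * (nm f : ℝ)⁻¹) := by
            field_simp
        _ ≤ _ := by gcongr
    have c2 : ∀ d ∈ S (A * B), (((S (A * B)).filter (· ∣ d)).card : ℝ) ≤ C3 * K ^ η := by
      intro d hd
      have hd' := (mem_S hX0).1 hd
      have : ((S (A * B)).filter (· ∣ d)).card ≤ tau d := by
        unfold tau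
        refine Finset.card_le_card fun e he => ?_
        rw [Finset.mem_filter] at he
        exact (mem_dvs hd'.2.1.ne_zero).2 ⟨((mem_S hX0).1 he.1).2.1, he.2⟩
      calc (((S (A * B)).filter (· ∣ d)).card : ℝ) ≤ tau d := by exact_mod_cast this
        _ ≤ C3 * (nm d : ℝ) ^ η := h3 d hd'.2.1.ne_zero
        _ ≤ C3 * K ^ η := by
          have := hd'.1.trans hXK
          gcongr
    have c3 := h2 (A * B) hX
    have c4 : (A * B) ^ (3 * η) ≤ K ^ (3 * η) := by gcongr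
    set W : ℝ := ∑ a ∈ S (A * B), (nm a : ℝ) ^ (2 * η - 1) with hW
    have hW0 : 0 ≤ W := Finset.sum_nonneg fun _ _ => by positivity
    calc ∑ d ∈ S (A * B), ∑ e ∈ (S (A * B)).filter (· ∣ d), ∑ f ∈ S (A * B),
        H / (nm e * nm f) * DI η w (A * B) d e f (Lde (A * B) H η d e)
        ≤ ∑ d ∈ S (A * B), ∑ e ∈ (S (A * B)).filter (· ∣ d), ∑ f ∈ S (A * B),
          C1 * K ^ (30 * η) * E4 H A B *
            ((nm d : ℝ) ^ (2 * η - 1) * (nm f : ℝ) ^ (2 * η - 1)) :=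
          Finset.sum_le_sum fun d hd => Finset.sum_le_sum fun e he =>
            Finset.sum_le_sum fun f hf => c1 d hd e he f hf
      _ = ∑ d ∈ S (A * B), (((S (A * B)).filter (· ∣ d)).card : ℝ) *
          (C1 * K ^ (30 * η) * E4 H A B * ((nm d : ℝ) ^ (2 * η - 1) * W)) := by
            refine Finset.sum_congr rfl fun d _ => ?_
            rw [Finset.sum_const, nsmul_eq_mul]
            congr 1
            rw [hW, Finset.mul_sum, Finset.mul_sum]
      _ ≤ ∑ d ∈ S (A * B), (C3 * K ^ η) *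
          (C1 * K ^ (30 * η) * E4 H A B * ((nm d : ℝ) ^ (2 * η - 1) * W)) := by
            refine Finset.sum_le_sum fun d hd => ?_
            exact mul_le_mul_of_nonneg_right (c2 d hd) (by positivity)
      _ = C1 * C3 * (K ^ η * K ^ (30 * η)) * E4 H A B * (W * W) := by
            rw [← Finset.mul_sum, ← Finset.mul_sum, ← Finset.sum_mul]
            ring
      _ ≤ C1 * C3 * (K ^ η * K ^ (30 * η)) * E4 H A B *
          ((C2 * K ^ (3 * η)) * (C2 * K ^ (3 * η))) := by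
            have : W ≤ C2 * K ^ (3 * η) := c3.trans (by gcongr)
            gcongr
      _ = C1 * C3 * C2 ^ 2 * (K ^ η * K ^ (30 * η) * K ^ (3 * η) * K ^ (3 * η)) * E4 H A B := by
            ring
      _ = _ := by
            rw [← Real.rpow_add hK0, ← Real.rpow_add hK0, ← Real.rpow_add hK0]
            congr 3; ring
  have b5 : K ^ (2 * η) ≤ K ^ ε := Real.rpow_le_rpow_of_exponent_le hK (by linarith)
  have b6 : (A * B) ^ (3 * η) * K ^ (37 * η) ≤ K ^ ε := by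
    calc (A * B) ^ (3 * η) * K ^ (37 * η) ≤ K ^ (3 * η) * K ^ (37 * η) := by gcongr
      _ = K ^ (40 * η) := by rw [← Real.rpow_add hK0]; congr 1; ring
      _ ≤ K ^ ε := Real.rpow_le_rpow_of_exponent_le hK hη40
  calc VC H w ≤ Real.exp 1 * V (A * B) H w := b1
    _ ≤ Real.exp 1 * (C0 * (H * ∑ h ∈ S (A * B), ‖w h‖ ^ 2) +
        C0 * (A * B) ^ (3 * η) * ∑ d ∈ S (A * B), ∑ e ∈ (S (A * B)).filter (· ∣ d),
          ∑ f ∈ S (A * B), H / (nm e * nm f) * DI η w (A * B) d e f (Lde (A * B) H η d e)) := by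
        refine mul_le_mul_of_nonneg_left (b2.trans (le_of_eq ?_)) (Real.exp_pos _).le
        rw [mul_assoc C0 H]
    _ ≤ Real.exp 1 * (C0 * (16 * C3 ^ 2 * K ^ (2 * η) * E4 H A B) +
        C0 * (A * B) ^ (3 * η) * (C1 * C3 * C2 ^ 2 * K ^ (37 * η) * E4 H A B)) := by
        have : 0 ≤ C0 := by linarith
        gcongr
    _ = Real.exp 1 * (C0 * (16 * C3 ^ 2) * K ^ (2 * η) +
        C0 * (C1 * C3 * C2 ^ 2) * ((A * B) ^ (3 * η) * K ^ (37 * η))) * E4 H A B := by ring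
    _ ≤ Real.exp 1 * (C0 * (16 * C3 ^ 2) * K ^ ε + C0 * (C1 * C3 * C2 ^ 2) * K ^ ε) *
        E4 H A B := by gcongr
    _ = _ := by ring

end Crest.Agent.R017.One319
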