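import Crest.Agent.R012.AbsUnfold_681
import Crest.Agent.R012.SlabVol_681
import Crest.Agent.R012.Quot_666

/-!
# Row 17, section A: orthogonality lemma, part A (helper681): `SL₂(Eis)` acting on frames and rows

* `SLE = SL₂(Eis)`, action on frames `Frm`, on rows (`rmulS`), principal congruence group `GN N`
* weights (`isWt_GN`), quotient measure `nuG N`
-/

set_option autoImplicit false

noncomputable section

open MeasureTheory Complex Set Filter
open scoped ENNReal ComplexConjugate Topology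

namespace Crest.Agent.R017.Orth681

open Crest.Agent.R012 Crest.Agent.R012.Eis Crest.Agent.R012.K695 Crest.Agent.R012.AU681
  Crest.Agent.R012.Parseval499

/-! ### The group and its action on frames -/

abbrev SLE : Type := Matrix.SpecialLinearGroup (Fin 2) Eis

lemma sdet (g : SLE) : g 0 0 * g 1 1 - g 0 1 * g 1 0 = 1 := by
  have := g.det_coe
  rwa [Matrix.det_fin_two] at this

lemma sext {g h : SLE} (h1 : g 0 0 = h 0 0) (h2 : g 0 1 = h 0 1) (h3 : g 1 0 = h 1 0)
    (h4 : g 1 1 = h 1 1) : g = h := by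
  apply Matrix.SpecialLinearGroup.ext
  intro i j
  fin_cases i <;> fin_cases j <;> assumption

instance : Countable SLE := by
  have : Function.Injective (fun g : SLE => (g 0 0, g 0 1, g 1 0, g 1 1)) := by
    intro g h e
    simp only [Prod.mk.injEq] at e
    exact sext e.1 e.2.1 e.2.2.1 e.2.2.2
  exact this.countable

/-- action on frames. -/
def sact (g : SLE) (M : K695.Frm) : K695.Frm :=
  mact (toC (g 0 0)) (toC (g 0 1)) (toC (g 1 0)) (toC (g 1 1)) M

lemma sact_def (g : SLE) (M : K695.Frm) : sact g M =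
    (toC (g 0 0) • M.1 + toC (g 0 1) • M.2, toC (g 1 0) • M.1 + toC (g 1 1) • M.2) := rfl

lemma sact_one (M : K695.Frm) : sact 1 M = M := by
  simp [sact, mact]

lemma sact_mul (g h : SLE) (M : K695.Frm) : sact (g * h) M = sact g (sact h M) := by
  unfold sact
  rw [mact_mact]
  simp only [Matrix.SpecialLinearGroup.coe_mul, Matrix.mul_apply, Fin.sum_univ_two, map_add,
    map_mul]

instance instAct : MulAction SLE K695.Frm where
  smul := sact
  one_smul := sact_one
  mul_smul := sact_mul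

lemma smul_def (g : SLE) (M : K695.Frm) : g • M =
    (toC (g 0 0) • M.1 + toC (g 0 1) • M.2, toC (g 1 0) • M.1 + toC (g 1 1) • M.2) := rfl

lemma smul_fst (g : SLE) (M : K695.Frm) : (g • M).1 = rowv (g 0 0, g 0 1) M := rfl

lemma smul_snd (g : SLE) (M : K695.Frm) : (g • M).2 = rowv (g 1 0, g 1 1) M := rfl

@[simp] lemma det2_smul (g : SLE) (M : K695.Frm) : det2 (g • M) = det2 M := by
  change det2 (sact g M) = _
  unfold sact
  rw [det2_mact, ← map_mul, ← map_mul, ← map_sub, sdet, map_one, one_mul]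

lemma continuous_smulS (g : SLE) : Continuous (fun M : K695.Frm => g • M) := continuous_mact _ _ _ _

instance instMeas : MeasurableConstSMul SLE K695.Frm where
  measurable_const_smul g := (continuous_smulS g).measurable

lemma mp_smul (g : SLE) :
    MeasurePreserving (fun M : K695.Frm => g • M) (volume : Measure K695.Frm) volume := by
  have hdet : toC (g 0 0) * toC (g 1 1) - toC (g 0 1) * toC (g 1 0) = 1 := by
    rw [← map_mul, ← map_mul, ← map_sub, sdet, map_one]
  exact mp_mact (volume : Measure Vec) hdet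

instance instInv : SMulInvariantMeasure SLE K695.Frm volume where
  measure_preimage_smul g _ hs := (mp_smul g).measure_preimage hs.nullMeasurableSet

/-! ### Rows -/

/-- row times matrix. -/
def rmulS (r : Eis × Eis) (g : SLE) : Eis × Eis :=
  (r.1 * g 0 0 + r.2 * g 1 0, r.1 * g 0 1 + r.2 * g 1 1)

lemma rmulS_one (r : Eis × Eis) : rmulS r 1 = r := by
  simp [rmulS]

lemma rmulS_mul (r : Eis × Eis) (g h : SLE) : rmulS r (g * h) = rmulS (rmulS r g) h := by
  unfold rmulS
  simp only [Matrix.SpecialLinearGroup.coe_mul, Matrix.mul_apply, Fin.sum_univ_two]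
  ext1 <;> simp only <;> ring

lemma rowv_smul (r : Eis × Eis) (g : SLE) (M : K695.Frm) : rowv r (g • M) = rowv (rmulS r g) M := by
  simp only [rowv, smul_def, rmulS, map_add, map_mul, smul_add, add_smul, mul_smul]
  abel

lemma cop_rmulS {r : Eis × Eis} (h : IsCoprime r.1 r.2) (g : SLE) :
    IsCoprime (rmulS r g).1 (rmulS r g).2 := by
  obtain ⟨p, q, hpq⟩ := h
  have hd := sdet g
  refine ⟨p * g 1 1 - q * g 0 1, q * g 0 0 - p * g 1 0, ?_⟩
  simp only [rmulS]
  linear_combination hpq + (p * r.1 + q * r.2) * hd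

/-- coprime rows. -/
abbrev CR : Type := {r : Eis × Eis // IsCoprime r.1 r.2}

/-- bottom row. -/
def br (g : SLE) : Eis × Eis := (g 1 0, g 1 1)

/-- top row. -/
def tp (g : SLE) : Eis × Eis := (g 0 0, g 0 1)

lemma br_mul (g h : SLE) : br (g * h) = rmulS (br g) h := by
  unfold br rmulS
  simp only [Matrix.SpecialLinearGroup.coe_mul, Matrix.mul_apply, Fin.sum_univ_two]

lemma tp_mul (g h : SLE) : tp (g * h) = rmulS (tp g) h := by
  unfold tp rmulS
  simp only [Matrix.SpecialLinearGroup.coe_mul, Matrix.mul_apply, Fin.sum_univ_two]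

lemma cop_br (g : SLE) : IsCoprime (br g).1 (br g).2 :=
  ⟨-g 0 1, g 0 0, by simp only [br]; linear_combination sdet g⟩

/-- the matrix `(a b; c d)`. -/
def mk2 (a b c d : Eis) (h : a * d - b * c = 1) : SLE :=
  ⟨!![a, b; c, d], by rw [Matrix.det_fin_two_of]; exact h⟩

@[simp] lemma mk2_00 (a b c d : Eis) (h) : mk2 a b c d h 0 0 = a := rfl
@[simp] lemma mk2_01 (a b c d : Eis) (h) : mk2 a b c d h 0 1 = b := rfl
@[simp] lemma mk2_10 (a b c d : Eis) (h) : mk2 a b c d h 1 0 = c := rfl
@[simp] lemma mk2_11 (a b c d : Eis) (h) : mk2 a b c d h 1 1 = d := rfl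

lemma exists_br {r : Eis × Eis} (h : IsCoprime r.1 r.2) : ∃ g : SLE, br g = r := by
  obtain ⟨p, q, hpq⟩ := h
  exact ⟨mk2 q (-p) r.1 r.2 (by linear_combination hpq), rfl⟩

/-- upper unipotent. -/
def up (x : Eis) : SLE := mk2 1 x 0 1 (by ring)

lemma up_smul (x : Eis) (M : K695.Frm) : up x • M = (M.1 + toC x • M.2, M.2) := by
  rw [smul_def]
  simp [up]

lemma up_mul (x y : Eis) : up x * up y = up (x + y) := by
  apply sext <;> simp [up, Matrix.SpecialLinearGroup.coe_mul, Matrix.mul_apply, Fin.sum_univ_two,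
    add_comm]

lemma up_zero : up 0 = 1 := by
  apply sext <;> simp [up]

lemma up_inv (x : Eis) : (up x)⁻¹ = up (-x) := by
  rw [inv_eq_iff_mul_eq_one, up_mul, add_neg_cancel, up_zero]

lemma br_up_mul (x : Eis) (g : SLE) : br (up x * g) = br g := by
  rw [br_mul]
  simp [rmulS, up, br]


/-! ### The principal congruence group -/

/-- reduction mod `N`. -/
def redN (N : Eis) : SLE →* Matrix.SpecialLinearGroup (Fin 2) (Eis ⧸ Ideal.span {N}) :=
  Matrix.SpecialLinearGroup.map (Ideal.Quotient.mk (Ideal.span {N}))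

/-- `Γ(N)`. -/
def GN (N : Eis) : Subgroup SLE := (redN N).ker

lemma mem_GN {N : Eis} {g : SLE} : g ∈ GN N ↔
    N ∣ g 0 0 - 1 ∧ N ∣ g 0 1 ∧ N ∣ g 1 0 ∧ N ∣ g 1 1 - 1 := by
  unfold GN
  rw [MonoidHom.mem_ker]
  have e : ∀ x y : Eis, (Ideal.Quotient.mk (Ideal.span {N})) x = (Ideal.Quotient.mk (Ideal.span {N})) y ↔
      N ∣ x - y := by
    intro x y
    rw [Ideal.Quotient.eq, Ideal.mem_span_singleton]
  have e0 : ∀ x : Eis, (Ideal.Quotient.mk (Ideal.span {N})) x = 0 ↔ N ∣ x := by
    intro x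
    rw [Ideal.Quotient.eq_zero_iff_mem, Ideal.mem_span_singleton]
  have e1 : ∀ x : Eis, (Ideal.Quotient.mk (Ideal.span {N})) x = 1 ↔ N ∣ x - 1 := by
    intro x
    rw [← map_one (Ideal.Quotient.mk (Ideal.span {N})), e]
  constructor
  · intro h
    have h' : ∀ i j, (redN N g) i j = (1 : Matrix.SpecialLinearGroup (Fin 2) (Eis ⧸ Ideal.span {N})) i j := by
      intro i j; rw [h]
    refine ⟨(e1 _).mp ?_, (e0 _).mp ?_, (e0 _).mp ?_, (e1 _).mp ?_⟩
    · simpa [redN] using h' 0 0
    · simpa [redN] using h' 0 1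
    · simpa [redN] using h' 1 0
    · simpa [redN] using h' 1 1
  · rintro ⟨h1, h2, h3, h4⟩
    apply Matrix.SpecialLinearGroup.ext
    intro i j
    fin_cases i <;> fin_cases j
    · simpa [redN] using (e1 _).mpr h1
    · simpa [redN] using (e0 _).mpr h2
    · simpa [redN] using (e0 _).mpr h3
    · simpa [redN] using (e1 _).mpr h4

lemma up_mem_conj {N : Eis} (g : SLE) (t : Eis) : g⁻¹ * up (N * t) * g ∈ GN N := by
  have : up (N * t) ∈ GN N := by
    rw [mem_GN]
    simp [up]
  have hn : (GN N).Normal := (redN N).normal_ker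
  simpa using hn.conj_mem _ this g⁻¹

/-- elements of `Γ(N)` fixing a row are unipotent. -/
lemma eq_conj_up {N : Eis} {g : SLE} {h : SLE} (hh : h ∈ GN N) (hr : rmulS (br g) h = br g) :
    ∃ t, h = g⁻¹ * up (N * t) * g := by
  -- `k = g h g⁻¹` has bottom row `(0,1)`
  set k := g * h * g⁻¹ with hk
  have hn : (GN N).Normal := (redN N).normal_ker
  have hkN : k ∈ GN N := hn.conj_mem _ hh g
  have hb : br k = (0, 1) := by
    rw [hk, br_mul, br_mul, hr, ← br_mul, mul_inv_cancel]
    simp [br]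
  have h10 : k 1 0 = 0 := congrArg Prod.fst hb
  have h11 : k 1 1 = 1 := congrArg Prod.snd hb
  obtain ⟨t, ht⟩ := (mem_GN.mp hkN).2.1
  have h00 : k 0 0 = 1 := by
    have := sdet k
    rw [h10, h11] at this
    simpa using this
  refine ⟨t, ?_⟩
  have hke : k = up (N * t) := by
    apply sext
    · rw [h00]; rfl
    · rw [ht]; rfl
    · rw [h10]; rfl
    · rw [h11]; rfl
  rw [← hke, hk]
  group

lemma finite_quot {N : Eis} (hN : N ≠ 0) : Finite (Eis ⧸ Ideal.span {N}) := by
  have h := isCRS_crs hN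
  refine Finite.of_surjective (fun s : (crs N) => (Ideal.Quotient.mk (Ideal.span {N})) s.1) ?_
  intro q
  obtain ⟨x, rfl⟩ := Ideal.Quotient.mk_surjective q
  obtain ⟨s, ⟨hs, hd⟩, -⟩ := h x
  refine ⟨⟨s, hs⟩, ?_⟩
  simp only
  rw [Ideal.Quotient.eq, Ideal.mem_span_singleton]
  have : s - x = -(x - s) := by ring
  rw [this, dvd_neg]
  exact hd

lemma finiteIndex_GN {N : Eis} (hN : N ≠ 0) : (GN N).FiniteIndex := by
  have := finite_quot hN
  have : Finite (Matrix.SpecialLinearGroup (Fin 2) (Eis ⧸ Ideal.span {N})) := by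
    have : Finite (Matrix (Fin 2) (Fin 2) (Eis ⧸ Ideal.span {N})) := inferInstance
    exact Finite.of_injective (fun g : Matrix.SpecialLinearGroup (Fin 2) (Eis ⧸ Ideal.span {N}) =>
      (g : Matrix (Fin 2) (Fin 2) (Eis ⧸ Ideal.span {N}))) Subtype.coe_injective
  exact Subgroup.finiteIndex_ker _

/-! ### Weights -/

/-- the weight function. -/
def w0 (M : K695.Frm) : ℝ≥0∞ := gw M.1 * gw M.2

lemma measurable_w0 : Measurable w0 :=
  (measurable_gw.comp measurable_fst).mul (measurable_gw.comp measurable_snd)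

lemma w0_pos (M : K695.Frm) : w0 M ≠ 0 := by
  unfold w0 gw
  simp [ENNReal.ofReal_eq_zero, not_le, Real.exp_pos]

lemma tsum_gw_ne_top {M : K695.Frm} (hM : det2 M ≠ 0) :
    ∑' r : Eis × Eis, gw (rowv r M) ≠ ∞ := by
  unfold gw
  rw [← ENNReal.ofReal_tsum_of_nonneg (fun _ => (Real.exp_pos _).le) (summable_gauss_rowv hM)]
  exact ENNReal.ofReal_ne_top

lemma tsum_w0_ne_top {M : K695.Frm} (hM : det2 M ≠ 0) : ∑' g : SLE, w0 (g • M) ≠ ∞ := by
  have hinj : Function.Injective (fun g : SLE => (tp g, br g)) := by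
    intro g h e
    simp only [tp, br, Prod.mk.injEq] at e
    exact sext e.1.1 e.1.2 e.2.1 e.2.2
  have e1 := ENNReal.tsum_comp_le_tsum_of_injective hinj
    (fun q : (Eis × Eis) × (Eis × Eis) => gw (rowv q.1 M) * gw (rowv q.2 M))
  refine ne_top_of_le_ne_top ?_ e1
  rw [ENNReal.tsum_prod']
  simp_rw [ENNReal.tsum_mul_left, ENNReal.tsum_mul_right]
  exact ENNReal.mul_ne_top (tsum_gw_ne_top hM) (tsum_gw_ne_top hM)

theorem isWt_sub (G : Subgroup SLE) : IsWt G (volume : Measure K695.Frm) (wtOf G w0) := by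
  apply IsWt.ofPos measurable_w0
  · filter_upwards with M
    intro h
    rw [ENNReal.tsum_eq_zero] at h
    have := h 1
    rw [one_smul] at this
    exact w0_pos M this
  · filter_upwards [ae_det_ne] with M hM
    refine ne_top_of_le_ne_top (tsum_w0_ne_top hM) ?_
    exact ENNReal.tsum_comp_le_tsum_of_injective (f := fun g : G => (g : SLE))
      Subtype.coe_injective (fun g : SLE => w0 (g • M))

/-- the quotient measure of `G`. -/
def nuS (G : Subgroup SLE) : Measure K695.Frm := nuM volume (wtOf G w0)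

lemma nuS_ac (G : Subgroup SLE) : nuS G ≪ (volume : Measure K695.Frm) :=
  withDensity_absolutelyContinuous _ _

end Crest.Agent.R017.Orth681
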