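import Crest.Agent.R017.OrthA_681

/-!
# Row 17, section A: orthogonality lemma, part B (helper681): unfolding a sum over coprime rows
-/

set_option autoImplicit false

noncomputable section

open MeasureTheory Complex Set Filter
open scoped ENNReal ComplexConjugate Topology

namespace Crest.Agent.R017.Orth681

open Crest.Agent.R012 Crest.Agent.R012.Eis Crest.Agent.R012.K695 Crest.Agent.R012.AU681
  Crest.Agent.R012.Parseval499

/-- a matrix with given bottom row. -/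
def sg (r : CR) : SLE := (exists_br r.2).choose

@[simp] lemma br_sg (r : CR) : br (sg r) = r.1 := (exists_br r.2).choose_spec

/-- the slab attached to a matrix. -/
def Sl (N : Eis) (g : SLE) : Set K695.Frm := {M | zc (g • M) ∈ par (toC N)}

lemma measurableSet_Sl {N : Eis} (hN : N ≠ 0) (g : SLE) : MeasurableSet (Sl N g) := by
  have ha : toC N ≠ 0 := by rwa [Ne, toC_eq_zero]
  exact (measurable_zc.comp (measurable_const_smul g)) (measurableSet_par ha)

/-- `Γ(N)` acts on the coprime rows by `g • r = r g⁻¹`. -/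
@[instance_reducible] def rowAct (N : Eis) : MulAction (GN N) CR where
  smul g r := ⟨rmulS r.1 (g : SLE)⁻¹, cop_rmulS r.2 _⟩
  one_smul r := Subtype.ext (by
    change rmulS r.1 (((1 : GN N) : SLE))⁻¹ = r.1
    simp [rmulS_one])
  mul_smul g h r := Subtype.ext (by
    change rmulS r.1 (((g * h : GN N)) : SLE)⁻¹ = rmulS (rmulS r.1 (h : SLE)⁻¹) (g : SLE)⁻¹
    rw [← rmulS_mul]
    congr 1
    simp [mul_inv_rev])

attribute [local instance] rowAct

lemma rowSmul_val {N : Eis} (g : GN N) (r : CR) : (g • r).1 = rmulS r.1 (g : SLE)⁻¹ := rfl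

/-- the row attached to a group element. -/
def rowOf {N : Eis} (r0 : CR) (g : GN N) : MulAction.orbit (GN N) r0 :=
  ⟨g⁻¹ • r0, MulAction.mem_orbit _ _⟩

lemma rowOf_val {N : Eis} (r0 : CR) (g : GN N) : (rowOf r0 g).1.1 = rmulS r0.1 (g : SLE) := by
  unfold rowOf
  rw [rowSmul_val]
  simp

/-- uniqueness of the representative in the slab. -/
theorem slab_unique {N : Eis} (hN : N ≠ 0) (r0 : CR) {M : K695.Frm} (hM : det2 M ≠ 0)
    (r : MulAction.orbit (GN N) r0) :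
    ∃! g : GN N, rowOf r0 g = r ∧ g • M ∈ Sl N (sg r0) := by
  have ha : toC N ≠ 0 := by rwa [Ne, toC_eq_zero]
  obtain ⟨g1, hg1⟩ := r.2
  set g2 : GN N := g1⁻¹ with hg2
  have hr2 : rowOf r0 g2 = r := by
    apply Subtype.ext
    rw [← hg1, hg2]
    simp [rowOf]
  set σ := sg r0 with hσ
  -- the translate
  have hne : (σ • (g2 : SLE) • M).2 ≠ 0 := by
    apply snd_ne_zero_of_det
    rwa [det2_smul, det2_smul]
  set z := zc (σ • (g2 : SLE) • M) with hz
  obtain ⟨t, ht, htu⟩ := existsUnique_mem_par ha z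
  have key : ∀ s : Eis, zc (σ • (σ⁻¹ * up (N * s) * σ * (g2 : SLE)) • M) = z + toC N * toC s := by
    intro s
    have e : σ • (σ⁻¹ * up (N * s) * σ * (g2 : SLE)) • M = up (N * s) • σ • (g2 : SLE) • M := by
      simp only [← mul_smul]
      congr 1
      group
    rw [e, up_smul, zc_add_smul _ _ hne, map_mul]
  refine ⟨⟨σ⁻¹ * up (N * (-t)) * σ * (g2 : SLE), (GN N).mul_mem (up_mem_conj σ (-t)) g2.2⟩, ⟨?_, ?_⟩, ?_⟩
  · rw [← hr2]
    apply Subtype.ext
    apply Subtype.ext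
    rw [rowOf_val, rowOf_val]
    simp only
    rw [rmulS_mul]
    congr 1
    have hb : r0.1 = br σ := (br_sg r0).symm
    rw [hb, ← br_mul, show σ * (σ⁻¹ * up (N * (-t)) * σ) = up (N * (-t)) * σ by group, br_up_mul]
  · change zc (σ • (σ⁻¹ * up (N * (-t)) * σ * (g2 : SLE)) • M) ∈ par (toC N)
    rw [key, map_neg, mul_neg, ← sub_eq_add_neg]
    exact ht
  · rintro h ⟨hh1, hh2⟩
    -- `h g2⁻¹` fixes `r0`
    have hfix : rmulS (br σ) ((h * g2⁻¹ : GN N) : SLE) = br σ := by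
      have e1 : rmulS r0.1 (h : SLE) = rmulS r0.1 (g2 : SLE) := by
        rw [← rowOf_val, ← rowOf_val, hh1, hr2]
      have hb : r0.1 = br σ := (br_sg r0).symm
      rw [← hb]
      have : ((h * g2⁻¹ : GN N) : SLE) = (h : SLE) * (g2 : SLE)⁻¹ := by simp
      rw [this, rmulS_mul, e1, ← rmulS_mul, mul_inv_cancel, rmulS_one]
    obtain ⟨s, hs⟩ := eq_conj_up (h * g2⁻¹ : GN N).2 hfix
    have hh : (h : SLE) = σ⁻¹ * up (N * s) * σ * (g2 : SLE) := by
      rw [← hs]
      simp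
    have h3 : z - toC N * toC (-s) ∈ par (toC N) := by
      have h4 : zc (σ • (h : SLE) • M) ∈ par (toC N) := hh2
      rw [hh, key] at h4
      rwa [map_neg, mul_neg, sub_neg_eq_add]
    have h5 := htu (-s) h3
    apply Subtype.ext
    simp only
    rw [hh, ← h5, neg_neg]

/-- Sum over an orbit = sum over the group. -/
lemma tsum_orbit {A : Type*} [AddCommMonoid A] [TopologicalSpace A] {N : Eis} (hN : N ≠ 0)
    (r0 : CR) {M : K695.Frm} (hM : det2 M ≠ 0) (Ψ : K695.Frm → Eis × Eis → A)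
    (hinv : ∀ (g : GN N) (M : K695.Frm) (r : CR), Ψ (g • M) r.1 = Ψ M (rmulS r.1 g)) :
    ∑' g : GN N, (Sl N (sg r0)).indicator (fun M => Ψ M r0.1) (g • M) =
      ∑' r : MulAction.orbit (GN N) r0, Ψ M r.1.1 := by
  rw [← tsum_rows (slab_unique hN r0 hM) (fun g : GN N => Ψ (g • M) r0.1)
    (fun r => Ψ M r.1.1) (fun g _ => by rw [hinv, rowOf_val])]
  congr 1

/-- **Unfolding**: the integral of a sum over coprime rows vanishes if all slab integrals do. -/
theorem unfold_zero {N : Eis} (hN : N ≠ 0) {Ψ : K695.Frm → Eis × Eis → ℂ}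
    (hm : ∀ r : CR, Measurable (fun M => Ψ M r.1))
    (hinv : ∀ (g : GN N) (M : K695.Frm) (r : CR), Ψ (g • M) r.1 = Ψ M (rmulS r.1 g))
    (hint : ∫⁻ M, ∑' r : CR, ‖Ψ M r.1‖ₑ ∂(nuS (GN N)) ≠ ∞)
    (h0 : ∀ r : CR, ∫ M in Sl N (sg r), Ψ M r.1 = 0) :
    ∫ M, ∑' r : CR, Ψ M r.1 ∂(nuS (GN N)) = 0 := by
  classical
  set ν := nuS (GN N) with hν
  have hwt := isWt_sub (GN N)
  have hdet : ∀ᵐ M ∂ν, det2 M ≠ 0 := (nuS_ac (GN N)).ae_le ae_det_ne
  let Ω := MulAction.orbitRel.Quotient (GN N) CR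
  let e : CR ≃ Σ ω : Ω, MulAction.orbit (GN N) ω.out := MulAction.selfEquivSigmaOrbits (GN N) CR
  have he : ∀ (ω : Ω) (r : MulAction.orbit (GN N) ω.out), e.symm ⟨ω, r⟩ = r.1 := by
    intro ω r
    rfl
  have : Countable Ω := Quotient.countable
  let ψ : Ω → K695.Frm → ℂ := fun ω => (Sl N (sg ω.out)).indicator (fun M => Ψ M ω.out.1)
  have hψm : ∀ ω, Measurable (ψ ω) := fun ω => (hm ω.out).indicator (measurableSet_Sl hN _)
  let f : Ω → K695.Frm → ℂ := fun ω M => ∑' g : GN N, ψ ω (g • M)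
  -- ENNReal sums
  have hEsum : ∀ M, ∑' r : CR, ‖Ψ M r.1‖ₑ =
      ∑' ω : Ω, ∑' r : MulAction.orbit (GN N) ω.out, ‖Ψ M r.1.1‖ₑ := by
    intro M
    rw [← e.symm.tsum_eq, ENNReal.tsum_sigma']
    rfl
  have hEorb : ∀ (ω : Ω) M, det2 M ≠ 0 → ∑' g : GN N, ‖ψ ω (g • M)‖ₑ =
      ∑' r : MulAction.orbit (GN N) ω.out, ‖Ψ M r.1.1‖ₑ := by
    intro ω M hM
    rw [← tsum_orbit hN ω.out hM (fun M r => ‖Ψ M r‖ₑ) (fun g M r => by rw [hinv])]
    refine tsum_congr fun g => ?_
    exact enorm_indicator_eq_indicator_enorm _ _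
  have hmorb : ∀ ω : Ω, Measurable (fun M => ∑' r : MulAction.orbit (GN N) ω.out, ‖Ψ M r.1.1‖ₑ) :=
    fun ω => Measurable.tsum fun r => (hm r.1).enorm
  have htot : ∑' ω : Ω, ∫⁻ M, ∑' r : MulAction.orbit (GN N) ω.out, ‖Ψ M r.1.1‖ₑ ∂ν ≠ ∞ := by
    rw [← lintegral_tsum (fun ω => (hmorb ω).aemeasurable)]
    simp_rw [← hEsum]
    exact hint
  have hψi : ∀ ω : Ω, Integrable (ψ ω) volume := by
    intro ω
    refine ⟨(hψm ω).aestronglyMeasurable, ?_⟩
    change ∫⁻ M, ‖ψ ω M‖ₑ < ∞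
    rw [← lintegral_enorm_unfold hwt (hψm ω).aestronglyMeasurable]
    refine lt_of_le_of_lt (le_of_eq ?_) (ENNReal.ne_top_of_tsum_ne_top htot ω).lt_top
    apply lintegral_congr_ae
    filter_upwards [hdet] with M hM
    exact hEorb ω M hM
  have hfi : ∀ ω : Ω, Integrable (f ω) ν := fun ω => integrable_unfold hwt (hψi ω)
  have hf0 : ∀ ω : Ω, ∫ M, f ω M ∂ν = 0 := by
    intro ω
    have h1 := integral_unfold hwt (hψi ω)
    change ∫ M, f ω M ∂ν = _ at h1
    rw [h1]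
    change ∫ M, (Sl N (sg ω.out)).indicator (fun M => Ψ M ω.out.1) M = 0
    rw [integral_indicator (measurableSet_Sl hN _)]
    exact h0 ω.out
  have hsum : ∀ᵐ M ∂ν, ∑' r : CR, Ψ M r.1 = ∑' ω : Ω, f ω M := by
    have hmeas : AEMeasurable (fun M => ∑' r : CR, ‖Ψ M r.1‖ₑ) ν :=
      (Measurable.tsum fun r => (hm r).enorm).aemeasurable
    filter_upwards [hdet, ae_lt_top' hmeas hint] with M hM hfin
    have hs : Summable (fun r : CR => Ψ M r.1) := by
      have h3 : ∑' r : CR, ((‖Ψ M r.1‖₊ : NNReal) : ℝ≥0∞) ≠ ∞ := hfin.ne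
      exact (ENNReal.tsum_coe_ne_top_iff_summable_coe.mp h3).of_norm
    have hs' : Summable (fun p : Σ ω : Ω, MulAction.orbit (GN N) ω.out => Ψ M (e.symm p).1) :=
      (e.symm.summable_iff (f := fun r : CR => Ψ M r.1)).mpr hs
    rw [← e.symm.tsum_eq (fun r : CR => Ψ M r.1), hs'.tsum_sigma]
    refine tsum_congr fun ω => ?_
    change _ = ∑' g : GN N, (Sl N (sg ω.out)).indicator (fun M => Ψ M ω.out.1) (g • M)
    rw [tsum_orbit hN ω.out hM Ψ hinv]
    rfl
  rw [integral_congr_ae hsum, integral_tsum (fun ω => (hfi ω).aestronglyMeasurable)]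
  · simp [hf0]
  · refine ne_top_of_le_ne_top htot (ENNReal.tsum_le_tsum fun ω => ?_)
    apply lintegral_mono_ae
    filter_upwards [hdet] with M hM
    rw [← hEorb ω M hM]
    exact enorm_tsum_le_tsum_enorm

/-- the set of `Γ(N)`-orbits of coprime rows. -/
abbrev Om (N : Eis) : Type := MulAction.orbitRel.Quotient (GN N) CR

instance (N : Eis) : Countable (Om N) := Quotient.countable

/-- **Unfolding**, nonnegative version. -/
theorem unfold_lint {N : Eis} (hN : N ≠ 0) {Φ : K695.Frm → Eis × Eis → ℝ≥0∞}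
    (hm : ∀ r : CR, Measurable (fun M => Φ M r.1))
    (hinv : ∀ (g : GN N) (M : K695.Frm) (r : CR), Φ (g • M) r.1 = Φ M (rmulS r.1 g)) :
    ∫⁻ M, ∑' r : CR, Φ M r.1 ∂(nuS (GN N)) =
      ∑' ω : Om N, ∫⁻ M in Sl N (sg ω.out), Φ M ω.out.1 := by
  classical
  set ν := nuS (GN N) with hν
  have hwt := isWt_sub (GN N)
  have hdet : ∀ᵐ M ∂ν, det2 M ≠ 0 := (nuS_ac (GN N)).ae_le ae_det_ne
  let e : CR ≃ Σ ω : Om N, MulAction.orbit (GN N) ω.out := MulAction.selfEquivSigmaOrbits (GN N) CR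
  let ψ : Om N → K695.Frm → ℝ≥0∞ := fun ω => (Sl N (sg ω.out)).indicator (fun M => Φ M ω.out.1)
  have hψm : ∀ ω, Measurable (ψ ω) := fun ω => (hm ω.out).indicator (measurableSet_Sl hN _)
  have hEsum : ∀ M, ∑' r : CR, Φ M r.1 =
      ∑' ω : Om N, ∑' r : MulAction.orbit (GN N) ω.out, Φ M r.1.1 := by
    intro M
    rw [← e.symm.tsum_eq, ENNReal.tsum_sigma']
    rfl
  have hmorb : ∀ ω : Om N, Measurable (fun M => ∑' r : MulAction.orbit (GN N) ω.out, Φ M r.1.1) :=
    fun ω => Measurable.tsum fun r => hm r.1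
  simp_rw [hEsum]
  rw [lintegral_tsum (fun ω => (hmorb ω).aemeasurable)]
  refine tsum_congr fun ω => ?_
  rw [← lintegral_indicator (measurableSet_Sl hN _)]
  rw [← lintegral_unfold hwt (hψm ω)]
  apply lintegral_congr_ae
  filter_upwards [hdet] with M hM
  exact (tsum_orbit hN ω.out hM Φ hinv).symm

/-- There are finitely many orbits. -/
theorem finite_Om {N : Eis} (hN : N ≠ 0) : Finite (Om N) := by
  have := finiteIndex_GN hN
  have hfin : Finite (SLE ⧸ GN N) := Subgroup.finite_quotient_of_finiteIndex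
  let F : SLE → Om N := fun g => Quotient.mk'' ⟨br g, cop_br g⟩
  have hF : ∀ a b : SLE, (QuotientGroup.leftRel (GN N)) a b → F a = F b := by
    intro a b hab
    rw [QuotientGroup.leftRel_apply] at hab
    apply Quotient.sound'
    change MulAction.orbitRel (GN N) CR _ _
    rw [MulAction.orbitRel_apply]
    refine ⟨⟨a⁻¹ * b, hab⟩, ?_⟩
    apply Subtype.ext
    change rmulS (br b) (a⁻¹ * b)⁻¹ = br a
    rw [← br_mul]
    congr 1
    group
  refine Finite.of_surjective (Quotient.lift F hF) ?_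
  intro ω
  induction ω using Quotient.inductionOn' with
  | h r =>
    obtain ⟨g, hg⟩ := exists_br r.2
    refine ⟨Quotient.mk'' g, ?_⟩
    change F g = _
    change (Quotient.mk'' ⟨br g, cop_br g⟩ : Om N) = _
    congr 1
    exact Subtype.ext hg

end Crest.Agent.R017.Orth681
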