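import Crest.Agent.R017.OrthB_681
import Crest.Agent.R012.PoissonG_381
import Crest.Agent.R012.GramA_858

/-!
# Row 17, section A: orthogonality lemma, part C (helper681): Fubini on the slab, tiling, Gram bound
-/

set_option autoImplicit false

noncomputable section

open MeasureTheory Complex Set Filter
open scoped ENNReal ComplexConjugate Topology

namespace Crest.Agent.R017.Orth681

open Crest.Agent.R012 Crest.Agent.R012.Eis Crest.Agent.R012.K695 Crest.Agent.R012.AU681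
  Crest.Agent.R012.Parseval499

/-! ### Fubini on the slab -/

/-- the constant term of `D` along the bottom row of `g`, at the frame `M = g • (η, ζ)`. -/
def CT (N : Eis) (g : SLE) (D : K695.Frm → ℂ) (M : K695.Frm) : ℂ :=
  ∫ x in par (toC N), D (g⁻¹ • ((M.1 + x • M.2, M.2) : K695.Frm))

lemma pz_add (ζ : Vec) (z δ : ℂ) : pz ζ (z, δ) = pz ζ (0, δ) + z • ζ := by
  unfold pz mact
  ext1 <;> simp <;> ring

/-- the standard slab -/
def Sl0 (N : Eis) : Set K695.Frm := {M | zc M ∈ par (toC N)}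

lemma measurableSet_Sl0 {N : Eis} (hN : N ≠ 0) : MeasurableSet (Sl0 N) := by
  have ha : toC N ≠ 0 := by rwa [Ne, toC_eq_zero]
  exact measurable_zc (measurableSet_par ha)

/-- change of variables to the standard slab. -/
lemma integral_Sl {N : Eis} (hN : N ≠ 0) (g : SLE) (f : K695.Frm → ℂ) :
    ∫ M in Sl N g, f M = ∫ M in Sl0 N, f (g⁻¹ • M) := by
  rw [← integral_indicator (measurableSet_Sl hN g), ← integral_indicator (measurableSet_Sl0 hN)]
  have h1 := (mp_smul g⁻¹).integral_comp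
    (MeasurableEquiv.smul g⁻¹).measurableEmbedding ((Sl N g).indicator f)
  rw [← h1]
  congr 1
  ext M
  by_cases h : M ∈ Sl0 N
  · rw [Set.indicator_of_mem h, Set.indicator_of_mem]
    change zc (g • g⁻¹ • M) ∈ par (toC N)
    rw [smul_inv_smul]
    exact h
  · rw [Set.indicator_of_notMem h, Set.indicator_of_notMem]
    change ¬ (zc (g • g⁻¹ • M) ∈ par (toC N))
    rw [smul_inv_smul]
    exact h

lemma lintegral_Sl {N : Eis} (hN : N ≠ 0) (g : SLE) (f : K695.Frm → ℝ≥0∞) :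
    ∫⁻ M in Sl N g, f M = ∫⁻ M in Sl0 N, f (g⁻¹ • M) := by
  rw [← lintegral_indicator (measurableSet_Sl hN g), ← lintegral_indicator (measurableSet_Sl0 hN)]
  have h1 := (mp_smul g⁻¹).lintegral_comp_emb
    (MeasurableEquiv.smul g⁻¹).measurableEmbedding ((Sl N g).indicator f)
  rw [← h1]
  congr 1
  ext M
  by_cases h : M ∈ Sl0 N
  · rw [Set.indicator_of_mem h, Set.indicator_of_mem]
    change zc (g • g⁻¹ • M) ∈ par (toC N)
    rw [smul_inv_smul]
    exact h
  · rw [Set.indicator_of_notMem h, Set.indicator_of_notMem]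
    change ¬ (zc (g • g⁻¹ • M) ∈ par (toC N))
    rw [smul_inv_smul]
    exact h

/-- coordinates on the fibre, nonnegative functions. -/
lemma lintegral_fib {ζ : Vec} (hζ : ζ ≠ 0) {f : Vec → ℝ≥0∞} (hf : Measurable f) :
    ∫⁻ η, f η = ∫⁻ δ : ℂ, ∫⁻ z : ℂ, f (pz ζ (0, δ) + z • ζ) := by
  have h := lintegral_prod_symm (μ := (volume : Measure ℂ)) (ν := (volume : Measure ℂ))
    (fun p : ℂ × ℂ => f (pz ζ p)) (hf.comp (measurable_pz ζ)).aemeasurable
  rw [← (mp_pz hζ).lintegral_comp hf, Measure.volume_eq_prod, h]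
  refine lintegral_congr fun δ => lintegral_congr fun z => ?_
  rw [pz_add ζ z δ]

/-- **Slab integrals vanish if the constant terms vanish.** -/
theorem slab_zero {N : Eis} (hN : N ≠ 0) (g : SLE) {f : K695.Frm → ℂ} (hf : Measurable f)
    (h0 : ∀ M : K695.Frm, det2 M ≠ 0 → CT N g f M = 0) :
    ∫ M in Sl N g, f M = 0 := by
  have ha : toC N ≠ 0 := by rwa [Ne, toC_eq_zero]
  rw [integral_Sl hN, ← integral_indicator (measurableSet_Sl0 hN)]
  set F : K695.Frm → ℂ := (Sl0 N).indicator (fun M => f (g⁻¹ • M)) with hF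
  have hFm : Measurable F := (hf.comp (measurable_const_smul g⁻¹)).indicator (measurableSet_Sl0 hN)
  by_cases hint : Integrable F
  swap
  · exact integral_undef hint
  rw [Measure.volume_eq_prod] at hint ⊢
  rw [integral_prod_symm _ hint]
  have hne : ∀ᵐ ζ : Vec, ζ ≠ 0 := by
    rw [ae_iff]
    simp
  rw [integral_eq_zero_of_ae]
  filter_upwards [hne] with ζ hζ
  simp only [Pi.zero_apply]
  -- the fibre
  have hm1 : Measurable (fun η : Vec => F (η, ζ)) := hFm.comp (measurable_id.prodMk measurable_const)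
  have h1 : ∫ η : Vec, F (η, ζ) = ∫ p : ℂ × ℂ, F (pz ζ p, ζ) := by
    rw [← (mp_pz hζ).map_eq, integral_map (measurable_pz ζ).aemeasurable]
    rw [(mp_pz hζ).map_eq]
    exact hm1.aestronglyMeasurable
  rw [h1]
  by_cases hi2 : Integrable (fun p : ℂ × ℂ => F (pz ζ p, ζ))
  swap
  · exact integral_undef hi2
  rw [Measure.volume_eq_prod] at hi2 ⊢
  rw [integral_prod_symm _ hi2, integral_eq_zero_of_ae]
  have hne2 : ∀ᵐ δ : ℂ, δ ≠ 0 := by
    rw [ae_iff]
    simp
  filter_upwards [hne2] with δ hδ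
  simp only [Pi.zero_apply]
  have h2 := h0 (pz ζ (0, δ), ζ) (by rw [det2_pz hζ]; simpa using hδ)
  unfold CT at h2
  rw [← h2, ← integral_indicator (measurableSet_par ha)]
  congr 1
  ext z
  have hiff : ((pz ζ (z, δ), ζ) : K695.Frm) ∈ Sl0 N ↔ z ∈ par (toC N) := by
    change zc (pz ζ (z, δ), ζ) ∈ par (toC N) ↔ _
    rw [zc_pz hζ]
  by_cases hz : z ∈ par (toC N)
  · rw [Set.indicator_of_mem hz, hF, Set.indicator_of_mem (hiff.mpr hz), pz_add ζ z δ]
  · rw [Set.indicator_of_notMem hz, hF, Set.indicator_of_notMem (fun h => hz (hiff.mp h))]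

/-! ### Tiling -/

lemma lint_affine {c : ℂ} (hc : c ≠ 0) (b : ℂ) (f : ℂ → ℝ≥0∞) :
    ∫⁻ z, f (c * z + b) = ENNReal.ofReal ((‖c‖ ^ 2)⁻¹) * ∫⁻ z, f z := by
  have h1 := Gram858.lintegral_mul_left hc (fun z => f (z + b))
  rw [h1, lintegral_add_right_eq_self (fun z => f z) b]

lemma int_affine {c : ℂ} (hc : c ≠ 0) (b : ℂ) (f : ℂ → ℂ) :
    ∫ z, f (c * z + b) = (((‖c‖ ^ 2)⁻¹ : ℝ) : ℂ) * ∫ z, f z := by
  have h1 := Gram858.integral_mul_left' hc (fun z => f (z + b))
  rw [h1, integral_add_right_eq_self (fun z => f z) b, Complex.real_smul]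

lemma integrable_affine {c : ℂ} (hc : c ≠ 0) (b : ℂ) {f : ℂ → ℂ} (hf : Integrable f) :
    Integrable (fun z => f (c * z + b)) := by
  have h1 : Integrable (fun z => f (z + b)) := hf.comp_add_right b
  have h2 : Measure.map (Homeomorph.mulLeft₀ c hc) (volume : Measure ℂ)
      = ENNReal.ofReal ((‖c‖ ^ 2)⁻¹) • (volume : Measure ℂ) := Gram858.map_mul_left hc
  have h3 : Integrable (fun z => f (z + b)) (Measure.map (Homeomorph.mulLeft₀ c hc) volume) := by
    rw [h2]
    exact h1.smul_measure ENNReal.ofReal_ne_top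
  exact (((Homeomorph.mulLeft₀ c hc).measurableEmbedding.integrable_map_iff).mp h3)

/-- `∑_y ∫_{z mod N} g (h z + y) dz = N(N) ∫ g`. -/
lemma tile_lint {N h : Eis} (hN : N ≠ 0) (hh : h ≠ 0) (g : ℂ → ℝ≥0∞) :
    ∑' y : Eis, ∫⁻ z in par (toC N), g (toC h * z + toC y) = (nm N : ℝ≥0∞) * ∫⁻ z, g z := by
  have ha : toC N ≠ 0 := by rwa [Ne, toC_eq_zero]
  have hb : toC h ≠ 0 := by rwa [Ne, toC_eq_zero]
  have hhN : h * N ≠ 0 := mul_ne_zero hh hN
  rw [← (crsEquiv hhN (isCRS_crs hhN)).tsum_eq]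
  refine (ENNReal.tsum_prod (f := fun (s : crs (h * N)) (t : Eis) => ∫⁻ z in par (toC N),
      g (toC h * z + toC (crsEquiv hhN (isCRS_crs hhN) (s, t))))).trans ?_
  have h1 : ∀ s : crs (h * N), ∑' t : Eis, ∫⁻ z in par (toC N),
      g (toC h * z + toC (crsEquiv hhN (isCRS_crs hhN) (s, t))) =
      ((nm h : ℝ≥0∞))⁻¹ * ∫⁻ z, g z := by
    intro s
    have h2 := lintegral_eq_tsum_par ha (fun z => g (toC h * z + toC s.1))
    rw [lint_affine hb (toC s.1) g, norm_toC_sq] at h2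
    have h4 : ENNReal.ofReal (((nm h : ℝ))⁻¹) = ((nm h : ℝ≥0∞))⁻¹ := by
      rw [ENNReal.ofReal_inv_of_pos (by exact_mod_cast nm_pos.2 hh), ENNReal.ofReal_natCast]
    rw [← h4, h2]
    refine tsum_congr fun t => lintegral_congr fun z => ?_
    congr 1
    rw [crsEquiv_apply, map_add, map_mul, map_mul]
    ring
  rw [tsum_congr h1, tsum_fintype, Finset.sum_const, Finset.card_univ, Fintype.card_coe,
    card_crs hhN, nsmul_eq_mul, nm_mul, ← mul_assoc]
  congr 1
  have h0 : (nm h : ℝ≥0∞) ≠ 0 := by exact_mod_cast (nm_pos.2 hh).ne'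
  rw [Nat.cast_mul, mul_comm (nm h : ℝ≥0∞), mul_assoc, ENNReal.mul_inv_cancel h0
    (ENNReal.natCast_ne_top _), mul_one]

lemma pmod_bdd {c : Eis} (hc : c ≠ 0) {a : Eis → ℂ} (ha : PMod c a) : ∃ K : ℝ, ∀ y, ‖a y‖ ≤ K := by
  refine ⟨∑ s ∈ crs c, ‖a s‖, fun y => ?_⟩
  obtain ⟨s, ⟨hs, t, ht⟩, -⟩ := isCRS_crs hc y
  have : a y = a s := by
    rw [← ha s t]
    congr 1
    linear_combination ht
  rw [this]
  exact Finset.single_le_sum (f := fun s => ‖a s‖) (fun _ _ => norm_nonneg _) hs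

/-- complex version with a periodic coefficient. -/
lemma tile_int {N h : Eis} (hN : N ≠ 0) (hh : h ≠ 0) {a : Eis → ℂ} (ha : PMod (h * N) a)
    {g : ℂ → ℂ} (hg : Integrable g)  :
    Summable (fun y : Eis => a y * ∫ z in par (toC N), g (toC h * z + toC y)) ∧
    ∑' y : Eis, a y * ∫ z in par (toC N), g (toC h * z + toC y) =
      sumMod (h * N) a * (((nm h : ℂ))⁻¹ * ∫ z, g z) := by
  have haN : toC N ≠ 0 := by rwa [Ne, toC_eq_zero]
  have hb : toC h ≠ 0 := by rwa [Ne, toC_eq_zero]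
  have hhN : h * N ≠ 0 := mul_ne_zero hh hN
  set φ : Eis → ℂ := fun y => ∫ z in par (toC N), g (toC h * z + toC y) with hφ
  have hfin : ∑' y : Eis, ∫⁻ z in par (toC N), ‖g (toC h * z + toC y)‖ₑ ≠ ∞ := by
    rw [tile_lint hN hh (fun z => ‖g z‖ₑ)]
    exact ENNReal.mul_ne_top (ENNReal.natCast_ne_top _) hg.2.ne
  have hsn : Summable (fun y : Eis => ‖φ y‖) := by
    refine Summable.of_nonneg_of_le (fun _ => norm_nonneg _) (fun y => ?_)
      (ENNReal.summable_toReal hfin)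
    rw [hφ]
    simp only
    have h1 := norm_integral_le_lintegral_norm (μ := volume.restrict (par (toC N)))
      (fun z => g (toC h * z + toC y))
    refine h1.trans (le_of_eq ?_)
    congr 1
    refine lintegral_congr fun z => ?_
    rw [ofReal_norm]
  obtain ⟨K, hK⟩ := pmod_bdd hhN ha
  have hs2 : Summable (fun y : Eis => a y * φ y) := by
    apply Summable.of_norm
    refine Summable.of_nonneg_of_le (fun _ => norm_nonneg _) (fun y => ?_) (hsn.mul_left K)
    rw [norm_mul]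
    exact mul_le_mul_of_nonneg_right (hK y) (norm_nonneg _)
  refine ⟨hs2, ?_⟩
  rw [tsum_periodic hhN ha hsn.of_norm hs2]
  have h2 : ∀ s : Eis, ∑' t : Eis, φ (s + h * N * t) = ((nm h : ℂ))⁻¹ * ∫ z, g z := by
    intro s
    have hi : Integrable (fun z => g (toC h * z + toC s)) := integrable_affine hb (toC s) hg
    have h3 := (hasSum_integral_par haN hi).tsum_eq
    rw [int_affine hb, norm_toC_sq] at h3
    have h4 : (((nm h : ℝ)⁻¹ : ℝ) : ℂ) = ((nm h : ℂ))⁻¹ := by push_cast; rfl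
    rw [← h4, ← h3]
    refine tsum_congr fun t => ?_
    rw [hφ]
    simp only
    congr 1
    ext z
    congr 1
    rw [map_add, map_mul, map_mul]
    ring
  simp_rw [h2]
  rw [sumMod_mul_right hhN]

end Crest.Agent.R017.Orth681
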