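import Crest.Agent.R017.OrthC_681

/-!
# Row 17, section A: orthogonality lemma, part D (helper681): the Gram bound
-/

set_option autoImplicit false

noncomputable section

open MeasureTheory Complex Set Filter
open scoped ENNReal ComplexConjugate Topology

namespace Crest.Agent.R017.Orth681

open Crest.Agent.R012 Crest.Agent.R012.Eis Crest.Agent.R012.K695 Crest.Agent.R012.AU681
  Crest.Agent.R012.Parseval499

/-- the majorant `(1+|u|²)^{-4}`. -/
def GG (u : Vec) : ℝ := ((1 + n2 u) ^ 4)⁻¹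

lemma GG_nonneg (u : Vec) : 0 ≤ GG u := by
  unfold GG
  have := n2_nonneg u
  positivity

lemma GG_le_one (u : Vec) : GG u ≤ 1 := by
  unfold GG
  apply inv_le_one_of_one_le₀
  have := n2_nonneg u
  exact one_le_pow₀ (by linarith)

lemma continuous_GG : Continuous GG := by
  unfold GG
  apply Continuous.inv₀
  · exact (continuous_const.add continuous_n2).pow 4
  · intro u
    have := n2_nonneg u
    positivity

def GE (u : Vec) : ℝ≥0∞ := ENNReal.ofReal (GG u)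

lemma measurable_GE : Measurable GE := ENNReal.measurable_ofReal.comp continuous_GG.measurable

lemma GE_le_one (u : Vec) : GE u ≤ 1 := by
  unfold GE
  exact ENNReal.ofReal_le_one.mpr (GG_le_one u)

/-- right multiplication on the coprime rows. -/
def crEquiv (g : SLE) : CR ≃ CR where
  toFun r := ⟨rmulS r.1 g, cop_rmulS r.2 g⟩
  invFun r := ⟨rmulS r.1 g⁻¹, cop_rmulS r.2 g⁻¹⟩
  left_inv r := Subtype.ext (by simp only [← rmulS_mul, mul_inv_cancel, rmulS_one])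
  right_inv r := Subtype.ext (by simp only [← rmulS_mul, inv_mul_cancel, rmulS_one])

/-- sum of the majorant over the coprime rows. -/
def SG (M : K695.Frm) : ℝ≥0∞ := ∑' r : CR, GE (rowv r.1 M)

lemma measurable_SG : Measurable SG :=
  Measurable.tsum fun r => measurable_GE.comp (measurable_rowv r.1)

lemma SG_smul (g : SLE) (M : K695.Frm) : SG (g • M) = SG M := by
  unfold SG
  rw [← (crEquiv g).tsum_eq (fun r : CR => GE (rowv r.1 M))]
  refine tsum_congr fun r => ?_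
  rw [rowv_smul]
  rfl

/-! ### One-dimensional integrals -/

lemma n2_pz {ζ : Vec} (hζ : ζ ≠ 0) (x s : ℂ) :
    n2 (pz ζ (x, s)) = ‖x‖ ^ 2 * n2 ζ + ‖s‖ ^ 2 / n2 ζ := by
  have hn0 : n2 ζ ≠ 0 := fun h => hζ (n2_eq_zero.mp h)
  have hn : (n2 ζ : ℂ) ≠ 0 := by exact_mod_cast hn0
  have h1 : ((n2 (pz ζ (x, s)) : ℝ) : ℂ) = ((‖x‖ ^ 2 * n2 ζ + ‖s‖ ^ 2 / n2 ζ : ℝ) : ℂ) := by
    rw [n2_cast]
    push_cast
    have hx : ((‖x‖ : ℝ) : ℂ) ^ 2 = x * (starRingEnd ℂ) x := by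
      rw [Complex.mul_conj, Complex.normSq_eq_norm_sq]; push_cast; ring
    have hs : ((‖s‖ : ℝ) : ℂ) ^ 2 = s * (starRingEnd ℂ) s := by
      rw [Complex.mul_conj, Complex.normSq_eq_norm_sq]; push_cast; ring
    rw [hx, hs]
    simp only [pz, mact, smul_eq_mul, map_add, map_mul, map_div₀, map_neg, Complex.conj_conj,
      Complex.conj_ofReal]
    field_simp
    rw [n2_cast]
    ring
  exact_mod_cast h1

lemma c0_ne_top : ∫⁻ x : ℂ, ENNReal.ofReal (((1 + ‖x‖ ^ 2) ^ 2)⁻¹) ≠ ∞ := by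
  have hi : Integrable (fun x : ℂ => (1 + ‖x‖) ^ (-(4 : ℝ))) :=
    integrable_one_add_norm (by rw [Complex.finrank_real_complex]; norm_num)
  have h2 := hi.const_mul 4
  refine ne_top_of_le_ne_top h2.lintegral_lt_top.ne (lintegral_mono fun x => ?_)
  apply ENNReal.ofReal_le_ofReal
  rw [Real.rpow_neg (by positivity)]
  have e : (1 + ‖x‖) ^ (4 : ℝ) = (1 + ‖x‖) ^ 4 := by
    rw [← Real.rpow_natCast]; norm_num
  rw [e, inv_eq_one_div, ← div_eq_mul_inv, div_le_div_iff₀ (by positivity) (by positivity)]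
  have h3 : (1 + ‖x‖) ^ 2 ≤ 2 * (1 + ‖x‖ ^ 2) := by nlinarith [sq_nonneg (‖x‖ - 1)]
  have h4 : ((1 + ‖x‖) ^ 2) ^ 2 ≤ (2 * (1 + ‖x‖ ^ 2)) ^ 2 := by gcongr
  nlinarith

/-- the constant `∫ (1+|x|²)^{-2}`. -/
def c0 : ℝ≥0∞ := ∫⁻ x : ℂ, ENNReal.ofReal (((1 + ‖x‖ ^ 2) ^ 2)⁻¹)

lemma lint_scaled {B : ℝ} (hB : 0 < B) :
    ∫⁻ x : ℂ, ENNReal.ofReal (((1 + B * ‖x‖ ^ 2) ^ 2)⁻¹) = ENNReal.ofReal B⁻¹ * c0 := by
  have hb : ((Real.sqrt B : ℝ) : ℂ) ≠ 0 := by
    rw [Ne, Complex.ofReal_eq_zero, Real.sqrt_eq_zero']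
    exact not_le.mpr hB
  have h := Gram858.lintegral_mul_left hb (fun x : ℂ => ENNReal.ofReal (((1 + ‖x‖ ^ 2) ^ 2)⁻¹))
  rw [Complex.norm_real, Real.norm_of_nonneg (Real.sqrt_nonneg B), Real.sq_sqrt hB.le] at h
  unfold c0
  rw [← h]
  refine lintegral_congr fun x => ?_
  congr 4
  rw [norm_mul, Complex.norm_real, Real.norm_of_nonneg (Real.sqrt_nonneg B), mul_pow,
    Real.sq_sqrt hB.le]

/-- the integral of the majorant over a line. -/
lemma lint_line {ζ : Vec} (hζ : ζ ≠ 0) {s : ℂ} (hs : s ≠ 0) :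
    ∫⁻ x : ℂ, GE (pz ζ (x, s)) ≤ ENNReal.ofReal (n2 ζ / ‖s‖ ^ 4) * c0 := by
  have hn0 : 0 < n2 ζ := lt_of_le_of_ne (n2_nonneg ζ) (fun h => hζ (n2_eq_zero.mp h.symm))
  have hs0 : 0 < ‖s‖ := norm_pos_iff.mpr hs
  set A : ℝ := ‖s‖ ^ 2 / n2 ζ with hA
  have hA0 : 0 < A := by positivity
  have h1 : ∀ x : ℂ, GE (pz ζ (x, s)) ≤
      ENNReal.ofReal ((A ^ 2)⁻¹) * ENNReal.ofReal (((1 + n2 ζ * ‖x‖ ^ 2) ^ 2)⁻¹) := by
    intro x
    unfold GE GG
    rw [← ENNReal.ofReal_mul (by positivity)]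
    apply ENNReal.ofReal_le_ofReal
    rw [n2_pz hζ, ← mul_inv]
    apply inv_anti₀ (by positivity)
    have hx : 0 ≤ n2 ζ * ‖x‖ ^ 2 := by positivity
    have e : 1 + (‖x‖ ^ 2 * n2 ζ + ‖s‖ ^ 2 / n2 ζ) = 1 + n2 ζ * ‖x‖ ^ 2 + A := by
      rw [hA]; ring
    rw [e]
    have h2 : A ^ 2 ≤ (1 + n2 ζ * ‖x‖ ^ 2 + A) ^ 2 := by gcongr; linarith
    have h3 : (1 + n2 ζ * ‖x‖ ^ 2) ^ 2 ≤ (1 + n2 ζ * ‖x‖ ^ 2 + A) ^ 2 :=
      pow_le_pow_left₀ (by linarith) (by linarith) 2
    calc A ^ 2 * (1 + n2 ζ * ‖x‖ ^ 2) ^ 2 ≤ (1 + n2 ζ * ‖x‖ ^ 2 + A) ^ 2 *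
          (1 + n2 ζ * ‖x‖ ^ 2 + A) ^ 2 := by gcongr
      _ = _ := by ring
  refine (lintegral_mono h1).trans ?_
  rw [lintegral_const_mul' _ _ ENNReal.ofReal_ne_top, lint_scaled hn0, ← mul_assoc,
    ← ENNReal.ofReal_mul (by positivity)]
  apply le_of_eq
  congr 2
  rw [hA]
  field_simp

/-! ### The sum over `h` -/

lemma one_le_norm_toC {m : Eis} (hm : m ≠ 0) : 1 ≤ ‖toC m‖ := by
  have h1 : (1 : ℝ) ≤ nm m := by exact_mod_cast nm_pos.2 hm
  rw [← norm_toC_sq] at h1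
  nlinarith [norm_nonneg (toC m)]

lemma vol_par_ne_top (a : ℂ) : (volume : Measure ℂ) (par a) ≠ ∞ := by
  have hsub : par a ⊆ Metric.closedBall (0 : ℂ) (2 * ‖a‖) := by
    intro z hz
    rw [mem_closedBall_zero_iff]
    obtain ⟨x, hx, rfl⟩ := hz
    unfold Lm
    rw [norm_mul]
    have h0 := hx 0
    have h1 := hx 1
    simp only [Pi.zero_apply, zero_add, mem_Ioc] at h0 h1
    have hw : ‖wC‖ = 1 := by
      have := norm_toC_sq Eis.w
      rw [toC_w] at this
      have h2 : ((Eis.nm Eis.w : ℕ) : ℝ) = 1 := by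
        have : (Eis.nm Eis.w : ℤ) = 1 := by rw [Eis.nm_cast]; simp
        exact_mod_cast this
      rw [h2] at this
      nlinarith [norm_nonneg wC]
    have h3 : ‖(x 0 : ℂ) + (x 1 : ℂ) * wC‖ ≤ 2 := by
      refine (norm_add_le _ _).trans ?_
      rw [norm_mul, hw, mul_one, Complex.norm_real, Complex.norm_real, Real.norm_eq_abs,
        Real.norm_eq_abs, abs_of_pos h0.1, abs_of_pos h1.1]
      linarith [h0.2, h1.2]
    nlinarith [norm_nonneg a]
  exact ne_top_of_le_ne_top (isCompact_closedBall (0 : ℂ) (2 * ‖a‖)).measure_lt_top.ne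
    (measure_mono hsub)

open Classical in
/-- `∑_{h ≠ 0} N(h)^{-2}`. -/
def hs2 : ℝ≥0∞ := ∑' h : Eis, if h = 0 then 0 else ENNReal.ofReal (((nm h : ℝ) ^ 2)⁻¹)

lemma hs2_ne_top : hs2 ≠ ∞ := by
  classical
  have hs : Summable (fun h : Eis => 8 * (1 + ‖toC h‖) ^ (-(3 : ℝ))) :=
    (Poisson381.summable_eis (by norm_num)).mul_left 8
  unfold hs2
  refine ne_top_of_le_ne_top (b := ∑' h : Eis, ENNReal.ofReal (8 * (1 + ‖toC h‖) ^ (-(3 : ℝ)))) ?_
    (ENNReal.tsum_le_tsum fun h => ?_)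
  · rw [← ENNReal.ofReal_tsum_of_nonneg (fun h => by positivity) hs]
    exact ENNReal.ofReal_ne_top
  · split_ifs with h0
    · exact zero_le
    · apply ENNReal.ofReal_le_ofReal
      have h1 : 1 ≤ ‖toC h‖ := one_le_norm_toC h0
      rw [← norm_toC_sq, Real.rpow_neg (by positivity)]
      have e : (1 + ‖toC h‖) ^ (3 : ℝ) = (1 + ‖toC h‖) ^ 3 := by
        rw [← Real.rpow_natCast]; norm_num
      rw [e, inv_eq_one_div, ← div_eq_mul_inv, div_le_div_iff₀ (by positivity) (by positivity),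
        one_mul]
      have h2 : (1 + ‖toC h‖) ^ 3 ≤ (2 * ‖toC h‖) ^ 3 := by
        apply pow_le_pow_left₀ (by positivity); linarith
      calc (1 + ‖toC h‖) ^ 3 ≤ (2 * ‖toC h‖) ^ 3 := h2
        _ = 8 * (‖toC h‖ ^ 3 * 1) := by ring
        _ ≤ 8 * (‖toC h‖ ^ 3 * ‖toC h‖) := by gcongr
        _ = 8 * (‖toC h‖ ^ 2) ^ 2 := by ring

/-- number of units -/
def nun : ℝ≥0∞ := ((ball 1).card : ℝ≥0∞)

open Classical in
lemma tsum_unit_le : ∑' y : Eis, (if IsUnit y then (1 : ℝ≥0∞) else 0) ≤ nun := by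
  rw [tsum_eq_sum (s := ball 1)]
  · refine (Finset.sum_le_sum (g := fun _ => (1 : ℝ≥0∞)) fun y _ => ?_).trans ?_
    · split_ifs <;> simp
    · simp [nun]
  · intro y hy
    rw [if_neg]
    intro hu
    apply hy
    rw [mem_ball]
    exact (Eis.isUnit_iff.mp hu).le

/-- **Inner bound.** -/
theorem inner_le {N : Eis} (hN : N ≠ 0) {ζ : Vec} (hζ : ζ ≠ 0) {δ : ℂ} (hδ : δ ≠ 0) :
    ∫⁻ z in par (toC N), SG ((pz ζ (0, δ) + z • ζ, ζ) : K695.Frm) ≤
      nun * volume (par (toC N)) + nm N * c0 * hs2 * ENNReal.ofReal (n2 ζ / ‖δ‖ ^ 4) := by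
  classical
  have hn0 : 0 < n2 ζ := lt_of_le_of_ne (n2_nonneg ζ) (fun h => hζ (n2_eq_zero.mp h.symm))
  have hδ0 : 0 < ‖δ‖ := norm_pos_iff.mpr hδ
  -- the majorant
  let T : ℂ → Eis × Eis → ℝ≥0∞ := fun z q =>
    if q.1 = 0 then (if IsUnit q.2 then 1 else 0) else GE (pz ζ (toC q.1 * z + toC q.2, toC q.1 * δ))
  have hrow : ∀ (z : ℂ) (q : Eis × Eis), rowv q ((pz ζ (0, δ) + z • ζ, ζ) : K695.Frm) =
      pz ζ (toC q.1 * z + toC q.2, toC q.1 * δ) := by
    intro z q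
    unfold rowv pz mact
    ext1 <;> simp <;> ring
  have hT : ∀ z, SG ((pz ζ (0, δ) + z • ζ, ζ) : K695.Frm) ≤ ∑' h : Eis, ∑' y : Eis, T z (h, y) := by
    intro z
    rw [← ENNReal.tsum_prod (f := fun h y => T z (h, y))]
    unfold SG
    refine le_trans (ENNReal.tsum_le_tsum (g := fun r : CR => T z r.1) fun r => ?_)
      (ENNReal.tsum_comp_le_tsum_of_injective Subtype.coe_injective (fun q : Eis × Eis => T z q))
    rw [hrow]
    by_cases h : r.1.1 = 0
    · have hu : IsUnit r.1.2 := by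
        have := r.2
        rw [h] at this
        exact isCoprime_zero_left.mp this
      change _ ≤ (if r.1.1 = 0 then (if IsUnit r.1.2 then (1 : ℝ≥0∞) else 0) else _)
      rw [if_pos h, if_pos hu]
      exact GE_le_one _
    · change _ ≤ (if r.1.1 = 0 then (if IsUnit r.1.2 then (1 : ℝ≥0∞) else 0) else _)
      rw [if_neg h]
  have hmT : ∀ q, Measurable (fun z => T z q) := by
    intro q
    by_cases h : q.1 = 0
    · simp only [T, if_pos h]
      exact measurable_const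
    · simp only [T, if_neg h]
      refine measurable_GE.comp ((measurable_pz ζ).comp ?_)
      fun_prop
  refine (lintegral_mono hT).trans ?_
  rw [lintegral_tsum (fun h => (Measurable.tsum fun y => hmT (h, y)).aemeasurable)]
  have hterm : ∀ h : Eis, ∫⁻ z in par (toC N), ∑' y : Eis, T z (h, y) ≤
      (if h = 0 then nun * volume (par (toC N)) else 0) +
      (if h = 0 then 0 else ENNReal.ofReal (((nm h : ℝ) ^ 2)⁻¹)) *
        (nm N * c0 * ENNReal.ofReal (n2 ζ / ‖δ‖ ^ 4)) := by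
    intro h
    by_cases h0 : h = 0
    · rw [if_pos h0, if_pos h0, zero_mul, add_zero]
      simp only [T, h0, if_true]
      rw [lintegral_const, Measure.restrict_apply_univ]
      gcongr
      exact tsum_unit_le
    · rw [if_neg h0, if_neg h0, zero_add]
      have hhC : toC h ≠ 0 := by rwa [Ne, toC_eq_zero]
      simp only [T, h0, if_false]
      rw [lintegral_tsum (fun y => (by
        have := hmT (h, y)
        simp only [T, h0, if_false] at this
        exact this.aemeasurable))]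
      rw [tile_lint hN h0 (fun x => GE (pz ζ (x, toC h * δ)))]
      have h1 := lint_line hζ (mul_ne_zero hhC hδ)
      calc (nm N : ℝ≥0∞) * ∫⁻ z, GE (pz ζ (z, toC h * δ))
          ≤ nm N * (ENNReal.ofReal (n2 ζ / ‖toC h * δ‖ ^ 4) * c0) := by gcongr
        _ = _ := by
          have e : n2 ζ / ‖toC h * δ‖ ^ 4 = ((nm h : ℝ) ^ 2)⁻¹ * (n2 ζ / ‖δ‖ ^ 4) := by
            rw [norm_mul, mul_pow, ← norm_toC_sq]
            have : ‖toC h‖ ≠ 0 := norm_ne_zero_iff.mpr hhC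
            field_simp
          rw [e, ENNReal.ofReal_mul (by positivity)]
          ring
  refine (ENNReal.tsum_le_tsum hterm).trans ?_
  rw [ENNReal.tsum_add, ENNReal.tsum_mul_right]
  have e1 : ∑' h : Eis, (if h = 0 then nun * volume (par (toC N)) else 0) =
      nun * volume (par (toC N)) := tsum_ite_eq 0 _
  have e2 : (∑' h : Eis, (if h = 0 then 0 else ENNReal.ofReal (((nm h : ℝ) ^ 2)⁻¹))) *
      (nm N * c0 * ENNReal.ofReal (n2 ζ / ‖δ‖ ^ 4)) =
      nm N * c0 * hs2 * ENNReal.ofReal (n2 ζ / ‖δ‖ ^ 4) := by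
    change hs2 * _ = _
    ring
  rw [e1, e2]

/-! ### The Gram bound -/

/-- annulus in the determinant. -/
def An (D : ℝ) : Set ℂ := {δ | 1 ≤ D * ‖δ‖ ∧ ‖δ‖ ≤ D}

lemma measurableSet_An (D : ℝ) : MeasurableSet (An D) := by
  have h1 : Measurable fun δ : ℂ => D * ‖δ‖ := measurable_norm.const_mul D
  exact (measurableSet_le measurable_const h1).inter (measurableSet_le measurable_norm measurable_const)

lemma An_ne {D : ℝ} {δ : ℂ} (h : δ ∈ An D) : δ ≠ 0 := by
  rintro rfl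
  have := h.1
  norm_num at this

lemma An_pos {D : ℝ} {δ : ℂ} (h : δ ∈ An D) : 0 < D := by
  have h1 := norm_nonneg δ
  have h2 := h.1
  by_contra hD
  have : D * ‖δ‖ ≤ 0 := mul_nonpos_of_nonpos_of_nonneg (not_lt.mp hD) h1
  linarith

lemma vol_An_ne_top (D : ℝ) : (volume : Measure ℂ) (An D) ≠ ∞ := by
  have : An D ⊆ Metric.closedBall (0 : ℂ) D := by
    intro δ hδ
    rw [mem_closedBall_zero_iff]
    exact hδ.2
  exact ne_top_of_le_ne_top (isCompact_closedBall (0 : ℂ) D).measure_lt_top.ne (measure_mono this)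

/-- indicator of the annulus. -/
def iA (D : ℝ) (δ : ℂ) : ℝ≥0∞ := (An D).indicator 1 δ

lemma measurable_iA (D : ℝ) : Measurable (iA D) := measurable_one.indicator (measurableSet_An D)

lemma iA_le_one (D : ℝ) (δ : ℂ) : iA D δ ≤ 1 := by
  unfold iA
  exact Set.indicator_le_self' (fun _ _ => zero_le) δ |>.trans (by simp)

lemma lint_GG3 : ∫⁻ ζ : Vec, GE ζ * ENNReal.ofReal (1 + n2 ζ) ≠ ∞ := by
  have hi : Integrable (fun x : Vec => (1 + ‖x‖) ^ (-(6 : ℝ))) :=
    integrable_one_add_norm (by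
      rw [Module.finrank_prod, Complex.finrank_real_complex]; norm_num)
  have h2 := hi.const_mul 8
  refine ne_top_of_le_ne_top h2.lintegral_lt_top.ne (lintegral_mono fun x => ?_)
  unfold GE GG
  have hn := n2_nonneg x
  rw [← ENNReal.ofReal_mul (by positivity)]
  apply ENNReal.ofReal_le_ofReal
  have h3 : ‖x‖ ^ 2 ≤ n2 x := by
    unfold n2
    rw [Prod.norm_def]
    rcases max_cases ‖x.1‖ ‖x.2‖ with h | h
    · rw [h.1]; nlinarith [sq_nonneg ‖x.2‖]
    · rw [h.1]; nlinarith [sq_nonneg ‖x.1‖]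
  rw [Real.rpow_neg (by positivity)]
  have e : (1 + ‖x‖) ^ (6 : ℝ) = (1 + ‖x‖) ^ 6 := by
    rw [← Real.rpow_natCast]; norm_num
  rw [e]
  have e2 : ((1 + n2 x) ^ 4)⁻¹ * (1 + n2 x) = ((1 + n2 x) ^ 3)⁻¹ := by
    field_simp
  rw [e2, inv_eq_one_div, ← div_eq_mul_inv, div_le_div_iff₀ (by positivity) (by positivity),
    one_mul]
  have h4 : (1 + ‖x‖) ^ 2 ≤ 2 * (1 + n2 x) := by nlinarith [sq_nonneg (‖x‖ - 1)]
  have h5 : ((1 + ‖x‖) ^ 2) ^ 3 ≤ (2 * (1 + n2 x)) ^ 3 := by gcongr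
  nlinarith

/-- the slab integral. -/
theorem slab_fin {N : Eis} (hN : N ≠ 0) (D : ℝ) :
    ∫⁻ M in Sl0 N, iA D (det2 M) * SG M * GE M.2 ≠ ∞ := by
  classical
  set κ1 : ℝ≥0∞ := nun * volume (par (toC N)) with hκ1
  set κ2 : ℝ≥0∞ := nm N * c0 * hs2 * ENNReal.ofReal (D ^ 4) with hκ2
  have hκ1t : κ1 ≠ ∞ := ENNReal.mul_ne_top (ENNReal.natCast_ne_top _) (vol_par_ne_top _)
  have hκ2t : κ2 ≠ ∞ := ENNReal.mul_ne_top (ENNReal.mul_ne_top
    (ENNReal.mul_ne_top (ENNReal.natCast_ne_top _) c0_ne_top) hs2_ne_top) ENNReal.ofReal_ne_top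
  have hne : ∀ᵐ ζ : Vec, ζ ≠ 0 := by
    rw [ae_iff]
    simp
  rw [← lintegral_indicator (measurableSet_Sl0 hN)]
  set F : K695.Frm → ℝ≥0∞ := (Sl0 N).indicator (fun M => iA D (det2 M) * SG M * GE M.2) with hF
  have hFm : Measurable F :=
    ((((measurable_iA D).comp measurable_det2).mul measurable_SG).mul
      (measurable_GE.comp measurable_snd)).indicator (measurableSet_Sl0 hN)
  have h1 : ∫⁻ M, F M = ∫⁻ ζ : Vec, ∫⁻ η : Vec, F (η, ζ) := by
    rw [Measure.volume_eq_prod]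
    exact lintegral_prod_symm _ hFm.aemeasurable
  rw [h1]
  have h2 : ∀ᵐ ζ : Vec, ∫⁻ η : Vec, F (η, ζ) ≤
      ((κ1 + κ2) * volume (An D)) * (GE ζ * ENNReal.ofReal (1 + n2 ζ)) := by
    filter_upwards [hne] with ζ hζ
    have hm1 : Measurable (fun η : Vec => F (η, ζ)) :=
      hFm.comp (measurable_id.prodMk measurable_const)
    rw [lintegral_fib hζ hm1]
    have h3 : ∀ δ : ℂ, ∫⁻ z : ℂ, F (pz ζ (0, δ) + z • ζ, ζ) ≤
        (iA D δ) * ((κ1 + κ2) * (GE ζ * ENNReal.ofReal (1 + n2 ζ))) := by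
      intro δ
      have e1 : ∀ z : ℂ, F (pz ζ (0, δ) + z • ζ, ζ) =
          (par (toC N)).indicator (fun z => iA D δ * GE ζ *
            SG ((pz ζ (0, δ) + z • ζ, ζ) : K695.Frm)) z := by
        intro z
        have hd : det2 ((pz ζ (0, δ) + z • ζ, ζ) : K695.Frm) = -δ := by
          rw [← pz_add, det2_pz hζ]
        have hz : zc ((pz ζ (0, δ) + z • ζ, ζ) : K695.Frm) = z := by
          rw [← pz_add, zc_pz hζ]
        have hiff : ((pz ζ (0, δ) + z • ζ, ζ) : K695.Frm) ∈ Sl0 N ↔ z ∈ par (toC N) := by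
          change zc _ ∈ par (toC N) ↔ _
          rw [hz]
        have hA : iA D (-δ) = iA D δ := by
          unfold iA
          by_cases hδ : δ ∈ An D
          · rw [Set.indicator_of_mem hδ, Set.indicator_of_mem (by simpa [An] using hδ)]
            rfl
          · rw [Set.indicator_of_notMem hδ, Set.indicator_of_notMem (by simpa [An] using hδ)]
        by_cases hzz : z ∈ par (toC N)
        · rw [Set.indicator_of_mem hzz, hF, Set.indicator_of_mem (hiff.mpr hzz), hd, hA]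
          ring
        · rw [Set.indicator_of_notMem hzz, hF, Set.indicator_of_notMem (fun h => hzz (hiff.mp h))]
      simp_rw [e1]
      have ha : toC N ≠ 0 := by rwa [Ne, toC_eq_zero]
      rw [lintegral_indicator (measurableSet_par ha)]
      by_cases hδ : δ ∈ An D
      · have hδ0 := An_ne hδ
        have hD := An_pos hδ
        have hmS : Measurable (fun z : ℂ => SG ((pz ζ (0, δ) + z • ζ, ζ) : K695.Frm)) := by
          refine measurable_SG.comp ?_
          fun_prop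
        rw [lintegral_const_mul _ hmS]
        have h4 := inner_le hN hζ hδ0
        have h5 : ENNReal.ofReal (n2 ζ / ‖δ‖ ^ 4) ≤ ENNReal.ofReal (D ^ 4) * ENNReal.ofReal (1 + n2 ζ) := by
          have hn := n2_nonneg ζ
          rw [← ENNReal.ofReal_mul (by positivity)]
          apply ENNReal.ofReal_le_ofReal
          have hδn : 0 < ‖δ‖ := norm_pos_iff.mpr hδ0
          rw [div_le_iff₀ (by positivity)]
          have h6 : 1 ≤ (D * ‖δ‖) ^ 4 := one_le_pow₀ hδ.1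
          calc n2 ζ ≤ (1 + n2 ζ) * 1 := by linarith
            _ ≤ (1 + n2 ζ) * (D * ‖δ‖) ^ 4 := by gcongr
            _ = D ^ 4 * (1 + n2 ζ) * ‖δ‖ ^ 4 := by ring
        have h7 : (1 : ℝ≥0∞) ≤ ENNReal.ofReal (1 + n2 ζ) := by
          rw [← ENNReal.ofReal_one]
          apply ENNReal.ofReal_le_ofReal
          linarith [n2_nonneg ζ]
        calc iA D δ * GE ζ * ∫⁻ z in par (toC N), SG ((pz ζ (0, δ) + z • ζ, ζ) : K695.Frm)
            ≤ iA D δ * GE ζ * (κ1 * ENNReal.ofReal (1 + n2 ζ) +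
                nm N * c0 * hs2 * (ENNReal.ofReal (D ^ 4) * ENNReal.ofReal (1 + n2 ζ))) := by
              have h9 : κ1 ≤ κ1 * ENNReal.ofReal (1 + n2 ζ) := by
                calc κ1 = κ1 * 1 := by rw [mul_one]
                  _ ≤ _ := by gcongr
              have h10 : (nm N : ℝ≥0∞) * c0 * hs2 * ENNReal.ofReal (n2 ζ / ‖δ‖ ^ 4) ≤
                  nm N * c0 * hs2 * (ENNReal.ofReal (D ^ 4) * ENNReal.ofReal (1 + n2 ζ)) := by
                gcongr
              have h11 := h4.trans (add_le_add h9 h10)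
              gcongr
          _ = _ := by rw [hκ2]; ring
      · have : iA D δ = 0 := Set.indicator_of_notMem hδ _
        rw [this]
        simp
    refine (lintegral_mono h3).trans ?_
    rw [lintegral_mul_const _ (measurable_iA D)]
    have h8 : ∫⁻ δ, iA D δ = volume (An D) := lintegral_indicator_one (measurableSet_An D)
    rw [h8]
    apply le_of_eq
    ring
  refine ne_top_of_le_ne_top ?_ (lintegral_mono_ae h2)
  rw [lintegral_const_mul' _ _ (ENNReal.mul_ne_top (ENNReal.add_ne_top.mpr ⟨hκ1t, hκ2t⟩)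
    (vol_An_ne_top D))]
  exact ENNReal.mul_ne_top (ENNReal.mul_ne_top (ENNReal.add_ne_top.mpr ⟨hκ1t, hκ2t⟩)
    (vol_An_ne_top D)) lint_GG3

/-- **Gram bound.** -/
theorem gram_fin {N : Eis} (hN : N ≠ 0) (D : ℝ) :
    ∫⁻ M, iA D (det2 M) * SG M * SG M ∂(nuS (GN N)) ≠ ∞ := by
  classical
  have := finite_Om hN
  have := Fintype.ofFinite (Om N)
  have e1 : ∀ M : K695.Frm, iA D (det2 M) * SG M * SG M =
      ∑' r : CR, (fun (M : K695.Frm) (r : Eis × Eis) => iA D (det2 M) * SG M * GE (rowv r M)) M r.1 := by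
    intro M
    simp only
    rw [ENNReal.tsum_mul_left]
    rfl
  simp_rw [e1]
  rw [unfold_lint hN (Φ := fun (M : K695.Frm) (r : Eis × Eis) => iA D (det2 M) * SG M * GE (rowv r M))
    (fun r => (((measurable_iA D).comp measurable_det2).mul measurable_SG).mul
      (measurable_GE.comp (measurable_rowv r.1)))
    (fun g M r => by
      change iA D (det2 ((g : SLE) • M)) * SG ((g : SLE) • M) * GE (rowv r.1 ((g : SLE) • M)) = _
      rw [det2_smul, SG_smul, rowv_smul])]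
  rw [tsum_fintype]
  rw [ne_eq, ENNReal.sum_eq_top]
  push Not
  intro ω _
  rw [lintegral_Sl hN]
  have e2 : ∀ M : K695.Frm, iA D (det2 ((sg ω.out)⁻¹ • M)) * SG ((sg ω.out)⁻¹ • M) *
      GE (rowv ω.out.1 ((sg ω.out)⁻¹ • M)) = iA D (det2 M) * SG M * GE M.2 := by
    intro M
    rw [det2_smul, SG_smul, rowv_smul]
    congr 2
    have h1 : ω.out.1 = br (sg ω.out) := (br_sg _).symm
    rw [h1, ← br_mul, mul_inv_cancel]
    simp [br, rowv]
  simp_rw [e2]
  exact slab_fin hN D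

end Crest.Agent.R017.Orth681
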