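import Crest.Agent.R017.OrthD_681

/-!
# Row 17, section A: orthogonality lemma, part E (helper681): the theorem (O3)

* `Cof N χ a` : bounded coefficient on coprime rows with `a (r g) = conj (χ g) a r`, `g ∈ Γ(N)`
* `TFD H` : test functions `H δ u` depending on the determinant
* `ED a H M = ∑_r a r * H (det M) (c η + d ζ)`; `continuousAt_ED`, `ED_smul`
* `CT N g D M` : constant term along the bottom row of `g`
* `orth` : all constant terms along the rows of the support vanish ⇒ `D = 0`.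
-/

set_option autoImplicit false

noncomputable section

open MeasureTheory Complex Set Filter
open scoped ENNReal ComplexConjugate Topology

namespace Crest.Agent.R017.Orth681

open Crest.Agent.R012 Crest.Agent.R012.Eis Crest.Agent.R012.K695 Crest.Agent.R012.AU681
  Crest.Agent.R012.Parseval499

/-- Equivariant coefficient functions. -/
structure Cof (N : Eis) (χ : GN N → ℂ) (a : Eis × Eis → ℂ) : Prop where
  bdd : ∃ K : ℝ, ∀ r, ‖a r‖ ≤ K
  cop : ∀ r, a r ≠ 0 → IsCoprime r.1 r.2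
  equiv : ∀ (g : GN N) r, a (rmulS r g) = conj (χ g) * a r

/-- Test functions depending on the determinant of the frame. -/
structure TFD (H : ℂ → Vec → ℂ) : Prop where
  cont : ContinuousOn (fun p : ℂ × Vec => H p.1 p.2) {p | p.1 ≠ 0}
  dec : ∀ D : ℝ, ∃ C : ℝ, ∀ δ ∈ An D, ∀ u, ‖H δ u‖ ≤ C * GG u

/-- The series. -/
def ED (a : Eis × Eis → ℂ) (H : ℂ → Vec → ℂ) (M : K695.Frm) : ℂ := EC a (H (det2 M)) M

lemma EC_eq_CR {a : Eis × Eis → ℂ} (hc : ∀ r, a r ≠ 0 → IsCoprime r.1 r.2) (F : Vec → ℂ)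
    (M : K695.Frm) : EC a F M = ∑' r : CR, a r.1 * F (rowv r.1 M) := by
  unfold EC
  symm
  apply tsum_subtype_eq_of_support_subset (f := fun r => a r * F (rowv r M))
    (s := {r : Eis × Eis | IsCoprime r.1 r.2})
  intro r hr
  exact hc r (left_ne_zero_of_mul hr)

lemma ED_eq {a : Eis × Eis → ℂ} (hc : ∀ r, a r ≠ 0 → IsCoprime r.1 r.2) (H : ℂ → Vec → ℂ)
    (M : K695.Frm) : ED a H M = ∑' r : CR, a r.1 * H (det2 M) (rowv r.1 M) := EC_eq_CR hc _ M

/-- Equivariance. -/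
lemma ED_smul {N : Eis} {χ : GN N → ℂ} (hχ : ∀ g, ‖χ g‖ = 1) {a : Eis × Eis → ℂ}
    (ha : Cof N χ a) (H : ℂ → Vec → ℂ) (g : GN N) (M : K695.Frm) :
    ED a H (g • M) = χ g * ED a H M := by
  rw [ED_eq ha.cop, ED_eq ha.cop, ← tsum_mul_left,
    ← (crEquiv (g : SLE)).tsum_eq (fun r : CR => χ g * (a r.1 * H (det2 M) (rowv r.1 M)))]
  refine tsum_congr fun r => ?_
  have e1 : ((crEquiv (g : SLE) r : CR) : Eis × Eis) = rmulS r.1 g := rfl
  change a r.1 * H (det2 ((g : SLE) • M)) (rowv r.1 ((g : SLE) • M)) = _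
  rw [det2_smul, rowv_smul, e1, ha.equiv]
  have h2 : χ g * conj (χ g) = 1 := by
    rw [Complex.mul_conj, Complex.normSq_eq_norm_sq, hχ]; simp
  linear_combination (-(a r.1 * H (det2 M) (rowv (rmulS r.1 g) M))) * h2

/-! ### Convergence and continuity -/

/-- majorant of a row. -/
def mjr (r : Eis × Eis) : ℝ := (((1 + (nm r.1 : ℝ)) ^ 2)⁻¹) * (((1 + (nm r.2 : ℝ)) ^ 2)⁻¹)

lemma summable_mj1 : Summable (fun x : Eis => ((1 + (nm x : ℝ)) ^ 2)⁻¹) := by
  have hs : Summable (fun h : Eis => 4 * (1 + ‖toC h‖) ^ (-(4 : ℝ))) :=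
    (Poisson381.summable_eis (by norm_num)).mul_left 4
  refine Summable.of_nonneg_of_le (fun _ => by positivity) (fun x => ?_) hs
  rw [Real.rpow_neg (by positivity)]
  have e : (1 + ‖toC x‖) ^ (4 : ℝ) = (1 + ‖toC x‖) ^ 4 := by
    rw [← Real.rpow_natCast]; norm_num
  rw [e, ← norm_toC_sq, inv_eq_one_div, ← div_eq_mul_inv,
    div_le_div_iff₀ (by positivity) (by positivity), one_mul]
  have h3 : (1 + ‖toC x‖) ^ 2 ≤ 2 * (1 + ‖toC x‖ ^ 2) := by nlinarith [sq_nonneg (‖toC x‖ - 1)]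
  have h4 : ((1 + ‖toC x‖) ^ 2) ^ 2 ≤ (2 * (1 + ‖toC x‖ ^ 2)) ^ 2 := by gcongr
  nlinarith

lemma summable_mjr : Summable mjr :=
  summable_mj1.mul_of_nonneg summable_mj1 (fun _ => by positivity) (fun _ => by positivity)

/-- bounded region. -/
def Ub (b : ℝ) : Set K695.Frm := {M | n2 M.1 + n2 M.2 < b ∧ 1 < b * ‖det2 M‖ ^ 2}

lemma isOpen_Ub (b : ℝ) : IsOpen (Ub b) := by
  have h1 : Continuous fun M : K695.Frm => n2 M.1 + n2 M.2 :=
    (continuous_n2.comp continuous_fst).add (continuous_n2.comp continuous_snd)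
  have h2 : Continuous fun M : K695.Frm => b * ‖det2 M‖ ^ 2 :=
    continuous_const.mul ((continuous_det2.norm).pow 2)
  exact (isOpen_lt h1 continuous_const).inter (isOpen_lt continuous_const h2)

lemma Ub_pos {b : ℝ} {M : K695.Frm} (h : M ∈ Ub b) : 0 < b := by
  have := h.1
  linarith [n2_nonneg M.1, n2_nonneg M.2]

lemma Ub_An {b : ℝ} (hb : 1 ≤ b) {M : K695.Frm} (h : M ∈ Ub b) : det2 M ∈ An b := by
  have h1 := h.1
  have h2 := h.2
  have h3 := normSq_det_le M.1 M.2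
  have hn1 := n2_nonneg M.1
  have hn2 := n2_nonneg M.2
  have hd := norm_nonneg (det2 M)
  constructor
  · by_contra hc
    rw [not_le] at hc
    have h4 : (b * ‖det2 M‖) ^ 2 < 1 := by
      have : 0 ≤ b * ‖det2 M‖ := by positivity
      nlinarith
    nlinarith
  · have h4 : ‖det2 M‖ ^ 2 ≤ b ^ 2 := by
      refine h3.trans ?_
      nlinarith
    exact (pow_le_pow_iff_left₀ hd (by linarith) (by norm_num)).mp h4

lemma exists_Ub {M : K695.Frm} (hM : det2 M ≠ 0) : ∃ b : ℝ, 1 ≤ b ∧ M ∈ Ub b := by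
  have hd : 0 < ‖det2 M‖ ^ 2 := by positivity
  have hn1 := n2_nonneg M.1
  have hn2 := n2_nonneg M.2
  refine ⟨1 + n2 M.1 + n2 M.2 + 2 * (‖det2 M‖ ^ 2)⁻¹, ?_, ?_, ?_⟩
  · have : 0 ≤ (‖det2 M‖ ^ 2)⁻¹ := by positivity
    linarith
  · have : 0 < (‖det2 M‖ ^ 2)⁻¹ := by positivity
    linarith
  · have h1 : (‖det2 M‖ ^ 2)⁻¹ * ‖det2 M‖ ^ 2 = 1 := inv_mul_cancel₀ hd.ne'
    nlinarith

lemma GG_row_le {b : ℝ} (hb : 1 ≤ b) {M : K695.Frm} (h : M ∈ Ub b) (r : Eis × Eis) :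
    GG (rowv r M) ≤ b ^ 8 * mjr r := by
  have hb0 : 0 < b := by linarith
  have h1 := row_bound r M
  have hn := n2_nonneg (rowv r M)
  have ha1 : (0 : ℝ) ≤ nm r.1 := Nat.cast_nonneg _
  have ha2 : (0 : ℝ) ≤ nm r.2 := Nat.cast_nonneg _
  have h2 : (nm r.1 : ℝ) + nm r.2 ≤ b ^ 2 * n2 (rowv r M) := by
    have h3 : ((nm r.1 : ℝ) + nm r.2) * 1 ≤ ((nm r.1 : ℝ) + nm r.2) * (b * ‖det2 M‖ ^ 2) := by
      have := h.2.le
      gcongr
    have h4 : n2 (rowv r M) * (n2 M.1 + n2 M.2) ≤ n2 (rowv r M) * b := by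
      have := h.1.le
      gcongr
    nlinarith
  have h5 : 1 + (nm r.1 : ℝ) ≤ b ^ 2 * (1 + n2 (rowv r M)) := by nlinarith
  have h6 : 1 + (nm r.2 : ℝ) ≤ b ^ 2 * (1 + n2 (rowv r M)) := by nlinarith
  unfold GG mjr
  rw [← mul_inv, inv_eq_one_div, ← div_eq_mul_inv, div_le_div_iff₀ (by positivity) (by positivity),
    one_mul]
  calc (1 + (nm r.1 : ℝ)) ^ 2 * (1 + (nm r.2 : ℝ)) ^ 2
      ≤ (b ^ 2 * (1 + n2 (rowv r M))) ^ 2 * (b ^ 2 * (1 + n2 (rowv r M))) ^ 2 := by gcongr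
    _ = _ := by ring

/-- **Continuity.** -/
theorem continuousAt_ED {a : Eis × Eis → ℂ} (hb : ∃ K : ℝ, ∀ r, ‖a r‖ ≤ K) {H : ℂ → Vec → ℂ}
    (hH : TFD H) {M : K695.Frm} (hM : det2 M ≠ 0) : ContinuousAt (ED a H) M := by
  obtain ⟨b, hb1, hMb⟩ := exists_Ub hM
  obtain ⟨K, hK⟩ := hb
  obtain ⟨C, hC⟩ := hH.dec b
  have hK0 : 0 ≤ K := (norm_nonneg _).trans (hK 0)
  have hco : ContinuousOn (ED a H) (Ub b) := by
    unfold ED EC
    refine continuousOn_tsum (u := fun r => K * (|C| * (b ^ 8 * mjr r))) (fun r => ?_)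
      (((summable_mjr.mul_left _).mul_left _).mul_left _) (fun r X hX => ?_)
    · refine continuousOn_const.mul ?_
      have h1 : ContinuousOn (fun X : K695.Frm => ((det2 X, rowv r X) : ℂ × Vec)) (Ub b) :=
        (continuous_det2.prodMk (continuous_rowv r)).continuousOn
      refine hH.cont.comp h1 ?_
      intro X hX
      exact An_ne (Ub_An hb1 hX)
    · rw [norm_mul]
      refine mul_le_mul (hK r) ?_ (norm_nonneg _) hK0
      refine (hC _ (Ub_An hb1 hX) _).trans ?_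
      have h2 := GG_row_le hb1 hX r
      have h3 := GG_nonneg (rowv r X)
      calc C * GG (rowv r X) ≤ |C| * GG (rowv r X) := by gcongr; exact le_abs_self C
        _ ≤ |C| * (b ^ 8 * mjr r) := by gcongr
  exact hco.continuousAt ((isOpen_Ub b).mem_nhds hMb)

end Crest.Agent.R017.Orth681
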