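import Crest.Agent.R017.OrthE_681

/-!
# Row 17, section A: orthogonality lemma, part F (helper681): the theorem (O3)

* `orth` : if the constant term of `D = ∑_i E_{a_i,H_i}` along every row of the support of every
  `a_i` vanishes, then `D = 0`.
-/

set_option autoImplicit false

noncomputable section

open MeasureTheory Complex Set Filter
open scoped ENNReal ComplexConjugate Topology

namespace Crest.Agent.R017.Orth681

open Crest.Agent.R012 Crest.Agent.R012.Eis Crest.Agent.R012.K695 Crest.Agent.R012.AU681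
  Crest.Agent.R012.Parseval499

/-- truncated test function. -/
def Hd (D : ℝ) (H : ℂ → Vec → ℂ) (δ : ℂ) (u : Vec) : ℂ := (An D).indicator (fun δ => H δ u) δ

lemma Hd_mem {D : ℝ} {H : ℂ → Vec → ℂ} {δ : ℂ} (h : δ ∈ An D) (u : Vec) : Hd D H δ u = H δ u := by
  unfold Hd; rw [Set.indicator_of_mem h]

lemma Hd_notMem {D : ℝ} {H : ℂ → Vec → ℂ} {δ : ℂ} (h : δ ∉ An D) (u : Vec) : Hd D H δ u = 0 := by
  unfold Hd; rw [Set.indicator_of_notMem h]

lemma measurable_Hd (D : ℝ) {H : ℂ → Vec → ℂ} (hH : TFD H) :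
    Measurable (fun p : ℂ × Vec => Hd D H p.1 p.2) := by
  classical
  have hs : MeasurableSet {p : ℂ × Vec | p.1 ∈ An D} := measurable_fst (measurableSet_An D)
  have h1 : (fun p : ℂ × Vec => Hd D H p.1 p.2) =
      {p : ℂ × Vec | p.1 ∈ An D}.piecewise (fun p => H p.1 p.2) 0 := by
    ext p
    by_cases h : p.1 ∈ An D
    · rw [Set.piecewise_eq_of_mem _ _ _ (show p ∈ {p : ℂ × Vec | p.1 ∈ An D} from h), Hd_mem h]
    · rw [Set.piecewise_eq_of_notMem _ _ _ (show p ∉ {p : ℂ × Vec | p.1 ∈ An D} from h), Hd_notMem h]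
      rfl
  rw [h1]
  exact ContinuousOn.measurable_piecewise (hH.cont.mono fun p hp => An_ne hp)
    continuousOn_const hs

lemma Hd_le (D : ℝ) {H : ℂ → Vec → ℂ} (hH : TFD H) :
    ∃ C : ℝ, 0 ≤ C ∧ ∀ δ u, ‖Hd D H δ u‖ₑ ≤ ENNReal.ofReal C * iA D δ * GE u := by
  obtain ⟨C, hC⟩ := hH.dec D
  refine ⟨|C|, abs_nonneg C, fun δ u => ?_⟩
  by_cases h : δ ∈ An D
  · rw [Hd_mem h]
    unfold iA
    rw [Set.indicator_of_mem h, Pi.one_apply, mul_one]
    unfold GE
    rw [← ENNReal.ofReal_mul (abs_nonneg C), ← ofReal_norm]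
    apply ENNReal.ofReal_le_ofReal
    refine (hC δ h u).trans ?_
    exact mul_le_mul_of_nonneg_right (le_abs_self C) (GG_nonneg u)
  · rw [Hd_notMem h]
    simp

/-- truncated series. -/
def TD (D : ℝ) (a : Eis × Eis → ℂ) (H : ℂ → Vec → ℂ) (M : K695.Frm) : ℂ :=
  ∑' r : CR, a r.1 * Hd D H (det2 M) (rowv r.1 M)

lemma TD_mem {D : ℝ} {a : Eis × Eis → ℂ} (hc : ∀ r, a r ≠ 0 → IsCoprime r.1 r.2)
    (H : ℂ → Vec → ℂ) {M : K695.Frm} (h : det2 M ∈ An D) : TD D a H M = ED a H M := by
  rw [ED_eq hc]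
  unfold TD
  exact tsum_congr fun r => by rw [Hd_mem h]

lemma TD_notMem {D : ℝ} {a : Eis × Eis → ℂ}
    (H : ℂ → Vec → ℂ) {M : K695.Frm} (h : det2 M ∉ An D) : TD D a H M = 0 := by
  unfold TD
  rw [← tsum_zero (β := CR)]
  exact tsum_congr fun r => by rw [Hd_notMem h, mul_zero]

lemma ED_continuousOn {a : Eis × Eis → ℂ} (hb : ∃ K : ℝ, ∀ r, ‖a r‖ ≤ K) {H : ℂ → Vec → ℂ}
    (hH : TFD H) : ContinuousOn (ED a H) {M | det2 M ≠ 0} :=
  fun _ hM => (continuousAt_ED hb hH hM).continuousWithinAt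

lemma measurable_TD (D : ℝ) {a : Eis × Eis → ℂ} (hb : ∃ K : ℝ, ∀ r, ‖a r‖ ≤ K)
    (hc : ∀ r, a r ≠ 0 → IsCoprime r.1 r.2) {H : ℂ → Vec → ℂ} (hH : TFD H) :
    Measurable (TD D a H) := by
  classical
  have hs : MeasurableSet {M : K695.Frm | det2 M ∈ An D} := measurable_det2 (measurableSet_An D)
  have h1 : TD D a H = {M : K695.Frm | det2 M ∈ An D}.piecewise (ED a H) 0 := by
    ext M
    by_cases h : det2 M ∈ An D
    · rw [Set.piecewise_eq_of_mem _ _ _ (show M ∈ {M : K695.Frm | det2 M ∈ An D} from h),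
        TD_mem hc H h]
    · rw [Set.piecewise_eq_of_notMem _ _ _ (show M ∉ {M : K695.Frm | det2 M ∈ An D} from h),
        TD_notMem H h]
      rfl
  rw [h1]
  exact ContinuousOn.measurable_piecewise
    ((ED_continuousOn hb hH).mono fun p hp => An_ne hp) continuousOn_const hs

lemma TD_le (D : ℝ) {a : Eis × Eis → ℂ} (hb : ∃ K : ℝ, ∀ r, ‖a r‖ ≤ K)
    {H : ℂ → Vec → ℂ} (hH : TFD H) : ∃ C : ℝ≥0∞, C ≠ ∞ ∧
      (∀ (r : CR) (M : K695.Frm), ‖a r.1 * Hd D H (det2 M) (rowv r.1 M)‖ₑ ≤
        C * iA D (det2 M) * GE (rowv r.1 M)) ∧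
      ∀ M, ‖TD D a H M‖ₑ ≤ C * iA D (det2 M) * SG M := by
  obtain ⟨K, hK⟩ := hb
  obtain ⟨C, hC0, hC⟩ := Hd_le D hH
  have hK0 : 0 ≤ K := (norm_nonneg _).trans (hK 0)
  have h1 : ∀ (r : CR) (M : K695.Frm), ‖a r.1 * Hd D H (det2 M) (rowv r.1 M)‖ₑ ≤
      (ENNReal.ofReal K * ENNReal.ofReal C) * iA D (det2 M) * GE (rowv r.1 M) := by
    intro r M
    rw [enorm_mul, mul_assoc (ENNReal.ofReal K), mul_assoc (ENNReal.ofReal K)]
    refine mul_le_mul' ?_ ?_
    · rw [← ofReal_norm]
      exact ENNReal.ofReal_le_ofReal (hK _)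
    · exact hC _ _
  refine ⟨ENNReal.ofReal K * ENNReal.ofReal C,
    ENNReal.mul_ne_top ENNReal.ofReal_ne_top ENNReal.ofReal_ne_top, h1, fun M => ?_⟩
  unfold TD SG
  refine enorm_tsum_le_tsum_enorm.trans ?_
  rw [← ENNReal.tsum_mul_left]
  exact ENNReal.tsum_le_tsum fun r => h1 r M

lemma TD_smul {N : Eis} {χ : GN N → ℂ} (hχ : ∀ g, ‖χ g‖ = 1) {a : Eis × Eis → ℂ}
    (ha : Cof N χ a) (D : ℝ) (H : ℂ → Vec → ℂ) (g : GN N) (M : K695.Frm) :
    TD D a H (g • M) = χ g * TD D a H M := by
  have hd : det2 (g • M) = det2 M := det2_smul (g : SLE) M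
  by_cases h : det2 M ∈ An D
  · rw [TD_mem ha.cop H h, TD_mem ha.cop H (by rwa [hd]), ED_smul hχ ha]
  · rw [TD_notMem H h, TD_notMem H (by rwa [hd]), mul_zero]

/-- bottom row of a frame written in the basis of `g`. -/
lemma rowv_inv_smul (g : SLE) (M : K695.Frm) : rowv (br g) (g⁻¹ • M) = M.2 := by
  rw [rowv_smul, ← br_mul, mul_inv_cancel]
  simp [br, rowv]

/-- **Orthogonality lemma (O3).** -/
theorem orth {N : Eis} (hN : N ≠ 0) {χ : GN N → ℂ} (hχ : ∀ g, ‖χ g‖ = 1)
    {ι : Type*} [Fintype ι] {a : ι → Eis × Eis → ℂ} {H : ι → ℂ → Vec → ℂ}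
    (ha : ∀ i, Cof N χ (a i)) (hH : ∀ i, TFD (H i))
    (h0 : ∀ i (g : SLE), a i (br g) ≠ 0 → ∀ M : K695.Frm, det2 M ≠ 0 →
      CT N g (fun M => ∑ j, ED (a j) (H j) M) M = 0)
    {M : K695.Frm} (hM : det2 M ≠ 0) : ∑ j, ED (a j) (H j) M = 0 := by
  classical
  -- truncated function
  have hT0 : ∀ D : ℝ, ∀ᵐ M ∂(volume : Measure K695.Frm), ∑ j, TD D (a j) (H j) M = 0 := by
    intro D
    set T : K695.Frm → ℂ := fun M => ∑ j, TD D (a j) (H j) M with hT
    have hTm : Measurable T :=
      Finset.measurable_sum _ fun j _ => measurable_TD D (ha j).bdd (ha j).cop (hH j)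
    choose C hCt hC1 hC2 using fun j => TD_le D (ha j).bdd (hH j)
    have hTle : ∀ M, ‖T M‖ₑ ≤ (∑ j, C j) * iA D (det2 M) * SG M := by
      intro M
      rw [Finset.sum_mul, Finset.sum_mul]
      exact (enorm_sum_le _ _).trans (Finset.sum_le_sum fun j _ => hC2 j M)
    have hCs : ∑ j, C j ≠ ∞ := by
      rw [ne_eq, ENNReal.sum_eq_top]
      push Not
      exact fun j _ => hCt j
    have hTs : ∀ (g : GN N) M, T (g • M) = χ g * T M := by
      intro g M
      rw [hT]
      simp only
      rw [Finset.mul_sum]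
      exact Finset.sum_congr rfl fun j _ => TD_smul hχ (ha j) D (H j) g M
    set ν := nuS (GN N) with hν
    have hGram := gram_fin hN D
    -- bound of a product
    have hprod : ∀ i, ∫⁻ M, ‖T M‖ₑ * (C i * iA D (det2 M) * SG M) ∂ν ≠ ∞ := by
      intro i
      have h1 : ∀ M, ‖T M‖ₑ * (C i * iA D (det2 M) * SG M) ≤
          ((∑ j, C j) * C i) * (iA D (det2 M) * SG M * SG M) := by
        intro M
        calc ‖T M‖ₑ * (C i * iA D (det2 M) * SG M)
            ≤ ((∑ j, C j) * iA D (det2 M) * SG M) * (C i * 1 * SG M) := by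
              gcongr
              · exact hTle M
              · exact iA_le_one D _
          _ = _ := by ring
      refine ne_top_of_le_ne_top ?_ (lintegral_mono h1)
      rw [lintegral_const_mul' _ _ (ENNReal.mul_ne_top hCs (hCt i))]
      exact ENNReal.mul_ne_top (ENNReal.mul_ne_top hCs (hCt i)) hGram
    -- unfolding
    have hzero : ∀ i, ∫ M, T M * conj (TD D (a i) (H i) M) ∂ν = 0 := by
      intro i
      let Ψ : K695.Frm → Eis × Eis → ℂ := fun M r => T M * conj (a i r * Hd D (H i) (det2 M) (rowv r M))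
      have e1 : ∀ M, T M * conj (TD D (a i) (H i) M) = ∑' r : CR, Ψ M r.1 := by
        intro M
        unfold TD
        rw [Complex.conj_tsum, ← tsum_mul_left]
      simp_rw [e1]
      have hmr : ∀ r : CR, Measurable (fun M : K695.Frm => Hd D (H i) (det2 M) (rowv r.1 M)) := by
        intro r
        exact (measurable_Hd D (hH i)).comp (measurable_det2.prodMk (measurable_rowv r.1))
      have hΨm : ∀ r : CR, Measurable (fun M => Ψ M r.1) := by
        intro r
        exact hTm.mul (Complex.continuous_conj.measurable.comp ((hmr r).const_mul _))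
      refine unfold_zero hN hΨm ?_ ?_ ?_
      · intro g M r
        change T (g • M) * conj (a i r.1 * Hd D (H i) (det2 ((g : SLE) • M)) (rowv r.1 ((g : SLE) • M))) =
          T M * conj (a i (rmulS r.1 g) * Hd D (H i) (det2 M) (rowv (rmulS r.1 g) M))
        rw [hTs, det2_smul, rowv_smul, (ha i).equiv]
        simp only [map_mul, Complex.conj_conj]
        ring
      · refine ne_top_of_le_ne_top (hprod i) (lintegral_mono fun M => ?_)
        simp only
        have h2 : ∀ r : CR, ‖Ψ M r.1‖ₑ ≤ ‖T M‖ₑ * (C i * iA D (det2 M) * GE (rowv r.1 M)) := by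
          intro r
          change ‖T M * conj (a i r.1 * Hd D (H i) (det2 M) (rowv r.1 M))‖ₑ ≤ _
          rw [enorm_mul]
          refine mul_le_mul' le_rfl ?_
          rw [← ofReal_norm, RCLike.norm_conj, ofReal_norm]
          exact hC1 i r M
        refine (ENNReal.tsum_le_tsum h2).trans (le_of_eq ?_)
        rw [ENNReal.tsum_mul_left, ENNReal.tsum_mul_left]
        rfl
      · intro r
        by_cases har : a i r.1 = 0
        · have : ∀ M, Ψ M r.1 = 0 := by
            intro M
            change T M * conj (a i r.1 * Hd D (H i) (det2 M) (rowv r.1 M)) = 0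
            rw [har, zero_mul, map_zero, mul_zero]
          simp_rw [this]
          simp
        · apply slab_zero hN (sg r) (hΨm r)
          intro M hM
          have hh := h0 i (sg r) (by rwa [br_sg]) M hM
          unfold CT at hh ⊢
          have e2 : ∀ x : ℂ, Ψ ((sg r)⁻¹ • ((M.1 + x • M.2, M.2) : K695.Frm)) r.1 =
              ((An D).indicator (fun _ => (1 : ℂ)) (det2 M) * conj (a i r.1 * Hd D (H i) (det2 M) M.2)) *
              ∑ j, ED (a j) (H j) ((sg r)⁻¹ • ((M.1 + x • M.2, M.2) : K695.Frm)) := by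
            intro x
            set M' : K695.Frm := (sg r)⁻¹ • ((M.1 + x • M.2, M.2) : K695.Frm) with hM'
            have hd' : det2 M' = det2 M := by
              rw [hM', det2_smul]
              unfold det2
              simp
              ring
            have hr' : rowv r.1 M' = M.2 := by
              have := rowv_inv_smul (sg r) ((M.1 + x • M.2, M.2) : K695.Frm)
              rwa [br_sg] at this
            change T M' * conj (a i r.1 * Hd D (H i) (det2 M') (rowv r.1 M')) = _
            rw [hd', hr']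
            have hT' : T M' = (An D).indicator (fun _ => (1 : ℂ)) (det2 M) * ∑ j, ED (a j) (H j) M' := by
              by_cases hmem : det2 M ∈ An D
              · rw [Set.indicator_of_mem hmem, one_mul, hT]
                exact Finset.sum_congr rfl fun j _ => TD_mem (ha j).cop _ (by rwa [hd'])
              · rw [Set.indicator_of_notMem hmem, zero_mul, hT]
                exact Finset.sum_eq_zero fun j _ => TD_notMem _ (by rwa [hd'])
            rw [hT']
            ring
          simp_rw [e2]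
          rw [integral_const_mul, hh, mul_zero]
    -- the norm
    have hint : ∀ i, Integrable (fun M => T M * conj (TD D (a i) (H i) M)) ν := by
      intro i
      refine ⟨(hTm.mul (Complex.continuous_conj.measurable.comp
        (measurable_TD D (ha i).bdd (ha i).cop (hH i)))).aestronglyMeasurable, ?_⟩
      refine lt_of_le_of_lt (lintegral_mono fun M => ?_) (hprod i).lt_top
      simp only
      rw [enorm_mul]
      refine mul_le_mul' le_rfl ?_
      rw [← ofReal_norm, RCLike.norm_conj, ofReal_norm]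
      exact hC2 i M
    have hsq : ∀ M, ((Complex.normSq (T M) : ℝ) : ℂ) = ∑ i, T M * conj (TD D (a i) (H i) M) := by
      intro M
      rw [← Finset.mul_sum, ← map_sum, ← Complex.mul_conj]
    have hsqi : Integrable (fun M => ((Complex.normSq (T M) : ℝ) : ℂ)) ν := by
      simp_rw [hsq]
      exact integrable_finsetSum _ fun i _ => hint i
    have hI : ∫ M, ((Complex.normSq (T M) : ℝ) : ℂ) ∂ν = 0 := by
      simp_rw [hsq]
      rw [integral_finsetSum _ fun i _ => hint i]
      exact Finset.sum_eq_zero fun i _ => hzero i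
    have hI2 : ∫ M, Complex.normSq (T M) ∂ν = 0 := by
      rw [integral_complex_ofReal] at hI
      exact_mod_cast hI
    have hsqr : Integrable (fun M => Complex.normSq (T M)) ν := by
      have := hsqi.re
      simpa using this
    have h3 := (integral_eq_zero_iff_of_nonneg (fun M => Complex.normSq_nonneg (T M)) hsqr).mp hI2
    -- back to the volume
    have hms : MeasurableSet {M : K695.Frm | T M ≠ 0} := (hTm (measurableSet_singleton 0)).compl
    have h4 : ν {M : K695.Frm | T M ≠ 0} = 0 := by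
      have h5 : ∀ᵐ M ∂ν, T M = 0 := by
        filter_upwards [h3] with M hM
        exact Complex.normSq_eq_zero.mp hM
      rw [ae_iff] at h5
      exact h5
    have h6 := ae_of_ae_nu (isWt_sub (GN N)) hms (fun g M => by
      simp only [Set.mem_ofPred_eq]
      rw [hTs]
      have : χ g ≠ 0 := by
        intro h
        have := hχ g
        rw [h, norm_zero] at this
        exact zero_ne_one this
      simp [this]) h4
    rw [ae_iff]
    exact h6
  -- continuity
  by_contra hne
  obtain ⟨b, hb1, hMb⟩ := exists_Ub hM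
  set DD : K695.Frm → ℂ := fun M => ∑ j, ED (a j) (H j) M with hDD
  have hcont : ContinuousOn DD (Ub b) := by
    apply continuousOn_finsetSum
    intro j _
    exact (ED_continuousOn (ha j).bdd (hH j)).mono fun X hX => An_ne (Ub_An hb1 hX)
  have hopen : IsOpen (Ub b ∩ DD ⁻¹' {0}ᶜ) := hcont.isOpen_inter_preimage (isOpen_Ub b) isOpen_compl_singleton
  have hpos : 0 < (volume : Measure K695.Frm) (Ub b ∩ DD ⁻¹' {0}ᶜ) :=
    hopen.measure_pos volume ⟨M, hMb, hne⟩
  have hz := hT0 b
  rw [ae_iff] at hz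
  have hsub : (Ub b ∩ DD ⁻¹' {0}ᶜ) ⊆ {M | ¬ ∑ j, TD b (a j) (H j) M = 0} := by
    rintro X ⟨hX1, hX2⟩ hX3
    apply hX2
    change DD X = 0
    rw [← hX3, hDD]
    exact Finset.sum_congr rfl fun j _ => (TD_mem (ha j).cop _ (Ub_An hb1 hX1)).symm
  exact (hpos.trans_le (measure_mono hsub)).ne' hz

end Crest.Agent.R017.Orth681
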