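import Crest.Agent.R017.Lev_146

/-!
# Row 17, C/D: the outer level rule at finite scale (helper146)

`outer_fin` : second moments of finitely many monomials (powers allowed) in the pieces `p j k` and a
certificate for all levels give a bound of the box `∑_{k ∈ S} ∏_j p_j(k)` (first powers).
-/

set_option autoImplicit false

noncomputable section

open Finset

namespace Crest.Agent.R017.Lev146

variable {ι J β : Type*}

lemma sqrt_pow_two_mul {x : ℝ} (hx : 0 ≤ x) (n : ℕ) : Real.sqrt x ^ (2 * n) = x ^ n := by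
  rw [pow_mul, Real.sq_sqrt hx]

/-- **outer level rule, finite scale.** -/
theorem outer_fin [Fintype J] {K : ℝ} (hK : 1 < K) (S : Finset ι) (p : J → ι → ℝ)
    (hp : ∀ j, ∀ k ∈ S, 0 ≤ p j k) {s : J → ℝ} (hs : ∀ j, ∀ k ∈ S, p j k ≤ K ^ s j)
    (Ys : Finset β) (n : β → J → ℕ) (b : β → ℝ)
    (hY : ∀ Y ∈ Ys, ∑ k ∈ S, ∏ j, p j k ^ (2 * n Y j) ≤ K ^ b Y)
    {B ε E : ℝ} (hε : 0 < ε)
    (hcert : ∀ x : J → ℝ, (∀ j, -B ≤ x j ∧ x j ≤ s j) →
      ∃ Y ∈ Ys, b Y - 2 * ∑ j, (n Y j : ℝ) * x j + ∑ j, x j ≤ E) :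
    ∑ k ∈ S, ∏ j, p j k ≤
      ((∏ j : J, (⌊(s j + B) / ε⌋₊ + 1) : ℕ) : ℝ) * K ^ (E + (Fintype.card J : ℝ) * ε) +
      (S.card : ℝ) * K ^ (∑ j, max (s j) 0 - B) := by
  classical
  have hK0 : (0 : ℝ) < K := by linarith
  set p' : J → ι → ℝ := fun j k => Real.sqrt (p j k) with hp'
  have hval : ∀ k ∈ S, ∀ m : J → ℕ, val p' m k = ∏ j, p j k ^ m j := by
    intro k hk m
    unfold val
    exact Finset.prod_congr rfl fun j _ => sqrt_pow_two_mul (hp j k hk) _
  have key := level_rule (K := K) hK S p' (fun j k _ => Real.sqrt_nonneg _)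
    (s := fun j => s j / 2)
    (fun j k hk => by
      simp only [hp']
      refine (Real.sqrt_le_sqrt (hs j k hk)).trans (le_of_eq ?_)
      rw [Real.sqrt_eq_rpow, ← Real.rpow_mul hK0.le]
      congr 1; ring)
    Ys (fun Y j => 2 * n Y j) (fun Y => -(2 * B * ∑ j, (n Y j : ℝ))) b
    (fun Y hYm T hT V _ hV => by
      refine weak_of_moment (p := p') (n := fun j => 2 * n Y j) (S := S) ?_ T hT V hV
      refine le_trans (le_of_eq ?_) (hY Y hYm)
      exact Finset.sum_congr rfl fun k hk => hval k hk _)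
    (m := fun _ => 1) (fun _ => le_rfl) (B := B / 2) (ε := ε / 2) (E := E) (by positivity)
    (fun x hx => by
      obtain ⟨Y, hYm, hE⟩ := hcert (fun j => 2 * x j) (fun j => by
        have := hx j
        constructor <;> linarith [this.1, this.2])
      refine ⟨Y, hYm, ?_, ?_⟩
      · unfold lin
        rw [← sub_nonneg]
        have : 2 * ∑ j, ((2 * n Y j : ℕ) : ℝ) * x j - -(2 * B * ∑ j, (n Y j : ℝ)) =
            4 * ∑ j, (n Y j : ℝ) * (x j + B / 2) := by
          simp only [mul_add, Finset.sum_add_distrib]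
          rw [← Finset.sum_mul]
          have e1 : ∑ j, ((2 * n Y j : ℕ) : ℝ) * x j = 2 * ∑ j, (n Y j : ℝ) * x j := by
            rw [Finset.mul_sum]
            exact Finset.sum_congr rfl fun j _ => by push_cast; ring
          rw [e1]; ring
        rw [this]
        refine mul_nonneg (by norm_num) (Finset.sum_nonneg fun j _ => ?_)
        exact mul_nonneg (Nat.cast_nonneg _) (by linarith [(hx j).1])
      · refine le_trans (le_of_eq ?_) hE
        unfold lin
        have e1 : ∑ j, ((2 * n Y j : ℕ) : ℝ) * x j = ∑ j, (n Y j : ℝ) * (2 * x j) :=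
          Finset.sum_congr rfl fun j _ => by push_cast; ring
        have e2 : (2 : ℝ) * ∑ j, ((1 : ℕ) : ℝ) * x j = ∑ j, 2 * x j := by
          rw [Finset.mul_sum]
          exact Finset.sum_congr rfl fun j _ => by push_cast; ring
        rw [e1, e2])
  have e0 : ∑ k ∈ S, val p' (fun _ => 1) k = ∑ k ∈ S, ∏ j, p j k :=
    Finset.sum_congr rfl fun k hk => by rw [hval k hk]; simp
  rw [e0] at key
  refine key.trans (le_of_eq ?_)
  congr 1
  · congr 1
    · unfold cells
      congr 1
      refine Finset.prod_congr rfl fun j _ => ?_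
      congr 2
      field_simp
    · congr 1
      unfold lin
      simp only [Nat.cast_one, one_mul, Finset.sum_const, Finset.card_univ, nsmul_eq_mul]
      ring
  · congr 2
    unfold lin
    have e1 : (2 : ℝ) * ∑ j, ((1 : ℕ) : ℝ) * max (s j / 2) 0 = ∑ j, max (s j) 0 := by
      rw [Finset.mul_sum]
      refine Finset.sum_congr rfl fun j _ => ?_
      rcases le_total (s j) 0 with h | h
      · rw [max_eq_right h, max_eq_right (by linarith)]; simp
      · rw [max_eq_left h, max_eq_left (by linarith)]; push_cast; ring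
    rw [e1]; ring

end Crest.Agent.R017.Lev146
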