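import Crest.Agent.R017.LfX_986
import Crest.Agent.R017.E2Xb_764
import Crest.Agent.R017.MnXd_385

/-!
# Row 17, exceptional class, P1X (helper385): the cross error of the differences from its pieces

* `lnP_S` : the lengths of the parents of the exact square
* **`mn_H`** : the main term `MnGU` from the frame `FrH`
* **`e2x_H`** : `E2XU` from the frame `FrH`, the T-claims `CBK`, `RpGU`, `EtGeU`, `CrGU`
* **`e2x_E`** : `E2XU` at the reduced data from `RpGU`, `EtGeU`, `CrGU`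
* **`p10x_E`** : `P10X` from `RpGU`, `EtGeU`, `CrGU`, `E3XU`
-/

set_option autoImplicit false
set_option linter.unusedVariables false

noncomputable section

open Finset MeasureTheory
open scoped ComplexConjugate Classical

namespace Crest.Agent.R017.P10F385

open Crest.Agent.R012 Crest.Agent.R012.Eis Crest.Agent.R012.MC Crest.Agent.R012.Gauss880
open Crest.Agent.R017.C70
open Crest.Agent.R017.B770
open Crest.Agent.R017.FE47 (PU cx SM)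
open Crest.Agent.R017.Prov71 Crest.Agent.R017.ER911 Crest.Agent.R017.SC777
open Crest.Agent.R017.I1146 (X2 c3 c3_nonneg LipS LN)
open Crest.Agent.R017.UM71 Crest.Agent.R017.End699
open Crest.Agent.R017.E5B71 Crest.Agent.R017.E5P571 Crest.Agent.R017.E5L770
open Crest.Agent.R017.ExBox960 Crest.Agent.R017.ExP960
open Crest.Agent.R017.Sf770
open Crest.Agent.R017.P1e54 Crest.Agent.R017.P1f54 Crest.Agent.R017.P1k54
open Crest.Agent.R017.P1l54 (ParOK)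
open Crest.Agent.R017.P1t54 (ParS LS0 parOK_Sq5)
open Crest.Agent.R017.P1X960
open Crest.Agent.R017.Sup271 (NPm)
open Crest.Agent.R017.PX764 (Dk)
open Crest.Agent.R017.TM708 (PD R5 T5 K5)
open Crest.Agent.R017.TK708 (sh5 FE2G AllT cb_K)
open Crest.Agent.R017.P10X764
open Crest.Agent.R017.E2G764 (MnG MnGU RpGU EtGeU CrGU)
open Crest.Agent.R017.E3Nx744 (CBA thK)
open Crest.Agent.R017.FrX579 (lmX)
open Crest.Agent.R017.E3Fw579 (FrH)
open Crest.Agent.R017.MnX385 (LnP mnX_of)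
open Crest.Agent.R017.D5X939 (D5X D5X_compact)
open Crest.Agent.R017.NrX986 (NearAllX Tf1 bN_mem bR_mem rg_D)
open Crest.Agent.R017.Red848 (red Exc red_ok)
open Crest.Agent.R017.XS0298 (S0x S0K)

/-- the lengths of the parents of the exact square -/
lemma lnP_S {A d : ℝ} (hd : 0 ≤ d) (hd1 : d ≤ 1 / 8) (hA1 : 16 * (1 - A) ≤ d)
    {p : Fin 3 ⊕ Fin 5 → ℝ} (hp : p ∈ ParS A d) : LnP p := by
  obtain ⟨k0, k1, u4, u34, u23, y27, n0, n1, x0, hx⟩ := P10146.sq_facts hd hd1 hA1 hp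
  refine ⟨by linarith, ?_⟩
  rcases hx with h | ⟨h1, h2, h3⟩
  · exact Or.inl ⟨by linarith, Or.inl h⟩
  · exact Or.inr ⟨n0, by linarith, by linarith⟩

/-- **the main term** in the frame `FrH` -/
theorem mn_H {Λ : Type*} {π : Λ → DPar} {h : ℝ → ℝ} {c₀ Rh e0 c β : ℝ}
    {Par : Set (Fin 3 ⊕ Fin 5 → ℝ)} {D5 : Set (Fin 5 → ℝ)} {ℓ Kf Tf Tt : (Fin 5 → ℝ) → ℝ}
    {L0 : (Fin 3 ⊕ Fin 5 → ℝ) → ℝ} (H : FrH π h c₀ Rh e0 c β Par D5 ℓ Kf Tf Tt L0)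
    (hLn : ∀ p ∈ Par, LnP p) {et : BcX → List Pq → ℕ → ℝ} (het0 : ∀ a qs j, 0 ≤ et a qs j)
    (het : ∀ a qs j, 2 * LN (clN a qs) - a.1.l - Real.log 2 * j ≤ et a qs j) :
    MnGU (alX π h) (okX π) e0 c et β Par DifL L0 Rh := by
  intro R hR
  have key := mnX_of H.hpu H.hP H.hex H.hRh0 H.hRh H.he0 (H.he0'.trans (by norm_num)) H.hc0 H.hc1
    H.hPar hLn H.hDN H.hDR H.hR5 H.hKN H.hKR H.hTN H.hTR H.hcb H.hL0 H.hbt.bt et het0 het R hR
  have e : MnG (alX π h) (okX π) e0 c et Rh R = fun lam a qs =>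
      if okCX (π lam.1) lam.2 a qs ∧ okD a then
        ∑ j ∈ range (nw c a), Real.exp (-(et a qs j / 3)) *
          ‖((pC * c3 (wM (R lam.1)) (Real.exp a.1.l) : ℝ) : ℂ) * X2 (YcX Rh a qs)
            (Real.exp (e0 * a.1.l)) (JS (nw c a)) (omL j) (alX π h lam a qs)‖
      else 0 := by
    funext lam a qs
    unfold E2G764.MnG
    by_cases hok : okCX (π lam.1) lam.2 a qs ∧ okD a
    · rw [if_pos hok, if_pos (show okX π lam a qs from hok)]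
    · rw [if_neg hok, if_neg (show ¬ okX π lam a qs from hok)]
  rw [e]
  exact key

/-- the loss of the T-claims is at most `lmX` -/
lemma ell_lmX {ℓ Kf Tf : (Fin 5 → ℝ) → ℝ} (p : IX5 → ℝ) :
    0 ≤ lmX ℓ Kf Tf p ∧ ℓ (bN p) ≤ lmX ℓ Kf Tf p ∧ ℓ (bR p) ≤ lmX ℓ Kf Tf p := by
  have h1 : 0 ≤ thK Kf Tf (bN p) := le_max_left _ _
  have h2 : 0 ≤ thK Kf Tf (bR p) := le_max_left _ _
  have h3 : thK Kf Tf (bN p) + ℓ (bN p) ≤ lmX ℓ Kf Tf p :=
    (le_max_left _ _).trans (le_max_right _ _)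
  have h4 : thK Kf Tf (bR p) + ℓ (bR p) ≤ lmX ℓ Kf Tf p :=
    (le_max_right _ _).trans (le_max_right _ _)
  exact ⟨le_max_left _ _, by linarith, by linarith⟩

/-- **`E2XU` in the frame `FrH`** -/
theorem e2x_H {Λ : Type*} {π : Λ → DPar} {h : ℝ → ℝ} {c₀ Rh e0 c β : ℝ}
    {Par : Set (Fin 3 ⊕ Fin 5 → ℝ)} {D5 : Set (Fin 5 → ℝ)} {ℓ Kf Tf Tt : (Fin 5 → ℝ) → ℝ}
    {L0 : (Fin 3 ⊕ Fin 5 → ℝ) → ℝ} (H : FrH π h c₀ Rh e0 c β Par D5 ℓ Kf Tf Tt L0)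
    (hLn : ∀ p ∈ Par, LnP p)
    (hx4 : ∀ p ∈ Par, cx' p ≤ 0 ∨ 5 / 2 * cN p + 4 * cx' p ≤ 2 * cκ p)
    {Tk : (Fin 5 → ℝ) → ℝ} {sh : ℝ → ℝ → ℝ → ℝ → ℝ → ℝ → ℝ}
    (hLip : ∀ k5 x p, LipS 3 (sh k5 x p))
    (hTN : ∀ (p : IX5 → ℝ) (v₀ v₁ v₂ b x' : ℝ), ChC c β Par p v₀ v₁ v₂ b x' →
      DifL p v₀ v₁ v₂ → tpW c p b ≤ Tk (bN p))
    (hTR : ∀ (p : IX5 → ℝ) (v₀ v₁ v₂ b x' : ℝ), ChC c β Par p v₀ v₁ v₂ b x' →
      DifL p v₀ v₁ v₂ → tpW c p b ≤ Tk (bR p))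
    (hcb : CBK π h Dk sh Kf Tk D5 ℓ)
    {et : BcX → List Pq → ℕ → ℝ} (het0 : ∀ a qs j, 0 ≤ et a qs j)
    (het : ∀ a qs j, 2 * LN (clN a qs) - a.1.l - Real.log 2 * j ≤ et a qs j)
    (rp : RpGU (alX π h) (okX π) e0 c et β Par DifL L0 (ShX sh))
    (ett : EtGeU (alX π h) (okX π) e0 c et β Par DifL L0)
    (cr : CrGU (alX π h) (okX π) e0 c et β Par DifL L0) :
    E2XU π h e0 c Rh β Par L0 := by
  have hl := fun p => ell_lmX (ℓ := ℓ) (Kf := Kf) (Tf := Tf) p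
  exact e2X_of H.hpu H.hP H.hex H.hRh0 H.hRh H.he0 (H.he0'.trans (by norm_num)) H.hc0 H.hc1 het0
    H.hPar hx4 hLip H.hDN H.hDR H.hR5 H.hKN H.hKR
    (fun p hp hz => by linarith [H.hL0 p hp hz, (hl p).1])
    (fun p hp hz => by linarith [H.hL0 p hp hz, (hl p).2.1])
    (fun p hp hz => by linarith [H.hL0 p hp hz, (hl p).2.2])
    hTN hTR hcb rp ett cr (mn_H H hLn het0 het)

section red

variable {Λ : Type*} {π : Λ → DPar} {h : ℝ → ℝ} {c₀ : ℝ} {A d : ℝ}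

/-- **the T-claims at `(K5, T5)`** of the reduced data -/
theorem cbk_5 (hpu : PU h c₀) (hP : ∀ lam, (π lam).OK) (hE : ∀ lam, Exc (π lam)) (hd : 0 ≤ d)
    (hAll : AllT d (ex Dq fun lam => S0K Dk (red (π lam)) h))
    (hFE : FE2G (ex Dq fun lam => S0K Dk (red (π lam)) h) D5X K5 T5 fun b => 3 / 4 * d * b 0) :
    CBK (fun lam => red (π lam)) h Dk sh5 K5 T5 D5X fun b => 3 / 4 * d * b 0 := by
  have h1 := cb_K (π := fun lam => red (π lam)) hpu (fun lam => red_ok (hP lam) (hE lam)) hAll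
    LfX986.K5_cont TM708.T5_cont D5X_compact (fun b hb => rg_D hb)
    (ℓ := fun b => 3 / 4 * d * b 0) (by fun_prop)
    (fun b hb => mul_nonneg (by linarith) hb.1.k0) hFE
  intro ε hε
  exact h1 ε hε

/-- **`E2XU` at the reduced data** -/
theorem e2x_E (hpu : PU h c₀) (hP : ∀ lam, (π lam).OK) (hE : ∀ lam, Exc (π lam))
    (hd : 0 ≤ d) (hd1 : d ≤ 1 / 42) (hA : 9 / 10 ≤ A) (hA0 : A ≤ 1) (hA1 : 16 * (1 - A) ≤ d)
    (hAll : AllT d (ex Dq fun lam => S0K Dk (red (π lam)) h))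
    (hFE : FE2G (ex Dq fun lam => S0K Dk (red (π lam)) h) D5X K5 T5 fun b => 3 / 4 * d * b 0)
    {Rh : ℝ} (hRh0 : 0 ≤ Rh) (hRh : ∀ u, cx h u ≠ 0 → |u| ≤ Rh)
    {et : BcX → List Pq → ℕ → ℝ} (het0 : ∀ a qs j, 0 ≤ et a qs j)
    (het : ∀ a qs j, 2 * LN (clN a qs) - a.1.l - Real.log 2 * j ≤ et a qs j)
    (rp : RpGU (alX (fun lam => red (π lam)) h) (okX fun lam => red (π lam)) (1 / 64) (d / 4) et
      (17 / 100) (ParS A d) DifL (LS0 d) (ShX sh5))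
    (ett : EtGeU (alX (fun lam => red (π lam)) h) (okX fun lam => red (π lam)) (1 / 64) (d / 4) et
      (17 / 100) (ParS A d) DifL (LS0 d))
    (cr : CrGU (alX (fun lam => red (π lam)) h) (okX fun lam => red (π lam)) (1 / 64) (d / 4) et
      (17 / 100) (ParS A d) DifL (LS0 d)) :
    E2XU (fun lam => red (π lam)) h (1 / 64) (d / 4) Rh (17 / 100) (ParS A d) (LS0 d) := by
  have H := LfX986.frH_E hpu hP hE hd hd1 hA hA0 hA1 hAll hFE hRh0 hRh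
  have ht : ∀ p : IX5 → ℝ, prX p ∈ ParS A d → ∀ b : ℝ, tpW (d / 4) p b ≤ T5 (bN p) :=
    fun p hp b => (min_le_left _ _).trans (LfP986.top5_le hd hd1 hA1 hp)
  exact e2x_H H (fun p hp => lnP_S hd (by linarith) hA1 hp)
    (fun p hp => P10146.hx4_of hd (by linarith) hA1 hp) P10146.lipS_Sh5
    (fun p v₀ v₁ v₂ b x' hch hD => ht p hch.par b)
    (fun p v₀ v₁ v₂ b x' hch hD => (ht p hch.par b).trans (LfP986.T5_bR p).ge)
    (cbk_5 hpu hP hE hd hAll hFE) het0 het rp ett cr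

/-- **`P10X` from the pieces** -/
theorem p10x_R (hpu : PU h c₀) (hP : ∀ lam, (π lam).OK) (hE : ∀ lam, Exc (π lam))
    (hd : 0 ≤ d) (hd1 : d ≤ 1 / 42) (hA : 9 / 10 ≤ A) (hA0 : A ≤ 1) (hA1 : 16 * (1 - A) ≤ d)
    (hAll : AllT d (ex Dq fun lam => S0K Dk (red (π lam)) h))
    (hFE : FE2G (ex Dq fun lam => S0K Dk (red (π lam)) h) D5X K5 T5 fun b => 3 / 4 * d * b 0)
    (hFE1 : FE2G (ex Dq fun lam => S0K Dk (red (π lam)) h) D5X NrX986.Kf1 Tf1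
      fun b => 3 / 4 * d * b 0)
    {Rh : ℝ} (hRh0 : 0 ≤ Rh) (hRh : ∀ u, cx h u ≠ 0 → |u| ≤ Rh)
    {et : BcX → List Pq → ℕ → ℝ} (het0 : ∀ a qs j, 0 ≤ et a qs j)
    (het : ∀ a qs j, 2 * LN (clN a qs) - a.1.l - Real.log 2 * j ≤ et a qs j)
    (rp : RpGU (alX (fun lam => red (π lam)) h) (okX fun lam => red (π lam)) (1 / 64) (d / 4) et
      (17 / 100) (ParS A d) DifL (LS0 d) (ShX sh5))
    (ett : EtGeU (alX (fun lam => red (π lam)) h) (okX fun lam => red (π lam)) (1 / 64) (d / 4) et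
      (17 / 100) (ParS A d) DifL (LS0 d))
    (cr : CrGU (alX (fun lam => red (π lam)) h) (okX fun lam => red (π lam)) (1 / 64) (d / 4) et
      (17 / 100) (ParS A d) DifL (LS0 d))
    (e3 : E3XU (fun lam => red (π lam)) h (1 / 64) (d / 4) Rh (17 / 100) (ParS A d) (LS0 d)) :
    P10X π h (1 / 64) (d / 4) (17 / 100) (ParS A d) (LS0 d) :=
  LfP986.p10x_of hpu hP hE hd hd1 hA hA0 hA1 hAll hFE1 hRh0 hRh
    (e2x_E hpu hP hE hd hd1 hA hA0 hA1 hAll hFE hRh0 hRh het0 het rp ett cr) e3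

end red

end Crest.Agent.R017.P10F385
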