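import Crest.Agent.R017.E3Uy_744
import Crest.Agent.R017.P10F_385
import Crest.Agent.R017.E2Sb_764
import Crest.Agent.R017.MnW_829

/-!
# Row 17, exceptional class, P1S (helper764): the cross error of the single lists from its pieces

* `th_S` : the own family has no loss
* **`e2s_H`** : `E2SU` from the frame `FrHS`, the T-claims `CBK`, `RpGU`, `EtGeU`, `CrGU`
* **`e2s_E`** : `E2SU` at the reduced data from `RpGU`, `EtGeU`, `CrGU`
-/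

set_option autoImplicit false
set_option linter.unusedVariables false

noncomputable section

open Finset MeasureTheory
open scoped ComplexConjugate Classical

namespace Crest.Agent.R017.P10FS764

open Crest.Agent.R012 Crest.Agent.R012.Eis
open Crest.Agent.R017.B770
open Crest.Agent.R017.FE47 (PU cx SM)
open Crest.Agent.R017.Prov71 Crest.Agent.R017.ER911 Crest.Agent.R017.SC777
open Crest.Agent.R017.I1146 (LipS LN)
open Crest.Agent.R017.E5B71 Crest.Agent.R017.E5P571 Crest.Agent.R017.E5L770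
open Crest.Agent.R017.ExBox960 Crest.Agent.R017.ExP960
open Crest.Agent.R017.P1t54 (ParS LS0 parOK_Sq5)
open Crest.Agent.R017.P1X960
open Crest.Agent.R017.PX764 (Dk)
open Crest.Agent.R017.TM708 (T5 K5)
open Crest.Agent.R017.TK708 (sh5 FE2G AllT)
open Crest.Agent.R017.P10X764
open Crest.Agent.R017.E2G764 (MnGU RpGU EtGeU CrGU)
open Crest.Agent.R017.E3Nx744 (CBA thK)
open Crest.Agent.R017.FrX579 (lmX)
open Crest.Agent.R017.D5X939 (D5X)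
open Crest.Agent.R017.Red848 (red Exc red_ok)
open Crest.Agent.R017.XS0298 (S0x S0K)
open Crest.Agent.R017.LfX986 (T9 K5_bN K5_bR T9_bN T9_bR thK_bN)

/-- the own family has no loss at the exact square -/
lemma th_S {A d : ℝ} (hd : 0 ≤ d) (hd1 : d ≤ 1 / 8) (hA1 : 16 * (1 - A) ≤ d) {p : IX5 → ℝ}
    (hp : prX p ∈ ParS A d) {c b : ℝ} :
    tpW c p b ≤ max (cκ (prX p)) (5 / 4 * cN (prX p)) - cN (prX p) / 2 - cx' (prX p) := by
  have h1 : tpW c p b ≤ top5 (prX p) := min_le_left _ _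
  have h2 := thK_bN hd hd1 hA1 hp
  have h3 := E3Nx744.le_thK K5 T9 (bN p)
  rw [h2, T9_bN, K5_bN] at h3
  have e3 : bN p 1 + bN p 2 + bN p 3 = cN (prX p) := rfl
  have e4 : bN p 4 = cx' (prX p) := rfl
  rw [e3, e4] at h3
  linarith

/-- **`E2SU` in the frame `FrHS`** -/
theorem e2s_H {Λ : Type*} {π : Λ → DPar} {h : ℝ → ℝ} {c₀ Rh e0 c β : ℝ}
    {Par : Set (Fin 3 ⊕ Fin 5 → ℝ)} {D5 : Set (Fin 5 → ℝ)} {ℓ Kf Tf Tt : (Fin 5 → ℝ) → ℝ}
    {L0 : (Fin 3 ⊕ Fin 5 → ℝ) → ℝ}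
    (H : E3Sw829.FrHS π h c₀ Rh e0 c β Par D5 ℓ Kf Tf Tt L0)
    (hx4 : ∀ p ∈ Par, cx' p ≤ 0 ∨ 5 / 2 * cN p + 4 * cx' p ≤ 2 * cκ p)
    (hθ : ∀ (p : IX5 → ℝ) (v₀ v₁ v₂ b x' : ℝ), ChC c β Par p v₀ v₁ v₂ b x' →
      SinL β p v₀ v₁ v₂ → tpW c p b ≤ max (cκ (prX p)) (5 / 4 * cN (prX p)) -
        cN (prX p) / 2 - cx' (prX p))
    {Tk : (Fin 5 → ℝ) → ℝ} {sh : ℝ → ℝ → ℝ → ℝ → ℝ → ℝ → ℝ}
    (hLip : ∀ k5 x p, LipS 3 (sh k5 x p))
    (hTN : ∀ (p : IX5 → ℝ) (v₀ v₁ v₂ b x' : ℝ), ChC c β Par p v₀ v₁ v₂ b x' →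
      SinL β p v₀ v₁ v₂ → tpW c p b ≤ Tk (bN p))
    (hTR : ∀ (p : IX5 → ℝ) (v₀ v₁ v₂ b x' : ℝ), ChC c β Par p v₀ v₁ v₂ b x' →
      SinL β p v₀ v₁ v₂ → tpW c p b ≤ Tk (bR p))
    (hcb : CBK π h Dk sh Kf Tk D5 ℓ)
    {et : BcX → List Pq → ℕ → ℝ} (het0 : ∀ a qs j, 0 ≤ et a qs j)
    (het : ∀ a qs (j : ℕ), 2 * LN (clN a qs) - a.1.l - Real.log 2 * j ≤ et a qs j)
    (rp : RpGU (alS π h) (okS π) e0 c et β Par (SinL β) L0 (ShS sh))
    (ett : EtGeU (alS π h) (okS π) e0 c et β Par (SinL β) L0)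
    (cr : CrGU (alS π h) (okS π) e0 c et β Par (SinL β) L0) :
    E2SU π h e0 c Rh β Par L0 := by
  have hl := fun p => P10F385.ell_lmX (ℓ := ℓ) (Kf := Kf) (Tf := Tf) p
  have mn : MnGU (alS π h) (okS π) e0 c et β Par (SinL β) L0 Rh :=
    MnS829.mnGU_S H.hpu H.hP H.hRh0 H.hRh (e0 := e0) H.hc0 H.hc1 H.hPar H.hDN H.hDR H.hR5 H.hKN
      H.hKR (fun p hp hz => by linarith [H.hL0 p hp hz, (hl p).2.1])
      (fun p hp hz => by linarith [H.hL0 p hp hz, (hl p).2.2]) hθ H.hTN H.hTR H.hcb H.hbt het0 het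
  exact e2S_of H.hpu H.hP H.hRh0 H.hRh H.he0 (H.he0'.trans (by norm_num)) H.hc0 H.hc1 het0
    H.hPar hx4 hLip H.hDN H.hDR H.hR5 H.hKN H.hKR
    (fun p hp hz => by linarith [H.hL0 p hp hz, (hl p).1])
    (fun p hp hz => by linarith [H.hL0 p hp hz, (hl p).2.1])
    (fun p hp hz => by linarith [H.hL0 p hp hz, (hl p).2.2])
    hTN hTR hcb rp ett cr mn

section red

variable {Λ : Type*} {π : Λ → DPar} {h : ℝ → ℝ} {c₀ : ℝ} {A d : ℝ}

/-- **`E2SU` at the reduced data** -/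
theorem e2s_E (hpu : PU h c₀) (hP : ∀ lam, (π lam).OK) (hE : ∀ lam, Exc (π lam))
    (hd : 0 ≤ d) (hd1 : d ≤ 1 / 42) (hA : 9 / 10 ≤ A) (hA1 : 16 * (1 - A) ≤ d)
    (hAll : AllT d (ex Dq fun lam => S0K Dk (red (π lam)) h))
    (hFE : FE2G (ex Dq fun lam => S0K Dk (red (π lam)) h) D5X K5 T5 fun b => 3 / 4 * d * b 0)
    {Rh : ℝ} (hRh0 : 0 ≤ Rh) (hRh : ∀ u, cx h u ≠ 0 → |u| ≤ Rh)
    {et : BcX → List Pq → ℕ → ℝ} (het0 : ∀ a qs j, 0 ≤ et a qs j)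
    (het : ∀ a qs (j : ℕ), 2 * LN (clN a qs) - a.1.l - Real.log 2 * j ≤ et a qs j)
    (rp : RpGU (alS (fun lam => red (π lam)) h) (okS fun lam => red (π lam)) (1 / 64) (d / 4) et
      (17 / 100) (ParS A d) (SinL (17 / 100)) (LS0 d) (ShS sh5))
    (ett : EtGeU (alS (fun lam => red (π lam)) h) (okS fun lam => red (π lam)) (1 / 64) (d / 4) et
      (17 / 100) (ParS A d) (SinL (17 / 100)) (LS0 d))
    (cr : CrGU (alS (fun lam => red (π lam)) h) (okS fun lam => red (π lam)) (1 / 64) (d / 4) et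
      (17 / 100) (ParS A d) (SinL (17 / 100)) (LS0 d)) :
    E2SU (fun lam => red (π lam)) h (1 / 64) (d / 4) Rh (17 / 100) (ParS A d) (LS0 d) := by
  have H := E3Ux744.frHS_E hpu hP hE hd hd1 hA hA1 hAll hFE hRh0 hRh
  have ht : ∀ p : IX5 → ℝ, prX p ∈ ParS A d → ∀ b : ℝ, tpW (d / 4) p b ≤ T5 (bN p) :=
    fun p hp b => (min_le_left _ _).trans (LfP986.top5_le hd hd1 hA1 hp)
  exact e2s_H H (fun p hp => P10146.hx4_of hd (by linarith) hA1 hp)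
    (fun p v₀ v₁ v₂ b x' hch hD => th_S hd (by linarith) hA1 hch.par) P10146.lipS_Sh5
    (fun p v₀ v₁ v₂ b x' hch hD => ht p hch.par b)
    (fun p v₀ v₁ v₂ b x' hch hD => (ht p hch.par b).trans (LfP986.T5_bR p).ge)
    (P10F385.cbk_5 hpu hP hE hd hAll hFE) het0 het rp ett cr

end red

end Crest.Agent.R017.P10FS764
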