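import Crest.Agent.R017.MnW_829
import Crest.Agent.R017.E2Sb_764
import Crest.Agent.R017.LfX_986

/-!
# Row 17, class E, P1 (helper829): `E2SU` and `P10S` from the pieces, single lists

* `cbk_5` : helper764's `CBK` at `(K5, T5)`, `D5X`
* **`e2s_E`** : `E2SU` at `red ∘ π` from `RpGU`, `EtGeU`, `CrGU`
* **`p10s_E`** : `P10S` at `π`
-/

set_option autoImplicit false

noncomputable section

open Set

namespace Crest.Agent.R017.P10F829

open Crest.Agent.R012 Crest.Agent.R012.Eis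
open Crest.Agent.R017.FE47 (PU cx)
open Crest.Agent.R017.Prov71 Crest.Agent.R017.ER911 Crest.Agent.R017.SC777
open Crest.Agent.R017.B770 Crest.Agent.R017.E5B71 Crest.Agent.R017.E5L770
open Crest.Agent.R017.ExBox960 Crest.Agent.R017.ExP960
open Crest.Agent.R017.I1146 (LN LipS)
open Crest.Agent.R017.P1t54 (ParS LS0 parOK_Sq5)
open Crest.Agent.R017.P1X960
open Crest.Agent.R017.P10X764
open Crest.Agent.R017.E2G764 (RpGU EtGeU CrGU MnGU)
open Crest.Agent.R017.TM708 (T5 K5 R5)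
open Crest.Agent.R017.TK708 (FE2G AllT sh5 cb_K)
open Crest.Agent.R017.D5X939 (D5X D5X_compact)
open Crest.Agent.R017.NrX986 (bN_mem bR_mem Tf1 Kf1 rg_D)
open Crest.Agent.R017.Red848 (red Exc red_ok)
open Crest.Agent.R017.PX764 (Dk)
open Crest.Agent.R017.XS0298 (S0K)
open Crest.Agent.R017.LfP986 (sum_bR T5_bR r5_bN top5_le bts_of' κ_nonneg p10s_of)
open Crest.Agent.R017.LfX986
open Crest.Agent.R017.E3Nx744 (CBA thK)
open Crest.Agent.R017.P10146 (hx4_of)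
open Crest.Agent.R017.MnS829 (mnGU_S)

lemma T5_cont : Continuous TM708.T5 := by unfold TM708.T5; fun_prop

lemma lipS_sh5 (k5 x p : ℝ) : LipS 3 (sh5 k5 x p) := P10146.lipS_Sh5 k5 x p

variable {Λ : Type*} {π : Λ → DPar} {h : ℝ → ℝ} {c₀ A d : ℝ}

/-- **helper764's `CBK` at `(K5, T5)`** -/
theorem cbk_5 (hpu : PU h c₀) (hP : ∀ lam, (π lam).OK) (hE : ∀ lam, Exc (π lam)) (hd : 0 ≤ d)
    (hAll : AllT d (ex Dq fun lam => S0K Dk (red (π lam)) h))
    (hFE : FE2G (ex Dq fun lam => S0K Dk (red (π lam)) h) D5X K5 T5 fun b => 3 / 4 * d * b 0) :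
    CBK (fun lam => red (π lam)) h Dk sh5 K5 T5 D5X fun b => 3 / 4 * d * b 0 := by
  have h1 := cb_K (π := fun lam => red (π lam)) hpu (fun lam => red_ok (hP lam) (hE lam))
    hAll K5_cont T5_cont D5X_compact (fun b hb => rg_D hb)
    (ℓ := fun b => 3 / 4 * d * b 0) (by fun_prop)
    (fun b hb => mul_nonneg (by linarith) hb.1.k0) hFE
  intro ε hε
  exact h1 ε hε

/-- **`E2SU` at the reduced data** -/
theorem e2s_E (hpu : PU h c₀) (hP : ∀ lam, (π lam).OK) (hE : ∀ lam, Exc (π lam))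
    (hd : 0 ≤ d) (hd1 : d ≤ 1 / 42) (hA : 9 / 10 ≤ A) (hA1 : 16 * (1 - A) ≤ d)
    (hAll : AllT d (ex Dq fun lam => S0K Dk (red (π lam)) h))
    (hFE : FE2G (ex Dq fun lam => S0K Dk (red (π lam)) h) D5X K5 T5 fun b => 3 / 4 * d * b 0)
    {Rh : ℝ} (hRh0 : 0 ≤ Rh) (hRh : ∀ u, cx h u ≠ 0 → |u| ≤ Rh)
    {et : BcX → List Pq → ℕ → ℝ} (het0 : ∀ a qs i, 0 ≤ et a qs i)
    (het : ∀ a qs (i : ℕ), 2 * LN (clN a qs) - a.1.l - Real.log 2 * i ≤ et a qs i)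
    (rp : RpGU (alS (fun lam => red (π lam)) h) (okS fun lam => red (π lam)) (1 / 64) (d / 4) et
      (17 / 100) (ParS A d) (SinL (17 / 100)) (LS0 d) (ShS sh5))
    (ett : EtGeU (alS (fun lam => red (π lam)) h) (okS fun lam => red (π lam)) (1 / 64) (d / 4) et
      (17 / 100) (ParS A d) (SinL (17 / 100)) (LS0 d))
    (cr : CrGU (alS (fun lam => red (π lam)) h) (okS fun lam => red (π lam)) (1 / 64) (d / 4) et
      (17 / 100) (ParS A d) (SinL (17 / 100)) (LS0 d)) :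
    E2SU (fun lam => red (π lam)) h (1 / 64) (d / 4) Rh (17 / 100) (ParS A d) (LS0 d) := by
  have hOK : ∀ lam, (red (π lam)).OK := fun lam => red_ok (hP lam) (hE lam)
  have hDN : ∀ p : IX5 → ℝ, prX p ∈ ParS A d → ZR (17 / 100) p → bN p ∈ D5X :=
    fun p hp _ => bN_mem hd (by linarith) hA1 hp
  have hDR : ∀ p : IX5 → ℝ, prX p ∈ ParS A d → ZR (17 / 100) p → bR p ∈ D5X :=
    fun p hp hz => bR_mem hd (by linarith) hA1 hp hz
  have hR5 : ∀ p : IX5 → ℝ, prX p ∈ ParS A d → ZR (17 / 100) p → R5 (bN p) :=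
    fun p hp _ => r5_bN hd hd1 hA1 hp
  have hKN : ∀ p : IX5 → ℝ, prX p ∈ ParS A d → ZR (17 / 100) p →
      K5 (bN p) = max (cκ (prX p)) (5 / 4 * cN (prX p)) := fun p _ _ => K5_bN p
  have hKR : ∀ p : IX5 → ℝ, prX p ∈ ParS A d → ZR (17 / 100) p →
      K5 (bR p) = max (cκ (prX p)) (5 / 4 * cN (prX p)) :=
    fun p _ _ => (K5_bR p).trans (K5_bN p)
  have hLN : ∀ p : IX5 → ℝ, prX p ∈ ParS A d → ZR (17 / 100) p →
      max 0 (5 / 4 * cN (prX p) - cκ (prX p)) + 3 / 4 * d * bN p 0 ≤ LS0 d (prX p) :=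
    fun p _ _ => le_rfl
  have hLR : ∀ p : IX5 → ℝ, prX p ∈ ParS A d → ZR (17 / 100) p →
      max 0 (5 / 4 * cN (prX p) - cκ (prX p)) + 3 / 4 * d * bR p 0 ≤ LS0 d (prX p) :=
    fun p _ _ => le_rfl
  have hθ : ∀ (p : IX5 → ℝ) (v₀ v₁ v₂ b x' : ℝ),
      ChC (d / 4) (17 / 100) (ParS A d) p v₀ v₁ v₂ b x' → SinL (17 / 100) p v₀ v₁ v₂ →
      tpW (d / 4) p b ≤ max (cκ (prX p)) (5 / 4 * cN (prX p)) - cN (prX p) / 2 -
        cx' (prX p) := by
    intro p v₀ v₁ v₂ b x' hch _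
    have h1 : tpW (d / 4) p b ≤ top5 (prX p) := min_le_left _ _
    have h2 := thK_bN hd (by linarith) hA1 hch.par
    have h3 := le_max_right 0
      ((T9 (bN p) + (bN p 1 + bN p 2 + bN p 3) / 2 + bN p 4 - K5 (bN p)) / 3)
    have h4 : (T9 (bN p) + (bN p 1 + bN p 2 + bN p 3) / 2 + bN p 4 - K5 (bN p)) / 3 ≤ 0 :=
      h3.trans (le_of_eq h2)
    have e3 : bN p 1 + bN p 2 + bN p 3 = cN (prX p) := rfl
    have e4 : bN p 4 = cx' (prX p) := rfl
    rw [T9_bN, K5_bN, e3, e4] at h4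
    linarith
  refine e2S_of hpu hOK hRh0 hRh (by norm_num) (by norm_num) (by linarith) (by linarith) het0
    (fun p hp => parOK_Sq5 hA hp) (fun p hp => hx4_of hd (by linarith) hA1 hp)
    (ℓ := fun b => 3 / 4 * d * b 0) lipS_sh5 hDN hDR hR5 hKN hKR (fun p hp _ => ?_) hLN hLR
    (fun p v₀ v₁ v₂ b x' hch _ => ?_) (fun p v₀ v₁ v₂ b x' hch _ => ?_)
    (cbk_5 hpu hP hE hd hAll hFE) rp ett cr ?_
  · have h1 : (0 : ℝ) ≤ 3 / 4 * d * cκ (prX p) := by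
      have := κ_nonneg hp
      positivity
    have h2 : LS0 d (prX p) = max 0 (5 / 4 * cN (prX p) - cκ (prX p)) +
      3 / 4 * d * cκ (prX p) := rfl
    rw [h2]
    linarith
  · exact (min_le_left _ _).trans (top5_le hd hd1 hA1 hch.par)
  · rw [T5_bR]
    exact (min_le_left _ _).trans (top5_le hd hd1 hA1 hch.par)
  · exact mnGU_S hpu hOK hRh0 hRh (by linarith) (by linarith) (fun p hp => parOK_Sq5 hA hp)
      (ℓ := fun b => 3 / 4 * d * b 0) hDN hDR hR5 hKN hKR hLN hLR hθ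
      (fun p _ _ _ _ _ _ _ => (min_le_left _ _).trans (T9_bN p).ge)
      (fun p _ _ _ _ _ _ _ => (min_le_left _ _).trans ((T9_bR p).trans (T9_bN p)).ge)
      (cba_9 hpu hP hE hd hAll hFE) (bts_of' hd hd1 hA hA1) het0 het

/-- **`P10S`** -/
theorem p10s_E (hpu : PU h c₀) (hP : ∀ lam, (π lam).OK) (hE : ∀ lam, Exc (π lam))
    (hd : 0 ≤ d) (hd1 : d ≤ 1 / 42) (hA : 9 / 10 ≤ A) (hA1 : 16 * (1 - A) ≤ d)
    (hAll : AllT d (ex Dq fun lam => S0K Dk (red (π lam)) h))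
    (hFE : FE2G (ex Dq fun lam => S0K Dk (red (π lam)) h) D5X K5 T5 fun b => 3 / 4 * d * b 0)
    (hFE1 : FE2G (ex Dq fun lam => S0K Dk (red (π lam)) h) D5X Kf1 Tf1
      fun b => 3 / 4 * d * b 0)
    {Rh : ℝ} (hRh0 : 0 ≤ Rh) (hRh : ∀ u, cx h u ≠ 0 → |u| ≤ Rh)
    {et : BcX → List Pq → ℕ → ℝ} (het0 : ∀ a qs i, 0 ≤ et a qs i)
    (het : ∀ a qs (i : ℕ), 2 * LN (clN a qs) - a.1.l - Real.log 2 * i ≤ et a qs i)
    (rp : RpGU (alS (fun lam => red (π lam)) h) (okS fun lam => red (π lam)) (1 / 64) (d / 4) et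
      (17 / 100) (ParS A d) (SinL (17 / 100)) (LS0 d) (ShS sh5))
    (ett : EtGeU (alS (fun lam => red (π lam)) h) (okS fun lam => red (π lam)) (1 / 64) (d / 4) et
      (17 / 100) (ParS A d) (SinL (17 / 100)) (LS0 d))
    (cr : CrGU (alS (fun lam => red (π lam)) h) (okS fun lam => red (π lam)) (1 / 64) (d / 4) et
      (17 / 100) (ParS A d) (SinL (17 / 100)) (LS0 d))
    (he3 : E3SU (fun lam => red (π lam)) h (1 / 64) (d / 4) Rh (17 / 100) (ParS A d) (LS0 d)) :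
    P10S π h (1 / 64) (d / 4) (17 / 100) (ParS A d) (LS0 d) :=
  p10s_of hpu hP hE hd hd1 hA hA1 hAll hFE1 hRh0 hRh
    (e2s_E hpu hP hE hd hd1 hA hA1 hAll hFE hRh0 hRh het0 het rp ett cr) he3

end Crest.Agent.R017.P10F829
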