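import Crest.Agent.R017.P10F_385
import Crest.Agent.R017.ETj_548
import Crest.Agent.R017.ETk_548
import Crest.Agent.R017.ER_764

/-!
# Row 17, exceptional class, P1X (helper385): the cross error of the differences at the shift `etR`

* `et_H` : the compensated tail from the character sums and the Gram sums, frame `FrH`
* **`e2x_K`** : `E2XU` at the reduced data from `RpGU`, `CrGU`, `CsGUc`, `GkGUc`
-/

set_option autoImplicit false
set_option linter.unusedVariables false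

noncomputable section

open Finset MeasureTheory
open scoped ComplexConjugate Classical

namespace Crest.Agent.R017.P10G385

open Crest.Agent.R012 Crest.Agent.R012.Eis Crest.Agent.R012.MC Crest.Agent.R012.Gauss880
open Crest.Agent.R017.C70
open Crest.Agent.R017.B770
open Crest.Agent.R017.FE47 (PU cx SM)
open Crest.Agent.R017.Prov71 Crest.Agent.R017.ER911 Crest.Agent.R017.SC777
open Crest.Agent.R017.I1146 (X2 c3 c3_nonneg LipS LN)
open Crest.Agent.R017.UM71 Crest.Agent.R017.End699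
open Crest.Agent.R017.E5B71 Crest.Agent.R017.E5P571 Crest.Agent.R017.E5L770
open Crest.Agent.R017.ExBox960 Crest.Agent.R017.ExP960
open Crest.Agent.R017.Sf770
open Crest.Agent.R017.P1e54 Crest.Agent.R017.P1f54 Crest.Agent.R017.P1k54
open Crest.Agent.R017.P1l54 (ParOK)
open Crest.Agent.R017.P1t54 (ParS LS0 parOK_Sq5)
open Crest.Agent.R017.P1X960
open Crest.Agent.R017.Sup271 (NPm)
open Crest.Agent.R017.PX764 (Dk)
open Crest.Agent.R017.TM708 (PD R5 T5 K5)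
open Crest.Agent.R017.TK708 (sh5 FE2G AllT cb_K)
open Crest.Agent.R017.P10X764
open Crest.Agent.R017.E2G764 (MnG MnGU RpGU EtGeU CrGU)
open Crest.Agent.R017.E3Fw579 (FrH)
open Crest.Agent.R017.D5X939 (D5X D5X_compact)
open Crest.Agent.R017.Red848 (red Exc red_ok)
open Crest.Agent.R017.XS0298 (S0x S0K)
open Crest.Agent.R017.ETd548 (RoomX S8Xk)
open Crest.Agent.R017.ETk548 (CsGUc GkGUc)
open Crest.Agent.R017.ER764

/-- **the compensated tail** in the frame `FrH` -/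
theorem et_H {Λ : Type*} {π : Λ → DPar} {h : ℝ → ℝ} {c₀ Rh e0 c β : ℝ}
    {Par : Set (Fin 3 ⊕ Fin 5 → ℝ)} {D5 : Set (Fin 5 → ℝ)} {ℓ Kf Tf Tt : (Fin 5 → ℝ) → ℝ}
    {L0 : (Fin 3 ⊕ Fin 5 → ℝ) → ℝ} (H : FrH π h c₀ Rh e0 c β Par D5 ℓ Kf Tf Tt L0)
    {et : BcX → List Pq → ℕ → ℝ} (het0 : ∀ a qs j, 0 ≤ et a qs j)
    (het : ∀ a qs j, 0 ≤ a.1.l → et a qs j ≤
      3 / 20 * a.1.l + max 0 (2 * LN (clN a qs) - a.1.l - Real.log 2 * j))
    {k₁ : ℝ} (hk : 17 / 20 ≤ k₁) {CE : (I8X ⊕ Unit → ℝ) × (Kd → ℝ) → ℝ}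
    (hcs : CsGUc k₁ π (alX π h) (okX π) c β Par DifL CE)
    (hgk : GkGUc k₁ (alX π h) (okX π) e0 c β Par DifL fun q => RoomX L0 q - CE q) :
    EtGeU (alX π h) (okX π) e0 c et β Par DifL L0 :=
  ETj548.etX_of H.hpu H.hP H.hex H.hRh0 H.hRh H.he0 (H.he0'.trans (by norm_num)) H.hc0 H.hc1
    H.hPar H.hDN H.hDR H.hR5 H.hKN H.hKR H.hTN H.hTR H.hcb H.hL0 het0 het
    (hcs.toCsGU H.hPar hk) (hgk.toGkGU H.hPar hk)

section red

variable {Λ : Type*} {π : Λ → DPar} {h : ℝ → ℝ} {c₀ : ℝ} {A d : ℝ}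

/-- **`E2XU` at the reduced data**, shift `etR` -/
theorem e2x_K (hpu : PU h c₀) (hP : ∀ lam, (π lam).OK) (hE : ∀ lam, Exc (π lam))
    (hd : 0 ≤ d) (hd1 : d ≤ 1 / 42) (hA : 9 / 10 ≤ A) (hA0 : A ≤ 1) (hA1 : 16 * (1 - A) ≤ d)
    (hAll : AllT d (ex Dq fun lam => S0K Dk (red (π lam)) h))
    (hFE : FE2G (ex Dq fun lam => S0K Dk (red (π lam)) h) D5X K5 T5 fun b => 3 / 4 * d * b 0)
    {Rh : ℝ} (hRh0 : 0 ≤ Rh) (hRh : ∀ u, cx h u ≠ 0 → |u| ≤ Rh)
    (rp : RpGU (alX (fun lam => red (π lam)) h) (okX fun lam => red (π lam)) (1 / 64) (d / 4) etR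
      (17 / 100) (ParS A d) DifL (LS0 d) (ShX sh5))
    {CE : (I8X ⊕ Unit → ℝ) × (Kd → ℝ) → ℝ}
    (hcs : CsGUc (7 / 8) (fun lam => red (π lam)) (alX (fun lam => red (π lam)) h)
      (okX fun lam => red (π lam)) (d / 4) (17 / 100) (ParS A d) DifL CE)
    (hgk : GkGUc (7 / 8) (alX (fun lam => red (π lam)) h) (okX fun lam => red (π lam)) (1 / 64)
      (d / 4) (17 / 100) (ParS A d) DifL fun q => RoomX (LS0 d) q - CE q)
    (cr : CrGU (alX (fun lam => red (π lam)) h) (okX fun lam => red (π lam)) (1 / 64) (d / 4) etR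
      (17 / 100) (ParS A d) DifL (LS0 d)) :
    E2XU (fun lam => red (π lam)) h (1 / 64) (d / 4) Rh (17 / 100) (ParS A d) (LS0 d) := by
  have H := LfX986.frH_E hpu hP hE hd hd1 hA hA0 hA1 hAll hFE hRh0 hRh
  exact P10F385.e2x_E hpu hP hE hd hd1 hA hA0 hA1 hAll hFE hRh0 hRh etR_nn etR_lv rp
    (et_H H etR_nn etR_hi3 (by norm_num) hcs hgk) cr

end red

end Crest.Agent.R017.P10G385
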