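import Crest.Agent.R017.P10G_385
import Crest.Agent.R017.CrJ_241

/-!
# Row 17, exceptional class, P1X (helper385): the cross error of the differences, last form

* `pn_S` : the length of a parent of the exact square
* **`e2x_C`** : `E2XU` at the reduced data from `RpGU`, `CsGUc`, `GkGUc`
-/

set_option autoImplicit false
set_option linter.unusedVariables false

noncomputable section

open Finset MeasureTheory
open scoped ComplexConjugate Classical

namespace Crest.Agent.R017.P10H385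

open Crest.Agent.R012 Crest.Agent.R012.Eis Crest.Agent.R012.MC Crest.Agent.R012.Gauss880
open Crest.Agent.R017.C70
open Crest.Agent.R017.B770
open Crest.Agent.R017.FE47 (PU cx SM)
open Crest.Agent.R017.Prov71 Crest.Agent.R017.ER911 Crest.Agent.R017.SC777
open Crest.Agent.R017.I1146 (X2 c3 c3_nonneg LipS LN)
open Crest.Agent.R017.UM71 Crest.Agent.R017.End699
open Crest.Agent.R017.E5B71 Crest.Agent.R017.E5P571 Crest.Agent.R017.E5L770
open Crest.Agent.R017.ExBox960 Crest.Agent.R017.ExP960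
open Crest.Agent.R017.Sf770
open Crest.Agent.R017.P1e54 Crest.Agent.R017.P1f54 Crest.Agent.R017.P1k54
open Crest.Agent.R017.P1l54 (ParOK)
open Crest.Agent.R017.P1t54 (ParS LS0 parOK_Sq5)
open Crest.Agent.R017.P1X960
open Crest.Agent.R017.Sup271 (NPm)
open Crest.Agent.R017.PX764 (Dk)
open Crest.Agent.R017.TM708 (PD R5 T5 K5)
open Crest.Agent.R017.TK708 (sh5 FE2G AllT cb_K)
open Crest.Agent.R017.P10X764
open Crest.Agent.R017.E2G764 (MnG MnGU RpGU EtGeU CrGU)
open Crest.Agent.R017.D5X939 (D5X D5X_compact)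
open Crest.Agent.R017.Red848 (red Exc red_ok)
open Crest.Agent.R017.XS0298 (S0x S0K)
open Crest.Agent.R017.ETd548 (RoomX S8Xk)
open Crest.Agent.R017.ETk548 (CsGUc GkGUc)
open Crest.Agent.R017.ER764

/-- the length of a parent of the exact square -/
lemma pn_S {A d : ℝ} (hd : 0 ≤ d) (hd1 : d ≤ 1 / 8) (hA1 : 16 * (1 - A) ≤ d)
    {p : Fin 3 ⊕ Fin 5 → ℝ} (hp : p ∈ ParS A d) : cN p + cx' p ≤ 21 / 25 * cκ p := by
  obtain ⟨k0, k1, u4, u34, u23, y27, n0, n1, x0, hx⟩ := P10146.sq_facts hd hd1 hA1 hp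
  rcases hx with h | ⟨h1, h2, h3⟩ <;> linarith

variable {Λ : Type*} {π : Λ → DPar} {h : ℝ → ℝ} {c₀ : ℝ} {A d : ℝ}

/-- **`E2XU` at the reduced data** from the R-functional, the character sums and the Gram sums -/
theorem e2x_C (hpu : PU h c₀) (hP : ∀ lam, (π lam).OK) (hE : ∀ lam, Exc (π lam))
    (hd : 0 ≤ d) (hd1 : d ≤ 1 / 42) (hA : 9 / 10 ≤ A) (hA0 : A ≤ 1) (hA1 : 16 * (1 - A) ≤ d)
    (hAll : AllT d (ex Dq fun lam => S0K Dk (red (π lam)) h))
    (hFE : FE2G (ex Dq fun lam => S0K Dk (red (π lam)) h) D5X K5 T5 fun b => 3 / 4 * d * b 0)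
    {Rh : ℝ} (hRh0 : 0 ≤ Rh) (hRh : ∀ u, cx h u ≠ 0 → |u| ≤ Rh)
    (rp : RpGU (alX (fun lam => red (π lam)) h) (okX fun lam => red (π lam)) (1 / 64) (d / 4) etR
      (17 / 100) (ParS A d) DifL (LS0 d) (ShX sh5))
    {CE : (I8X ⊕ Unit → ℝ) × (Kd → ℝ) → ℝ}
    (hcs : CsGUc (7 / 8) (fun lam => red (π lam)) (alX (fun lam => red (π lam)) h)
      (okX fun lam => red (π lam)) (d / 4) (17 / 100) (ParS A d) DifL CE)
    (hgk : GkGUc (7 / 8) (alX (fun lam => red (π lam)) h) (okX fun lam => red (π lam)) (1 / 64)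
      (d / 4) (17 / 100) (ParS A d) DifL fun q => RoomX (LS0 d) q - CE q) :
    E2XU (fun lam => red (π lam)) h (1 / 64) (d / 4) Rh (17 / 100) (ParS A d) (LS0 d) := by
  have cr : CrGU (alX (fun lam => red (π lam)) h) (okX fun lam => red (π lam)) (1 / 64) (d / 4) etR
      (17 / 100) (ParS A d) DifL (LS0 d) :=
    CrG241.crX8_of (π := fun lam => red (π lam)) (fun lam => red_ok (hP lam) (hE lam))
      (fun p hp => parOK_Sq5 hA hp) (fun p hp => pn_S hd (by linarith) hA1 hp)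
      CrG241.etC8_lo CrG241.etC8_hi hcs hgk
  exact P10G385.e2x_K hpu hP hE hd hd1 hA hA0 hA1 hAll hFE hRh0 hRh rp hcs hgk cr

end Crest.Agent.R017.P10H385
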