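import Crest.Agent.R017.P10H_829
import Crest.Agent.R017.EbC_986
import Crest.Agent.R017.ETy4_71
import Crest.Agent.R017.RXxa_440
import Crest.Agent.R017.RgG_986

/-!
# Row 17, exceptional class, P1X (helper829): the field `e2s`

* `cs_S` : the character half at the reduced data of the top
* **`e2s_of`** : the field `e2s` of `EbC986.LwE` from the Gram half
-/

set_option autoImplicit false

noncomputable section

open Complex Filter Topology

namespace Crest.Agent.R017.P10I829

open Crest.Agent.R012 Crest.Agent.R012.Eis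
open Crest.Agent.R017.FE47 Crest.Agent.R017.End699
open Crest.Agent.R017.B770 Crest.Agent.R017.BxH986
open Crest.Agent.R017.Prov71 Crest.Agent.R017.ER911
open Crest.Agent.R017.E5B71 Crest.Agent.R017.ExP960
open Crest.Agent.R017.E5L770
open Crest.Agent.R017.SC777
open Crest.Agent.R017.Fin4 Crest.Agent.R017.Fin5 Crest.Agent.R017.Fin6
open Crest.Agent.R017.P1l54 Crest.Agent.R017.P1t54
open Crest.Agent.R017.P1X960
open Crest.Agent.R017.P10X764 (E2SU alS okS)
open Crest.Agent.R017.Red848 (red)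
open Crest.Agent.R017.XS0298 (S0x S0K)
open Crest.Agent.R017.Sg986 (AA AA_lt AA_eq AA_ge)
open Crest.Agent.R017.NrX986 (NearAllX)
open Crest.Agent.R017.ETd548 (RoomX)
open Crest.Agent.R017.ETk548 (CsGUc GkGUc)
open Crest.Agent.R017.ETy71 (CES)

/-- **the character half**, single lists -/
theorem cs_S {d : ℝ} (hd : 0 < d) (hd1 : d ≤ 1 / 42) {h : ℝ → ℝ} {c₀ : ℝ} (hpu : PU h c₀)
    (P : BunE d h) (G : RecE d h) :
    CsGUc (7 / 8) (fun lam => red (πE lam)) (alS (fun lam => red (πE lam)) h)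
      (okS fun lam => red (πE lam)) (d / 4) (17 / 100) (ParS (AA d) d) (SinL (17 / 100))
      (CES d) := by
  have hA := AA_ge hd1
  exact ETy71.csGU_S (π := fun lam => red (πE lam)) hpu
    (fun lam => Red848.red_ok lam.2.1 (XT6241.exc_piE lam)) P.rules G hd.le (by linarith)
    (by norm_num) (by norm_num) le_rfl (fun p hp => parOK_Sq5 (by linarith) hp)
    (fun p hp => by
      obtain ⟨w, hw⟩ := hp
      exact hw.dm5 hd.le (by linarith) (AA_lt hd).le (AA_eq d))

/-- **the cross error of the single lists** -/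
theorem e2s_of {d : ℝ} (hd : 0 < d) (hd1 : d ≤ 1 / 42) {h : ℝ → ℝ} {c₀ : ℝ} (hpu : PU h c₀)
    (hPF : PF Set.univ (7 / 8 + d)) (P : BunE d h) (G : RecE d h)
    (near : NearAllX d (ex Dq (fun lam => S0x (red (πE lam)) h))) {r : ℝ} (hr0 : 0 ≤ r)
    (hr : ∀ u : ℝ, cx h u ≠ 0 → |u| ≤ r)
    (hgk : GkGUc (7 / 8) (alS (fun lam => red (πE lam)) h) (okS fun lam => red (πE lam)) (1 / 64)
      (d / 4) (17 / 100) (ParS (AA d) d) (SinL (17 / 100)) fun q => RoomX (LS0 d) q - CES d q) :
    E2SU (fun lam => red (πE lam)) h (1 / 64) (d / 4) r βX (ParS (AA d) d) (LS0 d) := by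
  have hA := AA_ge hd1
  exact P10H829.e2s_C hpu (fun lam => lam.2.1) (fun lam => XT6241.exc_piE lam) hd.le hd1
    (by linarith) (AA_eq d) (TK708.allT_of P.rules G.toExpS0 hd.le (by linarith))
    (NrX986.fe2G_D P.rules G hd.le (by linarith) near) hr0 hr
    (RXxa440.rpS_F hPF hpu (fun lam => lam.2.1) (fun lam => XT6241.exc_piE lam) Rg986.clo_πE
      P.rules hr0 hr hd.le hd1 (by linarith) (AA_lt hd).le (AA_eq d))
    (cs_S hd hd1 hpu P G) hgk

end Crest.Agent.R017.P10I829
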