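import Crest.Agent.R017.P10I_385
import Crest.Agent.R017.FrL_385
import Crest.Agent.R017.GkAll_381
import Crest.Agent.R017.GkLx_744
import Crest.Agent.R017.TFx_770
import Crest.Agent.R017.GkF_521
import Crest.Agent.R017.ExRed2_848

/-!
# Row 17, T.4 (helper385): the Gram sums of the differences and the field `e2x`

* **`gkX_E`** : `GkGUc (7/8)` of the differences at the reduced data
* **`e2x_all`** : the field `e2x`
-/

set_option autoImplicit false
set_option linter.unusedVariables false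

noncomputable section

open Complex Filter Topology

namespace Crest.Agent.R017.P10J385

open Crest.Agent.R012 Crest.Agent.R012.Eis
open Crest.Agent.R017.FE47 Crest.Agent.R017.End699
open Crest.Agent.R017.B770 Crest.Agent.R017.BxH986
open Crest.Agent.R017.Prov71 Crest.Agent.R017.ER911
open Crest.Agent.R017.E5B71 Crest.Agent.R017.ExP960 Crest.Agent.R017.ExBox960
open Crest.Agent.R017.E5L770
open Crest.Agent.R017.SC777
open Crest.Agent.R017.Fin4 Crest.Agent.R017.Fin5 Crest.Agent.R017.Fin6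
open Crest.Agent.R017.P1l54 Crest.Agent.R017.P1t54
open Crest.Agent.R017.P1X960
open Crest.Agent.R017.P10X764
open Crest.Agent.R017.E5LX770
open Crest.Agent.R017.Red848 (red red_ok Exc)
open Crest.Agent.R017.PX764 (Dk)
open Crest.Agent.R017.XS0298 (S0x S0K)
open Crest.Agent.R017.XEx298 (Rt)
open Crest.Agent.R017.Sg986 (AA AA_lt AA_eq AA_ge)
open Crest.Agent.R017.NrX986 (NearAllX)
open Crest.Agent.R017.TM708 (T5 K5)
open Crest.Agent.R017.TK708 (FE2G AllT)
open Crest.Agent.R017.D5X939 (D5X)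
open Crest.Agent.R017.LfX986 (T9)
open Crest.Agent.R017.ETd548 (RoomX)
open Crest.Agent.R017.ETk548 (CsGUc GkGUc)
open Crest.Agent.R017.ETy71 (CEX CES bq pQ mV vN vR)
open Crest.Agent.R017.FrL385 (l5 fe2G_L frH_L lmX_L)

/-- **the Gram sums of the differences**, class E -/
theorem gkX_E {Λ : Type*} {π : Λ → DPar} {h : ℝ → ℝ} {c₀ : ℝ} {A d : ℝ} (hpu : PU h c₀)
    (hP : ∀ lam, (π lam).OK) (hE : ∀ lam, Exc (π lam))
    (hd : 0 ≤ d) (hd1 : d ≤ 1 / 42) (hA : 9 / 10 ≤ A) (hA0 : A ≤ 1) (hA1 : 16 * (1 - A) ≤ d)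
    (hPF : PF Set.univ (7 / 8 + d)) {s : EF}
    (R : ExpRules (7 / 8 + d) (ex Dq (fun lam => Rt (red (π lam)) h)) s)
    (hAll : AllT d (ex Dq fun lam => S0K Dk (red (π lam)) h))
    (hFE : FE2G (ex Dq fun lam => S0K Dk (red (π lam)) h) D5X K5 T5 (l5 d))
    {Rh : ℝ} (hRh0 : 0 ≤ Rh) (hRh : ∀ u, cx h u ≠ 0 → |u| ≤ Rh) :
    GkGUc (7 / 8) (alX (fun lam => red (π lam)) h) (okX fun lam => red (π lam)) (1 / 64) (d / 4)
      (17 / 100) (ParS A d) DifL fun q => RoomX (LS0 d) q - CEX d q := by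
  have H := frH_L hpu hP hE hd hd1 hA hA0 hA1 hAll hFE hRh0 hRh
  have hd8 : d ≤ 1 / 8 := by linarith
  have hDh : ∀ p ∈ ParS A d,
      RnP571.Dh (cκ p) (cu p 2) (cu p 3) (cu p 4) (cx' p) (d * cκ p) :=
    fun p hp => E3Nx744.dh_sq5 hd hd8 hA0 hA1 hp
  have hcD : ∀ p ∈ ParS A d, 4 * (d / 4 * cκ p) ≤ d * cκ p := fun p _ => by linarith
  have hF : ∀ p : IX5 → ℝ, prX p ∈ ParS A d → ZR (17 / 100) p →
      FrX579.lmX (l5 d) K5 T9 p ≤ 5 / 9 * (d * cκ (prX p)) :=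
    fun p hp _ => lmX_L hd hd8 hA1 hp
  have hNC : ∀ lam, ∀ k : Eis, k ≠ 0 →
      (Sup271.NPm (red (π lam)).n (red (π lam)).ψ (red (π lam)).l₂ k ↔
        Crest.Agent.R012.T411.NCube k) :=
    fun lam k hk => Red848.NPm_red_iff (hP lam).ψ.q0 hk
  refine GkA381.gkAll_X (π := fun lam => red (π lam)) (Lh := 4) (by norm_num) (by norm_num)
    (by norm_num) (fun lam a qs ho => ho.1)
    (fun q hq => (GkR381.room_lo hq.2.2).ge)
    (fun q hq hk => (GkR381.room_hi hk).ge)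
    (GkL744.lowX (π := fun lam => red (π lam)) hpu H.hP H.hex hRh0 hRh H.he0 (by norm_num) H.hc0
      H.hc1 H.hPar H.hDN H.hDR H.hR5 H.hKN H.hKR H.hTN H.hTR H.hcb hd (by linarith) hDh hcD le_rfl
      (by norm_num) hF)
    (TFx770.tfr_X (π := fun lam => red (π lam)) hpu H.hP H.hex hRh0 hRh H.he0 H.he0' H.hc0 H.hc1
      (by linarith) H.hPar hDh H.hDN H.hDR H.hR5 H.hKN H.hKR H.hTN H.hTR H.hcb hF
      (fun lam a qs ho => ho))
    (GkE521.rfr_X (π := fun lam => red (π lam)) (k₁ := 7 / 8) hpu H.hP hNC R hPF hd hd8 H.he0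
      (by norm_num) le_rfl (by norm_num) H.hPar hDh (fun q hq => hq.1)
      (GkF521.rlnF_X (π := fun lam => red (π lam)) hpu H.hP H.hex hRh0 hRh H.he0 H.he0' H.hc0
        H.hc1 rfl H.hPar H.hDN H.hDR H.hR5 H.hKN H.hKR H.hTN H.hTR H.hcb hDh hcD
        (fun q hq => hq) (fun q hq => lmX_L hd hd8 hA1 hq.1.1.1.par)))

/-- **the cross error of the differences**, class E: the field `e2x` -/
theorem e2x_all {d : ℝ} (hd : 0 < d) (hd1 : d ≤ 1 / 42) {h : ℝ → ℝ} {c₀ : ℝ} (hpu : PU h c₀)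
    (hPF : PF Set.univ (7 / 8 + d)) (P : BunE d h) (G : RecE d h)
    (near : NearAllX d (ex Dq (fun lam => S0x (red (πE lam)) h))) {r : ℝ} (hr0 : 0 ≤ r)
    (hr : ∀ u : ℝ, cx h u ≠ 0 → |u| ≤ r) :
    E2XU (fun lam => red (πE lam)) h (1 / 64) (d / 4) r βX (ParS (AA d) d) (LS0 d) := by
  have hA := AA_ge hd1
  exact P10I385.e2x_of hd hd1 hpu hPF P G near hr0 hr
    (gkX_E hpu (fun lam => lam.2.1) (fun lam => XT6241.exc_piE lam) hd.le hd1 (by linarith)
      (AA_lt hd).le (AA_eq d) hPF P.rules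
      (TK708.allT_of P.rules G.toExpS0 hd.le (by linarith))
      (fe2G_L P.rules G hd.le (by linarith) near) hr0 hr)

end Crest.Agent.R017.P10J385
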