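import Crest.Agent.R017.P10a_146
import Crest.Agent.R017.P1t_54

/-!
# Row 17, R8 / P1: the T-inputs of `P10` (helper146)

* `fb_of` : `FB` (thresholds `κ/70`) from `FE2L` (helper708's `cell_le`)
* `min_le_Sh5` : helper708's numbers are at most helper440's numbers
* `cb_of` : `CB` from `FE2L` (helper708's `cell_le`)
-/

set_option autoImplicit false
set_option linter.unusedSectionVars false

noncomputable section

open Set Finset

namespace Crest.Agent.R017.P10146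

open Crest.Agent.R012 Crest.Agent.R012.Eis
open Crest.Agent.R017.FE47 (PU cx)
open Crest.Agent.R017.CM106
open Crest.Agent.R017.Prov71
open Crest.Agent.R017.B770
open Crest.Agent.R017.ER911
open Crest.Agent.R017.HP842 (Pc pc)
open Crest.Agent.R017.I1146 (ChN LN cN SN FlatO FlatL Tail)
open Crest.Agent.R017.TM708 (T5 K5 eF eH eH_eq_eF FE2L PD R5 L5 L5_nonneg tAll tAll_le_C kW eW
  kW_cell eW_flat eW_tail)

/-- helper708's numbers are at most helper440's numbers -/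
lemma min_le_Sh5 {κ K' K₁ k5 x d T γ b l n p t z₁ z₂ z₃ w y : ℝ} (ht : 0 ≤ t) (hb0 : 0 ≤ b)
    (hK₁ : K₁ ≤ K' + b / 2 + 3 * t) (hκ : κ ≤ K') (hk5 : K' ≤ k5 + t) (hy0 : 0 ≤ y) (hy : y ≤ 1 / 36 * κ) (hyx : y ≤ x + t)
    (hγ : 0 ≤ γ) (hb : b ≤ κ / 20 + 2 * t) (hT : T ≤ 23 / 36 * κ + t)
    (hl : l ≤ T - 2 * γ + b + t) (hn : n ≤ p - γ - b + t) (hn' : p - γ - b ≤ n + t)
    (hp : κ / 2 - 2 * y - t ≤ p) (h1 : 0 ≤ z₁) (h2 : 0 ≤ z₂) (h3 : 0 ≤ z₃)
    (hw0 : 0 ≤ w) (hw : w ≤ y + 4 * t) (hs : z₁ + z₂ + z₃ + w = n) :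
    min (eH K₁ l n) (tAll d l z₁ z₂ z₃ w) ≤ Sh5 k5 x p γ b (l - b) + 20 * t := by
  unfold Sh5
  have e : l - b + b = l := by ring
  rw [e, ← min_add_add_right]
  refine min_le_min ?_ ?_
  · have hcase : 2 * l ≤ n + K' + 20 * t := by linarith
    unfold eH
    refine max_le ?_ ?_
    · unfold eF
      refine max_le ?_ ?_
      · have := le_max_left (2 * (p - γ - b))
          (4 / 3 * (p - γ - b) + (max (k5 + b / 2) (3 / 2 * l) + l) / 3)
        linarith
      · have h4 := le_max_right (2 * (p - γ - b))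
          (4 / 3 * (p - γ - b) + (max (k5 + b / 2) (3 / 2 * l) + l) / 3)
        have h5 : max K₁ (3 / 2 * l) ≤ max (k5 + b / 2) (3 / 2 * l) + 4 * t := by
          rw [max_add]
          exact max_le_max (by linarith) (by linarith)
        linarith
    · unfold eF
      have h4 := le_max_right (2 * (p - γ - b))
        (4 / 3 * (p - γ - b) + (max (k5 + b / 2) (3 / 2 * l) + l) / 3)
      have h5 := le_max_left (k5 + b / 2) (3 / 2 * l)
      linarith
  · refine tAll_le_C (fun C hC0 hC3 => ?_) h1 h2 h3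
    have h4 := le_max_left (l + 4 / 3 * (p - γ - b)) (5 / 3 * (p - γ - b) + l / 3)
    have h5 := le_max_right (l + 4 / 3 * (p - γ - b)) (5 / 3 * (p - γ - b) + l / 3)
    constructor
    · linarith
    · linarith

variable {Λ : Type*} {π : Λ → DPar} {h : ℝ → ℝ} {d : ℝ} {rr : EF}

/-- the tail with `b ≥ κ / 70` -/
lemma mix_tail70 {κ K' K₁ L N x d T γ b l n p t z₁ z₂ z₃ w : ℝ} (ht : 0 ≤ t) (hκ0 : 0 ≤ κ)
    (hK₁ : K₁ ≤ κ + 3 * L + b / 2 + 3 * t)
    (hL0 : 0 ≤ L) (hL : K' ≤ κ + 3 * L) (_ : κ ≤ K') (hN : N ≤ 102 / 125 * κ)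
    (_ : 0 ≤ x) (hx1 : x ≤ 1 / 36 * κ) (hadm : x ≤ 0 ∨ N + x ≤ 4 / 5 * κ) (hγ : 0 ≤ γ)
    (hb : κ / 70 ≤ b + t) (_ : 0 ≤ b) (h1 : 0 ≤ z₁) (h2 : 0 ≤ z₂) (h3 : 0 ≤ z₃) (hw : 0 ≤ w)
    (hwx : w ≤ x + t) (hs : z₁ + z₂ + z₃ + w = n) (hn : n ≤ N + x - γ - b + t)
    (hT : T ≤ 2 / 3 * K' + t) (hl : l ≤ T - 2 * γ + b + t)
    (hn' : p - γ - b ≤ n + t) (hpT : 2 * T ≤ p + κ + t) :
    min (eH K₁ l n) (tAll d l z₁ z₂ z₃ w) ≤
      4 / 3 * n + (l + κ) / 3 + 2 * b + L + 10 * t := by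
  rcases le_or_gt (2 * n - κ - 6 * b) l with h | h
  · refine (min_le_left _ _).trans ?_
    unfold eH eF
    refine max_le (max_le (by linarith) ?_) (by linarith)
    rcases max_cases K₁ (3 / 2 * l) with ⟨h, h2⟩ | ⟨h, h2⟩ <;> rw [h] <;> linarith
  · refine (min_le_right _ _).trans (tAll_le_C (fun C hC0 hC3 => ?_) h1 h2 h3)
    constructor
    · rcases hadm with h4 | h4 <;> linarith
    · rcases hadm with h4 | h4 <;> linarith

set_option maxHeartbeats 1600000 in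
/-- **the flat bundle** -/
theorem fb_of {c₀ : ℝ} (hpu : PU h c₀) (hP : ∀ lam, (π lam).OK)
    (R : ExpRules (7 / 8 + d) rr (ex Dq fun lam => Sp (π lam) h)) (hd : 0 ≤ d) (hd1 : d ≤ 1 / 40)
    {D5 : Set (Fin 5 → ℝ)} (hD : IsCompact D5) (hR : ∀ b ∈ D5, R5 b)
    {ℓ : (Fin 5 → ℝ) → ℝ} (hℓ : Continuous ℓ) (hℓ0 : ∀ b ∈ D5, 0 ≤ ℓ b)
    (hFE : FE2L (ex Dq fun lam => S0p (π lam) h) D5 ℓ) : FB π h (1 / 70) D5 ℓ := by
  intro ε hε
  obtain ⟨τ, hτ, -, G⟩ := TM708.cell_le hpu hP R hd hd1 hD hℓ hℓ0 hFE hε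
  refine ⟨τ, hτ, fun lam N B => ?_⟩
  obtain ⟨M₀, G⟩ := G lam N B
  refine ⟨M₀, fun r hr => ?_⟩
  obtain ⟨X₀, hX₀, G⟩ := G r hr
  refine ⟨X₀, hX₀, ?_⟩
  intro X hX b hb q us gs κ H hPD T hT θ hθ hTθ M hM hmin
  obtain ⟨hNrL, G2⟩ := G X hX
  replace G2 := G2 b hb q us gs κ H hPD T hT M hM
  have hX1 : 1 < X := by linarith
  set L := Real.log X with hLd
  have hL : 0 < L := Real.log_pos hX1
  have hθL : 0 ≤ L * θ := mul_nonneg hL.le hθ
  have toθ : ∀ {S c V : ℝ}, S ≤ H ^ M₀ * X ^ (L5 b + ℓ b + ε) * c * Real.exp (V + L * θ) →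
      S ≤ H ^ M₀ * X ^ (L5 b + θ + ℓ b + ε) * c * Real.exp V := by
    intro S c V h
    refine h.trans (le_of_eq ?_)
    have e1 : X ^ (L5 b + θ + ℓ b + ε) = X ^ (L5 b + ℓ b + ε) * Real.exp (L * θ) := by
      rw [TM708.rpow_exp hX1, TM708.rpow_exp hX1, ← Real.exp_add, ← hLd]
      congr 1
      ring
    rw [e1, Real.exp_add]
    ring
  have hN0 : (0 : ℝ) ≤ N := Nat.cast_nonneg N
  have hrL : r ≤ τ * L := by nlinarith
  have hRb := hR b hb
  have hT5 := mul_le_mul_of_nonneg_left hRb.T5_le hL.le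
  have hT5x := mul_le_mul_of_nonneg_left hRb.T5x_le hL.le
  have hK5 : b 0 ≤ K5 b := le_max_left _ _
  have hK5L := mul_le_mul_of_nonneg_left hK5 hL.le
  have hk0L := mul_nonneg hL.le hRb.k0
  have hx0L := mul_nonneg hL.le hRb.x0
  have hL5 : L5 b = (K5 b - b 0) / 3 := rfl
  have hL50 := mul_nonneg hL.le (L5_nonneg b)
  have hx1L := mul_le_mul_of_nonneg_left hRb.x1 hL.le
  have hNL := mul_le_mul_of_nonneg_left hRb.hN hL.le
  obtain ⟨hk1, hk2⟩ := abs_le.1 hPD.k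
  rw [← hLd] at hk1 hk2
  set ps := [us 0, us 1, us 2] ++ gs with hps
  set t := τ * L with ht
  have ht0 : 0 ≤ t := by positivity
  have hT' : T ≤ L * T5 b + t := by rw [ht]; linarith
  have hTN : T + L * (b 1 + b 2 + b 3) / 2 + L * b 4 ≤
      L * b 0 + 3 * (L * L5 b + L * θ) + t := by
    rw [hL5, ht]
    have e : (K5 b - (b 1 + b 2 + b 3) / 2 - b 4 + 3 * θ + τ) * L =
      L * K5 b - L * (b 1 + b 2 + b 3) / 2 - L * b 4 + 3 * (L * θ) + τ * L := by ring
    rw [e] at hTθ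
    linarith
  have hadm' : L * b 4 ≤ 0 ∨ L * (b 1 + b 2 + b 3) + L * b 4 ≤ 4 / 5 * (L * b 0) := by
    rcases hRb.adm with h | ⟨h, h', -⟩
    · exact Or.inl (mul_nonpos_of_nonneg_of_nonpos hL.le h)
    · right
      have e1 := mul_le_mul_of_nonneg_left h hL.le
      linarith
  have hmin' : L * b 0 / 3 - t ≤ LN ps := by
    have e : (1 / 3 * b 0 - τ) * L = L * b 0 / 3 - t := by rw [ht]; ring
    linarith
  have hKL : L * K5 b ≤ L * b 0 + 3 * (L * L5 b + L * θ) := by rw [hL5]; linarith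
  have hLθ0 : 0 ≤ L * L5 b + L * θ := by positivity
  have hγ0 : ∀ g : Eis, IsPrim g → 0 ≤ Real.log (nm g : ℝ) := fun g hg =>
    Real.log_nonneg (by exact_mod_cast nm_pos.2 hg.ne_zero)
  refine ⟨?_, ?_⟩
  · intro g hg hgB β l ps' hβ hl hch hn hlev
    obtain ⟨hn1, hn2⟩ := abs_le.1 hn
    have hγ := hγ0 g hg
    refine toθ (G2 g hg hgB 0 β l ps' le_rfl (by linarith) (by linarith) hβ hl hch hn
      (by linarith) _ ?_)
    intro z₁ z₂ z₃ w h1 h2 h3 hw hwx hsum hnx _ _ _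
    refine (min_le_left _ _).trans ?_
    have h4 := kW_cell (K' := L * K5 b) (κ := L * b 0) (L := L * L5 b + L * θ) (T := T)
      (γ := Real.log (nm g)) (b := β) (c := 0) (l := l) (n := LN ps') (w := w) (x := L * b 4)
      (N := L * (b 1 + b 2 + b 3)) (t := 12 * t) (by positivity) hKL hβ (by linarith)
      hγ le_rfl (by linarith) (by linarith) (by linarith) (by linarith)
    have h5 := eW_flat (κ := L * b 0) (K' := L * K5 b) (L := L * L5 b + L * θ) (T := T)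
      (γ := Real.log (nm g)) (b := β) (c := 0) (l := l) (n := LN ps') (t := 12 * t)
      (p := LN ps) (by positivity) h4 hKL hβ le_rfl (by linarith) (by linarith) (by linarith)
      hLθ0 (by linarith) (by linarith)
    unfold eW
    have h6 : max 0 ((l - 2 * LN ps' + L * b 0) / 3) ≤
        max 0 ((l - 2 * LN ps' + κ) / 3) + t / 3 := by
      refine max_le ?_ ?_
      · have := le_max_left 0 ((l - 2 * LN ps' + κ) / 3)
        linarith
      · have := le_max_right 0 ((l - 2 * LN ps' + κ) / 3)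
        linarith
    linarith
  · intro T₀ E hE hT₀ g hg hgB β l ps' hβ hl hch hn hlev hor
    obtain ⟨hn1, hn2⟩ := abs_le.1 hn
    have hγ := hγ0 g hg
    have hE' : L * b 0 / 70 - t ≤ E := by
      have e : (1 / 70 * b 0 - τ) * L = L * b 0 / 70 - t := by rw [ht]; ring
      linarith
    have hT₀' : 2 * LN ps - κ ≤ T₀ + L * (3 * L5 b) + t := by
      have e : (3 * L5 b + τ) * L = L * (3 * L5 b) + t := by rw [ht]; ring
      linarith
    refine toθ (G2 g hg hgB 0 β l ps' le_rfl (by linarith) (by linarith) hβ hl hch hn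
      (by linarith) _ ?_)
    intro z₁ z₂ z₃ w h1 h2 h3 hw hwx hsum hnx _ _ _
    have h4 := kW_cell (K' := L * K5 b) (κ := L * b 0) (L := L * L5 b + L * θ) (T := T)
      (γ := Real.log (nm g)) (b := β) (c := 0) (l := l) (n := LN ps') (w := w) (x := L * b 4)
      (N := L * (b 1 + b 2 + b 3)) (t := 12 * t) (by positivity) hKL hβ (by linarith)
      hγ le_rfl (by linarith) (by linarith) (by linarith) (by linarith)
    unfold eW
    rcases hor with hor | hor
    · have h5 := mix_tail70 (κ := L * b 0) (K' := L * K5 b) (L := L * L5 b + L * θ)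
        (N := L * (b 1 + b 2 + b 3)) (x := L * b 4) (d := d) (T := T) (γ := Real.log (nm g))
        (b := β) (l := l) (n := LN ps') (p := LN ps) (t := 12 * t) (z₁ := z₁) (z₂ := z₂)
        (z₃ := z₃) (w := w) (by positivity) hk0L h4 hLθ0 hKL hK5L (by linarith) hx0L (by linarith)
        hadm' (by linarith) (by linarith) hβ h1 h2 h3 hw (by linarith) hsum (by linarith)
        (by linarith) (by linarith) (by linarith) (by linarith)
      linarith
    · refine (min_le_left _ _).trans ?_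
      have h5 := eW_tail (κ := L * b 0) (K' := L * K5 b) (L := L * L5 b + L * θ) (T := T)
        (T₀ := T₀) (γ := Real.log (nm g)) (b := β) (c := 0) (l := l) (n := LN ps') (p := LN ps)
        (t := 12 * t) (by positivity) h4 hKL hβ le_rfl (by linarith) (by linarith)
        (by linarith) (by linarith) (by linarith) (by linarith) (by linarith) (by linarith) hLθ0
      linarith

/-- **the T-claims** -/
theorem cb_of {c₀ : ℝ} (hpu : PU h c₀) (hP : ∀ lam, (π lam).OK)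
    (R : ExpRules (7 / 8 + d) rr (ex Dq fun lam => Sp (π lam) h)) (hd : 0 ≤ d) (hd1 : d ≤ 1 / 40)
    {D5 : Set (Fin 5 → ℝ)} (hD : IsCompact D5) (hR : ∀ b ∈ D5, R5 b)
    {ℓ : (Fin 5 → ℝ) → ℝ} (hℓ : Continuous ℓ) (hℓ0 : ∀ b ∈ D5, 0 ≤ ℓ b)
    (hFE : FE2L (ex Dq fun lam => S0p (π lam) h) D5 ℓ) : CB π h D5 ℓ := by
  intro ε hε
  obtain ⟨τ, hτ, -, G⟩ := TM708.cell_le hpu hP R hd hd1 hD hℓ hℓ0 hFE hε
  refine ⟨τ, hτ, fun lam N B => ?_⟩
  obtain ⟨M₀, G⟩ := G lam N B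
  refine ⟨M₀, fun r hr => ?_⟩
  obtain ⟨X₀, hX₀, G⟩ := G r hr
  refine ⟨X₀, hX₀, ?_⟩
  intro X hX b hb q us gs κ H hPD T hT hTθ M hM hlen E k5 x hE hk5 hx
  obtain ⟨hNr, G⟩ := G X hX
  replace G := G b hb q us gs κ H hPD T hT M hM
  have hX1 : 1 < X := by linarith
  set L := Real.log X with hLd
  have hL : 0 < L := Real.log_pos hX1
  have hN0 : (0 : ℝ) ≤ N := Nat.cast_nonneg N
  have hrL : r ≤ τ * L := by nlinarith
  have hRb := hR b hb
  have hT5 := mul_le_mul_of_nonneg_left hRb.T5_le hL.le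
  have hK5 : b 0 ≤ K5 b := le_max_left _ _
  have hK5L := mul_le_mul_of_nonneg_left hK5 hL.le
  have hx0L := mul_nonneg hL.le hRb.x0
  have hx1L := mul_le_mul_of_nonneg_left hRb.x1 hL.le
  have hL50 := mul_nonneg hL.le (L5_nonneg b)
  set ps := [us 0, us 1, us 2] ++ gs with hps
  set t := τ * L with ht
  have ht0 : 0 ≤ t := by positivity
  obtain ⟨hk1, hk2⟩ := abs_le.1 hk5
  obtain ⟨hx1, hx2⟩ := abs_le.1 hx
  have hT' : T ≤ L * T5 b + t := by rw [ht]; linarith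
  have hTN : T + L * (b 1 + b 2 + b 3) / 2 + L * b 4 ≤ L * K5 b + 3 * 0 + t := by
    rw [ht]
    have e : (K5 b - (b 1 + b 2 + b 3) / 2 - b 4 + τ) * L =
      L * K5 b - L * (b 1 + b 2 + b 3) / 2 - L * b 4 + τ * L := by ring
    rw [e] at hTθ
    linarith
  have hE' : E ≤ L * b 0 / 20 + t := by
    have e : (1 / 20 * b 0 + τ) * L = L * b 0 / 20 + t := by rw [ht]; ring
    linarith
  have hmin' : L * b 0 / 2 - 2 * (L * b 4) - t ≤ LN ps := by
    have e : (b 0 / 2 - 2 * b 4 - τ) * L = L * b 0 / 2 - 2 * (L * b 4) - t := by rw [ht]; ring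
    linarith
  intro g hg hgB β l ps' hβ hβE hl hch hn hlev
  have hγ : 0 ≤ Real.log (nm g : ℝ) := Real.log_nonneg (by exact_mod_cast nm_pos.2 hg.ne_zero)
  obtain ⟨hn1, hn2⟩ := abs_le.1 hn
  have key := G g hg hgB 0 β l ps' le_rfl (by linarith) (by linarith) hβ hl hch hn (by linarith)
    (Sh5 k5 x (LN ps) (Real.log (nm g)) β (l - β) - L * L5 b) (by
      intro z₁ z₂ z₃ w h1 h2 h3 hw hwx hsum hnx _ _ _
      have h4 := kW_cell (K' := L * K5 b) (κ := L * K5 b) (L := 0) (T := T)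
        (γ := Real.log (nm g)) (b := β) (c := 0) (l := l) (n := LN ps') (w := w) (x := L * b 4)
        (N := L * (b 1 + b 2 + b 3)) (t := 5 * t) (by positivity) (by linarith) hβ (by linarith)
        hγ le_rfl (by linarith) (by linarith) (by linarith) (by linarith)
      unfold eW
      have h5 := min_le_Sh5 (κ := L * b 0) (K' := L * K5 b) (K₁ := kW (L * K5 b) l (LN ps') w)
        (k5 := k5) (x := x) (d := d)
        (T := T) (γ := Real.log (nm g)) (b := β) (l := l) (n := LN ps') (p := LN ps) (t := 5 * t)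
        (z₁ := z₁) (z₂ := z₂) (z₃ := z₃) (w := w) (y := L * b 4) (by positivity) hβ
        (by linarith) hK5L (by linarith) hx0L
        (by linarith) (by linarith) hγ (by linarith) (by linarith) (by linarith) (by linarith)
        (by linarith) (by linarith) h1 h2 h3 hw (by linarith) hsum
      linarith)
  refine key.trans (le_of_eq ?_)
  have e1 : Real.exp (Sh5 k5 x (LN ps) (Real.log (nm g)) β (l - β) - L * L5 b) =
      X ^ (-L5 b) * Real.exp (Sh5 k5 x (LN ps) (Real.log (nm g)) β (l - β)) := by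
    rw [Real.rpow_def_of_pos (by linarith), ← Real.exp_add]
    congr 1
    ring
  rw [e1]
  have e2 : X ^ (L5 b + ℓ b + ε) * X ^ (-L5 b) = X ^ (ℓ b + ε) := by
    rw [← Real.rpow_add (by linarith)]
    congr 1
    ring
  rw [← e2]
  ring

end Crest.Agent.R017.P10146
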