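import Crest.Agent.R017.P1E_904

/-!
# Row 17, R8: the real lines of `HiU` (helper176)

The second moment of three lumps at the levels `min (2N-1) (3/4 N) + 9/4 x ≤ v ≤ vS`, without
amplifier, target lowered by `3/4 x` (helper319's and helper404's split of the window). Base
`κ = 1`, parents of any total length `0 ≤ p ≤ N`.

* `MD` : the diagonal, from `t ≤ max (2p) (4/3 p + (5/4 N + v)/3)`
* `R3D` : structured part, `δ ≤ 1/10`, sum over `e`, `e ≤ 1/64`, loss `2 e`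
* `T3D` : no structured part, `δ ≥ 1/10`
* `TtD` : top of short parents
* `md`, `r3D`, `t3D`, `ttD` : proofs
-/

set_option autoImplicit false
set_option linter.unusedVariables false

noncomputable section

namespace Crest.Agent.R017.P1D176

open Crest.Agent.R017.P1R904
open Crest.Agent.R017.P1F904 (Dp vS ChP l3_le l3_nonneg L0_ge vt_le vS_le)
open Crest.Agent.R017.P1E904 (DpW r3_leW)

/-- **(M)** the diagonal -/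
def MD : Prop := ∀ y₃ y₄ u x d p v t : ℝ, DpW y₃ y₄ u x d →
  0 ≤ p → p ≤ y₃ + y₄ + u →
  min (2 * (y₃ + y₄ + u) - 1) (3 / 4 * (y₃ + y₄ + u)) + 9 / 4 * x ≤ v →
  t ≤ max (2 * p) (4 / 3 * p + (5 / 4 * (y₃ + y₄ + u) + v) / 3) →
  2 / 3 - v / 3 - p / 3 + t ≤
    1 + p - 3 / 4 * x + max 0 (5 / 4 * (y₃ + y₄ + u) - 1) + 3 / 4 * d

/-- **(R3)** -/
def R3D : Prop := ∀ y₃ y₄ u x d p v δ φ e i z₁ z₂ z₃ : ℝ, DpW y₃ y₄ u x d →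
  0 ≤ p → p ≤ y₃ + y₄ + u → 0 ≤ v → v ≤ vS (y₃ + y₄ + u) x →
  0 ≤ δ → δ ≤ 1 / 10 → 0 ≤ e → e ≤ 1 / 64 → e ≤ φ → ChP y₃ y₄ u x p (δ + φ) z₁ z₂ z₃ 0 →
  z₁ ≤ i → z₂ ≤ i → z₃ ≤ i → i ≤ v + p - 1 + φ →
  r3 d i z₁ z₂ z₃ 0 + (v + p - 1 + φ - i) / 3 + 2 * δ + 2 * e + max 0 (2 * v - 1 - δ) / 2 +
    1 / 200 ≤ (1 + v + 4 * p) / 3 + L0 (y₃ + y₄ + u) - 3 / 4 * x

/-- **(T3)** -/
def T3D : Prop := ∀ y₃ y₄ u x d p v δ e z₁ z₂ z₃ : ℝ, DpW y₃ y₄ u x d →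
  0 ≤ p → p ≤ y₃ + y₄ + u → 0 ≤ v → v ≤ vS (y₃ + y₄ + u) x →
  1 / 10 ≤ δ → 2 * δ ≤ v → 0 ≤ e → e ≤ 1 / 64 → ChP y₃ y₄ u x p (δ + e) z₁ z₂ z₃ 0 →
  2 / 3 - (v - 2 * δ) / 3 - (p - δ) / 3 + δ + 2 * e +
    (v - 2 * δ + (z₁ + z₂ + z₃) + min z₁ (min z₂ z₃)) +
    max 0 (2 * v - 1 - δ) / 3 + 1 / 200 ≤
    1 + p + L0 (y₃ + y₄ + u) - 3 / 4 * x

/-- **(T-top)** -/
def TtD : Prop := ∀ y₃ y₄ u x d p v : ℝ, DpW y₃ y₄ u x d →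
  1 / 2 - 2 * x ≤ p → p ≤ y₃ + y₄ + u → v ≤ vS (y₃ + y₄ + u) x →
  2 / 3 * (1 + v + p) + 1 / 25 ≤ 1 + p + L0 (y₃ + y₄ + u) - 3 / 4 * x

/-! ### proofs -/

theorem md : MD := by
  intro y₃ y₄ u x d p v t hD p0 pn hv ht
  obtain ⟨u4, y43, u0, hy3, N1, near, hx0, adm, d0, d1⟩ := hD
  have hL1 := le_max_left 0 (5 / 4 * (y₃ + y₄ + u) - 1)
  have hL2 := le_max_right 0 (5 / 4 * (y₃ + y₄ + u) - 1)
  generalize max 0 (5 / 4 * (y₃ + y₄ + u) - 1) = L at hL1 hL2 ⊢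
  rcases le_total (2 * (y₃ + y₄ + u) - 1) (3 / 4 * (y₃ + y₄ + u)) with h | h
  · rw [min_eq_left h] at hv
    rcases le_max_iff.1 ht with h1 | h1 <;> rcases adm with ⟨a0, rfl | a1⟩ | ⟨a1, a2, a3⟩ <;>
      linarith
  · rw [min_eq_right h] at hv
    rcases le_max_iff.1 ht with h1 | h1 <;> rcases adm with ⟨a0, rfl | a1⟩ | ⟨a1, a2, a3⟩ <;>
      linarith

set_option maxHeartbeats 2000000 in
theorem r3D : R3D := by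
  intro y₃ y₄ u x d p v δ φ e i z₁ z₂ z₃ hD p0 pn v0 hv hδ hδ1 e0 e1 hφ hc k1 k2 k3 hi
  obtain ⟨u4, y43, u0, hy3, N1, near, hx0, adm, d0, d1⟩ := hD
  obtain ⟨z10, z20, z30, -, z1, z2, z3, -, tot⟩ := hc
  obtain ⟨hv1, hv2⟩ := vS_le hv
  obtain ⟨hL1, hL2⟩ := L0_ge (y₃ + y₄ + u)
  have hzx : z₃ + 0 ≤ 3 / 10 := by linarith
  obtain ⟨hr, hr'⟩ := r3_leW d0 d1 z10 z20 z30 le_rfl k1 k2 k3 hzx
  obtain ⟨l1, l2, l3', l4, l5, l6⟩ := l3_le i z₁ z₂ z₃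
  generalize L0 (y₃ + y₄ + u) = L at hL1 hL2 ⊢
  generalize r3 d i z₁ z₂ z₃ 0 = r at hr hr' ⊢
  generalize l3 i z₁ z₂ z₃ = l at hr hr' l1 l2 l3' l4 l5 l6
  rcases adm with ⟨a0, rfl | a1⟩ | ⟨a1, a2, a3⟩ <;> rcases le_total 0 (2 * v - 1 - δ) with h | h <;>
  first | (rw [max_eq_right h]; linarith) | (rw [max_eq_left h]; linarith)

set_option maxHeartbeats 2000000 in
theorem t3D : T3D := by
  intro y₃ y₄ u x d p v δ e z₁ z₂ z₃ hD p0 pn v0 hv hδ hδ1 e0 e1 hc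
  obtain ⟨u4, y43, u0, hy3, N1, near, hx0, adm, d0, d1⟩ := hD
  obtain ⟨z10, z20, z30, -, z1, z2, z3, -, tot⟩ := hc
  obtain ⟨hv1, hv2⟩ := vS_le hv
  obtain ⟨hL1, hL2⟩ := L0_ge (y₃ + y₄ + u)
  have m1 : min z₁ (min z₂ z₃) ≤ z₁ := min_le_left _ _
  have m2 : min z₁ (min z₂ z₃) ≤ z₂ := (min_le_right _ _).trans (min_le_left _ _)
  have m3 : min z₁ (min z₂ z₃) ≤ z₃ := (min_le_right _ _).trans (min_le_right _ _)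
  generalize L0 (y₃ + y₄ + u) = L at hL1 hL2 ⊢
  generalize min z₁ (min z₂ z₃) = m at m1 m2 m3 ⊢
  rcases adm with ⟨a0, rfl | a1⟩ | ⟨a1, a2, a3⟩ <;> rcases le_total 0 (2 * v - 1 - δ) with h | h <;>
  first | (rw [max_eq_right h]; linarith) | (rw [max_eq_left h]; linarith)

theorem ttD : TtD := by
  intro y₃ y₄ u x d p v hD p0 pn hv
  obtain ⟨u4, y43, u0, hy3, N1, near, hx0, adm, d0, d1⟩ := hD
  obtain ⟨hv1, hv2⟩ := vS_le hv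
  obtain ⟨hL1, hL2⟩ := L0_ge (y₃ + y₄ + u)
  generalize L0 (y₃ + y₄ + u) = L at hL1 hL2 ⊢
  rcases adm with ⟨a0, rfl | a1⟩ | ⟨a1, a2, a3⟩ <;> linarith

end Crest.Agent.R017.P1D176
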