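import Crest.Agent.R017.P1G_904

/-!
# Row 17, R8: the real side of `P1` with a sum over `e` (`NB (A / e)`), helper904

`DpW` : as `Dp`, with `y₃ + x ≤ 61/200` (helper918's lifted parents). `e` : exponent of the number
summed over, `0 ≤ e ≤ 1/64`; it is removed (`φ ≥ e`) and costs `2 e` (error moment) or `e` (class
and mismatch).
* `R3E` : structured part, `δ ≤ 1/10`, levels `≤ vS` (`+ 3x`), loss `2 e`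
* `T3E` : no structured part, `δ ≥ 1/10`, levels `≤ vS`, loss `2 e`
* `R3C`, `T3C` : class and mismatch, levels `≤ vC` (`+ 4x`), threshold `11/100`, loss `e`
* `R2W` : `R2G` on `DpW`; `TtW` : `TtF` on `DpW`
-/

set_option autoImplicit false
set_option linter.unusedVariables false

noncomputable section

namespace Crest.Agent.R017.P1E904

open Crest.Agent.R017.P1R904
open Crest.Agent.R017.P1R2u176 (pmb pmb_le)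
open Crest.Agent.R017.P1F904 (Dp vS ChP l3_le l3_nonneg L0_ge vt_le vS_le)
open Crest.Agent.R017.P1G904 (Ww Ww_le)

/-- the wider domain -/
structure DpW (y₃ y₄ u x d : ℝ) : Prop where
  u4 : u ≤ y₄
  y43 : y₄ ≤ y₃
  u0 : 11 / 50 ≤ u
  y3 : y₃ + x ≤ 61 / 200
  N1 : y₃ + y₄ + u ≤ 102 / 125
  near : 99 / 100 ≤ y₃ + y₄ + 2 * u
  x0 : 0 ≤ x
  adm : (8 * x ≤ d ∧ (x = 0 ∨ y₃ + y₄ + u + x ≤ 4 / 5)) ∨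
    (3 / 4 ≤ y₃ + y₄ + u ∧ x + 2 * d ≤ 1 / 36 ∧ x + 7 / 10 * (y₃ + y₄ + u) ≤ 199 / 360)
  d0 : 0 ≤ d
  d1 : d ≤ 1 / 40

lemma _root_.Crest.Agent.R017.P1F904.Dp.w {y₃ y₄ u x d : ℝ} (h : Dp y₃ y₄ u x d) :
    DpW y₃ y₄ u x d :=
  ⟨h.u4, h.y43, h.u0, h.y3.trans (by norm_num), h.N1, h.near, h.x0, h.adm, h.d0, h.d1⟩

/-- top of the mismatch levels, if the structured window is `+ 2x` -/
def vC (N x : ℝ) : ℝ := min (2 * N - 1) (3 / 4 * N) + 4 * x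

/-- **(R3)** with `e` -/
def R3E : Prop := ∀ y₃ y₄ u x d p v δ φ e i z₁ z₂ z₃ x' : ℝ, DpW y₃ y₄ u x d →
  1 / 2 - 2 * x ≤ p → p ≤ y₃ + y₄ + u + x → 0 ≤ v → v ≤ vS (y₃ + y₄ + u) x →
  0 ≤ δ → δ ≤ 1 / 10 → 0 ≤ e → e ≤ 1 / 64 → e ≤ φ → ChP y₃ y₄ u x p (δ + φ) z₁ z₂ z₃ x' →
  z₁ ≤ i → z₂ ≤ i → z₃ ≤ i → i ≤ v + p - 1 + φ →
  r3 d i z₁ z₂ z₃ x' + (v + p - 1 + φ - i) / 3 + 2 * δ + 2 * e + max 0 (2 * v - 1 - δ) / 2 +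
    1 / 200 ≤ (1 + v + 4 * p) / 3 + L0 (y₃ + y₄ + u)

/-- **(T3)** with `e` -/
def T3E : Prop := ∀ y₃ y₄ u x d p v δ e z₁ z₂ z₃ x' : ℝ, DpW y₃ y₄ u x d →
  1 / 2 - 2 * x ≤ p → p ≤ y₃ + y₄ + u + x → 0 ≤ v → v ≤ vS (y₃ + y₄ + u) x →
  1 / 10 ≤ δ → 2 * δ ≤ v → 0 ≤ e → e ≤ 1 / 64 → ChP y₃ y₄ u x p (δ + e) z₁ z₂ z₃ x' →
  2 / 3 - (v - 2 * δ) / 3 - (p - δ) / 3 + δ + 2 * e +
    (v - 2 * δ + (z₁ + z₂ + z₃ + x') + (min z₁ (min z₂ z₃) + x')) +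
    max 0 (2 * v - 1 - δ) / 3 + 1 / 200 ≤
    1 + p + L0 (y₃ + y₄ + u)

/-- **(R3)** of the class form and of the mismatch, with `e` -/
def R3C : Prop := ∀ y₃ y₄ u x d p v δ φ e i z₁ z₂ z₃ x' : ℝ, DpW y₃ y₄ u x d →
  1 / 2 - 2 * x ≤ p → p ≤ y₃ + y₄ + u + x → 0 ≤ v → v ≤ vC (y₃ + y₄ + u) x →
  0 ≤ δ → δ ≤ 11 / 100 → 0 ≤ e → e ≤ 1 / 64 → e ≤ φ → ChP y₃ y₄ u x p (δ + φ) z₁ z₂ z₃ x' →
  z₁ ≤ i → z₂ ≤ i → z₃ ≤ i → i ≤ v + p - 1 + φ →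
  r3 d i z₁ z₂ z₃ x' + (v + p - 1 + φ - i) / 3 + 2 * δ + e + max 0 (2 * v - 1 - δ) / 2 +
    1 / 200 ≤ (1 + v + 4 * p) / 3 + L0 (y₃ + y₄ + u)

/-- **(T3)** of the class form and of the mismatch, with `e` -/
def T3C : Prop := ∀ y₃ y₄ u x d p v δ e z₁ z₂ z₃ x' : ℝ, DpW y₃ y₄ u x d →
  1 / 2 - 2 * x ≤ p → p ≤ y₃ + y₄ + u + x → 0 ≤ v → v ≤ vC (y₃ + y₄ + u) x →
  11 / 100 ≤ δ → 2 * δ ≤ v → 0 ≤ e → e ≤ 1 / 64 → ChP y₃ y₄ u x p (δ + e) z₁ z₂ z₃ x' →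
  2 / 3 - (v - 2 * δ) / 3 - (p - δ) / 3 + δ + e +
    (v - 2 * δ + (z₁ + z₂ + z₃ + x') + (min z₁ (min z₂ z₃) + x')) +
    max 0 (2 * v - 1 - δ) / 3 + 1 / 200 ≤
    1 + p + L0 (y₃ + y₄ + u)

/-- **(T-top)** -/
def TtW : Prop := ∀ y₃ y₄ u x d p v : ℝ, DpW y₃ y₄ u x d →
  1 / 2 - 2 * x ≤ p → p ≤ y₃ + y₄ + u + x → v ≤ vt (y₃ + y₄ + u) x →
  2 / 3 * (1 + v + p) + 1 / 25 ≤ 1 + p + L0 (y₃ + y₄ + u)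

/-- **(R2)** -/
def R2W : Prop := ∀ y₃ y₄ u x d p v b g g₂ i z₁ z₂ z₃ x' : ℝ, DpW y₃ y₄ u x d →
  1 / 2 - 2 * x ≤ p → p ≤ y₃ + y₄ + u + x → 0 ≤ v → v ≤ vS (y₃ + y₄ + u) x →
  0 ≤ b → 0 ≤ g → 0 ≤ i → i ≤ v + p - 1 + b → i ≤ 1 - 2 * b →
  ChP y₃ y₄ u x p (b + g) z₁ z₂ z₃ x' → 0 ≤ g₂ → g₂ ≤ g → 2 * g₂ ≤ i →
  (Ww v i g - i + r3 d (i + 2 * b) (min z₁ (i + 2 * b)) (min z₂ (i + 2 * b))
      (min z₃ (i + 2 * b)) x' + 1 / 500 ≤ E2 v p (L0 (y₃ + y₄ + u))) ∨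
    (Ww v i g - i + pmb d (b + g₂) (i - 2 * g₂) z₁ z₂ z₃ x' + 1 / 500 ≤
      E2 v p (L0 (y₃ + y₄ + u)))

/-! ### proofs -/

section aux

/-- two linear upper bounds for `r3` -/
lemma r3_leW {d i z₁ z₂ z₃ x : ℝ} (d0 : 0 ≤ d) (d1 : d ≤ 1 / 40) (h1 : 0 ≤ z₁) (h2 : 0 ≤ z₂)
    (h3 : 0 ≤ z₃) (hx : 0 ≤ x) (k1 : z₁ ≤ i) (k2 : z₂ ≤ i) (k3 : z₃ ≤ i)
    (hs : z₃ + x ≤ 3 / 10) :
    r3 d i z₁ z₂ z₃ x ≤ i + (z₁ + z₂ + z₃ + x) + 4 / 5 * (l3 i z₁ z₂ z₃ + x) ∧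
    r3 d i z₁ z₂ z₃ x ≤ i + (z₁ + z₂ + z₃ + x) + 3 / 4 * (l3 i z₁ z₂ z₃ + x) + 3 / 5 * d := by
  unfold r3
  have h0 := l3_nonneg h1 h2 h3 k1 k2 k3
  have h4 := (l3_le i z₁ z₂ z₃).2.2.2.2.1
  constructor <;> nlinarith

lemma vC_le {N x v : ℝ} (h : v ≤ vC N x) : v ≤ 2 * N - 1 + 4 * x ∧ v ≤ 3 / 4 * N + 4 * x := by
  unfold vC at h
  have h1 := min_le_left (2 * N - 1) (3 / 4 * N)
  have h2 := min_le_right (2 * N - 1) (3 / 4 * N)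
  exact ⟨by linarith, by linarith⟩

end aux

set_option maxHeartbeats 2000000 in
theorem r3E : R3E := by
  intro y₃ y₄ u x d p v δ φ e i z₁ z₂ z₃ x' hD p0 pn v0 hv hδ hδ1 e0 e1 hφ hc k1 k2 k3 hi
  obtain ⟨u4, y43, u0, hy3, N1, near, hx0, adm, d0, d1⟩ := hD
  obtain ⟨z10, z20, z30, x0', z1, z2, z3, x1', tot⟩ := hc
  obtain ⟨hv1, hv2⟩ := vS_le hv
  obtain ⟨hL1, hL2⟩ := L0_ge (y₃ + y₄ + u)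
  have hzx : z₃ + x' ≤ 3 / 10 := by rcases adm with ⟨a0, a1⟩ | ⟨a1, a2, a3⟩ <;> linarith
  obtain ⟨hr, hr'⟩ := r3_leW d0 d1 z10 z20 z30 x0' k1 k2 k3 hzx
  obtain ⟨l1, l2, l3', l4, l5, l6⟩ := l3_le i z₁ z₂ z₃
  generalize L0 (y₃ + y₄ + u) = L at hL1 hL2 ⊢
  generalize r3 d i z₁ z₂ z₃ x' = r at hr hr' ⊢
  generalize l3 i z₁ z₂ z₃ = l at hr hr' l1 l2 l3' l4 l5 l6
  rcases adm with ⟨a0, rfl | a1⟩ | ⟨a1, a2, a3⟩ <;> rcases le_total 0 (2 * v - 1 - δ) with h | h <;>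
  first | (rw [max_eq_right h]; linarith) | (rw [max_eq_left h]; linarith)

set_option maxHeartbeats 2000000 in
theorem r3C : R3C := by
  intro y₃ y₄ u x d p v δ φ e i z₁ z₂ z₃ x' hD p0 pn v0 hv hδ hδ1 e0 e1 hφ hc k1 k2 k3 hi
  obtain ⟨u4, y43, u0, hy3, N1, near, hx0, adm, d0, d1⟩ := hD
  obtain ⟨z10, z20, z30, x0', z1, z2, z3, x1', tot⟩ := hc
  obtain ⟨hv1, hv2⟩ := vC_le hv
  obtain ⟨hL1, hL2⟩ := L0_ge (y₃ + y₄ + u)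
  have hzx : z₃ + x' ≤ 3 / 10 := by rcases adm with ⟨a0, a1⟩ | ⟨a1, a2, a3⟩ <;> linarith
  obtain ⟨hr, hr'⟩ := r3_leW d0 d1 z10 z20 z30 x0' k1 k2 k3 hzx
  obtain ⟨l1, l2, l3', l4, l5, l6⟩ := l3_le i z₁ z₂ z₃
  generalize L0 (y₃ + y₄ + u) = L at hL1 hL2 ⊢
  generalize r3 d i z₁ z₂ z₃ x' = r at hr hr' ⊢
  generalize l3 i z₁ z₂ z₃ = l at hr hr' l1 l2 l3' l4 l5 l6
  rcases adm with ⟨a0, rfl | a1⟩ | ⟨a1, a2, a3⟩ <;> rcases le_total 0 (2 * v - 1 - δ) with h | h <;>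
  first | (rw [max_eq_right h]; linarith) | (rw [max_eq_left h]; linarith)

set_option maxHeartbeats 2000000 in
theorem t3E : T3E := by
  intro y₃ y₄ u x d p v δ e z₁ z₂ z₃ x' hD p0 pn v0 hv hδ hδ1 e0 e1 hc
  obtain ⟨u4, y43, u0, hy3, N1, near, hx0, adm, d0, d1⟩ := hD
  obtain ⟨z10, z20, z30, x0', z1, z2, z3, x1', tot⟩ := hc
  obtain ⟨hv1, hv2⟩ := vS_le hv
  obtain ⟨hL1, hL2⟩ := L0_ge (y₃ + y₄ + u)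
  have m1 : min z₁ (min z₂ z₃) ≤ z₁ := min_le_left _ _
  have m2 : min z₁ (min z₂ z₃) ≤ z₂ := (min_le_right _ _).trans (min_le_left _ _)
  have m3 : min z₁ (min z₂ z₃) ≤ z₃ := (min_le_right _ _).trans (min_le_right _ _)
  generalize L0 (y₃ + y₄ + u) = L at hL1 hL2 ⊢
  generalize min z₁ (min z₂ z₃) = m at m1 m2 m3 ⊢
  rcases adm with ⟨a0, rfl | a1⟩ | ⟨a1, a2, a3⟩ <;> rcases le_total 0 (2 * v - 1 - δ) with h | h <;>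
  first | (rw [max_eq_right h]; linarith) | (rw [max_eq_left h]; linarith)

set_option maxHeartbeats 2000000 in
theorem t3C : T3C := by
  intro y₃ y₄ u x d p v δ e z₁ z₂ z₃ x' hD p0 pn v0 hv hδ hδ1 e0 e1 hc
  obtain ⟨u4, y43, u0, hy3, N1, near, hx0, adm, d0, d1⟩ := hD
  obtain ⟨z10, z20, z30, x0', z1, z2, z3, x1', tot⟩ := hc
  obtain ⟨hv1, hv2⟩ := vC_le hv
  obtain ⟨hL1, hL2⟩ := L0_ge (y₃ + y₄ + u)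
  have m1 : min z₁ (min z₂ z₃) ≤ z₁ := min_le_left _ _
  have m2 : min z₁ (min z₂ z₃) ≤ z₂ := (min_le_right _ _).trans (min_le_left _ _)
  have m3 : min z₁ (min z₂ z₃) ≤ z₃ := (min_le_right _ _).trans (min_le_right _ _)
  generalize L0 (y₃ + y₄ + u) = L at hL1 hL2 ⊢
  generalize min z₁ (min z₂ z₃) = m at m1 m2 m3 ⊢
  rcases adm with ⟨a0, rfl | a1⟩ | ⟨a1, a2, a3⟩ <;> rcases le_total 0 (2 * v - 1 - δ) with h | h <;>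
  first | (rw [max_eq_right h]; linarith) | (rw [max_eq_left h]; linarith)

theorem ttW : TtW := by
  intro y₃ y₄ u x d p v hD p0 pn hv
  obtain ⟨u4, y43, u0, hy3, N1, near, hx0, adm, d0, d1⟩ := hD
  obtain ⟨hv1, hv2⟩ := vt_le hv
  obtain ⟨hL1, hL2⟩ := L0_ge (y₃ + y₄ + u)
  generalize L0 (y₃ + y₄ + u) = L at hL1 hL2 ⊢
  rcases adm with ⟨a0, rfl | a1⟩ | ⟨a1, a2, a3⟩ <;> linarith

set_option maxHeartbeats 8000000 in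
/-- the linear core of (R2) : all the cases -/
lemma core {y₃ y₄ u x d p v b g g₂ i z₁ z₂ z₃ x' W L E Λ m₁ m₂ m₃ : ℝ} (u4 : u ≤ y₄)
    (y43 : y₄ ≤ y₃) (u0 : 11 / 50 ≤ u) (hy3 : y₃ + x ≤ 61 / 200) (N1 : y₃ + y₄ + u ≤ 102 / 125)
    (near : 99 / 100 ≤ y₃ + y₄ + 2 * u) (x0 : 0 ≤ x)
    (adm : (8 * x ≤ d ∧ (x = 0 ∨ y₃ + y₄ + u + x ≤ 4 / 5)) ∨
      (3 / 4 ≤ y₃ + y₄ + u ∧ x + 2 * d ≤ 1 / 36 ∧ x + 7 / 10 * (y₃ + y₄ + u) ≤ 199 / 360))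
    (d0 : 0 ≤ d) (d1 : d ≤ 1 / 40)
    (p0 : 1 / 2 - 2 * x ≤ p) (pn : p ≤ y₃ + y₄ + u + x)
    (v0 : 0 ≤ v) (hv1 : v ≤ 2 * (y₃ + y₄ + u) - 1 + 3 * x)
    (hv2 : v ≤ 3 / 4 * (y₃ + y₄ + u) + 3 * x) (b0 : 0 ≤ b)
    (hΛ0 : 0 ≤ Λ) (hΛ1 : (5 / 4 * (y₃ + y₄ + u) - 1) / 3 ≤ Λ)
    (g0 : 0 ≤ g) (i0 : 0 ≤ i) (i1 : i ≤ v + p - 1 + b) (i2 : i ≤ 1 - 2 * b)
    (z10 : 0 ≤ z₁) (z20 : 0 ≤ z₂) (z30 : 0 ≤ z₃) (x0' : 0 ≤ x') (z1 : z₁ ≤ y₃) (z2 : z₂ ≤ y₄)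
    (z3 : z₃ ≤ u) (x1' : x' ≤ x)
    (tot : z₁ + z₂ + z₃ + x' + (b + g) ≤ p) (h0 : 0 ≤ g₂) (hg : g₂ ≤ g) (gi : 2 * g₂ ≤ i)
    (k1 : m₁ ≤ i + 2 * b) (k2 : m₂ ≤ i + 2 * b) (k3 : m₃ ≤ i + 2 * b)
    (j1 : m₁ ≤ z₁) (j2 : m₂ ≤ z₂) (j3 : m₃ ≤ z₃)
    (l1 : L ≤ m₁) (l2 : L ≤ i + 2 * b - m₁) (l3 : L ≤ m₂) (l4 : L ≤ i + 2 * b - m₂)
    (l5 : L ≤ m₃) (l6 : L ≤ i + 2 * b - m₃)
    (hE : E = 1 + p + Λ ∨ E = (4 + p + v) / 3 + 2 * Λ)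
    (hm : E < W - i + (i + 2 * b + (m₁ + m₂ + m₃ + x') + 4 / 5 * (L + x')) + 1 / 500)
    (hW : W ≤ v + g ∨ W ≤ i + g ∨ W ≤ 2 / 3 * (v + i) + g)
    (hp : E < W - i + ((i - 2 * g₂) + (b + g₂) + (z₁ + z₂ + z₃ + x')) + 1 / 500 ∨
      (∃ m, (m ≤ b + g₂ ∧ m ≤ i - 2 * g₂) ∧
        E < W - i + (2 * (z₁ + z₂ + z₃ + x') + m) + 1 / 500) ∨
      (∃ L', (L' ≤ z₁ ∧ L' ≤ z₂ ∧ L' ≤ z₃) ∧
        E < W - i + (b + g₂ + (z₁ + z₂ + z₃ + x') + 4 / 5 * L' + x') + 1 / 500) ∨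
      (∃ L', (L' ≤ z₁ ∧ L' ≤ z₂ ∧ L' ≤ z₃) ∧
        E < W - i + (i - 2 * g₂ + (z₁ + z₂ + z₃ + x') + 4 / 5 * L' + x') + 1 / 500)) :
    False := by
  rcases adm with ⟨a0, rfl | a1⟩ | ⟨a1, a2, a3⟩ <;> rcases hE with rfl | rfl <;>
  rcases hp with hp | ⟨m, ⟨n1, n2⟩, hp⟩ | ⟨m, ⟨n1, n2, n3⟩, hp⟩ | ⟨m, ⟨n1, n2, n3⟩, hp⟩ <;>
  rcases hW with hW | hW | hW <;> linarith

/-- **(R2)** on the wider domain -/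
theorem r2W : R2W := by
  intro y₃ y₄ u x d p v b g g₂ i z₁ z₂ z₃ x' hD p0 pn v0 hv b0 g0 i0 i1 i2 hc h0 hg gi
  obtain ⟨u4, y43, u0, hy3, N1, near, hx0, adm, d0, d1⟩ := hD
  obtain ⟨z10, z20, z30, x0', z1, z2, z3, x1', tot⟩ := hc
  obtain ⟨hv1, hv2⟩ := vS_le hv
  obtain ⟨hL1, hL2⟩ := L0_ge (y₃ + y₄ + u)
  have hzx : z₃ + x' ≤ 3 / 10 := by rcases adm with ⟨a0, a1⟩ | ⟨a1, a2, a3⟩ <;> linarith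
  generalize L0 (y₃ + y₄ + u) = Λ at hL1 hL2 ⊢
  have hE : E2 v p Λ = 1 + p + Λ ∨ E2 v p Λ = (4 + p + v) / 3 + 2 * Λ := min_choice _ _
  generalize E2 v p Λ = E at hE ⊢
  by_contra hcon
  rw [not_or, not_le, not_le] at hcon
  obtain ⟨hm, hp⟩ := hcon
  have hI : 0 ≤ i + 2 * b := by linarith
  have k1 := min_le_right z₁ (i + 2 * b)
  have k2 := min_le_right z₂ (i + 2 * b)
  have k3 := min_le_right z₃ (i + 2 * b)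
  have j1 := min_le_left z₁ (i + 2 * b)
  have j2 := min_le_left z₂ (i + 2 * b)
  have j3 := min_le_left z₃ (i + 2 * b)
  obtain ⟨l1, l2, l3', l4, l5, l6⟩ := l3_le (i + 2 * b) (min z₁ (i + 2 * b)) (min z₂ (i + 2 * b))
    (min z₃ (i + 2 * b))
  have hr := (r3_leW d0 d1 (le_min z10 hI) (le_min z20 hI) (le_min z30 hI) x0' k1 k2 k3
    (by linarith)).1
  refine core u4 y43 u0 hy3 N1 near hx0 adm d0 d1 p0 pn v0 hv1 hv2 b0 hL1 hL2 g0 i0 i1 i2 z10 z20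
    z30 x0' z1 z2 z3 x1' tot h0 hg gi k1 k2 k3 j1 j2 j3 l1 l2 l3' l4 l5 l6 hE (by linarith)
    (Ww_le v i g) ?_
  rcases pmb_le d0 d1 z10 z20 z30 (b := b + g₂) (i := i - 2 * g₂) (x' := x') with
    h | ⟨m, h1, h⟩ | ⟨m, h1, h⟩ | ⟨m, h1, h⟩
  · exact Or.inl (by linarith)
  · exact Or.inr (Or.inl ⟨m, h1, by linarith⟩)
  · exact Or.inr (Or.inr (Or.inl ⟨m, h1, by linarith⟩))
  · exact Or.inr (Or.inr (Or.inr ⟨m, h1, by linarith⟩))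

end Crest.Agent.R017.P1E904
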