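import Crest.Agent.R017.P1F_904

/-!
# Row 17, R8 (exceptional class): real lines of `P1` for the replaced triple, final form (helper73)

Against helper904's `P1F_904` (`Dp`, parents of total length `p`, children `ChP`). The side of the
difference is `{y₃, y₄, u | x} - {y₃ + y₄ - b, b, u | x}`, `17/100 ≤ b ≤ 1/5`.

* `ChPR`  : children of a parent of the replaced triple
* `ChPR.dom` : every such child is dominated by a natural one (`ChP`)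
* `r3F_R`, `t3F_R`, `r2F_R` : helper904's lines for `ChPR` from those for `ChP`
* short parents (helper319, helper73: a parent which lost `s = N + x - p` has only the gain
  `17/100 - s`, so the level is `v ≤ vt - 2 s + 1/50`): `bt` (bias of the T-side = principal line
  of E2), `e3p` (principal frequencies in E3)
-/

set_option autoImplicit false

noncomputable section

namespace Crest.Agent.R017.P1FX73

open Crest.Agent.R017.P1R904 Crest.Agent.R017.P1F904 Crest.Agent.R017.P1R2u176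

/-- children of a parent (total length `p`) of the replaced triple, at least `δ` removed -/
structure ChPR (y₃ y₄ u x b p δ z₁ z₂ z₃ x' : ℝ) : Prop where
  z10 : 0 ≤ z₁
  z20 : 0 ≤ z₂
  z30 : 0 ≤ z₃
  x0 : 0 ≤ x'
  z1 : z₁ ≤ y₃ + y₄ - b
  z2 : z₂ ≤ b
  z3 : z₃ ≤ u
  x1 : x' ≤ x
  tot : z₁ + z₂ + z₃ + x' + δ ≤ p

/-- domination by a natural child: same total, the two lumps are closer together -/
theorem ChPR.dom {y₃ y₄ u x d b p δ z₁ z₂ z₃ x' : ℝ} (D : Dp y₃ y₄ u x d) (hb : b ≤ 1 / 5)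
    (C : ChPR y₃ y₄ u x b p δ z₁ z₂ z₃ x') :
    ∃ w₁ w₂ : ℝ, ChP y₃ y₄ u x p δ w₁ w₂ z₃ x' ∧ w₁ + w₂ = z₁ + z₂ ∧ w₁ ≤ z₁ ∧
      (w₁ = z₁ ∧ w₂ = z₂ ∨ (z₂ ≤ w₁ ∧ z₂ ≤ w₂ ∧ w₂ ≤ z₁)) := by
  obtain ⟨h1, h2, h3, h4, h5, h6, h7, h8, h9⟩ := C
  have d1 := D.u4
  have d2 := D.y43
  have d3 := D.u0
  rcases le_total z₁ y₃ with h | h
  · exact ⟨z₁, z₂, ⟨h1, h2, h3, h4, h, by linarith, h7, h8, h9⟩, rfl, le_rfl, Or.inl ⟨rfl, rfl⟩⟩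
  · exact ⟨y₃, z₁ + z₂ - y₃, ⟨by linarith, by linarith, h3, h4, le_rfl, by linarith, h7, h8,
      by linarith⟩, by ring, h, Or.inr ⟨by linarith, by linarith, by linarith⟩⟩

/-- `r3` is monotone: total and third lump -/
theorem r3_mono {d i z₁ z₂ z₃ x w₁ w₂ w₃ : ℝ} (hd : 0 ≤ d) (hs : z₁ + z₂ + z₃ ≤ w₁ + w₂ + w₃)
    (hl : l3 i z₁ z₂ z₃ ≤ l3 i w₁ w₂ w₃) : r3 d i z₁ z₂ z₃ x ≤ r3 d i w₁ w₂ w₃ x := by
  unfold r3
  have : (3 / 4 + 2 * d) * (l3 i z₁ z₂ z₃ + x) ≤ (3 / 4 + 2 * d) * (l3 i w₁ w₂ w₃ + x) :=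
    mul_le_mul_of_nonneg_left (by linarith) (by linarith)
  linarith

/-- `l3` increases when two lumps get closer -/
theorem l3_dom {i z₁ z₂ z₃ w₁ w₂ : ℝ} (h1 : w₁ ≤ z₁)
    (h : w₁ = z₁ ∧ w₂ = z₂ ∨ (z₂ ≤ w₁ ∧ z₂ ≤ w₂ ∧ w₂ ≤ z₁)) :
    l3 i z₁ z₂ z₃ ≤ l3 i w₁ w₂ z₃ := by
  rcases h with ⟨rfl, rfl⟩ | ⟨h2, h3, h4⟩
  · exact le_rfl
  · unfold l3
    have e1 : min (min z₁ (i - z₁)) (min (min z₂ (i - z₂)) (min z₃ (i - z₃))) ≤ i - z₁ :=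
      (min_le_left _ _).trans (min_le_right _ _)
    have e2 : min (min z₁ (i - z₁)) (min (min z₂ (i - z₂)) (min z₃ (i - z₃))) ≤ z₂ :=
      (min_le_right _ _).trans ((min_le_left _ _).trans (min_le_left _ _))
    have e3 : min (min z₁ (i - z₁)) (min (min z₂ (i - z₂)) (min z₃ (i - z₃))) ≤
        min z₃ (i - z₃) := (min_le_right _ _).trans (min_le_right _ _)
    exact le_min (le_min (by linarith) (by linarith)) (le_min (le_min (by linarith)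
      (by linarith)) e3)

/-- the cut lumps `min z I` -/
theorem l3_domI {i I z₁ z₂ z₃ w₁ w₂ : ℝ} (h1 : w₁ ≤ z₁)
    (h : w₁ = z₁ ∧ w₂ = z₂ ∨ (z₂ ≤ w₁ ∧ z₂ ≤ w₂ ∧ w₂ ≤ z₁)) :
    l3 i (min z₁ I) (min z₂ I) z₃ ≤ l3 i (min w₁ I) (min w₂ I) z₃ := by
  refine l3_dom (min_le_min_right _ h1) ?_
  rcases h with ⟨rfl, rfl⟩ | ⟨h2, h3, h4⟩
  · exact Or.inl ⟨rfl, rfl⟩
  · exact Or.inr ⟨min_le_min_right _ h2, min_le_min_right _ h3, min_le_min_right _ h4⟩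

/-- the sum of the cut lumps increases -/
theorem sum_domI {I z₁ z₂ w₁ w₂ : ℝ} (hs : w₁ + w₂ = z₁ + z₂) (h1 : w₁ ≤ z₁)
    (h : w₁ = z₁ ∧ w₂ = z₂ ∨ (z₂ ≤ w₁ ∧ z₂ ≤ w₂ ∧ w₂ ≤ z₁)) :
    min z₁ I + min z₂ I ≤ min w₁ I + min w₂ I := by
  rcases h with ⟨rfl, rfl⟩ | ⟨h2, h3, h4⟩
  · exact le_rfl
  · have a1 : min z₁ I ≤ z₁ := min_le_left _ _
    have a2 : min z₁ I ≤ I := min_le_right _ _
    have a3 : min z₂ I ≤ z₂ := min_le_left _ _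
    have a4 : min z₂ I ≤ I := min_le_right _ _
    rcases le_total w₁ I with h5 | h5 <;> rcases le_total w₂ I with h6 | h6
    · rw [min_eq_left h5, min_eq_left h6]; linarith
    · rw [min_eq_left h5, min_eq_right h6]; linarith
    · rw [min_eq_right h5, min_eq_left h6]; linarith
    · rw [min_eq_right h5, min_eq_right h6]; linarith

theorem min3_dom {z₁ z₂ z₃ w₁ w₂ : ℝ}
    (h : w₁ = z₁ ∧ w₂ = z₂ ∨ (z₂ ≤ w₁ ∧ z₂ ≤ w₂ ∧ w₂ ≤ z₁)) :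
    min z₁ (min z₂ z₃) ≤ min w₁ (min w₂ z₃) := by
  rcases h with ⟨rfl, rfl⟩ | ⟨h2, h3, -⟩
  · exact le_rfl
  · have e2 : min z₁ (min z₂ z₃) ≤ z₂ := (min_le_right _ _).trans (min_le_left _ _)
    have e3 : min z₁ (min z₂ z₃) ≤ z₃ := (min_le_right _ _).trans (min_le_right _ _)
    exact le_min (by linarith) (le_min (by linarith) e3)

theorem pmb_mono {d b i z₁ z₂ z₃ x w₁ w₂ : ℝ} (hd : 0 ≤ d) (hs : w₁ + w₂ = z₁ + z₂)
    (hm : min z₁ (min z₂ z₃) ≤ min w₁ (min w₂ z₃)) :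
    pmb d b i z₁ z₂ z₃ x ≤ pmb d b i w₁ w₂ z₃ x := by
  unfold pmb
  rw [hs]
  have : (3 / 4 + 2 * d) * min z₁ (min z₂ z₃) ≤ (3 / 4 + 2 * d) * min w₁ (min w₂ z₃) :=
    mul_le_mul_of_nonneg_left hm (by linarith)
  exact max_le_max le_rfl (by linarith)

/-- **(R3)** for the replaced triple -/
def R3FR (b : ℝ) : Prop := ∀ y₃ y₄ u x d p v δ φ i z₁ z₂ z₃ x' : ℝ, Dp y₃ y₄ u x d →
  1 / 2 - 2 * x ≤ p → p ≤ y₃ + y₄ + u + x → 0 ≤ v → v ≤ vt (y₃ + y₄ + u) x →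
  0 ≤ δ → δ ≤ 13 / 100 → 0 ≤ φ → ChPR y₃ y₄ u x b p (δ + φ) z₁ z₂ z₃ x' →
  z₁ ≤ i → z₂ ≤ i → z₃ ≤ i → i ≤ v + p - 1 + φ →
  r3 d i z₁ z₂ z₃ x' + (v + p - 1 + φ - i) / 3 + 2 * δ + max 0 (2 * v - 1 - δ) / 2 + 1 / 200 ≤
    (1 + v + 4 * p) / 3 + L0 (y₃ + y₄ + u)

/-- **(T3)** for the replaced triple -/
def T3FR (b : ℝ) : Prop := ∀ y₃ y₄ u x d p v δ z₁ z₂ z₃ x' : ℝ, Dp y₃ y₄ u x d →
  1 / 2 - 2 * x ≤ p → p ≤ y₃ + y₄ + u + x → 0 ≤ v → v ≤ vt (y₃ + y₄ + u) x →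
  13 / 100 ≤ δ → 2 * δ ≤ v → ChPR y₃ y₄ u x b p δ z₁ z₂ z₃ x' →
  2 / 3 - (v - 2 * δ) / 3 - (p - δ) / 3 + δ +
    (v - 2 * δ + (z₁ + z₂ + z₃ + x') + (min z₁ (min z₂ z₃) + x')) +
    max 0 (2 * v - 1 - δ) / 3 + 1 / 200 ≤
    1 + p + L0 (y₃ + y₄ + u)

/-- **(R2)** for the replaced triple (`β` = size of `B`) -/
def R2FR (b : ℝ) : Prop := ∀ y₃ y₄ u x d p v β g i z₁ z₂ z₃ x' : ℝ, Dp y₃ y₄ u x d →
  1 / 2 - 2 * x ≤ p → p ≤ y₃ + y₄ + u + x → 0 ≤ v → v ≤ vS (y₃ + y₄ + u) x →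
  0 ≤ β → 0 ≤ g → 2 * g ≤ i → i ≤ v + p - 1 + β → i ≤ 1 - 2 * β →
  ChPR y₃ y₄ u x b p (β + g) z₁ z₂ z₃ x' →
  (Wm v i g - i + r3 d (i + 2 * β) (min z₁ (i + 2 * β)) (min z₂ (i + 2 * β))
      (min z₃ (i + 2 * β)) x' + 1 / 500 ≤ E2 v p (L0 (y₃ + y₄ + u))) ∨
    (Wm v i g - i + pmb d β i z₁ z₂ z₃ x' + 1 / 500 ≤ E2 v p (L0 (y₃ + y₄ + u)))

theorem r3F_R {b : ℝ} (hb : b ≤ 1 / 5) : R3FR b := by
  intro y₃ y₄ u x d p v δ φ i z₁ z₂ z₃ x' D hp hp1 hv hv1 hδ hδ1 hφ C a1 a2 a3 hi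
  obtain ⟨w₁, w₂, C', hs, h1, h2⟩ := C.dom D hb
  have c2 : w₂ ≤ i := by
    rcases h2 with ⟨-, h⟩ | ⟨-, -, h⟩ <;> linarith
  have h := r3F y₃ y₄ u x d p v δ φ i w₁ w₂ z₃ x' D hp hp1 hv hv1 hδ hδ1 hφ C' (h1.trans a1)
    c2 a3 hi
  have h2 := r3_mono (x := x') (z₃ := z₃) (w₃ := z₃) D.d0 (by linarith)
    (l3_dom (i := i) (z₃ := z₃) h1 h2)
  linarith

theorem t3F_R {b : ℝ} (hb : b ≤ 1 / 5) : T3FR b := by
  intro y₃ y₄ u x d p v δ z₁ z₂ z₃ x' D hp hp1 hv hv1 hδ hδ1 C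
  obtain ⟨w₁, w₂, C', hs, h1, h2⟩ := C.dom D hb
  have h := t3F y₃ y₄ u x d p v δ w₁ w₂ z₃ x' D hp hp1 hv hv1 hδ hδ1 C'
  rw [hs] at h
  have hm := min3_dom (z₃ := z₃) h2
  linarith

theorem r2F_R {b : ℝ} (hb : b ≤ 1 / 5) : R2FR b := by
  intro y₃ y₄ u x d p v β g i z₁ z₂ z₃ x' D hp hp1 hv hv1 hβ hg hgi hi hi2 C
  obtain ⟨w₁, w₂, C', hs, h1, h2⟩ := C.dom D hb
  rcases r2F y₃ y₄ u x d p v β g i w₁ w₂ z₃ x' D hp hp1 hv hv1 hβ hg hgi hi hi2 C' with h | h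
  · left
    have h3 := sum_domI (I := i + 2 * β) hs h1 h2
    have h4 := r3_mono (x := x') (z₃ := min z₃ (i + 2 * β)) (w₃ := min z₃ (i + 2 * β)) D.d0
      (by linarith) (l3_domI (i := i + 2 * β) (I := i + 2 * β) (z₃ := min z₃ (i + 2 * β)) h1 h2)
    linarith
  · right
    have := pmb_mono (x := x') (b := β) (i := i) D.d0 hs (min3_dom (z₃ := z₃) h2)
    linarith

/-- `vt + N + x` on the domain -/
lemma vt_le {y₃ y₄ u x d : ℝ} (D : Dp y₃ y₄ u x d) :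
    (vt (y₃ + y₄ + u) x + (y₃ + y₄ + u + x) - 1) / 3 ≤ 143 / 1000 ∧
      vt (y₃ + y₄ + u) x ≤ 16 / 25 := by
  have h1 : vt (y₃ + y₄ + u) x ≤ 2 * (y₃ + y₄ + u) - 1 + 5 * x := by
    unfold vt
    linarith [min_le_left (2 * (y₃ + y₄ + u) - 1) (3 / 4 * (y₃ + y₄ + u))]
  have h2 : vt (y₃ + y₄ + u) x ≤ 3 / 4 * (y₃ + y₄ + u) + 5 * x := by
    unfold vt
    linarith [min_le_right (2 * (y₃ + y₄ + u) - 1) (3 / 4 * (y₃ + y₄ + u))]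
  have h5 := D.N1
  have h6 := D.x0
  have h7 := D.d0
  have h8 := D.d1
  rcases D.adm with ⟨h, h' | h'⟩ | ⟨h, h', h''⟩ <;> constructor <;> linarith

/-- **(BT)** bias term of the T-side and principal line of E2, parent with `s` removed, level
`v ≤ vt - 2 s + 1/50`; margin `1/50` -/
theorem bt {y₃ y₄ u x d v p s : ℝ} (D : Dp y₃ y₄ u x d) (_hs : 0 ≤ s)
    (hp : p + s ≤ y₃ + y₄ + u + x)
    (hv : v ≤ vt (y₃ + y₄ + u) x - 2 * s + 1 / 50) :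
    (v + p - 1) / 3 + 1 / 50 ≤ max 0 (17 / 100 - s) := by
  have h := (vt_le D).1
  rcases le_total s (17 / 100) with h1 | h1
  · exact le_trans (by linarith) (le_max_right _ _)
  · exact le_trans (by linarith) (le_max_left _ _)

/-- **(E3p)** principal frequencies in E3 : complete family `I = v + p - 1 + φ`, number of modes
`2 v - 1 - δ`; gain `g` of the parent with (BT), the child loses `δ + φ`; margin `1/40` -/
theorem e3p {v p g δ φ n' : ℝ} (hg : (v + p - 1) / 3 ≤ g) (hv : v ≤ 16 / 25) (hφ : 0 ≤ φ)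
    (hn : n' + δ + φ ≤ p) :
    2 * n' - max 0 (g - (δ + φ)) + (v + p - 1 + φ) / 3 + 2 * δ +
        (2 * v - 1 - δ) - 2 / 3 * (v + p - 1 + φ) + 1 / 40 ≤
      (1 + v + 4 * p) / 3 := by
  have h8 := le_max_right 0 (g - (δ + φ))
  linarith

/-- **(E3p)**, parent with `s` removed -/
theorem e3p' {y₃ y₄ u x d v p s δ φ n' : ℝ} (D : Dp y₃ y₄ u x d) (hs : 0 ≤ s)
    (hp : p + s ≤ y₃ + y₄ + u + x) (hv : v ≤ vt (y₃ + y₄ + u) x - 2 * s + 1 / 50)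
    (hv1 : v ≤ vt (y₃ + y₄ + u) x) (hφ : 0 ≤ φ) (hn : n' + δ + φ ≤ p) :
    2 * n' - max 0 (max 0 (17 / 100 - s) - (δ + φ)) + (v + p - 1 + φ) / 3 + 2 * δ +
        (2 * v - 1 - δ) - 2 / 3 * (v + p - 1 + φ) + 1 / 40 ≤
      (1 + v + 4 * p) / 3 + L0 (y₃ + y₄ + u) := by
  have h1 := bt D hs hp hv
  have h2 := (vt_le D).2
  have h3 : 0 ≤ L0 (y₃ + y₄ + u) := by unfold L0; positivity
  have h4 := e3p (g := max 0 (17 / 100 - s)) (by linarith) (hv1.trans h2) hφ hn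
  linarith

/-- the gain of a child is at least the gain of the parent minus what was removed -/
theorem gain_child {s t : ℝ} (ht : 0 ≤ t) :
    max 0 (17 / 100 - (s + t)) ≤ max 0 (17 / 100 - s) ∧
      max 0 (max 0 (17 / 100 - s) - t) = max 0 (17 / 100 - (s + t)) := by
  constructor
  · exact max_le_max le_rfl (by linarith)
  · rcases le_total (17 / 100 - s) 0 with h | h
    · rw [max_eq_left h, max_eq_left (by linarith), max_eq_left (by linarith)]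
    · rw [max_eq_right h]; congr 1; ring

end Crest.Agent.R017.P1FX73
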