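import Crest.Agent.R017.P1F_904

/-!
# Row 17, R8: the real side of `P1`, cross term with helper106's squares (helper904)

`R2G` : as `R2F`, but the squares `g₂` are merged into `b` and taken out of `i` on the pair side
(`PM2 (i - 2 g₂) (b + g₂)`), the large sieve norm in the weak form `Ww`; the method (merged, or
Poisson – merge – Poisson) may depend on `g₂`. `r2G` : proof
-/

set_option autoImplicit false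
set_option linter.unusedVariables false

noncomputable section

namespace Crest.Agent.R017.P1G904

open Crest.Agent.R017.P1R904
open Crest.Agent.R017.P1R2u176 (pmb pmb_le)
open Crest.Agent.R017.P1F904

/-- norm of the large sieve, weak form (helper106) -/
def Ww (v i g : ℝ) : ℝ := g + max v (max i (2 / 3 * (v + i)))

/-- **(R2)** with the squares merged into `b` -/
def R2G : Prop := ∀ y₃ y₄ u x d p v b g g₂ i z₁ z₂ z₃ x' : ℝ, Dp y₃ y₄ u x d →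
  1 / 2 - 2 * x ≤ p → p ≤ y₃ + y₄ + u + x → 0 ≤ v → v ≤ vS (y₃ + y₄ + u) x →
  0 ≤ b → 0 ≤ g → 0 ≤ i → i ≤ v + p - 1 + b → i ≤ 1 - 2 * b →
  ChP y₃ y₄ u x p (b + g) z₁ z₂ z₃ x' → 0 ≤ g₂ → g₂ ≤ g → 2 * g₂ ≤ i →
  (Ww v i g - i + r3 d (i + 2 * b) (min z₁ (i + 2 * b)) (min z₂ (i + 2 * b))
      (min z₃ (i + 2 * b)) x' + 1 / 500 ≤ E2 v p (L0 (y₃ + y₄ + u))) ∨
    (Ww v i g - i + pmb d (b + g₂) (i - 2 * g₂) z₁ z₂ z₃ x' + 1 / 500 ≤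
      E2 v p (L0 (y₃ + y₄ + u)))

/-- the three cases of `Ww` -/
lemma Ww_le (v i g : ℝ) : Ww v i g ≤ v + g ∨ Ww v i g ≤ i + g ∨
    Ww v i g ≤ 2 / 3 * (v + i) + g := by
  unfold Ww
  rcases le_total v (max i (2 / 3 * (v + i))) with h1 | h1
  · rw [max_eq_right h1]
    rcases le_total i (2 / 3 * (v + i)) with h2 | h2
    · rw [max_eq_right h2]; exact Or.inr (Or.inr (by linarith))
    · rw [max_eq_left h2]; exact Or.inr (Or.inl (by linarith))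
  · rw [max_eq_left h1]; exact Or.inl (by linarith)

set_option maxHeartbeats 8000000 in
/-- the linear core of (R2) : all the cases -/
lemma core {y₃ y₄ u x d p v b g g₂ i z₁ z₂ z₃ x' W L E Λ m₁ m₂ m₃ : ℝ} (u4 : u ≤ y₄)
    (y43 : y₄ ≤ y₃) (u0 : 11 / 50 ≤ u) (hy3 : y₃ + x ≤ 29 / 100) (N1 : y₃ + y₄ + u ≤ 102 / 125)
    (near : 99 / 100 ≤ y₃ + y₄ + 2 * u) (x0 : 0 ≤ x)
    (adm : (8 * x ≤ d ∧ (x = 0 ∨ y₃ + y₄ + u + x ≤ 4 / 5)) ∨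
      (3 / 4 ≤ y₃ + y₄ + u ∧ x + 2 * d ≤ 1 / 36 ∧ x + 7 / 10 * (y₃ + y₄ + u) ≤ 199 / 360))
    (d0 : 0 ≤ d) (d1 : d ≤ 1 / 40)
    (p0 : 1 / 2 - 2 * x ≤ p) (pn : p ≤ y₃ + y₄ + u + x)
    (v0 : 0 ≤ v) (hv1 : v ≤ 2 * (y₃ + y₄ + u) - 1 + 3 * x)
    (hv2 : v ≤ 3 / 4 * (y₃ + y₄ + u) + 3 * x) (b0 : 0 ≤ b)
    (hΛ0 : 0 ≤ Λ) (hΛ1 : (5 / 4 * (y₃ + y₄ + u) - 1) / 3 ≤ Λ)
    (g0 : 0 ≤ g) (i0 : 0 ≤ i) (i1 : i ≤ v + p - 1 + b) (i2 : i ≤ 1 - 2 * b)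
    (z10 : 0 ≤ z₁) (z20 : 0 ≤ z₂) (z30 : 0 ≤ z₃) (x0' : 0 ≤ x') (z1 : z₁ ≤ y₃) (z2 : z₂ ≤ y₄)
    (z3 : z₃ ≤ u) (x1' : x' ≤ x)
    (tot : z₁ + z₂ + z₃ + x' + (b + g) ≤ p) (h0 : 0 ≤ g₂) (hg : g₂ ≤ g) (gi : 2 * g₂ ≤ i)
    (k1 : m₁ ≤ i + 2 * b) (k2 : m₂ ≤ i + 2 * b) (k3 : m₃ ≤ i + 2 * b)
    (j1 : m₁ ≤ z₁) (j2 : m₂ ≤ z₂) (j3 : m₃ ≤ z₃)
    (l1 : L ≤ m₁) (l2 : L ≤ i + 2 * b - m₁) (l3 : L ≤ m₂) (l4 : L ≤ i + 2 * b - m₂)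
    (l5 : L ≤ m₃) (l6 : L ≤ i + 2 * b - m₃)
    (hE : E = 1 + p + Λ ∨ E = (4 + p + v) / 3 + 2 * Λ)
    (hm : E < W - i + (i + 2 * b + (m₁ + m₂ + m₃ + x') + 4 / 5 * (L + x')) + 1 / 500)
    (hW : W ≤ v + g ∨ W ≤ i + g ∨ W ≤ 2 / 3 * (v + i) + g)
    (hp : E < W - i + ((i - 2 * g₂) + (b + g₂) + (z₁ + z₂ + z₃ + x')) + 1 / 500 ∨
      (∃ m, (m ≤ b + g₂ ∧ m ≤ i - 2 * g₂) ∧
        E < W - i + (2 * (z₁ + z₂ + z₃ + x') + m) + 1 / 500) ∨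
      (∃ L', (L' ≤ z₁ ∧ L' ≤ z₂ ∧ L' ≤ z₃) ∧
        E < W - i + (b + g₂ + (z₁ + z₂ + z₃ + x') + 4 / 5 * L' + x') + 1 / 500) ∨
      (∃ L', (L' ≤ z₁ ∧ L' ≤ z₂ ∧ L' ≤ z₃) ∧
        E < W - i + (i - 2 * g₂ + (z₁ + z₂ + z₃ + x') + 4 / 5 * L' + x') + 1 / 500)) :
    False := by
  rcases adm with ⟨a0, rfl | a1⟩ | ⟨a1, a2, a3⟩ <;> rcases hE with rfl | rfl <;>
  rcases hp with hp | ⟨m, ⟨n1, n2⟩, hp⟩ | ⟨m, ⟨n1, n2, n3⟩, hp⟩ | ⟨m, ⟨n1, n2, n3⟩, hp⟩ <;>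
  rcases hW with hW | hW | hW <;> linarith

/-- **(R2)** with the squares merged into `b` -/
theorem r2G : R2G := by
  intro y₃ y₄ u x d p v b g g₂ i z₁ z₂ z₃ x' hD p0 pn v0 hv b0 g0 i0 i1 i2 hc h0 hg gi
  obtain ⟨u4, y43, u0, hy3, N1, near, hx0, adm, d0, d1⟩ := hD
  obtain ⟨z10, z20, z30, x0', z1, z2, z3, x1', tot⟩ := hc
  obtain ⟨hv1, hv2⟩ := vS_le hv
  obtain ⟨hL1, hL2⟩ := L0_ge (y₃ + y₄ + u)
  generalize L0 (y₃ + y₄ + u) = Λ at hL1 hL2 ⊢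
  have hE : E2 v p Λ = 1 + p + Λ ∨ E2 v p Λ = (4 + p + v) / 3 + 2 * Λ := min_choice _ _
  generalize E2 v p Λ = E at hE ⊢
  by_contra hcon
  rw [not_or, not_le, not_le] at hcon
  obtain ⟨hm, hp⟩ := hcon
  have hI : 0 ≤ i + 2 * b := by linarith
  have k1 := min_le_right z₁ (i + 2 * b)
  have k2 := min_le_right z₂ (i + 2 * b)
  have k3 := min_le_right z₃ (i + 2 * b)
  have j1 := min_le_left z₁ (i + 2 * b)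
  have j2 := min_le_left z₂ (i + 2 * b)
  have j3 := min_le_left z₃ (i + 2 * b)
  obtain ⟨l1, l2, l3', l4, l5, l6⟩ := l3_le (i + 2 * b) (min z₁ (i + 2 * b)) (min z₂ (i + 2 * b))
    (min z₃ (i + 2 * b))
  have hr := (r3_le (s := 0) d0 d1 (le_min z10 hI) (le_min z20 hI) (le_min z30 hI) x0' k1 k2 k3
    (by linarith)).1
  refine core u4 y43 u0 hy3 N1 near hx0 adm d0 d1 p0 pn v0 hv1 hv2 b0 hL1 hL2 g0 i0 i1 i2 z10 z20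
    z30 x0' z1 z2 z3 x1' tot h0 hg gi k1 k2 k3 j1 j2 j3 l1 l2 l3' l4 l5 l6 hE (by linarith)
    (Ww_le v i g) ?_
  rcases pmb_le d0 d1 z10 z20 z30 (b := b + g₂) (i := i - 2 * g₂) (x' := x') with
    h | ⟨m, h1, h⟩ | ⟨m, h1, h⟩ | ⟨m, h1, h⟩
  · exact Or.inl (by linarith)
  · exact Or.inr (Or.inl ⟨m, h1, by linarith⟩)
  · exact Or.inr (Or.inr (Or.inl ⟨m, h1, by linarith⟩))
  · exact Or.inr (Or.inr (Or.inr ⟨m, h1, by linarith⟩))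

end Crest.Agent.R017.P1G904
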