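import Crest.Agent.R017.P1Hk_176
import Crest.Agent.R017.PXc_829
import Crest.Agent.R017.P1HXa_176
import Crest.Agent.R017.P1HXb_176
import Crest.Agent.R017.P1HXc_176
import Crest.Agent.R017.P1HXd_176

/-!
# Row 17, R8 (exceptional class): the real side of the cross term of a difference (helper176)

Base `H` (family `K = 1`), `D = d₀ + ν`. The sequence is the difference of the natural list
`(y₃, y₄, u | x)` and the replaced list `(Z, y₃ + y₄ - Z, u | x)`; child of total length `p`, which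
lost `y₃ + y₄ + u + x - p`; compensated kernel `hh` (helper72: level dependent).

* `Tbi` : the bias branch of the `T`-number (helper764's `ShX`; single lists: `s₀ = 0`)
* `R2HX` : the merged family (`r3`) or helper829's closed form `PXsn` of the pair alternative
* `r2HX` : proof
-/

set_option autoImplicit false
set_option linter.unusedVariables false

noncomputable section

namespace Crest.Agent.R017.P1HX176

open Crest.Agent.R017.P1R904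
open Crest.Agent.R017.P1F904
open Crest.Agent.R017.P1G904 (Ww Ww_le)
open Crest.Agent.R017.P1H440 (Tg)
open Crest.Agent.R017.P1Hk176 (Thk Thk_le1 Thk_le2)
open Crest.Agent.R017.PX829 (PXsn)

/-- the bias branch of the `T`-number -/
def Tbi (s₀ p D e v : ℝ) : ℝ :=
  D + 2 / 3 - v / 3 - (p - D) / 3 +
    (5 / 3 * (p - D - e) + 2 / 3 * (v + e) - max 0 (s₀ - (D + e)))

/-- **the line** -/
def R2HX : Prop := ∀ y₃ y₄ u x d hh p d₀ ν A e v b g g₂ i ms z₁ z₂ z₃ x' Z bq s₀ T ρ n' U : ℝ,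
  Dp y₃ y₄ u x d → 17 / 100 ≤ Z → Z ≤ 1717 / 10000 → 17 / 100 - (y₃ + y₄ + u + x - p) ≤ s₀ →
  0 ≤ bq → y₃ + y₄ + u + x - p ≤ bq + 2 * x →
  0 ≤ hh → hh ≤ 1 / 50 + max 0 (2 * p - 1 - (v + 2 * (d₀ + ν))) →
  1 / 2 - 2 * x ≤ p → p ≤ y₃ + y₄ + u + x → 0 ≤ ν → 0 ≤ A → A ≤ d₀ → 0 ≤ e → e ≤ 1 / 64 →
  0 ≤ v → v + 2 * (d₀ + ν) ≤ min (2 * (y₃ + y₄ + u) - 1) (3 / 4 * (y₃ + y₄ + u)) + 11 / 5 * x →
  v + 2 * (d₀ + ν) + 2 * bq ≤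
    min (2 * (y₃ + y₄ + u) - 1) (3 / 4 * (y₃ + y₄ + u)) + 11 / 5 * x + d / 2 →
  0 ≤ b → 0 ≤ g → 0 ≤ i → 0 ≤ ms →
  i ≤ v + p - 1 + hh + 2 * (e + A) + 2 * ν - d₀ + b → i ≤ 1 - (e + A) - 2 * b →
  0 ≤ z₃ → z₃ ≤ z₂ → z₂ ≤ z₁ → 0 ≤ x' → x' ≤ x →
  (z₁ ≤ y₃ ∧ z₂ ≤ y₄ ∧ z₃ ≤ u ∨ z₁ ≤ y₃ + y₄ - Z ∧ z₂ ≤ u ∧ z₃ ≤ Z) →
  z₁ + z₂ + z₃ + x' + (d₀ + b + g + ms) ≤ p → 0 ≤ g₂ → g₂ ≤ g → 2 * g₂ ≤ i →
  (T ≤ Thk (y₃ + y₄ + u) x p (d₀ + ν) e v ∨ T ≤ Tbi s₀ p (d₀ + ν) e v) →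
  ρ = 2 * Tg (y₃ + y₄ + u) p + 3 / 4 * d - T -
    (d₀ + ν - A + (Ww (v + e + A) i g - i) + ms) - 1 / 500 →
  n' = z₁ + z₂ + z₃ + x' →
  U = max (max (n' / 3 + z₃ / 2) (n' / 3 + 4 / 15 * (z₃ + x'))) (max (2 / 3 * (z₃ + x')) x') →
  (r3 d (e + A + i + 2 * b) (min z₁ (e + A + i + 2 * b)) (min z₂ (e + A + i + 2 * b))
      (min z₃ (e + A + i + 2 * b)) x' ≤ ρ ∧ 2 * x' + (e + A + i + 2 * b) / 3 ≤ ρ) ∨
    PXsn (e + A + i - 2 * g₂) (b + g₂) 0 z₁ z₂ z₃ x' n' (2 * d * (z₃ + x')) U ρ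

/-- from the room `R` without losses to the closed form -/
lemma alt_of {I M L d x' ii bb z₁ z₂ z₃ n' D U R ρ r : ℝ}
    (hr : r ≤ I + M + 3 / 4 * (L + x') + (ρ - R)) (hD : D ≤ ρ - R) (hρ : R ≤ ρ)
    (hfull : 2 * x' + (ii + 2 * bb) / 3 ≤ ρ)
    (h : (R < I + M + 3 / 4 * (L + x') ∨ R < 2 * x' + I / 3) →
      (R < ii + bb + n' ∨ R < 2 * n' + bb ∨ R < 2 / 3 * ii + bb / 3 + n' + U ∨
        R < 2 * n' + (ii + 2 * bb) / 3) →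
      (R < ii + bb + n' ∨ R < 2 * n' + bb ∨ R < 2 / 3 * ii + bb / 3 + n' + U ∨
        z₁ < 2 * n' + (ii + 2 * bb) / 3 - R ∨
        2 * (z₁ + z₂ - (2 * n' + (ii + 2 * bb) / 3 - R)) ≤ ii + bb) →
      (R < ii + bb + n' ∨ R < 2 * n' + bb ∨ R < 2 / 3 * ii + bb / 3 + n' + U ∨
        z₃ < 2 * n' + (ii + 2 * bb) / 3 - R ∨
        2 * (z₁ + z₂ + z₃ - 2 * (2 * n' + (ii + 2 * bb) / 3 - R)) ≤ ii + bb) →
      (R < ii + bb + n' ∨ R < 2 * n' + ii ∨ R < 2 / 3 * bb + ii / 3 + n' + U ∨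
        R < 2 * n' + (2 * ii + bb) / 3) →
      (R < ii + bb + n' ∨ R < 2 * n' + ii ∨ R < 2 / 3 * bb + ii / 3 + n' + U ∨
        z₁ < 2 * n' + (2 * ii + bb) / 3 - R ∨
        2 * (z₁ + z₂ - (2 * n' + (2 * ii + bb) / 3 - R)) ≤ ii + bb) →
      (R < ii + bb + n' ∨ R < 2 * n' + ii ∨ R < 2 / 3 * bb + ii / 3 + n' + U ∨
        z₃ < 2 * n' + (2 * ii + bb) / 3 - R ∨
        2 * (z₁ + z₂ + z₃ - 2 * (2 * n' + (2 * ii + bb) / 3 - R)) ≤ ii + bb) → False) :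
    (r ≤ ρ ∧ 2 * x' + I / 3 ≤ ρ) ∨ PXsn ii bb 0 z₁ z₂ z₃ x' n' D U ρ := by
  by_contra hcon
  rw [not_or] at hcon
  obtain ⟨c1, c2⟩ := hcon
  unfold PXsn at c2
  rw [not_and] at c2
  have c3 := c2 hfull
  rw [not_or, not_or, not_or, not_or] at c3
  obtain ⟨-, -, -, c4, c5⟩ := c3
  refine h ?_ ?_ ?_ ?_ ?_ ?_ ?_
  · by_contra hc
    rw [not_or, not_lt, not_lt] at hc
    exact c1 ⟨by linarith [hc.1], by linarith [hc.2]⟩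
  · by_contra hc
    rw [not_or, not_or, not_or, not_lt, not_lt, not_lt, not_lt] at hc
    obtain ⟨a1, a2, a3, a4⟩ := hc
    exact c4 ⟨by linarith, by linarith, by linarith, Or.inl (by linarith)⟩
  · by_contra hc
    rw [not_or, not_or, not_or, not_or, not_lt, not_lt, not_lt, not_lt, not_le] at hc
    obtain ⟨a1, a2, a3, a4, a5⟩ := hc
    exact c4 ⟨by linarith, by linarith, by linarith, Or.inr (Or.inl ⟨by linarith, by linarith⟩)⟩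
  · by_contra hc
    rw [not_or, not_or, not_or, not_or, not_lt, not_lt, not_lt, not_lt, not_le] at hc
    obtain ⟨a1, a2, a3, a4, a5⟩ := hc
    exact c4 ⟨by linarith, by linarith, by linarith, Or.inr (Or.inr ⟨by linarith, by linarith⟩)⟩
  · by_contra hc
    rw [not_or, not_or, not_or, not_lt, not_lt, not_lt, not_lt] at hc
    obtain ⟨a1, a2, a3, a4⟩ := hc
    exact c5 ⟨by linarith, by linarith, by linarith, Or.inl (by linarith)⟩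
  · by_contra hc
    rw [not_or, not_or, not_or, not_or, not_lt, not_lt, not_lt, not_lt, not_le] at hc
    obtain ⟨a1, a2, a3, a4, a5⟩ := hc
    exact c5 ⟨by linarith, by linarith, by linarith, Or.inr (Or.inl ⟨by linarith, by linarith⟩)⟩
  · by_contra hc
    rw [not_or, not_or, not_or, not_or, not_lt, not_lt, not_lt, not_lt, not_le] at hc
    obtain ⟨a1, a2, a3, a4, a5⟩ := hc
    exact c5 ⟨by linarith, by linarith, by linarith, Or.inr (Or.inr ⟨by linarith, by linarith⟩)⟩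

set_option maxHeartbeats 4000000 in
/-- **the line** -/
theorem r2HX : R2HX := by
  intro y₃ y₄ u x d hh p d₀ ν A e v b g g₂ i ms z₁ z₂ z₃ x' Z bq s₀ T ρ n' U hD Z0 Z1 hs₀ bq0 lo
    hh0 hh1 p0 pn kν A0 A1 e0 e1 v0 hv hvb b0 g0 i0 ms0 i1 i2 z30 z32 z21 x0' x1' hz tot h0 hg gi
    hT hρ hn hU
  obtain ⟨u4, y43, u0, hy3, N1, near, hx0, adm, d0, d1⟩ := hD
  have hm1 := min_le_left (2 * (y₃ + y₄ + u) - 1) (3 / 4 * (y₃ + y₄ + u))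
  have hm2 := min_le_right (2 * (y₃ + y₄ + u) - 1) (3 / 4 * (y₃ + y₄ + u))
  have hv1 : v + 2 * (d₀ + ν) ≤ 2 * (y₃ + y₄ + u) - 1 + 11 / 5 * x := by linarith
  have hv2 : v + 2 * (d₀ + ν) ≤ 3 / 4 * (y₃ + y₄ + u) + 11 / 5 * x := by linarith
  have hv3 : v + 2 * (d₀ + ν) + 2 * bq ≤ 2 * (y₃ + y₄ + u) - 1 + 11 / 5 * x + d / 2 := by
    linarith
  have hv4 : v + 2 * (d₀ + ν) + 2 * bq ≤ 3 / 4 * (y₃ + y₄ + u) + 11 / 5 * x + d / 2 := by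
    linarith
  clear hv hvb hm1 hm2
  obtain ⟨τ, hτ⟩ : ∃ τ, hh = 3 * τ := ⟨hh / 3, by ring⟩
  have t0 : 0 ≤ τ := by linarith
  have ht : 3 * τ ≤ 1 / 50 ∨ 3 * τ ≤ 1 / 50 + 2 * p - 1 - v - 2 * (d₀ + ν) := by
    rcases max_choice 0 (2 * p - 1 - (v + 2 * (d₀ + ν))) with h | h
    · left; rw [h] at hh1; linarith
    · right; rw [h] at hh1; linarith
  have i1' : i ≤ v + p - 1 + 3 * τ + 2 * (e + A) + 2 * ν - d₀ + b := by linarith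
  clear hh1 i1 hh0
  unfold P1H440.Tg at hρ
  obtain ⟨hΛ0', hΛ1'⟩ := L0_ge (y₃ + y₄ + u)
  obtain ⟨Λ, hΛ⟩ : ∃ Λ, Λ = 3 * L0 (y₃ + y₄ + u) := ⟨_, rfl⟩
  have hΛ0 : 0 ≤ Λ := by rw [hΛ]; linarith
  have hΛ1 : 5 / 4 * (y₃ + y₄ + u) - 1 ≤ Λ := by rw [hΛ]; linarith
  rw [← hΛ] at hρ
  clear hΛ hΛ0' hΛ1'
  have k0 : 0 ≤ d₀ := A0.trans A1
  have hI : 0 ≤ e + A + i + 2 * b := by linarith
  have z20 : 0 ≤ z₂ := z30.trans z32
  have z10 : 0 ≤ z₁ := z20.trans z21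
  have k1 := min_le_right z₁ (e + A + i + 2 * b)
  have k2 := min_le_right z₂ (e + A + i + 2 * b)
  have k3 := min_le_right z₃ (e + A + i + 2 * b)
  have j1 := min_le_left z₁ (e + A + i + 2 * b)
  have j2 := min_le_left z₂ (e + A + i + 2 * b)
  have j3 := min_le_left z₃ (e + A + i + 2 * b)
  obtain ⟨l1, l2, l3', l4, l5, l6⟩ := l3_le (e + A + i + 2 * b) (min z₁ (e + A + i + 2 * b))
    (min z₂ (e + A + i + 2 * b)) (min z₃ (e + A + i + 2 * b))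
  have hz3 : z₃ + x' ≤ 3 / 10 := by
    rcases hz with ⟨-, -, h⟩ | ⟨-, -, h⟩ <;> linarith
  have hdz : 2 * d * (z₃ + x') ≤ 3 / 5 * d := by
    have := mul_le_mul_of_nonneg_left hz3 (by linarith : (0 : ℝ) ≤ 2 * d)
    linarith
  have hr : r3 d (e + A + i + 2 * b) (min z₁ (e + A + i + 2 * b)) (min z₂ (e + A + i + 2 * b))
      (min z₃ (e + A + i + 2 * b)) x' ≤ (e + A + i + 2 * b) +
      (min z₁ (e + A + i + 2 * b) + min z₂ (e + A + i + 2 * b) + min z₃ (e + A + i + 2 * b) + x') +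
      3 / 4 * (l3 (e + A + i + 2 * b) (min z₁ (e + A + i + 2 * b))
        (min z₂ (e + A + i + 2 * b)) (min z₃ (e + A + i + 2 * b)) + x') + 3 / 5 * d := by
    have h1 : l3 (e + A + i + 2 * b) (min z₁ (e + A + i + 2 * b))
        (min z₂ (e + A + i + 2 * b)) (min z₃ (e + A + i + 2 * b)) + x' ≤ 3 / 10 := by linarith
    have h2 := mul_le_mul_of_nonneg_left h1 (by linarith : (0 : ℝ) ≤ 2 * d)
    unfold r3
    linarith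
  generalize r3 d (e + A + i + 2 * b) (min z₁ (e + A + i + 2 * b))
    (min z₂ (e + A + i + 2 * b)) (min z₃ (e + A + i + 2 * b)) x' = r at hr ⊢
  generalize l3 (e + A + i + 2 * b) (min z₁ (e + A + i + 2 * b))
    (min z₂ (e + A + i + 2 * b)) (min z₃ (e + A + i + 2 * b)) = L at hr l1 l2 l3' l4 l5 l6
  generalize min z₁ (e + A + i + 2 * b) = m₁ at hr k1 j1 l1 l2
  generalize min z₂ (e + A + i + 2 * b) = m₂ at hr k2 j2 l3' l4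
  generalize min z₃ (e + A + i + 2 * b) = m₃ at hr k3 j3 l5 l6
  have hW := Ww_le (v + e + A) i g
  generalize Ww (v + e + A) i g = W at hρ hW
  have adm' : (8 * x ≤ d ∧ x = 0) ∨ (8 * x ≤ d ∧ y₃ + y₄ + u + x ≤ 4 / 5) ∨
      (3 / 4 ≤ y₃ + y₄ + u ∧ x + 2 * d ≤ 1 / 36 ∧ x + 7 / 10 * (y₃ + y₄ + u) ≤ 199 / 360) := by
    rcases adm with ⟨a0, a1 | a1⟩ | a
    · exact Or.inl ⟨a0, a1⟩
    · exact Or.inr (Or.inl ⟨a0, a1⟩)
    · exact Or.inr (Or.inr a)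
  clear adm
  subst hn
  have u1 : (z₁ + z₂ + z₃ + x') / 3 + z₃ / 2 ≤ U := by
    rw [hU]; exact (le_max_left _ _).trans (le_max_left _ _)
  have u2 : (z₁ + z₂ + z₃ + x') / 3 + 4 / 15 * (z₃ + x') ≤ U := by
    rw [hU]; exact (le_max_right _ _).trans (le_max_left _ _)
  have u3 : 2 / 3 * (z₃ + x') ≤ U := by
    rw [hU]; exact (le_max_left _ _).trans (le_max_right _ _)
  have u5 : x' ≤ U := by
    rw [hU]; exact (le_max_right _ _).trans (le_max_right _ _)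
  have hU' : U ≤ (z₁ + z₂ + z₃ + x') / 3 + z₃ / 2 ∨
      U ≤ (z₁ + z₂ + z₃ + x') / 3 + 4 / 15 * (z₃ + x') ∨ U ≤ 2 / 3 * (z₃ + x') ∨ U ≤ x' := by
    rcases max_choice (max ((z₁ + z₂ + z₃ + x') / 3 + z₃ / 2)
      ((z₁ + z₂ + z₃ + x') / 3 + 4 / 15 * (z₃ + x'))) (max (2 / 3 * (z₃ + x')) x') with h | h
    · rcases max_choice ((z₁ + z₂ + z₃ + x') / 3 + z₃ / 2)
        ((z₁ + z₂ + z₃ + x') / 3 + 4 / 15 * (z₃ + x')) with h' | h'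
      · exact Or.inl (by rw [hU, h, h'])
      · exact Or.inr (Or.inl (by rw [hU, h, h']))
    · rcases max_choice (2 / 3 * (z₃ + x')) x' with h' | h'
      · exact Or.inr (Or.inr (Or.inl (by rw [hU, h, h'])))
      · exact Or.inr (Or.inr (Or.inr (by rw [hU, h, h'])))
  clear hU
  obtain ⟨F, hF⟩ : ∃ F, T = d₀ + ν + 2 / 3 - v / 3 - (p - (d₀ + ν)) / 3 + F :=
    ⟨T - (d₀ + ν + 2 / 3 - v / 3 - (p - (d₀ + ν)) / 3), by ring⟩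
  obtain ⟨R, hR⟩ : ∃ R, R = 2 * (1 + p + Λ) -
      (d₀ + ν + 2 / 3 - v / 3 - (p - (d₀ + ν)) / 3 + F) - (d₀ + ν - A + (W - i + ms)) - 1 / 500 :=
    ⟨_, rfl⟩
  have hρR : ρ = R + 3 / 4 * d := by rw [hρ, hR, hF]; ring
  have hgen : ∀ (hfull : 2 * x' + (e + A + i + 2 * b) / 3 ≤ R)
      (hcore : (R < e + A + i + 2 * b + (m₁ + m₂ + m₃ + x') + 3 / 4 * (L + x') ∨
        R < 2 * x' + (e + A + i + 2 * b) / 3) →
      (R < (e + A + i - 2 * g₂) + (b + g₂) + (z₁ + z₂ + z₃ + x') ∨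
      R < 2 * (z₁ + z₂ + z₃ + x') + (b + g₂) ∨
      R < 2 / 3 * (e + A + i - 2 * g₂) + (b + g₂) / 3 + (z₁ + z₂ + z₃ + x') + U ∨
      R < 2 * (z₁ + z₂ + z₃ + x') + ((e + A + i - 2 * g₂) + 2 * (b + g₂)) / 3) →
      (R < (e + A + i - 2 * g₂) + (b + g₂) + (z₁ + z₂ + z₃ + x') ∨
      R < 2 * (z₁ + z₂ + z₃ + x') + (b + g₂) ∨
      R < 2 / 3 * (e + A + i - 2 * g₂) + (b + g₂) / 3 + (z₁ + z₂ + z₃ + x') + U ∨
      z₁ < 2 * (z₁ + z₂ + z₃ + x') + ((e + A + i - 2 * g₂) + 2 * (b + g₂)) / 3 - R ∨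
      2 * (z₁ + z₂ - (2 * (z₁ + z₂ + z₃ + x') +
        ((e + A + i - 2 * g₂) + 2 * (b + g₂)) / 3 - R)) ≤ (e + A + i - 2 * g₂) + (b + g₂)) →
      (R < (e + A + i - 2 * g₂) + (b + g₂) + (z₁ + z₂ + z₃ + x') ∨
      R < 2 * (z₁ + z₂ + z₃ + x') + (b + g₂) ∨
      R < 2 / 3 * (e + A + i - 2 * g₂) + (b + g₂) / 3 + (z₁ + z₂ + z₃ + x') + U ∨
      z₃ < 2 * (z₁ + z₂ + z₃ + x') + ((e + A + i - 2 * g₂) + 2 * (b + g₂)) / 3 - R ∨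
      2 * (z₁ + z₂ + z₃ - 2 * (2 * (z₁ + z₂ + z₃ + x') +
        ((e + A + i - 2 * g₂) + 2 * (b + g₂)) / 3 - R)) ≤ (e + A + i - 2 * g₂) + (b + g₂)) →
      (R < (e + A + i - 2 * g₂) + (b + g₂) + (z₁ + z₂ + z₃ + x') ∨
      R < 2 * (z₁ + z₂ + z₃ + x') + (e + A + i - 2 * g₂) ∨
      R < 2 / 3 * (b + g₂) + (e + A + i - 2 * g₂) / 3 + (z₁ + z₂ + z₃ + x') + U ∨
      R < 2 * (z₁ + z₂ + z₃ + x') + (2 * (e + A + i - 2 * g₂) + (b + g₂)) / 3) →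
      (R < (e + A + i - 2 * g₂) + (b + g₂) + (z₁ + z₂ + z₃ + x') ∨
      R < 2 * (z₁ + z₂ + z₃ + x') + (e + A + i - 2 * g₂) ∨
      R < 2 / 3 * (b + g₂) + (e + A + i - 2 * g₂) / 3 + (z₁ + z₂ + z₃ + x') + U ∨
      z₁ < 2 * (z₁ + z₂ + z₃ + x') + (2 * (e + A + i - 2 * g₂) + (b + g₂)) / 3 - R ∨
      2 * (z₁ + z₂ - (2 * (z₁ + z₂ + z₃ + x') +
        (2 * (e + A + i - 2 * g₂) + (b + g₂)) / 3 - R)) ≤ (e + A + i - 2 * g₂) + (b + g₂)) →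
      (R < (e + A + i - 2 * g₂) + (b + g₂) + (z₁ + z₂ + z₃ + x') ∨
      R < 2 * (z₁ + z₂ + z₃ + x') + (e + A + i - 2 * g₂) ∨
      R < 2 / 3 * (b + g₂) + (e + A + i - 2 * g₂) / 3 + (z₁ + z₂ + z₃ + x') + U ∨
      z₃ < 2 * (z₁ + z₂ + z₃ + x') + (2 * (e + A + i - 2 * g₂) + (b + g₂)) / 3 - R ∨
      2 * (z₁ + z₂ + z₃ - 2 * (2 * (z₁ + z₂ + z₃ + x') +
        (2 * (e + A + i - 2 * g₂) + (b + g₂)) / 3 - R)) ≤ (e + A + i - 2 * g₂) + (b + g₂)) →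
      False),
      (r ≤ ρ ∧ 2 * x' + (e + A + i + 2 * b) / 3 ≤ ρ) ∨
      PXsn (e + A + i - 2 * g₂) (b + g₂) 0 z₁ z₂ z₃ x' (z₁ + z₂ + z₃ + x')
        (2 * d * (z₃ + x')) U ρ := fun hfull hcore =>
    alt_of (I := e + A + i + 2 * b) (M := m₁ + m₂ + m₃ + x') (L := L) (R := R) (d := d)
      (by linarith) (by linarith) (by linarith) (by linarith) hcore
  rcases hT with hT | hT
  · have hF1 := Thk_le1 (y₃ + y₄ + u) x p (d₀ + ν) e v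
    have hF2 := Thk_le2 (y₃ + y₄ + u) x p (d₀ + ν) e v
    generalize Thk (y₃ + y₄ + u) x p (d₀ + ν) e v = T' at hF1 hF2 hT
    have hF1' : F ≤ 2 * (p - (d₀ + ν) - e) ∨
        F ≤ 4 / 3 * (p - (d₀ + ν) - e) + (1 + e / 2 + (v + e)) / 3 ∨
        F ≤ 4 / 3 * (p - (d₀ + ν) - e) + (5 / 4 * (y₃ + y₄ + u) + e / 2 + (v + e)) / 3 ∨
        F ≤ 4 / 3 * (p - (d₀ + ν) - e) + 5 / 6 * (v + e) := by
      rcases hF1 with h | h | h | h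
      · exact Or.inl (by linarith)
      · exact Or.inr (Or.inl (by linarith))
      · exact Or.inr (Or.inr (Or.inl (by linarith)))
      · exact Or.inr (Or.inr (Or.inr (by linarith)))
    have hF2' : F ≤ v + e + 4 / 3 * (p - (d₀ + ν) - e) + x ∨
        F ≤ 5 / 3 * (p - (d₀ + ν) - e) + (v + e) / 3 + x := by
      rcases hF2 with h | h
      · exact Or.inl (by linarith)
      · exact Or.inr (by linarith)
    clear hF1 hF2 hT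
    have hfull : 2 * x' + (e + A + i + 2 * b) / 3 ≤ R := by
      rcases hW with h | h | h <;> rcases hF1' with h' | h' | h' | h' <;> linarith
    rcases hz with ⟨z1, z2, z3⟩ | ⟨z1, z2, z3⟩
    · refine hgen hfull fun a1 a2 a3 a4 a5 a6 a7 => ?_
      exact coreNF u4 y43 u0 hy3 N1 near hx0 adm' d0 d1 t0 ht p0 pn v0 k0 kν hv1 hv2 hv3 hv4 bq0
        lo e0 e1 A0 A1 ms0 b0 hΛ0 hΛ1 g0 i0 i1' i2 z30 z32 z21 x0' z1 z2 z3 x1' tot h0 hg gi Z0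
        Z1 k1 k2 k3 j1 j2 j3 l1 l2 l3' l4 l5 l6 hF1' hF2' hW u1 u2 u3 u5 hU' hR a1 a2 a3 a4 a5 a6
        a7
    · refine hgen hfull fun a1 a2 a3 a4 a5 a6 a7 => ?_
      exact coreRF u4 y43 u0 hy3 N1 near hx0 adm' d0 d1 t0 ht p0 pn v0 k0 kν hv1 hv2 hv3 hv4 bq0
        lo e0 e1 A0 A1 ms0 b0 hΛ0 hΛ1 g0 i0 i1' i2 z30 z32 z21 x0' z1 z2 z3 x1' tot h0 hg gi Z0
        Z1 k1 k2 k3 j1 j2 j3 l1 l2 l3' l4 l5 l6 hF1' hF2' hW u1 u2 u3 u5 hU' hR a1 a2 a3 a4 a5 a6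
        a7
  · unfold Tbi at hT
    have hm1 := le_max_left 0 (s₀ - (d₀ + ν + e))
    have hm2 := le_max_right 0 (s₀ - (d₀ + ν + e))
    have hF1' : F ≤ 5 / 3 * (p - (d₀ + ν) - e) + 2 / 3 * (v + e) := by linarith
    have hF2' : F ≤ 5 / 3 * (p - (d₀ + ν) - e) + 2 / 3 * (v + e) -
        (17 / 100 - (y₃ + y₄ + u + x - p) - (d₀ + ν + e)) := by linarith
    clear hm1 hm2 hT
    have hfull : 2 * x' + (e + A + i + 2 * b) / 3 ≤ R := by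
      rcases hW with h | h | h <;> linarith
    rcases hz with ⟨z1, z2, z3⟩ | ⟨z1, z2, z3⟩
    · refine hgen hfull fun a1 a2 a3 a4 a5 a6 a7 => ?_
      exact coreNB u4 y43 u0 hy3 N1 near hx0 adm' d0 d1 t0 ht p0 pn v0 k0 kν hv1 hv2 hv3 hv4 bq0
        lo e0 e1 A0 A1 ms0 b0 hΛ0 hΛ1 g0 i0 i1' i2 z30 z32 z21 x0' z1 z2 z3 x1' tot h0 hg gi Z0
        Z1 k1 k2 k3 j1 j2 j3 l1 l2 l3' l4 l5 l6 hF1' hF2' hW u1 u2 u3 u5 hU' hR a1 a2 a3 a4 a5 a6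
        a7
    · refine hgen hfull fun a1 a2 a3 a4 a5 a6 a7 => ?_
      exact coreRB u4 y43 u0 hy3 N1 near hx0 adm' d0 d1 t0 ht p0 pn v0 k0 kν hv1 hv2 hv3 hv4 bq0
        lo e0 e1 A0 A1 ms0 b0 hΛ0 hΛ1 g0 i0 i1' i2 z30 z32 z21 x0' z1 z2 z3 x1' tot h0 hg gi Z0
        Z1 k1 k2 k3 j1 j2 j3 l1 l2 l3' l4 l5 l6 hF1' hF2' hW u1 u2 u3 u5 hU' hR a1 a2 a3 a4 a5 a6
        a7

end Crest.Agent.R017.P1HX176
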