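import Crest.Agent.R017.P1G_904

/-!
# Row 17, R8: the real line of `P1`'s cross term on the full cell (helper176, after helper440)

Cell of `E2`: `δ = y₁ y₂` with `|y₁| = d₀`, `|y₂| = ν`, `A ∣ y₁`, `e`; weights adapted to the T-side.
`T2h` : the T-side at `(D, e)`; `R2H` : R-side `≤ 2 Tgt - T2h`; `r2H` : proof
-/

set_option autoImplicit false
set_option linter.unusedVariables false

noncomputable section

namespace Crest.Agent.R017.P1H176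

open Crest.Agent.R017.P1R904
open Crest.Agent.R017.P1R2u176 (pmb pmb_le)
open Crest.Agent.R017.P1F904
open Crest.Agent.R017.P1G904 (Ww Ww_le)

/-- helper708's `eF` in base 1 -/
def eFb (k5 v n : ℝ) : ℝ := max (2 * n) (4 / 3 * n + (max k5 (3 / 2 * v) + v) / 3)

/-- all-child bound of the T-moment -/
def tAb (v n x : ℝ) : ℝ := max (v + 4 / 3 * n) (5 / 3 * n + v / 3) + x

/-- the T-side at removed part `D`, amplifier part `e` -/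
def T2h (N v p D e x : ℝ) : ℝ :=
  D + 2 / 3 - v / 3 - (p - D) / 3 +
    min (eFb (max 1 (5 / 4 * N)) (v + e) (p - D - e)) (tAb (v + e) (p - D - e) x)

/-- the target -/
def Tgt (N p : ℝ) : ℝ := 1 + p + max 0 (5 / 4 * N - 1)

/-- **(R2)** on the full cell -/
def R2H : Prop := ∀ y₃ y₄ u x d p v e A d₀ ν ms b g g₂ i z₁ z₂ z₃ x' : ℝ, Dp y₃ y₄ u x d →
  1 / 2 - 2 * x ≤ p → p ≤ y₃ + y₄ + u + x → 0 ≤ v → 0 ≤ d₀ → 0 ≤ ν →
  v + 2 * (d₀ + ν) ≤ vS (y₃ + y₄ + u) x → 0 ≤ e → e ≤ 1 / 64 → 0 ≤ A → A ≤ d₀ → 0 ≤ ms →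
  0 ≤ b → 0 ≤ g → 0 ≤ i → i ≤ v + p - 1 + 2 * (e + A) + 2 * ν - d₀ + b →
  i ≤ 1 - (e + A) - 2 * b → ChP y₃ y₄ u x p (d₀ + b + g + ms) z₁ z₂ z₃ x' →
  0 ≤ g₂ → g₂ ≤ g → 2 * g₂ ≤ e + A + i →
  (T2h (y₃ + y₄ + u) v p (d₀ + ν) e x + (d₀ + ν - A + (Ww (v + e + A) i g - i + ms +
      r3 d (e + A + i + 2 * b) (min z₁ (e + A + i + 2 * b)) (min z₂ (e + A + i + 2 * b))
        (min z₃ (e + A + i + 2 * b)) x')) + 1 / 200 ≤ 2 * Tgt (y₃ + y₄ + u) p) ∨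
    (T2h (y₃ + y₄ + u) v p (d₀ + ν) e x + (d₀ + ν - A + (Ww (v + e + A) i g - i + ms +
      pmb d (b + g₂) (e + A + i - 2 * g₂) z₁ z₂ z₃ x')) + 1 / 200 ≤
        2 * Tgt (y₃ + y₄ + u) p)

set_option maxHeartbeats 8000000 in
/-- the linear core -/
lemma core {y₃ y₄ u x d p v e A d₀ ν ms b g g₂ i z₁ z₂ z₃ x' W L F Λ m₁ m₂ m₃ : ℝ}
    (u4 : u ≤ y₄) (y43 : y₄ ≤ y₃) (u0 : 11 / 50 ≤ u) (hy3 : y₃ + x ≤ 29 / 100)
    (N1 : y₃ + y₄ + u ≤ 102 / 125) (near : 99 / 100 ≤ y₃ + y₄ + 2 * u) (x0 : 0 ≤ x)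
    (adm : (8 * x ≤ d ∧ x = 0) ∨ (8 * x ≤ d ∧ y₃ + y₄ + u + x ≤ 4 / 5) ∨
      (3 / 4 ≤ y₃ + y₄ + u ∧ x + 2 * d ≤ 1 / 36 ∧ x + 7 / 10 * (y₃ + y₄ + u) ≤ 199 / 360))
    (dd0 : 0 ≤ d) (dd1 : d ≤ 1 / 40)
    (p0 : 1 / 2 - 2 * x ≤ p) (pn : p ≤ y₃ + y₄ + u + x)
    (v0 : 0 ≤ v) (k0 : 0 ≤ d₀) (kν : 0 ≤ ν)
    (hv1 : v + 2 * (d₀ + ν) ≤ 2 * (y₃ + y₄ + u) - 1 + 3 * x)
    (hv2 : v + 2 * (d₀ + ν) ≤ 3 / 4 * (y₃ + y₄ + u) + 3 * x) (e0 : 0 ≤ e) (e1 : e ≤ 1 / 64)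
    (A0 : 0 ≤ A) (A1 : A ≤ d₀) (ms0 : 0 ≤ ms) (b0 : 0 ≤ b)
    (hΛ0 : 0 ≤ Λ) (hΛ1 : 5 / 4 * (y₃ + y₄ + u) - 1 ≤ Λ)
    (g0 : 0 ≤ g) (i0 : 0 ≤ i) (i1 : i ≤ v + p - 1 + 2 * (e + A) + 2 * ν - d₀ + b)
    (i2 : i ≤ 1 - (e + A) - 2 * b)
    (z10 : 0 ≤ z₁) (z20 : 0 ≤ z₂) (z30 : 0 ≤ z₃) (x0' : 0 ≤ x') (z1 : z₁ ≤ y₃) (z2 : z₂ ≤ y₄)
    (z3 : z₃ ≤ u) (x1' : x' ≤ x)
    (tot : z₁ + z₂ + z₃ + x' + (d₀ + b + g + ms) ≤ p) (h0 : 0 ≤ g₂) (hg : g₂ ≤ g)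
    (gi : 2 * g₂ ≤ e + A + i)
    (k1 : m₁ ≤ e + A + i + 2 * b) (k2 : m₂ ≤ e + A + i + 2 * b) (k3 : m₃ ≤ e + A + i + 2 * b)
    (j1 : m₁ ≤ z₁) (j2 : m₂ ≤ z₂) (j3 : m₃ ≤ z₃)
    (l1 : L ≤ m₁) (l2 : L ≤ e + A + i + 2 * b - m₁) (l3 : L ≤ m₂)
    (l4 : L ≤ e + A + i + 2 * b - m₂) (l5 : L ≤ m₃) (l6 : L ≤ e + A + i + 2 * b - m₃)
    (hF1 : F ≤ 2 * (p - (d₀ + ν) - e) ∨ F ≤ 4 / 3 * (p - (d₀ + ν) - e) + (1 + (v + e)) / 3 ∨
      F ≤ 4 / 3 * (p - (d₀ + ν) - e) + (5 / 4 * (y₃ + y₄ + u) + (v + e)) / 3 ∨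
      F ≤ 4 / 3 * (p - (d₀ + ν) - e) + 5 / 6 * (v + e))
    (hF2 : F ≤ v + e + 4 / 3 * (p - (d₀ + ν) - e) + x ∨
      F ≤ 5 / 3 * (p - (d₀ + ν) - e) + (v + e) / 3 + x)
    (hm : 2 * (1 + p + Λ) < d₀ + ν + 2 / 3 - v / 3 - (p - (d₀ + ν)) / 3 + F +
      (d₀ + ν - A + (W - i + ms + (e + A + i + 2 * b + (m₁ + m₂ + m₃ + x') +
        4 / 5 * (L + x')))) + 1 / 200)
    (hW : W ≤ v + e + A + g ∨ W ≤ i + g ∨ W ≤ 2 / 3 * (v + e + A + i) + g)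
    (hp : 2 * (1 + p + Λ) < d₀ + ν + 2 / 3 - v / 3 - (p - (d₀ + ν)) / 3 + F +
        (d₀ + ν - A + (W - i + ms + ((e + A + i - 2 * g₂) + (b + g₂) +
          (z₁ + z₂ + z₃ + x')))) + 1 / 200 ∨
      (∃ m, (m ≤ b + g₂ ∧ m ≤ e + A + i - 2 * g₂) ∧
        2 * (1 + p + Λ) < d₀ + ν + 2 / 3 - v / 3 - (p - (d₀ + ν)) / 3 + F +
        (d₀ + ν - A + (W - i + ms + (2 * (z₁ + z₂ + z₃ + x') + m))) + 1 / 200) ∨
      (∃ m, (m ≤ z₁ ∧ m ≤ z₂ ∧ m ≤ z₃) ∧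
        2 * (1 + p + Λ) < d₀ + ν + 2 / 3 - v / 3 - (p - (d₀ + ν)) / 3 + F +
        (d₀ + ν - A + (W - i + ms + (b + g₂ + (z₁ + z₂ + z₃ + x') + 4 / 5 * m + x'))) +
          1 / 200) ∨
      (∃ m, (m ≤ z₁ ∧ m ≤ z₂ ∧ m ≤ z₃) ∧
        2 * (1 + p + Λ) < d₀ + ν + 2 / 3 - v / 3 - (p - (d₀ + ν)) / 3 + F +
        (d₀ + ν - A + (W - i + ms + (e + A + i - 2 * g₂ + (z₁ + z₂ + z₃ + x') + 4 / 5 * m +
          x'))) + 1 / 200)) :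
    False := by
  rcases hW with hW | hW | hW
  · rcases hF2 with h2 | h2
    · rcases hp with hp | ⟨m, ⟨n1, n2⟩, hp⟩ | ⟨m, ⟨n1, n2, n3⟩, hp⟩ | ⟨m, ⟨n1, n2, n3⟩, hp⟩
      · linarith
      · rcases adm with ⟨a0, rfl⟩ | ⟨a0, a1⟩ | ⟨a1, a2, a3⟩
        · rcases hF1 with h1 | h1 | h1 | h1
          · linarith
          · linarith
          · linarith
          · linarith
        · rcases hF1 with h1 | h1 | h1 | h1
          · linarith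
          · linarith
          · linarith
          · linarith
        · rcases hF1 with h1 | h1 | h1 | h1
          · linarith
          · linarith
          · linarith
          · linarith
      · rcases adm with ⟨a0, rfl⟩ | ⟨a0, a1⟩ | ⟨a1, a2, a3⟩
        · linarith
        · linarith
        · linarith
      · rcases adm with ⟨a0, rfl⟩ | ⟨a0, a1⟩ | ⟨a1, a2, a3⟩
        · linarith
        · linarith
        · linarith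
    · rcases hp with hp | ⟨m, ⟨n1, n2⟩, hp⟩ | ⟨m, ⟨n1, n2, n3⟩, hp⟩ | ⟨m, ⟨n1, n2, n3⟩, hp⟩
      · linarith
      · rcases adm with ⟨a0, rfl⟩ | ⟨a0, a1⟩ | ⟨a1, a2, a3⟩
        · linarith
        · linarith
        · linarith
      · linarith
      · linarith
  · rcases hF2 with h2 | h2
    · rcases hp with hp | ⟨m, ⟨n1, n2⟩, hp⟩ | ⟨m, ⟨n1, n2, n3⟩, hp⟩ | ⟨m, ⟨n1, n2, n3⟩, hp⟩
      · linarith
      · linarith
      · linarith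
      · linarith
    · rcases hp with hp | ⟨m, ⟨n1, n2⟩, hp⟩ | ⟨m, ⟨n1, n2, n3⟩, hp⟩ | ⟨m, ⟨n1, n2, n3⟩, hp⟩
      · linarith
      · linarith
      · linarith
      · linarith
  · rcases hF2 with h2 | h2
    · rcases hp with hp | ⟨m, ⟨n1, n2⟩, hp⟩ | ⟨m, ⟨n1, n2, n3⟩, hp⟩ | ⟨m, ⟨n1, n2, n3⟩, hp⟩
      · rcases adm with ⟨a0, rfl⟩ | ⟨a0, a1⟩ | ⟨a1, a2, a3⟩
        · linarith
        · linarith
        · linarith
      · rcases adm with ⟨a0, rfl⟩ | ⟨a0, a1⟩ | ⟨a1, a2, a3⟩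
        · rcases hF1 with h1 | h1 | h1 | h1
          · linarith
          · linarith
          · linarith
          · linarith
        · rcases hF1 with h1 | h1 | h1 | h1
          · linarith
          · linarith
          · linarith
          · linarith
        · rcases hF1 with h1 | h1 | h1 | h1
          · linarith
          · linarith
          · linarith
          · linarith
      · linarith
      · rcases adm with ⟨a0, rfl⟩ | ⟨a0, a1⟩ | ⟨a1, a2, a3⟩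
        · linarith
        · linarith
        · linarith
    · rcases hp with hp | ⟨m, ⟨n1, n2⟩, hp⟩ | ⟨m, ⟨n1, n2, n3⟩, hp⟩ | ⟨m, ⟨n1, n2, n3⟩, hp⟩
      · linarith
      · rcases adm with ⟨a0, rfl⟩ | ⟨a0, a1⟩ | ⟨a1, a2, a3⟩
        · linarith
        · linarith
        · linarith
      · linarith
      · rcases adm with ⟨a0, rfl⟩ | ⟨a0, a1⟩ | ⟨a1, a2, a3⟩
        · linarith
        · linarith
        · linarith

lemma T2h_cases (N v p D e x : ℝ) : ∃ F, T2h N v p D e x = D + 2 / 3 - v / 3 - (p - D) / 3 + F ∧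
    (F ≤ 2 * (p - D - e) ∨ F ≤ 4 / 3 * (p - D - e) + (1 + (v + e)) / 3 ∨
      F ≤ 4 / 3 * (p - D - e) + (5 / 4 * N + (v + e)) / 3 ∨
      F ≤ 4 / 3 * (p - D - e) + 5 / 6 * (v + e)) ∧
    (F ≤ v + e + 4 / 3 * (p - D - e) + x ∨ F ≤ 5 / 3 * (p - D - e) + (v + e) / 3 + x) := by
  refine ⟨_, rfl, ?_, ?_⟩
  · have h := min_le_left (eFb (max 1 (5 / 4 * N)) (v + e) (p - D - e)) (tAb (v + e) (p - D - e) x)
    have h1 : eFb (max 1 (5 / 4 * N)) (v + e) (p - D - e) ≤ 2 * (p - D - e) ∨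
        eFb (max 1 (5 / 4 * N)) (v + e) (p - D - e) ≤ 4 / 3 * (p - D - e) + (1 + (v + e)) / 3 ∨
        eFb (max 1 (5 / 4 * N)) (v + e) (p - D - e) ≤
          4 / 3 * (p - D - e) + (5 / 4 * N + (v + e)) / 3 ∨
        eFb (max 1 (5 / 4 * N)) (v + e) (p - D - e) ≤ 4 / 3 * (p - D - e) + 5 / 6 * (v + e) := by
      unfold eFb
      rcases max_choice (2 * (p - D - e)) (4 / 3 * (p - D - e) +
        (max (max 1 (5 / 4 * N)) (3 / 2 * (v + e)) + (v + e)) / 3) with h2 | h2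
      · rw [h2]; exact Or.inl le_rfl
      · rw [h2]
        rcases max_choice (max 1 (5 / 4 * N)) (3 / 2 * (v + e)) with h3 | h3
        · rw [h3]
          rcases max_choice 1 (5 / 4 * N) with h4 | h4
          · rw [h4]; exact Or.inr (Or.inl le_rfl)
          · rw [h4]; exact Or.inr (Or.inr (Or.inl le_rfl))
        · rw [h3]; exact Or.inr (Or.inr (Or.inr (by linarith)))
    rcases h1 with h1 | h1 | h1 | h1
    · exact Or.inl (h.trans h1)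
    · exact Or.inr (Or.inl (h.trans h1))
    · exact Or.inr (Or.inr (Or.inl (h.trans h1)))
    · exact Or.inr (Or.inr (Or.inr (h.trans h1)))
  · have h := min_le_right (eFb (max 1 (5 / 4 * N)) (v + e) (p - D - e)) (tAb (v + e) (p - D - e) x)
    have h1 : tAb (v + e) (p - D - e) x ≤ v + e + 4 / 3 * (p - D - e) + x ∨
        tAb (v + e) (p - D - e) x ≤ 5 / 3 * (p - D - e) + (v + e) / 3 + x := by
      unfold tAb
      rcases max_choice (v + e + 4 / 3 * (p - D - e)) (5 / 3 * (p - D - e) + (v + e) / 3) with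
        h2 | h2
      · rw [h2]; exact Or.inl le_rfl
      · rw [h2]; exact Or.inr le_rfl
    rcases h1 with h1 | h1
    · exact Or.inl (h.trans h1)
    · exact Or.inr (h.trans h1)

/-- **(R2)** on the full cell -/
theorem r2H : R2H := by
  intro y₃ y₄ u x d p v e A d₀ ν ms b g g₂ i z₁ z₂ z₃ x' hD p0 pn v0 k0 kν hv e0 e1 A0 A1 ms0 b0
    g0 i0 i1 i2 hc h0 hg gi
  obtain ⟨u4, y43, u0, hy3, N1, near, hx0, adm, d0, d1⟩ := hD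
  obtain ⟨z10, z20, z30, x0', z1, z2, z3, x1', tot⟩ := hc
  obtain ⟨hv1, hv2⟩ := vS_le hv
  obtain ⟨F, hF, hF1, hF2⟩ := T2h_cases (y₃ + y₄ + u) v p (d₀ + ν) e x
  rw [hF]
  unfold Tgt
  have hΛ0 : 0 ≤ max 0 (5 / 4 * (y₃ + y₄ + u) - 1) := le_max_left _ _
  have hΛ1 : 5 / 4 * (y₃ + y₄ + u) - 1 ≤ max 0 (5 / 4 * (y₃ + y₄ + u) - 1) := le_max_right _ _
  generalize max 0 (5 / 4 * (y₃ + y₄ + u) - 1) = Λ at hΛ0 hΛ1 ⊢
  by_contra hcon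
  rw [not_or, not_le, not_le] at hcon
  obtain ⟨hm, hp⟩ := hcon
  have hI : 0 ≤ e + A + i + 2 * b := by linarith
  have k1 := min_le_right z₁ (e + A + i + 2 * b)
  have k2 := min_le_right z₂ (e + A + i + 2 * b)
  have k3 := min_le_right z₃ (e + A + i + 2 * b)
  have j1 := min_le_left z₁ (e + A + i + 2 * b)
  have j2 := min_le_left z₂ (e + A + i + 2 * b)
  have j3 := min_le_left z₃ (e + A + i + 2 * b)
  obtain ⟨l1, l2, l3', l4, l5, l6⟩ := l3_le (e + A + i + 2 * b) (min z₁ (e + A + i + 2 * b))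
    (min z₂ (e + A + i + 2 * b)) (min z₃ (e + A + i + 2 * b))
  have hr := (r3_le (s := 0) d0 d1 (le_min z10 hI) (le_min z20 hI) (le_min z30 hI) x0' k1 k2 k3
    (by linarith)).1
  have adm' : (8 * x ≤ d ∧ x = 0) ∨ (8 * x ≤ d ∧ y₃ + y₄ + u + x ≤ 4 / 5) ∨
      (3 / 4 ≤ y₃ + y₄ + u ∧ x + 2 * d ≤ 1 / 36 ∧ x + 7 / 10 * (y₃ + y₄ + u) ≤ 199 / 360) := by
    rcases adm with ⟨a0, a1 | a1⟩ | a
    · exact Or.inl ⟨a0, a1⟩
    · exact Or.inr (Or.inl ⟨a0, a1⟩)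
    · exact Or.inr (Or.inr a)
  refine core u4 y43 u0 hy3 N1 near hx0 adm' d0 d1 p0 pn v0 k0 kν hv1 hv2 e0 e1 A0 A1 ms0 b0 hΛ0
    hΛ1 g0 i0 i1 i2 z10 z20 z30 x0' z1 z2 z3 x1' tot h0 hg gi k1 k2 k3 j1 j2 j3 l1 l2 l3' l4 l5 l6
    hF1 hF2 (by linarith) (Ww_le (v + e + A) i g) ?_
  rcases pmb_le d0 d1 z10 z20 z30 (b := b + g₂) (i := e + A + i - 2 * g₂) (x' := x') with
    h | ⟨m, h1, h⟩ | ⟨m, h1, h⟩ | ⟨m, h1, h⟩
  · exact Or.inl (by linarith)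
  · exact Or.inr (Or.inl ⟨m, h1, by linarith⟩)
  · exact Or.inr (Or.inr (Or.inl ⟨m, h1, by linarith⟩))
  · exact Or.inr (Or.inr (Or.inr ⟨m, h1, by linarith⟩))

end Crest.Agent.R017.P1H176
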