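import Crest.Agent.R017.P1G_904

/-!
# Row 17, R8: the real side of `P1`, cross term, all cells (helper440)

Base `H` (family `K = 1`). `δ = y.1 y.2`, `N δ ~ d₀ + ν`, `A ∣ y.1`, `N e ~ e ≤ 1/64`.

* `Th`  : the `T`-side of the block `(δ, e, v)` (helper708's `child_le`)
* `R2H` : the `R`-side of every cell is `≤ 2 Tgt - Th`, `Tgt = 1 + p + 3 L0 N`
* `r2H` : proof
-/

set_option autoImplicit false
set_option linter.unusedVariables false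

noncomputable section

namespace Crest.Agent.R017.P1H440

open Crest.Agent.R017.P1R904
open Crest.Agent.R017.P1R2u176 (pmb pmb_le)
open Crest.Agent.R017.P1F904
open Crest.Agent.R017.P1G904 (Ww Ww_le)

/-- the `T`-side of the block `(D, e, v)` -/
def Th (N x p D e v : ℝ) : ℝ :=
  D + 2 / 3 - v / 3 - (p - D) / 3 +
    min (max (2 * (p - D - e))
        (4 / 3 * (p - D - e) + (max (max 1 (5 / 4 * N)) (3 / 2 * (v + e)) + (v + e)) / 3))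
      (max (v + e + 4 / 3 * (p - D - e)) (5 / 3 * (p - D - e) + (v + e) / 3) + x)

/-- the target -/
def Tg (N p : ℝ) : ℝ := 1 + p + 3 * L0 N

/-- **(R2)** for all cells -/
def R2H : Prop := ∀ y₃ y₄ u x d p d₀ ν A e v b g g₂ i ms z₁ z₂ z₃ x' : ℝ, Dp y₃ y₄ u x d →
  1 / 2 - 2 * x ≤ p → p ≤ y₃ + y₄ + u + x → 0 ≤ ν → 0 ≤ A → A ≤ d₀ → 0 ≤ e → e ≤ 1 / 64 →
  0 ≤ v → v + 2 * (d₀ + ν) ≤ vS (y₃ + y₄ + u) x → 0 ≤ b → 0 ≤ g → 0 ≤ i → 0 ≤ ms →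
  i ≤ v + p - 1 + 2 * (e + A) + 2 * ν - d₀ + b → i ≤ 1 - (e + A) - 2 * b →
  ChP y₃ y₄ u x p (d₀ + b + g + ms) z₁ z₂ z₃ x' → 0 ≤ g₂ → g₂ ≤ g → 2 * g₂ ≤ i →
  (d₀ + ν - A + (Ww (v + e + A) i g - i) + ms +
      r3 d (e + A + i + 2 * b) (min z₁ (e + A + i + 2 * b)) (min z₂ (e + A + i + 2 * b))
        (min z₃ (e + A + i + 2 * b)) x' + 1 / 200 ≤
      2 * Tg (y₃ + y₄ + u) p - Th (y₃ + y₄ + u) x p (d₀ + ν) e v) ∨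
    (d₀ + ν - A + (Ww (v + e + A) i g - i) + ms +
      pmb d (b + g₂) (e + A + i - 2 * g₂) z₁ z₂ z₃ x' + 1 / 200 ≤
      2 * Tg (y₃ + y₄ + u) p - Th (y₃ + y₄ + u) x p (d₀ + ν) e v)

/-- the first cases of `Th` -/
lemma Th_le1 (N x p D e v : ℝ) :
    Th N x p D e v ≤ D + 2 / 3 - v / 3 - (p - D) / 3 + 2 * (p - D - e) ∨
    Th N x p D e v ≤ D + 2 / 3 - v / 3 - (p - D) / 3 + (4 / 3 * (p - D - e) + (1 + (v + e)) / 3) ∨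
    Th N x p D e v ≤
      D + 2 / 3 - v / 3 - (p - D) / 3 + (4 / 3 * (p - D - e) + (5 / 4 * N + (v + e)) / 3) ∨
    Th N x p D e v ≤
      D + 2 / 3 - v / 3 - (p - D) / 3 +
        (4 / 3 * (p - D - e) + (3 / 2 * (v + e) + (v + e)) / 3) := by
  have h := min_le_left (max (2 * (p - D - e))
        (4 / 3 * (p - D - e) + (max (max 1 (5 / 4 * N)) (3 / 2 * (v + e)) + (v + e)) / 3))
      (max (v + e + 4 / 3 * (p - D - e)) (5 / 3 * (p - D - e) + (v + e) / 3) + x)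
  unfold Th
  rcases max_choice (2 * (p - D - e))
        (4 / 3 * (p - D - e) + (max (max 1 (5 / 4 * N)) (3 / 2 * (v + e)) + (v + e)) / 3) with
    h1 | h1
  · exact Or.inl (by linarith)
  · rcases max_choice (max 1 (5 / 4 * N)) (3 / 2 * (v + e)) with h2 | h2
    · rcases max_choice 1 (5 / 4 * N) with h3 | h3
      · rw [h1, h2, h3] at h
        exact Or.inr (Or.inl (by rw [h1, h2, h3]; linarith))
      · rw [h1, h2, h3] at h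
        exact Or.inr (Or.inr (Or.inl (by rw [h1, h2, h3]; linarith)))
    · rw [h1, h2] at h
      exact Or.inr (Or.inr (Or.inr (by rw [h1, h2]; linarith)))

/-- the second cases of `Th` -/
lemma Th_le2 (N x p D e v : ℝ) :
    Th N x p D e v ≤ D + 2 / 3 - v / 3 - (p - D) / 3 + (v + e + 4 / 3 * (p - D - e) + x) ∨
    Th N x p D e v ≤
      D + 2 / 3 - v / 3 - (p - D) / 3 + (5 / 3 * (p - D - e) + (v + e) / 3 + x) := by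
  have h := min_le_right (max (2 * (p - D - e))
        (4 / 3 * (p - D - e) + (max (max 1 (5 / 4 * N)) (3 / 2 * (v + e)) + (v + e)) / 3))
      (max (v + e + 4 / 3 * (p - D - e)) (5 / 3 * (p - D - e) + (v + e) / 3) + x)
  unfold Th
  rcases max_choice (v + e + 4 / 3 * (p - D - e)) (5 / 3 * (p - D - e) + (v + e) / 3) with
    h1 | h1
  · rw [h1] at h
    exact Or.inl (by rw [h1]; linarith)
  · rw [h1] at h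
    exact Or.inr (by rw [h1]; linarith)

set_option maxHeartbeats 64000000 in
/-- the linear core of (R2) : all the cases -/
lemma core {y₃ y₄ u x d p d₀ ν A e v b g g₂ i ms z₁ z₂ z₃ x' W L T Λ m₁ m₂ m₃ : ℝ} (u4 : u ≤ y₄)
    (y43 : y₄ ≤ y₃) (u0 : 11 / 50 ≤ u) (hy3 : y₃ + x ≤ 29 / 100) (N1 : y₃ + y₄ + u ≤ 102 / 125)
    (near : 99 / 100 ≤ y₃ + y₄ + 2 * u) (x0 : 0 ≤ x)
    (adm : (8 * x ≤ d ∧ (x = 0 ∨ y₃ + y₄ + u + x ≤ 4 / 5)) ∨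
      (3 / 4 ≤ y₃ + y₄ + u ∧ x + 2 * d ≤ 1 / 36 ∧ x + 7 / 10 * (y₃ + y₄ + u) ≤ 199 / 360))
    (d0 : 0 ≤ d) (d1 : d ≤ 1 / 40)
    (p0 : 1 / 2 - 2 * x ≤ p) (pn : p ≤ y₃ + y₄ + u + x)
    (n0 : 0 ≤ ν) (A0 : 0 ≤ A) (A1 : A ≤ d₀) (e0 : 0 ≤ e) (e1 : e ≤ 1 / 64)
    (v0 : 0 ≤ v) (hv1 : v + 2 * (d₀ + ν) ≤ 2 * (y₃ + y₄ + u) - 1 + 3 * x)
    (hv2 : v + 2 * (d₀ + ν) ≤ 3 / 4 * (y₃ + y₄ + u) + 3 * x) (b0 : 0 ≤ b)
    (hΛ0 : 0 ≤ Λ) (hΛ1 : (5 / 4 * (y₃ + y₄ + u) - 1) / 3 ≤ Λ)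
    (g0 : 0 ≤ g) (i0 : 0 ≤ i) (s0 : 0 ≤ ms)
    (i1 : i ≤ v + p - 1 + 2 * (e + A) + 2 * ν - d₀ + b) (i2 : i ≤ 1 - (e + A) - 2 * b)
    (z10 : 0 ≤ z₁) (z20 : 0 ≤ z₂) (z30 : 0 ≤ z₃) (x0' : 0 ≤ x') (z1 : z₁ ≤ y₃) (z2 : z₂ ≤ y₄)
    (z3 : z₃ ≤ u) (x1' : x' ≤ x)
    (tot : z₁ + z₂ + z₃ + x' + (d₀ + b + g + ms) ≤ p) (h0 : 0 ≤ g₂) (hg : g₂ ≤ g)
    (gi : 2 * g₂ ≤ i)
    (k1 : m₁ ≤ e + A + i + 2 * b) (k2 : m₂ ≤ e + A + i + 2 * b) (k3 : m₃ ≤ e + A + i + 2 * b)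
    (j1 : m₁ ≤ z₁) (j2 : m₂ ≤ z₂) (j3 : m₃ ≤ z₃)
    (l1 : L ≤ m₁) (l2 : L ≤ e + A + i + 2 * b - m₁) (l3 : L ≤ m₂)
    (l4 : L ≤ e + A + i + 2 * b - m₂) (l5 : L ≤ m₃) (l6 : L ≤ e + A + i + 2 * b - m₃)
    (hT1 : T ≤ (d₀ + ν) + 2 / 3 - v / 3 - (p - (d₀ + ν)) / 3 + 2 * (p - (d₀ + ν) - e) ∨
      T ≤ (d₀ + ν) + 2 / 3 - v / 3 - (p - (d₀ + ν)) / 3 +
        (4 / 3 * (p - (d₀ + ν) - e) + (1 + (v + e)) / 3) ∨
      T ≤ (d₀ + ν) + 2 / 3 - v / 3 - (p - (d₀ + ν)) / 3 +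
        (4 / 3 * (p - (d₀ + ν) - e) + (5 / 4 * (y₃ + y₄ + u) + (v + e)) / 3) ∨
      T ≤ (d₀ + ν) + 2 / 3 - v / 3 - (p - (d₀ + ν)) / 3 +
        (4 / 3 * (p - (d₀ + ν) - e) + (3 / 2 * (v + e) + (v + e)) / 3))
    (hT2 : T ≤ (d₀ + ν) + 2 / 3 - v / 3 - (p - (d₀ + ν)) / 3 +
        (v + e + 4 / 3 * (p - (d₀ + ν) - e) + x) ∨
      T ≤ (d₀ + ν) + 2 / 3 - v / 3 - (p - (d₀ + ν)) / 3 +
        (5 / 3 * (p - (d₀ + ν) - e) + (v + e) / 3 + x))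
    (hm : 2 * (1 + p + 3 * Λ) - T < d₀ + ν - A + (W - i) + ms +
      (e + A + i + 2 * b + (m₁ + m₂ + m₃ + x') + 4 / 5 * (L + x')) + 1 / 200)
    (hW : W ≤ v + e + A + g ∨ W ≤ i + g ∨ W ≤ 2 / 3 * (v + e + A + i) + g)
    (hp : 2 * (1 + p + 3 * Λ) - T < d₀ + ν - A + (W - i) + ms +
        ((e + A + i - 2 * g₂) + (b + g₂) + (z₁ + z₂ + z₃ + x')) + 1 / 200 ∨
      (∃ m, (m ≤ b + g₂ ∧ m ≤ e + A + i - 2 * g₂) ∧
        2 * (1 + p + 3 * Λ) - T < d₀ + ν - A + (W - i) + ms +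
          (2 * (z₁ + z₂ + z₃ + x') + m) + 1 / 200) ∨
      (∃ L', (L' ≤ z₁ ∧ L' ≤ z₂ ∧ L' ≤ z₃) ∧
        2 * (1 + p + 3 * Λ) - T < d₀ + ν - A + (W - i) + ms +
          (b + g₂ + (z₁ + z₂ + z₃ + x') + 4 / 5 * L' + x') + 1 / 200) ∨
      (∃ L', (L' ≤ z₁ ∧ L' ≤ z₂ ∧ L' ≤ z₃) ∧
        2 * (1 + p + 3 * Λ) - T < d₀ + ν - A + (W - i) + ms +
          (e + A + i - 2 * g₂ + (z₁ + z₂ + z₃ + x') + 4 / 5 * L' + x') + 1 / 200)) :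
    False := by
  rcases adm with ⟨a0, rfl | a1⟩ | ⟨a1, a2, a3⟩ <;>
  rcases hT1 with hT1 | hT1 | hT1 | hT1 <;> rcases hT2 with hT2 | hT2 <;>
  rcases hp with hp | ⟨m, ⟨n1, n2⟩, hp⟩ | ⟨m, ⟨n1, n2, n3⟩, hp⟩ | ⟨m, ⟨n1, n2, n3⟩, hp⟩ <;>
  rcases hW with hW | hW | hW <;> linarith

theorem r2H : R2H := by
  intro y₃ y₄ u x d p d₀ ν A e v b g g₂ i ms z₁ z₂ z₃ x' hD p0 pn n0 A0 A1 e0 e1 v0 hv b0 g0 i0 s0
    i1 i2 hc h0 hg gi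
  obtain ⟨u4, y43, u0, hy3, N1, near, hx0, adm, d0, d1⟩ := hD
  obtain ⟨z10, z20, z30, x0', z1, z2, z3, x1', tot⟩ := hc
  obtain ⟨hv1, hv2⟩ := vS_le hv
  obtain ⟨hL1, hL2⟩ := L0_ge (y₃ + y₄ + u)
  have hT1 := Th_le1 (y₃ + y₄ + u) x p (d₀ + ν) e v
  have hT2 := Th_le2 (y₃ + y₄ + u) x p (d₀ + ν) e v
  generalize Th (y₃ + y₄ + u) x p (d₀ + ν) e v = T at hT1 hT2 ⊢
  unfold Tg
  generalize L0 (y₃ + y₄ + u) = Λ at hL1 hL2 ⊢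
  by_contra hcon
  rw [not_or, not_le, not_le] at hcon
  obtain ⟨hm, hp⟩ := hcon
  have hI : 0 ≤ e + A + i + 2 * b := by linarith
  have k1 := min_le_right z₁ (e + A + i + 2 * b)
  have k2 := min_le_right z₂ (e + A + i + 2 * b)
  have k3 := min_le_right z₃ (e + A + i + 2 * b)
  have j1 := min_le_left z₁ (e + A + i + 2 * b)
  have j2 := min_le_left z₂ (e + A + i + 2 * b)
  have j3 := min_le_left z₃ (e + A + i + 2 * b)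
  obtain ⟨l1, l2, l3', l4, l5, l6⟩ := l3_le (e + A + i + 2 * b) (min z₁ (e + A + i + 2 * b))
    (min z₂ (e + A + i + 2 * b)) (min z₃ (e + A + i + 2 * b))
  have hr := (r3_le (s := 0) d0 d1 (le_min z10 hI) (le_min z20 hI) (le_min z30 hI) x0' k1 k2 k3
    (by linarith)).1
  refine core u4 y43 u0 hy3 N1 near hx0 adm d0 d1 p0 pn n0 A0 A1 e0 e1 v0 hv1 hv2 b0 hL1 hL2 g0 i0
    s0 i1 i2 z10 z20 z30 x0' z1 z2 z3 x1' tot h0 hg gi k1 k2 k3 j1 j2 j3 l1 l2 l3' l4 l5 l6 hT1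
    hT2 (W := Ww (v + e + A) i g) (by linarith) ?_ ?_
  · rcases Ww_le (v + e + A) i g with h | h | h
    · exact Or.inl (by linarith)
    · exact Or.inr (Or.inl (by linarith))
    · exact Or.inr (Or.inr (by linarith))
  · rcases pmb_le d0 d1 z10 z20 z30 (b := b + g₂) (i := e + A + i - 2 * g₂) (x' := x') with
      h | ⟨m, h1, h⟩ | ⟨m, h1, h⟩ | ⟨m, h1, h⟩
    · exact Or.inl (by linarith)
    · exact Or.inr (Or.inl ⟨m, h1, by linarith⟩)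
    · exact Or.inr (Or.inr (Or.inl ⟨m, h1, by linarith⟩))
    · exact Or.inr (Or.inr (Or.inr ⟨m, h1, by linarith⟩))

end Crest.Agent.R017.P1H440
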