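import Crest.Agent.R017.PM1_320

/-!
# Row 17: the pair functional, closed form (helper320)

* `pm1 d κ b ..` : closed form, order `b ≤ κ`; `bg1`
* `PG π h κ b u w e` : robust exponent with two parameters; `PG_of_PX`, `PG_direct`, `PG_swap`
* `pmb d b i ..` : closed form, both orders; `PG_pmb`
-/

set_option autoImplicit false

noncomputable section

open Set Filter Topology

namespace Crest.Agent.R017.PM320

open Crest.Agent.R012 Crest.Agent.R012.Eis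
open Crest.Agent.R017.FE47 (PU)
open Crest.Agent.R017.XG702 (Pcs BG)
open Crest.Agent.R017.Prov71
open Crest.Agent.R017.B770
open Crest.Agent.R017.XP699
open Crest.Agent.R017.PML320
open Crest.Agent.R017.XPD571 (RX RF0 RP0)

variable {Λ : Type*}

/-- **input**: the complete family with three lumps (`RM986.bgf`) -/
def RFb (d : ℝ) (π : Λ → DPar) (h : ℝ → ℝ) : Prop :=
  ∀ i z₁ z₂ z₃ m a : ℝ, 0 ≤ i → 0 ≤ z₁ → 0 ≤ z₂ → 0 ≤ z₃ → 0 ≤ m → 0 ≤ a →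
    BG Dq (RF0 π h) i [z₁, z₂, z₃] (wt m a)
      (max (RM986.r3 d i z₁ z₂ z₃ m a) (i / 3 + 2 * a + 2 * (7 / 8 + d) * m))

/-- closed form, order `b ≤ κ` -/
def pm1 (d κ b y₁ y₂ y₃ m a : ℝ) : ℝ :=
  max (max (κ + b + (y₁ + y₂ + y₃ + (m + a))) (2 * (y₁ + y₂ + y₃ + (m + a)) + b))
    (κ + (y₁ + y₂ + y₃ + (m + a)) + (3 / 4 + 2 * d) * min (min y₁ (min y₂ y₃)) ((κ - b) / 2) +
      (m + a))

/-- **closed form of the pair functional**, both orders -/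
def pmb (d b i y₁ y₂ y₃ m a : ℝ) : ℝ :=
  max (max (i + b + (y₁ + y₂ + y₃ + (m + a))) (2 * (y₁ + y₂ + y₃ + (m + a)) + min b i))
    (max b i + (y₁ + y₂ + y₃ + (m + a)) +
      (3 / 4 + 2 * d) * min (min y₁ (min y₂ y₃)) (|i - b| / 2) + (m + a))

lemma pm1_eq {d κ b y₁ y₂ y₃ m a : ℝ} (h : b ≤ κ) :
    pm1 d κ b y₁ y₂ y₃ m a = pmb d b κ y₁ y₂ y₃ m a := by
  unfold pm1 pmb
  rw [min_eq_left h, max_eq_right h, abs_of_nonneg (by linarith : 0 ≤ κ - b)]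

lemma pm1_eq' {d κ b y₁ y₂ y₃ m a : ℝ} (h : κ ≤ b) :
    pm1 d b κ y₁ y₂ y₃ m a = pmb d b κ y₁ y₂ y₃ m a := by
  unfold pm1 pmb
  rw [min_eq_right h, max_eq_left h, abs_of_nonpos (by linarith : κ - b ≤ 0), neg_sub,
    add_comm b κ]

lemma pm1_shift (d κ b y₁ y₂ y₃ m a : ℝ) {η : ℝ} (hη : 0 ≤ η) :
    pm1 d (κ + η) (b + η) y₁ y₂ y₃ m a ≤ pm1 d κ b y₁ y₂ y₃ m a + 2 * η := by
  unfold pm1
  have e : κ + η - (b + η) = κ - b := by ring
  rw [e, ← max_add_add_right, ← max_add_add_right]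
  refine max_le_max (max_le_max ?_ ?_) ?_ <;> linarith

/-- `[y₁, y₂, y₃]` shortened -/
lemma shl3 {u' : List ℝ} {y₁ y₂ y₃ : ℝ} (h : Shl u' [y₁, y₂, y₃]) : ∃ z₁ z₂ z₃ : ℝ,
    u' = [z₁, z₂, z₃] ∧ (0 ≤ z₁ ∧ z₁ ≤ y₁) ∧ (0 ≤ z₂ ∧ z₂ ≤ y₂) ∧ (0 ≤ z₃ ∧ z₃ ≤ y₃) := by
  unfold Shl at h
  rcases h with _ | ⟨h1, h⟩
  rcases h with _ | ⟨h2, h⟩
  rcases h with _ | ⟨h3, h⟩
  cases h
  exact ⟨_, _, _, rfl, h1, h2, h3⟩

/-- **`BG` of the pair functional**, order `b ≤ κ` -/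
theorem bg1 {h : ℝ → ℝ} {c₁ : ℝ} (hpu : PU h c₁) {π : Λ → DPar} (hP : ∀ lam, (π lam).OK)
    {d : ℝ} (hd : 0 ≤ d) (hd8 : d ≤ 1 / 8) (HR : RFb d π h) {c : ℝ} (hc : 0 ≤ c) (hc1 : c ≤ 1)
    {κ y₁ y₂ y₃ m a : ℝ} (hκ : 0 ≤ κ) (h1 : 0 ≤ y₁) (h2 : 0 ≤ y₂) (h3 : 0 ≤ y₃) (hm : 0 ≤ m)
    (ha : 0 ≤ a) :
    BG Dq (PX c π h) κ [y₁, y₂, y₃] (wt m a) (pm1 d κ (c * κ) y₁ y₂ y₃ m a) := by
  have hok : Okl [y₁, y₂, y₃] m a := by
    refine ⟨?_, hm, ha⟩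
    intro y hy
    simp only [List.mem_cons, List.not_mem_nil, or_false] at hy
    rcases hy with rfl | rfl | rfl
    · exact h1
    · exact h2
    · exact h3
  obtain ⟨b, hb⟩ : ∃ b : ℝ, b = c * κ := ⟨_, rfl⟩
  have hb0 : 0 ≤ b := by rw [hb]; positivity
  have hbκ : b ≤ κ := by rw [hb]; nlinarith
  obtain ⟨E, hE⟩ : ∃ E : ℝ, E = pm1 d κ b y₁ y₂ y₃ m a := ⟨_, rfl⟩
  obtain ⟨n, hn⟩ : ∃ n : ℝ, n = y₁ + y₂ + y₃ + (m + a) := ⟨_, rfl⟩
  obtain ⟨μ, hμ⟩ : ∃ μ : ℝ, μ = min (min y₁ (min y₂ y₃)) ((κ - b) / 2) := ⟨_, rfl⟩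
  have hμ0 : 0 ≤ μ := by
    rw [hμ]; exact le_min (le_min h1 (le_min h2 h3)) (by linarith)
  have E1 : κ + b + n ≤ E := by
    rw [hE, hn]; exact (le_max_left _ _).trans (le_max_left _ _)
  have E2 : 2 * n + b ≤ E := by
    rw [hE, hn]; exact (le_max_right _ _).trans (le_max_left _ _)
  have E3 : κ + n + (3 / 4 + 2 * d) * μ + (m + a) ≤ E := by
    rw [hE, hn, hμ]; exact le_max_right _ _
  have hcμ : 0 ≤ (3 / 4 + 2 * d) * μ := by positivity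
  have hsum : ([y₁, y₂, y₃] : List ℝ).sum + m + a = n := by
    rw [hn]; simp only [List.sum_cons, List.sum_nil]; ring
  rw [← hb, ← hE]
  refine rawPB hpu hP hc hκ hok (by rw [hsum]; rw [hb] at E1; linarith) ?_
  intro u' m' a' l hsh hm0 hm1 ha0 ha1 hl hl1 hl2
  rw [hsum] at hl2 ⊢
  rw [← hb] at hl1 hl2 ⊢
  obtain ⟨z₁, z₂, z₃, rfl, hz1, hz2, hz3⟩ := shl3 hsh
  have hs' : ([z₁, z₂, z₃] : List ℝ).sum = z₁ + z₂ + z₃ := by
    simp only [List.sum_cons, List.sum_nil]; ring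
  rw [hs'] at hl1 hl2 ⊢
  refine XRG106.rawG hpu π hP l [z₁, z₂, z₃] m' a' _ hl ⟨hsh.nonneg, hm0, ha0⟩ ?_ ?_
  · rw [hs']; linarith
  intro u'' m'' a'' hsh' hm0' hm1' ha0' ha1' hl3
  obtain ⟨w₁, w₂, w₃, rfl, hw1, hw2, hw3⟩ := shl3 hsh'
  have hs'' : ([w₁, w₂, w₃] : List ℝ).sum = w₁ + w₂ + w₃ := by
    simp only [List.sum_cons, List.sum_nil]; ring
  rw [hs'] at hl3 ⊢
  rw [hs'']
  obtain ⟨i, hi⟩ : ∃ i : ℝ, i = 2 * (z₁ + z₂ + z₃ + m' + a') - l := ⟨_, rfl⟩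
  have hi0 : 0 ≤ i := by rw [hi]; linarith
  have hi1 : i ≤ κ - b := by rw [hi]; linarith
  rw [← hi]
  refine (HR i w₁ w₂ w₃ m'' a'' hi0 hw1.1 hw2.1 hw3.1 hm0' ha0').mono ?_
  have eE : E - n - κ / 3 + 2 / 3 * (l - b + (z₁ + z₂ + z₃ + m' + a')) - l +
      (w₁ + w₂ + w₃ + m'' + a'') =
      E - n - κ / 3 + i / 3 - 2 / 3 * b + (w₁ + w₂ + w₃ + m'' + a'') := by
    rw [hi]; ring
  rw [eE]
  have hx : m'' + a'' ≤ m + a := by linarith
  have hx0 : 0 ≤ m'' + a'' := by linarith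
  have hdx : (3 / 4 + 2 * d) * (m'' + a'') ≤ m + a := by
    have : (3 / 4 + 2 * d) * (m'' + a'') ≤ 1 * (m'' + a'') :=
      mul_le_mul_of_nonneg_right (by linarith) hx0
    linarith
  refine max_le ?_ ?_
  · -- the main column
    refine (RM986.r3_le_P1 (m := m'') (a := a'') hi0 hw1.1 hw2.1 hw3.1).trans ?_
    have hl3' : P1R904.l3 i (min w₁ i) (min w₂ i) (min w₃ i) ≤ μ := by
      unfold P1R904.l3
      rw [hμ]
      refine le_min (le_min ?_ (le_min ?_ ?_)) ?_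
      · exact (min_le_left _ _).trans ((min_le_left _ _).trans ((min_le_left _ _).trans
          (by linarith)))
      · exact (min_le_right _ _).trans ((min_le_left _ _).trans ((min_le_left _ _).trans
          ((min_le_left _ _).trans (by linarith))))
      · exact (min_le_right _ _).trans ((min_le_right _ _).trans ((min_le_left _ _).trans
          ((min_le_left _ _).trans (by linarith))))
      · have g1 : min (min w₁ i) (i - min w₁ i) ≤ i / 2 := by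
          rcases le_total (min w₁ i) (i / 2) with h | h
          · exact (min_le_left _ _).trans h
          · exact (min_le_right _ _).trans (by linarith)
        exact (min_le_left _ _).trans (g1.trans (by linarith))
    have hmin1 := min_le_left w₁ i
    have hmin2 := min_le_left w₂ i
    have hmin3 := min_le_left w₃ i
    have hcl : (3 / 4 + 2 * d) * P1R904.l3 i (min w₁ i) (min w₂ i) (min w₃ i) ≤
        (3 / 4 + 2 * d) * μ := mul_le_mul_of_nonneg_left hl3' (by linarith)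
    unfold P1R904.r3
    rw [mul_add]
    linarith
  · -- the cube column
    have : 2 * (7 / 8 + d) * m'' = m'' + (3 / 4 + 2 * d) * m'' := by ring
    rw [this]
    have h5 : (3 / 4 + 2 * d) * m'' ≤ 1 * m'' := mul_le_mul_of_nonneg_right (by linarith) hm0'
    linarith [hw1.1, hw2.1, hw3.1]

/-! ### two parameters -/

/-- robust exponent of the pair functional -/
def PG (π : Λ → DPar) (h : ℝ → ℝ) (κ b : ℝ) (u : List ℝ) (w : Kd → ℝ) (e : ℝ) : Prop :=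
  ∀ ε : ℝ, 0 < ε → ∃ δ : ℝ, 0 < δ ∧ ∀ (lam : Λ) (N : ℕ) (B : ℝ), ∃ δ' : ℝ, 0 < δ' ∧
    ∃ X₀ : ℝ, 1 < X₀ ∧ ∀ X : ℝ, X₀ ≤ X → ∀ (k β : ℝ) (us gs : List Pq), k ≤ κ + δ →
      β ≤ b + δ → Dq.Near X δ us u → Dq.Gran X δ N gs w → Dq.Good X δ' B (us ++ gs) →
        PMf (π lam) h (k * Real.log X) (β * Real.log X) (us ++ gs) ≤ X ^ (e + ε)

theorem PG.mono {π : Λ → DPar} {h : ℝ → ℝ} {κ b : ℝ} {u : List ℝ} {w : Kd → ℝ} {e e' : ℝ}
    (H : PG π h κ b u w e) (he : e ≤ e') : PG π h κ b u w e' := by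
  intro ε hε
  obtain ⟨δ, hδ, K⟩ := H ε hε
  refine ⟨δ, hδ, fun lam N B => ?_⟩
  obtain ⟨δ', hδ', X₀, hX₀, K1⟩ := K lam N B
  refine ⟨δ', hδ', X₀, hX₀, fun X hX k β us gs h1 h2 h3 h4 h5 => ?_⟩
  exact (K1 X hX k β us gs h1 h2 h3 h4 h5).trans
    (Real.rpow_le_rpow_of_exponent_le (by linarith) (by linarith))

theorem PG_of_PX {π : Λ → DPar} {h : ℝ → ℝ} {κ b : ℝ} (hκ : 0 ≤ κ) (hb : 0 ≤ b) {u : List ℝ}
    {w : Kd → ℝ} {e : ℝ}
    (H : ∀ ε : ℝ, 0 < ε → ∃ η : ℝ, 0 < η ∧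
      BG Dq (PX ((b + η) / (κ + η)) π h) (κ + η) u w (e + ε)) : PG π h κ b u w e := by
  intro ε hε
  obtain ⟨η, hη, HB⟩ := H (ε / 2) (by linarith)
  obtain ⟨δ, hδ, K⟩ := HB (ε / 2) (by linarith)
  refine ⟨min δ η, lt_min hδ hη, fun lam N B => ?_⟩
  obtain ⟨δ', hδ', X₀, hX₀, K1⟩ := K lam N B
  refine ⟨δ', hδ', X₀, hX₀, fun X hX k β us gs h1 h2 h3 h4 h5 => ?_⟩
  have hX1 : 1 < X := by linarith
  have hlog : 0 < Real.log X := Real.log_pos hX1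
  have hκη : 0 < κ + η := by linarith
  have hm := min_le_left δ η
  have hm' := min_le_right δ η
  have key := K1 X hX (κ + η) us gs (by rw [sub_self, abs_zero]; exact hδ.le)
    (XG702.Near_mono h3 hm) (XG702.Gran_mono h4 hm le_rfl) h5
  refine le_trans ?_ (key.trans (Real.rpow_le_rpow_of_exponent_le hX1.le (by linarith)))
  show _ ≤ PMf (π lam) h ((κ + η) * Real.log X) ((b + η) / (κ + η) * ((κ + η) * Real.log X)) _
  refine PMf_mono _ _ (mul_le_mul_of_nonneg_right (by linarith) hlog.le) ?_ _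
  have e1 : (b + η) / (κ + η) * ((κ + η) * Real.log X) = (b + η) * Real.log X := by
    field_simp
  rw [e1]
  exact mul_le_mul_of_nonneg_right (by linarith) hlog.le

theorem PG_direct {h : ℝ → ℝ} {c₁ : ℝ} (hpu : PU h c₁) {π : Λ → DPar}
    (hP : ∀ lam, (π lam).OK) {d : ℝ} (hd : 0 ≤ d) (hd8 : d ≤ 1 / 8) (HR : RFb d π h)
    {κ b y₁ y₂ y₃ m a : ℝ} (hb : 0 ≤ b) (hbκ : b ≤ κ) (h1 : 0 ≤ y₁) (h2 : 0 ≤ y₂)
    (h3 : 0 ≤ y₃) (hm : 0 ≤ m) (ha : 0 ≤ a) :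
    PG π h κ b [y₁, y₂, y₃] (wt m a) (pm1 d κ b y₁ y₂ y₃ m a) := by
  have hκ : 0 ≤ κ := hb.trans hbκ
  refine PG_of_PX hκ hb fun ε hε => ⟨ε / 2, by linarith, ?_⟩
  have hη : 0 < κ + ε / 2 := by linarith
  have hc0 : 0 ≤ (b + ε / 2) / (κ + ε / 2) := by positivity
  have hc1 : (b + ε / 2) / (κ + ε / 2) ≤ 1 := by rw [div_le_one hη]; linarith
  have h4 := bg1 hpu hP hd hd8 HR hc0 hc1 hη.le h1 h2 h3 hm ha
  rw [div_mul_cancel₀ _ hη.ne'] at h4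
  refine h4.mono ?_
  have := pm1_shift d κ b y₁ y₂ y₃ m a (show 0 ≤ ε / 2 by linarith)
  linarith

/-! ### the other order -/

lemma map_cjq_near {X δ : ℝ} {us : List Pq} {u : List ℝ} (h : Dq.Near X δ us u) :
    Dq.Near X δ (us.map cjq) u := by
  unfold Pcs.Near at h ⊢
  rw [List.forall₂_map_left_iff]
  exact h

lemma map_cjq_mass (X : ℝ) (gs : List Pq) (t : Kd) :
    Dq.mass X (gs.map cjq) t = Dq.mass X gs t := by
  unfold Pcs.mass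
  rw [List.map_map]
  rfl

lemma map_cjq_gran {X δ : ℝ} {N : ℕ} {gs : List Pq} {w : Kd → ℝ} (h : Dq.Gran X δ N gs w) :
    Dq.Gran X δ N (gs.map cjq) w := by
  refine ⟨by rw [List.length_map]; exact h.1, ?_, fun t => ?_⟩
  · intro g hg
    obtain ⟨g', hg', rfl⟩ := List.mem_map.1 hg
    exact h.2.1 g' hg'
  · rw [map_cjq_mass]
    exact h.2.2 t

lemma map_cjq_good {X δ' B : ℝ} {ps : List Pq} (h : Dq.Good X δ' B ps) :
    Dq.Good X δ' B (ps.map cjq) := by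
  intro p hp
  obtain ⟨p', hp', rfl⟩ := List.mem_map.1 hp
  have := h p' hp'
  refine ⟨?_, this.2.1, this.2.2⟩
  show 1 + |-p'.t| ≤ X ^ δ'
  rw [abs_neg]
  exact this.1

/-- **the other order** -/
theorem PG_swap {h : ℝ → ℝ} {c₁ : ℝ} (hpu : PU h c₁) {π : Λ → DPar} (hP : ∀ lam, (π lam).OK)
    {κ b : ℝ} (hκ : 0 ≤ κ) {u : List ℝ} {w : Kd → ℝ} {e : ℝ}
    (H : PG (fun lam => cjD (π lam)) h b κ u w e) : PG π h κ b u w e := by
  intro ε hε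
  obtain ⟨δ, hδ, K⟩ := H (ε / 2) (by linarith)
  refine ⟨δ / 2, by linarith, fun lam N B => ?_⟩
  obtain ⟨δ', hδ', X₀, hX₀, K1⟩ := K lam N B
  obtain ⟨X₁, hX₁, hX₁'⟩ : ∃ X₁ : ℝ, 1 < X₁ ∧ ∀ X, X₁ ≤ X →
      Real.log 81 ≤ δ / 2 * Real.log X := by
    refine ⟨Real.exp (2 * Real.log 81 / δ), Real.one_lt_exp_iff.2 ?_, fun X hX => ?_⟩
    · have : 0 < Real.log 81 := Real.log_pos (by norm_num)
      positivity
    · have h1 : 2 * Real.log 81 / δ ≤ Real.log X :=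
        (Real.le_log_iff_exp_le (lt_of_lt_of_le (Real.exp_pos _) hX)).2 hX
      rw [div_le_iff₀ hδ] at h1
      linarith
  obtain ⟨X₂, hX₂⟩ := Filter.eventually_atTop.1
    ((tendsto_rpow_atTop (show 0 < ε / 4 by linarith)).eventually_ge_atTop
      (16 * (1 + (κ + δ) * (4 / ε))))
  refine ⟨δ', hδ', max X₀ (max X₁ X₂), lt_of_lt_of_le hX₀ (le_max_left _ _), ?_⟩
  intro X hX k β us gs h1 h2 h3 h4 h5
  have hX0 : X₀ ≤ X := (le_max_left _ _).trans hX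
  have hXX1 : X₁ ≤ X := ((le_max_left _ _).trans (le_max_right _ _)).trans hX
  have hXX2 : X₂ ≤ X := ((le_max_right _ _).trans (le_max_right _ _)).trans hX
  have hX1 : 1 < X := by linarith
  have hXp : 0 < X := by linarith
  have hlog : 0 < Real.log X := Real.log_pos hX1
  obtain ⟨k', hk'⟩ : ∃ k' : ℝ, k' = max k 0 := ⟨_, rfl⟩
  have hk0 : 0 ≤ k' := hk' ▸ le_max_right _ _
  have hkk : k ≤ k' := hk' ▸ le_max_left _ _
  have hk1 : k' ≤ κ + δ / 2 := by rw [hk']; exact max_le h1 (by linarith)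
  have s1 : PMf (π lam) h (k * Real.log X) (β * Real.log X) (us ++ gs) ≤
      PMf (π lam) h (k' * Real.log X) (β * Real.log X) (us ++ gs) :=
    PMf_mono _ _ (mul_le_mul_of_nonneg_right hkk hlog.le) le_rfl _
  have s2 := PMf_swap (hP lam) (bump_of_cs hpu.cs) (β := β * Real.log X)
    (mul_nonneg hk0 hlog.le) (us ++ gs)
  have e1 : β * Real.log X + Real.log 81 = (β + Real.log 81 / Real.log X) * Real.log X := by
    field_simp
  have e2 : Real.log 81 / Real.log X ≤ δ / 2 := by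
    rw [div_le_iff₀ hlog]; exact hX₁' X hXX1
  have s3 := K1 X hX0 (β + Real.log 81 / Real.log X) k' (us.map cjq) (gs.map cjq)
    (by linarith) (by linarith) (map_cjq_near (XG702.Near_mono h3 (by linarith)))
    (map_cjq_gran (XG702.Gran_mono h4 (by linarith) le_rfl))
    (by rw [← List.map_append]; exact map_cjq_good h5)
  rw [← List.map_append] at s3
  rw [e1] at s2
  have s4 : k' * Real.log X + 1 ≤ (1 + (κ + δ) * (4 / ε)) * X ^ (ε / 4) := by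
    have a3 : Real.log X ≤ X ^ (ε / 4) / (ε / 4) := Real.log_le_rpow_div hXp.le (by linarith)
    have a4 : 1 ≤ X ^ (ε / 4) := Real.one_le_rpow hX1.le (by linarith)
    have a5 : X ^ (ε / 4) / (ε / 4) = 4 / ε * X ^ (ε / 4) := by field_simp
    rw [a5] at a3
    have a6 : k' * Real.log X ≤ (κ + δ) * (4 / ε * X ^ (ε / 4)) :=
      mul_le_mul (by linarith) a3 hlog.le (by linarith)
    linarith
  have s5 := hX₂ X hXX2
  have hYn := PMf_nonneg (cjD (π lam)) h ((β + Real.log 81 / Real.log X) * Real.log X)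
    (k' * Real.log X) ((us ++ gs).map cjq)
  have hq : 0 ≤ X ^ (ε / 4) := Real.rpow_nonneg hXp.le _
  calc PMf (π lam) h (k * Real.log X) (β * Real.log X) (us ++ gs)
      ≤ (k' * Real.log X + 1) * (16 * PMf (cjD (π lam)) h
          ((β + Real.log 81 / Real.log X) * Real.log X) (k' * Real.log X)
          ((us ++ gs).map cjq)) := s1.trans s2
    _ ≤ ((1 + (κ + δ) * (4 / ε)) * X ^ (ε / 4)) * (16 * X ^ (e + ε / 2)) := by
        have hA : 0 ≤ (1 + (κ + δ) * (4 / ε)) := by positivity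
        exact mul_le_mul s4 (mul_le_mul_of_nonneg_left s3 (by norm_num))
          (mul_nonneg (by norm_num) hYn) (mul_nonneg hA hq)
    _ = (16 * (1 + (κ + δ) * (4 / ε))) * (X ^ (ε / 4) * X ^ (e + ε / 2)) := by ring
    _ ≤ X ^ (ε / 4) * (X ^ (ε / 4) * X ^ (e + ε / 2)) :=
        mul_le_mul_of_nonneg_right s5 (mul_nonneg hq (Real.rpow_nonneg hXp.le _))
    _ = X ^ (e + ε) := by
        rw [← Real.rpow_add hXp, ← Real.rpow_add hXp]
        congr 1; ring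

/-- **both orders** -/
theorem PG_pmb {h : ℝ → ℝ} {c₁ : ℝ} (hpu : PU h c₁) {π : Λ → DPar} (hP : ∀ lam, (π lam).OK)
    {d : ℝ} (hd : 0 ≤ d) (hd8 : d ≤ 1 / 8) (HR : RFb d π h)
    (HR' : RFb d (fun lam => cjD (π lam)) h) {κ b y₁ y₂ y₃ m a : ℝ} (hκ : 0 ≤ κ) (hb : 0 ≤ b)
    (h1 : 0 ≤ y₁) (h2 : 0 ≤ y₂) (h3 : 0 ≤ y₃) (hm : 0 ≤ m) (ha : 0 ≤ a) :
    PG π h κ b [y₁, y₂, y₃] (wt m a) (pmb d b κ y₁ y₂ y₃ m a) := by
  rcases le_total b κ with h | h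
  · rw [← pm1_eq h]
    exact PG_direct hpu hP hd hd8 HR hb h h1 h2 h3 hm ha
  · rw [← pm1_eq' h]
    exact PG_swap hpu hP hκ
      (PG_direct hpu (fun lam => cjD_ok (hP lam)) hd hd8 HR' hκ h h1 h2 h3 hm ha)

end Crest.Agent.R017.PM320
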