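import Crest.Agent.R017.P1Hk_440
import Crest.Agent.R017.FNEr_708
import Crest.Agent.R017.PM2_320
import Crest.Agent.R017.RM3a_986

/-!
# Row 17, R8: the real side of E2 for `P1`, the lines (helper440)

* `coreP`, `coreC` : the polar line and the cube column (linear cores)
* `lineA`, `lineP` : (R2) and the polar line, homogeneous, with slack
-/

set_option autoImplicit false
set_option linter.unusedVariables false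

noncomputable section

namespace Crest.Agent.R017.P1Hl440

open Crest.Agent.R017.P1R2u176 (pmb pmb_le)
open Crest.Agent.R017.P1F904 (Dp)

set_option maxHeartbeats 32000000 in
/-- the linear core of the polar line, homogeneous -/
lemma coreP {κ y₃ y₄ u x d p d₀ A e v b n w T Λ : ℝ} (κ0 : 0 < κ) (u4 : u ≤ y₄)
    (y43 : y₄ ≤ y₃) (u0 : 11 / 50 * κ ≤ u) (hy3 : y₃ + x ≤ 29 / 100 * κ)
    (N1 : y₃ + y₄ + u ≤ 102 / 125 * κ)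
    (near : 99 / 100 * κ ≤ y₃ + y₄ + 2 * u) (x0 : 0 ≤ x)
    (adm : (8 * x ≤ d ∧ (x = 0 ∨ y₃ + y₄ + u + x ≤ 4 / 5 * κ)) ∨
      (3 / 4 * κ ≤ y₃ + y₄ + u ∧ x + 2 * d ≤ 1 / 36 * κ ∧
        x + 7 / 10 * (y₃ + y₄ + u) ≤ 199 / 360 * κ))
    (d0 : 0 ≤ d) (d1 : d ≤ 1 / 40 * κ)
    (p0 : 1 / 2 * κ - 2 * x ≤ p + 1 / 40000 * κ) (pn : p ≤ y₃ + y₄ + u + x + 1 / 40000 * κ)
    (A0 : 0 ≤ A) (A1 : A ≤ d₀) (e0 : 0 ≤ e) (e1 : e ≤ 1 / 64 * κ + 1 / 40000 * κ)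
    (v0 : 0 ≤ v) (hv1 : v + 2 * d₀ ≤ 2 * (y₃ + y₄ + u) - κ + 3 * x + 1 / 40000 * κ)
    (hv2 : v + 2 * d₀ ≤ 3 / 4 * (y₃ + y₄ + u) + 3 * x + 1 / 40000 * κ) (b0 : 0 ≤ b)
    (hΛ0 : 0 ≤ Λ) (hΛ1 : (5 / 4 * (y₃ + y₄ + u) - κ) / 3 ≤ Λ + 1 / 40000 * κ)
    (dom : 2 * κ ≤ v + p + 3 * (e + A) - d₀ + 3 * b + 1 / 20000 * κ)
    (n0 : 0 ≤ n) (w0 : 0 ≤ w) (n1 : n ≤ p - d₀ - b + 1 / 40000 * κ)
    (w1 : w ≤ x + 1 / 40000 * κ)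
    (hT1 : T ≤ 1 / 20000 * κ + d₀ + 2 / 3 * κ - v / 3 - (p - d₀) / 3 + 2 * (p - d₀ - e) ∨
      T ≤ 1 / 20000 * κ + d₀ + 2 / 3 * κ - v / 3 - (p - d₀) / 3 +
        (4 / 3 * (p - d₀ - e) + (κ + e / 2 + (v + e)) / 3) ∨
      T ≤ 1 / 20000 * κ + d₀ + 2 / 3 * κ - v / 3 - (p - d₀) / 3 +
        (4 / 3 * (p - d₀ - e) + (5 / 4 * (y₃ + y₄ + u) + e / 2 + (v + e)) / 3) ∨
      T ≤ 1 / 20000 * κ + d₀ + 2 / 3 * κ - v / 3 - (p - d₀) / 3 +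
        (4 / 3 * (p - d₀ - e) + (3 / 2 * (v + e) + (v + e)) / 3))
    (hT2 : T ≤ 1 / 20000 * κ + d₀ + 2 / 3 * κ - v / 3 - (p - d₀) / 3 +
        (v + e + 4 / 3 * (p - d₀ - e) + x) ∨
      T ≤ 1 / 20000 * κ + d₀ + 2 / 3 * κ - v / 3 - (p - d₀) / 3 +
        (5 / 3 * (p - d₀ - e) + (v + e) / 3 + x))
    (hV : 2 * (κ + p + 3 * Λ) - T - 2 / 3 * κ + v / 3 - d₀ + e + 2 * A + 4 / 3 * b +
        (p - d₀ - b) / 3 < v + 3 * (e + A) + b + 4 / 3 * n + 2 / 3 * w + 1 / 20 * κ ∨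
      2 * (κ + p + 3 * Λ) - T - 2 / 3 * κ + v / 3 - d₀ + e + 2 * A + 4 / 3 * b +
        (p - d₀ - b) / 3 < 5 / 3 * n + (v + 3 * (e + A) + b) / 3 + 1 / 20 * κ) : False := by
  rcases adm with ⟨a0, rfl | a1⟩ | ⟨a1, a2, a3⟩ <;>
  rcases hT1 with hT1 | hT1 | hT1 | hT1 <;> rcases hT2 with hT2 | hT2 <;>
  rcases hV with hV | hV <;> linarith


set_option maxHeartbeats 64000000 in
/-- the cube column, homogeneous -/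
lemma coreC {κ y₃ y₄ u x d p d₀ ν A e v b g g₂ i ms z₁ z₂ z₃ x' W T Λ : ℝ} (κ0 : 0 < κ) (u4 : u ≤ y₄)
    (y43 : y₄ ≤ y₃) (u0 : 11 / 50 * κ ≤ u) (hy3 : y₃ + x ≤ 29 / 100 * κ) (N1 : y₃ + y₄ + u ≤ 102 / 125 * κ)
    (near : 99 / 100 * κ ≤ y₃ + y₄ + 2 * u) (x0 : 0 ≤ x)
    (adm : (8 * x ≤ d ∧ (x = 0 ∨ y₃ + y₄ + u + x ≤ 4 / 5 * κ)) ∨
      (3 / 4 * κ ≤ y₃ + y₄ + u ∧ x + 2 * d ≤ 1 / 36 * κ ∧ x + 7 / 10 * (y₃ + y₄ + u) ≤ 199 / 360 * κ))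
    (d0 : 0 ≤ d) (d1 : d ≤ 1 / 40 * κ)
    (p0 : 1 / 2 * κ - 2 * x ≤ p + 1 / 40000 * κ) (pn : p ≤ y₃ + y₄ + u + x + 1 / 40000 * κ)
    (n0 : 0 ≤ ν) (A0 : 0 ≤ A) (A1 : A ≤ d₀) (e0 : 0 ≤ e) (e1 : e ≤ 1 / 64 * κ + 1 / 40000 * κ)
    (v0 : 0 ≤ v) (hv1 : v + 2 * (d₀ + ν) ≤ 2 * (y₃ + y₄ + u) - κ + 3 * x + 1 / 40000 * κ)
    (hv2 : v + 2 * (d₀ + ν) ≤ 3 / 4 * (y₃ + y₄ + u) + 3 * x + 1 / 40000 * κ) (b0 : 0 ≤ b)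
    (hΛ0 : 0 ≤ Λ) (hΛ1 : (5 / 4 * (y₃ + y₄ + u) - κ) / 3 ≤ Λ + 1 / 40000 * κ)
    (g0 : 0 ≤ g) (i0 : 0 ≤ i) (s0 : 0 ≤ ms)
    (i1 : i ≤ v + p - κ + 2 * (e + A) + 2 * ν - d₀ + b + 1 / 40000 * κ)
    (i2 : i ≤ κ - (e + A) - 2 * b + 1 / 40000 * κ)
    (z10 : 0 ≤ z₁) (z20 : 0 ≤ z₂) (z30 : 0 ≤ z₃) (x0' : 0 ≤ x') (z1 : z₁ ≤ y₃ + 1 / 40000 * κ)
    (z2 : z₂ ≤ y₄ + 1 / 40000 * κ) (z3 : z₃ ≤ u + 1 / 40000 * κ) (x1' : x' ≤ x + 1 / 40000 * κ)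
    (tot : z₁ + z₂ + z₃ + x' + (d₀ + b + g + ms) ≤ p + 1 / 40000 * κ) (h0 : 0 ≤ g₂) (hg : g₂ ≤ g)
    (gi : 2 * g₂ ≤ i + e + A + 1 / 40000 * κ)
    (hT1 : T ≤ 1 / 20000 * κ + (d₀ + ν) + 2 / 3 * κ - v / 3 - (p - (d₀ + ν)) / 3 + 2 * (p - (d₀ + ν) - e) ∨
      T ≤ 1 / 20000 * κ + (d₀ + ν) + 2 / 3 * κ - v / 3 - (p - (d₀ + ν)) / 3 +
        (4 / 3 * (p - (d₀ + ν) - e) + (κ + e / 2 + (v + e)) / 3) ∨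
      T ≤ 1 / 20000 * κ + (d₀ + ν) + 2 / 3 * κ - v / 3 - (p - (d₀ + ν)) / 3 +
        (4 / 3 * (p - (d₀ + ν) - e) + (5 / 4 * (y₃ + y₄ + u) + e / 2 + (v + e)) / 3) ∨
      T ≤ 1 / 20000 * κ + (d₀ + ν) + 2 / 3 * κ - v / 3 - (p - (d₀ + ν)) / 3 +
        (4 / 3 * (p - (d₀ + ν) - e) + (3 / 2 * (v + e) + (v + e)) / 3))
    (hT2 : T ≤ 1 / 20000 * κ + (d₀ + ν) + 2 / 3 * κ - v / 3 - (p - (d₀ + ν)) / 3 +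
        (v + e + 4 / 3 * (p - (d₀ + ν) - e) + x) ∨
      T ≤ 1 / 20000 * κ + (d₀ + ν) + 2 / 3 * κ - v / 3 - (p - (d₀ + ν)) / 3 +
        (5 / 3 * (p - (d₀ + ν) - e) + (v + e) / 3 + x))
    (hm : 2 * (κ + p + 3 * Λ) - T < d₀ + ν - A + (W - i) + ms +
      ((e + A + i + 2 * b) / 3 + 2 * x') + 1 / 400 * κ)
    (hW : W ≤ v + e + A + g + ν ∨ W ≤ i + g ∨ W ≤ 2 / 3 * (v + e + A + i) + g) :
    False := by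
  rcases adm with ⟨a0, rfl | a1⟩ | ⟨a1, a2, a3⟩ <;>
  rcases hT1 with hT1 | hT1 | hT1 | hT1 <;> rcases hT2 with hT2 | hT2 <;>
  rcases hW with hW | hW | hW <;> linarith

open Crest.Agent.R017.P1R904 (l3)
open Crest.Agent.R017.P1Hk440

/-- the two T-forms -/
structure TFm (κ N x p D e v T : ℝ) : Prop where
  t1 : T ≤ 1 / 20000 * κ + D + 2 / 3 * κ - v / 3 - (p - D) / 3 + 2 * (p - D - e) ∨
      T ≤ 1 / 20000 * κ + D + 2 / 3 * κ - v / 3 - (p - D) / 3 +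
        (4 / 3 * (p - D - e) + (κ + e / 2 + (v + e)) / 3) ∨
      T ≤ 1 / 20000 * κ + D + 2 / 3 * κ - v / 3 - (p - D) / 3 +
        (4 / 3 * (p - D - e) + (5 / 4 * N + e / 2 + (v + e)) / 3) ∨
      T ≤ 1 / 20000 * κ + D + 2 / 3 * κ - v / 3 - (p - D) / 3 +
        (4 / 3 * (p - D - e) + (3 / 2 * (v + e) + (v + e)) / 3)
  t2 : T ≤ 1 / 20000 * κ + D + 2 / 3 * κ - v / 3 - (p - D) / 3 +
        (v + e + 4 / 3 * (p - D - e) + x) ∨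
      T ≤ 1 / 20000 * κ + D + 2 / 3 * κ - v / 3 - (p - D) / 3 +
        (5 / 3 * (p - D - e) + (v + e) / 3 + x)

/-- the parent and the block: common hypotheses (family `κ`) -/
structure Blk (κ y₃ y₄ u x d p D A e v Λ T : ℝ) : Prop where
  κ0 : 0 < κ
  dp : Dp (y₃ / κ) (y₄ / κ) (u / κ) (x / κ) d
  p0 : 1 / 2 * κ - 2 * x ≤ p + 1 / 40000 * κ
  pn : p ≤ y₃ + y₄ + u + x + 1 / 40000 * κ
  A0 : 0 ≤ A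
  e0 : 0 ≤ e
  e1 : e ≤ 1 / 64 * κ + 1 / 40000 * κ
  v0 : 0 ≤ v
  v1 : v + 2 * D ≤ 2 * (y₃ + y₄ + u) - κ + 3 * x + 1 / 40000 * κ
  v2 : v + 2 * D ≤ 3 / 4 * (y₃ + y₄ + u) + 3 * x + 1 / 40000 * κ
  Λ0 : 0 ≤ Λ
  Λ1 : (5 / 4 * (y₃ + y₄ + u) - κ) / 3 ≤ Λ + 1 / 40000 * κ
  T : TFm κ (y₃ + y₄ + u) x p D e v T

/-- the parent, homogeneous -/
lemma dp_hom {κ y₃ y₄ u x d : ℝ} (κ0 : 0 < κ) (h : Dp (y₃ / κ) (y₄ / κ) (u / κ) (x / κ) d) :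
    u ≤ y₄ ∧ y₄ ≤ y₃ ∧ 11 / 50 * κ ≤ u ∧ y₃ + x ≤ 29 / 100 * κ ∧
    y₃ + y₄ + u ≤ 102 / 125 * κ ∧ 99 / 100 * κ ≤ y₃ + y₄ + 2 * u ∧ 0 ≤ x ∧
    ((8 * x ≤ d * κ ∧ (x = 0 ∨ y₃ + y₄ + u + x ≤ 4 / 5 * κ)) ∨
      (3 / 4 * κ ≤ y₃ + y₄ + u ∧ x + 2 * (d * κ) ≤ 1 / 36 * κ ∧
        x + 7 / 10 * (y₃ + y₄ + u) ≤ 199 / 360 * κ)) ∧ 0 ≤ d * κ ∧ d * κ ≤ 1 / 40 * κ := by
  obtain ⟨u4, y43, u0, y3, N1, near, x0, adm, d0, d1⟩ := h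
  have e1 : y₃ = y₃ / κ * κ := by field_simp
  have e2 : y₄ = y₄ / κ * κ := by field_simp
  have e3 : u = u / κ * κ := by field_simp
  have e4 : x = x / κ * κ := by field_simp
  set a := y₃ / κ
  set b := y₄ / κ
  set c := u / κ
  set w := x / κ
  rw [e1, e2, e3, e4]
  refine ⟨?_, ?_, ?_, ?_, ?_, ?_, ?_, ?_, ?_, ?_⟩
  · nlinarith
  · nlinarith
  · nlinarith
  · nlinarith
  · nlinarith
  · nlinarith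
  · positivity
  · rcases adm with ⟨h1, h2 | h2⟩ | ⟨h1, h2, h3⟩
    · exact Or.inl ⟨by nlinarith, Or.inl (by rw [h2, zero_mul])⟩
    · exact Or.inl ⟨by nlinarith, Or.inr (by nlinarith)⟩
    · exact Or.inr ⟨by nlinarith, by nlinarith, by nlinarith⟩
  · positivity
  · nlinarith

/-- **(R2), homogeneous** -/
theorem lineA {κ y₃ y₄ u x d p d₀ ν A e v b g i β i' I₀ z₁ z₂ z₃ x' W T Λ ms : ℝ}
    (hB : Blk κ y₃ y₄ u x d p (d₀ + ν) A e v Λ T) (n0 : 0 ≤ ν) (A1 : A ≤ d₀)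
    (b0 : 0 ≤ b) (g0 : 0 ≤ g) (i0 : 0 ≤ i) (s0 : 0 ≤ ms)
    (i1 : i ≤ v + p - κ + 2 * (e + A) + 2 * ν - d₀ + b + 1 / 40000 * κ)
    (i2 : i ≤ κ - (e + A) - 2 * b + 1 / 40000 * κ)
    (z10 : 0 ≤ z₁) (z20 : 0 ≤ z₂) (z30 : 0 ≤ z₃) (x0' : 0 ≤ x') (z1 : z₁ ≤ y₃ + 1 / 40000 * κ)
    (z2 : z₂ ≤ y₄ + 1 / 40000 * κ) (z3 : z₃ ≤ u + 1 / 40000 * κ) (x1' : x' ≤ x + 1 / 40000 * κ)
    (tot : z₁ + z₂ + z₃ + x' + (d₀ + b + g + ms) ≤ p + 1 / 40000 * κ)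
    (gi : 2 * g ≤ i + e + A + 1 / 40000 * κ) (hβ : β ≤ b + g) (hi' : i' ≤ e + A + i - 2 * g)
    (hI0 : 0 ≤ I₀) (hI : I₀ ≤ e + A + i + 2 * b)
    (hW : W ≤ v + e + A + g + ν ∨ W ≤ i + g ∨ W ≤ 2 / 3 * (v + e + A + i) + g) :
    (d₀ + ν - A + (W - i) + ms + max (RM986.r3 d I₀ z₁ z₂ z₃ 0 x')
        (I₀ / 3 + 2 * x' + 2 * (7 / 8 + d) * 0) + 1 / 400 * κ ≤ 2 * (κ + p + 3 * Λ) - T) ∨
    (d₀ + ν - A + (W - i) + ms + PM320.pmb d β i' z₁ z₂ z₃ 0 x' + 1 / 400 * κ ≤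
      2 * (κ + p + 3 * Λ) - T) := by
  obtain ⟨κ0, hdp, p0, pn, A0, e0, e1, v0, v1, v2, Λ0, Λ1, ⟨t1, t2⟩⟩ := hB
  obtain ⟨u4, y43, u0, hy3, N1, near, x0, adm, dκ0, dκ1⟩ := dp_hom κ0 hdp
  have hd0 := hdp.d0
  have hd1 := hdp.d1
  by_contra hcon
  rw [not_or, not_le, not_le] at hcon
  obtain ⟨hm, hp⟩ := hcon
  -- the cube column
  have hcube : d₀ + ν - A + (W - i) + ms + (I₀ / 3 + 2 * x' + 2 * (7 / 8 + d) * 0) +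
      1 / 400 * κ ≤ 2 * (κ + p + 3 * Λ) - T := by
    by_contra hc
    rw [not_le] at hc
    exact coreC κ0 u4 y43 u0 hy3 N1 near x0 adm dκ0 dκ1 p0 pn n0 A0 A1 e0 e1 v0 v1 v2 b0 Λ0 Λ1 g0
      i0 s0 i1 i2 z10 z20 z30 x0' z1 z2 z3 x1' tot g0 le_rfl gi t1 t2
      (by rw [mul_zero, add_zero] at hc; linarith) hW
  have hm' : 2 * (κ + p + 3 * Λ) - T <
      d₀ + ν - A + (W - i) + ms + RM986.r3 d I₀ z₁ z₂ z₃ 0 x' + 1 / 400 * κ := by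
    rcases max_choice (RM986.r3 d I₀ z₁ z₂ z₃ 0 x') (I₀ / 3 + 2 * x' + 2 * (7 / 8 + d) * 0) with
      h | h
    · rwa [h] at hm
    · rw [h] at hm
      linarith
  set I := e + A + i + 2 * b with hIdef
  have hr1 := RM986.r3_le_P1 (d := d) (κ := I₀) (y₁ := z₁) (y₂ := z₂) (y₃ := z₃) (m := 0)
    (a := x') hI0 z10 z20 z30
  have k1 := min_le_right z₁ I₀
  have k2 := min_le_right z₂ I₀
  have k3 := min_le_right z₃ I₀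
  have j1 := min_le_left z₁ I₀
  have j2 := min_le_left z₂ I₀
  have j3 := min_le_left z₃ I₀
  obtain ⟨l1, l2, l3', l4, l5, l6⟩ := P1F904.l3_le I₀ (min z₁ I₀) (min z₂ I₀) (min z₃ I₀)
  have hl0 : 0 ≤ l3 I₀ (min z₁ I₀) (min z₂ I₀) (min z₃ I₀) :=
    P1F904.l3_nonneg (le_min z10 hI0) (le_min z20 hI0) (le_min z30 hI0) k1 k2 k3
  have hr2 : RM986.r3 d I₀ z₁ z₂ z₃ 0 x' ≤ I + (min z₁ I₀ + min z₂ I₀ + min z₃ I₀ + x') +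
      4 / 5 * (l3 I₀ (min z₁ I₀) (min z₂ I₀) (min z₃ I₀) + x') := by
    refine hr1.trans ?_
    unfold P1R904.r3
    rw [zero_add]
    have : (3 / 4 + 2 * d) * (l3 I₀ (min z₁ I₀) (min z₂ I₀) (min z₃ I₀) + x') ≤
        4 / 5 * (l3 I₀ (min z₁ I₀) (min z₂ I₀) (min z₃ I₀) + x') :=
      mul_le_mul_of_nonneg_right (by linarith) (by linarith)
    linarith
  have hp' := pmb_le (d := d) (b := b + g) (i := e + A + i - 2 * g) (z₁ := z₁) (z₂ := z₂)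
    (z₃ := z₃) (x' := x') hd0 hd1 z10 z20 z30
  have hpp : PM320.pmb d β i' z₁ z₂ z₃ 0 x' ≤ pmb d (b + g) (e + A + i - 2 * g) z₁ z₂ z₃ x' := by
    unfold PM320.pmb P1R2u176.pmb
    rw [zero_add]
    have a1 : min β i' ≤ min (b + g) (e + A + i - 2 * g) := min_le_min hβ hi'
    have a2 : max β i' ≤ max (b + g) (e + A + i - 2 * g) := max_le_max hβ hi'
    have a3 : min (min z₁ (min z₂ z₃)) (|i' - β| / 2) ≤ min z₁ (min z₂ z₃) := min_le_left _ _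
    have a4 : (3 / 4 + 2 * d) * min (min z₁ (min z₂ z₃)) (|i' - β| / 2) ≤
        (3 / 4 + 2 * d) * min z₁ (min z₂ z₃) := mul_le_mul_of_nonneg_left a3 (by linarith)
    refine max_le_max (max_le_max ?_ ?_) ?_ <;> linarith
  refine coreK κ0 u4 y43 u0 hy3 N1 near x0 adm dκ0 dκ1 p0 pn n0 A0 A1 e0 e1 v0 v1 v2 b0 Λ0 Λ1 g0
    i0 s0 i1 i2 z10 z20 z30 x0' z1 z2 z3 x1' tot g0 le_rfl gi (k1.trans hI) (k2.trans hI)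
    (k3.trans hI) j1 j2 j3 l1 (by linarith) l3' (by linarith) l5 (by linarith) t1 t2
    (L := l3 I₀ (min z₁ I₀) (min z₂ I₀) (min z₃ I₀)) (W := W) (by linarith) hW ?_
  rcases hp' with h | ⟨m, h1, h⟩ | ⟨m, h1, h⟩ | ⟨m, h1, h⟩
  · exact Or.inl (by linarith)
  · exact Or.inr (Or.inl ⟨m, h1, by linarith⟩)
  · exact Or.inr (Or.inr (Or.inl ⟨m, h1, by linarith⟩))
  · exact Or.inr (Or.inr (Or.inr ⟨m, h1, by linarith⟩))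

/-- **the polar line, homogeneous** -/
theorem lineP {κ y₃ y₄ u x d p D A e v b lv z₁ z₂ z₃ w T Λ : ℝ}
    (hB : Blk κ y₃ y₄ u x d p D A e v Λ T) (A1 : A ≤ D) (b0 : 0 ≤ b)
    (dom : 2 * κ ≤ v + p + 3 * (e + A) - D + 3 * b + 1 / 20000 * κ)
    (z10 : 0 ≤ z₁) (z20 : 0 ≤ z₂) (z30 : 0 ≤ z₃) (w0 : 0 ≤ w)
    (n1 : z₁ + z₂ + z₃ + w ≤ p - D - b + 1 / 40000 * κ) (w1 : w ≤ x + 1 / 40000 * κ)
    (hlv : lv ≤ v + 3 * (e + A) + b + 1 / 100 * κ) :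
    TM708.tAll d lv z₁ z₂ z₃ (0 + w) + 1 / 50 * κ ≤ 2 * (κ + p + 3 * Λ) - T - 2 / 3 * κ + v / 3 -
      D + e + 2 * A + 4 / 3 * b + (p - D - b) / 3 := by
  obtain ⟨κ0, hdp, p0, pn, A0, e0, e1, v0, v1, v2, Λ0, Λ1, ⟨t1, t2⟩⟩ := hB
  obtain ⟨u4, y43, u0, hy3, N1, near, x0, adm, dκ0, dκ1⟩ := dp_hom κ0 hdp
  have hx : (2 * (κ + p + 3 * Λ) - T - 2 / 3 * κ + v / 3 - D + e + 2 * A + 4 / 3 * b +
      (p - D - b) / 3) ≥ v + 3 * (e + A) + b + 4 / 3 * (z₁ + z₂ + z₃ + w) + 2 / 3 * w +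
        1 / 20 * κ ∧
      (2 * (κ + p + 3 * Λ) - T - 2 / 3 * κ + v / 3 - D + e + 2 * A + 4 / 3 * b +
      (p - D - b) / 3) ≥ 5 / 3 * (z₁ + z₂ + z₃ + w) + (v + 3 * (e + A) + b) / 3 + 1 / 20 * κ := by
    by_contra hc
    rw [not_and_or, not_le, not_le] at hc
    exact coreP κ0 u4 y43 u0 hy3 N1 near x0 adm dκ0 dκ1 p0 pn A0 A1 e0 e1 v0 v1 v2 b0 Λ0 Λ1 dom
      (n := z₁ + z₂ + z₃ + w) (by linarith) w0 n1 w1 t1 t2 hc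
  obtain ⟨h1, h2⟩ := hx
  have h3 : TM708.tAll d lv z₁ z₂ z₃ (0 + w) ≤ (2 * (κ + p + 3 * Λ) - T - 2 / 3 * κ + v / 3 -
      D + e + 2 * A + 4 / 3 * b + (p - D - b) / 3) - 1 / 50 * κ := by
    rw [zero_add]
    refine TM708.tAll_le_C (fun C hC0 hC3 => ?_) z10 z20 z30
    constructor <;> linarith
  linarith

end Crest.Agent.R017.P1Hl440
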