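import Crest.Agent.R017.P1H_440

/-!
# Row 17, R8: the real side of E2 for `P1` with slack (helper440)

* `coreS` : the linear core of (R2) with slack `1/20000`, the factor `nm n` included
-/

set_option autoImplicit false
set_option linter.unusedVariables false

noncomputable section

namespace Crest.Agent.R017.P1Hs440

open Crest.Agent.R017.P1R904
open Crest.Agent.R017.P1R2u176 (pmb pmb_le)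
open Crest.Agent.R017.P1F904
open Crest.Agent.R017.P1G904 (Ww Ww_le)
open Crest.Agent.R017.P1H440

set_option maxHeartbeats 64000000 in
/-- the linear core with slack -/
lemma coreS {y₃ y₄ u x d p d₀ ν A e v b g g₂ i ms z₁ z₂ z₃ x' W L T Λ m₁ m₂ m₃ : ℝ} (u4 : u ≤ y₄)
    (y43 : y₄ ≤ y₃) (u0 : 11 / 50 ≤ u) (hy3 : y₃ + x ≤ 29 / 100) (N1 : y₃ + y₄ + u ≤ 102 / 125)
    (near : 99 / 100 ≤ y₃ + y₄ + 2 * u) (x0 : 0 ≤ x)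
    (adm : (8 * x ≤ d ∧ (x = 0 ∨ y₃ + y₄ + u + x ≤ 4 / 5)) ∨
      (3 / 4 ≤ y₃ + y₄ + u ∧ x + 2 * d ≤ 1 / 36 ∧ x + 7 / 10 * (y₃ + y₄ + u) ≤ 199 / 360))
    (d0 : 0 ≤ d) (d1 : d ≤ 1 / 40)
    (p0 : 1 / 2 - 2 * x ≤ p + 1 / 40000) (pn : p ≤ y₃ + y₄ + u + x + 1 / 40000)
    (n0 : 0 ≤ ν) (A0 : 0 ≤ A) (A1 : A ≤ d₀) (e0 : 0 ≤ e) (e1 : e ≤ 1 / 64 + 1 / 40000)
    (v0 : 0 ≤ v) (hv1 : v + 2 * (d₀ + ν) ≤ 2 * (y₃ + y₄ + u) - 1 + 3 * x + 1 / 40000)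
    (hv2 : v + 2 * (d₀ + ν) ≤ 3 / 4 * (y₃ + y₄ + u) + 3 * x + 1 / 40000) (b0 : 0 ≤ b)
    (hΛ0 : 0 ≤ Λ) (hΛ1 : (5 / 4 * (y₃ + y₄ + u) - 1) / 3 ≤ Λ + 1 / 40000)
    (g0 : 0 ≤ g) (i0 : 0 ≤ i) (s0 : 0 ≤ ms)
    (i1 : i ≤ v + p - 1 + 2 * (e + A) + 2 * ν - d₀ + b + 1 / 40000)
    (i2 : i ≤ 1 - (e + A) - 2 * b + 1 / 40000)
    (z10 : 0 ≤ z₁) (z20 : 0 ≤ z₂) (z30 : 0 ≤ z₃) (x0' : 0 ≤ x') (z1 : z₁ ≤ y₃ + 1 / 40000)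
    (z2 : z₂ ≤ y₄ + 1 / 40000) (z3 : z₃ ≤ u + 1 / 40000) (x1' : x' ≤ x + 1 / 40000)
    (tot : z₁ + z₂ + z₃ + x' + (d₀ + b + g + ms) ≤ p + 1 / 40000) (h0 : 0 ≤ g₂) (hg : g₂ ≤ g)
    (gi : 2 * g₂ ≤ i + 1 / 40000)
    (k1 : m₁ ≤ e + A + i + 2 * b) (k2 : m₂ ≤ e + A + i + 2 * b) (k3 : m₃ ≤ e + A + i + 2 * b)
    (j1 : m₁ ≤ z₁) (j2 : m₂ ≤ z₂) (j3 : m₃ ≤ z₃)
    (l1 : L ≤ m₁) (l2 : L ≤ e + A + i + 2 * b - m₁) (l3 : L ≤ m₂)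
    (l4 : L ≤ e + A + i + 2 * b - m₂) (l5 : L ≤ m₃) (l6 : L ≤ e + A + i + 2 * b - m₃)
    (hT1 : T ≤ 1 / 20000 + (d₀ + ν) + 2 / 3 - v / 3 - (p - (d₀ + ν)) / 3 + 2 * (p - (d₀ + ν) - e) ∨
      T ≤ 1 / 20000 + (d₀ + ν) + 2 / 3 - v / 3 - (p - (d₀ + ν)) / 3 +
        (4 / 3 * (p - (d₀ + ν) - e) + (1 + (v + e)) / 3) ∨
      T ≤ 1 / 20000 + (d₀ + ν) + 2 / 3 - v / 3 - (p - (d₀ + ν)) / 3 +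
        (4 / 3 * (p - (d₀ + ν) - e) + (5 / 4 * (y₃ + y₄ + u) + (v + e)) / 3) ∨
      T ≤ 1 / 20000 + (d₀ + ν) + 2 / 3 - v / 3 - (p - (d₀ + ν)) / 3 +
        (4 / 3 * (p - (d₀ + ν) - e) + (3 / 2 * (v + e) + (v + e)) / 3))
    (hT2 : T ≤ 1 / 20000 + (d₀ + ν) + 2 / 3 - v / 3 - (p - (d₀ + ν)) / 3 +
        (v + e + 4 / 3 * (p - (d₀ + ν) - e) + x) ∨
      T ≤ 1 / 20000 + (d₀ + ν) + 2 / 3 - v / 3 - (p - (d₀ + ν)) / 3 +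
        (5 / 3 * (p - (d₀ + ν) - e) + (v + e) / 3 + x))
    (hm : 2 * (1 + p + 3 * Λ) - T < d₀ + ν - A + (W - i) + ms +
      (e + A + i + 2 * b + (m₁ + m₂ + m₃ + x') + 4 / 5 * (L + x')) + 1 / 400)
    (hW : W ≤ v + e + A + g + ν ∨ W ≤ i + g ∨ W ≤ 2 / 3 * (v + e + A + i) + g)
    (hp : 2 * (1 + p + 3 * Λ) - T < d₀ + ν - A + (W - i) + ms +
        ((e + A + i - 2 * g₂) + (b + g₂) + (z₁ + z₂ + z₃ + x')) + 1 / 400 ∨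
      (∃ m, (m ≤ b + g₂ ∧ m ≤ e + A + i - 2 * g₂) ∧
        2 * (1 + p + 3 * Λ) - T < d₀ + ν - A + (W - i) + ms +
          (2 * (z₁ + z₂ + z₃ + x') + m) + 1 / 400) ∨
      (∃ L', (L' ≤ z₁ ∧ L' ≤ z₂ ∧ L' ≤ z₃) ∧
        2 * (1 + p + 3 * Λ) - T < d₀ + ν - A + (W - i) + ms +
          (b + g₂ + (z₁ + z₂ + z₃ + x') + 4 / 5 * L' + x') + 1 / 400) ∨
      (∃ L', (L' ≤ z₁ ∧ L' ≤ z₂ ∧ L' ≤ z₃) ∧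
        2 * (1 + p + 3 * Λ) - T < d₀ + ν - A + (W - i) + ms +
          (e + A + i - 2 * g₂ + (z₁ + z₂ + z₃ + x') + 4 / 5 * L' + x') + 1 / 400)) :
    False := by
  rcases adm with ⟨a0, rfl | a1⟩ | ⟨a1, a2, a3⟩ <;>
  rcases hT1 with hT1 | hT1 | hT1 | hT1 <;> rcases hT2 with hT2 | hT2 <;>
  rcases hp with hp | ⟨m, ⟨n1, n2⟩, hp⟩ | ⟨m, ⟨n1, n2, n3⟩, hp⟩ | ⟨m, ⟨n1, n2, n3⟩, hp⟩ <;>
  rcases hW with hW | hW | hW <;> linarith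


end Crest.Agent.R017.P1Hs440
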