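import Crest.Agent.R017.P1H_440

/-!
# Row 17, R8: the cross term of `P1` at the families `K e^{-η}`, all cells (helper176)

`R2Ht` : helper440's `R2H` with the family `K' = 1 - 3 τ`, `0 ≤ τ ≤ 7/300` (`η = 3 τ ≤ 7/100`);
`Th - 2 τ` is the `T`-side at `K'`, so this is `((T-side at K') + R-side) / 2 + τ ≤ Tg`
(helper960's two-scale form of the cross term, class E). `r2Ht` : proof
-/

set_option autoImplicit false
set_option linter.unusedVariables false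

noncomputable section

namespace Crest.Agent.R017.P1Ht176

open Crest.Agent.R017.P1R904
open Crest.Agent.R017.P1R2u176 (pmb pmb_le)
open Crest.Agent.R017.P1F904
open Crest.Agent.R017.P1G904 (Ww Ww_le)
open Crest.Agent.R017.P1H440 (Th Tg Th_le1 Th_le2)

/-- **(R2)** for all cells at the family `1 - 3 τ` -/
def R2Ht : Prop := ∀ y₃ y₄ u x d τ p d₀ ν A e v b g g₂ i ms z₁ z₂ z₃ x' : ℝ, Dp y₃ y₄ u x d →
  0 ≤ τ → τ ≤ 7 / 300 →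
  1 / 2 - 2 * x ≤ p → p ≤ y₃ + y₄ + u + x → 0 ≤ ν → 0 ≤ A → A ≤ d₀ → 0 ≤ e → e ≤ 1 / 64 →
  0 ≤ v → v + 2 * (d₀ + ν) ≤ vS (y₃ + y₄ + u) x → 0 ≤ b → 0 ≤ g → 0 ≤ i → 0 ≤ ms →
  i ≤ v + p - 1 + 3 * τ + 2 * (e + A) + 2 * ν - d₀ + b → i ≤ 1 - 3 * τ - (e + A) - 2 * b →
  ChP y₃ y₄ u x p (d₀ + b + g + ms) z₁ z₂ z₃ x' → 0 ≤ g₂ → g₂ ≤ g → 2 * g₂ ≤ i →
  (d₀ + ν - A + (Ww (v + e + A) i g - i) + ms +
      r3 d (e + A + i + 2 * b) (min z₁ (e + A + i + 2 * b)) (min z₂ (e + A + i + 2 * b))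
        (min z₃ (e + A + i + 2 * b)) x' + 1 / 500 ≤
      2 * Tg (y₃ + y₄ + u) p - Th (y₃ + y₄ + u) x p (d₀ + ν) e v) ∨
    (d₀ + ν - A + (Ww (v + e + A) i g - i) + ms +
      pmb d (b + g₂) (e + A + i - 2 * g₂) z₁ z₂ z₃ x' + 1 / 500 ≤
      2 * Tg (y₃ + y₄ + u) p - Th (y₃ + y₄ + u) x p (d₀ + ν) e v)

set_option maxHeartbeats 8000000 in
/-- the linear core -/
lemma core {y₃ y₄ u x d p v e A d₀ ν ms b g g₂ i z₁ z₂ z₃ x' W L F Λ m₁ m₂ m₃ τ : ℝ}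
    (u4 : u ≤ y₄) (y43 : y₄ ≤ y₃) (u0 : 11 / 50 ≤ u) (hy3 : y₃ + x ≤ 29 / 100)
    (N1 : y₃ + y₄ + u ≤ 102 / 125) (near : 99 / 100 ≤ y₃ + y₄ + 2 * u) (x0 : 0 ≤ x)
    (adm : (8 * x ≤ d ∧ x = 0) ∨ (8 * x ≤ d ∧ y₃ + y₄ + u + x ≤ 4 / 5) ∨
      (3 / 4 ≤ y₃ + y₄ + u ∧ x + 2 * d ≤ 1 / 36 ∧ x + 7 / 10 * (y₃ + y₄ + u) ≤ 199 / 360))
    (dd0 : 0 ≤ d) (dd1 : d ≤ 1 / 40) (t0 : 0 ≤ τ) (t1 : τ ≤ 7 / 300)
    (p0 : 1 / 2 - 2 * x ≤ p) (pn : p ≤ y₃ + y₄ + u + x)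
    (v0 : 0 ≤ v) (k0 : 0 ≤ d₀) (kν : 0 ≤ ν)
    (hv1 : v + 2 * (d₀ + ν) ≤ 2 * (y₃ + y₄ + u) - 1 + 3 * x)
    (hv2 : v + 2 * (d₀ + ν) ≤ 3 / 4 * (y₃ + y₄ + u) + 3 * x) (e0 : 0 ≤ e) (e1 : e ≤ 1 / 64)
    (A0 : 0 ≤ A) (A1 : A ≤ d₀) (ms0 : 0 ≤ ms) (b0 : 0 ≤ b)
    (hΛ0 : 0 ≤ Λ) (hΛ1 : 5 / 4 * (y₃ + y₄ + u) - 1 ≤ Λ)
    (g0 : 0 ≤ g) (i0 : 0 ≤ i) (i1 : i ≤ v + p - 1 + 3 * τ + 2 * (e + A) + 2 * ν - d₀ + b)
    (i2 : i ≤ 1 - 3 * τ - (e + A) - 2 * b)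
    (z10 : 0 ≤ z₁) (z20 : 0 ≤ z₂) (z30 : 0 ≤ z₃) (x0' : 0 ≤ x') (z1 : z₁ ≤ y₃) (z2 : z₂ ≤ y₄)
    (z3 : z₃ ≤ u) (x1' : x' ≤ x)
    (tot : z₁ + z₂ + z₃ + x' + (d₀ + b + g + ms) ≤ p) (h0 : 0 ≤ g₂) (hg : g₂ ≤ g)
    (gi : 2 * g₂ ≤ i)
    (k1 : m₁ ≤ e + A + i + 2 * b) (k2 : m₂ ≤ e + A + i + 2 * b) (k3 : m₃ ≤ e + A + i + 2 * b)
    (j1 : m₁ ≤ z₁) (j2 : m₂ ≤ z₂) (j3 : m₃ ≤ z₃)
    (l1 : L ≤ m₁) (l2 : L ≤ e + A + i + 2 * b - m₁) (l3 : L ≤ m₂)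
    (l4 : L ≤ e + A + i + 2 * b - m₂) (l5 : L ≤ m₃) (l6 : L ≤ e + A + i + 2 * b - m₃)
    (hF1 : F ≤ 2 * (p - (d₀ + ν) - e) ∨ F ≤ 4 / 3 * (p - (d₀ + ν) - e) + (1 + (v + e)) / 3 ∨
      F ≤ 4 / 3 * (p - (d₀ + ν) - e) + (5 / 4 * (y₃ + y₄ + u) + (v + e)) / 3 ∨
      F ≤ 4 / 3 * (p - (d₀ + ν) - e) + 5 / 6 * (v + e))
    (hF2 : F ≤ v + e + 4 / 3 * (p - (d₀ + ν) - e) + x ∨
      F ≤ 5 / 3 * (p - (d₀ + ν) - e) + (v + e) / 3 + x)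
    (hm : 2 * (1 + p + Λ) < d₀ + ν + 2 / 3 - v / 3 - (p - (d₀ + ν)) / 3 + F +
      (d₀ + ν - A + (W - i + ms + (e + A + i + 2 * b + (m₁ + m₂ + m₃ + x') +
        4 / 5 * (L + x')))) + 1 / 500)
    (hW : W ≤ v + e + A + g ∨ W ≤ i + g ∨ W ≤ 2 / 3 * (v + e + A + i) + g)
    (hp : 2 * (1 + p + Λ) < d₀ + ν + 2 / 3 - v / 3 - (p - (d₀ + ν)) / 3 + F +
        (d₀ + ν - A + (W - i + ms + ((e + A + i - 2 * g₂) + (b + g₂) +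
          (z₁ + z₂ + z₃ + x')))) + 1 / 500 ∨
      (∃ m, (m ≤ b + g₂ ∧ m ≤ e + A + i - 2 * g₂) ∧
        2 * (1 + p + Λ) < d₀ + ν + 2 / 3 - v / 3 - (p - (d₀ + ν)) / 3 + F +
        (d₀ + ν - A + (W - i + ms + (2 * (z₁ + z₂ + z₃ + x') + m))) + 1 / 500) ∨
      (∃ m, (m ≤ z₁ ∧ m ≤ z₂ ∧ m ≤ z₃) ∧
        2 * (1 + p + Λ) < d₀ + ν + 2 / 3 - v / 3 - (p - (d₀ + ν)) / 3 + F +
        (d₀ + ν - A + (W - i + ms + (b + g₂ + (z₁ + z₂ + z₃ + x') + 4 / 5 * m + x'))) +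
          1 / 500) ∨
      (∃ m, (m ≤ z₁ ∧ m ≤ z₂ ∧ m ≤ z₃) ∧
        2 * (1 + p + Λ) < d₀ + ν + 2 / 3 - v / 3 - (p - (d₀ + ν)) / 3 + F +
        (d₀ + ν - A + (W - i + ms + (e + A + i - 2 * g₂ + (z₁ + z₂ + z₃ + x') + 4 / 5 * m +
          x'))) + 1 / 500)) :
    False := by
  rcases hW with hW | hW | hW
  · rcases hF2 with h2 | h2
    · rcases hp with hp | ⟨m, ⟨n1, n2⟩, hp⟩ | ⟨m, ⟨n1, n2, n3⟩, hp⟩ | ⟨m, ⟨n1, n2, n3⟩, hp⟩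
      · linarith
      · rcases adm with ⟨a0, rfl⟩ | ⟨a0, a1⟩ | ⟨a1, a2, a3⟩
        · rcases hF1 with h1 | h1 | h1 | h1
          · linarith
          · linarith
          · linarith
          · linarith
        · rcases hF1 with h1 | h1 | h1 | h1
          · linarith
          · linarith
          · linarith
          · linarith
        · rcases hF1 with h1 | h1 | h1 | h1
          · linarith
          · linarith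
          · linarith
          · linarith
      · rcases adm with ⟨a0, rfl⟩ | ⟨a0, a1⟩ | ⟨a1, a2, a3⟩
        · linarith
        · linarith
        · linarith
      · rcases adm with ⟨a0, rfl⟩ | ⟨a0, a1⟩ | ⟨a1, a2, a3⟩
        · linarith
        · linarith
        · linarith
    · rcases hp with hp | ⟨m, ⟨n1, n2⟩, hp⟩ | ⟨m, ⟨n1, n2, n3⟩, hp⟩ | ⟨m, ⟨n1, n2, n3⟩, hp⟩
      · linarith
      · rcases adm with ⟨a0, rfl⟩ | ⟨a0, a1⟩ | ⟨a1, a2, a3⟩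
        · linarith
        · linarith
        · linarith
      · linarith
      · linarith
  · rcases hF2 with h2 | h2
    · rcases hp with hp | ⟨m, ⟨n1, n2⟩, hp⟩ | ⟨m, ⟨n1, n2, n3⟩, hp⟩ | ⟨m, ⟨n1, n2, n3⟩, hp⟩
      · linarith
      · linarith
      · linarith
      · linarith
    · rcases hp with hp | ⟨m, ⟨n1, n2⟩, hp⟩ | ⟨m, ⟨n1, n2, n3⟩, hp⟩ | ⟨m, ⟨n1, n2, n3⟩, hp⟩
      · linarith
      · rcases adm with ⟨a0, rfl⟩ | ⟨a0, a1⟩ | ⟨a1, a2, a3⟩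
        · linarith
        · linarith
        · linarith
      · linarith
      · rcases adm with ⟨a0, rfl⟩ | ⟨a0, a1⟩ | ⟨a1, a2, a3⟩
        · linarith
        · linarith
        · linarith
  · rcases hF2 with h2 | h2
    · rcases hp with hp | ⟨m, ⟨n1, n2⟩, hp⟩ | ⟨m, ⟨n1, n2, n3⟩, hp⟩ | ⟨m, ⟨n1, n2, n3⟩, hp⟩
      · rcases adm with ⟨a0, rfl⟩ | ⟨a0, a1⟩ | ⟨a1, a2, a3⟩
        · linarith
        · linarith
        · linarith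
      · rcases adm with ⟨a0, rfl⟩ | ⟨a0, a1⟩ | ⟨a1, a2, a3⟩
        · rcases hF1 with h1 | h1 | h1 | h1
          · linarith
          · linarith
          · linarith
          · linarith
        · rcases hF1 with h1 | h1 | h1 | h1
          · linarith
          · linarith
          · linarith
          · linarith
        · rcases hF1 with h1 | h1 | h1 | h1
          · linarith
          · linarith
          · linarith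
          · linarith
      · linarith
      · rcases adm with ⟨a0, rfl⟩ | ⟨a0, a1⟩ | ⟨a1, a2, a3⟩
        · rcases hF1 with h1 | h1 | h1 | h1
          · linarith
          · linarith
          · linarith
          · linarith
        · rcases hF1 with h1 | h1 | h1 | h1
          · linarith
          · linarith
          · linarith
          · linarith
        · rcases hF1 with h1 | h1 | h1 | h1
          · linarith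
          · linarith
          · linarith
          · linarith
    · rcases hp with hp | ⟨m, ⟨n1, n2⟩, hp⟩ | ⟨m, ⟨n1, n2, n3⟩, hp⟩ | ⟨m, ⟨n1, n2, n3⟩, hp⟩
      · linarith
      · rcases adm with ⟨a0, rfl⟩ | ⟨a0, a1⟩ | ⟨a1, a2, a3⟩
        · linarith
        · linarith
        · linarith
      · linarith
      · rcases adm with ⟨a0, rfl⟩ | ⟨a0, a1⟩ | ⟨a1, a2, a3⟩
        · linarith
        · linarith
        · linarith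

/-- **(R2)** for all cells at the family `1 - 3 τ` -/
theorem r2Ht : R2Ht := by
  intro y₃ y₄ u x d τ p d₀ ν A e v b g g₂ i ms z₁ z₂ z₃ x' hD t0 t1 p0 pn kν A0 A1 e0 e1 v0 hv b0 g0
    i0 ms0 i1 i2 hc h0 hg gi
  obtain ⟨u4, y43, u0, hy3, N1, near, hx0, adm, d0, d1⟩ := hD
  obtain ⟨z10, z20, z30, x0', z1, z2, z3, x1', tot⟩ := hc
  obtain ⟨hv1, hv2⟩ := vS_le hv
  have hF1 := Th_le1 (y₃ + y₄ + u) x p (d₀ + ν) e v
  have hF2 := Th_le2 (y₃ + y₄ + u) x p (d₀ + ν) e v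
  generalize Th (y₃ + y₄ + u) x p (d₀ + ν) e v = T at hF1 hF2 ⊢
  obtain ⟨F, rfl⟩ : ∃ F, T = d₀ + ν + 2 / 3 - v / 3 - (p - (d₀ + ν)) / 3 + F :=
    ⟨T - (d₀ + ν + 2 / 3 - v / 3 - (p - (d₀ + ν)) / 3), by ring⟩
  unfold P1H440.Tg
  obtain ⟨hΛ0', hΛ1'⟩ := L0_ge (y₃ + y₄ + u)
  obtain ⟨Λ, hΛ⟩ : ∃ Λ, Λ = 3 * L0 (y₃ + y₄ + u) := ⟨_, rfl⟩
  have hΛ0 : 0 ≤ Λ := by rw [hΛ]; linarith
  have hΛ1 : 5 / 4 * (y₃ + y₄ + u) - 1 ≤ Λ := by rw [hΛ]; linarith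
  rw [← hΛ]
  by_contra hcon
  rw [not_or, not_le, not_le] at hcon
  obtain ⟨hm, hp⟩ := hcon
  have k0 : 0 ≤ d₀ := A0.trans A1
  have hI : 0 ≤ e + A + i + 2 * b := by linarith
  have k1 := min_le_right z₁ (e + A + i + 2 * b)
  have k2 := min_le_right z₂ (e + A + i + 2 * b)
  have k3 := min_le_right z₃ (e + A + i + 2 * b)
  have j1 := min_le_left z₁ (e + A + i + 2 * b)
  have j2 := min_le_left z₂ (e + A + i + 2 * b)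
  have j3 := min_le_left z₃ (e + A + i + 2 * b)
  obtain ⟨l1, l2, l3', l4, l5, l6⟩ := l3_le (e + A + i + 2 * b) (min z₁ (e + A + i + 2 * b))
    (min z₂ (e + A + i + 2 * b)) (min z₃ (e + A + i + 2 * b))
  have hr := (r3_le (s := 0) d0 d1 (le_min z10 hI) (le_min z20 hI) (le_min z30 hI) x0' k1 k2 k3
    (by linarith)).1
  have adm' : (8 * x ≤ d ∧ x = 0) ∨ (8 * x ≤ d ∧ y₃ + y₄ + u + x ≤ 4 / 5) ∨
      (3 / 4 ≤ y₃ + y₄ + u ∧ x + 2 * d ≤ 1 / 36 ∧ x + 7 / 10 * (y₃ + y₄ + u) ≤ 199 / 360) := by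
    rcases adm with ⟨a0, a1 | a1⟩ | a
    · exact Or.inl ⟨a0, a1⟩
    · exact Or.inr (Or.inl ⟨a0, a1⟩)
    · exact Or.inr (Or.inr a)
  have hF1' : F ≤ 2 * (p - (d₀ + ν) - e) ∨ F ≤ 4 / 3 * (p - (d₀ + ν) - e) + (1 + (v + e)) / 3 ∨
      F ≤ 4 / 3 * (p - (d₀ + ν) - e) + (5 / 4 * (y₃ + y₄ + u) + (v + e)) / 3 ∨
      F ≤ 4 / 3 * (p - (d₀ + ν) - e) + 5 / 6 * (v + e) := by
    rcases hF1 with h | h | h | h
    · exact Or.inl (by linarith)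
    · exact Or.inr (Or.inl (by linarith))
    · exact Or.inr (Or.inr (Or.inl (by linarith)))
    · exact Or.inr (Or.inr (Or.inr (by linarith)))
  have hF2' : F ≤ v + e + 4 / 3 * (p - (d₀ + ν) - e) + x ∨
      F ≤ 5 / 3 * (p - (d₀ + ν) - e) + (v + e) / 3 + x := by
    rcases hF2 with h | h
    · exact Or.inl (by linarith)
    · exact Or.inr (by linarith)
  refine core u4 y43 u0 hy3 N1 near hx0 adm' d0 d1 t0 t1 p0 pn v0 k0 kν hv1 hv2 e0 e1 A0 A1 ms0 b0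
    hΛ0 hΛ1 g0 i0 i1 i2 z10 z20 z30 x0' z1 z2 z3 x1' tot h0 hg gi k1 k2 k3 j1 j2 j3 l1 l2 l3' l4 l5
    l6 hF1' hF2' (by linarith) (Ww_le (v + e + A) i g) ?_
  rcases pmb_le d0 d1 z10 z20 z30 (b := b + g₂) (i := e + A + i - 2 * g₂) (x' := x') with
    h | ⟨m, h1, h⟩ | ⟨m, h1, h⟩ | ⟨m, h1, h⟩
  · exact Or.inl (by linarith)
  · exact Or.inr (Or.inl ⟨m, h1, by linarith⟩)
  · exact Or.inr (Or.inr (Or.inl ⟨m, h1, by linarith⟩))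
  · exact Or.inr (Or.inr (Or.inr ⟨m, h1, by linarith⟩))

end Crest.Agent.R017.P1Ht176
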