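import Crest.Agent.R017.P1Q_904

/-!
# Row 17, E3 of `P1`: helper271's `H(d)`, the structured part (helper904)

`hJ` : the exponent of `H` for `δ ≤ k / 10`, without the `d`-term in the allowed loss; `coreJ`,
`coreJ2` : as `coreQ`, `coreQ2` of `P1Q_904` (allowed loss `LQ`).
-/

set_option autoImplicit false
set_option linter.unusedVariables false

noncomputable section

namespace Crest.Agent.R017.P1J904

open Crest.Agent.R017.RnP571 (Dh)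
open Crest.Agent.R017.P1Q904 (gQ gQ_cases LQ LQ_ge)

/-- the exponent of `H`, `N` = length of the parent -/
def hJ (N k p δ x : ℝ) : ℝ := max (k / 64) (4 / 3 * (p - δ) - k + x - 3 * max 0 (5 / 4 * N - k))

lemma hJ_cases (N k p δ x : ℝ) : (hJ N k p δ x ≤ k / 64 ∨
    (hJ N k p δ x ≤ 4 / 3 * (p - δ) - k + x ∧
      hJ N k p δ x ≤ 4 / 3 * (p - δ) - k + x - 3 * (5 / 4 * N - k))) := by
  unfold hJ
  have h1 := le_max_left 0 (5 / 4 * N - k)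
  have h2 := le_max_right 0 (5 / 4 * N - k)
  rcases max_choice (k / 64) (4 / 3 * (p - δ) - k + x - 3 * max 0 (5 / 4 * N - k)) with h | h
  · left; rw [h]
  · right; rw [h]; constructor <;> linarith

lemma hJ_ge (N k p δ x : ℝ) : k / 64 ≤ hJ N k p δ x ∧
    4 / 3 * (p - δ) - k + x - 3 * max 0 (5 / 4 * N - k) ≤ hJ N k p δ x :=
  ⟨le_max_left _ _, le_max_right _ _⟩

set_option maxHeartbeats 8000000 in
/-- **the structured part, second form** (`w = log (H V)`, `S` bounds `l + x'`) -/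
lemma coreJ {k y₃ y₄ u x D t p v w δ e i n x' S : ℝ} (hD : Dh k y₃ y₄ u x D) (t0 : 0 ≤ t)
    (t1 : t ≤ k / 20000) (p1 : p ≤ y₃ + y₄ + u + x + t)
    (v1 : v ≤ 2 * (y₃ + y₄ + u) - k + 3 * x + t) (v2 : v ≤ 3 / 4 * (y₃ + y₄ + u) + 3 * x + t)
    (hw : w ≤ v + hJ (y₃ + y₄ + u) k p δ x + t) (hL : 0 ≤ w + v - k - δ + t)
    (δ0 : 0 ≤ δ) (δ1 : δ ≤ k / 10 + t) (e0 : 0 ≤ e) (e1 : e ≤ k / 64 + t)
    (x0' : 0 ≤ x') (x1' : x' ≤ x + t) (hn : n ≤ p - δ - e + t) (i0 : 0 ≤ i)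
    (hi : i ≤ w + p - k + t) (s1 : S - x' ≤ u + t) (s2 : 3 * (S - x') ≤ n - x')
    (s3 : 2 * (S - x') ≤ i) :
    2 / 3 * k - w / 3 + 5 / 3 * δ + 2 * e + gQ (w + v - k - δ) (w + p - k) + 2 / 3 * (p - δ) +
      (i + 3 / 4 * S + 61 / 100 * D) + (w + p - k - i) / 3 + k / 200 ≤
      k + p + LQ (y₃ + y₄ + u) k D := by
  obtain ⟨L1, L2⟩ := LQ_ge (y₃ + y₄ + u) k D
  have hh := hJ_cases (y₃ + y₄ + u) k p δ x
  have hg := gQ_cases (w + v - k - δ) (w + p - k)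
  generalize LQ (y₃ + y₄ + u) k D = L at *
  generalize hJ (y₃ + y₄ + u) k p δ x = h at *
  generalize gQ (w + v - k - δ) (w + p - k) = g at *
  obtain ⟨k0, u4, y43, u0, y3, N1, near, x0, adm, d0, d1⟩ := hD
  rcases hg with rfl | rfl | rfl | rfl <;> rcases hh with hh | ⟨hh, hh2⟩ <;>
    rcases adm with ⟨a0, rfl | a1⟩ | ⟨a1, a2, a3⟩ <;> linarith

set_option maxHeartbeats 8000000 in
/-- the principal part -/
lemma coreJ2 {k y₃ y₄ u x D t p v w δ e x' : ℝ} (hD : Dh k y₃ y₄ u x D) (t0 : 0 ≤ t)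
    (t1 : t ≤ k / 20000) (p0 : k / 2 - 2 * x - t ≤ p) (p1 : p ≤ y₃ + y₄ + u + x + t)
    (v1 : v ≤ 2 * (y₃ + y₄ + u) - k + 3 * x + t) (v2 : v ≤ 3 / 4 * (y₃ + y₄ + u) + 3 * x + t)
    (hw : w ≤ v + hJ (y₃ + y₄ + u) k p δ x + t) (hL : 0 ≤ w + v - k - δ + t)
    (δ0 : 0 ≤ δ) (δ1 : δ ≤ k / 10 + t) (e0 : 0 ≤ e) (e1 : e ≤ k / 64 + t) (x0' : 0 ≤ x')
    (x1' : x' ≤ x + t) :
    2 / 3 * k - w / 3 + 5 / 3 * δ + 2 * e + gQ (w + v - k - δ) (w + p - k) + 2 / 3 * (p - δ) +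
      max 0 ((w + p - k) / 3 + x') + k / 200 ≤ k + p + LQ (y₃ + y₄ + u) k D := by
  obtain ⟨L1, L2⟩ := LQ_ge (y₃ + y₄ + u) k D
  have hh := hJ_cases (y₃ + y₄ + u) k p δ x
  have hg := gQ_cases (w + v - k - δ) (w + p - k)
  generalize LQ (y₃ + y₄ + u) k D = L at *
  generalize hJ (y₃ + y₄ + u) k p δ x = h at *
  generalize gQ (w + v - k - δ) (w + p - k) = g at *
  have h0 : max 0 ((w + p - k) / 3 + x') = 0 ∨
      max 0 ((w + p - k) / 3 + x') = (w + p - k) / 3 + x' := max_choice _ _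
  obtain ⟨k0, u4, y43, u0, y3, N1, near, x0, adm, d0, d1⟩ := hD
  rcases h0 with h0 | h0 <;> rw [h0] <;>
  rcases hg with rfl | rfl | rfl | rfl <;> rcases hh with hh | ⟨hh, hh2⟩ <;>
    rcases adm with ⟨a0, rfl | a1⟩ | ⟨a1, a2, a3⟩ <;> linarith

/-- `H² V³ ≤ K²` -/
theorem thJ_le {k y₃ y₄ u x D t p v δ : ℝ} (hD : Dh k y₃ y₄ u x D)
    (t0 : 0 ≤ t) (t1 : t ≤ k / 20000) (p1 : p ≤ y₃ + y₄ + u + x + t)
    (v1 : v ≤ 2 * (y₃ + y₄ + u) - k + 3 * x + t)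
    (v2 : v ≤ 3 / 4 * (y₃ + y₄ + u) + 3 * x + t) (δ0 : 0 ≤ δ) :
    2 * hJ (y₃ + y₄ + u) k p δ x + 3 * v + k / 100 ≤ 2 * k := by
  have hh := hJ_cases (y₃ + y₄ + u) k p δ x
  generalize hJ (y₃ + y₄ + u) k p δ x = h at *
  obtain ⟨k0, u4, y43, u0, y3, N1, near, x0, adm, d0, d1⟩ := hD
  rcases hh with hh | ⟨hh, hh2⟩ <;> rcases adm with ⟨a0, rfl | a1⟩ | ⟨a1, a2, a3⟩ <;> linarith

end Crest.Agent.R017.P1J904
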