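import Crest.Agent.R017.P1E_904

/-!
# Row 17, R8: the class-form Gram sum of `St` at the families `K/m³` (helper904)

Base `H` (family of the parent `K = 1`), family `k ∈ [11/20, 17/20]`, parents of total length `p`
with smallest lump `um`, levels `v ≤ vS`. The mollifier scale is `h = 2k - v + 3t - p - 3B`
(`≤ 0`), so that the Gauss part `(2k - h - v)/3 + t - p/3` is `B`.

* `KT` : `h ≤ 0` and the large sieve part
* `KR` : structured part, removed part `δ ≤ 19/200`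
* `KS` : no structured part, `δ ≥ 19/200`
* `KE` : Cauchy with the character side closes against `1 + p + max 0 (5/4 N - 1) + 3/4 d`
-/

set_option autoImplicit false
set_option linter.unusedVariables false

noncomputable section

namespace Crest.Agent.R017.P1K904

open Crest.Agent.R017.P1R904
open Crest.Agent.R017.P1F904 (vS ChP l3_le l3_nonneg L0_ge vt_le vS_le)
open Crest.Agent.R017.P1E904 (DpW r3_leW)

/-- character side of the whole parent at the family `k`, `d = 0` -/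
def RS0 (k p um x : ℝ) : ℝ :=
  max (k + p) (2 / 3 * k + 4 / 3 * p + max (um / 2) (4 / 15 * (um + x)))

/-- character side of the whole parent at the family `k` -/
def RSd (k p um x d : ℝ) : ℝ :=
  max (k + p) (2 / 3 * k + 4 / 3 * p + max (um / 2) (4 / 15 * (um + x)) +
    16 / 5 * d * (um + x))

/-- room for the Gram sum -/
def BK (N k p um x d : ℝ) : ℝ :=
  2 * (1 + p + max 0 (5 / 4 * N - 1) - (1 - k) / 3) + d / 2 - RS0 k p um x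

/-- exponent of the Gauss moments: `C + TF`, and helper708's `eF` -/
def tK (N v p um x : ℝ) : ℝ :=
  min (v + p + um + x) (max (2 * p) (4 / 3 * p + (max (max 1 (5 / 4 * N)) (3 / 2 * v) + v) / 3))

/-- the frame -/
structure Fr (y₃ y₄ u x d k p um v : ℝ) : Prop where
  D : DpW y₃ y₄ u x d
  k0 : 11 / 20 ≤ k
  k1 : k ≤ 17 / 20
  p0 : 3 / 10 ≤ p
  p1 : p ≤ y₃ + y₄ + u + x
  um0 : 0 ≤ um
  um1 : um ≤ u
  ump : 3 * um ≤ p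
  v0 : 0 ≤ v
  v1 : v ≤ vS (y₃ + y₄ + u) x

/-- children of the parent -/
structure ChK (y₃ y₄ um x p δ z₁ z₂ z₃ x' : ℝ) : Prop where
  z10 : 0 ≤ z₁
  z20 : 0 ≤ z₂
  z30 : 0 ≤ z₃
  x0 : 0 ≤ x'
  m : min z₁ (min z₂ z₃) ≤ um
  z1 : z₁ + x' ≤ 61 / 200
  x1 : x' ≤ x
  tot : z₁ + z₂ + z₃ + x' + δ ≤ p

/-- main part -/
def KT : Prop := ∀ y₃ y₄ u x d k p um v : ℝ, Fr y₃ y₄ u x d k p um v →
  (2 * k - v) / 3 + tK (y₃ + y₄ + u) v p um x - p / 3 ≤ BK (y₃ + y₄ + u) k p um x d ∧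
    2 / 3 * v + tK (y₃ + y₄ + u) v p um x - p / 3 ≤ BK (y₃ + y₄ + u) k p um x d

/-- structured part -/
def KR : Prop := ∀ y₃ y₄ u x d k p um v δ φ i z₁ z₂ z₃ x' : ℝ, Fr y₃ y₄ u x d k p um v →
  0 ≤ δ → δ ≤ 19 / 200 → 0 ≤ φ → ChK y₃ y₄ um x p (δ + φ) z₁ z₂ z₃ x' →
  z₁ ≤ i → z₂ ≤ i → z₃ ≤ i →
  i ≤ k + 3 * tK (y₃ + y₄ + u) v p um x - 3 * BK (y₃ + y₄ + u) k p um x d + φ →
  r3 d i z₁ z₂ z₃ x' + (k + 3 * tK (y₃ + y₄ + u) v p um x - 3 * BK (y₃ + y₄ + u) k p um x d +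
      φ - i) / 3 + 2 * δ +
    max 0 (k + v + 3 * tK (y₃ + y₄ + u) v p um x - p - 3 * BK (y₃ + y₄ + u) k p um x d - δ) / 2 +
    1 / 500 ≤ tK (y₃ + y₄ + u) v p um x

/-- no structured part -/
def KS : Prop := ∀ y₃ y₄ u x d k p um v δ z₁ z₂ z₃ x' : ℝ, Fr y₃ y₄ u x d k p um v →
  19 / 200 ≤ δ → 2 * δ ≤ v → ChK y₃ y₄ um x p δ z₁ z₂ z₃ x' →
  v + (z₁ + z₂ + z₃ + x') + (min z₁ (min z₂ z₃) + x') +
    max 0 (k + v + 3 * tK (y₃ + y₄ + u) v p um x - p - 3 * BK (y₃ + y₄ + u) k p um x d - δ) / 3 +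
    1 / 500 ≤ tK (y₃ + y₄ + u) v p um x

/-- Cauchy with the character side -/
def KE : Prop := ∀ y₃ y₄ u x d k p um v : ℝ, Fr y₃ y₄ u x d k p um v →
  (1 - k) / 3 + (BK (y₃ + y₄ + u) k p um x d + RSd k p um x d) / 2 ≤
    1 + p + max 0 (5 / 4 * (y₃ + y₄ + u) - 1) + 3 / 4 * d

/-! ### proofs -/

lemma x_le {y₃ y₄ u x d : ℝ} (h : DpW y₃ y₄ u x d) : x ≤ 1 / 36 := by
  obtain ⟨u4, y43, u0, hy3, N1, near, hx0, adm, d0, d1⟩ := h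
  rcases adm with ⟨a0, -⟩ | ⟨-, a2, -⟩ <;> linarith

theorem kE : KE := by
  intro y₃ y₄ u x d k p um v h
  obtain ⟨hD, k0, k1, p0, p1, um0, um1, ump, v0, v1⟩ := h
  have hx := x_le hD
  obtain ⟨u4, y43, u0, hy3, N1, near, hx0, adm, d0, d1⟩ := hD
  have hu : um + x ≤ 5 / 16 := by linarith
  have hd : 16 / 5 * d * (um + x) ≤ d := by nlinarith
  have hR : RSd k p um x d ≤ RS0 k p um x + d := by
    unfold RSd RS0
    refine max_le ?_ ?_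
    · have := le_max_left (k + p) (2 / 3 * k + 4 / 3 * p + max (um / 2) (4 / 15 * (um + x)))
      linarith
    · have := le_max_right (k + p) (2 / 3 * k + 4 / 3 * p + max (um / 2) (4 / 15 * (um + x)))
      linarith
  unfold BK
  linarith

lemma mx (w : ℝ) : ∃ M : ℝ, max 0 w = M ∧ ((M = 0 ∧ w ≤ 0) ∨ (M = w ∧ 0 ≤ w)) := by
  rcases le_total 0 w with h | h
  · exact ⟨w, max_eq_right h, Or.inr ⟨rfl, h⟩⟩
  · exact ⟨0, max_eq_left h, Or.inl ⟨rfl, h⟩⟩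

/-- two linear upper bounds for `r3` -/
lemma r3_leL {d i z₁ z₂ z₃ x : ℝ} (d0 : 0 ≤ d) (d1 : d ≤ 1 / 40) (h1 : 0 ≤ z₁) (h2 : 0 ≤ z₂)
    (h3 : 0 ≤ z₃) (hx : 0 ≤ x) (k1 : z₁ ≤ i) (k2 : z₂ ≤ i) (k3 : z₃ ≤ i)
    (hs : l3 i z₁ z₂ z₃ + x ≤ 3 / 10) :
    r3 d i z₁ z₂ z₃ x ≤ i + (z₁ + z₂ + z₃ + x) + 4 / 5 * (l3 i z₁ z₂ z₃ + x) ∧
    r3 d i z₁ z₂ z₃ x ≤ i + (z₁ + z₂ + z₃ + x) + 3 / 4 * (l3 i z₁ z₂ z₃ + x) + 3 / 5 * d := by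
  unfold r3
  have h0 := l3_nonneg h1 h2 h3 k1 k2 k3
  constructor <;> nlinarith

/-- the values of `RS0` -/
lemma RS0_cases (k p um x : ℝ) : ∃ m : ℝ, RS0 k p um x = max (k + p) (2 / 3 * k + 4 / 3 * p + m) ∧
    ((m = um / 2 ∧ 4 / 15 * (um + x) ≤ um / 2) ∨
      (m = 4 / 15 * (um + x) ∧ um / 2 ≤ 4 / 15 * (um + x))) := by
  refine ⟨max (um / 2) (4 / 15 * (um + x)), rfl, ?_⟩
  rcases le_total (um / 2) (4 / 15 * (um + x)) with h | h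
  · exact Or.inr ⟨max_eq_right h, h⟩
  · exact Or.inl ⟨max_eq_left h, h⟩

/-- the values of `BK` -/
lemma BK_cases (N k p um x d : ℝ) : ∃ E R m : ℝ, BK N k p um x d =
    2 * (1 + p + E - (1 - k) / 3) + d / 2 - R ∧
    ((E = 0 ∧ 5 / 4 * N - 1 ≤ 0) ∨ (E = 5 / 4 * N - 1 ∧ 0 ≤ 5 / 4 * N - 1)) ∧
    ((R = k + p ∧ 2 / 3 * k + 4 / 3 * p + m ≤ k + p) ∨
      (R = 2 / 3 * k + 4 / 3 * p + m ∧ k + p ≤ 2 / 3 * k + 4 / 3 * p + m)) ∧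
    ((m = um / 2 ∧ 4 / 15 * (um + x) ≤ um / 2) ∨
      (m = 4 / 15 * (um + x) ∧ um / 2 ≤ 4 / 15 * (um + x))) := by
  obtain ⟨m, hm, hm'⟩ := RS0_cases k p um x
  refine ⟨max 0 (5 / 4 * N - 1), RS0 k p um x, m, rfl, ?_, ?_, hm'⟩
  · rcases le_total 0 (5 / 4 * N - 1) with h | h
    · exact Or.inr ⟨max_eq_right h, h⟩
    · exact Or.inl ⟨max_eq_left h, h⟩
  · rw [hm]
    rcases le_total (k + p) (2 / 3 * k + 4 / 3 * p + m) with h | h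
    · exact Or.inr ⟨max_eq_right h, h⟩
    · exact Or.inl ⟨max_eq_left h, h⟩

/-- the values of `tK` -/
lemma tK_cases {N v p um x : ℝ} (hv : v ≤ 2 / 3) :
    (tK N v p um x = v + p + um + x ∧ (v + p + um + x ≤ 2 * p ∨
        v + p + um + x ≤ 4 / 3 * p + (1 + v) / 3 ∨
        v + p + um + x ≤ 4 / 3 * p + (5 / 4 * N + v) / 3)) ∨
    (tK N v p um x = 2 * p ∧ 2 * p ≤ v + p + um + x ∧ 4 / 3 * p + (1 + v) / 3 ≤ 2 * p ∧
      4 / 3 * p + (5 / 4 * N + v) / 3 ≤ 2 * p) ∨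
    (tK N v p um x = 4 / 3 * p + (1 + v) / 3 ∧ 4 / 3 * p + (1 + v) / 3 ≤ v + p + um + x ∧
      2 * p ≤ 4 / 3 * p + (1 + v) / 3 ∧ 5 / 4 * N ≤ 1) ∨
    (tK N v p um x = 4 / 3 * p + (5 / 4 * N + v) / 3 ∧
      4 / 3 * p + (5 / 4 * N + v) / 3 ≤ v + p + um + x ∧
      2 * p ≤ 4 / 3 * p + (5 / 4 * N + v) / 3 ∧ 1 ≤ 5 / 4 * N) := by
  unfold tK
  have h0 : max (max 1 (5 / 4 * N)) (3 / 2 * v) = max 1 (5 / 4 * N) :=
    max_eq_left (by have := le_max_left 1 (5 / 4 * N); linarith)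
  rw [h0]
  rcases le_total 1 (5 / 4 * N) with h1 | h1
  · rw [max_eq_right h1]
    rcases le_total (2 * p) (4 / 3 * p + (5 / 4 * N + v) / 3) with h2 | h2
    · rw [max_eq_right h2]
      rcases le_total (v + p + um + x) (4 / 3 * p + (5 / 4 * N + v) / 3) with h3 | h3
      · rw [min_eq_left h3]; exact Or.inl ⟨rfl, Or.inr (Or.inr h3)⟩
      · rw [min_eq_right h3]; exact Or.inr (Or.inr (Or.inr ⟨rfl, h3, h2, h1⟩))
    · rw [max_eq_left h2]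
      rcases le_total (v + p + um + x) (2 * p) with h3 | h3
      · rw [min_eq_left h3]; exact Or.inl ⟨rfl, Or.inl h3⟩
      · rw [min_eq_right h3]; exact Or.inr (Or.inl ⟨rfl, h3, by linarith, h2⟩)
  · rw [max_eq_left h1]
    rcases le_total (2 * p) (4 / 3 * p + (1 + v) / 3) with h2 | h2
    · rw [max_eq_right h2]
      rcases le_total (v + p + um + x) (4 / 3 * p + (1 + v) / 3) with h3 | h3
      · rw [min_eq_left h3]; exact Or.inl ⟨rfl, Or.inr (Or.inl h3)⟩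
      · rw [min_eq_right h3]; exact Or.inr (Or.inr (Or.inl ⟨rfl, h3, h2, h1⟩))
    · rw [max_eq_left h2]
      rcases le_total (v + p + um + x) (2 * p) with h3 | h3
      · rw [min_eq_left h3]; exact Or.inl ⟨rfl, Or.inl h3⟩
      · rw [min_eq_right h3]; exact Or.inr (Or.inl ⟨rfl, h3, h2, by linarith⟩)

set_option maxHeartbeats 4000000 in
theorem kT : KT := by
  intro y₃ y₄ u x d k p um v h
  obtain ⟨hD, k0, k1, p0, p1, um0, um1, ump, v0, v1⟩ := h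
  have hx := x_le hD
  obtain ⟨u4, y43, u0, hy3, N1, near, hx0, adm, d0, d1⟩ := hD
  obtain ⟨hv1, hv2⟩ := vS_le v1
  have hv : v ≤ 2 / 3 := by rcases adm with ⟨a0, rfl | a1⟩ | ⟨a1, a2, a3⟩ <;> linarith
  obtain ⟨E, R, m, hB, hE, hR, hm0⟩ := BK_cases (y₃ + y₄ + u) k p um x d
  have ht := tK_cases (N := y₃ + y₄ + u) (p := p) (um := um) (x := x) hv
  rw [hB]
  generalize tK (y₃ + y₄ + u) v p um x = t at ht ⊢
  rcases ht with ⟨rfl, ht | ht | ht⟩ | ⟨rfl, ht, ht', ht2⟩ | ⟨rfl, ht, ht', ht2⟩ |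
    ⟨rfl, ht, ht', ht2⟩ <;>
  rcases hE with ⟨rfl, hE⟩ | ⟨rfl, hE⟩ <;> rcases hR with ⟨rfl, hR⟩ | ⟨rfl, hR⟩ <;>
  rcases hm0 with ⟨rfl, hm0⟩ | ⟨rfl, hm0⟩ <;>
  rcases adm with ⟨a0, rfl | a1⟩ | ⟨a1, a2, a3⟩ <;> constructor <;> linarith

set_option maxHeartbeats 16000000 in
theorem kR : KR := by
  intro y₃ y₄ u x d k p um v δ φ i z₁ z₂ z₃ x' h hδ hδ1 hφ hc q1 q2 q3 hi
  obtain ⟨hD, k0, k1, p0, p1, um0, um1, ump, v0, v1⟩ := h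
  have hx := x_le hD
  obtain ⟨u4, y43, u0, hy3, N1, near, hx0, adm, d0, d1⟩ := hD
  obtain ⟨z10, z20, z30, x0', hm, z1, x1', tot⟩ := hc
  obtain ⟨hv1, hv2⟩ := vS_le v1
  have hv : v ≤ 2 / 3 := by rcases adm with ⟨a0, rfl | a1⟩ | ⟨a1, a2, a3⟩ <;> linarith
  obtain ⟨E, R, m, hB, hE, hR, hm0⟩ := BK_cases (y₃ + y₄ + u) k p um x d
  have ht := tK_cases (N := y₃ + y₄ + u) (p := p) (um := um) (x := x) hv
  obtain ⟨l1, l2, l3', l4, l5, l6⟩ := l3_le i z₁ z₂ z₃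
  have lm : l3 i z₁ z₂ z₃ ≤ um := (le_min l1 (le_min l3' l5)).trans hm
  have hlx : l3 i z₁ z₂ z₃ + x' ≤ 3 / 10 := by
    rcases adm with ⟨a0, a1⟩ | ⟨a1, a2, a3⟩ <;> linarith
  obtain ⟨hr, hr'⟩ := r3_leL d0 d1 z10 z20 z30 x0' q1 q2 q3 hlx
  rw [hB] at hi ⊢
  generalize r3 d i z₁ z₂ z₃ x' = r at hr hr' ⊢
  generalize l3 i z₁ z₂ z₃ = l at hr hr' l1 l2 l3' l4 l5 l6 lm
  generalize tK (y₃ + y₄ + u) v p um x = t at ht hi ⊢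
  clear hm hB v1
  obtain ⟨M, hM, hM'⟩ := mx (k + v + 3 * t - p -
    3 * (2 * (1 + p + E - (1 - k) / 3) + d / 2 - R) - δ)
  rw [hM]
  clear hM
  rcases ht with ⟨rfl, ht | ht | ht⟩ | ⟨rfl, ht, ht', ht2⟩ | ⟨rfl, ht, ht', ht2⟩ |
    ⟨rfl, ht, ht', ht2⟩ <;>
  rcases hE with ⟨rfl, hE⟩ | ⟨rfl, hE⟩ <;> rcases hR with ⟨rfl, hR⟩ | ⟨rfl, hR⟩ <;>
  rcases hm0 with ⟨rfl, hm0⟩ | ⟨rfl, hm0⟩ <;>
  rcases adm with ⟨a0, rfl | a1⟩ | ⟨a1, a2, a3⟩ <;>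
  rcases hM' with ⟨rfl, hM⟩ | ⟨rfl, hM⟩ <;> linarith

set_option maxHeartbeats 16000000 in
theorem kS : KS := by
  intro y₃ y₄ u x d k p um v δ z₁ z₂ z₃ x' h hδ hδ1 hc
  obtain ⟨hD, k0, k1, p0, p1, um0, um1, ump, v0, v1⟩ := h
  have hx := x_le hD
  obtain ⟨u4, y43, u0, hy3, N1, near, hx0, adm, d0, d1⟩ := hD
  obtain ⟨z10, z20, z30, x0', hm, z1, x1', tot⟩ := hc
  obtain ⟨hv1, hv2⟩ := vS_le v1
  have hv : v ≤ 2 / 3 := by rcases adm with ⟨a0, rfl | a1⟩ | ⟨a1, a2, a3⟩ <;> linarith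
  obtain ⟨E, R, m, hB, hE, hR, hm0⟩ := BK_cases (y₃ + y₄ + u) k p um x d
  have ht := tK_cases (N := y₃ + y₄ + u) (p := p) (um := um) (x := x) hv
  have m1 : min z₁ (min z₂ z₃) ≤ z₁ := min_le_left _ _
  have m2 : min z₁ (min z₂ z₃) ≤ z₂ := (min_le_right _ _).trans (min_le_left _ _)
  have m3 : min z₁ (min z₂ z₃) ≤ z₃ := (min_le_right _ _).trans (min_le_right _ _)
  rw [hB]
  generalize min z₁ (min z₂ z₃) = l at m1 m2 m3 hm ⊢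
  generalize tK (y₃ + y₄ + u) v p um x = t at ht ⊢
  clear hB v1
  obtain ⟨M, hM, hM'⟩ := mx (k + v + 3 * t - p -
    3 * (2 * (1 + p + E - (1 - k) / 3) + d / 2 - R) - δ)
  rw [hM]
  clear hM
  rcases ht with ⟨rfl, ht | ht | ht⟩ | ⟨rfl, ht, ht', ht2⟩ | ⟨rfl, ht, ht', ht2⟩ |
    ⟨rfl, ht, ht', ht2⟩ <;>
  rcases hE with ⟨rfl, hE⟩ | ⟨rfl, hE⟩ <;> rcases hR with ⟨rfl, hR⟩ | ⟨rfl, hR⟩ <;>
  rcases hm0 with ⟨rfl, hm0⟩ | ⟨rfl, hm0⟩ <;>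
  rcases adm with ⟨a0, rfl | a1⟩ | ⟨a1, a2, a3⟩ <;>
  rcases hM' with ⟨rfl, hM⟩ | ⟨rfl, hM⟩ <;> linarith

end Crest.Agent.R017.P1K904
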