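import Crest.Agent.R017.P1L_904

/-!
# Row 17, R8: the class-form Gram sum, the structured part (helper904)

* `hL_neg` : `hL ≤ - k / 20`
* `coreL`, `coreL2` : as `coreQ`, `coreQ2` of `P1Q_904` at the family `q`, cost `e`, room `Gk`
-/

set_option autoImplicit false
set_option linter.unusedVariables false

noncomputable section

namespace Crest.Agent.R017.P1L904

open Crest.Agent.R017.RnP571 (Dh)
open Crest.Agent.R017.P1Q904 (gQ gQ_cases min3_le)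

set_option maxHeartbeats 8000000 in
lemma coreN {k y₃ y₄ u x D t q p um v δ h G R K5 : ℝ} (hD : Dh k y₃ y₄ u x D)
    (t0 : 0 ≤ t) (t1 : t ≤ k / 20000) (q0 : 3 / 5 * k - t ≤ q) (q1 : q ≤ 17 / 20 * k + t)
    (p0 : k / 2 - 2 * x - t ≤ p) (p1 : p ≤ y₃ + y₄ + u + x + t) (p2 : p ≤ y₃ + y₄ + um + x + t)
    (um0 : 0 ≤ um) (um1 : um ≤ u + t) (um2 : 3 * um ≤ p + t)
    (v1 : v ≤ 2 * (y₃ + y₄ + u) - k + 3 * x + t)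
    (v2 : v ≤ 3 / 4 * (y₃ + y₄ + u) + 3 * x + t)
    (hK : K5 = k ∨ K5 = 5 / 4 * (y₃ + y₄ + u)) (hK' : k ≤ K5) (hK'' : 5 / 4 * (y₃ + y₄ + u) ≤ K5)
    (hG : 2 * (k + p + (K5 - k) - (k - q) / 3) + D / 2 - R ≤ G)
    (hR : R ≤ q + p ∨ R ≤ p + (2 * q + k) / 3 ∨ R ≤ p + (2 * q + (p + um)) / 3 ∨
      R ≤ p + (q + 2 * p + k / 3) / 3 ∨ R ≤ p + (q + 2 * p + (p + um) / 3) / 3 ∨
      R ≤ p + (q + 3 * p - 5 / 12 * (p + um - x)) / 3)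
    (δ0 : 0 ≤ δ) (hh : h = 2 * q + 4 * p - δ - 3 * G ∨ h ≤ 2 * q + 3 * p + K5 - 3 * G ∨
        h ≤ 2 * q + 3 * p + (4 / 3 * p + 2 / 3 * x - 4 / 3 * δ) - 3 * G) :
    h + k / 20 ≤ 0 := by
  obtain ⟨k0, u4, y43, u0, y3, N1, near, x0, adm, d0, d1⟩ := hD
  rcases hR with hR | hR | hR | hR | hR | hR <;> rcases hK with rfl | rfl <;>
  rcases hh with hh | hh | hh <;>
  rcases adm with ⟨a0, rfl | a1⟩ | ⟨a1, a2, a3⟩ <;> linarith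

/-- `H < 1` -/
theorem hL_neg {k y₃ y₄ u x D t q p um v δ : ℝ} (hD : Dh k y₃ y₄ u x D)
    (t0 : 0 ≤ t) (t1 : t ≤ k / 20000) (q0 : 3 / 5 * k - t ≤ q) (q1 : q ≤ 17 / 20 * k + t)
    (p0 : k / 2 - 2 * x - t ≤ p) (p1 : p ≤ y₃ + y₄ + u + x + t) (p2 : p ≤ y₃ + y₄ + um + x + t)
    (um0 : 0 ≤ um) (um1 : um ≤ u + t) (um2 : 3 * um ≤ p + t)
    (v1 : v ≤ 2 * (y₃ + y₄ + u) - k + 3 * x + t)
    (v2 : v ≤ 3 / 4 * (y₃ + y₄ + u) + 3 * x + t)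
    (δ0 : 0 ≤ δ) :
    hL q v p δ x (max k (5 / 4 * (y₃ + y₄ + u))) (Gk (y₃ + y₄ + u) k q p um x D) + k / 20 ≤ 0 := by
  refine coreN hD t0 t1 q0 q1 p0 p1 p2 um0 um1 um2 v1 v2 (max_choice _ _) (le_max_left _ _)
    (le_max_right _ _) (Gk_eq _ _ _ _ _ _ _).le (RSm_le1 _ _ _ _ _) δ0 ?_
  rcases hL_le q v p δ x (max k (5 / 4 * (y₃ + y₄ + u))) (Gk (y₃ + y₄ + u) k q p um x D)
    with ⟨h, -⟩ | ⟨-, h | h⟩
  · exact Or.inl h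
  · exact Or.inr (Or.inl h)
  · exact Or.inr (Or.inr h)

set_option maxHeartbeats 16000000 in
/-- in the low regime there is no structured part -/
lemma coreE {k y₃ y₄ u x D t q p um v w δ h G R K5 : ℝ} (hD : Dh k y₃ y₄ u x D)
    (t0 : 0 ≤ t) (t1 : t ≤ k / 20000) (q0 : 3 / 5 * k - t ≤ q) (q1 : q ≤ 17 / 20 * k + t)
    (p0 : k / 2 - 2 * x - t ≤ p) (p1 : p ≤ y₃ + y₄ + u + x + t) (p2 : p ≤ y₃ + y₄ + um + x + t)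
    (um0 : 0 ≤ um) (um1 : um ≤ u + t) (um2 : 3 * um ≤ p + t)
    (v1 : v ≤ 2 * (y₃ + y₄ + u) - k + 3 * x + t)
    (v2 : v ≤ 3 / 4 * (y₃ + y₄ + u) + 3 * x + t)
    (hK : K5 = k ∨ K5 = 5 / 4 * (y₃ + y₄ + u)) (hK' : k ≤ K5) (hK'' : 5 / 4 * (y₃ + y₄ + u) ≤ K5)
    (hG : 2 * (k + p + (K5 - k) - (k - q) / 3) + D / 2 - R ≤ G)
    (hR : R ≤ q + p ∨ R ≤ p + (2 * q + k) / 3 ∨ R ≤ p + (2 * q + (p + um)) / 3 ∨
      R ≤ p + (q + 2 * p + k / 3) / 3 ∨ R ≤ p + (q + 2 * p + (p + um) / 3) / 3 ∨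
      R ≤ p + (q + 3 * p - 5 / 12 * (p + um - x)) / 3)
    (hh : h = 2 * q + 4 * p - δ - 3 * G)
    (hh' : 2 * q + 2 * v + 3 * p + 2 * x - 4 * δ - 3 * G ≤ 2 * q + 4 * p - δ - 3 * G ∨
        (2 * q + 3 * p + K5 - 3 * G ≤ 2 * q + 4 * p - δ - 3 * G ∧
          2 * q + 3 * p + (4 / 3 * p + 2 / 3 * x - 4 / 3 * δ) - 3 * G ≤
            2 * q + 4 * p - δ - 3 * G))
    (hw : w ≤ v + h + t) (hL : 0 ≤ w + v - q - δ + t) (δ0 : 0 ≤ δ) : False := by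
  obtain ⟨k0, u4, y43, u0, y3, N1, near, x0, adm, d0, d1⟩ := hD
  rcases hh' with hh' | ⟨hh', hh''⟩ <;>
  rcases hR with hR | hR | hR | hR | hR | hR <;> rcases hK with rfl | rfl <;>
  rcases adm with ⟨a0, rfl | a1⟩ | ⟨a1, a2, a3⟩ <;> linarith

set_option maxHeartbeats 32000000 in
lemma coreR1 {k y₃ y₄ u x D t q p um v w δ e i n x' S h g G R K5 : ℝ} (hD : Dh k y₃ y₄ u x D)
    (t0 : 0 ≤ t) (t1 : t ≤ k / 20000) (q0 : 3 / 5 * k - t ≤ q) (q1 : q ≤ 17 / 20 * k + t)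
    (p0 : k / 2 - 2 * x - t ≤ p) (p1 : p ≤ y₃ + y₄ + u + x + t) (p2 : p ≤ y₃ + y₄ + um + x + t)
    (um0 : 0 ≤ um) (um1 : um ≤ u + t) (um2 : 3 * um ≤ p + t)
    (v1 : v ≤ 2 * (y₃ + y₄ + u) - k + 3 * x + t)
    (v2 : v ≤ 3 / 4 * (y₃ + y₄ + u) + 3 * x + t)
    (hK : K5 = k ∨ K5 = 5 / 4 * (y₃ + y₄ + u)) (hK' : k ≤ K5) (hK'' : 5 / 4 * (y₃ + y₄ + u) ≤ K5)
    (hG : 2 * (k + p + (K5 - k) - (k - q) / 3) + D / 2 - R ≤ G)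
    (hR : R ≤ q + p ∨ R ≤ p + (2 * q + k) / 3 ∨ R ≤ p + (2 * q + (p + um)) / 3 ∨
      R ≤ p + (q + 2 * p + k / 3) / 3 ∨ R ≤ p + (q + 2 * p + (p + um) / 3) / 3 ∨
      R ≤ p + (q + 3 * p - 5 / 12 * (p + um - x)) / 3)
    (hh : h ≤ 2 * q + 2 * v + 3 * p + 2 * x - 4 * δ - 3 * G)
    (hh' : h ≤ 2 * q + 3 * p + K5 - 3 * G ∨
        h ≤ 2 * q + 3 * p + (4 / 3 * p + 2 / 3 * x - 4 / 3 * δ) - 3 * G)
    (hw : w ≤ v + h + t) (hL : 0 ≤ w + v - q - δ + t)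
    (δ0 : 0 ≤ δ) (e0 : 0 ≤ e) (e1 : e ≤ k / 64 + t)
    (x0' : 0 ≤ x') (x1' : x' ≤ x + t) (hn : n ≤ p - δ - e + t) (i0 : 0 ≤ i)
    (hi : i ≤ w + p - q + t) (s1 : S - x' ≤ u + t) (s2 : 3 * (S - x') ≤ n - x')
    (s3 : 2 * (S - x') ≤ i)
    (hg : g = (w + v - q - δ) / 3 ∨ g = (w + v - q - δ) - (w + p - q) / 2 ∨
      g = 7 / 9 * (w + v - q - δ) - 2 / 3 * (w + p - q) ∨
      g = 11 / 18 * (w + v - q - δ) - (w + p - q) / 3) :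
    2 / 3 * q - w / 3 + 5 / 3 * δ + e + g + 2 / 3 * (p - δ) +
      (i + 3 / 4 * S + 61 / 100 * D) + (w + p - q - i) / 3 + k / 200 ≤ G := by
  obtain ⟨k0, u4, y43, u0, y3, N1, near, x0, adm, d0, d1⟩ := hD
  rcases hh' with hh' | hh' <;>
  rcases hR with hR | hR | hR | hR | hR | hR <;> rcases hK with rfl | rfl <;>
  rcases adm with ⟨a0, rfl | a1⟩ | ⟨a1, a2, a3⟩ <;>
  rcases hg with rfl | rfl | rfl | rfl <;> linarith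

set_option maxHeartbeats 32000000 in
lemma coreR2 {k y₃ y₄ u x D t q p um v w δ e h g G R K5 M : ℝ} (hD : Dh k y₃ y₄ u x D)
    (t0 : 0 ≤ t) (t1 : t ≤ k / 20000) (q0 : 3 / 5 * k - t ≤ q) (q1 : q ≤ 17 / 20 * k + t)
    (p0 : k / 2 - 2 * x - t ≤ p) (p1 : p ≤ y₃ + y₄ + u + x + t) (p2 : p ≤ y₃ + y₄ + um + x + t)
    (um0 : 0 ≤ um) (um1 : um ≤ u + t) (um2 : 3 * um ≤ p + t)
    (v1 : v ≤ 2 * (y₃ + y₄ + u) - k + 3 * x + t)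
    (v2 : v ≤ 3 / 4 * (y₃ + y₄ + u) + 3 * x + t)
    (hK : K5 = k ∨ K5 = 5 / 4 * (y₃ + y₄ + u)) (hK' : k ≤ K5) (hK'' : 5 / 4 * (y₃ + y₄ + u) ≤ K5)
    (hG : 2 * (k + p + (K5 - k) - (k - q) / 3) + D / 2 - R ≤ G)
    (hR : R ≤ q + p ∨ R ≤ p + (2 * q + k) / 3 ∨ R ≤ p + (2 * q + (p + um)) / 3 ∨
      R ≤ p + (q + 2 * p + k / 3) / 3 ∨ R ≤ p + (q + 2 * p + (p + um) / 3) / 3 ∨
      R ≤ p + (q + 3 * p - 5 / 12 * (p + um - x)) / 3)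
    (hh : h ≤ 2 * q + 2 * v + 3 * p + 2 * x - 4 * δ - 3 * G)
    (hh' : h ≤ 2 * q + 3 * p + K5 - 3 * G ∨
        h ≤ 2 * q + 3 * p + (4 / 3 * p + 2 / 3 * x - 4 / 3 * δ) - 3 * G)
    (hw : w ≤ v + h + t) (hL : 0 ≤ w + v - q - δ + t)
    (δ0 : 0 ≤ δ) (e0 : 0 ≤ e) (e1 : e ≤ k / 64 + t) (hM : M ≤ 7 / 20 * k)
    (hg : g = (w + v - q - δ) / 3 ∨ g = (w + v - q - δ) - (w + p - q) / 2 ∨
      g = 7 / 9 * (w + v - q - δ) - 2 / 3 * (w + p - q) ∨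
      g = 11 / 18 * (w + v - q - δ) - (w + p - q) / 3) :
    2 / 3 * q - w / 3 + 5 / 3 * δ + e + g + 2 / 3 * (p - δ) + M + k / 200 ≤ G := by
  obtain ⟨k0, u4, y43, u0, y3, N1, near, x0, adm, d0, d1⟩ := hD
  rcases hh' with hh' | hh' <;>
  rcases hR with hR | hR | hR | hR | hR | hR <;> rcases hK with rfl | rfl <;>
  rcases adm with ⟨a0, rfl | a1⟩ | ⟨a1, a2, a3⟩ <;>
  rcases hg with rfl | rfl | rfl | rfl <;> linarith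

/-- **the structured part, second form** (`w = log (H V)`, `S` bounds `l + x'`) -/
theorem coreL {k y₃ y₄ u x D t q p um v w δ e i n x' S : ℝ} (hD : Dh k y₃ y₄ u x D)
    (t0 : 0 ≤ t) (t1 : t ≤ k / 20000) (q0 : 3 / 5 * k - t ≤ q) (q1 : q ≤ 17 / 20 * k + t)
    (p0 : k / 2 - 2 * x - t ≤ p) (p1 : p ≤ y₃ + y₄ + u + x + t) (p2 : p ≤ y₃ + y₄ + um + x + t)
    (um0 : 0 ≤ um) (um1 : um ≤ u + t) (um2 : 3 * um ≤ p + t)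
    (v1 : v ≤ 2 * (y₃ + y₄ + u) - k + 3 * x + t)
    (v2 : v ≤ 3 / 4 * (y₃ + y₄ + u) + 3 * x + t)
    (hw : w ≤ v + hL q v p δ x (max k (5 / 4 * (y₃ + y₄ + u))) (Gk (y₃ + y₄ + u) k q p um x D) + t)
    (hL' : 0 ≤ w + v - q - δ + t)
    (δ0 : 0 ≤ δ) (e0 : 0 ≤ e) (e1 : e ≤ k / 64 + t)
    (x0' : 0 ≤ x') (x1' : x' ≤ x + t) (hn : n ≤ p - δ - e + t) (i0 : 0 ≤ i)
    (hi : i ≤ w + p - q + t) (s1 : S - x' ≤ u + t) (s2 : 3 * (S - x') ≤ n - x')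
    (s3 : 2 * (S - x') ≤ i) :
    2 / 3 * q - w / 3 + 5 / 3 * δ + e + gQ (w + v - q - δ) (w + p - q) + 2 / 3 * (p - δ) +
      (i + 3 / 4 * S + 61 / 100 * D) + (w + p - q - i) / 3 + k / 200 ≤
      Gk (y₃ + y₄ + u) k q p um x D := by
  have hg := gQ_cases (w + v - q - δ) (w + p - q)
  rcases hL_le q v p δ x (max k (5 / 4 * (y₃ + y₄ + u))) (Gk (y₃ + y₄ + u) k q p um x D)
    with ⟨h, h'⟩ | ⟨h, h'⟩
  · exact (coreE hD t0 t1 q0 q1 p0 p1 p2 um0 um1 um2 v1 v2 (max_choice _ _) (le_max_left _ _)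
      (le_max_right _ _) (Gk_eq _ _ _ _ _ _ _).le (RSm_le1 _ _ _ _ _) h h' hw hL' δ0).elim
  · exact coreR1 hD t0 t1 q0 q1 p0 p1 p2 um0 um1 um2 v1 v2 (max_choice _ _) (le_max_left _ _)
      (le_max_right _ _) (Gk_eq _ _ _ _ _ _ _).le (RSm_le1 _ _ _ _ _) h h' hw hL' δ0 e0 e1 x0' x1'
      hn i0 hi s1 s2 s3 hg

/-- the principal part -/
theorem coreL2 {k y₃ y₄ u x D t q p um v w δ e x' : ℝ} (hD : Dh k y₃ y₄ u x D)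
    (t0 : 0 ≤ t) (t1 : t ≤ k / 20000) (q0 : 3 / 5 * k - t ≤ q) (q1 : q ≤ 17 / 20 * k + t)
    (p0 : k / 2 - 2 * x - t ≤ p) (p1 : p ≤ y₃ + y₄ + u + x + t) (p2 : p ≤ y₃ + y₄ + um + x + t)
    (um0 : 0 ≤ um) (um1 : um ≤ u + t) (um2 : 3 * um ≤ p + t)
    (v1 : v ≤ 2 * (y₃ + y₄ + u) - k + 3 * x + t)
    (v2 : v ≤ 3 / 4 * (y₃ + y₄ + u) + 3 * x + t)
    (hw : w ≤ v + hL q v p δ x (max k (5 / 4 * (y₃ + y₄ + u))) (Gk (y₃ + y₄ + u) k q p um x D) + t)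
    (hL' : 0 ≤ w + v - q - δ + t)
    (δ0 : 0 ≤ δ) (e0 : 0 ≤ e) (e1 : e ≤ k / 64 + t) (x0' : 0 ≤ x') (x1' : x' ≤ x + t) :
    2 / 3 * q - w / 3 + 5 / 3 * δ + e + gQ (w + v - q - δ) (w + p - q) + 2 / 3 * (p - δ) +
      max 0 ((w + p - q) / 3 + x') + k / 200 ≤ Gk (y₃ + y₄ + u) k q p um x D := by
  have hg := gQ_cases (w + v - q - δ) (w + p - q)
  have hN := hL_neg hD t0 t1 q0 q1 p0 p1 p2 um0 um1 um2 v1 v2 δ0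
  have hM : max 0 ((w + p - q) / 3 + x') ≤ 7 / 20 * k := by
    obtain ⟨k0, u4, y43, u0, y3, N1, near, x0, adm, d0, d1⟩ := hD
    refine max_le (by linarith) ?_
    rcases adm with ⟨a0, rfl | a1⟩ | ⟨a1, a2, a3⟩ <;> linarith
  rcases hL_le q v p δ x (max k (5 / 4 * (y₃ + y₄ + u))) (Gk (y₃ + y₄ + u) k q p um x D)
    with ⟨h, h'⟩ | ⟨h, h'⟩
  · exact (coreE hD t0 t1 q0 q1 p0 p1 p2 um0 um1 um2 v1 v2 (max_choice _ _) (le_max_left _ _)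
      (le_max_right _ _) (Gk_eq _ _ _ _ _ _ _).le (RSm_le1 _ _ _ _ _) h h' hw hL' δ0).elim
  · exact coreR2 hD t0 t1 q0 q1 p0 p1 p2 um0 um1 um2 v1 v2 (max_choice _ _) (le_max_left _ _)
      (le_max_right _ _) (Gk_eq _ _ _ _ _ _ _).le (RSm_le1 _ _ _ _ _) h h' hw hL' δ0 e0 e1 hM hg

end Crest.Agent.R017.P1L904
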