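import Crest.Agent.R017.P1La_904

/-!
# Row 17, R8: the class-form Gram sum, the `T`-lines in helper90's form (helper904)

`v'` = level of the frequency (`l = v' + b`), `h` = exponent of `H` up to `t`, `T` = number of the
`T`-side with helper146's low branch `l + n`. `c0_et`, `c1_et` : the two lines of `LnT`.
-/

set_option autoImplicit false
set_option linter.unusedVariables false

noncomputable section

namespace Crest.Agent.R017.P1L904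

open Crest.Agent.R017.RnP571 (Dh)
open Crest.Agent.R017.P1Q904 (gQ gQ_cases min3_le)

/-- weights of the cube-free lines -/
def lw0 (k v h : ℝ) : ℝ := max (2 / 3 * k - v / 3) (max (2 / 3 * k - (h + v) / 3) (2 / 3 * v))

/-- weights of the lines with cubes -/
def lw1 (k v h : ℝ) : ℝ :=
  max (2 / 3 * k - (h + v) / 3) (max (h / 3 + 2 / 3 * v) (2 / 3 * h + 7 / 6 * v - k / 3))

/-- the branch `l + n` of the `T`-lines with cubes -/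
lemma coreT' {k y₃ y₄ u x D t q p v δ b l n h G K5 T : ℝ} (hD : Dh k y₃ y₄ u x D)
    (t0 : 0 ≤ t) (t1 : t ≤ k / 20000) (p0 : k / 2 - 2 * x - t ≤ p)
    (v1 : v ≤ 2 * (y₃ + y₄ + u) - k + 3 * x + t)
    (v2 : v ≤ 3 / 4 * (y₃ + y₄ + u) + 3 * x + t) (δ0 : 0 ≤ δ) (b0 : 0 ≤ b)
    (hl : l ≤ v - 2 * δ + b + t) (hn : n ≤ p - δ - b + t) (hK' : k ≤ K5)
    (hK'' : 5 / 4 * (y₃ + y₄ + u) ≤ K5) (hh0 : 2 * q + 4 * p - δ - 3 * G ≤ h)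
    (hh : 2 * q + 2 * v + 3 * p + 2 * x - 4 * δ - 3 * G ≤ h ∨
      (2 * q + 3 * p + K5 - 3 * G ≤ h ∧
        2 * q + 3 * p + (4 / 3 * p + 2 / 3 * x - 4 / 3 * δ) - 3 * G ≤ h))
    (hT : T ≤ l + n) :
    2 / 3 * q - (h + p) / 3 + 4 / 3 * δ + b / 3 + T - l / 3 ≤ G + 10 * t := by
  obtain ⟨k0, u4, y43, u0, y3, N1, near, x0, adm, d0, d1⟩ := hD
  rcases hh with hh | ⟨h1, h2⟩ <;> rcases adm with ⟨a0, rfl | a1⟩ | ⟨a1, a2, a3⟩ <;> linarith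

/-- the branch `l + n` of the line `(H V³ / K²)^(1/3)` -/
lemma coreS' {k y₃ y₄ u x D t q p um v δ b l n G R K5 T : ℝ} (hD : Dh k y₃ y₄ u x D)
    (t0 : 0 ≤ t) (t1 : t ≤ k / 20000) (q0 : 3 / 5 * k - t ≤ q) (q1 : q ≤ 17 / 20 * k + t)
    (p0 : k / 2 - 2 * x - t ≤ p) (p1 : p ≤ y₃ + y₄ + u + x + t) (um1 : um ≤ u + t) (um2 : 3 * um ≤ p + t)
    (v1 : v ≤ 2 * (y₃ + y₄ + u) - k + 3 * x + t)
    (v2 : v ≤ 3 / 4 * (y₃ + y₄ + u) + 3 * x + t) (δ0 : 0 ≤ δ) (b0 : 0 ≤ b)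
    (hl : l ≤ v - 2 * δ + b + t) (hn : n ≤ p - δ - b + t) (hK' : k ≤ K5)
    (hG : 2 * (k + p + (K5 - k) - (k - q) / 3) + D / 2 - R ≤ G)
    (hR : R ≤ q + p ∨ R ≤ 2 / 3 * q + 4 / 3 * p + um / 2 ∨
      R ≤ 2 / 3 * q + 4 / 3 * p + 4 / 15 * (um + x))
    (hT : T ≤ l + n) :
    2 / 3 * v + 2 * δ + T - p / 3 ≤ G + 10 * t := by
  obtain ⟨k0, u4, y43, u0, y3, N1, near, x0, adm, d0, d1⟩ := hD
  rcases hR with hR | hR | hR <;>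
  rcases adm with ⟨a0, rfl | a1⟩ | ⟨a1, a2, a3⟩ <;> linarith

/-- **the lines with cubes, `H` exact** -/
theorem tL_le' {k y₃ y₄ u x D t q p um v δ b l n m x' T : ℝ} (hD : Dh k y₃ y₄ u x D)
    (t0 : 0 ≤ t) (t1 : t ≤ k / 20000) (p0 : k / 2 - 2 * x - t ≤ p)
    (v1 : v ≤ 2 * (y₃ + y₄ + u) - k + 3 * x + t)
    (v2 : v ≤ 3 / 4 * (y₃ + y₄ + u) + 3 * x + t) (δ0 : 0 ≤ δ) (b0 : 0 ≤ b)
    (hl : l ≤ v - 2 * δ + b + t) (x0' : 0 ≤ x') (x1' : x' ≤ x + t)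
    (hn : n ≤ p - δ - b + t) (hm : 3 * (m - x') ≤ n - x')
    (hT : T ≤ max (tL (max k (5 / 4 * (y₃ + y₄ + u))) b l n m) (l + n)) :
    2 / 3 * q - (hL q v p δ x (max k (5 / 4 * (y₃ + y₄ + u))) (Gk (y₃ + y₄ + u) k q p um x D) + p) / 3
      + 4 / 3 * δ + b / 3 + T - l / 3 ≤ Gk (y₃ + y₄ + u) k q p um x D + 10 * t := by
  rcases le_max_iff.1 hT with hT | hT
  · obtain ⟨hT1, hT2⟩ := tL_cases (max k (5 / 4 * (y₃ + y₄ + u))) b l n m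
    refine coreT hD t0 t1 v1 v2 δ0 b0 hl x0' x1' hn hm (max_choice _ _) (le_max_left _ _)
      (le_max_right _ _) (hL_ge _ _ _ _ _ _ _).1 (hL_ge _ _ _ _ _ _ _).2 ?_ ?_
    · exact hT1.imp hT.trans hT.trans
    · exact hT2.imp hT.trans fun h => h.imp hT.trans hT.trans
  · exact coreT' hD t0 t1 p0 v1 v2 δ0 b0 hl hn (le_max_left _ _)
      (le_max_right _ _) (hL_ge _ _ _ _ _ _ _).1 (hL_ge _ _ _ _ _ _ _).2 hT

/-- **the line `(H V³ / K²)^(1/3)`** -/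
theorem sL_le' {k y₃ y₄ u x D t q p um v δ b l n m x' T : ℝ} (hD : Dh k y₃ y₄ u x D)
    (t0 : 0 ≤ t) (t1 : t ≤ k / 20000) (q0 : 3 / 5 * k - t ≤ q) (q1 : q ≤ 17 / 20 * k + t)
    (p0 : k / 2 - 2 * x - t ≤ p) (p1 : p ≤ y₃ + y₄ + u + x + t) (um1 : um ≤ u + t) (um2 : 3 * um ≤ p + t)
    (v1 : v ≤ 2 * (y₃ + y₄ + u) - k + 3 * x + t)
    (v2 : v ≤ 3 / 4 * (y₃ + y₄ + u) + 3 * x + t) (δ0 : 0 ≤ δ) (b0 : 0 ≤ b)
    (hl : l ≤ v - 2 * δ + b + t) (x0' : 0 ≤ x') (x1' : x' ≤ x + t)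
    (hn : n ≤ p - δ - b + t) (hm : 3 * (m - x') ≤ n - x')
    (hT : T ≤ max (tL (max k (5 / 4 * (y₃ + y₄ + u))) b l n m) (l + n)) :
    2 / 3 * v + 2 * δ + T - p / 3 ≤ Gk (y₃ + y₄ + u) k q p um x D + 10 * t := by
  rcases le_max_iff.1 hT with hT | hT
  · obtain ⟨hT1, hT2⟩ := tL_cases (max k (5 / 4 * (y₃ + y₄ + u))) b l n m
    refine coreS hD t0 t1 q0 q1 p1 um1 um2 v1 v2 δ0 b0 hl x0' x1' hn hm (max_choice _ _)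
      (le_max_left _ _) (le_max_right _ _) (Gk_eq _ _ _ _ _ _ _).le (RSm_le0 _ _ _ _ _) ?_ ?_
    · exact hT1.imp hT.trans hT.trans
    · exact hT2.imp hT.trans fun h => h.imp hT.trans hT.trans
  · exact coreS' hD t0 t1 q0 q1 p0 p1 um1 um2 v1 v2 δ0 b0 hl hn (le_max_left _ _)
      (Gk_eq _ _ _ _ _ _ _).le (RSm_le0 _ _ _ _ _) hT

/-- **`c0` of `LnT`** -/
theorem c0_et {k y₃ y₄ u x D t q p um v δ b v' n m x' T h : ℝ} (hD : Dh k y₃ y₄ u x D)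
    (t0 : 0 ≤ t) (t1 : t ≤ k / 20000) (q0 : 3 / 5 * k - t ≤ q) (q1 : q ≤ 17 / 20 * k + t)
    (p0 : k / 2 - 2 * x - t ≤ p) (p1 : p ≤ y₃ + y₄ + u + x + t) (p2 : p ≤ y₃ + y₄ + um + x + t)
    (um0 : 0 ≤ um) (um1 : um ≤ u + t) (um2 : 3 * um ≤ p + t)
    (v1 : v ≤ 2 * (y₃ + y₄ + u) - k + 3 * x + t)
    (v2 : v ≤ 3 / 4 * (y₃ + y₄ + u) + 3 * x + t) (δ0 : 0 ≤ δ) (b0 : 0 ≤ b)
    (hl : v' ≤ v - 2 * δ + t) (x0' : 0 ≤ x') (x1' : x' ≤ x + t)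
    (hn : n ≤ p - δ - b + t) (hm : 3 * (m - x') ≤ n - x')
    (hT : T ≤ max (tL (max k (5 / 4 * (y₃ + y₄ + u))) b (v' + b) n m) (v' + b + n))
    (h1 : hL q v p δ x (max k (5 / 4 * (y₃ + y₄ + u))) (Gk (y₃ + y₄ + u) k q p um x D) - t ≤ h)
    (h2 : h ≤ hL q v p δ x (max k (5 / 4 * (y₃ + y₄ + u))) (Gk (y₃ + y₄ + u) k q p um x D) + t) :
    lw0 q v h + T + 2 * δ - p / 3 ≤ Gk (y₃ + y₄ + u) k q p um x D + 12 * t := by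
  have k0 := hD.k0
  have hN := hL_neg hD t0 t1 q0 q1 p0 p1 p2 um0 um1 um2 v1 v2 δ0
  have hA := tL_le' (q := q) (um := um) hD t0 t1 p0 v1 v2 δ0 b0
    (by linarith : v' + b ≤ v - 2 * δ + b + t) x0' x1' hn hm hT
  have hB := sL_le' hD t0 t1 q0 q1 p0 p1 um1 um2 v1 v2 δ0 b0
    (by linarith : v' + b ≤ v - 2 * δ + b + t) x0' x1' hn hm hT
  generalize hL q v p δ x (max k (5 / 4 * (y₃ + y₄ + u))) (Gk (y₃ + y₄ + u) k q p um x D) = H at *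
  have hw : lw0 q v h ≤ Gk (y₃ + y₄ + u) k q p um x D + 12 * t - (T + 2 * δ - p / 3) :=
    max_le (by linarith) (max_le (by linarith) (by linarith))
  linarith

/-- **`c1` of `LnT`** -/
theorem c1_et {k y₃ y₄ u x D t q p um v δ b v' n m x' T h : ℝ} (hD : Dh k y₃ y₄ u x D)
    (t0 : 0 ≤ t) (t1 : t ≤ k / 20000) (q0 : 3 / 5 * k - t ≤ q) (q1 : q ≤ 17 / 20 * k + t)
    (p0 : k / 2 - 2 * x - t ≤ p) (p1 : p ≤ y₃ + y₄ + u + x + t) (p2 : p ≤ y₃ + y₄ + um + x + t)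
    (um0 : 0 ≤ um) (um1 : um ≤ u + t) (um2 : 3 * um ≤ p + t)
    (v1 : v ≤ 2 * (y₃ + y₄ + u) - k + 3 * x + t)
    (v2 : v ≤ 3 / 4 * (y₃ + y₄ + u) + 3 * x + t) (δ0 : 0 ≤ δ) (b0 : 0 ≤ b)
    (hl : v' ≤ v - 2 * δ + t) (x0' : 0 ≤ x') (x1' : x' ≤ x + t)
    (hn : n ≤ p - δ - b + t) (hm : 3 * (m - x') ≤ n - x')
    (hT : T ≤ max (tL (max k (5 / 4 * (y₃ + y₄ + u))) b (v' + b) n m) (v' + b + n))
    (h1 : hL q v p δ x (max k (5 / 4 * (y₃ + y₄ + u))) (Gk (y₃ + y₄ + u) k q p um x D) - t ≤ h)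
    (h2 : h ≤ hL q v p δ x (max k (5 / 4 * (y₃ + y₄ + u))) (Gk (y₃ + y₄ + u) k q p um x D) + t) :
    lw1 q v h + T + 2 * δ + (v - 2 * δ - v') / 3 - p / 3 ≤
      Gk (y₃ + y₄ + u) k q p um x D + 12 * t := by
  have k0 := hD.k0
  have hth := thL_le hD t0 t1 q0 q1 p0 p1 p2 um0 um1 um2 v1 v2 δ0
  have hA := tL_le' (q := q) (um := um) hD t0 t1 p0 v1 v2 δ0 b0
    (by linarith : v' + b ≤ v - 2 * δ + b + t) x0' x1' hn hm hT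
  generalize hL q v p δ x (max k (5 / 4 * (y₃ + y₄ + u))) (Gk (y₃ + y₄ + u) k q p um x D) = H at *
  have hw : lw1 q v h ≤ Gk (y₃ + y₄ + u) k q p um x D + 12 * t -
      (T + 2 * δ + (v - 2 * δ - v') / 3 - p / 3) :=
    max_le (by linarith) (max_le (by linarith) (by linarith))
  linarith

end Crest.Agent.R017.P1L904
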