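import Crest.Agent.R017.P1L_904

/-!
# Row 17, R8: the class-form Gram sum, `T`-numbers with the own family `8/11 (l + n)` (helper904)

The branch `4/3 n + (8/11 (l + n) + l) / 3` of the `T`-number in the two `T`-lines.
-/

set_option autoImplicit false
set_option linter.unusedVariables false

noncomputable section

namespace Crest.Agent.R017.P1L904

open Crest.Agent.R017.RnP571 (Dh)
open Crest.Agent.R017.P1Q904 (gQ gQ_cases min3_le)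

/-- own family in the `T`-lines with cubes (no condition on the window) -/
lemma coreTw {k y₃ y₄ u x D t q p v δ b l n h G K5 T : ℝ} (hD : Dh k y₃ y₄ u x D)
    (t0 : 0 ≤ t) (t1 : t ≤ k / 20000) (p0 : k / 2 - 2 * x - t ≤ p)
    (v1 : v ≤ 2 * (y₃ + y₄ + u) - k + 3 * x + t)
    (v2 : v ≤ 3 / 4 * (y₃ + y₄ + u) + 3 * x + t) (δ0 : 0 ≤ δ) (b0 : 0 ≤ b)
    (hl : l ≤ v - 2 * δ + b + t) (hn : n ≤ p - δ - b + t) (hK' : k ≤ K5)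
    (hK'' : 5 / 4 * (y₃ + y₄ + u) ≤ K5) 
    (h1 : 2 * q + 3 * p + K5 - 3 * G ≤ h)
    (h2 : 2 * q + 3 * p + (4 / 3 * p + 2 / 3 * x - 4 / 3 * δ) - 3 * G ≤ h)
    (hT : T ≤ 4 / 3 * n + (8 / 11 * (l + n) + l) / 3) :
    2 / 3 * q - (h + p) / 3 + 4 / 3 * δ + b / 3 + T - l / 3 ≤ G + 10 * t := by
  obtain ⟨k0, u4, y43, u0, y3, N1, near, x0, adm, d0, d1⟩ := hD
  rcases adm with ⟨a0, rfl | a1⟩ | ⟨a1, a2, a3⟩ <;> linarith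

/-- own family in the line `(H V³ / K²)^(1/3)`, window `14/19 N + 9/4 x` -/
lemma coreSw {k y₃ y₄ u x D t q p um v δ b l n G R K5 T : ℝ} (hD : Dh k y₃ y₄ u x D)
    (t0 : 0 ≤ t) (t1 : t ≤ k / 20000) (q0 : 3 / 5 * k - t ≤ q) (q1 : q ≤ 17 / 20 * k + t)
    (p1 : p ≤ y₃ + y₄ + u + x + t) (um1 : um ≤ u + t) (um2 : 3 * um ≤ p + t)
    (v1 : v ≤ 2 * (y₃ + y₄ + u) - k + 9 / 4 * x + t)
    (v2 : v ≤ 14 / 19 * (y₃ + y₄ + u) + 9 / 4 * x + t) (δ0 : 0 ≤ δ) (b0 : 0 ≤ b)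
    (hl : l ≤ v - 2 * δ + b + t) (hn : n ≤ p - δ - b + t) (hK : K5 = k ∨ K5 = 5 / 4 * (y₃ + y₄ + u)) (hK' : k ≤ K5) (hK'' : 5 / 4 * (y₃ + y₄ + u) ≤ K5)
    (hG : 2 * (k + p + (K5 - k) - (k - q) / 3) + D / 2 - R ≤ G)
    (hR : R ≤ q + p ∨ R ≤ 2 / 3 * q + 4 / 3 * p + um / 2 ∨
      R ≤ 2 / 3 * q + 4 / 3 * p + 4 / 15 * (um + x))
    (hT : T ≤ 4 / 3 * n + (8 / 11 * (l + n) + l) / 3) :
    2 / 3 * v + 2 * δ + T - p / 3 ≤ G + 10 * t := by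
  obtain ⟨k0, u4, y43, u0, y3, N1, near, x0, adm, d0, d1⟩ := hD
  rcases hR with hR | hR | hR <;> rcases hK with rfl | rfl <;>
  rcases adm with ⟨a0, rfl | a1⟩ | ⟨a1, a2, a3⟩ <;> linarith

end Crest.Agent.R017.P1L904
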