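import Crest.Agent.R017.P1Ld_904

/-!
# Row 17, R8: the class-form Gram sum, numbers at the loss `F` of the claims (helper904)

Levels `+ 11/5 x`, room `Ge` (`3/5 D`), `0 ≤ F ≤ 5/9 D`, `h := hL .. (Ge - F)`.
* `thF_le`, `hF_neg` : `2 h + 3 v ≤ 2 q`, `h ≤ 0`
* `c0_F`, `c1_F` : the two lines of `LnT` at the room `Ge - F`
-/

set_option autoImplicit false
set_option linter.unusedVariables false

noncomputable section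

namespace Crest.Agent.R017.P1L7904

open Crest.Agent.R017.RnP571 (Dh)
open Crest.Agent.R017.P1L904 (RS0 RS1 RSm RSm_le0 RSm_le1 Ge Ge_eq hL hL_le hL_ge tL tL_cases lw0 lw1 tG_le)
open Crest.Agent.R017.P1Q904 (gQ gQ_cases min3_le)

set_option maxHeartbeats 8000000 in
/-- the linear core of the line `(H V³ / K²)^(1/3)` -/
lemma coreSF {k y₃ y₄ u x D t q p um v δ b l n m x' F B R K5 T : ℝ} (hD : Dh k y₃ y₄ u x D)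
    (t0 : 0 ≤ t) (t1 : t ≤ k / 20000) (q0 : 3 / 5 * k - t ≤ q) (q1 : q ≤ 7 / 8 * k + t)
    (p1 : p ≤ y₃ + y₄ + u + x + t) (um1 : um ≤ u + t) (um2 : 3 * um ≤ p + t)
    (v1 : v ≤ 2 * (y₃ + y₄ + u) - k + 11 / 5 * x + t)
    (v2 : v ≤ 3 / 4 * (y₃ + y₄ + u) + 11 / 5 * x + t) (δ0 : 0 ≤ δ) (b0 : 0 ≤ b)
    (hl : l ≤ v - 2 * δ + b + t) (x0' : 0 ≤ x') (x1' : x' ≤ x + t)
    (hn : n ≤ p - δ - b + t) (hm : 3 * (m - x') ≤ n - x')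
    (hK : K5 = k ∨ K5 = 5 / 4 * (y₃ + y₄ + u)) (hK' : k ≤ K5) (hK'' : 5 / 4 * (y₃ + y₄ + u) ≤ K5)
    (hG : 2 * (k + p + (K5 - k) - (k - q) / 3) + 3 / 5 * D - R ≤ B)
    (hR : R ≤ q + p ∨ R ≤ 2 / 3 * q + 4 / 3 * p + um / 2 ∨
      R ≤ 2 / 3 * q + 4 / 3 * p + 4 / 15 * (um + x))
    (F1 : F ≤ 5 / 9 * D)
    (hT1 : T ≤ l + n + m ∨ T ≤ 5 / 3 * n + l / 3)
    (hT2 : T ≤ 2 * n ∨ T ≤ 4 / 3 * n + (K5 + b / 2 + l) / 3 ∨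
      T ≤ 4 / 3 * n + (3 / 2 * l + l) / 3) :
    2 / 3 * v + 2 * δ + T - p / 3 ≤ B - F + 10 * t := by
  obtain ⟨k0, u4, y43, u0, y3, N1, near, x0, adm, d0, d1⟩ := hD
  rcases hR with hR | hR | hR <;> rcases hK with rfl | rfl <;>
  rcases hT1 with hT1 | hT1 <;> rcases hT2 with hT2 | hT2 | hT2 <;>
  rcases adm with ⟨a0, rfl | a1⟩ | ⟨a1, a2, a3⟩ <;> linarith

/-- the branch `l + n` of the line `(H V³ / K²)^(1/3)` -/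
lemma coreSF' {k y₃ y₄ u x D t q p um v δ b l n F B R K5 T : ℝ} (hD : Dh k y₃ y₄ u x D)
    (t0 : 0 ≤ t) (t1 : t ≤ k / 20000) (q0 : 3 / 5 * k - t ≤ q) (q1 : q ≤ 7 / 8 * k + t)
    (p0 : k / 2 - 2 * x - t ≤ p) (p1 : p ≤ y₃ + y₄ + u + x + t) (um1 : um ≤ u + t) (um2 : 3 * um ≤ p + t)
    (v1 : v ≤ 2 * (y₃ + y₄ + u) - k + 11 / 5 * x + t)
    (v2 : v ≤ 3 / 4 * (y₃ + y₄ + u) + 11 / 5 * x + t) (δ0 : 0 ≤ δ) (b0 : 0 ≤ b)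
    (hl : l ≤ v - 2 * δ + b + t) (hn : n ≤ p - δ - b + t) (hK' : k ≤ K5)
    (hG : 2 * (k + p + (K5 - k) - (k - q) / 3) + 3 / 5 * D - R ≤ B)
    (hR : R ≤ q + p ∨ R ≤ 2 / 3 * q + 4 / 3 * p + um / 2 ∨
      R ≤ 2 / 3 * q + 4 / 3 * p + 4 / 15 * (um + x))
    (F1 : F ≤ 5 / 9 * D)
    (hT : T ≤ l + n) :
    2 / 3 * v + 2 * δ + T - p / 3 ≤ B - F + 10 * t := by
  obtain ⟨k0, u4, y43, u0, y3, N1, near, x0, adm, d0, d1⟩ := hD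
  rcases hR with hR | hR | hR <;>
  rcases adm with ⟨a0, rfl | a1⟩ | ⟨a1, a2, a3⟩ <;> linarith

set_option maxHeartbeats 4000000 in
/-- the linear core of `H² V³ ≤ K²` -/
lemma coreThF {k y₃ y₄ u x D t q p um v δ h G R K5 : ℝ} (hD : Dh k y₃ y₄ u x D)
    (t0 : 0 ≤ t) (t1 : t ≤ k / 20000) (q0 : 3 / 5 * k - t ≤ q) (q1 : q ≤ 7 / 8 * k + t)
    (p0 : k / 2 - 2 * x - t ≤ p) (p1 : p ≤ y₃ + y₄ + u + x + t) (p2 : p ≤ y₃ + y₄ + um + x + t)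
    (um0 : 0 ≤ um) (um1 : um ≤ u + t) (um2 : 3 * um ≤ p + t)
    (v1 : v ≤ 2 * (y₃ + y₄ + u) - k + 11 / 5 * x + t)
    (v2 : v ≤ 3 / 4 * (y₃ + y₄ + u) + 11 / 5 * x + t) (δ0 : 0 ≤ δ)
    (hK : K5 = k ∨ K5 = 5 / 4 * (y₃ + y₄ + u)) (hK' : k ≤ K5) (hK'' : 5 / 4 * (y₃ + y₄ + u) ≤ K5)
    (hG : 2 * (k + p + (K5 - k) - (k - q) / 3) + 2 / 45 * D - R ≤ G)
    (hR : R ≤ q + p ∨ R ≤ p + (2 * q + k) / 3 ∨ R ≤ p + (2 * q + (p + um)) / 3 ∨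
      R ≤ p + (q + 2 * p + k / 3) / 3 ∨ R ≤ p + (q + 2 * p + (p + um) / 3) / 3 ∨
      R ≤ p + (q + 3 * p - 5 / 12 * (p + um - x)) / 3)
    (hh : h = 2 * q + 4 * p - δ - 3 * G ∨ h ≤ 2 * q + 3 * p + K5 - 3 * G ∨
        h ≤ 2 * q + 3 * p + (4 / 3 * p + 2 / 3 * x - 4 / 3 * δ) - 3 * G) :
    2 * h + 3 * v + k / 200 ≤ 2 * q := by
  obtain ⟨k0, u4, y43, u0, y3, N1, near, x0, adm, d0, d1⟩ := hD
  rcases hR with hR | hR | hR | hR | hR | hR <;> rcases hK with rfl | rfl <;>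
  rcases hh with hh | hh | hh <;>
  rcases adm with ⟨a0, rfl | a1⟩ | ⟨a1, a2, a3⟩ <;> linarith

set_option maxHeartbeats 8000000 in
lemma coreNF {k y₃ y₄ u x D t q p um v δ h G R K5 : ℝ} (hD : Dh k y₃ y₄ u x D)
    (t0 : 0 ≤ t) (t1 : t ≤ k / 20000) (q0 : 3 / 5 * k - t ≤ q) (q1 : q ≤ 7 / 8 * k + t)
    (p0 : k / 2 - 2 * x - t ≤ p) (p1 : p ≤ y₃ + y₄ + u + x + t) (p2 : p ≤ y₃ + y₄ + um + x + t)
    (um0 : 0 ≤ um) (um1 : um ≤ u + t) (um2 : 3 * um ≤ p + t)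
    (v1 : v ≤ 2 * (y₃ + y₄ + u) - k + 11 / 5 * x + t)
    (v2 : v ≤ 3 / 4 * (y₃ + y₄ + u) + 11 / 5 * x + t)
    (hK : K5 = k ∨ K5 = 5 / 4 * (y₃ + y₄ + u)) (hK' : k ≤ K5) (hK'' : 5 / 4 * (y₃ + y₄ + u) ≤ K5)
    (hG : 2 * (k + p + (K5 - k) - (k - q) / 3) + 2 / 45 * D - R ≤ G)
    (hR : R ≤ q + p ∨ R ≤ p + (2 * q + k) / 3 ∨ R ≤ p + (2 * q + (p + um)) / 3 ∨
      R ≤ p + (q + 2 * p + k / 3) / 3 ∨ R ≤ p + (q + 2 * p + (p + um) / 3) / 3 ∨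
      R ≤ p + (q + 3 * p - 5 / 12 * (p + um - x)) / 3)
    (δ0 : 0 ≤ δ) (hh : h = 2 * q + 4 * p - δ - 3 * G ∨ h ≤ 2 * q + 3 * p + K5 - 3 * G ∨
        h ≤ 2 * q + 3 * p + (4 / 3 * p + 2 / 3 * x - 4 / 3 * δ) - 3 * G) :
    h + k / 50 ≤ 0 := by
  obtain ⟨k0, u4, y43, u0, y3, N1, near, x0, adm, d0, d1⟩ := hD
  rcases hR with hR | hR | hR | hR | hR | hR <;> rcases hK with rfl | rfl <;>
  rcases hh with hh | hh | hh <;>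
  rcases adm with ⟨a0, rfl | a1⟩ | ⟨a1, a2, a3⟩ <;> linarith


/-- **`H² V³ ≤ K²`** -/
theorem thF_le {k y₃ y₄ u x D t q p um v δ F : ℝ} (hD : Dh k y₃ y₄ u x D)
    (t0 : 0 ≤ t) (t1 : t ≤ k / 20000) (q0 : 3 / 5 * k - t ≤ q) (q1 : q ≤ 7 / 8 * k + t)
    (p0 : k / 2 - 2 * x - t ≤ p) (p1 : p ≤ y₃ + y₄ + u + x + t) (p2 : p ≤ y₃ + y₄ + um + x + t)
    (um0 : 0 ≤ um) (um1 : um ≤ u + t) (um2 : 3 * um ≤ p + t)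
    (v1 : v ≤ 2 * (y₃ + y₄ + u) - k + 11 / 5 * x + t)
    (v2 : v ≤ 3 / 4 * (y₃ + y₄ + u) + 11 / 5 * x + t) (δ0 : 0 ≤ δ) (F1 : F ≤ 5 / 9 * D) :
    2 * hL q v p δ x (max k (5 / 4 * (y₃ + y₄ + u))) (Ge (y₃ + y₄ + u) k q p um x D - F) + 3 * v +
      k / 200 ≤ 2 * q := by
  refine coreThF (G := Ge (y₃ + y₄ + u) k q p um x D - F) hD t0 t1 q0 q1 p0 p1 p2 um0 um1 um2 v1 v2
    δ0 (max_choice _ _) (le_max_left _ _) (le_max_right _ _)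
    (by have := Ge_eq (y₃ + y₄ + u) k q p um x D; linarith) (RSm_le1 _ _ _ _ _) ?_
  rcases hL_le q v p δ x (max k (5 / 4 * (y₃ + y₄ + u))) (Ge (y₃ + y₄ + u) k q p um x D - F)
    with ⟨h, -⟩ | ⟨-, h | h⟩
  · exact Or.inl h
  · exact Or.inr (Or.inl h)
  · exact Or.inr (Or.inr h)

/-- `H < 1` -/
theorem hF_neg {k y₃ y₄ u x D t q p um v δ F : ℝ} (hD : Dh k y₃ y₄ u x D)
    (t0 : 0 ≤ t) (t1 : t ≤ k / 20000) (q0 : 3 / 5 * k - t ≤ q) (q1 : q ≤ 7 / 8 * k + t)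
    (p0 : k / 2 - 2 * x - t ≤ p) (p1 : p ≤ y₃ + y₄ + u + x + t) (p2 : p ≤ y₃ + y₄ + um + x + t)
    (um0 : 0 ≤ um) (um1 : um ≤ u + t) (um2 : 3 * um ≤ p + t)
    (v1 : v ≤ 2 * (y₃ + y₄ + u) - k + 11 / 5 * x + t)
    (v2 : v ≤ 3 / 4 * (y₃ + y₄ + u) + 11 / 5 * x + t) (δ0 : 0 ≤ δ) (F1 : F ≤ 5 / 9 * D) :
    hL q v p δ x (max k (5 / 4 * (y₃ + y₄ + u))) (Ge (y₃ + y₄ + u) k q p um x D - F) + k / 50 ≤ 0 := by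
  refine coreNF (G := Ge (y₃ + y₄ + u) k q p um x D - F) hD t0 t1 q0 q1 p0 p1 p2 um0 um1 um2 v1 v2
    (max_choice _ _) (le_max_left _ _) (le_max_right _ _)
    (by have := Ge_eq (y₃ + y₄ + u) k q p um x D; linarith) (RSm_le1 _ _ _ _ _) δ0 ?_
  rcases hL_le q v p δ x (max k (5 / 4 * (y₃ + y₄ + u))) (Ge (y₃ + y₄ + u) k q p um x D - F)
    with ⟨h, -⟩ | ⟨-, h | h⟩
  · exact Or.inl h
  · exact Or.inr (Or.inl h)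
  · exact Or.inr (Or.inr h)

/-- **the line `(H V³ / K²)^(1/3)`** at the loss `F` -/
theorem sF_le {k y₃ y₄ u x D t q p um v δ b l n m x' T F : ℝ} (hD : Dh k y₃ y₄ u x D)
    (t0 : 0 ≤ t) (t1 : t ≤ k / 20000) (q0 : 3 / 5 * k - t ≤ q) (q1 : q ≤ 7 / 8 * k + t)
    (p0 : k / 2 - 2 * x - t ≤ p) (p1 : p ≤ y₃ + y₄ + u + x + t) (um1 : um ≤ u + t) (um2 : 3 * um ≤ p + t)
    (v1 : v ≤ 2 * (y₃ + y₄ + u) - k + 11 / 5 * x + t)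
    (v2 : v ≤ 3 / 4 * (y₃ + y₄ + u) + 11 / 5 * x + t) (δ0 : 0 ≤ δ) (b0 : 0 ≤ b)
    (hl : l ≤ v - 2 * δ + b + t) (x0' : 0 ≤ x') (x1' : x' ≤ x + t)
    (hn : n ≤ p - δ - b + t) (hm : 3 * (m - x') ≤ n - x') (F1 : F ≤ 5 / 9 * D)
    (hT : T ≤ max (tL (max k (5 / 4 * (y₃ + y₄ + u))) b l n m) (l + n)) :
    2 / 3 * v + 2 * δ + T - p / 3 ≤ Ge (y₃ + y₄ + u) k q p um x D - F + 10 * t := by
  rcases le_max_iff.1 hT with hT | hT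
  · obtain ⟨hT1, hT2⟩ := tL_cases (max k (5 / 4 * (y₃ + y₄ + u))) b l n m
    refine coreSF hD t0 t1 q0 q1 p1 um1 um2 v1 v2 δ0 b0 hl x0' x1' hn hm (max_choice _ _)
      (le_max_left _ _) (le_max_right _ _) (Ge_eq _ _ _ _ _ _ _).le (RSm_le0 _ _ _ _ _) F1 ?_ ?_
    · exact hT1.imp hT.trans hT.trans
    · exact hT2.imp hT.trans fun h => h.imp hT.trans hT.trans
  · exact coreSF' hD t0 t1 q0 q1 p0 p1 um1 um2 v1 v2 δ0 b0 hl hn (le_max_left _ _)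
      (Ge_eq _ _ _ _ _ _ _).le (RSm_le0 _ _ _ _ _) F1 hT

/-- **`c0` of `LnT`** -/
theorem c0_F {k y₃ y₄ u x D t q p um v δ b v' n m x' T h F : ℝ} (hD : Dh k y₃ y₄ u x D)
    (t0 : 0 ≤ t) (t1 : t ≤ k / 20000) (q0 : 3 / 5 * k - t ≤ q) (q1 : q ≤ 7 / 8 * k + t)
    (p0 : k / 2 - 2 * x - t ≤ p) (p1 : p ≤ y₃ + y₄ + u + x + t) (p2 : p ≤ y₃ + y₄ + um + x + t)
    (um0 : 0 ≤ um) (um1 : um ≤ u + t) (um2 : 3 * um ≤ p + t)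
    (v1 : v ≤ 2 * (y₃ + y₄ + u) - k + 11 / 5 * x + t)
    (v2 : v ≤ 3 / 4 * (y₃ + y₄ + u) + 11 / 5 * x + t) (δ0 : 0 ≤ δ) (b0 : 0 ≤ b)
    (hl : v' ≤ v - 2 * δ + t) (x0' : 0 ≤ x') (x1' : x' ≤ x + t)
    (hn : n ≤ p - δ - b + t) (hm : 3 * (m - x') ≤ n - x') (F1 : F ≤ 5 / 9 * D)
    (hT : T ≤ max (tL (max k (5 / 4 * (y₃ + y₄ + u))) b (v' + b) n m) (v' + b + n))
    (h1 : hL q v p δ x (max k (5 / 4 * (y₃ + y₄ + u))) (Ge (y₃ + y₄ + u) k q p um x D - F) - t ≤ h)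
    (h2 : h ≤ hL q v p δ x (max k (5 / 4 * (y₃ + y₄ + u))) (Ge (y₃ + y₄ + u) k q p um x D - F) + t) :
    lw0 q v h + T + 2 * δ - p / 3 ≤ Ge (y₃ + y₄ + u) k q p um x D - F + 12 * t := by
  have k0 := hD.k0
  have x0 : 0 ≤ x := hD.x0
  have hN := hF_neg hD t0 t1 q0 q1 p0 p1 p2 um0 um1 um2 v1 v2 δ0 F1
  have hA := tG_le (q := q) (G := Ge (y₃ + y₄ + u) k q p um x D - F) hD t0 t1 p0
    (by linarith) (by linarith) δ0 b0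
    (by linarith : v' + b ≤ v - 2 * δ + b + t) x0' x1' hn hm hT
  have hB := sF_le hD t0 t1 q0 q1 p0 p1 um1 um2 v1 v2 δ0 b0
    (by linarith : v' + b ≤ v - 2 * δ + b + t) x0' x1' hn hm F1 hT
  generalize hL q v p δ x (max k (5 / 4 * (y₃ + y₄ + u))) (Ge (y₃ + y₄ + u) k q p um x D - F) = H at *
  have hw : lw0 q v h ≤ Ge (y₃ + y₄ + u) k q p um x D - F + 12 * t - (T + 2 * δ - p / 3) :=
    max_le (by linarith) (max_le (by linarith) (by linarith))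
  linarith

/-- **`c1` of `LnT`** -/
theorem c1_F {k y₃ y₄ u x D t q p um v δ b v' n m x' T h F : ℝ} (hD : Dh k y₃ y₄ u x D)
    (t0 : 0 ≤ t) (t1 : t ≤ k / 20000) (q0 : 3 / 5 * k - t ≤ q) (q1 : q ≤ 7 / 8 * k + t)
    (p0 : k / 2 - 2 * x - t ≤ p) (p1 : p ≤ y₃ + y₄ + u + x + t) (p2 : p ≤ y₃ + y₄ + um + x + t)
    (um0 : 0 ≤ um) (um1 : um ≤ u + t) (um2 : 3 * um ≤ p + t)
    (v1 : v ≤ 2 * (y₃ + y₄ + u) - k + 11 / 5 * x + t)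
    (v2 : v ≤ 3 / 4 * (y₃ + y₄ + u) + 11 / 5 * x + t) (δ0 : 0 ≤ δ) (b0 : 0 ≤ b)
    (hl : v' ≤ v - 2 * δ + t) (x0' : 0 ≤ x') (x1' : x' ≤ x + t)
    (hn : n ≤ p - δ - b + t) (hm : 3 * (m - x') ≤ n - x') (F1 : F ≤ 5 / 9 * D)
    (hT : T ≤ max (tL (max k (5 / 4 * (y₃ + y₄ + u))) b (v' + b) n m) (v' + b + n))
    (h1 : hL q v p δ x (max k (5 / 4 * (y₃ + y₄ + u))) (Ge (y₃ + y₄ + u) k q p um x D - F) - t ≤ h)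
    (h2 : h ≤ hL q v p δ x (max k (5 / 4 * (y₃ + y₄ + u))) (Ge (y₃ + y₄ + u) k q p um x D - F) + t) :
    lw1 q v h + T + 2 * δ + (v - 2 * δ - v') / 3 - p / 3 ≤
      Ge (y₃ + y₄ + u) k q p um x D - F + 12 * t := by
  have k0 := hD.k0
  have x0 : 0 ≤ x := hD.x0
  have hth := thF_le hD t0 t1 q0 q1 p0 p1 p2 um0 um1 um2 v1 v2 δ0 F1
  have hA := tG_le (q := q) (G := Ge (y₃ + y₄ + u) k q p um x D - F) hD t0 t1 p0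
    (by linarith) (by linarith) δ0 b0
    (by linarith : v' + b ≤ v - 2 * δ + b + t) x0' x1' hn hm hT
  generalize hL q v p δ x (max k (5 / 4 * (y₃ + y₄ + u))) (Ge (y₃ + y₄ + u) k q p um x D - F) = H at *
  have hw : lw1 q v h ≤ Ge (y₃ + y₄ + u) k q p um x D - F + 12 * t -
      (T + 2 * δ + (v - 2 * δ - v') / 3 - p / 3) :=
    max_le (by linarith) (max_le (by linarith) (by linarith))
  linarith

end Crest.Agent.R017.P1L7904
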