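import Crest.Agent.R017.P1yX_72
import Crest.Agent.R017.RdX_986

/-!
# Row 17, exceptional class (helper960): the mismatch from its six numbers

* **`p1mx_bind`**, **`p1ms_bind`** : `P1MX` / `P1MS` at `π` from helper72's `XMG`, `LTG`, `LRG` at the
  reduced data
-/

set_option autoImplicit false

noncomputable section

open Finset Filter
open scoped ComplexConjugate

namespace Crest.Agent.R017.P1MF960

open Crest.Agent.R012 Crest.Agent.R012.Eis
open Crest.Agent.R017.FE47 (PU cx SM)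
open Crest.Agent.R017.B770 Crest.Agent.R017.Prov71
open Crest.Agent.R017.E5B71 Crest.Agent.R017.E5L770
open Crest.Agent.R017.P1l54 (ParOK)
open Crest.Agent.R017.P1X960
open Crest.Agent.R017.P1MU960
open Crest.Agent.R017.P1yX72
open Crest.Agent.R017.Red848 (red Exc red_ok)

/-- **the mismatch, differences** -/
theorem p1mx_bind {Λ : Type*} {π : Λ → DPar} {h : ℝ → ℝ} {e0 c β : ℝ} (hP : ∀ lam, (π lam).OK)
    (hE : ∀ lam, Exc (π lam)) {Rh : ℝ} (hRh0 : 0 ≤ Rh) (hRh : ∀ u, cx h u ≠ 0 → |u| ≤ Rh)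
    (he0 : e0 ≤ 1) {Par : Set (Fin 3 ⊕ Fin 5 → ℝ)} {L0 : (Fin 3 ⊕ Fin 5 → ℝ) → ℝ}
    (hPar : ∀ p ∈ Par, ParOK p)
    {Hx : ℝ → BmX → List Pq → ℕ → Eis → ℕ → Eis → Eis → ℝ}
    (hX : XMG (fun lam => red (π lam)) h e0 c (okX fun lam => red (π lam))
      (αX (fun lam => red (π lam)) h) FrD β Par L0)
    (hT : LTG (fun lam => red (π lam)) h e0 c (okX fun lam => red (π lam))
      (αX (fun lam => red (π lam)) h) FrD β Par L0 Hx)
    (hR : LRG (fun lam => red (π lam)) h e0 c (okX fun lam => red (π lam))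
      (αX (fun lam => red (π lam)) h) FrD β Par L0 Hx) : P1MX π h e0 c β Par L0 :=
  RdX986.p1MX_red hP hE (p1MX_of_frame (fun lam => red_ok (hP lam) (hE lam)) hRh hPar
    (p1CXF_of (fun lam => red_ok (hP lam) (hE lam)) hRh0 hRh he0 hX hT hR))

/-- **the mismatch, single lists** -/
theorem p1ms_bind {Λ : Type*} {π : Λ → DPar} {h : ℝ → ℝ} {e0 c β : ℝ} (hP : ∀ lam, (π lam).OK)
    (hE : ∀ lam, Exc (π lam)) {Rh : ℝ} (hRh0 : 0 ≤ Rh) (hRh : ∀ u, cx h u ≠ 0 → |u| ≤ Rh)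
    (he0 : e0 ≤ 1) {Par : Set (Fin 3 ⊕ Fin 5 → ℝ)} {L0 : (Fin 3 ⊕ Fin 5 → ℝ) → ℝ}
    (hPar : ∀ p ∈ Par, ParOK p)
    {Hx : ℝ → BmX → List Pq → ℕ → Eis → ℕ → Eis → Eis → ℝ}
    (hX : XMG (fun lam => red (π lam)) h e0 c (okS fun lam => red (π lam))
      (αS (fun lam => red (π lam)) h) (FrS β) β Par L0)
    (hT : LTG (fun lam => red (π lam)) h e0 c (okS fun lam => red (π lam))
      (αS (fun lam => red (π lam)) h) (FrS β) β Par L0 Hx)
    (hR : LRG (fun lam => red (π lam)) h e0 c (okS fun lam => red (π lam))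
      (αS (fun lam => red (π lam)) h) (FrS β) β Par L0 Hx) : P1MS π h e0 c β Par L0 :=
  RdX986.p1MS_red hP hE (p1MS_of_frame (fun lam => red_ok (hP lam) (hE lam)) hRh hPar
    (p1CSF_of (fun lam => red_ok (hP lam) (hE lam)) hRh0 hRh he0 hX hT hR))

end Crest.Agent.R017.P1MF960
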