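import Crest.Agent.R017.P1MF_960
import Crest.Agent.R017.CRD_791
import Crest.Agent.R017.CRS_791
import Crest.Agent.R017.XMo_72
import Crest.Agent.R017.LT9b_957
import Crest.Agent.R017.LMXd_813
import Crest.Agent.R017.LRS_65
import Crest.Agent.R017.NrYV_960
import Crest.Agent.R017.RnXb_571
import Crest.Agent.R017.ExRed2_848
import Crest.Agent.R017.LfX_986

/-!
# Row 17, class E: the mismatch over the exact square (helper828)

* **`p1mx_of`**, **`p1ms_of`** : `P1MX`, `P1MS` over `ParS A d` from the exponent rules and the field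
  of near-equal lists at the reduced data
-/

set_option autoImplicit false

noncomputable section

open Complex Filter Topology

namespace Crest.Agent.R017.P1MH828

open Crest.Agent.R012 Crest.Agent.R012.Eis
open Crest.Agent.R017.FE47 (PU cx)
open Crest.Agent.R017.End699 (PF)
open Crest.Agent.R017.B770 Crest.Agent.R017.Prov71
open Crest.Agent.R017.ER911
open Crest.Agent.R017.SC777
open Crest.Agent.R017.E5B71 Crest.Agent.R017.E5L770
open Crest.Agent.R017.ExBox960 Crest.Agent.R017.ExP960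
open Crest.Agent.R017.P1X960
open Crest.Agent.R017.P1MU960
open Crest.Agent.R017.P1yX72
open Crest.Agent.R017.P1t54 (ParS LS0 parOK_Sq5)
open Crest.Agent.R017.P10146 (sq_facts)
open Crest.Agent.R017.TM708 (K5 T5)
open Crest.Agent.R017.TK708 (AllT)
open Crest.Agent.R017.D5X939 (D5X D5X_compact)
open Crest.Agent.R017.Red848 (red Exc red_ok)
open Crest.Agent.R017.PX764 (Dk)
open Crest.Agent.R017.XS0298 (S0K)
open Crest.Agent.R017.XEx298 (Rt)
open Crest.Agent.R017.NrX986 (NearAllX)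

variable {Λ : Type*} {π : Λ → DPar} {h : ℝ → ℝ} {c₀ : ℝ} {A d : ℝ}

lemma sqF_all (hd : 0 ≤ d) (hd1 : d ≤ 1 / 8) (hA1 : 16 * (1 - A) ≤ d) :
    ∀ p ∈ ParS A d, XMm72.SqF p := fun p hp => by
  obtain ⟨k0, k1, u4, u34, u23, y27, n0, n1, x0, hx⟩ := sq_facts hd hd1 hA1 hp
  exact ⟨n0, n1, x0, hx⟩

lemma hKf_all {β : ℝ} : ∀ p : IX5 → ℝ, prX p ∈ ParS A d → ZR β p → ∀ bb : Fin 5 → ℝ,
    bb = bNx p ∨ bb = bRx p → K5 bb ≤ max (cκ (prX p)) (5 / 4 * cN (prX p)) := by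
  intro p _ _ bb hbb
  rcases hbb with rfl | rfl
  · exact (LfX986.K5_bN p).le
  · exact ((LfX986.K5_bR p).trans (LfX986.K5_bN p)).le

lemma hTf_all {β : ℝ} : ∀ p : IX5 → ℝ, prX p ∈ ParS A d → ZR β p → ∀ bb : Fin 5 → ℝ,
    bb = bNx p ∨ bb = bRx p →
    min (2 * cN (prX p) - cκ (prX p)) (3 / 4 * cN (prX p)) + 5 * cx' (prX p) ≤ T5 bb := by
  intro p _ _ bb hbb
  have h1 : min (2 * cN (prX p) - cκ (prX p)) (3 / 4 * cN (prX p)) + 5 * cx' (prX p) =
      T5 (bNx p) := rfl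
  rcases hbb with rfl | rfl
  · exact h1.le
  · exact (h1.trans (LfP986.T5_bR p).symm).le

lemma hℓ_all (hd : 0 ≤ d) (hd1 : d ≤ 1 / 8) (hA1 : 16 * (1 - A) ≤ d) {β : ℝ} :
    ∀ p : IX5 → ℝ, prX p ∈ ParS A d → ZR β p → ∀ bb : Fin 5 → ℝ,
    bb = bNx p ∨ bb = bRx p → 0 ≤ 3 / 4 * d * bb 0 ∧
      max 0 (5 / 4 * cN (prX p) - cκ (prX p)) + 3 / 4 * d * bb 0 ≤ LS0 d (prX p) := by
  intro p hp _ bb hbb
  obtain ⟨k0, -⟩ := sq_facts hd hd1 hA1 hp
  have hk : 0 ≤ cκ (prX p) := by linarith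
  have h0 : bb 0 = cκ (prX p) := by rcases hbb with rfl | rfl <;> rfl
  rw [h0]
  exact ⟨by positivity, le_of_eq rfl⟩

lemma hL0_all (hd : 0 ≤ d) (hd1 : d ≤ 1 / 8) (hA1 : 16 * (1 - A) ≤ d) :
    ∀ p ∈ ParS A d, LS0 d p ≤ 10 := by
  intro p hp
  obtain ⟨k0, k1, u4, u34, u23, y27, n0, n1, x0, hx⟩ := sq_facts hd hd1 hA1 hp
  unfold P1t54.LS0
  have h1 : max 0 (5 / 4 * cN p - cκ p) ≤ 2 := max_le (by norm_num) (by linarith)
  have h2 : 3 / 4 * d * cκ p ≤ 3 / 4 * d * 1 := mul_le_mul_of_nonneg_left k1 (by positivity)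
  linarith

lemma hu_all (hd : 0 ≤ d) (hd1 : d ≤ 1 / 8) (hA0 : A ≤ 1) (hA1 : 16 * (1 - A) ≤ d) :
    ∀ p ∈ ParS A d, 11 / 50 * cκ p ≤ cu p 2 ∧ 11 / 50 * cκ p ≤ cu p 3 := by
  intro p hp
  have H := E3Nx744.dh_sq5 hd hd1 hA0 hA1 hp
  have h1 := H.u0
  have h2 := H.u4
  have h3 := H.y43
  exact ⟨h1.trans (h2.trans h3), h1.trans h2⟩

/-- **the core of the differences** over the square -/
theorem coreD (hpu : PU h c₀) (hP : ∀ lam, (π lam).OK) (hE : ∀ lam, Exc (π lam)) (hd : 0 ≤ d)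
    (hd1 : d ≤ 1 / 42) (hA1 : 16 * (1 - A) ≤ d) {s : EF}
    (R : ExpRules (7 / 8 + d) (ex Dq (fun lam => Rt (red (π lam)) h)) s)
    (Rm : ExpRGFz (7 / 8 + d) (ex Dq (fun lam => Rt (red (π lam)) h)) s
      (ex Dq (fun lam => S0K Dk (red (π lam)) h)))
    (near : NearAllX d (ex Dq (fun lam => S0K Dk (red (π lam)) h)))
    {Rh : ℝ} (hRh0 : 0 ≤ Rh) (hRh : ∀ u, cx h u ≠ 0 → |u| ≤ Rh) {e0 c : ℝ} :
    CoreG (fun lam => red (π lam)) h e0 c (okX fun lam => red (π lam))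
      (αX (fun lam => red (π lam)) h) FrD (17 / 100) (ParS A d) K5 T5
      (fun b => 3 / 4 * d * b 0) d CR791.S0X :=
  CR791.core_D (D5 := D5X) hpu (fun lam => red_ok (hP lam) (hE lam))
    (fun lam => LfP986.npm_one (π lam)) hRh0 hRh Rm.toExpS0
    (TK708.allT_of R Rm.toExpS0 hd (by linarith)) LfX986.K5_cont
    (by unfold TM708.T5; fun_prop) D5X_compact (fun b hb => hb.1.x0) (by fun_prop)
    (NrYV960.clG_D R Rm hd (by linarith) near)
    (fun p hp _ => NrX986.bN_mem hd (by linarith) hA1 hp)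
    (fun p hp hz => NrX986.bR_mem hd (by linarith) hA1 hp hz)

/-- **the core of the single lists** over the square -/
theorem coreS (hpu : PU h c₀) (hP : ∀ lam, (π lam).OK) (hE : ∀ lam, Exc (π lam)) (hd : 0 ≤ d)
    (hd1 : d ≤ 1 / 42) (hA1 : 16 * (1 - A) ≤ d) {s : EF}
    (R : ExpRules (7 / 8 + d) (ex Dq (fun lam => Rt (red (π lam)) h)) s)
    (Rm : ExpRGFz (7 / 8 + d) (ex Dq (fun lam => Rt (red (π lam)) h)) s
      (ex Dq (fun lam => S0K Dk (red (π lam)) h)))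
    (near : NearAllX d (ex Dq (fun lam => S0K Dk (red (π lam)) h)))
    {Rh : ℝ} (hRh0 : 0 ≤ Rh) (hRh : ∀ u, cx h u ≠ 0 → |u| ≤ Rh) {e0 c : ℝ} :
    CoreG (fun lam => red (π lam)) h e0 c (okS fun lam => red (π lam))
      (αS (fun lam => red (π lam)) h) (FrS (17 / 100)) (17 / 100) (ParS A d) K5 T5
      (fun b => 3 / 4 * d * b 0) d (fun _ => 0) :=
  CR791.core_S (D5 := D5X) hpu (fun lam => red_ok (hP lam) (hE lam))
    hRh0 hRh Rm.toExpS0
    (TK708.allT_of R Rm.toExpS0 hd (by linarith)) LfX986.K5_cont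
    (by unfold TM708.T5; fun_prop) D5X_compact (fun b hb => hb.1.x0) (by fun_prop)
    (NrYV960.clG_D R Rm hd (by linarith) near)
    (fun p hp _ => NrX986.bN_mem hd (by linarith) hA1 hp)
    (fun p hp hz => NrX986.bR_mem hd (by linarith) hA1 hp hz)

/-- **the mismatch of the differences over the exact square** -/
theorem p1mx_of (hpu : PU h c₀) (hP : ∀ lam, (π lam).OK) (hE : ∀ lam, Exc (π lam)) (hd : 0 ≤ d)
    (hd1 : d ≤ 1 / 42) (hA : 9 / 10 ≤ A) (hA0 : A ≤ 1) (hA1 : 16 * (1 - A) ≤ d)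
    (hPF : PF Set.univ (7 / 8 + d)) {s : EF}
    (R : ExpRules (7 / 8 + d) (ex Dq (fun lam => Rt (red (π lam)) h)) s)
    (Rm : ExpRGFz (7 / 8 + d) (ex Dq (fun lam => Rt (red (π lam)) h)) s
      (ex Dq (fun lam => S0K Dk (red (π lam)) h)))
    (near : NearAllX d (ex Dq (fun lam => S0K Dk (red (π lam)) h)))
    {Rh : ℝ} (hRh0 : 0 ≤ Rh) (hRh : ∀ u, cx h u ≠ 0 → |u| ≤ Rh) :
    P1MX π h (1 / 64) (d / 4) (17 / 100) (ParS A d) (LS0 d) := by
  have hP' : ∀ lam, (red (π lam)).OK := fun lam => red_ok (hP lam) (hE lam)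
  have hNC : ∀ lam, ∀ k : Eis, k ≠ 0 →
      (Sup271.NPm (red (π lam)).n (red (π lam)).ψ (red (π lam)).l₂ k ↔ T411.NCube k) :=
    fun lam k hk => Red848.NPm_red_iff (hP lam).ψ.q0 hk
  have hC := coreD (A := A) (e0 := 1 / 64) (c := d / 4) hpu hP hE hd hd1 hA1 R Rm near hRh0 hRh
  exact P1MF960.p1mx_bind hP hE hRh0 hRh (by norm_num) (fun p hp => parOK_Sq5 hA hp)
    (XMm72.xmD_of hP' hRh0 hRh (by linarith) (by linarith) le_rfl (by norm_num)
      (sqF_all hd (by linarith) hA1) (hu_all hd (by linarith) hA0 hA1) hKf_all hTf_all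
      (hℓ_all hd (by linarith) hA1) (hL0_all hd (by linarith) hA1) hC)
    (LT9957.ltG9_D hP' hRh0 hRh hd (by linarith) hA0 hA1 (by linarith) (by linarith)
      (fun _ => le_rfl) hC)
    (LMX813.lrx_D hpu hP' (fun lam => LfP986.npm_one (π lam))
      (RnX571.rmx_NC hpu hP' hNC R hPF hd (by linarith) (8 + 2)) (by linarith) (by linarith)
      le_rfl (by norm_num) (fun p hp => E3Nx744.dh_sq5 hd (by linarith) hA0 hA1 hp)
      (by norm_num) le_rfl
      (fun p _ => le_of_eq (by unfold P1Q904.LQ P1t54.LS0; ring)))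

/-- **the mismatch of the single lists over the exact square** -/
theorem p1ms_of (hpu : PU h c₀) (hP : ∀ lam, (π lam).OK) (hE : ∀ lam, Exc (π lam)) (hd : 0 ≤ d)
    (hd1 : d ≤ 1 / 42) (hA : 9 / 10 ≤ A) (hA0 : A ≤ 1) (hA1 : 16 * (1 - A) ≤ d) {s : EF}
    (R : ExpRules (7 / 8 + d) (ex Dq (fun lam => Rt (red (π lam)) h)) s)
    (Rm : ExpRGFz (7 / 8 + d) (ex Dq (fun lam => Rt (red (π lam)) h)) s
      (ex Dq (fun lam => S0K Dk (red (π lam)) h)))
    (near : NearAllX d (ex Dq (fun lam => S0K Dk (red (π lam)) h)))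
    {Rh : ℝ} (hRh0 : 0 ≤ Rh) (hRh : ∀ u, cx h u ≠ 0 → |u| ≤ Rh) :
    P1MS π h (1 / 64) (d / 4) (17 / 100) (ParS A d) (LS0 d) := by
  have hP' : ∀ lam, (red (π lam)).OK := fun lam => red_ok (hP lam) (hE lam)
  have hC := coreS (A := A) (e0 := 1 / 64) (c := d / 4) hpu hP hE hd hd1 hA1 R Rm near hRh0 hRh
  exact P1MF960.p1ms_bind hP hE hRh0 hRh (by norm_num) (fun p hp => parOK_Sq5 hA hp)
    (XMm72.xmS_of hP' hRh0 hRh (by linarith) (by linarith) le_rfl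
      (sqF_all hd (by linarith) hA1) hKf_all hTf_all
      (hℓ_all hd (by linarith) hA1) (hL0_all hd (by linarith) hA1) hC)
    (LT9957.ltG9_S hP' hRh0 hRh hd (by linarith) hA0 hA1 (by linarith) (by linarith) hC)
    (LRS65.lrs_HmS hP' hRh (by linarith) (by linarith) le_rfl
      (fun p hp => E3Nx744.dh_sq5 hd (by linarith) hA0 hA1 hp))

end Crest.Agent.R017.P1MH828
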