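import Crest.Agent.R017.P1Mf_828
import Crest.Agent.R017.LTb_404
import Crest.Agent.R017.BdN_858

/-!
# Row 17, R8/P1: the mismatch, class N, closed (helper828)

* **`p1M_of`** : `P1M` over the exact square from the exponent rules and the near lists
* **`p1m_N`** : the field `p1m` of class N
-/

set_option autoImplicit false

noncomputable section

open Complex Filter Topology

namespace Crest.Agent.R017.P1Mg828

open Crest.Agent.R012 Crest.Agent.R012.Eis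
open Crest.Agent.R017.FE47 (PU cx)
open Crest.Agent.R017.XG702 (BG)
open Crest.Agent.R017.Prov71
open Crest.Agent.R017.B770
open Crest.Agent.R017.ER911 Crest.Agent.R017.ExpC702
open Crest.Agent.R017.XPD571 (RP0)
open Crest.Agent.R017.SC777
open Crest.Agent.R017.NE73
open Crest.Agent.R017.E5B71 Crest.Agent.R017.E5L770
open Crest.Agent.R017.End699 (PF)
open Crest.Agent.R017.Fin4 Crest.Agent.R017.Fin5 Crest.Agent.R017.Fin6
open Crest.Agent.R017.P1t54 (ParS LS0)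
open Crest.Agent.R017.P1l54
open Crest.Agent.R017.Sg986 (AA AA_lt AA_eq AA_ge)
open Crest.Agent.R017.NrA986 (NearAll)

/-- **the mismatch over the exact square** -/
theorem p1M_of {Λ : Type} {π : Λ → DPar} {h : ℝ → ℝ} {c₀ : ℝ} (hpu : PU h c₀)
    (hP : ∀ lam, (π lam).OK) {sf : EF} {d A : ℝ}
    (R : ExpRules (7 / 8 + d) (ex Dq (fun lam => Rp (π lam) h)) sf)
    (Rm : ExpRGFz (7 / 8 + d) (ex Dq (fun lam => Rp (π lam) h)) sf
      (ex Dq (fun lam => S0p (π lam) h)))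
    (hcolP : ∀ (i : ℝ) (u : List ℝ) (m a : ℝ), 0 ≤ i → Okl u m a →
      BG Dq (RP0 π h) i u (wt m a) (2 * a + 2 * (7 / 8 + d) * m))
    (hd : 0 < d) (hd1 : d ≤ 1 / 42) (hA0 : A ≤ 1) (hA : 9 / 10 ≤ A) (hA1 : 16 * (1 - A) ≤ d)
    (hG : ∀ κ S y₁ y₂ y₃ : ℝ, NearDom κ S y₁ y₂ y₃ →
      NEF (ex Dq (fun lam => S0p (π lam) h)) κ S y₁ y₂ y₃ (2 * d * y₃))
    {Rh : ℝ} (hRh0 : 0 ≤ Rh) (hRh : ∀ u : ℝ, cx h u ≠ 0 → |u| ≤ Rh) :
    P1M π h (1 / 64) (ParS A d) (LS0 d) :=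
  P1Mf828.p1M_N (s₁ := sf) hpu hP R Rm hcolP hd hd1 hA0 hA hA1 hG hRh0 hRh
    (LT404.ltu_of hpu hP hRh0 hRh hd.le (by linarith) hA1 Rm.toExpS0
      (TK708.allT_of R Rm.toExpS0 hd.le (by linarith))
      (P1Mf828.fe2V_D5 R Rm hd.le (by linarith) hG))

/-- **the field `p1m` of class N** -/
theorem p1m_N {d : ℝ} (hd : 0 < d) (hd1 : d ≤ 1 / 42) {h : ℝ → ℝ} {c₀ : ℝ} (hpu : PU h c₀)
    (hPF : PF Set.univ (7 / 8 + d)) (hB : BunA d h) (hR : RecA d h) {r : ℝ} (hr0 : 0 ≤ r)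
    (hr : ∀ u : ℝ, cx h u ≠ 0 → |u| ≤ r)
    (hnear : NearAll d (ex Dq (fun lam => S0p (πN lam) h))) :
    P1M πN h (1 / 64) (ParS (AA d) d) (LS0 d) := by
  have P : BunN d h := hB _ πN πN_ok πN_cl
  have G := hR _ πN πN_ok πN_cl clo_πN
  have hA := AA_ge hd1
  exact p1M_of hpu πN_ok P.rules G
    (Col298.colP (θ := 7 / 8 + d) (by linarith) (by linarith) hPF hpu πN πN_ok
      (fun lam k hk => πN_cl lam k hk))
    hd hd1 (AA_lt hd).le (by linarith) (AA_eq d) hnear hr0 hr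

end Crest.Agent.R017.P1Mg828
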