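import Crest.Agent.R017.P1L_904

/-!
# Row 17, R8: the class-form Gram sum at near lists, complete part (helper904)

Homogeneous, `k` = family, `q` = family of the Gram sum, `hc` = exponent of the second scale, `p` =
length of the list, `u` = smallest lump, no share, `v` = level, `t` = tolerance. `Dc` : the domain.
`Gc` : the room (cost `hc / 3` in place of `(k - q) / 3`). `hn_neg`,
`c0_ne`, `c1_ne` : the lines of helper90's `LnT`; `coreNe`, `coreNe2` : the structured part.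
-/

set_option autoImplicit false
set_option linter.unusedVariables false

noncomputable section

namespace Crest.Agent.R017.P1Nb904

open Crest.Agent.R017.P1Q904 (gQ gQ_cases min3_le)
open Crest.Agent.R017.P1L904

/-- weights of the cube-free lines -/
def lw0 (k v h : ℝ) : ℝ := max (2 / 3 * k - v / 3) (max (2 / 3 * k - (h + v) / 3) (2 / 3 * v))

/-- weights of the lines with cubes -/
def lw1 (k v h : ℝ) : ℝ :=
  max (2 / 3 * k - (h + v) / 3) (max (h / 3 + 2 / 3 * v) (2 / 3 * h + 7 / 6 * v - k / 3))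

/-- the near lists, complete part -/
structure Dc (k p u v q hc t : ℝ) : Prop where
  k0 : 0 < k
  t0 : 0 ≤ t
  t1 : t ≤ k / 20000
  p0 : 3 / 4 * k ≤ p + t
  p1 : p ≤ 4 / 5 * k + t
  near : k ≤ p + u + t
  u3 : 3 * u ≤ p + t
  S : 5 * (v + p) ≤ 7 * k + t
  v0 : 0 ≤ v
  h0 : 0 ≤ hc
  h1 : 3 * hc ≤ 4 * p - 3 * k + k / 100
  h2 : 4 * p - 3 * k ≤ 3 * hc + t
  q0 : 0 ≤ q
  q1 : q + hc ≤ 97 / 100 * k + t

/-- the room -/
def Gc (k q p u hc : ℝ) : ℝ := 2 * (k + p) - 2 / 3 * hc - RSm k q p u 0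

/-- the exponent of `H` -/
def hn (k q v p δ u hc : ℝ) : ℝ := hL q v p δ 0 k (Gc k q p u hc)

/-- closes against the target -/
theorem ne_E (k q p u hc F : ℝ) :
    hc / 3 + ((Gc k q p u hc + F) + (RSm k q p u 0 + F)) / 2 ≤ k + p + F := by
  unfold Gc; linarith

lemma coreT {k p u v q hc t δ b l n m h G T : ℝ} (hD : Dc k p u v q hc t) (δ0 : 0 ≤ δ) (b0 : 0 ≤ b)
    (hl : l ≤ v - 2 * δ + b + t) (hn : n ≤ p - δ - b + t) (hm : 3 * m ≤ n)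
    (hh0 : 2 * q + 4 * p - δ - 3 * G ≤ h)
    (hh : 2 * q + 2 * v + 3 * p + 2 * 0 - 4 * δ - 3 * G ≤ h ∨
      (2 * q + 3 * p + k - 3 * G ≤ h ∧
        2 * q + 3 * p + (4 / 3 * p + 2 / 3 * 0 - 4 / 3 * δ) - 3 * G ≤ h))
    (hT : T ≤ l + n ∨ ((T ≤ l + n + m ∨ T ≤ 5 / 3 * n + l / 3) ∧
      (T ≤ 2 * n ∨ T ≤ 4 / 3 * n + (k + b / 2 + l) / 3 ∨ T ≤ 4 / 3 * n + (3 / 2 * l + l) / 3))) :
    2 / 3 * q - (h + p) / 3 + 4 / 3 * δ + b / 3 + T - l / 3 ≤ G + 10 * t := by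
  obtain ⟨k0, t0, t1, p0, p1, near, u3, S, v0, h00, h11, h22, q0, q1⟩ := hD
  rcases hT with hT | ⟨hT1, hT2⟩
  · rcases hh with hh | ⟨h1, h2⟩ <;> linarith
  rcases hT1 with hT1 | hT1
  swap
  · linarith
  rcases hh with hh | ⟨h1, h2⟩
  · linarith
  · rcases hT2 with hT2 | hT2 | hT2 <;> linarith

set_option maxHeartbeats 1000000 in
lemma coreS {k p u v q hc t δ b l n m G R T : ℝ} (hD : Dc k p u v q hc t) (δ0 : 0 ≤ δ) (b0 : 0 ≤ b)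
    (hl : l ≤ v - 2 * δ + b + t) (hn : n ≤ p - δ - b + t) (hm : 3 * m ≤ n)
    (hG : 2 * (k + p) - 2 / 3 * hc - R ≤ G)
    (hR : R ≤ q + p ∨ R ≤ p + (2 * q + k) / 3 ∨ R ≤ p + (2 * q + (p + u)) / 3 ∨
      R ≤ p + (q + 2 * p + k / 3) / 3 ∨ R ≤ p + (q + 2 * p + (p + u) / 3) / 3 ∨
      R ≤ p + (q + 3 * p - 5 / 12 * (p + u - 0)) / 3)
    (hT : T ≤ l + n ∨ ((T ≤ l + n + m ∨ T ≤ 5 / 3 * n + l / 3) ∧
      (T ≤ 2 * n ∨ T ≤ 4 / 3 * n + (k + b / 2 + l) / 3 ∨ T ≤ 4 / 3 * n + (3 / 2 * l + l) / 3))) :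
    2 / 3 * v + 2 * δ + T - p / 3 ≤ G + 10 * t := by
  obtain ⟨k0, t0, t1, p0, p1, near, u3, S, v0, h00, h11, h22, q0, q1⟩ := hD
  rcases hR with hR | hR | hR | hR | hR | hR <;>
  rcases hT with hT | ⟨hT1 | hT1, hT2 | hT2 | hT2⟩ <;> linarith

set_option maxHeartbeats 1000000 in
lemma coreTh {k p u v q hc t δ h G R : ℝ} (hD : Dc k p u v q hc t) (δ0 : 0 ≤ δ)
    (hG : 2 * (k + p) - 2 / 3 * hc - R ≤ G)
    (hR : R ≤ q + p ∨ R ≤ p + (2 * q + k) / 3 ∨ R ≤ p + (2 * q + (p + u)) / 3 ∨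
      R ≤ p + (q + 2 * p + k / 3) / 3 ∨ R ≤ p + (q + 2 * p + (p + u) / 3) / 3 ∨
      R ≤ p + (q + 3 * p - 5 / 12 * (p + u - 0)) / 3)
    (hh : h = 2 * q + 4 * p - δ - 3 * G ∨ h ≤ 2 * q + 3 * p + k - 3 * G ∨
        h ≤ 2 * q + 3 * p + (4 / 3 * p + 2 / 3 * 0 - 4 / 3 * δ) - 3 * G) :
    2 * h + 3 * v + k / 100 ≤ 2 * q ∧ h + k / 20 ≤ 0 := by
  obtain ⟨k0, t0, t1, p0, p1, near, u3, S, v0, h00, h11, h22, q0, q1⟩ := hD
  rcases hR with hR | hR | hR | hR | hR | hR <;> rcases hh with hh | hh | hh <;>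
  constructor <;> linarith

theorem thn_le {k p u v q hc t δ : ℝ} (hD : Dc k p u v q hc t) (δ0 : 0 ≤ δ) :
    2 * hn k q v p δ u hc + 3 * v + k / 100 ≤ 2 * q ∧ hn k q v p δ u hc + k / 20 ≤ 0 := by
  refine coreTh (R := RSm k q p u 0) hD δ0 le_rfl (RSm_le1 _ _ _ _ _) ?_
  rcases hL_le q v p δ 0 k (Gc k q p u hc) with ⟨h, -⟩ | ⟨-, h | h⟩
  · exact Or.inl h
  · exact Or.inr (Or.inl h)
  · exact Or.inr (Or.inr h)

lemma tcase {k b l n m T : ℝ} (hT : T ≤ max (tL k b l n m) (l + n)) :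
    T ≤ l + n ∨ ((T ≤ l + n + m ∨ T ≤ 5 / 3 * n + l / 3) ∧
      (T ≤ 2 * n ∨ T ≤ 4 / 3 * n + (k + b / 2 + l) / 3 ∨ T ≤ 4 / 3 * n + (3 / 2 * l + l) / 3)) := by
  rcases le_max_iff.1 hT with hT | hT
  · obtain ⟨hT1, hT2⟩ := tL_cases k b l n m
    exact Or.inr ⟨hT1.imp hT.trans hT.trans, hT2.imp hT.trans fun h => h.imp hT.trans hT.trans⟩
  · exact Or.inl hT

/-- **`c0` of `LnT`** -/
theorem c0_ne {k p u v q hc t δ b v' n m T h : ℝ} (hD : Dc k p u v q hc t) (δ0 : 0 ≤ δ) (b0 : 0 ≤ b)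
    (hl : v' ≤ v - 2 * δ + t) (hn' : n ≤ p - δ - b + t) (hm : 3 * m ≤ n)
    (hT : T ≤ max (tL k b (v' + b) n m) (v' + b + n))
    (h1 : hn k q v p δ u hc - t ≤ h) (h2 : h ≤ hn k q v p δ u hc + t) :
    lw0 q v h + T + 2 * δ - p / 3 ≤ Gc k q p u hc + 12 * t := by
  have k0 := hD.k0
  have t0 := hD.t0
  have t1 := hD.t1
  obtain ⟨-, hN⟩ := thn_le hD δ0
  have hA := coreT (G := Gc k q p u hc) hD δ0 b0 (by linarith : v' + b ≤ v - 2 * δ + b + t) hn' hm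
    (hL_ge _ _ _ _ _ _ _).1 (hL_ge _ _ _ _ _ _ _).2 (tcase hT)
  have hB := coreS (G := Gc k q p u hc) (R := RSm k q p u 0) hD δ0 b0
    (by linarith : v' + b ≤ v - 2 * δ + b + t) hn' hm le_rfl (RSm_le1 _ _ _ _ _) (tcase hT)
  change 2 / 3 * q - (hn k q v p δ u hc + p) / 3 + 4 / 3 * δ + b / 3 + T - (v' + b) / 3 ≤
    Gc k q p u hc + 10 * t at hA
  generalize hn k q v p δ u hc = H at *
  have hw : lw0 q v h ≤ Gc k q p u hc + 12 * t - (T + 2 * δ - p / 3) :=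
    max_le (by linarith) (max_le (by linarith) (by linarith))
  linarith

/-- **`c1` of `LnT`** -/
theorem c1_ne {k p u v q hc t δ b v' n m T h : ℝ} (hD : Dc k p u v q hc t) (δ0 : 0 ≤ δ) (b0 : 0 ≤ b)
    (hl : v' ≤ v - 2 * δ + t) (hn' : n ≤ p - δ - b + t) (hm : 3 * m ≤ n)
    (hT : T ≤ max (tL k b (v' + b) n m) (v' + b + n))
    (h1 : hn k q v p δ u hc - t ≤ h) (h2 : h ≤ hn k q v p δ u hc + t) :
    lw1 q v h + T + 2 * δ + (v - 2 * δ - v') / 3 - p / 3 ≤ Gc k q p u hc + 12 * t := by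
  have k0 := hD.k0
  have t0 := hD.t0
  have t1 := hD.t1
  obtain ⟨hth, -⟩ := thn_le hD δ0
  have hA := coreT (G := Gc k q p u hc) hD δ0 b0 (by linarith : v' + b ≤ v - 2 * δ + b + t) hn' hm
    (hL_ge _ _ _ _ _ _ _).1 (hL_ge _ _ _ _ _ _ _).2 (tcase hT)
  change 2 / 3 * q - (hn k q v p δ u hc + p) / 3 + 4 / 3 * δ + b / 3 + T - (v' + b) / 3 ≤
    Gc k q p u hc + 10 * t at hA
  generalize hn k q v p δ u hc = H at *
  have hw : lw1 q v h ≤ Gc k q p u hc + 12 * t - (T + 2 * δ + (v - 2 * δ - v') / 3 - p / 3) :=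
    max_le (by linarith) (max_le (by linarith) (by linarith))
  linarith

/-- in the low regime there is no structured part -/
lemma coreE {k p u v q hc t w δ h G R : ℝ} (hD : Dc k p u v q hc t) (δ0 : 0 ≤ δ)
    (hG : 2 * (k + p) - 2 / 3 * hc - R ≤ G)
    (hR : R ≤ q + p ∨ R ≤ p + (2 * q + k) / 3 ∨ R ≤ p + (2 * q + (p + u)) / 3 ∨
      R ≤ p + (q + 2 * p + k / 3) / 3 ∨ R ≤ p + (q + 2 * p + (p + u) / 3) / 3 ∨
      R ≤ p + (q + 3 * p - 5 / 12 * (p + u - 0)) / 3)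
    (hh : h = 2 * q + 4 * p - δ - 3 * G)
    (hh' : 2 * q + 2 * v + 3 * p + 2 * 0 - 4 * δ - 3 * G ≤ 2 * q + 4 * p - δ - 3 * G ∨
        (2 * q + 3 * p + k - 3 * G ≤ 2 * q + 4 * p - δ - 3 * G ∧
          2 * q + 3 * p + (4 / 3 * p + 2 / 3 * 0 - 4 / 3 * δ) - 3 * G ≤
            2 * q + 4 * p - δ - 3 * G))
    (hw : w ≤ v + h + t) (hL : 0 ≤ w + v - q - δ + t) : False := by
  obtain ⟨k0, t0, t1, p0, p1, near, u3, S, v0, h00, h11, h22, q0, q1⟩ := hD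
  rcases hh' with hh' | ⟨hh', hh''⟩ <;> rcases hR with hR | hR | hR | hR | hR | hR <;> linarith

set_option maxHeartbeats 8000000 in
lemma coreR {k p u v q hc t w δ e i n S h g G R M : ℝ} (hD : Dc k p u v q hc t) (δ0 : 0 ≤ δ)
    (hG : 2 * (k + p) - 2 / 3 * hc - R ≤ G)
    (hR : R ≤ q + p ∨ R ≤ p + (2 * q + k) / 3 ∨ R ≤ p + (2 * q + (p + u)) / 3 ∨
      R ≤ p + (q + 2 * p + k / 3) / 3 ∨ R ≤ p + (q + 2 * p + (p + u) / 3) / 3 ∨
      R ≤ p + (q + 3 * p - 5 / 12 * (p + u - 0)) / 3)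
    (hh : h ≤ 2 * q + 2 * v + 3 * p + 2 * 0 - 4 * δ - 3 * G)
    (hh' : h ≤ 2 * q + 3 * p + k - 3 * G ∨
        h ≤ 2 * q + 3 * p + (4 / 3 * p + 2 / 3 * 0 - 4 / 3 * δ) - 3 * G)
    (hw : w ≤ v + h + t) (hL : 0 ≤ w + v - q - δ + t) (e0 : 0 ≤ e) (e1 : e ≤ k / 64 + t)
    (hn' : n ≤ p - δ - e + t) (i0 : 0 ≤ i) (hi : i ≤ w + p - q + t) (s1 : S ≤ u + t)
    (s2 : 3 * S ≤ n) (s3 : 2 * S ≤ i) (hM : M ≤ 0 ∨ M ≤ (w + p - q) / 3)
    (hg : g = (w + v - q - δ) / 3 ∨ g = (w + v - q - δ) - (w + p - q) / 2 ∨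
      g = 7 / 9 * (w + v - q - δ) - 2 / 3 * (w + p - q) ∨
      g = 11 / 18 * (w + v - q - δ) - (w + p - q) / 3) :
    2 / 3 * q - w / 3 + 5 / 3 * δ + e + g + 2 / 3 * (p - δ) + (i + 4 / 5 * S) +
      (w + p - q - i) / 3 + k / 200 ≤ G ∧
    2 / 3 * q - w / 3 + 5 / 3 * δ + e + g + 2 / 3 * (p - δ) + M + k / 200 ≤ G := by
  obtain ⟨k0, t0, t1, p0, p1, near, u3, S', v0, h00, h11, h22, q0, q1⟩ := hD
  rcases hh' with hh' | hh' <;> rcases hR with hR | hR | hR | hR | hR | hR <;>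
  rcases hg with rfl | rfl | rfl | rfl <;> rcases hM with hM | hM <;> constructor <;> linarith

/-- **the structured part, second form** (`w = log (H V)`, `S` bounds the smallest lump) -/
theorem coreNe {k p u v q hc t w δ e i n S : ℝ} (hD : Dc k p u v q hc t) (δ0 : 0 ≤ δ)
    (hw : w ≤ v + hn k q v p δ u hc + t) (hL : 0 ≤ w + v - q - δ + t) (e0 : 0 ≤ e)
    (e1 : e ≤ k / 64 + t) (hn' : n ≤ p - δ - e + t) (i0 : 0 ≤ i) (hi : i ≤ w + p - q + t)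
    (s1 : S ≤ u + t) (s2 : 3 * S ≤ n) (s3 : 2 * S ≤ i) :
    2 / 3 * q - w / 3 + 5 / 3 * δ + e + gQ (w + v - q - δ) (w + p - q) + 2 / 3 * (p - δ) +
      (i + 4 / 5 * S) + (w + p - q - i) / 3 + k / 200 ≤ Gc k q p u hc := by
  have hg := gQ_cases (w + v - q - δ) (w + p - q)
  rcases hL_le q v p δ 0 k (Gc k q p u hc) with ⟨h, h'⟩ | ⟨h, h'⟩
  · exact (coreE (R := RSm k q p u 0) hD δ0 le_rfl (RSm_le1 _ _ _ _ _) h h' hw hL).elim
  · exact (coreR (R := RSm k q p u 0) hD δ0 le_rfl (RSm_le1 _ _ _ _ _) h h' hw hL e0 e1 hn' i0 hi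
      s1 s2 s3 (Or.inl le_rfl) hg).1

/-- the principal part -/
theorem coreNe2 {k p u v q hc t w δ e : ℝ} (hD : Dc k p u v q hc t) (δ0 : 0 ≤ δ)
    (hw : w ≤ v + hn k q v p δ u hc + t) (hL : 0 ≤ w + v - q - δ + t) (e0 : 0 ≤ e)
    (e1 : e ≤ k / 64 + t) (he : e ≤ p - δ + t) (hi : 0 ≤ w + p - q + t) :
    2 / 3 * q - w / 3 + 5 / 3 * δ + e + gQ (w + v - q - δ) (w + p - q) + 2 / 3 * (p - δ) +
      max 0 ((w + p - q) / 3) + k / 200 ≤ Gc k q p u hc := by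
  have hg := gQ_cases (w + v - q - δ) (w + p - q)
  have hM : max 0 ((w + p - q) / 3) ≤ 0 ∨ max 0 ((w + p - q) / 3) ≤ (w + p - q) / 3 := by
    rcases max_choice 0 ((w + p - q) / 3) with h | h
    · left; rw [h]
    · right; rw [h]
  rcases hL_le q v p δ 0 k (Gc k q p u hc) with ⟨h, h'⟩ | ⟨h, h'⟩
  · exact (coreE (R := RSm k q p u 0) hD δ0 le_rfl (RSm_le1 _ _ _ _ _) h h' hw hL).elim
  · have := (coreR (n := p - δ - e + t) (i := 0) (S := 0) (R := RSm k q p u 0) hD δ0 le_rfl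
      (RSm_le1 _ _ _ _ _) h h' hw hL e0 e1 le_rfl le_rfl (by linarith)
      (by have := hD.near; have := hD.t1; have := hD.p1; have := hD.k0; linarith)
      (by linarith [hD.t0]) (by linarith) hM hg).2
    exact this

end Crest.Agent.R017.P1Nb904
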