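import Crest.Agent.R017.P1Ng_904

/-!
# Row 17, R8: the cube class of the Gram number at near lists, class E (helper904)

`h ≤ - 3 (Gs - (2/3 q + 13/9 p))` = helper708's exponent of `H` (level-free), `s₀` = length of the
second lump.
-/

set_option autoImplicit false
set_option linter.unusedVariables false

noncomputable section

namespace Crest.Agent.R017.P1N904

/-- **the cube class** (`+ 2 e`, and `e` inside the bias) -/
theorem cubeG {k p v q t δ e h s₀ : ℝ} (k0 : 0 < k) (t0 : 0 ≤ t) (t1 : t ≤ k / 20000)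
    (p0 : 3 / 4 * k ≤ p + t) (p1 : p ≤ 4 / 5 * k + t) (S : 5 * (v + p) ≤ 7 * k + t)
    (q1 : q ≤ k + t) (δ0 : 0 ≤ δ) (e0 : 0 ≤ e) (e1 : e ≤ k / 64 + t)
    (hh : h ≤ -3 * (Gs k q p - (2 / 3 * q + 13 / 9 * p)) + 4 * t) (hs : 19 / 100 * k ≤ s₀ + t) :
    h / 3 + 4 / 3 * v + 4 / 3 * p - δ + 2 * e + min 0 (δ + e - s₀) + k / 1000 ≤ Gs k q p := by
  obtain ⟨g1, g2, g3⟩ := Gs_ge k q p
  have m1 := min_le_left 0 (δ + e - s₀)
  have m2 := min_le_right 0 (δ + e - s₀)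
  generalize Gs k q p = G at *
  generalize min 0 (δ + e - s₀) = m at *
  linarith

/-- with a small bias (blocks `q ≤ 3/5 k`) -/
theorem cubeG' {k p v q t δ e h s₀ : ℝ} (k0 : 0 < k) (t0 : 0 ≤ t) (t1 : t ≤ k / 20000)
    (p0 : 3 / 4 * k ≤ p + t) (p1 : p ≤ 4 / 5 * k + t) (S : 5 * (v + p) ≤ 7 * k + t)
    (q1 : q ≤ 3 / 5 * k + t) (δ0 : 0 ≤ δ) (e0 : 0 ≤ e) (e1 : e ≤ k / 64 + t)
    (hh : h ≤ -3 * (Gs k q p - (2 / 3 * q + 13 / 9 * p)) + 4 * t) :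
    h / 3 + 4 / 3 * v + 4 / 3 * p - δ + 2 * e + k / 1000 ≤ Gs k q p := by
  obtain ⟨g1, g2, g3⟩ := Gs_ge k q p
  generalize Gs k q p = G at *
  linarith

end Crest.Agent.R017.P1N904
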