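import Crest.Agent.R017.P1Dm_904

/-!
# Row 17, R8: `R2` of `P1` (helper176)

`r2 : P1R904.R2` (v4 text); `r2P : R2P` the same for a parent of total length `p`
-/

set_option autoImplicit false
set_option linter.unusedVariables false

noncomputable section

namespace Crest.Agent.R017.P1R2b176

open Crest.Agent.R017.P1R904

/-- upper bounds for `r3`, all at once -/
lemma r3_le {d i z₁ z₂ z₃ x : ℝ} (d0 : 0 ≤ d) (d1 : d ≤ 1 / 40) (h1 : 0 ≤ z₁) (h2 : 0 ≤ z₂)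
    (h3 : 0 ≤ z₃) (hx : 0 ≤ x) (k1 : z₁ ≤ i) (k2 : z₂ ≤ i) (k3 : z₃ ≤ i) :
    r3 d i z₁ z₂ z₃ x ≤ i + (z₁ + z₂ + z₃ + x) + 4 / 5 * (l3 i z₁ z₂ z₃ + x) := by
  unfold r3
  have h0 : 0 ≤ l3 i z₁ z₂ z₃ := by
    unfold l3
    refine le_min (le_min h1 (by linarith)) (le_min (le_min h2 (by linarith))
      (le_min h3 (by linarith)))
  nlinarith

lemma l3_le (i z₁ z₂ z₃ : ℝ) : l3 i z₁ z₂ z₃ ≤ z₁ ∧ l3 i z₁ z₂ z₃ ≤ i - z₁ ∧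
    l3 i z₁ z₂ z₃ ≤ z₂ ∧ l3 i z₁ z₂ z₃ ≤ i - z₂ ∧ l3 i z₁ z₂ z₃ ≤ z₃ ∧
    l3 i z₁ z₂ z₃ ≤ i - z₃ := by
  unfold l3
  refine ⟨?_, ?_, ?_, ?_, ?_, ?_⟩
  · exact (min_le_left _ _).trans (min_le_left _ _)
  · exact (min_le_left _ _).trans (min_le_right _ _)
  · exact (min_le_right _ _).trans ((min_le_left _ _).trans (min_le_left _ _))
  · exact (min_le_right _ _).trans ((min_le_left _ _).trans (min_le_right _ _))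
  · exact (min_le_right _ _).trans ((min_le_right _ _).trans (min_le_left _ _))
  · exact (min_le_right _ _).trans ((min_le_right _ _).trans (min_le_right _ _))

/-- the six cases of `Wm` -/
lemma Wm_le (v i g : ℝ) : (Wm v i g ≤ v + 2 * g ∨ Wm v i g ≤ i ∨ Wm v i g ≤ 2 / 3 * (v + i + g)) ∧
    (Wm v i g ≤ v + g ∨ Wm v i g ≤ 2 * i - g) := by
  unfold Wm
  constructor
  · have h := min_le_left (max (v + 2 * g) (max i (2 / 3 * (v + i + g)))) (max (v + g) (2 * i - g))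
    rcases le_total (v + 2 * g) (max i (2 / 3 * (v + i + g))) with h1 | h1
    · rw [max_eq_right h1] at h
      rcases le_total i (2 / 3 * (v + i + g)) with h2 | h2
      · rw [max_eq_right h2] at h; exact Or.inr (Or.inr (by rw [max_eq_right h1, max_eq_right h2]; exact h))
      · rw [max_eq_left h2] at h; exact Or.inr (Or.inl (by rw [max_eq_right h1, max_eq_left h2]; exact h))
    · rw [max_eq_left h1] at h; exact Or.inl (by rw [max_eq_left h1]; exact h)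
  · have h := min_le_right (max (v + 2 * g) (max i (2 / 3 * (v + i + g)))) (max (v + g) (2 * i - g))
    rcases le_total (v + g) (2 * i - g) with h1 | h1
    · rw [max_eq_right h1] at h; exact Or.inr (by rw [max_eq_right h1]; exact h)
    · rw [max_eq_left h1] at h; exact Or.inl (by rw [max_eq_left h1]; exact h)


/-- children of a parent of total length `p`, at least `δ` removed -/
structure ChdP (y₃ y₄ u x p δ z₁ z₂ z₃ x' : ℝ) : Prop where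
  z10 : 0 ≤ z₁
  z20 : 0 ≤ z₂
  z30 : 0 ≤ z₃
  x0 : 0 ≤ x'
  z1 : z₁ ≤ y₃
  z2 : z₂ ≤ y₄
  z3 : z₃ ≤ u
  x1 : x' ≤ x
  tot : z₁ + z₂ + z₃ + x' + δ ≤ p

/-- **(R2)** for a parent of total length `p` -/
def R2P : Prop := ∀ y₃ y₄ u x d p v b g i z₁ z₂ z₃ x' : ℝ, Dm y₃ y₄ u x d →
  1 / 2 - 2 * x ≤ p → p ≤ y₃ + y₄ + u + x → 0 ≤ v →
  v ≤ vt (y₃ + y₄ + u) x → 0 ≤ b → 0 ≤ g → 2 * g ≤ i → i ≤ v + p - 1 + b →
  i ≤ 1 - 2 * b → ChdP y₃ y₄ u x p (b + g) z₁ z₂ z₃ x' →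
  ((z₁ ≤ i + 2 * b → z₂ ≤ i + 2 * b → z₃ ≤ i + 2 * b →
      Wm v i g - i + r3 d (i + 2 * b) z₁ z₂ z₃ x' + 1 / 500 ≤ E2 v p (L0 (y₃ + y₄ + u))) ∨
    (b ≤ i ∧ Wm v i g - i + max (i + b + (z₁ + z₂ + z₃ + x')) (2 * (z₁ + z₂ + z₃ + x') + b) +
        1 / 500 ≤ E2 v p (L0 (y₃ + y₄ + u)) ∧
      (z₁ ≤ i - b → z₂ ≤ i - b → z₃ ≤ i - b →
        Wm v i g - i + (b + r3 d (i - b) z₁ z₂ z₃ x') + 1 / 500 ≤
          E2 v p (L0 (y₃ + y₄ + u)))) ∨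
    (i ≤ b ∧ Wm v i g - i + max (i + b + (z₁ + z₂ + z₃ + x')) (2 * (z₁ + z₂ + z₃ + x') + i) +
        1 / 500 ≤ E2 v p (L0 (y₃ + y₄ + u)) ∧
      (z₁ ≤ b - i → z₂ ≤ b - i → z₃ ≤ b - i →
        Wm v i g - i + (i + r3 d (b - i) z₁ z₂ z₃ x') + 1 / 500 ≤
          E2 v p (L0 (y₃ + y₄ + u)))))

set_option maxHeartbeats 4000000 in
/-- the linear core : all the cases -/
lemma core {y₃ y₄ u x p v b g i z₁ z₂ z₃ x' W L E Λ : ℝ} (u4 : u ≤ y₄) (y43 : y₄ ≤ y₃)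
    (u0 : 11 / 50 ≤ u) (hy3 : y₃ ≤ 29 / 100) (N1 : y₃ + y₄ + u ≤ 102 / 125)
    (near : 99 / 100 ≤ y₃ + y₄ + 2 * u) (x0 : 0 ≤ x) (hx1 : x ≤ 1 / 50)
    (adm : x = 0 ∨ (y₃ + y₄ + u + x ≤ 4 / 5 ∧ 2 * (y₃ + y₄ + u) + 5 * x ≤ 161 / 100))
    (p0 : 1 / 2 - 2 * x ≤ p) (pn : p ≤ y₃ + y₄ + u + x)
    (v0 : 0 ≤ v) (hv1 : v ≤ 2 * (y₃ + y₄ + u) - 1 + 5 * x)
    (hv2 : v ≤ 3 / 4 * (y₃ + y₄ + u) + 5 * x) (b0 : 0 ≤ b)
    (hΛ0 : 0 ≤ Λ) (hΛ1 : (5 / 4 * (y₃ + y₄ + u) - 1) / 3 ≤ Λ)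
    (g0 : 0 ≤ g) (gi : 2 * g ≤ i) (i1 : i ≤ v + p - 1 + b) (i2 : i ≤ 1 - 2 * b)
    (z10 : 0 ≤ z₁) (z20 : 0 ≤ z₂) (z30 : 0 ≤ z₃) (x0' : 0 ≤ x') (z1 : z₁ ≤ y₃) (z2 : z₂ ≤ y₄)
    (z3 : z₃ ≤ u) (x1' : x' ≤ x)
    (tot : z₁ + z₂ + z₃ + x' + (b + g) ≤ p)
    (k1 : z₁ ≤ i + 2 * b) (k2 : z₂ ≤ i + 2 * b) (k3 : z₃ ≤ i + 2 * b)
    (l1 : L ≤ z₁) (l2 : L ≤ i + 2 * b - z₁) (l3 : L ≤ z₂) (l4 : L ≤ i + 2 * b - z₂)
    (l5 : L ≤ z₃) (l6 : L ≤ i + 2 * b - z₃)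
    (hE : E = 1 + p + Λ ∨ E = (4 + p + v) / 3 + 2 * Λ)
    (hm : E < W - i + (i + 2 * b + (z₁ + z₂ + z₃ + x') + 4 / 5 * (L + x')) + 1 / 500)
    (hW1 : W ≤ v + 2 * g ∨ W ≤ i ∨ W ≤ 2 / 3 * (v + i + g))
    (hW2 : W ≤ v + g ∨ W ≤ 2 * i - g)
    (hp : (b ≤ i ∧ (E < W - i + (i + b + (z₁ + z₂ + z₃ + x')) + 1 / 500 ∨
      E < W - i + (2 * (z₁ + z₂ + z₃ + x') + b) + 1 / 500 ∨
      ∃ L', (z₁ ≤ i - b ∧ z₂ ≤ i - b ∧ z₃ ≤ i - b) ∧ (L' ≤ z₁ ∧ L' ≤ i - b - z₁ ∧ L' ≤ z₂ ∧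
        L' ≤ i - b - z₂ ∧ L' ≤ z₃ ∧ L' ≤ i - b - z₃) ∧
        E < W - i + (b + (i - b + (z₁ + z₂ + z₃ + x') + 4 / 5 * (L' + x'))) + 1 / 500)) ∨
      (i ≤ b ∧ (E < W - i + (i + b + (z₁ + z₂ + z₃ + x')) + 1 / 500 ∨
      E < W - i + (2 * (z₁ + z₂ + z₃ + x') + i) + 1 / 500 ∨
      ∃ L', (z₁ ≤ b - i ∧ z₂ ≤ b - i ∧ z₃ ≤ b - i) ∧ (L' ≤ z₁ ∧ L' ≤ b - i - z₁ ∧ L' ≤ z₂ ∧
        L' ≤ b - i - z₂ ∧ L' ≤ z₃ ∧ L' ≤ b - i - z₃) ∧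
        E < W - i + (i + (b - i + (z₁ + z₂ + z₃ + x') + 4 / 5 * (L' + x'))) + 1 / 500))) :
    False := by
  rcases adm with rfl | ⟨a1, a2⟩ <;> rcases hE with rfl | rfl <;>
  rcases hp with ⟨hbi, hp | hp | ⟨L', ⟨m1, m2, m3⟩, ⟨n1, n2, n3, n4, n5, n6⟩, hp⟩⟩ |
    ⟨hbi, hp | hp | ⟨L', ⟨m1, m2, m3⟩, ⟨n1, n2, n3, n4, n5, n6⟩, hp⟩⟩ <;>
  rcases hW1 with hW1 | hW1 | hW1 <;> rcases hW2 with hW2 | hW2 <;> linarith

/-- **(R2)** for a parent of total length `p` -/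
theorem r2P : R2P := by
  intro y₃ y₄ u x d p v b g i z₁ z₂ z₃ x' hD p0 pn v0 hv b0 g0 gi i1 i2 hc
  obtain ⟨u4, y43, u0, hy3, N1, near, hx0, hx1, adm, d0, d1⟩ := hD
  obtain ⟨z10, z20, z30, x0', z1, z2, z3, x1', tot⟩ := hc
  have hv1 : v ≤ 2 * (y₃ + y₄ + u) - 1 + 5 * x := by
    unfold vt at hv
    have := min_le_left (2 * (y₃ + y₄ + u) - 1) (3 / 4 * (y₃ + y₄ + u))
    linarith
  have hv2 : v ≤ 3 / 4 * (y₃ + y₄ + u) + 5 * x := by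
    unfold vt at hv
    have := min_le_right (2 * (y₃ + y₄ + u) - 1) (3 / 4 * (y₃ + y₄ + u))
    linarith
  have hL1 : 0 ≤ L0 (y₃ + y₄ + u) := by unfold L0; positivity
  have hL2 : (5 / 4 * (y₃ + y₄ + u) - 1) / 3 ≤ L0 (y₃ + y₄ + u) := by
    unfold L0
    have := le_max_right 0 (5 / 4 * (y₃ + y₄ + u) - 1)
    linarith
  generalize L0 (y₃ + y₄ + u) = Λ at hL1 hL2 ⊢
  have hE : E2 v p Λ = 1 + p + Λ ∨ E2 v p Λ = (4 + p + v) / 3 + 2 * Λ := min_choice _ _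
  generalize E2 v p Λ = E at hE ⊢
  by_contra hcon
  rw [not_or, not_or] at hcon
  obtain ⟨hm, hp1, hp2⟩ := hcon
  rw [not_and, not_and] at hp1 hp2
  simp only [Classical.not_imp, not_le] at hm
  obtain ⟨k1, k2, k3, hm⟩ := hm
  obtain ⟨l1, l2, l3', l4, l5, l6⟩ := l3_le (i + 2 * b) z₁ z₂ z₃
  obtain ⟨hW1, hW2⟩ := Wm_le v i g
  have hr := r3_le d0 d1 z10 z20 z30 x0' k1 k2 k3
  refine core u4 y43 u0 hy3 N1 near hx0 hx1 adm p0 pn v0 hv1 hv2 b0 hL1 hL2 g0 gi i1 i2 z10 z20 z30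
    x0' z1 z2 z3 x1' tot k1 k2 k3 l1 l2 l3' l4 l5 l6 hE (by linarith) hW1 hW2 ?_
  rcases le_total b i with hbi | hbi
  · left
    refine ⟨hbi, ?_⟩
    have h1 := hp1 hbi
    by_cases ha : Wm v i g - i + max (i + b + (z₁ + z₂ + z₃ + x')) (2 * (z₁ + z₂ + z₃ + x') + b) +
        1 / 500 ≤ E
    · have h2 := h1 ha
      simp only [Classical.not_imp, not_le] at h2
      obtain ⟨m1, m2, m3, h2⟩ := h2
      have hr' := r3_le d0 d1 z10 z20 z30 x0' m1 m2 m3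
      exact Or.inr (Or.inr ⟨_, ⟨m1, m2, m3⟩, l3_le (i - b) z₁ z₂ z₃, by linarith⟩)
    · rw [not_le] at ha
      rcases le_total (i + b + (z₁ + z₂ + z₃ + x')) (2 * (z₁ + z₂ + z₃ + x') + b) with h3 | h3
      · rw [max_eq_right h3] at ha
        exact Or.inr (Or.inl ha)
      · rw [max_eq_left h3] at ha
        exact Or.inl ha
  · right
    refine ⟨hbi, ?_⟩
    have h1 := hp2 hbi
    by_cases ha : Wm v i g - i + max (i + b + (z₁ + z₂ + z₃ + x')) (2 * (z₁ + z₂ + z₃ + x') + i) +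
        1 / 500 ≤ E
    · have h2 := h1 ha
      simp only [Classical.not_imp, not_le] at h2
      obtain ⟨m1, m2, m3, h2⟩ := h2
      have hr' := r3_le d0 d1 z10 z20 z30 x0' m1 m2 m3
      exact Or.inr (Or.inr ⟨_, ⟨m1, m2, m3⟩, l3_le (b - i) z₁ z₂ z₃, by linarith⟩)
    · rw [not_le] at ha
      rcases le_total (i + b + (z₁ + z₂ + z₃ + x')) (2 * (z₁ + z₂ + z₃ + x') + i) with h3 | h3
      · rw [max_eq_right h3] at ha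
        exact Or.inr (Or.inl ha)
      · rw [max_eq_left h3] at ha
        exact Or.inl ha

/-- **(R2)** -/
theorem r2 : R2 := by
  intro y₃ y₄ u x d v b g i z₁ z₂ z₃ x' hD v0 hv b0 g0 gi i1 i2 hc
  obtain ⟨z10, z20, z30, x0', z1, z2, z3, x1', tot⟩ := hc
  refine r2P y₃ y₄ u x d (y₃ + y₄ + u + x) v b g i z₁ z₂ z₃ x' hD ?_ le_rfl v0 hv b0 g0 gi i1 i2
    ⟨z10, z20, z30, x0', z1, z2, z3, x1', tot⟩
  have h1 := hD.u4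
  have h2 := hD.y43
  have h3 := hD.u0
  have h4 := hD.x0
  have h5 := hD.near
  linarith

end Crest.Agent.R017.P1R2b176
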