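import Crest.Agent.R017.P1V4_176

/-!
# Row 17, R8: `R2` of `P1` in helper320's form, parents of any length (helper176)

`r2u : R2u`; `ttop : TtopP`
-/

set_option autoImplicit false
set_option linter.unusedVariables false

noncomputable section

namespace Crest.Agent.R017.P1R2u176

open Crest.Agent.R017.P1R904 Crest.Agent.R017.P1R2b176

/-- helper320's closed form of the pairs `(B, d)`: no side conditions, both orders -/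
def pmb (d b i z₁ z₂ z₃ x' : ℝ) : ℝ :=
  max (max (i + b + (z₁ + z₂ + z₃ + x')) (2 * (z₁ + z₂ + z₃ + x') + min b i))
    (max b i + (z₁ + z₂ + z₃ + x') + (3 / 4 + 2 * d) * min z₁ (min z₂ z₃) + x')

/-- **(R2)** for a parent of total length `p`, without side conditions -/
def R2u : Prop := ∀ y₃ y₄ u x d p v b g i z₁ z₂ z₃ x' : ℝ, Dm y₃ y₄ u x d →
  1 / 2 - 2 * x ≤ p → p ≤ y₃ + y₄ + u + x → 0 ≤ v →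
  v ≤ vt (y₃ + y₄ + u) x → 0 ≤ b → 0 ≤ g → 2 * g ≤ i → i ≤ v + p - 1 + b →
  i ≤ 1 - 2 * b → ChdP y₃ y₄ u x p (b + g) z₁ z₂ z₃ x' →
  (Wm v i g - i + r3 d (i + 2 * b) (min z₁ (i + 2 * b)) (min z₂ (i + 2 * b))
      (min z₃ (i + 2 * b)) x' + 1 / 500 ≤ E2 v p (L0 (y₃ + y₄ + u))) ∨
    (Wm v i g - i + pmb d b i z₁ z₂ z₃ x' + 1 / 500 ≤ E2 v p (L0 (y₃ + y₄ + u)))

/-- the four cases of `pmb` -/
lemma pmb_le {d b i z₁ z₂ z₃ x' : ℝ} (d0 : 0 ≤ d) (d1 : d ≤ 1 / 40) (h1 : 0 ≤ z₁) (h2 : 0 ≤ z₂)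
    (h3 : 0 ≤ z₃) :
    pmb d b i z₁ z₂ z₃ x' ≤ i + b + (z₁ + z₂ + z₃ + x') ∨
    (∃ m, (m ≤ b ∧ m ≤ i) ∧ pmb d b i z₁ z₂ z₃ x' ≤ 2 * (z₁ + z₂ + z₃ + x') + m) ∨
    (∃ m, (m ≤ z₁ ∧ m ≤ z₂ ∧ m ≤ z₃) ∧
      pmb d b i z₁ z₂ z₃ x' ≤ b + (z₁ + z₂ + z₃ + x') + 4 / 5 * m + x') ∨
    (∃ m, (m ≤ z₁ ∧ m ≤ z₂ ∧ m ≤ z₃) ∧
      pmb d b i z₁ z₂ z₃ x' ≤ i + (z₁ + z₂ + z₃ + x') + 4 / 5 * m + x') := by
  have hm0 : 0 ≤ min z₁ (min z₂ z₃) := le_min h1 (le_min h2 h3)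
  have hm : (3 / 4 + 2 * d) * min z₁ (min z₂ z₃) ≤ 4 / 5 * min z₁ (min z₂ z₃) := by
    nlinarith
  have m1 : min z₁ (min z₂ z₃) ≤ z₁ := min_le_left _ _
  have m2 : min z₁ (min z₂ z₃) ≤ z₂ := (min_le_right _ _).trans (min_le_left _ _)
  have m3 : min z₁ (min z₂ z₃) ≤ z₃ := (min_le_right _ _).trans (min_le_right _ _)
  unfold pmb
  rcases max_choice (max (i + b + (z₁ + z₂ + z₃ + x')) (2 * (z₁ + z₂ + z₃ + x') + min b i))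
    (max b i + (z₁ + z₂ + z₃ + x') + (3 / 4 + 2 * d) * min z₁ (min z₂ z₃) + x') with h | h
  · rw [h]
    rcases max_choice (i + b + (z₁ + z₂ + z₃ + x')) (2 * (z₁ + z₂ + z₃ + x') + min b i)
      with h' | h'
    · rw [h']; exact Or.inl le_rfl
    · rw [h']; exact Or.inr (Or.inl ⟨_, ⟨min_le_left _ _, min_le_right _ _⟩, le_rfl⟩)
  · rw [h]
    rcases max_choice b i with h' | h'
    · rw [h']; exact Or.inr (Or.inr (Or.inl ⟨_, ⟨m1, m2, m3⟩, by linarith⟩))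
    · rw [h']; exact Or.inr (Or.inr (Or.inr ⟨_, ⟨m1, m2, m3⟩, by linarith⟩))

set_option maxHeartbeats 8000000 in
/-- the linear core : all the cases -/
lemma core {y₃ y₄ u x p v b g i z₁ z₂ z₃ x' W L E Λ m₁ m₂ m₃ : ℝ} (u4 : u ≤ y₄) (y43 : y₄ ≤ y₃)
    (u0 : 11 / 50 ≤ u) (hy3 : y₃ ≤ 29 / 100) (N1 : y₃ + y₄ + u ≤ 102 / 125)
    (near : 99 / 100 ≤ y₃ + y₄ + 2 * u) (x0 : 0 ≤ x) (hx1 : x ≤ 1 / 50)
    (adm : x = 0 ∨ (y₃ + y₄ + u + x ≤ 4 / 5 ∧ 2 * (y₃ + y₄ + u) + 5 * x ≤ 161 / 100))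
    (p0 : 1 / 2 - 2 * x ≤ p) (pn : p ≤ y₃ + y₄ + u + x)
    (v0 : 0 ≤ v) (hv1 : v ≤ 2 * (y₃ + y₄ + u) - 1 + 5 * x)
    (hv2 : v ≤ 3 / 4 * (y₃ + y₄ + u) + 5 * x) (b0 : 0 ≤ b)
    (hΛ0 : 0 ≤ Λ) (hΛ1 : (5 / 4 * (y₃ + y₄ + u) - 1) / 3 ≤ Λ)
    (g0 : 0 ≤ g) (gi : 2 * g ≤ i) (i1 : i ≤ v + p - 1 + b) (i2 : i ≤ 1 - 2 * b)
    (z10 : 0 ≤ z₁) (z20 : 0 ≤ z₂) (z30 : 0 ≤ z₃) (x0' : 0 ≤ x') (z1 : z₁ ≤ y₃) (z2 : z₂ ≤ y₄)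
    (z3 : z₃ ≤ u) (x1' : x' ≤ x)
    (tot : z₁ + z₂ + z₃ + x' + (b + g) ≤ p)
    (k1 : m₁ ≤ i + 2 * b) (k2 : m₂ ≤ i + 2 * b) (k3 : m₃ ≤ i + 2 * b)
    (j1 : m₁ ≤ z₁) (j2 : m₂ ≤ z₂) (j3 : m₃ ≤ z₃)
    (l1 : L ≤ m₁) (l2 : L ≤ i + 2 * b - m₁) (l3 : L ≤ m₂) (l4 : L ≤ i + 2 * b - m₂)
    (l5 : L ≤ m₃) (l6 : L ≤ i + 2 * b - m₃)
    (hE : E = 1 + p + Λ ∨ E = (4 + p + v) / 3 + 2 * Λ)
    (hm : E < W - i + (i + 2 * b + (m₁ + m₂ + m₃ + x') + 4 / 5 * (L + x')) + 1 / 500)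
    (hW1 : W ≤ v + 2 * g ∨ W ≤ i ∨ W ≤ 2 / 3 * (v + i + g))
    (hW2 : W ≤ v + g ∨ W ≤ 2 * i - g)
    (hp : E < W - i + (i + b + (z₁ + z₂ + z₃ + x')) + 1 / 500 ∨
      (∃ m, (m ≤ b ∧ m ≤ i) ∧ E < W - i + (2 * (z₁ + z₂ + z₃ + x') + m) + 1 / 500) ∨
      (∃ L', (L' ≤ z₁ ∧ L' ≤ z₂ ∧ L' ≤ z₃) ∧
        E < W - i + (b + (z₁ + z₂ + z₃ + x') + 4 / 5 * L' + x') + 1 / 500) ∨
      (∃ L', (L' ≤ z₁ ∧ L' ≤ z₂ ∧ L' ≤ z₃) ∧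
        E < W - i + (i + (z₁ + z₂ + z₃ + x') + 4 / 5 * L' + x') + 1 / 500)) :
    False := by
  rcases adm with rfl | ⟨a1, a2⟩ <;> rcases hE with rfl | rfl <;>
  rcases hp with hp | ⟨m, ⟨n1, n2⟩, hp⟩ | ⟨m, ⟨n1, n2, n3⟩, hp⟩ | ⟨m, ⟨n1, n2, n3⟩, hp⟩ <;>
  rcases hW1 with hW1 | hW1 | hW1 <;> rcases hW2 with hW2 | hW2 <;> linarith

/-- **(R2)**, helper320's form, short parents included -/
theorem r2u : R2u := by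
  intro y₃ y₄ u x d p v b g i z₁ z₂ z₃ x' hD p0 pn v0 hv b0 g0 gi i1 i2 hc
  obtain ⟨u4, y43, u0, hy3, N1, near, hx0, hx1, adm, d0, d1⟩ := hD
  obtain ⟨z10, z20, z30, x0', z1, z2, z3, x1', tot⟩ := hc
  have hv1 : v ≤ 2 * (y₃ + y₄ + u) - 1 + 5 * x := by
    unfold vt at hv
    have := min_le_left (2 * (y₃ + y₄ + u) - 1) (3 / 4 * (y₃ + y₄ + u))
    linarith
  have hv2 : v ≤ 3 / 4 * (y₃ + y₄ + u) + 5 * x := by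
    unfold vt at hv
    have := min_le_right (2 * (y₃ + y₄ + u) - 1) (3 / 4 * (y₃ + y₄ + u))
    linarith
  have hL1 : 0 ≤ L0 (y₃ + y₄ + u) := by unfold L0; positivity
  have hL2 : (5 / 4 * (y₃ + y₄ + u) - 1) / 3 ≤ L0 (y₃ + y₄ + u) := by
    unfold L0
    have := le_max_right 0 (5 / 4 * (y₃ + y₄ + u) - 1)
    linarith
  generalize L0 (y₃ + y₄ + u) = Λ at hL1 hL2 ⊢
  have hE : E2 v p Λ = 1 + p + Λ ∨ E2 v p Λ = (4 + p + v) / 3 + 2 * Λ := min_choice _ _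
  generalize E2 v p Λ = E at hE ⊢
  by_contra hcon
  rw [not_or, not_le, not_le] at hcon
  obtain ⟨hm, hp⟩ := hcon
  have hI : 0 ≤ i + 2 * b := by linarith
  have k1 := min_le_right z₁ (i + 2 * b)
  have k2 := min_le_right z₂ (i + 2 * b)
  have k3 := min_le_right z₃ (i + 2 * b)
  obtain ⟨l1, l2, l3', l4, l5, l6⟩ := l3_le (i + 2 * b) (min z₁ (i + 2 * b))
    (min z₂ (i + 2 * b)) (min z₃ (i + 2 * b))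
  obtain ⟨hW1, hW2⟩ := Wm_le v i g
  have hr := r3_le d0 d1 (le_min z10 hI) (le_min z20 hI) (le_min z30 hI) x0' k1 k2 k3
  refine core u4 y43 u0 hy3 N1 near hx0 hx1 adm p0 pn v0 hv1 hv2 b0 hL1 hL2 g0 gi i1 i2 z10 z20
    z30 x0' z1 z2 z3 x1' tot k1 k2 k3 (min_le_left _ _) (min_le_left _ _) (min_le_left _ _)
    l1 l2 l3' l4 l5 l6 hE (by linarith) hW1 hW2 ?_
  rcases pmb_le (b := b) (i := i) (x' := x') d0 d1 z10 z20 z30 with h | ⟨m, hm1, h⟩ |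
    ⟨m, hm1, h⟩ | ⟨m, hm1, h⟩
  · exact Or.inl (by linarith)
  · exact Or.inr (Or.inl ⟨m, hm1, by linarith⟩)
  · exact Or.inr (Or.inr (Or.inl ⟨m, hm1, by linarith⟩))
  · exact Or.inr (Or.inr (Or.inr ⟨m, hm1, by linarith⟩))

/-- **(T-top)** polar term at the top level, parents of length `p` -/
def TtopP : Prop := ∀ y₃ y₄ u x d p v : ℝ, Dm y₃ y₄ u x d → 1 / 2 - 2 * x ≤ p → 0 ≤ v →
  v ≤ vt (y₃ + y₄ + u) x → 2 / 3 * (1 + v + p) + 1 / 20 ≤ 1 + p + L0 (y₃ + y₄ + u)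

theorem ttop : TtopP := by
  intro y₃ y₄ u x d p v hD p0 v0 hv
  obtain ⟨u4, y43, u0, hy3, N1, near, hx0, hx1, adm, d0, d1⟩ := hD
  have hv1 : v ≤ 2 * (y₃ + y₄ + u) - 1 + 5 * x := by
    unfold vt at hv
    have := min_le_left (2 * (y₃ + y₄ + u) - 1) (3 / 4 * (y₃ + y₄ + u))
    linarith
  have hv2 : v ≤ 3 / 4 * (y₃ + y₄ + u) + 5 * x := by
    unfold vt at hv
    have := min_le_right (2 * (y₃ + y₄ + u) - 1) (3 / 4 * (y₃ + y₄ + u))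
    linarith
  have hL1 : 0 ≤ L0 (y₃ + y₄ + u) := by unfold L0; positivity
  rcases adm with rfl | ⟨a1, a2⟩ <;> linarith

end Crest.Agent.R017.P1R2u176
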