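import Crest.Agent.R017.P1Dm_904

/-!
# Row 17, R8 (exceptional class): the real lines of `P1` for the replaced triple (helper73)

The side of the difference is `{y₃, y₄, u | x} - {y₃ + y₄ - b, b, u | x}`, `17/100 ≤ b ≤ 1/5`.

* `ChdR`  : children of the replaced triple
* `ChdR.dom` : every such child is dominated by a natural one (`Chd`)
* `r3d_R`, `t3d_R`, `r2_R` : helper904's lines for `ChdR` from those for `Chd`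
* `bt`    : bias term of the T-side
* `e3p`   : principal frequencies in E3 (one complete family `I = v + n - 1 + φ`); the gain loses
  `1` per unit of shortening
-/

set_option autoImplicit false

noncomputable section

namespace Crest.Agent.R017.P1RX73

open Crest.Agent.R017.P1R904

/-- children of the replaced triple `{y₃ + y₄ - b, b, u | x}`, at least `δ` removed -/
structure ChdR (y₃ y₄ u x b δ z₁ z₂ z₃ x' : ℝ) : Prop where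
  z10 : 0 ≤ z₁
  z20 : 0 ≤ z₂
  z30 : 0 ≤ z₃
  x0 : 0 ≤ x'
  z1 : z₁ ≤ y₃ + y₄ - b
  z2 : z₂ ≤ b
  z3 : z₃ ≤ u
  x1 : x' ≤ x
  tot : z₁ + z₂ + z₃ + x' + δ ≤ y₃ + y₄ + u + x

/-- domination by a natural child: same total, `l3` and the smallest lump do not decrease -/
theorem ChdR.dom {y₃ y₄ u x d b δ z₁ z₂ z₃ x' : ℝ} (D : Dm y₃ y₄ u x d) (hb : b ≤ 1 / 5)
    (C : ChdR y₃ y₄ u x b δ z₁ z₂ z₃ x') :
    ∃ w₁ w₂ : ℝ, Chd y₃ y₄ u x δ w₁ w₂ z₃ x' ∧ w₁ + w₂ = z₁ + z₂ ∧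
      (∀ i : ℝ, z₁ ≤ i → z₂ ≤ i → w₁ ≤ i ∧ w₂ ≤ i) ∧
      (∀ i : ℝ, l3 i z₁ z₂ z₃ ≤ l3 i w₁ w₂ z₃) ∧
      min z₁ (min z₂ z₃) ≤ min w₁ (min w₂ z₃) := by
  obtain ⟨h1, h2, h3, h4, h5, h6, h7, h8, h9⟩ := C
  have d1 := D.u4
  have d2 := D.y43
  have d3 := D.u0
  rcases le_total z₁ y₃ with h | h
  · exact ⟨z₁, z₂, ⟨h1, h2, h3, h4, h, by linarith, h7, h8, h9⟩, rfl,
      fun i a b => ⟨a, b⟩, fun i => le_rfl, le_rfl⟩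
  · refine ⟨y₃, z₁ + z₂ - y₃, ⟨by linarith, by linarith, h3, h4, le_rfl, by linarith, h7, h8,
      by linarith⟩, by ring, fun i a b => ⟨by linarith, by linarith⟩, fun i => ?_, ?_⟩
    · unfold l3
      have e1 : min (min z₁ (i - z₁)) (min (min z₂ (i - z₂)) (min z₃ (i - z₃))) ≤ i - z₁ :=
        (min_le_left _ _).trans (min_le_right _ _)
      have e2 : min (min z₁ (i - z₁)) (min (min z₂ (i - z₂)) (min z₃ (i - z₃))) ≤ z₂ :=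
        (min_le_right _ _).trans ((min_le_left _ _).trans (min_le_left _ _))
      have e3 : min (min z₁ (i - z₁)) (min (min z₂ (i - z₂)) (min z₃ (i - z₃))) ≤
          min z₃ (i - z₃) := (min_le_right _ _).trans (min_le_right _ _)
      refine le_min (le_min (by linarith) (by linarith)) (le_min (le_min (by linarith)
        (by linarith)) e3)
    · have e2 : min z₁ (min z₂ z₃) ≤ z₂ := (min_le_right _ _).trans (min_le_left _ _)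
      have e3 : min z₁ (min z₂ z₃) ≤ z₃ := (min_le_right _ _).trans (min_le_right _ _)
      exact le_min (by linarith) (le_min (by linarith) e3)

/-- `r3` is monotone in the third lump bound -/
theorem r3_mono {d i z₁ z₂ z₃ x w₁ w₂ : ℝ} (hd : 0 ≤ d) (hs : w₁ + w₂ = z₁ + z₂)
    (hl : l3 i z₁ z₂ z₃ ≤ l3 i w₁ w₂ z₃) : r3 d i z₁ z₂ z₃ x ≤ r3 d i w₁ w₂ z₃ x := by
  unfold r3
  have : (3 / 4 + 2 * d) * (l3 i z₁ z₂ z₃ + x) ≤ (3 / 4 + 2 * d) * (l3 i w₁ w₂ z₃ + x) :=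
    mul_le_mul_of_nonneg_left (by linarith) (by linarith)
  linarith

/-- **(R3d)** for the replaced triple -/
def R3dR (b : ℝ) : Prop := ∀ y₃ y₄ u x d v δ φ i z₁ z₂ z₃ x' : ℝ, Dm y₃ y₄ u x d → 0 ≤ v →
  v ≤ vt (y₃ + y₄ + u) x → 0 ≤ δ → δ ≤ 3 / 25 → 0 ≤ φ →
  ChdR y₃ y₄ u x b (δ + φ) z₁ z₂ z₃ x' →
  z₁ ≤ i → z₂ ≤ i → z₃ ≤ i → i ≤ v + (y₃ + y₄ + u + x) - 1 + φ →
  r3 d i z₁ z₂ z₃ x' + (v + (y₃ + y₄ + u + x) - 1 + φ - i) / 3 + 2 * δ +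
    max 0 (2 * v - 1 - δ) / 2 + 3 / 100 ≤
    (1 + v + 4 * (y₃ + y₄ + u + x)) / 3 + L0 (y₃ + y₄ + u)

/-- **(T3d)** for the replaced triple -/
def T3dR (b : ℝ) : Prop := ∀ y₃ y₄ u x d v δ z₁ z₂ z₃ x' : ℝ, Dm y₃ y₄ u x d → 0 ≤ v →
  v ≤ vt (y₃ + y₄ + u) x → 3 / 25 ≤ δ → 2 * δ ≤ v → ChdR y₃ y₄ u x b δ z₁ z₂ z₃ x' →
  2 / 3 - (v - 2 * δ) / 3 - ((y₃ + y₄ + u + x) - δ) / 3 + δ +
    (v - 2 * δ + (z₁ + z₂ + z₃ + x') + (min z₁ (min z₂ z₃) + x')) +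
    max 0 (2 * v - 1 - δ) / 3 + 3 / 100 ≤
    1 + (y₃ + y₄ + u + x) + L0 (y₃ + y₄ + u)

/-- the three alternatives of (R2), right side `E` (`β` = size of `B`) -/
def Alt (d v β g i z₁ z₂ z₃ x' E : ℝ) : Prop :=
  ((z₁ ≤ i + 2 * β → z₂ ≤ i + 2 * β → z₃ ≤ i + 2 * β →
      Wm v i g - i + r3 d (i + 2 * β) z₁ z₂ z₃ x' + 1 / 500 ≤ E) ∨
    (β ≤ i ∧ Wm v i g - i + max (i + β + (z₁ + z₂ + z₃ + x')) (2 * (z₁ + z₂ + z₃ + x') + β) +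
        1 / 500 ≤ E ∧
      (z₁ ≤ i - β → z₂ ≤ i - β → z₃ ≤ i - β →
        Wm v i g - i + (β + r3 d (i - β) z₁ z₂ z₃ x') + 1 / 500 ≤ E)) ∨
    (i ≤ β ∧ Wm v i g - i + max (i + β + (z₁ + z₂ + z₃ + x')) (2 * (z₁ + z₂ + z₃ + x') + i) +
        1 / 500 ≤ E ∧
      (z₁ ≤ β - i → z₂ ≤ β - i → z₃ ≤ β - i →
        Wm v i g - i + (i + r3 d (β - i) z₁ z₂ z₃ x') + 1 / 500 ≤ E)))

theorem Alt.dom {d v β g i z₁ z₂ z₃ x' E w₁ w₂ : ℝ} (hd : 0 ≤ d) (hs : w₁ + w₂ = z₁ + z₂)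
    (hc : ∀ i : ℝ, z₁ ≤ i → z₂ ≤ i → w₁ ≤ i ∧ w₂ ≤ i)
    (hl : ∀ i : ℝ, l3 i z₁ z₂ z₃ ≤ l3 i w₁ w₂ z₃) (h : Alt d v β g i w₁ w₂ z₃ x' E) :
    Alt d v β g i z₁ z₂ z₃ x' E := by
  have m1 := r3_mono (x := x') hd hs (hl (i + 2 * β))
  have m2 := r3_mono (x := x') hd hs (hl (i - β))
  have m3 := r3_mono (x := x') hd hs (hl (β - i))
  unfold Alt at h ⊢
  rw [hs] at h
  rcases h with h | ⟨k1, k2, k3⟩ | ⟨k1, k2, k3⟩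
  · refine Or.inl fun a1 a2 a3 => ?_
    obtain ⟨c1, c2⟩ := hc _ a1 a2
    have := h c1 c2 a3
    linarith
  · refine Or.inr (Or.inl ⟨k1, k2, fun a1 a2 a3 => ?_⟩)
    obtain ⟨c1, c2⟩ := hc _ a1 a2
    have := k3 c1 c2 a3
    linarith
  · refine Or.inr (Or.inr ⟨k1, k2, fun a1 a2 a3 => ?_⟩)
    obtain ⟨c1, c2⟩ := hc _ a1 a2
    have := k3 c1 c2 a3
    linarith

/-- **(R2)** for the replaced triple -/
def R2R (b : ℝ) : Prop := ∀ y₃ y₄ u x d v β g i z₁ z₂ z₃ x' : ℝ, Dm y₃ y₄ u x d → 0 ≤ v →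
  v ≤ vt (y₃ + y₄ + u) x → 0 ≤ β → 0 ≤ g → 2 * g ≤ i →
  i ≤ v + (y₃ + y₄ + u + x) - 1 + β → i ≤ 1 - 2 * β →
  ChdR y₃ y₄ u x b (β + g) z₁ z₂ z₃ x' →
  Alt d v β g i z₁ z₂ z₃ x' (E2 v (y₃ + y₄ + u + x) (L0 (y₃ + y₄ + u)))

theorem r3d_R (H : R3d) {b : ℝ} (hb : b ≤ 1 / 5) : R3dR b := by
  intro y₃ y₄ u x d v δ φ i z₁ z₂ z₃ x' D hv hv1 hδ hδ1 hφ C a1 a2 a3 hi
  obtain ⟨w₁, w₂, C', hs, hc, hl, -⟩ := C.dom D hb
  obtain ⟨c1, c2⟩ := hc i a1 a2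
  have h := H y₃ y₄ u x d v δ φ i w₁ w₂ z₃ x' D hv hv1 hδ hδ1 hφ C' c1 c2 a3 hi
  have h2 := r3_mono (x := x') D.d0 hs (hl i)
  linarith

theorem t3d_R (H : T3d) {b : ℝ} (hb : b ≤ 1 / 5) : T3dR b := by
  intro y₃ y₄ u x d v δ z₁ z₂ z₃ x' D hv hv1 hδ hδ1 C
  obtain ⟨w₁, w₂, C', hs, -, -, hm⟩ := C.dom D hb
  have h := H y₃ y₄ u x d v δ w₁ w₂ z₃ x' D hv hv1 hδ hδ1 C'
  rw [hs] at h
  linarith

theorem r2_R (H : P1R904.R2) {b : ℝ} (hb : b ≤ 1 / 5) : R2R b := by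
  intro y₃ y₄ u x d v β g i z₁ z₂ z₃ x' D hv hv1 hβ hg hgi hi hi2 C
  obtain ⟨w₁, w₂, C', hs, hc, hl, -⟩ := C.dom D hb
  exact Alt.dom D.d0 hs hc hl (H y₃ y₄ u x d v β g i w₁ w₂ z₃ x' D hv hv1 hβ hg hgi hi hi2 C')

/-- **(BT)** bias term of the T-side (class E): gain `b ≥ 17/100` -/
theorem bt {y₃ y₄ u x d : ℝ} (D : Dm y₃ y₄ u x d) :
    (vt (y₃ + y₄ + u) x + (y₃ + y₄ + u + x) - 1) / 3 + 3 / 100 ≤
      17 / 100 + L0 (y₃ + y₄ + u) := by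
  have h1 : vt (y₃ + y₄ + u) x ≤ 2 * (y₃ + y₄ + u) - 1 + 5 * x := by
    unfold vt
    linarith [min_le_left (2 * (y₃ + y₄ + u) - 1) (3 / 4 * (y₃ + y₄ + u))]
  have h2 : vt (y₃ + y₄ + u) x ≤ 3 / 4 * (y₃ + y₄ + u) + 5 * x := by
    unfold vt
    linarith [min_le_right (2 * (y₃ + y₄ + u) - 1) (3 / 4 * (y₃ + y₄ + u))]
  have h3 : 0 ≤ L0 (y₃ + y₄ + u) := by unfold L0; positivity
  have h4 : (5 / 4 * (y₃ + y₄ + u) - 1) / 3 ≤ L0 (y₃ + y₄ + u) := by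
    unfold L0
    linarith [le_max_right 0 (5 / 4 * (y₃ + y₄ + u) - 1)]
  have h5 := D.N1
  have h6 := D.x0
  rcases D.adm with h | ⟨h, h'⟩ <;> linarith

/-- **(E3p)** principal frequencies in E3 : the complete family `I = v + n - 1 + φ`, number of
modes `2 v - 1 - δ` (a cell without modes, `2 v < 1 + δ`, has no such term); `g = δ + φ` removed,
the gain `17/100` loses `1` per unit; margin `2/25` -/
theorem e3p {y₃ y₄ u x d v δ φ n' : ℝ} (D : Dm y₃ y₄ u x d)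
    (hv1 : v ≤ vt (y₃ + y₄ + u) x) (hφ : 0 ≤ φ) (hn : n' + δ + φ ≤ y₃ + y₄ + u + x) :
    2 * n' - max 0 (17 / 100 - (δ + φ)) + (v + (y₃ + y₄ + u + x) - 1 + φ) / 3 + 2 * δ +
        (2 * v - 1 - δ) - 2 / 3 * (v + (y₃ + y₄ + u + x) - 1 + φ) + 2 / 25 ≤
      (1 + v + 4 * (y₃ + y₄ + u + x)) / 3 + L0 (y₃ + y₄ + u) := by
  have h1 : vt (y₃ + y₄ + u) x ≤ 2 * (y₃ + y₄ + u) - 1 + 5 * x := by
    unfold vt
    linarith [min_le_left (2 * (y₃ + y₄ + u) - 1) (3 / 4 * (y₃ + y₄ + u))]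
  have h2 : vt (y₃ + y₄ + u) x ≤ 3 / 4 * (y₃ + y₄ + u) + 5 * x := by
    unfold vt
    linarith [min_le_right (2 * (y₃ + y₄ + u) - 1) (3 / 4 * (y₃ + y₄ + u))]
  have h3 : 0 ≤ L0 (y₃ + y₄ + u) := by unfold L0; positivity
  have h4 : (5 / 4 * (y₃ + y₄ + u) - 1) / 3 ≤ L0 (y₃ + y₄ + u) := by
    unfold L0
    linarith [le_max_right 0 (5 / 4 * (y₃ + y₄ + u) - 1)]
  have h5 := D.N1
  have h6 := D.x0
  have h7 := le_max_left 0 (17 / 100 - (δ + φ))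
  have h8 := le_max_right 0 (17 / 100 - (δ + φ))
  rcases D.adm with h | ⟨h, h'⟩ <;> linarith

end Crest.Agent.R017.P1RX73
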