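import Crest.Agent.R017.NPy_739
import Crest.Agent.R017.I1j_146

/-!
# Row 17, R8: the real side of E2 for `P1`, part a (helper440): twists and windows

* `ag_tw3`, `MoP_tw3`, `MT_tw3` : the twist by an `S`-unit goes to the frequency
* `QF_Qs0`, `Qs_win` : the windows
-/

set_option autoImplicit false

noncomputable section

open Complex
open scoped ComplexConjugate Classical

namespace Crest.Agent.R017.P1Ra440

open Crest.Agent.R012 Crest.Agent.R012.Eis Crest.Agent.R012.Gauss880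
open Crest.Agent.R012.LS2 (S mem_S)
open Crest.Agent.R012.Char766 (sy_mul_left sy_pow_left sy_cube conj_sy norm_sy_le sy_mul_right)
open Crest.Agent.R012.Weight600 (osc norm_osc pw osc_zero_left)
open Crest.Agent.R017.CM106 (CS FS)
open Crest.Agent.R017.X6C180 (IX dl' GF)
open Crest.Agent.R017.Win813 (WK wn iA iA_nonneg windows)
open Crest.Agent.R017.RGw813 (bt tw2 FS_bt)
open Crest.Agent.R017.MoF106 (MoP MoP_nonneg MTs)
open Crest.Agent.R017.MoL106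
open Crest.Agent.R017.I1146 (tw3)
open Crest.Agent.R017.NtC320 (QF)
open Crest.Agent.R017.QsO83 (bw bw_ne FS_bw QF_sum1 QF_of_lin1 VV_lin Mn_lin ag_lin)
open Crest.Agent.R017.E2440 (VV Mn ag ag_ne Qs RR prs mem_prs C4 mem_C4)

/-! ### the twist -/

lemma sy4 {s n : Eis} (hn : IsPrim n) : conj (sy (s ^ 2) n) = sy s n := by
  rw [sy_pow_left hn 2, map_pow, conj_sy hn, ← pow_mul]
  by_cases h : IsCoprime s n
  · have h3 := sy_cube hn h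
    calc sy s n ^ (2 * 2) = sy s n ^ 3 * sy s n := by ring
      _ = sy s n := by rw [h3, one_mul]
  · have h0 : sy s n = 0 := by
      by_contra h1
      exact h (Char766.coprime_of_sy_ne_zero hn h1)
    rw [h0]
    norm_num

lemma FS_tw3 {al : Eis → ℂ} (s : Eis) (h : FS al) : FS (tw3 s al) where
  fin := h.fin.subset fun _ hn => right_ne_zero_of_mul hn
  prim := fun m hm => h.prim m (right_ne_zero_of_mul hm)

lemma bw_tw3 (φ : ℝ → ℝ) (p : ℕ × ℕ) (t : ℝ) (s : Eis) (al : Eis → ℂ) :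
    bw φ p t (tw3 s al) = tw3 s (bw φ p t al) := by
  funext n
  unfold QsO83.bw RGw813.bt RGw813.tw2 Win813.wn I1146.tw3
  ring

lemma ag_tw3 {s δ g : Eis} {al : Eis → ℂ} (ha : ∀ n, al n ≠ 0 → IsPrim n) :
    ag (tw3 s al) δ g = aT (s ^ 2) g 0 (ag al δ g) := by
  funext n
  unfold E2440.ag MoL106.aT I1146.tw3
  by_cases h : IsCoprime n δ
  · simp only [if_pos h]
    by_cases h0 : al (g * n) = 0
    · rw [h0]; ring
    · rw [sy4 (ha _ h0)]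
      unfold Weight600.pw
      rw [osc_zero_left]
      ring
  · simp only [if_neg h]
    ring

lemma MoP_tw3 {s δ g B : Eis} {al : Eis → ℂ} (ha : FS al) (hg : IsPrim g) (hB : IsPrim B)
    (φ : ℝ → ℝ) (p : ℕ × ℕ) (t₀ : ℝ) (E τ : Eis) (X t Z : ℝ) {W : Eis → Eis → ℝ}
    (P : Eis → Eis → Eis → Prop) (hW : ∀ g₂ ∈ S X, ∀ g₃ ∈ S X, 0 ≤ W g₂ g₃) :
    MoP (ag (bw φ p t₀ (tw3 s al)) δ g) E B τ X t Z W P ≤
      MoP (ag (bw φ p t₀ al) δ g) (E * s ^ 4) B τ X t Z W P := by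
  have hb := (FS_bw (φ := φ) (p := p) (t := t₀) ha).prim
  rw [bw_tw3, ag_tw3 hb]
  have h := MoP_aT_le (k₀ := s ^ 2) (t₀ := 0) (a := ag (bw φ p t₀ al) δ g)
    (fun n hn => (hb _ (ag_ne hn).2).of_mul_left hg) hg hB E τ X t Z P hW
  rw [sub_zero, ← pow_mul] at h
  exact h

lemma MTs_zero (a : Eis → ℂ) (E B σ r : Eis) : MTs a E B σ r 0 = E2440.MT a E B σ r := by
  unfold MoF106.MTs E2440.MT
  refine tsum_congr fun D => ?_
  unfold Weight600.pw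
  rw [osc_zero_left]
  ring

lemma MT_tw3 {s δ g B : Eis} {al : Eis → ℂ} (ha : FS al) (hg : IsPrim g) (hB : IsPrim B)
    (φ : ℝ → ℝ) (p : ℕ × ℕ) (t₀ : ℝ) (E σ r : Eis) :
    ‖E2440.MT (ag (bw φ p t₀ (tw3 s al)) δ g) E B σ r‖ ≤
      ‖E2440.MT (ag (bw φ p t₀ al) δ g) (E * s ^ 4) B σ r‖ := by
  have hb := (FS_bw (φ := φ) (p := p) (t := t₀) ha).prim
  rw [bw_tw3, ag_tw3 hb]
  have h := MT_aT (k₀ := s ^ 2) (t₀ := 0) (a := ag (bw φ p t₀ al) δ g)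
    (fun n hn => (hb _ (ag_ne hn).2).of_mul_left hg) hg hB E σ r
  rw [MTs_zero, ← pow_mul] at h
  exact h

/-! ### the windows -/

theorem QF_Qs0 {F : ℝ → ℂ} (hF : ∃ b : ℝ, ∀ x, F x ≠ 0 → x ≤ b) {K : ℝ} (hK : 0 < K)
    {δ e : Eis} (he : e ≠ 0) {y : Eis × Eis} (hy : IsPrim y.1) {A : Eis} (hA : A ≠ 0) (V : ℝ) :
    QF (fun α => ∑ c ∈ C4, ∑ j₂ ∈ S (Real.sqrt V), Qs α δ e V K F y A c j₂) := by
  refine QF_sum1 _ fun c hc => QF_sum1 _ fun j₂ hj => ?_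
  have hj0 : j₂ ≠ 0 := ((mem_S (Real.sqrt_nonneg V)).1 hj).2.1.ne_zero
  have hE : e * A * j₂ ≠ 0 := mul_ne_zero (mul_ne_zero he hA) hj0
  have hE1 : (0 : ℝ) < nm (e * A * j₂) := by exact_mod_cast nm_pos.2 hE
  have hA0 : 0 < K / nm (e * A * j₂) := by positivity
  unfold E2440.Qs
  refine QF_of_lin1 _ fun r _ => ?_
  intro κ T c' β hβ
  have hfin : ∀ x ∈ T, (Function.support (ag (β x) δ y.1)).Finite := fun x hx =>
    (E2440.fs_ag (hβ x hx) hy).fin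
  beta_reduce
  rw [ag_lin, VV_lin T c' _ hF hA0 hfin, Mn_lin T c' _ F _ hfin, ← Finset.sum_sub_distrib]
  exact Finset.sum_congr rfl fun x _ => by ring

lemma sum_bw {I : Finset ℕ} {φ : ℕ → ℝ → ℝ} {x₀ R : ℝ} (h : ∀ u, |u - x₀| ≤ R →
    ∑ i ∈ I, φ i u = 1) {α : Eis → ℂ} (hα : FS α)
    (hw : ∀ n, α n ≠ 0 → |Real.log (nm n) - x₀| ≤ R) :
    α = fun n => ∑ i ∈ I, (1 : ℂ) * bw (φ i) (0, 0) 0 α n := by
  funext n
  by_cases h0 : α n = 0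
  · refine h0.trans (Finset.sum_eq_zero fun i _ => ?_).symm
    have : bw (φ i) (0, 0) 0 α n = 0 := by
      by_contra h1
      exact bw_ne h1 h0
    rw [this, mul_zero]
  · have hp := hα.prim n h0
    have e1 : ∀ i, (1 : ℂ) * bw (φ i) (0, 0) 0 α n = α n * ((φ i (Real.log (nm n)) : ℝ) : ℂ) := by
      intro i
      unfold QsO83.bw RGw813.bt RGw813.tw2 Win813.wn Weight600.pw
      have e2 : sy (w ^ (0, 0).1 * lam ^ (0, 0).2 : Eis) n = 1 := by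
        simp only [pow_zero, mul_one]
        exact Sym645.sy_one_left (Sym645.prim_nm_mod hp)
      rw [e2, osc_zero_left]
      simp
    rw [Finset.sum_congr rfl fun i _ => e1 i, ← Finset.mul_sum, ← Complex.ofReal_sum,
      h _ (hw n h0)]
    simp

/-- **the windows** -/
theorem Qs_win (R : ℝ) (hR : 0 ≤ R) (A' : ℕ) : ∃ C : ℝ, 1 ≤ C ∧
    ∀ {F : ℝ → ℂ}, (∃ b : ℝ, ∀ x, F x ≠ 0 → x ≤ b) → ∀ {K : ℝ}, 0 < K → ∀ {δ e : Eis}, e ≠ 0 →
    ∀ {y : Eis × Eis}, IsPrim y.1 → ∀ {A : Eis}, A ≠ 0 → ∀ (V x₀ : ℝ) {α : Eis → ℂ}, FS α →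
    (∀ n, α n ≠ 0 → |Real.log (nm n) - x₀| ≤ R) → ∀ M : ℝ, 0 ≤ M →
    (∀ (φ : ℝ → ℝ) (c₀ : ℝ), WK C (1 / 2) A' φ → |c₀ - x₀| ≤ R + 1 →
      (∀ u, φ u ≠ 0 → |u - c₀| ≤ 1 / 4) →
      ∑ c ∈ C4, ∑ j₂ ∈ S (Real.sqrt V), Qs (bw φ (0, 0) 0 α) δ e V K F y A c j₂ ≤ M) →
    ∑ c ∈ C4, ∑ j₂ ∈ S (Real.sqrt V), Qs α δ e V K F y A c j₂ ≤ 4 * C ^ 2 * M := by
  obtain ⟨C, hC, hw⟩ := windows R hR A'
  refine ⟨C, hC, ?_⟩
  intro F hF K hK δ e he y hy A hA V x₀ α hα hs M hM h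
  obtain ⟨I, φ, c, hcard, hone, hc, hsupp, hWK⟩ := hw (1 / 2) (by norm_num) (by norm_num) x₀
  have hQ := QF_Qs0 hF hK (δ := δ) he hy hA V
  have h1 := hQ ℕ I (fun _ => (1 : ℂ)) (fun i => bw (φ i) (0, 0) 0 α)
    (fun _ _ => norm_one.le)
    (fun i _ => FS_bw hα)
  have e1 := sum_bw hone hα hs
  beta_reduce at h1
  rw [← e1] at h1
  refine h1.trans ?_
  have h2 : ∀ i ∈ I, ∑ c ∈ C4, ∑ j₂ ∈ S (Real.sqrt V),
      Qs (bw (φ i) (0, 0) 0 α) δ e V K F y A c j₂ ≤ M := fun i hi =>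
    h (φ i) (c i) (hWK i) (hc i hi) fun u hu => by have := hsupp i u hu; linarith
  have h3 : (I.card : ℝ) ≤ 2 * C := by
    refine hcard.trans (le_of_eq ?_)
    ring
  have h0 : (0 : ℝ) ≤ I.card := Nat.cast_nonneg _
  calc (I.card : ℝ) * ∑ i ∈ I, ∑ c ∈ C4, ∑ j₂ ∈ S (Real.sqrt V),
        Qs (bw (φ i) (0, 0) 0 α) δ e V K F y A c j₂ ≤ (I.card : ℝ) * ((I.card : ℝ) * M) := by
        refine mul_le_mul_of_nonneg_left ?_ h0
        refine (Finset.sum_le_sum h2).trans (le_of_eq ?_)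
        rw [Finset.sum_const, nsmul_eq_mul]
    _ ≤ 2 * C * (2 * C * M) := mul_le_mul h3 (mul_le_mul_of_nonneg_right h3 hM)
        (mul_nonneg h0 hM) (by linarith)
    _ = _ := by ring

end Crest.Agent.R017.P1Ra440
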