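import Crest.Agent.R017.P1Ra_440
import Crest.Agent.R017.MoN5_106
import Crest.Agent.R017.I1o_146
import Crest.Agent.R017.E2ze_440

/-!
# Row 17, R8: the real side of E2 for `P1`, part b (helper440): the cells

* `cell_s` : one natural cell from the two-level functional, sharp in the frequency
* `PMH` : the premise, `cellX_of` : the cell hypothesis of 739's `cell_SDX`
-/

set_option autoImplicit false
set_option maxHeartbeats 800000

noncomputable section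

open Finset
open scoped ComplexConjugate

namespace Crest.Agent.R017.P1Rb440

open Crest.Agent.R012 Crest.Agent.R012.Eis Crest.Agent.R012.LS2
open Crest.Agent.R012.Div277 (dvs mem_dvs)
open Crest.Agent.R017.B770
open Crest.Agent.R017.Prov71
open Crest.Agent.R017.CM106 (CS)
open Crest.Agent.R017.HP842 (pc)
open Crest.Agent.R017.H1401 (pb mem_pb WM HW DN)
open Crest.Agent.R017.MoF106
open Crest.Agent.R017.MoL106
open Crest.Agent.R017.XRG106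
open Crest.Agent.R017.PML320 (PMp)
open Crest.Agent.R017.MoJ401 (q4_PM)
open Crest.Agent.R017.X6C180 (IX dl')
open Crest.Agent.R017.GKC739 (Tb mem_Tb Tb_prim Cell)
open Crest.Agent.R017.NPy739 (CellX)
open Crest.Agent.R017.E2440 (C4 mem_C4 RR)
open Crest.Agent.R017.RC106 (k9 log_fr)
open Crest.Agent.R017.E2sp579 (fP)

/-- **one natural cell** -/
theorem cell_s {ε : ℝ} (hε : 0 < ε) : ∃ C : ℝ, 1 ≤ C ∧
    ∀ (T : Finset Eis) (X Z : ℝ) (l u v w : ℕ) (Pr : Eis → Eis → Eis → Eis → Eis → Prop)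
      (g₃ E τ : Eis), 0 ≤ X → 1 ≤ Z → E ≠ 0 → τ ≠ 0 →
      (∀ y ∈ T, IsPrim y ∧ (nm y : ℝ) ≤ Real.exp ((l : ℝ) / 3 + 1 / 3)) → g₃ ∈ bk X w →
      ∀ X0 : ℝ, Real.exp ((l : ℝ) / 3 + 1 / 3) * Z ≤ X0 →
      Real.exp (((u + v : ℕ) : ℝ) / 3 + 2 / 3) ≤ X0 →
      ∀ s₁ : ℝ, Real.log (nm (E * τ)) + 1 / 3 ≤ s₁ →
      ∀ (P : DPar) (h : ℝ → ℝ) {r : ℕ} (s' : Fin r → Pq) (M : ℝ), 0 ≤ M →
      (0 ≤ Real.log Z + l / 3 + s₁ - 2 * (v / 3) →
        PM2 P h (Real.log Z + l / 3 + s₁ - 2 * (v / 3)) (u / 3 + 2 / 3 + v / 3) (List.ofFn s') ≤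
          M) →
      ∑ x ∈ Q4 T X Z u v Pr g₃, ∏ k, ‖CS (pc h ((s' k).pc P)) (f4 E τ x)‖ ^ 2 ≤
      C * X0 ^ ε * M := by
  obtain ⟨C, hC, hq⟩ := q4_PM hε
  refine ⟨C, hC, ?_⟩
  intro T X Z l u v w Pr g₃ E τ hX hZ hE hτ hT hg₃ X0 hX0 hB s₁ hs₁ P h r s' M hM hpm
  set a : ℝ := (l : ℝ) / 3 with ha
  set b : ℝ := (u : ℝ) / 3 with hb
  set g : ℝ := (v : ℝ) / 3 with hg
  set o : ℝ := (w : ℝ) / 3 with ho
  set z : ℝ := Real.log Z with hz
  have hZ0 : 0 < Z := by linarith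
  have eZ : Z = Real.exp z := (Real.exp_log hZ0).symm
  have hX00 : 0 < X0 := (Real.exp_pos _).trans_le hB
  have ho0 : 0 ≤ o := by positivity
  have hg0 : 0 ≤ g := by positivity
  have hEτ : (0 : ℝ) < nm (E * τ) := by exact_mod_cast nm_pos.2 (mul_ne_zero hE hτ)
  have hKb : Kb (Real.exp (a + 1 / 3)) Z v w = Real.exp (a + 1 / 3 + z - 2 * g - 3 * o) := by
    have e1 : Real.exp (a + 1 / 3 + z - 2 * g - 3 * o) =
        Real.exp (a + 1 / 3) * (Real.exp z * Real.exp (-(2 * ((v : ℝ) / 3)) - w)) := by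
      rw [← Real.exp_add, ← Real.exp_add]
      congr 1
      rw [hg, ho]; ring
    rw [e1, ← eZ]
    rfl
  have hKX : Kb (Real.exp (a + 1 / 3)) Z v w ≤ X0 := by
    rw [hKb]
    refine le_trans ?_ hX0
    have e1 : Real.exp (a + 1 / 3) * Z = Real.exp (a + 1 / 3 + z) := by
      rw [Real.exp_add (a + 1 / 3) z, ← eZ]
    rw [e1]
    exact Real.exp_le_exp.2 (by linarith)
  have h1 := hq T X Z (Real.exp (a + 1 / 3)) u v w Pr g₃ E τ hX hZ0.le (Real.exp_pos _).le hE hτ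
    hT hg₃ X0 hKX hB (z + a + s₁ - 2 * g) (by
      rw [hKb]
      have e1 : (nm (E * τ) : ℝ) = Real.exp (Real.log (nm (E * τ))) := (Real.exp_log hEτ).symm
      rw [e1, ← Real.exp_add]
      exact Real.exp_le_exp.2 (by linarith)) P h s'
  have h2 : PMp P h (z + a + s₁ - 2 * g) (Bb (u + v)) (List.ofFn s') ≤ M := by
    refine (PMp_Bb_le (β := b + 2 / 3 + g) (by push_cast; rw [hb, hg]; linarith) _).trans ?_
    by_cases h0 : 0 ≤ z + a + s₁ - 2 * g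
    · exact hpm h0
    · rw [PM2_neg (by linarith)]
      exact hM
  have hCX : 0 ≤ C * X0 ^ ε := by
    have : 0 ≤ C := by linarith
    positivity
  exact h1.trans (mul_le_mul_of_nonneg_left h2 hCX)

/-- **the premise on the natural children**, at a fixed block: `Lv = log (V nm (e A))`,
`D0 = log nm y.1`, `N2 = log nm y.2`, `s₁` = frequency, `s₂` = slack, `n` = length -/
def PMH (h : ℝ → ℝ) (μ C : ℝ) (P : DPar) {r : ℕ} (s : Fin r → Pq)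
    (Lv d₀ N2 i1 i2 s₁ Bd Tn : ℝ) : Prop :=
  ∀ (i b g νn : ℝ) (s' : Fin r → Pq) (W0 : ℝ), 0 ≤ i → 0 ≤ b → 0 ≤ g → 0 ≤ νn → νn ≤ N2 →
    i ≤ i1 + b → i ≤ i2 - 2 * b → 2 * g ≤ i + s₁ →
    1 ≤ W0 → (∀ k, Rl C W0 (s' k) (s k)) → ∑ k, (s' k).z ≤ ∑ k, (s k).z - (d₀ + b + g) + C →
    PM2 P h (i + s₁ - 2 * g) (b + 2 / 3 + g) (List.ofFn s') ≤
      Bd * W0 ^ (2 * μ) * Real.exp (Tn - (νn + nr Lv (i - 3 * νn) - i) -
        (∑ k, (s k).z - d₀ - b - ∑ k, (s' k).z))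

lemma T9_zero : ((0, 0) : ℕ × ℕ) ∈ RGw813.T9 := by
  unfold RGw813.T9
  simp

/-- **the cell hypothesis of `cell_SDX`** -/
theorem cellX_of {ε : ℝ} (hε : 0 < ε) : ∃ C₁ : ℝ, 1 ≤ C₁ ∧
    ∀ (h : ℝ → ℝ) (μ C : ℝ) (P : DPar) {r : ℕ} (s : Fin r → Pq) (V X X0 : ℝ)
      (e A c st g₀ : Eis) (l u j : ℕ) (n : Eis), 0 < V → 1 ≤ X → 8 * X ^ 2 ≤ X0 →
      IsPrim e → IsPrim A → c ∈ C4 → st ≠ 0 → IsPrim g₀ → IsPrim n →
      Real.exp ((u : ℝ) / 3) ≤ X → Real.exp ((l : ℝ) / 3 + 1 / 3) * 2 ^ j ≤ X0 →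
      ∀ (s₁ N2 i1 i2 Bd Tn : ℝ), Real.log (nm (e * A * st ^ 4)) + k9 ≤ s₁ → 0 ≤ Bd →
      Real.log (nm n) ≤ N2 →
      Real.log (2 ^ j) + l / 3 ≤ i1 + u / 3 → Real.log (2 ^ j) + l / 3 ≤ i2 - 2 * (u / 3) →
      PMH h μ C P s (Real.log (V * nm (e * A))) (Real.log (nm g₀)) N2 i1 i2 s₁ Bd Tn →
      CellX h μ C P s V e A c (st ^ 4) X (fun _ _ _ _ => True) g₀ (0, 0) l u j n
        (fun v _ => 3 * Real.exp (2 / 3) * Real.exp ((v : ℝ) / 3 +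
          nr (Real.log (V * nm (e * A))) (Real.log (2 ^ j) + l / 3 - 3 * Real.log (nm n)) -
            l / 3))
        (C₁ * X0 ^ ε * (Bd * Real.exp (Real.log (2 ^ j) - Real.log (nm n) + Tn))) := by
  obtain ⟨C₁, hC₁, hc⟩ := cell_s hε
  refine ⟨3 * Real.exp (2 / 3) * C₁, ?_, ?_⟩
  · have h1 : 1 ≤ Real.exp (2 / 3) := Real.one_le_exp (by norm_num)
    nlinarith
  intro h μ C P r s V X X0 e A c st g₀ l u j n hV hX hXX0 he hA hc4 hst hg₀ hn hu hlj s₁ N2 i1 i2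
    Bd Tn hs₁ hBd hnN hi1 hi2 hPM v hv w hw hWp i g₃ hg₃ s' W0 hW0 hR hle
  have hX0 : 0 ≤ X := by linarith
  have hX00 : 0 < X0 := by nlinarith
  have hE : e * A * st ^ 4 ≠ 0 := mul_ne_zero (mul_ne_zero he.ne_zero hA.ne_zero) (pow_ne_zero 4 hst)
  have hkw : kw (0, 0) = 1 := by unfold MoL106.kw; simp
  have hE2 : e * A * st ^ 4 * kw (0, 0) ^ 2 ≠ 0 := by
    rw [hkw]; simpa using hE
  have hτ : dl' c i ≠ 0 := dl_ne_zero (QsJ401.C4_ne hc4) i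
  have hZ1 : (1 : ℝ) ≤ 2 ^ j := one_le_pow₀ (by norm_num)
  have hv3 := exp_third_le hX hv
  have huv : Real.exp (((u + v : ℕ) : ℝ) / 3 + 2 / 3) ≤ X0 := by
    have e1 : Real.exp (((u + v : ℕ) : ℝ) / 3 + 2 / 3) =
        Real.exp ((u : ℝ) / 3) * Real.exp ((v : ℝ) / 3) * Real.exp (2 / 3) := by
      rw [← Real.exp_add, ← Real.exp_add]
      congr 1
      push_cast
      ring
    rw [e1]
    have h2 := exp_two_thirds
    calc Real.exp ((u : ℝ) / 3) * Real.exp ((v : ℝ) / 3) * Real.exp (2 / 3) ≤ X * X * 2 := by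
          gcongr
      _ ≤ 8 * X ^ 2 := by nlinarith
      _ ≤ X0 := hXX0
  have hfr := log_fr T9_zero hc4 i (E := e * A * st ^ 4) hE
  have hz0 : 0 ≤ Real.log ((2 : ℝ) ^ j) := Real.log_nonneg hZ1
  have hW00 : (0 : ℝ) ≤ W0 ^ (2 * μ) := Real.rpow_nonneg (by linarith) _
  set z := Real.log ((2 : ℝ) ^ j) with hz
  set νn := Real.log (nm n) with hνn
  have hνn0 : 0 ≤ νn := Real.log_nonneg (by exact_mod_cast nm_pos.2 hn.ne_zero)
  have hl0 : (0 : ℝ) ≤ (l : ℝ) / 3 := by positivity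
  have hu0 : (0 : ℝ) ≤ (u : ℝ) / 3 := by positivity
  have hv0 : (0 : ℝ) ≤ (v : ℝ) / 3 := by positivity
  have hw0 : (0 : ℝ) ≤ (w : ℝ) / 3 := by positivity
  set Lv := Real.log (V * nm (e * A)) with hLv
  set d₀ := Real.log (nm g₀) with hd₀
  set S' := ∑ k, (s' k).z with hS'
  set SS := ∑ k, (s k).z with hSS
  set U := Tn - (νn + nr Lv (z + l / 3 - 3 * νn) - (z + l / 3)) - (SS - d₀ - u / 3 - S') with hU
  have key := hc (Tb V e A c l) X (2 ^ j) l u v w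
    (fun y B => fP (fun g₂ g₃ d => DN n g₂ g₃ d ∧ (2 : ℝ) ^ j / 2 < nm d)
          ((fun _ _ _ _ => True) (e * A * y * st ^ 4) B (dl' c i)))
    g₃ (e * A * st ^ 4 * kw (0, 0) ^ 2) (dl' c i) hX0 hZ1 hE2 hτ
    (fun y hy => ⟨Tb_prim hy, bk_nm_le (Real.sqrt_nonneg V) (mem_Tb.1 hy).1⟩) hg₃ X0 hlj huv s₁
    (by linarith) P h s' (Bd * W0 ^ (2 * μ) * Real.exp U) (by positivity)
    (fun h0 => hPM (z + l / 3) (u / 3) (v / 3) νn s' W0 (by linarith) hu0 hv0 hνn0 hnN hi1 hi2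
      (by linarith) hW0 hR (by linarith))
  have hWp' : 0 ≤ 3 * Real.exp (2 / 3) * Real.exp ((v : ℝ) / 3 + nr Lv (z + l / 3 - 3 * νn) -
      l / 3) * Real.exp ((w : ℝ) / 3) := by positivity
  refine (mul_le_mul_of_nonneg_left key hWp').trans (le_of_eq ?_)
  have e1 : Real.exp ((v : ℝ) / 3 + nr Lv (z + l / 3 - 3 * νn) - l / 3) *
      Real.exp ((w : ℝ) / 3) * Real.exp U =
      Real.exp (z - νn + Tn) * Real.exp (S' - (SS - (d₀ + ((u : ℝ) / 3 + v / 3 + w / 3)))) := by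
    rw [← Real.exp_add, ← Real.exp_add, ← Real.exp_add]
    congr 1
    rw [hU]
    ring
  calc 3 * Real.exp (2 / 3) * Real.exp ((v : ℝ) / 3 + nr Lv (z + l / 3 - 3 * νn) - l / 3) *
        Real.exp ((w : ℝ) / 3) * (C₁ * X0 ^ ε * (Bd * W0 ^ (2 * μ) * Real.exp U)) =
      3 * Real.exp (2 / 3) * C₁ * X0 ^ ε * Bd * W0 ^ (2 * μ) *
        (Real.exp ((v : ℝ) / 3 + nr Lv (z + l / 3 - 3 * νn) - l / 3) *
      Real.exp ((w : ℝ) / 3) * Real.exp U) := by ring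
    _ = _ := by rw [e1]; ring

end Crest.Agent.R017.P1Rb440
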