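import Crest.Agent.R017.P1Rb_440

/-!
# Row 17, R8: the real side of E2 for `P1`, part c (helper440): the polar part

* `Lin_MT` : linearity
* `VFH` : the premise, `polar_le` : the direct side of a twisted natural list
-/

set_option autoImplicit false
set_option maxHeartbeats 800000

noncomputable section

open Finset
open scoped ComplexConjugate

namespace Crest.Agent.R017.P1Rc440

open Crest.Agent.R012 Crest.Agent.R012.Eis Crest.Agent.R012.LS2 Crest.Agent.R012.Gauss880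
open Crest.Agent.R012.Div277 (dvs mem_dvs)
open Crest.Agent.R017.FE47 (cx PU)
open Crest.Agent.R017.B770
open Crest.Agent.R017.Prov71
open Crest.Agent.R017.CM106 (CS FS)
open Crest.Agent.R017.HP842 (pc al sqc)
open Crest.Agent.R017.Leg381 (alf)
open Crest.Agent.R017.TPOk571 (IP SD)
open Crest.Agent.R017.MoF106
open Crest.Agent.R017.MoL106
open Crest.Agent.R017.XRG106
open Crest.Agent.R017.Rough381 (VF)
open Crest.Agent.R017.X6C180 (IX dl')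
open Crest.Agent.R017.GKC739 (Tb mem_Tb Tb_prim Cell Tb_rr)
open Crest.Agent.R017.Win813 (iA iA_nonneg WK)
open Crest.Agent.R017.NtC320 (QF Lin)
open Crest.Agent.R017.QsO83 (bw FS_bw bw_lin ag_lin QF_sum1 QF_of_lin1 lin_tsum nt_SD)
open Crest.Agent.R017.I1146 (tw3)
open Crest.Agent.R017.E2440 (C4 mem_C4 RR MT ag fs_ag)
open Crest.Agent.R017.P1Ra440
open Crest.Agent.R017.P1Rb440 (T9_zero)

lemma Lin_MT {B g : Eis} (hB : B ≠ 0) (hg : IsPrim g) (δ E σ ρ : Eis) (φ : ℝ → ℝ) (p : ℕ × ℕ)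
    (t : ℝ) : Lin (fun α => MT (ag (bw φ p t α) δ g) E B σ ρ) := by
  intro κ T c β hβ
  beta_reduce
  rw [bw_lin, ag_lin]
  unfold E2440.MT
  have hfin : ∀ x ∈ T, (Function.support fun D : Eis => ag (bw φ p t (β x)) δ g (B * D)).Finite := by
    intro x hx
    have h1 := (fs_ag (FS_bw (φ := φ) (p := p) (t := t) (hβ x hx)) (δ := δ) hg).fin
    exact h1.preimage (Set.injOn_of_injective fun a b h => mul_left_cancel₀ hB h)
  have key := lin_tsum T c (fun x D => ag (bw φ p t (β x)) δ g (B * D)) hfin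
    (fun D => (sy E D * conj (sy D B)) * ((PX764.n6 D : ℂ) * PX764.Gh (σ * ρ) D))
  simp only [← mul_assoc] at key ⊢
  exact key

/-- **the premise on the Gauss side** : `n₀` = length -/
def VFH (h : ℝ → ℝ) (μ C : ℝ) (P : DPar) {r : ℕ} (s : Fin r → Pq) (q δ g₀ : Eis)
    (Λ n₀ Mp : ℝ) : Prop :=
  ∀ γ : Eis, IsPrim γ → (nm γ : ℝ) ≤ 1 → ∀ c₀ : Eis, IsPrim c₀ → ∀ y : ℝ, 1 ≤ y →
    (nm c₀ : ℝ) ≤ y → y ^ 3 ≤ Λ → ∀ s' : Fin r → Pq, (∀ k, ChF C (s' k) (s k)) →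
    ∑ k, (s' k).z ≤ n₀ + C → n₀ - C ≤ ∑ k, (s' k).z →
    VF (Λ / y ^ 3) (sqc (q * (δ * (g₀ * γ)) * c₀) (al h fun k => (s' k).pc P)) ≤
      Mp / y * (∏ k, (1 + |(s' k).t - (s k).t|)) ^ (2 * μ)

/-- flagged sequences are finite and primary -/
lemma FS_alf' {h : ℝ → ℝ} {R : ℝ} (hR : ∀ u, cx h u ≠ 0 → |u| ≤ R) {r : ℕ} {s : Fin r → HP842.Pc}
    (hs : ∀ i, (s i).OK) (z D0 : ℝ) (fl : Fin r → Bool) : FS (alf z D0 h s fl) := by
  unfold Leg381.alf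
  refine HP842.FS_cv fun i => ?_
  have h1 := HP842.FS_pc hR (hs i)
  exact { fin := h1.fin.subset fun n hn h0 => hn (by
            have h0' : pc h (s i) n = 0 := h0
            unfold Leg381.fpc; rw [h0', zero_mul])
          prim := fun m hm => h1.prim m (fun h0 => hm (by unfold Leg381.fpc; rw [h0, zero_mul])) }

open Classical in
/-- **the polar part of a twisted natural list** -/
theorem polar_le {h : ℝ → ℝ} {c₀ : ℝ} (hpu : PU h c₀) {R : ℝ} (hR0 : 0 ≤ R)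
    (hR : ∀ u, cx h u ≠ 0 → |u| ≤ R) {μ : ℝ} (hμ : 0 ≤ μ) (r : ℕ) {ε : ℝ} (hε : 0 < ε) :
    ∃ C : ℝ, 1 ≤ C ∧ ∀ (A' : ℕ), 2 * (r * μ) + 2 ≤ A' → ∀ (Cφ : ℝ) (φ : ℝ → ℝ), 0 ≤ Cφ →
      WK Cφ (1 / 2) A' φ → ∀ (P : DPar) (_ : P.OK) (s : Fin r → Pq), (∀ i, 0 ≤ (s i).z) →
      ∀ (f : Fin r → Bool) (z : ℝ) (q g₀ δ e A c st : Eis), IsPrim g₀ → IsPrim e → IsPrim A →
      c ∈ C4 → st ≠ 0 → ∀ (V X : ℝ) (l u : ℕ), 0 < V → 1 ≤ X → ∀ X0 : ℝ,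
      V * (nm (e * A) : ℝ) ^ 3 * (nm st : ℝ) ^ 8 * Real.exp ((u : ℝ) / 3 + 1 / 3) ≤ X0 →
      1 ≤ V * (nm (e * A) : ℝ) ^ 3 * (nm st : ℝ) ^ 8 * Real.exp ((u : ℝ) / 3 + 1 / 3) →
      (nm g₀ : ℝ) ≤ X0 → Real.exp ((u : ℝ) / 3) ≤ X0 → ∀ M : ℝ, 0 ≤ M →
      VFH h μ C P s q δ g₀
        (V * (nm (e * A) : ℝ) ^ 3 * (nm st : ℝ) ^ 8 * Real.exp ((u : ℝ) / 3 + 1 / 3))
        (∑ k, (s k).z - (Real.log (nm g₀) + (u : ℝ) / 3)) M →
      ∑ j₂ ∈ Tb V e A c l, ∑ B ∈ bk X u,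
        ∑ ρ ∈ (S (RR V e A c j₂)).filter (fun ρ => IsCoprime ρ 1 ∧ RR V e A c j₂ / 2 < nm ρ),
          ‖MT (ag (bw φ (0, 0) 0 (tw3 st (sqc q (alf z 1 h (fun i => (s i).pc P) f)))) δ g₀)
            (e * A * j₂) B c ρ‖ ^ 2 ≤
        C * (Cφ ^ 2 * iA A' * (1 / 2 * ((1 / 2 : ℝ) ^ A')⁻¹)) * X0 ^ ε *
          Real.exp (-(1 / 3) * (∑ k, (s k).z - Real.log (nm g₀) - (u : ℝ) / 3)) * M := by
  obtain ⟨C, hC, H⟩ := MT_list hpu hR0 hR hμ r hε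
  refine ⟨C * ((100 : ℝ) ^ r) ^ 2, ?_, ?_⟩
  · have h1 : (1 : ℝ) ≤ ((100 : ℝ) ^ r) ^ 2 := one_le_pow₀ (one_le_pow₀ (by norm_num))
    nlinarith
  intro A' hA' Cφ φ hCφ hφ P hP s hs f z q g₀ δ e A c st hg₀ he hA hc hst V X l u hV hX X0 hΛX
    hΛ1 hgX huX M hM hyp
  have hX0' : 0 ≤ X := by linarith
  have hX01 : 1 ≤ X0 := hΛ1.trans hΛX
  set Λ := V * (nm (e * A) : ℝ) ^ 3 * (nm st : ℝ) ^ 8 * Real.exp ((u : ℝ) / 3 + 1 / 3) with hΛ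
  have hkw : kw (0, 0) = 1 := by unfold MoL106.kw; simp
  have hcn : c ≠ 0 := QsJ401.C4_ne hc
  set Rs : Eis → Finset Eis := fun j₂ =>
    (S (RR V e A c j₂)).filter (fun ρ => IsCoprime ρ 1 ∧ RR V e A c j₂ / 2 < nm ρ) with hRs
  have hCC : C ≤ C * ((100 : ℝ) ^ r) ^ 2 := by
    have h1 : (1 : ℝ) ≤ ((100 : ℝ) ^ r) ^ 2 := one_le_pow₀ (one_le_pow₀ (by norm_num))
    nlinarith
  -- the functional
  set Φ : (Eis → ℂ) → ℝ := fun α => ∑ j₂ ∈ Tb V e A c l, ∑ B ∈ bk X u, ∑ ρ ∈ Rs j₂,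
    ‖MT (ag (bw φ (0, 0) 0 α) δ g₀) (e * A * st ^ 4 * j₂) B c ρ‖ ^ 2 with hΦ
  have hQF : QF Φ := by
    refine QF_sum1 _ fun j₂ _ => QF_sum1 _ fun B hB => QF_of_lin1 _ fun ρ _ => ?_
    exact Lin_MT (bk_prim hX0' hB).ne_zero hg₀ _ _ _ _ _ _ _
  have hFS : FS (sqc q (alf z 1 h (fun i => (s i).pc P) f)) := by
    exact HP842.FS.sqc (FS_alf' hR (s := fun i => (s i).pc P) (fun i => (s i).ok hP) z 1 f) q
  have h1 : ∑ j₂ ∈ Tb V e A c l, ∑ B ∈ bk X u, ∑ ρ ∈ Rs j₂,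
      ‖MT (ag (bw φ (0, 0) 0 (tw3 st (sqc q (alf z 1 h (fun i => (s i).pc P) f)))) δ g₀)
            (e * A * j₂) B c ρ‖ ^ 2 ≤ Φ (sqc q (alf z 1 h (fun i => (s i).pc P) f)) := by
    refine Finset.sum_le_sum fun j₂ _ => Finset.sum_le_sum fun B hB => Finset.sum_le_sum
      fun ρ _ => ?_
    refine pow_le_pow_left₀ (norm_nonneg _) ?_ 2
    refine (MT_tw3 hFS hg₀ (bk_prim hX0' hB) φ (0, 0) 0 (e * A * j₂) c ρ).trans (le_of_eq ?_)
    congr 2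
    ring
  refine h1.trans ?_
  have hpA : 0 ≤ Cφ ^ 2 * iA A' * (1 / 2 * ((1 / 2 : ℝ) ^ A')⁻¹) := by
    have := iA_nonneg A'
    positivity
  have hC0 : 0 ≤ C := by linarith
  have hmain := nt_SD hQF hR μ hP s (z := z) (D0 := 1) le_rfl f q
    (M := C * (Cφ ^ 2 * iA A' * (1 / 2 * ((1 / 2 : ℝ) ^ A')⁻¹)) * X0 ^ ε *
      Real.exp (-(1 / 3) * (∑ k, (s k).z - Real.log (nm g₀) - (u : ℝ) / 3)) * M)
    (by positivity) ?_
  · refine hmain.trans (le_of_eq ?_)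
    rw [mul_one]
    ring
  intro γ hγ hγs _ hγD jp hjp hlen
  rw [one_pow] at hγD
  have hγ1 : (1 : ℝ) ≤ nm γ := by exact_mod_cast nm_pos.2 hγ.ne_zero
  have hγe : (nm γ : ℝ) = 1 := le_antisymm hγD hγ1
  have hlγ : Real.log (nm γ) = 0 := by rw [hγe, Real.log_one]
  have hE : e * A * st ^ 4 ≠ 0 := mul_ne_zero (mul_ne_zero he.ne_zero hA.ne_zero)
    (pow_ne_zero 4 hst)
  have key := H A' hA' Cφ (1 / 2) φ hCφ (by norm_num) (by norm_num) hφ P hP s hs jp hjp γ q g₀ δ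
    (e * A * st ^ 4) c hγ hγs hg₀ hE hcn (0, 0) (Tb V e A c l) Rs (fun y hy => Tb_prim hy)
    (fun y hy ρ hρ => by
      have hRR0 : 0 ≤ RR V e A c y := by linarith [(mem_Tb.1 hy).2]
      exact ((mem_S hRR0).1 (Finset.mem_filter.1 hρ).1).2.1.ne_zero)
    u X hX0' Λ X0 hΛ1 hΛX (hγD.trans hX01) hgX huX
    (fun y hy ρ hρ B hB => by
      have hRR0 : 0 ≤ RR V e A c y := by linarith [(mem_Tb.1 hy).2]
      have hρ1 := ((mem_S hRR0).1 (Finset.mem_filter.1 hρ).1).1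
      have hyp0 : (0 : ℝ) < nm y := by exact_mod_cast nm_pos.2 (Tb_prim hy).ne_zero
      have hc0 : (0 : ℝ) < nm c := by exact_mod_cast nm_pos.2 hcn
      have hb := bk_nm_le hX0' hB
      rw [hγe, hkw, one_pow, mul_one, mul_one]
      have e1 : (nm (e * A * st ^ 4) : ℝ) = nm (e * A) * (nm st : ℝ) ^ 4 := by
        rw [nm_mul, nm_pow]; push_cast; ring
      rw [e1]
      have hst0 : (0 : ℝ) ≤ nm st := Nat.cast_nonneg _
      have hB0 : (0 : ℝ) ≤ nm B := Nat.cast_nonneg _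
      have hea : (0 : ℝ) ≤ nm (e * A) := Nat.cast_nonneg _
      calc (nm c : ℝ) * nm ρ * ((nm (e * A) * (nm st : ℝ) ^ 4 * nm y) ^ 2 * nm B) ≤
            nm c * RR V e A c y * ((nm (e * A) * (nm st : ℝ) ^ 4 * nm y) ^ 2 *
              Real.exp ((u : ℝ) / 3 + 1 / 3)) := by gcongr
        _ = Λ := by
            rw [hΛ]
            unfold E2440.RR
            field_simp)
    M hM (fun c₁ hc₁ y hy hcy hy3 s' hs' hle hge => by
      refine hyp γ hγ hγD c₁ hc₁ y hy hcy hy3 s' (fun k => ?_) ?_ ?_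
      · exact ⟨(hs' k).kd, (hs' k).d, (hs' k).one, (hs' k).z0, (hs' k).zle.trans (by linarith)⟩
      · rw [hlen, hlγ] at hle
        linarith
      · rw [hlen, hlγ] at hge
        linarith) 0
  rw [abs_zero, add_zero, one_pow, mul_one, hlen, hlγ, sub_zero] at key
  exact key

end Crest.Agent.R017.P1Rc440
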