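import Crest.Agent.R017.P1Rc_440

/-!
# Row 17, R8: the real side of E2 for `P1`, part d (helper440): one window

* `cell_P1` : one cell
* `Qs_P1w` : one window of `∑ c, ∑ j₂, Qs`
-/

set_option autoImplicit false
set_option maxHeartbeats 1000000

noncomputable section

open Finset
open scoped ComplexConjugate

namespace Crest.Agent.R017.P1Rd440

open Crest.Agent.R012 Crest.Agent.R012.Eis Crest.Agent.R012.LS2 Crest.Agent.R012.Gauss880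
open Crest.Agent.R012.Div277 (dvs mem_dvs)
open Crest.Agent.R012.Mob705 (pdiv mem_pdiv)
open Crest.Agent.R017.FE47 (cx PU)
open Crest.Agent.R017.B770
open Crest.Agent.R017.Prov71
open Crest.Agent.R017.CM106 (CS FS)
open Crest.Agent.R017.HP842 (pc al sqc)
open Crest.Agent.R017.Leg381 (alf)
open Crest.Agent.R017.H1401 (pb mem_pb WM HW DN)
open Crest.Agent.R017.MoF106
open Crest.Agent.R017.MoL106
open Crest.Agent.R017.XRG106
open Crest.Agent.R017.Rough381 (VF)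
open Crest.Agent.R017.X6C180 (Sg IX dl' GF)
open Crest.Agent.R017.GKC739
open Crest.Agent.R017.NPy739
open Crest.Agent.R017.Win813 (iA iA_nonneg WK)
open Crest.Agent.R017.QsO83 (bw FS_bw)
open Crest.Agent.R017.I1146 (tw3)
open Crest.Agent.R017.RC106 (k9)
open Crest.Agent.R017.E2sp579 (fP)
open Crest.Agent.R017.X6545 (TF Bd)
open Crest.Agent.R017.X6W180 (TF1 tf1_tf)
open Crest.Agent.R017.X6C180 (om')
open Crest.Agent.R017.QsO83 (bw_ne QF_of_lin1)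
open Crest.Agent.R017.NtC320 (QF)
open Crest.Agent.R017.E2440 (C4 mem_C4 RR MT ag ag_ne fs_ag Qs Qs_nonneg prs mem_prs KDd KDd_GF GKd
  NBf isC_sg)
open Crest.Agent.R012.Weight600 (osc norm_osc pw osc_zero_left)
open Crest.Agent.R012.Char766 (norm_sy_le)
open Crest.Agent.R017.P1Ra440
open Crest.Agent.R017.P1Rb440
open Crest.Agent.R017.P1Rc440

lemma PMH.mono {h : ℝ → ℝ} {μ C C' : ℝ} {P : DPar} {r : ℕ} {s : Fin r → Pq}
    {Lv d₀ N2 i1 i2 s₁ Bd Tn : ℝ} (H : PMH h μ C' P s Lv d₀ N2 i1 i2 s₁ Bd Tn) (hC : C ≤ C') :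
    PMH h μ C P s Lv d₀ N2 i1 i2 s₁ Bd Tn := by
  intro i b g νn s' W0 hi hb hg hν hν2 h1 h2 h3 hW hR hle
  exact H i b g νn s' W0 hi hb hg hν hν2 h1 h2 h3 hW (fun k => (hR k).mono hC)
    (hle.trans (by linarith))

lemma PMH.le {h : ℝ → ℝ} {μ C : ℝ} {P : DPar} {r : ℕ} {s : Fin r → Pq}
    {Lv d₀ N2 i1 i2 N2' i1' i2' s₁ Bd Tn : ℝ} (H : PMH h μ C P s Lv d₀ N2 i1 i2 s₁ Bd Tn)
    (h1 : N2' ≤ N2) (h2 : i1' ≤ i1) (h3 : i2' ≤ i2) :
    PMH h μ C P s Lv d₀ N2' i1' i2' s₁ Bd Tn := by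
  intro i b g νn s' W0 hi hb hg hν hν2 g1 g2 g3 hW hR hle
  exact H i b g νn s' W0 hi hb hg hν (hν2.trans h1) (by linarith) (by linarith) g3 hW hR hle

/-- **one cell** -/
theorem cell_P1 {h : ℝ → ℝ} {c₀ : ℝ} (hpu : PU h c₀) {R : ℝ} (hR0 : 0 ≤ R)
    (hR : ∀ u, cx h u ≠ 0 → |u| ≤ R) {μ : ℝ} (hμ : 0 ≤ μ) (r : ℕ) {ε : ℝ} (hε : 0 < ε) :
    ∃ C : ℝ, 1 ≤ C ∧ ∀ (A' : ℕ), 2 * (r * μ) + 2 ≤ A' → ∀ (Cφ : ℝ) (φ : ℝ → ℝ), 0 ≤ Cφ →
      WK Cφ (1 / 2) A' φ → ∀ (P : DPar) (_ : P.OK) (s : Fin r → Pq), (∀ i, 0 ≤ (s i).z) →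
      ∀ (f : Fin r → Bool) (z : ℝ) (q g₀ δ e A c st : Eis), IsPrim q → IsPrim g₀ → IsPrim δ →
      IsPrim e → IsPrim A → c ∈ C4 → st ≠ 0 → ∀ (V X X0 : ℝ) (l u j : ℕ) (n : Eis), 0 < V →
      1 ≤ X → 8 * X ^ 2 ≤ X0 → (nm g₀ : ℝ) ≤ X0 → (nm q : ℝ) ≤ X0 → (nm δ : ℝ) ≤ X0 →
      (∀ i, Real.exp (s i).z ≤ X0) → IsPrim n → Real.exp ((u : ℝ) / 3) ≤ X →
      Real.exp ((l : ℝ) / 3 + 1 / 3) * 2 ^ j ≤ X0 →
      ∀ (s₁ N2 i1 i2 Bd Tn : ℝ), Real.log (nm (e * A * st ^ 4)) + k9 ≤ s₁ → 0 ≤ Bd →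
      Real.log (nm n) ≤ N2 →
      Real.log (2 ^ j) + l / 3 ≤ i1 + u / 3 → Real.log (2 ^ j) + l / 3 ≤ i2 - 2 * (u / 3) →
      PMH h μ C P s (Real.log (V * nm (e * A))) (Real.log (nm g₀)) N2 i1 i2 s₁ Bd Tn →
      (2 / 2 ^ j) * ((nm n : ℝ) * ∑ j₂ ∈ Tb V e A c l, ∑ B ∈ bk X u,
        MNx A' V e A c X (fun _ _ _ => True) δ g₀ φ (0, 0) 0 (e * A * j₂ * st ^ 4) j₂ B j n
          (sqc q (alf z 1 h (fun i => (s i).pc P) f))) ≤
      C * (Cφ ^ 2 * iA A' * (1 / 2 * ((1 / 2 : ℝ) ^ A')⁻¹)) * X0 ^ (2 * ε) *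
        (Bd * Real.exp Tn) := by
  obtain ⟨C, hC, H⟩ := cell_SDX hpu hR0 hR hμ r hε
  obtain ⟨C₁, hC₁, H₁⟩ := cellX_of hε
  have hC0 : 0 ≤ C := by linarith
  have hC10 : 0 ≤ C₁ := by linarith
  have hop : 1 ≤ opL r 1 := by
    unfold opL
    have h1 : (1 : ℝ) ≤ ((100 * 1) ^ r) ^ 2 := one_le_pow₀ (one_le_pow₀ (by norm_num))
    rw [one_pow, one_mul]
    exact h1
  have hop0 : 0 ≤ opL r 1 := by linarith
  set CC := C * (2 * opL r 1 * C₁) with hCC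
  have hCCC : C ≤ CC := by
    have h1 : 1 ≤ 2 * opL r 1 * C₁ := by nlinarith
    nlinarith
  refine ⟨CC, hC.trans hCCC, ?_⟩
  intro A' hA' Cφ φ hCφ hφ P hP s hs f z q g₀ δ e A c st hq hg₀ hδ he hA hc hst V X X0 l u j n hV
    hX hXX hgX hqX hδX hsX hn hu hlj s₁ N2 i1 i2 Bd Tn hs₁ hBd hnN hi1 hi2 hPM
  have hX00 : 0 < X0 := by nlinarith
  have hX01 : 1 ≤ X0 := by nlinarith
  have hXX0 : X ≤ X0 := by nlinarith
  have hcell := H₁ h μ CC P s V X X0 e A c st g₀ l u j n hV hX hXX he hA hc hst hg₀ hn hu hlj s₁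
    N2 i1 i2 Bd Tn hs₁ hBd hnN hi1 hi2 hPM
  have hnm1 : (1 : ℝ) ≤ nm n := by exact_mod_cast nm_pos.2 hn.ne_zero
  have hea : (1 : ℝ) ≤ nm (e * A) := by
    exact_mod_cast nm_pos.2 (mul_ne_zero he.ne_zero hA.ne_zero)
  have hcn : (1 : ℝ) ≤ nm c := (nm_C hc).1
  set Wb : ℕ → ℕ → ℝ := fun v _ => 3 * Real.exp (2 / 3) * Real.exp ((v : ℝ) / 3 +
          nr (Real.log (V * nm (e * A))) (Real.log (2 ^ j) + l / 3 - 3 * Real.log (nm n)) -
            l / 3) with hWb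
  set M : ℝ := C₁ * X0 ^ ε * (Bd * Real.exp (Real.log (2 ^ j) - Real.log (nm n) + Tn)) with hM
  have hM0 : 0 ≤ M := by positivity
  have key := H A' hA' Cφ (1 / 2) hCφ (by norm_num) (by norm_num) φ hφ (0, 0) 0 P hP s hs f z 1
    le_rfl q g₀ δ e A (st ^ 4) hq hg₀ hδ he hA V X X0 hX hXX0 (by rw [one_pow]; exact hX01) hgX hqX
    hδX hsX l u j n (fun _ _ _ _ => True) Wb c hc
    (fun v hv w' hw' g₂ hg₂ g₃ hg₃ => by
      have hX0 : 0 ≤ X := by linarith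
      have b1 := bk_nm_ge hX0 hg₂
      have b2 := bk_nm_le hX0 hg₂
      have b3 : (1 : ℝ) ≤ nm g₃ := by exact_mod_cast nm_pos.2 (bk_prim hX0 hg₃).ne_zero
      have h2 := MoL106.WM_cell (V := Real.log (V * nm (e * A))) (s := 0) (a := (l : ℝ) / 3)
        (g := (v : ℝ) / 3) (w := 0)
        (i := Real.log (2 ^ j) + l / 3 - 3 * Real.log (nm n))
        (R := V * nm (e * A) / (nm c * Real.exp ((l : ℝ) / 3) ^ 2))
        (Z := 2 ^ j / (nm n : ℝ) ^ 3) le_rfl (by positivity) le_rfl (by positivity)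
        (by positivity) (by positivity) (by
          rw [zero_add, Real.exp_sub, Real.exp_log (by positivity)]
          have e1 : Real.exp (2 * ((l : ℝ) / 3)) = Real.exp ((l : ℝ) / 3) ^ 2 := by
            rw [← Real.exp_nat_mul]; norm_num
          rw [e1]
          refine div_le_div_of_nonneg_left (by positivity) (by positivity) ?_
          have : 0 ≤ Real.exp ((l : ℝ) / 3) ^ 2 := by positivity
          nlinarith) (by
          have e1 : Real.log (2 ^ j) + (l : ℝ) / 3 - 3 * Real.log (nm n) - l / 3 + 3 * 0 =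
            Real.log (2 ^ j) - 3 * Real.log (nm n) := by ring
          rw [e1, Real.exp_sub, Real.exp_log (by positivity)]
          have e2 : Real.exp (3 * Real.log (nm n)) = (nm n : ℝ) ^ 3 := by
            have h3 : (3 : ℝ) * Real.log (nm n) = Real.log ((nm n : ℝ) ^ 3) := by
              rw [Real.log_pow]; norm_num
            rw [h3, Real.exp_log (by positivity)]
          rw [e2]) b1 b2 (by rw [Real.exp_zero]; exact b3)
      refine h2.trans (le_of_eq ?_)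
      rw [hWb]
      beta_reduce
      congr 2
      ring)
    (fun v _ w' _ => by rw [hWb]; positivity) M hM0
    (CellX.mono hcell hCCC)
  rw [abs_zero, add_zero, one_pow, mul_one] at key
  have h2j : (0 : ℝ) < 2 ^ j := by positivity
  calc (2 / 2 ^ j) * ((nm n : ℝ) * ∑ j₂ ∈ Tb V e A c l, ∑ B ∈ bk X u,
        MNx A' V e A c X (fun _ _ _ => True) δ g₀ φ (0, 0) 0 (e * A * j₂ * st ^ 4) j₂ B j n
          (sqc q (alf z 1 h (fun i => (s i).pc P) f))) ≤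
      (2 / 2 ^ j) * ((nm n : ℝ) * (C * (Cφ ^ 2 * iA A' * (1 / 2 * ((1 / 2 : ℝ) ^ A')⁻¹)) *
        X0 ^ ε * opL r 1 * M)) := by gcongr
    _ = CC * (Cφ ^ 2 * iA A' * (1 / 2 * ((1 / 2 : ℝ) ^ A')⁻¹)) * (X0 ^ ε * X0 ^ ε) *
        (Bd * Real.exp Tn) := by
        rw [hM, hCC, Real.exp_add, Real.exp_sub, Real.exp_log h2j,
          Real.exp_log (by linarith : (0 : ℝ) < nm n)]
        field_simp
    _ = _ := by
        rw [← Real.rpow_add hX00]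
        congr 3
        ring

/-! ### one window -/

lemma KDd.mono' {σ : Eis} {J M : ℕ} {Ft : ℝ → ℂ} {c c' H : ℝ} {ϑ ϑd : ℝ → ℝ}
    {om : IX σ → ℝ → ℂ} (h : KDd σ J M Ft c H ϑ ϑd om) (hc : c ≤ c') :
    KDd σ J M Ft c' H ϑ ϑd om := by
  refine ⟨h.kd.mono hc, h.d0, h.d1, fun A hA d hd => (h.fl A hA d hd).trans ?_⟩
  have hNd : (0 : ℝ) < nm d := by exact_mod_cast nm_pos.2 hd.ne_zero
  have h1 := h.d0 ((nm d : ℝ) / A) (by positivity)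
  gcongr

/-- one constant for the four `c` -/
lemma kddG (J M P : ℕ) : ∃ (k : ℕ) (C : ℝ), 0 ≤ C ∧
    ∀ (F : ℝ → ℂ) (Sf : ℝ), TF1 F → Bd F k Sf → ∀ σ ∈ C4,
      KDd σ J M (GF F) (C * Sf) 1 (fun y => min 1 (y ^ P)) (fun _ => 1) (om' σ F) := by
  have key : ∀ σ : Eis, ∃ (k : ℕ) (C : ℝ), 0 ≤ C ∧ (σ ∈ C4 →
      ∀ (F : ℝ → ℂ) (Sf : ℝ), TF1 F → Bd F k Sf →
      KDd σ J M (GF F) (C * Sf) 1 (fun y => min 1 (y ^ P)) (fun _ => 1) (om' σ F)) := by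
    intro σ
    by_cases h : σ ∈ C4
    · obtain ⟨k, C, hC, h1⟩ := KDd_GF (isC_sg (mem_C4.mp h)) J M P
      exact ⟨k, C, hC, fun _ => h1⟩
    · exact ⟨0, 0, le_rfl, fun h' => absurd h' h⟩
  choose k C hC H using key
  refine ⟨∑ σ ∈ C4, k σ, ∑ σ ∈ C4, C σ, Finset.sum_nonneg fun σ _ => hC σ, ?_⟩
  intro F Sf hF hB σ hσ
  have hSf : 0 ≤ Sf := (norm_nonneg _).trans (hB 0 (Nat.zero_le _) 0)
  have hk : k σ ≤ ∑ σ ∈ C4, k σ := Finset.single_le_sum (fun _ _ => Nat.zero_le _) hσ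
  have hCs : C σ ≤ ∑ σ ∈ C4, C σ := Finset.single_le_sum (fun σ _ => hC σ) hσ
  exact KDd.mono' (H σ hσ F Sf hF (fun i hi y => hB i (hi.trans hk) y))
    (mul_le_mul_of_nonneg_right hCs hSf)

lemma fP_true (P : Eis → Eis → Eis → Prop) : fP P (fun _ => True) = P := by
  funext g₂ g₃ d
  unfold E2sp579.fP
  exact propext ⟨fun h => h.1, fun h => ⟨h, trivial⟩⟩

lemma GF_bd {F : ℝ → ℂ} (hF : TF1 F) : ∃ b : ℝ, ∀ x, GF F x ≠ 0 → x ≤ b := by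
  refine ⟨Real.exp (3 / 2), fun x hx => ?_⟩
  unfold X6C180.GF at hx
  by_cases h0 : 0 < x
  · rw [if_pos h0] at hx
    have h1 : ¬ 3 / 2 < |Real.log x| := fun h => hx (hF.supp _ h)
    rw [← Real.log_le_iff_le_exp h0]
    exact (le_abs_self _).trans (not_lt.1 h1)
  · exact (not_lt.1 h0).trans (Real.exp_pos _).le

lemma bw_val {φ : ℝ → ℝ} {α : Eis → ℂ} (hα : FS α) (n : Eis) :
    bw φ (0, 0) 0 α n = α n * ((φ (Real.log (nm n)) : ℝ) : ℂ) := by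
  by_cases h0 : α n = 0
  · have : bw φ (0, 0) 0 α n = 0 := by
      by_contra h1
      exact bw_ne h1 h0
    rw [this, h0, zero_mul]
  · have hp := hα.prim n h0
    unfold QsO83.bw RGw813.bt RGw813.tw2 Win813.wn Weight600.pw
    have e2 : sy (w ^ (0, 0).1 * lam ^ (0, 0).2 : Eis) n = 1 := by
      simp only [pow_zero, mul_one]
      exact Sym645.sy_one_left (Sym645.prim_nm_mod hp)
    rw [e2, osc_zero_left]
    simp

lemma Qs_ag0 {F : ℝ → ℂ} (hF : ∃ b : ℝ, ∀ x, F x ≠ 0 → x ≤ b) {K : ℝ} (hK : 0 < K)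
    {δ e : Eis} (he : e ≠ 0) {y : Eis × Eis} (hy : IsPrim y.1) {A : Eis} (hA : A ≠ 0) (V : ℝ)
    {α : Eis → ℂ} (h0 : ∀ n, ag α δ y.1 n = 0) :
    ∑ c ∈ C4, ∑ j₂ ∈ S (Real.sqrt V), Qs α δ e V K F y A c j₂ ≤ 0 := by
  have h1 := QF_Qs0 hF hK (δ := δ) he hy hA V ℕ ∅ (fun _ => 0) (fun _ _ => 0) (by simp) (by simp)
  simp only [Finset.sum_empty, Finset.card_empty, Nat.cast_zero, zero_mul] at h1
  have e1 : ag α δ y.1 = ag (fun _ => (0 : ℂ)) δ y.1 := by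
    funext n
    rw [h0 n]
    unfold E2440.ag
    split_ifs <;> rfl
  refine le_trans (le_of_eq ?_) h1
  refine Finset.sum_congr rfl fun c _ => Finset.sum_congr rfl fun j₂ _ => ?_
  unfold E2440.Qs
  rw [e1]

end Crest.Agent.R017.P1Rd440
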