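import Crest.Agent.R017.P1Re_440

/-!
# Row 17, R8: the real side of E2 for `P1`, part f (helper440): all windows

* `Qs_P1` : `∑ c, ∑ j₂, Qs` of a twisted natural list
-/

set_option autoImplicit false
set_option maxHeartbeats 2000000

noncomputable section

open Finset
open scoped ComplexConjugate

namespace Crest.Agent.R017.P1Rf440

open Crest.Agent.R012 Crest.Agent.R012.Eis Crest.Agent.R012.LS2 Crest.Agent.R012.Gauss880
open Crest.Agent.R012.Div277 (dvs mem_dvs)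
open Crest.Agent.R012.Mob705 (pdiv mem_pdiv)
open Crest.Agent.R017.FE47 (cx PU)
open Crest.Agent.R017.B770
open Crest.Agent.R017.Prov71
open Crest.Agent.R017.CM106 (CS FS)
open Crest.Agent.R017.HP842 (pc al sqc)
open Crest.Agent.R017.Leg381 (alf alF Pf LF natl alF_ofFn)
open Crest.Agent.R017.XRG106
open Crest.Agent.R017.X6C180 (GF)
open Crest.Agent.R017.Win813 (iA iA_nonneg WK)
open Crest.Agent.R017.QsO83 (bw)
open Crest.Agent.R017.I1146 (tw3)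
open Crest.Agent.R017.RC106 (k9)
open Crest.Agent.R017.X6545 (TF Bd)
open Crest.Agent.R017.X6W180 (TF1 tf1_tf)
open Crest.Agent.R017.E2440 (C4 mem_C4 Qs prs mem_prs)
open Crest.Agent.R017.P1Ra440
open Crest.Agent.R017.P1Rb440
open Crest.Agent.R017.P1Rc440
open Crest.Agent.R017.P1Rd440
open Crest.Agent.R017.P1Re440

/-- **a twisted natural list**, length `r` -/
theorem Qs_P1r {h : ℝ → ℝ} {c₀ : ℝ} (hpu : PU h c₀) {R : ℝ} (hR0 : 0 ≤ R)
    (hR : ∀ u, cx h u ≠ 0 → |u| ≤ R) {μ : ℝ} (hμ : 0 ≤ μ) (r : ℕ) {ε : ℝ} (hε : 0 < ε)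
    (hε2 : ε ≤ 1) (M' : ℕ) :
    ∃ (k : ℕ) (C : ℝ), 1 ≤ C ∧ ∀ (F : ℝ → ℂ) (Sf : ℝ), TF1 F → Bd F k Sf → ∀ Pz : ℝ,
      C ≤ Pz → ∀ (P : DPar) (_ : P.OK) (s : Fin r → Pq), (∀ i, 0 ≤ (s i).z) →
      Real.exp (∑ k, (s k).z + C) ≤ Pz → ∀ (st : Eis), st ≠ 0 → (nm st : ℝ) ≤ Pz →
      ∀ (V K : ℝ) (δ e : Eis), SzP Pz V K δ e → ∀ y ∈ prs δ, ∀ A ∈ pdiv y.1,
      ∀ (s₁ i1 i2 Bd Tn : ℝ), Real.log (nm (e * A * st ^ 4)) + k9 ≤ s₁ → 0 ≤ Bd →
      ε * Real.log Pz + 2 * Real.log (nm y.2) +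
        (∑ k, (s k).z - Real.log (nm y.1)) + Real.log V + 2 * Real.log (nm (e * A)) -
        Real.log K ≤ i1 →
      Real.log 10 + Real.log K - Real.log (nm (e * A)) + 1 ≤ i2 →
      PMH h μ C P s (Real.log (V * nm (e * A))) (Real.log (nm y.1)) (Real.log (nm y.2)) i1 i2 s₁
        Bd Tn →
      (y.2 = 1 → ∀ b : ℝ, 0 ≤ b → i2 - i1 ≤ 3 * b + 1 →
        VFH h μ C P s 1 δ y.1
          (V * (nm (e * A) : ℝ) ^ 3 * (nm st : ℝ) ^ 8 * Real.exp (b + 1 / 3))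
          (∑ k, (s k).z - (Real.log (nm y.1) + b))
          (Bd * Real.exp (Tn + 1 / 3 * Real.log V - 2 / 3 * Real.log K +
            Real.log (nm (e * A)) + 4 / 3 * b +
            1 / 3 * (∑ k, (s k).z - Real.log (nm y.1) - b)))) →
      ∑ c ∈ C4, ∑ j₂ ∈ S (Real.sqrt V), Qs (tw3 st (sqc 1
        (alF 1 1 P h (natl (List.ofFn s))))) δ e V K (GF F) y A c j₂ ≤
      C * Sf ^ 2 * Pz ^ (50 * ε) *
        (V ^ (-(1 : ℝ) / 3) * K ^ ((2 : ℝ) / 3) / nm (e * A) * (Bd * Real.exp Tn) +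
          (Pz ^ M')⁻¹) := by
  set A' : ℕ := ⌈2 * (r * μ)⌉₊ + 2 with hA'
  have hA'1 : 2 * (r * μ) + 2 ≤ (A' : ℝ) := by
    rw [hA']
    push_cast
    have := Nat.le_ceil (2 * ((r : ℝ) * μ))
    linarith
  obtain ⟨CW, hCW, HW⟩ := Qs_win (r * R) (by positivity) A'
  obtain ⟨CL, hCL, HL⟩ := AL813.sum_alF_le hpu r
  obtain ⟨k, C1, hC1, H⟩ := Qs_P1w hpu hR0 hR hμ r hε hε2 4 M' A' hA'1
  have hiA := iA_nonneg A'
  set C : ℝ := C1 + CL + CW * iA A' + (r * R + 2) + 4 * CW ^ 2 * (C1 * (1 + CW ^ 2)) +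
    Real.exp (2 * (r * R + 4) / ε) with hC
  have hrR : 0 ≤ r * R := by positivity
  have hCWA : 0 ≤ CW * iA A' := by positivity
  have hCW2 : 0 ≤ 4 * CW ^ 2 * (C1 * (1 + CW ^ 2)) := by positivity
  have hexp := Real.exp_pos (2 * (r * R + 4) / ε)
  refine ⟨k, C, by rw [hC]; linarith, ?_⟩
  intro F Sf hF hBF Pz hCP P hP s hs hzP st hst hstP V K δ e hz y hy A hA s₁ i1 i2 Bd Tn hs₁ hBd
    hi1 hi2 hPM hVF
  have hP1 := hz.P1
  have hP0 : 0 < Pz := by linarith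
  set n := ∑ k, (s k).z with hn
  have hn0 : 0 ≤ n := Finset.sum_nonneg fun i _ => hs i
  have hzi : ∀ i, (s i).z ≤ n := fun i => Finset.single_le_sum (fun i _ => hs i)
    (Finset.mem_univ i)
  have hnatl : natl (List.ofFn s) = List.ofFn fun i => (s i, false) := by
    unfold Leg381.natl
    rw [List.map_ofFn]
    rfl
  have hal : alF 1 1 P h (natl (List.ofFn s)) =
      alf 1 1 h (fun i => (s i).pc P) (fun _ => false) := by
    rw [hnatl, alF_ofFn]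
  have hlen : (natl (List.ofFn s)).length = r := by
    rw [hnatl, List.length_ofFn]
  have hLF : LF (natl (List.ofFn s)) = n := by
    rw [hnatl, hn]
    unfold Leg381.LF
    rw [List.map_ofFn, List.sum_ofFn]
    rfl
  set al₀ : Eis → ℂ := sqc 1 (alf 1 1 h (fun i => (s i).pc P) (fun _ => false)) with hal₀
  have hsup : ∀ m, al₀ m ≠ 0 → IsPrim m ∧ Squarefree m ∧ |Real.log (nm m) - n| ≤ r * R := by
    intro m hm
    rw [hal₀, ← hal] at hm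
    obtain ⟨g1, g2, -, g3⟩ := AL813.al_supp hR 1 1 P 1 (natl (List.ofFn s)) hm
    rw [hLF, hlen] at g3
    exact ⟨g1, g2, g3⟩
  have hCP1 : C1 ≤ Pz := by rw [hC] at hCP; linarith
  have hCPL : CL ≤ Pz := by rw [hC] at hCP; linarith
  have hCPW : CW * iA A' ≤ Pz := by rw [hC] at hCP; linarith
  have hlogP : 2 * (r * R + 4) / ε ≤ Real.log Pz := by
    rw [Real.le_log_iff_exp_le hP0]
    rw [hC] at hCP
    linarith
  have hlogP2 : r * R + 4 ≤ ε / 2 * Real.log Pz := by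
    rw [div_le_iff₀ hε] at hlogP
    linarith
  have hCn : n + (r * R + 2) ≤ n + C := by rw [hC]; linarith
  have hYP : Real.exp (n + (r * R + 2)) ≤ Pz := (Real.exp_le_exp.2 hCn).trans hzP
  have hnorm : ∀ m, ‖al₀ m‖ ≤ Pz ^ 4 := by
    intro m
    by_cases h0 : al₀ m = 0
    · rw [h0, norm_zero]; positivity
    obtain ⟨g1, g2, g3⟩ := hsup m h0
    have hm0 : (0 : ℝ) < nm m := by exact_mod_cast nm_pos.2 g1.ne_zero
    set Y : ℝ := Real.exp (n + r * R) with hY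
    have hY1 : 1 ≤ Y := Real.one_le_exp (by positivity)
    have hmS : m ∈ S Y := by
      rw [mem_S (by linarith)]
      refine ⟨?_, g1, g2⟩
      rw [← Real.log_le_iff_le_exp hm0]
      linarith [(abs_le.1 g3).2]
    have h1 := HL 1 1 P hP 1 (natl (List.ofFn s)) hlen.le Y hY1
    have h2 := Finset.single_le_sum (f := fun m => ‖sqc 1 (alF 1 1 P h (natl (List.ofFn s))) m‖)
      (fun _ _ => norm_nonneg _) hmS
    rw [hal] at h1 h2
    have hYP2 : Y ≤ Pz := (Real.exp_le_exp.2 (by linarith)).trans hYP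
    calc ‖al₀ m‖ ≤ CL * Y ^ 2 := h2.trans h1
      _ ≤ Pz * Pz ^ 2 := by gcongr
      _ = Pz ^ 3 := by ring
      _ ≤ Pz ^ 4 := pow_le_pow_right₀ hP1 (by norm_num)
  have hFS0 : FS al₀ :=
    HP842.FS.sqc (FS_alf' hR (s := fun i => (s i).pc P) (fun i => (s i).ok hP) 1 1 _) 1
  have hSf : 0 ≤ Sf := (norm_nonneg _).trans (hBF 0 (Nat.zero_le _) 0)
  have hV0 : 0 < V := by linarith [hz.V1]
  have hK0 := hz.K0
  have hy' := (mem_prs hz.δp).mp hy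
  have hA2 := (mem_pdiv hy'.1.ne_zero).mp hA
  set W : ℝ := V ^ (-(1 : ℝ) / 3) * K ^ ((2 : ℝ) / 3) / nm (e * A) * (Bd * Real.exp Tn) +
          (Pz ^ M')⁻¹ with hW
  have hW0 : 0 ≤ W := by positivity
  have hC10 : 0 ≤ C1 := by linarith
  have hlog4 : Real.log 4 ≤ 2 := by
    have h1 : Real.log 4 ≤ 4 - 1 := Real.log_le_sub_one_of_pos (by norm_num)
    have h2 : Real.log 4 = 2 * Real.log 2 := by
      rw [show (4 : ℝ) = 2 ^ 2 by norm_num, Real.log_pow]; norm_num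
    have h3 : Real.log 2 ≤ 2 - 1 := Real.log_le_sub_one_of_pos (by norm_num)
    linarith
  rw [hal]
  have key := HW (F := GF F) (GF_bd hF) hK0 (δ := δ) hz.ep.ne_zero (y := y) hy'.1 hA2.1.ne_zero V
    n (FS_tw3 st hFS0) (fun m hm => (hsup m (right_ne_zero_of_mul hm)).2.2)
    (C1 * Sf ^ 2 * (1 + CW ^ 2) * Pz ^ (50 * ε) * W) (by positivity)
    (fun φ c₁ hφ hc₁ hφs => by
      have hc := abs_le.1 hc₁
      exact H F Sf hF hBF Pz CW φ (by linarith) hφ hCPW c₁ hφs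
        ((Real.exp_le_exp.2 (by linarith)).trans hYP) P hP s hs
        (fun i => (Real.exp_le_exp.2 (by linarith [hzi i])).trans hYP) (fun _ => false) 1 1 st
        isPrim_one (by
          have h5 : (nm (1 : Eis) : ℝ) = 1 := by
            have : nm (1 : Eis) = 1 := by decide
            exact_mod_cast this
          rw [h5]; exact hP1) hst hstP hnorm (fun m hm => (hsup m hm).2.1) V K δ e hz y hy A hA s₁
        i1 i2 Bd Tn hs₁ hBd (by linarith) hi2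
        (PMH.mono hPM (by rw [hC]; linarith)) fun hy2 b hb hib =>
          VFH.mono (hVF hy2 b hb hib) (by rw [hC]; linarith))
  refine key.trans ?_
  calc 4 * CW ^ 2 * (C1 * Sf ^ 2 * (1 + CW ^ 2) * Pz ^ (50 * ε) * W) =
      (4 * CW ^ 2 * (C1 * (1 + CW ^ 2))) * Sf ^ 2 * Pz ^ (50 * ε) * W := by ring
    _ ≤ C * Sf ^ 2 * Pz ^ (50 * ε) * W := by
        have : 4 * CW ^ 2 * (C1 * (1 + CW ^ 2)) ≤ C := by rw [hC]; linarith
        gcongr

/-- **a twisted natural list**, all lengths -/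
theorem Qs_P1 {h : ℝ → ℝ} {c₀ : ℝ} (hpu : PU h c₀) {R : ℝ} (hR0 : 0 ≤ R)
    (hR : ∀ u, cx h u ≠ 0 → |u| ≤ R) {μ : ℝ} (hμ : 0 ≤ μ) (N : ℕ) {ε : ℝ} (hε : 0 < ε)
    (hε2 : ε ≤ 1) (M' : ℕ) :
    ∃ (k : ℕ) (C : ℝ), 1 ≤ C ∧ ∀ (F : ℝ → ℂ) (Sf : ℝ), TF1 F → Bd F k Sf → ∀ Pz : ℝ,
      C ≤ Pz → ∀ (P : DPar) (_ : P.OK) (r : ℕ), r ≤ N → ∀ (s : Fin r → Pq),
      (∀ i, 0 ≤ (s i).z) →
      Real.exp (∑ k, (s k).z + C) ≤ Pz → ∀ (st : Eis), st ≠ 0 → (nm st : ℝ) ≤ Pz →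
      ∀ (V K : ℝ) (δ e : Eis), SzP Pz V K δ e → ∀ y ∈ prs δ, ∀ A ∈ pdiv y.1,
      ∀ (s₁ i1 i2 Bd Tn : ℝ), Real.log (nm (e * A * st ^ 4)) + k9 ≤ s₁ → 0 ≤ Bd →
      ε * Real.log Pz + 2 * Real.log (nm y.2) +
        (∑ k, (s k).z - Real.log (nm y.1)) + Real.log V + 2 * Real.log (nm (e * A)) -
        Real.log K ≤ i1 →
      Real.log 10 + Real.log K - Real.log (nm (e * A)) + 1 ≤ i2 →
      PMH h μ C P s (Real.log (V * nm (e * A))) (Real.log (nm y.1)) (Real.log (nm y.2)) i1 i2 s₁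
        Bd Tn →
      (y.2 = 1 → ∀ b : ℝ, 0 ≤ b → i2 - i1 ≤ 3 * b + 1 →
        VFH h μ C P s 1 δ y.1
          (V * (nm (e * A) : ℝ) ^ 3 * (nm st : ℝ) ^ 8 * Real.exp (b + 1 / 3))
          (∑ k, (s k).z - (Real.log (nm y.1) + b))
          (Bd * Real.exp (Tn + 1 / 3 * Real.log V - 2 / 3 * Real.log K +
            Real.log (nm (e * A)) + 4 / 3 * b +
            1 / 3 * (∑ k, (s k).z - Real.log (nm y.1) - b)))) →
      ∑ c ∈ C4, ∑ j₂ ∈ S (Real.sqrt V), Qs (tw3 st (sqc 1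
        (alF 1 1 P h (natl (List.ofFn s))))) δ e V K (GF F) y A c j₂ ≤
      C * Sf ^ 2 * Pz ^ (50 * ε) *
        (V ^ (-(1 : ℝ) / 3) * K ^ ((2 : ℝ) / 3) / nm (e * A) * (Bd * Real.exp Tn) +
          (Pz ^ M')⁻¹) := by
  choose k C hC H using fun r : ℕ => Qs_P1r hpu hR0 hR hμ r hε hε2 M'
  have hC0 : ∀ r ∈ Finset.range (N + 1), 0 ≤ C r := fun r _ => by linarith [hC r]
  refine ⟨∑ r ∈ Finset.range (N + 1), k r, ∑ r ∈ Finset.range (N + 1), C r, ?_, ?_⟩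
  · have := Finset.single_le_sum hC0 (Finset.mem_range.2 (Nat.succ_pos N))
    linarith [hC 0]
  intro F Sf hF hBF Pz hCP P hP r hr s hs hzP st hst hstP V K δ e hz y hy A hA s₁ i1 i2 Bd Tn hs₁
    hBd hi1 hi2 hPM hVF
  have hrm : r ∈ Finset.range (N + 1) := Finset.mem_range.2 (by omega)
  have hk : k r ≤ ∑ r ∈ Finset.range (N + 1), k r :=
    Finset.single_le_sum (fun _ _ => Nat.zero_le _) hrm
  have hCr : C r ≤ ∑ r ∈ Finset.range (N + 1), C r := Finset.single_le_sum hC0 hrm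
  have hV0 : 0 < V := by linarith [hz.V1]
  have hK0 := hz.K0
  have hP0 : 0 < Pz := by linarith [hz.P1]
  refine (H r F Sf hF (fun i hi y => hBF i (hi.trans hk) y) Pz (hCr.trans hCP) P hP s hs
    ((Real.exp_le_exp.2 (by linarith)).trans hzP) st hst hstP V K δ e hz y hy A hA s₁ i1 i2 Bd Tn
    hs₁ hBd hi1 hi2 (PMH.mono hPM hCr) fun hy2 b hb hib =>
      VFH.mono (hVF hy2 b hb hib) hCr).trans ?_
  gcongr

end Crest.Agent.R017.P1Rf440
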