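import Crest.Agent.R017.P1Rc_440
import Crest.Agent.R017.PM3_320
import Crest.Agent.R017.RM3c_986
import Crest.Agent.R017.TMU_708
import Crest.Agent.R017.P10a_146

/-!
# Row 17, R8: the real side of E2 for `P1`, part g (helper440): the uniform inputs

* `nat_split` : a natural child of a list with three lumps
* `pm_in` : the pair functional, both bounds; `tm_in` : the T-moment
-/

set_option autoImplicit false
set_option maxHeartbeats 1000000

noncomputable section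

open Finset
open scoped ComplexConjugate

namespace Crest.Agent.R017.P1Rg440

open Crest.Agent.R012 Crest.Agent.R012.Eis
open Crest.Agent.R017.B770
open Crest.Agent.R017.Prov71
open Crest.Agent.R017.FE47 (cx PU)
open Crest.Agent.R017.HP842 (pc al sqc alL)
open Crest.Agent.R017.XG702 (Pcs)
open Crest.Agent.R017.XT71 (Sys mx)
open Crest.Agent.R017.UBT973 (UBs)
open Crest.Agent.R017.XRG106 (RFp)
open Crest.Agent.R017.MoL106 (PM2)
open Crest.Agent.R017.I1146 (LN)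
open Crest.Agent.R017.Rough381 (VF)
open Crest.Agent.R017.PM320 (S3b MP3 fbx Epm box_fbx Bx5)
open Crest.Agent.R017.TM708 (TMF fbT EAll fbT_zero tAll)

variable {Λ : Type*} {π : Λ → DPar} {h : ℝ → ℝ} {d : ℝ}

lemma sum_ofFn_z {r : ℕ} (s : Fin r → Pq) : ∑ k, (s k).z = LN (List.ofFn s) := by
  unfold I1146.LN
  rw [List.map_ofFn, List.sum_ofFn]
  rfl

/-- a child of a list with three marked pieces -/
lemma nat_split {Rel : Pq → Pq → Prop} {r : ℕ} {s s' : Fin r → Pq} {b0 b1 b2 : Pq}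
    {qs : List Pq} (h0 : List.ofFn s = [b0, b1, b2] ++ qs) (hR : ∀ k, Rel (s' k) (s k)) :
    ∃ (u₁ u₂ u₃ : Pq) (rest : List Pq), List.ofFn s' = u₁ :: u₂ :: u₃ :: rest ∧ Rel u₁ b0 ∧
      Rel u₂ b1 ∧ Rel u₃ b2 ∧ List.Forall₂ Rel rest qs := by
  have h1 : List.Forall₂ Rel (List.ofFn s') (List.ofFn s) := by
    rw [List.forall₂_iff_get]
    refine ⟨by simp, fun i hi1 hi2 => ?_⟩
    simp only [List.get_ofFn]
    exact hR _
  rw [h0] at h1
  generalize List.ofFn s' = l at h1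
  simp only [List.cons_append, List.nil_append] at h1
  cases h1 with
  | cons a1 h1 =>
    cases h1 with
    | cons a2 h1 =>
      cases h1 with
      | cons a3 h1 => exact ⟨_, _, _, _, rfl, a1, a2, a3, h1⟩

/-- the pieces -/
structure Pcx (σ B X H : ℝ) (u₁ u₂ u₃ : Pq) (rest : List Pq) : Prop where
  lump : ∀ p ∈ [u₁, u₂, u₃], Dq.lump p ∧ 0 ≤ p.z ∧ p.z ≤ 8 * Real.log X ∧ (nm p.d : ℝ) ≤ X ^ B
  am : ∀ p ∈ rest, p.kd = .am ∧ 0 ≤ p.z ∧ p.z ≤ σ * Real.log X ∧ (nm p.d : ℝ) ≤ X ^ B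
  sum : LN rest ≤ 8 * Real.log X
  ht : ∀ p ∈ u₁ :: u₂ :: u₃ :: rest, 1 + |p.t| ≤ H
  H1 : 1 ≤ H

lemma Pcx.nl {σ B X H : ℝ} {u₁ u₂ u₃ : Pq} {rest : List Pq} (h : Pcx σ B X H u₁ u₂ u₃ rest) :
    ∀ p ∈ rest, ¬ Dq.lump p := by
  intro p hp hl
  have h1 := (h.am p hp).1
  rw [hl.1] at h1
  exact absurd h1 (by decide)

lemma Pcx.LN0 {σ B X H : ℝ} {u₁ u₂ u₃ : Pq} {rest : List Pq} (h : Pcx σ B X H u₁ u₂ u₃ rest) :
    0 ≤ LN rest := by
  unfold I1146.LN
  refine List.sum_nonneg fun x hx => ?_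
  obtain ⟨p', hp', rfl⟩ := List.mem_map.1 hx
  exact (h.am p' hp').2.1

lemma Pcx.mass {σ B X H : ℝ} {u₁ u₂ u₃ : Pq} {rest : List Pq} (h : Pcx σ B X H u₁ u₂ u₃ rest) :
    Dq.mass X rest .am = LN rest / Real.log X ∧ Dq.mass X rest .mo = 0 := by
  refine ⟨P10146.mass_am fun p hp => (h.am p hp).1, ?_⟩
  have h1 : ∀ p ∈ rest, p.kd = .am := fun p hp => (h.am p hp).1
  clear h
  induction rest with
  | nil => simp [Pcs.mass]
  | cons p ps ih =>
    rw [Pcs.mass_cons, ih fun q hq => h1 q (List.mem_cons_of_mem _ hq), if_neg]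
    · simp
    · rw [Dq_kind, h1 p List.mem_cons_self]
      decide

/-- **the pair functional** -/
theorem pm_in (hPM : UBs S3b Dq (MP3 π h (fun _ => 0) (fun _ => 0)) (fbx 8) ∅ (Epm d))
    (hRF : RM986.Plain (fun _ k => k ≠ 0) π h 8
      (fun κ y₁ y₂ y₃ m a => max (RM986.r3 d κ y₁ y₂ y₃ m a)
        (κ / 3 + 2 * a + 2 * (7 / 8 + d) * m))) {ε : ℝ} (hε : 0 < ε) :
    ∃ σ : ℝ, 0 < σ ∧ ∀ (lam : Λ) (N : ℕ) (B : ℝ), ∃ (M : ℕ) (X₀ : ℝ), 1 < X₀ ∧
      ∀ X : ℝ, X₀ ≤ X → ∀ (l β H : ℝ) (u₁ u₂ u₃ : Pq) (rest : List Pq), rest.length ≤ N →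
      Pcx σ B X H u₁ u₂ u₃ rest → 0 ≤ l → 0 ≤ β → l ≤ 2 * Real.log X → β ≤ 3 * Real.log X →
      PM2 (π lam) h l β (u₁ :: u₂ :: u₃ :: rest) ≤ H ^ M * X ^ (PM320.pmb d (β / Real.log X)
        (l / Real.log X) (u₁.z / Real.log X) (u₂.z / Real.log X) (u₃.z / Real.log X) 0
        (LN rest / Real.log X) + ε) ∧
      PM2 (π lam) h l β (u₁ :: u₂ :: u₃ :: rest) ≤ H ^ M * X ^ (max (RM986.r3 d
        ((l + 2 * β) / Real.log X) (u₁.z / Real.log X) (u₂.z / Real.log X) (u₃.z / Real.log X) 0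
        (LN rest / Real.log X)) ((l + 2 * β) / Real.log X / 3 + 2 * (LN rest / Real.log X) +
        2 * (7 / 8 + d) * 0) + ε) := by
  obtain ⟨σ₁, hσ₁, H1⟩ := hPM ε hε
  obtain ⟨σ₂, hσ₂, H2⟩ := hRF (ε / 4) (by positivity)
  obtain ⟨Cm, hCm, HM⟩ := PML320.PMf_merge (h := h) (ε := ε / 16) (by positivity)
  refine ⟨min σ₁ σ₂, lt_min hσ₁ hσ₂, fun lam N B => ?_⟩
  obtain ⟨M₁, X₁, hX₁, H1⟩ := H1 lam N (max B 1)
  obtain ⟨M₂, X₂, hX₂, H2⟩ := H2 lam N (max B 1)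
  refine ⟨M₁ + M₂, max (max X₁ X₂) (max 3 (Real.exp (4 * Real.log Cm / ε))),
    lt_of_lt_of_le hX₁ ((le_max_left _ _).trans (le_max_left _ _)), ?_⟩
  intro X hX l β H u₁ u₂ u₃ rest hN hp hl hβ hl2 hβ2
  have hXX₁ : X₁ ≤ X := (le_max_left _ _).trans ((le_max_left _ _).trans hX)
  have hXX₂ : X₂ ≤ X := (le_max_right _ _).trans ((le_max_left _ _).trans hX)
  have hX3 : 3 ≤ X := (le_max_left _ _).trans ((le_max_right _ _).trans hX)
  have hXC : Real.exp (4 * Real.log Cm / ε) ≤ X :=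
    (le_max_right _ _).trans ((le_max_right _ _).trans hX)
  have hX1 : 1 < X := by linarith
  have hX0 : 0 < X := by linarith
  set L := Real.log X with hL
  have hL0 : 0 < L := Real.log_pos hX1
  obtain ⟨hma, hmm⟩ := hp.mass
  have hLN0 := hp.LN0
  have hnl := hp.nl
  have h1u := hp.lump u₁ (by simp)
  have h2u := hp.lump u₂ (by simp)
  have h3u := hp.lump u₃ (by simp)
  have hXB : ∀ p : Pq, (nm p.d : ℝ) ≤ X ^ B → (nm p.d : ℝ) ≤ X ^ (max B 1) := fun p hp =>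
    hp.trans (Real.rpow_le_rpow_of_exponent_le hX1.le (le_max_left _ _))
  have h1X : (1 : ℝ) ≤ X ^ (max B 1) := Real.one_le_rpow hX1.le (by positivity)
  have hH0 : 0 < H := by linarith [hp.H1]
  have hbox : ∀ z : ℝ, 0 ≤ z → z ≤ 8 * L → 0 ≤ z / L ∧ z / L ≤ 8 := fun z h0 h1 =>
    ⟨by positivity, by rw [div_le_iff₀ hL0]; exact h1⟩
  have hHM : ∀ m, m ≤ M₁ + M₂ → H ^ m ≤ H ^ (M₁ + M₂) := fun m hm =>
    pow_le_pow_right₀ hp.H1 hm
  constructor
  · set a : PM320.Y3b := ⟨l, β, ![u₁, u₂, u₃]⟩ with ha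
    have hok : a.ok := by
      intro i
      fin_cases i
      · exact ⟨h1u.1, h1u.2.1⟩
      · exact ⟨h2u.1, h2u.2.1⟩
      · exact ⟨h3u.1, h3u.2.1⟩
    have key := H1 X hXX₁ a rest hN (fun p hp' => Or.inr (by
        show p.z / Real.log X ≤ σ₁
        rw [div_le_iff₀ hL0]
        refine (hp.am p hp').2.2.1.trans ?_
        exact mul_le_mul_of_nonneg_right (min_le_left _ _) hL0.le))
      (by show (1 : ℝ) ≤ X ^ σ₁; exact Real.one_le_rpow hX1.le hσ₁.le) (Nat.zero_le _)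
      (by
        show mx Dq.s2 [u₁, u₂, u₃] ≤ X ^ (max B 1)
        rw [XT71.mx_cons, XT71.mx_cons, XT71.mx_cons]
        exact max_le (hXB _ h1u.2.2.2) (max_le (hXB _ h2u.2.2.2)
          (max_le (hXB _ h3u.2.2.2) h1X)))
      (fun p hp' => ⟨hXB p (hp.am p hp').2.2.2, (hp.am p hp').2.1⟩)
      (by
        refine (box_fbx ?_).trans hσ₁.le
        refine ⟨fun i => ?_, fun t => ?_⟩
        · fin_cases i
          · exact hbox l hl (by linarith)
          · exact hbox β hβ (by linarith)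
          · exact hbox _ h1u.2.1 h1u.2.2.1
          · exact hbox _ h2u.2.1 h2u.2.2.1
          · exact hbox _ h3u.2.1 h3u.2.2.1
        · cases t
          · show 0 ≤ Dq.mass X rest .mo ∧ Dq.mass X rest .mo ≤ 8
            rw [hmm]; norm_num
          · show 0 ≤ Dq.mass X rest .am ∧ Dq.mass X rest .am ≤ 8
            rw [hma]; exact hbox _ hLN0 hp.sum)
      (fun p hp' hl' => (hnl p hp' hl').elim) H hp.H1
      (by
        show mx Dq.s1 [u₁, u₂, u₃] ≤ H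
        rw [XT71.mx_cons, XT71.mx_cons, XT71.mx_cons]
        exact max_le (hp.ht _ (by simp)) (max_le (hp.ht _ (by simp))
          (max_le (hp.ht _ (by simp)) hp.H1)))
      (fun p hp' => hp.ht p (by simp [hp']))
    unfold PM320.MP3 at key
    rw [if_pos hok] at key
    have e1 : Epm d (S3b.ev X a, Dq.mass X rest) = PM320.pmb d (β / L) (l / L) (u₁.z / L)
        (u₂.z / L) (u₃.z / L) 0 (LN rest / L) := by
      show PM320.pmb d (β / L) (l / L) (u₁.z / L) (u₂.z / L) (u₃.z / L)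
        (Dq.mass X rest .mo) (Dq.mass X rest .am) = _
      rw [hma, hmm]
    rw [e1] at key
    have e2 : PM2 (π lam) h l β (u₁ :: u₂ :: u₃ :: rest) =
        PML320.PMf (π lam) h (a.l + 0) (a.β + 0) (a.mk3 ++ rest) := by
      rw [add_zero, add_zero]
      rfl
    rw [e2]
    refine key.trans ?_
    exact mul_le_mul_of_nonneg_right (hHM _ (by omega)) (by positivity)
  · have h1 := HM (π lam) l β hl hβ (u₁ :: u₂ :: u₃ :: rest)
    have h2 := H2 X hXX₂ (l + 2 * β) u₁ u₂ u₃ rest (fun p hp' => by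
        have h3 := hp.lump p hp'
        exact ⟨h3.1, h3.2.1, h3.2.2.1.trans (by nlinarith), hXB _ h3.2.2.2⟩)
      (by nlinarith) (by nlinarith) hN (fun p hp' => by
        have h3 := hp.am p hp'
        exact ⟨hnl p hp', h3.2.1, h3.2.2.1.trans
          (mul_le_mul_of_nonneg_right (min_le_right _ _) hL0.le), hXB _ h3.2.2.2⟩)
      (fun t => by
        cases t
        · rw [hmm]; linarith
        · rw [hma, div_le_iff₀ hL0]
          have := hp.sum
          nlinarith) H hp.H1 hp.ht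
    rw [hma, hmm] at h2
    have e3 : RFp (π lam) h (l + 2 * β) (u₁ :: u₂ :: u₃ :: rest) =
        RQ (fun k => k ≠ 0) h (l + 2 * β) ((u₁ :: u₂ :: u₃ :: rest).map (Pq.pc (π lam))) := rfl
    rw [e3] at h1
    set E := max (RM986.r3 d ((l + 2 * β) / L) (u₁.z / L) (u₂.z / L) (u₃.z / L) 0
      (LN rest / L)) ((l + 2 * β) / L / 3 + 2 * (LN rest / L) + 2 * (7 / 8 + d) * 0) with hE
    have hCm0 : 0 < Cm := by linarith
    have hCX : Cm ≤ X ^ (ε / 4) := by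
      rw [Real.rpow_def_of_pos hX0, ← Real.exp_log hCm0]
      refine Real.exp_le_exp.2 ?_
      have h3 : 4 * Real.log Cm / ε ≤ L := by
        rw [hL, Real.le_log_iff_exp_le hX0]; exact hXC
      rw [div_le_iff₀ hε] at h3
      rw [← hL]
      linarith
    have hex : Real.exp (ε / 16 * (l + 2 * β)) ≤ X ^ (ε / 2) := by
      rw [Real.rpow_def_of_pos hX0]
      refine Real.exp_le_exp.2 ?_
      rw [← hL]
      nlinarith
    have hX4 : 0 ≤ X ^ (ε / 4) := by positivity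
    calc PM2 (π lam) h l β (u₁ :: u₂ :: u₃ :: rest) ≤ Cm * Real.exp (ε / 16 * (l + 2 * β)) *
          RQ (fun k => k ≠ 0) h (l + 2 * β) ((u₁ :: u₂ :: u₃ :: rest).map (Pq.pc (π lam))) := h1
      _ ≤ X ^ (ε / 4) * X ^ (ε / 2) * (H ^ M₂ * X ^ (E + ε / 4)) := by
          refine mul_le_mul (mul_le_mul hCX hex (Real.exp_pos _).le hX4) h2
            (by rw [← e3]; exact XRG106.RFp_nonneg _ _ _ _) (by positivity)
      _ = H ^ M₂ * X ^ (E + ε) := by
          have e4 : X ^ (E + ε) = X ^ (ε / 4) * X ^ (ε / 2) * X ^ (E + ε / 4) := by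
            rw [← Real.rpow_add hX0, ← Real.rpow_add hX0]
            congr 1
            ring
          rw [e4]; ring
      _ ≤ _ := mul_le_mul_of_nonneg_right (hHM _ (by omega)) (by positivity)

/-- **the T-moment** -/
theorem tm_in (hTM : UBs TM708.S3 Dq (TMF π h fun _ => 0) (fbT 8) ∅ (EAll d)) {ε : ℝ}
    (hε : 0 < ε) :
    ∃ σ : ℝ, 0 < σ ∧ ∀ (lam : Λ) (N : ℕ) (B : ℝ), ∃ (M : ℕ) (X₀ : ℝ), 1 < X₀ ∧
      ∀ X : ℝ, X₀ ≤ X → ∀ (Y H : ℝ) (Q : Eis) (u₁ u₂ u₃ : Pq) (rest : List Pq),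
      rest.length ≤ N → Pcx σ B X H u₁ u₂ u₃ rest → 1 ≤ Y → Real.log Y ≤ 8 * Real.log X →
      Q ≠ 0 → (nm Q : ℝ) ≤ X ^ B →
      VF Y (sqc Q (alL h ((u₁ :: u₂ :: u₃ :: rest).map (Pq.pc (π lam))))) ≤ H ^ M *
        X ^ (tAll d (Real.log Y / Real.log X) (u₁.z / Real.log X) (u₂.z / Real.log X)
          (u₃.z / Real.log X) (0 + LN rest / Real.log X) + ε) := by
  obtain ⟨σ₁, hσ₁, H1⟩ := hTM ε hε
  refine ⟨σ₁, hσ₁, fun lam N B => ?_⟩
  obtain ⟨M₁, X₁, hX₁, H1⟩ := H1 lam N (max B 1)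
  refine ⟨M₁, max X₁ 3, lt_of_lt_of_le hX₁ (le_max_left _ _), ?_⟩
  intro X hX Y H Q u₁ u₂ u₃ rest hN hp hY hY2 hQ hQB
  have hXX₁ : X₁ ≤ X := (le_max_left _ _).trans hX
  have hX3 : 3 ≤ X := (le_max_right _ _).trans hX
  have hX1 : 1 < X := by linarith
  have hX0 : 0 < X := by linarith
  have hY0 : 0 < Y := by linarith
  set L := Real.log X with hL
  have hL0 : 0 < L := Real.log_pos hX1
  obtain ⟨hma, hmm⟩ := hp.mass
  have hLN0 := hp.LN0
  have hnl := hp.nl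
  have h1u := hp.lump u₁ (by simp)
  have h2u := hp.lump u₂ (by simp)
  have h3u := hp.lump u₃ (by simp)
  have hXB : ∀ p : ℝ, p ≤ X ^ B → p ≤ X ^ (max B 1) := fun p hp =>
    hp.trans (Real.rpow_le_rpow_of_exponent_le hX1.le (le_max_left _ _))
  have h1X : (1 : ℝ) ≤ X ^ (max B 1) := Real.one_le_rpow hX1.le (by positivity)
  have hbox : ∀ z : ℝ, 0 ≤ z → z ≤ 8 * L → 0 ≤ z / L ∧ z / L ≤ 8 := fun z h0 h1 =>
    ⟨by positivity, by rw [div_le_iff₀ hL0]; exact h1⟩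
  set a : TM708.T3 := ⟨Real.log Y, ![u₁, u₂, u₃], Q⟩ with ha
  have hok : a.ok := by
    refine ⟨fun i => ?_, hQ⟩
    fin_cases i
    · exact ⟨h1u.1, h1u.2.1⟩
    · exact ⟨h2u.1, h2u.2.1⟩
    · exact ⟨h3u.1, h3u.2.1⟩
  have key := H1 X hXX₁ a rest hN (fun p hp' => Or.inr (by
      show p.z / Real.log X ≤ σ₁
      rw [div_le_iff₀ hL0]
      exact (hp.am p hp').2.2.1))
    (by show (1 : ℝ) ≤ X ^ σ₁; exact Real.one_le_rpow hX1.le hσ₁.le) (Nat.zero_le _)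
    (by
      show max (nm Q : ℝ) (mx Dq.s2 [u₁, u₂, u₃]) ≤ X ^ (max B 1)
      rw [XT71.mx_cons, XT71.mx_cons, XT71.mx_cons]
      exact max_le (hXB _ hQB) (max_le (hXB _ h1u.2.2.2) (max_le (hXB _ h2u.2.2.2)
        (max_le (hXB _ h3u.2.2.2) h1X))))
    (fun p hp' => ⟨hXB _ (hp.am p hp').2.2.2, (hp.am p hp').2.1⟩)
    (by
      have hmem : (TM708.S3.ev X a, Dq.mass X rest) ∈ {q | fbT 8 q ≤ 0} := by
        rw [fbT_zero]
        refine ⟨fun i => ?_, fun t => ?_⟩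
        · fin_cases i
          · exact hbox _ (Real.log_nonneg hY) hY2
          · exact hbox _ h1u.2.1 h1u.2.2.1
          · exact hbox _ h2u.2.1 h2u.2.2.1
          · exact hbox _ h3u.2.1 h3u.2.2.1
        · cases t
          · show 0 ≤ Dq.mass X rest .mo ∧ Dq.mass X rest .mo ≤ 8
            rw [hmm]; norm_num
          · show 0 ≤ Dq.mass X rest .am ∧ Dq.mass X rest .am ≤ 8
            rw [hma]; exact hbox _ hLN0 hp.sum
      exact le_trans hmem hσ₁.le)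
    (fun p hp' hl' => (hnl p hp' hl').elim) H hp.H1
    (by
      show mx Dq.s1 [u₁, u₂, u₃] ≤ H
      rw [XT71.mx_cons, XT71.mx_cons, XT71.mx_cons]
      exact max_le (hp.ht _ (by simp)) (max_le (hp.ht _ (by simp))
        (max_le (hp.ht _ (by simp)) hp.H1)))
    (fun p hp' => hp.ht p (by simp [hp']))
  have h1 := TM708.SF_le_TMF (π := π) (h := h) (fun _ => 0) lam hok 1 1 rest
  rw [I1146.SN_eq] at h1
  have e1 : VF Y (sqc Q (alL h ((u₁ :: u₂ :: u₃ :: rest).map (Pq.pc (π lam))))) =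
      I1146.SN a.q (π lam) h (a.l + 0) (a.mk' ++ rest) := by
    unfold I1146.SN
    rw [add_zero]
    show _ = VF (Real.exp (Real.log Y)) _
    rw [Real.exp_log hY0]
    rfl
  rw [e1]
  refine h1.trans (key.trans (le_of_eq ?_))
  have e2 : EAll d (TM708.S3.ev X a, Dq.mass X rest) = tAll d (Real.log Y / L) (u₁.z / L)
      (u₂.z / L) (u₃.z / L) (0 + LN rest / L) := by
    show tAll d (Real.log Y / L) (u₁.z / L) (u₂.z / L) (u₃.z / L)
      (Dq.mass X rest .mo + Dq.mass X rest .am) = _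
    rw [hma, hmm]
  rw [e2]

end Crest.Agent.R017.P1Rg440
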