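import Crest.Agent.R017.P1Rh_440
import Crest.Agent.R017.P1Rf_440

/-!
# Row 17, R8: the real side of E2 for `P1`, part i (helper440): the premise on the Gauss side

* `vfh_of`
-/

set_option autoImplicit false
set_option maxHeartbeats 2000000

noncomputable section

open Finset
open scoped ComplexConjugate

namespace Crest.Agent.R017.P1Ri440

open Crest.Agent.R012 Crest.Agent.R012.Eis
open Crest.Agent.R017.B770
open Crest.Agent.R017.Prov71
open Crest.Agent.R017.FE47 (cx PU)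
open Crest.Agent.R017.HP842 (pc al sqc alL)
open Crest.Agent.R017.UBT973 (UBs)
open Crest.Agent.R017.XRG106 (Rl)
open Crest.Agent.R017.MoL106 (PM2 ChF nr)
open Crest.Agent.R017.I1146 (LN)
open Crest.Agent.R017.Rough381 (VF)
open Crest.Agent.R017.TM708 (TMF fbT EAll tAll tAll_mono)
open Crest.Agent.R017.P1F904 (Dp)
open Crest.Agent.R017.P1Rb440 (PMH)
open Crest.Agent.R017.P1Rc440 (VFH)
open Crest.Agent.R017.P1Rg440
open Crest.Agent.R017.P1Rh440
open Crest.Agent.R017.P1Hl440 Crest.Agent.R017.P1Hm440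

variable {Λ : Type*} {π : Λ → DPar} {h : ℝ → ℝ} {d : ℝ}

lemma ht_mul (a b : ℝ) : 1 + |a| ≤ (1 + |a - b|) * (1 + |b|) := by
  have h1 : |a| ≤ |a - b| + |b| := by
    have := abs_add_le (a - b) b
    rwa [sub_add_cancel] at this
  nlinarith [abs_nonneg (a - b), abs_nonneg b]

/-- **the premise `VFH`** -/
theorem vfh_of (hTM : UBs TM708.S3 Dq (TMF π h fun _ => 0) (fbT 8) ∅ (EAll d)) :
    ∃ σ : ℝ, 0 < σ ∧ σ ≤ 1 ∧ ∀ (lam : Λ) (N : ℕ) (B : ℝ), 0 ≤ B → ∃ (M : ℕ) (X₀ : ℝ), 1 < X₀ ∧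
      ∀ X : ℝ, X₀ ≤ X → ∀ {r : ℕ} (s : Fin r → Pq) (b0 b1 b2 : Pq) (qs : List Pq),
      List.ofFn s = [b0, b1, b2] ++ qs → qs.length ≤ N → ∀ (σ' H₀ : ℝ), 0 < σ' → σ' ≤ σ →
      Lst σ' B X H₀ b0 b1 b2 qs →
      ∀ (κ y₃ y₄ u x p D A e v T Λ' cs C i1 i2 Tn μ lK lv b : ℝ) (q δ g₀ : Eis), 8 / 9 ≤ κ →
      κ ≤ 1 → p = ∑ k, (s k).z →
      Blk κ y₃ y₄ u x d (p / Real.log X) (D / Real.log X) (A / Real.log X)
        (e / Real.log X) (v / Real.log X) Λ' T → A ≤ D → 0 ≤ cs → 1 ≤ C →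
      C ≤ σ' / 2 * Real.log X → cs + 3 + C ≤ Real.log X / 10 ^ 6 →
      N * C ≤ Real.log X / 10 ^ 6 →
      i1 ≤ v + p - κ * Real.log X + 2 * (e + A) - D + Real.log X / 10 ^ 6 →
      κ * Real.log X - (e + A) - Real.log X / 10 ^ 6 ≤ i2 →
      lK ≤ κ * Real.log X + Real.log X / 10 ^ 6 →
      (2 * (κ + p / Real.log X + 3 * Λ') - T) * Real.log X - (D - A) -
        Real.log X / 1000 ≤ Tn →
      LN qs ≤ x * Real.log X + Real.log X / 10 ^ 6 →
      M * Real.log H₀ ≤ Real.log X / 10 ^ 4 → (M : ℝ) ≤ 2 * μ →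
      0 ≤ b → i2 - i1 ≤ 3 * b + 1 → lv ≤ v + 3 * (e + A) + b + 2 * cs + 1 →
      q ≠ 0 → δ ≠ 0 → g₀ ≠ 0 → (nm q * (nm δ * nm g₀) : ℝ) ≤ X ^ (B + 1) →
      VFH h μ C (π lam) s q δ g₀ (Real.exp lv) (p - (D + b))
        (1 * Real.exp (Tn + 1 / 3 * v - 2 / 3 * lK + (e + A) + 4 / 3 * b +
          1 / 3 * (p - D - b))) := by
  obtain ⟨σ, hσ, H⟩ := tm_in hTM (ε := 1 / 2000) (by norm_num)
  refine ⟨min σ 1, lt_min hσ one_pos, min_le_right _ _, fun lam N B hB => ?_⟩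
  obtain ⟨M, X₀, hX₀, H⟩ := H lam N (B + 10)
  refine ⟨M, X₀, hX₀, ?_⟩
  intro X hX r s b0 b1 b2 qs hs hN σ' H₀ hσ'0 hσ' hl κ y₃ y₄ u x p D A e v T Λ' cs C i1 i2 Tn μ
    lK lv b q δ g₀ κ0 κ1 hp hBlk A1 hcs hC1 hCσ hsm hNC hi1 hi2 hlK hTn w1 hMH hμ hb hii hlv hq hδ
    hg₀ hQB γ hγ hγ1 c₀ hc₀ y hy hcy hy3 s' hch hle hge
  have hC : 0 ≤ C := by linarith
  have hX1 : 1 < X := lt_of_lt_of_le hX₀ hX
  have hX0 : 0 < X := by linarith
  set L := Real.log X with hL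
  have hL0 : 0 < L := Real.log_pos hX1
  set W0 : ℝ := ∏ k, (1 + |(s' k).t - (s k).t|) with hW0d
  have h1k : ∀ k, 1 ≤ 1 + |(s' k).t - (s k).t| := fun k => by
    linarith [abs_nonneg ((s' k).t - (s k).t)]
  have hW0 : 1 ≤ W0 := by
    rw [hW0d]
    calc (1 : ℝ) = ∏ k : Fin r, 1 := by simp
      _ ≤ _ := Finset.prod_le_prod (fun _ _ => by norm_num) fun k _ => h1k k
  have hWk : ∀ k, 1 + |(s' k).t - (s k).t| ≤ W0 := by
    intro k
    rw [hW0d, ← Finset.mul_prod_erase _ _ (Finset.mem_univ k)]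
    have h2 : 1 ≤ ∏ j ∈ Finset.univ.erase k, (1 + |(s' j).t - (s j).t|) := by
      calc (1 : ℝ) = ∏ j ∈ Finset.univ.erase k, (1 : ℝ) := by simp
        _ ≤ _ := Finset.prod_le_prod (fun _ _ => by norm_num) fun k _ => h1k k
    have := h1k k
    nlinarith
  have hsz : ∀ k, 0 ≤ (s k).z := by
    intro k
    have hmem : s k ∈ List.ofFn s := by
      rw [List.mem_ofFn]
      exact ⟨k, rfl⟩
    rw [hs, List.mem_append] at hmem
    rcases hmem with h | h
    · exact (hl.lump _ h).2.1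
    · exact (hl.am _ h).2.1
  have hR : ∀ k, Rl C W0 (s' k) (s k) := by
    intro k
    have h1 := hch k
    refine ⟨h1.kd, h1.one, h1.z0, h1.zle, ?_, ?_⟩
    · refine (ht_mul _ (s k).t).trans ?_
      exact mul_le_mul_of_nonneg_right (hWk k) (by positivity)
    · rw [h1.d]
      have h2 : 1 ≤ Real.exp (s k).z := Real.one_le_exp (hsz k)
      have h3 : (0 : ℝ) ≤ nm (s k).d := by positivity
      calc (nm (s k).d : ℝ) = 1 * nm (s k).d * 1 := by ring
        _ ≤ C * nm (s k).d * Real.exp (s k).z := by gcongr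
  obtain ⟨u₁, u₂, u₃, rest, hs', r1, r2, r3, r4⟩ := nat_split hs hR
  have hC6 : C ≤ L / 10 ^ 6 := by linarith
  have hLX : L ≤ X := by
    have := Real.log_le_sub_one_of_pos hX0
    linarith
  have hCX2 : C ≤ X := by
    have : L / 10 ^ 6 ≤ L := by
      rw [div_le_iff₀ (by norm_num)]; nlinarith
    linarith
  have hqsC : (qs.length : ℝ) * C ≤ L / 10 ^ 6 := by
    refine le_trans ?_ hNC
    exact mul_le_mul_of_nonneg_right (by exact_mod_cast hN) hC
  obtain ⟨hu4, hy43, hu0, hy3x, hN1, -, hx0, -, -, -⟩ := dp_hom hBlk.κ0 hBlk.dp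
  have hx1 : x ≤ 1 / 10 := by linarith
  have hxL : x * L ≤ 1 * L := mul_le_mul_of_nonneg_right (by linarith) hL0.le
  have hL6 : L / 10 ^ 6 ≤ 1 / 1000 * L := by
    rw [div_le_iff₀ (by norm_num)]; nlinarith
  have hLNC : LN qs + qs.length * C ≤ 8 * L := by linarith
  have hσ'1 : σ' ≤ 1 := hσ'.trans (min_le_right _ _)
  have hpcx0 := pcx_of hl hX1 hσ'0 hσ'1 hB hC hCσ hCX2 hW0 hLNC r1 r2 r3 r4
  have hpcx : Pcx σ (B + 10) X (W0 * H₀) u₁ u₂ u₃ rest := by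
    refine ⟨hpcx0.lump, fun p hp => ?_, hpcx0.sum, hpcx0.ht, hpcx0.H1⟩
    obtain ⟨q1, q2, q3, q4⟩ := hpcx0.am p hp
    exact ⟨q1, q2, q3.trans (mul_le_mul_of_nonneg_right (hσ'.trans (min_le_left _ _)) hL0.le), q4⟩
  have hrl : rest.length ≤ N := by rw [r4.length_eq]; exact hN
  have hS : ∑ k, (s' k).z = u₁.z + u₂.z + u₃.z + LN rest := by
    rw [sum_ofFn_z, hs', LN_cons3]
  have hw : LN rest ≤ LN qs + qs.length * C := f2_LN (r4.imp fun p q h => h.zle)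
  have hw0 := hpcx.LN0
  rw [hS] at hle
  -- the sizes
  have hv1 := hBlk.v2
  have hv0 := hBlk.v0
  have he1 := hBlk.e1
  have hpn := hBlk.pn
  have hA0 := hBlk.A0
  have he0 := hBlk.e0
  have hmulL : ∀ a c : ℝ, a / L ≤ c → a ≤ c * L := fun a c h => by
    rwa [div_le_iff₀ hL0] at h
  have hnn : ∀ a : ℝ, 0 ≤ a / L → 0 ≤ a := fun a h => by
    have := mul_nonneg h hL0.le
    rwa [div_mul_cancel₀ _ hL0.ne'] at this
  have hv0' := hnn v hv0
  have hA0' := hnn A hA0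
  have he0' := hnn e he0
  have hD0 : 0 ≤ D := hA0'.trans A1
  have hD0' : 0 ≤ D / L := by positivity
  have hv2 : v ≤ 2 * L := hmulL _ _ (by linarith)
  have hD2 : D ≤ 1 * L := hmulL _ _ (by linarith)
  have he2 : e ≤ 1 / 10 * L := hmulL _ _ (by linarith)
  have hp2 : p ≤ 1 * L := hmulL _ _ (by linarith)
  have hbL : b ≤ p + C := by linarith [r1.z0, r2.z0, r3.z0]
  have hlv8 : lv ≤ 8 * L := by linarith
  have hy0 : 0 < y := by linarith
  have hy30 : 0 < y ^ 3 := by positivity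
  have hlogy : 3 * Real.log y ≤ lv := by
    have := Real.log_le_log hy30 hy3
    rw [Real.log_exp, Real.log_pow] at this
    push_cast at this
    exact this
  have hly0 : 0 ≤ Real.log y := Real.log_nonneg hy
  set Y : ℝ := Real.exp lv / y ^ 3 with hY
  have hY1 : 1 ≤ Y := by rw [hY, le_div_iff₀ hy30]; linarith
  have hlogY : Real.log Y = lv - 3 * Real.log y := by
    rw [hY, Real.log_div (Real.exp_pos _).ne' hy30.ne', Real.log_exp, Real.log_pow]
    push_cast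
    ring
  have hQ0 : q * (δ * (g₀ * γ)) * c₀ ≠ 0 :=
    mul_ne_zero (mul_ne_zero hq (mul_ne_zero hδ (mul_ne_zero hg₀ hγ.ne_zero))) hc₀.ne_zero
  have hyX : y ≤ X ^ (8 : ℝ) := by
    have h1 : y ≤ y ^ 3 := le_self_pow₀ hy (by norm_num)
    refine h1.trans (hy3.trans ?_)
    rw [Real.rpow_def_of_pos hX0, ← hL]
    exact Real.exp_le_exp.2 (by linarith)
  have hnQ : (nm (q * (δ * (g₀ * γ)) * c₀) : ℝ) ≤ X ^ (B + 10) := by
    have e1 : (nm (q * (δ * (g₀ * γ)) * c₀) : ℝ) =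
        nm q * (nm δ * nm g₀) * nm γ * nm c₀ := by
      simp only [nm_mul]
      push_cast
      ring
    rw [e1]
    have hXB : 0 ≤ X ^ (B + 1) := by positivity
    calc (nm q * (nm δ * nm g₀) * nm γ * nm c₀ : ℝ) ≤ X ^ (B + 1) * 1 * X ^ (8 : ℝ) := by
          refine mul_le_mul (mul_le_mul hQB hγ1 (by positivity) hXB) (hcy.trans hyX)
            (by positivity) (by positivity)
      _ = X ^ (B + 9) := by
          rw [mul_one, ← Real.rpow_add hX0]
          congr 1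
          ring
      _ ≤ X ^ (B + 10) := Real.rpow_le_rpow_of_exponent_le hX1.le (by linarith)
  have k1 := H X hX Y (W0 * H₀) (q * (δ * (g₀ * γ)) * c₀) u₁ u₂ u₃ rest hrl hpcx hY1
    (by rw [hlogY, ← hL]; linarith) hQ0 hnQ
  have hal : al h (fun k => (s' k).pc (π lam)) =
      alL h ((u₁ :: u₂ :: u₃ :: rest).map (Pq.pc (π lam))) := by
    rw [HP842.al_eq, ← hs', List.map_ofFn]
    rfl
  rw [hal]
  refine k1.trans ?_
  have key := realP (κ := κ) (y₃ := y₃) (y₄ := y₄) (u := u) (x := x) (d := d) (L := L) (p := p)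
    (D := D) (A := A) (e := e) (v := v) (T := T) (Λ := Λ') (cs := cs) (C := C)
    (lK := lK) (i1 := i1) (i2 := i2) (Tn := Tn) (b := b) (lv := lv) (z₁ := u₁.z)
    (z₂ := u₂.z) (z₃ := u₃.z) (w := LN rest) (hM := M * Real.log H₀) hL0 κ0 κ1 hBlk A1 hC hcs
    hsm hi1 hi2 hlK hTn hb hii hlv r1.z0 r2.z0 r3.z0 hw0 (by linarith) (by linarith) hMH
  have hH0 : 0 < H₀ := by linarith [hl.H1]
  have hmono := tAll_mono (d := d) (v := lv / L) (v' := Real.log Y / L) (y₁ := u₁.z / L)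
    (y₂ := u₂.z / L) (y₃ := u₃.z / L) (w := 0 + LN rest / L)
    (by rw [hlogY]; gcongr; linarith)
  set E := tAll d (lv / L) (u₁.z / L) (u₂.z / L) (u₃.z / L) (0 + LN rest / L) with hE
  have hEy : tAll d (Real.log Y / L) (u₁.z / L) (u₂.z / L) (u₃.z / L) (0 + LN rest / L) ≤
      E - Real.log y / L := by
    refine hmono.trans (le_of_eq ?_)
    rw [hlogY]
    ring
  have e1 : (W0 * H₀) ^ M * X ^ (tAll d (Real.log Y / L) (u₁.z / L) (u₂.z / L) (u₃.z / L)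
      (0 + LN rest / L) + 1 / 2000) ≤
      W0 ^ M * (Real.exp (M * Real.log H₀ + (E + 1 / 2000) * L) / y) := by
    have h1 : X ^ (tAll d (Real.log Y / L) (u₁.z / L) (u₂.z / L) (u₃.z / L)
      (0 + LN rest / L) + 1 / 2000) ≤ X ^ (E - Real.log y / L + 1 / 2000) :=
      Real.rpow_le_rpow_of_exponent_le hX1.le (by linarith)
    have h2 : H₀ ^ M * X ^ (E - Real.log y / L + 1 / 2000) =
        Real.exp (M * Real.log H₀ + (E + 1 / 2000) * L) / y := by
      have h3 : (E - Real.log y / L + 1 / 2000) * L = (E + 1 / 2000) * L - Real.log y := by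
        have : Real.log y / L * L = Real.log y := div_mul_cancel₀ _ hL0.ne'
        linear_combination -this
      have h4 : Real.exp (M * Real.log H₀) = H₀ ^ M := by
        rw [mul_comm, Real.exp_mul, Real.exp_log hH0, Real.rpow_natCast]
      rw [Real.rpow_def_of_pos hX0, ← hL, mul_comm L, h3, Real.exp_sub, Real.exp_log hy0,
        Real.exp_add, h4]
      ring
    calc (W0 * H₀) ^ M * X ^ (tAll d (Real.log Y / L) (u₁.z / L) (u₂.z / L) (u₃.z / L)
          (0 + LN rest / L) + 1 / 2000) ≤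
        (W0 * H₀) ^ M * X ^ (E - Real.log y / L + 1 / 2000) := by gcongr
      _ = W0 ^ M * (H₀ ^ M * X ^ (E - Real.log y / L + 1 / 2000)) := by rw [mul_pow]; ring
      _ = _ := by rw [h2]
  refine e1.trans ?_
  have e2 : W0 ^ M ≤ W0 ^ (2 * μ) := by
    rw [← Real.rpow_natCast]
    exact Real.rpow_le_rpow_of_exponent_le hW0 hμ
  rw [one_mul, mul_comm _ (W0 ^ (2 * μ))]
  refine mul_le_mul e2 ?_ (by positivity) (Real.rpow_nonneg (by linarith) _)
  gcongr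

end Crest.Agent.R017.P1Ri440
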