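import Crest.Agent.R017.P1Ri_440

/-!
# Row 17, R8: the real side of E2 for `P1`, part j (helper440): the numbers of a block

* `Num` : the numbers; **`blk_of`** : `Blk` from the numbers
-/

set_option autoImplicit false
set_option maxHeartbeats 2000000

noncomputable section

namespace Crest.Agent.R017.P1Rj440

open Crest.Agent.R017.P1F904 (Dp)
open Crest.Agent.R017.P1Hl440
open Crest.Agent.R017.P10146 (Sh5)
open Crest.Agent.R017.TM708 (eF)

/-- the numbers of a block: `l = log K`, `z` = share, `A3` = the three lumps of the parent, `p` =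
length of the child, `y` = top, `D = log nm δ`, `e = log nm e`, `v = log V` -/
structure Num (L τ κ y₃ y₄ u x d l z A3 p y D A e v : ℝ) : Prop where
  L0 : 0 < L
  τ0 : 0 ≤ τ
  τ1 : τ ≤ 1 / 10 ^ 7
  κ0 : 8 / 9 ≤ κ
  κ1 : κ ≤ 1
  dp : Dp (y₃ / κ) (y₄ / κ) (u / κ) (x / κ) d
  hl : |l - κ * L| ≤ τ * L
  hz : |z - x * L| ≤ τ * L
  hA : |A3 - (y₃ + y₄ + u) * L| ≤ 3 * (τ * L)
  p0 : (κ / 2 - 2 * x) * L - 4 * (τ * L) ≤ p
  p1 : p ≤ (y₃ + y₄ + u + x) * L + 4 * (τ * L)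
  A0 : 0 ≤ A
  e0 : 0 ≤ e
  e1 : e ≤ 1 / 64 * l
  v0 : 0 ≤ v
  vD : v + 2 * D ≤ Real.log 2 + y
  y1 : y ≤ max 0 (min (2 * A3 - l) (3 / 4 * A3) + 3 * z) + Real.log 2
  big : 2 * Real.log 2 ≤ τ * L

/-- **the block** -/
theorem blk_of {L τ κ y₃ y₄ u x d l z A3 p y D A e v T ph Dh Ah eh vh : ℝ}
    (h : Num L τ κ y₃ y₄ u x d l z A3 p y D A e v) (hp : ph * L = p) (hD : Dh * L = D)
    (hA : Ah * L = A) (he : eh * L = e) (hv : vh * L = v)
    (hT : T * L ≤ 2 / 3 * (κ * L) - 1 / 3 * p - v / 3 + 4 / 3 * D +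
      Sh5 (max l (5 / 4 * A3)) z p D e v + 20 * (τ * L)) :
    Blk κ y₃ y₄ u x d ph Dh Ah eh vh (max 0 (5 / 4 * (y₃ + y₄ + u) - κ) / 3) T := by
  have hL := h.L0
  have κp : 0 < κ := by linarith [h.κ0]
  obtain ⟨hu4, hy43, hu0, hy3x, hN1, hnr, hx0, -, -, -⟩ := dp_hom κp h.dp
  obtain ⟨l1, l2⟩ := abs_le.1 h.hl
  obtain ⟨z1, z2⟩ := abs_le.1 h.hz
  obtain ⟨A1, A2⟩ := abs_le.1 h.hA
  have hτL : 0 ≤ τ * L := mul_nonneg h.τ0 hL.le
  have hτL1 : τ * L ≤ 1 / 10 ^ 7 * L := mul_le_mul_of_nonneg_right h.τ1 hL.le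
  have hκL : 8 / 9 * L ≤ κ * L := mul_le_mul_of_nonneg_right h.κ0 hL.le
  have le_of : ∀ a b : ℝ, a * L ≤ b * L → a ≤ b := fun a b h => le_of_mul_le_mul_right h hL
  have nn_of : ∀ a b : ℝ, a * L = b → 0 ≤ b → 0 ≤ a := fun a b h h' =>
    le_of 0 a (by rw [zero_mul, h]; exact h')
  have hN0 : 3 / 4 * (99 / 100 * κ) ≤ y₃ + y₄ + u := by linarith
  have hN0L := mul_le_mul_of_nonneg_right hN0 hL.le
  have hN1L := mul_le_mul_of_nonneg_right hN1 hL.le
  have hx0L : 0 ≤ x * L := mul_nonneg hx0 hL.le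
  have hy : y ≤ min (2 * A3 - l) (3 / 4 * A3) + 3 * z + Real.log 2 + 15 * (τ * L) := by
    refine h.y1.trans ?_
    have h0 : 0 ≤ min (2 * A3 - l) (3 / 4 * A3) + 15 * (τ * L) + 3 * z := by
      have h1 : -(12 * (τ * L)) ≤ min (2 * A3 - l) (3 / 4 * A3) := le_min (by linarith)
        (by linarith)
      linarith
    rcases max_cases 0 (min (2 * A3 - l) (3 / 4 * A3) + 3 * z) with ⟨h1, -⟩ | ⟨h1, -⟩ <;>
      rw [h1] <;> linarith
  have hm1 := min_le_left (2 * A3 - l) (3 / 4 * A3)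
  have hm2 := min_le_right (2 * A3 - l) (3 / 4 * A3)
  have hvD := h.vD
  have hbig := h.big
  refine ⟨κp, h.dp, ?_, ?_, nn_of _ _ hA h.A0, nn_of _ _ he h.e0, ?_, nn_of _ _ hv h.v0, ?_, ?_,
    by positivity, ?_, ?_, ?_⟩
  · exact le_of _ _ (by linarith [h.p0])
  · exact le_of _ _ (by linarith [h.p1])
  · exact le_of _ _ (by linarith [h.e1])
  · exact le_of _ _ (by linarith)
  · exact le_of _ _ (by linarith)
  · have h1 := le_max_right 0 (5 / 4 * (y₃ + y₄ + u) - κ)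
    linarith
  · have hS : Sh5 (max l (5 / 4 * A3)) z p D e v ≤
        eF (max l (5 / 4 * A3) + e / 2) (v + e) (p - D - e) := min_le_left _ _
    generalize Sh5 (max l (5 / 4 * A3)) z p D e v = S at hT hS
    unfold TM708.eF at hS
    rcases max_choice (2 * (p - D - e)) (4 / 3 * (p - D - e) +
        (max (max l (5 / 4 * A3) + e / 2) (3 / 2 * (v + e)) + (v + e)) / 3) with h1 | h1
    · rw [h1] at hS
      left
      exact le_of _ _ (by linarith)
    · rw [h1] at hS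
      right
      rcases max_choice (max l (5 / 4 * A3) + e / 2) (3 / 2 * (v + e)) with h2 | h2
      · rw [h2] at hS
        rcases max_choice l (5 / 4 * A3) with h3 | h3
        · rw [h3] at hS
          left
          exact le_of _ _ (by linarith)
        · rw [h3] at hS
          right; left
          exact le_of _ _ (by linarith)
      · rw [h2] at hS
        right; right
        exact le_of _ _ (by linarith)
  · have hS : Sh5 (max l (5 / 4 * A3)) z p D e v ≤ max ((v + e) + 4 / 3 * (p - D - e))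
        (5 / 3 * (p - D - e) + (v + e) / 3) + z := min_le_right _ _
    generalize Sh5 (max l (5 / 4 * A3)) z p D e v = S at hT hS
    rcases max_choice ((v + e) + 4 / 3 * (p - D - e)) (5 / 3 * (p - D - e) + (v + e) / 3) with
      h1 | h1
    · rw [h1] at hS
      left
      exact le_of _ _ (by linarith)
    · rw [h1] at hS
      right
      exact le_of _ _ (by linarith)

/-- the level is below `log X` -/
lemma Num.y_le {L τ κ y₃ y₄ u x d l z A3 p y D A e v : ℝ}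
    (h : Num L τ κ y₃ y₄ u x d l z A3 p y D A e v) : y + Real.log 2 ≤ L ∧ l ≤ 2 * L ∧ 1 / 2 * L ≤ l ∧
      p ≤ L ∧ A3 ≤ L := by
  have hL := h.L0
  have κp : 0 < κ := by linarith [h.κ0]
  obtain ⟨hu4, hy43, hu0, hy3x, hN1, hnr, hx0, -, -, -⟩ := dp_hom κp h.dp
  obtain ⟨l1, l2⟩ := abs_le.1 h.hl
  obtain ⟨z1, z2⟩ := abs_le.1 h.hz
  obtain ⟨A1, A2⟩ := abs_le.1 h.hA
  have hτL : 0 ≤ τ * L := mul_nonneg h.τ0 hL.le
  have hτL1 : τ * L ≤ 1 / 10 ^ 7 * L := mul_le_mul_of_nonneg_right h.τ1 hL.le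
  have hκL : 8 / 9 * L ≤ κ * L := mul_le_mul_of_nonneg_right h.κ0 hL.le
  have hκL1 : κ * L ≤ 1 * L := mul_le_mul_of_nonneg_right h.κ1 hL.le
  have hN1L := mul_le_mul_of_nonneg_right hN1 hL.le
  have hN0 : 3 / 4 * (99 / 100 * κ) ≤ y₃ + y₄ + u := by linarith
  have hx1 : x ≤ 7 / 100 * κ := by linarith
  have hx1L := mul_le_mul_of_nonneg_right hx1 hL.le
  have hx0L : 0 ≤ x * L := mul_nonneg hx0 hL.le
  have hm2 := min_le_right (2 * A3 - l) (3 / 4 * A3)
  have hbig := h.big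
  have hlog2 : 0 < Real.log 2 := Real.log_pos (by norm_num)
  refine ⟨?_, by linarith, by linarith, ?_, by linarith⟩
  · have hy := h.y1
    rcases max_cases 0 (min (2 * A3 - l) (3 / 4 * A3) + 3 * z) with ⟨h1, -⟩ | ⟨h1, -⟩ <;>
      rw [h1] at hy <;> linarith
  · have := h.p1
    linarith

end Crest.Agent.R017.P1Rj440
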