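import Crest.Agent.R017.P1R2b_176

/-!
# Row 17, R8: `R3d` and `T3d` of `P1` (helper176)
-/

set_option autoImplicit false
set_option linter.unusedVariables false

noncomputable section

namespace Crest.Agent.R017.P1T3176

open Crest.Agent.R017.P1R904 Crest.Agent.R017.P1R2b176

set_option maxHeartbeats 2000000 in
theorem r3d : R3d := by
  intro y₃ y₄ u x d v δ φ i z₁ z₂ z₃ x' hD v0 hv hδ hδ1 hφ hc k1 k2 k3 hi
  obtain ⟨u4, y43, u0, hy3, N1, near, hx0, hx1, adm, d0, d1⟩ := hD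
  obtain ⟨z10, z20, z30, x0', z1, z2, z3, x1', tot⟩ := hc
  have hv1 : v ≤ 2 * (y₃ + y₄ + u) - 1 + 5 * x := by
    unfold vt at hv
    have := min_le_left (2 * (y₃ + y₄ + u) - 1) (3 / 4 * (y₃ + y₄ + u))
    linarith
  have hv2 : v ≤ 3 / 4 * (y₃ + y₄ + u) + 5 * x := by
    unfold vt at hv
    have := min_le_right (2 * (y₃ + y₄ + u) - 1) (3 / 4 * (y₃ + y₄ + u))
    linarith
  have hL1 : 0 ≤ L0 (y₃ + y₄ + u) := by unfold L0; positivity
  have hL2 : (5 / 4 * (y₃ + y₄ + u) - 1) / 3 ≤ L0 (y₃ + y₄ + u) := by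
    unfold L0
    have := le_max_right 0 (5 / 4 * (y₃ + y₄ + u) - 1)
    linarith
  have hr := r3_le d0 d1 z10 z20 z30 x0' k1 k2 k3
  obtain ⟨l1, l2, l3', l4, l5, l6⟩ := l3_le i z₁ z₂ z₃
  generalize L0 (y₃ + y₄ + u) = L at hL1 hL2 ⊢
  generalize r3 d i z₁ z₂ z₃ x' = r at hr ⊢
  generalize l3 i z₁ z₂ z₃ = l at hr l1 l2 l3' l4 l5 l6
  rcases adm with rfl | ⟨a1, a2⟩ <;> rcases le_total 0 (2 * v - 1 - δ) with h | h
  · rw [max_eq_right h]; linarith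
  · rw [max_eq_left h]; linarith
  · rw [max_eq_right h]; linarith
  · rw [max_eq_left h]; linarith

set_option maxHeartbeats 2000000 in
theorem t3d : T3d := by
  intro y₃ y₄ u x d v δ z₁ z₂ z₃ x' hD v0 hv hδ hδ1 hc
  obtain ⟨u4, y43, u0, hy3, N1, near, hx0, hx1, adm, d0, d1⟩ := hD
  obtain ⟨z10, z20, z30, x0', z1, z2, z3, x1', tot⟩ := hc
  have hv1 : v ≤ 2 * (y₃ + y₄ + u) - 1 + 5 * x := by
    unfold vt at hv
    have := min_le_left (2 * (y₃ + y₄ + u) - 1) (3 / 4 * (y₃ + y₄ + u))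
    linarith
  have hv2 : v ≤ 3 / 4 * (y₃ + y₄ + u) + 5 * x := by
    unfold vt at hv
    have := min_le_right (2 * (y₃ + y₄ + u) - 1) (3 / 4 * (y₃ + y₄ + u))
    linarith
  have hL1 : 0 ≤ L0 (y₃ + y₄ + u) := by unfold L0; positivity
  have hL2 : (5 / 4 * (y₃ + y₄ + u) - 1) / 3 ≤ L0 (y₃ + y₄ + u) := by
    unfold L0
    have := le_max_right 0 (5 / 4 * (y₃ + y₄ + u) - 1)
    linarith
  have m1 : min z₁ (min z₂ z₃) ≤ z₁ := min_le_left _ _
  have m2 : min z₁ (min z₂ z₃) ≤ z₂ := (min_le_right _ _).trans (min_le_left _ _)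
  have m3 : min z₁ (min z₂ z₃) ≤ z₃ := (min_le_right _ _).trans (min_le_right _ _)
  generalize L0 (y₃ + y₄ + u) = L at hL1 hL2 ⊢
  generalize min z₁ (min z₂ z₃) = m at m1 m2 m3 ⊢
  rcases adm with rfl | ⟨a1, a2⟩ <;> rcases le_total 0 (2 * v - 1 - δ) with h | h
  · rw [max_eq_right h]; linarith
  · rw [max_eq_left h]; linarith
  · rw [max_eq_right h]; linarith
  · rw [max_eq_left h]; linarith

end Crest.Agent.R017.P1T3176
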