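import Crest.Agent.R017.P1TP_957

/-!
# Row 17, R8 (P1M): the frame of the T-lines (helper957)

* `hrR` : the logarithm of the row length against `hH`'s linear form
* **`tfR`** : the frame `Tf` from the logarithmic frame `Fr9` and `sq_facts`
* `e0R` : the cut of `e`; `topR` : the level of the claims; `flatR` : the capped own family
-/

set_option autoImplicit false
set_option linter.unusedVariables false

noncomputable section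

namespace Crest.Agent.R017.TL957

open Crest.Agent.R017.TM708 (eF eH tAll)

variable {L κ₀ N₀ x₀ τ l z A ζ P G v t e0 : ℝ}

/-- **the frame** : `k = κ₀ L`, `N = N₀ L`, `x = x₀ L`, `p = P - 2 G` -/
theorem tfR (hL : 0 < L) (hτ : 0 ≤ τ) (k0 : 8 / 9 ≤ κ₀) (n0 : 3 / 4 * κ₀ ≤ N₀)
    (n1 : N₀ ≤ 84 / 103 * κ₀) (x0 : 0 ≤ x₀)
    (hx : x₀ = 0 ∨ (x₀ ≤ 1 / 36 * κ₀ ∧ x₀ + 7 / 10 * N₀ ≤ 199 / 360 * κ₀ ∧
      N₀ + x₀ ≤ 15 / 19 * κ₀))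
    (hl : |l - κ₀ * L| ≤ τ * L) (hz : |z - x₀ * L| ≤ τ * L) (hA : |A - N₀ * L| ≤ τ * L)
    (hζ : |ζ - x₀ * L| ≤ τ * L) (lo : κ₀ / 2 * L ≤ P - 2 * G + 2 * x₀ * L + τ * L)
    (up : P ≤ (N₀ + x₀) * L + τ * L) (g0 : 0 ≤ G)
    (hv : v ≤ max 0 (min (2 * A - l) (3 / 4 * A) + 11 / 5 * z) + 2 * ζ + 5)
    (ht : 12 * (τ * L) + 5 ≤ t) (t1 : t ≤ κ₀ * L / 20000) :
    Tf (κ₀ * L) (N₀ * L) (x₀ * L) (max 0 (5 / 4 * (N₀ * L) - κ₀ * L)) v (P - 2 * G) t := by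
  obtain ⟨l1, l2⟩ := abs_le.1 hl
  obtain ⟨z1, z2⟩ := abs_le.1 hz
  obtain ⟨A1, A2⟩ := abs_le.1 hA
  obtain ⟨ζ1, ζ2⟩ := abs_le.1 hζ
  have hτL : 0 ≤ τ * L := mul_nonneg hτ hL.le
  have hk : 0 < κ₀ * L := by positivity
  have hN0 : 3 / 4 * (κ₀ * L) ≤ N₀ * L := by
    have := mul_le_mul_of_nonneg_right n0 hL.le; linarith
  have hN1 : N₀ * L ≤ 84 / 103 * (κ₀ * L) := by
    have := mul_le_mul_of_nonneg_right n1 hL.le; linarith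
  have hx0 : 0 ≤ x₀ * L := mul_nonneg x0 hL.le
  have m1 : min (2 * A - l) (3 / 4 * A) ≤ 2 * A - l := min_le_left _ _
  have m2 : min (2 * A - l) (3 / 4 * A) ≤ 3 / 4 * A := min_le_right _ _
  have hvv : v ≤ 2 * (N₀ * L) - κ₀ * L + 21 / 5 * (x₀ * L) + t ∧
      v ≤ 3 / 4 * (N₀ * L) + 21 / 5 * (x₀ * L) + t := by
    rcases max_choice 0 (min (2 * A - l) (3 / 4 * A) + 11 / 5 * z) with g | g <;> rw [g] at hv
    · constructor <;> linarith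
    · constructor <;> linarith
  refine ⟨hk, hx0, by linarith, ?_, le_max_left _ _, le_max_right _ _, hvv.1, hvv.2, ?_, ?_,
    by linarith, t1⟩
  · rcases hx with h | ⟨h1, h2, h3⟩
    · left
      rw [h, zero_mul]
      exact ⟨by positivity, Or.inl rfl⟩
    · right
      have a1 := mul_le_mul_of_nonneg_right h1 hL.le
      have a2 := mul_le_mul_of_nonneg_right h2 hL.le
      exact ⟨hN0, by linarith, by linarith⟩
  · linarith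
  · linarith

/-- the same with the second branch of `adm` (for `kV_le`) -/
lemma hxR (hL : 0 < L) (n0 : 3 / 4 * κ₀ ≤ N₀)
    (hx : x₀ = 0 ∨ (x₀ ≤ 1 / 36 * κ₀ ∧ x₀ + 7 / 10 * N₀ ≤ 199 / 360 * κ₀ ∧
      N₀ + x₀ ≤ 15 / 19 * κ₀)) :
    x₀ * L = 0 ∨ (3 / 4 * (κ₀ * L) ≤ N₀ * L ∧ x₀ * L ≤ κ₀ * L / 36 ∧
      x₀ * L + 7 / 10 * (N₀ * L) ≤ 199 / 360 * (κ₀ * L)) := by
  rcases hx with h | ⟨h1, h2, h3⟩
  · left; rw [h, zero_mul]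
  · right
    have a0 := mul_le_mul_of_nonneg_right n0 hL.le
    have a1 := mul_le_mul_of_nonneg_right h1 hL.le
    have a2 := mul_le_mul_of_nonneg_right h2 hL.le
    exact ⟨by linarith, by linarith, by linarith⟩

/-- the row length -/
theorem hrR (hτL : 0 ≤ τ * L) (hl : |l - κ₀ * L| ≤ τ * L) (hA : |A - N₀ * L| ≤ τ * L)
    (hζ : |ζ - x₀ * L| ≤ τ * L) (ht : 12 * (τ * L) + 5 ≤ t) :
    4 / 3 * (P - 2 * G) + 2 / 3 * (x₀ * L) - κ₀ * L - 3 * max 0 (5 / 4 * (N₀ * L) - κ₀ * L) -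
      10 * t ≤ 4 / 3 * (P - 2 * G) + 2 / 3 * ζ - l - 3 * max 0 (5 / 4 * A - l) ∧
    4 / 3 * (P - 2 * G) + 2 / 3 * ζ - l - 3 * max 0 (5 / 4 * A - l) ≤
      4 / 3 * (P - 2 * G) + 2 / 3 * (x₀ * L) - κ₀ * L - 3 * max 0 (5 / 4 * (N₀ * L) - κ₀ * L) +
      10 * t := by
  obtain ⟨l1, l2⟩ := abs_le.1 hl
  obtain ⟨A1, A2⟩ := abs_le.1 hA
  obtain ⟨ζ1, ζ2⟩ := abs_le.1 hζ
  have a1 := le_max_left 0 (5 / 4 * A - l)
  have a2 := le_max_right 0 (5 / 4 * A - l)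
  have b1 := le_max_left 0 (5 / 4 * (N₀ * L) - κ₀ * L)
  have b2 := le_max_right 0 (5 / 4 * (N₀ * L) - κ₀ * L)
  have h1 : max 0 (5 / 4 * A - l) ≤ max 0 (5 / 4 * (N₀ * L) - κ₀ * L) + 9 / 4 * (τ * L) :=
    max_le (by linarith) (by linarith)
  have h2 : max 0 (5 / 4 * (N₀ * L) - κ₀ * L) ≤ max 0 (5 / 4 * A - l) + 9 / 4 * (τ * L) :=
    max_le (by linarith) (by linarith)
  constructor <;> linarith

/-- the cut of `e` -/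
theorem e0R (hτL : 0 ≤ τ * L) (hl0 : 0 ≤ l) (he : e0 ≤ 1 / 64) (hl : |l - κ₀ * L| ≤ τ * L)
    (hζ : |ζ - x₀ * L| ≤ τ * L) (ht : 12 * (τ * L) + 5 ≤ t) :
    e0 * l + ζ ≤ κ₀ * L / 64 + x₀ * L + t := by
  obtain ⟨l1, l2⟩ := abs_le.1 hl
  obtain ⟨ζ1, ζ2⟩ := abs_le.1 hζ
  have := mul_le_mul_of_nonneg_right he hl0
  linarith

/-- the level of the claims stays below `2/3 K5` -/
theorem topR {k N x ex p t v δ b c l n T : ℝ} (H : Tf k N x ex v p t) (δ0 : 0 ≤ δ) (c0 : 0 ≤ c)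
    (hl : l ≤ v - 2 * δ + b - 3 * c + t) (hn : n ≤ p - δ - b + t) :
    l + n ≤ 2 / 3 * (k + ex) + (N + x) + 3 * t := by
  obtain ⟨k0, x0, N1, adm, ex0, ex1, v1, v2, p0, p1, t0, t1⟩ := H
  rcases adm with ⟨a1, rfl | a2⟩ | ⟨a1, a2, a3⟩ <;> linarith

/-- the level condition of the claims (`T5 = min (2 N - k) (3/4 N) + 5 x`) -/
theorem topR2 {k N x ex p t v δ b c l n : ℝ} (H : Tf k N x ex v p t) (δ0 : 0 ≤ δ) (c0 : 0 ≤ c)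
    (hl : l ≤ v - 2 * δ + b - 3 * c + t) (hn : n ≤ p - δ - b + t) :
    l + n ≤ min (2 * N - k) (3 / 4 * N) + 5 * x + (N + x) + 4 * t := by
  obtain ⟨k0, x0, N1, adm, ex0, ex1, v1, v2, p0, p1, t0, t1⟩ := H
  rcases min_choice (2 * N - k) (3 / 4 * N) with g | g <;> rw [g] <;> linarith

/-- **the claims against `fT` in the frame** (`lo` the loss, `d` free) -/
theorem clR {k N x ex p t v δ b c l l' n' w z₁ z₂ z₃ lo d A : ℝ} (H : Tf k N x ex v p t)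
    (hx : x = 0 ∨ (3 / 4 * k ≤ N ∧ x ≤ k / 36 ∧ x + 7 / 10 * N ≤ 199 / 360 * k)) (δ0 : 0 ≤ δ)
    (b0 : 0 ≤ b) (c0 : 0 ≤ c) (lo0 : 0 ≤ lo) (hl : l ≤ v - 2 * δ + b - 3 * c) (hl' : l' ≤ l + t)
    (hs : z₁ + z₂ + z₃ + w = n') (hn : n' ≤ p - δ - b + t) (h1 : 0 ≤ z₁) (h2 : 0 ≤ z₂)
    (h3 : 0 ≤ z₃) (hw : 0 ≤ w) (hwx : w ≤ x + t) :
    min (min (eH (max (k + ex) (5 / 7 * (l' + n'))) l' n' + lo) A) (tAll d l' z₁ z₂ z₃ w) ≤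
      fT (k + ex) b l (p - δ - b) x + lo + 3 * t :=
  nv_le H.t0 lo0 (by
    have := kV_le (l := l') (n := n') H hx (by linarith)
    linarith) hl' hs hn h1 h2 h3 hw hwx

/-- the flat condition of the claims -/
theorem flatR {k N x ex p t v δ b c l n : ℝ} (H : Tf k N x ex v p t)
    (hx : x = 0 ∨ (3 / 4 * k ≤ N ∧ x ≤ k / 36 ∧ x + 7 / 10 * N ≤ 199 / 360 * k)) (δ0 : 0 ≤ δ)
    (c0 : 0 ≤ c) (hl : l ≤ v - 2 * δ + b - 3 * c + t) (hn : n ≤ p - δ - b + t) :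
    max (k + ex) (5 / 7 * (l + n)) ≤ k + ex + 3 * t :=
  kV_le H hx (by linarith)

end Crest.Agent.R017.TL957
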