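import Crest.Agent.R017.P1TF_957
import Crest.Agent.R017.P1TL2_957

/-!
# Row 17, R8 (P1M): glue for the `T`-half of the lines (helper957)

* `tfR5` : `tfR` with any constant; `clR5` : `clR` with `l ≤ .. + t`
* `Bfx`, `Bfx_nonneg`, `Bfx_anti` : the claims' bound as a function of `(b, k')`
* `v_of` : the level of the class from the indices
-/

set_option autoImplicit false
set_option linter.unusedVariables false

noncomputable section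

namespace Crest.Agent.R017.TL957

open Crest.Agent.R017.TM708 (eF eH tAll)

/-- **the frame, any constant `c₅`** -/
theorem tfR5 {L κ₀ N₀ x₀ τ l z A ζ P G v t c₅ : ℝ} (hL : 0 < L) (hτ : 0 ≤ τ) (k0 : 8 / 9 ≤ κ₀)
    (n0 : 3 / 4 * κ₀ ≤ N₀)
    (n1 : N₀ ≤ 84 / 103 * κ₀) (x0 : 0 ≤ x₀)
    (hx : x₀ = 0 ∨ (x₀ ≤ 1 / 36 * κ₀ ∧ x₀ + 7 / 10 * N₀ ≤ 199 / 360 * κ₀ ∧
      N₀ + x₀ ≤ 15 / 19 * κ₀))
    (hl : |l - κ₀ * L| ≤ τ * L) (hz : |z - x₀ * L| ≤ τ * L) (hA : |A - N₀ * L| ≤ τ * L)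
    (hζ : |ζ - x₀ * L| ≤ τ * L) (lo : κ₀ / 2 * L ≤ P - 2 * G + 2 * x₀ * L + τ * L)
    (up : P ≤ (N₀ + x₀) * L + τ * L) (g0 : 0 ≤ G)
    (hv : v ≤ max 0 (min (2 * A - l) (3 / 4 * A) + 11 / 5 * z) + 2 * ζ + c₅)
    (ht0 : 0 ≤ t) (ht : 12 * (τ * L) + c₅ ≤ t) (ht' : 12 * (τ * L) ≤ t)
    (t1 : t ≤ κ₀ * L / 20000) :
    Tf (κ₀ * L) (N₀ * L) (x₀ * L) (max 0 (5 / 4 * (N₀ * L) - κ₀ * L)) v (P - 2 * G) t := by
  obtain ⟨l1, l2⟩ := abs_le.1 hl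
  obtain ⟨z1, z2⟩ := abs_le.1 hz
  obtain ⟨A1, A2⟩ := abs_le.1 hA
  obtain ⟨ζ1, ζ2⟩ := abs_le.1 hζ
  have hτL : 0 ≤ τ * L := mul_nonneg hτ hL.le
  have hk : 0 < κ₀ * L := by positivity
  have hN0 : 3 / 4 * (κ₀ * L) ≤ N₀ * L := by
    have := mul_le_mul_of_nonneg_right n0 hL.le; linarith
  have hN1 : N₀ * L ≤ 84 / 103 * (κ₀ * L) := by
    have := mul_le_mul_of_nonneg_right n1 hL.le; linarith
  have hx0 : 0 ≤ x₀ * L := mul_nonneg x0 hL.le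
  have m1 : min (2 * A - l) (3 / 4 * A) ≤ 2 * A - l := min_le_left _ _
  have m2 : min (2 * A - l) (3 / 4 * A) ≤ 3 / 4 * A := min_le_right _ _
  have hvv : v ≤ 2 * (N₀ * L) - κ₀ * L + 21 / 5 * (x₀ * L) + t ∧
      v ≤ 3 / 4 * (N₀ * L) + 21 / 5 * (x₀ * L) + t := by
    rcases max_choice 0 (min (2 * A - l) (3 / 4 * A) + 11 / 5 * z) with g | g <;> rw [g] at hv
    · constructor <;> linarith
    · constructor <;> linarith
  refine ⟨hk, hx0, by linarith, ?_, le_max_left _ _, le_max_right _ _, hvv.1, hvv.2, ?_, ?_,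
    ht0, t1⟩
  · rcases hx with h | ⟨h1, h2, h3⟩
    · left
      rw [h, zero_mul]
      exact ⟨by positivity, Or.inl rfl⟩
    · right
      have a1 := mul_le_mul_of_nonneg_right h1 hL.le
      have a2 := mul_le_mul_of_nonneg_right h2 hL.le
      exact ⟨hN0, by linarith, by linarith⟩
  · linarith
  · linarith

/-- the claims against `fT`, level up to `+ t` twice (loss `4 t`) -/
theorem clR5 {k N x ex p t v δ b c l l' n' w z₁ z₂ z₃ lo d A : ℝ} (H : Tf k N x ex v p t)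
    (hx : x = 0 ∨ (3 / 4 * k ≤ N ∧ x ≤ k / 36 ∧ x + 7 / 10 * N ≤ 199 / 360 * k)) (δ0 : 0 ≤ δ)
    (b0 : 0 ≤ b) (c0 : 0 ≤ c) (lo0 : 0 ≤ lo) (hl : l ≤ v - 2 * δ + b - 3 * c + t)
    (hl' : l' ≤ l + t)
    (hs : z₁ + z₂ + z₃ + w = n') (hn : n' ≤ p - δ - b + t) (h1 : 0 ≤ z₁) (h2 : 0 ≤ z₂)
    (h3 : 0 ≤ z₃) (hw : 0 ≤ w) (hwx : w ≤ x + t) :
    min (min (eH (max (k + ex) (5 / 7 * (l' + n'))) l' n' + lo) A) (tAll d l' z₁ z₂ z₃ w) ≤
      fT (k + ex) b l (p - δ - b) x + lo + 6 * t := by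
  have ht := H.t0
  have hK : max (k + ex) (5 / 7 * (l' + n')) ≤ k + ex + 6 * t := by
    obtain ⟨k0, x0, N1, adm, ex0, ex1, v1, v2, p0, p1, t0, t1⟩ := H
    refine max_le (by linarith) ?_
    rcases hx with rfl | ⟨a1, a2, a3⟩ <;> linarith
  have := nv_le (K' := max (k + ex) (5 / 7 * (l' + n'))) (K5 := k + ex) (b := b) (l := l)
    (l' := l') (n := p - δ - b) (n' := n') (x := x) (w := w) (d := d) (z₁ := z₁) (z₂ := z₂)
    (z₃ := z₃) (lo := lo) (A := A) (t := 2 * t) (by linarith) lo0 (by linarith) (by linarith)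
    hs (by linarith) h1 h2 h3 hw (by linarith)
  linarith

/-- the bound of the claims -/
def Bfx (W K5 p x δ : ℝ) (b k : ℝ) : ℝ := W * Real.exp (fT K5 b (k + b) (p - δ - b) x)

lemma Bfx_nonneg {W K5 p x δ b k : ℝ} (hW : 0 ≤ W) : 0 ≤ Bfx W K5 p x δ b k := by
  unfold Bfx; positivity

/-- antitone in the removed part -/
lemma Bfx_anti {W K5 p x δ b b' k : ℝ} (hW : 0 ≤ W) (h : b ≤ b') :
    Bfx W K5 p x δ b' k ≤ Bfx W K5 p x δ b k := by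
  unfold Bfx
  exact mul_le_mul_of_nonneg_left (Real.exp_le_exp.2 (fT_anti h)) hW

/-- monotone in the level -/
lemma Bfx_mono {W K5 p x δ b k k' : ℝ} (hW : 0 ≤ W) (h : k ≤ k') :
    Bfx W K5 p x δ b k ≤ Bfx W K5 p x δ b k' := by
  unfold Bfx
  exact mul_le_mul_of_nonneg_left (Real.exp_le_exp.2 (fT_mono (by linarith))) hW

/-- the level `y + ρ` of the class : `i < nO + ⌈2 ζ / log 2⌉ + 1`, `e^y ≤ e V`,
`V = e^(log 2 (i+1)) / e^ρ` -/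
theorem v_of {i n y : ℕ} {ζ ρ tO : ℝ} (hζ : 0 ≤ ζ)
    (hi : i < n + ⌈2 * ζ / Real.log 2⌉₊ + 1) (hn : Real.log 2 * n ≤ max 0 tO + Real.log 2)
    (hy : Real.exp y ≤ Real.exp 1 * (Real.exp (Real.log 2 * (i + 1)) / Real.exp ρ)) :
    (y : ℝ) + ρ ≤ max 0 tO + 2 * ζ + 5 := by
  have h2 : 0 < Real.log 2 := Real.log_pos (by norm_num)
  have h3 : Real.log 2 ≤ 1 := by
    have := Real.log_two_lt_d9; linarith
  have hc := Nat.ceil_lt_add_one (div_nonneg (by linarith : 0 ≤ 2 * ζ) h2.le)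
  have hi' : (i : ℝ) ≤ n + ⌈2 * ζ / Real.log 2⌉₊ := by
    exact_mod_cast Nat.lt_succ_iff.1 hi
  have h4 : Real.log 2 * (i : ℝ) ≤ Real.log 2 * n + (2 * ζ + Real.log 2) := by
    have h5 : Real.log 2 * (⌈2 * ζ / Real.log 2⌉₊ : ℝ) ≤ 2 * ζ + Real.log 2 := by
      have := mul_le_mul_of_nonneg_left hc.le h2.le
      have e : Real.log 2 * (2 * ζ / Real.log 2 + 1) = 2 * ζ + Real.log 2 := by
        field_simp
      linarith
    have := mul_le_mul_of_nonneg_left hi' h2.le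
    linarith
  rw [← Real.exp_sub, ← Real.exp_add, Real.exp_le_exp] at hy
  linarith

end Crest.Agent.R017.TL957
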