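import Crest.Agent.R017.P1TG_957

/-!
# Row 17, R8 (P1M): the lines of `TPsm` / `TPsX` from real lines, generic (helper957)

* `HlR_small`, `HlR_large`, `HuR_small`, `HuR_large` : exponents of the row lengths
* `Ph0_exp`, `Ph1_exp` : the coefficients as sums of exponentials
* **`lineA_gen`**, **`lineB_gen`** : the lines (a), (b) from three real inequalities each
* `lineA'`, `lineB'` : `lineA`, `lineB` for any cut `D₀ ≥ e^(13/100 κ)`
-/

set_option autoImplicit false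
set_option linter.unusedVariables false

noncomputable section

namespace Crest.Agent.R017.TL957

variable {κ hp hl hu y δ cc D₀ q e1 T W m c : ℝ}

lemma HlR_small (h : Real.exp δ ≤ D₀) :
    HlR (Real.exp hp) D₀ (Real.exp κ) cc (Real.exp y) (Real.exp δ) q =
      Real.exp (max 0 (hp - 4 / 3 * δ) - 2 * q) := by
  have e1 : max 1 (Real.exp hp * Real.exp δ ^ (-(4 / 3) : ℝ)) =
      Real.exp (max 0 (hp - 4 / 3 * δ)) := by
    rw [Real.exp_monotone.map_max, Real.exp_zero, ex3, ← Real.exp_add]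
    congr 2; ring
  unfold HlR
  rw [if_pos h, e1, ← Real.exp_add]
  congr 1; ring

lemma HuR_small (h : Real.exp δ ≤ D₀) :
    HuR (Real.exp hp) D₀ (Real.exp κ) cc (Real.exp y) (Real.exp δ) =
      Real.exp (max 0 (hp - 4 / 3 * δ)) := by
  unfold HuR
  rw [if_pos h, ex3, ← Real.exp_add, Real.exp_monotone.map_max, Real.exp_zero]
  congr 2; ring

lemma HlR_large (h : ¬ Real.exp δ ≤ D₀) (hcc : 0 < cc) :
    HlR (Real.exp hp) D₀ (Real.exp κ) cc (Real.exp y) (Real.exp δ) q =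
      Real.exp (κ + δ - Real.log (2 * cc) - 2 * y) := by
  have hc2 : (0 : ℝ) < 2 * cc := by linarith
  unfold HlR
  rw [if_neg h, Real.exp_sub, Real.exp_sub, Real.exp_log hc2, Real.exp_add, exn]
  push_cast
  field_simp

lemma HuR_large (h : ¬ Real.exp δ ≤ D₀) (hcc : 0 < cc) :
    HuR (Real.exp hp) D₀ (Real.exp κ) cc (Real.exp y) (Real.exp δ) =
      Real.exp (κ + δ - Real.log (2 * cc) - 2 * y) := by
  have hc2 : (0 : ℝ) < 2 * cc := by linarith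
  unfold HuR
  rw [if_neg h, Real.exp_sub, Real.exp_sub, Real.exp_log hc2, Real.exp_add, exn]
  push_cast
  field_simp

lemma Ph0_exp : Ph0 (Real.exp κ) (Real.exp hl) (Real.exp y) (Real.exp e1) =
    Real.exp (2 / 3 * κ - hl / 3 - y / 3) + Real.exp (2 / 3 * y + 2 * e1 - κ / 3) +
      Real.exp (2 / 3 * y + e1) := by
  unfold Ph0
  simp only [← Real.exp_add, ex3, exn]
  congr 1
  · congr 1
    · congr 1; ring
    · congr 1; push_cast; ring
  · congr 1; ring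

lemma Ph1_exp : Ph1 (Real.exp κ) (Real.exp hl) (Real.exp hu) (Real.exp y) =
    Real.exp (2 / 3 * κ - hl / 3 - y / 3) + Real.exp (2 / 3 * κ - hl / 3 - y / 3 +
      (2 * hu + 3 * y - 2 * κ) / 3) + Real.exp (2 / 3 * κ - hl / 3 - y / 3 +
      (2 * hu + 3 * y - 2 * κ) / 2) := by
  unfold Ph1
  simp only [exn, ← Real.exp_add, ← Real.exp_sub, ex3]
  rw [mul_add, mul_add, mul_one, ← Real.exp_add, ← Real.exp_add]
  congr 1
  · congr 1
    · congr 1; ring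
    · congr 1; push_cast; ring
  · congr 1; push_cast; ring

/-- **the line (a), generic** : `Hl = e^hl` -/
theorem lineA_gen {Hl : ℝ} (hHl : Hl = Real.exp hl) (hW : 0 ≤ W)
    (h1 : 2 / 3 * κ - hl / 3 - y / 3 + 2 * δ + T ≤ m)
    (h2 : 2 / 3 * y + 2 * e1 - κ / 3 + 2 * δ + T ≤ m)
    (h3 : 2 / 3 * y + e1 + 2 * δ + T ≤ m) :
    Ph0 (Real.exp κ) Hl (Real.exp y) (Real.exp e1) * (W * Real.exp T) * Real.exp δ ^ 2 ≤
      3 * W * Real.exp m := by
  subst hHl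
  rw [Ph0_exp]
  have e : (Real.exp (2 / 3 * κ - hl / 3 - y / 3) + Real.exp (2 / 3 * y + 2 * e1 - κ / 3) +
      Real.exp (2 / 3 * y + e1)) * (W * Real.exp T) * Real.exp δ ^ 2 =
      W * (Real.exp (2 / 3 * κ - hl / 3 - y / 3) * Real.exp T * Real.exp δ ^ 2 +
        Real.exp (2 / 3 * y + 2 * e1 - κ / 3) * Real.exp T * Real.exp δ ^ 2 +
        Real.exp (2 / 3 * y + e1) * Real.exp T * Real.exp δ ^ 2) := by ring
  rw [e]
  simp only [exn, ← Real.exp_add]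
  have a1 : Real.exp (2 / 3 * κ - hl / 3 - y / 3 + T + ((2 : ℕ) : ℝ) * δ) ≤ Real.exp m :=
    Real.exp_le_exp.2 (by push_cast; linarith)
  have a2 : Real.exp (2 / 3 * y + 2 * e1 - κ / 3 + T + ((2 : ℕ) : ℝ) * δ) ≤ Real.exp m :=
    Real.exp_le_exp.2 (by push_cast; linarith)
  have a3 : Real.exp (2 / 3 * y + e1 + T + ((2 : ℕ) : ℝ) * δ) ≤ Real.exp m :=
    Real.exp_le_exp.2 (by push_cast; linarith)
  have := mul_le_mul_of_nonneg_left (add_le_add (add_le_add a1 a2) a3) hW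
  linarith

/-- **the line (b), generic** : `Hl = e^hl`, `Hu = e^hu` -/
theorem lineB_gen {Hl Hu : ℝ} (hHl : Hl = Real.exp hl) (hHu : Hu = Real.exp hu) (hW : 0 ≤ W)
    (h1 : 2 / 3 * κ - hl / 3 - y / 3 + 2 * δ + c + T ≤ m)
    (h2 : 2 / 3 * κ - hl / 3 - y / 3 + 2 * δ + c + T + (2 * hu + 3 * y - 2 * κ) / 3 ≤ m)
    (h3 : 2 / 3 * κ - hl / 3 - y / 3 + 2 * δ + c + T + (2 * hu + 3 * y - 2 * κ) / 2 ≤ m) :
    Ph1 (Real.exp κ) Hl Hu (Real.exp y) * (W * Real.exp T) * Real.exp δ ^ 2 * Real.exp c ≤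
      3 * W * Real.exp m := by
  subst hHl
  subst hHu
  rw [Ph1_exp]
  have e : (Real.exp (2 / 3 * κ - hl / 3 - y / 3) + Real.exp (2 / 3 * κ - hl / 3 - y / 3 +
      (2 * hu + 3 * y - 2 * κ) / 3) + Real.exp (2 / 3 * κ - hl / 3 - y / 3 +
      (2 * hu + 3 * y - 2 * κ) / 2)) * (W * Real.exp T) * Real.exp δ ^ 2 * Real.exp c =
      W * (Real.exp (2 / 3 * κ - hl / 3 - y / 3) * Real.exp T * Real.exp δ ^ 2 * Real.exp c +
        Real.exp (2 / 3 * κ - hl / 3 - y / 3 + (2 * hu + 3 * y - 2 * κ) / 3) * Real.exp T *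
          Real.exp δ ^ 2 * Real.exp c +
        Real.exp (2 / 3 * κ - hl / 3 - y / 3 + (2 * hu + 3 * y - 2 * κ) / 2) * Real.exp T *
          Real.exp δ ^ 2 * Real.exp c) := by ring
  rw [e]
  simp only [exn, ← Real.exp_add]
  have a1 : Real.exp (2 / 3 * κ - hl / 3 - y / 3 + T + ((2 : ℕ) : ℝ) * δ + c) ≤ Real.exp m :=
    Real.exp_le_exp.2 (by push_cast; linarith)
  have a2 : Real.exp (2 / 3 * κ - hl / 3 - y / 3 + (2 * hu + 3 * y - 2 * κ) / 3 + T +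
      ((2 : ℕ) : ℝ) * δ + c) ≤ Real.exp m := Real.exp_le_exp.2 (by push_cast; linarith)
  have a3 : Real.exp (2 / 3 * κ - hl / 3 - y / 3 + (2 * hu + 3 * y - 2 * κ) / 2 + T +
      ((2 : ℕ) : ℝ) * δ + c) ≤ Real.exp m := Real.exp_le_exp.2 (by push_cast; linarith)
  have := mul_le_mul_of_nonneg_left (add_le_add (add_le_add a1 a2) a3) hW
  linarith

/-- the exponents of `HlR`, `HuR` at once -/
theorem hl_ex (hcc : 0 < cc) (D₀ hp κ y δ q : ℝ) : ∃ hl hu : ℝ,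
    HlR (Real.exp hp) D₀ (Real.exp κ) cc (Real.exp y) (Real.exp δ) q = Real.exp hl ∧
    HuR (Real.exp hp) D₀ (Real.exp κ) cc (Real.exp y) (Real.exp δ) = Real.exp hu ∧
    ((Real.exp δ ≤ D₀ ∧ hl = max 0 (hp - 4 / 3 * δ) - 2 * q ∧ hu = max 0 (hp - 4 / 3 * δ)) ∨
      (D₀ < Real.exp δ ∧ hl = κ + δ - Real.log (2 * cc) - 2 * y ∧
        hu = κ + δ - Real.log (2 * cc) - 2 * y)) := by
  by_cases h : Real.exp δ ≤ D₀
  · exact ⟨_, _, HlR_small h, HuR_small h, Or.inl ⟨h, rfl, rfl⟩⟩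
  · exact ⟨_, _, HlR_large h hcc, HuR_large h hcc, Or.inr ⟨not_le.1 h, rfl, rfl⟩⟩

section frame

variable {k N x ex p t b l ρ : ℝ}

/-- **the line (a) with any cut `D₀ ≥ e^(13/100 κ)`** -/
theorem lineA' (H : Tf k N x ex (y + ρ) p t) (ρ0 : 0 ≤ ρ) (δ0 : 0 ≤ δ) (b0 : 0 ≤ b)
    (hq : q ≤ b + t) (hq1 : q ≤ k / 64 + x + t) (hκ : |κ - k| ≤ t)
    (hhp : 4 / 3 * p + 2 / 3 * x - k - 3 * ex - 10 * t ≤ hp) (hcc : 1 ≤ cc)
    (hcct : Real.log (2 * cc) ≤ t) (hD : Real.exp (13 / 100 * κ) ≤ D₀) (δ1 : 2 * δ ≤ y + t)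
    (hl : l ≤ y + ρ - 2 * δ + b + t) (hW : 0 ≤ W) :
    Ph0 (Real.exp κ) (HlR (Real.exp hp) D₀ (Real.exp κ) cc (Real.exp y) (Real.exp δ) q)
      (Real.exp y) (Real.exp (κ / 20)) * (W * Real.exp (fT (k + ex) b l (p - δ - b) x)) *
      Real.exp δ ^ 2 ≤ 3 * W * Real.exp (k + 4 / 3 * p + ρ / 3 + ex + 20 * t) := by
  have ht := H.t0
  obtain ⟨k1, k2⟩ := abs_le.1 hκ
  obtain ⟨hl', hu, e1, -, h⟩ := hl_ex (by linarith : 0 < cc) D₀ hp κ y δ q
  have hL := Lg H δ0 b0 hl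
  have hS := LSg H δ0 b0 hl
  refine lineA_gen e1 hW ?_ (by linarith) (by linarith)
  rcases h with ⟨h, rfl, -⟩ | ⟨h, rfl, -⟩
  · have h1 := T0g (c := 0) H δ0 b0 le_rfl hq hq1 (l := l) (by linarith)
    have h2 : hH k x ex p δ - 10 * t ≤ max 0 (hp - 4 / 3 * δ) := by
      unfold hH
      have m1 := le_max_left 0 (hp - 4 / 3 * δ)
      have m2 := le_max_right 0 (hp - 4 / 3 * δ)
      rcases max_choice 0 (4 / 3 * (p - δ) + 2 / 3 * x - k - 3 * ex) with g | g <;> rw [g] <;>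
        linarith
    linarith
  · have hδ : 13 / 100 * k - t ≤ δ := by
      have := hD.trans_lt h
      rw [Real.exp_lt_exp] at this
      linarith
    have h1 := T0g' (c := 0) H hδ (by linarith) b0 le_rfl (l := l) (by linarith)
    linarith

/-- **the line (b) with any cut `D₀ ≥ e^(13/100 κ)`** -/
theorem lineB' (H : Tf k N x ex (y + ρ) p t) (ρ0 : 0 ≤ ρ) (δ0 : 0 ≤ δ) (b0 : 0 ≤ b) (c0 : 0 ≤ c)
    (hq : q ≤ b + t) (hq1 : q ≤ k / 64 + x + t) (hκ : |κ - k| ≤ t)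
    (hhp : 4 / 3 * p + 2 / 3 * x - k - 3 * ex - 10 * t ≤ hp)
    (hhp' : hp ≤ 4 / 3 * p + 2 / 3 * x - k - 3 * ex + 10 * t) (hcc : 1 ≤ cc)
    (hcct : Real.log (2 * cc) ≤ t) (hD : Real.exp (13 / 100 * κ) ≤ D₀) (δ1 : 2 * δ ≤ y + t)
    (hl : l ≤ y + ρ - 2 * δ + b - 3 * c + t) (hW : 0 ≤ W) :
    Ph1 (Real.exp κ) (HlR (Real.exp hp) D₀ (Real.exp κ) cc (Real.exp y) (Real.exp δ) q)
      (HuR (Real.exp hp) D₀ (Real.exp κ) cc (Real.exp y) (Real.exp δ)) (Real.exp y) *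
      (W * Real.exp (fT (k + ex) b l (p - δ - b) x)) * Real.exp δ ^ 2 * Real.exp c ≤
      3 * W * Real.exp (k + 4 / 3 * p + ρ / 3 + ex + 31 * t) := by
  have ht := H.t0
  obtain ⟨k1, k2⟩ := abs_le.1 hκ
  obtain ⟨hl', hu, e1, e2, h⟩ := hl_ex (by linarith : 0 < cc) D₀ hp κ y δ q
  rcases h with ⟨h, rfl, rfl⟩ | ⟨h, rfl, rfl⟩
  · have h1 := T0g H δ0 b0 c0 hq hq1 hl
    have h2 : hH k x ex p δ - 10 * t ≤ max 0 (hp - 4 / 3 * δ) := by
      unfold hH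
      have m1 := le_max_left 0 (hp - 4 / 3 * δ)
      have m2 := le_max_right 0 (hp - 4 / 3 * δ)
      rcases max_choice 0 (4 / 3 * (p - δ) + 2 / 3 * x - k - 3 * ex) with g | g <;> rw [g] <;>
        linarith
    have h3 := line_th H δ0
    have h4 : max 0 (hp - 4 / 3 * δ) ≤ hH k x ex p δ + 10 * t := by
      have m1 := hH0 k x ex p δ
      have m2 := hH1 k x ex p δ
      exact max_le (by linarith) (by linarith)
    refine lineB_gen e1 e2 hW ?_ ?_ ?_ <;> linarith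
  · have hδ : 13 / 100 * k - t ≤ δ := by
      have := hD.trans_lt h
      rw [Real.exp_lt_exp] at this
      linarith
    have h1 := T0g' H hδ (by linarith) b0 c0 hl
    have hc3 : 0 ≤ Real.log (2 * cc) := Real.log_nonneg (by linarith)
    refine lineB_gen e1 e2 hW ?_ ?_ ?_ <;> linarith

end frame

end Crest.Agent.R017.TL957
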