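import Crest.Agent.R017.P1TX_957

/-!
# Row 17, R8 (P1M): the level window with the divisor `g` (helper957)

* `v_ofg` : `y + ρ ≤ max 0 tO + 2 ζ - log N g + 5` from `I5_lev` of `XMf_54`
* `tfG` : the two windows `v ≤ .. + 21/5 x - γ + t`
-/

set_option autoImplicit false
set_option linter.unusedVariables false

noncomputable section

namespace Crest.Agent.R017.TL957

/-- the level of the class with the divisor `g` (`h` = `XMf54.I5_lev`, first part) -/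
theorem v_ofg {i n y : ℕ} {ζ ρ tO G : ℝ}
    (h : Real.log 2 * i ≤ Real.log 2 * n + 2 * ζ - G + 3 * Real.log 2)
    (hn : Real.log 2 * n ≤ max 0 tO + Real.log 2)
    (hy : Real.exp y ≤ Real.exp 1 * (Real.exp (Real.log 2 * (i + 1)) / Real.exp ρ)) :
    (y : ℝ) + ρ ≤ max 0 tO + 2 * ζ - G + 5 := by
  have h3 := Real.log_two_lt_d9
  rw [← Real.exp_sub, ← Real.exp_add, Real.exp_le_exp] at hy
  linarith

/-- **the windows with `γ = log N g`** -/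
theorem tfG {L κ₀ N₀ x₀ τ l z A ζ G v t c₅ : ℝ} (hL : 0 < L) (hτ : 0 ≤ τ) (k0 : 8 / 9 ≤ κ₀)
    (n0 : 3 / 4 * κ₀ ≤ N₀) (x0 : 0 ≤ x₀)
    (hl : |l - κ₀ * L| ≤ τ * L) (hz : |z - x₀ * L| ≤ τ * L) (hA : |A - N₀ * L| ≤ τ * L)
    (hζ : |ζ - x₀ * L| ≤ τ * L)
    (hv : v ≤ max 0 (min (2 * A - l) (3 / 4 * A) + 11 / 5 * z) + 2 * ζ - G + c₅)
    (ht : 12 * (τ * L) + c₅ ≤ t) :
    v ≤ 2 * (N₀ * L) - κ₀ * L + 21 / 5 * (x₀ * L) - G + t ∧
      v ≤ 3 / 4 * (N₀ * L) + 21 / 5 * (x₀ * L) - G + t := by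
  obtain ⟨l1, l2⟩ := abs_le.1 hl
  obtain ⟨z1, z2⟩ := abs_le.1 hz
  obtain ⟨A1, A2⟩ := abs_le.1 hA
  obtain ⟨ζ1, ζ2⟩ := abs_le.1 hζ
  have hτL : 0 ≤ τ * L := mul_nonneg hτ hL.le
  have hk : 0 < κ₀ * L := by positivity
  have hN0 : 3 / 4 * (κ₀ * L) ≤ N₀ * L := by
    have := mul_le_mul_of_nonneg_right n0 hL.le; linarith
  have hx0 : 0 ≤ x₀ * L := mul_nonneg x0 hL.le
  have m1 : min (2 * A - l) (3 / 4 * A) ≤ 2 * A - l := min_le_left _ _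
  have m2 : min (2 * A - l) (3 / 4 * A) ≤ 3 / 4 * A := min_le_right _ _
  rcases max_choice 0 (min (2 * A - l) (3 / 4 * A) + 11 / 5 * z) with g | g <;> rw [g] at hv
  · constructor <;> linarith
  · constructor <;> linarith

end Crest.Agent.R017.TL957
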