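import Crest.Agent.R017.P1h_54
import Crest.Agent.R017.HSep_813

/-!
# Row 17, R8/P1 at list level, part 4 (helper54): separation of the lengths

* `PF h T L s = Σ_{b ∈ T} L b ∏ pc h (s i) (b i)` : multilinear forms in the pieces
* `reY s Y t` : the pieces with new lengths and heights
* `sep_pc` : bounds for lengths `e^{c n} ≥ 1` and all heights give bounds for all lengths
* `sqc_al_eq` : `sqc 1 (al h s) = Σ_b K(b) δ_{∏ b}`
* `er_sep`, `mm_sep` : the error and the mismatch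
-/

set_option autoImplicit false

noncomputable section

open Finset
open scoped ComplexConjugate

namespace Crest.Agent.R017.P1i54

open Crest.Agent.R012 Crest.Agent.R012.Eis Crest.Agent.R012.Div277
open Crest.Agent.R012.Mob705 hiding pb mem_pb
open Crest.Agent.R012.LS2 (S mem_S)
open Crest.Agent.R017.CM106 Crest.Agent.R017.C70
open Crest.Agent.R017.FE47 (PU cx)
open Crest.Agent.R017.StC828 (SqS cvc rs)
open Crest.Agent.R017.StA828 (xa psi gp)
open Crest.Agent.R017.StD828 (ln Tm)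
open Crest.Agent.R017.E2440 (TE StE)
open Crest.Agent.R017.E3A164 (SteT)
open Crest.Agent.R017.P1e54 Crest.Agent.R017.P1f54 Crest.Agent.R017.SSb54 Crest.Agent.R017.P1h54
open Crest.Agent.R017.HP842 (Pc pc al cv Tu mem_Tu scS sc' sqc Th uv)
open Crest.Agent.R017.HSep813 (gw MF sep_list)
open Crest.Agent.R017.PX764 (th)

/-! ### multilinear forms in the pieces -/

/-- the multilinear form -/
def PF {I : Type} [Fintype I] (h : ℝ → ℝ) (T : Finset (I → Eis)) (L : (I → Eis) → ℂ)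
    (s : I → Pc) : ℂ :=
  ∑ b ∈ T, L b * ∏ i, pc h (s i) (b i)

/-- new lengths and heights -/
def reY {I : Type} (s : I → Pc) (Y t : I → ℝ) : I → Pc := fun i => ⟨(s i).u, (s i).ψ, Y i, t i⟩

lemma reY_self {I : Type} (s : I → Pc) : reY s (fun i => (s i).Y) (fun i => (s i).t) = s := rfl

lemma PF_eq_MF {I : Type} [Fintype I] (h : ℝ → ℝ) {T : Finset (I → Eis)}
    (hT : ∀ b ∈ T, ∀ i, IsPrim (b i)) (L : (I → Eis) → ℂ) (s : I → Pc) (Y t : I → ℝ) :
    PF h T L (reY s Y t) =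
      MF h T (fun b => L b * ∏ i, (uv (s i).u (b i) * (s i).ψ (b i))) Y t := by
  unfold PF MF
  refine sum_congr rfl fun b hb => ?_
  rw [mul_assoc, ← prod_mul_distrib]
  congr 1
  refine prod_congr rfl fun i _ => ?_
  unfold pc reY
  rw [if_pos (hT b hb i)]

/-- **bounds on the grid give bounds for all lengths** -/
theorem sep_pc {h : ℝ → ℝ} {c : ℝ} (hpu : PU h c) {R : ℝ} (hR0 : 0 ≤ R)
    (hR : ∀ u, cx h u ≠ 0 → |u| ≤ R) (M : ℝ) : ∃ C : ℝ, 0 ≤ C ∧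
    ∀ (I : Type) [Fintype I] (ι : Type) (K : Finset ι) (T : Finset (I → Eis)),
      (∀ b ∈ T, ∀ i, IsPrim (b i)) → ∀ (L : ι → (I → Eis) → ℂ) (s : I → Pc) (B : ℝ), 0 ≤ B →
      (∀ (n : I → ℕ) (τ : I → ℝ), (∀ i, |c * n i - Real.log (s i).Y| ≤ 2 * R) →
        ∑ k ∈ K, ‖PF h T (L k) (reY s (fun i => Real.exp (c * n i))
          (fun i => (s i).t + τ i))‖ ^ 2 ≤ B * ∏ i, (1 + |τ i|) ^ M) →
      ∑ k ∈ K, ‖PF h T (L k) s‖ ^ 2 ≤ C ^ Fintype.card I * B := by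
  obtain ⟨C, hC, key⟩ := sep_list hpu hR0 hR (ρ := 0) le_rfl M
  refine ⟨C, hC, fun I _ ι K T hT L s B hB hyp => ?_⟩
  have h1 := key I ι K T (fun b hb i => (hT b hb i).ne_zero)
    (fun k b => L k b * ∏ i, (uv (s i).u (b i) * (s i).ψ (b i))) (fun _ i => (s i).Y)
    (fun i => Real.log (s i).Y) (fun i => (s i).t) B hB
    (fun k _ i => by rw [sub_self, abs_zero]) (fun n τ hn => by
      have h2 := hyp n τ (fun i => by simpa using hn i)
      refine le_trans (le_of_eq ?_) h2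
      refine sum_congr rfl fun k _ => ?_
      rw [PF_eq_MF h hT])
  refine le_trans (le_of_eq ?_) h1
  refine sum_congr rfl fun k _ => ?_
  rw [← PF_eq_MF h hT, reY_self]

/-! ### the sequence of a family as a sum of point masses -/

/-- the point mass -/
def dlt (m : Eis) : Eis → ℂ := fun n => if n = m then 1 else 0

lemma FS_dlt {m : Eis} (hm : IsPrim m) : FS (dlt m) where
  fin := (Set.finite_singleton m).subset fun n hn => by
    by_contra h
    exact hn (if_neg h)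
  prim := fun n hn => by
    by_contra h
    refine hn (if_neg ?_)
    rintro rfl
    exact h hm

/-- the tuples with entries in the ball -/
def TB (I : Type*) [Fintype I] (X : ℕ) : Finset (I → Eis) := by
  classical
  exact Fintype.piFinset fun _ : I => primBall X

lemma mem_TB {I : Type*} [Fintype I] {X : ℕ} {b : I → Eis} :
    b ∈ TB I X ↔ ∀ i, nm (b i) ≤ X ∧ IsPrim (b i) := by
  classical
  unfold TB
  rw [Fintype.mem_piFinset]
  exact forall_congr' fun i => mem_primBall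

variable {I : Type*} [Fintype I] [DecidableEq I]

theorem sqc_al_eq {h : ℝ → ℝ} {s : I → Pc} {X : ℕ} (hX : ∀ i m, pc h (s i) m ≠ 0 → nm m ≤ X) :
    sqc 1 (al h s) = ∑ b ∈ TB I X, (Th 1 (∏ i, b i) * ∏ i, pc h (s i) (b i)) • dlt (∏ i, b i) := by
  classical
  funext n
  rw [Finset.sum_apply]
  simp only [Pi.smul_apply, smul_eq_mul]
  have e1 : ∀ b ∈ TB I X, (Th 1 (∏ i, b i) * ∏ i, pc h (s i) (b i)) * dlt (∏ i, b i) n =
      if n = ∏ i, b i then Th 1 n * ∏ i, pc h (s i) (b i) else 0 := by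
    intro b _
    unfold dlt
    by_cases hn : n = ∏ i, b i
    · rw [if_pos hn, if_pos hn, mul_one, ← hn]
    · rw [if_neg hn, if_neg hn, mul_zero]
  rw [sum_congr rfl e1, ← sum_filter]
  show Th 1 n * cv (fun i => pc h (s i)) n = _
  unfold cv
  rw [mul_sum]
  symm
  refine sum_subset_zero_on_sdiff ?_ ?_ ?_
  · intro b hb
    rw [mem_filter, mem_TB] at hb
    rw [mem_Tu]
    exact ⟨fun i => (hb.1 i).2, hb.2.symm⟩
  · intro b hb
    rw [mem_sdiff, mem_filter, mem_TB, mem_Tu] at hb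
    obtain ⟨⟨h1, h2⟩, h3⟩ := hb
    by_contra hne
    apply h3
    refine ⟨fun i => ⟨?_, h1 i⟩, h2.symm⟩
    have h4 := Finset.prod_ne_zero_iff.1 (right_ne_zero_of_mul hne) i (mem_univ i)
    exact hX i _ h4
  · intro b _
    rfl

omit [DecidableEq I] in
lemma prod_prim_TB {X : ℕ} {b : I → Eis} (hb : b ∈ TB I X) : IsPrim (∏ i, b i) :=
  E554.isPrim_prod fun i _ => (mem_TB.1 hb i).2

/-- the error as a multilinear form -/
theorem Er_PF {I : Type} [Fintype I] [DecidableEq I] {h : ℝ → ℝ} {s : I → Pc} {X : ℕ}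
    (hX : ∀ i m, pc h (s i) m ≠ 0 → nm m ≤ X)
    (c : ℂ) (E0 : ℝ) {J : Finset (Eis × Eis)} (hJ : ∀ x ∈ J, x.1 ≠ 0) (om : Eis × Eis → ℂ)
    (k : Eis) : Er c E0 J om (sqc 1 (al h s)) k =
      PF h (TB I X) (fun b => Th 1 (∏ i, b i) * Er c E0 J om (dlt (∏ i, b i)) k) s := by
  rw [sqc_al_eq hX, Er_sum _ _ _ (fun b hb => FS_dlt (prod_prim_TB hb)) c E0 hJ om k]
  unfold PF
  exact sum_congr rfl fun b _ => by ring

/-! ### the mismatch -/

/-- the mismatch -/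
def Mm (JJ : Finset (Eis × Eis)) (E0 Z : ℝ) (o : Eis → ℂ) (g : Eis) (η α : Eis → ℂ) (k : Eis) : ℂ :=
  SteT JJ (fun _ => 1) (E0 * Z) (Tm E0 Z o η α g) k

section

variable {τ : Type*}

lemma Tm_sum_left (t : Finset τ) (K : τ → ℂ) (f : τ → Eis → ℂ) (E0 Z : ℝ) (o : Eis → ℂ)
    (α : Eis → ℂ) (g d e j : Eis) :
    Tm E0 Z o (∑ i ∈ t, K i • f i) α g d e j = ∑ i ∈ t, K i * Tm E0 Z o (f i) α g d e j := by
  unfold Tm
  simp_rw [mul_sum]
  rw [sum_comm]
  refine sum_congr rfl fun a _ => ?_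
  rw [Finset.sum_apply, sum_mul]
  refine sum_congr rfl fun i _ => ?_
  simp only [Pi.smul_apply, smul_eq_mul]
  ring

lemma xa_rs_sum (t : Finset τ) (K : τ → ℂ) (f : τ → Eis → ℂ) (g a : Eis) :
    xa a (rs g (∑ i ∈ t, K i • f i)) = ∑ i ∈ t, K i • xa a (rs g (f i)) := by
  classical
  funext n
  rw [Finset.sum_apply]
  simp only [Pi.smul_apply, smul_eq_mul]
  unfold xa rs
  by_cases h1 : a ∣ n ∧ IsCoprime a (n / a)
  · rw [if_pos h1]
    by_cases h2 : g ∣ n / a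
    · rw [if_pos h2, Finset.sum_apply]
      refine sum_congr rfl fun i _ => ?_
      rw [if_pos h1, if_pos h2]
      rfl
    · rw [if_neg h2]
      symm
      refine sum_eq_zero fun i _ => ?_
      rw [if_pos h1, if_neg h2, mul_zero]
  · rw [if_neg h1]
    symm
    refine sum_eq_zero fun i _ => ?_
    rw [if_neg h1, mul_zero]

lemma Tm_sum_right (t : Finset τ) (K : τ → ℂ) (f : τ → Eis → ℂ) (hf : ∀ i ∈ t, FS (f i))
    {Z : ℝ} (hZ : 0 ≤ Z) (E0 : ℝ) (o : Eis → ℂ) (η : Eis → ℂ) (g : Eis) {d : Eis} (hd : d ≠ 0)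
    (e j : Eis) :
    Tm E0 Z o η (∑ i ∈ t, K i • f i) g d e j = ∑ i ∈ t, K i * Tm E0 Z o η (f i) g d e j := by
  unfold Tm
  simp_rw [mul_sum]
  rw [sum_comm]
  refine sum_congr rfl fun a ha => ?_
  have h1 : TE (xa a (rs g (∑ i ∈ t, K i • f i))) (d, j) e =
      ∑ i ∈ t, K i * TE (xa a (rs g (f i))) (d, j) e := by
    rw [xa_rs_sum, StC828.TE_sum _ _ (fun i hi => StC828.FS_smul
      (StC828.FS_xa (StC828.FS_rs (hf i hi) g) ((mem_S hZ).1 ha).2.1) _) hd]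
    exact sum_congr rfl fun i _ => StC828.TE_smul _ _ _ _
  rw [h1, mul_sum, mul_sum]
  refine sum_congr rfl fun i _ => ?_
  ring

lemma SteT_sum (t : Finset τ) (K : τ → ℂ) (T : τ → Eis → Eis → Eis → ℂ)
    {T' : Eis → Eis → Eis → ℂ} {J : Finset (Eis × Eis)} (om : Eis × Eis → ℂ) (E0 : ℝ)
    (hT : ∀ x ∈ J, ∀ e, T' x.1 e x.2 = ∑ i ∈ t, K i * T i x.1 e x.2) (k : Eis) :
    SteT J om E0 T' k = ∑ i ∈ t, K i * SteT J om E0 (T i) k := by
  classical
  have h2 : ∀ x ∈ J, om x * (sy k x.1 * conj (th (x.2 * k)) *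
      ∑ e ∈ (S E0).filter (fun e => e ∣ k), (muE e : ℂ) * T' x.1 e x.2) =
      ∑ i ∈ t, K i * (om x * (sy k x.1 * conj (th (x.2 * k)) *
        ∑ e ∈ (S E0).filter (fun e => e ∣ k), (muE e : ℂ) * T i x.1 e x.2)) := by
    intro x hx
    have h1 : ∑ e ∈ (S E0).filter (fun e => e ∣ k), (muE e : ℂ) * T' x.1 e x.2 =
        ∑ i ∈ t, K i * ∑ e ∈ (S E0).filter (fun e => e ∣ k), (muE e : ℂ) * T i x.1 e x.2 := by
      have h3 : ∀ i ∈ t, K i * ∑ e ∈ (S E0).filter (fun e => e ∣ k),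
          (muE e : ℂ) * T i x.1 e x.2 = ∑ e ∈ (S E0).filter (fun e => e ∣ k),
          K i * ((muE e : ℂ) * T i x.1 e x.2) := fun i _ => mul_sum _ _ _
      rw [sum_congr rfl h3, sum_comm]
      refine sum_congr rfl fun e _ => ?_
      rw [hT x hx e, mul_sum]
      refine sum_congr rfl fun i _ => ?_
      ring
    rw [h1, mul_sum, mul_sum]
    refine sum_congr rfl fun i _ => ?_
    ring
  unfold SteT
  have h4 : ∀ i ∈ t, K i * ∑ x ∈ J, om x * (sy k x.1 * conj (th (x.2 * k)) *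
        ∑ e ∈ (S E0).filter (fun e => e ∣ k), (muE e : ℂ) * T i x.1 e x.2) =
      ∑ x ∈ J, K i * (om x * (sy k x.1 * conj (th (x.2 * k)) *
        ∑ e ∈ (S E0).filter (fun e => e ∣ k), (muE e : ℂ) * T i x.1 e x.2)) :=
    fun i _ => mul_sum _ _ _
  rw [sum_congr rfl h4, sum_comm]
  exact sum_congr rfl h2

lemma Mm_sum_left (t : Finset τ) (K : τ → ℂ) (f : τ → Eis → ℂ) (JJ : Finset (Eis × Eis))
    (E0 Z : ℝ) (o : Eis → ℂ) (g : Eis) (α : Eis → ℂ) (k : Eis) :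
    Mm JJ E0 Z o g (∑ i ∈ t, K i • f i) α k = ∑ i ∈ t, K i * Mm JJ E0 Z o g (f i) α k :=
  SteT_sum t K (fun i => Tm E0 Z o (f i) α g) _ _
    (fun x _ e => Tm_sum_left t K f E0 Z o α g x.1 e x.2) k

lemma Mm_sum_right (t : Finset τ) (K : τ → ℂ) (f : τ → Eis → ℂ) (hf : ∀ i ∈ t, FS (f i))
    {JJ : Finset (Eis × Eis)} (hJ : ∀ x ∈ JJ, x.1 ≠ 0)
    {Z : ℝ} (hZ : 0 ≤ Z) (E0 : ℝ) (o : Eis → ℂ) (g : Eis) (η : Eis → ℂ) (k : Eis) :
    Mm JJ E0 Z o g η (∑ i ∈ t, K i • f i) k = ∑ i ∈ t, K i * Mm JJ E0 Z o g η (f i) k :=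
  SteT_sum t K (fun i => Tm E0 Z o η (f i) g) _ _
    (fun x hx e => Tm_sum_right t K f hf hZ E0 o η g (hJ x hx) e x.2) k

end

/-- sums over tuples on a sum type -/
lemma sum_TB {ι κ : Type*} [Fintype ι] [Fintype κ] (X : ℕ) (F : (ι ⊕ κ → Eis) → ℂ) :
    ∑ b ∈ TB (ι ⊕ κ) X, F b = ∑ x ∈ TB ι X, ∑ y ∈ TB κ X, F (Sum.elim x y) := by
  classical
  rw [← sum_product']
  refine sum_bij' (fun b _ => (fun i => b (.inl i), fun j => b (.inr j)))
    (fun p _ => Sum.elim p.1 p.2) ?_ ?_ ?_ ?_ ?_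
  · intro b hb
    rw [mem_TB] at hb
    rw [mem_product, mem_TB, mem_TB]
    exact ⟨fun i => hb _, fun j => hb _⟩
  · intro p hp
    rw [mem_product, mem_TB, mem_TB] at hp
    rw [mem_TB]
    rintro (i | j)
    · exact hp.1 i
    · exact hp.2 j
  · intro b _
    funext i
    rcases i with i | j <;> rfl
  · intro p _
    rfl
  · intro b _
    congr 1
    funext i
    rcases i with i | j <;> rfl

/-- the mismatch as a multilinear form -/
theorem Mm_PF {ι κ : Type} [Fintype ι] [Fintype κ] [DecidableEq ι] [DecidableEq κ] {h : ℝ → ℝ}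
    {s : ι ⊕ κ → Pc} {X : ℕ} (hX : ∀ i m, pc h (s i) m ≠ 0 → nm m ≤ X)
    {JJ : Finset (Eis × Eis)} (hJ : ∀ x ∈ JJ, x.1 ≠ 0) {Z : ℝ} (hZ : 0 ≤ Z) (E0 : ℝ) (o : Eis → ℂ)
    (g : Eis) (k : Eis) :
    Mm JJ E0 Z o g (sqc 1 (al h fun i => s (.inl i))) (sqc 1 (al h fun j => s (.inr j))) k =
      PF h (TB (ι ⊕ κ) X) (fun b => Th 1 (∏ i, b (.inl i)) * Th 1 (∏ j, b (.inr j)) *
        Mm JJ E0 Z o g (dlt (∏ i, b (.inl i))) (dlt (∏ j, b (.inr j))) k) s := by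
  unfold PF
  rw [sum_TB, sqc_al_eq (fun i m hm => hX _ m hm), Mm_sum_left]
  refine sum_congr rfl fun x _ => ?_
  rw [sqc_al_eq (fun i m hm => hX _ m hm), Mm_sum_right _ _ _
    (fun b hb => FS_dlt (prod_prim_TB hb)) hJ hZ, mul_sum]
  refine sum_congr rfl fun y _ => ?_
  rw [Fintype.prod_sum_type]
  simp only [Sum.elim_inl, Sum.elim_inr]
  ring

/-! ### the separation -/

lemma supp_pc {h : ℝ → ℝ} {R : ℝ} (hR : ∀ u, cx h u ≠ 0 → |u| ≤ R) {P : Pc} (hY : 0 < P.Y)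
    {m : Eis} (hm : pc h P m ≠ 0) : (nm m : ℝ) ≤ P.Y * Real.exp R := by
  have hp : IsPrim m := by
    by_contra h0
    apply hm
    unfold pc
    rw [if_neg h0]
  have h5 := hm
  unfold pc at h5
  rw [if_pos hp] at h5
  have h6 : gw h P.Y P.t m ≠ 0 := right_ne_zero_of_mul h5
  unfold gw at h6
  have h7 := hR _ (right_ne_zero_of_mul h6)
  have h8 : (0 : ℝ) < nm m := by exact_mod_cast nm_pos.2 hp.ne_zero
  have h9 : Real.log (nm m) ≤ Real.log P.Y + R := by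
    have := (abs_le.1 h7).2
    linarith
  calc (nm m : ℝ) = Real.exp (Real.log (nm m)) := (Real.exp_log h8).symm
    _ ≤ Real.exp (Real.log P.Y + R) := Real.exp_le_exp.2 h9
    _ = P.Y * Real.exp R := by rw [Real.exp_add, Real.exp_log hY]

/-- a second moment as a finite sum of squares of multilinear forms -/
lemma M2_PF {J : Type} [Fintype J] {h : ℝ → ℝ} {u : Eis → ℝ} (h0 : ∀ k, 0 ≤ u k)
    (hu : (Function.support u).Finite) (T : Finset (J → Eis)) (L : Eis → (J → Eis) → ℂ)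
    (s : J → Pc) : M2 u (fun k => PF h T (L k) s) =
      ∑ k ∈ hu.toFinset, ‖PF h T (fun b => (Real.sqrt (u k) : ℂ) * L k b) s‖ ^ 2 := by
  unfold M2
  rw [tsum_eq_sum (s := hu.toFinset)]
  · refine sum_congr rfl fun k _ => ?_
    have e1 : PF h T (fun b => (Real.sqrt (u k) : ℂ) * L k b) s =
        (Real.sqrt (u k) : ℂ) * PF h T (L k) s := by
      unfold PF
      rw [mul_sum]
      exact sum_congr rfl fun b _ => by ring
    rw [e1, norm_mul, mul_pow, Complex.norm_real, Real.norm_of_nonneg (Real.sqrt_nonneg _),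
      Real.sq_sqrt (h0 k)]
  · intro k hk
    rw [Set.Finite.mem_toFinset, Function.notMem_support] at hk
    rw [hk, zero_mul]

/-- **separation of the lengths for a second moment** -/
theorem sep_M2 {h : ℝ → ℝ} {c : ℝ} (hpu : PU h c) {R : ℝ} (hR0 : 0 ≤ R)
    (hR : ∀ u, cx h u ≠ 0 → |u| ≤ R) (M : ℝ) : ∃ C : ℝ, 0 ≤ C ∧
    ∀ (J : Type) [Fintype J] (s : J → Pc) (u : Eis → ℝ), (∀ k, 0 ≤ u k) →
      (Function.support u).Finite → ∀ (F : (J → Pc) → Eis → ℂ) (X : ℕ) (L : Eis → (J → Eis) → ℂ),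
      (∀ i, (s i).Y * Real.exp (3 * R) ≤ X) → (∀ i, 0 < (s i).Y) →
      (∀ Y t : J → ℝ, (∀ i, 0 < Y i) → (∀ i, Y i * Real.exp R ≤ X) → ∀ k,
        F (reY s Y t) k = PF h (TB J X) (L k) (reY s Y t)) →
      ∀ B : ℝ, 0 ≤ B →
      (∀ (n : J → ℕ) (τ : J → ℝ), (∀ i, |c * n i - Real.log (s i).Y| ≤ 2 * R) →
        M2 u (F (reY s (fun i => Real.exp (c * n i)) (fun i => (s i).t + τ i))) ≤
          B * ∏ i, (1 + |τ i|) ^ M) →
      M2 u (F s) ≤ C ^ Fintype.card J * B := by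
  obtain ⟨C, hC, key⟩ := sep_pc hpu hR0 hR M
  refine ⟨C, hC, ?_⟩
  intro J _ s u h0 hu F X L hX hY hF B hB hyp
  have hself : F s = fun k => PF h (TB J X) (L k) s := by
    funext k
    have h1 := hF (fun i => (s i).Y) (fun i => (s i).t) hY (fun i => le_trans
      (mul_le_mul_of_nonneg_left (Real.exp_le_exp.2 (by linarith)) (hY i).le) (hX i)) k
    rwa [reY_self] at h1
  rw [hself, M2_PF h0 hu]
  refine key J Eis hu.toFinset (TB J X) (fun b hb i => (mem_TB.1 hb i).2)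
    (fun k b => (Real.sqrt (u k) : ℂ) * L k b) s B hB fun n τ hn => ?_
  have h2 := hyp n τ hn
  have h3 : F (reY s (fun i => Real.exp (c * n i)) (fun i => (s i).t + τ i)) =
      fun k => PF h (TB J X) (L k)
        (reY s (fun i => Real.exp (c * n i)) (fun i => (s i).t + τ i)) := by
    funext k
    refine hF _ _ (fun i => Real.exp_pos _) (fun i => le_trans ?_ (hX i)) k
    have h4 := (abs_le.1 (hn i)).2
    calc Real.exp (c * n i) * Real.exp R ≤ Real.exp (Real.log (s i).Y + 2 * R) * Real.exp R :=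
          mul_le_mul_of_nonneg_right (Real.exp_le_exp.2 (by linarith)) (Real.exp_pos _).le
      _ = (s i).Y * Real.exp (3 * R) := by
          rw [← Real.exp_add, show Real.log (s i).Y + 2 * R + R = Real.log (s i).Y + 3 * R by ring,
            Real.exp_add, Real.exp_log (hY i)]
  rw [h3, M2_PF h0 hu] at h2
  exact h2

lemma exists_X {J : Type} [Fintype J] (s : J → Pc) (R : ℝ) :
    ∃ X : ℕ, ∀ i, (s i).Y * Real.exp (3 * R) ≤ X := by
  classical
  refine ⟨⌈∑ i, |(s i).Y * Real.exp (3 * R)|⌉₊, fun i => ?_⟩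
  refine le_trans ?_ (Nat.le_ceil _)
  exact (le_abs_self _).trans (single_le_sum (f := fun i => |(s i).Y * Real.exp (3 * R)|)
    (fun i _ => abs_nonneg _) (mem_univ i))

/-- **the error**: lengths `≥ 1` suffice -/
theorem er_sep {h : ℝ → ℝ} {c : ℝ} (hpu : PU h c) {R : ℝ} (hR0 : 0 ≤ R)
    (hR : ∀ u, cx h u ≠ 0 → |u| ≤ R) (M : ℝ) : ∃ C : ℝ, 0 ≤ C ∧
    ∀ (J : Type) [Fintype J] [DecidableEq J] (s : J → Pc), (∀ i, (s i).OK) →
      ∀ (a : ℂ) (E0 : ℝ) (W : Finset (Eis × Eis)), (∀ x ∈ W, x.1 ≠ 0) →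
      ∀ (om : Eis × Eis → ℂ) (u : Eis → ℝ), (∀ k, 0 ≤ u k) → (Function.support u).Finite →
      ∀ B : ℝ, 0 ≤ B →
      (∀ (n : J → ℕ) (τ : J → ℝ), (∀ i, |c * n i - Real.log (s i).Y| ≤ 2 * R) →
        M2 u (Er a E0 W om (sqc 1 (al h (reY s (fun i => Real.exp (c * n i))
          (fun i => (s i).t + τ i))))) ≤ B * ∏ i, (1 + |τ i|) ^ M) →
      M2 u (Er a E0 W om (sqc 1 (al h s))) ≤ C ^ Fintype.card J * B := by
  obtain ⟨C, hC, key⟩ := sep_M2 hpu hR0 hR M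
  refine ⟨C, hC, ?_⟩
  intro J _ _ s hs a E0 W hW om u h0 hu B hB hyp
  obtain ⟨X, hX⟩ := exists_X s R
  refine key J s u h0 hu (fun s' => Er a E0 W om (sqc 1 (al h s'))) X
    (fun k b => Th 1 (∏ i, b i) * Er a E0 W om (dlt (∏ i, b i)) k) hX (fun i => (hs i).Y0)
    (fun Y t hY hYX k => ?_) B hB hyp
  refine Er_PF (fun i m hm => ?_) a E0 hW om k
  have h1 := supp_pc hR (P := reY s Y t i) (hY i) hm
  exact_mod_cast h1.trans (hYX i)

/-- **the mismatch**: lengths `≥ 1` suffice -/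
theorem mm_sep {h : ℝ → ℝ} {c : ℝ} (hpu : PU h c) {R : ℝ} (hR0 : 0 ≤ R)
    (hR : ∀ u, cx h u ≠ 0 → |u| ≤ R) (M : ℝ) : ∃ C : ℝ, 0 ≤ C ∧
    ∀ (ι κ : Type) [Fintype ι] [Fintype κ] [DecidableEq ι] [DecidableEq κ] (s : ι ⊕ κ → Pc),
      (∀ i, (s i).OK) → ∀ (E0 Z : ℝ), 0 ≤ Z → ∀ (W : Finset (Eis × Eis)), (∀ x ∈ W, x.1 ≠ 0) →
      ∀ (o : Eis → ℂ) (g : Eis) (u : Eis → ℝ), (∀ k, 0 ≤ u k) → (Function.support u).Finite →
      ∀ B : ℝ, 0 ≤ B →
      (∀ (n : ι ⊕ κ → ℕ) (τ : ι ⊕ κ → ℝ), (∀ i, |c * n i - Real.log (s i).Y| ≤ 2 * R) →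
        M2 u (Mm W E0 Z o g
          (sqc 1 (al h fun i => reY s (fun i => Real.exp (c * n i)) (fun i => (s i).t + τ i)
            (.inl i)))
          (sqc 1 (al h fun j => reY s (fun i => Real.exp (c * n i)) (fun i => (s i).t + τ i)
            (.inr j)))) ≤ B * ∏ i, (1 + |τ i|) ^ M) →
      M2 u (Mm W E0 Z o g (sqc 1 (al h fun i => s (.inl i))) (sqc 1 (al h fun j => s (.inr j)))) ≤
        C ^ Fintype.card (ι ⊕ κ) * B := by
  obtain ⟨C, hC, key⟩ := sep_M2 hpu hR0 hR M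
  refine ⟨C, hC, ?_⟩
  intro ι κ _ _ _ _ s hs E0 Z hZ W hW o g u h0 hu B hB hyp
  obtain ⟨X, hX⟩ := exists_X s R
  refine key (ι ⊕ κ) s u h0 hu (fun s' => Mm W E0 Z o g (sqc 1 (al h fun i => s' (.inl i)))
      (sqc 1 (al h fun j => s' (.inr j)))) X
    (fun k b => Th 1 (∏ i, b (.inl i)) * Th 1 (∏ j, b (.inr j)) *
        Mm W E0 Z o g (dlt (∏ i, b (.inl i))) (dlt (∏ j, b (.inr j))) k) hX (fun i => (hs i).Y0)
    (fun Y t hY hYX k => ?_) B hB hyp
  refine Mm_PF (s := reY s Y t) (fun i m hm => ?_) hW hZ E0 o g k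
  have h1 := supp_pc hR (P := reY s Y t i) (hY i) hm
  exact_mod_cast h1.trans (hYX i)

end Crest.Agent.R017.P1i54
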