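import Crest.Agent.R017.P1X2_960
import Crest.Agent.R017.P1i_54

/-!
# Row 17, exceptional class, P1X, part 4 (helper960): separation of the lengths outside the pair

* `Mm_cmb` : the mismatch of a combination
* `jn` : joins the pieces outside the pair with the pair
* `PF_split` : a multilinear form in the pieces outside the pair
* `sep_M2X` : separation of the lengths outside the pair;  `er_sepX`, `mm_sepX`
-/

set_option autoImplicit false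

noncomputable section

open Finset
open scoped ComplexConjugate

namespace Crest.Agent.R017.P1X960

open Crest.Agent.R012 Crest.Agent.R012.Eis Crest.Agent.R012.Div277
open Crest.Agent.R012.Mob705 hiding pb mem_pb
open Crest.Agent.R012.LS2 (S mem_S)
open Crest.Agent.R017.CM106 Crest.Agent.R017.C70
open Crest.Agent.R017.FE47 (PU cx)
open Crest.Agent.R017.StC828 (SqS cvc rs)
open Crest.Agent.R017.StD828 (ln Tm)
open Crest.Agent.R017.E2440 (TE StE)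
open Crest.Agent.R017.E3A164 (SteT)
open Crest.Agent.R017.P1e54 Crest.Agent.R017.P1f54 Crest.Agent.R017.P1i54
open Crest.Agent.R017.HP842 (Pc pc al cv Tu mem_Tu scS sc' sqc Th uv)

/-! ### the mismatch of a combination -/

lemma Mm_cmb {α₁ α₂ : Eis → ℂ} (h₁ : FS α₁) (h₂ : FS α₂) (z w : ℂ) {JJ : Finset (Eis × Eis)}
    (hJ : ∀ x ∈ JJ, x.1 ≠ 0) {Z : ℝ} (hZ : 0 ≤ Z) (E0 : ℝ) (o : Eis → ℂ) (g : Eis) (η : Eis → ℂ)
    (k : Eis) : Mm JJ E0 Z o g η (cmb z w α₁ α₂) k =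
      z * Mm JJ E0 Z o g η α₁ k + w * Mm JJ E0 Z o g η α₂ k := by
  have e1 : cmb z w α₁ α₂ = ∑ i ∈ (univ : Finset (Fin 2)), (![z, w] i) • (![α₁, α₂] i) := by
    rw [Fin.sum_univ_two]; rfl
  rw [e1, Mm_sum_right _ _ _ (fun i _ => by fin_cases i; exacts [h₁, h₂]) hJ hZ,
    Fin.sum_univ_two]
  rfl

lemma Mm_TmX {α₁ α₂ : Eis → ℂ} (h₁ : FS α₁) (h₂ : FS α₂) (z w : ℂ) {JJ : Finset (Eis × Eis)}
    (hJ : ∀ x ∈ JJ, x.1 ≠ 0) {Z : ℝ} (hZ : 0 ≤ Z) (E0 : ℝ) (o : Eis → ℂ) (g : Eis) (η : Eis → ℂ)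
    (k : Eis) : SteT JJ (fun _ => 1) (E0 * Z) (TmX z w E0 Z o η α₁ α₂ g) k =
      Mm JJ E0 Z o g η (cmb z w α₁ α₂) k := by
  rw [Mm_cmb h₁ h₂ z w hJ hZ]
  exact SteT_cmb _ _ _ _ _ z w k

/-! ### joining the pair -/

section jn
variable {ι α : Type*}

/-- the pieces outside the pair, and the pair -/
def jn (r : ι ⊕ Unit → α) (p : Fin 2 → α) : ι ⊕ Fin 3 → α :=
  Sum.elim (fun i => r (.inl i)) ![p 0, p 1, r (.inr ())]

/-- the pieces outside the pair -/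
def rst (s : ι ⊕ Fin 3 → α) : ι ⊕ Unit → α :=
  Sum.elim (fun i => s (.inl i)) fun _ => s (.inr 2)

/-- the pair -/
def pr2 (s : ι ⊕ Fin 3 → α) : Fin 2 → α := fun i => s (.inr (Fin.castSucc i))

lemma jn_rst (s : ι ⊕ Fin 3 → α) : jn (rst s) (pr2 s) = s := by
  funext i
  rcases i with i | i
  · rfl
  · fin_cases i <;> rfl

end jn

lemma prod_jn {ι M : Type*} [Fintype ι] [CommMonoid M] (r : ι ⊕ Unit → M) (p : Fin 2 → M) :
    ∏ i, jn r p i = (∏ i, r i) * ∏ i, p i := by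
  rw [Fintype.prod_sum_type, Fintype.prod_sum_type, Fin.prod_univ_three, Fin.prod_univ_two]
  simp only [jn, Sum.elim_inl, Sum.elim_inr, Matrix.cons_val_zero, Matrix.cons_val_one,
    Matrix.cons_val, Finset.univ_unique, Finset.prod_singleton]
  have e : (default : Unit) = () := rfl
  rw [e]
  ac_rfl

lemma pc_jn (h : ℝ → ℝ) {ι : Type*} [Fintype ι] (r : ι ⊕ Unit → Pc) (p : Fin 2 → Pc)
    (x : ι ⊕ Unit → Eis) (y : Fin 2 → Eis) : ∏ i, pc h (jn r p i) (jn x y i) =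
      (∏ i, pc h (r i) (x i)) * ∏ i, pc h (p i) (y i) := by
  rw [← prod_jn]
  refine prod_congr rfl fun i _ => ?_
  rcases i with i | i
  · rfl
  · fin_cases i <;> rfl

lemma sum_TBj {ι : Type*} [Fintype ι] (X : ℕ) (F : (ι ⊕ Fin 3 → Eis) → ℂ) :
    ∑ b ∈ TB (ι ⊕ Fin 3) X, F b = ∑ x ∈ TB (ι ⊕ Unit) X, ∑ y ∈ TB (Fin 2) X, F (jn x y) := by
  classical
  rw [← sum_product']
  refine sum_bij' (fun b _ => (rst b, pr2 b)) (fun p _ => jn p.1 p.2) ?_ ?_ ?_ ?_ ?_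
  · intro b hb
    rw [mem_TB] at hb
    rw [mem_product, mem_TB, mem_TB]
    refine ⟨fun i => ?_, fun j => hb _⟩
    rcases i with i | i <;> exact hb _
  · intro p hp
    rw [mem_product, mem_TB, mem_TB] at hp
    rw [mem_TB]
    rintro (i | j)
    · exact hp.1 (.inl i)
    · fin_cases j
      · exact hp.2 0
      · exact hp.2 1
      · exact hp.1 (.inr ())
  · intro b _
    exact jn_rst b
  · intro p _
    refine Prod.ext ?_ ?_
    · funext i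
      rcases i with i | i <;> rfl
    · funext i
      fin_cases i <;> rfl
  · intro p _
    rw [jn_rst]

/-- a multilinear form in the pieces outside the pair -/
theorem PF_split (h : ℝ → ℝ) {ι : Type} [Fintype ι] (X : ℕ) (L : (ι ⊕ Fin 3 → Eis) → ℂ)
    (r : ι ⊕ Unit → Pc) (p : Fin 2 → Pc) : PF h (TB (ι ⊕ Fin 3) X) L (jn r p) =
      PF h (TB (ι ⊕ Unit) X)
        (fun x => ∑ y ∈ TB (Fin 2) X, L (jn x y) * ∏ i, pc h (p i) (y i)) r := by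
  unfold PF
  rw [sum_TBj]
  refine sum_congr rfl fun x _ => ?_
  rw [sum_mul]
  refine sum_congr rfl fun y _ => ?_
  rw [pc_jn]
  ring

/-! ### the separation -/

/-- **separation of the lengths outside the pair for a second moment** -/
theorem sep_M2X {h : ℝ → ℝ} {c : ℝ} (hpu : PU h c) {R : ℝ} (hR0 : 0 ≤ R)
    (hR : ∀ u, cx h u ≠ 0 → |u| ≤ R) (M : ℝ) : ∃ C : ℝ, 0 ≤ C ∧
    ∀ (ι : Type) [Fintype ι] (r : ι ⊕ Unit → Pc) (p₁ p₂ : Fin 2 → Pc) (z w : ℂ) (u : Eis → ℝ),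
      (∀ k, 0 ≤ u k) → (Function.support u).Finite → ∀ (F : (ι ⊕ Fin 3 → Pc) → Eis → ℂ)
      (X : ℕ) (L : Eis → (ι ⊕ Fin 3 → Eis) → ℂ),
      (∀ i, (r i).Y * Real.exp (3 * R) ≤ X) → (∀ i, 0 < (r i).Y) →
      (∀ i, (p₁ i).Y * Real.exp R ≤ X) → (∀ i, 0 < (p₁ i).Y) →
      (∀ i, (p₂ i).Y * Real.exp R ≤ X) → (∀ i, 0 < (p₂ i).Y) →
      (∀ s : ι ⊕ Fin 3 → Pc, (∀ i, 0 < (s i).Y) → (∀ i, (s i).Y * Real.exp R ≤ X) →
        ∀ k, F s k = PF h (TB (ι ⊕ Fin 3) X) (L k) s) →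
      ∀ B : ℝ, 0 ≤ B →
      (∀ (n : ι ⊕ Unit → ℕ) (τ : ι ⊕ Unit → ℝ), (∀ i, |c * n i - Real.log (r i).Y| ≤ 2 * R) →
        M2 u (fun k => z * F (jn (reY r (fun i => Real.exp (c * n i))
            (fun i => (r i).t + τ i)) p₁) k +
          w * F (jn (reY r (fun i => Real.exp (c * n i)) (fun i => (r i).t + τ i)) p₂) k) ≤
          B * ∏ i, (1 + |τ i|) ^ M) →
      M2 u (fun k => z * F (jn r p₁) k + w * F (jn r p₂) k) ≤
        C ^ Fintype.card (ι ⊕ Unit) * B := by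
  obtain ⟨C, hC, key⟩ := sep_M2 hpu hR0 hR M
  refine ⟨C, hC, ?_⟩
  intro ι _ r p₁ p₂ z w u h0 hu F X L hX hY hp1 hp1' hp2 hp2' hF B hB hyp
  refine key (ι ⊕ Unit) r u h0 hu (fun r' k => z * F (jn r' p₁) k + w * F (jn r' p₂) k) X
    (fun k x => ∑ y ∈ TB (Fin 2) X, L k (jn x y) *
      (z * ∏ i, pc h (p₁ i) (y i) + w * ∏ i, pc h (p₂ i) (y i))) hX hY
    (fun Y t hY' hYX k => ?_) B hB hyp
  have hpos : ∀ p : Fin 2 → Pc, (∀ i, 0 < (p i).Y) → ∀ i, 0 < (jn (reY r Y t) p i).Y := by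
    intro p hp i
    rcases i with i | i
    · exact hY' (.inl i)
    · fin_cases i
      · exact hp 0
      · exact hp 1
      · exact hY' (.inr ())
  have hle : ∀ p : Fin 2 → Pc, (∀ i, (p i).Y * Real.exp R ≤ X) →
      ∀ i, (jn (reY r Y t) p i).Y * Real.exp R ≤ X := by
    intro p hp i
    rcases i with i | i
    · exact hYX (.inl i)
    · fin_cases i
      · exact hp 0
      · exact hp 1
      · exact hYX (.inr ())
  show z * F (jn (reY r Y t) p₁) k + w * F (jn (reY r Y t) p₂) k = _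
  rw [hF _ (hpos p₁ hp1') (hle p₁ hp1), hF _ (hpos p₂ hp2') (hle p₂ hp2), PF_split, PF_split]
  unfold PF
  rw [mul_sum, mul_sum, ← sum_add_distrib]
  refine sum_congr rfl fun x _ => ?_
  rw [sum_mul, sum_mul, sum_mul, mul_sum, mul_sum, ← sum_add_distrib]
  refine sum_congr rfl fun y _ => ?_
  ring

/-- a common size -/
lemma exists_XX {ι : Type} [Fintype ι] (r : ι ⊕ Unit → Pc) (p₁ p₂ : Fin 2 → Pc) {R : ℝ}
    (hR : 0 ≤ R) (hp₁ : ∀ i, 0 < (p₁ i).Y) (hp₂ : ∀ i, 0 < (p₂ i).Y) : ∃ X : ℕ,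
    (∀ i, (r i).Y * Real.exp (3 * R) ≤ X) ∧ (∀ i, (p₁ i).Y * Real.exp R ≤ X) ∧
      ∀ i, (p₂ i).Y * Real.exp R ≤ X := by
  obtain ⟨X0, h0⟩ := exists_X r R
  obtain ⟨X1, h1⟩ := exists_X p₁ R
  obtain ⟨X2, h2⟩ := exists_X p₂ R
  have e : Real.exp R ≤ Real.exp (3 * R) := Real.exp_le_exp.2 (by linarith)
  refine ⟨X0 + X1 + X2, fun i => (h0 i).trans ?_, fun i => ?_, fun i => ?_⟩
  · push_cast; linarith [Nat.cast_nonneg (α := ℝ) X1, Nat.cast_nonneg (α := ℝ) X2]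
  · refine (mul_le_mul_of_nonneg_left e (hp₁ i).le).trans ((h1 i).trans ?_)
    push_cast; linarith [Nat.cast_nonneg (α := ℝ) X0, Nat.cast_nonneg (α := ℝ) X2]
  · refine (mul_le_mul_of_nonneg_left e (hp₂ i).le).trans ((h2 i).trans ?_)
    push_cast; linarith [Nat.cast_nonneg (α := ℝ) X0, Nat.cast_nonneg (α := ℝ) X1]

lemma jn_OK {ι : Type*} {r : ι ⊕ Unit → Pc} {p : Fin 2 → Pc} (hr : ∀ i, (r i).OK)
    (hp : ∀ i, (p i).OK) (i : ι ⊕ Fin 3) : (jn r p i).OK := by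
  rcases i with i | i
  · exact hr (.inl i)
  · fin_cases i
    · exact hp 0
    · exact hp 1
    · exact hr (.inr ())

lemma reY_OK {J : Type} {s : J → Pc} (hs : ∀ i, (s i).OK) {Y t : J → ℝ} (hY : ∀ i, 0 < Y i)
    (i : J) : (reY s Y t i).OK := ⟨(hs i).ch, hY i⟩

/-- **the error of a combination**: lengths `≥ 1` outside the pair suffice -/
theorem er_sepX {h : ℝ → ℝ} {c : ℝ} (hpu : PU h c) {R : ℝ} (hR0 : 0 ≤ R)
    (hR : ∀ u, cx h u ≠ 0 → |u| ≤ R) (M : ℝ) : ∃ C : ℝ, 0 ≤ C ∧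
    ∀ (ι : Type) [Fintype ι] [DecidableEq ι] (r : ι ⊕ Unit → Pc) (p₁ p₂ : Fin 2 → Pc),
      (∀ i, (r i).OK) → (∀ i, (p₁ i).OK) → (∀ i, (p₂ i).OK) → ∀ (z w : ℂ)
      (a : ℂ) (E0 : ℝ) (W : Finset (Eis × Eis)), (∀ x ∈ W, x.1 ≠ 0) →
      ∀ (om : Eis × Eis → ℂ) (u : Eis → ℝ), (∀ k, 0 ≤ u k) → (Function.support u).Finite →
      ∀ B : ℝ, 0 ≤ B →
      (∀ (n : ι ⊕ Unit → ℕ) (τ : ι ⊕ Unit → ℝ), (∀ i, |c * n i - Real.log (r i).Y| ≤ 2 * R) →
        M2 u (Er a E0 W om (cmb z w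
          (sqc 1 (al h (jn (reY r (fun i => Real.exp (c * n i)) (fun i => (r i).t + τ i)) p₁)))
          (sqc 1 (al h (jn (reY r (fun i => Real.exp (c * n i)) (fun i => (r i).t + τ i)) p₂))))) ≤
          B * ∏ i, (1 + |τ i|) ^ M) →
      M2 u (Er a E0 W om (cmb z w (sqc 1 (al h (jn r p₁))) (sqc 1 (al h (jn r p₂))))) ≤
        C ^ Fintype.card (ι ⊕ Unit) * B := by
  obtain ⟨C, hC, key⟩ := sep_M2X hpu hR0 hR M
  refine ⟨C, hC, ?_⟩
  intro ι _ _ r p₁ p₂ hr hp₁ hp₂ z w a E0 W hW om u h0 hu B hB hyp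
  obtain ⟨X, hX, hX1, hX2⟩ := exists_XX r p₁ p₂ hR0 (fun i => (hp₁ i).Y0) fun i => (hp₂ i).Y0
  have e1 : ∀ r' : ι ⊕ Unit → Pc, (∀ i, (r' i).OK) →
      Er a E0 W om (cmb z w (sqc 1 (al h (jn r' p₁))) (sqc 1 (al h (jn r' p₂)))) =
      fun k => z * Er a E0 W om (sqc 1 (al h (jn r' p₁))) k +
        w * Er a E0 W om (sqc 1 (al h (jn r' p₂))) k := by
    intro r' hr'
    funext k
    exact Er_cmb (FS_sqc_al hR (jn_OK hr' hp₁) 1) (FS_sqc_al hR (jn_OK hr' hp₂) 1) z w a E0 hW om k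
  rw [e1 r hr]
  refine key ι r p₁ p₂ z w u h0 hu (fun s => Er a E0 W om (sqc 1 (al h s))) X
    (fun k b => Th 1 (∏ i, b i) * Er a E0 W om (dlt (∏ i, b i)) k) hX (fun i => (hr i).Y0) hX1
    (fun i => (hp₁ i).Y0) hX2 (fun i => (hp₂ i).Y0) (fun s hs hsX k => ?_) B hB fun n τ hn => ?_
  · refine Er_PF (fun i m hm => ?_) a E0 hW om k
    have h1 := supp_pc hR (hs i) hm
    exact_mod_cast h1.trans (hsX i)
  · have h1 := hyp n τ hn
    rw [e1 _ (reY_OK hr fun i => Real.exp_pos _)] at h1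
    exact h1

/-- **the mismatch of a combination**: lengths `≥ 1` outside the pair suffice -/
theorem mm_sepX {h : ℝ → ℝ} {c : ℝ} (hpu : PU h c) {R : ℝ} (hR0 : 0 ≤ R)
    (hR : ∀ u, cx h u ≠ 0 → |u| ≤ R) (M : ℝ) : ∃ C : ℝ, 0 ≤ C ∧
    ∀ (ι : Type) [Fintype ι] [DecidableEq ι] (r : ι ⊕ Unit → Pc) (p₁ p₂ : Fin 2 → Pc),
      (∀ i, (r i).OK) → (∀ i, (p₁ i).OK) → (∀ i, (p₂ i).OK) → ∀ (z w : ℂ)
      (E0 Z : ℝ), 0 ≤ Z → ∀ (W : Finset (Eis × Eis)), (∀ x ∈ W, x.1 ≠ 0) →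
      ∀ (o : Eis → ℂ) (g : Eis) (u : Eis → ℝ), (∀ k, 0 ≤ u k) → (Function.support u).Finite →
      ∀ B : ℝ, 0 ≤ B →
      (∀ (n : ι ⊕ Unit → ℕ) (τ : ι ⊕ Unit → ℝ), (∀ i, |c * n i - Real.log (r i).Y| ≤ 2 * R) →
        M2 u (Mm W E0 Z o g
          (sqc 1 (al h fun i => reY r (fun i => Real.exp (c * n i)) (fun i => (r i).t + τ i)
            (.inl i)))
          (cmb z w
            (sqc 1 (al h fun j => jn (reY r (fun i => Real.exp (c * n i))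
              (fun i => (r i).t + τ i)) p₁ (.inr j)))
            (sqc 1 (al h fun j => jn (reY r (fun i => Real.exp (c * n i))
              (fun i => (r i).t + τ i)) p₂ (.inr j))))) ≤ B * ∏ i, (1 + |τ i|) ^ M) →
      M2 u (Mm W E0 Z o g (sqc 1 (al h fun i => r (.inl i)))
        (cmb z w (sqc 1 (al h fun j => jn r p₁ (.inr j)))
          (sqc 1 (al h fun j => jn r p₂ (.inr j))))) ≤ C ^ Fintype.card (ι ⊕ Unit) * B := by
  obtain ⟨C, hC, key⟩ := sep_M2X hpu hR0 hR M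
  refine ⟨C, hC, ?_⟩
  intro ι _ _ r p₁ p₂ hr hp₁ hp₂ z w E0 Z hZ W hW o g u h0 hu B hB hyp
  obtain ⟨X, hX, hX1, hX2⟩ := exists_XX r p₁ p₂ hR0 (fun i => (hp₁ i).Y0) fun i => (hp₂ i).Y0
  set F : (ι ⊕ Fin 3 → Pc) → Eis → ℂ := fun s =>
    Mm W E0 Z o g (sqc 1 (al h fun i => s (.inl i))) (sqc 1 (al h fun j => s (.inr j))) with hF
  have e1 : ∀ r' : ι ⊕ Unit → Pc, (∀ i, (r' i).OK) →
      Mm W E0 Z o g (sqc 1 (al h fun i => r' (.inl i)))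
        (cmb z w (sqc 1 (al h fun j => jn r' p₁ (.inr j)))
          (sqc 1 (al h fun j => jn r' p₂ (.inr j)))) =
      fun k => z * F (jn r' p₁) k + w * F (jn r' p₂) k := by
    intro r' hr'
    funext k
    exact Mm_cmb (FS_sqc_al hR (fun j => jn_OK hr' hp₁ (.inr j)) 1)
      (FS_sqc_al hR (fun j => jn_OK hr' hp₂ (.inr j)) 1) z w hW hZ E0 o g _ k
  rw [e1 r hr]
  refine key ι r p₁ p₂ z w u h0 hu F X
    (fun k b => Th 1 (∏ i, b (.inl i)) * Th 1 (∏ j, b (.inr j)) *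
        Mm W E0 Z o g (dlt (∏ i, b (.inl i))) (dlt (∏ j, b (.inr j))) k) hX
    (fun i => (hr i).Y0) hX1
    (fun i => (hp₁ i).Y0) hX2 (fun i => (hp₂ i).Y0) (fun s hs hsX k => ?_) B hB fun n τ hn => ?_
  · refine Mm_PF (s := s) (fun i m hm => ?_) hW hZ E0 o g k
    have h1 := supp_pc hR (hs i) hm
    exact_mod_cast h1.trans (hsX i)
  · have h1 := hyp n τ hn
    rw [e1 _ (reY_OK hr fun i => Real.exp_pos _)] at h1
    exact h1

end Crest.Agent.R017.P1X960
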