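import Crest.Agent.R017.P1l_54

/-!
# Row 17, R8/P1 at list level, part 8 (helper54): the inputs at a child

* `near_pt` : a point of the domain near the exponents of a child
* `use8`, `use9` : `P10`, `P1M` at a child
-/

set_option autoImplicit false

noncomputable section

open Finset
open scoped ComplexConjugate

namespace Crest.Agent.R017.P1n54

open Crest.Agent.R012 Crest.Agent.R012.Eis
open Crest.Agent.R017.B770 Crest.Agent.R017.Prov71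
open Crest.Agent.R017.XG702 (Pcs)
open Crest.Agent.R017.XT71 (Sys Win mx mx_le)
open Crest.Agent.R017.UM71
open Crest.Agent.R017.E5B71 Crest.Agent.R017.E5L770
open Crest.Agent.R017.P1l54

/-! ### real lemma -/

theorem near_pt {κ x δ m γ : ℝ} {u z : Fin 3 → ℝ} (hδ : 0 ≤ δ) (hδ1 : 60 * δ ≤ 1)
    (hκ0 : 8 / 9 ≤ κ) (hu0 : ∀ i, 0 ≤ u i) (hN0 : 3 / 5 * κ ≤ ∑ i, u i) (hN1 : ∑ i, u i ≤ 1)
    (hx0 : 0 ≤ x) (hz0 : ∀ i, 0 ≤ z i) (hz : ∀ i, z i ≤ u i + δ) (hm0 : 0 ≤ m) (hm : m ≤ x + δ)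
    (hγ0 : 0 ≤ γ) (hγ : γ ≤ m + δ) (hs : κ / 2 ≤ ∑ i, z i + m - 2 * γ + 2 * x + δ) :
    ∃ (v : Fin 3 → ℝ) (m' γ' : ℝ), (∀ i, 0 ≤ v i ∧ v i ≤ u i) ∧ (0 ≤ m' ∧ m' ≤ x) ∧
      (0 ≤ γ' ∧ γ' ≤ m') ∧ κ / 2 ≤ ∑ i, v i + m' - 2 * γ' + 2 * x ∧
      (∀ i, |z i - v i| ≤ 80 * δ) ∧ |m - m'| ≤ 80 * δ ∧ |γ - γ'| ≤ 80 * δ ∧
      ∑ i, v i + m' - 2 * γ' ≤ ∑ i, z i + m - 2 * γ + 300 * δ ∧ (γ = 0 → γ' = 0) := by
  rw [Fin.sum_univ_three] at hN0 hN1 hs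
  have a0 := hu0 0
  have a1 := hu0 1
  have a2 := hu0 2
  have b0 := hz0 0
  have b1 := hz0 1
  have b2 := hz0 2
  have c0 := hz 0
  have c1 := hz 1
  have c2 := hz 2
  set v0 : Fin 3 → ℝ := fun i => min (z i) (u i) with hv0
  have d1 : ∀ i, v0 i ≤ z i := fun i => min_le_left _ _
  have d2 : ∀ i, v0 i ≤ u i := fun i => min_le_right _ _
  have d3 : ∀ i, z i - δ ≤ v0 i := fun i => le_min (by linarith) (by linarith [hz i])
  have d4 : ∀ i, 0 ≤ v0 i := fun i => le_min (hz0 i) (hu0 i)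
  set m' : ℝ := min m x with hm'
  have e1 : m' ≤ m := min_le_left _ _
  have e2 : m' ≤ x := min_le_right _ _
  have e3 : m - δ ≤ m' := le_min (by linarith) (by linarith)
  have e4 : 0 ≤ m' := le_min hm0 hx0
  set γ' : ℝ := min γ m' with hγ'
  have f1 : γ' ≤ γ := min_le_left _ _
  have f2 : γ' ≤ m' := min_le_right _ _
  have f3 : γ - 2 * δ ≤ γ' := le_min (by linarith) (by linarith)
  have f4 : 0 ≤ γ' := le_min hγ0 e4
  set θ : ℝ := 60 * δ with hθ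
  have t0 : 0 ≤ θ := by positivity
  have g0 : ∀ i, 0 ≤ θ * (u i - v0 i) := fun i => mul_nonneg t0 (by linarith [d2 i])
  have g1 : ∀ i, θ * (u i - v0 i) ≤ u i - v0 i := fun i =>
    mul_le_of_le_one_left (by linarith [d2 i]) hδ1
  have hui : ∀ i, u i ≤ 1 := by
    intro i
    fin_cases i
    · show u 0 ≤ 1; linarith
    · show u 1 ≤ 1; linarith
    · show u 2 ≤ 1; linarith
  have g2 : ∀ i, θ * (u i - v0 i) ≤ 60 * δ := fun i => by
    calc θ * (u i - v0 i) ≤ θ * 1 := mul_le_mul_of_nonneg_left (by linarith [hui i, d4 i]) t0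
      _ = 60 * δ := by rw [hθ]; ring
  refine ⟨fun i => v0 i + θ * (u i - v0 i), m', γ', fun i => ⟨by linarith [g0 i, d4 i],
    by linarith [g1 i]⟩, ⟨e4, e2⟩, ⟨f4, f2⟩, ?_, fun i => ?_, ?_, ?_, ?_, fun h => ?_⟩
  · rw [Fin.sum_univ_three]
    have p0 := g0 0
    have p1 := g0 1
    have p2 := g0 2
    have q0 := d3 0
    have q1 := d3 1
    have q2 := d3 2
    rcases le_total (κ / 2) (v0 0 + v0 1 + v0 2) with h1 | h1
    · linarith
    · have h2 : θ * (κ / 10) ≤ θ * ((u 0 - v0 0) + (u 1 - v0 1) + (u 2 - v0 2)) :=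
        mul_le_mul_of_nonneg_left (by linarith) t0
      have h3 : 5 * δ ≤ θ * (κ / 10) := by
        rw [hθ]
        nlinarith
      have h4 : θ * ((u 0 - v0 0) + (u 1 - v0 1) + (u 2 - v0 2)) =
        θ * (u 0 - v0 0) + θ * (u 1 - v0 1) + θ * (u 2 - v0 2) := by ring
      linarith
  · rw [abs_le]
    have := g0 i
    have := g2 i
    constructor <;> linarith [d1 i, d3 i]
  · rw [abs_le]
    constructor <;> linarith
  · rw [abs_le]
    constructor <;> linarith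
  · rw [Fin.sum_univ_three, Fin.sum_univ_three]
    have p0 := g2 0
    have p1 := g2 1
    have p2 := g2 2
    have q0 := d1 0
    have q1 := d1 1
    have q2 := d1 2
    linarith
  · rw [hγ', h]
    exact min_eq_left e4

/-! ### lists of amplifier pieces -/

/-- total length -/
def tlen (ps : List Pq) : ℝ := (ps.map fun p => p.z).sum

lemma mass_am {X : ℝ} : ∀ {ps : List Pq}, (∀ p ∈ ps, p.kd = .am) →
    Dq.mass X ps .am = tlen ps / Real.log X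
  | [], _ => by simp [tlen]
  | p :: ps, h => by
      rw [Pcs.mass_cons, mass_am (X := X) fun q hq => h q (List.mem_cons_of_mem _ hq)]
      have h1 : Dq.kind p = .am := h p List.mem_cons_self
      rw [if_pos h1]
      unfold tlen Pcs.nl
      rw [List.map_cons, List.sum_cons, add_div]
      rfl

lemma mass_mo {X : ℝ} : ∀ {ps : List Pq}, (∀ p ∈ ps, p.kd = .am) → Dq.mass X ps .mo = 0
  | [], _ => by simp
  | p :: ps, h => by
      rw [Pcs.mass_cons, mass_mo (X := X) fun q hq => h q (List.mem_cons_of_mem _ hq)]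
      have h1 : Dq.kind p = .am := h p List.mem_cons_self
      rw [h1, if_neg (by decide), add_zero]

lemma tlen_nonneg {ps : List Pq} (h : ∀ p ∈ ps, 0 ≤ p.z) : 0 ≤ tlen ps :=
  List.sum_nonneg fun x hx => by
    obtain ⟨p, hp, rfl⟩ := List.mem_map.1 hx
    exact h p hp

/-- the data of a child: lumps `vs`, amplifier pieces `qs` -/
structure Chi (p : Fin 3 ⊕ Fin 5 → ℝ) (X δ δ₁ ρ₁ B₁ : ℝ) (N : ℕ) (a : Bd) (vs : Fin 3 → Pq)
    (qs : List Pq) : Prop where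
  lump : ∀ j, Dq.lump (vs j)
  z0 : ∀ j, 0 ≤ (vs j).z
  z1 : ∀ j : Fin 3, (vs j).z ≤ (a.us (Fin.natAdd 2 j)).z + δ * Real.log X
  s1 : ∀ j, 1 + |(vs j).t| ≤ X ^ ρ₁
  s2 : ∀ j, (nm (vs j).d : ℝ) ≤ X ^ B₁
  am : ∀ q ∈ qs, q.kd = .am
  y0 : ∀ q ∈ qs, 0 ≤ q.z
  y1 : ∀ q ∈ qs, q.z ≤ δ₁ * Real.log X
  t1 : ∀ q ∈ qs, 1 + |q.t| ≤ X ^ ρ₁
  t2 : ∀ q ∈ qs, (nm q.d : ℝ) ≤ X ^ B₁
  len : qs.length ≤ N
  tot : tlen qs ≤ (cx' p + 4 * δ) * Real.log X

section use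

variable {Par : Set (Fin 3 ⊕ Fin 5 → ℝ)} {L0 : (Fin 3 ⊕ Fin 5 → ℝ) → ℝ}
  {p : Fin 3 ⊕ Fin 5 → ℝ} {X δ δ₁ ρ ρ₁ B B₁ ε₁ : ℝ} {N : ℕ} {a : Bd} {vs : Fin 3 → Pq}
  {qs : List Pq}

lemma win_S8 (hX : 1 < X) (hδ : 320 * δ ≤ δ₁) (hδ0 : 0 ≤ δ) (hρ : ρ ≤ ρ₁) (hρ₁ : 0 ≤ ρ₁)
    (hB : B ≤ B₁) (hB₁ : 0 ≤ B₁) (hw : Win S5 p δ N B ρ X a)
    (hc : Chi p X δ δ₁ ρ₁ B₁ N a vs qs) {v : Fin 3 → ℝ}
    (hv : ∀ i, |(vs i).z / Real.log X - v i| ≤ 320 * δ) :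
    Win S8 (Sum.elim p v) δ₁ N B₁ ρ₁ X (a, vs) := by
  have hδ1 : δ ≤ δ₁ := by linarith
  refine ⟨fun i => ?_, ?_, ?_, ?_, ?_⟩
  · rcases i with i | i
    · exact (hw.ev i).trans hδ1
    · exact (hv i).trans hδ
  · show (1 : ℝ) ≤ X ^ δ₁
    exact Real.one_le_rpow hX.le (by linarith)
  · exact Nat.zero_le _
  · refine max_le (hw.s₁.trans (Real.rpow_le_rpow_of_exponent_le hX.le hρ)) ?_
    rw [mx_le (Real.one_le_rpow hX.le hρ₁)]
    intro q hq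
    obtain ⟨j, rfl⟩ := (List.mem_ofFn' _ _).1 hq
    exact hc.s1 j
  · refine max_le (hw.s₂.trans (Real.rpow_le_rpow_of_exponent_le hX.le hB)) ?_
    rw [mx_le (Real.one_le_rpow hX.le hB₁)]
    intro q hq
    obtain ⟨j, rfl⟩ := (List.mem_ofFn' _ _).1 hq
    exact hc.s2 j

lemma near_of (hX : 1 < X) (hδ0 : 0 ≤ δ) (hδ1 : 240 * δ ≤ 1) (hp : ParOK p)
    (hw : Win S5 p δ N B ρ X a) (hc : Chi p X δ δ₁ ρ₁ B₁ N a vs qs) {G : ℝ} (hG0 : 0 ≤ G)
    (hG : G ≤ tlen qs + 4 * δ * Real.log X)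
    (hs : cκ p / 2 * Real.log X ≤ ∑ j, (vs j).z + tlen qs - 2 * G +
      (2 * cx' p + 4 * δ) * Real.log X) :
    ∃ (v : Fin 3 → ℝ) (m' γ' : ℝ), (∀ i, 0 ≤ v i ∧ v i ≤ cu p (Fin.natAdd 2 i)) ∧
      (0 ≤ m' ∧ m' ≤ cx' p) ∧ (0 ≤ γ' ∧ γ' ≤ m') ∧
      cκ p / 2 ≤ ∑ i, v i + m' - 2 * γ' + 2 * cx' p ∧
      (∀ i, |(vs i).z / Real.log X - v i| ≤ 320 * δ) ∧ |tlen qs / Real.log X - m'| ≤ 320 * δ ∧
      |G / Real.log X - γ'| ≤ 320 * δ ∧
      (∑ i, v i + m' - 2 * γ') * Real.log X ≤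
        ∑ j, (vs j).z + tlen qs - 2 * G + 1200 * δ * Real.log X ∧ (G = 0 → γ' = 0) := by
  have hL : 0 < Real.log X := Real.log_pos hX
  have hq0 : 0 ≤ tlen qs := tlen_nonneg hc.y0
  obtain ⟨v, m', γ', h1, h2, h3, h4, h5, h6, h7, h8, h9⟩ := near_pt (κ := cκ p) (x := cx' p)
    (δ := 4 * δ) (m := tlen qs / Real.log X) (γ := G / Real.log X)
    (u := fun i => cu p (Fin.natAdd 2 i)) (z := fun i => (vs i).z / Real.log X)
    (by linarith) (by linarith) hp.κ0 (fun i => hp.u0 _)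
    (by rw [Fin.sum_univ_three]; exact hp.N0) (by rw [Fin.sum_univ_three]; exact hp.N1) hp.x0
    (fun i => div_nonneg (hc.z0 i) hL.le) (fun i => by
      have e1 := hc.z1 i
      have e2 : Dq.nl X (a.us (Fin.natAdd 2 i)) ≤ cu p (Fin.natAdd 2 i) + δ := by
        have := (abs_le.1 (hw.ev (.inr (Fin.natAdd 2 i)))).2
        have e3 : S5.ev X a (.inr (Fin.natAdd 2 i)) = Dq.nl X (a.us (Fin.natAdd 2 i)) := rfl
        rw [e3] at this
        unfold cu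
        linarith
      have e4 : (vs i).z / Real.log X ≤ Dq.nl X (a.us (Fin.natAdd 2 i)) + δ := by
        rw [div_le_iff₀ hL]
        have e5 : Dq.nl X (a.us (Fin.natAdd 2 i)) * Real.log X = (a.us (Fin.natAdd 2 i)).z := by
          unfold Pcs.nl
          exact div_mul_cancel₀ _ hL.ne'
        rw [add_mul, e5]
        exact e1
      linarith) (div_nonneg hq0 hL.le) (by
      rw [div_le_iff₀ hL]; exact hc.tot) (div_nonneg hG0 hL.le) (by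
      rw [div_le_iff₀ hL, add_mul, div_mul_cancel₀ _ hL.ne']
      exact hG) (by
      rw [← Finset.sum_div]
      rw [← sub_nonneg]
      have e1 : (∑ i, (vs i).z) / Real.log X + tlen qs / Real.log X - 2 * (G / Real.log X) +
          2 * cx' p + 4 * δ - cκ p / 2 = (∑ j, (vs j).z + tlen qs - 2 * G +
          (2 * cx' p + 4 * δ) * Real.log X - cκ p / 2 * Real.log X) / Real.log X := by
        field_simp
        ring
      rw [e1]
      exact div_nonneg (by linarith) hL.le)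
  refine ⟨v, m', γ', h1, h2, h3, h4, fun i => (h5 i).trans (by linarith), h6.trans (by linarith),
    h7.trans (by linarith), ?_, fun h => h9 (by rw [h, zero_div])⟩
  have e2 : (∑ i, (vs i).z / Real.log X + tlen qs / Real.log X - 2 * (G / Real.log X) +
      300 * (4 * δ)) * Real.log X = ∑ j, (vs j).z + tlen qs - 2 * G +
        1200 * δ * Real.log X := by
    rw [← Finset.sum_div]
    field_simp
    ring
  rw [← e2]
  exact mul_le_mul_of_nonneg_right h8 hL.le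

/-- **`P1_0` at a child** -/
theorem use8 {Ψ : Bc → List Pq → ℝ} (hX : 1 < X) (hδ0 : 0 ≤ δ) (hδ1 : 240 * δ ≤ 1)
    (hδ : 320 * δ ≤ δ₁) (hρ : ρ ≤ ρ₁) (hρ₁ : 0 ≤ ρ₁) (hB : B ≤ B₁) (hB₁ : 0 ≤ B₁)
    (H : ∀ (a : Bc) (ps : List Pq), ps.length ≤ N →
      (∀ p ∈ ps, Dq.lump p ∨ Dq.nl X p ≤ δ₁) → ∀ q ∈ Dom8 Par, Win S8 q.1 δ₁ N B₁ ρ₁ X a →
      (∀ t, |Dq.mass X ps t - q.2 t| ≤ δ₁) → Dq.Good X ρ₁ B₁ ps →
      (∀ p ∈ ps, Dq.lump p → (S8.ev X a, Dq.nl X p) ∈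
        (∅ : Set (((Fin 3 ⊕ Fin 5) ⊕ Fin 3 → ℝ) × ℝ))) → Ψ a ps ≤ X ^ (E8 L0 q + ε₁))
    (hPar : p ∈ Par) (hp : ParOK p) (hw : Win S5 p δ N B ρ X a)
    (hc : Chi p X δ δ₁ ρ₁ B₁ N a vs qs)
    (hs : cκ p / 2 * Real.log X ≤ ∑ j, (vs j).z + tlen qs + (2 * cx' p + 4 * δ) * Real.log X) :
    Ψ (a, vs) qs ≤ X ^ (cκ p + L0 p + ε₁ + 1200 * δ) * Real.exp (∑ j, (vs j).z + tlen qs) := by
  have hL : 0 < Real.log X := Real.log_pos hX
  have hX0 : 0 < X := by linarith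
  obtain ⟨v, m', γ', h1, h2, h3, h4, h5, h6, -, h8, h9⟩ := near_of hX hδ0 hδ1 hp hw hc
    (G := 0) le_rfl (by have := tlen_nonneg hc.y0; positivity) (by linarith)
  have hγ := h9 rfl
  subst hγ
  have hk := H (a, vs) qs hc.len (fun q hq => Or.inr (by
    show q.z / Real.log X ≤ δ₁
    rw [div_le_iff₀ hL]; exact hc.y1 q hq))
    (Sum.elim p v, fun t => match t with | .mo => 0 | .am => m')
    ⟨hPar, fun i => h1 i, rfl, h2.1, h2.2, by
      show cκ p / 2 ≤ ∑ i, v i + m' + 2 * cx' p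
      linarith⟩
    (win_S8 hX hδ hδ0 hρ hρ₁ hB hB₁ hw hc h5) (fun t => by
      cases t with
      | mo =>
        rw [mass_mo hc.am]
        show |(0 : ℝ) - 0| ≤ δ₁
        rw [sub_zero, abs_zero]; linarith
      | am =>
        rw [mass_am hc.am]
        exact h6.trans hδ) (fun q hq => ⟨hc.t1 q hq, hc.t2 q hq, hc.y0 q hq⟩)
    (fun q hq hl => by
      exfalso
      have e1 := hc.am q hq
      have e2 : q.kd = .mo := hl.1
      rw [e1] at e2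
      cases e2)
  refine hk.trans ?_
  rw [← Real.exp_log hX0, ← Real.exp_mul, ← Real.exp_mul, ← Real.exp_add]
  refine Real.exp_le_exp.2 ?_
  have e8 : E8 L0 (Sum.elim p v, fun t => match t with | .mo => 0 | .am => m') =
      cκ p + ∑ i, v i + m' + L0 p := rfl
  rw [e8]
  nlinarith [h8]

/-- **the mismatch at a child** -/
theorem use9 {Ψ : Bm → List Pq → ℝ} (hX : 1 < X) (hδ0 : 0 ≤ δ) (hδ1 : 240 * δ ≤ 1)
    (hδ : 320 * δ ≤ δ₁) (hρ : ρ ≤ ρ₁) (hρ₁ : 0 ≤ ρ₁) (hB : B ≤ B₁) (hB₁ : 0 ≤ B₁)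
    (H : ∀ (a : Bm) (ps : List Pq), ps.length ≤ N →
      (∀ p ∈ ps, Dq.lump p ∨ Dq.nl X p ≤ δ₁) → ∀ q ∈ Dom9 Par, Win S9 q.1 δ₁ N B₁ ρ₁ X a →
      (∀ t, |Dq.mass X ps t - q.2 t| ≤ δ₁) → Dq.Good X ρ₁ B₁ ps →
      (∀ p ∈ ps, Dq.lump p → (S9.ev X a, Dq.nl X p) ∈
        (∅ : Set ((((Fin 3 ⊕ Fin 5) ⊕ Fin 3) ⊕ Fin 2 → ℝ) × ℝ))) → Ψ a ps ≤ X ^ (E9 L0 q + ε₁))
    (hPar : p ∈ Par) (hp : ParOK p) (hw : Win S5 p δ N B ρ X a)
    (hc : Chi p X δ δ₁ ρ₁ B₁ N a vs qs) {g : Eis} (hg : g ≠ 0) {ζ : ℝ}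
    (hζ : |ζ - cx' p * Real.log X| ≤ δ₁ * Real.log X)
    (hG : Real.log (nm g) ≤ tlen qs + 4 * δ * Real.log X)
    (hs : cκ p / 2 * Real.log X ≤ ∑ j, (vs j).z + tlen qs - 2 * Real.log (nm g) +
      (2 * cx' p + 4 * δ) * Real.log X) :
    Ψ ((a, vs), g, ζ) qs ≤ X ^ (cκ p + L0 p + ε₁ + 1200 * δ) *
      Real.exp (∑ j, (vs j).z + tlen qs - 2 * Real.log (nm g)) := by
  have hL : 0 < Real.log X := Real.log_pos hX
  have hX0 : 0 < X := by linarith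
  have hG0 : 0 ≤ Real.log (nm g) := Real.log_nonneg (by exact_mod_cast nm_pos.2 hg)
  obtain ⟨v, m', γ', h1, h2, h3, h4, h5, h6, h7, h8, -⟩ := near_of hX hδ0 hδ1 hp hw hc
    hG0 hG hs
  have hW8 := win_S8 hX hδ hδ0 hρ hρ₁ hB hB₁ hw hc h5
  have hk := H ((a, vs), g, ζ) qs hc.len (fun q hq => Or.inr (by
    show q.z / Real.log X ≤ δ₁
    rw [div_le_iff₀ hL]; exact hc.y1 q hq))
    (Sum.elim (Sum.elim p v) ![γ', cx' p], fun t => match t with | .mo => 0 | .am => m')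
    ⟨hPar, fun i => h1 i, rfl, h2.1, h2.2, h3.1, h3.2, rfl, by
      show cκ p / 2 ≤ ∑ i, v i + m' - 2 * γ' + 2 * cx' p
      exact h4⟩
    ⟨fun i => by
      rcases i with i | i
      · exact hW8.ev i
      · fin_cases i
        · exact h7.trans hδ
        · show |ζ / Real.log X - cx' p| ≤ δ₁
          have e1 : ζ / Real.log X - cx' p = (ζ - cx' p * Real.log X) / Real.log X := by
            field_simp
          rw [e1, abs_div, abs_of_pos hL, div_le_iff₀ hL]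
          exact hζ, hW8.g, hW8.n, hW8.s₁, hW8.s₂⟩ (fun t => by
      cases t with
      | mo =>
        rw [mass_mo hc.am]
        show |(0 : ℝ) - 0| ≤ δ₁
        rw [sub_zero, abs_zero]; linarith
      | am =>
        rw [mass_am hc.am]
        exact h6.trans hδ) (fun q hq => ⟨hc.t1 q hq, hc.t2 q hq, hc.y0 q hq⟩)
    (fun q hq hl => by
      exfalso
      have e1 := hc.am q hq
      have e2 : q.kd = .mo := hl.1
      rw [e1] at e2
      cases e2)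
  refine hk.trans ?_
  rw [← Real.exp_log hX0, ← Real.exp_mul, ← Real.exp_mul, ← Real.exp_add]
  refine Real.exp_le_exp.2 ?_
  have e8 : E9 L0 (Sum.elim (Sum.elim p v) ![γ', cx' p],
      fun t => match t with | .mo => 0 | .am => m') =
      cκ p + ∑ i, v i + m' - 2 * γ' + L0 p := rfl
  rw [e8]
  nlinarith [h8]

end use

end Crest.Agent.R017.P1n54
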