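import Crest.Agent.R017.P1X3_960
import Crest.Agent.R017.P1n_54

/-!
# Row 17, exceptional class, P1X, part 5 (helper960): the inputs at a child

* `adj`, `pt8`, `pt9` : a point of the domain near the exponents of a child
* `use8X`, `use9X` : `P10X` / `P10S`, `P1MX` / `P1MS` at a child
-/

set_option autoImplicit false

noncomputable section

open Finset
open scoped ComplexConjugate

namespace Crest.Agent.R017.P1X960

open Crest.Agent.R012 Crest.Agent.R012.Eis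
open Crest.Agent.R017.B770 Crest.Agent.R017.Prov71
open Crest.Agent.R017.XG702 (Pcs)
open Crest.Agent.R017.XT71 (Sys Win mx mx_le)
open Crest.Agent.R017.UM71
open Crest.Agent.R017.E5B71 Crest.Agent.R017.E5L770
open Crest.Agent.R017.ExP960
open Crest.Agent.R017.P1n54 (tlen mass_am mass_mo tlen_nonneg)

/-! ### real lemmas -/

theorem adj {u v₀ : Fin 3 → ℝ} (h0 : ∀ i, 0 ≤ v₀ i) (h1 : ∀ i, v₀ i ≤ u i) {lo hi e : ℝ}
    (hlo : lo ≤ hi) (hhi : hi ≤ ∑ i, u i) (hhi0 : 0 ≤ hi) (he : 0 ≤ e)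
    (a1 : lo - e ≤ ∑ i, v₀ i) (a2 : ∑ i, v₀ i ≤ hi + e) :
    ∃ v : Fin 3 → ℝ, (∀ i, 0 ≤ v i) ∧ (∀ i, v i ≤ u i) ∧ lo ≤ ∑ i, v i ∧ ∑ i, v i ≤ hi ∧
      (∀ i, |v i - v₀ i| ≤ e) ∧ (∑ i, v₀ i ≤ hi → ∀ i, v₀ i ≤ v i) := by
  have hle : ∀ i, v₀ i ≤ ∑ i, v₀ i := fun i =>
    single_le_sum (f := v₀) (fun j _ => h0 j) (mem_univ i)
  have hud : ∀ i, u i - v₀ i ≤ ∑ i, u i - ∑ i, v₀ i := fun i => by
    rw [← sum_sub_distrib]
    exact single_le_sum (f := fun i => u i - v₀ i) (fun j _ => sub_nonneg.2 (h1 j)) (mem_univ i)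
  set S := ∑ i, v₀ i with hS
  set U := ∑ i, u i with hU
  rcases lt_or_ge S lo with h | h
  · have hUS : 0 < U - S := by linarith
    set θ := (lo - S) / (U - S) with hθ
    have t0 : 0 ≤ θ := div_nonneg (by linarith) hUS.le
    have t1 : θ ≤ 1 := by rw [hθ, div_le_one hUS]; linarith
    have t2 : θ * (U - S) = lo - S := by rw [hθ]; field_simp
    have hsum : ∑ i, (v₀ i + θ * (u i - v₀ i)) = lo := by
      rw [sum_add_distrib, ← mul_sum, sum_sub_distrib, ← hS, ← hU, t2]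
      ring
    have hstep : ∀ i, 0 ≤ θ * (u i - v₀ i) := fun i => mul_nonneg t0 (by linarith [h1 i])
    refine ⟨fun i => v₀ i + θ * (u i - v₀ i), fun i => by linarith [h0 i, hstep i], fun i => ?_,
      hsum.ge, hsum.le.trans hlo, fun i => ?_, fun _ i => by linarith [hstep i]⟩
    · have := mul_le_mul_of_nonneg_right t1 (sub_nonneg.2 (h1 i))
      show v₀ i + θ * (u i - v₀ i) ≤ u i
      linarith
    · rw [add_sub_cancel_left, abs_of_nonneg (hstep i)]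
      have := mul_le_mul_of_nonneg_left (hud i) t0
      linarith
  · rcases le_or_gt S hi with h' | h'
    · exact ⟨v₀, h0, h1, h, h', fun i => by rw [sub_self, abs_zero]; exact he, fun _ i => le_rfl⟩
    · have hS0 : 0 < S := by linarith
      set μ := hi / S with hμ
      have t0 : 0 ≤ μ := div_nonneg hhi0 hS0.le
      have t1 : μ ≤ 1 := by rw [hμ, div_le_one hS0]; exact h'.le
      have t2 : μ * S = hi := by rw [hμ]; field_simp
      have hsum : ∑ i, μ * v₀ i = hi := by rw [← mul_sum, ← hS, t2]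
      refine ⟨fun i => μ * v₀ i, fun i => mul_nonneg t0 (h0 i), fun i => ?_,
        hlo.trans hsum.ge, hsum.le, fun i => ?_, fun h9 => absurd h9 (not_le.2 h')⟩
      · exact (mul_le_of_le_one_left (h0 i) t1).trans (h1 i)
      · have e1 : μ * v₀ i - v₀ i = -((1 - μ) * v₀ i) := by ring
        rw [e1, abs_neg, abs_of_nonneg (mul_nonneg (by linarith) (h0 i))]
        have := mul_le_mul_of_nonneg_left (hle i) (sub_nonneg.2 t1)
        nlinarith

/-- cut to the box -/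
theorem cutv {u z : Fin 3 → ℝ} {δ D : ℝ} (hδ : 0 ≤ δ) (hu : ∀ i, 0 ≤ u i) (hz0 : ∀ i, 0 ≤ z i)
    (hz : ∀ i, z i ≤ u i + δ) (hD : D ≤ u 0) (hDz : D - δ ≤ z 0) :
    ∃ v₀ : Fin 3 → ℝ, (∀ i, 0 ≤ v₀ i) ∧ (∀ i, v₀ i ≤ u i) ∧ D ≤ v₀ 0 ∧ ∀ i, |z i - v₀ i| ≤ δ := by
  refine ⟨![max (min (z 0) (u 0)) D, min (z 1) (u 1), min (z 2) (u 2)], ?_, ?_, le_max_right _ _,
    ?_⟩
  · intro i
    fin_cases i
    · exact le_max_of_le_left (le_min (hz0 0) (hu 0))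
    · exact le_min (hz0 1) (hu 1)
    · exact le_min (hz0 2) (hu 2)
  · intro i
    fin_cases i
    · exact max_le (min_le_right _ _) hD
    · exact min_le_right _ _
    · exact min_le_right _ _
  · have key : ∀ i, |z i - min (z i) (u i)| ≤ δ := by
      intro i
      rw [abs_le]
      have h1 := min_le_left (z i) (u i)
      have h2 : z i - δ ≤ min (z i) (u i) := le_min (by linarith) (by linarith [hz i])
      constructor <;> linarith
    intro i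
    fin_cases i
    · show |z 0 - max (min (z 0) (u 0)) D| ≤ δ
      have h1 := abs_le.1 (key 0)
      rw [abs_le]
      have h2 := le_max_left (min (z 0) (u 0)) D
      have h3 : max (min (z 0) (u 0)) D ≤ z 0 + δ :=
        max_le ((min_le_left _ _).trans (by linarith)) (by linarith)
      constructor <;> linarith
    · exact key 1
    · exact key 2

/-- **a point near a child** -/
theorem pt8 {κ x δ m b t s D : ℝ} {u z : Fin 3 → ℝ} (hδ : 0 ≤ δ) (hu : ∀ i, 0 ≤ u i)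
    (hx : 0 ≤ x) (hs0 : 0 ≤ s) (hsN : κ / 2 + s ≤ ∑ i, u i) (hκ : 0 ≤ κ) (hst : s ≤ t)
    (hD : D ≤ u 0) (hDz : D - δ ≤ z 0) (hDs : D ≤ 0 ∨ s = 0) (hz0 : ∀ i, 0 ≤ z i)
    (hz : ∀ i, z i ≤ u i + δ) (hm0 : 0 ≤ m) (hm : m ≤ x + δ) (hb0 : 0 ≤ b) (hbt : b ≤ t + δ)
    (h1 : b ≤ ∑ i, u i - ∑ i, z i + δ) (h2 : ∑ i, u i - ∑ i, z i ≤ b + (x - m) + δ)
    (h3 : ∑ i, z i ≤ ∑ i, u i - s + δ) (h4 : κ / 2 ≤ ∑ i, z i + m + 2 * x + δ) :
    ∃ (v : Fin 3 → ℝ) (m' b' : ℝ), (∀ i, 0 ≤ v i) ∧ (∀ i, v i ≤ u i) ∧ D ≤ v 0 ∧ 0 ≤ m' ∧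
      m' ≤ x ∧ 0 ≤ b' ∧ b' ≤ t ∧ b' ≤ ∑ i, u i - ∑ i, v i ∧
      ∑ i, u i - ∑ i, v i ≤ b' + (x - m') ∧ ∑ i, v i ≤ ∑ i, u i - s ∧
      κ / 2 ≤ ∑ i, v i + m' + 2 * x ∧ (∀ i, |z i - v i| ≤ 20 * δ) ∧ |m - m'| ≤ 20 * δ ∧
      |b - b'| ≤ 20 * δ ∧ ∑ i, v i + m' ≤ ∑ i, z i + m + 20 * δ := by
  obtain ⟨v₀, a1, a2, a3, a4⟩ := cutv hδ hu hz0 hz hD hDz
  have e0 := abs_le.1 (a4 0)
  have e1 := abs_le.1 (a4 1)
  have e2 := abs_le.1 (a4 2)
  set m' : ℝ := min m x with hm'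
  have f1 : m' ≤ m := min_le_left _ _
  have f2 : m' ≤ x := min_le_right _ _
  have f3 : m - δ ≤ m' := le_min (by linarith) (by linarith)
  have f4 : 0 ≤ m' := le_min hm0 hx
  have hSv : |∑ i, v₀ i - ∑ i, z i| ≤ 3 * δ := by
    rw [Fin.sum_univ_three, Fin.sum_univ_three, abs_le]
    constructor <;> linarith
  have hSv' := abs_le.1 hSv
  have hlohi : max (κ / 2 - m' - 2 * x) (∑ i, u i - t - (x - m')) ≤ ∑ i, u i - s :=
    max_le (by linarith) (by linarith)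
  obtain ⟨v, b1, b2, b3, b4, b5, b6⟩ := adj a1 a2 (e := 5 * δ) hlohi (by linarith)
    (by linarith) (by linarith)
    (by
      have : max (κ / 2 - m' - 2 * x) (∑ i, u i - t - (x - m')) ≤ ∑ i, v₀ i + 5 * δ :=
        max_le (by linarith) (by linarith)
      linarith) (by linarith)
  have c1 := (le_max_left _ _).trans b3
  have c2 := (le_max_right _ _).trans b3
  have hvz : ∀ i, |z i - v i| ≤ 6 * δ := fun i => by
    have := abs_le.1 (b5 i)
    have := abs_le.1 (a4 i)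
    rw [abs_le]
    constructor <;> linarith
  have hS2 : |∑ i, v i - ∑ i, z i| ≤ 18 * δ := by
    have g0 := abs_le.1 (hvz 0)
    have g1 := abs_le.1 (hvz 1)
    have g2 := abs_le.1 (hvz 2)
    rw [Fin.sum_univ_three, Fin.sum_univ_three, abs_le]
    constructor <;> linarith
  have hS2' := abs_le.1 hS2
  have hmin : 0 ≤ min b (min (∑ i, u i - ∑ i, v i) t) :=
    le_min hb0 (le_min (by linarith) (by linarith))
  refine ⟨v, m', max (∑ i, u i - ∑ i, v i - (x - m')) (min b (min (∑ i, u i - ∑ i, v i) t)),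
    b1, b2, ?_, f4, f2, le_max_of_le_right hmin, max_le (by linarith)
      ((min_le_right _ _).trans (min_le_right _ _)), max_le (by linarith)
      ((min_le_right _ _).trans (min_le_left _ _)), ?_, by linarith, by linarith,
    fun i => (hvz i).trans (by linarith), ?_, ?_, by linarith⟩
  · rcases hDs with h | h
    · exact h.trans (b1 0)
    · exact a3.trans (b6 (by
        rw [h, sub_zero]
        exact sum_le_sum fun i _ => a2 i) 0)
  · have := le_max_left (∑ i, u i - ∑ i, v i - (x - m')) (min b (min (∑ i, u i - ∑ i, v i) t))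
    linarith
  · rw [abs_le]
    constructor <;> linarith
  · have g1 : max (∑ i, u i - ∑ i, v i - (x - m')) (min b (min (∑ i, u i - ∑ i, v i) t)) ≤
        b + 20 * δ := max_le (by linarith) ((min_le_left _ _).trans (by linarith))
    have g2 : b - 20 * δ ≤ max (∑ i, u i - ∑ i, v i - (x - m'))
        (min b (min (∑ i, u i - ∑ i, v i) t)) :=
      le_max_of_le_right (le_min (by linarith) (le_min (by linarith) (by linarith)))
    rw [abs_le]
    constructor <;> linarith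

/-- **a point near a mismatch** -/
theorem pt9 {κ x δ m b t s D γ : ℝ} {u z : Fin 3 → ℝ} (hδ : 0 ≤ δ) (hu : ∀ i, 0 ≤ u i)
    (hx : 0 ≤ x) (hs0 : 0 ≤ s) (hsN : κ / 2 + s ≤ ∑ i, u i) (hκ : 0 ≤ κ) (hst : s ≤ t)
    (hD : D ≤ u 0) (hDz : D - δ ≤ z 0) (hDs : D ≤ 0 ∨ s = 0) (hz0 : ∀ i, 0 ≤ z i)
    (hz : ∀ i, z i ≤ u i + δ) (hm0 : 0 ≤ m) (hm : m ≤ x + δ) (hγ0 : 0 ≤ γ) (hγ : γ ≤ m + δ)
    (hbt : b ≤ t + δ) (h1 : b ≤ ∑ i, u i - ∑ i, z i + δ) (h2 : ∑ i, u i - ∑ i, z i ≤ b + δ)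
    (h3 : ∑ i, z i ≤ ∑ i, u i - s + δ) (h4 : κ / 2 ≤ ∑ i, z i + m - 2 * γ + 2 * x + δ) :
    ∃ (v : Fin 3 → ℝ) (m' γ' : ℝ), (∀ i, 0 ≤ v i) ∧ (∀ i, v i ≤ u i) ∧ D ≤ v 0 ∧ 0 ≤ m' ∧
      m' ≤ x ∧ 0 ≤ γ' ∧ γ' ≤ m' ∧ ∑ i, u i - ∑ i, v i ≤ t ∧ ∑ i, v i ≤ ∑ i, u i - s ∧
      κ / 2 ≤ ∑ i, v i + m' - 2 * γ' + 2 * x ∧ (∀ i, |z i - v i| ≤ 20 * δ) ∧ |m - m'| ≤ 20 * δ ∧
      |γ - γ'| ≤ 20 * δ ∧ |b - (∑ i, u i - ∑ i, v i)| ≤ 20 * δ ∧
      ∑ i, v i + m' - 2 * γ' ≤ ∑ i, z i + m - 2 * γ + 30 * δ := by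
  obtain ⟨v₀, a1, a2, a3, a4⟩ := cutv hδ hu hz0 hz hD hDz
  have e0 := abs_le.1 (a4 0)
  have e1 := abs_le.1 (a4 1)
  have e2 := abs_le.1 (a4 2)
  set m' : ℝ := min m x with hm'
  have f1 : m' ≤ m := min_le_left _ _
  have f2 : m' ≤ x := min_le_right _ _
  have f3 : m - δ ≤ m' := le_min (by linarith) (by linarith)
  have f4 : 0 ≤ m' := le_min hm0 hx
  set γ' : ℝ := min γ m' with hγ'
  have g1 : γ' ≤ γ := min_le_left _ _
  have g2 : γ' ≤ m' := min_le_right _ _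
  have g3 : γ - 2 * δ ≤ γ' := le_min (by linarith) (by linarith)
  have g4 : 0 ≤ γ' := le_min hγ0 f4
  have hSv : |∑ i, v₀ i - ∑ i, z i| ≤ 3 * δ := by
    rw [Fin.sum_univ_three, Fin.sum_univ_three, abs_le]
    constructor <;> linarith
  have hSv' := abs_le.1 hSv
  have hlohi : max (κ / 2 - m' + 2 * γ' - 2 * x) (∑ i, u i - t) ≤ ∑ i, u i - s :=
    max_le (by linarith) (by linarith)
  obtain ⟨v, b1, b2, b3, b4, b5, b6⟩ := adj a1 a2 (e := 5 * δ) hlohi (by linarith)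
    (by linarith) (by linarith)
    (by
      have : max (κ / 2 - m' + 2 * γ' - 2 * x) (∑ i, u i - t) ≤ ∑ i, v₀ i + 5 * δ :=
        max_le (by linarith) (by linarith)
      linarith) (by linarith)
  have c1 := (le_max_left _ _).trans b3
  have c2 := (le_max_right _ _).trans b3
  have hvz : ∀ i, |z i - v i| ≤ 6 * δ := fun i => by
    have := abs_le.1 (b5 i)
    have := abs_le.1 (a4 i)
    rw [abs_le]
    constructor <;> linarith
  have hS2 : |∑ i, v i - ∑ i, z i| ≤ 18 * δ := by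
    have g0 := abs_le.1 (hvz 0)
    have g1 := abs_le.1 (hvz 1)
    have g2 := abs_le.1 (hvz 2)
    rw [Fin.sum_univ_three, Fin.sum_univ_three, abs_le]
    constructor <;> linarith
  have hS2' := abs_le.1 hS2
  refine ⟨v, m', γ', b1, b2, ?_, f4, f2, g4, g2, by linarith, by linarith, by linarith,
    fun i => (hvz i).trans (by linarith), ?_, ?_, ?_, by linarith⟩
  · rcases hDs with h | h
    · exact h.trans (b1 0)
    · exact a3.trans (b6 (by
        rw [h, sub_zero]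
        exact sum_le_sum fun i _ => a2 i) 0)
  · rw [abs_le]
    constructor <;> linarith
  · rw [abs_le]
    constructor <;> linarith
  · rw [abs_le]
    constructor <;> linarith

/-! ### the data of a child -/

/-- the parents: what the reduction needs -/
structure ParX (β : ℝ) (p : IX5 → ℝ) : Prop where
  κ0 : 8 / 9 ≤ cκ (prX p)
  κ1 : cκ (prX p) ≤ 1
  u0 : ∀ i, 0 ≤ cu (prX p) i
  N0 : 7 / 10 * cκ (prX p) ≤ cN (prX p)
  N1 : cN (prX p) ≤ 1
  x0 : 0 ≤ cx' (prX p)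
  x1 : cx' (prX p) ≤ 1 / 3
  β0 : 0 ≤ β
  β1 : β ≤ 1 / 5
  βu : β ≤ cu (prX p) 2
  zr : ZR β p

/-- the half top -/
def th5 (c : ℝ) (p : IX5 → ℝ) : ℝ := (top5 (prX p) + 2 * c * cκ (prX p)) / 2

lemma ParX.th {c β : ℝ} (hc : 0 ≤ c) {p : IX5 → ℝ} (h : ParX β p) :
    β * cκ (prX p) ≤ th5 c p := by
  have h1 := h.N0
  have h2 := h.κ0
  have h3 := h.x0
  have h4 : 0 ≤ c * cκ (prX p) := mul_nonneg hc (by linarith)
  have h5 : 2 / 5 * cκ (prX p) ≤ min (2 * cN (prX p) - cκ (prX p)) (3 / 4 * cN (prX p)) :=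
    le_min (by linarith) (by linarith)
  have h6 : β * cκ (prX p) ≤ 1 / 5 * cκ (prX p) :=
    mul_le_mul_of_nonneg_right h.β1 (by linarith)
  unfold th5 top5
  nlinarith

lemma ParX.th0 {c β : ℝ} (hc : 0 ≤ c) {p : IX5 → ℝ} (h : ParX β p) : 0 ≤ th5 c p :=
  le_trans (mul_nonneg h.β0 (by linarith [h.κ0])) (h.th hc)

/-- the data of a child, common part: lumps `vs`, `b`, amplifier pieces `qs`; `uu` = upper bounds
of the lumps (normalized), `D` = lower bound of the first one, `s` = what was lost at least -/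
structure ChiX (c : ℝ) (p : IX5 → ℝ) (uu : Fin 3 → ℝ) (D s X δ δ₁ ρ₁ B₁ : ℝ) (N : ℕ)
    (vs : Fin 3 → Pq) (b : ℝ) (qs : List Pq) : Prop where
  lump : ∀ j, Dq.lump (vs j)
  z0 : ∀ j, 0 ≤ (vs j).z
  z1 : ∀ j, (vs j).z ≤ (uu j + δ) * Real.log X
  s1 : ∀ j, 1 + |(vs j).t| ≤ X ^ ρ₁
  s2 : ∀ j, (nm (vs j).d : ℝ) ≤ X ^ B₁
  am : ∀ q ∈ qs, q.kd = .am
  y0 : ∀ q ∈ qs, 0 ≤ q.z
  y1 : ∀ q ∈ qs, q.z ≤ δ₁ * Real.log X
  t1 : ∀ q ∈ qs, 1 + |q.t| ≤ X ^ ρ₁
  t2 : ∀ q ∈ qs, (nm q.d : ℝ) ≤ X ^ B₁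
  len : qs.length ≤ N
  tot : tlen qs ≤ (cx' (prX p) + δ) * Real.log X
  b0 : 0 ≤ b
  b1 : b ≤ (th5 c p + δ) * Real.log X
  c1 : b + ∑ j, (vs j).z ≤ (∑ i, uu i + δ) * Real.log X
  dz : (D - δ) * Real.log X ≤ (vs 0).z
  c3 : ∑ j, (vs j).z ≤ (∑ i, uu i - s + δ) * Real.log X

section use

variable {c β : ℝ} {Par : Set (Fin 3 ⊕ Fin 5 → ℝ)} {L : (IX5 → ℝ) → ℝ → ℝ → ℝ → Prop}
  {L0 : (Fin 3 ⊕ Fin 5 → ℝ) → ℝ} {p : IX5 → ℝ} {uu : Fin 3 → ℝ} {D s : ℝ}
  {X δ δ₁ ρ ρ₁ B B₁ ε₁ : ℝ} {N : ℕ} {a : BdX} {vs : Fin 3 → Pq} {b : ℝ} {qs : List Pq}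

lemma win_S8X (hX : 1 < X) (hδ : 20 * δ ≤ δ₁) (hδ0 : 0 ≤ δ) (hρ : ρ ≤ ρ₁) (hρ₁ : 0 ≤ ρ₁)
    (hB : B ≤ B₁) (hB₁ : 0 ≤ B₁) (hw : Win S5X p δ N B ρ X a)
    (hc : ChiX c p uu D s X δ δ₁ ρ₁ B₁ N vs b qs) {v : Fin 3 → ℝ} {b' : ℝ}
    (hv : ∀ i, |(vs i).z / Real.log X - v i| ≤ 20 * δ)
    (hb : |b / Real.log X - b'| ≤ 20 * δ) :
    Win S8X (Sum.elim p ![v 0, v 1, v 2, b']) δ₁ N B₁ ρ₁ X (a, vs, b) := by
  have hδ1 : δ ≤ δ₁ := by linarith
  refine ⟨fun i => ?_, ?_, ?_, ?_, ?_⟩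
  · rcases i with i | i
    · exact (hw.ev i).trans hδ1
    · fin_cases i
      · exact (hv 0).trans hδ
      · exact (hv 1).trans hδ
      · exact (hv 2).trans hδ
      · exact hb.trans hδ
  · show (1 : ℝ) ≤ X ^ δ₁
    exact Real.one_le_rpow hX.le (by linarith)
  · exact Nat.zero_le _
  · refine max_le (hw.s₁.trans (Real.rpow_le_rpow_of_exponent_le hX.le hρ)) ?_
    rw [mx_le (Real.one_le_rpow hX.le hρ₁)]
    intro q hq
    obtain ⟨j, rfl⟩ := (List.mem_ofFn' _ _).1 hq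
    exact hc.s1 j
  · refine max_le (hw.s₂.trans (Real.rpow_le_rpow_of_exponent_le hX.le hB)) ?_
    rw [mx_le (Real.one_le_rpow hX.le hB₁)]
    intro q hq
    obtain ⟨j, rfl⟩ := (List.mem_ofFn' _ _).1 hq
    exact hc.s2 j

lemma ChiX.norm1 (hX : 1 < X) (hc : ChiX c p uu D s X δ δ₁ ρ₁ B₁ N vs b qs) :
    (∀ j, 0 ≤ (vs j).z / Real.log X) ∧ (∀ j, (vs j).z / Real.log X ≤ uu j + δ) ∧
      tlen qs / Real.log X ≤ cx' (prX p) + δ ∧ 0 ≤ b / Real.log X ∧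
      b / Real.log X ≤ th5 c p + δ ∧
      b / Real.log X ≤ ∑ i, uu i - ∑ j, (vs j).z / Real.log X + δ ∧
      D - δ ≤ (vs 0).z / Real.log X ∧
      ∑ j, (vs j).z / Real.log X ≤ ∑ i, uu i - s + δ := by
  have hL : 0 < Real.log X := Real.log_pos hX
  refine ⟨fun j => div_nonneg (hc.z0 j) hL.le, fun j => by
    rw [div_le_iff₀ hL]; exact hc.z1 j, by rw [div_le_iff₀ hL]; exact hc.tot,
    div_nonneg hc.b0 hL.le, by rw [div_le_iff₀ hL]; exact hc.b1, ?_, by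
    rw [le_div_iff₀ hL]; exact hc.dz, ?_⟩
  · rw [← Finset.sum_div, div_le_iff₀ hL]
    have e : (∑ i, uu i - (∑ j, (vs j).z) / Real.log X + δ) * Real.log X =
        (∑ i, uu i + δ) * Real.log X - ∑ j, (vs j).z := by
      field_simp
      ring
    rw [e]
    linarith [hc.c1]
  · rw [← Finset.sum_div, div_le_iff₀ hL]
    exact hc.c3

/-- **`P10X`, `P10S` at a child** -/
theorem use8X {Ψ : BcX → List Pq → ℝ} (hX : 1 < X) (hδ0 : 0 ≤ δ) (hδ : 20 * δ ≤ δ₁)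
    (hρ : ρ ≤ ρ₁) (hρ₁ : 0 ≤ ρ₁) (hB : B ≤ B₁) (hB₁ : 0 ≤ B₁)
    (H : ∀ (a : BcX) (ps : List Pq), ps.length ≤ N →
      (∀ p ∈ ps, Dq.lump p ∨ Dq.nl X p ≤ δ₁) → ∀ q ∈ Dom8X c β Par L,
      Win S8X q.1 δ₁ N B₁ ρ₁ X a →
      (∀ t, |Dq.mass X ps t - q.2 t| ≤ δ₁) → Dq.Good X ρ₁ B₁ ps →
      (∀ p ∈ ps, Dq.lump p → (S8X.ev X a, Dq.nl X p) ∈ (∅ : Set ((I8X → ℝ) × ℝ))) →
      Ψ a ps ≤ X ^ (E8X L0 q + ε₁))
    (hPar : prX p ∈ Par) (hp : ParX β p) (hc0 : 0 ≤ c) (hw : Win S5X p δ N B ρ X a)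
    (hc : ChiX c p uu D s X δ δ₁ ρ₁ B₁ N vs b qs) (huu : ∑ i, uu i = cN (prX p))
    (huu0 : ∀ i, 0 ≤ uu i) (hs0 : 0 ≤ s) (hs1 : s ≤ β * cκ (prX p)) (hD : D ≤ uu 0)
    (hDs : D ≤ 0 ∨ s = 0)
    (hL : ∀ v : Fin 3 → ℝ, (∀ i, 0 ≤ v i) → (∀ i, v i ≤ uu i) → D ≤ v 0 →
      ∑ i, v i ≤ cN (prX p) - s → L p (v 0) (v 1) (v 2))
    (h2 : ∑ i, uu i * Real.log X - ∑ j, (vs j).z ≤
      b + (cx' (prX p) * Real.log X - tlen qs) + δ * Real.log X)
    (hsh : cκ (prX p) / 2 * Real.log X ≤ ∑ j, (vs j).z + tlen qs +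
      (2 * cx' (prX p) + δ) * Real.log X) :
    Ψ (a, vs, b) qs ≤ X ^ (cκ (prX p) + L0 (prX p) + ε₁ + 20 * δ) *
      Real.exp (∑ j, (vs j).z + tlen qs) := by
  have hLX : 0 < Real.log X := Real.log_pos hX
  have hX0 : 0 < X := by linarith
  obtain ⟨g1, g2, g3, g4, g5, g6, g7, g8⟩ := hc.norm1 hX
  have hst : s ≤ th5 c p := hs1.trans (hp.th hc0)
  have hsN : cκ (prX p) / 2 + s ≤ ∑ i, uu i := by
    rw [huu]
    have := hp.N0
    have h6 : β * cκ (prX p) ≤ 1 / 5 * cκ (prX p) :=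
      mul_le_mul_of_nonneg_right hp.β1 (by linarith [hp.κ0])
    linarith
  obtain ⟨v, m', b', a1, a2, a3, a4, a5, a6, a7, a8, a9, a10, a11, a12, a13, a14, a15⟩ :=
    pt8 (κ := cκ (prX p)) (x := cx' (prX p)) (δ := δ) (m := tlen qs / Real.log X)
      (b := b / Real.log X) (t := th5 c p) (s := s) (D := D) (u := uu)
      (z := fun j => (vs j).z / Real.log X) hδ0 huu0 hp.x0 hs0 hsN (by linarith [hp.κ0]) hst hD
      g7 hDs g1 g2 (div_nonneg (tlen_nonneg hc.y0) hLX.le) g3 g4 g5 g6 (by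
        rw [← Finset.sum_div, ← sub_nonneg]
        have e1 : b / Real.log X + (cx' (prX p) - tlen qs / Real.log X) + δ -
            (∑ i, uu i - (∑ j, (vs j).z) / Real.log X) = (b + (cx' (prX p) * Real.log X -
              tlen qs) + δ * Real.log X - (∑ i, uu i * Real.log X - ∑ j, (vs j).z)) /
                Real.log X := by
          rw [← Finset.sum_mul]
          field_simp
        rw [e1]
        exact div_nonneg (by linarith) hLX.le) g8 (by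
        rw [← Finset.sum_div, ← sub_nonneg]
        have e1 : (∑ j, (vs j).z) / Real.log X + tlen qs / Real.log X + 2 * cx' (prX p) + δ -
            cκ (prX p) / 2 = (∑ j, (vs j).z + tlen qs + (2 * cx' (prX p) + δ) * Real.log X -
              cκ (prX p) / 2 * Real.log X) / Real.log X := by
          field_simp
          ring
        rw [e1]
        exact div_nonneg (by linarith) hLX.le)
  rw [huu, Fin.sum_univ_three (f := v)] at a8 a9 a10
  rw [Fin.sum_univ_three (f := v)] at a11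
  have hk := H (a, vs, b) qs hc.len (fun q hq => Or.inr (by
    show q.z / Real.log X ≤ δ₁
    rw [div_le_iff₀ hLX]; exact hc.y1 q hq))
    (Sum.elim p ![v 0, v 1, v 2, b'], fun t => match t with | .mo => 0 | .am => m')
    ⟨⟨hPar, hp.zr, a1 0, a1 1, a1 2, a4, a5, a6, by
        show 2 * b' ≤ top5 (prX p) + 2 * c * cκ (prX p)
        unfold th5 at a7
        linarith, a8, a9⟩, hL v a1 a2 a3 (by
        rw [Fin.sum_univ_three (f := v)]; exact a10), rfl, a11⟩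
    (win_S8X hX hδ hδ0 hρ hρ₁ hB hB₁ hw hc a12 a14) (fun t => by
      cases t with
      | mo =>
        rw [mass_mo hc.am]
        show |(0 : ℝ) - 0| ≤ δ₁
        rw [sub_zero, abs_zero]; linarith
      | am =>
        rw [mass_am hc.am]
        exact a13.trans hδ) (fun q hq => ⟨hc.t1 q hq, hc.t2 q hq, hc.y0 q hq⟩)
    (fun q hq hl => by
      exfalso
      have e1 := hc.am q hq
      have e2 : q.kd = .mo := hl.1
      rw [e1] at e2
      cases e2)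
  refine hk.trans ?_
  rw [← Real.exp_log hX0, ← Real.exp_mul, ← Real.exp_mul, ← Real.exp_add]
  refine Real.exp_le_exp.2 ?_
  have e8 : E8X L0 (Sum.elim p ![v 0, v 1, v 2, b'],
      fun t => match t with | .mo => 0 | .am => m') =
      cκ (prX p) + (v 0 + v 1 + v 2) + m' + L0 (prX p) := rfl
  rw [e8]
  rw [← Finset.sum_div, Fin.sum_univ_three (f := v)] at a15
  have e9 := mul_le_mul_of_nonneg_right a15 hLX.le
  have e10 : ((∑ j, (vs j).z) / Real.log X + tlen qs / Real.log X + 20 * δ) * Real.log X =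
      ∑ j, (vs j).z + tlen qs + 20 * δ * Real.log X := by
    field_simp
  rw [e10] at e9
  nlinarith

/-- **`P1MX`, `P1MS` at a child** -/
theorem use9X {Ψ : BmX → List Pq → ℝ} (hX : 1 < X) (hδ0 : 0 ≤ δ) (hδ : 20 * δ ≤ δ₁)
    (hρ : ρ ≤ ρ₁) (hρ₁ : 0 ≤ ρ₁) (hB : B ≤ B₁) (hB₁ : 0 ≤ B₁)
    (H : ∀ (a : BmX) (ps : List Pq), ps.length ≤ N →
      (∀ p ∈ ps, Dq.lump p ∨ Dq.nl X p ≤ δ₁) → ∀ q ∈ Dom9X c β Par L,
      Win S9X q.1 δ₁ N B₁ ρ₁ X a →
      (∀ t, |Dq.mass X ps t - q.2 t| ≤ δ₁) → Dq.Good X ρ₁ B₁ ps →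
      (∀ p ∈ ps, Dq.lump p → (S9X.ev X a, Dq.nl X p) ∈ (∅ : Set ((I8X ⊕ Fin 2 → ℝ) × ℝ))) →
      Ψ a ps ≤ X ^ (E9X L0 q + ε₁))
    (hPar : prX p ∈ Par) (hp : ParX β p) (hc0 : 0 ≤ c) (hw : Win S5X p δ N B ρ X a)
    (hc : ChiX c p uu D s X δ δ₁ ρ₁ B₁ N vs b qs) (huu : ∑ i, uu i = cN (prX p))
    (huu0 : ∀ i, 0 ≤ uu i) (hs0 : 0 ≤ s) (hs1 : s ≤ β * cκ (prX p)) (hD : D ≤ uu 0)
    (hDs : D ≤ 0 ∨ s = 0)
    (hL : ∀ v : Fin 3 → ℝ, (∀ i, 0 ≤ v i) → (∀ i, v i ≤ uu i) → D ≤ v 0 →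
      ∑ i, v i ≤ cN (prX p) - s → L p (v 0) (v 1) (v 2))
    (h2 : ∑ i, uu i * Real.log X - ∑ j, (vs j).z ≤ b + δ * Real.log X)
    {g : Eis} (hg : g ≠ 0) {ζ : ℝ}
    (hζ : |ζ - cx' (prX p) * Real.log X| ≤ δ₁ * Real.log X)
    (hG : Real.log (nm g) ≤ tlen qs + δ * Real.log X)
    (hsh : cκ (prX p) / 2 * Real.log X ≤ ∑ j, (vs j).z + tlen qs - 2 * Real.log (nm g) +
      (2 * cx' (prX p) + δ) * Real.log X) :
    Ψ ((a, vs, b), g, ζ) qs ≤ X ^ (cκ (prX p) + L0 (prX p) + ε₁ + 30 * δ) *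
      Real.exp (∑ j, (vs j).z + tlen qs - 2 * Real.log (nm g)) := by
  have hLX : 0 < Real.log X := Real.log_pos hX
  have hX0 : 0 < X := by linarith
  have hG0 : 0 ≤ Real.log (nm g) := Real.log_nonneg (by exact_mod_cast nm_pos.2 hg)
  obtain ⟨g1, g2, g3, g4, g5, g6, g7, g8⟩ := hc.norm1 hX
  have hst : s ≤ th5 c p := hs1.trans (hp.th hc0)
  have hsN : cκ (prX p) / 2 + s ≤ ∑ i, uu i := by
    rw [huu]
    have := hp.N0
    have h6 : β * cκ (prX p) ≤ 1 / 5 * cκ (prX p) :=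
      mul_le_mul_of_nonneg_right hp.β1 (by linarith [hp.κ0])
    linarith
  obtain ⟨v, m', γ', a1, a2, a3, a4, a5, a6, a7, a8, a9, a10, a11, a12, a13, a14, a15⟩ :=
    pt9 (κ := cκ (prX p)) (x := cx' (prX p)) (δ := δ) (m := tlen qs / Real.log X)
      (b := b / Real.log X) (t := th5 c p) (s := s) (D := D) (u := uu)
      (γ := Real.log (nm g) / Real.log X)
      (z := fun j => (vs j).z / Real.log X) hδ0 huu0 hp.x0 hs0 hsN (by linarith [hp.κ0]) hst hD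
      g7 hDs g1 g2 (div_nonneg (tlen_nonneg hc.y0) hLX.le) g3 (div_nonneg hG0 hLX.le) (by
        rw [div_le_iff₀ hLX, add_mul, div_mul_cancel₀ _ hLX.ne']
        exact hG) g5 g6 (by
        rw [← Finset.sum_div, ← sub_nonneg]
        have e1 : b / Real.log X + δ -
            (∑ i, uu i - (∑ j, (vs j).z) / Real.log X) = (b + δ * Real.log X -
              (∑ i, uu i * Real.log X - ∑ j, (vs j).z)) / Real.log X := by
          rw [← Finset.sum_mul]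
          field_simp
        rw [e1]
        exact div_nonneg (by linarith) hLX.le) g8 (by
        rw [← Finset.sum_div, ← sub_nonneg]
        have e1 : (∑ j, (vs j).z) / Real.log X + tlen qs / Real.log X -
            2 * (Real.log (nm g) / Real.log X) + 2 * cx' (prX p) + δ -
            cκ (prX p) / 2 = (∑ j, (vs j).z + tlen qs - 2 * Real.log (nm g) +
              (2 * cx' (prX p) + δ) * Real.log X -
              cκ (prX p) / 2 * Real.log X) / Real.log X := by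
          field_simp
          ring
        rw [e1]
        exact div_nonneg (by linarith) hLX.le)
  rw [huu, Fin.sum_univ_three (f := v)] at a8 a9 a14
  rw [Fin.sum_univ_three (f := v)] at a10
  have hb0' : 0 ≤ cN (prX p) - (v 0 + v 1 + v 2) := by
    have e1 : v 0 + v 1 + v 2 ≤ cN (prX p) := by
      rw [← huu, Fin.sum_univ_three]
      linarith [a2 0, a2 1, a2 2]
    linarith
  have hW8 := win_S8X hX hδ hδ0 hρ hρ₁ hB hB₁ hw hc a11 a14
  have hk := H ((a, vs, b), g, ζ) qs hc.len (fun q hq => Or.inr (by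
    show q.z / Real.log X ≤ δ₁
    rw [div_le_iff₀ hLX]; exact hc.y1 q hq))
    (Sum.elim (Sum.elim p ![v 0, v 1, v 2, cN (prX p) - (v 0 + v 1 + v 2)])
      ![γ', cx' (prX p)], fun t => match t with | .mo => 0 | .am => m')
    ⟨⟨hPar, hp.zr, a1 0, a1 1, a1 2, a4, a5, hb0', by
        show 2 * (cN (prX p) - (v 0 + v 1 + v 2)) ≤ top5 (prX p) + 2 * c * cκ (prX p)
        unfold th5 at a8
        linarith, le_rfl, by
        show cN (prX p) - (v 0 + v 1 + v 2) ≤ cN (prX p) - (v 0 + v 1 + v 2) +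
          (cx' (prX p) - m')
        linarith⟩, hL v a1 a2 a3 (by
        rw [Fin.sum_univ_three (f := v)]; exact a9), rfl, rfl, a6, a7, rfl, a10⟩
    ⟨fun i => by
      rcases i with i | i
      · exact hW8.ev i
      · fin_cases i
        · exact a13.trans hδ
        · show |ζ / Real.log X - cx' (prX p)| ≤ δ₁
          have e1 : ζ / Real.log X - cx' (prX p) =
              (ζ - cx' (prX p) * Real.log X) / Real.log X := by
            field_simp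
          rw [e1, abs_div, abs_of_pos hLX, div_le_iff₀ hLX]
          exact hζ, hW8.g, hW8.n, hW8.s₁, hW8.s₂⟩ (fun t => by
      cases t with
      | mo =>
        rw [mass_mo hc.am]
        show |(0 : ℝ) - 0| ≤ δ₁
        rw [sub_zero, abs_zero]; linarith
      | am =>
        rw [mass_am hc.am]
        exact a12.trans hδ) (fun q hq => ⟨hc.t1 q hq, hc.t2 q hq, hc.y0 q hq⟩)
    (fun q hq hl => by
      exfalso
      have e1 := hc.am q hq
      have e2 : q.kd = .mo := hl.1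
      rw [e1] at e2
      cases e2)
  refine hk.trans ?_
  rw [← Real.exp_log hX0, ← Real.exp_mul, ← Real.exp_mul, ← Real.exp_add]
  refine Real.exp_le_exp.2 ?_
  have e8 : E9X L0 (Sum.elim (Sum.elim p ![v 0, v 1, v 2, cN (prX p) - (v 0 + v 1 + v 2)])
      ![γ', cx' (prX p)], fun t => match t with | .mo => 0 | .am => m') =
      cκ (prX p) + (v 0 + v 1 + v 2) + m' + L0 (prX p) - 2 * γ' := rfl
  rw [e8]
  rw [← Finset.sum_div, Fin.sum_univ_three (f := v)] at a15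
  have e9 := mul_le_mul_of_nonneg_right a15 hLX.le
  have e10 : ((∑ j, (vs j).z) / Real.log X + tlen qs / Real.log X -
      2 * (Real.log (nm g) / Real.log X) + 30 * δ) * Real.log X =
      ∑ j, (vs j).z + tlen qs - 2 * Real.log (nm g) + 30 * δ * Real.log X := by
    field_simp
  rw [e10] at e9
  nlinarith

end use

end Crest.Agent.R017.P1X960
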