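import Crest.Agent.R017.P1r_54

/-!
# Row 17, R8/P1 at list level, part 13 (helper54): `ErrF` by the second moment of the family

* `errF_le_M2` : `ErrF` for the official structured function by `M2`
-/

set_option autoImplicit false

noncomputable section

open Finset
open scoped ComplexConjugate

namespace Crest.Agent.R017.P1s54

open Crest.Agent.R012 Crest.Agent.R012.Eis
open Crest.Agent.R012.Mob705 hiding pb mem_pb
open Crest.Agent.R012.LS2 (S mem_S)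
open Crest.Agent.R017.CM106 Crest.Agent.R017.C70
open Crest.Agent.R017.FE47 (PU cx SM)
open Crest.Agent.R017.StD828 (ln Tm)
open Crest.Agent.R017.E2440 (TE StE Bth Bth_nonneg)
open Crest.Agent.R017.E5k54 (PT alb)
open Crest.Agent.R017.SSb54 (SST SSb PTb mem_PTb PTb_sub)
open Crest.Agent.R017.P1e54 Crest.Agent.R017.P1f54 Crest.Agent.R017.P1h54
open Crest.Agent.R017.P1i54 Crest.Agent.R017.P1j54
open Crest.Agent.R017.P1k54 Crest.Agent.R017.P1l54 Crest.Agent.R017.P1n54 Crest.Agent.R017.P1o54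
open Crest.Agent.R017.P1p54 Crest.Agent.R017.P1q54 Crest.Agent.R017.P1r54
open Crest.Agent.R017.HP842 (Pc pc al alL cv Tu mem_Tu sqc Th)
open Crest.Agent.R017.B770 Crest.Agent.R017.Prov71
open Crest.Agent.R017.XG702 (Pcs)
open Crest.Agent.R017.XT71 (Sys Win mx mx_le le_mx)
open Crest.Agent.R017.UM71
open Crest.Agent.R017.E5P571 (PB mem_PB PC)
open Crest.Agent.R017.E5B71 Crest.Agent.R017.E5L770
open Crest.Agent.R017.HBsB445 (prod_ch1 prod_chS sf_pos child_hb)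

attribute [local irreducible] HP842.Tu

section

variable {Λ : Type*} {π : Λ → DPar} {h : ℝ → ℝ} {e0 r : ℝ} {Rf : Λ → ℝ} {lam : Λ × Eis}
  {p : Fin 3 ⊕ Fin 5 → ℝ} {X δ δ₁ ρ ρ₁ B R c H Hw M Cs ε₁ : ℝ} {N : ℕ} {a : Bd}
  {Par : Set (Fin 3 ⊕ Fin 5 → ℝ)} {L0 : (Fin 3 ⊕ Fin 5 → ℝ) → ℝ}

lemma vec3 (a : Bd) : (![a.us 2, a.us 3, a.us 4] : Fin 3 → Pq) = vsO a := by
  funext j
  fin_cases j <;> rfl

/-- the range of the powerful tuples -/
def Yr (r : ℝ) (a : Bd) : ℕ := ⌊Real.exp ((∑ j, (vsO a j).z) + r)⌋₊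

/-- the official structured function -/
lemma at_SfP (k : Eis) : SF.at (SfP π h e0 r bfO Jo nL) lam a k =
    (pC : ℂ) * SST (PTb (Fin 3) (Yr r a) (Real.exp (bfO a.l (∑ j, (vsO a j).z) a.z)))
      (fun j => pc h (Pt (π lam.1) lam.2 (vsO a j))) (Real.exp (e0 * a.l))
      (Jo a.l (a3 a) a.z) (fun x => oN (nO a) (ln x)) k := by
  unfold SF.at SfP SfJ SSb Yr
  rw [vec3]
  have e3 : ∑ j, (vsO a j).z = a3 a := by
    rw [Fin.sum_univ_three]; rfl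
  rw [e3]
  rfl

open Classical in
/-- **`ErrF` by the second moment** -/
theorem errF_le_M2 {R : Λ → ℝ} {q₁ : List Pq} : ErrF π h (SfP π h e0 r bfO Jo nL) R lam a q₁ ≤
    M2 (uM (R lam.1) (Real.exp a.l) (Real.exp (a.l / 20))) (fun k =>
      (∏ i, CS (pc h (fam (π lam.1) lam.2 (fun i => q₁.get i) (vsO a) (.inl i))) k) *
      (∏ j, CS (pc h (fam (π lam.1) lam.2 (fun i => q₁.get i) (vsO a) (.inr j))) k -
        (pC : ℂ) * SST (PTb (Fin 3) (Yr r a) (Real.exp (bfO a.l (∑ j, (vsO a j).z) a.z)))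
          (fun j => pc h (fam (π lam.1) lam.2 (fun i => q₁.get i) (vsO a) (.inr j)))
          (Real.exp (e0 * a.l)) (JW (Real.sqrt (YT a.l (a3 a) a.z)) (1 / 10)
            (YT a.l (a3 a) a.z)) (fun x => oN (nO a) (ln x)) k)) := by
  unfold ErrF
  split_ifs with hif
  swap
  · exact M2_nonneg (uM_nonneg _ _ _) _
  refine le_trans (le_of_eq ?_) (sum_le_M2 (Real.exp_pos a.l) (T := (PB (π lam.1).n
    ⌊Real.exp (a.l + R lam.1)⌋₊).filter (fun k => cutE (Real.exp (a.l / 20)) k ∧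
      Real.exp (a.l - R lam.1) ≤ nm k)) (fun k hk => ?_) _)
  · refine sum_congr rfl fun k _ => ?_
    rw [norm_mul, mul_pow, mul_comm]
    have e1 : PC h (q₁.map (Pt (π lam.1) lam.2)) k =
        ∏ i, CS (pc h (fam (π lam.1) lam.2 (fun i => q₁.get i) (vsO a) (.inl i))) k := by
      unfold PC
      rw [List.map_map]
      conv_lhs => rw [← List.ofFn_get q₁]
      rw [List.map_ofFn, List.prod_ofFn]
      rfl
    have e2 : PC h ((as3 a).map (Pt (π lam.1) lam.2)) k =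
        ∏ j, CS (pc h (fam (π lam.1) lam.2 (fun i => q₁.get i) (vsO a) (.inr j))) k := by
      rw [Fin.prod_univ_three]
      unfold PC as3
      simp only [List.map_cons, List.map_nil, List.prod_cons, List.prod_nil, mul_one]
      rw [mul_assoc]
      rfl
    rw [e1, e2, at_SfP]
    rfl
  · rw [mem_filter, mem_PB] at hk
    obtain ⟨⟨h1, h2, -⟩, h3, h4⟩ := hk
    refine ⟨h2, h3, ?_, ?_⟩
    · rw [← Real.exp_add, neg_add_eq_sub]; exact h4
    · have h5 := (Nat.le_floor_iff (Real.exp_pos _).le).1 h1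
      rwa [Real.exp_add, mul_comm] at h5

/-! ### sizes -/

lemma oN_supp {n : ℕ} {z : Eis} (hz : oN n z ≠ 0) : (nm z : ℝ) ≤ 2 ^ n := by
  unfold oN at hz
  obtain ⟨i, hi, h1⟩ := Finset.exists_ne_zero_of_sum_ne_zero hz
  rw [mem_range] at hi
  have h2 : wL i (Real.log (nm z)) ≠ 0 := by
    intro h0
    apply h1
    rw [h0, Complex.ofReal_zero]
  have h3 := (abs_le.1 (wL_supp h2)).2
  rcases Nat.eq_zero_or_pos (nm z) with h0 | h0
  · rw [h0, Nat.cast_zero]; positivity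
  have h4 : (0 : ℝ) < nm z := by exact_mod_cast h0
  have h5 : 0 < Real.log 2 := Real.log_pos (by norm_num)
  have h6 : Real.log (nm z) ≤ n * Real.log 2 := by
    have : ((i : ℝ) + 1) * Real.log 2 ≤ n * Real.log 2 :=
      mul_le_mul_of_nonneg_right (by exact_mod_cast hi) h5.le
    linarith
  have h7 := (Real.log_le_iff_le_exp h4).1 h6
  rwa [mul_comm, Real.exp_mul, Real.exp_log (by norm_num), Real.rpow_natCast] at h7

lemma a3_eq (a : Bd) : ∑ j, (vsO a j).z = a3 a := by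
  rw [Fin.sum_univ_three]; rfl

lemma supp_fam (hR : ∀ u, cx h u ≠ 0 → |u| ≤ R) {m : ℕ} {ps : Fin m → Pq}
    (F : Fr (π lam.1) lam.2 p X δ ρ B R N a ps) (hr : R ≤ r) (i : Fin m ⊕ Fin 3) (b : Eis)
    (hb : pc h (fam (π lam.1) lam.2 ps (vsO a) i) b ≠ 0) : nm b ≤ Yr r a := by
  have hL := F.L0
  have hvs := abs_le.1 F.vsum
  have hd1 := F.d1
  have hdL0 : 0 ≤ δ * Real.log X := mul_nonneg F.d0 hL.le
  have hdL : δ * Real.log X ≤ 1 / 240 * Real.log X :=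
    mul_le_mul_of_nonneg_right (by linarith) hL.le
  have hκ : 8 / 9 * Real.log X ≤ cκ p * Real.log X :=
    mul_le_mul_of_nonneg_right F.par.κ0 hL.le
  have hN : 3 / 5 * cκ p * Real.log X ≤ cN p * Real.log X :=
    mul_le_mul_of_nonneg_right F.par.N0 hL.le
  have h1 := supp_pc hR (fam_OK (π lam.1) lam.2 F.hP ps (vsO a) i).Y0 hb
  unfold Yr
  refine Nat.le_floor (h1.trans ?_)
  rcases i with i | j
  · show Real.exp (ps i).z * Real.exp R ≤ _
    rw [← Real.exp_add]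
    refine Real.exp_le_exp.2 ?_
    have := F.z1 i
    linarith
  · show Real.exp (vsO a j).z * Real.exp R ≤ _
    rw [← Real.exp_add]
    refine Real.exp_le_exp.2 ?_
    have h2 : (vsO a j).z ≤ ∑ j, (vsO a j).z :=
      Finset.single_le_sum (f := fun j => (vsO a j).z) (fun j _ => (F.ok.1 _).2) (mem_univ j)
    linarith

/-! ### one datum -/

/-- the input `P10` for one `lam` and scale -/
def In8 (π : Λ → DPar) (h : ℝ → ℝ) (e0 : ℝ) (Rf : Λ → ℝ) (lam : Λ × Eis)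
    (Par : Set (Fin 3 ⊕ Fin 5 → ℝ)) (L0 : (Fin 3 ⊕ Fin 5 → ℝ) → ℝ) (X δ₁ ρ₁ B ε₁ : ℝ) (N : ℕ) :
    Prop :=
  ∀ (a : Bc) (ps : List Pq), ps.length ≤ N →
      (∀ p ∈ ps, Dq.lump p ∨ Dq.nl X p ≤ δ₁) → ∀ q ∈ Dom8 Par, Win S8 q.1 δ₁ N (B + 2) ρ₁ X a →
      (∀ t, |Dq.mass X ps t - q.2 t| ≤ δ₁) → Dq.Good X ρ₁ (B + 2) ps →
      (∀ p ∈ ps, Dq.lump p → (S8.ev X a, Dq.nl X p) ∈
        (∅ : Set (((Fin 3 ⊕ Fin 5) ⊕ Fin 3 → ℝ) × ℝ))) →
      ErC π h e0 Rf lam a ps ≤ X ^ (E8 L0 q + ε₁)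

/-- the input `P1M` for one `lam` and scale -/
def In9 (π : Λ → DPar) (h : ℝ → ℝ) (e0 : ℝ) (Rf : Λ → ℝ) (lam : Λ × Eis)
    (Par : Set (Fin 3 ⊕ Fin 5 → ℝ)) (L0 : (Fin 3 ⊕ Fin 5 → ℝ) → ℝ) (X δ₁ ρ₁ B ε₁ : ℝ) (N : ℕ) :
    Prop :=
  ∀ (a : Bm) (ps : List Pq), ps.length ≤ N →
      (∀ p ∈ ps, Dq.lump p ∨ Dq.nl X p ≤ δ₁) → ∀ q ∈ Dom9 Par, Win S9 q.1 δ₁ N (B + 2) ρ₁ X a →
      (∀ t, |Dq.mass X ps t - q.2 t| ≤ δ₁) → Dq.Good X ρ₁ (B + 2) ps →
      (∀ p ∈ ps, Dq.lump p → (S9.ev X a, Dq.nl X p) ∈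
        (∅ : Set ((((Fin 3 ⊕ Fin 5) ⊕ Fin 3) ⊕ Fin 2 → ℝ) × ℝ))) →
      MmC π h e0 Rf lam a ps ≤ X ^ (E9 L0 q + ε₁)

/-- the bound of the children with `β ∉ T` -/
def WH (X δ Rl R : ℝ) (a : Bd) {m : ℕ} (ps : Fin m → Pq) : ℝ :=
  X ^ (5 * δ) * (2 * Real.exp Rl * Real.exp a.l) *
    Real.exp (∑ i, (ps i).z + ∑ j, (vsO a j).z + R * (m + 3))

lemma cube_eq (hX : 0 < X) : X ^ 3 = Real.exp (3 * Real.log X) := by
  rw [mul_comm, Real.exp_mul, Real.exp_log hX]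
  norm_cast

/-- lengths -/
lemma prod_fam (P : DPar) (t₀ : Eis) (R : ℝ) {m : ℕ} (ps : Fin m → Pq) :
    ∏ i, ((fam P t₀ ps (vsO a) i).Y * Real.exp R) =
      Real.exp (∑ i, (ps i).z + ∑ j, (vsO a j).z + R * (m + 3)) := by
  rw [Fintype.prod_sum_type]
  have e1 : ∀ i, (fam P t₀ ps (vsO a) (.inl i)).Y * Real.exp R = Real.exp ((ps i).z + R) :=
    fun i => by rw [Real.exp_add]; rfl
  have e2 : ∀ j, (fam P t₀ ps (vsO a) (.inr j)).Y * Real.exp R =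
      Real.exp ((vsO a j).z + R) := fun i => by rw [Real.exp_add]; rfl
  simp_rw [e1, e2]
  rw [← Real.exp_sum, ← Real.exp_sum, ← Real.exp_add, sum_add_distrib, sum_add_distrib]
  congr 1
  rw [sum_const, sum_const, card_univ, card_univ, Fintype.card_fin, Fintype.card_fin,
    nsmul_eq_mul, nsmul_eq_mul]
  push_cast
  ring

lemma prod_l (P : DPar) (t₀ : Eis) (R : ℝ) {m : ℕ} (ps : Fin m → Pq) :
    ∏ i, ((fam P t₀ ps (vsO a) (.inl i)).Y * Real.exp R) =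
      Real.exp (∑ i, (ps i).z + R * m) := by
  have e1 : ∀ i, (fam P t₀ ps (vsO a) (.inl i)).Y * Real.exp R = Real.exp ((ps i).z + R) :=
    fun i => by rw [Real.exp_add]; rfl
  simp_rw [e1]
  rw [← Real.exp_sum, sum_add_distrib, sum_const, card_univ, Fintype.card_fin, nsmul_eq_mul]
  congr 2
  ring

set_option maxHeartbeats 4000000 in
/-- **the bound for one datum** -/
theorem errF_m (m : ℕ) {ε' : ℝ} (hε' : 0 < ε') (H : ℝ) : ∃ C : ℝ, 0 ≤ C ∧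
    ∀ {c R Hw M Cs r X δ δ₁ ρ ρ₁ B ε₁ e0 : ℝ} {N : ℕ} {Λ : Type*} {π : Λ → DPar} {h : ℝ → ℝ}
      {Rf : Λ → ℝ} {lam : Λ × Eis} {a : Bd} {p : Fin 3 ⊕ Fin 5 → ℝ}
      {Par : Set (Fin 3 ⊕ Fin 5 → ℝ)} {L0 : (Fin 3 ⊕ Fin 5 → ℝ) → ℝ},
      0 < c → (∀ u, cx h u ≠ 0 → |u| ≤ R) → (∀ u, ‖cx h u‖ ≤ H) →
      (∀ u, ‖((FE47.hD u : ℝ) : ℂ)‖ ≤ Hw) → 0 ≤ M → SepE h c R M Cs → SepM h c R M Cs → 1 ≤ Cs →
      R ≤ r → r ≤ Real.log X → 0 ≤ Rf lam.1 → Siz X H Hw e0 (Rf lam.1) R →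
      2 * X ^ ρ ≤ X ^ ρ₁ → 0 ≤ ρ → ρ ≤ ρ₁ → 320 * δ ≤ δ₁ → 0 ≤ B →
      100 * ((N : ℝ) + 3 + 1) ≤ ρ * M → 0 ≤ L0 p → 0 ≤ ε₁ → p ∈ Par →
      In8 π h e0 Rf lam Par L0 X δ₁ ρ₁ B ε₁ N → In9 π h e0 Rf lam Par L0 X δ₁ ρ₁ B ε₁ N →
      ∀ (q₁ : List Pq), q₁.length = m →
      Fr (π lam.1) lam.2 p X δ ρ B R N a (fun i => q₁.get i) →
      ErrF π h (SfP π h e0 r bfO Jo nL) Rf lam a q₁ ≤
        C * (X ^ 3) ^ ε' * ((1 + ‖(pC : ℂ)‖ ^ 2) *
          (Cs ^ (N + 3) * WO L0 p X δ ε₁ R N a (fun i => q₁.get i) +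
            C * (X ^ 3) ^ ε' * WH X δ (Rf lam.1) R a (fun i => q₁.get i))) := by
  obtain ⟨C1, hC1, key1⟩ := err_listT (Fin m) (Fin 3) hε'
  obtain ⟨C2, hC2, key2⟩ := child_hb (Fin m) (Fin 3) hε' H
  refine ⟨max C1 C2, le_max_of_le_left hC1, ?_⟩
  intro c R Hw M Cs r X δ δ₁ ρ ρ₁ B ε₁ e0 N Λ π h Rf lam a p Par L0 hc hR hH hHw hM hsE hsM hCs
    hr hrX hRf hS hρ hρ0 hρ1 hδ₁ hB hMρ hL0 hε₁ hPar H8 H9 q₁ hq F
  subst hq
  have hL := F.L0
  have hX0 : 0 < X := by linarith [F.X1]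
  have hX1 := F.X1.le
  have hR0 := F.R0
  have hX3 : (1 : ℝ) ≤ X ^ 3 := one_le_pow₀ hX1
  have hWpos : 0 < WO L0 p X δ ε₁ R N a (fun i => q₁.get i) := by unfold WO; positivity
  have hWH : 0 < WH X δ (Rf lam.1) R a (fun i => q₁.get i) := by unfold WH; positivity
  have hYT : 0 ≤ YT a.l (a3 a) a.z := YT_nonneg _ _ _
  -- sizes
  have htot := abs_le.1 F.tot
  have haz := abs_le.1 F.az
  have hlz := abs_le.1 F.lz
  have hvs := abs_le.1 F.vsum
  have hRm := F.Rm'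
  have hdL0 : 0 ≤ δ * Real.log X := mul_nonneg F.d0 hL.le
  have hd1 := F.d1
  have hmR : 0 ≤ (q₁.length : ℝ) * R := by positivity
  have hdL : δ * Real.log X ≤ 1 / 240 * Real.log X :=
    mul_le_mul_of_nonneg_right (by linarith) hL.le
  have hxL : cx' p * Real.log X ≤ 1 / 3 * Real.log X :=
    mul_le_mul_of_nonneg_right F.par.x1 hL.le
  have hNL : cN p * Real.log X ≤ 1 * Real.log X := mul_le_mul_of_nonneg_right F.par.N1 hL.le
  have hl0 : 0 ≤ a.l := l_nonneg F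
  refine (errF_le_M2 (r := r)).trans ?_
  set ζ : ℝ := ∑ i : Fin q₁.length, (q₁.get i).z + 3 * R * q₁.length with hζ
  have hZX : Real.exp ζ ≤ X ^ 3 := by
    rw [cube_eq hX0, hζ]
    exact Real.exp_le_exp.2 (by nlinarith)
  have hYX : ((Yr r a : ℕ) : ℝ) ≤ X ^ 3 := by
    unfold Yr
    refine (Nat.floor_le (Real.exp_pos _).le).trans ?_
    rw [cube_eq hX0]
    exact Real.exp_le_exp.2 (by nlinarith)
  have hBB : 0 ≤ Cs ^ (N + 3) * WO L0 p X δ ε₁ R N a (fun i => q₁.get i) +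
      C2 * (X ^ 3) ^ ε' * WH X δ (Rf lam.1) R a (fun i => q₁.get i) := by positivity
  have k1 := key1 (X ^ 3) hX3 hR
    (s := fam (π lam.1) lam.2 (fun i => q₁.get i) (vsO a))
    (fam_OK (π lam.1) lam.2 F.hP _ (vsO a)) hYX (Real.exp_pos ζ).le hZX
    (fun i b hb => supp_fam hR F hr i b hb) ((le_of_eq (prod_l _ _ R _)).trans
      (Real.exp_le_exp.2 (by rw [hζ]; nlinarith)))
    (D := Real.sqrt (YT a.l (a3 a) a.z)) (Y₀ := 1 / 10) (Y₁ := YT a.l (a3 a) a.z)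
    (D' := Real.sqrt (YT a.l (a3 a) a.z) * Real.exp ζ) (Y₀' := 1 / 10)
    (Y₁' := YT a.l (a3 a) a.z * Real.exp ζ ^ 2)
    (Real.sqrt_nonneg _) (by norm_num) hYT (by rw [Real.sq_sqrt hYT]) (by positivity)
    (by norm_num) (by rw [mul_pow, Real.sq_sqrt hYT]) le_rfl
    (o := oN (nO a)) (fun z hz => oN_supp hz) (E0 := Real.exp (e0 * a.l)) (Real.exp_pos _).le
    (T := PTb (Fin 3) (Yr r a) (Real.exp (bfO a.l (∑ j, (vsO a j).z) a.z)))
    (PTb_sub _ _) (pC : ℂ) (u := uM (Rf lam.1) (Real.exp a.l) (Real.exp (a.l / 20)))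
    (uM_nonneg _ _ _) (uM_fin (Real.exp_pos _)) hBB
    (by
      intro γ β g hγ hβ hg x hx y hy
      obtain ⟨-, pg, -⟩ := (mem_S (Real.exp_pos ζ).le).1 hg
      obtain ⟨hβ1, hβ2⟩ := mem_PTb.1 hβ
      have pβ := mem_PT hβ1
      have h0 : (0 : ℝ) < nm (∏ j, β j) := by linarith [nmP pβ]
      have h1 := hch_of (L0 := L0) (ε₁ := ε₁) hc hR hH hHw hM hsE hCs F hS hρ hρ0 hρ1 hδ₁ hB hMρ
        hL0 hε₁ hPar H8 (mem_PT hγ) pβ pg hx hy ((Real.log_le_iff_le_exp h0).2 hβ2)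
      refine h1.trans (mul_le_mul_of_nonneg_right ?_ (sf_pos (mem_PT hγ) pβ pg).le)
      exact le_add_of_nonneg_right (by positivity))
    (by
      intro γ β g hγ hβ hβT hg x hx y hy
      obtain ⟨-, pg, -⟩ := (mem_S (Real.exp_pos ζ).le).1 hg
      have h1 := key2 (X ^ 3) hX3 (K := 2 * Real.exp (Rf lam.1) * Real.exp a.l)
        (N := Real.exp (∑ i : Fin q₁.length, (q₁.get i).z + ∑ j, (vsO a j).z +
          R * (q₁.length + 3))) (U := 1)
        (B0 := Real.exp (bfO a.l (∑ j, (vsO a j).z) a.z)) (ρ := X ^ (5 * δ))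
        (by
          have h2 := Real.one_le_exp hl0
          have h3 := Real.one_le_exp hRf
          nlinarith)
        (by
          have h3 := exp_l_le F le_rfl hl0
          rw [one_mul] at h3
          calc 2 * Real.exp (Rf lam.1) * Real.exp a.l ≤ X * X ^ 2 :=
                mul_le_mul hS.r h3 (Real.exp_pos _).le hX0.le
            _ = X ^ 3 := by ring)
        (by
          rw [cube_eq hX0]
          exact Real.exp_le_exp.2 (by nlinarith))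
        (Real.one_le_rpow hX1 (by linarith [F.d0])) (Real.exp_pos _)
        (by
          rw [Real.rpow_def_of_pos hX0, ← Real.exp_sub, ← Real.exp_nat_mul]
          have h3 : Real.exp a.l ≤ 2 * Real.exp (Rf lam.1) * Real.exp a.l :=
            le_mul_of_one_le_left (Real.exp_pos _).le (by linarith [Real.one_le_exp hRf])
          refine le_trans ?_ (mul_le_mul_of_nonneg_left h3 (Real.exp_pos _).le)
          rw [← Real.exp_add]
          refine Real.exp_le_exp.2 ?_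
          unfold bfO
          push_cast
          nlinarith)
        (u := uM (Rf lam.1) (Real.exp a.l) (Real.exp (a.l / 20)))
        (uM_nonneg _ _ _) (uM_le_one _ _ _)
        (fun k hk => ⟨(uM_supp (Real.exp_pos _) hk).1.ne_zero,
          (uM_supp (Real.exp_pos _) hk).2⟩) hR hH
        (s := fam (π lam.1) lam.2 (fun i => q₁.get i) (vsO a))
        (fam_OK (π lam.1) lam.2 F.hP _ (vsO a)) (le_of_eq (prod_fam _ _ R _))
        (Y := Yr r a) (Real.exp_pos ζ).le γ β g hγ hβ hβT hg x hx y hy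
      refine h1.trans (mul_le_mul_of_nonneg_right ?_ (sf_pos (mem_PT hγ) (mem_PT hβ) pg).le)
      rw [one_mul]
      refine le_add_of_nonneg_of_le (by positivity) (le_of_eq ?_)
      unfold WH
      rfl)
    (by
      intro γ β g hγ hβ hg
      obtain ⟨-, pg, sg⟩ := (mem_S (Real.exp_pos ζ).le).1 hg
      obtain ⟨hβ1, hβ2⟩ := mem_PTb.1 hβ
      have pβ := mem_PT hβ1
      have h0 : (0 : ℝ) < nm (∏ j, β j) := by linarith [nmP pβ]
      have h1 := hmm_of (L0 := L0) (ε₁ := ε₁) hc hR hH hHw hM hsM hCs F hS hρ hρ0 hρ1 hδ₁ hB hMρ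
        hL0 hε₁ hPar H9 (mem_PT hγ) pβ pg sg ((Real.log_le_iff_le_exp h0).2 hβ2) hζ
      refine le_trans h1 (mul_le_mul_of_nonneg_right ?_ (sf_pos (mem_PT hγ) pβ pg).le)
      exact le_add_of_nonneg_right (by positivity))
  refine k1.trans ?_
  have hX3' : 0 ≤ (X ^ 3) ^ ε' := by positivity
  have hm1 : C1 * (X ^ 3) ^ ε' ≤ max C1 C2 * (X ^ 3) ^ ε' :=
    mul_le_mul_of_nonneg_right (le_max_left _ _) hX3'
  refine mul_le_mul hm1 (mul_le_mul_of_nonneg_left (add_le_add_right ?_ _) (by positivity))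
    (by positivity) (by positivity)
  exact mul_le_mul_of_nonneg_right (mul_le_mul_of_nonneg_right (le_max_right _ _) hX3') hWH.le

end

end Crest.Agent.R017.P1s54
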