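import Crest.Agent.R017.P1X4_960
import Crest.Agent.R017.P1X5_960
import Crest.Agent.R017.P1s_54

/-!
# Row 17, exceptional class, P1X, part 6 (helper960): the frame

* `cube_nm` : cubes are not in the range of the error moment
* `repA`, `repP` : the base datum with the replaced pair, its parameters
* `FrX` : the frame (54's `Fr` for the natural and the replaced datum)
* `Sd` : one side (natural or replaced);  `chiX_of` : the data of a child
-/

set_option autoImplicit false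

noncomputable section

open Finset
open scoped ComplexConjugate

namespace Crest.Agent.R017.P1X960

open Crest.Agent.R012 Crest.Agent.R012.Eis
open Crest.Agent.R012.Mob705 hiding pb mem_pb
open Crest.Agent.R012.LS2 (S mem_S)
open Crest.Agent.R017.CM106 Crest.Agent.R017.C70
open Crest.Agent.R017.FE47 (PU cx SM)
open Crest.Agent.R017.StD828 (ln Tm)
open Crest.Agent.R017.E2440 (TE StE Bth Bth_nonneg)
open Crest.Agent.R017.E5k54 (PT alb)
open Crest.Agent.R017.SSb54 (SST SSb PTb mem_PTb PTb_sub)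
open Crest.Agent.R017.P1e54 Crest.Agent.R017.P1f54 Crest.Agent.R017.P1i54 Crest.Agent.R017.P1j54
open Crest.Agent.R017.P1k54 Crest.Agent.R017.P1o54
open Crest.Agent.R017.P1l54 (chP chP_lump Pt_OK fam fam_OK mod_ne reY_chS al_fam ParOK)
open Crest.Agent.R017.P1n54 (tlen tlen_nonneg Chi)
open Crest.Agent.R017.P1p54
open Crest.Agent.R017.HP842 (Pc pc al alL cv Tu mem_Tu sqc Th)
open Crest.Agent.R017.B770 Crest.Agent.R017.Prov71
open Crest.Agent.R017.XG702 (Pcs Good_mono)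
open Crest.Agent.R017.XT71 (Sys Win mx mx_le le_mx)
open Crest.Agent.R017.UM71
open Crest.Agent.R017.E5B71 Crest.Agent.R017.E5P571 Crest.Agent.R017.E5L770
open Crest.Agent.R017.ExP960 Crest.Agent.R017.Sf770
open Crest.Agent.R017.E5LX770 (nB)

/-! ### cubes -/

/-- a cube in the range of the cut is small -/
lemma cube_nm {k w : Eis} (hk : IsPrim k) (hw : k = w ^ 3) {E₁ : ℝ} (hc : cutE E₁ k) :
    (nm k : ℝ) ≤ E₁ ^ 3 := by
  have h1 : ¬ lam ∣ w := fun h => hk.not_lam_dvd (by rw [hw]; exact dvd_pow h (by norm_num))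
  obtain ⟨c, hc1, hc2⟩ := exists_isPrim_associated h1
  have h2 : c ^ 3 ∣ k := by rw [hw]; exact (hc2.pow_pow (n := 3)).symm.dvd
  have h3 := hc c hc1 h2
  have h4 : nm k = nm c ^ 3 := by rw [hw, nm_pow, nm_eq_of_associated hc2]
  rw [h4]
  push_cast
  exact pow_le_pow_left₀ (Nat.cast_nonneg _) h3 3

/-! ### the replaced datum -/

/-- the base datum with the replaced pair -/
def repA (a : BdX) : Bd :=
  { a.toBd with us := ![a.us 0, a.us 1, stz (a.us 2) (a.zs 2), stz (a.us 3) (a.zs 3), a.us 4] }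

lemma vsO_nat (a : BdX) : vsO a.toBd = u3 a := by
  funext j
  fin_cases j <;> rfl

lemma vsO_rep (a : BdX) : vsO (repA a) = u3' a := by
  funext j
  fin_cases j <;> rfl

/-- the replaced parameters -/
def repP (p : IX5 → ℝ) : Fin 3 ⊕ Fin 5 → ℝ :=
  Sum.elim (fun i => p (.inl (.inl i))) ![cu (prX p) 0, cu (prX p) 1, p (.inr 1),
    cu (prX p) 2 + cu (prX p) 3 - p (.inr 1), cu (prX p) 4]

lemma cκ_rep (p : IX5 → ℝ) : cκ (repP p) = cκ (prX p) := rfl
lemma cx_rep (p : IX5 → ℝ) : cx' (repP p) = cx' (prX p) := rfl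
lemma cu_rep2 (p : IX5 → ℝ) : cu (repP p) 2 = p (.inr 1) := rfl
lemma cu_rep3 (p : IX5 → ℝ) : cu (repP p) 3 = cu (prX p) 2 + cu (prX p) 3 - p (.inr 1) := rfl
lemma cu_rep4 (p : IX5 → ℝ) : cu (repP p) 4 = cu (prX p) 4 := rfl

lemma cN_rep (p : IX5 → ℝ) : cN (repP p) = cN (prX p) := by
  unfold cN
  rw [cu_rep2, cu_rep3, cu_rep4]
  ring

lemma ParX.pos {β : ℝ} {p : IX5 → ℝ} (h : ParX β p) : 0 ≤ p (.inr 1) := by
  have h1 := (h.zr 1).1
  have h2 : 0 ≤ β * cκ (prX p) := mul_nonneg h.β0 (by linarith [h.κ0])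
  exact h2.trans h1

lemma ParX.parN {β : ℝ} {p : IX5 → ℝ} (h : ParX β p) : ParOK (prX p) :=
  ⟨h.κ0, h.κ1, h.u0, by linarith [h.N0, h.κ0], h.N1, h.x0, h.x1⟩

lemma ParX.parR {β : ℝ} {p : IX5 → ℝ} (h : ParX β p) : ParOK (repP p) := by
  refine ⟨h.κ0, h.κ1, fun i => ?_, ?_, by rw [cN_rep]; exact h.N1, h.x0, h.x1⟩
  · have h1 := (h.zr 1).2
    have h2 := h.βu
    have h3 := h.u0 3
    fin_cases i
    · exact h.u0 0
    · exact h.u0 1
    · exact h.pos
    · show 0 ≤ cu (prX p) 2 + cu (prX p) 3 - p (.inr 1)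
      linarith
    · exact h.u0 4
  · rw [cN_rep, cκ_rep]
    linarith [h.N0, h.κ0]

lemma rep_ok {a : BdX} (h : a.ok) : (repA a).ok := by
  obtain ⟨h1, h2, h3⟩ := h.base
  refine ⟨fun i => ?_, h2, h3⟩
  fin_cases i
  · exact h1 0
  · exact h1 1
  · exact ⟨⟨(h1 2).1.1, (h1 2).1.2⟩, h.z0 2⟩
  · exact ⟨⟨(h1 3).1.1, (h1 3).1.2⟩, h.z0 3⟩
  · exact h1 4

lemma sum_rep {a : BdX} (h : a.ok) : ∑ j, (vsO (repA a) j).z = a3 a.toBd := by
  rw [vsO_rep]
  exact sum_u3' h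

lemma sum_nat (a : BdX) : ∑ j, (vsO a.toBd j).z = a3 a.toBd := by
  rw [vsO_nat]
  exact sum_u3 a

lemma win_rep {a : BdX} (ha : a.ok) {p : IX5 → ℝ} {X δ ρ B : ℝ} {N : ℕ} (hX : 1 < X)
    (hδ : 0 ≤ δ) (hρ : 0 ≤ ρ) (hB : 0 ≤ B) (hw : Win S5X p δ N B ρ X a) :
    Win S5 (repP p) (3 * δ) N B ρ X (repA a) := by
  have hL : 0 < Real.log X := Real.log_pos hX
  have hs₁ : max (1 + |a.τ|) (mx Dq.s1 (List.ofFn a.us)) ≤ X ^ ρ := hw.s₁
  have hs₂ : max (nm a.d₃ : ℝ) (mx Dq.s2 (List.ofFn a.us)) ≤ X ^ B := hw.s₂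
  have e1 : ∀ i, (1 + |(a.us i).t|) ≤ X ^ ρ := fun i =>
    le_trans (le_mx (f := Dq.s1) (List.mem_ofFn.2 ⟨i, rfl⟩)) ((le_max_right _ _).trans hs₁)
  have e2 : ∀ i, (nm (a.us i).d : ℝ) ≤ X ^ B := fun i =>
    le_trans (le_mx (f := Dq.s2) (List.mem_ofFn.2 ⟨i, rfl⟩)) ((le_max_right _ _).trans hs₂)
  refine ⟨fun i => ?_, ?_, ?_, ?_, ?_⟩
  · rcases i with i | i
    · have h1 := hw.ev (.inl (.inl i))
      have h2 : |S5.ev X (repA a) (.inl i) - repP p (.inl i)| ≤ δ := h1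
      linarith
    · fin_cases i
      · have h1 := hw.ev (.inl (.inr 0))
        have h2 : |S5.ev X (repA a) (.inr 0) - repP p (.inr 0)| ≤ δ := h1
        exact h2.trans (by linarith)
      · have h1 := hw.ev (.inl (.inr 1))
        have h2 : |S5.ev X (repA a) (.inr 1) - repP p (.inr 1)| ≤ δ := h1
        exact h2.trans (by linarith)
      · have h1 := hw.ev (.inr 1)
        have h2 : |S5.ev X (repA a) (.inr 2) - repP p (.inr 2)| ≤ δ := h1
        exact h2.trans (by linarith)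
      · have h1 := abs_le.1 (hw.ev (.inr 1))
        have h2 := abs_le.1 (hw.ev (.inl (.inr 2)))
        have h3 := abs_le.1 (hw.ev (.inl (.inr 3)))
        have g1 : S5X.ev X a (.inr 1) = a.zs 2 / Real.log X := rfl
        have g2 : S5X.ev X a (.inl (.inr 2)) = (a.us 2).z / Real.log X := rfl
        have g3 : S5X.ev X a (.inl (.inr 3)) = (a.us 3).z / Real.log X := rfl
        rw [g1] at h1
        rw [g2] at h2
        rw [g3] at h3
        show |a.zs 3 / Real.log X - (p (.inl (.inr 2)) + p (.inl (.inr 3)) - p (.inr 1))| ≤ 3 * δ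
        have g4 : a.zs 3 / Real.log X = (a.us 2).z / Real.log X + (a.us 3).z / Real.log X -
            a.zs 2 / Real.log X := by
          rw [← add_div, ← sub_div]
          congr 1
          linarith [ha.s23]
        rw [g4, abs_le]
        constructor <;> linarith
      · have h1 := hw.ev (.inl (.inr 4))
        have h2 : |S5.ev X (repA a) (.inr 4) - repP p (.inr 4)| ≤ δ := h1
        exact h2.trans (by linarith)
  · show (1 : ℝ) ≤ X ^ (3 * δ)
    exact Real.one_le_rpow hX.le (by linarith)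
  · exact Nat.zero_le _
  · refine max_le ((le_max_left _ _).trans hs₁) ?_
    rw [mx_le (Real.one_le_rpow hX.le hρ)]
    intro q hq
    obtain ⟨j, rfl⟩ := (List.mem_ofFn' _ _).1 hq
    fin_cases j
    · exact e1 0
    · exact e1 1
    · exact e1 2
    · exact e1 3
    · exact e1 4
  · refine max_le ((le_max_left _ _).trans hs₂) ?_
    rw [mx_le (Real.one_le_rpow hX.le hB)]
    intro q hq
    obtain ⟨j, rfl⟩ := (List.mem_ofFn' _ _).1 hq
    fin_cases j
    · exact e2 0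
    · exact e2 1
    · exact e2 2
    · exact e2 3
    · exact e2 4

/-! ### the frame -/

/-- the frame -/
structure FrX (P : DPar) (t₀ : Eis) (β : ℝ) (p : IX5 → ℝ) (X δ ρ B R : ℝ) (N : ℕ) (a : BdX)
    {m : ℕ} (ps : Fin m → Pq) : Prop where
  nat : Fr P t₀ (prX p) X δ ρ B R N a.toBd ps
  rep : Fr P t₀ (repP p) X δ ρ B R N (repA a) ps
  ok : a.ok
  par : ParX β p
  b3 : β * cκ (prX p) ≤ cu (prX p) 3
  w : Win S5X p δ N B ρ X a

/-- one side -/
structure Sd (P : DPar) (t₀ : Eis) (β : ℝ) (p : IX5 → ℝ) (X δ ρ B R : ℝ) (N : ℕ) (a : BdX)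
    {m : ℕ} (ps : Fin m → Pq) (D : Bd) (pD : Fin 3 ⊕ Fin 5 → ℝ) : Prop where
  F : Fr P t₀ pD X δ ρ B R N D ps
  l : D.l = a.l
  z : D.z = a.z
  s : ∑ j, (vsO D j).z = a3 a.toBd
  κ : cκ pD = cκ (prX p)
  x : cx' pD = cx' (prX p)
  N' : cN pD = cN (prX p)
  /-- the lists which lost at least `β κ` -/
  L : ∀ v : Fin 3 → ℝ, (∀ i, v i ≤ cu pD (Fin.natAdd 2 i)) →
    ∑ i, v i ≤ cN (prX p) - β * cκ (prX p) → SinL β p (v 0) (v 1) (v 2)

variable {P : DPar} {t₀ : Eis} {β c : ℝ} {p : IX5 → ℝ} {X δ δ₁ ρ ρ₁ B R : ℝ} {N : ℕ} {a : BdX}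
  {m : ℕ} {ps : Fin m → Pq} {D : Bd} {pD : Fin 3 ⊕ Fin 5 → ℝ}

lemma FrX.sd1 (F : FrX P t₀ β p X δ ρ B R N a ps) :
    Sd P t₀ β p X δ ρ B R N a ps a.toBd (prX p) where
  F := F.nat
  l := rfl
  z := rfl
  s := sum_nat a
  κ := rfl
  x := rfl
  N' := rfl
  L := fun v h1 h2 => by
    refine ⟨Or.inl ⟨h1 0, h1 1, h1 2⟩, ?_⟩
    rw [Fin.sum_univ_three] at h2
    linarith

lemma FrX.sd2 (F : FrX P t₀ β p X δ ρ B R N a ps) :
    Sd P t₀ β p X δ ρ B R N a ps (repA a) (repP p) where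
  F := F.rep
  l := rfl
  z := rfl
  s := sum_rep F.ok
  κ := rfl
  x := rfl
  N' := cN_rep p
  L := fun v h1 h2 => by
    refine ⟨Or.inr ⟨h1 0, h1 1, h1 2⟩, ?_⟩
    rw [Fin.sum_univ_three] at h2
    linarith

/-- the total of the lumps -/
lemma FrX.a3b (F : FrX P t₀ β p X δ ρ B R N a ps) :
    |a3 a.toBd - cN (prX p) * Real.log X| ≤ 3 * δ * Real.log X := by
  have h := F.nat.vsum
  rwa [sum_nat] at h

/-- the top of the levels -/
lemma FrX.tO_le (F : FrX P t₀ β p X δ ρ B R N a ps) :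
    tO a.toBd ≤ (top5 (prX p) + 10 * δ) * Real.log X := by
  have hL := F.nat.L0
  have h1 := top5_lip (S5.ev X a.toBd) (prX p) δ F.nat.d0 (fun i => F.w.ev (.inl i))
  have h2 : top5 (S5.ev X a.toBd) * Real.log X = tO a.toBd := by
    have e1 : cN (S5.ev X a.toBd) = a3 a.toBd / Real.log X := by
      show (a.us 2).z / Real.log X + (a.us 3).z / Real.log X + (a.us 4).z / Real.log X = _
      rw [← add_div, ← add_div]; rfl
    have e2 : cκ (S5.ev X a.toBd) = a.l / Real.log X := rfl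
    have e3 : cx' (S5.ev X a.toBd) = a.z / Real.log X := rfl
    unfold top5 tO
    rw [e1, e2, e3, add_mul, min_mul_of_nonneg _ _ hL.le]
    congr 1
    · congr 1 <;> field_simp
    · field_simp
  rw [← h2]
  exact mul_le_mul_of_nonneg_right h1 hL.le

/-- **the data of a child** -/
theorem chiX_of (F : FrX P t₀ β p X δ ρ B R N a ps) (S : Sd P t₀ β p X δ ρ B R N a ps D pD)
    (hc0 : 0 ≤ c) (hc1 : c ≤ 1) {vs : Fin 3 → Pq} {qs : List Pq}
    (hC : Chi pD X δ δ₁ ρ₁ (B + 2) N D vs qs) {b Dl s : ℝ} (b0 : 0 ≤ b)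
    (b1 : 2 * b ≤ tO a.toBd + 2 * (c * a.l))
    (c1 : b + ∑ j, (vs j).z ≤ a3 a.toBd + δ * Real.log X)
    (dz : (Dl - 40 * δ) * Real.log X ≤ (vs 0).z)
    (c3 : ∑ j, (vs j).z ≤ a3 a.toBd - s * Real.log X + 5 * δ * Real.log X) :
    ChiX c p (fun i => cu pD (Fin.natAdd 2 i)) Dl s X (40 * δ) δ₁ ρ₁ (B + 2) N vs b qs := by
  have hL := F.nat.L0
  have hδL : 0 ≤ δ * Real.log X := mul_nonneg F.nat.d0 hL.le
  have h3 := abs_le.1 F.a3b
  have hsum : ∑ i : Fin 3, cu pD (Fin.natAdd 2 i) = cN (prX p) := by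
    rw [Fin.sum_univ_three, ← S.N']; rfl
  refine ⟨hC.lump, hC.z0, fun j => ?_, hC.s1, hC.s2, hC.am, hC.y0, hC.y1, hC.t1, hC.t2, hC.len,
    ?_, b0, ?_, ?_, dz, ?_⟩
  · have h1 := hC.z1 j
    have h2 := (abs_le.1 (S.F.vz j)).2
    have h4 : (vs j).z ≤ cu pD (Fin.natAdd 2 j) * Real.log X + 2 * (δ * Real.log X) := by
      have : (vsO D j).z = (D.us (Fin.natAdd 2 j)).z := rfl
      linarith
    show (vs j).z ≤ (cu pD (Fin.natAdd 2 j) + 40 * δ) * Real.log X
    nlinarith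
  · have h1 := hC.tot
    rw [S.x] at h1
    nlinarith
  · have h1 := F.tO_le
    have h2 := (abs_le.1 F.nat.lz).2
    have h4 : c * a.l ≤ c * (cκ (prX p) * Real.log X + δ * Real.log X) :=
      mul_le_mul_of_nonneg_left (by linarith) hc0
    have h5 : c * (δ * Real.log X) ≤ 1 * (δ * Real.log X) := mul_le_mul_of_nonneg_right hc1 hδL
    unfold th5
    nlinarith
  · rw [hsum]
    nlinarith
  · rw [hsum]
    nlinarith

end Crest.Agent.R017.P1X960
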