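import Crest.Agent.R017.P1X6_960

/-!
# Row 17, exceptional class, P1X, part 7 (helper960): single lists

* `In8X`, `In9X` : the inputs for one `lam` and scale
* `child_num` : lengths of a child
* `hchS` : the error moment of a single list which lost at least `β κ`
-/

set_option autoImplicit false

noncomputable section

open Finset
open scoped ComplexConjugate

namespace Crest.Agent.R017.P1X960

open Crest.Agent.R012 Crest.Agent.R012.Eis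
open Crest.Agent.R012.Mob705 hiding pb mem_pb
open Crest.Agent.R012.LS2 (S mem_S)
open Crest.Agent.R017.CM106 Crest.Agent.R017.C70
open Crest.Agent.R017.FE47 (PU cx SM)
open Crest.Agent.R017.StD828 (ln Tm)
open Crest.Agent.R017.E2440 (TE StE Bth Bth_nonneg)
open Crest.Agent.R017.E5k54 (PT alb)
open Crest.Agent.R017.SSb54 (SST SSb PTb mem_PTb PTb_sub)
open Crest.Agent.R017.P1e54 Crest.Agent.R017.P1f54 Crest.Agent.R017.P1i54 Crest.Agent.R017.P1j54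
open Crest.Agent.R017.P1k54 Crest.Agent.R017.P1o54
open Crest.Agent.R017.P1l54 (chP chP_lump Pt_OK fam fam_OK mod_ne reY_chS al_fam ParOK oN)
open Crest.Agent.R017.P1n54 (tlen tlen_nonneg Chi)
open Crest.Agent.R017.P1p54
open Crest.Agent.R017.P1q54 (sqc_zero Er_zero M2_Er_zero Mm_zero_left Mm_zero_right Mm_zero_of
  SepE SepM WO Siz YT_le nO_le YT_nonneg exp_l_le l_nonneg us_le Y3_le sumz_le)
open Crest.Agent.R017.HP842 (Pc pc al alL cv Tu mem_Tu sqc Th)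
open Crest.Agent.R017.B770 Crest.Agent.R017.Prov71
open Crest.Agent.R017.XG702 (Pcs Good_mono)
open Crest.Agent.R017.XT71 (Sys Win mx mx_le le_mx)
open Crest.Agent.R017.UM71
open Crest.Agent.R017.E5B71 Crest.Agent.R017.E5P571 Crest.Agent.R017.E5L770
open Crest.Agent.R017.ExP960 Crest.Agent.R017.Sf770
open Crest.Agent.R017.E5LX770 (nB)
open Crest.Agent.R017.HBsB445 (prod_ch1 prod_chS sf_pos)

attribute [local irreducible] HP842.Tu

/-- the input for one `lam` and scale -/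
def In8X (Ψ : BcX → List Pq → ℝ) (c β : ℝ) (Par : Set (Fin 3 ⊕ Fin 5 → ℝ))
    (L : (IX5 → ℝ) → ℝ → ℝ → ℝ → Prop) (L0 : (Fin 3 ⊕ Fin 5 → ℝ) → ℝ) (X δ₁ ρ₁ B₁ ε₁ : ℝ)
    (N : ℕ) : Prop :=
  ∀ (a : BcX) (ps : List Pq), ps.length ≤ N →
      (∀ p ∈ ps, Dq.lump p ∨ Dq.nl X p ≤ δ₁) → ∀ q ∈ Dom8X c β Par L,
      Win S8X q.1 δ₁ N B₁ ρ₁ X a →
      (∀ t, |Dq.mass X ps t - q.2 t| ≤ δ₁) → Dq.Good X ρ₁ B₁ ps →
      (∀ p ∈ ps, Dq.lump p → (S8X.ev X a, Dq.nl X p) ∈ (∅ : Set ((I8X → ℝ) × ℝ))) →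
      Ψ a ps ≤ X ^ (E8X L0 q + ε₁)

/-- the input of the mismatch for one `lam` and scale -/
def In9X (Ψ : BmX → List Pq → ℝ) (c β : ℝ) (Par : Set (Fin 3 ⊕ Fin 5 → ℝ))
    (L : (IX5 → ℝ) → ℝ → ℝ → ℝ → Prop) (L0 : (Fin 3 ⊕ Fin 5 → ℝ) → ℝ) (X δ₁ ρ₁ B₁ ε₁ : ℝ)
    (N : ℕ) : Prop :=
  ∀ (a : BmX) (ps : List Pq), ps.length ≤ N →
      (∀ p ∈ ps, Dq.lump p ∨ Dq.nl X p ≤ δ₁) → ∀ q ∈ Dom9X c β Par L,
      Win S9X q.1 δ₁ N B₁ ρ₁ X a →
      (∀ t, |Dq.mass X ps t - q.2 t| ≤ δ₁) → Dq.Good X ρ₁ B₁ ps →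
      (∀ p ∈ ps, Dq.lump p → (S9X.ev X a, Dq.nl X p) ∈ (∅ : Set ((I8X ⊕ Fin 2 → ℝ) × ℝ))) →
      Ψ a ps ≤ X ^ (E9X L0 q + ε₁)

/-- size of the powerful tuple -/
def bw {κ : Type*} [Fintype κ] (b : κ → Eis) : ℝ := Real.log (nm (∏ j, b j))

section

variable {Λ : Type*} {π : Λ → DPar} {h : ℝ → ℝ} {e0 : ℝ} {Rf : Λ → ℝ} {lam : Λ × Eis}
  {β c : ℝ} {p : IX5 → ℝ} {X δ δ₁ ρ ρ₁ B R c₀ H Hw M Cs ε₁ : ℝ} {N : ℕ} {a : BdX}
  {m : ℕ} {ps : Fin m → Pq} {γ x : Fin m → Eis} {bt y : Fin 3 → Eis} {g : Eis}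
  {Par : Set (Fin 3 ⊕ Fin 5 → ℝ)} {L0 : (Fin 3 ⊕ Fin 5 → ℝ) → ℝ} {P : DPar} {t₀ : Eis}
  {D : Bd} {pD : Fin 3 ⊕ Fin 5 → ℝ}

lemma bw_nonneg {κ : Type*} [Fintype κ] {b : κ → Eis} (hb : ∀ i, IsPrim (b i)) : 0 ≤ bw b :=
  Real.log_nonneg (nmP hb)

lemma exp_bw {κ : Type*} [Fintype κ] {b : κ → Eis} (hb : ∀ i, IsPrim (b i)) :
    Real.exp (bw b) = nm (∏ j, b j) := Real.exp_log (by linarith [nmP hb])

/-- **lengths of a child** -/
lemma child_num (S : Sd P t₀ β p X δ ρ B R N a ps D pD) (hγ : ∀ i, IsPrim (γ i))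
    (hb : ∀ i, IsPrim (bt i)) (hg : IsPrim g) (hx : x ∈ Tu (Fin m) g) (hy : y ∈ Tu (Fin 3) g)
    {z : Fin m ⊕ Fin 3 → ℝ}
    (hz : ∀ i, |z i - Real.log (chO P t₀ D ps γ bt g x y i).Y| ≤ 2 * R) :
    |∑ j : Fin 3, z (.inr j) - (a3 a.toBd - (bw bt + Real.log (nm g)))| ≤ 6 * R ∧
      |∑ i : Fin m, z (.inl i) - (∑ i, (ps i).z - (bw γ + Real.log (nm g)))| ≤ 2 * m * R := by
  have hsr := sumY_r (P := P) (t₀ := t₀) (a := D) (ps := ps) (γ := γ) (x := x) S.F.hP hb hg hy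
  have hsl := sumY_l (P := P) (t₀ := t₀) (a := D) (ps := ps) (β := bt) (y := y) S.F.hP hγ hg hx
  rw [S.s] at hsr
  unfold bw
  rw [← hsr, ← hsl, ← sum_sub_distrib, ← sum_sub_distrib]
  constructor
  · refine (abs_sum_le_sum_abs _ _).trans ?_
    refine (sum_le_sum fun i _ => hz (.inr i)).trans (le_of_eq ?_)
    rw [sum_const, card_univ, Fintype.card_fin, nsmul_eq_mul]
    push_cast
    ring
  · refine (abs_sum_le_sum_abs _ _).trans ?_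
    refine (sum_le_sum fun i _ => hz (.inl i)).trans (le_of_eq ?_)
    rw [sum_const, card_univ, Fintype.card_fin, nsmul_eq_mul]
    ring

lemma sumz_leX (S : Sd P t₀ β p X δ ρ B R N a ps D pD) (hγ : ∀ i, IsPrim (γ i))
    (hb : ∀ i, IsPrim (bt i)) (hg : IsPrim g) (hx : x ∈ Tu (Fin m) g) (hy : y ∈ Tu (Fin 3) g)
    {z : Fin m ⊕ Fin 3 → ℝ}
    (hz : ∀ i, |z i - Real.log (chO P t₀ D ps γ bt g x y i).Y| ≤ 2 * R) :
    Real.exp (∑ j : Fin 3, z (.inr j) + ∑ i : Fin m, z (.inl i)) ≤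
      Real.exp (∑ j, (vsO a.toBd j).z + ∑ i, (ps i).z + 2 * R * (N + 3)) * sf γ bt g := by
  obtain ⟨h1, h2⟩ := child_num S hγ hb hg hx hy hz
  have h1 := (abs_le.1 h1).2
  have h2 := (abs_le.1 h2).2
  rw [log_sf hγ hb hg, ← Real.exp_add, sum_nat]
  refine Real.exp_le_exp.2 ?_
  have hR0 := S.F.R0
  have hmN : (m : ℝ) * (2 * R) ≤ N * (2 * R) :=
    mul_le_mul_of_nonneg_right (by exact_mod_cast S.F.len) (by linarith)
  unfold bw at h1 h2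
  linarith

/-- the total is at least `1` if no piece is too short -/
lemma one_leX (S : Sd P t₀ β p X δ ρ B R N a ps D pD) (hp : ParX β p) (hL0 : 0 ≤ L0 (prX p))
    (hε₁ : 0 ≤ ε₁) (hγ : ∀ i, IsPrim (γ i)) (hb : ∀ i, IsPrim (bt i)) (hg : IsPrim g)
    (hx : x ∈ Tu (Fin m) g) (hy : y ∈ Tu (Fin 3) g)
    (hlow : ∀ i, -R ≤ Real.log (chO P t₀ D ps γ bt g x y i).Y) :
    1 ≤ WO L0 (prX p) X δ ε₁ R N a.toBd ps * sf γ bt g := by
  have hR0 := S.F.R0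
  have h1 := sumz_leX S hγ hb hg hx hy
    (z := fun i => Real.log (chO P t₀ D ps γ bt g x y i).Y + 2 * R)
    (fun i => by rw [add_sub_cancel_left, abs_of_nonneg (by linarith)])
  have h2 : (1 : ℝ) ≤ Real.exp (∑ j : Fin 3,
      (Real.log (chO P t₀ D ps γ bt g x y (.inr j)).Y + 2 * R) +
      ∑ i : Fin m, (Real.log (chO P t₀ D ps γ bt g x y (.inl i)).Y + 2 * R)) := by
    refine Real.one_le_exp (add_nonneg (sum_nonneg fun j _ => ?_) (sum_nonneg fun i _ => ?_))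
    · linarith [hlow (.inr j)]
    · linarith [hlow (.inl i)]
  have h3 : 1 ≤ X ^ (cκ (prX p) + L0 (prX p) + ε₁ + 1200 * δ) :=
    Real.one_le_rpow S.F.X1.le (by linarith [hp.κ0, S.F.d0])
  unfold WO
  rw [mul_assoc]
  exact one_le_mul_of_one_le_of_one_le h3 (h2.trans h1)

lemma nW_le (F : FrX P t₀ β p X δ ρ B R N a ps) (hX : 200 ≤ X) (b : ℝ) :
    (nW c a.toBd b : ℝ) ≤ X ^ 3 := by
  refine le_trans ?_ (nO_le (π := fun _ : Unit => P) (lam := ((), t₀)) F.nat hX)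
  exact_mod_cast min_le_left _ _

lemma WO_pos (hX : 1 < X) : 0 < WO L0 (prX p) X δ ε₁ R N a.toBd ps := by
  unfold WO
  have : 0 < X := by linarith
  positivity

set_option maxHeartbeats 1000000 in
/-- the error moment of a single child, small heights, `D = ` natural or replaced -/
theorem hchS_small (hc₀ : 0 < c₀)
    (F : FrX (π lam.1) lam.2 β p X δ ρ B R N a ps)
    (S : Sd (π lam.1) lam.2 β p X δ ρ B R N a ps D pD)
    (hρ : 2 * X ^ ρ ≤ X ^ ρ₁) (hρ0 : 0 ≤ ρ) (hρ1 : ρ ≤ ρ₁) (hδ₁ : 800 * δ ≤ δ₁) (hB : 0 ≤ B)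
    (hPar : prX p ∈ Par) (hc0 : 0 ≤ c) (hc1 : c ≤ 1)
    (H8 : In8X (ErS π h e0 c Rf lam) c β Par (SinL β) L0 X δ₁ ρ₁ (B + 2) ε₁ N)
    (hγ : ∀ i, IsPrim (γ i)) (hb : ∀ i, IsPrim (bt i)) (hg : IsPrim g) (hx : x ∈ Tu (Fin m) g)
    (hy : y ∈ Tu (Fin 3) g) (hb0 : bw bt ≤ bfO a.l (a3 a.toBd) a.z)
    (hb1 : 2 * bw bt ≤ tO a.toBd + 2 * (c * a.l))
    (hlost : (β * cκ (prX p) - 2 * δ) * Real.log X ≤ bw bt + Real.log (nm g))
    (hlow : ∀ i, -R ≤ Real.log (chO (π lam.1) lam.2 D ps γ bt g x y i).Y)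
    {n : Fin m ⊕ Fin 3 → ℕ} {τ : Fin m ⊕ Fin 3 → ℝ}
    (hn : ∀ i, |c₀ * n i - Real.log (chO (π lam.1) lam.2 D ps γ bt g x y i).Y| ≤ 2 * R)
    (hτ : ∀ i, |τ i| ≤ X ^ ρ) :
    M2 (uM (Rf lam.1) (Real.exp a.l) (Real.exp (a.l / 20)))
      (Er (pC : ℂ) (Real.exp (e0 * a.l)) (JS (nO a.toBd)) (omP (nW c a.toBd (bw bt)))
        (sqc 1 (al h (reY (chO (π lam.1) lam.2 D ps γ bt g x y) (fun i => Real.exp (c₀ * n i))
          (fun i => (chO (π lam.1) lam.2 D ps γ bt g x y i).t + τ i))))) ≤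
      WO L0 (prX p) X δ ε₁ R N a.toBd ps * sf γ bt g := by
  have hL := F.nat.L0
  have hX0 : 0 < X := by linarith [F.nat.X1]
  have hR0 := F.nat.R0
  have hd0 := F.nat.d0
  have hRm := F.nat.Rm'
  have hmR : 0 ≤ (m : ℝ) * R := by positivity
  have hδL : 0 ≤ δ * Real.log X := mul_nonneg hd0 hL.le
  have hz0 : ∀ i, 0 ≤ c₀ * (n i : ℝ) := fun i => by positivity
  rw [reY_chO hγ hb hg (fun i => c₀ * n i) τ]
  have hchi := chi_of (δ₁ := δ₁) S.F hγ hb hg hx hy hlow hz0 hn hτ hρ (by linarith)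
  obtain ⟨n1, n2⟩ := child_num S hγ hb hg hx hy hn
  have n1 := abs_le.1 n1
  have n2 := abs_le.1 n2
  have hG0 : 0 ≤ Real.log (nm g) := Real.log_nonneg (one_le_nm hg)
  have hγ0 := bw_nonneg hγ
  have hbt0 := bw_nonneg hb
  have ha3 := abs_le.1 F.a3b
  have htot := abs_le.1 F.nat.tot
  have hlz := abs_le.1 F.nat.lz
  have haz := abs_le.1 F.nat.az
  have hV : ∑ j, (vC D (y := y) hb hg (fun i => c₀ * n i) τ j).z =
    ∑ j : Fin 3, c₀ * (n (.inr j) : ℝ) := rfl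
  have hQ : tlen (List.ofFn (qC ps (x := x) hγ hg (fun i => c₀ * n i) τ)) =
      ∑ i : Fin m, c₀ * (n (.inl i) : ℝ) := by rw [tlen_ofFn]; rfl
  have hQ0 : 0 ≤ tlen (List.ofFn (qC ps (x := x) hγ hg (fun i => c₀ * n i) τ)) :=
    tlen_nonneg hchi.y0
  have hsum : ∑ i : Fin 3, cu pD (Fin.natAdd 2 i) = cN (prX p) := by
    rw [Fin.sum_univ_three, ← S.N']; rfl
  have hβκ : 0 ≤ β * cκ (prX p) := mul_nonneg F.par.β0 (by linarith [F.par.κ0])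
  have hX8 := chiX_of (c := c) (b := bw bt) (Dl := 0) (s := β * cκ (prX p)) F S hc0 hc1 hchi
    hbt0 hb1 (by rw [hV]; nlinarith)
    (by
      have h0 := hchi.z0 0
      nlinarith) (by rw [hV]; nlinarith)
  have h8 := use8X (Ψ := ErS π h e0 c Rf lam) (B := B) (δ := 40 * δ) F.nat.X1 (by linarith)
    (by linarith) hρ1 (by linarith) (by linarith) (by linarith) H8 hPar F.par hc0
    (F.w.mono F.nat.X1.le (by linarith) le_rfl le_rfl le_rfl) hX8 hsum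
    (fun i => S.F.par.u0 _) hβκ le_rfl (S.F.par.u0 _) (Or.inl le_rfl)
    (fun v _ v1 _ v2 => S.L v v1 v2)
    (by
      rw [← Finset.sum_mul, hsum, hV, hQ]
      nlinarith)
    (by
      rw [hV]
      unfold bfO at hb0
      nlinarith)
  refine (le_of_eq ?_).trans (h8.trans ?_)
  · unfold ErS
    rw [if_pos ⟨F.ok, F.nat.t0, fun i => ⟨hchi.lump i, hchi.z0 i⟩, hchi.am, hbt0⟩, al_fam]
  · unfold WO
    rw [mul_assoc]
    refine mul_le_mul (Real.rpow_le_rpow_of_exponent_le F.nat.X1.le (by linarith)) ?_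
      (Real.exp_pos _).le (by positivity)
    rw [hV, hQ]
    exact sumz_leX S hγ hb hg hx hy hn

set_option maxHeartbeats 1000000 in
/-- **the error moment of a single child which lost at least `β κ`** -/
theorem hchS (hc₀ : 0 < c₀) (hR : ∀ u, cx h u ≠ 0 → |u| ≤ R) (hH : ∀ u, ‖cx h u‖ ≤ H)
    (hHw : ∀ u, ‖((FE47.hD u : ℝ) : ℂ)‖ ≤ Hw) (hM : 0 ≤ M) (hsep : SepE h c₀ R M Cs)
    (hCs : 1 ≤ Cs) (F : FrX (π lam.1) lam.2 β p X δ ρ B R N a ps)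
    (S : Sd (π lam.1) lam.2 β p X δ ρ B R N a ps D pD) (hS : Siz X H Hw e0 (Rf lam.1) R)
    (hρ : 2 * X ^ ρ ≤ X ^ ρ₁) (hρ0 : 0 ≤ ρ) (hρ1 : ρ ≤ ρ₁) (hδ₁ : 800 * δ ≤ δ₁) (hB : 0 ≤ B)
    (hMρ : 100 * ((N : ℝ) + 3 + 1) ≤ ρ * M) (hL0 : 0 ≤ L0 (prX p)) (hε₁ : 0 ≤ ε₁)
    (hPar : prX p ∈ Par) (hc0 : 0 ≤ c) (hc1 : c ≤ 1)
    (H8 : In8X (ErS π h e0 c Rf lam) c β Par (SinL β) L0 X δ₁ ρ₁ (B + 2) ε₁ N)
    (hγ : ∀ i, IsPrim (γ i)) (hb : ∀ i, IsPrim (bt i)) (hg : IsPrim g) (hx : x ∈ Tu (Fin m) g)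
    (hy : y ∈ Tu (Fin 3) g) (hb0 : bw bt ≤ bfO a.l (a3 a.toBd) a.z)
    (hb1 : 2 * bw bt ≤ tO a.toBd + 2 * (c * a.l))
    (hlost : (β * cκ (prX p) - 2 * δ) * Real.log X ≤ bw bt + Real.log (nm g)) :
    M2 (uM (Rf lam.1) (Real.exp a.l) (Real.exp (a.l / 20)))
      (Er (pC : ℂ) (Real.exp (e0 * a.l)) (JS (nO a.toBd)) (omP (nW c a.toBd (bw bt)))
        (sqc 1 (al h (chO (π lam.1) lam.2 D ps γ bt g x y)))) ≤
      Cs ^ (N + 3) * WO L0 (prX p) X δ ε₁ R N a.toBd ps * sf γ bt g := by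
  have hL := F.nat.L0
  have hX0 : 0 < X := by linarith [F.nat.X1]
  have hX1 := F.nat.X1.le
  have hsf : 0 < sf γ bt g := sf_pos hγ hb hg
  have hWpos : 0 < WO L0 (prX p) X δ ε₁ R N a.toBd ps := WO_pos F.nat.X1
  have hxp : ∀ i, IsPrim (x i) := ((mem_Tu).1 hx).1
  have hyp : ∀ i, IsPrim (y i) := ((mem_Tu).1 hy).1
  have hOK : ∀ i, (chO (π lam.1) lam.2 D ps γ bt g x y i).OK :=
    chS_OK (fam_OK (π lam.1) lam.2 S.F.hP ps (vsO D)) hγ hxp hb hyp g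
  have hJ : ∀ z ∈ JS (nO a.toBd), z.1 ≠ 0 := fun z hz => ((okJ_JS _).prim z hz).ne_zero
  by_cases hlow : ∀ i, -R ≤ Real.log (chO (π lam.1) lam.2 D ps γ bt g x y i).Y
  swap
  · push Not at hlow
    obtain ⟨i, hi⟩ := hlow
    rw [sqc_zero hR hOK hi, M2_Er_zero _ _ hJ]
    positivity
  have hone := one_leX (L0 := L0) (ε₁ := ε₁) S F.par hL0 hε₁ hγ hb hg hx hy hlow
  have key := hsep (Fin m ⊕ Fin 3) (chO (π lam.1) lam.2 D ps γ bt g x y) hOK (pC : ℂ)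
    (Real.exp (e0 * a.l)) (JS (nO a.toBd)) hJ (omP (nW c a.toBd (bw bt)))
    (uM (Rf lam.1) (Real.exp a.l) (Real.exp (a.l / 20))) (uM_nonneg _ _ _)
    (uM_fin (Real.exp_pos _)) (WO L0 (prX p) X δ ε₁ R N a.toBd ps * sf γ bt g) (by positivity)
    (fun n τ hn => by
      refine split_h (T₀ := X ^ ρ) (A := X ^ (100 * (N + 3 + 1))) hM (by positivity)
        (by positivity) ?_ (F := fun τ => M2 (uM (Rf lam.1) (Real.exp a.l) (Real.exp (a.l / 20)))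
          (Er (pC : ℂ) (Real.exp (e0 * a.l)) (JS (nO a.toBd)) (omP (nW c a.toBd (bw bt)))
            (sqc 1 (al h (reY (chO (π lam.1) lam.2 D ps γ bt g x y)
              (fun i => Real.exp (c₀ * n i))
              (fun i => (chO (π lam.1) lam.2 D ps γ bt g x y i).t + τ i)))))) ?_ ?_ τ
      · -- the trivial bound is small
        have e1 : X ^ (100 * (N + 3 + 1)) ≤ (1 + X ^ ρ) ^ M := by
          calc X ^ (100 * (N + 3 + 1)) = X ^ (100 * ((N : ℝ) + 3 + 1)) := by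
                rw [← Real.rpow_natCast]; push_cast; rfl
            _ ≤ X ^ (ρ * M) := Real.rpow_le_rpow_of_exponent_le hX1 hMρ
            _ = (X ^ ρ) ^ M := Real.rpow_mul hX0.le _ _
            _ ≤ _ := Real.rpow_le_rpow (by positivity) (by linarith) hM
        exact e1.trans (le_mul_of_one_le_left (by positivity) hone)
      · intro τ hτ
        exact hchS_small hc₀ F S hρ hρ0 hρ1 hδ₁ hB hPar hc0 hc1 H8 hγ hb hg hx hy hb0 hb1 hlost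
          hlow hn hτ
      · intro τ
        exact er_big (N := N + 3) (n := nW c a.toBd (bw bt)) (YT := 2 ^ nO a.toBd) hR hH hHw
          hS.toBig hS.w
          (s := reY (chO (π lam.1) lam.2 D ps γ bt g x y) (fun i => Real.exp (c₀ * n i))
            (fun i => (chO (π lam.1) lam.2 D ps γ bt g x y i).t + τ i))
          (fun i => ⟨(hOK i).ch, Real.exp_pos _⟩)
          (fun i => Y3_le S.F hγ hb hx hy hn i)
          (by
            rw [Fintype.card_sum, Fintype.card_fin, Fintype.card_fin]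
            have := F.nat.len
            omega) (nW_le F hS.c _) (E0 := Real.exp (e0 * a.l)) (Real.exp_pos _).le
          ((exp_l_le F.nat hS.e1 (l_nonneg F.nat)).trans (pow_le_pow_right₀ hX1 (by norm_num)))
          (by positivity) (YT_le F.nat hS.c) (uM_le_one (Rf lam.1) (Real.exp a.l)
            (Real.exp (a.l / 20))) (fun k hk => us_le F.nat hS.r k hk))
  refine key.trans ?_
  rw [← mul_assoc]
  refine mul_le_mul_of_nonneg_right (mul_le_mul_of_nonneg_right ?_ hWpos.le) hsf.le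
  refine pow_le_pow_right₀ hCs ?_
  rw [Fintype.card_sum, Fintype.card_fin, Fintype.card_fin]
  have := F.nat.len
  omega

end

end Crest.Agent.R017.P1X960
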