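import Crest.Agent.R017.P1X8a_904
import Crest.Agent.R017.P1X8b_904
import Crest.Agent.R017.P1X8c_904

/-!
# Row 17, R8: the class-form Gram sum of class E, the structured part (helper904)

`w ≤ v + hX + t`, budget `GX`. Where `hB` wins there is no structured part.
-/

set_option autoImplicit false
set_option linter.unusedVariables false

noncomputable section

namespace Crest.Agent.R017.P1L7904

open Crest.Agent.R017.RnP571 (Dh)
open Crest.Agent.R017.P1L904 (RS0 RS1 RSm RSm_le0 RSm_le1 hL hL_le hL_ge tL tL_cases lw0 lw1 tG_le)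
open Crest.Agent.R017.P1Q904 (gQ gQ_cases min3_le)

/-- combined hypothesis on `R` -/
def Rd (R k q p uN uR x : ℝ) : Prop := R1d R k q p uN x ∨ R0d R q p uR x

lemma rd_of (k q p uN uR x : ℝ) : Rd (max (RSm k q p uN x) (RS0 q p uR x)) k q p uN uR x :=
  (RX_cases k q p uN uR x).imp And.left id

lemma hL_anti {q v p δ x K5 G G' : ℝ} (h : G' ≤ G) : hL q v p δ x K5 G ≤ hL q v p δ x K5 G' := by
  unfold hL
  exact max_le_max (by linarith) (min_le_min (by linarith) (by linarith))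

lemma hX_mono {N k q v p δ x D uN uR s₀ F F' : ℝ} (h : F ≤ F') :
    hX N k q v p δ x D uN uR s₀ F ≤ hX N k q v p δ x D uN uR s₀ F' := by
  unfold hX
  exact max_le_max (hL_anti (by linarith)) le_rfl

/-- the dichotomy of `hX` -/
lemma hX_dich {k y₃ y₄ u x D t q p uN uR v ℓ s₀ w δ F : ℝ} (hD : Dh k y₃ y₄ u x D)
    (hC : Ch k y₃ y₄ u x D t q p uN uR v ℓ s₀) (δ0 : 0 ≤ δ) (F0 : 0 ≤ F) (F1 : F ≤ 5 / 9 * D)
    (hw : w ≤ v + hX (y₃ + y₄ + u) k q v p δ x D uN uR s₀ F + t)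
    (hL' : 0 ≤ w + v - q - δ + t) :
    ∃ h, w ≤ v + h + t ∧
      h ≤ 2 * q + 2 * v + 3 * p + 2 * x - 4 * δ - 3 * (GX (y₃ + y₄ + u) k q p uN uR x D - F) ∧
      (h ≤ 2 * q + 3 * p + max k (5 / 4 * (y₃ + y₄ + u)) -
          3 * (GX (y₃ + y₄ + u) k q p uN uR x D - F) ∨
        h ≤ 2 * q + 3 * p + (4 / 3 * p + 2 / 3 * x - 4 / 3 * δ) -
          3 * (GX (y₃ + y₄ + u) k q p uN uR x D - F)) := by
  have hG := GX_eq (y₃ + y₄ + u) k q p uN uR x D
  have hR := rd_of k q p uN uR x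
  have d0 := hD.d0
  unfold hX at hw
  generalize max (RSm k q p uN x) (RS0 q p uR x) = R at *
  generalize GX (y₃ + y₄ + u) k q p uN uR x D = G at *
  rcases le_total (hB q v p δ s₀ G) (hL q v p δ x (max k (5 / 4 * (y₃ + y₄ + u))) (G - F))
    with hb | hb
  · rw [max_eq_left hb] at hw
    rcases hL_le q v p δ x (max k (5 / 4 * (y₃ + y₄ + u))) (G - F) with ⟨h, h'⟩ | ⟨h, h'⟩
    · exfalso
      rcases hR with hR | hR
      · exact coreEA hD hC δ0 (max_choice _ _) (le_max_left _ _) (le_max_right _ _)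
          (by linarith) hR h h' hw hL'
      · exact coreEB hD hC δ0 (max_choice _ _) (le_max_left _ _) (le_max_right _ _)
          (by linarith) hR h h' hw hL'
    · exact ⟨_, hw, h, h'⟩
  · exfalso
    rw [max_eq_right hb] at hw
    have m1 := le_max_left 0 (s₀ - δ)
    have m2 := le_max_right 0 (s₀ - δ)
    have b1 : hB q v p δ s₀ G ≤ 2 * q + v + 4 * p - 3 * δ - 3 * G := by unfold hB; linarith
    have b2 : hB q v p δ s₀ G ≤ 2 * q + v + 4 * p - 3 * s₀ - 3 * G := by unfold hB; linarith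
    obtain ⟨g1, g2⟩ := hL_ge q v p δ x (max k (5 / 4 * (y₃ + y₄ + u))) (G - F)
    have g2' : 2 * q + 2 * v + 3 * p + 2 * x - 4 * δ - 3 * (G - F) ≤ hB q v p δ s₀ G ∨
        (2 * q + 3 * p + max k (5 / 4 * (y₃ + y₄ + u)) - 3 * (G - F) ≤ hB q v p δ s₀ G ∧
          2 * q + 3 * p + (4 / 3 * p + 2 / 3 * x - 4 / 3 * δ) - 3 * (G - F) ≤
            hB q v p δ s₀ G) := by
      rcases g2 with g | ⟨g, g'⟩
      · exact Or.inl (g.trans hb)
      · exact Or.inr ⟨g.trans hb, g'.trans hb⟩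
    rcases hR with hR | hR
    · exact coreDA hD hC δ0 (max_choice _ _) (le_max_left _ _) (le_max_right _ _) hG.le hR F0 b1 b2
        (g1.trans hb) g2' hw hL'
    · exact coreDB hD hC δ0 (max_choice _ _) (le_max_left _ _) (le_max_right _ _) hG.le hR F0 b1 b2
        (g1.trans hb) g2' hw hL'

/-- **the structured part, second form** (`w = log (H V)`, `S` bounds `l + x'`) -/
theorem coreLX' {k y₃ y₄ u x D t q p uN uR v ℓ s₀ w δ e i n x' S F : ℝ} (hD : Dh k y₃ y₄ u x D)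
    (hC : Ch k y₃ y₄ u x D t q p uN uR v ℓ s₀) (F0 : 0 ≤ F) (F1 : F ≤ 5 / 9 * D)
    (hw : w ≤ v + hX (y₃ + y₄ + u) k q v p δ x D uN uR s₀ F + t)
    (hL' : 0 ≤ w + v - q - δ + t)
    (δ0 : 0 ≤ δ) (e0 : 0 ≤ e) (e1 : e ≤ k / 64 + t)
    (x0' : 0 ≤ x') (x1' : x' ≤ x + t) (hn : n ≤ p - δ - e + t) (i0 : 0 ≤ i)
    (hi : i ≤ w + p - q + t) (s1 : S - x' ≤ u + t) (s2 : 3 * (S - x') ≤ n - x')
    (s3 : 2 * (S - x') ≤ i) :
    2 / 3 * q - w / 3 + 5 / 3 * δ + 2 * e + gQ (w + v - q - δ) (w + p - q) + 2 / 3 * (p - δ) +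
      (i + 3 / 4 * S + 61 / 100 * D) + (w + p - q - i) / 3 + k / 200 ≤
      GX (y₃ + y₄ + u) k q p uN uR x D := by
  have hg := gQ_cases (w + v - q - δ) (w + p - q)
  have hG := GX_eq (y₃ + y₄ + u) k q p uN uR x D
  have hR := rd_of k q p uN uR x
  obtain ⟨h, hw, hh, hh'⟩ := hX_dich hD hC δ0 F0 F1 hw hL'
  generalize max (RSm k q p uN x) (RS0 q p uR x) = R at *
  generalize GX (y₃ + y₄ + u) k q p uN uR x D = G at *
  rcases hR with hR | hR
  · exact coreR1A hD hC (max_choice _ _) (le_max_left _ _) (le_max_right _ _)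
      (by linarith : _ ≤ G - F) hG.le hR hh hh' hw hL' δ0 e0 e1 x0' x1' hn i0 hi s1 s2 s3 hg
  · exact coreR1B hD hC (max_choice _ _) (le_max_left _ _) (le_max_right _ _)
      (by linarith : _ ≤ G - F) hG.le hR hh hh' hw hL' δ0 e0 e1 x0' x1' hn i0 hi s1 s2 s3 hg

/-- the principal part -/
theorem coreL2X' {k y₃ y₄ u x D t q p uN uR v ℓ s₀ w δ e x' F : ℝ} (hD : Dh k y₃ y₄ u x D)
    (hC : Ch k y₃ y₄ u x D t q p uN uR v ℓ s₀) (F0 : 0 ≤ F) (F1 : F ≤ 5 / 9 * D)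
    (hw : w ≤ v + hX (y₃ + y₄ + u) k q v p δ x D uN uR s₀ F + t)
    (hL' : 0 ≤ w + v - q - δ + t)
    (δ0 : 0 ≤ δ) (e0 : 0 ≤ e) (e1 : e ≤ k / 64 + t) (x0' : 0 ≤ x') (x1' : x' ≤ x + t) :
    2 / 3 * q - w / 3 + 5 / 3 * δ + 2 * e + gQ (w + v - q - δ) (w + p - q) + 2 / 3 * (p - δ) +
      max 0 ((w + p - q) / 3 + x') + k / 200 ≤ GX (y₃ + y₄ + u) k q p uN uR x D := by
  have hg := gQ_cases (w + v - q - δ) (w + p - q)
  have hG := GX_eq (y₃ + y₄ + u) k q p uN uR x D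
  have hR := rd_of k q p uN uR x
  have hN := (thX_le hD hC δ0 F1).2
  have hM : max 0 ((w + p - q) / 3 + x') ≤ 7 / 20 * k := by
    obtain ⟨t0, t1, q0, q1, p0, p1, p1', p2, um0, um1, um2, r1, r2, r3, v1, v2, ⟨y, yy0, yx, py, v3, v4⟩, l0, s0⟩ := hC
    obtain ⟨k0, u4, y43, u0, y3, N1, near, x0, adm, d0, d1⟩ := hD
    refine max_le (by linarith) ?_
    rcases adm with ⟨a0, rfl | a1⟩ | ⟨a1, a2, a3⟩ <;> linarith
  obtain ⟨h, hw, hh, hh'⟩ := hX_dich hD hC δ0 F0 F1 hw hL'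
  generalize max (RSm k q p uN x) (RS0 q p uR x) = R at *
  generalize GX (y₃ + y₄ + u) k q p uN uR x D = G at *
  rcases hR with hR | hR
  · exact coreR2A hD hC (max_choice _ _) (le_max_left _ _) (le_max_right _ _)
      (by linarith : _ ≤ G - F) hG.le hR hh hh' hw hL' δ0 e0 e1 hM hg
  · exact coreR2B hD hC (max_choice _ _) (le_max_left _ _) (le_max_right _ _)
      (by linarith : _ ≤ G - F) hG.le hR hh hh' hw hL' δ0 e0 e1 hM hg

/-- **the structured part, second form**, any `F ≤ 5/9 D` -/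
theorem coreLX {k y₃ y₄ u x D t q p uN uR v ℓ s₀ w δ e i n x' S F : ℝ} (hD : Dh k y₃ y₄ u x D)
    (hC : Ch k y₃ y₄ u x D t q p uN uR v ℓ s₀) (F1 : F ≤ 5 / 9 * D)
    (hw : w ≤ v + hX (y₃ + y₄ + u) k q v p δ x D uN uR s₀ F + t)
    (hL' : 0 ≤ w + v - q - δ + t)
    (δ0 : 0 ≤ δ) (e0 : 0 ≤ e) (e1 : e ≤ k / 64 + t)
    (x0' : 0 ≤ x') (x1' : x' ≤ x + t) (hn : n ≤ p - δ - e + t) (i0 : 0 ≤ i)
    (hi : i ≤ w + p - q + t) (s1 : S - x' ≤ u + t) (s2 : 3 * (S - x') ≤ n - x')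
    (s3 : 2 * (S - x') ≤ i) :
    2 / 3 * q - w / 3 + 5 / 3 * δ + 2 * e + gQ (w + v - q - δ) (w + p - q) + 2 / 3 * (p - δ) +
      (i + 3 / 4 * S + 61 / 100 * D) + (w + p - q - i) / 3 + k / 200 ≤
      GX (y₃ + y₄ + u) k q p uN uR x D := by
  have d0 := hD.d0
  have hm := hX_mono (N := y₃ + y₄ + u) (k := k) (q := q) (v := v) (p := p) (δ := δ) (x := x)
    (D := D) (uN := uN) (uR := uR) (s₀ := s₀) (le_max_left F 0)
  exact coreLX' hD hC (le_max_right F 0) (max_le F1 (by linarith)) (by linarith) hL' δ0 e0 e1 x0'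
    x1' hn i0 hi s1 s2 s3

/-- the principal part, any `F ≤ 5/9 D` -/
theorem coreL2X {k y₃ y₄ u x D t q p uN uR v ℓ s₀ w δ e x' F : ℝ} (hD : Dh k y₃ y₄ u x D)
    (hC : Ch k y₃ y₄ u x D t q p uN uR v ℓ s₀) (F1 : F ≤ 5 / 9 * D)
    (hw : w ≤ v + hX (y₃ + y₄ + u) k q v p δ x D uN uR s₀ F + t)
    (hL' : 0 ≤ w + v - q - δ + t)
    (δ0 : 0 ≤ δ) (e0 : 0 ≤ e) (e1 : e ≤ k / 64 + t) (x0' : 0 ≤ x') (x1' : x' ≤ x + t) :
    2 / 3 * q - w / 3 + 5 / 3 * δ + 2 * e + gQ (w + v - q - δ) (w + p - q) + 2 / 3 * (p - δ) +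
      max 0 ((w + p - q) / 3 + x') + k / 200 ≤ GX (y₃ + y₄ + u) k q p uN uR x D := by
  have d0 := hD.d0
  have hm := hX_mono (N := y₃ + y₄ + u) (k := k) (q := q) (v := v) (p := p) (δ := δ) (x := x)
    (D := D) (uN := uN) (uR := uR) (s₀ := s₀) (le_max_left F 0)
  exact coreL2X' hD hC (le_max_right F 0) (max_le F1 (by linarith)) (by linarith) hL' δ0 e0 e1 x0'
    x1'

end Crest.Agent.R017.P1L7904
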