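import Crest.Agent.R017.P1X7_960

/-!
# Row 17, exceptional class, P1X, part 8 (helper960): differences

* `jn_reY`, `vC_rep` : the children outside the pair on the grid, the pair fixed
* `hchD` : the error moment of a difference, the four lengths of the pair `≥ 0`
* `hchX` : the error moment of a child
-/

set_option autoImplicit false

noncomputable section

open Finset
open scoped ComplexConjugate

namespace Crest.Agent.R017.P1X960

open Crest.Agent.R012 Crest.Agent.R012.Eis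
open Crest.Agent.R012.Weight600 (osc norm_osc osc_add_right)
open Crest.Agent.R012.Mob705 hiding pb mem_pb
open Crest.Agent.R012.LS2 (S mem_S)
open Crest.Agent.R017.CM106 Crest.Agent.R017.C70
open Crest.Agent.R017.FE47 (PU cx SM)
open Crest.Agent.R017.StD828 (ln Tm)
open Crest.Agent.R017.E2440 (TE StE Bth Bth_nonneg)
open Crest.Agent.R017.E5k54 (PT alb)
open Crest.Agent.R017.SSb54 (SST SSb PTb mem_PTb PTb_sub)
open Crest.Agent.R017.P1e54 Crest.Agent.R017.P1f54 Crest.Agent.R017.P1i54 Crest.Agent.R017.P1j54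
open Crest.Agent.R017.P1k54 Crest.Agent.R017.P1o54
open Crest.Agent.R017.P1l54 (chP chP_lump Pt_OK fam fam_OK mod_ne reY_chS al_fam ParOK oN)
open Crest.Agent.R017.P1n54 (tlen tlen_nonneg Chi)
open Crest.Agent.R017.P1p54
open Crest.Agent.R017.P1q54 (sqc_zero Er_zero M2_Er_zero Mm_zero_left Mm_zero_right Mm_zero_of
  SepE SepM WO Siz YT_le nO_le YT_nonneg exp_l_le l_nonneg us_le Y3_le sumz_le)
open Crest.Agent.R017.HP842 (Pc pc al alL cv Tu mem_Tu sqc Th)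
open Crest.Agent.R017.B770 Crest.Agent.R017.Prov71
open Crest.Agent.R017.XG702 (Pcs Good_mono)
open Crest.Agent.R017.XT71 (Sys Win mx mx_le le_mx)
open Crest.Agent.R017.UM71
open Crest.Agent.R017.E5B71 Crest.Agent.R017.E5P571 Crest.Agent.R017.E5L770
open Crest.Agent.R017.ExP960 Crest.Agent.R017.Sf770
open Crest.Agent.R017.E5LX770 (nB)
open Crest.Agent.R017.HBsB445 (prod_ch1 prod_chS sf_pos)

attribute [local irreducible] HP842.Tu

/-! ### second moments of combinations -/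

lemma M2_cmb_le {u : Eis → ℝ} (h0 : ∀ k, 0 ≤ u k) (hu : (Function.support u).Finite)
    (F G : Eis → ℂ) {z w : ℂ} (hz : ‖z‖ = 1) (hw : ‖w‖ = 1) :
    M2 u (fun k => z * F k + w * G k) ≤ 2 * (M2 u F + M2 u G) := by
  have h1 := M2_sub_le h0 hu (fun k => z * F k) G (-w)
  have h2 : M2 u (fun k => z * F k) ≤ M2 u F := M2_mono h0 hu fun k => by
    rw [norm_mul, hz, one_mul]
  have e1 : (fun k => z * F k - -w * G k) = fun k => z * F k + w * G k := by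
    funext k; ring
  rw [e1, norm_neg, hw, one_pow, one_mul] at h1
  exact h1.trans (mul_le_mul_of_nonneg_left (add_le_add_left h2 _) (by norm_num))

lemma M2_Er_cmb_le {u : Eis → ℝ} (h0 : ∀ k, 0 ≤ u k) (hu : (Function.support u).Finite)
    {A B : Eis → ℂ} (hA : FS A) (hB : FS B) {z w : ℂ} (hz : ‖z‖ = 1) (hw : ‖w‖ = 1) (c : ℂ)
    (E0 : ℝ) {J : Finset (Eis × Eis)} (hJ : ∀ x ∈ J, x.1 ≠ 0) (om : Eis × Eis → ℂ) :
    M2 u (Er c E0 J om (cmb z w A B)) ≤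
      2 * (M2 u (Er c E0 J om A) + M2 u (Er c E0 J om B)) := by
  have e1 : Er c E0 J om (cmb z w A B) =
      fun k => z * Er c E0 J om A k + w * Er c E0 J om B k := by
    funext k
    exact Er_cmb hA hB z w c E0 hJ om k
  rw [e1]
  exact M2_cmb_le h0 hu _ _ hz hw

/-- a unimodular factor -/
lemma M2_Er_smul {u : Eis → ℝ} (h0 : ∀ k, 0 ≤ u k) (hu : (Function.support u).Finite)
    {A B : Eis → ℂ} (hA : FS A) (hB : FS B) (κ z w : ℂ) (hκ : ‖κ‖ = 1) (c : ℂ) (E0 : ℝ)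
    {J : Finset (Eis × Eis)} (hJ : ∀ x ∈ J, x.1 ≠ 0) (om : Eis × Eis → ℂ) :
    M2 u (Er c E0 J om (cmb z w A B)) ≤ M2 u (Er c E0 J om (cmb (κ * z) (κ * w) A B)) := by
  refine M2_mono h0 hu fun k => le_of_eq ?_
  rw [Er_cmb hA hB z w c E0 hJ om k, Er_cmb hA hB (κ * z) (κ * w) c E0 hJ om k]
  have e1 : κ * z * Er c E0 J om A k + κ * w * Er c E0 J om B k =
      κ * (z * Er c E0 J om A k + w * Er c E0 J om B k) := by ring
  rw [e1, norm_mul, hκ, one_mul]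

/-! ### the pair fixed -/

lemma jn_reY {ι : Type} (s : ι ⊕ Fin 3 → Pc) (hs : ∀ i, 0 < (s i).Y) (z τ : ι ⊕ Unit → ℝ) :
    jn (reY (rst s) (fun i => Real.exp (z i)) (fun i => (rst s i).t + τ i)) (pr2 s) =
      reY s (fun i => Real.exp (jn z ![Real.log (s (.inr 0)).Y, Real.log (s (.inr 1)).Y] i))
        (fun i => (s i).t + jn τ ![0, 0] i) := by
  funext i
  rcases i with i | i
  · rfl
  · fin_cases i
    · show s (.inr 0) = ⟨(s (.inr 0)).u, (s (.inr 0)).ψ,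
        Real.exp (Real.log (s (.inr 0)).Y), (s (.inr 0)).t + 0⟩
      rw [Real.exp_log (hs _), add_zero]
    · show s (.inr 1) = ⟨(s (.inr 1)).u, (s (.inr 1)).ψ,
        Real.exp (Real.log (s (.inr 1)).Y), (s (.inr 1)).t + 0⟩
      rw [Real.exp_log (hs _), add_zero]
    · rfl

section

variable {Λ : Type*} {π : Λ → DPar} {h : ℝ → ℝ} {e0 : ℝ} {Rf : Λ → ℝ} {lam : Λ × Eis}
  {β c : ℝ} {p : IX5 → ℝ} {X δ δ₁ ρ ρ₁ B R c₀ H Hw M Cs Cd ε₁ : ℝ} {N : ℕ} {a : BdX}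
  {m : ℕ} {ps : Fin m → Pq} {γ x : Fin m → Eis} {bt y : Fin 3 → Eis} {g : Eis}
  {Par : Set (Fin 3 ⊕ Fin 5 → ℝ)} {L0 : (Fin 3 ⊕ Fin 5 → ℝ) → ℝ} {P : DPar} {t₀ : Eis}

/-- the natural and the replaced child -/
abbrev cO (P : DPar) (t₀ : Eis) (a : BdX) (ps : Fin m → Pq) (γ : Fin m → Eis) (bt : Fin 3 → Eis)
    (g : Eis) (x : Fin m → Eis) (y : Fin 3 → Eis) : Fin m ⊕ Fin 3 → Pc :=
  chO P t₀ a.toBd ps γ bt g x y

abbrev cR (P : DPar) (t₀ : Eis) (a : BdX) (ps : Fin m → Pq) (γ : Fin m → Eis) (bt : Fin 3 → Eis)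
    (g : Eis) (x : Fin m → Eis) (y : Fin 3 → Eis) : Fin m ⊕ Fin 3 → Pc :=
  chO P t₀ (repA a) ps γ bt g x y

lemma rst_eq : rst (cR P t₀ a ps γ bt g x y) = rst (cO P t₀ a ps γ bt g x y) := by
  funext i
  rcases i with i | i <;> rfl

/-- the lengths of the replaced pair -/
lemma cR_Y0 (hb : ∀ i, IsPrim (bt i)) (hy : y ∈ Tu (Fin 3) g) :
    Real.log (cR P t₀ a ps γ bt g x y (.inr 0)).Y =
      Real.log (cO P t₀ a ps γ bt g x y (.inr 0)).Y - dz a := by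
  have h1 : (1 : ℝ) ≤ nm (bt 0 * y 0) := one_le_nm ((hb 0).mul (((mem_Tu).1 hy).1 0))
  show Real.log (Real.exp (a.zs 2) / (nm (bt 0 * y 0) : ℝ)) =
    Real.log (Real.exp (a.us 2).z / (nm (bt 0 * y 0) : ℝ)) - dz a
  rw [Real.log_div (Real.exp_pos _).ne' (by linarith), Real.log_exp,
    Real.log_div (Real.exp_pos _).ne' (by linarith), Real.log_exp]
  unfold dz
  ring

lemma cR_Y1 (ha : a.ok) (hb : ∀ i, IsPrim (bt i)) (hy : y ∈ Tu (Fin 3) g) :
    Real.log (cR P t₀ a ps γ bt g x y (.inr 1)).Y =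
      Real.log (cO P t₀ a ps γ bt g x y (.inr 1)).Y + dz a := by
  have h1 : (1 : ℝ) ≤ nm (bt 1 * y 1) := one_le_nm ((hb 1).mul (((mem_Tu).1 hy).1 1))
  show Real.log (Real.exp (a.zs 3) / (nm (bt 1 * y 1) : ℝ)) =
    Real.log (Real.exp (a.us 3).z / (nm (bt 1 * y 1) : ℝ)) + dz a
  rw [Real.log_div (Real.exp_pos _).ne' (by linarith), Real.log_exp,
    Real.log_div (Real.exp_pos _).ne' (by linarith), Real.log_exp]
  unfold dz
  linarith [ha.s23]

/-- **the lumps of the replaced child** -/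
theorem vC_rep (hb : ∀ i, IsPrim (bt i)) (hg : IsPrim g) {z₁ z₂ τ : Fin m ⊕ Fin 3 → ℝ}
    (h0 : z₂ (.inr 0) = z₁ (.inr 0) - dz a) (h1 : z₂ (.inr 1) = z₁ (.inr 1) + dz a)
    (h2 : z₂ (.inr 2) = z₁ (.inr 2)) :
    vC (repA a) (y := y) hb hg z₂ τ = rzD (vC a.toBd (y := y) hb hg z₁ τ) (dz a) := by
  funext j
  fin_cases j
  · show chP (stz (a.us 2) (a.zs 2)) (bt 0 * y 0) ((∏ j, bt j) * g) (mod_ne hb hg)
      (z₂ (.inr 0)) ((a.us 2).t + τ (.inr 0)) = stz (chP (a.us 2) (bt 0 * y 0)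
        ((∏ j, bt j) * g) (mod_ne hb hg) (z₁ (.inr 0)) ((a.us 2).t + τ (.inr 0)))
        (z₁ (.inr 0) - dz a)
    rw [h0]; rfl
  · show chP (stz (a.us 3) (a.zs 3)) (bt 1 * y 1) ((∏ j, bt j) * g) (mod_ne hb hg)
      (z₂ (.inr 1)) ((a.us 3).t + τ (.inr 1)) = stz (chP (a.us 3) (bt 1 * y 1)
        ((∏ j, bt j) * g) (mod_ne hb hg) (z₁ (.inr 1)) ((a.us 3).t + τ (.inr 1)))
        (z₁ (.inr 1) + dz a)
    rw [h1]; rfl
  · show chP (a.us 4) (bt 2 * y 2) ((∏ j, bt j) * g) (mod_ne hb hg)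
      (z₂ (.inr 2)) ((a.us 4).t + τ (.inr 2)) = chP (a.us 4) (bt 2 * y 2)
        ((∏ j, bt j) * g) (mod_ne hb hg) (z₁ (.inr 2)) ((a.us 4).t + τ (.inr 2))
    rw [h2]

/-- the phases of a child -/
theorem oc_child (ha : a.ok) {vs : Fin 3 → Pq} {n0 n1 : ℝ} (t0 : (vs 0).t = (a.us 2).t)
    (t1 : (vs 1).t = (a.us 3).t) (h0 : (vs 0).z = (a.us 2).z - n0)
    (h1 : (vs 1).z = (a.us 3).z - n1) :
    oc vs (vs 0).z (vs 1).z = (osc (a.us 2).t n0 * osc (a.us 3).t n1) * ph a ∧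
      -oc vs ((vs 0).z - dz a) ((vs 1).z + dz a) =
        (osc (a.us 2).t n0 * osc (a.us 3).t n1) * -ph' a := by
  have e1 : ph a = osc (a.us 2).t (-(a.us 2).z) * osc (a.us 3).t (-(a.us 3).z) := rfl
  have e2 : ph' a = osc (a.us 2).t (-a.zs 2) * osc (a.us 3).t (-a.zs 3) := rfl
  unfold oc
  rw [t0, t1, e1, e2]
  constructor
  · rw [h0, h1, neg_sub, neg_sub, sub_eq_add_neg, sub_eq_add_neg, osc_add_right, osc_add_right]
    ring
  · have g0 : -((vs 0).z - dz a) = n0 + -a.zs 2 := by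
      unfold dz
      rw [h0]; ring
    have g1 : -((vs 1).z + dz a) = n1 + -a.zs 3 := by
      unfold dz
      rw [h1]
      linarith [ha.s23]
    rw [g0, g1, osc_add_right, osc_add_right]
    ring

set_option maxHeartbeats 2000000 in
/-- the error moment of a difference, small heights -/
theorem hchD_small (hc₀ : 0 < c₀) (hR : ∀ u, cx h u ≠ 0 → |u| ≤ R)
    (F : FrX (π lam.1) lam.2 β p X δ ρ B R N a ps)
    (hρ : 2 * X ^ ρ ≤ X ^ ρ₁) (hρ0 : 0 ≤ ρ) (hρ1 : ρ ≤ ρ₁) (hδ₁ : 800 * δ ≤ δ₁) (hB : 0 ≤ B)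
    (hPar : prX p ∈ Par) (hc0 : 0 ≤ c) (hc1 : c ≤ 1)
    (H8 : In8X (ErX π h e0 c Rf lam) c β Par DifL L0 X δ₁ ρ₁ (B + 2) ε₁ N)
    (hγ : ∀ i, IsPrim (γ i)) (hb : ∀ i, IsPrim (bt i)) (hg : IsPrim g) (hx : x ∈ Tu (Fin m) g)
    (hy : y ∈ Tu (Fin 3) g) (hb0 : bw bt ≤ bfO a.l (a3 a.toBd) a.z)
    (hb1 : 2 * bw bt ≤ tO a.toBd + 2 * (c * a.l))
    (p0 : 0 ≤ Real.log (cO (π lam.1) lam.2 a ps γ bt g x y (.inr 0)).Y)
    (p1 : 0 ≤ Real.log (cO (π lam.1) lam.2 a ps γ bt g x y (.inr 1)).Y)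
    (q0 : 0 ≤ Real.log (cR (π lam.1) lam.2 a ps γ bt g x y (.inr 0)).Y)
    (q1 : 0 ≤ Real.log (cR (π lam.1) lam.2 a ps γ bt g x y (.inr 1)).Y)
    (hlow : ∀ i, -R ≤ Real.log (cO (π lam.1) lam.2 a ps γ bt g x y i).Y)
    {n : Fin m ⊕ Unit → ℕ} {τ : Fin m ⊕ Unit → ℝ}
    (hn : ∀ i, |c₀ * n i - Real.log (rst (cO (π lam.1) lam.2 a ps γ bt g x y) i).Y| ≤ 2 * R)
    (hτ : ∀ i, |τ i| ≤ X ^ ρ) :
    M2 (uM (Rf lam.1) (Real.exp a.l) (Real.exp (a.l / 20)))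
      (Er (pC : ℂ) (Real.exp (e0 * a.l)) (JS (nO a.toBd)) (omP (nW c a.toBd (bw bt)))
        (cmb (ph a) (-ph' a)
          (sqc 1 (al h (jn (reY (rst (cO (π lam.1) lam.2 a ps γ bt g x y))
            (fun i => Real.exp (c₀ * n i))
            (fun i => (rst (cO (π lam.1) lam.2 a ps γ bt g x y) i).t + τ i))
            (pr2 (cO (π lam.1) lam.2 a ps γ bt g x y)))))
          (sqc 1 (al h (jn (reY (rst (cO (π lam.1) lam.2 a ps γ bt g x y))
            (fun i => Real.exp (c₀ * n i))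
            (fun i => (rst (cO (π lam.1) lam.2 a ps γ bt g x y) i).t + τ i))
            (pr2 (cR (π lam.1) lam.2 a ps γ bt g x y))))))) ≤
      WO L0 (prX p) X δ ε₁ R N a.toBd ps * sf γ bt g := by
  have hL := F.nat.L0
  have hX0 : 0 < X := by linarith [F.nat.X1]
  have hR0 := F.nat.R0
  have hd0 := F.nat.d0
  have hRm := F.nat.Rm'
  have hmR : 0 ≤ (m : ℝ) * R := by positivity
  have hδL : 0 ≤ δ * Real.log X := mul_nonneg hd0 hL.le
  have hxp : ∀ i, IsPrim (x i) := ((mem_Tu).1 hx).1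
  have hyp : ∀ i, IsPrim (y i) := ((mem_Tu).1 hy).1
  have hOK1 : ∀ i, (cO (π lam.1) lam.2 a ps γ bt g x y i).OK :=
    chS_OK (fam_OK (π lam.1) lam.2 F.nat.hP ps (vsO a.toBd)) hγ hxp hb hyp g
  have hOK2 : ∀ i, (cR (π lam.1) lam.2 a ps γ bt g x y i).OK :=
    chS_OK (fam_OK (π lam.1) lam.2 F.nat.hP ps (vsO (repA a))) hγ hxp hb hyp g
  have hJ : ∀ z ∈ JS (nO a.toBd), z.1 ≠ 0 := fun z hz => ((okJ_JS _).prim z hz).ne_zero
  have hXρ : 0 ≤ X ^ ρ := Real.rpow_nonneg hX0.le _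
  have er0 := cR_Y0 (P := π lam.1) (t₀ := lam.2) (a := a) (ps := ps) (γ := γ) (x := x) hb hy
  have er1 := cR_Y1 (P := π lam.1) (t₀ := lam.2) (ps := ps) (γ := γ) (x := x) F.ok hb hy
  -- the two vectors of lengths
  set z₁ : Fin m ⊕ Fin 3 → ℝ := jn (fun i => c₀ * n i)
    ![Real.log (cO (π lam.1) lam.2 a ps γ bt g x y (.inr 0)).Y,
      Real.log (cO (π lam.1) lam.2 a ps γ bt g x y (.inr 1)).Y] with hz₁
  set z₂ : Fin m ⊕ Fin 3 → ℝ := jn (fun i => c₀ * n i)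
    ![Real.log (cR (π lam.1) lam.2 a ps γ bt g x y (.inr 0)).Y,
      Real.log (cR (π lam.1) lam.2 a ps γ bt g x y (.inr 1)).Y] with hz₂
  set σ : Fin m ⊕ Fin 3 → ℝ := jn τ ![0, 0] with hσ
  have hz1n : ∀ i, |z₁ i - Real.log (cO (π lam.1) lam.2 a ps γ bt g x y i).Y| ≤ 2 * R := by
    intro i
    rcases i with i | i
    · exact hn (.inl i)
    · fin_cases i
      · show |Real.log (cO (π lam.1) lam.2 a ps γ bt g x y (.inr 0)).Y -
          Real.log (cO (π lam.1) lam.2 a ps γ bt g x y (.inr 0)).Y| ≤ 2 * R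
        rw [sub_self, abs_zero]; linarith
      · show |Real.log (cO (π lam.1) lam.2 a ps γ bt g x y (.inr 1)).Y -
          Real.log (cO (π lam.1) lam.2 a ps γ bt g x y (.inr 1)).Y| ≤ 2 * R
        rw [sub_self, abs_zero]; linarith
      · exact hn (.inr ())
  have hz10 : ∀ i, 0 ≤ z₁ i := by
    intro i
    rcases i with i | i
    · show 0 ≤ c₀ * (n (.inl i) : ℝ)
      positivity
    · fin_cases i
      · exact p0
      · exact p1
      · show 0 ≤ c₀ * (n (.inr ()) : ℝ)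
        positivity
  have hσn : ∀ i, |σ i| ≤ X ^ ρ := by
    intro i
    rcases i with i | i
    · exact hτ (.inl i)
    · fin_cases i
      · show |(0 : ℝ)| ≤ _
        rw [abs_zero]; exact hXρ
      · show |(0 : ℝ)| ≤ _
        rw [abs_zero]; exact hXρ
      · exact hτ (.inr ())
  have hchi := chi_of (δ₁ := δ₁) F.nat hγ hb hg hx hy hlow hz10 hz1n hσn hρ (by linarith)
  obtain ⟨n1, n2⟩ := child_num F.sd1 hγ hb hg hx hy hz1n
  have n1 := abs_le.1 n1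
  have n2 := abs_le.1 n2
  have hG0 : 0 ≤ Real.log (nm g) := Real.log_nonneg (one_le_nm hg)
  have hγ0 := bw_nonneg hγ
  have hbt0 := bw_nonneg hb
  have ha3 := abs_le.1 F.a3b
  have htot := abs_le.1 F.nat.tot
  have hlz := abs_le.1 F.nat.lz
  have haz := abs_le.1 F.nat.az
  have hV : ∑ j, (vC a.toBd (y := y) hb hg z₁ σ j).z = ∑ j : Fin 3, z₁ (.inr j) := rfl
  have hQ : tlen (List.ofFn (qC ps (x := x) hγ hg z₁ σ)) = ∑ i : Fin m, z₁ (.inl i) := by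
    rw [tlen_ofFn]; rfl
  have hQ0 : 0 ≤ tlen (List.ofFn (qC ps (x := x) hγ hg z₁ σ)) := tlen_nonneg hchi.y0
  have hsum : ∑ i : Fin 3, cu (prX p) (Fin.natAdd 2 i) = cN (prX p) := by
    rw [Fin.sum_univ_three]; rfl
  have hβκ : 0 ≤ β * cκ (prX p) := mul_nonneg F.par.β0 (by linarith [F.par.κ0])
  -- the shift of the pair
  have hdz : |dz a - (cu (prX p) 2 - p (.inr 1)) * Real.log X| ≤ 2 * δ * Real.log X := by
    have h1 := abs_le.1 (F.nat.vz 0)
    have h2 := F.w.ev (.inr 1)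
    have g1 : S5X.ev X a (.inr 1) = a.zs 2 / Real.log X := rfl
    have g2 : (vsO a.toBd 0).z = (a.us 2).z := rfl
    have g3 : cu (prX p) (Fin.natAdd 2 (0 : Fin 3)) = cu (prX p) 2 := rfl
    rw [g1] at h2
    rw [g2, g3] at h1
    have h3 : |a.zs 2 - p (.inr 1) * Real.log X| ≤ δ * Real.log X := by
      have e2 : a.zs 2 - p (.inr 1) * Real.log X =
          (a.zs 2 / Real.log X - p (.inr 1)) * Real.log X := by
        field_simp
      rw [e2, abs_mul, abs_of_pos hL]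
      exact mul_le_mul_of_nonneg_right h2 hL.le
    have h3 := abs_le.1 h3
    unfold dz
    rw [abs_le]
    constructor <;> linarith
  have hdz' := abs_le.1 hdz
  have hv0 : (vC a.toBd (y := y) hb hg z₁ σ 0).z =
    Real.log (cO (π lam.1) lam.2 a ps γ bt g x y (.inr 0)).Y := rfl
  have hv1 : (vC a.toBd (y := y) hb hg z₁ σ 1).z =
    Real.log (cO (π lam.1) lam.2 a ps γ bt g x y (.inr 1)).Y := rfl
  have hDp : 0 ≤ cu (prX p) 2 - p (.inr 1) := by
    have := (F.par.zr 1).2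
    linarith [F.par.βu]
  have hX8 := chiX_of (c := c) (b := bw bt) (Dl := cu (prX p) 2 - p (.inr 1)) (s := 0) F F.sd1
    hc0 hc1 hchi hbt0 hb1 (by rw [hV]; nlinarith)
    (by
      rw [hv0]
      nlinarith) (by rw [hV]; nlinarith)
  have h8 := use8X (Ψ := ErX π h e0 c Rf lam) (B := B) (δ := 40 * δ) F.nat.X1 (by linarith)
    (by linarith) hρ1 (by linarith) (by linarith) (by linarith) H8 hPar F.par hc0
    (F.w.mono F.nat.X1.le (by linarith) le_rfl le_rfl le_rfl) hX8 hsum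
    (fun i => F.par.u0 _) le_rfl hβκ
    (by
      show cu (prX p) 2 - p (.inr 1) ≤ cu (prX p) 2
      linarith [F.par.pos]) (Or.inr rfl)
    (fun v v0 v1 v2 _ => ⟨⟨v1 0, v1 1, v1 2⟩, by linarith, by linarith [v0 1]⟩)
    (by
      rw [← Finset.sum_mul, hsum, hV, hQ]
      nlinarith)
    (by
      rw [hV]
      unfold bfO at hb0
      nlinarith)
  have eJ1 := jn_reY (cO (π lam.1) lam.2 a ps γ bt g x y) (fun i => (hOK1 i).Y0)
    (fun i => c₀ * n i) τ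
  have eJ2 := jn_reY (cR (π lam.1) lam.2 a ps γ bt g x y) (fun i => (hOK2 i).Y0)
    (fun i => c₀ * n i) τ
  rw [rst_eq] at eJ2
  have eR1 := reY_chO (P := π lam.1) (t₀ := lam.2) (a := a.toBd) (ps := ps) (x := x) (y := y)
    hγ hb hg z₁ σ
  have eR2 := reY_chO (P := π lam.1) (t₀ := lam.2) (a := repA a) (ps := ps) (x := x) (y := y)
    hγ hb hg z₂ σ
  rw [eJ1, eJ2, eR1, eR2, al_fam, al_fam]
  have eq : qC ps (x := x) hγ hg z₂ σ = qC ps (x := x) hγ hg z₁ σ := rfl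
  have ev := vC_rep (a := a) (y := y) hb hg (z₁ := z₁) (z₂ := z₂) (τ := σ) er0 er1 rfl
  rw [eq, ev]
  obtain ⟨o1, o2⟩ := oc_child F.ok (vs := vC a.toBd (y := y) hb hg z₁ σ)
    (n0 := Real.log (nm (bt 0 * y 0))) (n1 := Real.log (nm (bt 1 * y 1)))
    (by show (a.us 2).t + 0 = _; rw [add_zero]) (by show (a.us 3).t + 0 = _; rw [add_zero])
    (by
      rw [hv0]
      show Real.log (Real.exp (a.us 2).z / (nm (bt 0 * y 0) : ℝ)) = _
      have h1 : (1 : ℝ) ≤ nm (bt 0 * y 0) := one_le_nm ((hb 0).mul (hyp 0))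
      rw [Real.log_div (Real.exp_pos _).ne' (by linarith), Real.log_exp])
    (by
      rw [hv1]
      show Real.log (Real.exp (a.us 3).z / (nm (bt 1 * y 1) : ℝ)) = _
      have h1 : (1 : ℝ) ≤ nm (bt 1 * y 1) := one_le_nm ((hb 1).mul (hyp 1))
      rw [Real.log_div (Real.exp_pos _).ne' (by linarith), Real.log_exp])
  have hfsA : ∀ vs : Fin 3 → Pq, FS (sqc 1 (alL h ((List.ofFn vs ++
      List.ofFn (qC ps (x := x) hγ hg z₁ σ)).map (Pt (π lam.1) lam.2)))) := by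
    intro vs
    rw [← al_fam]
    exact FS_sqc_al hR (fam_OK (π lam.1) lam.2 F.nat.hP _ vs) 1
  refine (M2_Er_smul (uM_nonneg _ _ _) (uM_fin (Real.exp_pos _)) (hfsA _) (hfsA _)
    (osc (a.us 2).t (Real.log (nm (bt 0 * y 0))) * osc (a.us 3).t (Real.log (nm (bt 1 * y 1))))
    (ph a) (-ph' a) (by rw [norm_mul, norm_osc, norm_osc, mul_one]) _ _ hJ _).trans ?_
  rw [← o1, ← o2]
  refine (le_of_eq ?_).trans (h8.trans ?_)
  · unfold ErX
    rw [if_pos ⟨⟨F.ok, F.nat.t0, fun i => ⟨hchi.lump i, hchi.z0 i⟩, hchi.am, hbt0⟩, by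
      constructor
      · show 0 ≤ Real.log _ - dz a
        rw [← er0]; exact q0
      · show 0 ≤ Real.log _ + dz a
        rw [← er1]; exact q1⟩]
    rfl
  · unfold WO
    rw [mul_assoc]
    refine mul_le_mul (Real.rpow_le_rpow_of_exponent_le F.nat.X1.le (by linarith)) ?_
      (Real.exp_pos _).le (by positivity)
    rw [hV, hQ]
    exact sumz_leX F.sd1 hγ hb hg hx hy hz1n

end

end Crest.Agent.R017.P1X960
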