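import Crest.Agent.R017.P1Le_904

/-!
# Row 17, class E, the Gram sum at `71`'s two rooms: the structured and the principal part (helper994)

`R := max (RSm k q p uN x) (RS0 q p uR x)`, room `G ≥ 2 (k + p + max 0 (5/4 N - k) - (k - q)/3) + 3/5 D - R`,
families up to `7/8`, exponent `h := max (hL .. (G - F)) (2 q + v + 4 p - 3 δ - 3 max 0 (s₀ - δ) - 3 G)`
* `RX_le`, `hX_le` : the options; `coreXE` : the low regime is empty; `coreXN` : `h ≤ - k / 100`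
-/

set_option autoImplicit false
set_option linter.unusedVariables false

noncomputable section

namespace Crest.Agent.R017.P1X8994

open Crest.Agent.R017.RnP571 (Dh)
open Crest.Agent.R017.P1Q904 (gQ gQ_cases)
open Crest.Agent.R017.P1L904 (RSm RS0 RSm_le1 hL hL_le)

/-- the options of the number of the character side -/
lemma RX_le (k q p uN uR x : ℝ) : ∃ R, R = max (RSm k q p uN x) (RS0 q p uR x) ∧
    ((R ≤ q + p ∨ R ≤ p + (2 * q + k) / 3 ∨ R ≤ p + (2 * q + (p + uN)) / 3 ∨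
      R ≤ p + (q + 2 * p + k / 3) / 3 ∨ R ≤ p + (q + 2 * p + (p + uN) / 3) / 3 ∨
      R ≤ p + (q + 3 * p - 5 / 12 * (p + uN - x)) / 3) ∨
      (R ≤ 2 / 3 * q + 4 / 3 * p + uR / 2 ∨ R ≤ 2 / 3 * q + 4 / 3 * p + 4 / 15 * (uR + x))) := by
  refine ⟨_, rfl, ?_⟩
  rcases max_choice (RSm k q p uN x) (RS0 q p uR x) with h | h
  · rw [h]; exact Or.inl (RSm_le1 _ _ _ _ _)
  · rw [h]
    unfold P1L904.RS0
    rcases max_choice (q + p) (2 / 3 * q + 4 / 3 * p + max (uR / 2) (4 / 15 * (uR + x))) with h | h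
    · rw [h]; exact Or.inl (Or.inl le_rfl)
    · rw [h]
      rcases max_choice (uR / 2) (4 / 15 * (uR + x)) with h | h
      · rw [h]; exact Or.inr (Or.inl le_rfl)
      · rw [h]; exact Or.inr (Or.inr le_rfl)

/-- the options of the exponent -/
lemma hX_le (q v p δ x K5 G B s₀ : ℝ) : ∃ h m, 0 ≤ m ∧ s₀ - δ ≤ m ∧
    h = max (hL q v p δ x K5 G) (2 * q + v + 4 * p - 3 * δ - 3 * max 0 (s₀ - δ) - 3 * B) ∧
    ((h = 2 * q + 4 * p - δ - 3 * G ∧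
      (2 * q + 2 * v + 3 * p + 2 * x - 4 * δ - 3 * G ≤ 2 * q + 4 * p - δ - 3 * G ∨
        (2 * q + 3 * p + K5 - 3 * G ≤ 2 * q + 4 * p - δ - 3 * G ∧
          2 * q + 3 * p + (4 / 3 * p + 2 / 3 * x - 4 / 3 * δ) - 3 * G ≤
            2 * q + 4 * p - δ - 3 * G))) ∨
      (h ≤ 2 * q + 2 * v + 3 * p + 2 * x - 4 * δ - 3 * G ∧
        (h ≤ 2 * q + 3 * p + K5 - 3 * G ∨
          h ≤ 2 * q + 3 * p + (4 / 3 * p + 2 / 3 * x - 4 / 3 * δ) - 3 * G)) ∨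
      h = 2 * q + v + 4 * p - 3 * δ - 3 * m - 3 * B) := by
  refine ⟨_, max 0 (s₀ - δ), le_max_left _ _, le_max_right _ _, rfl, ?_⟩
  rcases max_choice (hL q v p δ x K5 G)
    (2 * q + v + 4 * p - 3 * δ - 3 * max 0 (s₀ - δ) - 3 * B) with h | h
  · rw [h]
    rcases hL_le q v p δ x K5 G with h' | h'
    · exact Or.inl h'
    · exact Or.inr (Or.inl h')
  · rw [h]; exact Or.inr (Or.inr rfl)

set_option maxHeartbeats 16000000 in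
/-- in the low regime there is no structured part -/
lemma coreXE {k y₃ y₄ u x D t q p uN uR v w δ h G R K5 : ℝ} (hD : Dh k y₃ y₄ u x D)
    (t0 : 0 ≤ t) (t1 : t ≤ k / 20000) (q0 : 3 / 5 * k - t ≤ q) (q1 : q ≤ 7 / 8 * k + t)
    (p0 : k / 2 - 2 * x - t ≤ p) (p1 : p ≤ y₃ + y₄ + u + x + t) (p2 : p ≤ y₃ + y₄ + uN + x + t)
    (uN0 : 0 ≤ uN) (uN1 : uN ≤ u + t) (uN2 : 3 * uN ≤ p + t)
    (uR0 : 0 ≤ uR) (uR1 : uR ≤ u + t) (uR2 : 3 * uR ≤ p + t) (uR3 : uR ≤ 153 / 800 * k + t)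
    (v1 : v ≤ 2 * (y₃ + y₄ + u) - k + 11 / 5 * x + t)
    (v2 : v ≤ 3 / 4 * (y₃ + y₄ + u) + 11 / 5 * x + t)
    (hK' : k ≤ K5) (hK'' : 5 / 4 * (y₃ + y₄ + u) ≤ K5) (hK : K5 ≤ 51 / 50 * k)
    (hG : 2 * (k + p + (K5 - k) - (k - q) / 3) + 2 / 45 * D - R ≤ G)
    (hR : (R ≤ q + p ∨ R ≤ p + (2 * q + k) / 3 ∨ R ≤ p + (2 * q + (p + uN)) / 3 ∨
      R ≤ p + (q + 2 * p + k / 3) / 3 ∨ R ≤ p + (q + 2 * p + (p + uN) / 3) / 3 ∨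
      R ≤ p + (q + 3 * p - 5 / 12 * (p + uN - x)) / 3) ∨
      (R ≤ 2 / 3 * q + 4 / 3 * p + uR / 2 ∨ R ≤ 2 / 3 * q + 4 / 3 * p + 4 / 15 * (uR + x)))
    (hh : h = 2 * q + 4 * p - δ - 3 * G)
    (hh' : 2 * q + 2 * v + 3 * p + 2 * x - 4 * δ - 3 * G ≤ 2 * q + 4 * p - δ - 3 * G ∨
        (2 * q + 3 * p + K5 - 3 * G ≤ 2 * q + 4 * p - δ - 3 * G ∧
          2 * q + 3 * p + (4 / 3 * p + 2 / 3 * x - 4 / 3 * δ) - 3 * G ≤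
            2 * q + 4 * p - δ - 3 * G))
    (hw : w ≤ v + h + t) (hL : 0 ≤ w + v - q - δ + t) (δ0 : 0 ≤ δ) : False := by
  obtain ⟨k0, u4, y43, u0, y3, N1, near, x0, adm, d0, d1⟩ := hD
  have adm' : 8 * x ≤ D ∨ (3 / 4 * k ≤ y₃ + y₄ + u ∧ x + 2 * D ≤ 1 / 36 * k ∧
      x + 7 / 10 * (y₃ + y₄ + u) ≤ 199 / 360 * k) := by
    rcases adm with ⟨a0, -⟩ | h'
    · exact Or.inl a0
    · exact Or.inr h'
  clear adm
  rcases hh' with hh' | ⟨hh', hh''⟩ <;>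
  rcases hR with (hR | hR | hR | hR | hR | hR) | (hR | hR) <;>
  rcases adm' with a1 | ⟨a1, a2, a3⟩ <;> linarith

set_option maxHeartbeats 16000000 in
/-- the sign of the exponent, linear core -/
lemma coreXN {k y₃ y₄ u x D t q p uN uR v δ h G B R K5 m s₀ ℓ : ℝ}
    (hD : Dh k y₃ y₄ u x D)
    (t0 : 0 ≤ t) (t1 : t ≤ k / 20000) (q0 : 3 / 5 * k - t ≤ q) (q1 : q ≤ 7 / 8 * k + t)
    (p0 : k / 2 - 2 * x - t ≤ p) (p1 : p ≤ y₃ + y₄ + u + x + t) (p2 : p ≤ y₃ + y₄ + uN + x + t)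
    (uN0 : 0 ≤ uN) (uN1 : uN ≤ u + t) (uN2 : 3 * uN ≤ p + t)
    (uR0 : 0 ≤ uR) (uR1 : uR ≤ u + t) (uR2 : 3 * uR ≤ p + t) (uR3 : uR ≤ 153 / 800 * k + t)
    (v1 : v ≤ 2 * (y₃ + y₄ + u) - k + 11 / 5 * x + t)
    (v2 : v ≤ 3 / 4 * (y₃ + y₄ + u) + 11 / 5 * x + t)
    (hK' : k ≤ K5) (hK'' : 5 / 4 * (y₃ + y₄ + u) ≤ K5) (hK : K5 ≤ 51 / 50 * k)
    (hG : 2 * (k + p + (K5 - k) - (k - q) / 3) + 2 / 45 * D - R ≤ G)
    (hB : 2 * (k + p + (K5 - k) - (k - q) / 3) + 3 / 5 * D - R ≤ B)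
    (hR : (R ≤ q + p ∨ R ≤ p + (2 * q + k) / 3 ∨ R ≤ p + (2 * q + (p + uN)) / 3 ∨
      R ≤ p + (q + 2 * p + k / 3) / 3 ∨ R ≤ p + (q + 2 * p + (p + uN) / 3) / 3 ∨
      R ≤ p + (q + 3 * p - 5 / 12 * (p + uN - x)) / 3) ∨
      (R ≤ 2 / 3 * q + 4 / 3 * p + uR / 2 ∨ R ≤ 2 / 3 * q + 4 / 3 * p + 4 / 15 * (uR + x)))
    (δ0 : 0 ≤ δ)
    (hh : h = 2 * q + 4 * p - δ - 3 * G ∨ (h ≤ 2 * q + 2 * v + 3 * p + 2 * x - 4 * δ - 3 * G ∧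
        (h ≤ 2 * q + 3 * p + K5 - 3 * G ∨
          h ≤ 2 * q + 3 * p + (4 / 3 * p + 2 / 3 * x - 4 / 3 * δ) - 3 * G)) ∨
      (h = 2 * q + v + 4 * p - 3 * δ - 3 * m - 3 * B ∧ 0 ≤ m ∧ s₀ - δ ≤ m ∧
        17 / 100 * k - ℓ - t ≤ s₀ ∧ p ≤ y₃ + y₄ + u - ℓ + x + t ∧ 0 ≤ ℓ)) :
    h + k / 100 ≤ 0 := by
  obtain ⟨k0, u4, y43, u0, y3, N1, near, x0, adm, d0, d1⟩ := hD
  have adm' : 8 * x ≤ D ∨ (3 / 4 * k ≤ y₃ + y₄ + u ∧ x + 2 * D ≤ 1 / 36 * k ∧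
      x + 7 / 10 * (y₃ + y₄ + u) ≤ 199 / 360 * k) := by
    rcases adm with ⟨a0, -⟩ | h'
    · exact Or.inl a0
    · exact Or.inr h'
  clear adm
  rcases hh with hh | ⟨hh, hh' | hh'⟩ | ⟨hh, m0, m1, m2, m3, m4⟩ <;>
  rcases hR with (hR | hR | hR | hR | hR | hR) | (hR | hR) <;>
  rcases adm' with a1 | ⟨a1, a2, a3⟩ <;> linarith

end Crest.Agent.R017.P1X8994
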