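import Crest.Agent.R017.P1X7_904

/-!
# Row 17, R8: the class-form Gram sum of class E, the structured part (helper904)

`w ≤ v + hX + t`, budget `GX`. Where `hB` wins there is no structured part.
-/

set_option autoImplicit false
set_option linter.unusedVariables false

noncomputable section

namespace Crest.Agent.R017.P1L7904

open Crest.Agent.R017.RnP571 (Dh)
open Crest.Agent.R017.P1L904 (RS0 RS1 RSm RSm_le0 RSm_le1 hL hL_le hL_ge tL tL_cases lw0 lw1 tG_le)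
open Crest.Agent.R017.P1Q904 (gQ gQ_cases min3_le)

set_option maxHeartbeats 16000000 in
/-- in the low regime there is no structured part -/
lemma coreEA {k y₃ y₄ u x D t q p uN uR v ℓ s₀ w δ h G R K5 : ℝ} (hD : Dh k y₃ y₄ u x D)
    (hC : Ch k y₃ y₄ u x D t q p uN uR v ℓ s₀) (δ0 : 0 ≤ δ)
    (hK : K5 = k ∨ K5 = 5 / 4 * (y₃ + y₄ + u)) (hK' : k ≤ K5) (hK'' : 5 / 4 * (y₃ + y₄ + u) ≤ K5)
    (hG : 2 * (k + p + (K5 - k) - (k - q) / 3) + 2 / 45 * D - R ≤ G)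
    (hR : R1d R k q p uN x)
    (hh : h = 2 * q + 4 * p - δ - 3 * G)
    (hh' : 2 * q + 2 * v + 3 * p + 2 * x - 4 * δ - 3 * G ≤ 2 * q + 4 * p - δ - 3 * G ∨
        (2 * q + 3 * p + K5 - 3 * G ≤ 2 * q + 4 * p - δ - 3 * G ∧
          2 * q + 3 * p + (4 / 3 * p + 2 / 3 * x - 4 / 3 * δ) - 3 * G ≤
            2 * q + 4 * p - δ - 3 * G))
    (hw : w ≤ v + h + t) (hL : 0 ≤ w + v - q - δ + t) : False := by
  obtain ⟨t0, t1, q0, q1, p0, p1, p1', p2, um0, um1, um2, r1, r2, r3, v1, v2, ⟨y, yy0, yx, py, v3, v4⟩, l0, s0⟩ := hC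
  obtain ⟨k0, u4, y43, u0, y3, N1, near, x0, adm, d0, d1⟩ := hD
  rcases hh' with hh' | ⟨hh', hh''⟩ <;>
  rcases hR with hR | hR | hR | hR | hR | hR <;> rcases hK with rfl | rfl <;>
  rcases adm with ⟨a0, rfl | a1⟩ | ⟨a1, a2, a3⟩ <;> linarith

set_option maxHeartbeats 32000000 in
lemma coreR1A {k y₃ y₄ u x D t q p uN uR v ℓ s₀ w δ e i n x' S h g G B R K5 : ℝ}
    (hD : Dh k y₃ y₄ u x D) (hC : Ch k y₃ y₄ u x D t q p uN uR v ℓ s₀)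
    (hK : K5 = k ∨ K5 = 5 / 4 * (y₃ + y₄ + u)) (hK' : k ≤ K5) (hK'' : 5 / 4 * (y₃ + y₄ + u) ≤ K5)
    (hG : 2 * (k + p + (K5 - k) - (k - q) / 3) + 2 / 45 * D - R ≤ G)
    (hB' : 2 * (k + p + (K5 - k) - (k - q) / 3) + 3 / 5 * D - R ≤ B)
    (hR : R1d R k q p uN x)
    (hh : h ≤ 2 * q + 2 * v + 3 * p + 2 * x - 4 * δ - 3 * G)
    (hh' : h ≤ 2 * q + 3 * p + K5 - 3 * G ∨
        h ≤ 2 * q + 3 * p + (4 / 3 * p + 2 / 3 * x - 4 / 3 * δ) - 3 * G)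
    (hw : w ≤ v + h + t) (hL : 0 ≤ w + v - q - δ + t)
    (δ0 : 0 ≤ δ) (e0 : 0 ≤ e) (e1 : e ≤ k / 64 + t)
    (x0' : 0 ≤ x') (x1' : x' ≤ x + t) (hn : n ≤ p - δ - e + t) (i0 : 0 ≤ i)
    (hi : i ≤ w + p - q + t) (s1 : S - x' ≤ u + t) (s2 : 3 * (S - x') ≤ n - x')
    (s3 : 2 * (S - x') ≤ i)
    (hg : g = (w + v - q - δ) / 3 ∨ g = (w + v - q - δ) - (w + p - q) / 2 ∨
      g = 7 / 9 * (w + v - q - δ) - 2 / 3 * (w + p - q) ∨
      g = 11 / 18 * (w + v - q - δ) - (w + p - q) / 3) :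
    2 / 3 * q - w / 3 + 5 / 3 * δ + 2 * e + g + 2 / 3 * (p - δ) +
      (i + 3 / 4 * S + 61 / 100 * D) + (w + p - q - i) / 3 + k / 200 ≤ B := by
  obtain ⟨t0, t1, q0, q1, p0, p1, p1', p2, um0, um1, um2, r1, r2, r3, v1, v2, ⟨y, yy0, yx, py, v3, v4⟩, l0, s0⟩ := hC
  obtain ⟨k0, u4, y43, u0, y3, N1, near, x0, adm, d0, d1⟩ := hD
  rcases hh' with hh' | hh' <;>
  rcases hR with hR | hR | hR | hR | hR | hR <;> rcases hK with rfl | rfl <;>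
  rcases adm with ⟨a0, rfl | a1⟩ | ⟨a1, a2, a3⟩ <;>
  rcases hg with rfl | rfl | rfl | rfl <;> linarith

end Crest.Agent.R017.P1L7904
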