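import Crest.Agent.R017.P1Le_904

/-!
# Row 17, class E, the Gram sum at `71`'s two rooms: the principal part (helper994)
-/

set_option autoImplicit false
set_option linter.unusedVariables false

noncomputable section

namespace Crest.Agent.R017.P1X8994

open Crest.Agent.R017.RnP571 (Dh)

set_option maxHeartbeats 64000000 in
/-- the principal part, linear core -/
lemma coreX2 {k y₃ y₄ u x D t q p uN uR v w δ e M h g G B R K5 m s₀ ℓ : ℝ}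
    (hD : Dh k y₃ y₄ u x D)
    (t0 : 0 ≤ t) (t1 : t ≤ k / 20000) (q0 : 3 / 5 * k - t ≤ q) (q1 : q ≤ 7 / 8 * k + t)
    (p0 : k / 2 - 2 * x - t ≤ p) (p1 : p ≤ y₃ + y₄ + u + x + t) (p2 : p ≤ y₃ + y₄ + uN + x + t)
    (uN0 : 0 ≤ uN) (uN1 : uN ≤ u + t) (uN2 : 3 * uN ≤ p + t)
    (uR0 : 0 ≤ uR) (uR1 : uR ≤ u + t) (uR2 : 3 * uR ≤ p + t) (uR3 : uR ≤ 153 / 800 * k + t)
    (v1 : v ≤ 2 * (y₃ + y₄ + u) - k + 11 / 5 * x + t)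
    (v2 : v ≤ 3 / 4 * (y₃ + y₄ + u) + 11 / 5 * x + t)
    (hK' : k ≤ K5) (hK'' : 5 / 4 * (y₃ + y₄ + u) ≤ K5) (hK : K5 ≤ 51 / 50 * k)
    (hG : 2 * (k + p + (K5 - k) - (k - q) / 3) + 2 / 45 * D - R ≤ G)
    (hB : 2 * (k + p + (K5 - k) - (k - q) / 3) + 3 / 5 * D - R ≤ B)
    (hR : (R ≤ q + p ∨ R ≤ p + (2 * q + k) / 3 ∨ R ≤ p + (2 * q + (p + uN)) / 3 ∨
      R ≤ p + (q + 2 * p + k / 3) / 3 ∨ R ≤ p + (q + 2 * p + (p + uN) / 3) / 3 ∨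
      R ≤ p + (q + 3 * p - 5 / 12 * (p + uN - x)) / 3) ∨
      (R ≤ 2 / 3 * q + 4 / 3 * p + uR / 2 ∨ R ≤ 2 / 3 * q + 4 / 3 * p + 4 / 15 * (uR + x)))
    (hh : (h ≤ 2 * q + 2 * v + 3 * p + 2 * x - 4 * δ - 3 * G ∧
        (h ≤ 2 * q + 3 * p + K5 - 3 * G ∨
          h ≤ 2 * q + 3 * p + (4 / 3 * p + 2 / 3 * x - 4 / 3 * δ) - 3 * G)) ∨
      (h = 2 * q + v + 4 * p - 3 * δ - 3 * m - 3 * B ∧ 0 ≤ m ∧ s₀ - δ ≤ m ∧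
        17 / 100 * k - ℓ - t ≤ s₀ ∧ p ≤ y₃ + y₄ + u - ℓ + x + t ∧ 0 ≤ ℓ))
    (hw : w ≤ v + h + t) (hL : 0 ≤ w + v - q - δ + t)
    (δ0 : 0 ≤ δ) (e0 : 0 ≤ e) (e1 : e ≤ k / 64 + t) (hM : M ≤ 7 / 20 * k)
    (hg : g = (w + v - q - δ) / 3 ∨ g = (w + v - q - δ) - (w + p - q) / 2 ∨
      g = 7 / 9 * (w + v - q - δ) - 2 / 3 * (w + p - q) ∨
      g = 11 / 18 * (w + v - q - δ) - (w + p - q) / 3) :
    2 / 3 * q - w / 3 + 5 / 3 * δ + e + g + 2 / 3 * (p - δ) + M + k / 200 ≤ B := by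
  obtain ⟨k0, u4, y43, u0, y3, N1, near, x0, adm, d0, d1⟩ := hD
  have adm' : 8 * x ≤ D ∨ (3 / 4 * k ≤ y₃ + y₄ + u ∧ x + 2 * D ≤ 1 / 36 * k ∧
      x + 7 / 10 * (y₃ + y₄ + u) ≤ 199 / 360 * k) := by
    rcases adm with ⟨a0, -⟩ | h'
    · exact Or.inl a0
    · exact Or.inr h'
  clear adm
  rcases hh with ⟨hh, hh' | hh'⟩ | ⟨hh, m0, m1, m2, m3, m4⟩ <;>
  rcases hR with (hR | hR | hR | hR | hR | hR) | (hR | hR) <;>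
  rcases adm' with a1 | ⟨a1, a2, a3⟩ <;>
  rcases hg with rfl | rfl | rfl | rfl <;> linarith

end Crest.Agent.R017.P1X8994
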