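import Crest.Agent.R017.P1X8_994
import Crest.Agent.R017.P1X8b_994
import Crest.Agent.R017.P1X8c_994
import Crest.Agent.R017.P1X7_904

/-!
# Row 17, class E, the Gram sum at `71`'s two rooms, real lines of the `R`-side (helper994)

* `coreLX`, `coreL2X` : `w ≤ v + hX .. + t`, budget `GX` (helper904's defs of `P1X7_904`)
-/

set_option autoImplicit false
set_option linter.unusedVariables false

noncomputable section

namespace Crest.Agent.R017.P1X8994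

open Crest.Agent.R017.RnP571 (Dh)
open Crest.Agent.R017.P1Q904 (gQ gQ_cases)
open Crest.Agent.R017.P1L904 (RSm RS0 hL)
open Crest.Agent.R017.P1L7904 (GX GX_eq hB hX Ch)

/-- the options of the exponent at the room -/
lemma hX_cases {k y₃ y₄ u x D t q p uN uR v ℓ s₀ F R : ℝ} (hD : Dh k y₃ y₄ u x D)
    (hC : Ch k y₃ y₄ u x D t q p uN uR v ℓ s₀) (F1 : F ≤ 5 / 9 * D)
    (hR : R = max (RSm k q p uN x) (RS0 q p uR x)) :
    max k (5 / 4 * (y₃ + y₄ + u)) ≤ 51 / 50 * k ∧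
    2 * (k + p + (max k (5 / 4 * (y₃ + y₄ + u)) - k) - (k - q) / 3) + 2 / 45 * D - R ≤
      GX (y₃ + y₄ + u) k q p uN uR x D - F ∧
    2 * (k + p + (max k (5 / 4 * (y₃ + y₄ + u)) - k) - (k - q) / 3) + 3 / 5 * D - R ≤
      GX (y₃ + y₄ + u) k q p uN uR x D ∧
    p ≤ y₃ + y₄ + u - max 0 ℓ + x + t ∧ 17 / 100 * k - max 0 ℓ - t ≤ s₀ ∧
    max 0 uR ≤ u + t ∧ 3 * max 0 uR ≤ p + t ∧ max 0 uR ≤ 153 / 800 * k + t := by
  have hG := GX_eq (y₃ + y₄ + u) k q p uN uR x D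
  rw [← hR] at hG
  obtain ⟨t0, t1, q0, q1, p0, p1, p1', p2, um0, um1, um2, r1, r2, r3, v1, v2, v34, l0, s0⟩ := hC
  obtain ⟨k0, u4, y43, u0, y3, N1, near, x0, adm, d0, d1⟩ := hD
  have l1 := le_max_right 0 ℓ
  have hx : x ≤ 1 / 36 * k := by
    rcases adm with ⟨a0, -⟩ | ⟨a1, a2, a3⟩ <;> linarith
  refine ⟨max_le (by linarith) (by linarith), by linarith, by linarith, ?_, by linarith,
    max_le (by linarith) r1, ?_, max_le (by linarith) r3⟩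
  · rcases max_choice 0 ℓ with h | h <;> rw [h] <;> linarith
  · rcases max_choice 0 uR with h | h <;> rw [h] <;> linarith

/-- the character side with the share `max 0 uR` -/
lemma RX_le' (k q p uN uR x : ℝ) {R : ℝ} (h : R = max (RSm k q p uN x) (RS0 q p uR x)) :
    (R ≤ q + p ∨ R ≤ p + (2 * q + k) / 3 ∨ R ≤ p + (2 * q + (p + uN)) / 3 ∨
      R ≤ p + (q + 2 * p + k / 3) / 3 ∨ R ≤ p + (q + 2 * p + (p + uN) / 3) / 3 ∨
      R ≤ p + (q + 3 * p - 5 / 12 * (p + uN - x)) / 3) ∨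
      (R ≤ 2 / 3 * q + 4 / 3 * p + max 0 uR / 2 ∨
        R ≤ 2 / 3 * q + 4 / 3 * p + 4 / 15 * (max 0 uR + x)) := by
  obtain ⟨R', h', hR⟩ := RX_le k q p uN uR x
  rw [← h] at h'
  subst h'
  have := le_max_right 0 uR
  rcases hR with hR | hR | hR
  · exact Or.inl hR
  · exact Or.inr (Or.inl (by linarith))
  · exact Or.inr (Or.inr (by linarith))

/-- **the structured part, second form** (`w = log (H V)`, `S` bounds `l + x'`) -/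
theorem coreLX {k y₃ y₄ u x D t q p uN uR v ℓ s₀ w δ e i n x' S F : ℝ} (hD : Dh k y₃ y₄ u x D)
    (hC : Ch k y₃ y₄ u x D t q p uN uR v ℓ s₀)
    (hw : w ≤ v + hX (y₃ + y₄ + u) k q v p δ x D uN uR s₀ F + t)
    (hL' : 0 ≤ w + v - q - δ + t)
    (F1 : F ≤ 5 / 9 * D) (δ0 : 0 ≤ δ) (e0 : 0 ≤ e) (e1 : e ≤ k / 64 + t)
    (x0' : 0 ≤ x') (x1' : x' ≤ x + t) (hn : n ≤ p - δ - e + t) (i0 : 0 ≤ i)
    (hi : i ≤ w + p - q + t) (s1 : S - x' ≤ u + t) (s2 : 3 * (S - x') ≤ n - x')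
    (s3 : 2 * (S - x') ≤ i) :
    2 / 3 * q - w / 3 + 5 / 3 * δ + e + gQ (w + v - q - δ) (w + p - q) + 2 / 3 * (p - δ) +
      (i + 3 / 4 * S + 61 / 100 * D) + (w + p - q - i) / 3 + k / 200 ≤
      GX (y₃ + y₄ + u) k q p uN uR x D := by
  have hg := gQ_cases (w + v - q - δ) (w + p - q)
  obtain ⟨h, m, m0, m1, hh, hc⟩ := hX_le q v p δ x (max k (5 / 4 * (y₃ + y₄ + u)))
    (GX (y₃ + y₄ + u) k q p uN uR x D - F) (GX (y₃ + y₄ + u) k q p uN uR x D) s₀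
  have hw' : w ≤ v + h + t := by rw [hh]; exact hw
  obtain ⟨c1, c2, c3, c4, c5, c6, c7, c8⟩ := hX_cases hD hC F1 rfl
  obtain ⟨t0, t1, q0, q1, p0, p1, p1', p2, um0, um1, um2, r1, r2, r3, v1, v2, v34, l0, s0⟩ := hC
  have hR := RX_le' k q p uN uR x rfl
  rcases hc with ⟨hc, hc'⟩ | hc | hc
  · exact (coreXE hD t0 t1 q0 q1 p0 p1' p2 um0 um1 um2 (le_max_left 0 uR) c6 c7 c8 v1 v2
      (le_max_left _ _) (le_max_right _ _) c1 c2 hR hc hc' hw' hL' δ0).elim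
  · exact coreX1 (m := 0) (s₀ := 0) (ℓ := 0) hD t0 t1 q0 q1 p0 p1' p2 um0 um1 um2
      (le_max_left 0 uR) c6 c7 c8 v1 v2
      (le_max_left _ _) (le_max_right _ _) c1 c2 c3 hR (Or.inl hc) hw' hL' δ0 e0 e1 x0' x1' hn i0
      hi s1 s2 s3 hg
  · exact coreX1 (m := m) (s₀ := s₀) (ℓ := max 0 ℓ) hD t0 t1 q0 q1 p0 p1' p2 um0 um1 um2
      (le_max_left 0 uR) c6 c7 c8 v1 v2
      (le_max_left _ _) (le_max_right _ _) c1 c2 c3 hR
      (Or.inr ⟨hc, m0, m1, c5, c4, le_max_left _ _⟩) hw' hL' δ0 e0 e1 x0' x1' hn i0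
      hi s1 s2 s3 hg

/-- the sign of the exponent, with room -/
theorem hX_neg {k y₃ y₄ u x D t q p uN uR v ℓ s₀ δ F : ℝ} (hD : Dh k y₃ y₄ u x D)
    (hC : Ch k y₃ y₄ u x D t q p uN uR v ℓ s₀) (F1 : F ≤ 5 / 9 * D) (δ0 : 0 ≤ δ) :
    hX (y₃ + y₄ + u) k q v p δ x D uN uR s₀ F + k / 100 ≤ 0 := by
  obtain ⟨h, m, m0, m1, hh, hc⟩ := hX_le q v p δ x (max k (5 / 4 * (y₃ + y₄ + u)))
    (GX (y₃ + y₄ + u) k q p uN uR x D - F) (GX (y₃ + y₄ + u) k q p uN uR x D) s₀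
  have hh' : hX (y₃ + y₄ + u) k q v p δ x D uN uR s₀ F = h := by rw [hh]; rfl
  rw [hh']
  obtain ⟨c1, c2, c3, c4, c5, c6, c7, c8⟩ := hX_cases hD hC F1 rfl
  obtain ⟨t0, t1, q0, q1, p0, p1, p1', p2, um0, um1, um2, r1, r2, r3, v1, v2, v34, l0, s0⟩ := hC
  have hR := RX_le' k q p uN uR x rfl
  rcases hc with ⟨hc, hc'⟩ | hc | hc
  · exact coreXN (m := 0) (s₀ := 0) (ℓ := 0) hD t0 t1 q0 q1 p0 p1' p2 um0 um1 um2
      (le_max_left 0 uR) c6 c7 c8 v1 v2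
      (le_max_left _ _) (le_max_right _ _) c1 c2 c3 hR δ0 (Or.inl hc)
  · exact coreXN (m := 0) (s₀ := 0) (ℓ := 0) hD t0 t1 q0 q1 p0 p1' p2 um0 um1 um2
      (le_max_left 0 uR) c6 c7 c8 v1 v2
      (le_max_left _ _) (le_max_right _ _) c1 c2 c3 hR δ0 (Or.inr (Or.inl hc))
  · exact coreXN (m := m) (s₀ := s₀) (ℓ := max 0 ℓ) hD t0 t1 q0 q1 p0 p1' p2 um0 um1 um2
      (le_max_left 0 uR) c6 c7 c8 v1 v2
      (le_max_left _ _) (le_max_right _ _) c1 c2 c3 hR δ0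
      (Or.inr (Or.inr ⟨hc, m0, m1, c5, c4, le_max_left _ _⟩))

/-- **the principal part** -/
theorem coreL2X {k y₃ y₄ u x D t q p uN uR v ℓ s₀ w δ e x' F : ℝ} (hD : Dh k y₃ y₄ u x D)
    (hC : Ch k y₃ y₄ u x D t q p uN uR v ℓ s₀)
    (hw : w ≤ v + hX (y₃ + y₄ + u) k q v p δ x D uN uR s₀ F + t)
    (hL' : 0 ≤ w + v - q - δ + t)
    (F1 : F ≤ 5 / 9 * D) (δ0 : 0 ≤ δ) (e0 : 0 ≤ e) (e1 : e ≤ k / 64 + t)
    (x0' : 0 ≤ x') (x1' : x' ≤ x + t) :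
    2 / 3 * q - w / 3 + 5 / 3 * δ + e + gQ (w + v - q - δ) (w + p - q) + 2 / 3 * (p - δ) +
      max 0 ((w + p - q) / 3 + x') + k / 200 ≤ GX (y₃ + y₄ + u) k q p uN uR x D := by
  have hg := gQ_cases (w + v - q - δ) (w + p - q)
  have hN := hX_neg hD hC F1 δ0
  have hM : max 0 ((w + p - q) / 3 + x') ≤ 7 / 20 * k := by
    obtain ⟨t0, t1, q0, q1, p0, p1, p1', p2, um0, um1, um2, r1, r2, r3, v1, v2, v34, l0, s0⟩ :=
      hC
    obtain ⟨k0, u4, y43, u0, y3, N1, near, x0, adm, d0, d1⟩ := hD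
    refine max_le (by linarith) ?_
    rcases adm with ⟨a0, rfl | a1⟩ | ⟨a1, a2, a3⟩ <;> linarith
  obtain ⟨h, m, m0, m1, hh, hc⟩ := hX_le q v p δ x (max k (5 / 4 * (y₃ + y₄ + u)))
    (GX (y₃ + y₄ + u) k q p uN uR x D - F) (GX (y₃ + y₄ + u) k q p uN uR x D) s₀
  have hw' : w ≤ v + h + t := by rw [hh]; exact hw
  obtain ⟨c1, c2, c3, c4, c5, c6, c7, c8⟩ := hX_cases hD hC F1 rfl
  obtain ⟨t0, t1, q0, q1, p0, p1, p1', p2, um0, um1, um2, r1, r2, r3, v1, v2, v34, l0, s0⟩ := hC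
  have hR := RX_le' k q p uN uR x rfl
  rcases hc with ⟨hc, hc'⟩ | hc | hc
  · exact (coreXE hD t0 t1 q0 q1 p0 p1' p2 um0 um1 um2 (le_max_left 0 uR) c6 c7 c8 v1 v2
      (le_max_left _ _) (le_max_right _ _) c1 c2 hR hc hc' hw' hL' δ0).elim
  · exact coreX2 (m := 0) (s₀ := 0) (ℓ := 0) hD t0 t1 q0 q1 p0 p1' p2 um0 um1 um2
      (le_max_left 0 uR) c6 c7 c8 v1 v2
      (le_max_left _ _) (le_max_right _ _) c1 c2 c3 hR (Or.inl hc) hw' hL' δ0 e0 e1 hM hg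
  · exact coreX2 (m := m) (s₀ := s₀) (ℓ := max 0 ℓ) hD t0 t1 q0 q1 p0 p1' p2 um0 um1 um2
      (le_max_left 0 uR) c6 c7 c8 v1 v2
      (le_max_left _ _) (le_max_right _ _) c1 c2 c3 hR
      (Or.inr ⟨hc, m0, m1, c5, c4, le_max_left _ _⟩) hw' hL' δ0 e0 e1 hM hg

end Crest.Agent.R017.P1X8994
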