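import Crest.Agent.R017.P1X8_960

/-!
# Row 17, exceptional class, P1X, part 9 (helper960): the error moment of a child

* `hchD` : a difference, the four lengths of the pair `≥ 0`
* `hchX` : all children
-/

set_option autoImplicit false

noncomputable section

open Finset
open scoped ComplexConjugate

namespace Crest.Agent.R017.P1X960

open Crest.Agent.R012 Crest.Agent.R012.Eis
open Crest.Agent.R012.Mob705 hiding pb mem_pb
open Crest.Agent.R012.LS2 (S mem_S)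
open Crest.Agent.R017.CM106 Crest.Agent.R017.C70
open Crest.Agent.R017.FE47 (PU cx SM)
open Crest.Agent.R017.StD828 (ln Tm)
open Crest.Agent.R017.E2440 (TE StE Bth Bth_nonneg)
open Crest.Agent.R017.E5k54 (PT alb)
open Crest.Agent.R017.SSb54 (SST SSb PTb mem_PTb PTb_sub)
open Crest.Agent.R017.P1e54 Crest.Agent.R017.P1f54 Crest.Agent.R017.P1i54 Crest.Agent.R017.P1j54
open Crest.Agent.R017.P1k54 Crest.Agent.R017.P1o54
open Crest.Agent.R017.P1l54 (chP chP_lump Pt_OK fam fam_OK mod_ne reY_chS al_fam ParOK oN)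
open Crest.Agent.R017.P1n54 (tlen tlen_nonneg Chi)
open Crest.Agent.R017.P1p54
open Crest.Agent.R017.P1q54 (sqc_zero Er_zero M2_Er_zero Mm_zero_left Mm_zero_right Mm_zero_of
  SepE SepM WO Siz YT_le nO_le YT_nonneg exp_l_le l_nonneg us_le Y3_le sumz_le)
open Crest.Agent.R017.HP842 (Pc pc al alL cv Tu mem_Tu sqc Th)
open Crest.Agent.R017.B770 Crest.Agent.R017.Prov71
open Crest.Agent.R017.XG702 (Pcs Good_mono)
open Crest.Agent.R017.XT71 (Sys Win mx mx_le le_mx)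
open Crest.Agent.R017.UM71
open Crest.Agent.R017.E5B71 Crest.Agent.R017.E5P571 Crest.Agent.R017.E5L770
open Crest.Agent.R017.ExP960 Crest.Agent.R017.Sf770
open Crest.Agent.R017.E5LX770 (nB)
open Crest.Agent.R017.HBsB445 (prod_ch1 prod_chS sf_pos)

attribute [local irreducible] HP842.Tu

/-- separation outside the pair for the error -/
def SepEX (h : ℝ → ℝ) (c R M C : ℝ) : Prop :=
  ∀ (ι : Type) [Fintype ι] [DecidableEq ι] (r : ι ⊕ Unit → Pc) (p₁ p₂ : Fin 2 → Pc),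
      (∀ i, (r i).OK) → (∀ i, (p₁ i).OK) → (∀ i, (p₂ i).OK) → ∀ (z w : ℂ)
      (a : ℂ) (E0 : ℝ) (W : Finset (Eis × Eis)), (∀ x ∈ W, x.1 ≠ 0) →
      ∀ (om : Eis × Eis → ℂ) (u : Eis → ℝ), (∀ k, 0 ≤ u k) → (Function.support u).Finite →
      ∀ B : ℝ, 0 ≤ B →
      (∀ (n : ι ⊕ Unit → ℕ) (τ : ι ⊕ Unit → ℝ), (∀ i, |c * n i - Real.log (r i).Y| ≤ 2 * R) →
        M2 u (Er a E0 W om (cmb z w
          (sqc 1 (al h (jn (reY r (fun i => Real.exp (c * n i)) (fun i => (r i).t + τ i)) p₁)))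
          (sqc 1 (al h (jn (reY r (fun i => Real.exp (c * n i)) (fun i => (r i).t + τ i)) p₂))))) ≤
          B * ∏ i, (1 + |τ i|) ^ M) →
      M2 u (Er a E0 W om (cmb z w (sqc 1 (al h (jn r p₁))) (sqc 1 (al h (jn r p₂))))) ≤
        C ^ Fintype.card (ι ⊕ Unit) * B

/-- separation outside the pair for the mismatch -/
def SepMX (h : ℝ → ℝ) (c R M C : ℝ) : Prop :=
  ∀ (ι : Type) [Fintype ι] [DecidableEq ι] (r : ι ⊕ Unit → Pc) (p₁ p₂ : Fin 2 → Pc),
      (∀ i, (r i).OK) → (∀ i, (p₁ i).OK) → (∀ i, (p₂ i).OK) → ∀ (z w : ℂ)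
      (E0 Z : ℝ), 0 ≤ Z → ∀ (W : Finset (Eis × Eis)), (∀ x ∈ W, x.1 ≠ 0) →
      ∀ (o : Eis → ℂ) (g : Eis) (u : Eis → ℝ), (∀ k, 0 ≤ u k) → (Function.support u).Finite →
      ∀ B : ℝ, 0 ≤ B →
      (∀ (n : ι ⊕ Unit → ℕ) (τ : ι ⊕ Unit → ℝ), (∀ i, |c * n i - Real.log (r i).Y| ≤ 2 * R) →
        M2 u (Mm W E0 Z o g
          (sqc 1 (al h fun i => reY r (fun i => Real.exp (c * n i)) (fun i => (r i).t + τ i)
            (.inl i)))
          (cmb z w
            (sqc 1 (al h fun j => jn (reY r (fun i => Real.exp (c * n i))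
              (fun i => (r i).t + τ i)) p₁ (.inr j)))
            (sqc 1 (al h fun j => jn (reY r (fun i => Real.exp (c * n i))
              (fun i => (r i).t + τ i)) p₂ (.inr j))))) ≤ B * ∏ i, (1 + |τ i|) ^ M) →
      M2 u (Mm W E0 Z o g (sqc 1 (al h fun i => r (.inl i)))
        (cmb z w (sqc 1 (al h fun j => jn r p₁ (.inr j)))
          (sqc 1 (al h fun j => jn r p₂ (.inr j))))) ≤ C ^ Fintype.card (ι ⊕ Unit) * B

section

variable {Λ : Type*} {π : Λ → DPar} {h : ℝ → ℝ} {e0 : ℝ} {Rf : Λ → ℝ} {lam : Λ × Eis}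
  {β c : ℝ} {p : IX5 → ℝ} {X δ δ₁ ρ ρ₁ B R c₀ H Hw M Cs ε₁ : ℝ} {N : ℕ} {a : BdX}
  {m : ℕ} {ps : Fin m → Pq} {γ x : Fin m → Eis} {bt y : Fin 3 → Eis} {g : Eis}
  {Par : Set (Fin 3 ⊕ Fin 5 → ℝ)} {L0 : (Fin 3 ⊕ Fin 5 → ℝ) → ℝ} {P : DPar} {t₀ : Eis}

lemma cmb_zero (z w : ℂ) : cmb z w (0 : Eis → ℂ) 0 = 0 := by
  unfold cmb; simp

lemma pow_big {X ρ M : ℝ} {N : ℕ} (hX : 1 ≤ X) (hM : 0 ≤ M)
    (hMρ : 101 * ((N : ℝ) + 3 + 1) ≤ ρ * M) : X ^ (101 * (N + 3 + 1)) ≤ (1 + X ^ ρ) ^ M := by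
  have hX0 : 0 < X := by linarith
  calc X ^ (101 * (N + 3 + 1)) = X ^ (101 * ((N : ℝ) + 3 + 1)) := by
        rw [← Real.rpow_natCast]; push_cast; rfl
    _ ≤ X ^ (ρ * M) := Real.rpow_le_rpow_of_exponent_le hX hMρ
    _ = (X ^ ρ) ^ M := Real.rpow_mul hX0.le _ _
    _ ≤ _ := Real.rpow_le_rpow (by positivity) (by linarith) hM

lemma four_big {X : ℝ} {N : ℕ} (hX : 200 ≤ X) :
    2 * (X ^ (100 * (N + 3 + 1)) + X ^ (100 * (N + 3 + 1))) ≤ X ^ (101 * (N + 3 + 1)) := by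
  have h1 : X ^ (100 * (N + 3 + 1) + 1) ≤ X ^ (101 * (N + 3 + 1)) :=
    pow_le_pow_right₀ (by linarith) (by omega)
  refine le_trans ?_ h1
  rw [pow_succ]
  have : 0 < X ^ (100 * (N + 3 + 1)) := by positivity
  nlinarith

set_option maxHeartbeats 1000000 in
/-- **the error moment of a difference**, the four lengths of the pair `≥ 0` -/
theorem hchD (hc₀ : 0 < c₀) (hR : ∀ u, cx h u ≠ 0 → |u| ≤ R) (hH : ∀ u, ‖cx h u‖ ≤ H)
    (hHw : ∀ u, ‖((FE47.hD u : ℝ) : ℂ)‖ ≤ Hw) (hM : 0 ≤ M) (hsep : SepEX h c₀ R M Cs)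
    (hCs : 1 ≤ Cs) (F : FrX (π lam.1) lam.2 β p X δ ρ B R N a ps)
    (hS : Siz X H Hw e0 (Rf lam.1) R)
    (hρ : 2 * X ^ ρ ≤ X ^ ρ₁) (hρ0 : 0 ≤ ρ) (hρ1 : ρ ≤ ρ₁) (hδ₁ : 800 * δ ≤ δ₁) (hB : 0 ≤ B)
    (hMρ : 101 * ((N : ℝ) + 3 + 1) ≤ ρ * M) (hL0 : 0 ≤ L0 (prX p)) (hε₁ : 0 ≤ ε₁)
    (hPar : prX p ∈ Par) (hc0 : 0 ≤ c) (hc1 : c ≤ 1)
    (H8 : In8X (ErX π h e0 c Rf lam) c β Par DifL L0 X δ₁ ρ₁ (B + 2) ε₁ N)
    (hγ : ∀ i, IsPrim (γ i)) (hb : ∀ i, IsPrim (bt i)) (hg : IsPrim g) (hx : x ∈ Tu (Fin m) g)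
    (hy : y ∈ Tu (Fin 3) g) (hb0 : bw bt ≤ bfO a.l (a3 a.toBd) a.z)
    (hb1 : 2 * bw bt ≤ tO a.toBd + 2 * (c * a.l))
    (p0 : 0 ≤ Real.log (cO (π lam.1) lam.2 a ps γ bt g x y (.inr 0)).Y)
    (p1 : 0 ≤ Real.log (cO (π lam.1) lam.2 a ps γ bt g x y (.inr 1)).Y)
    (q0 : 0 ≤ Real.log (cR (π lam.1) lam.2 a ps γ bt g x y (.inr 0)).Y)
    (q1 : 0 ≤ Real.log (cR (π lam.1) lam.2 a ps γ bt g x y (.inr 1)).Y) :
    M2 (uM (Rf lam.1) (Real.exp a.l) (Real.exp (a.l / 20)))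
      (Er (pC : ℂ) (Real.exp (e0 * a.l)) (JS (nO a.toBd)) (omP (nW c a.toBd (bw bt)))
        (cmb (ph a) (-ph' a) (sqc 1 (al h (cO (π lam.1) lam.2 a ps γ bt g x y)))
          (sqc 1 (al h (cR (π lam.1) lam.2 a ps γ bt g x y))))) ≤
      Cs ^ (N + 3) * WO L0 (prX p) X δ ε₁ R N a.toBd ps * sf γ bt g := by
  have hL := F.nat.L0
  have hX0 : 0 < X := by linarith [F.nat.X1]
  have hX1 := F.nat.X1.le
  have hR0 := F.nat.R0
  have hsf : 0 < sf γ bt g := sf_pos hγ hb hg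
  have hWpos : 0 < WO L0 (prX p) X δ ε₁ R N a.toBd ps := WO_pos F.nat.X1
  have hxp : ∀ i, IsPrim (x i) := ((mem_Tu).1 hx).1
  have hyp : ∀ i, IsPrim (y i) := ((mem_Tu).1 hy).1
  have hOK1 : ∀ i, (cO (π lam.1) lam.2 a ps γ bt g x y i).OK :=
    chS_OK (fam_OK (π lam.1) lam.2 F.nat.hP ps (vsO a.toBd)) hγ hxp hb hyp g
  have hOK2 : ∀ i, (cR (π lam.1) lam.2 a ps γ bt g x y i).OK :=
    chS_OK (fam_OK (π lam.1) lam.2 F.nat.hP ps (vsO (repA a))) hγ hxp hb hyp g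
  have hJ : ∀ z ∈ JS (nO a.toBd), z.1 ≠ 0 := fun z hz => ((okJ_JS _).prim z hz).ne_zero
  have ereq := rst_eq (P := π lam.1) (t₀ := lam.2) (a := a) (ps := ps) (γ := γ) (bt := bt)
    (g := g) (x := x) (y := y)
  by_cases hlow : ∀ i, -R ≤ Real.log (rst (cO (π lam.1) lam.2 a ps γ bt g x y) i).Y
  swap
  · push Not at hlow
    obtain ⟨i, hi⟩ := hlow
    have hi2 : Real.log (rst (cR (π lam.1) lam.2 a ps γ bt g x y) i).Y < -R := by
      rw [ereq]; exact hi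
    rcases i with i | i
    · rw [sqc_zero hR hOK1 (i := .inl i) hi, sqc_zero hR hOK2 (i := .inl i) hi2, cmb_zero,
        M2_Er_zero _ _ hJ]
      positivity
    · rw [sqc_zero hR hOK1 (i := .inr 2) hi, sqc_zero hR hOK2 (i := .inr 2) hi2, cmb_zero,
        M2_Er_zero _ _ hJ]
      positivity
  have hlow1 : ∀ i, -R ≤ Real.log (cO (π lam.1) lam.2 a ps γ bt g x y i).Y := by
    intro i
    rcases i with i | i
    · exact hlow (.inl i)
    · fin_cases i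
      · exact le_trans (by linarith) p0
      · exact le_trans (by linarith) p1
      · exact hlow (.inr ())
  have hlow2 : ∀ i, -R ≤ Real.log (cR (π lam.1) lam.2 a ps γ bt g x y i).Y := by
    intro i
    rcases i with i | i
    · exact hlow (.inl i)
    · fin_cases i
      · exact le_trans (by linarith) q0
      · exact le_trans (by linarith) q1
      · exact hlow (.inr ())
  have hone := one_leX (L0 := L0) (ε₁ := ε₁) F.sd1 F.par hL0 hε₁ hγ hb hg hx hy hlow1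
  have e1 : cO (π lam.1) lam.2 a ps γ bt g x y =
    jn (rst (cO (π lam.1) lam.2 a ps γ bt g x y)) (pr2 (cO (π lam.1) lam.2 a ps γ bt g x y)) :=
    (jn_rst _).symm
  have e2 : cR (π lam.1) lam.2 a ps γ bt g x y =
    jn (rst (cO (π lam.1) lam.2 a ps γ bt g x y)) (pr2 (cR (π lam.1) lam.2 a ps γ bt g x y)) := by
    rw [← ereq]; exact (jn_rst _).symm
  have hrOK : ∀ i, (rst (cO (π lam.1) lam.2 a ps γ bt g x y) i).OK := by
    intro i
    rcases i with i | i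
    · exact hOK1 (.inl i)
    · exact hOK1 (.inr 2)
  have key := hsep (Fin m) (rst (cO (π lam.1) lam.2 a ps γ bt g x y))
    (pr2 (cO (π lam.1) lam.2 a ps γ bt g x y)) (pr2 (cR (π lam.1) lam.2 a ps γ bt g x y)) hrOK
    (fun i => hOK1 _) (fun i => hOK2 _) (ph a) (-ph' a) (pC : ℂ)
    (Real.exp (e0 * a.l)) (JS (nO a.toBd)) hJ (omP (nW c a.toBd (bw bt)))
    (uM (Rf lam.1) (Real.exp a.l) (Real.exp (a.l / 20))) (uM_nonneg _ _ _)
    (uM_fin (Real.exp_pos _)) (WO L0 (prX p) X δ ε₁ R N a.toBd ps * sf γ bt g) (by positivity)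
    (fun n τ hn => by
      refine split_h (T₀ := X ^ ρ) (A := X ^ (101 * (N + 3 + 1))) hM (by positivity)
        (by positivity) ((pow_big hX1 hM hMρ).trans (le_mul_of_one_le_left (by positivity) hone))
        (F := fun τ => M2 (uM (Rf lam.1) (Real.exp a.l) (Real.exp (a.l / 20)))
          (Er (pC : ℂ) (Real.exp (e0 * a.l)) (JS (nO a.toBd)) (omP (nW c a.toBd (bw bt)))
            (cmb (ph a) (-ph' a)
              (sqc 1 (al h (jn (reY (rst (cO (π lam.1) lam.2 a ps γ bt g x y))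
                (fun i => Real.exp (c₀ * n i))
                (fun i => (rst (cO (π lam.1) lam.2 a ps γ bt g x y) i).t + τ i))
                (pr2 (cO (π lam.1) lam.2 a ps γ bt g x y)))))
              (sqc 1 (al h (jn (reY (rst (cO (π lam.1) lam.2 a ps γ bt g x y))
                (fun i => Real.exp (c₀ * n i))
                (fun i => (rst (cO (π lam.1) lam.2 a ps γ bt g x y) i).t + τ i))
                (pr2 (cR (π lam.1) lam.2 a ps γ bt g x y)))))))) ?_ ?_ τ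
      · intro τ hτ
        exact hchD_small hc₀ hR F hρ hρ0 hρ1 hδ₁ hB hPar hc0 hc1 H8 hγ hb hg hx hy hb0 hb1
          p0 p1 q0 q1 hlow1 hn hτ
      · intro τ
        have eJ1 := jn_reY (cO (π lam.1) lam.2 a ps γ bt g x y) (fun i => (hOK1 i).Y0)
          (fun i => c₀ * n i) τ
        have eJ2 := jn_reY (cR (π lam.1) lam.2 a ps γ bt g x y) (fun i => (hOK2 i).Y0)
          (fun i => c₀ * n i) τ
        rw [rst_eq] at eJ2
        have hz : ∀ (s : Fin m ⊕ Fin 3 → Pc), (∀ i, |c₀ * n i - Real.log (rst s i).Y| ≤ 2 * R) →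
            ∀ i, |jn (fun i => c₀ * n i) ![Real.log (s (.inr 0)).Y, Real.log (s (.inr 1)).Y] i -
              Real.log (s i).Y| ≤ 2 * R := by
          intro s hs i
          rcases i with i | i
          · exact hs (.inl i)
          · fin_cases i
            · show |Real.log (s (.inr 0)).Y - Real.log (s (.inr 0)).Y| ≤ 2 * R
              rw [sub_self, abs_zero]; linarith
            · show |Real.log (s (.inr 1)).Y - Real.log (s (.inr 1)).Y| ≤ 2 * R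
              rw [sub_self, abs_zero]; linarith
            · exact hs (.inr ())
        have hbig : ∀ (D : Bd) (pD : Fin 3 ⊕ Fin 5 → ℝ)
            (S : Sd (π lam.1) lam.2 β p X δ ρ B R N a ps D pD)
            (hOK : ∀ i, (chO (π lam.1) lam.2 D ps γ bt g x y i).OK)
            (z : Fin m ⊕ Fin 3 → ℝ) (t : Fin m ⊕ Fin 3 → ℝ),
            (∀ i, |z i - Real.log (chO (π lam.1) lam.2 D ps γ bt g x y i).Y| ≤ 2 * R) →
            M2 (uM (Rf lam.1) (Real.exp a.l) (Real.exp (a.l / 20)))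
              (Er (pC : ℂ) (Real.exp (e0 * a.l)) (JS (nO a.toBd)) (omP (nW c a.toBd (bw bt)))
                (sqc 1 (al h (reY (chO (π lam.1) lam.2 D ps γ bt g x y)
                  (fun i => Real.exp (z i)) t)))) ≤ X ^ (100 * (N + 3 + 1)) := by
          intro D pD S hOK z t hzz
          exact er_big (N := N + 3) (n := nW c a.toBd (bw bt)) (YT := 2 ^ nO a.toBd) hR hH hHw
            hS.toBig hS.w (s := reY (chO (π lam.1) lam.2 D ps γ bt g x y)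
              (fun i => Real.exp (z i)) t)
            (fun i => ⟨(hOK i).ch, Real.exp_pos _⟩)
            (fun i => Y3_le S.F hγ hb hx hy hzz i)
            (by
              rw [Fintype.card_sum, Fintype.card_fin, Fintype.card_fin]
              have := F.nat.len
              omega) (nW_le F hS.c _) (E0 := Real.exp (e0 * a.l)) (Real.exp_pos _).le
            ((exp_l_le F.nat hS.e1 (l_nonneg F.nat)).trans
              (pow_le_pow_right₀ hX1 (by norm_num)))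
            (by positivity) (YT_le F.nat hS.c) (uM_le_one (Rf lam.1) (Real.exp a.l)
              (Real.exp (a.l / 20))) (fun k hk => us_le F.nat hS.r k hk)
        have b1 := hbig a.toBd (prX p) F.sd1 hOK1 _
          (fun i => (cO (π lam.1) lam.2 a ps γ bt g x y i).t + jn τ ![0, 0] i) (hz _ hn)
        have b2 := hbig (repA a) (repP p) F.sd2 hOK2 _
          (fun i => (cR (π lam.1) lam.2 a ps γ bt g x y i).t + jn τ ![0, 0] i)
          (hz _ (by rw [rst_eq]; exact hn))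
        rw [← eJ1] at b1
        rw [← eJ2] at b2
        have hrY : ∀ i, (reY (rst (cO (π lam.1) lam.2 a ps γ bt g x y))
            (fun i => Real.exp (c₀ * n i))
            (fun i => (rst (cO (π lam.1) lam.2 a ps γ bt g x y) i).t + τ i) i).OK :=
          reY_OK hrOK fun i => Real.exp_pos _
        refine (M2_Er_cmb_le (uM_nonneg _ _ _) (uM_fin (Real.exp_pos _))
          (FS_sqc_al hR (jn_OK hrY (fun i => hOK1 _)) 1)
          (FS_sqc_al hR (jn_OK hrY (fun i => hOK2 _)) 1) (norm_ph a)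
          (by rw [norm_neg]; exact norm_ph' a) _ _ hJ _).trans ?_
        refine le_trans ?_ (four_big (N := N) hS.c)
        exact mul_le_mul_of_nonneg_left (add_le_add b1 b2) (by norm_num))
  rw [← e1, ← e2] at key
  refine key.trans ?_
  rw [← mul_assoc]
  refine mul_le_mul_of_nonneg_right (mul_le_mul_of_nonneg_right ?_ hWpos.le) hsf.le
  refine pow_le_pow_right₀ hCs ?_
  rw [Fintype.card_sum, Fintype.card_fin, Fintype.card_unit]
  have := F.nat.len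
  omega

/-- a negative length of the pair: the list lost at least `β κ` -/
theorem lost_of (F : FrX P t₀ β p X δ ρ B R N a ps)
    (hb : ∀ i, IsPrim (bt i)) (hg : IsPrim g) (hy : y ∈ Tu (Fin 3) g)
    (hneg : ¬ (0 ≤ Real.log (cO P t₀ a ps γ bt g x y (.inr 0)).Y ∧
      0 ≤ Real.log (cO P t₀ a ps γ bt g x y (.inr 1)).Y ∧
      0 ≤ Real.log (cR P t₀ a ps γ bt g x y (.inr 0)).Y ∧
      0 ≤ Real.log (cR P t₀ a ps γ bt g x y (.inr 1)).Y)) :
    (β * cκ (prX p) - 2 * δ) * Real.log X ≤ bw bt + Real.log (nm g) := by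
  have hL := F.nat.L0
  have hd0 := F.nat.d0
  have hδL : 0 ≤ δ * Real.log X := mul_nonneg hd0 hL.le
  have hyp := (mem_Tu.1 hy).1
  have hyg := (mem_Tu.1 hy).2
  -- one factor is at most the total
  have hfac : ∀ j : Fin 3, Real.log (nm (bt j * y j)) ≤ bw bt + Real.log (nm g) := by
    intro j
    have h1 : (nm (bt j * y j) : ℝ) ≤ nm (∏ i, bt i * y i) := by
      have h2 : bt j * y j ∣ ∏ i, bt i * y i := Finset.dvd_prod_of_mem _ (mem_univ j)
      obtain ⟨q, hq⟩ := h2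
      have h3 : IsPrim (∏ i, bt i * y i) := E554.isPrim_prod fun i _ => (hb i).mul (hyp i)
      rw [hq] at h3 ⊢
      have h4 : IsPrim q := h3.of_mul_left ((hb j).mul (hyp j))
      rw [nm_mul (bt j * y j) q]
      push_cast
      exact le_mul_of_one_le_right (Nat.cast_nonneg _) (one_le_nm h4)
    have h5 : (nm (∏ i, bt i * y i) : ℝ) = nm (∏ i, bt i) * nm g := by
      rw [prod_mul_distrib, hyg, nm_mul]; push_cast; rfl
    have h6 : (0 : ℝ) < nm (bt j * y j) := by linarith [one_le_nm ((hb j).mul (hyp j))]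
    have h7 := Real.log_le_log h6 h1
    rw [h5, Real.log_mul (by linarith [nmP hb]) (by linarith [one_le_nm hg])] at h7
    exact h7
  have hY : ∀ (z : ℝ) (j : Fin 3), Real.log (Real.exp z / (nm (bt j * y j) : ℝ)) < 0 →
      z < bw bt + Real.log (nm g) := by
    intro z j hj
    have h6 : (0 : ℝ) < nm (bt j * y j) := by linarith [one_le_nm ((hb j).mul (hyp j))]
    rw [Real.log_div (Real.exp_pos _).ne' h6.ne', Real.log_exp] at hj
    linarith [hfac j]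
  have hv0 := (abs_le.1 (F.nat.vz 0)).1
  have hv1 := (abs_le.1 (F.nat.vz 1)).1
  have hr0 := (abs_le.1 (F.rep.vz 0)).1
  have hr1 := (abs_le.1 (F.rep.vz 1)).1
  have g0 : cu (prX p) (Fin.natAdd 2 (0 : Fin 3)) = cu (prX p) 2 := rfl
  have g1 : cu (prX p) (Fin.natAdd 2 (1 : Fin 3)) = cu (prX p) 3 := rfl
  have g2 : cu (repP p) (Fin.natAdd 2 (0 : Fin 3)) = p (.inr 1) := rfl
  have g3 : cu (repP p) (Fin.natAdd 2 (1 : Fin 3)) =
    cu (prX p) 2 + cu (prX p) 3 - p (.inr 1) := rfl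
  rw [g0] at hv0
  rw [g1] at hv1
  rw [g2] at hr0
  rw [g3] at hr1
  have z1 := (F.par.zr 1).1
  have z2 := (F.par.zr 1).2
  have hβκ : β * cκ (prX p) ≤ β := mul_le_of_le_one_right F.par.β0 F.par.κ1
  have hβu := F.par.βu
  have hb3 := F.b3
  have key : ∀ v z : ℝ, β * cκ (prX p) ≤ v → -(δ * Real.log X) ≤ z - v * Real.log X →
      z < bw bt + Real.log (nm g) →
      (β * cκ (prX p) - 2 * δ) * Real.log X ≤ bw bt + Real.log (nm g) := by
    intro v z h1 h2 h3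
    have := mul_le_mul_of_nonneg_right h1 hL.le
    nlinarith
  by_contra hcon
  apply hneg
  refine ⟨?_, ?_, ?_, ?_⟩
  · by_contra hj
    push Not at hj
    exact hcon (key _ _ (by linarith) hv0 (hY _ 0 hj))
  · by_contra hj
    push Not at hj
    exact hcon (key _ _ (by linarith) hv1 (hY _ 1 hj))
  · by_contra hj
    push Not at hj
    exact hcon (key _ _ (by linarith) hr0 (hY _ 0 hj))
  · by_contra hj
    push Not at hj
    exact hcon (key _ _ (by linarith) hr1 (hY _ 1 hj))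

/-- **the error moment of a child** -/
theorem hchX (hc₀ : 0 < c₀) (hR : ∀ u, cx h u ≠ 0 → |u| ≤ R) (hH : ∀ u, ‖cx h u‖ ≤ H)
    (hHw : ∀ u, ‖((FE47.hD u : ℝ) : ℂ)‖ ≤ Hw) (hM : 0 ≤ M) (hsep : SepE h c₀ R M Cs)
    (hsepX : SepEX h c₀ R M Cs)
    (hCs : 1 ≤ Cs) (F : FrX (π lam.1) lam.2 β p X δ ρ B R N a ps)
    (hS : Siz X H Hw e0 (Rf lam.1) R)
    (hρ : 2 * X ^ ρ ≤ X ^ ρ₁) (hρ0 : 0 ≤ ρ) (hρ1 : ρ ≤ ρ₁) (hδ₁ : 800 * δ ≤ δ₁) (hB : 0 ≤ B)
    (hMρ : 101 * ((N : ℝ) + 3 + 1) ≤ ρ * M) (hL0 : 0 ≤ L0 (prX p)) (hε₁ : 0 ≤ ε₁)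
    (hPar : prX p ∈ Par) (hc0 : 0 ≤ c) (hc1 : c ≤ 1)
    (H8 : In8X (ErX π h e0 c Rf lam) c β Par DifL L0 X δ₁ ρ₁ (B + 2) ε₁ N)
    (H8S : In8X (ErS π h e0 c Rf lam) c β Par (SinL β) L0 X δ₁ ρ₁ (B + 2) ε₁ N)
    (hγ : ∀ i, IsPrim (γ i)) (hb : ∀ i, IsPrim (bt i)) (hg : IsPrim g) (hx : x ∈ Tu (Fin m) g)
    (hy : y ∈ Tu (Fin 3) g) (hb0 : bw bt ≤ bfO a.l (a3 a.toBd) a.z)
    (hb1 : 2 * bw bt ≤ tO a.toBd + 2 * (c * a.l)) :
    M2 (uM (Rf lam.1) (Real.exp a.l) (Real.exp (a.l / 20)))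
      (Er (pC : ℂ) (Real.exp (e0 * a.l)) (JS (nO a.toBd)) (omP (nW c a.toBd (bw bt)))
        (cmb (ph a) (-ph' a) (sqc 1 (al h (cO (π lam.1) lam.2 a ps γ bt g x y)))
          (sqc 1 (al h (cR (π lam.1) lam.2 a ps γ bt g x y))))) ≤
      4 * (Cs ^ (N + 3) * WO L0 (prX p) X δ ε₁ R N a.toBd ps * sf γ bt g) := by
  have hsf : 0 < sf γ bt g := sf_pos hγ hb hg
  have hWpos : 0 < WO L0 (prX p) X δ ε₁ R N a.toBd ps := WO_pos F.nat.X1
  have hT : 0 ≤ Cs ^ (N + 3) * WO L0 (prX p) X δ ε₁ R N a.toBd ps * sf γ bt g := by positivity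
  have hxp : ∀ i, IsPrim (x i) := ((mem_Tu).1 hx).1
  have hyp : ∀ i, IsPrim (y i) := ((mem_Tu).1 hy).1
  have hJ : ∀ z ∈ JS (nO a.toBd), z.1 ≠ 0 := fun z hz => ((okJ_JS _).prim z hz).ne_zero
  have hMρ' : 100 * ((N : ℝ) + 3 + 1) ≤ ρ * M := by
    have : (0 : ℝ) ≤ N := Nat.cast_nonneg _
    linarith
  by_cases hpair : 0 ≤ Real.log (cO (π lam.1) lam.2 a ps γ bt g x y (.inr 0)).Y ∧
      0 ≤ Real.log (cO (π lam.1) lam.2 a ps γ bt g x y (.inr 1)).Y ∧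
      0 ≤ Real.log (cR (π lam.1) lam.2 a ps γ bt g x y (.inr 0)).Y ∧
      0 ≤ Real.log (cR (π lam.1) lam.2 a ps γ bt g x y (.inr 1)).Y
  · obtain ⟨p0, p1, q0, q1⟩ := hpair
    refine (hchD hc₀ hR hH hHw hM hsepX hCs F hS hρ hρ0 hρ1 hδ₁ hB hMρ hL0 hε₁ hPar hc0 hc1 H8
      hγ hb hg hx hy hb0 hb1 p0 p1 q0 q1).trans (by linarith)
  · have hlost := lost_of F hb hg hy hpair
    have k1 := hchS hc₀ hR hH hHw hM hsep hCs F F.sd1 hS hρ hρ0 hρ1 hδ₁ hB hMρ' hL0 hε₁ hPar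
      hc0 hc1 H8S hγ hb hg hx hy hb0 hb1 hlost
    have k2 := hchS hc₀ hR hH hHw hM hsep hCs F F.sd2 hS hρ hρ0 hρ1 hδ₁ hB hMρ' hL0 hε₁ hPar
      hc0 hc1 H8S hγ hb hg hx hy hb0 hb1 hlost
    refine (M2_Er_cmb_le (uM_nonneg _ _ _) (uM_fin (Real.exp_pos _))
      (FS_sqc_al hR (chS_OK (fam_OK (π lam.1) lam.2 F.nat.hP ps (vsO a.toBd)) hγ hxp hb hyp g) 1)
      (FS_sqc_al hR (chS_OK (fam_OK (π lam.1) lam.2 F.nat.hP ps (vsO (repA a))) hγ hxp hb hyp g)
        1) (norm_ph a) (by rw [norm_neg]; exact norm_ph' a) _ _ hJ _).trans ?_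
    refine (mul_le_mul_of_nonneg_left (add_le_add k1 k2) (by norm_num)).trans (le_of_eq ?_)
    ring

end

end Crest.Agent.R017.P1X960
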