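import Crest.Agent.R017.P1X9_960

/-!
# Row 17, exceptional class, P1X, part 10 (helper960): the mismatch of a single list

* `mmT` : the mismatch moment;  `hmS` : a single list which lost at least `β κ`
-/

set_option autoImplicit false

noncomputable section

open Finset
open scoped ComplexConjugate

namespace Crest.Agent.R017.P1X960

open Crest.Agent.R012 Crest.Agent.R012.Eis
open Crest.Agent.R012.Mob705 hiding pb mem_pb
open Crest.Agent.R012.LS2 (S mem_S)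
open Crest.Agent.R017.CM106 Crest.Agent.R017.C70
open Crest.Agent.R017.FE47 (PU cx SM)
open Crest.Agent.R017.StD828 (ln Tm)
open Crest.Agent.R017.E2440 (TE StE Bth Bth_nonneg)
open Crest.Agent.R017.E3A164 (SteT)
open Crest.Agent.R017.E5k54 (PT alb)
open Crest.Agent.R017.SSb54 (SST SSb PTb mem_PTb PTb_sub)
open Crest.Agent.R017.P1e54 Crest.Agent.R017.P1f54 Crest.Agent.R017.P1i54 Crest.Agent.R017.P1j54
open Crest.Agent.R017.P1k54 Crest.Agent.R017.P1o54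
open Crest.Agent.R017.P1l54 (chP chP_lump Pt_OK fam fam_OK mod_ne reY_chS al_fam ParOK oN)
open Crest.Agent.R017.P1n54 (tlen tlen_nonneg Chi)
open Crest.Agent.R017.P1p54
open Crest.Agent.R017.P1q54 (sqc_zero Er_zero M2_Er_zero Mm_zero_left Mm_zero_right Mm_zero_of
  SepE SepM WO Siz YT_le nO_le YT_nonneg exp_l_le l_nonneg us_le Y3_le sumz_le)
open Crest.Agent.R017.P1r54 (one_mem_Tu sf_g g_le Yo)
open Crest.Agent.R017.HP842 (Pc pc al alL cv Tu mem_Tu sqc Th)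
open Crest.Agent.R017.B770 Crest.Agent.R017.Prov71
open Crest.Agent.R017.XG702 (Pcs Good_mono)
open Crest.Agent.R017.XT71 (Sys Win mx mx_le le_mx)
open Crest.Agent.R017.UM71
open Crest.Agent.R017.E5B71 Crest.Agent.R017.E5P571 Crest.Agent.R017.E5L770
open Crest.Agent.R017.ExP960 Crest.Agent.R017.Sf770
open Crest.Agent.R017.E5LX770 (nB)
open Crest.Agent.R017.HBsB445 (prod_ch1 prod_chS sf_pos)

attribute [local irreducible] HP842.Tu

/-- **the mismatch moment** -/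
def mmT (e0 Rl : ℝ) (a : BdX) (ζ : ℝ) (n : ℕ) (g : Eis) (η α : Eis → ℂ) : ℝ :=
  M2 (uM Rl (Real.exp a.l) (Real.exp (a.l / 20)))
    (Mm (JW (Real.sqrt (2 ^ nO a.toBd) * Real.exp ζ) (1 / 10)
      (2 ^ nO a.toBd * Real.exp ζ ^ 2)) (Real.exp (e0 * a.l)) (Real.exp ζ) (oN n) g η α)

section

variable {Λ : Type*} {π : Λ → DPar} {h : ℝ → ℝ} {e0 : ℝ} {Rf : Λ → ℝ} {lam : Λ × Eis}
  {β c : ℝ} {p : IX5 → ℝ} {X δ δ₁ ρ ρ₁ B R c₀ H Hw M Cs ε₁ : ℝ} {N : ℕ} {a : BdX}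
  {m : ℕ} {ps : Fin m → Pq} {γ x : Fin m → Eis} {bt y : Fin 3 → Eis} {g : Eis}
  {Par : Set (Fin 3 ⊕ Fin 5 → ℝ)} {L0 : (Fin 3 ⊕ Fin 5 → ℝ) → ℝ} {P : DPar} {t₀ : Eis}
  {D : Bd} {pD : Fin 3 ⊕ Fin 5 → ℝ}

/-- numbers of a child of the mismatch -/
lemma child_num1 (S : Sd P t₀ β p X δ ρ B R N a ps D pD) (hγ : ∀ i, IsPrim (γ i))
    (hb : ∀ i, IsPrim (bt i)) {z : Fin m ⊕ Fin 3 → ℝ}
    (hz : ∀ i, |z i - Real.log (Yo P t₀ D ps γ bt i).Y| ≤ 2 * R) :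
    |∑ j : Fin 3, z (.inr j) - (a3 a.toBd - bw bt)| ≤ 6 * R ∧
      |∑ i : Fin m, z (.inl i) - (∑ i, (ps i).z - bw γ)| ≤ 2 * m * R := by
  have h := child_num S hγ hb isPrim_one one_mem_Tu one_mem_Tu hz
  rwa [nm_one, Nat.cast_one, Real.log_one, add_zero, add_zero] at h

/-- the total is at least one -/
lemma one_leM (F : FrX P t₀ β p X δ ρ B R N a ps) (S : Sd P t₀ β p X δ ρ B R N a ps D pD)
    (hL0 : 0 ≤ L0 (prX p)) (hε₁ : 0 ≤ ε₁) (hγ : ∀ i, IsPrim (γ i)) (hb : ∀ i, IsPrim (bt i))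
    (hg : IsPrim g) (hlow : ∀ i, -R ≤ Real.log (Yo P t₀ D ps γ bt i).Y)
    (hgl : Real.log (nm g) ≤
      ∑ i : Fin m, Real.log (Yo P t₀ D ps γ bt (.inl i)).Y + R * m) :
    1 ≤ WO L0 (prX p) X δ ε₁ R N a.toBd ps * sf γ bt g := by
  have hL := F.nat.L0
  have hX0 : 0 < X := by linarith [F.nat.X1]
  have hR0 := F.nat.R0
  have hmR : 0 ≤ (m : ℝ) * R := by positivity
  have h1p : IsPrim (1 : Eis) := isPrim_one
  have hsl := sumY_l (P := P) (t₀ := t₀) (a := D) (ps := ps) (β := bt)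
    (y := fun _ => 1) S.F.hP hγ h1p one_mem_Tu
  rw [nm_one, Nat.cast_one, Real.log_one, add_zero] at hsl
  have hγ1 : 0 ≤ Real.log (nm (∏ i, γ i)) := Real.log_nonneg (nmP hγ)
  have htot := abs_le.1 F.nat.tot
  have hRm := F.nat.Rm'
  have hd1 := F.nat.d1
  have hd0 := F.nat.d0
  have hdL0 : 0 ≤ δ * Real.log X := mul_nonneg hd0 hL.le
  have hdL : δ * Real.log X ≤ 1 / 240 * Real.log X :=
    mul_le_mul_of_nonneg_right (by linarith) hL.le
  have hxL : cx' (prX p) * Real.log X ≤ 1 / 3 * Real.log X :=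
    mul_le_mul_of_nonneg_right F.par.x1 hL.le
  have hκ : 8 / 9 * Real.log X ≤ cκ (prX p) * Real.log X :=
    mul_le_mul_of_nonneg_right F.par.κ0 hL.le
  have h1 := sumz_leX S hγ hb h1p one_mem_Tu one_mem_Tu
    (z := fun i => Real.log (Yo P t₀ D ps γ bt i).Y + 2 * R)
    (fun i => by rw [add_sub_cancel_left, abs_of_nonneg (by linarith)])
  have h2 : 0 ≤ ∑ j : Fin 3, (Real.log (Yo P t₀ D ps γ bt (.inr j)).Y + 2 * R) :=
    sum_nonneg fun j _ => by linarith [hlow (.inr j)]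
  have h2' : 0 ≤ ∑ j : Fin m, (Real.log (Yo P t₀ D ps γ bt (.inl j)).Y + 2 * R) :=
    sum_nonneg fun j _ => by linarith [hlow (.inl j)]
  have h3 : Real.exp (2 * Real.log (nm g)) ≤
      X ^ (cκ (prX p) + L0 (prX p) + ε₁ + 1200 * δ) := by
    rw [Real.rpow_def_of_pos hX0]
    refine Real.exp_le_exp.2 ?_
    have h4 : Real.log X * cκ (prX p) ≤
        Real.log X * (cκ (prX p) + L0 (prX p) + ε₁ + 1200 * δ) :=
      mul_le_mul_of_nonneg_left (by linarith) hL.le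
    nlinarith
  rw [sf_g hγ hb hg]
  unfold WO
  have h5 : X ^ (cκ (prX p) + L0 (prX p) + ε₁ + 1200 * δ) *
      Real.exp (∑ j, (vsO a.toBd j).z + ∑ i, (ps i).z + 2 * R * (N + 3)) *
      (sf γ bt 1 * Real.exp (-(2 * Real.log (nm g)))) =
      (X ^ (cκ (prX p) + L0 (prX p) + ε₁ + 1200 * δ) * Real.exp (-(2 * Real.log (nm g)))) *
      (Real.exp (∑ j, (vsO a.toBd j).z + ∑ i, (ps i).z + 2 * R * (N + 3)) * sf γ bt 1) := by
    ring
  rw [h5]
  refine one_le_mul_of_one_le_of_one_le ?_ (le_trans (Real.one_le_exp (add_nonneg h2 h2')) h1)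
  rw [Real.exp_neg, ← div_eq_mul_inv, one_le_div (Real.exp_pos _)]
  exact h3

/-- the support of a list -/
lemma supp_qC (hR : ∀ u, cx h u ≠ 0 → |u| ≤ R) (hP : P.OK) {qs : Fin m → Pq} {ζ : ℝ}
    (hsum : ∑ i, (qs i).z + R * m ≤ ζ) (n : Eis)
    (hn : sqc 1 (alL h ((List.ofFn qs).map (Pt P t₀))) n ≠ 0) : (nm n : ℝ) ≤ Real.exp ζ := by
  have e : alL h ((List.ofFn qs).map (Pt P t₀)) = al h fun i : Fin m => Pt P t₀ (qs i) := by
    rw [HP842.al_eq, List.map_ofFn]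
    rfl
  rw [e] at hn
  refine (P1q54.supp_sqc hR (fun i => Pt_OK hP t₀ (qs i)) hn).2.trans ?_
  have e1 : ∀ i, (Pt P t₀ (qs i)).Y * Real.exp R = Real.exp ((qs i).z + R) :=
    fun i => by rw [Real.exp_add]; rfl
  simp_rw [e1]
  rw [← Real.exp_sum, sum_add_distrib, sum_const, card_univ, Fintype.card_fin, nsmul_eq_mul]
  exact Real.exp_le_exp.2 (by linarith)

set_option maxHeartbeats 1600000 in
/-- small heights, single list -/
theorem hmS_small (hc₀ : 0 < c₀) (hR : ∀ u, cx h u ≠ 0 → |u| ≤ R)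
    (F : FrX (π lam.1) lam.2 β p X δ ρ B R N a ps)
    (S : Sd (π lam.1) lam.2 β p X δ ρ B R N a ps D pD)
    (hρ : 2 * X ^ ρ ≤ X ^ ρ₁) (hρ0 : 0 ≤ ρ) (hρ1 : ρ ≤ ρ₁) (hδ₁ : 800 * δ ≤ δ₁) (hB : 0 ≤ B)
    (hPar : prX p ∈ Par) (hc0 : 0 ≤ c) (hc1 : c ≤ 1)
    (H9 : In9X (MmS π h e0 c Rf lam) c β Par (SinL β) L0 X δ₁ ρ₁ (B + 2) ε₁ N)
    (hγ : ∀ i, IsPrim (γ i)) (hb : ∀ i, IsPrim (bt i)) (hg : IsPrim g) (hgs : Squarefree g)
    (hb0 : bw bt ≤ bfO a.l (a3 a.toBd) a.z)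
    (hb1 : 2 * bw bt ≤ tO a.toBd + 2 * (c * a.l))
    (hlost : (β * cκ (prX p) - 2 * δ) * Real.log X ≤ bw bt) {ζ : ℝ}
    (hζ : ζ = ∑ i, (ps i).z + 3 * R * m)
    (hlow : ∀ i, -R ≤ Real.log (Yo (π lam.1) lam.2 D ps γ bt i).Y)
    (hgl : Real.log (nm g) ≤
      ∑ i : Fin m, Real.log (Yo (π lam.1) lam.2 D ps γ bt (.inl i)).Y + R * m)
    {n : Fin m ⊕ Fin 3 → ℕ} {τ : Fin m ⊕ Fin 3 → ℝ}
    (hn : ∀ i, |c₀ * n i - Real.log (Yo (π lam.1) lam.2 D ps γ bt i).Y| ≤ 2 * R)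
    (hτ : ∀ i, |τ i| ≤ X ^ ρ) :
    mmT e0 (Rf lam.1) a ζ (nW c a.toBd (bw bt)) g
      (sqc 1 (al h fun i => reY (Yo (π lam.1) lam.2 D ps γ bt) (fun i => Real.exp (c₀ * n i))
        (fun i => (Yo (π lam.1) lam.2 D ps γ bt i).t + τ i) (.inl i)))
      (sqc 1 (al h fun i => reY (Yo (π lam.1) lam.2 D ps γ bt) (fun i => Real.exp (c₀ * n i))
        (fun i => (Yo (π lam.1) lam.2 D ps γ bt i).t + τ i) (.inr i))) ≤
      WO L0 (prX p) X δ ε₁ R N a.toBd ps * sf γ bt g := by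
  have hL := F.nat.L0
  have hX0 : 0 < X := by linarith [F.nat.X1]
  have hX1 := F.nat.X1.le
  have hR0 := F.nat.R0
  have hd0 := F.nat.d0
  have hmR : 0 ≤ (m : ℝ) * R := by positivity
  have h1p : IsPrim (1 : Eis) := isPrim_one
  have hz0 : ∀ i, 0 ≤ c₀ * (n i : ℝ) := fun i => by positivity
  have hγ0 := bw_nonneg hγ
  have hbt0 := bw_nonneg hb
  have hg1 : 0 ≤ Real.log (nm g) := Real.log_nonneg (one_le_nm hg)
  have htot := abs_le.1 F.nat.tot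
  have haz := abs_le.1 F.nat.az
  have hlz := abs_le.1 F.nat.lz
  have ha3 := abs_le.1 F.a3b
  have hRm := F.nat.Rm'
  have hdL0 : 0 ≤ δ * Real.log X := mul_nonneg hd0 hL.le
  obtain ⟨n1, n2⟩ := child_num1 S hγ hb hn
  have n1 := abs_le.1 n1
  have n2 := abs_le.1 n2
  have n3 := (abs_le.1 (child_num1 S hγ hb (z := fun i => Real.log (Yo (π lam.1) lam.2 D ps γ bt
    i).Y) (fun i => by rw [sub_self, abs_zero]; linarith)).2).2
  rw [reY_chO hγ hb h1p (fun i => c₀ * n i) τ]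
  have hchi := chi_of (δ₁ := δ₁) S.F hγ hb h1p one_mem_Tu one_mem_Tu hlow hz0 hn hτ hρ
    (by linarith)
  have hV : ∑ j, (vC D (y := fun _ => 1) hb h1p (fun i => c₀ * n i) τ j).z =
    ∑ j : Fin 3, c₀ * (n (.inr j) : ℝ) := rfl
  have hQ : tlen (List.ofFn (qC ps (x := fun _ => 1) hγ h1p (fun i => c₀ * n i) τ)) =
      ∑ i : Fin m, c₀ * (n (.inl i) : ℝ) := by rw [tlen_ofFn]; rfl
  have hsum : ∑ i : Fin 3, cu pD (Fin.natAdd 2 i) = cN (prX p) := by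
    rw [Fin.sum_univ_three, ← S.N']; rfl
  have hβκ : 0 ≤ β * cκ (prX p) := mul_nonneg F.par.β0 (by linarith [F.par.κ0])
  have hX8 := chiX_of (c := c) (b := bw bt) (Dl := 0) (s := β * cκ (prX p)) F S hc0 hc1 hchi
    hbt0 hb1 (by rw [hV]; nlinarith)
    (by
      have h0 := hchi.z0 0
      nlinarith) (by rw [hV]; nlinarith)
  have h9 := use9X (Ψ := MmS π h e0 c Rf lam) (B := B) (δ := 40 * δ) (g := g) (ζ := ζ) F.nat.X1
    (by linarith) (by linarith) hρ1 (by linarith) (by linarith) (by linarith) H9 hPar F.par hc0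
    (F.w.mono F.nat.X1.le (by linarith) le_rfl le_rfl le_rfl) hX8 hsum
    (fun i => S.F.par.u0 _) hβκ le_rfl (S.F.par.u0 _) (Or.inl le_rfl)
    (fun v _ v1 _ v2 => S.L v v1 v2)
    (by
      rw [← Finset.sum_mul, hsum, hV]
      nlinarith) hg.ne_zero
    (by
      have h5 : 800 * (δ * Real.log X) ≤ δ₁ * Real.log X := by
        have := mul_le_mul_of_nonneg_right hδ₁ hL.le
        linarith
      rw [hζ, abs_le]
      constructor <;> nlinarith)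
    (by
      rw [hQ]
      have e1 : ∑ i : Fin m, Real.log (Yo (π lam.1) lam.2 D ps γ bt (.inl i)).Y ≤
          ∑ i : Fin m, (c₀ * (n (.inl i) : ℝ) + 2 * R) :=
        sum_le_sum fun i _ => by linarith [(abs_le.1 (hn (.inl i))).1]
      rw [sum_add_distrib, sum_const, card_univ, Fintype.card_fin, nsmul_eq_mul] at e1
      nlinarith)
    (by
      rw [hV, hQ]
      have e1 : ∑ i : Fin m, Real.log (Yo (π lam.1) lam.2 D ps γ bt (.inl i)).Y ≤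
          ∑ i : Fin m, (c₀ * (n (.inl i) : ℝ) + 2 * R) :=
        sum_le_sum fun i _ => by linarith [(abs_le.1 (hn (.inl i))).1]
      rw [sum_add_distrib, sum_const, card_univ, Fintype.card_fin, nsmul_eq_mul] at e1
      unfold bfO at hb0
      nlinarith)
  refine (le_of_eq ?_).trans (h9.trans ?_)
  · unfold MmS mmT
    rw [if_pos ⟨⟨F.ok, F.nat.t0, fun i => ⟨hchi.lump i, hchi.z0 i⟩, hchi.am, hbt0⟩, hg, hgs, by
      rw [hζ]
      have : 0 ≤ ∑ i, (ps i).z := sum_nonneg fun i _ => F.nat.z0 i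
      nlinarith, fun ν hν => supp_qC hR F.nat.hP (by
        have hQ' : ∑ i, (qC ps (x := fun _ => 1) hγ h1p (fun i => c₀ * n i) τ i).z =
            ∑ i : Fin m, c₀ * (n (.inl i) : ℝ) := rfl
        rw [hQ', hζ]
        nlinarith) ν hν⟩]
    rw [HP842.al_eq, HP842.al_eq, List.map_ofFn, List.map_ofFn]
    rfl
  · unfold WO
    rw [mul_assoc]
    refine mul_le_mul (Real.rpow_le_rpow_of_exponent_le F.nat.X1.le (by linarith)) ?_
      (Real.exp_pos _).le (by positivity)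
    have h9 := sumz_leX S hγ hb h1p one_mem_Tu one_mem_Tu hn
    rw [hV, hQ, sf_g hγ hb hg, ← mul_assoc, sub_eq_add_neg, Real.exp_add]
    exact mul_le_mul_of_nonneg_right h9 (Real.exp_pos _).le

/-- large heights, single list -/
theorem hmS_large (hR : ∀ u, cx h u ≠ 0 → |u| ≤ R) (hH : ∀ u, ‖cx h u‖ ≤ H)
    (hHw : ∀ u, ‖((FE47.hD u : ℝ) : ℂ)‖ ≤ Hw)
    (F : FrX (π lam.1) lam.2 β p X δ ρ B R N a ps)
    (S : Sd (π lam.1) lam.2 β p X δ ρ B R N a ps D pD) (hS : Siz X H Hw e0 (Rf lam.1) R)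
    (hγ : ∀ i, IsPrim (γ i)) (hb : ∀ i, IsPrim (bt i)) {ζ : ℝ}
    (hζ : ζ = ∑ i, (ps i).z + 3 * R * m) (b : ℝ)
    {z t : Fin m ⊕ Fin 3 → ℝ}
    (hn : ∀ i, |z i - Real.log (Yo (π lam.1) lam.2 D ps γ bt i).Y| ≤ 2 * R) :
    mmT e0 (Rf lam.1) a ζ (nW c a.toBd b) g
      (sqc 1 (al h fun i => reY (Yo (π lam.1) lam.2 D ps γ bt) (fun i => Real.exp (z i)) t
        (.inl i)))
      (sqc 1 (al h fun i => reY (Yo (π lam.1) lam.2 D ps γ bt) (fun i => Real.exp (z i)) t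
        (.inr i))) ≤ X ^ (100 * (N + 3 + 1)) := by
  have hL := F.nat.L0
  have hX0 : 0 < X := by linarith [F.nat.X1]
  have hX1 := F.nat.X1.le
  have hR0 := F.nat.R0
  have hd0 := F.nat.d0
  have hmR : 0 ≤ (m : ℝ) * R := by positivity
  have h1p : IsPrim (1 : Eis) := isPrim_one
  have hOK : ∀ i, (Yo (π lam.1) lam.2 D ps γ bt i).OK :=
    chS_OK (fam_OK (π lam.1) lam.2 S.F.hP ps (vsO D)) hγ (fun _ => h1p) hb (fun _ => h1p) 1
  have htot := abs_le.1 F.nat.tot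
  have hRm := F.nat.Rm'
  have hdL0 : 0 ≤ δ * Real.log X := mul_nonneg hd0 hL.le
  have hd1 := F.nat.d1
  have hdL : δ * Real.log X ≤ 1 / 240 * Real.log X :=
    mul_le_mul_of_nonneg_right (by linarith) hL.le
  have hxL : cx' (prX p) * Real.log X ≤ 1 / 3 * Real.log X :=
    mul_le_mul_of_nonneg_right F.par.x1 hL.le
  have hζX : Real.exp ζ ≤ X ^ 3 := by
    have e5 : X ^ 3 = Real.exp (3 * Real.log X) := by
      rw [mul_comm, Real.exp_mul, Real.exp_log hX0]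
      norm_cast
    rw [e5, hζ]
    exact Real.exp_le_exp.2 (by nlinarith)
  exact mm_big (N := N + 3) (n := nW c a.toBd b) (YT := 2 ^ nO a.toBd) hR hH hHw hS.toBig hS.w
    (s := fun i : Fin m => reY (Yo (π lam.1) lam.2 D ps γ bt) (fun i => Real.exp (z i)) t
      (.inl i))
    (fun i => ⟨(hOK (.inl i)).ch, Real.exp_pos _⟩)
    (s' := fun i : Fin 3 => reY (Yo (π lam.1) lam.2 D ps γ bt) (fun i => Real.exp (z i)) t
      (.inr i))
    (fun i => ⟨(hOK (.inr i)).ch, Real.exp_pos _⟩)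
    (fun i => Y3_le S.F hγ hb one_mem_Tu one_mem_Tu hn (.inl i))
    (fun i => Y3_le S.F hγ hb one_mem_Tu one_mem_Tu hn (.inr i))
    (by
      rw [Fintype.card_fin]
      have := F.nat.len
      omega) (by
      rw [Fintype.card_fin]
      omega) (nW_le F hS.c b) (E0 := Real.exp (e0 * a.l)) (Real.exp_pos _).le
    ((exp_l_le F.nat hS.e1 (l_nonneg F.nat)).trans (pow_le_pow_right₀ hX1 (by norm_num)))
    (by positivity) (YT_le F.nat hS.c) (Real.exp_pos _).le hζX g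
    (uM_le_one (Rf lam.1) (Real.exp a.l) (Real.exp (a.l / 20)))
    (fun k hk => us_le F.nat hS.r k hk)

lemma mmT_zero {ζ : ℝ} {n : ℕ} {η α : Eis → ℂ}
    (h0 : ∀ k, Mm (JW (Real.sqrt (2 ^ nO a.toBd) * Real.exp ζ) (1 / 10)
      (2 ^ nO a.toBd * Real.exp ζ ^ 2)) (Real.exp (e0 * a.l)) (Real.exp ζ) (oN n) g η α k = 0)
    (Rl : ℝ) : mmT e0 Rl a ζ n g η α = 0 := by
  unfold mmT M2
  simp_rw [h0]
  simp

lemma hJW (A B C : ℝ) : ∀ z ∈ JW A B C, z.1 ≠ 0 := fun z hz =>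
  ((okJ_JW _ _ _).prim z hz).ne_zero

/-- **the mismatch moment of a single list which lost at least `β κ`** -/
theorem hmS (hc₀ : 0 < c₀) (hR : ∀ u, cx h u ≠ 0 → |u| ≤ R) (hH : ∀ u, ‖cx h u‖ ≤ H)
    (hHw : ∀ u, ‖((FE47.hD u : ℝ) : ℂ)‖ ≤ Hw) (hM : 0 ≤ M) (hsep : SepM h c₀ R M Cs)
    (hCs : 1 ≤ Cs) (F : FrX (π lam.1) lam.2 β p X δ ρ B R N a ps)
    (S : Sd (π lam.1) lam.2 β p X δ ρ B R N a ps D pD) (hS : Siz X H Hw e0 (Rf lam.1) R)
    (hρ : 2 * X ^ ρ ≤ X ^ ρ₁) (hρ0 : 0 ≤ ρ) (hρ1 : ρ ≤ ρ₁) (hδ₁ : 800 * δ ≤ δ₁) (hB : 0 ≤ B)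
    (hMρ : 101 * ((N : ℝ) + 3 + 1) ≤ ρ * M) (hL0 : 0 ≤ L0 (prX p)) (hε₁ : 0 ≤ ε₁)
    (hPar : prX p ∈ Par) (hc0 : 0 ≤ c) (hc1 : c ≤ 1)
    (H9 : In9X (MmS π h e0 c Rf lam) c β Par (SinL β) L0 X δ₁ ρ₁ (B + 2) ε₁ N)
    (hγ : ∀ i, IsPrim (γ i)) (hb : ∀ i, IsPrim (bt i)) (hg : IsPrim g) (hgs : Squarefree g)
    (hb0 : bw bt ≤ bfO a.l (a3 a.toBd) a.z)
    (hb1 : 2 * bw bt ≤ tO a.toBd + 2 * (c * a.l))
    (hlost : (β * cκ (prX p) - 2 * δ) * Real.log X ≤ bw bt) {ζ : ℝ}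
    (hζ : ζ = ∑ i, (ps i).z + 3 * R * m) :
    mmT e0 (Rf lam.1) a ζ (nW c a.toBd (bw bt)) g
      (sqc 1 (al h fun i => Yo (π lam.1) lam.2 D ps γ bt (.inl i)))
      (sqc 1 (al h fun i => Yo (π lam.1) lam.2 D ps γ bt (.inr i))) ≤
      Cs ^ (N + 3) * WO L0 (prX p) X δ ε₁ R N a.toBd ps * sf γ bt g := by
  classical
  have hX1 := F.nat.X1.le
  have hX0 : 0 < X := by linarith [F.nat.X1]
  have hsf : 0 < sf γ bt g := sf_pos hγ hb hg
  have hWpos : 0 < WO L0 (prX p) X δ ε₁ R N a.toBd ps := WO_pos F.nat.X1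
  have h1p : IsPrim (1 : Eis) := isPrim_one
  have hOK : ∀ i, (Yo (π lam.1) lam.2 D ps γ bt i).OK :=
    chS_OK (fam_OK (π lam.1) lam.2 S.F.hP ps (vsO D)) hγ (fun _ => h1p) hb (fun _ => h1p) 1
  have hZ0 : 0 ≤ Real.exp ζ := (Real.exp_pos _).le
  have hT : 0 ≤ Cs ^ (N + 3) * WO L0 (prX p) X δ ε₁ R N a.toBd ps * sf γ bt g := by positivity
  by_cases hlow : ∀ i, -R ≤ Real.log (Yo (π lam.1) lam.2 D ps γ bt i).Y
  swap
  · refine (mmT_zero (fun k => ?_) _).le.trans hT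
    push Not at hlow
    obtain ⟨i, hi⟩ := hlow
    rcases i with i | j
    · rw [sqc_zero hR (s := fun i => Yo (π lam.1) lam.2 D ps γ bt (.inl i)) (fun i => hOK _) hi,
        Mm_zero_left]
    · rw [sqc_zero hR (s := fun i => Yo (π lam.1) lam.2 D ps γ bt (.inr i)) (fun i => hOK _) hi,
        Mm_zero_right (hJW _ _ _) hZ0]
  by_cases hgl : Real.log (nm g) ≤
      ∑ i : Fin m, Real.log (Yo (π lam.1) lam.2 D ps γ bt (.inl i)).Y + R * m
  swap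
  · refine (mmT_zero (fun k => ?_) _).le.trans hT
    refine Mm_zero_of (fun b => ?_) k
    by_contra hne
    exact hgl (g_le hR (fun i => hOK (.inl i)) hg hne)
  have hone := one_leM (L0 := L0) (ε₁ := ε₁) F S hL0 hε₁ hγ hb hg hlow hgl
  have key := hsep (Fin m) (Fin 3) (Yo (π lam.1) lam.2 D ps γ bt) hOK (Real.exp (e0 * a.l))
    (Real.exp ζ) hZ0 (JW (Real.sqrt (2 ^ nO a.toBd) * Real.exp ζ) (1 / 10)
      (2 ^ nO a.toBd * Real.exp ζ ^ 2)) (hJW _ _ _) (oN (nW c a.toBd (bw bt))) g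
    (uM (Rf lam.1) (Real.exp a.l) (Real.exp (a.l / 20))) (uM_nonneg _ _ _)
    (uM_fin (Real.exp_pos _)) (WO L0 (prX p) X δ ε₁ R N a.toBd ps * sf γ bt g) (by positivity)
    (fun n τ hn => by
      refine split_h (T₀ := X ^ ρ) (A := X ^ (101 * (N + 3 + 1))) hM (by positivity)
        (by positivity) ((pow_big hX1 hM hMρ).trans (le_mul_of_one_le_left (by positivity) hone))
        (F := fun τ => mmT e0 (Rf lam.1) a ζ (nW c a.toBd (bw bt)) g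
          (sqc 1 (al h fun i => reY (Yo (π lam.1) lam.2 D ps γ bt)
            (fun i => Real.exp (c₀ * n i))
            (fun i => (Yo (π lam.1) lam.2 D ps γ bt i).t + τ i) (.inl i)))
          (sqc 1 (al h fun i => reY (Yo (π lam.1) lam.2 D ps γ bt)
            (fun i => Real.exp (c₀ * n i))
            (fun i => (Yo (π lam.1) lam.2 D ps γ bt i).t + τ i) (.inr i)))) ?_ ?_ τ
      · intro τ hτ
        exact hmS_small hc₀ hR F S hρ hρ0 hρ1 hδ₁ hB hPar hc0 hc1 H9 hγ hb hg hgs hb0 hb1 hlost hζ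
          hlow hgl hn hτ
      · intro τ
        refine (hmS_large (c := c) hR hH hHw F S hS hγ hb hζ (bw bt) hn).trans ?_
        exact pow_le_pow_right₀ hX1 (by omega))
  refine key.trans ?_
  rw [← mul_assoc]
  refine mul_le_mul_of_nonneg_right (mul_le_mul_of_nonneg_right ?_ hWpos.le) hsf.le
  refine pow_le_pow_right₀ hCs ?_
  rw [Fintype.card_sum, Fintype.card_fin, Fintype.card_fin]
  have := F.nat.len
  omega

end

end Crest.Agent.R017.P1X960
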