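import Crest.Agent.R017.P1Xa_960

/-!
# Row 17, exceptional class, P1X, part 11 (helper960): the mismatch of a difference

* `hmD` : the mismatch moment of a difference, the four lengths of the pair `≥ 0`
* `hmX` : the mismatch of a child
-/

set_option autoImplicit false

noncomputable section

open Finset
open scoped ComplexConjugate

namespace Crest.Agent.R017.P1X960

open Crest.Agent.R012 Crest.Agent.R012.Eis
open Crest.Agent.R012.Weight600 (osc norm_osc osc_add_right)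
open Crest.Agent.R012.Mob705 hiding pb mem_pb
open Crest.Agent.R012.LS2 (S mem_S)
open Crest.Agent.R017.CM106 Crest.Agent.R017.C70
open Crest.Agent.R017.FE47 (PU cx SM)
open Crest.Agent.R017.StD828 (ln Tm)
open Crest.Agent.R017.E2440 (TE StE Bth Bth_nonneg)
open Crest.Agent.R017.E3A164 (SteT)
open Crest.Agent.R017.E5k54 (PT alb)
open Crest.Agent.R017.SSb54 (SST SSb PTb mem_PTb PTb_sub)
open Crest.Agent.R017.P1e54 Crest.Agent.R017.P1f54 Crest.Agent.R017.P1i54 Crest.Agent.R017.P1j54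
open Crest.Agent.R017.P1k54 Crest.Agent.R017.P1o54
open Crest.Agent.R017.P1l54 (chP chP_lump Pt_OK fam fam_OK mod_ne reY_chS al_fam ParOK oN alb_eq)
open Crest.Agent.R017.P1n54 (tlen tlen_nonneg Chi)
open Crest.Agent.R017.P1p54
open Crest.Agent.R017.P1q54 (sqc_zero Er_zero M2_Er_zero Mm_zero_left Mm_zero_right Mm_zero_of
  SepE SepM WO Siz YT_le nO_le YT_nonneg exp_l_le l_nonneg us_le Y3_le sumz_le)
open Crest.Agent.R017.P1r54 (one_mem_Tu sf_g g_le Yo)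
open Crest.Agent.R017.HP842 (Pc pc al alL cv Tu mem_Tu sqc Th)
open Crest.Agent.R017.B770 Crest.Agent.R017.Prov71
open Crest.Agent.R017.XG702 (Pcs Good_mono)
open Crest.Agent.R017.XT71 (Sys Win mx mx_le le_mx)
open Crest.Agent.R017.UM71
open Crest.Agent.R017.E5B71 Crest.Agent.R017.E5P571 Crest.Agent.R017.E5L770
open Crest.Agent.R017.ExP960 Crest.Agent.R017.Sf770
open Crest.Agent.R017.E5LX770 (nB)
open Crest.Agent.R017.HBsB445 (prod_ch1 prod_chS sf_pos)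

attribute [local irreducible] HP842.Tu

lemma M2_Mm_cmb_le {u : Eis → ℝ} (h0 : ∀ k, 0 ≤ u k) (hu : (Function.support u).Finite)
    {A B : Eis → ℂ} (hA : FS A) (hB : FS B) {z w : ℂ} (hz : ‖z‖ = 1) (hw : ‖w‖ = 1)
    {JJ : Finset (Eis × Eis)} (hJ : ∀ x ∈ JJ, x.1 ≠ 0) {Z : ℝ} (hZ : 0 ≤ Z) (E0 : ℝ)
    (o : Eis → ℂ) (g : Eis) (η : Eis → ℂ) :
    M2 u (Mm JJ E0 Z o g η (cmb z w A B)) ≤
      2 * (M2 u (Mm JJ E0 Z o g η A) + M2 u (Mm JJ E0 Z o g η B)) := by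
  have e1 : Mm JJ E0 Z o g η (cmb z w A B) =
      fun k => z * Mm JJ E0 Z o g η A k + w * Mm JJ E0 Z o g η B k := by
    funext k
    exact Mm_cmb hA hB z w hJ hZ E0 o g η k
  rw [e1]
  exact M2_cmb_le h0 hu _ _ hz hw

lemma M2_Mm_smul {u : Eis → ℝ} (h0 : ∀ k, 0 ≤ u k) (hu : (Function.support u).Finite)
    {A B : Eis → ℂ} (hA : FS A) (hB : FS B) (κ z w : ℂ) (hκ : ‖κ‖ = 1)
    {JJ : Finset (Eis × Eis)} (hJ : ∀ x ∈ JJ, x.1 ≠ 0) {Z : ℝ} (hZ : 0 ≤ Z) (E0 : ℝ)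
    (o : Eis → ℂ) (g : Eis) (η : Eis → ℂ) :
    M2 u (Mm JJ E0 Z o g η (cmb z w A B)) ≤
      M2 u (Mm JJ E0 Z o g η (cmb (κ * z) (κ * w) A B)) := by
  refine M2_mono h0 hu fun k => le_of_eq ?_
  rw [Mm_cmb hA hB z w hJ hZ E0 o g η k, Mm_cmb hA hB (κ * z) (κ * w) hJ hZ E0 o g η k]
  have e1 : κ * z * Mm JJ E0 Z o g η A k + κ * w * Mm JJ E0 Z o g η B k =
      κ * (z * Mm JJ E0 Z o g η A k + w * Mm JJ E0 Z o g η B k) := by ring
  rw [e1, norm_mul, hκ, one_mul]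

section

variable {Λ : Type*} {π : Λ → DPar} {h : ℝ → ℝ} {e0 : ℝ} {Rf : Λ → ℝ} {lam : Λ × Eis}
  {β c : ℝ} {p : IX5 → ℝ} {X δ δ₁ ρ ρ₁ B R c₀ H Hw M Cs ε₁ : ℝ} {N : ℕ} {a : BdX}
  {m : ℕ} {ps : Fin m → Pq} {γ x : Fin m → Eis} {bt y : Fin 3 → Eis} {g : Eis}
  {Par : Set (Fin 3 ⊕ Fin 5 → ℝ)} {L0 : (Fin 3 ⊕ Fin 5 → ℝ) → ℝ} {P : DPar} {t₀ : Eis}

/-- the natural and the replaced family of the mismatch -/
abbrev yO (P : DPar) (t₀ : Eis) (a : BdX) (ps : Fin m → Pq) (γ : Fin m → Eis)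
    (bt : Fin 3 → Eis) : Fin m ⊕ Fin 3 → Pc := Yo P t₀ a.toBd ps γ bt

abbrev yR (P : DPar) (t₀ : Eis) (a : BdX) (ps : Fin m → Pq) (γ : Fin m → Eis)
    (bt : Fin 3 → Eis) : Fin m ⊕ Fin 3 → Pc := Yo P t₀ (repA a) ps γ bt

lemma rst_eqY : rst (yR P t₀ a ps γ bt) = rst (yO P t₀ a ps γ bt) := rst_eq

set_option maxHeartbeats 2000000 in
/-- the mismatch moment of a difference, small heights -/
theorem hmD_small (hc₀ : 0 < c₀) (hR : ∀ u, cx h u ≠ 0 → |u| ≤ R)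
    (F : FrX (π lam.1) lam.2 β p X δ ρ B R N a ps)
    (hρ : 2 * X ^ ρ ≤ X ^ ρ₁) (hρ0 : 0 ≤ ρ) (hρ1 : ρ ≤ ρ₁) (hδ₁ : 800 * δ ≤ δ₁) (hB : 0 ≤ B)
    (hPar : prX p ∈ Par) (hc0 : 0 ≤ c) (hc1 : c ≤ 1)
    (H9 : In9X (MmX π h e0 c Rf lam) c β Par DifL L0 X δ₁ ρ₁ (B + 2) ε₁ N)
    (hγ : ∀ i, IsPrim (γ i)) (hb : ∀ i, IsPrim (bt i)) (hg : IsPrim g) (hgs : Squarefree g)
    (hb0 : bw bt ≤ bfO a.l (a3 a.toBd) a.z)
    (hb1 : 2 * bw bt ≤ tO a.toBd + 2 * (c * a.l)) {ζ : ℝ}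
    (hζ : ζ = ∑ i, (ps i).z + 3 * R * m)
    (p0 : 0 ≤ Real.log (yO (π lam.1) lam.2 a ps γ bt (.inr 0)).Y)
    (p1 : 0 ≤ Real.log (yO (π lam.1) lam.2 a ps γ bt (.inr 1)).Y)
    (q0 : 0 ≤ Real.log (yR (π lam.1) lam.2 a ps γ bt (.inr 0)).Y)
    (q1 : 0 ≤ Real.log (yR (π lam.1) lam.2 a ps γ bt (.inr 1)).Y)
    (hlow : ∀ i, -R ≤ Real.log (yO (π lam.1) lam.2 a ps γ bt i).Y)
    (hgl : Real.log (nm g) ≤
      ∑ i : Fin m, Real.log (yO (π lam.1) lam.2 a ps γ bt (.inl i)).Y + R * m)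
    {n : Fin m ⊕ Unit → ℕ} {τ : Fin m ⊕ Unit → ℝ}
    (hn : ∀ i, |c₀ * n i - Real.log (rst (yO (π lam.1) lam.2 a ps γ bt) i).Y| ≤ 2 * R)
    (hτ : ∀ i, |τ i| ≤ X ^ ρ) :
    mmT e0 (Rf lam.1) a ζ (nW c a.toBd (bw bt)) g
      (sqc 1 (al h fun i => reY (rst (yO (π lam.1) lam.2 a ps γ bt))
        (fun i => Real.exp (c₀ * n i))
        (fun i => (rst (yO (π lam.1) lam.2 a ps γ bt) i).t + τ i) (.inl i)))
      (cmb (ph a) (-ph' a)
        (sqc 1 (al h fun j => jn (reY (rst (yO (π lam.1) lam.2 a ps γ bt))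
          (fun i => Real.exp (c₀ * n i))
          (fun i => (rst (yO (π lam.1) lam.2 a ps γ bt) i).t + τ i))
          (pr2 (yO (π lam.1) lam.2 a ps γ bt)) (.inr j)))
        (sqc 1 (al h fun j => jn (reY (rst (yO (π lam.1) lam.2 a ps γ bt))
          (fun i => Real.exp (c₀ * n i))
          (fun i => (rst (yO (π lam.1) lam.2 a ps γ bt) i).t + τ i))
          (pr2 (yR (π lam.1) lam.2 a ps γ bt)) (.inr j)))) ≤
      WO L0 (prX p) X δ ε₁ R N a.toBd ps * sf γ bt g := by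
  have hL := F.nat.L0
  have hX0 : 0 < X := by linarith [F.nat.X1]
  have hX1 := F.nat.X1.le
  have hR0 := F.nat.R0
  have hd0 := F.nat.d0
  have hmR : 0 ≤ (m : ℝ) * R := by positivity
  have h1p : IsPrim (1 : Eis) := isPrim_one
  have hyp : ∀ i : Fin 3, IsPrim ((fun _ => (1 : Eis)) i) := fun _ => h1p
  have hOK1 : ∀ i, (yO (π lam.1) lam.2 a ps γ bt i).OK :=
    chS_OK (fam_OK (π lam.1) lam.2 F.nat.hP ps (vsO a.toBd)) hγ (fun _ => h1p) hb
      (fun _ => h1p) 1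
  have hOK2 : ∀ i, (yR (π lam.1) lam.2 a ps γ bt i).OK :=
    chS_OK (fam_OK (π lam.1) lam.2 F.nat.hP ps (vsO (repA a))) hγ (fun _ => h1p) hb
      (fun _ => h1p) 1
  have hXρ : 0 ≤ X ^ ρ := Real.rpow_nonneg hX0.le _
  have er0 := cR_Y0 (P := π lam.1) (t₀ := lam.2) (a := a) (ps := ps) (γ := γ)
    (x := fun _ => 1) (y := fun _ => 1) (g := 1) hb one_mem_Tu
  have er1 := cR_Y1 (P := π lam.1) (t₀ := lam.2) (ps := ps) (γ := γ)
    (x := fun _ => 1) (y := fun _ => 1) (g := 1) F.ok hb one_mem_Tu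
  set z₁ : Fin m ⊕ Fin 3 → ℝ := jn (fun i => c₀ * n i)
    ![Real.log (yO (π lam.1) lam.2 a ps γ bt (.inr 0)).Y,
      Real.log (yO (π lam.1) lam.2 a ps γ bt (.inr 1)).Y] with hz₁
  set z₂ : Fin m ⊕ Fin 3 → ℝ := jn (fun i => c₀ * n i)
    ![Real.log (yR (π lam.1) lam.2 a ps γ bt (.inr 0)).Y,
      Real.log (yR (π lam.1) lam.2 a ps γ bt (.inr 1)).Y] with hz₂
  set σ : Fin m ⊕ Fin 3 → ℝ := jn τ ![0, 0] with hσ
  have hz1n : ∀ i, |z₁ i - Real.log (yO (π lam.1) lam.2 a ps γ bt i).Y| ≤ 2 * R := by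
    intro i
    rcases i with i | i
    · exact hn (.inl i)
    · fin_cases i
      · show |Real.log (yO (π lam.1) lam.2 a ps γ bt (.inr 0)).Y -
          Real.log (yO (π lam.1) lam.2 a ps γ bt (.inr 0)).Y| ≤ 2 * R
        rw [sub_self, abs_zero]; linarith
      · show |Real.log (yO (π lam.1) lam.2 a ps γ bt (.inr 1)).Y -
          Real.log (yO (π lam.1) lam.2 a ps γ bt (.inr 1)).Y| ≤ 2 * R
        rw [sub_self, abs_zero]; linarith
      · exact hn (.inr ())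
  have hz10 : ∀ i, 0 ≤ z₁ i := by
    intro i
    rcases i with i | i
    · show 0 ≤ c₀ * (n (.inl i) : ℝ)
      positivity
    · fin_cases i
      · exact p0
      · exact p1
      · show 0 ≤ c₀ * (n (.inr ()) : ℝ)
        positivity
  have hσn : ∀ i, |σ i| ≤ X ^ ρ := by
    intro i
    rcases i with i | i
    · exact hτ (.inl i)
    · fin_cases i
      · show |(0 : ℝ)| ≤ _
        rw [abs_zero]; exact hXρ
      · show |(0 : ℝ)| ≤ _
        rw [abs_zero]; exact hXρ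
      · exact hτ (.inr ())
  have hγ0 := bw_nonneg hγ
  have hbt0 := bw_nonneg hb
  have hg1 : 0 ≤ Real.log (nm g) := Real.log_nonneg (one_le_nm hg)
  have htot := abs_le.1 F.nat.tot
  have haz := abs_le.1 F.nat.az
  have hlz := abs_le.1 F.nat.lz
  have ha3 := abs_le.1 F.a3b
  have hRm := F.nat.Rm'
  have hdL0 : 0 ≤ δ * Real.log X := mul_nonneg hd0 hL.le
  obtain ⟨n1, n2⟩ := child_num1 F.sd1 hγ hb hz1n
  have n1 := abs_le.1 n1
  have n2 := abs_le.1 n2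
  have n3 := (abs_le.1 (child_num1 F.sd1 hγ hb (z := fun i =>
    Real.log (yO (π lam.1) lam.2 a ps γ bt i).Y)
    (fun i => by rw [sub_self, abs_zero]; linarith)).2).2
  have hchi := chi_of (δ₁ := δ₁) F.nat hγ hb h1p one_mem_Tu one_mem_Tu hlow hz10 hz1n hσn hρ
    (by linarith)
  have hV : ∑ j, (vC a.toBd (y := fun _ => 1) hb h1p z₁ σ j).z = ∑ j : Fin 3, z₁ (.inr j) := rfl
  have hQ : tlen (List.ofFn (qC ps (x := fun _ => 1) hγ h1p z₁ σ)) =
      ∑ i : Fin m, z₁ (.inl i) := by rw [tlen_ofFn]; rfl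
  have hsum : ∑ i : Fin 3, cu (prX p) (Fin.natAdd 2 i) = cN (prX p) := by
    rw [Fin.sum_univ_three]; rfl
  have hβκ : 0 ≤ β * cκ (prX p) := mul_nonneg F.par.β0 (by linarith [F.par.κ0])
  have hdz : |dz a - (cu (prX p) 2 - p (.inr 1)) * Real.log X| ≤ 2 * δ * Real.log X := by
    have h1 := abs_le.1 (F.nat.vz 0)
    have h2 := F.w.ev (.inr 1)
    have g1 : S5X.ev X a (.inr 1) = a.zs 2 / Real.log X := rfl
    have g2 : (vsO a.toBd 0).z = (a.us 2).z := rfl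
    have g3 : cu (prX p) (Fin.natAdd 2 (0 : Fin 3)) = cu (prX p) 2 := rfl
    rw [g1] at h2
    rw [g2, g3] at h1
    have h3 : |a.zs 2 - p (.inr 1) * Real.log X| ≤ δ * Real.log X := by
      have e2 : a.zs 2 - p (.inr 1) * Real.log X =
          (a.zs 2 / Real.log X - p (.inr 1)) * Real.log X := by
        field_simp
      rw [e2, abs_mul, abs_of_pos hL]
      exact mul_le_mul_of_nonneg_right h2 hL.le
    have h3 := abs_le.1 h3
    unfold dz
    rw [abs_le]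
    constructor <;> linarith
  have hdz' := abs_le.1 hdz
  have hv0 : (vC a.toBd (y := fun _ => 1) hb h1p z₁ σ 0).z =
    Real.log (yO (π lam.1) lam.2 a ps γ bt (.inr 0)).Y := rfl
  have hv1 : (vC a.toBd (y := fun _ => 1) hb h1p z₁ σ 1).z =
    Real.log (yO (π lam.1) lam.2 a ps γ bt (.inr 1)).Y := rfl
  have hDp : 0 ≤ cu (prX p) 2 - p (.inr 1) := by
    have := (F.par.zr 1).2
    linarith [F.par.βu]
  have hX8 := chiX_of (c := c) (b := bw bt) (Dl := cu (prX p) 2 - p (.inr 1)) (s := 0) F F.sd1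
    hc0 hc1 hchi hbt0 hb1 (by rw [hV]; nlinarith)
    (by
      rw [hv0]
      nlinarith) (by rw [hV]; nlinarith)
  have h9 := use9X (Ψ := MmX π h e0 c Rf lam) (B := B) (δ := 40 * δ) (g := g) (ζ := ζ) F.nat.X1
    (by linarith) (by linarith) hρ1 (by linarith) (by linarith) (by linarith) H9 hPar F.par hc0
    (F.w.mono F.nat.X1.le (by linarith) le_rfl le_rfl le_rfl) hX8 hsum
    (fun i => F.par.u0 _) le_rfl hβκ
    (by
      show cu (prX p) 2 - p (.inr 1) ≤ cu (prX p) 2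
      linarith [F.par.pos]) (Or.inr rfl)
    (fun v v0 v1 v2 _ => ⟨⟨v1 0, v1 1, v1 2⟩, by linarith, by linarith [v0 1]⟩)
    (by
      rw [← Finset.sum_mul, hsum, hV]
      nlinarith) hg.ne_zero
    (by
      have h5 : 800 * (δ * Real.log X) ≤ δ₁ * Real.log X := by
        have := mul_le_mul_of_nonneg_right hδ₁ hL.le
        linarith
      rw [hζ, abs_le]
      constructor <;> nlinarith)
    (by
      rw [hQ]
      nlinarith)
    (by
      rw [hV, hQ]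
      unfold bfO at hb0
      nlinarith)
  have eJ1 := jn_reY (yO (π lam.1) lam.2 a ps γ bt) (fun i => (hOK1 i).Y0)
    (fun i => c₀ * n i) τ
  have eJ2 := jn_reY (yR (π lam.1) lam.2 a ps γ bt) (fun i => (hOK2 i).Y0)
    (fun i => c₀ * n i) τ
  rw [rst_eqY] at eJ2
  have eR1 := reY_chO (P := π lam.1) (t₀ := lam.2) (a := a.toBd) (ps := ps)
    (x := fun _ => 1) (y := fun _ => 1) hγ hb h1p z₁ σ
  have eR2 := reY_chO (P := π lam.1) (t₀ := lam.2) (a := repA a) (ps := ps)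
    (x := fun _ => 1) (y := fun _ => 1) hγ hb h1p z₂ σ
  have ev := vC_rep (a := a) (y := fun _ => 1) hb h1p (z₁ := z₁) (z₂ := z₂) (τ := σ) er0 er1 rfl
  have e3 := eJ1.trans eR1
  have e4 := eJ2.trans eR2
  have eη : (fun i => reY (rst (yO (π lam.1) lam.2 a ps γ bt))
        (fun i => Real.exp (c₀ * n i))
        (fun i => (rst (yO (π lam.1) lam.2 a ps γ bt) i).t + τ i) (.inl i)) =
      fun i : Fin m => Pt (π lam.1) lam.2 (qC ps (x := fun _ => 1) hγ h1p z₁ σ i) := by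
    funext i
    exact congrFun e3 (.inl i)
  have eA : (fun j => jn (reY (rst (yO (π lam.1) lam.2 a ps γ bt))
          (fun i => Real.exp (c₀ * n i))
          (fun i => (rst (yO (π lam.1) lam.2 a ps γ bt) i).t + τ i))
          (pr2 (yO (π lam.1) lam.2 a ps γ bt)) (.inr j)) =
      fun j : Fin 3 => Pt (π lam.1) lam.2 (vC a.toBd (y := fun _ => 1) hb h1p z₁ σ j) := by
    funext j
    exact congrFun e3 (.inr j)
  have eB : (fun j => jn (reY (rst (yO (π lam.1) lam.2 a ps γ bt))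
          (fun i => Real.exp (c₀ * n i))
          (fun i => (rst (yO (π lam.1) lam.2 a ps γ bt) i).t + τ i))
          (pr2 (yR (π lam.1) lam.2 a ps γ bt)) (.inr j)) =
      fun j : Fin 3 => Pt (π lam.1) lam.2
        (rzD (vC a.toBd (y := fun _ => 1) hb h1p z₁ σ) (dz a) j) := by
    funext j
    rw [← ev]
    exact congrFun e4 (.inr j)
  have hal : ∀ vs : Fin 3 → Pq, al h (fun j : Fin 3 => Pt (π lam.1) lam.2 (vs j)) =
      alL h ((List.ofFn vs ++ []).map (Pt (π lam.1) lam.2)) := by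
    intro vs
    rw [HP842.al_eq, List.append_nil, List.map_ofFn]
    rfl
  have halQ : al h (fun i : Fin m => Pt (π lam.1) lam.2
      (qC ps (x := fun _ => 1) hγ h1p z₁ σ i)) = alL h ((List.ofFn
        (qC ps (x := fun _ => 1) hγ h1p z₁ σ)).map (Pt (π lam.1) lam.2)) := by
    rw [HP842.al_eq, List.map_ofFn]
    rfl
  rw [eη, eA, eB, halQ, hal, hal]
  obtain ⟨o1, o2⟩ := oc_child F.ok (vs := vC a.toBd (y := fun _ => 1) hb h1p z₁ σ)
    (n0 := Real.log (nm (bt 0 * 1))) (n1 := Real.log (nm (bt 1 * 1)))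
    (by show (a.us 2).t + 0 = _; rw [add_zero]) (by show (a.us 3).t + 0 = _; rw [add_zero])
    (by
      rw [hv0]
      show Real.log (Real.exp (a.us 2).z / (nm (bt 0 * 1) : ℝ)) = _
      have h1 : (1 : ℝ) ≤ nm (bt 0 * 1) := one_le_nm ((hb 0).mul h1p)
      rw [Real.log_div (Real.exp_pos _).ne' (by linarith), Real.log_exp])
    (by
      rw [hv1]
      show Real.log (Real.exp (a.us 3).z / (nm (bt 1 * 1) : ℝ)) = _
      have h1 : (1 : ℝ) ≤ nm (bt 1 * 1) := one_le_nm ((hb 1).mul h1p)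
      rw [Real.log_div (Real.exp_pos _).ne' (by linarith), Real.log_exp])
  have hfsA : ∀ vs : Fin 3 → Pq, FS (sqc 1 (alL h ((List.ofFn vs ++
      []).map (Pt (π lam.1) lam.2)))) := by
    intro vs
    rw [← hal]
    exact FS_sqc_al hR (fun j => Pt_OK F.nat.hP lam.2 (vs j)) 1
  unfold mmT
  refine (M2_Mm_smul (uM_nonneg _ _ _) (uM_fin (Real.exp_pos _)) (hfsA _) (hfsA _)
    (osc (a.us 2).t (Real.log (nm (bt 0 * 1))) * osc (a.us 3).t (Real.log (nm (bt 1 * 1))))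
    (ph a) (-ph' a) (by rw [norm_mul, norm_osc, norm_osc, mul_one]) (hJW _ _ _)
    (Real.exp_pos ζ).le _ _ _ _).trans ?_
  rw [← o1, ← o2]
  refine (le_of_eq ?_).trans (h9.trans ?_)
  · unfold MmX
    rw [if_pos ⟨⟨⟨F.ok, F.nat.t0, fun i => ⟨hchi.lump i, hchi.z0 i⟩, hchi.am, hbt0⟩, by
      constructor
      · show 0 ≤ Real.log _ - dz a
        rw [← er0]; exact q0
      · show 0 ≤ Real.log _ + dz a
        rw [← er1]; exact q1⟩, hg, hgs, by
      rw [hζ]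
      have : 0 ≤ ∑ i, (ps i).z := sum_nonneg fun i _ => F.nat.z0 i
      nlinarith, fun ν hν => supp_qC hR F.nat.hP (by
        have hQ' : ∑ i, (qC ps (x := fun _ => 1) hγ h1p z₁ σ i).z =
            ∑ i : Fin m, z₁ (.inl i) := rfl
        rw [hQ', hζ]
        nlinarith) ν hν⟩]
    rfl
  · unfold WO
    rw [mul_assoc]
    refine mul_le_mul (Real.rpow_le_rpow_of_exponent_le F.nat.X1.le (by linarith)) ?_
      (Real.exp_pos _).le (by positivity)
    have h9 := sumz_leX F.sd1 hγ hb h1p one_mem_Tu one_mem_Tu hz1n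
    rw [hV, hQ, sf_g hγ hb hg, ← mul_assoc, sub_eq_add_neg, Real.exp_add]
    exact mul_le_mul_of_nonneg_right h9 (Real.exp_pos _).le

end

end Crest.Agent.R017.P1X960
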