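import Crest.Agent.R017.P1Xb_960

/-!
# Row 17, exceptional class, P1X, part 12 (helper960): the mismatch of a child

* `hmD` : the mismatch moment of a difference, the four lengths of the pair `≥ 0`
* `hmX` : the mismatch of a child
-/

set_option autoImplicit false

noncomputable section

open Finset
open scoped ComplexConjugate

namespace Crest.Agent.R017.P1X960

open Crest.Agent.R012 Crest.Agent.R012.Eis
open Crest.Agent.R012.Mob705 hiding pb mem_pb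
open Crest.Agent.R012.LS2 (S mem_S)
open Crest.Agent.R017.CM106 Crest.Agent.R017.C70
open Crest.Agent.R017.FE47 (PU cx SM)
open Crest.Agent.R017.StD828 (ln Tm)
open Crest.Agent.R017.E2440 (TE StE Bth Bth_nonneg)
open Crest.Agent.R017.E3A164 (SteT)
open Crest.Agent.R017.E5k54 (PT alb)
open Crest.Agent.R017.SSb54 (SST SSb PTb mem_PTb PTb_sub)
open Crest.Agent.R017.P1e54 Crest.Agent.R017.P1f54 Crest.Agent.R017.P1i54 Crest.Agent.R017.P1j54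
open Crest.Agent.R017.P1k54 Crest.Agent.R017.P1o54
open Crest.Agent.R017.P1l54 (chP chP_lump Pt_OK fam fam_OK mod_ne reY_chS al_fam ParOK oN alb_eq)
open Crest.Agent.R017.P1n54 (tlen tlen_nonneg Chi)
open Crest.Agent.R017.P1p54
open Crest.Agent.R017.P1q54 (sqc_zero Er_zero M2_Er_zero Mm_zero_left Mm_zero_right Mm_zero_of
  SepE SepM WO Siz YT_le nO_le YT_nonneg exp_l_le l_nonneg us_le Y3_le sumz_le)
open Crest.Agent.R017.P1r54 (one_mem_Tu sf_g g_le Yo)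
open Crest.Agent.R017.HP842 (Pc pc al alL cv Tu mem_Tu sqc Th)
open Crest.Agent.R017.B770 Crest.Agent.R017.Prov71
open Crest.Agent.R017.XG702 (Pcs Good_mono)
open Crest.Agent.R017.XT71 (Sys Win mx mx_le le_mx)
open Crest.Agent.R017.UM71
open Crest.Agent.R017.E5B71 Crest.Agent.R017.E5P571 Crest.Agent.R017.E5L770
open Crest.Agent.R017.ExP960 Crest.Agent.R017.Sf770
open Crest.Agent.R017.E5LX770 (nB)
open Crest.Agent.R017.HBsB445 (prod_ch1 prod_chS sf_pos)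

attribute [local irreducible] HP842.Tu

section

variable {Λ : Type*} {π : Λ → DPar} {h : ℝ → ℝ} {e0 : ℝ} {Rf : Λ → ℝ} {lam : Λ × Eis}
  {β c : ℝ} {p : IX5 → ℝ} {X δ δ₁ ρ ρ₁ B R c₀ H Hw M Cs ε₁ : ℝ} {N : ℕ} {a : BdX}
  {m : ℕ} {ps : Fin m → Pq} {γ x : Fin m → Eis} {bt y : Fin 3 → Eis} {g : Eis}
  {Par : Set (Fin 3 ⊕ Fin 5 → ℝ)} {L0 : (Fin 3 ⊕ Fin 5 → ℝ) → ℝ} {P : DPar} {t₀ : Eis}

set_option maxHeartbeats 1000000 in
/-- **the mismatch moment of a difference**, the four lengths of the pair `≥ 0` -/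
theorem hmD (hc₀ : 0 < c₀) (hR : ∀ u, cx h u ≠ 0 → |u| ≤ R) (hH : ∀ u, ‖cx h u‖ ≤ H)
    (hHw : ∀ u, ‖((FE47.hD u : ℝ) : ℂ)‖ ≤ Hw) (hM : 0 ≤ M) (hsep : SepMX h c₀ R M Cs)
    (hCs : 1 ≤ Cs) (F : FrX (π lam.1) lam.2 β p X δ ρ B R N a ps)
    (hS : Siz X H Hw e0 (Rf lam.1) R)
    (hρ : 2 * X ^ ρ ≤ X ^ ρ₁) (hρ0 : 0 ≤ ρ) (hρ1 : ρ ≤ ρ₁) (hδ₁ : 800 * δ ≤ δ₁) (hB : 0 ≤ B)
    (hMρ : 101 * ((N : ℝ) + 3 + 1) ≤ ρ * M) (hL0 : 0 ≤ L0 (prX p)) (hε₁ : 0 ≤ ε₁)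
    (hPar : prX p ∈ Par) (hc0 : 0 ≤ c) (hc1 : c ≤ 1)
    (H9 : In9X (MmX π h e0 c Rf lam) c β Par DifL L0 X δ₁ ρ₁ (B + 2) ε₁ N)
    (hγ : ∀ i, IsPrim (γ i)) (hb : ∀ i, IsPrim (bt i)) (hg : IsPrim g) (hgs : Squarefree g)
    (hb0 : bw bt ≤ bfO a.l (a3 a.toBd) a.z)
    (hb1 : 2 * bw bt ≤ tO a.toBd + 2 * (c * a.l)) {ζ : ℝ}
    (hζ : ζ = ∑ i, (ps i).z + 3 * R * m)
    (p0 : 0 ≤ Real.log (yO (π lam.1) lam.2 a ps γ bt (.inr 0)).Y)
    (p1 : 0 ≤ Real.log (yO (π lam.1) lam.2 a ps γ bt (.inr 1)).Y)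
    (q0 : 0 ≤ Real.log (yR (π lam.1) lam.2 a ps γ bt (.inr 0)).Y)
    (q1 : 0 ≤ Real.log (yR (π lam.1) lam.2 a ps γ bt (.inr 1)).Y) :
    mmT e0 (Rf lam.1) a ζ (nW c a.toBd (bw bt)) g
      (sqc 1 (al h fun i => yO (π lam.1) lam.2 a ps γ bt (.inl i)))
      (cmb (ph a) (-ph' a) (sqc 1 (al h fun j => yO (π lam.1) lam.2 a ps γ bt (.inr j)))
        (sqc 1 (al h fun j => yR (π lam.1) lam.2 a ps γ bt (.inr j)))) ≤
      Cs ^ (N + 3) * WO L0 (prX p) X δ ε₁ R N a.toBd ps * sf γ bt g := by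
  have hX1 := F.nat.X1.le
  have hX0 : 0 < X := by linarith [F.nat.X1]
  have hR0 := F.nat.R0
  have hsf : 0 < sf γ bt g := sf_pos hγ hb hg
  have hWpos : 0 < WO L0 (prX p) X δ ε₁ R N a.toBd ps := WO_pos F.nat.X1
  have h1p : IsPrim (1 : Eis) := isPrim_one
  have hOK1 : ∀ i, (yO (π lam.1) lam.2 a ps γ bt i).OK :=
    chS_OK (fam_OK (π lam.1) lam.2 F.nat.hP ps (vsO a.toBd)) hγ (fun _ => h1p) hb
      (fun _ => h1p) 1
  have hOK2 : ∀ i, (yR (π lam.1) lam.2 a ps γ bt i).OK :=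
    chS_OK (fam_OK (π lam.1) lam.2 F.nat.hP ps (vsO (repA a))) hγ (fun _ => h1p) hb
      (fun _ => h1p) 1
  have hZ0 : 0 ≤ Real.exp ζ := (Real.exp_pos _).le
  have hT : 0 ≤ Cs ^ (N + 3) * WO L0 (prX p) X δ ε₁ R N a.toBd ps * sf γ bt g := by positivity
  have ereq := rst_eqY (P := π lam.1) (t₀ := lam.2) (a := a) (ps := ps) (γ := γ) (bt := bt)
  by_cases hlow : ∀ i, -R ≤ Real.log (rst (yO (π lam.1) lam.2 a ps γ bt) i).Y
  swap
  · refine (mmT_zero (fun k => ?_) _).le.trans hT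
    push Not at hlow
    obtain ⟨i, hi⟩ := hlow
    have hi2 : Real.log (rst (yR (π lam.1) lam.2 a ps γ bt) i).Y < -R := by
      rw [ereq]; exact hi
    rcases i with i | j
    · rw [sqc_zero hR (s := fun i => yO (π lam.1) lam.2 a ps γ bt (.inl i)) (fun i => hOK1 _)
        (i := i) hi, Mm_zero_left]
    · rw [sqc_zero hR (s := fun i => yO (π lam.1) lam.2 a ps γ bt (.inr i)) (fun i => hOK1 _)
        (i := 2) hi, sqc_zero hR (s := fun i => yR (π lam.1) lam.2 a ps γ bt (.inr i))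
        (fun i => hOK2 _) (i := 2) hi2, cmb_zero, Mm_zero_right (hJW _ _ _) hZ0]
  have hlow1 : ∀ i, -R ≤ Real.log (yO (π lam.1) lam.2 a ps γ bt i).Y := by
    intro i
    rcases i with i | i
    · exact hlow (.inl i)
    · fin_cases i
      · exact le_trans (by linarith) p0
      · exact le_trans (by linarith) p1
      · exact hlow (.inr ())
  by_cases hgl : Real.log (nm g) ≤
      ∑ i : Fin m, Real.log (yO (π lam.1) lam.2 a ps γ bt (.inl i)).Y + R * m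
  swap
  · refine (mmT_zero (fun k => ?_) _).le.trans hT
    refine Mm_zero_of (fun b => ?_) k
    by_contra hne
    exact hgl (g_le hR (fun i => hOK1 (.inl i)) hg hne)
  have hone := one_leM (L0 := L0) (ε₁ := ε₁) F F.sd1 hL0 hε₁ hγ hb hg hlow1 hgl
  have e1 : yO (π lam.1) lam.2 a ps γ bt =
    jn (rst (yO (π lam.1) lam.2 a ps γ bt)) (pr2 (yO (π lam.1) lam.2 a ps γ bt)) :=
    (jn_rst _).symm
  have e2 : yR (π lam.1) lam.2 a ps γ bt =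
    jn (rst (yO (π lam.1) lam.2 a ps γ bt)) (pr2 (yR (π lam.1) lam.2 a ps γ bt)) := by
    rw [← ereq]; exact (jn_rst _).symm
  have hrOK : ∀ i, (rst (yO (π lam.1) lam.2 a ps γ bt) i).OK := by
    intro i
    rcases i with i | i
    · exact hOK1 (.inl i)
    · exact hOK1 (.inr 2)
  have key := hsep (Fin m) (rst (yO (π lam.1) lam.2 a ps γ bt))
    (pr2 (yO (π lam.1) lam.2 a ps γ bt)) (pr2 (yR (π lam.1) lam.2 a ps γ bt)) hrOK
    (fun i => hOK1 _) (fun i => hOK2 _) (ph a) (-ph' a) (Real.exp (e0 * a.l))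
    (Real.exp ζ) hZ0 (JW (Real.sqrt (2 ^ nO a.toBd) * Real.exp ζ) (1 / 10)
      (2 ^ nO a.toBd * Real.exp ζ ^ 2)) (hJW _ _ _) (oN (nW c a.toBd (bw bt))) g
    (uM (Rf lam.1) (Real.exp a.l) (Real.exp (a.l / 20))) (uM_nonneg _ _ _)
    (uM_fin (Real.exp_pos _)) (WO L0 (prX p) X δ ε₁ R N a.toBd ps * sf γ bt g) (by positivity)
    (fun n τ hn => by
      refine split_h (T₀ := X ^ ρ) (A := X ^ (101 * (N + 3 + 1))) hM (by positivity)
        (by positivity) ((pow_big hX1 hM hMρ).trans (le_mul_of_one_le_left (by positivity) hone))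
        (F := fun τ => mmT e0 (Rf lam.1) a ζ (nW c a.toBd (bw bt)) g
          (sqc 1 (al h fun i => reY (rst (yO (π lam.1) lam.2 a ps γ bt))
            (fun i => Real.exp (c₀ * n i))
            (fun i => (rst (yO (π lam.1) lam.2 a ps γ bt) i).t + τ i) (.inl i)))
          (cmb (ph a) (-ph' a)
            (sqc 1 (al h fun j => jn (reY (rst (yO (π lam.1) lam.2 a ps γ bt))
              (fun i => Real.exp (c₀ * n i))
              (fun i => (rst (yO (π lam.1) lam.2 a ps γ bt) i).t + τ i))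
              (pr2 (yO (π lam.1) lam.2 a ps γ bt)) (.inr j)))
            (sqc 1 (al h fun j => jn (reY (rst (yO (π lam.1) lam.2 a ps γ bt))
              (fun i => Real.exp (c₀ * n i))
              (fun i => (rst (yO (π lam.1) lam.2 a ps γ bt) i).t + τ i))
              (pr2 (yR (π lam.1) lam.2 a ps γ bt)) (.inr j))))) ?_ ?_ τ
      · intro τ hτ
        exact hmD_small hc₀ hR F hρ hρ0 hρ1 hδ₁ hB hPar hc0 hc1 H9 hγ hb hg hgs hb0 hb1 hζ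
          p0 p1 q0 q1 hlow1 hgl hn hτ
      · intro τ
        have eJ1 := jn_reY (yO (π lam.1) lam.2 a ps γ bt) (fun i => (hOK1 i).Y0)
          (fun i => c₀ * n i) τ
        have eJ2 := jn_reY (yR (π lam.1) lam.2 a ps γ bt) (fun i => (hOK2 i).Y0)
          (fun i => c₀ * n i) τ
        rw [rst_eqY] at eJ2
        have hz : ∀ (s : Fin m ⊕ Fin 3 → Pc), (∀ i, |c₀ * n i - Real.log (rst s i).Y| ≤ 2 * R) →
            ∀ i, |jn (fun i => c₀ * n i) ![Real.log (s (.inr 0)).Y, Real.log (s (.inr 1)).Y] i -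
              Real.log (s i).Y| ≤ 2 * R := by
          intro s hs i
          rcases i with i | i
          · exact hs (.inl i)
          · fin_cases i
            · show |Real.log (s (.inr 0)).Y - Real.log (s (.inr 0)).Y| ≤ 2 * R
              rw [sub_self, abs_zero]; linarith
            · show |Real.log (s (.inr 1)).Y - Real.log (s (.inr 1)).Y| ≤ 2 * R
              rw [sub_self, abs_zero]; linarith
            · exact hs (.inr ())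
        have b1 := hmS_large (c := c) (g := g) hR hH hHw F F.sd1 hS hγ hb hζ (bw bt)
          (t := fun i => (yO (π lam.1) lam.2 a ps γ bt i).t + jn τ ![0, 0] i) (hz _ hn)
        have b2 := hmS_large (c := c) (g := g) hR hH hHw F F.sd2 hS hγ hb hζ (bw bt)
          (t := fun i => (yR (π lam.1) lam.2 a ps γ bt i).t + jn τ ![0, 0] i)
          (hz _ (by rw [rst_eqY]; exact hn))
        rw [← eJ1] at b1
        rw [← eJ2] at b2
        have hrY : ∀ i, (reY (rst (yO (π lam.1) lam.2 a ps γ bt))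
            (fun i => Real.exp (c₀ * n i))
            (fun i => (rst (yO (π lam.1) lam.2 a ps γ bt) i).t + τ i) i).OK :=
          reY_OK hrOK fun i => Real.exp_pos _
        unfold mmT at b1 b2 ⊢
        refine (M2_Mm_cmb_le (uM_nonneg _ _ _) (uM_fin (Real.exp_pos _))
          (FS_sqc_al hR (fun j => jn_OK hrY (fun i => hOK1 _) (.inr j)) 1)
          (FS_sqc_al hR (fun j => jn_OK hrY (fun i => hOK2 _) (.inr j)) 1) (norm_ph a)
          (by rw [norm_neg]; exact norm_ph' a) (hJW _ _ _) hZ0 _ _ _ _).trans ?_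
        refine le_trans ?_ (four_big (N := N) hS.c)
        exact mul_le_mul_of_nonneg_left (add_le_add b1 b2) (by norm_num))
  have e5 : (fun i => rst (yO (π lam.1) lam.2 a ps γ bt) (.inl i)) =
    fun i => yO (π lam.1) lam.2 a ps γ bt (.inl i) := rfl
  rw [← e1, ← e2, e5] at key
  refine key.trans ?_
  rw [← mul_assoc]
  refine mul_le_mul_of_nonneg_right (mul_le_mul_of_nonneg_right ?_ hWpos.le) hsf.le
  refine pow_le_pow_right₀ hCs ?_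
  rw [Fintype.card_sum, Fintype.card_fin, Fintype.card_unit]
  have := F.nat.len
  omega

/-- **the mismatch moment of a child, families** -/
theorem hmF (hc₀ : 0 < c₀) (hR : ∀ u, cx h u ≠ 0 → |u| ≤ R) (hH : ∀ u, ‖cx h u‖ ≤ H)
    (hHw : ∀ u, ‖((FE47.hD u : ℝ) : ℂ)‖ ≤ Hw) (hM : 0 ≤ M) (hsep : SepM h c₀ R M Cs)
    (hsepX : SepMX h c₀ R M Cs)
    (hCs : 1 ≤ Cs) (F : FrX (π lam.1) lam.2 β p X δ ρ B R N a ps)
    (hS : Siz X H Hw e0 (Rf lam.1) R)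
    (hρ : 2 * X ^ ρ ≤ X ^ ρ₁) (hρ0 : 0 ≤ ρ) (hρ1 : ρ ≤ ρ₁) (hδ₁ : 800 * δ ≤ δ₁) (hB : 0 ≤ B)
    (hMρ : 101 * ((N : ℝ) + 3 + 1) ≤ ρ * M) (hL0 : 0 ≤ L0 (prX p)) (hε₁ : 0 ≤ ε₁)
    (hPar : prX p ∈ Par) (hc0 : 0 ≤ c) (hc1 : c ≤ 1)
    (H9 : In9X (MmX π h e0 c Rf lam) c β Par DifL L0 X δ₁ ρ₁ (B + 2) ε₁ N)
    (H9S : In9X (MmS π h e0 c Rf lam) c β Par (SinL β) L0 X δ₁ ρ₁ (B + 2) ε₁ N)
    (hγ : ∀ i, IsPrim (γ i)) (hb : ∀ i, IsPrim (bt i)) (hg : IsPrim g) (hgs : Squarefree g)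
    (hb0 : bw bt ≤ bfO a.l (a3 a.toBd) a.z)
    (hb1 : 2 * bw bt ≤ tO a.toBd + 2 * (c * a.l)) {ζ : ℝ}
    (hζ : ζ = ∑ i, (ps i).z + 3 * R * m) :
    mmT e0 (Rf lam.1) a ζ (nW c a.toBd (bw bt)) g
      (sqc 1 (al h fun i => yO (π lam.1) lam.2 a ps γ bt (.inl i)))
      (cmb (ph a) (-ph' a) (sqc 1 (al h fun j => yO (π lam.1) lam.2 a ps γ bt (.inr j)))
        (sqc 1 (al h fun j => yR (π lam.1) lam.2 a ps γ bt (.inr j)))) ≤
      4 * (Cs ^ (N + 3) * WO L0 (prX p) X δ ε₁ R N a.toBd ps * sf γ bt g) := by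
  have hsf : 0 < sf γ bt g := sf_pos hγ hb hg
  have hWpos : 0 < WO L0 (prX p) X δ ε₁ R N a.toBd ps := WO_pos F.nat.X1
  have hT : 0 ≤ Cs ^ (N + 3) * WO L0 (prX p) X δ ε₁ R N a.toBd ps * sf γ bt g := by positivity
  have h1p : IsPrim (1 : Eis) := isPrim_one
  have hZ0 : 0 ≤ Real.exp ζ := (Real.exp_pos _).le
  by_cases hpair : 0 ≤ Real.log (yO (π lam.1) lam.2 a ps γ bt (.inr 0)).Y ∧
      0 ≤ Real.log (yO (π lam.1) lam.2 a ps γ bt (.inr 1)).Y ∧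
      0 ≤ Real.log (yR (π lam.1) lam.2 a ps γ bt (.inr 0)).Y ∧
      0 ≤ Real.log (yR (π lam.1) lam.2 a ps γ bt (.inr 1)).Y
  · obtain ⟨p0, p1, q0, q1⟩ := hpair
    refine (hmD hc₀ hR hH hHw hM hsepX hCs F hS hρ hρ0 hρ1 hδ₁ hB hMρ hL0 hε₁ hPar hc0 hc1 H9
      hγ hb hg hgs hb0 hb1 hζ p0 p1 q0 q1).trans (by linarith)
  · have hlost := lost_of F hb h1p one_mem_Tu hpair
    rw [nm_one, Nat.cast_one, Real.log_one, add_zero] at hlost
    have k1 := hmS hc₀ hR hH hHw hM hsep hCs F F.sd1 hS hρ hρ0 hρ1 hδ₁ hB hMρ hL0 hε₁ hPar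
      hc0 hc1 H9S hγ hb hg hgs hb0 hb1 hlost hζ
    have k2 := hmS hc₀ hR hH hHw hM hsep hCs F F.sd2 hS hρ hρ0 hρ1 hδ₁ hB hMρ hL0 hε₁ hPar
      hc0 hc1 H9S hγ hb hg hgs hb0 hb1 hlost hζ
    have hOK1 : ∀ i, (yO (π lam.1) lam.2 a ps γ bt i).OK :=
      chS_OK (fam_OK (π lam.1) lam.2 F.nat.hP ps (vsO a.toBd)) hγ (fun _ => h1p) hb
        (fun _ => h1p) 1
    have hOK2 : ∀ i, (yR (π lam.1) lam.2 a ps γ bt i).OK :=
      chS_OK (fam_OK (π lam.1) lam.2 F.nat.hP ps (vsO (repA a))) hγ (fun _ => h1p) hb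
        (fun _ => h1p) 1
    have e5 : (fun i => Yo (π lam.1) lam.2 (repA a) ps γ bt (.inl i)) =
      fun i => yO (π lam.1) lam.2 a ps γ bt (.inl i) := rfl
    rw [e5] at k2
    unfold mmT at k1 k2 ⊢
    refine (M2_Mm_cmb_le (uM_nonneg _ _ _) (uM_fin (Real.exp_pos _))
      (FS_sqc_al hR (fun j => hOK1 (.inr j)) 1) (FS_sqc_al hR (fun j => hOK2 (.inr j)) 1)
      (norm_ph a) (by rw [norm_neg]; exact norm_ph' a) (hJW _ _ _) hZ0 _ _ _ _).trans ?_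
    refine (mul_le_mul_of_nonneg_left (add_le_add k1 k2) (by norm_num)).trans (le_of_eq ?_)
    ring

end

/-! ### the sequences of the product -/

lemma k1_sim {ι : Type*} [Fintype ι] {s₁ s₂ : ι → Pc} (hu : ∀ i, (s₁ i).u = (s₂ i).u)
    (hψ : ∀ i, (s₁ i).ψ = (s₂ i).ψ) (ht : ∀ i, (s₁ i).t = (s₂ i).t) (γ x : ι → Eis) (g : Eis) :
    k1 s₁ γ x g = k1 s₂ γ x g := by
  unfold k1
  split_ifs
  · exact prod_congr rfl fun i _ => sc'_sim (hu i) (hψ i) (ht i) _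
  · rfl

/-- **the mismatch of two sides** -/
theorem M2_MmX_alb {ι κ : Type*} [Fintype ι] [DecidableEq ι] [Fintype κ] [DecidableEq κ]
    {h : ℝ → ℝ} {R : ℝ} (hR : ∀ u, cx h u ≠ 0 → |u| ≤ R) {s : ι → Pc} {s₁ s₂ : κ → Pc}
    (hs : ∀ i, (s i).OK) (hs₁ : ∀ i, (s₁ i).OK) (hs₂ : ∀ i, (s₂ i).OK)
    (hu : ∀ i, (s₁ i).u = (s₂ i).u) (hψ : ∀ i, (s₁ i).ψ = (s₂ i).ψ)
    (ht : ∀ i, (s₁ i).t = (s₂ i).t) {γ : ι → Eis} {β : κ → Eis}
    (hγ : ∀ i, IsPrim (γ i)) (hβ : ∀ i, IsPrim (β i)) {u : Eis → ℝ} (h0 : ∀ k, 0 ≤ u k)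
    (hu' : (Function.support u).Finite) {JJ : Finset (Eis × Eis)} (hJ : ∀ x ∈ JJ, x.1 ≠ 0)
    {E0 Z : ℝ} (hZ : 0 ≤ Z) (z w : ℂ) (o : Eis → ℂ) (g : Eis) :
    M2 u (SteT JJ (fun _ => 1) (E0 * Z) (TmX z w E0 Z o (alb (fun i => pc h (s i)) γ)
      (alb (fun j => pc h (s₁ j)) β) (alb (fun j => pc h (s₂ j)) β) g)) ≤
      M2 u (Mm JJ E0 Z o g (sqc 1 (al h (ch1 s γ (fun _ => 1) 1)))
        (cmb z w (sqc 1 (al h (ch1 s₁ β (fun _ => 1) 1)))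
          (sqc 1 (al h (ch1 s₂ β (fun _ => 1) 1))))) := by
  classical
  have hOK₁ := ch1_OK hs₁ hβ (x := fun _ => 1) (fun _ => isPrim_one) 1
  have hOK₂ := ch1_OK hs₂ hβ (x := fun _ => 1) (fun _ => isPrim_one) 1
  have hf₁ : FS (sqc 1 (al h (ch1 s₁ β (fun _ => 1) 1))) := FS_sqc_al hR hOK₁ 1
  have hf₂ : FS (sqc 1 (al h (ch1 s₂ β (fun _ => 1) 1))) := FS_sqc_al hR hOK₂ 1
  set κ₁ := k1 s₁ β (fun _ => 1) 1 with hκ₁
  set κ₀ := k1 s γ (fun _ => 1) 1 with hκ₀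
  have a1 : alb (fun j => pc h (s₁ j)) β = κ₁ • sqc 1 (al h (ch1 s₁ β (fun _ => 1) 1)) :=
    alb_eq hs₁ hβ
  have a2 : alb (fun j => pc h (s₂ j)) β = κ₁ • sqc 1 (al h (ch1 s₂ β (fun _ => 1) 1)) := by
    rw [hκ₁, k1_sim hu hψ ht]
    exact alb_eq hs₂ hβ
  have a0 : alb (fun i => pc h (s i)) γ = κ₀ • sqc 1 (al h (ch1 s γ (fun _ => 1) 1)) :=
    alb_eq hs hγ
  rw [a1, a2, a0]
  refine M2_mono h0 hu' fun k => ?_
  rw [Mm_TmX (StC828.FS_smul hf₁ _) (StC828.FS_smul hf₂ _) z w hJ hZ]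
  have e0 : cmb z w (κ₁ • sqc 1 (al h (ch1 s₁ β (fun _ => 1) 1)))
      (κ₁ • sqc 1 (al h (ch1 s₂ β (fun _ => 1) 1))) =
      κ₁ • cmb z w (sqc 1 (al h (ch1 s₁ β (fun _ => 1) 1)))
        (sqc 1 (al h (ch1 s₂ β (fun _ => 1) 1))) := by
    unfold cmb
    rw [smul_add, smul_comm z, smul_comm w]
  rw [e0]
  have e1 := Mm_sum_left ({()} : Finset Unit) (fun _ => κ₀)
    (fun _ => sqc 1 (al h (ch1 s γ (fun _ => 1) 1))) JJ E0 Z o g
    (κ₁ • cmb z w (sqc 1 (al h (ch1 s₁ β (fun _ => 1) 1)))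
        (sqc 1 (al h (ch1 s₂ β (fun _ => 1) 1)))) k
  have e2 := Mm_sum_right ({()} : Finset Unit) (fun _ => κ₁)
    (fun _ => cmb z w (sqc 1 (al h (ch1 s₁ β (fun _ => 1) 1)))
        (sqc 1 (al h (ch1 s₂ β (fun _ => 1) 1)))) (fun _ _ => FS_cmb hf₁ hf₂ z w) hJ hZ E0 o g
    (sqc 1 (al h (ch1 s γ (fun _ => 1) 1))) k
  simp only [sum_singleton] at e1 e2
  rw [e1, e2, norm_mul, norm_mul]
  have h1 : ‖κ₀‖ ≤ 1 := norm_k1_le hs hγ (x := fun _ => 1) (fun _ => isPrim_one) 1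
  have h2 : ‖κ₁‖ ≤ 1 := norm_k1_le hs₁ hβ (x := fun _ => 1) (fun _ => isPrim_one) 1
  rw [← mul_assoc]
  exact mul_le_of_le_one_left (norm_nonneg _) (mul_le_one₀ h1 (norm_nonneg _) h2)

end Crest.Agent.R017.P1X960
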