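import Crest.Agent.R017.P1Xc_960
import Crest.Agent.R017.P1t_54

/-!
# Row 17, exceptional class, P1X, part 13 (helper960): one datum

* `at_SfX` : the official structured function as two sums with own windows
* `errX_le_M2` : `ErrX` by the second moment
* `errX_m` : the bound for one datum
-/

set_option autoImplicit false

noncomputable section

open Finset
open scoped ComplexConjugate

namespace Crest.Agent.R017.P1X960

open Crest.Agent.R012 Crest.Agent.R012.Eis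
open Crest.Agent.R012.Mob705 hiding pb mem_pb
open Crest.Agent.R012.LS2 (S mem_S)
open Crest.Agent.R017.CM106 Crest.Agent.R017.C70
open Crest.Agent.R017.FE47 (PU cx SM)
open Crest.Agent.R017.StD828 (ln Tm)
open Crest.Agent.R017.E2440 (TE StE Bth Bth_nonneg)
open Crest.Agent.R017.E3A164 (SteT)
open Crest.Agent.R017.E5k54 (PT alb)
open Crest.Agent.R017.SSb54 (SST SSb PTb mem_PTb PTb_sub)
open Crest.Agent.R017.P1e54 Crest.Agent.R017.P1f54 Crest.Agent.R017.P1h54
open Crest.Agent.R017.P1i54 Crest.Agent.R017.P1j54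
open Crest.Agent.R017.P1k54 Crest.Agent.R017.P1o54
open Crest.Agent.R017.P1l54 (chP chP_lump Pt_OK fam fam_OK mod_ne reY_chS al_fam ParOK oN alb_eq)
open Crest.Agent.R017.P1n54 (tlen tlen_nonneg Chi)
open Crest.Agent.R017.P1p54
open Crest.Agent.R017.P1q54 (sqc_zero Er_zero M2_Er_zero Mm_zero_left Mm_zero_right Mm_zero_of
  SepE SepM WO Siz YT_le nO_le YT_nonneg exp_l_le l_nonneg us_le Y3_le sumz_le)
open Crest.Agent.R017.P1r54 (one_mem_Tu sf_g g_le Yo)
open Crest.Agent.R017.P1s54 (Yr oN_supp supp_fam prod_fam prod_l cube_eq)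
open Crest.Agent.R017.HP842 (Pc pc al alL cv Tu mem_Tu sqc Th)
open Crest.Agent.R017.B770 Crest.Agent.R017.Prov71
open Crest.Agent.R017.XG702 (Pcs Good_mono)
open Crest.Agent.R017.XT71 (Sys Win mx mx_le le_mx)
open Crest.Agent.R017.UM71
open Crest.Agent.R017.E5P571 (PB mem_PB PC)
open Crest.Agent.R017.E5B71 Crest.Agent.R017.E5L770
open Crest.Agent.R017.ExP960 Crest.Agent.R017.Sf770
open Crest.Agent.R017.E5LX770 (nB SfEO at_SfEO)
open Crest.Agent.R017.HBsB445 (prod_ch1 prod_chS sf_pos child_hb)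

attribute [local irreducible] HP842.Tu

section

variable {Λ : Type*} {π : Λ → DPar} {h : ℝ → ℝ} {e0 r : ℝ} {Rf : Λ → ℝ} {lam : Λ × Eis}
  {β c : ℝ} {p : IX5 → ℝ} {X δ δ₁ ρ ρ₁ B R c₀ H Hw M Cs ε₁ : ℝ} {N : ℕ} {a : BdX}
  {m : ℕ} {ps : Fin m → Pq}
  {Par : Set (Fin 3 ⊕ Fin 5 → ℝ)} {L0 : (Fin 3 ⊕ Fin 5 → ℝ) → ℝ} {P : DPar} {t₀ : Eis}

/-- the own windows -/
def oX (c : ℝ) (a : BdX) (bt : Fin 3 → Eis) : Eis → ℂ := oN (nW c a.toBd (bw bt))

/-- the cut of the powerful tuples -/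
def BX0 (c : ℝ) (a : BdX) : ℝ :=
  min (bfO a.l (a3 a.toBd) a.z) ((tO a.toBd + 2 * (c * a.l)) / 2)

/-- the powerful tuples -/
def TX (r c : ℝ) (a : BdX) : Finset (Fin 3 → Eis) :=
  PTb (Fin 3) (Yr r a.toBd) (Real.exp (BX0 c a))

/-- the natural and the replaced family -/
abbrev sN (P : DPar) (t₀ : Eis) (a : BdX) (ps : Fin m → Pq) : Fin m ⊕ Fin 3 → Pc :=
  fam P t₀ ps (vsO a.toBd)

abbrev sR (P : DPar) (t₀ : Eis) (a : BdX) (ps : Fin m → Pq) : Fin m ⊕ Fin 3 → Pc :=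
  fam P t₀ ps (vsO (repA a))

lemma sim_NR : Sim (sN P t₀ a ps) (sR P t₀ a ps) := by
  refine ⟨fun _ => rfl, fun i => ?_, fun i => ?_, fun i => ?_⟩ <;>
  · rcases i with i | i
    · rfl
    · fin_cases i <;> rfl

lemma mem_TX {bt : Fin 3 → Eis} : bt ∈ TX r c a ↔ bt ∈ PT (Fin 3) (Yr r a.toBd) ∧
    bw bt ≤ bfO a.l (a3 a.toBd) a.z ∧ 2 * bw bt ≤ tO a.toBd + 2 * (c * a.l) := by
  unfold TX BX0
  rw [mem_PTb]
  refine and_congr_right fun hb => ?_
  have h0 : (0 : ℝ) < nm (∏ j, bt j) := by linarith [nmP (mem_PT hb)]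
  rw [← Real.log_le_iff_le_exp h0, le_min_iff]
  refine and_congr_right fun _ => ?_
  unfold bw
  constructor <;> intro h <;> linarith

lemma StE_om0 (E0 : ℝ) (J : Finset (Eis × Eis)) (α : Eis → ℂ) (k : Eis) :
    StE E0 J (omP 0) α k = 0 := by
  unfold StE omP
  simp

/-- **the official structured function**, two sums with own windows -/
theorem at_SfX (ha : a.ok) {k : Eis} (hk : ¬ ∃ w : Eis, k = w ^ 3) :
    SFX.at (SfEO π h e0 r c) lam a k = (pC : ℂ) *
      (ph a * SSo (TX r c a) (fun j => pc h (sN (π lam.1) lam.2 a ps (.inr j)))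
          (Real.exp (e0 * a.l)) (JS (nO a.toBd)) (fun b x => oX c a b (ln x)) k -
        ph' a * SSo (TX r c a) (fun j => pc h (sR (π lam.1) lam.2 a ps (.inr j)))
          (Real.exp (e0 * a.l)) (JS (nO a.toBd)) (fun b x => oX c a b (ln x)) k) := by
  classical
  rw [at_SfEO π h e0 r c lam ha k, if_neg hk]
  congr 1
  have hY : ⌊Real.exp (a3 a.toBd + r)⌋₊ = Yr r a.toBd := by
    unfold Yr; rw [sum_nat]
  rw [hY]
  have key : ∀ f : Fin 3 → Eis → ℂ,
      ∑ b ∈ PTb (Fin 3) (Yr r a.toBd) (Real.exp (a3 a.toBd + a.z - a.l / 2)),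
        sy k (∏ i, b i) * StE (Real.exp (e0 * a.l)) (JS (nO a.toBd))
          (omP (min (nO a.toBd) (nB (tO a.toBd + 2 * (c * a.l)) (nm (∏ i, b i)))))
          (alb f b) k =
      SSo (TX r c a) f (Real.exp (e0 * a.l)) (JS (nO a.toBd)) (fun b x => oX c a b (ln x)) k := by
    intro f
    have hsub : TX r c a ⊆ PTb (Fin 3) (Yr r a.toBd) (Real.exp (a3 a.toBd + a.z - a.l / 2)) := by
      intro b hb
      have hb' := hb
      rw [mem_TX] at hb'
      rw [mem_PTb]
      have h0 : (0 : ℝ) < nm (∏ j, b j) := by linarith [nmP (mem_PT hb'.1)]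
      exact ⟨hb'.1, (Real.log_le_iff_le_exp h0).1 hb'.2.1⟩
    rw [← Finset.sum_subset hsub]
    · unfold SSo
      refine sum_congr rfl fun b hb => ?_
      have hb' := (mem_TX.1 hb).1
      have e1 : (fun x => oX c a b (ln x)) =
          omP (min (nO a.toBd) (nB (tO a.toBd + 2 * (c * a.l)) (nm (∏ i, b i)))) := by
        unfold oX nW
        rw [exp_bw (mem_PT hb')]
        rfl
      show _ = sy k (∏ i, b i) * StE _ _ (fun x => oX c a b (ln x)) _ k
      rw [e1]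
    · intro b hb hb2
      rw [mem_PTb] at hb
      have h0 : (0 : ℝ) < nm (∏ j, b j) := by linarith [nmP (mem_PT hb.1)]
      have h1 : ¬ 2 * Real.log (nm (∏ j, b j)) ≤ tO a.toBd + 2 * (c * a.l) := fun h =>
        hb2 (mem_TX.2 ⟨hb.1, (Real.log_le_iff_le_exp h0).2 hb.2, h⟩)
      have h2 : nB (tO a.toBd + 2 * (c * a.l)) (nm (∏ i, b i)) = 0 := by
        unfold nB
        rw [if_neg h1]
      rw [h2, Nat.min_zero, StE_om0, mul_zero]
  have e1 : (fun j => pc h (sN (π lam.1) lam.2 a ps (.inr j))) =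
      fun i : Fin 3 => pc h (Pt (π lam.1) lam.2 (u3 a i)) := by
    funext j
    show pc h (Pt (π lam.1) lam.2 (vsO a.toBd j)) = _
    rw [vsO_nat]
  have e2 : (fun j => pc h (sR (π lam.1) lam.2 a ps (.inr j))) =
      fun i : Fin 3 => pc h (Pt (π lam.1) lam.2 (u3' a i)) := by
    funext j
    show pc h (Pt (π lam.1) lam.2 (vsO (repA a) j)) = _
    rw [vsO_rep]
  rw [e1, e2, ← key, ← key, mul_sum, mul_sum, ← sum_sub_distrib]
  refine sum_congr rfl fun b _ => ?_
  ring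

/-- the amplified error as a function of `k` -/
def FX (π : Λ → DPar) (h : ℝ → ℝ) (e0 r c : ℝ) (lam : Λ × Eis) (a : BdX) (ps : Fin m → Pq)
    (k : Eis) : ℂ :=
  (∏ i, CS (pc h (sN (π lam.1) lam.2 a ps (.inl i))) k) *
    (ph a * (∏ j, CS (pc h (sN (π lam.1) lam.2 a ps (.inr j))) k -
        (pC : ℂ) * SSo (TX r c a) (fun j => pc h (sN (π lam.1) lam.2 a ps (.inr j)))
          (Real.exp (e0 * a.l)) (JS (nO a.toBd)) (fun b x => oX c a b (ln x)) k) +
      -ph' a * (∏ j, CS (pc h (sR (π lam.1) lam.2 a ps (.inr j))) k -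
        (pC : ℂ) * SSo (TX r c a) (fun j => pc h (sR (π lam.1) lam.2 a ps (.inr j)))
          (Real.exp (e0 * a.l)) (JS (nO a.toBd)) (fun b x => oX c a b (ln x)) k))

open Classical in
/-- **`ErrX` by the second moment** -/
theorem errX_le_M2 {R : Λ → ℝ} {q₁ : List Pq} (hl : R lam.1 + 3 * (a.l / 20) < a.l) :
    ErrX π h (SfEO π h e0 r c) R lam a q₁ ≤
      M2 (uM (R lam.1) (Real.exp a.l) (Real.exp (a.l / 20)))
        (FX π h e0 r c lam a fun i => q₁.get i) := by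
  unfold ErrX
  split_ifs with hif
  swap
  · exact M2_nonneg (uM_nonneg _ _ _) _
  refine le_trans (le_of_eq ?_) (sum_le_M2 (Real.exp_pos a.l) (T := (PB (π lam.1).n
    ⌊Real.exp (a.l + R lam.1)⌋₊).filter (fun k => cutE (Real.exp (a.l / 20)) k ∧
      Real.exp (a.l - R lam.1) ≤ nm k)) (fun k hk => ?_) _)
  · refine sum_congr rfl fun k hk => ?_
    rw [mem_filter, mem_PB] at hk
    obtain ⟨⟨h1, h2, -⟩, h3, h4⟩ := hk
    have hnc : ¬ ∃ w : Eis, k = w ^ 3 := by
      rintro ⟨w, hw⟩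
      have h5 := cube_nm h2 hw h3
      rw [← Real.exp_nat_mul] at h5
      have h6 := Real.exp_le_exp.1 (h4.trans h5)
      push_cast at h6
      linarith
    unfold FX
    rw [norm_mul, mul_pow, mul_comm]
    have e1 : PC h (q₁.map (Pt (π lam.1) lam.2)) k =
        ∏ i, CS (pc h (sN (π lam.1) lam.2 a (fun i => q₁.get i) (.inl i))) k := by
      unfold PC
      rw [List.map_map]
      conv_lhs => rw [← List.ofFn_get q₁]
      rw [List.map_ofFn, List.prod_ofFn]
      rfl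
    have e2 : AX h (π lam.1) lam.2 a k - SFX.at (SfEO π h e0 r c) lam a k =
        ph a * (∏ j, CS (pc h (sN (π lam.1) lam.2 a (fun i => q₁.get i) (.inr j))) k -
        (pC : ℂ) * SSo (TX r c a)
          (fun j => pc h (sN (π lam.1) lam.2 a (fun i => q₁.get i) (.inr j)))
          (Real.exp (e0 * a.l)) (JS (nO a.toBd)) (fun b x => oX c a b (ln x)) k) +
      -ph' a * (∏ j, CS (pc h (sR (π lam.1) lam.2 a (fun i => q₁.get i) (.inr j))) k -
        (pC : ℂ) * SSo (TX r c a)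
          (fun j => pc h (sR (π lam.1) lam.2 a (fun i => q₁.get i) (.inr j)))
          (Real.exp (e0 * a.l)) (JS (nO a.toBd)) (fun b x => oX c a b (ln x)) k) := by
      rw [at_SfX (ps := fun i => q₁.get i) hif.1 hnc, AX_eq]
      have g1 : ∏ j, CS (pc h (sN (π lam.1) lam.2 a (fun i => q₁.get i) (.inr j))) k =
          ∏ j, CS (pc h (Pt (π lam.1) lam.2 (u3 a j))) k :=
        prod_congr rfl fun j _ => by
          show CS (pc h (Pt (π lam.1) lam.2 (vsO a.toBd j))) k = _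
          rw [vsO_nat]
      have g2 : ∏ j, CS (pc h (sR (π lam.1) lam.2 a (fun i => q₁.get i) (.inr j))) k =
          ∏ j, CS (pc h (Pt (π lam.1) lam.2 (u3' a j))) k :=
        prod_congr rfl fun j _ => by
          show CS (pc h (Pt (π lam.1) lam.2 (vsO (repA a) j))) k = _
          rw [vsO_rep]
      rw [g1, g2]
      ring
    rw [e1, e2]
  · rw [mem_filter, mem_PB] at hk
    obtain ⟨⟨h1, h2, -⟩, h3, h4⟩ := hk
    refine ⟨h2, h3, ?_, ?_⟩
    · rw [← Real.exp_add, neg_add_eq_sub]; exact h4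
    · have h5 := (Nat.le_floor_iff (Real.exp_pos _).le).1 h1
      rwa [Real.exp_add, mul_comm] at h5

/-! ### sizes -/

/-- the excess of the large sieve -/
def muX (p : Fin 3 ⊕ Fin 5 → ℝ) : ℝ := max 0 (5 / 4 * cN p - cκ p)

/-- the bound of the children with `β ∉ T` -/
def WHX (p : Fin 3 ⊕ Fin 5 → ℝ) (X δ Rl R : ℝ) (a : Bd) {m : ℕ} (ps : Fin m → Pq) : ℝ :=
  X ^ (muX p + 20 * δ) * (2 * Real.exp Rl * Real.exp a.l) *
    Real.exp (∑ i, (ps i).z + ∑ j, (vsO a j).z + R * (m + 3))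

lemma BX0_choice (c : ℝ) (a : BdX) (hc : 0 ≤ c) (hl : 0 ≤ a.l) :
    BX0 c a = a3 a.toBd + a.z - a.l / 2 ∨
      (2 * a3 a.toBd - a.l) / 2 + a.z ≤ BX0 c a ∨ 3 / 8 * a3 a.toBd + a.z ≤ BX0 c a ∨ a.z < 0 := by
  by_cases hz : a.z < 0
  · exact Or.inr (Or.inr (Or.inr hz))
  push Not at hz
  unfold BX0
  have hcl : 0 ≤ c * a.l := mul_nonneg hc hl
  rcases min_choice (bfO a.l (a3 a.toBd) a.z) ((tO a.toBd + 2 * (c * a.l)) / 2) with h | h
  · left
    rw [h]; rfl
  · right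
    rw [h]
    unfold tO
    rcases min_choice (2 * a3 a.toBd - a.l) (3 / 4 * a3 a.toBd) with h' | h'
    · left
      rw [h']
      linarith
    · right; left
      rw [h']
      linarith

/-- the large sieve is sharp enough -/
lemma hb_num (F : FrX P t₀ β p X δ ρ B R N a ps) (hc : 0 ≤ c) {Rl : ℝ} (hRl : 0 ≤ Rl) :
    (Real.exp (∑ i, (ps i).z + ∑ j, (vsO a.toBd j).z + R * (m + 3)) /
      Real.exp (BX0 c a)) ^ 2 ≤
      X ^ (muX (prX p) + 20 * δ) * (2 * Real.exp Rl * Real.exp a.l) := by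
  have hL := F.nat.L0
  have hX0 : 0 < X := by linarith [F.nat.X1]
  have hR0 := F.nat.R0
  have hd0 := F.nat.d0
  have hmR : 0 ≤ (m : ℝ) * R := by positivity
  have hδL : 0 ≤ δ * Real.log X := mul_nonneg hd0 hL.le
  have htot := abs_le.1 F.nat.tot
  have haz := abs_le.1 F.nat.az
  have hlz := abs_le.1 F.nat.lz
  have ha3 := abs_le.1 F.a3b
  have hRm := F.nat.Rm'
  have h3 : Real.exp a.l ≤ 2 * Real.exp Rl * Real.exp a.l :=
    le_mul_of_one_le_left (Real.exp_pos _).le (by linarith [Real.one_le_exp hRl])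
  refine le_trans ?_ (mul_le_mul_of_nonneg_left h3 (by positivity))
  rw [Real.rpow_def_of_pos hX0, ← Real.exp_sub, ← Real.exp_nat_mul, ← Real.exp_add, sum_nat]
  refine Real.exp_le_exp.2 ?_
  push_cast
  have m0 : 0 ≤ muX (prX p) * Real.log X := mul_nonneg (le_max_left _ _) hL.le
  have m1 : (5 / 4 * cN (prX p) - cκ (prX p)) * Real.log X ≤ muX (prX p) * Real.log X :=
    mul_le_mul_of_nonneg_right (le_max_right _ _) hL.le
  rcases BX0_choice c a hc (l_nonneg (π := fun _ : Unit => P) (lam := ((), t₀)) F.nat) with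
    h | h | h | h
  · nlinarith
  · nlinarith
  · nlinarith
  · exact absurd F.ok.base.2.1 (not_le.2 h)

end

end Crest.Agent.R017.P1X960
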