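import Crest.Agent.R017.P1Xd_960

/-!
# Row 17, exceptional class, P1X, part 14 (helper960): the bound for one datum

* `errX_m` : the bound for one datum
-/

set_option autoImplicit false

noncomputable section

open Finset
open scoped ComplexConjugate

namespace Crest.Agent.R017.P1X960

open Crest.Agent.R012 Crest.Agent.R012.Eis
open Crest.Agent.R012.Mob705 hiding pb mem_pb
open Crest.Agent.R012.LS2 (S mem_S)
open Crest.Agent.R017.CM106 Crest.Agent.R017.C70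
open Crest.Agent.R017.FE47 (PU cx SM)
open Crest.Agent.R017.StD828 (ln Tm)
open Crest.Agent.R017.E2440 (TE StE Bth Bth_nonneg)
open Crest.Agent.R017.E3A164 (SteT)
open Crest.Agent.R017.E5k54 (PT alb)
open Crest.Agent.R017.SSb54 (SST SSb PTb mem_PTb PTb_sub)
open Crest.Agent.R017.P1e54 Crest.Agent.R017.P1f54 Crest.Agent.R017.P1h54
open Crest.Agent.R017.P1i54 Crest.Agent.R017.P1j54
open Crest.Agent.R017.P1k54 Crest.Agent.R017.P1o54
open Crest.Agent.R017.P1l54 (chP chP_lump Pt_OK fam fam_OK mod_ne reY_chS al_fam ParOK oN alb_eq)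
open Crest.Agent.R017.P1n54 (tlen tlen_nonneg Chi)
open Crest.Agent.R017.P1p54
open Crest.Agent.R017.P1q54 (sqc_zero Er_zero M2_Er_zero Mm_zero_left Mm_zero_right Mm_zero_of
  SepE SepM WO Siz YT_le nO_le YT_nonneg exp_l_le l_nonneg us_le Y3_le sumz_le)
open Crest.Agent.R017.P1r54 (one_mem_Tu sf_g g_le Yo)
open Crest.Agent.R017.P1s54 (Yr oN_supp supp_fam prod_fam prod_l cube_eq)
open Crest.Agent.R017.HP842 (Pc pc al alL cv Tu mem_Tu sqc Th)
open Crest.Agent.R017.B770 Crest.Agent.R017.Prov71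
open Crest.Agent.R017.XG702 (Pcs Good_mono)
open Crest.Agent.R017.XT71 (Sys Win mx mx_le le_mx)
open Crest.Agent.R017.UM71
open Crest.Agent.R017.E5P571 (PB mem_PB PC)
open Crest.Agent.R017.E5B71 Crest.Agent.R017.E5L770
open Crest.Agent.R017.ExP960 Crest.Agent.R017.Sf770
open Crest.Agent.R017.E5LX770 (nB SfEO at_SfEO)
open Crest.Agent.R017.HBsB445 (prod_ch1 prod_chS sf_pos child_hb)

attribute [local irreducible] HP842.Tu

lemma Yr_rep {r : ℝ} {a : BdX} (ha : a.ok) : Yr r (repA a) = Yr r a.toBd := by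
  unfold Yr
  rw [sum_rep ha, sum_nat]

lemma oX_supp {c : ℝ} {a : BdX} {bt : Fin 3 → Eis} {z : Eis} (hz : oX c a bt z ≠ 0) :
    (nm z : ℝ) ≤ 2 ^ nO a.toBd := by
  unfold oX at hz
  refine (oN_supp hz).trans (pow_le_pow_right₀ one_le_two ?_)
  unfold nW
  exact min_le_left _ _

set_option maxHeartbeats 4000000 in
/-- **the bound for one datum** -/
theorem errX_m (m : ℕ) {ε' : ℝ} (hε' : 0 < ε') (H : ℝ) : ∃ C : ℝ, 0 ≤ C ∧
    ∀ {c₀ R Hw M Cs r X δ δ₁ ρ ρ₁ B ε₁ e0 c β : ℝ} {N : ℕ} {Λ : Type*} {π : Λ → DPar}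
      {h : ℝ → ℝ} {Rf : Λ → ℝ} {lam : Λ × Eis} {a : BdX} {p : IX5 → ℝ}
      {Par : Set (Fin 3 ⊕ Fin 5 → ℝ)} {L0 : (Fin 3 ⊕ Fin 5 → ℝ) → ℝ},
      0 < c₀ → (∀ u, cx h u ≠ 0 → |u| ≤ R) → (∀ u, ‖cx h u‖ ≤ H) →
      (∀ u, ‖((FE47.hD u : ℝ) : ℂ)‖ ≤ Hw) → 0 ≤ M → SepE h c₀ R M Cs → SepM h c₀ R M Cs →
      SepEX h c₀ R M Cs → SepMX h c₀ R M Cs → 1 ≤ Cs →
      R ≤ r → r ≤ Real.log X → 0 ≤ Rf lam.1 → Siz X H Hw e0 (Rf lam.1) R →
      2 * X ^ ρ ≤ X ^ ρ₁ → 0 ≤ ρ → ρ ≤ ρ₁ → 800 * δ ≤ δ₁ → 0 ≤ B →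
      101 * ((N : ℝ) + 3 + 1) ≤ ρ * M → 0 ≤ L0 (prX p) → 0 ≤ ε₁ → prX p ∈ Par →
      0 ≤ c → c ≤ 1 →
      In8X (ErX π h e0 c Rf lam) c β Par DifL L0 X δ₁ ρ₁ (B + 2) ε₁ N →
      In8X (ErS π h e0 c Rf lam) c β Par (SinL β) L0 X δ₁ ρ₁ (B + 2) ε₁ N →
      In9X (MmX π h e0 c Rf lam) c β Par DifL L0 X δ₁ ρ₁ (B + 2) ε₁ N →
      In9X (MmS π h e0 c Rf lam) c β Par (SinL β) L0 X δ₁ ρ₁ (B + 2) ε₁ N →
      Rf lam.1 + 3 * (a.l / 20) < a.l →
      ∀ (q₁ : List Pq), q₁.length = m →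
      FrX (π lam.1) lam.2 β p X δ ρ B R N a (fun i => q₁.get i) →
      ErrX π h (SfEO π h e0 r c) Rf lam a q₁ ≤
        C * (X ^ 3) ^ ε' * ((1 + ‖(pC : ℂ)‖ ^ 2) *
          (4 * (Cs ^ (N + 3) * WO L0 (prX p) X δ ε₁ R N a.toBd (fun i => q₁.get i) +
            C * (X ^ 3) ^ ε' * WHX (prX p) X δ (Rf lam.1) R a.toBd (fun i => q₁.get i)))) := by
  obtain ⟨C1, hC1, key1⟩ := err_listX (Fin m) (Fin 3) hε'
  obtain ⟨C2, hC2, key2⟩ := child_hb (Fin m) (Fin 3) hε' H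
  refine ⟨max C1 C2, le_max_of_le_left hC1, ?_⟩
  intro c₀ R Hw M Cs r X δ δ₁ ρ ρ₁ B ε₁ e0 c β N Λ π h Rf lam a p Par L0 hc₀ hR hH hHw hM hsE hsM
    hsEX hsMX hCs hr hrX hRf hS hρ hρ0 hρ1 hδ₁ hB hMρ hL0 hε₁ hPar hc0 hc1 H8 H8S H9 H9S hl
    q₁ hq F
  subst hq
  have hL := F.nat.L0
  have hX0 : 0 < X := by linarith [F.nat.X1]
  have hX1 := F.nat.X1.le
  have hR0 := F.nat.R0
  have hd0 := F.nat.d0
  have hX3 : (1 : ℝ) ≤ X ^ 3 := one_le_pow₀ hX1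
  have hWpos : 0 < WO L0 (prX p) X δ ε₁ R N a.toBd (fun i => q₁.get i) := WO_pos F.nat.X1
  have hWH : 0 < WHX (prX p) X δ (Rf lam.1) R a.toBd (fun i => q₁.get i) := by
    unfold WHX; positivity
  -- sizes
  have htot := abs_le.1 F.nat.tot
  have haz := abs_le.1 F.nat.az
  have hlz := abs_le.1 F.nat.lz
  have hvs := abs_le.1 F.nat.vsum
  have hRm := F.nat.Rm'
  have hdL0 : 0 ≤ δ * Real.log X := mul_nonneg hd0 hL.le
  have hd1 := F.nat.d1
  have hmR : 0 ≤ (q₁.length : ℝ) * R := by positivity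
  have hdL : δ * Real.log X ≤ 1 / 240 * Real.log X :=
    mul_le_mul_of_nonneg_right (by linarith) hL.le
  have hxL : cx' (prX p) * Real.log X ≤ 1 / 3 * Real.log X :=
    mul_le_mul_of_nonneg_right F.nat.par.x1 hL.le
  have hNL : cN (prX p) * Real.log X ≤ 1 * Real.log X :=
    mul_le_mul_of_nonneg_right F.nat.par.N1 hL.le
  have hl0 : 0 ≤ a.l := l_nonneg F.nat
  refine (errX_le_M2 (π := π) (h := h) (e0 := e0) (r := r) (c := c) (q₁ := q₁) hl).trans ?_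
  set ζ : ℝ := ∑ i : Fin q₁.length, (q₁.get i).z + 3 * R * q₁.length with hζ
  have hZX : Real.exp ζ ≤ X ^ 3 := by
    rw [cube_eq hX0, hζ]
    exact Real.exp_le_exp.2 (by nlinarith)
  have hYX : ((Yr r a.toBd : ℕ) : ℝ) ≤ X ^ 3 := by
    unfold Yr
    refine (Nat.floor_le (Real.exp_pos _).le).trans ?_
    rw [cube_eq hX0]
    exact Real.exp_le_exp.2 (by nlinarith)
  have h2n : (0 : ℝ) ≤ 2 ^ nO a.toBd := by positivity
  set W1 := Cs ^ (N + 3) * WO L0 (prX p) X δ ε₁ R N a.toBd (fun i => q₁.get i) with hW1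
  set W2 := C2 * (X ^ 3) ^ ε' * WHX (prX p) X δ (Rf lam.1) R a.toBd (fun i => q₁.get i) with hW2
  have hW1p : 0 ≤ W1 := by rw [hW1]; positivity
  have hW2p : 0 ≤ W2 := by rw [hW2]; positivity
  have hBB : 0 ≤ 4 * (W1 + W2) := by positivity
  have hsubT : TX r c a ⊆ PT (Fin 3) (Yr r a.toBd) := PTb_sub _ _
  have hk1 : 1 ≤ 2 * Real.exp (Rf lam.1) * Real.exp a.l := by
    have h2 := Real.one_le_exp hl0
    have h3 := Real.one_le_exp hRf
    nlinarith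
  have hk2 : 2 * Real.exp (Rf lam.1) * Real.exp a.l ≤ X ^ 3 := by
    have h3 := exp_l_le F.nat le_rfl hl0
    rw [one_mul] at h3
    calc 2 * Real.exp (Rf lam.1) * Real.exp a.l ≤ X * X ^ 2 :=
          mul_le_mul hS.r h3 (Real.exp_pos _).le hX0.le
      _ = X ^ 3 := by ring
  have hk3 : Real.exp (∑ i : Fin q₁.length, (q₁.get i).z + ∑ j, (vsO a.toBd j).z +
      R * (q₁.length + 3)) ≤ X ^ 3 := by
    rw [cube_eq hX0]
    exact Real.exp_le_exp.2 (by nlinarith)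
  have hk4 : (1 : ℝ) ≤ X ^ (muX (prX p) + 20 * δ) :=
    Real.one_le_rpow hX1 (by have := le_max_left 0 (5 / 4 * cN (prX p) - cκ (prX p)); unfold muX; linarith)
  have hk5 := hb_num (ps := fun i => q₁.get i) F hc0 hRf
  have hrepN : Real.exp (∑ i : Fin q₁.length, (q₁.get i).z + ∑ j, (vsO (repA a) j).z +
      R * (q₁.length + 3)) = Real.exp (∑ i : Fin q₁.length, (q₁.get i).z +
      ∑ j, (vsO a.toBd j).z + R * (q₁.length + 3)) := by
    rw [sum_rep F.ok, sum_nat]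
  have k1 := key1 (X ^ 3) hX3 hR
    (s₁ := sN (π lam.1) lam.2 a (fun i => q₁.get i))
    (s₂ := sR (π lam.1) lam.2 a (fun i => q₁.get i))
    (fam_OK (π lam.1) lam.2 F.nat.hP _ (vsO a.toBd))
    (fam_OK (π lam.1) lam.2 F.nat.hP _ (vsO (repA a))) sim_NR hYX (Real.exp_pos ζ).le hZX
    (fun i b hb => supp_fam hR F.nat hr i b hb)
    (fun i b hb => by
      rw [← Yr_rep F.ok]
      exact supp_fam hR F.rep hr i b hb)
    ((le_of_eq (prod_l _ _ R _)).trans (Real.exp_le_exp.2 (by rw [hζ]; nlinarith)))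
    (D := Real.sqrt (2 ^ nO a.toBd)) (Y₀ := 1 / 10) (Y₁ := 2 ^ nO a.toBd)
    (D' := Real.sqrt (2 ^ nO a.toBd) * Real.exp ζ) (Y₀' := 1 / 10)
    (Y₁' := 2 ^ nO a.toBd * Real.exp ζ ^ 2)
    (Real.sqrt_nonneg _) (by norm_num) h2n (by rw [Real.sq_sqrt h2n]) (by positivity)
    (by norm_num) (by rw [mul_pow, Real.sq_sqrt h2n]) le_rfl
    (o := oX c a) (fun β z hz => oX_supp hz) (E0 := Real.exp (e0 * a.l)) (Real.exp_pos _).le
    (T := TX r c a) hsubT (ph a) (-ph' a) (pC : ℂ)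
    (u := uM (Rf lam.1) (Real.exp a.l) (Real.exp (a.l / 20)))
    (uM_nonneg _ _ _) (uM_fin (Real.exp_pos _)) hBB
    (by
      intro γ bt g hγ hβ hg x hx y hy
      obtain ⟨-, pg, -⟩ := (mem_S (Real.exp_pos ζ).le).1 hg
      obtain ⟨hβ1, hb0, hb1⟩ := mem_TX.1 hβ
      have h1 := hchX (L0 := L0) (ε₁ := ε₁) hc₀ hR hH hHw hM hsE hsEX hCs F hS hρ hρ0 hρ1 hδ₁ hB
        hMρ hL0 hε₁ hPar hc0 hc1 H8 H8S (mem_PT hγ) (mem_PT hβ1) pg hx hy hb0 hb1
      have hsf : 0 < sf γ bt g := sf_pos (mem_PT hγ) (mem_PT hβ1) pg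
      refine h1.trans ?_
      rw [← mul_assoc]
      exact mul_le_mul_of_nonneg_right (by linarith) hsf.le)
    (by
      intro γ bt g hγ hβ hβT hg x hx y hy
      obtain ⟨-, pg, -⟩ := (mem_S (Real.exp_pos ζ).le).1 hg
      have hxp : ∀ i, IsPrim (x i) := ((mem_Tu).1 hx).1
      have hyp : ∀ i, IsPrim (y i) := ((mem_Tu).1 hy).1
      have hsf : 0 < sf γ bt g := sf_pos (mem_PT hγ) (mem_PT hβ) pg
      have h1 := key2 (X ^ 3) hX3 (K := 2 * Real.exp (Rf lam.1) * Real.exp a.l)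
        (N := Real.exp (∑ i : Fin q₁.length, (q₁.get i).z + ∑ j, (vsO a.toBd j).z +
          R * (q₁.length + 3))) (U := 1)
        (B0 := Real.exp (BX0 c a)) (ρ := X ^ (muX (prX p) + 20 * δ)) hk1 hk2 hk3 hk4
        (Real.exp_pos _) hk5
        (u := uM (Rf lam.1) (Real.exp a.l) (Real.exp (a.l / 20)))
        (uM_nonneg _ _ _) (uM_le_one _ _ _)
        (fun k hk => ⟨(uM_supp (Real.exp_pos _) hk).1.ne_zero,
          (uM_supp (Real.exp_pos _) hk).2⟩) hR hH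
        (s := sN (π lam.1) lam.2 a (fun i => q₁.get i))
        (fam_OK (π lam.1) lam.2 F.nat.hP _ (vsO a.toBd)) (le_of_eq (prod_fam _ _ R _))
        (Y := Yr r a.toBd) (Real.exp_pos ζ).le γ bt g hγ hβ hβT hg x hx y hy
      have h2 := key2 (X ^ 3) hX3 (K := 2 * Real.exp (Rf lam.1) * Real.exp a.l)
        (N := Real.exp (∑ i : Fin q₁.length, (q₁.get i).z + ∑ j, (vsO a.toBd j).z +
          R * (q₁.length + 3))) (U := 1)
        (B0 := Real.exp (BX0 c a)) (ρ := X ^ (muX (prX p) + 20 * δ)) hk1 hk2 hk3 hk4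
        (Real.exp_pos _) hk5
        (u := uM (Rf lam.1) (Real.exp a.l) (Real.exp (a.l / 20)))
        (uM_nonneg _ _ _) (uM_le_one _ _ _)
        (fun k hk => ⟨(uM_supp (Real.exp_pos _) hk).1.ne_zero,
          (uM_supp (Real.exp_pos _) hk).2⟩) hR hH
        (s := sR (π lam.1) lam.2 a (fun i => q₁.get i))
        (fam_OK (π lam.1) lam.2 F.nat.hP _ (vsO (repA a)))
        ((le_of_eq (prod_fam _ _ R _)).trans hrepN.le)
        (Y := Yr r a.toBd) (Real.exp_pos ζ).le γ bt g hγ hβ hβT hg x hx y hy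
      have e1 : (fun k => CS (cX (ph a) (-ph' a) h (sN (π lam.1) lam.2 a (fun i => q₁.get i))
          (sR (π lam.1) lam.2 a (fun i => q₁.get i)) γ bt g x y) k) =
          fun k => ph a * CS (sqc 1 (al h (chS (sN (π lam.1) lam.2 a (fun i => q₁.get i))
            γ bt g x y))) k + -ph' a * CS (sqc 1 (al h (chS
            (sR (π lam.1) lam.2 a (fun i => q₁.get i)) γ bt g x y))) k := by
        funext k
        exact CS_cmb (FS_sqc_al hR (chS_OK (fam_OK (π lam.1) lam.2 F.nat.hP _ (vsO a.toBd))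
          (mem_PT hγ) hxp (mem_PT hβ) hyp g) 1)
          (FS_sqc_al hR (chS_OK (fam_OK (π lam.1) lam.2 F.nat.hP _ (vsO (repA a)))
          (mem_PT hγ) hxp (mem_PT hβ) hyp g) 1) _ _ k
      rw [e1]
      refine (M2_cmb_le (uM_nonneg _ _ _) (uM_fin (Real.exp_pos _)) _ _ (norm_ph a)
        (by rw [norm_neg]; exact norm_ph' a)).trans ?_
      have e2 : C2 * (X ^ 3) ^ ε' * (1 * (X ^ (muX (prX p) + 20 * δ) *
          (2 * Real.exp (Rf lam.1) * Real.exp a.l) *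
          Real.exp (∑ i : Fin q₁.length, (q₁.get i).z + ∑ j, (vsO a.toBd j).z +
          R * (q₁.length + 3)))) = W2 := by
        rw [hW2, one_mul]; rfl
      rw [e2] at h1 h2
      have h3 : 0 ≤ W1 * sf γ bt g := mul_nonneg hW1p hsf.le
      nlinarith [h1, h2, h3])
    (by
      intro γ bt g hγ hβ hg
      obtain ⟨-, pg, sg⟩ := (mem_S (Real.exp_pos ζ).le).1 hg
      obtain ⟨hβ1, hb0, hb1⟩ := mem_TX.1 hβ
      have hsf : 0 < sf γ bt g := sf_pos (mem_PT hγ) (mem_PT hβ1) pg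
      have h1 := hmF (L0 := L0) (ε₁ := ε₁) hc₀ hR hH hHw hM hsM hsMX hCs F hS hρ hρ0 hρ1 hδ₁ hB
        hMρ hL0 hε₁ hPar hc0 hc1 H9 H9S (mem_PT hγ) (mem_PT hβ1) pg sg hb0 hb1 hζ
      have hJ : ∀ z ∈ JW (Real.sqrt (2 ^ nO a.toBd) * Real.exp ζ) (1 / 10)
        (2 ^ nO a.toBd * Real.exp ζ ^ 2), z.1 ≠ 0 := fun z hz =>
        ((okJ_JW _ _ _).prim z hz).ne_zero
      have h2 := M2_MmX_alb hR
        (s := fun i => sN (π lam.1) lam.2 a (fun i => q₁.get i) (.inl i))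
        (s₁ := fun j => sN (π lam.1) lam.2 a (fun i => q₁.get i) (.inr j))
        (s₂ := fun j => sR (π lam.1) lam.2 a (fun i => q₁.get i) (.inr j))
        (fun i => fam_OK (π lam.1) lam.2 F.nat.hP _ (vsO a.toBd) _)
        (fun i => fam_OK (π lam.1) lam.2 F.nat.hP _ (vsO a.toBd) _)
        (fun i => fam_OK (π lam.1) lam.2 F.nat.hP _ (vsO (repA a)) _)
        (fun i => sim_NR.u _) (fun i => sim_NR.ψ _) (fun i => sim_NR.t _)
        (mem_PT hγ) (mem_PT hβ1)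
        (u := uM (Rf lam.1) (Real.exp a.l) (Real.exp (a.l / 20))) (uM_nonneg _ _ _)
        (uM_fin (Real.exp_pos _)) hJ (E0 := Real.exp (e0 * a.l)) (Real.exp_pos ζ).le
        (ph a) (-ph' a) (oX c a bt) g
      refine (h2.trans h1).trans ?_
      rw [← mul_assoc]
      exact mul_le_mul_of_nonneg_right (by linarith) hsf.le)
  refine k1.trans ?_
  have hX3' : 0 ≤ (X ^ 3) ^ ε' := by positivity
  have hm1 : C1 * (X ^ 3) ^ ε' ≤ max C1 C2 * (X ^ 3) ^ ε' :=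
    mul_le_mul_of_nonneg_right (le_max_left _ _) hX3'
  refine mul_le_mul hm1 (mul_le_mul_of_nonneg_left (mul_le_mul_of_nonneg_left
    (add_le_add_right ?_ _) (by norm_num)) (by positivity))
    (by positivity) (by positivity)
  exact mul_le_mul_of_nonneg_right (mul_le_mul_of_nonneg_right (le_max_right _ _) hX3') hWH.le

end Crest.Agent.R017.P1X960
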