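import Crest.Agent.R017.P1s_54

/-!
# Row 17, R8/P1 at list level, part 14 (helper54): **P1 from P1_0 and the mismatch**

* `P1g` : `P10` and `P1M` imply the error moment `P1` for the official structured function
-/

set_option autoImplicit false

noncomputable section

open Finset Filter
open scoped ComplexConjugate

namespace Crest.Agent.R017.P1g54

open Crest.Agent.R012 Crest.Agent.R012.Eis
open Crest.Agent.R012.Mob705 hiding pb mem_pb
open Crest.Agent.R012.LS2 (S mem_S)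
open Crest.Agent.R017.CM106 Crest.Agent.R017.C70
open Crest.Agent.R017.FE47 (PU cx SM)
open Crest.Agent.R017.StD828 (ln Tm)
open Crest.Agent.R017.E2440 (TE StE Bth Bth_nonneg)
open Crest.Agent.R017.E5k54 (PT alb)
open Crest.Agent.R017.SSb54 (SST SSb PTb mem_PTb PTb_sub)
open Crest.Agent.R017.P1e54 Crest.Agent.R017.P1f54 Crest.Agent.R017.P1h54
open Crest.Agent.R017.P1i54 Crest.Agent.R017.P1j54
open Crest.Agent.R017.P1k54 Crest.Agent.R017.P1l54 Crest.Agent.R017.P1n54 Crest.Agent.R017.P1o54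
open Crest.Agent.R017.P1p54 Crest.Agent.R017.P1q54 Crest.Agent.R017.P1r54 Crest.Agent.R017.P1s54
open Crest.Agent.R017.HP842 (Pc pc al alL cv Tu mem_Tu sqc Th)
open Crest.Agent.R017.B770 Crest.Agent.R017.Prov71
open Crest.Agent.R017.XG702 (Pcs Good_mono)
open Crest.Agent.R017.XT71 (Sys Win mx mx_le le_mx)
open Crest.Agent.R017.UM71
open Crest.Agent.R017.E5P571 (PB mem_PB PC)
open Crest.Agent.R017.E5B71 Crest.Agent.R017.E5L770

attribute [local irreducible] HP842.Tu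

section

variable {Λ : Type*} {π : Λ → DPar} {h : ℝ → ℝ} {e0 r : ℝ} {Rf : Λ → ℝ} {lam : Λ × Eis}
  {p : Fin 3 ⊕ Fin 5 → ℝ} {X δ δ₁ ρ ρ₁ B R c H Hw M Cs ε₁ : ℝ} {N : ℕ} {a : Bd}
  {Par : Set (Fin 3 ⊕ Fin 5 → ℝ)} {L0 : (Fin 3 ⊕ Fin 5 → ℝ) → ℝ}

/-! ### the inputs at smaller tolerances -/

lemma in8_of {δa ρa : ℝ} (hX : 1 ≤ X) (hδ : δ₁ ≤ δa) (hρ : ρ₁ ≤ ρa)
    (K : ∀ (a : Bc) (ps : List Pq), ps.length ≤ N →
      (∀ p ∈ ps, Dq.lump p ∨ Dq.nl X p ≤ δa) → ∀ q ∈ Dom8 Par, Win S8 q.1 δa N (B + 2) ρa X a →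
      (∀ t, |Dq.mass X ps t - q.2 t| ≤ δa) → Dq.Good X ρa (B + 2) ps →
      (∀ p ∈ ps, Dq.lump p → (S8.ev X a, Dq.nl X p) ∈
        (∅ : Set (((Fin 3 ⊕ Fin 5) ⊕ Fin 3 → ℝ) × ℝ))) →
      ErC π h e0 Rf lam a ps ≤ X ^ (E8 L0 q + ε₁)) :
    In8 π h e0 Rf lam Par L0 X δ₁ ρ₁ B ε₁ N := fun a ps h1 h2 q hq hw hm hg hl =>
  K a ps h1 (fun p hp => (h2 p hp).imp id fun h => h.trans hδ) q hq
    (hw.mono hX hδ le_rfl le_rfl hρ) (fun t => (hm t).trans hδ) (Good_mono hX hg hρ) hl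

lemma in9_of {δa ρa : ℝ} (hX : 1 ≤ X) (hδ : δ₁ ≤ δa) (hρ : ρ₁ ≤ ρa)
    (K : ∀ (a : Bm) (ps : List Pq), ps.length ≤ N →
      (∀ p ∈ ps, Dq.lump p ∨ Dq.nl X p ≤ δa) → ∀ q ∈ Dom9 Par, Win S9 q.1 δa N (B + 2) ρa X a →
      (∀ t, |Dq.mass X ps t - q.2 t| ≤ δa) → Dq.Good X ρa (B + 2) ps →
      (∀ p ∈ ps, Dq.lump p → (S9.ev X a, Dq.nl X p) ∈
        (∅ : Set ((((Fin 3 ⊕ Fin 5) ⊕ Fin 3) ⊕ Fin 2 → ℝ) × ℝ))) →
      MmC π h e0 Rf lam a ps ≤ X ^ (E9 L0 q + ε₁)) :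
    In9 π h e0 Rf lam Par L0 X δ₁ ρ₁ B ε₁ N := fun a ps h1 h2 q hq hw hm hg hl =>
  K a ps h1 (fun p hp => (h2 p hp).imp id fun h => h.trans hδ) q hq
    (hw.mono hX hδ le_rfl le_rfl hρ) (fun t => (hm t).trans hδ) (Good_mono hX hg hρ) hl

/-! ### the final exponent -/

lemma WO_le {m : ℕ} {ps : Fin m → Pq} (F : Fr (π lam.1) lam.2 p X δ ρ B R N a ps) {ε : ℝ}
    (hε₁ : ε₁ ≤ ε / 4) (hδ : 1205 * δ ≤ ε / 4) :
    WO L0 p X δ ε₁ R N a ps ≤ X ^ (cκ p + cN p + cx' p + L0 p + ε / 2) := by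
  have hL := F.L0
  have hX0 : 0 < X := by linarith [F.X1]
  have htot := abs_le.1 F.tot
  have hvs := abs_le.1 F.vsum
  have hRL := F.RL
  have hR0 := F.R0
  have hNR : 0 ≤ (N : ℝ) * R := by positivity
  unfold WO
  rw [Real.rpow_def_of_pos hX0, Real.rpow_def_of_pos hX0, ← Real.exp_add]
  refine Real.exp_le_exp.2 ?_
  have h1 : Real.log X * (ε₁ + 1205 * δ) ≤ Real.log X * (ε / 2) :=
    mul_le_mul_of_nonneg_left (by linarith) hL.le
  nlinarith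

lemma WH_le {m : ℕ} {ps : Fin m → Pq} (F : Fr (π lam.1) lam.2 p X δ ρ B R N a ps) {ε Rl : ℝ}
    (hL0 : 0 ≤ L0 p) (hδ : 1205 * δ ≤ ε / 4) :
    WH X δ Rl R a ps ≤ 2 * Real.exp Rl * X ^ (cκ p + cN p + cx' p + L0 p + ε / 2) := by
  have hL := F.L0
  have hX0 : 0 < X := by linarith [F.X1]
  have htot := abs_le.1 F.tot
  have hvs := abs_le.1 F.vsum
  have hlz := abs_le.1 F.lz
  have hRm := F.Rm'
  have hR0 := F.R0
  have hNR : 0 ≤ (m : ℝ) * R := by positivity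
  have hd0 := F.d0
  unfold WH
  have e1 : X ^ (5 * δ) * (2 * Real.exp Rl * Real.exp a.l) *
      Real.exp (∑ i, (ps i).z + ∑ j, (vsO a j).z + R * (m + 3)) =
      2 * Real.exp Rl * (X ^ (5 * δ) * Real.exp a.l *
      Real.exp (∑ i, (ps i).z + ∑ j, (vsO a j).z + R * (m + 3))) := by ring
  rw [e1]
  refine mul_le_mul_of_nonneg_left ?_ (by positivity)
  rw [Real.rpow_def_of_pos hX0, Real.rpow_def_of_pos hX0, ← Real.exp_add, ← Real.exp_add]
  refine Real.exp_le_exp.2 ?_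
  have h1 : Real.log X * (11 * δ) ≤ Real.log X * (L0 p + ε / 2) :=
    mul_le_mul_of_nonneg_left (by linarith) hL.le
  nlinarith

lemma final_num {m : ℕ} {ps : Fin m → Pq} (F : Fr (π lam.1) lam.2 p X δ ρ B R N a ps)
    {ε ε' Rl C C₀ P : ℝ} (hL0 : 0 ≤ L0 p) (hε₁ : ε₁ ≤ ε / 4) (hδ : 1205 * δ ≤ ε / 4)
    (hε' : 6 * ε' ≤ ε / 4) (hε0 : 0 ≤ ε') (hC : 0 ≤ C) (hC₀ : C ≤ C₀) (hP : 0 ≤ P) (hCs : 0 ≤ Cs)
    (hK : C₀ * P * (Cs ^ (N + 3) + C₀ * (2 * Real.exp Rl)) ≤ X ^ (ε / 4)) :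
    C * (X ^ 3) ^ ε' * (P * (Cs ^ (N + 3) * WO L0 p X δ ε₁ R N a ps +
      C * (X ^ 3) ^ ε' * WH X δ Rl R a ps)) ≤ X ^ (cκ p + cN p + cx' p + L0 p + ε) := by
  have hX0 : 0 < X := by linarith [F.X1]
  have hX1 := F.X1.le
  have hC0' : 0 ≤ C₀ := hC.trans hC₀
  have e1 : (X ^ 3) ^ ε' = X ^ (3 * ε') := by
    rw [← Real.rpow_natCast, ← Real.rpow_mul hX0.le]; norm_num
  rw [e1]
  set E := cκ p + cN p + cx' p + L0 p with hE
  have hY : 1 ≤ X ^ (3 * ε') := Real.one_le_rpow hX1 (by linarith)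
  have hY0 : 0 < X ^ (3 * ε') := by positivity
  have h1 := WO_le (L0 := L0) F hε₁ hδ
  have h2 := WH_le (L0 := L0) (Rl := Rl) F hL0 hδ
  have hW0 : 0 < X ^ (E + ε / 2) := by positivity
  have hWO : 0 < WO L0 p X δ ε₁ R N a ps := by unfold WO; positivity
  have hWH : 0 < WH X δ Rl R a ps := by unfold WH; positivity
  calc C * X ^ (3 * ε') * (P * (Cs ^ (N + 3) * WO L0 p X δ ε₁ R N a ps +
      C * X ^ (3 * ε') * WH X δ Rl R a ps)) ≤
      C₀ * X ^ (3 * ε') * (P * (Cs ^ (N + 3) * X ^ (E + ε / 2) * X ^ (3 * ε') +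
        C₀ * X ^ (3 * ε') * (2 * Real.exp Rl * X ^ (E + ε / 2)))) := by
        refine mul_le_mul (mul_le_mul_of_nonneg_right hC₀ hY0.le)
          (mul_le_mul_of_nonneg_left (add_le_add ?_ ?_) hP) (by positivity) (by positivity)
        · refine (mul_le_mul_of_nonneg_left h1 (by positivity)).trans ?_
          exact le_mul_of_one_le_right (by positivity) hY
        · exact mul_le_mul (mul_le_mul_of_nonneg_right hC₀ hY0.le) h2 hWH.le (by positivity)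
    _ = C₀ * P * (Cs ^ (N + 3) + C₀ * (2 * Real.exp Rl)) *
        (X ^ (3 * ε') * X ^ (3 * ε')) * X ^ (E + ε / 2) := by ring
    _ ≤ X ^ (ε / 4) * X ^ (ε / 4) * X ^ (E + ε / 2) := by
        refine mul_le_mul_of_nonneg_right (mul_le_mul hK ?_ (by positivity) (by positivity))
          hW0.le
        rw [← Real.rpow_add hX0]
        exact Real.rpow_le_rpow_of_exponent_le hX1 (by linarith)
    _ = X ^ (E + ε) := by
        rw [← Real.rpow_add hX0, ← Real.rpow_add hX0]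
        congr 1
        ring

/-! ### the frame -/

lemma mass_am_eq {X : ℝ} : ∀ {ps : List Pq}, (∀ q ∈ ps, q.kd = .am) →
    Dq.mass X ps .am = (ps.map fun q => q.z).sum / Real.log X := by
  intro ps
  induction ps with
  | nil => intro _; simp
  | cons q ps ih =>
    intro hq
    rw [Pcs.mass_cons, ih fun x hx => hq x (List.mem_cons_of_mem _ hx), Dq_kind,
      if_pos (hq q List.mem_cons_self), List.map_cons, List.sum_cons, add_div]
    rfl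

lemma frame_of (hX : 1 < X) (hP : (π lam.1).OK) (hok : a.ok) (ht : lam.2 ∈ SM (π lam.1).n)
    (hpar : ParOK p) {ps : List Pq} (hkd : ∀ q ∈ ps, q.kd = .am) (hlen : ps.length ≤ N)
    (hgr : ∀ q ∈ ps, Dq.lump q ∨ Dq.nl X q ≤ δ) (hw : Win S5 p δ N B ρ X a)
    (hm : |Dq.mass X ps .am - cx' p| ≤ δ) (hg : Dq.Good X ρ B ps) (hR : 0 ≤ R)
    (hRL : (20 * N + 40) * R ≤ δ * Real.log X) (hδ0 : 0 ≤ δ) (hδ1 : 240 * δ ≤ 1) :
    Fr (π lam.1) lam.2 p X δ ρ B R N a (fun i => ps.get i) := by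
  have hL : 0 < Real.log X := Real.log_pos hX
  have hmem : ∀ i : Fin ps.length, ps.get i ∈ ps := fun i => List.get_mem ps i
  refine ⟨hX, hP, hok, ht, hpar, fun i => hkd _ (hmem i), fun i => (hg _ (hmem i)).2.2,
    fun i => ?_, fun i => (hg _ (hmem i)).1, fun i => (hg _ (hmem i)).2.1, hlen, hw, ?_, hR, hRL,
    hδ0, hδ1⟩
  · rcases hgr _ (hmem i) with h1 | h1
    · have h2 := hkd _ (hmem i)
      rw [Dq_lump] at h1
      rw [h1.1] at h2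
      exact absurd h2 (by decide)
    · have h2 : (ps.get i).z / Real.log X ≤ δ := h1
      rwa [div_le_iff₀ hL] at h2
  · rw [mass_am_eq hkd] at hm
    have e1 : ∑ i, (ps.get i).z = (ps.map fun q => q.z).sum := by
      conv_rhs => rw [← List.ofFn_get ps]
      rw [List.map_ofFn, List.sum_ofFn]
      rfl
    have e2 : (ps.map fun q => q.z).sum - cx' p * Real.log X =
        ((ps.map fun q => q.z).sum / Real.log X - cx' p) * Real.log X := by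
      field_simp
    rw [e1, e2, abs_mul, abs_of_pos hL]
    exact mul_le_mul_of_nonneg_right hm hL.le

lemma exists_bd (hc : Continuous h) (hs : HasCompactSupport h) : ∃ H : ℝ, ∀ u, ‖cx h u‖ ≤ H := by
  obtain ⟨H, hH⟩ := hs.exists_bound_of_continuous hc
  refine ⟨H, fun u => ?_⟩
  unfold cx
  rw [Complex.norm_real]
  exact hH u

/-! ### the theorem -/

end

set_option maxHeartbeats 1000000 in
/-- **P1 from P1_0 and the mismatch** -/
theorem P1g {Λ : Type*} {π : Λ → DPar} (hπ : ∀ l, (π l).OK) {h : ℝ → ℝ} {c : ℝ} (hpu : PU h c)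
    {Rh : ℝ} (hRh0 : 0 ≤ Rh) (hRh : ∀ u, cx h u ≠ 0 → |u| ≤ Rh) {e0 r : ℝ} (he0 : 0 ≤ e0)
    (he1 : e0 ≤ 1) (hr : Rh ≤ r) {Par : Set (Fin 3 ⊕ Fin 5 → ℝ)}
    {L0 : (Fin 3 ⊕ Fin 5 → ℝ) → ℝ} (hPar : ∀ p ∈ Par, ParOK p) (hL0 : ∀ p ∈ Par, 0 ≤ L0 p)
    (h8 : P10 π h e0 Par L0) (h9 : P1M π h e0 Par L0) (R : Λ → ℝ) (hR : ∀ lam, 0 ≤ R lam) :
    UB S5 Dq (ErrF π h (SfP π h e0 r bfO Jo nL) R)
      {q | q.1 ∈ Par ∧ q.2 .mo = 0 ∧ q.2 .am = cx' q.1} al5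
      (fun q => cκ q.1 + cN q.1 + cx' q.1 + L0 q.1) := by
  intro ε hε
  obtain ⟨δa, hδa, K8⟩ := h8 R hR (ε / 4) (by positivity)
  obtain ⟨δb, hδb, K9⟩ := h9 R hR (ε / 4) (by positivity)
  set δ₁ := min δa δb with hδ₁
  have hδ₁0 : 0 < δ₁ := lt_min hδa hδb
  set δ := min (δ₁ / 320) (min (ε / 4820) (1 / 240)) with hδ
  have hδ0 : 0 < δ := lt_min (by positivity) (lt_min (by positivity) (by norm_num))
  have d1 : δ ≤ δ₁ / 320 := min_le_left _ _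
  have d2 : δ ≤ ε / 4820 := (min_le_right _ _).trans (min_le_left _ _)
  have d3 : δ ≤ 1 / 240 := (min_le_right _ _).trans (min_le_right _ _)
  refine ⟨δ, hδ0, fun lam N B => ?_⟩
  obtain ⟨ρa, hρa, Xa, hXa, K8'⟩ := K8 lam N (max B 0 + 2)
  obtain ⟨ρb, hρb, Xb, hXb, K9'⟩ := K9 lam N (max B 0 + 2)
  set ρ₁ := min ρa ρb with hρ₁
  have hρ₁0 : 0 < ρ₁ := lt_min hρa hρb
  have hρ0 : 0 < ρ₁ / 2 := by positivity
  -- constants
  set M : ℝ := 100 * ((N : ℝ) + 3 + 1) / (ρ₁ / 2) with hM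
  have hM0 : 0 ≤ M := by positivity
  obtain ⟨C3, hC3, hsE⟩ := er_sep hpu hRh0 hRh M
  obtain ⟨C4, hC4, hsM⟩ := mm_sep hpu hRh0 hRh M
  set Cs := max (max C3 C4) 1 with hCs
  have hCs1 : 1 ≤ Cs := le_max_right _ _
  have hsE' : SepE h c Rh M Cs := by
    intro J _ _ s hs a E0 W hW om u h0 hu B hB hyp
    refine (hsE J s hs a E0 W hW om u h0 hu B hB hyp).trans
      (mul_le_mul_of_nonneg_right (pow_le_pow_left₀ hC3 ?_ _) hB)
    exact (le_max_left _ _).trans (le_max_left _ _)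
  have hsM' : SepM h c Rh M Cs := by
    intro ι κ _ _ _ _ s hs E0 Z hZ W hW o g u h0 hu B hB hyp
    refine (hsM ι κ s hs E0 Z hZ W hW o g u h0 hu B hB hyp).trans
      (mul_le_mul_of_nonneg_right (pow_le_pow_left₀ hC4 ?_ _) hB)
    exact (le_max_right _ _).trans (le_max_left _ _)
  obtain ⟨H, hH⟩ := exists_bd hpu.cd.continuous hpu.cs
  obtain ⟨Hw, hHw⟩ := exists_bd FE47.contDiff_hD.continuous FE47.hasCompactSupport_hD
  have hHw' : ∀ u, ‖((FE47.hD u : ℝ) : ℂ)‖ ≤ Hw := hHw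
  have hε' : 0 < ε / 48 := by positivity
  choose Cf hCf key using fun m => errF_m.{_} m hε' H
  set C₀ : ℝ := ∑ m ∈ range (N + 1), Cf m with hC₀
  have hCle : ∀ m, m ≤ N → Cf m ≤ C₀ := fun m hm =>
    single_le_sum (f := Cf) (fun i _ => hCf i) (mem_range.2 (by omega))
  set K₀ : ℝ := C₀ * (1 + ‖(pC : ℂ)‖ ^ 2) * (Cs ^ (N + 3) + C₀ * (2 * Real.exp (R lam.1)))
    with hK₀
  -- large `X`
  have hlim : ∀ᶠ X : ℝ in atTop, (Xa ≤ X ∧ Xb ≤ X ∧ 200 ≤ X ∧ H ≤ X) ∧ (Bth ≤ X ∧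
      ‖(pC : ℂ)‖ ≤ X ∧ Hw ≤ X ∧ 2 * Real.exp (R lam.1) ≤ X) ∧
      (r ≤ Real.log X ∧ (20 * N + 40) * Rh / δ ≤ Real.log X ∧ 2 ≤ X ^ (ρ₁ / 2) ∧
        K₀ ≤ X ^ (ε / 4)) := by
    refine ((eventually_ge_atTop _).and ((eventually_ge_atTop _).and ((eventually_ge_atTop _).and
      (eventually_ge_atTop _)))).and (((eventually_ge_atTop _).and ((eventually_ge_atTop _).and
      ((eventually_ge_atTop _).and (eventually_ge_atTop _)))).and ?_)
    exact (Real.tendsto_log_atTop.eventually_ge_atTop _).and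
      ((Real.tendsto_log_atTop.eventually_ge_atTop _).and
      (((tendsto_rpow_atTop hρ0).eventually_ge_atTop _).and
      ((tendsto_rpow_atTop (by positivity)).eventually_ge_atTop _)))
  obtain ⟨X₀, hX₀⟩ := eventually_atTop.1 hlim
  refine ⟨ρ₁ / 2, hρ0, max X₀ 2, lt_of_lt_of_le (by norm_num) (le_max_right _ _), ?_⟩
  intro X hX a ps hlen hgr q hq hw hm hg _
  obtain ⟨⟨x1, x2, x3, x4⟩, ⟨x5, x6, x7, x8⟩, x9, x10, x11, x12⟩ :=
    hX₀ X ((le_max_left _ _).trans hX)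
  have hX1 : 1 < X := by linarith
  have hX0 : 0 < X := by linarith
  have hL : 0 < Real.log X := Real.log_pos hX1
  obtain ⟨hq1, hq2, hq3⟩ := hq
  by_cases hif : a.ok ∧ lam.2 ∈ SM (π lam.1).n ∧ ∀ p ∈ ps, p.kd = .am
  swap
  · unfold ErrF
    rw [if_neg hif]
    positivity
  obtain ⟨hok, ht, hkd⟩ := hif
  have hpar := hPar q.1 hq1
  have hm' := hm .am
  rw [hq3] at hm'
  have F : Fr (π lam.1) lam.2 q.1 X δ (ρ₁ / 2) (max B 0) Rh N a (fun i => ps.get i) :=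
    frame_of hX1 (hπ _) hok ht hpar hkd hlen hgr
      (hw.mono hX1.le le_rfl le_rfl (le_max_left _ _) le_rfl) hm'
      (fun p hp => ⟨(hg p hp).1, (hg p hp).2.1.trans
        (Real.rpow_le_rpow_of_exponent_le hX1.le (le_max_left _ _)), (hg p hp).2.2⟩) hRh0
      (by rwa [div_le_iff₀ hδ0, mul_comm (Real.log X)] at x10) hδ0.le (by linarith)
  have hS : Siz X H Hw e0 (R lam.1) Rh :=
    { c := x3, h := x4, b := x5, p := x6, w := x7, r := x8, e := he0, e1 := he1 }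
  have hbound := key ps.length (c := c) (R := Rh) (Hw := Hw) (M := M) (Cs := Cs) (r := r) (X := X)
    (δ := δ) (δ₁ := δ₁) (ρ := ρ₁ / 2) (ρ₁ := ρ₁) (B := max B 0) (ε₁ := ε / 4) (e0 := e0) (N := N)
    (π := π) (h := h) (Rf := R) (lam := lam) (a := a) (p := q.1) (Par := Par) (L0 := L0)
    hpu.cpos hRh hH hHw' hM0 hsE' hsM' hCs1 hr x9 (hR _) hS
    (by
      have e1 : X ^ ρ₁ = X ^ (ρ₁ / 2) * X ^ (ρ₁ / 2) := by
        rw [← Real.rpow_add hX0]; congr 1; ring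
      rw [e1]
      exact mul_le_mul_of_nonneg_right x11 (by positivity)) hρ0.le (by linarith)
    (by linarith) (le_max_right _ _) (by rw [hM]; field_simp; exact le_rfl) (hL0 _ hq1)
    (by positivity) hq1
    (in8_of hX1.le (min_le_left _ _) (min_le_left _ _) (K8' X x1))
    (in9_of hX1.le (min_le_right _ _) (min_le_right _ _) (K9' X x2)) ps rfl F
  refine hbound.trans ?_
  exact final_num (C₀ := C₀) F (hL0 _ hq1) le_rfl (by linarith) (by linarith) hε'.le (hCf _)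
    (hCle _ hlen) (by positivity) (by linarith) x12

end Crest.Agent.R017.P1g54
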