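import Crest.Agent.R017.P1i_54

/-!
# Row 17, R8/P1 at list level, part 5 (helper54): trivial bounds

* `Bs X A α` : `α` is supported on primary `n` with `N n ≤ X`, `|α| ≤ A`
* `norm_CS_le`, `norm_TE_le`, `norm_StE_le`, `norm_SteT_le`
* `Bs_sqc` : the sequence of a family
* `M2_le` : second moments from a pointwise bound
-/

set_option autoImplicit false

noncomputable section

open Finset
open scoped ComplexConjugate

namespace Crest.Agent.R017.P1j54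

open Crest.Agent.R012 Crest.Agent.R012.Eis Crest.Agent.R012.Div277
open Crest.Agent.R012.Mob705 hiding pb mem_pb
open Crest.Agent.R012.LS2 (S mem_S)
open Crest.Agent.R017.CM106 Crest.Agent.R017.C70
open Crest.Agent.R017.FE47 (PU cx)
open Crest.Agent.R017.StC828 (SqS cvc rs)
open Crest.Agent.R017.StA828 (xa psi gp)
open Crest.Agent.R017.StD828 (ln Tm)
open Crest.Agent.R017.E2440 (TE StE Bth Bth_nonneg norm_th_le)
open Crest.Agent.R017.E3A164 (SteT)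
open Crest.Agent.R017.P1e54 Crest.Agent.R017.P1f54 Crest.Agent.R017.P1i54
open Crest.Agent.R017.HP842 (Pc pc al cv Tu mem_Tu scS sc' sqc Th uv)
open Crest.Agent.R017.PX764 (th n6 Gh)

lemma norm_pc_le' {h : ℝ → ℝ} {H : ℝ} (hH0 : 0 ≤ H) (hH : ∀ u, ‖cx h u‖ ≤ H) {P : Pc}
    (hP : P.OK) (b : Eis) : ‖pc h P b‖ ≤ H := by
  unfold pc
  split_ifs with hb
  · rw [norm_mul, norm_mul]
    have h1 := HP842.norm_uv_le P.u b
    have h2 := hP.ch.norm_le hb
    have h3 := HSep813.norm_gw_le hH P.Y P.t b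
    calc ‖uv P.u b‖ * ‖P.ψ b‖ * ‖HSep813.gw h P.Y P.t b‖ ≤ 1 * 1 * H := by gcongr
      _ = H := by ring
  · rw [norm_zero]; exact hH0

/-- bounded sequence with bounded support -/
structure Bs (X A : ℝ) (α : Eis → ℂ) : Prop where
  supp : ∀ n, α n ≠ 0 → IsPrim n ∧ (nm n : ℝ) ≤ X
  bd : ∀ n, ‖α n‖ ≤ A

lemma Bs.A0 {X A : ℝ} {α : Eis → ℂ} (h : Bs X A α) : 0 ≤ A := (norm_nonneg _).trans (h.bd 0)

lemma Bs.mono {X X' A A' : ℝ} {α : Eis → ℂ} (h : Bs X A α) (hX : X ≤ X') (hA : A ≤ A') :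
    Bs X' A' α := ⟨fun n hn => ⟨(h.supp n hn).1, (h.supp n hn).2.trans hX⟩,
      fun n => (h.bd n).trans hA⟩

lemma card_primBall_real {X : ℝ} (hX : 0 ≤ X) : ((primBall ⌊X⌋₊).card : ℝ) ≤ 100 * X := by
  have h2 : ((primBall ⌊X⌋₊).card : ℝ) ≤ 100 * ((⌊X⌋₊ : ℕ) : ℝ) := Lat277.card_primBall_le ⌊X⌋₊
  have h3 : ((⌊X⌋₊ : ℕ) : ℝ) ≤ X := Nat.floor_le hX
  linarith

lemma tsum_le_of_Bs {X A : ℝ} (hX : 0 ≤ X) (hA : 0 ≤ A) {F : Eis → ℂ}
    (hs : ∀ n, F n ≠ 0 → IsPrim n ∧ (nm n : ℝ) ≤ X) (hb : ∀ n, IsPrim n → ‖F n‖ ≤ A) :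
    ‖∑' n : Eis, F n‖ ≤ 100 * X * A := by
  rw [tsum_eq_sum (s := primBall ⌊X⌋₊) (fun n hn => by
    by_contra h
    obtain ⟨h1, h2⟩ := hs n h
    exact hn (mem_primBall.2 ⟨(Nat.le_floor_iff hX).2 h2, h1⟩))]
  refine (norm_sum_le _ _).trans ?_
  calc ∑ n ∈ primBall ⌊X⌋₊, ‖F n‖ ≤ ∑ _n ∈ primBall ⌊X⌋₊, A :=
        sum_le_sum fun n hn => hb n (mem_primBall.1 hn).2
    _ = ((primBall ⌊X⌋₊).card : ℝ) * A := by rw [sum_const, nsmul_eq_mul]
    _ ≤ 100 * X * A := mul_le_mul_of_nonneg_right (card_primBall_real hX) hA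

lemma norm_CS_le {X A : ℝ} (hX : 0 ≤ X) {α : Eis → ℂ} (h : Bs X A α) (k : Eis) :
    ‖CS α k‖ ≤ 100 * X * A := by
  unfold CS
  refine tsum_le_of_Bs hX h.A0 (fun n hn => h.supp n (left_ne_zero_of_mul hn)) fun n hn => ?_
  rw [norm_mul]
  exact (mul_le_mul (h.bd n) (norm_sy_le k hn) (norm_nonneg _) h.A0).trans (le_of_eq (mul_one _))

lemma norm_TE_le {X A : ℝ} (hX : 0 ≤ X) {α : Eis → ℂ} (h : Bs X A α) {x : Eis × Eis}
    (hx : IsPrim x.1) (e : Eis) : ‖TE α x e‖ ≤ 100 * X * A := by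
  classical
  unfold TE
  refine tsum_le_of_Bs hX h.A0 (fun m hm => ?_) fun m hm => ?_
  · have h1 : α (x.1 * m) ≠ 0 := by
      intro h0
      apply hm
      rw [h0, zero_mul, ite_self]
    obtain ⟨h2, h3⟩ := h.supp _ h1
    refine ⟨h2.of_mul_left hx, le_trans ?_ h3⟩
    rw [nm_mul]
    push_cast
    exact le_mul_of_one_le_left (Nat.cast_nonneg _) (one_le_nm hx)
  · split_ifs
    · rw [norm_mul, norm_mul]
      have h1 : ‖((n6 m : ℝ) : ℂ)‖ ≤ 1 := by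
        rw [Complex.norm_real, Real.norm_of_nonneg (by unfold n6; positivity)]
        exact PX764.n6_le_one hm.ne_zero
      have h2 : ‖Gh x.2 m‖ ≤ 1 := BD829.norm_Gh_le' hm
      calc ‖α (x.1 * m)‖ * (‖((n6 m : ℝ) : ℂ)‖ * ‖Gh x.2 m‖) ≤ A * (1 * 1) :=
            mul_le_mul (h.bd _) (mul_le_mul h1 h2 (norm_nonneg _) zero_le_one)
              (by positivity) h.A0
        _ = A := by ring
    · rw [norm_zero]; exact h.A0

lemma card_S_le {X : ℝ} (hX : 0 ≤ X) : ((S X).card : ℝ) ≤ 100 * X := by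
  classical
  have h1 : (S X).card ≤ (primBall ⌊X⌋₊).card := Finset.card_le_card fun a ha => by
    obtain ⟨h1, h2, -⟩ := (mem_S hX).1 ha
    exact mem_primBall.2 ⟨(Nat.le_floor_iff hX).2 h1, h2⟩
  have h2 : ((S X).card : ℝ) ≤ ((primBall ⌊X⌋₊).card : ℝ) := by exact_mod_cast h1
  exact h2.trans (card_primBall_real hX)

lemma JC_ne {j : Eis} (h : JC j) : j ≠ 0 := by
  obtain ⟨c, hc, j', hj', -, rfl⟩ := h
  have hw : (w : Eis) ≠ 0 := by
    intro h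
    have := congrArg QuadraticAlgebra.im h
    simp at this
  have h3 : (3 : Eis) ≠ 0 := three_ne_zero'
  have hc0 : c ≠ 0 := by
    rcases hc with rfl | rfl | rfl | rfl
    · exact one_ne_zero
    · exact h3
    · exact mul_ne_zero h3 hw
    · exact mul_ne_zero h3 (pow_ne_zero 2 hw)
  exact mul_ne_zero hc0 hj'.ne_zero

lemma norm_St_gen {J : Finset (Eis × Eis)} (hJ : OKJ J) {om : Eis × Eis → ℂ} {W : ℝ}
    (hW : ∀ x ∈ J, ‖om x‖ ≤ W) (hW0 : 0 ≤ W) {E0 : ℝ} (hE : 0 ≤ E0) {mc : Eis → ℂ}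
    (hmc : ∀ e, ‖mc e‖ ≤ 1) {T : Eis × Eis → Eis → ℂ} {B : ℝ} (hB0 : 0 ≤ B)
    (hT : ∀ x ∈ J, ∀ e ∈ S E0, ‖T x e‖ ≤ B) {k : Eis} (hk : k ≠ 0) (P : Eis → Prop)
    [DecidablePred P] :
    ‖∑ x ∈ J, om x * (sy k x.1 * conj (th (x.2 * k)) *
      ∑ e ∈ (S E0).filter P, mc e * T x e)‖ ≤ J.card * (W * (Bth * (100 * E0 * B))) := by
  refine (norm_sum_le _ _).trans ?_
  have key : ∀ x ∈ J, ‖om x * (sy k x.1 * conj (th (x.2 * k)) *
      ∑ e ∈ (S E0).filter P, mc e * T x e)‖ ≤ W * (Bth * (100 * E0 * B)) := by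
    intro x hx
    have h1 : ‖∑ e ∈ (S E0).filter P, mc e * T x e‖ ≤ 100 * E0 * B := by
      refine (norm_sum_le _ _).trans ?_
      calc ∑ e ∈ (S E0).filter P, ‖mc e * T x e‖ ≤ ∑ e ∈ (S E0).filter P, B := by
            refine sum_le_sum fun e he => ?_
            rw [norm_mul]
            exact (mul_le_mul (hmc e) (hT x hx e (mem_filter.1 he).1) (norm_nonneg _)
              zero_le_one).trans (le_of_eq (one_mul _))
        _ = (((S E0).filter P).card : ℝ) * B := by rw [sum_const, nsmul_eq_mul]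
        _ ≤ ((S E0).card : ℝ) * B := by
            refine mul_le_mul_of_nonneg_right ?_ hB0
            exact_mod_cast Finset.card_filter_le _ _
        _ ≤ _ := mul_le_mul_of_nonneg_right (card_S_le hE) hB0
    have h2 : ‖sy k x.1‖ ≤ 1 := norm_sy_le k (hJ.prim x hx)
    have h3 : ‖conj (th (x.2 * k))‖ ≤ Bth := by
      rw [Complex.norm_conj]
      exact norm_th_le (mul_ne_zero (JC_ne (hJ.jc x hx)) hk)
    have h4 := Bth_nonneg
    rw [norm_mul, norm_mul, norm_mul]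
    calc ‖om x‖ * (‖sy k x.1‖ * ‖conj (th (x.2 * k))‖ *
          ‖∑ e ∈ (S E0).filter P, mc e * T x e‖) ≤ W * ((1 * Bth) * (100 * E0 * B)) := by
          gcongr
          exact hW x hx
      _ = _ := by ring
  calc ∑ x ∈ J, ‖om x * (sy k x.1 * conj (th (x.2 * k)) *
        ∑ e ∈ (S E0).filter P, mc e * T x e)‖ ≤ ∑ _x ∈ J, W * (Bth * (100 * E0 * B)) :=
        sum_le_sum key
    _ = _ := by rw [sum_const, nsmul_eq_mul]

/-- the error, pointwise -/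
lemma norm_Er_le {X A : ℝ} (hX : 0 ≤ X) {α : Eis → ℂ} (h : Bs X A α) {J : Finset (Eis × Eis)}
    (hJ : OKJ J) {om : Eis × Eis → ℂ} {W : ℝ} (hW : ∀ x ∈ J, ‖om x‖ ≤ W) (hW0 : 0 ≤ W) {E0 : ℝ}
    (hE : 0 ≤ E0) (c : ℂ) {k : Eis} (hk : k ≠ 0) :
    ‖Er c E0 J om α k‖ ≤ 100 * X * A +
      ‖c‖ * (J.card * (W * (Bth * (100 * E0 * (100 * X * A))))) := by
  classical
  unfold Er
  refine (norm_sub_le _ _).trans ?_
  rw [norm_mul]
  refine add_le_add (norm_CS_le hX h k) (mul_le_mul_of_nonneg_left ?_ (norm_nonneg _))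
  have hA := h.A0
  exact norm_St_gen hJ hW hW0 hE (mc := fun e => ((mu e : ℤ) : ℂ)) (fun e => norm_muE_le e)
    (T := fun x e => TE α x e) (by positivity)
    (fun x hx e _ => norm_TE_le hX h (hJ.prim x hx) e) hk (fun e => e ∣ k)

lemma Bs_xa {X A Z : ℝ} (hZ : 0 ≤ Z) {α : Eis → ℂ} (h : Bs X A α) (g : Eis) {a : Eis}
    (ha : a ∈ S Z) : Bs (Z * X) A (xa a (rs g α)) where
  supp := fun n hn => by
    obtain ⟨a1, a2, -⟩ := (mem_S hZ).1 ha
    obtain ⟨m, rfl, h4, h5⟩ := StC828.xa_ne a2.ne_zero hn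
    have h6 := (StC828.rs_ne h5).2
    obtain ⟨h7, h8⟩ := h.supp m h6
    refine ⟨a2.mul h7, ?_⟩
    rw [nm_mul]
    push_cast
    exact mul_le_mul a1 h8 (Nat.cast_nonneg _) hZ
  bd := fun n => by
    classical
    have hA := h.A0
    unfold xa rs
    split_ifs
    · exact h.bd _
    · rw [norm_zero]; exact hA
    · rw [norm_zero]; exact hA

/-- the mismatch, pointwise -/
lemma norm_Mm_le {X A X' A' : ℝ} (hX : 0 ≤ X) {η α : Eis → ℂ} (h : Bs X A α) (h' : Bs X' A' η)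
    {JJ : Finset (Eis × Eis)} (hJ : OKJ JJ) {o : Eis → ℂ} {W : ℝ} (hW : ∀ x, ‖o x‖ ≤ W)
    {E0 Z : ℝ} (hE : 0 ≤ E0) (hZ : 0 ≤ Z) (g : Eis) {k : Eis} (hk : k ≠ 0) :
    ‖Mm JJ E0 Z o g η α k‖ ≤
      JJ.card * (1 * (Bth * (100 * (E0 * Z) * (100 * Z * (A' * (2 * W) * (100 * (Z * X) * A)))))) := by
  classical
  have hA := h.A0
  have hA' := h'.A0
  have hW0 : 0 ≤ W := (norm_nonneg _).trans (hW 0)
  unfold Mm
  refine norm_St_gen hJ (om := fun _ => 1) (W := 1) (fun x _ => by simp) zero_le_one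
    (mul_nonneg hE hZ) (mc := fun e => (muE e : ℂ)) (fun e => norm_muE_le e)
    (T := fun x e => Tm E0 Z o η α g x.1 e x.2) (by positivity) (fun x hx e _ => ?_) hk
    (fun e => e ∣ k)
  unfold Tm
  refine (norm_sum_le _ _).trans ?_
  calc ∑ a ∈ S Z, ‖η (g * a) * (((if (nm (e / gp e a) : ℝ) ≤ E0 then 1 else 0) *
          o (ln (psi a (x.1, x.2))) - (if (nm e : ℝ) ≤ E0 then 1 else 0) *
          o (ln (psi g (x.1, x.2)))) * TE (xa a (rs g α)) (x.1, x.2) e)‖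
      ≤ ∑ _a ∈ S Z, A' * (2 * W) * (100 * (Z * X) * A) := by
        refine sum_le_sum fun a ha => ?_
        have h1 := norm_TE_le (mul_nonneg hZ hX) (Bs_xa hZ h g ha) (x := (x.1, x.2))
          (hJ.prim x hx) e
        rw [norm_mul, norm_mul, ← mul_assoc]
        have h3 : ∀ (P : Prop) [Decidable P], ‖(if P then (1 : ℂ) else 0)‖ ≤ 1 := by
          intro P _
          split_ifs <;> simp
        have h2 : ‖((if (nm (e / gp e a) : ℝ) ≤ E0 then (1 : ℂ) else 0) *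
          o (ln (psi a (x.1, x.2))) - (if (nm e : ℝ) ≤ E0 then (1 : ℂ) else 0) *
          o (ln (psi g (x.1, x.2))))‖ ≤ 2 * W := by
          refine (norm_sub_le _ _).trans ?_
          rw [norm_mul, norm_mul]
          have e1 := mul_le_mul (h3 ((nm (e / gp e a) : ℝ) ≤ E0)) (hW (ln (psi a (x.1, x.2))))
            (norm_nonneg _) zero_le_one
          have e2 := mul_le_mul (h3 ((nm e : ℝ) ≤ E0)) (hW (ln (psi g (x.1, x.2))))
            (norm_nonneg _) zero_le_one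
          linarith
        exact mul_le_mul (mul_le_mul (h'.bd _) h2 (norm_nonneg _) hA') h1 (norm_nonneg _)
          (by positivity)
    _ = ((S Z).card : ℝ) * (A' * (2 * W) * (100 * (Z * X) * A)) := by
        rw [sum_const, nsmul_eq_mul]
    _ ≤ 100 * Z * (A' * (2 * W) * (100 * (Z * X) * A)) :=
        mul_le_mul_of_nonneg_right (card_S_le hZ) (by positivity)

/-! ### the sequence of a family -/

variable {I : Type*} [Fintype I] [DecidableEq I]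

lemma Bs_sqc {h : ℝ → ℝ} {R H : ℝ} (hR : ∀ u, cx h u ≠ 0 → |u| ≤ R) (hH : ∀ u, ‖cx h u‖ ≤ H)
    {s : I → Pc} (hs : ∀ i, (s i).OK) {V : ℝ} (hV1 : 1 ≤ V)
    (hV : ∀ i, (s i).Y * Real.exp R ≤ V) :
    Bs (V ^ Fintype.card I) ((100 * V) ^ Fintype.card I * H ^ Fintype.card I)
      (sqc 1 (al h s)) := by
  classical
  have hH0 : 0 ≤ H := (norm_nonneg _).trans (hH 0)
  have hV0 : 0 ≤ V := by linarith
  have hsup : ∀ i m, pc h (s i) m ≠ 0 → IsPrim m ∧ (nm m : ℝ) ≤ V := fun i m hm => by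
    refine ⟨?_, (supp_pc hR (hs i).Y0 hm).trans (hV i)⟩
    by_contra h0
    exact hm (by unfold pc; rw [if_neg h0])
  refine ⟨fun n hn => ?_, fun n => ?_⟩
  · have h1 : cv (fun i => pc h (s i)) n ≠ 0 := right_ne_zero_of_mul hn
    unfold cv at h1
    obtain ⟨x, hx, hx0⟩ := Finset.exists_ne_zero_of_sum_ne_zero h1
    rw [mem_Tu] at hx
    rw [← hx.2]
    have h2 := fun i => hsup i _ (Finset.prod_ne_zero_iff.1 hx0 i (mem_univ i))
    refine ⟨E554.isPrim_prod fun i _ => (h2 i).1, ?_⟩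
    rw [E554.nm_prod]
    push_cast
    calc ∏ i, (nm (x i) : ℝ) ≤ ∏ _i : I, V :=
          prod_le_prod (fun i _ => Nat.cast_nonneg _) fun i _ => (h2 i).2
      _ = V ^ Fintype.card I := by rw [prod_const, card_univ]
  · show ‖Th 1 n * cv (fun i => pc h (s i)) n‖ ≤ _
    rw [norm_mul]
    have h1 : ‖Th 1 n‖ ≤ 1 := by
      unfold Th
      split_ifs <;> simp
    refine (mul_le_of_le_one_left (norm_nonneg _) h1).trans ?_
    unfold cv
    have e1 : ∑ x ∈ Tu I n, ∏ i, pc h (s i) (x i) =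
        ∑ x ∈ (Tu I n).filter (fun x => x ∈ TB I ⌊V⌋₊), ∏ i, pc h (s i) (x i) := by
      symm
      refine sum_filter_of_ne fun x _ hx0 => ?_
      rw [mem_TB]
      intro i
      have h2 := hsup i _ (Finset.prod_ne_zero_iff.1 hx0 i (mem_univ i))
      exact ⟨(Nat.le_floor_iff hV0).2 h2.2, h2.1⟩
    rw [e1]
    refine (norm_sum_le _ _).trans ?_
    have hcard : (((Tu I n).filter (fun x => x ∈ TB I ⌊V⌋₊)).card : ℝ) ≤
        (100 * V) ^ Fintype.card I := by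
      have h3 : ((Tu I n).filter (fun x => x ∈ TB I ⌊V⌋₊)).card ≤ (TB I ⌊V⌋₊).card :=
        Finset.card_le_card fun x hx => (mem_filter.1 hx).2
      have h4 : (TB I ⌊V⌋₊).card = (primBall ⌊V⌋₊).card ^ Fintype.card I := by
        have h5 : TB I ⌊V⌋₊ = Fintype.piFinset fun _ : I => primBall ⌊V⌋₊ := by
          ext x
          rw [mem_TB, Fintype.mem_piFinset]
          exact forall_congr' fun i => mem_primBall.symm
        rw [h5, Fintype.card_piFinset, prod_const, card_univ]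
      calc (((Tu I n).filter (fun x => x ∈ TB I ⌊V⌋₊)).card : ℝ) ≤ ((TB I ⌊V⌋₊).card : ℝ) := by
            exact_mod_cast h3
        _ = ((primBall ⌊V⌋₊).card : ℝ) ^ Fintype.card I := by rw [h4]; push_cast; rfl
        _ ≤ _ := pow_le_pow_left₀ (Nat.cast_nonneg _) (card_primBall_real hV0) _
    calc ∑ x ∈ (Tu I n).filter (fun x => x ∈ TB I ⌊V⌋₊), ‖∏ i, pc h (s i) (x i)‖
        ≤ ∑ _x ∈ (Tu I n).filter (fun x => x ∈ TB I ⌊V⌋₊), H ^ Fintype.card I := by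
          refine sum_le_sum fun x _ => ?_
          rw [norm_prod]
          calc ∏ i, ‖pc h (s i) (x i)‖ ≤ ∏ _i : I, H :=
                prod_le_prod (fun i _ => norm_nonneg _) fun i _ => norm_pc_le' hH0 hH (hs i) _
            _ = H ^ Fintype.card I := by rw [prod_const, card_univ]
      _ = (((Tu I n).filter (fun x => x ∈ TB I ⌊V⌋₊)).card : ℝ) * H ^ Fintype.card I := by
          rw [sum_const, nsmul_eq_mul]
      _ ≤ _ := mul_le_mul_of_nonneg_right hcard (by positivity)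

/-! ### second moments -/

lemma M2_le {u : Eis → ℝ} {V U B : ℝ} (hV : 0 ≤ V) (hU : 0 ≤ U)
    (hs : ∀ k, u k ≠ 0 → IsPrim k ∧ (nm k : ℝ) ≤ V) (hu : ∀ k, u k ≤ U) {F : Eis → ℂ}
    (hF : ∀ k, k ≠ 0 → ‖F k‖ ≤ B) : M2 u F ≤ 100 * V * (U * B ^ 2) := by
  unfold M2
  rw [tsum_eq_sum (s := primBall ⌊V⌋₊) (fun k hk => by
    by_contra h
    obtain ⟨h1, h2⟩ := hs k (left_ne_zero_of_mul h)
    exact hk (mem_primBall.2 ⟨(Nat.le_floor_iff hV).2 h2, h1⟩))]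
  calc ∑ k ∈ primBall ⌊V⌋₊, u k * ‖F k‖ ^ 2 ≤ ∑ _k ∈ primBall ⌊V⌋₊, U * B ^ 2 := by
        refine sum_le_sum fun k hk => ?_
        have hk0 := (mem_primBall.1 hk).2.ne_zero
        exact mul_le_mul (hu k) (pow_le_pow_left₀ (norm_nonneg _) (hF k hk0) 2) (by positivity) hU
    _ = ((primBall ⌊V⌋₊).card : ℝ) * (U * B ^ 2) := by rw [sum_const, nsmul_eq_mul]
    _ ≤ _ := mul_le_mul_of_nonneg_right (card_primBall_real hV) (by positivity)

lemma card_JW_le {D Y₀ Y₁ : ℝ} (hD : 0 ≤ D) (h1 : 0 ≤ Y₁) :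
    ((JW D Y₀ Y₁).card : ℝ) ≤ 100 * D * (101 * (Y₁ + 1)) := by
  classical
  have e1 : (JW D Y₀ Y₁).card ≤ (primBall ⌊D⌋₊ ×ˢ ball ⌊Y₁⌋₊).card := by
    unfold JW
    exact Finset.card_filter_le _ _
  have e2 : ((ball ⌊Y₁⌋₊).card : ℝ) ≤ 101 * (Y₁ + 1) := by
    have h3 : (ball ⌊Y₁⌋₊).card ≤ (ball (⌊Y₁⌋₊ + 1)).card := Finset.card_le_card fun x hx => by
      rw [mem_ball] at hx ⊢
      omega
    have h4 := MSgen49.card_ball_le (N := ⌊Y₁⌋₊ + 1) (by omega)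
    have h5 : ((⌊Y₁⌋₊ : ℕ) : ℝ) ≤ Y₁ := Nat.floor_le h1
    push_cast at h4
    have h6 : ((ball ⌊Y₁⌋₊).card : ℝ) ≤ ((ball (⌊Y₁⌋₊ + 1)).card : ℝ) := by exact_mod_cast h3
    linarith
  calc ((JW D Y₀ Y₁).card : ℝ) ≤ ((primBall ⌊D⌋₊ ×ˢ ball ⌊Y₁⌋₊).card : ℝ) := by exact_mod_cast e1
    _ = ((primBall ⌊D⌋₊).card : ℝ) * ((ball ⌊Y₁⌋₊).card : ℝ) := by
        rw [card_product]; push_cast; rfl
    _ ≤ _ := mul_le_mul (card_primBall_real hD) e2 (Nat.cast_nonneg _) (by positivity)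

end Crest.Agent.R017.P1j54
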