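import Crest.Agent.R017.P1n_54
import Crest.Agent.R017.HBsB_445

/-!
# Row 17, R8/P1 at list level, part 9 (helper54): large heights

* `split_h` : small heights and a trivial bound give a bound with polynomial growth
* `er_big`, `mm_big` : trivial bounds `X^A` for the error and the mismatch
-/

set_option autoImplicit false

noncomputable section

open Finset
open scoped ComplexConjugate

namespace Crest.Agent.R017.P1o54

open Crest.Agent.R012 Crest.Agent.R012.Eis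
open Crest.Agent.R012.Mob705 hiding pb mem_pb
open Crest.Agent.R012.LS2 (S mem_S)
open Crest.Agent.R017.CM106 Crest.Agent.R017.C70
open Crest.Agent.R017.FE47 (PU cx SM)
open Crest.Agent.R017.StD828 (ln Tm)
open Crest.Agent.R017.E2440 (TE StE Bth Bth_nonneg)
open Crest.Agent.R017.P1e54 Crest.Agent.R017.P1f54 Crest.Agent.R017.P1i54 Crest.Agent.R017.P1j54
open Crest.Agent.R017.P1k54 Crest.Agent.R017.P1l54
open Crest.Agent.R017.HP842 (Pc pc al alL cv Tu mem_Tu sqc Th)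
open Crest.Agent.R017.B770 Crest.Agent.R017.Prov71
open Crest.Agent.R017.E5B71 Crest.Agent.R017.E5L770

/-! ### heights -/

theorem split_h {J : Type*} [Fintype J] {T₀ M W A : ℝ} (hM : 0 ≤ M) (hT : 0 ≤ T₀)
    (hW : 0 ≤ W) (hA : A ≤ W * (1 + T₀) ^ M) {F : (J → ℝ) → ℝ}
    (h1 : ∀ τ, (∀ i, |τ i| ≤ T₀) → F τ ≤ W) (h2 : ∀ τ, F τ ≤ A) (τ : J → ℝ) :
    F τ ≤ W * ∏ i, (1 + |τ i|) ^ M := by
  classical
  have hge : ∀ i, 1 ≤ (1 + |τ i|) ^ M := fun i =>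
    Real.one_le_rpow (by linarith [abs_nonneg (τ i)]) hM
  have hp1 : 1 ≤ ∏ i, (1 + |τ i|) ^ M := by
    have := Finset.prod_le_prod (s := univ) (f := fun _ : J => (1 : ℝ))
      (g := fun i => (1 + |τ i|) ^ M) (fun _ _ => zero_le_one) fun i _ => hge i
    simpa using this
  by_cases h : ∀ i, |τ i| ≤ T₀
  · exact (h1 τ h).trans (le_mul_of_one_le_right hW hp1)
  · push Not at h
    obtain ⟨i, hi⟩ := h
    refine (h2 τ).trans (hA.trans (mul_le_mul_of_nonneg_left ?_ hW))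
    rw [← Finset.mul_prod_erase univ _ (mem_univ i)]
    have h3 : 1 ≤ ∏ j ∈ univ.erase i, (1 + |τ j|) ^ M := by
      have := Finset.prod_le_prod (s := univ.erase i) (f := fun _ : J => (1 : ℝ))
        (g := fun i => (1 + |τ i|) ^ M) (fun _ _ => zero_le_one) fun i _ => hge i
      simpa using this
    calc (1 + T₀) ^ M ≤ (1 + |τ i|) ^ M :=
          Real.rpow_le_rpow (by linarith) (by linarith) hM
      _ ≤ _ := le_mul_of_one_le_right (by linarith [hge i]) h3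

/-! ### powers -/

lemma pl {X a b : ℝ} {i j : ℕ} (hX : 1 ≤ X) (hb0 : 0 ≤ b) (ha : a ≤ X ^ i) (hb : b ≤ X ^ j) :
    a * b ≤ X ^ (i + j) := by
  rw [pow_add]
  exact mul_le_mul ha hb hb0 (by positivity)

lemma pa {X a b : ℝ} {i : ℕ} (hX : 2 ≤ X) (ha : a ≤ X ^ i) (hb : b ≤ X ^ i) :
    a + b ≤ X ^ (i + 1) := by
  have h0 : 0 ≤ X ^ i := by positivity
  rw [pow_succ]
  nlinarith

lemma pm {X a : ℝ} {i j : ℕ} (hX : 1 ≤ X) (h : i ≤ j) (ha : a ≤ X ^ i) : a ≤ X ^ j :=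
  ha.trans (pow_le_pow_right₀ hX h)

/-- constants below `X` -/
structure Big (X H : ℝ) : Prop where
  c : 200 ≤ X
  h : H ≤ X
  b : Bth ≤ X
  p : ‖(pC : ℂ)‖ ≤ X

lemma norm_oN_le {Hw : ℝ} (hHw : ∀ u, ‖((FE47.hD u : ℝ) : ℂ)‖ ≤ Hw) (n : ℕ) (z : Eis) :
    ‖oN n z‖ ≤ n * Hw := by
  unfold oN
  refine (norm_sum_le _ _).trans ?_
  calc ∑ i ∈ range n, ‖(wL i (Real.log (nm z)) : ℂ)‖ ≤ ∑ _i ∈ range n, Hw :=
        sum_le_sum fun i _ => hHw _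
    _ = n * Hw := by rw [sum_const, card_range, nsmul_eq_mul]

section big

variable {m : ℕ} {h : ℝ → ℝ} {R H : ℝ}

/-- the sequence of a family -/
lemma Bs_X (hR : ∀ u, cx h u ≠ 0 → |u| ≤ R) (hH : ∀ u, ‖cx h u‖ ≤ H) {X : ℝ}
    (hX : Big X H) {I : Type*} [Fintype I] [DecidableEq I] {s : I → Pc} (hs : ∀ i, (s i).OK)
    (hY : ∀ i, (s i).Y * Real.exp R ≤ X ^ 3) {N : ℕ} (hI : Fintype.card I ≤ N) :
    Bs (X ^ (3 * N)) (X ^ (5 * N)) (sqc 1 (al h s)) := by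
  have hX1 : 1 ≤ X := by linarith [hX.c]
  have hX0 : 0 ≤ X := by linarith
  have hH0 : 0 ≤ H := (norm_nonneg _).trans (hH 0)
  have h1 := Bs_sqc hR hH hs (V := X ^ 3) (one_le_pow₀ hX1) hY
  refine h1.mono ?_ ?_
  · rw [← pow_mul]
    exact pow_le_pow_right₀ hX1 (Nat.mul_le_mul_left 3 hI)
  · rw [← mul_pow]
    have h2 : 100 * X ^ 3 * H ≤ X ^ 5 := by
      have h3 : 100 * X ^ 3 ≤ X ^ 4 := by
        rw [pow_succ X 3]
        have := pow_pos (show 0 < X by linarith [hX.c]) 3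
        nlinarith [hX.c]
      calc 100 * X ^ 3 * H ≤ X ^ 4 * X := mul_le_mul h3 hX.h hH0 (by positivity)
        _ = X ^ 5 := by ring
    calc (100 * X ^ 3 * H) ^ Fintype.card I ≤ (X ^ 5) ^ Fintype.card I :=
          pow_le_pow_left₀ (by positivity) h2 _
      _ = X ^ (5 * Fintype.card I) := by rw [← pow_mul]
      _ ≤ _ := pow_le_pow_right₀ hX1 (Nat.mul_le_mul_left 5 hI)

/-- **trivial bound of the error moment** -/
theorem er_big (hR : ∀ u, cx h u ≠ 0 → |u| ≤ R) (hH : ∀ u, ‖cx h u‖ ≤ H) {Hw : ℝ}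
    (hHw : ∀ u, ‖((FE47.hD u : ℝ) : ℂ)‖ ≤ Hw) {X : ℝ} (hX : Big X H) (hXw : Hw ≤ X)
    {I : Type*} [Fintype I] [DecidableEq I] {s : I → Pc} (hs : ∀ i, (s i).OK)
    (hY : ∀ i, (s i).Y * Real.exp R ≤ X ^ 3) {N : ℕ} (hI : Fintype.card I ≤ N) {n : ℕ}
    (hn : (n : ℝ) ≤ X ^ 3) {E0 YT : ℝ} (hE : 0 ≤ E0) (hE1 : E0 ≤ X ^ 3) (hT : 0 ≤ YT)
    (hT1 : YT ≤ X ^ 3) {u : Eis → ℝ} (hu1 : ∀ k, u k ≤ 1)
    (hus : ∀ k, u k ≠ 0 → IsPrim k ∧ (nm k : ℝ) ≤ X ^ 3) :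
    M2 u (Er (pC : ℂ) E0 (JW (Real.sqrt YT) (1 / 10) YT) (fun x => oN n (ln x))
      (sqc 1 (al h s))) ≤ X ^ (100 * (N + 1)) := by
  have hX2 : 2 ≤ X := by linarith [hX.c]
  have hX1 : 1 ≤ X := by linarith
  have hX0 : 0 ≤ X := by linarith
  have hHw0 : 0 ≤ Hw := (norm_nonneg _).trans (hHw 0)
  have c100 : (100 : ℝ) ≤ X ^ 1 := by linarith [hX.c, pow_one X]
  have hBs := Bs_X hR hH hX hs hY hI
  have hsq : Real.sqrt YT ≤ X ^ 3 := by
    rw [Real.sqrt_le_left (by positivity)]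
    have : 1 ≤ X ^ 3 := one_le_pow₀ hX1
    nlinarith
  have hcard : ((JW (Real.sqrt YT) (1 / 10) YT).card : ℝ) ≤ X ^ 9 := by
    refine (card_JW_le (Real.sqrt_nonneg _) hT).trans ?_
    have e1 : 100 * Real.sqrt YT ≤ X ^ (1 + 3) := pl hX1 (Real.sqrt_nonneg _) c100 hsq
    have e2 : YT + 1 ≤ X ^ (3 + 1) := pa hX2 hT1 (one_le_pow₀ hX1)
    have e3 : 101 * (YT + 1) ≤ X ^ (1 + 4) :=
      pl hX1 (by linarith) (by linarith [hX.c, pow_one X]) e2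
    exact pl hX1 (by linarith) e1 e3
  have hom : ∀ x ∈ JW (Real.sqrt YT) (1 / 10) YT, ‖oN n (ln x)‖ ≤ X ^ 4 := fun x _ =>
    (norm_oN_le hHw n _).trans (pl (i := 3) (j := 1) hX1 hHw0 hn (by rw [pow_one]; exact hXw))
  have hQ : 100 * X ^ (3 * N) * X ^ (5 * N) ≤ X ^ (8 * N + 1) := by
    have := pl hX1 (by positivity) (pl hX1 (by positivity) c100 (le_refl (X ^ (3 * N))))
      (le_refl (X ^ (5 * N)))
    exact pm hX1 (by omega) this
  have hb : ∀ k, k ≠ 0 → ‖Er (pC : ℂ) E0 (JW (Real.sqrt YT) (1 / 10) YT)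
      (fun x => oN n (ln x)) (sqc 1 (al h s)) k‖ ≤ X ^ (8 * N + 21) := by
    intro k hk
    have h1 := norm_Er_le (by positivity) hBs (okJ_JW (Real.sqrt YT) (1 / 10) YT) hom
      (by positivity) hE (pC : ℂ) hk
    refine h1.trans ?_
    have q0 : 0 ≤ 100 * X ^ (3 * N) * X ^ (5 * N) := by positivity
    have e1 : 100 * E0 ≤ X ^ (1 + 3) := pl hX1 hE c100 hE1
    have e2 := pl hX1 q0 e1 hQ
    have e3 := pl (a := Bth) (i := 1) hX1 (by positivity) (by rw [pow_one]; exact hX.b) e2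
    have e4 := pl hX1 (by have := Bth_nonneg; positivity) (le_refl (X ^ 4)) e3
    have e5 := pl hX1 (by have := Bth_nonneg; positivity) hcard e4
    have e6 := pl (a := ‖(pC : ℂ)‖) (i := 1) hX1 (by have := Bth_nonneg; positivity)
      (by rw [pow_one]; exact hX.p) e5
    have e7 := pm hX1 (show 1 + (9 + (4 + (1 + ((1 + 3) + (8 * N + 1))))) ≤ 8 * N + 20 by omega) e6
    exact pa hX2 (pm hX1 (by omega) hQ) e7
  have h2 := M2_le (u := u) (V := X ^ 3) (U := 1) (by positivity) zero_le_one hus hu1 hb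
  refine h2.trans ?_
  rw [one_mul]
  have e1 := pl hX1 (by positivity) (pl hX1 (by positivity) c100 (le_refl (X ^ 3)))
    (le_of_eq (pow_mul X (8 * N + 21) 2).symm)
  exact pm hX1 (by omega) e1

/-- **trivial bound of the mismatch moment** -/
theorem mm_big (hR : ∀ u, cx h u ≠ 0 → |u| ≤ R) (hH : ∀ u, ‖cx h u‖ ≤ H) {Hw : ℝ}
    (hHw : ∀ u, ‖((FE47.hD u : ℝ) : ℂ)‖ ≤ Hw) {X : ℝ} (hX : Big X H) (hXw : Hw ≤ X)
    {I I' : Type*} [Fintype I] [DecidableEq I] [Fintype I'] [DecidableEq I'] {s : I → Pc}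
    (hs : ∀ i, (s i).OK) {s' : I' → Pc} (hs' : ∀ i, (s' i).OK)
    (hY : ∀ i, (s i).Y * Real.exp R ≤ X ^ 3) (hY' : ∀ i, (s' i).Y * Real.exp R ≤ X ^ 3) {N : ℕ}
    (hI : Fintype.card I ≤ N) (hI' : Fintype.card I' ≤ N) {n : ℕ}
    (hn : (n : ℝ) ≤ X ^ 3) {E0 YT Z : ℝ} (hE : 0 ≤ E0) (hE1 : E0 ≤ X ^ 3) (hT : 0 ≤ YT)
    (hT1 : YT ≤ X ^ 3) (hZ : 0 ≤ Z) (hZ1 : Z ≤ X ^ 3) (g : Eis) {u : Eis → ℝ}
    (hu1 : ∀ k, u k ≤ 1) (hus : ∀ k, u k ≠ 0 → IsPrim k ∧ (nm k : ℝ) ≤ X ^ 3) :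
    M2 u (Mm (JW (Real.sqrt YT * Z) (1 / 10) (YT * Z ^ 2)) E0 Z (oN n) g
      (sqc 1 (al h s)) (sqc 1 (al h s'))) ≤ X ^ (100 * (N + 1)) := by
  have hX2 : 2 ≤ X := by linarith [hX.c]
  have hX1 : 1 ≤ X := by linarith
  have hX0 : 0 ≤ X := by linarith
  have hHw0 : 0 ≤ Hw := (norm_nonneg _).trans (hHw 0)
  have c100 : (100 : ℝ) ≤ X ^ 1 := by linarith [hX.c, pow_one X]
  have hBs := Bs_X hR hH hX hs hY hI
  have hBs' := Bs_X hR hH hX hs' hY' hI'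
  have hsq : Real.sqrt YT ≤ X ^ 3 := by
    rw [Real.sqrt_le_left (by positivity)]
    have : 1 ≤ X ^ 3 := one_le_pow₀ hX1
    nlinarith
  have hZ2 : Z ^ 2 ≤ X ^ 6 := by
    calc Z ^ 2 ≤ (X ^ 3) ^ 2 := pow_le_pow_left₀ hZ hZ1 2
      _ = X ^ 6 := by ring
  have hcard : ((JW (Real.sqrt YT * Z) (1 / 10) (YT * Z ^ 2)).card : ℝ) ≤ X ^ 18 := by
    refine (card_JW_le (mul_nonneg (Real.sqrt_nonneg _) hZ) (by positivity)).trans ?_
    have e0 := pl hX1 hZ hsq hZ1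
    have e1 : 100 * (Real.sqrt YT * Z) ≤ X ^ (1 + (3 + 3)) :=
      pl hX1 (mul_nonneg (Real.sqrt_nonneg _) hZ) c100 e0
    have e4 := pl hX1 (by positivity) hT1 hZ2
    have e2 : YT * Z ^ 2 + 1 ≤ X ^ (3 + 6 + 1) := pa hX2 e4 (one_le_pow₀ hX1)
    have e3 : 101 * (YT * Z ^ 2 + 1) ≤ X ^ (1 + (3 + 6 + 1)) :=
      pl hX1 (by positivity) (by linarith [hX.c, pow_one X]) e2
    exact pl hX1 (by positivity) e1 e3
  have hom : ∀ x, ‖oN n x‖ ≤ X ^ 4 := fun x =>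
    (norm_oN_le hHw n _).trans (pl (i := 3) (j := 1) hX1 hHw0 hn (by rw [pow_one]; exact hXw))
  have hb : ∀ k, k ≠ 0 → ‖Mm (JW (Real.sqrt YT * Z) (1 / 10) (YT * Z ^ 2)) E0 Z (oN n) g
      (sqc 1 (al h s)) (sqc 1 (al h s')) k‖ ≤ X ^ (13 * N + 45) := by
    intro k hk
    have h1 := norm_Mm_le (by positivity) hBs' hBs
      (okJ_JW (Real.sqrt YT * Z) (1 / 10) (YT * Z ^ 2)) hom hE hZ g hk
    refine h1.trans ?_
    have hB0 := Bth_nonneg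
    have e1 : 100 * (Z * X ^ (3 * N)) ≤ X ^ (1 + (3 + 3 * N)) :=
      pl hX1 (by positivity) c100 (pl hX1 (by positivity) hZ1 le_rfl)
    have e2 : 100 * (Z * X ^ (3 * N)) * X ^ (5 * N) ≤ X ^ (1 + (3 + 3 * N) + 5 * N) :=
      pl hX1 (by positivity) e1 le_rfl
    have e3 : 2 * X ^ 4 ≤ X ^ (1 + 4) := pl hX1 (by positivity) (by rw [pow_one]; exact hX2) le_rfl
    have e4 : X ^ (5 * N) * (2 * X ^ 4) ≤ X ^ (5 * N + (1 + 4)) := pl hX1 (by positivity) le_rfl e3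
    have e5 := pl hX1 (by positivity) e4 e2
    have e6 : 100 * Z ≤ X ^ (1 + 3) := pl hX1 hZ c100 hZ1
    have e7 := pl hX1 (by positivity) e6 e5
    have e8 : 100 * (E0 * Z) ≤ X ^ (1 + (3 + 3)) :=
      pl hX1 (by positivity) c100 (pl hX1 hZ hE1 hZ1)
    have e9 := pl hX1 (by positivity) e8 e7
    have e10 := pl (a := Bth) (i := 1) hX1 (by positivity) (by rw [pow_one]; exact hX.b) e9
    have e11 := pl hX1 (by positivity) hcard e10
    rw [one_mul]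
    exact pm hX1 (by omega) e11
  have h2 := M2_le (u := u) (V := X ^ 3) (U := 1) (by positivity) zero_le_one hus hu1 hb
  refine h2.trans ?_
  rw [one_mul]
  have e1 := pl hX1 (by positivity) (pl hX1 (by positivity) c100 (le_refl (X ^ 3)))
    (le_of_eq (pow_mul X (13 * N + 45) 2).symm)
  exact pm hX1 (by omega) e1

end big

end Crest.Agent.R017.P1o54
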