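import Crest.Agent.R017.P1o_54

/-!
# Row 17, R8/P1 at list level, part 10 (helper54): the children of one datum

* `Fr` : the frame of a datum with its amplifier list
* `chi_of` : the children are admissible
* `hch_of` : the error moment of a child
* `hmm_of` : the mismatch of a child
-/

set_option autoImplicit false

noncomputable section

open Finset
open scoped ComplexConjugate

namespace Crest.Agent.R017.P1p54

open Crest.Agent.R012 Crest.Agent.R012.Eis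
open Crest.Agent.R012.Mob705 hiding pb mem_pb
open Crest.Agent.R012.LS2 (S mem_S)
open Crest.Agent.R017.CM106 Crest.Agent.R017.C70
open Crest.Agent.R017.FE47 (PU cx SM)
open Crest.Agent.R017.StD828 (ln Tm)
open Crest.Agent.R017.E2440 (TE StE Bth Bth_nonneg)
open Crest.Agent.R017.E5k54 (PT alb)
open Crest.Agent.R017.SSb54 (SST SSb PTb mem_PTb PTb_sub)
open Crest.Agent.R017.P1e54 Crest.Agent.R017.P1f54 Crest.Agent.R017.P1i54 Crest.Agent.R017.P1j54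
open Crest.Agent.R017.P1k54 Crest.Agent.R017.P1l54 Crest.Agent.R017.P1n54 Crest.Agent.R017.P1o54
open Crest.Agent.R017.HP842 (Pc pc al alL cv Tu mem_Tu sqc Th)
open Crest.Agent.R017.B770 Crest.Agent.R017.Prov71
open Crest.Agent.R017.XG702 (Pcs)
open Crest.Agent.R017.XT71 (Sys Win mx mx_le le_mx)
open Crest.Agent.R017.UM71
open Crest.Agent.R017.E5B71 Crest.Agent.R017.E5L770
open Crest.Agent.R017.HBsB445 (prod_ch1 prod_chS sf_pos)

/-- the three lumps -/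
def vsO (a : Bd) (j : Fin 3) : Pq := a.us (Fin.natAdd 2 j)

/-- the frame -/
structure Fr (P : DPar) (t₀ : Eis) (p : Fin 3 ⊕ Fin 5 → ℝ) (X δ ρ B R : ℝ) (N : ℕ) (a : Bd)
    {m : ℕ} (ps : Fin m → Pq) : Prop where
  X1 : 1 < X
  hP : P.OK
  ok : a.ok
  t0 : t₀ ∈ SM P.n
  par : ParOK p
  kd : ∀ i, (ps i).kd = .am
  z0 : ∀ i, 0 ≤ (ps i).z
  z1 : ∀ i, (ps i).z ≤ δ * Real.log X
  t : ∀ i, 1 + |(ps i).t| ≤ X ^ ρ
  d : ∀ i, (nm (ps i).d : ℝ) ≤ X ^ B
  len : m ≤ N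
  w : Win S5 p δ N B ρ X a
  tot : |∑ i, (ps i).z - cx' p * Real.log X| ≤ δ * Real.log X
  R0 : 0 ≤ R
  RL : (20 * N + 40) * R ≤ δ * Real.log X
  d0 : 0 ≤ δ
  d1 : 240 * δ ≤ 1

section

variable {P : DPar} {t₀ : Eis} {p : Fin 3 ⊕ Fin 5 → ℝ} {X δ δ₁ ρ ρ₁ B R : ℝ} {N : ℕ} {a : Bd}
  {m : ℕ} {ps : Fin m → Pq}

lemma Fr.L0 (F : Fr P t₀ p X δ ρ B R N a ps) : 0 < Real.log X := Real.log_pos F.X1

lemma Fr.Rm' (F : Fr P t₀ p X δ ρ B R N a ps) : (20 * m + 40) * R ≤ δ * Real.log X := by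
  refine le_trans (mul_le_mul_of_nonneg_right ?_ F.R0) F.RL
  have : (m : ℝ) ≤ N := by exact_mod_cast F.len
  linarith

lemma Fr.Rm (F : Fr P t₀ p X δ ρ B R N a ps) : (2 * m + 20) * R ≤ δ * Real.log X := by
  refine le_trans (mul_le_mul_of_nonneg_right ?_ F.R0) F.Rm'
  have : (0 : ℝ) ≤ m := Nat.cast_nonneg _
  linarith

/-- the lengths of the lumps -/
lemma Fr.vz (F : Fr P t₀ p X δ ρ B R N a ps) (j : Fin 3) :
    |(vsO a j).z - cu p (Fin.natAdd 2 j) * Real.log X| ≤ δ * Real.log X := by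
  have hL := F.L0
  have h1 := F.w.ev (.inr (Fin.natAdd 2 j))
  have e1 : S5.ev X a (.inr (Fin.natAdd 2 j)) = (vsO a j).z / Real.log X := rfl
  rw [e1] at h1
  have e2 : (vsO a j).z - cu p (Fin.natAdd 2 j) * Real.log X =
      ((vsO a j).z / Real.log X - p (.inr (Fin.natAdd 2 j))) * Real.log X := by
    unfold cu
    field_simp
  rw [e2, abs_mul, abs_of_pos hL]
  exact mul_le_mul_of_nonneg_right h1 hL.le

lemma Fr.vsum (F : Fr P t₀ p X δ ρ B R N a ps) :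
    |∑ j, (vsO a j).z - cN p * Real.log X| ≤ 3 * δ * Real.log X := by
  have h0 := abs_le.1 (F.vz 0)
  have h1 := abs_le.1 (F.vz 1)
  have h2 := abs_le.1 (F.vz 2)
  rw [Fin.sum_univ_three, abs_le]
  have e : cN p = cu p (Fin.natAdd 2 (0 : Fin 3)) + cu p (Fin.natAdd 2 (1 : Fin 3)) +
    cu p (Fin.natAdd 2 (2 : Fin 3)) := rfl
  rw [e]
  constructor <;> nlinarith

lemma Fr.lz (F : Fr P t₀ p X δ ρ B R N a ps) :
    |a.l - cκ p * Real.log X| ≤ δ * Real.log X := by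
  have hL := F.L0
  have h1 := F.w.ev (.inl 0)
  have e1 : S5.ev X a (.inl 0) = a.l / Real.log X := rfl
  rw [e1] at h1
  have e2 : a.l - cκ p * Real.log X = (a.l / Real.log X - p (.inl 0)) * Real.log X := by
    unfold cκ
    field_simp
  rw [e2, abs_mul, abs_of_pos hL]
  exact mul_le_mul_of_nonneg_right h1 hL.le

lemma Fr.az (F : Fr P t₀ p X δ ρ B R N a ps) :
    |a.z - cx' p * Real.log X| ≤ δ * Real.log X := by
  have hL := F.L0
  have h1 := F.w.ev (.inl 1)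
  have e1 : S5.ev X a (.inl 1) = a.z / Real.log X := rfl
  rw [e1] at h1
  have e2 : a.z - cx' p * Real.log X = (a.z / Real.log X - p (.inl 1)) * Real.log X := by
    unfold cx'
    field_simp
  rw [e2, abs_mul, abs_of_pos hL]
  exact mul_le_mul_of_nonneg_right h1 hL.le

lemma Fr.vlump (F : Fr P t₀ p X δ ρ B R N a ps) (j : Fin 3) : Dq.lump (vsO a j) :=
  (F.ok.1 _).1

lemma Fr.vz0 (F : Fr P t₀ p X δ ρ B R N a ps) (j : Fin 3) : 0 ≤ (vsO a j).z := (F.ok.1 _).2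

lemma Fr.vt (F : Fr P t₀ p X δ ρ B R N a ps) (j : Fin 3) : 1 + |(vsO a j).t| ≤ X ^ ρ := by
  have h1 : Dq.s1 (vsO a j) ≤ mx Dq.s1 (List.ofFn a.us) :=
    le_mx (List.mem_ofFn.2 ⟨Fin.natAdd 2 j, rfl⟩)
  exact h1.trans ((le_max_right (1 + |a.τ|) _).trans F.w.s₁)

lemma Fr.vd (F : Fr P t₀ p X δ ρ B R N a ps) (j : Fin 3) : (nm (vsO a j).d : ℝ) ≤ X ^ B := by
  have h1 : Dq.s2 (vsO a j) ≤ mx Dq.s2 (List.ofFn a.us) :=
    le_mx (List.mem_ofFn.2 ⟨Fin.natAdd 2 j, rfl⟩)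
  exact h1.trans ((le_max_right (nm a.d₃ : ℝ) _).trans F.w.s₂)

/-! ### the lengths of the children -/

variable {γ x : Fin m → Eis} {β y : Fin 3 → Eis} {g : Eis}

/-- the children -/
abbrev chO (P : DPar) (t₀ : Eis) (a : Bd) (ps : Fin m → Pq) (γ : Fin m → Eis) (β : Fin 3 → Eis)
    (g : Eis) (x : Fin m → Eis) (y : Fin 3 → Eis) : Fin m ⊕ Fin 3 → Pc :=
  chS (fam P t₀ ps (vsO a)) γ β g x y

lemma logY_l (hγ : ∀ i, IsPrim (γ i)) (hx : x ∈ Tu (Fin m) g) (i : Fin m) :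
    Real.log (chO P t₀ a ps γ β g x y (.inl i)).Y ≤ (ps i).z := by
  rw [mem_Tu] at hx
  have h1 : (1 : ℝ) ≤ nm (γ i * x i) := one_le_nm ((hγ i).mul (hx.1 i))
  show Real.log (Real.exp (ps i).z / (nm (γ i * x i) : ℝ)) ≤ _
  rw [Real.log_div (Real.exp_pos _).ne' (by linarith), Real.log_exp]
  have := Real.log_nonneg h1
  linarith

lemma logY_r (hβ : ∀ i, IsPrim (β i)) (hy : y ∈ Tu (Fin 3) g) (j : Fin 3) :
    Real.log (chO P t₀ a ps γ β g x y (.inr j)).Y ≤ (vsO a j).z := by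
  rw [mem_Tu] at hy
  have h1 : (1 : ℝ) ≤ nm (β j * y j) := one_le_nm ((hβ j).mul (hy.1 j))
  show Real.log (Real.exp (vsO a j).z / (nm (β j * y j) : ℝ)) ≤ _
  rw [Real.log_div (Real.exp_pos _).ne' (by linarith), Real.log_exp]
  have := Real.log_nonneg h1
  linarith

lemma sumY_l (hP : P.OK) (hγ : ∀ i, IsPrim (γ i)) (hg : IsPrim g) (hx : x ∈ Tu (Fin m) g) :
    ∑ i : Fin m, Real.log (chO P t₀ a ps γ β g x y (.inl i)).Y =
      ∑ i, (ps i).z - (Real.log (nm (∏ i, γ i)) + Real.log (nm g)) := by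
  have h1 := prod_ch1 (fun i => Pt P t₀ (ps i)) 1 hγ hg hx
  have hpos : ∀ i, (0 : ℝ) < (ch1 (fun i => Pt P t₀ (ps i)) γ x g i).Y := fun i =>
    (ch1_OK (fun i => Pt_OK hP t₀ (ps i)) hγ (fun i => ((mem_Tu).1 hx).1 i) g i).Y0
  have h2 : ∑ i : Fin m, Real.log (chO P t₀ a ps γ β g x y (.inl i)).Y =
      Real.log (∏ i, ((ch1 (fun i => Pt P t₀ (ps i)) γ x g i).Y * 1)) := by
    rw [Real.log_prod (fun i _ => by rw [mul_one]; exact (hpos i).ne')]
    refine sum_congr rfl fun i _ => ?_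
    rw [mul_one]
    rfl
  have g1 : (0 : ℝ) < nm (∏ i, γ i) := by linarith [nmP hγ]
  have g2 : (0 : ℝ) < nm g := by linarith [one_le_nm hg]
  rw [h2, h1, Real.log_mul (Finset.prod_ne_zero_iff.2 fun i _ => by
    rw [mul_one]; exact (Real.exp_pos _).ne') (by positivity), Real.log_inv,
    Real.log_mul g1.ne' g2.ne', Real.log_prod (fun i _ => by
      rw [mul_one]; exact (Real.exp_pos _).ne')]
  have h3 : ∀ i : Fin m, Real.log ((Pt P t₀ (ps i)).Y * 1) = (ps i).z := fun i => by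
    rw [mul_one]
    show Real.log (Real.exp _) = _
    rw [Real.log_exp]
  rw [sum_congr rfl fun i _ => h3 i]
  ring

lemma sumY_r (hP : P.OK) (hβ : ∀ i, IsPrim (β i)) (hg : IsPrim g) (hy : y ∈ Tu (Fin 3) g) :
    ∑ j : Fin 3, Real.log (chO P t₀ a ps γ β g x y (.inr j)).Y =
      ∑ j, (vsO a j).z - (Real.log (nm (∏ j, β j)) + Real.log (nm g)) := by
  have h1 := prod_ch1 (fun i => Pt P t₀ (vsO a i)) 1 hβ hg hy
  have hpos : ∀ i, (0 : ℝ) < (ch1 (fun i => Pt P t₀ (vsO a i)) β y g i).Y := fun i =>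
    (ch1_OK (fun i => Pt_OK hP t₀ (vsO a i)) hβ (fun i => ((mem_Tu).1 hy).1 i) g i).Y0
  have h2 : ∑ i : Fin 3, Real.log (chO P t₀ a ps γ β g x y (.inr i)).Y =
      Real.log (∏ i, ((ch1 (fun i => Pt P t₀ (vsO a i)) β y g i).Y * 1)) := by
    rw [Real.log_prod (fun i _ => by rw [mul_one]; exact (hpos i).ne')]
    refine sum_congr rfl fun i _ => ?_
    rw [mul_one]
    rfl
  have g1 : (0 : ℝ) < nm (∏ i, β i) := by linarith [nmP hβ]
  have g2 : (0 : ℝ) < nm g := by linarith [one_le_nm hg]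
  rw [h2, h1, Real.log_mul (Finset.prod_ne_zero_iff.2 fun i _ => by
    rw [mul_one]; exact (Real.exp_pos _).ne') (by positivity), Real.log_inv,
    Real.log_mul g1.ne' g2.ne', Real.log_prod (fun i _ => by
      rw [mul_one]; exact (Real.exp_pos _).ne')]
  have h3 : ∀ i : Fin 3, Real.log ((Pt P t₀ (vsO a i)).Y * 1) = (vsO a i).z := fun i => by
    rw [mul_one]
    show Real.log (Real.exp _) = _
    rw [Real.log_exp]
  rw [sum_congr rfl fun i _ => h3 i]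
  ring

lemma log_sf (hγ : ∀ i, IsPrim (γ i)) (hβ : ∀ i, IsPrim (β i)) (hg : IsPrim g) :
    sf γ β g = Real.exp (-(Real.log (nm (∏ i, γ i)) + Real.log (nm (∏ j, β j)) +
      2 * Real.log (nm g))) := by
  have g1 : (0 : ℝ) < nm (∏ i, γ i) := by linarith [nmP hγ]
  have g2 : (0 : ℝ) < nm (∏ i, β i) := by linarith [nmP hβ]
  have g3 : (0 : ℝ) < nm g := by linarith [one_le_nm hg]
  unfold sf
  rw [Real.exp_neg, Real.exp_add, Real.exp_add, Real.exp_log g1, Real.exp_log g2, two_mul,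
    Real.exp_add, Real.exp_log g3]
  congr 1
  ring

/-- the lumps of the child -/
def vC (a : Bd) {β y : Fin 3 → Eis} {g : Eis} (hβ : ∀ i, IsPrim (β i)) (hg : IsPrim g)
    (z τ : Fin m ⊕ Fin 3 → ℝ) (j : Fin 3) : Pq :=
  chP (vsO a j) (β j * y j) ((∏ j, β j) * g) (mod_ne hβ hg) (z (.inr j)) ((vsO a j).t + τ (.inr j))

/-- the amplifier pieces of the child -/
def qC (ps : Fin m → Pq) {γ x : Fin m → Eis} {g : Eis} (hγ : ∀ i, IsPrim (γ i)) (hg : IsPrim g)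
    (z τ : Fin m ⊕ Fin 3 → ℝ) (i : Fin m) : Pq :=
  chP (ps i) (γ i * x i) ((∏ i, γ i) * g) (mod_ne hγ hg) (z (.inl i)) ((ps i).t + τ (.inl i))

lemma reY_chO (hγ : ∀ i, IsPrim (γ i)) (hβ : ∀ i, IsPrim (β i)) (hg : IsPrim g)
    (z τ : Fin m ⊕ Fin 3 → ℝ) :
    reY (chO P t₀ a ps γ β g x y) (fun i => Real.exp (z i))
      (fun i => (chO P t₀ a ps γ β g x y i).t + τ i) =
      fam P t₀ (qC ps (x := x) hγ hg z τ) (vC a (y := y) hβ hg z τ) := by
  rw [reY_chS P t₀ hγ hβ hg]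
  rfl

lemma tlen_ofFn (f : Fin m → Pq) : tlen (List.ofFn f) = ∑ i, (f i).z := by
  unfold tlen
  rw [List.map_ofFn, List.sum_ofFn]
  rfl

/-- **the children are admissible** -/
theorem chi_of (F : Fr P t₀ p X δ ρ B R N a ps) (hγ : ∀ i, IsPrim (γ i))
    (hβ : ∀ i, IsPrim (β i)) (hg : IsPrim g) (hx : x ∈ Tu (Fin m) g) (hy : y ∈ Tu (Fin 3) g)
    (hlow : ∀ i, -R ≤ Real.log (chO P t₀ a ps γ β g x y i).Y) {z τ : Fin m ⊕ Fin 3 → ℝ}
    (hz0 : ∀ i, 0 ≤ z i)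
    (hz : ∀ i, |z i - Real.log (chO P t₀ a ps γ β g x y i).Y| ≤ 2 * R)
    (hτ : ∀ i, |τ i| ≤ X ^ ρ) (hρ : 2 * X ^ ρ ≤ X ^ ρ₁) (hδ₁ : 2 * δ ≤ δ₁) :
    Chi p X δ δ₁ ρ₁ (B + 2) N a (vC a (y := y) hβ hg z τ)
      (List.ofFn (qC ps (x := x) hγ hg z τ)) := by
  have hL := F.L0
  have hX0 : 0 < X := by linarith [F.X1]
  have hR0 := F.R0
  have hRm := F.Rm
  have hmR : 0 ≤ (m : ℝ) * R := by positivity
  have hsl := sumY_l (P := P) (t₀ := t₀) (a := a) (ps := ps) (β := β) (y := y) F.hP hγ hg hx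
  have hsr := sumY_r (P := P) (t₀ := t₀) (a := a) (ps := ps) (γ := γ) (x := x) F.hP hβ hg hy
  have hg1 : 0 ≤ Real.log (nm g) := Real.log_nonneg (one_le_nm hg)
  have hγ1 : 0 ≤ Real.log (nm (∏ i, γ i)) := Real.log_nonneg (nmP hγ)
  have hβ1 : 0 ≤ Real.log (nm (∏ i, β i)) := Real.log_nonneg (nmP hβ)
  have htot := abs_le.1 F.tot
  have hvs := abs_le.1 F.vsum
  have hx1 := F.par.x1
  have hN1 := F.par.N1
  have hlowl : -(m * R) ≤ ∑ i : Fin m, Real.log (chO P t₀ a ps γ β g x y (.inl i)).Y := by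
    have h1 : ∑ _i : Fin m, (-R) ≤ ∑ i : Fin m, Real.log (chO P t₀ a ps γ β g x y (.inl i)).Y :=
      sum_le_sum fun i _ => hlow (.inl i)
    rw [sum_const, card_univ, Fintype.card_fin, nsmul_eq_mul] at h1
    linarith
  have hlowr : -(3 * R) ≤ ∑ j : Fin 3, Real.log (chO P t₀ a ps γ β g x y (.inr j)).Y := by
    have h1 : ∑ _i : Fin 3, (-R) ≤ ∑ i : Fin 3, Real.log (chO P t₀ a ps γ β g x y (.inr i)).Y :=
      sum_le_sum fun i _ => hlow (.inr i)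
    rw [sum_const, card_univ, Fintype.card_fin, nsmul_eq_mul] at h1
    push_cast at h1
    linarith
  have hd1 := F.d1
  have hd0 := F.d0
  have hdL : δ * Real.log X ≤ 1 / 240 * Real.log X :=
    mul_le_mul_of_nonneg_right (by linarith) hL.le
  have hxL : cx' p * Real.log X ≤ 1 / 3 * Real.log X := mul_le_mul_of_nonneg_right hx1 hL.le
  have hNL : cN p * Real.log X ≤ 1 * Real.log X := mul_le_mul_of_nonneg_right hN1 hL.le
  have hX2 : Real.exp (2 * Real.log X) = X ^ (2 : ℝ) := by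
    rw [Real.rpow_def_of_pos hX0, mul_comm]
  have hmodl : (nm ((∏ i, γ i) * g) : ℝ) ≤ X ^ (2 : ℝ) := by
    rw [nm_mul]
    push_cast
    have g1 : (0 : ℝ) < nm (∏ i, γ i) := by linarith [nmP hγ]
    have g2 : (0 : ℝ) < nm g := by linarith [one_le_nm hg]
    rw [← Real.exp_log g1, ← Real.exp_log g2, ← Real.exp_add, ← hX2]
    exact Real.exp_le_exp.2 (by nlinarith)
  have hmodr : (nm ((∏ i, β i) * g) : ℝ) ≤ X ^ (2 : ℝ) := by
    rw [nm_mul]
    push_cast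
    have g1 : (0 : ℝ) < nm (∏ i, β i) := by linarith [nmP hβ]
    have g2 : (0 : ℝ) < nm g := by linarith [one_le_nm hg]
    rw [← Real.exp_log g1, ← Real.exp_log g2, ← Real.exp_add, ← hX2]
    exact Real.exp_le_exp.2 (by nlinarith)
  have hbt : ∀ t s : ℝ, 1 + |t| ≤ X ^ ρ → |s| ≤ X ^ ρ → 1 + |t + s| ≤ X ^ ρ₁ := fun t s h1 h2 => by
    have := abs_add_le t s
    linarith
  have hbd : ∀ d M : Eis, (nm d : ℝ) ≤ X ^ B → (nm M : ℝ) ≤ X ^ (2 : ℝ) →
      (nm (d * M) : ℝ) ≤ X ^ (B + 2) := fun d M h1 h2 => by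
    rw [nm_mul, Real.rpow_add hX0]
    push_cast
    exact mul_le_mul h1 h2 (Nat.cast_nonneg _) (Real.rpow_nonneg hX0.le _)
  refine ⟨fun j => chP_lump (F.vlump j) _ _ _ _ _, fun j => hz0 _, fun j => ?_,
    fun j => hbt _ _ (F.vt j) (hτ _), fun j => hbd _ _ (F.vd j) hmodr, fun q hq => ?_,
    fun q hq => ?_, fun q hq => ?_, fun q hq => ?_, fun q hq => ?_, ?_, ?_⟩
  · have h1 := (abs_le.1 (hz (.inr j))).2
    have h2 := logY_r (P := P) (t₀ := t₀) (a := a) (ps := ps) (γ := γ) (x := x) hβ hy j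
    show z (.inr j) ≤ (vsO a j).z + δ * Real.log X
    nlinarith
  · obtain ⟨i, rfl⟩ := List.mem_ofFn.1 hq
    exact F.kd i
  · obtain ⟨i, rfl⟩ := List.mem_ofFn.1 hq
    exact hz0 _
  · obtain ⟨i, rfl⟩ := List.mem_ofFn.1 hq
    have h1 := (abs_le.1 (hz (.inl i))).2
    have h2 := logY_l (P := P) (t₀ := t₀) (a := a) (ps := ps) (β := β) (y := y) hγ hx i
    have h3 := F.z1 i
    show z (.inl i) ≤ δ₁ * Real.log X
    have h4 : 2 * δ * Real.log X ≤ δ₁ * Real.log X := mul_le_mul_of_nonneg_right hδ₁ hL.le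
    nlinarith
  · obtain ⟨i, rfl⟩ := List.mem_ofFn.1 hq
    exact hbt _ _ (F.t i) (hτ _)
  · obtain ⟨i, rfl⟩ := List.mem_ofFn.1 hq
    exact hbd _ _ (F.d i) hmodl
  · rw [List.length_ofFn]
    exact F.len
  · rw [tlen_ofFn]
    have h1 : ∑ i : Fin m, (qC ps (x := x) hγ hg z τ i).z ≤
        ∑ i : Fin m, (Real.log (chO P t₀ a ps γ β g x y (.inl i)).Y + 2 * R) :=
      sum_le_sum fun i _ => by
        have := (abs_le.1 (hz (.inl i))).2
        show z (.inl i) ≤ _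
        linarith
    rw [sum_add_distrib, sum_const, card_univ, Fintype.card_fin, nsmul_eq_mul] at h1
    nlinarith

end

end Crest.Agent.R017.P1p54
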