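import Crest.Agent.R017.P1p_54

/-!
# Row 17, R8/P1 at list level, part 11 (helper54): the hypotheses of `err_listT`

* `hch_of` : the error moment of a child from `P10`
* the mismatch of a child from `P1M` : see `P1r_54`
-/

set_option autoImplicit false

noncomputable section

open Finset
open scoped ComplexConjugate

namespace Crest.Agent.R017.P1q54

open Crest.Agent.R012 Crest.Agent.R012.Eis
open Crest.Agent.R012.Mob705 hiding pb mem_pb
open Crest.Agent.R012.LS2 (S mem_S)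
open Crest.Agent.R017.CM106 Crest.Agent.R017.C70
open Crest.Agent.R017.FE47 (PU cx SM)
open Crest.Agent.R017.StD828 (ln Tm)
open Crest.Agent.R017.E2440 (TE StE Bth Bth_nonneg)
open Crest.Agent.R017.E5k54 (PT alb)
open Crest.Agent.R017.SSb54 (SST SSb PTb mem_PTb PTb_sub)
open Crest.Agent.R017.P1e54 Crest.Agent.R017.P1f54 Crest.Agent.R017.P1i54 Crest.Agent.R017.P1j54
open Crest.Agent.R017.P1k54 Crest.Agent.R017.P1l54 Crest.Agent.R017.P1n54 Crest.Agent.R017.P1o54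
open Crest.Agent.R017.P1p54
open Crest.Agent.R017.HP842 (Pc pc al alL cv Tu mem_Tu sqc Th)
open Crest.Agent.R017.B770 Crest.Agent.R017.Prov71
open Crest.Agent.R017.XG702 (Pcs)
open Crest.Agent.R017.XT71 (Sys Win mx mx_le le_mx)
open Crest.Agent.R017.UM71
open Crest.Agent.R017.E5B71 Crest.Agent.R017.E5L770
open Crest.Agent.R017.HBsB445 (prod_ch1 prod_chS sf_pos)

/-! ### vanishing families -/

section vanish

variable {I : Type*} [Fintype I] [DecidableEq I] {h : ℝ → ℝ} {R : ℝ}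

lemma sqc_zero (hR : ∀ u, cx h u ≠ 0 → |u| ≤ R) {s : I → Pc} (hs : ∀ i, (s i).OK) {i : I}
    (hi : Real.log (s i).Y < -R) : sqc 1 (al h s) = 0 := by
  have h0 : ∀ m, pc h (s i) m = 0 := by
    intro m
    by_contra hm
    have h1 := supp_pc hR (hs i).Y0 hm
    have h2 : IsPrim m := by
      by_contra h0
      exact hm (by unfold pc; rw [if_neg h0])
    have h3 := one_le_nm h2
    have h4 : (s i).Y * Real.exp R < 1 := by
      rw [← Real.exp_log (hs i).Y0, ← Real.exp_add]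
      have h5 := Real.exp_lt_exp.2 (show Real.log (s i).Y + R < 0 by linarith)
      rwa [Real.exp_zero] at h5
    linarith
  funext n
  show Th 1 n * cv (fun i => pc h (s i)) n = 0
  have h5 : cv (fun i => pc h (s i)) n = 0 := by
    unfold cv
    refine sum_eq_zero fun x _ => ?_
    exact Finset.prod_eq_zero (mem_univ i) (h0 _)
  rw [h5, mul_zero]

lemma Er_zero (c : ℂ) (E0 : ℝ) {J : Finset (Eis × Eis)} (hJ : ∀ x ∈ J, x.1 ≠ 0)
    (om : Eis × Eis → ℂ) (k : Eis) : Er c E0 J om 0 k = 0 := by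
  have h1 := Er_sum (∅ : Finset Unit) (fun _ => (0 : ℂ)) (fun _ => (0 : Eis → ℂ))
    (fun i hi => absurd hi (Finset.notMem_empty i)) c E0 hJ om k
  simpa using h1

lemma M2_Er_zero {u : Eis → ℝ} (c : ℂ) (E0 : ℝ) {J : Finset (Eis × Eis)}
    (hJ : ∀ x ∈ J, x.1 ≠ 0) (om : Eis × Eis → ℂ) : M2 u (Er c E0 J om 0) = 0 := by
  unfold M2
  simp_rw [Er_zero c E0 hJ om]
  simp

lemma Mm_zero_left (JJ : Finset (Eis × Eis)) (E0 Z : ℝ) (o : Eis → ℂ) (g : Eis)
    (α : Eis → ℂ) (k : Eis) : Mm JJ E0 Z o g 0 α k = 0 := by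
  have h1 := Mm_sum_left (∅ : Finset Unit) (fun _ => (0 : ℂ)) (fun _ => (0 : Eis → ℂ)) JJ E0 Z o
    g α k
  simpa using h1

lemma Mm_zero_right {JJ : Finset (Eis × Eis)} (hJ : ∀ x ∈ JJ, x.1 ≠ 0) {Z : ℝ} (hZ : 0 ≤ Z)
    (E0 : ℝ) (o : Eis → ℂ) (g : Eis) (η : Eis → ℂ) (k : Eis) : Mm JJ E0 Z o g η 0 k = 0 := by
  have h1 := Mm_sum_right (∅ : Finset Unit) (fun _ => (0 : ℂ)) (fun _ => (0 : Eis → ℂ))
    (fun i hi => absurd hi (Finset.notMem_empty i)) hJ hZ E0 o g η k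
  simpa using h1

/-- the mismatch vanishes if `η` has no multiple of `g` -/
lemma Mm_zero_of {JJ : Finset (Eis × Eis)} {E0 Z : ℝ} {o : Eis → ℂ} {g : Eis} {η α : Eis → ℂ}
    (hη : ∀ a, η (g * a) = 0) (k : Eis) : Mm JJ E0 Z o g η α k = 0 := by
  classical
  unfold Mm E3A164.SteT
  refine sum_eq_zero fun x _ => ?_
  have h1 : ∀ e, Tm E0 Z o η α g x.1 e x.2 = 0 := by
    intro e
    unfold Tm
    refine sum_eq_zero fun b _ => ?_
    rw [hη, zero_mul]
  simp_rw [h1]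
  simp

end vanish

/-! ### separation properties -/

/-- separation for the error -/
def SepE (h : ℝ → ℝ) (c R M C : ℝ) : Prop :=
  ∀ (J : Type) [Fintype J] [DecidableEq J] (s : J → Pc), (∀ i, (s i).OK) →
      ∀ (a : ℂ) (E0 : ℝ) (W : Finset (Eis × Eis)), (∀ x ∈ W, x.1 ≠ 0) →
      ∀ (om : Eis × Eis → ℂ) (u : Eis → ℝ), (∀ k, 0 ≤ u k) → (Function.support u).Finite →
      ∀ B : ℝ, 0 ≤ B →
      (∀ (n : J → ℕ) (τ : J → ℝ), (∀ i, |c * n i - Real.log (s i).Y| ≤ 2 * R) →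
        M2 u (Er a E0 W om (sqc 1 (al h (reY s (fun i => Real.exp (c * n i))
          (fun i => (s i).t + τ i))))) ≤ B * ∏ i, (1 + |τ i|) ^ M) →
      M2 u (Er a E0 W om (sqc 1 (al h s))) ≤ C ^ Fintype.card J * B

/-- separation for the mismatch -/
def SepM (h : ℝ → ℝ) (c R M C : ℝ) : Prop :=
  ∀ (ι κ : Type) [Fintype ι] [Fintype κ] [DecidableEq ι] [DecidableEq κ] (s : ι ⊕ κ → Pc),
      (∀ i, (s i).OK) → ∀ (E0 Z : ℝ), 0 ≤ Z → ∀ (W : Finset (Eis × Eis)), (∀ x ∈ W, x.1 ≠ 0) →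
      ∀ (o : Eis → ℂ) (g : Eis) (u : Eis → ℝ), (∀ k, 0 ≤ u k) → (Function.support u).Finite →
      ∀ B : ℝ, 0 ≤ B →
      (∀ (n : ι ⊕ κ → ℕ) (τ : ι ⊕ κ → ℝ), (∀ i, |c * n i - Real.log (s i).Y| ≤ 2 * R) →
        M2 u (Mm W E0 Z o g
          (sqc 1 (al h fun i => reY s (fun i => Real.exp (c * n i)) (fun i => (s i).t + τ i)
            (.inl i)))
          (sqc 1 (al h fun j => reY s (fun i => Real.exp (c * n i)) (fun i => (s i).t + τ i)
            (.inr j)))) ≤ B * ∏ i, (1 + |τ i|) ^ M) →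
      M2 u (Mm W E0 Z o g (sqc 1 (al h fun i => s (.inl i))) (sqc 1 (al h fun j => s (.inr j)))) ≤
        C ^ Fintype.card (ι ⊕ κ) * B

section

variable {Λ : Type*} {π : Λ → DPar} {h : ℝ → ℝ} {e0 : ℝ} {Rf : Λ → ℝ} {lam : Λ × Eis}
  {p : Fin 3 ⊕ Fin 5 → ℝ} {X δ δ₁ ρ ρ₁ B R c H Hw M Cs ε₁ : ℝ} {N : ℕ} {a : Bd}
  {m : ℕ} {ps : Fin m → Pq} {γ x : Fin m → Eis} {β y : Fin 3 → Eis} {g : Eis}
  {Par : Set (Fin 3 ⊕ Fin 5 → ℝ)} {L0 : (Fin 3 ⊕ Fin 5 → ℝ) → ℝ}

/-- the total bound -/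
def WO (L0 : (Fin 3 ⊕ Fin 5 → ℝ) → ℝ) (p : Fin 3 ⊕ Fin 5 → ℝ) (X δ ε₁ R : ℝ) (N : ℕ) (a : Bd)
    (ps : Fin m → Pq) : ℝ :=
  X ^ (cκ p + L0 p + ε₁ + 1200 * δ) *
    Real.exp (∑ j, (vsO a j).z + ∑ i, (ps i).z + 2 * R * (N + 3))

/-- sizes -/
structure Siz (X H Hw e0 Rl R : ℝ) : Prop extends Big X H where
  w : Hw ≤ X
  r : 2 * Real.exp Rl ≤ X
  e : 0 ≤ e0
  e1 : e0 ≤ 1

lemma Fr.cu_le (F : Fr (π lam.1) lam.2 p X δ ρ B R N a ps) (j : Fin 3) :
    cu p (Fin.natAdd 2 j) ≤ 1 := by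
  have h0 := F.par.u0 (Fin.natAdd 2 (0 : Fin 3))
  have h1 := F.par.u0 (Fin.natAdd 2 (1 : Fin 3))
  have h2 := F.par.u0 (Fin.natAdd 2 (2 : Fin 3))
  have h3 : cu p (Fin.natAdd 2 (0 : Fin 3)) + cu p (Fin.natAdd 2 (1 : Fin 3)) +
    cu p (Fin.natAdd 2 (2 : Fin 3)) ≤ 1 := F.par.N1
  fin_cases j
  · show cu p (Fin.natAdd 2 (0 : Fin 3)) ≤ 1; linarith
  · show cu p (Fin.natAdd 2 (1 : Fin 3)) ≤ 1; linarith
  · show cu p (Fin.natAdd 2 (2 : Fin 3)) ≤ 1; linarith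

lemma YT_le (F : Fr (π lam.1) lam.2 p X δ ρ B R N a ps) (hX : 200 ≤ X) :
    YT a.l (a3 a) a.z ≤ X ^ 3 := by
  have hL := F.L0
  have hX0 : 0 < X := by linarith
  have h2 : 0 < Real.log 2 := Real.log_pos (by norm_num)
  have hd1 := F.d1
  have hd0 := F.d0
  have hdL : δ * Real.log X ≤ 1 / 240 * Real.log X :=
    mul_le_mul_of_nonneg_right (by linarith) hL.le
  have hvs := abs_le.1 F.vsum
  have haz := abs_le.1 F.az
  have e3 : a3 a = ∑ j, (vsO a j).z := by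
    rw [Fin.sum_univ_three]; rfl
  have hxL : cx' p * Real.log X ≤ 1 / 3 * Real.log X :=
    mul_le_mul_of_nonneg_right F.par.x1 hL.le
  have hNL : cN p * Real.log X ≤ 1 * Real.log X := mul_le_mul_of_nonneg_right F.par.N1 hL.le
  have htop : topL a.l (a3 a) a.z ≤ 2 * Real.log X := by
    unfold topL
    have h3 := min_le_right (2 * a3 a - a.l) (3 / 4 * a3 a)
    rw [e3] at h3 ⊢
    linarith
  have hn : (nL a.l (a3 a) a.z : ℝ) * Real.log 2 ≤ 2 * Real.log X + Real.log 2 := by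
    unfold nL
    push_cast
    have h4 : ((⌊topL a.l (a3 a) a.z / Real.log 2⌋₊ : ℕ) : ℝ) ≤ 2 * Real.log X / Real.log 2 := by
      refine (Nat.cast_le.2 (Nat.floor_le_floor (div_le_div_of_nonneg_right htop h2.le))).trans ?_
      exact Nat.floor_le (by positivity)
    rw [le_div_iff₀ h2] at h4
    linarith
  unfold YT
  have e4 : (2 : ℝ) ^ nL a.l (a3 a) a.z = Real.exp (nL a.l (a3 a) a.z * Real.log 2) := by
    rw [mul_comm, Real.exp_mul, Real.exp_log (by norm_num), Real.rpow_natCast]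
  have e5 : X ^ 3 = Real.exp (3 * Real.log X) := by
    rw [mul_comm, Real.exp_mul, Real.exp_log hX0]
    norm_cast
  rw [e4, e5]
  refine Real.exp_le_exp.2 ?_
  have h6 : Real.log 2 ≤ Real.log X := Real.log_le_log (by norm_num) (by linarith)
  linarith

lemma nO_le (F : Fr (π lam.1) lam.2 p X δ ρ B R N a ps) (hX : 200 ≤ X) :
    (nO a : ℝ) ≤ X ^ 3 := by
  refine le_trans ?_ (YT_le F hX)
  unfold YT nO
  have := Nat.lt_two_pow_self (n := nL a.l (a3 a) a.z)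
  exact_mod_cast this.le

lemma YT_nonneg (l N z : ℝ) : 0 ≤ YT l N z := by unfold YT; positivity

lemma exp_l_le (F : Fr (π lam.1) lam.2 p X δ ρ B R N a ps) {e : ℝ} (he1 : e ≤ 1)
    (hl : 0 ≤ a.l) : Real.exp (e * a.l) ≤ X ^ 2 := by
  have hL := F.L0
  have hX0 : 0 < X := by linarith [F.X1]
  have e5 : X ^ 2 = Real.exp (2 * Real.log X) := by
    rw [mul_comm, Real.exp_mul, Real.exp_log hX0]
    norm_cast
  rw [e5]
  refine Real.exp_le_exp.2 ?_
  have hlz := abs_le.1 F.lz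
  have hd1 := F.d1
  have hdL : δ * Real.log X ≤ 1 / 240 * Real.log X :=
    mul_le_mul_of_nonneg_right (by linarith) hL.le
  have hκ : cκ p * Real.log X ≤ 1 * Real.log X := mul_le_mul_of_nonneg_right F.par.κ1 hL.le
  have h1 : e * a.l ≤ 1 * a.l := mul_le_mul_of_nonneg_right he1 hl
  linarith

lemma l_nonneg (F : Fr (π lam.1) lam.2 p X δ ρ B R N a ps) : 0 ≤ a.l := by
  have hL := F.L0
  have hlz := abs_le.1 F.lz
  have hd1 := F.d1
  have hdL : δ * Real.log X ≤ 1 / 240 * Real.log X :=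
    mul_le_mul_of_nonneg_right (by linarith) hL.le
  have hκ : 8 / 9 * Real.log X ≤ cκ p * Real.log X :=
    mul_le_mul_of_nonneg_right F.par.κ0 hL.le
  linarith

lemma us_le (F : Fr (π lam.1) lam.2 p X δ ρ B R N a ps) {Rl : ℝ} (hr : 2 * Real.exp Rl ≤ X)
    {E : ℝ} (k : Eis) (hk : uM Rl (Real.exp a.l) E k ≠ 0) :
    IsPrim k ∧ (nm k : ℝ) ≤ X ^ 3 := by
  have hX0 : 0 < X := by linarith [F.X1]
  obtain ⟨h1, h2⟩ := uM_supp (Real.exp_pos _) hk
  refine ⟨h1, h2.trans ?_⟩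
  have h3 := exp_l_le F le_rfl (l_nonneg F)
  rw [one_mul] at h3
  calc 2 * Real.exp Rl * Real.exp a.l ≤ X * X ^ 2 :=
        mul_le_mul hr h3 (Real.exp_pos _).le hX0.le
    _ = X ^ 3 := by ring

lemma Y3_le (F : Fr (π lam.1) lam.2 p X δ ρ B R N a ps) (hγ : ∀ i, IsPrim (γ i))
    (hβ : ∀ i, IsPrim (β i)) (hx : x ∈ Tu (Fin m) g) (hy : y ∈ Tu (Fin 3) g)
    {z : Fin m ⊕ Fin 3 → ℝ}
    (hz : ∀ i, |z i - Real.log (chO (π lam.1) lam.2 a ps γ β g x y i).Y| ≤ 2 * R)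
    (i : Fin m ⊕ Fin 3) : Real.exp (z i) * Real.exp R ≤ X ^ 3 := by
  have hL := F.L0
  have hX0 : 0 < X := by linarith [F.X1]
  have hd1 := F.d1
  have hd0 := F.d0
  have hR0 := F.R0
  have hRm := F.Rm
  have hmR : 0 ≤ (m : ℝ) * R := by positivity
  have hdL : δ * Real.log X ≤ 1 / 240 * Real.log X :=
    mul_le_mul_of_nonneg_right (by linarith) hL.le
  have e5 : X ^ 3 = Real.exp (3 * Real.log X) := by
    rw [mul_comm, Real.exp_mul, Real.exp_log hX0]
    norm_cast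
  rw [e5, ← Real.exp_add]
  refine Real.exp_le_exp.2 ?_
  have h0 := (abs_le.1 (hz i)).2
  rcases i with i | j
  · have h1 := logY_l (P := π lam.1) (t₀ := lam.2) (a := a) (ps := ps) (β := β) (y := y) hγ hx i
    have h2 := F.z1 i
    nlinarith
  · have h1 := logY_r (P := π lam.1) (t₀ := lam.2) (a := a) (ps := ps) (γ := γ) (x := x) hβ hy j
    have h2 := (abs_le.1 (F.vz j)).2
    have h3 : cu p (Fin.natAdd 2 j) * Real.log X ≤ 1 * Real.log X :=
      mul_le_mul_of_nonneg_right (Fr.cu_le F j) hL.le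
    nlinarith

/-- sums of the grid lengths -/
lemma sumz_le (F : Fr (π lam.1) lam.2 p X δ ρ B R N a ps) (hγ : ∀ i, IsPrim (γ i))
    (hβ : ∀ i, IsPrim (β i)) (hg : IsPrim g) (hx : x ∈ Tu (Fin m) g) (hy : y ∈ Tu (Fin 3) g)
    {z : Fin m ⊕ Fin 3 → ℝ}
    (hz : ∀ i, |z i - Real.log (chO (π lam.1) lam.2 a ps γ β g x y i).Y| ≤ 2 * R) :
    Real.exp (∑ j : Fin 3, z (.inr j) + ∑ i : Fin m, z (.inl i)) ≤
      Real.exp (∑ j, (vsO a j).z + ∑ i, (ps i).z + 2 * R * (N + 3)) * sf γ β g := by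
  have hsl := sumY_l (P := π lam.1) (t₀ := lam.2) (a := a) (ps := ps) (β := β) (y := y)
    F.hP hγ hg hx
  have hsr := sumY_r (P := π lam.1) (t₀ := lam.2) (a := a) (ps := ps) (γ := γ) (x := x)
    F.hP hβ hg hy
  rw [log_sf hγ hβ hg, ← Real.exp_add]
  refine Real.exp_le_exp.2 ?_
  have h1 : ∑ i : Fin m, z (.inl i) ≤
      ∑ i : Fin m, (Real.log (chO (π lam.1) lam.2 a ps γ β g x y (.inl i)).Y + 2 * R) :=
    sum_le_sum fun i _ => by
      have := (abs_le.1 (hz (.inl i))).2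
      linarith
  have h2 : ∑ i : Fin 3, z (.inr i) ≤
      ∑ i : Fin 3, (Real.log (chO (π lam.1) lam.2 a ps γ β g x y (.inr i)).Y + 2 * R) :=
    sum_le_sum fun i _ => by
      have := (abs_le.1 (hz (.inr i))).2
      linarith
  rw [sum_add_distrib, sum_const, card_univ, Fintype.card_fin, nsmul_eq_mul] at h1 h2
  have hR0 := F.R0
  have hmN : (m : ℝ) * (2 * R) ≤ N * (2 * R) :=
    mul_le_mul_of_nonneg_right (by exact_mod_cast F.len) (by linarith)
  push_cast at h2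
  linarith

/-- the total is at least `1` if no piece is too short -/
lemma one_le_WO (F : Fr (π lam.1) lam.2 p X δ ρ B R N a ps) (hL0 : 0 ≤ L0 p) (hε₁ : 0 ≤ ε₁)
    (hγ : ∀ i, IsPrim (γ i)) (hβ : ∀ i, IsPrim (β i)) (hg : IsPrim g) (hx : x ∈ Tu (Fin m) g)
    (hy : y ∈ Tu (Fin 3) g)
    (hlow : ∀ i, -R ≤ Real.log (chO (π lam.1) lam.2 a ps γ β g x y i).Y) :
    1 ≤ WO L0 p X δ ε₁ R N a ps * sf γ β g := by
  have h1 := sumz_le F hγ hβ hg hx hy
    (z := fun i => Real.log (chO (π lam.1) lam.2 a ps γ β g x y i).Y + 2 * R)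
    (fun i => by rw [add_sub_cancel_left, abs_of_nonneg (by linarith [F.R0])])
  have h2 : (1 : ℝ) ≤ Real.exp (∑ j : Fin 3,
      (Real.log (chO (π lam.1) lam.2 a ps γ β g x y (.inr j)).Y + 2 * R) +
      ∑ i : Fin m, (Real.log (chO (π lam.1) lam.2 a ps γ β g x y (.inl i)).Y + 2 * R)) := by
    refine Real.one_le_exp (add_nonneg (sum_nonneg fun j _ => ?_) (sum_nonneg fun i _ => ?_))
    · linarith [hlow (.inr j), F.R0]
    · linarith [hlow (.inl i), F.R0]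
  have h3 : 1 ≤ X ^ (cκ p + L0 p + ε₁ + 1200 * δ) :=
    Real.one_le_rpow F.X1.le (by linarith [F.par.κ0, F.d0])
  unfold WO
  rw [mul_assoc]
  exact one_le_mul_of_one_le_of_one_le h3 (h2.trans h1)

/-- **the error moment of a child** -/
theorem hch_of (hc : 0 < c) (hR : ∀ u, cx h u ≠ 0 → |u| ≤ R) (hH : ∀ u, ‖cx h u‖ ≤ H)
    (hHw : ∀ u, ‖((FE47.hD u : ℝ) : ℂ)‖ ≤ Hw) (hM : 0 ≤ M) (hsep : SepE h c R M Cs)
    (hCs : 1 ≤ Cs) (F : Fr (π lam.1) lam.2 p X δ ρ B R N a ps) (hS : Siz X H Hw e0 (Rf lam.1) R)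
    (hρ : 2 * X ^ ρ ≤ X ^ ρ₁) (hρ0 : 0 ≤ ρ) (hρ1 : ρ ≤ ρ₁) (hδ₁ : 320 * δ ≤ δ₁) (hB : 0 ≤ B)
    (hMρ : 100 * ((N : ℝ) + 3 + 1) ≤ ρ * M) (hL0 : 0 ≤ L0 p) (hε₁ : 0 ≤ ε₁) (hPar : p ∈ Par)
    (H8 : ∀ (a : Bc) (ps : List Pq), ps.length ≤ N →
      (∀ p ∈ ps, Dq.lump p ∨ Dq.nl X p ≤ δ₁) → ∀ q ∈ Dom8 Par, Win S8 q.1 δ₁ N (B + 2) ρ₁ X a →
      (∀ t, |Dq.mass X ps t - q.2 t| ≤ δ₁) → Dq.Good X ρ₁ (B + 2) ps →
      (∀ p ∈ ps, Dq.lump p → (S8.ev X a, Dq.nl X p) ∈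
        (∅ : Set (((Fin 3 ⊕ Fin 5) ⊕ Fin 3 → ℝ) × ℝ))) →
      ErC π h e0 Rf lam a ps ≤ X ^ (E8 L0 q + ε₁))
    (hγ : ∀ i, IsPrim (γ i)) (hβ : ∀ i, IsPrim (β i)) (hg : IsPrim g) (hx : x ∈ Tu (Fin m) g)
    (hy : y ∈ Tu (Fin 3) g)
    (hβ0 : Real.log (nm (∏ j, β j)) ≤ bfO a.l (∑ j, (vsO a j).z) a.z) :
    M2 (uM (Rf lam.1) (Real.exp a.l) (Real.exp (a.l / 20)))
      (Er (pC : ℂ) (Real.exp (e0 * a.l)) (Jo a.l (a3 a) a.z) (omP (nO a))
        (sqc 1 (al h (chO (π lam.1) lam.2 a ps γ β g x y)))) ≤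
      Cs ^ (N + 3) * WO L0 p X δ ε₁ R N a ps * sf γ β g := by
  have hL := F.L0
  have hX0 : 0 < X := by linarith [F.X1]
  have hX1 := F.X1.le
  have hsf : 0 < sf γ β g := sf_pos hγ hβ hg
  have hWpos : 0 < WO L0 p X δ ε₁ R N a ps := by unfold WO; positivity
  have hxp : ∀ i, IsPrim (x i) := ((mem_Tu).1 hx).1
  have hyp : ∀ i, IsPrim (y i) := ((mem_Tu).1 hy).1
  have hOK : ∀ i, (chO (π lam.1) lam.2 a ps γ β g x y i).OK :=
    chS_OK (fam_OK (π lam.1) lam.2 F.hP ps (vsO a)) hγ hxp hβ hyp g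
  have hJ : ∀ z ∈ Jo a.l (a3 a) a.z, z.1 ≠ 0 := fun z hz =>
    ((okJ_JW _ _ _).prim z hz).ne_zero
  by_cases hlow : ∀ i, -R ≤ Real.log (chO (π lam.1) lam.2 a ps γ β g x y i).Y
  swap
  · push Not at hlow
    obtain ⟨i, hi⟩ := hlow
    rw [sqc_zero hR hOK hi, M2_Er_zero _ _ hJ]
    positivity
  have hone := one_le_WO (L0 := L0) (ε₁ := ε₁) F hL0 hε₁ hγ hβ hg hx hy hlow
  -- the grid
  have key := hsep (Fin m ⊕ Fin 3) (chO (π lam.1) lam.2 a ps γ β g x y) hOK (pC : ℂ)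
    (Real.exp (e0 * a.l)) (Jo a.l (a3 a) a.z) hJ (omP (nO a))
    (uM (Rf lam.1) (Real.exp a.l) (Real.exp (a.l / 20))) (uM_nonneg _ _ _)
    (uM_fin (Real.exp_pos _)) (WO L0 p X δ ε₁ R N a ps * sf γ β g) (by positivity)
    (fun n τ hn => by
      have hz0 : ∀ i, 0 ≤ c * (n i : ℝ) := fun i => by positivity
      refine split_h (T₀ := X ^ ρ) (A := X ^ (100 * (N + 3 + 1))) hM (by positivity)
        (by positivity) ?_ (F := fun τ => M2 (uM (Rf lam.1) (Real.exp a.l) (Real.exp (a.l / 20)))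
          (Er (pC : ℂ) (Real.exp (e0 * a.l)) (Jo a.l (a3 a) a.z) (omP (nO a))
            (sqc 1 (al h (reY (chO (π lam.1) lam.2 a ps γ β g x y)
              (fun i => Real.exp (c * n i))
              (fun i => (chO (π lam.1) lam.2 a ps γ β g x y i).t + τ i)))))) ?_ ?_ τ
      · -- the trivial bound is small
        have e1 : X ^ (100 * (N + 3 + 1)) ≤ (1 + X ^ ρ) ^ M := by
          calc X ^ (100 * (N + 3 + 1)) = X ^ (100 * ((N : ℝ) + 3 + 1)) := by
                rw [← Real.rpow_natCast]; push_cast; rfl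
            _ ≤ X ^ (ρ * M) := Real.rpow_le_rpow_of_exponent_le hX1 hMρ
            _ = (X ^ ρ) ^ M := Real.rpow_mul hX0.le _ _
            _ ≤ _ := Real.rpow_le_rpow (by positivity) (by linarith) hM
        exact e1.trans (le_mul_of_one_le_left (by positivity) hone)
      · -- small heights
        intro τ hτ
        rw [reY_chO hγ hβ hg (fun i => c * n i) τ]
        have hchi := chi_of (δ₁ := δ₁) F hγ hβ hg hx hy hlow hz0 hn hτ hρ (by linarith [F.d0])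
        have h8 := use8 (Ψ := ErC π h e0 Rf lam) (B := B) F.X1 F.d0 F.d1 hδ₁ hρ1
          (by linarith) (by linarith) (by linarith) H8 hPar F.par F.w hchi (by
          -- the short parents
          have hsr := sumY_r (P := π lam.1) (t₀ := lam.2) (a := a) (ps := ps) (γ := γ) (x := x)
            F.hP hβ hg hy
          have hsl := sumY_l (P := π lam.1) (t₀ := lam.2) (a := a) (ps := ps) (β := β) (y := y)
            F.hP hγ hg hx
          have hγ1 : 0 ≤ Real.log (nm (∏ i, γ i)) := Real.log_nonneg (nmP hγ)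
          have hlowl : -(m * R) ≤
              ∑ i : Fin m, Real.log (chO (π lam.1) lam.2 a ps γ β g x y (.inl i)).Y := by
            have h1 : ∑ _i : Fin m, (-R) ≤
                ∑ i : Fin m, Real.log (chO (π lam.1) lam.2 a ps γ β g x y (.inl i)).Y :=
              sum_le_sum fun i _ => hlow (.inl i)
            rw [sum_const, card_univ, Fintype.card_fin, nsmul_eq_mul] at h1
            linarith
          have h1 : ∑ j : Fin 3, (Real.log (chO (π lam.1) lam.2 a ps γ β g x y (.inr j)).Y -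
              2 * R) ≤ ∑ j : Fin 3, (vC a (y := y) hβ hg (fun i => c * n i) τ j).z :=
            sum_le_sum fun j _ => by
              have := (abs_le.1 (hn (.inr j))).1
              show _ ≤ c * (n (.inr j) : ℝ)
              linarith
          rw [sum_sub_distrib, sum_const, card_univ, Fintype.card_fin, nsmul_eq_mul] at h1
          push_cast at h1
          have h2 : 0 ≤ tlen (List.ofFn (qC ps (x := x) hγ hg (fun i => c * n i) τ)) :=
            tlen_nonneg hchi.y0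
          have htot := abs_le.1 F.tot
          have haz := abs_le.1 F.az
          have hlz := abs_le.1 F.lz
          have hRm := F.Rm
          have hR0 := F.R0
          have hmR : 0 ≤ (m : ℝ) * R := by positivity
          have hdL : 0 ≤ δ * Real.log X := mul_nonneg F.d0 hL.le
          unfold bfO at hβ0
          nlinarith)
        refine (le_of_eq ?_).trans (h8.trans ?_)
        · unfold ErC
          rw [if_pos ⟨F.ok, F.t0, fun i => ⟨hchi.lump i, hchi.z0 i⟩, hchi.am⟩, al_fam]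
        · unfold WO
          rw [mul_assoc]
          refine mul_le_mul_of_nonneg_left ?_ (by positivity)
          have h9 := sumz_le F hγ hβ hg hx hy hn
          rw [tlen_ofFn]
          exact h9
      · -- large heights
        intro τ
        have h1 := er_big (N := N + 3) hR hH hHw hS.toBig hS.w
          (s := reY (chO (π lam.1) lam.2 a ps γ β g x y) (fun i => Real.exp (c * n i))
            (fun i => (chO (π lam.1) lam.2 a ps γ β g x y i).t + τ i))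
          (fun i => ⟨(hOK i).ch, Real.exp_pos _⟩)
          (fun i => Y3_le F hγ hβ hx hy hn i)
          (by
            rw [Fintype.card_sum, Fintype.card_fin, Fintype.card_fin]
            have := F.len
            omega) (nO_le F hS.c) (E0 := Real.exp (e0 * a.l)) (Real.exp_pos _).le
          ((exp_l_le F hS.e1 (l_nonneg F)).trans (pow_le_pow_right₀ hX1 (by norm_num)))
          (YT_nonneg a.l (a3 a) a.z) (YT_le F hS.c) (uM_le_one (Rf lam.1) (Real.exp a.l)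
            (Real.exp (a.l / 20))) (fun k hk => us_le F hS.r k hk)
        exact h1)
  refine key.trans ?_
  rw [← mul_assoc]
  refine mul_le_mul_of_nonneg_right (mul_le_mul_of_nonneg_right ?_ hWpos.le) hsf.le
  refine pow_le_pow_right₀ hCs ?_
  rw [Fintype.card_sum, Fintype.card_fin, Fintype.card_fin]
  have := F.len
  omega

lemma supp_sqc {I : Type*} [Fintype I] [DecidableEq I] (hR : ∀ u, cx h u ≠ 0 → |u| ≤ R)
    {s : I → Pc} (hs : ∀ i, (s i).OK) {n : Eis} (hn : sqc 1 (al h s) n ≠ 0) :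
    IsPrim n ∧ (nm n : ℝ) ≤ ∏ i, ((s i).Y * Real.exp R) := by
  have h1 : cv (fun i => pc h (s i)) n ≠ 0 := right_ne_zero_of_mul hn
  unfold cv at h1
  obtain ⟨x, hx, hx0⟩ := Finset.exists_ne_zero_of_sum_ne_zero h1
  rw [mem_Tu] at hx
  rw [← hx.2]
  have h2 := fun i => supp_pc hR (hs i).Y0 (Finset.prod_ne_zero_iff.1 hx0 i (mem_univ i))
  refine ⟨E554.isPrim_prod fun i _ => hx.1 i, ?_⟩
  rw [E554.nm_prod]
  push_cast
  exact prod_le_prod (fun i _ => Nat.cast_nonneg _) fun i _ => h2 i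

end

end Crest.Agent.R017.P1q54
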