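import Crest.Agent.R017.P1q_54

/-!
# Row 17, R8/P1 at list level, part 12 (helper54): the hypotheses of `err_listT`

* `hmm_of` : the mismatch of a child from `P1M`
-/

set_option autoImplicit false

noncomputable section

open Finset
open scoped ComplexConjugate

namespace Crest.Agent.R017.P1r54

open Crest.Agent.R012 Crest.Agent.R012.Eis
open Crest.Agent.R012.Mob705 hiding pb mem_pb
open Crest.Agent.R012.LS2 (S mem_S)
open Crest.Agent.R017.CM106 Crest.Agent.R017.C70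
open Crest.Agent.R017.FE47 (PU cx SM)
open Crest.Agent.R017.StD828 (ln Tm)
open Crest.Agent.R017.E2440 (TE StE Bth Bth_nonneg)
open Crest.Agent.R017.E5k54 (PT alb)
open Crest.Agent.R017.SSb54 (SST SSb PTb mem_PTb PTb_sub)
open Crest.Agent.R017.P1e54 Crest.Agent.R017.P1f54 Crest.Agent.R017.P1i54 Crest.Agent.R017.P1j54
open Crest.Agent.R017.P1k54 Crest.Agent.R017.P1l54 Crest.Agent.R017.P1n54 Crest.Agent.R017.P1o54
open Crest.Agent.R017.P1p54 Crest.Agent.R017.P1q54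
open Crest.Agent.R017.HP842 (Pc pc al alL cv Tu mem_Tu sqc Th)
open Crest.Agent.R017.B770 Crest.Agent.R017.Prov71
open Crest.Agent.R017.XG702 (Pcs)
open Crest.Agent.R017.XT71 (Sys Win mx mx_le le_mx)
open Crest.Agent.R017.UM71
open Crest.Agent.R017.E5B71 Crest.Agent.R017.E5L770
open Crest.Agent.R017.HBsB445 (prod_ch1 prod_chS sf_pos)

attribute [local irreducible] HP842.Tu

section

variable {Λ : Type*} {π : Λ → DPar} {h : ℝ → ℝ} {e0 : ℝ} {Rf : Λ → ℝ} {lam : Λ × Eis}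
  {p : Fin 3 ⊕ Fin 5 → ℝ} {X δ δ₁ ρ ρ₁ B R c H Hw M Cs ε₁ : ℝ} {N : ℕ} {a : Bd}
  {m : ℕ} {ps : Fin m → Pq} {γ x : Fin m → Eis} {β y : Fin 3 → Eis} {g : Eis}
  {Par : Set (Fin 3 ⊕ Fin 5 → ℝ)} {L0 : (Fin 3 ⊕ Fin 5 → ℝ) → ℝ}

/-- the family of the mismatch -/
abbrev Yo (P : DPar) (t₀ : Eis) (a : Bd) (ps : Fin m → Pq) (γ : Fin m → Eis) (β : Fin 3 → Eis) :
    Fin m ⊕ Fin 3 → Pc :=
  chO P t₀ a ps γ β 1 (fun _ => 1) (fun _ => 1)

lemma one_mem_Tu {I : Type*} [Fintype I] [DecidableEq I] : (fun _ : I => (1 : Eis)) ∈ Tu I 1 := by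
  rw [Tu_one]; exact mem_singleton_self _

lemma sf_g (hγ : ∀ i, IsPrim (γ i)) (hβ : ∀ i, IsPrim (β i)) (hg : IsPrim g) :
    sf γ β g = sf γ β 1 * Real.exp (-(2 * Real.log (nm g))) := by
  rw [log_sf hγ hβ hg, log_sf hγ hβ isPrim_one, ← Real.exp_add, nm_one, Nat.cast_one,
    Real.log_one]
  congr 1
  ring

/-- the total is at least one -/
lemma hmm_one (F : Fr (π lam.1) lam.2 p X δ ρ B R N a ps) (hL0 : 0 ≤ L0 p) (hε₁ : 0 ≤ ε₁)
    (hγ : ∀ i, IsPrim (γ i)) (hβ : ∀ i, IsPrim (β i)) (hg : IsPrim g)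
    (hlow : ∀ i, -R ≤ Real.log (Yo (π lam.1) lam.2 a ps γ β i).Y)
    (hgl : Real.log (nm g) ≤
      ∑ i : Fin m, Real.log (Yo (π lam.1) lam.2 a ps γ β (.inl i)).Y + R * m) :
    1 ≤ WO L0 p X δ ε₁ R N a ps * sf γ β g := by
  have hL := F.L0
  have hX0 : 0 < X := by linarith [F.X1]
  have hR0 := F.R0
  have hmR : 0 ≤ (m : ℝ) * R := by positivity
  have hx : (fun _ => (1 : Eis)) ∈ Tu (Fin m) 1 := one_mem_Tu
  have hy : (fun _ => (1 : Eis)) ∈ Tu (Fin 3) 1 := one_mem_Tu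
  have h1p : IsPrim (1 : Eis) := isPrim_one
  have hsl := sumY_l (P := π lam.1) (t₀ := lam.2) (a := a) (ps := ps) (β := β)
    (y := fun _ => 1) F.hP hγ h1p hx
  rw [nm_one, Nat.cast_one, Real.log_one, add_zero] at hsl
  have hγ1 : 0 ≤ Real.log (nm (∏ i, γ i)) := Real.log_nonneg (nmP hγ)
  have htot := abs_le.1 F.tot
  have hRm := F.Rm'
  have hd1 := F.d1
  have hdL0 : 0 ≤ δ * Real.log X := mul_nonneg F.d0 hL.le
  have hdL : δ * Real.log X ≤ 1 / 240 * Real.log X :=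
    mul_le_mul_of_nonneg_right (by linarith) hL.le
  have hxL : cx' p * Real.log X ≤ 1 / 3 * Real.log X :=
    mul_le_mul_of_nonneg_right F.par.x1 hL.le
  have hκ : 8 / 9 * Real.log X ≤ cκ p * Real.log X :=
    mul_le_mul_of_nonneg_right F.par.κ0 hL.le
  have h1 := sumz_le F hγ hβ h1p hx hy
    (z := fun i => Real.log (Yo (π lam.1) lam.2 a ps γ β i).Y + 2 * R)
    (fun i => by rw [add_sub_cancel_left, abs_of_nonneg (by linarith)])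
  have h2 : 0 ≤ ∑ j : Fin 3, (Real.log (Yo (π lam.1) lam.2 a ps γ β (.inr j)).Y + 2 * R) :=
    sum_nonneg fun j _ => by linarith [hlow (.inr j)]
  have h2' : 0 ≤ ∑ j : Fin m, (Real.log (Yo (π lam.1) lam.2 a ps γ β (.inl j)).Y + 2 * R) :=
    sum_nonneg fun j _ => by linarith [hlow (.inl j)]
  have h3 : Real.exp (2 * Real.log (nm g)) ≤ X ^ (cκ p + L0 p + ε₁ + 1200 * δ) := by
    rw [Real.rpow_def_of_pos hX0]
    refine Real.exp_le_exp.2 ?_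
    have h4 : Real.log X * cκ p ≤ Real.log X * (cκ p + L0 p + ε₁ + 1200 * δ) :=
      mul_le_mul_of_nonneg_left (by linarith [F.d0]) hL.le
    nlinarith
  rw [sf_g hγ hβ hg]
  unfold WO
  have h5 : X ^ (cκ p + L0 p + ε₁ + 1200 * δ) *
      Real.exp (∑ j, (vsO a j).z + ∑ i, (ps i).z + 2 * R * (N + 3)) *
      (sf γ β 1 * Real.exp (-(2 * Real.log (nm g)))) =
      (X ^ (cκ p + L0 p + ε₁ + 1200 * δ) * Real.exp (-(2 * Real.log (nm g)))) *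
      (Real.exp (∑ j, (vsO a j).z + ∑ i, (ps i).z + 2 * R * (N + 3)) * sf γ β 1) := by ring
  rw [h5]
  refine one_le_mul_of_one_le_of_one_le ?_ (le_trans (Real.one_le_exp (add_nonneg h2 h2')) h1)
  rw [Real.exp_neg, ← div_eq_mul_inv, one_le_div (Real.exp_pos _)]
  exact h3

/-- no divisor: the mismatch vanishes -/
lemma g_le (hR : ∀ u, cx h u ≠ 0 → |u| ≤ R) {s : Fin m → Pc} (hs : ∀ i, (s i).OK)
    (hg : IsPrim g) {b : Eis} (hne : sqc 1 (al h s) (g * b) ≠ 0) :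
    Real.log (nm g) ≤ ∑ i : Fin m, Real.log (s i).Y + R * m := by
  have hgpos : (0 : ℝ) < nm g := by linarith [one_le_nm hg]
  obtain ⟨q1, q2⟩ := supp_sqc hR hs hne
  have q3 : IsPrim b := q1.of_mul_left hg
  have q4 : (nm g : ℝ) ≤ nm (g * b) := by
    rw [nm_mul]
    push_cast
    exact le_mul_of_one_le_right hgpos.le (one_le_nm q3)
  have q5 : Real.log (nm g) ≤ Real.log (∏ i : Fin m, ((s i).Y * Real.exp R)) :=
    Real.log_le_log hgpos (q4.trans q2)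
  rw [Real.log_prod (fun i _ => (mul_pos (hs i).Y0 (Real.exp_pos _)).ne')] at q5
  refine q5.trans (le_of_eq ?_)
  have q6 : ∀ i ∈ (univ : Finset (Fin m)), Real.log ((s i).Y * Real.exp R) =
      Real.log (s i).Y + R := fun i _ => by
    rw [Real.log_mul (hs i).Y0.ne' (Real.exp_pos _).ne', Real.log_exp]
  rw [sum_congr rfl q6, sum_add_distrib, sum_const, card_univ, Fintype.card_fin,
    nsmul_eq_mul]
  ring

/-- the mismatch moment -/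
def mmS (h : ℝ → ℝ) (e0 Rl : ℝ) (a : Bd) (ζ : ℝ) (g : Eis) (s : Fin m ⊕ Fin 3 → Pc) : ℝ :=
  M2 (uM Rl (Real.exp a.l) (Real.exp (a.l / 20)))
    (Mm (JW (Real.sqrt (YT a.l (a3 a) a.z) * Real.exp ζ) (1 / 10)
      (YT a.l (a3 a) a.z * Real.exp ζ ^ 2)) (Real.exp (e0 * a.l)) (Real.exp ζ) (oN (nO a)) g
      (sqc 1 (al h fun i => s (.inl i))) (sqc 1 (al h fun j => s (.inr j))))

/-- the support of the amplifier sequence of a child -/
lemma supp_qC (hR : ∀ u, cx h u ≠ 0 → |u| ≤ R) {P : DPar} (hP : P.OK) {t₀ : Eis} {x : Fin m → Eis}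
    {g : Eis} (hγ : ∀ i, IsPrim (γ i)) (hg : IsPrim g) {z τ : Fin m ⊕ Fin 3 → ℝ} {ζ : ℝ}
    (hζ : ∑ i : Fin m, (z (.inl i) + R) ≤ ζ) {n : Eis}
    (hn : sqc 1 (alL h ((List.ofFn (qC ps (x := x) hγ hg z τ)).map (Pt P t₀))) n ≠ 0) :
    (nm n : ℝ) ≤ Real.exp ζ := by
  rw [List.map_ofFn, ← HP842.al_eq] at hn
  obtain ⟨-, h2⟩ := supp_sqc hR (fun i => Pt_OK hP t₀ _) hn
  refine h2.trans ?_
  have e1 : ∀ i : Fin m, (Pt P t₀ (qC ps (x := x) hγ hg z τ i)).Y * Real.exp R =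
      Real.exp (z (.inl i) + R) := fun i => by
    rw [Real.exp_add]
    rfl
  rw [prod_congr rfl fun i _ => e1 i, ← Real.exp_sum]
  exact Real.exp_le_exp.2 hζ

set_option maxHeartbeats 1600000 in
/-- small heights -/
theorem hmm_small (hc : 0 < c) (hR : ∀ u, cx h u ≠ 0 → |u| ≤ R)
    (F : Fr (π lam.1) lam.2 p X δ ρ B R N a ps)
    (hρ : 2 * X ^ ρ ≤ X ^ ρ₁) (hρ0 : 0 ≤ ρ) (hρ1 : ρ ≤ ρ₁) (hδ₁ : 320 * δ ≤ δ₁) (hB : 0 ≤ B)
    (hPar : p ∈ Par)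
    (H9 : ∀ (a : Bm) (ps : List Pq), ps.length ≤ N →
      (∀ p ∈ ps, Dq.lump p ∨ Dq.nl X p ≤ δ₁) → ∀ q ∈ Dom9 Par, Win S9 q.1 δ₁ N (B + 2) ρ₁ X a →
      (∀ t, |Dq.mass X ps t - q.2 t| ≤ δ₁) → Dq.Good X ρ₁ (B + 2) ps →
      (∀ p ∈ ps, Dq.lump p → (S9.ev X a, Dq.nl X p) ∈
        (∅ : Set ((((Fin 3 ⊕ Fin 5) ⊕ Fin 3) ⊕ Fin 2 → ℝ) × ℝ))) →
      MmC π h e0 Rf lam a ps ≤ X ^ (E9 L0 q + ε₁))
    (hγ : ∀ i, IsPrim (γ i)) (hβ : ∀ i, IsPrim (β i)) (hg : IsPrim g) (hgs : Squarefree g)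
    (hβ0 : Real.log (nm (∏ j, β j)) ≤ bfO a.l (∑ j, (vsO a j).z) a.z) {ζ : ℝ}
    (hζ : ζ = ∑ i, (ps i).z + 3 * R * m)
    (hlow : ∀ i, -R ≤ Real.log (Yo (π lam.1) lam.2 a ps γ β i).Y)
    (hgl : Real.log (nm g) ≤
      ∑ i : Fin m, Real.log (Yo (π lam.1) lam.2 a ps γ β (.inl i)).Y + R * m)
    {n : Fin m ⊕ Fin 3 → ℕ} {τ : Fin m ⊕ Fin 3 → ℝ}
    (hn : ∀ i, |c * n i - Real.log (Yo (π lam.1) lam.2 a ps γ β i).Y| ≤ 2 * R)
    (hτ : ∀ i, |τ i| ≤ X ^ ρ) :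
    mmS h e0 (Rf lam.1) a ζ g (reY (Yo (π lam.1) lam.2 a ps γ β) (fun i => Real.exp (c * n i))
      (fun i => (Yo (π lam.1) lam.2 a ps γ β i).t + τ i)) ≤
      WO L0 p X δ ε₁ R N a ps * sf γ β g := by
  have hL := F.L0
  have hX0 : 0 < X := by linarith [F.X1]
  have hX1 := F.X1.le
  have hR0 := F.R0
  have hmR : 0 ≤ (m : ℝ) * R := by positivity
  have hx : (fun _ => (1 : Eis)) ∈ Tu (Fin m) 1 := one_mem_Tu
  have hy : (fun _ => (1 : Eis)) ∈ Tu (Fin 3) 1 := one_mem_Tu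
  have h1p : IsPrim (1 : Eis) := isPrim_one
  have hz0 : ∀ i, 0 ≤ c * (n i : ℝ) := fun i => by positivity
  have hsl := sumY_l (P := π lam.1) (t₀ := lam.2) (a := a) (ps := ps) (β := β)
    (y := fun _ => 1) F.hP hγ h1p hx
  have hsr := sumY_r (P := π lam.1) (t₀ := lam.2) (a := a) (ps := ps) (γ := γ)
    (x := fun _ => 1) F.hP hβ h1p hy
  rw [nm_one, Nat.cast_one, Real.log_one, add_zero] at hsl hsr
  have hγ1 : 0 ≤ Real.log (nm (∏ i, γ i)) := Real.log_nonneg (nmP hγ)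
  have hβ1 : 0 ≤ Real.log (nm (∏ i, β i)) := Real.log_nonneg (nmP hβ)
  have hg1 : 0 ≤ Real.log (nm g) := Real.log_nonneg (one_le_nm hg)
  have htot := abs_le.1 F.tot
  have haz := abs_le.1 F.az
  have hlz := abs_le.1 F.lz
  have hvs := abs_le.1 F.vsum
  have hRm := F.Rm'
  have hdL0 : 0 ≤ δ * Real.log X := mul_nonneg F.d0 hL.le
  have hd1 := F.d1
  have hdL : δ * Real.log X ≤ 1 / 240 * Real.log X :=
    mul_le_mul_of_nonneg_right (by linarith) hL.le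
  have hxL : cx' p * Real.log X ≤ 1 / 3 * Real.log X :=
    mul_le_mul_of_nonneg_right F.par.x1 hL.le
  have hx0L : 0 ≤ cx' p * Real.log X := mul_nonneg F.par.x0 hL.le
  have hκ : 8 / 9 * Real.log X ≤ cκ p * Real.log X :=
    mul_le_mul_of_nonneg_right F.par.κ0 hL.le
  rw [reY_chO hγ hβ h1p (fun i => c * n i) τ]
  have hchi := chi_of (δ₁ := δ₁) F hγ hβ h1p hx hy hlow hz0 hn hτ hρ
    (by linarith [F.d0])
  have h1 : ∑ j : Fin 3, (Real.log (Yo (π lam.1) lam.2 a ps γ β (.inr j)).Y - 2 * R) ≤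
      ∑ j : Fin 3, (vC a (y := fun _ => 1) hβ h1p (fun i => c * n i) τ j).z :=
    sum_le_sum fun j _ => by
      have := (abs_le.1 (hn (.inr j))).1
      show _ ≤ c * (n (.inr j) : ℝ)
      linarith
  rw [sum_sub_distrib, sum_const, card_univ, Fintype.card_fin, nsmul_eq_mul] at h1
  push_cast at h1
  have h2 : ∑ j : Fin m, (Real.log (Yo (π lam.1) lam.2 a ps γ β (.inl j)).Y - 2 * R) ≤
      tlen (List.ofFn (qC ps (x := fun _ => 1) hγ h1p (fun i => c * n i) τ)) := by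
    rw [tlen_ofFn]
    exact sum_le_sum fun j _ => by
      have := (abs_le.1 (hn (.inl j))).1
      show _ ≤ c * (n (.inl j) : ℝ)
      linarith
  rw [sum_sub_distrib, sum_const, card_univ, Fintype.card_fin, nsmul_eq_mul] at h2
  have hsup : ∑ i : Fin m, ((fun i => c * (n i : ℝ)) (.inl i) + R) ≤ ζ := by
    have h3 : ∑ i : Fin m, ((fun i => c * (n i : ℝ)) (Sum.inl i : Fin m ⊕ Fin 3) + R) ≤
        ∑ i : Fin m, (Real.log (Yo (π lam.1) lam.2 a ps γ β (.inl i)).Y + 3 * R) :=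
      sum_le_sum fun j _ => by
        have := (abs_le.1 (hn (.inl j))).2
        show c * (n (.inl j) : ℝ) + R ≤ _
        linarith
    refine h3.trans ?_
    rw [sum_add_distrib, sum_const, card_univ, Fintype.card_fin, nsmul_eq_mul, hζ]
    linarith
  have h9 := use9 (Ψ := MmC π h e0 Rf lam) (B := B) (g := g) (ζ := ζ) F.X1 F.d0 F.d1
    hδ₁ hρ1 (by linarith) (by linarith) (by linarith) H9 hPar F.par F.w hchi hg.ne_zero
    (by
      have h5 : 320 * (δ * Real.log X) ≤ δ₁ * Real.log X := by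
        have := mul_le_mul_of_nonneg_right hδ₁ hL.le
        linarith
      rw [hζ, abs_le]
      constructor <;> nlinarith) (by
      nlinarith) (by
      unfold bfO at hβ0
      nlinarith)
  refine (le_of_eq ?_).trans (h9.trans ?_)
  · unfold MmC mmS
    rw [if_pos ⟨⟨F.ok, F.t0, fun i => ⟨hchi.lump i, hchi.z0 i⟩, hchi.am⟩, hg, hgs, by
      rw [hζ]
      have : 0 ≤ ∑ i, (ps i).z := sum_nonneg fun i _ => F.z0 i
      nlinarith, fun n hn => supp_qC hR F.hP hγ h1p hsup hn⟩]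
    rw [HP842.al_eq, HP842.al_eq, List.map_ofFn, List.map_ofFn]
    rfl
  · unfold WO
    rw [mul_assoc]
    refine mul_le_mul_of_nonneg_left ?_ (by positivity)
    have h9 := sumz_le F hγ hβ h1p hx hy hn
    rw [tlen_ofFn, sf_g hγ hβ hg, ← mul_assoc, sub_eq_add_neg, Real.exp_add]
    exact mul_le_mul_of_nonneg_right h9 (Real.exp_pos _).le

/-- large heights -/
theorem hmm_large (hR : ∀ u, cx h u ≠ 0 → |u| ≤ R) (hH : ∀ u, ‖cx h u‖ ≤ H)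
    (hHw : ∀ u, ‖((FE47.hD u : ℝ) : ℂ)‖ ≤ Hw)
    (F : Fr (π lam.1) lam.2 p X δ ρ B R N a ps) (hS : Siz X H Hw e0 (Rf lam.1) R)
    (hγ : ∀ i, IsPrim (γ i)) (hβ : ∀ i, IsPrim (β i)) {ζ : ℝ}
    (hζ : ζ = ∑ i, (ps i).z + 3 * R * m)
    {n : Fin m ⊕ Fin 3 → ℕ} {τ : Fin m ⊕ Fin 3 → ℝ}
    (hn : ∀ i, |c * n i - Real.log (Yo (π lam.1) lam.2 a ps γ β i).Y| ≤ 2 * R) :
    mmS h e0 (Rf lam.1) a ζ g (reY (Yo (π lam.1) lam.2 a ps γ β) (fun i => Real.exp (c * n i))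
      (fun i => (Yo (π lam.1) lam.2 a ps γ β i).t + τ i)) ≤ X ^ (100 * (N + 3 + 1)) := by
  have hL := F.L0
  have hX0 : 0 < X := by linarith [F.X1]
  have hX1 := F.X1.le
  have hR0 := F.R0
  have hmR : 0 ≤ (m : ℝ) * R := by positivity
  have hx : (fun _ => (1 : Eis)) ∈ Tu (Fin m) 1 := one_mem_Tu
  have hy : (fun _ => (1 : Eis)) ∈ Tu (Fin 3) 1 := one_mem_Tu
  have h1p : IsPrim (1 : Eis) := isPrim_one
  have hOK : ∀ i, (Yo (π lam.1) lam.2 a ps γ β i).OK :=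
    chS_OK (fam_OK (π lam.1) lam.2 F.hP ps (vsO a)) hγ (fun _ => h1p) hβ (fun _ => h1p) 1
  have htot := abs_le.1 F.tot
  have hRm := F.Rm'
  have hdL0 : 0 ≤ δ * Real.log X := mul_nonneg F.d0 hL.le
  have hd1 := F.d1
  have hdL : δ * Real.log X ≤ 1 / 240 * Real.log X :=
    mul_le_mul_of_nonneg_right (by linarith) hL.le
  have hxL : cx' p * Real.log X ≤ 1 / 3 * Real.log X :=
    mul_le_mul_of_nonneg_right F.par.x1 hL.le
  have hζX : Real.exp ζ ≤ X ^ 3 := by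
    have e5 : X ^ 3 = Real.exp (3 * Real.log X) := by
      rw [mul_comm, Real.exp_mul, Real.exp_log hX0]
      norm_cast
    rw [e5, hζ]
    exact Real.exp_le_exp.2 (by nlinarith)
  exact mm_big (N := N + 3) hR hH hHw hS.toBig hS.w
    (s := fun i : Fin m => reY (Yo (π lam.1) lam.2 a ps γ β) (fun i => Real.exp (c * n i))
      (fun i => (Yo (π lam.1) lam.2 a ps γ β i).t + τ i) (.inl i))
    (fun i => ⟨(hOK (.inl i)).ch, Real.exp_pos _⟩)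
    (s' := fun i : Fin 3 => reY (Yo (π lam.1) lam.2 a ps γ β) (fun i => Real.exp (c * n i))
      (fun i => (Yo (π lam.1) lam.2 a ps γ β i).t + τ i) (.inr i))
    (fun i => ⟨(hOK (.inr i)).ch, Real.exp_pos _⟩)
    (fun i => Y3_le F hγ hβ hx hy hn (.inl i)) (fun i => Y3_le F hγ hβ hx hy hn (.inr i))
    (by
      rw [Fintype.card_fin]
      have := F.len
      omega) (by
      rw [Fintype.card_fin]
      omega) (nO_le F hS.c) (E0 := Real.exp (e0 * a.l)) (Real.exp_pos _).le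
    ((exp_l_le F hS.e1 (l_nonneg F)).trans (pow_le_pow_right₀ hX1 (by norm_num)))
    (YT_nonneg a.l (a3 a) a.z) (YT_le F hS.c) (Real.exp_pos _).le hζX g
    (uM_le_one (Rf lam.1) (Real.exp a.l) (Real.exp (a.l / 20)))
    (fun k hk => us_le F hS.r k hk)

/-- the mismatch moment of the families -/
theorem hmm_S (hc : 0 < c) (hR : ∀ u, cx h u ≠ 0 → |u| ≤ R) (hH : ∀ u, ‖cx h u‖ ≤ H)
    (hHw : ∀ u, ‖((FE47.hD u : ℝ) : ℂ)‖ ≤ Hw) (hM : 0 ≤ M) (hsep : SepM h c R M Cs)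
    (hCs : 1 ≤ Cs) (F : Fr (π lam.1) lam.2 p X δ ρ B R N a ps) (hS : Siz X H Hw e0 (Rf lam.1) R)
    (hρ : 2 * X ^ ρ ≤ X ^ ρ₁) (hρ0 : 0 ≤ ρ) (hρ1 : ρ ≤ ρ₁) (hδ₁ : 320 * δ ≤ δ₁) (hB : 0 ≤ B)
    (hMρ : 100 * ((N : ℝ) + 3 + 1) ≤ ρ * M) (hL0 : 0 ≤ L0 p) (hε₁ : 0 ≤ ε₁) (hPar : p ∈ Par)
    (H9 : ∀ (a : Bm) (ps : List Pq), ps.length ≤ N →
      (∀ p ∈ ps, Dq.lump p ∨ Dq.nl X p ≤ δ₁) → ∀ q ∈ Dom9 Par, Win S9 q.1 δ₁ N (B + 2) ρ₁ X a →
      (∀ t, |Dq.mass X ps t - q.2 t| ≤ δ₁) → Dq.Good X ρ₁ (B + 2) ps →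
      (∀ p ∈ ps, Dq.lump p → (S9.ev X a, Dq.nl X p) ∈
        (∅ : Set ((((Fin 3 ⊕ Fin 5) ⊕ Fin 3) ⊕ Fin 2 → ℝ) × ℝ))) →
      MmC π h e0 Rf lam a ps ≤ X ^ (E9 L0 q + ε₁))
    (hγ : ∀ i, IsPrim (γ i)) (hβ : ∀ i, IsPrim (β i)) (hg : IsPrim g) (hgs : Squarefree g)
    (hβ0 : Real.log (nm (∏ j, β j)) ≤ bfO a.l (∑ j, (vsO a j).z) a.z) {ζ : ℝ}
    (hζ : ζ = ∑ i, (ps i).z + 3 * R * m) :
    mmS h e0 (Rf lam.1) a ζ g (Yo (π lam.1) lam.2 a ps γ β) ≤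
      Cs ^ (N + 3) * WO L0 p X δ ε₁ R N a ps * sf γ β g := by
  classical
  have hX1 := F.X1.le
  have hX0 : 0 < X := by linarith [F.X1]
  have hsf : 0 < sf γ β g := sf_pos hγ hβ hg
  have hWpos : 0 < WO L0 p X δ ε₁ R N a ps := by unfold WO; positivity
  have h1p : IsPrim (1 : Eis) := isPrim_one
  have hOK : ∀ i, (Yo (π lam.1) lam.2 a ps γ β i).OK :=
    chS_OK (fam_OK (π lam.1) lam.2 F.hP ps (vsO a)) hγ (fun _ => h1p) hβ (fun _ => h1p) 1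
  have hJ : ∀ z ∈ JW (Real.sqrt (YT a.l (a3 a) a.z) * Real.exp ζ) (1 / 10)
    (YT a.l (a3 a) a.z * Real.exp ζ ^ 2), z.1 ≠ 0 := fun z hz =>
    ((okJ_JW _ _ _).prim z hz).ne_zero
  have hZ0 : 0 ≤ Real.exp ζ := (Real.exp_pos _).le
  have hzero : (∀ k, Mm (JW (Real.sqrt (YT a.l (a3 a) a.z) * Real.exp ζ) (1 / 10)
      (YT a.l (a3 a) a.z * Real.exp ζ ^ 2)) (Real.exp (e0 * a.l)) (Real.exp ζ) (oN (nO a)) g
      (sqc 1 (al h fun i => Yo (π lam.1) lam.2 a ps γ β (.inl i)))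
      (sqc 1 (al h fun i => Yo (π lam.1) lam.2 a ps γ β (.inr i))) k = 0) →
      mmS h e0 (Rf lam.1) a ζ g (Yo (π lam.1) lam.2 a ps γ β) ≤
      Cs ^ (N + 3) * WO L0 p X δ ε₁ R N a ps * sf γ β g := by
    intro h0
    unfold mmS M2
    simp_rw [h0]
    simp only [norm_zero, ne_eq, OfNat.ofNat_ne_zero, not_false_eq_true, zero_pow, mul_zero,
      tsum_zero]
    positivity
  by_cases hlow : ∀ i, -R ≤ Real.log (Yo (π lam.1) lam.2 a ps γ β i).Y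
  swap
  · apply hzero
    intro k
    push Not at hlow
    obtain ⟨i, hi⟩ := hlow
    rcases i with i | j
    · rw [sqc_zero hR (s := fun i => Yo (π lam.1) lam.2 a ps γ β (.inl i)) (fun i => hOK _) hi,
        Mm_zero_left]
    · rw [sqc_zero hR (s := fun i => Yo (π lam.1) lam.2 a ps γ β (.inr i)) (fun i => hOK _) hi,
        Mm_zero_right hJ hZ0]
  by_cases hgl : Real.log (nm g) ≤
      ∑ i : Fin m, Real.log (Yo (π lam.1) lam.2 a ps γ β (.inl i)).Y + R * m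
  swap
  · apply hzero
    intro k
    refine Mm_zero_of (fun b => ?_) k
    by_contra hne
    exact hgl (g_le hR (fun i => hOK (.inl i)) hg hne)
  have hone := hmm_one (L0 := L0) (ε₁ := ε₁) F hL0 hε₁ hγ hβ hg hlow hgl
  have key := hsep (Fin m) (Fin 3) (Yo (π lam.1) lam.2 a ps γ β) hOK (Real.exp (e0 * a.l))
    (Real.exp ζ) hZ0 _ hJ (oN (nO a)) g
    (uM (Rf lam.1) (Real.exp a.l) (Real.exp (a.l / 20))) (uM_nonneg _ _ _)
    (uM_fin (Real.exp_pos _)) (WO L0 p X δ ε₁ R N a ps * sf γ β g) (by positivity)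
    (fun n τ hn => by
      refine split_h (T₀ := X ^ ρ) (A := X ^ (100 * (N + 3 + 1))) hM (by positivity)
        (by positivity) ?_ (F := fun τ => mmS h e0 (Rf lam.1) a ζ g
          (reY (Yo (π lam.1) lam.2 a ps γ β) (fun i => Real.exp (c * n i))
            (fun i => (Yo (π lam.1) lam.2 a ps γ β i).t + τ i))) ?_ ?_ τ
      · -- the trivial bound is small
        have e1 : X ^ (100 * (N + 3 + 1)) ≤ (1 + X ^ ρ) ^ M := by
          calc X ^ (100 * (N + 3 + 1)) = X ^ (100 * ((N : ℝ) + 3 + 1)) := by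
                rw [← Real.rpow_natCast]; push_cast; rfl
            _ ≤ X ^ (ρ * M) := Real.rpow_le_rpow_of_exponent_le hX1 hMρ
            _ = (X ^ ρ) ^ M := Real.rpow_mul hX0.le _ _
            _ ≤ _ := Real.rpow_le_rpow (by positivity) (by linarith) hM
        exact e1.trans (le_mul_of_one_le_left (by positivity) hone)
      · intro τ hτ
        exact hmm_small hc hR F hρ hρ0 hρ1 hδ₁ hB hPar H9 hγ hβ hg hgs hβ0 hζ hlow hgl hn hτ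
      · intro τ
        exact hmm_large hR hH hHw F hS hγ hβ hζ hn)
  refine key.trans ?_
  rw [← mul_assoc]
  refine mul_le_mul_of_nonneg_right (mul_le_mul_of_nonneg_right ?_ hWpos.le) hsf.le
  refine pow_le_pow_right₀ hCs ?_
  rw [Fintype.card_sum, Fintype.card_fin, Fintype.card_fin]
  have := F.len
  omega

/-- **the mismatch of a child** -/
theorem hmm_of (hc : 0 < c) (hR : ∀ u, cx h u ≠ 0 → |u| ≤ R) (hH : ∀ u, ‖cx h u‖ ≤ H)
    (hHw : ∀ u, ‖((FE47.hD u : ℝ) : ℂ)‖ ≤ Hw) (hM : 0 ≤ M) (hsep : SepM h c R M Cs)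
    (hCs : 1 ≤ Cs) (F : Fr (π lam.1) lam.2 p X δ ρ B R N a ps) (hS : Siz X H Hw e0 (Rf lam.1) R)
    (hρ : 2 * X ^ ρ ≤ X ^ ρ₁) (hρ0 : 0 ≤ ρ) (hρ1 : ρ ≤ ρ₁) (hδ₁ : 320 * δ ≤ δ₁) (hB : 0 ≤ B)
    (hMρ : 100 * ((N : ℝ) + 3 + 1) ≤ ρ * M) (hL0 : 0 ≤ L0 p) (hε₁ : 0 ≤ ε₁) (hPar : p ∈ Par)
    (H9 : ∀ (a : Bm) (ps : List Pq), ps.length ≤ N →
      (∀ p ∈ ps, Dq.lump p ∨ Dq.nl X p ≤ δ₁) → ∀ q ∈ Dom9 Par, Win S9 q.1 δ₁ N (B + 2) ρ₁ X a →
      (∀ t, |Dq.mass X ps t - q.2 t| ≤ δ₁) → Dq.Good X ρ₁ (B + 2) ps →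
      (∀ p ∈ ps, Dq.lump p → (S9.ev X a, Dq.nl X p) ∈
        (∅ : Set ((((Fin 3 ⊕ Fin 5) ⊕ Fin 3) ⊕ Fin 2 → ℝ) × ℝ))) →
      MmC π h e0 Rf lam a ps ≤ X ^ (E9 L0 q + ε₁))
    (hγ : ∀ i, IsPrim (γ i)) (hβ : ∀ i, IsPrim (β i)) (hg : IsPrim g) (hgs : Squarefree g)
    (hβ0 : Real.log (nm (∏ j, β j)) ≤ bfO a.l (∑ j, (vsO a j).z) a.z) {ζ : ℝ}
    (hζ : ζ = ∑ i, (ps i).z + 3 * R * m) :
    M2 (uM (Rf lam.1) (Real.exp a.l) (Real.exp (a.l / 20)))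
      (Mm (JW (Real.sqrt (YT a.l (a3 a) a.z) * Real.exp ζ) (1 / 10)
        (YT a.l (a3 a) a.z * Real.exp ζ ^ 2)) (Real.exp (e0 * a.l)) (Real.exp ζ) (oN (nO a)) g
        (alb (fun i => pc h (Pt (π lam.1) lam.2 (ps i))) γ)
        (alb (fun j => pc h (Pt (π lam.1) lam.2 (vsO a j))) β)) ≤
      Cs ^ (N + 3) * WO L0 p X δ ε₁ R N a ps * sf γ β g := by
  have h1 := hmm_S hc hR hH hHw hM hsep hCs F hS hρ hρ0 hρ1 hδ₁ hB hMρ hL0 hε₁ hPar H9 hγ hβ hg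
    hgs hβ0 hζ
  have hJ : ∀ z ∈ JW (Real.sqrt (YT a.l (a3 a) a.z) * Real.exp ζ) (1 / 10)
    (YT a.l (a3 a) a.z * Real.exp ζ ^ 2), z.1 ≠ 0 := fun z hz =>
    ((okJ_JW _ _ _).prim z hz).ne_zero
  have hZ0 : 0 ≤ Real.exp ζ := (Real.exp_pos _).le
  have h2 := M2_Mm_alb hR (s := fun i => Pt (π lam.1) lam.2 (ps i))
    (s' := fun j => Pt (π lam.1) lam.2 (vsO a j)) (fun i => Pt_OK F.hP lam.2 (ps i))
    (fun j => Pt_OK F.hP lam.2 (vsO a j)) hγ hβ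
    (u := uM (Rf lam.1) (Real.exp a.l) (Real.exp (a.l / 20))) (uM_nonneg _ _ _)
    (uM_fin (Real.exp_pos _)) hJ (E0 := Real.exp (e0 * a.l)) hZ0 (oN (nO a)) g
  exact h2.trans h1

end

end Crest.Agent.R017.P1r54
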