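import Crest.Agent.R017.P1s_54
import Crest.Agent.R017.StJ_319

/-!
# Row 17, R8/P1: the mismatch moment (helper54), part 1

* `nM`, `DM` : number of levels, the big window
* **`mm_cls`** : the mismatch moment from the moments of the classes (`StJ_319.mism3`)
* `CkC`, `P1C` : the moment of a class, all lists; **`p1M_of_P1C`** : `P1C` implies `P1M`
-/

set_option autoImplicit false

noncomputable section

open Finset Filter
open scoped ComplexConjugate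

namespace Crest.Agent.R017.P1u54

open Crest.Agent.R012 Crest.Agent.R012.Eis Crest.Agent.R012.Div277
open Crest.Agent.R012.Mob705 hiding pb mem_pb
open Crest.Agent.R012.LS2 (S mem_S bl mem_bl)
open Crest.Agent.R017.CM106 Crest.Agent.R017.C70
open Crest.Agent.R017.FE47 (PU cx SM)
open Crest.Agent.R017.StD828 (ln Tm)
open Crest.Agent.R017.StE828 (oD)
open Crest.Agent.R017.StF828 (T3)
open Crest.Agent.R017.StG828 (JB omp PSu)
open Crest.Agent.R017.StJ319 (afrb gt5 q5 I5 mism3)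
open Crest.Agent.R017.E3A164 (SteT)
open Crest.Agent.R017.P1e54 Crest.Agent.R017.P1f54 Crest.Agent.R017.P1i54 Crest.Agent.R017.P1j54
open Crest.Agent.R017.P1k54 Crest.Agent.R017.P1l54 Crest.Agent.R017.P1n54 Crest.Agent.R017.P1q54
open Crest.Agent.R017.HP842 (Pc pc al alL cv Tu mem_Tu sqc Th)
open Crest.Agent.R017.B770 Crest.Agent.R017.Prov71
open Crest.Agent.R017.XG702 (Pcs Good_mono)
open Crest.Agent.R017.XT71 (Sys Win mx)
open Crest.Agent.R017.UM71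
open Crest.Agent.R017.E5B71 Crest.Agent.R017.E5L770

attribute [local irreducible] HP842.Tu

/-- number of levels of the mismatch -/
def nM (n : ℕ) (ζ : ℝ) : ℕ := n + ⌈2 * ζ / Real.log 2⌉₊ + 1

/-- the big window -/
def DM (n : ℕ) (ζ : ℝ) : ℝ := Real.exp ((Real.log 2 * (nM n ζ + 1) + 3 * ζ) / 2)

lemma oN_eq (n : ℕ) : oN n = oD (range n) := rfl

lemma le_nM {n : ℕ} {ζ : ℝ} : Real.log 2 * n + 2 * ζ + Real.log 2 ≤ Real.log 2 * nM n ζ := by
  have hl : 0 < Real.log 2 := Real.log_pos (by norm_num)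
  have h1 := Nat.le_ceil (2 * ζ / Real.log 2)
  rw [div_le_iff₀ hl] at h1
  unfold nM
  push_cast
  nlinarith

/-- **the mismatch moment from the classes** -/
theorem mm_cls (J : ℕ) : ∃ C : ℝ, 0 ≤ C ∧ ∀ (N₀ n : ℕ), n ≤ N₀ → ∀ ζ : ℝ, 0 ≤ ζ →
    ∀ (E0 Rl K E₁ : ℝ), 0 < K → ∀ (η α : Eis → ℂ), (∀ m, η m ≠ 0 → (nm m : ℝ) ≤ Real.exp ζ) →
    FS α → PSu α → ∀ g : Eis, IsPrim g → Squarefree g → ∀ Bd : ℝ, 0 ≤ Bd →
    (g ∈ S (Real.exp ζ) → ∀ c : Fin 5, ∀ i ∈ I5 g (nM N₀ ζ) n (Real.exp ζ) c, ∀ b ∈ dvs g,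
      ∀ s : ℝ, M2 (uM Rl K E₁) (SteT (JB (DM N₀ ζ)) (omp (g / b) i s) (E0 * Real.exp ζ)
        (T3 (afrb (gt5 E0 (Real.exp ζ) g c) (q5 g c) (Real.exp ζ) η α g b s))) ≤
          Bd * (1 + |s|) ^ J) →
    M2 (uM Rl K E₁) (Mm (JW (Real.sqrt (2 ^ N₀) * Real.exp ζ) (1 / 10)
      (2 ^ N₀ * Real.exp ζ ^ 2)) E0 (Real.exp ζ) (oN n) g η α) ≤
      C * (nM N₀ ζ : ℝ) ^ 2 * (n : ℝ) ^ 2 * (tau g : ℝ) ^ 4 * Bd := by
  obtain ⟨C, hC, H⟩ := mism3 J
  refine ⟨C, hC, ?_⟩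
  intro N₀ n hn ζ hζ E0 Rl K E₁ hK η α hη hα hα2 g hg hgs Bd hBd hB
  have hl : 0 < Real.log 2 := Real.log_pos (by norm_num)
  have hZ1 : 1 ≤ Real.exp ζ := Real.one_le_exp hζ
  have hZ0 : 0 < Real.exp ζ := Real.exp_pos ζ
  have hfin := uM_fin (R := Rl) (E₁ := E₁) hK
  have e2 : (2 : ℝ) ^ N₀ = Real.exp (Real.log 2 * N₀) := by
    rw [Real.exp_mul, Real.exp_log (by norm_num), Real.rpow_natCast]
  by_cases hgZ : g ∈ S (Real.exp ζ)
  swap
  · -- the divisor is too long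
    have hz : ∀ a, η (g * a) = 0 ∨ nm a = 0 := by
      intro a
      by_contra hne
      push Not at hne
      obtain ⟨h1, h2⟩ := hne
      apply hgZ
      rw [mem_S hZ0.le]
      refine ⟨le_trans ?_ (hη _ h1), hg, hgs⟩
      rw [nm_mul]
      push_cast
      have h3 : (1 : ℝ) ≤ nm a := by exact_mod_cast Nat.pos_of_ne_zero h2
      exact le_mul_of_one_le_right (Nat.cast_nonneg _) h3
    have h0 : ∀ k, Mm (JW (Real.sqrt (2 ^ N₀) * Real.exp ζ) (1 / 10)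
      (2 ^ N₀ * Real.exp ζ ^ 2)) E0 (Real.exp ζ) (oN n) g η α k = 0 := by
      intro k
      classical
      unfold Mm E3A164.SteT
      refine sum_eq_zero fun x _ => ?_
      have h1 : ∀ e, Tm E0 (Real.exp ζ) (oN n) η α g x.1 e x.2 = 0 := by
        intro e
        unfold Tm
        refine sum_eq_zero fun b hb => ?_
        rcases hz b with h | h
        · rw [h, zero_mul]
        · exact absurd h (nm_pos.2 ((mem_S hZ0.le).1 hb).2.1.ne_zero).ne'
      simp [h1]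
    unfold M2
    simp_rw [h0]
    simp only [norm_zero, ne_eq, OfNat.ofNat_ne_zero, not_false_eq_true, zero_pow, mul_zero,
      tsum_zero]
    positivity
  have hs : (Real.sqrt (2 ^ N₀) * Real.exp ζ) ^ 2 = 2 ^ N₀ * Real.exp ζ ^ 2 := by
    rw [mul_pow, Real.sq_sqrt (by positivity)]
  have hM2 : ∀ F : Eis → ℂ, M2 (uM Rl K E₁) F =
      ∑ k ∈ hfin.toFinset, uM Rl K E₁ k * ‖F k‖ ^ 2 := fun F => by
    unfold M2
    refine tsum_eq_sum fun k hk => ?_
    rw [Set.Finite.mem_toFinset, Function.mem_support, not_not] at hk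
    rw [hk, zero_mul]
  have hM := le_nM (n := N₀) (ζ := ζ)
  have hnN : (n : ℝ) ≤ N₀ := by exact_mod_cast hn
  have hnl : Real.log 2 * (n : ℝ) ≤ Real.log 2 * N₀ := mul_le_mul_of_nonneg_left hnN hl.le
  have hD2 : DM N₀ ζ ^ 2 = Real.exp (Real.log 2 * (nM N₀ ζ + 1)) * Real.exp ζ ^ 3 := by
    unfold DM
    rw [← Real.exp_nat_mul, ← Real.exp_nat_mul, ← Real.exp_add]
    congr 1
    push_cast
    ring
  have hD0 : 0 ≤ Real.sqrt (2 ^ N₀) * Real.exp ζ := by positivity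
  have h2 := H (nM N₀ ζ) n (Real.exp ζ) E0 (E0 * Real.exp ζ) (DM N₀ ζ)
    (Real.sqrt (2 ^ N₀) * Real.exp ζ) hZ1 hD0 (by
      have h3 : (Real.sqrt (2 ^ N₀) * Real.exp ζ) ^ 2 ≤ DM N₀ ζ ^ 2 := by
        rw [hs, hD2, e2, ← Real.exp_nat_mul, ← Real.exp_nat_mul, ← Real.exp_add,
          ← Real.exp_add]
        refine Real.exp_le_exp.2 ?_
        push_cast
        nlinarith
      exact (pow_le_pow_iff_left₀ hD0 (Real.exp_pos _).le two_ne_zero).1 h3) (by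
      rw [hs, e2]
      exact mul_le_mul_of_nonneg_right (Real.exp_le_exp.2 hnl) (by positivity)) (by
      rw [Real.log_exp]
      linarith) (le_of_eq hD2.symm) η α hη hα hα2 g hgZ hfin.toFinset (uM Rl K E₁)
    (fun k _ => uM_nonneg _ _ _ k) Bd hBd (fun c i hi b hb s => by
      rw [← hM2]
      exact hB hgZ c i hi b hb s)
  refine le_trans (le_of_eq ?_) h2
  rw [hM2]
  unfold Mm JB
  rw [hs, oN_eq]

end Crest.Agent.R017.P1u54
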