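import Crest.Agent.R017.P1u_54
import Crest.Agent.R017.GrT1_828

/-!
# Row 17, R8/P1: the mismatch moment (helper54), part 2: `P1M` from the classes

* `CkC` : the moment of one class `(c, i)` at the divisor `b` and the frequency `s`
* `P1C` : the classes, all lists; **`p1M_of_P1C`** : `P1C` implies `P1M`
-/

set_option autoImplicit false

noncomputable section

open Finset Filter
open scoped ComplexConjugate

namespace Crest.Agent.R017.P1v54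

open Crest.Agent.R012 Crest.Agent.R012.Eis Crest.Agent.R012.Div277
open Crest.Agent.R012.Mob705 hiding pb mem_pb
open Crest.Agent.R012.LS2 (S mem_S bl mem_bl)
open Crest.Agent.R017.CM106 Crest.Agent.R017.C70
open Crest.Agent.R017.FE47 (PU cx SM)
open Crest.Agent.R017.StF828 (T3)
open Crest.Agent.R017.StG828 (JB omp)
open Crest.Agent.R017.StG828 (PSu)
open Crest.Agent.R017.StJ319 (afrb gt5 q5 I5)
open Crest.Agent.R017.E3A164 (SteT)
open Crest.Agent.R017.P1e54 Crest.Agent.R017.P1f54 Crest.Agent.R017.P1i54 Crest.Agent.R017.P1j54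
open Crest.Agent.R017.P1k54 Crest.Agent.R017.P1l54 Crest.Agent.R017.P1n54 Crest.Agent.R017.P1q54
open Crest.Agent.R017.P1u54
open Crest.Agent.R017.HP842 (Pc pc al alL cv Tu mem_Tu sqc Th)
open Crest.Agent.R017.B770 Crest.Agent.R017.Prov71
open Crest.Agent.R017.XG702 (Pcs Good_mono)
open Crest.Agent.R017.XT71 (Sys Win mx)
open Crest.Agent.R017.UM71
open Crest.Agent.R017.E5B71 Crest.Agent.R017.E5L770

attribute [local irreducible] HP842.Tu

variable {Λ : Type*} (π : Λ → DPar) (h : ℝ → ℝ) (e0 : ℝ)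

/-- the amplifier sequence -/
def ηC (lam : Λ × Eis) (qs : List Pq) : Eis → ℂ :=
  sqc 1 (alL h (qs.map (Pt (π lam.1) lam.2)))

/-- the sequence of the three lumps -/
def αC (lam : Λ × Eis) (a : Bm) : Eis → ℂ :=
  sqc 1 (alL h ((List.ofFn a.1.2).map (Pt (π lam.1) lam.2)))

/-- admissible data of a class -/
def okM (lam : Λ × Eis) (a : Bm) (qs : List Pq) : Prop :=
  okC (π lam.1) lam.2 a.1 qs ∧ IsPrim a.2.1 ∧ Squarefree a.2.1 ∧ 0 ≤ a.2.2 ∧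
    (∀ n, ηC π h lam qs n ≠ 0 → (nm n : ℝ) ≤ Real.exp a.2.2) ∧ a.2.1 ∈ S (Real.exp a.2.2)

open Classical in
/-- **the moment of the class `c`, level `i`, divisor `b`, frequency `s`** -/
def CkC (R : Λ → ℝ) (c : Fin 5) (i : ℕ) (b : Eis) (s : ℝ) (lam : Λ × Eis) (a : Bm)
    (qs : List Pq) : ℝ :=
  if okM π h lam a qs ∧ i ∈ I5 a.2.1 (nM (nO a.1.1) a.2.2) (nO a.1.1) (Real.exp a.2.2) c ∧
      b ∈ dvs a.2.1 then
    M2 (uM (R lam.1) (Real.exp a.1.1.l) (Real.exp (a.1.1.l / 20)))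
      (SteT (JB (DM (nO a.1.1) a.2.2)) (omp (a.2.1 / b) i s)
        (Real.exp (e0 * a.1.1.l) * Real.exp a.2.2)
        (T3 (afrb (gt5 (Real.exp (e0 * a.1.1.l)) (Real.exp a.2.2) a.2.1 c) (q5 a.2.1 c)
          (Real.exp a.2.2) (ηC π h lam qs) (αC π h lam a) a.2.1 b s)))
  else 0

/-- **the classes of the mismatch, all lists** -/
def P1C (Par : Set (Fin 3 ⊕ Fin 5 → ℝ)) (L0 : (Fin 3 ⊕ Fin 5 → ℝ) → ℝ) : Prop :=
  ∀ R : Λ → ℝ, (∀ lam, 0 ≤ R lam) → ∀ ε : ℝ, 0 < ε → ∃ δ : ℝ, 0 < δ ∧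
    ∀ (lam : Λ × Eis) (N : ℕ) (B : ℝ), ∃ (J : ℕ) (δ' : ℝ), 0 < δ' ∧
    ∃ X₀ : ℝ, 1 < X₀ ∧ ∀ X : ℝ, X₀ ≤ X → ∀ (a : Bm) (qs : List Pq), qs.length ≤ N →
      (∀ p ∈ qs, Dq.lump p ∨ Dq.nl X p ≤ δ) → ∀ q ∈ Dom9 Par, Win S9 q.1 δ N B δ' X a →
      (∀ t, |Dq.mass X qs t - q.2 t| ≤ δ) → Dq.Good X δ' B qs →
      (∀ p ∈ qs, Dq.lump p → (S9.ev X a, Dq.nl X p) ∈
        (∅ : Set ((((Fin 3 ⊕ Fin 5) ⊕ Fin 3) ⊕ Fin 2 → ℝ) × ℝ))) →
      ∀ (c : Fin 5) (i : ℕ) (b : Eis) (s : ℝ),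
        CkC π h e0 R c i b s lam a qs ≤ X ^ (E9 L0 q + ε) * (1 + |s|) ^ J

lemma supp_list {R : ℝ} (hR : ∀ u, cx h u ≠ 0 → |u| ≤ R) {P : DPar} (hP : P.OK) (t₀ : Eis)
    (ps : List Pq) {n : Eis} (hn : sqc 1 (alL h (ps.map (Pt P t₀))) n ≠ 0) :
    IsPrim n ∧ Squarefree n ∧ |Real.log (nm n) - (ps.map (·.z)).sum| ≤ ps.length * R := by
  have e : ps.map (Pt P t₀) = List.ofFn fun i => Pt P t₀ (ps.get i) := by
    conv_lhs => rw [← List.ofFn_get ps]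
    rw [List.map_ofFn]
    rfl
  rw [e, ← HP842.al_eq] at hn
  obtain ⟨h1, h2, h3⟩ := GrT828.al_win hR (fun i => Pt_OK hP t₀ (ps.get i)) hn
  refine ⟨h1, h2, ?_⟩
  rw [Fintype.card_fin] at h3
  have e2 : (ps.map (·.z)).sum = GrC828.LY fun i => Pt P t₀ (ps.get i) := by
    unfold GrC828.LY
    conv_lhs => rw [← List.ofFn_get ps]
    rw [List.map_ofFn, List.sum_ofFn]
    refine sum_congr rfl fun i _ => ?_
    show _ = Real.log (Real.exp _)
    rw [Real.log_exp]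
    rfl
  rw [e2]
  exact h3

lemma FS_list {R : ℝ} (hR : ∀ u, cx h u ≠ 0 → |u| ≤ R) {P : DPar} (hP : P.OK) (t₀ : Eis)
    (ps : List Pq) : FS (sqc 1 (alL h (ps.map (Pt P t₀)))) := by
  have e : ps.map (Pt P t₀) = List.ofFn fun i => Pt P t₀ (ps.get i) := by
    conv_lhs => rw [← List.ofFn_get ps]
    rw [List.map_ofFn]
    rfl
  rw [e, ← HP842.al_eq]
  exact FS_sqc_al hR (fun i => Pt_OK hP t₀ (ps.get i)) 1

set_option maxHeartbeats 1000000 in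
/-- sizes of the data of the mismatch (crude) -/
lemma size_M {X δ B ρ : ℝ} {N : ℕ} {a : Bm} {Par : Set (Fin 3 ⊕ Fin 5 → ℝ)}
    (hPar : ∀ p ∈ Par, ParOK p) (hX : 3 ≤ X) (hδ : δ ≤ 1 / 3)
    {q : (((Fin 3 ⊕ Fin 5) ⊕ Fin 3) ⊕ Fin 2 → ℝ) × (Kd → ℝ)} (hq : q ∈ Dom9 Par)
    (hw : Win S9 q.1 δ N B ρ X a) (hok : a.1.1.ok) (hζ : 0 ≤ a.2.2) (hg : a.2.1 ≠ 0) :
    (nO a.1.1 : ℝ) ≤ 20 * Real.log X ∧ (nM (nO a.1.1) a.2.2 : ℝ) ≤ 20 * Real.log X ∧
      (nm a.2.1 : ℝ) ≤ X := by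
  have hX0 : 0 < X := by linarith
  have hL1 : 1 < Real.log X := by
    rw [Real.lt_log_iff_exp_lt hX0]
    exact lt_of_lt_of_le Real.exp_one_lt_three hX
  have hL : 0 < Real.log X := by linarith
  obtain ⟨hq1, hq2, hq3, hq4, hq5, hq6, hq7, hq8, hq9⟩ := hq
  set p : Fin 3 ⊕ Fin 5 → ℝ := fun i => q.1 (.inl (.inl i)) with hp
  have hPp := hPar p hq1
  have hev : ∀ i, |S9.ev X a i - q.1 i| ≤ δ := hw.ev
  have hdiv : ∀ {z c : ℝ}, |z / Real.log X - c| ≤ δ → z ≤ (c + δ) * Real.log X ∧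
      (c - δ) * Real.log X ≤ z := by
    intro z c h1
    obtain ⟨h2, h3⟩ := abs_le.1 h1
    constructor
    · rw [← div_le_iff₀ hL]; linarith
    · rw [← le_div_iff₀ hL]; linarith
  have hk := hdiv (hev (.inl (.inl (.inl 0))))
  have hz := hdiv (hev (.inl (.inl (.inl 1))))
  have hu2 := hdiv (hev (.inl (.inl (.inr 2))))
  have hu3 := hdiv (hev (.inl (.inl (.inr 3))))
  have hu4 := hdiv (hev (.inl (.inl (.inr 4))))
  have hg0 := hdiv (hev (.inr 0))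
  have hg1 := hdiv (hev (.inr 1))
  have e0 : q.1 (.inr 1) = cx' p := hq8
  have e1 : q.1 (.inl (.inl (.inl 1))) = cx' p := rfl
  have e2 : cN p = cu p 2 + cu p 3 + cu p 4 := rfl
  have f2 : cu p 2 = q.1 (.inl (.inl (.inr 2))) := rfl
  have f3 : cu p 3 = q.1 (.inl (.inl (.inr 3))) := rfl
  have f4 : cu p 4 = q.1 (.inl (.inl (.inr 4))) := rfl
  have hxL : cx' p * Real.log X ≤ 1 / 3 * Real.log X := mul_le_mul_of_nonneg_right hPp.x1 hL.le
  have hNL : cN p * Real.log X ≤ 1 * Real.log X := mul_le_mul_of_nonneg_right hPp.N1 hL.le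
  have hdL : δ * Real.log X ≤ 1 / 3 * Real.log X := mul_le_mul_of_nonneg_right hδ hL.le
  have hN0 := hPp.N0
  have hκ0 := hPp.κ0
  have hlog2 : (0.69 : ℝ) < Real.log 2 := by
    have := Real.log_two_gt_d9
    linarith
  have hlog2' : 0 < Real.log 2 := by linarith
  have hz0 : 0 ≤ a.1.1.z := hok.2.1
  have hzz : a.1.1.z ≤ 2 / 3 * Real.log X := by
    have h1 : a.1.1.z ≤ (q.1 (.inl (.inl (.inl 1))) + δ) * Real.log X := hz.1
    rw [e1, add_mul] at h1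
    linarith
  have hA : a3 a.1.1 ≤ 2 * Real.log X := by
    have h2 : (a.1.1.us 2).z ≤ (q.1 (.inl (.inl (.inr 2))) + δ) * Real.log X := hu2.1
    have h3 : (a.1.1.us 3).z ≤ (q.1 (.inl (.inl (.inr 3))) + δ) * Real.log X := hu3.1
    have h4 : (a.1.1.us 4).z ≤ (q.1 (.inl (.inl (.inr 4))) + δ) * Real.log X := hu4.1
    rw [← f2, add_mul] at h2
    rw [← f3, add_mul] at h3
    rw [← f4, add_mul] at h4
    have h5 : cN p * Real.log X = cu p 2 * Real.log X + cu p 3 * Real.log X +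
      cu p 4 * Real.log X := by rw [e2]; ring
    have h6 : a3 a.1.1 = (a.1.1.us 2).z + (a.1.1.us 3).z + (a.1.1.us 4).z := rfl
    linarith
  have htO : topL a.1.1.l (a3 a.1.1) a.1.1.z ≤ 3 * Real.log X := by
    unfold topL
    have := min_le_right (2 * a3 a.1.1 - a.1.1.l) (3 / 4 * a3 a.1.1)
    linarith
  have hnO : (nO a.1.1 : ℝ) ≤ 6 * Real.log X := by
    unfold nO nL
    push_cast
    rcases le_total 0 (topL a.1.1.l (a3 a.1.1) a.1.1.z) with h0 | h0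
    · have h1 := Nat.floor_le (div_nonneg h0 hlog2'.le)
      have h2 : topL a.1.1.l (a3 a.1.1) a.1.1.z / Real.log 2 ≤ 5 * Real.log X := by
        rw [div_le_iff₀ hlog2']
        have h3 : 0.69 * Real.log X ≤ Real.log 2 * Real.log X :=
          mul_le_mul_of_nonneg_right hlog2.le hL.le
        linarith only [h3, htO, hL]
      linarith only [h1, h2, hL1]
    · rw [Nat.floor_of_nonpos (div_nonpos_of_nonpos_of_nonneg h0 hlog2'.le)]
      push_cast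
      linarith
  have hζ1 : a.2.2 ≤ 2 / 3 * Real.log X := by
    have h1 : a.2.2 ≤ (q.1 (.inr 1) + δ) * Real.log X := hg1.1
    rw [e0, add_mul] at h1
    linarith
  refine ⟨by linarith only [hnO, hL], ?_, ?_⟩
  · unfold nM
    push_cast
    have h1 : (⌈2 * a.2.2 / Real.log 2⌉₊ : ℝ) < 2 * a.2.2 / Real.log 2 + 1 :=
      Nat.ceil_lt_add_one (by positivity)
    have h2 : 2 * a.2.2 / Real.log 2 ≤ 2 * Real.log X := by
      rw [div_le_iff₀ hlog2']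
      have h3 : 0.69 * Real.log X ≤ Real.log 2 * Real.log X :=
        mul_le_mul_of_nonneg_right hlog2.le hL.le
      linarith only [h3, hζ1, hL]
    linarith only [h1, h2, hnO, hL1]
  · have h1 : Real.log (nm a.2.1) ≤ (q.1 (.inr 0) + δ) * Real.log X := hg0.1
    have h2 : q.1 (.inr 0) + δ ≤ 1 := by linarith [hPp.x1]
    have h3 : Real.log (nm a.2.1) ≤ Real.log X := by
      refine h1.trans ?_
      have := mul_le_mul_of_nonneg_right h2 hL.le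
      linarith
    exact (Real.log_le_log_iff (by exact_mod_cast nm_pos.2 hg) hX0).1 h3

/-- **`P1M` from the classes** -/
theorem p1M_of_P1C {π : Λ → DPar} {h : ℝ → ℝ} {e0 : ℝ} (hP : ∀ lam, (π lam).OK) {Rh : ℝ}
    (hRh : ∀ u, cx h u ≠ 0 → |u| ≤ Rh) {Par : Set (Fin 3 ⊕ Fin 5 → ℝ)}
    {L0 : (Fin 3 ⊕ Fin 5 → ℝ) → ℝ} (hPar : ∀ p ∈ Par, ParOK p)
    (H : P1C π h e0 Par L0) : P1M π h e0 Par L0 := by
  intro R hR ε hε
  obtain ⟨δ₀, hδ₀, H⟩ := H R hR (ε / 2) (by positivity)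
  refine ⟨min δ₀ (1 / 3), lt_min hδ₀ (by norm_num), ?_⟩
  intro lam N B
  obtain ⟨J, δ', hδ', X₁, hX₁, H⟩ := H lam N B
  obtain ⟨C, hC, key⟩ := mm_cls J
  have hη : 0 < ε / 48 := by positivity
  obtain ⟨Ct, hCt, htau⟩ := tau_le_rpow hη
  -- the constant
  set CC : ℝ := C * (20 * (48 / ε)) ^ 4 * Ct ^ 4 with hCC
  have hlim : ∀ᶠ X : ℝ in atTop, CC ≤ X ^ (ε / 4) :=
    (tendsto_rpow_atTop (by positivity : 0 < ε / 4)).eventually_ge_atTop CC
  obtain ⟨X₂, hX₂⟩ := eventually_atTop.1 hlim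
  refine ⟨δ', hδ', max (max X₁ X₂) 3, lt_of_lt_of_le (by norm_num) (le_max_right _ _), ?_⟩
  intro X hX a qs hlen hgl q hq hw hm hg hl
  have hX1' : X₁ ≤ X := (le_max_left _ _).trans ((le_max_left _ _).trans hX)
  have hX2' : X₂ ≤ X := (le_max_right _ _).trans ((le_max_left _ _).trans hX)
  have hX3 : 3 ≤ X := (le_max_right _ _).trans hX
  have hX0 : 0 < X := by linarith
  have hX1 : 1 ≤ X := by linarith
  have hU : 0 < X ^ (E9 L0 q + ε) := Real.rpow_pos_of_pos hX0 _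
  unfold MmC
  split_ifs with hif
  swap
  · exact hU.le
  obtain ⟨hok, hgp, hgs, hζ, hsup⟩ := hif
  have hδ3 : min δ₀ (1 / 3) ≤ 1 / 3 := min_le_right _ _
  have hδδ : min δ₀ (1 / 3) ≤ δ₀ := min_le_left _ _
  obtain ⟨s1, s2, s3⟩ := size_M hPar hX3 hδ3 hq hw hok.1 hζ
    hgp.ne_zero
  have hcls := H X hX1' a qs hlen (fun p hp => (hgl p hp).imp id fun h2 => h2.trans hδδ) q hq
    (hw.mono hX1 hδδ le_rfl le_rfl le_rfl) (fun t => (hm t).trans hδδ) hg hl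
  have hYT : YT a.1.1.l (a3 a.1.1) a.1.1.z = 2 ^ (nO a.1.1) := rfl
  rw [hYT]
  have k := key (nO a.1.1) (nO a.1.1) le_rfl a.2.2 hζ (Real.exp (e0 * a.1.1.l)) (R lam.1)
    (Real.exp a.1.1.l) (Real.exp (a.1.1.l / 20)) (Real.exp_pos _) (ηC π h lam qs)
    (αC π h lam a) hsup (FS_list h hRh (hP lam.1) lam.2 _)
    (fun n hn => by
      obtain ⟨h1, h2, -⟩ := supp_list h hRh (hP lam.1) lam.2 _ hn
      exact ⟨h1, h2⟩) a.2.1 hgp hgs (X ^ (E9 L0 q + ε / 2)) (by positivity)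
    (fun hgS c i hi b hb s => by
      have h1 := hcls c i b s
      unfold CkC at h1
      rw [if_pos ⟨⟨hok, hgp, hgs, hζ, hsup, hgS⟩, hi, hb⟩] at h1
      exact h1)
  refine k.trans ?_
  -- the loss
  have hlog : Real.log X ≤ X ^ (ε / 48) / (ε / 48) := Real.log_le_rpow_div hX0.le hη
  have hlog' : 20 * Real.log X ≤ 20 * (48 / ε) * X ^ (ε / 48) := by
    have e : X ^ (ε / 48) / (ε / 48) = 48 / ε * X ^ (ε / 48) := by field_simp
    rw [e] at hlog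
    linarith
  have hL0 : 0 ≤ Real.log X := Real.log_nonneg hX1
  have ht : (tau a.2.1 : ℝ) ≤ Ct * X ^ (ε / 48) :=
    (htau _ hgp.ne_zero).trans (mul_le_mul_of_nonneg_left
      (Real.rpow_le_rpow (Nat.cast_nonneg _) s3 hη.le) (by linarith))
  have n1 : (nM (nO a.1.1) a.2.2 : ℝ) ≤ 20 * (48 / ε) * X ^ (ε / 48) := s2.trans hlog'
  have n2 : (nO a.1.1 : ℝ) ≤ 20 * (48 / ε) * X ^ (ε / 48) := s1.trans hlog'
  have hpow : (X ^ (ε / 48)) ^ 8 ≤ X ^ (ε / 4) := by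
    rw [← Real.rpow_natCast, ← Real.rpow_mul hX0.le]
    refine Real.rpow_le_rpow_of_exponent_le hX1 ?_
    push_cast
    linarith
  have hsplit : X ^ (E9 L0 q + ε) = X ^ (ε / 4) * X ^ (ε / 4) * X ^ (E9 L0 q + ε / 2) := by
    rw [← Real.rpow_add hX0, ← Real.rpow_add hX0]
    congr 1
    ring
  rw [hsplit]
  refine mul_le_mul_of_nonneg_right ?_ (by positivity)
  have hD : 0 ≤ 20 * (48 / ε) * X ^ (ε / 48) := by positivity
  calc C * (nM (nO a.1.1) a.2.2 : ℝ) ^ 2 * (nO a.1.1 : ℝ) ^ 2 * (tau a.2.1 : ℝ) ^ 4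
      ≤ C * (20 * (48 / ε) * X ^ (ε / 48)) ^ 2 * (20 * (48 / ε) * X ^ (ε / 48)) ^ 2 *
        (Ct * X ^ (ε / 48)) ^ 4 := by gcongr
    _ = CC * (X ^ (ε / 48)) ^ 8 := by rw [hCC]; ring
    _ ≤ X ^ (ε / 4) * X ^ (ε / 4) :=
      mul_le_mul (hX₂ X hX2') hpow (by positivity) (by positivity)

end Crest.Agent.R017.P1v54
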