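import Crest.Agent.R017.P3all_283
import Crest.Agent.R012.MFinal_49

/-!
# Row 17, C.exc item X2 (helper283): `P3all` with the hypotheses `MS ρ`, `RhoRel ρ` only
-/

set_option autoImplicit false

noncomputable section

namespace Crest.Agent.R017.P3all283

open Crest.Agent.R012 Crest.Agent.R012.Eis

/-- the 18 basic residues -/
theorem rho18 {ρ : Eis → ℂ} (hMS : M49.MS ρ) (hR : M49.RhoRel ρ) : Rho18 ρ :=
  fun _ hu _ hj => MFinal49.rho_sq hMS hR hu hj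

/-- **X2** : for every `ρ` with `MS ρ`, `RhoRel ρ` (e.g. the one of `MFinal49.m_final`):
`Σ_{l ≠ 0, (l,b)=1} |ρ(3l)/(pC Dsf)|² e^{-N(l)/A} = 3^(4/3) c0 PE(b) A^(2/3) + error`,
`c0 = 2π/(9√3) Γ(2/3)`. -/
theorem P3all' : ∃ (C : ℝ) (k : ℕ), 0 ≤ C ∧ ∀ ρ : Eis → ℂ, M49.MS ρ → M49.RhoRel ρ →
    ∀ (A : ℝ) (b : Eis), 0 < A → IsPrim b → Summable (ft ρ A b) ∧
    |∑' l, ft ρ A b l - (3 : ℝ) ^ ((4 : ℝ) / 3) * c0 * Mob705.PE b * A ^ ((2 : ℝ) / 3)| ≤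
      C * (Div277.tau b : ℝ) ^ k * A ^ ((1 : ℝ) / 3) * (1 + Real.log (1 + A)) := by
  obtain ⟨C, k, h0, h⟩ := P3all
  exact ⟨C, k, h0, fun ρ hMS hR A b hA hb =>
    ⟨summable_ft hMS hR (rho18 hMS hR) hA b, h ρ hMS hR (rho18 hMS hR) A b hA hb⟩⟩

end Crest.Agent.R017.P3all283
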