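import Crest.Agent.R012.T3_85
import Crest.Agent.R012.Rho2_777
import Crest.Agent.R012.RhoSym_51
import Crest.Agent.R012.Cst7_566
import Crest.Agent.R012.PoissonG_381

/-!
# Row 17, C.exc item X2 (helper283): the mean square of the residues over ALL frequencies

`P3all` : for `A > 0`, `b` primary,
`Σ_{l ≠ 0, (l,b)=1} |ρ(3l)/(pC Dsf)|² e^{-N(l)/A} = 3^(4/3) (2π/(9√3)) Γ(2/3) PE(b) A^(2/3)
  + O(τ(b)^k A^(1/3) (1 + log(1+A)))`.
-/

set_option autoImplicit false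

noncomputable section

open Finset

namespace Crest.Agent.R017.P3all283

open Crest.Agent.R012 Crest.Agent.R012.Eis Crest.Agent.R012.Tau85 Crest.Agent.R012.T3_85
open Crest.Agent.R012.Mob705 Crest.Agent.R012.Div277

/-! ### the six units -/

/-- the six units -/
def U6 : Finset Eis := {1, -1, w, -w, w ^ 2, -w ^ 2}

lemma isUnit_of_mem {u : Eis} (h : u ∈ U6) : IsUnit u := by
  have hw : IsUnit w := isUnit_w
  simp only [U6, Finset.mem_insert, Finset.mem_singleton] at h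
  rcases h with rfl | rfl | rfl | rfl | rfl | rfl
  · exact isUnit_one
  · exact isUnit_one.neg
  · exact hw
  · exact hw.neg
  · exact hw.pow 2
  · exact (hw.pow 2).neg

lemma mem_of_isUnit {u : Eis} (h : IsUnit u) : u ∈ U6 := by
  simp only [U6, Finset.mem_insert, Finset.mem_singleton]
  exact isUnit_cases h

/-! ### the decomposition `l = u λ^k a` -/

/-- index set of the decomposition -/
abbrev Ix : Type := ℕ × (U6 × {a : Eis // IsPrim a})

/-- `(k, u, a) ↦ u λ^k a` -/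
def phi (x : Ix) : Eis := x.2.1.1 * lam ^ x.1 * x.2.2.1

lemma phi_ne_zero (x : Ix) : phi x ≠ 0 :=
  mul_ne_zero (mul_ne_zero (isUnit_of_mem x.2.1.2).ne_zero (pow_ne_zero _ lam_ne_zero))
    x.2.2.2.ne_zero

lemma phi_injective : Function.Injective phi := by
  have key : ∀ (k l : ℕ) (u v a b : Eis), IsUnit u → IsUnit v → IsPrim a → IsPrim b →
      u * lam ^ k * a = v * lam ^ l * b → k ≤ l → k = l := by
    intro k l u v a b hu hv ha hb h hkl
    obtain ⟨i, rfl⟩ := Nat.exists_eq_add_of_le hkl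
    rcases Nat.eq_zero_or_pos i with hi | hi
    · rw [hi, add_zero]
    · exfalso
      have h1 : u * a = v * lam ^ i * b := by
        have h0 : lam ^ k ≠ 0 := pow_ne_zero _ lam_ne_zero
        apply mul_left_cancel₀ h0
        rw [pow_add] at h
        linear_combination h
      have h2 : lam ∣ u * a := by
        rw [h1]
        exact Dvd.dvd.mul_right (Dvd.dvd.mul_left (dvd_pow_self lam hi.ne') v) b
      have h3 : lam ∣ a := (hu.dvd_mul_left).mp h2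
      exact ha.not_lam_dvd h3
  rintro ⟨k, ⟨u, hu⟩, ⟨a, ha⟩⟩ ⟨l, ⟨v, hv⟩, ⟨b, hb⟩⟩ h
  have h : u * lam ^ k * a = v * lam ^ l * b := h
  have hu' := isUnit_of_mem hu
  have hv' := isUnit_of_mem hv
  have hkl : k = l := by
    rcases le_total k l with h1 | h1
    · exact key k l u v a b hu' hv' ha hb h h1
    · exact (key l k v u b a hv' hu' hb ha h.symm h1).symm
  subst hkl
  have h1 : u * a = v * b := by
    have h0 : lam ^ k ≠ 0 := pow_ne_zero _ lam_ne_zero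
    apply mul_left_cancel₀ h0
    linear_combination h
  have h2 : a ∣ b := (hv'.dvd_mul_left).mp (h1 ▸ Dvd.intro_left u rfl)
  have h3 : b ∣ a := (hu'.dvd_mul_left).mp (h1.symm ▸ Dvd.intro_left v rfl)
  have h4 : a = b := ha.eq_of_associated hb (associated_of_dvd_dvd h2 h3)
  subst h4
  have h5 : u = v := mul_right_cancel₀ ha.ne_zero h1
  subst h5
  rfl

lemma exists_phi {l : Eis} (hl : l ≠ 0) : ∃ x : Ix, phi x = l := by
  obtain ⟨k, u, m, hu, hm, rfl⟩ := CharSum852.exists_decomp hl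
  exact ⟨(k, ⟨u, mem_of_isUnit hu⟩, ⟨m, hm⟩), by simp only [phi]; ring⟩

open Classical in
/-- a sum over the nonzero elements as a triple sum -/
theorem tsum_nonzero {f : Eis → ℝ} (h0 : f 0 = 0) (hf : Summable f) :
    ∑' l, f l = ∑' k : ℕ, ∑ u ∈ U6, ∑' a : Eis, if IsPrim a then f (u * lam ^ k * a) else 0 := by
  have hs : Function.support f ⊆ Set.range phi := by
    intro l hl
    have : l ≠ 0 := by
      rintro rfl; exact hl h0
    exact exists_phi this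
  rw [← phi_injective.tsum_eq hs]
  have hsum : Summable (fun x : Ix => f (phi x)) := hf.comp_injective phi_injective
  rw [hsum.tsum_prod]
  refine tsum_congr fun k => ?_
  have hk : Summable (fun y : U6 × {a : Eis // IsPrim a} => f (phi (k, y))) :=
    hsum.prod_factor k
  rw [hk.tsum_prod, ← Finset.tsum_subtype U6 (fun u => ∑' a : Eis,
    if IsPrim a then f (u * lam ^ k * a) else 0)]
  refine tsum_congr fun u => ?_
  have e := tsum_subtype {a : Eis | IsPrim a} (fun a => f (u.1 * lam ^ k * a))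
  have e2 : ∑' x : {a : Eis // IsPrim a}, f (phi (k, (u, x))) =
      ∑' a : Eis, Set.indicator {a : Eis | IsPrim a} (fun a => f (u.1 * lam ^ k * a)) a := e
  rw [e2]
  refine tsum_congr fun a => ?_
  simp only [Set.indicator_apply, Set.mem_ofPred_eq]

/-! ### absolute values of the residues -/

lemma lamish_ulam {u : Eis} (hu : IsUnit u) (k : ℕ) : Rho777.Lamish (u * lam ^ k) :=
  ⟨mul_ne_zero hu.ne_zero (pow_ne_zero _ lam_ne_zero), fun _ hp hpp =>
    Sg51.not_dvd_ulam hp hpp hu k⟩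

/-- `|ρ(r a)|² = |ρ(r)|² |τ(a)|²` for `r = u λ^k`, `a` primary -/
lemma norm_rho_mul {ρ : Eis → ℂ} (hR : M49.RhoRel ρ) {r : Eis} (hr : Rho777.Lamish r) {a : Eis}
    (ha : IsPrim a) : ‖ρ (r * a)‖ ^ 2 = ‖ρ r‖ ^ 2 * ‖tauE a‖ ^ 2 := by
  have H := Rho777.rhoR_of_rhoRel Gauss880.syG hR hr
  by_cases h : ∃ q ∈ TP, cp q = a
  · obtain ⟨q, hq, rfl⟩ := h
    rw [norm_tauE_cp hq]
    unfold cp
    rw [H.cube q.1 q.2 hq.1 hq.2.2 hq.2.1, norm_mul, norm_mul, RCLike.norm_conj]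
    have h1 : ‖Rho777.Gr r q.1‖ = 1 := by
      unfold Rho777.Gr
      rw [norm_div, Gauss880.norm_gs Gauss880.syG hq.1 hq.2.1 (hr.isCoprime hq.1),
        Complex.norm_real, Real.norm_of_nonneg (Real.sqrt_nonneg _)]
      apply div_self
      have h2 : (0 : ℝ) < nm q.1 := by exact_mod_cast nm_pos.mpr hq.1.ne_zero
      exact (Real.sqrt_pos.mpr h2).ne'
    have h2 : (0 : ℝ) ≤ nm q.1 := by positivity
    rw [h1, one_mul, Complex.norm_real, Real.norm_of_nonneg (by positivity), mul_pow,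
      ← Real.rpow_natCast, ← Real.rpow_mul h2, mul_comm]
    congr 2
    norm_num
  · push Not at h
    rw [tauE_eq_zero h, H.zero a ha, norm_zero]
    · simp
    · rintro ⟨b, k, hb, hk, hs, rfl⟩
      exact h (b, k) ⟨hb, hs, hk⟩ rfl

/-- periodicity modulo 3 of the exponent of `λ` -/
lemma rho_lam_mod {ρ : Eis → ℂ} (hMS : M49.MS ρ) (u : Eis) (k : ℕ) :
    ρ (u * lam ^ k) = ρ (u * lam ^ (k % 3)) := by
  induction k using Nat.strong_induction_on with
  | _ k ih =>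
    rcases lt_or_ge k 3 with h3 | h3
    · rw [Nat.mod_eq_of_lt h3]
    · obtain ⟨i, rfl⟩ := Nat.exists_eq_add_of_le h3
      have e1 : u * lam ^ (3 + i) = lam ^ 3 * (u * lam ^ i) := by ring
      rw [e1, Sg51.rho_lam3 hMS, ih i (by omega), Nat.add_mod_left]

/-- the hypothesis on the 18 basic residues (proved in `MFinal49.rho_sq`) -/
def Rho18 (ρ : Eis → ℂ) : Prop := ∀ u : Eis, IsUnit u → ∀ j : ℕ, j ≤ 2 →
  ‖ρ (u * lam ^ j)‖ ^ 2 = (pC * M49.Dsf) ^ 2 * MC.kapR (u * lam ^ j)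

lemma three_eq : (3 : Eis) = -w ^ 2 * lam ^ 2 := by
  apply ext'
  · decide
  · decide

/-- `|ρ(3 u λ^k a)|²` -/
lemma norm_rho3 {ρ : Eis → ℂ} (hMS : M49.MS ρ) (hR : M49.RhoRel ρ) (h18 : Rho18 ρ) {u : Eis}
    (hu : IsUnit u) (k : ℕ) {a : Eis} (ha : IsPrim a) :
    ‖ρ (3 * (u * lam ^ k * a))‖ ^ 2 =
      (pC * M49.Dsf) ^ 2 * MC.kapR (-w ^ 2 * u * lam ^ ((k + 2) % 3)) * ‖tauE a‖ ^ 2 := by
  have hv : IsUnit (-w ^ 2 * u) := ((isUnit_w.pow 2).neg).mul hu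
  have e1 : (3 : Eis) * (u * lam ^ k * a) = (-w ^ 2 * u * lam ^ (k + 2)) * a := by
    rw [three_eq]; ring
  rw [e1, norm_rho_mul hR (lamish_ulam hv (k + 2)) ha, rho_lam_mod hMS (-w ^ 2 * u) (k + 2),
    h18 _ hv _ (by omega)]

/-- the sum over the units -/
def sU (k : ℕ) : ℝ := ∑ u ∈ U6, MC.kapR (-w ^ 2 * u * lam ^ ((k + 2) % 3))

lemma kapR_of_dvd {r : Eis} (h : (3 : ℤ) ∣ r.im) : MC.kapR r = (nm r : ℝ) ^ (-(1 / 3) : ℝ) := by
  unfold MC.kapR; rw [if_pos h]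

lemma kapR_of_not {r : Eis} (h : ¬ (3 : ℤ) ∣ r.im) : MC.kapR r = 0 := by
  unfold MC.kapR; rw [if_neg h]

lemma U6_sum (f : Eis → ℝ) : ∑ u ∈ U6, f u =
    f 1 + (f (-1) + (f w + (f (-w) + (f (w ^ 2) + f (-w ^ 2))))) := by
  unfold U6
  rw [Finset.sum_insert (by decide), Finset.sum_insert (by decide), Finset.sum_insert (by decide),
    Finset.sum_insert (by decide), Finset.sum_insert (by decide), Finset.sum_singleton]

lemma nm_ulam {u : Eis} (hu : IsUnit u) (j : ℕ) : nm (u * lam ^ j) = 3 ^ j := by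
  rw [nm_mul, nm_pow, nm_lam, isUnit_iff.mp hu, one_mul]

lemma sU_zero {k : ℕ} (h : (k + 2) % 3 = 0) : sU k = 2 := by
  unfold sU
  rw [h, U6_sum, kapR_of_not (by decide), kapR_of_not (by decide), kapR_of_dvd (by decide),
    kapR_of_dvd (by decide), kapR_of_not (by decide), kapR_of_not (by decide)]
  have hw := isUnit_w
  rw [nm_ulam (((hw.pow 2).neg).mul hw), nm_ulam (((hw.pow 2).neg).mul hw.neg)]
  norm_num

lemma sU_one {k : ℕ} (h : (k + 2) % 3 = 1) : sU k = 0 := by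
  unfold sU
  rw [h, U6_sum, kapR_of_not (by decide), kapR_of_not (by decide), kapR_of_not (by decide),
    kapR_of_not (by decide), kapR_of_not (by decide), kapR_of_not (by decide)]
  norm_num

lemma sU_two {k : ℕ} (h : (k + 2) % 3 = 2) : sU k = 6 * (9 : ℝ) ^ (-(1 / 3) : ℝ) := by
  unfold sU
  have hw := isUnit_w
  rw [h, U6_sum, kapR_of_dvd (by decide), kapR_of_dvd (by decide), kapR_of_dvd (by decide),
    kapR_of_dvd (by decide), kapR_of_dvd (by decide), kapR_of_dvd (by decide),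
    nm_ulam (((hw.pow 2).neg).mul isUnit_one), nm_ulam (((hw.pow 2).neg).mul isUnit_one.neg),
    nm_ulam (((hw.pow 2).neg).mul hw), nm_ulam (((hw.pow 2).neg).mul hw.neg),
    nm_ulam (((hw.pow 2).neg).mul (hw.pow 2)), nm_ulam (((hw.pow 2).neg).mul (hw.pow 2).neg)]
  norm_num
  ring

lemma sU_nonneg (k : ℕ) : 0 ≤ sU k := by
  unfold sU
  refine Finset.sum_nonneg fun u _ => ?_
  unfold MC.kapR
  split_ifs <;> positivity

lemma sU_le (k : ℕ) : sU k ≤ 6 := by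
  have h9 : (9 : ℝ) ^ (-(1 / 3) : ℝ) ≤ 1 :=
    Real.rpow_le_one_of_one_le_of_nonpos (by norm_num) (by norm_num)
  have h3 : (k + 2) % 3 = 0 ∨ (k + 2) % 3 = 1 ∨ (k + 2) % 3 = 2 := by omega
  rcases h3 with h | h | h
  · rw [sU_zero h]; norm_num
  · rw [sU_one h]; norm_num
  · rw [sU_two h]; linarith

lemma sU_add_three (k : ℕ) : sU (k + 3) = sU k := by
  unfold sU
  have : (k + 3 + 2) % 3 = (k + 2) % 3 := by omega
  rw [this]

/-- `x = 3^(-2/3)` -/
def x23 : ℝ := (3 : ℝ) ^ (-(2 / 3) : ℝ)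

lemma x23_pos : 0 < x23 := by unfold x23; positivity

lemma x23_cube : x23 ^ 3 = 1 / 9 := by
  unfold x23
  rw [← Real.rpow_natCast, ← Real.rpow_mul (by norm_num)]
  norm_num

lemma x23_lt : x23 < 1 := by
  unfold x23
  exact Real.rpow_lt_one_of_one_lt_of_neg (by norm_num) (by norm_num)

lemma nine_rpow : (9 : ℝ) ^ (-(1 / 3) : ℝ) = x23 := by
  unfold x23
  rw [show (9 : ℝ) = 3 ^ (2 : ℝ) by norm_num, ← Real.rpow_mul (by norm_num)]
  norm_num

lemma summable_sU {y : ℝ} (h0 : 0 ≤ y) (h1 : y < 1) : Summable (fun k : ℕ => sU k * y ^ k) := by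
  refine Summable.of_nonneg_of_le (fun k => mul_nonneg (sU_nonneg k) (by positivity)) (fun k => ?_)
    ((summable_geometric_of_lt_one h0 h1).mul_left 6)
  exact mul_le_mul_of_nonneg_right (sU_le k) (by positivity)

/-- `Σ_k s_k 3^(-2k/3) = 3^(4/3)` -/
lemma tsum_sU : ∑' k : ℕ, sU k * x23 ^ k = (3 : ℝ) ^ ((4 : ℝ) / 3) := by
  have hs := summable_sU x23_pos.le x23_lt
  have h := hs.sum_add_tsum_nat_add 3
  have e1 : ∑' k : ℕ, sU (k + 3) * x23 ^ (k + 3) = x23 ^ 3 * ∑' k : ℕ, sU k * x23 ^ k := by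
    rw [← tsum_mul_left]
    refine tsum_congr fun k => ?_
    rw [sU_add_three]; ring
  rw [e1, Finset.sum_range_succ, Finset.sum_range_succ, Finset.sum_range_one,
    sU_two (k := 0) rfl, sU_zero (k := 1) rfl, sU_one (k := 2) rfl, nine_rpow, x23_cube] at h
  have e2 : (3 : ℝ) ^ ((4 : ℝ) / 3) = 9 * x23 := by
    unfold x23
    rw [show (9 : ℝ) = 3 ^ (2 : ℝ) by norm_num, ← Real.rpow_add (by norm_num)]
    norm_num
  rw [e2]
  set T := ∑' k : ℕ, sU k * x23 ^ k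
  ring_nf at h
  linarith

/-! ### the sum `P3` -/

/-- `P3` as a sum over one variable -/
lemma P3_eq_tsum (A : ℝ) (b : Eis) :
    T411.P3 A b = ∑' a : Eis, g2 b a * Real.exp (-(nm a : ℝ) / A) := by
  classical
  rw [tsum_TP' (fun a => g2 b a * Real.exp (-(nm a : ℝ) / A))]
  · have h1 : T411.P3 A b = ∑' q, fq A b q := rfl
    rw [h1]
    refine tsum_congr fun q => ?_
    rw [fq_eq]
    by_cases hq : q ∈ TP
    · rw [if_pos hq]
      by_cases hc : IsCoprime (cp q) b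
      · rw [g2_cp hq hc]; unfold cq; rw [if_pos ⟨hq, hc⟩]
      · unfold g2; rw [if_neg hc, cq_eq_zero (fun h' => hc h'.2)]
    · rw [if_neg hq, cq_eq_zero (fun h' => hq h'.1), zero_mul]
  · intro a ha
    have h0 : g2 b a = 0 := by
      unfold g2
      rw [tauE_eq_zero ha]; simp
    rw [h0, zero_mul]

lemma summable_exp {A : ℝ} (hA : 0 < A) : Summable (fun a : Eis => Real.exp (-(nm a : ℝ) / A)) := by
  have h := (Poisson381.summable_gau_one (t := 1 / (Real.pi * A)) (by positivity)).norm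
  refine h.congr fun n => ?_
  rw [Poisson381.norm_gau, norm_toC_sq]
  congr 1
  have : Real.pi ≠ 0 := Real.pi_ne_zero
  field_simp

lemma summable_g2 {A : ℝ} (hA : 0 < A) (b : Eis) :
    Summable (fun a : Eis => g2 b a * Real.exp (-(nm a : ℝ) / A)) := by
  refine Summable.of_nonneg_of_le (fun a => mul_nonneg (g2_nonneg b a) (Real.exp_pos _).le)
    (fun a => ?_) (summable_exp hA)
  exact mul_le_of_le_one_left (Real.exp_pos _).le (g2_le_one b a)

lemma P3_nonneg (A : ℝ) (b : Eis) : 0 ≤ T411.P3 A b := by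
  rw [P3_eq_tsum]
  exact tsum_nonneg fun a => mul_nonneg (g2_nonneg b a) (Real.exp_pos _).le

/-- the constant `Σ_a e^{-N(a)}` -/
def E1 : ℝ := ∑' a : Eis, Real.exp (-(nm a : ℝ) / 1)

lemma E1_nonneg : 0 ≤ E1 := tsum_nonneg fun _ => (Real.exp_pos _).le

/-- for `A ≤ 1` -/
lemma P3_small {A : ℝ} (hA : 0 < A) (hA1 : A ≤ 1) (b : Eis) : T411.P3 A b ≤ E1 * A := by
  rw [P3_eq_tsum, E1, ← tsum_mul_right]
  refine (summable_g2 hA b).tsum_le_tsum (fun a => ?_) ((summable_exp one_pos).mul_right A)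
  by_cases ha : a = 0
  · have h0 : g2 b a = 0 := by
      rw [ha]; unfold g2
      rw [tauE_eq_zero_of_not_isPrim (fun h => h.ne_zero rfl)]
      simp
    rw [h0, zero_mul]; positivity
  · have h1 : (1 : ℝ) ≤ nm a := by exact_mod_cast nm_pos.mpr ha
    have h2 : Real.exp (-(nm a : ℝ) / A) ≤ Real.exp (-(nm a : ℝ) / 1) * A := by
      have e1 : -(nm a : ℝ) / A = -(nm a : ℝ) / 1 + -(nm a * (1 / A - 1)) := by
        field_simp; ring
      rw [e1, Real.exp_add]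
      refine mul_le_mul_of_nonneg_left ?_ (Real.exp_pos _).le
      have h3 : 1 ≤ 1 / A := by rw [le_div_iff₀ hA]; linarith
      have h4 : 1 / A ≤ Real.exp (1 / A - 1) := by
        have := Real.add_one_le_exp (1 / A - 1); linarith
      have h5 : Real.exp (1 / A - 1) ≤ Real.exp (nm a * (1 / A - 1)) := by
        apply Real.exp_le_exp.mpr
        nlinarith
      have h6 : 1 / A ≤ Real.exp (nm a * (1 / A - 1)) := h4.trans h5
      rw [Real.exp_neg, inv_le_comm₀ (Real.exp_pos _) hA, ← one_div]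
      exact h6
    calc g2 b a * Real.exp (-(nm a : ℝ) / A) ≤ 1 * Real.exp (-(nm a : ℝ) / A) :=
          mul_le_mul_of_nonneg_right (g2_le_one b a) (Real.exp_pos _).le
      _ ≤ _ := by rw [one_mul]; exact h2

/-- the constant of `P3` -/
def c0 : ℝ := 2 * Real.pi / (9 * Real.sqrt 3) * Real.Gamma (2 / 3)

lemma c0_pos : 0 < c0 := by
  unfold c0
  have : 0 < Real.Gamma (2 / 3) := Real.Gamma_pos_of_pos (by norm_num)
  positivity

lemma one_le_tau {b : Eis} (hb : IsPrim b) : (1 : ℝ) ≤ tau b := by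
  have h1 := one_le_sig b
  have h2 := sig_le_tau hb.ne_zero
  exact h1.trans h2

/-- the asymptotics of `P3` for all `A > 0` -/
lemma P3_all_A : ∃ (C : ℝ) (k : ℕ), 0 ≤ C ∧ ∀ (A : ℝ) (b : Eis), 0 < A → IsPrim b →
    |T411.P3 A b - c0 * PE b * A ^ ((2 : ℝ) / 3)| ≤
      C * (tau b : ℝ) ^ k * A ^ ((1 : ℝ) / 3) * (1 + Real.log (1 + A)) := by
  obtain ⟨C, k, hC⟩ := T3_proof
  refine ⟨|C| + E1 + c0, k, by have := E1_nonneg; have := c0_pos; positivity, ?_⟩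
  intro A b hA hb
  have hE := E1_nonneg
  have hc0 := c0_pos
  have ht : 1 ≤ (tau b : ℝ) ^ k := one_le_pow₀ (one_le_tau hb)
  have hlog : 0 ≤ Real.log (1 + A) := Real.log_nonneg (by linarith)
  have hp : 0 < A ^ ((1 : ℝ) / 3) := Real.rpow_pos_of_pos hA _
  rcases le_or_gt 1 A with h1 | h1
  · refine (hC A b h1 hb).trans ?_
    have h2 : Real.log A ≤ Real.log (1 + A) := Real.log_le_log hA (by linarith)
    have h3 : 0 ≤ Real.log A := Real.log_nonneg h1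
    have h4 : C ≤ |C| + E1 + c0 := by have := le_abs_self C; linarith
    calc C * (tau b : ℝ) ^ k * A ^ ((1 : ℝ) / 3) * (1 + Real.log A)
        ≤ (|C| + E1 + c0) * (tau b : ℝ) ^ k * A ^ ((1 : ℝ) / 3) * (1 + Real.log A) := by
          gcongr
      _ ≤ _ := by gcongr
  · have h2 := P3_small hA h1.le b
    have h3 := P3_nonneg A b
    have h4 : A ≤ A ^ ((1 : ℝ) / 3) := by
      conv_lhs => rw [← Real.rpow_one A]
      exact Real.rpow_le_rpow_of_exponent_ge hA h1.le (by norm_num)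
    have h5 : A ^ ((2 : ℝ) / 3) ≤ A ^ ((1 : ℝ) / 3) :=
      Real.rpow_le_rpow_of_exponent_ge hA h1.le (by norm_num)
    have h6 : 0 < PE b := PE_pos b
    have h7 : PE b ≤ 1 := PE_le_one b
    have h8 : 0 < A ^ ((2 : ℝ) / 3) := Real.rpow_pos_of_pos hA _
    have h9 : |T411.P3 A b - c0 * PE b * A ^ ((2 : ℝ) / 3)| ≤ (E1 + c0) * A ^ ((1 : ℝ) / 3) := by
      have a1 : T411.P3 A b ≤ E1 * A ^ ((1 : ℝ) / 3) :=
        h2.trans (mul_le_mul_of_nonneg_left h4 hE)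
      have a2 : c0 * PE b * A ^ ((2 : ℝ) / 3) ≤ c0 * A ^ ((1 : ℝ) / 3) := by
        have : c0 * PE b ≤ c0 * 1 := mul_le_mul_of_nonneg_left h7 hc0.le
        rw [mul_one] at this
        exact mul_le_mul this h5 h8.le hc0.le
      have a3 : 0 ≤ c0 * PE b * A ^ ((2 : ℝ) / 3) := by positivity
      rw [abs_le]
      constructor <;> nlinarith
    refine h9.trans ?_
    have b1 : E1 + c0 ≤ |C| + E1 + c0 := by have := abs_nonneg C; linarith
    calc (E1 + c0) * A ^ ((1 : ℝ) / 3) ≤ (|C| + E1 + c0) * A ^ ((1 : ℝ) / 3) := by gcongr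
      _ = (|C| + E1 + c0) * 1 * A ^ ((1 : ℝ) / 3) * 1 := by ring
      _ ≤ _ := by gcongr; linarith

/-! ### the sum over all frequencies -/

open Classical in
/-- the summand of `P3all` -/
def ft (ρ : Eis → ℂ) (A : ℝ) (b l : Eis) : ℝ :=
  if l ≠ 0 ∧ IsCoprime l b then ‖ρ (3 * l) / ((pC * M49.Dsf : ℝ) : ℂ)‖ ^ 2 *
    Real.exp (-(nm l : ℝ) / A) else 0

lemma pCD_pos : 0 < pC * M49.Dsf := by
  rw [Dsf_eq]
  refine mul_pos ?_ (kap_pos one_ne_zero)
  unfold pC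
  have : 0 < Real.Gamma (2 / 3) := Real.Gamma_pos_of_pos (by norm_num)
  positivity

lemma ft_nonneg (ρ : Eis → ℂ) (A : ℝ) (b l : Eis) : 0 ≤ ft ρ A b l := by
  unfold ft; split_ifs <;> positivity

lemma isCoprime_ulam {u : Eis} (hu : IsUnit u) (k : ℕ) {a b : Eis} (hb : IsPrim b) :
    IsCoprime (u * lam ^ k * a) b ↔ IsCoprime a b := by
  have h1 : IsCoprime (u * lam ^ k) b :=
    ((isCoprime_mul_unit_left_left hu _ _).mpr (hb.isCoprime_lam.symm.pow_left))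
  rw [IsCoprime.mul_left_iff]
  exact ⟨fun h => h.2, fun h => ⟨h1, h⟩⟩

/-- the summand at `l = u λ^k a` -/
lemma ft_eq {ρ : Eis → ℂ} (hMS : M49.MS ρ) (hR : M49.RhoRel ρ) (h18 : Rho18 ρ) (A : ℝ) {b : Eis}
    (hb : IsPrim b) {u : Eis} (hu : IsUnit u) (k : ℕ) {a : Eis} (ha : IsPrim a) :
    ft ρ A b (u * lam ^ k * a) = MC.kapR (-w ^ 2 * u * lam ^ ((k + 2) % 3)) *
      (g2 b a * Real.exp (-(nm a : ℝ) / (A / 3 ^ k))) := by
  classical
  have hne : u * lam ^ k * a ≠ 0 :=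
    mul_ne_zero (mul_ne_zero hu.ne_zero (pow_ne_zero _ lam_ne_zero)) ha.ne_zero
  have hK := pCD_pos
  unfold ft g2
  by_cases hc : IsCoprime a b
  · rw [if_pos ⟨hne, (isCoprime_ulam hu k hb).mpr hc⟩, if_pos hc, norm_div, div_pow,
      norm_rho3 hMS hR h18 hu k ha, Complex.norm_real, Real.norm_of_nonneg hK.le]
    have e1 : -(nm (u * lam ^ k * a) : ℝ) / A = -(nm a : ℝ) / (A / 3 ^ k) := by
      rw [nm_mul, nm_ulam hu]
      push_cast
      rw [div_div_eq_mul_div]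
      ring
    rw [e1]
    have e2 : ∀ K x y z : ℝ, 0 < K → K ^ 2 * x * y / K ^ 2 * z = x * (y * z) := by
      intro K x y z hK
      field_simp
    exact e2 _ _ _ _ hK
  · rw [if_neg (fun h => hc ((isCoprime_ulam hu k hb).mp h.2)), if_neg hc]
    ring

lemma norm_tauE_le (a : Eis) : ‖tauE a‖ ^ 2 ≤ 1 := norm_tauE_sq_le_one a

/-- boundedness of the residues -/
lemma norm_rho3_le {ρ : Eis → ℂ} (hMS : M49.MS ρ) (hR : M49.RhoRel ρ) (h18 : Rho18 ρ) {l : Eis}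
    (hl : l ≠ 0) : ‖ρ (3 * l) / ((pC * M49.Dsf : ℝ) : ℂ)‖ ^ 2 ≤ 1 := by
  obtain ⟨⟨k, u, a⟩, rfl⟩ := exists_phi hl
  have hK := pCD_pos
  have hu := isUnit_of_mem u.2
  have e : phi (k, u, a) = u.1 * lam ^ k * a.1 := rfl
  rw [e, norm_div, div_pow, norm_rho3 hMS hR h18 hu k a.2, Complex.norm_real,
    Real.norm_of_nonneg hK.le]
  have hne : -w ^ 2 * u.1 * lam ^ ((k + 2) % 3) ≠ 0 :=
    mul_ne_zero (mul_ne_zero ((isUnit_w.pow 2).neg).ne_zero hu.ne_zero)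
      (pow_ne_zero _ lam_ne_zero)
  have h1 : MC.kapR (-w ^ 2 * u.1 * lam ^ ((k + 2) % 3)) ≤ 1 := by
    unfold MC.kapR
    split_ifs
    · apply Real.rpow_le_one_of_one_le_of_nonpos _ (by norm_num)
      exact_mod_cast nm_pos.2 hne
    · exact zero_le_one
  have h0 : 0 ≤ MC.kapR (-w ^ 2 * u.1 * lam ^ ((k + 2) % 3)) := by
    unfold MC.kapR
    split_ifs <;> positivity
  have h2 := norm_tauE_le a.1
  have h3 : (0 : ℝ) < (pC * M49.Dsf) ^ 2 := by positivity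
  rw [div_le_one h3]
  have h4 : MC.kapR (-w ^ 2 * u.1 * lam ^ ((k + 2) % 3)) * ‖tauE a.1‖ ^ 2 ≤ 1 :=
    mul_le_one₀ h1 (by positivity) h2
  calc (pC * M49.Dsf) ^ 2 * MC.kapR (-w ^ 2 * u.1 * lam ^ ((k + 2) % 3)) * ‖tauE a.1‖ ^ 2
      = (pC * M49.Dsf) ^ 2 * (MC.kapR (-w ^ 2 * u.1 * lam ^ ((k + 2) % 3)) * ‖tauE a.1‖ ^ 2) := by
        ring
    _ ≤ (pC * M49.Dsf) ^ 2 * 1 := mul_le_mul_of_nonneg_left h4 h3.le
    _ = _ := mul_one _

lemma ft_le {ρ : Eis → ℂ} (hMS : M49.MS ρ) (hR : M49.RhoRel ρ) (h18 : Rho18 ρ) (A : ℝ)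
    (b l : Eis) : ft ρ A b l ≤ Real.exp (-(nm l : ℝ) / A) := by
  unfold ft
  split_ifs with h
  · exact mul_le_of_le_one_left (Real.exp_pos _).le (norm_rho3_le hMS hR h18 h.1)
  · exact (Real.exp_pos _).le

lemma summable_ft {ρ : Eis → ℂ} (hMS : M49.MS ρ) (hR : M49.RhoRel ρ) (h18 : Rho18 ρ) {A : ℝ}
    (hA : 0 < A) (b : Eis) : Summable (ft ρ A b) :=
  Summable.of_nonneg_of_le (fun l => ft_nonneg ρ A b l) (fun l => ft_le hMS hR h18 A b l)
    (summable_exp hA)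

/-- `Σ_l ft l = Σ_k s_k P3(A/3^k)` -/
lemma tsum_ft {ρ : Eis → ℂ} (hMS : M49.MS ρ) (hR : M49.RhoRel ρ) (h18 : Rho18 ρ) {A : ℝ}
    (hA : 0 < A) {b : Eis} (hb : IsPrim b) :
    ∑' l, ft ρ A b l = ∑' k : ℕ, sU k * T411.P3 (A / 3 ^ k) b := by
  classical
  have h0 : ft ρ A b 0 = 0 := by unfold ft; rw [if_neg (fun h => h.1 rfl)]
  rw [tsum_nonzero h0 (summable_ft hMS hR h18 hA b)]
  refine tsum_congr fun k => ?_
  unfold sU
  rw [Finset.sum_mul]
  refine Finset.sum_congr rfl fun u hu => ?_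
  rw [P3_eq_tsum, ← tsum_mul_left]
  refine tsum_congr fun a => ?_
  by_cases ha : IsPrim a
  · rw [if_pos ha, ft_eq hMS hR h18 A hb (isUnit_of_mem hu) k ha]
  · rw [if_neg ha]
    have h0 : g2 b a = 0 := by
      unfold g2
      rw [tauE_eq_zero_of_not_isPrim ha]
      simp
    rw [h0]; ring

/-- **X2** (first part): the mean square of the residues over all frequencies. -/
theorem P3all : ∃ (C : ℝ) (k : ℕ), 0 ≤ C ∧ ∀ ρ : Eis → ℂ, M49.MS ρ → M49.RhoRel ρ → Rho18 ρ →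
    ∀ (A : ℝ) (b : Eis), 0 < A → IsPrim b →
    |∑' l, ft ρ A b l - (3 : ℝ) ^ ((4 : ℝ) / 3) * c0 * PE b * A ^ ((2 : ℝ) / 3)| ≤
      C * (tau b : ℝ) ^ k * A ^ ((1 : ℝ) / 3) * (1 + Real.log (1 + A)) := by
  obtain ⟨C, k, hC0, hC⟩ := P3_all_A
  set y : ℝ := (3 : ℝ) ^ (-(1 / 3) : ℝ) with hy
  have hy0 : 0 < y := by positivity
  have hy1 : y < 1 := Real.rpow_lt_one_of_one_lt_of_neg (by norm_num) (by norm_num)
  refine ⟨C * ∑' n : ℕ, sU n * y ^ n, k, ?_, ?_⟩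
  · exact mul_nonneg hC0 (tsum_nonneg fun n => mul_nonneg (sU_nonneg n) (by positivity))
  intro ρ hMS hR h18 A b hA hb
  rw [tsum_ft hMS hR h18 hA hb]
  have ht : 1 ≤ (tau b : ℝ) ^ k := one_le_pow₀ (one_le_tau hb)
  have hlog : 0 ≤ Real.log (1 + A) := Real.log_nonneg (by linarith)
  -- powers of `A / 3^n`
  have hpow : ∀ (s : ℝ) (n : ℕ), (A / 3 ^ n) ^ s = A ^ s * ((3 : ℝ) ^ (-s)) ^ n := by
    intro s n
    rw [Real.div_rpow hA.le (by positivity), ← Real.rpow_natCast, ← Real.rpow_natCast,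
      ← Real.rpow_mul (by norm_num), ← Real.rpow_mul (by norm_num), div_eq_mul_inv,
      ← Real.rpow_neg (by norm_num)]
    congr 2
    ring
  have hmain : ∀ n : ℕ, sU n * (c0 * PE b * (A / 3 ^ n) ^ ((2 : ℝ) / 3)) =
      c0 * PE b * A ^ ((2 : ℝ) / 3) * (sU n * x23 ^ n) := by
    intro n
    rw [hpow]
    unfold x23
    ring
  have hS1 : Summable (fun n : ℕ => sU n * (c0 * PE b * (A / 3 ^ n) ^ ((2 : ℝ) / 3))) := by
    simp_rw [hmain]
    exact (summable_sU x23_pos.le x23_lt).mul_left _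
  -- termwise bound
  have hterm : ∀ n : ℕ, |sU n * (T411.P3 (A / 3 ^ n) b - c0 * PE b * (A / 3 ^ n) ^ ((2 : ℝ) / 3))| ≤
      C * (tau b : ℝ) ^ k * A ^ ((1 : ℝ) / 3) * (1 + Real.log (1 + A)) * (sU n * y ^ n) := by
    intro n
    have hAn : 0 < A / 3 ^ n := by positivity
    have hle : A / 3 ^ n ≤ A := div_le_self hA.le (one_le_pow₀ (by norm_num))
    rw [abs_mul, abs_of_nonneg (sU_nonneg n)]
    have h1 := hC (A / 3 ^ n) b hAn hb
    have h2 : (A / 3 ^ n) ^ ((1 : ℝ) / 3) = A ^ ((1 : ℝ) / 3) * y ^ n := hpow _ n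
    have h3 : Real.log (1 + A / 3 ^ n) ≤ Real.log (1 + A) :=
      Real.log_le_log (by positivity) (by linarith)
    have h4 : C * (tau b : ℝ) ^ k * (A / 3 ^ n) ^ ((1 : ℝ) / 3) * (1 + Real.log (1 + A / 3 ^ n)) ≤
        C * (tau b : ℝ) ^ k * (A ^ ((1 : ℝ) / 3) * y ^ n) * (1 + Real.log (1 + A)) := by
      rw [h2]
      gcongr
    calc sU n * |T411.P3 (A / 3 ^ n) b - c0 * PE b * (A / 3 ^ n) ^ ((2 : ℝ) / 3)|
        ≤ sU n * (C * (tau b : ℝ) ^ k * (A ^ ((1 : ℝ) / 3) * y ^ n) * (1 + Real.log (1 + A))) :=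
          mul_le_mul_of_nonneg_left (h1.trans h4) (sU_nonneg n)
      _ = _ := by ring
  have hS3 : Summable (fun n : ℕ =>
      C * (tau b : ℝ) ^ k * A ^ ((1 : ℝ) / 3) * (1 + Real.log (1 + A)) * (sU n * y ^ n)) :=
    (summable_sU hy0.le hy1).mul_left _
  have hS2 : Summable (fun n : ℕ =>
      sU n * (T411.P3 (A / 3 ^ n) b - c0 * PE b * (A / 3 ^ n) ^ ((2 : ℝ) / 3))) :=
    Summable.of_norm_bounded hS3 (fun n => by rw [Real.norm_eq_abs]; exact hterm n)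
  have e1 : ∑' n : ℕ, sU n * T411.P3 (A / 3 ^ n) b =
      (∑' n : ℕ, sU n * (T411.P3 (A / 3 ^ n) b - c0 * PE b * (A / 3 ^ n) ^ ((2 : ℝ) / 3))) +
      ∑' n : ℕ, sU n * (c0 * PE b * (A / 3 ^ n) ^ ((2 : ℝ) / 3)) := by
    rw [← hS2.tsum_add hS1]
    refine tsum_congr fun n => ?_
    ring
  have e2 : ∑' n : ℕ, sU n * (c0 * PE b * (A / 3 ^ n) ^ ((2 : ℝ) / 3)) =
      (3 : ℝ) ^ ((4 : ℝ) / 3) * c0 * PE b * A ^ ((2 : ℝ) / 3) := by
    simp_rw [hmain]
    rw [tsum_mul_left, tsum_sU]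
    ring
  rw [e1, e2, add_sub_cancel_right, ← Real.norm_eq_abs]
  refine (norm_tsum_le_tsum_norm hS2.norm).trans ?_
  calc ∑' n : ℕ, ‖sU n * (T411.P3 (A / 3 ^ n) b - c0 * PE b * (A / 3 ^ n) ^ ((2 : ℝ) / 3))‖
      ≤ ∑' n : ℕ, C * (tau b : ℝ) ^ k * A ^ ((1 : ℝ) / 3) * (1 + Real.log (1 + A)) *
          (sU n * y ^ n) :=
        hS2.norm.tsum_le_tsum (fun n => by rw [Real.norm_eq_abs]; exact hterm n) hS3
    _ = _ := by rw [tsum_mul_left]; ring

end Crest.Agent.R017.P3all283
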