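import Crest.Agent.R017.BadK_271
import Crest.Agent.R017.E5T_54
import Crest.Agent.R017.XSup_271

/-!
# Row 17, R8 (E5), part P6: `SgT` from `SgA`, class N (helper271)

* `bad_q` : the total contribution of the `k` with `φ conj χ_k` principal (lists of provider pieces)
* `SgT_le` : `Σ ‖SgT‖ ≤ Σ ‖SgA‖ + ...`
* `TopA` : the signed theorem with `SgA`, `topS_of_topA`
-/

set_option autoImplicit false

noncomputable section

open Complex MeasureTheory Filter Topology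
open scoped ContDiff ComplexConjugate

namespace Crest.Agent.R017.BadK271

open Crest.Agent.R012 Crest.Agent.R012.Eis Crest.Agent.R012.Gauss880
open Crest.Agent.R012.LS2 (bl mem_bl)
open Crest.Agent.R012.PSer47 Crest.Agent.R012.Div277 Crest.Agent.R012.Mob705
open Crest.Agent.R017.CM106 (CS)
open Crest.Agent.R017.End699 Crest.Agent.R017.FE47 Crest.Agent.R017.Two939
open Crest.Agent.R017.B770 Crest.Agent.R017.Sup271 Crest.Agent.R017.Bx986
open Crest.Agent.R017.HP842 (UT Pc pc)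
open Crest.Agent.R017.SupPc271
open Crest.Agent.R017.BoxP271 (norm_sy_le' norm_wk_le sw_bdd)
open Crest.Agent.R017.Prov71 Crest.Agent.R017.XG702 Crest.Agent.R017.ER911
open Crest.Agent.R017.E5T54
open Crest.Agent.R017.Cone59 (Tg a2)

/-- length outside the smooth Möbius pieces -/
def zl (p : Pq) : ℝ := by
  classical
  exact if Dq.lump p then 0 else p.z

lemma zl_of_lump {p : Pq} (h : Dq.lump p) : zl p = 0 := by unfold zl; rw [if_pos h]
lemma zl_of_not {p : Pq} (h : ¬ Dq.lump p) : zl p = p.z := by unfold zl; rw [if_neg h]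

lemma norm_chK_le {P : DPar} (hP : P.OK) (k : Kd) {b : Eis} (hb : IsPrim b) : ‖chK P k b‖ ≤ 1 :=
  (isChar_chK hP k).norm_le hb

lemma norm_Vp (P : DPar) (h : ℝ → ℝ) (k : Eis) (p : Pq) : ‖Vp P h k p‖ = ‖CS (pc h (p.pc P)) k‖ := by
  unfold Vp
  cases p.kd with
  | mo => rfl
  | am => exact RCLike.norm_conj _

/-- one piece at a bad `k` -/
lemma piece_q (P : DPar) (hP : P.OK) {h : ℝ → ℝ} {s Ca Cb M T : ℝ} (hs0 : 0 < s)
    (hCa : 1 ≤ Ca) (hCb : 1 ≤ Cb)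
    (ha : ∀ k : Eis, k ≠ 0 → ¬ NPk P.n P.φ P.l₁ k → NPm P.n P.ψ P.l₂ k → ∀ d : Eis, d ≠ 0 →
      ∀ z t : ℝ, ‖PS (cx h) (fun b => tw P.ψ P.l₂ b * prin0 d b * sy k b) z t‖ ≤
        Ca * ((nm d : ℝ) * nm k) ^ s * (1 + |t|) ^ 4)
    (hb : ∀ (p : Pc) (k : Eis), (∀ b, IsPrim b → ‖p.ψ b‖ ≤ 1) → 0 < p.Y →
      ‖CS (pc h p) k‖ ≤ Cb * p.Y) (hT : 1 ≤ T)
    {k : Eis} (hk0 : k ≠ 0) (hbad : Bad P k) {p : Pq} (hM : (nm p.d : ℝ) * nm k ≤ M)
    (hpT : 1 + |p.t| ≤ T) :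
    ‖Vp P h k p‖ ≤ (Ca * Cb * M ^ s * T ^ 4) * Real.exp (zl p) := by
  have hd1 : (1 : ℝ) ≤ nm p.d := by exact_mod_cast nm_pos.mpr p.d0
  have hk1 : (1 : ℝ) ≤ nm k := by exact_mod_cast nm_pos.mpr hk0
  have hM1 : 1 ≤ M := le_trans (one_le_mul_of_one_le_of_one_le hd1 hk1) hM
  have hMs : 1 ≤ M ^ s := Real.one_le_rpow hM1 hs0.le
  have hT4 : 1 ≤ T ^ 4 := one_le_pow₀ hT
  rw [norm_Vp]
  by_cases hl : Dq.lump p
  · rw [zl_of_lump hl, Real.exp_zero, mul_one]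
    rw [Dq_lump] at hl
    have h1 := ha k hk0 hbad.2 hbad.1 p.d p.d0 p.z p.t
    have e1 : ‖CS (pc h (p.pc P)) k‖ =
        ‖PS (cx h) (fun b => tw P.ψ P.l₂ b * prin0 p.d b * sy k b) p.z p.t‖ := by
      rw [CS_pc]
      simp only [Pq.pc_Y, Pq.pc_t, Real.log_exp]
      congr 1
      refine PS_congr (fun b _ => ?_) _ _
      simp only [Pq.pc_u, Pq.pc_ψ, hl.2, hl.1, chK, HP842.uv, tw]
      ring
    rw [e1]
    refine h1.trans ?_
    calc Ca * ((nm p.d : ℝ) * nm k) ^ s * (1 + |p.t|) ^ 4 ≤ Ca * M ^ s * T ^ 4 := by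
          gcongr
      _ = Ca * 1 * M ^ s * T ^ 4 := by ring
      _ ≤ _ := by gcongr
  · rw [zl_of_not hl]
    have h1 := hb (p.pc P) k (fun b hb' => ?_) (Real.exp_pos _)
    · refine h1.trans ?_
      rw [Pq.pc_Y]
      have h2 : Cb ≤ Ca * Cb * M ^ s * T ^ 4 := by
        calc Cb = 1 * Cb * 1 * 1 := by ring
          _ ≤ _ := by gcongr
      gcongr
    · rw [Pq.pc_ψ]
      simp only
      rw [norm_mul]
      refine mul_le_one₀ (norm_chK_le hP p.kd hb') (norm_nonneg _) ?_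
      unfold prin0; split_ifs <;> simp

lemma prod_q {P : DPar} {h : ℝ → ℝ} {k : Eis} {E : ℝ} (hE : 1 ≤ E) {N : ℕ} :
    ∀ ps : List Pq, ps.length ≤ N → (∀ p ∈ ps, ‖Vp P h k p‖ ≤ E * Real.exp (zl p)) →
      ‖VV P h ps k‖ ≤ E ^ N * Real.exp ((ps.map zl).sum) := by
  have key : ∀ ps : List Pq, (∀ p ∈ ps, ‖Vp P h k p‖ ≤ E * Real.exp (zl p)) →
      ‖VV P h ps k‖ ≤ E ^ ps.length * Real.exp ((ps.map zl).sum) := by
    intro ps
    induction ps with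
    | nil => intro _; simp [VV]
    | cons p ps ih =>
      intro hp
      have h1 := ih fun q hq => hp q (List.mem_cons_of_mem _ hq)
      have h2 := hp p List.mem_cons_self
      have e : VV P h (p :: ps) k = Vp P h k p * VV P h ps k := by simp [VV]
      rw [e, norm_mul, List.map_cons, List.sum_cons, Real.exp_add, List.length_cons, pow_succ]
      calc ‖Vp P h k p‖ * ‖VV P h ps k‖ ≤ (E * Real.exp (zl p)) *
            (E ^ ps.length * Real.exp ((ps.map zl).sum)) := by gcongr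
        _ = _ := by ring
  intro ps hN hp
  refine (key ps hp).trans ?_
  have : E ^ ps.length ≤ E ^ N := pow_le_pow_right₀ hE hN
  gcongr

open Classical in
/-- **the bad `k`, lists of provider pieces** -/
theorem bad_q (P : DPar) (hP : P.OK) {h : ℝ → ℝ} {c₀ : ℝ} (hpu : PU h c₀) (N : ℕ) {ε : ℝ}
    (hε : 0 < ε) : ∃ C : ℝ, 0 ≤ C ∧
    ∀ K : ℝ, 0 < K → ∀ (M T : ℝ), 1 ≤ M → 1 ≤ T → ∀ ps : List Pq, ps.length ≤ N →
      (∀ p ∈ ps, (nm p.d : ℝ) ≤ M ∧ 1 + |p.t| ≤ T) →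
    ∀ (H τ : ℝ) (d₃ e : Eis), IsPrim e → ∀ 𝒟 : Finset Eis, (∀ q ∈ 𝒟, IsPrim q) →
      ∑ q ∈ 𝒟, ∑ k ∈ (bl K).filter fun k => q ^ 2 ∣ k ∧ Bad P k,
          ‖P.wk τ H k * (prin0 d₃ k * sy k e) * VV P h ps k‖ ≤
        C * (M * (1 + K)) ^ ε * T ^ (4 * N) * (K ^ (1 / 3 : ℝ) * Real.exp ((ps.map zl).sum)) := by
  obtain ⟨BU, hBU0, hBU⟩ := sw_bdd hP.U
  set s : ℝ := ε / (N + 1) with hs
  have hs0 : 0 < s := by positivity
  obtain ⟨Ca, hCa, ha⟩ := one_bad (cd_cx hpu.cd) (cs_cx hpu.cs) hP.φ hP.ψ P.l₁ P.l₂ hs0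
  obtain ⟨Cb, hCb, hb⟩ := CS_triv hpu
  obtain ⟨Cτ, hCτ, hτ⟩ := tau_le_rpow hs0
  have hn3 : (0 : ℝ) ≤ nm P.n₃ := by positivity
  refine ⟨(nm P.n₃ * BU) * (Ca * Cb) ^ N * (Cτ * 18), by positivity, ?_⟩
  intro K hK M T hM hT ps hN hps H τ d₃ e he 𝒟 h𝒟
  set X : ℝ := M * (1 + K) with hX
  have hX1 : 1 ≤ X := one_le_mul_of_one_le_of_one_le hM (by linarith)
  have hXs : 1 ≤ X ^ s := Real.one_le_rpow hX1 hs0.le
  have hT4 : 1 ≤ T ^ 4 := one_le_pow₀ hT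
  set E : ℝ := Ca * Cb * X ^ s * T ^ 4 with hE
  have hCC : 1 ≤ Ca * Cb := one_le_mul_of_one_le_of_one_le hCa hCb
  have hE1 : 1 ≤ E := one_le_mul_of_one_le_of_one_le (one_le_mul_of_one_le_of_one_le hCC hXs) hT4
  set S := (bl K).filter fun k => Bad P k with hSdef
  set V : ℝ := (nm P.n₃ * BU) * (E ^ N * Real.exp ((ps.map zl).sum)) with hV
  have hV0 : 0 ≤ V := by positivity
  have hone : ∀ k ∈ S, ‖P.wk τ H k * (prin0 d₃ k * sy k e) * VV P h ps k‖ ≤ V := by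
    intro k hk
    rw [hSdef, Finset.mem_filter, mem_bl hK.le] at hk
    obtain ⟨⟨hk0, hkK⟩, hbad⟩ := hk
    have w1 := norm_wk_le P hP hBU τ H hk0
    have w2 : ‖prin0 d₃ k * sy k e‖ ≤ 1 := by
      rw [norm_mul]
      refine mul_le_one₀ ?_ (norm_nonneg _) (norm_sy_le' k e he)
      unfold prin0; split_ifs <;> simp
    have w3 := prod_q (P := P) (h := h) (k := k) hE1 ps hN fun p hp => by
      refine piece_q P hP hs0 hCa hCb ha hb hT hk0 hbad ?_ (hps p hp).2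
      rw [hX]
      have := (hps p hp).1
      have hk1 : (nm k : ℝ) ≤ 1 + K := by linarith
      gcongr
    rw [norm_mul, norm_mul]
    calc ‖P.wk τ H k‖ * ‖prin0 d₃ k * sy k e‖ * ‖VV P h ps k‖ ≤
        (nm P.n₃ * BU) * 1 * (E ^ N * Real.exp ((ps.map zl).sum)) := by gcongr
      _ = V := by rw [hV, mul_one]
  have hsum : ∑ q ∈ 𝒟, ∑ k ∈ (bl K).filter fun k => q ^ 2 ∣ k ∧ Bad P k,
      ‖P.wk τ H k * (prin0 d₃ k * sy k e) * VV P h ps k‖ ≤
        ∑ k ∈ S, ((𝒟.filter fun q => q ^ 2 ∣ k).card : ℝ) * V := by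
    calc ∑ q ∈ 𝒟, ∑ k ∈ (bl K).filter fun k => q ^ 2 ∣ k ∧ Bad P k,
          ‖P.wk τ H k * (prin0 d₃ k * sy k e) * VV P h ps k‖
        = ∑ q ∈ 𝒟, ∑ k ∈ S, if q ^ 2 ∣ k then
          ‖P.wk τ H k * (prin0 d₃ k * sy k e) * VV P h ps k‖ else 0 := by
          refine Finset.sum_congr rfl fun q _ => ?_
          rw [← Finset.sum_filter, hSdef, Finset.filter_filter]
          refine Finset.sum_congr ?_ fun _ _ => rfl
          ext k
          simp only [Finset.mem_filter]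
          tauto
      _ = ∑ k ∈ S, ∑ q ∈ 𝒟, if q ^ 2 ∣ k then
          ‖P.wk τ H k * (prin0 d₃ k * sy k e) * VV P h ps k‖ else 0 := Finset.sum_comm
      _ ≤ ∑ k ∈ S, ((𝒟.filter fun q => q ^ 2 ∣ k).card : ℝ) * V := by
          refine Finset.sum_le_sum fun k hk => ?_
          rw [← Finset.sum_filter, Finset.sum_const, nsmul_eq_mul]
          exact mul_le_mul_of_nonneg_left (hone k hk) (Nat.cast_nonneg _)
  refine hsum.trans ?_
  rcases lt_or_ge K 1 with hK1 | hK1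
  · have hemp : S = ∅ := by
      rw [hSdef, Finset.filter_eq_empty_iff]
      intro k hk
      rw [mem_bl hK.le] at hk
      have : (1 : ℝ) ≤ nm k := by exact_mod_cast nm_pos.mpr hk.1
      linarith
    rw [hemp, Finset.sum_empty]
    positivity
  have hcount : ∀ k ∈ S, ((𝒟.filter fun q => q ^ 2 ∣ k).card : ℝ) ≤ Cτ * X ^ s := by
    intro k hk
    rw [hSdef, Finset.mem_filter, mem_bl hK.le] at hk
    have h1 : (𝒟.filter fun q => q ^ 2 ∣ k).card ≤ tau k := by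
      unfold tau
      refine Finset.card_le_card fun q hq => ?_
      rw [Finset.mem_filter] at hq
      rw [mem_dvs hk.1.1]
      exact ⟨h𝒟 q hq.1, (dvd_pow_self q two_ne_zero).trans hq.2⟩
    calc ((𝒟.filter fun q => q ^ 2 ∣ k).card : ℝ) ≤ tau k := by exact_mod_cast h1
      _ ≤ Cτ * (nm k : ℝ) ^ s := hτ k hk.1.1
      _ ≤ Cτ * X ^ s := by
          have h2 : (nm k : ℝ) ≤ X := by
            rw [hX]
            calc (nm k : ℝ) ≤ 1 * (1 + K) := by linarith [hk.1.2]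
              _ ≤ _ := by gcongr
          gcongr
  have hcard : (S.card : ℝ) ≤ 18 * K ^ (1 / 3 : ℝ) := by
    have h1 : 1 ≤ ⌊K⌋₊ := by rwa [Nat.one_le_floor_iff]
    have h2 := NatP401.card_principal hP.φ P.l₁ h1 S fun k hk => by
      rw [hSdef, Finset.mem_filter, mem_bl hK.le] at hk
      refine ⟨?_, hk.1.1, hk.2.2⟩
      rw [mem_ball]
      exact Nat.le_floor hk.1.2
    refine h2.trans ?_
    have h3 : (⌊K⌋₊ : ℝ) ≤ K := Nat.floor_le hK.le
    gcongr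
  calc ∑ k ∈ S, ((𝒟.filter fun q => q ^ 2 ∣ k).card : ℝ) * V ≤ ∑ _k ∈ S, (Cτ * X ^ s) * V :=
        Finset.sum_le_sum fun k hk => mul_le_mul_of_nonneg_right (hcount k hk) hV0
    _ = S.card * ((Cτ * X ^ s) * V) := by rw [Finset.sum_const, nsmul_eq_mul]
    _ ≤ (18 * K ^ (1 / 3 : ℝ)) * ((Cτ * X ^ s) * V) := by
        refine mul_le_mul_of_nonneg_right hcard ?_
        positivity
    _ = _ := by
        have e1 : X ^ ε = X ^ s * (X ^ s) ^ N := by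
          rw [← Real.rpow_natCast (X ^ s) N, ← Real.rpow_mul (by linarith),
            ← Real.rpow_add (by linarith)]
          congr 1
          rw [hs]
          field_simp
          ring
        rw [e1, hV, hE, mul_pow, mul_pow, ← pow_mul]
        ring

open Classical in
/-- one `q` -/
lemma SgT_split (P : DPar) (hN : ∀ k, k ≠ 0 → NPm P.n P.ψ P.l₂ k) {β : ℝ} (hβ : 0 < β)
    (hβU : ∀ x, β < x → P.U x = 0)
    {h : ℝ → ℝ} {H : ℝ} (hH : 0 < H) (τ : ℝ) (d₃ e : Eis) (ps : List Pq) (q : Eis) :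
    ‖SgT P h τ H d₃ e ps q‖ ≤ ‖SgA P h τ H d₃ e ps q‖ +
      ∑ k ∈ (bl (β * H)).filter fun k => q ^ 2 ∣ k ∧ Bad P k,
        ‖P.wk τ H k * (prin0 d₃ k * sy k e) * VV P h ps k‖ := by
  have hβH : 0 < β * H := mul_pos hβ hH
  have hz : ∀ k ∉ bl (β * H), k ≠ 0 → P.wk τ H k * (prin0 d₃ k * sy k e) * VV P h ps k = 0 := by
    intro k hk hk0
    have h2 : β * H < nm k := by
      by_contra h3
      exact hk ((mem_bl hβH.le).2 ⟨hk0, not_lt.1 h3⟩)
    have h3 : P.U (nm k / H) = 0 := hβU _ (by rwa [lt_div_iff₀ hH])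
    unfold DPar.wk
    rw [h3]
    simp
  have e1 : SgT P h τ H d₃ e ps q =
      ∑ k ∈ bl (β * H), if q ^ 2 ∣ k ∧ P.NP2 k then
        P.wk τ H k * (prin0 d₃ k * sy k e) * VV P h ps k else 0 := by
    unfold SgT
    rw [tsum_eq_sum (s := bl (β * H))]
    · refine Finset.sum_congr rfl fun k hk => ?_
      rw [mem_bl hβH.le] at hk
      simp [hk.1]
    · intro k hk
      split_ifs with hc
      · exact hz k hk hc.1
      · rfl
  have e2 : SgA P h τ H d₃ e ps q = ∑ k ∈ bl (β * H), if q ^ 2 ∣ k then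
      P.wk τ H k * (prin0 d₃ k * sy k e) * VV P h ps k else 0 := by
    unfold SgA
    rw [tsum_eq_sum (s := bl (β * H))]
    · refine Finset.sum_congr rfl fun k hk => ?_
      rw [mem_bl hβH.le] at hk
      simp [hk.1]
    · intro k hk
      split_ifs with hc
      · exact hz k hk hc.1
      · rfl
  have e3 : ∑ k ∈ bl (β * H), (if q ^ 2 ∣ k ∧ P.NP2 k then
        P.wk τ H k * (prin0 d₃ k * sy k e) * VV P h ps k else 0) =
      ∑ k ∈ bl (β * H), (if q ^ 2 ∣ k then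
        P.wk τ H k * (prin0 d₃ k * sy k e) * VV P h ps k else 0) -
      ∑ k ∈ (bl (β * H)).filter fun k => q ^ 2 ∣ k ∧ Bad P k,
        P.wk τ H k * (prin0 d₃ k * sy k e) * VV P h ps k := by
    rw [Finset.sum_filter, ← Finset.sum_sub_distrib]
    refine Finset.sum_congr rfl fun k hk => ?_
    rw [mem_bl hβH.le] at hk
    have h2 := hN k hk.1
    unfold DPar.NP2 Bad
    by_cases h1 : q ^ 2 ∣ k <;> by_cases h3 : NPk P.n P.φ P.l₁ k <;> simp [h1, h2, h3]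
  rw [e1, e2, e3]
  refine (norm_sub_le _ _).trans ?_
  gcongr
  exact norm_sum_le _ _

/-- **the signed theorem with all `k`** -/
def TopA {Λ : Type*} (θ g μ' a₀ A : ℝ) (w : Fin 5 → ℝ) (π : Λ → DPar) (h : ℝ → ℝ) : Prop :=
  ∃ δ : ℝ, 0 < δ ∧ ∀ (lam : Λ) (N : ℕ) (B : ℝ), ∃ δ' : ℝ, 0 < δ' ∧ ∃ X₀ : ℝ, 1 < X₀ ∧
    ∀ X : ℝ, X₀ ≤ X → ∀ (H : ℝ), 0 < H → ∀ (ps : List Pq), ps.length ≤ N →
      (∀ p ∈ ps, Dq.lump p ∨ Dq.nl X p ≤ δ) → Dq.Good X δ' B ps →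
      a₀ ≤ Real.log H / Real.log X → NearQ A w (Real.log H / Real.log X) X ps →
      ∀ (d₃ e : Eis), d₃ ≠ 0 → (nm d₃ : ℝ) ≤ X ^ B → Sx545.Sm (π lam).n e →
        (∀ p : Eis, Prime p → p ∣ e → p ^ 5 ∣ e) →
      ∀ τ : ℝ, 1 + |τ| ≤ X ^ δ' →
      ∀ 𝒟 : Finset Eis, (∀ q ∈ 𝒟, Sx545.Sm (π lam).n q ∧ Squarefree q) →
      ∀ hh q c : ℝ, 0 ≤ hh → hh ≤ 1 → 0 ≤ q → q ≤ 2 - 2 * g → 0 ≤ c → c ≤ g →
        q + Real.log (nm e) / Real.log X - c ≤ 2 - 3 * g + δ →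
        |Real.log H / Real.log X - hh| ≤ δ → |Dq.mass X ps .mo - q| ≤ δ →
        |Dq.mass X ps .am - c| ≤ δ →
        ∑ r ∈ 𝒟, ‖SgA (π lam) h τ H d₃ e ps r‖ ≤ X ^ (Tg θ g hh q c - μ')

/-! ### the length outside the five lumps -/

lemma zl_le {p : Pq} (hp : 0 ≤ p.z) : zl p ≤ p.z := by
  by_cases h : Dq.lump p
  · rw [zl_of_lump h]; exact hp
  · rw [zl_of_not h]

lemma sum_zl_le (ps : List Pq) (hp : ∀ p ∈ ps, 0 ≤ p.z) :
    (ps.map zl).sum ≤ (ps.map fun p => p.z).sum := by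
  induction ps with
  | nil => simp
  | cons p ps ih =>
    rw [List.map_cons, List.map_cons, List.sum_cons, List.sum_cons]
    exact add_le_add (zl_le (hp p List.mem_cons_self))
      (ih fun q hq => hp q (List.mem_cons_of_mem _ hq))

lemma sum_z_eq {X : ℝ} (hX : 1 < X) (ps : List Pq) :
    (ps.map fun p => p.z).sum = Real.log X * (Dq.mass X ps .mo + Dq.mass X ps .am) := by
  have hl : Real.log X ≠ 0 := (Real.log_pos hX).ne'
  induction ps with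
  | nil => simp
  | cons p ps ih =>
    rw [List.map_cons, List.sum_cons, ih, Pcs.mass_cons, Pcs.mass_cons]
    have e : p.z = Real.log X * Dq.nl X p := by
      unfold Pcs.nl
      rw [Dq_len]
      field_simp
    cases hk : p.kd with
    | mo =>
      simp only [Dq_kind, hk, if_true, reduceCtorEq, if_false]
      linear_combination e
    | am =>
      simp only [Dq_kind, hk, if_true, reduceCtorEq, if_false]
      linear_combination e

lemma sum_zl_near {X : ℝ} (hX : 1 < X) {A k : ℝ} {w : Fin 5 → ℝ} (hw : ∀ i, w i ≤ 2)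
    {ps : List Pq} (hp : ∀ p ∈ ps, 0 ≤ p.z) (hn : NearQ A w k X ps) :
    (ps.map zl).sum ≤ Real.log X * (Dq.mass X ps .mo + Dq.mass X ps .am - A * k / 2) := by
  obtain ⟨us, gs, hperm, hl, _, hA⟩ := hn
  have hlX : 0 < Real.log X := Real.log_pos hX
  have h1 : (ps.map zl).sum = ((List.ofFn us).map zl).sum + (gs.map zl).sum := by
    rw [(hperm.map zl).sum_eq, List.map_append, List.sum_append]
  have h2 : ((List.ofFn us).map zl).sum = 0 := by
    rw [List.map_ofFn, List.sum_ofFn]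
    exact Finset.sum_eq_zero fun i _ => zl_of_lump (hl i)
  have hpu : ∀ i, 0 ≤ (us i).z := fun i =>
    hp _ (hperm.symm.subset (List.mem_append_left _ ((List.mem_ofFn' _ _).2 ⟨i, rfl⟩)))
  have hpg : ∀ p ∈ gs, 0 ≤ p.z := fun p hp' =>
    hp _ (hperm.symm.subset (List.mem_append_right _ hp'))
  have h3 := sum_zl_le gs hpg
  have h4 : (ps.map fun p => p.z).sum = (∑ i, (us i).z) + (gs.map fun p => p.z).sum := by
    rw [(hperm.map fun p => p.z).sum_eq, List.map_append, List.sum_append, List.map_ofFn,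
      List.sum_ofFn]
    rfl
  have h5 := sum_z_eq hX ps
  have h6 : Real.log X * (A * k) ≤ 2 * ∑ i, (us i).z := by
    have e1 : Real.log X * ∑ i, w i * Dq.nl X (us i) = ∑ i, w i * (us i).z := by
      rw [Finset.mul_sum]
      refine Finset.sum_congr rfl fun i _ => ?_
      unfold Pcs.nl
      rw [Dq_len]
      field_simp
    calc Real.log X * (A * k) ≤ Real.log X * ∑ i, w i * Dq.nl X (us i) := by gcongr
      _ = ∑ i, w i * (us i).z := e1
      _ ≤ ∑ i, 2 * (us i).z := Finset.sum_le_sum fun i _ => by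
          have := hpu i
          have := hw i
          gcongr
      _ = _ := by rw [Finset.mul_sum]
  rw [h1, h2, zero_add]
  nlinarith

/-- the exponent of the bad `k` is below the target -/
lemma bad_exp {θ g a₀ A δ k hh q c m₁ m₂ : ℝ} (hg : 1 / 3 ≤ g) (ha : 0 ≤ a2 θ g)
    (ha₀ : 7 / 8 ≤ a₀) (hA : 9 / 10 ≤ A) (_hδ : 0 ≤ δ) (hδ1 : δ ≤ 1 / 1000) (hk : a₀ ≤ k)
    (hkh : |k - hh| ≤ δ) (hq : q ≤ 2 - 2 * g) (hc : c ≤ g) (h1 : |m₁ - q| ≤ δ)
    (h2 : |m₂ - c| ≤ δ) :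
    k / 3 + (m₁ + m₂ - A * k / 2) + 1 / 100 ≤ Tg θ g hh q c - 1 / 10 := by
  have h3 := abs_le.1 hkh
  have h4 := abs_le.1 h1
  have h5 := abs_le.1 h2
  have t1 : (1 / 3 + g + θ * (2 - 2 * g)) + ((hh - 1) + (q - (2 - 2 * g)) / 2 + (c - g) / 2) ≤
      Tg θ g hh q c := by unfold Tg; gcongr; exact le_max_left _ _
  unfold a2 at ha
  have h6 : 9 / 10 * k ≤ A * k := by nlinarith
  nlinarith

set_option maxHeartbeats 1000000 in
open Classical in
/-- **P6**: the signed theorem from the signed theorem with all `k`, class N -/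
theorem topS_of_topA {Λ : Type*} {θ g μ₁ μ' a₀ A : ℝ} {w : Fin 5 → ℝ} {π : Λ → DPar} {h : ℝ → ℝ}
    {c₀ : ℝ} (hpu : PU h c₀) (hπ : ∀ lam, (π lam).OK)
    (hN : ∀ lam k, k ≠ 0 → NPm (π lam).n (π lam).ψ (π lam).l₂ k)
    (hg : 1 / 3 ≤ g) (ha : 0 ≤ a2 θ g) (ha₀ : 7 / 8 ≤ a₀) (hA : 9 / 10 ≤ A) (hw : ∀ i, w i ≤ 2)
    (hμ1 : μ' < μ₁) (hμ2 : μ' < 1 / 10) (hTop : TopA θ g μ₁ a₀ A w π h) :
    TopS θ g μ' a₀ A w π h := by
  obtain ⟨δ₁, hδ₁, HT⟩ := hTop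
  refine ⟨min δ₁ (1 / 1000), by positivity, fun lam N B => ?_⟩
  obtain ⟨δ₁', hδ₁', X₁, hX₁, HT1⟩ := HT lam N B
  -- the constants
  set δ := min δ₁ (1 / 1000) with hδ
  have hδ1 : δ ≤ δ₁ := min_le_left _ _
  have hδ2 : δ ≤ 1 / 1000 := min_le_right _ _
  have hδ0 : 0 < δ := by positivity
  set ε : ℝ := (1 / 300) / (|B| + 3) with hε
  have hε0 : 0 < ε := by positivity
  obtain ⟨C, hC, hbad⟩ := bad_q (π lam) (hπ lam) hpu N hε0
  obtain ⟨β, hβ, hβU⟩ := exists_supp (hπ lam).U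
  set δ' : ℝ := min δ₁' ((1 / 300) / (4 * N + 1)) with hδ'
  have hδ'0 : 0 < δ' := by positivity
  have hδ'1 : δ' ≤ δ₁' := min_le_left _ _
  have hδ'2 : 4 * N * δ' ≤ 1 / 300 := by
    have h1 : δ' ≤ (1 / 300) / (4 * N + 1) := min_le_right _ _
    have h2 : (4 * N + 1 : ℝ) * δ' ≤ 1 / 300 := by
      rw [mul_comm]
      rwa [le_div_iff₀ (by positivity)] at h1
    nlinarith
  set D : ℝ := C * (1 + β) ^ ε * β ^ (1 / 3 : ℝ) + 1 with hD
  have hD1 : 1 ≤ D := by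
    have : 0 ≤ C * (1 + β) ^ ε * β ^ (1 / 3 : ℝ) := by positivity
    linarith
  -- `X₂` : `D X^{-1/300}` small and the sum of two powers
  obtain ⟨X₂, hX₂, HX₂⟩ := XSup271.exists_X hD1 (ε := 1 / 300) (by norm_num)
  set μd : ℝ := min μ₁ (1 / 10) - μ' with hμd
  have hμd0 : 0 < μd := by
    rw [hμd]
    have : μ' < min μ₁ (1 / 10) := lt_min hμ1 hμ2
    linarith
  obtain ⟨X₃, hX₃, HX₃⟩ := XSup271.exists_X (C := 2) (by norm_num) hμd0
  refine ⟨δ', hδ'0, max X₁ (max X₂ X₃), lt_of_lt_of_le hX₁ (le_max_left _ _), ?_⟩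
  intro X hX H hH ps hlen hlump hgood ha₀' hnear d₃ e hd₃ hd₃' he he5 τ hτ 𝒟 h𝒟 hh q c
    hh0 hh1 hq0 hq1 hc0 hc1 hqc hk hm1 hm2
  have hXX1 : X₁ ≤ X := (le_max_left _ _).trans hX
  have hXX2 : X₂ ≤ X := (le_max_left _ _).trans ((le_max_right _ _).trans hX)
  have hXX3 : X₃ ≤ X := (le_max_right _ _).trans ((le_max_right _ _).trans hX)
  have hX1 : 1 < X := lt_of_lt_of_le hX₁ hXX1
  have hX0 : 0 < X := by linarith
  have hlX : 0 < Real.log X := Real.log_pos hX1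
  -- the main part
  have hmain := HT1 X hXX1 H hH ps hlen (fun p hp => (hlump p hp).imp id fun h => h.trans hδ1)
    (fun p hp => ⟨(hgood p hp).1.trans (Real.rpow_le_rpow_of_exponent_le hX1.le hδ'1),
      (hgood p hp).2⟩) ha₀' hnear d₃ e hd₃ hd₃' he he5 τ
    (hτ.trans (Real.rpow_le_rpow_of_exponent_le hX1.le hδ'1)) 𝒟 h𝒟 hh q c hh0 hh1 hq0 hq1 hc0 hc1
    (by linarith) (hk.trans hδ1) (hm1.trans hδ1) (hm2.trans hδ1)
  -- the bad part
  set k : ℝ := Real.log H / Real.log X with hkdef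
  have hHX : H = X ^ k := by
    rw [Real.rpow_def_of_pos hX0, hkdef, mul_div_cancel₀ _ hlX.ne', Real.exp_log hH]
  have hz : ∀ p ∈ ps, 0 ≤ p.z := fun p hp => (hgood p hp).2.2
  have hb := hbad (β * H) (by positivity) (X ^ |B|) (X ^ δ') (Real.one_le_rpow hX1.le (abs_nonneg B))
    (Real.one_le_rpow hX1.le hδ'0.le) ps hlen (fun p hp => ⟨(hgood p hp).2.1.trans
      (Real.rpow_le_rpow_of_exponent_le hX1.le (le_abs_self B)), (hgood p hp).1⟩) H τ d₃ e he.1 𝒟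
    (fun q hq => (h𝒟 q hq).1.1)
  have hs := sum_zl_near hX1 hw hz hnear
  have hk' := abs_le.1 hk
  have hk1 : k ≤ 2 := by linarith
  have hk0 : 0 ≤ k := by linarith
  have hexp := bad_exp hg ha ha₀ hA hδ0.le hδ2 ha₀' hk hq1 hc1 hm1 hm2
  have e1 : Real.exp ((ps.map zl).sum) ≤
      X ^ (Dq.mass X ps .mo + Dq.mass X ps .am - A * k / 2) := by
    rw [Real.rpow_def_of_pos hX0]
    exact Real.exp_le_exp.2 hs
  have e2 : (X ^ |B| * (1 + β * H)) ^ ε ≤ (1 + β) ^ ε * X ^ (1 / 300 : ℝ) := by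
    have h1 : 1 + β * H ≤ (1 + β) * X ^ (2 : ℝ) := by
      have h2 : H ≤ X ^ (2 : ℝ) := by
        rw [hHX]; exact Real.rpow_le_rpow_of_exponent_le hX1.le hk1
      have h3 : 1 ≤ X ^ (2 : ℝ) := Real.one_le_rpow hX1.le (by norm_num)
      have h7 : β * H ≤ β * X ^ (2 : ℝ) := mul_le_mul_of_nonneg_left h2 hβ.le
      linarith
    calc (X ^ |B| * (1 + β * H)) ^ ε ≤ (X ^ |B| * ((1 + β) * X ^ (2 : ℝ))) ^ ε := by gcongr
      _ = (1 + β) ^ ε * X ^ ((|B| + 2) * ε) := by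
          rw [Real.rpow_mul hX0.le, ← Real.mul_rpow (by positivity) (by positivity),
            Real.rpow_add hX0]
          congr 1
          ring
      _ ≤ _ := by
          have h4 : (|B| + 2) * ε ≤ 1 / 300 := by
            rw [hε, mul_div_assoc', div_le_iff₀ (by positivity)]
            linarith [abs_nonneg B]
          have := Real.rpow_le_rpow_of_exponent_le hX1.le h4
          gcongr
  have e3 : (X ^ δ') ^ (4 * N) ≤ X ^ (1 / 300 : ℝ) := by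
    rw [← Real.rpow_natCast, ← Real.rpow_mul hX0.le]
    refine Real.rpow_le_rpow_of_exponent_le hX1.le ?_
    have h7 : δ' * ((4 * N : ℕ) : ℝ) = 4 * N * δ' := by push_cast; ring
    rw [h7]
    exact hδ'2
  have e4 : (β * H) ^ (1 / 3 : ℝ) = β ^ (1 / 3 : ℝ) * X ^ (k / 3) := by
    rw [Real.mul_rpow hβ.le hH.le, hHX, ← Real.rpow_mul hX0.le]
    congr 2
    ring
  have hbad2 : ∑ r ∈ 𝒟, ∑ k ∈ (bl (β * H)).filter fun k => r ^ 2 ∣ k ∧ Bad (π lam) k,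
        ‖(π lam).wk τ H k * (prin0 d₃ k * sy k e) * VV (π lam) h ps k‖ ≤
      X ^ (Tg θ g hh q c - 1 / 10) := by
    refine hb.trans ?_
    rw [e4]
    calc C * (X ^ |B| * (1 + β * H)) ^ ε * (X ^ δ') ^ (4 * N) *
          (β ^ (1 / 3 : ℝ) * X ^ (k / 3) * Real.exp ((ps.map zl).sum))
        ≤ C * ((1 + β) ^ ε * X ^ (1 / 300 : ℝ)) * X ^ (1 / 300 : ℝ) *
          (β ^ (1 / 3 : ℝ) * X ^ (k / 3) *
            X ^ (Dq.mass X ps .mo + Dq.mass X ps .am - A * k / 2)) := by gcongr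
      _ = (C * (1 + β) ^ ε * β ^ (1 / 3 : ℝ)) * (X ^ (1 / 300 : ℝ) * X ^ (1 / 300 : ℝ) *
          X ^ (k / 3) * X ^ (Dq.mass X ps .mo + Dq.mass X ps .am - A * k / 2)) := by ring
      _ ≤ X ^ (1 / 300 : ℝ) * (X ^ (1 / 300 : ℝ) * X ^ (1 / 300 : ℝ) *
          X ^ (k / 3) * X ^ (Dq.mass X ps .mo + Dq.mass X ps .am - A * k / 2)) := by
          have h5 := HX₂ X hXX2
          have h6 : C * (1 + β) ^ ε * β ^ (1 / 3 : ℝ) ≤ X ^ (1 / 300 : ℝ) := by linarith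
          gcongr
      _ = X ^ (1 / 300 + (1 / 300 + 1 / 300 + k / 3 +
          (Dq.mass X ps .mo + Dq.mass X ps .am - A * k / 2))) := by
          rw [← Real.rpow_add hX0, ← Real.rpow_add hX0, ← Real.rpow_add hX0, ← Real.rpow_add hX0]
      _ ≤ _ := by
          refine Real.rpow_le_rpow_of_exponent_le hX1.le ?_
          linarith
  calc ∑ r ∈ 𝒟, ‖SgT (π lam) h τ H d₃ e ps r‖
      ≤ ∑ r ∈ 𝒟, (‖SgA (π lam) h τ H d₃ e ps r‖ +
        ∑ k ∈ (bl (β * H)).filter fun k => r ^ 2 ∣ k ∧ Bad (π lam) k,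
        ‖(π lam).wk τ H k * (prin0 d₃ k * sy k e) * VV (π lam) h ps k‖) :=
        Finset.sum_le_sum fun r _ => SgT_split (π lam) (hN lam) hβ hβU hH τ d₃ e ps r
    _ = ∑ r ∈ 𝒟, ‖SgA (π lam) h τ H d₃ e ps r‖ + ∑ r ∈ 𝒟,
        ∑ k ∈ (bl (β * H)).filter fun k => r ^ 2 ∣ k ∧ Bad (π lam) k,
        ‖(π lam).wk τ H k * (prin0 d₃ k * sy k e) * VV (π lam) h ps k‖ :=
        Finset.sum_add_distrib
    _ ≤ X ^ (Tg θ g hh q c - μ₁) + X ^ (Tg θ g hh q c - 1 / 10) := add_le_add hmain hbad2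
    _ ≤ X ^ (Tg θ g hh q c - min μ₁ (1 / 10)) + X ^ (Tg θ g hh q c - min μ₁ (1 / 10)) := by
        have h1 : min μ₁ (1 / 10) ≤ μ₁ := min_le_left _ _
        have h2 : min μ₁ (1 / 10 : ℝ) ≤ 1 / 10 := min_le_right _ _
        refine add_le_add ?_ ?_ <;> refine Real.rpow_le_rpow_of_exponent_le hX1.le ?_ <;> linarith
    _ = 2 * X ^ (Tg θ g hh q c - min μ₁ (1 / 10)) := by ring
    _ ≤ X ^ μd * X ^ (Tg θ g hh q c - min μ₁ (1 / 10)) := by
        have := HX₃ X hXX3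
        gcongr
    _ = X ^ (Tg θ g hh q c - μ') := by
        rw [← Real.rpow_add hX0]
        congr 1
        rw [hμd]
        ring

end Crest.Agent.R017.BadK271
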