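import Crest.Agent.R012.DualTail_811

/-!
# Row 17, rule (P): the Poisson identity for a FIXED greatest common divisor

`fixed_gcd` : prime-set form.  For `D ⊆ PS`
`∑ F, (-1)^|F| ∑ (P1, P2 ⊇ D ∪ F) c c̄ T = ∑ F, (-1)^|F| ∑ E ⊆ D, (-1)^|E| (...) ∑' h QQ`.
-/

set_option autoImplicit false

noncomputable section

namespace Crest.Agent.R017.PA842

open Crest.Agent.R012
open Eis CharSum852 Gauss880 Tau671 Mob705 LS2
open Poisson381 (gau norm_gau summable_gau_one summable_gau poisson_gau_periodic s3 s3_eq_toC)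

open Classical in
/-- inclusion-exclusion for a fixed `D` -/
lemma inclexcl_fixed {PS Q D : Finset Eis} (hQ : Q ⊆ PS) (hD : D ⊆ PS) :
    ∑ F ∈ (PS \ D).powerset, (-1 : ℂ) ^ F.card * (if D ∪ F ⊆ Q then 1 else 0) =
      if Q = D then 1 else 0 := by
  have h := sum_inclexcl hQ (fun D' => if D' = D then (1 : ℂ) else 0)
  rw [← h]
  rw [Finset.sum_eq_single_of_mem D (Finset.mem_powerset.2 hD)]
  · refine Finset.sum_congr rfl fun F _ => ?_
    simp
  · intro D' _ hne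
    apply Finset.sum_eq_zero
    intro F _
    rw [if_neg hne]
    simp

open Classical in
/-- sums over pairs containing `D ∪ F` -/
lemma sum_AA_pair {PS D : Finset Eis} (hD : D ⊆ PS) (g : Finset Eis → Finset Eis → ℂ) :
    ∑ F ∈ (PS \ D).powerset, (-1 : ℂ) ^ F.card *
        ∑ P1 ∈ AA PS D F, ∑ P2 ∈ AA PS D F, g P1 P2 =
      ∑ P1 ∈ PS.powerset, ∑ P2 ∈ PS.powerset, if P1 ∩ P2 = D then g P1 P2 else 0 := by
  have e4 : ∀ P1 P2 F : Finset Eis, (D ∪ F ⊆ P1 ∩ P2) ↔ (D ∪ F ⊆ P1 ∧ D ∪ F ⊆ P2) :=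
    fun P1 P2 F => Finset.subset_inter_iff
  have h1 : ∀ F ∈ (PS \ D).powerset, ∑ P1 ∈ AA PS D F, ∑ P2 ∈ AA PS D F, g P1 P2 =
      ∑ P1 ∈ PS.powerset, ∑ P2 ∈ PS.powerset,
        (if D ∪ F ⊆ P1 ∩ P2 then (1 : ℂ) else 0) * g P1 P2 := by
    intro F _
    unfold AA
    rw [Finset.sum_filter]
    refine Finset.sum_congr rfl fun P1 _ => ?_
    by_cases h1 : D ∪ F ⊆ P1
    · rw [if_pos h1, Finset.sum_filter]
      refine Finset.sum_congr rfl fun P2 _ => ?_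
      by_cases h2 : D ∪ F ⊆ P2
      · rw [if_pos h2, if_pos ((e4 P1 P2 F).2 ⟨h1, h2⟩), one_mul]
      · rw [if_neg h2, if_neg (fun h => h2 ((e4 P1 P2 F).1 h).2), zero_mul]
    · rw [if_neg h1]
      symm
      apply Finset.sum_eq_zero
      intro P2 _
      rw [if_neg (fun h => h1 ((e4 P1 P2 F).1 h).1), zero_mul]
  rw [Finset.sum_congr rfl fun F hF => by rw [h1 F hF]]
  simp_rw [Finset.mul_sum]
  rw [Finset.sum_comm]
  refine Finset.sum_congr rfl fun P1 hP1 => ?_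
  rw [Finset.sum_comm]
  refine Finset.sum_congr rfl fun P2 hP2 => ?_
  rw [Finset.mem_powerset] at hP1 hP2
  have h2 := inclexcl_fixed (PS := PS) (Q := P1 ∩ P2) (D := D)
    (Finset.inter_subset_left.trans hP1) hD
  calc ∑ F ∈ (PS \ D).powerset, (-1 : ℂ) ^ F.card *
        ((if D ∪ F ⊆ P1 ∩ P2 then (1 : ℂ) else 0) * g P1 P2)
      = (∑ F ∈ (PS \ D).powerset, (-1 : ℂ) ^ F.card *
        (if D ∪ F ⊆ P1 ∩ P2 then (1 : ℂ) else 0)) * g P1 P2 := by
        rw [Finset.sum_mul]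
        refine Finset.sum_congr rfl fun F _ => by ring
    _ = _ := by
        rw [h2]
        split_ifs <;> simp

/-- the smooth sum of a pair -/
def T (t : ℝ) (P1 P2 : Finset Eis) : ℂ :=
  ∑' m : Eis, (sy m (pr P1) * (starRingEnd ℂ) (sy m (pr P2))) * gau t (toC m)

open Classical in
/-- the dual coefficient of a pair with intersection `D` -/
def Phi (t : ℝ) (c : Finset Eis → ℂ) (D E P1 P2 : Finset Eis) : ℂ :=
  ((2 / Real.sqrt 3 * (t * nm (pr E))⁻¹ : ℝ) : ℂ) *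
      ∑' h : Eis, gau (4 / (3 * (t * nm (pr E) * (nm (pr (P1 \ D)) * nm (pr (P2 \ D)))))) (toC h) *
        (VV c D E h P1 * (starRingEnd ℂ) (VV c D E h P2))

open Classical in
lemma pair_Phi (H : SyFacts) (H' : SyG) {t : ℝ} (ht : 0 < t) {PS : Finset Eis}
    (hPS : IsPS PS) (c : Finset Eis → ℂ) {P1 P2 : Finset Eis} (h1 : P1 ⊆ PS) (h2 : P2 ⊆ PS) :
    (c P1 * (starRingEnd ℂ) (c P2)) * T t P1 P2 =
      ∑ E ∈ (P1 ∩ P2).powerset, (-1) ^ E.card * Phi t c (P1 ∩ P2) E P1 P2 := by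
  unfold T
  rw [pair_formula H H' ht (hPS.mono h1) (hPS.mono h2), Finset.mul_sum]
  refine Finset.sum_congr rfl fun E hE => ?_
  unfold Phi
  rw [← tsum_mul_left, ← tsum_mul_left, ← tsum_mul_left, ← tsum_mul_left, ← tsum_mul_left]
  apply tsum_congr
  intro m
  unfold VV
  rw [map_mul]
  ring

open Classical in
/-- the form of all pairs containing `G` -/
def AF (t : ℝ) (PS : Finset Eis) (c : Finset Eis → ℂ) (D F : Finset Eis) : ℂ :=
  ∑ P1 ∈ AA PS D F, ∑ P2 ∈ AA PS D F, (c P1 * (starRingEnd ℂ) (c P2)) * T t P1 P2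

open Classical in
/-- the form of all pairs with intersection exactly `D` -/
def CC (t : ℝ) (PS : Finset Eis) (c : Finset Eis → ℂ) (D : Finset Eis) : ℂ :=
  ∑ P1 ∈ PS.powerset, ∑ P2 ∈ PS.powerset,
    if P1 ∩ P2 = D then (c P1 * (starRingEnd ℂ) (c P2)) * T t P1 P2 else 0

open Classical in
lemma CC_eq_AF (t : ℝ) {PS D : Finset Eis} (hD : D ⊆ PS) (c : Finset Eis → ℂ) :
    CC t PS c D = ∑ F ∈ (PS \ D).powerset, (-1 : ℂ) ^ F.card * AF t PS c D F :=
  (sum_AA_pair hD _).symm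

open Classical in
lemma sum_CC (t : ℝ) {PS : Finset Eis} (c : Finset Eis → ℂ) :
    ∑ D ∈ PS.powerset, CC t PS c D =
      ∑ P1 ∈ PS.powerset, ∑ P2 ∈ PS.powerset,
        (c P1 * (starRingEnd ℂ) (c P2)) * T t P1 P2 := by
  unfold CC
  rw [Finset.sum_comm]
  refine Finset.sum_congr rfl fun P1 h1 => ?_
  rw [Finset.sum_comm]
  refine Finset.sum_congr rfl fun P2 _ => ?_
  rw [Finset.sum_ite_eq, if_pos]
  rw [Finset.mem_powerset] at h1 ⊢
  exact Finset.inter_subset_left.trans h1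

open Classical in
/-- **the Poisson identity for a fixed gcd** -/
theorem CC_eq_dual (H : SyFacts) (H' : SyG) {t : ℝ} (ht : 0 < t) {PS : Finset Eis}
    (hPS : IsPS PS) (c : Finset Eis → ℂ) {D : Finset Eis} (hD : D ⊆ PS) :
    CC t PS c D =
      ∑ F ∈ (PS \ D).powerset, ∑ E ∈ D.powerset,
        (-1) ^ F.card * ((-1) ^ E.card * (((2 / Real.sqrt 3 * (t * nm (pr E))⁻¹ : ℝ) : ℂ) *
          ∑' h : Eis, QQ t PS c D F E h)) := by
  have e3 : ∀ F ∈ (PS \ D).powerset, ∀ E ∈ D.powerset, ∑' h : Eis, QQ t PS c D F E h =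
      ∑ P1 ∈ AA PS D F, ∑ P2 ∈ AA PS D F, ∑' h : Eis,
        gau (4 / (3 * (t * nm (pr E) * (nm (pr (P1 \ D)) * nm (pr (P2 \ D)))))) (toC h) *
          (VV c D E h P1 * (starRingEnd ℂ) (VV c D E h P2)) := by
    intro F hF E hE
    have hES : IsPS E := hPS.mono ((Finset.mem_powerset.1 hE).trans hD)
    unfold QQ
    have hs2 : ∀ P1 ∈ AA PS D F, ∀ P2 ∈ AA PS D F, Summable fun h : Eis =>
        gau (4 / (3 * (t * nm (pr E) * (nm (pr (P1 \ D)) * nm (pr (P2 \ D)))))) (toC h) *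
          (VV c D E h P1 * (starRingEnd ℂ) (VV c D E h P2)) := by
      intro P1 h1 P2 h2
      have hk1 : IsPS (P1 \ D) := hPS.mono (Finset.sdiff_subset.trans (mem_AA.1 h1).1)
      have hk2 : IsPS (P2 \ D) := hPS.mono (Finset.sdiff_subset.trans (mem_AA.1 h2).1)
      have n1 : 0 < (nm (pr (P1 \ D)) : ℝ) := by exact_mod_cast nm_pos.2 hk1.ne_zero
      have n2 : 0 < (nm (pr (P2 \ D)) : ℝ) := by exact_mod_cast nm_pos.2 hk2.ne_zero
      have n3 : 0 < (nm (pr E) : ℝ) := by exact_mod_cast nm_pos.2 hES.ne_zero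
      exact summable_term H H' (by positivity) hk1.prim hk2.prim hk1.squarefree hk2.squarefree
        _ _ _
    rw [Summable.tsum_finsetSum (fun P1 h1 => summable_sum fun P2 h2 => hs2 P1 h1 P2 h2)]
    refine Finset.sum_congr rfl fun P1 h1 => ?_
    rw [Summable.tsum_finsetSum (fun P2 h2 => hs2 P1 h1 P2 h2)]
  have e5 : ∑ F ∈ (PS \ D).powerset, ∑ E ∈ D.powerset,
        (-1) ^ F.card * ((-1) ^ E.card * (((2 / Real.sqrt 3 * (t * nm (pr E))⁻¹ : ℝ) : ℂ) *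
          ∑' h : Eis, QQ t PS c D F E h)) =
      ∑ F ∈ (PS \ D).powerset, (-1 : ℂ) ^ F.card * ∑ P1 ∈ AA PS D F, ∑ P2 ∈ AA PS D F,
        ∑ E ∈ D.powerset, (-1) ^ E.card * Phi t c D E P1 P2 := by
    refine Finset.sum_congr rfl fun F hF => ?_
    rw [← Finset.mul_sum]
    congr 1
    have e6 : ∀ P1 ∈ AA PS D F, ∑ P2 ∈ AA PS D F,
        ∑ E ∈ D.powerset, (-1) ^ E.card * Phi t c D E P1 P2 =
        ∑ E ∈ D.powerset, ∑ P2 ∈ AA PS D F, (-1) ^ E.card * Phi t c D E P1 P2 :=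
      fun P1 _ => Finset.sum_comm
    rw [Finset.sum_congr rfl e6, Finset.sum_comm]
    refine Finset.sum_congr rfl fun E hE => ?_
    rw [e3 F hF E hE, Finset.mul_sum, Finset.mul_sum]
    refine Finset.sum_congr rfl fun P1 _ => ?_
    rw [Finset.mul_sum, Finset.mul_sum]
    refine Finset.sum_congr rfl fun P2 _ => ?_
    rfl
  rw [e5, sum_AA_pair hD]
  unfold CC
  refine Finset.sum_congr rfl fun P1 h1 => Finset.sum_congr rfl fun P2 h2 => ?_
  rw [Finset.mem_powerset] at h1 h2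
  by_cases h : P1 ∩ P2 = D
  · rw [if_pos h, if_pos h, pair_Phi H H' ht hPS c h1 h2, h]
  · rw [if_neg h, if_neg h]

open Classical in
/-- the restriction of `c` to the sets containing `G` -/
def cr (c : Finset Eis → ℂ) (G : Finset Eis) (P : Finset Eis) : ℂ := if G ⊆ P then c P else 0

open Classical in
lemma lin1_cr (PS : Finset Eis) (c : Finset Eis → ℂ) (D F : Finset Eis) (m : Eis) :
    lin1 PS (cr c (D ∪ F)) m = ∑ P ∈ AA PS D F, c P * sy m (pr P) := by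
  unfold lin1 AA cr
  rw [Finset.sum_filter]
  refine Finset.sum_congr rfl fun P _ => ?_
  split_ifs <;> simp

open Classical in
/-- `AF` is a sum of squares -/
lemma AF_eq (H : SyFacts) {t : ℝ} (ht : 0 < t) {PS : Finset Eis}
    (hPS : IsPS PS) (c : Finset Eis → ℂ) (D F : Finset Eis) :
    AF t PS c D F = ∑' m : Eis, ((‖lin1 PS (cr c (D ∪ F)) m‖ ^ 2 : ℝ) : ℂ) * gau t (toC m) := by
  have hsq : ∀ m : Eis, ((‖lin1 PS (cr c (D ∪ F)) m‖ ^ 2 : ℝ) : ℂ) * gau t (toC m) =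
      ∑ P1 ∈ AA PS D F, ∑ P2 ∈ AA PS D F, (c P1 * (starRingEnd ℂ) (c P2)) *
        ((sy m (pr P1) * (starRingEnd ℂ) (sy m (pr P2))) * gau t (toC m)) := by
    intro m
    have : ((‖lin1 PS (cr c (D ∪ F)) m‖ ^ 2 : ℝ) : ℂ) =
        lin1 PS (cr c (D ∪ F)) m * (starRingEnd ℂ) (lin1 PS (cr c (D ∪ F)) m) := by
      rw [Complex.mul_conj, Complex.normSq_eq_norm_sq]
    rw [this, lin1_cr, map_sum, Finset.sum_mul_sum, Finset.sum_mul]
    refine Finset.sum_congr rfl fun P1 _ => ?_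
    rw [Finset.sum_mul]
    refine Finset.sum_congr rfl fun P2 _ => ?_
    rw [map_mul]; ring
  simp_rw [hsq]
  have hs : ∀ P1 ∈ AA PS D F, ∀ P2 ∈ AA PS D F, Summable fun m : Eis =>
      (c P1 * (starRingEnd ℂ) (c P2)) *
        ((sy m (pr P1) * (starRingEnd ℂ) (sy m (pr P2))) * gau t (toC m)) := by
    intro P1 h1 P2 h2
    exact (summable_pair H ht (hPS.mono (mem_AA.1 h1).1).prim
      (hPS.mono (mem_AA.1 h2).1).prim).mul_left _
  rw [Summable.tsum_finsetSum (fun P1 h1 => summable_sum fun P2 h2 => hs P1 h1 P2 h2)]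
  unfold AF
  refine Finset.sum_congr rfl fun P1 h1 => ?_
  rw [Summable.tsum_finsetSum (fun P2 h2 => hs P1 h1 P2 h2)]
  refine Finset.sum_congr rfl fun P2 _ => ?_
  rw [tsum_mul_left]
  rfl

end Crest.Agent.R017.PA842
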