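import Crest.Agent.R017.PA1_842

/-!
# Row 17, rule (P): one step, element form

`V X Z w = ∑' n, exp (-nm n / Z) ‖∑ h ∈ S X, w h * sy n h‖²`  (ALL numerators `n`).

* `restr w g` : `w` restricted to the multiples of `g`
* `TD w X Z d` : the part of `V` of the pairs with greatest common divisor exactly `d`
* `V_eq_sum_TD`, `norm_TD_le_dual` (Poisson), `norm_TD_le_V` (positivity, no Poisson)
-/

set_option autoImplicit false

noncomputable section

namespace Crest.Agent.R017.PA842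

open Crest.Agent.R012
open Eis CharSum852 Gauss880 Tau671 Mob705 LS2
open Poisson381 (gau norm_gau summable_gau_one summable_gau poisson_gau_periodic s3 s3_eq_toC)

/-- the quadratic form of all numerators, smooth weight -/
def V (X Z : ℝ) (w : Eis → ℂ) : ℝ :=
  ∑' n : Eis, Real.exp (-(nm n : ℝ) / Z) * ‖∑ h ∈ S X, w h * sy n h‖ ^ 2

open Classical in
/-- restriction to the multiples of `g` -/
def restr (w : Eis → ℂ) (g h : Eis) : ℂ := if g ∣ h then w h else 0

lemma V_nonneg (X Z : ℝ) (w : Eis → ℂ) : 0 ≤ V X Z w := tsum_nonneg fun _ => by positivity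

/-- `c` of `LS2` -/
def cs (w : Eis → ℂ) (X : ℝ) (P : Finset Eis) : ℂ := ws w X (pr P)

lemma cs_big {X : ℝ} (hX : 0 ≤ X) (w : Eis → ℂ) : ∀ P ⊆ PX X, X < (nm (pr P) : ℝ) → cs w X P = 0 := by
  intro P hP h
  apply ws_of_not_mem
  rw [pr_mem_S hX ((isPS_PX hX).mono hP)]
  exact not_le.2 h

lemma gau_exp {Z : ℝ} (m : Eis) :
    gau (1 / (Real.pi * Z)) (toC m) = ((Real.exp (-(nm m : ℝ) / Z) : ℝ) : ℂ) := by
  rw [gau_eq_exp]
  congr 2
  have hpi := Real.pi_pos
  field_simp

/-- the pairs with gcd exactly `d` -/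
def TD (X Z : ℝ) (w : Eis → ℂ) (d : Eis) : ℂ :=
  CC (1 / (Real.pi * Z)) (PX X) (cs w X) (pp d)

lemma AA_empty (PS : Finset Eis) : AA PS ∅ ∅ = PS.powerset := by
  classical
  unfold AA
  rw [Finset.filter_true_of_mem]
  intro P _
  simp

lemma V_cast (X Z : ℝ) (w : Eis → ℂ) : ((V X Z w : ℝ) : ℂ) =
    ∑' n : Eis, ((‖∑ h ∈ S X, w h * sy n h‖ ^ 2 : ℝ) : ℂ) * gau (1 / (Real.pi * Z)) (toC n) := by
  unfold V
  rw [Complex.ofReal_tsum]
  apply tsum_congr
  intro n
  rw [gau_exp]
  push_cast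
  ring

open Classical in
/-- the sum of squares form of `AF`, element form -/
lemma AF_eq_V {X Z : ℝ} (hX : 0 ≤ X) (hZ : 0 < Z) (w : Eis → ℂ) {D F : Finset Eis}
    (hDF : Disjoint D F) (hD : D ⊆ PX X) (hF : F ⊆ PX X) :
    AF (1 / (Real.pi * Z)) (PX X) (cs w X) D F =
      ((V X Z (restr w (pr D * pr F)) : ℝ) : ℂ) := by
  have hPS := isPS_PX hX
  have ht : 0 < 1 / (Real.pi * Z) := by positivity
  rw [AF_eq Sym645.syFacts ht hPS, V_cast]
  apply tsum_congr
  intro m
  congr 3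
  congr 1
  unfold lin1
  rw [sum_powerset_S hX]
  · refine Finset.sum_congr rfl fun h hh => ?_
    have hh' := (mem_S hX).1 hh
    unfold cr restr cs
    rw [pr_pp hX hh]
    have e1 : D ∪ F ⊆ pp h ↔ pr D * pr F ∣ h := by
      rw [← pr_union hDF]
      constructor
      · intro h1
        have h2 : pr (D ∪ F) ∣ pr (pp h) := Finset.prod_dvd_prod_of_subset _ _ _ h1
        rwa [pr_pp hX hh] at h2
      · intro h1 p hp
        rw [mem_pp hh'.2.1.ne_zero]
        have hpp : IsPrim p ∧ Prime p := hPS p (Finset.union_subset hD hF hp)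
        refine ⟨hpp, dvd_trans ?_ h1⟩
        exact Finset.dvd_prod_of_mem (fun q => q) hp
    by_cases h1 : D ∪ F ⊆ pp h
    · rw [if_pos h1, if_pos (e1.1 h1)]
      unfold ws
      rw [if_pos hh]
    · rw [if_neg h1, if_neg (fun h2 => h1 (e1.2 h2))]
  · intro P hP h
    unfold cr
    rw [cs_big hX w P hP h]
    simp

open Classical in
/-- **the trivial decomposition by the gcd** -/
theorem V_eq_sum_TD {X Z : ℝ} (hX : 0 ≤ X) (hZ : 0 < Z) (w : Eis → ℂ) :
    ((V X Z w : ℝ) : ℂ) = ∑ d ∈ S X, TD X Z w d := by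
  have ht : 0 < 1 / (Real.pi * Z) := by positivity
  have h1 := sum_CC (1 / (Real.pi * Z)) (PS := PX X) (cs w X)
  have h2 : AF (1 / (Real.pi * Z)) (PX X) (cs w X) ∅ ∅ = ((V X Z w : ℝ) : ℂ) := by
    rw [AF_eq_V hX hZ w (Finset.disjoint_empty_left _) (Finset.empty_subset _)
      (Finset.empty_subset _)]
    congr 2
    unfold restr
    funext h
    rw [if_pos]
    rw [pr_empty, one_mul]
    exact one_dvd _
  unfold AF at h2
  rw [AA_empty] at h2
  rw [← h2, ← h1, sum_powerset_S hX]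
  · rfl
  · intro D hD hDX
    unfold CC
    apply Finset.sum_eq_zero
    intro P1 hP1
    apply Finset.sum_eq_zero
    intro P2 _
    split_ifs with h
    · rw [Finset.mem_powerset] at hP1
      have : cs w X P1 = 0 := by
        apply cs_big hX w P1 hP1
        refine lt_of_lt_of_le hDX ?_
        have hd : pr D ∣ pr P1 := by
          apply Finset.prod_dvd_prod_of_subset
          rw [← h]
          exact Finset.inter_subset_left
        exact_mod_cast Div277.nm_le_of_dvd ((isPS_PX hX).mono hP1).ne_zero hd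
      rw [this]
      ring
    · rfl

open Classical in
/-- `TD` as an alternating sum of the forms of multiples -/
lemma TD_eq_sum_V {X Z : ℝ} (hX : 0 ≤ X) (hZ : 0 < Z) (w : Eis → ℂ) {d : Eis} (hd : d ∈ S X) :
    TD X Z w d = ∑ f ∈ S X, if Disjoint (pp f) (pp d) then
      (mu f : ℂ) * ((V X Z (restr w (d * f)) : ℝ) : ℂ) else 0 := by
  unfold TD
  rw [CC_eq_AF _ (pp_subset_PX hX hd)]
  have e2 : ∑ F ∈ (PX X \ pp d).powerset, (-1 : ℂ) ^ F.card *
        AF (1 / (Real.pi * Z)) (PX X) (cs w X) (pp d) F =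
      ∑ F ∈ (PX X).powerset, if Disjoint F (pp d) then (-1 : ℂ) ^ F.card *
        AF (1 / (Real.pi * Z)) (PX X) (cs w X) (pp d) F else 0 := by
    rw [← Finset.sum_filter]
    apply Finset.sum_congr _ fun _ _ => rfl
    ext F
    rw [Finset.mem_filter, Finset.mem_powerset, Finset.mem_powerset, Finset.subset_sdiff]
  rw [e2, sum_powerset_S hX]
  · refine Finset.sum_congr rfl fun f hf => ?_
    by_cases h : Disjoint (pp f) (pp d)
    · rw [if_pos h, if_pos h, AF_eq_V hX hZ w h.symm (pp_subset_PX hX hd) (pp_subset_PX hX hf),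
        pr_pp hX hd, pr_pp hX hf, mu_eq_of_mem_S hX hf]
    · rw [if_neg h, if_neg h]
  · intro F hF hFX
    split_ifs
    · have : AF (1 / (Real.pi * Z)) (PX X) (cs w X) (pp d) F = 0 := by
        unfold AF
        apply Finset.sum_eq_zero
        intro P hP
        apply Finset.sum_eq_zero
        intro P2 _
        rw [mem_AA] at hP
        have : cs w X P = 0 := by
          apply cs_big hX w P hP.1
          refine lt_of_lt_of_le hFX ?_
          have hd : pr F ∣ pr P := Finset.prod_dvd_prod_of_subset _ _ _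
            (Finset.subset_union_right.trans hP.2)
          exact_mod_cast Div277.nm_le_of_dvd ((isPS_PX hX).mono hP.1).ne_zero hd
        rw [this]; ring
      rw [this, mul_zero]
    · rfl

open Classical in
/-- **positivity bound** : no Poisson summation, no twist -/
theorem norm_TD_le_V {X Z : ℝ} (hX : 0 ≤ X) (hZ : 0 < Z) (w : Eis → ℂ) {d : Eis} (hd : d ∈ S X) :
    ‖TD X Z w d‖ ≤ ∑ f ∈ (S X).filter (fun f => d * f ∈ S X), V X Z (restr w (d * f)) := by
  rw [TD_eq_sum_V hX hZ w hd, Finset.sum_filter]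
  refine (norm_sum_le _ _).trans (Finset.sum_le_sum fun f hf => ?_)
  have hV := V_nonneg X Z (restr w (d * f))
  by_cases h : Disjoint (pp f) (pp d)
  · rw [if_pos h, norm_mul]
    have m2 : ‖((mu f : ℤ) : ℂ)‖ ≤ 1 := by
      rw [Complex.norm_intCast]
      exact_mod_cast abs_mu_le_one f
    rw [Complex.norm_real, Real.norm_of_nonneg hV]
    by_cases h2 : d * f ∈ S X
    · rw [if_pos h2]
      calc _ ≤ 1 * V X Z (restr w (d * f)) := by gcongr
        _ = _ := one_mul _
    · rw [if_neg h2]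
      have : V X Z (restr w (d * f)) = 0 := by
        unfold V
        rw [show (fun n : Eis => Real.exp (-(nm n : ℝ) / Z) *
          ‖∑ h ∈ S X, restr w (d * f) h * sy n h‖ ^ 2) = fun _ => 0 from ?_, tsum_zero]
        funext n
        have : ∑ h ∈ S X, restr w (d * f) h * sy n h = 0 := by
          apply Finset.sum_eq_zero
          intro k hk
          unfold restr
          rw [if_neg, zero_mul]
          intro hdvd
          apply h2
          have hk' := (mem_S hX).1 hk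
          have hd' := (mem_S hX).1 hd
          have hf' := (mem_S hX).1 hf
          rw [mem_S hX]
          refine ⟨le_trans ?_ hk'.1, hd'.2.1.mul hf'.2.1, hk'.2.2.squarefree_of_dvd hdvd⟩
          exact_mod_cast Div277.nm_le_of_dvd hk'.2.1.ne_zero hdvd
        rw [this]
        simp
      rw [this, mul_zero]
  · rw [if_neg h, norm_zero]
    split_ifs
    · exact hV
    · exact le_rfl

open Classical in
/-- **Poisson summation** for the pairs with gcd `d` -/
theorem TD_eq_dual {X Z : ℝ} (hX : 0 ≤ X) (hZ : 0 < Z) (w : Eis → ℂ) {d : Eis} (hd : d ∈ S X) :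
    TD X Z w d = ∑ e ∈ pdiv d, ∑ f ∈ S X, (mu e : ℂ) * (mu f : ℂ) *
        ((2 * Real.pi * Z / (Real.sqrt 3 * nm e) : ℝ) : ℂ) * ∑' l : Eis, qf w X Z d e f l := by
  have hPS := isPS_PX hX
  set t : ℝ := 1 / (Real.pi * Z) with ht
  have htpos : 0 < t := by rw [ht]; positivity
  have hd' := (mem_S hX).1 hd
  unfold TD
  rw [CC_eq_dual Sym645.syFacts syG htpos hPS _ (pp_subset_PX hX hd)]
  rw [Finset.sum_comm (s := pdiv d) (t := S X)]
  have hQ0 : ∀ D F E : Finset Eis, ∀ l, (∀ P ∈ AA (PX X) D F, cs w X P = 0) →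
      QQ t (PX X) (cs w X) D F E l = 0 := by
    intro D F E l h
    unfold QQ
    apply Finset.sum_eq_zero
    intro P hP
    apply Finset.sum_eq_zero
    intro P2 _
    unfold VV
    rw [h P hP]; ring
  have e2 : ∑ F ∈ (PX X \ pp d).powerset, ∑ E ∈ (pp d).powerset,
      (-1) ^ F.card * ((-1) ^ E.card * (((2 / Real.sqrt 3 * (t * nm (pr E))⁻¹ : ℝ) : ℂ) *
          ∑' h : Eis, QQ t (PX X) (cs w X) (pp d) F E h)) =
      ∑ F ∈ (PX X).powerset, if Disjoint F (pp d) then ∑ E ∈ (pp d).powerset,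
      (-1) ^ F.card * ((-1) ^ E.card * (((2 / Real.sqrt 3 * (t * nm (pr E))⁻¹ : ℝ) : ℂ) *
          ∑' h : Eis, QQ t (PX X) (cs w X) (pp d) F E h)) else 0 := by
    rw [← Finset.sum_filter]
    apply Finset.sum_congr _ fun _ _ => rfl
    ext F
    rw [Finset.mem_filter, Finset.mem_powerset, Finset.mem_powerset, Finset.subset_sdiff]
  rw [e2, sum_powerset_S hX]
  swap
  · intro F hF hFX
    split_ifs
    · apply Finset.sum_eq_zero
      intro E _
      have : ∀ h, QQ t (PX X) (cs w X) (pp d) F E h = 0 := fun h =>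
        hQ0 (pp d) F E h (fun P hP => by
          rw [mem_AA] at hP
          apply cs_big hX w P hP.1
          refine lt_of_lt_of_le hFX ?_
          have hd : pr F ∣ pr P := Finset.prod_dvd_prod_of_subset _ _ _
            (Finset.subset_union_right.trans hP.2)
          exact_mod_cast Div277.nm_le_of_dvd (hPS.mono hP.1).ne_zero hd)
      simp [this]
    · rfl
  refine Finset.sum_congr rfl fun f hf => ?_
  have hf' := (mem_S hX).1 hf
  by_cases hdf : Disjoint (pp f) (pp d)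
  · rw [if_pos hdf]
    have e3 : ∀ e : Eis, (mu e : ℂ) * (mu f : ℂ) *
        ((2 * Real.pi * Z / (Real.sqrt 3 * nm e) : ℝ) : ℂ) * ∑' l : Eis, qf w X Z d e f l =
        (mu e : ℂ) * ((mu f : ℂ) *
        (((2 * Real.pi * Z / (Real.sqrt 3 * nm e) : ℝ) : ℂ) * ∑' l : Eis, qf w X Z d e f l)) := by
      intro e; ring
    rw [Finset.sum_congr rfl fun e _ => e3 e]
    rw [sum_pdiv_mu hd'.2.1.ne_zero]
    refine Finset.sum_congr rfl fun E hE => ?_
    have hES : IsPS E := (isPS_pp d).mono (Finset.mem_powerset.1 hE)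
    rw [mu_eq_of_mem_S hX hf]
    have e4 : ∀ l, QQ t (PX X) (cs w X) (pp d) (pp f) E l = qf w X Z d (pr E) f l := fun l =>
      QQ_eq_qf syG hX hZ w hd hf hdf.symm hES l
    simp_rw [e4]
    have n3 : 0 < (nm (pr E) : ℝ) := by exact_mod_cast nm_pos.2 hES.ne_zero
    have e5 : (2 / Real.sqrt 3 * (t * nm (pr E))⁻¹ : ℝ) =
        2 * Real.pi * Z / (Real.sqrt 3 * nm (pr E)) := by
      rw [ht]
      have hpi := Real.pi_pos
      have h3 : 0 < Real.sqrt 3 := Real.sqrt_pos.2 (by norm_num)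
      field_simp
    rw [e5]
    unfold pr
    ring
  · rw [if_neg hdf]
    symm
    apply Finset.sum_eq_zero
    intro e _
    have hno : ∀ k, d * f * k ∉ S X := by
      intro k hk
      rw [mem_S hX] at hk
      apply hdf
      rw [Finset.disjoint_left]
      intro p hp1 hp2
      have hp := isPP_of_mem_pp hp1
      have hsq : p * p ∣ d * f * k :=
        (mul_dvd_mul (dvd_of_mem_pp hp2) (dvd_of_mem_pp hp1)).trans (dvd_mul_right _ _)
      exact hp.2.not_isUnit (hk.2.2 p hsq)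
    have : ∀ l, qf w X Z d e f l = 0 := fun l => qf_eq_zero w hno
    simp [this]

open Classical in
/-- the dual bound for one gcd, zero frequency evaluated -/
theorem norm_TD_le_dual {X Z : ℝ} (hX : 1 ≤ X) (hZ : 0 < Z) (w : Eis → ℂ) {d : Eis}
    (hd : d ∈ S X) :
    ‖TD X Z w d‖ ≤ 2 * Real.pi * Z / Real.sqrt 3 * ‖w d‖ ^ 2 +
      ∑ e ∈ pdiv d, ∑ f ∈ S X, 2 * Real.pi * Z / (Real.sqrt 3 * nm e) *
        ‖∑' l : Eis, if l = 0 then 0 else qf w X Z d e f l‖ := by
  have hX0 : 0 ≤ X := by linarith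
  have hs3 : 0 < Real.sqrt 3 := Real.sqrt_pos.2 (by norm_num)
  have hpi := Real.pi_pos
  have hd' := (mem_S hX0).1 hd
  have hsplit : ∀ e ∈ pdiv d, ∀ f ∈ S X, ∑' l : Eis, qf w X Z d e f l =
      (if f = 1 then ((‖w d‖ ^ 2 : ℝ) : ℂ) else 0) +
        ∑' l : Eis, if l = 0 then 0 else qf w X Z d e f l := by
    intro e he f hf
    have he' := (mem_pdiv hd'.2.1.ne_zero).1 he
    have hs := summable_qf syG hX0 hZ w (d := d) he'.1.ne_zero hf
    rw [hs.tsum_eq_add_tsum_ite 0, qf_zero syG hX w hd hf]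
  have key2 : TD X Z w d =
      (((2 * Real.pi * Z / Real.sqrt 3) * (‖w d‖ ^ 2 *
        ∑ e ∈ pdiv d, (mu e : ℝ) * (1 / (nm e : ℝ))) : ℝ) : ℂ) +
      ∑ e ∈ pdiv d, ∑ f ∈ S X, (mu e : ℂ) * (mu f : ℂ) *
        ((2 * Real.pi * Z / (Real.sqrt 3 * nm e) : ℝ) : ℂ) *
          ∑' l : Eis, if l = 0 then 0 else qf w X Z d e f l := by
    rw [TD_eq_dual hX0 hZ w hd]
    have e1 : ∑ e ∈ pdiv d, ∑ f ∈ S X, (mu e : ℂ) * (mu f : ℂ) *
        ((2 * Real.pi * Z / (Real.sqrt 3 * nm e) : ℝ) : ℂ) * ∑' l : Eis, qf w X Z d e f l =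
        (∑ e ∈ pdiv d, (mu e : ℂ) * ((2 * Real.pi * Z / (Real.sqrt 3 * nm e) : ℝ) : ℂ) *
          ((‖w d‖ ^ 2 : ℝ) : ℂ)) +
        ∑ e ∈ pdiv d, ∑ f ∈ S X, (mu e : ℂ) * (mu f : ℂ) *
        ((2 * Real.pi * Z / (Real.sqrt 3 * nm e) : ℝ) : ℂ) *
          ∑' l : Eis, if l = 0 then 0 else qf w X Z d e f l := by
      rw [← Finset.sum_add_distrib]
      refine Finset.sum_congr rfl fun e he => ?_
      rw [Finset.sum_congr rfl fun f hf => by rw [hsplit e he f hf, mul_add]]
      rw [Finset.sum_add_distrib]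
      congr 1
      rw [Finset.sum_eq_single_of_mem 1 (one_mem_S hX)]
      · have hmu1 : mu 1 = 1 := muE_one
        rw [if_pos rfl, hmu1]
        push_cast; ring
      · intro f _ hf1
        rw [if_neg hf1, mul_zero]
    rw [e1]
    congr 1
    push_cast
    rw [Finset.mul_sum, Finset.mul_sum]
    refine Finset.sum_congr rfl fun e he => ?_
    have he' := (mem_pdiv hd'.2.1.ne_zero).1 he
    have hn : (nm e : ℂ) ≠ 0 := by exact_mod_cast (nm_pos.2 he'.1.ne_zero).ne'
    have hs3' : ((Real.sqrt 3 : ℝ) : ℂ) ≠ 0 := by exact_mod_cast hs3.ne'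
    field_simp
  rw [key2]
  refine (norm_add_le _ _).trans (add_le_add ?_ ?_)
  · have hb := sum_mu_div_bounds d hd'.2.1.ne_zero
    rw [Complex.norm_real, Real.norm_of_nonneg (mul_nonneg (by positivity)
      (mul_nonneg (by positivity) hb.1))]
    refine mul_le_mul_of_nonneg_left ?_ (by positivity)
    calc ‖w d‖ ^ 2 * _ ≤ ‖w d‖ ^ 2 * 1 := by gcongr; exact hb.2
      _ = _ := mul_one _
  · refine (norm_sum_le _ _).trans (Finset.sum_le_sum fun e he => ?_)
    refine (norm_sum_le _ _).trans (Finset.sum_le_sum fun f hf => ?_)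
    rw [norm_mul, norm_mul, norm_mul, Complex.norm_real]
    have m1 : ‖((mu e : ℤ) : ℂ)‖ ≤ 1 := by
      rw [Complex.norm_intCast]
      exact_mod_cast abs_mu_le_one e
    have m2 : ‖((mu f : ℤ) : ℂ)‖ ≤ 1 := by
      rw [Complex.norm_intCast]
      exact_mod_cast abs_mu_le_one f
    have m3 : ‖((mu e : ℤ) : ℂ)‖ * ‖((mu f : ℤ) : ℂ)‖ ≤ 1 := mul_le_one₀ m1 (norm_nonneg _) m2
    have hpos : 0 ≤ 2 * Real.pi * Z / (Real.sqrt 3 * nm e) := by positivity
    rw [Real.norm_of_nonneg hpos]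
    calc ‖((mu e : ℤ) : ℂ)‖ * ‖((mu f : ℤ) : ℂ)‖ * (2 * Real.pi * Z / (Real.sqrt 3 * nm e)) * _
        ≤ 1 * (2 * Real.pi * Z / (Real.sqrt 3 * nm e)) *
          ‖∑' l : Eis, if l = 0 then 0 else qf w X Z d e f l‖ := by gcongr
      _ = _ := by ring

end Crest.Agent.R017.PA842
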