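import Crest.Agent.R017.CovDefs_499

/-!
# Row 17, T.2 : partitions of the big lumps into two columns (helper325)

`LC u v l t N` : a column of `Col0` whose big lumps are the `u i`, `i ∈ l` (indices), with `t`
chunks and length `N`.  `part` : two complementary columns of weight `1/2`; `part4` : four columns
of weight `1/4`, every lump twice.
-/

set_option autoImplicit false

namespace Crest.Agent.R017.PCol325

open Crest.Agent.R017.Cov499

variable {k : ℕ}

/-- multiplicities of a list of indices -/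
def cnt (l : List (Fin k)) : Fin k → ℕ := fun j => l.count j

theorem lum_cnt (u : Fin k → ℝ) (l : List (Fin k)) :
    lum u (cnt l) = ((l.map u : List ℝ) : Multiset ℝ) := by
  induction l with
  | nil => simp [lum, cnt]
  | cons a l ih =>
    have h : lum u (cnt (a :: l)) = lum u (cnt l) + {u a} := by
      have e : ∀ j, cnt (a :: l) j = cnt l j + if j = a then 1 else 0 := by
        intro j
        by_cases hj : j = a
        · subst hj; simp [cnt]
        · have : ¬ a = j := fun h => hj h.symm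
          simp [cnt, hj, this]
      have e2 : lum u (cnt (a :: l)) = ∑ j, (Multiset.replicate (cnt l j) (u j) +
          Multiset.replicate (if j = a then 1 else 0) (u j)) := by
        unfold lum
        refine Finset.sum_congr rfl fun j _ => ?_
        rw [e j, Multiset.replicate_add]
      rw [e2, Finset.sum_add_distrib]
      congr 1
      rw [Finset.sum_eq_single a]
      · simp
      · intro b _ hb
        simp [hb]
      · intro h; exact absurd (Finset.mem_univ a) h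
    rw [h, ih, List.map_cons, ← Multiset.cons_coe, add_comm, Multiset.singleton_add]

/-- columns with a list of lumps -/
inductive LC (u : Fin k → ℝ) (v : ℝ) : List (Fin k) → ℕ → ℝ → Prop
  | t6 (i j : Fin k) (Z X : List (Fin k)) (a b : ℕ) (A B z x N : ℝ) (hA : (a : ℝ) = A)
      (hB : (b : ℝ) = B) (hz : (Z.map u).sum = z) (hx : (X.map u).sum = x)
      (c1 : u i + u j + 5 / 2 * (z + A * v) ≤ 1) (c2 : 1 / 4 ≤ u i + u j)
      (u0 : N ≤ 7 / 9 + 2 / 9 * (u i + u j)) (u1 : N + (x + B * v) ≤ 1)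
      (u2 : N + 3 / 4 * (z + A * v) ≤ 1)
      (m : u i + u j + z + x + (A + B) * v ≤ N) : LC u v (i :: j :: (Z ++ X)) (a + b) N
  | t6s (i : Fin k) (Z X : List (Fin k)) (a b : ℕ) (A B z x N : ℝ) (hA : (a : ℝ) = A)
      (hB : (b : ℝ) = B) (hz : (Z.map u).sum = z) (hx : (X.map u).sum = x)
      (c1 : u i + 5 / 2 * (z + A * v) ≤ 1)
      (u0 : N ≤ 7 / 9 + 2 / 9 * u i) (u3 : N ≤ 2 / 3 + 2 / 3 * u i) (u1 : N + (x + B * v) ≤ 1)
      (u2 : N + 3 / 4 * (z + A * v) ≤ 1)
      (m : u i + z + x + (A + B) * v ≤ N) : LC u v (i :: (Z ++ X)) (a + b) N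
  | t1 (i j : Fin k) (X : List (Fin k)) (b : ℕ) (B x N : ℝ) (hB : (b : ℝ) = B)
      (hx : (X.map u).sum = x) (c1 : x + B * v ≤ 497 / 3000) (c2 : 1 / 5 ≤ u i + u j)
      (u0 : N ≤ 5 / 6) (m : u i + u j + x + B * v ≤ N) : LC u v (i :: j :: X) b N
  | t3a (i j l : Fin k) (N : ℝ) (c1 : u i + u j + 2 * u l ≤ 1)
      (u0 : 49 * N ≤ 36 + 9 * (u i + u j)) (u1 : 80 * N + 30 * u l ≤ 73)
      (u2 : 36 * N + 6 * u l ≤ 31) (u3 : 17 * N ≤ 13 + 2 * (u i + u j))
      (u4 : 15 * N + 3 * u l ≤ 13) (u5 : 40 * N ≤ 33) (u6 : 6 * N ≤ 5)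
      (m : u i + u j + u l ≤ N) : LC u v [i, j, l] 0 N
  | t3l (i j l : Fin k) (N : ℝ) (c1 : 29 * (u i + u j + u l) + 21 / 2 * u l ≤ 22)
      (c2 : 22 * (u i + u j + u l) ≤ 15) (u0 : 2 * N ≤ 1 + (u i + u j + u l))
      (u1 : 3 * N + 3 / 4 * u l ≤ 2 + (u i + u j + u l)) (m : u i + u j + u l ≤ N) :
      LC u v [i, j, l] 0 N

theorem LC.col {u : Fin k → ℝ} {v N : ℝ} {l : List (Fin k)} {t : ℕ} (h : LC u v l t N) :
    Col0 v (lum u (cnt l)) t N := by
  rw [lum_cnt]
  cases h with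
  | t6 i j Z X a b A B z x N hA hB hz hx c1 c2 u0 u1 u2 m =>
    subst hA hB hz hx
    have e : (((i :: j :: (Z ++ X)).map u : List ℝ) : Multiset ℝ) =
        {u i, u j} + ((Z.map u : List ℝ) : Multiset ℝ) + ((X.map u : List ℝ) : Multiset ℝ) := by
      simp [Multiset.insert_eq_cons]
    rw [e]
    refine Col0.t6 (u i) (u j) _ _ a b N c2 ?_ ?_ u0 ?_ ?_
    · rw [Multiset.sum_coe]; exact u1
    · rw [Multiset.sum_coe]; exact u2
    · rw [Multiset.sum_coe]; exact c1
    · rw [Multiset.sum_coe, Multiset.sum_coe]; exact m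
  | t6s i Z X a b A B z x N hA hB hz hx c1 u0 u3 u1 u2 m =>
    subst hA hB hz hx
    have e : (((i :: (Z ++ X)).map u : List ℝ) : Multiset ℝ) =
        {u i} + ((Z.map u : List ℝ) : Multiset ℝ) + ((X.map u : List ℝ) : Multiset ℝ) := by
      simp
    rw [e]
    refine Col0.t6s (u i) _ _ a b N (by linarith) ?_ ?_ u0 ?_ ?_
    · rw [Multiset.sum_coe]; exact u1
    · rw [Multiset.sum_coe]; exact u2
    · rw [Multiset.sum_coe]; exact c1
    · rw [Multiset.sum_coe, Multiset.sum_coe]; exact m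
  | t1 i j X b B x N hB hx c1 c2 u0 m =>
    subst hB hx
    have e : (((i :: j :: X).map u : List ℝ) : Multiset ℝ) =
        {u i, u j} + ((X.map u : List ℝ) : Multiset ℝ) := by
      simp [Multiset.insert_eq_cons]
    rw [e]
    refine Col0.t1 (u i) (u j) _ _ N c2 ?_ u0 ?_
    · rw [Multiset.sum_coe, z₀]; linarith
    · rw [Multiset.sum_coe]; exact m
  | t3a i j l N c1 u0 u1 u2 u3 u4 u5 u6 m =>
    have e : ((([i, j, l] : List (Fin k)).map u : List ℝ) : Multiset ℝ) = {u i, u j, u l} := rfl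
    rw [e]
    apply Col0.t3a (u i) (u j) (u l) N <;> linarith
  | t3l i j l N c1 c2 u0 u1 m =>
    have e : ((([i, j, l] : List (Fin k)).map u : List ℝ) : Multiset ℝ) = {u i, u j, u l} := rfl
    rw [e]
    exact Col0.t3l (u i) (u j) (u l) N c1 c2 u0 u1 m

/-- coverage if the sum of the lumps is `S` -/
def PG (u : Fin k → ℝ) (v S : ℝ) : Prop := (∑ j, u j) = S → Cov0 u v

/-- two complementary columns of weight `1/2` -/
theorem part {u : Fin k → ℝ} {v S : ℝ} {l l' : List (Fin k)}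
    (hn : ∀ j, cnt l j + cnt l' j = 1) {t t' : ℕ} {N N' : ℝ} (T : ℝ) (c1 : LC u v l t N)
    (c2 : LC u v l' t' N') (hT : (((t + t' : ℕ) : ℝ)) = T) (hN : 5 / 3 ≤ N + N')
    (hS : 4 / 3 ≤ S + T * v) : PG u v S := by
  intro hs
  subst hT hs
  push_cast at hS
  refine ⟨2, ![1 / 2, 1 / 2], ![cnt l, cnt l'], ![t, t'], ![N, N'], ?_, ?_, ?_, ?_, ?_, ?_⟩
  · intro q; fin_cases q <;> norm_num
  · intro j
    have h : ((cnt l j : ℝ) + (cnt l' j : ℝ)) = 1 := by exact_mod_cast hn j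
    simp only [Fin.sum_univ_two, Matrix.cons_val_zero, Matrix.cons_val_one]
    linarith
  · intro q
    fin_cases q
    · exact c1.col
    · exact c2.col
  · simp [Fin.sum_univ_two]; norm_num
  · unfold R₁
    simp only [Fin.sum_univ_two, Matrix.cons_val_zero, Matrix.cons_val_one]
    nlinarith
  · have : min (R₁ u v ![1 / 2, 1 / 2] ![t, t'])
        (1 - ∑ q, (![1 / 2, 1 / 2] : Fin 2 → ℝ) q) ≤ 0 := by
      refine (min_le_right _ _).trans ?_
      simp [Fin.sum_univ_two]; norm_num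
    simp only [Fin.sum_univ_two, Matrix.cons_val_zero, Matrix.cons_val_one] at this ⊢
    linarith

/-- four columns of weight `1/4` -/
theorem part4 {u : Fin k → ℝ} {v S : ℝ} {l₁ l₂ l₃ l₄ : List (Fin k)}
    (hn : ∀ j, cnt l₁ j + cnt l₂ j + cnt l₃ j + cnt l₄ j = 2) {t₁ t₂ t₃ t₄ : ℕ}
    {N₁ N₂ N₃ N₄ : ℝ} (T : ℝ)
    (c1 : LC u v l₁ t₁ N₁) (c2 : LC u v l₂ t₂ N₂) (c3 : LC u v l₃ t₃ N₃)
    (c4 : LC u v l₄ t₄ N₄) (hT : (((t₁ + t₂ + t₃ + t₄ : ℕ) : ℝ)) = T)
    (hN : 10 / 3 ≤ N₁ + N₂ + N₃ + N₄) (hS : 4 / 3 ≤ S + T / 2 * v) : PG u v S := by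
  intro hs
  subst hT hs
  push_cast at hS
  refine ⟨4, ![1 / 4, 1 / 4, 1 / 4, 1 / 4], ![cnt l₁, cnt l₂, cnt l₃, cnt l₄],
    ![t₁, t₂, t₃, t₄], ![N₁, N₂, N₃, N₄], ?_, ?_, ?_, ?_, ?_, ?_⟩
  · intro q; fin_cases q <;> norm_num
  · intro j
    have h : ((cnt l₁ j : ℝ) + (cnt l₂ j : ℝ) + (cnt l₃ j : ℝ) + (cnt l₄ j : ℝ)) = 2 := by
      exact_mod_cast hn j
    simp only [Fin.sum_univ_four, Matrix.cons_val_zero, Matrix.cons_val_one, Matrix.cons_val]
    linarith
  · intro q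
    fin_cases q
    · exact c1.col
    · exact c2.col
    · exact c3.col
    · exact c4.col
  · simp [Fin.sum_univ_four]; norm_num
  · unfold R₁
    simp only [Fin.sum_univ_four, Matrix.cons_val_zero, Matrix.cons_val_one, Matrix.cons_val]
    nlinarith
  · have : min (R₁ u v ![1 / 4, 1 / 4, 1 / 4, 1 / 4] ![t₁, t₂, t₃, t₄])
        (1 - ∑ q, (![1 / 4, 1 / 4, 1 / 4, 1 / 4] : Fin 4 → ℝ) q) ≤ 0 := by
      refine (min_le_right _ _).trans ?_
      simp [Fin.sum_univ_four]; norm_num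
    simp only [Fin.sum_univ_four, Matrix.cons_val_zero, Matrix.cons_val_one,
      Matrix.cons_val] at this ⊢
    linarith

end Crest.Agent.R017.PCol325
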