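import Crest.Agent.R017.TPP9_320
import Crest.Agent.R017.GE4_241

/-!
# Row 17, exceptional class: the rule (P_ex) for closed families, part 1 (helper241)

Mirror of helper320's `P_rule` for a general kernel `Kn` in place of `Gh`.
-/

set_option autoImplicit false

noncomputable section

open Complex MeasureTheory
open scoped ComplexConjugate

namespace Crest.Agent.R017.PE241

open Crest.Agent.R012 Crest.Agent.R012.Eis Crest.Agent.R012.LS2 Crest.Agent.R012.Gauss880
open Crest.Agent.R012.Div277 Crest.Agent.R012.CR2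
open Crest.Agent.R017.PA842 (V Supp)
open Crest.Agent.R017.CM106 (CS TG FS)
open Crest.Agent.R017.TP320

/-- admissible kernels: zero unless coprime, bounded by `κ0` -/
structure KOk (Kn : Eis → Eis → ℂ) (κ0 : ℝ) : Prop where
  z : ∀ r k, IsPrim k → ¬ IsCoprime r k → Kn r k = 0
  b : ∀ r k, r ≠ 0 → IsPrim k → ‖Kn r k‖ ≤ κ0

/-- second moment of the Gauss side, kernel `Kn` -/
def VKn (Kn : Eis → Eis → ℂ) (L : ℝ) (α : Eis → ℂ) : ℝ := ∑ x ∈ bl L, ‖HP842.KS Kn α x‖ ^ 2

lemma VKn_nonneg (Kn : Eis → Eis → ℂ) (L : ℝ) (α : Eis → ℂ) : 0 ≤ VKn Kn L α :=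
  Finset.sum_nonneg fun _ _ => by positivity

lemma VKn_mono (Kn : Eis → Eis → ℂ) {K L : ℝ} (hK : 0 ≤ K) (h : K ≤ L) (α : Eis → ℂ) :
    VKn Kn K α ≤ VKn Kn L α :=
  Finset.sum_le_sum_of_subset_of_nonneg (bl_mono hK h) fun _ _ _ => by positivity

/-- the dual sum with kernel `Kn` -/
def dsK (Kn : Eis → Eis → ℂ) (w : Eis → ℂ) (X : ℝ) (d e f l : Eis) (s : ℂ) : ℂ :=
  ∑ k ∈ S X, w (d * f * k) * Kn (l * (e * sq3) ^ 2 * f) k * (nm k : ℂ) ^ (s - 1 / 2)

lemma KS_eq_sum {Kn : Eis → Eis → ℂ} {w : Eis → ℂ} {X : ℝ} (hw : Supp w X) (x : Eis) :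
    HP842.KS Kn w x = ∑ h ∈ S X, w h * Kn x h := by
  unfold HP842.KS
  apply tsum_eq_sum
  intro h hh
  by_contra h0
  exact hh (hw h (left_ne_zero_of_mul h0))

/-- **the dual sums of one dyadic class**, character side to Gauss side -/
theorem class_K {Kn : Eis → Eis → ℂ} {κ0 : ℝ} (hK : KOk Kn κ0) {J : Type} {Φ : Fam J} {R A : ℝ} (hΦ : Φ.Ok R A) {σ ε C : ℝ}
    (hs : SplitAt Φ R A ε (1 / 2 - σ) C) (j : J) (q : Eis) {d e : Eis} (hd : IsPrim d)
    (he : IsPrim e) (i : ℕ) {L Dm B X : ℝ} (hL : 0 ≤ L) (hDm : 0 ≤ Dm) (hB : 0 ≤ B) (τ : ℝ)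
    {Cf : Finset Eis}
    (hCf : ∀ f ∈ Cf, IsPrim f ∧ (i : ℝ) ≤ Real.log (nm f) ∧ Real.log (nm f) ≤ i + 1)
    (hX : Real.exp (Φ.len j + R) ≤ X)
    (hD : ∀ r ∈ bl (L * Real.exp (i + 1)), (tau r : ℝ) ≤ Dm)
    (hb : ∀ j', Φ.good j' → Φ.dom R j' j → Φ.len j' ≤ Φ.len j - (Real.log (nm d) + i) + R →
      Φ.len j - (Real.log (nm d) + i) - R - 1 ≤ Φ.len j' →
      Dm * VKn Kn (L * Real.exp (i + 1) * nm ((e * sq3) ^ 2)) (sq (q * d) (Φ.w j')) ≤
        B * (Φ.ht j') ^ 2) :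
    ∑ f ∈ Cf, ∑ l ∈ bl L, ‖dsK Kn (sq q (Φ.w j)) X d e f l (σ + τ * Complex.I)‖ ^ 2 ≤
      (C * Real.exp (ε * |Real.log (nm d) + i|) *
        Real.exp (-(1 / 2 - σ) * (Φ.len j - (Real.log (nm d) + i))) * (1 + |τ|) ^ A) ^ 2 * B *
        (Φ.ht j) ^ 2 := by
  classical
  have hht : ∀ j, 0 ≤ Φ.ht j := fun j => zero_le_one.trans (hΦ.ht1 j)
  have hR0 := hΦ.R0
  have hld := log_nm_nonneg' hd
  set α : ℝ := Real.log (nm d) + i with hα
  have hα0 : 0 ≤ α := by positivity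
  set X' : ℝ := max X (Real.exp (Φ.len j + 2 * R)) with hX'
  have hX0 : 0 ≤ X := (Real.exp_pos _).le.trans hX
  have hX'0 : 0 ≤ X' := hX0.trans (le_max_left _ _)
  set T : Finset (Eis × Eis) := ((Cf.image (fun f => d * f)) ×ˢ S X').filter
    (fun p => IsCoprime p.1 p.2) with hT
  set cd : Eis → Eis → Prop := fun a k => Squarefree a ∧ IsCoprime a q ∧ Squarefree k ∧
    IsCoprime k q with hcd
  set u : Eis × Eis → Eis → Eis → ℂ := fun fl a k =>
    if a = d * fl.1 ∧ cd a k then Kn (fl.2 * (e * sq3) ^ 2 * fl.1) k else 0 with hu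
  have hd0 := hd.ne_zero
  have hTm : ∀ p ∈ T, IsPrim p.1 ∧ IsPrim p.2 ∧ IsCoprime p.1 p.2 ∧
      α ≤ Real.log (nm p.1) ∧ Real.log (nm p.1) ≤ α + 1 := by
    intro p hp
    rw [hT, Finset.mem_filter, Finset.mem_product, Finset.mem_image, mem_S hX'0] at hp
    obtain ⟨⟨⟨f, hf, h1⟩, h2⟩, h3⟩ := hp
    obtain ⟨g1, g2, g3⟩ := hCf f hf
    rw [← h1] at h3 ⊢
    have e1 : Real.log (nm (d * f)) = Real.log (nm d) + Real.log (nm f) := by
      rw [nm_mul]
      push_cast
      rw [Real.log_mul (by linarith [one_le_nm' hd]) (by linarith [one_le_nm' g1])]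
    rw [e1]
    exact ⟨hd.mul g1, h2.2.1, h3, by linarith, by linarith⟩
  -- the sum over `T` for a fixed `f`
  have hsumT : ∀ (x : Eis × Eis → ℂ) (f l : Eis), f ∈ Cf →
      ∑ p ∈ T, x p * u (f, l) p.1 p.2 =
      ∑ k ∈ S X', (if IsCoprime (d * f) k ∧ cd (d * f) k then
        x (d * f, k) * (Kn (l * (e * sq3) ^ 2 * f) k) else 0) := by
    intro x f l hf
    rw [hT, Finset.sum_filter, Finset.sum_product, Finset.sum_eq_single (d * f)]
    · refine Finset.sum_congr rfl fun k _ => ?_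
      have hu1 : u (f, l) (d * f) k =
          if cd (d * f) k then Kn (l * (e * sq3) ^ 2 * f) k else 0 := by
        simp only [hu, true_and]
      simp only
      by_cases h1 : IsCoprime (d * f) k
      · by_cases h2 : cd (d * f) k
        · rw [if_pos h1, hu1, if_pos h2, if_pos ⟨h1, h2⟩]
        · rw [if_pos h1, hu1, if_neg h2, if_neg (fun h => h2 h.2), mul_zero]
      · rw [if_neg h1, if_neg (fun h => h1 h.1)]
    · intro b _ hb
      apply Finset.sum_eq_zero
      intro k _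
      simp only [hu]
      rw [if_neg (fun h : b = d * f ∧ cd b k => hb h.1), mul_zero, ite_self]
    · intro h
      exact absurd (Finset.mem_image_of_mem _ hf) h
  rw [← Finset.sum_product' Cf (bl L)
    (fun f l => ‖dsK Kn (sq q (Φ.w j)) X d e f l (σ + τ * Complex.I)‖ ^ 2)]
  have key := split_sq hs hht j α τ (Cf ×ˢ bl L) T u hB hTm ?_
  · refine le_trans (le_of_eq ?_) key
    refine Finset.sum_congr rfl fun fl hfl => ?_
    rw [Finset.mem_product] at hfl
    congr 2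
    have h1 := hsumT (fun p => Φ.w j (p.1 * p.2) * tw (1 / 2 - σ) τ p.2) fl.1 fl.2 hfl.1
    simp only at h1
    have hf1 := (hCf _ hfl.1).1
    have h2 : ∑ p ∈ T, Φ.w j (p.1 * p.2) * tw (1 / 2 - σ) τ p.2 * u fl p.1 p.2 =
        ∑ k ∈ S X', (if IsCoprime (d * fl.1) k ∧ cd (d * fl.1) k then
        Φ.w j (d * fl.1 * k) * tw (1 / 2 - σ) τ k *
          (Kn (fl.2 * (e * sq3) ^ 2 * fl.1) k) else 0) := h1
    rw [h2]
    unfold dsK
    have h3 : ∑ k ∈ S X, sq q (Φ.w j) (d * fl.1 * k) *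
        (Kn (fl.2 * (e * sq3) ^ 2 * fl.1) k) *
        (nm k : ℂ) ^ ((σ : ℂ) + τ * Complex.I - 1 / 2) =
        ∑ k ∈ S X', sq q (Φ.w j) (d * fl.1 * k) *
        (Kn (fl.2 * (e * sq3) ^ 2 * fl.1) k) *
        (nm k : ℂ) ^ ((σ : ℂ) + τ * Complex.I - 1 / 2) := by
      apply Finset.sum_subset
      · intro k hk
        rw [mem_S hX0] at hk
        rw [mem_S hX'0]
        exact ⟨hk.1.trans (le_max_left _ _), hk.2⟩
      · intro k hk hk'
        rw [mem_S hX'0] at hk
        have h4 : sq q (Φ.w j) (d * fl.1 * k) = 0 := by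
          by_contra h0
          apply hk'
          have h5 := supp_sq hΦ q j hX _ h0
          rw [mem_S hX0] at h5 ⊢
          refine ⟨?_, hk.2⟩
          refine le_trans ?_ h5.1
          have hdf := one_le_nm' (hd.mul hf1)
          rw [nm_mul (d * fl.1) k]
          push_cast
          have : (0 : ℝ) ≤ nm k := Nat.cast_nonneg _
          nlinarith
        rw [h4]; ring
    rw [h3]
    refine Finset.sum_congr rfl fun k hk => ?_
    rw [mem_S hX'0] at hk
    rw [tw_cpow]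
    by_cases hc : IsCoprime (d * fl.1) k
    · rw [sq_mul_eq _ (hd.mul hf1) hk.2.1 hc]
      by_cases h4 : cd (d * fl.1) k
      · rw [if_pos h4, if_pos ⟨hc, h4⟩]; ring
      · rw [if_neg h4, if_neg (fun h => h4 h.2)]; ring
    · rw [sq_mul_not_cop _ hc, if_neg (fun h => hc h.1)]; ring
  · intro κ hκ j' hg' hd' hl' hm'
    have h1 := hb j' hg' hd' hl' hm'
    refine le_trans ?_ h1
    have hsupp : Supp (sq (q * d) (Φ.w j')) X' :=
      supp_sq hΦ (q * d) j' ((Real.exp_le_exp.2 (by linarith)).trans (le_max_right _ _))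
    set F : Eis → ℝ := fun r => ‖HP842.KS Kn (sq (q * d) (Φ.w j')) r‖ ^ 2 with hF
    have hmerge := merge_TG hL (Real.exp_pos (i + 1)).le hDm ((e * sq3) ^ 2)
      (pow_ne_zero _ (mul_ne_zero he.ne_zero sq3_ne_zero')) (Bs := Cf) (by
        intro f hf
        obtain ⟨g1, g2, g3⟩ := hCf f hf
        refine ⟨g1, ?_⟩
        rw [← Real.exp_log (by linarith [one_le_nm' g1] : (0 : ℝ) < nm f)]
        exact Real.exp_le_exp.2 g3) F (fun r => by positivity) hD
    refine le_trans ?_ hmerge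
    rw [Finset.sum_product]
    refine Finset.sum_le_sum fun f hf => Finset.sum_le_sum fun l _ => ?_
    have h2 := hsumT (fun p => κ p.1 * Φ.w j' p.2) f l hf
    simp only at h2
    rw [h2]
    have hf1 := (hCf _ hf).1
    have h3 : ∑ k ∈ S X', (if IsCoprime (d * f) k ∧ cd (d * f) k then
        κ (d * f) * Φ.w j' k * (Kn (l * (e * sq3) ^ 2 * f) k) else 0) =
        (κ (d * f) * (if Squarefree (d * f) ∧ IsCoprime (d * f) q then 1 else 0)) *
          HP842.KS Kn (sq (q * d) (Φ.w j')) (l * f * (e * sq3) ^ 2) := by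
      rw [KS_eq_sum hsupp, Finset.mul_sum]
      refine Finset.sum_congr rfl fun k hk => ?_
      rw [mem_S hX'0] at hk
      rw [show l * f * (e * sq3) ^ 2 = l * (e * sq3) ^ 2 * f by ring]
      simp only [hcd, TP320.sq]
      by_cases h4 : Squarefree (d * f) ∧ IsCoprime (d * f) q
      · rw [if_pos h4]
        by_cases h5 : IsCoprime k (q * d)
        · rw [if_pos (⟨hk.2.1, hk.2.2, h5⟩ : IsPrim k ∧ Squarefree k ∧ IsCoprime k (q * d))]
          by_cases h6 : IsCoprime f k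
          · rw [if_pos ⟨h5.of_mul_right_right.symm.mul_left h6, h4.1, h4.2, hk.2.2,
              h5.of_mul_right_left⟩]
            ring
          · rw [if_neg (fun h => h6 h.1.of_mul_left_right)]
            have h7 : Kn (l * (e * sq3) ^ 2 * f) k = 0 :=
              hK.z _ _ hk.2.1 (fun h => h6 h.of_mul_left_right)
            rw [h7]
            simp
        · have h8 : ¬ (IsPrim k ∧ Squarefree k ∧ IsCoprime k (q * d)) := fun h => h5 h.2.2
          rw [if_neg h8, if_neg (fun h => h5 (h.2.2.2.2.mul_right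
            h.1.of_mul_left_left.symm))]
          ring
      · rw [if_neg h4, if_neg (fun h => h4 ⟨h.2.1, h.2.2.1⟩)]
        ring
    rw [h3, norm_mul, mul_pow]
    have h5 : ‖κ (d * f) * (if Squarefree (d * f) ∧ IsCoprime (d * f) q then 1 else 0)‖ ≤ 1 := by
      split_ifs
      · rw [mul_one]; exact hκ _
      · simp
    calc _ ≤ 1 ^ 2 * ‖HP842.KS Kn (sq (q * d) (Φ.w j')) (l * f * (e * sq3) ^ 2)‖ ^ 2 := by
          gcongr
      _ = _ := by rw [one_pow, one_mul]

end Crest.Agent.R017.PE241
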