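import Crest.Agent.R017.PG2_106

/-!
# Row 17, rules (P), (P'): the gcd recursion, fully iterated (helper106)

* `recur` : abstract recursion over the common divisors `> Y`
* `DD` : the dual terms of one step; `iterM` : character side → Gauss side
* `DDG` : the dual terms on the Gauss side; `iterG` : Gauss side → character side
-/

set_option autoImplicit false

noncomputable section

open MeasureTheory Finset
open scoped ComplexConjugate

namespace Crest.Agent.R017.PI106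

open Crest.Agent.R012
open Eis CharSum852 Gauss880 Tau671 Mob705 LS2 CR2 DualIneq811 MelSep811
open Crest.Agent.R017.PA842 (V Supp V_nonneg summable_V Lde_nonneg)
open Crest.Agent.R017.PM106 Crest.Agent.R017.PG106
open Crest.Agent.R017.CM106 (CS TG FS sub)
open Div277 (tau dvs mem_dvs tau_le_rpow)

/-! ### sums over pairs -/

lemma tau_dvd_le {g m : Eis} (hm : m ≠ 0) (h : g ∣ m) : tau g ≤ tau m := by
  unfold tau
  apply Finset.card_le_card
  intro x hx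
  have hg : g ≠ 0 := fun h0 => hm (by rw [h0, zero_dvd_iff] at h; exact h)
  rw [mem_dvs hg] at hx
  rw [mem_dvs hm]
  exact ⟨hx.1, hx.2.trans h⟩

open Classical in
lemma pairs_le {X : ℝ} (hX : 0 ≤ X) {Gs T : Finset Eis} (hGs : Gs ⊆ S X) (a b c Fn : Eis → ℝ)
    (hF : ∀ m, 0 ≤ Fn m) (hc0 : ∀ m, 0 ≤ c m)
    (hT : ∀ g ∈ Gs, ∀ h ∈ S (X / nm g), Fn (g * h) ≠ 0 → g * h ∈ T) (hTp : ∀ m ∈ T, m ≠ 0)
    (hc : ∀ g ∈ Gs, ∀ h ∈ S (X / nm g), g * h ∈ T → a g * b h ≤ c (g * h)) :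
    ∑ g ∈ Gs, a g * ∑ h ∈ S (X / nm g), b h * Fn (g * h) ≤
      ∑ m ∈ T, (tau m : ℝ) * c m * Fn m := by
  simp_rw [Finset.mul_sum]
  rw [Finset.sum_sigma']
  set A := Gs.sigma (fun g => S (X / nm g)) with hA
  have e0 : ∑ x ∈ A, a x.1 * (b x.2 * Fn (x.1 * x.2)) =
      ∑ x ∈ A.filter (fun x => x.1 * x.2 ∈ T), a x.1 * (b x.2 * Fn (x.1 * x.2)) := by
    symm
    apply Finset.sum_filter_of_ne
    intro x hx hne
    rw [hA, Finset.mem_sigma] at hx
    refine hT _ hx.1 _ hx.2 fun h0 => hne ?_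
    rw [h0, mul_zero, mul_zero]
  rw [e0]
  have hmaps : ∀ x ∈ A.filter (fun x => x.1 * x.2 ∈ T), x.1 * x.2 ∈ T := fun x hx =>
    (Finset.mem_filter.1 hx).2
  rw [← Finset.sum_fiberwise_of_maps_to hmaps]
  refine Finset.sum_le_sum fun m hm => ?_
  have hm0 := hTp m hm
  set Bx := (A.filter (fun x => x.1 * x.2 ∈ T)).filter (fun x => x.1 * x.2 = m) with hBx
  have hmem : ∀ x ∈ Bx, x.1 ∈ Gs ∧ x.2 ∈ S (X / nm x.1) ∧ x.1 * x.2 = m := by
    intro x hx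
    rw [hBx, Finset.mem_filter, Finset.mem_filter, hA, Finset.mem_sigma] at hx
    exact ⟨hx.1.1.1, hx.1.1.2, hx.2⟩
  have h1 : ∑ x ∈ Bx, a x.1 * (b x.2 * Fn (x.1 * x.2)) ≤ ∑ x ∈ Bx, c m * Fn m := by
    refine Finset.sum_le_sum fun x hx => ?_
    obtain ⟨h1, h2, h3⟩ := hmem x hx
    have h4 := hc _ h1 _ h2 (by rw [h3]; exact hm)
    rw [h3] at h4
    rw [h3]
    calc a x.1 * (b x.2 * Fn m) = (a x.1 * b x.2) * Fn m := by ring
      _ ≤ c m * Fn m := mul_le_mul_of_nonneg_right h4 (hF m)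
  refine h1.trans ?_
  rw [Finset.sum_const, nsmul_eq_mul]
  have hcard : (Bx.card : ℝ) ≤ tau m := by
    unfold tau
    norm_cast
    apply Finset.card_le_card_of_injOn (fun x => x.1)
    · intro x hx
      obtain ⟨h1, h2, h3⟩ := hmem x (Finset.mem_coe.1 hx)
      rw [Finset.mem_coe, mem_dvs hm0]
      exact ⟨((mem_S hX).1 (hGs h1)).2.1, ⟨x.2, h3.symm⟩⟩
    · intro x hx y hy hxy
      obtain ⟨h1, h2, h3⟩ := hmem x (Finset.mem_coe.1 hx)
      obtain ⟨h1', h2', h3'⟩ := hmem y (Finset.mem_coe.1 hy)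
      have hxy' : x.1 = y.1 := hxy
      have h0 : x.1 ≠ 0 := ((mem_S hX).1 (hGs h1)).2.1.ne_zero
      have h4 : x.2 = y.2 := by
        apply mul_left_cancel₀ h0
        rw [h3, hxy', h3']
      exact Sigma.ext hxy' (heq_of_eq h4)
  calc (Bx.card : ℝ) * (c m * Fn m) ≤ tau m * (c m * Fn m) :=
        mul_le_mul_of_nonneg_right hcard (mul_nonneg (hc0 m) (hF m))
    _ = _ := by ring

lemma nm_one : nm (1 : Eis) = 1 := by decide

lemma sub_one_eq (w : Eis → ℂ) : PA842.sub w 1 = w := by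
  funext k; unfold PA842.sub; rw [one_mul]

lemma S_mono {X X' : ℝ} (hX : 0 ≤ X) (h : X ≤ X') : S X ⊆ S X' := by
  intro k hk
  rw [mem_S hX] at hk
  rw [mem_S (hX.trans h)]
  exact ⟨hk.1.trans h, hk.2⟩

/-- the multiples of a non-admissible element vanish -/
lemma sub_eq_zero_of_not_mem {w : Eis → ℂ} {X : ℝ} (hX : 0 ≤ X) (hw : Supp w X) {m : Eis}
    (hm : IsPrim m) (h : m ∉ S X) : PA842.sub w m = 0 := by
  funext k
  unfold PA842.sub
  by_contra h0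
  have h1 := (mem_S hX).1 (hw _ h0)
  apply h
  rw [mem_S hX]
  refine ⟨le_trans ?_ h1.1, hm, h1.2.2.squarefree_of_dvd (dvd_mul_right _ _)⟩
  exact_mod_cast Div277.nm_le_of_dvd h1.2.1.ne_zero (dvd_mul_right _ _)

open Classical in
/-- **the recursion over the common divisors** -/
theorem recur {Y X₀ : ℝ} (hY : 1 ≤ Y) (F B : ℝ → (Eis → ℂ) → ℝ) (hB : ∀ X w, 0 ≤ B X w)
    (hB0 : ∀ X, B X 0 = 0)
    (hstep : ∀ X w, 1 ≤ X → X ≤ X₀ → Supp w X → F X w ≤ B X w +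
      ∑ g ∈ (S X).filter (fun g => Y < (nm g : ℝ)), (tau g : ℝ) * F (X / nm g) (PA842.sub w g))
    (n : ℕ) : ∀ X w, 1 ≤ X → X ≤ X₀ → X ≤ Y ^ (n + 1) → Supp w X →
      F X w ≤ ∑ g ∈ S X, (tau g : ℝ) ^ (2 * n) * B (X / nm g) (PA842.sub w g) := by
  induction n with
  | zero =>
    intro X w hX hX0 hXY hw
    have hXn : 0 ≤ X := by linarith
    have h1 := hstep X w hX hX0 hw
    have h2 : (S X).filter (fun g => Y < (nm g : ℝ)) = ∅ := by
      rw [Finset.filter_eq_empty_iff]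
      intro g hg
      have := ((mem_S hXn).1 hg).1
      rw [zero_add, pow_one] at hXY
      exact not_lt.2 (this.trans hXY)
    rw [h2, Finset.sum_empty, add_zero] at h1
    refine h1.trans ?_
    have h3 : B X w = (tau (1 : Eis) : ℝ) ^ (2 * 0) * B (X / nm (1 : Eis)) (PA842.sub w 1) := by
      rw [nm_one, sub_one_eq]; simp
    rw [h3]
    exact Finset.single_le_sum (f := fun g => (tau g : ℝ) ^ (2 * 0) * B (X / nm g) (PA842.sub w g))
      (fun g _ => mul_nonneg (by positivity) (hB _ _)) (one_mem_S hX)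
  | succ n ih =>
    intro X w hX hX0 hXY hw
    have hXn : 0 ≤ X := by linarith
    have hYp : 0 < Y := by linarith
    refine (hstep X w hX hX0 hw).trans ?_
    have h1 : ∑ g ∈ (S X).filter (fun g => Y < (nm g : ℝ)), (tau g : ℝ) *
        F (X / nm g) (PA842.sub w g) ≤
        ∑ g ∈ (S X).filter (fun g => Y < (nm g : ℝ)), (tau g : ℝ) * ∑ h ∈ S (X / nm g),
          (tau h : ℝ) ^ (2 * n) * B (X / nm (g * h)) (PA842.sub w (g * h)) := by
      refine Finset.sum_le_sum fun g hg => ?_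
      rw [Finset.mem_filter] at hg
      have hg' := (mem_S hXn).1 hg.1
      have hgp : (0 : ℝ) < nm g := by exact_mod_cast nm_pos.2 hg'.2.1.ne_zero
      refine mul_le_mul_of_nonneg_left ?_ (Nat.cast_nonneg _)
      have a1 : 1 ≤ X / nm g := by rw [le_div_iff₀ hgp, one_mul]; exact hg'.1
      have a0 : X / nm g ≤ X := by
        apply div_le_self hXn
        exact_mod_cast nm_pos.2 hg'.2.1.ne_zero
      have a2 : X / nm g ≤ Y ^ (n + 1) := by
        rw [div_le_iff₀ hgp]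
        calc X ≤ Y ^ (n + 1 + 1) := hXY
          _ = Y ^ (n + 1) * Y := pow_succ _ _
          _ ≤ Y ^ (n + 1) * nm g := by gcongr; exact hg.2.le
      refine (ih (X / nm g) (PA842.sub w g) a1 (a0.trans hX0) a2
        (PA842.supp_sub hXn hw hg'.2.1)).trans (le_of_eq ?_)
      refine Finset.sum_congr rfl fun h _ => ?_
      rw [PA842.sub_sub, nm_mul, Nat.cast_mul, div_div]
    refine (add_le_add_right h1 _).trans ?_
    set T := (S X).erase 1 with hT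
    have h2 : ∑ g ∈ (S X).filter (fun g => Y < (nm g : ℝ)), (tau g : ℝ) * ∑ h ∈ S (X / nm g),
          (tau h : ℝ) ^ (2 * n) * B (X / nm (g * h)) (PA842.sub w (g * h)) ≤
        ∑ m ∈ T, (tau m : ℝ) * (tau m : ℝ) ^ (2 * n + 1) * B (X / nm m) (PA842.sub w m) := by
      refine pairs_le hXn (Finset.filter_subset _ _) (fun g => (tau g : ℝ))
        (fun h => (tau h : ℝ) ^ (2 * n)) (fun m => (tau m : ℝ) ^ (2 * n + 1))
        (fun m => B (X / nm m) (PA842.sub w m)) (fun m => hB _ _) (fun m => by positivity) ?_ ?_ ?_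
      · intro g hg h hh hne
        rw [Finset.mem_filter] at hg
        have hg' := (mem_S hXn).1 hg.1
        have hh' := (mem_S (by positivity)).1 hh
        have hgh : IsPrim (g * h) := hg'.2.1.mul hh'.2.1
        rw [hT, Finset.mem_erase]
        constructor
        · intro h1
          have h2 : nm g * nm h = 1 := by rw [← nm_mul, h1, nm_one]
          have h3 : nm g = 1 := Nat.eq_one_of_mul_eq_one_right h2
          have h4 := hg.2
          rw [h3] at h4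
          push_cast at h4
          linarith
        · by_contra h0
          apply hne
          show B (X / nm (g * h)) (PA842.sub w (g * h)) = 0
          rw [sub_eq_zero_of_not_mem hXn hw hgh h0]
          exact hB0 _
      · intro m hm
        exact ((mem_S hXn).1 (Finset.mem_of_mem_erase hm)).2.1.ne_zero
      · intro g hg h hh hm
        have hm0 : g * h ≠ 0 := ((mem_S hXn).1 (Finset.mem_of_mem_erase hm)).2.1.ne_zero
        have t1 : (tau g : ℝ) ≤ tau (g * h) := by exact_mod_cast tau_dvd_le hm0 (dvd_mul_right _ _)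
        have t2 : (tau h : ℝ) ≤ tau (g * h) := by exact_mod_cast tau_dvd_le hm0 (dvd_mul_left _ _)
        show (tau g : ℝ) * (tau h : ℝ) ^ (2 * n) ≤ (tau (g * h) : ℝ) ^ (2 * n + 1)
        calc (tau g : ℝ) * (tau h : ℝ) ^ (2 * n) ≤
              (tau (g * h) : ℝ) * (tau (g * h) : ℝ) ^ (2 * n) := by gcongr
          _ = _ := by rw [pow_succ, mul_comm]
    refine (add_le_add_right h2 _).trans ?_
    rw [← Finset.add_sum_erase (S X) _ (one_mem_S hX)]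
    have h3 : (tau (1 : Eis) : ℝ) ^ (2 * (n + 1)) * B (X / nm (1 : Eis)) (PA842.sub w 1) =
        (tau (1 : Eis) : ℝ) ^ (2 * (n + 1)) * B X w := by
      rw [nm_one, sub_one_eq]; simp
    rw [h3]
    have h4 : (1 : ℝ) ≤ (tau (1 : Eis) : ℝ) ^ (2 * (n + 1)) := by
      apply one_le_pow₀
      have : 0 < tau (1 : Eis) := by
        unfold tau
        apply Finset.card_pos.2
        exact ⟨1, (mem_dvs one_ne_zero).2 ⟨isPrim_one, one_dvd _⟩⟩
      exact_mod_cast this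
    refine add_le_add ?_ (le_of_eq ?_)
    · calc B X w = 1 * B X w := (one_mul _).symm
        _ ≤ _ := mul_le_mul_of_nonneg_right h4 (hB _ _)
    · refine Finset.sum_congr rfl fun m _ => ?_
      rw [← pow_succ']
      ring_nf

/-! ### the character side -/

open Classical in
/-- the dual terms of one step -/
def DD (M : ℕ) (σ X Z Y ε : ℝ) (w : Eis → ℂ) : ℝ :=
  ∑ d ∈ (S X).filter (fun d => (nm d : ℝ) ≤ Y), ∑ e ∈ (S X).filter (· ∣ d), ∑ f ∈ S X,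
    Z / nm f * DIM M σ w X d e f (Lde X Z ε d e)

lemma DD_nonneg (M : ℕ) (σ X : ℝ) {Z : ℝ} (hZ : 0 ≤ Z) (Y ε : ℝ) (w : Eis → ℂ) :
    0 ≤ DD M σ X Z Y ε w :=
  Finset.sum_nonneg fun d _ => Finset.sum_nonneg fun e _ => Finset.sum_nonneg fun f _ =>
    mul_nonneg (div_nonneg hZ (Nat.cast_nonneg _)) (DIM_nonneg _ _ _ _ _ _ _ _)

lemma DIM_zero (M : ℕ) (σ X : ℝ) (d e f : Eis) (L : ℝ) : DIM M σ 0 X d e f L = 0 := by
  unfold DIM
  have : ∀ (l : Eis) (s : ℂ), dsum 0 X d e f l s = 0 := fun l s => by unfold dsum; simp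
  simp [this]

lemma DD_zero (M : ℕ) (σ X Z Y ε : ℝ) : DD M σ X Z Y ε 0 = 0 := by
  unfold DD
  simp [DIM_zero]

lemma sum_sub_sq_le {X : ℝ} (hX : 0 ≤ X) {w : Eis → ℂ} (hw : Supp w X) :
    ∑ g ∈ S X, ∑ k ∈ S (X / nm g), ‖PA842.sub w g k‖ ^ 2 ≤
      ∑ h ∈ S X, (tau h : ℝ) * ‖w h‖ ^ 2 := by
  have h := pairs_le hX (Finset.Subset.refl (S X)) (T := S X) (fun _ => (1 : ℝ)) (fun _ => (1 : ℝ))
    (fun _ => (1 : ℝ)) (fun m => ‖w m‖ ^ 2) (fun _ => by positivity) (fun _ => by positivity)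
    (fun g _ h _ hne => hw _ (fun h0 => hne (by show ‖w (g * h)‖ ^ 2 = 0; rw [h0]; simp)))
    (fun m hm => ((mem_S hX).1 hm).2.1.ne_zero) (fun _ _ _ _ _ => by norm_num)
  simpa [PA842.sub] using h

lemma exp_bound {X₀ ε : ℝ} (hX₀ : 1 ≤ X₀) (hε : 0 < ε) :
    X₀ ≤ (X₀ ^ ε) ^ (⌈1 / ε⌉₊ + 1) := by
  have h0 : 0 < X₀ := by linarith
  rw [← Real.rpow_natCast, ← Real.rpow_mul h0.le]
  calc X₀ = X₀ ^ (1 : ℝ) := (Real.rpow_one _).symm
    _ ≤ _ := by
      apply Real.rpow_le_rpow_of_exponent_le hX₀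
      have h1 : 1 / ε ≤ (⌈1 / ε⌉₊ : ℝ) := Nat.le_ceil _
      rw [div_le_iff₀ hε] at h1
      push_cast
      nlinarith

/-- bounds of the multiplicities -/
lemma tau_pow_le {ε : ℝ} (hε : 0 < ε) (n : ℕ) : ∃ C : ℝ, 1 ≤ C ∧ ∀ X : ℝ, 1 ≤ X → ∀ g ∈ S X,
    (tau g : ℝ) ^ n ≤ C * X ^ ε := by
  obtain ⟨C, hC, h⟩ := tau_le_rpow (ε := ε / (n + 1)) (by positivity)
  refine ⟨C ^ n, one_le_pow₀ hC, fun X hX g hg => ?_⟩
  have hX0 : 0 ≤ X := by linarith
  have hg' := (mem_S hX0).1 hg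
  have hn1 : (1 : ℝ) ≤ nm g := by exact_mod_cast nm_pos.2 hg'.2.1.ne_zero
  calc (tau g : ℝ) ^ n ≤ (C * (nm g : ℝ) ^ (ε / (n + 1))) ^ n :=
        pow_le_pow_left₀ (Nat.cast_nonneg _) (h g hg'.2.1.ne_zero) n
    _ = C ^ n * ((nm g : ℝ) ^ (ε / (n + 1))) ^ n := mul_pow _ _ _
    _ ≤ C ^ n * X ^ ε := by
        refine mul_le_mul_of_nonneg_left ?_ (by positivity)
        calc ((nm g : ℝ) ^ (ε / (n + 1))) ^ n ≤ (X ^ (ε / (n + 1))) ^ n := by
              gcongr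
              exact hg'.1
          _ = X ^ (ε / (n + 1) * n) := by rw [← Real.rpow_natCast, ← Real.rpow_mul hX0]
          _ ≤ X ^ ε := by
              apply Real.rpow_le_rpow_of_exponent_le hX
              rw [div_mul_eq_mul_div, div_le_iff₀ (by positivity)]
              nlinarith

/-- the one-step bound -/
def BM (C A : ℝ) (M : ℕ) (σ Z Y ε X' : ℝ) (w' : Eis → ℂ) : ℝ :=
  C * Z * ∑ h ∈ S X', ‖w' h‖ ^ 2 + C * A * DD M σ X' Z Y ε w'

lemma BM_nonneg {C A Z : ℝ} (hC : 0 ≤ C) (hA : 0 ≤ A) (hZ : 0 ≤ Z) (M : ℕ) (σ Y ε X' : ℝ)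
    (w' : Eis → ℂ) : 0 ≤ BM C A M σ Z Y ε X' w' :=
  add_nonneg (mul_nonneg (mul_nonneg hC hZ) (Finset.sum_nonneg fun _ _ => by positivity))
    (mul_nonneg (mul_nonneg hC hA) (DD_nonneg M σ X' hZ Y ε w'))

lemma BM_zero (C A : ℝ) (M : ℕ) (σ Z Y ε X' : ℝ) : BM C A M σ Z Y ε X' 0 = 0 := by
  unfold BM
  rw [DD_zero]
  simp

lemma final_arith {C C1 C2 Z u v W W' D : ℝ} (hC : 0 ≤ C) (hC1 : 0 ≤ C1) (hC2 : 1 ≤ C2)
    (hZ : 0 ≤ Z) (hu : 1 ≤ u) (hv : 0 ≤ v) (hD : 0 ≤ D) (hW : W' ≤ C2 * u * W) :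
    C1 * u * (C * Z * W' + C * v * D) ≤ C * C1 * C2 * (u * u) * (Z * W + v * D) := by
  have hu0 : 0 ≤ u := by linarith
  have h7 : 1 ≤ C2 * u := one_le_mul_of_one_le_of_one_le hC2 hu
  have h8 : 0 ≤ C * v * D := by positivity
  calc C1 * u * (C * Z * W' + C * v * D)
      ≤ C1 * u * (C * Z * (C2 * u * W) + (C2 * u) * (C * v * D)) := by
        refine mul_le_mul_of_nonneg_left ?_ (by positivity)
        refine add_le_add (mul_le_mul_of_nonneg_left hW (by positivity)) ?_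
        exact le_mul_of_one_le_left h8 h7
    _ = C * C1 * C2 * (u * u) * (Z * W + v * D) := by ring

/-- **(P), fully iterated** -/
theorem iterM {σ ε : ℝ} (hσ : 0 < σ) (hσ1 : σ ≤ 1 / 2) (hε : 0 < ε) {M : ℕ} (hM : 1 ≤ M) :
    ∃ C : ℝ, 1 ≤ C ∧ ∀ X Z : ℝ, 1 ≤ X → 1 ≤ Z → ∀ w : Eis → ℂ, Supp w X →
    V X Z w ≤ C * X ^ ε * (Z * ∑ h ∈ S X, ‖w h‖ ^ 2 +
      X ^ (3 * σ) * ∑ g ∈ S X, DD M σ (X / nm g) Z (X ^ ε) ε (PA842.sub w g)) := by
  obtain ⟨C, hC, hone⟩ := one_stepM hσ hσ1 hε hM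
  obtain ⟨C1, hC1, ht1⟩ := tau_pow_le (ε := ε / 2) (by positivity) (2 * ⌈1 / ε⌉₊)
  obtain ⟨C2, hC2, ht2⟩ := tau_pow_le (ε := ε / 2) (by positivity) 1
  refine ⟨C * C1 * C2, one_le_mul_of_one_le_of_one_le (one_le_mul_of_one_le_of_one_le hC hC1) hC2,
    fun X Z hX hZ w hw => ?_⟩
  have hX0 : (0 : ℝ) ≤ X := by linarith
  have hXp : (0 : ℝ) < X := by linarith
  have hZ0 : (0 : ℝ) ≤ Z := by linarith
  have hC0 : (0 : ℝ) ≤ C := by linarith
  have hC10 : (0 : ℝ) ≤ C1 := by linarith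
  have hY : 1 ≤ X ^ ε := Real.one_le_rpow hX hε.le
  have hXs : 0 < X ^ (3 * σ) := Real.rpow_pos_of_pos hXp _
  have key := recur (X₀ := X) hY (fun X' w' => V X' Z w')
    (fun X' w' => BM C (X ^ (3 * σ)) M σ Z (X ^ ε) ε X' w')
    (fun X' w' => BM_nonneg hC0 hXs.le hZ0 M σ (X ^ ε) ε X' w')
    (fun X' => BM_zero C (X ^ (3 * σ)) M σ Z (X ^ ε) ε X')
    (by
      intro X' w' hX' hX'X hw'
      have h1 := hone X' Z (X ^ ε) hX' hZ w' hw'
      have hX'p : 0 < X' := by linarith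
      have h3 : X' ^ (3 * σ) ≤ X ^ (3 * σ) := Real.rpow_le_rpow hX'p.le hX'X (by positivity)
      have h4 := DD_nonneg M σ X' hZ0 (X ^ ε) ε w'
      have h5 : C * X' ^ (3 * σ) * DD M σ X' Z (X ^ ε) ε w' ≤
          C * X ^ (3 * σ) * DD M σ X' Z (X ^ ε) ε w' :=
        mul_le_mul_of_nonneg_right (mul_le_mul_of_nonneg_left h3 hC0) h4
      refine h1.trans ?_
      unfold BM
      exact add_le_add_left (add_le_add_right h5 _) _)
    ⌈1 / ε⌉₊ X w hX le_rfl (exp_bound hX hε) hw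
  refine key.trans ?_
  have h5 : ∑ g ∈ S X, (tau g : ℝ) ^ (2 * ⌈1 / ε⌉₊) *
        BM C (X ^ (3 * σ)) M σ Z (X ^ ε) ε (X / nm g) (PA842.sub w g) ≤
      ∑ g ∈ S X, (C1 * X ^ (ε / 2)) *
        BM C (X ^ (3 * σ)) M σ Z (X ^ ε) ε (X / nm g) (PA842.sub w g) :=
    Finset.sum_le_sum fun g hg => mul_le_mul_of_nonneg_right (ht1 X hX g hg)
      (BM_nonneg hC0 hXs.le hZ0 M σ (X ^ ε) ε _ _)
  refine h5.trans ?_
  rw [← Finset.mul_sum]
  have h5b : ∑ g ∈ S X, BM C (X ^ (3 * σ)) M σ Z (X ^ ε) ε (X / nm g) (PA842.sub w g) =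
      C * Z * ∑ g ∈ S X, ∑ k ∈ S (X / nm g), ‖PA842.sub w g k‖ ^ 2 +
      C * X ^ (3 * σ) * ∑ g ∈ S X, DD M σ (X / nm g) Z (X ^ ε) ε (PA842.sub w g) := by
    unfold BM
    rw [Finset.sum_add_distrib, ← Finset.mul_sum, ← Finset.mul_sum]
  rw [h5b]
  have h6 : ∑ g ∈ S X, ∑ k ∈ S (X / nm g), ‖PA842.sub w g k‖ ^ 2 ≤
      C2 * X ^ (ε / 2) * ∑ h ∈ S X, ‖w h‖ ^ 2 := by
    refine (sum_sub_sq_le hX0 hw).trans ?_
    rw [Finset.mul_sum]
    refine Finset.sum_le_sum fun h hh => ?_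
    have := ht2 X hX h hh
    rw [pow_one] at this
    exact mul_le_mul_of_nonneg_right this (by positivity)
  have hDD : 0 ≤ ∑ g ∈ S X, DD M σ (X / nm g) Z (X ^ ε) ε (PA842.sub w g) :=
    Finset.sum_nonneg fun g _ => DD_nonneg _ _ _ hZ0 _ _ _
  have hXe : 1 ≤ X ^ (ε / 2) := Real.one_le_rpow hX (by positivity)
  have e1 : X ^ ε = X ^ (ε / 2) * X ^ (ε / 2) := by
    rw [← Real.rpow_add hXp]; congr 1; ring
  have fin := final_arith (Z := Z) hC0 hC10 hC2 hZ0 hXe hXs.le hDD h6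
  rw [← e1] at fin
  exact fin

/-! ### the Gauss side -/

/-- the dual sums on the Gauss side, common divisor `g` -/
def dGg (w : Eis → ℂ) (X : ℝ) (g d e f l : Eis) (s : ℂ) : ℂ :=
  ∑ k ∈ S X, w (g * d * f * k) * sy (l * (g * d * e * sq3) ^ 2) k * (nm k : ℂ) ^ (s - 1 / 2)

/-- their second moment -/
def DICg (M : ℕ) (σ : ℝ) (w : Eis → ℂ) (X : ℝ) (g d e f : Eis) (L : ℝ) : ℝ :=
  ∫ t : ℝ, ((1 + t ^ 2) ^ M)⁻¹ * ∑ l ∈ bl L, ‖dGg w X g d e f l (σ + t * Complex.I)‖ ^ 2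

lemma dGg_eq (w : Eis → ℂ) (X : ℝ) (g d e f l : Eis) (s : ℂ) :
    dGg w X g d e f l s =
      dp (S X) (fun k => w (g * d * f * k) * sy (l * (g * d * e * sq3) ^ 2) k) s := rfl

lemma integrable_dGg {M : ℕ} (hM : 1 ≤ M) {X : ℝ} (hX : 0 ≤ X) (w : Eis → ℂ) (g d e f l : Eis)
    (σ : ℝ) :
    Integrable (fun t : ℝ => ((1 + t ^ 2) ^ M)⁻¹ *
      ‖dGg w X g d e f l (σ + t * Complex.I)‖ ^ 2) := by
  simp only [dGg_eq]
  exact integrable_dp_sqM hM (S X) _ (fun k hk => ((mem_S hX).1 hk).2.1.ne_zero) σ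

lemma integrable_DICg {M : ℕ} (hM : 1 ≤ M) (σ : ℝ) {X : ℝ} (hX : 0 ≤ X) (w : Eis → ℂ)
    (g d e f : Eis) (L : ℝ) :
    Integrable (fun t : ℝ => ((1 + t ^ 2) ^ M)⁻¹ *
      ∑ l ∈ bl L, ‖dGg w X g d e f l (σ + t * Complex.I)‖ ^ 2) := by
  have : (fun t : ℝ => ((1 + t ^ 2) ^ M)⁻¹ *
      ∑ l ∈ bl L, ‖dGg w X g d e f l (σ + t * Complex.I)‖ ^ 2) =
      fun t : ℝ => ∑ l ∈ bl L, ((1 + t ^ 2) ^ M)⁻¹ *
        ‖dGg w X g d e f l (σ + t * Complex.I)‖ ^ 2 := by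
    funext t; rw [Finset.mul_sum]
  rw [this]
  exact integrable_finsetSum _ fun l _ => integrable_dGg hM hX w g d e f l σ

lemma DICg_nonneg (M : ℕ) (σ : ℝ) (w : Eis → ℂ) (X : ℝ) (g d e f : Eis) (L : ℝ) :
    0 ≤ DICg M σ w X g d e f L :=
  integral_nonneg fun t => by positivity

lemma norm_dsum_sub_cG_le {X X' : ℝ} (hX : 0 ≤ X) (hX' : 0 ≤ X') (hXX : X' ≤ X) {w : Eis → ℂ}
    (hw : Supp w X) {g d e f : Eis} (l : Eis) (hg : IsPrim g)
    (hd : IsPrim d) (hf : IsPrim f) (he : e ∣ d) (σ t : ℝ) :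
    ‖dsum (PA842.sub (cG w) g) X' d e f l (σ + t * Complex.I)‖ ≤
      ‖dGg w X' g d e f l (σ + (-t : ℝ) * Complex.I)‖ := by
  have e1 : dsum (PA842.sub (cG w) g) X' d e f l (σ + t * Complex.I) =
      conj (G (g * d * f)) * conj (dGg w X' g d e f l (σ + (-t : ℝ) * Complex.I)) := by
    unfold dsum dGg
    rw [map_sum, Finset.mul_sum]
    refine Finset.sum_congr rfl fun k hk => ?_
    have hk' : k ∈ S X := S_mono hX' hXX hk
    have h1 := term_cG hX hw (d := g * d) (e := e) l (hg.mul hd) hf (he.mul_left g) hk'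
    have h2 : PA842.sub (cG w) g (d * f * k) = cG w (g * d * f * k) := by
      unfold PA842.sub
      congr 1; ring
    rw [h2, h1]
    simp only [map_mul, conj_natCast_cpow]
    have e2 : conj ((σ : ℂ) + (-t : ℝ) * Complex.I - 1 / 2) = (σ : ℂ) + t * Complex.I - 1 / 2 := by
      simp only [map_sub, map_add, map_mul, map_div₀, map_one, map_ofNat, Complex.conj_ofReal,
        Complex.conj_I]
      push_cast; ring
    rw [e2]
    ring
  rw [e1, norm_mul, RCLike.norm_conj, RCLike.norm_conj]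
  exact mul_le_of_le_one_left (norm_nonneg _) (norm_G_le syG ((hg.mul hd).mul hf))

lemma DIM_sub_cG_le {M : ℕ} (hM : 1 ≤ M) (σ : ℝ) {X X' : ℝ} (hX : 0 ≤ X) (hX' : 0 ≤ X')
    (hXX : X' ≤ X) {w : Eis → ℂ} (hw : Supp w X) {g d e f : Eis} (hg : IsPrim g)
    (hd : IsPrim d) (hf : IsPrim f) (he : e ∣ d) (L : ℝ) :
    DIM M σ (PA842.sub (cG w) g) X' d e f L ≤ DICg M σ w X' g d e f L := by
  unfold DIM DICg
  have hi := integrable_DICg hM σ hX' w g d e f L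
  rw [← integral_neg_eq_self (fun t : ℝ => ((1 + t ^ 2) ^ M)⁻¹ *
      ∑ l ∈ bl L, ‖dGg w X' g d e f l (σ + t * Complex.I)‖ ^ 2)]
  refine integral_mono (integrable_DIM hM σ hX' (PA842.sub (cG w) g) d e f L) hi.comp_neg
    (fun t => ?_)
  simp only [neg_sq]
  refine mul_le_mul_of_nonneg_left ?_ (by positivity)
  refine Finset.sum_le_sum fun l _ => ?_
  exact pow_le_pow_left₀ (norm_nonneg _) (norm_dsum_sub_cG_le hX hX' hXX hw l hg hd hf he σ t) 2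

open Classical in
/-- the dual terms of one step on the Gauss side, common divisor `g` -/
def DDG (M : ℕ) (σ X Z Y ε : ℝ) (w : Eis → ℂ) (g : Eis) : ℝ :=
  ∑ d ∈ (S X).filter (fun d => (nm d : ℝ) ≤ Y), ∑ e ∈ (S X).filter (· ∣ d), ∑ f ∈ S X,
    Z / nm f * DICg M σ w X g d e f (Lde X Z ε d e)

open Classical in
/-- **(P'), fully iterated** -/
theorem iterG {σ ε : ℝ} (hσ : 0 < σ) (hσ1 : σ ≤ 1 / 2) (hε : 0 < ε) {M : ℕ} (hM : 1 ≤ M) :
    ∃ C : ℝ, 1 ≤ C ∧ ∀ X Z : ℝ, 1 ≤ X → 1 ≤ Z → ∀ w : Eis → ℂ, Supp w X →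
    VGe Z w ≤ C * X ^ ε * (Z * ∑ h ∈ S X, ‖w h‖ ^ 2 +
      X ^ (3 * σ) * ∑ g ∈ S X, DDG M σ (X / nm g) Z (X ^ ε) ε w g) := by
  obtain ⟨C, hC, h⟩ := iterM hσ hσ1 hε hM
  refine ⟨C, hC, fun X Z hX hZ w hw => ?_⟩
  have hX0 : (0 : ℝ) ≤ X := by linarith
  have hZ0 : (0 : ℝ) ≤ Z := by linarith
  have h1 := h X Z hX hZ (cG w) (supp_cG hw)
  rw [V_cG hw] at h1
  refine h1.trans ?_
  refine mul_le_mul_of_nonneg_left (add_le_add ?_ ?_) (by positivity)
  · refine mul_le_mul_of_nonneg_left ?_ hZ0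
    refine Finset.sum_le_sum fun k hk => ?_
    exact pow_le_pow_left₀ (norm_nonneg _) (norm_cG_le ((mem_S hX0).1 hk).2.1) 2
  · refine mul_le_mul_of_nonneg_left ?_ (by positivity)
    refine Finset.sum_le_sum fun g hg => ?_
    have hg' := (mem_S hX0).1 hg
    have hX' : 0 ≤ X / nm g := by positivity
    have hXX : X / nm g ≤ X := by
      apply div_le_self hX0
      exact_mod_cast nm_pos.2 hg'.2.1.ne_zero
    unfold DD DDG
    refine Finset.sum_le_sum fun d hd => Finset.sum_le_sum fun e he =>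
      Finset.sum_le_sum fun f hf => ?_
    refine mul_le_mul_of_nonneg_left ?_ (div_nonneg hZ0 (Nat.cast_nonneg _))
    exact DIM_sub_cG_le hM σ hX0 hX' hXX hw hg'.2.1
      ((mem_S hX').1 (Finset.mem_filter.1 hd).1).2.1 ((mem_S hX').1 hf).2.1
      (Finset.mem_filter.1 he).2 _

end Crest.Agent.R017.PI106
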