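import Crest.Agent.R017.PX8_764
import Crest.Agent.R017.PI1_106

/-!
# Row 17, exceptional class, part 9 (helper764): **(P_ex), fully iterated** (`iterEx`)

* `DDR` : the dual terms of one step, kernel `Dk`
* `CRX` : the cross terms of one step
* `iterEx`
-/

set_option autoImplicit false

noncomputable section

open MeasureTheory Finset
open scoped ComplexConjugate

namespace Crest.Agent.R017.PX764

open Crest.Agent.R012 Crest.Agent.R012.Eis Crest.Agent.R012.Gauss880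
open Crest.Agent.R012.LS2 Crest.Agent.R012.Mob705 Crest.Agent.R012.CR2
open Crest.Agent.R017.PA842 (V Supp sub restr)
open Crest.Agent.R017.PI106 (recur exp_bound tau_pow_le sum_sub_sq_le)

open Classical in
/-- the dual terms of one step -/
def DDR (M : ℕ) (σ X Z Y ε : ℝ) (w : Eis → ℂ) : ℝ :=
  ∑ d ∈ (S X).filter (fun d => (nm d : ℝ) ≤ Y), ∑ e ∈ (S X).filter (· ∣ d), ∑ f ∈ S X,
    Z / nm f * DIRM M σ w X d e f (Lde X Z ε d e)

open Classical in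
/-- the cross terms of one step -/
def CRX (X Z Y : ℝ) (w : Eis → ℂ) : ℝ :=
  ∑ d ∈ (S X).filter (fun d => (nm d : ℝ) ≤ Y), ‖Cross X Z w d‖

lemma DDR_nonneg (M : ℕ) (σ X : ℝ) {Z : ℝ} (hZ : 0 ≤ Z) (Y ε : ℝ) (w : Eis → ℂ) :
    0 ≤ DDR M σ X Z Y ε w :=
  Finset.sum_nonneg fun d _ => Finset.sum_nonneg fun e _ => Finset.sum_nonneg fun f _ =>
    mul_nonneg (div_nonneg hZ (Nat.cast_nonneg _)) (DIRM_nonneg _ _ _ _ _ _ _ _)

lemma CRX_nonneg (X Z Y : ℝ) (w : Eis → ℂ) : 0 ≤ CRX X Z Y w :=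
  Finset.sum_nonneg fun _ _ => norm_nonneg _

lemma DIRM_zero (M : ℕ) (σ X : ℝ) (d e f : Eis) (L : ℝ) : DIRM M σ 0 X d e f L = 0 := by
  unfold DIRM
  have : ∀ (l : Eis) (s : ℂ), dsR 0 X d e f l s = 0 := fun l s => by unfold dsR; simp
  simp [this]

lemma DDR_zero (M : ℕ) (σ X Z Y ε : ℝ) : DDR M σ X Z Y ε 0 = 0 := by
  unfold DDR
  simp [DIRM_zero]

lemma CRX_zero (X Z Y : ℝ) : CRX X Z Y 0 = 0 := by
  classical
  unfold CRX
  apply Finset.sum_eq_zero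
  intro d _
  have : Cross X Z 0 d = 0 := by
    unfold Cross
    apply Finset.sum_eq_zero
    intro k₁ _
    apply Finset.sum_eq_zero
    intro k₂ _
    have : ws (0 : Eis → ℂ) X (d * k₁) = 0 := by unfold ws; split_ifs <;> rfl
    rw [this]; simp
  rw [this, norm_zero]

/-- the one-step bound -/
def BR (C A1 A2 : ℝ) (M : ℕ) (σ Z Y ε X' : ℝ) (w' : Eis → ℂ) : ℝ :=
  C * A1 * ∑ h ∈ S X', ‖w' h‖ ^ 2 + C * A2 * DDR M σ X' Z Y ε w' + C * Z * CRX X' Z Y w'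

lemma BR_nonneg {C A1 A2 Z : ℝ} (hC : 0 ≤ C) (hA1 : 0 ≤ A1) (hA2 : 0 ≤ A2) (hZ : 0 ≤ Z) (M : ℕ)
    (σ Y ε X' : ℝ) (w' : Eis → ℂ) : 0 ≤ BR C A1 A2 M σ Z Y ε X' w' := by
  have h1 := DDR_nonneg M σ X' hZ Y ε w'
  have h2 := CRX_nonneg X' Z Y w'
  have h3 : 0 ≤ ∑ h ∈ S X', ‖w' h‖ ^ 2 := Finset.sum_nonneg fun _ _ => by positivity
  unfold BR
  positivity

lemma BR_zero (C A1 A2 : ℝ) (M : ℕ) (σ Z Y ε X' : ℝ) : BR C A1 A2 M σ Z Y ε X' 0 = 0 := by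
  unfold BR
  rw [DDR_zero, CRX_zero]
  simp

lemma final_arithR {C C1 C2 A1 A2 Z u W W' D R : ℝ} (hC : 0 ≤ C) (hC1 : 0 ≤ C1) (hC2 : 1 ≤ C2)
    (hA1 : 0 ≤ A1) (hA2 : 0 ≤ A2) (hZ : 0 ≤ Z) (hu : 1 ≤ u) (hD : 0 ≤ D) (hR : 0 ≤ R)
    (hW : W' ≤ C2 * u * W) :
    C1 * u * (C * A1 * W' + C * A2 * D + C * Z * R) ≤
      C * C1 * C2 * (u * u) * (A1 * W + A2 * D + Z * R) := by
  have hu0 : 0 ≤ u := by linarith
  have h7 : 1 ≤ C2 * u := one_le_mul_of_one_le_of_one_le hC2 hu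
  have h8 : 0 ≤ C * A2 * D + C * Z * R := by positivity
  calc C1 * u * (C * A1 * W' + C * A2 * D + C * Z * R)
      = C1 * u * (C * A1 * W' + (C * A2 * D + C * Z * R)) := by ring
    _ ≤ C1 * u * (C * A1 * (C2 * u * W) + (C2 * u) * (C * A2 * D + C * Z * R)) := by
        refine mul_le_mul_of_nonneg_left ?_ (by positivity)
        refine add_le_add (mul_le_mul_of_nonneg_left hW (by positivity)) ?_
        exact le_mul_of_one_le_left h8 h7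
    _ = C * C1 * C2 * (u * u) * (A1 * W + A2 * D + Z * R) := by ring

/-- **(P_ex), fully iterated** -/
theorem iterEx {σ ε : ℝ} (hσ : 0 < σ) (hσ1 : σ ≤ 1 / 2) (hε : 0 < ε) {M : ℕ} (hM : 1 ≤ M) :
    ∃ C : ℝ, 1 ≤ C ∧ ∀ X Z : ℝ, 1 ≤ X → 1 ≤ Z → ∀ w : Eis → ℂ, Supp w X →
    Vnc X Z w ≤ C * X ^ ε * ((X * Z) ^ ε * (X + Z) * ∑ h ∈ S X, ‖w h‖ ^ 2 +
      X ^ (3 * σ) * ∑ g ∈ S X, DDR M σ (X / nm g) Z (X ^ ε) ε (sub w g) +
      Z * ∑ g ∈ S X, CRX (X / nm g) Z (X ^ ε) (sub w g)) := by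
  obtain ⟨C, hC, hone⟩ := oneStepExM hM hσ hσ1 hε
  obtain ⟨C1, hC1, ht1⟩ := tau_pow_le (ε := ε / 2) (by positivity) (2 * ⌈1 / ε⌉₊)
  obtain ⟨C2, hC2, ht2⟩ := tau_pow_le (ε := ε / 2) (by positivity) 1
  refine ⟨C * C1 * C2, one_le_mul_of_one_le_of_one_le (one_le_mul_of_one_le_of_one_le hC hC1) hC2,
    fun X Z hX hZ w hw => ?_⟩
  have hX0 : (0 : ℝ) ≤ X := by linarith
  have hXp : (0 : ℝ) < X := by linarith
  have hZ0 : (0 : ℝ) ≤ Z := by linarith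
  have hC0 : (0 : ℝ) ≤ C := by linarith
  have hC10 : (0 : ℝ) ≤ C1 := by linarith
  have hY : 1 ≤ X ^ ε := Real.one_le_rpow hX hε.le
  have hXs : 0 < X ^ (3 * σ) := Real.rpow_pos_of_pos hXp _
  have hA1 : 0 ≤ (X * Z) ^ ε * (X + Z) := by positivity
  have key := recur (X₀ := X) hY (fun X' w' => Vnc X' Z w')
    (fun X' w' => BR C ((X * Z) ^ ε * (X + Z)) (X ^ (3 * σ)) M σ Z (X ^ ε) ε X' w')
    (fun X' w' => BR_nonneg hC0 hA1 hXs.le hZ0 M σ (X ^ ε) ε X' w')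
    (fun X' => BR_zero C _ (X ^ (3 * σ)) M σ Z (X ^ ε) ε X')
    (by
      intro X' w' hX' hX'X hw'
      have h1 := hone X' Z (X ^ ε) hX' hZ w' hw'
      have hX'p : 0 < X' := by linarith
      have h3 : X' ^ (3 * σ) ≤ X ^ (3 * σ) := Real.rpow_le_rpow hX'p.le hX'X (by positivity)
      have h4 := DDR_nonneg M σ X' hZ0 (X ^ ε) ε w'
      have h5 : C * X' ^ (3 * σ) * DDR M σ X' Z (X ^ ε) ε w' ≤
          C * X ^ (3 * σ) * DDR M σ X' Z (X ^ ε) ε w' :=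
        mul_le_mul_of_nonneg_right (mul_le_mul_of_nonneg_left h3 hC0) h4
      have h6 : (X' * Z) ^ ε * (X' + Z) ≤ (X * Z) ^ ε * (X + Z) := by
        have a1 : (X' * Z) ^ ε ≤ (X * Z) ^ ε :=
          Real.rpow_le_rpow (by positivity) (mul_le_mul_of_nonneg_right hX'X hZ0) hε.le
        exact mul_le_mul a1 (by linarith) (by positivity) (by positivity)
      have h7 : 0 ≤ ∑ h ∈ S X', ‖w' h‖ ^ 2 := Finset.sum_nonneg fun _ _ => by positivity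
      have h8 : C * (X' * Z) ^ ε * (X' + Z) * ∑ h ∈ S X', ‖w' h‖ ^ 2 ≤
          C * ((X * Z) ^ ε * (X + Z)) * ∑ h ∈ S X', ‖w' h‖ ^ 2 := by
        refine mul_le_mul_of_nonneg_right ?_ h7
        rw [mul_assoc]
        exact mul_le_mul_of_nonneg_left h6 hC0
      refine h1.trans ?_
      unfold BR
      exact add_le_add_left (add_le_add_left (add_le_add h8 h5) _) _)
    ⌈1 / ε⌉₊ X w hX le_rfl (exp_bound hX hε) hw
  refine key.trans ?_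
  have h5 : ∑ g ∈ S X, (Div277.tau g : ℝ) ^ (2 * ⌈1 / ε⌉₊) *
        BR C ((X * Z) ^ ε * (X + Z)) (X ^ (3 * σ)) M σ Z (X ^ ε) ε (X / nm g) (sub w g) ≤
      ∑ g ∈ S X, (C1 * X ^ (ε / 2)) *
        BR C ((X * Z) ^ ε * (X + Z)) (X ^ (3 * σ)) M σ Z (X ^ ε) ε (X / nm g) (sub w g) :=
    Finset.sum_le_sum fun g hg => mul_le_mul_of_nonneg_right (ht1 X hX g hg)
      (BR_nonneg hC0 hA1 hXs.le hZ0 M σ (X ^ ε) ε _ _)
  refine h5.trans ?_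
  rw [← Finset.mul_sum]
  have h5b : ∑ g ∈ S X, BR C ((X * Z) ^ ε * (X + Z)) (X ^ (3 * σ)) M σ Z (X ^ ε) ε
        (X / nm g) (sub w g) =
      C * ((X * Z) ^ ε * (X + Z)) * ∑ g ∈ S X, ∑ k ∈ S (X / nm g), ‖sub w g k‖ ^ 2 +
      C * X ^ (3 * σ) * ∑ g ∈ S X, DDR M σ (X / nm g) Z (X ^ ε) ε (sub w g) +
      C * Z * ∑ g ∈ S X, CRX (X / nm g) Z (X ^ ε) (sub w g) := by
    unfold BR
    rw [Finset.sum_add_distrib, Finset.sum_add_distrib, ← Finset.mul_sum, ← Finset.mul_sum,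
      ← Finset.mul_sum]
  rw [h5b]
  have h6 : ∑ g ∈ S X, ∑ k ∈ S (X / nm g), ‖sub w g k‖ ^ 2 ≤
      C2 * X ^ (ε / 2) * ∑ h ∈ S X, ‖w h‖ ^ 2 := by
    refine (sum_sub_sq_le hX0 hw).trans ?_
    rw [Finset.mul_sum]
    refine Finset.sum_le_sum fun h hh => ?_
    have := ht2 X hX h hh
    rw [pow_one] at this
    exact mul_le_mul_of_nonneg_right this (by positivity)
  have hDD : 0 ≤ ∑ g ∈ S X, DDR M σ (X / nm g) Z (X ^ ε) ε (sub w g) :=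
    Finset.sum_nonneg fun g _ => DDR_nonneg _ _ _ hZ0 _ _ _
  have hCR : 0 ≤ ∑ g ∈ S X, CRX (X / nm g) Z (X ^ ε) (sub w g) :=
    Finset.sum_nonneg fun g _ => CRX_nonneg _ _ _ _
  have hXe : 1 ≤ X ^ (ε / 2) := Real.one_le_rpow hX (by positivity)
  have e1 : X ^ ε = X ^ (ε / 2) * X ^ (ε / 2) := by
    rw [← Real.rpow_add hXp]; congr 1; ring
  have fin := final_arithR hC0 hC10 hC2 hA1 hXs.le hZ0 hXe hDD hCR h6
  rw [← e1] at fin
  exact fin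

end Crest.Agent.R017.PX764
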