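import Crest.Agent.R017.PE1_241
import Crest.Agent.R017.PX9_764

/-!
# Row 17, exceptional class: the rule (P_ex) for closed families, part 2 (helper241)
-/

set_option autoImplicit false

noncomputable section

open Complex MeasureTheory
open scoped ComplexConjugate

namespace Crest.Agent.R017.PE241

open Crest.Agent.R012 Crest.Agent.R012.Eis Crest.Agent.R012.LS2 Crest.Agent.R012.Gauss880
open Crest.Agent.R012.Div277 Crest.Agent.R012.CR2
open Crest.Agent.R012.MelSep811 (dp)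
open Crest.Agent.R017.PA842 (V Supp)
open Crest.Agent.R017.PM106 (integrable_dp_sqM)
open Crest.Agent.R017.CM106 (CS TG FS)
open Crest.Agent.R017.TP320

/-- the dual term -/
def DIK (Kn : Eis → Eis → ℂ) (M : ℕ) (σ : ℝ) (w : Eis → ℂ) (X : ℝ) (d e f : Eis) (L : ℝ) : ℝ :=
  ∫ t : ℝ, ((1 + t ^ 2) ^ M)⁻¹ * ∑ l ∈ bl L, ‖dsK Kn w X d e f l (σ + t * Complex.I)‖ ^ 2

lemma dsK_eq (Kn : Eis → Eis → ℂ) (w : Eis → ℂ) (X : ℝ) (d e f l : Eis) (s : ℂ) :
    dsK Kn w X d e f l s =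
      dp (S X) (fun k => w (d * f * k) * Kn (l * (e * sq3) ^ 2 * f) k) s := rfl

lemma integrable_DIK (Kn : Eis → Eis → ℂ) {M : ℕ} (hM : 1 ≤ M) (σ : ℝ) {X : ℝ} (hX : 0 ≤ X)
    (w : Eis → ℂ) (d e f : Eis) (L : ℝ) :
    Integrable (fun t : ℝ => ((1 + t ^ 2) ^ M)⁻¹ *
      ∑ l ∈ bl L, ‖dsK Kn w X d e f l (σ + t * Complex.I)‖ ^ 2) := by
  have : (fun t : ℝ => ((1 + t ^ 2) ^ M)⁻¹ *
      ∑ l ∈ bl L, ‖dsK Kn w X d e f l (σ + t * Complex.I)‖ ^ 2) =
      fun t : ℝ => ∑ l ∈ bl L, ((1 + t ^ 2) ^ M)⁻¹ *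
        ‖dsK Kn w X d e f l (σ + t * Complex.I)‖ ^ 2 := by
    funext t; rw [Finset.mul_sum]
  rw [this]
  refine integrable_finsetSum _ fun l _ => ?_
  simp only [dsK_eq]
  exact integrable_dp_sqM hM (S X) _ (fun k hk => ((mem_S hX).1 hk).2.1.ne_zero) σ

lemma DIK_nonneg (Kn : Eis → Eis → ℂ) (M : ℕ) (σ : ℝ) (w : Eis → ℂ) (X : ℝ) (d e f : Eis)
    (L : ℝ) : 0 ≤ DIK Kn M σ w X d e f L :=
  integral_nonneg fun t => by positivity

lemma DIRM_eq (M : ℕ) (σ : ℝ) (w : Eis → ℂ) (X : ℝ) (d e f : Eis) (L : ℝ) :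
    PX764.DIRM M σ w X d e f L = DIK PX764.Dk M σ w X d e f L := rfl

/-- integration of the class bound -/
lemma DIK_sum_le {Kn : Eis → Eis → ℂ} {M : ℕ} {A δ : ℝ} (hM1 : 1 ≤ M) (hM : A + 1 ≤ M)
    {w : Eis → ℂ} {X L E : ℝ}
    (hX : 0 ≤ X) {d e : Eis} (Cf : Finset Eis)
    (h : ∀ τ : ℝ, ∑ f ∈ Cf, ∑ l ∈ bl L, ‖dsK Kn w X d e f l (δ + τ * Complex.I)‖ ^ 2 ≤
      E * ((1 + |τ|) ^ A) ^ 2) :
    ∑ f ∈ Cf, DIK Kn M δ w X d e f L ≤ E * IM M A := by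
  unfold DIK IM
  rw [← integral_finsetSum _ fun f _ => integrable_DIK Kn hM1 δ hX w d e f L,
    ← integral_const_mul]
  refine integral_mono (integrable_finsetSum _ fun f _ => integrable_DIK Kn hM1 δ hX w d e f L)
    ((integrable_IM hM).const_mul _) (fun τ => ?_)
  simp only
  rw [← Finset.mul_sum]
  calc ((1 + τ ^ 2) ^ M)⁻¹ * ∑ f ∈ Cf, ∑ l ∈ bl L, ‖dsK Kn w X d e f l (δ + τ * Complex.I)‖ ^ 2
      ≤ ((1 + τ ^ 2) ^ M)⁻¹ * (E * ((1 + |τ|) ^ A) ^ 2) := by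
        have := h τ
        gcongr
    _ = _ := by ring

/-- the dual terms with gcd `d`, character side -/
theorem dual_main_K {Kn : Eis → Eis → ℂ} {κ0 : ℝ} (hKn : KOk Kn κ0) {J : Type} {Φ : Fam J} {R A : ℝ} (hΦ : Φ.Ok R A) {δ Cs : ℝ} (hδ : 0 < δ)
    {M : ℕ} (hM1 : 1 ≤ M) (hM : A + 1 ≤ M) (hCs : 0 ≤ Cs)
    (hs : SplitAt Φ R A δ (1 / 2 - δ) Cs) (j : J) (q : Eis) {d e : Eis} (hd : IsPrim d)
    (he : IsPrim e) {L Dm X K n1 a : ℝ} (hL : 0 ≤ L) (hDm : 0 ≤ Dm) (hK : 0 ≤ K) (ha : 0 ≤ a)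
    (hX1 : 1 ≤ X) (hX : Real.exp (Φ.len j + R) ≤ X)
    (hD : ∀ r : Eis, r ≠ 0 → (nm r : ℝ) ≤ L * (Real.exp 1 * X) → (tau r : ℝ) ≤ Dm)
    (hb : ∀ i : ℕ, (i : ℝ) ≤ Real.log X → ∀ j', Φ.good j' → Φ.dom R j' j →
      Φ.len j' ≤ Φ.len j - (Real.log (nm d) + i) + R →
      Φ.len j - (Real.log (nm d) + i) - R - 1 ≤ Φ.len j' →
      VKn Kn (L * Real.exp (i + 1) * nm ((e * sq3) ^ 2)) (sq (q * d) (Φ.w j')) ≤
        a * Real.exp (i + n1 + Φ.len j') * (Φ.ht j') ^ 2) :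
    ∑ f ∈ S X, K / nm f * DIK Kn M δ (sq q (Φ.w j)) X d e f L ≤
      K * a * Real.exp n1 * (Cs ^ 2 * Real.exp R * IM M A) * Dm * Real.exp (2 * δ * Φ.len j) *
        (Real.log X + 1) * (Φ.ht j) ^ 2 := by
  classical
  have hht : ∀ j, 0 ≤ Φ.ht j := fun j => zero_le_one.trans (hΦ.ht1 j)
  have hX0 : 0 ≤ X := by linarith
  have hlX : 0 ≤ Real.log X := Real.log_nonneg hX1
  have hld := log_nm_nonneg' hd
  set N := ⌊Real.log X⌋₊ with hN
  have hmaps : ∀ f ∈ S X, ⌊Real.log (nm f)⌋₊ ∈ Finset.range (N + 1) := by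
    intro f hf
    have hf' := (mem_S hX0).1 hf
    rw [Finset.mem_range, Nat.lt_succ_iff]
    apply Nat.floor_le_floor
    exact Real.log_le_log (by linarith [one_le_nm' hf'.2.1]) hf'.1
  rw [← Finset.sum_fiberwise_of_maps_to hmaps]
  set Q : ℝ := K * a * Real.exp n1 * (Cs ^ 2 * Real.exp R * IM M A) * Dm *
    Real.exp (2 * δ * Φ.len j) * (Φ.ht j) ^ 2 with hQ
  have hQ0 : 0 ≤ Q := by
    have := IM_nonneg M A
    rw [hQ]; positivity
  have hcls : ∀ i ∈ Finset.range (N + 1),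
      ∑ f ∈ (S X).filter (fun f => ⌊Real.log (nm f)⌋₊ = i),
        K / nm f * DIK Kn M δ (sq q (Φ.w j)) X d e f L ≤ Q := by
    intro i hi
    rw [Finset.mem_range, Nat.lt_succ_iff] at hi
    have hiX : (i : ℝ) ≤ Real.log X := (Nat.cast_le.2 hi).trans (Nat.floor_le hlX)
    set Cf := (S X).filter (fun f => ⌊Real.log (nm f)⌋₊ = i) with hCf
    have hCfm : ∀ f ∈ Cf, IsPrim f ∧ (i : ℝ) ≤ Real.log (nm f) ∧ Real.log (nm f) ≤ i + 1 := by
      intro f hf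
      rw [hCf, Finset.mem_filter, mem_S hX0] at hf
      refine ⟨hf.1.2.1, ?_, ?_⟩
      · rw [← hf.2]; exact Nat.floor_le (log_nm_nonneg' hf.1.2.1)
      · rw [← hf.2]; exact (Nat.lt_floor_add_one _).le
    set α : ℝ := Real.log (nm d) + i with hα
    have hα0 : 0 ≤ α := by positivity
    set B : ℝ := Dm * (a * Real.exp (i + n1 + (Φ.len j - α + R))) with hB
    have hB0 : 0 ≤ B := by positivity
    have hexpi : Real.exp ((i : ℝ) + 1) ≤ Real.exp 1 * X := by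
      rw [add_comm, Real.exp_add]
      apply mul_le_mul_of_nonneg_left _ (Real.exp_pos _).le
      calc Real.exp (i : ℝ) ≤ Real.exp (Real.log X) := Real.exp_le_exp.2 hiX
        _ = X := Real.exp_log (by linarith)
    have hcl := fun τ => class_K hKn hΦ hs j q hd he i hL hDm hB0 τ hCfm hX (by
        intro r hr
        rw [mem_bl (by positivity)] at hr
        exact hD r hr.1 (hr.2.trans (mul_le_mul_of_nonneg_left hexpi hL))) (by
        intro j' hg hdm hl hm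
        have h1 := hb i hiX j' hg hdm hl hm
        have h2 : Real.exp (i + n1 + Φ.len j') ≤ Real.exp (i + n1 + (Φ.len j - α + R)) :=
          Real.exp_le_exp.2 (by linarith)
        have hh := hht j'
        calc Dm * VKn Kn (L * Real.exp (i + 1) * nm ((e * sq3) ^ 2)) (sq (q * d) (Φ.w j'))
            ≤ Dm * (a * Real.exp (i + n1 + Φ.len j') * (Φ.ht j') ^ 2) := by gcongr
          _ ≤ Dm * (a * Real.exp (i + n1 + (Φ.len j - α + R)) * (Φ.ht j') ^ 2) := by gcongr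
          _ = _ := by rw [hB]; ring)
    have hDIM := DIK_sum_le (A := A) (E := (Cs * Real.exp (δ * |α|) *
        Real.exp (-(1 / 2 - δ) * (Φ.len j - α))) ^ 2 * B * (Φ.ht j) ^ 2) hM1 hM
        (w := sq q (Φ.w j)) (L := L) hX0 (d := d) (e := e) (δ := δ) Cf (by
        intro τ
        refine (hcl τ).trans (le_of_eq ?_)
        ring)
    have hstep : ∑ f ∈ Cf, K / nm f * DIK Kn M δ (sq q (Φ.w j)) X d e f L ≤
        K * Real.exp (-(i : ℝ)) * ∑ f ∈ Cf, DIK Kn M δ (sq q (Φ.w j)) X d e f L := by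
      rw [Finset.mul_sum]
      refine Finset.sum_le_sum fun f hf => ?_
      refine mul_le_mul_of_nonneg_right ?_ (DIK_nonneg _ _ _ _ _ _ _ _ _)
      obtain ⟨g1, g2, g3⟩ := hCfm f hf
      have hn := one_le_nm' g1
      rw [div_eq_mul_inv]
      apply mul_le_mul_of_nonneg_left _ hK
      rw [Real.exp_neg]
      apply inv_anti₀ (Real.exp_pos _)
      rw [← Real.exp_log (by linarith : (0 : ℝ) < nm f)]
      exact Real.exp_le_exp.2 g2
    refine hstep.trans ((mul_le_mul_of_nonneg_left hDIM (by positivity)).trans (le_of_eq ?_))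
    rw [hQ, hB, abs_of_nonneg hα0]
    have e1 : (Cs * Real.exp (δ * α) * Real.exp (-(1 / 2 - δ) * (Φ.len j - α))) ^ 2 =
        Cs ^ 2 * (Real.exp (δ * α + (-(1 / 2 - δ) * (Φ.len j - α)))) ^ 2 := by
      rw [Real.exp_add]; ring
    rw [e1, ← Real.exp_nat_mul]
    have e2 : Real.exp (-(i : ℝ)) * (Real.exp (((2 : ℕ) : ℝ) *
        (δ * α + (-(1 / 2 - δ) * (Φ.len j - α)))) * Real.exp (i + n1 + (Φ.len j - α + R))) =
        Real.exp n1 * Real.exp R * Real.exp (2 * δ * Φ.len j) := by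
      rw [← Real.exp_add, ← Real.exp_add, ← Real.exp_add, ← Real.exp_add]
      congr 1
      push_cast
      ring
    calc K * Real.exp (-(i : ℝ)) * (Cs ^ 2 * Real.exp (((2 : ℕ) : ℝ) *
        (δ * α + (-(1 / 2 - δ) * (Φ.len j - α)))) *
          (Dm * (a * Real.exp (i + n1 + (Φ.len j - α + R)))) * (Φ.ht j) ^ 2 * IM M A)
        = K * a * Cs ^ 2 * Dm * (Φ.ht j) ^ 2 * IM M A * (Real.exp (-(i : ℝ)) *
          (Real.exp (((2 : ℕ) : ℝ) * (δ * α + (-(1 / 2 - δ) * (Φ.len j - α)))) *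
          Real.exp (i + n1 + (Φ.len j - α + R)))) := by ring
      _ = _ := by rw [e2]; ring
  refine (Finset.sum_le_sum hcls).trans ?_
  rw [Finset.sum_const, Finset.card_range, nsmul_eq_mul]
  have hNX : ((N + 1 : ℕ) : ℝ) ≤ Real.log X + 1 := by
    push_cast
    linarith [Nat.floor_le hlX]
  calc ((N + 1 : ℕ) : ℝ) * Q ≤ (Real.log X + 1) * Q := by gcongr
    _ = _ := by rw [hQ]; ring

end Crest.Agent.R017.PE241
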