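import Crest.Agent.R017.PE2_241

/-!
# Row 17, exceptional class: the rule (P_ex) for closed families, part 3 (helper241)
-/

set_option autoImplicit false

noncomputable section

open Complex MeasureTheory
open scoped ComplexConjugate

namespace Crest.Agent.R017.PE241

open Crest.Agent.R012 Crest.Agent.R012.Eis Crest.Agent.R012.LS2 Crest.Agent.R012.Gauss880
open Crest.Agent.R012.Div277 Crest.Agent.R012.CR2
open Crest.Agent.R012.MelSep811 (dp)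
open Crest.Agent.R017.PA842 (V Supp)
open Crest.Agent.R017.CM106 (CS TG FS)
open Crest.Agent.R017.TP320

set_option maxHeartbeats 1000000

/-- the trivial bound of one dual sum -/
lemma dsK_triv {Kn : Eis → Eis → ℂ} {κ0 : ℝ} (hKn : KOk Kn κ0) (hκ : 0 ≤ κ0) {δ : ℝ} (hδ : 0 < δ)
    {X B0 : ℝ} (hX : 1 ≤ X) (hB0 : 0 ≤ B0) {w : Eis → ℂ} (hw : Supp w X)
    (hwb : ∀ h, ‖w h‖ ≤ B0 * (nm h : ℝ) ^ δ) {d e f l : Eis} (he : e ≠ 0) (hf : f ≠ 0)
    (hl : l ≠ 0) (t : ℝ) :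
    ‖dsK Kn w X d e f l (δ + t * Complex.I)‖ ^ 2 ≤
      16 * X * (κ0 ^ 2 * B0 ^ 2 * (X ^ δ) ^ 4 * ∑ k ∈ S X, (1 / (nm k : ℝ))) := by
  have hX0 : 0 ≤ X := by linarith
  have hr : l * (e * sq3) ^ 2 * f ≠ 0 :=
    mul_ne_zero (mul_ne_zero hl (pow_ne_zero 2 (mul_ne_zero he (by decide)))) hf
  have h1 : ‖dsK Kn w X d e f l (δ + t * Complex.I)‖ ≤
      ∑ k ∈ S X, (κ0 * (B0 * X ^ δ)) * (nm k : ℝ) ^ (δ - 1 / 2) := by
    unfold dsK
    refine (norm_sum_le _ _).trans (Finset.sum_le_sum fun k hk => ?_)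
    have hk' := (mem_S hX0).1 hk
    rw [norm_mul, norm_mul]
    have h2 : ‖(nm k : ℂ) ^ ((δ + t * Complex.I : ℂ) - 1 / 2)‖ = (nm k : ℝ) ^ (δ - 1 / 2) := by
      rw [Complex.norm_natCast_cpow_of_pos (nm_pos.2 hk'.2.1.ne_zero)]
      congr 1
      simp
    rw [h2]
    refine mul_le_mul_of_nonneg_right ?_ (by positivity)
    have hw1 : ‖w (d * f * k)‖ ≤ B0 * X ^ δ := by
      by_cases h0 : w (d * f * k) = 0
      · rw [h0, norm_zero]; positivity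
      · have h1 := (mem_S hX0).1 (hw _ h0)
        exact (hwb _).trans (mul_le_mul_of_nonneg_left
          (Real.rpow_le_rpow (Nat.cast_nonneg _) h1.1 hδ.le) hB0)
    calc ‖w (d * f * k)‖ * ‖Kn (l * (e * sq3) ^ 2 * f) k‖ ≤ (B0 * X ^ δ) * κ0 :=
          mul_le_mul hw1 (hKn.b _ _ hr hk'.2.1) (norm_nonneg _) (by positivity)
      _ = _ := by ring
  calc ‖dsK Kn w X d e f l (δ + t * Complex.I)‖ ^ 2 ≤
        (∑ k ∈ S X, (κ0 * (B0 * X ^ δ)) * (nm k : ℝ) ^ (δ - 1 / 2)) ^ 2 :=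
          pow_le_pow_left₀ (norm_nonneg _) h1 2
    _ ≤ ((S X).card : ℝ) * ∑ k ∈ S X, ((κ0 * (B0 * X ^ δ)) * (nm k : ℝ) ^ (δ - 1 / 2)) ^ 2 :=
          sq_sum_le_card_mul_sum_sq
    _ ≤ (16 * X) * (κ0 ^ 2 * B0 ^ 2 * (X ^ δ) ^ 4 * ∑ k ∈ S X, (1 / (nm k : ℝ))) := by
          refine mul_le_mul (card_S_le hX0) ?_ (Finset.sum_nonneg fun _ _ => by positivity)
            (by positivity)
          rw [Finset.mul_sum]
          refine Finset.sum_le_sum fun k hk => ?_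
          have hk' := (mem_S hX0).1 hk
          have hk0 : (0 : ℝ) < nm k := by exact_mod_cast nm_pos.2 hk'.2.1.ne_zero
          have e1 : ((nm k : ℝ) ^ (δ - 1 / 2)) ^ 2 = (nm k : ℝ) ^ (2 * δ) * (1 / nm k) := by
            rw [← Real.rpow_natCast, ← Real.rpow_mul hk0.le]
            have : (δ - 1 / 2) * ((2 : ℕ) : ℝ) = 2 * δ - 1 := by push_cast; ring
            rw [this, Real.rpow_sub_one hk0.ne']
            ring
          have e2 : (nm k : ℝ) ^ (2 * δ) ≤ (X ^ δ) ^ 2 := by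
            calc (nm k : ℝ) ^ (2 * δ) ≤ X ^ (2 * δ) :=
                  Real.rpow_le_rpow hk0.le hk'.1 (by positivity)
              _ = (X ^ δ) ^ 2 := by
                  rw [← Real.rpow_natCast, ← Real.rpow_mul hX0]
                  congr 1; push_cast; ring
          rw [mul_pow, e1]
          calc (κ0 * (B0 * X ^ δ)) ^ 2 * ((nm k : ℝ) ^ (2 * δ) * (1 / nm k))
              ≤ (κ0 * (B0 * X ^ δ)) ^ 2 * ((X ^ δ) ^ 2 * (1 / nm k)) := by gcongr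
            _ = _ := by ring

open Classical in
/-- the trivial bound for the dual terms -/
theorem dual_trivial_K {Kn : Eis → Eis → ℂ} {κ0 : ℝ} (hKn : KOk Kn κ0) {δ : ℝ} (hδ : 0 < δ)
    {M : ℕ} (hM : 1 ≤ M) (hκ : 1 ≤ κ0) :
    ∃ C : ℝ, 1 ≤ C ∧ ∀ X K Y B0 : ℝ, 1 ≤ X → 1 ≤ K → 1 ≤ Y → 0 ≤ B0 → ∀ w : Eis → ℂ, Supp w X →
    (∀ h, ‖w h‖ ≤ B0 * (nm h : ℝ) ^ δ) →
    ∀ (D : Finset Eis) (De : Eis → Finset Eis), (∀ d ∈ D, IsPrim d ∧ (nm d : ℝ) ≤ Y) →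
      (∀ d ∈ D, ∀ e ∈ De d, IsPrim e ∧ (nm e : ℝ) ≤ nm d) →
    ∑ d ∈ D, ∑ e ∈ De d, ∑ f ∈ S X, K / nm f * DIK Kn M δ w X d e f (Lde X K δ d e) ≤
      C * (X * K) ^ δ * X ^ (6 * δ) * Y ^ 3 * B0 ^ 2 * (K * X + X ^ 3) := by
  obtain ⟨Ch, hCh, hh⟩ := harm_le hδ
  set I0 : ℝ := ∫ t : ℝ, ((1 + t ^ 2) ^ M)⁻¹ with hI0
  have hI00 : 0 ≤ I0 := integral_nonneg fun t => by positivity
  refine ⟨65536 * (I0 + 1) * Ch ^ 2 * κ0 ^ 2, by
    have h1 : 1 ≤ Ch ^ 2 := one_le_pow₀ hCh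
    have h2 : 1 ≤ κ0 ^ 2 := one_le_pow₀ hκ
    have h3 : 1 ≤ 65536 * (I0 + 1) := by linarith
    exact one_le_mul_of_one_le_of_one_le (one_le_mul_of_one_le_of_one_le h3 h1) h2, fun X K Y B0 hX hK hY hB0 w hw hwb D De hD hDe => ?_⟩
  have hX0 : 0 ≤ X := by linarith
  have hK0 : 0 ≤ K := by linarith
  set H : ℝ := ∑ k ∈ S X, (1 / (nm k : ℝ)) with hH
  have hH0 : 0 ≤ H := Finset.sum_nonneg fun _ _ => by positivity
  have hH1 : H ≤ Ch * X ^ δ := hh X hX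
  have hXd : 0 < X ^ δ := Real.rpow_pos_of_pos (by linarith) _
  -- one term
  set E : ℝ := I0 * 256 * (κ0 ^ 2 * B0 ^ 2 * (X ^ δ) ^ 4 * H) * X with hE
  have hE0 : 0 ≤ E := by positivity
  have hterm : ∀ d ∈ D, ∀ e ∈ De d, ∀ f ∈ S X,
      K / nm f * DIK Kn M δ w X d e f (Lde X K δ d e) ≤
        K * Lde X K δ d e * E * (1 / (nm f : ℝ)) := by
    intro d hd e he f hf
    have hd' := hD d hd
    have hf' := (mem_S hX0).1 hf
    have hd1 := one_le_nm' hd'.1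
    have hf1 := one_le_nm' hf'.2.1
    have hL0 : 0 ≤ Lde X K δ d e := PA842.Lde_nonneg hX0 hK0 _ _ _
    have h1 : DIK Kn M δ w X d e f (Lde X K δ d e) ≤
        I0 * (16 * Lde X K δ d e * (16 * X * (κ0 ^ 2 * B0 ^ 2 * (X ^ δ) ^ 4 * H))) := by
      unfold DIK
      rw [hI0, ← integral_mul_const]
      refine integral_mono (integrable_DIK Kn hM δ hX0 w d e f _)
        ((PM106.integrable_kerM hM).mul_const _) (fun t => ?_)
      refine mul_le_mul_of_nonneg_left ?_ (by positivity)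
      calc ∑ l ∈ bl (Lde X K δ d e), ‖dsK Kn w X d e f l (δ + t * Complex.I)‖ ^ 2
          ≤ ∑ l ∈ bl (Lde X K δ d e), 16 * X * (κ0 ^ 2 * B0 ^ 2 * (X ^ δ) ^ 4 * H) := by
            refine Finset.sum_le_sum fun l hl => ?_
            exact dsK_triv hKn (by linarith) hδ hX hB0 hw hwb (hDe d hd e he).1.ne_zero
              hf'.2.1.ne_zero ((mem_bl hL0).1 hl).1 t
        _ = (bl (Lde X K δ d e)).card * (16 * X * (κ0 ^ 2 * B0 ^ 2 * (X ^ δ) ^ 4 * H)) := by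
            rw [Finset.sum_const, nsmul_eq_mul]
        _ ≤ 16 * Lde X K δ d e * (16 * X * (κ0 ^ 2 * B0 ^ 2 * (X ^ δ) ^ 4 * H)) :=
            mul_le_mul_of_nonneg_right (card_bl_le hL0) (by positivity)
    calc K / nm f * DIK Kn M δ w X d e f (Lde X K δ d e)
        ≤ K / nm f * (I0 * (16 * Lde X K δ d e * (16 * X * (κ0 ^ 2 * B0 ^ 2 * (X ^ δ) ^ 4 * H)))) := by
          gcongr
      _ = _ := by rw [hE]; ring
  -- the length
  have hL : ∀ d ∈ D, ∀ e ∈ De d, K * Lde X K δ d e ≤ (X * K) ^ δ * (K + Y * X ^ 2) := by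
    intro d hd e he
    have hd' := hD d hd
    have he' := hDe d hd e he
    have hd1 := one_le_nm' hd'.1
    have he1 := one_le_nm' he'.1
    unfold Lde
    have h1 : (nm e : ℝ) * X ^ 2 / ((nm d : ℝ) ^ 2 * K) ≤ Y * X ^ 2 / K := by
      rw [div_le_div_iff₀ (by positivity) (by linarith)]
      have : (nm e : ℝ) ≤ Y * (nm d : ℝ) ^ 2 := by
        calc (nm e : ℝ) ≤ Y := he'.2.trans hd'.2
          _ ≤ Y * (nm d : ℝ) ^ 2 := by nlinarith [pow_two_nonneg ((nm d : ℝ) - 1)]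
      calc (nm e : ℝ) * X ^ 2 * K ≤ (Y * (nm d : ℝ) ^ 2) * X ^ 2 * K := by gcongr
        _ = _ := by ring
    calc K * ((X * K) ^ δ * (1 + (nm e : ℝ) * X ^ 2 / ((nm d : ℝ) ^ 2 * K)))
        ≤ K * ((X * K) ^ δ * (1 + Y * X ^ 2 / K)) := by gcongr
      _ = _ := by field_simp
  have hfin : ∀ d ∈ D, ∀ e ∈ De d, ∑ f ∈ S X, K / nm f * DIK Kn M δ w X d e f (Lde X K δ d e) ≤
      (X * K) ^ δ * (K + Y * X ^ 2) * E * H := by
    intro d hd e he
    refine (Finset.sum_le_sum (hterm d hd e he)).trans ?_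
    rw [← Finset.mul_sum]
    have := hL d hd e he
    gcongr
  have hcardD : (D.card : ℝ) ≤ 16 * Y := by
    have : D ⊆ bl Y := fun d hd => (mem_bl (by linarith)).2 ⟨(hD d hd).1.ne_zero, (hD d hd).2⟩
    exact le_trans (by exact_mod_cast Finset.card_le_card this) (card_bl_le (by linarith))
  have hcardE : ∀ d ∈ D, ((De d).card : ℝ) ≤ 16 * Y := by
    intro d hd
    have : De d ⊆ bl Y := fun e he => (mem_bl (by linarith)).2 ⟨(hDe d hd e he).1.ne_zero,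
      (hDe d hd e he).2.trans (hD d hd).2⟩
    exact le_trans (by exact_mod_cast Finset.card_le_card this) (card_bl_le (by linarith))
  set Q : ℝ := (X * K) ^ δ * (K + Y * X ^ 2) * E * H with hQ
  have hQ0 : 0 ≤ Q := by positivity
  calc ∑ d ∈ D, ∑ e ∈ De d, ∑ f ∈ S X, K / nm f * DIK Kn M δ w X d e f (Lde X K δ d e)
      ≤ ∑ d ∈ D, ∑ e ∈ De d, Q := Finset.sum_le_sum fun d hd => Finset.sum_le_sum (hfin d hd)
    _ ≤ ∑ d ∈ D, 16 * Y * Q := by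
        refine Finset.sum_le_sum fun d hd => ?_
        rw [Finset.sum_const, nsmul_eq_mul]
        exact mul_le_mul_of_nonneg_right (hcardE d hd) hQ0
    _ = D.card * (16 * Y * Q) := by rw [Finset.sum_const, nsmul_eq_mul]
    _ ≤ (16 * Y) * (16 * Y * Q) := by gcongr
    _ = 65536 * I0 * κ0 ^ 2 * (X * K) ^ δ * (X ^ δ) ^ 4 * H ^ 2 * Y ^ 2 * B0 ^ 2 *
          (K * X + Y * X ^ 3) := by rw [hQ, hE]; ring
    _ ≤ 65536 * (I0 + 1) * κ0 ^ 2 * (X * K) ^ δ * (X ^ δ) ^ 4 * (Ch * X ^ δ) ^ 2 * Y ^ 2 * B0 ^ 2 *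
          (Y * (K * X + X ^ 3)) := by
        gcongr
        · linarith
        · have : 0 ≤ K * X := by positivity
          nlinarith
    _ = 65536 * (I0 + 1) * Ch ^ 2 * κ0 ^ 2 * (X * K) ^ δ * ((X ^ δ) ^ 6) * Y ^ 3 * B0 ^ 2 *
          (K * X + X ^ 3) := by ring
    _ = _ := by
        have : X ^ (6 * δ) = (X ^ δ) ^ 6 := by
          rw [← Real.rpow_natCast, ← Real.rpow_mul hX0]
          congr 1; push_cast; ring
        rw [this]

end Crest.Agent.R017.PE241
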