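import Crest.Agent.R017.PG1_106

/-!
# Row 17: exponentially weighted sums from sums over balls (helper106)

* `exp_le_of_balls` : `∑' n, exp (-nm n / Z) f n ≤ f 0 + ∑' j, cw j * ∑ n ∈ bl (2^j Z), f n`
* `exp_le` : `(∀ j, ∑ n ∈ bl (2^j Z), f n ≤ B * 16^j) → ∑' n, exp (-nm n / Z) f n ≤ f 0 + cK * B`
* `VGe_le`, `VCe_le`
-/

set_option autoImplicit false

noncomputable section

open MeasureTheory Finset
open scoped ComplexConjugate

namespace Crest.Agent.R017.PG106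

open Crest.Agent.R012
open Eis CharSum852 Gauss880 Tau671 Mob705 LS2 CR2 DualIneq811 MelSep811
open Crest.Agent.R017.PA842 (V Supp V_nonneg summable_V Lde_nonneg)
open Crest.Agent.R017.CM106 (CS TG FS sub)
open Crest.Agent.R017.TP320 (VC VG)

/-- weight of the `j`-th ball -/
def cw (j : ℕ) : ℝ := Real.exp (1 / 2) * Real.exp (-(2 : ℝ) ^ j / 2)

lemma cw_pos (j : ℕ) : 0 < cw j := by unfold cw; positivity

lemma summable_cw : Summable (fun j : ℕ => cw j * (16 : ℝ) ^ j) := by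
  have h1 : ∀ j : ℕ, cw j * (16 : ℝ) ^ j ≤
      (Real.exp (1 / 2) * (2 ^ 5 * (Nat.factorial 5 : ℝ))) * (1 / 2) ^ j := by
    intro j
    unfold cw
    have h2 : (2 : ℝ) ^ (j : ℕ) / 2 ≥ 0 := by positivity
    have h3 : ((2 : ℝ) ^ j / 2) ^ 5 / (Nat.factorial 5 : ℝ) ≤ Real.exp ((2 : ℝ) ^ j / 2) :=
      Real.pow_div_factorial_le_exp _ h2 5
    have h4 : Real.exp (-(2 : ℝ) ^ j / 2) = (Real.exp ((2 : ℝ) ^ j / 2))⁻¹ := by
      rw [← Real.exp_neg]; congr 1; ring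
    rw [h4, mul_assoc, mul_assoc]
    refine mul_le_mul_of_nonneg_left ?_ (Real.exp_pos _).le
    rw [inv_mul_le_iff₀ (Real.exp_pos _)]
    have h5 : (0 : ℝ) < (Nat.factorial 5 : ℝ) := by positivity
    calc (16 : ℝ) ^ j = (((2 : ℝ) ^ j / 2) ^ 5 / (Nat.factorial 5 : ℝ)) *
          (2 ^ 5 * (Nat.factorial 5 : ℝ) * (1 / 2) ^ j) := by
          have h6 : (16 : ℝ) ^ j = ((2 : ℝ) ^ j) ^ 5 * (1 / 2) ^ j := by
            rw [← pow_mul, mul_comm j 5, pow_mul, ← mul_pow]; norm_num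
          rw [h6]; field_simp
      _ ≤ Real.exp ((2 : ℝ) ^ j / 2) * (2 ^ 5 * (Nat.factorial 5 : ℝ) * (1 / 2) ^ j) := by
          gcongr
  refine Summable.of_nonneg_of_le (fun j => by have := cw_pos j; positivity) h1 ?_
  exact (summable_geometric_of_lt_one (by norm_num) (by norm_num)).mul_left _

/-- the constant -/
def cK : ℝ := ∑' j : ℕ, cw j * (16 : ℝ) ^ j

lemma cK_nonneg : 0 ≤ cK := tsum_nonneg fun j => by have := cw_pos j; positivity

/-- pointwise comparison of the weights -/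
lemma exp_le_cw {Z x : ℝ} (hZ : 0 < Z) (hx : 0 ≤ x) : ∃ j : ℕ, x ≤ 2 ^ j * Z ∧
    Real.exp (-x / Z) ≤ cw j := by
  by_cases h0 : x ≤ Z
  · refine ⟨0, by simpa using h0, ?_⟩
    unfold cw
    rw [← Real.exp_add]
    apply Real.exp_le_exp.2
    have : 0 ≤ x / Z := by positivity
    rw [neg_div]
    norm_num
    linarith
  · push Not at h0
    obtain ⟨m, hm⟩ : ∃ m : ℕ, x / Z ≤ 2 ^ m := by
      obtain ⟨m, hm⟩ := pow_unbounded_of_one_lt (x / Z) (one_lt_two (α := ℝ))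
      exact ⟨m, hm.le⟩
    classical
    have hex : ∃ m : ℕ, x / Z ≤ 2 ^ m := ⟨m, hm⟩
    set j := Nat.find hex with hj
    have hj1 : x / Z ≤ 2 ^ j := Nat.find_spec hex
    have h1 : 1 < x / Z := by rwa [lt_div_iff₀ hZ, one_mul]
    have hj0 : j ≠ 0 := by
      intro h
      rw [h] at hj1
      simp at hj1
      linarith
    have hj2 : ¬ x / Z ≤ 2 ^ (j - 1) := Nat.find_min hex (Nat.sub_lt (Nat.pos_of_ne_zero hj0) one_pos)
    refine ⟨j, by rw [div_le_iff₀ hZ] at hj1; exact hj1, ?_⟩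
    unfold cw
    rw [← Real.exp_add]
    apply Real.exp_le_exp.2
    push Not at hj2
    have e1 : (2 : ℝ) ^ j = 2 * 2 ^ (j - 1) := by
      rw [← pow_succ']; congr 1; omega
    rw [neg_div, e1]
    linarith

theorem exp_le_of_balls {Z : ℝ} (hZ : 0 < Z) {f : Eis → ℝ} (hf : ∀ n, 0 ≤ f n)
    (hs : Summable fun j : ℕ => cw j * ∑ n ∈ bl (2 ^ j * Z), f n) :
    Summable (fun n : Eis => Real.exp (-(nm n : ℝ) / Z) * f n) ∧
    ∑' n : Eis, Real.exp (-(nm n : ℝ) / Z) * f n ≤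
      f 0 + ∑' j : ℕ, cw j * ∑ n ∈ bl (2 ^ j * Z), f n := by
  classical
  have key : ∀ s : Finset Eis, ∑ n ∈ s, Real.exp (-(nm n : ℝ) / Z) * f n ≤
      f 0 + ∑' j : ℕ, cw j * ∑ n ∈ bl (2 ^ j * Z), f n := by
    intro s
    choose j hj1 hj2 using fun n : Eis => exp_le_cw hZ (Nat.cast_nonneg (nm n) : (0 : ℝ) ≤ nm n)
    have h1 : ∑ n ∈ s, Real.exp (-(nm n : ℝ) / Z) * f n ≤
        f 0 + ∑ n ∈ s.erase 0, Real.exp (-(nm n : ℝ) / Z) * f n := by
      by_cases h0 : (0 : Eis) ∈ s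
      · rw [← Finset.add_sum_erase _ _ h0]
        have hn0 : nm (0 : Eis) = 0 := nm_eq_zero.2 rfl
        rw [hn0]
        simp
      · rw [Finset.erase_eq_of_notMem h0]
        linarith [hf 0]
    refine h1.trans (add_le_add_right ?_ _)
    set t := s.erase 0 with ht
    have h2 : ∑ n ∈ t, Real.exp (-(nm n : ℝ) / Z) * f n ≤
        ∑ i ∈ t.image j, ∑ n ∈ t.filter (fun n => j n = i), cw i * f n := by
      rw [← Finset.sum_fiberwise_of_maps_to (s := t) (t := t.image j) (g := j)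
        (fun n hn => Finset.mem_image_of_mem j hn)]
      refine Finset.sum_le_sum fun i _ => Finset.sum_le_sum fun n hn => ?_
      have := (Finset.mem_filter.1 hn).2
      subst this
      exact mul_le_mul_of_nonneg_right (hj2 n) (hf n)
    refine h2.trans ?_
    have h3 : ∀ i ∈ t.image j, ∑ n ∈ t.filter (fun n => j n = i), cw i * f n ≤
        cw i * ∑ n ∈ bl (2 ^ i * Z), f n := by
      intro i _
      rw [← Finset.mul_sum]
      refine mul_le_mul_of_nonneg_left ?_ (cw_pos i).le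
      refine Finset.sum_le_sum_of_subset_of_nonneg ?_ (fun n _ _ => hf n)
      intro n hn
      rw [Finset.mem_filter, ht, Finset.mem_erase] at hn
      rw [mem_bl (by positivity)]
      refine ⟨hn.1.1, ?_⟩
      have := hj1 n
      rw [hn.2] at this
      exact this
    refine (Finset.sum_le_sum h3).trans ?_
    exact hs.sum_le_tsum _ fun i _ => mul_nonneg (cw_pos i).le
      (Finset.sum_nonneg fun n _ => hf n)
  have hnn : ∀ n : Eis, 0 ≤ Real.exp (-(nm n : ℝ) / Z) * f n := fun n =>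
    mul_nonneg (Real.exp_pos _).le (hf n)
  have hsum : Summable (fun n : Eis => Real.exp (-(nm n : ℝ) / Z) * f n) :=
    summable_of_sum_le hnn key
  exact ⟨hsum, hsum.tsum_le_of_sum_le key⟩

theorem exp_le {Z B : ℝ} (hZ : 0 < Z) {f : Eis → ℝ} (hf : ∀ n, 0 ≤ f n)
    (h : ∀ j : ℕ, ∑ n ∈ bl (2 ^ j * Z), f n ≤ B * 16 ^ j) :
    ∑' n : Eis, Real.exp (-(nm n : ℝ) / Z) * f n ≤ f 0 + cK * B := by
  have h1 : ∀ j : ℕ, cw j * ∑ n ∈ bl (2 ^ j * Z), f n ≤ B * (cw j * 16 ^ j) := fun j => by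
    calc cw j * ∑ n ∈ bl (2 ^ j * Z), f n ≤ cw j * (B * 16 ^ j) :=
          mul_le_mul_of_nonneg_left (h j) (cw_pos j).le
      _ = _ := by ring
  have hs2 : Summable fun j : ℕ => B * (cw j * 16 ^ j) := summable_cw.mul_left B
  have hs : Summable fun j : ℕ => cw j * ∑ n ∈ bl (2 ^ j * Z), f n :=
    Summable.of_nonneg_of_le (fun j => mul_nonneg (cw_pos j).le
      (Finset.sum_nonneg fun n _ => hf n)) h1 hs2
  refine (exp_le_of_balls hZ hf hs).2.trans (add_le_add_right ?_ _)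
  calc ∑' j : ℕ, cw j * ∑ n ∈ bl (2 ^ j * Z), f n ≤ ∑' j : ℕ, B * (cw j * 16 ^ j) :=
        hs.tsum_le_tsum h1 hs2
    _ = cK * B := by rw [tsum_mul_left, mul_comm]; rfl

lemma TG_zero {w : Eis → ℂ} (hw : FS w) : ‖TG w 0‖ ≤ ‖w 1‖ := by
  have e1 : TG w 0 = w 1 * (G 1 * conj (sy 0 1)) := by
    unfold TG
    refine tsum_eq_single 1 fun m hm => ?_
    by_cases h0 : w m = 0
    · rw [h0, zero_mul]
    have hp := hw.prim m h0
    have : sy 0 m = 0 := by
      refine (syG.eq_zero 0 m hp).2 fun hc => hm ?_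
      have hu : IsUnit m := isCoprime_zero_left.1 hc
      exact hp.eq_of_associated isPrim_one (associated_one_iff_isUnit.2 hu)
    rw [this, map_zero, mul_zero, mul_zero]
  rw [e1, norm_mul]
  refine mul_le_of_le_one_right (norm_nonneg _) ?_
  exact CM106.norm_Gsy_le isPrim_one

lemma CS_zero {w : Eis → ℂ} (hw : FS w) : ‖CS w 0‖ ≤ ‖w 1‖ := by
  have e1 : CS w 0 = w 1 * sy 0 1 := by
    unfold CS
    refine tsum_eq_single 1 fun m hm => ?_
    by_cases h0 : w m = 0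
    · rw [h0, zero_mul]
    have hp := hw.prim m h0
    have : sy 0 m = 0 := by
      refine (syG.eq_zero 0 m hp).2 fun hc => hm ?_
      have hu : IsUnit m := isCoprime_zero_left.1 hc
      exact hp.eq_of_associated isPrim_one (associated_one_iff_isUnit.2 hu)
    rw [this, mul_zero]
  rw [e1, norm_mul]
  exact mul_le_of_le_one_right (norm_nonneg _) (CM106.norm_sy_le' isPrim_one)

theorem VGe_le {Z B : ℝ} (hZ : 0 < Z) {w : Eis → ℂ} (hw : FS w)
    (h : ∀ j : ℕ, VG (2 ^ j * Z) w ≤ B * 16 ^ j) : VGe Z w ≤ ‖w 1‖ ^ 2 + cK * B := by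
  refine (exp_le hZ (f := fun n => ‖TG w n‖ ^ 2) (fun _ => by positivity) h).trans ?_
  refine add_le_add_left ?_ _
  exact pow_le_pow_left₀ (norm_nonneg _) (TG_zero hw) 2

theorem VCe_le {Z B : ℝ} (hZ : 0 < Z) {w : Eis → ℂ} (hw : FS w)
    (h : ∀ j : ℕ, VC (2 ^ j * Z) w ≤ B * 16 ^ j) : VCe Z w ≤ ‖w 1‖ ^ 2 + cK * B := by
  refine (exp_le hZ (f := fun n => ‖CS w n‖ ^ 2) (fun _ => by positivity) h).trans ?_
  refine add_le_add_left ?_ _
  exact pow_le_pow_left₀ (norm_nonneg _) (CS_zero hw) 2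

/-- the large common divisors on the Gauss side, from a bound over the multiples of `g` -/
theorem VGg_le {Z B : ℝ} (hZ : 0 < Z) {w : Eis → ℂ} (hw : FS w) {g : Eis} (hg : IsPrim g)
    (h : ∀ j : ℕ, ∑ n ∈ bl (2 ^ j * Z), ‖TG (sub w g) (n * g)‖ ^ 2 ≤ B * 16 ^ j) :
    VGg Z w g ≤ ‖w g‖ ^ 2 + cK * B := by
  refine (exp_le hZ (f := fun n => ‖TG (sub w g) (n * g)‖ ^ 2) (fun _ => by positivity) h).trans ?_
  refine add_le_add_left ?_ _
  rw [zero_mul]
  refine (pow_le_pow_left₀ (norm_nonneg _) (TG_zero (hw.sub hg)) 2).trans (le_of_eq ?_)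
  unfold sub
  rw [mul_one]

end Crest.Agent.R017.PG106
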