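import Crest.Agent.R017.PA3_842

/-!
# Row 17, rule (P): the one-step inequality with kernel `((1 + t²)^M)⁻¹` (helper106)

Same as `PA842.one_step` (helper842), `MelSep811.mellin_sep`, `DualIneq811.one_def` (helper811), the
only new input is `norm_Gamma_le_pow : ‖Γ(σ+it)‖ ≤ Γ(σ+2M) / σ^(2M) * ((1+t²)^M)⁻¹`, `0 < σ ≤ 1`.

* `DIM M σ w X g e f L = ∫ ((1+t²)^M)⁻¹ * Σ_{l ∈ bl L} ‖dsum w X g e f l (σ+it)‖²`
* `one_stepM`
-/

set_option autoImplicit false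

noncomputable section

open MeasureTheory Finset
open scoped ComplexConjugate

namespace Crest.Agent.R017.PM106

open Crest.Agent.R012
open Eis CharSum852 Gauss880 Tau671 Mob705 LS2 CR2 DualIneq811 MelSep811
open Crest.Agent.R017.PA842
open Div277 (tau dvs mem_dvs tau_le_rpow)

/-! ### the Gamma function -/

lemma norm_ge {σ σ' : ℝ} (hσ : 0 < σ) (hσ1 : σ ≤ 1) (h : σ ≤ σ') (t : ℝ) :
    σ * Real.sqrt (1 + t ^ 2) ≤ ‖(σ' : ℂ) + t * Complex.I‖ := by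
  refine le_of_sq_le_sq ?_ (norm_nonneg _)
  rw [MellinExp448.norm_sq_ge, mul_pow, Real.sq_sqrt (by positivity)]
  have h1 : σ ^ 2 ≤ σ' ^ 2 := by gcongr
  have h2 : σ ^ 2 * t ^ 2 ≤ 1 * t ^ 2 := by
    apply mul_le_mul_of_nonneg_right _ (sq_nonneg t)
    nlinarith
  nlinarith

lemma norm_Gamma_aux {σ : ℝ} (hσ : 0 < σ) (hσ1 : σ ≤ 1) (t : ℝ) (n : ℕ) : ∀ σ' : ℝ, σ ≤ σ' →
    ‖Complex.Gamma (σ' + t * Complex.I)‖ * (σ * Real.sqrt (1 + t ^ 2)) ^ n ≤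
      Real.Gamma (σ' + n) := by
  induction n with
  | zero =>
    intro σ' h
    have hre : ((σ' : ℂ) + t * Complex.I).re = σ' := by simp
    have := MellinExp448.norm_Gamma_le_re (s := (σ' : ℂ) + t * Complex.I) (by rw [hre]; linarith)
    rw [hre] at this
    simpa using this
  | succ n ih =>
    intro σ' h
    have h1 := norm_ge hσ hσ1 h t
    have hs0 : (σ' : ℂ) + t * Complex.I ≠ 0 := by
      intro h0
      rw [h0, norm_zero] at h1
      have : 0 < σ * Real.sqrt (1 + t ^ 2) := by positivity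
      linarith
    have h2 := ih (σ' + 1) (by linarith)
    have e1 : (((σ' + 1 : ℝ) : ℂ) + t * Complex.I) = (σ' : ℂ) + t * Complex.I + 1 := by
      push_cast; ring
    rw [e1, Complex.Gamma_add_one _ hs0, norm_mul] at h2
    have h3 : 0 ≤ (σ * Real.sqrt (1 + t ^ 2)) ^ n := by positivity
    have h4 : 0 ≤ ‖Complex.Gamma (σ' + t * Complex.I)‖ := norm_nonneg _
    calc ‖Complex.Gamma (σ' + t * Complex.I)‖ * (σ * Real.sqrt (1 + t ^ 2)) ^ (n + 1)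
        = ‖Complex.Gamma (σ' + t * Complex.I)‖ * (σ * Real.sqrt (1 + t ^ 2)) *
          (σ * Real.sqrt (1 + t ^ 2)) ^ n := by ring
      _ ≤ ‖Complex.Gamma (σ' + t * Complex.I)‖ * ‖(σ' : ℂ) + t * Complex.I‖ *
          (σ * Real.sqrt (1 + t ^ 2)) ^ n := by gcongr
      _ = ‖(σ' : ℂ) + t * Complex.I‖ * ‖Complex.Gamma (σ' + t * Complex.I)‖ *
          (σ * Real.sqrt (1 + t ^ 2)) ^ n := by ring
      _ ≤ _ := h2
      _ = _ := by push_cast; ring_nf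

/-- `‖Γ(σ+it)‖ ≤ Γ(σ+2M) / σ^(2M) * ((1+t²)^M)⁻¹` -/
lemma norm_Gamma_le_pow {σ : ℝ} (hσ : 0 < σ) (hσ1 : σ ≤ 1) (M : ℕ) (t : ℝ) :
    ‖Complex.Gamma (σ + t * Complex.I)‖ ≤
      Real.Gamma (σ + 2 * M) / σ ^ (2 * M) * ((1 + t ^ 2) ^ M)⁻¹ := by
  have h := norm_Gamma_aux hσ hσ1 t (2 * M) σ le_rfl
  have e1 : (σ * Real.sqrt (1 + t ^ 2)) ^ (2 * M) = σ ^ (2 * M) * (1 + t ^ 2) ^ M := by
    rw [mul_pow, pow_mul (Real.sqrt (1 + t ^ 2)), Real.sq_sqrt (by positivity)]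
  rw [e1] at h
  push_cast at h
  have hp : 0 < σ ^ (2 * M) * (1 + t ^ 2) ^ M := by positivity
  rw [← div_eq_mul_inv, div_div, le_div_iff₀ hp]
  exact h

/-- the constant of `mellin_sepM`. -/
def csigM (M : ℕ) (σ : ℝ) : ℝ := (2 * Real.pi)⁻¹ * (Real.Gamma (σ + 2 * M) / σ ^ (2 * M))

lemma csigM_pos (M : ℕ) {σ : ℝ} (hσ : 0 < σ) : 0 < csigM M σ := by
  have : 0 < Real.Gamma (σ + 2 * M) := Real.Gamma_pos_of_pos (by positivity)
  unfold csigM; positivity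

lemma kerM_le {M : ℕ} (hM : 1 ≤ M) (t : ℝ) : ((1 + t ^ 2) ^ M)⁻¹ ≤ (1 + t ^ 2)⁻¹ := by
  have h1 : 1 ≤ 1 + t ^ 2 := by nlinarith [sq_nonneg t]
  apply inv_anti₀ (by positivity)
  calc 1 + t ^ 2 = (1 + t ^ 2) ^ 1 := (pow_one _).symm
    _ ≤ (1 + t ^ 2) ^ M := pow_le_pow_right₀ h1 hM

lemma continuous_kerM (M : ℕ) : Continuous (fun t : ℝ => ((1 + t ^ 2) ^ M)⁻¹) := by
  apply Continuous.inv₀ (by fun_prop)
  intro t
  positivity

lemma integrable_kerM {M : ℕ} (hM : 1 ≤ M) : Integrable (fun t : ℝ => ((1 + t ^ 2) ^ M)⁻¹) := by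
  refine integrable_inv_one_add_sq.mono' (continuous_kerM M).aestronglyMeasurable
    (Filter.Eventually.of_forall fun t => ?_)
  rw [Real.norm_of_nonneg (by positivity)]
  exact kerM_le hM t

lemma integrable_dp_sqM {M : ℕ} (hM : 1 ≤ M) (K : Finset Eis) (β : Eis → ℂ)
    (hK : ∀ k ∈ K, k ≠ 0) (σ : ℝ) :
    Integrable (fun t : ℝ => ((1 + t ^ 2) ^ M)⁻¹ * ‖dp K β ((σ : ℂ) + t * Complex.I)‖ ^ 2) := by
  refine (integrable_kerM hM).mul_bdd
    (c := (∑ k ∈ K, ‖β k‖ * (nm k : ℝ) ^ (σ - 1 / 2)) ^ 2)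
    (((continuous_dp K β hK σ).norm.pow 2).aestronglyMeasurable)
    (Filter.Eventually.of_forall fun t => ?_)
  rw [Real.norm_eq_abs, abs_of_nonneg (by positivity)]
  gcongr
  exact norm_dp_le K β hK σ t

/-- **Mellin separation.** -/
theorem mellin_sepM {M : ℕ} (hM : 1 ≤ M) (K : Finset Eis) (β : Eis → ℂ) (hK : ∀ k ∈ K, k ≠ 0) {σ y : ℝ} (hσ : 0 < σ)
    (hσ1 : σ ≤ 1) (hy : 0 < y) :
    ‖∑ k1 ∈ K, ∑ k2 ∈ K, (β k1 * (nm k1 : ℂ) ^ (-(1 / 2) : ℂ)) *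
        conj (β k2 * (nm k2 : ℂ) ^ (-(1 / 2) : ℂ)) *
        ((Real.exp (-(y / ((nm k1 : ℝ) * (nm k2 : ℝ)))) : ℝ) : ℂ)‖ ≤
      csigM M σ * y ^ (-σ) * ∫ t : ℝ, ((1 + t ^ 2) ^ M)⁻¹ * ‖dp K β ((σ : ℂ) + t * Complex.I)‖ ^ 2 := by
  rw [MelSep811.mellin_exact K β hK hσ hy, norm_mul]
  have hG : 0 < Real.Gamma (σ + 2 * M) := Real.Gamma_pos_of_pos (by positivity)
  set g : ℝ → ℝ := fun t => ((1 + t ^ 2) ^ M)⁻¹ * ‖dp K β ((σ : ℂ) + t * Complex.I)‖ ^ 2 with hg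
  have hgi : Integrable g := integrable_dp_sqM hM K β hK σ
  have hgn : Integrable (fun t => g (-t)) := hgi.comp_neg
  have hbd : ∀ t : ℝ, ‖Complex.Gamma ((σ : ℂ) + t * Complex.I) * (y : ℂ) ^ (-((σ : ℂ) + t * Complex.I)) *
          (dp K β ((σ : ℂ) + t * Complex.I) * conj (dp K β ((σ : ℂ) + (-t : ℝ) * Complex.I)))‖ ≤
      (Real.Gamma (σ + 2 * M) / σ ^ (2 * M) * y ^ (-σ) / 2) * (g t + g (-t)) := by
    intro t
    rw [norm_mul, norm_mul, norm_mul, RCLike.norm_conj, Complex.norm_cpow_eq_rpow_re_of_pos hy]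
    have hre : (-((σ : ℂ) + t * Complex.I)).re = -σ := by simp
    rw [hre]
    set A := ‖dp K β ((σ : ℂ) + t * Complex.I)‖
    set B := ‖dp K β ((σ : ℂ) + (-t : ℝ) * Complex.I)‖ with hB
    have hAB : A * B ≤ (A ^ 2 + B ^ 2) / 2 := by nlinarith [sq_nonneg (A - B)]
    have h1 := norm_Gamma_le_pow hσ hσ1 M t
    have hgB : g (-t) = ((1 + t ^ 2) ^ M)⁻¹ * B ^ 2 := by
      simp only [hg, hB]; rw [neg_sq]
    have hgA : g t = ((1 + t ^ 2) ^ M)⁻¹ * A ^ 2 := rfl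
    have hy0 : 0 ≤ y ^ (-σ) := by positivity
    calc ‖Complex.Gamma ((σ : ℂ) + t * Complex.I)‖ * y ^ (-σ) * (A * B)
        ≤ (Real.Gamma (σ + 2 * M) / σ ^ (2 * M) * ((1 + t ^ 2) ^ M)⁻¹) * y ^ (-σ) * ((A ^ 2 + B ^ 2) / 2) := by
          gcongr
      _ = _ := by rw [hgA, hgB]; ring
  have h2 : ‖∫ t : ℝ, Complex.Gamma ((σ : ℂ) + t * Complex.I) * (y : ℂ) ^ (-((σ : ℂ) + t * Complex.I)) *
          (dp K β ((σ : ℂ) + t * Complex.I) * conj (dp K β ((σ : ℂ) + (-t : ℝ) * Complex.I)))‖ ≤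
      Real.Gamma (σ + 2 * M) / σ ^ (2 * M) * y ^ (-σ) * ∫ t, g t := by
    refine (norm_integral_le_of_norm_le ((hgi.add hgn).const_mul _)
      (Filter.Eventually.of_forall hbd)).trans (le_of_eq ?_)
    rw [integral_const_mul]
    have : ∫ t, (g + fun t => g (-t)) t = (∫ t, g t) + ∫ t, g (-t) := integral_add hgi hgn
    rw [this, integral_neg_eq_self]
    ring
  have h3 : ‖(((1 / (2 * Real.pi) : ℝ)) : ℂ)‖ = (2 * Real.pi)⁻¹ := by
    rw [Complex.norm_real, Real.norm_eq_abs, abs_of_pos (by positivity), one_div]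
  rw [h3]
  calc (2 * Real.pi)⁻¹ * _ ≤ (2 * Real.pi)⁻¹ *
        (Real.Gamma (σ + 2 * M) / σ ^ (2 * M) * y ^ (-σ) * ∫ t, g t) := by gcongr
    _ = _ := by unfold csigM; ring


/-! ### the dual inequality -/

/-- the small frequencies -/
lemma norm_qf_leM {M : ℕ} (hM : 1 ≤ M) {X Z σ : ℝ} (hX : 0 ≤ X) (hZ : 0 < Z) (hσ : 0 < σ) (hσ1 : σ ≤ 1) {w : Eis → ℂ}
    (hw : ∀ h, w h ≠ 0 → h ∈ S X) {d e f l : Eis} (he : e ≠ 0) (hf : f ∈ S X) (hl : l ≠ 0) :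
    ‖qf w X Z d e f l‖ ≤ csigM M σ * ((nm f : ℝ)⁻¹ * (nm e * (nm f : ℝ) ^ 2 / Z) ^ σ) *
      ((nm l : ℝ) ^ (-σ) *
        ∫ t : ℝ, ((1 + t ^ 2) ^ M)⁻¹ * ‖dsum w X d e f l (σ + t * Complex.I)‖ ^ 2) := by
  have hf' := (mem_S hX).1 hf
  have ne : (0 : ℝ) < nm e := by exact_mod_cast nm_pos.2 he
  have nf : (0 : ℝ) < nm f := by exact_mod_cast nm_pos.2 hf'.2.1.ne_zero
  have nl : (0 : ℝ) < nm l := by exact_mod_cast nm_pos.2 hl
  have hy : 0 < yy Z e f l := by unfold yy; positivity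
  rw [qf_eq hX hw he hf l, norm_mul, Complex.norm_real, Real.norm_eq_abs,
    abs_of_nonneg (by positivity)]
  have h1 := mellin_sepM hM (S X) (bet w d e f l) (fun k hk => ((mem_S hX).1 hk).2.1.ne_zero) hσ hσ1 hy
  have h2 : yy Z e f l ^ (-σ) ≤ (nm e * (nm f : ℝ) ^ 2 / Z) ^ σ * (nm l : ℝ) ^ (-σ) := by
    have e1 : yy Z e f l = (4 * Real.pi ^ 2 / 3) * ((nm e * (nm f : ℝ) ^ 2 / Z)⁻¹ * nm l) := by
      unfold yy; field_simp
    rw [e1, Real.mul_rpow (by positivity) (by positivity),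
      Real.mul_rpow (by positivity) (by positivity), Real.inv_rpow (by positivity),
      Real.rpow_neg (by positivity) σ, Real.rpow_neg (x := nm e * (nm f : ℝ) ^ 2 / Z)
      (by positivity), inv_inv]
    have h3 : (4 * Real.pi ^ 2 / 3) ^ σ ≥ 1 := by
      apply Real.one_le_rpow _ hσ.le
      have := Real.pi_gt_three
      nlinarith
    have h4 : ((4 * Real.pi ^ 2 / 3) ^ σ)⁻¹ ≤ 1 := inv_le_one_of_one_le₀ h3
    calc ((4 * Real.pi ^ 2 / 3) ^ σ)⁻¹ * ((nm e * (nm f : ℝ) ^ 2 / Z) ^ σ * (nm l : ℝ) ^ (-σ))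
        ≤ 1 * ((nm e * (nm f : ℝ) ^ 2 / Z) ^ σ * (nm l : ℝ) ^ (-σ)) := by gcongr
      _ = _ := one_mul _
  have hI : 0 ≤ ∫ t : ℝ, ((1 + t ^ 2) ^ M)⁻¹ * ‖dp (S X) (bet w d e f l) ((σ : ℂ) + t * Complex.I)‖ ^ 2 :=
    integral_nonneg fun t => by positivity
  have hc := csigM_pos M hσ
  calc ‖Ue e l f‖ ^ 2 * _ ≤ (nm f : ℝ)⁻¹ * (csigM M σ * yy Z e f l ^ (-σ) *
        ∫ t : ℝ, ((1 + t ^ 2) ^ M)⁻¹ * ‖dp (S X) (bet w d e f l) ((σ : ℂ) + t * Complex.I)‖ ^ 2) := by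
        gcongr
        · exact norm_Ue_sq_le e l hf'.2.1
    _ ≤ (nm f : ℝ)⁻¹ * (csigM M σ * ((nm e * (nm f : ℝ) ^ 2 / Z) ^ σ * (nm l : ℝ) ^ (-σ)) *
        ∫ t : ℝ, ((1 + t ^ 2) ^ M)⁻¹ * ‖dp (S X) (bet w d e f l) ((σ : ℂ) + t * Complex.I)‖ ^ 2) := by
        gcongr
    _ = _ := by simp only [dsum_eq]; ring

lemma integrable_dsumM {M : ℕ} (hM : 1 ≤ M) {X : ℝ} (hX : 0 ≤ X) (w : Eis → ℂ) (d e f l : Eis) (σ : ℝ) :
    Integrable (fun t : ℝ => ((1 + t ^ 2) ^ M)⁻¹ * ‖dsum w X d e f l (σ + t * Complex.I)‖ ^ 2) := by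
  simp only [dsum_eq]
  exact integrable_dp_sqM hM (S X) _ (fun k hk => ((mem_S hX).1 hk).2.1.ne_zero) σ

open Classical in
/-- one `(d, e, f)` -/
lemma one_defM {M : ℕ} (hM : 1 ≤ M) {X Z σ ε : ℝ} (hX : 1 ≤ X) (hZ : 1 ≤ Z) (hσ : 0 < σ) (hσ1 : σ ≤ 1) {w : Eis → ℂ}
    (hw : ∀ h, w h ≠ 0 → h ∈ S X) {d e f : Eis} (he : e ≠ 0) (hf : f ∈ S X) :
    ‖∑' l : Eis, (if l = 0 then 0 else qf w X Z d e f l)‖ ≤
      csigM M σ * ((nm f : ℝ)⁻¹ * (nm e * (nm f : ℝ) ^ 2 / Z) ^ σ) *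
        (∫ t : ℝ, ((1 + t ^ 2) ^ M)⁻¹ * ∑ l ∈ bl (Lde X Z ε d e),
            (nm l : ℝ) ^ (-σ) * ‖dsum w X d e f l (σ + t * Complex.I)‖ ^ 2) +
      ‖∑' l : Eis, (if l = 0 ∨ (nm l : ℝ) ≤ Lde X Z ε d e then 0 else qf w X Z d e f l)‖ := by
  have hX0 : (0 : ℝ) ≤ X := by linarith
  have hZ0 : (0 : ℝ) < Z := by linarith
  have hL : 0 ≤ Lde X Z ε d e := by unfold Lde; positivity
  have hsum := summable_qf syG hX0 hZ0 w (d := d) he hf
  set L := Lde X Z ε d e with hLd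
  have e1 : ∀ l : Eis, (if l = 0 then 0 else qf w X Z d e f l) =
      (if l ∈ bl L then qf w X Z d e f l else 0) +
      (if l = 0 ∨ (nm l : ℝ) ≤ L then 0 else qf w X Z d e f l) := by
    intro l
    by_cases h0 : l = 0
    · rw [if_pos h0, if_pos (Or.inl h0), if_neg, add_zero]
      intro h; exact ((mem_bl hL).1 h).1 h0
    · rw [if_neg h0]
      by_cases h1 : (nm l : ℝ) ≤ L
      · rw [if_pos (Or.inr h1), if_pos ((mem_bl hL).2 ⟨h0, h1⟩), add_zero]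
      · rw [if_neg (fun h => h1 ((mem_bl hL).1 h).2), zero_add,
          if_neg (fun h => h.elim h0 h1)]
  have s1 : Summable (fun l : Eis => if l ∈ bl L then qf w X Z d e f l else 0) :=
    summable_of_ne_finset_zero (s := bl L) (fun l hl => if_neg hl)
  have s2 : Summable (fun l : Eis => if l = 0 ∨ (nm l : ℝ) ≤ L then 0 else qf w X Z d e f l) := by
    refine Summable.of_norm_bounded hsum.norm (fun l => ?_)
    split_ifs
    · rw [norm_zero]; exact norm_nonneg _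
    · exact le_rfl
  rw [tsum_congr e1, s1.tsum_add s2]
  refine (norm_add_le _ _).trans (add_le_add_left ?_ _)
  have e2 : ∑' l : Eis, (if l ∈ bl L then qf w X Z d e f l else 0) =
      ∑ l ∈ bl L, qf w X Z d e f l := by
    rw [tsum_eq_sum (s := bl L) (fun l hl => if_neg hl)]
    exact Finset.sum_congr rfl fun l hl => if_pos hl
  rw [e2]
  refine (norm_sum_le _ _).trans ?_
  have e3 : ∫ t : ℝ, ((1 + t ^ 2) ^ M)⁻¹ * ∑ l ∈ bl L,
            (nm l : ℝ) ^ (-σ) * ‖dsum w X d e f l (σ + t * Complex.I)‖ ^ 2 =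
      ∑ l ∈ bl L, (nm l : ℝ) ^ (-σ) *
        ∫ t : ℝ, ((1 + t ^ 2) ^ M)⁻¹ * ‖dsum w X d e f l (σ + t * Complex.I)‖ ^ 2 := by
    simp_rw [Finset.mul_sum]
    rw [integral_finsetSum]
    · refine Finset.sum_congr rfl fun l _ => ?_
      rw [← integral_const_mul]
      congr 1
      funext t; ring
    · intro l _
      have := (integrable_dsumM hM hX0 w d e f l σ).const_mul ((nm l : ℝ) ^ (-σ))
      refine this.congr (Filter.Eventually.of_forall fun t => ?_)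
      simp only; ring
  rw [e3, Finset.mul_sum]
  exact Finset.sum_le_sum fun l hl => norm_qf_leM hM hX0 hZ0 hσ hσ1 hw he hf ((mem_bl hL).1 hl).1


/-! ### one step -/

/-- the dual term -/
def DIM (M : ℕ) (σ : ℝ) (w : Eis → ℂ) (X : ℝ) (g e f : Eis) (L : ℝ) : ℝ :=
  ∫ t : ℝ, ((1 + t ^ 2) ^ M)⁻¹ * ∑ l ∈ bl L, ‖dsum w X g e f l (σ + t * Complex.I)‖ ^ 2

lemma integrable_DIM {M : ℕ} (hM : 1 ≤ M) (σ : ℝ) {X : ℝ} (hX : 0 ≤ X) (w : Eis → ℂ) (g e f : Eis) (L : ℝ) :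
    Integrable (fun t : ℝ => ((1 + t ^ 2) ^ M)⁻¹ *
      ∑ l ∈ bl L, ‖dsum w X g e f l (σ + t * Complex.I)‖ ^ 2) := by
  have : (fun t : ℝ => ((1 + t ^ 2) ^ M)⁻¹ *
      ∑ l ∈ bl L, ‖dsum w X g e f l (σ + t * Complex.I)‖ ^ 2) =
      fun t : ℝ => ∑ l ∈ bl L, ((1 + t ^ 2) ^ M)⁻¹ * ‖dsum w X g e f l (σ + t * Complex.I)‖ ^ 2 := by
    funext t; rw [Finset.mul_sum]
  rw [this]
  exact integrable_finsetSum _ fun l _ => integrable_dsumM hM hX w g e f l σ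

lemma DIM_nonneg (M : ℕ) (σ : ℝ) (w : Eis → ℂ) (X : ℝ) (g e f : Eis) (L : ℝ) : 0 ≤ DIM M σ w X g e f L :=
  integral_nonneg fun t => by positivity

lemma DIM_mono {M : ℕ} (hM : 1 ≤ M) (σ : ℝ) {X : ℝ} (hX : 0 ≤ X) (w : Eis → ℂ) (g e f : Eis) {L L' : ℝ}
    (hL0 : 0 ≤ L) (hL : L ≤ L') : DIM M σ w X g e f L ≤ DIM M σ w X g e f L' := by
  unfold DIM
  refine integral_mono (integrable_DIM hM σ hX w g e f L) (integrable_DIM hM σ hX w g e f L')
    (fun t => ?_)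
  refine mul_le_mul_of_nonneg_left ?_ (by positivity)
  refine Finset.sum_le_sum_of_subset_of_nonneg ?_ (fun _ _ _ => by positivity)
  intro l hl
  rw [mem_bl hL0] at hl
  rw [mem_bl (by linarith)]
  exact ⟨hl.1, hl.2.trans hL⟩

open Classical in
/-- **the one-step inequality** -/
theorem one_stepM {σ ε : ℝ} (hσ : 0 < σ) (hσ1 : σ ≤ 1 / 2) (hε : 0 < ε) {M : ℕ} (hM : 1 ≤ M) :
    ∃ C : ℝ, 1 ≤ C ∧ ∀ X Z Y : ℝ, 1 ≤ X → 1 ≤ Z → ∀ w : Eis → ℂ, Supp w X →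
    V X Z w ≤ C * Z * ∑ h ∈ S X, ‖w h‖ ^ 2 +
      C * X ^ (3 * σ) * ∑ d ∈ (S X).filter (fun d => (nm d : ℝ) ≤ Y),
        ∑ e ∈ (S X).filter (· ∣ d), ∑ f ∈ S X, Z / nm f * DIM M σ w X d e f (Lde X Z ε d e) +
      ∑ g ∈ (S X).filter (fun g => Y < (nm g : ℝ)), (tau g : ℝ) * V (X / nm g) Z (sub w g) := by
  obtain ⟨Ct, hCt, htail⟩ := tailLe ε hε
  have h3 : 0 < Real.sqrt 3 := by positivity
  have hπ := Real.pi_pos
  have hcs := csigM_pos M hσ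
  set κ : ℝ := 2 * Real.pi / Real.sqrt 3 with hκ
  have hκ0 : 0 < κ := by positivity
  refine ⟨1 + κ + Ct + κ * csigM M σ, by nlinarith [mul_pos hκ0 hcs], ?_⟩
  intro X Z Y hX hZ w hw
  have hX0 : (0 : ℝ) ≤ X := by linarith
  have hZ0 : (0 : ℝ) < Z := by linarith
  set A := (S X).filter (fun d => (nm d : ℝ) ≤ Y) with hA
  set B := (S X).filter (fun d => Y < (nm d : ℝ)) with hB
  set W := ∑ h ∈ S X, ‖w h‖ ^ 2 with hW
  have hW0 : 0 ≤ W := Finset.sum_nonneg fun _ _ => by positivity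
  -- the decomposition
  have hsplit : V X Z w ≤ ∑ d ∈ A, ‖TD X Z w d‖ + ∑ d ∈ B, ‖TD X Z w d‖ := by
    have e1 := V_eq_sum_TD hX0 hZ0 w
    have e2 : V X Z w = ‖((V X Z w : ℝ) : ℂ)‖ := by
      rw [Complex.norm_real, Real.norm_of_nonneg (V_nonneg _ _ _)]
    rw [e2, e1]
    refine (norm_sum_le _ _).trans ?_
    have e3 : ∑ d ∈ S X, ‖TD X Z w d‖ = ∑ d ∈ A, ‖TD X Z w d‖ + ∑ d ∈ B, ‖TD X Z w d‖ := by
      rw [← Finset.sum_filter_add_sum_filter_not (S X) (fun d => (nm d : ℝ) ≤ Y)]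
      congr 1
      apply Finset.sum_congr _ fun _ _ => rfl
      rw [hB]
      apply Finset.filter_congr
      intro d _
      exact not_le
    rw [e3]
  -- large gcd
  have hBle : ∑ d ∈ B, ‖TD X Z w d‖ ≤ ∑ g ∈ B, (tau g : ℝ) * V (X / nm g) Z (sub w g) := by
    have e1 : ∑ d ∈ B, ‖TD X Z w d‖ ≤ ∑ d ∈ B,
        ∑ f ∈ (S X).filter (fun f => d * f ∈ S X), V X Z (restr w (d * f)) :=
      Finset.sum_le_sum fun d hd => norm_TD_le_V hX0 hZ0 w (Finset.mem_filter.1 hd).1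
    refine e1.trans ((sum_pairs_le (Y := Y) hX0 (fun g => V X Z (restr w g))
      (fun g => V_nonneg _ _ _)).trans ?_)
    refine Finset.sum_le_sum fun g hg => ?_
    refine mul_le_mul_of_nonneg_left ?_ (Nat.cast_nonneg _)
    exact V_restr_le hX0 hZ0 hw ((mem_S hX0).1 (Finset.mem_filter.1 hg).1).2.1
  -- small gcd
  have hAle : ∑ d ∈ A, ‖TD X Z w d‖ ≤ κ * Z * W + Ct * Z * W + κ * csigM M σ * X ^ (3 * σ) *
      ∑ d ∈ A, ∑ e ∈ (S X).filter (· ∣ d), ∑ f ∈ S X, Z / nm f *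
        DIM M σ w X d e f (Lde X Z ε d e) := by
    have e1 : ∑ d ∈ A, ‖TD X Z w d‖ ≤ ∑ d ∈ A, (κ * Z * ‖w d‖ ^ 2 +
        ∑ e ∈ pdiv d, ∑ f ∈ S X, 2 * Real.pi * Z / (Real.sqrt 3 * nm e) *
          ‖∑' l : Eis, if l = 0 then 0 else qf w X Z d e f l‖) := by
      refine Finset.sum_le_sum fun d hd => ?_
      have := norm_TD_le_dual hX hZ0 w (Finset.mem_filter.1 hd).1
      have e : 2 * Real.pi * Z / Real.sqrt 3 = κ * Z := by rw [hκ]; ring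
      rw [e] at this
      exact this
    refine e1.trans ?_
    rw [Finset.sum_add_distrib]
    have e2 : ∑ d ∈ A, κ * Z * ‖w d‖ ^ 2 ≤ κ * Z * W := by
      rw [← Finset.mul_sum]
      refine mul_le_mul_of_nonneg_left ?_ (mul_nonneg hκ0.le hZ0.le)
      exact Finset.sum_le_sum_of_subset_of_nonneg (Finset.filter_subset _ _)
        (fun _ _ _ => sq_nonneg _)
    have e3 : ∑ d ∈ A, ∑ e ∈ pdiv d, ∑ f ∈ S X, 2 * Real.pi * Z / (Real.sqrt 3 * nm e) *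
          ‖∑' l : Eis, if l = 0 then 0 else qf w X Z d e f l‖ ≤
        κ * csigM M σ * X ^ (3 * σ) *
        (∑ d ∈ A, ∑ e ∈ (S X).filter (· ∣ d), ∑ f ∈ S X, Z / nm f *
          DIM M σ w X d e f (Lde X Z ε d e)) + Ct * Z * W := by
      have f1 : ∀ d ∈ A, ∀ e ∈ pdiv d, ∀ f ∈ S X, 2 * Real.pi * Z / (Real.sqrt 3 * nm e) *
          ‖∑' l : Eis, if l = 0 then 0 else qf w X Z d e f l‖ ≤
          κ * csigM M σ * X ^ (3 * σ) * (Z / nm f * DIM M σ w X d e f (Lde X Z ε d e)) +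
          2 * Real.pi * Z / (Real.sqrt 3 * nm e) *
          ‖∑' l : Eis, (if l = 0 ∨ (nm l : ℝ) ≤ Lde X Z ε d e then 0 else qf w X Z d e f l)‖ := by
        intro d hd e he f hf
        have hd' := (mem_S hX0).1 (Finset.mem_filter.1 hd).1
        have he' := (mem_pdiv hd'.2.1.ne_zero).1 he
        have hf' := (mem_S hX0).1 hf
        have ne1 : (1 : ℝ) ≤ nm e := by exact_mod_cast nm_pos.2 he'.1.ne_zero
        have nf1 : (1 : ℝ) ≤ nm f := by exact_mod_cast nm_pos.2 hf'.2.1.ne_zero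
        have nfX : (nm f : ℝ) ≤ X := hf'.1
        have neX : (nm e : ℝ) ≤ X := by
          refine le_trans ?_ hd'.1
          exact_mod_cast Div277.nm_le_of_dvd hd'.2.1.ne_zero he'.2
        have g1 := one_defM hM hX hZ hσ (by linarith) (ε := ε) hw (d := d) he'.1.ne_zero hf
        have hc0 : 0 ≤ 2 * Real.pi * Z / (Real.sqrt 3 * nm e) :=
          div_nonneg (mul_nonneg (mul_nonneg (by norm_num) hπ.le) hZ0.le)
            (mul_nonneg h3.le (Nat.cast_nonneg _))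
        refine (mul_le_mul_of_nonneg_left g1 hc0).trans ?_
        rw [mul_add]
        refine add_le_add_left ?_ _
        have hL0 : 0 ≤ Lde X Z ε d e := Lde_nonneg hX0 hZ0.le _ _ _
        have g2 : (∫ t : ℝ, ((1 + t ^ 2) ^ M)⁻¹ * ∑ l ∈ bl (Lde X Z ε d e),
            (nm l : ℝ) ^ (-σ) * ‖dsum w X d e f l (σ + t * Complex.I)‖ ^ 2) ≤
            DIM M σ w X d e f (Lde X Z ε d e) := by
          unfold DIM
          refine integral_mono ?_ (integrable_DIM hM σ hX0 w d e f _) (fun t => ?_)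
          · have : (fun t : ℝ => ((1 + t ^ 2) ^ M)⁻¹ * ∑ l ∈ bl (Lde X Z ε d e),
                (nm l : ℝ) ^ (-σ) * ‖dsum w X d e f l (σ + t * Complex.I)‖ ^ 2) =
                fun t : ℝ => ∑ l ∈ bl (Lde X Z ε d e), (nm l : ℝ) ^ (-σ) *
                  (((1 + t ^ 2) ^ M)⁻¹ * ‖dsum w X d e f l (σ + t * Complex.I)‖ ^ 2) := by
              funext t; rw [Finset.mul_sum]
              refine Finset.sum_congr rfl fun l _ => by ring
            rw [this]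
            exact integrable_finsetSum _ fun l _ => (integrable_dsumM hM hX0 w d e f l σ).const_mul _
          · refine mul_le_mul_of_nonneg_left ?_ (by positivity)
            refine Finset.sum_le_sum fun l hl => ?_
            have hl' := (mem_bl hL0).1 hl
            have : (1 : ℝ) ≤ nm l := by exact_mod_cast nm_pos.2 hl'.1
            have h1 : (nm l : ℝ) ^ (-σ) ≤ 1 := Real.rpow_le_one_of_one_le_of_nonpos this (by linarith)
            calc _ ≤ 1 * ‖dsum w X d e f l (σ + t * Complex.I)‖ ^ 2 := by gcongr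
              _ = _ := one_mul _
        have g3 : (nm e * (nm f : ℝ) ^ 2 / Z) ^ σ ≤ X ^ (3 * σ) := by
          rw [Real.rpow_mul hX0]
          apply Real.rpow_le_rpow (by positivity) _ hσ.le
          calc nm e * (nm f : ℝ) ^ 2 / Z ≤ nm e * (nm f : ℝ) ^ 2 := div_le_self (by positivity) hZ
            _ ≤ X * X ^ 2 := by gcongr
            _ = X ^ (3 : ℝ) := by
              rw [show (3 : ℝ) = ((3 : ℕ) : ℝ) by norm_num, Real.rpow_natCast]; ring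
        exact aux_term hZ0.le ne1 (lt_of_lt_of_le one_pos nf1) hcs.le
          (Real.rpow_nonneg (div_nonneg (mul_nonneg (by linarith) (sq_nonneg _)) hZ0.le) _) g3
          (integral_nonneg fun t => mul_nonneg (inv_nonneg.2 (by positivity))
            (Finset.sum_nonneg fun l _ => mul_nonneg (Real.rpow_nonneg (Nat.cast_nonneg _) _)
              (sq_nonneg _))) g2
      have f2 : ∑ d ∈ A, ∑ e ∈ pdiv d, ∑ f ∈ S X, 2 * Real.pi * Z / (Real.sqrt 3 * nm e) *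
          ‖∑' l : Eis, if l = 0 then 0 else qf w X Z d e f l‖ ≤
          ∑ d ∈ A, ∑ e ∈ pdiv d, ∑ f ∈ S X,
            (κ * csigM M σ * X ^ (3 * σ) * (Z / nm f * DIM M σ w X d e f (Lde X Z ε d e)) +
          2 * Real.pi * Z / (Real.sqrt 3 * nm e) *
          ‖∑' l : Eis, (if l = 0 ∨ (nm l : ℝ) ≤ Lde X Z ε d e then 0 else qf w X Z d e f l)‖) :=
        Finset.sum_le_sum fun d hd => Finset.sum_le_sum fun e he => Finset.sum_le_sum
          fun f hf => f1 d hd e he f hf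
      refine f2.trans ?_
      simp_rw [Finset.sum_add_distrib]
      refine add_le_add ?_ ?_
      · simp_rw [← Finset.mul_sum]
        refine mul_le_mul_of_nonneg_left ?_
          (mul_nonneg (mul_nonneg hκ0.le hcs.le) (Real.rpow_nonneg hX0 _))
        refine Finset.sum_le_sum fun d hd => ?_
        refine Finset.sum_le_sum_of_subset_of_nonneg (pdiv_subset hX0 (Finset.mem_filter.1 hd).1)
          (fun e _ _ => ?_)
        exact Finset.sum_nonneg fun f _ => mul_nonneg (div_nonneg hZ0.le (Nat.cast_nonneg _))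
          (DIM_nonneg _ _ _ _ _ _ _ _)
      · refine le_trans ?_ (htail X Z hX hZ w)
        refine Finset.sum_le_sum_of_subset_of_nonneg (Finset.filter_subset _ _) (fun d _ _ => ?_)
        refine Finset.sum_nonneg fun e _ => Finset.sum_nonneg fun f _ => ?_
        exact mul_nonneg (div_nonneg (mul_nonneg (mul_nonneg (by norm_num) hπ.le) hZ0.le)
          (mul_nonneg h3.le (Nat.cast_nonneg _))) (norm_nonneg _)
    linarith
  have hD0 : 0 ≤ ∑ d ∈ A, ∑ e ∈ (S X).filter (· ∣ d), ∑ f ∈ S X, Z / nm f *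
      DIM M σ w X d e f (Lde X Z ε d e) :=
    Finset.sum_nonneg fun d _ => Finset.sum_nonneg fun e _ => Finset.sum_nonneg fun f _ =>
      mul_nonneg (div_nonneg hZ0.le (Nat.cast_nonneg _)) (DIM_nonneg _ _ _ _ _ _ _ _)
  set DD := ∑ d ∈ A, ∑ e ∈ (S X).filter (· ∣ d), ∑ f ∈ S X, Z / nm f *
      DIM M σ w X d e f (Lde X Z ε d e) with hDD
  have hXs : 0 < X ^ (3 * σ) := Real.rpow_pos_of_pos (by linarith) _
  have hVV : 0 ≤ ∑ g ∈ B, (tau g : ℝ) * V (X / nm g) Z (sub w g) :=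
    Finset.sum_nonneg fun g _ => mul_nonneg (Nat.cast_nonneg _) (V_nonneg _ _ _)
  exact aux_final hκ0 hCt.le hcs.le hZ0.le hW0 hXs.le hD0 hsplit hAle hBle


end Crest.Agent.R017.PM106
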