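import Crest.Agent.R017.PMBb_521
import Crest.Agent.R017.PMBj_401

/-!
# Row 17, E2: Poisson - merge (helper521), part 3: the other order

* `cjF Φ`, `cjF_ok`  : the conjugate family is closed
* `bl_le_prim`       : a sum over all nonzero `r`, `nm r ≤ K`, by primary parts
* `P_ruleB2`         : the block bound with the roles of `B` and of the frequency exchanged
-/

set_option autoImplicit false

noncomputable section

open Complex MeasureTheory
open scoped ComplexConjugate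

namespace Crest.Agent.R017.PMB521

open Crest.Agent.R012 Crest.Agent.R012.Eis Crest.Agent.R012.LS2 Crest.Agent.R012.Gauss880
open Crest.Agent.R012.Div277 Crest.Agent.R012.CR2
open Crest.Agent.R017.PA842 (V Supp)
open Crest.Agent.R017.CM106 (CS TG FS)
open Crest.Agent.R017.TP320
open Crest.Agent.R017.PMB401 (cj cj_apply norm_cj cj_ne FS_cj norm_CS_conj_symm sum_CS_conj_symm)

set_option maxHeartbeats 1000000

/-! ### the conjugate family -/

/-- conjugation of vectors -/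
def cjE {ι : Type} (x : EuclideanSpace ℂ ι) : EuclideanSpace ℂ ι :=
  WithLp.toLp 2 (fun i => conj (x i))

lemma cjE_apply {ι : Type} (x : EuclideanSpace ℂ ι) (i : ι) : cjE x i = conj (x i) := rfl

lemma norm_cjE {ι : Type} [Fintype ι] (x : EuclideanSpace ℂ ι) : ‖cjE x‖ = ‖x‖ := by
  rw [EuclideanSpace.norm_eq, EuclideanSpace.norm_eq]
  simp only [cjE_apply, RCLike.norm_conj]

lemma cjE_sum {ι κ : Type} [Fintype ι] (T : Finset κ) (c : κ → ℂ) (v : κ → EuclideanSpace ℂ ι) :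
    cjE (∑ p ∈ T, c p • v p) = ∑ p ∈ T, conj (c p) • cjE (v p) := by
  ext i
  rw [cjE_apply]
  simp only [WithLp.ofLp_sum, Finset.sum_apply, PiLp.smul_apply, smul_eq_mul, map_sum, map_mul,
    cjE_apply]

lemma cjE_cjE {ι : Type} (x : EuclideanSpace ℂ ι) : cjE (cjE x) = x := by
  ext i
  simp [cjE_apply]

lemma conj_tw (s0 τ : ℝ) (b : Eis) : conj (tw s0 τ b) = tw s0 (-τ) b := by
  unfold tw
  rw [MelSep811.conj_natCast_cpow]
  congr 1
  simp

/-- the conjugate family -/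
def cjF {J : Type} (Φ : Fam J) : Fam J where
  w j := cj (Φ.w j)
  len := Φ.len
  ht := Φ.ht
  good := Φ.good
  dom := Φ.dom

@[simp] lemma cjF_w {J : Type} (Φ : Fam J) (j : J) : (cjF Φ).w j = cj (Φ.w j) := rfl
@[simp] lemma cjF_len {J : Type} (Φ : Fam J) (j : J) : (cjF Φ).len j = Φ.len j := rfl
@[simp] lemma cjF_ht {J : Type} (Φ : Fam J) (j : J) : (cjF Φ).ht j = Φ.ht j := rfl
@[simp] lemma cjF_good {J : Type} (Φ : Fam J) (j : J) : (cjF Φ).good j = Φ.good j := rfl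
@[simp] lemma cjF_dom {J : Type} (Φ : Fam J) (r : ℝ) (j' j : J) :
    (cjF Φ).dom r j' j = Φ.dom r j' j := rfl

lemma cjF_split {J : Type} {Φ : Fam J} {R A ε s0 C : ℝ} (h : SplitAt Φ R A ε s0 C) :
    SplitAt (cjF Φ) R A ε s0 C := by
  intro j α τ ι _ T v M hM hT hyp
  have key := h j α (-τ) ι T (fun a b => cjE (v a b)) M hM hT ?_
  · have e1 : ∑ p ∈ T, ((cjF Φ).w j (p.1 * p.2) * tw s0 τ p.2) • v p.1 p.2 =
        cjE (∑ p ∈ T, (Φ.w j (p.1 * p.2) * tw s0 (-τ) p.2) • cjE (v p.1 p.2)) := by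
      rw [cjE_sum]
      refine Finset.sum_congr rfl fun p _ => ?_
      rw [map_mul, conj_tw, neg_neg, cjE_cjE]
      rfl
    rw [e1, norm_cjE]
    rw [abs_neg] at key
    exact key
  · intro κ hκ j' hg hd h1 h2
    have h3 := hyp (fun a => conj (κ a)) (fun a => by rw [RCLike.norm_conj]; exact hκ a) j' hg hd h1 h2
    have e1 : ∑ p ∈ T, (κ p.1 * Φ.w j' p.2) • cjE (v p.1 p.2) =
        cjE (∑ p ∈ T, (conj (κ p.1) * (cjF Φ).w j' p.2) • v p.1 p.2) := by
      rw [cjE_sum]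
      refine Finset.sum_congr rfl fun p _ => ?_
      rw [map_mul, Complex.conj_conj, cjF_w, cj_apply, Complex.conj_conj]
    rw [e1, norm_cjE]
    exact h3

/-- **the conjugate family is closed** -/
theorem cjF_ok {J : Type} {Φ : Fam J} {R A : ℝ} (h : Φ.Ok R A) : (cjF Φ).Ok R A where
  R0 := h.R0
  A0 := h.A0
  ht1 := h.ht1
  prim j n hn := h.prim j n (cj_ne.1 hn)
  supp j n hn := h.supp j n (cj_ne.1 hn)
  bd ε hε := by
    obtain ⟨C, hC, hb⟩ := h.bd ε hε
    exact ⟨C, hC, fun j n => by rw [cjF_w, norm_cj]; exact hb j n⟩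
  dom_refl := h.dom_refl
  dom_mono := h.dom_mono
  dom_trans := h.dom_trans
  split ε s0 hε := by
    obtain ⟨C, hC, hs⟩ := h.split ε s0 hε
    exact ⟨C, hC, cjF_split hs⟩

lemma sq_cj (q : Eis) (α : Eis → ℂ) : TP320.sq q (cj α) = cj (TP320.sq q α) := by
  funext n
  rw [cj_apply]
  unfold TP320.sq
  split_ifs
  · rfl
  · rw [map_zero]

/-! ### nonzero elements by their primary parts -/

lemma nm_unit {u : Eis} (hu : IsUnit u) : nm u = 1 := isUnit_iff.1 hu

lemma CS_lam_pow {β : Eis → ℂ} (hβ : ∀ m, β m ≠ 0 → IsPrim m) (B u m : Eis) (k : ℕ) :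
    CS β (B * (lam ^ k * (u * m)) ^ 2) = CS β ((B * (lam ^ (k % 3) * u) ^ 2) * m ^ 2) := by
  unfold CS
  refine tsum_congr fun n => ?_
  by_cases h : β n = 0
  · simp [h]
  · have hn := hβ n h
    have h1 : sy lam n ^ 3 = 1 := by
      apply syG.cube lam n hn
      have := Char766.IsPrim.coprime_pow_lam hn 1
      rw [pow_one] at this
      exact this.symm
    have h2 : sy lam n ^ k = sy lam n ^ (k % 3) := pow_eq_pow_mod k h1
    congr 1
    simp only [Char766.sy_mul_left hn, Char766.sy_pow_left hn]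
    rw [h2]
    ring

/-- the sum over the nonzero elements through the primary parts -/
lemma bl_le_prim {K : ℝ} (hK : 1 ≤ K) (F : Eis → ℝ) (hF : ∀ r, 0 ≤ F r) :
    ∑ r ∈ bl K, F r ≤ ∑ k ∈ Finset.range (⌊Real.log K⌋₊ + 1), ∑ u ∈ (bl 1),
      ∑ m ∈ primBall ⌊K⌋₊, F (lam ^ k * (u * m)) := by
  classical
  have hK0 : 0 ≤ K := by linarith
  choose! k u m hu hm hc using fun (c : Eis) (hc : c ≠ 0) => CharSum852.exists_decomp hc
  set φ : Eis → ℕ × Eis × Eis := fun c => (k c, u c, m c) with hφ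
  set g : ℕ × Eis × Eis → Eis := fun x => lam ^ x.1 * (x.2.1 * x.2.2) with hg
  have hgφ : ∀ c ∈ bl K, g (φ c) = c := fun c hcm => by
    rw [mem_bl hK0] at hcm
    exact (hc c hcm.1).symm
  have hinj : ∀ x ∈ bl K, ∀ y ∈ bl K, φ x = φ y → x = y := fun x hx y hy hxy => by
    rw [← hgφ x hx, ← hgφ y hy, hxy]
  have e1 : ∑ r ∈ bl K, F r = ∑ x ∈ (bl K).image φ, F (g x) := by
    rw [Finset.sum_image hinj]
    exact Finset.sum_congr rfl fun r hr => by rw [hgφ r hr]
  rw [e1]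
  have e2 : ∑ k ∈ Finset.range (⌊Real.log K⌋₊ + 1), ∑ u ∈ (bl 1),
      ∑ m ∈ primBall ⌊K⌋₊, F (lam ^ k * (u * m)) =
      ∑ x ∈ Finset.range (⌊Real.log K⌋₊ + 1) ×ˢ ((bl 1) ×ˢ primBall ⌊K⌋₊), F (g x) := by
    rw [Finset.sum_product]
    refine Finset.sum_congr rfl fun k _ => ?_
    rw [Finset.sum_product]
  rw [e2]
  refine Finset.sum_le_sum_of_subset_of_nonneg ?_ fun x _ _ => hF _
  intro x hx
  rw [Finset.mem_image] at hx
  obtain ⟨c, hcm, rfl⟩ := hx
  rw [mem_bl hK0] at hcm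
  have h0 := hcm.1
  have hnm : ((nm c : ℕ) : ℝ) = 3 ^ (k c) * nm (m c) := by
    conv_lhs => rw [hc c h0]
    rw [nm_mul, nm_mul, nm_pow, nm_unit (hu c h0), nm_lam]
    push_cast; ring
  have hm1 := one_le_nm' (hm c h0)
  have h3k : (1 : ℝ) ≤ 3 ^ (k c) := one_le_pow₀ (by norm_num)
  rw [Finset.mem_product, Finset.mem_product]
  refine ⟨?_, ?_, ?_⟩
  · rw [Finset.mem_range, Nat.lt_succ_iff]
    apply Nat.le_floor
    have h1 : (3 : ℝ) ^ (k c) ≤ K := by nlinarith [hcm.2]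
    have h2 : Real.exp (k c : ℝ) ≤ 3 ^ (k c) := by
      rw [← Real.exp_one_pow]
      gcongr
      linarith [Real.exp_one_lt_d9]
    show ((k c : ℕ) : ℝ) ≤ Real.log K
    rw [Real.le_log_iff_exp_le (by linarith)]
    exact h2.trans h1
  · show u c ∈ bl 1
    rw [mem_bl zero_le_one]
    refine ⟨(hu c h0).ne_zero, ?_⟩
    rw [nm_unit (hu c h0)]
    simp
  · show m c ∈ primBall ⌊K⌋₊
    rw [mem_primBall]
    refine ⟨Nat.le_floor ?_, hm c h0⟩
    nlinarith [hcm.2]

end Crest.Agent.R017.PMB521
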