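import Crest.Agent.R017.PML1_320
import Crest.Agent.R017.PMBc_521
import Crest.Agent.R017.TopC_702
import Crest.Agent.R017.XB_71

/-!
# Row 17: the pair functional, both orders (helper320)

* `cjD P`, `cjq p` : conjugate data, `pc_cjq`
* `PMf P h l β ps` : `PMp` over all primary `b`, `nm b ≤ e^β`; monotone, `PMf_cons_le`
* `PMf_swap` : the roles of `b` and of the family exchanged (conjugate data)
* `PMf_merge` : the merged family
-/

set_option autoImplicit false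
set_option maxHeartbeats 400000

noncomputable section

open Complex
open scoped ComplexConjugate

namespace Crest.Agent.R017.PML320

open Crest.Agent.R012 Crest.Agent.R012.Eis Crest.Agent.R012.LS2 Crest.Agent.R012.Gauss880
open Crest.Agent.R012.Div277 Crest.Agent.R012.Weight600 Crest.Agent.R012.CR2
open Crest.Agent.R017.CM106 Crest.Agent.R017.FE47 Crest.Agent.R017.End699
open Crest.Agent.R017.B770
open Crest.Agent.R017.Prov71
open Crest.Agent.R017.HP842 (UT pc uv)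
open Crest.Agent.R017.XRG106 (RFp)
open Crest.Agent.R017.XP699
open Crest.Agent.R017.PMB401 (cj_apply norm_CS_conj_symm)
open Crest.Agent.R017.PMB521 (CS_lam_pow bl_le_prim)

/-! ### the conjugate data -/

/-- the conjugate data (weight zero: case (D)) -/
def cjD (P : DPar) : DPar :=
  { P with
    U := fun _ => 0
    φ := fun b => conj (P.φ b)
    ψ := fun b => conj (P.ψ b)
    l₁ := -P.l₁
    l₂ := -P.l₂ }

lemma conj_prin0 (q b : Eis) : conj (prin0 q b) = prin0 q b := by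
  unfold prin0
  split_ifs <;> simp

lemma sw_zero : SW (fun _ => 0) := ⟨contDiff_const, HasCompactSupport.zero, by simp [tsupport]⟩

theorem cjD_ok {P : DPar} (hP : P.OK) : (cjD P).OK where
  h₀ := hP.h₀
  h := hP.h
  V := hP.V
  U := sw_zero
  n36 := hP.n36
  φ := hP.φ.conj
  ψ := hP.ψ.conj
  χ₃ := hP.χ₃
  rad := hP.rad
  cases := Or.inr (Or.inr (Or.inr rfl))

lemma chK_cjD (P : DPar) (k : Kd) {b : Eis} (hb : b ≠ 0) :
    chK (cjD P) k b = conj (chK P k b) := by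
  cases k with
  | mo =>
    show conj (P.ψ b) * ang (-P.l₂) b = conj (P.ψ b * ang P.l₂ b)
    rw [map_mul, End699.ang_neg_conj P.l₂ hb]
  | am =>
    show conj (conj (P.φ b) * ang (-P.l₁) b) = conj (conj (P.φ b * ang P.l₁ b))
    rw [End699.ang_neg_conj P.l₁ hb, map_mul (starRingEnd ℂ) (P.φ b)]

/-- the conjugate piece -/
def cjq (p : Pq) : Pq := { p with t := -p.t }

@[simp] lemma cjq_z (p : Pq) : (cjq p).z = p.z := rfl
@[simp] lemma cjq_kd (p : Pq) : (cjq p).kd = p.kd := rfl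
@[simp] lemma cjq_u (p : Pq) : (cjq p).u = p.u := rfl
@[simp] lemma cjq_d (p : Pq) : (cjq p).d = p.d := rfl
@[simp] lemma cjq_t (p : Pq) : (cjq p).t = -p.t := rfl

lemma conj_uv (u : UT) (b : Eis) : conj (uv u b) = uv u b := by
  classical
  cases u
  · simp [uv]
  · simp [uv]
  · simp only [uv]; split_ifs <;> simp
  · simp only [uv]; split_ifs <;> simp
  · simp only [uv]; split_ifs <;> simp

/-- **the conjugate sequence** -/
theorem pc_cjq (h : ℝ → ℝ) (P : DPar) (p : Pq) :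
    pc h ((cjq p).pc (cjD P)) = PMB401.cj (pc h (p.pc P)) := by
  classical
  funext b
  rw [cj_apply]
  unfold pc
  by_cases hb : IsPrim b
  · rw [if_pos hb, if_pos hb, map_mul, map_mul, conj_uv]
    congr 1
    · congr 1
      show chK (cjD P) p.kd b * prin0 p.d b = conj (chK P p.kd b * prin0 p.d b)
      rw [map_mul, chK_cjD P p.kd hb.ne_zero, conj_prin0]
    · show HSep813.gw h (Real.exp p.z) (-p.t) b = conj (HSep813.gw h (Real.exp p.z) p.t b)
      unfold HSep813.gw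
      rw [map_mul, osc_neg_left]
      congr 1
      unfold cx
      rw [Complex.conj_ofReal]
  · rw [if_neg hb, if_neg hb, map_zero]

/-! ### the functional -/

/-- **the pair functional**, all primary `b` with `nm b ≤ e^β` -/
def PMf (P : DPar) (h : ℝ → ℝ) (l β : ℝ) (ps : List Pq) : ℝ :=
  PMp P h l (primBall ⌊Real.exp β⌋₊) ps

lemma PMf_nonneg (P : DPar) (h : ℝ → ℝ) (l β : ℝ) (ps : List Pq) : 0 ≤ PMf P h l β ps :=
  PMp_nonneg _ _ _ _ _

lemma prod_sq_nonneg (P : DPar) (h : ℝ → ℝ) (ps : List Pq) (k : Eis) :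
    0 ≤ (ps.map fun p => ‖CS (pc h (p.pc P)) k‖ ^ 2).prod := by
  refine List.prod_nonneg ?_
  intro y hy
  obtain ⟨p, _, rfl⟩ := List.mem_map.1 hy
  positivity

lemma PMp_le_PMf (P : DPar) (h : ℝ → ℝ) (l β : ℝ) (ps : List Pq) {Bs : Finset Eis}
    (hB : ∀ b ∈ Bs, IsPrim b ∧ (nm b : ℝ) ≤ Real.exp β) : PMp P h l Bs ps ≤ PMf P h l β ps := by
  unfold PMf PMp
  refine Finset.sum_le_sum_of_subset_of_nonneg ?_ fun b _ _ =>
    Finset.sum_nonneg fun x _ => prod_sq_nonneg _ _ _ _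
  intro b hb
  rw [mem_primBall]
  exact ⟨Nat.le_floor (hB b hb).2, (hB b hb).1⟩

lemma PMf_mono (P : DPar) (h : ℝ → ℝ) {l l' β β' : ℝ} (hl : l ≤ l') (hβ : β ≤ β')
    (ps : List Pq) : PMf P h l β ps ≤ PMf P h l' β' ps := by
  unfold PMf PMp
  refine (Finset.sum_le_sum fun b _ => Finset.sum_le_sum_of_subset_of_nonneg
    (TP320.bl_mono (Real.exp_pos _).le (Real.exp_le_exp.2 hl)) fun x _ _ =>
      prod_sq_nonneg _ _ _ _).trans ?_
  refine Finset.sum_le_sum_of_subset_of_nonneg ?_ fun b _ _ =>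
    Finset.sum_nonneg fun x _ => prod_sq_nonneg _ _ _ _
  intro b hb
  rw [mem_primBall] at hb ⊢
  exact ⟨hb.1.trans (Nat.floor_le_floor (Real.exp_le_exp.2 hβ)), hb.2⟩

lemma PMf_perm (P : DPar) (h : ℝ → ℝ) (l β : ℝ) {ps qs : List Pq} (hp : ps.Perm qs) :
    PMf P h l β ps = PMf P h l β qs := by
  unfold PMf PMp
  exact Finset.sum_congr rfl fun b _ => Finset.sum_congr rfl fun x _ => (hp.map _).prod_eq

/-- one piece removed -/
theorem PMf_cons_le {P : DPar} (hP : P.OK) {h : ℝ → ℝ} {C : ℝ}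
    (hC : ∀ (p : HP842.Pc) (k : Eis), p.OK → ‖CS (pc h p) k‖ ≤ C * p.Y) (l β : ℝ) (p : Pq)
    (ps : List Pq) : PMf P h l β (p :: ps) ≤
      C ^ 2 * Real.exp (2 * Dq.len p) * PMf P h l β ps := by
  unfold PMf PMp
  rw [Finset.mul_sum]
  refine Finset.sum_le_sum fun b _ => ?_
  rw [Finset.mul_sum]
  refine Finset.sum_le_sum fun k _ => ?_
  rw [List.map_cons, List.prod_cons]
  refine mul_le_mul_of_nonneg_right ?_ (prod_sq_nonneg _ _ _ _)
  have h1 := hC _ (k * b ^ 2) (Pq.ok hP p)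
  calc ‖CS (pc h (p.pc P)) (k * b ^ 2)‖ ^ 2 ≤ (C * (p.pc P).Y) ^ 2 :=
        pow_le_pow_left₀ (norm_nonneg _) h1 2
    _ = C ^ 2 * Real.exp (2 * Dq.len p) := by
        rw [Pq.pc_Y, Dq_len, mul_pow, ← Real.exp_nat_mul]; push_cast; rfl

/-! ### the other order -/

lemma prod_conj_symm {P : DPar} (hP : P.OK) {h : ℝ → ℝ} (hh : Bump h) (ps : List Pq)
    (r B : Eis) : (ps.map fun p => ‖CS (pc h (p.pc P)) (r * B ^ 2)‖ ^ 2).prod =
      ((ps.map cjq).map fun p => ‖CS (pc h (p.pc (cjD P))) (B * r ^ 2)‖ ^ 2).prod := by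
  rw [List.map_map]
  congr 1
  refine List.map_congr_left fun p _ => ?_
  show ‖CS (pc h (p.pc P)) (r * B ^ 2)‖ ^ 2 =
    ‖CS (pc h ((cjq p).pc (cjD P))) (B * r ^ 2)‖ ^ 2
  rw [norm_CS_conj_symm (fs_pc hh (Pq.ok hP p)), pc_cjq, mul_comm (r ^ 2) B]

lemma prod_lam_pow {P : DPar} {h : ℝ → ℝ} (ps : List Pq) (B u m : Eis) (k : ℕ) :
    (ps.map fun p => ‖CS (pc h (p.pc P)) (B * (lam ^ k * (u * m)) ^ 2)‖ ^ 2).prod =
      (ps.map fun p => ‖CS (pc h (p.pc P)) ((B * (lam ^ (k % 3) * u) ^ 2) * m ^ 2)‖ ^ 2).prod := by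
  congr 1
  refine List.map_congr_left fun p _ => ?_
  rw [CS_lam_pow]
  intro b hb
  by_contra hp
  apply hb
  unfold pc
  rw [if_neg hp]

set_option maxHeartbeats 1000000 in
/-- **the other order** -/
theorem PMf_swap {P : DPar} (hP : P.OK) {h : ℝ → ℝ} (hh : Bump h) {l β : ℝ} (hl : 0 ≤ l)
    (ps : List Pq) : PMf P h l β ps ≤
      (l + 1) * (16 * PMf (cjD P) h (β + Real.log 81) l (ps.map cjq)) := by
  classical
  obtain ⟨K, hK⟩ : ∃ K : ℝ, K = Real.exp l := ⟨_, rfl⟩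
  have hK1 : 1 ≤ K := by rw [hK]; exact Real.one_le_exp hl
  have hlogK : Real.log K = l := by rw [hK, Real.log_exp]
  obtain ⟨E, hE⟩ : ∃ E : ℝ, E = Real.exp β := ⟨_, rfl⟩
  have hE0 : 0 < E := by rw [hE]; exact Real.exp_pos _
  have hE81 : Real.exp (β + Real.log 81) = 81 * E := by
    rw [Real.exp_add, Real.exp_log (by norm_num), hE, mul_comm]
  set Bs := primBall ⌊E⌋₊ with hBs
  set F : Eis → Eis → ℝ := fun B r =>
    ((ps.map cjq).map fun p => ‖CS (pc h (p.pc (cjD P))) (B * r ^ 2)‖ ^ 2).prod with hF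
  have hF0 : ∀ B r, 0 ≤ F B r := fun B r => prod_sq_nonneg _ _ _ _
  have h1 : PMf P h l β ps = ∑ r ∈ bl K, ∑ B ∈ Bs, F B r := by
    unfold PMf PMp
    rw [Finset.sum_comm, ← hK, ← hE]
    exact Finset.sum_congr rfl fun r _ => Finset.sum_congr rfl fun B _ =>
      prod_conj_symm hP hh ps r B
  set T : ℝ := ∑ m ∈ primBall ⌊K⌋₊, ∑ x ∈ bl (81 * E), F x m with hT
  have hT0 : 0 ≤ T := Finset.sum_nonneg fun _ _ => Finset.sum_nonneg fun _ _ => hF0 _ _
  have hTe : T = PMf (cjD P) h (β + Real.log 81) l (ps.map cjq) := by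
    unfold PMf PMp
    rw [hT, hE81, ← hK]
  have h2 : ∑ r ∈ bl K, ∑ B ∈ Bs, F B r ≤
      ∑ k ∈ Finset.range (⌊Real.log K⌋₊ + 1), ∑ u ∈ (bl 1), T := by
    refine (bl_le_prim hK1 (fun r => ∑ B ∈ Bs, F B r)
      (fun _ => Finset.sum_nonneg fun _ _ => hF0 _ _)).trans ?_
    refine Finset.sum_le_sum fun k _ => Finset.sum_le_sum fun u hu => ?_
    rw [mem_bl zero_le_one] at hu
    refine Finset.sum_le_sum fun m _ => ?_
    set c0 : Eis := (lam ^ (k % 3) * u) ^ 2 with hc0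
    have hc00 : c0 ≠ 0 := pow_ne_zero _ (mul_ne_zero (pow_ne_zero _ lam_ne_zero) hu.1)
    have hc0n : (nm c0 : ℝ) ≤ 81 := by
      rw [hc0, nm_pow, nm_mul, nm_pow, nm_lam]
      push_cast
      have h3 : (3 : ℝ) ^ (k % 3) ≤ 9 := by
        have : k % 3 < 3 := Nat.mod_lt _ (by norm_num)
        calc (3 : ℝ) ^ (k % 3) ≤ 3 ^ 2 := pow_le_pow_right₀ (by norm_num) (by omega)
          _ = 9 := by norm_num
      have h4 : (0 : ℝ) ≤ 3 ^ (k % 3) := by positivity
      have h5 := hu.2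
      have h6 : (0 : ℝ) ≤ nm u := Nat.cast_nonneg _
      have h7 : (3 : ℝ) ^ (k % 3) * nm u ≤ 9 * 1 := mul_le_mul h3 h5 h6 (by norm_num)
      calc ((3 : ℝ) ^ (k % 3) * nm u) ^ 2 ≤ (9 * 1) ^ 2 :=
            pow_le_pow_left₀ (mul_nonneg h4 h6) h7 2
        _ = 81 := by norm_num
    have e1 : ∑ B ∈ Bs, F B (lam ^ k * (u * m)) =
        ∑ x ∈ Bs.image (fun B => B * c0), F x m := by
      rw [Finset.sum_image fun x _ y _ hxy => mul_right_cancel₀ hc00 hxy]
      refine Finset.sum_congr rfl fun B _ => ?_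
      exact prod_lam_pow _ B u m k
    show ∑ B ∈ Bs, F B (lam ^ k * (u * m)) ≤ _
    rw [e1]
    refine Finset.sum_le_sum_of_subset_of_nonneg ?_ fun _ _ _ => hF0 _ _
    intro x hx
    rw [Finset.mem_image] at hx
    obtain ⟨B, hB, rfl⟩ := hx
    rw [hBs, mem_primBall] at hB
    have hBn : (nm B : ℝ) ≤ E := (Nat.le_floor_iff hE0.le).1 hB.1
    rw [mem_bl (by positivity)]
    refine ⟨mul_ne_zero hB.2.ne_zero hc00, ?_⟩
    rw [nm_mul]
    push_cast
    have : (0 : ℝ) ≤ nm c0 := Nat.cast_nonneg _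
    calc (nm B : ℝ) * nm c0 ≤ E * 81 := mul_le_mul hBn hc0n this hE0.le
      _ = 81 * E := by ring
  rw [h1, ← hTe]
  refine h2.trans ?_
  rw [Finset.sum_const, Finset.sum_const, Finset.card_range, nsmul_eq_mul, nsmul_eq_mul, hlogK]
  have hcard : ((bl 1).card : ℝ) ≤ 16 := by
    have := card_bl_le (zero_le_one' ℝ)
    linarith
  have hN : ((⌊l⌋₊ + 1 : ℕ) : ℝ) ≤ l + 1 := by
    push_cast
    linarith [Nat.floor_le hl]
  gcongr

/-! ### the merged family -/

/-- **the merged family** -/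
theorem PMf_merge {h : ℝ → ℝ} {ε : ℝ} (hε : 0 < ε) : ∃ C : ℝ, 1 ≤ C ∧ ∀ P : DPar, ∀ l β : ℝ,
    0 ≤ l → 0 ≤ β → ∀ ps : List Pq,
    PMf P h l β ps ≤ C * Real.exp (ε * (l + 2 * β)) * RFp P h (l + 2 * β) ps := by
  classical
  obtain ⟨C, hC1, hC⟩ := tau_le_rpow hε
  refine ⟨C, hC1, fun P l β hl hβ ps => ?_⟩
  set F : Eis → ℝ := fun r => (ps.map fun p => ‖CS (pc h (p.pc P)) r‖ ^ 2).prod with hF
  have hF0 : ∀ r, 0 ≤ F r := fun r => prod_sq_nonneg _ _ _ _
  set A := (primBall ⌊Real.exp β⌋₊) ×ˢ (bl (Real.exp l)) with hA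
  have e1 : PMf P h l β ps = ∑ q ∈ A, F (q.2 * q.1 ^ 2) := by
    unfold PMf PMp
    rw [hA, Finset.sum_product]
  have hmaps : ∀ q ∈ A, q.2 * q.1 ^ 2 ∈ bl (Real.exp (l + 2 * β)) := by
    intro q hq
    rw [hA, Finset.mem_product, mem_primBall, mem_bl (Real.exp_pos _).le] at hq
    obtain ⟨⟨h1, h2⟩, h3, h4⟩ := hq
    rw [mem_bl (Real.exp_pos _).le]
    refine ⟨mul_ne_zero h3 (pow_ne_zero _ h2.ne_zero), ?_⟩
    rw [nm_mul, nm_pow]
    push_cast
    have h5 : (nm q.1 : ℝ) ≤ Real.exp β := (Nat.le_floor_iff (Real.exp_pos _).le).1 h1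
    have h6 : (0 : ℝ) ≤ nm q.1 := Nat.cast_nonneg _
    calc (nm q.2 : ℝ) * (nm q.1 : ℝ) ^ 2 ≤ Real.exp l * Real.exp β ^ 2 := by gcongr
      _ = Real.exp (l + 2 * β) := by
          rw [Real.exp_add, two_mul, Real.exp_add, pow_two]
  have e2 : RFp P h (l + 2 * β) ps = ∑ r ∈ bl (Real.exp (l + 2 * β)), F r := by
    unfold RFp RQ
    have e3 : (bl (Real.exp (l + 2 * β))).filter (fun k => k ≠ 0) = bl (Real.exp (l + 2 * β)) := by
      rw [Finset.filter_eq_self]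
      intro k hk
      exact ((mem_bl (Real.exp_pos _).le).1 hk).1
    refine Finset.sum_congr (by rw [← e3]; congr) fun r _ => ?_
    rw [List.map_map]
    rfl
  rw [e1, e2, ← Finset.sum_fiberwise_of_maps_to hmaps, Finset.mul_sum]
  refine Finset.sum_le_sum fun r hr => ?_
  rw [mem_bl (Real.exp_pos _).le] at hr
  have h7 : ∑ q ∈ A.filter (fun q => q.2 * q.1 ^ 2 = r), F (q.2 * q.1 ^ 2) =
      ((A.filter (fun q => q.2 * q.1 ^ 2 = r)).card : ℝ) * F r := by
    rw [Finset.sum_congr rfl (g := fun _ => F r)]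
    · rw [Finset.sum_const, nsmul_eq_mul]
    · intro q hq
      rw [(Finset.mem_filter.1 hq).2]
  rw [h7]
  refine mul_le_mul_of_nonneg_right ?_ (hF0 r)
  have h8 : (A.filter (fun q => q.2 * q.1 ^ 2 = r)).card ≤ tau r := by
    unfold tau
    refine Finset.card_le_card_of_injOn (fun q => q.1) ?_ ?_
    · intro q hq
      rw [Finset.mem_coe, Finset.mem_filter, hA, Finset.mem_product, mem_primBall] at hq
      rw [Finset.mem_coe, mem_dvs hr.1]
      refine ⟨hq.1.1.2, ?_⟩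
      rw [← hq.2]
      exact (dvd_pow_self _ two_ne_zero).mul_left _
    · intro q hq q' hq' he
      rw [Finset.mem_coe, Finset.mem_filter, hA, Finset.mem_product, mem_primBall] at hq hq'
      have he' : q.1 = q'.1 := he
      have h9 : q.2 * q.1 ^ 2 = q'.2 * q.1 ^ 2 := by rw [hq.2, he', hq'.2]
      have h10 := mul_right_cancel₀ (pow_ne_zero 2 hq.1.1.2.ne_zero) h9
      exact Prod.ext he' h10
  have h11 := hC r hr.1
  calc ((A.filter (fun q => q.2 * q.1 ^ 2 = r)).card : ℝ) ≤ tau r := by exact_mod_cast h8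
    _ ≤ C * (nm r : ℝ) ^ ε := h11
    _ ≤ C * Real.exp (ε * (l + 2 * β)) := by
        refine mul_le_mul_of_nonneg_left ?_ (by linarith)
        have h12 : (nm r : ℝ) ^ ε ≤ (Real.exp (l + 2 * β)) ^ ε :=
          Real.rpow_le_rpow (Nat.cast_nonneg _) hr.2 hε.le
        refine h12.trans (le_of_eq ?_)
        rw [← Real.exp_mul, mul_comm]

end Crest.Agent.R017.PML320
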