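import Crest.Agent.R017.RuleD_320
import Crest.Agent.R017.PML2_320
import Crest.Agent.R017.RM3b_986

/-!
# Row 17: the pair functional, robust exponents (helper320)

* `PX c π h` : the pair functional with `β = c k`
* `rulePB` : the analytic rule in the form of `ruleBGe`
* `rawPB` : the raw rule (P) for pairs
-/

set_option autoImplicit false

noncomputable section

open Set Filter Topology

namespace Crest.Agent.R017.PM320

open Crest.Agent.R012 Crest.Agent.R012.Eis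
open Crest.Agent.R017.FE47 (PU)
open Crest.Agent.R017.XG702 (Pcs BG)
open Crest.Agent.R017.Prov71
open Crest.Agent.R017.B770
open Crest.Agent.R017.XP699
open Crest.Agent.R017.RuleM545 (xv)
open Crest.Agent.R017.PMR320
open Crest.Agent.R017.PML320

variable {Λ : Type*}

/-- **the pair functional**, `β = c k` -/
def PX (c : ℝ) (π : Λ → DPar) (h : ℝ → ℝ) : Λ → ℝ → List Pq → ℝ :=
  fun lam k ps => PMf (π lam) h k (c * k) ps

/-- the conditions -/
def Gp (c : ℝ) (_ : Unit) (x : Fin 4 → ℝ) (_ : Unit) : ℝ :=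
  max (-x 0 - (x 2 - c * x 0) + 2 * x 3) (x 0 - 3 * x 1 + (x 2 - c * x 0) + x 3)

/-- the exponent -/
def Fp (c : ℝ) (_ : Unit) (x : Fin 4 → ℝ) (_ : Unit) : ℝ :=
  -x 0 / 3 - x 1 + 2 / 3 * ((x 2 - c * x 0) + x 3)

/-- the condition on the parent -/
def Hp (κ₀ n₀ : ℝ) (w : Fin 2 → ℝ) : ℝ := max (w 0 - κ₀) (w 1 - n₀)

/-- the diagonal -/
def Ap (c : ℝ) (w : Fin 2 → ℝ) : ℝ := (1 + c) * w 0 + w 1

/-- range of the children -/
def clp (c κ₀ n₀ : ℝ) : ℝ := c * (κ₀ + 1) + 3 * (n₀ + 1) + 1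

lemma cont_Gp (c : ℝ) (j : Unit) :
    Continuous fun x : (Fin 4 → ℝ) × Unit => Gp c j x.1 x.2 := by
  unfold Gp; fun_prop
lemma cont_Fp (c : ℝ) (j : Unit) :
    Continuous fun x : (Fin 4 → ℝ) × Unit => Fp c j x.1 x.2 := by
  unfold Fp; fun_prop
lemma cont_Hp (κ₀ n₀ : ℝ) : Continuous (Hp κ₀ n₀) := by unfold Hp; fun_prop
lemma cont_Ap (c : ℝ) : Continuous (Ap c) := by unfold Ap; fun_prop

/-- **the analytic rule** -/
theorem rulePB {h : ℝ → ℝ} {c₁ : ℝ} (hpu : PU h c₁) {π : Λ → DPar} (hP : ∀ lam, (π lam).OK)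
    {c : ℝ} (hc : 0 ≤ c) (κ₀ n₀ : ℝ) (lam : Λ) (N : ℕ) (c₀ : ℝ) (hc₀ : 1 ≤ c₀) :
    ∃ B₀ : ℝ, 0 ≤ B₀ ∧ ∀ (ε M : ℝ), 0 < ε →
      ε ≤ 1 → 0 ≤ M → ∃ C r J X₁ : ℝ, 0 ≤ C ∧ 0 ≤ r ∧ 0 ≤ J ∧
      ∀ X : ℝ, 3 ≤ X → X₁ ≤ X → ∀ (k : ℝ) (ps : List Pq), 0 ≤ k → k ≤ c₀ * Real.log X →
      ps.length ≤ N → (∀ p ∈ ps, 0 ≤ Dq.len p ∧ Dq.len p ≤ c₀ * Real.log X) →
      Hp κ₀ n₀ ![k / Real.log X, LL Dq ps / Real.log X] ≤ ε →
      ∀ Bd : ℝ, 0 ≤ Bd →
      (∀ (j : Unit) (θ : Unit) (l : ℝ) (ps' : List Pq), 0 ≤ l → l ≤ clp c κ₀ n₀ * Real.log X →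
        List.Forall₂ (Chd Dq hcost r (C * X ^ B₀)) ps' ps →
        Gp c j (xv Dq X k ps l ps') θ ≤ ε →
        (False → ∀ p ∈ ps', Dq.lump p → Dq.len p ≤ l + ε * Real.log X) →
        Sp (π lam) h l ps' ≤ Bd * cst hcost ps' ps ^ M * X ^ Fp c j (xv Dq X k ps l ps') θ) →
      PX c π h lam k ps ≤ C * X ^ ε * (ps.map Dq.s1).prod ^ J *
        (X ^ Ap c ![k / Real.log X, LL Dq ps / Real.log X] + Bd) := by
  obtain ⟨c₂, hc₂⟩ : ∃ c₂ : ℝ, c₂ = c₀ * (1 + c) := ⟨_, rfl⟩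
  have hcc : 0 ≤ c₀ * c := by positivity
  have hc₂0 : c₀ ≤ c₂ := by rw [hc₂]; nlinarith
  have hc₂1 : 1 ≤ c₂ := hc₀.trans hc₂0
  have hc₂c : c * c₀ ≤ c₂ := by rw [hc₂]; nlinarith
  refine ⟨c₂ * (3 * N + 3), by positivity, fun ε M hε hε1 hM => ?_⟩
  obtain ⟨C, r, hC, hr, hL⟩ := PM_list hpu hM N (ε := ε / (2 * c₂)) (by positivity)
  refine ⟨C, r, 0, Real.exp (2 * r / ε), by linarith, hr, le_rfl, ?_⟩
  intro X hX hX₁ k ps hk0 hk hlen hz hH Bd hBd hch
  have hXp : 0 < X := by linarith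
  have hX1 : (1 : ℝ) ≤ X := by linarith
  have hlog : 0 < Real.log X := Real.log_pos (by linarith)
  have hlog' : Real.log (X ^ c₂) = c₂ * Real.log X := Real.log_rpow hXp _
  have hX' : 3 ≤ X ^ c₂ := by
    calc (3 : ℝ) ≤ X ^ (1 : ℝ) := by rw [Real.rpow_one]; exact hX
      _ ≤ X ^ c₂ := Real.rpow_le_rpow_of_exponent_le hX1 hc₂1
  have hrl : r ≤ ε / 2 * Real.log X := by
    have h1 : 2 * r / ε ≤ Real.log X := (Real.le_log_iff_exp_le hXp).2 hX₁
    rw [div_le_iff₀ hε] at h1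
    linarith
  have hk' : k ≤ Real.log (X ^ c₂) := by
    rw [hlog']
    exact hk.trans (mul_le_mul_of_nonneg_right hc₂0 hlog.le)
  have hβ' : c * k ≤ Real.log (X ^ c₂) := by
    rw [hlog']
    calc c * k ≤ c * (c₀ * Real.log X) := mul_le_mul_of_nonneg_left hk hc
      _ = c * c₀ * Real.log X := by ring
      _ ≤ c₂ * Real.log X := mul_le_mul_of_nonneg_right hc₂c hlog.le
  have hLL0 : ∀ qs : List Pq, (∀ p ∈ qs, 0 ≤ Dq.len p) → 0 ≤ LL Dq qs :=
    fun qs h => LL_nonneg h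
  have hH1 : k / Real.log X - κ₀ ≤ ε := by
    have := (le_max_left _ _).trans (show max (k / Real.log X - κ₀)
      (LL Dq ps / Real.log X - n₀) ≤ ε from hH)
    exact this
  have hH2 : LL Dq ps / Real.log X - n₀ ≤ ε := by
    have := (le_max_right _ _).trans (show max (k / Real.log X - κ₀)
      (LL Dq ps / Real.log X - n₀) ≤ ε from hH)
    exact this
  have hkX : k ≤ (κ₀ + 1) * Real.log X := by
    have h1 : k / Real.log X ≤ κ₀ + 1 := by linarith
    rwa [div_le_iff₀ hlog] at h1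
  have hnX : LL Dq ps ≤ (n₀ + 1) * Real.log X := by
    have h1 : LL Dq ps / Real.log X ≤ n₀ + 1 := by linarith
    rwa [div_le_iff₀ hlog] at h1
  have hexp : ∀ y : ℝ, X ^ (y / Real.log X) = Real.exp y := by
    intro y
    rw [Real.rpow_def_of_pos hXp, mul_div_cancel₀ _ hlog.ne']
  have key := hL (π lam) (hP lam) (X ^ c₂) hX' k (c * k) ps hk0 hk' (by positivity) hβ' hlen
    (fun p hp => ⟨(hz p hp).1, by
      rw [hlog']
      exact (hz p hp).2.trans (mul_le_mul_of_nonneg_right hc₂0 hlog.le)⟩) Bd hBd ?_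
    (primBall ⌊Real.exp (c * k)⌋₊) (by
      intro b hb
      rw [mem_primBall] at hb
      exact ⟨hb.2, (Nat.le_floor_iff (Real.exp_pos _).le).1 hb.1⟩)
  · have h1 : PX c π h lam k ps = PMp (π lam) h k (primBall ⌊Real.exp (c * k)⌋₊) ps := rfl
    rw [h1, Real.rpow_zero, mul_one]
    have h2 : X ^ Ap c ![k / Real.log X, LL Dq ps / Real.log X] =
        Real.exp (k + c * k + LL Dq ps) := by
      rw [← hexp]
      congr 1
      show (1 + c) * (k / Real.log X) + LL Dq ps / Real.log X = _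
      ring
    rw [h2]
    refine key.trans ?_
    have h3 : (X ^ c₂) ^ (ε / (2 * c₂)) ≤ X ^ ε := by
      rw [← Real.rpow_mul hXp.le]
      refine Real.rpow_le_rpow_of_exponent_le hX1 ?_
      have : c₂ * (ε / (2 * c₂)) = ε / 2 := by field_simp
      rw [this]; linarith
    have h4 : 0 ≤ Real.exp (k + c * k + LL Dq ps) + Bd := by
      have := Real.exp_pos (k + c * k + LL Dq ps); linarith
    gcongr
  · intro l ps' hl hps' hG
    have hB : (X ^ c₂) ^ (3 * N + 3 : ℝ) = X ^ (c₂ * (3 * N + 3)) :=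
      (Real.rpow_mul hXp.le _ _).symm
    rw [hB] at hps'
    have hεl : ε / (2 * c₂) * Real.log (X ^ c₂) = ε / 2 * Real.log X := by
      rw [hlog']; field_simp
    rw [hεl] at hG
    have g1 := hG cG1 (by simp)
    have g2 := hG cG2 (by simp)
    rw [lf_cG1] at g1
    rw [lf_cG2] at g2
    have hps0 : 0 ≤ LL Dq ps' := by
      refine hLL0 ps' fun p hp => ?_
      obtain ⟨_, _, h3, _⟩ := good_child one_le_hcost hps' (le_refl _) p hp
      exact h3.len0
    have hl' : l + c * k ≤ clp c κ₀ n₀ * Real.log X := by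
      unfold clp
      have h5 : c * k ≤ c * ((κ₀ + 1) * Real.log X) := mul_le_mul_of_nonneg_left hkX hc
      have h6 : ε / 2 * Real.log X ≤ 1 / 2 * Real.log X :=
        mul_le_mul_of_nonneg_right (by linarith) hlog.le
      nlinarith
    have hGp : Gp c () (xv Dq X k ps (l + c * k) ps') () ≤ ε := by
      unfold Gp xv
      simp only [Matrix.cons_val_zero, Matrix.cons_val_one, Matrix.cons_val]
      refine max_le ?_ ?_
      · have e1 : -(k / Real.log X) - ((l + c * k) / Real.log X - c * (k / Real.log X)) +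
            2 * (LL Dq ps' / Real.log X) = (-k - l + 2 * LL Dq ps') / Real.log X := by ring
        rw [e1, div_le_iff₀ hlog]
        linarith
      · have e1 : k / Real.log X - 3 * (LL Dq ps / Real.log X) +
            ((l + c * k) / Real.log X - c * (k / Real.log X)) + LL Dq ps' / Real.log X =
            (k - 3 * LL Dq ps + l + LL Dq ps') / Real.log X := by ring
        rw [e1, div_le_iff₀ hlog]
        linarith
    have h7 := hch () () (l + c * k) ps' hl hl' hps' hGp (fun hf => hf.elim)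
    have h8 : X ^ Fp c () (xv Dq X k ps (l + c * k) ps') () =
        Real.exp (lf cFP k (LL Dq ps) l (LL Dq ps')) := by
      rw [← hexp, lf_cFP]
      congr 1
      unfold Fp xv
      simp only [Matrix.cons_val_zero, Matrix.cons_val_one, Matrix.cons_val]
      ring
    rw [h8] at h7
    exact h7

/-- **the raw rule (P) for pairs** -/
theorem rawPB {h : ℝ → ℝ} {c₁ : ℝ} (hpu : PU h c₁) {π : Λ → DPar} (hP : ∀ lam, (π lam).OK)
    {c : ℝ} (hc : 0 ≤ c) {κ : ℝ} {u : List ℝ} {m a E : ℝ} (hκ : 0 ≤ κ) (hu : Okl u m a)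
    (hE : (1 + c) * κ + (u.sum + m + a) ≤ E)
    (hch : ∀ (u' : List ℝ) (m' a' l : ℝ), Shl u' u → 0 ≤ m' → m' ≤ m → 0 ≤ a' → a' ≤ a →
      0 ≤ l → 2 * (u'.sum + m' + a') - κ ≤ l - c * κ →
      (l - c * κ) + (u'.sum + m' + a') ≤ 3 * (u.sum + m + a) - κ →
      BG Dq (fun lam => Sp (π lam) h) l u' (wt m' a')
        (E - (u.sum + m + a) - κ / 3 + 2 / 3 * ((l - c * κ) + (u'.sum + m' + a')))) :
    BG Dq (PX c π h) κ u (wt m a) E := by
  refine ruleBGe (D := Dq) (cost := hcost) (Θ := Unit) (ι := Unit) (Ψ := PX c π h)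
    (Φ := fun _ lam => Sp (π lam) h) one_le_hcost (fun p => by
      rw [Dq_s1]; linarith [abs_nonneg p.t]) (G := Gp c) (F := Fp c) (cont_Gp c) (cont_Fp c)
    (H := Hp κ (u.sum + m + a)) (A := Ap c) (cont_Hp _ _) (cont_Ap _)
    (zl := fun _ => False) (cl := clp c κ (u.sum + m + a)) ?_
    (fun lam N c₀ hc₀ => rulePB hpu hP hc _ _ lam N c₀ hc₀)
    (fun _ lam N => triv_Sp hpu hP lam N) hκ hu ?_ ?_ ?_
  · intro lam l l' ps hl
    exact PMf_mono _ _ hl (mul_le_mul_of_nonneg_left hl hc) _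
  · show max (κ - κ) (u.sum + m + a - (u.sum + m + a)) ≤ 0
    simp
  · show (1 + c) * κ + (u.sum + m + a) ≤ E
    exact hE
  · intro j θ u' m' a' l hsh h0 h1 h2 h3 hl _ hG _
    have g : max (-κ - (l - c * κ) + 2 * (u'.sum + m' + a'))
        (κ - 3 * (u.sum + m + a) + (l - c * κ) + (u'.sum + m' + a')) ≤ 0 := hG
    have g1 := (le_max_left _ _).trans g
    have g2 := (le_max_right _ _).trans g
    have h4 := hch u' m' a' l hsh h0 h1 h2 h3 hl (by linarith) (by linarith)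
    have e : E + Fp c j ![κ, u.sum + m + a, l, u'.sum + m' + a'] θ =
        E - (u.sum + m + a) - κ / 3 + 2 / 3 * ((l - c * κ) + (u'.sum + m' + a')) := by
      show E + (-κ / 3 - (u.sum + m + a) + 2 / 3 * ((l - c * κ) + (u'.sum + m' + a'))) = _
      ring
    rw [e]
    exact h4

end Crest.Agent.R017.PM320
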