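import Crest.Agent.R017.PX1_764
import Crest.Agent.R012.TypeI7_569

/-!
# Row 17, exceptional class (helper764): one smooth piece on the Gauss side, from `M49.MS`

* `Lb v τ Y q r = ∑ b primary, (b, q) = 1, Gh r b N(b)^(iτ) v(N b / Y)`
* `lb_mean` : `∑ u ∈ S D, ‖Lb (r0 u) - main‖² ≤ C (..)^ε (D + τ²) Y^(1+ε)` (all `D, Y`, any `r0 ≠ 0`
  whose primes divide `q`)
-/

set_option autoImplicit false

noncomputable section

open scoped ComplexConjugate ENNReal

namespace Crest.Agent.R017.PM764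

open Crest.Agent.R012 Crest.Agent.R012.Eis Crest.Agent.R012.Gauss880
open Crest.Agent.R012.LS2 Crest.Agent.R012.Mob705 Crest.Agent.R012.TypeI941
open Crest.Agent.R012.TI569
open Crest.Agent.R017.PX764

open Classical in
/-- smooth sums of Gauss sums -/
def Lb (v : ℝ → ℂ) (τ Y : ℝ) (q r : Eis) : ℂ :=
  ∑' b : Eis, if IsPrim b ∧ IsCoprime b q then Gh r b * ch 0 τ b * v ((nm b : ℝ) / Y) else 0

/-- the main term of `Lb` -/
def Lm (v : ℝ → ℂ) (τ Y : ℝ) (q u r : Eis) : ℂ := by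
  classical
  exact Mt 0 τ v rho r (pp u ∪ pp q) Y

/-- `Lb` as a sum with a coprimality condition -/
lemma Lb_eq {v : ℝ → ℂ} {τ Y : ℝ} {q r r' m : Eis}
    (hr : r = r' * m ^ 3) {P : Finset Eis} (hP1 : ∀ p ∈ P, IsPP p ∧ (p ∣ q ∨ p ∣ r))
    (hP2 : ∀ p, IsPP p → p ∣ q → p ∈ P) (hP3 : ∀ p, IsPP p → p ∣ r → p ∈ P) :
    Lb v τ Y q r = TypeI941.U gt (ch 0 τ) v r' P Y := by
  classical
  unfold Lb TypeI941.U
  refine tsum_congr fun b => ?_
  by_cases hb : IsPrim b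
  · by_cases hc : cop P b
    · have h1 : IsCoprime b q := by
        rw [isCoprime_iff_pp hb]
        intro p hp hpb hpq
        exact hc p (hP2 p hp hpq) hpb
      have h2 : IsCoprime b r := by
        rw [isCoprime_iff_pp hb]
        intro p hp hpb hpq
        exact hc p (hP3 p hp hpq) hpb
      rw [hr] at h2
      have h3 : IsCoprime b r' := h2.of_mul_right_left
      have h4 : IsCoprime m b := by
        have := h2.of_mul_right_right
        exact (this.of_isCoprime_of_dvd_right (dvd_pow_self m (by norm_num))).symm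
      rw [if_pos ⟨hb, h1⟩, if_pos ⟨hb, hc⟩, gt_of_coprime hb h3.symm]
      unfold Gh
      rw [hr, sy_cube_left hb r' h4]
      ring
    · rw [if_neg (show ¬ (IsPrim b ∧ cop P b) from fun h => hc h.2)]
      by_cases h1 : IsCoprime b q
      · rw [if_pos ⟨hb, h1⟩]
        have h2 : ¬ IsCoprime r b := by
          intro h
          apply hc
          intro p hp hpb
          obtain ⟨hpp, h' | h'⟩ := hP1 p hp
          · exact hpp.prime.not_isUnit (h1.isUnit_of_dvd' hpb h')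
          · exact hpp.prime.not_isUnit (h.isUnit_of_dvd' h' hpb)
        rw [Gh_zero hb h2]; ring
      · rw [if_neg (fun h => h1 h.2)]
  · rw [if_neg (fun h => hb h.1), if_neg (fun h => hb h.1)]

lemma rho_cube_prim {m : Eis} (hm : IsPrim m) (x : Eis) : rho (x * m ^ 3) = rho x :=
  Rho777.rho_cube_pow rho_rel hm x

/-- fibres of `u ↦ pp u ∩ P` -/
lemma fib_eq [DecidableEq Eis] {P T : Finset Eis} (hP : PPSet P) (hT : T ⊆ P) {u : Eis}
    (hu : IsPrim u) (hs : Squarefree u) (h : pp u ∩ P = T) :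
    ∃ d, IsPrim d ∧ Squarefree d ∧ (∀ p ∈ P, ¬ p ∣ d) ∧ u = d * ∏ p ∈ T, p ∧
      pp u ∪ P = (pp d ∪ T) ∪ (P \ T) ∧ pp d ∪ T = pp u ∧ Disjoint (pp d) T := by
  classical
  have hTP : PPSet T := hP.subset hT
  set D := pp u \ T with hD
  have hDP : PPSet D := (ppSet_pp u).subset Finset.sdiff_subset
  have hTu : T ⊆ pp u := by rw [← h]; exact Finset.inter_subset_left
  refine ⟨∏ p ∈ D, p, hDP.isPrim_prod, hDP.squarefree_prod, ?_, ?_, ?_, ?_, ?_⟩
  · intro p hp hd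
    have h1 := (hDP.dvd_prod (hP p hp)).1 hd
    rw [hD, Finset.mem_sdiff] at h1
    apply h1.2
    rw [← h]
    exact Finset.mem_inter.2 ⟨h1.1, hp⟩
  · rw [hD, Finset.prod_sdiff hTu, prod_pp hu hs]
  · rw [hDP.pp_prod, hD, Finset.sdiff_union_of_subset hTu]
    ext p
    simp only [Finset.mem_union, Finset.mem_sdiff]
    constructor
    · rintro (h1 | h1)
      · exact Or.inl h1
      · by_cases h2 : p ∈ T
        · exact Or.inl (hTu h2)
        · exact Or.inr ⟨h1, h2⟩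
    · rintro (h1 | h1)
      · exact Or.inl h1
      · exact Or.inr h1.1
  · rw [hDP.pp_prod, hD, Finset.sdiff_union_of_subset hTu]
  · rw [hDP.pp_prod, hD]
    exact Finset.sdiff_disjoint

/-- sizes of the decomposition of `r0 ∏ T` -/
lemma dec_sizes {r0 s a b m : Eis} {T : Finset Eis} (hT : PPSet T) (hr0 : r0 ≠ 0)
    (h : RDec (r0 * ∏ p ∈ T, p) s a b m) :
    (nm (s * b ^ 2) : ℝ) ≤ (nm r0 : ℝ) ^ 3 ∧ (nm a : ℝ) ≤ nm r0 * nm (∏ p ∈ T, p) := by
  have hTn := hT.prod_ne_zero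
  have hne : r0 * ∏ p ∈ T, p ≠ 0 := mul_ne_zero hr0 hTn
  have hs0 : s ≠ 0 := h.ne_zero hne
  have hsT : IsCoprime s (∏ p ∈ T, p) := by
    refine ((isCoprime_iff_pp hT.isPrim_prod).2 fun p hp _ hps => ?_).symm
    exact h.hr0 p hp hps
  have hsd : s ∣ r0 := by
    have : s ∣ r0 * ∏ p ∈ T, p := by rw [h.heq]; exact ⟨m ^ 3 * (a * b ^ 2), by ring⟩
    exact hsT.dvd_of_dvd_mul_right this
  have hbd : b ∣ r0 := by
    rw [← prod_pp h.hb h.hsb, (ppSet_pp b).prod_dvd]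
    intro p hp
    have hp' := (mem_pp h.hb.ne_zero).1 hp
    have h1 : p ^ 2 ∣ r0 * ∏ p ∈ T, p := by
      rw [h.heq]
      exact ((pow_dvd_pow_of_dvd hp'.2 2).mul_left a).mul_left _
    by_contra hn
    have hc : IsCoprime (p ^ 2) r0 := by
      refine IsCoprime.pow_left ?_
      exact (Irreducible.coprime_iff_not_dvd hp'.1.prime.irreducible).2 hn
    have h2 : p ^ 2 ∣ ∏ p ∈ T, p := hc.dvd_of_dvd_mul_left h1
    exact hp'.1.prime.not_isUnit (hT.squarefree_prod p (by rw [← pow_two]; exact h2))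
  have hn0 : (0 : ℝ) < nm r0 := by exact_mod_cast nm_pos.2 hr0
  have h1 : (nm s : ℝ) ≤ nm r0 := nm_le_of_dvd' hsd hr0
  have h2 : (nm b : ℝ) ≤ nm r0 := nm_le_of_dvd' hbd hr0
  constructor
  · have e : (nm (s * b ^ 2) : ℝ) = nm s * (nm b : ℝ) ^ 2 := by
      rw [nm_mul, nm_pow]; push_cast; ring
    rw [e]
    calc (nm s : ℝ) * (nm b : ℝ) ^ 2 ≤ nm r0 * (nm r0 : ℝ) ^ 2 := by gcongr
      _ = _ := by ring
  · have h3 : (nm a : ℝ) ≤ nm (r0 * ∏ p ∈ T, p) :=
      nm_le_of_dvd' (by rw [h.heq]; exact ⟨s * m ^ 3 * b ^ 2, by ring⟩) hne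
    rw [nm_mul] at h3
    push_cast at h3
    exact h3

set_option maxHeartbeats 2000000 in
open Classical in
/-- **mean square of one smooth piece**, all lengths -/
theorem lb_mean {v : ℝ → ℂ} (hv : M49.Wt v) {ε : ℝ} (hε : 0 < ε) (hε1 : ε ≤ 1 / 2) :
    ∃ C : ℝ, 0 ≤ C ∧ ∀ r0 : Eis, r0 ≠ 0 → ∀ q : Eis, q ≠ 0 → (∀ p, IsPP p → p ∣ r0 → p ∣ q) →
      ∀ τ D Y : ℝ, 1 ≤ D → 0 < Y →
      ∑ u ∈ S D, ‖Lb v τ Y q (r0 * u) - Lm v τ Y q u (r0 * u)‖ ^ 2 ≤
        C * ((1 + |τ|) ^ ε * (nm r0 : ℝ) ^ 10 * (nm q : ℝ) ^ (3 * ε) * D ^ (2 * ε)) *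
          ((D + τ ^ 2) * Y ^ (1 + ε)) := by
  obtain ⟨C1, hC1, hM⟩ := hM_of_MS rho_MS 0 hv hε hε1
  obtain ⟨Cτ, hCτ, hτ⟩ := Div277.tau_le_rpow hε
  have hCτ0 : 0 ≤ Cτ := by linarith
  have hZtop : (TypeI941.Z ε) ^ 7 ≠ ⊤ := ENNReal.pow_ne_top (Z_lt_top hε).ne
  set zr : ℝ := ((TypeI941.Z ε) ^ 7).toReal with hzr
  have hzr0 : 0 ≤ zr := ENNReal.toReal_nonneg
  refine ⟨zr * (Cτ * C1) * Cτ ^ 3, by positivity, ?_⟩
  intro r0 hr00 q hq hrq τ D Y hD hY
  have hD0 : 0 < D := by linarith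
  set P := pp q with hPdef
  have hP : PPSet P := ppSet_pp q
  set F : Eis → ℝ := fun u => ‖Lb v τ Y q (r0 * u) - Lm v τ Y q u (r0 * u)‖ ^ 2 with hF
  have hnr : (0 : ℝ) < nm r0 := by exact_mod_cast nm_pos.2 hr00
  have hnr1 : (1 : ℝ) ≤ nm r0 := by exact_mod_cast nm_pos.2 hr00
  set Bd : ℝ := (Cτ * D ^ ε) * 4 ^ P.card *
    ((C1 * (1 + |τ|) ^ ε * ((nm r0 : ℝ) ^ 3) ^ (1 + ε)) * (D * nm r0) ^ ε *
      (D * nm r0 + τ ^ 2) * Y ^ (1 + ε)) with hBd
  have hBd0 : 0 ≤ Bd := by positivity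
  -- one fibre
  have hfib : ∀ T ∈ P.powerset, ∑ u ∈ (S D).filter (fun u => pp u ∩ P = T), F u ≤ zr * Bd := by
    intro T hT
    have hT' : T ⊆ P := Finset.mem_powerset.1 hT
    have hTP : PPSet T := hP.subset hT'
    set nT : ℝ := (nm (∏ p ∈ T, p) : ℝ) with hnT
    have hnT1 : 1 ≤ nT := one_le_nm_prod hTP
    have hnT0 : 0 < nT := by linarith
    by_cases hDT : D / nT < 1
    · have hemp : (S D).filter (fun u => pp u ∩ P = T) = ∅ := by
        rw [Finset.filter_eq_empty_iff]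
        intro u hu h
        rw [mem_S hD0.le] at hu
        obtain ⟨d, hd, _, _, hud, _⟩ := fib_eq hP hT' hu.2.1 hu.2.2 h
        rw [div_lt_one hnT0] at hDT
        have h1 : (1 : ℝ) ≤ nm d := by exact_mod_cast nm_pos.2 hd.ne_zero
        have h2 : (nm u : ℝ) = nm d * nT := by rw [hud, nm_mul]; push_cast; rfl
        nlinarith [hu.1]
      rw [hemp, Finset.sum_empty]
      positivity
    · push Not at hDT
      have hne : r0 * ∏ p ∈ T, p ≠ 0 := mul_ne_zero hr00 hTP.prod_ne_zero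
      obtain ⟨s, a, b, m, hdec⟩ := exists_dec hne
      obtain ⟨hsz1, hsz2⟩ := dec_sizes hTP hr00 hdec
      have hs0 : s * b ^ 2 ≠ 0 := mul_ne_zero (hdec.ne_zero hne) (pow_ne_zero _ hdec.hb.ne_zero)
      have hrP : ∀ p, IsPP p → p ∣ r0 * ∏ p ∈ T, p → p ∈ P := by
        intro p hp hd
        rw [hPdef, mem_pp hq]
        refine ⟨hp, ?_⟩
        rcases hp.prime.dvd_or_dvd hd with h | h
        · exact hrq p hp h
        · exact ((mem_pp hq).1 (hT' ((hTP.dvd_prod hp).1 h))).2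
      have haP : pp a ⊆ P := by
        intro p hp
        have := (mem_pp hdec.ha.ne_zero).1 hp
        refine hrP p this.1 (this.2.trans ?_)
        rw [hdec.heq]; exact ⟨s * m ^ 3 * b ^ 2, by ring⟩
      have hbP : pp b ⊆ P := by
        intro p hp
        have := (mem_pp hdec.hb.ne_zero).1 hp
        refine hrP p this.1 (this.2.trans ?_)
        rw [hdec.heq]; exact ⟨s * m ^ 3 * (a * b), by ring⟩
      have hmain := (rec_Ef rho_rel hv 0 τ).meanSq (P1 := pp a) (P2 := P \ (pp a ∪ pp b))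
        (P3 := pp b)
        (ppSet_pp a) (hP.subset Finset.sdiff_subset) (ppSet_pp b)
        (by
          rw [Finset.disjoint_left]
          intro p hp hp2
          exact (Finset.mem_sdiff.1 hp2).2 (Finset.mem_union_left _ hp))
        (pp_disjoint hdec.hab)
        (by
          rw [Finset.disjoint_left]
          intro p hp hp2
          exact (Finset.mem_sdiff.1 hp).2 (Finset.mem_union_right _ hp2))
        (r0 := s) hdec.hr0 (ε := ε)
        (K := C1 * (1 + |τ|) ^ ε * (nm (s * b ^ 2) : ℝ) ^ (1 + ε)) (τ := τ ^ 2)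
        (Λ := Cτ * D ^ ε) (D := D / nT) hε (by positivity) (by positivity) hDT
        (by
          intro d hd
          rw [mem_S (by positivity)] at hd
          have h1 := hτ d hd.2.1.ne_zero
          have h2 : (2 : ℝ) ^ (pp d).card ≤ Div277.tau d := by
            exact_mod_cast two_pow_pp_le hd.2.1.ne_zero
          refine h2.trans (h1.trans ?_)
          have h3 : (nm d : ℝ) ≤ D := hd.1.trans (div_le_self hD0.le hnT1)
          gcongr)
        (by
          intro H hH Y' hY'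
          have h1 := hM (s * b ^ 2) hs0 τ H Y' hH hY'
          rw [prod_pp hdec.hb hdec.hsb]
          calc ∑ h ∈ (S H).filter (fun h => ∀ p ∈ pp b, ¬ p ∣ h),
                ‖Ef 0 τ v rho (s * b ^ 2 * h) ∅ Y'‖ₑ ^ 2
              ≤ ∑ h ∈ S H, ‖Ef 0 τ v rho (s * b ^ 2 * h) ∅ Y'‖ₑ ^ 2 :=
                Finset.sum_le_sum_of_subset (Finset.filter_subset _ _)
            _ = ENNReal.ofReal (∑ h ∈ S H, ‖Ef 0 τ v rho (s * b ^ 2 * h) ∅ Y'‖ ^ 2) := by
                rw [ENNReal.ofReal_sum_of_nonneg (fun _ _ => by positivity)]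
                refine Finset.sum_congr rfl fun x _ => ?_
                rw [ENNReal.ofReal_pow (norm_nonneg _), ofReal_norm]
            _ ≤ _ := by
                rw [← ENNReal.ofReal_mul (by positivity)]
                exact ENNReal.ofReal_le_ofReal h1)
        (Y := Y) hY
      set Q := P \ (pp a ∪ pp b) with hQ
      have hun : ∀ p, p ∈ pp a ∪ (Q ∪ pp b) ↔ p ∈ P := by
        intro p
        rw [hQ, Finset.mem_union, Finset.mem_union, Finset.mem_sdiff, Finset.mem_union]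
        constructor
        · rintro (h | h | h)
          · exact haP h
          · exact h.1
          · exact hbP h
        · intro h
          by_cases h1 : p ∈ pp a
          · exact Or.inl h1
          · by_cases h2 : p ∈ pp b
            · exact Or.inr (Or.inr h2)
            · exact Or.inr (Or.inl ⟨h, fun h' => h'.elim h1 h2⟩)
      set I := (S (D / nT)).filter (fun d => ∀ p ∈ pp a ∪ (Q ∪ pp b), ¬ p ∣ d) with hI
      have hImem : ∀ d ∈ I, IsPrim d ∧ Squarefree d ∧ ∀ p ∈ P, ¬ p ∣ d := by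
        intro d hd
        rw [hI, Finset.mem_filter, mem_S (by positivity)] at hd
        exact ⟨hd.1.2.1, hd.1.2.2, fun p hp => hd.2 p ((hun p).2 hp)⟩
      have hval : ∀ d ∈ I, F (d * ∏ p ∈ T, p) =
          ‖Ef 0 τ v rho (s * (∏ p ∈ pp b, p) ^ 2 * ∏ p ∈ pp d ∪ pp a, p)
            ((pp d ∪ pp a) ∪ (Q ∪ pp b)) Y‖ ^ 2 := by
        intro d hd
        obtain ⟨h1, h2, h3⟩ := hImem d hd
        have hdisj : Disjoint (pp d) (pp a) := by
          rw [Finset.disjoint_left]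
          intro p hp hpT
          exact h3 p (haP hpT) ((mem_pp h1.ne_zero).1 hp).2
        have e1 : ∏ p ∈ pp d ∪ pp a, p = d * a := by
          rw [Finset.prod_union hdisj, prod_pp h1 h2, prod_pp hdec.ha hdec.hsa]
        have hdT : d * ∏ p ∈ T, p ≠ 0 := mul_ne_zero h1.ne_zero hTP.prod_ne_zero
        have e2 : pp (d * ∏ p ∈ T, p) ∪ P = (pp d ∪ pp a) ∪ (Q ∪ pp b) := by
          rw [Finset.union_assoc, pp_mul h1.ne_zero hTP.prod_ne_zero, hTP.pp_prod,
            Finset.union_assoc, Finset.union_eq_right.2 hT']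
          congr 1
          ext p
          exact (hun p).symm
        have e3 : r0 * (d * ∏ p ∈ T, p) = (s * b ^ 2 * (d * a)) * m ^ 3 := by
          have := hdec.heq
          linear_combination d * this
        rw [e1, prod_pp hdec.hb hdec.hsb, ← e2, hF]
        show ‖Lb v τ Y q (r0 * (d * ∏ p ∈ T, p)) - Lm v τ Y q (d * ∏ p ∈ T, p)
          (r0 * (d * ∏ p ∈ T, p))‖ ^ 2 = _
        rw [Lb_eq (P := pp (d * ∏ p ∈ T, p) ∪ P) e3]
        · unfold Lm Ef Mt
          rw [e3, rho_cube_prim hdec.hm]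
        · intro p hp
          rcases Finset.mem_union.1 hp with h | h
          · have := (mem_pp hdT).1 h
            exact ⟨this.1, Or.inr (this.2.trans (dvd_mul_left _ _))⟩
          · have := (mem_pp hq).1 h
            exact ⟨this.1, Or.inl this.2⟩
        · intro p hp h
          exact Finset.mem_union_right _ ((mem_pp hq).2 ⟨hp, h⟩)
        · intro p hp h
          rcases hp.prime.dvd_or_dvd h with h' | h'
          · exact Finset.mem_union_right _ ((mem_pp hq).2 ⟨hp, hrq p hp h'⟩)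
          · exact Finset.mem_union_left _ ((mem_pp hdT).2 ⟨hp, h'⟩)
      have h1 : ∑ u ∈ (S D).filter (fun u => pp u ∩ P = T), F u ≤
          ∑ d ∈ I, F (d * ∏ p ∈ T, p) := by
        have hinj : Set.InjOn (fun d : Eis => d * ∏ p ∈ T, p) I :=
          fun x _ y _ h => mul_right_cancel₀ hTP.prod_ne_zero h
        rw [← Finset.sum_image (f := F) hinj]
        refine Finset.sum_le_sum_of_subset_of_nonneg (fun u hu => ?_)
          (fun _ _ _ => by rw [hF]; positivity)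
        rw [Finset.mem_filter, mem_S hD0.le] at hu
        obtain ⟨d, hd, hds, hdP, hud, _⟩ := fib_eq hP hT' hu.1.2.1 hu.1.2.2 hu.2
        rw [Finset.mem_image]
        refine ⟨d, ?_, hud.symm⟩
        rw [hI, Finset.mem_filter, mem_S (by positivity)]
        refine ⟨⟨?_, hd, hds⟩, fun p hp => hdP p ((hun p).1 hp)⟩
        rw [le_div_iff₀ hnT0]
        have h2 : (nm u : ℝ) = nm d * nT := by rw [hud, nm_mul]; push_cast; rfl
        rw [← h2]; exact hu.1.1
      refine h1.trans ?_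
      rw [Finset.sum_congr rfl hval]
      have h3 : (2 : ℝ) ^ (pp a).card * 4 ^ Q.card ≤ 4 ^ P.card := by
        have hd1 : Disjoint (pp a) Q := by
          rw [Finset.disjoint_left]
          intro p hp hp2
          exact (Finset.mem_sdiff.1 hp2).2 (Finset.mem_union_left _ hp)
        have hsub : pp a ∪ Q ⊆ P := Finset.union_subset haP Finset.sdiff_subset
        have e : (pp a).card + Q.card ≤ P.card := by
          rw [← Finset.card_union_of_disjoint hd1]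
          exact Finset.card_le_card hsub
        calc (2 : ℝ) ^ (pp a).card * 4 ^ Q.card ≤ 4 ^ (pp a).card * 4 ^ Q.card := by
              gcongr; norm_num
          _ = 4 ^ ((pp a).card + Q.card) := (pow_add _ _ _).symm
          _ ≤ 4 ^ P.card := pow_le_pow_right₀ (by norm_num) e
      set B : ℝ := Cτ * D ^ ε * 2 ^ (pp a).card * 4 ^ Q.card *
        ((C1 * (1 + |τ|) ^ ε * (nm (s * b ^ 2) : ℝ) ^ (1 + ε)) *
          (D / nT * nm (∏ p ∈ pp a, p)) ^ ε *
          (D / nT * nm (∏ p ∈ pp a, p) + τ ^ 2) * Y ^ (1 + ε)) with hB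
      have hB0 : 0 ≤ B := by positivity
      have hDn : D / nT * nm (∏ p ∈ pp a, p) ≤ D * nm r0 := by
        rw [prod_pp hdec.ha hdec.hsa, div_mul_eq_mul_div, div_le_iff₀ hnT0]
        calc D * (nm a : ℝ) ≤ D * (nm r0 * nT) := by gcongr
          _ = _ := by ring
      have hBle : B ≤ Bd := by
        rw [hB, hBd]
        have e : Cτ * D ^ ε * 2 ^ (pp a).card * 4 ^ Q.card =
            Cτ * D ^ ε * (2 ^ (pp a).card * 4 ^ Q.card) := by ring
        rw [e]
        have h4 : (nm (s * b ^ 2) : ℝ) ^ (1 + ε) ≤ ((nm r0 : ℝ) ^ 3) ^ (1 + ε) :=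
          Real.rpow_le_rpow (Nat.cast_nonneg _) hsz1 (by positivity)
        have h5 : (D / nT * nm (∏ p ∈ pp a, p)) ^ ε ≤ (D * nm r0) ^ ε :=
          Real.rpow_le_rpow (by positivity) hDn hε.le
        gcongr
      have hreal : ∑ d ∈ I, ‖Ef 0 τ v rho (s * (∏ p ∈ pp b, p) ^ 2 *
          ∏ p ∈ pp d ∪ pp a, p) ((pp d ∪ pp a) ∪ (Q ∪ pp b)) Y‖ ^ 2 ≤ zr * B := by
        have h5 : ENNReal.ofReal (∑ d ∈ I, ‖Ef 0 τ v rho (s * (∏ p ∈ pp b, p) ^ 2 *
          ∏ p ∈ pp d ∪ pp a, p) ((pp d ∪ pp a) ∪ (Q ∪ pp b)) Y‖ ^ 2) ≤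
            (TypeI941.Z ε) ^ 7 * ENNReal.ofReal B := by
          rw [ENNReal.ofReal_sum_of_nonneg (fun _ _ => by positivity)]
          refine le_trans (le_of_eq ?_) hmain
          refine Finset.sum_congr rfl fun x _ => ?_
          rw [ENNReal.ofReal_pow (norm_nonneg _), ofReal_norm]
        have h6 : (TypeI941.Z ε) ^ 7 * ENNReal.ofReal B = ENNReal.ofReal (zr * B) := by
          rw [ENNReal.ofReal_mul hzr0, hzr, ENNReal.ofReal_toReal hZtop]
        rw [h6] at h5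
        exact (ENNReal.ofReal_le_ofReal_iff (by positivity)).mp h5
      exact hreal.trans (mul_le_mul_of_nonneg_left hBle hzr0)
  have hmaps : ∀ u ∈ S D, pp u ∩ P ∈ P.powerset := fun u _ =>
    Finset.mem_powerset.2 Finset.inter_subset_right
  have hBd2 : Bd ≤ (Cτ * D ^ ε) * (2 ^ P.card * 2 ^ P.card) *
      ((C1 * (1 + |τ|) ^ ε) * D ^ ε * (nm r0 : ℝ) ^ 10 * (D + τ ^ 2) * Y ^ (1 + ε)) := by
    rw [hBd]
    have h4 : (4 : ℝ) ^ P.card = 2 ^ P.card * 2 ^ P.card := by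
      rw [← mul_pow]; norm_num
    have h5 : ((nm r0 : ℝ) ^ 3) ^ (1 + ε) ≤ (nm r0 : ℝ) ^ 6 := by
      calc ((nm r0 : ℝ) ^ 3) ^ (1 + ε) ≤ ((nm r0 : ℝ) ^ 3) ^ (2 : ℝ) :=
            Real.rpow_le_rpow_of_exponent_le (one_le_pow₀ hnr1) (by linarith)
        _ = _ := by rw [Real.rpow_two]; ring
    have h6 : (D * nm r0) ^ ε ≤ D ^ ε * nm r0 := by
      rw [Real.mul_rpow hD0.le hnr.le]
      gcongr
      calc (nm r0 : ℝ) ^ ε ≤ (nm r0 : ℝ) ^ (1 : ℝ) :=
            Real.rpow_le_rpow_of_exponent_le hnr1 (by linarith)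
        _ = _ := Real.rpow_one _
    have h7 : D * nm r0 + τ ^ 2 ≤ nm r0 * (D + τ ^ 2) := by nlinarith [sq_nonneg τ]
    rw [h4]
    calc Cτ * D ^ ε * (2 ^ P.card * 2 ^ P.card) *
        (C1 * (1 + |τ|) ^ ε * ((nm r0 : ℝ) ^ 3) ^ (1 + ε) * (D * nm r0) ^ ε *
          (D * nm r0 + τ ^ 2) * Y ^ (1 + ε))
        ≤ Cτ * D ^ ε * (2 ^ P.card * 2 ^ P.card) *
        (C1 * (1 + |τ|) ^ ε * (nm r0 : ℝ) ^ 6 * (D ^ ε * nm r0) *
          (nm r0 * (D + τ ^ 2)) * Y ^ (1 + ε)) := by gcongr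
      _ = Cτ * D ^ ε * (2 ^ P.card * 2 ^ P.card) *
        (C1 * (1 + |τ|) ^ ε * D ^ ε * (nm r0 : ℝ) ^ 8 * (D + τ ^ 2) * Y ^ (1 + ε)) := by ring
      _ ≤ _ := by
        have h8 : (nm r0 : ℝ) ^ 8 ≤ (nm r0 : ℝ) ^ 10 := pow_le_pow_right₀ hnr1 (by norm_num)
        gcongr
  calc ∑ u ∈ S D, F u = ∑ T ∈ P.powerset, ∑ u ∈ (S D).filter (fun u => pp u ∩ P = T), F u :=
        (Finset.sum_fiberwise_of_maps_to hmaps _).symm
    _ ≤ ∑ T ∈ P.powerset, zr * Bd := Finset.sum_le_sum hfib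
    _ = 2 ^ P.card * (zr * Bd) := by
        rw [Finset.sum_const, Finset.card_powerset, nsmul_eq_mul]; push_cast; ring
    _ ≤ 2 ^ P.card * (zr * ((Cτ * D ^ ε) * (2 ^ P.card * 2 ^ P.card) *
          ((C1 * (1 + |τ|) ^ ε) * D ^ ε * (nm r0 : ℝ) ^ 10 * (D + τ ^ 2) * Y ^ (1 + ε)))) := by
        gcongr
    _ = zr * (Cτ * C1) * ((2 : ℝ) ^ P.card) ^ 3 * ((1 + |τ|) ^ ε * (nm r0 : ℝ) ^ 10 *
          (D ^ ε * D ^ ε)) * ((D + τ ^ 2) * Y ^ (1 + ε)) := by ring
    _ ≤ zr * (Cτ * C1) * (Cτ * (nm q : ℝ) ^ ε) ^ 3 * ((1 + |τ|) ^ ε * (nm r0 : ℝ) ^ 10 *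
          (D ^ ε * D ^ ε)) * ((D + τ ^ 2) * Y ^ (1 + ε)) := by
        have h1 : (2 : ℝ) ^ P.card ≤ Cτ * (nm q : ℝ) ^ ε := by
          have h2 : (2 : ℝ) ^ P.card ≤ Div277.tau q := by exact_mod_cast two_pow_pp_le hq
          exact h2.trans (hτ q hq)
        gcongr
    _ = _ := by
        have e1 : D ^ ε * D ^ ε = D ^ (2 * ε) := by
          rw [← Real.rpow_add hD0]; congr 1; ring
        have e2 : (Cτ * (nm q : ℝ) ^ ε) ^ 3 = Cτ ^ 3 * (nm q : ℝ) ^ (3 * ε) := by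
          rw [mul_pow, ← Real.rpow_natCast ((nm q : ℝ) ^ ε) 3, ← Real.rpow_mul (Nat.cast_nonneg _)]
          congr 2
          push_cast; ring
        rw [e1, e2]; ring

end Crest.Agent.R017.PM764
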