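import Crest.Agent.R017.PM1_764

/-!
# Row 17, exceptional class (helper764): one smooth piece, frequencies `r0 γ u`

* `lb_mean2` : `∑ u ∈ S D, ‖Lb (r0 γ u) - main‖² ≤ C (..) (N(γ) D)^(1+3ε) Y^(1+ε)`, `γ` squarefree
  primary: linear loss in `N(γ)`
-/

set_option autoImplicit false

noncomputable section

open scoped ComplexConjugate ENNReal

namespace Crest.Agent.R017.PM764

open Crest.Agent.R012 Crest.Agent.R012.Eis Crest.Agent.R012.Gauss880
open Crest.Agent.R012.LS2 Crest.Agent.R012.Mob705 Crest.Agent.R012.TypeI941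
open Crest.Agent.R012.TI569
open Crest.Agent.R017.PX764

/-- sizes of the decomposition of `r0 γ ∏ T` -/
lemma dec_sizes2 {r0 γ s a b m : Eis} {T : Finset Eis} (hT : PPSet T) (hr0 : r0 ≠ 0)
    (hγ : IsPrim γ) (hγs : Squarefree γ) (h : RDec (r0 * γ * ∏ p ∈ T, p) s a b m) :
    (nm (s * b ^ 2) : ℝ) * nm a ≤ nm r0 * (nm γ * nm (∏ p ∈ T, p)) ∧
      (nm (s * b ^ 2) : ℝ) ≤ (nm r0 : ℝ) ^ 3 * (nm γ * nm (∏ p ∈ T, p)) := by
  have hTn := hT.prod_ne_zero
  have hne : r0 * γ * ∏ p ∈ T, p ≠ 0 := mul_ne_zero (mul_ne_zero hr0 hγ.ne_zero) hTn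
  have hs0 : s ≠ 0 := h.ne_zero hne
  have hsT : IsCoprime s (∏ p ∈ T, p) := by
    refine ((isCoprime_iff_pp hT.isPrim_prod).2 fun p hp _ hps => ?_).symm
    exact h.hr0 p hp hps
  have hsγ : IsCoprime s γ := by
    refine ((isCoprime_iff_pp hγ).2 fun p hp _ hps => ?_).symm
    exact h.hr0 p hp hps
  have hsd : s ∣ r0 := by
    have h1 : s ∣ r0 * γ * ∏ p ∈ T, p := by rw [h.heq]; exact ⟨m ^ 3 * (a * b ^ 2), by ring⟩
    exact hsγ.dvd_of_dvd_mul_right (hsT.dvd_of_dvd_mul_right h1)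
  have key : ∀ p ∈ pp b, p ∣ r0 ∨ (p ∣ γ ∧ p ∣ ∏ p ∈ T, p) := by
    intro p hp
    have hp' := (mem_pp h.hb.ne_zero).1 hp
    have h1 : p ^ 2 ∣ r0 * γ * ∏ p ∈ T, p := by
      rw [h.heq]
      exact ((pow_dvd_pow_of_dvd hp'.2 2).mul_left a).mul_left _
    by_cases hr : p ∣ r0
    · exact Or.inl hr
    · right
      have hc : IsCoprime (p ^ 2) r0 := by
        refine IsCoprime.pow_left ?_
        exact (Irreducible.coprime_iff_not_dvd hp'.1.prime.irreducible).2 hr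
      rw [mul_assoc] at h1
      have h2 : p ^ 2 ∣ γ * ∏ p ∈ T, p := hc.dvd_of_dvd_mul_left h1
      constructor
      · by_contra hn
        have hc2 : IsCoprime (p ^ 2) γ := by
          refine IsCoprime.pow_left ?_
          exact (Irreducible.coprime_iff_not_dvd hp'.1.prime.irreducible).2 hn
        have h3 : p ^ 2 ∣ ∏ p ∈ T, p := hc2.dvd_of_dvd_mul_left h2
        exact hp'.1.prime.not_isUnit (hT.squarefree_prod p (by rw [← pow_two]; exact h3))
      · by_contra hn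
        have hc2 : IsCoprime (p ^ 2) (∏ p ∈ T, p) := by
          refine IsCoprime.pow_left ?_
          exact (Irreducible.coprime_iff_not_dvd hp'.1.prime.irreducible).2 hn
        have h3 : p ^ 2 ∣ γ := hc2.dvd_of_dvd_mul_right h2
        exact hp'.1.prime.not_isUnit (hγs p (by rw [← pow_two]; exact h3))
  have hb1 : b ∣ r0 * γ := by
    rw [← prod_pp h.hb h.hsb, (ppSet_pp b).prod_dvd]
    intro p hp
    rcases key p hp with h1 | h1
    · exact h1.mul_right _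
    · exact h1.1.mul_left _
  have hb2 : b ∣ r0 * ∏ p ∈ T, p := by
    rw [← prod_pp h.hb h.hsb, (ppSet_pp b).prod_dvd]
    intro p hp
    rcases key p hp with h1 | h1
    · exact h1.mul_right _
    · exact h1.2.mul_left _
  have hn0 : (0 : ℝ) < nm r0 := by exact_mod_cast nm_pos.2 hr0
  have h1 : (nm s : ℝ) ≤ nm r0 := nm_le_of_dvd' hsd hr0
  have h2 : (nm b : ℝ) ≤ nm r0 * nm γ := by
    have := nm_le_of_dvd' hb1 (mul_ne_zero hr0 hγ.ne_zero)
    rw [nm_mul] at this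
    push_cast at this
    exact this
  have h3 : (nm b : ℝ) ≤ nm r0 * nm (∏ p ∈ T, p) := by
    have := nm_le_of_dvd' hb2 (mul_ne_zero hr0 hTn)
    rw [nm_mul] at this
    push_cast at this
    exact this
  have e : (nm (s * b ^ 2) : ℝ) = nm s * (nm b : ℝ) ^ 2 := by
    rw [nm_mul, nm_pow]; push_cast; ring
  constructor
  · have h4 : (nm (s * b ^ 2 * a) : ℝ) ≤ nm (r0 * γ * ∏ p ∈ T, p) :=
      nm_le_of_dvd' (by rw [h.heq]; exact ⟨m ^ 3, by ring⟩) hne
    rw [nm_mul, nm_mul (r0 * γ), nm_mul r0] at h4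
    push_cast at h4 ⊢
    linarith
  · rw [e]
    calc (nm s : ℝ) * (nm b : ℝ) ^ 2 = nm s * (nm b * nm b) := by ring
      _ ≤ nm r0 * ((nm r0 * nm γ) * (nm r0 * nm (∏ p ∈ T, p))) := by gcongr
      _ = _ := by ring

set_option maxHeartbeats 2000000 in
open Classical in
/-- **mean square of one smooth piece**, all lengths, frequencies `r0 γ u` -/
theorem lb_mean2 {v : ℝ → ℂ} (hv : M49.Wt v) {ε : ℝ} (hε : 0 < ε) (hε1 : ε ≤ 1 / 2) :
    ∃ C : ℝ, 0 ≤ C ∧ ∀ r0 γ : Eis, r0 ≠ 0 → IsPrim γ → Squarefree γ → ∀ q : Eis, q ≠ 0 →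
      (∀ p, IsPP p → p ∣ r0 * γ → p ∣ q) → ∀ τ D Y : ℝ, 1 ≤ D → 0 < Y →
      ∑ u ∈ S D, ‖Lb v τ Y q (r0 * γ * u) - Lm v τ Y q u (r0 * γ * u)‖ ^ 2 ≤
        C * ((1 + |τ|) ^ 3 * (nm r0 : ℝ) ^ 10 * (nm q : ℝ) ^ (3 * ε)) *
          ((nm γ * D) ^ (1 + 3 * ε) * Y ^ (1 + ε)) := by
  obtain ⟨C1, hC1, hM⟩ := hM_of_MS rho_MS 0 hv hε hε1
  obtain ⟨Cτ, hCτ, hτ⟩ := Div277.tau_le_rpow hε
  have hCτ0 : 0 ≤ Cτ := by linarith
  have hZtop : (TypeI941.Z ε) ^ 7 ≠ ⊤ := ENNReal.pow_ne_top (Z_lt_top hε).ne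
  set zr : ℝ := ((TypeI941.Z ε) ^ 7).toReal with hzr
  have hzr0 : 0 ≤ zr := ENNReal.toReal_nonneg
  refine ⟨zr * (Cτ * C1) * Cτ ^ 3, by positivity, ?_⟩
  intro r0 γ hr00 hγ hγs q hq hrq τ D Y hD hY
  have hrγ : r0 * γ ≠ 0 := mul_ne_zero hr00 hγ.ne_zero
  have hΓ1 : (1 : ℝ) ≤ nm γ := by exact_mod_cast nm_pos.2 hγ.ne_zero
  have hΓ0 : (0 : ℝ) < nm γ := by linarith
  have hD0 : 0 < D := by linarith
  set P := pp q with hPdef
  have hP : PPSet P := ppSet_pp q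
  set F : Eis → ℝ := fun u => ‖Lb v τ Y q (r0 * γ * u) - Lm v τ Y q u (r0 * γ * u)‖ ^ 2 with hF
  have hnr : (0 : ℝ) < nm r0 := by exact_mod_cast nm_pos.2 hr00
  have hnr1 : (1 : ℝ) ≤ nm r0 := by exact_mod_cast nm_pos.2 hr00
  set Bd : ℝ := (Cτ * D ^ ε) * 4 ^ P.card *
    (C1 * (1 + |τ|) ^ ε * (((nm r0 : ℝ) ^ 3 * (nm γ * D)) ^ ε * (nm r0 * (nm γ * D)) ^ ε *
      ((nm r0 : ℝ) ^ 3 * (nm γ * D) * (1 + τ ^ 2))) * Y ^ (1 + ε)) with hBd
  have hBd0 : 0 ≤ Bd := by positivity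
  -- one fibre
  have hfib : ∀ T ∈ P.powerset, ∑ u ∈ (S D).filter (fun u => pp u ∩ P = T), F u ≤ zr * Bd := by
    intro T hT
    have hT' : T ⊆ P := Finset.mem_powerset.1 hT
    have hTP : PPSet T := hP.subset hT'
    set nT : ℝ := (nm (∏ p ∈ T, p) : ℝ) with hnT
    have hnT1 : 1 ≤ nT := one_le_nm_prod hTP
    have hnT0 : 0 < nT := by linarith
    by_cases hDT : D / nT < 1
    · have hemp : (S D).filter (fun u => pp u ∩ P = T) = ∅ := by
        rw [Finset.filter_eq_empty_iff]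
        intro u hu h
        rw [mem_S hD0.le] at hu
        obtain ⟨d, hd, _, _, hud, _⟩ := fib_eq hP hT' hu.2.1 hu.2.2 h
        rw [div_lt_one hnT0] at hDT
        have h1 : (1 : ℝ) ≤ nm d := by exact_mod_cast nm_pos.2 hd.ne_zero
        have h2 : (nm u : ℝ) = nm d * nT := by rw [hud, nm_mul]; push_cast; rfl
        nlinarith [hu.1]
      rw [hemp, Finset.sum_empty]
      positivity
    · push Not at hDT
      have hne : r0 * γ * ∏ p ∈ T, p ≠ 0 := mul_ne_zero hrγ hTP.prod_ne_zero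
      obtain ⟨s, a, b, m, hdec⟩ := exists_dec hne
      obtain ⟨hsz1, hsz2⟩ := dec_sizes2 hTP hr00 hγ hγs hdec
      have hs0 : s * b ^ 2 ≠ 0 := mul_ne_zero (hdec.ne_zero hne) (pow_ne_zero _ hdec.hb.ne_zero)
      have hrP : ∀ p, IsPP p → p ∣ r0 * γ * ∏ p ∈ T, p → p ∈ P := by
        intro p hp hd
        rw [hPdef, mem_pp hq]
        refine ⟨hp, ?_⟩
        rcases hp.prime.dvd_or_dvd hd with h | h
        · exact hrq p hp h
        · exact ((mem_pp hq).1 (hT' ((hTP.dvd_prod hp).1 h))).2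
      have haP : pp a ⊆ P := by
        intro p hp
        have := (mem_pp hdec.ha.ne_zero).1 hp
        refine hrP p this.1 (this.2.trans ?_)
        rw [hdec.heq]; exact ⟨s * m ^ 3 * b ^ 2, by ring⟩
      have hbP : pp b ⊆ P := by
        intro p hp
        have := (mem_pp hdec.hb.ne_zero).1 hp
        refine hrP p this.1 (this.2.trans ?_)
        rw [hdec.heq]; exact ⟨s * m ^ 3 * (a * b), by ring⟩
      have hmain := (rec_Ef rho_rel hv 0 τ).meanSq (P1 := pp a) (P2 := P \ (pp a ∪ pp b))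
        (P3 := pp b)
        (ppSet_pp a) (hP.subset Finset.sdiff_subset) (ppSet_pp b)
        (by
          rw [Finset.disjoint_left]
          intro p hp hp2
          exact (Finset.mem_sdiff.1 hp2).2 (Finset.mem_union_left _ hp))
        (pp_disjoint hdec.hab)
        (by
          rw [Finset.disjoint_left]
          intro p hp hp2
          exact (Finset.mem_sdiff.1 hp).2 (Finset.mem_union_right _ hp2))
        (r0 := s) hdec.hr0 (ε := ε)
        (K := C1 * (1 + |τ|) ^ ε * (nm (s * b ^ 2) : ℝ) ^ (1 + ε)) (τ := τ ^ 2)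
        (Λ := Cτ * D ^ ε) (D := D / nT) hε (by positivity) (by positivity) hDT
        (by
          intro d hd
          rw [mem_S (by positivity)] at hd
          have h1 := hτ d hd.2.1.ne_zero
          have h2 : (2 : ℝ) ^ (pp d).card ≤ Div277.tau d := by
            exact_mod_cast two_pow_pp_le hd.2.1.ne_zero
          refine h2.trans (h1.trans ?_)
          have h3 : (nm d : ℝ) ≤ D := hd.1.trans (div_le_self hD0.le hnT1)
          gcongr)
        (by
          intro H hH Y' hY'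
          have h1 := hM (s * b ^ 2) hs0 τ H Y' hH hY'
          rw [prod_pp hdec.hb hdec.hsb]
          calc ∑ h ∈ (S H).filter (fun h => ∀ p ∈ pp b, ¬ p ∣ h),
                ‖Ef 0 τ v rho (s * b ^ 2 * h) ∅ Y'‖ₑ ^ 2
              ≤ ∑ h ∈ S H, ‖Ef 0 τ v rho (s * b ^ 2 * h) ∅ Y'‖ₑ ^ 2 :=
                Finset.sum_le_sum_of_subset (Finset.filter_subset _ _)
            _ = ENNReal.ofReal (∑ h ∈ S H, ‖Ef 0 τ v rho (s * b ^ 2 * h) ∅ Y'‖ ^ 2) := by
                rw [ENNReal.ofReal_sum_of_nonneg (fun _ _ => by positivity)]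
                refine Finset.sum_congr rfl fun x _ => ?_
                rw [ENNReal.ofReal_pow (norm_nonneg _), ofReal_norm]
            _ ≤ _ := by
                rw [← ENNReal.ofReal_mul (by positivity)]
                exact ENNReal.ofReal_le_ofReal h1)
        (Y := Y) hY
      set Q := P \ (pp a ∪ pp b) with hQ
      have hun : ∀ p, p ∈ pp a ∪ (Q ∪ pp b) ↔ p ∈ P := by
        intro p
        rw [hQ, Finset.mem_union, Finset.mem_union, Finset.mem_sdiff, Finset.mem_union]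
        constructor
        · rintro (h | h | h)
          · exact haP h
          · exact h.1
          · exact hbP h
        · intro h
          by_cases h1 : p ∈ pp a
          · exact Or.inl h1
          · by_cases h2 : p ∈ pp b
            · exact Or.inr (Or.inr h2)
            · exact Or.inr (Or.inl ⟨h, fun h' => h'.elim h1 h2⟩)
      set I := (S (D / nT)).filter (fun d => ∀ p ∈ pp a ∪ (Q ∪ pp b), ¬ p ∣ d) with hI
      have hImem : ∀ d ∈ I, IsPrim d ∧ Squarefree d ∧ ∀ p ∈ P, ¬ p ∣ d := by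
        intro d hd
        rw [hI, Finset.mem_filter, mem_S (by positivity)] at hd
        exact ⟨hd.1.2.1, hd.1.2.2, fun p hp => hd.2 p ((hun p).2 hp)⟩
      have hval : ∀ d ∈ I, F (d * ∏ p ∈ T, p) =
          ‖Ef 0 τ v rho (s * (∏ p ∈ pp b, p) ^ 2 * ∏ p ∈ pp d ∪ pp a, p)
            ((pp d ∪ pp a) ∪ (Q ∪ pp b)) Y‖ ^ 2 := by
        intro d hd
        obtain ⟨h1, h2, h3⟩ := hImem d hd
        have hdisj : Disjoint (pp d) (pp a) := by
          rw [Finset.disjoint_left]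
          intro p hp hpT
          exact h3 p (haP hpT) ((mem_pp h1.ne_zero).1 hp).2
        have e1 : ∏ p ∈ pp d ∪ pp a, p = d * a := by
          rw [Finset.prod_union hdisj, prod_pp h1 h2, prod_pp hdec.ha hdec.hsa]
        have hdT : d * ∏ p ∈ T, p ≠ 0 := mul_ne_zero h1.ne_zero hTP.prod_ne_zero
        have e2 : pp (d * ∏ p ∈ T, p) ∪ P = (pp d ∪ pp a) ∪ (Q ∪ pp b) := by
          rw [Finset.union_assoc, pp_mul h1.ne_zero hTP.prod_ne_zero, hTP.pp_prod,
            Finset.union_assoc, Finset.union_eq_right.2 hT']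
          congr 1
          ext p
          exact (hun p).symm
        have e3 : r0 * γ * (d * ∏ p ∈ T, p) = (s * b ^ 2 * (d * a)) * m ^ 3 := by
          have := hdec.heq
          linear_combination d * this
        rw [e1, prod_pp hdec.hb hdec.hsb, ← e2, hF]
        show ‖Lb v τ Y q (r0 * γ * (d * ∏ p ∈ T, p)) - Lm v τ Y q (d * ∏ p ∈ T, p)
          (r0 * γ * (d * ∏ p ∈ T, p))‖ ^ 2 = _
        rw [Lb_eq (P := pp (d * ∏ p ∈ T, p) ∪ P) e3]
        · unfold Lm Ef Mt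
          rw [e3, rho_cube_prim hdec.hm]
        · intro p hp
          rcases Finset.mem_union.1 hp with h | h
          · have := (mem_pp hdT).1 h
            exact ⟨this.1, Or.inr (this.2.trans (dvd_mul_left _ _))⟩
          · have := (mem_pp hq).1 h
            exact ⟨this.1, Or.inl this.2⟩
        · intro p hp h
          exact Finset.mem_union_right _ ((mem_pp hq).2 ⟨hp, h⟩)
        · intro p hp h
          rcases hp.prime.dvd_or_dvd h with h' | h'
          · exact Finset.mem_union_right _ ((mem_pp hq).2 ⟨hp, hrq p hp h'⟩)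
          · exact Finset.mem_union_left _ ((mem_pp hdT).2 ⟨hp, h'⟩)
      have h1 : ∑ u ∈ (S D).filter (fun u => pp u ∩ P = T), F u ≤
          ∑ d ∈ I, F (d * ∏ p ∈ T, p) := by
        have hinj : Set.InjOn (fun d : Eis => d * ∏ p ∈ T, p) I :=
          fun x _ y _ h => mul_right_cancel₀ hTP.prod_ne_zero h
        rw [← Finset.sum_image (f := F) hinj]
        refine Finset.sum_le_sum_of_subset_of_nonneg (fun u hu => ?_)
          (fun _ _ _ => by rw [hF]; positivity)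
        rw [Finset.mem_filter, mem_S hD0.le] at hu
        obtain ⟨d, hd, hds, hdP, hud, _⟩ := fib_eq hP hT' hu.1.2.1 hu.1.2.2 hu.2
        rw [Finset.mem_image]
        refine ⟨d, ?_, hud.symm⟩
        rw [hI, Finset.mem_filter, mem_S (by positivity)]
        refine ⟨⟨?_, hd, hds⟩, fun p hp => hdP p ((hun p).1 hp)⟩
        rw [le_div_iff₀ hnT0]
        have h2 : (nm u : ℝ) = nm d * nT := by rw [hud, nm_mul]; push_cast; rfl
        rw [← h2]; exact hu.1.1
      refine h1.trans ?_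
      rw [Finset.sum_congr rfl hval]
      have h3 : (2 : ℝ) ^ (pp a).card * 4 ^ Q.card ≤ 4 ^ P.card := by
        have hd1 : Disjoint (pp a) Q := by
          rw [Finset.disjoint_left]
          intro p hp hp2
          exact (Finset.mem_sdiff.1 hp2).2 (Finset.mem_union_left _ hp)
        have hsub : pp a ∪ Q ⊆ P := Finset.union_subset haP Finset.sdiff_subset
        have e : (pp a).card + Q.card ≤ P.card := by
          rw [← Finset.card_union_of_disjoint hd1]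
          exact Finset.card_le_card hsub
        calc (2 : ℝ) ^ (pp a).card * 4 ^ Q.card ≤ 4 ^ (pp a).card * 4 ^ Q.card := by
              gcongr; norm_num
          _ = 4 ^ ((pp a).card + Q.card) := (pow_add _ _ _).symm
          _ ≤ 4 ^ P.card := pow_le_pow_right₀ (by norm_num) e
      set B : ℝ := Cτ * D ^ ε * 2 ^ (pp a).card * 4 ^ Q.card *
        ((C1 * (1 + |τ|) ^ ε * (nm (s * b ^ 2) : ℝ) ^ (1 + ε)) *
          (D / nT * nm (∏ p ∈ pp a, p)) ^ ε *
          (D / nT * nm (∏ p ∈ pp a, p) + τ ^ 2) * Y ^ (1 + ε)) with hB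
      have hB0 : 0 ≤ B := by positivity
      have hpa : (nm (∏ p ∈ pp a, p) : ℝ) = nm a := by rw [prod_pp hdec.ha hdec.hsa]
      have hsb1 : (1 : ℝ) ≤ nm (s * b ^ 2) := by exact_mod_cast nm_pos.2 hs0
      have hsba : (nm (s * b ^ 2) : ℝ) * (D / nT * nm (∏ p ∈ pp a, p)) ≤ nm r0 * (nm γ * D) := by
        rw [hpa]
        calc (nm (s * b ^ 2) : ℝ) * (D / nT * nm a) = (nm (s * b ^ 2) * nm a) * D / nT := by ring
          _ ≤ (nm r0 * (nm γ * nT)) * D / nT := by gcongr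
          _ = _ := by field_simp
      have hDn : D / nT * nm (∏ p ∈ pp a, p) ≤ nm r0 * (nm γ * D) :=
        (le_mul_of_one_le_left (by positivity) hsb1).trans hsba
      have hnTD : nT ≤ D := by
        have := (le_div_iff₀ hnT0).1 hDT
        linarith
      have hsb2 : (nm (s * b ^ 2) : ℝ) ≤ (nm r0 : ℝ) ^ 3 * (nm γ * D) :=
        hsz2.trans (by gcongr)
      have hBle : B ≤ Bd := by
        rw [hB, hBd]
        have e : Cτ * D ^ ε * 2 ^ (pp a).card * 4 ^ Q.card =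
            Cτ * D ^ ε * (2 ^ (pp a).card * 4 ^ Q.card) := by ring
        rw [e]
        have h4 : (nm (s * b ^ 2) : ℝ) ^ ε ≤ ((nm r0 : ℝ) ^ 3 * (nm γ * D)) ^ ε :=
          Real.rpow_le_rpow (Nat.cast_nonneg _) hsb2 hε.le
        have h5 : (D / nT * nm (∏ p ∈ pp a, p)) ^ ε ≤ (nm r0 * (nm γ * D)) ^ ε :=
          Real.rpow_le_rpow (by positivity) hDn hε.le
        have h6 : (nm (s * b ^ 2) : ℝ) * (D / nT * nm (∏ p ∈ pp a, p) + τ ^ 2) ≤
            (nm r0 : ℝ) ^ 3 * (nm γ * D) * (1 + τ ^ 2) := by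
          have h7 : (nm r0 : ℝ) * (nm γ * D) ≤ (nm r0 : ℝ) ^ 3 * (nm γ * D) := by
            have : (nm r0 : ℝ) ≤ (nm r0 : ℝ) ^ 3 := le_self_pow₀ hnr1 (by norm_num)
            gcongr
          have h8 : (nm (s * b ^ 2) : ℝ) * τ ^ 2 ≤ (nm r0 : ℝ) ^ 3 * (nm γ * D) * τ ^ 2 := by
            gcongr
          nlinarith
        have h7 : (nm (s * b ^ 2) : ℝ) ^ (1 + ε) = nm (s * b ^ 2) * (nm (s * b ^ 2) : ℝ) ^ ε := by
          rw [Real.rpow_add (by linarith), Real.rpow_one]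
        rw [h7]
        calc Cτ * D ^ ε * (2 ^ (pp a).card * 4 ^ Q.card) *
            (C1 * (1 + |τ|) ^ ε * (nm (s * b ^ 2) * (nm (s * b ^ 2) : ℝ) ^ ε) *
              (D / nT * nm (∏ p ∈ pp a, p)) ^ ε * (D / nT * nm (∏ p ∈ pp a, p) + τ ^ 2) *
                Y ^ (1 + ε))
            = Cτ * D ^ ε * (2 ^ (pp a).card * 4 ^ Q.card) *
            (C1 * (1 + |τ|) ^ ε * ((nm (s * b ^ 2) : ℝ) ^ ε *
              (D / nT * nm (∏ p ∈ pp a, p)) ^ ε *
              (nm (s * b ^ 2) * (D / nT * nm (∏ p ∈ pp a, p) + τ ^ 2))) * Y ^ (1 + ε)) := by ring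
          _ ≤ _ := by gcongr
      have hreal : ∑ d ∈ I, ‖Ef 0 τ v rho (s * (∏ p ∈ pp b, p) ^ 2 *
          ∏ p ∈ pp d ∪ pp a, p) ((pp d ∪ pp a) ∪ (Q ∪ pp b)) Y‖ ^ 2 ≤ zr * B := by
        have h5 : ENNReal.ofReal (∑ d ∈ I, ‖Ef 0 τ v rho (s * (∏ p ∈ pp b, p) ^ 2 *
          ∏ p ∈ pp d ∪ pp a, p) ((pp d ∪ pp a) ∪ (Q ∪ pp b)) Y‖ ^ 2) ≤
            (TypeI941.Z ε) ^ 7 * ENNReal.ofReal B := by
          rw [ENNReal.ofReal_sum_of_nonneg (fun _ _ => by positivity)]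
          refine le_trans (le_of_eq ?_) hmain
          refine Finset.sum_congr rfl fun x _ => ?_
          rw [ENNReal.ofReal_pow (norm_nonneg _), ofReal_norm]
        have h6 : (TypeI941.Z ε) ^ 7 * ENNReal.ofReal B = ENNReal.ofReal (zr * B) := by
          rw [ENNReal.ofReal_mul hzr0, hzr, ENNReal.ofReal_toReal hZtop]
        rw [h6] at h5
        exact (ENNReal.ofReal_le_ofReal_iff (by positivity)).mp h5
      exact hreal.trans (mul_le_mul_of_nonneg_left hBle hzr0)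
  have hmaps : ∀ u ∈ S D, pp u ∩ P ∈ P.powerset := fun u _ =>
    Finset.mem_powerset.2 Finset.inter_subset_right
  have hBd2 : Bd ≤ Cτ * (2 ^ P.card * 2 ^ P.card) * (C1 * ((1 + |τ|) ^ 3 * (nm r0 : ℝ) ^ 10) *
      ((nm γ * D) ^ (1 + 3 * ε) * Y ^ (1 + ε))) := by
    rw [hBd]
    have h4 : (4 : ℝ) ^ P.card = 2 ^ P.card * 2 ^ P.card := by
      rw [← mul_pow]; norm_num
    have hGD : 0 < nm γ * D := by positivity
    have h5 : ((nm r0 : ℝ) ^ 3 * (nm γ * D)) ^ ε ≤ (nm r0 : ℝ) ^ 3 * (nm γ * D) ^ ε := by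
      rw [Real.mul_rpow (by positivity) (by positivity)]
      gcongr
      calc ((nm r0 : ℝ) ^ 3) ^ ε ≤ ((nm r0 : ℝ) ^ 3) ^ (1 : ℝ) :=
            Real.rpow_le_rpow_of_exponent_le (one_le_pow₀ hnr1) (by linarith)
        _ = _ := Real.rpow_one _
    have h6 : (nm r0 * (nm γ * D)) ^ ε ≤ nm r0 * (nm γ * D) ^ ε := by
      rw [Real.mul_rpow (by positivity) (by positivity)]
      gcongr
      calc (nm r0 : ℝ) ^ ε ≤ (nm r0 : ℝ) ^ (1 : ℝ) :=
            Real.rpow_le_rpow_of_exponent_le hnr1 (by linarith)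
        _ = _ := Real.rpow_one _
    have h7 : D ^ ε ≤ (nm γ * D) ^ ε :=
      Real.rpow_le_rpow hD0.le (le_mul_of_one_le_left hD0.le hΓ1) hε.le
    have h8 : (1 + |τ|) ^ ε * (1 + τ ^ 2) ≤ (1 + |τ|) ^ 3 := by
      have h9 : (1 + |τ|) ^ ε ≤ (1 + |τ|) := by
        calc (1 + |τ|) ^ ε ≤ (1 + |τ|) ^ (1 : ℝ) :=
              Real.rpow_le_rpow_of_exponent_le (by linarith [abs_nonneg τ]) (by linarith)
          _ = _ := Real.rpow_one _
      have h10 : 1 + τ ^ 2 ≤ (1 + |τ|) ^ 2 := by nlinarith [abs_nonneg τ, sq_abs τ]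
      calc (1 + |τ|) ^ ε * (1 + τ ^ 2) ≤ (1 + |τ|) * (1 + |τ|) ^ 2 := by gcongr
        _ = _ := by ring
    have h11 : (nm γ * D) ^ (1 + 3 * ε) = (nm γ * D) ^ ε * (nm γ * D) ^ ε * (nm γ * D) ^ ε *
        (nm γ * D) := by
      rw [← Real.rpow_add hGD, ← Real.rpow_add hGD]
      nth_rewrite 3 [← Real.rpow_one (nm γ * D)]
      rw [← Real.rpow_add hGD]
      congr 1; ring
    rw [h4, h11]
    calc Cτ * D ^ ε * (2 ^ P.card * 2 ^ P.card) *
        (C1 * (1 + |τ|) ^ ε * (((nm r0 : ℝ) ^ 3 * (nm γ * D)) ^ ε * (nm r0 * (nm γ * D)) ^ ε *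
          ((nm r0 : ℝ) ^ 3 * (nm γ * D) * (1 + τ ^ 2))) * Y ^ (1 + ε))
        ≤ Cτ * (nm γ * D) ^ ε * (2 ^ P.card * 2 ^ P.card) *
        (C1 * (1 + |τ|) ^ ε * (((nm r0 : ℝ) ^ 3 * (nm γ * D) ^ ε) * (nm r0 * (nm γ * D) ^ ε) *
          ((nm r0 : ℝ) ^ 3 * (nm γ * D) * (1 + τ ^ 2))) * Y ^ (1 + ε)) := by gcongr
      _ = Cτ * (2 ^ P.card * 2 ^ P.card) * (C1 * (((1 + |τ|) ^ ε * (1 + τ ^ 2)) *
          (nm r0 : ℝ) ^ 7) * (((nm γ * D) ^ ε * (nm γ * D) ^ ε * (nm γ * D) ^ ε *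
        (nm γ * D)) * Y ^ (1 + ε))) := by ring
      _ ≤ _ := by
        have h12 : (nm r0 : ℝ) ^ 7 ≤ (nm r0 : ℝ) ^ 10 := pow_le_pow_right₀ hnr1 (by norm_num)
        gcongr
  calc ∑ u ∈ S D, F u = ∑ T ∈ P.powerset, ∑ u ∈ (S D).filter (fun u => pp u ∩ P = T), F u :=
        (Finset.sum_fiberwise_of_maps_to hmaps _).symm
    _ ≤ ∑ T ∈ P.powerset, zr * Bd := Finset.sum_le_sum hfib
    _ = 2 ^ P.card * (zr * Bd) := by
        rw [Finset.sum_const, Finset.card_powerset, nsmul_eq_mul]; push_cast; ring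
    _ ≤ 2 ^ P.card * (zr * (Cτ * (2 ^ P.card * 2 ^ P.card) *
          (C1 * ((1 + |τ|) ^ 3 * (nm r0 : ℝ) ^ 10) *
            ((nm γ * D) ^ (1 + 3 * ε) * Y ^ (1 + ε))))) := by
        gcongr
    _ = zr * (Cτ * C1) * ((2 : ℝ) ^ P.card) ^ 3 * ((1 + |τ|) ^ 3 * (nm r0 : ℝ) ^ 10) *
          ((nm γ * D) ^ (1 + 3 * ε) * Y ^ (1 + ε)) := by ring
    _ ≤ zr * (Cτ * C1) * (Cτ * (nm q : ℝ) ^ ε) ^ 3 * ((1 + |τ|) ^ 3 * (nm r0 : ℝ) ^ 10) *
          ((nm γ * D) ^ (1 + 3 * ε) * Y ^ (1 + ε)) := by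
        have h1 : (2 : ℝ) ^ P.card ≤ Cτ * (nm q : ℝ) ^ ε := by
          have h2 : (2 : ℝ) ^ P.card ≤ Div277.tau q := by exact_mod_cast two_pow_pp_le hq
          exact h2.trans (hτ q hq)
        gcongr
    _ = _ := by
        have e2 : (Cτ * (nm q : ℝ) ^ ε) ^ 3 = Cτ ^ 3 * (nm q : ℝ) ^ (3 * ε) := by
          rw [mul_pow, ← Real.rpow_natCast ((nm q : ℝ) ^ ε) 3, ← Real.rpow_mul (Nat.cast_nonneg _)]
          congr 2
          push_cast; ring
        rw [e2]; ring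

end Crest.Agent.R017.PM764
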