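import Crest.Agent.R017.X6b_792
import Crest.Agent.R017.PX1_764
import Crest.Agent.R017.P3th_283

/-!
# Row 17, exceptional class (helper792): the windows of the cross term, weight `th`

* `th_dec` : `th x ≠ 0` forces `x = t c³ a` with `nm t ≤ 27`, `a` primary squarefree, and then
  `‖th x‖ ≤ nm a ^ (-1/6)`
* `th_sum` : `∑ x ∈ bl L, ‖th x‖ F x ≤ ∑ t c, ∑ a ∈ S (L / nm c ^ 3), nm a ^ (-1/6) F (t c³ a)`
* `X6b_th` : `∑ x ∈ bl L, ‖th x‖ ‖TG2 Bs β α (q x)‖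
    ≤ C (L B A)^ε L^(1/3) (L B + A + (L B A)^(2/3))^(1/2) ‖β‖ ‖α‖` (no loss from squares, cubes)
* `X6b_th_window` : the window.
-/

set_option autoImplicit false

noncomputable section

open Complex
open scoped ComplexConjugate

namespace Crest.Agent.R017.X6b792

open Crest.Agent.R012 Crest.Agent.R012.Eis Crest.Agent.R012.LS2 Crest.Agent.R012.Gauss880
open Crest.Agent.R017.CM106
open Crest.Agent.R017.PX764 (th n6 Gh th_cube_all th_mul th_two n6_pos n6_le_one norm_Gh_one)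
open Crest.Agent.R017.P3all283 (norm_th_le)

/-- the shape of the frequencies with `th x ≠ 0` -/
theorem th_dec {x : Eis} (hx : x ≠ 0) (h : th x ≠ 0) :
    ∃ t c a : Eis, t ≠ 0 ∧ nm t ≤ 27 ∧ c ≠ 0 ∧ IsPrim a ∧ Squarefree a ∧
      x = t * c ^ 3 * a ∧ ‖th x‖ ≤ n6 a := by
  obtain ⟨k, u, m, hu, hm, hxe⟩ := CharSum852.exists_decomp hx
  obtain ⟨k1, k2, m', h1, h2, h3, s1, s2, hcop, hme⟩ := Char766.exists_prim_cubic_decomp hm
  set t : Eis := lam ^ (k % 3) * u with ht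
  set c : Eis := lam ^ (k / 3) * m' with hc
  have ht0 : t ≠ 0 := mul_ne_zero (pow_ne_zero _ lam_ne_zero) hu.ne_zero
  have hc0 : c ≠ 0 := mul_ne_zero (pow_ne_zero _ lam_ne_zero) h3.ne_zero
  have hlk : lam ^ k = lam ^ (k % 3) * (lam ^ (k / 3)) ^ 3 := by
    rw [← pow_mul, ← pow_add]
    congr 1
    omega
  have e1 : x = (t * (k1 * k2 ^ 2)) * c ^ 3 := by
    rw [hxe, hme, hlk, ht, hc]; ring
  have hcopt : ∀ b : Eis, IsPrim b → IsCoprime t b := by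
    intro b hb
    rw [ht]
    have hub : IsCoprime u b := by
      obtain ⟨v, rfl⟩ := hu
      exact ⟨((v⁻¹ : Eisˣ) : Eis), 0, by simp⟩
    exact IsCoprime.mul_left (hb.isCoprime_lam.symm.pow_left) hub
  have hth : th x = th (t * (k1 * k2 ^ 2)) := by
    rw [e1, th_cube_all hc0]
  have hk2 : k2 = 1 := by
    by_contra hne
    obtain ⟨p, hp, hpp, s, hs⟩ := Char766.exists_prim_prime_dvd h2 hne
    apply h
    rw [hth, show t * (k1 * k2 ^ 2) = (t * k1 * s ^ 2) * p ^ 2 by rw [hs]; ring]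
    refine th_two hp hpp ?_
    intro hd
    have hps : ¬ p ∣ s := by
      rintro ⟨r, hr⟩
      exact hp.not_isUnit (s2 p ⟨r, by rw [hs, hr]; ring⟩)
    rcases hp.dvd_or_dvd hd with hd | hd
    · rcases hp.dvd_or_dvd hd with hd | hd
      · exact hp.not_isUnit ((hcopt p hpp).isUnit_of_dvd' hd dvd_rfl)
      · exact hp.not_isUnit (hcop.isUnit_of_dvd' hd ⟨s, hs⟩)
    · exact hps (hp.dvd_of_dvd_pow hd)
  refine ⟨t, c, k1, ht0, ?_, hc0, h1, s1, ?_, ?_⟩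
  · rw [ht, nm_mul, nm_pow, nm_lam, isUnit_iff.mp hu, mul_one]
    have : k % 3 < 3 := Nat.mod_lt _ (by norm_num)
    calc 3 ^ (k % 3) ≤ 3 ^ 3 := Nat.pow_le_pow_right (by norm_num) this.le
      _ = 27 := by norm_num
  · rw [e1, hk2]; ring
  · rw [hth, hk2, one_pow, mul_one, th_mul h1 s1 (hcopt k1 h1), norm_mul, norm_mul,
      RCLike.norm_conj, norm_Gh_one h1 s1 (hcopt k1 h1), one_mul, Complex.norm_real,
      Real.norm_of_nonneg (n6_pos h1.ne_zero).le]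
    exact mul_le_of_le_one_right (n6_pos h1.ne_zero).le (norm_th_le ht0)

/-- sums over frequencies with the weight `th` -/
theorem th_sum {L : ℝ} (hL : 0 ≤ L) (F : Eis → ℝ) (hF : ∀ r, 0 ≤ F r) :
    ∑ x ∈ bl L, ‖th x‖ * F x ≤ ∑ t ∈ bl 27, ∑ c ∈ bl L, ∑ a ∈ S (L / (nm c : ℝ) ^ 3),
      n6 a * F (t * c ^ 3 * a) := by
  classical
  have hex : ∀ l : Eis, ∃ x : Eis × Eis × Eis, l ≠ 0 → th l ≠ 0 →
      (x.1 ≠ 0 ∧ nm x.1 ≤ 27 ∧ x.2.1 ≠ 0 ∧ IsPrim x.2.2 ∧ Squarefree x.2.2 ∧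
        l = x.1 * x.2.1 ^ 3 * x.2.2 ∧ ‖th l‖ ≤ n6 x.2.2) := by
    intro l
    by_cases h0 : l = 0
    · exact ⟨(0, 0, 0), fun h => absurd h0 h⟩
    · by_cases h1 : th l = 0
      · exact ⟨(0, 0, 0), fun _ h => absurd h1 h⟩
      · obtain ⟨t, c, a, h⟩ := th_dec h0 h1
        exact ⟨(t, c, a), fun _ _ => h⟩
  choose g hg using hex
  set P : Finset (Eis × Eis × Eis) := bl 27 ×ˢ (bl L ×ˢ S L) with hP
  set Q : Finset (Eis × Eis × Eis) := P.filter (fun x => x.2.2 ∈ S (L / (nm x.2.1 : ℝ) ^ 3))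
    with hQ
  have hSsub : ∀ c ∈ bl L, S (L / (nm c : ℝ) ^ 3) ⊆ S L := by
    intro c hc a ha
    have hc' := ((mem_bl hL).1 hc).1
    have hc1 : (1 : ℝ) ≤ nm c := by exact_mod_cast nm_pos.mpr hc'
    have hc3 : (1 : ℝ) ≤ (nm c : ℝ) ^ 3 := one_le_pow₀ hc1
    have hd : L / (nm c : ℝ) ^ 3 ≤ L := div_le_self hL hc3
    have ha' := (mem_S (by positivity)).1 ha
    exact (mem_S hL).2 ⟨ha'.1.trans hd, ha'.2⟩
  have hR : ∑ t ∈ bl 27, ∑ c ∈ bl L, ∑ a ∈ S (L / (nm c : ℝ) ^ 3), n6 a * F (t * c ^ 3 * a) =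
      ∑ x ∈ Q, n6 x.2.2 * F (x.1 * x.2.1 ^ 3 * x.2.2) := by
    rw [hQ, Finset.sum_filter, hP, Finset.sum_product]
    refine Finset.sum_congr rfl fun t _ => ?_
    rw [Finset.sum_product]
    refine Finset.sum_congr rfl fun c hc => ?_
    rw [← Finset.sum_filter]
    refine Finset.sum_congr ?_ fun _ _ => rfl
    ext a
    rw [Finset.mem_filter]
    exact ⟨fun h => ⟨hSsub c hc h, h⟩, fun h => h.2⟩
  rw [hR]
  have hl0 : ∀ l ∈ (bl L).filter (fun l => th l ≠ 0), l ≠ 0 ∧ (nm l : ℝ) ≤ L ∧ th l ≠ 0 := by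
    intro l hl
    have h := Finset.mem_filter.1 hl
    exact ⟨((mem_bl hL).1 h.1).1, ((mem_bl hL).1 h.1).2, h.2⟩
  have hinj : Set.InjOn g ((bl L).filter (fun l => th l ≠ 0) : Set Eis) := by
    intro x hx y hy hxy
    have hx' := hl0 x (Finset.mem_coe.1 hx)
    have hy' := hl0 y (Finset.mem_coe.1 hy)
    have h1 := (hg x hx'.1 hx'.2.2).2.2.2.2.2.1
    have h2 := (hg y hy'.1 hy'.2.2).2.2.2.2.2.1
    rw [h1, hxy, ← h2]
  have e0 : ∑ x ∈ bl L, ‖th x‖ * F x =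
      ∑ x ∈ (bl L).filter (fun l => th l ≠ 0), ‖th x‖ * F x := by
    rw [Finset.sum_filter]
    refine Finset.sum_congr rfl fun x _ => ?_
    by_cases h : th x = 0
    · simp [h]
    · simp [h]
  have e1 : ∑ l ∈ (bl L).filter (fun l => th l ≠ 0), ‖th l‖ * F l ≤
      ∑ x ∈ ((bl L).filter (fun l => th l ≠ 0)).image g,
        n6 x.2.2 * F (x.1 * x.2.1 ^ 3 * x.2.2) := by
    rw [Finset.sum_image hinj]
    refine Finset.sum_le_sum fun l hl => ?_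
    have hl' := hl0 l hl
    have h1 := hg l hl'.1 hl'.2.2
    rw [← h1.2.2.2.2.2.1]
    exact mul_le_mul_of_nonneg_right h1.2.2.2.2.2.2 (hF _)
  rw [e0]
  refine e1.trans (Finset.sum_le_sum_of_subset_of_nonneg ?_ ?_)
  · intro x hx
    obtain ⟨l, hl, rfl⟩ := Finset.mem_image.1 hx
    have hl' := hl0 l hl
    obtain ⟨h1, h2, h3, h4, h5, h6, _⟩ := hg l hl'.1 hl'.2.2
    have hn : nm l = nm (g l).1 * nm (g l).2.1 ^ 3 * nm (g l).2.2 := by
      conv_lhs => rw [h6]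
      rw [nm_mul, nm_mul, nm_pow]
    have p1 : 1 ≤ nm (g l).1 := nm_pos.mpr h1
    have p2 : 1 ≤ nm (g l).2.1 := nm_pos.mpr h3
    have p3 : 1 ≤ nm (g l).2.2 := nm_pos.mpr h4.ne_zero
    have q1 : nm (g l).2.1 ≤ nm l := by
      apply Nat.le_of_dvd (nm_pos.mpr hl'.1)
      rw [hn]
      exact ((dvd_pow_self _ three_ne_zero).mul_left _).mul_right _
    have q2 : nm (g l).2.2 ≤ nm l := by
      apply Nat.le_of_dvd (nm_pos.mpr hl'.1)
      rw [hn]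
      exact dvd_mul_left _ _
    have q3 : (nm (g l).2.2 : ℝ) ≤ L / (nm (g l).2.1 : ℝ) ^ 3 := by
      have p2' : (0 : ℝ) < (nm (g l).2.1 : ℝ) ^ 3 := by
        have : (0 : ℝ) < nm (g l).2.1 := by exact_mod_cast p2
        positivity
      rw [le_div_iff₀ p2']
      refine le_trans ?_ hl'.2.1
      rw [hn]
      push_cast
      have : (1 : ℝ) ≤ nm (g l).1 := by exact_mod_cast p1
      have h0 : (0 : ℝ) ≤ (nm (g l).2.1 : ℝ) ^ 3 * (nm (g l).2.2 : ℝ) := by positivity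
      nlinarith
    rw [hQ, Finset.mem_filter, hP, Finset.mem_product, Finset.mem_product,
      mem_bl (by norm_num), mem_bl hL, mem_S hL]
    refine ⟨⟨⟨h1, by exact_mod_cast h2⟩, ⟨h3, ?_⟩, ?_, h4, h5⟩, ?_⟩
    · exact le_trans (by exact_mod_cast q1) hl'.2.1
    · exact le_trans (by exact_mod_cast q2) hl'.2.1
    · exact (mem_S (by positivity)).2 ⟨q3, h4, h5⟩
  · intro x hx _
    have hx' := Finset.mem_filter.1 hx
    rw [hP, Finset.mem_product, Finset.mem_product, mem_S hL] at hx'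
    exact mul_nonneg (n6_pos hx'.1.2.2.2.1.ne_zero).le (hF _)

/-- `∑ a ∈ S Y, nm a ^ (-1/3) ≤ Y ^ (2/3) LL Y` -/
lemma sum_third_le {Y : ℝ} (hY : 0 ≤ Y) :
    ∑ a ∈ S Y, n6 a ^ 2 ≤ Y ^ ((2 : ℝ) / 3) * LS448.LL Y := by
  refine le_trans (Finset.sum_le_sum (g := fun a : Eis =>
    Y ^ ((2 : ℝ) / 3) * (nm a : ℝ) ^ (-(1 : ℝ))) fun a ha => ?_) ?_
  · have ha' := (mem_S hY).1 ha
    have h1 : (0 : ℝ) < nm a := by exact_mod_cast nm_pos.mpr ha'.2.1.ne_zero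
    have e : n6 a ^ 2 = (nm a : ℝ) ^ ((2 : ℝ) / 3) * (nm a : ℝ) ^ (-(1 : ℝ)) := by
      unfold n6
      rw [← Real.rpow_natCast, ← Real.rpow_mul h1.le, ← Real.rpow_add h1]
      norm_num
    rw [e]
    exact mul_le_mul_of_nonneg_right (Real.rpow_le_rpow h1.le ha'.1 (by norm_num)) (by positivity)
  · rw [← Finset.mul_sum]
    exact mul_le_mul_of_nonneg_left (sum_inv_S_le hY) (by positivity)

set_option maxHeartbeats 1000000 in
/-- **X6b with the weight `th`** -/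
theorem X6b_th {ε : ℝ} (hε : 0 < ε) : ∃ C : ℝ, 0 < C ∧ ∀ L B A : ℝ, 1 ≤ L → 1 ≤ B → 1 ≤ A →
    ∀ (Bs : Finset Eis) (β α : Eis → ℂ), (∀ b ∈ Bs, IsPrim b ∧ (nm b : ℝ) ≤ B) → Sp A α →
    ∀ q : Eis, ∑ x ∈ bl L, ‖th x‖ * ‖TG2 Bs β α (q * x)‖ ≤
      C * (L * B * A) ^ ε * (L ^ ((1 : ℝ) / 3) *
        (Real.sqrt (L * B + A + (L * B * A) ^ ((2 : ℝ) / 3)) *
        (Real.sqrt (∑ b ∈ Bs, ‖β b‖ ^ 2) * Real.sqrt (∑ m ∈ S A, ‖α m‖ ^ 2)))) := by
  classical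
  obtain ⟨C, hC, h⟩ := fixed (ε := ε / 6) (by positivity)
  obtain ⟨K, hK, hLL⟩ := LS448.LL_le (ε := ε / 6) (by positivity)
  set T : ℝ := ((bl 27).card : ℝ) with hT
  have hT0 : 0 ≤ T := Nat.cast_nonneg _
  refine ⟨(T + 1) * K * Real.sqrt K * C, by positivity,
    fun L B A hL hB hA Bs β α hBs hα q => ?_⟩
  have hN : 1 ≤ L * B * A := one_le_mul_of_one_le_of_one_le
    (one_le_mul_of_one_le_of_one_le hL hB) hA
  have hLN : L ≤ L * B * A := by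
    calc L ≤ L * B := le_mul_of_one_le_right (by linarith) hB
      _ ≤ L * B * A := le_mul_of_one_le_right (by positivity) hA
  have hx : 0 < L * B * A := by positivity
  have hL0 : 0 ≤ L := by linarith
  have hLLe : LS448.LL L ≤ K * (L * B * A) ^ (ε / 6) :=
    (hLL L hL).trans (mul_le_mul_of_nonneg_left
      (Real.rpow_le_rpow (by linarith) hLN (by positivity)) hK.le)
  have hLL0 := LS448.LL_nonneg L
  set D : ℝ := Real.sqrt (L * B + A + (L * B * A) ^ ((2 : ℝ) / 3)) *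
        (Real.sqrt (∑ b ∈ Bs, ‖β b‖ ^ 2) * Real.sqrt (∑ m ∈ S A, ‖α m‖ ^ 2)) with hD
  have hD0 : 0 ≤ D := by positivity
  set W : ℝ := (L * B * A) ^ (ε / 6) with hW
  have hW0 : 0 ≤ W := by positivity
  have inner : ∀ t : Eis, ∀ c ∈ bl L, ∑ a ∈ S (L / (nm c : ℝ) ^ 3), n6 a *
      ‖TG2 Bs β α (q * (t * c ^ 3 * a))‖ ≤
      (nm c : ℝ) ^ (-(1 : ℝ)) * (C * W * (Real.sqrt K * W) * (L ^ ((1 : ℝ) / 3) * D)) := by
    intro t c hc
    have hc' := ((mem_bl hL0).1 hc).1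
    have hc1 : (1 : ℝ) ≤ nm c := by exact_mod_cast nm_pos.mpr hc'
    have hc0 : (0 : ℝ) < nm c := by linarith
    have hc3 : (1 : ℝ) ≤ (nm c : ℝ) ^ 3 := one_le_pow₀ hc1
    set Y : ℝ := L / (nm c : ℝ) ^ 3 with hY
    have hY0 : 0 ≤ Y := by positivity
    have hYL : Y ≤ L := div_le_self hL0 hc3
    have hsub : S Y ⊆ S L := by
      intro a ha
      have ha' := (mem_S hY0).1 ha
      exact (mem_S hL0).2 ⟨ha'.1.trans hYL, ha'.2⟩
    have e : ∀ a, q * (t * c ^ 3 * a) = (q * (t * c ^ 3)) * a := fun a => by ring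
    simp only [e]
    have h1 := h L B A hL hB hA Bs β α hBs hα (q * (t * c ^ 3))
      (fun a => if a ∈ S Y then n6 a else 0)
    have e1 : ∑ a ∈ S L, (if a ∈ S Y then n6 a else 0) * ‖TG2 Bs β α (q * (t * c ^ 3) * a)‖ =
        ∑ a ∈ S Y, n6 a * ‖TG2 Bs β α (q * (t * c ^ 3) * a)‖ := by
      rw [← Finset.sum_subset hsub]
      · refine Finset.sum_congr rfl fun a ha => ?_
        rw [if_pos ha]
      · intro a _ ha
        rw [if_neg ha, zero_mul]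
    have e2 : ∑ a ∈ S L, (if a ∈ S Y then n6 a else 0) ^ 2 = ∑ a ∈ S Y, n6 a ^ 2 := by
      rw [← Finset.sum_subset hsub]
      · refine Finset.sum_congr rfl fun a ha => ?_
        rw [if_pos ha]
      · intro a _ ha
        rw [if_neg ha]; norm_num
    rw [e1, e2] at h1
    refine h1.trans ?_
    have h2 : Real.sqrt (∑ a ∈ S Y, n6 a ^ 2) ≤
        (nm c : ℝ) ^ (-(1 : ℝ)) * L ^ ((1 : ℝ) / 3) * (Real.sqrt K * W) := by
      have h3 : ∑ a ∈ S Y, n6 a ^ 2 ≤ Y ^ ((2 : ℝ) / 3) * (K * W) :=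
        (sum_third_le hY0).trans (mul_le_mul_of_nonneg_left
          ((LS448.LL_mono hYL).trans hLLe) (by positivity))
      refine (Real.sqrt_le_sqrt h3).trans ?_
      rw [Real.sqrt_mul (by positivity), Real.sqrt_mul hK.le]
      have e3 : Real.sqrt (Y ^ ((2 : ℝ) / 3)) = (nm c : ℝ) ^ (-(1 : ℝ)) * L ^ ((1 : ℝ) / 3) := by
        rw [Real.sqrt_eq_rpow, ← Real.rpow_mul hY0, hY]
        have : (2 : ℝ) / 3 * (1 / 2) = 1 / 3 := by norm_num
        rw [this, Real.div_rpow hL0 (by positivity), ← Real.rpow_natCast, ← Real.rpow_mul hc0.le,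
          Real.rpow_neg hc0.le]
        norm_num
        ring
      rw [e3]
      refine mul_le_mul_of_nonneg_left ?_ (by positivity)
      refine mul_le_mul_of_nonneg_left ?_ (Real.sqrt_nonneg _)
      have hW1 : 1 ≤ W := Real.one_le_rpow hN (by positivity)
      calc Real.sqrt W ≤ Real.sqrt (W * W) := Real.sqrt_le_sqrt (by nlinarith)
        _ = W := Real.sqrt_mul_self hW0
    calc C * W * Real.sqrt (∑ a ∈ S Y, n6 a ^ 2) * D
        ≤ C * W * ((nm c : ℝ) ^ (-(1 : ℝ)) * L ^ ((1 : ℝ) / 3) * (Real.sqrt K * W)) * D := by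
          gcongr
      _ = _ := by ring
  set E : ℝ := C * W * (Real.sqrt K * W) * (L ^ ((1 : ℝ) / 3) * D) with hE
  have hE0 : 0 ≤ E := by positivity
  refine (th_sum hL0 (fun x => ‖TG2 Bs β α (q * x)‖) fun _ => norm_nonneg _).trans ?_
  calc ∑ t ∈ bl 27, ∑ c ∈ bl L, ∑ a ∈ S (L / (nm c : ℝ) ^ 3),
        n6 a * ‖TG2 Bs β α (q * (t * c ^ 3 * a))‖
      ≤ ∑ t ∈ bl 27, ∑ c ∈ bl L, (nm c : ℝ) ^ (-(1 : ℝ)) * E :=
        Finset.sum_le_sum fun t _ => Finset.sum_le_sum fun c hc => inner t c hc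
    _ = T * ((∑ c ∈ bl L, (nm c : ℝ) ^ (-(1 : ℝ))) * E) := by
        rw [Finset.sum_const, nsmul_eq_mul, Finset.sum_mul]
    _ ≤ (T + 1) * ((K * W) * E) := by
        have h4 := (sum_neg_one_le L).trans hLLe
        have h5 : 0 ≤ ∑ c ∈ bl L, (nm c : ℝ) ^ (-(1 : ℝ)) := Finset.sum_nonneg fun _ _ => by
          positivity
        gcongr
        linarith
    _ = ((T + 1) * K * Real.sqrt K * C) * (W * W * W) * (L ^ ((1 : ℝ) / 3) * D) := by
        rw [hE]; ring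
    _ ≤ ((T + 1) * K * Real.sqrt K * C) * (L * B * A) ^ ε * (L ^ ((1 : ℝ) / 3) * D) := by
        have hpow : W * W * W ≤ (L * B * A) ^ ε := by
          rw [hW, ← Real.rpow_add hx, ← Real.rpow_add hx]
          exact Real.rpow_le_rpow_of_exponent_le hN (by linarith)
        gcongr

/-- the window, weight `th` -/
theorem X6b_th_window {ε : ℝ} (hε : 0 < ε) : ∃ C : ℝ, 0 < C ∧ ∀ L B A : ℝ,
    1 ≤ L → 1 ≤ B → 1 ≤ A →
    L * B ≤ (L * B * A) ^ ((2 : ℝ) / 3) → A ≤ (L * B * A) ^ ((2 : ℝ) / 3) →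
    ∀ (Bs : Finset Eis) (β α : Eis → ℂ), (∀ b ∈ Bs, IsPrim b ∧ (nm b : ℝ) ≤ B) → Sp A α →
    ∀ q : Eis, ∑ x ∈ bl L, ‖th x‖ * ‖TG2 Bs β α (q * x)‖ ≤
      C * (L * B * A) ^ ε * (L ^ ((1 : ℝ) / 3) * ((L * B * A) ^ ((1 : ℝ) / 3) *
        (Real.sqrt (∑ b ∈ Bs, ‖β b‖ ^ 2) * Real.sqrt (∑ m ∈ S A, ‖α m‖ ^ 2)))) := by
  obtain ⟨C, hC, h⟩ := X6b_th hε
  refine ⟨C * Real.sqrt 3, by positivity, fun L B A hL hB hA h1 h2 Bs β α hBs hα q => ?_⟩
  refine (h L B A hL hB hA Bs β α hBs hα q).trans ?_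
  have hx : 0 < L * B * A := by positivity
  have hs : Real.sqrt (L * B + A + (L * B * A) ^ ((2 : ℝ) / 3)) ≤
      Real.sqrt 3 * (L * B * A) ^ ((1 : ℝ) / 3) := by
    have e : (L * B * A) ^ ((1 : ℝ) / 3) = Real.sqrt ((L * B * A) ^ ((2 : ℝ) / 3)) := by
      rw [Real.sqrt_eq_rpow, ← Real.rpow_mul hx.le]; norm_num
    rw [e, ← Real.sqrt_mul (by norm_num)]
    apply Real.sqrt_le_sqrt
    linarith
  calc _ ≤ C * (L * B * A) ^ ε * (L ^ ((1 : ℝ) / 3) *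
        ((Real.sqrt 3 * (L * B * A) ^ ((1 : ℝ) / 3)) *
        (Real.sqrt (∑ b ∈ Bs, ‖β b‖ ^ 2) * Real.sqrt (∑ m ∈ S A, ‖α m‖ ^ 2)))) := by gcongr
    _ = _ := by ring

end Crest.Agent.R017.X6b792
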