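import Crest.Agent.R017.PM2_764
import Crest.Agent.R017.P3th_283
import Crest.Agent.R017.X6b2_792
import Crest.Agent.R017.HSep_813
import Crest.Agent.R012.MSgenF_49

/-!
# Row 17, exceptional class (helper764): the lump bilinear bound

* `norm_th_mul_le` : `‖th (k γ u)‖ ≤ nm k * n6 u`
* `LS h t Y q r` : `∑ b, (b, q) = 1, Gh r b n6 b gw h Y t b`
* `lump_bil` : `∑ x ∈ S L, ‖∑ b ∈ S N1, β b Gh (v x) b LS (k0 γ x b)‖²
    ≤ C (..)^ε W² nm γ (N1 Y)^(4/3) L^(2/3)` when `L N1 ≤ Y²`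
-/

set_option autoImplicit false

noncomputable section

open scoped ComplexConjugate ContDiff
open Filter Topology

namespace Crest.Agent.R017.PM764

open Crest.Agent.R012 Crest.Agent.R012.Eis Crest.Agent.R012.Gauss880
open Crest.Agent.R012.LS2 Crest.Agent.R012.Mob705 Crest.Agent.R012.TypeI941
open Crest.Agent.R012.TI569
open Crest.Agent.R012.Weight600 (osc norm_osc)
open Crest.Agent.R012.Div277 (tau dvs mem_dvs tau_le_rpow)
open Crest.Agent.R017.PX764 Crest.Agent.R017.FE47 Crest.Agent.R017.HSep813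
open Crest.Agent.R017.CM106
open Crest.Agent.R017.X6b792 (Sp merge_S sum_third_le)

/-! ### `th` -/

lemma norm_Gh_le_one {h a : Eis} (ha : IsPrim a) : ‖Gh h a‖ ≤ 1 := by
  unfold Gh
  rw [norm_mul, RCLike.norm_conj]
  calc ‖G a‖ * ‖sy h a‖ ≤ 1 * 1 :=
        mul_le_mul (norm_G_le syG ha) (norm_sy_le' ha) (norm_nonneg _) zero_le_one
    _ = 1 := one_mul 1

lemma norm_th_mul_le {k γ u : Eis} (hk : k ≠ 0) (hγ : IsPrim γ) (hγs : Squarefree γ)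
    (hu : IsPrim u) (hs : Squarefree u) : ‖th (k * γ * u)‖ ≤ nm k * n6 u := by
  classical
  have hk1 : (1 : ℝ) ≤ nm k := by exact_mod_cast nm_pos.2 hk
  have hu0 : u ≠ 0 := hu.ne_zero
  by_cases hex : ∃ p, IsPP p ∧ p ∣ u ∧ p ∣ γ ∧ ¬ p ∣ k
  · obtain ⟨p, hp, hpu, hpγ, hpk⟩ := hex
    obtain ⟨u', hu'⟩ := hpu
    obtain ⟨γ', hγ'⟩ := hpγ
    have h1 : ¬ p ∣ u' := fun h => by
      obtain ⟨z, hz⟩ := h
      exact hp.prime.not_isUnit (hs p ⟨z, by rw [hu', hz]; ring⟩)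
    have h2 : ¬ p ∣ γ' := fun h => by
      obtain ⟨z, hz⟩ := h
      exact hp.prime.not_isUnit (hγs p ⟨z, by rw [hγ', hz]; ring⟩)
    have h3 : ¬ p ∣ k * γ' * u' := by
      intro h
      rcases hp.prime.dvd_or_dvd h with h | h
      · rcases hp.prime.dvd_or_dvd h with h | h
        · exact hpk h
        · exact h2 h
      · exact h1 h
    have e : k * γ * u = k * γ' * u' * p ^ 2 := by rw [hu', hγ']; ring
    rw [e, th_two hp.prime hp.isPrim h3, norm_zero]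
    have := (n6_pos hu0).le
    positivity
  · push Not at hex
    set P := pp (k * γ) with hP
    have hkγ : k * γ ≠ 0 := mul_ne_zero hk hγ.ne_zero
    obtain ⟨d, hd, hds, hdP, hud, _⟩ := fib_eq (P := P) (T := pp u ∩ P) (ppSet_pp _)
      Finset.inter_subset_right hu hs rfl
    set T := pp u ∩ P with hT
    have hTP : PPSet T := (ppSet_pp _).subset Finset.inter_subset_right
    have hTn := hTP.prod_ne_zero
    have hTk : (∏ p ∈ T, p) ∣ k := by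
      rw [hTP.prod_dvd]
      intro p hp
      have h1 := (mem_pp hu0).1 (Finset.mem_inter.1 hp).1
      have h2 := (mem_pp hkγ).1 (Finset.mem_inter.1 hp).2
      by_contra hn
      rcases h1.1.prime.dvd_or_dvd h2.2 with h | h
      · exact hn h
      · exact hn (hex p h1.1 h1.2 h)
    have hc : IsCoprime (k * γ * ∏ p ∈ T, p) d := by
      refine ((isCoprime_iff_pp hd).2 fun p hp hpd hpk => ?_).symm
      have : p ∣ k * γ := by
        rcases hp.prime.dvd_or_dvd hpk with h | h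
        · exact h
        · exact (h.trans hTk).mul_right _
      exact hdP p ((mem_pp hkγ).2 ⟨hp, this⟩) hpd
    have e : k * γ * u = k * γ * (∏ p ∈ T, p) * d := by rw [hud]; ring
    rw [e, th_mul hd hds hc, norm_mul, norm_mul, RCLike.norm_conj, Complex.norm_real,
      Real.norm_of_nonneg (n6_pos hd.ne_zero).le]
    have h1 : n6 u = n6 d * n6 (∏ p ∈ T, p) := by rw [hud, n6_mul]
    have h2 : (1 : ℝ) ≤ nm k * n6 (∏ p ∈ T, p) := by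
      have h3 : (nm (∏ p ∈ T, p) : ℝ) ≤ nm k := nm_le_of_dvd' hTk hk
      have h4 : (1 : ℝ) ≤ nm (∏ p ∈ T, p) := by exact_mod_cast nm_pos.2 hTn
      have h5 : (nm (∏ p ∈ T, p) : ℝ)⁻¹ ≤ n6 (∏ p ∈ T, p) := by
        unfold n6
        rw [← Real.rpow_neg_one]
        exact Real.rpow_le_rpow_of_exponent_le h4 (by norm_num)
      calc (1 : ℝ) = nm (∏ p ∈ T, p) * (nm (∏ p ∈ T, p) : ℝ)⁻¹ := by
            rw [mul_inv_cancel₀ (by positivity)]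
        _ ≤ nm k * n6 (∏ p ∈ T, p) := by gcongr
    have h6 : ‖Gh (k * γ * ∏ p ∈ T, p) d‖ ≤ 1 := norm_Gh_le_one hd
    have h7 : ‖th (k * γ * ∏ p ∈ T, p)‖ ≤ 1 := P3all283.norm_th_le (mul_ne_zero hkγ hTn)
    have h8 := (n6_pos hd.ne_zero).le
    calc ‖Gh (k * γ * ∏ p ∈ T, p) d‖ * n6 d * ‖th (k * γ * ∏ p ∈ T, p)‖ ≤ 1 * n6 d * 1 := by
          gcongr
      _ ≤ (nm k * n6 (∏ p ∈ T, p)) * n6 d := by
          rw [one_mul, mul_one]
          exact le_mul_of_one_le_left h8 h2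
      _ = _ := by rw [h1]; ring

/-! ### the weight -/

/-- `x ↦ g (log x)` on `(0, ∞)` -/
def wl (g : ℝ → ℂ) (x : ℝ) : ℂ := if 0 < x then g (Real.log x) else 0

lemma wt_wl {g : ℝ → ℂ} (h1 : ContDiff ℝ ∞ g) (h2 : HasCompactSupport g) : M49.Wt (wl g) := by
  obtain ⟨R, hR0, hR⟩ := exists_R h2
  have hz : ∀ x, x < Real.exp (-(R + 1)) ∨ Real.exp (R + 1) < x → wl g x = 0 := by
    intro x hx
    unfold wl
    split_ifs with h0
    · by_contra hne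
      have h3 := abs_le.mp (hR _ hne)
      rcases hx with hx | hx
      · have h4 := Real.log_lt_log h0 hx
        rw [Real.log_exp] at h4
        linarith
      · have h4 := Real.log_lt_log (Real.exp_pos _) hx
        rw [Real.log_exp] at h4
        linarith
    · rfl
  refine ⟨?_, ⟨Real.exp (-(R + 1)), Real.exp (R + 1), Real.exp_pos _,
    Real.exp_lt_exp.mpr (by linarith), hz⟩⟩
  rw [contDiff_iff_contDiffAt]
  intro x
  rcases le_or_gt x 0 with hx | hx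
  · have h3 : wl g =ᶠ[𝓝 x] fun _ => 0 := by
      filter_upwards [Iio_mem_nhds (show x < Real.exp (-(R + 1)) from
        lt_of_le_of_lt hx (Real.exp_pos _))] with y hy
      exact hz y (Or.inl hy)
    exact contDiffAt_const.congr_of_eventuallyEq h3
  · have h3 : wl g =ᶠ[𝓝 x] fun y => g (Real.log y) := by
      filter_upwards [Ioi_mem_nhds hx] with y hy
      unfold wl
      rw [if_pos (show (0 : ℝ) < y from hy)]
    refine ContDiffAt.congr_of_eventuallyEq ?_ h3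
    exact (h1.contDiffAt).comp x (Real.contDiffAt_log.mpr hx.ne')

/-- the twisted cut-off `h(u) e^(-u/6)` -/
def g6 (h : ℝ → ℝ) (u : ℝ) : ℂ := cx h u * (Real.exp (-(1 / 6) * u) : ℂ)

lemma cd_g6 {h : ℝ → ℝ} (hh : ContDiff ℝ ∞ h) : ContDiff ℝ ∞ (g6 h) := by
  unfold g6
  apply (Crest.Agent.R017.FE47.cd_cx hh).mul
  have : ContDiff ℝ ∞ fun x : ℝ => Real.exp (-(1 / 6) * x) := by fun_prop
  exact Complex.ofRealCLM.contDiff.comp this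

lemma cs_g6 {h : ℝ → ℝ} (hh : HasCompactSupport h) : HasCompactSupport (g6 h) :=
  (Crest.Agent.R017.FE47.cs_cx hh).mul_right

open Classical in
/-- a smooth piece on the Gauss side, with the weight `n6` -/
def LS (h : ℝ → ℝ) (t Y : ℝ) (q r : Eis) : ℂ :=
  ∑' b : Eis, if IsPrim b ∧ IsCoprime b q then Gh r b * ((n6 b : ℝ) : ℂ) * gw h Y t b else 0

lemma ch_zero_eq {τ : ℝ} {b : Eis} (hb : b ≠ 0) : ch 0 τ b = osc τ (Real.log (nm b)) := by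
  unfold ch osc
  have hn : (0 : ℝ) < nm b := by exact_mod_cast nm_pos.2 hb
  have h1 : (nm b : ℂ) = ((nm b : ℝ) : ℂ) := by push_cast; rfl
  have h2 : ((nm b : ℝ) : ℂ) ≠ 0 := by exact_mod_cast hn.ne'
  have h3 : ang 0 b = 1 := by unfold ang; simp
  rw [h3, one_mul, h1, Complex.cpow_def_of_ne_zero h2, ← Complex.ofReal_log hn.le]
  congr 1
  push_cast; ring

lemma LS_eq (h : ℝ → ℝ) (t : ℝ) {Y : ℝ} (hY : 0 < Y) (q r : Eis) :
    LS h t Y q r = ((Y ^ (-(1 : ℝ) / 6) : ℝ) : ℂ) * Lb (wl (g6 h)) t Y q r := by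
  classical
  unfold LS Lb
  rw [← tsum_mul_left]
  refine tsum_congr fun b => ?_
  by_cases hb : IsPrim b ∧ IsCoprime b q
  · rw [if_pos hb, if_pos hb]
    have hn : (0 : ℝ) < nm b := by exact_mod_cast nm_pos.2 hb.1.ne_zero
    rw [ch_zero_eq hb.1.ne_zero]
    unfold gw wl g6
    rw [if_pos (by positivity : (0 : ℝ) < (nm b : ℝ) / Y), Real.log_div hn.ne' hY.ne']
    have e : (n6 b : ℝ) = Y ^ (-(1 : ℝ) / 6) *
        Real.exp (-(1 / 6) * (Real.log (nm b) - Real.log Y)) := by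
      unfold n6
      rw [Real.rpow_def_of_pos hn, Real.rpow_def_of_pos hY, ← Real.exp_add]
      congr 1; ring
    rw [e]
    push_cast
    ring
  · rw [if_neg hb, if_neg hb, mul_zero]

lemma norm_Lm_le {v : ℝ → ℂ} {K : ℝ} (hK : ∀ τ : ℝ, ‖mellin v ((5 : ℂ) / 6 + τ * Complex.I)‖ ≤ K)
    (τ : ℝ) {Y : ℝ} (hY : 0 < Y) (q u r : Eis) :
    ‖Lm v τ Y q u r‖ ≤ cD * ‖th r‖ * K * Y ^ ((5 : ℝ) / 6) := by
  classical
  have hK0 : 0 ≤ K := (norm_nonneg _).trans (hK 0)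
  unfold Lm Mt
  rw [if_pos rfl, norm_mul, norm_mul, norm_mul]
  have h1 : rho r = (cD : ℂ) * th r := by
    unfold th
    rw [mul_div_cancel₀ _ cD_ne]
  have h2 : ‖rho r‖ = cD * ‖th r‖ := by
    rw [h1, norm_mul, Complex.norm_real, Real.norm_of_nonneg cD_pos.le]
  have h3 : ‖(Y : ℂ) ^ (se τ)‖ = Y ^ ((5 : ℝ) / 6) := by
    rw [Complex.norm_cpow_eq_rpow_re_of_pos hY]
    congr 1
    unfold se
    simp
  rw [h2, h3]
  have h4 : ‖mellin v (se τ)‖ ≤ K := by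
    unfold se
    exact hK τ
  have h5 := cD_pos.le
  calc cD * ‖th r‖ * ‖dens (pp u ∪ pp q)‖ * ‖mellin v (se τ)‖ * Y ^ ((5 : ℝ) / 6)
      ≤ cD * ‖th r‖ * 1 * K * Y ^ ((5 : ℝ) / 6) := by
        gcongr
        exact norm_dens_le
    _ = _ := by ring

/-! ### the bilinear bound -/

lemma G_sy_zero {x b v : Eis} (hxs : Squarefree x) (hb : IsPrim b)
    (h : ¬ Squarefree (x * b)) : G b * conj (sy (v * x) b) = 0 := by
  by_cases hsb : Squarefree b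
  · have hc : ¬ IsCoprime (v * x) b := by
      intro hc
      apply h
      have hc' : IsCoprime x b := hc.of_mul_left_right
      exact squarefree_mul_iff.2 ⟨hc'.isRelPrime, hxs, hsb⟩
    have := (syG.eq_zero (v * x) b hb).2 hc
    rw [this]; simp
  · rw [G_eq_zero syG hb hsb, zero_mul]

lemma sq_add_le2 (x y : ℂ) : ‖x + y‖ ^ 2 ≤ 2 * ‖x‖ ^ 2 + 2 * ‖y‖ ^ 2 := by
  have h := norm_add_le x y
  have h1 : ‖x + y‖ ^ 2 ≤ (‖x‖ + ‖y‖) ^ 2 := pow_le_pow_left₀ (norm_nonneg _) h 2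
  nlinarith [sq_nonneg (‖x‖ - ‖y‖)]

/-- the main part -/
lemma part_main {N1 W A : ℝ} (hN1 : 1 ≤ N1) (hW : 0 ≤ W) (hA : 0 ≤ A) {x : Eis}
    (hx : IsPrim x) (β c M : Eis → ℂ) (hβ : ∀ b ∈ S N1, ‖β b‖ ≤ W * n6 b)
    (hc : ∀ b ∈ S N1, ‖c b‖ ≤ 1) (hc0 : ∀ b ∈ S N1, ¬ Squarefree (x * b) → c b = 0)
    (hM : ∀ b ∈ S N1, Squarefree (x * b) → ‖M b‖ ≤ A * n6 (x * b)) :
    ‖∑ b ∈ S N1, β b * (c b * M b)‖ ≤ W * A * (∑ b ∈ S N1, n6 b ^ 2) * n6 x := by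
  refine (norm_sum_le _ _).trans ?_
  have hn6x := (n6_pos hx.ne_zero).le
  have : ∀ b ∈ S N1, ‖β b * (c b * M b)‖ ≤ (W * A * n6 x) * n6 b ^ 2 := by
    intro b hb
    have hb' := (mem_S (by linarith)).1 hb
    have hn6b := (n6_pos hb'.2.1.ne_zero).le
    by_cases hs : Squarefree (x * b)
    · have h1 := hM b hb hs
      have h2 : 0 ≤ A * n6 (x * b) := by rw [n6_mul]; positivity
      rw [norm_mul, norm_mul]
      calc ‖β b‖ * (‖c b‖ * ‖M b‖) ≤ (W * n6 b) * (1 * (A * n6 (x * b))) :=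
            mul_le_mul (hβ b hb) (mul_le_mul (hc b hb) h1 (norm_nonneg _) zero_le_one)
              (by positivity) (by positivity)
        _ = _ := by rw [n6_mul]; ring
    · rw [hc0 b hb hs, zero_mul, mul_zero, norm_zero]
      positivity
  refine (Finset.sum_le_sum this).trans (le_of_eq ?_)
  rw [← Finset.mul_sum]; ring

open Classical in
/-- the error part -/
lemma part_err {N1 W : ℝ} {x : Eis}
    (β c E : Eis → ℂ) (hβ : ∀ b ∈ S N1, ‖β b‖ ≤ W * n6 b)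
    (hc : ∀ b ∈ S N1, ‖c b‖ ≤ 1) (hc0 : ∀ b ∈ S N1, ¬ Squarefree (x * b) → c b = 0) :
    ‖∑ b ∈ S N1, β b * (c b * E (x * b))‖ ^ 2 ≤ (W ^ 2 * (∑ b ∈ S N1, n6 b ^ 2)) *
      ∑ b ∈ S N1, (if Squarefree (x * b) then ‖E (x * b)‖ ^ 2 else 0) := by
  refine (cauchy (S N1) _ _).trans ?_
  have h1 : ∑ b ∈ S N1, ‖β b‖ ^ 2 ≤ W ^ 2 * (∑ b ∈ S N1, n6 b ^ 2) := by
    rw [Finset.mul_sum]
    refine Finset.sum_le_sum fun b hb => ?_
    rw [← mul_pow]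
    exact pow_le_pow_left₀ (norm_nonneg _) (hβ b hb) 2
  have h2 : ∑ b ∈ S N1, ‖c b * E (x * b)‖ ^ 2 ≤
      ∑ b ∈ S N1, (if Squarefree (x * b) then ‖E (x * b)‖ ^ 2 else 0) := by
    refine Finset.sum_le_sum fun b hb => ?_
    split_ifs with hs
    · refine pow_le_pow_left₀ (norm_nonneg _) ?_ 2
      rw [norm_mul]
      exact mul_le_of_le_one_left (norm_nonneg _) (hc b hb)
    · rw [hc0 b hb hs, zero_mul, norm_zero]
      norm_num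
  refine mul_le_mul h1 h2 (Finset.sum_nonneg fun _ _ => by positivity) ?_
  exact mul_nonneg (sq_nonneg _) (Finset.sum_nonneg fun _ _ => sq_nonneg _)

/-- numerics of the main part -/
lemma num_main {L N1 Y X KL A W Z S1 S2 ε Γ : ℝ} (hL : 1 ≤ L) (hN1 : 1 ≤ N1) (hY : 1 ≤ Y)
    (hX : 1 ≤ X) (hLX : L ≤ X) (hNX : N1 ≤ X) (hε : 0 < ε) (hKL : 0 < KL) (hΓ : 1 ≤ Γ)
    (hZ : Z = (N1 * Y) ^ ((4 : ℝ) / 3) * L ^ ((2 : ℝ) / 3))
    (hA : 0 ≤ A) (hW : 0 ≤ W) (h10 : 0 ≤ S1) (h20 : 0 ≤ S2)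
    (h1 : S1 ≤ N1 ^ ((2 : ℝ) / 3) * (KL * N1 ^ ε))
    (h2 : S2 ≤ L ^ ((2 : ℝ) / 3) * (KL * L ^ ε)) :
    (W * (A * Y ^ ((2 : ℝ) / 3)) * S1) ^ 2 * S2 ≤
      A ^ 2 * KL ^ 3 * X ^ (5 * ε) * (W ^ 2 * Γ * Z) := by
  have hL0 : 0 < L := by linarith
  have hN0 : 0 < N1 := by linarith
  have hY0 : 0 < Y := by linarith
  have hX0 : 0 < X := by linarith
  have hNε : N1 ^ ε ≤ X ^ ε := Real.rpow_le_rpow hN0.le hNX hε.le
  have hLε : L ^ ε ≤ X ^ ε := Real.rpow_le_rpow hL0.le hLX hε.le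
  have eZ : (Y ^ ((2 : ℝ) / 3)) ^ 2 * (N1 ^ ((2 : ℝ) / 3)) ^ 2 * L ^ ((2 : ℝ) / 3) = Z := by
    have a1 : N1 ^ ((4 : ℝ) / 3) = (N1 ^ ((2 : ℝ) / 3)) ^ 2 := by
      rw [pow_two, ← Real.rpow_add hN0]; norm_num
    have a2 : Y ^ ((4 : ℝ) / 3) = (Y ^ ((2 : ℝ) / 3)) ^ 2 := by
      rw [pow_two, ← Real.rpow_add hY0]; norm_num
    rw [hZ, Real.mul_rpow hN0.le hY0.le, a1, a2]
    ring
  have hZ0 : 0 < Z := by rw [hZ]; positivity
  have e3 : X ^ ε * X ^ ε * X ^ ε ≤ X ^ (5 * ε) := by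
    rw [← Real.rpow_add hX0, ← Real.rpow_add hX0]
    exact Real.rpow_le_rpow_of_exponent_le hX (by linarith)
  have h1' : S1 ≤ N1 ^ ((2 : ℝ) / 3) * (KL * X ^ ε) :=
    h1.trans (mul_le_mul_of_nonneg_left (mul_le_mul_of_nonneg_left hNε hKL.le) (by positivity))
  have h2' : S2 ≤ L ^ ((2 : ℝ) / 3) * (KL * X ^ ε) :=
    h2.trans (mul_le_mul_of_nonneg_left (mul_le_mul_of_nonneg_left hLε hKL.le) (by positivity))
  have hXe : 0 < X ^ ε := by positivity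
  calc (W * (A * Y ^ ((2 : ℝ) / 3)) * S1) ^ 2 * S2
      ≤ (W * (A * Y ^ ((2 : ℝ) / 3)) * (N1 ^ ((2 : ℝ) / 3) * (KL * X ^ ε))) ^ 2 *
          (L ^ ((2 : ℝ) / 3) * (KL * X ^ ε)) := by
        refine mul_le_mul ?_ h2' h20 (by positivity)
        refine pow_le_pow_left₀ (by positivity) ?_ 2
        exact mul_le_mul_of_nonneg_left h1' (by positivity)
    _ = A ^ 2 * KL ^ 3 * (X ^ ε * X ^ ε * X ^ ε) * (W ^ 2 * 1 *
          ((Y ^ ((2 : ℝ) / 3)) ^ 2 * (N1 ^ ((2 : ℝ) / 3)) ^ 2 * L ^ ((2 : ℝ) / 3))) := by ring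
    _ ≤ _ := by
        rw [eZ]
        refine mul_le_mul (mul_le_mul_of_nonneg_left e3 (by positivity)) ?_ (by positivity)
          (by positivity)
        refine mul_le_mul_of_nonneg_right ?_ hZ0.le
        exact mul_le_mul_of_nonneg_left hΓ (by positivity)

/-- numerics of the error part -/
lemma num_err {L N1 Y X KL Cτ C1 Q W Z S1 T ε Γ y6 : ℝ} (hL : 1 ≤ L) (hN1 : 1 ≤ N1) (hY : 1 ≤ Y)
    (hXd : X = Γ * L * N1 * Y) (hε : 0 < ε) (hKL : 0 < KL) (hΓ : 1 ≤ Γ) (hCτ : 0 ≤ Cτ)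
    (hC1 : 0 ≤ C1) (hQ : 0 ≤ Q) (hLN : L * N1 ≤ Y ^ 2) (hy6 : y6 = Y ^ (-(1 : ℝ) / 6))
    (hZ : Z = (N1 * Y) ^ ((4 : ℝ) / 3) * L ^ ((2 : ℝ) / 3))
    (hT0 : 0 ≤ T) (h1 : S1 ≤ N1 ^ ((2 : ℝ) / 3) * (KL * N1 ^ ε))
    (hT : T ≤ (Cτ * (L * N1) ^ ε) * (C1 * Q * ((Γ * (L * N1)) ^ (1 + 3 * ε) * Y ^ (1 + ε)))) :
    (W ^ 2 * S1) * (y6 ^ 2 * T) ≤ (KL * Cτ * C1) * Q * X ^ (5 * ε) * (W ^ 2 * Γ * Z) := by
  have hL0 : 0 < L := by linarith
  have hN0 : 0 < N1 := by linarith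
  have hY0 : 0 < Y := by linarith
  have hΓ0 : 0 < Γ := by linarith
  have hX0 : 0 < X := by rw [hXd]; positivity
  have hNX : N1 ≤ X := by
    rw [hXd]
    calc N1 ≤ Γ * L * N1 := le_mul_of_one_le_left hN0.le (one_le_mul_of_one_le_of_one_le hΓ hL)
      _ ≤ _ := le_mul_of_one_le_right (by positivity) hY
  have hLNX : L * N1 ≤ X := by
    rw [hXd]
    calc L * N1 ≤ Γ * (L * N1) := le_mul_of_one_le_left (by positivity) hΓ
      _ = Γ * L * N1 := by ring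
      _ ≤ _ := le_mul_of_one_le_right (by positivity) hY
  have hNε : N1 ^ ε ≤ X ^ ε := Real.rpow_le_rpow hN0.le hNX hε.le
  have hLNε : (L * N1) ^ ε ≤ X ^ ε := Real.rpow_le_rpow (by positivity) hLNX hε.le
  have hXe : 0 < X ^ ε := by positivity
  have e1 : (Γ * (L * N1)) ^ (1 + 3 * ε) * Y ^ (1 + ε) ≤
      (Γ * (L * N1) * Y) * (X ^ ε * X ^ ε * X ^ ε) := by
    have hg : 0 < Γ * (L * N1) := by positivity
    rw [Real.rpow_add hg, Real.rpow_one, Real.rpow_add hY0, Real.rpow_one]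
    have h1 : Y ^ ε ≤ Y ^ (3 * ε) := Real.rpow_le_rpow_of_exponent_le hY (by linarith)
    have h2 : (Γ * (L * N1)) ^ (3 * ε) * Y ^ (3 * ε) = X ^ ε * X ^ ε * X ^ ε := by
      rw [← Real.mul_rpow hg.le hY0.le, ← Real.rpow_add hX0, ← Real.rpow_add hX0, hXd]
      congr 1 <;> ring
    calc Γ * (L * N1) * (Γ * (L * N1)) ^ (3 * ε) * (Y * Y ^ ε)
        ≤ Γ * (L * N1) * (Γ * (L * N1)) ^ (3 * ε) * (Y * Y ^ (3 * ε)) :=
          mul_le_mul_of_nonneg_left (mul_le_mul_of_nonneg_left h1 hY0.le) (by positivity)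
      _ = (Γ * (L * N1) * Y) * ((Γ * (L * N1)) ^ (3 * ε) * Y ^ (3 * ε)) := by ring
      _ = _ := by rw [h2]
  have e2 : y6 ^ 2 * Y * (N1 ^ ((2 : ℝ) / 3) * (L * N1)) ≤ Z := by
    have h1 : y6 ^ 2 * Y = Y ^ ((2 : ℝ) / 3) := by
      have a1 : y6 ^ 2 = Y ^ (-(1 : ℝ) / 3) := by
        rw [hy6, ← Real.rpow_natCast, ← Real.rpow_mul hY0.le]; norm_num
      rw [a1]
      nth_rewrite 2 [← Real.rpow_one Y]
      rw [← Real.rpow_add hY0]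
      norm_num
    have h2 : (L * N1) ^ ((1 : ℝ) / 3) ≤ Y ^ ((2 : ℝ) / 3) := by
      calc (L * N1) ^ ((1 : ℝ) / 3) ≤ (Y ^ 2) ^ ((1 : ℝ) / 3) :=
            Real.rpow_le_rpow (by positivity) hLN (by norm_num)
        _ = _ := by rw [← Real.rpow_natCast, ← Real.rpow_mul hY0.le]; norm_num
    have h3 : L * N1 = (L * N1) ^ ((1 : ℝ) / 3) * (L ^ ((2 : ℝ) / 3) * N1 ^ ((2 : ℝ) / 3)) := by
      rw [← Real.mul_rpow hL0.le hN0.le, ← Real.rpow_add (by positivity)]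
      norm_num
    have h4 : Z = Y ^ ((2 : ℝ) / 3) * (N1 ^ ((2 : ℝ) / 3) *
        (Y ^ ((2 : ℝ) / 3) * (L ^ ((2 : ℝ) / 3) * N1 ^ ((2 : ℝ) / 3)))) := by
      rw [hZ, Real.mul_rpow hN0.le hY0.le]
      have a1 : N1 ^ ((4 : ℝ) / 3) = N1 ^ ((2 : ℝ) / 3) * N1 ^ ((2 : ℝ) / 3) := by
        rw [← Real.rpow_add hN0]; norm_num
      have a2 : Y ^ ((4 : ℝ) / 3) = Y ^ ((2 : ℝ) / 3) * Y ^ ((2 : ℝ) / 3) := by
        rw [← Real.rpow_add hY0]; norm_num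
      rw [a1, a2]; ring
    rw [h1, h4]
    refine mul_le_mul_of_nonneg_left ?_ (by positivity)
    refine mul_le_mul_of_nonneg_left ?_ (by positivity)
    calc L * N1 = (L * N1) ^ ((1 : ℝ) / 3) * (L ^ ((2 : ℝ) / 3) * N1 ^ ((2 : ℝ) / 3)) := h3
      _ ≤ _ := mul_le_mul_of_nonneg_right h2 (by positivity)
  have h1' : S1 ≤ N1 ^ ((2 : ℝ) / 3) * (KL * X ^ ε) :=
    h1.trans (mul_le_mul_of_nonneg_left (mul_le_mul_of_nonneg_left hNε hKL.le) (by positivity))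
  have e5 : X ^ (5 * ε) = X ^ ε * X ^ ε * X ^ ε * X ^ ε * X ^ ε := by
    rw [← Real.rpow_add hX0, ← Real.rpow_add hX0, ← Real.rpow_add hX0, ← Real.rpow_add hX0]
    congr 1; ring
  have hT' : T ≤ (Cτ * X ^ ε) * (C1 * Q * ((Γ * (L * N1) * Y) * (X ^ ε * X ^ ε * X ^ ε))) := by
    refine hT.trans ?_
    refine mul_le_mul (mul_le_mul_of_nonneg_left hLNε hCτ) ?_ (by positivity) (by positivity)
    exact mul_le_mul_of_nonneg_left e1 (by positivity)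
  calc (W ^ 2 * S1) * (y6 ^ 2 * T)
      ≤ (W ^ 2 * (N1 ^ ((2 : ℝ) / 3) * (KL * X ^ ε))) * (y6 ^ 2 *
          ((Cτ * X ^ ε) * (C1 * Q * ((Γ * (L * N1) * Y) * (X ^ ε * X ^ ε * X ^ ε))))) := by
        refine mul_le_mul (mul_le_mul_of_nonneg_left h1' (sq_nonneg _))
          (mul_le_mul_of_nonneg_left hT' (sq_nonneg _)) (by positivity) (by positivity)
    _ = (KL * Cτ * C1) * Q * (X ^ ε * X ^ ε * X ^ ε * X ^ ε * X ^ ε) *
          (W ^ 2 * Γ * (y6 ^ 2 * Y * (N1 ^ ((2 : ℝ) / 3) * (L * N1)))) := by ring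
    _ ≤ (KL * Cτ * C1) * Q * (X ^ ε * X ^ ε * X ^ ε * X ^ ε * X ^ ε) * (W ^ 2 * Γ * Z) := by
        refine mul_le_mul_of_nonneg_left ?_ (by positivity)
        exact mul_le_mul_of_nonneg_left e2 (by positivity)
    _ = _ := by rw [e5]

set_option maxHeartbeats 1000000 in
open Classical in
/-- **the lump bilinear bound** -/
theorem lump_bil {h : ℝ → ℝ} (hcd : ContDiff ℝ ∞ h) (hcs : HasCompactSupport h) {ε : ℝ}
    (hε : 0 < ε) (hε1 : ε ≤ 1 / 2) :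
    ∃ C : ℝ, 0 ≤ C ∧ ∀ k0 γ : Eis, k0 ≠ 0 → IsPrim γ → Squarefree γ → ∀ q : Eis, q ≠ 0 →
      (∀ p, IsPP p → p ∣ k0 * γ → p ∣ q) → ∀ L N1 Y t W : ℝ, 1 ≤ L → 1 ≤ N1 → 1 ≤ Y →
      L * N1 ≤ Y ^ 2 → 0 ≤ W → ∀ β : Eis → ℂ, (∀ b ∈ S N1, ‖β b‖ ≤ W * n6 b) → ∀ v : Eis,
      ∑ x ∈ S L, ‖∑ b ∈ S N1, β b * (G b * conj (sy (v * x) b)) *
        LS h t Y q (k0 * γ * (x * b))‖ ^ 2 ≤
        C * ((nm k0 : ℝ) ^ 10 * (nm q : ℝ) ^ (3 * ε) * (1 + |t|) ^ 3) *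
          (nm γ * L * N1 * Y) ^ (5 * ε) *
          (W ^ 2 * nm γ * ((N1 * Y) ^ ((4 : ℝ) / 3) * L ^ ((2 : ℝ) / 3))) := by
  have hv : M49.Wt (wl (g6 h)) := wt_wl (cd_g6 hcd) (cs_g6 hcs)
  obtain ⟨C1, hC1, hM⟩ := lb_mean2 hv hε hε1
  obtain ⟨K, hK0, hK⟩ := MSgen49.mellin_bound hv
  obtain ⟨Cτ, hCτ, hτ⟩ := tau_le_rpow hε
  obtain ⟨KL, hKL, hLL⟩ := LS448.LL_le (ε := ε) hε
  have hCτ0 : 0 ≤ Cτ := by linarith
  have hcD := cD_pos
  refine ⟨2 * ((cD * K) ^ 2 * KL ^ 3) + 2 * (KL * Cτ * C1), by positivity, ?_⟩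
  intro k0 γ hk0 hγ hγs q hq hkq L N1 Y t W hL hN1 hY hLN hW β hβ v
  have hL0 : 0 < L := by linarith
  have hN0 : 0 < N1 := by linarith
  have hY0 : 0 < Y := by linarith
  have hk1 : (1 : ℝ) ≤ nm k0 := by exact_mod_cast nm_pos.2 hk0
  have hq1 : (1 : ℝ) ≤ nm q := by exact_mod_cast nm_pos.2 hq
  have hΓ1 : (1 : ℝ) ≤ nm γ := by exact_mod_cast nm_pos.2 hγ.ne_zero
  have hLN1 : 1 ≤ L * N1 := one_le_mul_of_one_le_of_one_le hL hN1
  obtain ⟨y6, hy6⟩ : ∃ y6 : ℝ, y6 = Y ^ (-(1 : ℝ) / 6) := ⟨_, rfl⟩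
  have hy60 : 0 < y6 := by rw [hy6]; positivity
  obtain ⟨M, hMdef⟩ : ∃ M : Eis → ℂ, M = fun r => Lm (wl (g6 h)) t Y q r (k0 * γ * r) :=
    ⟨_, rfl⟩
  obtain ⟨E, hE⟩ : ∃ E : Eis → ℂ, E = fun r => Lb (wl (g6 h)) t Y q (k0 * γ * r) -
    Lm (wl (g6 h)) t Y q r (k0 * γ * r) := ⟨_, rfl⟩
  obtain ⟨Q, hQ⟩ : ∃ Q : ℝ, Q = (nm k0 : ℝ) ^ 10 * (nm q : ℝ) ^ (3 * ε) * (1 + |t|) ^ 3 :=
    ⟨_, rfl⟩
  obtain ⟨Z, hZ⟩ : ∃ Z : ℝ, Z = (N1 * Y) ^ ((4 : ℝ) / 3) * L ^ ((2 : ℝ) / 3) := ⟨_, rfl⟩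
  obtain ⟨X, hX⟩ : ∃ X : ℝ, X = nm γ * L * N1 * Y := ⟨_, rfl⟩
  have hLSeq : ∀ r : Eis, LS h t Y q (k0 * γ * r) = (y6 : ℂ) * (M r + E r) := by
    intro r
    rw [LS_eq h t hY0, hMdef, hE, hy6]
    simp only
    ring
  have hMn : ∀ r, IsPrim r → Squarefree r → ‖(y6 : ℂ) * M r‖ ≤
      (cD * K * nm k0 * Y ^ ((2 : ℝ) / 3)) * n6 r := by
    intro r hr hrs
    have h1 : ‖M r‖ ≤ cD * (nm k0 * n6 r) * K * Y ^ ((5 : ℝ) / 6) := by
      rw [hMdef]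
      refine (norm_Lm_le hK t hY0 q r _).trans ?_
      have := norm_th_mul_le hk0 hγ hγs hr hrs
      gcongr
    have h2 : y6 * Y ^ ((5 : ℝ) / 6) = Y ^ ((2 : ℝ) / 3) := by
      rw [hy6, ← Real.rpow_add hY0]; norm_num
    rw [norm_mul, Complex.norm_real, Real.norm_of_nonneg hy60.le]
    calc y6 * ‖M r‖ ≤ y6 * (cD * (nm k0 * n6 r) * K * Y ^ ((5 : ℝ) / 6)) :=
          mul_le_mul_of_nonneg_left h1 hy60.le
      _ = (cD * (nm k0 * n6 r) * K) * (y6 * Y ^ ((5 : ℝ) / 6)) := by ring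
      _ = _ := by rw [h2]; ring
  have hEsum : ∑ u ∈ S (L * N1), ‖E u‖ ^ 2 ≤ C1 * Q *
      ((nm γ * (L * N1)) ^ (1 + 3 * ε) * Y ^ (1 + ε)) := by
    have h2 := hM k0 γ hk0 hγ hγs q hq hkq t (L * N1) Y hLN1 hY0
    rw [hE, hQ]
    calc _ ≤ _ := h2
      _ = _ := by ring
  obtain ⟨S1, hS1⟩ : ∃ S1 : ℝ, S1 = ∑ b ∈ S N1, n6 b ^ 2 := ⟨_, rfl⟩
  have hS10 : 0 ≤ S1 := by rw [hS1]; exact Finset.sum_nonneg fun _ _ => by positivity
  have hS1le : S1 ≤ N1 ^ ((2 : ℝ) / 3) * (KL * N1 ^ ε) := by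
    rw [hS1]
    exact (sum_third_le hN0.le).trans (mul_le_mul_of_nonneg_left (hLL N1 hN1) (by positivity))
  have hS2le : ∑ x ∈ S L, n6 x ^ 2 ≤ L ^ ((2 : ℝ) / 3) * (KL * L ^ ε) :=
    (sum_third_le hL0.le).trans (mul_le_mul_of_nonneg_left (hLL L hL) (by positivity))
  -- pointwise
  have hpt : ∀ x ∈ S L, ‖∑ b ∈ S N1, β b * (G b * conj (sy (v * x) b)) *
        LS h t Y q (k0 * γ * (x * b))‖ ^ 2 ≤
      2 * ((W * (cD * K * nm k0 * Y ^ ((2 : ℝ) / 3)) * S1) ^ 2 * n6 x ^ 2) +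
      2 * ((W ^ 2 * S1) * (y6 ^ 2 *
        ∑ b ∈ S N1, (if Squarefree (x * b) then ‖E (x * b)‖ ^ 2 else 0))) := by
    intro x hx
    have hx' := (mem_S hL0.le).1 hx
    have hcn : ∀ b ∈ S N1, ‖G b * conj (sy (v * x) b)‖ ≤ 1 := fun b hb =>
      norm_Gsy_le ((mem_S hN0.le).1 hb).2.1
    have hc0 : ∀ b ∈ S N1, ¬ Squarefree (x * b) → G b * conj (sy (v * x) b) = 0 :=
      fun b hb hs => G_sy_zero hx'.2.2 ((mem_S hN0.le).1 hb).2.1 hs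
    have hsplit : ∑ b ∈ S N1, β b * (G b * conj (sy (v * x) b)) *
        LS h t Y q (k0 * γ * (x * b)) =
        ∑ b ∈ S N1, β b * ((G b * conj (sy (v * x) b)) * ((y6 : ℂ) * M (x * b))) +
          ∑ b ∈ S N1, β b * ((G b * conj (sy (v * x) b)) * ((y6 : ℂ) * E (x * b))) := by
      rw [← Finset.sum_add_distrib]
      refine Finset.sum_congr rfl fun b _ => ?_
      rw [hLSeq]
      ring
    rw [hsplit]
    refine (sq_add_le2 _ _).trans ?_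
    have hA := part_main (A := cD * K * nm k0 * Y ^ ((2 : ℝ) / 3)) hN1 hW (by positivity)
      hx'.2.1 β (fun b => G b * conj (sy (v * x) b)) (fun b => (y6 : ℂ) * M (x * b)) hβ
      hcn hc0 (fun b hb hs => hMn _ (hx'.2.1.mul ((mem_S hN0.le).1 hb).2.1) hs)
    have hB := part_err (x := x) β (fun b => G b * conj (sy (v * x) b))
      (fun r => (y6 : ℂ) * E r) hβ hcn hc0
    rw [← hS1] at hA hB
    have hA2 := pow_le_pow_left₀ (norm_nonneg _) hA 2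
    rw [mul_pow _ (n6 x)] at hA2
    have e1 : ∑ b ∈ S N1, (if Squarefree (x * b) then ‖(y6 : ℂ) * E (x * b)‖ ^ 2 else 0) =
        y6 ^ 2 * ∑ b ∈ S N1, (if Squarefree (x * b) then ‖E (x * b)‖ ^ 2 else 0) := by
      rw [Finset.mul_sum]
      refine Finset.sum_congr rfl fun b _ => ?_
      split_ifs
      · rw [norm_mul, Complex.norm_real, Real.norm_of_nonneg hy60.le, mul_pow]
      · rw [mul_zero]
    rw [e1] at hB
    linarith
  -- the error part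
  have herr : ∑ x ∈ S L, ∑ b ∈ S N1, (if Squarefree (x * b) then ‖E (x * b)‖ ^ 2 else 0) ≤
      (Cτ * (L * N1) ^ ε) * (C1 * Q * ((nm γ * (L * N1)) ^ (1 + 3 * ε) * Y ^ (1 + ε))) := by
    have h1 := merge_S (B := N1) (L := L) hN0.le hL0.le (Bs := S N1)
      (fun b hb => ⟨((mem_S hN0.le).1 hb).2.1, ((mem_S hN0.le).1 hb).1⟩)
      (fun r => ‖E r‖ ^ 2) fun _ => by positivity
    refine h1.trans ?_
    calc ∑ r ∈ S (L * N1), (tau r : ℝ) * ‖E r‖ ^ 2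
        ≤ ∑ r ∈ S (L * N1), (Cτ * (L * N1) ^ ε) * ‖E r‖ ^ 2 := by
          refine Finset.sum_le_sum fun r hr => ?_
          have hr' := (mem_S (by positivity)).1 hr
          refine mul_le_mul_of_nonneg_right ?_ (by positivity)
          refine (hτ r hr'.2.1.ne_zero).trans (mul_le_mul_of_nonneg_left ?_ hCτ0)
          exact Real.rpow_le_rpow (Nat.cast_nonneg _) hr'.1 hε.le
      _ = (Cτ * (L * N1) ^ ε) * ∑ r ∈ S (L * N1), ‖E r‖ ^ 2 := by rw [Finset.mul_sum]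
      _ ≤ _ := mul_le_mul_of_nonneg_left hEsum (by positivity)
  obtain ⟨T, hT⟩ : ∃ T : ℝ, T = ∑ x ∈ S L, ∑ b ∈ S N1,
    (if Squarefree (x * b) then ‖E (x * b)‖ ^ 2 else 0) := ⟨_, rfl⟩
  have hT0 : 0 ≤ T := by
    rw [hT]
    exact Finset.sum_nonneg fun _ _ => Finset.sum_nonneg fun _ _ => by split_ifs <;> positivity
  rw [← hT] at herr
  have hX1 : 1 ≤ X := by
    rw [hX]
    exact one_le_mul_of_one_le_of_one_le (one_le_mul_of_one_le_of_one_le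
      (one_le_mul_of_one_le_of_one_le hΓ1 hL) hN1) hY
  have hLX : L ≤ X := by
    rw [hX]
    calc L ≤ nm γ * L := le_mul_of_one_le_left hL0.le hΓ1
      _ ≤ nm γ * L * N1 := le_mul_of_one_le_right (by positivity) hN1
      _ ≤ _ := le_mul_of_one_le_right (by positivity) hY
  have hNX : N1 ≤ X := by
    rw [hX]
    calc N1 ≤ nm γ * L * N1 := le_mul_of_one_le_left hN0.le (one_le_mul_of_one_le_of_one_le hΓ1 hL)
      _ ≤ _ := le_mul_of_one_le_right (by positivity) hY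
  have hk2 : (nm k0 : ℝ) ^ 2 ≤ Q := by
    have hqε : 1 ≤ (nm q : ℝ) ^ (3 * ε) := Real.one_le_rpow hq1 (by positivity)
    have ht1 : 1 ≤ (1 + |t|) ^ 3 := one_le_pow₀ (by linarith [abs_nonneg t])
    rw [hQ]
    calc (nm k0 : ℝ) ^ 2 ≤ (nm k0 : ℝ) ^ 10 := pow_le_pow_right₀ hk1 (by norm_num)
      _ = (nm k0 : ℝ) ^ 10 * 1 * 1 := by ring
      _ ≤ _ := mul_le_mul (mul_le_mul_of_nonneg_left hqε (by positivity)) ht1 zero_le_one
          (by positivity)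
  have hQ0 : 0 ≤ Q := (by positivity : (0 : ℝ) ≤ (nm k0 : ℝ) ^ 2).trans hk2
  have hZ0 : 0 < Z := by rw [hZ]; positivity
  have hm := num_main (A := cD * K * nm k0) (W := W) (X := X) (Γ := nm γ) hL hN1 hY hX1 hLX hNX hε
    hKL hΓ1 hZ (by positivity) hW hS10 (Finset.sum_nonneg fun _ _ => sq_nonneg _) hS1le hS2le
  have he := num_err (W := W) (S1 := S1) hL hN1 hY hX hε hKL hΓ1 hCτ0 hC1 hQ0 hLN hy6 hZ hT0
    hS1le herr
  have hsum : ∑ x ∈ S L, ‖∑ b ∈ S N1, β b * (G b * conj (sy (v * x) b)) *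
        LS h t Y q (k0 * γ * (x * b))‖ ^ 2 ≤
      2 * ((W * (cD * K * nm k0 * Y ^ ((2 : ℝ) / 3)) * S1) ^ 2 * ∑ x ∈ S L, n6 x ^ 2) +
      2 * ((W ^ 2 * S1) * (y6 ^ 2 * T)) := by
    refine (Finset.sum_le_sum hpt).trans (le_of_eq ?_)
    rw [Finset.sum_add_distrib, ← Finset.mul_sum, ← Finset.mul_sum, ← Finset.mul_sum,
      ← Finset.mul_sum, ← Finset.mul_sum, ← hT]
  have hm2 : (cD * K * nm k0) ^ 2 * KL ^ 3 * X ^ (5 * ε) * (W ^ 2 * nm γ * Z) ≤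
      ((cD * K) ^ 2 * KL ^ 3) * Q * X ^ (5 * ε) * (W ^ 2 * nm γ * Z) := by
    calc (cD * K * nm k0) ^ 2 * KL ^ 3 * X ^ (5 * ε) * (W ^ 2 * nm γ * Z) =
          ((cD * K) ^ 2 * KL ^ 3 * X ^ (5 * ε) * (W ^ 2 * nm γ * Z)) * (nm k0 : ℝ) ^ 2 := by ring
      _ ≤ ((cD * K) ^ 2 * KL ^ 3 * X ^ (5 * ε) * (W ^ 2 * nm γ * Z)) * Q :=
          mul_le_mul_of_nonneg_left hk2 (by positivity)
      _ = _ := by ring
  rw [← hQ, ← hX, ← hZ]
  have e0 : W * (cD * K * nm k0 * Y ^ ((2 : ℝ) / 3)) * S1 =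
      W * (cD * K * nm k0 * Y ^ ((2 : ℝ) / 3)) * S1 := rfl
  calc _ ≤ _ := hsum
    _ ≤ 2 * (((cD * K) ^ 2 * KL ^ 3) * Q * X ^ (5 * ε) * (W ^ 2 * nm γ * Z)) +
        2 * ((KL * Cτ * C1) * Q * X ^ (5 * ε) * (W ^ 2 * nm γ * Z)) := by
        linarith [hm.trans hm2, he]
    _ = _ := by ring

end Crest.Agent.R017.PM764
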