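import Crest.Agent.R017.PM2_320

/-!
# Row 17: the pair functional, clean form (helper320)

* `clean1`, `PG_clean` : (P) for pairs from the Gauss side, levels `f ≤ 2 n' + b - κ`, slope `1/3`
* `PG_clean_ex` : the same with `s = ex Dq (Sp ∘ π)`, `PG_clean_ex'` : order `κ ≤ b`
* `PG_merge` : the merged family
-/

set_option autoImplicit false

noncomputable section

open Set Filter Topology

namespace Crest.Agent.R017.PM320

open Crest.Agent.R012 Crest.Agent.R012.Eis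
open Crest.Agent.R017.FE47 (PU)
open Crest.Agent.R017.XG702 (Pcs BG)
open Crest.Agent.R017.Prov71
open Crest.Agent.R017.B770
open Crest.Agent.R017.XP699
open Crest.Agent.R017.PML320
open Crest.Agent.R017.XRG106 (RFp)
open Crest.Agent.R017.ER911 (Ok Sh)
open Crest.Agent.R017.XPD571 (R0 RF0 RN0 RP0 SP0)

variable {Λ : Type*}

/-- **(P) for pairs, clean form** -/
theorem clean1 {θ : ℝ} {h : ℝ → ℝ} {c₁ : ℝ} (hpu : PU h c₁) {π : Λ → DPar}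
    (hP : ∀ lam, (π lam).OK)
    (H : Raw θ Dq (R0 π h) (RF0 π h) (RN0 π h) (RP0 π h) (SP0 π h)) {c : ℝ} (hc : 0 ≤ c)
    (hc1 : c ≤ 1) {κ : ℝ} {u : List ℝ} {m a E : ℝ} (hκ : 0 ≤ κ) (hu : Okl u m a)
    (hE1 : κ + c * κ + (u.sum + m + a) ≤ E) (hE2 : 2 * (u.sum + m + a) + c * κ ≤ E)
    (hch : ∀ (u' : List ℝ) (m' a' f : ℝ), Shl u' u → 0 ≤ m' → m' ≤ m → 0 ≤ a' → a' ≤ a →
      0 ≤ f → f ≤ 2 * (u'.sum + m' + a') + c * κ - κ →
      BG Dq (SP0 π h) f u' (wt m' a') (E - (κ + (u.sum + m + a) - 2 * (u'.sum + m' + a') +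
        (2 * (u'.sum + m' + a') + c * κ - κ - f) / 3))) :
    BG Dq (PX c π h) κ u (wt m a) E := by
  have hcκ : c * κ ≤ κ := by nlinarith
  have hcκ0 : 0 ≤ c * κ := by positivity
  refine rawPB hpu hP hc hκ hu (by linarith) ?_
  intro u' m' a' l hsh hm0 hm1 ha0 ha1 hl hl1 hl2
  refine H.rawG l u' m' a' _ hl ⟨hsh.nonneg, hm0, ha0⟩ (by linarith) ?_
  intro u₂ m₂ a₂ hsh₂ hm₂ hm₂' ha₂ ha₂' hl3
  refine H.cubes _ u₂ m₂ a₂ _ (by linarith) ⟨hsh₂.nonneg, hm₂, ha₂⟩ ?_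
  intro j hj0 hj1
  have hs₂ := shl_sum_le hsh₂
  have hs' := shl_sum_le hsh
  have hn₂ : u₂.sum + m₂ + a₂ ≤ u.sum + m + a := by linarith
  have key := H.poisC' (κ := κ - c * κ) (u := u₂) (m := m₂) (a := a₂)
    (E := E - c * κ - ((u.sum + m + a) - (u₂.sum + m₂ + a₂))) (by linarith)
    ⟨hsh₂.nonneg, hm₂, ha₂⟩ (by linarith) (by linarith) (fun u₄ m₄ a₄ f hsh₄ hm₄ hm₄' ha₄ ha₄'
      hf0 hf1 => by
      refine (hch u₄ m₄ a₄ f (shl_trans hsh₄ (shl_trans hsh₂ hsh)) hm₄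
        (hm₄'.trans (hm₂'.trans hm1)) ha₄ (ha₄'.trans (ha₂'.trans ha1)) hf0
        (by linarith)).mono (le_of_eq ?_)
      ring) (κ' := j) hj0 (by linarith)
  refine key.mono (le_of_eq ?_)
  ring

/-- **(P) for pairs, clean form**, two levels, order `b ≤ κ` -/
theorem PG_clean {θ : ℝ} {h : ℝ → ℝ} {c₁ : ℝ} (hpu : PU h c₁) {π : Λ → DPar}
    (hP : ∀ lam, (π lam).OK)
    (H : Raw θ Dq (R0 π h) (RF0 π h) (RN0 π h) (RP0 π h) (SP0 π h)) {κ b : ℝ} {u : List ℝ}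
    {m a E : ℝ} (hb : 0 ≤ b) (hbκ : b ≤ κ) (hu : Okl u m a)
    (hE1 : κ + b + (u.sum + m + a) ≤ E) (hE2 : 2 * (u.sum + m + a) + b ≤ E)
    (hch : ∀ (u' : List ℝ) (m' a' f : ℝ), Shl u' u → 0 ≤ m' → m' ≤ m → 0 ≤ a' → a' ≤ a →
      0 ≤ f → f ≤ 2 * (u'.sum + m' + a') + b - κ →
      BG Dq (SP0 π h) f u' (wt m' a') (E - (κ + (u.sum + m + a) - 2 * (u'.sum + m' + a') +
        (2 * (u'.sum + m' + a') + b - κ - f) / 3))) :
    PG π h κ b u (wt m a) E := by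
  refine PG_of_PX (hb.trans hbκ) hb fun ε hε => ⟨ε / 2, by linarith, ?_⟩
  have hη : 0 < κ + ε / 2 := by linarith
  have hc0 : 0 ≤ (b + ε / 2) / (κ + ε / 2) := by positivity
  have hc1 : (b + ε / 2) / (κ + ε / 2) ≤ 1 := by rw [div_le_one hη]; linarith
  have hcb : (b + ε / 2) / (κ + ε / 2) * (κ + ε / 2) = b + ε / 2 := div_mul_cancel₀ _ hη.ne'
  refine clean1 hpu hP H hc0 hc1 hη.le hu (by rw [hcb]; linarith) (by rw [hcb]; linarith) ?_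
  intro u' m' a' f hsh hm0 hm1 ha0 ha1 hf0 hf1
  rw [hcb] at hf1 ⊢
  refine (hch u' m' a' f hsh hm0 hm1 ha0 ha1 hf0 (by linarith)).mono ?_
  have e : (2 * (u'.sum + m' + a') + (b + ε / 2) - (κ + ε / 2) - f) / 3 =
      (2 * (u'.sum + m' + a') + b - κ - f) / 3 := by ring
  rw [e]
  linarith

/-- the same in terms of the exponents of the Gauss side -/
theorem PG_clean_ex {θ : ℝ} {h : ℝ → ℝ} {c₁ : ℝ} (hpu : PU h c₁) {π : Λ → DPar}
    (hP : ∀ lam, (π lam).OK)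
    (H : Raw θ Dq (R0 π h) (RF0 π h) (RN0 π h) (RP0 π h) (SP0 π h)) {κ b : ℝ} {u : List ℝ}
    {m a E : ℝ} (hb : 0 ≤ b) (hbκ : b ≤ κ) (hu : Okl u m a)
    (hE1 : κ + b + (u.sum + m + a) ≤ E) (hE2 : 2 * (u.sum + m + a) + b ≤ E)
    (hch : ∀ (Y' : Multiset ℝ) (m' a' f : ℝ), Sh Y' (u : Multiset ℝ) → 0 ≤ m' → m' ≤ m →
      0 ≤ a' → a' ≤ a → 0 ≤ f → f ≤ 2 * (Y'.sum + m' + a') + b - κ →
      κ + (u.sum + m + a) - 2 * (Y'.sum + m' + a') +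
        ex Dq (fun lam => Sp (π lam) h) f Y' m' a' +
        (2 * (Y'.sum + m' + a') + b - κ - f) / 3 ≤ E) :
    PG π h κ b u (wt m a) E := by
  refine PG_clean hpu hP H hb hbκ hu hE1 hE2 ?_
  intro u' m' a' f hsh hm0 hm1 ha0 ha1 hf0 hf1
  have hsum : (u' : Multiset ℝ).sum = u'.sum := Multiset.sum_coe u'
  have h1 := hch (u' : Multiset ℝ) m' a' f hsh.sh hm0 hm1 ha0 ha1 hf0 (by rw [hsum]; exact hf1)
  rw [hsum] at h1
  exact BG_of_ex (pinv_Sp π h) (XHB411.triv_Sp hP hpu) hf0 ⟨hsh.nonneg, hm0, ha0⟩ (by linarith)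

/-- **(P) for pairs, clean form**, order `κ ≤ b` (conjugate data) -/
theorem PG_clean_ex' {θ : ℝ} {h : ℝ → ℝ} {c₁ : ℝ} (hpu : PU h c₁) {π : Λ → DPar}
    (hP : ∀ lam, (π lam).OK)
    (H : Raw θ Dq (R0 (fun lam => cjD (π lam)) h) (RF0 (fun lam => cjD (π lam)) h)
      (RN0 (fun lam => cjD (π lam)) h) (RP0 (fun lam => cjD (π lam)) h)
      (SP0 (fun lam => cjD (π lam)) h)) {κ b : ℝ} {u : List ℝ}
    {m a E : ℝ} (hκ : 0 ≤ κ) (hbκ : κ ≤ b) (hu : Okl u m a)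
    (hE1 : κ + b + (u.sum + m + a) ≤ E) (hE2 : 2 * (u.sum + m + a) + κ ≤ E)
    (hch : ∀ (Y' : Multiset ℝ) (m' a' f : ℝ), Sh Y' (u : Multiset ℝ) → 0 ≤ m' → m' ≤ m →
      0 ≤ a' → a' ≤ a → 0 ≤ f → f ≤ 2 * (Y'.sum + m' + a') + κ - b →
      b + (u.sum + m + a) - 2 * (Y'.sum + m' + a') +
        ex Dq (fun lam => Sp (cjD (π lam)) h) f Y' m' a' +
        (2 * (Y'.sum + m' + a') + κ - b - f) / 3 ≤ E) :
    PG π h κ b u (wt m a) E :=
  PG_swap hpu hP hκ (PG_clean_ex hpu (fun lam => cjD_ok (hP lam)) H hκ hbκ hu (by linarith) hE2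
    hch)

/-- **the merged family** -/
theorem PG_merge {h : ℝ → ℝ} {π : Λ → DPar} {κ b : ℝ} (hκ : 0 ≤ κ) (hb : 0 ≤ b) {u : List ℝ}
    {w : Kd → ℝ} {e : ℝ} (H : BG Dq (RF0 π h) (κ + 2 * b) u w e) : PG π h κ b u w e := by
  intro ε hε
  obtain ⟨δ, hδ, K⟩ := H (ε / 4) (by linarith)
  obtain ⟨ε', hε'⟩ : ∃ x : ℝ, x = ε / (4 * (κ + 2 * b + δ)) := ⟨_, rfl⟩
  have hden : 0 < κ + 2 * b + δ := by linarith
  have hε'0 : 0 < ε' := by rw [hε']; positivity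
  have hε'1 : ε' * (κ + 2 * b + δ) = ε / 4 := by rw [hε']; field_simp
  obtain ⟨C, hC1, hC⟩ := PMf_merge (h := h) hε'0
  refine ⟨δ / 3, by linarith, fun lam N B => ?_⟩
  obtain ⟨δ', hδ', X₀, hX₀, K1⟩ := K lam N B
  obtain ⟨X₁, hX₁⟩ := Filter.eventually_atTop.1
    ((tendsto_rpow_atTop (show 0 < ε / 2 by linarith)).eventually_ge_atTop C)
  refine ⟨δ', hδ', max X₀ X₁, lt_of_lt_of_le hX₀ (le_max_left _ _), ?_⟩
  intro X hX k β us gs h1 h2 h3 h4 h5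
  have hX0 : X₀ ≤ X := (le_max_left _ _).trans hX
  have hXX : X₁ ≤ X := (le_max_right _ _).trans hX
  have hX1 : 1 < X := by linarith
  have hXp : 0 < X := by linarith
  have hlog : 0 < Real.log X := Real.log_pos hX1
  have s1 : PMf (π lam) h (k * Real.log X) (β * Real.log X) (us ++ gs) ≤
      PMf (π lam) h ((κ + δ / 3) * Real.log X) ((b + δ / 3) * Real.log X) (us ++ gs) :=
    PMf_mono _ _ (mul_le_mul_of_nonneg_right h1 hlog.le)
      (mul_le_mul_of_nonneg_right h2 hlog.le) _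
  have s2 := hC (π lam) ((κ + δ / 3) * Real.log X) ((b + δ / 3) * Real.log X)
    (by positivity) (by positivity) (us ++ gs)
  have e1 : (κ + δ / 3) * Real.log X + 2 * ((b + δ / 3) * Real.log X) =
      (κ + 2 * b + δ) * Real.log X := by ring
  rw [e1] at s2
  have s3 := K1 X hX0 (κ + 2 * b + δ) us gs (by
      rw [add_sub_cancel_left, abs_of_pos hδ])
    (XG702.Near_mono h3 (by linarith)) (XG702.Gran_mono h4 (by linarith) le_rfl) h5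
  have s3' : RFp (π lam) h ((κ + 2 * b + δ) * Real.log X) (us ++ gs) ≤ X ^ (e + ε / 4) := s3
  have e2 : Real.exp (ε' * ((κ + 2 * b + δ) * Real.log X)) = X ^ (ε / 4) := by
    rw [← mul_assoc, hε'1, Real.rpow_def_of_pos hXp, mul_comm]
  rw [e2] at s2
  have hq : 0 ≤ X ^ (ε / 4) := Real.rpow_nonneg hXp.le _
  have hR : 0 ≤ X ^ (e + ε / 4) := Real.rpow_nonneg hXp.le _
  calc PMf (π lam) h (k * Real.log X) (β * Real.log X) (us ++ gs)
      ≤ C * X ^ (ε / 4) * RFp (π lam) h ((κ + 2 * b + δ) * Real.log X) (us ++ gs) := s1.trans s2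
    _ ≤ X ^ (ε / 2) * X ^ (ε / 4) * X ^ (e + ε / 4) :=
        mul_le_mul (mul_le_mul_of_nonneg_right (hX₁ X hXX) hq) s3'
          (XRG106.RFp_nonneg _ _ _ _) (mul_nonneg (Real.rpow_nonneg hXp.le _) hq)
    _ = X ^ (e + ε) := by
        rw [← Real.rpow_add hXp, ← Real.rpow_add hXp]
        congr 1; ring

end Crest.Agent.R017.PM320
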