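import Crest.Agent.R017.PM3_764
import Crest.Agent.R017.XCrD_792

/-!
# Row 17, exceptional class (helper764): the dominating lump

* `SU_dec` : `v = v' c³`, `nm v' ≤ 9`
* `TG_lump` : the Gauss side of a typed smooth piece is `LS`
* `rI_single`
* `lump_case` : the second moment when one smooth piece dominates
-/

set_option autoImplicit false
set_option linter.unusedSectionVars false

noncomputable section

open scoped ComplexConjugate ContDiff

namespace Crest.Agent.R017.PM764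

open Crest.Agent.R012 Crest.Agent.R012.Eis Crest.Agent.R012.Gauss880
open Crest.Agent.R012.LS2 Crest.Agent.R012.Mob705
open Crest.Agent.R012.PSer47 (IsChar)
open Crest.Agent.R012.Weight600 (osc norm_osc osc_add_left)
open Crest.Agent.R012.Div277 (tau dvs mem_dvs tau_le_rpow)
open Crest.Agent.R017.PX764 Crest.Agent.R017.FE47 Crest.Agent.R017.HSep813
open Crest.Agent.R017.End699
open Crest.Agent.R017.CM106 Crest.Agent.R017.HP842

open Crest.Agent.R017.X6b792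
open Crest.Agent.R017.X6545 (SU)

variable {ι : Type*} [Fintype ι] [DecidableEq ι]

/-! ### powers of `λ` and units -/

lemma SU_dec {v : Eis} (hv : SU v) : ∃ v' c : Eis, v = v' * c ^ 3 ∧ v' ≠ 0 ∧ nm v' ≤ 9 ∧
    (∀ p, IsPP p → ¬ p ∣ v') ∧ ∀ m, IsPrim m → IsCoprime c m := by
  obtain ⟨k, hk⟩ := hv
  obtain ⟨j, _, hj⟩ := (dvd_prime_pow prime_lam k).1 hk
  obtain ⟨u, hu⟩ := hj.symm
  -- v = lam ^ j * u
  refine ⟨lam ^ (j % 3) * u, lam ^ (j / 3), ?_, ?_, ?_, ?_, ?_⟩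
  · rw [← hu]
    have : lam ^ j = lam ^ (j % 3) * (lam ^ (j / 3)) ^ 3 := by
      rw [← pow_mul, ← pow_add]
      congr 1
      omega
    rw [this]; ring
  · exact mul_ne_zero (pow_ne_zero _ prime_lam.ne_zero) u.isUnit.ne_zero
  · rw [nm_mul, nm_pow, nm_lam, isUnit_iff.1 u.isUnit, mul_one]
    have h3 : j % 3 ≤ 2 := by omega
    calc 3 ^ (j % 3) ≤ 3 ^ 2 := Nat.pow_le_pow_right (by norm_num) h3
      _ = 9 := by norm_num
  · intro p hp hd
    rcases hp.prime.dvd_or_dvd hd with h | h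
    · have h1 := hp.prime.dvd_of_dvd_pow h
      have h2 : IsCoprime p lam := hp.isPrim.isCoprime_lam
      exact hp.prime.not_isUnit (h2.isUnit_of_dvd' dvd_rfl h1)
    · exact hp.prime.not_isUnit (isUnit_of_dvd_unit h u.isUnit)
  · intro m hm
    exact (hm.isCoprime_lam.pow_right).symm

lemma Gh_cube {c m : Eis} (hm : IsPrim m) (hc : IsCoprime c m) (r : Eis) :
    Gh (r * c ^ 3) m = Gh r m := by
  unfold Gh
  rw [sy_cube_left hm r hc]

lemma LS_cube (h : ℝ → ℝ) (t Y : ℝ) (q r : Eis) {c : Eis} (hc : ∀ m, IsPrim m → IsCoprime c m) :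
    LS h t Y q (r * c ^ 3) = LS h t Y q r := by
  unfold LS
  refine tsum_congr fun m => ?_
  by_cases hm : IsPrim m ∧ IsCoprime m q
  · rw [if_pos hm, if_pos hm, Gh_cube hm.1 (hc m hm.1)]
  · rw [if_neg hm, if_neg hm]

/-! ### the Gauss side of a typed smooth piece -/

lemma nmt_eq {m : Eis} (hm : m ≠ 0) (τ : ℝ) : nmt τ m = osc τ (Real.log (nm m)) := by
  rw [← ch_zero_eq hm]
  unfold nmt TypeI941.ch
  have h3 : ang 0 m = 1 := by unfold ang; simp
  rw [h3, one_mul]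

open Classical in
theorem TG_lump (h : ℝ → ℝ) {P : Pc} (hu : P.u = .one) (hch : IsChar P.ψ) (hY : 0 < P.Y)
    {k0 n' : Eis} (hψ : ∀ m, IsPrim m → P.ψ m = conj (sy k0 m) * prin0 n' m) {y : Eis}
    (hy : IsPrim y) (Q : Eis) (τ : ℝ) (r : Eis) :
    TG (fun m => sub (pc h P) y m * (ic Q m * (n6 m : ℂ) * nmt τ m)) r =
      (P.ψ y * osc P.t (Real.log (nm y))) *
        LS h (P.t + τ) (P.Y / nm y) (Q * n') (k0 * r) := by
  unfold TG LS
  rw [← tsum_mul_left]
  refine tsum_congr fun m => ?_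
  beta_reduce
  by_cases hm : IsPrim m
  · have hym : IsPrim (y * m) := hy.mul hm
    have e1 : sub (pc h P) y m = P.ψ y * P.ψ m *
        (osc P.t (Real.log (nm y)) * gw h (P.Y / nm y) P.t m) := by
      unfold CM106.sub pc
      rw [if_pos hym, hu, hch.mul y m hy hm, gw_mul hY P.t hy.ne_zero hm.ne_zero]
      unfold uv
      ring
    have e2 : gw h (P.Y / nm y) P.t m * nmt τ m = gw h (P.Y / nm y) (P.t + τ) m := by
      rw [nmt_eq hm.ne_zero]
      unfold gw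
      rw [osc_add_left]; ring
    have e3 : Gh (k0 * r) m = G m * conj (sy r m) * conj (sy k0 m) := by
      unfold Gh
      rw [Sym645.sy_mul_left (Sym645.prim_nm_mod hm), map_mul]; ring
    rw [e1, hψ m hm, e3, ← e2]
    by_cases hQ : IsCoprime m Q
    · by_cases hn : IsCoprime m n'
      · rw [if_pos ⟨hm, hQ.mul_right hn⟩]
        unfold ic prin0
        rw [if_pos hQ, if_pos hn]
        ring
      · rw [if_neg (fun h => hn h.2.of_mul_right_right)]
        unfold prin0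
        rw [if_neg hn]
        ring
    · rw [if_neg (fun h => hQ h.2.of_mul_right_left)]
      unfold ic
      rw [if_neg hQ]
      ring
  · rw [if_neg (fun h => hm h.1)]
    have e1 : sub (pc h P) y m = 0 := by
      unfold CM106.sub pc
      rw [if_neg (fun h => hm (h.of_mul_left hy))]
    rw [e1]; ring

/-- a single member of a family -/
lemma rI_single {f : ι → Eis → ℂ} (i0 : ι) (hf : FS (f i0)) : cv (rI {i0} f) = f i0 := by
  classical
  funext m
  by_cases hm : IsPrim m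
  · unfold cv
    rw [Finset.sum_eq_single (fun i => if i = i0 then m else 1)]
    · rw [Finset.prod_eq_single i0]
      · rw [rI_mem (Finset.mem_singleton_self _)]
        beta_reduce
        rw [if_pos rfl]
      · intro i _ hi
        rw [rI_not (by simpa using hi)]
        beta_reduce
        rw [if_neg hi, one1_one]
      · intro h; exact absurd (Finset.mem_univ _) h
    · intro x hx hne
      by_contra h0
      apply hne
      have h1 : ∀ i, i ≠ i0 → x i = 1 := by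
        intro i hi
        have h2 : rI {i0} f i (x i) ≠ 0 := fun h => h0 (Finset.prod_eq_zero (Finset.mem_univ i) h)
        rw [rI_not (by simpa using hi)] at h2
        exact one1_ne h2
      have h3 := (mem_Tu.1 hx).2
      rw [Finset.prod_eq_single i0 (fun i _ hi => h1 i hi) (fun h => absurd (Finset.mem_univ _) h)]
        at h3
      funext i
      by_cases hi : i = i0
      · subst hi; rw [if_pos rfl, h3]
      · rw [if_neg hi, h1 i hi]
    · intro h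
      exfalso
      apply h
      rw [mem_Tu]
      refine ⟨fun i => ?_, ?_⟩
      · split_ifs
        · exact hm
        · exact isPrim_one
      · rw [Finset.prod_eq_single i0 (fun i _ hi => if_neg hi)
          (fun h => absurd (Finset.mem_univ _) h), if_pos rfl]
  · rw [cv_not_prim hm]
    by_contra h0
    exact hm (hf.prim m (Ne.symm h0))

/-! ### the dominating lump -/

lemma prod_if_compl (i0 : ι) (Z : ι → ℝ) :
    ∏ i, (if i ∈ ({i0}ᶜ : Finset ι) then Z i else 1) = ∏ i ∈ ({i0}ᶜ : Finset ι), Z i := by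
  classical
  rw [Finset.prod_ite, Finset.prod_const_one, mul_one]
  refine Finset.prod_congr ?_ fun _ _ => rfl
  ext i; simp

/-- the bilinear shape -/
theorem TG_lump_eq {h : ℝ → ℝ} {k0 n' Q γ v' c : Eis} {P : Pc} {f : ι → Eis → ℂ} {y : ι → Eis}
    {i0 : ι} {N1 τ : ℝ} (hu : P.u = .one) (hch : IsChar P.ψ) (hY : 0 < P.Y)
    (hψ : ∀ m, IsPrim m → P.ψ m = conj (sy k0 m) * prin0 n' m) (hf0 : f i0 = pc h P)
    (hy : IsPrim (y i0)) (hc : ∀ m, IsPrim m → IsCoprime c m)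
    (hFS : ∀ i, FS (wpcF Q f (nmt τ) y i)) (hN1 : 0 ≤ N1)
    (hSp : Sp N1 (cv (rI ({i0}ᶜ : Finset ι) (wpcF Q f (nmt τ) y)))) (x : Eis) :
    TG (cv (wpcF Q f (nmt τ) y)) (v' * c ^ 3 * γ * x) =
      (P.ψ (y i0) * osc P.t (Real.log (nm (y i0)))) *
        ∑ b ∈ S N1, cv (rI ({i0}ᶜ : Finset ι) (wpcF Q f (nmt τ) y)) b *
          (G b * conj (sy (v' * c ^ 3 * γ * x) b)) *
          LS h (P.t + τ) (P.Y / nm (y i0)) (Q * n') ((k0 * v') * γ * (x * b)) := by
  classical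
  have hFS0 : FS (wpcF Q f (nmt τ) y i0) := hFS i0
  rw [TG_cv_eq_TG2 hFS ({i0}ᶜ : Finset ι) hN1 hSp, compl_compl, rI_single i0 hFS0,
    TG2_split (fun b hb => ((mem_S hN1).1 hb).2.1) hFS0, Finset.mul_sum]
  refine Finset.sum_congr rfl fun b _ => ?_
  have e1 : TG (wpcF Q f (nmt τ) y i0) (v' * c ^ 3 * γ * x * b) =
      (P.ψ (y i0) * osc P.t (Real.log (nm (y i0)))) *
        LS h (P.t + τ) (P.Y / nm (y i0)) (Q * n') ((k0 * v') * γ * (x * b)) := by
    have e2 : wpcF Q f (nmt τ) y i0 =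
        fun m => sub (pc h P) (y i0) m * (ic Q m * (n6 m : ℂ) * nmt τ m) := by
      funext m
      unfold wpcF
      rw [hf0]
    rw [e2, TG_lump h hu hch hY hψ hy]
    congr 1
    rw [← LS_cube h (P.t + τ) (P.Y / nm (y i0)) (Q * n') ((k0 * v') * γ * (x * b)) hc]
    congr 1
    ring
  rw [e1]
  ring

set_option maxHeartbeats 1000000 in
/-- **the dominating smooth piece** -/
theorem lump_case (ι : Type*) [Fintype ι] [DecidableEq ι] {h : ℝ → ℝ} (hcd : ContDiff ℝ ∞ h)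
    (hcs : HasCompactSupport h) {ε : ℝ} (hε : 0 < ε) (hε1 : ε ≤ 1 / 2) :
    ∃ C : ℝ, 0 ≤ C ∧ ∀ (k0 n' Q γ v : Eis) (P : Pc) (f : ι → Eis → ℂ) (Y W : ι → ℝ)
      (y : ι → Eis) (i0 : ι) (L N' τ : ℝ), k0 ≠ 0 → n' ≠ 0 → Q ≠ 0 →
      (∀ p, IsPP p → p ∣ k0 → p ∣ n') → IsPrim γ → Squarefree γ → (∀ p, IsPP p → p ∣ γ → p ∣ Q) →
      SU v → P.u = .one → IsChar P.ψ → 0 < P.Y →
      (∀ m, IsPrim m → P.ψ m = conj (sy k0 m) * prin0 n' m) → f i0 = pc h P →
      (∀ i, Sp (Y i) (f i)) → (∀ i m, ‖f i m‖ ≤ W i) → (∀ i, 1 ≤ W i) → (∀ i, IsPrim (y i)) →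
      (∀ i, (nm (y i) : ℝ) ≤ Y i) → ∏ i, Y i / nm (y i) ≤ N' → 1 ≤ L → P.Y ≤ Y i0 →
      1 ≤ P.Y / nm (y i0) →
      L * (∏ i ∈ ({i0}ᶜ : Finset ι), Y i / nm (y i)) ≤ (P.Y / nm (y i0)) ^ 2 →
      ∑ x ∈ S L, ‖TG (cv (wpcF Q f (nmt τ) y)) (v * γ * x)‖ ^ 2 ≤
        C * ((nm k0 : ℝ) ^ 10 * (nm Q * nm n' : ℝ) ^ (3 * ε) * (1 + |P.t| + |τ|) ^ 3) *
          (nm γ * L * N') ^ (6 * ε) *
          ((∏ i, W i) ^ 2 * nm γ * (N' ^ ((4 : ℝ) / 3) * L ^ ((2 : ℝ) / 3))) := by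
  classical
  obtain ⟨C1, hC1, h1⟩ := lump_bil hcd hcs hε hε1
  obtain ⟨C2, hC2, hτ⟩ := tau_le_rpow (ε := ε / (2 * (Fintype.card ι + 1))) (by positivity)
  have hC20 : 0 < C2 := by linarith
  refine ⟨C1 * 9 ^ 10 * (C2 ^ Fintype.card ι) ^ 2, by positivity, ?_⟩
  intro k0 n' Q γ v P f Y W y i0 L N' τ hk0 hn' hQ hkn hγ hγs hγQ hv hu hch hY hψ hf0 hs hw hW1
    hy hyY hN' hL hPY hY1 hLN
  obtain ⟨v', c, hvc, hv0, hv9, hvp, hc⟩ := SU_dec hv
  have hL0 : 0 < L := by linarith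
  set Y' : ℝ := P.Y / nm (y i0) with hY'
  have hY'0 : 0 < Y' := by linarith
  have hy1 : ∀ i, (1 : ℝ) ≤ nm (y i) := fun i => by
    exact_mod_cast nm_pos.mpr (hy i).ne_zero
  have hZ : ∀ i, 1 ≤ Y i / nm (y i) := fun i => by
    rw [le_div_iff₀ (by linarith [hy1 i])]
    linarith [hyY i]
  set N1 : ℝ := ∏ i ∈ ({i0}ᶜ : Finset ι), Y i / nm (y i) with hN1d
  have hN1 : 1 ≤ N1 := by
    calc (1 : ℝ) = ∏ _i ∈ ({i0}ᶜ : Finset ι), (1 : ℝ) := by simp
      _ ≤ N1 := Finset.prod_le_prod (fun _ _ => zero_le_one) fun i _ => hZ i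
  have hN10 : 0 < N1 := by linarith
  have hNY : N1 * Y' ≤ N' := by
    have e1 : ∏ i, Y i / (nm (y i) : ℝ) = N1 * (Y i0 / nm (y i0)) := by
      rw [hN1d, ← Finset.prod_compl_mul_prod ({i0} : Finset ι), Finset.prod_singleton]
    rw [e1] at hN'
    refine le_trans ?_ hN'
    refine mul_le_mul_of_nonneg_left ?_ hN10.le
    rw [hY']
    exact div_le_div_of_nonneg_right hPY (by linarith [hy1 i0])
  have hN'0 : 0 < N' := lt_of_lt_of_le (by positivity) hNY
  have hNY1 : 1 ≤ N1 * Y' := one_le_mul_of_one_le_of_one_le hN1 hY1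
  have hN'1 : 1 ≤ N' := hNY1.trans hNY
  have hN1N : N1 ≤ N' := (le_mul_of_one_le_right hN10.le hY1).trans hNY
  have hΓ1 : (1 : ℝ) ≤ nm γ := by exact_mod_cast nm_pos.2 hγ.ne_zero
  have hSpw : ∀ i, Sp (Y i / nm (y i)) (wpcF Q f (nmt τ) y i) := by
    intro i m hm
    have h2 : f i (y i * m) ≠ 0 := left_ne_zero_of_mul hm
    obtain ⟨h3, h4⟩ := hs i _ h2
    refine ⟨h3.of_mul_left (hy i), ?_⟩
    rw [le_div_iff₀ (by linarith [hy1 i])]
    rw [nm_mul, Nat.cast_mul] at h4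
    linarith
  have hFS : ∀ i, FS (wpcF Q f (nmt τ) y i) := fun i => (hSpw i).FS
  have hno : ∀ i m, IsPrim m → ‖wpcF Q f (nmt τ) y i m‖ ≤ W i * n6 m := by
    intro i m hm
    unfold wpcF
    rw [norm_mul, norm_mul, norm_mul, Complex.norm_real,
      Real.norm_of_nonneg (n6_pos hm.ne_zero).le, norm_nmt hm.ne_zero, mul_one]
    have h6 := (n6_pos hm.ne_zero).le
    have hW0 : 0 ≤ W i := by linarith [hW1 i]
    calc _ ≤ W i * (1 * n6 m) :=
          mul_le_mul (hw i _) (mul_le_mul_of_nonneg_right (norm_ic_le _ _) h6) (by positivity) hW0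
      _ = _ := by ring
  set β := cv (rI ({i0}ᶜ : Finset ι) (wpcF Q f (nmt τ) y)) with hβ
  have hSpβ : Sp N1 β := by
    have h2 : ∀ i, Sp (if i ∈ ({i0}ᶜ : Finset ι) then Y i / nm (y i) else 1)
        (rI ({i0}ᶜ : Finset ι) (wpcF Q f (nmt τ) y) i) := by
      intro i
      by_cases hi : i ∈ ({i0}ᶜ : Finset ι)
      · rw [if_pos hi, rI_mem hi]; exact hSpw i
      · rw [if_neg hi, rI_not hi]
        intro m hm
        rw [one1_ne hm]
        exact ⟨isPrim_one, by rw [nm_one]; norm_num⟩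
    have h3 := Sp_cv (fun i => by
      split_ifs
      · linarith [hZ i]
      · norm_num) h2
    rw [prod_if_compl i0 (fun i => Y i / nm (y i))] at h3
    exact h3
  have hWp : 1 ≤ ∏ i, W i := by
    calc (1 : ℝ) = ∏ _i : ι, (1 : ℝ) := by simp
      _ ≤ _ := Finset.prod_le_prod (fun _ _ => zero_le_one) fun i _ => hW1 i
  have hβn : ∀ b ∈ S N1, ‖β b‖ ≤ (C2 ^ Fintype.card ι * N' ^ (ε / 2) * ∏ i, W i) * n6 b := by
    intro b hb
    have hb' := (mem_S hN10.le).1 hb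
    have h6 := (n6_pos hb'.2.1.ne_zero).le
    have h2 : ∀ i m, IsPrim m → ‖rI ({i0}ᶜ : Finset ι) (wpcF Q f (nmt τ) y) i m‖ ≤
        W i * n6 m := by
      intro i m hm
      by_cases hi : i ∈ ({i0}ᶜ : Finset ι)
      · rw [rI_mem hi]; exact hno i m hm
      · rw [rI_not hi]
        unfold one1
        split_ifs with hm1
        · rw [hm1, n6_one, norm_one, mul_one]; exact hW1 i
        · rw [norm_zero]
          have := (n6_pos hm.ne_zero).le
          have := hW1 i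
          positivity
    have h3 := norm_cv_le h2 b
    refine h3.trans ?_
    have h4 : (tau b : ℝ) ^ Fintype.card ι ≤ C2 ^ Fintype.card ι * N' ^ (ε / 2) := by
      have h5 : (tau b : ℝ) ≤ C2 * N' ^ (ε / (2 * (Fintype.card ι + 1))) :=
        (hτ b hb'.2.1.ne_zero).trans (mul_le_mul_of_nonneg_left
          (Real.rpow_le_rpow (Nat.cast_nonneg _) (hb'.1.trans hN1N) (by positivity)) hC20.le)
      refine (pow_le_pow_left₀ (Nat.cast_nonneg _) h5 _).trans ?_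
      rw [mul_pow]
      refine mul_le_mul_of_nonneg_left ?_ (by positivity)
      rw [← Real.rpow_natCast, ← Real.rpow_mul (by positivity)]
      refine Real.rpow_le_rpow_of_exponent_le hN'1 ?_
      rw [div_mul_eq_mul_div, div_le_div_iff₀ (by positivity) (by norm_num)]
      have : (0 : ℝ) ≤ (Fintype.card ι : ℝ) := Nat.cast_nonneg _
      nlinarith
    refine mul_le_mul_of_nonneg_right ?_ h6
    exact mul_le_mul_of_nonneg_right h4 (by linarith)
  have hψ1 : ‖P.ψ (y i0) * osc P.t (Real.log (nm (y i0)))‖ ≤ 1 := by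
    rw [norm_mul, norm_osc, mul_one]
    exact hch.norm_le (hy i0)
  have hkv : k0 * v' ≠ 0 := mul_ne_zero hk0 hv0
  have hpp : ∀ p, IsPP p → p ∣ k0 * v' * γ → p ∣ Q * n' := by
    intro p hp hd
    rcases hp.prime.dvd_or_dvd hd with h | h
    · rcases hp.prime.dvd_or_dvd h with h | h
      · exact (hkn p hp h).mul_left _
      · exact absurd h (hvp p hp)
    · exact (hγQ p hp h).mul_right _
  have hmain := h1 (k0 * v') γ hkv hγ hγs (Q * n') (mul_ne_zero hQ hn') hpp L N1 Y' (P.t + τ)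
    (C2 ^ Fintype.card ι * N' ^ (ε / 2) * ∏ i, W i) hL hN1 hY1 hLN (by positivity) β hβn
    (v' * c ^ 3 * γ)
  have hstep : ∑ x ∈ S L, ‖TG (cv (wpcF Q f (nmt τ) y)) (v * γ * x)‖ ^ 2 ≤
      ∑ x ∈ S L, ‖∑ b ∈ S N1, β b * (G b * conj (sy (v' * c ^ 3 * γ * x) b)) *
        LS h (P.t + τ) Y' (Q * n') (k0 * v' * γ * (x * b))‖ ^ 2 := by
    refine Finset.sum_le_sum fun x _ => ?_
    rw [hvc, TG_lump_eq hu hch hY hψ hf0 (hy i0) hc hFS hN10.le hSpβ x]
    refine pow_le_pow_left₀ (norm_nonneg _) ?_ 2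
    rw [norm_mul]
    exact mul_le_of_le_one_left (norm_nonneg _) hψ1
  refine hstep.trans (hmain.trans ?_)
  -- numerics
  have a1 : (nm (k0 * v') : ℝ) ^ 10 ≤ 9 ^ 10 * (nm k0 : ℝ) ^ 10 := by
    rw [nm_mul, ← mul_pow]
    push_cast
    have h9 : (nm v' : ℝ) ≤ 9 := by exact_mod_cast hv9
    refine pow_le_pow_left₀ (by positivity) ?_ 10
    nlinarith [(Nat.cast_nonneg (nm k0) : (0 : ℝ) ≤ nm k0)]
  have a2 : (nm (Q * n') : ℝ) ^ (3 * ε) = (nm Q * nm n' : ℝ) ^ (3 * ε) := by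
    rw [nm_mul]; push_cast; rfl
  have a3 : (1 + |P.t + τ|) ^ 3 ≤ (1 + |P.t| + |τ|) ^ 3 := by
    refine pow_le_pow_left₀ (by positivity) ?_ 3
    have := abs_add_le P.t τ
    linarith
  have hX1 : 1 ≤ nm γ * L * N' := one_le_mul_of_one_le_of_one_le
    (one_le_mul_of_one_le_of_one_le hΓ1 hL) hN'1
  have hX0 : 0 < nm γ * L * N' := by linarith
  have a4 : (nm γ * L * N1 * Y') ^ (5 * ε) ≤ (nm γ * L * N') ^ (5 * ε) := by
    refine Real.rpow_le_rpow (by positivity) ?_ (by positivity)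
    calc nm γ * L * N1 * Y' = nm γ * L * (N1 * Y') := by ring
      _ ≤ nm γ * L * N' := mul_le_mul_of_nonneg_left hNY (by positivity)
  have a5 : (N1 * Y') ^ ((4 : ℝ) / 3) ≤ N' ^ ((4 : ℝ) / 3) :=
    Real.rpow_le_rpow (by positivity) hNY (by norm_num)
  have a6 : N' ^ ε ≤ (nm γ * L * N') ^ ε := by
    refine Real.rpow_le_rpow hN'0.le ?_ hε.le
    exact le_mul_of_one_le_left hN'0.le (one_le_mul_of_one_le_of_one_le hΓ1 hL)
  have a7 : (C2 ^ Fintype.card ι * N' ^ (ε / 2) * ∏ i, W i) ^ 2 =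
      (C2 ^ Fintype.card ι) ^ 2 * N' ^ ε * (∏ i, W i) ^ 2 := by
    have : N' ^ ε = (N' ^ (ε / 2)) ^ 2 := by
      rw [← Real.rpow_natCast, ← Real.rpow_mul hN'0.le]; congr 1; push_cast; ring
    rw [this]; ring
  have a8 : (nm γ * L * N') ^ (6 * ε) = (nm γ * L * N') ^ (5 * ε) * (nm γ * L * N') ^ ε := by
    rw [← Real.rpow_add hX0]; congr 1; ring
  rw [a7, a2, a8]
  obtain ⟨A1, hA1⟩ : ∃ A1 : ℝ, A1 = (nm γ * L * N') ^ (5 * ε) := ⟨_, rfl⟩
  obtain ⟨A2, hA2⟩ : ∃ A2 : ℝ, A2 = (nm γ * L * N') ^ ε := ⟨_, rfl⟩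
  obtain ⟨B1, hB1⟩ : ∃ B1 : ℝ, B1 = (nm Q * nm n' : ℝ) ^ (3 * ε) := ⟨_, rfl⟩
  obtain ⟨C3, hC3⟩ : ∃ C3 : ℝ, C3 = C2 ^ Fintype.card ι := ⟨_, rfl⟩
  have hA10 : 0 ≤ A1 := by rw [hA1]; positivity
  have hA20 : 0 ≤ A2 := by rw [hA2]; positivity
  have hB10 : 0 ≤ B1 := by rw [hB1]; positivity
  have hC30 : 0 ≤ C3 := by rw [hC3]; positivity
  rw [← hA1] at a4 ⊢
  rw [← hA2] at a6 ⊢
  rw [← hB1, ← hC3]
  have hL23 : 0 ≤ L ^ ((2 : ℝ) / 3) := by positivity
  calc C1 * ((nm (k0 * v') : ℝ) ^ 10 * B1 * (1 + |P.t + τ|) ^ 3) *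
        (nm γ * L * N1 * Y') ^ (5 * ε) *
        (C3 ^ 2 * N' ^ ε * (∏ i, W i) ^ 2 * nm γ * ((N1 * Y') ^ ((4 : ℝ) / 3) * L ^ ((2 : ℝ) / 3)))
      ≤ C1 * ((9 ^ 10 * (nm k0 : ℝ) ^ 10) * B1 * (1 + |P.t| + |τ|) ^ 3) * A1 *
        (C3 ^ 2 * A2 * (∏ i, W i) ^ 2 * nm γ * (N' ^ ((4 : ℝ) / 3) * L ^ ((2 : ℝ) / 3))) := by
        refine mul_le_mul (mul_le_mul (mul_le_mul_of_nonneg_left (mul_le_mul
          (mul_le_mul_of_nonneg_right a1 hB10) a3 (by positivity) (by positivity)) hC1) a4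
          (by positivity) (by positivity)) ?_ (by positivity) (by positivity)
        refine mul_le_mul ?_ (mul_le_mul_of_nonneg_right a5 hL23) (by positivity) (by positivity)
        refine mul_le_mul_of_nonneg_right ?_ (by linarith)
        refine mul_le_mul_of_nonneg_right ?_ (by positivity)
        exact mul_le_mul_of_nonneg_left a6 (by positivity)
    _ = _ := by ring

end Crest.Agent.R017.PM764
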