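import Crest.Agent.R017.PM4_320

/-!
# Row 17: families closed under conjugation (helper320)

* `cjD_cjD`; `BG_comp`, `ex_comp` : reindexing of the parameter set
* `pcl π : Λ × Bool → DPar` : `π` and `cjD ∘ π`; `ex_cj` : the exponents of `pcl π` and of
  `cjD ∘ pcl π` are equal; `PG_of_pcl`
-/

set_option autoImplicit false

noncomputable section

open Set Filter Topology
open scoped ComplexConjugate

namespace Crest.Agent.R017.PM320

open Crest.Agent.R012 Crest.Agent.R012.Eis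
open Crest.Agent.R017.FE47 (PU)
open Crest.Agent.R017.XG702 (Pcs BG)
open Crest.Agent.R017.Prov71
open Crest.Agent.R017.B770
open Crest.Agent.R017.PML320

/-- weight zero (no list functional depends on the weight) -/
def zD (P : DPar) : DPar := { P with U := fun _ => 0 }

theorem cjD_cjD (P : DPar) : cjD (cjD P) = zD P := by
  cases P
  simp only [cjD, zD, Complex.conj_conj, neg_neg]

theorem cjD_zD (P : DPar) : cjD (zD P) = cjD P := rfl

theorem zD_ok {P : DPar} (hP : P.OK) : (zD P).OK where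
  h₀ := hP.h₀
  h := hP.h
  V := hP.V
  U := sw_zero
  n36 := hP.n36
  φ := hP.φ
  ψ := hP.ψ
  χ₃ := hP.χ₃
  rad := hP.rad
  cases := Or.inr (Or.inr (Or.inr rfl))

variable {Λ Λ' Pc : Type*} {D : Pcs Pc Kd}

/-- reindexing -/
theorem BG_comp {Ψ : Λ → ℝ → List Pc → ℝ} (σ : Λ' → Λ) {κ : ℝ} {u : List ℝ} {w : Kd → ℝ}
    {e : ℝ} (h : BG D Ψ κ u w e) : BG D (fun lam => Ψ (σ lam)) κ u w e := by
  intro ε hε
  obtain ⟨δ, hδ, H⟩ := h ε hε
  exact ⟨δ, hδ, fun lam N B => H (σ lam) N B⟩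

theorem BG_comp_iff {Ψ : Λ → ℝ → List Pc → ℝ} {σ : Λ' → Λ} (hσ : Function.Surjective σ) {κ : ℝ}
    {u : List ℝ} {w : Kd → ℝ} {e : ℝ} :
    BG D (fun lam => Ψ (σ lam)) κ u w e ↔ BG D Ψ κ u w e := by
  refine ⟨fun h => ?_, BG_comp σ⟩
  intro ε hε
  obtain ⟨δ, hδ, H⟩ := h ε hε
  refine ⟨δ, hδ, fun lam N B => ?_⟩
  obtain ⟨lam', rfl⟩ := hσ lam
  exact H lam' N B

theorem ex_comp {Ψ : Λ → ℝ → List Pc → ℝ} {σ : Λ' → Λ} (hσ : Function.Surjective σ) :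
    ex D (fun lam => Ψ (σ lam)) = ex D Ψ := by
  funext κ Y m a
  unfold ex
  simp only [BG_comp_iff hσ]

/-- `π` (weight zero) and its conjugate -/
def pcl (π : Λ → DPar) : Λ × Bool → DPar := fun x => if x.2 then cjD (π x.1) else zD (π x.1)

lemma pcl_ok {π : Λ → DPar} (hP : ∀ lam, (π lam).OK) (x : Λ × Bool) : (pcl π x).OK := by
  unfold pcl
  split_ifs
  · exact cjD_ok (hP _)
  · exact zD_ok (hP _)

lemma cjD_pcl (π : Λ → DPar) (x : Λ × Bool) : cjD (pcl π x) = pcl π (x.1, !x.2) := by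
  obtain ⟨l, b⟩ := x
  unfold pcl
  cases b
  · simp [cjD_zD]
  · simp [cjD_cjD]

lemma swap_surj : Function.Surjective (fun x : Λ × Bool => (x.1, !x.2)) := fun x =>
  ⟨(x.1, !x.2), by simp⟩

/-- **the exponents of the closed family are invariant** -/
theorem ex_cj {D : Pcs Pq Kd} (F : DPar → ℝ → List Pq → ℝ) (π : Λ → DPar) :
    ex D (fun x => F (cjD (pcl π x))) = ex D (fun x => F (pcl π x)) := by
  have e : (fun x => F (cjD (pcl π x))) = fun x => (fun y => F (pcl π y)) (x.1, !x.2) := by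
    funext x
    rw [cjD_pcl]
  rw [e]
  exact ex_comp (Ψ := fun y => F (pcl π y)) swap_surj

theorem BG_cj {D : Pcs Pq Kd} (F : DPar → ℝ → List Pq → ℝ) (π : Λ → DPar) {κ : ℝ} {u : List ℝ}
    {w : Kd → ℝ} {e : ℝ} : BG D (fun x => F (cjD (pcl π x))) κ u w e ↔
      BG D (fun x => F (pcl π x)) κ u w e := by
  have e : (fun x => F (cjD (pcl π x))) = fun x => (fun y => F (pcl π y)) (x.1, !x.2) := by
    funext x
    rw [cjD_pcl]
  rw [e]
  exact BG_comp_iff (Ψ := fun y => F (pcl π y)) swap_surj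

/-- from the closed family to `π` -/
theorem PG_of_pcl {π : Λ → DPar} {h : ℝ → ℝ} {κ b : ℝ} {u : List ℝ} {w : Kd → ℝ} {e : ℝ}
    (H : PG (pcl π) h κ b u w e) : PG π h κ b u w e := by
  intro ε hε
  obtain ⟨δ, hδ, K⟩ := H ε hε
  exact ⟨δ, hδ, fun lam N B => K (lam, false) N B⟩

/-- reindexing of the raw rules -/
theorem Raw_comp {θ : ℝ} {R RF RN Rp S : Λ → ℝ → List Pc → ℝ} {σ : Λ' → Λ}
    (hσ : Function.Surjective σ) (H : XP699.Raw θ D R RF RN Rp S) :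
    XP699.Raw θ D (fun x => R (σ x)) (fun x => RF (σ x)) (fun x => RN (σ x))
      (fun x => Rp (σ x)) (fun x => S (σ x)) where
  split lam := H.split (σ lam)
  RN_le lam := H.RN_le (σ lam)
  R_le lam := H.R_le (σ lam)
  monoRF lam := H.monoRF (σ lam)
  monoSS lam := H.monoSS (σ lam)
  rawP κ u m a E h1 h2 h3 h4 := BG_comp σ (H.rawP κ u m a E h1 h2 h3
    fun u' m' a' l g1 g2 g3 g4 g5 g6 g7 g8 =>
      (BG_comp_iff hσ).1 (h4 u' m' a' l g1 g2 g3 g4 g5 g6 g7 g8))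
  rawG κ u m a E h1 h2 h3 h4 := BG_comp σ (H.rawG κ u m a E h1 h2 h3
    fun u' m' a' g1 g2 g3 g4 g5 g6 => (BG_comp_iff hσ).1 (h4 u' m' a' g1 g2 g3 g4 g5 g6))
  cubes κ u m a E h1 h2 h3 := BG_comp σ (H.cubes κ u m a E h1 h2
    fun i g1 g2 => (BG_comp_iff hσ).1 (h3 i g1 g2))
  mono κ κ' u m a E h1 h2 h3 h4 h5 := BG_comp σ (H.mono κ κ' u m a E h1 h2 h3
    ((BG_comp_iff hσ).1 h4) fun u₁ y u₂ g1 g2 => (BG_comp_iff hσ).1 (h5 u₁ y u₂ g1 g2))
  monoS κ κ' u m a E h1 h2 h3 h4 h5 := BG_comp σ (H.monoS κ κ' u m a E h1 h2 h3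
    ((BG_comp_iff hσ).1 h4) fun u₁ y u₂ g1 g2 => (BG_comp_iff hσ).1 (h5 u₁ y u₂ g1 g2))
  colP i u m a h1 h2 := BG_comp σ (H.colP i u m a h1 h2)
  cut i u m a e h1 h2 h3 := BG_comp σ (H.cut i u m a e h1 h2
    fun u' g1 g2 => (BG_comp_iff hσ).1 (h3 u' g1 g2))
  hbG κ u m a h1 h2 := BG_comp σ (H.hbG κ u m a h1 h2)

open Crest.Agent.R017.XPD571 (R0 RF0 RN0 RP0 SP0) in
/-- **the raw rules of the conjugate of a closed family** -/
theorem Raw_cj {θ : ℝ} {π : Λ → DPar} {h : ℝ → ℝ}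
    (H : XP699.Raw θ Dq (R0 (pcl π) h) (RF0 (pcl π) h) (RN0 (pcl π) h) (RP0 (pcl π) h)
      (SP0 (pcl π) h)) :
    XP699.Raw θ Dq (R0 (fun x => cjD (pcl π x)) h) (RF0 (fun x => cjD (pcl π x)) h)
      (RN0 (fun x => cjD (pcl π x)) h) (RP0 (fun x => cjD (pcl π x)) h)
      (SP0 (fun x => cjD (pcl π x)) h) := by
  have e : (fun x => cjD (pcl π x)) = fun x => pcl π (x.1, !x.2) := by
    funext x
    exact cjD_pcl π x
  rw [e]
  exact Raw_comp (σ := fun x : Λ × Bool => (x.1, !x.2)) (swap_surj (Λ := Λ)) H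

open Crest.Agent.R017.XPD571 (R0 RF0 RN0 RP0 SP0) in
open Crest.Agent.R017.ER911 (Ok Sh) in
/-- **be and be'**: the clean form in both orders, closed family; `lo = min`, `hi = max` -/
theorem PG_be {θ : ℝ} {h : ℝ → ℝ} {c₁ : ℝ} (hpu : PU h c₁) {π : Λ → DPar}
    (hP : ∀ lam, (π lam).OK)
    (H : XP699.Raw θ Dq (R0 (pcl π) h) (RF0 (pcl π) h) (RN0 (pcl π) h) (RP0 (pcl π) h)
      (SP0 (pcl π) h)) {κ b : ℝ} {u : List ℝ} {m a E : ℝ} (hκ : 0 ≤ κ) (hb : 0 ≤ b)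
    (hu : Okl u m a) (hE1 : κ + b + (u.sum + m + a) ≤ E)
    (hE2 : 2 * (u.sum + m + a) + min κ b ≤ E)
    (hch : ∀ (Y' : Multiset ℝ) (m' a' f : ℝ), Sh Y' (u : Multiset ℝ) → 0 ≤ m' → m' ≤ m →
      0 ≤ a' → a' ≤ a → 0 ≤ f → f ≤ 2 * (Y'.sum + m' + a') + min κ b - max κ b →
      max κ b + (u.sum + m + a) - 2 * (Y'.sum + m' + a') +
        ex Dq (fun x => Sp (pcl π x) h) f Y' m' a' +
        (2 * (Y'.sum + m' + a') + min κ b - max κ b - f) / 3 ≤ E) :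
    PG π h κ b u (wt m a) E := by
  refine PG_of_pcl ?_
  rcases le_total b κ with hbκ | hbκ
  · rw [min_eq_right hbκ] at hE2 hch
    rw [max_eq_left hbκ] at hch
    exact PG_clean_ex hpu (pcl_ok hP) H hb hbκ hu hE1 hE2 hch
  · rw [min_eq_left hbκ] at hE2 hch
    rw [max_eq_right hbκ] at hch
    refine PG_clean_ex' hpu (pcl_ok hP) (Raw_cj H) hκ hbκ hu hE1 hE2 ?_
    intro Y' m' a' f h1 h2 h3 h4 h5 h6 h7
    rw [ex_cj (fun P => Sp P h) π]
    exact hch Y' m' a' f h1 h2 h3 h4 h5 h6 h7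

end Crest.Agent.R017.PM320
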