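import Crest.Agent.R017.PMBc_521

/-!
# Row 17, E2: Poisson - merge (helper521), part 4

* `P_ruleB2` : the block bound with the roles of `B` and of the frequency exchanged
-/

set_option autoImplicit false

noncomputable section

open Complex MeasureTheory
open scoped ComplexConjugate

namespace Crest.Agent.R017.PMB521

open Crest.Agent.R012 Crest.Agent.R012.Eis Crest.Agent.R012.LS2 Crest.Agent.R012.Gauss880
open Crest.Agent.R012.Div277 Crest.Agent.R012.CR2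
open Crest.Agent.R017.PA842 (V Supp)
open Crest.Agent.R017.CM106 (CS TG FS)
open Crest.Agent.R017.TP320
open Crest.Agent.R017.PMB401 (cj cj_apply norm_cj cj_ne FS_cj norm_CS_conj_symm sum_CS_conj_symm)

set_option maxHeartbeats 1000000

lemma HypGB.mono {J : Type} {Φ : Fam J} {C C' r ε ε' X0 K E a : ℝ} {j : J} {q : Eis}
    (hX0 : 1 ≤ X0) (hK : 0 ≤ K) (hE : 0 ≤ E) (hC : 0 ≤ C) (hCC : C ≤ C') (hε : ε ≤ ε')
    (h : HypGB Φ C' r ε' X0 K E a j q) : HypGB Φ C r ε X0 K E a j q := by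
  intro j' q' n1 φ h1 h2 h3 h4 h5 h6 h7 h8 h9 h10
  have hl : 0 ≤ Real.log X0 := Real.log_nonneg hX0
  have hx : X0 ^ ε ≤ X0 ^ ε' := Real.rpow_le_rpow_of_exponent_le hX0 hε
  have hX00 : 0 ≤ X0 := by linarith
  refine le_trans (VG_mono (by positivity) ?_ _) (h j' q' n1 φ h1 h2 h3 h4 h5 ?_ h7 h8 ?_ ?_)
  · have hC' : 0 ≤ C' := hC.trans hCC
    gcongr
  · have : ε * Real.log X0 ≤ ε' * Real.log X0 := by gcongr
    linarith
  · refine h9.trans ?_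
    gcongr
  · refine h10.trans ?_
    gcongr

lemma FS_sq {J : Type} {Φ : Fam J} {R A : ℝ} (hΦ : Φ.Ok R A) (q : Eis) (j : J) :
    FS (TP320.sq q (Φ.w j)) where
  fin := by
    have hs := supp_sq hΦ q j (le_refl (Real.exp (Φ.len j + R)))
    exact (Finset.finite_toSet (S (Real.exp (Φ.len j + R)))).subset fun m hm => hs m hm
  prim m hm := by
    unfold TP320.sq at hm
    split_ifs at hm with hc
    · exact hc.1
    · exact absurd rfl hm

/-- **the block bound, exchanged roles** -/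
theorem P_ruleB2 {J : Type} {Φ : Fam J} {R A : ℝ} (hΦ : Φ.Ok R A) {ε : ℝ} (hε : 0 < ε) :
    ∃ C r : ℝ, 1 ≤ C ∧ 0 ≤ r ∧ ∀ X0 K E a : ℝ, 3 ≤ X0 → 1 ≤ K → K ≤ X0 → 1 ≤ E → 81 * E ≤ X0 →
      0 ≤ a → ∀ j : J, Real.exp (Φ.len j) ≤ X0 → ∀ q : Eis, IsPrim q →
      HypGB (cjF Φ) C r ε X0 (81 * E) K a j q →
      ∀ Bs : Finset Eis, (∀ B ∈ Bs, IsPrim B ∧ (nm B : ℝ) ≤ E) →
      ∑ B ∈ Bs, ∑ k ∈ bl K, ‖CS (TP320.sq q (Φ.w j)) (k * B ^ 2)‖ ^ 2 ≤
        C * X0 ^ ε * (K * E + E * a) * Real.exp (Φ.len j) * (Φ.ht j) ^ 2 := by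
  classical
  obtain ⟨C, r, hC, hr, h⟩ := P_ruleB' (cjF_ok hΦ) (ε := ε / 2) (by linarith)
  set c1 : ℝ := 1 + 2 / ε with hc1
  have hc11 : 1 ≤ c1 := by
    have : 0 < 2 / ε := by positivity
    linarith
  refine ⟨1296 * c1 * C, r, by nlinarith [one_le_mul_of_one_le_of_one_le hc11 hC], hr, ?_⟩
  intro X0 K E a hX0 hK1 hKX hE1 hEX ha j hj q hq HG Bs hBs
  have hK0 : 0 ≤ K := by linarith
  have hE0 : 0 ≤ E := by linarith
  have hX00 : 0 ≤ X0 := by linarith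
  have hCC : C ≤ 1296 * c1 * C := by nlinarith [one_le_mul_of_one_le_of_one_le hc11 hC]
  have HG' : HypGB (cjF Φ) C r (ε / 2) X0 (81 * E) K a j q :=
    HG.mono (by linarith) (by positivity) hK0 (by linarith) hCC (by linarith)
  set α := TP320.sq q (Φ.w j) with hα
  have hFS : FS α := FS_sq hΦ q j
  set β := cj α with hβ
  have hβp : ∀ m, β m ≠ 0 → IsPrim m := fun m hm => hFS.prim m (cj_ne.1 hm)
  have hβe : TP320.sq q ((cjF Φ).w j) = β := by rw [cjF_w, sq_cj]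
  -- exchange
  have h1 : ∑ B ∈ Bs, ∑ k ∈ bl K, ‖CS α (k * B ^ 2)‖ ^ 2 =
      ∑ k ∈ bl K, ∑ B ∈ Bs, ‖CS β (B * k ^ 2)‖ ^ 2 := by
    rw [Finset.sum_comm]
    refine Finset.sum_congr rfl fun k _ => Finset.sum_congr rfl fun B _ => ?_
    rw [norm_CS_conj_symm hFS, mul_comm (k ^ 2)]
  set T : ℝ := ∑ m ∈ primBall ⌊K⌋₊, ∑ x ∈ bl (81 * E), ‖CS β (x * m ^ 2)‖ ^ 2 with hT
  have hT0 : 0 ≤ T := Finset.sum_nonneg fun _ _ => Finset.sum_nonneg fun _ _ => by positivity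
  have h2 : ∑ k ∈ bl K, ∑ B ∈ Bs, ‖CS β (B * k ^ 2)‖ ^ 2 ≤
      ∑ k ∈ Finset.range (⌊Real.log K⌋₊ + 1), ∑ u ∈ (bl 1), T := by
    refine (bl_le_prim hK1 (fun k => ∑ B ∈ Bs, ‖CS β (B * k ^ 2)‖ ^ 2)
      (fun _ => Finset.sum_nonneg fun _ _ => by positivity)).trans ?_
    refine Finset.sum_le_sum fun k _ => Finset.sum_le_sum fun u hu => ?_
    rw [mem_bl zero_le_one] at hu
    refine Finset.sum_le_sum fun m _ => ?_
    set c0 : Eis := (lam ^ (k % 3) * u) ^ 2 with hc0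
    have hc00 : c0 ≠ 0 := pow_ne_zero _ (mul_ne_zero (pow_ne_zero _ lam_ne_zero) hu.1)
    have hc0n : (nm c0 : ℝ) ≤ 81 := by
      rw [hc0, nm_pow, nm_mul, nm_pow, nm_lam]
      push_cast
      have h3 : (3 : ℝ) ^ (k % 3) ≤ 9 := by
        have : k % 3 < 3 := Nat.mod_lt _ (by norm_num)
        calc (3 : ℝ) ^ (k % 3) ≤ 3 ^ 2 := pow_le_pow_right₀ (by norm_num) (by omega)
          _ = 9 := by norm_num
      have h4 : (0 : ℝ) ≤ 3 ^ (k % 3) := by positivity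
      have h5 := hu.2
      have h6 : (0 : ℝ) ≤ nm u := Nat.cast_nonneg _
      have h7 : (3 : ℝ) ^ (k % 3) * nm u ≤ 9 * 1 := mul_le_mul h3 h5 h6 (by norm_num)
      calc ((3 : ℝ) ^ (k % 3) * nm u) ^ 2 ≤ (9 * 1) ^ 2 :=
            pow_le_pow_left₀ (mul_nonneg h4 h6) h7 2
        _ = 81 := by norm_num
    have e1 : ∑ B ∈ Bs, ‖CS β (B * (lam ^ k * (u * m)) ^ 2)‖ ^ 2 =
        ∑ x ∈ Bs.image (fun B => B * c0), ‖CS β (x * m ^ 2)‖ ^ 2 := by
      rw [Finset.sum_image fun x _ y _ hxy => mul_right_cancel₀ hc00 hxy]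
      refine Finset.sum_congr rfl fun B _ => ?_
      rw [CS_lam_pow hβp]
    show ∑ B ∈ Bs, ‖CS β (B * (lam ^ k * (u * m)) ^ 2)‖ ^ 2 ≤ _
    rw [e1]
    refine Finset.sum_le_sum_of_subset_of_nonneg ?_ fun _ _ _ => by positivity
    intro x hx
    rw [Finset.mem_image] at hx
    obtain ⟨B, hB, rfl⟩ := hx
    obtain ⟨hBp, hBn⟩ := hBs B hB
    rw [mem_bl (by positivity)]
    refine ⟨mul_ne_zero hBp.ne_zero hc00, ?_⟩
    rw [nm_mul]
    push_cast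
    have : (0 : ℝ) ≤ nm c0 := Nat.cast_nonneg _
    calc (nm B : ℝ) * nm c0 ≤ E * 81 := mul_le_mul hBn hc0n this hE0
      _ = 81 * E := by ring
  have h3 := h X0 (81 * E) K a hX0 (by linarith) hEX hK1 hKX ha j hj q hq HG' (primBall ⌊K⌋₊) (by
    intro B hB
    rw [mem_primBall] at hB
    exact ⟨hB.2, le_trans (by exact_mod_cast hB.1) (Nat.floor_le hK0)⟩)
  rw [hβe, cjF_len, cjF_ht, ← hT] at h3
  have hcard : ((bl 1).card : ℝ) ≤ 16 := by
    have := card_bl_le (zero_le_one' ℝ)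
    linarith
  have hlogK : 0 ≤ Real.log K := Real.log_nonneg hK1
  have hN : ((⌊Real.log K⌋₊ + 1 : ℕ) : ℝ) ≤ c1 * X0 ^ (ε / 2) := by
    push_cast
    have a1 : (⌊Real.log K⌋₊ : ℝ) ≤ Real.log K := Nat.floor_le hlogK
    have a2 : Real.log K ≤ Real.log X0 := Real.log_le_log (by linarith) hKX
    have a3 : Real.log X0 ≤ X0 ^ (ε / 2) / (ε / 2) := Real.log_le_rpow_div hX00 (by linarith)
    have a4 : 1 ≤ X0 ^ (ε / 2) := Real.one_le_rpow (by linarith) (by linarith)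
    have a5 : X0 ^ (ε / 2) / (ε / 2) = 2 / ε * X0 ^ (ε / 2) := by field_simp
    rw [hc1]
    nlinarith
  rw [h1]
  refine h2.trans ?_
  rw [Finset.sum_const, Finset.sum_const, Finset.card_range, nsmul_eq_mul, nsmul_eq_mul]
  have hht : 0 ≤ (Φ.ht j) ^ 2 := sq_nonneg _
  have hxx : X0 ^ ε = X0 ^ (ε / 2) * X0 ^ (ε / 2) := by
    rw [← Real.rpow_add (by linarith)]; congr 1; ring
  have hX2 : 0 ≤ X0 ^ (ε / 2) := by positivity
  calc ((⌊Real.log K⌋₊ + 1 : ℕ) : ℝ) * (((bl 1).card : ℝ) * T)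
      ≤ (c1 * X0 ^ (ε / 2)) * (16 * (C * X0 ^ (ε / 2) * (81 * E * K + 81 * E * a) *
        Real.exp (Φ.len j) * (Φ.ht j) ^ 2)) := by
        have hc10 : 0 ≤ c1 := by linarith
        gcongr
    _ = 1296 * c1 * C * X0 ^ ε * (K * E + E * a) * Real.exp (Φ.len j) * (Φ.ht j) ^ 2 := by
        rw [hxx]; ring

end Crest.Agent.R017.PMB521
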