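import Crest.Agent.R017.PMBd_521
import Crest.Agent.R017.MoF7_106

/-!
# Row 17, E2: Poisson - merge (helper521), part 5: the pair families of `MoC_blk`

* `QB X u r`    : `r = r' * B ^ 2` with `B` in the block `u`
* `QB_of`       : the frequencies of `mo_blk` are of this form
* `sum_QB_le`   : the sparse sum by the pairs
* `pair_min`    : `∑ B ∈ bk X u, ∑ r' ∈ bl K, ‖CS (sq q (w j)) (r' * B ^ 2)‖ ^ 2` by either order
* `Kid_PMB`, `Kid_PMB2` : helper106's `Kid` with the predicate `QB`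
-/

set_option autoImplicit false

noncomputable section

open Complex MeasureTheory
open scoped ComplexConjugate

namespace Crest.Agent.R017.PMB521

open Crest.Agent.R012 Crest.Agent.R012.Eis Crest.Agent.R012.LS2 Crest.Agent.R012.Gauss880
open Crest.Agent.R012.Div277
open Crest.Agent.R017.CM106 (CS TG FS)
open Crest.Agent.R017.TP320
open Crest.Agent.R017.MoF106 (bk UU mem_bk bk_lo bk_hi bk_prim bk_nm_le bk_nm_ge Kid Lam)

set_option maxHeartbeats 1000000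

/-- the frequencies `r' * B ^ 2`, `B` in the block `u` -/
def QB (X : ℝ) (u : ℕ) (r : Eis) : Prop := ∃ B ∈ bk X u, ∃ r' : Eis, r = r' * B ^ 2

/-- the frequencies of `mo_blk` -/
lemma QB_of {X : ℝ} {u : ℕ} {B : Eis} (hB : B ∈ bk X u) (E y τ m g₂ : Eis) :
    QB X u (E * y * τ * (m * (g₂ * B) ^ 2)) :=
  ⟨B, hB, E * y * τ * (m * g₂ ^ 2), by ring⟩

open Classical in
/-- the sparse sum by the pairs -/
lemma sum_QB_le {X Λ : ℝ} (hX : 0 ≤ X) (hΛ : 0 ≤ Λ) (u : ℕ) (F : Eis → ℝ) (hF : ∀ r, 0 ≤ F r) :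
    ∑ r ∈ (bl Λ).filter (QB X u), F r ≤
      ∑ B ∈ bk X u, ∑ r' ∈ bl (Λ * Real.exp (-(2 * ((u : ℝ) / 3)))), F (r' * B ^ 2) := by
  set K : ℝ := Λ * Real.exp (-(2 * ((u : ℝ) / 3))) with hK
  have hK0 : 0 ≤ K := by positivity
  rw [← Finset.sum_product' (bk X u) (bl K) (fun B r' => F (r' * B ^ 2))]
  have h1 : (bl Λ).filter (QB X u) ⊆ ((bk X u) ×ˢ (bl K)).image (fun p => p.2 * p.1 ^ 2) := by
    intro r hr
    rw [Finset.mem_filter, mem_bl hΛ] at hr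
    obtain ⟨⟨h0, h1⟩, B, hB, r', rfl⟩ := hr
    rw [Finset.mem_image]
    refine ⟨(B, r'), Finset.mem_product.2 ⟨hB, ?_⟩, rfl⟩
    show r' ∈ bl K
    rw [mem_bl hK0]
    have hr' : r' ≠ 0 := left_ne_zero_of_mul h0
    refine ⟨hr', ?_⟩
    have h2 := bk_nm_ge hX hB
    rw [nm_mul, nm_pow] at h1
    push_cast at h1
    have h3 : Real.exp (2 * ((u : ℝ) / 3)) ≤ (nm B : ℝ) ^ 2 := by
      rw [two_mul, Real.exp_add, ← pow_two]
      exact pow_le_pow_left₀ (Real.exp_pos _).le h2 2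
    have h4 : (0 : ℝ) ≤ nm r' := Nat.cast_nonneg _
    rw [hK, Real.exp_neg, ← div_eq_mul_inv, le_div_iff₀ (Real.exp_pos _)]
    calc (nm r' : ℝ) * Real.exp (2 * ((u : ℝ) / 3)) ≤ nm r' * (nm B : ℝ) ^ 2 := by gcongr
      _ ≤ Λ := h1
  refine (Finset.sum_le_sum_of_subset_of_nonneg h1 fun r _ _ => hF r).trans ?_
  have h2 : ∀ r ∈ ((bk X u) ×ˢ (bl K)).image (fun p => p.2 * p.1 ^ 2),
      F r ≤ ∑ p ∈ ((bk X u) ×ˢ (bl K)).filter (fun p => p.2 * p.1 ^ 2 = r), F (p.2 * p.1 ^ 2) := by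
    intro r hr
    rw [Finset.mem_image] at hr
    obtain ⟨p, hp, rfl⟩ := hr
    exact Finset.single_le_sum (f := fun p : Eis × Eis => F (p.2 * p.1 ^ 2)) (fun _ _ => hF _)
      (Finset.mem_filter.2 ⟨hp, rfl⟩)
  refine (Finset.sum_le_sum h2).trans (le_of_eq ?_)
  exact Finset.sum_fiberwise_of_maps_to (fun p hp => Finset.mem_image_of_mem _ hp) _

/-- the block `u` in the form of `P_ruleB'` -/
lemma bk_block {X : ℝ} (hX : 0 ≤ X) (u : ℕ) :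
    ∀ B ∈ bk X u, IsPrim B ∧ (nm B : ℝ) ≤ Real.exp ((u : ℝ) / 3 + 1 / 3) :=
  fun _ hB => ⟨bk_prim hX hB, bk_nm_le hX hB⟩

/-- **`Kid` for the pair families**, `B` on the Gauss side -/
theorem Kid_PMB {J : Type} {Φ : Fam J} {R A : ℝ} (hΦ : Φ.Ok R A) {ε : ℝ} (hε : 0 < ε) :
    ∃ C r : ℝ, 1 ≤ C ∧ 0 ≤ r ∧ ∀ X0 K a Lm : ℝ, 3 ≤ X0 → 1 ≤ K → K ≤ X0 → 0 ≤ a →
      ∀ (j : J) (γ g₀ Mq : Eis) (X : ℝ) (u v w : ℕ) (Λ : ℝ), 0 ≤ X → 0 ≤ Λ →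
      Real.exp ((u : ℝ) / 3 + 1 / 3) ≤ X0 → Real.exp Lm ≤ X0 →
      Λ * Real.exp (-(2 * ((u : ℝ) / 3))) ≤ K → IsPrim Mq →
      Φ.len j - (Real.log (nm g₀) + ((u : ℝ) / 3 + v / 3 + w / 3)) + R +
        Real.log (nm γ) ≤ Lm → IsPrim γ →
      (∀ j', Φ.good j' → Φ.dom R j' j → Φ.len j' ≤ Lm → ∀ g₃ ∈ bk X w,
        HypGB Φ C r ε X0 K (Real.exp ((u : ℝ) / 3 + 1 / 3)) a j' (Mq * g₃)) →
      Kid Φ R j γ g₀ Mq X u v w Λ (QB X u)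
        (C * X0 ^ ε * (K * Real.exp ((u : ℝ) / 3 + 1 / 3) + K * a) * Real.exp Lm) := by
  classical
  obtain ⟨C, r, hC, hr, h⟩ := P_ruleB' hΦ hε
  refine ⟨C, r, hC, hr, ?_⟩
  intro X0 K a Lm hX0 hK1 hKX ha j γ g₀ Mq X u v w Λ hX hΛ hu hLm hK hMq hlen hγ HG
  unfold Kid
  intro h' hh' j' hg hd hl1 _ g₃ hg₃
  have hh0 := one_le_nm' (isPrim_of_mem_dvs hh')
  have hhγ : Real.log (nm h') ≤ Real.log (nm γ) := by
    apply Real.log_le_log (by linarith)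
    exact_mod_cast nm_le_of_dvd hγ.ne_zero (dvd_of_mem_dvs hh')
  have hl : Φ.len j' ≤ Lm := by linarith
  have h1 := sum_QB_le hX hΛ u (fun r => ‖CS (TP320.sq (Mq * g₃) (Φ.w j')) r‖ ^ 2)
    (fun _ => by positivity)
  refine le_trans (le_of_eq ?_) (h1.trans ?_)
  · exact Finset.sum_congr (by congr) fun _ _ => rfl
  have h2 : ∑ B ∈ bk X u, ∑ r' ∈ bl (Λ * Real.exp (-(2 * ((u : ℝ) / 3)))),
      ‖CS (TP320.sq (Mq * g₃) (Φ.w j')) (r' * B ^ 2)‖ ^ 2 ≤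
      ∑ B ∈ bk X u, ∑ r' ∈ bl K, ‖CS (TP320.sq (Mq * g₃) (Φ.w j')) (r' * B ^ 2)‖ ^ 2 := by
    refine Finset.sum_le_sum fun B _ => ?_
    exact Finset.sum_le_sum_of_subset_of_nonneg (bl_mono (by positivity) hK)
      fun _ _ _ => by positivity
  refine h2.trans ?_
  have h3 := h X0 K (Real.exp ((u : ℝ) / 3 + 1 / 3)) a hX0 hK1 hKX
    (Real.one_le_exp (by positivity)) hu ha j' ((Real.exp_le_exp.2 hl).trans hLm) (Mq * g₃)
    (hMq.mul (bk_prim hX hg₃)) (HG j' hg hd hl g₃ hg₃) (bk X u) (bk_block hX u)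
  refine h3.trans ?_
  have hX00 : 0 ≤ X0 := by linarith
  have hK0 : 0 ≤ K := by linarith
  gcongr

/-- **`Kid` for the pair families**, the other order (conjugate family) -/
theorem Kid_PMB2 {J : Type} {Φ : Fam J} {R A : ℝ} (hΦ : Φ.Ok R A) {ε : ℝ} (hε : 0 < ε) :
    ∃ C r : ℝ, 1 ≤ C ∧ 0 ≤ r ∧ ∀ X0 K a Lm : ℝ, 3 ≤ X0 → 1 ≤ K → K ≤ X0 → 0 ≤ a →
      ∀ (j : J) (γ g₀ Mq : Eis) (X : ℝ) (u v w : ℕ) (Λ : ℝ), 0 ≤ X → 0 ≤ Λ →
      81 * Real.exp ((u : ℝ) / 3 + 1 / 3) ≤ X0 → Real.exp Lm ≤ X0 →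
      Λ * Real.exp (-(2 * ((u : ℝ) / 3))) ≤ K → IsPrim Mq →
      Φ.len j - (Real.log (nm g₀) + ((u : ℝ) / 3 + v / 3 + w / 3)) + R +
        Real.log (nm γ) ≤ Lm → IsPrim γ →
      (∀ j', Φ.good j' → Φ.dom R j' j → Φ.len j' ≤ Lm → ∀ g₃ ∈ bk X w,
        HypGB (cjF Φ) C r ε X0 (81 * Real.exp ((u : ℝ) / 3 + 1 / 3)) K a j' (Mq * g₃)) →
      Kid Φ R j γ g₀ Mq X u v w Λ (QB X u)
        (C * X0 ^ ε * (K * Real.exp ((u : ℝ) / 3 + 1 / 3) +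
          Real.exp ((u : ℝ) / 3 + 1 / 3) * a) * Real.exp Lm) := by
  classical
  obtain ⟨C, r, hC, hr, h⟩ := P_ruleB2 hΦ hε
  refine ⟨C, r, hC, hr, ?_⟩
  intro X0 K a Lm hX0 hK1 hKX ha j γ g₀ Mq X u v w Λ hX hΛ hu hLm hK hMq hlen hγ HG
  unfold Kid
  intro h' hh' j' hg hd hl1 _ g₃ hg₃
  have hh0 := one_le_nm' (isPrim_of_mem_dvs hh')
  have hhγ : Real.log (nm h') ≤ Real.log (nm γ) := by
    apply Real.log_le_log (by linarith)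
    exact_mod_cast nm_le_of_dvd hγ.ne_zero (dvd_of_mem_dvs hh')
  have hl : Φ.len j' ≤ Lm := by linarith
  have h1 := sum_QB_le hX hΛ u (fun r => ‖CS (TP320.sq (Mq * g₃) (Φ.w j')) r‖ ^ 2)
    (fun _ => by positivity)
  refine le_trans (le_of_eq ?_) (h1.trans ?_)
  · exact Finset.sum_congr (by congr) fun _ _ => rfl
  have h2 : ∑ B ∈ bk X u, ∑ r' ∈ bl (Λ * Real.exp (-(2 * ((u : ℝ) / 3)))),
      ‖CS (TP320.sq (Mq * g₃) (Φ.w j')) (r' * B ^ 2)‖ ^ 2 ≤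
      ∑ B ∈ bk X u, ∑ r' ∈ bl K, ‖CS (TP320.sq (Mq * g₃) (Φ.w j')) (r' * B ^ 2)‖ ^ 2 := by
    refine Finset.sum_le_sum fun B _ => ?_
    exact Finset.sum_le_sum_of_subset_of_nonneg (bl_mono (by positivity) hK)
      fun _ _ _ => by positivity
  refine h2.trans ?_
  have h3 := h X0 K (Real.exp ((u : ℝ) / 3 + 1 / 3)) a hX0 hK1 hKX
    (Real.one_le_exp (by positivity)) hu ha j' ((Real.exp_le_exp.2 hl).trans hLm) (Mq * g₃)
    (hMq.mul (bk_prim hX hg₃)) (HG j' hg hd hl g₃ hg₃) (bk X u) (bk_block hX u)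
  refine h3.trans ?_
  have hX00 : 0 ≤ X0 := by linarith
  have hK0 : 0 ≤ K := by linarith
  gcongr

end Crest.Agent.R017.PMB521
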