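import Crest.Agent.R017.SideT3_777

/-!
# Row 17, section D: the exponent lemma for the RG recursion (helper777; recursion: helper64)

The fields `bess` (terminal bound) and `rg` (recursion) for one step length `c > 0`, with an
abstract predicate `Q K v Y m a E` for the side conditions (R2), (R3), .. of the positivity at
family `K`, level `v`, side `Y`, target `E`.

`T3a_core` : with these two fields, the side `{A, B, C | m, a}` of T3a is ideal; induction on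
`n - K` (length minus family, helper48) in steps `c`: every application of `rg` restarts at the own
top `v = 2 n - K`. The side conditions may use the claim for all shorter sides.
-/

set_option autoImplicit false

noncomputable section

namespace Crest.Agent.R017.SC777

open Crest.Agent.R017.ER911

/-- the two fields of the RG recursion, step length `c` -/
structure ExpRG (c : ℝ) (r s₀ : EF) (Q : ℝ → ℝ → Multiset ℝ → ℝ → ℝ → ℝ → Prop) : Prop where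
  /-- terminal (Bessel) bound -/
  bess : ∀ (K v : ℝ) (Y : Multiset ℝ) (m a n E : ℝ), Ok Y m a → n = Y.sum + m + a → 0 ≤ v →
    3 * v ≤ 2 * K → n ≤ K → r K Y m a + (v + n - 2 * K) / 3 ≤ E → Q K v Y m a E →
    s₀ v Y m a ≤ E
  /-- recursion; premises (T'), (J), (T0), (R) -/
  rg : ∀ (K v : ℝ) (Y : Multiset ℝ) (m a n F : ℝ), Ok Y m a → n = Y.sum + m + a →
    2 * n ≤ K + v → n ≤ K → 3 * (v + 2 * c) ≤ 2 * K → 0 ≤ F →
    (∀ (Y' : Multiset ℝ) (m' a' n' v' : ℝ), Sh Y' Y → 0 ≤ m' → m' ≤ m → 0 ≤ a' → a' ≤ a →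
      n' = Y'.sum + m' + a' → c ≤ n - n' → n - n' ≤ 2 * c → 0 ≤ v' → v' ≤ v + (n - n') →
      s₀ v' Y' m' a' ≤ 4 / 3 * n' + (v' + K) / 3 + F) →
    (∀ (Y' : Multiset ℝ) (m' a' n' v' w u : ℝ), Sh Y' Y → 0 ≤ m' → m' ≤ m → 0 ≤ a' → a' ≤ a →
      n' = Y'.sum + m' + a' → 2 * c ≤ n - n' → 0 ≤ v' → 0 ≤ w →
      3 * w = (n - n') - (v' - v) → u = (n - n') - w - c →
      s₀ v' Y' m' a' ≤ 4 / 3 * n' + (v' + K) / 3 + max 0 u + F) →
    (∀ (Y' : Multiset ℝ) (m' a' n' v' : ℝ), Sh Y' Y → 0 ≤ m' → m' ≤ m → 0 ≤ a' → a' ≤ a →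
      n' = Y'.sum + m' + a' → n - n' ≤ 2 * c → 0 ≤ v' → v' ≤ v + (n - n') →
      s₀ v' Y' m' a' ≤ 4 / 3 * n' + (v' + K) / 3 + c / 3 + F) →
    (∀ (Y' : Multiset ℝ) (m' a' n' v' : ℝ), Sh Y' Y → 0 ≤ m' → m' ≤ m → 0 ≤ a' → a' ≤ a →
      n' = Y'.sum + m' + a' → n - n' ≤ 2 * c → 0 ≤ v' → v' ≤ v + (n - n') →
      Q K v' Y' m' a' (4 / 3 * n' + (v' + K) / 3 + F)) →
    ∀ v' : ℝ, 0 ≤ v' → v' ≤ v → s₀ v' Y m a ≤ 2 * n + F + max 0 ((v' + K - 2 * n) / 3)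

variable {θ d : ℝ} {r s s₀ : EF}

theorem sum3 (A B C : ℝ) : ({A, B, C} : Multiset ℝ).sum = A + B + C := by
  simp [add_assoc]

theorem ok3 {A B C m a : ℝ} (hA : 0 ≤ A) (hB : 0 ≤ B) (hC : 0 ≤ C) (hm : 0 ≤ m) (ha : 0 ≤ a) :
    Ok {A, B, C} m a := by
  refine ⟨fun y hy => ?_, hm, ha⟩
  simp only [Multiset.insert_eq_cons, Multiset.mem_cons, Multiset.mem_singleton] at hy
  rcases hy with rfl | rfl | rfl
  · exact hA
  · exact hB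
  · exact hC

theorem sh3 {Y' : Multiset ℝ} {A B C : ℝ} (h : Sh Y' {A, B, C}) :
    ∃ A' B' C' : ℝ, Y' = {A', B', C'} ∧ 0 ≤ A' ∧ A' ≤ A ∧ 0 ≤ B' ∧ B' ≤ B ∧ 0 ≤ C' ∧ C' ≤ C := by
  obtain ⟨A', Z₁, rfl, hA0, hA1, hZ₁⟩ := Sh.of_cons (Y := {B, C}) (y := A) h
  obtain ⟨B', C', rfl, hB0, hB1, hC0, hC1⟩ := hZ₁.pair
  exact ⟨A', B', C', rfl, hA0, hA1, hB0, hB1, hC0, hC1⟩

/-- `(A', B', C' | m', a')` is a sub-side of `(A, B, C | m, a)` -/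
structure Sub3 (A' B' C' m' a' A B C m a : ℝ) : Prop where
  A0 : 0 ≤ A'
  A1 : A' ≤ A
  B0 : 0 ≤ B'
  B1 : B' ≤ B
  C0 : 0 ≤ C'
  C1 : C' ≤ C
  m0 : 0 ≤ m'
  m1 : m' ≤ m
  a0 : 0 ≤ a'
  a1 : a' ≤ a

theorem Sub3.trans {A₂ B₂ C₂ m₂ a₂ A₁ B₁ C₁ m₁ a₁ A B C m a : ℝ}
    (h : Sub3 A₂ B₂ C₂ m₂ a₂ A₁ B₁ C₁ m₁ a₁) (h' : Sub3 A₁ B₁ C₁ m₁ a₁ A B C m a) :
    Sub3 A₂ B₂ C₂ m₂ a₂ A B C m a :=
  ⟨h.A0, h.A1.trans h'.A1, h.B0, h.B1.trans h'.B1, h.C0, h.C1.trans h'.C1, h.m0,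
    h.m1.trans h'.m1, h.a0, h.a1.trans h'.a1⟩

theorem Sub3.ok {A' B' C' m' a' A B C m a : ℝ} (h : Sub3 A' B' C' m' a' A B C m a) :
    Ok {A', B', C'} m' a' := ok3 h.A0 h.B0 h.C0 h.m0 h.a0

/-- the ambient hypotheses of T3a, strict form -/
structure T3H (d κ A B C m a c μ F : ℝ) : Prop where
  κ0 : 0 ≤ κ
  c0 : 0 < c
  μ0 : 0 ≤ μ
  cκ : 60 * (c + μ) ≤ κ
  d0 : 0 ≤ d
  d8 : 8 * d ≤ 1
  g0 : 0 ≤ C + m + a
  AC : A + C ≤ A + B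
  BC : B + C ≤ A + B
  h4 : 4 * C ≤ κ
  h2 : A + B + 2 * C ≤ κ
  h56 : 6 * (A + B + C + m + a) + 6 * c ≤ 5 * κ
  h36 : 40 * (A + B + C + m + a) + 9 * (C + m + a) ≤ 36 * κ
  h59 : 5 * (A + B) + 9 * (m + a) ≤ 5 * κ
  hamp : 3 * (m + 2 * a) ≤ 2 * κ
  h7 : 80 * (A + B + C + m + a) + 30 * C ≤ 73 * κ
  hF : 2 * d * (C + m + a) + μ + 2 * c ≤ F

/-- the state of an application of `rg` : family `K`, side `(A₁, B₁, C₁ | m₁, a₁)`, level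
`2 n₁ - K` -/
structure St3 (κ A B C m a K A₁ B₁ C₁ m₁ a₁ n₁ : ℝ) : Prop where
  κK : κ ≤ K
  sub : Sub3 A₁ B₁ C₁ m₁ a₁ A B C m a
  n1 : n₁ = A₁ + B₁ + C₁ + m₁ + a₁
  lA : K < n₁ + A₁
  lB : K < n₁ + B₁
  lC : K < n₁ + C₁
  l34 : 3 * K < 4 * n₁

/-- the inductive claim: family `K` -/
def Cl3 (r : EF) (K F A B C m a : ℝ) : Prop :=
  ∀ κ' : ℝ, 0 ≤ κ' → κ' ≤ K →
    r κ' {A, B, C} m a + (K - κ') / 3 ≤ K + (A + B + C + m + a) + F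

/-- the linear conditions at family `K`, level `v`, length `n`, target `E` of a sub-side of a
state of length `n₁` (third piece `≤ C₁`, `G = C₁ + m₁ + a₁`, `D = 2 d (C + m + a)`, `x` the
parameter of `char3x`), margin `μ` -/
structure LQ (K v n E n₁ C₁ G D x F μ : ℝ) : Prop where
  v0 : 0 ≤ v
  v23 : 3 * v ≤ 2 * K
  l0 : 4 / 3 * n + v / 3 + K / 3 + F ≤ E
  l1 : 2 * n + 5 / 3 * v - 4 / 3 * K + 3 / 4 * G + D + μ ≤ E
  l2 : 4 / 3 * n + 4 / 3 * v - 2 / 3 * K + 3 / 4 * G + D + μ ≤ E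
  l3 : 8 / 3 * n + 4 / 3 * v - 5 / 3 * K + 3 / 4 * G + D + μ ≤ E
  l4 : 2 * n + v - K + 3 / 4 * G + D + μ ≤ E
  l5 : 5 / 3 * n + 5 / 12 * v + x / 3 + n₁ / 6 - 23 / 120 * K + μ ≤ E
  l6 : n + v - K / 10 + C₁ + F ≤ E

/-- the parameter `x` of a state -/
structure Xp (n₁ C₁ G D x : ℝ) : Prop where
  x1 : 3 / 4 * C₁ + D ≤ x
  x2 : 2 / 5 * G + 12 / 5 * D ≤ x
  x3 : G - n₁ / 2 + 2 * D ≤ x
  x4 : G / 4 + 3 * D ≤ x

/-- the step `b` of the direct side -/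
theorem LQ.step {K v n E n₁ C₁ G D x F μ b : ℝ} (h : LQ K v n E n₁ C₁ G D x F μ) (hb : 0 ≤ b) :
    LQ (K + 3 * b) (v + 2 * b) (n - b) (E + b) n₁ C₁ G D x F μ := by
  obtain ⟨v0, v23, l0, l1, l2, l3, l4, l5, l6⟩ := h
  constructor <;> linarith

/-- the induction hypothesis at (family `K`, side `Y`): the claim for all sub-sides `Y'` and
families `K' ≥ K` with `n' - K' + c ≤ n - K` -/
def IHyp (r : EF) (c F K A B C m a : ℝ) : Prop :=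
  ∀ K' A' B' C' m' a' : ℝ, K ≤ K' → Sub3 A' B' C' m' a' A B C m a →
    (A' + B' + C' + m' + a') - K' + c ≤ (A + B + C + m + a) - K → Cl3 r K' F A' B' C' m' a'

/-- `Q` holds for all sub-sides of a state, for `LQ` parameters, given the claim for the shorter
sub-sides -/
def QAll (Q : ℝ → ℝ → Multiset ℝ → ℝ → ℝ → ℝ → Prop) (r : EF)
    (d κ A B C m a c μ F : ℝ) : Prop :=
  ∀ K A₁ B₁ C₁ m₁ a₁ n₁ x : ℝ, St3 κ A B C m a K A₁ B₁ C₁ m₁ a₁ n₁ →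
    Xp n₁ C₁ (C₁ + m₁ + a₁) (2 * d * (C + m + a)) x → IHyp r c F K A₁ B₁ C₁ m₁ a₁ →
    ∀ K' v A₂ B₂ C₂ m₂ a₂ n₂ E : ℝ, K ≤ K' → Sub3 A₂ B₂ C₂ m₂ a₂ A₁ B₁ C₁ m₁ a₁ →
      n₂ = A₂ + B₂ + C₂ + m₂ + a₂ →
      LQ K' v n₂ E n₁ C₁ (C₁ + m₁ + a₁) (2 * d * (C + m + a)) x F μ →
      Q K' v {A₂, B₂, C₂} m₂ a₂ E

/-- one application of `rg` at the own top -/
theorem rg_top {Q : ℝ → ℝ → Multiset ℝ → ℝ → ℝ → ℝ → Prop}
    {κ A B C m a c μ F : ℝ} (H : T3H d κ A B C m a c μ F) (G : ExpRG c r s₀ Q)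
    (hQ : QAll Q r d κ A B C m a c μ F)
    {K A₁ B₁ C₁ m₁ a₁ n₁ : ℝ} (hS : St3 κ A B C m a K A₁ B₁ C₁ m₁ a₁ n₁)
    (IH : IHyp r c F K A₁ B₁ C₁ m₁ a₁) :
    s₀ (2 * n₁ - K) {A₁, B₁, C₁} m₁ a₁ ≤ 2 * n₁ + F := by
  have hS' := hS
  obtain ⟨hκK, hsub, hn1, lA, lB, lC, l34⟩ := hS
  have q1 := hsub.A1; have q2 := hsub.B1; have q3 := hsub.C1; have q4 := hsub.m1
  have q5 := hsub.a1
  have q0 := hsub.A0; have q0' := hsub.B0; have q6 := hsub.C0; have q7 := hsub.m0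
  have q8 := hsub.a0
  have hD0 : 0 ≤ 2 * d * (C + m + a) := mul_nonneg (mul_nonneg two_pos.le H.d0) H.g0
  have h56 := H.h56; have hc0 := H.c0; have hF := H.hF; have h7 := H.h7; have h36 := H.h36
  have h4 := H.h4; have hcκ := H.cκ; have hμ0 := H.μ0
  have hF0 : 0 ≤ F := by linarith
  have hK0 : 0 ≤ K := H.κ0.trans hκK
  obtain ⟨D, hDd⟩ : ∃ D, D = 2 * d * (C + m + a) := ⟨_, rfl⟩
  rw [← hDd] at hD0 hF
  obtain ⟨x, hx, hxl⟩ : ∃ x, Xp n₁ C₁ (C₁ + m₁ + a₁) D x ∧ 80 * n₁ + 40 * x ≤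
      73 * K + 120 * D := by
    refine ⟨max (max (3 / 4 * C₁ + D) (2 / 5 * (C₁ + m₁ + a₁) + 12 / 5 * D))
      (max ((C₁ + m₁ + a₁) - n₁ / 2 + 2 * D) ((C₁ + m₁ + a₁) / 4 + 3 * D)),
      ⟨(le_max_left _ _).trans (le_max_left _ _), (le_max_right _ _).trans (le_max_left _ _),
        (le_max_left _ _).trans (le_max_right _ _),
        (le_max_right _ _).trans (le_max_right _ _)⟩, ?_⟩
    have : max (max (3 / 4 * C₁ + D) (2 / 5 * (C₁ + m₁ + a₁) + 12 / 5 * D))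
      (max ((C₁ + m₁ + a₁) - n₁ / 2 + 2 * D) ((C₁ + m₁ + a₁) / 4 + 3 * D)) ≤
        (73 * K + 120 * D - 80 * n₁) / 40 := by
      refine max_le (max_le ?_ ?_) (max_le ?_ ?_) <;> linarith
    linarith
  have hQ' := hQ K A₁ B₁ C₁ m₁ a₁ n₁ x hS' (by rw [← hDd]; exact hx) IH
  rw [← hDd] at hQ'
  clear hQ
  -- terms (R)
  have hR : ∀ A₂ B₂ C₂ m₂ a₂ n₂ v : ℝ, Sub3 A₂ B₂ C₂ m₂ a₂ A₁ B₁ C₁ m₁ a₁ →
      n₂ = A₂ + B₂ + C₂ + m₂ + a₂ → n₁ - n₂ ≤ 2 * c → 0 ≤ v → v ≤ 2 * n₁ - K + (n₁ - n₂) →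
      Q K v {A₂, B₂, C₂} m₂ a₂ (4 / 3 * n₂ + (v + K) / 3 + F) := by
    intro A₂ B₂ C₂ m₂ a₂ n₂ v hs2 hn2 hc2 hv0 hv1
    have hn21 : n₂ ≤ n₁ := by
      have := hs2.A1; have := hs2.B1; have := hs2.C1; have := hs2.m1; have := hs2.a1
      linarith
    refine hQ' K v A₂ B₂ C₂ m₂ a₂ n₂ _ le_rfl hs2 hn2 ⟨hv0, ?_, ?_, ?_, ?_, ?_, ?_, ?_, ?_⟩ <;>
      linarith
  have h := G.rg K (2 * n₁ - K) {A₁, B₁, C₁} m₁ a₁ n₁ F hsub.ok (by rw [sum3]; exact hn1)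
    (by linarith) (by linarith) (by linarith) hF0
    (by
      intro Y' m' a' n' v' hY' hm0 hm1 ha0 ha1 hn' hc1 hc2 hv0' hv1
      obtain ⟨A₂, B₂, C₂, rfl, hA0, hA1, hB0, hB1, hC0, hC1⟩ := sh3 hY'
      rw [sum3] at hn'
      have hs2 : Sub3 A₂ B₂ C₂ m' a' A₁ B₁ C₁ m₁ a₁ :=
        ⟨hA0, hA1, hB0, hB1, hC0, hC1, hm0, hm1, ha0, ha1⟩
      have hid := IH K A₂ B₂ C₂ m' a' le_rfl hs2 (by linarith) K hK0 le_rfl
      refine G.bess K v' {A₂, B₂, C₂} m' a' n' _ hs2.ok (by rw [sum3]; exact hn') hv0'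
        (by linarith) (by linarith) (by linarith) ?_
      exact hR A₂ B₂ C₂ m' a' n' v' hs2 hn' hc2 hv0' hv1)
    (by
      intro Y' m' a' n' v' w u hY' hm0 hm1 ha0 ha1 hn' hc1 hv0' hw hw3 hu1
      obtain ⟨A₂, B₂, C₂, rfl, hA0, hA1, hB0, hB1, hC0, hC1⟩ := sh3 hY'
      rw [sum3] at hn'
      have hs2 : Sub3 A₂ B₂ C₂ m' a' A₁ B₁ C₁ m₁ a₁ :=
        ⟨hA0, hA1, hB0, hB1, hC0, hC1, hm0, hm1, ha0, ha1⟩
      have hu0 := le_max_left 0 u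
      have hu2 := le_max_right 0 u
      rcases le_or_gt (3 * v') (2 * K) with h23 | h23
      · have hid := IH K A₂ B₂ C₂ m' a' le_rfl hs2 (by linarith) K hK0 le_rfl
        refine G.bess K v' {A₂, B₂, C₂} m' a' n' _ hs2.ok (by rw [sum3]; exact hn') hv0'
          h23 (by linarith) (by linarith) ?_
        refine hQ' K v' A₂ B₂ C₂ m' a' n' _ le_rfl hs2 hn' ⟨hv0', h23, ?_, ?_, ?_, ?_, ?_, ?_, ?_⟩ <;>
          linarith
      · obtain ⟨K', hK'⟩ : ∃ K', 2 * K' = 3 * v' := ⟨3 / 2 * v', by ring⟩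
        have hKK' : K ≤ K' := by linarith
        have hid := IH K' A₂ B₂ C₂ m' a' hKK' hs2 (by linarith) K' (hK0.trans hKK') le_rfl
        refine G.bess K' v' {A₂, B₂, C₂} m' a' n' _ hs2.ok (by rw [sum3]; exact hn') hv0'
          (by linarith) (by linarith) (by linarith) ?_
        refine hQ' K' v' A₂ B₂ C₂ m' a' n' _ hKK' hs2 hn'
          ⟨hv0', by linarith, ?_, ?_, ?_, ?_, ?_, ?_, ?_⟩ <;>
          linarith)
    (by
      intro Y' m' a' n' v' hY' hm0 hm1 ha0 ha1 hn' hc2 hv0' hv1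
      obtain ⟨A₂, B₂, C₂, rfl, hA0, hA1, hB0, hB1, hC0, hC1⟩ := sh3 hY'
      rw [sum3] at hn'
      have hs2 : Sub3 A₂ B₂ C₂ m' a' A₁ B₁ C₁ m₁ a₁ :=
        ⟨hA0, hA1, hB0, hB1, hC0, hC1, hm0, hm1, ha0, ha1⟩
      have hn21 : n' ≤ n₁ := by linarith
      have hid := IH (K + c) A₂ B₂ C₂ m' a' (by linarith) hs2 (by linarith) (K + c)
        (by linarith) le_rfl
      refine G.bess (K + c) v' {A₂, B₂, C₂} m' a' n' _ hs2.ok (by rw [sum3]; exact hn') hv0'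
        (by linarith) (by linarith) (by linarith) ?_
      refine hQ' (K + c) v' A₂ B₂ C₂ m' a' n' _ (by linarith) hs2 hn'
          ⟨hv0', by linarith, ?_, ?_, ?_, ?_, ?_, ?_, ?_⟩ <;>
          linarith)
    (by
      intro Y' m' a' n' v' hY' hm0 hm1 ha0 ha1 hn' hc2 hv0' hv1
      obtain ⟨A₂, B₂, C₂, rfl, hA0, hA1, hB0, hB1, hC0, hC1⟩ := sh3 hY'
      rw [sum3] at hn'
      exact hR A₂ B₂ C₂ m' a' n' v' ⟨hA0, hA1, hB0, hB1, hC0, hC1, hm0, hm1, ha0, ha1⟩ hn' hc2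
        hv0' hv1)
    (2 * n₁ - K) (by linarith) le_rfl
  have hm : max 0 ((2 * n₁ - K + K - 2 * n₁) / 3) = 0 := max_eq_left (by linarith)
  rw [hm] at h
  linarith

/-- levels served by one lump: any family `K ≥ κ` -/
theorem lump3 (R : ExpRules (7 / 8 + d) r s) (S : ExpS0 s s₀)
    {κ A B C m a c μ F : ℝ} (H : T3H d κ A B C m a c μ F)
    {A' B' C' m' a' : ℝ} (hs : Sub3 A' B' C' m' a' A B C m a) {y p q : ℝ} (hy : 0 ≤ y)
    (hp : 0 ≤ p) (hq : 0 ≤ q) (hpq : p + q ≤ A + B) (hsum : y + p + q = A' + B' + C')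
    (he : ({A', B', C'} : Multiset ℝ) = y ::ₘ {p, q})
    {K : ℝ} (hκK : κ ≤ K) {f : ℝ} (hf : 0 ≤ f)
    (hfy : f + y ≤ (p + q + m' + a' + K) / 2) :
    s₀ f {A', B', C'} m' a' ≤ 4 / 3 * (A' + B' + C' + m' + a') + (K + f) / 3 + F := by
  have hm0 := hs.m0; have hm1 := hs.m1; have ha0 := hs.a0; have ha1 := hs.a1
  have hC0 := hs.C0; have hC1 := hs.C1
  have h59 := H.h59; have hamp := H.hamp; have hF := H.hF; have hc0 := H.c0; have hμ0 := H.μ0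
  have hK0 : 0 ≤ K := H.κ0.trans hκK
  have hFm : 2 * d * (m' + a') ≤ 2 * d * (C + m + a) :=
    mul_le_mul_of_nonneg_left (by linarith) (by linarith [H.d0])
  have hle := S.le f {A', B', C'} m' a' hf hs.ok
  have hcol := colX_pair R H.d0 (κ := K) hp hq hm0 ha0 (by linarith) (by linarith)
  have := level_lump R hK0 hy hp hq hm0 ha0
    (mul_nonneg (mul_nonneg two_pos.le H.d0) (by linarith)) hcol hf hfy
  rw [he] at hle ⊢
  linarith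

/-- all levels of the Gauss side -/
theorem key3 {Q : ℝ → ℝ → Multiset ℝ → ℝ → ℝ → ℝ → Prop} (R : ExpRules (7 / 8 + d) r s)
    (S : ExpS0 s s₀)
    {κ A B C m a c μ F : ℝ} (H : T3H d κ A B C m a c μ F) (G : ExpRG c r s₀ Q)
    (hQ : QAll Q r d κ A B C m a c μ F)
    {A' B' C' m' a' : ℝ} (hs : Sub3 A' B' C' m' a' A B C m a)
    {K : ℝ} (hκK : κ ≤ K)
    (IH : 3 * K < 4 * (A' + B' + C' + m' + a') → IHyp r c F K A' B' C' m' a')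
    {f : ℝ} (hf : 0 ≤ f) (hft : f ≤ 2 * (A' + B' + C' + m' + a') - K) :
    s₀ f {A', B', C'} m' a' ≤ 4 / 3 * (A' + B' + C' + m' + a') + (K + f) / 3 + F := by
  have hs' := hs
  obtain ⟨hA0, hA1, hB0, hB1, hC0, hC1, hm0, hm1, ha0, ha1⟩ := hs'
  have hAC := H.AC
  have hBC := H.BC
  have h2 := H.h2
  have h4 := H.h4
  have h56 := H.h56
  have hc0 := H.c0
  rcases le_or_gt (f + C') ((A' + B' + m' + a' + K) / 2) with h | hfC
  · refine lump3 R S H hs hC0 hA0 hB0 (by linarith) (by ring) ?_ hκK hf h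
    show A' ::ₘ B' ::ₘ {C'} = C' ::ₘ A' ::ₘ {B'}
    rw [Multiset.cons_swap C' A']
    congr 1
    exact Multiset.pair_comm B' C'
  rcases le_or_gt (f + B') ((A' + C' + m' + a' + K) / 2) with h | hfB
  · refine lump3 R S H hs hB0 hA0 hC0 (by linarith) (by ring) ?_ hκK hf h
    exact Multiset.cons_swap _ _ _
  rcases le_or_gt (f + A') ((B' + C' + m' + a' + K) / 2) with h | hfA
  · exact lump3 R S H hs hA0 hB0 hC0 (by linarith) (by ring) rfl hκK hf h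
  -- REM
  obtain ⟨x, hx⟩ : ∃ x, x = (2 * (A' + B' + C' + m' + a') - K - f) / 3 := ⟨_, rfl⟩
  have hx0 : 0 ≤ x := by linarith
  have hxw : 2 * x ≤ m' + a' := by linarith
  obtain ⟨b, e, hbc, hb0, hbm, he0, hea⟩ : ∃ b e : ℝ, b + e = x ∧ 0 ≤ b ∧ b ≤ m' ∧ 0 ≤ e ∧
      e ≤ a' := by
    rcases le_total x m' with h | h
    · exact ⟨x, 0, by ring, hx0, h, le_rfl, ha0⟩
    · exact ⟨m', x - m', by ring, hm0, le_rfl, by linarith, by linarith⟩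
  obtain ⟨n, hn⟩ : ∃ n, n = A' + B' + C' + (m' - b) + (a' - e) := ⟨_, rfl⟩
  have hfn : f + (b + e) = 2 * n - K := by linarith
  have hS : St3 κ A B C m a K A' B' C' (m' - b) (a' - e) n :=
    ⟨hκK, ⟨hA0, hA1, hB0, hB1, hC0, hC1, by linarith, by linarith, by linarith, by linarith⟩,
      hn, by linarith, by linarith, by linarith, by linarith⟩
  have hIH := IH (by linarith)
  have htop := rg_top H G hQ hS (fun K' A₂ B₂ C₂ m₂ a₂ hK' h2' hc2 =>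
    hIH K' A₂ B₂ C₂ m₂ a₂ hK' ⟨h2'.A0, h2'.A1, h2'.B0, h2'.B1, h2'.C0, h2'.C1, h2'.m0,
      h2'.m1.trans (by linarith), h2'.a0, h2'.a1.trans (by linarith)⟩ (by linarith))
  have hcau := S.cau f {A', B', C'} m' a' b e hf hs.ok hb0 hbm he0 hea
  rw [hfn] at hcau
  linarith

/-- the claim from the claims before -/
theorem cl_step {Q : ℝ → ℝ → Multiset ℝ → ℝ → ℝ → ℝ → Prop} (R : ExpRules (7 / 8 + d) r s)
    (S : ExpS0 s s₀)
    {κ A B C m a c μ F : ℝ} (H : T3H d κ A B C m a c μ F) (G : ExpRG c r s₀ Q)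
    (hQ : QAll Q r d κ A B C m a c μ F)
    {A' B' C' m' a' : ℝ} (hs : Sub3 A' B' C' m' a' A B C m a)
    {K : ℝ} (hκK : κ ≤ K)
    (IH : 3 * K < 4 * (A' + B' + C' + m' + a') → IHyp r c F K A' B' C' m' a') :
    Cl3 r K F A' B' C' m' a' := by
  have hK0 : 0 ≤ K := H.κ0.trans hκK
  have h56 := H.h56
  have hc0 := H.c0
  have hF := H.hF
  have hμ0 := H.μ0
  have hs' := hs
  obtain ⟨hA0, hA1, hB0, hB1, hC0, hC1, hm0, hm1, ha0, ha1⟩ := hs'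
  have hD0 : 0 ≤ 2 * d * (C + m + a) := mul_nonneg (mul_nonneg two_pos.le H.d0) H.g0
  refine R.poisC K {A', B', C'} m' a' (K + (A' + B' + C' + m' + a') + F) hK0 hs.ok
    (by rw [sum3]; linarith) (by rw [sum3]; linarith) ?_
  intro Y'' m'' a'' i hY'' hm0' hm1' ha0' ha1' hi hii
  obtain ⟨A₂, B₂, C₂, rfl, hA0', hA1', hB0', hB1', hC0', hC1'⟩ := sh3 hY''
  rw [sum3] at hii ⊢
  rw [sum3]
  have hs2 : Sub3 A₂ B₂ C₂ m'' a'' A' B' C' m' a' :=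
    ⟨hA0', hA1', hB0', hB1', hC0', hC1', hm0', hm1', ha0', ha1'⟩
  have key : ∀ f : ℝ, 0 ≤ f → f ≤ 2 * (A₂ + B₂ + C₂ + m'' + a'') - K →
      s₀ f {A₂, B₂, C₂} m'' a'' ≤ 4 / 3 * (A₂ + B₂ + C₂ + m'' + a'') + (K + f) / 3 + F :=
    fun f hf hft => key3 R S H G hQ (hs2.trans hs) hκK
      (fun h34 K' A₃ B₃ C₃ m₃ a₃ hK' h3 hc3 =>
        IH (by linarith) K' A₃ B₃ C₃ m₃ a₃ hK' (h3.trans hs2) (by linarith)) hf hft
  have hcube := S.cube i {A₂, B₂, C₂} m'' a''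
    (4 / 3 * (A₂ + B₂ + C₂ + m'' + a'') + (K + i) / 3 + F) hi hs2.ok (fun u hu hu3 => by
      have := key (i - 3 * u) (by linarith) (by linarith)
      linarith)
  linarith

/-- **T3a, core** : strict form, side conditions abstract -/
theorem T3a_core {Q : ℝ → ℝ → Multiset ℝ → ℝ → ℝ → ℝ → Prop} (R : ExpRules (7 / 8 + d) r s)
    (S : ExpS0 s s₀)
    {κ A B C m a c μ F : ℝ} (H : T3H d κ A B C m a c μ F) (G : ExpRG c r s₀ Q)
    (hQ : QAll Q r d κ A B C m a c μ F)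
    (hA : 0 ≤ A) (hB : 0 ≤ B) (hC : 0 ≤ C) (hm : 0 ≤ m) (ha : 0 ≤ a) {K : ℝ} (hκK : κ ≤ K) :
    Cl3 r K F A B C m a := by
  obtain ⟨N, hN⟩ : ∃ N, N = A + B + C + m + a := ⟨_, rfl⟩
  have hN0 : 0 ≤ N := by linarith
  have main : ∀ k : ℕ, ∀ K A' B' C' m' a' : ℝ, κ ≤ K → Sub3 A' B' C' m' a' A B C m a →
      A' + B' + C' + m' + a' - K ≤ -(2 * N) + k * c → Cl3 r K F A' B' C' m' a' := by
    intro k
    induction k with
    | zero =>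
      intro K A' B' C' m' a' hK hs hn
      refine cl_step R S H G hQ hs hK fun h34 => ?_
      exfalso
      have := hs.A0; have := hs.B0; have := hs.C0; have := hs.m0; have := hs.a0
      have := hs.A1; have := hs.B1; have := hs.C1; have := hs.m1; have := hs.a1
      simp only [Nat.cast_zero, zero_mul] at hn
      linarith
    | succ k ih =>
      intro K A' B' C' m' a' hK hs hn
      refine cl_step R S H G hQ hs hK fun _ => ?_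
      intro K' A₂ B₂ C₂ m₂ a₂ hK' h2 hc2
      refine ih K' A₂ B₂ C₂ m₂ a₂ (hK.trans hK') (h2.trans hs) ?_
      push_cast at hn
      linarith
  obtain ⟨k, hk⟩ := exists_nat_ge ((3 * N + |K|) / c)
  refine main k K A B C m a hκK ⟨hA, le_rfl, hB, le_rfl, hC, le_rfl, hm, le_rfl, ha, le_rfl⟩ ?_
  rw [div_le_iff₀ H.c0] at hk
  have := neg_abs_le K
  linarith

end Crest.Agent.R017.SC777
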