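import Crest.Agent.R017.RGE9_545
import Crest.Agent.R017.PXc_829
import Crest.Agent.R017.RM3a_986
import Crest.Agent.R017.RGind_777
import Crest.Agent.R017.P1Rg_440

/-!
# Row 17, R8 (exceptional class): the pair functional, uniform input (helper590)

* `Alt` : the conclusion of helper176's `R2HX` at the levels `(i, b)`; `AltC` : its closure
* `full_r3` : the merged family from `r3`
* `pxs_alt` : `Alt` gives helper829's `PXs`
* `pmq_in` : the pair functional over the noncubes, class E (twin of `P1Rg440.pm_in`)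
-/

set_option autoImplicit false

noncomputable section

open Set Filter Topology

namespace Crest.Agent.R017.PMq590

open Crest.Agent.R012 Crest.Agent.R012.Eis Crest.Agent.R012.LS2
open Crest.Agent.R012.T411 (NCube)
open Crest.Agent.R017.B770
open Crest.Agent.R017.Prov71
open Crest.Agent.R017.XP699
open Crest.Agent.R017.ER911 (Ok Sh EF ExpRules)
open Crest.Agent.R017.RuleM545
open Crest.Agent.R017.Red848
open Crest.Agent.R017.RGB545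
open Crest.Agent.R017.SC777 (Full)
open Crest.Agent.R017.PM320 (Clo PMx)
open Crest.Agent.R017.PX829 (PX PXs PXsn pxs_of)
open Crest.Agent.R017.RQd385 (PM2Q PM2Q_nonneg PM2Q_perm)
open Crest.Agent.R017.I1146 (LN)

variable {Lam : Type*} {π : Lam → DPar} {h : ℝ → ℝ} {d c₁ : ℝ} {r s : EF}

/-! ### the alternative -/

/-- the bound `U` of the closed form -/
def Uz (z₁ z₂ z₃ x : ℝ) : ℝ :=
  max (max ((z₁ + z₂ + z₃ + x) / 3 + z₃ / 2) ((z₁ + z₂ + z₃ + x) / 3 + 4 / 15 * (z₃ + x)))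
    (max (2 / 3 * (z₃ + x)) x)

/-- the conclusion of `R2HX` at the levels `(i, b)` -/
def Alt (d i b z₁ z₂ z₃ x ρ : ℝ) : Prop :=
  (P1R904.r3 d (i + 2 * b) (min z₁ (i + 2 * b)) (min z₂ (i + 2 * b)) (min z₃ (i + 2 * b)) x ≤ ρ ∧
    2 * x + (i + 2 * b) / 3 ≤ ρ) ∨
  PXsn i b 0 z₁ z₂ z₃ x (z₁ + z₂ + z₃ + x) (2 * d * (z₃ + x)) (Uz z₁ z₂ z₃ x) ρ

/-- `PXsn` with closed conditions -/
def PXsc (i b g y₁ y₂ y₃ w n' D U ρ : ℝ) : Prop :=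
  2 * w + (i + 2 * b) / 3 ≤ ρ ∧
    ((i + 2 * b) + n' + 3 / 4 * (y₃ + w) + D ≤ ρ ∨
    ((i + 2 * b) + n' + 3 / 4 * y₃ + D ≤ ρ ∧
      5 / 12 * (i + 2 * b) + 7 / 12 * (y₁ + y₂) + n' + 3 / 4 * (y₃ + w) + D ≤ ρ ∧
      1 / 2 * (i + 2 * b) + 1 / 4 * (y₁ + y₂) + n' + 3 / 4 * (y₃ + w) + D ≤ ρ) ∨
    ((i + 2 * b) + n' + D ≤ ρ ∧ 2 / 3 * (i + 2 * b) + n' + U + D ≤ ρ ∧
      (i + 2 * b) / 3 + 3 / 2 * n' + U / 2 + D ≤ ρ) ∨
    (i + b + n' ≤ ρ ∧ 2 * n' + b + g + D ≤ ρ ∧ 2 / 3 * i + b / 3 + n' + U + D ≤ ρ ∧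
      (2 * n' + (i + 2 * b) / 3 ≤ ρ ∨
      (2 * n' + (i + 2 * b) / 3 - ρ ≤ y₁ ∧
        i + b ≤ 2 * (y₁ + y₂ - (2 * n' + (i + 2 * b) / 3 - ρ))) ∨
      (2 * n' + (i + 2 * b) / 3 - ρ ≤ y₃ ∧
        i + b ≤ 2 * (y₁ + y₂ + y₃ - 2 * (2 * n' + (i + 2 * b) / 3 - ρ))))) ∨
    (i + b + n' ≤ ρ ∧ 2 * n' + i + D ≤ ρ ∧ 2 / 3 * b + i / 3 + n' + U + D ≤ ρ ∧
      (2 * n' + (2 * i + b) / 3 ≤ ρ ∨
      (2 * n' + (2 * i + b) / 3 - ρ ≤ y₁ ∧
        i + b ≤ 2 * (y₁ + y₂ - (2 * n' + (2 * i + b) / 3 - ρ))) ∨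
      (2 * n' + (2 * i + b) / 3 - ρ ≤ y₃ ∧
        i + b ≤ 2 * (y₁ + y₂ + y₃ - 2 * (2 * n' + (2 * i + b) / 3 - ρ))))))

/-- the closure of `Alt` -/
def AltC (d i b z₁ z₂ z₃ x ρ : ℝ) : Prop :=
  (P1R904.r3 d (i + 2 * b) (min z₁ (i + 2 * b)) (min z₂ (i + 2 * b)) (min z₃ (i + 2 * b)) x ≤ ρ ∧
    2 * x + (i + 2 * b) / 3 ≤ ρ) ∨
  PXsc i b 0 z₁ z₂ z₃ x (z₁ + z₂ + z₃ + x) (2 * d * (z₃ + x)) (Uz z₁ z₂ z₃ x) ρ

lemma sc_of {i b g y₁ y₂ y₃ w n' D U ρ : ℝ} (H : PXsn i b g y₁ y₂ y₃ w n' D U ρ) :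
    PXsc i b g y₁ y₂ y₃ w n' D U ρ := by
  obtain ⟨hp, H⟩ := H
  refine ⟨hp, ?_⟩
  rcases H with h | h | h | ⟨h1, h2, h3, h⟩ | ⟨h1, h2, h3, h⟩
  · exact Or.inl h
  · exact Or.inr (Or.inl h)
  · exact Or.inr (Or.inr (Or.inl h))
  · refine Or.inr (Or.inr (Or.inr (Or.inl ⟨h1, h2, h3, ?_⟩)))
    rcases h with h | ⟨k1, k2⟩ | ⟨k1, k2⟩
    · exact Or.inl h
    · exact Or.inr (Or.inl ⟨k1, k2.le⟩)
    · exact Or.inr (Or.inr ⟨k1, k2.le⟩)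
  · refine Or.inr (Or.inr (Or.inr (Or.inr ⟨h1, h2, h3, ?_⟩)))
    rcases h with h | ⟨k1, k2⟩ | ⟨k1, k2⟩
    · exact Or.inl h
    · exact Or.inr (Or.inl ⟨k1, k2.le⟩)
    · exact Or.inr (Or.inr ⟨k1, k2.le⟩)

lemma sn_of {i b g y₁ y₂ y₃ w n' D U ρ η : ℝ} (hη : 0 < η)
    (H : PXsc i b g y₁ y₂ y₃ w n' D U ρ) : PXsn i b g y₁ y₂ y₃ w n' D U (ρ + η) := by
  obtain ⟨hp, H⟩ := H
  refine ⟨by linarith, ?_⟩
  rcases H with h | ⟨h1, h2, h3⟩ | ⟨h1, h2, h3⟩ | ⟨h1, h2, h3, h⟩ | ⟨h1, h2, h3, h⟩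
  · exact Or.inl (by linarith)
  · exact Or.inr (Or.inl ⟨by linarith, by linarith, by linarith⟩)
  · exact Or.inr (Or.inr (Or.inl ⟨by linarith, by linarith, by linarith⟩))
  · refine Or.inr (Or.inr (Or.inr (Or.inl ⟨by linarith, by linarith, by linarith, ?_⟩)))
    rcases h with h | ⟨k1, k2⟩ | ⟨k1, k2⟩
    · exact Or.inl (by linarith)
    · exact Or.inr (Or.inl ⟨by linarith, by linarith⟩)
    · exact Or.inr (Or.inr ⟨by linarith, by linarith⟩)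
  · refine Or.inr (Or.inr (Or.inr (Or.inr ⟨by linarith, by linarith, by linarith, ?_⟩)))
    rcases h with h | ⟨k1, k2⟩ | ⟨k1, k2⟩
    · exact Or.inl (by linarith)
    · exact Or.inr (Or.inl ⟨by linarith, by linarith⟩)
    · exact Or.inr (Or.inr ⟨by linarith, by linarith⟩)

lemma Alt.c {i b z₁ z₂ z₃ x ρ : ℝ} (H : Alt d i b z₁ z₂ z₃ x ρ) : AltC d i b z₁ z₂ z₃ x ρ :=
  H.imp id sc_of

lemma AltC.n {i b z₁ z₂ z₃ x ρ η : ℝ} (hη : 0 < η) (H : AltC d i b z₁ z₂ z₃ x ρ) :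
    Alt d i b z₁ z₂ z₃ x (ρ + η) :=
  H.imp (fun h => ⟨by linarith [h.1], by linarith [h.2]⟩) (sn_of hη)

lemma AltC.nonneg {i b z₁ z₂ z₃ x ρ : ℝ} (hi : 0 ≤ i) (hb : 0 ≤ b) (hx : 0 ≤ x)
    (H : AltC d i b z₁ z₂ z₃ x ρ) : 0 ≤ ρ := by
  rcases H with h | h
  · linarith [h.2]
  · linarith [h.1]

lemma sn_mono {i b g y₁ y₂ y₃ w n' D U ρ ρ' : ℝ} (hρ : ρ ≤ ρ')
    (H : PXsn i b g y₁ y₂ y₃ w n' D U ρ) : PXsn i b g y₁ y₂ y₃ w n' D U ρ' := by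
  obtain ⟨hp, H⟩ := H
  refine ⟨by linarith, ?_⟩
  rcases H with h | ⟨h1, h2, h3⟩ | ⟨h1, h2, h3⟩ | ⟨h1, h2, h3, h⟩ | ⟨h1, h2, h3, h⟩
  · exact Or.inl (by linarith)
  · exact Or.inr (Or.inl ⟨by linarith, by linarith, by linarith⟩)
  · exact Or.inr (Or.inr (Or.inl ⟨by linarith, by linarith, by linarith⟩))
  · refine Or.inr (Or.inr (Or.inr (Or.inl ⟨by linarith, by linarith, by linarith, ?_⟩)))
    rcases h with h | ⟨k1, k2⟩ | ⟨k1, k2⟩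
    · exact Or.inl (by linarith)
    · exact Or.inr (Or.inl ⟨by linarith, by linarith⟩)
    · exact Or.inr (Or.inr ⟨by linarith, by linarith⟩)
  · refine Or.inr (Or.inr (Or.inr (Or.inr ⟨by linarith, by linarith, by linarith, ?_⟩)))
    rcases h with h | ⟨k1, k2⟩ | ⟨k1, k2⟩
    · exact Or.inl (by linarith)
    · exact Or.inr (Or.inl ⟨by linarith, by linarith⟩)
    · exact Or.inr (Or.inr ⟨by linarith, by linarith⟩)

/-- `Alt` is monotone in `ρ` -/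
lemma Alt.mono {i b z₁ z₂ z₃ x ρ ρ' : ℝ} (hρ : ρ ≤ ρ') (H : Alt d i b z₁ z₂ z₃ x ρ) :
    Alt d i b z₁ z₂ z₃ x ρ' :=
  H.imp (fun h => ⟨h.1.trans hρ, h.2.trans hρ⟩) (sn_mono hρ)

/-- from the literal conclusion of helper176's `R2HX` (`I = e + A + i`) -/
lemma alt_r2 {I b g₂ z₁ z₂ z₃ x n' U ρ : ℝ} (hn : n' = z₁ + z₂ + z₃ + x)
    (hU : U = max (max (n' / 3 + z₃ / 2) (n' / 3 + 4 / 15 * (z₃ + x)))
      (max (2 / 3 * (z₃ + x)) x))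
    (H : (P1R904.r3 d (I + 2 * b) (min z₁ (I + 2 * b)) (min z₂ (I + 2 * b))
        (min z₃ (I + 2 * b)) x ≤ ρ ∧ 2 * x + (I + 2 * b) / 3 ≤ ρ) ∨
      PXsn (I - 2 * g₂) (b + g₂) 0 z₁ z₂ z₃ x n' (2 * d * (z₃ + x)) U ρ) :
    Alt d (I - 2 * g₂) (b + g₂) z₁ z₂ z₃ x ρ := by
  subst hn
  have e1 : I - 2 * g₂ + 2 * (b + g₂) = I + 2 * b := by ring
  unfold Alt Uz
  rw [e1, ← hU]
  exact H

/-! ### the merged family -/

/-- helper904's `r3` is monotone in the lumps and of slope `≥ 1/3` in the family -/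
lemma r3_mono' {κ κ' a₁ a₂ a₃ z₁ z₂ z₃ x : ℝ} (hd : 0 ≤ d) (hd8 : d ≤ 1 / 8) (hκ : κ' ≤ κ)
    (h1 : a₁ ≤ z₁) (h2 : a₂ ≤ z₂) (h3 : a₃ ≤ z₃) :
    P1R904.r3 d κ' a₁ a₂ a₃ x + (κ - κ') / 3 ≤ P1R904.r3 d κ z₁ z₂ z₃ x := by
  unfold P1R904.r3 P1R904.l3
  obtain ⟨c, hc⟩ : ∃ c, c = 3 / 4 + 2 * d := ⟨_, rfl⟩
  have hc0 : 0 ≤ c := by rw [hc]; linarith
  have hc1 : c ≤ 1 := by rw [hc]; linarith
  rw [← hc]
  obtain ⟨L', hL'⟩ : ∃ t, t = min (min a₁ (κ' - a₁)) (min (min a₂ (κ' - a₂)) (min a₃ (κ' - a₃))) :=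
    ⟨_, rfl⟩
  obtain ⟨L, hL⟩ : ∃ t, t = min (min z₁ (κ - z₁)) (min (min z₂ (κ - z₂)) (min z₃ (κ - z₃))) :=
    ⟨_, rfl⟩
  rw [← hL', ← hL]
  have k1 : L' ≤ min a₁ (κ' - a₁) := hL' ▸ min_le_left _ _
  have k2 : L' ≤ min a₂ (κ' - a₂) := hL' ▸ (min_le_right _ _).trans (min_le_left _ _)
  have k3 : L' ≤ min a₃ (κ' - a₃) := hL' ▸ (min_le_right _ _).trans (min_le_right _ _)
  have p1 := k1.trans (min_le_left _ _)
  have p2 := k1.trans (min_le_right _ _)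
  have p3 := k2.trans (min_le_left _ _)
  have p4 := k2.trans (min_le_right _ _)
  have p5 := k3.trans (min_le_left _ _)
  have p6 := k3.trans (min_le_right _ _)
  have key : L' ≤ L + ((z₁ - a₁) + (z₂ - a₂) + (z₃ - a₃)) := by
    rw [hL, ← min_add_add_right, ← min_add_add_right, ← min_add_add_right,
      ← min_add_add_right, ← min_add_add_right]
    refine le_min (le_min ?_ ?_) (le_min (le_min ?_ ?_) (le_min ?_ ?_)) <;> linarith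
  have hs : 0 ≤ (z₁ - a₁) + (z₂ - a₂) + (z₃ - a₃) := by linarith
  have e1 : c * (L' + x) ≤ c * (L + x) + c * ((z₁ - a₁) + (z₂ - a₂) + (z₃ - a₃)) := by
    rw [← mul_add]
    exact mul_le_mul_of_nonneg_left (by linarith) hc0
  have e2 : c * ((z₁ - a₁) + (z₂ - a₂) + (z₃ - a₃)) ≤ 1 * ((z₁ - a₁) + (z₂ - a₂) + (z₃ - a₃)) :=
    mul_le_mul_of_nonneg_right hc1 hs
  linarith

/-- **the merged family** from `r3` -/
theorem full_r3 (R : ExpRules (7 / 8 + d) r s) (hd : 0 ≤ d) (hd8 : d ≤ 1 / 8)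
    {κ z₁ z₂ z₃ m a ρ : ℝ} (hm : 0 ≤ m) (ha : 0 ≤ a)
    (hr : P1R904.r3 d κ (min z₁ κ) (min z₂ κ) (min z₃ κ) (m + a) ≤ ρ)
    (hp : 2 * a + 2 * (7 / 8 + d) * m + κ / 3 ≤ ρ) :
    Full (7 / 8 + d) r κ {z₁, z₂, z₃} m a ρ := by
  refine ⟨fun Y'' κ' hsh hκ0 hκ hy => ?_, hp⟩
  obtain ⟨a₁, a₂, a₃, rfl, p0, p1, q0, q1, t0, t1⟩ := SC777.sh3 hsh
  have m1 : a₁ ≤ κ' := hy a₁ (by simp)
  have m2 : a₂ ≤ κ' := hy a₂ (by simp)
  have m3 : a₃ ≤ κ' := hy a₃ (by simp)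
  have h1 := RM986.r_le_P1 R hd hd8 hκ0 p0 q0 t0 hm ha m1 m2 m3
  have h2 := r3_mono' (x := m + a) hd hd8 hκ (le_min p1 (m1.trans hκ)) (le_min q1 (m2.trans hκ))
    (le_min t1 (m3.trans hκ))
  linarith

/-- **`Alt` gives the pair alternative** -/
theorem pxs_alt (R : ExpRules (7 / 8 + d) r s) (hd : 0 ≤ d) (hd8 : d ≤ 1 / 8)
    {i b z₁ z₂ z₃ x ρ : ℝ} (hi : 0 ≤ i) (hb : 0 ≤ b) (h32 : z₃ ≤ z₂) (h21 : z₂ ≤ z₁) (h3 : 0 ≤ z₃)
    (hx : 0 ≤ x) (H : Alt d i b z₁ z₂ z₃ x ρ) :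
    PXs (7 / 8 + d) r s i b {z₁, z₂, z₃} 0 x ρ := by
  rcases H with ⟨h1, h2⟩ | H
  · refine Or.inl (PX.full _ _ _ _ (full_r3 R hd hd8 le_rfl hx ?_ ?_))
    · rw [zero_add]; exact h1
    · rw [mul_zero, add_zero]; exact h2
  · have e1 : (0 : ℝ) + x = x := zero_add x
    have key := pxs_of R hd (by linarith) (i := i) (b := b) (g := 0) (g₂ := 0) (y₁ := z₁) (y₂ := z₂)
      (y₃ := z₃) (m := 0) (a := x) (n' := z₁ + z₂ + z₃ + x) (D := 2 * d * (z₃ + x))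
      (U := Uz z₁ z₂ z₃ x) (ρ := ρ) h32 h21 h3 le_rfl hx (by ring) (by rw [e1])
      (by unfold Uz; rw [e1]) hi hb le_rfl le_rfl (by linarith) (by rw [e1]; exact H)
    rwa [mul_zero, sub_zero, add_zero] at key

/-! ### compactness -/

/-- the configurations `(i, b, z₁, z₂, z₃, x, ρ)` in the box `[0, K]` -/
def Sc (d K : ℝ) : Set (Fin 7 → ℝ) :=
  {q | ((∀ i, 0 ≤ q i ∧ q i ≤ K) ∧ q 4 ≤ q 3 ∧ q 3 ≤ q 2) ∧
    AltC d (q 0) (q 1) (q 2) (q 3) (q 4) (q 5) (q 6)}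

lemma isClosed_or {α : Type*} [TopologicalSpace α] {p q : α → Prop} (hp : IsClosed {x | p x})
    (hq : IsClosed {x | q x}) : IsClosed {x | p x ∨ q x} := hp.union hq

lemma isClosed_and {α : Type*} [TopologicalSpace α] {p q : α → Prop} (hp : IsClosed {x | p x})
    (hq : IsClosed {x | q x}) : IsClosed {x | p x ∧ q x} := hp.inter hq

lemma isClosed_AltC (d : ℝ) : IsClosed {q : Fin 7 → ℝ |
    AltC d (q 0) (q 1) (q 2) (q 3) (q 4) (q 5) (q 6)} := by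
  unfold AltC PXsc Uz P1R904.r3 P1R904.l3
  repeat' first
    | refine isClosed_or ?_ ?_
    | refine isClosed_and ?_ ?_
    | exact isClosed_le (by fun_prop) (by fun_prop)

lemma isCompact_Sc (d K : ℝ) : IsCompact (Sc d K) := by
  refine (isCompact_Icc (a := fun _ : Fin 7 => (0 : ℝ)) (b := fun _ => K)).of_isClosed_subset ?_
    fun q hq => ⟨fun i => (hq.1.1 i).1, fun i => (hq.1.1 i).2⟩
  refine isClosed_and (isClosed_and ?_ (isClosed_and ?_ ?_)) (isClosed_AltC d)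
  · have e : {q : Fin 7 → ℝ | ∀ i, 0 ≤ q i ∧ q i ≤ K} =
        Set.Icc (fun _ : Fin 7 => (0 : ℝ)) (fun _ => K) := by
      ext q
      exact ⟨fun h => ⟨fun i => (h i).1, fun i => (h i).2⟩, fun h i => ⟨h.1 i, h.2 i⟩⟩
    rw [e]
    exact isClosed_Icc
  · exact isClosed_le (by fun_prop) (by fun_prop)
  · exact isClosed_le (by fun_prop) (by fun_prop)

lemma cont_P : Continuous fun q : Fin 7 → ℝ =>
    ((q 0, ![q 2, q 3, q 4], wt 0 (q 5)) : ℝ × (Fin 3 → ℝ) × (Kd → ℝ)) := by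
  refine (continuous_apply 0).prodMk (Continuous.prodMk ?_ ?_)
  · refine continuous_pi fun i => ?_
    fin_cases i
    · exact continuous_apply 2
    · exact continuous_apply 3
    · exact continuous_apply 4
  · refine continuous_pi fun t => ?_
    cases t
    · exact continuous_const
    · exact continuous_apply 5

/-- in the box the merged family always serves `60` -/
lemma alt60 (hd : 0 ≤ d) (hd8 : d ≤ 1 / 8) {i b z₁ z₂ z₃ x : ℝ} (hi : i ≤ 2) (hb : b ≤ 3)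
    (h1 : z₁ ≤ 8) (h2 : z₂ ≤ 8) (h3 : z₃ ≤ 8) (hx : x ≤ 8) : AltC d i b z₁ z₂ z₃ x 60 := by
  refine Or.inl ⟨?_, by linarith⟩
  unfold P1R904.r3 P1R904.l3
  have k1 := min_le_left z₁ (i + 2 * b)
  have k2 := min_le_left z₂ (i + 2 * b)
  have k3 := min_le_left z₃ (i + 2 * b)
  have k4 : min (min (min z₁ (i + 2 * b)) (i + 2 * b - min z₁ (i + 2 * b)))
      (min (min (min z₂ (i + 2 * b)) (i + 2 * b - min z₂ (i + 2 * b)))
        (min (min z₃ (i + 2 * b)) (i + 2 * b - min z₃ (i + 2 * b)))) ≤ 8 :=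
    ((min_le_left _ _).trans ((min_le_left _ _).trans k1)).trans h1
  have k5 := mul_le_mul_of_nonneg_left (add_le_add k4 hx) (by linarith : (0 : ℝ) ≤ 3 / 4 + 2 * d)
  have k6 : (3 / 4 + 2 * d) * (8 + 8) ≤ 16 := by linarith
  linarith

/-- **the uniform form** -/
theorem unif_alt (H : DataE (7 / 8 + d) π h c₁) (hc : Clo π)
    (P : PairRules (rdE π) h (ex Dq (SPe π h)))
    (R : ExpRules (7 / 8 + d) (ex Dq (RNe π h)) (ex Dq (SPe π h))) (hd : 0 ≤ d) (hd8 : d ≤ 1 / 8)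
    {ε : ℝ} (hε : 0 < ε) :
    ∃ δ : ℝ, 0 < δ ∧ ∀ (lam : Lam) (N : ℕ) (B : ℝ), ∃ δ' : ℝ, 0 < δ' ∧ ∃ X₀ : ℝ, 1 < X₀ ∧
      ∀ X : ℝ, X₀ ≤ X → ∀ (k bq : ℝ) (us gs : List Pq), ∀ p ∈ Sc d 60, |k - p 0| ≤ δ →
        |bq - p 1| ≤ δ → Dq.Near X δ us [p 2, p 3, p 4] → Dq.Gran X δ N gs (wt 0 (p 5)) →
        Dq.Good X δ' B (us ++ gs) →
        PM2Q NCube (rdE π lam) h (k * Real.log X) (bq * Real.log X) (us ++ gs) ≤
          X ^ (p 6 + ε) := by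
  have hBG : ∀ q ∈ Sc d 60, BG2 Dq (PQe (rdE π) h) (q 0) (q 1) (List.ofFn ![q 2, q 3, q 4])
      (wt 0 (q 5)) (q 6 + ε / 2) := by
    rintro q ⟨⟨q1, q2, q3⟩, q4⟩
    have e1 : List.ofFn ![q 2, q 3, q 4] = [q 2, q 3, q 4] := by simp
    rw [e1]
    refine paok_pxs H hc P (q 0) (q 1) [q 2, q 3, q 4] 0 (q 5) _ (q1 0).1 (q1 1).1
      ⟨?_, le_rfl, (q1 5).1⟩ (pxs_alt R hd hd8 (q1 0).1 (q1 1).1 q2 q3 (q1 4).1 (q1 5).1
        (q4.n (by linarith)))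
    intro y hy
    simp only [List.mem_cons, List.not_mem_nil, or_false] at hy
    rcases hy with rfl | rfl | rfl
    · exact (q1 2).1
    · exact (q1 3).1
    · exact (q1 4).1
  obtain ⟨δ, hδ, K1⟩ := unifG (D := Dq) (Ψ := PQe (rdE π) h) (n := 3) (isCompact_Sc d 60) cont_P
    (T := fun q => q 6 + ε / 2) (bb := fun q => q 1) (by fun_prop) (by fun_prop) hBG
    (ε := ε / 2) (by linarith)
  refine ⟨δ, hδ, fun lam N B => ?_⟩
  obtain ⟨δ', hδ', X₀, hX₀, K2⟩ := K1 lam N B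
  refine ⟨δ', hδ', X₀, hX₀, fun X hX k bq us gs p hp g1 g2 g3 g4 g5 => ?_⟩
  have e1 : List.ofFn ![p 2, p 3, p 4] = [p 2, p 3, p 4] := by simp
  have key := K2 X hX k bq us gs p hp g1 g2 (by rw [e1]; exact g3) g4 g5
  refine key.trans (le_of_eq ?_)
  congr 1
  ring

/-! ### the input -/

/-- permuting a list along its image -/
lemma perm_lift {α β : Type*} (f : α → β) : ∀ (ws : List β) (us : List α),
    (us.map f).Perm ws → ∃ vs, us.Perm vs ∧ vs.map f = ws := by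
  intro ws
  induction ws with
  | nil =>
    intro us h
    refine ⟨us, List.Perm.refl _, ?_⟩
    exact List.perm_nil.1 h
  | cons w ws ih =>
    intro us h
    have hw : w ∈ us.map f := h.symm.subset (by simp)
    obtain ⟨u, hu, rfl⟩ := List.mem_map.1 hw
    obtain ⟨s, t, rfl⟩ := List.append_of_mem hu
    have h2 : (f u :: (s ++ t).map f).Perm (f u :: ws) := by
      refine List.Perm.trans ?_ h
      have := (List.perm_middle (a := u) (l₁ := s) (l₂ := t)).map f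
      exact this.symm
    obtain ⟨vs, hv1, hv2⟩ := ih (s ++ t) ((List.perm_cons _).1 h2)
    exact ⟨u :: vs, List.perm_middle.trans (hv1.cons u), by rw [List.map_cons, hv2]⟩

/-- **the pair functional**, sorted lumps -/
theorem pmq_sort (H : DataE (7 / 8 + d) π h c₁) (hc : Clo π)
    (P : PairRules (rdE π) h (ex Dq (SPe π h)))
    (R : ExpRules (7 / 8 + d) (ex Dq (RNe π h)) (ex Dq (SPe π h))) (hd : 0 ≤ d) (hd8 : d ≤ 1 / 8)
    {ε : ℝ} (hε : 0 < ε) :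
    ∃ σ : ℝ, 0 < σ ∧ ∀ (lam : Lam) (N : ℕ) (B : ℝ), ∃ (M : ℕ) (X₀ : ℝ), 1 < X₀ ∧
      ∀ X : ℝ, X₀ ≤ X → ∀ (l β Ht : ℝ) (v₁ v₂ v₃ : Pq) (rest : List Pq), rest.length ≤ N →
      P1Rg440.Pcx σ B X Ht v₁ v₂ v₃ rest → 0 ≤ l → 0 ≤ β → l ≤ 2 * Real.log X →
      β ≤ 3 * Real.log X → v₃.z ≤ v₂.z → v₂.z ≤ v₁.z → ∀ ρ : ℝ,
      Alt d (l / Real.log X) (β / Real.log X) (v₁.z / Real.log X) (v₂.z / Real.log X)
        (v₃.z / Real.log X) (LN rest / Real.log X) ρ →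
      PM2Q NCube (rdE π lam) h l β (v₁ :: v₂ :: v₃ :: rest) ≤ Ht ^ M * X ^ (ρ + ε) := by
  obtain ⟨σ, hσ, K1⟩ := unif_alt H hc P R hd hd8 hε
  refine ⟨σ, hσ, fun lam N B => ?_⟩
  obtain ⟨δ', hδ', X₁, hX₁, K2⟩ := K1 lam N B
  obtain ⟨C, T, hC, hT, K3⟩ := triv2_PQe (red_OK H.hP H.hE) H.hpu lam (N + 3)
  refine ⟨⌈(37 * T + 1) / δ'⌉₊, max X₁ (max 3 C), lt_of_lt_of_le hX₁ (le_max_left _ _), ?_⟩
  intro X hX l β Ht v₁ v₂ v₃ rest hN hp hl hβ hl2 hβ3 h32 h21 ρ hA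
  have hXX₁ : X₁ ≤ X := (le_max_left _ _).trans hX
  have hX3 : 3 ≤ X := (le_max_left _ _).trans ((le_max_right _ _).trans hX)
  have hXC : C ≤ X := (le_max_right _ _).trans ((le_max_right _ _).trans hX)
  have hX1 : 1 < X := by linarith
  have hX0 : 0 < X := by linarith
  have hL0 : 0 < Real.log X := Real.log_pos hX1
  have hLN0 := hp.LN0
  obtain ⟨hma, hmm⟩ := hp.mass
  have h1u := hp.lump v₁ (by simp)
  have h2u := hp.lump v₂ (by simp)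
  have h3u := hp.lump v₃ (by simp)
  have hbox : ∀ z K : ℝ, 0 ≤ z → z ≤ K * Real.log X → 0 ≤ z / Real.log X ∧ z / Real.log X ≤ K :=
    fun z K h0 h1 => ⟨by positivity, by rw [div_le_iff₀ hL0]; exact h1⟩
  obtain ⟨bl0, bl1⟩ := hbox l 2 hl hl2
  obtain ⟨bb0, bb1⟩ := hbox β 3 hβ hβ3
  obtain ⟨z10, z11⟩ := hbox v₁.z 8 h1u.2.1 h1u.2.2.1
  obtain ⟨z20, z21⟩ := hbox v₂.z 8 h2u.2.1 h2u.2.2.1
  obtain ⟨z30, z31⟩ := hbox v₃.z 8 h3u.2.1 h3u.2.2.1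
  obtain ⟨x0, x1⟩ := hbox (LN rest) 8 hLN0 hp.sum
  have hρ0 : 0 ≤ ρ := hA.c.nonneg bl0 bb0 x0
  have hH1 : 1 ≤ Ht := hp.H1
  have hXρ : 1 ≤ X ^ (ρ + ε) := Real.one_le_rpow hX1.le (by linarith)
  rcases le_or_gt Ht (X ^ δ') with hH | hH
  · -- small heights
    obtain ⟨ρ', hρ'⟩ : ∃ ρ', ρ' = min ρ 60 := ⟨_, rfl⟩
    have hA' : AltC d (l / Real.log X) (β / Real.log X) (v₁.z / Real.log X) (v₂.z / Real.log X)
        (v₃.z / Real.log X) (LN rest / Real.log X) ρ' := by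
      rcases le_total ρ 60 with h | h
      · rw [hρ', min_eq_left h]; exact hA.c
      · rw [hρ', min_eq_right h]; exact alt60 hd hd8 bl1 bb1 z11 z21 z31 x1
    have hρ'0 : 0 ≤ ρ' := hρ' ▸ le_min hρ0 (by norm_num)
    have hρ'1 : ρ' ≤ 60 := hρ' ▸ min_le_right _ _
    have hρ'2 : ρ' ≤ ρ := hρ' ▸ min_le_left _ _
    have hq : (![l / Real.log X, β / Real.log X, v₁.z / Real.log X, v₂.z / Real.log X,
        v₃.z / Real.log X, LN rest / Real.log X, ρ'] : Fin 7 → ℝ) ∈ Sc d 60 := by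
      refine ⟨⟨fun i => ?_, ?_, ?_⟩, hA'⟩
      · fin_cases i
        · exact ⟨bl0, bl1.trans (by norm_num)⟩
        · exact ⟨bb0, bb1.trans (by norm_num)⟩
        · exact ⟨z10, z11.trans (by norm_num)⟩
        · exact ⟨z20, z21.trans (by norm_num)⟩
        · exact ⟨z30, z31.trans (by norm_num)⟩
        · exact ⟨x0, x1.trans (by norm_num)⟩
        · exact ⟨hρ'0, hρ'1⟩
      · exact div_le_div_of_nonneg_right h32 hL0.le
      · exact div_le_div_of_nonneg_right h21 hL0.le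
    have key := K2 X hXX₁ (l / Real.log X) (β / Real.log X) [v₁, v₂, v₃] rest _ hq ?_ ?_ ?_ ?_ ?_
    · rw [div_mul_cancel₀ _ hL0.ne', div_mul_cancel₀ _ hL0.ne'] at key
      calc PM2Q NCube (rdE π lam) h l β (v₁ :: v₂ :: v₃ :: rest) ≤ X ^ (ρ' + ε) := key
        _ ≤ X ^ (ρ + ε) := Real.rpow_le_rpow_of_exponent_le hX1.le (by linarith)
        _ = 1 * X ^ (ρ + ε) := (one_mul _).symm
        _ ≤ _ := mul_le_mul_of_nonneg_right (one_le_pow₀ hH1) (by linarith)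
    · show |l / Real.log X - l / Real.log X| ≤ σ
      rw [sub_self, abs_zero]; exact hσ.le
    · show |β / Real.log X - β / Real.log X| ≤ σ
      rw [sub_self, abs_zero]; exact hσ.le
    · refine List.Forall₂.cons ⟨h1u.1, ?_⟩ (List.Forall₂.cons ⟨h2u.1, ?_⟩
        (List.Forall₂.cons ⟨h3u.1, ?_⟩ List.Forall₂.nil))
      · show |v₁.z / Real.log X - v₁.z / Real.log X| ≤ σ
        rw [sub_self, abs_zero]; exact hσ.le
      · show |v₂.z / Real.log X - v₂.z / Real.log X| ≤ σ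
        rw [sub_self, abs_zero]; exact hσ.le
      · show |v₃.z / Real.log X - v₃.z / Real.log X| ≤ σ
        rw [sub_self, abs_zero]; exact hσ.le
    · refine ⟨hN, fun g hg => ?_, fun t => ?_⟩
      · show g.z / Real.log X ≤ σ
        rw [div_le_iff₀ hL0]
        exact (hp.am g hg).2.2.1
      · cases t with
        | mo =>
          show |Dq.mass X rest .mo - 0| ≤ σ
          rw [hmm, sub_zero, abs_zero]
          exact hσ.le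
        | am =>
          show |Dq.mass X rest .am - LN rest / Real.log X| ≤ σ
          rw [hma, sub_self, abs_zero]
          exact hσ.le
    · intro p hp'
      have hm : p ∈ v₁ :: v₂ :: v₃ :: rest := hp'
      refine ⟨(hp.ht p hm).trans hH, ?_, ?_⟩
      · rcases List.mem_append.1 hp' with h' | h'
        · exact (hp.lump p h').2.2.2
        · exact (hp.am p h').2.2.2
      · rcases List.mem_append.1 hp' with h' | h'
        · exact (hp.lump p h').2.1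
        · exact (hp.am p h').2.1
  · -- large heights
    have hLL : LL Dq (v₁ :: v₂ :: v₃ :: rest) = v₁.z + (v₂.z + (v₃.z + LN rest)) := by
      unfold XP699.LL I1146.LN
      simp only [List.map_cons, List.sum_cons, Dq_len]
      rfl
    have h1 : PM2Q NCube (rdE π lam) h l β (v₁ :: v₂ :: v₃ :: rest) ≤
        C * Real.exp (T * (l + β + LL Dq (v₁ :: v₂ :: v₃ :: rest))) := by
      refine K3 l β _ hl hβ ?_ ?_
      · simp only [List.length_cons]; omega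
      · intro q hq
        have hq' : q ∈ [v₁, v₂, v₃] ++ rest := hq
        rcases List.mem_append.1 hq' with h' | h'
        · exact (hp.lump q h').2.1
        · exact (hp.am q h').2.1
    have h2 : l + β + LL Dq (v₁ :: v₂ :: v₃ :: rest) ≤ 37 * Real.log X := by
      rw [hLL]
      linarith [h1u.2.2.1, h2u.2.2.1, h3u.2.2.1, hp.sum]
    have h3 : Real.exp (T * (l + β + LL Dq (v₁ :: v₂ :: v₃ :: rest))) ≤ X ^ (37 * T) := by
      rw [Real.rpow_def_of_pos hX0]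
      refine Real.exp_le_exp.2 ?_
      calc _ ≤ T * (37 * Real.log X) := mul_le_mul_of_nonneg_left h2 hT
        _ = _ := by ring
    have h4 : X ^ (37 * T + 1) ≤ Ht ^ ⌈(37 * T + 1) / δ'⌉₊ := by
      have e1 : 37 * T + 1 ≤ δ' * (⌈(37 * T + 1) / δ'⌉₊ : ℝ) := by
        have := Nat.le_ceil ((37 * T + 1) / δ')
        rw [div_le_iff₀ hδ'] at this
        linarith
      calc X ^ (37 * T + 1) ≤ X ^ (δ' * (⌈(37 * T + 1) / δ'⌉₊ : ℝ)) :=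
            Real.rpow_le_rpow_of_exponent_le hX1.le e1
        _ = (X ^ δ') ^ ⌈(37 * T + 1) / δ'⌉₊ := by rw [Real.rpow_mul hX0.le, Real.rpow_natCast]
        _ ≤ _ := pow_le_pow_left₀ (Real.rpow_nonneg hX0.le _) hH.le _
    calc PM2Q NCube (rdE π lam) h l β (v₁ :: v₂ :: v₃ :: rest)
        ≤ C * Real.exp (T * (l + β + LL Dq (v₁ :: v₂ :: v₃ :: rest))) := h1
      _ ≤ X * X ^ (37 * T) := by gcongr
      _ = X ^ (37 * T + 1) := by rw [Real.rpow_add hX0, Real.rpow_one, mul_comm]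
      _ ≤ Ht ^ ⌈(37 * T + 1) / δ'⌉₊ := h4
      _ = Ht ^ ⌈(37 * T + 1) / δ'⌉₊ * 1 := (mul_one _).symm
      _ ≤ _ := mul_le_mul_of_nonneg_left hXρ (by positivity)

/-- **the pair functional over the noncubes, class E** (twin of `P1Rg440.pm_in`) -/
theorem pmq_in (H : DataE (7 / 8 + d) π h c₁) (hc : Clo π)
    (P : PairRules (rdE π) h (ex Dq (SPe π h)))
    (R : ExpRules (7 / 8 + d) (ex Dq (RNe π h)) (ex Dq (SPe π h))) (hd : 0 ≤ d) (hd8 : d ≤ 1 / 8)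
    {ε : ℝ} (hε : 0 < ε) :
    ∃ σ : ℝ, 0 < σ ∧ ∀ (lam : Lam) (N : ℕ) (B : ℝ), ∃ (M : ℕ) (X₀ : ℝ), 1 < X₀ ∧
      ∀ X : ℝ, X₀ ≤ X → ∀ (l β Ht : ℝ) (u₁ u₂ u₃ : Pq) (rest : List Pq), rest.length ≤ N →
      P1Rg440.Pcx σ B X Ht u₁ u₂ u₃ rest → 0 ≤ l → 0 ≤ β → l ≤ 2 * Real.log X →
      β ≤ 3 * Real.log X → ∀ z₁ z₂ z₃ x' ρ : ℝ, z₃ ≤ z₂ → z₂ ≤ z₁ →
      ({u₁.z, u₂.z, u₃.z} : Multiset ℝ) =
        {z₁ * Real.log X, z₂ * Real.log X, z₃ * Real.log X} → x' = LN rest / Real.log X →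
      Alt d (l / Real.log X) (β / Real.log X) z₁ z₂ z₃ x' ρ →
      PM2Q NCube (rdE π lam) h l β (u₁ :: u₂ :: u₃ :: rest) ≤ Ht ^ M * X ^ (ρ + ε) := by
  obtain ⟨σ, hσ, K1⟩ := pmq_sort H hc P R hd hd8 hε
  refine ⟨σ, hσ, fun lam N B => ?_⟩
  obtain ⟨M, X₀, hX₀, K2⟩ := K1 lam N B
  refine ⟨M, X₀, hX₀, ?_⟩
  intro X hX l β Ht u₁ u₂ u₃ rest hN hp hl hβ hl2 hβ3 z₁ z₂ z₃ x' ρ h32 h21 hz hx hA
  have hX1 : 1 < X := lt_of_lt_of_le hX₀ hX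
  have hL0 : 0 < Real.log X := Real.log_pos hX1
  have h1 : ([u₁, u₂, u₃].map Pq.z).Perm
      [z₁ * Real.log X, z₂ * Real.log X, z₃ * Real.log X] := Multiset.coe_eq_coe.1 hz
  obtain ⟨vs, hv1, hv2⟩ := perm_lift _ _ _ h1
  obtain ⟨v₁, v₂, v₃, rfl⟩ : ∃ v₁ v₂ v₃, vs = [v₁, v₂, v₃] := by
    have := hv1.length_eq
    match vs, this with
    | [a, b, c], _ => exact ⟨a, b, c, rfl⟩
  simp only [List.map_cons, List.map_nil, List.cons.injEq, and_true] at hv2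
  obtain ⟨e1, e2, e3⟩ := hv2
  have hperm : (u₁ :: u₂ :: u₃ :: rest).Perm (v₁ :: v₂ :: v₃ :: rest) := hv1.append_right rest
  have hp' : P1Rg440.Pcx σ B X Ht v₁ v₂ v₃ rest :=
    ⟨fun p hp1 => hp.lump p (hv1.symm.subset hp1), hp.am, hp.sum,
      fun p hp1 => hp.ht p (hperm.symm.subset hp1), hp.H1⟩
  rw [PM2Q_perm hperm]
  refine K2 X hX l β Ht v₁ v₂ v₃ rest hN hp' hl hβ hl2 hβ3 ?_ ?_ ρ ?_
  · rw [e2, e3]; exact mul_le_mul_of_nonneg_right h32 hL0.le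
  · rw [e1, e2]; exact mul_le_mul_of_nonneg_right h21 hL0.le
  · rw [e1, e2, e3, mul_div_cancel_right₀ _ hL0.ne', mul_div_cancel_right₀ _ hL0.ne',
      mul_div_cancel_right₀ _ hL0.ne', ← hx]
    exact hA


end Crest.Agent.R017.PMq590
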