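import Crest.Agent.R017.EndJ_699
import Crest.Agent.R012.PLog_255

/-!
# Row 17, (PSUP) part 1 (helper271): contour-shift bound for the coefficients of `-L'/L`
-/

set_option autoImplicit false

noncomputable section

namespace Crest.Agent.R017.PSup271

section

open Complex Filter Topology MeasureTheory Set
open Crest.Agent.R017.Z2590

variable {ι : Type*}

/-- Cauchy estimate for the logarithmic derivative -/
lemma norm_logDeriv_le {L : ℂ → ℂ} {z : ℂ} {r M N : ℝ} (hr : 0 < r)
    (hd : DifferentiableOn ℂ L (Metric.closedBall z r))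
    (hM : ∀ w : ℂ, ‖w - z‖ = r → ‖L w‖ ≤ M) (hN : ‖(L z)⁻¹‖ ≤ N) :
    ‖deriv L z / L z‖ ≤ M / r * N := by
  have h1 : ‖deriv L z‖ ≤ M / r := by
    refine Complex.norm_deriv_le_of_forall_mem_sphere_norm_le hr ?_ ?_
    · refine DifferentiableOn.diffContOnCl ?_
      rwa [closure_ball z hr.ne']
    · intro w hw
      exact hM w (by rwa [mem_sphere_iff_norm] at hw)
  have hM0 : 0 ≤ M / r := (norm_nonneg _).trans h1
  rw [div_eq_mul_inv, norm_mul]
  exact mul_le_mul h1 hN (norm_nonneg _) hM0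

/-- (Z2) for `L'/L`, global version. `C` depends only on `Θ, A, B, ε`. -/
theorem Z2D [Countable ι] {Θ A B ε : ℝ} (hΘ0 : 0 ≤ Θ) (hΘ : Θ < 1) (hA : 0 ≤ A) (hB : 1 ≤ B)
    (hε : 0 < ε) (hε1 : ε ≤ 1) :
    ∃ C : ℝ, 1 ≤ C ∧ ∀ (L : ℂ → ℂ) (τ q : ℝ), 1 ≤ q → (∀ T : ℝ, 1 ≤ T → ZF L Θ A B τ T q) →
      ∀ (a : ι → ℂ) (N : ι → ℝ), (∀ i, 0 < N i) → (Summable fun i => ‖a i‖ * N i ^ (-(2 : ℝ))) →
      (∀ t : ℝ, -(deriv L (2 + t * I) / L (2 + t * I)) =
        ∑' i, a i * (N i : ℂ) ^ (-(2 + t * I : ℂ))) →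
      ∀ (w : ℝ → ℂ) (K : ℝ), WB w 3 K → ∀ Q : ℝ, 1 ≤ Q →
      ‖∑' i, a i * (N i : ℂ) ^ (-(τ * I : ℂ)) * w (Real.log (N i / Q))‖ ≤
        C * K * (q * (1 + |τ|)) ^ ε * Q ^ (Θ + ε) := by
  obtain ⟨C, hC1, hC⟩ := Z1τ (Θ := Θ) hΘ0 hΘ hA hB (half_pos hε)
  have hC0 : 0 < C := by linarith
  set D : ℝ := C / (ε / 2) * C * 4 with hD
  have hD0 : 0 < D := by positivity
  have hBr : 0 ≤ B / (1 / 4) * B := by positivity
  refine ⟨4 * (2 * D + B / (1 / 4) * B) + 1, by nlinarith, ?_⟩
  intro L τ q hq hL a N hN hs hLs w K hw Q hQ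
  have hτ := abs_nonneg τ
  have hq1 : 1 ≤ q * (1 + |τ|) := by nlinarith
  have hK0 : 0 ≤ K := hw.nn
  have hQ0 : 0 < Q := by linarith
  have hQ2 : (1 : ℝ) ≤ Q ^ 2 := one_le_pow₀ hQ
  set T : ℝ := Q ^ 2 with hT
  set M : ℝ := D * (q * (1 + |τ|)) ^ ε with hM
  have hqε : 1 ≤ (q * (1 + |τ|)) ^ ε := Real.one_le_rpow hq1 hε.le
  have him : ∀ w : ℂ, (w + τ * I).im - τ = w.im := fun w => by simp
  have hre : ∀ w : ℂ, (w + τ * I).re = w.re := fun w => by simp
  have hcpow : ∀ (i : ι) (s : ℂ), (N i : ℂ) ^ (-(τ * I : ℂ)) * (N i : ℂ) ^ (-s) =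
      (N i : ℂ) ^ (-(s + τ * I)) := by
    intro i s
    have hN' : (N i : ℂ) ≠ 0 := by exact_mod_cast (hN i).ne'
    rw [← Complex.cpow_add _ _ hN']
    congr 1
    ring
  have hn1 : ∀ i, ‖(N i : ℂ) ^ (-(τ * I : ℂ))‖ = 1 := by
    intro i
    rw [Complex.norm_cpow_eq_rpow_re_of_pos (hN i)]
    simp
  -- holomorphy of `L` in the whole half plane
  have hdiff : ∀ z : ℂ, Θ < z.re → DifferentiableAt ℂ L z := by
    intro z hz
    have h1 := (hL (max 1 (|z.im - τ|)) (le_max_left _ _)).hd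
    refine (h1 z ⟨hz, ?_⟩).differentiableAt ?_
    · have := le_max_right 1 (|z.im - τ|); linarith
    · refine IsOpen.mem_nhds ?_ ⟨hz, ?_⟩
      · have h2 : IsOpen {z : ℂ | Θ < z.re} := isOpen_lt continuous_const Complex.continuous_re
        have h3 : IsOpen {z' : ℂ | |z'.im - τ| < max 1 (|z.im - τ|) + 2} := by
          apply isOpen_lt _ continuous_const
          fun_prop
        exact h2.inter h3
      · have := le_max_right 1 (|z.im - τ|); linarith
  have hne : ∀ z : ℂ, Θ < z.re → L z ≠ 0 := by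
    intro z hz
    refine (hL (max 1 (|z.im - τ|)) (le_max_left _ _)).h0 z hz ?_
    have := le_max_right 1 (|z.im - τ|); linarith
  have hopen : IsOpen {z : ℂ | Θ < z.re} := isOpen_lt continuous_const Complex.continuous_re
  have hdd : DifferentiableOn ℂ (deriv L) {z : ℂ | Θ < z.re} :=
    DifferentiableOn.deriv (fun z hz => (hdiff z hz).differentiableWithinAt) hopen
  -- pointwise bound
  have hbound : ∀ z : ℂ, Θ + ε ≤ z.re → ‖deriv L (z + τ * I) / L (z + τ * I)‖ ≤
      M * (1 + |z.im|) := by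
    intro z hz
    set x : ℝ := |z.im| with hx
    have hx0 : 0 ≤ x := abs_nonneg _
    have hT1 : 1 ≤ x + 1 := by linarith
    have h5 := hC L τ (x + 1) q hq (hL _ hT1)
    have hsup : ∀ v : ℂ, ‖v - (z + τ * I)‖ = ε / 2 →
        ‖L v‖ ≤ C * ((q * (1 + |τ|)) * (x + 4)) ^ (ε / 2) := by
      intro v hv
      have hv1 : |(v - (z + τ * I)).re| ≤ ε / 2 := (Complex.abs_re_le_norm _).trans hv.le
      have hv2 : |(v - (z + τ * I)).im| ≤ ε / 2 := (Complex.abs_im_le_norm _).trans hv.le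
      rw [Complex.sub_re, hre] at hv1
      rw [Complex.sub_im, show (z + τ * I).im = z.im + τ by simp] at hv2
      have h6 : |v.im - τ| ≤ x + ε / 2 := by
        have : v.im - τ = (v.im - (z.im + τ)) + z.im := by ring
        rw [this]
        refine (abs_add_le _ _).trans ?_
        linarith
      have h7 := (h5 v (by have := (abs_le.mp hv1).1; linarith) (by linarith)).1
      refine h7.trans ?_
      refine mul_le_mul_of_nonneg_left (Real.rpow_le_rpow (by positivity) ?_ (by linarith)) hC0.le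
      exact mul_le_mul_of_nonneg_left (by linarith) (by linarith)
    have hinv : ‖(L (z + τ * I))⁻¹‖ ≤ C * ((q * (1 + |τ|)) * (x + 4)) ^ (ε / 2) := by
      have h7 := (h5 (z + τ * I) (by rw [hre]; linarith) (by rw [him]; linarith)).2
      rw [him] at h7
      refine h7.trans ?_
      gcongr
      norm_num
    have h8 := norm_logDeriv_le (half_pos hε) (fun v hv => by
      rw [Metric.mem_closedBall, dist_eq_norm] at hv
      have hv1 : |(v - (z + τ * I)).re| ≤ ε / 2 := (Complex.abs_re_le_norm _).trans hv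
      rw [Complex.sub_re, hre] at hv1
      exact (hdiff v (by have := (abs_le.mp hv1).1; linarith)).differentiableWithinAt) hsup hinv
    refine h8.trans ?_
    set y : ℝ := (q * (1 + |τ|)) * (x + 4) with hy
    have hy0 : 0 ≤ y := by positivity
    have e1 : C * y ^ (ε / 2) / (ε / 2) * (C * y ^ (ε / 2)) = C / (ε / 2) * C * y ^ ε := by
      have : y ^ ε = y ^ (ε / 2) * y ^ (ε / 2) := by
        rw [← Real.rpow_add_of_nonneg hy0 (by linarith) (by linarith)]
        congr 1; ring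
      rw [this]; ring
    rw [e1, hM, hD, hy, Real.mul_rpow (by positivity) (by positivity)]
    have h9 : (x + 4) ^ ε ≤ 4 * (1 + x) := by
      calc (x + 4) ^ ε ≤ (x + 4) ^ (1 : ℝ) :=
            Real.rpow_le_rpow_of_exponent_le (by linarith) hε1
        _ = x + 4 := Real.rpow_one _
        _ ≤ _ := by linarith
    calc C / (ε / 2) * C * ((q * (1 + |τ|)) ^ ε * (x + 4) ^ ε)
        ≤ C / (ε / 2) * C * ((q * (1 + |τ|)) ^ ε * (4 * (1 + x))) := by gcongr
      _ = _ := by ring
  have key := smooth_sum_le (a := fun i => a i * (N i : ℂ) ^ (-(τ * I : ℂ))) (N := N) hN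
    (by
      refine hs.congr fun i => ?_
      rw [norm_mul, hn1, mul_one])
    (A := fun s => -(deriv L (s + τ * I) / L (s + τ * I))) (σ₁ := Θ + ε) (T := T) (M := M)
    (B := B / (1 / 4) * B) (K := K) (Q := Q)
    (m := 0) (w := w) hw hQ hQ2 (by linarith) (by linarith)
    (by
      refine DifferentiableOn.neg (DifferentiableOn.div ?_ ?_ ?_)
      · refine hdd.comp (by fun_prop) ?_
        intro z hz
        show Θ < (z + τ * I).re
        rw [hre]; linarith [hz.1]
      · intro z hz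
        refine DifferentiableAt.differentiableWithinAt ?_
        refine (hdiff _ ?_).comp z (by fun_prop)
        rw [hre]; linarith [hz.1]
      · intro z hz
        refine hne _ ?_
        rw [hre]; linarith [hz.1])
    (fun z h1 _ _ => by
      rw [norm_neg]
      exact hbound z h1)
    (fun t => by
      rw [norm_neg]
      refine norm_logDeriv_le (r := 1 / 4) (by norm_num) ?_ ?_ ?_
      · intro v hv
        rw [Metric.mem_closedBall, dist_eq_norm] at hv
        have hv1 := (Complex.abs_re_le_norm _).trans hv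
        rw [Complex.sub_re, hre, show (2 + t * I : ℂ).re = 2 by simp] at hv1
        refine (hdiff v ?_).differentiableWithinAt
        have := (abs_le.mp hv1).1; linarith
      · intro v hv
        have hv1 := (Complex.abs_re_le_norm _).trans hv.le
        rw [Complex.sub_re, hre, show (2 + t * I : ℂ).re = 2 by simp] at hv1
        refine ((hL 1 le_rfl).bd v ?_).1
        have := (abs_le.mp hv1).1; linarith
      · refine ((hL 1 le_rfl).bd _ ?_).2
        rw [hre]; simp; norm_num)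
    (fun t => by
      have e : (2 + t * I + τ * I : ℂ) = 2 + ((t + τ : ℝ) : ℂ) * I := by push_cast; ring
      rw [e, hLs (t + τ)]
      congr 1
      ext i
      rw [mul_assoc, hcpow, ← e])
  refine key.trans ?_
  have h8 : 1 ≤ Q ^ (Θ + ε) := Real.one_le_rpow hQ (by linarith)
  have h9 : Q ^ 2 * (T ^ (0 + 1))⁻¹ = 1 := by
    rw [hT, zero_add, pow_one]
    exact mul_inv_cancel₀ (by positivity)
  have hM0 : 0 ≤ M := by positivity
  rw [mul_assoc (M + B / (1 / 4) * B), h9, mul_one]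
  calc 4 * K * (M * Q ^ (Θ + ε) + (M + B / (1 / 4) * B))
      ≤ 4 * K * (M * Q ^ (Θ + ε) + (M + B / (1 / 4) * B) * Q ^ (Θ + ε)) := by
        gcongr
        exact le_mul_of_one_le_right (by positivity) h8
    _ = 4 * K * (2 * M + B / (1 / 4) * B) * Q ^ (Θ + ε) := by ring
    _ ≤ 4 * K * (2 * M + B / (1 / 4) * B * (q * (1 + |τ|)) ^ ε) * Q ^ (Θ + ε) := by
        have h11 : B / (1 / 4) * B ≤ B / (1 / 4) * B * (q * (1 + |τ|)) ^ ε :=
          le_mul_of_one_le_right hBr hqε
        have h12 : 0 ≤ 4 * K := by positivity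
        have h13 : 0 ≤ Q ^ (Θ + ε) := by positivity
        exact mul_le_mul_of_nonneg_right (mul_le_mul_of_nonneg_left (by linarith) h12) h13
    _ = (4 * (2 * D + B / (1 / 4) * B)) * K * (q * (1 + |τ|)) ^ ε * Q ^ (Θ + ε) := by
        rw [hM]; ring
    _ ≤ (4 * (2 * D + B / (1 / 4) * B) + 1) * K * (q * (1 + |τ|)) ^ ε * Q ^ (Θ + ε) := by
        gcongr
        linarith

end

end Crest.Agent.R017.PSup271
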