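import Crest.Agent.R017.PSup1_271

/-!
# Row 17, (PSUP) part 2 (helper271): sup rule for prime pieces
-/

set_option autoImplicit false

noncomputable section

namespace Crest.Agent.R017.PSup271

section weights

open Set MeasureTheory Filter Topology
open scoped ContDiff
open Crest.Agent.R017.Z2590 Crest.Agent.R017.End699

/-- three factors, two independent shifts -/
lemma iter_bound2 (k : ℕ) {h σ ρ : ℝ → ℂ} (hh : HW h) (hσ : SG σ) (hρ : SG ρ) :
    ∃ D : ℝ, ∀ δ η u : ℝ, ‖deriv^[k] (fun u => (h u * σ (u + δ)) * ρ (u + η)) u‖ ≤ D := by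
  induction k generalizing h σ ρ with
  | zero =>
    obtain ⟨B1, h1⟩ := hh.bounded
    obtain ⟨B2, h2⟩ := hσ.bd 0
    obtain ⟨B3, h3⟩ := hρ.bd 0
    refine ⟨B1 * B2 * B3, fun δ η u => ?_⟩
    have hB1 : 0 ≤ B1 := (norm_nonneg _).trans (h1 u)
    have hB2 : 0 ≤ B2 := (norm_nonneg _).trans (h2 u)
    simp only [Function.iterate_zero, id_eq, norm_mul]
    exact mul_le_mul (mul_le_mul (h1 u) (h2 _) (norm_nonneg _) hB1) (h3 _) (norm_nonneg _)
      (by positivity)
  | succ k ih =>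
    obtain ⟨D1, h1⟩ := ih hh.deriv hσ hρ
    obtain ⟨D2, h2⟩ := ih hh hσ.deriv hρ
    obtain ⟨D3, h3⟩ := ih hh hσ hρ.deriv
    refine ⟨D1 + D2 + D3, fun δ η u => ?_⟩
    have e : deriv (fun u => (h u * σ (u + δ)) * ρ (u + η)) = fun u =>
        ((deriv h u * σ (u + δ)) * ρ (u + η) + (h u * deriv σ (u + δ)) * ρ (u + η)) +
          (h u * σ (u + δ)) * deriv ρ (u + η) := by
      have h4 := deriv_prod (h := fun u => h u * σ (u + δ)) (σ := ρ)
        (hh.cd.mul (contDiff_shift hσ.cd δ)) hρ.cd η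
      have h5 := deriv_prod (h := h) (σ := σ) hh.cd hσ.cd δ
      rw [h4, h5]
      funext u
      ring
    have c1 : ContDiff ℝ ∞ fun u => (deriv h u * σ (u + δ)) * ρ (u + η) :=
      (hh.deriv.cd.mul (contDiff_shift hσ.cd δ)).mul (contDiff_shift hρ.cd η)
    have c2 : ContDiff ℝ ∞ fun u => (h u * deriv σ (u + δ)) * ρ (u + η) :=
      (hh.cd.mul (contDiff_shift hσ.deriv.cd δ)).mul (contDiff_shift hρ.cd η)
    have c3 : ContDiff ℝ ∞ fun u => (h u * σ (u + δ)) * deriv ρ (u + η) :=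
      (hh.cd.mul (contDiff_shift hσ.cd δ)).mul (contDiff_shift hρ.deriv.cd η)
    rw [Function.iterate_succ_apply, e, iter_deriv_add (c1.add c2) c3, iter_deriv_add c1 c2]
    exact (norm_add_le _ _).trans (add_le_add ((norm_add_le _ _).trans
      (add_le_add (h1 δ η u) (h2 δ η u))) (h3 δ η u))

lemma prod_supp2 {h σ ρ : ℝ → ℂ} (hh : HW h) (δ η : ℝ) :
    ∀ u, (h u * σ (u + δ)) * ρ (u + η) ≠ 0 → |u| ≤ 1 := by
  intro u hu
  exact hh.supp u (left_ne_zero_of_mul (left_ne_zero_of_mul hu))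

/-- the triple product weights are uniformly bounded in the sense of helper590 -/
theorem uniform_WB2 (k : ℕ) {h σ ρ : ℝ → ℂ} (hh : HW h) (hσ : SG σ) (hρ : SG ρ) :
    ∃ K : ℝ, 0 ≤ K ∧ ∀ δ η : ℝ, WB (fun u => (h u * σ (u + δ)) * ρ (u + η)) k K := by
  obtain ⟨D0, h0⟩ := iter_bound2 0 hh hσ hρ
  obtain ⟨Dk, hk⟩ := iter_bound2 k hh hσ hρ
  have hD0 : 0 ≤ D0 := (norm_nonneg _).trans (h0 0 0 0)
  have hDk : 0 ≤ Dk := (norm_nonneg _).trans (hk 0 0 0)
  refine ⟨2 ^ k * Real.exp (2 * 1) * (2 * D0 + 2 * Dk), by positivity, fun δ η => ?_⟩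
  refine WB.mono (WB_of (b := 1)
    ((hh.cd.mul (contDiff_shift hσ.cd δ)).mul (contDiff_shift hρ.cd η)) (by norm_num)
    (prod_supp2 hh δ η) k) ?_
  have e1 : ∫ u, ‖(h u * σ (u + δ)) * ρ (u + η)‖ ≤ 2 * D0 := by
    apply integral_bound (w := fun u => (h u * σ (u + δ)) * ρ (u + η))
    · intro u
      exact h0 δ η u
    · exact prod_supp2 hh δ η
  have e2 : ∫ u, ‖deriv^[k] (fun u => (h u * σ (u + δ)) * ρ (u + η)) u‖ ≤ 2 * Dk := by
    apply integral_bound
    · intro u
      exact hk δ η u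
    · exact deriv_iter_supp (prod_supp2 hh δ η) k
  gcongr

/-! #### a smooth function equal to `1/v` on `[1, ∞)` -/

/-- `ρ v = 1/v` for `v ≥ 1`, smooth, bounded derivatives -/
def rinv (v : ℝ) : ℂ := ((Real.smoothTransition (2 * v - 1) * v⁻¹ : ℝ) : ℂ)

lemma rinv_eq {v : ℝ} (hv : 1 ≤ v) : rinv v = (v : ℂ)⁻¹ := by
  unfold rinv
  rw [Real.smoothTransition.one_of_one_le (by linarith)]
  push_cast
  ring

lemma rinv_zero {v : ℝ} (hv : v ≤ 1 / 2) : rinv v = 0 := by
  unfold rinv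
  rw [Real.smoothTransition.zero_of_nonpos (by linarith)]
  simp

lemma contDiff_rinv : ContDiff ℝ ∞ rinv := by
  rw [contDiff_iff_contDiffAt]
  intro v
  rcases lt_or_ge v (1 / 2) with hv | hv
  · have : rinv =ᶠ[𝓝 v] fun _ => 0 := by
      filter_upwards [Iio_mem_nhds hv] with x hx
      exact rinv_zero (le_of_lt hx)
    exact contDiffAt_const.congr_of_eventuallyEq this
  · unfold rinv
    refine Complex.ofRealCLM.contDiff.contDiffAt.comp v ?_
    refine ContDiffAt.mul ?_ (contDiffAt_inv ℝ (by linarith))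
    exact (Real.smoothTransition.contDiff.comp (by fun_prop)).contDiffAt

lemma iter_deriv_congr {f g : ℝ → ℂ} {s : Set ℝ} (hs : IsOpen s) (h : ∀ x ∈ s, f x = g x) (k : ℕ) :
    ∀ x ∈ s, deriv^[k] f x = deriv^[k] g x := by
  induction k generalizing f g with
  | zero => exact h
  | succ k ih =>
    intro x hx
    rw [Function.iterate_succ_apply, Function.iterate_succ_apply]
    refine ih (fun y hy => ?_) x hx
    have : f =ᶠ[𝓝 y] g := by
      filter_upwards [hs.mem_nhds hy] with z hz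
      exact h z hz
    exact this.deriv_eq

/-- the iterated derivatives of `v ↦ (v:ℂ)⁻¹` -/
lemma iter_deriv_cinv (k : ℕ) : ∀ x : ℝ, 0 < x →
    deriv^[k] (fun v : ℝ => ((v : ℂ))⁻¹) x = ((-1) ^ k * (k.factorial : ℂ)) * ((x : ℂ)⁻¹) ^ (k + 1) := by
  induction k with
  | zero => intro x _; simp
  | succ k ih =>
    intro x hx
    rw [Function.iterate_succ_apply']
    have h1 : deriv^[k] (fun v : ℝ => ((v : ℂ))⁻¹) =ᶠ[𝓝 x]
        fun x => ((-1) ^ k * (k.factorial : ℂ)) * ((x : ℂ)⁻¹) ^ (k + 1) := by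
      filter_upwards [Ioi_mem_nhds hx] with y hy
      exact ih y hy
    rw [h1.deriv_eq]
    have hx0 : (x : ℂ) ≠ 0 := by exact_mod_cast hx.ne'
    have h2 : HasDerivAt (fun v : ℝ => ((v : ℂ))⁻¹) (-((x : ℂ) ^ 2)⁻¹) x :=
      (hasDerivAt_inv hx0).comp_ofReal
    have h3 := (h2.pow (k + 1)).const_mul ((-1) ^ k * (k.factorial : ℂ))
    have h4 := h3.deriv
    simp only [Pi.pow_apply] at h4
    rw [show (fun x : ℝ => ((-1 : ℂ)) ^ k * (k.factorial : ℂ) * ((x : ℂ)⁻¹) ^ (k + 1)) =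
      fun y => ((-1 : ℂ)) ^ k * (k.factorial : ℂ) * ((fun v : ℝ => ((v : ℂ))⁻¹) ^ (k + 1)) y from by
        funext y; simp]
    rw [h3.deriv]
    push_cast [Nat.factorial_succ]
    rw [← inv_pow]
    ring

lemma sg_rinv : SG rinv where
  cd := contDiff_rinv
  bd k := by
    -- on `[0, 2]` by compactness
    have hc : Continuous (deriv^[k] rinv) := by
      have : ContDiff ℝ ∞ (deriv^[k] rinv) := deriv_iter_cd contDiff_rinv k
      exact this.continuous
    obtain ⟨B, hB⟩ := isCompact_Icc.exists_bound_of_continuousOn (s := Icc (0 : ℝ) 2)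
      hc.continuousOn
    refine ⟨max (max B 0) (k.factorial : ℝ), fun u => ?_⟩
    rcases lt_trichotomy u 0 with hu | hu | hu
    · have h1 := iter_deriv_congr (f := rinv) (g := fun _ => 0) (s := Iio (0 : ℝ)) isOpen_Iio
        (fun x hx => rinv_zero (by have : x < 0 := hx; linarith)) k u hu
      have h2 : deriv^[k] (fun _ : ℝ => (0 : ℂ)) u = 0 := by
        have h3 : ∀ k : ℕ, deriv^[k] (fun _ : ℝ => (0 : ℂ)) = fun _ => 0 := by
          intro k
          induction k with
          | zero => rfl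
          | succ k ih =>
            rw [Function.iterate_succ_apply]
            have : deriv (fun _ : ℝ => (0 : ℂ)) = fun _ => 0 := by funext x; simp
            rw [this, ih]
        rw [h3]
      rw [h1, h2, norm_zero]
      exact (le_max_right _ _).trans (le_max_left _ _)
    · exact (hB u ⟨hu.ge, by linarith⟩).trans ((le_max_left _ _).trans (le_max_left _ _))
    · rcases le_or_gt u 2 with h2 | h2
      · exact (hB u ⟨hu.le, h2⟩).trans ((le_max_left _ _).trans (le_max_left _ _))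
      · have h1 := iter_deriv_congr (f := rinv) (g := fun v : ℝ => ((v : ℂ))⁻¹)
          (s := Ioi (1 : ℝ)) isOpen_Ioi (fun x hx => rinv_eq (le_of_lt hx)) k u
          (by show (1 : ℝ) < u; linarith)
        rw [h1, iter_deriv_cinv k u hu]
        refine le_trans ?_ (le_max_right _ _)
        rw [norm_mul, norm_mul, norm_pow, norm_neg, norm_one, one_pow, one_mul, norm_pow, norm_inv,
          Complex.norm_real, Complex.norm_natCast, Real.norm_of_nonneg hu.le]
        have h3 : (u⁻¹) ^ (k + 1) ≤ 1 := pow_le_one₀ (by positivity)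
          (inv_le_one_of_one_le₀ (by linarith))
        have h4 : (0 : ℝ) ≤ (k.factorial : ℝ) := by positivity
        nlinarith

end weights

end Crest.Agent.R017.PSup271
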