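import Crest.Agent.R017.TPP9_320

/-!
# Row 17, side-level rule (P) for a family of twists, part 1 (helper320)

* `MulT χ`     : `χ` is multiplicative on the primary elements and bounded by `1`
* `twt χ w`    : the twisted sequence `w χ`
* `VCt I χ K α = ∑ i ∈ I, VC K (α χ_i)`, `VGt I χ L α = ∑ i ∈ I, VG L (α χ_i)`
* `class_Ct`   : the dual sums of one dyadic class, all twists together
-/

set_option autoImplicit false

noncomputable section

open Complex MeasureTheory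
open scoped ComplexConjugate

namespace Crest.Agent.R017.PTw320

open Crest.Agent.R012 Crest.Agent.R012.Eis Crest.Agent.R012.LS2 Crest.Agent.R012.Gauss880
open Crest.Agent.R012.Div277 Crest.Agent.R012.CR2
open Crest.Agent.R017.PA842 (V Supp)
open Crest.Agent.R017.PM106 (DIM one_stepM integrable_DIM DIM_nonneg DIM_mono)
open Crest.Agent.R017.PI106 (DD DD_nonneg iterM)
open Crest.Agent.R017.CM106 (CS TG FS)
open Crest.Agent.R017.TP320

/-- multiplicative twists -/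
structure MulT (χ : Eis → ℂ) : Prop where
  mul : ∀ a b, IsPrim a → IsPrim b → χ (a * b) = χ a * χ b
  bd : ∀ a, IsPrim a → ‖χ a‖ ≤ 1

lemma mulT_sy (t : Eis) : MulT (fun n => sy t n) :=
  ⟨fun _ _ ha hb => Char766.sy_mul_right ha hb, fun _ ha => Char766.norm_sy_le ha⟩

/-- the twisted sequence -/
def twt (χ w : Eis → ℂ) (n : Eis) : ℂ := w n * χ n

/-- the character side, all twists -/
def VCt {ι : Type} (I : Finset ι) (χ : ι → Eis → ℂ) (K : ℝ) (α : Eis → ℂ) : ℝ :=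
  ∑ i ∈ I, VC K (twt (χ i) α)

/-- the Gauss side, all twists -/
def VGt {ι : Type} (I : Finset ι) (χ : ι → Eis → ℂ) (L : ℝ) (α : Eis → ℂ) : ℝ :=
  ∑ i ∈ I, VG L (twt (χ i) α)

lemma VGt_nonneg {ι : Type} (I : Finset ι) (χ : ι → Eis → ℂ) (L : ℝ) (α : Eis → ℂ) :
    0 ≤ VGt I χ L α := Finset.sum_nonneg fun _ _ => VG_nonneg _ _

lemma VGt_mono {ι : Type} (I : Finset ι) (χ : ι → Eis → ℂ) {K L : ℝ} (hK : 0 ≤ K) (h : K ≤ L)
    (α : Eis → ℂ) : VGt I χ K α ≤ VGt I χ L α :=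
  Finset.sum_le_sum fun _ _ => VG_mono hK h _

lemma supp_twt {w : Eis → ℂ} {X : ℝ} (χ : Eis → ℂ) (hw : Supp w X) : Supp (twt χ w) X := by
  intro h hh
  exact hw h (left_ne_zero_of_mul hh)

/-- **the dual sums of one dyadic class**, character side to Gauss side, all twists -/
theorem class_Ct {J : Type} {Φ : Fam J} {R A : ℝ} (hΦ : Φ.Ok R A) {σ ε C : ℝ}
    (hs : SplitAt Φ R A ε (1 / 2 - σ) C) (j : J) (q : Eis) {d e : Eis} (hd : IsPrim d)
    (he : IsPrim e) (i : ℕ) {L Dm B X : ℝ} (hL : 0 ≤ L) (hDm : 0 ≤ Dm) (hB : 0 ≤ B) (τ : ℝ)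
    {ι : Type} (I : Finset ι) {χ : ι → Eis → ℂ} (hχ : ∀ i, MulT (χ i))
    {Cf : Finset Eis}
    (hCf : ∀ f ∈ Cf, IsPrim f ∧ (i : ℝ) ≤ Real.log (nm f) ∧ Real.log (nm f) ≤ i + 1)
    (hX : Real.exp (Φ.len j + R) ≤ X)
    (hD : ∀ r ∈ bl (L * Real.exp (i + 1)), (tau r : ℝ) ≤ Dm)
    (hb : ∀ j', Φ.good j' → Φ.dom R j' j → Φ.len j' ≤ Φ.len j - (Real.log (nm d) + i) + R →
      Φ.len j - (Real.log (nm d) + i) - R - 1 ≤ Φ.len j' →
      Dm * VGt I χ (L * Real.exp (i + 1) * nm ((e * sq3) ^ 2)) (sq (q * d) (Φ.w j')) ≤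
        B * (Φ.ht j') ^ 2) :
    ∑ x ∈ I, ∑ f ∈ Cf, ∑ l ∈ bl L,
      ‖dsum (twt (χ x) (sq q (Φ.w j))) X d e f l (σ + τ * Complex.I)‖ ^ 2 ≤
      (C * Real.exp (ε * |Real.log (nm d) + i|) *
        Real.exp (-(1 / 2 - σ) * (Φ.len j - (Real.log (nm d) + i))) * (1 + |τ|) ^ A) ^ 2 * B *
        (Φ.ht j) ^ 2 := by
  classical
  have hht : ∀ j, 0 ≤ Φ.ht j := fun j => zero_le_one.trans (hΦ.ht1 j)
  have hR0 := hΦ.R0
  have hld := log_nm_nonneg' hd
  set α : ℝ := Real.log (nm d) + i with hα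
  have hα0 : 0 ≤ α := by positivity
  set X' : ℝ := max X (Real.exp (Φ.len j + 2 * R)) with hX'
  have hX0 : 0 ≤ X := (Real.exp_pos _).le.trans hX
  have hX'0 : 0 ≤ X' := hX0.trans (le_max_left _ _)
  set T : Finset (Eis × Eis) := ((Cf.image (fun f => d * f)) ×ˢ S X').filter
    (fun p => IsCoprime p.1 p.2) with hT
  set cd : Eis → Eis → Prop := fun a k => Squarefree a ∧ IsCoprime a q ∧ Squarefree k ∧
    IsCoprime k q with hcd
  set u : ι × (Eis × Eis) → Eis → Eis → ℂ := fun y a k =>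
    if a = d * y.2.1 ∧ cd a k then
      χ y.1 (a * k) * (sy (e * sq3) k * conj (sy (y.2.1 * y.2.2) k) * G k) else 0 with hu
  have hd0 := hd.ne_zero
  have hTm : ∀ p ∈ T, IsPrim p.1 ∧ IsPrim p.2 ∧ IsCoprime p.1 p.2 ∧
      α ≤ Real.log (nm p.1) ∧ Real.log (nm p.1) ≤ α + 1 := by
    intro p hp
    rw [hT, Finset.mem_filter, Finset.mem_product, Finset.mem_image, mem_S hX'0] at hp
    obtain ⟨⟨⟨f, hf, h1⟩, h2⟩, h3⟩ := hp
    obtain ⟨g1, g2, g3⟩ := hCf f hf
    rw [← h1] at h3 ⊢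
    have e1 : Real.log (nm (d * f)) = Real.log (nm d) + Real.log (nm f) := by
      rw [nm_mul]
      push_cast
      rw [Real.log_mul (by linarith [one_le_nm' hd]) (by linarith [one_le_nm' g1])]
    rw [e1]
    exact ⟨hd.mul g1, h2.2.1, h3, by linarith, by linarith⟩
  -- the sum over `T` for a fixed `f`
  have hsumT : ∀ (x : Eis × Eis → ℂ) (y : ι) (f l : Eis), f ∈ Cf →
      ∑ p ∈ T, x p * u (y, (f, l)) p.1 p.2 =
      ∑ k ∈ S X', (if IsCoprime (d * f) k ∧ cd (d * f) k then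
        x (d * f, k) * (χ y (d * f * k) *
          (sy (e * sq3) k * conj (sy (f * l) k) * G k)) else 0) := by
    intro x y f l hf
    rw [hT, Finset.sum_filter, Finset.sum_product, Finset.sum_eq_single (d * f)]
    · refine Finset.sum_congr rfl fun k _ => ?_
      have hu1 : u (y, (f, l)) (d * f) k =
          if cd (d * f) k then χ y (d * f * k) *
            (sy (e * sq3) k * conj (sy (f * l) k) * G k) else 0 := by
        simp only [hu, true_and]
      simp only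
      by_cases h1 : IsCoprime (d * f) k
      · by_cases h2 : cd (d * f) k
        · rw [if_pos h1, hu1, if_pos h2, if_pos ⟨h1, h2⟩]
        · rw [if_pos h1, hu1, if_neg h2, if_neg (fun h => h2 h.2), mul_zero]
      · rw [if_neg h1, if_neg (fun h => h1 h.1)]
    · intro b _ hb
      apply Finset.sum_eq_zero
      intro k _
      simp only [hu]
      rw [if_neg (fun h : b = d * f ∧ cd b k => hb h.1), mul_zero, ite_self]
    · intro h
      exact absurd (Finset.mem_image_of_mem _ hf) h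
  have hprod : ∑ x ∈ I, ∑ f ∈ Cf, ∑ l ∈ bl L,
      ‖dsum (twt (χ x) (sq q (Φ.w j))) X d e f l (σ + τ * Complex.I)‖ ^ 2 =
      ∑ y ∈ I ×ˢ (Cf ×ˢ bl L),
        ‖dsum (twt (χ y.1) (sq q (Φ.w j))) X d e y.2.1 y.2.2 (σ + τ * Complex.I)‖ ^ 2 := by
    rw [Finset.sum_product]
    refine Finset.sum_congr rfl fun x _ => ?_
    rw [Finset.sum_product]
  rw [hprod]
  have key := split_sq hs hht j α τ (I ×ˢ (Cf ×ˢ bl L)) T u hB hTm ?_
  · refine le_trans (le_of_eq ?_) key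
    refine Finset.sum_congr rfl fun y hy => ?_
    rw [Finset.mem_product, Finset.mem_product] at hy
    obtain ⟨-, hfl⟩ := hy
    congr 2
    have h1 := hsumT (fun p => Φ.w j (p.1 * p.2) * tw (1 / 2 - σ) τ p.2) y.1 y.2.1 y.2.2 hfl.1
    simp only at h1
    have hf1 := (hCf _ hfl.1).1
    have h2 : ∑ p ∈ T, Φ.w j (p.1 * p.2) * tw (1 / 2 - σ) τ p.2 * u y p.1 p.2 =
        ∑ k ∈ S X', (if IsCoprime (d * y.2.1) k ∧ cd (d * y.2.1) k then
        Φ.w j (d * y.2.1 * k) * tw (1 / 2 - σ) τ k * (χ y.1 (d * y.2.1 * k) *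
          (sy (e * sq3) k * conj (sy (y.2.1 * y.2.2) k) * G k)) else 0) := h1
    rw [h2]
    unfold dsum twt
    have h3 : ∑ k ∈ S X, sq q (Φ.w j) (d * y.2.1 * k) * χ y.1 (d * y.2.1 * k) *
        (sy (e * sq3) k * conj (sy (y.2.1 * y.2.2) k) * G k) *
        (nm k : ℂ) ^ ((σ : ℂ) + τ * Complex.I - 1 / 2) =
        ∑ k ∈ S X', sq q (Φ.w j) (d * y.2.1 * k) * χ y.1 (d * y.2.1 * k) *
        (sy (e * sq3) k * conj (sy (y.2.1 * y.2.2) k) * G k) *
        (nm k : ℂ) ^ ((σ : ℂ) + τ * Complex.I - 1 / 2) := by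
      apply Finset.sum_subset
      · intro k hk
        rw [mem_S hX0] at hk
        rw [mem_S hX'0]
        exact ⟨hk.1.trans (le_max_left _ _), hk.2⟩
      · intro k hk hk'
        rw [mem_S hX'0] at hk
        have h4 : sq q (Φ.w j) (d * y.2.1 * k) = 0 := by
          by_contra h0
          apply hk'
          have h5 := supp_sq hΦ q j hX _ h0
          rw [mem_S hX0] at h5 ⊢
          refine ⟨?_, hk.2⟩
          refine le_trans ?_ h5.1
          have hdf := one_le_nm' (hd.mul hf1)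
          rw [nm_mul (d * y.2.1) k]
          push_cast
          have : (0 : ℝ) ≤ nm k := Nat.cast_nonneg _
          nlinarith
        rw [h4]; ring
    rw [h3]
    refine Finset.sum_congr rfl fun k hk => ?_
    rw [mem_S hX'0] at hk
    rw [tw_cpow]
    by_cases hc : IsCoprime (d * y.2.1) k
    · rw [sq_mul_eq _ (hd.mul hf1) hk.2.1 hc]
      by_cases h4 : cd (d * y.2.1) k
      · rw [if_pos h4, if_pos ⟨hc, h4⟩]; ring
      · rw [if_neg h4, if_neg (fun h => h4 h.2)]; ring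
    · rw [sq_mul_not_cop _ hc, if_neg (fun h => hc h.1)]; ring
  · intro κ hκ j' hg' hd' hl' hm'
    have h1 := hb j' hg' hd' hl' hm'
    refine le_trans ?_ h1
    have hsupp0 : Supp (sq (q * d) (Φ.w j')) X' :=
      supp_sq hΦ (q * d) j' ((Real.exp_le_exp.2 (by linarith)).trans (le_max_right _ _))
    rw [Finset.sum_product]
    unfold VGt
    rw [Finset.mul_sum]
    refine Finset.sum_le_sum fun y _ => ?_
    have hsupp : Supp (twt (χ y) (sq (q * d) (Φ.w j'))) X' := supp_twt _ hsupp0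
    set F : Eis → ℝ := fun r => ‖TG (twt (χ y) (sq (q * d) (Φ.w j'))) r‖ ^ 2 with hF
    have hmerge := merge_TG hL (Real.exp_pos (i + 1)).le hDm ((e * sq3) ^ 2)
      (pow_ne_zero _ (mul_ne_zero he.ne_zero sq3_ne_zero')) (Bs := Cf) (by
        intro f hf
        obtain ⟨g1, g2, g3⟩ := hCf f hf
        refine ⟨g1, ?_⟩
        rw [← Real.exp_log (by linarith [one_le_nm' g1] : (0 : ℝ) < nm f)]
        exact Real.exp_le_exp.2 g3) F (fun r => by positivity) hD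
    refine le_trans ?_ hmerge
    rw [Finset.sum_product]
    refine Finset.sum_le_sum fun f hf => Finset.sum_le_sum fun l _ => ?_
    have h2 := hsumT (fun p => κ p.1 * Φ.w j' p.2) y f l hf
    simp only at h2
    rw [h2]
    have hf1 := (hCf _ hf).1
    have h3 : ∑ k ∈ S X', (if IsCoprime (d * f) k ∧ cd (d * f) k then
        κ (d * f) * Φ.w j' k * (χ y (d * f * k) *
          (sy (e * sq3) k * conj (sy (f * l) k) * G k)) else 0) =
        (κ (d * f) * χ y (d * f) * (if Squarefree (d * f) ∧ IsCoprime (d * f) q then 1 else 0)) *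
          TG (twt (χ y) (sq (q * d) (Φ.w j'))) (l * f * (e * sq3) ^ 2) := by
      rw [TG_eq_sum' hsupp, Finset.mul_sum]
      refine Finset.sum_congr rfl fun k hk => ?_
      rw [mem_S hX'0] at hk
      rw [← dual_char hk.2.1 e f l, (hχ y).mul _ _ (hd.mul hf1) hk.2.1]
      simp only [hcd, TP320.sq, twt]
      by_cases h4 : Squarefree (d * f) ∧ IsCoprime (d * f) q
      · rw [if_pos h4]
        by_cases h5 : IsCoprime k (q * d)
        · rw [if_pos (⟨hk.2.1, hk.2.2, h5⟩ : IsPrim k ∧ Squarefree k ∧ IsCoprime k (q * d))]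
          by_cases h6 : IsCoprime f k
          · rw [if_pos ⟨h5.of_mul_right_right.symm.mul_left h6, h4.1, h4.2, hk.2.2,
              h5.of_mul_right_left⟩]
            ring
          · rw [if_neg (fun h => h6 h.1.of_mul_left_right)]
            have h7 : sy (f * l) k = 0 :=
              (syG.eq_zero (f * l) k hk.2.1).2 (fun h => h6 h.of_mul_left_left)
            rw [h7]
            simp
        · have h8 : ¬ (IsPrim k ∧ Squarefree k ∧ IsCoprime k (q * d)) := fun h => h5 h.2.2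
          rw [if_neg h8, if_neg (fun h => h5 (h.2.2.2.2.mul_right
            h.1.of_mul_left_left.symm))]
          ring
      · rw [if_neg h4, if_neg (fun h => h4 ⟨h.2.1, h.2.2.1⟩)]
        ring
    rw [h3, norm_mul, mul_pow]
    have h5 : ‖κ (d * f) * χ y (d * f) *
        (if Squarefree (d * f) ∧ IsCoprime (d * f) q then 1 else 0)‖ ≤ 1 := by
      have h6 : ‖κ (d * f) * χ y (d * f)‖ ≤ 1 := by
        rw [norm_mul]
        exact mul_le_one₀ (hκ _) (norm_nonneg _) ((hχ y).bd _ (hd.mul hf1))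
      split_ifs
      · rw [mul_one]; exact h6
      · simp
    calc _ ≤ 1 ^ 2 * ‖TG (twt (χ y) (sq (q * d) (Φ.w j'))) (l * f * (e * sq3) ^ 2)‖ ^ 2 := by
          gcongr
      _ = _ := by rw [one_pow, one_mul]

/-- integration of the class bound -/
lemma DIM_sum_let {M : ℕ} {A δ : ℝ} (hM1 : 1 ≤ M) (hM : A + 1 ≤ M) {ι : Type} (I : Finset ι)
    {w : ι → Eis → ℂ} {X L E : ℝ} (hX : 0 ≤ X) {d e : Eis} (Cf : Finset Eis)
    (h : ∀ τ : ℝ, ∑ x ∈ I, ∑ f ∈ Cf, ∑ l ∈ bl L,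
      ‖dsum (w x) X d e f l (δ + τ * Complex.I)‖ ^ 2 ≤ E * ((1 + |τ|) ^ A) ^ 2) :
    ∑ x ∈ I, ∑ f ∈ Cf, DIM M δ (w x) X d e f L ≤ E * IM M A := by
  unfold PM106.DIM IM
  have e1 : ∀ x ∈ I, ∑ f ∈ Cf, ∫ t : ℝ, ((1 + t ^ 2) ^ M)⁻¹ * ∑ l ∈ bl L,
      ‖dsum (w x) X d e f l (δ + t * Complex.I)‖ ^ 2 =
      ∫ t : ℝ, ∑ f ∈ Cf, ((1 + t ^ 2) ^ M)⁻¹ * ∑ l ∈ bl L,
        ‖dsum (w x) X d e f l (δ + t * Complex.I)‖ ^ 2 := fun x _ =>
    (integral_finsetSum _ fun f _ => integrable_DIM hM1 δ hX (w x) d e f L).symm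
  have hint : ∀ x, Integrable fun t : ℝ => ∑ f ∈ Cf, ((1 + t ^ 2) ^ M)⁻¹ * ∑ l ∈ bl L,
        ‖dsum (w x) X d e f l (δ + t * Complex.I)‖ ^ 2 := fun x =>
    integrable_finsetSum _ fun f _ => integrable_DIM hM1 δ hX (w x) d e f L
  rw [Finset.sum_congr rfl e1, ← integral_finsetSum _ fun x _ => hint x, ← integral_const_mul]
  refine integral_mono (integrable_finsetSum _ fun x _ => hint x)
    ((integrable_IM hM).const_mul _) (fun τ => ?_)
  simp only
  have e2 : ∑ x ∈ I, ∑ f ∈ Cf, ((1 + τ ^ 2) ^ M)⁻¹ * ∑ l ∈ bl L,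
      ‖dsum (w x) X d e f l (δ + τ * Complex.I)‖ ^ 2 = ((1 + τ ^ 2) ^ M)⁻¹ *
      ∑ x ∈ I, ∑ f ∈ Cf, ∑ l ∈ bl L, ‖dsum (w x) X d e f l (δ + τ * Complex.I)‖ ^ 2 := by
    rw [Finset.mul_sum]
    refine Finset.sum_congr rfl fun x _ => ?_
    rw [Finset.mul_sum]
  rw [e2]
  calc ((1 + τ ^ 2) ^ M)⁻¹ * ∑ x ∈ I, ∑ f ∈ Cf, ∑ l ∈ bl L,
        ‖dsum (w x) X d e f l (δ + τ * Complex.I)‖ ^ 2
      ≤ ((1 + τ ^ 2) ^ M)⁻¹ * (E * ((1 + |τ|) ^ A) ^ 2) := by
        have := h τ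
        gcongr
    _ = _ := by ring

/-- the dual terms with gcd `d`, character side, all twists -/
theorem dual_main_Ct {J : Type} {Φ : Fam J} {R A : ℝ} (hΦ : Φ.Ok R A) {δ Cs : ℝ} (hδ : 0 < δ)
    {M : ℕ} (hM1 : 1 ≤ M) (hM : A + 1 ≤ M) (hCs : 0 ≤ Cs)
    (hs : SplitAt Φ R A δ (1 / 2 - δ) Cs) (j : J) (q : Eis) {d e : Eis} (hd : IsPrim d)
    (he : IsPrim e) {ι : Type} (I : Finset ι) {χ : ι → Eis → ℂ} (hχ : ∀ i, MulT (χ i))
    {L Dm X K n1 a : ℝ} (hL : 0 ≤ L) (hDm : 0 ≤ Dm) (hK : 0 ≤ K) (ha : 0 ≤ a)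
    (hX1 : 1 ≤ X) (hX : Real.exp (Φ.len j + R) ≤ X)
    (hD : ∀ r : Eis, r ≠ 0 → (nm r : ℝ) ≤ L * (Real.exp 1 * X) → (tau r : ℝ) ≤ Dm)
    (hb : ∀ i : ℕ, (i : ℝ) ≤ Real.log X → ∀ j', Φ.good j' → Φ.dom R j' j →
      Φ.len j' ≤ Φ.len j - (Real.log (nm d) + i) + R →
      Φ.len j - (Real.log (nm d) + i) - R - 1 ≤ Φ.len j' →
      VGt I χ (L * Real.exp (i + 1) * nm ((e * sq3) ^ 2)) (sq (q * d) (Φ.w j')) ≤
        a * Real.exp (i + n1 + Φ.len j') * (Φ.ht j') ^ 2) :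
    ∑ x ∈ I, ∑ f ∈ S X, K / nm f * DIM M δ (twt (χ x) (sq q (Φ.w j))) X d e f L ≤
      K * a * Real.exp n1 * (Cs ^ 2 * Real.exp R * IM M A) * Dm * Real.exp (2 * δ * Φ.len j) *
        (Real.log X + 1) * (Φ.ht j) ^ 2 := by
  classical
  have hht : ∀ j, 0 ≤ Φ.ht j := fun j => zero_le_one.trans (hΦ.ht1 j)
  have hX0 : 0 ≤ X := by linarith
  have hlX : 0 ≤ Real.log X := Real.log_nonneg hX1
  have hld := log_nm_nonneg' hd
  set N := ⌊Real.log X⌋₊ with hN
  have hmaps : ∀ f ∈ S X, ⌊Real.log (nm f)⌋₊ ∈ Finset.range (N + 1) := by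
    intro f hf
    have hf' := (mem_S hX0).1 hf
    rw [Finset.mem_range, Nat.lt_succ_iff]
    apply Nat.floor_le_floor
    exact Real.log_le_log (by linarith [one_le_nm' hf'.2.1]) hf'.1
  have hfib : ∀ x ∈ I, ∑ f ∈ S X, K / nm f * DIM M δ (twt (χ x) (sq q (Φ.w j))) X d e f L =
      ∑ i ∈ Finset.range (N + 1), ∑ f ∈ (S X).filter (fun f => ⌊Real.log (nm f)⌋₊ = i),
        K / nm f * DIM M δ (twt (χ x) (sq q (Φ.w j))) X d e f L := fun x _ =>
    (Finset.sum_fiberwise_of_maps_to hmaps _).symm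
  rw [Finset.sum_congr rfl hfib, Finset.sum_comm]
  set Q : ℝ := K * a * Real.exp n1 * (Cs ^ 2 * Real.exp R * IM M A) * Dm *
    Real.exp (2 * δ * Φ.len j) * (Φ.ht j) ^ 2 with hQ
  have hQ0 : 0 ≤ Q := by
    have := IM_nonneg M A
    rw [hQ]; positivity
  have hcls : ∀ i ∈ Finset.range (N + 1),
      ∑ x ∈ I, ∑ f ∈ (S X).filter (fun f => ⌊Real.log (nm f)⌋₊ = i),
        K / nm f * DIM M δ (twt (χ x) (sq q (Φ.w j))) X d e f L ≤ Q := by
    intro i hi
    rw [Finset.mem_range, Nat.lt_succ_iff] at hi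
    have hiX : (i : ℝ) ≤ Real.log X := (Nat.cast_le.2 hi).trans (Nat.floor_le hlX)
    set Cf := (S X).filter (fun f => ⌊Real.log (nm f)⌋₊ = i) with hCf
    have hCfm : ∀ f ∈ Cf, IsPrim f ∧ (i : ℝ) ≤ Real.log (nm f) ∧ Real.log (nm f) ≤ i + 1 := by
      intro f hf
      rw [hCf, Finset.mem_filter, mem_S hX0] at hf
      refine ⟨hf.1.2.1, ?_, ?_⟩
      · rw [← hf.2]; exact Nat.floor_le (log_nm_nonneg' hf.1.2.1)
      · rw [← hf.2]; exact (Nat.lt_floor_add_one _).le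
    set α : ℝ := Real.log (nm d) + i with hα
    have hα0 : 0 ≤ α := by positivity
    set B : ℝ := Dm * (a * Real.exp (i + n1 + (Φ.len j - α + R))) with hB
    have hB0 : 0 ≤ B := by positivity
    have hexpi : Real.exp ((i : ℝ) + 1) ≤ Real.exp 1 * X := by
      rw [add_comm, Real.exp_add]
      apply mul_le_mul_of_nonneg_left _ (Real.exp_pos _).le
      calc Real.exp (i : ℝ) ≤ Real.exp (Real.log X) := Real.exp_le_exp.2 hiX
        _ = X := Real.exp_log (by linarith)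
    have hcl := fun τ => class_Ct hΦ hs j q hd he i hL hDm hB0 τ I hχ hCfm hX (by
        intro r hr
        rw [mem_bl (by positivity)] at hr
        exact hD r hr.1 (hr.2.trans (mul_le_mul_of_nonneg_left hexpi hL))) (by
        intro j' hg hdm hl hm
        have h1 := hb i hiX j' hg hdm hl hm
        have h2 : Real.exp (i + n1 + Φ.len j') ≤ Real.exp (i + n1 + (Φ.len j - α + R)) :=
          Real.exp_le_exp.2 (by linarith)
        have hh := hht j'
        calc Dm * VGt I χ (L * Real.exp (i + 1) * nm ((e * sq3) ^ 2)) (sq (q * d) (Φ.w j'))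
            ≤ Dm * (a * Real.exp (i + n1 + Φ.len j') * (Φ.ht j') ^ 2) := by gcongr
          _ ≤ Dm * (a * Real.exp (i + n1 + (Φ.len j - α + R)) * (Φ.ht j') ^ 2) := by gcongr
          _ = _ := by rw [hB]; ring)
    have hDIM := DIM_sum_let (A := A) (E := (Cs * Real.exp (δ * |α|) *
        Real.exp (-(1 / 2 - δ) * (Φ.len j - α))) ^ 2 * B * (Φ.ht j) ^ 2) hM1 hM I
        (w := fun x => twt (χ x) (sq q (Φ.w j))) (L := L) hX0 (d := d) (e := e) (δ := δ) Cf (by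
        intro τ
        refine (hcl τ).trans (le_of_eq ?_)
        ring)
    have hstep : ∑ x ∈ I, ∑ f ∈ Cf, K / nm f * DIM M δ (twt (χ x) (sq q (Φ.w j))) X d e f L ≤
        K * Real.exp (-(i : ℝ)) * ∑ x ∈ I, ∑ f ∈ Cf,
          DIM M δ (twt (χ x) (sq q (Φ.w j))) X d e f L := by
      rw [Finset.mul_sum]
      refine Finset.sum_le_sum fun x _ => ?_
      rw [Finset.mul_sum]
      refine Finset.sum_le_sum fun f hf => ?_
      refine mul_le_mul_of_nonneg_right ?_ (DIM_nonneg _ _ _ _ _ _ _ _)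
      obtain ⟨g1, g2, g3⟩ := hCfm f hf
      have hn := one_le_nm' g1
      rw [div_eq_mul_inv]
      apply mul_le_mul_of_nonneg_left _ hK
      rw [Real.exp_neg]
      apply inv_anti₀ (Real.exp_pos _)
      rw [← Real.exp_log (by linarith : (0 : ℝ) < nm f)]
      exact Real.exp_le_exp.2 g2
    refine hstep.trans ((mul_le_mul_of_nonneg_left hDIM (by positivity)).trans (le_of_eq ?_))
    rw [hQ, hB, abs_of_nonneg hα0]
    have e1 : (Cs * Real.exp (δ * α) * Real.exp (-(1 / 2 - δ) * (Φ.len j - α))) ^ 2 =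
        Cs ^ 2 * (Real.exp (δ * α + (-(1 / 2 - δ) * (Φ.len j - α)))) ^ 2 := by
      rw [Real.exp_add]; ring
    rw [e1, ← Real.exp_nat_mul]
    have e2 : Real.exp (-(i : ℝ)) * (Real.exp (((2 : ℕ) : ℝ) *
        (δ * α + (-(1 / 2 - δ) * (Φ.len j - α)))) * Real.exp (i + n1 + (Φ.len j - α + R))) =
        Real.exp n1 * Real.exp R * Real.exp (2 * δ * Φ.len j) := by
      rw [← Real.exp_add, ← Real.exp_add, ← Real.exp_add, ← Real.exp_add]
      congr 1
      push_cast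
      ring
    calc K * Real.exp (-(i : ℝ)) * (Cs ^ 2 * Real.exp (((2 : ℕ) : ℝ) *
        (δ * α + (-(1 / 2 - δ) * (Φ.len j - α)))) *
          (Dm * (a * Real.exp (i + n1 + (Φ.len j - α + R)))) * (Φ.ht j) ^ 2 * IM M A)
        = K * a * Cs ^ 2 * Dm * (Φ.ht j) ^ 2 * IM M A * (Real.exp (-(i : ℝ)) *
          (Real.exp (((2 : ℕ) : ℝ) * (δ * α + (-(1 / 2 - δ) * (Φ.len j - α)))) *
          Real.exp (i + n1 + (Φ.len j - α + R)))) := by ring
      _ = _ := by rw [e2]; ring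
  refine (Finset.sum_le_sum hcls).trans ?_
  rw [Finset.sum_const, Finset.card_range, nsmul_eq_mul]
  have hNX : ((N + 1 : ℕ) : ℝ) ≤ Real.log X + 1 := by
    push_cast
    linarith [Nat.floor_le hlX]
  calc ((N + 1 : ℕ) : ℝ) * Q ≤ (Real.log X + 1) * Q := by gcongr
    _ = _ := by rw [hQ]; ring

end Crest.Agent.R017.PTw320
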