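import Crest.Agent.R017.PTw1_320

/-!
# Row 17, side-level rule (P) for a family of twists, part 2 (helper320)

* `HypGt` : the hypothesis on the Gauss side, `PT_rule` : the rule
-/

set_option autoImplicit false
set_option linter.unusedVariables false

noncomputable section

open Complex MeasureTheory
open scoped ComplexConjugate

namespace Crest.Agent.R017.PTw320

open Crest.Agent.R012 Crest.Agent.R012.Eis Crest.Agent.R012.LS2 Crest.Agent.R012.Gauss880
open Crest.Agent.R012.Div277 Crest.Agent.R012.CR2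
open Crest.Agent.R017.PA842 (V Supp)
open Crest.Agent.R017.PM106 (DIM one_stepM integrable_DIM DIM_nonneg DIM_mono)
open Crest.Agent.R017.PI106 (DD DD_nonneg iterM)
open Crest.Agent.R017.CM106 (CS TG FS)
open Crest.Agent.R017.TP320 hiding sq

set_option maxHeartbeats 1000000

local notation "sq" => TP320.sq

/-- the hypothesis of (P), Gauss side, all twists -/
def HypGt {ι : Type} (I : Finset ι) (χ : ι → Eis → ℂ) {J : Type} (Φ : Fam J)
    (C r ε X0 K a : ℝ) (j : J) (q : Eis) : Prop :=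
  ∀ (j' : J) (q' : Eis) (n1 φ : ℝ), Φ.good j' → Φ.dom r j' j → 0 ≤ φ → n1 ≤ Φ.len j + r →
    Φ.len j' ≤ n1 - φ + r → n1 - φ - r - ε * Real.log X0 ≤ Φ.len j' →
    IsPrim q' → q ∣ q' → (nm q' : ℝ) ≤ C * nm q * X0 ^ 2 → K ≤ C * Real.exp (2 * n1) →
    φ ≤ Real.log X0 + r →
    VGt I χ (C * X0 ^ ε * Real.exp (φ + 2 * n1) / K) (sq q' (Φ.w j')) ≤
      a * Real.exp (φ + n1 + Φ.len j') * (Φ.ht j') ^ 2

/-- one common divisor, long dual sums -/
lemma DD_main_t {J : Type} {Φ : Fam J} {R A : ℝ} (hΦ : Φ.Ok R A) {δ ε Cs Cτ : ℝ} (hδ : 0 < δ)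
    (hδ1 : δ ≤ 1 / 2) (hδε : 4 * δ ≤ ε) {M : ℕ} (hM1 : 1 ≤ M) (hM : A + 1 ≤ M) (hCs : 0 ≤ Cs)
    (hs : SplitAt Φ R A δ (1 / 2 - δ) Cs) (hCτ : 1 ≤ Cτ)
    (hτ : ∀ n : Eis, n ≠ 0 → (tau n : ℝ) ≤ Cτ * (nm n : ℝ) ^ δ) (j : J) {q : Eis}
    (hq : IsPrim q) {ι : Type} (I : Finset ι) {χ : ι → Eis → ℂ} (hχ : ∀ i, MulT (χ i)) {X0 K X a : ℝ} (hS : Sc2 δ R X0 K X) (hX : X = Real.exp (Φ.len j + R))
    (ha : 0 ≤ a) {CG r : ℝ} (hr : 3 * R + 1 ≤ r) (hCG : 18 * Real.exp (1 + 3 * R) ≤ CG)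
    (HG : HypGt I χ Φ CG r ε X0 K a j q) {g : Eis} (hg : g ∈ S X) (hKg : K ≤ (X / nm g) ^ 2) :
    ∑ x ∈ I, DD M δ (X / nm g) K (X ^ δ) δ (PA842.sub (twt (χ x) (sq q (Φ.w j))) g) ≤
      256 * (X ^ δ) ^ 2 * (K * a * (X / nm g) * (Cs ^ 2 * Real.exp R * IM M A) *
        (Cτ * (2 * Real.exp (1 + 4 * R)) * (X0 ^ δ) ^ 4) * Real.exp (2 * δ * Φ.len j) *
        (Real.log X + 1) * (Φ.ht j) ^ 2) := by
  classical
  obtain ⟨f1, f2, f3, f4, f5⟩ := hS.facts hδ (by linarith) hΦ.R0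
  have hR := hΦ.R0
  have hK1 := hS.hK1
  have hX1 := hS.hX1
  have hX0 := hS.hX0
  have hXn : 0 ≤ X := by linarith
  have hg' := (mem_S hXn).1 hg
  have hgp := hg'.2.1
  have hg1 := one_le_nm' hgp
  have hgX := hg'.1
  set X' : ℝ := X / nm g with hX'
  have hX'1 : 1 ≤ X' := by rw [hX', le_div_iff₀ (by linarith)]; linarith
  have hX'X : X' ≤ X := div_le_self hXn hg1
  have hX'n : 0 ≤ X' := by linarith
  set Y : ℝ := X ^ δ with hY
  have hY1 : 1 ≤ Y := Real.one_le_rpow hX1 hδ.le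
  set W : ℝ := X0 ^ δ with hW
  have hsupp : Supp (sq q (Φ.w j)) X := supp_sq hΦ q j (by rw [hX])
  have hIM := IM_nonneg M A
  have hlogX : 0 ≤ Real.log X := Real.log_nonneg hX1
  -- the parameter
  set n1 : ℝ := Real.log X' with hn1
  have hexpn : Real.exp n1 = X' := Real.exp_log (by linarith)
  have hn1' : n1 = Φ.len j + R - Real.log (nm g) := by
    rw [hn1, hX', Real.log_div (by linarith) (by linarith), hX, Real.log_exp]
  have hexp2 : Real.exp (2 * n1) = X' ^ 2 := by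
    rw [two_mul, Real.exp_add, hexpn]; ring
  have hlg := log_nm_nonneg' hgp
  have hlogX0 : 0 ≤ Real.log X0 := Real.log_nonneg (by linarith)
  have hlogXX : Real.log X ≤ R + Real.log X0 := by
    have : Real.log X ≤ Real.log (Real.exp R * X0) := Real.log_le_log (by linarith) hS.hXX
    rwa [Real.log_mul (Real.exp_pos _).ne' (by linarith), Real.log_exp] at this
  set Q : ℝ := K * a * X' * (Cs ^ 2 * Real.exp R * IM M A) *
        (Cτ * (2 * Real.exp (1 + 4 * R)) * W ^ 4) * Real.exp (2 * δ * Φ.len j) *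
        (Real.log X + 1) * (Φ.ht j) ^ 2 with hQ
  have hQ0 : 0 ≤ Q := by
    have h1 : 0 ≤ Cs ^ 2 * Real.exp R * IM M A := mul_nonneg (by positivity) hIM
    have h2 : 0 ≤ K * a * X' := by positivity
    have h3 : 0 ≤ Real.log X + 1 := by linarith
    rw [hQ]; positivity
  have hsx : ∀ x, Supp (twt (χ x) (sq q (Φ.w j))) X := fun x => supp_twt _ hsupp
  have hswap : ∑ x ∈ I, DD M δ X' K Y δ (PA842.sub (twt (χ x) (sq q (Φ.w j))) g) =
      ∑ d ∈ (S X').filter (fun d => (nm d : ℝ) ≤ Y), ∑ e ∈ (S X').filter (· ∣ d), ∑ x ∈ I,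
        ∑ f ∈ S X', K / nm f * DIM M δ (PA842.sub (twt (χ x) (sq q (Φ.w j))) g) X' d e f
          (Lde X' K δ d e) := by
    unfold PI106.DD
    rw [Finset.sum_comm]
    refine Finset.sum_congr (by congr) fun d _ => ?_
    rw [Finset.sum_comm]
  rw [hswap]
  refine card_de hY1 Q hQ0 _ _ (fun d hd => ?_) (fun d hd e he => ?_) _ ?_
  · have := mem_de hX'n hd
    exact ⟨this.1, this.2.1⟩
  · have h1 := mem_de hX'n hd
    rw [Finset.mem_filter, mem_S hX'n] at he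
    exact ⟨he.1.2.1, by exact_mod_cast nm_le_of_dvd h1.1.ne_zero he.2⟩
  intro d hd e he
  have hd' := mem_de hX'n hd
  have hdp := hd'.1
  have he' : IsPrim e ∧ (nm e : ℝ) ≤ nm d := by
    rw [Finset.mem_filter, mem_S hX'n] at he
    exact ⟨he.1.2.1, by exact_mod_cast nm_le_of_dvd hdp.ne_zero he.2⟩
  have hep := he'.1
  have hd1 := one_le_nm' hdp
  have he1 := one_le_nm' hep
  have hld := log_nm_nonneg' hdp
  have hL0 : 0 ≤ Lde X' K δ d e := PA842.Lde_nonneg hX'n (by linarith) _ _ _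
  have hLb := Lde_le2 hδ hK1 hX'1 hX'X hKg hdp he'.2
  -- transfer to the full sequence
  have hstep : ∑ x ∈ I, ∑ f ∈ S X', K / nm f * DIM M δ (PA842.sub (twt (χ x) (sq q (Φ.w j))) g)
        X' d e f (Lde X' K δ d e) ≤
      ∑ x ∈ I, ∑ f ∈ S X, K / nm f * DIM M δ (twt (χ x) (sq q (Φ.w j))) X (g * d) e f
        (Lde X' K δ d e) := by
    refine Finset.sum_le_sum fun x _ => ?_
    have h1 : ∑ f ∈ S X', K / nm f * DIM M δ (PA842.sub (twt (χ x) (sq q (Φ.w j))) g) X' d e f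
        (Lde X' K δ d e) =
        ∑ f ∈ S X', K / nm f * DIM M δ (twt (χ x) (sq q (Φ.w j))) X (g * d) e f
          (Lde X' K δ d e) := by
      refine Finset.sum_congr rfl fun f hf => ?_
      rw [DIM_sub hXn (hsx x) hgp hdp ((mem_S hX'n).1 hf).2.1]
    rw [h1]
    refine Finset.sum_le_sum_of_subset_of_nonneg ?_ fun f _ _ =>
      mul_nonneg (by positivity) (DIM_nonneg _ _ _ _ _ _ _ _)
    intro k hk
    rw [mem_S hX'n] at hk
    rw [mem_S hXn]
    exact ⟨hk.1.trans hX'X, hk.2⟩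
  refine hstep.trans ?_
  have hmain := dual_main_Ct hΦ hδ hM1 hM hCs hs j q (hgp.mul hdp) hep I hχ (L := Lde X' K δ d e) hL0
    (Dm := Cτ * (2 * Real.exp (1 + 4 * R)) * W ^ 4) (by positivity) (by linarith : 0 ≤ K) ha hX1
    (le_of_eq hX.symm) (n1 := n1) ?_ ?_
  · rw [hexpn] at hmain
    exact hmain
  · -- the divisor function
    intro s hs0 hsn
    have hKX := hS.hKX
    have h1 : (nm s : ℝ) ≤ 2 * Real.exp (1 + 4 * R) * X0 ^ 4 := by
      have hYX : Y ≤ X := by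
        rw [hY]
        calc X ^ δ ≤ X ^ (1 : ℝ) := Real.rpow_le_rpow_of_exponent_le hX1 (by linarith)
          _ = X := Real.rpow_one _
      have hKd : K ^ δ ≤ K := by
        calc K ^ δ ≤ K ^ (1 : ℝ) := Real.rpow_le_rpow_of_exponent_le hK1 (by linarith)
          _ = K := Real.rpow_one _
      calc (nm s : ℝ) ≤ Lde X' K δ d e * (Real.exp 1 * X) := hsn
        _ ≤ (Y * K ^ δ * (2 * (X' ^ 2 / K))) * (Real.exp 1 * X) := by gcongr
        _ ≤ (X * K * (2 * (X ^ 2 / K))) * (Real.exp 1 * X) := by gcongr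
        _ = 2 * Real.exp 1 * X ^ 4 := by field_simp
        _ ≤ 2 * Real.exp 1 * (Real.exp R * X0) ^ 4 := by
            have := hS.hXX
            gcongr
        _ = _ := by
            rw [mul_pow, ← Real.exp_nat_mul, Real.exp_add]; push_cast; ring
    set c5 : ℝ := 2 * Real.exp (1 + 4 * R) with hc5
    have hc51 : 1 ≤ c5 := by
      have : 1 ≤ Real.exp (1 + 4 * R) := Real.one_le_exp (by linarith)
      linarith
    calc (tau s : ℝ) ≤ Cτ * (nm s : ℝ) ^ δ := hτ s hs0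
      _ ≤ Cτ * (c5 * X0 ^ 4) ^ δ := by gcongr
      _ = Cτ * (c5 ^ δ * W ^ 4) := by
          rw [Real.mul_rpow (by linarith) (by positivity), hW,
            ← Real.rpow_natCast (X0 ^ δ), ← Real.rpow_natCast X0, ← Real.rpow_mul (by linarith),
            ← Real.rpow_mul (by linarith), mul_comm δ]
      _ ≤ Cτ * (c5 * W ^ 4) := by
          have : c5 ^ δ ≤ c5 ^ (1 : ℝ) := Real.rpow_le_rpow_of_exponent_le hc51 (by linarith)
          rw [Real.rpow_one] at this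
          gcongr
      _ = _ := by ring
  · -- the hypothesis
    intro i hi j' hgood hdm hl hm
    have hlgd : Real.log (nm (g * d)) = Real.log (nm g) + Real.log (nm d) := by
      rw [nm_mul]; push_cast; rw [Real.log_mul (by linarith) (by linarith)]
    rw [hlgd] at hl hm
    have hdlog : Real.log (nm d) ≤ δ * Real.log X := by
      have h1 : Real.log (nm d) ≤ Real.log (X ^ δ) := Real.log_le_log (by linarith) hd'.2.1
      rwa [Real.log_rpow (by linarith)] at h1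
    have hi0 : (0 : ℝ) ≤ i := Nat.cast_nonneg i
    have key := HG j' (q * (g * d)) n1 i hgood (hΦ.dom_mono _ _ _ _ (by linarith) hdm) hi0
      (by rw [hn1']; linarith) (by rw [hn1']; linarith) (by
        rw [hn1']
        have h2 : δ * Real.log X ≤ δ * (R + Real.log X0) := by gcongr
        have h3 : δ * R ≤ R := by nlinarith
        have h4 : δ * Real.log X0 ≤ ε * Real.log X0 := by
          apply mul_le_mul_of_nonneg_right _ hlogX0
          linarith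
        nlinarith) (hq.mul (hgp.mul hdp)) (dvd_mul_right _ _) (by
        have h2 : ((nm (q * (g * d)) : ℕ) : ℝ) = nm q * (nm g * nm d) := by
          rw [nm_mul, nm_mul]; push_cast; ring
        rw [h2]
        have h3 : (nm g : ℝ) * nm d ≤ (Real.exp R * X0) * (Real.exp R * X0) := by
          have h4 := hS.hXX
          have h5 : (nm d : ℝ) ≤ Real.exp R * X0 := (hd'.2.2.trans hX'X).trans h4
          have h6 : (nm g : ℝ) ≤ Real.exp R * X0 := hgX.trans h4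
          exact mul_le_mul h6 h5 (by linarith) (by positivity)
        have h4 : Real.exp R * Real.exp R ≤ CG := by
          refine le_trans ?_ hCG
          rw [← Real.exp_add]
          have h5 : Real.exp (R + R) ≤ Real.exp (1 + 3 * R) := Real.exp_le_exp.2 (by linarith)
          have h6 := Real.exp_pos (1 + 3 * R)
          linarith
        calc (nm q : ℝ) * (nm g * nm d) ≤ nm q * ((Real.exp R * X0) * (Real.exp R * X0)) := by
              gcongr
          _ = (Real.exp R * Real.exp R) * nm q * X0 ^ 2 := by ring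
          _ ≤ CG * nm q * X0 ^ 2 := by gcongr) (by
        rw [hexp2]
        have h4 : 1 ≤ CG := by
          refine le_trans ?_ hCG
          have := Real.one_le_exp (x := 1 + 3 * R) (by linarith)
          linarith
        nlinarith [sq_nonneg X']) (by linarith)
    refine le_trans (VGt_mono I χ (by positivity) ?_ _) key
    rw [nm_sq3_sq]
    have he2 : (nm e : ℝ) ≤ Y := he'.2.trans hd'.2.1
    have hCG0 : 0 ≤ CG := by
      refine le_trans ?_ hCG
      positivity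
    have hW4 : W ^ 4 ≤ X0 ^ ε := by
      rw [hW, ← Real.rpow_natCast, ← Real.rpow_mul (by linarith)]
      apply Real.rpow_le_rpow_of_exponent_le (by linarith)
      push_cast; linarith
    calc Lde X' K δ d e * Real.exp ((i : ℝ) + 1) * (9 * (nm e : ℝ) ^ 2)
        ≤ (Y * K ^ δ * (2 * (X' ^ 2 / K))) * Real.exp ((i : ℝ) + 1) * (9 * Y ^ 2) := by gcongr
      _ ≤ ((Real.exp R * W) * W * (2 * (X' ^ 2 / K))) * Real.exp ((i : ℝ) + 1) *
          (9 * (Real.exp R * W) ^ 2) := by gcongr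
      _ = (18 * Real.exp (1 + 3 * R)) * W ^ 4 * Real.exp (i + 2 * n1) / K := by
          have e1 : Real.exp (1 + 3 * R) = Real.exp 1 * Real.exp R ^ 3 := by
            rw [Real.exp_add, ← Real.exp_nat_mul]; push_cast; rfl
          rw [Real.exp_add (i : ℝ) 1, Real.exp_add (i : ℝ) (2 * n1), hexp2, e1]
          ring
      _ ≤ CG * X0 ^ ε * Real.exp (i + 2 * n1) / K := by gcongr

/-- one common divisor, short dual sums -/
lemma DD_triv_t {J : Type} {Φ : Fam J} {R A : ℝ} (hΦ : Φ.Ok R A) {δ Cb C2 : ℝ} (hδ : 0 < δ)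
    (hδ1 : δ ≤ 1 / 2) {M : ℕ}
    (hCb : 0 ≤ Cb) (hC2 : 0 ≤ C2) (hbd : ∀ j n, ‖Φ.w j n‖ ≤ Cb * (nm n : ℝ) ^ δ)
    (htriv : ∀ X K Y B0 : ℝ, 1 ≤ X → 1 ≤ K → 1 ≤ Y → 0 ≤ B0 → ∀ w : Eis → ℂ, Supp w X →
      (∀ h, ‖w h‖ ≤ B0 * (nm h : ℝ) ^ δ) →
      ∀ (D : Finset Eis) (De : Eis → Finset Eis), (∀ d ∈ D, IsPrim d ∧ (nm d : ℝ) ≤ Y) →
        (∀ d ∈ D, ∀ e ∈ De d, IsPrim e ∧ (nm e : ℝ) ≤ nm d) →
      ∑ d ∈ D, ∑ e ∈ De d, ∑ f ∈ S X, K / nm f * DIM M δ w X d e f (Lde X K δ d e) ≤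
        C2 * (X * K) ^ δ * X ^ (6 * δ) * Y ^ 3 * B0 ^ 2 * (K * X + X ^ 3))
    (j : J) (q : Eis) {χ : Eis → ℂ} (hχ : MulT χ) {X0 K X : ℝ} (hS : Sc2 δ R X0 K X) (hX : X = Real.exp (Φ.len j + R))
    {g : Eis} (hg : g ∈ S X) (hKg : (X / nm g) ^ 2 ≤ K) :
    DD M δ (X / nm g) K (X ^ δ) δ (PA842.sub (twt χ (sq q (Φ.w j))) g) ≤
      2 * C2 * Cb ^ 2 * (Real.exp R) ^ 12 * (X0 ^ δ) ^ 13 * K * (X / nm g) := by
  classical
  obtain ⟨f1, f2, f3, f4, f5⟩ := hS.facts hδ (by linarith) hΦ.R0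
  have hK1 := hS.hK1
  have hX1 := hS.hX1
  have hXn : 0 ≤ X := by linarith
  have hg' := (mem_S hXn).1 hg
  have hgp := hg'.2.1
  have hg1 := one_le_nm' hgp
  set X' : ℝ := X / nm g with hX'
  have hX'1 : 1 ≤ X' := by rw [hX', le_div_iff₀ (by linarith)]; linarith [hg'.1]
  have hX'X : X' ≤ X := div_le_self hXn hg1
  have hX'n : 0 ≤ X' := by linarith
  set Y : ℝ := X ^ δ with hY
  have hY1 : 1 ≤ Y := Real.one_le_rpow hX1 hδ.le
  have hsupp : Supp (twt χ (sq q (Φ.w j))) X := supp_twt _ (supp_sq hΦ q j (by rw [hX]))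
  have hwb : ∀ h, ‖PA842.sub (twt χ (sq q (Φ.w j))) g h‖ ≤ (Cb * Y) * (nm h : ℝ) ^ δ := by
    intro h
    unfold PA842.sub twt TP320.sq
    split_ifs with hc
    · have hx : ‖Φ.w j (g * h) * χ (g * h)‖ ≤ ‖Φ.w j (g * h)‖ := by
        rw [norm_mul]
        exact mul_le_of_le_one_right (norm_nonneg _) (hχ.bd _ hc.1)
      refine (hx.trans (hbd j _)).trans ?_
      rw [nm_mul, Nat.cast_mul, Real.mul_rpow (Nat.cast_nonneg _) (Nat.cast_nonneg _), mul_assoc]
      have : (nm g : ℝ) ^ δ ≤ Y := Real.rpow_le_rpow (by linarith) hg'.1 hδ.le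
      gcongr
    · rw [zero_mul, norm_zero]; positivity
  have h1 := htriv X' K Y (Cb * Y) hX'1 hK1 hY1 (by positivity) _
    (PA842.supp_sub hXn hsupp hgp) hwb
    ((S X').filter (fun d => (nm d : ℝ) ≤ Y)) (fun d => (S X').filter (· ∣ d))
    (fun d hd => ⟨(mem_de hX'n hd).1, (mem_de hX'n hd).2.1⟩) (by
      intro d hd e he
      have h1 := mem_de hX'n hd
      rw [Finset.mem_filter, mem_S hX'n] at he
      exact ⟨he.1.2.1, by exact_mod_cast nm_le_of_dvd h1.1.ne_zero he.2⟩)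
  have h2 : DD M δ X' K Y δ (PA842.sub (twt χ (sq q (Φ.w j))) g) =
      ∑ d ∈ (S X').filter (fun d => (nm d : ℝ) ≤ Y), ∑ e ∈ (S X').filter (· ∣ d), ∑ f ∈ S X',
        K / nm f * DIM M δ (PA842.sub (twt χ (sq q (Φ.w j))) g) X' d e f (Lde X' K δ d e) := by
    unfold PI106.DD
    refine Finset.sum_congr (by congr) fun d _ => ?_
    exact Finset.sum_congr (by congr) fun e _ => rfl
  rw [h2]
  refine h1.trans ?_
  have h3 : (X' * K) ^ δ ≤ Y * K ^ δ := by
    rw [Real.mul_rpow (by linarith) (by linarith)]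
    have : X' ^ δ ≤ X ^ δ := Real.rpow_le_rpow (by linarith) hX'X hδ.le
    gcongr
  have h4 : X' ^ (6 * δ) ≤ Y ^ 6 := by
    have e1 : Y ^ 6 = X ^ (6 * δ) := by
      rw [hY, ← Real.rpow_natCast, ← Real.rpow_mul hXn]; congr 1; push_cast; ring
    rw [e1]
    exact Real.rpow_le_rpow hX'n hX'X (by positivity)
  have h5 : K * X' + X' ^ 3 ≤ 2 * (K * X') := by
    have : X' ^ 3 = X' ^ 2 * X' := by ring
    rw [this]
    nlinarith
  set W : ℝ := X0 ^ δ with hW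
  have hX'p : 0 ≤ (X' * K) ^ δ := by positivity
  calc C2 * (X' * K) ^ δ * X' ^ (6 * δ) * Y ^ 3 * (Cb * Y) ^ 2 * (K * X' + X' ^ 3)
      ≤ C2 * (Y * K ^ δ) * Y ^ 6 * Y ^ 3 * (Cb * Y) ^ 2 * (2 * (K * X')) := by gcongr
    _ = 2 * C2 * Cb ^ 2 * (Y ^ 12 * K ^ δ) * K * X' := by ring
    _ ≤ 2 * C2 * Cb ^ 2 * ((Real.exp R * W) ^ 12 * W) * K * X' := by gcongr
    _ = _ := by ring

/-- **(P) for closed families, all twists** -/
theorem PT_rule {J : Type} {Φ : Fam J} {R A : ℝ} (hΦ : Φ.Ok R A) {ε : ℝ} (hε : 0 < ε) :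
    ∃ C r : ℝ, 1 ≤ C ∧ 0 ≤ r ∧ ∀ (ι : Type) (I : Finset ι) (χ : ι → Eis → ℂ),
      (∀ i, MulT (χ i)) → ∀ X0 K a : ℝ, 3 ≤ X0 → 1 ≤ K → K ≤ X0 → 0 ≤ a →
      ∀ j : J, Real.exp (Φ.len j) ≤ X0 → ∀ q : Eis, IsPrim q → HypGt I χ Φ C r ε X0 K a j q →
      VCt I χ K (sq q (Φ.w j)) ≤
        C * X0 ^ ε * (K * I.card + K * a) * Real.exp (Φ.len j) * (Φ.ht j) ^ 2 := by
  classical
  set δ : ℝ := min ε 1 / 20 with hδd
  have hmin : 0 < min ε 1 := lt_min hε one_pos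
  have hδ : 0 < δ := by positivity
  have hδε : 18 * δ ≤ ε := by
    have : min ε 1 ≤ ε := min_le_left _ _
    rw [hδd]; linarith
  have hδ1 : δ ≤ 1 / 2 := by
    have : min ε 1 ≤ 1 := min_le_right _ _
    rw [hδd]; linarith
  obtain ⟨Cb, hCb, hbd⟩ := hΦ.bd δ hδ
  obtain ⟨Cs, hCs, hs⟩ := hΦ.split δ (1 / 2 - δ) hδ
  obtain ⟨Cτ, hCτ, hτ⟩ := tau_le_rpow hδ
  obtain ⟨Ch, hCh, hharm⟩ := harm_le hδ
  set M : ℕ := ⌈A⌉₊ + 1 with hM
  have hA0 := hΦ.A0
  have hR := hΦ.R0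
  have hMA : A + 1 ≤ M := by rw [hM]; push_cast; linarith [Nat.le_ceil A]
  have hM1 : 1 ≤ M := by omega
  obtain ⟨C1, hC1, hiter⟩ := iterM hδ hδ1 hδ hM1
  obtain ⟨C2, hC2, htriv⟩ := dual_trivial hδ hM1
  have hIM := IM_nonneg M A
  set c : ℝ := Real.exp R with hc
  have hc1 : 1 ≤ c := Real.one_le_exp hR
  set Um : ℝ := 256 * c ^ 2 * (Cs ^ 2 * c * IM M A) * (Cτ * (2 * Real.exp (1 + 4 * R))) *
    ((1 + 1 / δ) * c) with hUm
  have hUm0 : 0 ≤ Um := by
    have h1 : 0 ≤ Cs ^ 2 * c * IM M A := mul_nonneg (by positivity) hIM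
    rw [hUm]; positivity
  set Ut : ℝ := 2 * C2 * Cb ^ 2 * c ^ 12 with hUt
  have hUt0 : 0 ≤ Ut := by positivity
  set U : ℝ := Um + Ut with hU
  have hU0 : 0 ≤ U := by positivity
  set Cf : ℝ := Real.exp 1 * (C1 * c ^ 5 * (16 * Cb ^ 2 + U * Ch)) * c with hCf
  have hCf0 : 0 ≤ Cf := by positivity
  refine ⟨1 + 18 * Real.exp (1 + 3 * R) + Cf, 3 * R + 1, by
    have := Real.exp_pos (1 + 3 * R)
    linarith, by linarith, ?_⟩
  intro ι I χ hχ X0 K a hX0 hK1 hKX ha j hj q hq HG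
  set CG : ℝ := 1 + 18 * Real.exp (1 + 3 * R) + Cf with hCG
  have hCG1 : 18 * Real.exp (1 + 3 * R) ≤ CG := by rw [hCG]; linarith
  have hCGf : Cf ≤ CG := by
    have := Real.exp_pos (1 + 3 * R)
    rw [hCG]; linarith
  have hK0 : 0 < K := by linarith
  have hht := hΦ.ht1 j
  have hht2 : 1 ≤ (Φ.ht j) ^ 2 := one_le_pow₀ hht
  set X : ℝ := Real.exp (Φ.len j + R) with hX
  rcases lt_or_ge X 1 with hX1 | hX1
  · -- nothing
    have h0 : sq q (Φ.w j) = 0 := by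
      funext n
      by_contra hn
      have h1 : sq q (Φ.w j) n ≠ 0 := hn
      unfold TP320.sq at h1
      split_ifs at h1 with hcn
      · have h2 := (abs_le.1 (hΦ.supp j n h1)).2
        have h3 := log_nm_nonneg' hcn.1
        rw [hX, Real.exp_lt_one_iff] at hX1
        linarith
      · exact h1 rfl
    have h0' : VCt I χ K (sq q (Φ.w j)) = 0 := by
      unfold VCt
      refine Finset.sum_eq_zero fun x _ => ?_
      apply VC_eq_zero
      funext n
      unfold twt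
      rw [h0]
      simp
    rw [h0']
    have hX00 : 0 ≤ X0 := by linarith
    have hCG0 : 0 ≤ CG := hCf0.trans hCGf
    positivity
  rcases I.eq_empty_or_nonempty with hI | hI
  · have h0' : VCt I χ K (sq q (Φ.w j)) = 0 := by
      unfold VCt
      rw [hI, Finset.sum_empty]
    rw [h0']
    have hX00 : 0 ≤ X0 := by linarith
    have hCG0 : 0 ≤ CG := hCf0.trans hCGf
    positivity
  obtain ⟨NI, hNI⟩ : ∃ x : ℝ, x = (I.card : ℝ) := ⟨_, rfl⟩
  have hNI1 : 1 ≤ NI := by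
    rw [hNI]
    exact_mod_cast hI.card_pos
  have hNI0 : 0 < NI := by linarith
  rw [← hNI]
  have hXn : 0 ≤ X := by linarith
  have hXX : X ≤ Real.exp R * X0 := by
    rw [hX, Real.exp_add, mul_comm]
    gcongr
  have hS : Sc2 δ R X0 K X := ⟨hX0, hK1, hKX, hX1, hXX⟩
  obtain ⟨f1, f2, f3, f4, f5⟩ := hS.facts hδ (by linarith) hR
  have hsupp : Supp (sq q (Φ.w j)) X := supp_sq hΦ q j le_rfl
  set W : ℝ := X0 ^ δ with hW
  set Y : ℝ := X ^ δ with hY
  have hY1 : 1 ≤ Y := Real.one_le_rpow hX1 hδ.le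
  have hwb : ∀ h, ‖sq q (Φ.w j) h‖ ≤ Cb * (nm h : ℝ) ^ δ := by
    intro h
    unfold TP320.sq
    split_ifs
    · exact hbd j h
    · rw [norm_zero]; positivity
  have hsx : ∀ x, Supp (twt (χ x) (sq q (Φ.w j))) X := fun x => supp_twt _ hsupp
  have h1 : ∀ x, VC K (twt (χ x) (sq q (Φ.w j))) ≤
      Real.exp 1 * V X K (twt (χ x) (sq q (Φ.w j))) := by
    intro x
    have h1 := VC_le_VE hXn hK0 (hsx x)
    rwa [← V_eq_VE K (hsx x)] at h1
  have h2 := fun x => hiter X K hX1 hK1 (twt (χ x) (sq q (Φ.w j))) (hsx x)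
  have hwbx : ∀ x h, ‖twt (χ x) (sq q (Φ.w j)) h‖ ≤ Cb * (nm h : ℝ) ^ δ := by
    intro x h
    unfold twt
    by_cases hp : IsPrim h
    · rw [norm_mul]
      exact (mul_le_of_le_one_right (norm_nonneg _) ((hχ x).bd _ hp)).trans (hwb h)
    · have : sq q (Φ.w j) h = 0 := by
        unfold TP320.sq
        rw [if_neg (fun hc => hp hc.1)]
      rw [this, zero_mul, norm_zero]
      positivity
  have hdiag := fun x => diag_le hδ hX1 (by linarith : 0 ≤ Cb) (hwbx x)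
  have hT3 : X ^ (3 * δ) ≤ (c * W) ^ 3 := by
    have e1 : X ^ (3 * δ) = Y ^ 3 := by
      rw [hY, ← Real.rpow_natCast, ← Real.rpow_mul hXn]; congr 1; push_cast; ring
    rw [e1]; gcongr
  have hlen2 : Real.exp (2 * δ * Φ.len j) ≤ W ^ 2 := by
    have e1 : Real.exp (2 * δ * Φ.len j) = Real.exp (Φ.len j) ^ (2 * δ) := by
      rw [← Real.exp_mul]; congr 1; ring
    have e2 : W ^ 2 = X0 ^ (2 * δ) := by
      rw [hW, ← Real.rpow_natCast, ← Real.rpow_mul (by linarith)]; congr 1; push_cast; ring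
    rw [e1, e2]
    exact Real.rpow_le_rpow (Real.exp_pos _).le hj (by positivity)
  have hW0 : 0 ≤ W := by linarith
  have hKa : 0 ≤ K * a := by positivity
  have hlogX : 0 ≤ Real.log X := Real.log_nonneg hX1
  -- one divisor
  have hone : ∀ g ∈ S X, ∑ x ∈ I, DD M δ (X / nm g) K Y δ
      (PA842.sub (twt (χ x) (sq q (Φ.w j))) g) ≤
      U * W ^ 13 * (K * NI + K * a) * X * (Φ.ht j) ^ 2 * (1 / (nm g : ℝ)) := by
    intro g hg
    have hg' := (mem_S hXn).1 hg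
    have hg1 := one_le_nm' hg'.2.1
    have hXg : X / nm g = X * (1 / (nm g : ℝ)) := by ring
    rcases le_or_gt K ((X / nm g) ^ 2) with hKg | hKg
    · have h3 := DD_main_t hΦ hδ hδ1 (by linarith : 4 * δ ≤ ε) hM1 hMA (by linarith) hs hCτ hτ j hq
        I hχ hS hX ha le_rfl hCG1 HG hg hKg
      refine h3.trans ?_
      have hXg0 : 0 ≤ X / nm g := by positivity
      have hP : 0 ≤ Cs ^ 2 * Real.exp R * IM M A := mul_nonneg (by positivity) hIM
      have hl1 : 0 ≤ Real.log X + 1 := by linarith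
      have h4 : 256 * Y ^ 2 * (K * a * (X / nm g) * (Cs ^ 2 * Real.exp R * IM M A) *
          (Cτ * (2 * Real.exp (1 + 4 * R)) * W ^ 4) * Real.exp (2 * δ * Φ.len j) *
          (Real.log X + 1) * (Φ.ht j) ^ 2) ≤
          256 * (c * W) ^ 2 * (K * a * (X / nm g) * (Cs ^ 2 * Real.exp R * IM M A) *
          (Cτ * (2 * Real.exp (1 + 4 * R)) * W ^ 4) * W ^ 2 *
          ((1 + 1 / δ) * (c * W)) * (Φ.ht j) ^ 2) := by
        have a1 : 0 ≤ K * a * (X / nm g) * (Cs ^ 2 * Real.exp R * IM M A) *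
          (Cτ * (2 * Real.exp (1 + 4 * R)) * W ^ 4) :=
          mul_nonneg (mul_nonneg (mul_nonneg hKa hXg0) hP) (by positivity)
        have a2 : K * a * (X / nm g) * (Cs ^ 2 * Real.exp R * IM M A) *
          (Cτ * (2 * Real.exp (1 + 4 * R)) * W ^ 4) * Real.exp (2 * δ * Φ.len j) *
          (Real.log X + 1) * (Φ.ht j) ^ 2 ≤ K * a * (X / nm g) * (Cs ^ 2 * Real.exp R * IM M A) *
          (Cτ * (2 * Real.exp (1 + 4 * R)) * W ^ 4) * W ^ 2 *
          ((1 + 1 / δ) * (c * W)) * (Φ.ht j) ^ 2 := by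
          apply mul_le_mul_of_nonneg_right _ (by positivity)
          apply mul_le_mul _ f5 hl1 (by positivity)
          exact mul_le_mul_of_nonneg_left hlen2 a1
        have a3 : 0 ≤ K * a * (X / nm g) * (Cs ^ 2 * Real.exp R * IM M A) *
          (Cτ * (2 * Real.exp (1 + 4 * R)) * W ^ 4) * Real.exp (2 * δ * Φ.len j) *
          (Real.log X + 1) * (Φ.ht j) ^ 2 :=
          mul_nonneg (mul_nonneg (mul_nonneg a1 (Real.exp_pos _).le) hl1) (by positivity)
        exact mul_le_mul (by gcongr) a2 a3 (by positivity)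
      refine h4.trans ?_
      have h5 : 256 * (c * W) ^ 2 * (K * a * (X / nm g) * (Cs ^ 2 * Real.exp R * IM M A) *
          (Cτ * (2 * Real.exp (1 + 4 * R)) * W ^ 4) * W ^ 2 *
          ((1 + 1 / δ) * (c * W)) * (Φ.ht j) ^ 2) =
          Um * W ^ 9 * (K * a) * X * (Φ.ht j) ^ 2 * (1 / (nm g : ℝ)) := by
        rw [hXg, hUm]; ring
      rw [h5]
      have e1 : W ^ 9 ≤ W ^ 13 := pow_le_pow_right₀ f1 (by norm_num)
      have e2 : Um ≤ U := by rw [hU]; linarith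
      have e3 : K * a ≤ K * NI + K * a := by
        have : 0 ≤ K * NI := by positivity
        linarith
      gcongr
    · have h3 := fun x => DD_triv_t (A := A) hΦ hδ hδ1 (by linarith : 0 ≤ Cb)
        (by linarith : 0 ≤ C2) hbd htriv j q (hχ x) hS hX hg hKg.le
      refine (Finset.sum_le_sum fun x _ => h3 x).trans ?_
      rw [Finset.sum_const, nsmul_eq_mul, ← hNI]
      have h5 : NI * (2 * C2 * Cb ^ 2 * Real.exp R ^ 12 * (X0 ^ δ) ^ 13 * K * (X / nm g)) =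
          Ut * W ^ 13 * (K * NI + 0) * X * 1 * (1 / (nm g : ℝ)) := by
        rw [hXg, hUt]; ring
      rw [h5]
      have e2 : Ut ≤ U := by rw [hU]; linarith
      gcongr
  have hSG : ∑ g ∈ S X, ∑ x ∈ I, DD M δ (X / nm g) K Y δ
      (PA842.sub (twt (χ x) (sq q (Φ.w j))) g) ≤
      U * W ^ 13 * (K * NI + K * a) * X * (Ch * Y) * (Φ.ht j) ^ 2 := by
    refine (Finset.sum_le_sum hone).trans ?_
    rw [← Finset.mul_sum]
    have h3 := hharm X hX1
    have h4 : 0 ≤ U * W ^ 13 * (K * NI + K * a) * X * (Φ.ht j) ^ 2 := by positivity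
    calc _ ≤ U * W ^ 13 * (K * NI + K * a) * X * (Φ.ht j) ^ 2 * (Ch * Y) :=
          mul_le_mul_of_nonneg_left h3 h4
      _ = _ := by ring
  have hSG0 : 0 ≤ ∑ g ∈ S X, ∑ x ∈ I, DD M δ (X / nm g) K Y δ
      (PA842.sub (twt (χ x) (sq q (Φ.w j))) g) :=
    Finset.sum_nonneg fun g _ => Finset.sum_nonneg fun x _ => DD_nonneg _ _ _ hK0.le _ _ _
  have hKN : K * NI + K * NI * (a / NI) = K * NI + K * a := by field_simp
  have hfin := alg_P (C1 := C1) (W := W) (c := c) (K := K * NI) (Y := Y) (X := X)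
    (D := 16 * (X * Y ^ 2) * Cb ^ 2) (T3 := X ^ (3 * δ)) (Cb := Cb) (U := U)
    (Ch := Ch) (H := (Φ.ht j) ^ 2) (a := a / NI)
    (SG := ∑ g ∈ S X, ∑ x ∈ I, DD M δ (X / nm g) K Y δ
      (PA842.sub (twt (χ x) (sq q (Φ.w j))) g)) (by linarith) f1 hc1
    (by positivity) (by linarith) f3 hXn (by linarith) (by positivity) le_rfl (by positivity) hT3
    hU0 (by linarith) hht2 (by positivity) hSG0 (by rw [hKN]; exact hSG)
  rw [hKN] at hfin
  have hC10 : 0 ≤ C1 := by linarith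
  have hY0 : 0 ≤ Y := by linarith
  have h6 : ∑ x ∈ I, V X K (twt (χ x) (sq q (Φ.w j))) ≤
      (C1 * c ^ 5 * (16 * Cb ^ 2 + U * Ch)) * W ^ 18 * (K * NI + K * a) * X * (Φ.ht j) ^ 2 := by
    refine le_trans ?_ hfin
    refine (Finset.sum_le_sum fun x _ => h2 x).trans ?_
    have hsw : ∑ g ∈ S X, ∑ x ∈ I, DD M δ (X / nm g) K Y δ
        (PA842.sub (twt (χ x) (sq q (Φ.w j))) g) = ∑ x ∈ I, ∑ g ∈ S X, DD M δ (X / nm g) K Y δ
        (PA842.sub (twt (χ x) (sq q (Φ.w j))) g) := Finset.sum_comm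
    rw [← Finset.mul_sum, Finset.sum_add_distrib, ← Finset.mul_sum, ← Finset.mul_sum, hsw]
    refine mul_le_mul_of_nonneg_left ?_ (by positivity)
    refine add_le_add ?_ le_rfl
    have h7 : ∑ x ∈ I, ∑ h ∈ S X, ‖twt (χ x) (sq q (Φ.w j)) h‖ ^ 2 ≤
        NI * (16 * (X * Y ^ 2) * Cb ^ 2) := by
      refine (Finset.sum_le_sum fun x _ => hdiag x).trans (le_of_eq ?_)
      rw [Finset.sum_const, nsmul_eq_mul, ← hNI]
    calc K * ∑ x ∈ I, ∑ h ∈ S X, ‖twt (χ x) (sq q (Φ.w j)) h‖ ^ 2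
        ≤ K * (NI * (16 * (X * Y ^ 2) * Cb ^ 2)) := mul_le_mul_of_nonneg_left h7 hK0.le
      _ = _ := by ring
  have hW18 : W ^ 18 ≤ X0 ^ ε := by
    rw [hW, ← Real.rpow_natCast, ← Real.rpow_mul (by linarith)]
    apply Real.rpow_le_rpow_of_exponent_le (by linarith)
    push_cast; linarith
  calc VCt I χ K (sq q (Φ.w j)) ≤ ∑ x ∈ I, Real.exp 1 * V X K (twt (χ x) (sq q (Φ.w j))) :=
        Finset.sum_le_sum fun x _ => h1 x
    _ = Real.exp 1 * ∑ x ∈ I, V X K (twt (χ x) (sq q (Φ.w j))) := (Finset.mul_sum _ _ _).symm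
    _ ≤ Real.exp 1 * ((C1 * c ^ 5 * (16 * Cb ^ 2 + U * Ch)) * W ^ 18 * (K * NI + K * a) * X *
        (Φ.ht j) ^ 2) := by gcongr
    _ = Cf * W ^ 18 * (K * NI + K * a) * Real.exp (Φ.len j) * (Φ.ht j) ^ 2 := by
        rw [hCf, hX, Real.exp_add]; ring
    _ ≤ CG * X0 ^ ε * (K * NI + K * a) * Real.exp (Φ.len j) * (Φ.ht j) ^ 2 := by
        gcongr

end Crest.Agent.R017.PTw320
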