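import Crest.Agent.R017.PTw2_320

/-!
# Row 17, side-level rule (P) for the families `E d b²`, `b` averaged (helper320)

* `VCq Bs E K α = ∑ b ∈ Bs, ∑ d ∈ bl K, ‖CS α (E (d b²))‖²`,
  `VGq Bs E L α = ∑ b ∈ Bs, ∑ κ ∈ bl L, ‖TG α (E² (κ b))‖²`
* `PTq_rule` : (P), `VCq` against `VGq`
* `PTm_rule` : (P), `VCq` against the merged frequencies `κ b`
-/

set_option autoImplicit false

noncomputable section

open Complex MeasureTheory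
open scoped ComplexConjugate

namespace Crest.Agent.R017.PTw320

open Crest.Agent.R012 Crest.Agent.R012.Eis Crest.Agent.R012.LS2 Crest.Agent.R012.Gauss880
open Crest.Agent.R012.Div277
open Crest.Agent.R017.CM106 (CS TG FS)
open Crest.Agent.R017.TP320 hiding sq

set_option maxHeartbeats 1000000

local notation "sq" => TP320.sq

lemma CS_twt {α : Eis → ℂ} (hα : ∀ n, α n ≠ 0 → IsPrim n) (t k : Eis) :
    CS (twt (fun n => sy t n) α) k = CS α (t * k) := by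
  unfold CS twt
  refine tsum_congr fun n => ?_
  by_cases h : α n = 0
  · rw [h]; ring
  · rw [Char766.sy_mul_left (hα n h)]; ring

lemma TG_twt {α : Eis → ℂ} (hα : ∀ n, α n ≠ 0 → IsPrim n) (t k : Eis) :
    TG (twt (fun n => sy t n) α) k = TG α (t ^ 2 * k) := by
  unfold TG twt
  refine tsum_congr fun n => ?_
  by_cases h : α n = 0
  · rw [h]; ring
  · have hn := hα n h
    rw [Char766.sy_mul_left hn, Char766.sy_pow_left hn, map_mul, map_pow,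
      Char766.conj_sy hn (x := t)]
    by_cases hc : IsCoprime t n
    · have h3 := Char766.sy_cube hn hc
      have : (sy t n ^ 2) ^ 2 = sy t n := by
        calc (sy t n ^ 2) ^ 2 = sy t n ^ 3 * sy t n := by ring
          _ = _ := by rw [h3, one_mul]
      rw [this]; ring
    · simp [Char766.sy_eq_zero hn hc]

lemma TG_sq_b {α : Eis → ℂ} (hα : ∀ n, α n ≠ 0 → IsPrim n) (E b k : Eis) :
    TG α ((E * b ^ 2) ^ 2 * k) = TG α (E ^ 2 * (k * b)) := by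
  unfold TG
  refine tsum_congr fun n => ?_
  by_cases h : α n = 0
  · rw [h]; ring
  · have hn := hα n h
    congr 3
    have e1 : (E * b ^ 2) ^ 2 * k = (E ^ 2 * k) * (b ^ 3 * b) := by ring
    have e2 : E ^ 2 * (k * b) = (E ^ 2 * k) * b := by ring
    rw [e1, e2, Char766.sy_mul_left hn, Char766.sy_mul_left (x := b ^ 3) hn,
      Char766.sy_mul_left (x := E ^ 2 * k) (y := b) hn, Char766.sy_pow_left hn]
    by_cases hc : IsCoprime b n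
    · rw [Char766.sy_cube hn hc, one_mul]
    · rw [Char766.sy_eq_zero hn hc]; ring

/-- the character side: frequencies `E d b²` -/
def VCq (Bs : Finset Eis) (E : Eis) (K : ℝ) (α : Eis → ℂ) : ℝ :=
  ∑ b ∈ Bs, ∑ d ∈ bl K, ‖CS α (E * (d * b ^ 2))‖ ^ 2

/-- the Gauss side: frequencies `E² κ b` -/
def VGq (Bs : Finset Eis) (E : Eis) (L : ℝ) (α : Eis → ℂ) : ℝ :=
  ∑ b ∈ Bs, ∑ k ∈ bl L, ‖TG α (E ^ 2 * (k * b))‖ ^ 2

lemma VCq_nonneg (Bs : Finset Eis) (E : Eis) (K : ℝ) (α : Eis → ℂ) : 0 ≤ VCq Bs E K α :=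
  Finset.sum_nonneg fun _ _ => Finset.sum_nonneg fun _ _ => sq_nonneg _

lemma VCt_eq {α : Eis → ℂ} (hα : ∀ n, α n ≠ 0 → IsPrim n) (Bs : Finset Eis) (E : Eis) (K : ℝ) :
    VCt Bs (fun b n => sy (E * b ^ 2) n) K α = VCq Bs E K α := by
  unfold VCt VCq VC
  refine Finset.sum_congr rfl fun b _ => Finset.sum_congr rfl fun d _ => ?_
  rw [CS_twt hα]
  congr 3
  ring

lemma VGt_eq {α : Eis → ℂ} (hα : ∀ n, α n ≠ 0 → IsPrim n) (Bs : Finset Eis) (E : Eis) (L : ℝ) :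
    VGt Bs (fun b n => sy (E * b ^ 2) n) L α = VGq Bs E L α := by
  unfold VGt VGq VG
  refine Finset.sum_congr rfl fun b _ => Finset.sum_congr rfl fun d _ => ?_
  rw [TG_twt hα, TG_sq_b hα]

lemma sq_prim (q : Eis) (w : Eis → ℂ) : ∀ n, sq q w n ≠ 0 → IsPrim n := by
  intro n hn
  unfold TP320.sq at hn
  split_ifs at hn with h
  · exact h.1
  · exact absurd rfl hn

/-- the hypothesis of (P), frequencies `E² κ b` -/
def HypGq (Bs : Finset Eis) (E : Eis) {J : Type} (Φ : Fam J)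
    (C r ε X0 K a : ℝ) (j : J) (q : Eis) : Prop :=
  ∀ (j' : J) (q' : Eis) (n1 φ : ℝ), Φ.good j' → Φ.dom r j' j → 0 ≤ φ → n1 ≤ Φ.len j + r →
    Φ.len j' ≤ n1 - φ + r → n1 - φ - r - ε * Real.log X0 ≤ Φ.len j' →
    IsPrim q' → q ∣ q' → (nm q' : ℝ) ≤ C * nm q * X0 ^ 2 → K ≤ C * Real.exp (2 * n1) →
    φ ≤ Real.log X0 + r →
    VGq Bs E (C * X0 ^ ε * Real.exp (φ + 2 * n1) / K) (sq q' (Φ.w j')) ≤
      a * Real.exp (φ + n1 + Φ.len j') * (Φ.ht j') ^ 2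

/-- **(P) for the families `E d b²`** -/
theorem PTq_rule {J : Type} {Φ : Fam J} {R A : ℝ} (hΦ : Φ.Ok R A) {ε : ℝ} (hε : 0 < ε) :
    ∃ C r : ℝ, 1 ≤ C ∧ 0 ≤ r ∧ ∀ (Bs : Finset Eis) (E : Eis) (X0 K a : ℝ), 3 ≤ X0 → 1 ≤ K →
      K ≤ X0 → 0 ≤ a → ∀ j : J, Real.exp (Φ.len j) ≤ X0 → ∀ q : Eis, IsPrim q →
      HypGq Bs E Φ C r ε X0 K a j q →
      VCq Bs E K (sq q (Φ.w j)) ≤
        C * X0 ^ ε * (K * Bs.card + K * a) * Real.exp (Φ.len j) * (Φ.ht j) ^ 2 := by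
  obtain ⟨C, r, hC, hr, h⟩ := PT_rule hΦ hε
  refine ⟨C, r, hC, hr, fun Bs E X0 K a hX0 hK hKX ha j hj q hq HG => ?_⟩
  rw [← VCt_eq (sq_prim q _)]
  refine h Eis Bs (fun b n => sy (E * b ^ 2) n) (fun b => mulT_sy _) X0 K a hX0 hK hKX ha j hj q
    hq ?_
  intro j' q' n1 φ h1 h2 h3 h4 h5 h6 h7 h8 h9 h10 h11
  rw [VGt_eq (sq_prim q' _)]
  exact HG j' q' n1 φ h1 h2 h3 h4 h5 h6 h7 h8 h9 h10 h11

/-- merging `κ b` -/
lemma VGq_merge {Bs : Finset Eis} {Bm L Dm : ℝ} (hBm : 0 ≤ Bm) (hL : 0 ≤ L)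
    (hBs : ∀ b ∈ Bs, IsPrim b ∧ (nm b : ℝ) ≤ Bm)
    (hD : ∀ r ∈ bl (L * Bm), (tau r : ℝ) ≤ Dm) (E : Eis) (α : Eis → ℂ) :
    VGq Bs E L α ≤ Dm * ∑ r ∈ bl (L * Bm), ‖TG α (E ^ 2 * r)‖ ^ 2 := by
  unfold VGq
  refine (CM106.merge hBm hL hBs (fun r => ‖TG α (E ^ 2 * r)‖ ^ 2) fun r => sq_nonneg _).trans ?_
  rw [Finset.mul_sum]
  exact Finset.sum_le_sum fun r hr => mul_le_mul_of_nonneg_right (hD r hr) (sq_nonneg _)

/-- the hypothesis of (P), merged frequencies -/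
def HypGm (E : Eis) (Bm : ℝ) {J : Type} (Φ : Fam J)
    (C r ε X0 K a : ℝ) (j : J) (q : Eis) : Prop :=
  ∀ (j' : J) (q' : Eis) (n1 φ : ℝ), Φ.good j' → Φ.dom r j' j → 0 ≤ φ → n1 ≤ Φ.len j + r →
    Φ.len j' ≤ n1 - φ + r → n1 - φ - r - ε * Real.log X0 ≤ Φ.len j' →
    IsPrim q' → q ∣ q' → (nm q' : ℝ) ≤ C * nm q * X0 ^ 2 → K ≤ C * Real.exp (2 * n1) →
    φ ≤ Real.log X0 + r →
    ∑ k ∈ bl (C * X0 ^ ε * Real.exp (φ + 2 * n1) / K * Bm),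
      ‖TG (sq q' (Φ.w j')) (E ^ 2 * k)‖ ^ 2 ≤
      a * Real.exp (φ + n1 + Φ.len j') * (Φ.ht j') ^ 2

/-- **(P) for the families `E d b²`, merged on the Gauss side** -/
theorem PTm_rule {J : Type} {Φ : Fam J} {R A : ℝ} (hΦ : Φ.Ok R A) {ε : ℝ} (hε : 0 < ε) :
    ∃ C r : ℝ, 1 ≤ C ∧ 0 ≤ r ∧ ∀ (Bm X0 K a : ℝ), 3 ≤ X0 → 1 ≤ K → K ≤ X0 → 0 ≤ a →
      1 ≤ Bm → Bm ≤ X0 → ∀ (E : Eis) (Bs : Finset Eis), (∀ b ∈ Bs, IsPrim b ∧ (nm b : ℝ) ≤ Bm) →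
      ∀ j : J, Real.exp (Φ.len j) ≤ X0 → ∀ q : Eis, IsPrim q →
      HypGm E Bm Φ C r ε X0 K a j q →
      VCq Bs E K (sq q (Φ.w j)) ≤
        C * X0 ^ ε * (K * Bs.card + K * a) * Real.exp (Φ.len j) * (Φ.ht j) ^ 2 := by
  have hmin : 0 < min ε 1 := lt_min hε one_pos
  obtain ⟨ε₁, hε₁⟩ : ∃ x : ℝ, x = min ε 1 / 2 := ⟨_, rfl⟩
  have hε₁0 : 0 < ε₁ := by rw [hε₁]; positivity
  have hε₁1 : 2 * ε₁ ≤ ε := by rw [hε₁]; linarith [min_le_left ε 1]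
  have hε₁2 : ε₁ ≤ 1 := by rw [hε₁]; linarith [min_le_right ε 1]
  obtain ⟨C₁, r, hC₁, hr, h⟩ := PTq_rule hΦ hε₁0
  obtain ⟨δ, hδ⟩ : ∃ x : ℝ, x = ε₁ / 5 := ⟨_, rfl⟩
  have hδ0 : 0 < δ := by rw [hδ]; positivity
  obtain ⟨Cτ, hCτ, hτ⟩ := tau_le_rpow hδ0
  obtain ⟨c₅, hc₅⟩ : ∃ x : ℝ, x = C₁ * Real.exp (3 * r) := ⟨_, rfl⟩
  have hE3 : 1 ≤ Real.exp (3 * r) := Real.one_le_exp (by positivity)
  have hc₅1 : 1 ≤ c₅ := by rw [hc₅]; exact one_le_mul_of_one_le_of_one_le hC₁ hE3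
  have hcδ : 1 ≤ c₅ ^ δ := Real.one_le_rpow hc₅1 hδ0.le
  obtain ⟨D₁, hD₁⟩ : ∃ x : ℝ, x = Cτ * c₅ ^ δ := ⟨_, rfl⟩
  have hD₁1 : 1 ≤ D₁ := by rw [hD₁]; exact one_le_mul_of_one_le_of_one_le hCτ hcδ
  refine ⟨C₁ * D₁, r, one_le_mul_of_one_le_of_one_le hC₁ hD₁1, hr, ?_⟩
  intro Bm X0 K a hX0 hK hKX ha hBm hBmX E Bs hBs j hj q hq HG
  have hX0p : 0 < X0 := by linarith
  have hX01 : 1 ≤ X0 := by linarith
  have hlX : 0 ≤ Real.log X0 := Real.log_nonneg hX01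
  have hXe1 : 1 ≤ X0 ^ ε₁ := Real.one_le_rpow hX01 hε₁0.le
  have hCC : C₁ ≤ C₁ * D₁ := by nlinarith
  have hXX : X0 ^ ε₁ ≤ X0 ^ ε := Real.rpow_le_rpow_of_exponent_le hX01 (by linarith)
  have hK0 : 0 < K := by linarith
  have hD₁0 : 0 ≤ D₁ := by linarith
  have key := h Bs E X0 K (D₁ * X0 ^ ε₁ * a) hX0 hK hKX (by positivity) j hj q hq (by
    intro j' q' n1 φ h1 h2 h3 h4 h5 h6 h7 h8 h9 h10 h11
    have hq0 : (0 : ℝ) ≤ nm q := Nat.cast_nonneg _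
    have hb := HG j' q' n1 φ h1 h2 h3 h4 h5 (by
      have : ε₁ * Real.log X0 ≤ ε * Real.log X0 := mul_le_mul_of_nonneg_right (by linarith) hlX
      linarith) h7 h8 (h9.trans (by gcongr)) (h10.trans (by
        have := Real.exp_pos (2 * n1)
        gcongr)) h11
    set L : ℝ := C₁ * X0 ^ ε₁ * Real.exp (φ + 2 * n1) / K with hL
    have hL0 : 0 ≤ L := by positivity
    have hLL : L ≤ C₁ * D₁ * X0 ^ ε * Real.exp (φ + 2 * n1) / K := by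
      rw [hL]; gcongr
    have hLX : L * Bm ≤ c₅ * X0 ^ 5 := by
      have h12 : n1 ≤ Real.log X0 + r := by
        have : Φ.len j ≤ Real.log X0 := by rwa [Real.le_log_iff_exp_le hX0p]
        linarith
      have h13 : Real.exp (φ + 2 * n1) ≤ Real.exp (3 * r) * X0 ^ 3 := by
        calc Real.exp (φ + 2 * n1) ≤ Real.exp (3 * r + 3 * Real.log X0) :=
              Real.exp_le_exp.2 (by linarith)
          _ = Real.exp (3 * r) * Real.exp (Real.log X0) ^ 3 := by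
              rw [Real.exp_add, ← Real.exp_nat_mul]; push_cast; rfl
          _ = _ := by rw [Real.exp_log hX0p]
      have h14 : X0 ^ ε₁ ≤ X0 := by
        calc X0 ^ ε₁ ≤ X0 ^ (1 : ℝ) := Real.rpow_le_rpow_of_exponent_le hX01 hε₁2
          _ = X0 := Real.rpow_one _
      calc L * Bm ≤ (C₁ * X0 * (Real.exp (3 * r) * X0 ^ 3) / 1) * X0 := by
            rw [hL]; gcongr
        _ = c₅ * X0 ^ 5 := by rw [hc₅]; ring
    have hDm : ∀ s ∈ bl (L * Bm), (tau s : ℝ) ≤ D₁ * X0 ^ ε₁ := by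
      intro s hs
      rw [mem_bl (by positivity)] at hs
      calc (tau s : ℝ) ≤ Cτ * (nm s : ℝ) ^ δ := hτ s hs.1
        _ ≤ Cτ * (c₅ * X0 ^ 5) ^ δ := by
            have := hs.2.trans hLX
            gcongr
        _ = D₁ * X0 ^ ε₁ := by
            rw [Real.mul_rpow (by linarith) (by positivity), ← Real.rpow_natCast X0 5,
              ← Real.rpow_mul hX0p.le, hD₁, hδ]
            have : ((5 : ℕ) : ℝ) * (ε₁ / 5) = ε₁ := by push_cast; ring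
            rw [this]; ring
    refine (VGq_merge (by linarith) hL0 hBs hDm E _).trans ?_
    have hsub : ∑ r ∈ bl (L * Bm), ‖TG (sq q' (Φ.w j')) (E ^ 2 * r)‖ ^ 2 ≤
        a * Real.exp (φ + n1 + Φ.len j') * (Φ.ht j') ^ 2 :=
      le_trans (Finset.sum_le_sum_of_subset_of_nonneg
        (TP320.bl_mono (by positivity) (mul_le_mul_of_nonneg_right hLL (by linarith)))
        fun _ _ _ => sq_nonneg _) hb
    calc D₁ * X0 ^ ε₁ * ∑ r ∈ bl (L * Bm), ‖TG (sq q' (Φ.w j')) (E ^ 2 * r)‖ ^ 2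
        ≤ D₁ * X0 ^ ε₁ * (a * Real.exp (φ + n1 + Φ.len j') * (Φ.ht j') ^ 2) :=
          mul_le_mul_of_nonneg_left hsub (by positivity)
      _ = _ := by ring)
  refine key.trans ?_
  have hcard : (0 : ℝ) ≤ Bs.card := Nat.cast_nonneg _
  have h15 : X0 ^ ε₁ * X0 ^ ε₁ ≤ X0 ^ ε := by
    rw [← Real.rpow_add hX0p]
    exact Real.rpow_le_rpow_of_exponent_le hX01 (by linarith)
  have h16 : X0 ^ ε₁ * (K * Bs.card + K * (D₁ * X0 ^ ε₁ * a)) ≤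
      D₁ * X0 ^ ε * (K * Bs.card + K * a) := by
    have e1 : X0 ^ ε₁ * (K * Bs.card) ≤ D₁ * X0 ^ ε * (K * Bs.card) := by
      have : X0 ^ ε₁ ≤ D₁ * X0 ^ ε := by
        have : 0 ≤ X0 ^ ε := by positivity
        nlinarith
      gcongr
    have e2 : X0 ^ ε₁ * (K * (D₁ * X0 ^ ε₁ * a)) ≤ D₁ * X0 ^ ε * (K * a) := by
      calc X0 ^ ε₁ * (K * (D₁ * X0 ^ ε₁ * a)) = D₁ * (X0 ^ ε₁ * X0 ^ ε₁) * (K * a) := by ring
        _ ≤ _ := by gcongr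
    calc _ = X0 ^ ε₁ * (K * Bs.card) + X0 ^ ε₁ * (K * (D₁ * X0 ^ ε₁ * a)) := by ring
      _ ≤ D₁ * X0 ^ ε * (K * Bs.card) + D₁ * X0 ^ ε * (K * a) := add_le_add e1 e2
      _ = _ := by ring
  calc C₁ * X0 ^ ε₁ * (K * Bs.card + K * (D₁ * X0 ^ ε₁ * a)) * Real.exp (Φ.len j) * Φ.ht j ^ 2
      = C₁ * (X0 ^ ε₁ * (K * Bs.card + K * (D₁ * X0 ^ ε₁ * a))) *
        (Real.exp (Φ.len j) * Φ.ht j ^ 2) := by ring
    _ ≤ C₁ * (D₁ * X0 ^ ε * (K * Bs.card + K * a)) *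
        (Real.exp (Φ.len j) * Φ.ht j ^ 2) := by gcongr
    _ = _ := by ring

end Crest.Agent.R017.PTw320
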