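import Crest.Agent.R017.PX1_764
import Crest.Agent.R017.PA3_842
import Crest.Agent.R012.Spec_T_411

/-!
# Row 17, exceptional class, part 2 (helper764): the forms and the literal objects

* `Vnc X Z w = ∑' n noncube, exp (-nm n / Z) ‖∑ h ∈ S X, w h sy n h‖²`
* `Rf X w h = ∑ n ∈ S X, w n Dk h n`, `VR X L w = ∑' h ≠ 0, exp (-nm h / L) ‖Rf X w h‖²`
* `crs r A m1 m2 = ∑' l ≠ 0, md (r l) m1 th (r l) conj (Dk (r l) m2) exp (-nm l / A)` : cross sums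
* `Cross X Z w d` : the cross term of the pairs with gcd `d` in (P_ex)
* `DIR` : the dual term of (P_ex), 842's `DI` with the kernel `Dk`
-/

set_option autoImplicit false

noncomputable section

open MeasureTheory Finset
open scoped ComplexConjugate

namespace Crest.Agent.R017.PX764

open Crest.Agent.R012 Crest.Agent.R012.Eis Crest.Agent.R012.Gauss880
open Crest.Agent.R012.LS2
open Crest.Agent.R017.PA842 (V Supp sub restr)

open Classical in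
/-- the form over the noncubes -/
def Vnc (X Z : ℝ) (w : Eis → ℂ) : ℝ :=
  ∑' n : Eis, if T411.NCube n then Real.exp (-(nm n : ℝ) / Z) * ‖∑ h ∈ S X, w h * sy n h‖ ^ 2
    else 0

/-- the bias-corrected Gauss side -/
def Rf (X : ℝ) (w : Eis → ℂ) (h : Eis) : ℂ := ∑ n ∈ S X, w n * Dk h n

open Classical in
/-- its second moment over all `h ≠ 0` -/
def VR (X L : ℝ) (w : Eis → ℂ) : ℝ :=
  ∑' h : Eis, if h = 0 then 0 else Real.exp (-(nm h : ℝ) / L) * ‖Rf X w h‖ ^ 2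

open Classical in
/-- the cross sum (`r = 3` in (P_ex), `r = 1` in (P'_ex)) -/
def crs (r : Eis) (A : ℝ) (m₁ m₂ : Eis) : ℂ :=
  ∑' l : Eis, if l = 0 then 0 else
    (md (r * l) m₁ : ℂ) * (th (r * l) * conj (Dk (r * l) m₂)) *
      ((Real.exp (-(nm l : ℝ) / A) : ℝ) : ℂ)

open Classical in
/-- the cross term of the pairs with gcd `d` -/
def Cross (X Z : ℝ) (w : Eis → ℂ) (d : Eis) : ℂ :=
  ∑ m₁ ∈ S X, ∑ m₂ ∈ S X, if IsCoprime m₁ m₂ then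
    ws w X (d * m₁) * conj (ws w X (d * m₂)) *
      (((nm m₁ : ℝ) ^ (-(1 : ℝ) / 2) * (nm m₂ : ℝ) ^ (-(1 : ℝ) / 2) : ℝ) : ℂ) *
      crs 3 (3 * (nm m₁ * nm m₂) / (4 * Real.pi ^ 2 * Z)) m₁ m₂ else 0

/-- the frequency of the dual term -/
def fq (e l : Eis) : Eis := l * (e * sq3) ^ 2

/-- the bias-corrected dual sum -/
def dsR (w : Eis → ℂ) (X : ℝ) (d e f l : Eis) (s : ℂ) : ℂ :=
  ∑ k ∈ S X, w (d * f * k) * Dk (fq e l * f) k * (nm k : ℂ) ^ (s - 1 / 2)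

/-- the dual term -/
def DIR (σ : ℝ) (w : Eis → ℂ) (X : ℝ) (d e f : Eis) (L : ℝ) : ℝ :=
  ∫ t : ℝ, (1 + t ^ 2)⁻¹ * ∑ l ∈ bl L, ‖dsR w X d e f l (σ + t * Complex.I)‖ ^ 2

open Classical in
/-- **(P_ex), one step**: the shape to be proved (`PX*_764`). -/
def OneStepEx : Prop := ∀ σ ε : ℝ, 0 < σ → σ ≤ 1 / 2 → 0 < ε →
  ∃ C : ℝ, 1 ≤ C ∧ ∀ X Z Y : ℝ, 1 ≤ X → 1 ≤ Z → ∀ w : Eis → ℂ, Supp w X →
    Vnc X Z w ≤ C * (X * Z) ^ ε * (X + Z) * ∑ h ∈ S X, ‖w h‖ ^ 2 +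
      C * X ^ (3 * σ) * ∑ d ∈ (S X).filter (fun d => (nm d : ℝ) ≤ Y),
        ∑ e ∈ (S X).filter (· ∣ d), ∑ f ∈ S X, Z / nm f * DIR σ w X d e f (CR2.Lde X Z ε d e) +
      C * Z * ∑ d ∈ (S X).filter (fun d => (nm d : ℝ) ≤ Y), ‖Cross X Z w d‖ +
      ∑ g ∈ (S X).filter (fun g => Y < (nm g : ℝ)),
        (Div277.tau g : ℝ) * Vnc (X / nm g) Z (sub w g)

end Crest.Agent.R017.PX764
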