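import Crest.Agent.R012.T1cA_413
import Crest.Agent.R012.MFinal_49

/-!
# Row 17, exceptional class (X2, second half): cube sum and the constant identity (helper241)

* `cube_sum_Z` : `∑_{m ≠ 0, (m,b)=1} exp (-nm(m)³/Z) = (2π/√3) Γ(4/3) PE(b) Z^(1/3) + O(τ(b))`
* `const_id` : `pC² · 3^(4/3) · (2π/(9√3)) Γ(2/3) · (3/(4π²))^(2/3) = (1/3) Γ(4/3)`
* `polar_eq_cubes` : the two main terms of the polar part and of the cubes agree
-/

set_option autoImplicit false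

noncomputable section

namespace Crest.Agent.R017.PX241

open Crest.Agent.R012 Crest.Agent.R012.Eis Crest.Agent.R012.Div277 Crest.Agent.R012.Mob705

open Classical in
/-- **cube sum**, `Z > 0`, `b` primary. -/
theorem cube_sum_Z : ∃ C : ℝ, 0 ≤ C ∧ ∀ (Z : ℝ) (b : Eis), 0 < Z → IsPrim b →
    Summable (fun m : Eis => if m ≠ 0 ∧ IsCoprime m b then
      Real.exp (-((nm m : ℝ) ^ 3) / Z) else 0) ∧
    |∑' m : Eis, (if m ≠ 0 ∧ IsCoprime m b then Real.exp (-((nm m : ℝ) ^ 3) / Z) else 0) -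
      2 * Real.pi / Real.sqrt 3 * Real.Gamma (4 / 3) * PE b * Z ^ (1 / 3 : ℝ)| ≤ C * tau b := by
  obtain ⟨C, hC0, hC⟩ := T1c413.coprime_cube_sum
  refine ⟨C, hC0, fun Z b hZ hb => ?_⟩
  obtain ⟨h1, h2⟩ := hC (1 / Z) b (by positivity) hb
  have e1 : ∀ m : Eis, (if m ≠ 0 ∧ IsCoprime m b then Real.exp (-(1 / Z * (nm m : ℝ) ^ 3)) else 0) =
      if m ≠ 0 ∧ IsCoprime m b then Real.exp (-((nm m : ℝ) ^ 3) / Z) else 0 := by
    intro m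
    split_ifs
    · congr 1
      ring
    · rfl
  have e2 : PE b * (2 / Real.sqrt 3 * T1c413.Ic (1 / Z)) =
      2 * Real.pi / Real.sqrt 3 * Real.Gamma (4 / 3) * PE b * Z ^ (1 / 3 : ℝ) := by
    have e3 : (1 / Z) ^ (-(1 / 3) : ℝ) = Z ^ (1 / 3 : ℝ) := by
      rw [one_div Z, Real.inv_rpow hZ.le, Real.rpow_neg hZ.le, inv_inv]
    rw [T1c413.Ic_eq (by positivity), e3, show (4 / 3 : ℝ) = 1 / 3 + 1 by norm_num,
      Real.Gamma_add_one (by norm_num)]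
    ring
  simp_rw [e1] at h1 h2
  rw [e2] at h2
  exact ⟨h1, h2⟩

/-- **the constant identity** -/
theorem const_id :
    pC ^ 2 * ((3 : ℝ) ^ (4 / 3 : ℝ) * (2 * Real.pi / (9 * Real.sqrt 3)) * Real.Gamma (2 / 3) *
      (3 / (4 * Real.pi ^ 2)) ^ (2 / 3 : ℝ)) = 1 / 3 * Real.Gamma (4 / 3) := by
  have hpi := Real.pi_pos
  have h30 : 0 < Real.sqrt 3 := by positivity
  have h3 : Real.sqrt 3 * Real.sqrt 3 = 3 := Real.mul_self_sqrt (by norm_num)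
  have hG23 : 0 < Real.Gamma (2 / 3) := Real.Gamma_pos_of_pos (by norm_num)
  have hrefl : Real.Gamma (1 / 3) * Real.Gamma (2 / 3) = 2 * Real.pi / Real.sqrt 3 := by
    have := Real.Gamma_mul_Gamma_one_sub (1 / 3)
    rw [show (1 : ℝ) - 1 / 3 = 2 / 3 by norm_num] at this
    rw [this, show Real.pi * (1 / 3) = Real.pi / 3 by ring, Real.sin_pi_div_three]
    field_simp
  have hG13 : Real.Gamma (1 / 3) = 2 * Real.pi / Real.sqrt 3 / Real.Gamma (2 / 3) := by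
    rw [eq_div_iff hG23.ne', hrefl]
  have hG43 : Real.Gamma (4 / 3) = 1 / 3 * Real.Gamma (1 / 3) := by
    rw [show (4 / 3 : ℝ) = 1 / 3 + 1 by norm_num, Real.Gamma_add_one (by norm_num)]
  have e4 : (3 / (4 * Real.pi ^ 2)) ^ (2 / 3 : ℝ) =
      (3 : ℝ) ^ (2 / 3 : ℝ) / (2 * Real.pi) ^ (4 / 3 : ℝ) := by
    rw [Real.div_rpow (by norm_num) (by positivity)]
    congr 1
    rw [show 4 * Real.pi ^ 2 = (2 * Real.pi) ^ (2 : ℝ) by rw [Real.rpow_two]; ring,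
      ← Real.rpow_mul (by positivity)]
    norm_num
  have e5 : pC ^ 2 = (2 * Real.pi) ^ (4 / 3 : ℝ) / (9 * Real.Gamma (2 / 3) ^ 2) := by
    unfold pC
    rw [div_pow, ← Real.rpow_natCast ((2 * Real.pi) ^ (2 / 3 : ℝ)) 2,
      ← Real.rpow_mul (by positivity)]
    rw [show (2 / 3 : ℝ) * ((2 : ℕ) : ℝ) = 4 / 3 by norm_num]
    ring
  have e6 : (3 : ℝ) ^ (4 / 3 : ℝ) * (3 : ℝ) ^ (2 / 3 : ℝ) = 9 := by
    rw [← Real.rpow_add (by norm_num)]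
    norm_num
  have hP : 0 < (2 * Real.pi) ^ (4 / 3 : ℝ) := Real.rpow_pos_of_pos (by positivity) _
  rw [e4, e5, hG43, hG13]
  have : (2 * Real.pi) ^ (4 / 3 : ℝ) / (9 * Real.Gamma (2 / 3) ^ 2) *
      ((3 : ℝ) ^ (4 / 3 : ℝ) * (2 * Real.pi / (9 * Real.sqrt 3)) * Real.Gamma (2 / 3) *
        ((3 : ℝ) ^ (2 / 3 : ℝ) / (2 * Real.pi) ^ (4 / 3 : ℝ))) =
      ((3 : ℝ) ^ (4 / 3 : ℝ) * (3 : ℝ) ^ (2 / 3 : ℝ)) *
      (2 * Real.pi / (9 * Real.sqrt 3) / (9 * Real.Gamma (2 / 3))) := by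
    field_simp
  rw [this, e6]
  field_simp
  ring

/-- the main terms of the polar part of a pair with product `b` (`n = nm b`) and of the cubes. -/
theorem polar_eq_cubes {Z n P : ℝ} (hZ : 0 < Z) (hn : 0 < n) :
    2 * Real.pi * Z / Real.sqrt 3 * n ^ (-(1 / 2) : ℝ) * (pC ^ 2 * n ^ (-(1 / 6) : ℝ) *
      ((3 : ℝ) ^ (4 / 3 : ℝ) * (2 * Real.pi / (9 * Real.sqrt 3)) * Real.Gamma (2 / 3) * P *
        (3 * n / (4 * Real.pi ^ 2 * Z)) ^ (2 / 3 : ℝ))) =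
    1 / 3 * (2 * Real.pi / Real.sqrt 3 * Real.Gamma (4 / 3) * P * Z ^ (1 / 3 : ℝ)) := by
  have hpi := Real.pi_pos
  have e1 : (3 * n / (4 * Real.pi ^ 2 * Z)) ^ (2 / 3 : ℝ) =
      (3 / (4 * Real.pi ^ 2)) ^ (2 / 3 : ℝ) * (n ^ (2 / 3 : ℝ) * Z ^ (-(2 / 3) : ℝ)) := by
    rw [show 3 * n / (4 * Real.pi ^ 2 * Z) = (3 / (4 * Real.pi ^ 2)) * (n * Z⁻¹) by
      field_simp, Real.mul_rpow (by positivity) (by positivity),
      Real.mul_rpow hn.le (by positivity), Real.inv_rpow hZ.le, Real.rpow_neg hZ.le]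
  have e2 : n ^ (-(1 / 2) : ℝ) * n ^ (-(1 / 6) : ℝ) * n ^ (2 / 3 : ℝ) = 1 := by
    rw [← Real.rpow_add hn, ← Real.rpow_add hn]
    norm_num
  have e3 : Z * Z ^ (-(2 / 3) : ℝ) = Z ^ (1 / 3 : ℝ) := by
    nth_rewrite 1 [← Real.rpow_one Z]
    rw [← Real.rpow_add hZ]
    norm_num
  rw [e1]
  have h := const_id
  calc _ = 2 * Real.pi / Real.sqrt 3 * P * (n ^ (-(1 / 2) : ℝ) * n ^ (-(1 / 6) : ℝ) *
        n ^ (2 / 3 : ℝ)) * (Z * Z ^ (-(2 / 3) : ℝ)) * (pC ^ 2 *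
        ((3 : ℝ) ^ (4 / 3 : ℝ) * (2 * Real.pi / (9 * Real.sqrt 3)) * Real.Gamma (2 / 3) *
        (3 / (4 * Real.pi ^ 2)) ^ (2 / 3 : ℝ))) := by ring
    _ = _ := by rw [h, e2, e3]; ring

end Crest.Agent.R017.PX241
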