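import Crest.Agent.R017.PX2_764
import Crest.Agent.R017.Dual2A_813

/-!
# Row 17, exceptional class, part 3 (helper764): the forms by greatest common divisor

* `cpS X α β d Ψ` : the sum over coprime pairs of `α (d k₁) conj (β (d k₂)) Ψ k₁ k₂`
* `cpS_moebius`, `sum_eq_cpS`
* `Pnc`, `TDn` : the noncube pair sums, `Vnc = ∑ d, TDn d`, `norm_TDn_le` (positivity)
-/

set_option autoImplicit false

noncomputable section

open MeasureTheory Finset
open scoped ComplexConjugate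

namespace Crest.Agent.R017.PX764

open Crest.Agent.R012 Crest.Agent.R012.Eis Crest.Agent.R012.Gauss880
open Crest.Agent.R012.LS2 Crest.Agent.R012.Mob705
open Crest.Agent.R017.PA842 (V Supp sub restr)
open Crest.Agent.R017.Dual2813 (S_of_dvd sum_mult coprime_indicator summable_tw)

open Classical in
/-- sum over the coprime pairs -/
def cpS (X : ℝ) (α β : Eis → ℂ) (d : Eis) (Ψ : Eis → Eis → ℂ) : ℂ :=
  ∑ k₁ ∈ S X, ∑ k₂ ∈ S X, if IsCoprime k₁ k₂ then α (d * k₁) * conj (β (d * k₂)) * Ψ k₁ k₂ else 0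

lemma cpS_add (X : ℝ) (α β : Eis → ℂ) (d : Eis) (Ψ Ψ' : Eis → Eis → ℂ) :
    cpS X α β d (fun a b => Ψ a b + Ψ' a b) = cpS X α β d Ψ + cpS X α β d Ψ' := by
  unfold cpS
  rw [← Finset.sum_add_distrib]
  refine Finset.sum_congr rfl fun k₁ _ => ?_
  rw [← Finset.sum_add_distrib]
  refine Finset.sum_congr rfl fun k₂ _ => ?_
  split_ifs <;> ring

lemma cpS_sub (X : ℝ) (α β : Eis → ℂ) (d : Eis) (Ψ Ψ' : Eis → Eis → ℂ) :
    cpS X α β d (fun a b => Ψ a b - Ψ' a b) = cpS X α β d Ψ - cpS X α β d Ψ' := by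
  unfold cpS
  rw [← Finset.sum_sub_distrib]
  refine Finset.sum_congr rfl fun k₁ _ => ?_
  rw [← Finset.sum_sub_distrib]
  refine Finset.sum_congr rfl fun k₂ _ => ?_
  split_ifs <;> ring

lemma cpS_smul (X : ℝ) (α β : Eis → ℂ) (d : Eis) (c : ℂ) (Ψ : Eis → Eis → ℂ) :
    cpS X α β d (fun a b => c * Ψ a b) = c * cpS X α β d Ψ := by
  unfold cpS
  rw [Finset.mul_sum]
  refine Finset.sum_congr rfl fun k₁ _ => ?_
  rw [Finset.mul_sum]
  refine Finset.sum_congr rfl fun k₂ _ => ?_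
  split_ifs <;> ring

lemma cpS_sum {ι : Type*} (s : Finset ι) (X : ℝ) (α β : Eis → ℂ) (d : Eis)
    (Ψ : ι → Eis → Eis → ℂ) :
    cpS X α β d (fun a b => ∑ i ∈ s, Ψ i a b) = ∑ i ∈ s, cpS X α β d (Ψ i) := by
  classical
  induction s using Finset.induction_on with
  | empty =>
    simp only [Finset.sum_empty]
    unfold cpS
    simp
  | insert a s ha ih =>
    rw [Finset.sum_insert ha, ← ih, ← cpS_add]
    congr 1
    funext x y
    rw [Finset.sum_insert ha]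

lemma cpS_congr {X : ℝ} {α β : Eis → ℂ} {d : Eis} {Ψ Ψ' : Eis → Eis → ℂ}
    (h : ∀ k₁ k₂, k₁ ∈ S X → k₂ ∈ S X → IsCoprime k₁ k₂ → α (d * k₁) ≠ 0 → β (d * k₂) ≠ 0 →
      Ψ k₁ k₂ = Ψ' k₁ k₂) : cpS X α β d Ψ = cpS X α β d Ψ' := by
  unfold cpS
  refine Finset.sum_congr rfl fun k₁ h₁ => Finset.sum_congr rfl fun k₂ h₂ => ?_
  split_ifs with hc
  · by_cases a : α (d * k₁) = 0
    · rw [a]; ring
    by_cases b : β (d * k₂) = 0
    · rw [b]; simp
    rw [h k₁ k₂ h₁ h₂ hc a b]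
  · rfl

lemma norm_cpS_le {X : ℝ} {α β : Eis → ℂ} {d : Eis} {Ψ : Eis → Eis → ℂ} {B : Eis → Eis → ℝ}
    (h : ∀ k₁ k₂, k₁ ∈ S X → k₂ ∈ S X → IsCoprime k₁ k₂ → α (d * k₁) ≠ 0 → β (d * k₂) ≠ 0 →
      ‖Ψ k₁ k₂‖ ≤ B k₁ k₂) (hB : ∀ k₁ k₂, k₁ ∈ S X → k₂ ∈ S X → 0 ≤ B k₁ k₂) :
    ‖cpS X α β d Ψ‖ ≤ ∑ k₁ ∈ S X, ∑ k₂ ∈ S X, ‖α (d * k₁)‖ * ‖β (d * k₂)‖ * B k₁ k₂ := by
  unfold cpS
  refine (norm_sum_le _ _).trans (Finset.sum_le_sum fun k₁ h₁ => ?_)
  refine (norm_sum_le _ _).trans (Finset.sum_le_sum fun k₂ h₂ => ?_)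
  have hb := hB k₁ k₂ h₁ h₂
  split_ifs with hc
  · rw [norm_mul, norm_mul, RCLike.norm_conj]
    by_cases a : α (d * k₁) = 0
    · rw [a]; simp
    by_cases b : β (d * k₂) = 0
    · rw [b]; simp
    exact mul_le_mul_of_nonneg_left (h k₁ k₂ h₁ h₂ hc a b) (by positivity)
  · rw [norm_zero]; positivity

open Classical in
/-- Moebius for the coprimality -/
theorem cpS_moebius {X : ℝ} (hX : 0 ≤ X) {α β : Eis → ℂ} (hα : ∀ k, k ∉ S X → α k = 0)
    (hβ : ∀ k, k ∉ S X → β k = 0) {d : Eis} (hd : d ∈ S X) (Ψ : Eis → Eis → ℂ) :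
    cpS X α β d Ψ = ∑ f ∈ S X, (mu f : ℂ) * ∑ k₁ ∈ S X, ∑ k₂ ∈ S X,
      α (d * f * k₁) * conj (β (d * f * k₂)) * Ψ (f * k₁) (f * k₂) := by
  unfold cpS
  have hd' := (mem_S hX).1 hd
  have hdiv : ∀ k, d * k ∈ S X → k ∈ S X := by
    intro k hk
    have hk' := (mem_S hX).1 hk
    exact S_of_dvd hX hk (IsPrim.of_mul_left hk'.2.1 hd'.2.1) (dvd_mul_left _ _)
  have e1 : ∀ k1 ∈ S X, ∀ k2 ∈ S X,
      (if IsCoprime k1 k2 then α (d * k1) * conj (β (d * k2)) * Ψ k1 k2 else 0) =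
      ∑ f ∈ S X, (mu f : ℂ) * (if f ∣ k1 then (if f ∣ k2 then
        α (d * k1) * conj (β (d * k2)) * Ψ k1 k2 else 0) else 0) := by
    intro k1 h1 k2 h2
    have e2 : ∑ f ∈ S X, (mu f : ℂ) * (if f ∣ k1 then (if f ∣ k2 then
        α (d * k1) * conj (β (d * k2)) * Ψ k1 k2 else 0) else 0) =
        (if IsCoprime k1 k2 then (1 : ℂ) else 0) *
          (α (d * k1) * conj (β (d * k2)) * Ψ k1 k2) := by
      rw [coprime_indicator hX h1 h2, Finset.sum_mul]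
      refine Finset.sum_congr rfl fun f _ => ?_
      split_ifs <;> ring
    rw [e2]
    split_ifs <;> ring
  rw [Finset.sum_congr rfl fun k1 h1 => Finset.sum_congr rfl fun k2 h2 => e1 k1 h1 k2 h2]
  rw [Finset.sum_congr rfl fun k1 _ => Finset.sum_comm]
  rw [Finset.sum_comm]
  refine Finset.sum_congr rfl fun f hf => ?_
  have hf' := (mem_S hX).1 hf
  have e3 : ∀ k1 ∈ S X, ∑ k2 ∈ S X, (mu f : ℂ) * (if f ∣ k1 then (if f ∣ k2 then
        α (d * k1) * conj (β (d * k2)) * Ψ k1 k2 else 0) else 0) =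
      (mu f : ℂ) * (if f ∣ k1 then ∑ k2 ∈ S X,
        (if f ∣ k2 then α (d * k1) * conj (β (d * k2)) * Ψ k1 k2 else 0) else 0) := by
    intro k1 _
    rw [← Finset.mul_sum]
    congr 1
    split_ifs with h
    · rfl
    · simp
  rw [Finset.sum_congr rfl e3, ← Finset.mul_sum]
  congr 1
  rw [sum_mult hX hf'.2.1 (fun k1 => ∑ k2 ∈ S X,
        (if f ∣ k2 then α (d * k1) * conj (β (d * k2)) * Ψ k1 k2 else 0))]
  swap
  · intro k hk
    apply Finset.sum_eq_zero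
    intro k2 _
    have : α (d * k) = 0 := hα _ (fun h => hk (hdiv k h))
    rw [this]
    simp
  refine Finset.sum_congr rfl fun k1 _ => ?_
  rw [sum_mult hX hf'.2.1 (fun k2 => α (d * (f * k1)) * conj (β (d * k2)) * Ψ (f * k1) k2)]
  · refine Finset.sum_congr rfl fun k2 _ => ?_
    rw [mul_assoc d f k1, mul_assoc d f k2]
  · intro k hk
    have : β (d * k) = 0 := hβ _ (fun h => hk (hdiv k h))
    rw [this]
    simp

open Classical in
/-- the splitting by the gcd -/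
theorem sum_eq_cpS {X : ℝ} (hX : 0 ≤ X) {α β : Eis → ℂ} (hα : ∀ k, k ∉ S X → α k = 0)
    (hβ : ∀ k, k ∉ S X → β k = 0) (K : Eis → Eis → ℂ) :
    ∑ m₁ ∈ S X, ∑ m₂ ∈ S X, α m₁ * conj (β m₂) * K m₁ m₂ =
      ∑ d ∈ S X, cpS X α β d (fun k₁ k₂ => K (d * k₁) (d * k₂)) := by
  rw [Tau671.sum_pairs_gcd (S := S X) (D := S X) (fun b hb => ((mem_S hX).1 hb).2)
    (fun d hd => ((mem_S hX).1 hd).2.1) (fun b hb d hd hdb => S_of_dvd hX hb hd hdb)
    (fun m1 m2 => α m1 * conj (β m2) * K m1 m2)]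
  refine Finset.sum_congr rfl fun d hd => ?_
  unfold cpS
  refine Finset.sum_congr rfl fun k1 h1 => Finset.sum_congr rfl fun k2 h2 => ?_
  by_cases a1 : α (d * k1) = 0
  · rw [a1]; simp
  by_cases a2 : β (d * k2) = 0
  · rw [a2]; simp
  have m1 : d * k1 ∈ S X := by by_contra hc; exact a1 (hα _ hc)
  have m2 : d * k2 ∈ S X := by by_contra hc; exact a2 (hβ _ hc)
  by_cases hc : IsCoprime k1 k2
  · rw [if_pos ⟨m1, m2, hc⟩, if_pos hc]
  · rw [if_neg (fun h => hc h.2.2), if_neg hc]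

/-! ### the noncube pair sums -/

open Classical in
/-- the noncube sum of a pair -/
def Pnc (Z : ℝ) (h₁ h₂ : Eis) : ℂ :=
  ∑' n : Eis, ((Real.exp (-(nm n : ℝ) / Z) : ℝ) : ℂ) *
    (if T411.NCube n then sy n h₁ * conj (sy n h₂) else 0)

lemma ws_zero {w : Eis → ℂ} {X : ℝ} : ∀ k, k ∉ S X → ws w X k = 0 := fun k hk => by
  unfold ws; rw [if_neg hk]

lemma ws_eq {w : Eis → ℂ} {X : ℝ} {k : Eis} (hk : k ∈ S X) : ws w X k = w k := by
  unfold ws; rw [if_pos hk]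

lemma ws_ne {w : Eis → ℂ} {X : ℝ} {k : Eis} (hk : ws w X k ≠ 0) : k ∈ S X := by
  by_contra h; exact hk (ws_zero k h)

/-- the noncube form of the pairs with gcd `d` -/
def TDn (X Z : ℝ) (w : Eis → ℂ) (d : Eis) : ℂ :=
  cpS X (ws w X) (ws w X) d (fun k₁ k₂ => Pnc Z (d * k₁) (d * k₂))

lemma norm_sy_le' {n h : Eis} (hh : IsPrim h) : ‖sy n h‖ ≤ 1 := Tau671.norm_sy_le hh

open Classical in
lemma summable_Pnc {Z : ℝ} (hZ : 0 < Z) {h₁ h₂ : Eis} (p₁ : IsPrim h₁) (p₂ : IsPrim h₂) :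
    Summable fun n : Eis => ((Real.exp (-(nm n : ℝ) / Z) : ℝ) : ℂ) *
      (if T411.NCube n then sy n h₁ * conj (sy n h₂) else 0) := by
  refine summable_tw hZ _ (M := 1) (fun n => ?_)
  split_ifs
  · rw [norm_mul, RCLike.norm_conj]
    exact mul_le_one₀ (norm_sy_le' p₁) (norm_nonneg _) (norm_sy_le' p₂)
  · simp

open Classical in
/-- the form over the noncubes as a sum over pairs, arbitrary finite families -/
lemma sq_sum_eq {X Z : ℝ} (hX : 0 ≤ X) (hZ : 0 < Z) (u : Eis → ℂ) :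
    ((∑' n : Eis, (if T411.NCube n then Real.exp (-(nm n : ℝ) / Z) *
        ‖∑ h ∈ S X, u h * sy n h‖ ^ 2 else 0) : ℝ) : ℂ) =
      ∑ h₁ ∈ S X, ∑ h₂ ∈ S X, u h₁ * conj (u h₂) * Pnc Z h₁ h₂ := by
  rw [Complex.ofReal_tsum]
  have hsum : ∀ h₁ ∈ S X, ∀ h₂ ∈ S X, Summable fun n : Eis => u h₁ * conj (u h₂) *
      (((Real.exp (-(nm n : ℝ) / Z) : ℝ) : ℂ) *
      (if T411.NCube n then sy n h₁ * conj (sy n h₂) else 0)) := fun h₁ a h₂ b =>
    (summable_Pnc hZ ((mem_S hX).1 a).2.1 ((mem_S hX).1 b).2.1).mul_left _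
  have e1 : ∀ n : Eis, (((if T411.NCube n then Real.exp (-(nm n : ℝ) / Z) *
        ‖∑ h ∈ S X, u h * sy n h‖ ^ 2 else 0) : ℝ) : ℂ) =
      ∑ h₁ ∈ S X, ∑ h₂ ∈ S X, u h₁ * conj (u h₂) *
      (((Real.exp (-(nm n : ℝ) / Z) : ℝ) : ℂ) *
      (if T411.NCube n then sy n h₁ * conj (sy n h₂) else 0)) := by
    intro n
    by_cases h : T411.NCube n
    · rw [if_pos h]
      have e2 : ((‖∑ h ∈ S X, u h * sy n h‖ ^ 2 : ℝ) : ℂ) =
          (∑ h ∈ S X, u h * sy n h) * conj (∑ h ∈ S X, u h * sy n h) := by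
        rw [Complex.mul_conj, Complex.normSq_eq_norm_sq]
      push_cast at e2 ⊢
      rw [e2, map_sum, Finset.sum_mul_sum, Finset.mul_sum]
      refine Finset.sum_congr rfl fun h₁ _ => ?_
      rw [Finset.mul_sum]
      refine Finset.sum_congr rfl fun h₂ _ => ?_
      rw [if_pos h, map_mul]
      ring
    · rw [if_neg h]
      simp [h]
  rw [tsum_congr e1, Summable.tsum_finsetSum (fun h₁ a => summable_sum fun h₂ b => hsum h₁ a h₂ b)]
  refine Finset.sum_congr rfl fun h₁ a => ?_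
  rw [Summable.tsum_finsetSum (fun h₂ b => hsum h₁ a h₂ b)]
  refine Finset.sum_congr rfl fun h₂ _ => ?_
  rw [tsum_mul_left]
  rfl

/-- **decomposition of `Vnc` by the gcd** -/
theorem Vnc_eq_sum {X Z : ℝ} (hX : 0 ≤ X) (hZ : 0 < Z) (w : Eis → ℂ) :
    ((Vnc X Z w : ℝ) : ℂ) = ∑ d ∈ S X, TDn X Z w d := by
  classical
  have h1 := sq_sum_eq hX hZ w
  unfold Vnc
  rw [h1]
  have h2 := sum_eq_cpS hX (α := ws w X) (β := ws w X) ws_zero ws_zero (Pnc Z)
  unfold TDn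
  rw [← h2]
  refine Finset.sum_congr rfl fun h₁ a => Finset.sum_congr rfl fun h₂ b => ?_
  rw [ws_eq a, ws_eq b]

lemma Vnc_nonneg (X Z : ℝ) (w : Eis → ℂ) : 0 ≤ Vnc X Z w := by
  classical
  unfold Vnc
  refine tsum_nonneg fun n => ?_
  split_ifs <;> positivity

open Classical in
lemma summable_Vnc {X Z : ℝ} (hX : 0 ≤ X) (hZ : 0 < Z) (w : Eis → ℂ) :
    Summable fun n : Eis => if T411.NCube n then Real.exp (-(nm n : ℝ) / Z) *
      ‖∑ h ∈ S X, w h * sy n h‖ ^ 2 else 0 := by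
  refine Summable.of_nonneg_of_le (fun n => ?_) (fun n => ?_) (PA842.summable_V hX hZ w)
  · split_ifs <;> positivity
  · split_ifs
    · exact le_rfl
    · positivity

/-- one Moebius term is nonnegative and bounded by a shorter form -/
lemma moebius_term {X Z : ℝ} (hX : 0 ≤ X) (hZ : 0 < Z) {w : Eis → ℂ} (hw : Supp w X)
    {g : Eis} (hg : IsPrim g) :
    ‖∑ k₁ ∈ S X, ∑ k₂ ∈ S X, ws w X (g * k₁) * conj (ws w X (g * k₂)) *
      Pnc Z (g * k₁) (g * k₂)‖ ≤ Vnc (X / nm g) Z (sub w g) := by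
  classical
  have hn : (0 : ℝ) < nm g := by exact_mod_cast nm_pos.2 hg.ne_zero
  have hX' : 0 ≤ X / nm g := by positivity
  -- pass to the elements `g k`
  have e1 : ∑ k₁ ∈ S X, ∑ k₂ ∈ S X, ws w X (g * k₁) * conj (ws w X (g * k₂)) *
      Pnc Z (g * k₁) (g * k₂) =
      ∑ h₁ ∈ S X, ∑ h₂ ∈ S X, restr (ws w X) g h₁ * conj (restr (ws w X) g h₂) * Pnc Z h₁ h₂ := by
    have s1 : ∀ h₁ : Eis, ∑ h₂ ∈ S X, restr (ws w X) g h₁ * conj (restr (ws w X) g h₂) *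
        Pnc Z h₁ h₂ = restr (ws w X) g h₁ * ∑ k₂ ∈ S X, conj (ws w X (g * k₂)) *
        Pnc Z h₁ (g * k₂) := by
      intro h₁
      have := sum_mult hX hg (fun k => conj (ws w X k) * Pnc Z h₁ k) (fun k hk => by
        rw [ws_zero k hk]; simp)
      rw [← this, Finset.mul_sum]
      refine Finset.sum_congr rfl fun h₂ _ => ?_
      unfold restr
      split_ifs <;> simp [mul_assoc]
    rw [Finset.sum_congr rfl fun h₁ _ => s1 h₁]
    have s2 := sum_mult hX hg (fun k => ws w X k * ∑ k₂ ∈ S X, conj (ws w X (g * k₂)) *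
        Pnc Z k (g * k₂)) (fun k hk => by rw [ws_zero k hk]; simp)
    have s3 : ∀ h₁ ∈ S X, restr (ws w X) g h₁ * ∑ k₂ ∈ S X, conj (ws w X (g * k₂)) *
        Pnc Z h₁ (g * k₂) = if g ∣ h₁ then ws w X h₁ * ∑ k₂ ∈ S X, conj (ws w X (g * k₂)) *
        Pnc Z h₁ (g * k₂) else 0 := by
      intro h₁ _
      unfold restr
      split_ifs <;> simp
    rw [Finset.sum_congr rfl s3, s2]
    refine Finset.sum_congr rfl fun k₁ _ => ?_
    rw [Finset.mul_sum]
    refine Finset.sum_congr rfl fun k₂ _ => ?_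
    ring
  rw [e1, ← sq_sum_eq hX hZ (restr (ws w X) g), Complex.norm_real, Real.norm_of_nonneg]
  · unfold Vnc
    have hs1 := summable_Vnc hX hZ (restr (ws w X) g)
    refine hs1.tsum_le_tsum (fun n => ?_) (summable_Vnc hX' hZ (sub w g))
    by_cases h : T411.NCube n
    · rw [if_pos h, if_pos h]
      refine mul_le_mul_of_nonneg_left ?_ (Real.exp_pos _).le
      have e2 : ∑ h ∈ S X, restr (ws w X) g h * sy n h = ∑ h ∈ S X, restr w g h * sy n h := by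
        refine Finset.sum_congr rfl fun h hh => ?_
        unfold restr
        rw [ws_eq hh]
      rw [e2, PA842.sum_restr hX hw hg, norm_mul]
      apply pow_le_pow_left₀ (by positivity)
      exact mul_le_of_le_one_left (norm_nonneg _) (Tau671.norm_sy_le hg)
    · rw [if_neg h, if_neg h]
  · refine tsum_nonneg fun n => ?_
    split_ifs <;> positivity

open Classical in
/-- **positivity bound for one gcd** -/
theorem norm_TDn_le {X Z : ℝ} (hX : 0 ≤ X) (hZ : 0 < Z) {w : Eis → ℂ} (hw : Supp w X) {d : Eis}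
    (hd : d ∈ S X) :
    ‖TDn X Z w d‖ ≤ ∑ f ∈ (S X).filter (fun f => d * f ∈ S X),
      Vnc (X / nm (d * f)) Z (sub w (d * f)) := by
  unfold TDn
  rw [cpS_moebius hX ws_zero ws_zero hd, Finset.sum_filter]
  refine (norm_sum_le _ _).trans (Finset.sum_le_sum fun f hf => ?_)
  have hd' := (mem_S hX).1 hd
  have hf' := (mem_S hX).1 hf
  have m2 : ‖((mu f : ℤ) : ℂ)‖ ≤ 1 := by
    rw [Complex.norm_intCast]
    exact_mod_cast abs_mu_le_one f
  split_ifs with h2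
  · rw [norm_mul]
    have h3 := moebius_term hX hZ hw (hd'.2.1.mul hf'.2.1)
    have e3 : ∑ k₁ ∈ S X, ∑ k₂ ∈ S X, ws w X (d * f * k₁) * conj (ws w X (d * f * k₂)) *
        Pnc Z (d * (f * k₁)) (d * (f * k₂)) = ∑ k₁ ∈ S X, ∑ k₂ ∈ S X, ws w X (d * f * k₁) *
        conj (ws w X (d * f * k₂)) * Pnc Z (d * f * k₁) (d * f * k₂) := by
      refine Finset.sum_congr rfl fun k₁ _ => Finset.sum_congr rfl fun k₂ _ => ?_
      rw [mul_assoc d f k₁, mul_assoc d f k₂]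
    rw [e3]
    calc _ ≤ 1 * Vnc (X / nm (d * f)) Z (sub w (d * f)) := by gcongr
      _ = _ := one_mul _
  · have hz : ∑ k₁ ∈ S X, ∑ k₂ ∈ S X, ws w X (d * f * k₁) * conj (ws w X (d * f * k₂)) *
        Pnc Z (d * (f * k₁)) (d * (f * k₂)) = 0 := by
      apply Finset.sum_eq_zero
      intro k₁ hk₁
      apply Finset.sum_eq_zero
      intro k₂ _
      have : ws w X (d * f * k₁) = 0 := by
        apply ws_zero
        intro hk
        apply h2
        exact S_of_dvd hX hk (hd'.2.1.mul hf'.2.1) (dvd_mul_right _ _)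
      rw [this]; ring
    rw [hz]; simp

end Crest.Agent.R017.PX764
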