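import Crest.Agent.R017.PX3_764
import Crest.Agent.R017.CubeK_411

/-!
# Row 17, exceptional class, part 4c (helper764): the cubes of the left hand side
-/

set_option autoImplicit false

noncomputable section

open MeasureTheory Finset
open scoped ComplexConjugate

namespace Crest.Agent.R017.PX764

open Crest.Agent.R012 Crest.Agent.R012.Eis Crest.Agent.R012.Gauss880
open Crest.Agent.R012.LS2 Crest.Agent.R012.Mob705
open Crest.Agent.R017.CubeK411
open Crest.Agent.R017.Dual2813 (summable_tw)

open Classical in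
/-- the sum over the nonzero cubes -/
lemma cube_fib {g : Eis → ℂ} (hs : Summable fun l : Eis => if l = 0 then 0 else g (l ^ 3)) :
    ∑' n : Eis, (if n ≠ 0 ∧ ∃ m : Eis, n = m ^ 3 then g n else 0) =
      (1 / 3) * ∑' l : Eis, (if l = 0 then 0 else g (l ^ 3)) := by
  set G : Eis → ℂ := fun l => if l = 0 then 0 else g (l ^ 3) with hG
  set F : Eis → ℂ := fun n => if n ≠ 0 ∧ ∃ m : Eis, n = m ^ 3 then g n else 0 with hF
  have hfib : ∀ k : Eis, ∑' l : (fun l : Eis => l ^ 3) ⁻¹' {k}, G l = 3 * F k := by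
    intro k
    by_cases hk : ∃ m : Eis, k = m ^ 3
    · obtain ⟨m, rfl⟩ := hk
      by_cases hm : m = 0
      · subst hm
        have hset : ((fun l : Eis => l ^ 3) ⁻¹' {(0 : Eis) ^ 3}) =
            ((({0} : Finset Eis) : Set Eis)) := by
          ext l
          simp
        rw [hset, Finset.tsum_subtype', Finset.sum_singleton]
        simp only [hG, hF]
        simp
      · have hset : ((fun l : Eis => l ^ 3) ⁻¹' {m ^ 3}) =
            (((({m, w3 * m, w3 ^ 2 * m} : Finset Eis)) : Set Eis)) := by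
          ext l
          simp only [Set.mem_preimage, Set.mem_singleton_iff, Finset.coe_insert,
            Finset.coe_singleton, Set.mem_insert_iff]
          exact cube_eq_iff l m
        have hd1 : m ≠ w3 * m := by
          intro h
          exact w3_ne_one (mul_right_cancel₀ hm (by rw [← h, one_mul]))
        have hd2 : m ≠ w3 ^ 2 * m := by
          intro h
          exact w3_sq_ne_one (mul_right_cancel₀ hm (by rw [← h, one_mul]))
        have hd3 : w3 * m ≠ w3 ^ 2 * m := by
          intro h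
          have h' := mul_right_cancel₀ hm h
          have h0 : w3 ≠ 0 := w3_isUnit.ne_zero
          apply w3_ne_one
          rw [pow_two] at h'
          exact (mul_left_cancel₀ h0 (by rw [← h', mul_one])).symm
        rw [hset, Finset.tsum_subtype', Finset.sum_insert (by simp [hd1, hd2]),
          Finset.sum_insert (by simp [hd3]), Finset.sum_singleton]
        have h1 : w3 * m ≠ 0 := mul_ne_zero w3_isUnit.ne_zero hm
        have h2 : w3 ^ 2 * m ≠ 0 := mul_ne_zero (w3_isUnit.pow 2).ne_zero hm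
        have e1 : G (w3 * m) = G m := by
          simp only [hG]
          rw [if_neg h1, if_neg hm, (cube_eq_iff (w3 * m) m).mpr (Or.inr (Or.inl rfl))]
        have e2 : G (w3 ^ 2 * m) = G m := by
          simp only [hG]
          rw [if_neg h2, if_neg hm, (cube_eq_iff (w3 ^ 2 * m) m).mpr (Or.inr (Or.inr rfl))]
        rw [e1, e2]
        simp only [hG, hF]
        rw [if_neg hm, if_pos ⟨pow_ne_zero 3 hm, m, rfl⟩]
        ring
    · have hset : ((fun l : Eis => l ^ 3) ⁻¹' {k}) = ((∅ : Finset Eis) : Set Eis) := by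
        ext l
        simp only [Set.mem_preimage, Set.mem_singleton_iff, Finset.coe_empty,
          Set.mem_empty_iff_false, iff_false]
        intro h
        exact hk ⟨l, h.symm⟩
      rw [hset, Finset.tsum_subtype', Finset.sum_empty]
      simp only [hF]
      rw [if_neg (fun h => hk h.2), mul_zero]
  have hsum := (hs.hasSum).tsum_fiberwise (fun l : Eis => l ^ 3)
  have hsum2 : HasSum (fun k => 3 * F k) (∑' l, G l) := by
    have : (fun k => 3 * F k) = fun k : Eis => ∑' l : (fun l : Eis => l ^ 3) ⁻¹' {k}, G l :=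
      funext fun k => (hfib k).symm
    rw [this]
    exact hsum
  have := (hsum2.mul_left (1 / 3)).tsum_eq
  rw [← this]
  apply tsum_congr
  intro k
  ring

lemma sy_cube_mul {m h : Eis} (hh : IsPrim h) (hc : IsCoprime m h) : sy (m ^ 3) h = 1 := by
  rw [pow_succ, pow_two, syG.mul_left _ _ _ hh, syG.mul_left _ _ _ hh]
  have := syG.cube m h hh hc
  rw [← this]; ring

open Classical in
/-- the pair product at a cube -/
lemma pair_at_cube {m d k₁ k₂ : Eis} (hd : IsPrim d) (p₁ : IsPrim k₁) (p₂ : IsPrim k₂) :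
    sy (m ^ 3) (d * k₁) * conj (sy (m ^ 3) (d * k₂)) =
      if IsCoprime m (d * (k₁ * k₂)) then 1 else 0 := by
  have h1 : ∀ k, IsPrim k → (¬ IsCoprime m (d * k) → sy (m ^ 3) (d * k) = 0) := by
    intro k hk hc
    rw [syG.eq_zero _ _ (hd.mul hk)]
    intro h
    exact hc ((IsCoprime.pow_left_iff (by norm_num)).1 h)
  by_cases a1 : IsCoprime m (d * k₁)
  · by_cases a2 : IsCoprime m (d * k₂)
    · rw [if_pos, sy_cube_mul (hd.mul p₁) a1, sy_cube_mul (hd.mul p₂) a2]
      · simp
      · exact (a1.of_mul_right_left).mul_right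
          ((a1.of_mul_right_right).mul_right a2.of_mul_right_right)
    · rw [if_neg, h1 k₂ p₂ a2]
      · simp
      · intro h
        exact a2 (h.of_mul_right_left.mul_right h.of_mul_right_right.of_mul_right_right)
  · rw [if_neg, h1 k₁ p₁ a1]
    · simp
    · intro h
      exact a1 (h.of_mul_right_left.mul_right h.of_mul_right_right.of_mul_right_left)

lemma sy_zero_eq {h : Eis} (hh : IsPrim h) (h1 : h ≠ 1) : sy 0 h = 0 := by
  rw [syG.eq_zero _ _ hh, isCoprime_zero_left]
  intro hu
  exact h1 (isPrim_eq_one_of_isUnit hh hu)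

lemma sy_one_right' (x : Eis) : sy x 1 = 1 := by simp [sy, UniqueFactorizationMonoid.factors_one]

open Classical in
/-- **removal of the cubes** -/
theorem Pnc_cubes {Z : ℝ} (hZ : 0 < Z) {d k₁ k₂ : Eis} (hd : IsPrim d) (p₁ : IsPrim k₁)
    (p₂ : IsPrim k₂) :
    Pnc Z (d * k₁) (d * k₂) =
      ∑' n : Eis, ((Real.exp (-(nm n : ℝ) / Z) : ℝ) : ℂ) *
        (sy n (d * k₁) * conj (sy n (d * k₂))) -
      (if d * k₁ = 1 ∧ d * k₂ = 1 then 1 else 0) -
      (1 / 3) * ((∑' m : Eis, (if m ≠ 0 ∧ IsCoprime m (d * (k₁ * k₂)) then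
        Real.exp (-((nm m : ℝ) ^ 3) / Z) else 0) : ℝ) : ℂ) := by
  have q₁ := hd.mul p₁
  have q₂ := hd.mul p₂
  set F : Eis → ℂ := fun n => ((Real.exp (-(nm n : ℝ) / Z) : ℝ) : ℂ) *
        (sy n (d * k₁) * conj (sy n (d * k₂))) with hF
  have hb : ∀ n, ‖sy n (d * k₁) * conj (sy n (d * k₂))‖ ≤ 1 := fun n => by
    rw [norm_mul, RCLike.norm_conj]
    exact mul_le_one₀ (norm_sy_le' q₁) (norm_nonneg _) (norm_sy_le' q₂)
  have sF : Summable F := summable_tw hZ _ hb
  have s1 : Summable fun n : Eis => if n ≠ 0 ∧ ∃ m : Eis, n = m ^ 3 then F n else 0 := by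
    refine Summable.of_norm_bounded sF.norm (fun n => ?_)
    split_ifs
    · exact le_rfl
    · rw [norm_zero]; exact norm_nonneg _
  have s0 : Summable fun n : Eis => if n = 0 then F 0 else 0 :=
    summable_of_ne_finset_zero (s := {0}) (fun n hn => if_neg (by simpa using hn))
  have e1 : ∀ n : Eis, ((Real.exp (-(nm n : ℝ) / Z) : ℝ) : ℂ) *
      (if T411.NCube n then sy n (d * k₁) * conj (sy n (d * k₂)) else 0) =
      F n - (if n = 0 then F 0 else 0) - (if n ≠ 0 ∧ ∃ m : Eis, n = m ^ 3 then F n else 0) := by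
    intro n
    by_cases h0 : n = 0
    · subst h0
      rw [if_neg (fun h => h.1 rfl), if_pos rfl, if_neg (fun h => h.1 rfl)]
      ring
    · by_cases hc : ∃ m : Eis, n = m ^ 3
      · obtain ⟨m, hm⟩ := hc
        rw [if_neg (fun h => h.2 m hm), if_neg h0, if_pos ⟨h0, m, hm⟩]
        ring
      · rw [if_pos ⟨h0, fun m hm => hc ⟨m, hm⟩⟩, if_neg h0, if_neg (fun h => hc h.2)]
        ring
  unfold Pnc
  rw [tsum_congr e1, (sF.sub s0).tsum_sub s1, sF.tsum_sub s0]
  congr 1
  · congr 1
    rw [tsum_eq_single 0 (fun n hn => if_neg hn), if_pos rfl]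
    simp only [hF]
    have h0 : nm (0 : Eis) = 0 := nm_eq_zero.2 rfl
    rw [h0]
    by_cases a1 : d * k₁ = 1
    · by_cases a2 : d * k₂ = 1
      · rw [if_pos ⟨a1, a2⟩, a1, a2, sy_one_right']; simp
      · rw [if_neg (fun h => a2 h.2), sy_zero_eq q₂ a2]; simp
    · rw [if_neg (fun h => a1 h.1), sy_zero_eq q₁ a1]; simp
  · have e2 : ∀ l : Eis, (if l = 0 then 0 else F (l ^ 3)) =
        (((if l ≠ 0 ∧ IsCoprime l (d * (k₁ * k₂)) then
        Real.exp (-((nm l : ℝ) ^ 3) / Z) else 0) : ℝ) : ℂ) := by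
      intro l
      by_cases h0 : l = 0
      · rw [if_pos h0, if_neg (fun h => h.1 h0)]; simp
      · rw [if_neg h0]
        simp only [hF]
        rw [pair_at_cube hd p₁ p₂, nm_pow]
        by_cases hc : IsCoprime l (d * (k₁ * k₂))
        · rw [if_pos hc, if_pos ⟨h0, hc⟩]; push_cast; ring
        · rw [if_neg hc, if_neg (fun h => hc h.2)]; simp
    have s2 : Summable fun l : Eis => if l = 0 then 0 else F (l ^ 3) := by
      have h3 : Summable fun l : Eis => Real.exp (-(1 / Z * nm l)) :=
        summable_exp_nm (by positivity)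
      refine Summable.of_norm_bounded h3 (fun l => ?_)
      rw [e2 l, Complex.norm_real]
      split_ifs with h
      · rw [Real.norm_of_nonneg (Real.exp_pos _).le]
        apply Real.exp_le_exp.2
        have hn : (1 : ℝ) ≤ nm l := by exact_mod_cast nm_pos.2 h.1
        have h4 : (nm l : ℝ) ≤ (nm l : ℝ) ^ 3 := by
          calc (nm l : ℝ) = (nm l : ℝ) ^ 1 := (pow_one _).symm
            _ ≤ _ := pow_le_pow_right₀ hn (by norm_num)
        have h5 : 1 / Z * nm l ≤ (nm l : ℝ) ^ 3 / Z := by
          rw [one_div, div_eq_inv_mul]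
          exact mul_le_mul_of_nonneg_left h4 (by positivity)
        rw [neg_div]
        linarith
      · rw [norm_zero]; exact (Real.exp_pos _).le
    rw [cube_fib s2, Complex.ofReal_tsum]
    congr 1
    exact tsum_congr e2

end Crest.Agent.R017.PX764
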