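import Crest.Agent.R017.P3allF_283
import Crest.Agent.R017.PX2c_241
import Crest.Agent.R017.PX4c_764

/-!
# Row 17, exceptional class, part 4 (helper764): the exact evaluation of one pair

* `Ue_fq` : `Ue e l k = Gh (fq e l) k N(k)^(-1/2)`
* `kc`, `Gh_pair` : the expansion of the pair product into bias-corrected and polar parts
* `collapse` : the sum over `e ∣ d` of the polar parts
* `Pnc_exact` : the exact evaluation of the noncube pair sum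
-/

set_option autoImplicit false

noncomputable section

open MeasureTheory Finset
open scoped ComplexConjugate

namespace Crest.Agent.R017.PX764

open Crest.Agent.R012 Crest.Agent.R012.Eis Crest.Agent.R012.Gauss880
open Crest.Agent.R012.LS2 Crest.Agent.R012.Mob705
open Crest.Agent.R017.PA842 (V Supp sub restr)
open Crest.Agent.R017.Dual2813 (S_of_dvd sum_mult coprime_indicator summable_tw Phi phl
  summable_phl norm_phl_le pair_cop)

/-! ### norms -/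

lemma norm_Gh_le {h a : Eis} (ha : IsPrim a) : ‖Gh h a‖ ≤ 1 := by
  by_cases hs : Squarefree a
  · by_cases hc : IsCoprime h a
    · exact (norm_Gh_one ha hs hc).le
    · rw [Gh_zero ha hc]; simp
  · rw [Gh_not_sqf ha hs]; simp

lemma norm_th3_le {l : Eis} (hl : l ≠ 0) : ‖th (3 * l)‖ ≤ 1 := by
  have h := P3all283.norm_rho3_le rho_MS rho_rel (P3all283.rho18 rho_MS rho_rel) hl
  have h2 : ‖th (3 * l)‖ ^ 2 ≤ 1 := by
    unfold th cD
    exact h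
  nlinarith [norm_nonneg (th (3 * l))]

lemma fq_eq (e l : Eis) : fq e l = 3 * (-(l * e ^ 2)) := by
  unfold fq
  rw [mul_pow, sq3_sq]
  ring

lemma norm_th_fq_le {e l : Eis} (he : e ≠ 0) (hl : l ≠ 0) : ‖th (fq e l)‖ ≤ 1 := by
  rw [fq_eq]
  exact norm_th3_le (neg_ne_zero.2 (mul_ne_zero hl (pow_ne_zero 2 he)))

lemma norm_Dk_le {h n : Eis} (hn : IsPrim n) (hh : ‖th h‖ ≤ 1) : ‖Dk h n‖ ≤ 1 + pC := by
  unfold Dk
  have hp := pC_pos
  refine (norm_sub_le _ _).trans (add_le_add (norm_Gh_le hn) ?_)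
  rw [norm_mul, norm_mul, Complex.norm_real, Complex.norm_real, Real.norm_of_nonneg hp.le,
    Real.norm_of_nonneg (md_nonneg hn.ne_zero)]
  calc pC * ‖th h‖ * md h n ≤ pC * 1 * 1 := by
        have := md_le_one (h := h) hn.ne_zero
        have := md_nonneg (h := h) hn.ne_zero
        gcongr
    _ = pC := by ring

/-! ### the dual coefficients -/

lemma sy_conj_sq {x k : Eis} (hk : IsPrim k) : conj (sy x k) ^ 2 = sy x k := by
  by_cases hc : IsCoprime x k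
  · have h1 := syG.cube x k hk hc
    have h2 : conj (sy x k) * sy x k = 1 := by
      rw [mul_comm, Complex.mul_conj, Complex.normSq_eq_norm_sq, norm_sy_one hk hc]; simp
    have h3 : conj (sy x k) ^ 3 = 1 := by rw [← map_pow, h1, map_one]
    calc conj (sy x k) ^ 2 = conj (sy x k) ^ 2 * (conj (sy x k) * sy x k) := by rw [h2, mul_one]
      _ = conj (sy x k) ^ 3 * sy x k := by ring
      _ = _ := by rw [h3, one_mul]
  · rw [(syG.eq_zero x k hk).2 hc]; simp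

lemma Ue_fq {k : Eis} (hk : IsPrim k) (e l : Eis) :
    Ue e l k = Gh (fq e l) k * (((nm k : ℝ) ^ (-(1 / 2) : ℝ) : ℝ) : ℂ) := by
  unfold Ue Gh fq
  rw [cpow_neg_half hk, pow_two, syG.mul_left l (e * sq3 * (e * sq3)) _ hk,
    syG.mul_left (e * sq3) (e * sq3) _ hk]
  have := sy_conj_sq (x := e * sq3) hk
  rw [map_mul, map_mul, ← pow_two, this]
  ring

/-- the polar cross kernel -/
def kc (h m₁ m₂ : Eis) : ℂ := (md h m₁ : ℂ) * (th h * conj (Dk h m₂))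

/-- the square of the bias -/
def kp (h m₁ m₂ : Eis) : ℂ := ((‖th h‖ ^ 2 * (md h m₁ * md h m₂) : ℝ) : ℂ)

/-- the polar part of the pair product -/
def pol (h m₁ m₂ : Eis) : ℂ :=
  (pC : ℂ) * (kc h m₁ m₂ + conj (kc h m₂ m₁)) + (pC : ℂ) ^ 2 * kp h m₁ m₂

lemma Gh_pair (h m₁ m₂ : Eis) :
    Gh h m₁ * conj (Gh h m₂) = Dk h m₁ * conj (Dk h m₂) + pol h m₁ m₂ := by
  have e1 : Gh h m₁ = Dk h m₁ + (pC : ℂ) * th h * (md h m₁ : ℂ) := by unfold Dk; ring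
  have e2 : Gh h m₂ = Dk h m₂ + (pC : ℂ) * th h * (md h m₂ : ℂ) := by unfold Dk; ring
  have e3 : ((‖th h‖ ^ 2 : ℝ) : ℂ) = th h * conj (th h) := by
    rw [Complex.mul_conj, Complex.normSq_eq_norm_sq]
  unfold pol kc kp
  rw [e1, e2]
  push_cast at e3 ⊢
  rw [e3]
  simp only [map_add, map_mul, Complex.conj_ofReal, Complex.conj_conj]
  ring

lemma pol_zero {h m₁ m₂ : Eis} (hh : th h = 0) : pol h m₁ m₂ = 0 := by
  unfold pol kc kp
  rw [hh]; simp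

lemma kc_zero {h m₁ m₂ : Eis} (hh : th h = 0) : kc h m₁ m₂ = 0 := by
  unfold kc
  rw [hh]; simp

lemma md_cube {h e n : Eis} (hc : IsCoprime e n) : md (h * e ^ 3) n = md h n := by
  classical
  unfold md
  have h1 : IsCoprime n (h * e ^ 3) ↔ IsCoprime n h := by
    rw [IsCoprime.mul_right_iff]
    exact ⟨fun h => h.1, fun h => ⟨h, hc.symm.pow_right⟩⟩
  simp only [h1]

lemma kc_cube {h e m₁ m₂ : Eis} (he : e ≠ 0) (p₂ : IsPrim m₂) (c₁ : IsCoprime e m₁)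
    (c₂ : IsCoprime e m₂) : kc (h * e ^ 3) m₁ m₂ = kc h m₁ m₂ := by
  unfold kc
  rw [md_cube c₁, th_cube_all he, Dk_cube he p₂ c₂]

lemma pol_cube {h e m₁ m₂ : Eis} (he : e ≠ 0) (p₁ : IsPrim m₁) (p₂ : IsPrim m₂)
    (c₁ : IsCoprime e m₁) (c₂ : IsCoprime e m₂) : pol (h * e ^ 3) m₁ m₂ = pol h m₁ m₂ := by
  unfold pol kp
  rw [kc_cube he p₂ c₁ c₂, kc_cube he p₁ c₂ c₁, md_cube c₁, md_cube c₂, th_cube_all he]

lemma fq_mul (e l : Eis) : fq e (e * l) = (3 * l) * (-e) ^ 3 := by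
  rw [fq_eq]; ring

/-- `e ∤ l` kills the bias -/
lemma th_fq_zero {e l : Eis} (he : IsPrim e) (hs : Squarefree e) (hl : ¬ e ∣ l) :
    th (fq e l) = 0 := by
  classical
  -- a primary prime divisor of `e` not dividing `l`
  obtain ⟨p, hp, hpe, hpl⟩ : ∃ p, IsPP p ∧ p ∣ e ∧ ¬ p ∣ l := by
    by_contra hcon
    push Not at hcon
    apply hl
    rw [← prod_pp he hs, (ppSet_pp e).prod_dvd]
    intro p hp
    exact hcon p (isPP_of_mem_pp hp) (dvd_of_mem_pp hp)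
  obtain ⟨t, rfl⟩ := hpe
  have hpt : ¬ p ∣ t := by
    rintro ⟨s, rfl⟩
    exact hp.prime.not_isUnit (hs p ⟨s, by ring⟩)
  have hp3 : ¬ p ∣ (3 : Eis) := fun h =>
    hp.prime.not_isUnit (hp.isPrim.isCoprime_three.isUnit_of_dvd' dvd_rfl h)
  have e1 : fq (p * t) l = (3 * (-(l * t ^ 2))) * p ^ 2 := by rw [fq_eq]; ring
  rw [e1]
  apply th_two hp.prime hp.isPrim
  intro h
  rcases hp.prime.dvd_or_dvd h with h | h
  · exact hp3 h
  · rw [dvd_neg] at h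
    rcases hp.prime.dvd_or_dvd h with h | h
    · exact hpl h
    · exact hpt (hp.prime.dvd_of_dvd_pow h)

open Classical in
/-- one divisor -/
lemma collapse_one {e : Eis} (he : e ≠ 0) (g : Eis → ℂ) (hg0 : ∀ l, ¬ e ∣ l → g (fq e l) = 0)
    (hgc : ∀ l, g (fq e (e * l)) = g (3 * l)) (E : ℝ → ℂ) :
    ∑' l : Eis, (if l = 0 then 0 else g (fq e l) * E ((nm l : ℝ) / nm e)) =
      ∑' l : Eis, (if l = 0 then 0 else g (3 * l) * E (nm l)) := by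
  have hn : (nm e : ℝ) ≠ 0 := by exact_mod_cast (nm_pos.2 he).ne'
  have hinj : Function.Injective (fun l : Eis => e * l) := mul_right_injective₀ he
  rw [← hinj.tsum_eq (f := fun l : Eis => if l = 0 then 0 else
    g (fq e l) * E ((nm l : ℝ) / nm e))]
  · apply tsum_congr
    intro l
    by_cases hl : l = 0
    · rw [if_pos (by rw [hl, mul_zero]), if_pos hl]
    · rw [if_neg (mul_ne_zero he hl), if_neg hl, hgc, nm_mul]
      push_cast
      rw [mul_div_cancel_left₀ _ hn]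
  · intro l hl
    rw [Function.mem_support] at hl
    by_contra hcon
    apply hl
    by_cases h0 : l = 0
    · rw [if_pos h0]
    · rw [if_neg h0, hg0, zero_mul]
      rintro ⟨t, rfl⟩
      exact hcon ⟨t, rfl⟩

lemma expo_eq {Z : ℝ} {e l k₁ k₂ : Eis} :
    -(4 * Real.pi ^ 2 * Z * nm l) / (3 * nm e * nm k₁ * nm k₂) =
      -((nm l : ℝ) / nm e) / (3 * (nm k₁ * nm k₂) / (4 * Real.pi ^ 2 * Z)) := by
  rw [div_div_eq_mul_div, neg_mul, div_mul_eq_mul_div, neg_div, neg_div, div_div]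
  congr 1
  ring

/-- the length of the polar sums -/
def AA' (Z : ℝ) (k₁ k₂ : Eis) : ℝ := 3 * (nm k₁ * nm k₂) / (4 * Real.pi ^ 2 * Z)

open Classical in
/-- the sum over the divisors of the polar parts -/
lemma collapse {Z : ℝ} {d k₁ k₂ : Eis} (hd : IsPrim d) (sd : Squarefree d) (p₁ : IsPrim k₁)
    (p₂ : IsPrim k₂) (c₁ : IsCoprime d k₁) (c₂ : IsCoprime d k₂) :
    ∑ e ∈ pdiv d, (mu e : ℂ) * (((2 * Real.pi * Z / (Real.sqrt 3 * nm e) : ℝ) : ℂ) *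
      ∑' l : Eis, (if l = 0 then 0 else pol (fq e l) k₁ k₂ *
        ((Real.exp (-(4 * Real.pi ^ 2 * Z * nm l) / (3 * nm e * nm k₁ * nm k₂)) : ℝ) : ℂ))) =
      ((PE d * (2 * Real.pi * Z / Real.sqrt 3) : ℝ) : ℂ) *
        ∑' l : Eis, (if l = 0 then 0 else pol (3 * l) k₁ k₂ *
          ((Real.exp (-(nm l : ℝ) / AA' Z k₁ k₂) : ℝ) : ℂ)) := by
  have e1 : ∀ e ∈ pdiv d, ∑' l : Eis, (if l = 0 then 0 else pol (fq e l) k₁ k₂ *
        ((Real.exp (-(4 * Real.pi ^ 2 * Z * nm l) / (3 * nm e * nm k₁ * nm k₂)) : ℝ) : ℂ)) =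
      ∑' l : Eis, (if l = 0 then 0 else pol (3 * l) k₁ k₂ *
          ((Real.exp (-(nm l : ℝ) / AA' Z k₁ k₂) : ℝ) : ℂ)) := by
    intro e he
    have he' := (mem_pdiv hd.ne_zero).1 he
    have h1 := collapse_one he'.1.ne_zero (fun h => pol h k₁ k₂)
      (fun l hl => pol_zero (th_fq_zero he'.1 (sd.squarefree_of_dvd he'.2) hl))
      (fun l => by
        rw [fq_mul, pol_cube (neg_ne_zero.2 he'.1.ne_zero) p₁ p₂
          (c₁.of_isCoprime_of_dvd_left he'.2).neg_left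
          (c₂.of_isCoprime_of_dvd_left he'.2).neg_left])
      (fun x => ((Real.exp (-x / AA' Z k₁ k₂) : ℝ) : ℂ))
    rw [← h1]
    apply tsum_congr
    intro l
    rw [expo_eq]
    rfl
  rw [Finset.sum_congr rfl fun e he => by rw [e1 e he]]
  have e2 : ∀ e ∈ pdiv d, (mu e : ℂ) * (((2 * Real.pi * Z / (Real.sqrt 3 * nm e) : ℝ) : ℂ) *
      ∑' l : Eis, (if l = 0 then 0 else pol (3 * l) k₁ k₂ *
          ((Real.exp (-(nm l : ℝ) / AA' Z k₁ k₂) : ℝ) : ℂ))) =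
      (((mu e : ℝ) * (1 / (nm e : ℝ)) * (2 * Real.pi * Z / Real.sqrt 3) : ℝ) : ℂ) *
      ∑' l : Eis, (if l = 0 then 0 else pol (3 * l) k₁ k₂ *
          ((Real.exp (-(nm l : ℝ) / AA' Z k₁ k₂) : ℝ) : ℂ)) := by
    intro e he
    have he' := (mem_pdiv hd.ne_zero).1 he
    have hn : (nm e : ℂ) ≠ 0 := by exact_mod_cast (nm_pos.2 he'.1.ne_zero).ne'
    have h3 : ((Real.sqrt 3 : ℝ) : ℂ) ≠ 0 := by
      exact_mod_cast (Real.sqrt_pos.2 (by norm_num : (0 : ℝ) < 3)).ne'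
    rw [← mul_assoc]
    congr 1
    push_cast
    field_simp
  rw [Finset.sum_congr rfl e2, ← Finset.sum_mul]
  congr 1
  rw [← Complex.ofReal_sum, ← Finset.sum_mul, sum_mu_div d hd.ne_zero]
  rfl

/-! ### the exact evaluation of a pair -/

/-- `N(k)^(-1/2)` -/
def nh (k : Eis) : ℝ := (nm k : ℝ) ^ (-(1 / 2) : ℝ)

lemma nh_pos {k : Eis} (hk : k ≠ 0) : 0 < nh k := by
  unfold nh
  have : (0 : ℝ) < nm k := by exact_mod_cast nm_pos.2 hk
  positivity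

lemma nh_le_one {k : Eis} (hk : k ≠ 0) : nh k ≤ 1 := by
  unfold nh
  apply Real.rpow_le_one_of_one_le_of_nonpos _ (by norm_num)
  exact_mod_cast nm_pos.2 hk

/-- the Gaussian weight of the dual side -/
def wt (Z : ℝ) (e l k₁ k₂ : Eis) : ℝ :=
  Real.exp (-(4 * Real.pi ^ 2 * Z * nm l) / (3 * nm e * nm k₁ * nm k₂))

lemma wt_pos (Z : ℝ) (e l k₁ k₂ : Eis) : 0 < wt Z e l k₁ k₂ := Real.exp_pos _

/-- the bias-corrected dual term -/
def phD (Z : ℝ) (e l k₁ k₂ : Eis) : ℂ :=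
  Dk (fq e l) k₁ * conj (Dk (fq e l) k₂) * ((nh k₁ * nh k₂ : ℝ) : ℂ) * ((wt Z e l k₁ k₂ : ℝ) : ℂ)

lemma summable_wt {Z : ℝ} (hZ : 0 < Z) {e k₁ k₂ : Eis} (he : e ≠ 0) (h₁ : k₁ ≠ 0)
    (h₂ : k₂ ≠ 0) : Summable fun l : Eis => wt Z e l k₁ k₂ := by
  have n1 : 0 < (nm k₁ : ℝ) := by exact_mod_cast nm_pos.2 h₁
  have n2 : 0 < (nm k₂ : ℝ) := by exact_mod_cast nm_pos.2 h₂
  have n3 : 0 < (nm e : ℝ) := by exact_mod_cast nm_pos.2 he
  have hpi := Real.pi_pos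
  refine (summable_exp_nm
    (a := 4 * Real.pi ^ 2 * Z / (3 * nm e * nm k₁ * nm k₂)) (by positivity)).congr (fun l => ?_)
  unfold wt
  congr 1
  ring

lemma norm_phD_le {Z : ℝ} {e l k₁ k₂ : Eis} (he : e ≠ 0) (hl : l ≠ 0) (p₁ : IsPrim k₁)
    (p₂ : IsPrim k₂) : ‖phD Z e l k₁ k₂‖ ≤ (1 + pC) ^ 2 * wt Z e l k₁ k₂ := by
  have hp := pC_pos
  unfold phD
  rw [norm_mul, norm_mul, norm_mul, RCLike.norm_conj, Complex.norm_real, Complex.norm_real,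
    Real.norm_of_nonneg (wt_pos _ _ _ _ _).le,
    Real.norm_of_nonneg (mul_pos (nh_pos p₁.ne_zero) (nh_pos p₂.ne_zero)).le]
  have b1 := norm_Dk_le p₁ (norm_th_fq_le he hl)
  have b2 := norm_Dk_le p₂ (norm_th_fq_le he hl)
  have b3 : nh k₁ * nh k₂ ≤ 1 := mul_le_one₀ (nh_le_one p₁.ne_zero) (nh_pos p₂.ne_zero).le
    (nh_le_one p₂.ne_zero)
  have b0 := (mul_pos (nh_pos p₁.ne_zero) (nh_pos p₂.ne_zero)).le
  have hw := (wt_pos Z e l k₁ k₂).le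
  calc ‖Dk (fq e l) k₁‖ * ‖Dk (fq e l) k₂‖ * (nh k₁ * nh k₂) * wt Z e l k₁ k₂
      ≤ (1 + pC) * (1 + pC) * 1 * wt Z e l k₁ k₂ := by gcongr
    _ = _ := by ring

lemma norm_pol_le {h m₁ m₂ : Eis} (hh : ‖th h‖ ≤ 1) (p₁ : IsPrim m₁) (p₂ : IsPrim m₂) :
    ‖pol h m₁ m₂‖ ≤ 1 + (1 + pC) ^ 2 := by
  have hp := pC_pos
  have e1 : pol h m₁ m₂ = Gh h m₁ * conj (Gh h m₂) - Dk h m₁ * conj (Dk h m₂) := by
    rw [Gh_pair]; ring
  rw [e1]
  refine (norm_sub_le _ _).trans (add_le_add ?_ ?_)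
  · rw [norm_mul, RCLike.norm_conj]
    exact mul_le_one₀ (norm_Gh_le p₁) (norm_nonneg _) (norm_Gh_le p₂)
  · rw [norm_mul, RCLike.norm_conj, sq]
    exact mul_le_mul (norm_Dk_le p₁ hh) (norm_Dk_le p₂ hh) (norm_nonneg _) (by positivity)

lemma phl_eq {Z : ℝ} {e l k₁ k₂ : Eis} (p₁ : IsPrim k₁) (p₂ : IsPrim k₂) :
    phl Z e l k₁ k₂ = phD Z e l k₁ k₂ +
      ((nh k₁ * nh k₂ : ℝ) : ℂ) * (pol (fq e l) k₁ k₂ * ((wt Z e l k₁ k₂ : ℝ) : ℂ)) := by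
  have h := Gh_pair (fq e l) k₁ k₂
  unfold phl phD
  rw [Ue_fq p₁, Ue_fq p₂, map_mul, Complex.conj_ofReal]
  unfold nh wt
  push_cast
  linear_combination ((((nm k₁ : ℝ) ^ (-(1 / 2) : ℝ) : ℝ) : ℂ) *
    (((nm k₂ : ℝ) ^ (-(1 / 2) : ℝ) : ℝ) : ℂ) *
    Complex.exp (-(4 * (Real.pi : ℂ) ^ 2 * (Z : ℂ) * (nm l : ℂ)) /
      (3 * (nm e : ℂ) * (nm k₁ : ℂ) * (nm k₂ : ℂ)))) * h

open Classical in
lemma phl_zero {Z : ℝ} {e k₁ k₂ : Eis} (p₁ : IsPrim k₁) (p₂ : IsPrim k₂) :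
    phl Z e 0 k₁ k₂ = if k₁ = 1 ∧ k₂ = 1 then 1 else 0 := by
  unfold phl
  have h0 : nm (0 : Eis) = 0 := nm_eq_zero.2 rfl
  rw [h0]
  by_cases a1 : k₁ = 1
  · by_cases a2 : k₂ = 1
    · rw [if_pos ⟨a1, a2⟩, a1, a2, Complex.mul_conj, Complex.normSq_eq_norm_sq, norm_Ue_one syG]
      simp
    · rw [if_neg (fun h => a2 h.2), Ue_zero syG p₂ a2]; simp
  · rw [if_neg (fun h => a1 h.1), Ue_zero syG p₁ a1]; simp

open Classical in
lemma Phi_eq {Z : ℝ} (hZ : 0 < Z) {e k₁ k₂ : Eis} (he : e ≠ 0) (p₁ : IsPrim k₁)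
    (p₂ : IsPrim k₂) :
    Phi Z e k₁ k₂ = ((2 * Real.pi * Z / (Real.sqrt 3 * nm e) : ℝ) : ℂ) *
      ((if k₁ = 1 ∧ k₂ = 1 then 1 else 0) +
        ((∑' l : Eis, if l = 0 then 0 else phD Z e l k₁ k₂) +
          ((nh k₁ * nh k₂ : ℝ) : ℂ) * ∑' l : Eis, (if l = 0 then 0 else
            pol (fq e l) k₁ k₂ * ((Real.exp (-(4 * Real.pi ^ 2 * Z * nm l) /
              (3 * nm e * nm k₁ * nm k₂)) : ℝ) : ℂ)))) := by
  unfold Phi
  have hs := summable_phl hZ he p₁ p₂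
  rw [hs.tsum_eq_add_tsum_ite 0, phl_zero p₁ p₂]
  congr 2
  have hw := summable_wt hZ he p₁.ne_zero p₂.ne_zero
  have s1 : Summable fun l : Eis => if l = 0 then 0 else phD Z e l k₁ k₂ := by
    refine Summable.of_norm_bounded (hw.mul_left ((1 + pC) ^ 2)) (fun l => ?_)
    split_ifs with h
    · rw [norm_zero]
      have := wt_pos Z e l k₁ k₂
      positivity
    · exact norm_phD_le he h p₁ p₂
  have s2 : Summable fun l : Eis => if l = 0 then 0 else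
      pol (fq e l) k₁ k₂ * ((wt Z e l k₁ k₂ : ℝ) : ℂ) := by
    refine Summable.of_norm_bounded (hw.mul_left (1 + (1 + pC) ^ 2)) (fun l => ?_)
    have hp := wt_pos Z e l k₁ k₂
    split_ifs with h
    · rw [norm_zero]
      have := pC_pos
      positivity
    · rw [norm_mul, Complex.norm_real, Real.norm_of_nonneg hp.le]
      exact mul_le_mul_of_nonneg_right (norm_pol_le (norm_th_fq_le he h) p₁ p₂) hp.le
  have e2 : ∑' l : Eis, (if l = 0 then 0 else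
            pol (fq e l) k₁ k₂ * ((Real.exp (-(4 * Real.pi ^ 2 * Z * nm l) /
              (3 * nm e * nm k₁ * nm k₂)) : ℝ) : ℂ)) =
      ∑' l : Eis, (if l = 0 then 0 else
        pol (fq e l) k₁ k₂ * ((wt Z e l k₁ k₂ : ℝ) : ℂ)) := rfl
  rw [e2, ← tsum_mul_left, ← s1.tsum_add (s2.mul_left _)]
  apply tsum_congr
  intro l
  split_ifs
  · simp
  · rw [phl_eq p₁ p₂]

open Classical in
/-- **the exact evaluation of a pair** -/
theorem Pnc_exact {Z : ℝ} (hZ : 0 < Z) {d k₁ k₂ : Eis} (hd : IsPrim d) (sd : Squarefree d)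
    (p₁ : IsPrim k₁) (p₂ : IsPrim k₂) (s₁ : Squarefree (d * k₁)) (s₂ : Squarefree (d * k₂))
    (hc : IsCoprime k₁ k₂) (c₁ : IsCoprime d k₁) (c₂ : IsCoprime d k₂) :
    Pnc Z (d * k₁) (d * k₂) =
      (∑ e ∈ pdiv d, (mu e : ℂ) * (((2 * Real.pi * Z / (Real.sqrt 3 * nm e) : ℝ) : ℂ) *
        ∑' l : Eis, if l = 0 then 0 else phD Z e l k₁ k₂)) +
      ((PE d * (2 * Real.pi * Z / Real.sqrt 3) : ℝ) : ℂ) *
        (((nh k₁ * nh k₂ : ℝ) : ℂ) * ∑' l : Eis, (if l = 0 then 0 else pol (3 * l) k₁ k₂ *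
          ((Real.exp (-(nm l : ℝ) / AA' Z k₁ k₂) : ℝ) : ℂ))) +
      ((PE d * (2 * Real.pi * Z / Real.sqrt 3) : ℝ) : ℂ) * (if k₁ = 1 ∧ k₂ = 1 then 1 else 0) -
      (if d * k₁ = 1 ∧ d * k₂ = 1 then 1 else 0) -
      (1 / 3) * ((∑' m : Eis, (if m ≠ 0 ∧ IsCoprime m (d * (k₁ * k₂)) then
        Real.exp (-((nm m : ℝ) ^ 3) / Z) else 0) : ℝ) : ℂ) := by
  rw [Pnc_cubes hZ hd p₁ p₂]
  congr 2
  have e1 : ∀ n : Eis, ((Real.exp (-(nm n : ℝ) / Z) : ℝ) : ℂ) *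
        (sy n (d * k₁) * conj (sy n (d * k₂))) = ((Real.exp (-(nm n : ℝ) / Z) : ℝ) : ℂ) *
        ((if IsCoprime n d then (1 : ℂ) else 0) * (sy n k₁ * conj (sy n k₂))) := by
    intro n
    have h1 := sy_mul_conj_ite Sym645.syFacts hd n
    rw [syG.mul_right _ _ _ hd p₁, syG.mul_right _ _ _ hd p₂, ← h1]
    simp only [map_mul]
    ring
  rw [tsum_congr e1, pair_cop hZ hd sd p₁ s₁.of_mul_right p₂ s₂.of_mul_right hc]
  rw [← mul_assoc, mul_comm (((PE d * (2 * Real.pi * Z / Real.sqrt 3) : ℝ) : ℂ))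
    (((nh k₁ * nh k₂ : ℝ) : ℂ)), mul_assoc (((nh k₁ * nh k₂ : ℝ) : ℂ)),
    ← collapse hd sd p₁ p₂ c₁ c₂]
  have e2 : ((PE d * (2 * Real.pi * Z / Real.sqrt 3) : ℝ) : ℂ) =
      ∑ e ∈ pdiv d, (mu e : ℂ) * ((2 * Real.pi * Z / (Real.sqrt 3 * nm e) : ℝ) : ℂ) := by
    unfold PE
    rw [← sum_mu_div d hd.ne_zero, Finset.sum_mul]
    push_cast
    refine Finset.sum_congr rfl fun e he => ?_
    have he' := (mem_pdiv hd.ne_zero).1 he
    have hn : (nm e : ℂ) ≠ 0 := by exact_mod_cast (nm_pos.2 he'.1.ne_zero).ne'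
    have h3 : ((Real.sqrt 3 : ℝ) : ℂ) ≠ 0 := by
      exact_mod_cast (Real.sqrt_pos.2 (by norm_num : (0 : ℝ) < 3)).ne'
    field_simp
  rw [e2, Finset.mul_sum, Finset.sum_mul, ← Finset.sum_add_distrib, ← Finset.sum_add_distrib]
  refine Finset.sum_congr rfl fun e he => ?_
  have he' := (mem_pdiv hd.ne_zero).1 he
  rw [Phi_eq hZ he'.1.ne_zero p₁ p₂]
  ring

end Crest.Agent.R017.PX764
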