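import Crest.Agent.R017.PX4_764

/-!
# Row 17, exceptional class, part 5 (helper764): polar terms against the cubes

* `tsum_pol` : the sum of the polar parts: two cross sums and the mean square of the residues
* `Er_le` : the mean square of the residues minus the cubes is small (matched main terms)
* `sum_Er_le` : the sum over all pairs
-/

set_option autoImplicit false

noncomputable section

open MeasureTheory Finset
open scoped ComplexConjugate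

namespace Crest.Agent.R017.PX764

open Crest.Agent.R012 Crest.Agent.R012.Eis Crest.Agent.R012.Gauss880
open Crest.Agent.R012.LS2 Crest.Agent.R012.Mob705
open Crest.Agent.R017.PA842 (V Supp sub restr)
open Crest.Agent.R017.Dual2813 (S_of_dvd)
open Crest.Agent.R017.P3all283 (ft)

lemma AA_pos {Z : ℝ} (hZ : 0 < Z) {k₁ k₂ : Eis} (h₁ : k₁ ≠ 0) (h₂ : k₂ ≠ 0) : 0 < AA' Z k₁ k₂ := by
  have n1 : 0 < (nm k₁ : ℝ) := by exact_mod_cast nm_pos.2 h₁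
  have n2 : 0 < (nm k₂ : ℝ) := by exact_mod_cast nm_pos.2 h₂
  have hpi := Real.pi_pos
  unfold AA'
  positivity

lemma AA_comm (Z : ℝ) (k₁ k₂ : Eis) : AA' Z k₂ k₁ = AA' Z k₁ k₂ := by
  unfold AA'
  rw [mul_comm (nm k₂ : ℝ)]

lemma norm_kc_le {h m₁ m₂ : Eis} (hh : ‖th h‖ ≤ 1) (p₁ : IsPrim m₁) (p₂ : IsPrim m₂) :
    ‖kc h m₁ m₂‖ ≤ 1 + pC := by
  unfold kc
  rw [norm_mul, norm_mul, RCLike.norm_conj, Complex.norm_real,
    Real.norm_of_nonneg (md_nonneg p₁.ne_zero)]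
  have h1 := md_le_one (h := h) p₁.ne_zero
  have h0 := md_nonneg (h := h) p₁.ne_zero
  have h2 := norm_Dk_le p₂ hh
  have hp := pC_pos
  calc md h m₁ * (‖th h‖ * ‖Dk h m₂‖) ≤ 1 * (1 * (1 + pC)) := by gcongr
    _ = _ := by ring

/-- the exponential weight -/
def ew (A : ℝ) (l : Eis) : ℝ := Real.exp (-(nm l : ℝ) / A)

lemma ew_pos (A : ℝ) (l : Eis) : 0 < ew A l := Real.exp_pos _

lemma summable_ew {A : ℝ} (hA : 0 < A) : Summable (ew A) := by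
  refine (summable_exp_nm (a := 1 / A) (by positivity)).congr (fun l => ?_)
  unfold ew
  congr 1
  ring

open Classical in
lemma summable_kc {A : ℝ} (hA : 0 < A) {m₁ m₂ : Eis} (p₁ : IsPrim m₁) (p₂ : IsPrim m₂) :
    Summable fun l : Eis => if l = 0 then 0 else kc (3 * l) m₁ m₂ * ((ew A l : ℝ) : ℂ) := by
  refine Summable.of_norm_bounded ((summable_ew hA).mul_left (1 + pC)) (fun l => ?_)
  have he := ew_pos A l
  split_ifs with h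
  · rw [norm_zero]
    have := pC_pos
    positivity
  · rw [norm_mul, Complex.norm_real, Real.norm_of_nonneg he.le]
    exact mul_le_mul_of_nonneg_right (norm_kc_le (norm_th3_le h) p₁ p₂) he.le

open Classical in
lemma crs_eq (A : ℝ) (m₁ m₂ : Eis) :
    crs 3 A m₁ m₂ = ∑' l : Eis, if l = 0 then 0 else kc (3 * l) m₁ m₂ * ((ew A l : ℝ) : ℂ) := rfl

lemma isCoprime_three_mul {k l : Eis} (hk : IsPrim k) : IsCoprime k (3 * l) ↔ IsCoprime k l := by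
  rw [IsCoprime.mul_right_iff]
  exact ⟨fun h => h.2, fun h => ⟨hk.isCoprime_three, h⟩⟩

open Classical in
lemma kp_eq {A : ℝ} {k₁ k₂ l : Eis} (p₁ : IsPrim k₁) (p₂ : IsPrim k₂) (s₁ : Squarefree k₁)
    (s₂ : Squarefree k₂) (hl : l ≠ 0) :
    kp (3 * l) k₁ k₂ * ((ew A l : ℝ) : ℂ) = ((n6 k₁ * n6 k₂ * ft rho A (k₁ * k₂) l : ℝ) : ℂ) := by
  unfold kp ft md ew
  rw [← Complex.ofReal_mul]
  congr 1
  simp only [isCoprime_three_mul p₁, isCoprime_three_mul p₂]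
  have e0 : th (3 * l) = rho (3 * l) / ((pC * M49.Dsf : ℝ) : ℂ) := rfl
  rw [e0]
  by_cases c1 : IsCoprime k₁ l
  · by_cases c2 : IsCoprime k₂ l
    · rw [if_pos ⟨s₁, c1⟩, if_pos ⟨s₂, c2⟩, if_pos ⟨hl, c1.symm.mul_right c2.symm⟩]
      ring
    · rw [if_neg (fun h : Squarefree k₂ ∧ IsCoprime k₂ l => c2 h.2),
        if_neg (fun h : l ≠ 0 ∧ IsCoprime l (k₁ * k₂) => c2 h.2.of_mul_right_right.symm)]
      ring
  · rw [if_neg (fun h : Squarefree k₁ ∧ IsCoprime k₁ l => c1 h.2),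
        if_neg (fun h : l ≠ 0 ∧ IsCoprime l (k₁ * k₂) => c1 h.2.of_mul_right_left.symm)]
    ring

open Classical in
/-- **the polar parts** -/
theorem tsum_pol {Z : ℝ} (hZ : 0 < Z) {k₁ k₂ : Eis} (p₁ : IsPrim k₁) (p₂ : IsPrim k₂)
    (s₁ : Squarefree k₁) (s₂ : Squarefree k₂) :
    ∑' l : Eis, (if l = 0 then 0 else pol (3 * l) k₁ k₂ *
        ((Real.exp (-(nm l : ℝ) / AA' Z k₁ k₂) : ℝ) : ℂ)) =
      (pC : ℂ) * (crs 3 (AA' Z k₁ k₂) k₁ k₂ + conj (crs 3 (AA' Z k₂ k₁) k₂ k₁)) +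
        (pC : ℂ) ^ 2 * ((n6 k₁ * n6 k₂ * ∑' l : Eis, ft rho (AA' Z k₁ k₂) (k₁ * k₂) l : ℝ) : ℂ) := by
  rw [AA_comm Z k₁ k₂]
  set A := AA' Z k₁ k₂ with hA'
  have hA : 0 < A := AA_pos hZ p₁.ne_zero p₂.ne_zero
  have k1 := summable_kc hA p₁ p₂
  have k2 := summable_kc hA p₂ p₁
  have sft : Summable (ft rho A (k₁ * k₂)) :=
    P3all283.summable_ft rho_MS rho_rel (P3all283.rho18 rho_MS rho_rel) hA _
  have e1 : ∀ l : Eis, (if l = 0 then 0 else pol (3 * l) k₁ k₂ *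
        ((Real.exp (-(nm l : ℝ) / A) : ℝ) : ℂ)) =
      (pC : ℂ) * ((if l = 0 then 0 else kc (3 * l) k₁ k₂ * ((ew A l : ℝ) : ℂ)) +
        conj (if l = 0 then 0 else kc (3 * l) k₂ k₁ * ((ew A l : ℝ) : ℂ))) +
      (pC : ℂ) ^ 2 * ((n6 k₁ * n6 k₂ * ft rho A (k₁ * k₂) l : ℝ) : ℂ) := by
    intro l
    by_cases hl : l = 0
    · rw [if_pos hl, if_pos hl, if_pos hl]
      have : ft rho A (k₁ * k₂) l = 0 := by unfold ft; rw [if_neg (fun h => h.1 hl)]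
      rw [this]; simp
    · rw [if_neg hl, if_neg hl, if_neg hl, ← kp_eq p₁ p₂ s₁ s₂ hl, map_mul, Complex.conj_ofReal]
      unfold pol ew
      ring
  have s3 : Summable fun l : Eis => conj (if l = 0 then 0 else
      kc (3 * l) k₂ k₁ * ((ew A l : ℝ) : ℂ)) := (Complex.hasSum_conj'.2 k2.hasSum).summable
  have s4 : Summable fun l : Eis => ((n6 k₁ * n6 k₂ * ft rho A (k₁ * k₂) l : ℝ) : ℂ) :=
    Complex.ofRealCLM.summable (sft.mul_left _)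
  rw [tsum_congr e1, ((k1.add s3).mul_left _).tsum_add (s4.mul_left _), tsum_mul_left,
    tsum_mul_left, k1.tsum_add s3, crs_eq, crs_eq, Complex.conj_tsum, ← Complex.ofReal_tsum,
    tsum_mul_left]

/-! ### the matched main terms -/

lemma PE_mul {a b : Eis} (ha : a ≠ 0) (hb : b ≠ 0) (hc : IsCoprime a b) :
    PE (a * b) = PE a * PE b := by
  classical
  unfold PE
  rw [pp_mul ha hb, Finset.prod_union (pp_disjoint hc)]

open Classical in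
/-- the mean square of the residues minus the cubes -/
def Er (Z : ℝ) (d k₁ k₂ : Eis) : ℝ :=
  PE d * (2 * Real.pi * Z / Real.sqrt 3) * (nh k₁ * nh k₂ * (pC ^ 2 * (n6 k₁ * n6 k₂ *
    ∑' l : Eis, ft rho (AA' Z k₁ k₂) (k₁ * k₂) l))) -
  1 / 3 * ∑' m : Eis, (if m ≠ 0 ∧ IsCoprime m (d * (k₁ * k₂)) then
        Real.exp (-((nm m : ℝ) ^ 3) / Z) else 0)

lemma nh_mul (a b : Eis) : nh (a * b) = nh a * nh b := by
  unfold nh
  rw [nm_mul]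
  push_cast
  rw [Real.mul_rpow (Nat.cast_nonneg _) (Nat.cast_nonneg _)]

lemma aux_KQ {K C2 T2 T L Q : ℝ} (hK : 0 ≤ K) (hC : 0 ≤ C2) (h2 : 1 ≤ T2) (hT : 1 ≤ T)
    (hL : 1 ≤ L) (hQ : 0 ≤ Q) :
    K * T * L * Q + C2 * T2 ≤ (K + C2) * T2 * T * L * (Q + 1) := by
  have h0 : 0 ≤ T * L := by positivity
  have a0 : 1 ≤ T * L := one_le_mul_of_one_le_of_one_le hT hL
  have a1 : K * (T * L) * Q ≤ K * (T2 * (T * L)) * (Q + 1) := by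
    have b1 : T * L ≤ T2 * (T * L) := le_mul_of_one_le_left h0 h2
    have b2 : K * (T * L) ≤ K * (T2 * (T * L)) := mul_le_mul_of_nonneg_left b1 hK
    exact mul_le_mul b2 (by linarith) hQ (by positivity)
  have a2 : C2 * T2 * 1 ≤ C2 * (T2 * (T * L)) * (Q + 1) := by
    have b1 : T2 ≤ T2 * (T * L) := le_mul_of_one_le_right (by linarith) a0
    have b2 : C2 * T2 ≤ C2 * (T2 * (T * L)) := mul_le_mul_of_nonneg_left b1 hC
    exact mul_le_mul b2 (by linarith) zero_le_one (by positivity)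
  calc K * T * L * Q + C2 * T2 = K * (T * L) * Q + C2 * T2 * 1 := by ring
    _ ≤ K * (T2 * (T * L)) * (Q + 1) + C2 * (T2 * (T * L)) * (Q + 1) := add_le_add a1 a2
    _ = _ := by ring

lemma aux_t1 {P κ Z a p b y C1 T A3 L Q : ℝ} (hP0 : 0 ≤ P) (hP1 : P ≤ 1) (hκ : 0 ≤ κ)
    (hZ : 0 ≤ Z) (ha : 0 ≤ a) (hp : 0 ≤ p) (hb : 0 ≤ b) (hC : 0 ≤ C1) (hT : 0 ≤ T) (hL : 0 ≤ L)
    (hy : |y| ≤ C1 * T * A3 * L) (hQ : Z * (a * b) * A3 ≤ Q) :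
    |P * (κ * Z) * (a * (p * (b * y)))| ≤ κ * p * C1 * T * L * Q := by
  have e1 : |P * (κ * Z) * (a * (p * (b * y)))| = P * (κ * Z * a * p * b * |y|) := by
    rw [show P * (κ * Z) * (a * (p * (b * y))) = (P * (κ * Z * a * p * b)) * y by ring, abs_mul,
      abs_of_nonneg (by positivity)]
    ring
  rw [e1]
  have h1 : 0 ≤ κ * Z * a * p * b * |y| := by positivity
  calc P * (κ * Z * a * p * b * |y|) ≤ 1 * (κ * Z * a * p * b * |y|) :=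
        mul_le_mul_of_nonneg_right hP1 h1
    _ ≤ 1 * (κ * Z * a * p * b * (C1 * T * A3 * L)) := by gcongr
    _ = (κ * p * C1 * T * L) * (Z * (a * b) * A3) := by ring
    _ ≤ (κ * p * C1 * T * L) * Q := mul_le_mul_of_nonneg_left hQ (by positivity)

lemma aux_A {Z n A : ℝ} (hZ : 0 < Z) (hn0 : 0 < n) (hAn : A = 3 * n / (4 * Real.pi ^ 2 * Z)) :
    Z * (n ^ (-(1 / 2) : ℝ) * n ^ (-(1 / 6) : ℝ)) * A ^ ((1 : ℝ) / 3) ≤
      Z ^ (2 / 3 : ℝ) * n ^ (-(1 / 3) : ℝ) := by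
  have hpi := Real.pi_pos
  have h9 : (3 : ℝ) ≤ 4 * Real.pi ^ 2 := by nlinarith [Real.pi_gt_three]
  have hA0 : 0 ≤ A := by rw [hAn]; positivity
  have a1 : A ^ ((1 : ℝ) / 3) ≤ n ^ ((1 : ℝ) / 3) * Z ^ (-(1 / 3) : ℝ) := by
    have h1 : A ≤ n * Z⁻¹ := by
      rw [hAn, div_le_iff₀ (by positivity)]
      have h2 : n * Z⁻¹ * (4 * Real.pi ^ 2 * Z) = (4 * Real.pi ^ 2) * n := by field_simp
      rw [h2]
      exact mul_le_mul_of_nonneg_right h9 hn0.le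
    calc A ^ ((1 : ℝ) / 3) ≤ (n * Z⁻¹) ^ ((1 : ℝ) / 3) :=
          Real.rpow_le_rpow hA0 h1 (by norm_num)
      _ = _ := by
        rw [Real.mul_rpow hn0.le (by positivity), Real.inv_rpow hZ.le, Real.rpow_neg hZ.le]
  have a2 : n ^ (-(1 / 2) : ℝ) * n ^ (-(1 / 6) : ℝ) * n ^ ((1 : ℝ) / 3) = n ^ (-(1 / 3) : ℝ) := by
    rw [← Real.rpow_add hn0, ← Real.rpow_add hn0]
    norm_num
  have a3 : Z * Z ^ (-(1 / 3) : ℝ) = Z ^ (2 / 3 : ℝ) := by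
    nth_rewrite 1 [← Real.rpow_one Z]
    rw [← Real.rpow_add hZ]
    norm_num
  calc Z * (n ^ (-(1 / 2) : ℝ) * n ^ (-(1 / 6) : ℝ)) * A ^ ((1 : ℝ) / 3)
      ≤ Z * (n ^ (-(1 / 2) : ℝ) * n ^ (-(1 / 6) : ℝ)) *
        (n ^ ((1 : ℝ) / 3) * Z ^ (-(1 / 3) : ℝ)) :=
        mul_le_mul_of_nonneg_left a1 (by positivity)
    _ = (Z * Z ^ (-(1 / 3) : ℝ)) * (n ^ (-(1 / 2) : ℝ) * n ^ (-(1 / 6) : ℝ) *
        n ^ ((1 : ℝ) / 3)) := by ring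
    _ = _ := by rw [a2, a3]

set_option maxHeartbeats 800000 in
/-- first bound -/
lemma Er_le_aux : ∃ (C : ℝ) (k : ℕ), 0 ≤ C ∧ ∀ (Z : ℝ) (d k₁ k₂ : Eis), 0 < Z → IsPrim d →
    IsPrim k₁ → IsPrim k₂ → IsCoprime d (k₁ * k₂) →
    |Er Z d k₁ k₂| ≤ C * (Div277.tau (d * (k₁ * k₂)) : ℝ) * (Div277.tau (k₁ * k₂) : ℝ) ^ k *
      (1 + Real.log (1 + AA' Z k₁ k₂)) *
      (Z ^ (2 / 3 : ℝ) * ((nm k₁ : ℝ) * nm k₂) ^ (-(1 / 3) : ℝ) + 1) := by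
  classical
  obtain ⟨C1, k, hC1, h1⟩ := P3all283.P3all'
  obtain ⟨C2, hC2, h2⟩ := PX241.cube_sum_Z
  have hpi := Real.pi_pos
  have h30 : 0 < Real.sqrt 3 := by positivity
  have hpC := pC_pos
  set K : ℝ := 2 * Real.pi / Real.sqrt 3 * pC ^ 2 * C1 with hK
  have hK0 : 0 ≤ K := by positivity
  refine ⟨K + C2, k, by positivity, ?_⟩
  intro Z d k₁ k₂ hZ hd p₁ p₂ hcop
  have n1 : 0 < (nm k₁ : ℝ) := by exact_mod_cast nm_pos.2 p₁.ne_zero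
  have n2 : 0 < (nm k₂ : ℝ) := by exact_mod_cast nm_pos.2 p₂.ne_zero
  set n : ℝ := (nm k₁ : ℝ) * nm k₂ with hn
  have hn0 : 0 < n := by positivity
  set A := AA' Z k₁ k₂ with hA
  have hA0 : 0 < A := AA_pos hZ p₁.ne_zero p₂.ne_zero
  have hAn : A = 3 * n / (4 * Real.pi ^ 2 * Z) := rfl
  have hb : IsPrim (k₁ * k₂) := p₁.mul p₂
  have g1 := (h1 rho rho_MS rho_rel A (k₁ * k₂) hA0 hb).2
  have g2 := (h2 Z (d * (k₁ * k₂)) hZ (hd.mul hb)).2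
  set F := ∑' l : Eis, ft rho A (k₁ * k₂) l with hF
  set Cu := ∑' m : Eis, (if m ≠ 0 ∧ IsCoprime m (d * (k₁ * k₂)) then
        Real.exp (-((nm m : ℝ) ^ 3) / Z) else 0) with hCu
  have hPE : PE (d * (k₁ * k₂)) = PE d * PE (k₁ * k₂) := PE_mul hd.ne_zero hb.ne_zero hcop
  have hpc := PX241.polar_eq_cubes (Z := Z) (n := n) (P := PE (d * (k₁ * k₂))) hZ hn0
  have e1 : nh k₁ * nh k₂ = n ^ (-(1 / 2) : ℝ) := by
    unfold nh; rw [hn, Real.mul_rpow n1.le n2.le]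
  have e2 : n6 k₁ * n6 k₂ = n ^ (-(1 / 6) : ℝ) := by
    unfold n6; rw [hn, Real.mul_rpow n1.le n2.le]
    norm_num
  set M1 := (3 : ℝ) ^ ((4 : ℝ) / 3) * P3all283.c0 * PE (k₁ * k₂) * A ^ ((2 : ℝ) / 3) with hM1
  set M2 := 2 * Real.pi / Real.sqrt 3 * Real.Gamma (4 / 3) * PE (d * (k₁ * k₂)) *
    Z ^ (1 / 3 : ℝ) with hM2
  have e3 : PE d * (2 * Real.pi * Z / Real.sqrt 3) * (n ^ (-(1 / 2) : ℝ) *
      (pC ^ 2 * (n ^ (-(1 / 6) : ℝ) * M1))) = 1 / 3 * M2 := by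
    rw [← hpc, hM1, hPE, ← hAn]
    unfold P3all283.c0
    ring
  have e4 : Er Z d k₁ k₂ = PE d * (2 * Real.pi * Z / Real.sqrt 3) * (n ^ (-(1 / 2) : ℝ) *
      (pC ^ 2 * (n ^ (-(1 / 6) : ℝ) * (F - M1)))) - 1 / 3 * (Cu - M2) := by
    unfold Er
    rw [e1, e2]
    linear_combination e3
  have hPd0 := (PE_pos d).le
  have hPd1 := PE_le_one d
  set L := 1 + Real.log (1 + A) with hL
  have hL1 : 1 ≤ L := by
    have : 0 ≤ Real.log (1 + A) := Real.log_nonneg (by linarith)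
    linarith
  set T := (Div277.tau (k₁ * k₂) : ℝ) ^ k with hT
  have hT1 : 1 ≤ T := one_le_pow₀ (P3all283.one_le_tau hb)
  set T2 := (Div277.tau (d * (k₁ * k₂)) : ℝ) with hT2
  have hT21 : 1 ≤ T2 := P3all283.one_le_tau (hd.mul hb)
  have e5 : Z * (n ^ (-(1 / 2) : ℝ) * n ^ (-(1 / 6) : ℝ)) * A ^ ((1 : ℝ) / 3) ≤
      Z ^ (2 / 3 : ℝ) * n ^ (-(1 / 3) : ℝ) := aux_A hZ hn0 hAn
  set Q := Z ^ (2 / 3 : ℝ) * n ^ (-(1 / 3) : ℝ) with hQ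
  have hQ0 : 0 ≤ Q := by positivity
  rw [e4]
  refine (abs_sub _ _).trans ?_
  have t1 : |PE d * (2 * Real.pi * Z / Real.sqrt 3) * (n ^ (-(1 / 2) : ℝ) *
      (pC ^ 2 * (n ^ (-(1 / 6) : ℝ) * (F - M1))))| ≤ K * T * L * Q := by
    have h0 := aux_t1 (κ := 2 * Real.pi / Real.sqrt 3) (p := pC ^ 2) hPd0 hPd1 (by positivity)
      hZ.le (by positivity) (by positivity) (by positivity) hC1 (by linarith) (by linarith) g1 e5
    rw [hK]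
    refine le_trans (le_of_eq ?_) h0
    congr 1
    ring
  have t2 : |1 / 3 * (Cu - M2)| ≤ C2 * T2 := by
    rw [abs_mul, abs_of_nonneg (by norm_num : (0 : ℝ) ≤ 1 / 3)]
    have h0 : 0 ≤ |Cu - M2| := abs_nonneg _
    have h3 : 1 / 3 * |Cu - M2| ≤ |Cu - M2| := by linarith
    exact h3.trans g2
  refine (add_le_add t1 t2).trans ?_
  have hL0 : 0 ≤ L := by linarith
  have hT0 : 0 ≤ T := by linarith
  exact aux_KQ hK0 hC2 hT21 hT1 hL1 hQ0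

lemma log_le_aux {δ x : ℝ} (hδ : 0 < δ) (hx : 0 ≤ x) {Y : ℝ} (hY : 1 ≤ Y) (h : x ≤ Y) :
    1 + Real.log (1 + x) ≤ (1 + 1 / δ) * 2 ^ δ * Y ^ δ := by
  have h1 : Real.log (1 + x) ≤ (1 + x) ^ δ / δ := Real.log_le_rpow_div (by linarith) hδ
  have h2 : (1 + x) ^ δ ≤ (2 * Y) ^ δ := Real.rpow_le_rpow (by linarith) (by linarith) hδ.le
  have h3 : (2 * Y) ^ δ = 2 ^ δ * Y ^ δ := Real.mul_rpow (by norm_num) (by linarith)
  have h4 : 1 ≤ (2 * Y) ^ δ := Real.one_le_rpow (by linarith) hδ.le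
  calc 1 + Real.log (1 + x) ≤ (2 * Y) ^ δ + (2 * Y) ^ δ / δ := by
        refine add_le_add h4 (h1.trans ?_)
        exact div_le_div_of_nonneg_right h2 hδ.le
    _ = _ := by rw [h3]; ring

/-- **the error of one pair** -/
theorem Er_le {ε : ℝ} (hε : 0 < ε) : ∃ C : ℝ, 0 ≤ C ∧ ∀ X Z : ℝ, 1 ≤ X → 1 ≤ Z →
    ∀ d k₁ k₂ : Eis, IsPrim d → IsPrim k₁ → IsPrim k₂ → IsCoprime d (k₁ * k₂) →
      (nm d : ℝ) * nm k₁ ≤ X → (nm d : ℝ) * nm k₂ ≤ X →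
    |Er Z d k₁ k₂| ≤ C * X ^ ε * (Z ^ (2 / 3 : ℝ) * ((nm k₁ : ℝ) * nm k₂) ^ (-(1 / 3) : ℝ) + 1) := by
  obtain ⟨C0, k, hC0, h0⟩ := Er_le_aux
  set δ : ℝ := ε / (2 * (k + 2)) with hδ
  have hδ0 : 0 < δ := by positivity
  obtain ⟨Ct, hCt, ht⟩ := Div277.tau_le_rpow hδ0
  refine ⟨C0 * Ct * Ct ^ k * ((1 + 1 / δ) * 2 ^ δ), by positivity, ?_⟩
  intro X Z hX hZ d k₁ k₂ hd p₁ p₂ hcop b₁ b₂
  have hZ0 : 0 < Z := by linarith
  have hX0 : (0 : ℝ) ≤ X := by linarith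
  have nd : (1 : ℝ) ≤ nm d := by exact_mod_cast nm_pos.2 hd.ne_zero
  have n1 : (1 : ℝ) ≤ nm k₁ := by exact_mod_cast nm_pos.2 p₁.ne_zero
  have n2 : (1 : ℝ) ≤ nm k₂ := by exact_mod_cast nm_pos.2 p₂.ne_zero
  have hX2 : (1 : ℝ) ≤ X ^ 2 := one_le_pow₀ hX
  have q2 : (nm k₂ : ℝ) ≤ X := le_trans (le_mul_of_one_le_left (by linarith) nd) b₂
  have q1 : (nm k₁ : ℝ) ≤ X := le_trans (le_mul_of_one_le_left (by linarith) nd) b₁
  have m1 : (nm (k₁ * k₂) : ℝ) ≤ X ^ 2 := by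
    rw [nm_mul, sq]; push_cast
    exact mul_le_mul q1 q2 (by linarith) hX0
  have m2 : (nm (d * (k₁ * k₂)) : ℝ) ≤ X ^ 2 := by
    rw [nm_mul, nm_mul, sq]; push_cast
    calc (nm d : ℝ) * (nm k₁ * nm k₂) = (nm d * nm k₁) * nm k₂ := by ring
      _ ≤ X * X := mul_le_mul b₁ q2 (by linarith) hX0
  have t1 : (Div277.tau (d * (k₁ * k₂)) : ℝ) ≤ Ct * (X ^ 2) ^ δ := by
    refine (ht _ (hd.mul (p₁.mul p₂)).ne_zero).trans ?_
    gcongr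
  have t2 : (Div277.tau (k₁ * k₂) : ℝ) ≤ Ct * (X ^ 2) ^ δ := by
    refine (ht _ (p₁.mul p₂).ne_zero).trans ?_
    gcongr
  have hA : AA' Z k₁ k₂ ≤ X ^ 2 := by
    unfold AA'
    have hpi := Real.pi_gt_three
    have e0 : (nm (k₁ * k₂) : ℝ) = nm k₁ * nm k₂ := by rw [nm_mul]; push_cast; rfl
    rw [e0] at m1
    rw [div_le_iff₀ (by positivity)]
    have e1 : (3 : ℝ) ≤ 4 * Real.pi ^ 2 * Z := by nlinarith
    have e2 : (0 : ℝ) ≤ (nm k₁ : ℝ) * nm k₂ := by positivity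
    calc (3 : ℝ) * (nm k₁ * nm k₂) ≤ (4 * Real.pi ^ 2 * Z) * X ^ 2 :=
          mul_le_mul e1 m1 e2 (by positivity)
      _ = _ := by ring
  have hA0 := (AA_pos hZ0 p₁.ne_zero p₂.ne_zero).le
  have t3 := log_le_aux hδ0 hA0 hX2 hA
  have hQ : 0 ≤ Z ^ (2 / 3 : ℝ) * ((nm k₁ : ℝ) * nm k₂) ^ (-(1 / 3) : ℝ) + 1 := by positivity
  have hlog : 0 ≤ 1 + Real.log (1 + AA' Z k₁ k₂) := by
    have : 0 ≤ Real.log (1 + AA' Z k₁ k₂) := Real.log_nonneg (by linarith)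
    linarith
  have eX : (X ^ 2) ^ δ * ((X ^ 2) ^ δ) ^ k * (X ^ 2) ^ δ = X ^ ε := by
    have e1 : (X ^ 2) ^ δ = X ^ (2 * δ) := by
      rw [← Real.rpow_natCast X 2, ← Real.rpow_mul hX0]; norm_num
    have hXp : 0 < X := by linarith
    rw [e1, ← Real.rpow_natCast (X ^ (2 * δ)) k, ← Real.rpow_mul hX0, ← Real.rpow_add hXp,
      ← Real.rpow_add hXp]
    congr 1
    rw [hδ]
    field_simp
    ring
  refine (h0 Z d k₁ k₂ hZ0 hd p₁ p₂ hcop).trans ?_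
  refine mul_le_mul_of_nonneg_right ?_ hQ
  have hT0 : (0 : ℝ) ≤ Div277.tau (d * (k₁ * k₂)) := Nat.cast_nonneg _
  have hT1 : (0 : ℝ) ≤ Div277.tau (k₁ * k₂) := Nat.cast_nonneg _
  calc C0 * (Div277.tau (d * (k₁ * k₂)) : ℝ) * (Div277.tau (k₁ * k₂) : ℝ) ^ k *
        (1 + Real.log (1 + AA' Z k₁ k₂))
      ≤ C0 * (Ct * (X ^ 2) ^ δ) * (Ct * (X ^ 2) ^ δ) ^ k *
        ((1 + 1 / δ) * 2 ^ δ * (X ^ 2) ^ δ) := by gcongr
    _ = C0 * Ct * Ct ^ k * ((1 + 1 / δ) * 2 ^ δ) *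
        ((X ^ 2) ^ δ * ((X ^ 2) ^ δ) ^ k * (X ^ 2) ^ δ) := by
        rw [mul_pow]; ring
    _ = _ := by rw [eX]

/-! ### the sum over the pairs -/

open Classical in
lemma sum_rpow_le {ε : ℝ} (hε : 0 < ε) : ∃ C : ℝ, 0 ≤ C ∧ ∀ X : ℝ, 1 ≤ X →
    ∑ k ∈ S X, ((nm k : ℝ) ^ (-(1 / 3) : ℝ)) ^ 2 ≤ C * (X ^ (1 / 3 : ℝ) * X ^ ε) := by
  have hs : Summable fun k : Eis => (nm k : ℝ) ^ (-(1 + ε)) := Rho777.summable_nm (by linarith)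
  refine ⟨∑' k : Eis, (nm k : ℝ) ^ (-(1 + ε)), tsum_nonneg fun _ => by positivity, ?_⟩
  intro X hX
  have hX0 : (0 : ℝ) ≤ X := by linarith
  have h1 : ∀ k ∈ S X, ((nm k : ℝ) ^ (-(1 / 3) : ℝ)) ^ 2 ≤
      (X ^ (1 / 3 : ℝ) * X ^ ε) * (nm k : ℝ) ^ (-(1 + ε)) := by
    intro k hk
    have hk' := (mem_S hX0).1 hk
    have n1 : (0 : ℝ) < nm k := by exact_mod_cast nm_pos.2 hk'.2.1.ne_zero
    have e1 : ((nm k : ℝ) ^ (-(1 / 3) : ℝ)) ^ 2 =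
        ((nm k : ℝ) ^ (1 / 3 : ℝ) * (nm k : ℝ) ^ ε) * (nm k : ℝ) ^ (-(1 + ε)) := by
      rw [← Real.rpow_natCast, ← Real.rpow_mul n1.le, ← Real.rpow_add n1, ← Real.rpow_add n1]
      congr 1
      norm_num
    rw [e1]
    have := hk'.1
    gcongr
  refine (Finset.sum_le_sum h1).trans ?_
  rw [← Finset.mul_sum, mul_comm]
  refine mul_le_mul_of_nonneg_right ?_ (by positivity)
  exact hs.sum_le_tsum _ (fun _ _ => by positivity)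

lemma young_aux {X Z : ℝ} (hX : 0 ≤ X) (hZ : 0 ≤ Z) :
    Z ^ (2 / 3 : ℝ) * X ^ (1 / 3 : ℝ) ≤ X + Z := by
  have h := Real.geom_mean_le_arith_mean2_weighted (w₁ := 2 / 3) (w₂ := 1 / 3) (by norm_num)
    (by norm_num) hZ hX (by norm_num)
  linarith

open Classical in
/-- the sum over `k₁, k₂` for one gcd -/
lemma sum_Er_one {ε : ℝ} (hε : 0 < ε) : ∃ C : ℝ, 0 ≤ C ∧ ∀ X Z : ℝ, 1 ≤ X → 1 ≤ Z →
    ∀ (w : Eis → ℂ) (d : Eis), d ∈ S X →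
    ‖cpS X (ws w X) (ws w X) d (fun k₁ k₂ => ((Er Z d k₁ k₂ : ℝ) : ℂ))‖ ≤
      C * X ^ ε * (X + Z) * ∑ k ∈ S X, ‖ws w X (d * k)‖ ^ 2 := by
  obtain ⟨C1, hC1, h1⟩ := Er_le (half_pos hε)
  obtain ⟨C2, hC2, h2⟩ := sum_rpow_le (half_pos hε)
  refine ⟨C1 * (C2 + 16), by positivity, ?_⟩
  intro X Z hX hZ w d hd
  have hX0 : (0 : ℝ) ≤ X := by linarith
  have hXp : (0 : ℝ) < X := by linarith
  have hZ0 : 0 < Z := by linarith
  have hd' := (mem_S hX0).1 hd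
  have b1 := norm_cpS_le (X := X) (α := ws w X) (β := ws w X) (d := d)
    (Ψ := fun k₁ k₂ => ((Er Z d k₁ k₂ : ℝ) : ℂ))
    (B := fun k₁ k₂ => C1 * X ^ (ε / 2) *
      (Z ^ (2 / 3 : ℝ) * ((nm k₁ : ℝ) * nm k₂) ^ (-(1 / 3) : ℝ) + 1))
    (by
      intro k₁ k₂ a₁ a₂ hc n₁ n₂
      have a₁' := (mem_S hX0).1 a₁
      have a₂' := (mem_S hX0).1 a₂
      have m₁ := (mem_S hX0).1 (ws_ne n₁)
      have m₂ := (mem_S hX0).1 (ws_ne n₂)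
      have c₁ : IsCoprime d k₁ := by
        by_contra hcc
        exact not_sqf_of_not_coprime hd'.2.1.ne_zero hcc m₁.2.2
      have c₂ : IsCoprime d k₂ := by
        by_contra hcc
        exact not_sqf_of_not_coprime hd'.2.1.ne_zero hcc m₂.2.2
      have r₁ := m₁.1
      have r₂ := m₂.1
      rw [nm_mul] at r₁ r₂
      push_cast at r₁ r₂
      have := h1 X Z hX hZ d k₁ k₂ hd'.2.1 a₁'.2.1 a₂'.2.1 (c₁.mul_right c₂) r₁ r₂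
      simpa [Complex.norm_real, Real.norm_eq_abs] using this)
    (fun k₁ k₂ _ _ => by positivity)
  refine b1.trans ?_
  have e1 : ∑ k₁ ∈ S X, ∑ k₂ ∈ S X, ‖ws w X (d * k₁)‖ * ‖ws w X (d * k₂)‖ *
      (C1 * X ^ (ε / 2) * (Z ^ (2 / 3 : ℝ) * ((nm k₁ : ℝ) * nm k₂) ^ (-(1 / 3) : ℝ) + 1)) =
      C1 * X ^ (ε / 2) * (Z ^ (2 / 3 : ℝ) *
        (∑ k ∈ S X, ‖ws w X (d * k)‖ * (nm k : ℝ) ^ (-(1 / 3) : ℝ)) ^ 2 +
        (∑ k ∈ S X, ‖ws w X (d * k)‖) ^ 2) := by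
    rw [sq, sq, Finset.sum_mul_sum, Finset.sum_mul_sum, Finset.mul_sum, mul_add, Finset.mul_sum,
      Finset.mul_sum, ← Finset.sum_add_distrib]
    refine Finset.sum_congr rfl fun k₁ _ => ?_
    rw [Finset.mul_sum, Finset.mul_sum, Finset.mul_sum, ← Finset.sum_add_distrib]
    refine Finset.sum_congr rfl fun k₂ _ => ?_
    rw [Real.mul_rpow (Nat.cast_nonneg _) (Nat.cast_nonneg _)]
    ring
  rw [e1]
  set Wd := ∑ k ∈ S X, ‖ws w X (d * k)‖ ^ 2 with hWd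
  have hW0 : 0 ≤ Wd := Finset.sum_nonneg fun _ _ => by positivity
  have c1 : (∑ k ∈ S X, ‖ws w X (d * k)‖ * (nm k : ℝ) ^ (-(1 / 3) : ℝ)) ^ 2 ≤
      Wd * (C2 * (X ^ (1 / 3 : ℝ) * X ^ (ε / 2))) := by
    refine (Finset.sum_mul_sq_le_sq_mul_sq _ _ _).trans ?_
    exact mul_le_mul_of_nonneg_left (h2 X hX) hW0
  have c2 : (∑ k ∈ S X, ‖ws w X (d * k)‖) ^ 2 ≤ 16 * X * Wd := by
    have h3 := sq_sum_le_card_mul_sum_sq (s := S X) (f := fun k => ‖ws w X (d * k)‖)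
    refine h3.trans ?_
    exact mul_le_mul_of_nonneg_right (GLS106.card_S_le hX) hW0
  have hXe : 1 ≤ X ^ (ε / 2) := Real.one_le_rpow hX (by linarith)
  have hy := young_aux hX0 hZ0.le
  have c3 : Z ^ (2 / 3 : ℝ) * (Wd * (C2 * (X ^ (1 / 3 : ℝ) * X ^ (ε / 2)))) ≤
      C2 * X ^ (ε / 2) * (X + Z) * Wd := by
    calc Z ^ (2 / 3 : ℝ) * (Wd * (C2 * (X ^ (1 / 3 : ℝ) * X ^ (ε / 2))))
        = C2 * X ^ (ε / 2) * (Z ^ (2 / 3 : ℝ) * X ^ (1 / 3 : ℝ)) * Wd := by ring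
      _ ≤ _ := by gcongr
  have c4 : 16 * X * Wd ≤ 16 * X ^ (ε / 2) * (X + Z) * Wd := by
    have : X ≤ X ^ (ε / 2) * (X + Z) := by
      calc X ≤ 1 * (X + Z) := by linarith
        _ ≤ _ := by gcongr
    nlinarith
  calc C1 * X ^ (ε / 2) * (Z ^ (2 / 3 : ℝ) *
        (∑ k ∈ S X, ‖ws w X (d * k)‖ * (nm k : ℝ) ^ (-(1 / 3) : ℝ)) ^ 2 +
        (∑ k ∈ S X, ‖ws w X (d * k)‖) ^ 2)
      ≤ C1 * X ^ (ε / 2) * (C2 * X ^ (ε / 2) * (X + Z) * Wd +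
        16 * X ^ (ε / 2) * (X + Z) * Wd) := by
        refine mul_le_mul_of_nonneg_left (add_le_add ?_ (c2.trans c4)) (by positivity)
        exact (mul_le_mul_of_nonneg_left c1 (by positivity)).trans c3
    _ = C1 * (C2 + 16) * (X ^ (ε / 2) * X ^ (ε / 2)) * (X + Z) * Wd := by ring
    _ = _ := by
        rw [← Real.rpow_add hXp, add_halves]

open Classical in
/-- sums over `d`, `k` -/
lemma sum_dk_le {ε : ℝ} (hε : 0 < ε) : ∃ C : ℝ, 0 ≤ C ∧ ∀ X : ℝ, 1 ≤ X → ∀ w : Eis → ℂ,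
    ∑ d ∈ S X, ∑ k ∈ S X, ‖ws w X (d * k)‖ ^ 2 ≤ C * X ^ ε * ∑ h ∈ S X, ‖w h‖ ^ 2 := by
  obtain ⟨Ct, hCt, ht⟩ := Div277.tau_le_rpow hε
  refine ⟨Ct, by linarith, ?_⟩
  intro X hX w
  have hX0 : (0 : ℝ) ≤ X := by linarith
  have h1 := PA842.sum_pairs_le (Y := 0) hX0 (fun g => ‖ws w X g‖ ^ 2) (fun g => by positivity)
  have e1 : (S X).filter (fun d => (0 : ℝ) < (nm d : ℝ)) = S X := by
    apply Finset.filter_true_of_mem
    intro d hd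
    exact_mod_cast nm_pos.2 ((mem_S hX0).1 hd).2.1.ne_zero
  rw [e1] at h1
  have e2 : ∀ d ∈ S X, ∑ f ∈ (S X).filter (fun f => d * f ∈ S X), ‖ws w X (d * f)‖ ^ 2 =
      ∑ k ∈ S X, ‖ws w X (d * k)‖ ^ 2 := by
    intro d _
    rw [Finset.sum_filter]
    refine Finset.sum_congr rfl fun k _ => ?_
    split_ifs with h
    · rfl
    · rw [ws_zero _ h]; simp
  rw [Finset.sum_congr rfl e2] at h1
  refine h1.trans ?_
  rw [Finset.mul_sum]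
  refine Finset.sum_le_sum fun g hg => ?_
  have hg' := (mem_S hX0).1 hg
  rw [ws_eq hg]
  refine mul_le_mul_of_nonneg_right ?_ (by positivity)
  refine (ht g hg'.2.1.ne_zero).trans ?_
  have := hg'.1
  gcongr

open Classical in
/-- **the sum over all pairs of the errors** -/
theorem sum_Er_le {ε : ℝ} (hε : 0 < ε) : ∃ C : ℝ, 0 ≤ C ∧ ∀ X Z : ℝ, 1 ≤ X → 1 ≤ Z →
    ∀ w : Eis → ℂ,
    ∑ d ∈ S X, ‖cpS X (ws w X) (ws w X) d (fun k₁ k₂ => ((Er Z d k₁ k₂ : ℝ) : ℂ))‖ ≤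
      C * X ^ ε * (X + Z) * ∑ h ∈ S X, ‖w h‖ ^ 2 := by
  obtain ⟨C1, hC1, h1⟩ := sum_Er_one (half_pos hε)
  obtain ⟨C2, hC2, h2⟩ := sum_dk_le (half_pos hε)
  refine ⟨C1 * C2, by positivity, ?_⟩
  intro X Z hX hZ w
  have hXp : (0 : ℝ) < X := by linarith
  refine (Finset.sum_le_sum fun d hd => h1 X Z hX hZ w d hd).trans ?_
  rw [← Finset.mul_sum]
  have h3 := h2 X hX w
  calc C1 * X ^ (ε / 2) * (X + Z) * ∑ d ∈ S X, ∑ k ∈ S X, ‖ws w X (d * k)‖ ^ 2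
      ≤ C1 * X ^ (ε / 2) * (X + Z) * (C2 * X ^ (ε / 2) * ∑ h ∈ S X, ‖w h‖ ^ 2) := by
        gcongr
    _ = C1 * C2 * (X ^ (ε / 2) * X ^ (ε / 2)) * (X + Z) * ∑ h ∈ S X, ‖w h‖ ^ 2 := by ring
    _ = _ := by rw [← Real.rpow_add hXp, add_halves]

end Crest.Agent.R017.PX764
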