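import Crest.Agent.R017.PA3_842
import Crest.Agent.R017.PX2_764

/-!
# Row 17, exceptional class, rule (P'_ex), part a (helper241): Poisson restricted to a set of
# frequencies

* `PhiH t c D E P1 P2 H` : the dual coefficient of a pair, frequencies in `H`
* `CCH t PS c D H` : the pairs with intersection `D`, frequencies in `H E`
* `CCH_eq_dual` : the same in terms of the forms `QQ`
* `CC_eq_CCH` : `CC` is `CCH` with all frequencies; `CCH_add` : additivity in `H`
-/

set_option autoImplicit false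

noncomputable section

namespace Crest.Agent.R017.PX5

open Crest.Agent.R012
open Eis CharSum852 Gauss880 Tau671 Mob705 LS2
open Poisson381 (gau norm_gau summable_gau_one summable_gau poisson_gau_periodic s3 s3_eq_toC)
open Crest.Agent.R017.PA842

open Classical in
/-- one term of the dual coefficient -/
def trm (t : ℝ) (c : Finset Eis → ℂ) (D E P1 P2 : Finset Eis) (h : Eis) : ℂ :=
  gau (4 / (3 * (t * nm (pr E) * (nm (pr (P1 \ D)) * nm (pr (P2 \ D)))))) (toC h) *
    (VV c D E h P1 * (starRingEnd ℂ) (VV c D E h P2))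

open Classical in
/-- the dual coefficient of a pair with intersection `D`, frequencies in `H` -/
def PhiH (t : ℝ) (c : Finset Eis → ℂ) (D E P1 P2 : Finset Eis) (H : Eis → Prop) : ℂ :=
  ((2 / Real.sqrt 3 * (t * nm (pr E))⁻¹ : ℝ) : ℂ) *
      ∑' h : Eis, if H h then trm t c D E P1 P2 h else 0

open Classical in
/-- the pairs with intersection exactly `D`, frequencies in `H E` -/
def CCH (t : ℝ) (PS : Finset Eis) (c : Finset Eis → ℂ) (D : Finset Eis)
    (H : Finset Eis → Eis → Prop) : ℂ :=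
  ∑ P1 ∈ PS.powerset, ∑ P2 ∈ PS.powerset,
    if P1 ∩ P2 = D then ∑ E ∈ D.powerset, (-1) ^ E.card * PhiH t c D E P1 P2 (H E) else 0

lemma summable_trm {t : ℝ} (ht : 0 < t) {PS : Finset Eis} (hPS : IsPS PS)
    (c : Finset Eis → ℂ) {D E P1 P2 : Finset Eis} (hE : IsPS E) (h1 : P1 ⊆ PS) (h2 : P2 ⊆ PS) :
    Summable (trm t c D E P1 P2) := by
  classical
  have hk1 : IsPS (P1 \ D) := hPS.mono (Finset.sdiff_subset.trans h1)
  have hk2 : IsPS (P2 \ D) := hPS.mono (Finset.sdiff_subset.trans h2)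
  have n1 : 0 < (nm (pr (P1 \ D)) : ℝ) := by exact_mod_cast nm_pos.2 hk1.ne_zero
  have n2 : 0 < (nm (pr (P2 \ D)) : ℝ) := by exact_mod_cast nm_pos.2 hk2.ne_zero
  have n3 : 0 < (nm (pr E) : ℝ) := by exact_mod_cast nm_pos.2 hE.ne_zero
  exact summable_term Sym645.syFacts syG (by positivity) hk1.prim hk2.prim hk1.squarefree
    hk2.squarefree _ _ _

open Classical in
lemma summable_ite {f : Eis → ℂ} (hf : Summable f) (H : Eis → Prop) :
    Summable (fun h => if H h then f h else 0) := by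
  have : (fun h => if H h then f h else 0) = Set.indicator {h | H h} f := by
    funext h
    by_cases hh : H h
    · rw [if_pos hh, Set.indicator_of_mem (by exact hh)]
    · rw [if_neg hh, Set.indicator_of_notMem (by exact hh)]
  rw [this]
  exact hf.indicator _

open Classical in
lemma PhiH_true (t : ℝ) (c : Finset Eis → ℂ) (D E P1 P2 : Finset Eis) :
    PhiH t c D E P1 P2 (fun _ => True) = Phi t c D E P1 P2 := by
  unfold PhiH Phi trm
  simp

open Classical in
lemma PhiH_add {t : ℝ} (ht : 0 < t) {PS : Finset Eis} (hPS : IsPS PS)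
    (c : Finset Eis → ℂ) {D E P1 P2 : Finset Eis} (hE : IsPS E) (h1 : P1 ⊆ PS) (h2 : P2 ⊆ PS)
    {H H1 H2 : Eis → Prop} (hH : ∀ h, H h ↔ (H1 h ∨ H2 h)) (hd : ∀ h, H1 h → ¬ H2 h) :
    PhiH t c D E P1 P2 H = PhiH t c D E P1 P2 H1 + PhiH t c D E P1 P2 H2 := by
  unfold PhiH
  have hs := summable_trm ht hPS c (D := D) hE h1 h2
  rw [← mul_add, ← (summable_ite hs H1).tsum_add (summable_ite hs H2)]
  congr 1
  apply tsum_congr
  intro h
  by_cases a : H1 h
  · rw [if_pos ((hH h).2 (Or.inl a)), if_pos a, if_neg (hd h a), add_zero]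
  · by_cases b : H2 h
    · rw [if_pos ((hH h).2 (Or.inr b)), if_neg a, if_pos b, zero_add]
    · rw [if_neg (fun hh => ((hH h).1 hh).elim a b), if_neg a, if_neg b, zero_add]

open Classical in
/-- additivity in the set of frequencies -/
lemma CCH_add {t : ℝ} (ht : 0 < t) {PS : Finset Eis} (hPS : IsPS PS)
    (c : Finset Eis → ℂ) {D : Finset Eis} (hD : D ⊆ PS)
    {H H1 H2 : Finset Eis → Eis → Prop} (hH : ∀ E ⊆ D, ∀ h, H E h ↔ (H1 E h ∨ H2 E h))
    (hd : ∀ E ⊆ D, ∀ h, H1 E h → ¬ H2 E h) :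
    CCH t PS c D H = CCH t PS c D H1 + CCH t PS c D H2 := by
  unfold CCH
  rw [← Finset.sum_add_distrib]
  refine Finset.sum_congr rfl fun P1 h1 => ?_
  rw [← Finset.sum_add_distrib]
  refine Finset.sum_congr rfl fun P2 h2 => ?_
  by_cases h : P1 ∩ P2 = D
  · rw [if_pos h, if_pos h, if_pos h, ← Finset.sum_add_distrib]
    refine Finset.sum_congr rfl fun E hE => ?_
    have hE' := Finset.mem_powerset.1 hE
    rw [PhiH_add ht hPS c (hPS.mono (hE'.trans hD)) (Finset.mem_powerset.1 h1)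
      (Finset.mem_powerset.1 h2) (hH E hE') (hd E hE')]
    ring
  · rw [if_neg h, if_neg h, if_neg h, add_zero]

open Classical in
/-- `CC` is the case of all frequencies -/
lemma CC_eq_CCH {t : ℝ} (ht : 0 < t) {PS : Finset Eis} (hPS : IsPS PS)
    (c : Finset Eis → ℂ) (D : Finset Eis) :
    CC t PS c D = CCH t PS c D (fun _ _ => True) := by
  unfold CC CCH
  refine Finset.sum_congr rfl fun P1 h1 => Finset.sum_congr rfl fun P2 h2 => ?_
  by_cases h : P1 ∩ P2 = D
  · rw [if_pos h, if_pos h, pair_Phi Sym645.syFacts syG ht hPS c (Finset.mem_powerset.1 h1)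
      (Finset.mem_powerset.1 h2), h]
    refine Finset.sum_congr rfl fun E _ => ?_
    rw [PhiH_true]
  · rw [if_neg h, if_neg h]

open Classical in
/-- **the restricted Poisson identity for a fixed gcd** -/
theorem CCH_eq_dual {t : ℝ} (ht : 0 < t) {PS : Finset Eis}
    (hPS : IsPS PS) (c : Finset Eis → ℂ) {D : Finset Eis} (hD : D ⊆ PS)
    (H : Finset Eis → Eis → Prop) :
    CCH t PS c D H =
      ∑ F ∈ (PS \ D).powerset, ∑ E ∈ D.powerset,
        (-1) ^ F.card * ((-1) ^ E.card * (((2 / Real.sqrt 3 * (t * nm (pr E))⁻¹ : ℝ) : ℂ) *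
          ∑' h : Eis, if H E h then QQ t PS c D F E h else 0)) := by
  have e3 : ∀ F ∈ (PS \ D).powerset, ∀ E ∈ D.powerset,
      ∑' h : Eis, (if H E h then QQ t PS c D F E h else 0) =
      ∑ P1 ∈ AA PS D F, ∑ P2 ∈ AA PS D F, ∑' h : Eis,
        if H E h then trm t c D E P1 P2 h else 0 := by
    intro F hF E hE
    have hES : IsPS E := hPS.mono ((Finset.mem_powerset.1 hE).trans hD)
    have hs2 : ∀ P1 ∈ AA PS D F, ∀ P2 ∈ AA PS D F, Summable fun h : Eis =>
        if H E h then trm t c D E P1 P2 h else 0 := fun P1 h1 P2 h2 =>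
      summable_ite (summable_trm ht hPS c hES (mem_AA.1 h1).1 (mem_AA.1 h2).1) _
    have e : ∀ h : Eis, (if H E h then QQ t PS c D F E h else 0) =
        ∑ P1 ∈ AA PS D F, ∑ P2 ∈ AA PS D F, if H E h then trm t c D E P1 P2 h else 0 := by
      intro h
      by_cases hh : H E h
      · simp only [if_pos hh]
        rfl
      · simp only [if_neg hh, Finset.sum_const_zero]
    simp_rw [e]
    rw [Summable.tsum_finsetSum (fun P1 h1 => summable_sum fun P2 h2 => hs2 P1 h1 P2 h2)]
    refine Finset.sum_congr rfl fun P1 h1 => ?_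
    rw [Summable.tsum_finsetSum (fun P2 h2 => hs2 P1 h1 P2 h2)]
  have e5 : ∑ F ∈ (PS \ D).powerset, ∑ E ∈ D.powerset,
        (-1) ^ F.card * ((-1) ^ E.card * (((2 / Real.sqrt 3 * (t * nm (pr E))⁻¹ : ℝ) : ℂ) *
          ∑' h : Eis, if H E h then QQ t PS c D F E h else 0)) =
      ∑ F ∈ (PS \ D).powerset, (-1 : ℂ) ^ F.card * ∑ P1 ∈ AA PS D F, ∑ P2 ∈ AA PS D F,
        ∑ E ∈ D.powerset, (-1) ^ E.card * PhiH t c D E P1 P2 (H E) := by
    refine Finset.sum_congr rfl fun F hF => ?_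
    rw [← Finset.mul_sum]
    congr 1
    have e6 : ∀ P1 ∈ AA PS D F, ∑ P2 ∈ AA PS D F,
        ∑ E ∈ D.powerset, (-1) ^ E.card * PhiH t c D E P1 P2 (H E) =
        ∑ E ∈ D.powerset, ∑ P2 ∈ AA PS D F, (-1) ^ E.card * PhiH t c D E P1 P2 (H E) :=
      fun P1 _ => Finset.sum_comm
    rw [Finset.sum_congr rfl e6, Finset.sum_comm]
    refine Finset.sum_congr rfl fun E hE => ?_
    rw [e3 F hF E hE, Finset.mul_sum, Finset.mul_sum]
    refine Finset.sum_congr rfl fun P1 _ => ?_
    rw [Finset.mul_sum, Finset.mul_sum]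
    refine Finset.sum_congr rfl fun P2 _ => ?_
    rfl
  rw [e5, sum_AA_pair hD]
  rfl

end Crest.Agent.R017.PX5
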