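import Crest.Agent.R017.PX5a_241
import Crest.Agent.R017.PM1_106

/-!
# Row 17, exceptional class, rule (P'_ex), part b (helper241): element form, restricted frequencies

* `CCH_eq_qf` : `CCH` for the coefficients `cs w X`, gcd `d`, frequencies `l` with `H e l`
* `norm_CCH_le` : the bound by the restricted dual sums and a tail
-/

set_option autoImplicit false

noncomputable section

namespace Crest.Agent.R017.PX5

open Crest.Agent.R012 MeasureTheory
open Eis CharSum852 Gauss880 Tau671 Mob705 LS2 CR2 MelSep811 DualIneq811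
open Poisson381 (gau norm_gau summable_gau_one summable_gau poisson_gau_periodic s3 s3_eq_toC)
open Crest.Agent.R017.PA842 Crest.Agent.R017.PM106

open Classical in
/-- element form -/
theorem CCH_eq_qf {X Z : ℝ} (hX : 0 ≤ X) (hZ : 0 < Z) (w : Eis → ℂ) {d : Eis} (hd : d ∈ S X)
    (H : Eis → Eis → Prop) :
    CCH (1 / (Real.pi * Z)) (PX X) (cs w X) (pp d) (fun E l => H (pr E) l) =
      ∑ e ∈ pdiv d, ∑ f ∈ S X, (mu e : ℂ) * (mu f : ℂ) *
        ((2 * Real.pi * Z / (Real.sqrt 3 * nm e) : ℝ) : ℂ) *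
          ∑' l : Eis, if H e l then qf w X Z d e f l else 0 := by
  have hPS := isPS_PX hX
  set t : ℝ := 1 / (Real.pi * Z) with ht
  have htpos : 0 < t := by rw [ht]; positivity
  have hd' := (mem_S hX).1 hd
  rw [CCH_eq_dual htpos hPS _ (pp_subset_PX hX hd)]
  rw [Finset.sum_comm (s := pdiv d) (t := S X)]
  have hQ0 : ∀ D F E : Finset Eis, ∀ l, (∀ P ∈ AA (PX X) D F, cs w X P = 0) →
      QQ t (PX X) (cs w X) D F E l = 0 := by
    intro D F E l h
    unfold QQ
    apply Finset.sum_eq_zero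
    intro P hP
    apply Finset.sum_eq_zero
    intro P2 _
    unfold VV
    rw [h P hP]; ring
  have e2 : ∑ F ∈ (PX X \ pp d).powerset, ∑ E ∈ (pp d).powerset,
      (-1) ^ F.card * ((-1) ^ E.card * (((2 / Real.sqrt 3 * (t * nm (pr E))⁻¹ : ℝ) : ℂ) *
          ∑' h : Eis, if H (pr E) h then QQ t (PX X) (cs w X) (pp d) F E h else 0)) =
      ∑ F ∈ (PX X).powerset, if Disjoint F (pp d) then ∑ E ∈ (pp d).powerset,
      (-1) ^ F.card * ((-1) ^ E.card * (((2 / Real.sqrt 3 * (t * nm (pr E))⁻¹ : ℝ) : ℂ) *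
          ∑' h : Eis, if H (pr E) h then QQ t (PX X) (cs w X) (pp d) F E h else 0)) else 0 := by
    rw [← Finset.sum_filter]
    apply Finset.sum_congr _ fun _ _ => rfl
    ext F
    rw [Finset.mem_filter, Finset.mem_powerset, Finset.mem_powerset, Finset.subset_sdiff]
  rw [e2, sum_powerset_S hX]
  swap
  · intro F hF hFX
    split_ifs
    · apply Finset.sum_eq_zero
      intro E _
      have : ∀ h, QQ t (PX X) (cs w X) (pp d) F E h = 0 := fun h =>
        hQ0 (pp d) F E h (fun P hP => by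
          rw [mem_AA] at hP
          apply cs_big hX w P hP.1
          refine lt_of_lt_of_le hFX ?_
          have hd : pr F ∣ pr P := Finset.prod_dvd_prod_of_subset _ _ _
            (Finset.subset_union_right.trans hP.2)
          exact_mod_cast Div277.nm_le_of_dvd (hPS.mono hP.1).ne_zero hd)
      simp [this]
    · rfl
  refine Finset.sum_congr rfl fun f hf => ?_
  have hf' := (mem_S hX).1 hf
  by_cases hdf : Disjoint (pp f) (pp d)
  · rw [if_pos hdf]
    have e3 : ∀ e : Eis, (mu e : ℂ) * (mu f : ℂ) *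
        ((2 * Real.pi * Z / (Real.sqrt 3 * nm e) : ℝ) : ℂ) *
          (∑' l : Eis, if H e l then qf w X Z d e f l else 0) =
        (mu e : ℂ) * ((mu f : ℂ) *
        (((2 * Real.pi * Z / (Real.sqrt 3 * nm e) : ℝ) : ℂ) *
          ∑' l : Eis, if H e l then qf w X Z d e f l else 0)) := by
      intro e; ring
    rw [Finset.sum_congr rfl fun e _ => e3 e]
    rw [sum_pdiv_mu hd'.2.1.ne_zero]
    refine Finset.sum_congr rfl fun E hE => ?_
    have hES : IsPS E := (isPS_pp d).mono (Finset.mem_powerset.1 hE)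
    rw [mu_eq_of_mem_S hX hf]
    have e4 : ∀ l, QQ t (PX X) (cs w X) (pp d) (pp f) E l = qf w X Z d (pr E) f l := fun l =>
      QQ_eq_qf syG hX hZ w hd hf hdf.symm hES l
    simp_rw [e4]
    have n3 : 0 < (nm (pr E) : ℝ) := by exact_mod_cast nm_pos.2 hES.ne_zero
    have e5 : (2 / Real.sqrt 3 * (t * nm (pr E))⁻¹ : ℝ) =
        2 * Real.pi * Z / (Real.sqrt 3 * nm (pr E)) := by
      rw [ht]
      have hpi := Real.pi_pos
      have h3 : 0 < Real.sqrt 3 := Real.sqrt_pos.2 (by norm_num)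
      field_simp
    rw [e5]
    unfold pr
    ring
  · rw [if_neg hdf]
    symm
    apply Finset.sum_eq_zero
    intro e _
    have hno : ∀ k, d * f * k ∉ S X := by
      intro k hk
      rw [mem_S hX] at hk
      apply hdf
      rw [Finset.disjoint_left]
      intro p hp1 hp2
      have hp := isPP_of_mem_pp hp1
      have hsq : p * p ∣ d * f * k :=
        (mul_dvd_mul (dvd_of_mem_pp hp2) (dvd_of_mem_pp hp1)).trans (dvd_mul_right _ _)
      exact hp.2.not_isUnit (hk.2.2 p hsq)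
    have : ∀ l, qf w X Z d e f l = 0 := fun l => qf_eq_zero w hno
    simp [this]

open Classical in
/-- the tail with a restriction -/
lemma one_tail_H {X Z ε : ℝ} (hX : 1 ≤ X) (hZ : 1 ≤ Z) (hε : 0 < ε) (w : Eis → ℂ)
    {d e f : Eis} (hd : IsPrim d) (he : e ≠ 0) (hf : f ∈ S X) (H : Eis → Prop) :
    ‖∑' l : Eis, (if H l ∧ ¬ (l = 0 ∨ (nm l : ℝ) ≤ Lde X Z ε d e) then qf w X Z d e f l else 0)‖ ≤
      (16 * X * ∑ h ∈ S X, ‖w h‖ ^ 2) * Real.exp (-(X * Z) ^ ε) * (101 * Lde X Z ε d e) := by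
  have hXZ : 1 ≤ X * Z := one_le_mul_of_one_le_of_one_le hX hZ
  have hP1 : 1 ≤ (X * Z) ^ ε := Real.one_le_rpow hXZ hε.le
  have hq : 0 ≤ nm e * X ^ 2 / ((nm d : ℝ) ^ 2 * Z) := by positivity
  have hL1 : 1 ≤ Lde X Z ε d e := by
    unfold Lde; exact one_le_mul_of_one_le_of_one_le hP1 (by linarith)
  have hc : 0 < 1 / Lde X Z ε d e := by positivity
  have hs := Edge79.summable_exp hc
  set A := (16 * X * ∑ h ∈ S X, ‖w h‖ ^ 2) * Real.exp (-(X * Z) ^ ε) with hA
  have hA0 : 0 ≤ A := by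
    have : 0 ≤ ∑ h ∈ S X, ‖w h‖ ^ 2 := Finset.sum_nonneg fun _ _ => by positivity
    positivity
  have h1 : ∀ l : Eis, ‖(if H l ∧ ¬ (l = 0 ∨ (nm l : ℝ) ≤ Lde X Z ε d e) then
      qf w X Z d e f l else 0)‖ ≤ A * Real.exp (-(1 / Lde X Z ε d e * nm l)) := by
    intro l
    split_ifs with h
    · have h2 := h.2
      push Not at h2
      exact norm_qf_tail hX hZ hε w hd he hf h2.2.le
    · rw [norm_zero]; positivity
  have h2 := tsum_of_norm_bounded (hs.mul_left A).hasSum h1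
  refine h2.trans ?_
  rw [tsum_mul_left]
  refine mul_le_mul_of_nonneg_left ?_ hA0
  refine (Edge79.tsum_exp_le hc).trans ?_
  have : 100 / (1 / Lde X Z ε d e) = 100 * Lde X Z ε d e := by
    field_simp
  rw [this]; linarith

open Classical in
/-- one `(d, e, f)`, restricted frequencies -/
lemma one_def_H {M : ℕ} (hM : 1 ≤ M) {X Z σ ε : ℝ} (hX : 1 ≤ X) (hZ : 1 ≤ Z) (hσ : 0 < σ) (hσ1 : σ ≤ 1) {w : Eis → ℂ}
    (hw : ∀ h, w h ≠ 0 → h ∈ S X) {d e f : Eis} (he : e ≠ 0) (hf : f ∈ S X) (H : Eis → Prop)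
    (hH : ∀ l, H l → l ≠ 0) :
    ‖∑' l : Eis, (if H l then qf w X Z d e f l else 0)‖ ≤
      csigM M σ * ((nm f : ℝ)⁻¹ * (nm e * (nm f : ℝ) ^ 2 / Z) ^ σ) *
        (∑ l ∈ (bl (Lde X Z ε d e)).filter H, (nm l : ℝ) ^ (-σ) *
          ∫ t : ℝ, ((1 + t ^ 2) ^ M)⁻¹ * ‖dsum w X d e f l (σ + t * Complex.I)‖ ^ 2) +
      ‖∑' l : Eis, (if H l ∧ ¬ (l = 0 ∨ (nm l : ℝ) ≤ Lde X Z ε d e) then
        qf w X Z d e f l else 0)‖ := by
  have hX0 : (0 : ℝ) ≤ X := by linarith
  have hZ0 : (0 : ℝ) < Z := by linarith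
  have hL : 0 ≤ Lde X Z ε d e := by unfold Lde; positivity
  have hsum := summable_qf syG hX0 hZ0 w (d := d) he hf
  set L := Lde X Z ε d e with hLd
  have e1 : ∀ l : Eis, (if H l then qf w X Z d e f l else 0) =
      (if l ∈ (bl L).filter H then qf w X Z d e f l else 0) +
      (if H l ∧ ¬ (l = 0 ∨ (nm l : ℝ) ≤ L) then qf w X Z d e f l else 0) := by
    intro l
    by_cases h0 : H l
    · have hl0 := hH l h0
      rw [if_pos h0]
      by_cases h1 : (nm l : ℝ) ≤ L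
      · rw [if_pos (Finset.mem_filter.2 ⟨(mem_bl hL).2 ⟨hl0, h1⟩, h0⟩),
          if_neg (fun h => h.2 (Or.inr h1)), add_zero]
      · rw [if_neg (fun h => h1 ((mem_bl hL).1 (Finset.mem_filter.1 h).1).2), zero_add,
          if_pos ⟨h0, fun h => h.elim hl0 h1⟩]
    · rw [if_neg h0, if_neg (fun h => h0 (Finset.mem_filter.1 h).2), if_neg (fun h => h0 h.1),
        add_zero]
  have s1 : Summable (fun l : Eis => if l ∈ (bl L).filter H then qf w X Z d e f l else 0) :=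
    summable_of_ne_finset_zero (s := (bl L).filter H) (fun l hl => if_neg hl)
  have s2 : Summable (fun l : Eis =>
      if H l ∧ ¬ (l = 0 ∨ (nm l : ℝ) ≤ L) then qf w X Z d e f l else 0) := by
    refine Summable.of_norm_bounded hsum.norm (fun l => ?_)
    split_ifs
    · exact le_rfl
    · rw [norm_zero]; exact norm_nonneg _
  rw [tsum_congr e1, s1.tsum_add s2]
  refine (norm_add_le _ _).trans (add_le_add_left ?_ _)
  have e2 : ∑' l : Eis, (if l ∈ (bl L).filter H then qf w X Z d e f l else 0) =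
      ∑ l ∈ (bl L).filter H, qf w X Z d e f l := by
    rw [tsum_eq_sum (s := (bl L).filter H) (fun l hl => if_neg hl)]
    exact Finset.sum_congr rfl fun l hl => if_pos hl
  rw [e2]
  refine (norm_sum_le _ _).trans ?_
  rw [Finset.mul_sum]
  exact Finset.sum_le_sum fun l hl =>
    norm_qf_leM hM hX0 hZ0 hσ hσ1 hw he hf ((mem_bl hL).1 (Finset.mem_filter.1 hl).1).1

open Classical in
/-- the sum of all restricted tails -/
theorem tail_H {ε : ℝ} (hε : 0 < ε) : ∃ C : ℝ, 0 < C ∧ ∀ X Z : ℝ, 1 ≤ X → 1 ≤ Z →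
    ∀ (w : Eis → ℂ) (H : Eis → Eis → Eis → Prop),
    ∑ d ∈ S X, ∑ e ∈ pdiv d, ∑ f ∈ S X, (2 * Real.pi * Z / (Real.sqrt 3 * nm e)) *
      ‖∑' l : Eis, (if H d e l ∧ ¬ (l = 0 ∨ (nm l : ℝ) ≤ Lde X Z ε d e) then
        qf w X Z d e f l else 0)‖ ≤
      C * Z * ∑ h ∈ S X, ‖w h‖ ^ 2 := by
  set m : ℕ := ⌈6 / ε⌉₊ with hm
  have h3 : 0 < Real.sqrt 3 := by positivity
  have hπ := Real.pi_pos
  refine ⟨2 * Real.pi / Real.sqrt 3 * 16 ^ 4 * 202 * ((m + 1).factorial : ℝ), by positivity, ?_⟩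
  intro X Z hX hZ w H
  have hX0 : (0 : ℝ) ≤ X := by linarith
  have hZ0 : (0 : ℝ) < Z := by linarith
  have hXZ : 1 ≤ X * Z := one_le_mul_of_one_le_of_one_le hX hZ
  set P := (X * Z) ^ ε with hP
  have hP1 : 1 ≤ P := Real.one_le_rpow hXZ hε.le
  set W := ∑ h ∈ S X, ‖w h‖ ^ 2 with hW
  have hW0 : 0 ≤ W := Finset.sum_nonneg fun _ _ => by positivity
  have hcard := GLS106.card_S_le hX
  -- `X^6 P exp (-P) ≤ (m+1)!`
  have key : X ^ 6 * P * Real.exp (-P) ≤ ((m + 1).factorial : ℝ) := by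
    have h1 : X ^ 6 ≤ P ^ m := by
      have e1 : X ≤ X * Z := by nlinarith
      calc X ^ 6 ≤ (X * Z) ^ 6 := by gcongr
        _ = (X * Z) ^ (6 : ℝ) := by norm_cast
        _ ≤ (X * Z) ^ (ε * m) := by
          apply Real.rpow_le_rpow_of_exponent_le hXZ
          have : 6 / ε ≤ m := Nat.le_ceil _
          rw [div_le_iff₀ hε] at this
          linarith
        _ = P ^ m := by rw [hP, Real.rpow_mul (by linarith), Real.rpow_natCast]
    calc X ^ 6 * P * Real.exp (-P) ≤ P ^ m * P * Real.exp (-P) := by gcongr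
      _ = P ^ (m + 1) * Real.exp (-P) := by ring
      _ ≤ _ := pow_mul_exp_le (by linarith) _
  have h1 : ∀ d ∈ S X, ∀ e ∈ pdiv d, ∀ f ∈ S X, (2 * Real.pi * Z / (Real.sqrt 3 * nm e)) *
      ‖∑' l : Eis, (if H d e l ∧ ¬ (l = 0 ∨ (nm l : ℝ) ≤ Lde X Z ε d e) then
        qf w X Z d e f l else 0)‖ ≤
      (2 * Real.pi / Real.sqrt 3 * Z) * (16 * X * W * Real.exp (-P) * (101 * (2 * P * X ^ 2))) := by
    intro d hd e he f hf
    have hd' := (mem_S hX0).1 hd
    have he' := (mem_pdiv hd'.2.1.ne_zero).1 he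
    have ne : (1 : ℝ) ≤ nm e := by exact_mod_cast nm_pos.2 he'.1.ne_zero
    have nd : (1 : ℝ) ≤ nm d := by exact_mod_cast nm_pos.2 hd'.2.1.ne_zero
    have hed : (nm e : ℝ) ≤ nm d := by exact_mod_cast Div277.nm_le_of_dvd hd'.2.1.ne_zero he'.2
    have hL : Lde X Z ε d e ≤ 2 * P * X ^ 2 := by
      unfold Lde
      rw [← hP]
      have : nm e * X ^ 2 / ((nm d : ℝ) ^ 2 * Z) ≤ X ^ 2 := by
        rw [div_le_iff₀ (by positivity)]
        have : (nm e : ℝ) ≤ (nm d : ℝ) ^ 2 * Z := by nlinarith [mul_le_mul nd hZ (by norm_num) (by linarith : (0:ℝ) ≤ nm d), mul_le_mul hed hZ (by norm_num) (by linarith : (0:ℝ) ≤ nm d)]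
        nlinarith [sq_nonneg X]
      have hX2 : 1 ≤ X ^ 2 := by nlinarith
      nlinarith
    have h2 := one_tail_H hX hZ hε w hd'.2.1 he'.1.ne_zero hf (H d e)
    rw [← hW, ← hP] at h2
    have h4 : 2 * Real.pi * Z / (Real.sqrt 3 * nm e) ≤ 2 * Real.pi / Real.sqrt 3 * Z := by
      have : 2 * Real.pi * Z / (Real.sqrt 3 * nm e) = 2 * Real.pi / Real.sqrt 3 * Z / nm e := by
        field_simp
      rw [this]
      exact div_le_self (by positivity) ne
    have hL0 : 0 ≤ Lde X Z ε d e := by unfold Lde; positivity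
    refine mul_le_mul h4 (h2.trans ?_) (norm_nonneg _) (by positivity)
    gcongr
  have h2 : ∑ d ∈ S X, ∑ e ∈ pdiv d, ∑ f ∈ S X, (2 * Real.pi * Z / (Real.sqrt 3 * nm e)) *
      ‖∑' l : Eis, (if H d e l ∧ ¬ (l = 0 ∨ (nm l : ℝ) ≤ Lde X Z ε d e) then
        qf w X Z d e f l else 0)‖ ≤
      (16 * X) * ((16 * X) * ((16 * X) * ((2 * Real.pi / Real.sqrt 3 * Z) *
        (16 * X * W * Real.exp (-P) * (101 * (2 * P * X ^ 2)))))) := by
    have hQ : 0 ≤ (2 * Real.pi / Real.sqrt 3 * Z) *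
        (16 * X * W * Real.exp (-P) * (101 * (2 * P * X ^ 2))) := by positivity
    set Q := (2 * Real.pi / Real.sqrt 3 * Z) *
        (16 * X * W * Real.exp (-P) * (101 * (2 * P * X ^ 2))) with hQd
    have s1 : ∀ d ∈ S X, ∀ e ∈ pdiv d, ∑ f ∈ S X, (2 * Real.pi * Z / (Real.sqrt 3 * nm e)) *
      ‖∑' l : Eis, (if H d e l ∧ ¬ (l = 0 ∨ (nm l : ℝ) ≤ Lde X Z ε d e) then
        qf w X Z d e f l else 0)‖ ≤
        16 * X * Q := by
      intro d hd e he
      refine (Finset.sum_le_sum fun f hf => h1 d hd e he f hf).trans ?_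
      rw [Finset.sum_const, nsmul_eq_mul]
      exact mul_le_mul_of_nonneg_right hcard hQ
    have s2 : ∀ d ∈ S X, ∑ e ∈ pdiv d, ∑ f ∈ S X, (2 * Real.pi * Z / (Real.sqrt 3 * nm e)) *
      ‖∑' l : Eis, (if H d e l ∧ ¬ (l = 0 ∨ (nm l : ℝ) ≤ Lde X Z ε d e) then
        qf w X Z d e f l else 0)‖ ≤
        16 * X * (16 * X * Q) := by
      intro d hd
      refine (Finset.sum_le_sum fun e he => s1 d hd e he).trans ?_
      rw [Finset.sum_const, nsmul_eq_mul]
      refine mul_le_mul_of_nonneg_right (le_trans ?_ hcard) (by positivity)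
      exact_mod_cast Finset.card_le_card ((pdiv_subset hX0 hd).trans (Finset.filter_subset _ _))
    refine (Finset.sum_le_sum fun d hd => s2 d hd).trans ?_
    rw [Finset.sum_const, nsmul_eq_mul]
    exact mul_le_mul_of_nonneg_right hcard (by positivity)
  refine h2.trans ?_
  have e1 : (16 * X) * ((16 * X) * ((16 * X) * ((2 * Real.pi / Real.sqrt 3 * Z) *
        (16 * X * W * Real.exp (-P) * (101 * (2 * P * X ^ 2)))))) =
      2 * Real.pi / Real.sqrt 3 * 16 ^ 4 * 202 * (X ^ 6 * P * Real.exp (-P)) * Z * W := by ring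
  rw [e1]
  gcongr


end Crest.Agent.R017.PX5
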