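import Crest.Agent.R017.PX5b_241

/-!
# Row 17, exceptional class, rule (P'_ex), part c (helper241): the noncube part

* `wc w n = conj (w n G n)`
* `fq2 d e l = l (d e sq3)²`, `dsC` the c-side dual sum, `DIC` its second moment over the `l` with
  `fq2 d e l` noncube
* `norm_dsum_wc_le` : the dual sum of `wc w` is the c-side sum of `w`
* `nc_le` : the noncube part of the pairs with gcd `d`, summed over small `d`
-/

set_option autoImplicit false

noncomputable section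

namespace Crest.Agent.R017.PX5

open Crest.Agent.R012 MeasureTheory
open Eis CharSum852 Gauss880 Tau671 Mob705 LS2 CR2 MelSep811 DualIneq811
open Crest.Agent.R017.PA842 Crest.Agent.R017.PM106
open scoped ComplexConjugate

/-- the conjugate coefficients with the Gauss sum -/
def wc (w : Eis → ℂ) (n : Eis) : ℂ := conj (w n * G n)

lemma supp_wc {w : Eis → ℂ} {X : ℝ} (hw : Supp w X) : Supp (wc w) X := by
  intro h hh
  apply hw
  intro h0
  apply hh
  unfold wc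
  rw [h0]; simp

/-- the frequency -/
def fq2 (d e l : Eis) : Eis := l * (d * e * sq3) ^ 2

/-- the c-side dual sum -/
def dsC (w : Eis → ℂ) (X : ℝ) (d e f l : Eis) (s : ℂ) : ℂ :=
  ∑ k ∈ S X, w (d * f * k) * sy (fq2 d e l) k * (nm k : ℂ) ^ (s - 1 / 2)

open Classical in
/-- its second moment over the noncubes -/
def DIC (M : ℕ) (σ : ℝ) (w : Eis → ℂ) (X : ℝ) (d e f : Eis) (L : ℝ) : ℝ :=
  ∫ t : ℝ, ((1 + t ^ 2) ^ M)⁻¹ * ∑ l ∈ (bl L).filter (fun l => T411.NCube (fq2 d e l)),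
    ‖dsC w X d e f l (σ + t * Complex.I)‖ ^ 2

lemma dsC_eq (w : Eis → ℂ) (X : ℝ) (d e f l : Eis) (s : ℂ) :
    dsC w X d e f l s = dp (S X) (fun k => w (d * f * k) * sy (fq2 d e l) k) s := rfl

lemma integrable_dsC {M : ℕ} (hM : 1 ≤ M) {X : ℝ} (hX : 0 ≤ X) (w : Eis → ℂ) (d e f l : Eis) (σ : ℝ) :
    Integrable (fun t : ℝ => ((1 + t ^ 2) ^ M)⁻¹ * ‖dsC w X d e f l (σ + t * Complex.I)‖ ^ 2) := by
  simp only [dsC_eq]
  exact integrable_dp_sqM hM (S X) _ (fun k hk => ((mem_S hX).1 hk).2.1.ne_zero) σ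

lemma conj_sy_eq_sq {a k : Eis} (hk : IsPrim k) : conj (sy a k) = sy a k ^ 2 := by
  by_cases h : IsCoprime a k
  · have h1 := syG.cube a k hk h
    have h2 : ‖sy a k‖ ^ 3 = 1 := by rw [← norm_pow, h1, norm_one]
    have h3 : ‖sy a k‖ = 1 := (pow_eq_one_iff_of_nonneg (norm_nonneg _) (by norm_num)).mp h2
    have h4 : sy a k * conj (sy a k) = 1 := by
      rw [Complex.mul_conj, Complex.normSq_eq_norm_sq, h3]; simp
    have h5 : sy a k ≠ 0 := by
      intro h0; rw [h0, norm_zero] at h3; norm_num at h3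
    apply mul_left_cancel₀ h5
    rw [h4, ← h1]; ring
  · rw [(syG.eq_zero a k hk).2 h]; simp

lemma sy_sq_left {a k : Eis} (hk : IsPrim k) : sy (a ^ 2) k = sy a k ^ 2 := by
  rw [pow_two, syG.mul_left _ _ _ hk, pow_two]

lemma norm_sy_one' {h a : Eis} (ha : IsPrim a) (hc : IsCoprime h a) :
    sy h a * conj (sy h a) = 1 := by
  have h1 := syG.cube h a ha hc
  have h2 : ‖sy h a‖ ^ 3 = 1 := by rw [← norm_pow, h1, norm_one]
  have h3 : ‖sy h a‖ = 1 := (pow_eq_one_iff_of_nonneg (norm_nonneg _) (by norm_num)).mp h2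
  rw [Complex.mul_conj, Complex.normSq_eq_norm_sq, h3]; simp

lemma cpow_conj' (k : Eis) (s : ℂ) : conj ((nm k : ℂ) ^ s) = (nm k : ℂ) ^ (conj s) := by
  have h : ((nm k : ℕ) : ℂ).arg ≠ Real.pi := by
    rw [Complex.natCast_arg]
    exact Real.pi_pos.ne
  have := Complex.cpow_conj ((nm k : ℕ) : ℂ) s h
  rw [Complex.conj_natCast] at this
  exact this.symm

/-- **the dual sum of `wc w`** -/
lemma dsum_wc {w : Eis → ℂ} {X : ℝ} (hX : 0 ≤ X) (hw : Supp w X) {d e f : Eis} (hd : d ∈ S X)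
    (hf : f ∈ S X) (l : Eis) (s : ℂ) :
    dsum (wc w) X d e f l s = conj (G (d * f) * dsC w X d e f l (conj s)) := by
  unfold dsum dsC
  rw [map_mul, map_sum, Finset.mul_sum]
  refine Finset.sum_congr rfl fun k hk => ?_
  have hd' := (mem_S hX).1 hd
  have hf' := (mem_S hX).1 hf
  have hk' := (mem_S hX).1 hk
  by_cases h0 : w (d * f * k) = 0
  · unfold wc
    rw [h0]; simp
  have hS := (mem_S hX).1 (hw _ h0)
  have hdf : IsPrim (d * f) := hd'.2.1.mul hf'.2.1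
  have hsk : Squarefree k := hk'.2.2
  have hcop : IsCoprime (d * f) k := by
    by_contra hc
    exact PX764.not_sqf_of_not_coprime hdf.ne_zero hc hS.2.2
  have hcf : IsCoprime f k := hcop.of_mul_left_right
  have hG : G k * conj (G k) = 1 := G_mul_conj syG hk'.2.1 hsk
  have e1 : G (d * f * k) = G (d * f) * G k * conj (sy (d * f) k) :=
    G_mul_all syG hdf hk'.2.1
  have hff := norm_sy_one' hk'.2.1 hcf
  have e2 : sy (d * f) k = sy d k * sy f k := syG.mul_left _ _ _ hk'.2.1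
  have e3 : sy (e * sq3) k = sy e k * sy sq3 k := syG.mul_left _ _ _ hk'.2.1
  have e4 : sy (f * l) k = sy f k * sy l k := syG.mul_left _ _ _ hk'.2.1
  have e5 : sy (fq2 d e l) k = sy l k * (conj (sy d k) * conj (sy e k) * conj (sy sq3 k)) := by
    unfold fq2
    rw [syG.mul_left _ _ _ hk'.2.1, sy_sq_left hk'.2.1, syG.mul_left _ _ _ hk'.2.1,
      syG.mul_left _ _ _ hk'.2.1, conj_sy_eq_sq hk'.2.1, conj_sy_eq_sq hk'.2.1,
      conj_sy_eq_sq hk'.2.1]
    ring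
  have e6 : conj ((nm k : ℂ) ^ (conj s - 1 / 2)) = (nm k : ℂ) ^ (s - 1 / 2) := by
    rw [cpow_conj']
    congr 1
    rw [map_sub, Complex.conj_conj, map_div₀, map_one, map_ofNat]
  unfold wc
  rw [e1, e3, e4, e5]
  simp only [map_mul, Complex.conj_conj]
  rw [e6, e2]
  linear_combination (conj (w (d * f * k)) * conj (G (d * f)) * sy d k * sy e k * sy sq3 k *
    conj (sy l k) * (nm k : ℂ) ^ (s - 1 / 2)) * (sy f k * conj (sy f k)) * hG +
    (conj (w (d * f * k)) * conj (G (d * f)) * sy d k * sy e k * sy sq3 k *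
    conj (sy l k) * (nm k : ℂ) ^ (s - 1 / 2)) * hff

lemma norm_dsum_wc_le {w : Eis → ℂ} {X : ℝ} (hX : 0 ≤ X) (hw : Supp w X) {d e f : Eis}
    (hd : d ∈ S X) (hf : f ∈ S X) (l : Eis) (s : ℂ) :
    ‖dsum (wc w) X d e f l s‖ ≤ ‖dsC w X d e f l (conj s)‖ := by
  rw [dsum_wc hX hw hd hf, RCLike.norm_conj, norm_mul]
  have hd' := (mem_S hX).1 hd
  have hf' := (mem_S hX).1 hf
  have h1 : ‖G (d * f)‖ ≤ 1 := by
    by_cases hs : Squarefree (d * f)
    · exact (PX764.norm_G_one (hd'.2.1.mul hf'.2.1) hs).le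
    · rw [G_eq_zero syG (hd'.2.1.mul hf'.2.1) hs]; simp
  calc _ ≤ 1 * ‖dsC w X d e f l (conj s)‖ := by gcongr
    _ = _ := one_mul _

lemma integral_dsum_wc_le {M : ℕ} (hM : 1 ≤ M) {w : Eis → ℂ} {X : ℝ} (hX : 0 ≤ X) (hw : Supp w X) {d e f : Eis}
    (hd : d ∈ S X) (hf : f ∈ S X) (l : Eis) (σ : ℝ) :
    ∫ t : ℝ, ((1 + t ^ 2) ^ M)⁻¹ * ‖dsum (wc w) X d e f l (σ + t * Complex.I)‖ ^ 2 ≤
      ∫ t : ℝ, ((1 + t ^ 2) ^ M)⁻¹ * ‖dsC w X d e f l (σ + t * Complex.I)‖ ^ 2 := by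
  have h1 : ∫ t : ℝ, ((1 + t ^ 2) ^ M)⁻¹ * ‖dsum (wc w) X d e f l (σ + t * Complex.I)‖ ^ 2 ≤
      ∫ t : ℝ, ((1 + (-t) ^ 2) ^ M)⁻¹ * ‖dsC w X d e f l (σ + ((-t : ℝ) : ℂ) * Complex.I)‖ ^ 2 := by
    refine integral_mono (integrable_dsumM hM hX (wc w) d e f l σ)
      (integrable_dsC hM hX w d e f l σ).comp_neg (fun t => ?_)
    simp only
    have h2 := norm_dsum_wc_le hX hw hd hf l (σ + t * Complex.I) (e := e)
    have e1 : conj ((σ : ℂ) + t * Complex.I) = σ + ((-t : ℝ) : ℂ) * Complex.I := by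
      simp
    rw [e1] at h2
    rw [neg_sq]
    gcongr
  refine h1.trans (le_of_eq ?_)
  exact integral_neg_eq_self (fun t : ℝ => ((1 + t ^ 2) ^ M)⁻¹ *
    ‖dsC w X d e f l (σ + t * Complex.I)‖ ^ 2) volume

open Classical in
lemma DIC_eq_sum {M : ℕ} (hM : 1 ≤ M) {X : ℝ} (hX : 0 ≤ X) (w : Eis → ℂ) (d e f : Eis) (σ L : ℝ) :
    DIC M σ w X d e f L = ∑ l ∈ (bl L).filter (fun l => T411.NCube (fq2 d e l)),
      ∫ t : ℝ, ((1 + t ^ 2) ^ M)⁻¹ * ‖dsC w X d e f l (σ + t * Complex.I)‖ ^ 2 := by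
  unfold DIC
  rw [← integral_finsetSum _ (fun l _ => integrable_dsC hM hX w d e f l σ)]
  congr 1
  funext t
  rw [Finset.mul_sum]

lemma DIC_nonneg (M : ℕ) (X : ℝ) (w : Eis → ℂ) (d e f : Eis) (σ L : ℝ) :
    0 ≤ DIC M σ w X d e f L :=
  integral_nonneg fun t => by positivity

end Crest.Agent.R017.PX5
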