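import Crest.Agent.R017.PX5c_241

/-!
# Row 17, exceptional class, rule (P'_ex), part d (helper241): the noncube part, summed
-/

set_option autoImplicit false

noncomputable section

namespace Crest.Agent.R017.PX5

open Crest.Agent.R012 MeasureTheory
open Eis CharSum852 Gauss880 Tau671 Mob705 LS2 CR2 MelSep811 DualIneq811
open Crest.Agent.R017.PA842 Crest.Agent.R017.PM106
open scoped ComplexConjugate

/-- the noncube frequencies of the gcd `d` -/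
def Hn (d e l : Eis) : Prop := T411.NCube (fq2 d e l)

lemma Hn_ne_zero {d e l : Eis} (h : Hn d e l) : l ≠ 0 := by
  rintro rfl
  apply h.1
  unfold fq2
  rw [zero_mul]

lemma norm_wc_le (w : Eis → ℂ) {X : ℝ} (hX : 0 ≤ X) :
    ∑ h ∈ S X, ‖wc w h‖ ^ 2 ≤ ∑ h ∈ S X, ‖w h‖ ^ 2 := by
  refine Finset.sum_le_sum fun h hh => ?_
  have hh' := (mem_S hX).1 hh
  unfold wc
  rw [RCLike.norm_conj, norm_mul, PX764.norm_G_one hh'.2.1 hh'.2.2, mul_one]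

open Classical in
/-- one `(d, e, f)` -/
lemma one_nc {M : ℕ} (hM : 1 ≤ M) {X L σ ε : ℝ} (hX : 1 ≤ X) (hL : 1 ≤ L) (hσ : 0 < σ) (hσ1 : σ ≤ 1 / 2) {w : Eis → ℂ}
    (hw : Supp w X) {d e f : Eis} (hd : d ∈ S X) (he : e ∈ pdiv d) (hf : f ∈ S X) :
    2 * Real.pi * L / (Real.sqrt 3 * nm e) *
      ‖∑' l : Eis, (if Hn d e l then qf (wc w) X L d e f l else 0)‖ ≤
      2 * Real.pi / Real.sqrt 3 * csigM M σ * X ^ (3 * σ) *
        (L / nm f * DIC M σ w X d e f (Lde X L ε d e)) +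
      2 * Real.pi * L / (Real.sqrt 3 * nm e) *
      ‖∑' l : Eis, (if Hn d e l ∧ ¬ (l = 0 ∨ (nm l : ℝ) ≤ Lde X L ε d e) then
        qf (wc w) X L d e f l else 0)‖ := by
  have hX0 : (0 : ℝ) ≤ X := by linarith
  have hL0 : (0 : ℝ) < L := by linarith
  have h3 : 0 < Real.sqrt 3 := by positivity
  have hπ := Real.pi_pos
  have hcs := csigM_pos M hσ
  have hd' := (mem_S hX0).1 hd
  have he' := (mem_pdiv hd'.2.1.ne_zero).1 he
  have hf' := (mem_S hX0).1 hf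
  have ne1 : (1 : ℝ) ≤ nm e := by exact_mod_cast nm_pos.2 he'.1.ne_zero
  have nf1 : (1 : ℝ) ≤ nm f := by exact_mod_cast nm_pos.2 hf'.2.1.ne_zero
  have nfX : (nm f : ℝ) ≤ X := hf'.1
  have neX : (nm e : ℝ) ≤ X := by
    refine le_trans ?_ hd'.1
    exact_mod_cast Div277.nm_le_of_dvd hd'.2.1.ne_zero he'.2
  have g1 := one_def_H hM hX hL hσ (by linarith) (ε := ε) (supp_wc hw) (d := d) he'.1.ne_zero hf
    (Hn d e) (fun l h => Hn_ne_zero h)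
  have hc0 : 0 ≤ 2 * Real.pi * L / (Real.sqrt 3 * nm e) :=
    div_nonneg (mul_nonneg (mul_nonneg (by norm_num) hπ.le) hL0.le)
      (mul_nonneg h3.le (Nat.cast_nonneg _))
  refine (mul_le_mul_of_nonneg_left g1 hc0).trans ?_
  rw [mul_add]
  refine add_le_add_left ?_ _
  have hLde0 : 0 ≤ Lde X L ε d e := Lde_nonneg hX0 hL0.le _ _ _
  have g2 : (∑ l ∈ (bl (Lde X L ε d e)).filter (Hn d e), (nm l : ℝ) ^ (-σ) *
      ∫ t : ℝ, ((1 + t ^ 2) ^ M)⁻¹ * ‖dsum (wc w) X d e f l (σ + t * Complex.I)‖ ^ 2) ≤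
      DIC M σ w X d e f (Lde X L ε d e) := by
    rw [DIC_eq_sum hM hX0]
    refine Finset.sum_le_sum fun l hl => ?_
    have hl' := (mem_bl hLde0).1 (Finset.mem_filter.1 hl).1
    have h1l : (1 : ℝ) ≤ nm l := by exact_mod_cast nm_pos.2 hl'.1
    have h1 : (nm l : ℝ) ^ (-σ) ≤ 1 := Real.rpow_le_one_of_one_le_of_nonpos h1l (by linarith)
    have h2 := integral_dsum_wc_le hM hX0 hw hd hf l σ (e := e)
    have h3 : 0 ≤ ∫ t : ℝ, ((1 + t ^ 2) ^ M)⁻¹ * ‖dsum (wc w) X d e f l (σ + t * Complex.I)‖ ^ 2 :=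
      integral_nonneg fun t => by positivity
    calc _ ≤ 1 * ∫ t : ℝ, ((1 + t ^ 2) ^ M)⁻¹ * ‖dsum (wc w) X d e f l (σ + t * Complex.I)‖ ^ 2 := by
          gcongr
      _ ≤ _ := by rw [one_mul]; exact h2
  have g3 : (nm e * (nm f : ℝ) ^ 2 / L) ^ σ ≤ X ^ (3 * σ) := by
    rw [Real.rpow_mul hX0]
    apply Real.rpow_le_rpow (by positivity) _ hσ.le
    calc nm e * (nm f : ℝ) ^ 2 / L ≤ nm e * (nm f : ℝ) ^ 2 := div_le_self (by positivity) hL
      _ ≤ X * X ^ 2 := by gcongr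
      _ = X ^ (3 : ℝ) := by
        rw [show (3 : ℝ) = ((3 : ℕ) : ℝ) by norm_num, Real.rpow_natCast]; ring
  exact aux_term hL0.le ne1 (lt_of_lt_of_le one_pos nf1) hcs.le
    (Real.rpow_nonneg (div_nonneg (mul_nonneg (by linarith) (sq_nonneg _)) hL0.le) _) g3
    (Finset.sum_nonneg fun l _ => mul_nonneg (Real.rpow_nonneg (Nat.cast_nonneg _) _)
      (integral_nonneg fun t => by positivity)) g2

lemma aux_fin {κ Ct L W Xs DD : ℝ} (hκ : 0 ≤ κ) (hCt : 0 ≤ Ct) (hL : 0 ≤ L) (hW : 0 ≤ W)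
    (hXs : 0 ≤ Xs) (hDD : 0 ≤ DD) :
    κ * Xs * DD + Ct * L * W ≤ (1 + Ct + κ) * L * W + (1 + Ct + κ) * Xs * DD := by
  have a1 : 0 ≤ (1 + κ) * (L * W) := mul_nonneg (by linarith) (mul_nonneg hL hW)
  have a2 : 0 ≤ (1 + Ct) * (Xs * DD) := mul_nonneg (by linarith) (mul_nonneg hXs hDD)
  nlinarith

open Classical in
/-- **the noncube part** -/
theorem nc_le {M : ℕ} (hM : 1 ≤ M) {σ ε : ℝ} (hσ : 0 < σ) (hσ1 : σ ≤ 1 / 2) (hε : 0 < ε) :
    ∃ C : ℝ, 1 ≤ C ∧ ∀ X L Y : ℝ, 1 ≤ X → 1 ≤ L → ∀ w : Eis → ℂ, Supp w X →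
    ∑ d ∈ (S X).filter (fun d => (nm d : ℝ) ≤ Y),
      ‖CCH (1 / (Real.pi * L)) (PX X) (cs (wc w) X) (pp d) (fun E l => Hn d (pr E) l)‖ ≤
      C * L * ∑ h ∈ S X, ‖w h‖ ^ 2 +
      C * X ^ (3 * σ) * ∑ d ∈ (S X).filter (fun d => (nm d : ℝ) ≤ Y),
        ∑ e ∈ (S X).filter (· ∣ d), ∑ f ∈ S X, L / nm f * DIC M σ w X d e f (Lde X L ε d e) := by
  obtain ⟨Ct, hCt, htail⟩ := tail_H hε
  have h3 : 0 < Real.sqrt 3 := by positivity
  have hπ := Real.pi_pos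
  have hcs := csigM_pos M hσ
  set κ : ℝ := 2 * Real.pi / Real.sqrt 3 with hκ
  have hκ0 : 0 < κ := by positivity
  have hκc : 0 < κ * csigM M σ := by positivity
  refine ⟨1 + Ct + κ * csigM M σ, by nlinarith, ?_⟩
  intro X L Y hX hL w hw
  have hX0 : (0 : ℝ) ≤ X := by linarith
  have hL0 : (0 : ℝ) < L := by linarith
  set A := (S X).filter (fun d => (nm d : ℝ) ≤ Y) with hA
  set W := ∑ h ∈ S X, ‖w h‖ ^ 2 with hW
  have hW0 : 0 ≤ W := Finset.sum_nonneg fun _ _ => by positivity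
  have e1 : ∑ d ∈ A, ‖CCH (1 / (Real.pi * L)) (PX X) (cs (wc w) X) (pp d)
      (fun E l => Hn d (pr E) l)‖ ≤ ∑ d ∈ A,
        ∑ e ∈ pdiv d, ∑ f ∈ S X, 2 * Real.pi * L / (Real.sqrt 3 * nm e) *
          ‖∑' l : Eis, if Hn d e l then qf (wc w) X L d e f l else 0‖ := by
    refine Finset.sum_le_sum fun d hd => ?_
    have hdS := (Finset.mem_filter.1 hd).1
    rw [CCH_eq_qf hX0 hL0 (wc w) hdS (Hn d)]
    refine (norm_sum_le _ _).trans (Finset.sum_le_sum fun e he => ?_)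
    refine (norm_sum_le _ _).trans (Finset.sum_le_sum fun f hf => ?_)
    rw [norm_mul, norm_mul, norm_mul, Complex.norm_real]
    have m1 : ‖((mu e : ℤ) : ℂ)‖ ≤ 1 := by
      rw [Complex.norm_intCast]
      exact_mod_cast abs_mu_le_one e
    have m2 : ‖((mu f : ℤ) : ℂ)‖ ≤ 1 := by
      rw [Complex.norm_intCast]
      exact_mod_cast abs_mu_le_one f
    have m3 : ‖((mu e : ℤ) : ℂ)‖ * ‖((mu f : ℤ) : ℂ)‖ ≤ 1 := mul_le_one₀ m1 (norm_nonneg _) m2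
    have hpos : 0 ≤ 2 * Real.pi * L / (Real.sqrt 3 * nm e) := by positivity
    rw [Real.norm_of_nonneg hpos]
    calc ‖((mu e : ℤ) : ℂ)‖ * ‖((mu f : ℤ) : ℂ)‖ * (2 * Real.pi * L / (Real.sqrt 3 * nm e)) * _
        ≤ 1 * (2 * Real.pi * L / (Real.sqrt 3 * nm e)) *
          ‖∑' l : Eis, if Hn d e l then qf (wc w) X L d e f l else 0‖ := by gcongr
      _ = _ := by ring
  refine e1.trans ?_
  have f2 : ∑ d ∈ A, ∑ e ∈ pdiv d, ∑ f ∈ S X, 2 * Real.pi * L / (Real.sqrt 3 * nm e) *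
      ‖∑' l : Eis, if Hn d e l then qf (wc w) X L d e f l else 0‖ ≤
      ∑ d ∈ A, ∑ e ∈ pdiv d, ∑ f ∈ S X,
        (κ * csigM M σ * X ^ (3 * σ) * (L / nm f * DIC M σ w X d e f (Lde X L ε d e)) +
      2 * Real.pi * L / (Real.sqrt 3 * nm e) *
      ‖∑' l : Eis, (if Hn d e l ∧ ¬ (l = 0 ∨ (nm l : ℝ) ≤ Lde X L ε d e) then
        qf (wc w) X L d e f l else 0)‖) :=
    Finset.sum_le_sum fun d hd => Finset.sum_le_sum fun e he => Finset.sum_le_sum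
      fun f hf => one_nc hM hX hL hσ hσ1 hw (Finset.mem_filter.1 hd).1 he hf
  refine f2.trans ?_
  simp_rw [Finset.sum_add_distrib]
  have hDD0 : 0 ≤ ∑ d ∈ A, ∑ e ∈ (S X).filter (· ∣ d), ∑ f ∈ S X, L / nm f *
      DIC M σ w X d e f (Lde X L ε d e) :=
    Finset.sum_nonneg fun d _ => Finset.sum_nonneg fun e _ => Finset.sum_nonneg fun f _ =>
      mul_nonneg (div_nonneg hL0.le (Nat.cast_nonneg _)) (DIC_nonneg _ _ _ _ _ _ _ _)
  have hXs : 0 < X ^ (3 * σ) := Real.rpow_pos_of_pos (by linarith) _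
  have b1 : ∑ d ∈ A, ∑ e ∈ pdiv d, ∑ f ∈ S X,
        κ * csigM M σ * X ^ (3 * σ) * (L / nm f * DIC M σ w X d e f (Lde X L ε d e)) ≤
      κ * csigM M σ * X ^ (3 * σ) * ∑ d ∈ A, ∑ e ∈ (S X).filter (· ∣ d), ∑ f ∈ S X, L / nm f *
      DIC M σ w X d e f (Lde X L ε d e) := by
    simp_rw [← Finset.mul_sum]
    refine mul_le_mul_of_nonneg_left ?_ (by positivity)
    refine Finset.sum_le_sum fun d hd => ?_
    refine Finset.sum_le_sum_of_subset_of_nonneg (pdiv_subset hX0 (Finset.mem_filter.1 hd).1)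
      (fun e _ _ => ?_)
    exact Finset.sum_nonneg fun f _ => mul_nonneg (div_nonneg hL0.le (Nat.cast_nonneg _))
      (DIC_nonneg _ _ _ _ _ _ _ _)
  have b2 : ∑ d ∈ A, ∑ e ∈ pdiv d, ∑ f ∈ S X, 2 * Real.pi * L / (Real.sqrt 3 * nm e) *
      ‖∑' l : Eis, (if Hn d e l ∧ ¬ (l = 0 ∨ (nm l : ℝ) ≤ Lde X L ε d e) then
        qf (wc w) X L d e f l else 0)‖ ≤ Ct * L * W := by
    refine le_trans ?_ ((htail X L hX hL (wc w) Hn).trans ?_)
    · refine Finset.sum_le_sum_of_subset_of_nonneg (Finset.filter_subset _ _) (fun d _ _ => ?_)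
      refine Finset.sum_nonneg fun e _ => Finset.sum_nonneg fun f _ => ?_
      exact mul_nonneg (div_nonneg (mul_nonneg (mul_nonneg (by norm_num) hπ.le) hL0.le)
        (mul_nonneg h3.le (Nat.cast_nonneg _))) (norm_nonneg _)
    · exact mul_le_mul_of_nonneg_left (norm_wc_le w hX0) (by positivity)
  refine (add_le_add b1 b2).trans ?_
  exact aux_fin hκc.le hCt.le hL0.le hW0 hXs.le hDD0

end Crest.Agent.R017.PX5
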