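import Crest.Agent.R017.PX5d_241
import Crest.Agent.R017.P3th_283

/-!
# Row 17, exceptional class, rule (P'_ex), part e (helper241): gcd decomposition of a general form

For a weight `ω ≥ 0` and a kernel `x`:
* `GV ω x X w = ∑' h, ω h ‖∑ n ∈ S X, w n x h n‖²`
* `KK ω x P1 P2` : the pair kernel, `TG ω x X w d` : the pairs with gcd exactly `d`
* `GV_eq_sum_TG`, `norm_TG_le`
-/

set_option autoImplicit false

noncomputable section

namespace Crest.Agent.R017.PX5

open Crest.Agent.R012 MeasureTheory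
open Eis CharSum852 Gauss880 Tau671 Mob705 LS2 CR2 MelSep811 DualIneq811
open Crest.Agent.R017.PA842 Crest.Agent.R017.PM106
open scoped ComplexConjugate

/-- the general form -/
def GV (ω : Eis → ℝ) (x : Eis → Eis → ℂ) (X : ℝ) (w : Eis → ℂ) : ℝ :=
  ∑' h : Eis, ω h * ‖∑ n ∈ S X, w n * x h n‖ ^ 2

/-- the pair kernel -/
def KK (ω : Eis → ℝ) (x : Eis → Eis → ℂ) (P1 P2 : Finset Eis) : ℂ :=
  ∑' h : Eis, (ω h : ℂ) * (x h (pr P1) * conj (x h (pr P2)))

open Classical in
/-- the pairs with gcd exactly `d` -/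
def TG (ω : Eis → ℝ) (x : Eis → Eis → ℂ) (X : ℝ) (w : Eis → ℂ) (d : Eis) : ℂ :=
  ∑ P1 ∈ (PX X).powerset, ∑ P2 ∈ (PX X).powerset,
    if P1 ∩ P2 = pp d then (cs w X P1 * conj (cs w X P2)) * KK ω x P1 P2 else 0

/-- admissible weights and kernels -/
structure KH (ω : Eis → ℝ) (x : Eis → Eis → ℂ) (B : ℝ) : Prop where
  nn : ∀ h, 0 ≤ ω h
  sum : Summable ω
  bd : ∀ h, ω h ≠ 0 → ∀ n, IsPrim n → ‖x h n‖ ≤ B

lemma KH.summable_pair {ω : Eis → ℝ} {x : Eis → Eis → ℂ} {B : ℝ} (H : KH ω x B) {n1 n2 : Eis}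
    (h1 : IsPrim n1) (h2 : IsPrim n2) :
    Summable fun h : Eis => (ω h : ℂ) * (x h n1 * conj (x h n2)) := by
  refine Summable.of_norm_bounded (H.sum.mul_right (B * B)) (fun h => ?_)
  rw [norm_mul, norm_mul, RCLike.norm_conj, Complex.norm_real, Real.norm_of_nonneg (H.nn h)]
  by_cases h0 : ω h = 0
  · rw [h0]; simp
  · have a1 := H.bd h h0 n1 h1
    have a2 := H.bd h h0 n2 h2
    have hB : 0 ≤ B := (norm_nonneg _).trans a1
    have := H.nn h
    gcongr

lemma GV_nonneg {ω : Eis → ℝ} {x : Eis → Eis → ℂ} {B : ℝ} (H : KH ω x B) (X : ℝ) (w : Eis → ℂ) :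
    0 ≤ GV ω x X w := tsum_nonneg fun h => mul_nonneg (H.nn h) (by positivity)

open Classical in
/-- the linear form on `AA` -/
lemma sum_AA_eq {X : ℝ} (hX : 0 ≤ X) (w : Eis → ℂ) {D F : Finset Eis}
    (hDF : Disjoint D F) (hD : D ⊆ PX X) (hF : F ⊆ PX X) (y : Eis → ℂ) :
    ∑ P ∈ AA (PX X) D F, cs w X P * y (pr P) =
      ∑ n ∈ S X, restr w (pr D * pr F) n * y n := by
  have hPS := isPS_PX hX
  unfold AA
  rw [Finset.sum_filter, sum_powerset_S hX]
  · refine Finset.sum_congr rfl fun h hh => ?_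
    have hh' := (mem_S hX).1 hh
    unfold restr cs
    rw [pr_pp hX hh]
    have e1 : D ∪ F ⊆ pp h ↔ pr D * pr F ∣ h := by
      rw [← pr_union hDF]
      constructor
      · intro h1
        have h2 : pr (D ∪ F) ∣ pr (pp h) := Finset.prod_dvd_prod_of_subset _ _ _ h1
        rwa [pr_pp hX hh] at h2
      · intro h1 p hp
        rw [mem_pp hh'.2.1.ne_zero]
        have hpp : IsPrim p ∧ Prime p := hPS p (Finset.union_subset hD hF hp)
        refine ⟨hpp, dvd_trans ?_ h1⟩
        exact Finset.dvd_prod_of_mem (fun q => q) hp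
    by_cases h1 : D ∪ F ⊆ pp h
    · rw [if_pos h1, if_pos (e1.1 h1)]
      unfold ws
      rw [if_pos hh]
    · rw [if_neg h1, if_neg (fun h2 => h1 (e1.2 h2)), zero_mul]
  · intro P hP h
    rw [cs_big hX w P hP h]
    simp

open Classical in
/-- the form of the pairs containing `D ∪ F` -/
lemma AF_eq_GV {ω : Eis → ℝ} {x : Eis → Eis → ℂ} {B : ℝ} (H : KH ω x B) {X : ℝ} (hX : 0 ≤ X)
    (w : Eis → ℂ) {D F : Finset Eis}
    (hDF : Disjoint D F) (hD : D ⊆ PX X) (hF : F ⊆ PX X) :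
    ∑ P1 ∈ AA (PX X) D F, ∑ P2 ∈ AA (PX X) D F,
      (cs w X P1 * conj (cs w X P2)) * KK ω x P1 P2 =
      ((GV ω x X (restr w (pr D * pr F)) : ℝ) : ℂ) := by
  have hPS := isPS_PX hX
  unfold GV KK
  rw [Complex.ofReal_tsum]
  have hs : ∀ P1 ∈ AA (PX X) D F, ∀ P2 ∈ AA (PX X) D F, Summable fun h : Eis =>
      (cs w X P1 * conj (cs w X P2)) * ((ω h : ℂ) * (x h (pr P1) * conj (x h (pr P2)))) := by
    intro P1 h1 P2 h2
    exact (H.summable_pair (hPS.mono (mem_AA.1 h1).1).prim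
      (hPS.mono (mem_AA.1 h2).1).prim).mul_left _
  have e1 : ∀ h : Eis, ((ω h * ‖∑ n ∈ S X, restr w (pr D * pr F) n * x h n‖ ^ 2 : ℝ) : ℂ) =
      ∑ P1 ∈ AA (PX X) D F, ∑ P2 ∈ AA (PX X) D F,
        (cs w X P1 * conj (cs w X P2)) * ((ω h : ℂ) * (x h (pr P1) * conj (x h (pr P2)))) := by
    intro h
    rw [← sum_AA_eq hX w hDF hD hF (x h)]
    have : ((‖∑ P ∈ AA (PX X) D F, cs w X P * x h (pr P)‖ ^ 2 : ℝ) : ℂ) =
        (∑ P ∈ AA (PX X) D F, cs w X P * x h (pr P)) *
          conj (∑ P ∈ AA (PX X) D F, cs w X P * x h (pr P)) := by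
      rw [Complex.mul_conj, Complex.normSq_eq_norm_sq]
    rw [Complex.ofReal_mul, this, map_sum, Finset.sum_mul_sum, Finset.mul_sum]
    refine Finset.sum_congr rfl fun P1 _ => ?_
    rw [Finset.mul_sum]
    refine Finset.sum_congr rfl fun P2 _ => ?_
    rw [map_mul]; ring
  simp_rw [e1]
  rw [Summable.tsum_finsetSum (fun P1 h1 => summable_sum fun P2 h2 => hs P1 h1 P2 h2)]
  refine Finset.sum_congr rfl fun P1 h1 => ?_
  rw [Summable.tsum_finsetSum (fun P2 h2 => hs P1 h1 P2 h2)]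
  refine Finset.sum_congr rfl fun P2 _ => ?_
  rw [tsum_mul_left]

open Classical in
/-- **the decomposition by the gcd** -/
theorem GV_eq_sum_TG {ω : Eis → ℝ} {x : Eis → Eis → ℂ} {B : ℝ} (H : KH ω x B) {X : ℝ}
    (hX : 0 ≤ X) (w : Eis → ℂ) :
    ((GV ω x X w : ℝ) : ℂ) = ∑ d ∈ S X, TG ω x X w d := by
  have h2 := AF_eq_GV H hX w (Finset.disjoint_empty_left _) (Finset.empty_subset (PX X))
    (Finset.empty_subset (PX X))
  have h3 : restr w (pr ∅ * pr ∅) = w := by
    unfold restr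
    funext h
    rw [if_pos]
    rw [pr_empty, one_mul]
    exact one_dvd _
  rw [h3, AA_empty] at h2
  rw [← h2]
  have h4 : ∑ P1 ∈ (PX X).powerset, ∑ P2 ∈ (PX X).powerset,
      (cs w X P1 * conj (cs w X P2)) * KK ω x P1 P2 =
      ∑ D ∈ (PX X).powerset, ∑ P1 ∈ (PX X).powerset, ∑ P2 ∈ (PX X).powerset,
        if P1 ∩ P2 = D then (cs w X P1 * conj (cs w X P2)) * KK ω x P1 P2 else 0 := by
    symm
    rw [Finset.sum_comm]
    refine Finset.sum_congr rfl fun P1 h1 => ?_
    rw [Finset.sum_comm]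
    refine Finset.sum_congr rfl fun P2 _ => ?_
    rw [Finset.sum_ite_eq, if_pos]
    rw [Finset.mem_powerset] at h1 ⊢
    exact Finset.inter_subset_left.trans h1
  rw [h4, sum_powerset_S hX]
  · rfl
  · intro D hD hDX
    apply Finset.sum_eq_zero
    intro P1 hP1
    apply Finset.sum_eq_zero
    intro P2 _
    split_ifs with h
    · rw [Finset.mem_powerset] at hP1
      have : cs w X P1 = 0 := by
        apply cs_big hX w P1 hP1
        refine lt_of_lt_of_le hDX ?_
        have hd : pr D ∣ pr P1 := by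
          apply Finset.prod_dvd_prod_of_subset
          rw [← h]
          exact Finset.inter_subset_left
        exact_mod_cast Div277.nm_le_of_dvd ((isPS_PX hX).mono hP1).ne_zero hd
      rw [this]
      ring
    · rfl

open Classical in
/-- `TG` as an alternating sum of the forms of multiples -/
lemma TG_eq_sum_GV {ω : Eis → ℝ} {x : Eis → Eis → ℂ} {B : ℝ} (H : KH ω x B) {X : ℝ}
    (hX : 0 ≤ X) (w : Eis → ℂ) {d : Eis} (hd : d ∈ S X) :
    TG ω x X w d = ∑ f ∈ S X, if Disjoint (pp f) (pp d) then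
      (mu f : ℂ) * ((GV ω x X (restr w (d * f)) : ℝ) : ℂ) else 0 := by
  unfold TG
  rw [← sum_AA_pair (pp_subset_PX hX hd)
    (fun P1 P2 => (cs w X P1 * conj (cs w X P2)) * KK ω x P1 P2)]
  have e2 : ∑ F ∈ (PX X \ pp d).powerset, (-1 : ℂ) ^ F.card *
        ∑ P1 ∈ AA (PX X) (pp d) F, ∑ P2 ∈ AA (PX X) (pp d) F,
          (cs w X P1 * conj (cs w X P2)) * KK ω x P1 P2 =
      ∑ F ∈ (PX X).powerset, if Disjoint F (pp d) then (-1 : ℂ) ^ F.card *
        ∑ P1 ∈ AA (PX X) (pp d) F, ∑ P2 ∈ AA (PX X) (pp d) F,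
          (cs w X P1 * conj (cs w X P2)) * KK ω x P1 P2 else 0 := by
    rw [← Finset.sum_filter]
    apply Finset.sum_congr _ fun _ _ => rfl
    ext F
    rw [Finset.mem_filter, Finset.mem_powerset, Finset.mem_powerset, Finset.subset_sdiff]
  rw [e2, sum_powerset_S hX]
  · refine Finset.sum_congr rfl fun f hf => ?_
    by_cases h : Disjoint (pp f) (pp d)
    · rw [if_pos h, if_pos h, AF_eq_GV H hX w h.symm (pp_subset_PX hX hd) (pp_subset_PX hX hf),
        pr_pp hX hd, pr_pp hX hf, mu_eq_of_mem_S hX hf]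
    · rw [if_neg h, if_neg h]
  · intro F hF hFX
    split_ifs
    · have : ∑ P1 ∈ AA (PX X) (pp d) F, ∑ P2 ∈ AA (PX X) (pp d) F,
          (cs w X P1 * conj (cs w X P2)) * KK ω x P1 P2 = 0 := by
        apply Finset.sum_eq_zero
        intro P hP
        apply Finset.sum_eq_zero
        intro P2 _
        rw [mem_AA] at hP
        have : cs w X P = 0 := by
          apply cs_big hX w P hP.1
          refine lt_of_lt_of_le hFX ?_
          have hd : pr F ∣ pr P := Finset.prod_dvd_prod_of_subset _ _ _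
            (Finset.subset_union_right.trans hP.2)
          exact_mod_cast Div277.nm_le_of_dvd ((isPS_PX hX).mono hP.1).ne_zero hd
        rw [this]; ring
      rw [this, mul_zero]
    · rfl

open Classical in
/-- **positivity bound** -/
theorem norm_TG_le {ω : Eis → ℝ} {x : Eis → Eis → ℂ} {B : ℝ} (H : KH ω x B) {X : ℝ}
    (hX : 0 ≤ X) (w : Eis → ℂ) {d : Eis} (hd : d ∈ S X) :
    ‖TG ω x X w d‖ ≤ ∑ f ∈ (S X).filter (fun f => d * f ∈ S X), GV ω x X (restr w (d * f)) := by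
  rw [TG_eq_sum_GV H hX w hd, Finset.sum_filter]
  refine (norm_sum_le _ _).trans (Finset.sum_le_sum fun f hf => ?_)
  have hV := GV_nonneg H X (restr w (d * f))
  by_cases h : Disjoint (pp f) (pp d)
  · rw [if_pos h, norm_mul]
    have m2 : ‖((mu f : ℤ) : ℂ)‖ ≤ 1 := by
      rw [Complex.norm_intCast]
      exact_mod_cast abs_mu_le_one f
    rw [Complex.norm_real, Real.norm_of_nonneg hV]
    by_cases h2 : d * f ∈ S X
    · rw [if_pos h2]
      calc _ ≤ 1 * GV ω x X (restr w (d * f)) := by gcongr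
        _ = _ := one_mul _
    · rw [if_neg h2]
      have : GV ω x X (restr w (d * f)) = 0 := by
        unfold GV
        rw [show (fun n : Eis => ω n *
          ‖∑ h ∈ S X, restr w (d * f) h * x n h‖ ^ 2) = fun _ => 0 from ?_, tsum_zero]
        funext n
        have : ∑ h ∈ S X, restr w (d * f) h * x n h = 0 := by
          apply Finset.sum_eq_zero
          intro k hk
          unfold restr
          rw [if_neg, zero_mul]
          intro hdvd
          apply h2
          have hk' := (mem_S hX).1 hk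
          have hd' := (mem_S hX).1 hd
          have hf' := (mem_S hX).1 hf
          rw [mem_S hX]
          refine ⟨le_trans ?_ hk'.1, hd'.2.1.mul hf'.2.1, hk'.2.2.squarefree_of_dvd hdvd⟩
          exact_mod_cast Div277.nm_le_of_dvd hk'.2.1.ne_zero hdvd
        rw [this]
        simp
      rw [this, mul_zero]
  · rw [if_neg h, norm_zero]
    split_ifs
    · exact hV
    · exact le_rfl

end Crest.Agent.R017.PX5
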