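import Crest.Agent.R017.PX5e_241

/-!
# Row 17, exceptional class, rule (P'_ex), part f (helper241): the corrected Gauss side as a form

* `wL L h` : `exp (-nm h / L)` for `h ≠ 0`
* `VR_eq_GV`, `VR_restr_le` (large gcds: rule (C) exact, length of the family `L nm g`)
* `KK_Dk` : the pair kernel of `Dk`
* `TG_Dk_le` : the pairs with gcd `d`
-/

set_option autoImplicit false

noncomputable section

namespace Crest.Agent.R017.PX5

open Crest.Agent.R012 MeasureTheory
open Eis CharSum852 Gauss880 Tau671 Mob705 LS2 CR2 MelSep811 DualIneq811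
open Crest.Agent.R017.PA842 Crest.Agent.R017.PM106 Crest.Agent.R017.PX764
open scoped ComplexConjugate

open Classical in
/-- the weight -/
def wL (L : ℝ) (h : Eis) : ℝ := if h = 0 then 0 else Real.exp (-(nm h : ℝ) / L)

lemma wL_nonneg (L : ℝ) (h : Eis) : 0 ≤ wL L h := by
  unfold wL; split_ifs
  · exact le_rfl
  · exact (Real.exp_pos _).le

lemma summable_wL {L : ℝ} (hL : 0 < L) : Summable (wL L) := by
  have h := Edge79.summable_exp (c := 1 / L) (by positivity)
  refine Summable.of_nonneg_of_le (fun h => wL_nonneg L h) (fun h => ?_) h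
  unfold wL
  split_ifs
  · exact (Real.exp_pos _).le
  · apply le_of_eq
    congr 1
    ring

lemma norm_Gh_le {h n : Eis} (hn : IsPrim n) : ‖Gh h n‖ ≤ 1 := by
  by_cases hs : Squarefree n
  · by_cases hc : IsCoprime h n
    · exact (norm_Gh_one hn hs hc).le
    · rw [Gh_zero hn hc]; simp
  · rw [Gh_not_sqf hn hs]; simp

lemma norm_md_le {h n : Eis} (hn : IsPrim n) : ‖(md h n : ℂ)‖ ≤ 1 := by
  rw [Complex.norm_real, Real.norm_of_nonneg (md_nonneg hn.ne_zero)]
  exact md_le_one hn.ne_zero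

lemma norm_thmd_le {h n : Eis} (hh : h ≠ 0) (hn : IsPrim n) : ‖th h * (md h n : ℂ)‖ ≤ 1 := by
  rw [norm_mul]
  exact mul_le_one₀ (P3all283.norm_th_le hh) (norm_nonneg _) (norm_md_le hn)

lemma norm_Dk_le {h n : Eis} (hh : h ≠ 0) (hn : IsPrim n) : ‖Dk h n‖ ≤ 1 + pC := by
  unfold Dk
  refine (norm_sub_le _ _).trans (add_le_add (norm_Gh_le hn) ?_)
  rw [mul_assoc, norm_mul, Complex.norm_real, Real.norm_of_nonneg pC_pos.le]
  calc _ ≤ pC * 1 := mul_le_mul_of_nonneg_left (norm_thmd_le hh hn) pC_pos.le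
    _ = pC := mul_one _

lemma ne_of_wL {L : ℝ} {h : Eis} (hh : wL L h ≠ 0) : h ≠ 0 := by
  rintro rfl
  apply hh
  unfold wL
  rw [if_pos rfl]

lemma KH_Dk {L : ℝ} (hL : 0 < L) : KH (wL L) Dk (1 + pC) :=
  ⟨wL_nonneg L, summable_wL hL, fun _ hh _ hn => norm_Dk_le (ne_of_wL hh) hn⟩

lemma KH_Gh {L : ℝ} (hL : 0 < L) : KH (wL L) Gh 1 :=
  ⟨wL_nonneg L, summable_wL hL, fun _ _ _ hn => norm_Gh_le hn⟩

/-- the bias kernel -/
def Bk (h n : Eis) : ℂ := th h * (md h n : ℂ)

lemma KH_Bk {L : ℝ} (hL : 0 < L) : KH (wL L) Bk 1 :=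
  ⟨wL_nonneg L, summable_wL hL, fun _ hh _ hn => norm_thmd_le (ne_of_wL hh) hn⟩

lemma VR_eq_GV (X L : ℝ) (w : Eis → ℂ) : VR X L w = GV (wL L) Dk X w := by
  unfold VR GV wL Rf
  apply tsum_congr
  intro h
  split_ifs
  · rw [zero_mul]
  · rfl

lemma VR_nonneg {L : ℝ} (hL : 0 < L) (X : ℝ) (w : Eis → ℂ) : 0 ≤ VR X L w := by
  rw [VR_eq_GV]; exact GV_nonneg (KH_Dk hL) X w

/-- the multiples of `g` on the corrected Gauss side -/
lemma Rf_restr {X : ℝ} (hX : 0 ≤ X) {w : Eis → ℂ} (hw : Supp w X) {g : Eis} (hg : IsPrim g)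
    (hgs : Squarefree g) (h : Eis) :
    Rf X (restr w g) h = Gh h g * Rf (X / nm g) (sub w g) (h * g) := by
  classical
  have hn : (0 : ℝ) < nm g := by exact_mod_cast nm_pos.2 hg.ne_zero
  have hX' : 0 ≤ X / nm g := by positivity
  unfold Rf
  rw [Finset.mul_sum]
  have h1 : ∑ n ∈ S X, restr w g n * Dk h n =
      ∑ n ∈ ((S (X / nm g)).filter (fun k => g * k ∈ S X)).image (fun k => g * k),
        restr w g n * Dk h n := by
    symm
    apply Finset.sum_subset
    · intro h hh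
      rw [Finset.mem_image] at hh
      obtain ⟨k, hk, rfl⟩ := hh
      exact (Finset.mem_filter.1 hk).2
    · intro n hh hne
      unfold restr
      by_cases hd : g ∣ n
      · rw [if_pos hd]
        obtain ⟨k, rfl⟩ := hd
        by_cases h0 : w (g * k) = 0
        · rw [h0, zero_mul]
        · exfalso
          apply hne
          rw [Finset.mem_image]
          refine ⟨k, ?_, rfl⟩
          rw [Finset.mem_filter]
          exact ⟨supp_sub hX hw hg k h0, hh⟩
      · rw [if_neg hd, zero_mul]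
  rw [h1, Finset.sum_image (fun a _ b _ hab => mul_left_cancel₀ hg.ne_zero hab), Finset.sum_filter]
  refine Finset.sum_congr rfl fun k hk => ?_
  have hk' := (mem_S hX').1 hk
  by_cases h2 : g * k ∈ S X
  · rw [if_pos h2]
    unfold restr sub
    rw [if_pos (dvd_mul_right _ _), Dk_mul hg hgs hk'.2.1]
    ring
  · rw [if_neg h2]
    unfold sub
    have : w (g * k) = 0 := by
      by_contra h0
      exact h2 (hw _ h0)
    rw [this]
    ring

lemma summable_VR {L : ℝ} (hL : 0 < L) {X : ℝ} (hX : 0 ≤ X) (w : Eis → ℂ) :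
    Summable fun h : Eis => wL L h * ‖Rf X w h‖ ^ 2 := by
  refine Summable.of_nonneg_of_le (fun h => mul_nonneg (wL_nonneg L h) (by positivity))
    (fun h => ?_) ((summable_wL hL).mul_right ((∑ n ∈ S X, ‖w n‖ * (1 + pC)) ^ 2))
  by_cases h0 : h = 0
  · rw [h0]
    unfold wL
    rw [if_pos rfl, zero_mul, zero_mul]
  · refine mul_le_mul_of_nonneg_left ?_ (wL_nonneg L h)
    have : ‖Rf X w h‖ ≤ ∑ n ∈ S X, ‖w n‖ * (1 + pC) := by
      unfold Rf
      refine (norm_sum_le _ _).trans (Finset.sum_le_sum fun n hn => ?_)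
      rw [norm_mul]
      have hn' := ((mem_S hX).1 hn).2.1
      exact mul_le_mul_of_nonneg_left (norm_Dk_le h0 hn') (norm_nonneg _)
    gcongr

/-- **large gcds** -/
theorem VR_restr_le {X L : ℝ} (hX : 0 ≤ X) (hL : 0 < L) {w : Eis → ℂ} (hw : Supp w X) {g : Eis}
    (hg : IsPrim g) (hgs : Squarefree g) :
    VR X L (restr w g) ≤ VR (X / nm g) (L * nm g) (sub w g) := by
  have hn : (0 : ℝ) < nm g := by exact_mod_cast nm_pos.2 hg.ne_zero
  have hLg : 0 < L * nm g := by positivity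
  have e1 : VR X L (restr w g) = ∑' h : Eis, wL L h * ‖Rf X (restr w g) h‖ ^ 2 := by
    rw [VR_eq_GV]; rfl
  have e2 : VR (X / nm g) (L * nm g) (sub w g) =
      ∑' h : Eis, wL (L * nm g) h * ‖Rf (X / nm g) (sub w g) h‖ ^ 2 := by
    rw [VR_eq_GV]; rfl
  rw [e1, e2]
  have hX' : 0 ≤ X / nm g := by positivity
  have hs := summable_VR hLg hX' (sub w g)
  have hinj : Function.Injective (fun h : Eis => h * g) := mul_left_injective₀ hg.ne_zero
  have hs2 : Summable fun h : Eis =>
      wL (L * nm g) (h * g) * ‖Rf (X / nm g) (sub w g) (h * g)‖ ^ 2 :=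
    hs.comp_injective hinj
  calc ∑' h : Eis, wL L h * ‖Rf X (restr w g) h‖ ^ 2 ≤
      ∑' h : Eis, wL (L * nm g) (h * g) * ‖Rf (X / nm g) (sub w g) (h * g)‖ ^ 2 := by
        refine (summable_VR hL hX _).tsum_le_tsum (fun h => ?_) hs2
        have e3 : wL (L * nm g) (h * g) = wL L h := by
          unfold wL
          by_cases h0 : h = 0
          · rw [h0, zero_mul, if_pos rfl, if_pos rfl]
          · rw [if_neg h0, if_neg (mul_ne_zero h0 hg.ne_zero), nm_mul]
            congr 1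
            push_cast
            field_simp
        rw [e3]
        refine mul_le_mul_of_nonneg_left ?_ (wL_nonneg L h)
        rw [Rf_restr hX hw hg hgs, norm_mul]
        apply pow_le_pow_left₀ (by positivity)
        exact mul_le_of_le_one_left (norm_nonneg _) (norm_Gh_le hg)
    _ ≤ _ := tsum_comp_le_tsum_of_inj hs
        (fun h => mul_nonneg (wL_nonneg _ h) (by positivity)) hinj

end Crest.Agent.R017.PX5
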