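import Crest.Agent.R017.PX5f_241
import Crest.Agent.R017.PX3_764

/-!
# Row 17, exceptional class, rule (P'_ex), part g (helper241): pairs by elements

* `conv` : sums over prime sets with `P1 ∩ P2 = pp d` as sums over coprime pairs
* `TG_eq_cpS`, `CCH_eq_cpS` : both forms as `cpS`
-/

set_option autoImplicit false

noncomputable section

namespace Crest.Agent.R017.PX5

open Crest.Agent.R012 MeasureTheory
open Eis CharSum852 Gauss880 Tau671 Mob705 LS2 CR2 MelSep811 DualIneq811
open Poisson381 (gau norm_gau summable_gau_one summable_gau poisson_gau_periodic s3 s3_eq_toC)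
open Crest.Agent.R017.PA842 Crest.Agent.R017.PM106 Crest.Agent.R017.PX764
open Crest.Agent.R017.Dual2813 (S_of_dvd)
open scoped ComplexConjugate

lemma cop_of_sqf {a b : Eis} (ha : IsPrim a) (h : Squarefree (a * b)) : IsCoprime a b := by
  by_contra hc
  exact not_sqf_of_not_coprime ha.ne_zero hc h

lemma pp_inter {a b c : Eis} (ha : IsPrim a) (hb : IsPrim b) (hc : IsPrim c)
    (hbc : IsCoprime b c) : pp (a * b) ∩ pp (a * c) = pp a := by
  rw [pp_mul ha.ne_zero hb.ne_zero, pp_mul ha.ne_zero hc.ne_zero,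
    ← Finset.union_inter_distrib_left, Finset.disjoint_iff_inter_eq_empty.1 (pp_disjoint hbc),
    Finset.union_empty]

lemma pp_sdiff {a b : Eis} (ha : IsPrim a) (hb : IsPrim b) (hab : IsCoprime a b) :
    pp (a * b) \ pp a = pp b := by
  rw [pp_mul ha.ne_zero hb.ne_zero, Finset.union_sdiff_left, Finset.sdiff_eq_self_of_disjoint]
  exact (pp_disjoint hab).symm

open Classical in
/-- **prime sets to elements** -/
theorem conv {X : ℝ} (hX : 0 ≤ X) {d : Eis} (hd : d ∈ S X) (F : Finset Eis → Finset Eis → ℂ)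
    (h1 : ∀ P1 ⊆ PX X, ∀ P2 ⊆ PX X, X < (nm (pr P1) : ℝ) → F P1 P2 = 0)
    (h2 : ∀ P1 ⊆ PX X, ∀ P2 ⊆ PX X, X < (nm (pr P2) : ℝ) → F P1 P2 = 0) :
    (∑ P1 ∈ (PX X).powerset, ∑ P2 ∈ (PX X).powerset, if P1 ∩ P2 = pp d then F P1 P2 else 0) =
      ∑ k1 ∈ S X, ∑ k2 ∈ S X,
        if d * k1 ∈ S X ∧ d * k2 ∈ S X ∧ IsCoprime k1 k2 then
          F (pp (d * k1)) (pp (d * k2)) else 0 := by
  have hPS := isPS_PX hX
  rw [sum_powerset_S hX]
  swap
  · intro P hP hP'
    apply Finset.sum_eq_zero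
    intro P2 hP2
    rw [h1 P hP P2 (Finset.mem_powerset.1 hP2) hP', ite_self]
  have e1 : ∀ h ∈ S X, (∑ P2 ∈ (PX X).powerset, if pp h ∩ P2 = pp d then F (pp h) P2 else 0) =
      ∑ h2 ∈ S X, if pp h ∩ pp h2 = pp d then F (pp h) (pp h2) else 0 := by
    intro h hh
    rw [sum_powerset_S hX]
    intro P hP hP'
    rw [h2 (pp h) (pp_subset_PX hX hh) P hP hP', ite_self]
  rw [Finset.sum_congr rfl e1]
  rw [sum_pairs_gcd (S := S X) (D := S X) (fun b hb => ((mem_S hX).1 hb).2)
    (fun d hd => ((mem_S hX).1 hd).2.1) (fun b hb d hd hdb => S_of_dvd hX hb hd hdb)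
    (fun m1 m2 => if pp m1 ∩ pp m2 = pp d then F (pp m1) (pp m2) else 0)]
  rw [Finset.sum_eq_single_of_mem d hd]
  · refine Finset.sum_congr rfl fun k1 hk1 => Finset.sum_congr rfl fun k2 hk2 => ?_
    by_cases h : d * k1 ∈ S X ∧ d * k2 ∈ S X ∧ IsCoprime k1 k2
    · rw [if_pos h, if_pos h, if_pos]
      exact pp_inter ((mem_S hX).1 hd).2.1 ((mem_S hX).1 hk1).2.1 ((mem_S hX).1 hk2).2.1 h.2.2
    · rw [if_neg h, if_neg h]
  · intro d' hd' hne
    refine Finset.sum_eq_zero fun k1 hk1 => Finset.sum_eq_zero fun k2 hk2 => ?_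
    by_cases h : d' * k1 ∈ S X ∧ d' * k2 ∈ S X ∧ IsCoprime k1 k2
    · rw [if_pos h, if_neg]
      rw [pp_inter ((mem_S hX).1 hd').2.1 ((mem_S hX).1 hk1).2.1 ((mem_S hX).1 hk2).2.1 h.2.2]
      intro he
      apply hne
      rw [← pr_pp hX hd', ← pr_pp hX hd, he]
    · rw [if_neg h]

open Classical in
/-- the form of the pairs with gcd `d`, element form -/
theorem TG_eq_cpS {X : ℝ} (hX : 0 ≤ X) {d : Eis} (hd : d ∈ S X) (ω : Eis → ℝ) (x : Eis → Eis → ℂ)
    (w : Eis → ℂ) :
    TG ω x X w d = cpS X (ws w X) (ws w X) d (fun k1 k2 =>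
      ∑' h : Eis, (ω h : ℂ) * (x h (d * k1) * conj (x h (d * k2)))) := by
  unfold TG
  rw [conv hX hd (fun P1 P2 => (cs w X P1 * conj (cs w X P2)) * KK ω x P1 P2)]
  · unfold cpS
    refine Finset.sum_congr rfl fun k1 hk1 => Finset.sum_congr rfl fun k2 hk2 => ?_
    by_cases h1 : d * k1 ∈ S X
    · by_cases h2 : d * k2 ∈ S X
      · by_cases hc : IsCoprime k1 k2
        · rw [if_pos ⟨h1, h2, hc⟩, if_pos hc]
          unfold cs KK
          rw [pr_pp hX h1, pr_pp hX h2]
        · rw [if_neg (fun h => hc h.2.2), if_neg hc]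
      · rw [if_neg (fun h => h2 h.2.1), ws_zero _ h2]
        simp
    · rw [if_neg (fun h => h1 h.1), ws_zero _ h1]
      simp
  · intro P1 hP1 P2 _ h
    simp only [cs_big hX w P1 hP1 h, zero_mul]
  · intro P1 _ P2 hP2 h
    simp only [cs_big hX w P2 hP2 h, map_zero, mul_zero, zero_mul]

open Classical in
/-- the dual kernel of a coprime pair, gcd `d` -/
def Psi (L : ℝ) (H : Eis → Eis → Prop) (d k1 k2 : Eis) : ℂ :=
  ∑ e ∈ pdiv d, (mu e : ℂ) * (((2 * Real.pi * L / (Real.sqrt 3 * nm e) : ℝ) : ℂ) *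
    ∑' h : Eis, if H e h then
      ((Real.exp (-(4 * Real.pi ^ 2 * L * nm h) / (3 * nm e * nm k1 * nm k2)) : ℝ) : ℂ) *
        (U e h k1 * conj (U e h k2)) else 0)

open Classical in
/-- `CCH`, element form -/
theorem CCH_eq_cpS {X L : ℝ} (hX : 0 ≤ X) (hL : 0 < L) {d : Eis} (hd : d ∈ S X)
    (H : Eis → Eis → Prop) (c : Eis → ℂ) :
    CCH (1 / (Real.pi * L)) (PX X) (cs c X) (pp d) (fun E l => H (pr E) l) =
      cpS X (ws c X) (ws c X) d (Psi L H d) := by
  have hPS := isPS_PX hX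
  have hd' := (mem_S hX).1 hd
  unfold CCH
  rw [conv hX hd (fun P1 P2 => ∑ E ∈ (pp d).powerset, (-1) ^ E.card *
    PhiH (1 / (Real.pi * L)) (cs c X) (pp d) E P1 P2 (H (pr E)))]
  · unfold cpS
    refine Finset.sum_congr rfl fun k1 hk1 => Finset.sum_congr rfl fun k2 hk2 => ?_
    by_cases h1 : d * k1 ∈ S X
    · by_cases h2 : d * k2 ∈ S X
      · by_cases hc : IsCoprime k1 k2
        · rw [if_pos ⟨h1, h2, hc⟩, if_pos hc]
          have hk1' := (mem_S hX).1 hk1
          have hk2' := (mem_S hX).1 hk2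
          have c1 : IsCoprime d k1 := cop_of_sqf hd'.2.1 ((mem_S hX).1 h1).2.2
          have c2 : IsCoprime d k2 := cop_of_sqf hd'.2.1 ((mem_S hX).1 h2).2.2
          have a1 : pr (pp (d * k1) \ pp d) = k1 := by
            rw [pp_sdiff hd'.2.1 hk1'.2.1 c1, pr_pp' hk1'.2.1 hk1'.2.2]
          have a2 : pr (pp (d * k2) \ pp d) = k2 := by
            rw [pp_sdiff hd'.2.1 hk2'.2.1 c2, pr_pp' hk2'.2.1 hk2'.2.2]
          unfold Psi
          rw [sum_pdiv_mu hd'.2.1.ne_zero, Finset.mul_sum]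
          refine Finset.sum_congr rfl fun E hE => ?_
          have hES : IsPS E := (isPS_pp d).mono (Finset.mem_powerset.1 hE)
          have n3 : 0 < (nm (pr E) : ℝ) := by exact_mod_cast nm_pos.2 hES.ne_zero
          have hn1 : 0 < (nm k1 : ℝ) := by exact_mod_cast nm_pos.2 hk1'.2.1.ne_zero
          have hn2 : 0 < (nm k2 : ℝ) := by exact_mod_cast nm_pos.2 hk2'.2.1.ne_zero
          have hpi := Real.pi_pos
          have h3 : 0 < Real.sqrt 3 := Real.sqrt_pos.2 (by norm_num)
          unfold PhiH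
          have e5 : (2 / Real.sqrt 3 * (1 / (Real.pi * L) * nm (pr E))⁻¹ : ℝ) =
              2 * Real.pi * L / (Real.sqrt 3 * nm (pr E)) := by
            field_simp
          rw [e5]
          have e6 : ∀ h : Eis, (if H (pr E) h then
              trm (1 / (Real.pi * L)) (cs c X) (pp d) E (pp (d * k1)) (pp (d * k2)) h else 0) =
              ws c X (d * k1) * conj (ws c X (d * k2)) * (if H (pr E) h then
                ((Real.exp (-(4 * Real.pi ^ 2 * L * nm h) / (3 * nm (pr E) * nm k1 * nm k2)) : ℝ) : ℂ) *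
                  (U (pr E) h k1 * conj (U (pr E) h k2)) else 0) := by
            intro h
            split_ifs
            · unfold trm VV cs
              rw [a1, a2, pr_pp hX h1, pr_pp hX h2, gau_eq_exp]
              have e7 : -(Real.pi * (4 / (3 * (1 / (Real.pi * L) * nm (pr E) * (nm k1 * nm k2)))) *
                  nm h) = -(4 * Real.pi ^ 2 * L * nm h) / (3 * nm (pr E) * nm k1 * nm k2) := by
                field_simp
              rw [e7, map_mul]
              ring
            · rw [mul_zero]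
          rw [tsum_congr e6, tsum_mul_left]
          unfold pr
          ring
        · rw [if_neg (fun h => hc h.2.2), if_neg hc]
      · rw [if_neg (fun h => h2 h.2.1), ws_zero _ h2]
        simp
    · rw [if_neg (fun h => h1 h.1), ws_zero _ h1]
      simp
  · intro P1 hP1 P2 _ h
    have h0 := cs_big hX c P1 hP1 h
    refine Finset.sum_eq_zero fun E _ => ?_
    unfold PhiH trm VV
    rw [h0]
    simp
  · intro P1 _ P2 hP2 h
    have h0 := cs_big hX c P2 hP2 h
    refine Finset.sum_eq_zero fun E _ => ?_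
    unfold PhiH trm VV
    rw [h0]
    simp

end Crest.Agent.R017.PX5
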