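import Crest.Agent.R017.PX5g_241
import Crest.Agent.R017.PX2c_241

/-!
# Row 17, exceptional class, rule (P'_ex), part h (helper241): the cube frequencies of a pair

* `Hc_iff` : the frequencies `h ≠ 0` with `h (d e sq3)²` a cube are the `d e sq3 τ³`
* `Psi_Hc` : the dual kernel of a pair over the cube frequencies
-/

set_option autoImplicit false

noncomputable section

namespace Crest.Agent.R017.PX5

open Crest.Agent.R012 MeasureTheory
open Eis CharSum852 Gauss880 Tau671 Mob705 LS2 CR2 MelSep811 DualIneq811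
open Crest.Agent.R017.PA842 Crest.Agent.R017.PM106 Crest.Agent.R017.PX764
open scoped ComplexConjugate

/-! two lemmas of helper401 (`NatPB_401`) -/

lemma nm_lt_of_mul {p n : Eis} (hp : Prime p) (hn : n ≠ 0) : nm n < nm (p * n) := by
  rw [nm_mul]
  have h1 : 0 < nm p := nm_pos.mpr hp.ne_zero
  have h2 : nm p ≠ 1 := fun h => hp.not_isUnit (isUnit_iff.mpr h)
  have h3 : 0 < nm n := nm_pos.mpr hn
  nlinarith [show 2 ≤ nm p by omega]

lemma pow_dvd_cancel {p c s : Eis} (hp : Prime p) {a b : ℕ} (h : p ^ (a + b) ∣ p ^ a * c) :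
    p ^ b ∣ c := by
  rw [pow_add, mul_dvd_mul_iff_left (pow_ne_zero _ hp.ne_zero)] at h
  exact h

/-- `n` cubefree and `n² ∣ s³` imply `n ∣ s` -/
lemma dvd_of_sq_dvd_cube : ∀ (N : ℕ) {n s : Eis}, nm n ≤ N → n ≠ 0 →
    (∀ p, Prime p → ¬ p ^ 3 ∣ n) → n ^ 2 ∣ s ^ 3 → n ∣ s := by
  intro N
  induction N with
  | zero =>
    intro n s hk hk0 _ _
    exact absurd (nm_eq_zero.mp (Nat.le_zero.mp hk)) hk0
  | succ N ih =>
    intro n s hN hn0 hcf hd
    by_cases hu : IsUnit n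
    · exact hu.dvd
    obtain ⟨p, hpi, hpn⟩ := WfDvdMonoid.exists_irreducible_factor hu hn0
    have hp : Prime p := hpi.prime
    obtain ⟨c, hc, hnd⟩ := (FiniteMultiplicity.of_prime_left hp hn0).exists_eq_pow_mul_and_not_dvd
    set e := multiplicity p n with he
    have he1 : 1 ≤ e := by
      by_contra h0
      have : e = 0 := by omega
      rw [this, pow_zero, one_mul] at hc
      rw [hc] at hpn
      exact hnd hpn
    have he2 : e ≤ 2 := by
      by_contra h0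
      apply hcf p hp
      rw [hc]
      exact (pow_dvd_pow p (by omega)).trans (dvd_mul_right _ _)
    have hc0 : c ≠ 0 := by
      rintro rfl
      exact hnd (dvd_zero p)
    have hps : p ∣ s := by
      apply hp.dvd_of_dvd_pow (n := 3)
      exact (hpn.trans (dvd_pow_self n (by norm_num))).trans hd
    have hpe : p ^ e ∣ s := by
      interval_cases h : e
      · simpa using hps
      · obtain ⟨s', rfl⟩ := hps
        have h4 : p ^ (3 + 1) ∣ p ^ 3 * s' ^ 3 := by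
          have h5 : p ^ 4 ∣ n ^ 2 := by
            rw [hc]
            exact ⟨c ^ 2, by ring⟩
          have h6 : (p * s') ^ 3 = p ^ 3 * s' ^ 3 := by ring
          rw [← h6]
          exact h5.trans hd
        have h7 : p ^ 1 ∣ s' ^ 3 := pow_dvd_cancel (s := s') hp h4
        rw [pow_one] at h7
        obtain ⟨t, rfl⟩ := hp.dvd_of_dvd_pow h7
        exact ⟨t, by ring⟩
    obtain ⟨s', rfl⟩ := hpe
    have hd2 : c ^ 2 ∣ p ^ e * s' ^ 3 := by
      rw [hc] at hd
      have e1 : (p ^ e * c) ^ 2 = p ^ (e * 2) * c ^ 2 := by rw [mul_pow, pow_mul]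
      have e2 : (p ^ e * s') ^ 3 = p ^ (e * 2) * (p ^ e * s' ^ 3) := by
        rw [mul_pow, ← pow_mul, ← mul_assoc, ← pow_add]
        congr 2
      rw [e1, e2, mul_dvd_mul_iff_left (pow_ne_zero _ hp.ne_zero)] at hd
      exact hd
    have hcop : IsCoprime (c ^ 2) (p ^ e) :=
      (((hp.irreducible.coprime_iff_not_dvd).mpr hnd).symm).pow
    have hd3 : c ^ 2 ∣ s' ^ 3 := hcop.dvd_of_dvd_mul_left hd2
    have hcn : nm c ≤ N := by
      have h1 := nm_lt_of_mul hp hc0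
      have h2 : nm (p * c) ≤ nm n := by
        rw [hc, nm_mul, nm_mul, nm_pow]
        gcongr
        calc nm p = nm p ^ 1 := (pow_one _).symm
          _ ≤ nm p ^ e := Nat.pow_le_pow_right (nm_pos.mpr hp.ne_zero) he1
      omega
    have h8 := ih hcn hc0 (fun q hq h9 => hcf q hq (by
      rw [hc]; exact h9.trans (dvd_mul_left _ _))) hd3
    rw [hc]
    exact mul_dvd_mul_left _ h8

/-- the cube frequencies -/
def Hc (d e h : Eis) : Prop := h ≠ 0 ∧ ¬ Hn d e h

lemma sqf_emul {n p : Eis} (hs : Squarefree n) (hp : Prime p) : emultiplicity p n ≤ 1 := by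
  rcases (squarefree_iff_emultiplicity_le_one n).1 hs p with h | h
  · exact h
  · exact absurd h hp.not_isUnit

lemma sqf_sq3 : Squarefree sq3 := by
  have := prime_lam.squarefree
  exact (associated_lam_sq3.squarefree_iff).1 this

lemma cubefree_des {d e : Eis} (hd : IsPrim d) (hs : Squarefree d) (hed : e ∣ d) :
    ∀ p, Prime p → ¬ p ^ 3 ∣ d * e * sq3 := by
  intro p hp h
  rw [pow_dvd_iff_le_emultiplicity, emultiplicity_mul hp, emultiplicity_mul hp] at h
  have hes : Squarefree e := hs.squarefree_of_dvd hed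
  have m1 := sqf_emul hs hp
  have m2 := sqf_emul hes hp
  have m3 := sqf_emul sqf_sq3 hp
  by_cases hpl : p ∣ sq3
  · have hpd : ¬ p ∣ d := by
      intro hpd
      have hc : IsCoprime sq3 d := MC.isCoprime_sq3 hd
      exact hp.not_isUnit (hc.isUnit_of_dvd' hpl hpd)
    have hpe : ¬ p ∣ e := fun h => hpd (h.trans hed)
    rw [emultiplicity_eq_zero.2 hpd, emultiplicity_eq_zero.2 hpe, zero_add, zero_add] at h
    have : ((3 : ℕ) : ℕ∞) ≤ 1 := h.trans m3
    norm_num at this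
  · rw [emultiplicity_eq_zero.2 hpl, add_zero] at h
    have : ((3 : ℕ) : ℕ∞) ≤ 1 + 1 := h.trans (add_le_add m1 m2)
    norm_num at this

lemma Hc_iff {d e h : Eis} (hd : IsPrim d) (hs : Squarefree d) (he : IsPrim e) (hed : e ∣ d) :
    Hc d e h ↔ ∃ t : Eis, t ≠ 0 ∧ h = d * e * sq3 * t ^ 3 := by
  have hc0 : d * e * sq3 ≠ 0 := mul_ne_zero (mul_ne_zero hd.ne_zero he.ne_zero) sq3_ne_zero
  constructor
  · rintro ⟨h0, h1⟩
    unfold Hn T411.NCube fq2 at h1
    have h2 : h * (d * e * sq3) ^ 2 ≠ 0 := mul_ne_zero h0 (pow_ne_zero 2 hc0)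
    have h3 : ¬ ∀ m : Eis, h * (d * e * sq3) ^ 2 ≠ m ^ 3 := fun hh => h1 ⟨h2, hh⟩
    push Not at h3
    obtain ⟨m, hm⟩ := h3
    obtain ⟨t, rfl⟩ := dvd_of_sq_dvd_cube _ le_rfl hc0 (cubefree_des hd hs hed)
      ⟨h, by rw [← hm]; ring⟩
    refine ⟨t, ?_, ?_⟩
    · rintro rfl
      apply h2
      rw [hm]; ring
    · apply mul_right_cancel₀ (pow_ne_zero 2 hc0)
      rw [hm]; ring
  · rintro ⟨t, ht, rfl⟩
    refine ⟨mul_ne_zero hc0 (pow_ne_zero 3 ht), ?_⟩
    rintro ⟨_, h2⟩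
    apply h2 (d * e * sq3 * t)
    unfold fq2
    ring

/-- `N(a)^(-1/2)` -/
def n2 (a : Eis) : ℝ := (nm a : ℝ) ^ (-(1 : ℝ) / 2)

lemma n2_nonneg (a : Eis) : 0 ≤ n2 a := Real.rpow_nonneg (Nat.cast_nonneg _) _

lemma cpow_n2 (k : Eis) : ((nm k : ℕ) : ℂ) ^ (-(1 / 2) : ℂ) = (n2 k : ℂ) := by
  unfold n2
  rw [Complex.ofReal_cpow (Nat.cast_nonneg _)]
  congr 1
  push_cast
  ring

open Classical in
lemma U_cube {d e t k : Eis} (hk : IsPrim k) (he : IsPrim e) (hek : IsCoprime e k) :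
    U e (d * e * sq3 * t ^ 3) k =
      if IsCoprime t k then conj (sy d k) * G k * (n2 k : ℂ) else 0 := by
  rw [← Ue_eq syG hk]
  unfold Ue
  rw [cpow_n2]
  have h1 : sy (t ^ 3) k = if IsCoprime t k then 1 else 0 := by
    split_ifs with h
    · rw [pow_succ, pow_two, syG.mul_left _ _ _ hk, syG.mul_left _ _ _ hk]
      have := syG.cube t k hk h
      rw [← this]; ring
    · rw [pow_succ, pow_two, syG.mul_left _ _ _ hk, syG.mul_left _ _ _ hk,
        (syG.eq_zero t k hk).2 h]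
      ring
  have hc : IsCoprime (e * sq3) k := hek.mul_left (MC.isCoprime_sq3 hk)
  have h2 := norm_sy_one' hk hc
  rw [show d * e * sq3 * t ^ 3 = d * (e * sq3) * t ^ 3 by ring,
    syG.mul_left (d * (e * sq3)) (t ^ 3) k hk, h1, syG.mul_left d (e * sq3) k hk]
  split_ifs
  · rw [mul_one, map_mul]
    linear_combination (conj (sy d k) * G k * (n2 k : ℂ)) * h2
  · rw [mul_zero]; simp

open Classical in
/-- the sum over cubes -/
def TT (Z : ℝ) (b : Eis) : ℝ :=
  ∑' m : Eis, if m ≠ 0 ∧ IsCoprime m b then Real.exp (-((nm m : ℝ) ^ 3) / Z) else 0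

open Classical in
/-- the sum over the cube frequencies -/
lemma tsum_Hc {L : ℝ} (hL : 0 < L) {d e k1 k2 : Eis} (hd : IsPrim d) (hs : Squarefree d)
    (he : IsPrim e) (hed : e ∣ d) (h1 : IsPrim k1) (h2 : IsPrim k2) (c1 : IsCoprime d k1)
    (c2 : IsCoprime d k2) :
    ∑' h : Eis, (if Hc d e h then
      ((Real.exp (-(4 * Real.pi ^ 2 * L * nm h) / (3 * nm e * nm k1 * nm k2)) : ℝ) : ℂ) *
        (U e h k1 * conj (U e h k2)) else 0) =
      (1 / 3) * ((TT (nm k1 * nm k2 / (4 * Real.pi ^ 2 * L * nm d)) (k1 * k2) : ℝ) : ℂ) *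
        ((conj (sy d k1) * G k1 * (n2 k1 : ℂ)) * conj (conj (sy d k2) * G k2 * (n2 k2 : ℂ))) := by
  have hc0 : d * e * sq3 ≠ 0 := mul_ne_zero (mul_ne_zero hd.ne_zero he.ne_zero) sq3_ne_zero
  have hnd : (0 : ℝ) < nm d := by exact_mod_cast nm_pos.2 hd.ne_zero
  have hne : (0 : ℝ) < nm e := by exact_mod_cast nm_pos.2 he.ne_zero
  have hn1 : (0 : ℝ) < nm k1 := by exact_mod_cast nm_pos.2 h1.ne_zero
  have hn2 : (0 : ℝ) < nm k2 := by exact_mod_cast nm_pos.2 h2.ne_zero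
  have hpi := Real.pi_pos
  set Z : ℝ := nm k1 * nm k2 / (4 * Real.pi ^ 2 * L * nm d) with hZ
  have hZpos : 0 < Z := by positivity
  set P : ℂ := (conj (sy d k1) * G k1 * (n2 k1 : ℂ)) *
    conj (conj (sy d k2) * G k2 * (n2 k2 : ℂ)) with hP
  set F : Eis → ℂ := fun h =>
    ((Real.exp (-(4 * Real.pi ^ 2 * L * nm h) / (3 * nm e * nm k1 * nm k2)) : ℝ) : ℂ) *
        (U e h k1 * conj (U e h k2)) with hF
  set g : Eis → ℂ := fun c => if ∃ m : Eis, m ≠ 0 ∧ c = m ^ 3 then F (d * e * sq3 * c) else 0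
    with hg
  have hinj : Function.Injective (fun c : Eis => d * e * sq3 * c) := mul_right_injective₀ hc0
  have hval : ∀ c : Eis, (if Hc d e (d * e * sq3 * c) then F (d * e * sq3 * c) else 0) = g c := by
    intro c
    simp only [hg]
    have : Hc d e (d * e * sq3 * c) ↔ ∃ m : Eis, m ≠ 0 ∧ c = m ^ 3 := by
      rw [Hc_iff hd hs he hed]
      constructor
      · rintro ⟨m, hm, h⟩
        exact ⟨m, hm, mul_left_cancel₀ hc0 h⟩
      · rintro ⟨m, hm, rfl⟩
        exact ⟨m, hm, rfl⟩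
    by_cases hc : ∃ m : Eis, m ≠ 0 ∧ c = m ^ 3
    · rw [if_pos (this.mpr hc), if_pos hc]
    · rw [if_neg (fun h => hc (this.mp h)), if_neg hc]
  have e1 : ∑' h : Eis, (if Hc d e h then F h else 0) = ∑' c, g c := by
    rw [← hinj.tsum_eq (f := fun h : Eis => if Hc d e h then F h else 0)]
    · exact tsum_congr hval
    · intro h hh
      rw [Function.mem_support] at hh
      by_cases hc : Hc d e h
      · obtain ⟨m, hm, rfl⟩ := (Hc_iff hd hs he hed).1 hc
        exact ⟨m ^ 3, rfl⟩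
      · rw [if_neg hc] at hh; exact absurd rfl hh
  have hek1 : IsCoprime e k1 := c1.of_isCoprime_of_dvd_left hed
  have hek2 : IsCoprime e k2 := c2.of_isCoprime_of_dvd_left hed
  have hcub : ∀ m : Eis, g (m ^ 3) = (((if m ≠ 0 ∧ IsCoprime m (k1 * k2) then
      Real.exp (-((nm m : ℝ) ^ 3) / Z) else 0) : ℝ) : ℂ) * P := by
    intro m
    simp only [hg]
    by_cases hm : m = 0
    · subst hm
      rw [if_neg, if_neg]
      · simp
      · simp
      · rintro ⟨m', hm', h⟩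
        exact hm' (pow_eq_zero_iff (three_ne_zero) |>.mp (by rw [← h]; simp))
    · rw [if_pos ⟨m, hm, rfl⟩]
      simp only [hF]
      rw [U_cube h1 he hek1, U_cube h2 he hek2]
      have e2 : -(4 * Real.pi ^ 2 * L * nm (d * e * sq3 * m ^ 3)) / (3 * nm e * nm k1 * nm k2) =
          -((nm m : ℝ) ^ 3) / Z := by
        rw [nm_mul, nm_mul, nm_mul, nm_pow, (by decide : nm sq3 = 3), hZ]
        push_cast
        field_simp
      rw [e2]
      by_cases ha : IsCoprime m k1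
      · by_cases hb : IsCoprime m k2
        · rw [if_pos ha, if_pos hb, if_pos ⟨hm, ha.mul_right hb⟩]
        · rw [if_pos ha, if_neg hb, if_neg (fun h => hb h.2.of_mul_right_right)]; simp
      · rw [if_neg ha, if_neg (fun h : m ≠ 0 ∧ IsCoprime m (k1 * k2) =>
          ha h.2.of_mul_right_left)]; simp
  obtain ⟨C, hC0, hC⟩ := PX241.cube_sum_Z
  have hs' := (hC Z (k1 * k2) hZpos (h1.mul h2)).1
  rw [e1, Gram858.tsum_cubes (g := g)]
  · rw [tsum_congr hcub, tsum_mul_right]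
    unfold TT
    rw [Complex.ofReal_tsum]
    ring
  · simp only [hg]
    rw [if_neg]
    rintro ⟨m', hm', h⟩
    exact hm' (pow_eq_zero_iff (three_ne_zero) |>.mp h.symm)
  · intro c hc
    simp only [hg] at hc
    by_contra hne
    apply hc
    rw [if_neg]
    rintro ⟨m, _, rfl⟩
    exact hne ⟨m, rfl⟩
  · have := (Complex.ofRealCLM.summable hs').mul_right P
    refine this.congr (fun m => ?_)
    rw [hcub m]
    rfl

/-- the real value -/
def cubR (L : ℝ) (d k1 k2 : Eis) : ℝ :=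
  2 * Real.pi * L / Real.sqrt 3 * PE d * (1 / 3) * (n2 k1 * n2 k2) *
    TT (nm k1 * nm k2 / (4 * Real.pi ^ 2 * L * nm d)) (k1 * k2)

/-- **the cube frequencies of a pair** -/
theorem Psi_Hc {L : ℝ} (hL : 0 < L) {d k1 k2 : Eis} (hd : IsPrim d) (hs : Squarefree d)
    (h1 : IsPrim k1) (h2 : IsPrim k2) (c1 : IsCoprime d k1) (c2 : IsCoprime d k2) :
    Psi L (Hc d) d k1 k2 = (cubR L d k1 k2 : ℂ) * ((conj (sy d k1) * G k1) *
      conj (conj (sy d k2) * G k2)) := by
  classical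
  unfold Psi
  have e1 : ∀ e ∈ pdiv d, (mu e : ℂ) * (((2 * Real.pi * L / (Real.sqrt 3 * nm e) : ℝ) : ℂ) *
      ∑' h : Eis, if Hc d e h then
        ((Real.exp (-(4 * Real.pi ^ 2 * L * nm h) / (3 * nm e * nm k1 * nm k2)) : ℝ) : ℂ) *
          (U e h k1 * conj (U e h k2)) else 0) =
      (((mu e : ℝ) * (1 / (nm e : ℝ)) : ℝ) : ℂ) * (((2 * Real.pi * L / Real.sqrt 3 : ℝ) : ℂ) *
      ((1 / 3) * ((TT (nm k1 * nm k2 / (4 * Real.pi ^ 2 * L * nm d)) (k1 * k2) : ℝ) : ℂ) *
        ((conj (sy d k1) * G k1 * (n2 k1 : ℂ)) * conj (conj (sy d k2) * G k2 * (n2 k2 : ℂ))))) := by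
    intro e he
    have he' := (mem_pdiv hd.ne_zero).1 he
    rw [tsum_Hc hL hd hs he'.1 he'.2 h1 h2 c1 c2]
    have hne : (nm e : ℂ) ≠ 0 := by exact_mod_cast (nm_pos.2 he'.1.ne_zero).ne'
    have h3 : ((Real.sqrt 3 : ℝ) : ℂ) ≠ 0 := by
      exact_mod_cast (Real.sqrt_pos.2 (by norm_num : (0:ℝ) < 3)).ne'
    push_cast
    field_simp
  rw [Finset.sum_congr rfl e1, ← Finset.sum_mul, ← Complex.ofReal_sum, ← PE_eq_sum hd.ne_zero]
  unfold cubR
  rw [map_mul conj (conj (sy d k2) * G k2) (n2 k2 : ℂ), Complex.conj_ofReal]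
  push_cast
  ring

/-- with the Gauss sums -/
theorem Psi_Hc_G {L : ℝ} (hL : 0 < L) {d k1 k2 : Eis} (hd : IsPrim d) (hs : Squarefree d)
    (h1 : IsPrim k1) (h2 : IsPrim k2) (s1 : Squarefree k1) (s2 : Squarefree k2)
    (c1 : IsCoprime d k1) (c2 : IsCoprime d k2) :
    G (d * k1) * conj (G (d * k2)) * conj (Psi L (Hc d) d k1 k2) = (cubR L d k1 k2 : ℂ) := by
  rw [Psi_Hc hL hd hs h1 h2 c1 c2, G_mul_all syG hd h1, G_mul_all syG hd h2]
  have a1 : G d * conj (G d) = 1 := G_mul_conj syG hd hs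
  have a2 : G k1 * conj (G k1) = 1 := G_mul_conj syG h1 s1
  have a3 : G k2 * conj (G k2) = 1 := G_mul_conj syG h2 s2
  have a4 := norm_sy_one' h1 c1
  have a5 := norm_sy_one' h2 c2
  simp only [map_mul, Complex.conj_conj, Complex.conj_ofReal]
  calc _ = (cubR L d k1 k2 : ℂ) * (G d * conj (G d)) * (G k1 * conj (G k1)) *
        (G k2 * conj (G k2)) * (sy d k1 * conj (sy d k1)) * (sy d k2 * conj (sy d k2)) := by ring
    _ = _ := by rw [a1, a2, a3, a4, a5]; ring

end Crest.Agent.R017.PX5
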