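import Crest.Agent.R017.PX5h_241

/-!
# Row 17, exceptional class, rule (P'_ex), part i (helper241): the bias and the cubes of a pair

* `KKD` : the pair kernel of `Dk`
* `Bsum` : the pair kernel of the bias
* `pair_err` : the cubes and the bias of a pair agree up to the error
-/

set_option autoImplicit false

noncomputable section

namespace Crest.Agent.R017.PX5

open Crest.Agent.R012 MeasureTheory
open Eis CharSum852 Gauss880 Tau671 Mob705 LS2 CR2 MelSep811 DualIneq811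
open Crest.Agent.R017.PA842 Crest.Agent.R017.PM106 Crest.Agent.R017.PX764
open Crest.Agent.R017.P3all283 (ft3 c0 P3all_one summable_ft3)
open scoped ComplexConjugate

lemma summable_w {L : ℝ} (hL : 0 < L) {f : Eis → ℂ} {B : ℝ} (hf : ∀ h, h ≠ 0 → ‖f h‖ ≤ B) :
    Summable fun h : Eis => (wL L h : ℂ) * f h := by
  refine Summable.of_norm_bounded ((summable_wL hL).mul_right B) (fun h => ?_)
  rw [norm_mul, Complex.norm_real, Real.norm_of_nonneg (wL_nonneg L h)]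
  by_cases h0 : h = 0
  · rw [h0]
    unfold wL
    rw [if_pos rfl]
    simp
  · exact mul_le_mul_of_nonneg_left (hf h h0) (wL_nonneg L h)

lemma crs_eq (L : ℝ) (n1 n2 : Eis) :
    PX764.crs 1 L n1 n2 = ∑' h : Eis, (wL L h : ℂ) * (Bk h n1 * conj (Dk h n2)) := by
  unfold PX764.crs wL Bk
  apply tsum_congr
  intro l
  rw [one_mul]
  split_ifs
  · simp
  · ring

/-- **the pair kernel of `Dk`** -/
theorem KKD {L : ℝ} (hL : 0 < L) {n1 n2 : Eis} (h1 : IsPrim n1) (h2 : IsPrim n2) :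
    ∑' h : Eis, (wL L h : ℂ) * (Dk h n1 * conj (Dk h n2)) =
      ∑' h : Eis, (wL L h : ℂ) * (Gh h n1 * conj (Gh h n2)) -
        (pC : ℂ) ^ 2 * ∑' h : Eis, (wL L h : ℂ) * (Bk h n1 * conj (Bk h n2)) -
        (pC : ℂ) * conj (PX764.crs 1 L n2 n1) - (pC : ℂ) * PX764.crs 1 L n1 n2 := by
  have b1 : ∀ h n : Eis, h ≠ 0 → IsPrim n → ‖Bk h n‖ ≤ 1 := fun h n hh hn => norm_thmd_le hh hn
  have sG : Summable fun h : Eis => (wL L h : ℂ) * (Gh h n1 * conj (Gh h n2)) :=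
    summable_w hL (B := 1 * 1) fun h _ => by
      rw [norm_mul, RCLike.norm_conj]
      exact mul_le_mul (norm_Gh_le h1) (norm_Gh_le h2) (norm_nonneg _) zero_le_one
  have sB : Summable fun h : Eis => (wL L h : ℂ) * (Bk h n1 * conj (Bk h n2)) :=
    summable_w hL (B := 1 * 1) fun h hh => by
      rw [norm_mul, RCLike.norm_conj]
      exact mul_le_mul (b1 h _ hh h1) (b1 h _ hh h2) (norm_nonneg _) zero_le_one
  have hp : 0 ≤ 1 + pC := by linarith [pC_pos]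
  have s12 : Summable fun h : Eis => (wL L h : ℂ) * (Bk h n1 * conj (Dk h n2)) :=
    summable_w hL (B := 1 * (1 + pC)) fun h hh => by
      rw [norm_mul, RCLike.norm_conj]
      exact mul_le_mul (b1 h _ hh h1) (norm_Dk_le hh h2) (norm_nonneg _) zero_le_one
  have s21 : Summable fun h : Eis => (wL L h : ℂ) * conj (Bk h n2 * conj (Dk h n1)) :=
    summable_w hL (B := 1 * (1 + pC)) fun h hh => by
      rw [RCLike.norm_conj, norm_mul, RCLike.norm_conj]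
      exact mul_le_mul (b1 h _ hh h2) (norm_Dk_le hh h1) (norm_nonneg _) zero_le_one
  have e21 : conj (PX764.crs 1 L n2 n1) = ∑' h : Eis, (wL L h : ℂ) * conj (Bk h n2 * conj (Dk h n1)) := by
    rw [crs_eq, Complex.conj_tsum]
    apply tsum_congr
    intro h
    rw [map_mul, Complex.conj_ofReal]
  rw [e21, crs_eq L n1 n2, ← tsum_mul_left, ← tsum_mul_left, ← tsum_mul_left,
    ← sG.tsum_sub (sB.mul_left _), ← (sG.sub (sB.mul_left _)).tsum_sub (s21.mul_left _),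
    ← ((sG.sub (sB.mul_left _)).sub (s21.mul_left _)).tsum_sub (s12.mul_left _)]
  apply tsum_congr
  intro h
  have e1 : ∀ n : Eis, Dk h n = Gh h n - (pC : ℂ) * Bk h n := by
    intro n
    unfold Dk Bk
    ring
  rw [e1 n1, e1 n2]
  simp only [map_sub, map_mul, Complex.conj_ofReal, Complex.conj_conj]
  ring

open Classical in
/-- **the pair kernel of the bias** -/
theorem Bsum {L : ℝ} {d k1 k2 : Eis} (s1 : Squarefree (d * k1)) (s2 : Squarefree (d * k2)) :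
    ∑' h : Eis, (wL L h : ℂ) * (Bk h (d * k1) * conj (Bk h (d * k2))) =
      ((n6 (d * k1) * n6 (d * k2) * ∑' h : Eis, ft3 1 L (d * k1 * k2) h : ℝ) : ℂ) := by
  rw [← tsum_mul_left, Complex.ofReal_tsum]
  apply tsum_congr
  intro h
  unfold Bk ft3 wL
  by_cases h0 : h = 0
  · rw [if_pos h0, if_neg (fun hh => hh.1 h0)]
    simp
  · rw [if_neg h0, one_mul]
    by_cases hc : IsCoprime h (d * k1 * k2)
    · have c1 : IsCoprime (d * k1) h := hc.of_mul_right_left.symm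
      have c2 : IsCoprime (d * k2) h :=
        (hc.of_mul_right_left.of_mul_right_left.mul_right hc.of_mul_right_right).symm
      rw [if_pos ⟨h0, hc⟩]
      unfold md
      rw [if_pos ⟨s1, c1⟩, if_pos ⟨s2, c2⟩, map_mul, Complex.conj_ofReal]
      have e1 : th h * conj (th h) = ((‖th h‖ ^ 2 : ℝ) : ℂ) := by
        rw [Complex.mul_conj, Complex.normSq_eq_norm_sq]
      calc _ = ((Real.exp (-(nm h : ℝ) / L) : ℝ) : ℂ) * (th h * conj (th h)) *
            ((n6 (d * k1) : ℂ) * (n6 (d * k2) : ℂ)) := by ring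
        _ = _ := by
          rw [e1]
          push_cast
          ring
    · rw [if_neg (fun hh => hc hh.2)]
      by_cases c1 : IsCoprime (d * k1) h
      · have c2 : ¬ IsCoprime (d * k2) h := fun c2 => hc (c1.symm.mul_right c2.symm.of_mul_right_right)
        have : md h (d * k2) = 0 := by
          unfold md
          rw [if_neg (fun hh => c2 hh.2)]
        rw [this]
        simp
      · have : md h (d * k1) = 0 := by
          unfold md
          rw [if_neg (fun hh => c1 hh.2)]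
        rw [this]
        simp

/-- the constants -/
lemma const2 : (2 * Real.pi / Real.sqrt 3) * (1 / 3) * (2 * Real.pi / Real.sqrt 3 *
    Real.Gamma (4 / 3)) * (4 * Real.pi ^ 2) ^ (-(1 / 3) : ℝ) = pC ^ 2 * (3 * c0) := by
  have hpi := Real.pi_pos
  have h30 : 0 < Real.sqrt 3 := by positivity
  have h3 : Real.sqrt 3 * Real.sqrt 3 = 3 := Real.mul_self_sqrt (by norm_num)
  have h := PX241.const_id
  set u : ℝ := 4 * Real.pi ^ 2 with hu
  have hu0 : 0 < u := by positivity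
  have e1 : (3 / u) ^ (2 / 3 : ℝ) = (3 : ℝ) ^ (2 / 3 : ℝ) * u ^ (-(2 / 3) : ℝ) := by
    rw [Real.div_rpow (by norm_num) hu0.le, Real.rpow_neg hu0.le]
    ring
  have e2 : u ^ (-(2 / 3) : ℝ) * u ^ (-(1 / 3) : ℝ) * u = 1 := by
    rw [← Real.rpow_add hu0]
    norm_num
    rw [Real.rpow_neg_one]
    field_simp
  have e3 : (3 : ℝ) ^ (4 / 3 : ℝ) * (3 : ℝ) ^ (2 / 3 : ℝ) = 9 := by
    rw [← Real.rpow_add (by norm_num)]
    norm_num
  have e4 : (2 * Real.pi / Real.sqrt 3) * (2 * Real.pi / Real.sqrt 3) = u / 3 := by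
    rw [div_mul_div_comm, h3, hu]
    ring
  rw [e1] at h
  unfold c0
  calc (2 * Real.pi / Real.sqrt 3) * (1 / 3) * (2 * Real.pi / Real.sqrt 3 *
    Real.Gamma (4 / 3)) * u ^ (-(1 / 3) : ℝ) =
      ((2 * Real.pi / Real.sqrt 3) * (2 * Real.pi / Real.sqrt 3)) * u ^ (-(1 / 3) : ℝ) *
        (1 / 3 * Real.Gamma (4 / 3)) := by ring
    _ = (u / 3) * u ^ (-(1 / 3) : ℝ) * (pC ^ 2 * ((3 : ℝ) ^ (4 / 3 : ℝ) *
        (2 * Real.pi / (9 * Real.sqrt 3)) * Real.Gamma (2 / 3) *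
        ((3 : ℝ) ^ (2 / 3 : ℝ) * u ^ (-(2 / 3) : ℝ)))) := by rw [e4, h]
    _ = pC ^ 2 * (2 * Real.pi / (9 * Real.sqrt 3) * Real.Gamma (2 / 3)) *
        ((3 : ℝ) ^ (4 / 3 : ℝ) * (3 : ℝ) ^ (2 / 3 : ℝ)) *
        (u ^ (-(2 / 3) : ℝ) * u ^ (-(1 / 3) : ℝ) * u) / 3 := by ring
    _ = _ := by rw [e2, e3]; ring

/-- the main terms -/
lemma main_eq {L nd m1 m2 Pd Pk : ℝ} (hL : 0 < L) (hd : 0 < nd) (h1 : 0 < m1) (h2 : 0 < m2) :
    2 * Real.pi * L / Real.sqrt 3 * Pd * (1 / 3) * (m1 ^ (-(1 : ℝ) / 2) * m2 ^ (-(1 : ℝ) / 2)) *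
      (2 * Real.pi / Real.sqrt 3 * Real.Gamma (4 / 3) * Pk *
        (m1 * m2 / (4 * Real.pi ^ 2 * L * nd)) ^ (1 / 3 : ℝ)) =
    pC ^ 2 * ((nd * m1) ^ (-(1 : ℝ) / 6) * (nd * m2) ^ (-(1 : ℝ) / 6) *
      (3 * c0 * (Pd * Pk) * L ^ ((2 : ℝ) / 3))) := by
  have hpi := Real.pi_pos
  have hc := const2
  set u : ℝ := 4 * Real.pi ^ 2 with hu
  have hu0 : 0 < u := by positivity
  have e1 : (m1 * m2 / (u * L * nd)) ^ (1 / 3 : ℝ) =
      m1 ^ (1 / 3 : ℝ) * m2 ^ (1 / 3 : ℝ) * (u ^ (-(1 / 3) : ℝ) * L ^ (-(1 / 3) : ℝ) *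
        nd ^ (-(1 / 3) : ℝ)) := by
    rw [Real.div_rpow (by positivity) (by positivity), Real.mul_rpow h1.le h2.le,
      Real.mul_rpow (by positivity) hd.le, Real.mul_rpow hu0.le hL.le, Real.rpow_neg hu0.le,
      Real.rpow_neg hL.le, Real.rpow_neg hd.le]
    field_simp
  have e2 : ∀ m : ℝ, 0 < m → m ^ (-(1 : ℝ) / 2) * m ^ (1 / 3 : ℝ) = m ^ (-(1 : ℝ) / 6) := by
    intro m hm
    rw [← Real.rpow_add hm]
    norm_num
  have e3 : L * L ^ (-(1 / 3) : ℝ) = L ^ ((2 : ℝ) / 3) := by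
    nth_rewrite 1 [← Real.rpow_one L]
    rw [← Real.rpow_add hL]
    norm_num
  have e4 : nd ^ (-(1 : ℝ) / 6) * nd ^ (-(1 : ℝ) / 6) = nd ^ (-(1 / 3) : ℝ) := by
    rw [← Real.rpow_add hd]
    norm_num
  rw [e1, Real.mul_rpow hd.le h1.le, Real.mul_rpow hd.le h2.le, ← e2 m1 h1, ← e2 m2 h2, ← e3]
  calc _ = ((2 * Real.pi / Real.sqrt 3) * (1 / 3) * (2 * Real.pi / Real.sqrt 3 *
    Real.Gamma (4 / 3)) * u ^ (-(1 / 3) : ℝ)) * (L * L ^ (-(1 / 3) : ℝ)) * nd ^ (-(1 / 3) : ℝ) *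
      (m1 ^ (-(1 : ℝ) / 2) * m1 ^ (1 / 3 : ℝ)) * (m2 ^ (-(1 : ℝ) / 2) * m2 ^ (1 / 3 : ℝ)) *
      (Pd * Pk) := by ring
    _ = _ := by
      rw [hc, ← e4]
      ring

lemma PE_mul {a b : Eis} (ha : a ≠ 0) (hb : b ≠ 0) (h : IsCoprime a b) :
    PE (a * b) = PE a * PE b := by
  unfold PE
  rw [pp_mul ha hb, Finset.prod_union (pp_disjoint h)]

/-- **the pair error** -/
theorem pair_err : ∃ (C : ℝ) (k : ℕ), 0 ≤ C ∧ ∀ (L : ℝ) (d k1 k2 : Eis), 1 ≤ L → IsPrim d →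
    IsPrim k1 → IsPrim k2 → IsCoprime d k1 → IsCoprime d k2 →
    |cubR L d k1 k2 - pC ^ 2 * (n6 (d * k1) * n6 (d * k2) * ∑' h, ft3 1 L (d * k1 * k2) h)| ≤
      C * (L * (n2 k1 * n2 k2) * Div277.tau (k1 * k2) +
        n6 k1 * n6 k2 * (Div277.tau (d * k1 * k2) : ℝ) ^ k * L ^ ((1 : ℝ) / 3) *
          (1 + Real.log (1 + L))) := by
  obtain ⟨C1, hC1, H1⟩ := PX241.cube_sum_Z
  obtain ⟨C2, k, hC2, H2⟩ := P3all_one
  have hpi := Real.pi_pos
  have h30 : 0 < Real.sqrt 3 := by positivity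
  set κ : ℝ := 2 * Real.pi / Real.sqrt 3 with hκ
  have hκ0 : 0 < κ := by positivity
  refine ⟨κ * C1 + pC ^ 2 * C2, k, by positivity, ?_⟩
  intro L d k1 k2 hL hd h1 h2 c1 c2
  have hL0 : 0 < L := by linarith
  have hnd : (1 : ℝ) ≤ nm d := by exact_mod_cast nm_pos.2 hd.ne_zero
  have hn1 : (0 : ℝ) < nm k1 := by exact_mod_cast nm_pos.2 h1.ne_zero
  have hn2 : (0 : ℝ) < nm k2 := by exact_mod_cast nm_pos.2 h2.ne_zero
  have hnd0 : (0 : ℝ) < nm d := by linarith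
  set Z : ℝ := nm k1 * nm k2 / (4 * Real.pi ^ 2 * L * nm d) with hZ
  have hZ0 : 0 < Z := by positivity
  have t1 := (H1 Z (k1 * k2) hZ0 (h1.mul h2)).2
  have t2 := (H2 L (d * k1 * k2) hL0 ((hd.mul h1).mul h2)).2
  have hm := main_eq (Pd := PE d) (Pk := PE (k1 * k2)) hL0 hnd0 hn1 hn2
  have hPE : PE (d * k1 * k2) = PE d * PE (k1 * k2) := by
    rw [mul_assoc]
    exact PE_mul hd.ne_zero (mul_ne_zero h1.ne_zero h2.ne_zero) (c1.mul_right c2)
  rw [hPE] at t2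
  have e6 : ∀ j : Eis, n6 (d * j) = ((nm d : ℝ) * nm j) ^ (-(1 : ℝ) / 6) := by
    intro j
    unfold n6
    rw [nm_mul]
    push_cast
    rfl
  rw [← e6 k1, ← e6 k2] at hm
  change 2 * Real.pi * L / Real.sqrt 3 * PE d * (1 / 3) * (n2 k1 * n2 k2) * _ = _ at hm
  change |TT Z (k1 * k2) - _| ≤ _ at t1
  set M1 : ℝ := 2 * Real.pi / Real.sqrt 3 * Real.Gamma (4 / 3) * PE (k1 * k2) * Z ^ (1 / 3 : ℝ)
    with hM1
  set M2 : ℝ := 3 * c0 * (PE d * PE (k1 * k2)) * L ^ ((2 : ℝ) / 3) with hM2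
  set A1 : ℝ := 2 * Real.pi * L / Real.sqrt 3 * PE d * (1 / 3) * (n2 k1 * n2 k2) with hA1
  set A2 : ℝ := n6 (d * k1) * n6 (d * k2) with hA2
  have hcub : cubR L d k1 k2 = A1 * TT Z (k1 * k2) := rfl
  rw [hcub]
  have e1 : A1 * TT Z (k1 * k2) - pC ^ 2 * (A2 * ∑' h, ft3 1 L (d * k1 * k2) h) =
      A1 * (TT Z (k1 * k2) - M1) - pC ^ 2 * A2 * (∑' h, ft3 1 L (d * k1 * k2) h - M2) := by
    linear_combination hm
  rw [e1]
  have hPd := PE_pos d
  have hPd1 := PE_le_one d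
  have hA1n : 0 ≤ A1 := by
    have := n2_nonneg k1
    have := n2_nonneg k2
    positivity
  have hnn : 0 ≤ n2 k1 * n2 k2 := mul_nonneg (n2_nonneg _) (n2_nonneg _)
  have hA1le : A1 ≤ κ * (L * (n2 k1 * n2 k2)) := by
    rw [hA1, hκ]
    have : 2 * Real.pi * L / Real.sqrt 3 * PE d * (1 / 3) * (n2 k1 * n2 k2) =
        (2 * Real.pi / Real.sqrt 3 * (L * (n2 k1 * n2 k2))) * (PE d * (1 / 3)) := by ring
    rw [this]
    apply mul_le_of_le_one_right (by positivity)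
    linarith
  have h6a := n6_pos h1.ne_zero
  have h6b := n6_pos h2.ne_zero
  have h6d := n6_pos hd.ne_zero
  have h6d1 := n6_le_one hd.ne_zero
  have hA2n : 0 ≤ A2 := by
    rw [hA2, n6_mul, n6_mul]
    positivity
  have hA2le : A2 ≤ n6 k1 * n6 k2 := by
    rw [hA2, n6_mul, n6_mul]
    calc n6 d * n6 k1 * (n6 d * n6 k2) = (n6 d * n6 d) * (n6 k1 * n6 k2) := by ring
      _ ≤ 1 * (n6 k1 * n6 k2) := by
        apply mul_le_mul_of_nonneg_right _ (by positivity)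
        exact mul_le_one₀ h6d1 h6d.le h6d1
      _ = _ := one_mul _
  have hlog : 0 ≤ Real.log (1 + L) := Real.log_nonneg (by linarith)
  set E2 : ℝ := (Div277.tau (d * k1 * k2) : ℝ) ^ k * L ^ ((1 : ℝ) / 3) * (1 + Real.log (1 + L))
    with hE2
  have hE20 : 0 ≤ E2 := by positivity
  have t2' : |∑' h, ft3 1 L (d * k1 * k2) h - M2| ≤ C2 * E2 := by
    refine t2.trans (le_of_eq ?_)
    rw [hE2]; ring
  have b1 : |A1 * (TT Z (k1 * k2) - M1)| ≤ κ * (L * (n2 k1 * n2 k2)) *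
      (C1 * Div277.tau (k1 * k2)) := by
    rw [abs_mul, abs_of_nonneg hA1n]
    exact mul_le_mul hA1le t1 (abs_nonneg _) (by positivity)
  have b2 : |pC ^ 2 * A2 * (∑' h, ft3 1 L (d * k1 * k2) h - M2)| ≤
      pC ^ 2 * (n6 k1 * n6 k2) * (C2 * E2) := by
    rw [abs_mul, abs_of_nonneg (by positivity : 0 ≤ pC ^ 2 * A2)]
    exact mul_le_mul (mul_le_mul_of_nonneg_left hA2le (by positivity)) t2' (abs_nonneg _)
      (by positivity)
  refine (abs_sub _ _).trans ((add_le_add b1 b2).trans ?_)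
  have x1 : 0 ≤ L * (n2 k1 * n2 k2) * Div277.tau (k1 * k2) := by positivity
  have x2 : 0 ≤ n6 k1 * n6 k2 * E2 := by positivity
  have y1 : 0 ≤ κ * C1 := by positivity
  have y2 : 0 ≤ pC ^ 2 * C2 := by positivity
  have e2 : n6 k1 * n6 k2 * (Div277.tau (d * k1 * k2) : ℝ) ^ k * L ^ ((1 : ℝ) / 3) *
      (1 + Real.log (1 + L)) = n6 k1 * n6 k2 * E2 := by rw [hE2]; ring
  rw [e2]
  nlinarith [mul_nonneg y1 x2, mul_nonneg y2 x1]

end Crest.Agent.R017.PX5
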