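import Crest.Agent.R017.PX5i_241

/-!
# Row 17, exceptional class, rule (P'_ex), part j (helper241): the pairs with gcd `d`

* `CrossG` : the cross term
* `TG_Dk` : the decomposition
-/

set_option autoImplicit false

noncomputable section

namespace Crest.Agent.R017.PX5

open Crest.Agent.R012 MeasureTheory
open Eis CharSum852 Gauss880 Tau671 Mob705 LS2 CR2 MelSep811 DualIneq811
open Poisson381 (gau norm_gau summable_gau_one summable_gau poisson_gau_periodic s3 s3_eq_toC)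
open Crest.Agent.R017.PA842 Crest.Agent.R017.PM106 Crest.Agent.R017.PX764
open Crest.Agent.R017.P3all283 (ft3 c0 P3all_one summable_ft3)
open scoped ComplexConjugate

open Classical in
/-- the cross term of the pairs with gcd `d` -/
def CrossG (X L : ℝ) (w : Eis → ℂ) (d : Eis) : ℂ :=
  ∑ m₁ ∈ S X, ∑ m₂ ∈ S X, if IsCoprime m₁ m₂ then
    ws w X (d * m₁) * conj (ws w X (d * m₂)) * PX764.crs 1 L (d * m₁) (d * m₂) else 0

lemma CrossG_eq (X L : ℝ) (w : Eis → ℂ) (d : Eis) : CrossG X L w d =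
    cpS X (ws w X) (ws w X) d (fun k1 k2 => PX764.crs 1 L (d * k1) (d * k2)) := rfl

lemma ws_wc (w : Eis → ℂ) (X : ℝ) (n : Eis) : ws (wc w) X n = conj (ws w X n * G n) := by
  classical
  unfold ws wc
  split_ifs
  · rfl
  · simp

lemma conj_cpS (w : Eis → ℂ) (X : ℝ) (d : Eis) (Ψ : Eis → Eis → ℂ) :
    conj (cpS X (ws (wc w) X) (ws (wc w) X) d Ψ) =
      cpS X (ws w X) (ws w X) d (fun k1 k2 => G (d * k1) * conj (G (d * k2)) * conj (Ψ k1 k2)) := by
  unfold cpS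
  rw [map_sum]
  refine Finset.sum_congr rfl fun k1 _ => ?_
  rw [map_sum]
  refine Finset.sum_congr rfl fun k2 _ => ?_
  split_ifs
  · rw [ws_wc, ws_wc]
    simp only [map_mul, Complex.conj_conj]
    ring
  · simp

lemma conj_cpS_swap (α : Eis → ℂ) (X : ℝ) (d : Eis) (Ψ : Eis → Eis → ℂ) :
    cpS X α α d (fun k1 k2 => conj (Ψ k2 k1)) = conj (cpS X α α d Ψ) := by
  unfold cpS
  rw [map_sum, Finset.sum_congr rfl (fun k1 _ => map_sum conj _ _), Finset.sum_comm]
  refine Finset.sum_congr rfl fun k1 _ => Finset.sum_congr rfl fun k2 _ => ?_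
  by_cases h : IsCoprime k1 k2
  · rw [if_pos h, if_pos h.symm]
    simp only [map_mul, Complex.conj_conj]
    ring
  · rw [if_neg h, if_neg (fun hh => h hh.symm)]
    simp

open Classical in
lemma CC_eq_cpS {X L : ℝ} (hX : 0 ≤ X) {d : Eis} (hd : d ∈ S X) (c : Eis → ℂ) :
    CC (1 / (Real.pi * L)) (PX X) (cs c X) (pp d) = cpS X (ws c X) (ws c X) d (fun k1 k2 =>
      ∑' m : Eis, (sy m (d * k1) * conj (sy m (d * k2))) * gau (1 / (Real.pi * L)) (toC m)) := by
  unfold CC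
  rw [conv hX hd (fun P1 P2 => (cs c X P1 * conj (cs c X P2)) * T (1 / (Real.pi * L)) P1 P2)]
  · unfold cpS
    refine Finset.sum_congr rfl fun k1 hk1 => Finset.sum_congr rfl fun k2 hk2 => ?_
    by_cases h1 : d * k1 ∈ S X
    · by_cases h2 : d * k2 ∈ S X
      · by_cases hc : IsCoprime k1 k2
        · rw [if_pos ⟨h1, h2, hc⟩, if_pos hc]
          unfold cs PA842.T
          rw [pr_pp hX h1, pr_pp hX h2]
        · rw [if_neg (fun h => hc h.2.2), if_neg hc]
      · rw [if_neg (fun h => h2 h.2.1), ws_zero _ h2]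
        simp
    · rw [if_neg (fun h => h1 h.1), ws_zero _ h1]
      simp
  · intro P1 hP1 P2 _ h
    simp only [cs_big hX c P1 hP1 h, zero_mul]
  · intro P1 _ P2 hP2 h
    simp only [cs_big hX c P2 hP2 h, map_zero, mul_zero, zero_mul]

/-- the Gauss side and the character side, one pair -/
lemma pair_G {L : ℝ} (hL : 0 < L) {n1 n2 : Eis} (h1 : IsPrim n1) (h2 : IsPrim n2) :
    G n1 * conj (G n2) * conj (∑' m : Eis, (sy m n1 * conj (sy m n2)) *
      gau (1 / (Real.pi * L)) (toC m)) =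
    ∑' h : Eis, (wL L h : ℂ) * (Gh h n1 * conj (Gh h n2)) + Gh 0 n1 * conj (Gh 0 n2) := by
  classical
  rw [Complex.conj_tsum, ← tsum_mul_left]
  have e1 : ∀ m : Eis, G n1 * conj (G n2) * conj ((sy m n1 * conj (sy m n2)) *
      gau (1 / (Real.pi * L)) (toC m)) =
      ((Real.exp (-(nm m : ℝ) / L) : ℝ) : ℂ) * (Gh m n1 * conj (Gh m n2)) := by
    intro m
    rw [gau_exp]
    unfold Gh
    simp only [map_mul, Complex.conj_conj, Complex.conj_ofReal]
    ring
  rw [tsum_congr e1]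
  have hs : Summable fun m : Eis => ((Real.exp (-(nm m : ℝ) / L) : ℝ) : ℂ) *
      (Gh m n1 * conj (Gh m n2)) := by
    have h0 := P3all283.summable_exp hL
    refine Summable.of_norm_bounded h0 (fun m => ?_)
    rw [norm_mul, norm_mul, RCLike.norm_conj, Complex.norm_real,
      Real.norm_of_nonneg (Real.exp_pos _).le]
    have := mul_le_one₀ (norm_Gh_le (h := m) h1) (norm_nonneg _) (norm_Gh_le (h := m) h2)
    exact mul_le_of_le_one_right (Real.exp_pos _).le this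
  rw [hs.tsum_eq_add_tsum_ite 0, add_comm]
  congr 1
  · apply tsum_congr
    intro h
    unfold wL
    split_ifs
    · simp
    · rfl
  · rw [nm_eq_zero.2 rfl]
    simp

/-- **decomposition of the Gauss side** -/
lemma TG_Gh {X L : ℝ} (hX : 0 ≤ X) (hL : 0 < L) {d : Eis} (hd : d ∈ S X) (w : Eis → ℂ) :
    cpS X (ws w X) (ws w X) d (fun k1 k2 =>
      ∑' h : Eis, (wL L h : ℂ) * (Gh h (d * k1) * conj (Gh h (d * k2)))) =
    conj (CC (1 / (Real.pi * L)) (PX X) (cs (wc w) X) (pp d)) -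
      cpS X (ws w X) (ws w X) d (fun k1 k2 => Gh 0 (d * k1) * conj (Gh 0 (d * k2))) := by
  rw [CC_eq_cpS hX hd, conj_cpS, ← cpS_sub]
  apply cpS_congr
  intro k1 k2 _ _ _ a1 a2
  have h1 := ((mem_S hX).1 (ws_ne a1)).2.1
  have h2 := ((mem_S hX).1 (ws_ne a2)).2.1
  rw [pair_G hL h1 h2]
  ring

/-- the zero frequency -/
def H0 (_ h : Eis) : Prop := h = 0

lemma CCH_split {X L : ℝ} (hX : 0 ≤ X) (hL : 0 < L) {d : Eis} (hd : d ∈ S X) (c : Eis → ℂ) :
    CC (1 / (Real.pi * L)) (PX X) (cs c X) (pp d) =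
      cpS X (ws c X) (ws c X) d (Psi L H0 d) + cpS X (ws c X) (ws c X) d (Psi L (Hc d) d) +
      CCH (1 / (Real.pi * L)) (PX X) (cs c X) (pp d) (fun E l => Hn d (pr E) l) := by
  have ht : 0 < 1 / (Real.pi * L) := by have := Real.pi_pos; positivity
  have hPS := isPS_PX hX
  have hD := pp_subset_PX hX hd
  rw [CC_eq_CCH ht hPS]
  rw [CCH_add ht hPS (cs c X) hD (H := fun _ _ => True) (H1 := fun _ l => l = 0)
    (H2 := fun _ l => l ≠ 0) (fun E _ h => ⟨fun _ => em _, fun _ => trivial⟩)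
    (fun E _ h h1 h2 => h2 h1)]
  rw [CCH_add ht hPS (cs c X) hD (H := fun _ l => l ≠ 0) (H1 := fun E l => Hc d (pr E) l)
    (H2 := fun E l => Hn d (pr E) l)
    (fun E _ h => ⟨fun h0 => by
      by_cases hh : Hn d (pr E) h
      · exact Or.inr hh
      · exact Or.inl ⟨h0, hh⟩, fun h => h.elim (fun h => h.1) (fun h => Hn_ne_zero h)⟩)
    (fun E _ h h1 h2 => h1.2 h2)]
  rw [← add_assoc]
  congr 2
  · exact CCH_eq_cpS hX hL hd H0 c
  · exact CCH_eq_cpS hX hL hd (Hc d) c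

/-- **the decomposition of the corrected Gauss side** -/
theorem TG_Dk {X L : ℝ} (hX : 0 ≤ X) (hL : 0 < L) {d : Eis} (hd : d ∈ S X) (w : Eis → ℂ) :
    TG (wL L) Dk X w d =
      conj (CCH (1 / (Real.pi * L)) (PX X) (cs (wc w) X) (pp d) (fun E l => Hn d (pr E) l)) +
      cpS X (ws w X) (ws w X) d (fun k1 k2 =>
        G (d * k1) * conj (G (d * k2)) * conj (Psi L H0 d k1 k2)) -
      cpS X (ws w X) (ws w X) d (fun k1 k2 => Gh 0 (d * k1) * conj (Gh 0 (d * k2))) +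
      cpS X (ws w X) (ws w X) d (fun k1 k2 =>
        G (d * k1) * conj (G (d * k2)) * conj (Psi L (Hc d) d k1 k2) - (pC : ℂ) ^ 2 *
          ∑' h : Eis, (wL L h : ℂ) * (Bk h (d * k1) * conj (Bk h (d * k2)))) -
      (pC : ℂ) * conj (CrossG X L w d) - (pC : ℂ) * CrossG X L w d := by
  rw [TG_eq_cpS hX hd]
  have e1 : cpS X (ws w X) (ws w X) d (fun k1 k2 =>
      ∑' h : Eis, (wL L h : ℂ) * (Dk h (d * k1) * conj (Dk h (d * k2)))) =
      cpS X (ws w X) (ws w X) d (fun k1 k2 =>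
        (((∑' h : Eis, (wL L h : ℂ) * (Gh h (d * k1) * conj (Gh h (d * k2)))) -
        (pC : ℂ) ^ 2 * ∑' h : Eis, (wL L h : ℂ) * (Bk h (d * k1) * conj (Bk h (d * k2)))) -
        (pC : ℂ) * conj (PX764.crs 1 L (d * k2) (d * k1))) -
        (pC : ℂ) * PX764.crs 1 L (d * k1) (d * k2)) := by
    apply cpS_congr
    intro k1 k2 _ _ _ a1 a2
    exact KKD hL ((mem_S hX).1 (ws_ne a1)).2.1 ((mem_S hX).1 (ws_ne a2)).2.1
  rw [e1]
  simp only [cpS_sub, cpS_smul]
  rw [TG_Gh hX hL hd, CCH_split hX hL hd, map_add, map_add, conj_cpS, conj_cpS,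
    conj_cpS_swap (ws w X) X d (fun k1 k2 => PX764.crs 1 L (d * k1) (d * k2)), CrossG_eq]
  ring

/-! ### diagonal terms -/

lemma one_mem_S {X : ℝ} (hX : 1 ≤ X) : (1 : Eis) ∈ S X := by
  rw [mem_S (by linarith)]
  refine ⟨?_, isPrim_one, squarefree_one⟩
  rw [nm_one]
  simpa using hX

open Classical in
lemma norm_cpS_diag {X : ℝ} (hX : 1 ≤ X) (w : Eis → ℂ) {d : Eis} (hd : d ∈ S X)
    {Ψ : Eis → Eis → ℂ} {B : ℝ} (hB : 0 ≤ B)
    (h : ∀ k₁ k₂, k₁ ∈ S X → k₂ ∈ S X → ws w X (d * k₁) ≠ 0 → ws w X (d * k₂) ≠ 0 →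
      ‖Ψ k₁ k₂‖ ≤ if k₁ = 1 ∧ k₂ = 1 then B else 0) :
    ‖cpS X (ws w X) (ws w X) d Ψ‖ ≤ B * ‖w d‖ ^ 2 := by
  have h1 := norm_cpS_le (X := X) (α := ws w X) (β := ws w X) (d := d) (Ψ := Ψ)
    (B := fun k₁ k₂ => if k₁ = 1 ∧ k₂ = 1 then B else 0)
    (fun k₁ k₂ a b _ c e => h k₁ k₂ a b c e) (fun k₁ k₂ _ _ => by split_ifs; exacts [hB, le_rfl])
  refine h1.trans (le_of_eq ?_)
  have h1S := one_mem_S hX
  rw [Finset.sum_eq_single_of_mem 1 h1S, Finset.sum_eq_single_of_mem 1 h1S]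
  · simp only [mul_one, and_self, if_true]
    rw [ws_eq hd]
    ring
  · intro b _ hb
    rw [if_neg (fun hh => hb hh.2), mul_zero]
  · intro b _ hb
    apply Finset.sum_eq_zero
    intro k _
    rw [if_neg (fun hh => hb hh.1), mul_zero]

lemma eq_one_of_cop_zero {n : Eis} (hn : IsPrim n) (h : IsCoprime 0 n) : n = 1 :=
  isPrim_eq_one_of_isUnit hn (isCoprime_zero_left.1 h)

lemma sy_one_right' (h : Eis) : sy h 1 = 1 := by simp [sy, UniqueFactorizationMonoid.factors_one]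

lemma G_one' : G (1 : Eis) = 1 := by
  have h := Gh_one 1
  unfold Gh at h
  rw [sy_one_right', map_one, mul_one] at h
  exact h

open Classical in
lemma norm_Z0_le {d k1 k2 : Eis} (hd : IsPrim d) (h1 : IsPrim k1) (h2 : IsPrim k2) :
    ‖Gh 0 (d * k1) * conj (Gh 0 (d * k2))‖ ≤ if k1 = 1 ∧ k2 = 1 then 1 else 0 := by
  have key : ∀ k : Eis, IsPrim k → k ≠ 1 → Gh 0 (d * k) = 0 := by
    intro k hk hne
    apply Gh_zero (hd.mul hk)
    intro hc
    apply hne
    have := eq_one_of_cop_zero (hd.mul hk) hc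
    exact isPrim_eq_one_of_isUnit hk (IsUnit.of_mul_eq_one d (by rw [mul_comm]; exact this))
  by_cases a : k1 = 1
  · by_cases b : k2 = 1
    · rw [if_pos ⟨a, b⟩, norm_mul, RCLike.norm_conj]
      exact mul_le_one₀ (norm_Gh_le (hd.mul h1)) (norm_nonneg _) (norm_Gh_le (hd.mul h2))
    · rw [if_neg (fun h => b h.2), key k2 h2 b]
      simp
  · rw [if_neg (fun h => a h.1), key k1 h1 a]
    simp

lemma U_zero_one (e : Eis) : U e 0 1 = 1 := by
  rw [← Ue_eq syG isPrim_one]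
  unfold Ue
  rw [sy_one_right', sy_one_right', G_one', nm_one]
  simp

lemma U_zero {e k : Eis} (hk : IsPrim k) (hne : k ≠ 1) : U e 0 k = 0 := by
  unfold U
  rw [(syG.eq_zero 0 k hk).2 (fun hc => hne (eq_one_of_cop_zero hk hc))]
  simp

open Classical in
lemma norm_Psi_H0_le {L : ℝ} (hL : 0 < L) {d k1 k2 : Eis} (hd : IsPrim d) (h1 : IsPrim k1)
    (h2 : IsPrim k2) :
    ‖Psi L H0 d k1 k2‖ ≤ if k1 = 1 ∧ k2 = 1 then 2 * Real.pi * L / Real.sqrt 3 else 0 := by
  have e1 : ∀ e : Eis, (∑' h : Eis, if H0 e h then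
      ((Real.exp (-(4 * Real.pi ^ 2 * L * nm h) / (3 * nm e * nm k1 * nm k2)) : ℝ) : ℂ) *
        (U e h k1 * conj (U e h k2)) else 0) = U e 0 k1 * conj (U e 0 k2) := by
    intro e
    rw [tsum_eq_single 0]
    · rw [if_pos (show H0 e 0 from rfl), nm_eq_zero.2 rfl]
      simp
    · intro b hb
      rw [if_neg (show ¬ H0 e b from hb)]
  by_cases a : k1 = 1
  · by_cases b : k2 = 1
    · rw [if_pos ⟨a, b⟩]
      subst a b
      unfold Psi
      have e2 : ∀ e ∈ pdiv d, (mu e : ℂ) * (((2 * Real.pi * L / (Real.sqrt 3 * nm e) : ℝ) : ℂ) *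
          ∑' h : Eis, if H0 e h then
            ((Real.exp (-(4 * Real.pi ^ 2 * L * nm h) / (3 * nm e * nm (1 : Eis) *
              nm (1 : Eis))) : ℝ) : ℂ) * (U e h 1 * conj (U e h 1)) else 0) =
          (((mu e : ℝ) * (1 / (nm e : ℝ)) * (2 * Real.pi * L / Real.sqrt 3) : ℝ) : ℂ) := by
        intro e he
        rw [e1, U_zero_one]
        have he' := (mem_pdiv hd.ne_zero).1 he
        have hne : (nm e : ℂ) ≠ 0 := by exact_mod_cast (nm_pos.2 he'.1.ne_zero).ne'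
        have h3 : ((Real.sqrt 3 : ℝ) : ℂ) ≠ 0 := by
          exact_mod_cast (Real.sqrt_pos.2 (by norm_num : (0:ℝ) < 3)).ne'
        push_cast
        simp only [map_one, mul_one]
        field_simp
      rw [Finset.sum_congr rfl e2, ← Complex.ofReal_sum, ← Finset.sum_mul,
        ← PE_eq_sum hd.ne_zero, Complex.norm_real, Real.norm_of_nonneg]
      · have := PE_le_one d
        have hpi := Real.pi_pos
        exact mul_le_of_le_one_left (by positivity) this
      · have := PE_pos d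
        have hpi := Real.pi_pos
        positivity
    · rw [if_neg (fun h => b h.2)]
      unfold Psi
      simp only [e1, U_zero h2 b, map_zero, mul_zero, Finset.sum_const_zero, norm_zero, le_refl]
  · rw [if_neg (fun h => a h.1)]
    unfold Psi
    simp only [e1, U_zero h1 a, zero_mul, mul_zero, Finset.sum_const_zero, norm_zero, le_refl]

/-- **the norm bound** -/
theorem norm_TG_Dk_le {X L : ℝ} (hX : 1 ≤ X) (hL : 1 ≤ L) {d : Eis} (hd : d ∈ S X) (w : Eis → ℂ) :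
    ‖TG (wL L) Dk X w d‖ ≤
      ‖CCH (1 / (Real.pi * L)) (PX X) (cs (wc w) X) (pp d) (fun E l => Hn d (pr E) l)‖ +
      (2 * Real.pi / Real.sqrt 3 + 1) * L * ‖w d‖ ^ 2 +
      ‖cpS X (ws w X) (ws w X) d (fun k1 k2 =>
        G (d * k1) * conj (G (d * k2)) * conj (Psi L (Hc d) d k1 k2) - (pC : ℂ) ^ 2 *
          ∑' h : Eis, (wL L h : ℂ) * (Bk h (d * k1) * conj (Bk h (d * k2))))‖ +
      2 * pC * ‖CrossG X L w d‖ := by
  have hX0 : (0 : ℝ) ≤ X := by linarith
  have hL0 : (0 : ℝ) < L := by linarith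
  have hd' := (mem_S hX0).1 hd
  have hpi := Real.pi_pos
  have h3 : 0 < Real.sqrt 3 := by positivity
  rw [TG_Dk hX0 hL0 hd w]
  have b1 : ‖cpS X (ws w X) (ws w X) d (fun k1 k2 =>
        G (d * k1) * conj (G (d * k2)) * conj (Psi L H0 d k1 k2))‖ ≤
      2 * Real.pi * L / Real.sqrt 3 * ‖w d‖ ^ 2 := by
    refine norm_cpS_diag hX w hd (by positivity) (fun k1 k2 h1 h2 a1 a2 => ?_)
    have h1' := (mem_S hX0).1 h1
    have h2' := (mem_S hX0).1 h2
    have n1 := (mem_S hX0).1 (ws_ne a1)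
    have n2 := (mem_S hX0).1 (ws_ne a2)
    rw [norm_mul, norm_mul, RCLike.norm_conj, RCLike.norm_conj, norm_G_one n1.2.1 n1.2.2,
      norm_G_one n2.2.1 n2.2.2, one_mul, one_mul]
    exact norm_Psi_H0_le hL0 hd'.2.1 h1'.2.1 h2'.2.1
  have b2 : ‖cpS X (ws w X) (ws w X) d (fun k1 k2 => Gh 0 (d * k1) * conj (Gh 0 (d * k2)))‖ ≤
      1 * ‖w d‖ ^ 2 := by
    refine norm_cpS_diag hX w hd zero_le_one (fun k1 k2 h1 h2 _ _ => ?_)
    exact norm_Z0_le hd'.2.1 ((mem_S hX0).1 h1).2.1 ((mem_S hX0).1 h2).2.1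
  have b3 : ‖(pC : ℂ) * conj (CrossG X L w d)‖ = pC * ‖CrossG X L w d‖ := by
    rw [norm_mul, RCLike.norm_conj, Complex.norm_real, Real.norm_of_nonneg pC_pos.le]
  have b4 : ‖(pC : ℂ) * CrossG X L w d‖ = pC * ‖CrossG X L w d‖ := by
    rw [norm_mul, Complex.norm_real, Real.norm_of_nonneg pC_pos.le]
  refine (norm_sub_le _ _).trans ?_
  rw [b4]
  refine (add_le_add_left (norm_sub_le _ _) _).trans ?_
  rw [b3]
  refine (add_le_add_left (add_le_add_left (norm_add_le _ _) _) _).trans ?_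
  refine (add_le_add_left (add_le_add_left (add_le_add_left (norm_sub_le _ _) _) _) _).trans ?_
  refine (add_le_add_left (add_le_add_left (add_le_add_left (add_le_add_left
    (norm_add_le _ _) _) _) _) _).trans ?_
  rw [RCLike.norm_conj]
  have b5 : 2 * Real.pi * L / Real.sqrt 3 * ‖w d‖ ^ 2 + 1 * ‖w d‖ ^ 2 ≤
      (2 * Real.pi / Real.sqrt 3 + 1) * L * ‖w d‖ ^ 2 := by
    have e : (2 * Real.pi / Real.sqrt 3 + 1) * L * ‖w d‖ ^ 2 =
      2 * Real.pi * L / Real.sqrt 3 * ‖w d‖ ^ 2 + L * ‖w d‖ ^ 2 := by ring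
    rw [e]
    gcongr
  linarith

end Crest.Agent.R017.PX5
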