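import Crest.Agent.R017.PX5j_241

/-!
# Row 17, exceptional class, rule (P'_ex), part k (helper241): summation of the errors

* `pair_part_le` : the cubes and the bias of all pairs, summed over the gcds
-/

set_option autoImplicit false

noncomputable section

namespace Crest.Agent.R017.PX5

open Crest.Agent.R012 MeasureTheory
open Eis CharSum852 Gauss880 Tau671 Mob705 LS2 CR2 MelSep811 DualIneq811
open Crest.Agent.R017.PA842 Crest.Agent.R017.PM106 Crest.Agent.R017.PX764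
open Crest.Agent.R017.P3all283 (ft3 c0 P3all_one summable_ft3)
open Div277 (tau tau_le_rpow tau_mul_le one_le_tau)
open scoped ComplexConjugate

lemma log_le' {ε : ℝ} (hε : 0 < ε) {x : ℝ} (hx : 1 ≤ x) :
    1 + Real.log (1 + x) ≤ (1 + 2 ^ ε / ε) * x ^ ε := by
  have h1 : Real.log (1 + x) ≤ (1 + x) ^ ε / ε := Real.log_le_rpow_div (by linarith) hε
  have h2 : (1 + x) ^ ε ≤ (2 * x) ^ ε := Real.rpow_le_rpow (by linarith) (by linarith) hε.le
  rw [Real.mul_rpow (by norm_num) (by linarith)] at h2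
  have h3 : 1 ≤ x ^ ε := Real.one_le_rpow hx hε.le
  have h4 : (1 + x) ^ ε / ε ≤ 2 ^ ε * x ^ ε / ε := by gcongr
  calc 1 + Real.log (1 + x) ≤ x ^ ε + 2 ^ ε * x ^ ε / ε := by linarith
    _ = _ := by ring

lemma sum_inv_S {ε : ℝ} (hε : 0 < ε) : ∃ C : ℝ, 1 ≤ C ∧ ∀ X : ℝ, 1 ≤ X →
    ∑ k ∈ S X, (1 : ℝ) / nm k ≤ C * X ^ ε := by
  refine ⟨100 * (1 + 2 ^ ε / ε), ?_, ?_⟩
  · have : 0 ≤ 2 ^ ε / ε := by positivity
    linarith
  intro X hX
  have hX0 : (0 : ℝ) ≤ X := by linarith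
  have h1 : ∑ k ∈ S X, (1 : ℝ) / nm k ≤ ∑ k ∈ Mob705.pb X, (1 : ℝ) / nm k := by
    refine Finset.sum_le_sum_of_subset_of_nonneg ?_ (fun _ _ _ => by positivity)
    intro k hk
    have hk' := (mem_S hX0).1 hk
    exact Mob705.mem_pb.2 ⟨hk'.1, hk'.2.1⟩
  refine h1.trans ((Mob705.sum_inv_nm_le hX0).trans ?_)
  have := log_le' hε hX
  linarith

/-- `∑_d ∑_k |w (d k)|²` -/
lemma sum_Wd {X : ℝ} (hX : 1 ≤ X) (w : Eis → ℂ) :
    ∑ d ∈ S X, ∑ k ∈ S X, ‖ws w X (d * k)‖ ^ 2 ≤ ∑ g ∈ S X, (tau g : ℝ) * ‖w g‖ ^ 2 := by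
  classical
  have hX0 : (0 : ℝ) ≤ X := by linarith
  have h := sum_pairs_le (Y := 0) hX0 (fun g => ‖w g‖ ^ 2) (fun g => by positivity)
  have e1 : (S X).filter (fun d => (0 : ℝ) < (nm d : ℝ)) = S X := by
    apply Finset.filter_true_of_mem
    intro d hd
    exact_mod_cast nm_pos.2 ((mem_S hX0).1 hd).2.1.ne_zero
  rw [e1] at h
  refine le_trans (le_of_eq ?_) h
  refine Finset.sum_congr rfl fun d _ => ?_
  rw [Finset.sum_filter]
  refine Finset.sum_congr rfl fun k _ => ?_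
  unfold ws
  split_ifs
  · rfl
  · simp

/-- Cauchy-Schwarz for a product bound -/
lemma pair_cs (X : ℝ) (a : Eis → ℝ) (g : Eis → ℝ) (c : ℝ) (hc : 0 ≤ c) :
    ∑ k1 ∈ S X, ∑ k2 ∈ S X, a k1 * a k2 * (c * (g k1 * g k2)) ≤
      c * ((∑ k ∈ S X, a k ^ 2) * ∑ k ∈ S X, g k ^ 2) := by
  have e1 : ∑ k1 ∈ S X, ∑ k2 ∈ S X, a k1 * a k2 * (c * (g k1 * g k2)) =
      c * (∑ k ∈ S X, a k * g k) ^ 2 := by
    rw [pow_two, Finset.sum_mul_sum, Finset.mul_sum]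
    refine Finset.sum_congr rfl fun k1 _ => ?_
    rw [Finset.mul_sum]
    refine Finset.sum_congr rfl fun k2 _ => ?_
    ring
  rw [e1]
  exact mul_le_mul_of_nonneg_left (Finset.sum_mul_sq_le_sq_mul_sq _ _ _) hc

lemma n2_sq (k : Eis) : n2 k ^ 2 = 1 / (nm k : ℝ) := by
  unfold n2
  rw [← Real.rpow_natCast, ← Real.rpow_mul (Nat.cast_nonneg _)]
  norm_num
  rw [Real.rpow_neg_one]

lemma n6_sq_le {X : ℝ} {k : Eis} (hk : k ≠ 0) (hX : (nm k : ℝ) ≤ X) :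
    n6 k ^ 2 ≤ X ^ ((2 : ℝ) / 3) * (1 / (nm k : ℝ)) := by
  have hn : (0 : ℝ) < nm k := by exact_mod_cast nm_pos.2 hk
  have e1 : n6 k ^ 2 = (nm k : ℝ) ^ ((2 : ℝ) / 3) * (1 / (nm k : ℝ)) := by
    unfold n6
    rw [← Real.rpow_natCast, ← Real.rpow_mul hn.le, one_div, ← Real.rpow_neg_one,
      ← Real.rpow_add hn]
    norm_num
  rw [e1]
  gcongr

lemma geo_le {X L : ℝ} (hX : 0 ≤ X) (hL : 0 ≤ L) :
    X ^ ((2 : ℝ) / 3) * L ^ ((1 : ℝ) / 3) ≤ X + L := by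
  have h1 : X ^ ((2 : ℝ) / 3) ≤ (X + L) ^ ((2 : ℝ) / 3) :=
    Real.rpow_le_rpow hX (by linarith) (by norm_num)
  have h2 : L ^ ((1 : ℝ) / 3) ≤ (X + L) ^ ((1 : ℝ) / 3) :=
    Real.rpow_le_rpow hL (by linarith) (by norm_num)
  calc _ ≤ (X + L) ^ ((2 : ℝ) / 3) * (X + L) ^ ((1 : ℝ) / 3) :=
        mul_le_mul h1 h2 (by positivity) (by positivity)
    _ = X + L := by
      rcases eq_or_lt_of_le (add_nonneg hX hL) with h | h
      · rw [← h]; simp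
      · rw [← Real.rpow_add h]
        norm_num

/-- the sum over the pairs with gcd `d` -/
lemma sum_pair_d {X L H : ℝ} (hX : 1 ≤ X) (hL : 1 ≤ L) (hH : ∑ k ∈ S X, (1 : ℝ) / nm k ≤ H)
    (w : Eis → ℂ) (d : Eis) {A : ℝ} (hA : 0 ≤ A) :
    ∑ k1 ∈ S X, ∑ k2 ∈ S X, ‖ws w X (d * k1)‖ * ‖ws w X (d * k2)‖ *
      (A * (L * (n2 k1 * n2 k2) + n6 k1 * n6 k2 * L ^ ((1 : ℝ) / 3))) ≤
      2 * A * H * (X + L) * ∑ k ∈ S X, ‖ws w X (d * k)‖ ^ 2 := by
  have hX0 : (0 : ℝ) ≤ X := by linarith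
  have hL0 : (0 : ℝ) ≤ L := by linarith
  set W := ∑ k ∈ S X, ‖ws w X (d * k)‖ ^ 2 with hW
  have hW0 : 0 ≤ W := Finset.sum_nonneg fun _ _ => by positivity
  have hS0 : 0 ≤ ∑ k ∈ S X, (1 : ℝ) / nm k := Finset.sum_nonneg fun _ _ => by positivity
  have hH0 : 0 ≤ H := hS0.trans hH
  have e1 : ∀ k1 k2 : Eis, ‖ws w X (d * k1)‖ * ‖ws w X (d * k2)‖ *
      (A * (L * (n2 k1 * n2 k2) + n6 k1 * n6 k2 * L ^ ((1 : ℝ) / 3))) =
      ‖ws w X (d * k1)‖ * ‖ws w X (d * k2)‖ * ((A * L) * (n2 k1 * n2 k2)) +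
      ‖ws w X (d * k1)‖ * ‖ws w X (d * k2)‖ * ((A * L ^ ((1 : ℝ) / 3)) * (n6 k1 * n6 k2)) := by
    intro k1 k2; ring
  simp_rw [e1, Finset.sum_add_distrib]
  have b1 := pair_cs X (fun k => ‖ws w X (d * k)‖) n2 (A * L) (by positivity)
  have b2 := pair_cs X (fun k => ‖ws w X (d * k)‖) n6 (A * L ^ ((1 : ℝ) / 3)) (by positivity)
  have c1 : ∑ k ∈ S X, n2 k ^ 2 ≤ H := by
    rw [Finset.sum_congr rfl fun k _ => n2_sq k]
    exact hH
  have c2 : ∑ k ∈ S X, n6 k ^ 2 ≤ X ^ ((2 : ℝ) / 3) * H := by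
    calc _ ≤ ∑ k ∈ S X, X ^ ((2 : ℝ) / 3) * (1 / (nm k : ℝ)) := by
          refine Finset.sum_le_sum fun k hk => ?_
          have hk' := (mem_S hX0).1 hk
          exact n6_sq_le hk'.2.1.ne_zero hk'.1
      _ = X ^ ((2 : ℝ) / 3) * ∑ k ∈ S X, 1 / (nm k : ℝ) := by rw [Finset.mul_sum]
      _ ≤ _ := by gcongr
  have d1 : A * L * (W * ∑ k ∈ S X, n2 k ^ 2) ≤ A * H * (X + L) * W := by
    calc _ ≤ A * L * (W * H) := by gcongr
      _ = A * H * L * W := by ring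
      _ ≤ A * H * (X + L) * W := by
        have : L ≤ X + L := by linarith
        gcongr
  have d2 : A * L ^ ((1 : ℝ) / 3) * (W * ∑ k ∈ S X, n6 k ^ 2) ≤ A * H * (X + L) * W := by
    calc _ ≤ A * L ^ ((1 : ℝ) / 3) * (W * (X ^ ((2 : ℝ) / 3) * H)) := by gcongr
      _ = A * H * (X ^ ((2 : ℝ) / 3) * L ^ ((1 : ℝ) / 3)) * W := by ring
      _ ≤ _ := by
        have := geo_le hX0 hL0
        gcongr
  calc _ ≤ A * H * (X + L) * W + A * H * (X + L) * W :=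
        add_le_add (b1.trans d1) (b2.trans d2)
    _ = _ := by ring

/-- the pair part of the gcd `d` -/
def PP (X L : ℝ) (w : Eis → ℂ) (d : Eis) : ℂ :=
  cpS X (ws w X) (ws w X) d (fun k1 k2 =>
    G (d * k1) * conj (G (d * k2)) * conj (Psi L (Hc d) d k1 k2) - (pC : ℂ) ^ 2 *
      ∑' h : Eis, (wL L h : ℂ) * (Bk h (d * k1) * conj (Bk h (d * k2))))

/-- **the cubes and the bias, summed** -/
theorem pair_part_le {ε : ℝ} (hε : 0 < ε) : ∃ C : ℝ, 1 ≤ C ∧ ∀ X L : ℝ, 1 ≤ X → 1 ≤ L →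
    ∀ w : Eis → ℂ, ∑ d ∈ S X, ‖PP X L w d‖ ≤
      C * (X * L) ^ ε * (X + L) * ∑ h ∈ S X, ‖w h‖ ^ 2 := by
  obtain ⟨C1, k, hC1, HP⟩ := pair_err
  set η : ℝ := ε / (2 * k + 4) with hη
  have hk4 : (0 : ℝ) < 2 * k + 4 := by positivity
  have hη0 : 0 < η := by positivity
  obtain ⟨Ct, hCt, Ht⟩ := tau_le_rpow hη0
  obtain ⟨Cs, hCs, Hs⟩ := sum_inv_S hη0
  set Cl : ℝ := 1 + 2 ^ η / η with hCl
  have hCl0 : 1 ≤ Cl := by
    have : 0 ≤ 2 ^ η / η := by positivity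
    linarith
  have hCt0 : 0 < Ct := by linarith
  have hCs0 : 0 < Cs := by linarith
  refine ⟨1 + 2 * (C1 * (Ct ^ (2 * k + 2) * Cl)) * Cs * Ct, by
    have : 0 ≤ 2 * (C1 * (Ct ^ (2 * k + 2) * Cl)) * Cs * Ct := by positivity
    linarith, ?_⟩
  intro X L hX hL w
  have hX0 : (0 : ℝ) ≤ X := by linarith
  have hL0 : (0 : ℝ) < L := by linarith
  have hXp : (0 : ℝ) < X := by linarith
  have hXη : 1 ≤ X ^ η := Real.one_le_rpow hX hη0.le
  have hLη : 1 ≤ L ^ η := Real.one_le_rpow hL hη0.le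
  have htau : ∀ n ∈ S X, (tau n : ℝ) ≤ Ct * X ^ η := by
    intro n hn
    have hn' := (mem_S hX0).1 hn
    refine (Ht n hn'.2.1.ne_zero).trans ?_
    have h1 : (nm n : ℝ) ^ η ≤ X ^ η := Real.rpow_le_rpow (Nat.cast_nonneg _) hn'.1 hη0.le
    gcongr
  have hT1 : 1 ≤ Ct * X ^ η := one_le_mul_of_one_le_of_one_le hCt hXη
  set Tm : ℝ := Ct * X ^ η with hTm
  -- the uniform pair bound
  set A : ℝ := C1 * (Tm ^ (2 * k + 2) * (Cl * L ^ η)) with hA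
  have hA0 : 0 ≤ A := by positivity
  have hpair : ∀ d ∈ S X, ‖PP X L w d‖ ≤ 2 * A * (Cs * X ^ η) * (X + L) *
      ∑ k ∈ S X, ‖ws w X (d * k)‖ ^ 2 := by
    intro d hd
    have hd' := (mem_S hX0).1 hd
    refine le_trans ?_ (sum_pair_d hX hL (Hs X hX) w d hA0)
    unfold PP
    refine norm_cpS_le (fun k1 k2 h1 h2 hc a1 a2 => ?_) (fun k1 k2 h1 h2 => ?_)
    · have h1' := (mem_S hX0).1 h1
      have h2' := (mem_S hX0).1 h2
      have m1 := (mem_S hX0).1 (ws_ne a1)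
      have m2 := (mem_S hX0).1 (ws_ne a2)
      have c1 : IsCoprime d k1 := cop_of_sqf hd'.2.1 m1.2.2
      have c2 : IsCoprime d k2 := cop_of_sqf hd'.2.1 m2.2.2
      rw [Psi_Hc_G hL0 hd'.2.1 hd'.2.2 h1'.2.1 h2'.2.1 h1'.2.2 h2'.2.2 c1 c2,
        Bsum m1.2.2 m2.2.2]
      have e1 : (cubR L d k1 k2 : ℂ) - (pC : ℂ) ^ 2 *
          ((n6 (d * k1) * n6 (d * k2) * ∑' h : Eis, ft3 1 L (d * k1 * k2) h : ℝ) : ℂ) =
          ((cubR L d k1 k2 - pC ^ 2 *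
            (n6 (d * k1) * n6 (d * k2) * ∑' h : Eis, ft3 1 L (d * k1 * k2) h) : ℝ) : ℂ) := by
        push_cast; ring
      rw [e1, Complex.norm_real, Real.norm_eq_abs]
      refine (HP L d k1 k2 hL hd'.2.1 h1'.2.1 h2'.2.1 c1 c2).trans ?_
      have t1 : (tau (k1 * k2) : ℝ) ≤ Tm ^ 2 := by
        calc (tau (k1 * k2) : ℝ) ≤ (tau k1 : ℝ) * tau k2 := by exact_mod_cast tau_mul_le _ _
          _ ≤ Tm * Tm := mul_le_mul (htau _ h1) (htau _ h2) (Nat.cast_nonneg _) (by positivity)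
          _ = Tm ^ 2 := by ring
      have t2 : (tau (d * k1 * k2) : ℝ) ≤ Tm ^ 2 := by
        calc (tau (d * k1 * k2) : ℝ) ≤ (tau (d * k1) : ℝ) * tau k2 := by
              exact_mod_cast tau_mul_le _ _
          _ ≤ Tm * Tm := mul_le_mul (htau _ (ws_ne a1)) (htau _ h2) (Nat.cast_nonneg _)
              (by positivity)
          _ = Tm ^ 2 := by ring
      have t3 : (tau (d * k1 * k2) : ℝ) ^ k ≤ Tm ^ (2 * k + 2) := by
        calc (tau (d * k1 * k2) : ℝ) ^ k ≤ (Tm ^ 2) ^ k := by gcongr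
          _ = Tm ^ (2 * k) := by rw [pow_mul]
          _ ≤ Tm ^ (2 * k + 2) := pow_le_pow_right₀ hT1 (by omega)
      have t4 : (tau (k1 * k2) : ℝ) ≤ Tm ^ (2 * k + 2) :=
        t1.trans (pow_le_pow_right₀ hT1 (by omega))
      have t5 : 1 + Real.log (1 + L) ≤ Cl * L ^ η := log_le' hη0 hL
      have t6 : 1 ≤ Cl * L ^ η := one_le_mul_of_one_le_of_one_le hCl0 hLη
      have nn1 : 0 ≤ L * (n2 k1 * n2 k2) := by
        have := n2_nonneg k1
        have := n2_nonneg k2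
        positivity
      have nn2 : 0 ≤ n6 k1 * n6 k2 * L ^ ((1 : ℝ) / 3) := by
        have := n6_pos h1'.2.1.ne_zero
        have := n6_pos h2'.2.1.ne_zero
        positivity
      have hlog : 0 ≤ 1 + Real.log (1 + L) := by
        have := Real.log_nonneg (show (1 : ℝ) ≤ 1 + L by linarith)
        linarith
      have u1 : L * (n2 k1 * n2 k2) * (tau (k1 * k2) : ℝ) ≤
          (Tm ^ (2 * k + 2) * (Cl * L ^ η)) * (L * (n2 k1 * n2 k2)) := by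
        rw [mul_comm]
        apply mul_le_mul_of_nonneg_right _ nn1
        calc (tau (k1 * k2) : ℝ) ≤ Tm ^ (2 * k + 2) * 1 := by rw [mul_one]; exact t4
          _ ≤ _ := by gcongr
      have u2 : n6 k1 * n6 k2 * (tau (d * k1 * k2) : ℝ) ^ k * L ^ ((1 : ℝ) / 3) *
          (1 + Real.log (1 + L)) ≤
          (Tm ^ (2 * k + 2) * (Cl * L ^ η)) * (n6 k1 * n6 k2 * L ^ ((1 : ℝ) / 3)) := by
        calc _ = ((tau (d * k1 * k2) : ℝ) ^ k * (1 + Real.log (1 + L))) *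
              (n6 k1 * n6 k2 * L ^ ((1 : ℝ) / 3)) := by ring
          _ ≤ _ := by
            apply mul_le_mul_of_nonneg_right _ nn2
            exact mul_le_mul t3 t5 hlog (by positivity)
      calc _ ≤ C1 * ((Tm ^ (2 * k + 2) * (Cl * L ^ η)) * (L * (n2 k1 * n2 k2)) +
            (Tm ^ (2 * k + 2) * (Cl * L ^ η)) * (n6 k1 * n6 k2 * L ^ ((1 : ℝ) / 3))) :=
            mul_le_mul_of_nonneg_left (add_le_add u1 u2) hC1
        _ = _ := by rw [hA]; ring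
    · have h1' := (mem_S hX0).1 h1
      have h2' := (mem_S hX0).1 h2
      have := n6_pos h1'.2.1.ne_zero
      have := n6_pos h2'.2.1.ne_zero
      have := n2_nonneg k1
      have := n2_nonneg k2
      positivity
  -- the sum over `d`
  set W := ∑ h ∈ S X, ‖w h‖ ^ 2 with hW
  have hW0 : 0 ≤ W := Finset.sum_nonneg fun _ _ => by positivity
  have hsum : ∑ d ∈ S X, ∑ k ∈ S X, ‖ws w X (d * k)‖ ^ 2 ≤ Tm * W := by
    refine (sum_Wd hX w).trans ?_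
    rw [hW, Finset.mul_sum]
    refine Finset.sum_le_sum fun g hg => ?_
    exact mul_le_mul_of_nonneg_right (htau g hg) (by positivity)
  calc ∑ d ∈ S X, ‖PP X L w d‖ ≤ ∑ d ∈ S X, 2 * A * (Cs * X ^ η) * (X + L) *
        ∑ k ∈ S X, ‖ws w X (d * k)‖ ^ 2 := Finset.sum_le_sum hpair
    _ = 2 * A * (Cs * X ^ η) * (X + L) * ∑ d ∈ S X, ∑ k ∈ S X, ‖ws w X (d * k)‖ ^ 2 := by
        rw [Finset.mul_sum]
    _ ≤ 2 * A * (Cs * X ^ η) * (X + L) * (Tm * W) := by gcongr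
    _ = (2 * (C1 * (Ct ^ (2 * k + 2) * Cl)) * Cs * Ct) *
        ((X ^ η) ^ (2 * k + 4) * L ^ η) * (X + L) * W := by
        rw [hA, hTm, mul_pow]
        ring
    _ ≤ (2 * (C1 * (Ct ^ (2 * k + 2) * Cl)) * Cs * Ct) * (X * L) ^ ε * (X + L) * W := by
        have e1 : (X ^ η) ^ (2 * k + 4) * L ^ η ≤ (X * L) ^ ε := by
          rw [Real.mul_rpow hX0 hL0.le, ← Real.rpow_natCast, ← Real.rpow_mul hX0]
          have e2 : η * ((2 * k + 4 : ℕ) : ℝ) = ε := by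
            rw [hη]
            push_cast
            field_simp
          rw [e2]
          have e3 : η ≤ ε := by
            rw [hη]
            apply div_le_self hε.le
            have : (0 : ℝ) ≤ 2 * k := by positivity
            linarith
          have e4 : L ^ η ≤ L ^ ε := Real.rpow_le_rpow_of_exponent_le hL e3
          gcongr
        gcongr
    _ ≤ _ := by
        have hXL : 0 ≤ (X * L) ^ ε * (X + L) * W := by positivity
        nlinarith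

end Crest.Agent.R017.PX5
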