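import Crest.Agent.R017.PX5k_241

/-!
# Row 17, exceptional class, rule (P'_ex) (helper241): one step of the corrected Gauss side

* `one_step_exG`
-/

set_option autoImplicit false

noncomputable section

namespace Crest.Agent.R017.PX5

open Crest.Agent.R012 MeasureTheory
open Eis CharSum852 Gauss880 Tau671 Mob705 LS2 CR2 MelSep811 DualIneq811
open Crest.Agent.R017.PA842 Crest.Agent.R017.PM106 Crest.Agent.R017.PX764
open Div277 (tau)
open scoped ComplexConjugate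

open Classical in
/-- **(P'_ex), one step.** -/
theorem one_step_exG {M : ℕ} (hM : 1 ≤ M) {σ ε : ℝ} (hσ : 0 < σ) (hσ1 : σ ≤ 1 / 2) (hε : 0 < ε) :
    ∃ C : ℝ, 1 ≤ C ∧ ∀ X L Y : ℝ, 1 ≤ X → 1 ≤ L → ∀ w : Eis → ℂ, Supp w X →
    VR X L w ≤ C * (X * L) ^ ε * (X + L) * ∑ h ∈ S X, ‖w h‖ ^ 2 +
      C * X ^ (3 * σ) * ∑ d ∈ (S X).filter (fun d => (nm d : ℝ) ≤ Y),
        ∑ e ∈ (S X).filter (· ∣ d), ∑ f ∈ S X, L / nm f * DIC M σ w X d e f (Lde X L ε d e) +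
      2 * pC * ∑ d ∈ (S X).filter (fun d => (nm d : ℝ) ≤ Y), ‖CrossG X L w d‖ +
      ∑ g ∈ (S X).filter (fun g => Y < (nm g : ℝ)),
        (tau g : ℝ) * VR (X / nm g) (L * nm g) (sub w g) := by
  obtain ⟨C1, hC1, H1⟩ := nc_le hM hσ hσ1 hε
  obtain ⟨C2, hC2, H2⟩ := pair_part_le hε
  have hpi := Real.pi_pos
  have h3 : 0 < Real.sqrt 3 := by positivity
  set κ : ℝ := 2 * Real.pi / Real.sqrt 3 + 1 with hκ
  have hκ0 : 0 < κ := by positivity
  refine ⟨C1 + C2 + κ, by linarith, ?_⟩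
  intro X L Y hX hL w hw
  have hX0 : (0 : ℝ) ≤ X := by linarith
  have hL0 : (0 : ℝ) < L := by linarith
  set A := (S X).filter (fun d => (nm d : ℝ) ≤ Y) with hA
  set B := (S X).filter (fun d => Y < (nm d : ℝ)) with hB
  set W := ∑ h ∈ S X, ‖w h‖ ^ 2 with hW
  have hW0 : 0 ≤ W := Finset.sum_nonneg fun _ _ => by positivity
  have hAS : A ⊆ S X := Finset.filter_subset _ _
  -- the decomposition
  have e1 : VR X L w ≤ ∑ d ∈ A, ‖TG (wL L) Dk X w d‖ + ∑ d ∈ B, ‖TG (wL L) Dk X w d‖ := by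
    have e2 := GV_eq_sum_TG (KH_Dk hL0) hX0 w
    rw [← VR_eq_GV] at e2
    have e3 : VR X L w = ‖((VR X L w : ℝ) : ℂ)‖ := by
      rw [Complex.norm_real, Real.norm_of_nonneg (VR_nonneg hL0 X w)]
    rw [e3, e2]
    refine (norm_sum_le _ _).trans (le_of_eq ?_)
    have e4 : B = (S X).filter (fun d => ¬ (nm d : ℝ) ≤ Y) := by
      rw [hB]
      congr 1
      funext d
      rw [not_le]
    rw [e4, hA]
    exact (Finset.sum_filter_add_sum_filter_not _ _ _).symm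
  -- large gcds
  have eB : ∑ d ∈ B, ‖TG (wL L) Dk X w d‖ ≤
      ∑ g ∈ B, (tau g : ℝ) * VR (X / nm g) (L * nm g) (sub w g) := by
    have b1 : ∑ d ∈ B, ‖TG (wL L) Dk X w d‖ ≤
        ∑ d ∈ B, ∑ f ∈ (S X).filter (fun f => d * f ∈ S X), VR X L (restr w (d * f)) := by
      refine Finset.sum_le_sum fun d hd => ?_
      have := norm_TG_le (KH_Dk hL0) hX0 w (Finset.mem_filter.1 hd).1
      simpa only [VR_eq_GV] using this
    refine b1.trans ((sum_pairs_le (Y := Y) hX0 (fun g => VR X L (restr w g))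
      (fun g => VR_nonneg hL0 _ _)).trans ?_)
    refine Finset.sum_le_sum fun g hg => ?_
    have hg' := (mem_S hX0).1 (Finset.mem_filter.1 hg).1
    exact mul_le_mul_of_nonneg_left (VR_restr_le hX0 hL0 hw hg'.2.1 hg'.2.2) (Nat.cast_nonneg _)
  -- small gcds
  have eA : ∑ d ∈ A, ‖TG (wL L) Dk X w d‖ ≤
      ∑ d ∈ A, ‖CCH (1 / (Real.pi * L)) (PX X) (cs (wc w) X) (pp d)
        (fun E l => Hn d (pr E) l)‖ + κ * L * W + ∑ d ∈ A, ‖PP X L w d‖ +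
      2 * pC * ∑ d ∈ A, ‖CrossG X L w d‖ := by
    have b1 : ∑ d ∈ A, ‖TG (wL L) Dk X w d‖ ≤ ∑ d ∈ A,
        (‖CCH (1 / (Real.pi * L)) (PX X) (cs (wc w) X) (pp d) (fun E l => Hn d (pr E) l)‖ +
        κ * L * ‖w d‖ ^ 2 + ‖PP X L w d‖ + 2 * pC * ‖CrossG X L w d‖) :=
      Finset.sum_le_sum fun d hd => norm_TG_Dk_le hX hL (hAS hd) w
    refine b1.trans ?_
    rw [Finset.sum_add_distrib, Finset.sum_add_distrib, Finset.sum_add_distrib, ← Finset.mul_sum,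
      ← Finset.mul_sum]
    have b2 : ∑ d ∈ A, ‖w d‖ ^ 2 ≤ W :=
      Finset.sum_le_sum_of_subset_of_nonneg hAS (fun _ _ _ => by positivity)
    have b3 : κ * L * ∑ d ∈ A, ‖w d‖ ^ 2 ≤ κ * L * W := by gcongr
    linarith
  have eP : ∑ d ∈ A, ‖PP X L w d‖ ≤ C2 * (X * L) ^ ε * (X + L) * W :=
    (Finset.sum_le_sum_of_subset_of_nonneg hAS (fun _ _ _ => norm_nonneg _)).trans (H2 X L hX hL w)
  have eN := H1 X L Y hX hL w hw
  set DD := ∑ d ∈ A, ∑ e ∈ (S X).filter (· ∣ d), ∑ f ∈ S X, L / nm f *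
    DIC M σ w X d e f (Lde X L ε d e) with hDD
  have hDD0 : 0 ≤ DD :=
    Finset.sum_nonneg fun d _ => Finset.sum_nonneg fun e _ => Finset.sum_nonneg fun f _ =>
      mul_nonneg (div_nonneg hL0.le (Nat.cast_nonneg _)) (DIC_nonneg _ _ _ _ _ _ _ _)
  have hXL : 1 ≤ (X * L) ^ ε := Real.one_le_rpow (one_le_mul_of_one_le_of_one_le hX hL) hε.le
  have hLXL : L * W ≤ (X * L) ^ ε * (X + L) * W := by
    have : L ≤ (X * L) ^ ε * (X + L) := by
      calc L ≤ X + L := by linarith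
        _ = 1 * (X + L) := (one_mul _).symm
        _ ≤ _ := by gcongr
    exact mul_le_mul_of_nonneg_right this hW0
  have hXs : 0 ≤ X ^ (3 * σ) := Real.rpow_nonneg hX0 _
  have f1 : C1 * L * W + κ * L * W + C2 * (X * L) ^ ε * (X + L) * W ≤
      (C1 + C2 + κ) * (X * L) ^ ε * (X + L) * W := by
    have a1 : (C1 + κ) * (L * W) ≤ (C1 + κ) * ((X * L) ^ ε * (X + L) * W) :=
      mul_le_mul_of_nonneg_left hLXL (by linarith)
    calc _ = (C1 + κ) * (L * W) + C2 * (X * L) ^ ε * (X + L) * W := by ring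
      _ ≤ (C1 + κ) * ((X * L) ^ ε * (X + L) * W) + C2 * (X * L) ^ ε * (X + L) * W := by linarith
      _ = _ := by ring
  have f2 : C1 * X ^ (3 * σ) * DD ≤ (C1 + C2 + κ) * X ^ (3 * σ) * DD := by
    have : C1 ≤ C1 + C2 + κ := by linarith
    gcongr
  calc VR X L w ≤ ∑ d ∈ A, ‖TG (wL L) Dk X w d‖ + ∑ d ∈ B, ‖TG (wL L) Dk X w d‖ := e1
    _ ≤ (∑ d ∈ A, ‖CCH (1 / (Real.pi * L)) (PX X) (cs (wc w) X) (pp d)
        (fun E l => Hn d (pr E) l)‖ + κ * L * W + ∑ d ∈ A, ‖PP X L w d‖ +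
      2 * pC * ∑ d ∈ A, ‖CrossG X L w d‖) +
      ∑ g ∈ B, (tau g : ℝ) * VR (X / nm g) (L * nm g) (sub w g) := add_le_add eA eB
    _ ≤ _ := by linarith

end Crest.Agent.R017.PX5
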