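import Crest.Agent.R017.PX5_764

/-!
# Row 17, exceptional class, part 6 (helper764): the bias-corrected dual form

* `qR` : the bias-corrected dual form of `(d, e, f)`, `qR_eq`, `norm_qR_le`, `one_defR`
* `tailR` : the tail over the frequencies
* `TDD`, `norm_TDD_le` : the bias-corrected part of the pairs with gcd `d`
-/

set_option autoImplicit false

noncomputable section

open MeasureTheory Finset
open scoped ComplexConjugate

namespace Crest.Agent.R017.PX764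

open Crest.Agent.R012 Crest.Agent.R012.Eis Crest.Agent.R012.Gauss880
open Crest.Agent.R012.LS2 Crest.Agent.R012.Mob705 Crest.Agent.R012.CR2
open Crest.Agent.R012.MelSep811
open Crest.Agent.R012.DualIneq811 (yy expo_le sum_ws_le pow_mul_exp_le nm_cpow_half pdiv_subset)
open Crest.Agent.R017.PA842 (V Supp sub restr)
open Crest.Agent.R017.Dual2813 (S_of_dvd)

/-- the bias-corrected dual form -/
def qR (w : Eis → ℂ) (X Z : ℝ) (d e f l : Eis) : ℂ :=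
  ∑ k₁ ∈ S X, ∑ k₂ ∈ S X, ws w X (d * f * k₁) * conj (ws w X (d * f * k₂)) *
    phD Z e l (f * k₁) (f * k₂)

/-- the coefficients of the dual sum -/
def betR (w : Eis → ℂ) (d e f l k : Eis) : ℂ := w (d * f * k) * Dk (fq e l * f) k

lemma dsR_eq (w : Eis → ℂ) (X : ℝ) (d e f l : Eis) (s : ℂ) :
    dsR w X d e f l s = dp (S X) (betR w d e f l) s := rfl

lemma ws_eq' {w : Eis → ℂ} {X : ℝ} (hw : Supp w X) (h : Eis) : ws w X h = w h := by
  unfold ws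
  split_ifs with h1
  · rfl
  · by_contra h2
    exact h1 (hw h (fun h3 => h2 h3.symm))

lemma nh_eq {k : Eis} (hk : IsPrim k) : ((nh k : ℝ) : ℂ) = (nm k : ℂ) ^ (-(1 / 2) : ℂ) := by
  rw [cpow_neg_half hk]; rfl

lemma nh_sq {f : Eis} (hf : f ≠ 0) : nh f ^ 2 = (nm f : ℝ)⁻¹ := by
  have hn : 0 < (nm f : ℝ) := by exact_mod_cast nm_pos.2 hf
  unfold nh
  rw [← Real.rpow_natCast, ← Real.rpow_mul hn.le]
  norm_num
  rw [Real.rpow_neg_one]

lemma wt_mul {Z : ℝ} {e f l k₁ k₂ : Eis} (he : e ≠ 0) (hf : f ≠ 0) (h₁ : k₁ ≠ 0) (h₂ : k₂ ≠ 0) :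
    wt Z e l (f * k₁) (f * k₂) =
      Real.exp (-(yy Z e f l / ((nm k₁ : ℝ) * (nm k₂ : ℝ)))) := by
  unfold wt yy
  congr 1
  have n0 : (nm e : ℝ) ≠ 0 := by exact_mod_cast (nm_pos.2 he).ne'
  have n1 : (nm f : ℝ) ≠ 0 := by exact_mod_cast (nm_pos.2 hf).ne'
  have n2 : (nm k₁ : ℝ) ≠ 0 := by exact_mod_cast (nm_pos.2 h₁).ne'
  have n3 : (nm k₂ : ℝ) ≠ 0 := by exact_mod_cast (nm_pos.2 h₂).ne'
  rw [nm_mul, nm_mul]
  push_cast
  field_simp

lemma qR_eq {X Z : ℝ} (hX : 0 ≤ X) {w : Eis → ℂ} (hw : Supp w X) {d e f : Eis}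
    (he : e ≠ 0) (hf : f ∈ S X) (l : Eis) :
    qR w X Z d e f l = ((‖Gh (fq e l) f‖ ^ 2 * nh f ^ 2 : ℝ) : ℂ) * ∑ k₁ ∈ S X, ∑ k₂ ∈ S X,
      (betR w d e f l k₁ * (nm k₁ : ℂ) ^ (-(1 / 2) : ℂ)) *
        conj (betR w d e f l k₂ * (nm k₂ : ℂ) ^ (-(1 / 2) : ℂ)) *
        ((Real.exp (-(yy Z e f l / ((nm k₁ : ℝ) * (nm k₂ : ℝ)))) : ℝ) : ℂ) := by
  unfold qR
  have hf' := (mem_S hX).1 hf
  rw [Finset.mul_sum]
  refine Finset.sum_congr rfl fun k₁ h₁ => ?_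
  rw [Finset.mul_sum]
  refine Finset.sum_congr rfl fun k₂ h₂ => ?_
  have hk₁ := (mem_S hX).1 h₁
  have hk₂ := (mem_S hX).1 h₂
  unfold phD
  rw [ws_eq' hw, ws_eq' hw, wt_mul he hf'.2.1.ne_zero hk₁.2.1.ne_zero hk₂.2.1.ne_zero,
    Dk_mul hf'.2.1 hf'.2.2 hk₁.2.1, Dk_mul hf'.2.1 hf'.2.2 hk₂.2.1, nh_mul, nh_mul,
    ← nh_eq hk₁.2.1, ← nh_eq hk₂.2.1]
  have e2 : ((‖Gh (fq e l) f‖ ^ 2 * nh f ^ 2 : ℝ) : ℂ) =
      Gh (fq e l) f * conj (Gh (fq e l) f) * (nh f : ℂ) ^ 2 := by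
    rw [Complex.mul_conj, Complex.normSq_eq_norm_sq]
    push_cast
    ring
  rw [e2]
  unfold betR
  simp only [map_mul, Complex.conj_ofReal]
  push_cast
  ring

/-- the small frequencies -/
lemma norm_qR_le {X Z σ : ℝ} (hX : 0 ≤ X) (hZ : 0 < Z) (hσ : 0 < σ) (hσ1 : σ ≤ 1) {w : Eis → ℂ}
    (hw : Supp w X) {d e f l : Eis} (he : e ≠ 0) (hf : f ∈ S X) (hl : l ≠ 0) :
    ‖qR w X Z d e f l‖ ≤ csig σ * ((nm f : ℝ)⁻¹ * (nm e * (nm f : ℝ) ^ 2 / Z) ^ σ) *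
      ∫ t : ℝ, (1 + t ^ 2)⁻¹ * ‖dsR w X d e f l (σ + t * Complex.I)‖ ^ 2 := by
  have hf' := (mem_S hX).1 hf
  have ne : (0 : ℝ) < nm e := by exact_mod_cast nm_pos.2 he
  have nf : (0 : ℝ) < nm f := by exact_mod_cast nm_pos.2 hf'.2.1.ne_zero
  have nl : (0 : ℝ) < nm l := by exact_mod_cast nm_pos.2 hl
  have nl1 : (1 : ℝ) ≤ nm l := by exact_mod_cast nm_pos.2 hl
  have hy : 0 < yy Z e f l := by unfold yy; positivity
  rw [qR_eq hX hw he hf l, norm_mul, Complex.norm_real, Real.norm_eq_abs,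
    abs_of_nonneg (by positivity)]
  have h1 := mellin_sep (S X) (betR w d e f l) (fun k hk => ((mem_S hX).1 hk).2.1.ne_zero) hσ hσ1 hy
  have h2 : yy Z e f l ^ (-σ) ≤ (nm e * (nm f : ℝ) ^ 2 / Z) ^ σ := by
    have e1 : yy Z e f l = (4 * Real.pi ^ 2 / 3 * nm l) * (nm e * (nm f : ℝ) ^ 2 / Z)⁻¹ := by
      unfold yy; field_simp
    rw [e1, Real.mul_rpow (by positivity) (by positivity), Real.inv_rpow (by positivity),
      Real.rpow_neg (x := nm e * (nm f : ℝ) ^ 2 / Z) (by positivity), inv_inv]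
    have h3 : 1 ≤ 4 * Real.pi ^ 2 / 3 * nm l := by
      have h9 : 1 ≤ 4 * Real.pi ^ 2 / 3 := by
        have := Real.pi_gt_three
        nlinarith
      exact one_le_mul_of_one_le_of_one_le h9 nl1
    have h4 : (4 * Real.pi ^ 2 / 3 * (nm l : ℝ)) ^ (-σ) ≤ 1 :=
      Real.rpow_le_one_of_one_le_of_nonpos h3 (by linarith)
    calc (4 * Real.pi ^ 2 / 3 * (nm l : ℝ)) ^ (-σ) * (nm e * (nm f : ℝ) ^ 2 / Z) ^ σ
        ≤ 1 * (nm e * (nm f : ℝ) ^ 2 / Z) ^ σ := by gcongr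
      _ = _ := one_mul _
  have hI : 0 ≤ ∫ t : ℝ, (1 + t ^ 2)⁻¹ * ‖dp (S X) (betR w d e f l) ((σ : ℂ) + t * Complex.I)‖ ^ 2 :=
    integral_nonneg fun t => by positivity
  have hc := csig_pos hσ
  have h5 : ‖Gh (fq e l) f‖ ^ 2 * nh f ^ 2 ≤ (nm f : ℝ)⁻¹ := by
    rw [nh_sq hf'.2.1.ne_zero]
    have h6 : ‖Gh (fq e l) f‖ ^ 2 ≤ 1 :=
      pow_le_one₀ (norm_nonneg _) (norm_Gh_le hf'.2.1)
    exact mul_le_of_le_one_left (by positivity) h6
  calc ‖Gh (fq e l) f‖ ^ 2 * nh f ^ 2 * _ ≤ (nm f : ℝ)⁻¹ * (csig σ * yy Z e f l ^ (-σ) *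
        ∫ t : ℝ, (1 + t ^ 2)⁻¹ * ‖dp (S X) (betR w d e f l) ((σ : ℂ) + t * Complex.I)‖ ^ 2) := by
        gcongr
    _ ≤ (nm f : ℝ)⁻¹ * (csig σ * (nm e * (nm f : ℝ) ^ 2 / Z) ^ σ *
        ∫ t : ℝ, (1 + t ^ 2)⁻¹ * ‖dp (S X) (betR w d e f l) ((σ : ℂ) + t * Complex.I)‖ ^ 2) := by
        gcongr
    _ = _ := by simp only [dsR_eq]; ring

lemma integrable_dsR {X : ℝ} (hX : 0 ≤ X) (w : Eis → ℂ) (d e f l : Eis) (σ : ℝ) :
    Integrable (fun t : ℝ => (1 + t ^ 2)⁻¹ * ‖dsR w X d e f l (σ + t * Complex.I)‖ ^ 2) := by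
  simp only [dsR_eq]
  exact integrable_dp_sq (S X) _ (fun k hk => ((mem_S hX).1 hk).2.1.ne_zero) σ

lemma summable_phD {Z : ℝ} (hZ : 0 < Z) {e k₁ k₂ : Eis} (he : e ≠ 0) (p₁ : IsPrim k₁)
    (p₂ : IsPrim k₂) [∀ l : Eis, Decidable (l = 0)] :
    Summable fun l : Eis => if l = 0 then 0 else phD Z e l k₁ k₂ := by
  have hw := summable_wt hZ he p₁.ne_zero p₂.ne_zero
  refine Summable.of_norm_bounded (hw.mul_left ((1 + pC) ^ 2)) (fun l => ?_)
  split_ifs with h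
  · rw [norm_zero]
    have := wt_pos Z e l k₁ k₂
    positivity
  · exact norm_phD_le he h p₁ p₂

open Classical in
lemma summable_qR {X Z : ℝ} (hX : 0 ≤ X) (hZ : 0 < Z) (w : Eis → ℂ) {d e f : Eis} (he : e ≠ 0)
    (hf : f ∈ S X) : Summable fun l : Eis => if l = 0 then 0 else qR w X Z d e f l := by
  have hf' := (mem_S hX).1 hf
  have e1 : (fun l : Eis => if l = 0 then 0 else qR w X Z d e f l) = fun l =>
      ∑ k₁ ∈ S X, ∑ k₂ ∈ S X, ws w X (d * f * k₁) * conj (ws w X (d * f * k₂)) *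
        (if l = 0 then 0 else phD Z e l (f * k₁) (f * k₂)) := by
    funext l
    split_ifs with h
    · simp
    · rfl
  rw [e1]
  refine summable_sum fun k₁ h₁ => summable_sum fun k₂ h₂ => ?_
  exact (summable_phD hZ he (hf'.2.1.mul ((mem_S hX).1 h₁).2.1)
    (hf'.2.1.mul ((mem_S hX).1 h₂).2.1)).mul_left _

lemma DIR_nonneg (σ : ℝ) (w : Eis → ℂ) (X : ℝ) (d e f : Eis) (L : ℝ) : 0 ≤ DIR σ w X d e f L :=
  integral_nonneg fun t => by positivity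

open Classical in
/-- one `(d, e, f)` -/
lemma one_defR {X Z σ ε : ℝ} (hX : 1 ≤ X) (hZ : 1 ≤ Z) (hσ : 0 < σ) (hσ1 : σ ≤ 1) {w : Eis → ℂ}
    (hw : Supp w X) {d e f : Eis} (he : e ≠ 0) (hf : f ∈ S X) :
    ‖∑' l : Eis, (if l = 0 then 0 else qR w X Z d e f l)‖ ≤
      csig σ * ((nm f : ℝ)⁻¹ * (nm e * (nm f : ℝ) ^ 2 / Z) ^ σ) *
        DIR σ w X d e f (Lde X Z ε d e) +
      ‖∑' l : Eis, (if l = 0 ∨ (nm l : ℝ) ≤ Lde X Z ε d e then 0 else qR w X Z d e f l)‖ := by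
  have hX0 : (0 : ℝ) ≤ X := by linarith
  have hZ0 : (0 : ℝ) < Z := by linarith
  have hL : 0 ≤ Lde X Z ε d e := by unfold Lde; positivity
  have hsum := summable_qR hX0 hZ0 w (d := d) he hf
  set L := Lde X Z ε d e with hLd
  have e1 : ∀ l : Eis, (if l = 0 then 0 else qR w X Z d e f l) =
      (if l ∈ bl L then qR w X Z d e f l else 0) +
      (if l = 0 ∨ (nm l : ℝ) ≤ L then 0 else qR w X Z d e f l) := by
    intro l
    by_cases h0 : l = 0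
    · rw [if_pos h0, if_pos (Or.inl h0), if_neg, add_zero]
      intro h; exact ((mem_bl hL).1 h).1 h0
    · rw [if_neg h0]
      by_cases h1 : (nm l : ℝ) ≤ L
      · rw [if_pos (Or.inr h1), if_pos ((mem_bl hL).2 ⟨h0, h1⟩), add_zero]
      · rw [if_neg (fun h => h1 ((mem_bl hL).1 h).2), zero_add,
          if_neg (fun h => h.elim h0 h1)]
  have s1 : Summable (fun l : Eis => if l ∈ bl L then qR w X Z d e f l else 0) :=
    summable_of_ne_finset_zero (s := bl L) (fun l hl => if_neg hl)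
  have s2 : Summable (fun l : Eis => if l = 0 ∨ (nm l : ℝ) ≤ L then 0 else qR w X Z d e f l) := by
    refine Summable.of_norm_bounded hsum.norm (fun l => ?_)
    by_cases h0 : l = 0
    · rw [if_pos (Or.inl h0), if_pos h0]
    · rw [if_neg h0]
      split_ifs
      · rw [norm_zero]; exact norm_nonneg _
      · exact le_rfl
  rw [tsum_congr e1, s1.tsum_add s2]
  refine (norm_add_le _ _).trans (add_le_add_left ?_ _)
  have e2 : ∑' l : Eis, (if l ∈ bl L then qR w X Z d e f l else 0) =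
      ∑ l ∈ bl L, qR w X Z d e f l := by
    rw [tsum_eq_sum (s := bl L) (fun l hl => if_neg hl)]
    exact Finset.sum_congr rfl fun l hl => if_pos hl
  rw [e2]
  refine (norm_sum_le _ _).trans ?_
  have e3 : DIR σ w X d e f L =
      ∑ l ∈ bl L, ∫ t : ℝ, (1 + t ^ 2)⁻¹ * ‖dsR w X d e f l (σ + t * Complex.I)‖ ^ 2 := by
    unfold DIR
    simp_rw [Finset.mul_sum]
    rw [integral_finsetSum]
    intro l _
    exact integrable_dsR hX0 w d e f l σ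
  rw [e3, Finset.mul_sum]
  exact Finset.sum_le_sum fun l hl => norm_qR_le hX0 hZ0 hσ hσ1 hw he hf ((mem_bl hL).1 hl).1

/-! ### the tail -/

/-- pointwise tail bound -/
lemma norm_qR_tail {X Z ε : ℝ} (hX : 1 ≤ X) (hZ : 1 ≤ Z) (hε : 0 < ε) (w : Eis → ℂ)
    {d e f l : Eis} (hd : IsPrim d) (he : e ≠ 0) (hf : f ∈ S X) (hl0 : l ≠ 0)
    (hl : Lde X Z ε d e ≤ nm l) :
    ‖qR w X Z d e f l‖ ≤ ((1 + pC) ^ 2 * (16 * X * ∑ h ∈ S X, ‖w h‖ ^ 2)) *
      Real.exp (-(X * Z) ^ ε) * Real.exp (-(1 / Lde X Z ε d e * nm l)) := by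
  have hX0 : (0 : ℝ) ≤ X := by linarith
  have hf' := (mem_S hX0).1 hf
  have hpC := pC_pos
  have h1 : ‖qR w X Z d e f l‖ ≤ ∑ k₁ ∈ S X, ∑ k₂ ∈ S X, ‖ws w X (d * f * k₁)‖ *
      ‖ws w X (d * f * k₂)‖ * ((1 + pC) ^ 2 * (Real.exp (-(X * Z) ^ ε) *
      Real.exp (-(1 / Lde X Z ε d e * nm l)))) := by
    unfold qR
    refine (norm_sum_le _ _).trans (Finset.sum_le_sum fun k1 h1 => ?_)
    refine (norm_sum_le _ _).trans (Finset.sum_le_sum fun k2 h2 => ?_)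
    have hk1 := (mem_S hX0).1 h1
    have hk2 := (mem_S hX0).1 h2
    by_cases m1 : d * f * k1 ∈ S X
    swap
    · rw [ws_of_not_mem m1]; simp
    by_cases m2 : d * f * k2 ∈ S X
    swap
    · rw [ws_of_not_mem m2]; simp
    have p1 := hf'.2.1.mul hk1.2.1
    have p2 := hf'.2.1.mul hk2.2.1
    have c1 : (nm d : ℝ) * nm (f * k1) ≤ X := by
      have := ((mem_S hX0).1 m1).1
      rw [mul_assoc, nm_mul] at this
      push_cast at this
      exact this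
    have c2 : (nm d : ℝ) * nm (f * k2) ≤ X := by
      have := ((mem_S hX0).1 m2).1
      rw [mul_assoc, nm_mul] at this
      push_cast at this
      exact this
    have n0 : 1 ≤ (nm d : ℝ) := by exact_mod_cast nm_pos.2 hd.ne_zero
    have n1 : 1 ≤ (nm (f * k1) : ℝ) := by exact_mod_cast nm_pos.2 p1.ne_zero
    have n2 : 1 ≤ (nm (f * k2) : ℝ) := by exact_mod_cast nm_pos.2 p2.ne_zero
    have n3 : 1 ≤ (nm e : ℝ) := by exact_mod_cast nm_pos.2 he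
    rw [norm_mul, norm_mul, RCLike.norm_conj]
    have b2 : wt Z e l (f * k1) (f * k2) ≤
        Real.exp (-(X * Z) ^ ε) * Real.exp (-(1 / Lde X Z ε d e * nm l)) := by
      rw [← Real.exp_add]
      exact Real.exp_le_exp.2 (expo_le hX hZ hε rfl rfl n0 n3 n1 n2 c1 c2 hl)
    have b3 := norm_phD_le (Z := Z) he hl0 p1 p2
    refine mul_le_mul_of_nonneg_left (b3.trans ?_) (by positivity)
    exact mul_le_mul_of_nonneg_left b2 (by positivity)
  refine h1.trans ?_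
  have h2 : ∑ k1 ∈ S X, ∑ k2 ∈ S X, ‖ws w X (d * f * k1)‖ *
      ‖ws w X (d * f * k2)‖ * ((1 + pC) ^ 2 * (Real.exp (-(X * Z) ^ ε) *
      Real.exp (-(1 / Lde X Z ε d e * nm l)))) = (∑ k ∈ S X, ‖ws w X (d * f * k)‖) ^ 2 *
      ((1 + pC) ^ 2 * (Real.exp (-(X * Z) ^ ε) * Real.exp (-(1 / Lde X Z ε d e * nm l)))) := by
    rw [sq (∑ k ∈ S X, ‖ws w X (d * f * k)‖), Finset.sum_mul_sum, Finset.sum_mul]
    refine Finset.sum_congr rfl fun k1 _ => ?_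
    rw [Finset.sum_mul]
  rw [h2]
  have h3 := sum_ws_le hX w hd.ne_zero hf'.2.1.ne_zero (X := X)
  calc (∑ k ∈ S X, ‖ws w X (d * f * k)‖) ^ 2 *
      ((1 + pC) ^ 2 * (Real.exp (-(X * Z) ^ ε) * Real.exp (-(1 / Lde X Z ε d e * nm l))))
      ≤ (16 * X * ∑ h ∈ S X, ‖w h‖ ^ 2) *
      ((1 + pC) ^ 2 * (Real.exp (-(X * Z) ^ ε) * Real.exp (-(1 / Lde X Z ε d e * nm l)))) :=
        mul_le_mul_of_nonneg_right h3 (by positivity)
    _ = _ := by ring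

open Classical in
lemma one_tailR {X Z ε : ℝ} (hX : 1 ≤ X) (hZ : 1 ≤ Z) (hε : 0 < ε) (w : Eis → ℂ)
    {d e f : Eis} (hd : IsPrim d) (he : e ≠ 0) (hf : f ∈ S X) :
    ‖∑' l : Eis, (if l = 0 ∨ (nm l : ℝ) ≤ Lde X Z ε d e then 0 else qR w X Z d e f l)‖ ≤
      ((1 + pC) ^ 2 * (16 * X * ∑ h ∈ S X, ‖w h‖ ^ 2)) * Real.exp (-(X * Z) ^ ε) *
        (101 * Lde X Z ε d e) := by
  have hXZ : 1 ≤ X * Z := one_le_mul_of_one_le_of_one_le hX hZ
  have hP1 : 1 ≤ (X * Z) ^ ε := Real.one_le_rpow hXZ hε.le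
  have hq : 0 ≤ nm e * X ^ 2 / ((nm d : ℝ) ^ 2 * Z) := by positivity
  have hL1 : 1 ≤ Lde X Z ε d e := by
    unfold Lde; exact one_le_mul_of_one_le_of_one_le hP1 (by linarith)
  have hc : 0 < 1 / Lde X Z ε d e := by positivity
  have hs := Edge79.summable_exp hc
  have hpC := pC_pos
  set A := ((1 + pC) ^ 2 * (16 * X * ∑ h ∈ S X, ‖w h‖ ^ 2)) * Real.exp (-(X * Z) ^ ε) with hA
  have hA0 : 0 ≤ A := by
    have : 0 ≤ ∑ h ∈ S X, ‖w h‖ ^ 2 := Finset.sum_nonneg fun _ _ => by positivity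
    positivity
  have h1 : ∀ l : Eis, ‖(if l = 0 ∨ (nm l : ℝ) ≤ Lde X Z ε d e then 0 else qR w X Z d e f l)‖ ≤
      A * Real.exp (-(1 / Lde X Z ε d e * nm l)) := by
    intro l
    split_ifs with h
    · rw [norm_zero]; positivity
    · push Not at h
      exact norm_qR_tail hX hZ hε w hd he hf h.1 h.2.le
  have h2 := tsum_of_norm_bounded (hs.mul_left A).hasSum h1
  refine h2.trans ?_
  rw [tsum_mul_left]
  refine mul_le_mul_of_nonneg_left ?_ hA0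
  refine (Edge79.tsum_exp_le hc).trans ?_
  have : 100 / (1 / Lde X Z ε d e) = 100 * Lde X Z ε d e := by
    field_simp
  rw [this]; linarith

set_option maxHeartbeats 1000000 in
open Classical in
theorem tailR {ε : ℝ} (hε : 0 < ε) : ∃ C : ℝ, 0 < C ∧ ∀ X Z : ℝ, 1 ≤ X → 1 ≤ Z →
  ∀ w : Eis → ℂ,
    ∑ d ∈ S X, ∑ e ∈ pdiv d, ∑ f ∈ S X, (2 * Real.pi * Z / (Real.sqrt 3 * nm e)) *
      ‖∑' l : Eis, (if l = 0 ∨ (nm l : ℝ) ≤ Lde X Z ε d e then 0 else qR w X Z d e f l)‖ ≤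
      C * Z * ∑ h ∈ S X, ‖w h‖ ^ 2 := by
  set m : ℕ := ⌈6 / ε⌉₊ with hm
  have h3 : 0 < Real.sqrt 3 := by positivity
  have hπ := Real.pi_pos
  have hpC := pC_pos
  refine ⟨(1 + pC) ^ 2 * (2 * Real.pi / Real.sqrt 3 * 16 ^ 4 * 202 * ((m + 1).factorial : ℝ)),
    by positivity, ?_⟩
  intro X Z hX hZ w
  have hX0 : (0 : ℝ) ≤ X := by linarith
  have hZ0 : (0 : ℝ) < Z := by linarith
  have hXZ : 1 ≤ X * Z := one_le_mul_of_one_le_of_one_le hX hZ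
  set P := (X * Z) ^ ε with hP
  have hP1 : 1 ≤ P := Real.one_le_rpow hXZ hε.le
  set W := ∑ h ∈ S X, ‖w h‖ ^ 2 with hW
  have hW0 : 0 ≤ W := Finset.sum_nonneg fun _ _ => by positivity
  have hcard := GLS106.card_S_le hX
  have key : X ^ 6 * P * Real.exp (-P) ≤ ((m + 1).factorial : ℝ) := by
    have h1 : X ^ 6 ≤ P ^ m := by
      have e1 : X ≤ X * Z := by nlinarith
      calc X ^ 6 ≤ (X * Z) ^ 6 := by gcongr
        _ = (X * Z) ^ (6 : ℝ) := by norm_cast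
        _ ≤ (X * Z) ^ (ε * m) := by
          apply Real.rpow_le_rpow_of_exponent_le hXZ
          have : 6 / ε ≤ m := Nat.le_ceil _
          rw [div_le_iff₀ hε] at this
          linarith
        _ = P ^ m := by rw [hP, Real.rpow_mul (by linarith), Real.rpow_natCast]
    calc X ^ 6 * P * Real.exp (-P) ≤ P ^ m * P * Real.exp (-P) := by gcongr
      _ = P ^ (m + 1) * Real.exp (-P) := by ring
      _ ≤ _ := pow_mul_exp_le (by linarith) _
  have h1 : ∀ d ∈ S X, ∀ e ∈ pdiv d, ∀ f ∈ S X, (2 * Real.pi * Z / (Real.sqrt 3 * nm e)) *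
      ‖∑' l : Eis, (if l = 0 ∨ (nm l : ℝ) ≤ Lde X Z ε d e then 0 else qR w X Z d e f l)‖ ≤
      (2 * Real.pi / Real.sqrt 3 * Z) * (((1 + pC) ^ 2 * (16 * X * W)) * Real.exp (-P) *
        (101 * (2 * P * X ^ 2))) := by
    intro d hd e he f hf
    have hd' := (mem_S hX0).1 hd
    have he' := (mem_pdiv hd'.2.1.ne_zero).1 he
    have ne : (1 : ℝ) ≤ nm e := by exact_mod_cast nm_pos.2 he'.1.ne_zero
    have nd : (1 : ℝ) ≤ nm d := by exact_mod_cast nm_pos.2 hd'.2.1.ne_zero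
    have hed : (nm e : ℝ) ≤ nm d := by exact_mod_cast Div277.nm_le_of_dvd hd'.2.1.ne_zero he'.2
    have hL : Lde X Z ε d e ≤ 2 * P * X ^ 2 := by
      unfold Lde
      rw [← hP]
      have : nm e * X ^ 2 / ((nm d : ℝ) ^ 2 * Z) ≤ X ^ 2 := by
        rw [div_le_iff₀ (by positivity)]
        have : (nm e : ℝ) ≤ (nm d : ℝ) ^ 2 * Z := by nlinarith [mul_le_mul nd hZ (by norm_num) (by linarith : (0:ℝ) ≤ nm d), mul_le_mul hed hZ (by norm_num) (by linarith : (0:ℝ) ≤ nm d)]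
        nlinarith [sq_nonneg X]
      have hX2 : 1 ≤ X ^ 2 := by nlinarith
      nlinarith
    have h2 := one_tailR hX hZ hε w hd'.2.1 he'.1.ne_zero hf
    rw [← hW, ← hP] at h2
    have h4 : 2 * Real.pi * Z / (Real.sqrt 3 * nm e) ≤ 2 * Real.pi / Real.sqrt 3 * Z := by
      have : 2 * Real.pi * Z / (Real.sqrt 3 * nm e) = 2 * Real.pi / Real.sqrt 3 * Z / nm e := by
        field_simp
      rw [this]
      exact div_le_self (by positivity) ne
    have hL0 : 0 ≤ Lde X Z ε d e := by unfold Lde; positivity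
    refine mul_le_mul h4 (h2.trans ?_) (norm_nonneg _) (by positivity)
    gcongr
  have h2 : ∑ d ∈ S X, ∑ e ∈ pdiv d, ∑ f ∈ S X, (2 * Real.pi * Z / (Real.sqrt 3 * nm e)) *
      ‖∑' l : Eis, (if l = 0 ∨ (nm l : ℝ) ≤ Lde X Z ε d e then 0 else qR w X Z d e f l)‖ ≤
      (16 * X) * ((16 * X) * ((16 * X) * ((2 * Real.pi / Real.sqrt 3 * Z) *
        (((1 + pC) ^ 2 * (16 * X * W)) * Real.exp (-P) * (101 * (2 * P * X ^ 2)))))) := by
    have hQ : 0 ≤ (2 * Real.pi / Real.sqrt 3 * Z) *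
        (((1 + pC) ^ 2 * (16 * X * W)) * Real.exp (-P) * (101 * (2 * P * X ^ 2))) := by positivity
    set Q := (2 * Real.pi / Real.sqrt 3 * Z) *
        (((1 + pC) ^ 2 * (16 * X * W)) * Real.exp (-P) * (101 * (2 * P * X ^ 2))) with hQd
    have s1 : ∀ d ∈ S X, ∀ e ∈ pdiv d, ∑ f ∈ S X, (2 * Real.pi * Z / (Real.sqrt 3 * nm e)) *
      ‖∑' l : Eis, (if l = 0 ∨ (nm l : ℝ) ≤ Lde X Z ε d e then 0 else qR w X Z d e f l)‖ ≤
        16 * X * Q := by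
      intro d hd e he
      refine (Finset.sum_le_sum fun f hf => h1 d hd e he f hf).trans ?_
      rw [Finset.sum_const, nsmul_eq_mul]
      exact mul_le_mul_of_nonneg_right hcard hQ
    have s2 : ∀ d ∈ S X, ∑ e ∈ pdiv d, ∑ f ∈ S X, (2 * Real.pi * Z / (Real.sqrt 3 * nm e)) *
      ‖∑' l : Eis, (if l = 0 ∨ (nm l : ℝ) ≤ Lde X Z ε d e then 0 else qR w X Z d e f l)‖ ≤
        16 * X * (16 * X * Q) := by
      intro d hd
      refine (Finset.sum_le_sum fun e he => s1 d hd e he).trans ?_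
      rw [Finset.sum_const, nsmul_eq_mul]
      refine mul_le_mul_of_nonneg_right (le_trans ?_ hcard) (by positivity)
      exact_mod_cast Finset.card_le_card ((pdiv_subset hX0 hd).trans (Finset.filter_subset _ _))
    refine (Finset.sum_le_sum fun d hd => s2 d hd).trans ?_
    rw [Finset.sum_const, nsmul_eq_mul]
    exact mul_le_mul_of_nonneg_right hcard (by positivity)
  refine h2.trans ?_
  have e1 : (16 * X) * ((16 * X) * ((16 * X) * ((2 * Real.pi / Real.sqrt 3 * Z) *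
        (((1 + pC) ^ 2 * (16 * X * W)) * Real.exp (-P) * (101 * (2 * P * X ^ 2)))))) =
      (1 + pC) ^ 2 * (2 * Real.pi / Real.sqrt 3 * 16 ^ 4 * 202 * (X ^ 6 * P * Real.exp (-P))) *
        Z * W := by ring
  rw [e1]
  gcongr

/-! ### the bias-corrected part of the pairs with gcd `d` -/

open Classical in
/-- the bias-corrected part -/
def TDD (X Z : ℝ) (w : Eis → ℂ) (d : Eis) : ℂ :=
  cpS X (ws w X) (ws w X) d (fun k₁ k₂ => ∑ e ∈ pdiv d, (mu e : ℂ) *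
    (((2 * Real.pi * Z / (Real.sqrt 3 * nm e) : ℝ) : ℂ) *
      ∑' l : Eis, if l = 0 then 0 else phD Z e l k₁ k₂))

open Classical in
theorem norm_TDD_le {X Z : ℝ} (hX : 0 ≤ X) (hZ : 0 < Z) (w : Eis → ℂ) {d : Eis} (hd : d ∈ S X) :
    ‖TDD X Z w d‖ ≤ ∑ e ∈ pdiv d, ∑ f ∈ S X, 2 * Real.pi * Z / (Real.sqrt 3 * nm e) *
        ‖∑' l : Eis, if l = 0 then 0 else qR w X Z d e f l‖ := by
  have hd' := (mem_S hX).1 hd
  unfold TDD
  rw [cpS_sum (pdiv d) X (ws w X) (ws w X) d (fun e k₁ k₂ => (mu e : ℂ) *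
    (((2 * Real.pi * Z / (Real.sqrt 3 * nm e) : ℝ) : ℂ) *
      ∑' l : Eis, if l = 0 then 0 else phD Z e l k₁ k₂))]
  refine (norm_sum_le _ _).trans (Finset.sum_le_sum fun e he => ?_)
  have he' := (mem_pdiv hd'.2.1.ne_zero).1 he
  rw [cpS_smul, cpS_smul, cpS_moebius hX ws_zero ws_zero hd, Finset.mul_sum, Finset.mul_sum]
  refine (norm_sum_le _ _).trans (Finset.sum_le_sum fun f hf => ?_)
  have hf' := (mem_S hX).1 hf
  have e1 : ∑ k₁ ∈ S X, ∑ k₂ ∈ S X, ws w X (d * f * k₁) * conj (ws w X (d * f * k₂)) *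
      (∑' l : Eis, if l = 0 then 0 else phD Z e l (f * k₁) (f * k₂)) =
      ∑' l : Eis, if l = 0 then 0 else qR w X Z d e f l := by
    have e2 : (fun l : Eis => if l = 0 then 0 else qR w X Z d e f l) = fun l =>
      ∑ k₁ ∈ S X, ∑ k₂ ∈ S X, ws w X (d * f * k₁) * conj (ws w X (d * f * k₂)) *
        (if l = 0 then 0 else phD Z e l (f * k₁) (f * k₂)) := by
      funext l
      split_ifs with h
      · simp
      · rfl
    have hs : ∀ k₁ ∈ S X, ∀ k₂ ∈ S X, Summable fun l : Eis =>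
        ws w X (d * f * k₁) * conj (ws w X (d * f * k₂)) *
        (if l = 0 then 0 else phD Z e l (f * k₁) (f * k₂)) := fun k₁ h₁ k₂ h₂ =>
      (summable_phD hZ he'.1.ne_zero (hf'.2.1.mul ((mem_S hX).1 h₁).2.1)
        (hf'.2.1.mul ((mem_S hX).1 h₂).2.1)).mul_left _
    rw [e2, Summable.tsum_finsetSum (fun k₁ h₁ => summable_sum fun k₂ h₂ => hs k₁ h₁ k₂ h₂)]
    refine Finset.sum_congr rfl fun k₁ h₁ => ?_
    rw [Summable.tsum_finsetSum (fun k₂ h₂ => hs k₁ h₁ k₂ h₂)]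
    refine Finset.sum_congr rfl fun k₂ h₂ => ?_
    rw [tsum_mul_left]
  rw [e1, norm_mul, norm_mul, norm_mul, Complex.norm_real]
  have m1 : ‖((mu e : ℤ) : ℂ)‖ ≤ 1 := by
    rw [Complex.norm_intCast]
    exact_mod_cast abs_mu_le_one e
  have m2 : ‖((mu f : ℤ) : ℂ)‖ ≤ 1 := by
    rw [Complex.norm_intCast]
    exact_mod_cast abs_mu_le_one f
  have hpi := Real.pi_pos
  have hpos : 0 ≤ 2 * Real.pi * Z / (Real.sqrt 3 * nm e) := by positivity
  rw [Real.norm_of_nonneg hpos]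
  calc ‖((mu e : ℤ) : ℂ)‖ * (2 * Real.pi * Z / (Real.sqrt 3 * nm e) * (‖((mu f : ℤ) : ℂ)‖ * _))
      ≤ 1 * (2 * Real.pi * Z / (Real.sqrt 3 * nm e) * (1 *
          ‖∑' l : Eis, if l = 0 then 0 else qR w X Z d e f l‖)) := by gcongr
    _ = _ := by ring

end Crest.Agent.R017.PX764
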