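import Crest.Agent.R017.PX5l_241

/-!
# Row 17, exceptional class, rule (P'_ex) with a twist `g`, part a (helper241): noncube part

* `tw g w n = w n conj (sy g n)`
* `dsT`, `DICt` : dual sum and its second moment, frequencies `l` with `l (g d e sq3)²` noncube
* `nc_leT`
-/

set_option autoImplicit false

noncomputable section

namespace Crest.Agent.R017.PX6

open Crest.Agent.R012 MeasureTheory
open Eis CharSum852 Gauss880 Tau671 Mob705 LS2 CR2 MelSep811 DualIneq811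
open Crest.Agent.R017.PA842 Crest.Agent.R017.PM106 Crest.Agent.R017.PX5
open scoped ComplexConjugate

/-- the twisted coefficients -/
def tw (g : Eis) (w : Eis → ℂ) (n : Eis) : ℂ := w n * conj (sy g n)

lemma supp_tw {w : Eis → ℂ} {X : ℝ} (hw : Supp w X) (g : Eis) : Supp (tw g w) X := by
  intro h hh
  apply hw
  intro h0
  apply hh
  unfold tw
  rw [h0, zero_mul]

lemma sum_tw_le (w : Eis → ℂ) (g : Eis) {X : ℝ} (hX : 0 ≤ X) :
    ∑ h ∈ S X, ‖tw g w h‖ ^ 2 ≤ ∑ h ∈ S X, ‖w h‖ ^ 2 := by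
  refine Finset.sum_le_sum fun h hh => ?_
  have hh' := (mem_S hX).1 hh
  unfold tw
  rw [norm_mul, RCLike.norm_conj]
  have := Tau671.norm_sy_le hh'.2.1 (x := g)
  gcongr
  exact mul_le_of_le_one_right (norm_nonneg _) this

/-- the twisted dual sum -/
def dsT (w : Eis → ℂ) (X : ℝ) (g d e f l : Eis) (s : ℂ) : ℂ :=
  ∑ k ∈ S X, w (d * f * k) * sy (fq2 (g * d) e l) k * (nm k : ℂ) ^ (s - 1 / 2)

open Classical in
/-- its second moment over the noncubes -/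
def DICt (M : ℕ) (σ : ℝ) (w : Eis → ℂ) (X : ℝ) (g d e f : Eis) (L : ℝ) : ℝ :=
  ∫ t : ℝ, ((1 + t ^ 2) ^ M)⁻¹ * ∑ l ∈ (bl L).filter (fun l => T411.NCube (fq2 (g * d) e l)),
    ‖dsT w X g d e f l (σ + t * Complex.I)‖ ^ 2

lemma dsT_eq (w : Eis → ℂ) (X : ℝ) (g d e f l : Eis) (s : ℂ) :
    dsT w X g d e f l s = dp (S X) (fun k => w (d * f * k) * sy (fq2 (g * d) e l) k) s := rfl

lemma integrable_dsT {M : ℕ} (hM : 1 ≤ M) {X : ℝ} (hX : 0 ≤ X) (w : Eis → ℂ)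
    (g d e f l : Eis) (σ : ℝ) :
    Integrable (fun t : ℝ => ((1 + t ^ 2) ^ M)⁻¹ *
      ‖dsT w X g d e f l (σ + t * Complex.I)‖ ^ 2) := by
  simp only [dsT_eq]
  exact integrable_dp_sqM hM (S X) _ (fun k hk => ((mem_S hX).1 hk).2.1.ne_zero) σ

/-- the dual sum of the twisted coefficients -/
lemma norm_dsC_tw {w : Eis → ℂ} {X : ℝ} (hX : 0 ≤ X) {g d e f : Eis} (hd : IsPrim d)
    (hf : IsPrim f) (l : Eis) (s : ℂ) :
    ‖dsC (tw g w) X d e f l s‖ ≤ ‖dsT w X g d e f l s‖ := by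
  have e1 : dsC (tw g w) X d e f l s = conj (sy g (d * f)) * dsT w X g d e f l s := by
    unfold dsC dsT tw
    rw [Finset.mul_sum]
    refine Finset.sum_congr rfl fun k hk => ?_
    have hk' := (mem_S hX).1 hk
    have hdf : IsPrim (d * f) := hd.mul hf
    have e2 : fq2 (g * d) e l = g ^ 2 * fq2 d e l := by unfold fq2; ring
    rw [e2, syG.mul_left _ _ _ hk'.2.1, sy_sq_left hk'.2.1, ← conj_sy_eq_sq hk'.2.1,
      syG.mul_right g (d * f) k hdf hk'.2.1, map_mul]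
    ring
  rw [e1, norm_mul, RCLike.norm_conj]
  have h1 : ‖sy g (d * f)‖ ≤ 1 := Tau671.norm_sy_le (hd.mul hf) (x := g)
  exact mul_le_of_le_one_left (norm_nonneg _) h1

open Classical in
lemma DICt_eq_sum {M : ℕ} (hM : 1 ≤ M) {X : ℝ} (hX : 0 ≤ X) (w : Eis → ℂ) (g d e f : Eis)
    (σ L : ℝ) :
    DICt M σ w X g d e f L = ∑ l ∈ (bl L).filter (fun l => T411.NCube (fq2 (g * d) e l)),
      ∫ t : ℝ, ((1 + t ^ 2) ^ M)⁻¹ * ‖dsT w X g d e f l (σ + t * Complex.I)‖ ^ 2 := by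
  unfold DICt
  rw [← integral_finsetSum _ (fun l _ => integrable_dsT hM hX w g d e f l σ)]
  congr 1
  funext t
  rw [Finset.mul_sum]

lemma DICt_nonneg (M : ℕ) (X : ℝ) (w : Eis → ℂ) (g d e f : Eis) (σ L : ℝ) :
    0 ≤ DICt M σ w X g d e f L :=
  integral_nonneg fun t => by positivity

lemma integral_dsC_tw_le {M : ℕ} (hM : 1 ≤ M) {w : Eis → ℂ} {X : ℝ} (hX : 0 ≤ X) {g d e f : Eis}
    (hd : IsPrim d) (hf : IsPrim f) (l : Eis) (σ : ℝ) :
    ∫ t : ℝ, ((1 + t ^ 2) ^ M)⁻¹ * ‖dsC (tw g w) X d e f l (σ + t * Complex.I)‖ ^ 2 ≤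
      ∫ t : ℝ, ((1 + t ^ 2) ^ M)⁻¹ * ‖dsT w X g d e f l (σ + t * Complex.I)‖ ^ 2 := by
  refine integral_mono (integrable_dsC hM hX _ d e f l σ) (integrable_dsT hM hX w g d e f l σ)
    (fun t => ?_)
  refine mul_le_mul_of_nonneg_left ?_ (by positivity)
  exact pow_le_pow_left₀ (norm_nonneg _) (norm_dsC_tw hX hd hf l _) 2

open Classical in
/-- one `(d, e, f)` -/
lemma one_ncT {M : ℕ} (hM : 1 ≤ M) {X L σ ε : ℝ} (hX : 1 ≤ X) (hL : 1 ≤ L) (hσ : 0 < σ)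
    (hσ1 : σ ≤ 1 / 2) {w : Eis → ℂ} (hw : Supp w X) (g : Eis) {d e f : Eis} (hd : d ∈ S X)
    (he : e ∈ pdiv d) (hf : f ∈ S X) :
    2 * Real.pi * L / (Real.sqrt 3 * nm e) *
      ‖∑' l : Eis, (if Hn (g * d) e l then qf (wc (tw g w)) X L d e f l else 0)‖ ≤
      2 * Real.pi / Real.sqrt 3 * csigM M σ * X ^ (3 * σ) *
        (L / nm f * DICt M σ w X g d e f (Lde X L ε d e)) +
      2 * Real.pi * L / (Real.sqrt 3 * nm e) *
      ‖∑' l : Eis, (if Hn (g * d) e l ∧ ¬ (l = 0 ∨ (nm l : ℝ) ≤ Lde X L ε d e) then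
        qf (wc (tw g w)) X L d e f l else 0)‖ := by
  have hX0 : (0 : ℝ) ≤ X := by linarith
  have hL0 : (0 : ℝ) < L := by linarith
  have h3 : 0 < Real.sqrt 3 := by positivity
  have hπ := Real.pi_pos
  have hcs := csigM_pos M hσ
  have hd' := (mem_S hX0).1 hd
  have he' := (mem_pdiv hd'.2.1.ne_zero).1 he
  have hf' := (mem_S hX0).1 hf
  have ne1 : (1 : ℝ) ≤ nm e := by exact_mod_cast nm_pos.2 he'.1.ne_zero
  have nf1 : (1 : ℝ) ≤ nm f := by exact_mod_cast nm_pos.2 hf'.2.1.ne_zero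
  have nfX : (nm f : ℝ) ≤ X := hf'.1
  have neX : (nm e : ℝ) ≤ X := by
    refine le_trans ?_ hd'.1
    exact_mod_cast Div277.nm_le_of_dvd hd'.2.1.ne_zero he'.2
  have hwt := supp_tw hw g
  have g1 := one_def_H hM hX hL hσ (by linarith) (ε := ε) (supp_wc hwt) (d := d) he'.1.ne_zero hf
    (Hn (g * d) e) (fun l h => Hn_ne_zero h)
  have hc0 : 0 ≤ 2 * Real.pi * L / (Real.sqrt 3 * nm e) :=
    div_nonneg (mul_nonneg (mul_nonneg (by norm_num) hπ.le) hL0.le)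
      (mul_nonneg h3.le (Nat.cast_nonneg _))
  refine (mul_le_mul_of_nonneg_left g1 hc0).trans ?_
  rw [mul_add]
  refine add_le_add_left ?_ _
  have hLde0 : 0 ≤ Lde X L ε d e := Lde_nonneg hX0 hL0.le _ _ _
  have g2 : (∑ l ∈ (bl (Lde X L ε d e)).filter (Hn (g * d) e), (nm l : ℝ) ^ (-σ) *
      ∫ t : ℝ, ((1 + t ^ 2) ^ M)⁻¹ *
        ‖dsum (wc (tw g w)) X d e f l (σ + t * Complex.I)‖ ^ 2) ≤
      DICt M σ w X g d e f (Lde X L ε d e) := by
    rw [DICt_eq_sum hM hX0]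
    refine Finset.sum_le_sum fun l hl => ?_
    have hl' := (mem_bl hLde0).1 (Finset.mem_filter.1 hl).1
    have h1l : (1 : ℝ) ≤ nm l := by exact_mod_cast nm_pos.2 hl'.1
    have h1 : (nm l : ℝ) ^ (-σ) ≤ 1 := Real.rpow_le_one_of_one_le_of_nonpos h1l (by linarith)
    have h2 := (integral_dsum_wc_le hM hX0 hwt hd hf l σ (e := e)).trans
      (integral_dsC_tw_le hM hX0 hd'.2.1 hf'.2.1 l σ (w := w) (g := g) (e := e))
    have h3 : 0 ≤ ∫ t : ℝ, ((1 + t ^ 2) ^ M)⁻¹ *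
        ‖dsum (wc (tw g w)) X d e f l (σ + t * Complex.I)‖ ^ 2 :=
      integral_nonneg fun t => by positivity
    calc _ ≤ 1 * ∫ t : ℝ, ((1 + t ^ 2) ^ M)⁻¹ *
          ‖dsum (wc (tw g w)) X d e f l (σ + t * Complex.I)‖ ^ 2 := by gcongr
      _ ≤ _ := by rw [one_mul]; exact h2
  have g3 : (nm e * (nm f : ℝ) ^ 2 / L) ^ σ ≤ X ^ (3 * σ) := by
    rw [Real.rpow_mul hX0]
    apply Real.rpow_le_rpow (by positivity) _ hσ.le
    calc nm e * (nm f : ℝ) ^ 2 / L ≤ nm e * (nm f : ℝ) ^ 2 := div_le_self (by positivity) hL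
      _ ≤ X * X ^ 2 := by gcongr
      _ = X ^ (3 : ℝ) := by
        rw [show (3 : ℝ) = ((3 : ℕ) : ℝ) by norm_num, Real.rpow_natCast]; ring
  exact aux_term hL0.le ne1 (lt_of_lt_of_le one_pos nf1) hcs.le
    (Real.rpow_nonneg (div_nonneg (mul_nonneg (by linarith) (sq_nonneg _)) hL0.le) _) g3
    (Finset.sum_nonneg fun l _ => mul_nonneg (Real.rpow_nonneg (Nat.cast_nonneg _) _)
      (integral_nonneg fun t => by positivity)) g2

open Classical in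
/-- **the noncube part** -/
theorem nc_leT {M : ℕ} (hM : 1 ≤ M) {σ ε : ℝ} (hσ : 0 < σ) (hσ1 : σ ≤ 1 / 2) (hε : 0 < ε) :
    ∃ C : ℝ, 1 ≤ C ∧ ∀ X L Y : ℝ, 1 ≤ X → 1 ≤ L → ∀ g : Eis, ∀ w : Eis → ℂ, Supp w X →
    ∑ d ∈ (S X).filter (fun d => (nm d : ℝ) ≤ Y),
      ‖CCH (1 / (Real.pi * L)) (PX X) (cs (wc (tw g w)) X) (pp d)
        (fun E l => Hn (g * d) (pr E) l)‖ ≤
      C * L * ∑ h ∈ S X, ‖w h‖ ^ 2 +
      C * X ^ (3 * σ) * ∑ d ∈ (S X).filter (fun d => (nm d : ℝ) ≤ Y),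
        ∑ e ∈ (S X).filter (· ∣ d), ∑ f ∈ S X, L / nm f * DICt M σ w X g d e f (Lde X L ε d e) := by
  obtain ⟨Ct, hCt, htail⟩ := tail_H hε
  have h3 : 0 < Real.sqrt 3 := by positivity
  have hπ := Real.pi_pos
  have hcs := csigM_pos M hσ
  set κ : ℝ := 2 * Real.pi / Real.sqrt 3 with hκ
  have hκ0 : 0 < κ := by positivity
  have hκc : 0 < κ * csigM M σ := by positivity
  refine ⟨1 + Ct + κ * csigM M σ, by nlinarith, ?_⟩
  intro X L Y hX hL g w hw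
  have hX0 : (0 : ℝ) ≤ X := by linarith
  have hL0 : (0 : ℝ) < L := by linarith
  set A := (S X).filter (fun d => (nm d : ℝ) ≤ Y) with hA
  set W := ∑ h ∈ S X, ‖w h‖ ^ 2 with hW
  have hW0 : 0 ≤ W := Finset.sum_nonneg fun _ _ => by positivity
  have e1 : ∑ d ∈ A, ‖CCH (1 / (Real.pi * L)) (PX X) (cs (wc (tw g w)) X) (pp d)
      (fun E l => Hn (g * d) (pr E) l)‖ ≤ ∑ d ∈ A,
        ∑ e ∈ pdiv d, ∑ f ∈ S X, 2 * Real.pi * L / (Real.sqrt 3 * nm e) *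
          ‖∑' l : Eis, if Hn (g * d) e l then qf (wc (tw g w)) X L d e f l else 0‖ := by
    refine Finset.sum_le_sum fun d hd => ?_
    have hdS := (Finset.mem_filter.1 hd).1
    rw [CCH_eq_qf hX0 hL0 (wc (tw g w)) hdS (Hn (g * d))]
    refine (norm_sum_le _ _).trans (Finset.sum_le_sum fun e he => ?_)
    refine (norm_sum_le _ _).trans (Finset.sum_le_sum fun f hf => ?_)
    rw [norm_mul, norm_mul, norm_mul, Complex.norm_real]
    have m1 : ‖((mu e : ℤ) : ℂ)‖ ≤ 1 := by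
      rw [Complex.norm_intCast]
      exact_mod_cast abs_mu_le_one e
    have m2 : ‖((mu f : ℤ) : ℂ)‖ ≤ 1 := by
      rw [Complex.norm_intCast]
      exact_mod_cast abs_mu_le_one f
    have m3 : ‖((mu e : ℤ) : ℂ)‖ * ‖((mu f : ℤ) : ℂ)‖ ≤ 1 := mul_le_one₀ m1 (norm_nonneg _) m2
    have hpos : 0 ≤ 2 * Real.pi * L / (Real.sqrt 3 * nm e) := by positivity
    rw [Real.norm_of_nonneg hpos]
    calc ‖((mu e : ℤ) : ℂ)‖ * ‖((mu f : ℤ) : ℂ)‖ * (2 * Real.pi * L / (Real.sqrt 3 * nm e)) * _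
        ≤ 1 * (2 * Real.pi * L / (Real.sqrt 3 * nm e)) *
          ‖∑' l : Eis, if Hn (g * d) e l then qf (wc (tw g w)) X L d e f l else 0‖ := by gcongr
      _ = _ := by ring
  refine e1.trans ?_
  have f2 : ∑ d ∈ A, ∑ e ∈ pdiv d, ∑ f ∈ S X, 2 * Real.pi * L / (Real.sqrt 3 * nm e) *
      ‖∑' l : Eis, if Hn (g * d) e l then qf (wc (tw g w)) X L d e f l else 0‖ ≤
      ∑ d ∈ A, ∑ e ∈ pdiv d, ∑ f ∈ S X,
        (κ * csigM M σ * X ^ (3 * σ) * (L / nm f * DICt M σ w X g d e f (Lde X L ε d e)) +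
      2 * Real.pi * L / (Real.sqrt 3 * nm e) *
      ‖∑' l : Eis, (if Hn (g * d) e l ∧ ¬ (l = 0 ∨ (nm l : ℝ) ≤ Lde X L ε d e) then
        qf (wc (tw g w)) X L d e f l else 0)‖) :=
    Finset.sum_le_sum fun d hd => Finset.sum_le_sum fun e he => Finset.sum_le_sum
      fun f hf => one_ncT hM hX hL hσ hσ1 hw g (Finset.mem_filter.1 hd).1 he hf
  refine f2.trans ?_
  simp_rw [Finset.sum_add_distrib]
  have hDD0 : 0 ≤ ∑ d ∈ A, ∑ e ∈ (S X).filter (· ∣ d), ∑ f ∈ S X, L / nm f *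
      DICt M σ w X g d e f (Lde X L ε d e) :=
    Finset.sum_nonneg fun d _ => Finset.sum_nonneg fun e _ => Finset.sum_nonneg fun f _ =>
      mul_nonneg (div_nonneg hL0.le (Nat.cast_nonneg _)) (DICt_nonneg _ _ _ _ _ _ _ _ _)
  have hXs : 0 < X ^ (3 * σ) := Real.rpow_pos_of_pos (by linarith) _
  have b1 : ∑ d ∈ A, ∑ e ∈ pdiv d, ∑ f ∈ S X,
        κ * csigM M σ * X ^ (3 * σ) * (L / nm f * DICt M σ w X g d e f (Lde X L ε d e)) ≤
      κ * csigM M σ * X ^ (3 * σ) * ∑ d ∈ A, ∑ e ∈ (S X).filter (· ∣ d), ∑ f ∈ S X, L / nm f *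
      DICt M σ w X g d e f (Lde X L ε d e) := by
    simp_rw [← Finset.mul_sum]
    refine mul_le_mul_of_nonneg_left ?_ (by positivity)
    refine Finset.sum_le_sum fun d hd => ?_
    refine Finset.sum_le_sum_of_subset_of_nonneg (pdiv_subset hX0 (Finset.mem_filter.1 hd).1)
      (fun e _ _ => ?_)
    exact Finset.sum_nonneg fun f _ => mul_nonneg (div_nonneg hL0.le (Nat.cast_nonneg _))
      (DICt_nonneg _ _ _ _ _ _ _ _ _)
  have b2 : ∑ d ∈ A, ∑ e ∈ pdiv d, ∑ f ∈ S X, 2 * Real.pi * L / (Real.sqrt 3 * nm e) *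
      ‖∑' l : Eis, (if Hn (g * d) e l ∧ ¬ (l = 0 ∨ (nm l : ℝ) ≤ Lde X L ε d e) then
        qf (wc (tw g w)) X L d e f l else 0)‖ ≤ Ct * L * W := by
    refine le_trans ?_ ((htail X L hX hL (wc (tw g w)) (fun d => Hn (g * d))).trans ?_)
    · refine Finset.sum_le_sum_of_subset_of_nonneg (Finset.filter_subset _ _) (fun d _ _ => ?_)
      refine Finset.sum_nonneg fun e _ => Finset.sum_nonneg fun f _ => ?_
      exact mul_nonneg (div_nonneg (mul_nonneg (mul_nonneg (by norm_num) hπ.le) hL0.le)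
        (mul_nonneg h3.le (Nat.cast_nonneg _))) (norm_nonneg _)
    · exact mul_le_mul_of_nonneg_left ((norm_wc_le _ hX0).trans (sum_tw_le w g hX0))
        (by positivity)
  refine (add_le_add b1 b2).trans ?_
  exact aux_fin hκc.le hCt.le hL0.le hW0 hXs.le hDD0

end Crest.Agent.R017.PX6
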