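import Crest.Agent.R017.PX6a_241

/-!
# Row 17, exceptional class, rule (P'_ex) with a twist `g`, part b (helper241): mean square of
# `th (g l)` over ALL `l`

* `ft3_rec` : `F^{pg}_b(A) = n6(p)² F^g_{bp}(A) + F^g_b(A / nm p²)`
* `P3all_g` : `Σ_{l ≠ 0, (l,b)=1} |th (g l)|² e^{-nm l / A} = nm(g)^(-1/3) 3 c0 PE(b) A^(2/3) + O(..)`
-/

set_option autoImplicit false

noncomputable section

namespace Crest.Agent.R017.PX6

open Crest.Agent.R012 MeasureTheory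
open Eis CharSum852 Gauss880 Tau671 Mob705 LS2
open Crest.Agent.R017.PX764 Crest.Agent.R017.PX5
open Crest.Agent.R017.P3all283 (ft3 c0 c0_pos P3all_one summable_ft3 one_le_tau)
open Div277 (tau tau_le_rpow tau_mul_le mem_dvs)
open scoped ComplexConjugate

lemma th_ne_sq {p h : Eis} (hp : Prime p) (hpp : IsPrim p) (hh : ¬ p ∣ h) :
    ‖th (h * p)‖ ^ 2 = n6 p ^ 2 * ‖th h‖ ^ 2 := by
  have hc : IsCoprime h p := ((hp.coprime_iff_not_dvd).2 hh).symm
  rw [th_mul hpp hp.squarefree hc, norm_mul, norm_mul, RCLike.norm_conj,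
    norm_Gh_one hpp hp.squarefree hc, Complex.norm_real, Real.norm_of_nonneg (n6_pos hpp.ne_zero).le]
  ring

open Classical in
/-- the pointwise form -/
lemma ft3_pt {p g b l : Eis} {A : ℝ} (hp : Prime p) (hpp : IsPrim p) (hpg : ¬ p ∣ g) :
    (if p ∣ l then 0 else ft3 (p * g) A b l) = n6 p ^ 2 * ft3 g A (b * p) l := by
  unfold ft3
  by_cases hl : p ∣ l
  · rw [if_pos hl, if_neg, mul_zero]
    rintro ⟨_, hc⟩
    exact hp.not_isUnit (hc.of_mul_right_right.isUnit_of_dvd' hl dvd_rfl)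
  · rw [if_neg hl]
    have hcp : IsCoprime l p := ((hp.coprime_iff_not_dvd).2 hl).symm
    by_cases h : l ≠ 0 ∧ IsCoprime l b
    · rw [if_pos h, if_pos ⟨h.1, h.2.mul_right hcp⟩]
      have hgl : ¬ p ∣ g * l := fun hd => (hp.dvd_or_dvd hd).elim hpg hl
      have e := th_ne_sq hp hpp hgl
      rw [show p * g * l = g * l * p by ring, e]
      ring
    · rw [if_neg h, if_neg (fun hh => h ⟨hh.1, hh.2.of_mul_right_left⟩), mul_zero]

lemma nm_p_pos {p : Eis} (hp : Prime p) : (0 : ℝ) < nm p := by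
  exact_mod_cast nm_pos.2 hp.ne_zero

open Classical in
lemma ft3_pt2 {p g b m : Eis} {A : ℝ} (hA : 0 < A) (hp : Prime p) (hpp : IsPrim p)
    (hpb : ¬ p ∣ b) :
    ft3 (p * g) A b (p ^ 2 * m) = ft3 g (A / (nm p : ℝ) ^ 2) b m := by
  unfold ft3
  have hcp : IsCoprime p b := (hp.coprime_iff_not_dvd).2 hpb
  have hnp := nm_p_pos hp
  have h1 : (p ^ 2 * m ≠ 0 ∧ IsCoprime (p ^ 2 * m) b) ↔ (m ≠ 0 ∧ IsCoprime m b) := by
    constructor
    · rintro ⟨a, c⟩
      exact ⟨right_ne_zero_of_mul a, c.of_mul_left_right⟩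
    · rintro ⟨a, c⟩
      exact ⟨mul_ne_zero (pow_ne_zero 2 hp.ne_zero) a, (hcp.pow_left).mul_left c⟩
  by_cases h : m ≠ 0 ∧ IsCoprime m b
  · rw [if_pos h, if_pos (h1.2 h)]
    rw [show p * g * (p ^ 2 * m) = g * m * p ^ 3 by ring, th_cube hpp, nm_mul, nm_pow]
    congr 2
    push_cast
    field_simp
  · rw [if_neg h, if_neg (fun hh => h (h1.1 hh))]

open Classical in
lemma ft3_zero {p g b l : Eis} {A : ℝ} (hp : Prime p) (hpp : IsPrim p) (hpg : ¬ p ∣ g)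
    (hl : p ∣ l) (hl2 : ¬ p ^ 2 ∣ l) : ft3 (p * g) A b l = 0 := by
  unfold ft3
  split_ifs with h
  · obtain ⟨m, rfl⟩ := hl
    have hm : ¬ p ∣ m := by
      rintro ⟨t, rfl⟩
      exact hl2 ⟨t, by ring⟩
    have hgm : ¬ p ∣ g * m := fun hd => (hp.dvd_or_dvd hd).elim hpg hm
    rw [show p * g * (p * m) = g * m * p ^ 2 by ring, th_two hp hpp hgm]
    simp
  · rfl

open Classical in
/-- **the recursion** -/
theorem ft3_rec {p g b : Eis} {A : ℝ} (hA : 0 < A) (hp : Prime p) (hpp : IsPrim p) (hg : g ≠ 0)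
    (hpg : ¬ p ∣ g) (hpb : ¬ p ∣ b) :
    ∑' l, ft3 (p * g) A b l =
      n6 p ^ 2 * ∑' l, ft3 g A (b * p) l + ∑' l, ft3 g (A / (nm p : ℝ) ^ 2) b l := by
  have hnp := nm_p_pos hp
  have hs := summable_ft3 (r := p * g) (mul_ne_zero hp.ne_zero hg) hA b
  have hs1 := (summable_ft3 (r := g) hg hA (b * p)).mul_left (n6 p ^ 2)
  have e1 : ∀ l, ft3 (p * g) A b l = n6 p ^ 2 * ft3 g A (b * p) l +
      (if p ∣ l then ft3 (p * g) A b l else 0) := by
    intro l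
    rw [← ft3_pt (A := A) (b := b) (l := l) hp hpp hpg]
    split_ifs <;> simp
  have hs2 : Summable (fun l => if p ∣ l then ft3 (p * g) A b l else 0) := by
    refine Summable.of_nonneg_of_le (fun l => ?_) (fun l => ?_) hs
    · split_ifs
      · exact P3all283.fr_nonneg _ _ _ _ _
      · exact le_rfl
    · split_ifs
      · exact le_rfl
      · exact P3all283.fr_nonneg _ _ _ _ _
  rw [tsum_congr e1, hs1.tsum_add hs2, tsum_mul_left]
  congr 1
  have hinj : Function.Injective (fun m : Eis => p ^ 2 * m) :=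
    mul_right_injective₀ (pow_ne_zero 2 hp.ne_zero)
  rw [← hinj.tsum_eq (f := fun l => if p ∣ l then ft3 (p * g) A b l else 0)]
  · apply tsum_congr
    intro m
    rw [if_pos ⟨p * m, by ring⟩, ft3_pt2 hA hp hpp hpb]
  · intro l hl
    rw [Function.mem_support] at hl
    by_cases h : p ∣ l
    · rw [if_pos h] at hl
      by_cases h2 : p ^ 2 ∣ l
      · obtain ⟨m, rfl⟩ := h2
        exact ⟨m, rfl⟩
      · exact absurd (ft3_zero hp hpp hpg h h2) hl
    · rw [if_neg h] at hl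
      exact absurd rfl hl

lemma PE_p {p : Eis} (hp : IsPP p) : PE p = 1 - 1 / (nm p : ℝ) := by
  unfold PE
  rw [pp_prime hp, Finset.prod_singleton]

lemma dvs_subset {g m : Eis} (hm : m ≠ 0) (h : g ∣ m) : tau g ≤ tau m :=
  Div277.tau_le_of_dvd hm h

lemma tau_p_mul {p g : Eis} (hp : IsPP p) (hg : IsPrim g) (hpg : ¬ p ∣ g) :
    2 * tau g ≤ tau (p * g) := by
  classical
  unfold tau
  have h1 : (Div277.dvs g) ∪ (Div277.dvs g).image (fun d => p * d) ⊆ Div277.dvs (p * g) := by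
    intro x hx
    have hpg0 : p * g ≠ 0 := mul_ne_zero hp.ne_zero hg.ne_zero
    rw [Finset.mem_union, Finset.mem_image] at hx
    rw [mem_dvs hpg0]
    rcases hx with hx | ⟨d, hd, rfl⟩
    · rw [mem_dvs hg.ne_zero] at hx
      exact ⟨hx.1, hx.2.mul_left p⟩
    · rw [mem_dvs hg.ne_zero] at hd
      exact ⟨hp.1.mul hd.1, mul_dvd_mul_left p hd.2⟩
  have h2 : Disjoint (Div277.dvs g) ((Div277.dvs g).image (fun d => p * d)) := by
    rw [Finset.disjoint_left]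
    intro x hx hx2
    rw [Finset.mem_image] at hx2
    obtain ⟨d, _, rfl⟩ := hx2
    rw [mem_dvs hg.ne_zero] at hx
    exact hpg ((dvd_mul_right p d).trans hx.2)
  have h3 := Finset.card_le_card h1
  rw [Finset.card_union_of_disjoint h2, Finset.card_image_of_injective _
    (mul_right_injective₀ hp.ne_zero)] at h3
  omega

lemma log_mono' {A B : ℝ} (hA : 0 < A) (h : A ≤ B) : 1 + Real.log (1 + A) ≤ 1 + Real.log (1 + B) := by
  have := Real.log_le_log (show (0 : ℝ) < 1 + A by linarith) (show 1 + A ≤ 1 + B by linarith)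
  linarith

/-- the main term recursion -/
lemma main_rec {p : Eis} (hp : IsPP p) {A K : ℝ} (hA : 0 < A) (x : ℝ) :
    n6 p ^ 2 * (x * (K * (1 - 1 / (nm p : ℝ)) * A ^ ((2 : ℝ) / 3))) +
      x * (K * (A / (nm p : ℝ) ^ 2) ^ ((2 : ℝ) / 3)) =
      n6 p ^ 2 * x * (K * A ^ ((2 : ℝ) / 3)) := by
  have hn : (0 : ℝ) < nm p := nm_p_pos hp.2
  have e1 : n6 p ^ 2 = (nm p : ℝ) ^ (-(1 : ℝ) / 3) := by
    unfold n6
    rw [← Real.rpow_natCast, ← Real.rpow_mul hn.le]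
    norm_num
  have e2 : (A / (nm p : ℝ) ^ 2) ^ ((2 : ℝ) / 3) = A ^ ((2 : ℝ) / 3) *
      ((nm p : ℝ) ^ (-(1 : ℝ) / 3) * (1 / (nm p : ℝ))) := by
    rw [Real.div_rpow hA.le (by positivity), div_eq_mul_inv]
    congr 1
    rw [← Real.rpow_natCast, ← Real.rpow_mul hn.le, ← Real.rpow_neg hn.le, one_div,
      ← Real.rpow_neg_one, ← Real.rpow_add hn]
    norm_num
  rw [e2, e1]
  ring

/-- the error recursion -/
lemma err_rec {p : Eis} (hp : IsPP p) {A : ℝ} (hA : 0 < A) :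
    n6 p ^ 2 * (A ^ ((1 : ℝ) / 3) * (1 + Real.log (1 + A))) +
      (A / (nm p : ℝ) ^ 2) ^ ((1 : ℝ) / 3) * (1 + Real.log (1 + A / (nm p : ℝ) ^ 2)) ≤
      2 * (A ^ ((1 : ℝ) / 3) * (1 + Real.log (1 + A))) := by
  have hn : (1 : ℝ) ≤ nm p := by exact_mod_cast nm_pos.2 hp.2.ne_zero
  have hn2 : (1 : ℝ) ≤ (nm p : ℝ) ^ 2 := one_le_pow₀ hn
  have h6 := n6_le_one hp.1.ne_zero
  have h60 := n6_pos hp.1.ne_zero
  have hA2 : A / (nm p : ℝ) ^ 2 ≤ A := div_le_self hA.le hn2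
  have hA20 : 0 < A / (nm p : ℝ) ^ 2 := by positivity
  have hlog : 0 ≤ 1 + Real.log (1 + A) := by
    have := Real.log_nonneg (show (1 : ℝ) ≤ 1 + A by linarith)
    linarith
  have hlog2 : 0 ≤ 1 + Real.log (1 + A / (nm p : ℝ) ^ 2) := by
    have := Real.log_nonneg (show (1 : ℝ) ≤ 1 + A / (nm p : ℝ) ^ 2 by linarith)
    linarith
  have b1 : n6 p ^ 2 ≤ 1 := pow_le_one₀ h60.le h6
  have b2 : (A / (nm p : ℝ) ^ 2) ^ ((1 : ℝ) / 3) ≤ A ^ ((1 : ℝ) / 3) :=
    Real.rpow_le_rpow hA20.le hA2 (by norm_num)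
  have b3 := log_mono' hA20 hA2
  have hA3 : 0 ≤ A ^ ((1 : ℝ) / 3) := by positivity
  have c1 : n6 p ^ 2 * (A ^ ((1 : ℝ) / 3) * (1 + Real.log (1 + A))) ≤
      1 * (A ^ ((1 : ℝ) / 3) * (1 + Real.log (1 + A))) := by gcongr
  have c2 : (A / (nm p : ℝ) ^ 2) ^ ((1 : ℝ) / 3) * (1 + Real.log (1 + A / (nm p : ℝ) ^ 2)) ≤
      A ^ ((1 : ℝ) / 3) * (1 + Real.log (1 + A)) := mul_le_mul b2 b3 hlog2 hA3
  linarith

/-- **mean square of `th (g l)` over all `l`** -/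
theorem P3all_g : ∃ (C : ℝ) (k : ℕ), 0 ≤ C ∧ ∀ g : Eis, IsPrim g → Squarefree g →
    ∀ (A : ℝ) (b : Eis), 0 < A → IsPrim b → IsCoprime g b →
    |∑' l, ft3 g A b l - n6 g ^ 2 * (3 * c0 * PE b * A ^ ((2 : ℝ) / 3))| ≤
      C * tau g * (tau (b * g) : ℝ) ^ k * (A ^ ((1 : ℝ) / 3) * (1 + Real.log (1 + A))) := by
  obtain ⟨C, k, hC, H⟩ := P3all_one
  refine ⟨C, k, hC, fun g hg => ?_⟩
  refine Sym645.prim_induction (P := fun g => Squarefree g → ∀ (A : ℝ) (b : Eis), 0 < A →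
    IsPrim b → IsCoprime g b →
    |∑' l, ft3 g A b l - n6 g ^ 2 * (3 * c0 * PE b * A ^ ((2 : ℝ) / 3))| ≤
      C * tau g * (tau (b * g) : ℝ) ^ k * (A ^ ((1 : ℝ) / 3) * (1 + Real.log (1 + A)))) ?_ ?_ hg
  · intro _ A b hA hb _
    have h := (H A b hA hb).2
    have ht : tau (1 : Eis) = 1 := by
      have h1 : 1 ≤ tau (1 : Eis) := Div277.one_le_tau one_ne_zero
      have h2 : Div277.dvs 1 ⊆ {1} := by
        intro x hx
        rw [mem_dvs one_ne_zero] at hx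
        rw [Finset.mem_singleton]
        exact isPrim_eq_one_of_isUnit hx.1 (isUnit_of_dvd_one hx.2)
      have h3 := Finset.card_le_card h2
      rw [Finset.card_singleton] at h3
      unfold tau at *
      omega
    rw [n6_one, mul_one, ht]
    calc _ = |∑' l, ft3 1 A b l - 3 * c0 * PE b * A ^ ((2 : ℝ) / 3)| := by
          congr 1; ring
      _ ≤ _ := h
      _ = _ := by push_cast; ring
  · intro p g1 hp hpp hg1 ih hsf A b hA hb hc
    have hpP : IsPP p := ⟨hpp, hp⟩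
    have hsg : Squarefree g1 := hsf.of_mul_right
    have hpg : ¬ p ∣ g1 := by
      rintro ⟨t, rfl⟩
      exact hp.not_isUnit (hsf p ⟨t, by ring⟩)
    have hcp : IsCoprime p b := hc.of_mul_left_left
    have hcg : IsCoprime g1 b := hc.of_mul_left_right
    have hpb : ¬ p ∣ b := (hp.coprime_iff_not_dvd).1 hcp
    have hgp : IsCoprime g1 p := ((hp.coprime_iff_not_dvd).2 hpg).symm
    have hn1 : (1 : ℝ) ≤ nm p := by exact_mod_cast nm_pos.2 hp.ne_zero
    have hA2 : 0 < A / (nm p : ℝ) ^ 2 := by positivity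
    have i1 := ih hsg A (b * p) hA (hb.mul hpp) (hcg.mul_right hgp)
    have i2 := ih hsg (A / (nm p : ℝ) ^ 2) b hA2 hb hcg
    rw [ft3_rec hA hp hpp hg1.ne_zero hpg hpb, n6_mul]
    have hPE : PE (b * p) = PE b * (1 - 1 / (nm p : ℝ)) := by
      rw [PX5.PE_mul hb.ne_zero hp.ne_zero hcp.symm, PE_p hpP]
    rw [hPE] at i1
    have hm := main_rec hpP (K := 3 * c0 * PE b) hA (n6 g1 ^ 2)
    set F1 := ∑' l, ft3 g1 A (b * p) l with hF1
    set F2 := ∑' l, ft3 g1 (A / (nm p : ℝ) ^ 2) b l with hF2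
    set M1 := n6 g1 ^ 2 * (3 * c0 * (PE b * (1 - 1 / (nm p : ℝ))) * A ^ ((2 : ℝ) / 3)) with hM1
    set M2 := n6 g1 ^ 2 * (3 * c0 * PE b * (A / (nm p : ℝ) ^ 2) ^ ((2 : ℝ) / 3)) with hM2
    have e1 : n6 p ^ 2 * F1 + F2 - (n6 p * n6 g1) ^ 2 * (3 * c0 * PE b * A ^ ((2 : ℝ) / 3)) =
        n6 p ^ 2 * (F1 - M1) + (F2 - M2) := by
      rw [hM1, hM2]
      linear_combination hm
    rw [e1]
    have hlog : ∀ A : ℝ, 0 < A → 0 ≤ 1 + Real.log (1 + A) := by
      intro A hA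
      have := Real.log_nonneg (show (1 : ℝ) ≤ 1 + A by linarith)
      linarith
    have hl1 := hlog A hA
    have hl2 := hlog _ hA2
    have hT0 : b * (p * g1) ≠ 0 := mul_ne_zero hb.ne_zero (mul_ne_zero hp.ne_zero hg1.ne_zero)
    have t1 : (tau (b * p * g1) : ℝ) ^ k ≤ (tau (b * (p * g1)) : ℝ) ^ k := by
      rw [mul_assoc]
    have t2 : (tau (b * g1) : ℝ) ^ k ≤ (tau (b * (p * g1)) : ℝ) ^ k := by
      have : tau (b * g1) ≤ tau (b * (p * g1)) :=
        Div277.tau_le_of_dvd hT0 ⟨p, by ring⟩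
      gcongr
    have t3 : 2 * (tau g1 : ℝ) ≤ tau (p * g1) := by exact_mod_cast tau_p_mul hpP hg1 hpg
    set E1 := A ^ ((1 : ℝ) / 3) * (1 + Real.log (1 + A)) with hE1
    set E2 := (A / (nm p : ℝ) ^ 2) ^ ((1 : ℝ) / 3) * (1 + Real.log (1 + A / (nm p : ℝ) ^ 2))
      with hE2
    have hE10 : 0 ≤ E1 := mul_nonneg (by positivity) hl1
    have hE20 : 0 ≤ E2 := mul_nonneg (by positivity) hl2
    have her : n6 p ^ 2 * E1 + E2 ≤ 2 * E1 := err_rec hpP hA
    set T := (tau (b * (p * g1)) : ℝ) ^ k with hT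
    have hTn : 0 ≤ T := by positivity
    calc |n6 p ^ 2 * (F1 - M1) + (F2 - M2)| ≤ |n6 p ^ 2 * (F1 - M1)| + |F2 - M2| :=
          abs_add_le _ _
      _ = n6 p ^ 2 * |F1 - M1| + |F2 - M2| := by
          rw [abs_mul, abs_of_nonneg (by positivity : 0 ≤ n6 p ^ 2)]
      _ ≤ n6 p ^ 2 * (C * tau g1 * T * E1) + C * tau g1 * T * E2 := by
          refine add_le_add (mul_le_mul_of_nonneg_left (i1.trans ?_) (by positivity))
            (i2.trans ?_)
          · gcongr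
          · gcongr
      _ = C * tau g1 * T * (n6 p ^ 2 * E1 + E2) := by ring
      _ ≤ C * tau g1 * T * (2 * E1) := by gcongr
      _ = C * (2 * tau g1) * T * E1 := by ring
      _ ≤ C * tau (p * g1) * T * E1 := by gcongr

end Crest.Agent.R017.PX6
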