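import Crest.Agent.R017.PX6b_241

/-!
# Row 17, exceptional class, rule (P'_ex) with a twist `g`, part c (helper241): pairs

* `VRt`, `CrossT`, `TG_DkT`, `norm_TG_DkT_le`, `pair_errT`
-/

set_option autoImplicit false

noncomputable section

namespace Crest.Agent.R017.PX6

open Crest.Agent.R012 MeasureTheory
open Eis CharSum852 Gauss880 Tau671 Mob705 LS2 CR2 MelSep811 DualIneq811
open Crest.Agent.R017.PA842 Crest.Agent.R017.PM106 Crest.Agent.R017.PX764 Crest.Agent.R017.PX5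
open Crest.Agent.R017.P3all283 (ft3 c0 P3all_one summable_ft3)
open scoped ComplexConjugate

/-- the twisted corrected Gauss side -/
def VRt (X L : ℝ) (g : Eis) (w : Eis → ℂ) : ℝ :=
  ∑' h : Eis, wL L h * ‖Rf X w (g * h)‖ ^ 2

/-- the twisted kernel -/
def DkT (g h n : Eis) : ℂ := Dk (g * h) n

lemma VRt_eq_GV (X L : ℝ) (g : Eis) (w : Eis → ℂ) : VRt X L g w = GV (wL L) (DkT g) X w := rfl

lemma VRt_one (X L : ℝ) (w : Eis → ℂ) : VRt X L 1 w = VR X L w := by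
  rw [VR_eq_GV, VRt_eq_GV]
  unfold GV DkT
  simp only [one_mul]

lemma KH_DkT {L : ℝ} (hL : 0 < L) {g : Eis} (hg : g ≠ 0) : KH (wL L) (DkT g) (1 + pC) :=
  ⟨wL_nonneg L, summable_wL hL,
    fun _ hh _ hn => norm_Dk_le (mul_ne_zero hg (ne_of_wL hh)) hn⟩

lemma VRt_nonneg {L : ℝ} (hL : 0 < L) {g : Eis} (hg : g ≠ 0) (X : ℝ) (w : Eis → ℂ) :
    0 ≤ VRt X L g w := by
  rw [VRt_eq_GV]; exact GV_nonneg (KH_DkT hL hg) X w

lemma summable_VRt {L : ℝ} (hL : 0 < L) {X : ℝ} (hX : 0 ≤ X) {g : Eis} (hg : g ≠ 0)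
    (w : Eis → ℂ) : Summable fun h : Eis => wL L h * ‖Rf X w (g * h)‖ ^ 2 := by
  refine Summable.of_nonneg_of_le (fun h => mul_nonneg (wL_nonneg L h) (by positivity))
    (fun h => ?_) ((summable_wL hL).mul_right ((∑ n ∈ S X, ‖w n‖ * (1 + pC)) ^ 2))
  by_cases h0 : h = 0
  · rw [h0]
    unfold wL
    rw [if_pos rfl, zero_mul, zero_mul]
  · refine mul_le_mul_of_nonneg_left ?_ (wL_nonneg L h)
    have : ‖Rf X w (g * h)‖ ≤ ∑ n ∈ S X, ‖w n‖ * (1 + pC) := by
      unfold Rf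
      refine (norm_sum_le _ _).trans (Finset.sum_le_sum fun n hn => ?_)
      rw [norm_mul]
      have hn' := ((mem_S hX).1 hn).2.1
      exact mul_le_mul_of_nonneg_left (norm_Dk_le (mul_ne_zero hg h0) hn') (norm_nonneg _)
    gcongr

/-- **large gcds** -/
theorem VRt_restr_le {X L : ℝ} (hX : 0 ≤ X) (hL : 0 < L) {w : Eis → ℂ} (hw : Supp w X)
    {g g' : Eis} (hg : IsPrim g) (hg' : IsPrim g') (hgs : Squarefree g') :
    VRt X L g (restr w g') ≤ VRt (X / nm g') L (g * g') (sub w g') := by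
  have hX' : 0 ≤ X / nm g' := by positivity
  unfold VRt
  refine (summable_VRt hL hX hg.ne_zero _).tsum_le_tsum (fun h => ?_)
    (summable_VRt hL hX' (mul_ne_zero hg.ne_zero hg'.ne_zero) _)
  refine mul_le_mul_of_nonneg_left ?_ (wL_nonneg L h)
  rw [Rf_restr hX hw hg' hgs, norm_mul, show g * h * g' = g * g' * h by ring]
  apply pow_le_pow_left₀ (by positivity)
  exact mul_le_of_le_one_left (norm_nonneg _) (norm_Gh_le hg')

lemma crs_eqT (g : Eis) (L : ℝ) (n1 n2 : Eis) :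
    PX764.crs g L n1 n2 = ∑' h : Eis, (wL L h : ℂ) * (Bk (g * h) n1 * conj (Dk (g * h) n2)) := by
  unfold PX764.crs wL Bk
  apply tsum_congr
  intro l
  split_ifs
  · simp
  · ring

/-- **the pair kernel of `Dk`, twisted** -/
theorem KKDT {L : ℝ} (hL : 0 < L) {g : Eis} (hg : g ≠ 0) {n1 n2 : Eis} (h1 : IsPrim n1)
    (h2 : IsPrim n2) :
    ∑' h : Eis, (wL L h : ℂ) * (Dk (g * h) n1 * conj (Dk (g * h) n2)) =
      ∑' h : Eis, (wL L h : ℂ) * (Gh (g * h) n1 * conj (Gh (g * h) n2)) -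
        (pC : ℂ) ^ 2 * ∑' h : Eis, (wL L h : ℂ) * (Bk (g * h) n1 * conj (Bk (g * h) n2)) -
        (pC : ℂ) * conj (PX764.crs g L n2 n1) - (pC : ℂ) * PX764.crs g L n1 n2 := by
  have b1 : ∀ h n : Eis, h ≠ 0 → IsPrim n → ‖Bk (g * h) n‖ ≤ 1 := fun h n hh hn =>
    norm_thmd_le (mul_ne_zero hg hh) hn
  have sG : Summable fun h : Eis => (wL L h : ℂ) * (Gh (g * h) n1 * conj (Gh (g * h) n2)) :=
    summable_w hL (B := 1 * 1) fun h _ => by
      rw [norm_mul, RCLike.norm_conj]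
      exact mul_le_mul (norm_Gh_le h1) (norm_Gh_le h2) (norm_nonneg _) zero_le_one
  have sB : Summable fun h : Eis => (wL L h : ℂ) * (Bk (g * h) n1 * conj (Bk (g * h) n2)) :=
    summable_w hL (B := 1 * 1) fun h hh => by
      rw [norm_mul, RCLike.norm_conj]
      exact mul_le_mul (b1 h _ hh h1) (b1 h _ hh h2) (norm_nonneg _) zero_le_one
  have hp : 0 ≤ 1 + pC := by linarith [pC_pos]
  have s12 : Summable fun h : Eis => (wL L h : ℂ) * (Bk (g * h) n1 * conj (Dk (g * h) n2)) :=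
    summable_w hL (B := 1 * (1 + pC)) fun h hh => by
      rw [norm_mul, RCLike.norm_conj]
      exact mul_le_mul (b1 h _ hh h1) (norm_Dk_le (mul_ne_zero hg hh) h2) (norm_nonneg _)
        zero_le_one
  have s21 : Summable fun h : Eis =>
      (wL L h : ℂ) * conj (Bk (g * h) n2 * conj (Dk (g * h) n1)) :=
    summable_w hL (B := 1 * (1 + pC)) fun h hh => by
      rw [RCLike.norm_conj, norm_mul, RCLike.norm_conj]
      exact mul_le_mul (b1 h _ hh h2) (norm_Dk_le (mul_ne_zero hg hh) h1) (norm_nonneg _)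
        zero_le_one
  have e21 : conj (PX764.crs g L n2 n1) =
      ∑' h : Eis, (wL L h : ℂ) * conj (Bk (g * h) n2 * conj (Dk (g * h) n1)) := by
    rw [crs_eqT, Complex.conj_tsum]
    apply tsum_congr
    intro h
    rw [map_mul, Complex.conj_ofReal]
  rw [e21, crs_eqT g L n1 n2, ← tsum_mul_left, ← tsum_mul_left, ← tsum_mul_left,
    ← sG.tsum_sub (sB.mul_left _), ← (sG.sub (sB.mul_left _)).tsum_sub (s21.mul_left _),
    ← ((sG.sub (sB.mul_left _)).sub (s21.mul_left _)).tsum_sub (s12.mul_left _)]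
  apply tsum_congr
  intro h
  have e1 : ∀ n : Eis, Dk (g * h) n = Gh (g * h) n - (pC : ℂ) * Bk (g * h) n := by
    intro n
    unfold Dk Bk
    ring
  rw [e1 n1, e1 n2]
  simp only [map_sub, map_mul, Complex.conj_ofReal, Complex.conj_conj]
  ring

open Classical in
/-- **the pair kernel of the bias, twisted** -/
theorem BsumT {L : ℝ} {g d k1 k2 : Eis} (s1 : Squarefree (d * k1)) (s2 : Squarefree (d * k2))
    (g1 : IsCoprime g (d * k1)) (g2 : IsCoprime g (d * k2)) :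
    ∑' h : Eis, (wL L h : ℂ) * (Bk (g * h) (d * k1) * conj (Bk (g * h) (d * k2))) =
      ((n6 (d * k1) * n6 (d * k2) * ∑' h : Eis, ft3 g L (d * k1 * k2) h : ℝ) : ℂ) := by
  rw [← tsum_mul_left, Complex.ofReal_tsum]
  apply tsum_congr
  intro h
  unfold Bk ft3 wL
  by_cases h0 : h = 0
  · rw [if_pos h0, if_neg (fun hh => hh.1 h0)]
    simp
  · rw [if_neg h0]
    by_cases hc : IsCoprime h (d * k1 * k2)
    · have c1 : IsCoprime (d * k1) (g * h) := g1.symm.mul_right hc.of_mul_right_left.symm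
      have c2 : IsCoprime (d * k2) (g * h) := g2.symm.mul_right
        (hc.of_mul_right_left.of_mul_right_left.mul_right hc.of_mul_right_right).symm
      rw [if_pos ⟨h0, hc⟩]
      unfold md
      rw [if_pos ⟨s1, c1⟩, if_pos ⟨s2, c2⟩, map_mul, Complex.conj_ofReal]
      have e1 : th (g * h) * conj (th (g * h)) = ((‖th (g * h)‖ ^ 2 : ℝ) : ℂ) := by
        rw [Complex.mul_conj, Complex.normSq_eq_norm_sq]
      calc _ = ((Real.exp (-(nm h : ℝ) / L) : ℝ) : ℂ) * (th (g * h) * conj (th (g * h))) *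
            ((n6 (d * k1) : ℂ) * (n6 (d * k2) : ℂ)) := by ring
        _ = _ := by
          rw [e1]
          push_cast
          ring
    · rw [if_neg (fun hh => hc hh.2)]
      by_cases c1 : IsCoprime (d * k1) (g * h)
      · have c2 : ¬ IsCoprime (d * k2) (g * h) := fun c2 =>
          hc (c1.of_mul_right_right.symm.mul_right c2.of_mul_right_right.symm.of_mul_right_right)
        have : md (g * h) (d * k2) = 0 := by
          unfold md
          rw [if_neg (fun hh => c2 hh.2)]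
        rw [this]
        simp
      · have : md (g * h) (d * k1) = 0 := by
          unfold md
          rw [if_neg (fun hh => c1 hh.2)]
        rw [this]
        simp

/-! ### the decomposition -/

lemma ws_tw (w : Eis → ℂ) (g : Eis) (X : ℝ) (n : Eis) :
    ws (tw g w) X n = ws w X n * conj (sy g n) := by
  classical
  unfold ws tw
  split_ifs
  · rfl
  · simp

lemma cpS_tw (w : Eis → ℂ) (g : Eis) (X : ℝ) (d : Eis) (Ψ : Eis → Eis → ℂ) :
    cpS X (ws (tw g w) X) (ws (tw g w) X) d Ψ =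
      cpS X (ws w X) (ws w X) d (fun k1 k2 => conj (sy g (d * k1)) * sy g (d * k2) * Ψ k1 k2) := by
  unfold cpS
  refine Finset.sum_congr rfl fun k1 _ => Finset.sum_congr rfl fun k2 _ => ?_
  split_ifs
  · rw [ws_tw, ws_tw]
    simp only [map_mul, Complex.conj_conj]
    ring
  · rfl

lemma Gh_tw {g h n : Eis} (hn : IsPrim n) : Gh (g * h) n = conj (sy g n) * Gh h n := by
  unfold Gh
  rw [syG.mul_left _ _ _ hn, map_mul]
  ring

lemma CCH_splitT {X L : ℝ} (hX : 0 ≤ X) (hL : 0 < L) (g : Eis) {d : Eis} (hd : d ∈ S X)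
    (c : Eis → ℂ) :
    CC (1 / (Real.pi * L)) (PX X) (cs c X) (pp d) =
      cpS X (ws c X) (ws c X) d (Psi L H0 d) + cpS X (ws c X) (ws c X) d (Psi L (Hc (g * d)) d) +
      CCH (1 / (Real.pi * L)) (PX X) (cs c X) (pp d) (fun E l => Hn (g * d) (pr E) l) := by
  have ht : 0 < 1 / (Real.pi * L) := by have := Real.pi_pos; positivity
  have hPS := isPS_PX hX
  have hD := pp_subset_PX hX hd
  rw [CC_eq_CCH ht hPS]
  rw [CCH_add ht hPS (cs c X) hD (H := fun _ _ => True) (H1 := fun _ l => l = 0)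
    (H2 := fun _ l => l ≠ 0) (fun E _ h => ⟨fun _ => em _, fun _ => trivial⟩)
    (fun E _ h h1 h2 => h2 h1)]
  rw [CCH_add ht hPS (cs c X) hD (H := fun _ l => l ≠ 0) (H1 := fun E l => Hc (g * d) (pr E) l)
    (H2 := fun E l => Hn (g * d) (pr E) l)
    (fun E _ h => ⟨fun h0 => by
      by_cases hh : Hn (g * d) (pr E) h
      · exact Or.inr hh
      · exact Or.inl ⟨h0, hh⟩, fun h => h.elim (fun h => h.1) (fun h => Hn_ne_zero h)⟩)
    (fun E _ h h1 h2 => h1.2 h2)]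
  rw [← add_assoc]
  congr 2
  · exact CCH_eq_cpS hX hL hd H0 c
  · exact CCH_eq_cpS hX hL hd (Hc (g * d)) c

open Classical in
/-- the twisted cross term of the pairs with gcd `d` -/
def CrossT (X L : ℝ) (g : Eis) (w : Eis → ℂ) (d : Eis) : ℂ :=
  ∑ m₁ ∈ S X, ∑ m₂ ∈ S X, if IsCoprime m₁ m₂ then
    ws w X (d * m₁) * conj (ws w X (d * m₂)) * PX764.crs g L (d * m₁) (d * m₂) else 0

lemma CrossT_eq (X L : ℝ) (g : Eis) (w : Eis → ℂ) (d : Eis) : CrossT X L g w d =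
    cpS X (ws w X) (ws w X) d (fun k1 k2 => PX764.crs g L (d * k1) (d * k2)) := rfl

/-- the pair part -/
def PPT (X L : ℝ) (g : Eis) (w : Eis → ℂ) (d : Eis) : ℂ :=
  cpS X (ws w X) (ws w X) d (fun k1 k2 =>
    conj (sy g (d * k1)) * sy g (d * k2) *
      (G (d * k1) * conj (G (d * k2)) * conj (Psi L (Hc (g * d)) d k1 k2)) - (pC : ℂ) ^ 2 *
      ∑' h : Eis, (wL L h : ℂ) * (Bk (g * h) (d * k1) * conj (Bk (g * h) (d * k2))))

/-- **the decomposition of the twisted corrected Gauss side** -/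
theorem TG_DkT {X L : ℝ} (hX : 0 ≤ X) (hL : 0 < L) {g : Eis} (hg : g ≠ 0) {d : Eis}
    (hd : d ∈ S X) (w : Eis → ℂ) :
    TG (wL L) (DkT g) X w d =
      conj (CCH (1 / (Real.pi * L)) (PX X) (cs (wc (tw g w)) X) (pp d)
        (fun E l => Hn (g * d) (pr E) l)) +
      cpS X (ws (tw g w) X) (ws (tw g w) X) d (fun k1 k2 =>
        G (d * k1) * conj (G (d * k2)) * conj (Psi L H0 d k1 k2)) -
      cpS X (ws (tw g w) X) (ws (tw g w) X) d
        (fun k1 k2 => Gh 0 (d * k1) * conj (Gh 0 (d * k2))) +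
      PPT X L g w d -
      (pC : ℂ) * conj (CrossT X L g w d) - (pC : ℂ) * CrossT X L g w d := by
  rw [TG_eq_cpS hX hd]
  have e1 : cpS X (ws w X) (ws w X) d (fun k1 k2 =>
      ∑' h : Eis, (wL L h : ℂ) * (DkT g h (d * k1) * conj (DkT g h (d * k2)))) =
      cpS X (ws w X) (ws w X) d (fun k1 k2 =>
        (((∑' h : Eis, (wL L h : ℂ) * (Gh (g * h) (d * k1) * conj (Gh (g * h) (d * k2)))) -
        (pC : ℂ) ^ 2 * ∑' h : Eis, (wL L h : ℂ) * (Bk (g * h) (d * k1) *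
          conj (Bk (g * h) (d * k2)))) -
        (pC : ℂ) * conj (PX764.crs g L (d * k2) (d * k1))) -
        (pC : ℂ) * PX764.crs g L (d * k1) (d * k2)) := by
    apply cpS_congr
    intro k1 k2 _ _ _ a1 a2
    exact KKDT hL hg ((mem_S hX).1 (ws_ne a1)).2.1 ((mem_S hX).1 (ws_ne a2)).2.1
  have e2 : cpS X (ws w X) (ws w X) d (fun k1 k2 =>
      ∑' h : Eis, (wL L h : ℂ) * (Gh (g * h) (d * k1) * conj (Gh (g * h) (d * k2)))) =
      cpS X (ws (tw g w) X) (ws (tw g w) X) d (fun k1 k2 =>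
      ∑' h : Eis, (wL L h : ℂ) * (Gh h (d * k1) * conj (Gh h (d * k2)))) := by
    rw [cpS_tw]
    apply cpS_congr
    intro k1 k2 _ _ _ a1 a2
    rw [← tsum_mul_left]
    apply tsum_congr
    intro h
    rw [Gh_tw ((mem_S hX).1 (ws_ne a1)).2.1, Gh_tw ((mem_S hX).1 (ws_ne a2)).2.1]
    simp only [map_mul, Complex.conj_conj]
    ring
  rw [e1]
  unfold PPT
  simp only [cpS_sub, cpS_smul]
  rw [e2, TG_Gh hX hL hd, CCH_splitT hX hL g hd, map_add, map_add, conj_cpS, conj_cpS,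
    conj_cpS_swap (ws w X) X d (fun k1 k2 => PX764.crs g L (d * k1) (d * k2)), CrossT_eq,
    ← cpS_tw]
  ring

lemma norm_tw_le {g n : Eis} (hn : IsPrim n) (w : Eis → ℂ) : ‖tw g w n‖ ≤ ‖w n‖ := by
  unfold tw
  rw [norm_mul, RCLike.norm_conj]
  exact mul_le_of_le_one_right (norm_nonneg _) (Tau671.norm_sy_le hn (x := g))

/-- **the norm bound** -/
theorem norm_TG_DkT_le {X L : ℝ} (hX : 1 ≤ X) (hL : 1 ≤ L) {g : Eis} (hg : g ≠ 0) {d : Eis}
    (hd : d ∈ S X) (w : Eis → ℂ) :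
    ‖TG (wL L) (DkT g) X w d‖ ≤
      ‖CCH (1 / (Real.pi * L)) (PX X) (cs (wc (tw g w)) X) (pp d)
        (fun E l => Hn (g * d) (pr E) l)‖ +
      (2 * Real.pi / Real.sqrt 3 + 1) * L * ‖w d‖ ^ 2 +
      ‖PPT X L g w d‖ + 2 * pC * ‖CrossT X L g w d‖ := by
  have hX0 : (0 : ℝ) ≤ X := by linarith
  have hL0 : (0 : ℝ) < L := by linarith
  have hd' := (mem_S hX0).1 hd
  have hpi := Real.pi_pos
  have h3 : 0 < Real.sqrt 3 := by positivity
  rw [TG_DkT hX0 hL0 hg hd w]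
  have hwd : ‖tw g w d‖ ^ 2 ≤ ‖w d‖ ^ 2 :=
    pow_le_pow_left₀ (norm_nonneg _) (norm_tw_le hd'.2.1 w) 2
  have b1 : ‖cpS X (ws (tw g w) X) (ws (tw g w) X) d (fun k1 k2 =>
        G (d * k1) * conj (G (d * k2)) * conj (Psi L H0 d k1 k2))‖ ≤
      2 * Real.pi * L / Real.sqrt 3 * ‖w d‖ ^ 2 := by
    refine (norm_cpS_diag (B := 2 * Real.pi * L / Real.sqrt 3) hX (tw g w) hd (by positivity)
      (fun k1 k2 h1 h2 a1 a2 => ?_)).trans (by gcongr)
    have h1' := (mem_S hX0).1 h1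
    have h2' := (mem_S hX0).1 h2
    have n1 := (mem_S hX0).1 (ws_ne a1)
    have n2 := (mem_S hX0).1 (ws_ne a2)
    rw [norm_mul, norm_mul, RCLike.norm_conj, RCLike.norm_conj, norm_G_one n1.2.1 n1.2.2,
      norm_G_one n2.2.1 n2.2.2, one_mul, one_mul]
    exact norm_Psi_H0_le hL0 hd'.2.1 h1'.2.1 h2'.2.1
  have b2 : ‖cpS X (ws (tw g w) X) (ws (tw g w) X) d
      (fun k1 k2 => Gh 0 (d * k1) * conj (Gh 0 (d * k2)))‖ ≤ 1 * ‖w d‖ ^ 2 := by
    refine (norm_cpS_diag (B := 1) hX (tw g w) hd zero_le_one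
      (fun k1 k2 h1 h2 _ _ => ?_)).trans (by gcongr)
    exact norm_Z0_le hd'.2.1 ((mem_S hX0).1 h1).2.1 ((mem_S hX0).1 h2).2.1
  have b3 : ‖(pC : ℂ) * conj (CrossT X L g w d)‖ = pC * ‖CrossT X L g w d‖ := by
    rw [norm_mul, RCLike.norm_conj, Complex.norm_real, Real.norm_of_nonneg pC_pos.le]
  have b4 : ‖(pC : ℂ) * CrossT X L g w d‖ = pC * ‖CrossT X L g w d‖ := by
    rw [norm_mul, Complex.norm_real, Real.norm_of_nonneg pC_pos.le]
  refine (norm_sub_le _ _).trans ?_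
  rw [b4]
  refine (add_le_add_left (norm_sub_le _ _) _).trans ?_
  rw [b3]
  refine (add_le_add_left (add_le_add_left (norm_add_le _ _) _) _).trans ?_
  refine (add_le_add_left (add_le_add_left (add_le_add_left (norm_sub_le _ _) _) _) _).trans ?_
  refine (add_le_add_left (add_le_add_left (add_le_add_left (add_le_add_left
    (norm_add_le _ _) _) _) _) _).trans ?_
  rw [RCLike.norm_conj]
  have b5 : 2 * Real.pi * L / Real.sqrt 3 * ‖w d‖ ^ 2 + 1 * ‖w d‖ ^ 2 ≤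
      (2 * Real.pi / Real.sqrt 3 + 1) * L * ‖w d‖ ^ 2 := by
    have e : (2 * Real.pi / Real.sqrt 3 + 1) * L * ‖w d‖ ^ 2 =
      2 * Real.pi * L / Real.sqrt 3 * ‖w d‖ ^ 2 + L * ‖w d‖ ^ 2 := by ring
    rw [e]
    gcongr
  linarith

/-! ### cubes -/

/-- the real value -/
def cubRT (L : ℝ) (g d k1 k2 : Eis) : ℝ :=
  2 * Real.pi * L / Real.sqrt 3 * PE d * (1 / 3) * (n2 k1 * n2 k2) *
    TT (nm k1 * nm k2 / (4 * Real.pi ^ 2 * L * nm (g * d))) (k1 * k2)

/-- **the cube frequencies of a pair** -/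
theorem Psi_HcT {L : ℝ} (hL : 0 < L) {g d k1 k2 : Eis} (hd : IsPrim d) (hg : IsPrim g)
    (hs : Squarefree (g * d)) (h1 : IsPrim k1) (h2 : IsPrim k2) (c1 : IsCoprime (g * d) k1)
    (c2 : IsCoprime (g * d) k2) :
    Psi L (Hc (g * d)) d k1 k2 = (cubRT L g d k1 k2 : ℂ) * ((conj (sy (g * d) k1) * G k1) *
      conj (conj (sy (g * d) k2) * G k2)) := by
  classical
  unfold Psi
  have e1 : ∀ e ∈ pdiv d, (mu e : ℂ) * (((2 * Real.pi * L / (Real.sqrt 3 * nm e) : ℝ) : ℂ) *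
      ∑' h : Eis, if Hc (g * d) e h then
        ((Real.exp (-(4 * Real.pi ^ 2 * L * nm h) / (3 * nm e * nm k1 * nm k2)) : ℝ) : ℂ) *
          (U e h k1 * conj (U e h k2)) else 0) =
      (((mu e : ℝ) * (1 / (nm e : ℝ)) : ℝ) : ℂ) * (((2 * Real.pi * L / Real.sqrt 3 : ℝ) : ℂ) *
      ((1 / 3) * ((TT (nm k1 * nm k2 / (4 * Real.pi ^ 2 * L * nm (g * d))) (k1 * k2) : ℝ) : ℂ) *
        ((conj (sy (g * d) k1) * G k1 * (n2 k1 : ℂ)) *
          conj (conj (sy (g * d) k2) * G k2 * (n2 k2 : ℂ))))) := by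
    intro e he
    have he' := (mem_pdiv hd.ne_zero).1 he
    rw [tsum_Hc hL (hg.mul hd) hs he'.1 (he'.2.mul_left g) h1 h2 c1 c2]
    have hne : (nm e : ℂ) ≠ 0 := by exact_mod_cast (nm_pos.2 he'.1.ne_zero).ne'
    have h3 : ((Real.sqrt 3 : ℝ) : ℂ) ≠ 0 := by
      exact_mod_cast (Real.sqrt_pos.2 (by norm_num : (0:ℝ) < 3)).ne'
    push_cast
    field_simp
  rw [Finset.sum_congr rfl e1, ← Finset.sum_mul, ← Complex.ofReal_sum, ← PE_eq_sum hd.ne_zero]
  unfold cubRT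
  rw [map_mul conj (conj (sy (g * d) k2) * G k2) (n2 k2 : ℂ), Complex.conj_ofReal]
  push_cast
  ring

/-- with the Gauss sums -/
theorem Psi_Hc_GT {L : ℝ} (hL : 0 < L) {g d k1 k2 : Eis} (hd : IsPrim d) (hg : IsPrim g)
    (hs : Squarefree (g * d)) (h1 : IsPrim k1) (h2 : IsPrim k2) (s1 : Squarefree k1)
    (s2 : Squarefree k2) (c1 : IsCoprime (g * d) k1) (c2 : IsCoprime (g * d) k2)
    (cgd : IsCoprime g d) :
    conj (sy g (d * k1)) * sy g (d * k2) *
      (G (d * k1) * conj (G (d * k2)) * conj (Psi L (Hc (g * d)) d k1 k2)) =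
      (cubRT L g d k1 k2 : ℂ) := by
  rw [Psi_HcT hL hd hg hs h1 h2 c1 c2, G_mul_all syG hd h1, G_mul_all syG hd h2,
    syG.mul_right g d k1 hd h1, syG.mul_right g d k2 hd h2, syG.mul_left g d k1 h1,
    syG.mul_left g d k2 h2]
  have a1 : G d * conj (G d) = 1 := G_mul_conj syG hd hs.of_mul_right
  have a2 : G k1 * conj (G k1) = 1 := G_mul_conj syG h1 s1
  have a3 : G k2 * conj (G k2) = 1 := G_mul_conj syG h2 s2
  have a4 := norm_sy_one' h1 c1.of_mul_left_right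
  have a5 := norm_sy_one' h2 c2.of_mul_left_right
  have a6 := norm_sy_one' h1 c1.of_mul_left_left
  have a7 := norm_sy_one' h2 c2.of_mul_left_left
  have a8 := norm_sy_one' hd cgd
  simp only [map_mul, Complex.conj_conj, Complex.conj_ofReal]
  calc _ = (cubRT L g d k1 k2 : ℂ) * (G d * conj (G d)) * (G k1 * conj (G k1)) *
        (G k2 * conj (G k2)) * (sy d k1 * conj (sy d k1)) * (sy d k2 * conj (sy d k2)) *
        (sy g k1 * conj (sy g k1)) * (sy g k2 * conj (sy g k2)) * (sy g d * conj (sy g d)) := by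
        ring
    _ = _ := by rw [a1, a2, a3, a4, a5, a6, a7, a8]; ring

end Crest.Agent.R017.PX6
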