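import Crest.Agent.R017.PX6c_241

/-!
# Row 17, exceptional class, rule (P'_ex) with a twist `g`, part d (helper241): errors, one step

* `pair_errT`, `pair_part_leT`, `one_step_T`
-/

set_option autoImplicit false

noncomputable section

namespace Crest.Agent.R017.PX6

open Crest.Agent.R012 MeasureTheory
open Eis CharSum852 Gauss880 Tau671 Mob705 LS2 CR2 MelSep811 DualIneq811
open Crest.Agent.R017.PA842 Crest.Agent.R017.PM106 Crest.Agent.R017.PX764 Crest.Agent.R017.PX5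
open Crest.Agent.R017.P3all283 (ft3 c0 P3all_one summable_ft3)
open Div277 (tau tau_le_rpow tau_mul_le one_le_tau)
open scoped ComplexConjugate

/-- **the pair error** -/
theorem pair_errT : ∃ (C : ℝ) (k : ℕ), 0 ≤ C ∧ ∀ (L : ℝ) (g d k1 k2 : Eis), 1 ≤ L → IsPrim g →
    Squarefree g → IsPrim d → IsPrim k1 → IsPrim k2 → IsCoprime d k1 → IsCoprime d k2 →
    IsCoprime g (d * k1 * k2) →
    |cubRT L g d k1 k2 - pC ^ 2 * (n6 (d * k1) * n6 (d * k2) * ∑' h, ft3 g L (d * k1 * k2) h)| ≤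
      C * (L * (n2 k1 * n2 k2) * tau (k1 * k2) +
        n6 k1 * n6 k2 * ((tau g : ℝ) * (tau (d * k1 * k2 * g) : ℝ) ^ k) * (L ^ ((1 : ℝ) / 3) *
          (1 + Real.log (1 + L)))) := by
  obtain ⟨C1, hC1, H1⟩ := PX241.cube_sum_Z
  obtain ⟨C2, k, hC2, H2⟩ := P3all_g
  have hpi := Real.pi_pos
  have h30 : 0 < Real.sqrt 3 := by positivity
  set κ : ℝ := 2 * Real.pi / Real.sqrt 3 with hκ
  have hκ0 : 0 < κ := by positivity
  refine ⟨κ * C1 + pC ^ 2 * C2, k, by positivity, ?_⟩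
  intro L g d k1 k2 hL hg hgs hd h1 h2 c1 c2 cg
  have hL0 : 0 < L := by linarith
  have hngd : (0 : ℝ) < nm (g * d) := by exact_mod_cast nm_pos.2 (mul_ne_zero hg.ne_zero hd.ne_zero)
  have hn1 : (0 : ℝ) < nm k1 := by exact_mod_cast nm_pos.2 h1.ne_zero
  have hn2 : (0 : ℝ) < nm k2 := by exact_mod_cast nm_pos.2 h2.ne_zero
  set Z : ℝ := nm k1 * nm k2 / (4 * Real.pi ^ 2 * L * nm (g * d)) with hZ
  have hZ0 : 0 < Z := by positivity
  have t1 := (H1 Z (k1 * k2) hZ0 (h1.mul h2)).2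
  have t2 := H2 g hg hgs L (d * k1 * k2) hL0 ((hd.mul h1).mul h2) cg
  have hm := main_eq (Pd := PE d) (Pk := PE (k1 * k2)) hL0 hngd hn1 hn2
  have hPE : PE (d * k1 * k2) = PE d * PE (k1 * k2) := by
    rw [mul_assoc]
    exact PX5.PE_mul hd.ne_zero (mul_ne_zero h1.ne_zero h2.ne_zero) (c1.mul_right c2)
  rw [hPE] at t2
  have e6 : ∀ j : Eis, ((nm (g * d) : ℝ) * nm j) ^ (-(1 : ℝ) / 6) = n6 g * n6 (d * j) := by
    intro j
    rw [← n6_mul]
    unfold n6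
    rw [show g * (d * j) = (g * d) * j by ring, nm_mul (g * d) j]
    push_cast
    rfl
  rw [e6 k1, e6 k2] at hm
  change 2 * Real.pi * L / Real.sqrt 3 * PE d * (1 / 3) * (n2 k1 * n2 k2) * _ = _ at hm
  change |TT Z (k1 * k2) - _| ≤ _ at t1
  set M1 : ℝ := 2 * Real.pi / Real.sqrt 3 * Real.Gamma (4 / 3) * PE (k1 * k2) * Z ^ (1 / 3 : ℝ)
    with hM1
  set M2 : ℝ := 3 * c0 * (PE d * PE (k1 * k2)) * L ^ ((2 : ℝ) / 3) with hM2
  set A1 : ℝ := 2 * Real.pi * L / Real.sqrt 3 * PE d * (1 / 3) * (n2 k1 * n2 k2) with hA1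
  set A2 : ℝ := n6 (d * k1) * n6 (d * k2) with hA2
  have hcub : cubRT L g d k1 k2 = A1 * TT Z (k1 * k2) := rfl
  rw [hcub]
  have e1 : A1 * TT Z (k1 * k2) - pC ^ 2 * (A2 * ∑' h, ft3 g L (d * k1 * k2) h) =
      A1 * (TT Z (k1 * k2) - M1) -
        pC ^ 2 * A2 * (∑' h, ft3 g L (d * k1 * k2) h - n6 g ^ 2 * M2) := by
    linear_combination hm
  rw [e1]
  have hPd := PE_pos d
  have hPd1 := PE_le_one d
  have hA1n : 0 ≤ A1 := by
    have := n2_nonneg k1
    have := n2_nonneg k2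
    positivity
  have hnn : 0 ≤ n2 k1 * n2 k2 := mul_nonneg (n2_nonneg _) (n2_nonneg _)
  have hA1le : A1 ≤ κ * (L * (n2 k1 * n2 k2)) := by
    rw [hA1, hκ]
    have : 2 * Real.pi * L / Real.sqrt 3 * PE d * (1 / 3) * (n2 k1 * n2 k2) =
        (2 * Real.pi / Real.sqrt 3 * (L * (n2 k1 * n2 k2))) * (PE d * (1 / 3)) := by ring
    rw [this]
    apply mul_le_of_le_one_right (by positivity)
    linarith
  have h6a := n6_pos h1.ne_zero
  have h6b := n6_pos h2.ne_zero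
  have h6d := n6_pos hd.ne_zero
  have h6d1 := n6_le_one hd.ne_zero
  have hA2n : 0 ≤ A2 := by
    rw [hA2, n6_mul, n6_mul]
    positivity
  have hA2le : A2 ≤ n6 k1 * n6 k2 := by
    rw [hA2, n6_mul, n6_mul]
    calc n6 d * n6 k1 * (n6 d * n6 k2) = (n6 d * n6 d) * (n6 k1 * n6 k2) := by ring
      _ ≤ 1 * (n6 k1 * n6 k2) := by
        apply mul_le_mul_of_nonneg_right _ (by positivity)
        exact mul_le_one₀ h6d1 h6d.le h6d1
      _ = _ := one_mul _
  have hlog : 0 ≤ Real.log (1 + L) := Real.log_nonneg (by linarith)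
  set E2 : ℝ := (tau g : ℝ) * (tau (d * k1 * k2 * g) : ℝ) ^ k *
    (L ^ ((1 : ℝ) / 3) * (1 + Real.log (1 + L))) with hE2
  have hE20 : 0 ≤ E2 := by positivity
  have t2' : |∑' h, ft3 g L (d * k1 * k2) h - n6 g ^ 2 * M2| ≤ C2 * E2 := by
    refine t2.trans (le_of_eq ?_)
    rw [hE2]; ring
  have b1 : |A1 * (TT Z (k1 * k2) - M1)| ≤ κ * (L * (n2 k1 * n2 k2)) *
      (C1 * tau (k1 * k2)) := by
    rw [abs_mul, abs_of_nonneg hA1n]
    exact mul_le_mul hA1le t1 (abs_nonneg _) (by positivity)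
  have b2 : |pC ^ 2 * A2 * (∑' h, ft3 g L (d * k1 * k2) h - n6 g ^ 2 * M2)| ≤
      pC ^ 2 * (n6 k1 * n6 k2) * (C2 * E2) := by
    rw [abs_mul, abs_of_nonneg (by positivity : 0 ≤ pC ^ 2 * A2)]
    exact mul_le_mul (mul_le_mul_of_nonneg_left hA2le (by positivity)) t2' (abs_nonneg _)
      (by positivity)
  refine (abs_sub _ _).trans ((add_le_add b1 b2).trans ?_)
  have x1 : 0 ≤ L * (n2 k1 * n2 k2) * tau (k1 * k2) := by positivity
  have x2 : 0 ≤ n6 k1 * n6 k2 * E2 := by positivity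
  have y1 : 0 ≤ κ * C1 := by positivity
  have y2 : 0 ≤ pC ^ 2 * C2 := by positivity
  have e2 : n6 k1 * n6 k2 * ((tau g : ℝ) * (tau (d * k1 * k2 * g) : ℝ) ^ k) *
      (L ^ ((1 : ℝ) / 3) * (1 + Real.log (1 + L))) = n6 k1 * n6 k2 * E2 := by rw [hE2]; ring
  rw [e2]
  have z1 := mul_nonneg y1 x2
  have z2 := mul_nonneg y2 x1
  calc κ * (L * (n2 k1 * n2 k2)) * (C1 * tau (k1 * k2)) + pC ^ 2 * (n6 k1 * n6 k2) * (C2 * E2)
      = κ * C1 * (L * (n2 k1 * n2 k2) * tau (k1 * k2)) +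
        pC ^ 2 * C2 * (n6 k1 * n6 k2 * E2) := by ring
    _ ≤ κ * C1 * (L * (n2 k1 * n2 k2) * tau (k1 * k2)) +
        pC ^ 2 * C2 * (n6 k1 * n6 k2 * E2) + κ * C1 * (n6 k1 * n6 k2 * E2) +
        pC ^ 2 * C2 * (L * (n2 k1 * n2 k2) * tau (k1 * k2)) := by linarith
    _ = _ := by ring

/-- coefficients prime to the twist -/
def CopG (g : Eis) (w : Eis → ℂ) : Prop := ∀ n, w n ≠ 0 → IsCoprime g n

/-- **the cubes and the bias, summed** -/
theorem pair_part_leT {ε : ℝ} (hε : 0 < ε) : ∃ C : ℝ, 1 ≤ C ∧ ∀ X L : ℝ, 1 ≤ X → 1 ≤ L →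
    ∀ g : Eis, IsPrim g → Squarefree g → ∀ w : Eis → ℂ, CopG g w →
    ∑ d ∈ S X, ‖PPT X L g w d‖ ≤
      C * (nm g * X * L) ^ ε * (X + L) * ∑ h ∈ S X, ‖w h‖ ^ 2 := by
  obtain ⟨C1, k, hC1, HP⟩ := pair_errT
  set η : ℝ := ε / (2 * k + 4) with hη
  have hk4 : (0 : ℝ) < 2 * k + 4 := by positivity
  have hη0 : 0 < η := by positivity
  obtain ⟨Ct, hCt, Ht⟩ := tau_le_rpow hη0
  obtain ⟨Cs, hCs, Hs⟩ := sum_inv_S hη0
  set Cl : ℝ := 1 + 2 ^ η / η with hCl
  have hCl0 : 1 ≤ Cl := by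
    have : 0 ≤ 2 ^ η / η := by positivity
    linarith
  have hCt0 : 0 < Ct := by linarith
  have hCs0 : 0 < Cs := by linarith
  refine ⟨1 + 2 * (C1 * (Ct ^ (2 * k + 2) * Ct ^ (k + 1) * Cl)) * Cs * Ct, by
    have : 0 ≤ 2 * (C1 * (Ct ^ (2 * k + 2) * Ct ^ (k + 1) * Cl)) * Cs * Ct := by positivity
    linarith, ?_⟩
  intro X L hX hL g hg hgs w hw
  have hX0 : (0 : ℝ) ≤ X := by linarith
  have hL0 : (0 : ℝ) < L := by linarith
  have hXp : (0 : ℝ) < X := by linarith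
  have hng : (1 : ℝ) ≤ nm g := by exact_mod_cast nm_pos.2 hg.ne_zero
  have hXη : 1 ≤ X ^ η := Real.one_le_rpow hX hη0.le
  have hLη : 1 ≤ L ^ η := Real.one_le_rpow hL hη0.le
  have hgη : 1 ≤ (nm g : ℝ) ^ η := Real.one_le_rpow hng hη0.le
  have htau : ∀ n ∈ S X, (tau n : ℝ) ≤ Ct * X ^ η := by
    intro n hn
    have hn' := (mem_S hX0).1 hn
    refine (Ht n hn'.2.1.ne_zero).trans ?_
    have h1 : (nm n : ℝ) ^ η ≤ X ^ η := Real.rpow_le_rpow (Nat.cast_nonneg _) hn'.1 hη0.le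
    gcongr
  have hT1 : 1 ≤ Ct * X ^ η := one_le_mul_of_one_le_of_one_le hCt hXη
  set Tm : ℝ := Ct * X ^ η with hTm
  set Tg : ℝ := Ct * (nm g : ℝ) ^ η with hTg
  have hTg1 : 1 ≤ Tg := one_le_mul_of_one_le_of_one_le hCt hgη
  have htg : (tau g : ℝ) ≤ Tg := Ht g hg.ne_zero
  -- the uniform pair bound
  set A : ℝ := C1 * ((Tm ^ (2 * k + 2) * Tg ^ (k + 1)) * (Cl * L ^ η)) with hA
  have hA0 : 0 ≤ A := by positivity
  have hpair : ∀ d ∈ S X, ‖PPT X L g w d‖ ≤ 2 * A * (Cs * X ^ η) * (X + L) *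
      ∑ k ∈ S X, ‖ws w X (d * k)‖ ^ 2 := by
    intro d hd
    have hd' := (mem_S hX0).1 hd
    refine le_trans ?_ (sum_pair_d hX hL (Hs X hX) w d hA0)
    unfold PPT
    refine norm_cpS_le (fun k1 k2 h1 h2 hc a1 a2 => ?_) (fun k1 k2 h1 h2 => ?_)
    · have h1' := (mem_S hX0).1 h1
      have h2' := (mem_S hX0).1 h2
      have m1 := (mem_S hX0).1 (ws_ne a1)
      have m2 := (mem_S hX0).1 (ws_ne a2)
      have c1 : IsCoprime d k1 := cop_of_sqf hd'.2.1 m1.2.2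
      have c2 : IsCoprime d k2 := cop_of_sqf hd'.2.1 m2.2.2
      have g1 : IsCoprime g (d * k1) := by
        apply hw
        intro h0
        apply a1
        rw [ws_eq (ws_ne a1), h0]
      have g2 : IsCoprime g (d * k2) := by
        apply hw
        intro h0
        apply a2
        rw [ws_eq (ws_ne a2), h0]
      have cgd : IsCoprime g d := g1.of_mul_right_left
      have cg : IsCoprime g (d * k1 * k2) := g1.mul_right g2.of_mul_right_right
      have sgd : Squarefree (g * d) := (sqf_mul cgd).2 ⟨hgs, hd'.2.2⟩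
      rw [Psi_Hc_GT hL0 hd'.2.1 hg sgd h1'.2.1 h2'.2.1 h1'.2.2 h2'.2.2
        (g1.of_mul_right_right.mul_left c1) (g2.of_mul_right_right.mul_left c2) cgd,
        BsumT m1.2.2 m2.2.2 g1 g2]
      have e1 : (cubRT L g d k1 k2 : ℂ) - (pC : ℂ) ^ 2 *
          ((n6 (d * k1) * n6 (d * k2) * ∑' h : Eis, ft3 g L (d * k1 * k2) h : ℝ) : ℂ) =
          ((cubRT L g d k1 k2 - pC ^ 2 *
            (n6 (d * k1) * n6 (d * k2) * ∑' h : Eis, ft3 g L (d * k1 * k2) h) : ℝ) : ℂ) := by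
        push_cast; ring
      rw [e1, Complex.norm_real, Real.norm_eq_abs]
      refine (HP L g d k1 k2 hL hg hgs hd'.2.1 h1'.2.1 h2'.2.1 c1 c2 cg).trans ?_
      have t1 : (tau (k1 * k2) : ℝ) ≤ Tm ^ 2 := by
        calc (tau (k1 * k2) : ℝ) ≤ (tau k1 : ℝ) * tau k2 := by exact_mod_cast tau_mul_le _ _
          _ ≤ Tm * Tm := mul_le_mul (htau _ h1) (htau _ h2) (Nat.cast_nonneg _) (by positivity)
          _ = Tm ^ 2 := by ring
      have t2 : (tau (d * k1 * k2 * g) : ℝ) ≤ Tm ^ 2 * Tg := by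
        calc (tau (d * k1 * k2 * g) : ℝ) ≤ (tau (d * k1 * k2) : ℝ) * tau g := by
              exact_mod_cast tau_mul_le _ _
          _ ≤ ((tau (d * k1) : ℝ) * tau k2) * tau g := by
              refine mul_le_mul_of_nonneg_right ?_ (Nat.cast_nonneg _)
              exact_mod_cast tau_mul_le _ _
          _ ≤ (Tm * Tm) * Tg := mul_le_mul (mul_le_mul (htau _ (ws_ne a1)) (htau _ h2)
              (Nat.cast_nonneg _) (by positivity)) htg (Nat.cast_nonneg _) (by positivity)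
          _ = Tm ^ 2 * Tg := by ring
      have t3 : (tau g : ℝ) * (tau (d * k1 * k2 * g) : ℝ) ^ k ≤
          Tm ^ (2 * k + 2) * Tg ^ (k + 1) := by
        calc (tau g : ℝ) * (tau (d * k1 * k2 * g) : ℝ) ^ k ≤ Tg * (Tm ^ 2 * Tg) ^ k := by gcongr
          _ = Tm ^ (2 * k) * Tg ^ (k + 1) := by rw [mul_pow, ← pow_mul]; ring
          _ ≤ _ := by
            have : Tm ^ (2 * k) ≤ Tm ^ (2 * k + 2) := pow_le_pow_right₀ hT1 (by omega)
            gcongr
      have t4 : (tau (k1 * k2) : ℝ) ≤ Tm ^ (2 * k + 2) * Tg ^ (k + 1) := by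
        have x1 : (tau (k1 * k2) : ℝ) ≤ Tm ^ (2 * k + 2) :=
          t1.trans (pow_le_pow_right₀ hT1 (by omega))
        have x2 : 1 ≤ Tg ^ (k + 1) := one_le_pow₀ hTg1
        calc _ ≤ Tm ^ (2 * k + 2) * 1 := by rw [mul_one]; exact x1
          _ ≤ _ := by gcongr
      have t5 : 1 + Real.log (1 + L) ≤ Cl * L ^ η := log_le' hη0 hL
      have t6 : 1 ≤ Cl * L ^ η := one_le_mul_of_one_le_of_one_le hCl0 hLη
      have nn1 : 0 ≤ L * (n2 k1 * n2 k2) := by
        have := n2_nonneg k1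
        have := n2_nonneg k2
        positivity
      have nn2 : 0 ≤ n6 k1 * n6 k2 * L ^ ((1 : ℝ) / 3) := by
        have := n6_pos h1'.2.1.ne_zero
        have := n6_pos h2'.2.1.ne_zero
        positivity
      have hlog : 0 ≤ 1 + Real.log (1 + L) := by
        have := Real.log_nonneg (show (1 : ℝ) ≤ 1 + L by linarith)
        linarith
      set Q : ℝ := Tm ^ (2 * k + 2) * Tg ^ (k + 1) with hQ
      have hQ0 : 0 ≤ Q := by positivity
      have u1 : L * (n2 k1 * n2 k2) * (tau (k1 * k2) : ℝ) ≤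
          (Q * (Cl * L ^ η)) * (L * (n2 k1 * n2 k2)) := by
        rw [mul_comm]
        apply mul_le_mul_of_nonneg_right _ nn1
        calc (tau (k1 * k2) : ℝ) ≤ Q * 1 := by rw [mul_one]; exact t4
          _ ≤ _ := by gcongr
      have u2 : n6 k1 * n6 k2 * ((tau g : ℝ) * (tau (d * k1 * k2 * g) : ℝ) ^ k) *
          (L ^ ((1 : ℝ) / 3) * (1 + Real.log (1 + L))) ≤
          (Q * (Cl * L ^ η)) * (n6 k1 * n6 k2 * L ^ ((1 : ℝ) / 3)) := by
        calc _ = (((tau g : ℝ) * (tau (d * k1 * k2 * g) : ℝ) ^ k) * (1 + Real.log (1 + L))) *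
              (n6 k1 * n6 k2 * L ^ ((1 : ℝ) / 3)) := by ring
          _ ≤ _ := by
            apply mul_le_mul_of_nonneg_right _ nn2
            exact mul_le_mul t3 t5 hlog hQ0
      calc _ ≤ C1 * ((Q * (Cl * L ^ η)) * (L * (n2 k1 * n2 k2)) +
            (Q * (Cl * L ^ η)) * (n6 k1 * n6 k2 * L ^ ((1 : ℝ) / 3))) :=
            mul_le_mul_of_nonneg_left (add_le_add u1 u2) hC1
        _ = _ := by rw [hA]; ring
    · have h1' := (mem_S hX0).1 h1
      have h2' := (mem_S hX0).1 h2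
      have := n6_pos h1'.2.1.ne_zero
      have := n6_pos h2'.2.1.ne_zero
      have := n2_nonneg k1
      have := n2_nonneg k2
      positivity
  -- the sum over `d`
  set W := ∑ h ∈ S X, ‖w h‖ ^ 2 with hW
  have hW0 : 0 ≤ W := Finset.sum_nonneg fun _ _ => by positivity
  have hsum : ∑ d ∈ S X, ∑ k ∈ S X, ‖ws w X (d * k)‖ ^ 2 ≤ Tm * W := by
    refine (sum_Wd hX w).trans ?_
    rw [hW, Finset.mul_sum]
    refine Finset.sum_le_sum fun g hg => ?_
    exact mul_le_mul_of_nonneg_right (htau g hg) (by positivity)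
  have hk1 : η * ((2 * k + 4 : ℕ) : ℝ) = ε := by
    rw [hη]
    push_cast
    field_simp
  calc ∑ d ∈ S X, ‖PPT X L g w d‖ ≤ ∑ d ∈ S X, 2 * A * (Cs * X ^ η) * (X + L) *
        ∑ k ∈ S X, ‖ws w X (d * k)‖ ^ 2 := Finset.sum_le_sum hpair
    _ = 2 * A * (Cs * X ^ η) * (X + L) * ∑ d ∈ S X, ∑ k ∈ S X, ‖ws w X (d * k)‖ ^ 2 := by
        rw [Finset.mul_sum]
    _ ≤ 2 * A * (Cs * X ^ η) * (X + L) * (Tm * W) := by gcongr
    _ = (2 * (C1 * (Ct ^ (2 * k + 2) * Ct ^ (k + 1) * Cl)) * Cs * Ct) *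
        (((nm g : ℝ) ^ η) ^ (k + 1) * (X ^ η) ^ (2 * k + 4) * L ^ η) * (X + L) * W := by
        rw [hA, hTm, hTg, mul_pow, mul_pow]
        ring
    _ ≤ (2 * (C1 * (Ct ^ (2 * k + 2) * Ct ^ (k + 1) * Cl)) * Cs * Ct) *
        (nm g * X * L) ^ ε * (X + L) * W := by
        have e1 : ((nm g : ℝ) ^ η) ^ (k + 1) * (X ^ η) ^ (2 * k + 4) * L ^ η ≤
            (nm g * X * L) ^ ε := by
          rw [Real.mul_rpow (by positivity) hL0.le, Real.mul_rpow (by positivity) hX0]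
          have e2 : (X ^ η) ^ (2 * k + 4) = X ^ ε := by
            rw [← Real.rpow_natCast, ← Real.rpow_mul hX0, hk1]
          have e3 : ((nm g : ℝ) ^ η) ^ (k + 1) ≤ (nm g : ℝ) ^ ε := by
            calc ((nm g : ℝ) ^ η) ^ (k + 1) ≤ ((nm g : ℝ) ^ η) ^ (2 * k + 4) :=
                  pow_le_pow_right₀ hgη (by omega)
              _ = (nm g : ℝ) ^ ε := by
                rw [← Real.rpow_natCast, ← Real.rpow_mul (by positivity), hk1]
          have e4 : L ^ η ≤ L ^ ε := by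
            apply Real.rpow_le_rpow_of_exponent_le hL
            rw [hη]
            apply div_le_self hε.le
            have : (0 : ℝ) ≤ 2 * k := by positivity
            linarith
          rw [e2]
          gcongr
        gcongr
    _ ≤ _ := by
        have hXL : 0 ≤ (nm g * X * L) ^ ε * (X + L) * W := by positivity
        have e5 : (2 * (C1 * (Ct ^ (2 * k + 2) * Ct ^ (k + 1) * Cl)) * Cs * Ct) *
          (nm g * X * L) ^ ε * (X + L) * W = (2 * (C1 * (Ct ^ (2 * k + 2) * Ct ^ (k + 1) * Cl)) *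
            Cs * Ct) * ((nm g * X * L) ^ ε * (X + L) * W) := by ring
        have e6 : (1 + 2 * (C1 * (Ct ^ (2 * k + 2) * Ct ^ (k + 1) * Cl)) * Cs * Ct) *
          (nm g * X * L) ^ ε * (X + L) * W = (nm g * X * L) ^ ε * (X + L) * W +
          (2 * (C1 * (Ct ^ (2 * k + 2) * Ct ^ (k + 1) * Cl)) *
            Cs * Ct) * ((nm g * X * L) ^ ε * (X + L) * W) := by ring
        rw [e5, e6]
        linarith

end Crest.Agent.R017.PX6
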