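import Crest.Agent.R017.PX6d_241
import Crest.Agent.R017.PI1_106

/-!
# Row 17, exceptional class, rule (P'_ex) with a twist `g`, part e (helper241): one step

* `one_step_T`
-/

set_option autoImplicit false

noncomputable section

namespace Crest.Agent.R017.PX6

open Crest.Agent.R012 MeasureTheory
open Eis CharSum852 Gauss880 Tau671 Mob705 LS2 CR2 MelSep811 DualIneq811
open Crest.Agent.R017.PA842 Crest.Agent.R017.PM106 Crest.Agent.R017.PX764 Crest.Agent.R017.PX5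
open Div277 (tau)
open scoped ComplexConjugate

lemma final_T {V TA TB N P K B C1 C2 κ L XL W D Xs : ℝ} (h1 : V ≤ TA + TB)
    (hA : TA ≤ N + κ * L * W + P + K) (hB : TB ≤ B) (hN : N ≤ C1 * L * W + C1 * Xs * D)
    (hP : P ≤ C2 * XL * W) (hLX : L ≤ XL) (hC1 : 1 ≤ C1) (hC2 : 1 ≤ C2) (hκ : 0 ≤ κ)
    (hW : 0 ≤ W) (hD : 0 ≤ D) (hXs : 0 ≤ Xs) :
    V ≤ (C1 + C2 + κ) * XL * W + (C1 + C2 + κ) * Xs * D + K + B := by
  have a1 : (C1 + κ) * (L * W) ≤ (C1 + κ) * (XL * W) :=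
    mul_le_mul_of_nonneg_left (mul_le_mul_of_nonneg_right hLX hW) (by linarith)
  have a2 : 0 ≤ (C2 + κ) * (Xs * D) := mul_nonneg (by linarith) (mul_nonneg hXs hD)
  have e1 : (C1 + C2 + κ) * XL * W = (C1 + κ) * (XL * W) + C2 * XL * W := by ring
  have e2 : (C1 + C2 + κ) * Xs * D = C1 * Xs * D + (C2 + κ) * (Xs * D) := by ring
  have e3 : C1 * L * W + κ * L * W = (C1 + κ) * (L * W) := by ring
  linarith

open Classical in
/-- the dual terms -/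
def DDT (M : ℕ) (σ X L Y ε : ℝ) (g : Eis) (w : Eis → ℂ) : ℝ :=
  ∑ d ∈ (S X).filter (fun d => (nm d : ℝ) ≤ Y), ∑ e ∈ (S X).filter (· ∣ d), ∑ f ∈ S X,
    L / nm f * DICt M σ w X g d e f (Lde X L ε d e)

open Classical in
/-- the cross terms -/
def KKT (X L Y : ℝ) (g : Eis) (w : Eis → ℂ) : ℝ :=
  ∑ d ∈ (S X).filter (fun d => (nm d : ℝ) ≤ Y), ‖CrossT X L g w d‖

lemma DDT_nonneg (M : ℕ) (σ X : ℝ) {L : ℝ} (hL : 0 ≤ L) (Y ε : ℝ) (g : Eis) (w : Eis → ℂ) :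
    0 ≤ DDT M σ X L Y ε g w :=
  Finset.sum_nonneg fun d _ => Finset.sum_nonneg fun e _ => Finset.sum_nonneg fun f _ =>
    mul_nonneg (div_nonneg hL (Nat.cast_nonneg _)) (DICt_nonneg _ _ _ _ _ _ _ _ _)

lemma KKT_nonneg (X L Y : ℝ) (g : Eis) (w : Eis → ℂ) : 0 ≤ KKT X L Y g w :=
  Finset.sum_nonneg fun _ _ => norm_nonneg _

open Classical in
/-- **one step of the twisted corrected Gauss side** -/
theorem one_step_T {M : ℕ} (hM : 1 ≤ M) {σ ε ε' : ℝ} (hσ : 0 < σ) (hσ1 : σ ≤ 1 / 2) (hε : 0 < ε)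
    (hε' : 0 < ε') :
    ∃ C : ℝ, 1 ≤ C ∧ ∀ X L Y : ℝ, 1 ≤ X → 1 ≤ L → ∀ g : Eis, IsPrim g → Squarefree g →
    ∀ w : Eis → ℂ, Supp w X → CopG g w →
    VRt X L g w ≤ C * ((nm g * X * L) ^ ε' * (X + L)) * ∑ h ∈ S X, ‖w h‖ ^ 2 +
      C * X ^ (3 * σ) * DDT M σ X L Y ε g w + 2 * pC * KKT X L Y g w +
      ∑ g' ∈ (S X).filter (fun g' => Y < (nm g' : ℝ)),
        (tau g' : ℝ) * VRt (X / nm g') L (g * g') (sub w g') := by
  obtain ⟨C1, hC1, H1⟩ := nc_leT hM hσ hσ1 hε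
  obtain ⟨C2, hC2, H2⟩ := pair_part_leT hε'
  have hpi := Real.pi_pos
  have h3 : 0 < Real.sqrt 3 := by positivity
  set κ : ℝ := 2 * Real.pi / Real.sqrt 3 + 1 with hκ
  have hκ0 : 0 < κ := by positivity
  refine ⟨C1 + C2 + κ, by linarith, ?_⟩
  intro X L Y hX hL g hg hgs w hw hcop
  have hX0 : (0 : ℝ) ≤ X := by linarith
  have hL0 : (0 : ℝ) < L := by linarith
  have hng : (1 : ℝ) ≤ nm g := by exact_mod_cast nm_pos.2 hg.ne_zero
  set A := (S X).filter (fun d => (nm d : ℝ) ≤ Y) with hA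
  set B := (S X).filter (fun d => Y < (nm d : ℝ)) with hB
  set W := ∑ h ∈ S X, ‖w h‖ ^ 2 with hW
  have hW0 : 0 ≤ W := Finset.sum_nonneg fun _ _ => by positivity
  have hAS : A ⊆ S X := Finset.filter_subset _ _
  have hKH := KH_DkT hL0 hg.ne_zero
  -- the decomposition
  have e1 : VRt X L g w ≤ ∑ d ∈ A, ‖TG (wL L) (DkT g) X w d‖ +
      ∑ d ∈ B, ‖TG (wL L) (DkT g) X w d‖ := by
    have e2 := GV_eq_sum_TG hKH hX0 w
    rw [← VRt_eq_GV] at e2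
    have e3 : VRt X L g w = ‖((VRt X L g w : ℝ) : ℂ)‖ := by
      rw [Complex.norm_real, Real.norm_of_nonneg (VRt_nonneg hL0 hg.ne_zero X w)]
    rw [e3, e2]
    refine (norm_sum_le _ _).trans (le_of_eq ?_)
    have e4 : B = (S X).filter (fun d => ¬ (nm d : ℝ) ≤ Y) := by
      rw [hB]
      congr 1
      funext d
      rw [not_le]
    rw [e4, hA]
    exact (Finset.sum_filter_add_sum_filter_not _ _ _).symm
  -- large gcds
  have eB : ∑ d ∈ B, ‖TG (wL L) (DkT g) X w d‖ ≤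
      ∑ g' ∈ B, (tau g' : ℝ) * VRt (X / nm g') L (g * g') (sub w g') := by
    have b1 : ∑ d ∈ B, ‖TG (wL L) (DkT g) X w d‖ ≤
        ∑ d ∈ B, ∑ f ∈ (S X).filter (fun f => d * f ∈ S X), VRt X L g (restr w (d * f)) :=
      Finset.sum_le_sum fun d hd => norm_TG_le hKH hX0 w (Finset.mem_filter.1 hd).1
    refine b1.trans ((sum_pairs_le (Y := Y) hX0 (fun g' => VRt X L g (restr w g'))
      (fun g' => VRt_nonneg hL0 hg.ne_zero _ _)).trans ?_)
    refine Finset.sum_le_sum fun g' hg' => ?_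
    have hg'' := (mem_S hX0).1 (Finset.mem_filter.1 hg').1
    exact mul_le_mul_of_nonneg_left (VRt_restr_le hX0 hL0 hw hg hg''.2.1 hg''.2.2)
      (Nat.cast_nonneg _)
  -- small gcds
  have eA : ∑ d ∈ A, ‖TG (wL L) (DkT g) X w d‖ ≤
      ∑ d ∈ A, ‖CCH (1 / (Real.pi * L)) (PX X) (cs (wc (tw g w)) X) (pp d)
        (fun E l => Hn (g * d) (pr E) l)‖ + κ * L * W + ∑ d ∈ A, ‖PPT X L g w d‖ +
      2 * pC * ∑ d ∈ A, ‖CrossT X L g w d‖ := by
    have b1 : ∑ d ∈ A, ‖TG (wL L) (DkT g) X w d‖ ≤ ∑ d ∈ A,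
        (‖CCH (1 / (Real.pi * L)) (PX X) (cs (wc (tw g w)) X) (pp d)
          (fun E l => Hn (g * d) (pr E) l)‖ +
        κ * L * ‖w d‖ ^ 2 + ‖PPT X L g w d‖ + 2 * pC * ‖CrossT X L g w d‖) :=
      Finset.sum_le_sum fun d hd => norm_TG_DkT_le hX hL hg.ne_zero (hAS hd) w
    refine b1.trans ?_
    rw [Finset.sum_add_distrib, Finset.sum_add_distrib, Finset.sum_add_distrib, ← Finset.mul_sum,
      ← Finset.mul_sum]
    have b2 : ∑ d ∈ A, ‖w d‖ ^ 2 ≤ W :=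
      Finset.sum_le_sum_of_subset_of_nonneg hAS (fun _ _ _ => by positivity)
    have b3 : κ * L * ∑ d ∈ A, ‖w d‖ ^ 2 ≤ κ * L * W :=
      mul_le_mul_of_nonneg_left b2 (by positivity)
    exact add_le_add_left (add_le_add_left (add_le_add_right b3 _) _) _
  have eP : ∑ d ∈ A, ‖PPT X L g w d‖ ≤ C2 * ((nm g * X * L) ^ ε' * (X + L)) * W := by
    refine (Finset.sum_le_sum_of_subset_of_nonneg hAS (fun _ _ _ => norm_nonneg _)).trans
      ((H2 X L hX hL g hg hgs w hcop).trans (le_of_eq ?_))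
    ring
  have eN := H1 X L Y hX hL g w hw
  have hDD0 := DDT_nonneg M σ X hL0.le Y ε g w
  have hXL : 1 ≤ (nm g * X * L) ^ ε' :=
    Real.one_le_rpow (one_le_mul_of_one_le_of_one_le (one_le_mul_of_one_le_of_one_le hng hX) hL)
      hε'.le
  have hLX : L ≤ (nm g * X * L) ^ ε' * (X + L) := by
    calc L ≤ X + L := by linarith
      _ = 1 * (X + L) := (one_mul _).symm
      _ ≤ _ := mul_le_mul_of_nonneg_right hXL (by linarith)
  exact final_T e1 eA eB eN eP hLX hC1 hC2 hκ0.le hW0 hDD0 (Real.rpow_nonneg hX0 _)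

end Crest.Agent.R017.PX6
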