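import Crest.Agent.R017.PX6_764

/-!
# Row 17, exceptional class, part 7 (helper764): **(P_ex), one step** (`oneStepEx`)
-/

set_option autoImplicit false

noncomputable section

open MeasureTheory Finset
open scoped ComplexConjugate

namespace Crest.Agent.R017.PX764

open Crest.Agent.R012 Crest.Agent.R012.Eis Crest.Agent.R012.Gauss880
open Crest.Agent.R012.LS2 Crest.Agent.R012.Mob705 Crest.Agent.R012.CR2
open Crest.Agent.R012.MelSep811
open Crest.Agent.R012.DualIneq811 (pdiv_subset)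
open Crest.Agent.R017.PA842 (V Supp sub restr sum_pairs_le Lde_nonneg aux_term)
open Crest.Agent.R017.Dual2813 (S_of_dvd)
open Crest.Agent.R017.P3all283 (ft)

/-- `κ = 2π/√3` -/
def kap : ℝ := 2 * Real.pi / Real.sqrt 3

lemma kap_pos : 0 < kap := by
  have := Real.pi_pos
  unfold kap
  positivity

/-- the cross kernel of a pair -/
def crk (Z : ℝ) (k₁ k₂ : Eis) : ℂ := ((nh k₁ * nh k₂ : ℝ) : ℂ) * crs 3 (AA' Z k₁ k₂) k₁ k₂

open Classical in
lemma Cross_eq (X Z : ℝ) (w : Eis → ℂ) (d : Eis) :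
    cpS X (ws w X) (ws w X) d (crk Z) = Cross X Z w d := by
  unfold cpS Cross
  refine Finset.sum_congr rfl fun k₁ _ => Finset.sum_congr rfl fun k₂ _ => ?_
  split_ifs
  · have e1 : ∀ k : Eis, nh k = (nm k : ℝ) ^ (-(1 : ℝ) / 2) := fun k => by
      unfold nh; congr 1; norm_num
    unfold crk
    rw [e1 k₁, e1 k₂, ← mul_assoc]
    rfl
  · rfl

open Classical in
lemma conj_Cross_eq (X Z : ℝ) (w : Eis → ℂ) (d : Eis) :
    cpS X (ws w X) (ws w X) d (fun k₁ k₂ => conj (crk Z k₂ k₁)) = conj (Cross X Z w d) := by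
  rw [← Cross_eq]
  unfold cpS
  rw [map_sum, Finset.sum_comm]
  refine Finset.sum_congr rfl fun k₁ _ => ?_
  rw [map_sum]
  refine Finset.sum_congr rfl fun k₂ _ => ?_
  by_cases h : IsCoprime k₁ k₂
  · rw [if_pos h, if_pos h.symm]
    simp only [map_mul, Complex.conj_conj]
    ring
  · rw [if_neg h, if_neg (fun h' => h h'.symm)]
    simp

open Classical in
/-- sums concentrated at `k₁ = k₂ = 1` -/
lemma norm_cpS_one_le {X : ℝ} {w : Eis → ℂ} {d : Eis} (Ψ : Eis → Eis → ℂ) {c : ℝ} (hc : 0 ≤ c)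
    (h : ∀ k₁ k₂, k₁ ∈ S X → k₂ ∈ S X → ‖Ψ k₁ k₂‖ ≤ if k₁ = 1 ∧ k₂ = 1 then c else 0) :
    ‖cpS X (ws w X) (ws w X) d Ψ‖ ≤ c * ‖ws w X d‖ ^ 2 := by
  have h1 := norm_cpS_le (X := X) (α := ws w X) (β := ws w X) (d := d) (Ψ := Ψ)
    (B := fun k₁ k₂ => if k₁ = 1 ∧ k₂ = 1 then c else 0)
    (fun k₁ k₂ a b _ _ _ => h k₁ k₂ a b)
    (fun k₁ k₂ _ _ => by split_ifs <;> [exact hc; exact le_rfl])
  refine h1.trans ?_
  have e1 : ∑ k₁ ∈ S X, ∑ k₂ ∈ S X, ‖ws w X (d * k₁)‖ * ‖ws w X (d * k₂)‖ *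
      (if k₁ = 1 ∧ k₂ = 1 then c else 0) ≤ ∑ k₁ ∈ S X, if k₁ = 1 then c * ‖ws w X d‖ ^ 2 else 0 := by
    refine Finset.sum_le_sum fun k₁ _ => ?_
    by_cases a : k₁ = 1
    · rw [if_pos a, a, mul_one]
      have e2 : ∀ k₂ : Eis, ‖ws w X d‖ * ‖ws w X (d * k₂)‖ *
          (if (1 : Eis) = 1 ∧ k₂ = 1 then c else 0) = if k₂ = 1 then c * ‖ws w X d‖ ^ 2 else 0 := by
        intro k₂
        by_cases b : k₂ = 1
        · rw [if_pos ⟨rfl, b⟩, if_pos b, b, mul_one]; ring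
        · rw [if_neg (fun h => b h.2), if_neg b, mul_zero]
      rw [Finset.sum_congr rfl fun k₂ _ => e2 k₂, Finset.sum_ite_eq']
      split_ifs
      · exact le_rfl
      · positivity
    · rw [if_neg a]
      apply le_of_eq
      apply Finset.sum_eq_zero
      intro k₂ _
      rw [if_neg (fun h => a h.1), mul_zero]
  refine e1.trans ?_
  rw [Finset.sum_ite_eq']
  split_ifs
  · exact le_rfl
  · positivity

open Classical in
/-- **the bound for one gcd** -/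
theorem norm_TDn_dual {X Z : ℝ} (hX : 0 ≤ X) (hZ : 0 < Z) (w : Eis → ℂ) {d : Eis}
    (hd : d ∈ S X) :
    ‖TDn X Z w d‖ ≤ ‖TDD X Z w d‖ + 2 * kap * pC * Z * ‖Cross X Z w d‖ +
      ‖cpS X (ws w X) (ws w X) d (fun k₁ k₂ => ((Er Z d k₁ k₂ : ℝ) : ℂ))‖ +
      (kap * Z + 1) * ‖w d‖ ^ 2 := by
  have hd' := (mem_S hX).1 hd
  have hκ := kap_pos
  have hp := pC_pos
  set c0 : ℝ := PE d * (kap * Z) with hc0
  have hc0' : 0 ≤ c0 := by
    have := (PE_pos d).le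
    positivity
  have hc1 : c0 ≤ kap * Z := by
    have := PE_le_one d
    calc c0 ≤ 1 * (kap * Z) := mul_le_mul_of_nonneg_right this (by positivity)
      _ = _ := one_mul _
  have e1 : TDn X Z w d = TDD X Z w d + (c0 * pC : ℂ) * cpS X (ws w X) (ws w X) d (crk Z) +
      (c0 * pC : ℂ) * cpS X (ws w X) (ws w X) d (fun k₁ k₂ => conj (crk Z k₂ k₁)) +
      cpS X (ws w X) (ws w X) d (fun k₁ k₂ => ((Er Z d k₁ k₂ : ℝ) : ℂ)) +
      (c0 : ℂ) * cpS X (ws w X) (ws w X) d (fun k₁ k₂ => if k₁ = 1 ∧ k₂ = 1 then 1 else 0) -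
      cpS X (ws w X) (ws w X) d (fun k₁ k₂ => if d * k₁ = 1 ∧ d * k₂ = 1 then 1 else 0) := by
    unfold TDD
    rw [← cpS_smul, ← cpS_smul, ← cpS_smul, ← cpS_add, ← cpS_add, ← cpS_add, ← cpS_add, ← cpS_sub]
    unfold TDn
    refine cpS_congr fun k₁ k₂ a₁ a₂ hc n₁ n₂ => ?_
    have a₁' := (mem_S hX).1 a₁
    have a₂' := (mem_S hX).1 a₂
    have m₁ := (mem_S hX).1 (ws_ne n₁)
    have m₂ := (mem_S hX).1 (ws_ne n₂)
    have c₁ : IsCoprime d k₁ := by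
      by_contra hcc
      exact not_sqf_of_not_coprime hd'.2.1.ne_zero hcc m₁.2.2
    have c₂ : IsCoprime d k₂ := by
      by_contra hcc
      exact not_sqf_of_not_coprime hd'.2.1.ne_zero hcc m₂.2.2
    rw [Pnc_exact hZ hd'.2.1 hd'.2.2 a₁'.2.1 a₂'.2.1 m₁.2.2 m₂.2.2 hc c₁ c₂,
      tsum_pol hZ a₁'.2.1 a₂'.2.1 a₁'.2.2 a₂'.2.2]
    unfold Er crk
    rw [hc0]
    unfold kap
    simp only [map_mul, Complex.conj_ofReal]
    push_cast
    ring
  have b1 : ‖cpS X (ws w X) (ws w X) d (fun k₁ k₂ => if k₁ = 1 ∧ k₂ = 1 then (1 : ℂ) else 0)‖ ≤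
      1 * ‖ws w X d‖ ^ 2 := by
    apply norm_cpS_one_le _ zero_le_one
    intro k₁ k₂ _ _
    split_ifs <;> simp
  have b2 : ‖cpS X (ws w X) (ws w X) d
      (fun k₁ k₂ => if d * k₁ = 1 ∧ d * k₂ = 1 then (1 : ℂ) else 0)‖ ≤ 1 * ‖ws w X d‖ ^ 2 := by
    apply norm_cpS_one_le _ zero_le_one
    intro k₁ k₂ a₁ a₂
    by_cases h : d * k₁ = 1 ∧ d * k₂ = 1
    · have u1 : k₁ = 1 := isPrim_eq_one_of_isUnit ((mem_S hX).1 a₁).2.1
        (IsUnit.of_mul_eq_one d (by rw [mul_comm]; exact h.1))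
      have u2 : k₂ = 1 := isPrim_eq_one_of_isUnit ((mem_S hX).1 a₂).2.1
        (IsUnit.of_mul_eq_one d (by rw [mul_comm]; exact h.2))
      rw [if_pos h, if_pos ⟨u1, u2⟩]; simp
    · rw [if_neg h, norm_zero]
      split_ifs <;> norm_num
  rw [ws_eq hd] at b1 b2
  rw [e1, Cross_eq, conj_Cross_eq]
  have n1 : ‖(c0 * pC : ℂ)‖ = c0 * pC := by
    rw [← Complex.ofReal_mul, Complex.norm_real, Real.norm_of_nonneg (by positivity)]
  have n2 : ‖(c0 : ℂ)‖ = c0 := by rw [Complex.norm_real, Real.norm_of_nonneg hc0']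
  refine (norm_sub_le _ _).trans ?_
  refine (add_le_add ((norm_add_le _ _).trans (add_le_add ((norm_add_le _ _).trans
    (add_le_add ((norm_add_le _ _).trans (add_le_add ((norm_add_le _ _).trans
    (add_le_add le_rfl (norm_mul _ _).le)) (norm_mul _ _).le)) le_rfl)) (norm_mul _ _).le))
    b2).trans ?_
  rw [n1, n2, RCLike.norm_conj]
  have c3 : c0 * pC * ‖Cross X Z w d‖ ≤ kap * Z * pC * ‖Cross X Z w d‖ := by gcongr
  have c4 : c0 * ‖cpS X (ws w X) (ws w X) d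
      (fun k₁ k₂ => if k₁ = 1 ∧ k₂ = 1 then (1 : ℂ) else 0)‖ ≤ kap * Z * (1 * ‖w d‖ ^ 2) := by
    gcongr
  linarith

lemma aux_finalR {κ Ct CE cg p Z X P W Xs DD SA SB VV v CR : ℝ} (hκ : 0 < κ) (hCt : 0 ≤ Ct)
    (hCE : 0 ≤ CE) (hcg : 0 ≤ cg) (hp : 0 ≤ p) (hZ : 1 ≤ Z) (hX : 0 ≤ X) (hP : 1 ≤ P)
    (hW : 0 ≤ W) (hXs : 0 ≤ Xs) (hD : 0 ≤ DD) (hCR : 0 ≤ CR) (h1 : v ≤ SA + SB)
    (h2 : SA ≤ (κ * Z + 1) * W + Ct * Z * W + CE * P * (X + Z) * W + κ * cg * Xs * DD +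
      2 * κ * p * Z * CR) (h3 : SB ≤ VV) :
    v ≤ (2 + κ + Ct + CE + κ * cg + 2 * κ * p) * P * (X + Z) * W +
      (2 + κ + Ct + CE + κ * cg + 2 * κ * p) * Xs * DD +
      (2 + κ + Ct + CE + κ * cg + 2 * κ * p) * Z * CR + VV := by
  have hZ0 : 0 ≤ Z := by linarith
  have k1 : 0 ≤ κ * cg := by positivity
  have k2 : 0 ≤ κ * p := by positivity
  have q0 : Z ≤ P * (X + Z) := by
    calc Z = 1 * Z := (one_mul _).symm
      _ ≤ P * (X + Z) := mul_le_mul hP (by linarith) hZ0 (by linarith)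
  have q1 : 1 ≤ P * (X + Z) := hZ.trans q0
  set Q := P * (X + Z) with hQ
  have a0 : (κ * Z + 1) * W + Ct * Z * W + CE * P * (X + Z) * W ≤ (1 + κ + Ct + CE) * Q * W := by
    have r1 : κ * Z ≤ κ * Q := mul_le_mul_of_nonneg_left q0 hκ.le
    have r2 : Ct * Z ≤ Ct * Q := mul_le_mul_of_nonneg_left q0 hCt
    have r3 : (κ * Z + 1) + Ct * Z + CE * Q ≤ (1 + κ + Ct + CE) * Q := by linarith
    calc (κ * Z + 1) * W + Ct * Z * W + CE * P * (X + Z) * W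
        = ((κ * Z + 1) + Ct * Z + CE * Q) * W := by rw [hQ]; ring
      _ ≤ _ := mul_le_mul_of_nonneg_right r3 hW
  have a1 : 0 ≤ (1 + κ * cg + 2 * κ * p) * Q * W := by
    have : 0 ≤ Q := by linarith
    positivity
  have a2 : 0 ≤ (2 + κ + Ct + CE + 2 * κ * p) * (Xs * DD) := by positivity
  have a3 : 0 ≤ (2 + κ + Ct + CE + κ * cg) * (Z * CR) := by positivity
  have e1 : (2 + κ + Ct + CE + κ * cg + 2 * κ * p) * P * (X + Z) * W =
      (1 + κ + Ct + CE) * Q * W + (1 + κ * cg + 2 * κ * p) * Q * W := by rw [hQ]; ring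
  rw [e1]
  have e2 : (2 + κ + Ct + CE + κ * cg + 2 * κ * p) * Xs * DD =
      κ * cg * Xs * DD + (2 + κ + Ct + CE + 2 * κ * p) * (Xs * DD) := by ring
  have e3 : (2 + κ + Ct + CE + κ * cg + 2 * κ * p) * Z * CR =
      2 * κ * p * Z * CR + (2 + κ + Ct + CE + κ * cg) * (Z * CR) := by ring
  rw [e2, e3]
  linarith

lemma aux_X3 {X Z ne nf σ : ℝ} (hX : 1 ≤ X) (hZ : 1 ≤ Z) (hne : 0 ≤ ne) (hnf : 0 ≤ nf)
    (h1 : ne ≤ X) (h2 : nf ≤ X) (hσ : 0 < σ) : (ne * nf ^ 2 / Z) ^ σ ≤ X ^ (3 * σ) := by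
  have hX0 : (0 : ℝ) ≤ X := by linarith
  have hZ0 : (0 : ℝ) < Z := by linarith
  rw [Real.rpow_mul hX0]
  apply Real.rpow_le_rpow (by positivity) _ hσ.le
  calc ne * nf ^ 2 / Z ≤ ne * nf ^ 2 := div_le_self (by positivity) hZ
    _ ≤ X * X ^ 2 := by gcongr
    _ = X ^ (3 : ℝ) := by
      rw [show (3 : ℝ) = ((3 : ℕ) : ℝ) by norm_num, Real.rpow_natCast]; ring

set_option maxHeartbeats 1000000 in
open Classical in
/-- **(P_ex), one step.** -/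
theorem oneStepEx : OneStepEx := by
  intro σ ε hσ hσ1 hε
  obtain ⟨Ct, hCt, htail⟩ := tailR hε
  obtain ⟨CE, hCE, hEr⟩ := sum_Er_le hε
  have h3 : 0 < Real.sqrt 3 := by positivity
  have hπ := Real.pi_pos
  have hcs := csig_pos hσ
  have hp := pC_pos
  have hκ0 := kap_pos
  refine ⟨2 + kap + Ct + CE + kap * csig σ + 2 * kap * pC, by
    have := mul_pos hκ0 hcs
    have := mul_pos hκ0 hp
    linarith, ?_⟩
  intro X Z Y hX hZ w hw
  have hX0 : (0 : ℝ) ≤ X := by linarith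
  have hZ0 : (0 : ℝ) < Z := by linarith
  set A := (S X).filter (fun d => (nm d : ℝ) ≤ Y) with hA
  set B := (S X).filter (fun d => Y < (nm d : ℝ)) with hB
  set W := ∑ h ∈ S X, ‖w h‖ ^ 2 with hW
  have hW0 : 0 ≤ W := Finset.sum_nonneg fun _ _ => by positivity
  -- the decomposition
  have hsplit : Vnc X Z w ≤ ∑ d ∈ A, ‖TDn X Z w d‖ + ∑ d ∈ B, ‖TDn X Z w d‖ := by
    have e1 := Vnc_eq_sum hX0 hZ0 w
    have e2 : Vnc X Z w = ‖((Vnc X Z w : ℝ) : ℂ)‖ := by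
      rw [Complex.norm_real, Real.norm_of_nonneg (Vnc_nonneg _ _ _)]
    rw [e2, e1]
    refine (norm_sum_le _ _).trans ?_
    have e3 : ∑ d ∈ S X, ‖TDn X Z w d‖ = ∑ d ∈ A, ‖TDn X Z w d‖ + ∑ d ∈ B, ‖TDn X Z w d‖ := by
      rw [← Finset.sum_filter_add_sum_filter_not (S X) (fun d => (nm d : ℝ) ≤ Y)]
      congr 1
      apply Finset.sum_congr _ fun _ _ => rfl
      rw [hB]
      apply Finset.filter_congr
      intro d _
      exact not_le
    rw [e3]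
  -- large gcd
  have hBle : ∑ d ∈ B, ‖TDn X Z w d‖ ≤
      ∑ g ∈ B, (Div277.tau g : ℝ) * Vnc (X / nm g) Z (sub w g) := by
    have e1 : ∑ d ∈ B, ‖TDn X Z w d‖ ≤ ∑ d ∈ B,
        ∑ f ∈ (S X).filter (fun f => d * f ∈ S X), Vnc (X / nm (d * f)) Z (sub w (d * f)) :=
      Finset.sum_le_sum fun d hd => norm_TDn_le hX0 hZ0 hw (Finset.mem_filter.1 hd).1
    exact e1.trans (sum_pairs_le (Y := Y) hX0 (fun g => Vnc (X / nm g) Z (sub w g))
      (fun g => Vnc_nonneg _ _ _))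
  -- the bias-corrected part
  have hDD : ∑ d ∈ A, ‖TDD X Z w d‖ ≤ kap * csig σ * X ^ (3 * σ) *
      (∑ d ∈ A, ∑ e ∈ (S X).filter (· ∣ d), ∑ f ∈ S X, Z / nm f *
        DIR σ w X d e f (Lde X Z ε d e)) + Ct * Z * W := by
    have e1 : ∑ d ∈ A, ‖TDD X Z w d‖ ≤ ∑ d ∈ A,
        ∑ e ∈ pdiv d, ∑ f ∈ S X, 2 * Real.pi * Z / (Real.sqrt 3 * nm e) *
          ‖∑' l : Eis, if l = 0 then 0 else qR w X Z d e f l‖ :=
      Finset.sum_le_sum fun d hd => norm_TDD_le hX0 hZ0 w (Finset.mem_filter.1 hd).1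
    refine e1.trans ?_
    have f1 : ∀ d ∈ A, ∀ e ∈ pdiv d, ∀ f ∈ S X, 2 * Real.pi * Z / (Real.sqrt 3 * nm e) *
        ‖∑' l : Eis, if l = 0 then 0 else qR w X Z d e f l‖ ≤
        kap * csig σ * X ^ (3 * σ) * (Z / nm f * DIR σ w X d e f (Lde X Z ε d e)) +
        2 * Real.pi * Z / (Real.sqrt 3 * nm e) *
        ‖∑' l : Eis, (if l = 0 ∨ (nm l : ℝ) ≤ Lde X Z ε d e then 0 else qR w X Z d e f l)‖ := by
      intro d hd e he f hf
      have hd' := (mem_S hX0).1 (Finset.mem_filter.1 hd).1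
      have he' := (mem_pdiv hd'.2.1.ne_zero).1 he
      have hf' := (mem_S hX0).1 hf
      have ne1 : (1 : ℝ) ≤ nm e := by exact_mod_cast nm_pos.2 he'.1.ne_zero
      have nf1 : (1 : ℝ) ≤ nm f := by exact_mod_cast nm_pos.2 hf'.2.1.ne_zero
      have nfX : (nm f : ℝ) ≤ X := hf'.1
      have neX : (nm e : ℝ) ≤ X := by
        refine le_trans ?_ hd'.1
        exact_mod_cast Div277.nm_le_of_dvd hd'.2.1.ne_zero he'.2
      have g1 := one_defR hX hZ hσ (by linarith) (ε := ε) hw (d := d) he'.1.ne_zero hf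
      have hc0 : 0 ≤ 2 * Real.pi * Z / (Real.sqrt 3 * nm e) :=
        div_nonneg (mul_nonneg (mul_nonneg (by norm_num) hπ.le) hZ0.le)
          (mul_nonneg h3.le (Nat.cast_nonneg _))
      refine (mul_le_mul_of_nonneg_left g1 hc0).trans ?_
      rw [mul_add]
      refine add_le_add_left ?_ _
      have g3 := aux_X3 hX hZ (Nat.cast_nonneg (nm e)) (Nat.cast_nonneg (nm f)) neX nfX hσ
      exact aux_term hZ0.le ne1 (lt_of_lt_of_le one_pos nf1) hcs.le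
        (Real.rpow_nonneg (div_nonneg (mul_nonneg (by linarith) (sq_nonneg _)) hZ0.le) _) g3
        (DIR_nonneg _ _ _ _ _ _ _) le_rfl
    refine (Finset.sum_le_sum fun d hd => Finset.sum_le_sum fun e he => Finset.sum_le_sum
        fun f hf => f1 d hd e he f hf).trans ?_
    simp_rw [Finset.sum_add_distrib]
    refine add_le_add ?_ ?_
    · simp_rw [← Finset.mul_sum]
      refine mul_le_mul_of_nonneg_left ?_
        (mul_nonneg (mul_nonneg hκ0.le hcs.le) (Real.rpow_nonneg hX0 _))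
      refine Finset.sum_le_sum fun d hd => ?_
      refine Finset.sum_le_sum_of_subset_of_nonneg (pdiv_subset hX0 (Finset.mem_filter.1 hd).1)
        (fun e _ _ => ?_)
      exact Finset.sum_nonneg fun f _ => mul_nonneg (div_nonneg hZ0.le (Nat.cast_nonneg _))
        (DIR_nonneg _ _ _ _ _ _ _)
    · refine le_trans ?_ (htail X Z hX hZ w)
      refine Finset.sum_le_sum_of_subset_of_nonneg (Finset.filter_subset _ _) (fun d _ _ => ?_)
      refine Finset.sum_nonneg fun e _ => Finset.sum_nonneg fun f _ => ?_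
      exact mul_nonneg (div_nonneg (mul_nonneg (mul_nonneg (by norm_num) hπ.le) hZ0.le)
        (mul_nonneg h3.le (Nat.cast_nonneg _))) (norm_nonneg _)
  -- small gcd
  have hAle : ∑ d ∈ A, ‖TDn X Z w d‖ ≤ (kap * Z + 1) * W + Ct * Z * W +
      CE * (X * Z) ^ ε * (X + Z) * W + kap * csig σ * X ^ (3 * σ) *
      (∑ d ∈ A, ∑ e ∈ (S X).filter (· ∣ d), ∑ f ∈ S X, Z / nm f *
        DIR σ w X d e f (Lde X Z ε d e)) + 2 * kap * pC * Z * ∑ d ∈ A, ‖Cross X Z w d‖ := by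
    have e1 : ∑ d ∈ A, ‖TDn X Z w d‖ ≤ ∑ d ∈ A, (‖TDD X Z w d‖ +
        2 * kap * pC * Z * ‖Cross X Z w d‖ +
        ‖cpS X (ws w X) (ws w X) d (fun k₁ k₂ => ((Er Z d k₁ k₂ : ℝ) : ℂ))‖ +
        (kap * Z + 1) * ‖w d‖ ^ 2) :=
      Finset.sum_le_sum fun d hd => norm_TDn_dual hX0 hZ0 w (Finset.mem_filter.1 hd).1
    refine e1.trans ?_
    rw [Finset.sum_add_distrib, Finset.sum_add_distrib, Finset.sum_add_distrib,
      ← Finset.mul_sum, ← Finset.mul_sum]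
    have g1 : ∑ d ∈ A, ‖cpS X (ws w X) (ws w X) d (fun k₁ k₂ => ((Er Z d k₁ k₂ : ℝ) : ℂ))‖ ≤
        CE * (X * Z) ^ ε * (X + Z) * W := by
      have g2 : ∑ d ∈ A, ‖cpS X (ws w X) (ws w X) d (fun k₁ k₂ => ((Er Z d k₁ k₂ : ℝ) : ℂ))‖ ≤
          ∑ d ∈ S X, ‖cpS X (ws w X) (ws w X) d (fun k₁ k₂ => ((Er Z d k₁ k₂ : ℝ) : ℂ))‖ :=
        Finset.sum_le_sum_of_subset_of_nonneg (Finset.filter_subset _ _)
          (fun _ _ _ => norm_nonneg _)
      refine (g2.trans (hEr X Z hX hZ w)).trans ?_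
      have g4 : X ^ ε ≤ (X * Z) ^ ε :=
        Real.rpow_le_rpow hX0 (le_mul_of_one_le_right hX0 hZ) hε.le
      have g5 : CE * X ^ ε ≤ CE * (X * Z) ^ ε := mul_le_mul_of_nonneg_left g4 hCE
      exact mul_le_mul_of_nonneg_right (mul_le_mul_of_nonneg_right g5 (by linarith)) hW0
    have g6 : ∑ d ∈ A, ‖w d‖ ^ 2 ≤ W :=
      Finset.sum_le_sum_of_subset_of_nonneg (Finset.filter_subset _ _)
        (fun _ _ _ => sq_nonneg _)
    have g7 : (kap * Z + 1) * ∑ d ∈ A, ‖w d‖ ^ 2 ≤ (kap * Z + 1) * W :=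
      mul_le_mul_of_nonneg_left g6 (by have := mul_pos hκ0 hZ0; linarith)
    linarith
  have hD0 : 0 ≤ ∑ d ∈ A, ∑ e ∈ (S X).filter (· ∣ d), ∑ f ∈ S X, Z / nm f *
      DIR σ w X d e f (Lde X Z ε d e) :=
    Finset.sum_nonneg fun d _ => Finset.sum_nonneg fun e _ => Finset.sum_nonneg fun f _ =>
      mul_nonneg (div_nonneg hZ0.le (Nat.cast_nonneg _)) (DIR_nonneg _ _ _ _ _ _ _)
  have hCR : 0 ≤ ∑ d ∈ A, ‖Cross X Z w d‖ := Finset.sum_nonneg fun _ _ => norm_nonneg _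
  have hXs : 0 ≤ X ^ (3 * σ) := Real.rpow_nonneg hX0 _
  have hP1 : 1 ≤ (X * Z) ^ ε :=
    Real.one_le_rpow (one_le_mul_of_one_le_of_one_le hX hZ) hε.le
  exact aux_finalR hκ0 hCt.le hCE hcs.le hp.le hZ hX0 hP1 hW0 hXs hD0 hCR hsplit hAle hBle

end Crest.Agent.R017.PX764
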