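import Crest.Agent.R017.PX7_764
import Crest.Agent.R017.PM1_106

/-!
# Row 17, exceptional class, part 8 (helper764): (P_ex), one step, kernel `((1 + t²)^M)⁻¹`

* `DIRM M σ w X d e f L = ∫ ((1+t²)^M)⁻¹ * Σ_{l ∈ bl L} ‖dsR w X d e f l (σ+it)‖²`
* `oneStepExM`
-/

set_option autoImplicit false

noncomputable section

open MeasureTheory Finset
open scoped ComplexConjugate

namespace Crest.Agent.R017.PX764

open Crest.Agent.R012 Crest.Agent.R012.Eis Crest.Agent.R012.Gauss880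
open Crest.Agent.R012.LS2 Crest.Agent.R012.Mob705 Crest.Agent.R012.CR2
open Crest.Agent.R012.MelSep811
open Crest.Agent.R012.DualIneq811 (yy expo_le sum_ws_le pow_mul_exp_le nm_cpow_half pdiv_subset)
open Crest.Agent.R017.PA842 (V Supp sub restr sum_pairs_le Lde_nonneg aux_term)
open Crest.Agent.R017.PM106 (csigM csigM_pos mellin_sepM integrable_dp_sqM)

/-- the dual term -/
def DIRM (M : ℕ) (σ : ℝ) (w : Eis → ℂ) (X : ℝ) (d e f : Eis) (L : ℝ) : ℝ :=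
  ∫ t : ℝ, ((1 + t ^ 2) ^ M)⁻¹ * ∑ l ∈ bl L, ‖dsR w X d e f l (σ + t * Complex.I)‖ ^ 2

/-- the small frequencies -/
lemma norm_qR_leM {M : ℕ} (hM : 1 ≤ M) {X Z σ : ℝ} (hX : 0 ≤ X) (hZ : 0 < Z) (hσ : 0 < σ) (hσ1 : σ ≤ 1) {w : Eis → ℂ}
    (hw : Supp w X) {d e f l : Eis} (he : e ≠ 0) (hf : f ∈ S X) (hl : l ≠ 0) :
    ‖qR w X Z d e f l‖ ≤ csigM M σ * ((nm f : ℝ)⁻¹ * (nm e * (nm f : ℝ) ^ 2 / Z) ^ σ) *
      ∫ t : ℝ, ((1 + t ^ 2) ^ M)⁻¹ * ‖dsR w X d e f l (σ + t * Complex.I)‖ ^ 2 := by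
  have hf' := (mem_S hX).1 hf
  have ne : (0 : ℝ) < nm e := by exact_mod_cast nm_pos.2 he
  have nf : (0 : ℝ) < nm f := by exact_mod_cast nm_pos.2 hf'.2.1.ne_zero
  have nl : (0 : ℝ) < nm l := by exact_mod_cast nm_pos.2 hl
  have nl1 : (1 : ℝ) ≤ nm l := by exact_mod_cast nm_pos.2 hl
  have hy : 0 < yy Z e f l := by unfold yy; positivity
  rw [qR_eq hX hw he hf l, norm_mul, Complex.norm_real, Real.norm_eq_abs,
    abs_of_nonneg (by positivity)]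
  have h1 := mellin_sepM hM (S X) (betR w d e f l) (fun k hk => ((mem_S hX).1 hk).2.1.ne_zero) hσ hσ1 hy
  have h2 : yy Z e f l ^ (-σ) ≤ (nm e * (nm f : ℝ) ^ 2 / Z) ^ σ := by
    have e1 : yy Z e f l = (4 * Real.pi ^ 2 / 3 * nm l) * (nm e * (nm f : ℝ) ^ 2 / Z)⁻¹ := by
      unfold yy; field_simp
    rw [e1, Real.mul_rpow (by positivity) (by positivity), Real.inv_rpow (by positivity),
      Real.rpow_neg (x := nm e * (nm f : ℝ) ^ 2 / Z) (by positivity), inv_inv]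
    have h3 : 1 ≤ 4 * Real.pi ^ 2 / 3 * nm l := by
      have h9 : 1 ≤ 4 * Real.pi ^ 2 / 3 := by
        have := Real.pi_gt_three
        nlinarith
      exact one_le_mul_of_one_le_of_one_le h9 nl1
    have h4 : (4 * Real.pi ^ 2 / 3 * (nm l : ℝ)) ^ (-σ) ≤ 1 :=
      Real.rpow_le_one_of_one_le_of_nonpos h3 (by linarith)
    calc (4 * Real.pi ^ 2 / 3 * (nm l : ℝ)) ^ (-σ) * (nm e * (nm f : ℝ) ^ 2 / Z) ^ σ
        ≤ 1 * (nm e * (nm f : ℝ) ^ 2 / Z) ^ σ := by gcongr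
      _ = _ := one_mul _
  have hI : 0 ≤ ∫ t : ℝ, ((1 + t ^ 2) ^ M)⁻¹ * ‖dp (S X) (betR w d e f l) ((σ : ℂ) + t * Complex.I)‖ ^ 2 :=
    integral_nonneg fun t => by positivity
  have hc := csigM_pos M hσ
  have h5 : ‖Gh (fq e l) f‖ ^ 2 * nh f ^ 2 ≤ (nm f : ℝ)⁻¹ := by
    rw [nh_sq hf'.2.1.ne_zero]
    have h6 : ‖Gh (fq e l) f‖ ^ 2 ≤ 1 :=
      pow_le_one₀ (norm_nonneg _) (norm_Gh_le hf'.2.1)
    exact mul_le_of_le_one_left (by positivity) h6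
  calc ‖Gh (fq e l) f‖ ^ 2 * nh f ^ 2 * _ ≤ (nm f : ℝ)⁻¹ * (csigM M σ * yy Z e f l ^ (-σ) *
        ∫ t : ℝ, ((1 + t ^ 2) ^ M)⁻¹ * ‖dp (S X) (betR w d e f l) ((σ : ℂ) + t * Complex.I)‖ ^ 2) := by
        gcongr
    _ ≤ (nm f : ℝ)⁻¹ * (csigM M σ * (nm e * (nm f : ℝ) ^ 2 / Z) ^ σ *
        ∫ t : ℝ, ((1 + t ^ 2) ^ M)⁻¹ * ‖dp (S X) (betR w d e f l) ((σ : ℂ) + t * Complex.I)‖ ^ 2) := by
        gcongr
    _ = _ := by simp only [dsR_eq]; ring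

lemma integrable_dsRM {M : ℕ} (hM : 1 ≤ M) {X : ℝ} (hX : 0 ≤ X) (w : Eis → ℂ) (d e f l : Eis) (σ : ℝ) :
    Integrable (fun t : ℝ => ((1 + t ^ 2) ^ M)⁻¹ * ‖dsR w X d e f l (σ + t * Complex.I)‖ ^ 2) := by
  simp only [dsR_eq]
  exact integrable_dp_sqM hM (S X) _ (fun k hk => ((mem_S hX).1 hk).2.1.ne_zero) σ

lemma DIRM_nonneg (M : ℕ) (σ : ℝ) (w : Eis → ℂ) (X : ℝ) (d e f : Eis) (L : ℝ) : 0 ≤ DIRM M σ w X d e f L :=
  integral_nonneg fun t => by positivity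

open Classical in
/-- one `(d, e, f)` -/
lemma one_defRM {M : ℕ} (hM : 1 ≤ M) {X Z σ ε : ℝ} (hX : 1 ≤ X) (hZ : 1 ≤ Z) (hσ : 0 < σ) (hσ1 : σ ≤ 1) {w : Eis → ℂ}
    (hw : Supp w X) {d e f : Eis} (he : e ≠ 0) (hf : f ∈ S X) :
    ‖∑' l : Eis, (if l = 0 then 0 else qR w X Z d e f l)‖ ≤
      csigM M σ * ((nm f : ℝ)⁻¹ * (nm e * (nm f : ℝ) ^ 2 / Z) ^ σ) *
        DIRM M σ w X d e f (Lde X Z ε d e) +
      ‖∑' l : Eis, (if l = 0 ∨ (nm l : ℝ) ≤ Lde X Z ε d e then 0 else qR w X Z d e f l)‖ := by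
  have hX0 : (0 : ℝ) ≤ X := by linarith
  have hZ0 : (0 : ℝ) < Z := by linarith
  have hL : 0 ≤ Lde X Z ε d e := by unfold Lde; positivity
  have hsum := summable_qR hX0 hZ0 w (d := d) he hf
  set L := Lde X Z ε d e with hLd
  have e1 : ∀ l : Eis, (if l = 0 then 0 else qR w X Z d e f l) =
      (if l ∈ bl L then qR w X Z d e f l else 0) +
      (if l = 0 ∨ (nm l : ℝ) ≤ L then 0 else qR w X Z d e f l) := by
    intro l
    by_cases h0 : l = 0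
    · rw [if_pos h0, if_pos (Or.inl h0), if_neg, add_zero]
      intro h; exact ((mem_bl hL).1 h).1 h0
    · rw [if_neg h0]
      by_cases h1 : (nm l : ℝ) ≤ L
      · rw [if_pos (Or.inr h1), if_pos ((mem_bl hL).2 ⟨h0, h1⟩), add_zero]
      · rw [if_neg (fun h => h1 ((mem_bl hL).1 h).2), zero_add,
          if_neg (fun h => h.elim h0 h1)]
  have s1 : Summable (fun l : Eis => if l ∈ bl L then qR w X Z d e f l else 0) :=
    summable_of_ne_finset_zero (s := bl L) (fun l hl => if_neg hl)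
  have s2 : Summable (fun l : Eis => if l = 0 ∨ (nm l : ℝ) ≤ L then 0 else qR w X Z d e f l) := by
    refine Summable.of_norm_bounded hsum.norm (fun l => ?_)
    by_cases h0 : l = 0
    · rw [if_pos (Or.inl h0), if_pos h0]
    · rw [if_neg h0]
      split_ifs
      · rw [norm_zero]; exact norm_nonneg _
      · exact le_rfl
  rw [tsum_congr e1, s1.tsum_add s2]
  refine (norm_add_le _ _).trans (add_le_add_left ?_ _)
  have e2 : ∑' l : Eis, (if l ∈ bl L then qR w X Z d e f l else 0) =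
      ∑ l ∈ bl L, qR w X Z d e f l := by
    rw [tsum_eq_sum (s := bl L) (fun l hl => if_neg hl)]
    exact Finset.sum_congr rfl fun l hl => if_pos hl
  rw [e2]
  refine (norm_sum_le _ _).trans ?_
  have e3 : DIRM M σ w X d e f L =
      ∑ l ∈ bl L, ∫ t : ℝ, ((1 + t ^ 2) ^ M)⁻¹ * ‖dsR w X d e f l (σ + t * Complex.I)‖ ^ 2 := by
    unfold DIRM
    simp_rw [Finset.mul_sum]
    rw [integral_finsetSum]
    intro l _
    exact integrable_dsRM hM hX0 w d e f l σ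
  rw [e3, Finset.mul_sum]
  exact Finset.sum_le_sum fun l hl => norm_qR_leM hM hX0 hZ0 hσ hσ1 hw he hf ((mem_bl hL).1 hl).1

set_option maxHeartbeats 1000000 in
open Classical in
/-- **(P_ex), one step, kernel `((1+t²)^M)⁻¹`.** -/
theorem oneStepExM {M : ℕ} (hM : 1 ≤ M) {σ ε : ℝ} (hσ : 0 < σ) (hσ1 : σ ≤ 1 / 2) (hε : 0 < ε) :
    ∃ C : ℝ, 1 ≤ C ∧ ∀ X Z Y : ℝ, 1 ≤ X → 1 ≤ Z → ∀ w : Eis → ℂ, Supp w X →
      Vnc X Z w ≤ C * (X * Z) ^ ε * (X + Z) * ∑ h ∈ S X, ‖w h‖ ^ 2 +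
        C * X ^ (3 * σ) * ∑ d ∈ (S X).filter (fun d => (nm d : ℝ) ≤ Y),
          ∑ e ∈ (S X).filter (· ∣ d), ∑ f ∈ S X, Z / nm f *
            DIRM M σ w X d e f (CR2.Lde X Z ε d e) +
        C * Z * ∑ d ∈ (S X).filter (fun d => (nm d : ℝ) ≤ Y), ‖Cross X Z w d‖ +
        ∑ g ∈ (S X).filter (fun g => Y < (nm g : ℝ)),
          (Div277.tau g : ℝ) * Vnc (X / nm g) Z (sub w g) := by
  obtain ⟨Ct, hCt, htail⟩ := tailR hε
  obtain ⟨CE, hCE, hEr⟩ := sum_Er_le hε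
  have h3 : 0 < Real.sqrt 3 := by positivity
  have hπ := Real.pi_pos
  have hcs := csigM_pos M hσ
  have hp := pC_pos
  have hκ0 := kap_pos
  refine ⟨2 + kap + Ct + CE + kap * csigM M σ + 2 * kap * pC, by
    have := mul_pos hκ0 hcs
    have := mul_pos hκ0 hp
    linarith, ?_⟩
  intro X Z Y hX hZ w hw
  have hX0 : (0 : ℝ) ≤ X := by linarith
  have hZ0 : (0 : ℝ) < Z := by linarith
  set A := (S X).filter (fun d => (nm d : ℝ) ≤ Y) with hA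
  set B := (S X).filter (fun d => Y < (nm d : ℝ)) with hB
  set W := ∑ h ∈ S X, ‖w h‖ ^ 2 with hW
  have hW0 : 0 ≤ W := Finset.sum_nonneg fun _ _ => by positivity
  -- the decomposition
  have hsplit : Vnc X Z w ≤ ∑ d ∈ A, ‖TDn X Z w d‖ + ∑ d ∈ B, ‖TDn X Z w d‖ := by
    have e1 := Vnc_eq_sum hX0 hZ0 w
    have e2 : Vnc X Z w = ‖((Vnc X Z w : ℝ) : ℂ)‖ := by
      rw [Complex.norm_real, Real.norm_of_nonneg (Vnc_nonneg _ _ _)]
    rw [e2, e1]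
    refine (norm_sum_le _ _).trans ?_
    have e3 : ∑ d ∈ S X, ‖TDn X Z w d‖ = ∑ d ∈ A, ‖TDn X Z w d‖ + ∑ d ∈ B, ‖TDn X Z w d‖ := by
      rw [← Finset.sum_filter_add_sum_filter_not (S X) (fun d => (nm d : ℝ) ≤ Y)]
      congr 1
      apply Finset.sum_congr _ fun _ _ => rfl
      rw [hB]
      apply Finset.filter_congr
      intro d _
      exact not_le
    rw [e3]
  -- large gcd
  have hBle : ∑ d ∈ B, ‖TDn X Z w d‖ ≤
      ∑ g ∈ B, (Div277.tau g : ℝ) * Vnc (X / nm g) Z (sub w g) := by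
    have e1 : ∑ d ∈ B, ‖TDn X Z w d‖ ≤ ∑ d ∈ B,
        ∑ f ∈ (S X).filter (fun f => d * f ∈ S X), Vnc (X / nm (d * f)) Z (sub w (d * f)) :=
      Finset.sum_le_sum fun d hd => norm_TDn_le hX0 hZ0 hw (Finset.mem_filter.1 hd).1
    exact e1.trans (sum_pairs_le (Y := Y) hX0 (fun g => Vnc (X / nm g) Z (sub w g))
      (fun g => Vnc_nonneg _ _ _))
  -- the bias-corrected part
  have hDD : ∑ d ∈ A, ‖TDD X Z w d‖ ≤ kap * csigM M σ * X ^ (3 * σ) *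
      (∑ d ∈ A, ∑ e ∈ (S X).filter (· ∣ d), ∑ f ∈ S X, Z / nm f *
        DIRM M σ w X d e f (Lde X Z ε d e)) + Ct * Z * W := by
    have e1 : ∑ d ∈ A, ‖TDD X Z w d‖ ≤ ∑ d ∈ A,
        ∑ e ∈ pdiv d, ∑ f ∈ S X, 2 * Real.pi * Z / (Real.sqrt 3 * nm e) *
          ‖∑' l : Eis, if l = 0 then 0 else qR w X Z d e f l‖ :=
      Finset.sum_le_sum fun d hd => norm_TDD_le hX0 hZ0 w (Finset.mem_filter.1 hd).1
    refine e1.trans ?_
    have f1 : ∀ d ∈ A, ∀ e ∈ pdiv d, ∀ f ∈ S X, 2 * Real.pi * Z / (Real.sqrt 3 * nm e) *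
        ‖∑' l : Eis, if l = 0 then 0 else qR w X Z d e f l‖ ≤
        kap * csigM M σ * X ^ (3 * σ) * (Z / nm f * DIRM M σ w X d e f (Lde X Z ε d e)) +
        2 * Real.pi * Z / (Real.sqrt 3 * nm e) *
        ‖∑' l : Eis, (if l = 0 ∨ (nm l : ℝ) ≤ Lde X Z ε d e then 0 else qR w X Z d e f l)‖ := by
      intro d hd e he f hf
      have hd' := (mem_S hX0).1 (Finset.mem_filter.1 hd).1
      have he' := (mem_pdiv hd'.2.1.ne_zero).1 he
      have hf' := (mem_S hX0).1 hf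
      have ne1 : (1 : ℝ) ≤ nm e := by exact_mod_cast nm_pos.2 he'.1.ne_zero
      have nf1 : (1 : ℝ) ≤ nm f := by exact_mod_cast nm_pos.2 hf'.2.1.ne_zero
      have nfX : (nm f : ℝ) ≤ X := hf'.1
      have neX : (nm e : ℝ) ≤ X := by
        refine le_trans ?_ hd'.1
        exact_mod_cast Div277.nm_le_of_dvd hd'.2.1.ne_zero he'.2
      have g1 := one_defRM hM hX hZ hσ (by linarith) (ε := ε) hw (d := d) he'.1.ne_zero hf
      have hc0 : 0 ≤ 2 * Real.pi * Z / (Real.sqrt 3 * nm e) :=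
        div_nonneg (mul_nonneg (mul_nonneg (by norm_num) hπ.le) hZ0.le)
          (mul_nonneg h3.le (Nat.cast_nonneg _))
      refine (mul_le_mul_of_nonneg_left g1 hc0).trans ?_
      rw [mul_add]
      refine add_le_add_left ?_ _
      have g3 := aux_X3 hX hZ (Nat.cast_nonneg (nm e)) (Nat.cast_nonneg (nm f)) neX nfX hσ
      exact aux_term hZ0.le ne1 (lt_of_lt_of_le one_pos nf1) hcs.le
        (Real.rpow_nonneg (div_nonneg (mul_nonneg (by linarith) (sq_nonneg _)) hZ0.le) _) g3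
        (DIRM_nonneg _ _ _ _ _ _ _ _) le_rfl
    refine (Finset.sum_le_sum fun d hd => Finset.sum_le_sum fun e he => Finset.sum_le_sum
        fun f hf => f1 d hd e he f hf).trans ?_
    simp_rw [Finset.sum_add_distrib]
    refine add_le_add ?_ ?_
    · simp_rw [← Finset.mul_sum]
      refine mul_le_mul_of_nonneg_left ?_
        (mul_nonneg (mul_nonneg hκ0.le hcs.le) (Real.rpow_nonneg hX0 _))
      refine Finset.sum_le_sum fun d hd => ?_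
      refine Finset.sum_le_sum_of_subset_of_nonneg (pdiv_subset hX0 (Finset.mem_filter.1 hd).1)
        (fun e _ _ => ?_)
      exact Finset.sum_nonneg fun f _ => mul_nonneg (div_nonneg hZ0.le (Nat.cast_nonneg _))
        (DIRM_nonneg _ _ _ _ _ _ _ _)
    · refine le_trans ?_ (htail X Z hX hZ w)
      refine Finset.sum_le_sum_of_subset_of_nonneg (Finset.filter_subset _ _) (fun d _ _ => ?_)
      refine Finset.sum_nonneg fun e _ => Finset.sum_nonneg fun f _ => ?_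
      exact mul_nonneg (div_nonneg (mul_nonneg (mul_nonneg (by norm_num) hπ.le) hZ0.le)
        (mul_nonneg h3.le (Nat.cast_nonneg _))) (norm_nonneg _)
  -- small gcd
  have hAle : ∑ d ∈ A, ‖TDn X Z w d‖ ≤ (kap * Z + 1) * W + Ct * Z * W +
      CE * (X * Z) ^ ε * (X + Z) * W + kap * csigM M σ * X ^ (3 * σ) *
      (∑ d ∈ A, ∑ e ∈ (S X).filter (· ∣ d), ∑ f ∈ S X, Z / nm f *
        DIRM M σ w X d e f (Lde X Z ε d e)) + 2 * kap * pC * Z * ∑ d ∈ A, ‖Cross X Z w d‖ := by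
    have e1 : ∑ d ∈ A, ‖TDn X Z w d‖ ≤ ∑ d ∈ A, (‖TDD X Z w d‖ +
        2 * kap * pC * Z * ‖Cross X Z w d‖ +
        ‖cpS X (ws w X) (ws w X) d (fun k₁ k₂ => ((Er Z d k₁ k₂ : ℝ) : ℂ))‖ +
        (kap * Z + 1) * ‖w d‖ ^ 2) :=
      Finset.sum_le_sum fun d hd => norm_TDn_dual hX0 hZ0 w (Finset.mem_filter.1 hd).1
    refine e1.trans ?_
    rw [Finset.sum_add_distrib, Finset.sum_add_distrib, Finset.sum_add_distrib,
      ← Finset.mul_sum, ← Finset.mul_sum]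
    have g1 : ∑ d ∈ A, ‖cpS X (ws w X) (ws w X) d (fun k₁ k₂ => ((Er Z d k₁ k₂ : ℝ) : ℂ))‖ ≤
        CE * (X * Z) ^ ε * (X + Z) * W := by
      have g2 : ∑ d ∈ A, ‖cpS X (ws w X) (ws w X) d (fun k₁ k₂ => ((Er Z d k₁ k₂ : ℝ) : ℂ))‖ ≤
          ∑ d ∈ S X, ‖cpS X (ws w X) (ws w X) d (fun k₁ k₂ => ((Er Z d k₁ k₂ : ℝ) : ℂ))‖ :=
        Finset.sum_le_sum_of_subset_of_nonneg (Finset.filter_subset _ _)
          (fun _ _ _ => norm_nonneg _)
      refine (g2.trans (hEr X Z hX hZ w)).trans ?_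
      have g4 : X ^ ε ≤ (X * Z) ^ ε :=
        Real.rpow_le_rpow hX0 (le_mul_of_one_le_right hX0 hZ) hε.le
      have g5 : CE * X ^ ε ≤ CE * (X * Z) ^ ε := mul_le_mul_of_nonneg_left g4 hCE
      exact mul_le_mul_of_nonneg_right (mul_le_mul_of_nonneg_right g5 (by linarith)) hW0
    have g6 : ∑ d ∈ A, ‖w d‖ ^ 2 ≤ W :=
      Finset.sum_le_sum_of_subset_of_nonneg (Finset.filter_subset _ _)
        (fun _ _ _ => sq_nonneg _)
    have g7 : (kap * Z + 1) * ∑ d ∈ A, ‖w d‖ ^ 2 ≤ (kap * Z + 1) * W :=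
      mul_le_mul_of_nonneg_left g6 (by have := mul_pos hκ0 hZ0; linarith)
    linarith
  have hD0 : 0 ≤ ∑ d ∈ A, ∑ e ∈ (S X).filter (· ∣ d), ∑ f ∈ S X, Z / nm f *
      DIRM M σ w X d e f (Lde X Z ε d e) :=
    Finset.sum_nonneg fun d _ => Finset.sum_nonneg fun e _ => Finset.sum_nonneg fun f _ =>
      mul_nonneg (div_nonneg hZ0.le (Nat.cast_nonneg _)) (DIRM_nonneg _ _ _ _ _ _ _ _)
  have hCR : 0 ≤ ∑ d ∈ A, ‖Cross X Z w d‖ := Finset.sum_nonneg fun _ _ => norm_nonneg _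
  have hXs : 0 ≤ X ^ (3 * σ) := Real.rpow_nonneg hX0 _
  have hP1 : 1 ≤ (X * Z) ^ ε :=
    Real.one_le_rpow (one_le_mul_of_one_le_of_one_le hX hZ) hε.le
  exact aux_finalR hκ0 hCt.le hCE hcs.le hp.le hZ hX0 hP1 hW0 hXs hD0 hCR hsplit hAle hBle


end Crest.Agent.R017.PX764
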