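import Crest.Agent.R017.QLf_777
import Crest.Agent.R017.PM6_320

/-!
# Row 17, T.7 (exceptional class): the pair alternative of line (r2) (helper829)

* `PX` : what may be concluded for the pair functional `(i, b)` of a side in the exceptional class:
  the merged family, the pair rule with the principal entry (both orders), the comparison with the
  replaced side, the flip of a lump
* `px_chain` : once there is a lump longer than `(i + b) / 2`, any missing gain is obtained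
* `PXn`, `px_of` : the closed form of the alternatives
-/

set_option autoImplicit false

noncomputable section

namespace Crest.Agent.R017.PX829

open Crest.Agent.R017.ER911 Crest.Agent.R017.SC777 Crest.Agent.R017.PM320

/-- **the pair alternative of the exceptional class** at the levels `(i, b)` -/
inductive PX (θ : ℝ) (r s : EF) (i b : ℝ) : Multiset ℝ → ℝ → ℝ → ℝ → Prop
  /-- the merged family -/
  | full (Y : Multiset ℝ) (m a ρ : ℝ) (h : Full θ r (i + 2 * b) Y m a ρ) : PX θ r s i b Y m a ρ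
  /-- the pair rule -/
  | base (Y : Multiset ℝ) (m a ρ : ℝ) (h : PMx s i b Y m a ρ)
      (hp : 2 * (Y.sum + m + a) + (i + 2 * b) / 3 ≤ ρ) : PX θ r s i b Y m a ρ
  /-- the pair rule, the other order -/
  | base' (Y : Multiset ℝ) (m a ρ : ℝ) (h : PMx s b i Y m a ρ)
      (hp : 2 * (Y.sum + m + a) + (2 * i + b) / 3 ≤ ρ) : PX θ r s i b Y m a ρ
  /-- comparison with the replaced side -/
  | repl (y₁ y₂ δ : ℝ) (u : Multiset ℝ) (m a ρ : ℝ) (h0 : 0 ≤ δ) (h1 : δ ≤ y₁) (h2 : δ ≤ y₂)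
      (hY : PMx s i b (y₁ ::ₘ y₂ ::ₘ u) m a ρ)
      (hY' : PMx s i b ((y₁ + y₂ - δ) ::ₘ δ ::ₘ u) m a ρ)
      (hp : 2 * (y₁ + y₂ + u.sum + m + a) + (i + 2 * b) / 3 - δ ≤ ρ)
      (h : PX θ r s i b ((y₁ + y₂ - δ) ::ₘ δ ::ₘ u) m a ρ) :
      PX θ r s i b (y₁ ::ₘ y₂ ::ₘ u) m a ρ
  /-- the flip of a lump (helper739's `flip2`) -/
  | flip (y : ℝ) (u : Multiset ℝ) (m a ρ : ℝ)
      (h1 : ∀ y' : ℝ, 0 ≤ y' → y' ≤ y → 2 * y' ≤ i + b → PX θ r s i b (y' ::ₘ u) m a ρ)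
      (h2 : ∀ y' t : ℝ, y' ≤ y → y' ≤ i + b → i + b ≤ 2 * y' → 0 ≤ t → t ≤ i + b - y' →
        PX θ r s i b ((i + b - t - y') ::ₘ u) m a (ρ - (2 * y' - (i + b) + t))) :
      PX θ r s i b (y ::ₘ u) m a ρ

variable {d : ℝ} {r s : EF}

/-- the pair rule from the numbers -/
lemma pmx_of (R : ExpRules (7 / 8 + d) r s) {y₁ y₂ y₃ m a n G D U i b ρ : ℝ}
    (h : Chi d y₁ y₂ y₃ m a n G D) (hU : ChU y₃ (m + a) n G U) (hb : 0 ≤ b)
    (hp1 : i + b + n ≤ ρ) (hp2 : 2 * n + b + D ≤ ρ) (hp3 : 2 / 3 * i + b / 3 + n + U + D ≤ ρ) :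
    PMx s i b {y₁, y₂, y₃} m a ρ :=
  ⟨(pm_of R h hU hb hp1 hp2 hp3).p1, (pm_of R h hU hb hp1 hp2 hp3).n1⟩

/-- the fixed data of a chain: levels `(i, b)`, granular masses, third piece at most `x`, total at
most `n₀` -/
structure Fx (d i b m a x n₀ D U : ℝ) : Prop where
  i0 : 0 ≤ i
  b0 : 0 ≤ b
  m0 : 0 ≤ m
  a0 : 0 ≤ a
  hD : 2 * d * (x + m + a) ≤ D
  hd : 0 ≤ d
  hd8 : 8 * d ≤ 1
  u1 : n₀ / 3 + x / 2 ≤ U
  u2 : n₀ / 3 + 4 / 15 * (x + m + a) ≤ U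
  u3 : 2 / 3 * (x + m + a) ≤ U
  u4 : m + a ≤ U

/-- the numbers of the side `{p, q, x'}` with target `ρ` -/
structure Sd (i b m a x n₀ D U p q x' ρ : ℝ) : Prop where
  p0 : 0 ≤ p
  q0 : 0 ≤ q
  x0 : 0 ≤ x'
  xx : x' ≤ x
  n0 : p + q + x' + m + a ≤ n₀
  e1 : i + b + (p + q + x' + m + a) ≤ ρ
  e2 : 2 * (p + q + x' + m + a) + b + D ≤ ρ
  e3 : 2 / 3 * i + b / 3 + (p + q + x' + m + a) + U + D ≤ ρ

theorem Sd.pm {i b m a x n₀ D U p q x' ρ : ℝ} (R : ExpRules (7 / 8 + d) r s)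
    (F : Fx d i b m a x n₀ D U) (h : Sd i b m a x n₀ D U p q x' ρ) :
    PMx s i b {p, q, x'} m a ρ := by
  obtain ⟨i0, b0, m0, a0, hD, hd, hd8, u1, u2, u3, u4⟩ := F
  obtain ⟨p0, q0, x0, xx, n0, e1, e2, e3⟩ := h
  exact pmx_of R (n := p + q + x' + m + a) (G := x + m + a) (D := D) (U := U)
    ⟨p0, q0, x0, m0, a0, rfl, by linarith, hD, hd, hd8⟩
    ⟨by linarith, by linarith, by linarith, by linarith⟩ b0 e1 e2 e3

theorem Sd.base {θ : ℝ} {i b m a x n₀ D U p q x' ρ : ℝ} (R : ExpRules (7 / 8 + d) r s)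
    (F : Fx d i b m a x n₀ D U) (h : Sd i b m a x n₀ D U p q x' ρ)
    (hp : 2 * (p + q + x' + m + a) + (i + 2 * b) / 3 ≤ ρ) :
    PX θ r s i b {p, q, x'} m a ρ :=
  PX.base _ _ _ _ (h.pm R F) (by rw [sum3]; linarith)

/-- comparison of the first two lumps -/
theorem Sd.repl {θ : ℝ} {i b m a x n₀ D U p q x' ρ δ : ℝ} (R : ExpRules (7 / 8 + d) r s)
    (F : Fx d i b m a x n₀ D U) (h : Sd i b m a x n₀ D U p q x' ρ) (h0 : 0 ≤ δ) (h1 : δ ≤ p)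
    (h2 : δ ≤ q) (hp : 2 * (p + q + x' + m + a) + (i + 2 * b) / 3 - δ ≤ ρ)
    (hX : PX θ r s i b {p + q - δ, δ, x'} m a ρ) : PX θ r s i b {p, q, x'} m a ρ := by
  have h' : Sd i b m a x n₀ D U (p + q - δ) δ x' ρ := by
    obtain ⟨p0, q0, x0, xx, n0, e1, e2, e3⟩ := h
    constructor <;> linarith
  refine PX.repl p q δ {x'} m a ρ h0 h1 h2 (h.pm R F) (h'.pm R F) ?_ hX
  rw [Multiset.sum_singleton]
  exact hp

/-- **the chain**: a lump `p` longer than `(i + b) / 2` and a second lump `q` with the missing gain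
`G ≤ p, q` -/
theorem px_chain {θ : ℝ} {i b m a x n₀ D U g : ℝ} (R : ExpRules (7 / 8 + d) r s)
    (F : Fx d i b m a x n₀ D U) (hg : 0 ≤ g) : ∀ (N : ℕ) (p q x' ρ : ℝ),
    Sd i b m a x n₀ D U p q x' ρ →
    2 * (p + q + x' + m + a) + (i + 2 * b) / 3 - ρ ≤ q →
    2 * (p + q + x' + m + a) + (i + 2 * b) / 3 - ρ ≤ p → g ≤ 2 * p - (i + b) →
    2 * (p + q + x' + m + a) + (i + 2 * b) / 3 - ρ ≤ N * g →
    PX θ r s i b {p, q, x'} m a ρ := by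
  intro N
  induction N with
  | zero =>
    intro p q x' ρ h _ _ _ h4
    rw [Nat.cast_zero, zero_mul] at h4
    exact h.base R F (by linarith)
  | succ N ih =>
    intro p q x' ρ h h1 h2 h3 h4
    push_cast at h4
    obtain ⟨p0, q0, x0, xx, n0, e1, e2, e3⟩ := h
    refine PX.flip p ({q, x'} : Multiset ℝ) m a ρ ?_ ?_
    · intro y' hy0 hy1 hy2
      have hs : Sd i b m a x n₀ D U y' q x' ρ := by constructor <;> linarith
      rcases le_or_gt (2 * (y' + q + x' + m + a) + (i + 2 * b) / 3) ρ with hc | hc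
      · exact hs.base R F hc
      refine hs.repl (δ := 2 * (y' + q + x' + m + a) + (i + 2 * b) / 3 - ρ) R F (by linarith)
        (by linarith) (by linarith) (by linarith) ?_
      refine ih _ _ _ _ ⟨?_, ?_, x0, xx, ?_, ?_, ?_, ?_⟩ ?_ ?_ ?_ ?_ <;> linarith
    · intro y' t hy1 hy2 hy3 ht0 ht1
      have hs : Sd i b m a x n₀ D U (i + b - t - y') q x' (ρ - (2 * y' - (i + b) + t)) := by
        constructor <;> linarith
      rcases le_or_gt (2 * (i + b - t - y' + q + x' + m + a) + (i + 2 * b) / 3)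
        (ρ - (2 * y' - (i + b) + t)) with hc | hc
      · exact hs.base R F hc
      refine hs.repl (δ := 2 * (i + b - t - y' + q + x' + m + a) + (i + 2 * b) / 3 -
        (ρ - (2 * y' - (i + b) + t))) R F (by linarith)
        (by linarith) (by linarith) (by linarith) ?_
      refine ih _ _ _ _ ⟨?_, ?_, x0, xx, ?_, ?_, ?_, ?_⟩ ?_ ?_ ?_ ?_ <;> linarith

/-- a number of rounds -/
lemma exists_rounds {G g : ℝ} (hg : 0 < g) : ∃ N : ℕ, G ≤ N * g := by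
  obtain ⟨N, hN⟩ := exists_nat_gt (G / g)
  exact ⟨N, by rw [div_lt_iff₀ hg] at hN; exact hN.le⟩

/-- **two lumps**: `G ≤ y₁`, `2 (y₁ + y₂ - G) > i + b` -/
theorem px_two {θ : ℝ} {i b m a x n₀ D U y₁ y₂ x' ρ G : ℝ} (R : ExpRules (7 / 8 + d) r s)
    (F : Fx d i b m a x n₀ D U) (h : Sd i b m a x n₀ D U y₁ y₂ x' ρ)
    (hG : G = 2 * (y₁ + y₂ + x' + m + a) + (i + 2 * b) / 3 - ρ) (h1 : G ≤ y₁)
    (h2 : i + b < 2 * (y₁ + y₂ - G)) : PX θ r s i b {y₁, y₂, x'} m a ρ := by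
  rcases le_or_gt G 0 with hG0 | hG0
  · exact h.base R F (by linarith)
  have hg : 0 < 2 * (y₁ + y₂ - G) - (i + b) := by linarith
  obtain ⟨N, hN⟩ := exists_rounds (G := G) hg
  obtain ⟨p0, q0, x0, xx, n0, e1, e2, e3⟩ := h
  rcases le_or_gt G y₂ with h3 | h3
  · refine Sd.repl (δ := G) R F ⟨p0, q0, x0, xx, n0, e1, e2, e3⟩ hG0.le h1 h3 (by linarith) ?_
    refine px_chain R F hg.le N _ _ _ _ ⟨?_, ?_, x0, xx, ?_, ?_, ?_, ?_⟩ ?_ ?_ ?_ ?_ <;> linarith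
  · refine PX.flip y₁ ({y₂, x'} : Multiset ℝ) m a ρ ?_ ?_
    · intro y' hy0 hy1 hy2
      have hs : Sd i b m a x n₀ D U y' y₂ x' ρ := by constructor <;> linarith
      rcases le_or_gt (2 * (y' + y₂ + x' + m + a) + (i + 2 * b) / 3) ρ with hc | hc
      · exact hs.base R F hc
      refine hs.repl (δ := 2 * (y' + y₂ + x' + m + a) + (i + 2 * b) / 3 - ρ) R F (by linarith)
        (by linarith) (by linarith) (by linarith) ?_
      refine px_chain R F hg.le N _ _ _ _ ⟨?_, ?_, x0, xx, ?_, ?_, ?_, ?_⟩ ?_ ?_ ?_ ?_ <;> linarith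
    · intro y' t hy1 hy2 hy3 ht0 ht1
      have hs : Sd i b m a x n₀ D U (i + b - t - y') y₂ x' (ρ - (2 * y' - (i + b) + t)) := by
        constructor <;> linarith
      rcases le_or_gt (2 * (i + b - t - y' + y₂ + x' + m + a) + (i + 2 * b) / 3)
        (ρ - (2 * y' - (i + b) + t)) with hc | hc
      · exact hs.base R F hc
      refine hs.repl (δ := 2 * (i + b - t - y' + y₂ + x' + m + a) + (i + 2 * b) / 3 -
        (ρ - (2 * y' - (i + b) + t))) R F (by linarith)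
        (by linarith) (by linarith) (by linarith) ?_
      refine px_chain R F hg.le N _ _ _ _ ⟨?_, ?_, x0, xx, ?_, ?_, ?_, ?_⟩ ?_ ?_ ?_ ?_ <;> linarith

/-- **three lumps**: `G ≤ y₁, y₂, y₃`, `2 (y₁ + y₂ + y₃ - 2 G) > i + b` -/
theorem px_three {θ : ℝ} {i b m a x n₀ D U y₁ y₂ y₃ ρ G : ℝ} (R : ExpRules (7 / 8 + d) r s)
    (F : Fx d i b m a x n₀ D U) (h : Sd i b m a x n₀ D U y₁ y₂ y₃ ρ)
    (hG : G = 2 * (y₁ + y₂ + y₃ + m + a) + (i + 2 * b) / 3 - ρ) (h1 : G ≤ y₁) (h2 : G ≤ y₂)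
    (h3 : G ≤ y₃) (h4 : i + b < 2 * (y₁ + y₂ + y₃ - 2 * G)) :
    PX θ r s i b {y₁, y₂, y₃} m a ρ := by
  rcases le_or_gt G 0 with hG0 | hG0
  · exact h.base R F (by linarith)
  obtain ⟨p0, q0, x0, xx, n0, e1, e2, e3⟩ := h
  refine Sd.repl (δ := G) R F ⟨p0, q0, x0, xx, n0, e1, e2, e3⟩ hG0.le h1 h2 (by linarith) ?_
  have hsw : ({y₁ + y₂ - G, G, y₃} : Multiset ℝ) = {y₁ + y₂ - G, y₃, G} := by
    rw [Multiset.insert_eq_cons, Multiset.insert_eq_cons, Multiset.insert_eq_cons,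
      Multiset.insert_eq_cons, ← Multiset.cons_zero, ← Multiset.cons_zero,
      Multiset.cons_swap G y₃]
  rw [hsw]
  refine px_two R F (G := G) ⟨?_, ?_, ?_, ?_, ?_, ?_, ?_, ?_⟩ ?_ ?_ ?_ <;> linarith

/-- the numbers `(i, b, …)` of the pair rule -/
structure PMn (i b n D U ρ : ℝ) : Prop where
  p1 : i + b + n ≤ ρ
  p2 : 2 * n + b + D ≤ ρ
  p3 : 2 / 3 * i + b / 3 + n + U + D ≤ ρ

/-- **the alternatives in closed form**, sorted side `y₃ ≤ y₂ ≤ y₁`, granular mass `w`, total `n'`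
(`κ = i + 2 b` merged, `z = y₁ + y₂`) -/
def PXn (i b g y₁ y₂ y₃ w n' D U ρ : ℝ) : Prop :=
  2 * w + (i + 2 * b) / 3 ≤ ρ ∧
    ((i + 2 * b) + n' + 3 / 4 * (y₃ + w) + D ≤ ρ ∨
    ((i + 2 * b) + n' + 3 / 4 * y₃ + D ≤ ρ ∧
      5 / 12 * (i + 2 * b) + 7 / 12 * (y₁ + y₂) + n' + 3 / 4 * (y₃ + w) + D ≤ ρ ∧
      1 / 2 * (i + 2 * b) + 1 / 4 * (y₁ + y₂) + n' + 3 / 4 * (y₃ + w) + D ≤ ρ) ∨
    ((i + 2 * b) + n' + D ≤ ρ ∧ 2 / 3 * (i + 2 * b) + n' + U + D ≤ ρ ∧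
      (i + 2 * b) / 3 + 3 / 2 * n' + U / 2 + D ≤ ρ) ∨
    (i + b + n' ≤ ρ ∧ 2 * n' + b + g + D ≤ ρ ∧ 2 / 3 * i + b / 3 + n' + U + D ≤ ρ ∧
      (2 * n' + (i + 2 * b) / 3 ≤ ρ ∨
      (2 * n' + (i + 2 * b) / 3 - ρ ≤ y₁ ∧
        i + b < 2 * (y₁ + y₂ - (2 * n' + (i + 2 * b) / 3 - ρ))) ∨
      (2 * n' + (i + 2 * b) / 3 - ρ ≤ y₃ ∧
        i + b < 2 * (y₁ + y₂ + y₃ - 2 * (2 * n' + (i + 2 * b) / 3 - ρ))))) ∨
    (i + b + n' ≤ ρ ∧ 2 * n' + i + D ≤ ρ ∧ 2 / 3 * b + i / 3 + n' + U + D ≤ ρ ∧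
      2 * n' + (2 * i + b) / 3 ≤ ρ))

/-- **the alternatives in closed form suffice** -/
theorem px_of (R : ExpRules (7 / 8 + d) r s) (hd : 0 ≤ d) (hd8 : 8 * d ≤ 1)
    {i b g g₂ y₁ y₂ y₃ m a n' D U ρ : ℝ} (h32 : y₃ ≤ y₂) (h21 : y₂ ≤ y₁) (h3 : 0 ≤ y₃)
    (hm : 0 ≤ m) (ha : 0 ≤ a) (hn' : n' = y₁ + y₂ + y₃ + (m + a))
    (hD : 2 * d * (y₃ + (m + a)) ≤ D)
    (hU : U = max (max (n' / 3 + y₃ / 2) (n' / 3 + 4 / 15 * (y₃ + (m + a))))
      (max (2 / 3 * (y₃ + (m + a))) (m + a)))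
    (hi : 0 ≤ i) (hb : 0 ≤ b) (hg0 : 0 ≤ g₂) (hg1 : g₂ ≤ g) (hgi : 2 * g₂ ≤ i)
    (H : PXn i b g y₁ y₂ y₃ (m + a) n' D U ρ) :
    PX (7 / 8 + d) r s (i - 2 * g₂) (b + g₂) {y₁, y₂, y₃} m a ρ := by
  have h2 : 0 ≤ y₂ := h3.trans h32
  have h1 : 0 ≤ y₁ := h2.trans h21
  have hc : Chi d y₁ y₂ y₃ m a n' (y₃ + m + a) D :=
    ⟨h1, h2, h3, hm, ha, by rw [hn']; ring, le_rfl, by
      rw [add_assoc]; exact hD, hd, hd8⟩
  have hdm : 8 * d * m ≤ 1 * m := mul_le_mul_of_nonneg_right hd8 hm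
  have u1 : n' / 3 + y₃ / 2 ≤ U := by
    rw [hU]; exact (le_max_left _ _).trans (le_max_left _ _)
  have u2 : n' / 3 + 4 / 15 * (y₃ + (m + a)) ≤ U := by
    rw [hU]; exact (le_max_right _ _).trans (le_max_left _ _)
  have u3 : 2 / 3 * (y₃ + (m + a)) ≤ U := by
    rw [hU]; exact (le_max_left _ _).trans (le_max_right _ _)
  have u4 : m + a ≤ U := by
    rw [hU]; exact (le_max_right _ _).trans (le_max_right _ _)
  have hcU : ChU y₃ (m + a) n' (y₃ + m + a) U := by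
    refine ⟨u1, ?_, ?_, u4⟩ <;> linarith
  have eκ : i - 2 * g₂ + 2 * (b + g₂) = i + 2 * b := by ring
  obtain ⟨hp, H⟩ := H
  have hp' : 2 * a + 2 * (7 / 8 + d) * m + (i + 2 * b) / 3 ≤ ρ := by linarith
  have hF : Fx d (i - 2 * g₂) (b + g₂) m a y₃ n' D U := by
    constructor <;> linarith
  rcases H with h | ⟨t0, t1, t2⟩ | ⟨v1, v2, v3⟩ | ⟨b1, b2, b3, h⟩ | ⟨b1, b2, b3, b4⟩
  · refine PX.full _ _ _ _ ?_
    rw [eκ]
    exact full_TF R hc (by linarith) hp'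
  · refine PX.full _ _ _ _ ?_
    rw [eκ]
    exact full_T R hc t0 (by linarith) (by linarith) hp'
  · refine PX.full _ _ _ _ ?_
    rw [eκ]
    exact full_V R hc hcU v1 v2 v3 hp'
  · have hS : Sd (i - 2 * g₂) (b + g₂) m a y₃ n' D U y₁ y₂ y₃ ρ := by
      constructor <;> linarith
    rcases h with h | ⟨k1, k2⟩ | ⟨k1, k2⟩
    · exact hS.base R hF (by linarith)
    · exact px_two R hF hS (G := 2 * n' + (i + 2 * b) / 3 - ρ) (by rw [hn']; ring) k1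
        (by linarith)
    · exact px_three R hF hS (G := 2 * n' + (i + 2 * b) / 3 - ρ) (by rw [hn']; ring)
        (by linarith) (by linarith) k1 (by linarith)
  · refine PX.base' _ _ _ _ (pmx_of R hc hcU (by linarith) (by linarith) (by linarith)
      (by linarith)) ?_
    rw [sum3]
    linarith

end Crest.Agent.R017.PX829
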