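import Crest.Agent.R017.ProvI_71

/-!
# Row 17, provider: adding a smooth piece of length `0` (helper911)

* `BG_pad` : abstract
* `exists_p0` : a lump whose coefficients are a constant times the unit sequence
* `pad_R`, `pad_S`, `pad_B` : the functionals; `expPad_of` : the exponents
-/

set_option autoImplicit false
set_option linter.unusedSectionVars false

noncomputable section

open Complex
open scoped ComplexConjugate

namespace Crest.Agent.R017.Prov71

open Crest.Agent.R012 Crest.Agent.R012.Eis Crest.Agent.R012.LS2 Crest.Agent.R012.Gauss880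
open Crest.Agent.R012.Div277
open Crest.Agent.R017.CM106 Crest.Agent.R017.FE47 Crest.Agent.R017.End699
open Crest.Agent.R017.XG702 (Pcs BG)
open Crest.Agent.R017.ER911
open Crest.Agent.R017.B770
open Crest.Agent.R017.HP842 (UT Pc pc KS sqc Kg uv alL alL_nil alL_cons cvL dl)
open Crest.Agent.R017.TP320 (conv)
open Crest.Agent.R017.HSep813 (gw)

section gen

variable {Pc τ Lam : Type*} [DecidableEq τ] {D : Pcs Pc τ}

/-- **a lump of length `0` can be added** -/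
theorem BG_pad {Ψ : Lam → ℝ → List Pc → ℝ} (p₀ : Pc) (hl : D.lump p₀) (hs1 : D.s1 p₀ ≤ 1)
    (hlen : 0 ≤ D.len p₀) {C : ℝ} (hC : 0 ≤ C) (H : ∀ lam l ps, Ψ lam l ps ≤ C * Ψ lam l (p₀ :: ps))
    {κ e : ℝ} {u : List ℝ} {w : τ → ℝ} (h : BG D Ψ κ (0 :: u) w e) : BG D Ψ κ u w e := by
  intro ε hε
  obtain ⟨δ, hδ, L⟩ := h (ε / 2) (by positivity)
  refine ⟨δ, hδ, fun lam N B => ?_⟩
  obtain ⟨η, hη, X₀, hX₀, K⟩ := L lam N (max B 1)
  obtain ⟨X₁, hX₁⟩ : ∃ X₁ : ℝ, ∀ X, X₁ ≤ X → C ≤ X ^ (ε / 2) :=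
    Filter.eventually_atTop.1
      ((tendsto_rpow_atTop (by positivity : (0 : ℝ) < ε / 2)).eventually_ge_atTop C)
  obtain ⟨X₂, hX₂⟩ : ∃ X₂ : ℝ, ∀ X, X₂ ≤ X → D.len p₀ / δ + 1 ≤ Real.log X :=
    Filter.eventually_atTop.1 (Real.tendsto_log_atTop.eventually_ge_atTop _)
  refine ⟨η, hη, max (max X₀ X₁) (max X₂ (max (D.s2 p₀) 1)),
    lt_of_lt_of_le hX₀ ((le_max_left _ _).trans (le_max_left _ _)), ?_⟩
  intro X hX k us gs hk hnear hgran hgood
  have e1 : X₀ ≤ X := ((le_max_left _ _).trans (le_max_left _ _)).trans hX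
  have e2 : X₁ ≤ X := ((le_max_right _ _).trans (le_max_left _ _)).trans hX
  have e3 : X₂ ≤ X := ((le_max_left _ _).trans (le_max_right _ _)).trans hX
  have e4 : D.s2 p₀ ≤ X :=
    (((le_max_left _ _).trans (le_max_right _ _)).trans (le_max_right _ _)).trans hX
  have hX1 : 1 < X := by linarith
  have hX0 : 0 < X := by linarith
  have hlog : 0 < Real.log X := Real.log_pos hX1
  have hnl : |D.nl X p₀ - 0| ≤ δ := by
    rw [sub_zero]
    unfold Pcs.nl
    rw [abs_of_nonneg (div_nonneg hlen hlog.le), div_le_iff₀ hlog]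
    have h1 := hX₂ X e3
    have h2 : D.len p₀ / δ ≤ Real.log X := by linarith
    rw [div_le_iff₀ hδ] at h2
    linarith
  have h1 := K X e1 k (p₀ :: us) gs hk (List.Forall₂.cons ⟨hl, hnl⟩ hnear) hgran (by
    intro p hp
    rw [List.cons_append, List.mem_cons] at hp
    rcases hp with rfl | hp
    · refine ⟨hs1.trans (Real.one_le_rpow hX1.le hη.le), ?_, hlen⟩
      refine e4.trans ?_
      conv_lhs => rw [← Real.rpow_one X]
      exact Real.rpow_le_rpow_of_exponent_le hX1.le (le_max_right _ _)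
    · obtain ⟨g1, g2, g3⟩ := hgood p hp
      exact ⟨g1, g2.trans (Real.rpow_le_rpow_of_exponent_le hX1.le (le_max_left _ _)), g3⟩)
  rw [List.cons_append] at h1
  have h2 := hX₁ X e2
  have h3 := H lam (k * Real.log X) (us ++ gs)
  calc Ψ lam (k * Real.log X) (us ++ gs) ≤ C * Ψ lam (k * Real.log X) (p₀ :: (us ++ gs)) := h3
    _ ≤ C * X ^ (e + ε / 2) := mul_le_mul_of_nonneg_left h1 hC
    _ ≤ X ^ (ε / 2) * X ^ (e + ε / 2) :=
        mul_le_mul_of_nonneg_right h2 (Real.rpow_nonneg hX0.le _)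
    _ = X ^ (e + ε) := by rw [← Real.rpow_add hX0]; congr 1; ring

end gen

/-! ### the literal lump -/

/-- the product of all nonzero elements of norm at most `M` -/
def allD (M : ℝ) : Eis := ∏ x ∈ bl M, x

lemma allD_ne (M : ℝ) : allD M ≠ 0 := by
  classical
  unfold allD
  rw [Finset.prod_ne_zero_iff]
  intro x hx
  unfold bl at hx
  exact (Finset.mem_erase.1 hx).1

lemma prin0_allD {M : ℝ} (hM : 0 ≤ M) {b : Eis} (hb : IsPrim b) (h1 : b ≠ 1)
    (hbM : (nm b : ℝ) ≤ M) : prin0 (allD M) b = 0 := by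
  classical
  unfold prin0
  rw [if_neg]
  intro hc
  apply h1
  refine HP842.eq_one_of_isUnit hb ?_
  have hd : b ∣ allD M := Finset.dvd_prod_of_mem _ ((mem_bl hM).2 ⟨hb.ne_zero, hbM⟩)
  exact hc.isUnit_of_dvd' dvd_rfl hd

/-- the lump of length `z` prime to everything small -/
def pz (M z : ℝ) : Pq := ⟨.mo, .one, allD M, allD_ne M, z, 0⟩

lemma pc_pz {h : ℝ → ℝ} {P : DPar} (hP : P.OK) {R z : ℝ} (hR : ∀ u, cx h u ≠ 0 → |u| ≤ R) :
    pc h ((pz (Real.exp (z + R)) z).pc P) = fun b => cx h (-z) * dl b := by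
  classical
  funext b
  unfold HP842.pc
  simp only [Pq.pc_u, Pq.pc_Y, Pq.pc_t, Pq.pc_ψ]
  unfold pz
  simp only
  by_cases h1 : b = 1
  · subst h1
    rw [if_pos isPrim_one, HP842.dl_one]
    have e1 : prin0 (allD (Real.exp (z + R))) 1 = 1 := by
      unfold prin0; rw [if_pos isCoprime_one_left]
    rw [(isChar_chK hP .mo).one, e1]
    unfold HSep813.gw HP842.uv Weight600.osc
    simp
  · rw [HP842.dl_ne h1, mul_zero]
    split_ifs with hb
    · by_cases hg : HSep813.gw h (Real.exp z) 0 b = 0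
      · rw [hg, mul_zero]
      · have h2 : cx h (Real.log (nm b) - Real.log (Real.exp z)) ≠ 0 := by
          intro h0
          apply hg
          unfold HSep813.gw
          rw [h0, mul_zero]
        have h3 := hR _ h2
        rw [Real.log_exp] at h3
        have h4 := (abs_le.1 h3).2
        have h5 : (0 : ℝ) < nm b := by exact_mod_cast nm_pos.2 hb.ne_zero
        have h6 : (nm b : ℝ) ≤ Real.exp (z + R) := by
          rw [← Real.log_le_iff_le_exp h5]; linarith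
        rw [prin0_allD (Real.exp_pos _).le hb h1 h6]
        ring
    · rfl

lemma CS_smul_dl (c : ℂ) (k : Eis) : CS (fun b => c * dl b) k = c := by
  unfold CM106.CS
  rw [tsum_eq_single 1 fun n hn => by beta_reduce; rw [HP842.dl_ne hn, mul_zero, zero_mul]]
  beta_reduce
  rw [HP842.dl_one, Sym645.sy_one_right]
  ring

lemma conv_smul_dl {c : ℂ} {β : Eis → ℂ} (hβ : FS β) :
    conv (fun b => c * dl b) β = fun n => c * β n := by
  classical
  funext n
  unfold TP320.conv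
  by_cases hn : n = 0
  · subst hn
    rw [dvs_zero, Finset.sum_empty]
    have : β 0 = 0 := by
      by_contra h0
      exact (hβ.prim 0 h0).ne_zero rfl
    rw [this, mul_zero]
  · rw [Finset.sum_eq_single 1]
    · beta_reduce
      rw [HP842.dl_one, mul_one]
      congr 2
      have h1 := TP320.mul_div_of_mem (n := n) (d := 1) ((mem_dvs hn).2 ⟨isPrim_one, one_dvd _⟩)
      rwa [one_mul] at h1
    · intro d _ hd
      beta_reduce
      rw [HP842.dl_ne hd]; ring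
    · intro h0
      exact absurd ((mem_dvs hn).2 ⟨isPrim_one, one_dvd _⟩) h0

/-- **the constant lump** -/
theorem exists_p0 {h : ℝ → ℝ} {c : ℝ} (hh : PU h c) :
    ∃ (p₀ : Pq) (c₀ : ℂ), c₀ ≠ 0 ∧ Dq.lump p₀ ∧ Dq.s1 p₀ ≤ 1 ∧ 0 ≤ Dq.len p₀ ∧
      ∀ P : DPar, P.OK → pc h (p₀.pc P) = fun b => c₀ * dl b := by
  obtain ⟨R, hR⟩ := bump_of_cs hh.cs
  obtain ⟨n, hn⟩ : ∃ n : ℕ, h (0 - c * n) ≠ 0 := by
    by_contra hcon
    push Not at hcon
    have := hh.one 0 le_rfl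
    rw [tsum_congr hcon, tsum_zero] at this
    exact zero_ne_one this
  refine ⟨pz (Real.exp (c * n + R)) (c * n), cx h (-(c * n)), ?_, ?_, ?_, ?_, fun P hP =>
    pc_pz hP hR⟩
  · unfold cx
    rw [zero_sub] at hn
    exact_mod_cast hn
  · exact ⟨rfl, rfl⟩
  · simp [pz]
  · simp only [Dq_len, pz]
    exact mul_nonneg hh.cpos.le (Nat.cast_nonneg n)

section fun3

variable {h : ℝ → ℝ} {P : DPar} {p₀ : Pq} {c₀ : ℂ}

lemma RQ_cons_p0 (e : pc h (p₀.pc P) = fun b => c₀ * dl b) (Q : Eis → Prop) (l : ℝ)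
    (ps : List Pq) : RQ Q h l ((p₀ :: ps).map (Pq.pc P)) =
      ‖c₀‖ ^ 2 * RQ Q h l (ps.map (Pq.pc P)) := by
  classical
  unfold RQ
  rw [Finset.mul_sum]
  refine Finset.sum_congr rfl fun k _ => ?_
  rw [List.map_cons, List.map_cons, List.prod_cons, e, CS_smul_dl]

lemma BQ_cons_p0 (e : pc h (p₀.pc P) = fun b => c₀ * dl b) (Q : Eis → Prop) (l : ℝ)
    (ps : List Pq) : BQ Q h l ((p₀ :: ps).map (Pq.pc P)) =
      ‖c₀‖ * BQ Q h l (ps.map (Pq.pc P)) := by
  classical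
  unfold BQ
  rw [Finset.mul_sum]
  refine Finset.sum_congr rfl fun k _ => ?_
  rw [List.map_cons, List.map_cons, List.prod_cons, e, CS_smul_dl]

lemma alL_cons_p0 (hh : Bump h) (hP : P.OK) (e : pc h (p₀.pc P) = fun b => c₀ * dl b)
    (ps : List Pq) : alL h ((p₀ :: ps).map (Pq.pc P)) =
      fun n => c₀ * alL h (ps.map (Pq.pc P)) n := by
  rw [List.map_cons, alL_cons, e, conv_smul_dl]
  exact fs_alL hh fun p hp => by
    obtain ⟨q, _, rfl⟩ := List.mem_map.1 hp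
    exact q.ok hP

lemma KS_sqc_smul (K : Eis → Eis → ℂ) (c : ℂ) (α : Eis → ℂ) (x : Eis) :
    KS K (sqc 1 (fun n => c * α n)) x = c * KS K (sqc 1 α) x := by
  unfold HP842.KS HP842.sqc
  rw [← tsum_mul_left]
  exact tsum_congr fun n => by ring

lemma SK_cons_p0 (hh : Bump h) (hP : P.OK) (e : pc h (p₀.pc P) = fun b => c₀ * dl b)
    (K : Eis → Eis → ℂ) (l : ℝ) (ps : List Pq) : SK K h l ((p₀ :: ps).map (Pq.pc P)) =
      ‖c₀‖ ^ 2 * SK K h l (ps.map (Pq.pc P)) := by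
  unfold SK
  rw [Finset.mul_sum]
  refine Finset.sum_congr rfl fun x _ => ?_
  rw [alL_cons_p0 hh hP e, KS_sqc_smul, norm_mul, mul_pow]

end fun3

/-- a functional that scales when the constant lump is added -/
def Padd {Lam : Type*} (Ψ : Lam → ℝ → List Pq → ℝ) : Prop :=
  ∃ (p₀ : Pq) (C : ℝ), Dq.lump p₀ ∧ Dq.s1 p₀ ≤ 1 ∧ 0 ≤ Dq.len p₀ ∧ 0 ≤ C ∧
    ∀ lam l ps, Ψ lam l ps ≤ C * Ψ lam l (p₀ :: ps)

section inst

variable {Lam : Type*} {π : Lam → DPar} {h : ℝ → ℝ} {c : ℝ}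

/-- any second moment on the character side -/
theorem padd_RQ (hP : ∀ lam, (π lam).OK) (hh : PU h c) (Q : Lam → Eis → Prop) :
    Padd (fun (lam : Lam) l ps => RQ (Q lam) h l (ps.map (Pq.pc (π lam)))) := by
  obtain ⟨p₀, c₀, hc, h1, h2, h3, h4⟩ := exists_p0 hh
  have hc' : 0 < ‖c₀‖ := norm_pos_iff.2 hc
  refine ⟨p₀, (‖c₀‖ ^ 2)⁻¹, h1, h2, h3, by positivity, fun lam l ps => ?_⟩
  beta_reduce
  rw [RQ_cons_p0 (h4 _ (hP lam)), ← mul_assoc, inv_mul_cancel₀ (by positivity), one_mul]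

/-- any first moment -/
theorem padd_BQ (hP : ∀ lam, (π lam).OK) (hh : PU h c) (Q : Lam → Eis → Prop) :
    Padd (fun (lam : Lam) l ps => BQ (Q lam) h l (ps.map (Pq.pc (π lam)))) := by
  obtain ⟨p₀, c₀, hc, h1, h2, h3, h4⟩ := exists_p0 hh
  have hc' : 0 < ‖c₀‖ := norm_pos_iff.2 hc
  refine ⟨p₀, ‖c₀‖⁻¹, h1, h2, h3, by positivity, fun lam l ps => ?_⟩
  beta_reduce
  rw [BQ_cons_p0 (h4 _ (hP lam)), ← mul_assoc, inv_mul_cancel₀ (by positivity), one_mul]

/-- the Gauss side -/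
theorem padd_SK (hP : ∀ lam, (π lam).OK) (hh : PU h c) (K : Eis → Eis → ℂ) :
    Padd (fun (lam : Lam) l ps => SK K h l (ps.map (Pq.pc (π lam)))) := by
  obtain ⟨p₀, c₀, hc, h1, h2, h3, h4⟩ := exists_p0 hh
  have hc' : 0 < ‖c₀‖ := norm_pos_iff.2 hc
  refine ⟨p₀, (‖c₀‖ ^ 2)⁻¹, h1, h2, h3, by positivity, fun lam l ps => ?_⟩
  beta_reduce
  rw [SK_cons_p0 (bump_of_cs hh.cs) (hP lam) (h4 _ (hP lam)), ← mul_assoc,
    inv_mul_cancel₀ (by positivity), one_mul]

theorem padd_Rp (hP : ∀ lam, (π lam).OK) (hh : PU h c) : Padd (fun lam => Rp (π lam) h) :=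
  padd_RQ hP hh fun lam => Qp (π lam)

theorem padd_Rc (hP : ∀ lam, (π lam).OK) (hh : PU h c) : Padd (fun lam => Rc (π lam) h) :=
  padd_RQ hP hh fun lam => (π lam).NP2

theorem padd_Bp (hP : ∀ lam, (π lam).OK) (hh : PU h c) : Padd (fun lam => Bp (π lam) h) :=
  padd_BQ hP hh fun lam => Qp (π lam)

theorem padd_Sp (hP : ∀ lam, (π lam).OK) (hh : PU h c) : Padd (fun lam => Sp (π lam) h) :=
  padd_SK hP hh Kg

/-- **the exponents** -/
theorem expPad_of {Ψ : Lam → ℝ → List Pq → ℝ} (hp : Padd Ψ) (hperm : Pinv Ψ)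
    (ht : Triv Dq Ψ) : ExpPad (ex Dq Ψ) where
  pad := by
    intro κ Y m a hκ hY
    obtain ⟨p₀, C, h1, h2, h3, h4, h5⟩ := hp
    have hok : Okl (0 :: Y.toList) m a :=
      ⟨fun x hx => by
        rcases List.mem_cons.1 hx with rfl | hx
        · exact le_rfl
        · exact (okl_of hY).1 x hx, hY.2.1, hY.2.2⟩
    have hcoe : ((0 :: Y.toList : List ℝ) : Multiset ℝ) = 0 ::ₘ Y := by
      rw [← Multiset.cons_coe, Multiset.coe_toList]
    have h6 := ex_spec hperm ht (κ := κ) hκ hok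
    rw [hcoe] at h6
    exact ex_le' (ex_nonneg _ _ _ _) (BG_pad p₀ h1 h2 h3 h4 h5 h6)

end inst

end Crest.Agent.R017.Prov71
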