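import Crest.Agent.R017.PoD9_50

/-!
# Row 17, block C70: a family `bt D b`, `D ∈ 𝒟`, against one kernel (helper50), part 10

`pair_de` : one pair `(d, e)`; `one_block` : the second form for one kernel and one divisor `g` of
its square part.
-/

set_option autoImplicit false

noncomputable section

open Complex MeasureTheory
open scoped ComplexConjugate Classical

namespace Crest.Agent.R017.PoD50

open Crest.Agent.R012 Crest.Agent.R012.Eis Crest.Agent.R012.MC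
open Crest.Agent.R012.LS2 (S mem_S bl mem_bl)
open Crest.Agent.R012.Mob705 (mu pdiv mem_pdiv abs_mu_le_one sum_mu_coprime)
open Crest.Agent.R012.NonCube52 (Ker kv Good nm_kv)
open Crest.Agent.R017.E1551 (nmpos jb jb_pos integrable_jb integrable_jb_mul nm_ge_one)
open Crest.Agent.R017.BD829
open Crest.Agent.R017.PoH347
open Crest.Agent.R017.Mode405 (VI Slp)
open Crest.Agent.R017.E3D579 (bt)
open Gauss880 (syG)

lemma nm_sq3 : nm sq3 = 3 := by decide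

lemma nm_xd {s g l d e : Eis} (he : e ≠ 0) (hed : e ∣ d) :
    (nm (xd s g l d e) : ℝ) = nm s * nm l * (nm (9 * s) * 3) ^ 2 * (nm g : ℝ) ^ 2 * nm e *
      (nm d / nm e : ℝ) ^ 2 := by
  have hde : d = e * (d / e) := (EuclideanDomain.mul_div_cancel' he hed).symm
  have ne := nmpos he
  have h1 : (nm (d / e) : ℝ) = nm d / nm e := by
    rw [eq_div_iff ne.ne']
    conv_rhs => rw [hde]
    rw [nm_mul]
    push_cast
    ring
  unfold xd
  rw [← h1]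
  simp only [nm_mul, nm_pow, nm_sq3]
  push_cast
  ring

/-- the value `k0 ^ 2` -/
lemma k0_sq {N Δ L G L1 X y D0 k0 : ℝ} (hN : 0 < N) (hΔ : 0 < Δ) (hL : 0 < L) (hG : 0 < G)
    (hL1 : 0 < L1) (hX : 0 < X) (hy : y = N * Δ * L * L1 / X)
    (hk : k0 = D0 * (X / Real.sqrt (N * Δ * L / G * (G * L1)))) : k0 ^ 2 = D0 ^ 2 * (X / y) := by
  have h1 : 0 < N * Δ * L / G * (G * L1) := by positivity
  rw [hk, mul_pow, div_pow, Real.sq_sqrt h1.le, hy]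
  field_simp

set_option maxHeartbeats 2000000 in
/-- **one pair `(d, e)`** -/
theorem pair_de {A B a : ℕ} (hA : 1 < A) (hB : a + 3 ≤ B)
    {ε1 C1 Ch U C0 R N Z Δ X T σ B0 n : ℝ} (hε0 : 0 < ε1) (hε1 : ε1 ≤ 1) (hC1 : 0 < C1)
    (hLS : CrLS A ε1 C1) (hU : 1 ≤ U) (hC0 : 0 ≤ C0) (hZ : 1 ≤ Z) (hN : 0 < N) (hNZ : N ≤ Z)
    (hX : 0 < X) (hXZ : 1 ≤ X * Z) (hΔ1 : 1 ≤ Δ) (hΔZ : Δ ≤ Z) (hT : 0 < T)
    (hTΔ : ∀ m ∈ S Δ, (Div277.tau m : ℝ) ≤ T)
    (hHs : ∑ r ∈ S Δ, (1 / (nm r : ℝ)) ≤ Ch * Z ^ ε1) (hn : 0 < n) (hσ1 : 1 ≤ σ) (hσ9 : σ ≤ 9)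
    {ka : Eis} {ι : Type} {Q : Finset ι} {b : ι → Eis → ℂ} {Xq : ι → ℝ} {𝒟 : ι → Finset Eis}
    (hXq : ∀ q ∈ Q, X / 64 ≤ Xq q) (hF : DFam R Z N Δ ka Q b 𝒟) {W : ℝ → ℝ} (hW : Slp a W)
    (hHW : HW A B0 Q b ka W) {s : Eis} (hs : SU s) (hsU : (nm (9 * s) : ℝ) ≤ U) {g l l₁ : Eis}
    (hg : IsPrim g) (hl : IsPrim l) (hl₁ : IsPrim l₁) (hcl : IsCoprime (g * l₁) l)
    (hcka : IsCoprime (g * l₁) ka) (hB0 : (nm l₁ : ℝ) * Δ ≤ B0)
    (hK1 : (nm l₁ : ℝ) * (nm g * nm l) ^ 2 ≤ Z) {Y : ℝ} (hY0 : 0 ≤ Y) (hhY : g * l₁ ∈ S Y)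
    (c : ι → Eis → ℂ) (huS : ∀ q ∈ Q, ∀ m, bg (BB (𝒟 q) (c q) (b q)) g l m ≠ 0 → m ∈ S Y)
    {d e : Eis} (hd : d ∈ S Y) (he : e ∈ pdiv d) :
    (2 * C0 * (X / Real.sqrt (N * Δ * nm l / nm g * nm (g * l₁)))) *
      ((nm d / nm e : ℝ) * ∑ q ∈ Q, ModeS A B (9 * s) (pt s) (Xq q) (N * Δ * nm l / nm g)
        (nm (g * l₁)) Y (bg (BB (𝒟 q) (c q) (b q)) g l) (Pi.single (g * l₁) 1) d e) ≤
      ∑ f ∈ (S Y).filter (fun f => d * f ∣ l₁), ∑ _δ ∈ pdiv (g * (d * f)),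
        ((∑ q ∈ Q, ∑ D ∈ 𝒟 q, ‖c q D‖ ^ 2) / (2 * n) +
          2 * n * ((2 * C0 + 1) * (1 + 2 ^ (a + 2 + 1))) ^ 2 *
          ((C1 * (192 * U * Z ^ (6 * ε1)) * T * (Ch * Z ^ ε1)) * (2 ^ a * (9 * (192 * U)) *
            (X * nf2 Δ ((X / (N * Δ)) ^ 2 / (σ * (nm l₁ * (nm g * nm l) ^ 2))) *
              W (cst U * (N * Δ * (nm l₁ * (nm g * nm l) ^ 2) / X)))))) * 1 := by
  have hd' := (mem_S hY0).1 hd
  have he' := (mem_pdiv hd'.2.1.ne_zero).mp he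
  have hΔ0 : 0 < Δ := by linarith
  have ng := nmpos hg.ne_zero
  have nl := nmpos hl.ne_zero
  have nl₁ := nmpos hl₁.ne_zero
  have nd := nmpos hd'.2.1.ne_zero
  have ne := nmpos he'.1.ne_zero
  have nM := nmpos (LC_pt hs).ne
  have ns := nmpos hs.ne
  have ngl : (nm (g * l₁) : ℝ) = nm g * nm l₁ := by rw [nm_mul]; push_cast; rfl
  have hN₁ : 0 < N * Δ * nm l / nm g := by positivity
  have hN₂ : 0 < (nm (g * l₁) : ℝ) := by rw [ngl]; positivity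
  have hsr : 0 < X / Real.sqrt (N * Δ * nm l / nm g * nm (g * l₁)) :=
    div_pos hX (Real.sqrt_pos.mpr (by positivity))
  have hc1 : (0 : ℝ) < 1 + 2 ^ (a + 2 + 1) := by positivity
  have hlm : lmB (9 * s) (X / 64) (N * Δ * nm l / nm g) (nm (g * l₁)) d e =
      192 * nm (9 * s) * nm e * (N * Δ * nm l * nm l₁ / X) / (nm d : ℝ) ^ 2 := by
    unfold lmB
    rw [ngl]
    field_simp
    ring
  have hlm0 : 0 < lmB (9 * s) (X / 64) (N * Δ * nm l / nm g) (nm (g * l₁)) d e := by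
    rw [hlm]; positivity
  have hk0 : 0 < (2 * C0 + 1) * (X / Real.sqrt (N * Δ * nm l / nm g * nm (g * l₁))) *
      (1 + 2 ^ (a + 2 + 1)) := by positivity
  have hm0 : 0 < (min 1 (lmB (9 * s) (X / 64) (N * Δ * nm l / nm g) (nm (g * l₁)) d e)) ^ B :=
    pow_pos (lt_min one_pos hlm0) B
  have hMS0 : 0 ≤ ∑ q ∈ Q, ModeS A B (9 * s) (pt s) (Xq q) (N * Δ * nm l / nm g)
        (nm (g * l₁)) Y (bg (BB (𝒟 q) (c q) (b q)) g l) (Pi.single (g * l₁) 1) d e := by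
    refine Finset.sum_nonneg fun q hq => ?_
    unfold ModeS
    refine tsum_nonneg fun k => ?_
    split_ifs
    · exact le_rfl
    · have h64 : 0 ≤ X / 64 := by positivity
      exact mul_nonneg (WB_nonneg (h64.trans (hXq q hq)) hN₁.le hN₂.le B d e k)
        (Finset.sum_nonneg fun _ _ => EE_nonneg _ _ _ _)
  have hV : ∀ δ : Eis, 0 < C1 *
      (max 1 (lmB (9 * s) (X / 64) (N * Δ * nm l / nm g) (nm (g * l₁)) d e) * Δ) ^ ε1 *
      nrm (Δ / nm δ) (max 1 (lmB (9 * s) (X / 64) (N * Δ * nm l / nm g) (nm (g * l₁)) d e)) *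
      T := by
    intro δ
    have h1 : 0 < max 1 (lmB (9 * s) (X / 64) (N * Δ * nm l / nm g) (nm (g * l₁)) d e) :=
      lt_of_lt_of_le one_pos (le_max_left _ _)
    have h2 : 0 < nrm (Δ / nm δ)
        (max 1 (lmB (9 * s) (X / 64) (N * Δ * nm l / nm g) (nm (g * l₁)) d e)) :=
      nrm_pos (by positivity) h1
    positivity
  refine pair_arith50 (Fs := (S Y).filter (fun f => d * f ∣ l₁))
    (Dl := fun f => pdiv (g * (d * f)))
    (k0 := (2 * C0 + 1) * (X / Real.sqrt (N * Δ * nm l / nm g * nm (g * l₁))) *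
      (1 + 2 ^ (a + 2 + 1))) (r := nm d / nm e)
    (m := (min 1 (lmB (9 * s) (X / 64) (N * Δ * nm l / nm g) (nm (g * l₁)) d e)) ^ B) (n := n)
    (Qt := ∑ q ∈ Q, ∑ D ∈ 𝒟 q, ‖c q D‖ ^ 2)
    (P := (2 * C0 + 1) * (X / Real.sqrt (N * Δ * nm l / nm g * nm (g * l₁))))
    (c1 := 1 + 2 ^ (a + 2 + 1))
    (V := fun δ => C1 *
      (max 1 (lmB (9 * s) (X / 64) (N * Δ * nm l / nm g) (nm (g * l₁)) d e) * Δ) ^ ε1 *
      nrm (Δ / nm δ) (max 1 (lmB (9 * s) (X / 64) (N * Δ * nm l / nm g) (nm (g * l₁)) d e)) * T)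
    (W2' := fun f δ =>
      W (max 1 (lmB (9 * s) (X / 64) (N * Δ * nm l / nm g) (nm (g * l₁)) d e) *
        nm (xd s g l d e)) * (nm δ / nm (g * (d * f)) * ∑ r ∈ S Δ, (1 / (nm r : ℝ))))
    (W2 := fun _ => 0) rfl (by positivity) (by
      have : 2 * C0 ≤ 2 * C0 + 1 := by linarith
      exact mul_le_mul_of_nonneg_right this hsr.le) hk0 (by positivity) hm0 hn hMS0
    (fun f _ δ _ => hV δ) ?_ ?_
  · -- the modes
    have h1 := mode_de hA hB hε1 hC1 hLS hZ hΔ1 hY0 hX hN₁ hN₂ hT.le hTΔ hXq hF hW hHW hs hg hl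
      hl₁ hcl hcka hB0 hhY c huS hd he (ρ := fun f δ => (2 * n *
        ((2 * C0 + 1) * (X / Real.sqrt (N * Δ * nm l / nm g * nm (g * l₁))) *
          (1 + 2 ^ (a + 2 + 1))) * (nm d / nm e) *
        (min 1 (lmB (9 * s) (X / 64) (N * Δ * nm l / nm g) (nm (g * l₁)) d e)) ^ B *
        (C1 * (max 1 (lmB (9 * s) (X / 64) (N * Δ * nm l / nm g) (nm (g * l₁)) d e) * Δ) ^ ε1 *
      nrm (Δ / nm δ) (max 1 (lmB (9 * s) (X / 64) (N * Δ * nm l / nm g) (nm (g * l₁)) d e)) *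
      T))⁻¹) (fun f _ δ _ => by
        have := hV δ
        positivity)
    refine h1.trans (le_of_eq ?_)
    congr 2
    refine Finset.sum_congr rfl fun f _ => Finset.sum_congr rfl fun δ _ => ?_
    beta_reduce
    congr 2
    ring
  · -- the values
    intro f hf δ hδ
    beta_reduce
    obtain ⟨hf1, hf2⟩ := Finset.mem_filter.mp hf
    have hfp := ((mem_S hY0).1 hf1).2.1
    have hγ : IsPrim (g * (d * f)) := hg.mul (hd'.2.1.mul hfp)
    have hδ' := (mem_pdiv hγ.ne_zero).mp hδ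
    have hdl : (nm d : ℝ) ≤ nm l₁ := by
      exact_mod_cast Div277.nm_le_of_dvd hl₁.ne_zero ((dvd_mul_right d f).trans hf2)
    have hed : (nm e : ℝ) ≤ nm d := by
      exact_mod_cast Div277.nm_le_of_dvd hd'.2.1.ne_zero he'.2
    have nγ : (nm (g * (d * f)) : ℝ) = nm g * (nm d * nm f) := by
      simp only [nm_mul]; push_cast; ring
    have hδγ : (nm δ : ℝ) ≤ nm g * (nm d * nm f) := by
      rw [← nγ]
      exact_mod_cast Div277.nm_le_of_dvd hγ.ne_zero hδ'.2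
    have g1 := nm_ge_one hg.ne_zero
    have l1 := nm_ge_one hl.ne_zero
    have l11 := nm_ge_one hl₁.ne_zero
    have hLZ : (nm l : ℝ) ≤ Z := by
      refine le_trans ?_ hK1
      have h1 : (nm l : ℝ) ≤ (nm g * nm l) ^ 2 := by
        have h2 : (1 : ℝ) ≤ nm g * nm l := one_le_mul_of_one_le_of_one_le g1 l1
        have h3 : (nm l : ℝ) ≤ nm g * nm l := le_mul_of_one_le_left nl.le g1
        nlinarith
      exact h1.trans (le_mul_of_one_le_left (by positivity) l11)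
    have hL1Z : (nm l₁ : ℝ) ≤ Z := by
      refine le_trans ?_ hK1
      have h2 : (1 : ℝ) ≤ nm g * nm l := one_le_mul_of_one_le_of_one_le g1 l1
      exact le_mul_of_one_le_right nl₁.le (one_le_pow₀ h2)
    have hnsU : (nm s : ℝ) ≤ U := by
      refine le_trans ?_ hsU
      rw [nm_mul]
      push_cast
      have : (1 : ℝ) ≤ nm (9 : Eis) := nm_ge_one (by decide)
      exact le_mul_of_one_le_left ns.le this
    have hHs0 : 0 ≤ ∑ r ∈ S Δ, (1 / (nm r : ℝ)) := Finset.sum_nonneg fun _ _ => by positivity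
    have htv := tuple_val (a := a) (B := B) hB hW (U := U) (Z := Z) (N := N) (X := X) (Δ := Δ)
      (ε1 := ε1) (C1 := C1) (T := T) (Hs := ∑ r ∈ S Δ, (1 / (nm r : ℝ))) (Ch := Ch) (σ := σ)
      (G := nm g) (L := nm l) (L1 := nm l₁) (D := nm d) (E := nm e) (F := nm f) (δ := nm δ)
      (nM := nm (9 * s)) (ns := nm s) (y := N * Δ * nm l * nm l₁ / X)
      (lm := lmB (9 * s) (X / 64) (N * Δ * nm l / nm g) (nm (g * l₁)) d e)
      (nx := nm (xd s g l d e))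
      (θ := (X / (N * Δ)) ^ 2 / (σ * (nm l₁ * (nm g * nm l) ^ 2)))
      (P0 := cst U * (N * Δ * (nm l₁ * (nm g * nm l) ^ 2) / X)) hU hZ hN hNZ hX hXZ hΔ1 hΔZ hε0 hε1
      hC1 hT.le hHs0 hHs hσ1 hσ9 g1 l1 hLZ l11 hL1Z (nm_ge_one hd'.2.1.ne_zero) hdl
      (nm_ge_one he'.1.ne_zero) hed (nm_ge_one hfp.ne_zero) (nm_ge_one hδ'.1.ne_zero) hδγ
      (nm_ge_one (LC_pt hs).ne) hsU ns hnsU rfl hlm (nm_xd he'.1.ne_zero he'.2) rfl rfl
    have hksq := k0_sq (N := N) (Δ := Δ) (L := nm l) (G := nm g) (L1 := nm l₁) (X := X)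
      (y := N * Δ * nm l * nm l₁ / X) (D0 := (2 * C0 + 1) * (1 + 2 ^ (a + 2 + 1)))
      (k0 := (2 * C0 + 1) * (X / Real.sqrt (N * Δ * nm l / nm g * nm (g * l₁))) *
      (1 + 2 ^ (a + 2 + 1))) hN hΔ0 nl ng nl₁ hX rfl (by rw [ngl]; ring)
    rw [← nγ] at htv
    rw [mul_pow, mul_pow, hksq]
    have h2 : 0 ≤ 2 * n * ((2 * C0 + 1) * (1 + 2 ^ (a + 2 + 1))) ^ 2 := by positivity
    refine le_trans (le_of_eq ?_) (mul_le_mul_of_nonneg_left htv h2)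
    ring

end Crest.Agent.R017.PoD50
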