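import Crest.Agent.R017.PoD11_50
import Crest.Agent.R017.PoH16_347

/-!
# Row 17, block C70: a family `bt D b`, `D ∈ 𝒟`, against one kernel (helper50), part 12

`one_block` : the second form for one kernel and one divisor `g` of its square part;
`pod` : **the second form for one kernel**.
-/

set_option autoImplicit false

noncomputable section

open Complex MeasureTheory
open scoped ComplexConjugate Classical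

namespace Crest.Agent.R017.PoD50

open Crest.Agent.R012 Crest.Agent.R012.Eis Crest.Agent.R012.MC
open Crest.Agent.R012.LS2 (S mem_S bl mem_bl)
open Crest.Agent.R012.Mob705 (mu pdiv mem_pdiv abs_mu_le_one sum_mu_coprime)
open Crest.Agent.R012.NonCube52 (Ker kv Good nm_kv)
open Crest.Agent.R012.Weight600 (osc pw norm_osc)
open Crest.Agent.R017.E1551 (nmpos jb jb_pos integrable_jb integrable_jb_mul nm_ge_one)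
open Crest.Agent.R017.BD829
open Crest.Agent.R017.PoH347
open Crest.Agent.R017.Mode405 (VI Slp XS)
open Crest.Agent.R017.E3D579 (bt)
open Gauss880 (syG)

/-- the final powers -/
lemma pow_arith {Z ε ε1 Ct C0 c1 C1 U Ch K P : ℝ} (hZ : 1 ≤ Z) (hε : 34 * ε1 ≤ ε)
    (hCt : 0 < Ct) (hC0 : 0 ≤ C0) (hC1 : 0 < C1) (hU : 1 ≤ U) (hCh : 0 < Ch) (hK : 0 < K)
    (hP : 0 ≤ P) :
    2 * (Ct * (Z ^ 3) ^ ε1) ^ 4 * (2 * (Ct * (Z ^ 3) ^ ε1) ^ 4 * ((2 * C0 + 1) * c1) ^ 2 *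
      ((C1 * (192 * U * Z ^ (6 * ε1)) * (Ct * (Z ^ 3) ^ ε1) * (Ch * Z ^ ε1)) *
        (K * (9 * (192 * U)) * P))) ≤
      16 * Ct ^ 9 * c1 ^ 2 * (C1 * (192 * U) * Ch * (K * (9 * (192 * U)))) * (1 + C0) ^ 2 *
        Z ^ ε * P := by
  have hZ0 : 0 < Z := by linarith
  have e1 : (Z ^ 3) ^ ε1 = Z ^ (3 * ε1) := by
    rw [← Real.rpow_natCast Z 3, ← Real.rpow_mul hZ0.le]
    norm_num
  have e2 : (Z ^ (3 * ε1)) ^ 9 * Z ^ (6 * ε1) * Z ^ ε1 = Z ^ (34 * ε1) := by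
    rw [← Real.rpow_natCast (Z ^ (3 * ε1)) 9, ← Real.rpow_mul hZ0.le, ← Real.rpow_add hZ0,
      ← Real.rpow_add hZ0]
    congr 1
    push_cast
    ring
  have h1 : Z ^ (34 * ε1) ≤ Z ^ ε := Real.rpow_le_rpow_of_exponent_le hZ hε
  have h2 : (2 * C0 + 1) ^ 2 ≤ 4 * (1 + C0) ^ 2 := by nlinarith
  rw [e1]
  calc _ = 4 * Ct ^ 9 * c1 ^ 2 * (C1 * (192 * U) * Ch * (K * (9 * (192 * U)))) *
        (2 * C0 + 1) ^ 2 * ((Z ^ (3 * ε1)) ^ 9 * Z ^ (6 * ε1) * Z ^ ε1) * P := by ring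
    _ = 4 * Ct ^ 9 * c1 ^ 2 * (C1 * (192 * U) * Ch * (K * (9 * (192 * U)))) *
        (2 * C0 + 1) ^ 2 * Z ^ (34 * ε1) * P := by rw [e2]
    _ ≤ 4 * Ct ^ 9 * c1 ^ 2 * (C1 * (192 * U) * Ch * (K * (9 * (192 * U)))) *
        (4 * (1 + C0) ^ 2) * Z ^ ε * P := by gcongr
    _ = _ := by ring

/-- **one divisor of the square part of one kernel** -/
theorem one_block {R U : ℝ} (hR : 0 ≤ R) (hU : 1 ≤ U) {A a B : ℕ} (hA : 1 < A) (hB : a + 3 ≤ B)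
    {ε : ℝ} (hε : 0 < ε) : ∃ C : ℝ, 0 < C ∧ ∀ (v : ℝ → ℝ), Wgt v → ∀ C0 : ℝ,
    KT v (R + 3) A B C0 → ∀ Z N X Δ σ B0 : ℝ, 1 ≤ Z → 0 < N → N ≤ Z → 0 < X → 1 ≤ X * Z →
    1 ≤ Δ → Δ ≤ Z → 1 ≤ σ → σ ≤ 9 →
    ∀ {ι : Type} (ka : Eis) (Q : Finset ι) (b : ι → Eis → ℂ) (Xq : ι → ℝ) (𝒟 : ι → Finset Eis),
      (∀ q ∈ Q, X / 64 ≤ Xq q ∧ Xq q ≤ X) → DFam R Z N Δ ka Q b 𝒟 →
    ∀ W : ℝ → ℝ, Slp a W → HW A B0 Q b ka W →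
    ∀ s : Eis, SU s → (nm (9 * s) : ℝ) ≤ U →
    ∀ g l l₁ : Eis, IsPrim g → IsPrim l → IsPrim l₁ → Squarefree (g * l) → Squarefree l₁ →
      IsCoprime l₁ (g * l) → IsCoprime (g * l₁) ka → (nm l₁ : ℝ) * Δ ≤ B0 →
      (nm l₁ : ℝ) * (nm g * nm l) ^ 2 ≤ Z → (nm l₁ : ℝ) * Real.exp (R + 3) < N * Δ →
    ∑ q ∈ Q, ∑ D ∈ 𝒟 q, ‖Sh v (Xq q) (pt s) (bg (bt D (b q)) g l) (g * l₁)‖ ^ 2 ≤
      C * (1 + C0) ^ 2 * Z ^ ε *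
        (X * nf2 Δ ((X / (N * Δ)) ^ 2 / (σ * (nm l₁ * (nm g * nm l) ^ 2))) *
              W (cst U * (N * Δ * (nm l₁ * (nm g * nm l) ^ 2) / X))) := by
  set ε1 : ℝ := min 1 (ε / 34) with hε1
  have hε1p : 0 < ε1 := lt_min one_pos (by linarith)
  have hε1l : ε1 ≤ 1 := min_le_left _ _
  have hε1e : 34 * ε1 ≤ ε := by
    have : ε1 ≤ ε / 34 := min_le_right _ _
    linarith
  have hA' : (1 : ℝ) < (A : ℝ) := by exact_mod_cast hA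
  obtain ⟨C1, hC1, hLS⟩ := cr_ls (A := A) hA' hε1p
  obtain ⟨Ch, hCh, hharm⟩ := harm hε1p
  obtain ⟨Ct, hCt1, hCt⟩ := tau_unif hε1p
  have hCt0 : 0 < Ct := by linarith
  refine ⟨16 * Ct ^ 9 * (1 + 2 ^ (a + 2 + 1)) ^ 2 *
    (C1 * (192 * U) * Ch * (2 ^ a * (9 * (192 * U)))), by positivity, ?_⟩
  intro v hv C0 hk Z N X Δ σ B0 hZ hN hNZ hX hXZ hΔ1 hΔZ hσ1 hσ9 ι ka Q b Xq 𝒟 hXq hF W hW hHW s
    hs hsU g l l₁ hg hl hl₁ hgl hl₁s hc1 hcka hB0 hK1 hN1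
  have hZ0 : 0 < Z := by linarith
  have hΔ0 : 0 < Δ := by linarith
  have hZ3 : (1 : ℝ) ≤ Z ^ 3 := one_le_pow₀ hZ
  have ng := nmpos hg.ne_zero
  have nl := nmpos hl.ne_zero
  have nl₁ := nmpos hl₁.ne_zero
  have h1 := fam_block hv hA hB (C0 := C0) (T := Ct * (Z ^ 3) ^ ε1) hR hk hε1p hε1l hC1 hCh hLS
    hU hZ hN hNZ hX hXZ hΔ1 hΔZ (by positivity) (hCt (Z ^ 3) hZ3) (hharm Δ Z hΔ1 hΔZ) hσ1 hσ9 hXq
    hF hW hHW hs hsU hg hl hl₁ hgl hl₁s hc1 hcka hB0 hK1 hN1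
  refine h1.trans ?_
  have hnf : 0 ≤ nf2 Δ ((X / (N * Δ)) ^ 2 / (σ * (nm l₁ * (nm g * nm l) ^ 2))) :=
    nf2_nonneg hΔ0.le (by positivity)
  have hWn : 0 ≤ W (cst U * (N * Δ * (nm l₁ * (nm g * nm l) ^ 2) / X)) :=
    hW.nonneg _ (by unfold cst; positivity)
  exact pow_arith hZ hε1e hCt0 hk.1 hC1 hU hCh (by positivity) (by positivity)

lemma slp_mono {a : ℕ} {W : ℝ → ℝ} (hW : Slp a W) {x y : ℝ} (hx : 0 < x) (hxy : x ≤ y) :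
    W x ≤ W y := by
  have hy : 0 < y := by linarith
  have h1 := hW.low x y hx hxy
  have h2 := hW.nonneg y hy
  have h3 : (x / y) ^ (1 / 3 : ℝ) ≤ 1 :=
    Real.rpow_le_one (by positivity) ((div_le_one hy).mpr hxy) (by norm_num)
  exact h1.trans (mul_le_of_le_one_left h2 h3)

lemma swap3 {ι : Type} (Q : Finset ι) (𝒟 : ι → Finset Eis) (G : Finset Eis)
    (x y : ι → Eis → Eis → ℝ) :
    ∑ q ∈ Q, ∑ D ∈ 𝒟 q, ∑ g ∈ G, (x q D g + y q D g) =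
      ∑ g ∈ G, (∑ q ∈ Q, ∑ D ∈ 𝒟 q, x q D g + ∑ q ∈ Q, ∑ D ∈ 𝒟 q, y q D g) := by
  have e1 : ∀ q ∈ Q, ∑ D ∈ 𝒟 q, ∑ g ∈ G, (x q D g + y q D g) =
      ∑ g ∈ G, ∑ D ∈ 𝒟 q, (x q D g + y q D g) := fun q _ => Finset.sum_comm
  rw [Finset.sum_congr rfl e1, Finset.sum_comm]
  refine Finset.sum_congr rfl fun g _ => ?_
  simp only [Finset.sum_add_distrib]

/-- one kernel through its divisors -/
lemma XS_le_Sh (u : Eis) {χ : Eis → ℂ} (hχ : ∀ x, IsPrim x → χ x = conj (sy u x))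
    {w₀ : ℝ → ℝ} (hw : Wgt w₀) {X : ℝ} (hX : 0 < X) (t : ℝ) {Y : ℝ} (hY : 0 ≤ Y)
    {b : Eis → ℂ} (hb : ∀ n, b n ≠ 0 → n ∈ S Y) {κ : Ker} (hκ : Good κ) :
    ‖XS χ w₀ X t b κ‖ ^ 2 ≤ 2 * (Div277.tau κ.2.2 : ℝ) * ∑ g ∈ pdiv κ.2.2,
      (‖Sh (TWt405.wc w₀ t) X (pt (u * su κ)) (bg b g (κ.2.2 / g)) (g * κ.2.1)‖ ^ 2 +
        ‖Sh (TWt405.wsn w₀ t) X (pt (u * su κ)) (bg b g (κ.2.2 / g)) (g * κ.2.1)‖ ^ 2) := by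
  rw [XS_splits u hχ hw hX t hY hb hκ, norm_mul, norm_pw, one_mul]
  have hcs := norm_sum_le (pdiv κ.2.2) (fun g =>
    (Sh (TWt405.wc w₀ t) X (pt (u * su κ)) (bg b g (κ.2.2 / g)) (g * κ.2.1) +
      Sh (TWt405.wsn w₀ t) X (pt (u * su κ)) (bg b g (κ.2.2 / g)) (g * κ.2.1) * I))
  have hsq : ‖∑ g ∈ pdiv κ.2.2,
    (Sh (TWt405.wc w₀ t) X (pt (u * su κ)) (bg b g (κ.2.2 / g)) (g * κ.2.1) +
      Sh (TWt405.wsn w₀ t) X (pt (u * su κ)) (bg b g (κ.2.2 / g)) (g * κ.2.1) * I)‖ ^ 2 ≤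
    (Div277.tau κ.2.2 : ℝ) * ∑ g ∈ pdiv κ.2.2,
    ‖Sh (TWt405.wc w₀ t) X (pt (u * su κ)) (bg b g (κ.2.2 / g)) (g * κ.2.1) +
      Sh (TWt405.wsn w₀ t) X (pt (u * su κ)) (bg b g (κ.2.2 / g)) (g * κ.2.1) * I‖ ^ 2 := by
    refine (pow_le_pow_left₀ (norm_nonneg _) hcs 2).trans ?_
    exact sq_sum_le_card_mul_sum_sq
  have hpt : ∀ x y : ℂ, ‖x + y * I‖ ^ 2 ≤ 2 * (‖x‖ ^ 2 + ‖y‖ ^ 2) := by
    intro x y
    have h3 := norm_add_le x (y * I)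
    rw [norm_mul, Complex.norm_I, mul_one] at h3
    nlinarith [norm_nonneg x, norm_nonneg y, norm_nonneg (x + y * I), sq_nonneg (‖x‖ - ‖y‖)]
  calc _ ≤ (Div277.tau κ.2.2 : ℝ) * ∑ g ∈ pdiv κ.2.2,
    ‖Sh (TWt405.wc w₀ t) X (pt (u * su κ)) (bg b g (κ.2.2 / g)) (g * κ.2.1) +
      Sh (TWt405.wsn w₀ t) X (pt (u * su κ)) (bg b g (κ.2.2 / g)) (g * κ.2.1) * I‖ ^ 2 :=
        hsq
    _ ≤ (Div277.tau κ.2.2 : ℝ) * ∑ g ∈ pdiv κ.2.2,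
      2 * (‖Sh (TWt405.wc w₀ t) X (pt (u * su κ)) (bg b g (κ.2.2 / g)) (g * κ.2.1)‖ ^ 2 +
      ‖Sh (TWt405.wsn w₀ t) X (pt (u * su κ)) (bg b g (κ.2.2 / g)) (g * κ.2.1)‖ ^ 2) := by
        refine mul_le_mul_of_nonneg_left (Finset.sum_le_sum fun g _ => hpt _ _)
          (Nat.cast_nonneg _)
    _ = _ := by rw [← Finset.mul_sum]; ring

/-- **the second form for one kernel**, general `ka` -/
theorem pod_ka {u : Eis} (hu : SU u) {χ : Eis → ℂ} (hχ : ∀ x, IsPrim x → χ x = conj (sy u x))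
    {w₀ : ℝ → ℝ} (hw : Wgt w₀) {R : ℝ} (hR : 0 ≤ R) {a A : ℕ} (hA : 1 < A) {ε : ℝ} (hε : 0 < ε) :
    ∃ (C c : ℝ) (J : ℕ), 0 ≤ C ∧ 1 ≤ c ∧ ∀ Z N Δ X B0 : ℝ, 1 ≤ Z → 0 < N → N ≤ Z → 1 ≤ Δ →
      Δ ≤ Z → 0 < X → 1 ≤ X * Z → ∀ κ : Ker, Good κ → (nm (kv κ) : ℝ) ≤ Z →
      (nm (kv κ) : ℝ) * Real.exp (R + 3) < N * Δ → (nm (kv κ) : ℝ) * Δ ≤ B0 →
    ∀ {ι : Type} (ka : Eis) (Q : Finset ι) (b : ι → Eis → ℂ) (Xq : ι → ℝ) (𝒟 : ι → Finset Eis),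
      IsCoprime (κ.2.1 * κ.2.2) ka → (∀ q ∈ Q, X / 64 ≤ Xq q ∧ Xq q ≤ X) →
      DFam R Z N Δ ka Q b 𝒟 →
    ∀ W : ℝ → ℝ, Slp a W → HW A B0 Q b ka W →
    ∀ W1 : ℝ, W (c * (N * Δ * nm (kv κ) / X)) ≤ W1 →
    ∀ t : ℝ, ∑ q ∈ Q, ∑ D ∈ 𝒟 q, ‖XS χ w₀ (Xq q) t (bt D (b q)) κ‖ ^ 2 ≤
      C * Z ^ ε * (1 + |t|) ^ J *
        (X * nf2 Δ ((X / (N * Δ)) ^ 2 / nm (kv κ)) * W1) := by
  set ε1 : ℝ := ε / 3 with hε1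
  have hε1p : 0 < ε1 := by positivity
  have hnu : (1 : ℝ) ≤ nm u := nm_ge_one hu.ne
  have hU1 : (1 : ℝ) ≤ 729 * (nm u : ℝ) := by linarith
  obtain ⟨Ck, J, hCk, hKT⟩ := TWt405.KT_tw hw (R := R + 3) (by positivity) A (a + 3)
  obtain ⟨Cp, hCp, hpv⟩ := one_block hR hU1 (A := A) (a := a) (B := a + 3) hA le_rfl hε1p
  obtain ⟨Ct, hCt1, hCt⟩ := tau_unif hε1p
  have hCt0 : 0 < Ct := by linarith
  refine ⟨4 * Ct ^ 2 * (Cp * (1 + Ck) ^ 2), cst (729 * (nm u : ℝ)), 2 * J, by positivity, ?_, ?_⟩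
  · unfold cst
    have h1 : (1 : ℝ) ≤ (3 * (729 * (nm u : ℝ))) ^ 2 := one_le_pow₀ (by linarith)
    have h2 : (1 : ℝ) ≤ 729 * (nm u : ℝ) * (3 * (729 * (nm u : ℝ))) ^ 2 :=
      one_le_mul_of_one_le_of_one_le hU1 h1
    exact one_le_mul_of_one_le_of_one_le (by linarith) h2
  intro Z N Δ X B0 hZ hN hNZ hΔ1 hΔZ hX hXZ κ hκ hkZ hkN hkB ι ka Q b Xq 𝒟 hka hXq hF W hW hHW W1
    hW1 t
  have hZ0 : 0 < Z := by linarith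
  have hΔ0 : 0 < Δ := by linarith
  have ht1 : 1 ≤ 1 + |t| := by linarith [abs_nonneg t]
  have nkv : (1 : ℝ) ≤ nm (kv κ) := NonCube52.one_le_nmkv hκ
  have n1 := nmpos hκ.prim1.ne_zero
  have n2 := nmpos hκ.prim2.ne_zero
  have ekv : (nm (kv κ) : ℝ) = 3 ^ κ.1.2 * (nm κ.2.1 * (nm κ.2.2 : ℝ) ^ 2) := by
    rw [nm_kv]; push_cast; ring
  have hσ1 : (1 : ℝ) ≤ 3 ^ κ.1.2 := one_le_pow₀ (by norm_num)
  have hσ9 : (3 : ℝ) ^ κ.1.2 ≤ 9 := by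
    calc (3 : ℝ) ^ κ.1.2 ≤ 3 ^ 2 := pow_le_pow_right₀ (by norm_num) (by have := hκ.hj; omega)
      _ = 9 := by norm_num
  have hkge : (nm κ.2.1 : ℝ) * (nm κ.2.2 : ℝ) ^ 2 ≤ nm (kv κ) := NonCube52.nm_kv_ge κ
  have hl1 : (nm κ.2.1 : ℝ) ≤ nm (kv κ) := by
    refine le_trans ?_ hkge
    exact le_mul_of_one_le_right n1.le (one_le_pow₀ (nm_ge_one hκ.prim2.ne_zero))
  set C0 : ℝ := Ck * (1 + |t|) ^ J with hC0d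
  have hC00 : 0 ≤ C0 := by positivity
  set T : ℝ := X * nf2 Δ ((X / (N * Δ)) ^ 2 / nm (kv κ)) * W1 with hT
  have hW10 : 0 ≤ W1 := (hW.nonneg _ (by unfold cst; positivity)).trans hW1
  have hnf : 0 ≤ nf2 Δ ((X / (N * Δ)) ^ 2 / nm (kv κ)) := nf2_nonneg hΔ0.le (by positivity)
  have hT0 : 0 ≤ T := by positivity
  -- one divisor
  have hsu : SU (u * su κ) := hu.mul (SU_su _)
  have hsU : (nm (9 * (u * su κ)) : ℝ) ≤ 729 * (nm u : ℝ) := by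
    have h2 : (nm (9 * su κ) : ℝ) ≤ 729 := nm_M_le hκ.hj
    have h3 : (nm (9 * (u * su κ)) : ℝ) = nm (9 * su κ) * nm u := by
      simp only [nm_mul]
      push_cast
      ring
    rw [h3]
    exact mul_le_mul_of_nonneg_right h2 (Nat.cast_nonneg _)
  have hdiv : ∀ v : ℝ → ℝ, Wgt v → KT v (R + 3) A (a + 3) C0 → ∀ g ∈ pdiv κ.2.2,
      ∑ q ∈ Q, ∑ D ∈ 𝒟 q, ‖Sh v (Xq q) (pt (u * su κ)) (bg (bt D (b q)) g (κ.2.2 / g))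
        (g * κ.2.1)‖ ^ 2 ≤ Cp * (1 + C0) ^ 2 * Z ^ ε1 * T := by
    intro v hv hk g hg
    have hg' := (mem_pdiv hκ.prim2.ne_zero).mp hg
    have egl : g * (κ.2.2 / g) = κ.2.2 := EuclideanDomain.mul_div_cancel' hg'.1.ne_zero hg'.2
    have hl : IsPrim (κ.2.2 / g) := div_prim hκ.prim2 hg
    have enm : (nm g : ℝ) * nm (κ.2.2 / g) = nm κ.2.2 := by
      conv_rhs => rw [← egl, nm_mul]
      push_cast
      rfl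
    have hcg : IsCoprime (g * κ.2.1) ka := by
      refine hka.of_isCoprime_of_dvd_left ?_
      rw [mul_comm g]
      exact mul_dvd_mul_left _ hg'.2
    have h1 := hpv v hv C0 hk Z N X Δ (3 ^ κ.1.2) B0 hZ hN hNZ hX hXZ hΔ1 hΔZ hσ1 hσ9 ka Q b Xq 𝒟
      hXq hF W hW hHW (u * su κ) hsu hsU g (κ.2.2 / g) κ.2.1 hg'.1 hl hκ.prim1
      (by rw [egl]; exact hκ.sqf2) hκ.sqf1 (by rw [egl]; exact hκ.cop) hcg
      ((mul_le_mul_of_nonneg_right hl1 hΔ0.le).trans hkB)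
      (by rw [enm]; exact hkge.trans hkZ)
      ((mul_le_mul_of_nonneg_right hl1 (Real.exp_pos _).le).trans_lt hkN)
    rw [enm, ← ekv] at h1
    refine h1.trans ?_
    have h2 : W (cst (729 * (nm u : ℝ)) * (N * Δ * (nm κ.2.1 * (nm κ.2.2 : ℝ) ^ 2) / X)) ≤ W1 := by
      refine le_trans (slp_mono hW (by unfold cst; positivity) ?_) hW1
      have h3 : 0 ≤ cst (729 * (nm u : ℝ)) := by unfold cst; positivity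
      refine mul_le_mul_of_nonneg_left ?_ h3
      exact div_le_div_of_nonneg_right (mul_le_mul_of_nonneg_left hkge (by positivity)) hX.le
    rw [hT]
    gcongr
  have htau : (Div277.tau κ.2.2 : ℝ) ≤ Ct * Z ^ ε1 := by
    refine hCt Z hZ κ.2.2 ((mem_S hZ0.le).mpr ⟨?_, hκ.prim2, hκ.sqf2⟩)
    have h7 : (nm κ.2.2 : ℝ) ≤ (nm κ.2.2 : ℝ) ^ 2 :=
      le_self_pow₀ (nm_ge_one hκ.prim2.ne_zero) (by norm_num)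
    have h8 : (nm κ.2.2 : ℝ) ^ 2 ≤ nm κ.2.1 * (nm κ.2.2 : ℝ) ^ 2 :=
      le_mul_of_one_le_left (by positivity) (nm_ge_one hκ.prim1.ne_zero)
    linarith
  have hcard : ((pdiv κ.2.2).card : ℝ) ≤ Ct * Z ^ ε1 := htau
  -- the sum
  have h1 : ∑ q ∈ Q, ∑ D ∈ 𝒟 q, ‖XS χ w₀ (Xq q) t (bt D (b q)) κ‖ ^ 2 ≤
      2 * (Div277.tau κ.2.2 : ℝ) * ∑ g ∈ pdiv κ.2.2, (∑ q ∈ Q, ∑ D ∈ 𝒟 q,
        ‖Sh (TWt405.wc w₀ t) (Xq q) (pt (u * su κ)) (bg (bt D (b q)) g (κ.2.2 / g))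
          (g * κ.2.1)‖ ^ 2 + ∑ q ∈ Q, ∑ D ∈ 𝒟 q,
        ‖Sh (TWt405.wsn w₀ t) (Xq q) (pt (u * su κ)) (bg (bt D (b q)) g (κ.2.2 / g))
          (g * κ.2.1)‖ ^ 2) := by
    refine (Finset.sum_le_sum fun q hq => Finset.sum_le_sum fun D hD =>
      XS_le_Sh u hχ hw (lt_of_lt_of_le (by positivity) (hXq q hq).1) t
        (Y := Δ * Z) (by positivity) (bt_supp hZ0.le hΔ0.le (hF.supp q hq) (hF.sub q hq hD))
        hκ).trans (le_of_eq ?_)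
    simp only [← Finset.mul_sum]
    congr 1
    exact swap3 Q 𝒟 (pdiv κ.2.2) (fun q D g =>
      ‖Sh (TWt405.wc w₀ t) (Xq q) (pt (u * su κ)) (bg (bt D (b q)) g (κ.2.2 / g))
          (g * κ.2.1)‖ ^ 2) (fun q D g =>
      ‖Sh (TWt405.wsn w₀ t) (Xq q) (pt (u * su κ)) (bg (bt D (b q)) g (κ.2.2 / g))
          (g * κ.2.1)‖ ^ 2)
  have h2 : ∀ g ∈ pdiv κ.2.2, (∑ q ∈ Q, ∑ D ∈ 𝒟 q,
        ‖Sh (TWt405.wc w₀ t) (Xq q) (pt (u * su κ)) (bg (bt D (b q)) g (κ.2.2 / g))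
          (g * κ.2.1)‖ ^ 2 + ∑ q ∈ Q, ∑ D ∈ 𝒟 q,
        ‖Sh (TWt405.wsn w₀ t) (Xq q) (pt (u * su κ)) (bg (bt D (b q)) g (κ.2.2 / g))
          (g * κ.2.1)‖ ^ 2) ≤ 2 * (Cp * (1 + C0) ^ 2 * Z ^ ε1 * T) := by
    intro g hg
    have b1 := hdiv _ (TWt405.wgt_wc hw t) (hKT t).1 g hg
    have b2 := hdiv _ (TWt405.wgt_wsn hw t) (hKT t).2 g hg
    linarith
  have h3 : ∑ g ∈ pdiv κ.2.2, (∑ q ∈ Q, ∑ D ∈ 𝒟 q,
        ‖Sh (TWt405.wc w₀ t) (Xq q) (pt (u * su κ)) (bg (bt D (b q)) g (κ.2.2 / g))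
          (g * κ.2.1)‖ ^ 2 + ∑ q ∈ Q, ∑ D ∈ 𝒟 q,
        ‖Sh (TWt405.wsn w₀ t) (Xq q) (pt (u * su κ)) (bg (bt D (b q)) g (κ.2.2 / g))
          (g * κ.2.1)‖ ^ 2) ≤ (Ct * Z ^ ε1) * (2 * (Cp * (1 + C0) ^ 2 * Z ^ ε1 * T)) := by
    refine (Finset.sum_le_sum h2).trans ?_
    rw [Finset.sum_const, nsmul_eq_mul]
    exact mul_le_mul_of_nonneg_right hcard (by positivity)
  refine h1.trans ?_
  have h4 : (1 + C0) ^ 2 ≤ (1 + Ck) ^ 2 * (1 + |t|) ^ (2 * J) := by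
    have h5 : 1 ≤ (1 + |t|) ^ J := one_le_pow₀ ht1
    have h6 : 1 + C0 ≤ (1 + Ck) * (1 + |t|) ^ J := by rw [hC0d]; nlinarith
    calc (1 + C0) ^ 2 ≤ ((1 + Ck) * (1 + |t|) ^ J) ^ 2 :=
          pow_le_pow_left₀ (by positivity) h6 2
      _ = _ := by rw [mul_pow, ← pow_mul, mul_comm J 2]
  have h7 : Z ^ ε1 * Z ^ ε1 * Z ^ ε1 = Z ^ ε := by
    rw [← Real.rpow_add hZ0, ← Real.rpow_add hZ0]
    congr 1
    rw [hε1]; ring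
  calc _ ≤ 2 * (Ct * Z ^ ε1) * ((Ct * Z ^ ε1) * (2 * (Cp * (1 + C0) ^ 2 * Z ^ ε1 * T))) := by
        refine mul_le_mul (mul_le_mul_of_nonneg_left htau (by norm_num)) h3 ?_ (by positivity)
        exact Finset.sum_nonneg fun _ _ => by positivity
    _ = 4 * Ct ^ 2 * Cp * (1 + C0) ^ 2 * (Z ^ ε1 * Z ^ ε1 * Z ^ ε1) * T := by ring
    _ = 4 * Ct ^ 2 * Cp * (1 + C0) ^ 2 * Z ^ ε * T := by rw [h7]
    _ ≤ 4 * Ct ^ 2 * Cp * ((1 + Ck) ^ 2 * (1 + |t|) ^ (2 * J)) * Z ^ ε * T := by gcongr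
    _ = _ := by ring

end Crest.Agent.R017.PoD50
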