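import Crest.Agent.R017.PoH8_347

/-!
# Row 17, block C70: a family `bt D b`, `D ∈ 𝒟`, against one kernel (helper50), part 1

`TT_bt` : the Gauss side of `bt D b (γ n)`; `TT_cop` : removal of a coprimality condition;
`norm_TT_BB` : the Gauss side of `∑ c_D bt D b` through products of two linear sums.
-/

set_option autoImplicit false

noncomputable section

open Complex MeasureTheory
open scoped ComplexConjugate Classical

namespace Crest.Agent.R017.PoD50

open Crest.Agent.R012 Crest.Agent.R012.Eis Crest.Agent.R012.MC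
open Crest.Agent.R012.LS2 (S mem_S bl mem_bl)
open Crest.Agent.R012.Mob705 (mu pdiv mem_pdiv abs_mu_le_one sum_mu_coprime)
open Crest.Agent.R012.Tau671 (norm_sy_le)
open Crest.Agent.R012.Weight600 (osc pw norm_osc)
open Crest.Agent.R017.PX764 (Gh)
open Crest.Agent.R017.CM106 (CS TG norm_Gsy_le)
open Crest.Agent.R017.E1551 (nmpos jb jb_pos nm_ge_one)
open Crest.Agent.R017.BD829
open Crest.Agent.R017.PoH347 (pw_mul norm_pw)
open Crest.Agent.R017.E3D579 (bt)
open Crest.Agent.R017.StA828 (gp gp_spec gp_eq)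
open Gauss880 (syG)

/-- linearity of the twisted Gauss side -/
lemma TT_sum {ι : Type*} (s : Finset ι) (c : ι → ℂ) (u : ι → Eis → ℂ) {Y : ℝ}
    (hu : ∀ i ∈ s, ∀ n, u i n ≠ 0 → n ∈ S Y) (H : Eis) (t : ℝ) :
    TT (fun m => ∑ i ∈ s, c i * u i m) H t = ∑ i ∈ s, c i * TT (u i) H t := by
  rw [TT_fin (Y := Y) (fun n hn => by
    obtain ⟨i, hi, h⟩ := Finset.exists_ne_zero_of_sum_ne_zero hn
    exact hu i hi n (right_ne_zero_of_mul h))]
  have e1 : ∀ i ∈ s, c i * TT (u i) H t = ∑ m ∈ S Y, c i * (u i m * Gh H m * pw t (nm m)) := by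
    intro i hi
    rw [TT_fin (hu i hi), Finset.mul_sum]
  rw [Finset.sum_congr rfl e1, Finset.sum_comm]
  refine Finset.sum_congr rfl fun m _ => ?_
  rw [Finset.sum_mul, Finset.sum_mul]
  refine Finset.sum_congr rfl fun i _ => ?_
  ring

/-- reindexing to the multiples of `r` -/
lemma TT_mult {Z : ℝ} (hZ : 0 ≤ Z) {b : Eis → ℂ} (hb : ∀ n, b n ≠ 0 → n ∈ S Z) {γ r : Eis}
    (hγ : IsPrim γ) (hr : IsPrim r) (H : Eis) (t : ℝ) :
    TT (fun m => if r ∣ m then b (γ * m) else 0) H t =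
      (pw t (nm r) * (G r * conj (sy H r))) * TT (fun m => b (γ * r * m)) (H * r) t := by
  have nr := nmpos hr.ne_zero
  unfold TT TG
  have hinj : Function.Injective (fun n : Eis => r * n) := mul_right_injective₀ hr.ne_zero
  have hsup : Function.support (fun m : Eis => (if r ∣ m then b (γ * m) else 0) * pw t (nm m) *
      (G m * conj (sy H m))) ⊆ Set.range (fun n : Eis => r * n) := by
    intro m hm
    rw [Function.mem_support] at hm
    by_contra h
    apply hm
    have : ¬ r ∣ m := fun ⟨k, hk⟩ => h ⟨k, hk.symm⟩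
    rw [if_neg this]; ring
  rw [← hinj.tsum_eq hsup, ← tsum_mul_left]
  refine tsum_congr fun n => ?_
  beta_reduce
  rw [if_pos (dvd_mul_right r n)]
  have e1 : γ * (r * n) = γ * r * n := by ring
  rw [e1]
  by_cases hb0 : b (γ * r * n) = 0
  · rw [hb0]; simp
  have hn1 := (mem_S hZ).1 (hb _ hb0)
  have hnp : IsPrim n := hn1.2.1.of_mul_left (hγ.mul hr)
  have eG : G (r * n) = G r * G n * conj (sy r n) := Gauss880.G_mul_all syG hr hnp
  have e3 : pw t (nm (r * n)) = pw t (nm r) * pw t (nm n) := by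
    rw [nm_mul]; push_cast
    exact pw_mul nr (nmpos hnp.ne_zero) t
  have e4 : sy H (r * n) = sy H r * sy H n := syG.mul_right _ _ _ hr hnp
  have e5 : sy (H * r) n = sy H n * sy r n := syG.mul_left _ _ _ hnp
  rw [eG, e3, e4, e5]
  simp only [map_mul]
  ring

/-- removal of a coprimality condition -/
lemma TT_cop {Z : ℝ} (hZ : 0 ≤ Z) {b : Eis → ℂ} (hb : ∀ n, b n ≠ 0 → n ∈ S Z) {γ D : Eis}
    (hγ : IsPrim γ) (hD : IsPrim D) (H : Eis) (t : ℝ) :
    TT (fun m => if IsCoprime m D then b (γ * m) else 0) H t =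
      ∑ r ∈ pdiv D, (mu r : ℂ) * ((pw t (nm r) * (G r * conj (sy H r))) *
        TT (fun m => b (γ * r * m)) (H * r) t) := by
  have hsup : ∀ m, b (γ * m) ≠ 0 → m ∈ S Z := by
    intro m hm
    have h1 := (mem_S hZ).1 (hb _ hm)
    rw [mem_S hZ]
    refine ⟨?_, h1.2.1.of_mul_left hγ, h1.2.2.of_mul_right⟩
    refine le_trans ?_ h1.1
    rw [nm_mul]
    push_cast
    exact le_mul_of_one_le_left (Nat.cast_nonneg _) (nm_ge_one hγ.ne_zero)
  have e1 : (fun m => if IsCoprime m D then b (γ * m) else 0) =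
      fun m => ∑ r ∈ pdiv D, (mu r : ℂ) * (if r ∣ m then b (γ * m) else 0) := by
    funext m
    by_cases h0 : b (γ * m) = 0
    · rw [h0]; simp
    have hm := ((mem_S hZ).1 (hsup m h0)).2.1
    have h3 := congrArg (fun z : ℤ => (z : ℂ)) (sum_mu_coprime hm hD.ne_zero)
    beta_reduce at h3
    push_cast at h3
    have h4 : (if IsCoprime m D then b (γ * m) else 0) =
        (if IsCoprime m D then (1 : ℂ) else 0) * b (γ * m) := by
      split_ifs <;> simp
    rw [h4, ← h3, Finset.sum_mul]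
    refine Finset.sum_congr rfl fun r _ => ?_
    split_ifs <;> simp
  rw [e1, TT_sum (pdiv D) (fun r => (mu r : ℂ)) (fun r m => if r ∣ m then b (γ * m) else 0)
    (Y := Z) (fun r _ n hn => hsup n (fun h0 => hn (by rw [h0]; simp)))]
  refine Finset.sum_congr rfl fun r hr => ?_
  rw [TT_mult hZ hb hγ ((mem_pdiv hD.ne_zero).mp hr).1]

/-- the Gauss side of `bt D b (γ n)` -/
lemma TT_bt {Z : ℝ} (hZ : 0 ≤ Z) {b : Eis → ℂ} (hb : ∀ n, b n ≠ 0 → n ∈ S Z) {δ D γ : Eis}
    (hδ : IsPrim δ) (hD : IsPrim D) (hγ : IsPrim γ) (hc : IsCoprime γ D) (H : Eis) (t : ℝ) :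
    TT (fun n => bt (δ * D) b (δ * γ * n)) H t =
      sy δ γ * ((sy D γ * (pw t (nm D) * (G D * conj (sy H D)))) *
        TT (fun m => if IsCoprime m D then b (γ * m) else 0) (δ ^ 2 * H) t) := by
  have nD := nmpos hD.ne_zero
  unfold TT TG
  have hinj : Function.Injective (fun n : Eis => D * n) := mul_right_injective₀ hD.ne_zero
  have hsup : Function.support (fun n : Eis => bt (δ * D) b (δ * γ * n) * pw t (nm n) *
      (G n * conj (sy H n))) ⊆ Set.range (fun n : Eis => D * n) := by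
    intro n hn
    rw [Function.mem_support] at hn
    by_contra h
    apply hn
    have : ¬ δ * D ∣ δ * γ * n := by
      intro h1
      rw [mul_assoc δ γ n] at h1
      have h2 : D ∣ γ * n := (mul_dvd_mul_iff_left hδ.ne_zero).mp h1
      obtain ⟨k, hk⟩ := hc.symm.dvd_of_dvd_mul_left h2
      exact h ⟨k, hk.symm⟩
    unfold bt
    rw [if_neg this]; ring
  rw [← hinj.tsum_eq hsup, ← tsum_mul_left, ← tsum_mul_left]
  refine tsum_congr fun m => ?_
  beta_reduce
  have e0 : δ * γ * (D * m) = δ * D * (γ * m) := by ring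
  have e1 : bt (δ * D) b (δ * γ * (D * m)) = b (γ * m) * sy (δ * D) (γ * m) := by
    unfold bt
    rw [e0, if_pos (dvd_mul_right _ _), mul_div_cancel_left₀ _ (mul_ne_zero hδ.ne_zero hD.ne_zero)]
  rw [e1]
  by_cases hb0 : b (γ * m) = 0
  · rw [hb0]; simp
  have hn1 := (mem_S hZ).1 (hb _ hb0)
  have hm : IsPrim m := hn1.2.1.of_mul_left hγ
  have eG : G (D * m) = G D * G m * conj (sy D m) := Gauss880.G_mul_all syG hD hm
  have e3 : pw t (nm (D * m)) = pw t (nm D) * pw t (nm m) := by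
    rw [nm_mul]; push_cast
    exact pw_mul nD (nmpos hm.ne_zero) t
  have e4 : sy H (D * m) = sy H D * sy H m := syG.mul_right _ _ _ hD hm
  have e5 : sy (δ * D) (γ * m) = sy δ γ * sy δ m * (sy D γ * sy D m) := by
    rw [syG.mul_left _ _ _ hn1.2.1, syG.mul_right _ _ _ hγ hm, syG.mul_right _ _ _ hγ hm]
  have e6 : conj (sy (δ ^ 2 * H) m) = sy δ m * conj (sy H m) := by
    rw [syG.mul_left _ _ _ hm, Char766.sy_pow_left hm, Gauss880.sy_sq_eq_conj syG hm, map_mul,
      Complex.conj_conj]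
  by_cases hcm : IsCoprime m D
  · have h1 : sy D m * conj (sy D m) = 1 := by
      have h2 : ‖sy D m‖ = 1 := Tau671.norm_sy hm hcm.symm
      rw [Complex.mul_conj, Complex.normSq_eq_norm_sq, h2]; norm_num
    rw [if_pos hcm, eG, e3, e4, e5, e6]
    calc _ = (sy D m * conj (sy D m)) * (b (γ * m) * (sy δ γ * sy δ m * sy D γ) *
        (pw t (nm D) * pw t (nm m)) * (G D * G m * conj (sy H D * sy H m))) := by ring
      _ = _ := by rw [h1, map_mul]; ring
  · have h0 : sy D m = 0 := (syG.eq_zero D m hm).mpr (fun h => hcm h.symm)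
    rw [if_neg hcm, e5, h0]
    simp

end Crest.Agent.R017.PoD50
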