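import Crest.Agent.R017.PoD1_50

/-!
# Row 17, block C70: a family `bt D b`, `D ∈ 𝒟`, against one kernel (helper50), part 2

`norm_TT_BB` : the Gauss side of `∑ c_D bt D b` through products of two linear sums;
`EE_BB_le` : the modes through mean squares.
-/

set_option autoImplicit false

noncomputable section

open Complex MeasureTheory
open scoped ComplexConjugate Classical

namespace Crest.Agent.R017.PoD50

open Crest.Agent.R012 Crest.Agent.R012.Eis Crest.Agent.R012.MC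
open Crest.Agent.R012.LS2 (S mem_S bl mem_bl)
open Crest.Agent.R012.Mob705 (mu pdiv mem_pdiv abs_mu_le_one sum_mu_coprime)
open Crest.Agent.R012.Tau671 (norm_sy_le)
open Crest.Agent.R012.NonCube52 (Ker kv Good)
open Crest.Agent.R012.Weight600 (osc pw norm_osc)
open Crest.Agent.R017.PX764 (Gh)
open Crest.Agent.R017.CM106 (CS TG norm_Gsy_le)
open Crest.Agent.R017.E1551 (nmpos jb jb_pos nm_ge_one)
open Crest.Agent.R017.BD829
open Crest.Agent.R017.PoH347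
open Crest.Agent.R017.E3D579 (bt)
open Crest.Agent.R017.StA828 (gp gp_spec gp_eq)
open Gauss880 (syG)

/-- the combination of the family -/
def BB (𝒟 : Finset Eis) (c b : Eis → ℂ) (n : Eis) : ℂ := ∑ D ∈ 𝒟, c D * bt D b n

/-- the coefficients on the `D`-side -/
def cr (𝒟 : Finset Eis) (c : Eis → ℂ) (γ δ r D : Eis) : ℂ :=
  if δ * D ∈ 𝒟 ∧ gp γ (δ * D) = δ ∧ r ∣ D then c (δ * D) * sy D (γ / δ) else 0

lemma exists_of_bt {b : Eis → ℂ} {D n : Eis} (hD : D ≠ 0) (h : bt D b n ≠ 0) :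
    ∃ m, n = D * m ∧ b m ≠ 0 ∧ sy D m ≠ 0 := by
  unfold bt at h
  by_cases h1 : D ∣ n
  · rw [if_pos h1] at h
    obtain ⟨m, rfl⟩ := h1
    rw [mul_div_cancel_left₀ _ hD] at h
    exact ⟨m, rfl, left_ne_zero_of_mul h, right_ne_zero_of_mul h⟩
  · rw [if_neg h1] at h
    exact absurd rfl h

lemma bt_supp {Z Δ : ℝ} (hZ : 0 ≤ Z) (hΔ : 0 ≤ Δ) {b : Eis → ℂ} (hb : ∀ n, b n ≠ 0 → n ∈ S Z)
    {D : Eis} (hD : D ∈ S Δ) (n : Eis) (h : bt D b n ≠ 0) : n ∈ S (Δ * Z) := by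
  have hD' := (mem_S hΔ).1 hD
  obtain ⟨m, rfl, h1, h2⟩ := exists_of_bt hD'.2.1.ne_zero h
  have hm := (mem_S hZ).1 (hb _ h1)
  have hc : IsCoprime D m := by
    by_contra hc
    exact h2 ((syG.eq_zero D m hm.2.1).mpr hc)
  rw [mem_S (mul_nonneg hΔ hZ)]
  refine ⟨?_, hD'.2.1.mul hm.2.1, squarefree_mul_iff.mpr ⟨hc.isRelPrime, hD'.2.2, hm.2.2⟩⟩
  rw [nm_mul]
  push_cast
  exact mul_le_mul hD'.1 hm.1 (Nat.cast_nonneg _) hΔ

lemma BB_supp {Z Δ : ℝ} (hZ : 0 ≤ Z) (hΔ : 0 ≤ Δ) {b : Eis → ℂ} (hb : ∀ n, b n ≠ 0 → n ∈ S Z)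
    {𝒟 : Finset Eis} (hD : 𝒟 ⊆ S Δ) (c : Eis → ℂ) (n : Eis) (h : BB 𝒟 c b n ≠ 0) :
    n ∈ S (Δ * Z) := by
  obtain ⟨D, hD1, h1⟩ := Finset.exists_ne_zero_of_sum_ne_zero h
  exact bt_supp hZ hΔ hb (hD hD1) n (right_ne_zero_of_mul h1)

lemma cr_supp {Δ : ℝ} (hΔ : 0 ≤ Δ) {𝒟 : Finset Eis} (hD : 𝒟 ⊆ S Δ) (c : Eis → ℂ)
    {γ δ r : Eis} (hδ : IsPrim δ) (D : Eis) (h : cr 𝒟 c γ δ r D ≠ 0) :
    D ∈ S (Δ / nm δ) ∧ δ * D ∈ 𝒟 ∧ r ∣ D := by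
  unfold cr at h
  by_cases h1 : δ * D ∈ 𝒟 ∧ gp γ (δ * D) = δ ∧ r ∣ D
  swap
  · rw [if_neg h1] at h; exact absurd rfl h
  have h2 := (mem_S hΔ).1 (hD h1.1)
  have nδ := nmpos hδ.ne_zero
  refine ⟨?_, h1.1, h1.2.2⟩
  rw [mem_S (by positivity)]
  refine ⟨?_, h2.2.1.of_mul_left hδ, h2.2.2.of_mul_right⟩
  rw [le_div_iff₀ nδ]
  refine le_trans (le_of_eq ?_) h2.1
  rw [nm_mul]
  push_cast
  ring

lemma mul_supp {Y : ℝ} (hY : 0 ≤ Y) {b : Eis → ℂ} (hb : ∀ n, b n ≠ 0 → n ∈ S Y) {γ : Eis}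
    (hγ : IsPrim γ) (n : Eis) (h : b (γ * n) ≠ 0) : n ∈ S Y := by
  have h1 := (mem_S hY).1 (hb _ h)
  rw [mem_S hY]
  refine ⟨?_, h1.2.1.of_mul_left hγ, h1.2.2.of_mul_right⟩
  refine le_trans ?_ h1.1
  rw [nm_mul]
  push_cast
  exact le_mul_of_one_le_left (Nat.cast_nonneg _) (nm_ge_one hγ.ne_zero)

/-- the factor of one `D` -/
def fD (γ δ H : Eis) (t : ℝ) (D : Eis) : ℂ := sy D (γ / δ) * (Gh H D * pw t (nm D))

/-- the factor of one `r` -/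
def fr (b : Eis → ℂ) (γ δ H : Eis) (t : ℝ) (r : Eis) : ℂ :=
  (mu r : ℂ) * ((pw t (nm r) * (G r * conj (sy (δ ^ 2 * H) r))) *
    TT (fun m => b (γ / δ * r * m)) (δ ^ 2 * H * r) t)

lemma norm_fr_le (b : Eis → ℂ) (γ δ H : Eis) (t : ℝ) {r : Eis} (hr : IsPrim r) :
    ‖fr b γ δ H t r‖ ≤ ‖TT (fun m => b (γ / δ * r * m)) (δ ^ 2 * H * r) t‖ := by
  unfold fr
  rw [norm_mul, norm_mul, norm_mul]
  have h1 : ‖(mu r : ℂ)‖ ≤ 1 := by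
    rw [show (mu r : ℂ) = ((mu r : ℝ) : ℂ) by push_cast; rfl, Complex.norm_real, Real.norm_eq_abs]
    exact_mod_cast abs_mu_le_one r
  have h2 : ‖pw t (nm r : ℝ)‖ = 1 := norm_pw _ _
  have h3 : ‖G r * conj (sy (δ ^ 2 * H) r)‖ ≤ 1 := norm_Gsy_le hr
  rw [h2, one_mul]
  calc ‖(mu r : ℂ)‖ * (‖G r * conj (sy (δ ^ 2 * H) r)‖ *
        ‖TT (fun m => b (γ / δ * r * m)) (δ ^ 2 * H * r) t‖)
      ≤ 1 * (1 * ‖TT (fun m => b (γ / δ * r * m)) (δ ^ 2 * H * r) t‖) := by gcongr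
    _ = _ := by ring

/-- the exact formula -/
theorem TT_BB {Z Δ : ℝ} (hZ : 0 ≤ Z) (hΔ : 0 ≤ Δ) {b : Eis → ℂ} (hb : ∀ n, b n ≠ 0 → n ∈ S Z)
    {𝒟 : Finset Eis} (hD : 𝒟 ⊆ S Δ) (c : Eis → ℂ) {γ : Eis} (hγ : IsPrim γ) (H : Eis) (t : ℝ) :
    TT (fun n => BB 𝒟 c b (γ * n)) H t = ∑ δ ∈ pdiv γ, ∑ r ∈ S Δ,
      (sy δ (γ / δ) * fr b γ δ H t r) * TT (cr 𝒟 c γ δ r) H t := by
  have hZΔ : 0 ≤ Δ * Z := mul_nonneg hΔ hZ
  unfold BB
  rw [TT_sum 𝒟 c (fun D n => bt D b (γ * n)) (Y := Δ * Z) (fun D hD1 n hn =>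
    mul_supp hZΔ (bt_supp hZ hΔ hb (hD hD1)) hγ n hn)]
  -- one `D`
  have hone : ∀ D ∈ 𝒟, c D * TT (fun n => bt D b (γ * n)) H t =
      (fun δ D' => c (δ * D') * (sy δ (γ / δ) * (fD γ δ H t D' *
        ∑ r ∈ S Δ, if r ∣ D' then fr b γ δ H t r else 0))) (gp γ D) (D / gp γ D) := by
    intro D hD1
    have hD' := (mem_S hΔ).1 (hD hD1)
    obtain ⟨h1, h2, h3, h4, h5⟩ := gp_spec γ hD'.2.1
    set δ := gp γ D with hδ
    set D' := D / δ with hDd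
    have hγδ : IsPrim (γ / δ) := by
      have : IsPrim (δ * (γ / δ)) := by rw [← h3]; exact hγ
      exact this.of_mul_left h1
    beta_reduce
    rw [← h4]
    congr 1
    have e1 := TT_bt hZ hb h1 h2 hγδ h5 H t
    rw [← h4, ← h3] at e1
    rw [e1, TT_cop hZ hb hγδ h2]
    have hsub : pdiv D' ⊆ S Δ := by
      intro r hr
      have hr' := (mem_pdiv h2.ne_zero).mp hr
      refine Dual2813.S_of_dvd hΔ (hD hD1) hr'.1 (hr'.2.trans ⟨δ, ?_⟩)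
      rw [mul_comm]; exact h4
    have e2 : ∑ r ∈ S Δ, (if r ∣ D' then fr b γ δ H t r else 0) =
        ∑ r ∈ pdiv D', fr b γ δ H t r := by
      rw [← Finset.sum_subset hsub]
      · refine Finset.sum_congr rfl fun r hr => ?_
        rw [if_pos ((mem_pdiv h2.ne_zero).mp hr).2]
      · intro r hr hn
        rw [if_neg]
        intro h6
        exact hn ((mem_pdiv h2.ne_zero).mpr ⟨((mem_S hΔ).1 hr).2.1, h6⟩)
    rw [e2]
    unfold fD fr Gh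
    ring
  rw [Finset.sum_congr rfl hone]
  -- fibres over the gcd
  have hmaps : ∀ D ∈ 𝒟, gp γ D ∈ pdiv γ := by
    intro D hD1
    obtain ⟨h1, h2, h3, h4, h5⟩ := gp_spec γ ((mem_S hΔ).1 (hD hD1)).2.1
    exact (mem_pdiv hγ.ne_zero).mpr ⟨h1, ⟨_, h3⟩⟩
  rw [← Finset.sum_fiberwise_of_maps_to hmaps]
  refine Finset.sum_congr rfl fun δ hδ => ?_
  have hδ' := (mem_pdiv hγ.ne_zero).mp hδ
  have nδ := nmpos hδ'.1.ne_zero
  -- the sum over `D'`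
  have e3 : ∑ D ∈ 𝒟.filter (fun D => gp γ D = δ),
      (fun δ D' => c (δ * D') * (sy δ (γ / δ) * (fD γ δ H t D' *
        ∑ r ∈ S Δ, if r ∣ D' then fr b γ δ H t r else 0))) (gp γ D) (D / gp γ D) =
      ∑ D' ∈ (S Δ).filter (fun D' => δ * D' ∈ 𝒟 ∧ gp γ (δ * D') = δ),
        c (δ * D') * (sy δ (γ / δ) * (fD γ δ H t D' *
        ∑ r ∈ S Δ, if r ∣ D' then fr b γ δ H t r else 0)) := by
    refine Finset.sum_nbij' (fun D => D / δ) (fun D' => δ * D') ?_ ?_ ?_ ?_ ?_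
    · intro D hD1
      obtain ⟨h1, h2⟩ := Finset.mem_filter.mp hD1
      have h3 := gp_spec γ ((mem_S hΔ).1 (hD h1)).2.1
      rw [h2] at h3
      rw [Finset.mem_filter, ← h3.2.2.2.1]
      exact ⟨Dual2813.S_of_dvd hΔ (hD h1) h3.2.1 ⟨δ, by rw [mul_comm]; exact h3.2.2.2.1⟩, h1, h2⟩
    · intro D' hD1
      obtain ⟨h1, h2⟩ := Finset.mem_filter.mp hD1
      exact Finset.mem_filter.mpr h2
    · intro D hD1
      obtain ⟨h1, h2⟩ := Finset.mem_filter.mp hD1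
      have h3 := gp_spec γ ((mem_S hΔ).1 (hD h1)).2.1
      rw [h2] at h3
      exact h3.2.2.2.1.symm
    · intro D' _
      exact mul_div_cancel_left₀ _ hδ'.1.ne_zero
    · intro D hD1
      obtain ⟨h1, h2⟩ := Finset.mem_filter.mp hD1
      beta_reduce
      rw [h2]
  rw [e3, Finset.sum_filter]
  -- interchange
  have e4 : ∀ D' ∈ S Δ, (if δ * D' ∈ 𝒟 ∧ gp γ (δ * D') = δ then
      c (δ * D') * (sy δ (γ / δ) * (fD γ δ H t D' *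
        ∑ r ∈ S Δ, if r ∣ D' then fr b γ δ H t r else 0)) else 0) =
      ∑ r ∈ S Δ, (sy δ (γ / δ) * fr b γ δ H t r) *
        (cr 𝒟 c γ δ r D' * Gh H D' * pw t (nm D')) := by
    intro D' _
    by_cases h1 : δ * D' ∈ 𝒟 ∧ gp γ (δ * D') = δ
    · rw [if_pos h1, Finset.mul_sum, Finset.mul_sum, Finset.mul_sum]
      refine Finset.sum_congr rfl fun r _ => ?_
      unfold cr fD
      by_cases h2 : r ∣ D'
      · rw [if_pos h2, if_pos ⟨h1.1, h1.2, h2⟩]; ring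
      · rw [if_neg h2, if_neg (fun h => h2 h.2.2)]; ring
    · rw [if_neg h1]
      symm
      refine Finset.sum_eq_zero fun r _ => ?_
      unfold cr
      rw [if_neg (fun h => h1 ⟨h.1, h.2.1⟩)]; ring
  rw [Finset.sum_congr rfl e4, Finset.sum_comm]
  refine Finset.sum_congr rfl fun r _ => ?_
  have hcs : ∀ n, cr 𝒟 c γ δ r n ≠ 0 → n ∈ S Δ := by
    intro n hn
    have h1 := (cr_supp hΔ hD c hδ'.1 n hn).1
    have h2 := (mem_S (by positivity)).1 h1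
    rw [mem_S hΔ]
    refine ⟨h2.1.trans ?_, h2.2⟩
    exact div_le_self hΔ (nm_ge_one hδ'.1.ne_zero)
  rw [← Finset.mul_sum, TT_fin hcs]

/-- **the Gauss side of the family** -/
theorem norm_TT_BB {Z Δ : ℝ} (hZ : 0 ≤ Z) (hΔ : 0 ≤ Δ) {b : Eis → ℂ}
    (hb : ∀ n, b n ≠ 0 → n ∈ S Z) {𝒟 : Finset Eis} (hD : 𝒟 ⊆ S Δ) (c : Eis → ℂ) {γ : Eis}
    (hγ : IsPrim γ) (H : Eis) (t : ℝ) :
    ‖TT (fun n => BB 𝒟 c b (γ * n)) H t‖ ≤ ∑ δ ∈ pdiv γ, ∑ r ∈ S Δ,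
      ‖TT (cr 𝒟 c γ δ r) H t‖ * ‖TT (fun m => b (γ / δ * r * m)) (δ ^ 2 * H * r) t‖ := by
  rw [TT_BB hZ hΔ hb hD c hγ H t]
  refine (norm_sum_le _ _).trans (Finset.sum_le_sum fun δ hδ => ?_)
  refine (norm_sum_le _ _).trans (Finset.sum_le_sum fun r hr => ?_)
  have hδ' := (mem_pdiv hγ.ne_zero).mp hδ
  have hr' := ((mem_S hΔ).1 hr).2.1
  have hγδ : IsPrim (γ / δ) := by
    obtain ⟨k, hk⟩ := hδ'.2
    have : IsPrim (δ * k) := by rw [← hk]; exact hγ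
    rw [hk, mul_div_cancel_left₀ _ hδ'.1.ne_zero]
    exact this.of_mul_left hδ'.1
  rw [norm_mul, norm_mul, mul_comm]
  refine mul_le_mul_of_nonneg_left ?_ (norm_nonneg _)
  calc ‖sy δ (γ / δ)‖ * ‖fr b γ δ H t r‖ ≤ 1 * ‖fr b γ δ H t r‖ :=
        mul_le_mul_of_nonneg_right (norm_sy_le hγδ) (norm_nonneg _)
    _ = ‖fr b γ δ H t r‖ := one_mul _
    _ ≤ _ := norm_fr_le b γ δ H t hr'

end Crest.Agent.R017.PoD50
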