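import Crest.Agent.R017.PoD2_50
import Crest.Agent.R017.PoH13_347

/-!
# Row 17, block C70: a family `bt D b`, `D ∈ 𝒟`, against one kernel (helper50), part 3

`EE_BB_le` : the modes of the family through mean squares; `cr_ls` : the large sieve on the
`D`-side; `b_side` : the `b`-side from the hypothesis on dilated sequences.
-/

set_option autoImplicit false

noncomputable section

open Complex MeasureTheory
open scoped ComplexConjugate Classical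

namespace Crest.Agent.R017.PoD50

open Crest.Agent.R012 Crest.Agent.R012.Eis Crest.Agent.R012.MC
open Crest.Agent.R012.LS2 (S mem_S bl mem_bl)
open Crest.Agent.R012.Mob705 (mu pdiv mem_pdiv abs_mu_le_one sum_mu_coprime)
open Crest.Agent.R012.Tau671 (norm_sy_le)
open Crest.Agent.R012.NonCube52 (Ker kv Good)
open Crest.Agent.R012.Weight600 (osc pw norm_osc)
open Crest.Agent.R017.PX764 (Gh)
open Crest.Agent.R017.CM106 (CS TG norm_Gsy_le)
open Crest.Agent.R017.E1551 (nmpos jb jb_pos integrable_jb integrable_jb_mul nm_ge_one)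
open Crest.Agent.R017.BD829
open Crest.Agent.R017.PoH347
open Crest.Agent.R017.Mode405 (VI)
open Crest.Agent.R017.E3D579 (bt)
open Crest.Agent.R017.StA828 (gp gp_spec gp_eq)
open Gauss880 (syG)

/-- the product with a single character -/
lemma EE_single_le {A : ℝ} (hA : 1 < A) {Y : ℝ} (hY : 0 ≤ Y) {u : Eis → ℂ}
    (hu : ∀ n, u n ≠ 0 → n ∈ S Y) {ψ : Eis → ℂ} (hψ : ∀ n, IsPrim n → ‖ψ n‖ ≤ 1) {d f h : Eis}
    (hd : IsPrim d) (hf : IsPrim f) (hh : h ∈ S Y) (H : Eis) :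
    EE A u (rs (Pi.single h 1) ψ d f) H ≤ ∫ t, jb A t * ‖TT u H t‖ := by
  set v := rs (Pi.single h 1) ψ d f with hv
  have hs : ∀ n, (Pi.single h 1 : Eis → ℂ) n ≠ 0 → n ∈ S Y := by
    intro n hn
    by_cases h1 : n = h
    · rw [h1]; exact hh
    · rw [Pi.single_eq_of_ne h1] at hn; exact absurd rfl hn
  have hvs : ∀ n, v n ≠ 0 → n ∈ S Y := fun n hn => rs_supp hY hs ψ hd hf n hn
  have hdf : d * f ≠ 0 := mul_ne_zero hd.ne_zero hf.ne_zero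
  have h1 : ∑ k ∈ S Y, ‖v k‖ ≤ 1 := by
    by_cases h2 : ∃ k ∈ S Y, d * f * k = h
    · obtain ⟨k, hk, hkh⟩ := h2
      rw [Finset.sum_eq_single_of_mem k hk]
      · rw [hv]
        unfold rs
        rw [hkh, Pi.single_eq_same, one_mul]
        exact hψ k ((mem_S hY).1 hk).2.1
      · intro m _ hm
        rw [hv]
        unfold rs
        rw [Pi.single_eq_of_ne, zero_mul, norm_zero]
        intro h3
        exact hm (mul_left_cancel₀ hdf (h3.trans hkh.symm))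
    · rw [Finset.sum_eq_zero]
      · norm_num
      · intro k hk
        rw [hv]
        unfold rs
        rw [Pi.single_eq_of_ne, zero_mul, norm_zero]
        intro h3
        exact h2 ⟨k, hk, h3⟩
  unfold EE
  have hint : Integrable fun t => jb A t * ‖TT u H t‖ :=
    integrable_jb_mul hA ((continuous_TT hu H).norm) (B := ∑ k ∈ S Y, ‖u k‖) fun t => by
      rw [abs_of_nonneg (norm_nonneg _)]
      exact norm_TT_le hY hu H t
  refine integral_mono (integrable_EE hA hY hu hvs H) hint fun t => ?_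
  beta_reduce
  refine mul_le_mul_of_nonneg_left ?_ (jb_pos A t).le
  exact mul_le_of_le_one_right (norm_nonneg _) ((norm_TT_le hY hvs H (-t)).trans h1)

/-- the mean squares of one block -/
def Q1 (A : ℝ) (𝒟 : Finset Eis) (Rs : Finset Eis) (c b : Eis → ℂ) (γ H : Eis) (ρ : Eis → ℝ) : ℝ :=
  ∑ δ ∈ pdiv γ, ∑ r ∈ Rs, (ρ δ * EQ A (cr 𝒟 c γ δ r) H +
    (ρ δ)⁻¹ * EQ A (fun m => b (γ / δ * r * m)) (δ ^ 2 * H * r))

lemma div_prim {γ δ : Eis} (hγ : IsPrim γ) (hδ : δ ∈ pdiv γ) : IsPrim (γ / δ) := by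
  have hδ' := (mem_pdiv hγ.ne_zero).mp hδ
  obtain ⟨k, hk⟩ := hδ'.2
  have : IsPrim (δ * k) := by rw [← hk]; exact hγ
  rw [hk, mul_div_cancel_left₀ _ hδ'.1.ne_zero]
  exact this.of_mul_left hδ'.1

lemma integral_BB_le {A : ℝ} (hA : 1 < A) {Z Δ : ℝ} (hZ : 0 ≤ Z) (hΔ : 0 ≤ Δ) {b : Eis → ℂ}
    (hb : ∀ n, b n ≠ 0 → n ∈ S Z) {𝒟 : Finset Eis} (hD : 𝒟 ⊆ S Δ) {ka : Eis}
    (hka : ∀ D ∈ 𝒟, IsCoprime D ka) (c : Eis → ℂ) {γ : Eis} (hγ : IsPrim γ) (H : Eis)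
    {ρ : Eis → ℝ} (hρ : ∀ δ ∈ pdiv γ, 0 < ρ δ) :
    ∫ t, jb A t * ‖TT (fun n => BB 𝒟 c b (γ * n)) H t‖ ≤
      Q1 A 𝒟 ((S Δ).filter fun r => IsCoprime r ka) c b γ H ρ := by
  set Rs := (S Δ).filter fun r => IsCoprime r ka with hRs
  have hcs : ∀ δ ∈ pdiv γ, ∀ r, ∀ n, cr 𝒟 c γ δ r n ≠ 0 → n ∈ S Δ := by
    intro δ hδ r n hn
    have hδ' := (mem_pdiv hγ.ne_zero).mp hδ
    have h1 := (cr_supp hΔ hD c hδ'.1 n hn).1
    have h2 := (mem_S (by positivity)).1 h1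
    rw [mem_S hΔ]
    exact ⟨h2.1.trans (div_le_self hΔ (nm_ge_one hδ'.1.ne_zero)), h2.2⟩
  have hbs : ∀ δ ∈ pdiv γ, ∀ r ∈ Rs, ∀ n, b (γ / δ * r * n) ≠ 0 → n ∈ S Z := by
    intro δ hδ r hr n hn
    have hr' := ((mem_S hΔ).1 (Finset.mem_filter.mp hr).1).2.1
    exact mul_supp hZ hb ((div_prim hγ hδ).mul hr') n hn
  have i1 : ∀ δ ∈ pdiv γ, ∀ r, Integrable fun t => jb A t * ‖TT (cr 𝒟 c γ δ r) H t‖ ^ 2 :=
    fun δ hδ r => integrable_EQ hA hΔ (hcs δ hδ r) H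
  have i2 : ∀ δ ∈ pdiv γ, ∀ r ∈ Rs, Integrable fun t =>
      jb A t * ‖TT (fun m => b (γ / δ * r * m)) (δ ^ 2 * H * r) t‖ ^ 2 :=
    fun δ hδ r hr => integrable_EQ hA hZ (hbs δ hδ r hr) _
  have hpt : ∀ t, ‖TT (fun n => BB 𝒟 c b (γ * n)) H t‖ ≤ ∑ δ ∈ pdiv γ, ∑ r ∈ Rs,
      (ρ δ * ‖TT (cr 𝒟 c γ δ r) H t‖ ^ 2 +
        (ρ δ)⁻¹ * ‖TT (fun m => b (γ / δ * r * m)) (δ ^ 2 * H * r) t‖ ^ 2) := by
    intro t
    refine (norm_TT_BB hZ hΔ hb hD c hγ H t).trans (Finset.sum_le_sum fun δ hδ => ?_)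
    have hδ' := (mem_pdiv hγ.ne_zero).mp hδ
    have e1 : ∑ r ∈ S Δ,
        ‖TT (cr 𝒟 c γ δ r) H t‖ * ‖TT (fun m => b (γ / δ * r * m)) (δ ^ 2 * H * r) t‖ =
        ∑ r ∈ Rs,
        ‖TT (cr 𝒟 c γ δ r) H t‖ * ‖TT (fun m => b (γ / δ * r * m)) (δ ^ 2 * H * r) t‖ := by
      rw [hRs, Finset.sum_filter]
      refine Finset.sum_congr rfl fun r _ => ?_
      split_ifs with h1
      · rfl
      · have h2 : ∀ n, cr 𝒟 c γ δ r n = 0 := by
          intro n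
          by_contra h3
          obtain ⟨-, h4, h5⟩ := cr_supp hΔ hD c hδ'.1 n h3
          exact h1 (((hka _ h4).of_mul_left_right).of_isCoprime_of_dvd_left h5)
        rw [TT_zero h2, norm_zero, zero_mul]
    rw [e1]
    refine Finset.sum_le_sum fun r _ => ?_
    have hr := hρ δ hδ
    set x := ‖TT (cr 𝒟 c γ δ r) H t‖
    set y := ‖TT (fun m => b (γ / δ * r * m)) (δ ^ 2 * H * r) t‖
    have hx : 0 ≤ x := norm_nonneg _
    have hy : 0 ≤ y := norm_nonneg _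
    have h6 : 0 ≤ ρ δ * (x - (ρ δ)⁻¹ * y) ^ 2 := by positivity
    have h8 : ρ δ * (ρ δ)⁻¹ = 1 := mul_inv_cancel₀ hr.ne'
    have h7 : ρ δ * (x - (ρ δ)⁻¹ * y) ^ 2 = ρ δ * x ^ 2 - 2 * (x * y) + (ρ δ)⁻¹ * y ^ 2 := by
      linear_combination (-2 * (x * y) + (ρ δ)⁻¹ * y ^ 2) * h8
    have h9 : 0 ≤ x * y := mul_nonneg hx hy
    linarith
  have i3 : ∀ δ ∈ pdiv γ, ∀ r ∈ Rs, Integrable fun t =>
      (ρ δ * (jb A t * ‖TT (cr 𝒟 c γ δ r) H t‖ ^ 2) +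
        (ρ δ)⁻¹ * (jb A t * ‖TT (fun m => b (γ / δ * r * m)) (δ ^ 2 * H * r) t‖ ^ 2)) :=
    fun δ hδ r hr => ((i1 δ hδ r).const_mul _).add ((i2 δ hδ r hr).const_mul _)
  have i4 : ∀ δ ∈ pdiv γ, Integrable fun t => ∑ r ∈ Rs,
      (ρ δ * (jb A t * ‖TT (cr 𝒟 c γ δ r) H t‖ ^ 2) +
        (ρ δ)⁻¹ * (jb A t * ‖TT (fun m => b (γ / δ * r * m)) (δ ^ 2 * H * r) t‖ ^ 2)) :=
    fun δ hδ => integrable_finsetSum _ fun r hr => i3 δ hδ r hr
  have hint : Integrable fun t => ∑ δ ∈ pdiv γ, ∑ r ∈ Rs,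
      (ρ δ * (jb A t * ‖TT (cr 𝒟 c γ δ r) H t‖ ^ 2) +
        (ρ δ)⁻¹ * (jb A t * ‖TT (fun m => b (γ / δ * r * m)) (δ ^ 2 * H * r) t‖ ^ 2)) :=
    integrable_finsetSum _ fun δ hδ => i4 δ hδ
  have h1 : ∫ t, jb A t * ‖TT (fun n => BB 𝒟 c b (γ * n)) H t‖ ≤
      ∫ t, ∑ δ ∈ pdiv γ, ∑ r ∈ Rs,
      (ρ δ * (jb A t * ‖TT (cr 𝒟 c γ δ r) H t‖ ^ 2) +
        (ρ δ)⁻¹ * (jb A t * ‖TT (fun m => b (γ / δ * r * m)) (δ ^ 2 * H * r) t‖ ^ 2)) := by
    refine integral_mono_of_nonneg (Filter.Eventually.of_forall fun t =>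
      mul_nonneg (jb_pos A t).le (norm_nonneg _)) hint (Filter.Eventually.of_forall fun t => ?_)
    beta_reduce
    refine (mul_le_mul_of_nonneg_left (hpt t) (jb_pos A t).le).trans (le_of_eq ?_)
    rw [Finset.mul_sum]
    refine Finset.sum_congr rfl fun δ _ => ?_
    rw [Finset.mul_sum]
    refine Finset.sum_congr rfl fun r _ => ?_
    ring
  refine h1.trans (le_of_eq ?_)
  unfold Q1 EQ
  rw [integral_finsetSum _ i4]
  refine Finset.sum_congr rfl fun δ hδ => ?_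
  rw [integral_finsetSum _ (i3 δ hδ)]
  refine Finset.sum_congr rfl fun r hr => ?_
  rw [integral_add ((i1 δ hδ r).const_mul _) ((i2 δ hδ r hr).const_mul _), integral_const_mul,
    integral_const_mul]

lemma Q1_nonneg {A : ℝ} {𝒟 Rs : Finset Eis} {c b : Eis → ℂ} {γ H : Eis} {ρ : Eis → ℝ}
    (hρ : ∀ δ ∈ pdiv γ, 0 < ρ δ) : 0 ≤ Q1 A 𝒟 Rs c b γ H ρ := by
  unfold Q1
  refine Finset.sum_nonneg fun δ hδ => Finset.sum_nonneg fun r _ => ?_
  have h := hρ δ hδ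
  have h1 := EQ_nonneg A (cr 𝒟 c γ δ r) H
  have h2 := EQ_nonneg A (fun m => b (γ / δ * r * m)) (δ ^ 2 * H * r)
  positivity

/-- **one mode of the family against one character** -/
theorem EE_BB_le {A : ℝ} (hA : 1 < A) {Z Δ Y : ℝ} (hZ : 0 ≤ Z) (hΔ : 0 ≤ Δ) (hY : 0 ≤ Y)
    {b : Eis → ℂ} (hb : ∀ n, b n ≠ 0 → n ∈ S Z) {𝒟 : Finset Eis} (hD : 𝒟 ⊆ S Δ) {ka : Eis}
    (hka : ∀ D ∈ 𝒟, IsCoprime D ka) (c : Eis → ℂ) {g l l₁ : Eis} (hg : IsPrim g)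
    (hl : IsPrim l) (hcl : IsCoprime (g * l₁) l) (hh : g * l₁ ∈ S Y)
    (hs : ∀ n, bg (BB 𝒟 c b) g l n ≠ 0 → n ∈ S Y) (s : Eis) {d f : Eis} (hd : IsPrim d)
    (hf : IsPrim f) (H : Eis) {ρ : Eis → ℝ} (hρ : ∀ δ ∈ pdiv (g * (d * f)), 0 < ρ δ) :
    EE A (rs (bg (BB 𝒟 c b) g l) (pt s) d f)
      (rs (Pi.single (g * l₁) 1) (fun m => conj (pt s m)) d f) H ≤
      if d * f ∣ l₁ then Q1 A 𝒟 ((S Δ).filter fun r => IsCoprime r ka) c b (g * (d * f))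
        (s * l * H) ρ else 0 := by
  have hdf : IsPrim (d * f) := hd.mul hf
  have hγ : IsPrim (g * (d * f)) := hg.mul hdf
  by_cases h1 : d * f ∣ g * l₁
  swap
  · rw [if_neg (fun h => h1 (h.trans (dvd_mul_left _ _)))]
    refine le_of_eq (EE_zero_right (fun n => ?_) _)
    unfold rs
    rw [Pi.single_eq_of_ne, zero_mul]
    intro h2
    exact h1 ⟨n, h2.symm⟩
  have hdl : IsCoprime (d * f) l := hcl.of_isCoprime_of_dvd_left h1
  have hZΔ : 0 ≤ Δ * Z := mul_nonneg hΔ hZ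
  have hrs : ∀ n, rs (bg (BB 𝒟 c b) g l) (pt s) d f n ≠ 0 → n ∈ S Y :=
    fun n hn => rs_supp hY hs (pt s) hd hf n hn
  have h2 := EE_single_le hA hY hrs (ψ := fun m => conj (pt s m)) (fun n hn => by
    rw [RCLike.norm_conj]; exact norm_pt_le s hn) hd hf hh H
  refine h2.trans ?_
  have hTT := fun t => TT_bgs hZΔ (BB_supp hZ hΔ hb hD c) hg hl hdf hdl s H t
  by_cases h3 : IsCoprime (d * f) (g * l)
  · have h4 : d * f ∣ l₁ := (h3.of_mul_right_left).dvd_of_dvd_mul_left h1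
    rw [if_pos h4]
    refine le_trans ?_ (integral_BB_le hA hZ hΔ hb hD hka c hγ (s * l * H) hρ)
    have hsup2 : ∀ n, BB 𝒟 c b (g * (d * f) * n) ≠ 0 → n ∈ S (Δ * Z) :=
      fun n hn => mul_supp hZΔ (BB_supp hZ hΔ hb hD c) hγ n hn
    have hint : Integrable fun t => jb A t *
        ‖TT (fun n => BB 𝒟 c b (g * (d * f) * n)) (s * l * H) t‖ :=
      integrable_jb_mul hA ((continuous_TT hsup2 _).norm)
        (B := ∑ k ∈ S (Δ * Z), ‖BB 𝒟 c b (g * (d * f) * k)‖) fun t => by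
        rw [abs_of_nonneg (norm_nonneg _)]
        exact norm_TT_le hZΔ hsup2 _ t
    refine integral_mono_of_nonneg (Filter.Eventually.of_forall fun t =>
      mul_nonneg (jb_pos A t).le (norm_nonneg _)) hint (Filter.Eventually.of_forall fun t => ?_)
    beta_reduce
    refine mul_le_mul_of_nonneg_left ?_ (jb_pos A t).le
    unfold rs
    rw [hTT t, if_pos h3, norm_mul]
    refine mul_le_of_le_one_left (norm_nonneg _) ?_
    rw [norm_mul, norm_mul, norm_pw, mul_one]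
    exact mul_le_one₀ (norm_pt_le s hl) (norm_nonneg _) (norm_Gsy_le hl)
  · have h4 : ∫ t, jb A t * ‖TT (rs (bg (BB 𝒟 c b) g l) (pt s) d f) H t‖ = 0 := by
      have : (fun t => jb A t * ‖TT (rs (bg (BB 𝒟 c b) g l) (pt s) d f) H t‖) = fun _ => 0 := by
        funext t
        unfold rs
        rw [hTT t, if_neg h3, zero_mul, norm_zero, mul_zero]
      rw [this]; simp
    rw [h4]
    split_ifs
    · exact Q1_nonneg hρ
    · exact le_rfl

lemma EQ_zero {A : ℝ} {u : Eis → ℂ} (hu : ∀ n, u n = 0) (H : Eis) : EQ A u H = 0 := by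
  unfold EQ
  simp [TT_zero hu]

/-- **the `D`-side** -/
theorem cr_ls {A : ℝ} (hA : 1 < A) {ε : ℝ} (hε : 0 < ε) : ∃ C : ℝ, 0 < C ∧ ∀ Δ L T : ℝ,
    1 ≤ Δ → 1 ≤ L → (∀ n ∈ S Δ, (Div277.tau n : ℝ) ≤ T) → ∀ (𝒟 : Finset Eis), 𝒟 ⊆ S Δ →
      ∀ (Rs : Finset Eis), Rs ⊆ S Δ → ∀ (c : Eis → ℂ) (γ δ : Eis), IsPrim γ → δ ∈ pdiv γ →
      ∀ g0 : Eis, ∑ r ∈ Rs, ∑ h ∈ bl L, EQ A (cr 𝒟 c γ δ r) (h * g0) ≤
        C * (L * Δ) ^ ε * nrm (Δ / nm δ) L * (T * ∑ D ∈ 𝒟, ‖c D‖ ^ 2) := by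
  obtain ⟨C, hC, hLS⟩ := EQ_ls hA hε
  refine ⟨C, hC, ?_⟩
  intro Δ L T hΔ1 hL hT 𝒟 hD Rs hRs c γ δ hγ hδ g0
  have hΔ : 0 ≤ Δ := by linarith
  have hδ' := (mem_pdiv hγ.ne_zero).mp hδ
  have nδ := nmpos hδ'.1.ne_zero
  have nδ1 := nm_ge_one hδ'.1.ne_zero
  have hγδ := div_prim hγ hδ
  have hΔδ : 0 ≤ Δ / nm δ := by positivity
  have hS2 : 0 ≤ ∑ D ∈ 𝒟, ‖c D‖ ^ 2 := Finset.sum_nonneg fun _ _ => by positivity
  have hT0 : 0 ≤ T := (Nat.cast_nonneg _).trans (hT 1 ((mem_S hΔ).mpr ⟨by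
    rw [nm_one]; simpa using hΔ1, isPrim_one, squarefree_one⟩))
  have hnn : 0 ≤ nrm (Δ / nm δ) L := nrm_nonneg hΔδ (by linarith)
  rcases lt_or_ge (Δ / nm δ) 1 with h1 | h1
  · -- nothing
    have h2 : ∀ r n, cr 𝒟 c γ δ r n = 0 := by
      intro r n
      by_contra h3
      have h4 := (mem_S hΔδ).1 (cr_supp hΔ hD c hδ'.1 n h3).1
      have := nm_ge_one h4.2.1.ne_zero
      linarith
    have h3 : ∑ r ∈ Rs, ∑ h ∈ bl L, EQ A (cr 𝒟 c γ δ r) (h * g0) = 0 :=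
      Finset.sum_eq_zero fun r _ => Finset.sum_eq_zero fun h _ => EQ_zero (h2 r) _
    rw [h3]
    positivity
  -- the large sieve for every `r`
  have h2 : ∀ r ∈ Rs, ∑ h ∈ bl L, EQ A (cr 𝒟 c γ δ r) (h * g0) ≤
      C * (L * Δ) ^ ε * nrm (Δ / nm δ) L * ∑ m ∈ S (Δ / nm δ), ‖cr 𝒟 c γ δ r m‖ ^ 2 := by
    intro r _
    refine (hLS (Δ / nm δ) L h1 hL (cr 𝒟 c γ δ r)
      (fun n hn => (cr_supp hΔ hD c hδ'.1 n hn).1) g0).trans ?_
    have h3 : (L * (Δ / nm δ)) ^ ε ≤ (L * Δ) ^ ε := by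
      refine Real.rpow_le_rpow (by positivity) ?_ hε.le
      exact mul_le_mul_of_nonneg_left (div_le_self hΔ nδ1) (by linarith)
    have h4 : 0 ≤ ∑ m ∈ S (Δ / nm δ), ‖cr 𝒟 c γ δ r m‖ ^ 2 :=
      Finset.sum_nonneg fun _ _ => by positivity
    gcongr
  refine (Finset.sum_le_sum h2).trans ?_
  rw [← Finset.mul_sum]
  refine mul_le_mul_of_nonneg_left ?_ (by positivity)
  rw [Finset.sum_comm, Finset.mul_sum]
  -- the injection `m ↦ δ m`
  have h5 : ∀ m ∈ S (Δ / nm δ), ∑ r ∈ Rs, ‖cr 𝒟 c γ δ r m‖ ^ 2 ≤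
      if δ * m ∈ 𝒟 then T * ‖c (δ * m)‖ ^ 2 else 0 := by
    intro m hm
    have hm' := (mem_S hΔδ).1 hm
    have hmΔ : m ∈ S Δ := by
      rw [mem_S hΔ]
      exact ⟨hm'.1.trans (div_le_self hΔ nδ1), hm'.2⟩
    by_cases h6 : δ * m ∈ 𝒟
    · rw [if_pos h6]
      have h7 : ∀ r ∈ Rs, ‖cr 𝒟 c γ δ r m‖ ^ 2 ≤ if r ∣ m then ‖c (δ * m)‖ ^ 2 else 0 := by
        intro r _
        unfold cr
        by_cases h8 : r ∣ m
        · rw [if_pos h8]
          split_ifs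
          · rw [norm_mul, mul_pow]
            refine mul_le_of_le_one_right (by positivity) ?_
            exact pow_le_one₀ (norm_nonneg _) (norm_sy_le hγδ)
          · simp
        · rw [if_neg (fun h => h8 h.2.2), if_neg h8]; simp
      refine (Finset.sum_le_sum h7).trans ?_
      rw [← Finset.sum_filter, Finset.sum_const, nsmul_eq_mul]
      refine mul_le_mul_of_nonneg_right ?_ (by positivity)
      refine le_trans ?_ (hT m hmΔ)
      unfold Div277.tau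
      norm_cast
      refine Finset.card_le_card fun r hr => ?_
      obtain ⟨h8, h9⟩ := Finset.mem_filter.mp hr
      exact (Div277.mem_dvs hm'.2.1.ne_zero).mpr ⟨((mem_S hΔ).1 (hRs h8)).2.1, h9⟩
    · rw [if_neg h6]
      refine le_of_eq (Finset.sum_eq_zero fun r _ => ?_)
      unfold cr
      rw [if_neg (fun h => h6 h.1)]; simp
  refine (Finset.sum_le_sum h5).trans ?_
  rw [← Finset.sum_filter]
  have hinj : Set.InjOn (fun m : Eis => δ * m)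
      ((S (Δ / nm δ)).filter (fun m => δ * m ∈ 𝒟) : Finset Eis) := by
    intro x _ y _ hxy
    exact mul_left_cancel₀ hδ'.1.ne_zero hxy
  rw [← Finset.sum_image (f := fun D => T * ‖c D‖ ^ 2) hinj]
  refine Finset.sum_le_sum_of_subset_of_nonneg (fun D hD1 => ?_) (fun _ _ _ => by positivity)
  obtain ⟨m, hm, rfl⟩ := Finset.mem_image.mp hD1
  exact (Finset.mem_filter.mp hm).2

/-- **the `b`-side** -/
theorem b_side {A : ℝ} {ι : Type} (Q : Finset ι) (b : ι → Eis → ℂ) {ka : Eis} {W : ℝ → ℝ}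
    {B0 : ℝ} (hW : HW A B0 Q b ka W) {Δ : ℝ} (hΔ1 : 1 ≤ Δ)
    {s l M g d d' e f δ : Eis} (hs0 : s ≠ 0) (hl : IsPrim l) (hM : M ≠ 0) (hg : IsPrim g)
    (hd : IsPrim d) (he : IsPrim e) (hde : d = e * d') (hf : IsPrim f)
    (hγka : IsCoprime (g * (d * f)) ka) (hδ : δ ∈ pdiv (g * (d * f)))
    (hB0 : (nm e : ℝ) * nm f * Δ ≤ B0) {L : ℝ} (hL : 1 ≤ L) :
    ∑ q ∈ Q, ∑ r ∈ (S Δ).filter (fun r => IsCoprime r ka), ∑ h ∈ bl L,
      EQ A (fun m => b q (g * (d * f) / δ * r * m)) (δ ^ 2 * (s * l * Hf M e h f) * r) ≤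
      W (L * nm (s * l * (M * sq3) ^ 2 * g ^ 2 * e * d' ^ 2)) * (nm δ / nm (g * (d * f))) *
        ∑ r ∈ S Δ, (1 / (nm r : ℝ)) := by
  have hΔ : 0 ≤ Δ := by linarith
  set γ := g * (d * f) with hγd
  have hγ : IsPrim γ := hg.mul (hd.mul hf)
  have hδ' := (mem_pdiv hγ.ne_zero).mp hδ
  have hγδ := div_prim hγ hδ
  have nδ := nmpos hδ'.1.ne_zero
  have nγ := nmpos hγ.ne_zero
  have nγδ := nmpos hγδ.ne_zero
  have eγ : γ = δ * (γ / δ) := by
    obtain ⟨k, hk⟩ := hδ'.2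
    rw [hk, mul_div_cancel_left₀ _ hδ'.1.ne_zero]
  have enm : (nm γ : ℝ) = nm δ * nm (γ / δ) := by
    conv_lhs => rw [eγ, nm_mul]
    push_cast
    rfl
  set x := s * l * (M * sq3) ^ 2 * g ^ 2 * e * d' ^ 2 with hx
  have hd'0 : d' ≠ 0 := by
    rintro rfl
    rw [mul_zero] at hde
    exact hd.ne_zero hde
  have hsq3 : sq3 ≠ 0 := sq3_ne_zero
  have hx0 : x ≠ 0 := by
    rw [hx]
    exact mul_ne_zero (mul_ne_zero (mul_ne_zero (mul_ne_zero (mul_ne_zero hs0 hl.ne_zero)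
      (pow_ne_zero _ (mul_ne_zero hM hsq3))) (pow_ne_zero _ hg.ne_zero)) he.ne_zero)
      (pow_ne_zero _ hd'0)
  have h1 : ∀ r ∈ (S Δ).filter (fun r => IsCoprime r ka), ∑ q ∈ Q, ∑ h ∈ bl L,
      EQ A (fun m => b q (γ / δ * r * m)) (δ ^ 2 * (s * l * Hf M e h f) * r) ≤
      W (L * nm x) * (nm δ / nm γ) * (1 / nm r) := by
    intro r hr
    obtain ⟨hr1, hr2⟩ := Finset.mem_filter.mp hr
    have hrp := ((mem_S hΔ).1 hr1).2.1
    have nr := nmpos hrp.ne_zero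
    have hgam : IsPrim (γ / δ * r) := hγδ.mul hrp
    have hck : IsCoprime (γ / δ * r) ka := by
      refine IsCoprime.mul_left ?_ hr2
      exact hγka.of_isCoprime_of_dvd_left ⟨δ, by rw [mul_comm]; exact eγ⟩
    set phi := δ ^ 2 * (s * l) * (e * (M * sq3)) ^ 2 * f * r with hphi
    have hphi0 : phi ≠ 0 := by
      rw [hphi]
      exact mul_ne_zero (mul_ne_zero (mul_ne_zero (mul_ne_zero (pow_ne_zero _ hδ'.1.ne_zero)
        (mul_ne_zero hs0 hl.ne_zero)) (pow_ne_zero _ (mul_ne_zero he.ne_zero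
        (mul_ne_zero hM hsq3)))) hf.ne_zero) hrp.ne_zero
    have heq : phi * (γ / δ * r) ^ 2 = x * (e * f * r) ^ 3 := by
      have e1 : phi * (γ / δ * r) ^ 2 = s * l * (e * (M * sq3)) ^ 2 * f * r ^ 3 *
          (δ * (γ / δ)) ^ 2 := by rw [hphi]; ring
      rw [e1, ← eγ, hγd, hde, hx]
      ring
    have hCn : (nm (e * f * r) : ℝ) ≤ B0 := by
      refine le_trans ?_ hB0
      rw [nm_mul, nm_mul]
      push_cast
      exact mul_le_mul_of_nonneg_left ((mem_S hΔ).1 hr1).1 (by positivity)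
    have h2 := hW (γ / δ * r) phi x (e * f * r) hgam hck hphi0 hx0
      (mul_ne_zero (mul_ne_zero he.ne_zero hf.ne_zero) hrp.ne_zero) hCn heq L hL
    have e2 : ∑ q ∈ Q, VI A (b q) (γ / δ * r) phi 1 L = ∑ q ∈ Q, ∑ h ∈ bl L,
        EQ A (fun m => b q (γ / δ * r * m)) (δ ^ 2 * (s * l * Hf M e h f) * r) := by
      refine Finset.sum_congr rfl fun q _ => ?_
      unfold VI
      refine Finset.sum_congr rfl fun h _ => ?_
      have e3 : (fun m => if IsCoprime m 1 then b q (γ / δ * r * m) else 0) =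
          fun m => b q (γ / δ * r * m) := by
        funext m
        rw [if_pos isCoprime_one_right]
      rw [e3]
      congr 1
      rw [hphi]
      unfold Hf
      ring
    rw [e2] at h2
    have e4 : (nm (γ / δ * r) : ℝ) = nm (γ / δ) * nm r := by rw [nm_mul]; push_cast; rfl
    rw [e4] at h2
    have e5 : W (L * nm x) * (nm δ / nm γ) * (1 / nm r) = W (L * nm x) / (nm (γ / δ) * nm r) := by
      rw [enm]
      field_simp
    rw [e5, le_div_iff₀ (by positivity)]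
    linarith
  rw [Finset.sum_comm]
  refine (Finset.sum_le_sum h1).trans ?_
  rw [← Finset.mul_sum]
  -- nonnegativity
  by_cases hW0 : 0 ≤ W (L * nm x)
  · refine mul_le_mul_of_nonneg_left ?_ (by positivity)
    exact Finset.sum_le_sum_of_subset_of_nonneg (Finset.filter_subset _ _)
      (fun _ _ _ => by positivity)
  · exfalso
    apply hW0
    -- use `r = 1`
    have h2 := hW (γ / δ) (δ ^ 2 * (s * l) * (e * (M * sq3)) ^ 2 * f) x (e * f) hγδ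
      (hγka.of_isCoprime_of_dvd_left ⟨δ, by rw [mul_comm]; exact eγ⟩)
      (mul_ne_zero (mul_ne_zero (mul_ne_zero (pow_ne_zero _ hδ'.1.ne_zero)
        (mul_ne_zero hs0 hl.ne_zero)) (pow_ne_zero _ (mul_ne_zero he.ne_zero
        (mul_ne_zero hM hsq3)))) hf.ne_zero) hx0 (mul_ne_zero he.ne_zero hf.ne_zero) (by
        refine le_trans ?_ hB0
        rw [nm_mul]
        push_cast
        exact le_mul_of_one_le_right (by positivity) hΔ1) (by
        have e1 : δ ^ 2 * (s * l) * (e * (M * sq3)) ^ 2 * f * (γ / δ) ^ 2 =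
          s * l * (e * (M * sq3)) ^ 2 * f * (δ * (γ / δ)) ^ 2 := by ring
        rw [e1, ← eγ, hγd, hde, hx]
        ring) L hL
    refine le_trans ?_ h2
    refine mul_nonneg (Nat.cast_nonneg _) (Finset.sum_nonneg fun q _ => ?_)
    exact Finset.sum_nonneg fun h _ => EQ_nonneg _ _ _

end Crest.Agent.R017.PoD50
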