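import Crest.Agent.R017.PoD3_50

/-!
# Row 17, block C70: a family `bt D b`, `D ∈ 𝒟`, against one kernel (helper50), part 4

real arithmetic: `blk` .
-/

set_option autoImplicit false

noncomputable section

namespace Crest.Agent.R017.PoD50

open Crest.Agent.R017.PoH347
open Crest.Agent.R017.Mode405 (Slp)

/-- the norm factor of the second form; `θ = K / I ^ 2` -/
def nf2 (Δ θ : ℝ) : ℝ := 1 + Δ * θ ^ (1 / 3 : ℝ) + Δ ^ (2 / 3 : ℝ) * θ ^ (1 / 6 : ℝ)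

lemma nf2_nonneg {Δ θ : ℝ} (hΔ : 0 ≤ Δ) (hθ : 0 ≤ θ) : 0 ≤ nf2 Δ θ := by
  unfold nf2; positivity

lemma one_le_nf2 {Δ θ : ℝ} (hΔ : 0 ≤ Δ) (hθ : 0 ≤ θ) : 1 ≤ nf2 Δ θ := by
  unfold nf2
  have h1 : 0 ≤ Δ * θ ^ (1 / 3 : ℝ) := by positivity
  have h2 : 0 ≤ Δ ^ (2 / 3 : ℝ) * θ ^ (1 / 6 : ℝ) := by positivity
  linarith

lemma rp13 {x : ℝ} (hx : 0 ≤ x) : (x ^ (1 / 3 : ℝ)) ^ 3 = x := by
  rw [← Real.rpow_natCast, ← Real.rpow_mul hx]; norm_num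

lemma rp16 {x : ℝ} (hx : 0 ≤ x) : (x ^ (1 / 6 : ℝ)) ^ 6 = x := by
  rw [← Real.rpow_natCast, ← Real.rpow_mul hx]; norm_num

lemma rp23 {x : ℝ} (hx : 0 ≤ x) : (x ^ (2 / 3 : ℝ)) ^ 6 = x ^ 4 := by
  rw [← Real.rpow_natCast, ← Real.rpow_mul hx, ← Real.rpow_natCast]; norm_num

/-- the minimum absorbs the norm -/
lemma nrm_min {n lm : ℝ} (hn : 0 ≤ n) (hl : 0 < lm) :
    min 1 lm * nrm n (max 1 lm) ≤ nrm n lm := by
  rcases le_total 1 lm with h | h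
  · rw [min_eq_left h, max_eq_right h, one_mul]
  · rw [min_eq_right h, max_eq_left h]
    unfold nrm
    rw [Real.one_rpow, one_mul, mul_one]
    have h1 : lm ≤ lm ^ (1 / 3 : ℝ) := by
      conv_lhs => rw [← Real.rpow_one lm]
      exact Real.rpow_le_rpow_of_exponent_ge hl h (by norm_num)
    have h2 : lm ≤ lm ^ (2 / 3 : ℝ) := by
      conv_lhs => rw [← Real.rpow_one lm]
      exact Real.rpow_le_rpow_of_exponent_ge hl h (by norm_num)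
    rw [Real.mul_rpow hl.le hn]
    have h3 : 0 ≤ n ^ (2 / 3 : ℝ) := by positivity
    nlinarith [mul_le_mul_of_nonneg_right h1 hn, mul_le_mul_of_nonneg_right h2 h3]

lemma pow_le_of {x y : ℝ} {n : ℕ} (hn : n ≠ 0) (hy : 0 ≤ y) (h : x ^ n ≤ y ^ n) : x ≤ y :=
  le_of_pow_le_pow_left₀ hn hy h

/-- **the norm of one block**: `y = N Δ L1 L / X`, `lm = cM E y / D ^ 2`,
`θ = K / I ^ 2 = 3^{-j} L1 / (y ^ 2 G ^ 2)` -/
lemma nrm_blk {X y Δ G L1 D E F δ s cM lm θ : ℝ} (hX : 0 < X) (hy : 0 < y) (hΔ : 0 < Δ)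
    (hG : 1 ≤ G) (hL1 : 1 ≤ L1) (hD : 1 ≤ D) (hE : 1 ≤ E) (hF : 1 ≤ F) (hδ : 1 ≤ δ) (hs : 1 ≤ s)
    (hs9 : s ≤ 9) (hcM : 1 ≤ cM) (hδγ : δ ≤ G * (D * F)) (hDL : D ≤ L1)
    (hlm : lm = cM * E * y / D ^ 2) (hθ : θ = L1 / (s * y ^ 2 * G ^ 2)) :
    X / y * (D / E) ^ 2 * (δ / (G * (D * F))) * nrm (Δ / δ) lm ≤ 9 * cM * (X * nf2 Δ θ) := by
  have hG0 : 0 < G := by linarith
  have hD0 : 0 < D := by linarith
  have hE0 : 0 < E := by linarith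
  have hF0 : 0 < F := by linarith
  have hL10 : 0 < L1 := by linarith
  have hδ0 : 0 < δ := by linarith
  have hs0 : 0 < s := by linarith
  have hc0 : 0 < cM := by linarith
  have hlm0 : 0 < lm := by rw [hlm]; positivity
  have hθ0 : 0 < θ := by rw [hθ]; positivity
  have hGDF : 0 < G * (D * F) := by positivity
  set pre : ℝ := X / y * (D / E) ^ 2 * (δ / (G * (D * F))) with hpre
  have hpre0 : 0 < pre := by rw [hpre]; positivity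
  -- the first term
  have t1 : pre * lm ≤ 9 * cM * X := by
    have e1 : pre * lm = cM * X * (δ / (E * (G * (D * F)))) := by
      rw [hpre, hlm]; field_simp
    rw [e1]
    have h1 : δ / (E * (G * (D * F))) ≤ 1 := by
      rw [div_le_one (by positivity)]
      exact hδγ.trans (le_mul_of_one_le_left hGDF.le hE)
    have h2 : 0 < cM * X := by positivity
    nlinarith
  -- the second term
  have t2 : pre * (Δ / δ * lm ^ (1 / 3 : ℝ)) ≤ 9 * cM * (X * (Δ * θ ^ (1 / 3 : ℝ))) := by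
    refine pow_le_of (n := 3) (by norm_num) (by positivity) ?_
    have e1 : (pre * (Δ / δ * lm ^ (1 / 3 : ℝ))) ^ 3 =
        cM * X ^ 3 * Δ ^ 3 / y ^ 2 * (D / (E ^ 5 * G ^ 3 * F ^ 3)) := by
      have e0 : (pre * (Δ / δ * lm ^ (1 / 3 : ℝ))) ^ 3 =
          pre ^ 3 * (Δ / δ) ^ 3 * (lm ^ (1 / 3 : ℝ)) ^ 3 := by ring
      rw [e0, rp13 hlm0.le, hpre, hlm]
      field_simp
    have e2 : (9 * cM * (X * (Δ * θ ^ (1 / 3 : ℝ)))) ^ 3 =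
        729 * cM ^ 3 * X ^ 3 * Δ ^ 3 / y ^ 2 * (L1 / (s * G ^ 2)) := by
      rw [mul_pow, mul_pow, mul_pow, mul_pow, rp13 hθ0.le, hθ]
      field_simp
      ring
    rw [e1, e2]
    have h1 : D / (E ^ 5 * G ^ 3 * F ^ 3) ≤ 9 * (L1 / (s * G ^ 2)) := by
      rw [div_le_iff₀ (by positivity)]
      have h2 : 1 ≤ E ^ 5 := one_le_pow₀ hE
      have h3 : 1 ≤ F ^ 3 := one_le_pow₀ hF
      have h4 : L1 * (s * G ^ 2) ≤ 9 * L1 * (E ^ 5 * G ^ 3 * F ^ 3) := by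
        have h5 : G ^ 2 ≤ G ^ 3 := pow_le_pow_right₀ hG (by norm_num)
        have h6 : s * G ^ 2 ≤ 9 * G ^ 3 := mul_le_mul hs9 h5 (by positivity) (by norm_num)
        have h7 : G ^ 3 ≤ E ^ 5 * G ^ 3 * F ^ 3 := by
          have h8 : G ^ 3 ≤ E ^ 5 * G ^ 3 := le_mul_of_one_le_left (by positivity) h2
          exact h8.trans (le_mul_of_one_le_right (by positivity) h3)
        nlinarith
      have h9 : 9 * (L1 / (s * G ^ 2)) * (E ^ 5 * G ^ 3 * F ^ 3) =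
          9 * L1 * (E ^ 5 * G ^ 3 * F ^ 3) / (s * G ^ 2) := by ring
      rw [h9, le_div_iff₀ (by positivity)]
      exact (mul_le_mul_of_nonneg_right hDL (by positivity)).trans h4
    have h10 : cM ≤ cM ^ 3 := le_self_pow₀ hcM (by norm_num)
    calc cM * X ^ 3 * Δ ^ 3 / y ^ 2 * (D / (E ^ 5 * G ^ 3 * F ^ 3))
        ≤ cM ^ 3 * X ^ 3 * Δ ^ 3 / y ^ 2 * (9 * (L1 / (s * G ^ 2))) := by gcongr
      _ ≤ 729 * cM ^ 3 * X ^ 3 * Δ ^ 3 / y ^ 2 * (L1 / (s * G ^ 2)) := by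
          have h11 : 0 ≤ cM ^ 3 * X ^ 3 * Δ ^ 3 / y ^ 2 * (L1 / (s * G ^ 2)) := by positivity
          have e3 : cM ^ 3 * X ^ 3 * Δ ^ 3 / y ^ 2 * (9 * (L1 / (s * G ^ 2))) =
            9 * (cM ^ 3 * X ^ 3 * Δ ^ 3 / y ^ 2 * (L1 / (s * G ^ 2))) := by ring
          have e4 : 729 * cM ^ 3 * X ^ 3 * Δ ^ 3 / y ^ 2 * (L1 / (s * G ^ 2)) =
            729 * (cM ^ 3 * X ^ 3 * Δ ^ 3 / y ^ 2 * (L1 / (s * G ^ 2))) := by ring
          rw [e3, e4]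
          linarith
  -- the third term
  have t3 : pre * (lm * (Δ / δ)) ^ (2 / 3 : ℝ) ≤
      9 * cM * (X * (Δ ^ (2 / 3 : ℝ) * θ ^ (1 / 6 : ℝ))) := by
    refine pow_le_of (n := 6) (by norm_num) (by positivity) ?_
    have e1 : (pre * (lm * (Δ / δ)) ^ (2 / 3 : ℝ)) ^ 6 =
        cM ^ 4 * X ^ 6 * Δ ^ 4 / y ^ 2 * (D ^ 4 * δ ^ 2 / (E ^ 8 * (G * (D * F)) ^ 6)) := by
      rw [mul_pow, rp23 (by positivity), hpre, hlm]
      field_simp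
    have e2 : (9 * cM * (X * (Δ ^ (2 / 3 : ℝ) * θ ^ (1 / 6 : ℝ)))) ^ 6 =
        531441 * cM ^ 6 * X ^ 6 * Δ ^ 4 / y ^ 2 * (L1 / (s * G ^ 2)) := by
      rw [mul_pow, mul_pow, mul_pow, mul_pow, rp16 hθ0.le, rp23 hΔ.le, hθ]
      field_simp
      ring
    rw [e1, e2]
    have h1 : D ^ 4 * δ ^ 2 / (E ^ 8 * (G * (D * F)) ^ 6) ≤ 9 * (L1 / (s * G ^ 2)) := by
      have h2 : D ^ 4 * δ ^ 2 / (E ^ 8 * (G * (D * F)) ^ 6) ≤ 1 / G ^ 4 := by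
        rw [div_le_div_iff₀ (by positivity) (by positivity), one_mul]
        have h3 : 1 ≤ E ^ 8 := one_le_pow₀ hE
        have h4 : 1 ≤ F ^ 4 := one_le_pow₀ hF
        have h5 : δ ^ 2 ≤ (G * (D * F)) ^ 2 := pow_le_pow_left₀ hδ0.le hδγ 2
        calc D ^ 4 * δ ^ 2 * G ^ 4 ≤ D ^ 4 * (G * (D * F)) ^ 2 * G ^ 4 := by gcongr
          _ ≤ (D ^ 4 * (G * (D * F)) ^ 2 * G ^ 4) * F ^ 4 :=
              le_mul_of_one_le_right (by positivity) h4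
          _ = (G * (D * F)) ^ 6 := by ring
          _ ≤ E ^ 8 * (G * (D * F)) ^ 6 := le_mul_of_one_le_left (by positivity) h3
      refine h2.trans ?_
      have e5 : 9 * (L1 / (s * G ^ 2)) = 9 * L1 / (s * G ^ 2) := by ring
      rw [e5, div_le_div_iff₀ (by positivity) (by positivity), one_mul]
      have h6 : G ^ 2 ≤ G ^ 4 := pow_le_pow_right₀ hG (by norm_num)
      have h7 : s * G ^ 2 ≤ 9 * G ^ 4 := mul_le_mul hs9 h6 (by positivity) (by norm_num)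
      nlinarith [mul_le_mul_of_nonneg_left hL1 (by positivity : (0 : ℝ) ≤ 9 * G ^ 4)]
    have h10 : cM ^ 4 ≤ cM ^ 6 := pow_le_pow_right₀ hcM (by norm_num)
    calc cM ^ 4 * X ^ 6 * Δ ^ 4 / y ^ 2 * (D ^ 4 * δ ^ 2 / (E ^ 8 * (G * (D * F)) ^ 6))
        ≤ cM ^ 6 * X ^ 6 * Δ ^ 4 / y ^ 2 * (9 * (L1 / (s * G ^ 2))) := by gcongr
      _ ≤ 531441 * cM ^ 6 * X ^ 6 * Δ ^ 4 / y ^ 2 * (L1 / (s * G ^ 2)) := by
          have h11 : 0 ≤ cM ^ 6 * X ^ 6 * Δ ^ 4 / y ^ 2 * (L1 / (s * G ^ 2)) := by positivity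
          have e3 : cM ^ 6 * X ^ 6 * Δ ^ 4 / y ^ 2 * (9 * (L1 / (s * G ^ 2))) =
            9 * (cM ^ 6 * X ^ 6 * Δ ^ 4 / y ^ 2 * (L1 / (s * G ^ 2))) := by ring
          have e4 : 531441 * cM ^ 6 * X ^ 6 * Δ ^ 4 / y ^ 2 * (L1 / (s * G ^ 2)) =
            531441 * (cM ^ 6 * X ^ 6 * Δ ^ 4 / y ^ 2 * (L1 / (s * G ^ 2))) := by ring
          rw [e3, e4]
          linarith
  unfold nrm nf2
  calc pre * (lm + Δ / δ * lm ^ (1 / 3 : ℝ) + (lm * (Δ / δ)) ^ (2 / 3 : ℝ))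
      = pre * lm + pre * (Δ / δ * lm ^ (1 / 3 : ℝ)) + pre * (lm * (Δ / δ)) ^ (2 / 3 : ℝ) := by ring
    _ ≤ 9 * cM * X + 9 * cM * (X * (Δ * θ ^ (1 / 3 : ℝ))) +
        9 * cM * (X * (Δ ^ (2 / 3 : ℝ) * θ ^ (1 / 6 : ℝ))) := add_le_add (add_le_add t1 t2) t3
    _ = _ := by ring

/-- **one block**, with the slopes of `W` -/
lemma blk {a B : ℕ} (hB : a + 1 ≤ 2 * B) {W : ℝ → ℝ} (hW : Slp a W)
    {X y Δ G L1 D E F δ s cM lm θ nx P0 : ℝ} (hX : 0 < X) (hy : 0 < y)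
    (hΔ : 0 < Δ) (hG : 1 ≤ G) (hL1 : 1 ≤ L1) (hD : 1 ≤ D) (hE : 1 ≤ E) (hF : 1 ≤ F) (hδ : 1 ≤ δ)
    (hs : 1 ≤ s) (hs9 : s ≤ 9) (hcM : 1 ≤ cM) (hδγ : δ ≤ G * (D * F)) (hDL : D ≤ L1)
    (hlm : lm = cM * E * y / D ^ 2) (hθ : θ = L1 / (s * y ^ 2 * G ^ 2)) (hnx : 0 < nx)
    (hP0 : lm * nx ≤ P0) :
    X / y * (D / E) ^ 2 * ((min 1 lm) ^ B) ^ 2 * nrm (Δ / δ) (max 1 lm) *
      (W (max 1 lm * nx) * (δ / (G * (D * F)))) ≤
      2 ^ a * (9 * cM) * (X * nf2 Δ θ * W P0) := by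
  have hG0 : 0 < G := by linarith
  have hD0 : 0 < D := by linarith
  have hE0 : 0 < E := by linarith
  have hF0 : 0 < F := by linarith
  have hδ0 : 0 < δ := by linarith
  have hc0 : 0 < cM := by linarith
  have hlm0 : 0 < lm := by rw [hlm]; positivity
  set m := min 1 lm with hm
  set Λ := max 1 lm with hΛ
  have hm0 : 0 < m := lt_min one_pos hlm0
  have hm1 : m ≤ 1 := min_le_left _ _
  have hΛ1 : 1 ≤ Λ := le_max_left _ _
  have hml : lm = m * Λ := by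
    rcases le_total 1 lm with h | h
    · rw [hm, hΛ, min_eq_left h, max_eq_right h, one_mul]
    · rw [hm, hΛ, min_eq_right h, max_eq_left h, mul_one]
  have hP00 : 0 < P0 := lt_of_lt_of_le (by positivity) hP0
  have hWP : 0 ≤ W P0 := hW.nonneg P0 hP00
  have h1 : W (Λ * nx) ≤ (2 * m⁻¹) ^ a * W P0 := by
    have e1 : Λ * nx = m⁻¹ * (lm * nx) := by rw [hml]; field_simp
    rw [e1]
    refine (slp_up hW (by positivity) ((one_le_inv₀ hm0).mpr hm1)).trans ?_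
    exact mul_le_mul_of_nonneg_left (slp_mono hW (by positivity) hP0) (by positivity)
  have h2 : (m ^ B) ^ 2 * (2 * m⁻¹) ^ a ≤ 2 ^ a * m := by
    rw [← pow_mul, mul_pow, inv_pow]
    have h3 : m ^ (B * 2) * (m ^ a)⁻¹ ≤ m := by
      rw [← div_eq_mul_inv, div_le_iff₀ (by positivity)]
      calc m ^ (B * 2) ≤ m ^ (a + 1) := pow_le_pow_of_le_one hm0.le hm1 (by omega)
        _ = m * m ^ a := by rw [pow_succ]; ring
    calc m ^ (B * 2) * (2 ^ a * (m ^ a)⁻¹) = 2 ^ a * (m ^ (B * 2) * (m ^ a)⁻¹) := by ring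
      _ ≤ 2 ^ a * m := mul_le_mul_of_nonneg_left h3 (by positivity)
  have hn0 : 0 ≤ nrm (Δ / δ) Λ := nrm_nonneg (by positivity) (by linarith)
  have h4 := nrm_min (n := Δ / δ) (by positivity) hlm0
  have h5 := nrm_blk hX hy hΔ hG hL1 hD hE hF hδ hs hs9 hcM hδγ hDL hlm hθ
  have hpre : 0 ≤ X / y * (D / E) ^ 2 := by positivity
  have hq : 0 ≤ δ / (G * (D * F)) := by positivity
  calc X / y * (D / E) ^ 2 * (m ^ B) ^ 2 * nrm (Δ / δ) Λ * (W (Λ * nx) * (δ / (G * (D * F))))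
      ≤ X / y * (D / E) ^ 2 * (m ^ B) ^ 2 * nrm (Δ / δ) Λ *
        ((2 * m⁻¹) ^ a * W P0 * (δ / (G * (D * F)))) := by gcongr
    _ = X / y * (D / E) ^ 2 * ((m ^ B) ^ 2 * (2 * m⁻¹) ^ a) * nrm (Δ / δ) Λ *
        (W P0 * (δ / (G * (D * F)))) := by ring
    _ ≤ X / y * (D / E) ^ 2 * (2 ^ a * m) * nrm (Δ / δ) Λ *
        (W P0 * (δ / (G * (D * F)))) := by gcongr
    _ = 2 ^ a * W P0 * (X / y * (D / E) ^ 2 * (δ / (G * (D * F))) * (m * nrm (Δ / δ) Λ)) := by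
        ring
    _ ≤ 2 ^ a * W P0 * (X / y * (D / E) ^ 2 * (δ / (G * (D * F))) * nrm (Δ / δ) lm) := by
        gcongr
    _ ≤ 2 ^ a * W P0 * (9 * cM * (X * nf2 Δ θ)) := by gcongr
    _ = _ := by ring

end Crest.Agent.R017.PoD50
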