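import Crest.Agent.R017.PoD4_50
import Crest.Agent.R017.PoH10_347
import Crest.Agent.R017.PoH13_347

/-!
# Row 17, block C70: a family `bt D b`, `D ∈ 𝒟`, against one kernel (helper50), part 5

`modes_fam` : the total weight of the modes of a finite family; `lin_Sh`, `bg_supp`.
-/

set_option autoImplicit false

noncomputable section

open Complex MeasureTheory
open scoped ComplexConjugate Classical

namespace Crest.Agent.R017.PoD50

open Crest.Agent.R012 Crest.Agent.R012.Eis Crest.Agent.R012.MC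
open Crest.Agent.R012.LS2 (S mem_S bl mem_bl)
open Crest.Agent.R012.Mob705 (mu pdiv mem_pdiv abs_mu_le_one sum_mu_coprime)
open Crest.Agent.R012.Tau671 (norm_sy_le)
open Crest.Agent.R012.NonCube52 (Ker kv Good nm_kv)
open Crest.Agent.R012.Weight600 (osc pw norm_osc)
open Crest.Agent.R017.PX764 (Gh)
open Crest.Agent.R017.CM106 (CS TG norm_Gsy_le)
open Crest.Agent.R017.E1551 (nmpos jb jb_pos integrable_jb integrable_jb_mul nm_ge_one)
open Crest.Agent.R017.BD829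
open Crest.Agent.R017.PoH347
open Crest.Agent.R017.Mode405 (VI Slp)
open Crest.Agent.R017.E3D579 (bt)
open Crest.Agent.R017.StA828 (gp gp_spec gp_eq)
open Gauss880 (syG)

lemma bg_supp {Y : ℝ} (hY : 0 ≤ Y) {b : Eis → ℂ} (hb : ∀ n, b n ≠ 0 → n ∈ S Y) {g l : Eis}
    (hg : IsPrim g) (hl : IsPrim l) (hls : Squarefree l) (n : Eis) (h : bg b g l n ≠ 0) :
    n ∈ S (nm l * Y) := by
  obtain ⟨m, rfl, hc, hn⟩ := exists_of_bg hl.ne_zero h
  have h1 := (mem_S hY).1 (hb _ hn)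
  have hm : IsPrim m := h1.2.1.of_mul_left hg
  rw [mem_S (by positivity)]
  refine ⟨?_, hl.mul hm, squarefree_mul_iff.mpr ⟨(hc.of_mul_right_right).symm.isRelPrime, hls,
    h1.2.2.of_mul_right⟩⟩
  rw [nm_mul]
  push_cast
  refine mul_le_mul_of_nonneg_left ?_ (Nat.cast_nonneg _)
  refine le_trans ?_ h1.1
  rw [nm_mul]
  push_cast
  exact le_mul_of_one_le_left (Nat.cast_nonneg _) (nm_ge_one hg.ne_zero)

lemma bg_BB (𝒟 : Finset Eis) (c b : Eis → ℂ) (g l n : Eis) :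
    bg (BB 𝒟 c b) g l n = ∑ D ∈ 𝒟, c D * bg (bt D b) g l n := by
  unfold bg BB
  split_ifs
  · rfl
  · simp

/-- linearity -/
lemma Sh_BB {v : ℝ → ℝ} (hv : Wgt v) {X : ℝ} (hX : 0 < X) {Y : ℝ} (ψ : Eis → ℂ) (𝒟 : Finset Eis)
    (c b : Eis → ℂ) {g l h : Eis} (hs : ∀ D ∈ 𝒟, ∀ n, bg (bt D b) g l n ≠ 0 → n ∈ S Y)
    (hh : h ∈ S Y) :
    Sh v X ψ (bg (BB 𝒟 c b) g l) h = ∑ D ∈ 𝒟, c D * Sh v X ψ (bg (bt D b) g l) h := by
  have hs2 : ∀ n, bg (BB 𝒟 c b) g l n ≠ 0 → n ∈ S Y := by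
    intro n hn
    rw [bg_BB] at hn
    obtain ⟨D, hD, h1⟩ := Finset.exists_ne_zero_of_sum_ne_zero hn
    exact hs D hD n (right_ne_zero_of_mul h1)
  rw [Sh_fin hv hX hs2 hh]
  have e1 : ∀ D ∈ 𝒟, c D * Sh v X ψ (bg (bt D b) g l) h =
      ∑ n ∈ S Y, c D * (bg (bt D b) g l n * PkT v X ψ n h) := by
    intro D hD
    rw [Sh_fin hv hX (hs D hD) hh, Finset.mul_sum]
  rw [Finset.sum_congr rfl e1, Finset.sum_comm]
  refine Finset.sum_congr rfl fun n _ => ?_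
  rw [bg_BB, Finset.sum_mul]
  exact Finset.sum_congr rfl fun D _ => by ring

/-- duality -/
lemma Sh_dual {v : ℝ → ℝ} (hv : Wgt v) {X : ℝ} (hX : 0 < X) {Y : ℝ} (ψ : Eis → ℂ)
    (𝒟 : Finset Eis) (b : Eis → ℂ) {g l h : Eis}
    (hs : ∀ D ∈ 𝒟, ∀ n, bg (bt D b) g l n ≠ 0 → n ∈ S Y) (hh : h ∈ S Y) :
    Sh v X ψ (bg (BB 𝒟 (fun D => conj (Sh v X ψ (bg (bt D b) g l) h)) b) g l) h =
      ((∑ D ∈ 𝒟, ‖Sh v X ψ (bg (bt D b) g l) h‖ ^ 2 : ℝ) : ℂ) := by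
  rw [Sh_BB hv hX ψ 𝒟 _ b hs hh]
  push_cast
  refine Finset.sum_congr rfl fun D _ => ?_
  rw [← Complex.normSq_eq_conj_mul_self, Complex.normSq_eq_norm_sq]
  push_cast
  rfl

lemma WB_anti {M : Eis} (hM : M ≠ 0) {K K' N₁ N₂ : ℝ} (hK : 0 < K) (hKK : K ≤ K') (h₁ : 0 < N₁)
    (h₂ : 0 < N₂) (B : ℕ) {d e : Eis} (hd : d ≠ 0) (he : e ≠ 0) (h : Eis) :
    WB M K' N₁ N₂ B d e h ≤ WB M K N₁ N₂ B d e h := by
  have n1 := nmpos hM
  have n2 := nmpos hd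
  have n3 := nmpos he
  unfold WB
  refine inv_anti₀ (by positivity) ?_
  refine pow_le_pow_left₀ (by positivity) ?_ B
  gcongr

/-- **the modes of a finite family** -/
theorem modes_fam {A B a : ℕ} (hA : 1 < A) (hB : a + 1 ≤ B) (hB1 : 1 < B) {M : Eis} {ψ : Eis → ℂ}
    (hψ : LC M ψ) {X N₁ N₂ Y : ℝ} (hX : 0 < X) (h₁ : 0 < N₁) (h₂ : 0 < N₂) (hY : 0 ≤ Y)
    {ι : Type*} (Q : Finset ι) (Xq : ι → ℝ) (hXq : ∀ q ∈ Q, X ≤ Xq q) (u : ι → Eis → ℂ)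
    (v : Eis → ℂ) (hu : ∀ q ∈ Q, ∀ n, u q n ≠ 0 → n ∈ S Y) (hv : ∀ n, v n ≠ 0 → n ∈ S Y)
    {d e : Eis} (hd : IsPrim d) (he : IsPrim e) {G : ℝ → ℝ}
    (hG : ∀ L, 1 ≤ L → ∑ h ∈ bl L, ∑ q ∈ Q, ∑ f ∈ S Y,
      EE A (rs (u q) ψ d f) (rs v (fun m => conj (ψ m)) d f) (Hf M e h f) ≤ G L)
    (hG2 : ∀ L, 1 ≤ L → G (2 * L) ≤ 2 ^ a * G L) :
    ∑ q ∈ Q, ModeS A B M ψ (Xq q) N₁ N₂ Y (u q) v d e ≤ (1 + 2 ^ (a + 1)) *
      ((min 1 (lmB M X N₁ N₂ d e)) ^ B * G (max 1 (lmB M X N₁ N₂ d e))) := by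
  have nM := nmpos hψ.ne
  have nd := nmpos hd.ne_zero
  have ne := nmpos he.ne_zero
  have hl : 0 < lmB M X N₁ N₂ d e := by unfold lmB; positivity
  have h1 : ∀ q ∈ Q, ModeS A B M ψ (Xq q) N₁ N₂ Y (u q) v d e ≤
      ∑' h : Eis, (if h = 0 then 0 else Wl B (lmB M X N₁ N₂ d e) h * ∑ f ∈ S Y,
        EE A (rs (u q) ψ d f) (rs v (fun m => conj (ψ m)) d f) (Hf M e h f)) := by
    intro q hq
    have hXq0 : 0 < Xq q := hX.trans_le (hXq q hq)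
    unfold ModeS
    have s1 := summable_ModeS hA hB1 hψ hXq0 h₁ h₂ hY (hu q hq) hv hd he.ne_zero
    have s2 := summable_ModeS hA hB1 hψ hX h₁ h₂ hY (hu q hq) hv hd he.ne_zero
    simp_rw [← WB_eq_Wl]
    refine s1.tsum_le_tsum (fun h => ?_) s2
    split_ifs
    · exact le_rfl
    · exact mul_le_mul_of_nonneg_right (WB_anti hψ.ne hX (hXq q hq) h₁ h₂ B hd.ne_zero
        he.ne_zero h) (Finset.sum_nonneg fun _ _ => EE_nonneg _ _ _ _)
  refine (Finset.sum_le_sum h1).trans ?_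
  rw [← Summable.tsum_finsetSum]
  · have e1 : ∀ h : Eis, ∑ q ∈ Q, (if h = 0 then 0 else Wl B (lmB M X N₁ N₂ d e) h * ∑ f ∈ S Y,
        EE A (rs (u q) ψ d f) (rs v (fun m => conj (ψ m)) d f) (Hf M e h f)) =
        if h = 0 then 0 else Wl B (lmB M X N₁ N₂ d e) h * ∑ q ∈ Q, ∑ f ∈ S Y,
        EE A (rs (u q) ψ d f) (rs v (fun m => conj (ψ m)) d f) (Hf M e h f) := by
      intro h
      split_ifs
      · simp
      · rw [Finset.mul_sum]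
    simp_rw [e1]
    exact tsum_W_le (F := fun h => ∑ q ∈ Q, ∑ f ∈ S Y,
        EE A (rs (u q) ψ d f) (rs v (fun m => conj (ψ m)) d f) (Hf M e h f))
      (fun h => Finset.sum_nonneg fun _ _ => Finset.sum_nonneg fun _ _ => EE_nonneg _ _ _ _)
      hB hG hG2 hl
  · intro q hq
    have s2 := summable_ModeS hA hB1 hψ hX h₁ h₂ hY (hu q hq) hv hd he.ne_zero
    simp_rw [WB_eq_Wl] at s2
    exact s2

/-- the number of the tuples -/
lemma count_le {Y T : ℝ} (hY : 0 ≤ Y) (hT : ∀ n ∈ S Y, (Div277.tau n : ℝ) ≤ T) {g l₁ : Eis}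
    (hl₁ : l₁ ∈ S Y) (hg : IsPrim g) (hgl : g * l₁ ∈ S Y) :
    ∑ d ∈ S Y, ∑ _e ∈ pdiv d, ∑ f ∈ (S Y).filter (fun f => d * f ∣ l₁),
      ∑ _δ ∈ pdiv (g * (d * f)), (1 : ℝ) ≤ T ^ 4 := by
  have hl1' := (mem_S hY).1 hl₁
  have hT0 : 0 ≤ T := (Nat.cast_nonneg _).trans (hT _ hl₁)
  have h1 : ∀ d ∈ S Y, ∑ _e ∈ pdiv d, ∑ f ∈ (S Y).filter (fun f => d * f ∣ l₁),
      ∑ _δ ∈ pdiv (g * (d * f)), (1 : ℝ) ≤ if d ∣ l₁ then T ^ 3 else 0 := by
    intro d hd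
    have hd' := (mem_S hY).1 hd
    by_cases hdl : d ∣ l₁
    · rw [if_pos hdl]
      have h2 : ∀ f ∈ (S Y).filter (fun f => d * f ∣ l₁),
          ∑ _δ ∈ pdiv (g * (d * f)), (1 : ℝ) ≤ T := by
        intro f hf
        obtain ⟨hf1, hf2⟩ := Finset.mem_filter.mp hf
        have hf' := (mem_S hY).1 hf1
        rw [Finset.sum_const, nsmul_eq_mul, mul_one]
        exact hT _ (Dual2813.S_of_dvd hY hgl (hg.mul (hd'.2.1.mul hf'.2.1))
          (mul_dvd_mul_left g hf2))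
      have h3 : (((S Y).filter (fun f => d * f ∣ l₁)).card : ℝ) ≤ T := by
        refine le_trans ?_ (hT _ hl₁)
        unfold Div277.tau
        norm_cast
        refine Finset.card_le_card fun f hf => ?_
        obtain ⟨hf1, hf2⟩ := Finset.mem_filter.mp hf
        exact (Div277.mem_dvs hl1'.2.1.ne_zero).mpr ⟨((mem_S hY).1 hf1).2.1,
          (dvd_mul_left f d).trans hf2⟩
      have h4 : ((pdiv d).card : ℝ) ≤ T := hT d hd
      calc ∑ _e ∈ pdiv d, ∑ f ∈ (S Y).filter (fun f => d * f ∣ l₁),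
            ∑ _δ ∈ pdiv (g * (d * f)), (1 : ℝ)
          ≤ ∑ _e ∈ pdiv d, ∑ _f ∈ (S Y).filter (fun f => d * f ∣ l₁), T :=
            Finset.sum_le_sum fun _ _ => Finset.sum_le_sum h2
        _ = ((pdiv d).card : ℝ) * ((((S Y).filter (fun f => d * f ∣ l₁)).card : ℝ) * T) := by
            rw [Finset.sum_const, Finset.sum_const, nsmul_eq_mul, nsmul_eq_mul]
        _ ≤ T * (T * T) := by gcongr
        _ = T ^ 3 := by ring
    · rw [if_neg hdl]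
      refine le_of_eq (Finset.sum_eq_zero fun e _ => ?_)
      rw [Finset.filter_false_of_mem (fun f _ h => hdl ((dvd_mul_right d f).trans h)),
        Finset.sum_empty]
  refine (Finset.sum_le_sum h1).trans ?_
  rw [← Finset.sum_filter, Finset.sum_const, nsmul_eq_mul]
  have h5 : (((S Y).filter (fun d => d ∣ l₁)).card : ℝ) ≤ T := by
    refine le_trans ?_ (hT _ hl₁)
    unfold Div277.tau
    norm_cast
    refine Finset.card_le_card fun f hf => ?_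
    obtain ⟨hf1, hf2⟩ := Finset.mem_filter.mp hf
    exact (Div277.mem_dvs hl1'.2.1.ne_zero).mpr ⟨((mem_S hY).1 hf1).2.1, hf2⟩
  calc (((S Y).filter (fun d => d ∣ l₁)).card : ℝ) * T ^ 3 ≤ T * T ^ 3 := by gcongr
    _ = _ := by ring

end Crest.Agent.R017.PoD50
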