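import Crest.Agent.R017.PoD5_50

/-!
# Row 17, block C70: a family `bt D b`, `D ∈ 𝒟`, against one kernel (helper50), part 6

`one_block` : the second form for one kernel and one divisor `g` of its square part.
-/

set_option autoImplicit false

noncomputable section

open Complex MeasureTheory
open scoped ComplexConjugate Classical

namespace Crest.Agent.R017.PoD50

open Crest.Agent.R012 Crest.Agent.R012.Eis Crest.Agent.R012.MC
open Crest.Agent.R012.LS2 (S mem_S bl mem_bl)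
open Crest.Agent.R012.Mob705 (mu pdiv mem_pdiv abs_mu_le_one sum_mu_coprime)
open Crest.Agent.R012.Tau671 (norm_sy_le)
open Crest.Agent.R012.NonCube52 (Ker kv Good nm_kv)
open Crest.Agent.R012.Weight600 (osc pw norm_osc)
open Crest.Agent.R017.PX764 (Gh)
open Crest.Agent.R017.CM106 (CS TG norm_Gsy_le)
open Crest.Agent.R017.E1551 (nmpos jb jb_pos integrable_jb integrable_jb_mul nm_ge_one)
open Crest.Agent.R017.BD829
open Crest.Agent.R017.PoH347
open Crest.Agent.R017.Mode405 (VI Slp)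
open Crest.Agent.R017.E3D579 (bt)
open Crest.Agent.R017.StA828 (gp gp_spec gp_eq)
open Gauss880 (syG)

/-- the families -/
structure DFam (R Z N Δ : ℝ) (ka : Eis) {ι : Type} (Q : Finset ι) (b : ι → Eis → ℂ)
    (𝒟 : ι → Finset Eis) : Prop where
  supp : ∀ q ∈ Q, ∀ n, b q n ≠ 0 → n ∈ S Z
  win : ∀ q ∈ Q, Win (b q) (Real.log N) R
  sub : ∀ q ∈ Q, 𝒟 q ⊆ S Δ
  low : ∀ q ∈ Q, ∀ D ∈ 𝒟 q, Δ ≤ 4 * nm D
  cop : ∀ q ∈ Q, ∀ D ∈ 𝒟 q, IsCoprime D ka

/-- the window of the dilated sequences -/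
lemma win_bg {R Z N Δ : ℝ} (hZ : 0 ≤ Z) (hN : 0 < N) (hΔ : 1 ≤ Δ) {ka : Eis}
    {ι : Type} {Q : Finset ι} {b : ι → Eis → ℂ} {𝒟 : ι → Finset Eis}
    (hF : DFam R Z N Δ ka Q b 𝒟) {q : ι} (hq : q ∈ Q) (c : Eis → ℂ) {g l : Eis}
    (hg : IsPrim g) (hl : IsPrim l) :
    Win (bg (BB (𝒟 q) c (b q)) g l) (Real.log (N * Δ * nm l / nm g)) (R + 3) := by
  have hΔ0 : 0 ≤ Δ := by linarith
  have ng := nmpos hg.ne_zero
  have nl := nmpos hl.ne_zero
  intro m hm
  obtain ⟨n, rfl, hc, hn⟩ := exists_of_bg hl.ne_zero hm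
  obtain ⟨D, hD, h1⟩ := Finset.exists_ne_zero_of_sum_ne_zero hn
  have hDS := (mem_S hΔ0).1 (hF.sub q hq hD)
  have hDp := hDS.2.1
  obtain ⟨k, hk, hbk, hsk⟩ := exists_of_bt hDp.ne_zero (right_ne_zero_of_mul h1)
  have hk' := (mem_S hZ).1 (hF.supp q hq _ hbk)
  have nk := nmpos hk'.2.1.ne_zero
  have nD := nmpos hDp.ne_zero
  have hnp : IsPrim n := by
    have : IsPrim (g * n) := by rw [hk]; exact hDp.mul hk'.2.1
    exact this.of_mul_left hg
  have nn := nmpos hnp.ne_zero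
  have hw := hF.win q hq k hbk
  have hlow := hF.low q hq D hD
  have e1 : (nm g : ℝ) * nm n = nm D * nm k := by
    have := congrArg (fun z : Eis => (nm z : ℝ)) hk
    beta_reduce at this
    rw [nm_mul, nm_mul] at this
    push_cast at this
    exact this
  have e2 : Real.log (nm (l * n)) - Real.log (N * Δ * nm l / nm g) =
      (Real.log (nm k) - Real.log N) + (Real.log (nm D) - Real.log Δ) := by
    have h2 : Real.log (nm g) + Real.log (nm n) = Real.log (nm D) + Real.log (nm k) := by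
      rw [← Real.log_mul ng.ne' nn.ne', ← Real.log_mul nD.ne' nk.ne', e1]
    rw [nm_mul]
    push_cast
    rw [Real.log_mul nl.ne' nn.ne', Real.log_div (by positivity) ng.ne',
      Real.log_mul (by positivity) nl.ne', Real.log_mul hN.ne' (by linarith)]
    linarith
  rw [e2]
  have h3 : Real.log (nm D) ≤ Real.log Δ := Real.log_le_log nD hDS.1
  have h4 : Real.log Δ ≤ Real.log 4 + Real.log (nm D) := by
    rw [← Real.log_mul (by norm_num) nD.ne']
    exact Real.log_le_log (by linarith) hlow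
  have h5 : Real.log 4 ≤ 3 / 2 := by
    have : Real.log 4 = 2 * Real.log 2 := by
      rw [show (4 : ℝ) = 2 ^ 2 by norm_num, Real.log_pow]; norm_num
    rw [this]
    linarith [Real.log_two_lt_d9]
  rw [abs_le] at hw ⊢
  constructor <;> linarith [hw.1, hw.2]

/-- the main term vanishes -/
lemma main_zero {R Z N Δ : ℝ} (hR : 0 ≤ R) (hZ : 0 ≤ Z) (hN : 0 < N) (hΔ : 1 ≤ Δ) {ka : Eis}
    {ι : Type} {Q : Finset ι} {b : ι → Eis → ℂ} {𝒟 : ι → Finset Eis}
    (hF : DFam R Z N Δ ka Q b 𝒟) {q : ι} (hq : q ∈ Q) (c : Eis → ℂ) {g l l₁ : Eis}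
    (hg : IsPrim g) (hl : IsPrim l) (hl₁ : IsPrim l₁) (hcl : IsCoprime (g * l₁) l)
    (hN1 : (nm l₁ : ℝ) * Real.exp (R + 3) < N * Δ) :
    bg (BB (𝒟 q) c (b q)) g l (g * l₁) = 0 := by
  have hΔ0 : 0 ≤ Δ := by linarith
  by_contra hne
  have hwin := win_bg hZ hN hΔ hF hq c hg hl _ hne
  obtain ⟨n, hn1, hn2, hn3⟩ := exists_of_bg hl.ne_zero hne
  have hlu : l = 1 := by
    have h7 : l ∣ g * l₁ := ⟨n, hn1⟩
    have h6 : IsUnit l := (hcl.symm.of_isCoprime_of_dvd_right h7 :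
      IsCoprime l l).isUnit_of_dvd' dvd_rfl dvd_rfl
    exact hl.eq_of_associated isPrim_one (associated_one_iff_isUnit.mpr h6)
  have hg1 : g = 1 := by
    have h7 : g ∣ l * n := ⟨l₁, hn1.symm⟩
    rw [hlu, one_mul] at h7
    have h8 : IsCoprime n g := hn2.of_mul_right_left
    have h6 : IsUnit g := (h8.symm.of_isCoprime_of_dvd_right h7 : IsCoprime g g).isUnit_of_dvd'
      dvd_rfl dvd_rfl
    exact hg.eq_of_associated isPrim_one (associated_one_iff_isUnit.mpr h6)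
  have nl := nmpos hl₁.ne_zero
  rw [hg1, hlu, one_mul, nm_one] at hwin
  have e1 : N * Δ * ((1 : ℕ) : ℝ) / ((1 : ℕ) : ℝ) = N * Δ := by push_cast; ring
  rw [e1] at hwin
  have h2 := (abs_le.mp hwin).1
  have h3 := Real.log_lt_log (by positivity) hN1
  rw [Real.log_mul nl.ne' (Real.exp_pos _).ne', Real.log_exp] at h3
  linarith

/-- the constant of the natural range -/
def cst (U : ℝ) : ℝ := 192 * U * (U * (3 * U) ^ 2)

lemma S_mono {x y : ℝ} (hx : 0 ≤ x) (h : x ≤ y) : S x ⊆ S y := by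
  intro n hn
  rw [mem_S hx] at hn
  rw [mem_S (hx.trans h)]
  exact ⟨hn.1.trans h, hn.2⟩

/-- the arithmetic of one tuple -/
lemma tuple_arith {k0 r m n V Qt W2 : ℝ} (hk : 0 < k0) (hr : 0 < r) (hm : 0 < m) (hn : 0 < n)
    (hV : 0 < V) :
    k0 * (r * (m * ((2 * n * k0 * r * m * V)⁻¹ * (V * Qt) +
      ((2 * n * k0 * r * m * V)⁻¹)⁻¹ * W2))) =
      Qt / (2 * n) + 2 * n * (k0 * r * m) ^ 2 * V * W2 := by
  rw [inv_inv]
  field_simp

end Crest.Agent.R017.PoD50
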