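import Crest.Agent.R017.PoD6_50

/-!
# Row 17, block C70: a family `bt D b`, `D ∈ 𝒟`, against one kernel (helper50), part 7

`mode_de` : the total weight of the modes of the family at one pair `(d, e)`.
-/

set_option autoImplicit false

noncomputable section

open Complex MeasureTheory
open scoped ComplexConjugate Classical

namespace Crest.Agent.R017.PoD50

open Crest.Agent.R012 Crest.Agent.R012.Eis Crest.Agent.R012.MC
open Crest.Agent.R012.LS2 (S mem_S bl mem_bl)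
open Crest.Agent.R012.Mob705 (mu pdiv mem_pdiv abs_mu_le_one sum_mu_coprime)
open Crest.Agent.R012.Tau671 (norm_sy_le)
open Crest.Agent.R012.NonCube52 (Ker kv Good nm_kv)
open Crest.Agent.R012.Weight600 (osc pw norm_osc)
open Crest.Agent.R017.PX764 (Gh)
open Crest.Agent.R017.CM106 (CS TG norm_Gsy_le)
open Crest.Agent.R017.E1551 (nmpos jb jb_pos integrable_jb integrable_jb_mul nm_ge_one)
open Crest.Agent.R017.BD829
open Crest.Agent.R017.PoH347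
open Crest.Agent.R017.Mode405 (VI Slp)
open Crest.Agent.R017.E3D579 (bt)
open Crest.Agent.R017.StA828 (gp gp_spec gp_eq)
open Gauss880 (syG)

/-- the conclusion of `cr_ls` -/
def CrLS (A ε C : ℝ) : Prop := ∀ Δ L T : ℝ,
    1 ≤ Δ → 1 ≤ L → (∀ n ∈ S Δ, (Div277.tau n : ℝ) ≤ T) → ∀ (𝒟 : Finset Eis), 𝒟 ⊆ S Δ →
      ∀ (Rs : Finset Eis), Rs ⊆ S Δ → ∀ (c : Eis → ℂ) (γ δ : Eis), IsPrim γ → δ ∈ pdiv γ →
      ∀ g0 : Eis, ∑ r ∈ Rs, ∑ h ∈ bl L, EQ A (cr 𝒟 c γ δ r) (h * g0) ≤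
        C * (L * Δ) ^ ε * nrm (Δ / nm δ) L * (T * ∑ D ∈ 𝒟, ‖c D‖ ^ 2)

/-- the natural shift of the range -/
def xd (s g l d e : Eis) : Eis := s * l * ((9 * s) * sq3) ^ 2 * g ^ 2 * e * (d / e) ^ 2

lemma xd_ne {s g l d e : Eis} (hs : s ≠ 0) (hg : g ≠ 0) (hl : l ≠ 0) (hd : d ≠ 0) (he : e ≠ 0)
    (hed : e ∣ d) : xd s g l d e ≠ 0 := by
  have hde : d = e * (d / e) := (EuclideanDomain.mul_div_cancel' he hed).symm
  have hde0 : d / e ≠ 0 := by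
    intro h0
    rw [h0, mul_zero] at hde
    exact hd hde
  have h9 : (9 * s) ≠ 0 := mul_ne_zero (by decide) hs
  unfold xd
  exact mul_ne_zero (mul_ne_zero (mul_ne_zero (mul_ne_zero (mul_ne_zero hs hl)
    (pow_ne_zero _ (mul_ne_zero h9 sq3_ne_zero))) (pow_ne_zero _ hg)) he) (pow_ne_zero _ hde0)

/-- reordering of the sums -/
lemma reorder {ι : Type} (A : ℝ) (Q : Finset ι) (Fs Rs Ks : Finset Eis) (𝒟 : ι → Finset Eis)
    (c b : ι → Eis → ℂ) (G : Eis → Eis) (H : Eis → Eis → Eis) (ρ : Eis → Eis → ℝ) :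
    ∑ k ∈ Ks, ∑ q ∈ Q, ∑ f ∈ Fs, Q1 A (𝒟 q) Rs (c q) (b q) (G f) (H k f) (ρ f) =
      ∑ f ∈ Fs, ∑ δ ∈ pdiv (G f), (ρ f δ * (∑ q ∈ Q, ∑ r ∈ Rs, ∑ k ∈ Ks,
          EQ A (cr (𝒟 q) (c q) (G f) δ r) (H k f)) +
        (ρ f δ)⁻¹ * (∑ q ∈ Q, ∑ r ∈ Rs, ∑ k ∈ Ks,
          EQ A (fun m => b q (G f / δ * r * m)) (δ ^ 2 * (H k f) * r))) := by
  have e2 : ∀ k ∈ Ks, ∑ q ∈ Q, ∑ f ∈ Fs, Q1 A (𝒟 q) Rs (c q) (b q) (G f) (H k f) (ρ f) =
      ∑ f ∈ Fs, ∑ q ∈ Q, Q1 A (𝒟 q) Rs (c q) (b q) (G f) (H k f) (ρ f) :=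
    fun k _ => Finset.sum_comm
  rw [Finset.sum_congr rfl e2, Finset.sum_comm]
  refine Finset.sum_congr rfl fun f _ => ?_
  unfold Q1
  have e3 : ∀ k ∈ Ks, ∑ q ∈ Q, ∑ δ ∈ pdiv (G f), ∑ r ∈ Rs,
      (ρ f δ * EQ A (cr (𝒟 q) (c q) (G f) δ r) (H k f) +
        (ρ f δ)⁻¹ * EQ A (fun m => b q (G f / δ * r * m)) (δ ^ 2 * (H k f) * r)) =
      ∑ δ ∈ pdiv (G f), ∑ q ∈ Q, ∑ r ∈ Rs,
      (ρ f δ * EQ A (cr (𝒟 q) (c q) (G f) δ r) (H k f) +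
        (ρ f δ)⁻¹ * EQ A (fun m => b q (G f / δ * r * m)) (δ ^ 2 * (H k f) * r)) :=
    fun k _ => Finset.sum_comm
  rw [Finset.sum_congr rfl e3, Finset.sum_comm]
  refine Finset.sum_congr rfl fun δ _ => ?_
  rw [Finset.sum_comm, Finset.mul_sum, Finset.mul_sum, ← Finset.sum_add_distrib]
  refine Finset.sum_congr rfl fun q _ => ?_
  rw [Finset.sum_comm, Finset.mul_sum, Finset.mul_sum, ← Finset.sum_add_distrib]
  refine Finset.sum_congr rfl fun r _ => ?_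
  rw [Finset.sum_add_distrib, Finset.mul_sum, Finset.mul_sum]

/-- doubling of one summand -/
lemma dbl_one {a : ℕ} {W : ℝ → ℝ} (hW : Slp a W) {C1 ε1 Δ L dl T Qt ρ x w : ℝ} (hC1 : 0 ≤ C1)
    (hε1 : ε1 ≤ 1) (hΔ : 0 ≤ Δ) (hL : 0 < L) (hdl : 0 < dl) (hT : 0 ≤ T)
    (hQt : 0 ≤ Qt) (hρ : 0 < ρ) (hx : 0 < x) (hw : 0 ≤ w) :
    ρ * (C1 * (2 * L * Δ) ^ ε1 * nrm (Δ / dl) (2 * L) * (T * Qt)) + ρ⁻¹ * (W (2 * L * x) * w) ≤
      2 ^ (a + 2) * (ρ * (C1 * (L * Δ) ^ ε1 * nrm (Δ / dl) L * (T * Qt)) +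
        ρ⁻¹ * (W (L * x) * w)) := by
  have hnn : 0 ≤ nrm (Δ / dl) L := nrm_nonneg (by positivity) hL.le
  have hnn2 : 0 ≤ nrm (Δ / dl) (2 * L) := nrm_nonneg (by positivity) (by positivity)
  have h2 : nrm (Δ / dl) (2 * L) ≤ 2 * nrm (Δ / dl) L :=
    nrm_smul (by positivity) hL.le (by norm_num)
  have h3 : (2 * L * Δ) ^ ε1 ≤ 2 * (L * Δ) ^ ε1 := by
    rw [mul_assoc, Real.mul_rpow (by norm_num) (by positivity)]
    refine mul_le_mul_of_nonneg_right ?_ (by positivity)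
    calc (2 : ℝ) ^ ε1 ≤ 2 ^ (1 : ℝ) := Real.rpow_le_rpow_of_exponent_le (by norm_num) hε1
      _ = 2 := Real.rpow_one 2
  have h4 : (4 : ℝ) ≤ 2 ^ (a + 2) := by
    calc (4 : ℝ) = 2 ^ 2 := by norm_num
      _ ≤ 2 ^ (a + 2) := pow_le_pow_right₀ (by norm_num) (by omega)
  have h5 : W (2 * L * x) ≤ 2 ^ (a + 2) * W (L * x) := by
    have h6 := hW.dbl (L * x) (by positivity)
    have h7 := hW.nonneg (L * x) (by positivity)
    have h8 : (2 : ℝ) ^ a ≤ 2 ^ (a + 2) := pow_le_pow_right₀ (by norm_num) (by omega)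
    rw [mul_assoc 2 L]
    exact h6.trans (mul_le_mul_of_nonneg_right h8 h7)
  have h6 : 0 ≤ (L * Δ) ^ ε1 := by positivity
  have g1 : C1 * (2 * L * Δ) ^ ε1 * nrm (Δ / dl) (2 * L) * (T * Qt) ≤
      2 ^ (a + 2) * (C1 * (L * Δ) ^ ε1 * nrm (Δ / dl) L * (T * Qt)) := by
    calc C1 * (2 * L * Δ) ^ ε1 * nrm (Δ / dl) (2 * L) * (T * Qt)
        ≤ C1 * (2 * (L * Δ) ^ ε1) * (2 * nrm (Δ / dl) L) * (T * Qt) := by gcongr
      _ = 4 * (C1 * (L * Δ) ^ ε1 * nrm (Δ / dl) L * (T * Qt)) := by ring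
      _ ≤ _ := mul_le_mul_of_nonneg_right h4 (by positivity)
  have g2 : W (2 * L * x) * w ≤ 2 ^ (a + 2) * (W (L * x) * w) := by
    calc W (2 * L * x) * w ≤ (2 ^ (a + 2) * W (L * x)) * w := mul_le_mul_of_nonneg_right h5 hw
      _ = _ := by ring
  calc _ ≤ ρ * (2 ^ (a + 2) * (C1 * (L * Δ) ^ ε1 * nrm (Δ / dl) L * (T * Qt))) +
        ρ⁻¹ * (2 ^ (a + 2) * (W (L * x) * w)) :=
        add_le_add (mul_le_mul_of_nonneg_left g1 hρ.le)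
          (mul_le_mul_of_nonneg_left g2 (inv_nonneg.mpr hρ.le))
    _ = _ := by ring

/-- **the modes of the family at one pair `(d, e)`** -/
theorem mode_de {A B a : ℕ} (hA : 1 < A) (hB : a + 3 ≤ B) {ε1 C1 : ℝ}
    (hε1 : ε1 ≤ 1) (hC1 : 0 < C1) (hLS : CrLS A ε1 C1) {R N Z Δ Y N₁ N₂ X T : ℝ} (hZ : 1 ≤ Z)
    (hΔ1 : 1 ≤ Δ) (hY0 : 0 ≤ Y) (hX : 0 < X) (hN₁0 : 0 < N₁) (hN₂0 : 0 < N₂)
    (hT : 0 ≤ T) (hTΔ : ∀ n ∈ S Δ, (Div277.tau n : ℝ) ≤ T) {ka : Eis} {ι : Type} {Q : Finset ι}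
    {b : ι → Eis → ℂ} {Xq : ι → ℝ} {𝒟 : ι → Finset Eis} (hXq : ∀ q ∈ Q, X / 64 ≤ Xq q)
    (hF : DFam R Z N Δ ka Q b 𝒟) {W : ℝ → ℝ} (hW : Slp a W) {B0 : ℝ} (hHW : HW A B0 Q b ka W)
    {s : Eis} (hs : SU s) {g l l₁ : Eis} (hg : IsPrim g) (hl : IsPrim l) (hl₁ : IsPrim l₁)
    (hcl : IsCoprime (g * l₁) l) (hcka : IsCoprime (g * l₁) ka) (hB0 : (nm l₁ : ℝ) * Δ ≤ B0)
    (hhY : g * l₁ ∈ S Y) (c : ι → Eis → ℂ)
    (huS : ∀ q ∈ Q, ∀ n, bg (BB (𝒟 q) (c q) (b q)) g l n ≠ 0 → n ∈ S Y) {d e : Eis}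
    (hd : d ∈ S Y) (he : e ∈ pdiv d) {ρ : Eis → Eis → ℝ}
    (hρ : ∀ f ∈ S Y, ∀ δ ∈ pdiv (g * (d * f)), 0 < ρ f δ) :
    ∑ q ∈ Q, ModeS A B (9 * s) (pt s) (Xq q) N₁ N₂ Y (bg (BB (𝒟 q) (c q) (b q)) g l)
      (Pi.single (g * l₁) 1) d e ≤
      (1 + 2 ^ (a + 2 + 1)) * ((min 1 (lmB (9 * s) (X / 64) N₁ N₂ d e)) ^ B *
        ∑ f ∈ (S Y).filter (fun f => d * f ∣ l₁), ∑ δ ∈ pdiv (g * (d * f)),
        (ρ f δ * (C1 * (max 1 (lmB (9 * s) (X / 64) N₁ N₂ d e) * Δ) ^ ε1 *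
            nrm (Δ / nm δ) (max 1 (lmB (9 * s) (X / 64) N₁ N₂ d e)) *
            (T * ∑ q ∈ Q, ∑ D ∈ 𝒟 q, ‖c q D‖ ^ 2)) +
          (ρ f δ)⁻¹ * (W (max 1 (lmB (9 * s) (X / 64) N₁ N₂ d e) * nm (xd s g l d e)) *
            (nm δ / nm (g * (d * f)) * ∑ r ∈ S Δ, (1 / (nm r : ℝ)))))) := by
  have hA' : (1 : ℝ) < (A : ℝ) := by exact_mod_cast hA
  have hZ0 : 0 < Z := by linarith
  have hΔ0 : 0 ≤ Δ := by linarith
  have hd' := (mem_S hY0).1 hd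
  have he' := (mem_pdiv hd'.2.1.ne_zero).mp he
  have hde : d = e * (d / e) := (EuclideanDomain.mul_div_cancel' he'.1.ne_zero he'.2).symm
  have hMne : 9 * s ≠ 0 := (LC_pt hs).ne
  have hfprop : ∀ f ∈ (S Y).filter (fun f => d * f ∣ l₁),
      f ∈ S Y ∧ IsPrim f ∧ d * f ∣ l₁ ∧ IsPrim (g * (d * f)) := by
    intro f hf
    obtain ⟨h1, h2⟩ := Finset.mem_filter.mp hf
    have h3 := ((mem_S hY0).1 h1).2.1
    exact ⟨h1, h3, h2, hg.mul (hd'.2.1.mul h3)⟩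
  have hvS : ∀ n, (Pi.single (g * l₁) 1 : Eis → ℂ) n ≠ 0 → n ∈ S Y := by
    intro n hn
    by_cases h1 : n = g * l₁
    · rw [h1]; exact hhY
    · rw [Pi.single_eq_of_ne h1] at hn; exact absurd rfl hn
  have hHs0 : 0 ≤ ∑ r ∈ S Δ, (1 / (nm r : ℝ)) := Finset.sum_nonneg fun _ _ => by positivity
  have hQt0 : 0 ≤ ∑ q ∈ Q, ∑ D ∈ 𝒟 q, ‖c q D‖ ^ 2 :=
    Finset.sum_nonneg fun _ _ => Finset.sum_nonneg fun _ _ => by positivity
  have hxd0 := nmpos (xd_ne hs.ne hg.ne_zero hl.ne_zero hd'.2.1.ne_zero he'.1.ne_zero he'.2)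
  refine modes_fam (a := a + 2) hA (by omega) (by omega) (LC_pt hs) (X := X / 64) (by positivity)
    hN₁0 hN₂0 hY0 Q Xq hXq (fun q => bg (BB (𝒟 q) (c q) (b q)) g l) _ huS hvS hd'.2.1 he'.1
    (G := fun L => ∑ f ∈ (S Y).filter (fun f => d * f ∣ l₁), ∑ δ ∈ pdiv (g * (d * f)),
      (ρ f δ * (C1 * (L * Δ) ^ ε1 * nrm (Δ / nm δ) L *
            (T * ∑ q ∈ Q, ∑ D ∈ 𝒟 q, ‖c q D‖ ^ 2)) +
          (ρ f δ)⁻¹ * (W (L * nm (xd s g l d e)) *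
            (nm δ / nm (g * (d * f)) * ∑ r ∈ S Δ, (1 / (nm r : ℝ)))))) (fun L hL => ?_)
    (fun L hL => ?_)
  · -- the balls
    beta_reduce
    have h1 : ∀ k ∈ bl L, ∀ q ∈ Q, ∑ f ∈ S Y,
        EE A (rs (bg (BB (𝒟 q) (c q) (b q)) g l) (pt s) d f)
          (rs (Pi.single (g * l₁) 1) (fun m => conj (pt s m)) d f) (Hf (9 * s) e k f) ≤
        ∑ f ∈ (S Y).filter (fun f => d * f ∣ l₁), Q1 A (𝒟 q)
          ((S Δ).filter fun r => IsCoprime r ka) (c q) (b q) (g * (d * f))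
          (s * l * Hf (9 * s) e k f) (ρ f) := by
      intro k _ q hq
      rw [Finset.sum_filter]
      refine Finset.sum_le_sum fun f hf => ?_
      have hf' := (mem_S hY0).1 hf
      exact EE_BB_le hA' hZ0.le hΔ0 hY0 (hF.supp q hq) (hF.sub q hq) (hF.cop q hq) (c q) hg hl
        hcl hhY (huS q hq) s hd'.2.1 hf'.2.1 (Hf (9 * s) e k f) (fun δ hδ => hρ f hf δ hδ)
    refine (Finset.sum_le_sum fun k hk => Finset.sum_le_sum fun q hq => h1 k hk q hq).trans ?_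
    rw [reorder (A : ℝ) Q ((S Y).filter (fun f => d * f ∣ l₁))
      ((S Δ).filter fun r => IsCoprime r ka) (bl L) 𝒟 c b (fun f => g * (d * f))
      (fun k f => s * l * Hf (9 * s) e k f) ρ]
    refine Finset.sum_le_sum fun f hf => Finset.sum_le_sum fun δ hδ => ?_
    obtain ⟨hfS, hfp, hdfl, hγ⟩ := hfprop f hf
    have hρp := hρ f hfS δ hδ
    refine add_le_add (mul_le_mul_of_nonneg_left ?_ hρp.le)
      (mul_le_mul_of_nonneg_left ?_ (inv_nonneg.mpr hρp.le))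
    · -- the `D`-side
      rw [Finset.mul_sum, Finset.mul_sum]
      refine Finset.sum_le_sum fun q hq => ?_
      have h2 := hLS Δ L T hΔ1 hL hTΔ (𝒟 q) (hF.sub q hq)
        ((S Δ).filter (fun r => IsCoprime r ka)) (Finset.filter_subset _ _) (c q)
        (g * (d * f)) δ hγ hδ (s * l * ((e * ((9 * s) * sq3)) ^ 2 * f))
      refine le_trans (le_of_eq ?_) h2
      refine Finset.sum_congr rfl fun r _ => Finset.sum_congr rfl fun k _ => ?_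
      congr 1
      unfold Hf
      ring
    · -- the `b`-side
      have h3 : IsCoprime (g * (d * f)) ka :=
        hcka.of_isCoprime_of_dvd_left (mul_dvd_mul_left g hdfl)
      have h4 : (nm e : ℝ) * nm f * Δ ≤ B0 := by
        have h5 : (nm e : ℝ) * nm f ≤ nm l₁ := by
          have h6 : (nm (d * f) : ℝ) ≤ nm l₁ := by
            exact_mod_cast Div277.nm_le_of_dvd hl₁.ne_zero hdfl
          have h7 : (nm e : ℝ) ≤ nm d := by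
            exact_mod_cast Div277.nm_le_of_dvd hd'.2.1.ne_zero he'.2
          rw [nm_mul] at h6
          push_cast at h6
          have h8 : (nm e : ℝ) * nm f ≤ nm d * nm f :=
            mul_le_mul_of_nonneg_right h7 (Nat.cast_nonneg _)
          linarith
        exact (mul_le_mul_of_nonneg_right h5 hΔ0).trans hB0
      have h5 := b_side Q b hHW hΔ1 (s := s) (M := 9 * s) hs.ne hl hMne hg hd'.2.1 he'.1 hde hfp h3
        hδ h4 hL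
      rw [mul_assoc (W _)] at h5
      exact h5
  · -- doubling
    beta_reduce
    rw [Finset.mul_sum _ _ ((2 : ℝ) ^ (a + 2))]
    refine Finset.sum_le_sum fun f hf => ?_
    rw [Finset.mul_sum _ _ ((2 : ℝ) ^ (a + 2))]
    refine Finset.sum_le_sum fun δ hδ => ?_
    obtain ⟨hfS, hfp, hdfl, hγ⟩ := hfprop f hf
    have hδ' := (mem_pdiv hγ.ne_zero).mp hδ
    have nδ := nmpos hδ'.1.ne_zero
    have nγ := nmpos hγ.ne_zero
    have hw0 : 0 ≤ (nm δ / nm (g * (d * f)) : ℝ) * ∑ r ∈ S Δ, (1 / (nm r : ℝ)) :=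
      mul_nonneg (div_nonneg nδ.le nγ.le) hHs0
    have hL0 : 0 < L := by linarith
    have h7 := dbl_one (a := a) (W := W) (C1 := C1) (ε1 := ε1) (Δ := Δ) (L := L) (dl := nm δ)
      (T := T) (Qt := ∑ q ∈ Q, ∑ D ∈ 𝒟 q, ‖c q D‖ ^ 2) (ρ := ρ f δ)
      (x := ((nm (xd s g l d e) : ℕ) : ℝ))
      (w := (nm δ / nm (g * (d * f)) : ℝ) * ∑ r ∈ S Δ, (1 / (nm r : ℝ)))
      hW hC1.le hε1 hΔ0 hL0 nδ hT hQt0 (hρ f hfS δ hδ) hxd0 hw0
    exact h7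

end Crest.Agent.R017.PoD50
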