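import Crest.Agent.R017.PoD7_50

/-!
# Row 17, block C70: a family `bt D b`, `D ∈ 𝒟`, against one kernel (helper50), part 8

`one_block` : the second form for one kernel and one divisor `g` of its square part.
-/

set_option autoImplicit false

noncomputable section

open Complex MeasureTheory
open scoped ComplexConjugate Classical

namespace Crest.Agent.R017.PoD50

open Crest.Agent.R012 Crest.Agent.R012.Eis Crest.Agent.R012.MC
open Crest.Agent.R012.LS2 (S mem_S bl mem_bl)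
open Crest.Agent.R012.Mob705 (mu pdiv mem_pdiv abs_mu_le_one sum_mu_coprime)
open Crest.Agent.R012.NonCube52 (Ker kv Good nm_kv)
open Crest.Agent.R017.E1551 (nmpos jb jb_pos integrable_jb integrable_jb_mul nm_ge_one)
open Crest.Agent.R017.BD829
open Crest.Agent.R017.PoH347
open Crest.Agent.R017.Mode405 (VI Slp)
open Crest.Agent.R017.E3D579 (bt)
open Gauss880 (syG)

/-- **the value of one tuple**, real form -/
lemma tuple_val {a B : ℕ} (hB : a + 3 ≤ B) {W : ℝ → ℝ} (hW : Slp a W)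
    {U Z N X Δ ε1 C1 T Hs Ch σ G L L1 D E F δ nM ns y lm nx θ P0 : ℝ} (hU : 1 ≤ U) (hZ : 1 ≤ Z)
    (hN : 0 < N) (hNZ : N ≤ Z) (hX : 0 < X) (hXZ : 1 ≤ X * Z) (hΔ1 : 1 ≤ Δ) (hΔZ : Δ ≤ Z)
    (hε0 : 0 < ε1) (hε1 : ε1 ≤ 1) (hC1 : 0 < C1) (hT : 0 ≤ T) (hHs0 : 0 ≤ Hs)
    (hHs : Hs ≤ Ch * Z ^ ε1) (hσ1 : 1 ≤ σ) (hσ9 : σ ≤ 9) (hG : 1 ≤ G) (hL : 1 ≤ L) (hLZ : L ≤ Z)
    (hL1 : 1 ≤ L1) (hL1Z : L1 ≤ Z) (hD : 1 ≤ D) (hDL : D ≤ L1) (hE : 1 ≤ E) (hED : E ≤ D)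
    (hF : 1 ≤ F) (hδ : 1 ≤ δ) (hδγ : δ ≤ G * (D * F)) (hnM : 1 ≤ nM) (hnMU : nM ≤ U)
    (hns : 0 < ns) (hnsU : ns ≤ U) (hy : y = N * Δ * L * L1 / X)
    (hlm : lm = 192 * nM * E * y / D ^ 2)
    (hnx : nx = ns * L * (nM * 3) ^ 2 * G ^ 2 * E * (D / E) ^ 2)
    (hθ : θ = (X / (N * Δ)) ^ 2 / (σ * (L1 * (G * L) ^ 2)))
    (hP0 : P0 = cst U * (N * Δ * (L1 * (G * L) ^ 2) / X)) :
    X / y * (D / E) ^ 2 * ((min 1 lm) ^ B) ^ 2 * (C1 * (max 1 lm * Δ) ^ ε1 *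
      nrm (Δ / δ) (max 1 lm) * T) * (W (max 1 lm * nx) * (δ / (G * (D * F)) * Hs)) ≤
      (C1 * (192 * U * Z ^ (6 * ε1)) * T * (Ch * Z ^ ε1)) *
        (2 ^ a * (9 * (192 * U)) * (X * nf2 Δ θ * W P0)) := by
  have hZ0 : 0 < Z := by linarith
  have hΔ0 : 0 < Δ := by linarith
  have hU0 : 0 < U := by linarith
  have hG0 : 0 < G := by linarith
  have hLp : 0 < L := by linarith
  have hL10 : 0 < L1 := by linarith
  have hD0 : 0 < D := by linarith
  have hE0 : 0 < E := by linarith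
  have hF0 : 0 < F := by linarith
  have hδ0 : 0 < δ := by linarith
  have hnM0 : 0 < nM := by linarith
  have hσ0 : 0 < σ := by linarith
  have hy0 : 0 < y := by rw [hy]; positivity
  have hlm0 : 0 < lm := by rw [hlm]; positivity
  have hnx0 : 0 < nx := by rw [hnx]; positivity
  have hP00 : 0 < P0 := by rw [hP0]; unfold cst; positivity
  have hθ0 : 0 ≤ θ := by rw [hθ]; positivity
  have hWP0 : 0 ≤ W P0 := hW.nonneg P0 hP00
  have hnf : 0 ≤ nf2 Δ θ := nf2_nonneg hΔ0.le hθ0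
  have hyZ : y ≤ Z ^ 5 := by
    rw [hy, div_le_iff₀ hX]
    calc N * Δ * L * L1 ≤ Z * Z * Z * Z := by gcongr
      _ ≤ Z * Z * Z * Z * (X * Z) := le_mul_of_one_le_right (by positivity) hXZ
      _ = Z ^ 5 * X := by ring
  have hlmn : lm * nx ≤ P0 := by
    have e1 : lm * nx = 192 * nM * (ns * (3 * nM) ^ 2) * (N * Δ * (L1 * (G * L) ^ 2) / X) := by
      rw [hlm, hnx, hy]
      field_simp
    rw [e1, hP0]
    unfold cst
    have h1 : 192 * nM * (ns * (3 * nM) ^ 2) ≤ 192 * U * (U * (3 * U) ^ 2) := by gcongr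
    exact mul_le_mul_of_nonneg_right h1 (by positivity)
  have hb := blk (a := a) (B := B) (by omega) hW hX hy0 hΔ0 hG hL1 hD hE hF hδ hσ1 hσ9
    (cM := 192 * nM) (by linarith) hδγ hDL (lm := lm) (by rw [hlm]) (θ := θ) (by
      rw [hθ, hy]; field_simp) hnx0 hlmn
  have hb2 : X / y * (D / E) ^ 2 * ((min 1 lm) ^ B) ^ 2 * nrm (Δ / δ) (max 1 lm) *
      (W (max 1 lm * nx) * (δ / (G * (D * F)))) ≤ 2 ^ a * (9 * (192 * U)) *
        (X * nf2 Δ θ * W P0) := by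
    refine hb.trans ?_
    have h1 : 0 ≤ X * nf2 Δ θ * W P0 := by positivity
    refine mul_le_mul_of_nonneg_right ?_ h1
    have h2 : 9 * (192 * nM) ≤ 9 * (192 * U) := by linarith
    exact mul_le_mul_of_nonneg_left h2 (by positivity)
  have hΛ0 : 0 < max 1 lm := lt_of_lt_of_le one_pos (le_max_left _ _)
  have hΛΔ : (max 1 lm * Δ) ^ ε1 ≤ 192 * U * Z ^ (6 * ε1) := by
    have h1 : max 1 lm * Δ ≤ 192 * U * Z ^ 6 := by
      have h2 : max 1 lm ≤ 192 * U * Z ^ 5 := by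
        refine max_le ?_ ?_
        · have h3 : (1 : ℝ) ≤ Z ^ 5 := one_le_pow₀ hZ
          nlinarith
        · rw [hlm, div_le_iff₀ (by positivity)]
          have h3 : E ≤ D ^ 2 := hED.trans (le_self_pow₀ hD (by norm_num))
          calc 192 * nM * E * y ≤ 192 * U * D ^ 2 * Z ^ 5 := by gcongr
            _ = _ := by ring
      calc max 1 lm * Δ ≤ 192 * U * Z ^ 5 * Z := mul_le_mul h2 hΔZ hΔ0.le (by positivity)
        _ = _ := by ring
    have h192 : (1 : ℝ) ≤ 192 * U := by linarith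
    calc (max 1 lm * Δ) ^ ε1 ≤ (192 * U * Z ^ 6) ^ ε1 :=
          Real.rpow_le_rpow (by positivity) h1 hε0.le
      _ = (192 * U) ^ ε1 * Z ^ (6 * ε1) := by
          rw [Real.mul_rpow (by positivity) (by positivity), ← Real.rpow_natCast Z 6,
            ← Real.rpow_mul hZ0.le]
          norm_num
      _ ≤ (192 * U) ^ (1 : ℝ) * Z ^ (6 * ε1) := by
          refine mul_le_mul_of_nonneg_right ?_ (by positivity)
          exact Real.rpow_le_rpow_of_exponent_le h192 hε1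
      _ = _ := by rw [Real.rpow_one]
  have hin0 : 0 ≤ X / y * (D / E) ^ 2 * ((min 1 lm) ^ B) ^ 2 * nrm (Δ / δ) (max 1 lm) *
      (W (max 1 lm * nx) * (δ / (G * (D * F)))) := by
    have h1 := nrm_nonneg (N := Δ / δ) (I := max 1 lm) (by positivity) (by positivity)
    have h2 := hW.nonneg (max 1 lm * nx) (by positivity)
    have h3 : 0 ≤ min 1 lm := (lt_min one_pos hlm0).le
    positivity
  have hZe : 0 ≤ Z ^ (6 * ε1) := by positivity
  have hcc : C1 * (max 1 lm * Δ) ^ ε1 * T * Hs ≤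
      C1 * (192 * U * Z ^ (6 * ε1)) * T * (Ch * Z ^ ε1) := by
    have h1 : C1 * (max 1 lm * Δ) ^ ε1 * T ≤ C1 * (192 * U * Z ^ (6 * ε1)) * T :=
      mul_le_mul_of_nonneg_right (mul_le_mul_of_nonneg_left hΛΔ hC1.le) hT
    exact mul_le_mul h1 hHs hHs0 (by positivity)
  have hcc0 : 0 ≤ C1 * (192 * U * Z ^ (6 * ε1)) * T * (Ch * Z ^ ε1) := by
    have : 0 ≤ Ch * Z ^ ε1 := hHs0.trans hHs
    have h2 : 0 ≤ C1 * (192 * U * Z ^ (6 * ε1)) * T := by positivity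
    exact mul_nonneg h2 this
  have e2 : X / y * (D / E) ^ 2 * ((min 1 lm) ^ B) ^ 2 * (C1 * (max 1 lm * Δ) ^ ε1 *
      nrm (Δ / δ) (max 1 lm) * T) * (W (max 1 lm * nx) * (δ / (G * (D * F)) * Hs)) =
      (C1 * (max 1 lm * Δ) ^ ε1 * T * Hs) * (X / y * (D / E) ^ 2 * ((min 1 lm) ^ B) ^ 2 *
        nrm (Δ / δ) (max 1 lm) * (W (max 1 lm * nx) * (δ / (G * (D * F))))) := by ring
  rw [e2]
  exact mul_le_mul hcc hb2 hin0 hcc0

/-- the final real arithmetic -/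
lemma fin_arith {Qt n Bd : ℝ} (hn : 0 < n) (h : Qt ≤ (Qt / (2 * n) + Bd) * n) :
    Qt ≤ 2 * n * Bd := by
  have e4 : (Qt / (2 * n) + Bd) * n = Qt / 2 + n * Bd := by field_simp
  rw [e4] at h
  linarith

end Crest.Agent.R017.PoD50
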