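import Crest.Agent.R017.PoD8_50

/-!
# Row 17, block C70: a family `bt D b`, `D ∈ 𝒟`, against one kernel (helper50), part 9

`one_block` : the second form for one kernel and one divisor `g` of its square part.
-/

set_option autoImplicit false

noncomputable section

open Complex MeasureTheory
open scoped ComplexConjugate Classical

namespace Crest.Agent.R017.PoD50

open Crest.Agent.R012 Crest.Agent.R012.Eis Crest.Agent.R012.MC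
open Crest.Agent.R012.LS2 (S mem_S bl mem_bl)
open Crest.Agent.R012.Mob705 (mu pdiv mem_pdiv abs_mu_le_one sum_mu_coprime)
open Crest.Agent.R012.NonCube52 (Ker kv Good nm_kv)
open Crest.Agent.R017.E1551 (nmpos jb jb_pos integrable_jb integrable_jb_mul nm_ge_one)
open Crest.Agent.R017.BD829
open Crest.Agent.R017.PoH347
open Crest.Agent.R017.Mode405 (VI Slp)
open Crest.Agent.R017.E3D579 (bt)
open Gauss880 (syG)

/-- **(BD) for one member of the family** -/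
lemma bd_one {v : ℝ → ℝ} (hv : Wgt v) {R C0 : ℝ} (hR : 0 ≤ R) {A B : ℕ} (hk : KT v (R + 3) A B C0)
    (hA : 1 < A) (hB1 : 1 < B) {Z N X Δ Y : ℝ} (hZ : 0 ≤ Z) (hN : 0 < N) (hΔ1 : 1 ≤ Δ)
    (hY1 : 1 ≤ Y) {ka : Eis} {ι : Type} {Q : Finset ι} {b : ι → Eis → ℂ} {𝒟 : ι → Finset Eis}
    (hF : DFam R Z N Δ ka Q b 𝒟) {q : ι} (hq : q ∈ Q) {Xq : ℝ} (hXq : 0 < Xq) (hXX : Xq ≤ X)
    {s : Eis} (hs : SU s) {g l l₁ : Eis} (hg : IsPrim g) (hl : IsPrim l) (hl₁ : IsPrim l₁)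
    (hcl : IsCoprime (g * l₁) l) (hhY : g * l₁ ∈ S Y)
    (hN1 : (nm l₁ : ℝ) * Real.exp (R + 3) < N * Δ) (c : Eis → ℂ) {Qq : ℝ} (hQ0 : 0 ≤ Qq)
    (hdual : Sh v Xq (pt s) (bg (BB (𝒟 q) c (b q)) g l) (g * l₁) = ((Qq : ℝ) : ℂ))
    (huS : ∀ n, bg (BB (𝒟 q) c (b q)) g l n ≠ 0 → n ∈ S Y) :
    Qq ≤ 2 * C0 * (X / Real.sqrt (N * Δ * nm l / nm g * nm (g * l₁))) * ∑ d ∈ S Y, ∑ e ∈ pdiv d,
      (nm d / nm e : ℝ) * ModeS A B (9 * s) (pt s) Xq (N * Δ * nm l / nm g) (nm (g * l₁)) Y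
        (bg (BB (𝒟 q) c (b q)) g l) (Pi.single (g * l₁) 1) d e := by
  have hC0 := hk.1
  have ng := nmpos hg.ne_zero
  have nl := nmpos hl.ne_zero
  have nh := nmpos (hg.mul hl₁).ne_zero
  have hN₁0 : 0 < N * Δ * nm l / nm g := by positivity
  have hvS : ∀ n, (Pi.single (g * l₁) 1 : Eis → ℂ) n ≠ 0 → n ∈ S Y := by
    intro n hn
    by_cases h1 : n = g * l₁
    · rw [h1]; exact hhY
    · rw [Pi.single_eq_of_ne h1] at hn; exact absurd rfl hn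
  have hwv : Win (Pi.single (g * l₁) 1 : Eis → ℂ) (Real.log (nm (g * l₁))) (R + 3) := by
    intro n hn
    by_cases h1 : n = g * l₁
    · rw [h1, sub_self, abs_zero]; linarith
    · rw [Pi.single_eq_of_ne h1] at hn; exact absurd rfl hn
  have h1 := BD_kt hv hk hA hB1 (9 * s) (pt s) (LC_pt hs) Xq hXq Y hY1
    (bg (BB (𝒟 q) c (b q)) g l) (Pi.single (g * l₁) 1) huS
    hvS (N * Δ * nm l / nm g) (nm (g * l₁)) hN₁0 nh (win_bg hZ hN hΔ1 hF hq c hg hl) hwv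
  have h2 : ∑ d ∈ S Y, (∑ e ∈ pdiv d, (mu e : ℂ) * (nm e : ℂ)⁻¹ * pt s e) *
      (bg (BB (𝒟 q) c (b q)) g l d * conj ((Pi.single (g * l₁) 1 : Eis → ℂ) d)) = 0 := by
    refine Finset.sum_eq_zero fun d _ => ?_
    by_cases h3 : d = g * l₁
    · have h4 : bg (BB (𝒟 q) c (b q)) g l d = 0 := by
        rw [h3]
        exact main_zero hR hZ hN hΔ1 hF hq c hg hl hl₁ hcl hN1
      rw [h4]; ring
    · rw [Pi.single_eq_of_ne h3]; simp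
  rw [h2, mul_zero, sub_zero, ← Sh_eq_BS, hdual, Complex.norm_real, Real.norm_of_nonneg hQ0] at h1
  refine h1.trans ?_
  have h3 : 0 ≤ ∑ d ∈ S Y, ∑ e ∈ pdiv d,
      (nm d / nm e : ℝ) * ModeS A B (9 * s) (pt s) Xq (N * Δ * nm l / nm g) (nm (g * l₁)) Y
        (bg (BB (𝒟 q) c (b q)) g l) (Pi.single (g * l₁) 1) d e := by
    refine Finset.sum_nonneg fun d _ => Finset.sum_nonneg fun e _ => ?_
    refine mul_nonneg (by positivity) ?_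
    unfold ModeS
    refine tsum_nonneg fun k => ?_
    split_ifs
    · exact le_rfl
    · exact mul_nonneg (WB_nonneg hXq.le hN₁0.le nh.le B d e k)
        (Finset.sum_nonneg fun _ _ => EE_nonneg _ _ _ _)
  have hsr : 0 < Real.sqrt (N * Δ * nm l / nm g * nm (g * l₁)) :=
    Real.sqrt_pos.mpr (by positivity)
  have h4 : 2 * C0 * (Xq / Real.sqrt (N * Δ * nm l / nm g * nm (g * l₁))) ≤
      2 * C0 * (X / Real.sqrt (N * Δ * nm l / nm g * nm (g * l₁))) :=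
    mul_le_mul_of_nonneg_left (div_le_div_of_nonneg_right hXX hsr.le) (by positivity)
  exact mul_le_mul_of_nonneg_right h4 h3

/-- one pair `(d, e)` in the assembly, abstractly -/
lemma pair_arith50 {Fs : Finset Eis} {Dl : Eis → Finset Eis} {k0 r m n Qt Bd P c1 K MS : ℝ}
    {V W2 : Eis → ℝ} {W2' : Eis → Eis → ℝ} (hk0 : k0 = P * c1) (hP : 0 ≤ P) (hK : K ≤ P)
    (hk : 0 < k0) (hr : 0 < r) (hm : 0 < m) (hn : 0 < n) (hMS0 : 0 ≤ MS)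
    (hV : ∀ f ∈ Fs, ∀ δ ∈ Dl f, 0 < V δ)
    (hMS : MS ≤ c1 * (m * ∑ f ∈ Fs, ∑ δ ∈ Dl f, ((2 * n * k0 * r * m * V δ)⁻¹ * (V δ * Qt) +
      ((2 * n * k0 * r * m * V δ)⁻¹)⁻¹ * W2' f δ)))
    (hB : ∀ f ∈ Fs, ∀ δ ∈ Dl f, 2 * n * (k0 * r * m) ^ 2 * V δ * W2' f δ ≤ Bd) :
    K * (r * MS) ≤ ∑ f ∈ Fs, ∑ δ ∈ Dl f, (Qt / (2 * n) + Bd) * 1 := by
  calc K * (r * MS) ≤ P * (r * MS) := mul_le_mul_of_nonneg_right hK (by positivity)
    _ ≤ P * (r * (c1 * (m * ∑ f ∈ Fs, ∑ δ ∈ Dl f,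
        ((2 * n * k0 * r * m * V δ)⁻¹ * (V δ * Qt) +
      ((2 * n * k0 * r * m * V δ)⁻¹)⁻¹ * W2' f δ)))) := by
        refine mul_le_mul_of_nonneg_left ?_ hP
        exact mul_le_mul_of_nonneg_left hMS hr.le
    _ = k0 * (r * (m * ∑ f ∈ Fs, ∑ δ ∈ Dl f,
        ((2 * n * k0 * r * m * V δ)⁻¹ * (V δ * Qt) +
      ((2 * n * k0 * r * m * V δ)⁻¹)⁻¹ * W2' f δ))) := by rw [hk0]; ring
    _ = ∑ f ∈ Fs, ∑ δ ∈ Dl f, k0 * (r * (m *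
        ((2 * n * k0 * r * m * V δ)⁻¹ * (V δ * Qt) +
      ((2 * n * k0 * r * m * V δ)⁻¹)⁻¹ * W2' f δ))) := by
        rw [Finset.mul_sum, Finset.mul_sum, Finset.mul_sum]
        refine Finset.sum_congr rfl fun f _ => ?_
        rw [Finset.mul_sum, Finset.mul_sum, Finset.mul_sum]
    _ ≤ _ := by
        refine Finset.sum_le_sum fun f hf => Finset.sum_le_sum fun δ hδ => ?_
        rw [tuple_arith hk hr hm hn (hV f hf δ hδ), mul_one]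
        have := hB f hf δ hδ
        linarith

/-- (BD) for the family -/
lemma sum_bd {v : ℝ → ℝ} (hv : Wgt v) {R C0 : ℝ} (hR : 0 ≤ R) {A B : ℕ} (hk : KT v (R + 3) A B C0)
    (hA : 1 < A) (hB1 : 1 < B) {Z N X Δ Y : ℝ} (hZ : 0 ≤ Z) (hN : 0 < N) (hΔ1 : 1 ≤ Δ)
    (hY1 : 1 ≤ Y) {ka : Eis} {ι : Type} {Q : Finset ι} {b : ι → Eis → ℂ} {𝒟 : ι → Finset Eis}
    (hF : DFam R Z N Δ ka Q b 𝒟) {Xq : ι → ℝ} (hXq : ∀ q ∈ Q, 0 < Xq q ∧ Xq q ≤ X)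
    {s : Eis} (hs : SU s) {g l l₁ : Eis} (hg : IsPrim g) (hl : IsPrim l) (hl₁ : IsPrim l₁)
    (hcl : IsCoprime (g * l₁) l) (hhY : g * l₁ ∈ S Y)
    (hN1 : (nm l₁ : ℝ) * Real.exp (R + 3) < N * Δ) (c : ι → Eis → ℂ) {Qq : ι → ℝ}
    (hQ0 : ∀ q ∈ Q, 0 ≤ Qq q)
    (hdual : ∀ q ∈ Q, Sh v (Xq q) (pt s) (bg (BB (𝒟 q) (c q) (b q)) g l) (g * l₁) =
      ((Qq q : ℝ) : ℂ))
    (huS : ∀ q ∈ Q, ∀ n, bg (BB (𝒟 q) (c q) (b q)) g l n ≠ 0 → n ∈ S Y) :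
    ∑ q ∈ Q, Qq q ≤ ∑ d ∈ S Y, ∑ e ∈ pdiv d,
      (2 * C0 * (X / Real.sqrt (N * Δ * nm l / nm g * nm (g * l₁)))) *
      ((nm d / nm e : ℝ) * ∑ q ∈ Q, ModeS A B (9 * s) (pt s) (Xq q) (N * Δ * nm l / nm g)
        (nm (g * l₁)) Y (bg (BB (𝒟 q) (c q) (b q)) g l) (Pi.single (g * l₁) 1) d e) := by
  refine (Finset.sum_le_sum fun q hq => bd_one hv hR hk hA hB1 hZ hN hΔ1 hY1 hF hq (hXq q hq).1
    (hXq q hq).2 hs hg hl hl₁ hcl hhY hN1 (c q) (hQ0 q hq) (hdual q hq) (huS q hq)).trans ?_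
  refine le_of_eq ?_
  rw [← Finset.mul_sum, Finset.sum_comm, Finset.mul_sum]
  refine Finset.sum_congr rfl fun d _ => ?_
  rw [Finset.sum_comm, Finset.mul_sum]
  refine Finset.sum_congr rfl fun e _ => ?_
  rw [← Finset.mul_sum]

/-- the sum over the pairs, abstractly -/
lemma pairs_sum {Ps : Finset Eis} {Es : Eis → Finset Eis} {Fs : Eis → Finset Eis}
    {Dl : Eis → Eis → Finset Eis} {K Qt n Bd : ℝ} {r MS : Eis → Eis → ℝ} (hn : 0 < n)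
    (hQ0 : 0 ≤ Qt) (hBd : 0 ≤ Bd)
    (h1 : Qt ≤ ∑ d ∈ Ps, ∑ e ∈ Es d, K * (r d e * MS d e))
    (h2 : ∀ d ∈ Ps, ∀ e ∈ Es d, K * (r d e * MS d e) ≤
      ∑ f ∈ Fs d, ∑ δ ∈ Dl d f, (Qt / (2 * n) + Bd) * 1)
    (h3 : ∑ d ∈ Ps, ∑ e ∈ Es d, ∑ f ∈ Fs d, ∑ δ ∈ Dl d f, (1 : ℝ) ≤ n) :
    Qt ≤ 2 * n * Bd := by
  refine fin_arith hn (h1.trans ?_)
  refine (Finset.sum_le_sum fun d hd => Finset.sum_le_sum fun e he => h2 d hd e he).trans ?_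
  simp only [← Finset.mul_sum]
  refine mul_le_mul_of_nonneg_left h3 ?_
  have : 0 ≤ Qt / (2 * n) := div_nonneg hQ0 (by positivity)
  linarith

end Crest.Agent.R017.PoD50
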