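import Crest.Agent.R017.PoDx2_50

/-!
# Row 17, E3 class E: the `D`-side in classes and the number of principal frequencies (helper72)

* `cr_lsx` : the large sieve on the `D`-side, in classes
* `cnt_x` : the number of principal frequencies of a tuple
-/

set_option autoImplicit false
set_option linter.unusedVariables false

noncomputable section

open Complex MeasureTheory
open scoped ComplexConjugate Classical

namespace Crest.Agent.R017.PoDy72

open Crest.Agent.R012 Crest.Agent.R012.Eis Crest.Agent.R012.MC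
open Crest.Agent.R012.LS2 (S mem_S bl mem_bl)
open Crest.Agent.R012.Mob705 (mu pdiv mem_pdiv abs_mu_le_one sum_mu_coprime)
open Crest.Agent.R012.Tau671 (norm_sy_le)
open Crest.Agent.R012.NonCube52 (Ker kv Good nm_kv)
open Crest.Agent.R012.Weight600 (osc pw norm_osc)
open Crest.Agent.R017.CM106 (CS TG norm_Gsy_le)
open Crest.Agent.R017.E1551 (nmpos jb jb_pos integrable_jb integrable_jb_mul nm_ge_one)
open Crest.Agent.R017.BD829
open Crest.Agent.R017.PoH347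
open Crest.Agent.R017.Mode405 (VI Slp)
open Crest.Agent.R017.E3D579 (bt)
open Crest.Agent.R017.StA828 (gp gp_spec gp_eq)
open Crest.Agent.R017.PoD50
open Crest.Agent.R017.PoDx50
open Crest.Agent.R017.PoHx72
open Crest.Agent.R017.MX744

/-- the coefficients on the `D`-side at `δ = 1` -/
lemma cr_one_le {𝒟 : Finset Eis} {c : Eis → ℂ} {γ r m : Eis} (hγ : IsPrim γ) :
    ‖cr 𝒟 c γ 1 r m‖ ^ 2 ≤ if m ∈ 𝒟 ∧ r ∣ m then ‖c m‖ ^ 2 else 0 := by
  unfold PoD50.cr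
  rw [one_mul]
  by_cases h1 : m ∈ 𝒟 ∧ r ∣ m
  · rw [if_pos h1]
    split_ifs
    · rw [norm_mul, mul_pow]
      refine mul_le_of_le_one_right (by positivity) ?_
      refine pow_le_one₀ (norm_nonneg _) ?_
      rw [EuclideanDomain.div_one]
      exact norm_sy_le hγ
    · simp
  · rw [if_neg h1, if_neg fun h => h1 ⟨h.1, h.2.2⟩]
    simp

lemma cr_one_supp {𝒟 : Finset Eis} {c : Eis → ℂ} {γ r m : Eis} (h : cr 𝒟 c γ 1 r m ≠ 0) :
    m ∈ 𝒟 := by
  unfold PoD50.cr at h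
  by_contra h1
  rw [one_mul, if_neg fun h2 => h1 h2.1] at h
  exact h rfl

/-- the trivial bound of a mean square on the `D`-side -/
lemma EQ_cr_le {A : ℝ} (hA : 1 < A) {Δ : ℝ} (hΔ : 0 ≤ Δ) {𝒟 : Finset Eis} (hD : 𝒟 ⊆ S Δ)
    (c : Eis → ℂ) {γ : Eis} (hγ : IsPrim γ) (r H : Eis) :
    EQ A (cr 𝒟 c γ 1 r) H ≤ (∫ t, jb A t) *
      ((𝒟.card : ℝ) * ∑ m ∈ 𝒟, if r ∣ m then ‖c m‖ ^ 2 else 0) := by
  have hsupp : ∀ n, cr 𝒟 c γ 1 r n ≠ 0 → n ∈ S Δ := fun n hn => hD (cr_one_supp hn)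
  have hB : ∀ t, ‖TT (cr 𝒟 c γ 1 r) H t‖ ^ 2 ≤
      (𝒟.card : ℝ) * ∑ m ∈ 𝒟, if r ∣ m then ‖c m‖ ^ 2 else 0 := by
    intro t
    have h1 := norm_TT_le hΔ hsupp H t
    have h2 : ∑ k ∈ S Δ, ‖cr 𝒟 c γ 1 r k‖ = ∑ k ∈ 𝒟, ‖cr 𝒟 c γ 1 r k‖ := by
      symm
      refine Finset.sum_subset hD fun x _ hx => ?_
      have : cr 𝒟 c γ 1 r x = 0 := by
        by_contra h3
        exact hx (cr_one_supp h3)
      rw [this, norm_zero]
    rw [h2] at h1
    have h3 : (∑ k ∈ 𝒟, ‖cr 𝒟 c γ 1 r k‖) ^ 2 ≤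
        (𝒟.card : ℝ) * ∑ k ∈ 𝒟, ‖cr 𝒟 c γ 1 r k‖ ^ 2 := sq_sum_le_card_mul_sum_sq
    refine (pow_le_pow_left₀ (norm_nonneg _) h1 2).trans (h3.trans ?_)
    refine mul_le_mul_of_nonneg_left (Finset.sum_le_sum fun k hk => ?_) (Nat.cast_nonneg _)
    refine (cr_one_le hγ).trans (le_of_eq ?_)
    simp [hk]
  unfold BD829.EQ
  rw [mul_comm, ← integral_const_mul]
  refine integral_mono_of_nonneg (Filter.Eventually.of_forall fun t =>
    mul_nonneg (jb_pos A t).le (by positivity)) ((integrable_jb hA).const_mul _)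
    (Filter.Eventually.of_forall fun t => ?_)
  beta_reduce
  rw [mul_comm]
  exact mul_le_mul_of_nonneg_right (hB t) (jb_pos A t).le

/-- **the large sieve on the `D`-side, in classes** -/
theorem cr_lsx {A : ℝ} (hA : 1 < A) {ε : ℝ} (hε : 0 < ε) : ∃ C : ℝ, 0 < C ∧ CrLSx A ε C := by
  obtain ⟨C, hC, h⟩ := cr_ls hA hε
  have hJ : 0 ≤ ∫ t, jb A t := integral_nonneg fun t => (jb_pos A t).le
  refine ⟨C + ∫ t, jb A t, by linarith, ?_⟩
  intro Δ L T hΔ1 hL hT 𝒟 hD Rs hRs c γ hγ g0 P v Nd hv hNd hcard j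
  have hΔ : 0 ≤ Δ := by linarith
  have hL0 : 0 ≤ L := by linarith
  have hS2 : 0 ≤ ∑ D ∈ 𝒟, ‖c D‖ ^ 2 := Finset.sum_nonneg fun _ _ => by positivity
  have hT0 : 0 ≤ T := (Nat.cast_nonneg _).trans (hT 1 ((mem_S hΔ).mpr ⟨by
    rw [nm_one]; simpa using hΔ1, isPrim_one, squarefree_one⟩))
  have hLε : 1 ≤ (L * Δ) ^ ε :=
    Real.one_le_rpow (one_le_mul_of_one_le_of_one_le hL hΔ1) hε.le
  cases j with
  | false =>
    have h1 : ∑ r ∈ Rs, ∑ k ∈ bl L,
        (if Cls (P r) false (k * g0) then EQ A (cr 𝒟 c γ 1 r) (k * g0) else 0) ≤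
        ∑ r ∈ Rs, ∑ k ∈ bl L, EQ A (cr 𝒟 c γ 1 r) (k * g0) := by
      refine Finset.sum_le_sum fun r _ => Finset.sum_le_sum fun k _ => ?_
      have := EQ_nonneg A (cr 𝒟 c γ 1 r) (k * g0)
      split_ifs <;> linarith
    have h2 := h Δ L T hΔ1 hL hT 𝒟 hD Rs hRs c γ 1 hγ
      ((mem_pdiv hγ.ne_zero).mpr ⟨isPrim_one, one_dvd _⟩) g0
    rw [nm_one, Nat.cast_one, div_one] at h2
    refine h1.trans (h2.trans ?_)
    unfold PoDx50.ndx
    rw [if_neg (by simp)]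
    have hn := nrm_nonneg hΔ hL0
    have h3 : 0 ≤ T * ∑ D ∈ 𝒟, ‖c D‖ ^ 2 := mul_nonneg hT0 hS2
    have h4 : C ≤ C + ∫ t, jb A t := by linarith
    gcongr
  | true =>
    have hn0 : 0 ≤ Nd := (Nat.cast_nonneg _).trans hNd
    have hLp : 0 ≤ L ^ (1 / 3 : ℝ) := by positivity
    have h1 : ∀ r ∈ Rs, ∑ k ∈ bl L,
        (if Cls (P r) true (k * g0) then EQ A (cr 𝒟 c γ 1 r) (k * g0) else 0) ≤
        (18 * v * L ^ (1 / 3 : ℝ)) * ((∫ t, jb A t) *
          (Nd * ∑ m ∈ 𝒟, if r ∣ m then ‖c m‖ ^ 2 else 0)) := by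
      intro r hr
      have hs0 : 0 ≤ ∑ m ∈ 𝒟, (if r ∣ m then ‖c m‖ ^ 2 else 0) :=
        Finset.sum_nonneg fun _ _ => by split_ifs <;> positivity
      have e1 : ∑ k ∈ bl L,
          (if Cls (P r) true (k * g0) then EQ A (cr 𝒟 c γ 1 r) (k * g0) else 0) =
          ∑ k ∈ (bl L).filter (fun k => P r (k * g0)), EQ A (cr 𝒟 c γ 1 r) (k * g0) := by
        rw [Finset.sum_filter]
        refine Finset.sum_congr rfl fun k _ => ?_
        unfold PoHx72.Cls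
        simp only [if_true]
      rw [e1]
      calc ∑ k ∈ (bl L).filter (fun k => P r (k * g0)), EQ A (cr 𝒟 c γ 1 r) (k * g0)
          ≤ ∑ k ∈ (bl L).filter (fun k => P r (k * g0)), (∫ t, jb A t) *
            (Nd * ∑ m ∈ 𝒟, if r ∣ m then ‖c m‖ ^ 2 else 0) := by
            refine Finset.sum_le_sum fun k _ => (EQ_cr_le hA hΔ hD c hγ r _).trans ?_
            gcongr
        _ = (((bl L).filter (fun k => P r (k * g0))).card : ℝ) * ((∫ t, jb A t) *
            (Nd * ∑ m ∈ 𝒟, if r ∣ m then ‖c m‖ ^ 2 else 0)) := by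
            rw [Finset.sum_const, nsmul_eq_mul]
        _ ≤ _ := mul_le_mul_of_nonneg_right (hcard r hr) (by positivity)
    refine (Finset.sum_le_sum h1).trans ?_
    rw [← Finset.mul_sum, ← Finset.mul_sum, ← Finset.mul_sum, Finset.sum_comm]
    have h2 : ∑ m ∈ 𝒟, ∑ r ∈ Rs, (if r ∣ m then ‖c m‖ ^ 2 else 0) ≤
        T * ∑ D ∈ 𝒟, ‖c D‖ ^ 2 := by
      rw [Finset.mul_sum]
      refine Finset.sum_le_sum fun m hm => ?_
      rw [← Finset.sum_filter, Finset.sum_const, nsmul_eq_mul]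
      refine mul_le_mul_of_nonneg_right ?_ (by positivity)
      refine le_trans ?_ (hT m (hD hm))
      have hm0 : m ≠ 0 := ((mem_S hΔ).1 (hD hm)).2.1.ne_zero
      unfold Div277.tau
      norm_cast
      refine Finset.card_le_card fun r hr => ?_
      obtain ⟨hr1, hr2⟩ := Finset.mem_filter.mp hr
      exact (mem_pdiv hm0).mpr ⟨((mem_S hΔ).1 (hRs hr1)).2.1, hr2⟩
    have h3 : 0 ≤ T * ∑ D ∈ 𝒟, ‖c D‖ ^ 2 := mul_nonneg hT0 hS2
    unfold PoDx50.ndx
    rw [if_pos rfl]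
    calc 18 * v * L ^ (1 / 3 : ℝ) * ((∫ t, jb A t) * (Nd *
          ∑ m ∈ 𝒟, ∑ r ∈ Rs, (if r ∣ m then ‖c m‖ ^ 2 else 0)))
        ≤ 18 * v * L ^ (1 / 3 : ℝ) * ((∫ t, jb A t) * (Nd * (T * ∑ D ∈ 𝒟, ‖c D‖ ^ 2))) := by
          gcongr
      _ = (∫ t, jb A t) * (18 * v * (Nd * L ^ (1 / 3 : ℝ))) * (T * ∑ D ∈ 𝒟, ‖c D‖ ^ 2) := by ring
      _ ≤ ((C + ∫ t, jb A t) * (L * Δ) ^ ε) * (18 * v * (Nd * L ^ (1 / 3 : ℝ))) *
          (T * ∑ D ∈ 𝒟, ‖c D‖ ^ 2) := by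
          have h5 : ∫ t, jb A t ≤ (C + ∫ t, jb A t) * (L * Δ) ^ ε := by
            calc ∫ t, jb A t ≤ C + ∫ t, jb A t := by linarith
              _ ≤ _ := le_mul_of_one_le_right (by linarith) hLε
          gcongr

/-- **the number of principal frequencies of a tuple** -/
theorem cnt_x {Z : ℝ} (hZ : 0 ≤ Z) {b : Eis → ℂ} (hb : ∀ n, b n ≠ 0 → n ∈ S Z)
    {Pr : Eis → Eis → Prop} (hP : PrOK b Pr) {s : Eis} (hs : SU s) {g l d e f r : Eis}
    (hg : IsPrim g) (hl : IsPrim l) (hd : IsPrim d) (he : e ∈ pdiv d) (hf : IsPrim f)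
    (hr : IsPrim r) (hcl : IsCoprime (g * (d * f)) l)
    (hm : ∃ m, b (g * (d * f) * r * m) ≠ 0) {L : ℝ} (hL : 1 ≤ L) :
    (((bl L).filter (fun h => Pr (g * (d * f) * r)
      (h * (s * l * ((e * ((9 * s) * sq3)) ^ 2 * f)) * r))).card : ℝ) ≤
      18 * (nm g * (nm d / nm e) : ℝ) ^ (-(1 / 3) : ℝ) * L ^ (1 / 3 : ℝ) := by
  have he' := (mem_pdiv hd.ne_zero).mp he
  obtain ⟨d', hd''⟩ := he'.2
  have hd'p : IsPrim d' := by
    have : IsPrim (e * d') := by rw [← hd'']; exact hd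
    exact this.of_mul_left he'.1
  have hgdp : IsPrim (g * (d * f) * r) := (hg.mul (hd.mul hf)).mul hr
  have hup : IsPrim (g * d') := hg.mul hd'p
  have hM : (9 * s) ≠ 0 := (LC_pt hs).ne
  have hF0 : s * l * ((e * ((9 * s) * sq3)) ^ 2 * f) * r ≠ 0 :=
    mul_ne_zero (mul_ne_zero (mul_ne_zero hs.ne hl.ne_zero) (mul_ne_zero (pow_ne_zero 2
      (mul_ne_zero he'.1.ne_zero (mul_ne_zero hM sq3_ne_zero))) hf.ne_zero)) hr.ne_zero
  obtain ⟨m, hm⟩ := hm
  have hDs0 := (mem_S hZ).1 (hb _ hm)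
  have hDs : Squarefree (g * (d * f) * r) := hDs0.2.2.squarefree_of_dvd ⟨m, rfl⟩
  have h1 := card_u (Q := Pr (g * (d * f) * r)) (hP.cub _ hgdp.ne_zero) (u := g * d')
    hup.ne_zero hF0 hL (fun k hk hQ => ?_)
  · have e9 : (nm (g * d') : ℝ) = nm g * (nm d / nm e) := by
      rw [hd'', nm_mul, nm_mul]
      push_cast
      have := nmpos he'.1.ne_zero
      field_simp
    rw [e9] at h1
    refine le_trans (Nat.cast_le.mpr (Finset.card_le_card ?_)) h1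
    intro k hk
    obtain ⟨hk1, hk2⟩ := Finset.mem_filter.mp hk
    refine Finset.mem_filter.mpr ⟨hk1, ?_⟩
    rw [← mul_assoc k]
    exact hk2
  · -- the divisibility
    have hk' := (mem_bl (by linarith)).1 hk
    have hH0 : k * (s * l * ((e * ((9 * s) * sq3)) ^ 2 * f) * r) ≠ 0 := mul_ne_zero hk'.1 hF0
    obtain ⟨s', t, hst, hsc⟩ := hP.hcp _ _ hgdp hH0 ⟨m, hm⟩ hQ
    have h2 := dvd_of_pr hDs hgdp.ne_zero hsc hst
    have h3 : g * d' ∣ k * (s * l * ((e * ((9 * s) * sq3)) ^ 2 * f) * r) := by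
      refine dvd_trans ?_ h2
      rw [hd'']
      exact ⟨e * f * r, by ring⟩
    -- coprimality
    have hDs' : Squarefree (g * d' * (e * f * r)) := by
      have : g * (d * f) * r = g * d' * (e * f * r) := by rw [hd'']; ring
      rwa [this] at hDs
    have c1 : IsCoprime (g * d') (e * f * r) := cop_of_sqf hDs'
    have c2 : IsCoprime (g * d') s := (hs.cop _ hup).symm
    have c3 : IsCoprime (g * d') (9 * s * sq3) := by
      have h5 : IsCoprime (9 * s) (g * d') := (LC_pt hs).cop _ hup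
      have h6 : IsCoprime sq3 (g * d') := sq3_cop hup
      exact (h5.mul_left h6).symm
    have c4 : IsCoprime (g * d') l :=
      hcl.of_isCoprime_of_dvd_left ⟨e * f, by rw [hd'']; ring⟩
    have ce : IsCoprime (g * d') e := c1.of_mul_right_left.of_mul_right_left
    have cf : IsCoprime (g * d') f := c1.of_mul_right_left.of_mul_right_right
    have cr' : IsCoprime (g * d') r := c1.of_mul_right_right
    have c5 : IsCoprime (g * d') (s * l * ((e * ((9 * s) * sq3)) ^ 2 * f) * r) :=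
      ((c2.mul_right c4).mul_right (((ce.mul_right c3).pow_right).mul_right cf)).mul_right cr'
    exact c5.dvd_of_dvd_mul_right h3

end Crest.Agent.R017.PoDy72
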