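import Crest.Agent.R017.PoD13_50
import Crest.Agent.R017.PoHs_72

/-!
# Row 17, E3 class E: the second form in two classes (helper405, for helper50)

`b_sidex` : the `b`-side from the hypothesis on dilated sequences, one class of frequencies.
-/

set_option autoImplicit false
set_option linter.unusedVariables false

noncomputable section

open Complex MeasureTheory
open scoped ComplexConjugate Classical

namespace Crest.Agent.R017.PoDx50

open Crest.Agent.R012 Crest.Agent.R012.Eis Crest.Agent.R012.MC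
open Crest.Agent.R012.LS2 (S mem_S bl mem_bl)
open Crest.Agent.R012.Mob705 (mu pdiv mem_pdiv)
open Crest.Agent.R017.E1551 (nmpos jb jb_pos nm_ge_one)
open Crest.Agent.R017.BD829
open Crest.Agent.R017.PoH347
open Crest.Agent.R017.Mode405 (VI Slp)
open Crest.Agent.R017.PoD50
open Crest.Agent.R017.PoHx72

/-- **the `b`-side**, one class of frequencies -/
theorem b_sidex (j : Bool) {A : ℝ} {ι : Type} (Q : Finset ι) (b : ι → Eis → ℂ)
    {Pr : ι → Eis → Eis → Prop} {W : ℝ → ℝ} {B0 : ℝ} (hW : HWx j A B0 Q b 1 Pr W) {Δ : ℝ}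
    (hΔ1 : 1 ≤ Δ) {s l M g d d' e f : Eis} (hs0 : s ≠ 0) (hl : IsPrim l) (hM : M ≠ 0)
    (hg : IsPrim g) (hd : IsPrim d) (he : IsPrim e) (hde : d = e * d') (hf : IsPrim f)
    (hB0 : (nm e : ℝ) * nm f * Δ ≤ B0) {L : ℝ} (hL : 1 ≤ L) :
    ∑ q ∈ Q, ∑ r ∈ S Δ, ∑ h ∈ bl L,
      (if Cls (Pr q (g * (d * f) * r)) j (s * l * Hf M e h f * r) then
        EQ A (fun m => b q (g * (d * f) * r * m)) (s * l * Hf M e h f * r) else 0) ≤
      W (L * nm (s * l * (M * sq3) ^ 2 * g ^ 2 * e * d' ^ 2)) * (1 / nm (g * (d * f))) *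
        ∑ r ∈ S Δ, (1 / (nm r : ℝ)) := by
  have hΔ : 0 ≤ Δ := by linarith
  set γ := g * (d * f) with hγd
  have hγ : IsPrim γ := hg.mul (hd.mul hf)
  have nγ := nmpos hγ.ne_zero
  set x := s * l * (M * sq3) ^ 2 * g ^ 2 * e * d' ^ 2 with hx
  have hd'0 : d' ≠ 0 := by
    rintro rfl
    rw [mul_zero] at hde
    exact hd.ne_zero hde
  have hsq3 : sq3 ≠ 0 := sq3_ne_zero
  have hx0 : x ≠ 0 := by
    rw [hx]
    exact mul_ne_zero (mul_ne_zero (mul_ne_zero (mul_ne_zero (mul_ne_zero hs0 hl.ne_zero)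
      (pow_ne_zero _ (mul_ne_zero hM hsq3))) (pow_ne_zero _ hg.ne_zero)) he.ne_zero)
      (pow_ne_zero _ hd'0)
  have h1 : ∀ r ∈ S Δ, ∑ q ∈ Q, ∑ h ∈ bl L,
      (if Cls (Pr q (γ * r)) j (s * l * Hf M e h f * r) then
        EQ A (fun m => b q (γ * r * m)) (s * l * Hf M e h f * r) else 0) ≤
      W (L * nm x) * (1 / nm γ) * (1 / nm r) := by
    intro r hr
    have hrp := ((mem_S hΔ).1 hr).2.1
    have nr := nmpos hrp.ne_zero
    have hgam : IsPrim (γ * r) := hγ.mul hrp
    set phi := s * l * (e * (M * sq3)) ^ 2 * f * r with hphi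
    have hphi0 : phi ≠ 0 := by
      rw [hphi]
      exact mul_ne_zero (mul_ne_zero (mul_ne_zero
        (mul_ne_zero hs0 hl.ne_zero) (pow_ne_zero _ (mul_ne_zero he.ne_zero
        (mul_ne_zero hM hsq3)))) hf.ne_zero) hrp.ne_zero
    have heq : phi * (γ * r) ^ 2 = x * (e * f * r) ^ 3 := by
      rw [hphi, hγd, hde, hx]
      ring
    have hCn : (nm (e * f * r) : ℝ) ≤ B0 := by
      refine le_trans ?_ hB0
      rw [nm_mul, nm_mul]
      push_cast
      exact mul_le_mul_of_nonneg_left ((mem_S hΔ).1 hr).1 (by positivity)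
    have h2 := hW (γ * r) phi x (e * f * r) hgam isCoprime_one_right hphi0 hx0
      (mul_ne_zero (mul_ne_zero he.ne_zero hf.ne_zero) hrp.ne_zero) hCn heq L hL
    have e2 : ∑ q ∈ Q, VIc A (b q) (γ * r) phi 1 L (Cls (Pr q (γ * r)) j) =
        ∑ q ∈ Q, ∑ h ∈ bl L,
        (if Cls (Pr q (γ * r)) j (s * l * Hf M e h f * r) then
          EQ A (fun m => b q (γ * r * m)) (s * l * Hf M e h f * r) else 0) := by
      refine Finset.sum_congr rfl fun q _ => ?_
      unfold VIc
      rw [Finset.sum_filter]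
      refine Finset.sum_congr rfl fun h _ => ?_
      have e3 : (fun m => if IsCoprime m 1 then b q (γ * r * m) else 0) =
          fun m => b q (γ * r * m) := by
        funext m
        rw [if_pos isCoprime_one_right]
      have e4 : h * phi = s * l * Hf M e h f * r := by
        rw [hphi]
        unfold Hf
        ring
      rw [e3, e4]
    rw [e2] at h2
    have e4 : (nm (γ * r) : ℝ) = nm γ * nm r := by rw [nm_mul]; push_cast; rfl
    rw [e4] at h2
    have e5 : W (L * nm x) * (1 / nm γ) * (1 / nm r) = W (L * nm x) / (nm γ * nm r) := by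
      field_simp
    rw [e5, le_div_iff₀ (by positivity)]
    linarith
  rw [Finset.sum_comm]
  refine (Finset.sum_le_sum h1).trans ?_
  rw [← Finset.mul_sum]

end Crest.Agent.R017.PoDx50
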