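import Crest.Agent.R017.PoDx1_72
import Crest.Agent.R017.PoDy1_72
import Crest.Agent.R017.PoDy2_405

/-!
# Row 17, E3 class E: the second form in two classes (helper405, for helper50 / helper72)

`EE_BBx_le` : one mode of the family, amplitude depending on `r`;
`mode_dex` : **the modes of the family at one pair `(d, e)`**, two classes of frequencies.
-/

set_option autoImplicit false
set_option linter.unusedVariables false

noncomputable section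

open Complex MeasureTheory
open scoped ComplexConjugate Classical

namespace Crest.Agent.R017.PoDw405

open Crest.Agent.R012 Crest.Agent.R012.Eis Crest.Agent.R012.MC
open Crest.Agent.R012.LS2 (S mem_S bl mem_bl)
open Crest.Agent.R012.Mob705 (mu pdiv mem_pdiv abs_mu_le_one sum_mu_coprime)
open Crest.Agent.R012.Tau671 (norm_sy_le)
open Crest.Agent.R012.NonCube52 (Ker kv Good nm_kv)
open Crest.Agent.R012.Weight600 (osc pw norm_osc)
open Crest.Agent.R017.PX764 (Gh)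
open Crest.Agent.R017.CM106 (CS TG norm_Gsy_le)
open Crest.Agent.R017.E1551 (nmpos jb jb_pos integrable_jb integrable_jb_mul nm_ge_one)
open Crest.Agent.R017.BD829
open Crest.Agent.R017.PoH347
open Crest.Agent.R017.Mode405 (VI Slp)
open Crest.Agent.R017.E3D579 (bt)
open Crest.Agent.R017.StA828 (gp gp_spec gp_eq)
open Crest.Agent.R017.PoD50
open Crest.Agent.R017.PoDx50
open Crest.Agent.R017.PoHx72
open Crest.Agent.R017.MX744
open Crest.Agent.R017.PoDx72 (norm_TT_BB1)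
open Crest.Agent.R017.PoDy72 (cnt_x)
open Gauss880 (syG)

/-- the mean squares of one block, no common divisor, amplitude depending on `r` -/
def Q1y (A : ℝ) (𝒟 : Finset Eis) (Rs : Finset Eis) (c b : Eis → ℂ) (γ H : Eis) (ρ : Eis → ℝ) :
    ℝ :=
  ∑ r ∈ Rs, (ρ r * EQ A (cr 𝒟 c γ 1 r) H + (ρ r)⁻¹ * EQ A (fun m => b (γ * r * m)) (H * r))

lemma Q1y_nonneg {A : ℝ} {𝒟 Rs : Finset Eis} {c b : Eis → ℂ} {γ H : Eis} {ρ : Eis → ℝ}
    (hρ : ∀ r, 0 < ρ r) : 0 ≤ Q1y A 𝒟 Rs c b γ H ρ := by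
  unfold Q1y
  refine Finset.sum_nonneg fun r _ => ?_
  have h1 := EQ_nonneg A (cr 𝒟 c γ 1 r) H
  have h2 := EQ_nonneg A (fun m => b (γ * r * m)) (H * r)
  have h3 := hρ r
  positivity

lemma integral_BBx_le {A : ℝ} (hA : 1 < A) {Z Δ : ℝ} (hZ : 0 ≤ Z) (hΔ : 0 ≤ Δ) {b : Eis → ℂ}
    (hb : ∀ n, b n ≠ 0 → n ∈ S Z) {𝒟 : Finset Eis} (hD : 𝒟 ⊆ S Δ) (c : Eis → ℂ) {γ : Eis}
    (hγ : IsPrim γ) (hcD : ∀ D ∈ 𝒟, IsCoprime γ D) (H : Eis) {ρ : Eis → ℝ} (hρ : ∀ r, 0 < ρ r) :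
    ∫ t, jb A t * ‖TT (fun n => BB 𝒟 c b (γ * n)) H t‖ ≤
      Q1y A 𝒟 ((S Δ).filter fun r => ∃ m, b (γ * r * m) ≠ 0) c b γ H ρ := by
  set Rs := (S Δ).filter fun r => ∃ m, b (γ * r * m) ≠ 0 with hRs
  have hcs : ∀ r, ∀ n, cr 𝒟 c γ 1 r n ≠ 0 → n ∈ S Δ := by
    intro r n hn
    have h1 := (cr_supp hΔ hD c isPrim_one n hn).1
    rw [nm_one, Nat.cast_one, div_one] at h1
    exact h1
  have hbs : ∀ r ∈ Rs, ∀ n, b (γ * r * n) ≠ 0 → n ∈ S Z := by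
    intro r hr n hn
    have hr' := ((mem_S hΔ).1 (Finset.mem_filter.mp hr).1).2.1
    exact mul_supp hZ hb (hγ.mul hr') n hn
  have i1 : ∀ r, Integrable fun t => jb A t * ‖TT (cr 𝒟 c γ 1 r) H t‖ ^ 2 :=
    fun r => integrable_EQ hA hΔ (hcs r) H
  have i2 : ∀ r ∈ Rs, Integrable fun t =>
      jb A t * ‖TT (fun m => b (γ * r * m)) (H * r) t‖ ^ 2 :=
    fun r hr => integrable_EQ hA hZ (hbs r hr) _
  have hpt : ∀ t, ‖TT (fun n => BB 𝒟 c b (γ * n)) H t‖ ≤ ∑ r ∈ Rs,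
      (ρ r * ‖TT (cr 𝒟 c γ 1 r) H t‖ ^ 2 +
        (ρ r)⁻¹ * ‖TT (fun m => b (γ * r * m)) (H * r) t‖ ^ 2) := by
    intro t
    refine (norm_TT_BB1 hZ hΔ hb hD c hγ hcD H t).trans ?_
    have e1 : ∑ r ∈ S Δ,
        ‖TT (cr 𝒟 c γ 1 r) H t‖ * ‖TT (fun m => b (γ * r * m)) (H * r) t‖ =
        ∑ r ∈ Rs,
        ‖TT (cr 𝒟 c γ 1 r) H t‖ * ‖TT (fun m => b (γ * r * m)) (H * r) t‖ := by
      rw [hRs, Finset.sum_filter]
      refine Finset.sum_congr rfl fun r _ => ?_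
      split_ifs with h1
      · rfl
      · have h2 : ∀ n, (fun m => b (γ * r * m)) n = 0 := by
          intro n
          by_contra h3
          exact h1 ⟨n, h3⟩
        rw [TT_zero h2, norm_zero, mul_zero]
    rw [e1]
    refine Finset.sum_le_sum fun r _ => ?_
    have hρr := hρ r
    set x := ‖TT (cr 𝒟 c γ 1 r) H t‖
    set y := ‖TT (fun m => b (γ * r * m)) (H * r) t‖
    have hx : 0 ≤ x := norm_nonneg _
    have hy : 0 ≤ y := norm_nonneg _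
    have h6 : 0 ≤ ρ r * (x - (ρ r)⁻¹ * y) ^ 2 := by positivity
    have h8 : ρ r * (ρ r)⁻¹ = 1 := mul_inv_cancel₀ hρr.ne'
    have h7 : ρ r * (x - (ρ r)⁻¹ * y) ^ 2 = ρ r * x ^ 2 - 2 * (x * y) + (ρ r)⁻¹ * y ^ 2 := by
      linear_combination (-2 * (x * y) + (ρ r)⁻¹ * y ^ 2) * h8
    have h9 : 0 ≤ x * y := mul_nonneg hx hy
    linarith
  have i3 : ∀ r ∈ Rs, Integrable fun t =>
      (ρ r * (jb A t * ‖TT (cr 𝒟 c γ 1 r) H t‖ ^ 2) +
        (ρ r)⁻¹ * (jb A t * ‖TT (fun m => b (γ * r * m)) (H * r) t‖ ^ 2)) :=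
    fun r hr => ((i1 r).const_mul _).add ((i2 r hr).const_mul _)
  have hint : Integrable fun t => ∑ r ∈ Rs,
      (ρ r * (jb A t * ‖TT (cr 𝒟 c γ 1 r) H t‖ ^ 2) +
        (ρ r)⁻¹ * (jb A t * ‖TT (fun m => b (γ * r * m)) (H * r) t‖ ^ 2)) :=
    integrable_finsetSum _ fun r hr => i3 r hr
  have h1 : ∫ t, jb A t * ‖TT (fun n => BB 𝒟 c b (γ * n)) H t‖ ≤
      ∫ t, ∑ r ∈ Rs,
      (ρ r * (jb A t * ‖TT (cr 𝒟 c γ 1 r) H t‖ ^ 2) +
        (ρ r)⁻¹ * (jb A t * ‖TT (fun m => b (γ * r * m)) (H * r) t‖ ^ 2)) := by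
    refine integral_mono_of_nonneg (Filter.Eventually.of_forall fun t =>
      mul_nonneg (jb_pos A t).le (norm_nonneg _)) hint (Filter.Eventually.of_forall fun t => ?_)
    beta_reduce
    refine (mul_le_mul_of_nonneg_left (hpt t) (jb_pos A t).le).trans (le_of_eq ?_)
    rw [Finset.mul_sum]
    refine Finset.sum_congr rfl fun r _ => ?_
    ring
  refine h1.trans (le_of_eq ?_)
  unfold Q1y EQ
  rw [integral_finsetSum _ i3]
  refine Finset.sum_congr rfl fun r hr => ?_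
  rw [integral_add ((i1 r).const_mul _) ((i2 r hr).const_mul _), integral_const_mul,
    integral_const_mul]

/-- **one mode of the family against one character**, amplitude depending on `r` -/
theorem EE_BBx_le {A : ℝ} (hA : 1 < A) {Z Δ Y : ℝ} (hZ : 0 ≤ Z) (hΔ : 0 ≤ Δ) (hY : 0 ≤ Y)
    {b : Eis → ℂ} (hb : ∀ n, b n ≠ 0 → n ∈ S Z) {𝒟 : Finset Eis} (hD : 𝒟 ⊆ S Δ)
    (c : Eis → ℂ) {g l l₁ : Eis} (hg : IsPrim g)
    (hl : IsPrim l) (hcl : IsCoprime (g * l₁) l)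
    (hcD : ∀ D ∈ 𝒟, IsCoprime (g * l₁) D) (hh : g * l₁ ∈ S Y)
    (hs : ∀ n, bg (BB 𝒟 c b) g l n ≠ 0 → n ∈ S Y) (s : Eis) {d f : Eis} (hd : IsPrim d)
    (hf : IsPrim f) (H : Eis) {ρ : Eis → ℝ} (hρ : ∀ r, 0 < ρ r) :
    EE A (rs (bg (BB 𝒟 c b) g l) (pt s) d f)
      (rs (Pi.single (g * l₁) 1) (fun m => conj (pt s m)) d f) H ≤
      if d * f ∣ l₁ then
        Q1y A 𝒟 ((S Δ).filter fun r => ∃ m, b (g * (d * f) * r * m) ≠ 0) c b (g * (d * f))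
          (s * l * H) ρ else 0 := by
  have hdf : IsPrim (d * f) := hd.mul hf
  have hγ : IsPrim (g * (d * f)) := hg.mul hdf
  have hQ0 : 0 ≤ if d * f ∣ l₁ then
        Q1y A 𝒟 ((S Δ).filter fun r => ∃ m, b (g * (d * f) * r * m) ≠ 0) c b (g * (d * f))
          (s * l * H) ρ else 0 := by
    split_ifs
    · exact Q1y_nonneg hρ
    · exact le_rfl
  by_cases h1 : d * f ∣ g * l₁
  swap
  · refine le_trans (le_of_eq (EE_zero_right (fun n => ?_) _)) hQ0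
    unfold rs
    rw [Pi.single_eq_of_ne, zero_mul]
    intro h2
    exact h1 ⟨n, h2.symm⟩
  have hdl : IsCoprime (d * f) l := hcl.of_isCoprime_of_dvd_left h1
  have hZΔ : 0 ≤ Δ * Z := mul_nonneg hΔ hZ
  have hrs : ∀ n, rs (bg (BB 𝒟 c b) g l) (pt s) d f n ≠ 0 → n ∈ S Y :=
    fun n hn => rs_supp hY hs (pt s) hd hf n hn
  have h2 := EE_single_le hA hY hrs (ψ := fun m => conj (pt s m)) (fun n hn => by
    rw [RCLike.norm_conj]; exact norm_pt_le s hn) hd hf hh H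
  refine h2.trans ?_
  have hTT := fun t => TT_bgs hZΔ (BB_supp hZ hΔ hb hD c) hg hl hdf hdl s H t
  by_cases h3 : IsCoprime (d * f) (g * l)
  · have h4 : d * f ∣ l₁ := (h3.of_mul_right_left).dvd_of_dvd_mul_left h1
    have hγd : g * (d * f) ∣ g * l₁ := mul_dvd_mul_left g h4
    have hcγ : ∀ D ∈ 𝒟, IsCoprime (g * (d * f)) D :=
      fun D hD1 => (hcD D hD1).of_isCoprime_of_dvd_left hγd
    rw [if_pos h4]
    refine le_trans ?_ (integral_BBx_le hA hZ hΔ hb hD c hγ hcγ (s * l * H) hρ)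
    have hsup2 : ∀ n, BB 𝒟 c b (g * (d * f) * n) ≠ 0 → n ∈ S (Δ * Z) :=
      fun n hn => mul_supp hZΔ (BB_supp hZ hΔ hb hD c) hγ n hn
    have hint : Integrable fun t => jb A t *
        ‖TT (fun n => BB 𝒟 c b (g * (d * f) * n)) (s * l * H) t‖ :=
      integrable_jb_mul hA ((continuous_TT hsup2 _).norm)
        (B := ∑ k ∈ S (Δ * Z), ‖BB 𝒟 c b (g * (d * f) * k)‖) fun t => by
        rw [abs_of_nonneg (norm_nonneg _)]
        exact norm_TT_le hZΔ hsup2 _ t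
    refine integral_mono_of_nonneg (Filter.Eventually.of_forall fun t =>
      mul_nonneg (jb_pos A t).le (norm_nonneg _)) hint
      (Filter.Eventually.of_forall fun t => ?_)
    beta_reduce
    refine mul_le_mul_of_nonneg_left ?_ (jb_pos A t).le
    unfold rs
    rw [hTT t, if_pos h3, norm_mul]
    refine mul_le_of_le_one_left (norm_nonneg _) ?_
    rw [norm_mul, norm_mul, norm_pw, mul_one]
    exact mul_le_one₀ (norm_pt_le s hl) (norm_nonneg _) (norm_Gsy_le hl)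
  · have h4 : ∫ t, jb A t * ‖TT (rs (bg (BB 𝒟 c b) g l) (pt s) d f) H t‖ = 0 := by
      have : (fun t => jb A t * ‖TT (rs (bg (BB 𝒟 c b) g l) (pt s) d f) H t‖) = fun _ => 0 := by
        funext t
        unfold rs
        rw [hTT t, if_neg h3, zero_mul, norm_zero, mul_zero]
      rw [this]; simp
    rw [h4]
    exact hQ0

/-- splitting one block into the two classes -/
lemma Q1y_cls {A : ℝ} {𝒟 Rs : Finset Eis} {c b : Eis → ℂ} {γ H : Eis} (P : Eis → Eis → Prop)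
    (ρ : Bool → ℝ) :
    Q1y A 𝒟 Rs c b γ H (fun r => ρ (decide (P r (H * r)))) =
      ∑ j : Bool, (ρ j * (∑ r ∈ Rs, if Cls (P r) j (H * r) then EQ A (cr 𝒟 c γ 1 r) H else 0) +
        (ρ j)⁻¹ * (∑ r ∈ Rs, if Cls (P r) j (H * r) then
          EQ A (fun m => b (γ * r * m)) (H * r) else 0)) := by
  unfold Q1y
  rw [Fintype.sum_bool]
  simp only [Finset.mul_sum]
  rw [← Finset.sum_add_distrib, ← Finset.sum_add_distrib, ← Finset.sum_add_distrib]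
  refine Finset.sum_congr rfl fun r _ => ?_
  unfold Cls
  by_cases h : P r (H * r)
  · simp [h]
  · simp [h]

/-- reordering of the sums, two classes -/
lemma reorderx {ι : Type} (A : ℝ) (Q : Finset ι) (Fs Ks : Finset Eis)
    (Rs : ι → Eis → Finset Eis) (𝒟 : ι → Finset Eis)
    (c b : ι → Eis → ℂ) (G : Eis → Eis) (H : Eis → Eis → Eis) (P : ι → Eis → Eis → Eis → Prop)
    (ρ : Eis → Bool → ℝ) :
    ∑ k ∈ Ks, ∑ q ∈ Q, ∑ f ∈ Fs, Q1y A (𝒟 q) (Rs q f) (c q) (b q) (G f) (H k f)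
        (fun r => ρ f (decide (P q f r (H k f * r)))) =
      ∑ f ∈ Fs, ∑ j : Bool, (ρ f j * (∑ q ∈ Q, ∑ r ∈ Rs q f, ∑ k ∈ Ks,
          if Cls (P q f r) j (H k f * r) then EQ A (cr (𝒟 q) (c q) (G f) 1 r) (H k f) else 0) +
        (ρ f j)⁻¹ * (∑ q ∈ Q, ∑ r ∈ Rs q f, ∑ k ∈ Ks,
          if Cls (P q f r) j (H k f * r) then
            EQ A (fun m => b q (G f * r * m)) (H k f * r) else 0)) := by
  have e2 : ∀ k ∈ Ks, ∑ q ∈ Q, ∑ f ∈ Fs, Q1y A (𝒟 q) (Rs q f) (c q) (b q) (G f) (H k f)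
        (fun r => ρ f (decide (P q f r (H k f * r)))) =
      ∑ f ∈ Fs, ∑ q ∈ Q, Q1y A (𝒟 q) (Rs q f) (c q) (b q) (G f) (H k f)
        (fun r => ρ f (decide (P q f r (H k f * r)))) :=
    fun k _ => Finset.sum_comm
  rw [Finset.sum_congr rfl e2, Finset.sum_comm]
  refine Finset.sum_congr rfl fun f _ => ?_
  have e3 : ∀ k ∈ Ks, ∑ q ∈ Q, Q1y A (𝒟 q) (Rs q f) (c q) (b q) (G f) (H k f)
        (fun r => ρ f (decide (P q f r (H k f * r)))) =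
      ∑ j : Bool, ∑ q ∈ Q, (ρ f j * (∑ r ∈ Rs q f,
        if Cls (P q f r) j (H k f * r) then EQ A (cr (𝒟 q) (c q) (G f) 1 r) (H k f) else 0) +
        (ρ f j)⁻¹ * (∑ r ∈ Rs q f, if Cls (P q f r) j (H k f * r) then
          EQ A (fun m => b q (G f * r * m)) (H k f * r) else 0)) := by
    intro k _
    rw [Finset.sum_comm]
    exact Finset.sum_congr rfl fun q _ => Q1y_cls (P q f) (ρ f)
  rw [Finset.sum_congr rfl e3, Finset.sum_comm]
  refine Finset.sum_congr rfl fun j _ => ?_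
  rw [Finset.sum_comm, Finset.mul_sum, Finset.mul_sum, ← Finset.sum_add_distrib]
  refine Finset.sum_congr rfl fun q _ => ?_
  rw [Finset.sum_add_distrib, ← Finset.mul_sum, ← Finset.mul_sum]
  congr 1
  · rw [Finset.sum_comm]
  · rw [Finset.sum_comm]

lemma ndx_nonneg {j : Bool} {v Nd Δ L : ℝ} (hv : 0 ≤ v) (hNd : 0 ≤ Nd) (hΔ : 0 ≤ Δ)
    (hL : 0 ≤ L) : 0 ≤ ndx j v Nd Δ L := by
  unfold ndx
  split_ifs
  · positivity
  · exact nrm_nonneg hΔ hL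

lemma ndx_dbl {j : Bool} {v Nd Δ L : ℝ} (hv : 0 ≤ v) (hNd : 0 ≤ Nd) (hΔ : 0 ≤ Δ)
    (hL : 0 ≤ L) : ndx j v Nd Δ (2 * L) ≤ 2 * ndx j v Nd Δ L := by
  unfold ndx
  split_ifs
  · have h1 : (2 * L) ^ (1 / 3 : ℝ) ≤ 2 * L ^ (1 / 3 : ℝ) := by
      rw [Real.mul_rpow (by norm_num) hL]
      refine mul_le_mul_of_nonneg_right ?_ (by positivity)
      calc (2 : ℝ) ^ (1 / 3 : ℝ) ≤ 2 ^ (1 : ℝ) :=
            Real.rpow_le_rpow_of_exponent_le (by norm_num) (by norm_num)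
        _ = 2 := Real.rpow_one 2
    calc 18 * v * (Nd * (2 * L) ^ (1 / 3 : ℝ)) ≤ 18 * v * (Nd * (2 * L ^ (1 / 3 : ℝ))) := by
          gcongr
      _ = _ := by ring
  · exact nrm_smul hΔ hL (by norm_num)

/-- doubling of one summand -/
lemma dbl_onex {a : ℕ} {W : ℝ → ℝ} (hW : Slp a W) {j : Bool} {v Nd C1 ε1 Δ L T Qt ρ x w : ℝ}
    (hC1 : 0 ≤ C1) (hv : 0 ≤ v) (hNd : 0 ≤ Nd)
    (hε1 : ε1 ≤ 1) (hΔ : 0 ≤ Δ) (hL : 0 < L) (hT : 0 ≤ T)
    (hQt : 0 ≤ Qt) (hρ : 0 < ρ) (hx : 0 < x) (hw : 0 ≤ w) :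
    ρ * (C1 * (2 * L * Δ) ^ ε1 * ndx j v Nd Δ (2 * L) * (T * Qt)) + ρ⁻¹ * (W (2 * L * x) * w) ≤
      2 ^ (a + 2) * (ρ * (C1 * (L * Δ) ^ ε1 * ndx j v Nd Δ L * (T * Qt)) +
        ρ⁻¹ * (W (L * x) * w)) := by
  have hnn : 0 ≤ ndx j v Nd Δ L := ndx_nonneg hv hNd hΔ hL.le
  have hnn2 : 0 ≤ ndx j v Nd Δ (2 * L) := ndx_nonneg hv hNd hΔ (by positivity)
  have h2 : ndx j v Nd Δ (2 * L) ≤ 2 * ndx j v Nd Δ L := ndx_dbl hv hNd hΔ hL.le
  have h3 : (2 * L * Δ) ^ ε1 ≤ 2 * (L * Δ) ^ ε1 := by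
    rw [mul_assoc, Real.mul_rpow (by norm_num) (by positivity)]
    refine mul_le_mul_of_nonneg_right ?_ (by positivity)
    calc (2 : ℝ) ^ ε1 ≤ 2 ^ (1 : ℝ) := Real.rpow_le_rpow_of_exponent_le (by norm_num) hε1
      _ = 2 := Real.rpow_one 2
  have h4 : (4 : ℝ) ≤ 2 ^ (a + 2) := by
    calc (4 : ℝ) = 2 ^ 2 := by norm_num
      _ ≤ 2 ^ (a + 2) := pow_le_pow_right₀ (by norm_num) (by omega)
  have h5 : W (2 * L * x) ≤ 2 ^ (a + 2) * W (L * x) := by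
    have h6 := hW.dbl (L * x) (by positivity)
    have h7 := hW.nonneg (L * x) (by positivity)
    have h8 : (2 : ℝ) ^ a ≤ 2 ^ (a + 2) := pow_le_pow_right₀ (by norm_num) (by omega)
    rw [mul_assoc 2 L]
    exact h6.trans (mul_le_mul_of_nonneg_right h8 h7)
  have h6 : 0 ≤ (L * Δ) ^ ε1 := by positivity
  have g1 : C1 * (2 * L * Δ) ^ ε1 * ndx j v Nd Δ (2 * L) * (T * Qt) ≤
      2 ^ (a + 2) * (C1 * (L * Δ) ^ ε1 * ndx j v Nd Δ L * (T * Qt)) := by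
    calc C1 * (2 * L * Δ) ^ ε1 * ndx j v Nd Δ (2 * L) * (T * Qt)
        ≤ C1 * (2 * (L * Δ) ^ ε1) * (2 * ndx j v Nd Δ L) * (T * Qt) := by gcongr
      _ = 4 * (C1 * (L * Δ) ^ ε1 * ndx j v Nd Δ L * (T * Qt)) := by ring
      _ ≤ _ := mul_le_mul_of_nonneg_right h4 (by positivity)
  have g2 : W (2 * L * x) * w ≤ 2 ^ (a + 2) * (W (L * x) * w) := by
    calc W (2 * L * x) * w ≤ (2 ^ (a + 2) * W (L * x)) * w := mul_le_mul_of_nonneg_right h5 hw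
      _ = _ := by ring
  calc _ ≤ ρ * (2 ^ (a + 2) * (C1 * (L * Δ) ^ ε1 * ndx j v Nd Δ L * (T * Qt))) +
        ρ⁻¹ * (2 ^ (a + 2) * (W (L * x) * w)) :=
        add_le_add (mul_le_mul_of_nonneg_left g1 hρ.le)
          (mul_le_mul_of_nonneg_left g2 (inv_nonneg.mpr hρ.le))
    _ = _ := by ring

set_option maxHeartbeats 1000000 in
/-- **the modes of the family at one pair `(d, e)`**, two classes of frequencies -/
theorem mode_dex {A B a : ℕ} (hA : 1 < A) (hB : a + 3 ≤ B) {ε1 C1 : ℝ}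
    (hε1 : ε1 ≤ 1) (hC1 : 0 < C1) (hLS : CrLSx A ε1 C1) {R N Z Δ Y N₁ N₂ X T Nd : ℝ} (hZ : 1 ≤ Z)
    (hΔ1 : 1 ≤ Δ) (hY0 : 0 ≤ Y) (hX : 0 < X) (hN₁0 : 0 < N₁) (hN₂0 : 0 < N₂)
    (hT : 0 ≤ T) (hTΔ : ∀ n ∈ S Δ, (Div277.tau n : ℝ) ≤ T) {ι : Type} {Q : Finset ι}
    {b : ι → Eis → ℂ} {Xq : ι → ℝ} {𝒟 : ι → Finset Eis} (hXq : ∀ q ∈ Q, X / 64 ≤ Xq q)
    (hF : DFam R Z N Δ 1 Q b 𝒟) {Pr : ι → Eis → Eis → Prop} (hPr : ∀ q ∈ Q, PrOK (b q) (Pr q))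
    {W : Bool → ℝ → ℝ} (hW : ∀ j, Slp a (W j)) {B0 : ℝ} (hHW : ∀ j, HWx j A B0 Q b 1 Pr (W j))
    (hNd : ∀ q ∈ Q, ((𝒟 q).card : ℝ) ≤ Nd)
    {s : Eis} (hs : SU s) {g l l₁ : Eis} (hg : IsPrim g) (hl : IsPrim l) (hl₁ : IsPrim l₁)
    (hcl : IsCoprime (g * l₁) l) (hcD : ∀ q ∈ Q, ∀ D ∈ 𝒟 q, IsCoprime (g * l₁) D)
    (hB0 : (nm l₁ : ℝ) * Δ ≤ B0)
    (hhY : g * l₁ ∈ S Y) (c : ι → Eis → ℂ)
    (huS : ∀ q ∈ Q, ∀ n, bg (BB (𝒟 q) (c q) (b q)) g l n ≠ 0 → n ∈ S Y) {d e : Eis}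
    (hd : d ∈ S Y) (he : e ∈ pdiv d) {ρ : Eis → Bool → ℝ}
    (hρ : ∀ f ∈ S Y, ∀ j, 0 < ρ f j) :
    ∑ q ∈ Q, ModeS A B (9 * s) (pt s) (Xq q) N₁ N₂ Y (bg (BB (𝒟 q) (c q) (b q)) g l)
      (Pi.single (g * l₁) 1) d e ≤
      (1 + 2 ^ (a + 2 + 1)) * ((min 1 (lmB (9 * s) (X / 64) N₁ N₂ d e)) ^ B *
        ∑ f ∈ (S Y).filter (fun f => d * f ∣ l₁), ∑ j : Bool,
        (ρ f j * (C1 * (max 1 (lmB (9 * s) (X / 64) N₁ N₂ d e) * Δ) ^ ε1 *
            ndx j ((nm g * (nm d / nm e) : ℝ) ^ (-(1 / 3) : ℝ)) Nd Δ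
              (max 1 (lmB (9 * s) (X / 64) N₁ N₂ d e)) *
            (T * ∑ q ∈ Q, ∑ D ∈ 𝒟 q, ‖c q D‖ ^ 2)) +
          (ρ f j)⁻¹ * (W j (max 1 (lmB (9 * s) (X / 64) N₁ N₂ d e) * nm (xd s g l d e)) *
            (1 / nm (g * (d * f)) * ∑ r ∈ S Δ, (1 / (nm r : ℝ)))))) := by
  have hA' : (1 : ℝ) < (A : ℝ) := by exact_mod_cast hA
  have hZ0 : 0 < Z := by linarith
  have hΔ0 : 0 ≤ Δ := by linarith
  have hd' := (mem_S hY0).1 hd
  have he' := (mem_pdiv hd'.2.1.ne_zero).mp he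
  have hde : d = e * (d / e) := (EuclideanDomain.mul_div_cancel' he'.1.ne_zero he'.2).symm
  have hMne : 9 * s ≠ 0 := (LC_pt hs).ne
  have hfprop : ∀ f ∈ (S Y).filter (fun f => d * f ∣ l₁),
      f ∈ S Y ∧ IsPrim f ∧ d * f ∣ l₁ ∧ IsPrim (g * (d * f)) := by
    intro f hf
    obtain ⟨h1, h2⟩ := Finset.mem_filter.mp hf
    have h3 := ((mem_S hY0).1 h1).2.1
    exact ⟨h1, h3, h2, hg.mul (hd'.2.1.mul h3)⟩
  have hvS : ∀ n, (Pi.single (g * l₁) 1 : Eis → ℂ) n ≠ 0 → n ∈ S Y := by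
    intro n hn
    by_cases h1 : n = g * l₁
    · rw [h1]; exact hhY
    · rw [Pi.single_eq_of_ne h1] at hn; exact absurd rfl hn
  have hHs0 : 0 ≤ ∑ r ∈ S Δ, (1 / (nm r : ℝ)) := Finset.sum_nonneg fun _ _ => by positivity
  have hQt0 : 0 ≤ ∑ q ∈ Q, ∑ D ∈ 𝒟 q, ‖c q D‖ ^ 2 :=
    Finset.sum_nonneg fun _ _ => Finset.sum_nonneg fun _ _ => by positivity
  have hxd0 := nmpos (xd_ne hs.ne hg.ne_zero hl.ne_zero hd'.2.1.ne_zero he'.1.ne_zero he'.2)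
  set vv : ℝ := (nm g * (nm d / nm e) : ℝ) ^ (-(1 / 3) : ℝ) with hvv
  have hvv0 : 0 ≤ vv := by rw [hvv]; positivity
  -- an amplitude positive everywhere
  set ρ' : Eis → Bool → ℝ := fun f j => if f ∈ S Y then ρ f j else 1 with hρ'
  have hρ'p : ∀ f j, 0 < ρ' f j := by
    intro f j
    rw [hρ']
    dsimp only
    split_ifs with h
    · exact hρ f h j
    · exact one_pos
  by_cases hQ : Q = ∅
  · subst hQ
    simp only [Finset.sum_empty]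
    have hlm : 0 < lmB (9 * s) (X / 64) N₁ N₂ d e := by
      have n1 := nmpos hMne
      have n2 := nmpos hd'.2.1.ne_zero
      have n3 := nmpos he'.1.ne_zero
      unfold lmB; positivity
    have hm0 : 0 ≤ min 1 (lmB (9 * s) (X / 64) N₁ N₂ d e) := (lt_min one_pos hlm).le
    refine mul_nonneg (by positivity) (mul_nonneg (by positivity) (Finset.sum_nonneg fun f hf =>
      Finset.sum_nonneg fun j _ => ?_))
    have hr := hρ f (hfprop f hf).1 j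
    have hW0 := (hW j).nonneg (max 1 (lmB (9 * s) (X / 64) N₁ N₂ d e) * nm (xd s g l d e))
      (mul_pos (lt_of_lt_of_le one_pos (le_max_left _ _)) hxd0)
    simp only [mul_zero, zero_add]
    exact mul_nonneg (inv_nonneg.mpr hr.le) (mul_nonneg hW0 (mul_nonneg
      (div_nonneg zero_le_one (Nat.cast_nonneg _)) hHs0))
  obtain ⟨q0, hq0⟩ := Finset.nonempty_iff_ne_empty.mpr hQ
  have hNd0 : 0 ≤ Nd := (Nat.cast_nonneg _).trans (hNd q0 hq0)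
  refine modes_fam (a := a + 2) hA (by omega) (by omega) (LC_pt hs) (X := X / 64) (by positivity)
    hN₁0 hN₂0 hY0 Q Xq hXq (fun q => bg (BB (𝒟 q) (c q) (b q)) g l) _ huS hvS hd'.2.1 he'.1
    (G := fun L => ∑ f ∈ (S Y).filter (fun f => d * f ∣ l₁), ∑ j : Bool,
      (ρ f j * (C1 * (L * Δ) ^ ε1 * ndx j vv Nd Δ L *
            (T * ∑ q ∈ Q, ∑ D ∈ 𝒟 q, ‖c q D‖ ^ 2)) +
          (ρ f j)⁻¹ * (W j (L * nm (xd s g l d e)) *
            (1 / nm (g * (d * f)) * ∑ r ∈ S Δ, (1 / (nm r : ℝ)))))) (fun L hL => ?_)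
    (fun L hL => ?_)
  · -- the balls
    beta_reduce
    set Rs : ι → Eis → Finset Eis := fun q f =>
      (S Δ).filter fun r => ∃ m, b q (g * (d * f) * r * m) ≠ 0 with hRs
    have h1 : ∀ k ∈ bl L, ∀ q ∈ Q, ∑ f ∈ S Y,
        EE A (rs (bg (BB (𝒟 q) (c q) (b q)) g l) (pt s) d f)
          (rs (Pi.single (g * l₁) 1) (fun m => conj (pt s m)) d f) (Hf (9 * s) e k f) ≤
        ∑ f ∈ (S Y).filter (fun f => d * f ∣ l₁), Q1y A (𝒟 q) (Rs q f) (c q) (b q)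
          (g * (d * f)) (s * l * Hf (9 * s) e k f)
          (fun r => ρ' f (decide (Pr q (g * (d * f) * r) (s * l * Hf (9 * s) e k f * r)))) := by
      intro k _ q hq
      rw [Finset.sum_filter]
      refine Finset.sum_le_sum fun f hf => ?_
      have hf' := (mem_S hY0).1 hf
      exact EE_BBx_le hA' hZ0.le hΔ0 hY0 (hF.supp q hq) (hF.sub q hq) (c q) hg hl
        hcl (hcD q hq) hhY (huS q hq) s hd'.2.1 hf'.2.1 (Hf (9 * s) e k f)
        (fun r => hρ'p f _)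
    refine (Finset.sum_le_sum fun k hk => Finset.sum_le_sum fun q hq => h1 k hk q hq).trans ?_
    rw [reorderx (A : ℝ) Q ((S Y).filter (fun f => d * f ∣ l₁)) (bl L) Rs 𝒟 c b
      (fun f => g * (d * f)) (fun k f => s * l * Hf (9 * s) e k f)
      (fun q f r => Pr q (g * (d * f) * r)) ρ']
    refine Finset.sum_le_sum fun f hf => Finset.sum_le_sum fun j _ => ?_
    obtain ⟨hfS, hfp, hdfl, hγ⟩ := hfprop f hf
    have hρe : ρ' f j = ρ f j := by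
      rw [hρ']
      dsimp only
      rw [if_pos hfS]
    rw [hρe]
    have hρp := hρ f hfS j
    refine add_le_add (mul_le_mul_of_nonneg_left ?_ hρp.le)
      (mul_le_mul_of_nonneg_left ?_ (inv_nonneg.mpr hρp.le))
    · -- the `D`-side
      rw [Finset.mul_sum, Finset.mul_sum]
      refine Finset.sum_le_sum fun q hq => ?_
      have hRsub : Rs q f ⊆ S Δ := Finset.filter_subset _ _
      have hcl2 : IsCoprime (g * (d * f)) l :=
        hcl.of_isCoprime_of_dvd_left (mul_dvd_mul_left g hdfl)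
      have h2 := hLS Δ L T hΔ1 hL hTΔ (𝒟 q) (hF.sub q hq) (Rs q f) hRsub (c q)
        (g * (d * f)) hγ (s * l * ((e * ((9 * s) * sq3)) ^ 2 * f))
        (fun r H => Pr q (g * (d * f) * r) (H * r)) vv Nd hvv0 (hNd q hq)
        (fun r hr => by
          obtain ⟨hr1, hr2⟩ := Finset.mem_filter.mp hr
          exact cnt_x hZ0.le (hF.supp q hq) (hPr q hq) hs hg hl hd'.2.1 he hfp
            ((mem_S hΔ0).1 hr1).2.1 hcl2 hr2 hL) j
      refine le_trans (le_of_eq ?_) h2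
      refine Finset.sum_congr rfl fun r _ => Finset.sum_congr rfl fun k _ => ?_
      have e1 : s * l * Hf (9 * s) e k f =
          k * (s * l * ((e * ((9 * s) * sq3)) ^ 2 * f)) := by
        unfold Hf
        ring
      rw [e1]
      rfl
    · -- the `b`-side
      have h4 : (nm e : ℝ) * nm f * Δ ≤ B0 := by
        have h5 : (nm e : ℝ) * nm f ≤ nm l₁ := by
          have h6 : (nm (d * f) : ℝ) ≤ nm l₁ := by
            exact_mod_cast Div277.nm_le_of_dvd hl₁.ne_zero hdfl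
          have h7 : (nm e : ℝ) ≤ nm d := by
            exact_mod_cast Div277.nm_le_of_dvd hd'.2.1.ne_zero he'.2
          rw [nm_mul] at h6
          push_cast at h6
          have h8 : (nm e : ℝ) * nm f ≤ nm d * nm f :=
            mul_le_mul_of_nonneg_right h7 (Nat.cast_nonneg _)
          linarith
        exact (mul_le_mul_of_nonneg_right h5 hΔ0).trans hB0
      have h5 := b_sidex j Q b (hHW j) hΔ1 (s := s) (M := 9 * s) hs.ne hl hMne hg hd'.2.1 he'.1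
        hde hfp h4 hL
      rw [mul_assoc (W j _)] at h5
      refine le_trans ?_ h5
      refine Finset.sum_le_sum fun q _ => ?_
      refine Finset.sum_le_sum_of_subset_of_nonneg (Finset.filter_subset _ _) fun r _ _ => ?_
      refine Finset.sum_nonneg fun k _ => ?_
      split_ifs
      · exact EQ_nonneg _ _ _
      · exact le_rfl
  · -- doubling
    beta_reduce
    rw [Finset.mul_sum _ _ ((2 : ℝ) ^ (a + 2))]
    refine Finset.sum_le_sum fun f hf => ?_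
    rw [Finset.mul_sum _ _ ((2 : ℝ) ^ (a + 2))]
    refine Finset.sum_le_sum fun j _ => ?_
    obtain ⟨hfS, hfp, hdfl, hγ⟩ := hfprop f hf
    have nγ := nmpos hγ.ne_zero
    have hw0 : 0 ≤ (1 / nm (g * (d * f)) : ℝ) * ∑ r ∈ S Δ, (1 / (nm r : ℝ)) :=
      mul_nonneg (by positivity) hHs0
    have hL0 : 0 < L := by linarith
    exact dbl_onex (a := a) (hW j) (j := j) (v := vv) (Nd := Nd) (C1 := C1) (ε1 := ε1) (Δ := Δ)
      (L := L) (T := T) (Qt := ∑ q ∈ Q, ∑ D ∈ 𝒟 q, ‖c q D‖ ^ 2) (ρ := ρ f j)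
      (x := ((nm (xd s g l d e) : ℕ) : ℝ))
      (w := (1 / nm (g * (d * f)) : ℝ) * ∑ r ∈ S Δ, (1 / (nm r : ℝ)))
      hC1.le hvv0 hNd0 hε1 hΔ0 hL0 hT hQt0 (hρ f hfS j) hxd0 hw0

end Crest.Agent.R017.PoDw405
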