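import Crest.Agent.R017.PoD13_50
import Crest.Agent.R017.MXa_744

/-!
# Row 17, E3 class E: the second form in two classes (helper50), part 1

real arithmetic of the principal class: `blkx`, `tuple_valx`.
-/

set_option autoImplicit false

noncomputable section

namespace Crest.Agent.R017.PoDx50

open Crest.Agent.R017.PoH347
open Crest.Agent.R017.Mode405 (Slp)
open Crest.Agent.R017.PoD50

lemma pow3_le {x y : ℝ} (hy : 0 ≤ y) (h : x ^ 3 ≤ y ^ 3) : x ≤ y :=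
  le_of_pow_le_pow_left₀ (by norm_num) hy h

lemma rm13 {x : ℝ} (hx : 0 < x) : (x ^ (-(1 / 3) : ℝ)) ^ 3 = x⁻¹ := by
  rw [← Real.rpow_natCast, ← Real.rpow_mul hx.le]
  norm_num
  exact Real.rpow_neg_one x

lemma rm23 {x : ℝ} (hx : 0 < x) : (x ^ (-(2 / 3) : ℝ)) ^ 3 = (x ^ 2)⁻¹ := by
  rw [← Real.rpow_natCast, ← Real.rpow_mul hx.le]
  norm_num
  try norm_num

/-- the minimum absorbs the cube root -/
lemma min_cbrt {lm : ℝ} (hl : 0 < lm) : min 1 lm * (max 1 lm) ^ (1 / 3 : ℝ) ≤ lm ^ (1 / 3 : ℝ) := by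
  rcases le_total 1 lm with h | h
  · rw [min_eq_left h, max_eq_right h, one_mul]
  · rw [min_eq_right h, max_eq_left h, Real.one_rpow, mul_one]
    conv_lhs => rw [← Real.rpow_one lm]
    exact Real.rpow_le_rpow_of_exponent_ge hl h (by norm_num)

/-- the principal value of one block -/
lemma pr_blk {y G D E F cM lm : ℝ} (hy : 0 < y) (hG : 1 ≤ G) (hD : 1 ≤ D) (hE : 1 ≤ E) (hF : 1 ≤ F)
    (hcM : 1 ≤ cM) (hlm : lm = cM * E * y / D ^ 2) :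
    1 / y * (D / E) ^ 2 * ((G * (D / E)) ^ (-(1 / 3) : ℝ) * lm ^ (1 / 3 : ℝ)) *
      (1 / (G * (D * F))) ≤ cM * (y * G ^ 2) ^ (-(2 / 3) : ℝ) := by
  have hG0 : 0 < G := by linarith
  have hD0 : 0 < D := by linarith
  have hE0 : 0 < E := by linarith
  have hF0 : 0 < F := by linarith
  have hc0 : 0 < cM := by linarith
  have hlm0 : 0 < lm := by rw [hlm]; positivity
  have h1 : 0 < G * (D / E) := by positivity
  have h2 : 0 < y * G ^ 2 := by positivity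
  refine pow3_le (by positivity) ?_
  have e1 : (1 / y * (D / E) ^ 2 * ((G * (D / E)) ^ (-(1 / 3) : ℝ) * lm ^ (1 / 3 : ℝ)) *
      (1 / (G * (D * F)))) ^ 3 = cM / (y ^ 2 * G ^ 4) * (1 / (E ^ 4 * F ^ 3)) := by
    have e0 : (1 / y * (D / E) ^ 2 * ((G * (D / E)) ^ (-(1 / 3) : ℝ) * lm ^ (1 / 3 : ℝ)) *
      (1 / (G * (D * F)))) ^ 3 = (1 / y * (D / E) ^ 2) ^ 3 *
        (((G * (D / E)) ^ (-(1 / 3) : ℝ)) ^ 3 * (lm ^ (1 / 3 : ℝ)) ^ 3) *
        (1 / (G * (D * F))) ^ 3 := by ring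
    rw [e0, rm13 h1, rp13 hlm0.le, hlm]
    field_simp
  have e2 : (cM * (y * G ^ 2) ^ (-(2 / 3) : ℝ)) ^ 3 = cM ^ 3 / (y ^ 2 * G ^ 4) := by
    rw [mul_pow, rm23 h2]
    field_simp
  rw [e1, e2]
  have h3 : 1 / (E ^ 4 * F ^ 3) ≤ 1 := by
    rw [div_le_one (by positivity)]
    exact one_le_mul_of_one_le_of_one_le (one_le_pow₀ hE) (one_le_pow₀ hF)
  have h4 : cM ≤ cM ^ 3 := le_self_pow₀ hcM (by norm_num)
  calc cM / (y ^ 2 * G ^ 4) * (1 / (E ^ 4 * F ^ 3)) ≤ cM / (y ^ 2 * G ^ 4) * 1 :=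
        mul_le_mul_of_nonneg_left h3 (by positivity)
    _ = cM / (y ^ 2 * G ^ 4) := mul_one _
    _ ≤ cM ^ 3 / (y ^ 2 * G ^ 4) := div_le_div_of_nonneg_right h4 (by positivity)

/-- **one block of the principal class**, with the slopes of `W` -/
lemma blkx {a B : ℕ} (hB : a + 1 ≤ 2 * B) {W : ℝ → ℝ} (hW : Slp a W)
    {X y G D E F cM lm nx P0 Nd : ℝ} (hX : 0 < X) (hy : 0 < y) (hNd : 0 ≤ Nd)
    (hG : 1 ≤ G) (hD : 1 ≤ D) (hE : 1 ≤ E) (hF : 1 ≤ F) (hcM : 1 ≤ cM)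
    (hlm : lm = cM * E * y / D ^ 2) (hnx : 0 < nx) (hP0 : lm * nx ≤ P0) :
    X / y * (D / E) ^ 2 * ((min 1 lm) ^ B) ^ 2 *
      (18 * (G * (D / E)) ^ (-(1 / 3) : ℝ) * (Nd * (max 1 lm) ^ (1 / 3 : ℝ))) *
      (W (max 1 lm * nx) * (1 / (G * (D * F)))) ≤
      2 ^ a * (18 * cM) * (X * (Nd * (y * G ^ 2) ^ (-(2 / 3) : ℝ)) * W P0) := by
  have hG0 : 0 < G := by linarith
  have hD0 : 0 < D := by linarith
  have hE0 : 0 < E := by linarith
  have hF0 : 0 < F := by linarith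
  have hc0 : 0 < cM := by linarith
  have hlm0 : 0 < lm := by rw [hlm]; positivity
  set m := min 1 lm with hm
  set Λ := max 1 lm with hΛ
  have hm0 : 0 < m := lt_min one_pos hlm0
  have hm1 : m ≤ 1 := min_le_left _ _
  have hΛ1 : 1 ≤ Λ := le_max_left _ _
  have hml : lm = m * Λ := by
    rcases le_total 1 lm with h | h
    · rw [hm, hΛ, min_eq_left h, max_eq_right h, one_mul]
    · rw [hm, hΛ, min_eq_right h, max_eq_left h, mul_one]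
  have hP00 : 0 < P0 := lt_of_lt_of_le (by positivity) hP0
  have hWP : 0 ≤ W P0 := hW.nonneg P0 hP00
  have h1 : W (Λ * nx) ≤ (2 * m⁻¹) ^ a * W P0 := by
    have e1 : Λ * nx = m⁻¹ * (lm * nx) := by rw [hml]; field_simp
    rw [e1]
    refine (slp_up hW (by positivity) ((one_le_inv₀ hm0).mpr hm1)).trans ?_
    exact mul_le_mul_of_nonneg_left (PoH347.slp_mono hW (by positivity) hP0) (by positivity)
  have h2 : (m ^ B) ^ 2 * (2 * m⁻¹) ^ a ≤ 2 ^ a * m := by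
    rw [← pow_mul, mul_pow, inv_pow]
    have h3 : m ^ (B * 2) * (m ^ a)⁻¹ ≤ m := by
      rw [← div_eq_mul_inv, div_le_iff₀ (by positivity)]
      calc m ^ (B * 2) ≤ m ^ (a + 1) := pow_le_pow_of_le_one hm0.le hm1 (by omega)
        _ = m * m ^ a := by rw [pow_succ]; ring
    calc m ^ (B * 2) * (2 ^ a * (m ^ a)⁻¹) = 2 ^ a * (m ^ (B * 2) * (m ^ a)⁻¹) := by ring
      _ ≤ 2 ^ a * m := mul_le_mul_of_nonneg_left h3 (by positivity)
  have h4 := min_cbrt hlm0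
  rw [← hm, ← hΛ] at h4
  have h5 := pr_blk hy hG hD hE hF hcM hlm
  set v := (G * (D / E)) ^ (-(1 / 3) : ℝ) with hv
  have hv0 : 0 < v := by rw [hv]; positivity
  have hΛc : 0 ≤ Λ ^ (1 / 3 : ℝ) := by positivity
  calc X / y * (D / E) ^ 2 * (m ^ B) ^ 2 * (18 * v * (Nd * Λ ^ (1 / 3 : ℝ))) *
        (W (Λ * nx) * (1 / (G * (D * F))))
      ≤ X / y * (D / E) ^ 2 * (m ^ B) ^ 2 * (18 * v * (Nd * Λ ^ (1 / 3 : ℝ))) *
        ((2 * m⁻¹) ^ a * W P0 * (1 / (G * (D * F)))) := by gcongr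
    _ = X / y * (D / E) ^ 2 * ((m ^ B) ^ 2 * (2 * m⁻¹) ^ a) * (18 * v * (Nd * Λ ^ (1 / 3 : ℝ))) *
        (W P0 * (1 / (G * (D * F)))) := by ring
    _ ≤ X / y * (D / E) ^ 2 * (2 ^ a * m) * (18 * v * (Nd * Λ ^ (1 / 3 : ℝ))) *
        (W P0 * (1 / (G * (D * F)))) := by gcongr
    _ = 2 ^ a * 18 * (X * Nd * W P0) * (1 / y * (D / E) ^ 2 * (v * (m * Λ ^ (1 / 3 : ℝ))) *
        (1 / (G * (D * F)))) := by ring
    _ ≤ 2 ^ a * 18 * (X * Nd * W P0) * (1 / y * (D / E) ^ 2 * (v * lm ^ (1 / 3 : ℝ)) *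
        (1 / (G * (D * F)))) := by gcongr
    _ ≤ 2 ^ a * 18 * (X * Nd * W P0) * (cM * (y * G ^ 2) ^ (-(2 / 3) : ℝ)) :=
        mul_le_mul_of_nonneg_left h5 (by positivity)
    _ = _ := by ring

/-- **the value of one tuple of the principal class** -/
lemma tuple_valx {a B : ℕ} (hB : a + 3 ≤ B) {W : ℝ → ℝ} (hW : Slp a W)
    {U Z N X Δ ε1 C1 T Hs Ch G L L1 D E F nM ns y lm nx P0 Nd : ℝ} (hU : 1 ≤ U) (hZ : 1 ≤ Z)
    (hN : 0 < N) (hNZ : N ≤ Z) (hX : 0 < X) (hXZ : 1 ≤ X * Z) (hΔ1 : 1 ≤ Δ) (hΔZ : Δ ≤ Z)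
    (hε0 : 0 < ε1) (hε1 : ε1 ≤ 1) (hC1 : 0 < C1) (hT : 0 ≤ T) (hHs0 : 0 ≤ Hs)
    (hHs : Hs ≤ Ch * Z ^ ε1) (hNd : 0 ≤ Nd) (hG : 1 ≤ G) (hL : 1 ≤ L) (hLZ : L ≤ Z)
    (hL1 : 1 ≤ L1) (hL1Z : L1 ≤ Z) (hD : 1 ≤ D) (hE : 1 ≤ E) (hED : E ≤ D)
    (hF : 1 ≤ F) (hnM : 1 ≤ nM) (hnMU : nM ≤ U)
    (hns : 0 < ns) (hnsU : ns ≤ U) (hy : y = N * Δ * L * L1 / X)
    (hlm : lm = 192 * nM * E * y / D ^ 2)
    (hnx : nx = ns * L * (nM * 3) ^ 2 * G ^ 2 * E * (D / E) ^ 2)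
    (hP0 : P0 = cst U * (N * Δ * (L1 * (G * L) ^ 2) / X)) :
    X / y * (D / E) ^ 2 * ((min 1 lm) ^ B) ^ 2 * (C1 * (max 1 lm * Δ) ^ ε1 *
      (18 * (G * (D / E)) ^ (-(1 / 3) : ℝ) * (Nd * (max 1 lm) ^ (1 / 3 : ℝ))) * T) *
      (W (max 1 lm * nx) * (1 / (G * (D * F)) * Hs)) ≤
      (C1 * (192 * U * Z ^ (6 * ε1)) * T * (Ch * Z ^ ε1)) *
        (2 ^ a * (18 * (192 * U)) * (X * (Nd * (y * G ^ 2) ^ (-(2 / 3) : ℝ)) * W P0)) := by
  have hZ0 : 0 < Z := by linarith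
  have hΔ0 : 0 < Δ := by linarith
  have hU0 : 0 < U := by linarith
  have hG0 : 0 < G := by linarith
  have hLp : 0 < L := by linarith
  have hL10 : 0 < L1 := by linarith
  have hD0 : 0 < D := by linarith
  have hE0 : 0 < E := by linarith
  have hF0 : 0 < F := by linarith
  have hnM0 : 0 < nM := by linarith
  have hy0 : 0 < y := by rw [hy]; positivity
  have hlm0 : 0 < lm := by rw [hlm]; positivity
  have hnx0 : 0 < nx := by rw [hnx]; positivity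
  have hP00 : 0 < P0 := by rw [hP0]; unfold cst; positivity
  have hWP0 : 0 ≤ W P0 := hW.nonneg P0 hP00
  have hyZ : y ≤ Z ^ 5 := by
    rw [hy, div_le_iff₀ hX]
    calc N * Δ * L * L1 ≤ Z * Z * Z * Z := by gcongr
      _ ≤ Z * Z * Z * Z * (X * Z) := le_mul_of_one_le_right (by positivity) hXZ
      _ = Z ^ 5 * X := by ring
  have hlmn : lm * nx ≤ P0 := by
    have e1 : lm * nx = 192 * nM * (ns * (3 * nM) ^ 2) * (N * Δ * (L1 * (G * L) ^ 2) / X) := by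
      rw [hlm, hnx, hy]
      field_simp
    rw [e1, hP0]
    unfold cst
    have h1 : 192 * nM * (ns * (3 * nM) ^ 2) ≤ 192 * U * (U * (3 * U) ^ 2) := by gcongr
    exact mul_le_mul_of_nonneg_right h1 (by positivity)
  have hb := blkx (a := a) (B := B) (by omega) hW hX hy0 hNd hG hD hE hF
    (cM := 192 * nM) (by linarith) (lm := lm) (by rw [hlm]) hnx0 hlmn
  have hyG : 0 < (y * G ^ 2) ^ (-(2 / 3) : ℝ) := by positivity
  have hb2 : X / y * (D / E) ^ 2 * ((min 1 lm) ^ B) ^ 2 *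
      (18 * (G * (D / E)) ^ (-(1 / 3) : ℝ) * (Nd * (max 1 lm) ^ (1 / 3 : ℝ))) *
      (W (max 1 lm * nx) * (1 / (G * (D * F)))) ≤ 2 ^ a * (18 * (192 * U)) *
        (X * (Nd * (y * G ^ 2) ^ (-(2 / 3) : ℝ)) * W P0) := by
    refine hb.trans ?_
    have h1 : 0 ≤ X * (Nd * (y * G ^ 2) ^ (-(2 / 3) : ℝ)) * W P0 := by positivity
    refine mul_le_mul_of_nonneg_right ?_ h1
    have h2 : 18 * (192 * nM) ≤ 18 * (192 * U) := by linarith
    exact mul_le_mul_of_nonneg_left h2 (by positivity)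
  have hΛ0 : 0 < max 1 lm := lt_of_lt_of_le one_pos (le_max_left _ _)
  have hΛΔ : (max 1 lm * Δ) ^ ε1 ≤ 192 * U * Z ^ (6 * ε1) := by
    have h1 : max 1 lm * Δ ≤ 192 * U * Z ^ 6 := by
      have h2 : max 1 lm ≤ 192 * U * Z ^ 5 := by
        refine max_le ?_ ?_
        · have h3 : (1 : ℝ) ≤ Z ^ 5 := one_le_pow₀ hZ
          nlinarith
        · rw [hlm, div_le_iff₀ (by positivity)]
          have h3 : E ≤ D ^ 2 := hED.trans (le_self_pow₀ hD (by norm_num))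
          calc 192 * nM * E * y ≤ 192 * U * D ^ 2 * Z ^ 5 := by gcongr
            _ = _ := by ring
      calc max 1 lm * Δ ≤ 192 * U * Z ^ 5 * Z := mul_le_mul h2 hΔZ hΔ0.le (by positivity)
        _ = _ := by ring
    have h192 : (1 : ℝ) ≤ 192 * U := by linarith
    calc (max 1 lm * Δ) ^ ε1 ≤ (192 * U * Z ^ 6) ^ ε1 :=
          Real.rpow_le_rpow (by positivity) h1 hε0.le
      _ = (192 * U) ^ ε1 * Z ^ (6 * ε1) := by
          rw [Real.mul_rpow (by positivity) (by positivity), ← Real.rpow_natCast Z 6,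
            ← Real.rpow_mul hZ0.le]
          norm_num
      _ ≤ (192 * U) ^ (1 : ℝ) * Z ^ (6 * ε1) := by
          refine mul_le_mul_of_nonneg_right ?_ (by positivity)
          exact Real.rpow_le_rpow_of_exponent_le h192 hε1
      _ = _ := by rw [Real.rpow_one]
  have hin0 : 0 ≤ X / y * (D / E) ^ 2 * ((min 1 lm) ^ B) ^ 2 *
      (18 * (G * (D / E)) ^ (-(1 / 3) : ℝ) * (Nd * (max 1 lm) ^ (1 / 3 : ℝ))) *
      (W (max 1 lm * nx) * (1 / (G * (D * F)))) := by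
    have h2 := hW.nonneg (max 1 lm * nx) (by positivity)
    have h3 : 0 ≤ min 1 lm := (lt_min one_pos hlm0).le
    positivity
  have hcc : C1 * (max 1 lm * Δ) ^ ε1 * T * Hs ≤
      C1 * (192 * U * Z ^ (6 * ε1)) * T * (Ch * Z ^ ε1) := by
    have h1 : C1 * (max 1 lm * Δ) ^ ε1 * T ≤ C1 * (192 * U * Z ^ (6 * ε1)) * T :=
      mul_le_mul_of_nonneg_right (mul_le_mul_of_nonneg_left hΛΔ hC1.le) hT
    exact mul_le_mul h1 hHs hHs0 (by positivity)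
  have hcc0 : 0 ≤ C1 * (192 * U * Z ^ (6 * ε1)) * T * (Ch * Z ^ ε1) := by
    have : 0 ≤ Ch * Z ^ ε1 := hHs0.trans hHs
    have h2 : 0 ≤ C1 * (192 * U * Z ^ (6 * ε1)) * T := by positivity
    exact mul_nonneg h2 this
  have e2 : X / y * (D / E) ^ 2 * ((min 1 lm) ^ B) ^ 2 * (C1 * (max 1 lm * Δ) ^ ε1 *
      (18 * (G * (D / E)) ^ (-(1 / 3) : ℝ) * (Nd * (max 1 lm) ^ (1 / 3 : ℝ))) * T) *
      (W (max 1 lm * nx) * (1 / (G * (D * F)) * Hs)) =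
      (C1 * (max 1 lm * Δ) ^ ε1 * T * Hs) * (X / y * (D / E) ^ 2 * ((min 1 lm) ^ B) ^ 2 *
      (18 * (G * (D / E)) ^ (-(1 / 3) : ℝ) * (Nd * (max 1 lm) ^ (1 / 3 : ℝ))) *
      (W (max 1 lm * nx) * (1 / (G * (D * F))))) := by ring
  rw [e2]
  exact mul_le_mul hcc hb2 hin0 hcc0

end Crest.Agent.R017.PoDx50
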