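import Crest.Agent.R017.ROXa_744
import Crest.Agent.R017.MXc_744

/-!
# Row 17, T.7 (class E), E3: the cell sequences for MODEx (helper744)

* `hWx_of_q` : helper579's `hW_of_q` (after helper571's `hW_of`) with the natural frequencies in a
  class `Pr0`, invariant under cubes
* `Prk`, `prOK_cell` : the predicate of a cell is admissible
* `hyp_cell` : the hypothesis of `modeEx_MB` for a cell sequence
-/

set_option autoImplicit false
set_option maxHeartbeats 4000000

noncomputable section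

open Complex MeasureTheory
open scoped ComplexConjugate

namespace Crest.Agent.R017.ROX744

open Crest.Agent.R012 Crest.Agent.R012.Eis Crest.Agent.R012.MC
open Crest.Agent.R012.LS2 (S mem_S bl mem_bl)
open Crest.Agent.R012.Mob705 (pdiv mem_pdiv)
open Crest.Agent.R012.Weight600 (pw norm_pw pw_add_left)
open Crest.Agent.R017.CM106 (CS TG FS)
open Crest.Agent.R017.StA828 (gp)
open Crest.Agent.R017.BD829 (TT EQ EQ_nonneg)
open Crest.Agent.R017.E1551 (jb jb_pos)
open Crest.Agent.R017.Mode405 (VI bs)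
open Crest.Agent.R017.GrB829 (IsC)
open Crest.Agent.R017.PX764 (n6 Gh n6_mul norm_sy_one)
open Crest.Agent.R017.E3D579 (bF bt b0 bt_mul bt_supp FS_b0 sy_mulL sy_mulR sy_conj_sq n6_nonneg)
open Crest.Agent.R017.R3571
open Crest.Agent.R017.PoHx72
open Crest.Agent.R017.MX744
open Gauss880 (syG)

open Classical in
/-- **(hW°) for the cell sequences, in classes**, the outer `q` free -/
theorem hWx_of_q {A : ℝ} (hA : 1 < A) {ε : ℝ} (hε : 0 < ε) : ∃ C : ℝ, 0 ≤ C ∧ ∀ Z : ℝ, 1 ≤ Z →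
    ∀ Pr0 : Eis → Prop, CInv Pr0 →
    ∀ a : Eis → ℂ, FS a → (∀ n, a n ≠ 0 → Squarefree n) →
    ∀ d e q g κ F c : Eis, IsPrim d → IsPrim e → IsPrim q → IsPrim g → IsPrim κ → IsPrim F →
    IsC c → Squarefree (g * κ * F) → (nm (q * g * κ * F) : ℝ) ≤ Z →
    ∀ W0 : ℝ → ℝ, (∀ γ π, IsPrim γ → IsPrim π → (nm π : ℝ) ≤ Z ^ 4 → ∀ P : ℝ, 0 < P →
      (nm γ : ℝ) * n6 γ ^ 2 * ∑ r ∈ (bl P).filter Pr0, RMm A a e γ π r ≤ W0 P) →
    ∀ γ φ x C3 : Eis, IsPrim γ → IsCoprime γ κ → φ ≠ 0 → x ≠ 0 → C3 ≠ 0 →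
    φ * γ ^ 2 = x * C3 ^ 3 → (nm C3 : ℝ) ≤ Z ^ 2 →
    ∀ Q : Eis → Eis → Prop, (∀ d₁ H : Eis, d₁ ∣ g * κ * F → H ≠ 0 → Q d₁ H →
      Pr0 (H * (d₁ * (q * c * g ^ 2 * F) * γ) ^ 2)) → ∀ P : ℝ, 0 < P →
    ∑ d₁ ∈ pdiv (g * κ * F), (nm d₁ : ℝ)⁻¹ *
      ((nm γ : ℝ) * VIc A (bs (bF κ F (b0 a d e (q * c * g ^ 2))) d₁) γ φ 1 (nm d₁ * P / nm x)
        (Q d₁)) ≤
      C * Z ^ ε * W0 (81 * (P * ((nm F : ℝ) ^ 2 * (nm q : ℝ) ^ 2 * nm g))) := by
  obtain ⟨C, hC, hτ⟩ := Div277.tau_le_rpow hε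
  refine ⟨C, by linarith, ?_⟩
  intro Z hZ Pr0 hPr a ha hsf d e q g κ F c hd he hq hg hκ hF hc hsq hnm W0 hW0 γ φ x C3 hγ hγκ hφ
    hx hC3 hid hC3Z Q hQ P hP
  have hN0 : g * κ * F ≠ 0 := ((hg.mul hκ).mul hF).ne_zero
  have hγ0 := nm_cast_pos hγ.ne_zero
  have hx0 := nm_cast_pos hx
  set P' : ℝ := 81 * (P * ((nm F : ℝ) ^ 2 * (nm q : ℝ) ^ 2 * nm g)) with hP'
  have hnF := nm_cast_pos hF.ne_zero
  have hnq := nm_cast_pos hq.ne_zero
  have hng := nm_cast_pos hg.ne_zero
  have hP'0 : 0 < P' := by positivity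
  set b : Eis → ℂ := bF κ F (b0 a d e (q * c * g ^ 2)) with hb
  have hW00 : 0 ≤ W0 P' := by
    refine le_trans ?_ (hW0 γ 1 hγ isPrim_one (by
      rw [nm_one, Nat.cast_one]; exact one_le_pow₀ hZ) P' hP'0)
    have := n6_nonneg γ
    exact mul_nonneg (by positivity) (Finset.sum_nonneg fun r _ => RMm_nonneg _ _ _ _ _ _)
  -- one divisor
  have key : ∀ d₁ ∈ pdiv (g * κ * F), (nm d₁ : ℝ)⁻¹ *
      ((nm γ : ℝ) * VIc A (bs b d₁) γ φ 1 (nm d₁ * P / nm x) (Q d₁)) ≤ W0 P' := by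
    intro d₁ hd₁
    rw [mem_pdiv hN0] at hd₁
    obtain ⟨hd₁p, hd₁d⟩ := hd₁
    have hd₁1 := one_le_nm hd₁p.ne_zero
    have hd₁0 : (0 : ℝ) < nm d₁ := by linarith
    have hd₁s : Squarefree d₁ := hsq.squarefree_of_dvd hd₁d
    have hinv : (nm d₁ : ℝ)⁻¹ ≤ 1 := inv_le_one_of_one_le₀ hd₁1
    -- the value at `k`
    have hval : ∀ k, EQ A (fun m => if IsCoprime m 1 then bs b d₁ (γ * m) else 0) (k * φ) ≤
        EQ A (fun m => if IsCoprime m 1 then b (γ * m) else 0) (k * φ * d₁ ^ 2) := by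
      intro k
      have hu : ∀ m, (if IsCoprime m 1 then b (γ * m) else 0) ≠ 0 → IsPrim m := by
        intro m hm
        rw [if_pos isCoprime_one_right] at hm
        exact ((E3D579.FS.bF hκ (FS_b0 ha d e _)).prim _ hm).of_mul_left hγ
      have e1 : (fun m => if IsCoprime m 1 then bs b d₁ (γ * m) else 0) =
          fun m => sy d₁ γ * (sy d₁ m * (if IsCoprime m 1 then b (γ * m) else 0)) := by
        funext m
        rw [if_pos isCoprime_one_right, if_pos isCoprime_one_right]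
        unfold Mode405.bs
        by_cases h0 : b (γ * m) = 0
        · rw [h0]; ring
        · have hm : IsPrim m := ((E3D579.FS.bF hκ (FS_b0 ha d e _)).prim _ h0).of_mul_left hγ
          rw [sy_mulR hγ hm]; ring
      rw [e1, E3D579.EQ_smul, E3D579.EQ_sy hu]
      have h1 : ‖sy d₁ γ‖ ^ 2 ≤ 1 := pow_le_one₀ (norm_nonneg _) (CF61.norm_sy_le d₁ γ)
      exact mul_le_of_le_one_left (EQ_nonneg _ _ _) h1
    by_cases hcop : IsCoprime d₁ κ
    swap
    · -- not coprime: everything vanishes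
      have hz : ∀ k, EQ A (fun m => if IsCoprime m 1 then bs b d₁ (γ * m) else 0) (k * φ) = 0 := by
        intro k
        have e1 : (fun m => if IsCoprime m 1 then bs b d₁ (γ * m) else 0) = fun _ => (0 : ℂ) := by
          funext m
          rw [if_pos isCoprime_one_right]
          unfold Mode405.bs
          by_cases h0 : b (γ * m) = 0
          · rw [h0, zero_mul]
          · have hgm := (E3D579.FS.bF hκ (FS_b0 ha d e _)).prim _ h0
            have h1 : κ ∣ γ * m := by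
              rw [hb] at h0
              unfold E3D579.bF at h0
              obtain ⟨n, hn, -⟩ := bt_supp hκ.ne_zero h0
              exact ⟨n, hn⟩
            have h2 : sy d₁ (γ * m) = 0 := (syG.eq_zero d₁ _ hgm).mpr fun h3 =>
              hcop (h3.of_isCoprime_of_dvd_right h1)
            rw [h2, mul_zero]
        rw [e1]
        unfold BD829.EQ BD829.TT CM106.TG
        simp
      have : VIc A (bs b d₁) γ φ 1 (nm d₁ * P / nm x) (Q d₁) = 0 := by
        unfold PoHx72.VIc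
        exact Finset.sum_eq_zero fun k _ => hz k
      rw [this]; simpa using hW00
    -- the decomposition
    have hd₁' : d₁ ∣ g * F := by
      have h1 : d₁ ∣ κ * (g * F) := by
        rw [show κ * (g * F) = g * κ * F by ring]; exact hd₁d
      exact hcop.dvd_of_dvd_mul_left h1
    obtain ⟨dq, q1, hdq, hq1, hqq, dg, g1, hdg, hg1, hgg, dF, F1, hdF, hF1, hFF, hdd⟩ :
        ∃ dq q1, IsPrim dq ∧ IsPrim q1 ∧ q = dq * q1 ∧ ∃ dg g1, IsPrim dg ∧ IsPrim g1 ∧
          g = dg * g1 ∧ ∃ dF F1, IsPrim dF ∧ IsPrim F1 ∧ F = dF * F1 ∧ d₁ = dq * dg * dF := by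
      obtain ⟨t, v, ht, hv, htd, hvd, huv⟩ := Div277.exists_prim_factor hd₁p hd₁'
      obtain ⟨g1, hg1⟩ := htd
      obtain ⟨F1, hF1⟩ := hvd
      exact ⟨1, q, isPrim_one, hq, (one_mul q).symm, t, g1, ht,
        (hg1 ▸ hg : IsPrim (t * g1)).of_mul_left ht, hg1, v, F1, hv,
        (hF1 ▸ hF : IsPrim (v * F1)).of_mul_left hv, hF1, by rw [huv, one_mul]⟩
    have hcne := c_ne hc
    set f : Eis := q * c * g ^ 2 with hf
    set y : Eis := x * (c ^ 2 * (dq * q1 ^ 2 * dF * F1 ^ 2 * g1)) with hy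
    set D : Eis := C3 * dq * dg ^ 2 * g1 * dF with hD
    have hy0 : y ≠ 0 := by
      refine mul_ne_zero hx (mul_ne_zero (pow_ne_zero _ hcne) ?_)
      exact mul_ne_zero (mul_ne_zero (mul_ne_zero (mul_ne_zero hdq.ne_zero
        (pow_ne_zero _ hq1.ne_zero)) hdF.ne_zero) (pow_ne_zero _ hF1.ne_zero)) hg1.ne_zero
    have hD0 : D ≠ 0 := by
      rw [hD]
      exact mul_ne_zero (mul_ne_zero (mul_ne_zero (mul_ne_zero hC3 hdq.ne_zero)
        (pow_ne_zero _ hdg.ne_zero)) hg1.ne_zero) hdF.ne_zero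
    have hR : ∀ k : Eis, k * φ * d₁ ^ 2 * (f * F * γ) ^ 2 = k * y * D ^ 3 := by
      intro k
      have e1 : k * φ * d₁ ^ 2 * (f * F * γ) ^ 2 = k * (φ * γ ^ 2) * (d₁ * f * F) ^ 2 := by ring
      rw [e1, hid, hf, hy, hD, hdd, hqq, hgg, hFF]
      ring
    have hπ0 : κ * q * g * dF * C3 ≠ 0 := mul_ne_zero (mul_ne_zero (mul_ne_zero
      (mul_ne_zero hκ.ne_zero hq.ne_zero) hg.ne_zero) hdF.ne_zero) hC3
    obtain ⟨π, hπp, hπn, hπc⟩ := exists_pp hπ0
    have hπZ : (nm π : ℝ) ≤ Z ^ 4 := by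
      refine hπn.trans ?_
      have hF1' := one_le_nm hF1.ne_zero
      have h1 : (nm (κ * q * g * dF) : ℝ) ≤ nm (q * g * κ * F) := by
        rw [hFF]
        simp only [nm_mul]
        push_cast
        have h2 : (0 : ℝ) ≤ nm κ * nm q * nm g * nm dF := by positivity
        calc (nm κ : ℝ) * nm q * nm g * nm dF ≤ nm κ * nm q * nm g * nm dF * nm F1 :=
              le_mul_of_one_le_right h2 hF1'
          _ = _ := by ring
      rw [nm_mul]
      push_cast
      calc (nm (κ * q * g * dF) : ℝ) * nm C3 ≤ Z * Z ^ 2 := by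
            have : (0 : ℝ) ≤ nm C3 := Nat.cast_nonneg _
            gcongr
            exact h1.trans hnm
        _ = Z ^ 3 := by ring
        _ ≤ Z ^ 4 := pow_le_pow_right₀ hZ (by norm_num)
    have hRM : ∀ k, RMm A a e γ (1 * (κ * f)) (k * φ * d₁ ^ 2 * (f * F * γ) ^ 2) =
        RMm A a e γ π (k * y) := by
      intro k
      refine RMm_congr A ha hγ fun m hm h => ?_
      have hcc : IsCoprime m π ↔ IsCoprime m (κ * q * g * dF * C3) := (hπc m hm).symm
      have e2 : IsCoprime m D → sy (k * y * D ^ 3) m = sy (k * y) m := fun h1 =>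
        PX764.sy_cube_left hm _ h1.symm
      rw [hR k]
      rcases h with ⟨h1, h2⟩ | ⟨h1, h2⟩
      · rw [hR k] at h2
        have h3 := cop_m h2 hm
        have h4 : IsCoprime m D := (IsCoprime.pow_right_iff (by norm_num)).1 h3.of_mul_right_right
        rw [hD] at h4
        have h5 : IsCoprime m (κ * f) := h1.of_mul_right_right
        have h6 : IsCoprime m f := h5.of_mul_right_right
        rw [hf] at h6
        have h7 : IsCoprime m g := (IsCoprime.pow_right_iff (by norm_num)).1 h6.of_mul_right_right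
        have h8 : IsCoprime m q := h6.of_mul_right_left.of_mul_right_left
        have h9 : IsCoprime m dF := h4.of_mul_right_right
        have h10 : IsCoprime m C3 :=
          h4.of_mul_right_left.of_mul_right_left.of_mul_right_left.of_mul_right_left
        exact ⟨h1, hcc.2 ((((h5.of_mul_right_left.mul_right h8).mul_right h7).mul_right
          h9).mul_right h10), e2 h4⟩
      · have h3 := cop_m h2 hm
        have h4 := hcc.1 h1
        have h10 : IsCoprime m C3 := h4.of_mul_right_right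
        have h9 : IsCoprime m dF := h4.of_mul_right_left.of_mul_right_right
        have h7 : IsCoprime m g := h4.of_mul_right_left.of_mul_right_left.of_mul_right_right
        have h8 : IsCoprime m q :=
          h4.of_mul_right_left.of_mul_right_left.of_mul_right_left.of_mul_right_right
        have h11 : IsCoprime m κ :=
          h4.of_mul_right_left.of_mul_right_left.of_mul_right_left.of_mul_right_left
        have h12 : IsCoprime m y := h3.of_mul_right_right
        rw [hy] at h12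
        have h13 : IsCoprime m c :=
          (IsCoprime.pow_right_iff (by norm_num)).1 h12.of_mul_right_right.of_mul_right_left
        have h14 : IsCoprime m f := (h8.mul_right h13).mul_right (h7.pow_right)
        have h15 : IsCoprime m dq := h8.of_isCoprime_of_dvd_right ⟨q1, hqq⟩
        have h16 : IsCoprime m dg := h7.of_isCoprime_of_dvd_right ⟨g1, hgg⟩
        have h17 : IsCoprime m g1 := h7.of_isCoprime_of_dvd_right ⟨dg, by rw [hgg]; ring⟩
        have h18 : IsCoprime m D :=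
          (((h10.mul_right h15).mul_right h16.pow_right).mul_right h17).mul_right h9
        exact ⟨isCoprime_one_right.mul_right (h11.mul_right h14), h1, e2 h18⟩
    have hinj : Set.InjOn (fun k : Eis => k * y) (((bl (nm d₁ * P / nm x)).filter
        (fun k => Q d₁ (k * φ)) : Finset Eis) : Set Eis) :=
      fun u _ v _ huv => mul_right_cancel₀ hy0 huv
    have hny : (nm y : ℝ) * (nm d₁ * P / nm x) ≤ P' := by
      have h1 := nm_sq_c hc
      have e1 : (nm y : ℝ) * (nm d₁ * P / nm x) = nm (c ^ 2) * (P * ((nm F : ℝ) ^ 2 *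
          (nm q : ℝ) ^ 2 * nm g)) := by
        rw [hy, hdd, hqq, hgg, hFF]
        simp only [nm_mul, nm_pow]
        push_cast
        field_simp
      rw [e1, hP']
      gcongr
    have hsum : VIc A (bs b d₁) γ φ 1 (nm d₁ * P / nm x) (Q d₁) ≤
        n6 γ ^ 2 * ∑ r ∈ (bl P').filter Pr0, RMm A a e γ π r := by
      unfold PoHx72.VIc
      calc ∑ k ∈ (bl (nm d₁ * P / nm x)).filter (fun k => Q d₁ (k * φ)),
            EQ A (fun m => if IsCoprime m 1 then bs b d₁ (γ * m) else 0) (k * φ)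
          ≤ ∑ k ∈ (bl (nm d₁ * P / nm x)).filter (fun k => Q d₁ (k * φ)),
              n6 γ ^ 2 * RMm A a e γ π (k * y) := by
            refine Finset.sum_le_sum fun k _ => (hval k).trans ?_
            rw [← hRM k]
            exact EQ_bF hA ha hsf d hκ hγ hγκ e f F 1 (k * φ * d₁ ^ 2)
        _ = n6 γ ^ 2 * ∑ r ∈ ((bl (nm d₁ * P / nm x)).filter
              (fun k => Q d₁ (k * φ))).image (fun k => k * y),
            RMm A a e γ π r := by rw [← Finset.mul_sum, Finset.sum_image hinj]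
        _ ≤ n6 γ ^ 2 * ∑ r ∈ (bl P').filter Pr0, RMm A a e γ π r := by
            refine mul_le_mul_of_nonneg_left ?_ (by positivity)
            refine Finset.sum_le_sum_of_subset_of_nonneg ?_ fun r _ _ => RMm_nonneg _ _ _ _ _ _
            intro r hr
            obtain ⟨k, hk, rfl⟩ := Finset.mem_image.1 hr
            have hP1 : 0 ≤ (nm d₁ : ℝ) * P / nm x := by positivity
            rw [Finset.mem_filter] at hk
            obtain ⟨hk, hkQ⟩ := hk
            rw [mem_bl hP1] at hk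
            rw [Finset.mem_filter]
            refine ⟨(mem_bl hP'0.le).2 ⟨mul_ne_zero hk.1 hy0, ?_⟩, ?_⟩
            swap
            · have h1 := hQ d₁ (k * φ) hd₁d (mul_ne_zero hk.1 hφ) hkQ
              have e1 : k * φ * (d₁ * (q * c * g ^ 2 * F) * γ) ^ 2 = k * y * D ^ 3 := by
                rw [← hR k]; ring
              rw [e1] at h1
              exact (hPr _ _ (mul_ne_zero hk.1 hy0) hD0).1 h1
            rw [nm_mul]
            push_cast
            have hy1 : (0 : ℝ) ≤ nm y := Nat.cast_nonneg _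
            calc (nm k : ℝ) * nm y ≤ (nm d₁ * P / nm x) * nm y :=
                  mul_le_mul_of_nonneg_right hk.2 hy1
              _ = nm y * (nm d₁ * P / nm x) := by ring
              _ ≤ P' := hny
    have hfin := hW0 γ π hγ hπp hπZ P' hP'0
    have hV0 : 0 ≤ (nm γ : ℝ) * (n6 γ ^ 2 * ∑ r ∈ (bl P').filter Pr0, RMm A a e γ π r) := by
      have : 0 ≤ ∑ r ∈ (bl P').filter Pr0, RMm A a e γ π r :=
        Finset.sum_nonneg fun r _ => RMm_nonneg _ _ _ _ _ _
      positivity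
    calc (nm d₁ : ℝ)⁻¹ * ((nm γ : ℝ) * VIc A (bs b d₁) γ φ 1 (nm d₁ * P / nm x) (Q d₁))
        ≤ (nm d₁ : ℝ)⁻¹ * ((nm γ : ℝ) * (n6 γ ^ 2 * ∑ r ∈ (bl P').filter Pr0,
            RMm A a e γ π r)) := by
          gcongr
      _ ≤ 1 * ((nm γ : ℝ) * (n6 γ ^ 2 * ∑ r ∈ (bl P').filter Pr0, RMm A a e γ π r)) :=
          mul_le_mul_of_nonneg_right hinv hV0
      _ = (nm γ : ℝ) * n6 γ ^ 2 * ∑ r ∈ (bl P').filter Pr0, RMm A a e γ π r := by ring
      _ ≤ W0 P' := hfin
  -- the sum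
  calc ∑ d₁ ∈ pdiv (g * κ * F), (nm d₁ : ℝ)⁻¹ *
      ((nm γ : ℝ) * VIc A (bs b d₁) γ φ 1 (nm d₁ * P / nm x) (Q d₁))
      ≤ ∑ d₁ ∈ pdiv (g * κ * F), W0 P' := Finset.sum_le_sum key
    _ = ((pdiv (g * κ * F)).card : ℝ) * W0 P' := by rw [Finset.sum_const, nsmul_eq_mul]
    _ ≤ C * Z ^ ε * W0 P' := by
        refine mul_le_mul_of_nonneg_right ?_ hW00
        have h1 : ((pdiv (g * κ * F)).card : ℝ) ≤ C * (nm (g * κ * F) : ℝ) ^ ε :=
          hτ _ hN0
        have h2 : (nm (g * κ * F) : ℝ) ≤ nm (q * g * κ * F) := by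
          have e : q * g * κ * F = q * (g * κ * F) := by ring
          rw [e, nm_mul q (g * κ * F)]
          push_cast
          exact le_mul_of_one_le_left (Nat.cast_nonneg _) (one_le_nm hq.ne_zero)
        refine h1.trans ?_
        have : (0 : ℝ) ≤ nm (g * κ * F) := Nat.cast_nonneg _
        have h3 := h2.trans hnm
        gcongr


/-! ### the predicate of a cell -/

/-- the predicate of a cell, for dilations prime to `κ` -/
def Prk (X κ D H : Eis) : Prop := IsCoprime D κ ∧ Prc X D H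

/-- **the predicate of a cell is admissible** -/
theorem prOK_cell {a : Eis → ℂ} (ha : FS a) {d κ e f F : Eis} (hκ : IsPrim κ) (hX : f * F ≠ 0) :
    PrOK (bF κ F (b0 a d e f)) (Prk (f * F) κ) where
  cub D hD := by
    by_cases h : IsCoprime D κ
    · have e1 : Prk (f * F) κ D = Prc (f * F) D := by
        funext H
        unfold Prk
        simp [h]
      rw [e1]
      exact Prc_cub hX hD
    · have e1 : Prk (f * F) κ D = fun _ => False := by
        funext H
        unfold Prk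
        simp [h]
      rw [e1]
      exact Cub.false
  hcp D H hD hH hm hP := by
    obtain ⟨m, hm⟩ := hm
    obtain ⟨hDκ, hP⟩ := hP
    refine Prc_hcp ?_ hP
    unfold E3D579.bF at hm
    obtain ⟨n, hn, h2⟩ := bt_supp hκ.ne_zero hm
    have h3 : sy F n ≠ 0 := right_ne_zero_of_mul h2
    have h4 : b0 a d e f n ≠ 0 := left_ne_zero_of_mul h2
    have hp : IsPrim n := (FS_b0 ha d e f).prim _ h4
    have h5 : IsCoprime F n := (cop_m h3 hp).symm
    have h6 : IsCoprime f n := by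
      unfold E3D579.b0 at h4
      split_ifs at h4 with h7
      · exact h7.2.of_mul_right_right
      · exact absurd rfl h4
    have hDn : D ∣ n := by
      have h7 : D ∣ κ * n := ⟨m, hn.symm⟩
      exact hDκ.dvd_of_dvd_mul_left h7
    exact (h6.mul_left h5).of_isCoprime_of_dvd_right hDn
  inv D H q hH hq := by
    by_cases hD : D = 0
    · subst hD
      unfold Prk Prc
      constructor
      · rintro ⟨h1, -⟩
        exact ⟨h1, 0, by ring⟩
      · rintro ⟨h1, -⟩
        exact ⟨h1, 0, by ring⟩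
    · unfold Prk
      rw [Prc_inv hX hD hH hq]

open Classical in
/-- **the hypothesis of `modeEx_MB` for a cell sequence**; `W0 true` dominates the moments over the
natural cubes, `W0 false` the moments over the other frequencies -/
theorem hyp_cell {A : ℝ} (hA : 1 < A) {ε : ℝ} (hε : 0 < ε) : ∃ C : ℝ, 0 ≤ C ∧ ∀ Z N : ℝ, 1 ≤ Z →
    0 < N → N ≤ Z →
    ∀ a : Eis → ℂ, FS a → (∀ n, a n ≠ 0 → Squarefree n) →
    ∀ d e q g κ F c : Eis, IsPrim d → IsPrim e → IsPrim q → IsPrim g → IsPrim κ → IsPrim F →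
    IsC c → Squarefree (g * κ * F) → (nm (q * g * κ * F) : ℝ) ≤ Z →
    ∀ W0 : Bool → ℝ → ℝ, (∀ jj γ π, IsPrim γ → IsPrim π → (nm π : ℝ) ≤ Z ^ 4 → ∀ P : ℝ, 0 < P →
      (nm γ : ℝ) * n6 γ ^ 2 * ∑ r ∈ (bl P).filter (Cls (fun r => ∃ c₀ : Eis, r = c₀ ^ 3) jj),
        RMm A a e γ π r ≤ W0 jj P) →
    ∀ jj γ φ x, Adm (N ^ 2) κ γ φ x → ∀ P : ℝ, 0 < P →
    ∑ d₁ ∈ pdiv (g * κ * F), (nm d₁ : ℝ)⁻¹ *
      ((nm γ : ℝ) * VIc A (bs (bF κ F (b0 a d e (q * c * g ^ 2))) d₁) γ φ 1 (nm d₁ * P / nm x)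
        (Cls (PrS (Prk (q * c * g ^ 2 * F) κ) d₁ γ) jj)) ≤
      C * Z ^ ε * W0 jj (81 * (P * ((nm F : ℝ) ^ 2 * (nm q : ℝ) ^ 2 * nm g))) := by
  obtain ⟨C, hC, h⟩ := hWx_of_q hA hε
  refine ⟨C, hC, ?_⟩
  intro Z N hZ hN hNZ a ha hsf d e q g κ F c hd he hq hg hκ hF hc hsq hnm W0 hW0 jj γ φ x hadm P hP
  obtain ⟨hγ, hγκ, hφ, hx, C3, hC3, hC3N, hid⟩ := hadm
  have hC3Z : (nm C3 : ℝ) ≤ Z ^ 2 := hC3N.trans (pow_le_pow_left₀ hN.le hNZ 2)
  refine h Z hZ (Cls (fun r => ∃ c₀ : Eis, r = c₀ ^ 3) jj) ?_ a ha hsf d e q g κ F c hd he hq hg hκ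
    hF hc hsq hnm (W0 jj) (hW0 jj) γ φ x C3 hγ hγκ hφ hx hC3 hid hC3Z _ ?_ P hP
  · intro r D hr hD
    exact Cls_iff jj (cinv_cube r D hr hD)
  · intro d₁ H _ hH hQ
    refine (Cls_iff jj ?_).1 hQ
    unfold PrS Prk Prc
    have e1 : H * (d₁ * (q * c * g ^ 2 * F) * γ) ^ 2 =
        γ ^ 2 * (H * d₁ ^ 2 * (q * c * g ^ 2 * F) ^ 2) := by ring
    rw [e1]
    exact ⟨fun h => h.2, fun h => ⟨hγκ, h⟩⟩

end Crest.Agent.R017.ROX744
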