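import Crest.Agent.R017.PoD13_50
import Crest.Agent.R017.MXa_744
import Crest.Agent.R017.PoHs_72

/-!
# Row 17, E3 class E: the second form in two classes (helper50), part 2

`ndx`, `CrLSx` : the norm and the large sieve of the `D`-side in classes.
-/

set_option autoImplicit false
set_option linter.unusedVariables false

noncomputable section

open Complex MeasureTheory
open scoped ComplexConjugate Classical

namespace Crest.Agent.R017.PoDx50

open Crest.Agent.R012 Crest.Agent.R012.Eis Crest.Agent.R012.MC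
open Crest.Agent.R012.LS2 (S mem_S bl mem_bl)
open Crest.Agent.R012.Mob705 (mu pdiv mem_pdiv abs_mu_le_one sum_mu_coprime)
open Crest.Agent.R012.Tau671 (norm_sy_le)
open Crest.Agent.R012.NonCube52 (Ker kv Good nm_kv)
open Crest.Agent.R012.Weight600 (osc pw norm_osc)
open Crest.Agent.R017.PX764 (Gh)
open Crest.Agent.R017.CM106 (CS TG norm_Gsy_le)
open Crest.Agent.R017.E1551 (nmpos jb jb_pos integrable_jb integrable_jb_mul nm_ge_one)
open Crest.Agent.R017.BD829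
open Crest.Agent.R017.PoH347
open Crest.Agent.R017.Mode405 (VI Slp)
open Crest.Agent.R017.E3D579 (bt)
open Crest.Agent.R017.StA828 (gp gp_spec gp_eq)
open Crest.Agent.R017.PoD50
open Crest.Agent.R017.PoHx72
open Crest.Agent.R017.MX744
open Gauss880 (syG)

/-- the norm of the class `j` on the `D`-side; `v = (nm g * (nm d / nm e)) ^ (-1/3)` -/
def ndx (j : Bool) (v Nd Δ L : ℝ) : ℝ :=
  if j = true then 18 * v * (Nd * L ^ (1 / 3 : ℝ)) else nrm Δ L

/-- the large sieve on the `D`-side, in classes -/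
def CrLSx (A ε C : ℝ) : Prop := ∀ Δ L T : ℝ,
    1 ≤ Δ → 1 ≤ L → (∀ n ∈ S Δ, (Div277.tau n : ℝ) ≤ T) → ∀ (𝒟 : Finset Eis), 𝒟 ⊆ S Δ →
      ∀ (Rs : Finset Eis), Rs ⊆ S Δ → ∀ (c : Eis → ℂ) (γ : Eis), IsPrim γ → ∀ (g0 : Eis)
      (P : Eis → Eis → Prop) (v Nd : ℝ), 0 ≤ v → (𝒟.card : ℝ) ≤ Nd →
      (∀ r ∈ Rs, (((bl L).filter (fun h => P r (h * g0))).card : ℝ) ≤ 18 * v * L ^ (1 / 3 : ℝ)) →
      ∀ j : Bool, ∑ r ∈ Rs, ∑ h ∈ bl L,
        (if Cls (P r) j (h * g0) then EQ A (cr 𝒟 c γ 1 r) (h * g0) else 0) ≤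
        C * (L * Δ) ^ ε * ndx j v Nd Δ L * (T * ∑ D ∈ 𝒟, ‖c D‖ ^ 2)

end Crest.Agent.R017.PoDx50
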