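import Crest.Agent.R017.PoDx2_50

/-!
# Row 17, E3 class E: the second form in two classes (helper50), part 3

The modes of the family `bt D b`, kernel prime to the `D`'s (only the trivial common divisor, lemmas
of helper72), mean squares split into the two classes of frequencies.
-/

set_option autoImplicit false
set_option linter.unusedVariables false

noncomputable section

open Complex MeasureTheory
open scoped ComplexConjugate Classical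

namespace Crest.Agent.R017.PoDx50

open Crest.Agent.R012 Crest.Agent.R012.Eis Crest.Agent.R012.MC
open Crest.Agent.R012.LS2 (S mem_S bl mem_bl)
open Crest.Agent.R012.Mob705 (mu pdiv mem_pdiv abs_mu_le_one sum_mu_coprime)
open Crest.Agent.R012.Tau671 (norm_sy_le)
open Crest.Agent.R012.NonCube52 (Ker kv Good nm_kv)
open Crest.Agent.R012.Weight600 (osc pw norm_osc)
open Crest.Agent.R017.PX764 (Gh)
open Crest.Agent.R017.CM106 (CS TG norm_Gsy_le)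
open Crest.Agent.R017.E1551 (nmpos jb jb_pos integrable_jb integrable_jb_mul nm_ge_one)
open Crest.Agent.R017.BD829
open Crest.Agent.R017.PoH347
open Crest.Agent.R017.Mode405 (VI Slp)
open Crest.Agent.R017.E3D579 (bt)
open Crest.Agent.R017.StA828 (gp gp_spec gp_eq)
open Crest.Agent.R017.PoD50
open Crest.Agent.R017.PoHx72
open Crest.Agent.R017.MX744
open Gauss880 (syG)

/-- only the first divisor meets a family prime to `γ` -/
lemma cr_cop {𝒟 : Finset Eis} {Δ : ℝ} (hΔ : 0 ≤ Δ) (hD : 𝒟 ⊆ S Δ) {γ : Eis} (hγ : IsPrim γ)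
    (hcD : ∀ D ∈ 𝒟, IsCoprime γ D) (c : Eis → ℂ) {δ : Eis} (hδ : δ ∈ pdiv γ) (hδ1 : δ ≠ 1)
    (r n : Eis) : cr 𝒟 c γ δ r n = 0 := by
  by_contra h
  have hδ' := (mem_pdiv hγ.ne_zero).mp hδ
  obtain ⟨-, h1, -⟩ := cr_supp hΔ hD c hδ'.1 n h
  have h2 := hcD _ h1
  have h3 : IsCoprime δ δ := (h2.of_isCoprime_of_dvd_left hδ'.2).of_mul_right_left
  have h4 : IsUnit δ := h3.isUnit_of_dvd' dvd_rfl dvd_rfl
  exact hδ1 (hδ'.1.eq_of_associated isPrim_one (associated_one_iff_isUnit.mpr h4))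

/-- **the Gauss side of the family**, `γ` prime to the family -/
theorem norm_TT_BB1 {Z Δ : ℝ} (hZ : 0 ≤ Z) (hΔ : 0 ≤ Δ) {b : Eis → ℂ}
    (hb : ∀ n, b n ≠ 0 → n ∈ S Z) {𝒟 : Finset Eis} (hD : 𝒟 ⊆ S Δ) (c : Eis → ℂ) {γ : Eis}
    (hγ : IsPrim γ) (hcD : ∀ D ∈ 𝒟, IsCoprime γ D) (H : Eis) (t : ℝ) :
    ‖TT (fun n => BB 𝒟 c b (γ * n)) H t‖ ≤ ∑ r ∈ S Δ,
      ‖TT (cr 𝒟 c γ 1 r) H t‖ * ‖TT (fun m => b (γ * r * m)) (H * r) t‖ := by
  refine (norm_TT_BB hZ hΔ hb hD c hγ H t).trans (le_of_eq ?_)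
  have h1 : (1 : Eis) ∈ pdiv γ := (mem_pdiv hγ.ne_zero).mpr ⟨isPrim_one, one_dvd _⟩
  rw [Finset.sum_eq_single_of_mem 1 h1]
  · have e1 : γ / 1 = γ := by simp
    refine Finset.sum_congr rfl fun r _ => ?_
    rw [e1, one_pow, one_mul]
  · intro δ hδ hδ1
    refine Finset.sum_eq_zero fun r _ => ?_
    rw [TT_zero (fun n => cr_cop hΔ hD hγ hcD c hδ hδ1 r n), norm_zero, zero_mul]

/-- exactly one class -/
lemma cls_split (P : Eis → Prop) (H : Eis) (F : Bool → ℝ) :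
    ∑ j : Bool, (if Cls P j H then F j else 0) = F (if P H then true else false) := by
  unfold Cls
  rw [Fintype.sum_bool]
  by_cases h : P H <;> simp [h]

/-- the divisors which meet `b` -/
def Rq (Δ : ℝ) (b : Eis → ℂ) (γ : Eis) : Finset Eis :=
  (S Δ).filter (fun r => ∃ m, b (γ * r * m) ≠ 0)

/-- the mean squares of one block, in classes -/
def Q2x (A : ℝ) (𝒟 : Finset Eis) (Δ : ℝ) (c b : Eis → ℂ) (P : Eis → Eis → Prop) (γ H : Eis)
    (ρ : Bool → ℝ) : ℝ :=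
  ∑ r ∈ Rq Δ b γ, ∑ j : Bool, if Cls (P (γ * r)) j (H * r) then
    ρ j * EQ A (cr 𝒟 c γ 1 r) H + (ρ j)⁻¹ * EQ A (fun m => b (γ * r * m)) (H * r) else 0

lemma Q2x_nonneg {A : ℝ} {𝒟 : Finset Eis} {Δ : ℝ} {c b : Eis → ℂ} {P : Eis → Eis → Prop}
    {γ H : Eis} {ρ : Bool → ℝ} (hρ : ∀ j, 0 < ρ j) : 0 ≤ Q2x A 𝒟 Δ c b P γ H ρ := by
  unfold Q2x
  refine Finset.sum_nonneg fun r _ => Finset.sum_nonneg fun j _ => ?_
  split_ifs
  · have h1 := EQ_nonneg A (cr 𝒟 c γ 1 r) H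
    have h2 := EQ_nonneg A (fun m => b (γ * r * m)) (H * r)
    have h3 := hρ j
    positivity
  · exact le_rfl

lemma integral_BBx_le {A : ℝ} (hA : 1 < A) {Z Δ : ℝ} (hZ : 0 ≤ Z) (hΔ : 0 ≤ Δ) {b : Eis → ℂ}
    (hb : ∀ n, b n ≠ 0 → n ∈ S Z) {𝒟 : Finset Eis} (hD : 𝒟 ⊆ S Δ) (c : Eis → ℂ) {γ : Eis}
    (hγ : IsPrim γ) (hcD : ∀ D ∈ 𝒟, IsCoprime γ D) (H : Eis) (P : Eis → Eis → Prop) {ρ : Bool → ℝ}
    (hρ : ∀ j, 0 < ρ j) :
    ∫ t, jb A t * ‖TT (fun n => BB 𝒟 c b (γ * n)) H t‖ ≤ Q2x A 𝒟 Δ c b P γ H ρ := by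
  set Rs := Rq Δ b γ with hRs
  set r2 : Eis → ℝ := fun r => ρ (if P (γ * r) (H * r) then true else false) with hr2
  have hr0 : ∀ r, 0 < r2 r := fun r => hρ _
  have hcs : ∀ r, ∀ n, cr 𝒟 c γ 1 r n ≠ 0 → n ∈ S Δ := by
    intro r n hn
    have h1 := (cr_supp hΔ hD c isPrim_one n hn).1
    rw [nm_one, Nat.cast_one, div_one] at h1
    exact h1
  have hbs : ∀ r ∈ Rs, ∀ n, b (γ * r * n) ≠ 0 → n ∈ S Z := by
    intro r hr n hn
    have hr' := ((mem_S hΔ).1 (Finset.mem_filter.mp hr).1).2.1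
    exact mul_supp hZ hb (hγ.mul hr') n hn
  have i1 : ∀ r, Integrable fun t => jb A t * ‖TT (cr 𝒟 c γ 1 r) H t‖ ^ 2 :=
    fun r => integrable_EQ hA hΔ (hcs r) H
  have i2 : ∀ r ∈ Rs, Integrable fun t =>
      jb A t * ‖TT (fun m => b (γ * r * m)) (H * r) t‖ ^ 2 :=
    fun r hr => integrable_EQ hA hZ (hbs r hr) _
  have hpt : ∀ t, ‖TT (fun n => BB 𝒟 c b (γ * n)) H t‖ ≤ ∑ r ∈ Rs,
      (r2 r * ‖TT (cr 𝒟 c γ 1 r) H t‖ ^ 2 +
        (r2 r)⁻¹ * ‖TT (fun m => b (γ * r * m)) (H * r) t‖ ^ 2) := by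
    intro t
    refine (norm_TT_BB1 hZ hΔ hb hD c hγ hcD H t).trans ?_
    have e1 : ∑ r ∈ S Δ,
        ‖TT (cr 𝒟 c γ 1 r) H t‖ * ‖TT (fun m => b (γ * r * m)) (H * r) t‖ =
        ∑ r ∈ Rs,
        ‖TT (cr 𝒟 c γ 1 r) H t‖ * ‖TT (fun m => b (γ * r * m)) (H * r) t‖ := by
      rw [hRs, Rq, Finset.sum_filter]
      refine Finset.sum_congr rfl fun r _ => ?_
      split_ifs with h1
      · rfl
      · push Not at h1
        rw [TT_zero (u := fun m => b (γ * r * m)) h1, norm_zero, mul_zero]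
    rw [e1]
    refine Finset.sum_le_sum fun r _ => ?_
    set x := ‖TT (cr 𝒟 c γ 1 r) H t‖
    set y := ‖TT (fun m => b (γ * r * m)) (H * r) t‖
    have hx : 0 ≤ x := norm_nonneg _
    have hy : 0 ≤ y := norm_nonneg _
    have hρr := hr0 r
    have h6 : 0 ≤ r2 r * (x - (r2 r)⁻¹ * y) ^ 2 := by positivity
    have h8 : r2 r * (r2 r)⁻¹ = 1 := mul_inv_cancel₀ hρr.ne'
    have h7 : r2 r * (x - (r2 r)⁻¹ * y) ^ 2 = r2 r * x ^ 2 - 2 * (x * y) + (r2 r)⁻¹ * y ^ 2 := by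
      linear_combination (-2 * (x * y) + (r2 r)⁻¹ * y ^ 2) * h8
    have h9 : 0 ≤ x * y := mul_nonneg hx hy
    linarith
  have i3 : ∀ r ∈ Rs, Integrable fun t =>
      (r2 r * (jb A t * ‖TT (cr 𝒟 c γ 1 r) H t‖ ^ 2) +
        (r2 r)⁻¹ * (jb A t * ‖TT (fun m => b (γ * r * m)) (H * r) t‖ ^ 2)) :=
    fun r hr => ((i1 r).const_mul _).add ((i2 r hr).const_mul _)
  have hint : Integrable fun t => ∑ r ∈ Rs,
      (r2 r * (jb A t * ‖TT (cr 𝒟 c γ 1 r) H t‖ ^ 2) +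
        (r2 r)⁻¹ * (jb A t * ‖TT (fun m => b (γ * r * m)) (H * r) t‖ ^ 2)) :=
    integrable_finsetSum _ fun r hr => i3 r hr
  have h1 : ∫ t, jb A t * ‖TT (fun n => BB 𝒟 c b (γ * n)) H t‖ ≤
      ∫ t, ∑ r ∈ Rs,
      (r2 r * (jb A t * ‖TT (cr 𝒟 c γ 1 r) H t‖ ^ 2) +
        (r2 r)⁻¹ * (jb A t * ‖TT (fun m => b (γ * r * m)) (H * r) t‖ ^ 2)) := by
    refine integral_mono_of_nonneg (Filter.Eventually.of_forall fun t =>
      mul_nonneg (jb_pos A t).le (norm_nonneg _)) hint (Filter.Eventually.of_forall fun t => ?_)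
    beta_reduce
    refine (mul_le_mul_of_nonneg_left (hpt t) (jb_pos A t).le).trans (le_of_eq ?_)
    rw [Finset.mul_sum]
    refine Finset.sum_congr rfl fun r _ => ?_
    ring
  refine h1.trans (le_of_eq ?_)
  unfold Q2x
  rw [integral_finsetSum _ i3]
  refine Finset.sum_congr rfl fun r hr => ?_
  rw [integral_add ((i1 r).const_mul _) ((i2 r hr).const_mul _), integral_const_mul,
    integral_const_mul]
  rw [cls_split (P (γ * r)) (H * r) (fun j => ρ j * EQ A (cr 𝒟 c γ 1 r) H +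
    (ρ j)⁻¹ * EQ A (fun m => b (γ * r * m)) (H * r))]
  rfl

/-- **one mode of the family against one character** -/
theorem EE_BBx_le {A : ℝ} (hA : 1 < A) {Z Δ Y : ℝ} (hZ : 0 ≤ Z) (hΔ : 0 ≤ Δ) (hY : 0 ≤ Y)
    {b : Eis → ℂ} (hb : ∀ n, b n ≠ 0 → n ∈ S Z) {𝒟 : Finset Eis} (hD : 𝒟 ⊆ S Δ)
    (c : Eis → ℂ) {g l l₁ : Eis} (hg : IsPrim g)
    (hl : IsPrim l) (hl₁ : IsPrim l₁) (hcl : IsCoprime (g * l₁) l)
    (hcD : ∀ D ∈ 𝒟, IsCoprime (g * l₁) D) (hh : g * l₁ ∈ S Y)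
    (hs : ∀ n, bg (BB 𝒟 c b) g l n ≠ 0 → n ∈ S Y) (s : Eis) {d f : Eis} (hd : IsPrim d)
    (hf : IsPrim f) (H : Eis) (P : Eis → Eis → Prop) {ρ : Bool → ℝ} (hρ : ∀ j, 0 < ρ j) :
    EE A (rs (bg (BB 𝒟 c b) g l) (pt s) d f)
      (rs (Pi.single (g * l₁) 1) (fun m => conj (pt s m)) d f) H ≤
      if d * f ∣ l₁ then Q2x A 𝒟 Δ c b P (g * (d * f)) (s * l * H) ρ else 0 := by
  have hdf : IsPrim (d * f) := hd.mul hf
  have hγ : IsPrim (g * (d * f)) := hg.mul hdf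
  have hQ0 : 0 ≤ if d * f ∣ l₁ then Q2x A 𝒟 Δ c b P (g * (d * f)) (s * l * H) ρ else 0 := by
    split_ifs
    · exact Q2x_nonneg hρ
    · exact le_rfl
  by_cases h1 : d * f ∣ g * l₁
  swap
  · refine le_trans (le_of_eq (EE_zero_right (fun n => ?_) _)) hQ0
    unfold rs
    rw [Pi.single_eq_of_ne, zero_mul]
    intro h2
    exact h1 ⟨n, h2.symm⟩
  have hdl : IsCoprime (d * f) l := hcl.of_isCoprime_of_dvd_left h1
  have hZΔ : 0 ≤ Δ * Z := mul_nonneg hΔ hZ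
  have hrs : ∀ n, rs (bg (BB 𝒟 c b) g l) (pt s) d f n ≠ 0 → n ∈ S Y :=
    fun n hn => rs_supp hY hs (pt s) hd hf n hn
  have h2 := EE_single_le hA hY hrs (ψ := fun m => conj (pt s m)) (fun n hn => by
    rw [RCLike.norm_conj]; exact norm_pt_le s hn) hd hf hh H
  refine h2.trans ?_
  have hTT := fun t => TT_bgs hZΔ (BB_supp hZ hΔ hb hD c) hg hl hdf hdl s H t
  by_cases h3 : IsCoprime (d * f) (g * l)
  · have h4 : d * f ∣ l₁ := (h3.of_mul_right_left).dvd_of_dvd_mul_left h1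
    have hγd : g * (d * f) ∣ g * l₁ := mul_dvd_mul_left g h4
    have hcγ : ∀ D ∈ 𝒟, IsCoprime (g * (d * f)) D :=
      fun D hD1 => (hcD D hD1).of_isCoprime_of_dvd_left hγd
    rw [if_pos h4]
    refine le_trans ?_ (integral_BBx_le hA hZ hΔ hb hD c hγ hcγ (s * l * H) P hρ)
    have hsup2 : ∀ n, BB 𝒟 c b (g * (d * f) * n) ≠ 0 → n ∈ S (Δ * Z) :=
      fun n hn => mul_supp hZΔ (BB_supp hZ hΔ hb hD c) hγ n hn
    have hint : Integrable fun t => jb A t *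
        ‖TT (fun n => BB 𝒟 c b (g * (d * f) * n)) (s * l * H) t‖ :=
      integrable_jb_mul hA ((continuous_TT hsup2 _).norm)
        (B := ∑ k ∈ S (Δ * Z), ‖BB 𝒟 c b (g * (d * f) * k)‖) fun t => by
        rw [abs_of_nonneg (norm_nonneg _)]
        exact norm_TT_le hZΔ hsup2 _ t
    refine integral_mono_of_nonneg (Filter.Eventually.of_forall fun t =>
      mul_nonneg (jb_pos A t).le (norm_nonneg _)) hint
      (Filter.Eventually.of_forall fun t => ?_)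
    beta_reduce
    refine mul_le_mul_of_nonneg_left ?_ (jb_pos A t).le
    unfold rs
    rw [hTT t, if_pos h3, norm_mul]
    refine mul_le_of_le_one_left (norm_nonneg _) ?_
    rw [norm_mul, norm_mul, norm_pw, mul_one]
    exact mul_le_one₀ (norm_pt_le s hl) (norm_nonneg _) (norm_Gsy_le hl)
  · have h4 : ∫ t, jb A t * ‖TT (rs (bg (BB 𝒟 c b) g l) (pt s) d f) H t‖ = 0 := by
      have : (fun t => jb A t * ‖TT (rs (bg (BB 𝒟 c b) g l) (pt s) d f) H t‖) = fun _ => 0 := by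
        funext t
        unfold rs
        rw [hTT t, if_neg h3, zero_mul, norm_zero, mul_zero]
      rw [this]; simp
    rw [h4]
    exact hQ0

end Crest.Agent.R017.PoDx50
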