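import Crest.Agent.R017.PoDx3_50

/-!
# Row 17, E3 class E: the second form in two classes (helper50), part 4

`reorderx`, `dbl_onex`.
-/

set_option autoImplicit false
set_option linter.unusedVariables false

noncomputable section

open Complex MeasureTheory
open scoped ComplexConjugate Classical

namespace Crest.Agent.R017.PoDx50

open Crest.Agent.R012 Crest.Agent.R012.Eis Crest.Agent.R012.MC
open Crest.Agent.R012.LS2 (S mem_S bl mem_bl)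
open Crest.Agent.R012.Mob705 (mu pdiv mem_pdiv abs_mu_le_one sum_mu_coprime)
open Crest.Agent.R012.NonCube52 (Ker kv Good nm_kv)
open Crest.Agent.R017.E1551 (nmpos jb jb_pos integrable_jb integrable_jb_mul nm_ge_one)
open Crest.Agent.R017.BD829
open Crest.Agent.R017.PoH347
open Crest.Agent.R017.Mode405 (VI Slp)
open Crest.Agent.R017.E3D579 (bt)
open Crest.Agent.R017.PoD50
open Crest.Agent.R017.PoHx72
open Crest.Agent.R017.MX744
open Gauss880 (syG)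

lemma ndx_nonneg (j : Bool) {v Nd Δ L : ℝ} (hv : 0 ≤ v) (hNd : 0 ≤ Nd) (hΔ : 0 ≤ Δ) (hL : 0 ≤ L) :
    0 ≤ ndx j v Nd Δ L := by
  unfold ndx
  split_ifs
  · positivity
  · exact nrm_nonneg hΔ hL

lemma ndx_pos (j : Bool) {v Nd Δ L : ℝ} (hv : 0 < v) (hNd : 0 < Nd) (hΔ : 0 < Δ) (hL : 0 < L) :
    0 < ndx j v Nd Δ L := by
  unfold ndx
  split_ifs
  · positivity
  · exact nrm_pos hΔ.le hL

lemma ndx_dbl (j : Bool) {v Nd Δ L : ℝ} (hv : 0 ≤ v) (hNd : 0 ≤ Nd) (hΔ : 0 ≤ Δ) (hL : 0 ≤ L) :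
    ndx j v Nd Δ (2 * L) ≤ 2 * ndx j v Nd Δ L := by
  unfold ndx
  split_ifs
  · have h1 : (2 * L) ^ (1 / 3 : ℝ) ≤ 2 * L ^ (1 / 3 : ℝ) := by
      rw [Real.mul_rpow (by norm_num) hL]
      refine mul_le_mul_of_nonneg_right ?_ (by positivity)
      calc (2 : ℝ) ^ (1 / 3 : ℝ) ≤ 2 ^ (1 : ℝ) :=
            Real.rpow_le_rpow_of_exponent_le (by norm_num) (by norm_num)
        _ = 2 := Real.rpow_one 2
    calc 18 * v * (Nd * (2 * L) ^ (1 / 3 : ℝ)) ≤ 18 * v * (Nd * (2 * L ^ (1 / 3 : ℝ))) := by gcongr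
      _ = _ := by ring
  · exact nrm_smul hΔ hL (by norm_num)

/-- reordering of the sums -/
lemma reorderx {ι : Type} (A Δ : ℝ) (Q : Finset ι) (Fs Ks : Finset Eis) (𝒟 : ι → Finset Eis)
    (c b : ι → Eis → ℂ) (P : ι → Eis → Eis → Prop) (G : Eis → Eis) (H : Eis → Eis → Eis)
    (ρ : Bool → ℝ) :
    ∑ k ∈ Ks, ∑ q ∈ Q, ∑ f ∈ Fs, Q2x A (𝒟 q) Δ (c q) (b q) (P q) (G f) (H k f) ρ =
      ∑ f ∈ Fs, ∑ j : Bool, (ρ j * (∑ q ∈ Q, ∑ r ∈ Rq Δ (b q) (G f), ∑ k ∈ Ks,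
          (if Cls (P q (G f * r)) j (H k f * r) then
            EQ A (cr (𝒟 q) (c q) (G f) 1 r) (H k f) else 0)) +
        (ρ j)⁻¹ * (∑ q ∈ Q, ∑ r ∈ Rq Δ (b q) (G f), ∑ k ∈ Ks,
          (if Cls (P q (G f * r)) j (H k f * r) then
            EQ A (fun m => b q (G f * r * m)) (H k f * r) else 0))) := by
  have e2 : ∀ k ∈ Ks, ∑ q ∈ Q, ∑ f ∈ Fs, Q2x A (𝒟 q) Δ (c q) (b q) (P q) (G f) (H k f) ρ =
      ∑ f ∈ Fs, ∑ q ∈ Q, Q2x A (𝒟 q) Δ (c q) (b q) (P q) (G f) (H k f) ρ :=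
    fun k _ => Finset.sum_comm
  rw [Finset.sum_congr rfl e2, Finset.sum_comm]
  refine Finset.sum_congr rfl fun f _ => ?_
  rw [Finset.sum_comm]
  have e4 : ∀ j ∈ (Finset.univ : Finset Bool),
      (ρ j * (∑ q ∈ Q, ∑ r ∈ Rq Δ (b q) (G f), ∑ k ∈ Ks,
          (if Cls (P q (G f * r)) j (H k f * r) then
            EQ A (cr (𝒟 q) (c q) (G f) 1 r) (H k f) else 0)) +
        (ρ j)⁻¹ * (∑ q ∈ Q, ∑ r ∈ Rq Δ (b q) (G f), ∑ k ∈ Ks,
          (if Cls (P q (G f * r)) j (H k f * r) then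
            EQ A (fun m => b q (G f * r * m)) (H k f * r) else 0))) =
      ∑ q ∈ Q, ∑ r ∈ Rq Δ (b q) (G f), ∑ k ∈ Ks, (if Cls (P q (G f * r)) j (H k f * r) then
        ρ j * EQ A (cr (𝒟 q) (c q) (G f) 1 r) (H k f) +
          (ρ j)⁻¹ * EQ A (fun m => b q (G f * r * m)) (H k f * r) else 0) := by
    intro j _
    rw [Finset.mul_sum, Finset.mul_sum, ← Finset.sum_add_distrib]
    refine Finset.sum_congr rfl fun q _ => ?_
    rw [Finset.mul_sum, Finset.mul_sum, ← Finset.sum_add_distrib]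
    refine Finset.sum_congr rfl fun r _ => ?_
    rw [Finset.mul_sum, Finset.mul_sum, ← Finset.sum_add_distrib]
    refine Finset.sum_congr rfl fun k _ => ?_
    split_ifs
    · rfl
    · ring
  rw [Finset.sum_congr rfl e4]
  symm
  rw [Finset.sum_comm]
  refine Finset.sum_congr rfl fun q _ => ?_
  symm
  unfold Q2x
  rw [Finset.sum_comm]
  symm
  rw [Finset.sum_comm]
  refine Finset.sum_congr rfl fun r _ => ?_
  exact Finset.sum_comm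

/-- doubling of one summand -/
lemma dbl_onex (j : Bool) {a : ℕ} {W : ℝ → ℝ} (hW : Slp a W) {C1 ε1 v Nd Δ L T Qt ρ x w : ℝ}
    (hC1 : 0 ≤ C1) (hε1 : ε1 ≤ 1) (hv : 0 ≤ v) (hNd : 0 ≤ Nd) (hΔ : 0 ≤ Δ) (hL : 0 < L)
    (hT : 0 ≤ T) (hQt : 0 ≤ Qt) (hρ : 0 < ρ) (hx : 0 < x) (hw : 0 ≤ w) :
    ρ * (C1 * (2 * L * Δ) ^ ε1 * ndx j v Nd Δ (2 * L) * (T * Qt)) +
      ρ⁻¹ * (W (2 * L * x) * w) ≤
      2 ^ (a + 2) * (ρ * (C1 * (L * Δ) ^ ε1 * ndx j v Nd Δ L * (T * Qt)) +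
        ρ⁻¹ * (W (L * x) * w)) := by
  have hnn : 0 ≤ ndx j v Nd Δ L := ndx_nonneg j hv hNd hΔ hL.le
  have hnn2 : 0 ≤ ndx j v Nd Δ (2 * L) := ndx_nonneg j hv hNd hΔ (by positivity)
  have h2 : ndx j v Nd Δ (2 * L) ≤ 2 * ndx j v Nd Δ L := ndx_dbl j hv hNd hΔ hL.le
  have h3 : (2 * L * Δ) ^ ε1 ≤ 2 * (L * Δ) ^ ε1 := by
    rw [mul_assoc, Real.mul_rpow (by norm_num) (by positivity)]
    refine mul_le_mul_of_nonneg_right ?_ (by positivity)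
    calc (2 : ℝ) ^ ε1 ≤ 2 ^ (1 : ℝ) := Real.rpow_le_rpow_of_exponent_le (by norm_num) hε1
      _ = 2 := Real.rpow_one 2
  have h4 : (4 : ℝ) ≤ 2 ^ (a + 2) := by
    calc (4 : ℝ) = 2 ^ 2 := by norm_num
      _ ≤ 2 ^ (a + 2) := pow_le_pow_right₀ (by norm_num) (by omega)
  have h5 : W (2 * L * x) ≤ 2 ^ (a + 2) * W (L * x) := by
    have h6 := hW.dbl (L * x) (by positivity)
    have h7 := hW.nonneg (L * x) (by positivity)
    have h8 : (2 : ℝ) ^ a ≤ 2 ^ (a + 2) := pow_le_pow_right₀ (by norm_num) (by omega)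
    rw [mul_assoc 2 L]
    exact h6.trans (mul_le_mul_of_nonneg_right h8 h7)
  have h6 : 0 ≤ (L * Δ) ^ ε1 := by positivity
  have g1 : C1 * (2 * L * Δ) ^ ε1 * ndx j v Nd Δ (2 * L) * (T * Qt) ≤
      2 ^ (a + 2) * (C1 * (L * Δ) ^ ε1 * ndx j v Nd Δ L * (T * Qt)) := by
    calc C1 * (2 * L * Δ) ^ ε1 * ndx j v Nd Δ (2 * L) * (T * Qt)
        ≤ C1 * (2 * (L * Δ) ^ ε1) * (2 * ndx j v Nd Δ L) * (T * Qt) := by gcongr
      _ = 4 * (C1 * (L * Δ) ^ ε1 * ndx j v Nd Δ L * (T * Qt)) := by ring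
      _ ≤ _ := mul_le_mul_of_nonneg_right h4 (by positivity)
  have g2 : W (2 * L * x) * w ≤ 2 ^ (a + 2) * (W (L * x) * w) := by
    calc W (2 * L * x) * w ≤ (2 ^ (a + 2) * W (L * x)) * w := mul_le_mul_of_nonneg_right h5 hw
      _ = _ := by ring
  calc _ ≤ ρ * (2 ^ (a + 2) * (C1 * (L * Δ) ^ ε1 * ndx j v Nd Δ L * (T * Qt))) +
        ρ⁻¹ * (2 ^ (a + 2) * (W (L * x) * w)) :=
        add_le_add (mul_le_mul_of_nonneg_left g1 hρ.le)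
          (mul_le_mul_of_nonneg_left g2 (inv_nonneg.mpr hρ.le))
    _ = _ := by ring

end Crest.Agent.R017.PoDx50
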