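import Crest.Agent.R017.PoDx4_50
import Crest.Agent.R017.PoDy1_72
import Crest.Agent.R017.PoDy2_405

/-!
# Row 17, E3 class E: the second form in two classes (helper50), part 5

`mode_dex` : the total weight of the modes of the family at one pair `(d, e)`, in classes.
-/

set_option autoImplicit false
set_option linter.unusedVariables false

noncomputable section

open Complex MeasureTheory
open scoped ComplexConjugate Classical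

namespace Crest.Agent.R017.PoDx50

open Crest.Agent.R012 Crest.Agent.R012.Eis Crest.Agent.R012.MC
open Crest.Agent.R012.LS2 (S mem_S bl mem_bl)
open Crest.Agent.R012.Mob705 (mu pdiv mem_pdiv abs_mu_le_one sum_mu_coprime)
open Crest.Agent.R012.NonCube52 (Ker kv Good nm_kv)
open Crest.Agent.R017.E1551 (nmpos jb jb_pos integrable_jb integrable_jb_mul nm_ge_one)
open Crest.Agent.R017.BD829
open Crest.Agent.R017.PoH347
open Crest.Agent.R017.Mode405 (VI Slp)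
open Crest.Agent.R017.E3D579 (bt)
open Crest.Agent.R017.PoD50
open Crest.Agent.R017.PoHx72
open Crest.Agent.R017.MX744
open Crest.Agent.R017.PoDy72
open Gauss880 (syG)

/-- the `D`-side in one ball -/
lemma dside_x {A : ℝ} {ε1 C1 : ℝ} (hLS : CrLSx A ε1 C1) {Z Δ L T Nd : ℝ} (hZ : 0 ≤ Z)
    (hΔ1 : 1 ≤ Δ) (hL : 1 ≤ L) (hTΔ : ∀ n ∈ S Δ, (Div277.tau n : ℝ) ≤ T) {b : Eis → ℂ}
    (hb : ∀ n, b n ≠ 0 → n ∈ S Z) {𝒟 : Finset Eis} (hD : 𝒟 ⊆ S Δ) (hcd : (𝒟.card : ℝ) ≤ Nd)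
    {Pr : Eis → Eis → Prop} (hP : PrOK b Pr) {s : Eis} (hs : SU s) {g l d e f : Eis}
    (hg : IsPrim g) (hl : IsPrim l) (hd : IsPrim d) (he : e ∈ pdiv d) (hf : IsPrim f)
    (hcl : IsCoprime (g * (d * f)) l) (c : Eis → ℂ) (j : Bool) :
    ∑ r ∈ Rq Δ b (g * (d * f)), ∑ k ∈ bl L,
      (if Cls (Pr (g * (d * f) * r)) j (s * l * Hf (9 * s) e k f * r) then
        EQ A (cr 𝒟 c (g * (d * f)) 1 r) (s * l * Hf (9 * s) e k f) else 0) ≤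
      C1 * (L * Δ) ^ ε1 * ndx j ((nm g * (nm d / nm e) : ℝ) ^ (-(1 / 3) : ℝ)) Nd Δ L *
        (T * ∑ D ∈ 𝒟, ‖c D‖ ^ 2) := by
  have hΔ0 : 0 ≤ Δ := by linarith
  have hγ : IsPrim (g * (d * f)) := hg.mul (hd.mul hf)
  have h2 := hLS Δ L T hΔ1 hL hTΔ 𝒟 hD (Rq Δ b (g * (d * f))) (Finset.filter_subset _ _) c
    (g * (d * f)) hγ (s * l * ((e * ((9 * s) * sq3)) ^ 2 * f))
    (fun r H => Pr (g * (d * f) * r) (H * r)) ((nm g * (nm d / nm e) : ℝ) ^ (-(1 / 3) : ℝ)) Nd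
    (by positivity) hcd (fun r hr => by
      obtain ⟨hr1, hr2⟩ := Finset.mem_filter.mp hr
      have hrp := ((mem_S hΔ0).1 hr1).2.1
      exact cnt_x hZ hb hP hs hg hl hd he hf hrp hcl hr2 hL) j
  refine le_trans (le_of_eq ?_) h2
  refine Finset.sum_congr rfl fun r _ => Finset.sum_congr rfl fun k _ => ?_
  have e1 : s * l * Hf (9 * s) e k f = k * (s * l * ((e * ((9 * s) * sq3)) ^ 2 * f)) := by
    unfold Hf
    ring
  rw [e1]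
  rfl

/-- the `b`-side in one ball -/
lemma bside_x (j : Bool) {A : ℝ} {ι : Type} (Q : Finset ι) (b : ι → Eis → ℂ)
    {Pr : ι → Eis → Eis → Prop} {W : ℝ → ℝ} {B0 : ℝ} (hW : HWx j A B0 Q b 1 Pr W) {Δ : ℝ}
    (hΔ1 : 1 ≤ Δ) {s l g d e f : Eis} (hs : SU s) (hl : IsPrim l)
    (hg : IsPrim g) (hd : IsPrim d) (he : e ∈ pdiv d) (hf : IsPrim f)
    (hB0 : (nm e : ℝ) * nm f * Δ ≤ B0) {L : ℝ} (hL : 1 ≤ L) :
    ∑ q ∈ Q, ∑ r ∈ Rq Δ (b q) (g * (d * f)), ∑ h ∈ bl L,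
      (if Cls (Pr q (g * (d * f) * r)) j (s * l * Hf (9 * s) e h f * r) then
        EQ A (fun m => b q (g * (d * f) * r * m)) (s * l * Hf (9 * s) e h f * r) else 0) ≤
      W (L * nm (xd s g l d e)) * (1 / nm (g * (d * f)) * ∑ r ∈ S Δ, (1 / (nm r : ℝ))) := by
  have he' := (mem_pdiv hd.ne_zero).mp he
  have hde : d = e * (d / e) := (EuclideanDomain.mul_div_cancel' he'.1.ne_zero he'.2).symm
  have h5 := b_sidex j Q b hW hΔ1 (s := s) (M := 9 * s) hs.ne hl (LC_pt hs).ne hg hd he'.1 hde hf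
    hB0 hL
  rw [mul_assoc (W _)] at h5
  refine le_trans ?_ h5
  refine Finset.sum_le_sum fun q _ => ?_
  refine Finset.sum_le_sum_of_subset_of_nonneg (Finset.filter_subset _ _) fun r _ _ => ?_
  refine Finset.sum_nonneg fun h _ => ?_
  split_ifs
  · exact EQ_nonneg _ _ _
  · exact le_rfl

set_option maxHeartbeats 1000000 in
/-- **the modes of the family at one pair `(d, e)`, in classes** -/
theorem mode_dex {A B a : ℕ} (hA : 1 < A) (hB : a + 3 ≤ B) {ε1 C1 : ℝ}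
    (hε1 : ε1 ≤ 1) (hC1 : 0 < C1) (hLS : CrLSx A ε1 C1) {R N Z Δ Y N₁ N₂ X T Nd : ℝ} (hZ : 1 ≤ Z)
    (hΔ1 : 1 ≤ Δ) (hY0 : 0 ≤ Y) (hX : 0 < X) (hN₁0 : 0 < N₁) (hN₂0 : 0 < N₂)
    (hT : 0 ≤ T) (hNd : 0 ≤ Nd) (hTΔ : ∀ n ∈ S Δ, (Div277.tau n : ℝ) ≤ T) {ι : Type}
    {Q : Finset ι} {b : ι → Eis → ℂ} {Xq : ι → ℝ} {𝒟 : ι → Finset Eis}
    (hXq : ∀ q ∈ Q, X / 64 ≤ Xq q) (hF : DFam R Z N Δ 1 Q b 𝒟)
    (hcd : ∀ q ∈ Q, ((𝒟 q).card : ℝ) ≤ Nd) {Pr : ι → Eis → Eis → Prop}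
    (hP : ∀ q ∈ Q, PrOK (b q) (Pr q)) {W : Bool → ℝ → ℝ} (hW : ∀ j, Slp a (W j)) {B0 : ℝ}
    (hHW : ∀ j, HWx j A B0 Q b 1 Pr (W j))
    {s : Eis} (hs : SU s) {g l l₁ : Eis} (hg : IsPrim g) (hl : IsPrim l) (hl₁ : IsPrim l₁)
    (hcl : IsCoprime (g * l₁) l) (hcD : ∀ q ∈ Q, ∀ D ∈ 𝒟 q, IsCoprime (g * l₁) D)
    (hB0 : (nm l₁ : ℝ) * Δ ≤ B0) (hhY : g * l₁ ∈ S Y) (c : ι → Eis → ℂ)
    (huS : ∀ q ∈ Q, ∀ n, bg (BB (𝒟 q) (c q) (b q)) g l n ≠ 0 → n ∈ S Y) {d e : Eis}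
    (hd : d ∈ S Y) (he : e ∈ pdiv d) {ρ : Bool → ℝ} (hρ : ∀ j, 0 < ρ j) :
    ∑ q ∈ Q, ModeS A B (9 * s) (pt s) (Xq q) N₁ N₂ Y (bg (BB (𝒟 q) (c q) (b q)) g l)
      (Pi.single (g * l₁) 1) d e ≤
      (1 + 2 ^ (a + 2 + 1)) * ((min 1 (lmB (9 * s) (X / 64) N₁ N₂ d e)) ^ B *
        ∑ f ∈ (S Y).filter (fun f => d * f ∣ l₁), ∑ j : Bool,
        (ρ j * (C1 * (max 1 (lmB (9 * s) (X / 64) N₁ N₂ d e) * Δ) ^ ε1 *
            ndx j ((nm g * (nm d / nm e) : ℝ) ^ (-(1 / 3) : ℝ)) Nd Δ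
              (max 1 (lmB (9 * s) (X / 64) N₁ N₂ d e)) *
            (T * ∑ q ∈ Q, ∑ D ∈ 𝒟 q, ‖c q D‖ ^ 2)) +
          (ρ j)⁻¹ * (W j (max 1 (lmB (9 * s) (X / 64) N₁ N₂ d e) * nm (xd s g l d e)) *
            (1 / nm (g * (d * f)) * ∑ r ∈ S Δ, (1 / (nm r : ℝ)))))) := by
  have hA' : (1 : ℝ) < (A : ℝ) := by exact_mod_cast hA
  have hZ0 : 0 < Z := by linarith
  have hΔ0 : 0 ≤ Δ := by linarith
  have hd' := (mem_S hY0).1 hd
  have he' := (mem_pdiv hd'.2.1.ne_zero).mp he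
  have hfprop : ∀ f ∈ (S Y).filter (fun f => d * f ∣ l₁),
      f ∈ S Y ∧ IsPrim f ∧ d * f ∣ l₁ ∧ IsPrim (g * (d * f)) := by
    intro f hf
    obtain ⟨h1, h2⟩ := Finset.mem_filter.mp hf
    have h3 := ((mem_S hY0).1 h1).2.1
    exact ⟨h1, h3, h2, hg.mul (hd'.2.1.mul h3)⟩
  have hvS : ∀ n, (Pi.single (g * l₁) 1 : Eis → ℂ) n ≠ 0 → n ∈ S Y := by
    intro n hn
    by_cases h1 : n = g * l₁
    · rw [h1]; exact hhY
    · rw [Pi.single_eq_of_ne h1] at hn; exact absurd rfl hn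
  have hHs0 : 0 ≤ ∑ r ∈ S Δ, (1 / (nm r : ℝ)) := Finset.sum_nonneg fun _ _ => by positivity
  have hQt0 : 0 ≤ ∑ q ∈ Q, ∑ D ∈ 𝒟 q, ‖c q D‖ ^ 2 :=
    Finset.sum_nonneg fun _ _ => Finset.sum_nonneg fun _ _ => by positivity
  have hxd0 := nmpos (xd_ne hs.ne hg.ne_zero hl.ne_zero hd'.2.1.ne_zero he'.1.ne_zero he'.2)
  set vv : ℝ := (nm g * (nm d / nm e) : ℝ) ^ (-(1 / 3) : ℝ) with hvv
  have hvv0 : 0 ≤ vv := by rw [hvv]; positivity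
  refine modes_fam (a := a + 2) hA (by omega) (by omega) (LC_pt hs) (X := X / 64) (by positivity)
    hN₁0 hN₂0 hY0 Q Xq hXq (fun q => bg (BB (𝒟 q) (c q) (b q)) g l) _ huS hvS hd'.2.1 he'.1
    (G := fun L => ∑ f ∈ (S Y).filter (fun f => d * f ∣ l₁), ∑ j : Bool,
      (ρ j * (C1 * (L * Δ) ^ ε1 * ndx j vv Nd Δ L *
            (T * ∑ q ∈ Q, ∑ D ∈ 𝒟 q, ‖c q D‖ ^ 2)) +
          (ρ j)⁻¹ * (W j (L * nm (xd s g l d e)) *
            (1 / nm (g * (d * f)) * ∑ r ∈ S Δ, (1 / (nm r : ℝ)))))) (fun L hL => ?_)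
    (fun L hL => ?_)
  · -- the balls
    beta_reduce
    have h1 : ∀ k ∈ bl L, ∀ q ∈ Q, ∑ f ∈ S Y,
        EE A (rs (bg (BB (𝒟 q) (c q) (b q)) g l) (pt s) d f)
          (rs (Pi.single (g * l₁) 1) (fun m => conj (pt s m)) d f) (Hf (9 * s) e k f) ≤
        ∑ f ∈ (S Y).filter (fun f => d * f ∣ l₁), Q2x A (𝒟 q) Δ (c q) (b q) (Pr q)
          (g * (d * f)) (s * l * Hf (9 * s) e k f) ρ := by
      intro k _ q hq
      rw [Finset.sum_filter]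
      refine Finset.sum_le_sum fun f hf => ?_
      have hf' := (mem_S hY0).1 hf
      exact EE_BBx_le hA' hZ0.le hΔ0 hY0 (hF.supp q hq) (hF.sub q hq) (c q) hg hl hl₁
        hcl (hcD q hq) hhY (huS q hq) s hd'.2.1 hf'.2.1 (Hf (9 * s) e k f) (Pr q) hρ
    refine (Finset.sum_le_sum fun k hk => Finset.sum_le_sum fun q hq => h1 k hk q hq).trans ?_
    rw [reorderx (A : ℝ) Δ Q ((S Y).filter (fun f => d * f ∣ l₁)) (bl L) 𝒟 c b Pr
      (fun f => g * (d * f)) (fun k f => s * l * Hf (9 * s) e k f) ρ]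
    refine Finset.sum_le_sum fun f hf => Finset.sum_le_sum fun j _ => ?_
    obtain ⟨hfS, hfp, hdfl, hγ⟩ := hfprop f hf
    have hclf : IsCoprime (g * (d * f)) l := hcl.of_isCoprime_of_dvd_left (mul_dvd_mul_left g hdfl)
    refine add_le_add (mul_le_mul_of_nonneg_left ?_ (hρ j).le)
      (mul_le_mul_of_nonneg_left ?_ (inv_nonneg.mpr (hρ j).le))
    · -- the `D`-side
      rw [Finset.mul_sum, Finset.mul_sum]
      refine Finset.sum_le_sum fun q hq => ?_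
      exact dside_x hLS hZ0.le hΔ1 hL hTΔ (hF.supp q hq) (hF.sub q hq) (hcd q hq) (hP q hq) hs hg hl
        hd'.2.1 he hfp hclf (c q) j
    · -- the `b`-side
      have h4 : (nm e : ℝ) * nm f * Δ ≤ B0 := by
        have h5 : (nm e : ℝ) * nm f ≤ nm l₁ := by
          have h6 : (nm (d * f) : ℝ) ≤ nm l₁ := by
            exact_mod_cast Div277.nm_le_of_dvd hl₁.ne_zero hdfl
          have h7 : (nm e : ℝ) ≤ nm d := by
            exact_mod_cast Div277.nm_le_of_dvd hd'.2.1.ne_zero he'.2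
          rw [nm_mul] at h6
          push_cast at h6
          have h8 : (nm e : ℝ) * nm f ≤ nm d * nm f :=
            mul_le_mul_of_nonneg_right h7 (Nat.cast_nonneg _)
          linarith
        exact (mul_le_mul_of_nonneg_right h5 hΔ0).trans hB0
      exact bside_x j Q b (hHW j) hΔ1 hs hl hg hd'.2.1 he hfp h4 hL
  · -- doubling
    beta_reduce
    rw [Finset.mul_sum _ _ ((2 : ℝ) ^ (a + 2))]
    refine Finset.sum_le_sum fun f hf => ?_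
    rw [Finset.mul_sum _ _ ((2 : ℝ) ^ (a + 2))]
    refine Finset.sum_le_sum fun j _ => ?_
    obtain ⟨hfS, hfp, hdfl, hγ⟩ := hfprop f hf
    have nγ := nmpos hγ.ne_zero
    have hw0 : 0 ≤ (1 / nm (g * (d * f)) : ℝ) * ∑ r ∈ S Δ, (1 / (nm r : ℝ)) :=
      mul_nonneg (by positivity) hHs0
    have hL0 : 0 < L := by linarith
    exact dbl_onex j (hW j) hC1.le hε1 hvv0 hNd hΔ0 hL0 hT hQt0 (hρ j) hxd0 hw0

end Crest.Agent.R017.PoDx50
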