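import Crest.Agent.R017.PoDx5_50
import Crest.Agent.R017.PoDx1_50

/-!
# Row 17, E3 class E: the second form in two classes (helper50), part 6

`pair_dex` : one pair `(d, e)`.
-/

set_option autoImplicit false
set_option linter.unusedVariables false

noncomputable section

open Complex MeasureTheory
open scoped ComplexConjugate Classical

namespace Crest.Agent.R017.PoDx50

open Crest.Agent.R012 Crest.Agent.R012.Eis Crest.Agent.R012.MC
open Crest.Agent.R012.LS2 (S mem_S bl mem_bl)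
open Crest.Agent.R012.Mob705 (mu pdiv mem_pdiv abs_mu_le_one sum_mu_coprime)
open Crest.Agent.R012.NonCube52 (Ker kv Good nm_kv)
open Crest.Agent.R017.E1551 (nmpos jb jb_pos integrable_jb integrable_jb_mul nm_ge_one)
open Crest.Agent.R017.BD829
open Crest.Agent.R017.PoH347
open Crest.Agent.R017.Mode405 (VI Slp)
open Crest.Agent.R017.E3D579 (bt)
open Crest.Agent.R017.PoD50
open Crest.Agent.R017.PoHx72
open Crest.Agent.R017.MX744
open Crest.Agent.R017.PoDy72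
open Gauss880 (syG)

/-- the value of the class `j` -/
def vx (j : Bool) (Δ Nd θ y2 : ℝ) : ℝ :=
  if j = true then Nd * y2 ^ (-(2 / 3) : ℝ) else nf2 Δ θ

lemma vx_nonneg (j : Bool) {Δ Nd θ y2 : ℝ} (hΔ : 0 ≤ Δ) (hNd : 0 ≤ Nd) (hθ : 0 ≤ θ)
    (hy : 0 ≤ y2) : 0 ≤ vx j Δ Nd θ y2 := by
  unfold vx
  split_ifs
  · positivity
  · exact nf2_nonneg hΔ hθ

/-- one pair `(d, e)` in the assembly, abstractly -/
lemma pair_arithx {Fs : Finset Eis} {k0 r m n Qt P c1 K MS : ℝ} {V Bd : Bool → ℝ}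
    {W2' : Eis → Bool → ℝ} (hk0 : k0 = P * c1) (hP : 0 ≤ P) (hK : K ≤ P)
    (hk : 0 < k0) (hr : 0 < r) (hm : 0 < m) (hn : 0 < n) (hMS0 : 0 ≤ MS)
    (hV : ∀ j, 0 < V j)
    (hMS : MS ≤ c1 * (m * ∑ f ∈ Fs, ∑ j : Bool, ((2 * n * k0 * r * m * V j)⁻¹ * (V j * Qt) +
      ((2 * n * k0 * r * m * V j)⁻¹)⁻¹ * W2' f j)))
    (hB : ∀ f ∈ Fs, ∀ j, 2 * n * (k0 * r * m) ^ 2 * V j * W2' f j ≤ Bd j) :
    K * (r * MS) ≤ ∑ f ∈ Fs, ∑ j : Bool, (Qt / (2 * n) + Bd j) := by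
  calc K * (r * MS) ≤ P * (r * MS) := mul_le_mul_of_nonneg_right hK (by positivity)
    _ ≤ P * (r * (c1 * (m * ∑ f ∈ Fs, ∑ j : Bool,
        ((2 * n * k0 * r * m * V j)⁻¹ * (V j * Qt) +
      ((2 * n * k0 * r * m * V j)⁻¹)⁻¹ * W2' f j)))) := by
        refine mul_le_mul_of_nonneg_left ?_ hP
        exact mul_le_mul_of_nonneg_left hMS hr.le
    _ = k0 * (r * (m * ∑ f ∈ Fs, ∑ j : Bool,
        ((2 * n * k0 * r * m * V j)⁻¹ * (V j * Qt) +
      ((2 * n * k0 * r * m * V j)⁻¹)⁻¹ * W2' f j))) := by rw [hk0]; ring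
    _ = ∑ f ∈ Fs, ∑ j : Bool, k0 * (r * (m *
        ((2 * n * k0 * r * m * V j)⁻¹ * (V j * Qt) +
      ((2 * n * k0 * r * m * V j)⁻¹)⁻¹ * W2' f j))) := by
        rw [Finset.mul_sum, Finset.mul_sum, Finset.mul_sum]
        refine Finset.sum_congr rfl fun f _ => ?_
        rw [Finset.mul_sum, Finset.mul_sum, Finset.mul_sum]
    _ ≤ _ := by
        refine Finset.sum_le_sum fun f hf => Finset.sum_le_sum fun j _ => ?_
        rw [tuple_arith hk hr hm hn (hV j)]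
        have := hB f hf j
        linarith

/-- the sum over the pairs, abstractly -/
lemma pairs_sumx {Ps : Finset Eis} {Es : Eis → Finset Eis} {Fs : Eis → Finset Eis}
    {K Qt n : ℝ} {Bd : Bool → ℝ} {r MS : Eis → Eis → ℝ} (hn : 0 < n)
    (hQ0 : 0 ≤ Qt) (hBd : ∀ j, 0 ≤ Bd j)
    (h1 : Qt ≤ ∑ d ∈ Ps, ∑ e ∈ Es d, K * (r d e * MS d e))
    (h2 : ∀ d ∈ Ps, ∀ e ∈ Es d, K * (r d e * MS d e) ≤
      ∑ f ∈ Fs d, ∑ j : Bool, (Qt / (2 * n) + Bd j))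
    (h3 : ∑ d ∈ Ps, ∑ e ∈ Es d, ∑ f ∈ Fs d, (1 : ℝ) ≤ n / 2) :
    Qt ≤ n * ∑ j : Bool, Bd j := by
  have h4 : Qt ≤ ∑ d ∈ Ps, ∑ e ∈ Es d, ∑ f ∈ Fs d, (∑ j : Bool, (Qt / (2 * n) + Bd j)) * 1 := by
    refine h1.trans (Finset.sum_le_sum fun d hd => Finset.sum_le_sum fun e he => ?_)
    refine (h2 d hd e he).trans (le_of_eq ?_)
    refine Finset.sum_congr rfl fun f _ => ?_
    rw [mul_one]
  have hq : 0 ≤ Qt / (2 * n) := div_nonneg hQ0 (by positivity)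
  have h5 : 0 ≤ ∑ j : Bool, (Qt / (2 * n) + Bd j) :=
    Finset.sum_nonneg fun j _ => add_nonneg hq (hBd j)
  simp only [← Finset.mul_sum] at h4
  have h6 := h4.trans (mul_le_mul_of_nonneg_left h3 h5)
  have h7 : (∑ j : Bool, (Qt / (2 * n) + Bd j)) * (n / 2) = Qt / 2 + n / 2 * ∑ j : Bool, Bd j := by
    rw [Fintype.sum_bool, Fintype.sum_bool]
    field_simp
    ring
  rw [h7] at h6
  linarith

set_option maxHeartbeats 2000000 in
/-- **one pair `(d, e)`** -/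
theorem pair_dex {A B a : ℕ} (hA : 1 < A) (hB : a + 3 ≤ B)
    {ε1 C1 Ch U C0 R N Z Δ X T σ B0 n Nd : ℝ} (hε0 : 0 < ε1) (hε1 : ε1 ≤ 1) (hC1 : 0 < C1)
    (hLS : CrLSx A ε1 C1) (hU : 1 ≤ U) (hC0 : 0 ≤ C0) (hZ : 1 ≤ Z) (hN : 0 < N) (hNZ : N ≤ Z)
    (hX : 0 < X) (hXZ : 1 ≤ X * Z) (hΔ1 : 1 ≤ Δ) (hΔZ : Δ ≤ Z) (hT : 0 < T)
    (hTΔ : ∀ m ∈ S Δ, (Div277.tau m : ℝ) ≤ T)
    (hHs : ∑ r ∈ S Δ, (1 / (nm r : ℝ)) ≤ Ch * Z ^ ε1) (hn : 0 < n) (hσ1 : 1 ≤ σ) (hσ9 : σ ≤ 9)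
    {ι : Type} {Q : Finset ι} {b : ι → Eis → ℂ} {Xq : ι → ℝ} {𝒟 : ι → Finset Eis}
    (hXq : ∀ q ∈ Q, X / 64 ≤ Xq q) (hF : DFam R Z N Δ 1 Q b 𝒟) (hNd : 0 < Nd)
    (hcd : ∀ q ∈ Q, ((𝒟 q).card : ℝ) ≤ Nd) {Pr : ι → Eis → Eis → Prop}
    (hP : ∀ q ∈ Q, PrOK (b q) (Pr q)) {W : Bool → ℝ → ℝ} (hW : ∀ j, Slp a (W j))
    (hHW : ∀ j, HWx j A B0 Q b 1 Pr (W j))
    {s : Eis} (hs : SU s) (hsU : (nm (9 * s) : ℝ) ≤ U) {g l l₁ : Eis}
    (hg : IsPrim g) (hl : IsPrim l) (hl₁ : IsPrim l₁) (hcl : IsCoprime (g * l₁) l)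
    (hcD : ∀ q ∈ Q, ∀ D ∈ 𝒟 q, IsCoprime (g * l₁) D) (hB0 : (nm l₁ : ℝ) * Δ ≤ B0)
    (hK1 : (nm l₁ : ℝ) * (nm g * nm l) ^ 2 ≤ Z) {Y : ℝ} (hY0 : 0 ≤ Y) (hhY : g * l₁ ∈ S Y)
    (c : ι → Eis → ℂ) (huS : ∀ q ∈ Q, ∀ m, bg (BB (𝒟 q) (c q) (b q)) g l m ≠ 0 → m ∈ S Y)
    {d e : Eis} (hd : d ∈ S Y) (he : e ∈ pdiv d) :
    (2 * C0 * (X / Real.sqrt (N * Δ * nm l / nm g * nm (g * l₁)))) *
      ((nm d / nm e : ℝ) * ∑ q ∈ Q, ModeS A B (9 * s) (pt s) (Xq q) (N * Δ * nm l / nm g)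
        (nm (g * l₁)) Y (bg (BB (𝒟 q) (c q) (b q)) g l) (Pi.single (g * l₁) 1) d e) ≤
      ∑ f ∈ (S Y).filter (fun f => d * f ∣ l₁), ∑ j : Bool,
        ((∑ q ∈ Q, ∑ D ∈ 𝒟 q, ‖c q D‖ ^ 2) / (2 * n) +
          2 * n * ((2 * C0 + 1) * (1 + 2 ^ (a + 2 + 1))) ^ 2 *
          ((C1 * (192 * U * Z ^ (6 * ε1)) * T * (Ch * Z ^ ε1)) * (2 ^ a * (18 * (192 * U)) *
            (X * vx j Δ Nd ((X / (N * Δ)) ^ 2 / (σ * (nm l₁ * (nm g * nm l) ^ 2)))
              (N * Δ * nm l * nm l₁ / X * (nm g : ℝ) ^ 2) *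
              W j (cst U * (N * Δ * (nm l₁ * (nm g * nm l) ^ 2) / X)))))) := by
  have hd' := (mem_S hY0).1 hd
  have he' := (mem_pdiv hd'.2.1.ne_zero).mp he
  have hΔ0 : 0 < Δ := by linarith
  have ng := nmpos hg.ne_zero
  have nl := nmpos hl.ne_zero
  have nl₁ := nmpos hl₁.ne_zero
  have nd := nmpos hd'.2.1.ne_zero
  have ne := nmpos he'.1.ne_zero
  have nM := nmpos (LC_pt hs).ne
  have ns := nmpos hs.ne
  have ngl : (nm (g * l₁) : ℝ) = nm g * nm l₁ := by rw [nm_mul]; push_cast; rfl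
  have hN₁ : 0 < N * Δ * nm l / nm g := by positivity
  have hN₂ : 0 < (nm (g * l₁) : ℝ) := by rw [ngl]; positivity
  have hsr : 0 < X / Real.sqrt (N * Δ * nm l / nm g * nm (g * l₁)) :=
    div_pos hX (Real.sqrt_pos.mpr (by positivity))
  have hc1 : (0 : ℝ) < 1 + 2 ^ (a + 2 + 1) := by positivity
  have hlm : lmB (9 * s) (X / 64) (N * Δ * nm l / nm g) (nm (g * l₁)) d e =
      192 * nm (9 * s) * nm e * (N * Δ * nm l * nm l₁ / X) / (nm d : ℝ) ^ 2 := by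
    unfold lmB
    rw [ngl]
    field_simp
    ring
  have hlm0 : 0 < lmB (9 * s) (X / 64) (N * Δ * nm l / nm g) (nm (g * l₁)) d e := by
    rw [hlm]; positivity
  have hk0 : 0 < (2 * C0 + 1) * (X / Real.sqrt (N * Δ * nm l / nm g * nm (g * l₁))) *
      (1 + 2 ^ (a + 2 + 1)) := by positivity
  have hm0 : 0 < (min 1 (lmB (9 * s) (X / 64) (N * Δ * nm l / nm g) (nm (g * l₁)) d e)) ^ B :=
    pow_pos (lt_min one_pos hlm0) B
  have hMS0 : 0 ≤ ∑ q ∈ Q, ModeS A B (9 * s) (pt s) (Xq q) (N * Δ * nm l / nm g)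
        (nm (g * l₁)) Y (bg (BB (𝒟 q) (c q) (b q)) g l) (Pi.single (g * l₁) 1) d e := by
    refine Finset.sum_nonneg fun q hq => ?_
    unfold ModeS
    refine tsum_nonneg fun k => ?_
    split_ifs
    · exact le_rfl
    · have h64 : 0 ≤ X / 64 := by positivity
      exact mul_nonneg (WB_nonneg (h64.trans (hXq q hq)) hN₁.le hN₂.le B d e k)
        (Finset.sum_nonneg fun _ _ => EE_nonneg _ _ _ _)
  have hΛ : 0 < max 1 (lmB (9 * s) (X / 64) (N * Δ * nm l / nm g) (nm (g * l₁)) d e) :=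
    lt_of_lt_of_le one_pos (le_max_left _ _)
  have hvv : 0 < (nm g * (nm d / nm e) : ℝ) ^ (-(1 / 3) : ℝ) := by positivity
  have hV : ∀ j : Bool, 0 < C1 *
      (max 1 (lmB (9 * s) (X / 64) (N * Δ * nm l / nm g) (nm (g * l₁)) d e) * Δ) ^ ε1 *
      ndx j ((nm g * (nm d / nm e) : ℝ) ^ (-(1 / 3) : ℝ)) Nd Δ
        (max 1 (lmB (9 * s) (X / 64) (N * Δ * nm l / nm g) (nm (g * l₁)) d e)) * T := by
    intro j
    have h2 := ndx_pos j hvv hNd hΔ0 hΛ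
    positivity
  refine pair_arithx (Fs := (S Y).filter (fun f => d * f ∣ l₁))
    (k0 := (2 * C0 + 1) * (X / Real.sqrt (N * Δ * nm l / nm g * nm (g * l₁))) *
      (1 + 2 ^ (a + 2 + 1))) (r := nm d / nm e)
    (m := (min 1 (lmB (9 * s) (X / 64) (N * Δ * nm l / nm g) (nm (g * l₁)) d e)) ^ B) (n := n)
    (Qt := ∑ q ∈ Q, ∑ D ∈ 𝒟 q, ‖c q D‖ ^ 2)
    (P := (2 * C0 + 1) * (X / Real.sqrt (N * Δ * nm l / nm g * nm (g * l₁))))
    (c1 := 1 + 2 ^ (a + 2 + 1))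
    (V := fun j => C1 *
      (max 1 (lmB (9 * s) (X / 64) (N * Δ * nm l / nm g) (nm (g * l₁)) d e) * Δ) ^ ε1 *
      ndx j ((nm g * (nm d / nm e) : ℝ) ^ (-(1 / 3) : ℝ)) Nd Δ
        (max 1 (lmB (9 * s) (X / 64) (N * Δ * nm l / nm g) (nm (g * l₁)) d e)) * T)
    (W2' := fun f j =>
      W j (max 1 (lmB (9 * s) (X / 64) (N * Δ * nm l / nm g) (nm (g * l₁)) d e) *
        nm (xd s g l d e)) * (1 / nm (g * (d * f)) * ∑ r ∈ S Δ, (1 / (nm r : ℝ))))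
    rfl (by positivity) (by
      have : 2 * C0 ≤ 2 * C0 + 1 := by linarith
      exact mul_le_mul_of_nonneg_right this hsr.le) hk0 (by positivity) hm0 hn hMS0
    hV ?_ ?_
  · -- the modes
    have h1 := mode_dex hA hB hε1 hC1 hLS hZ hΔ1 hY0 hX hN₁ hN₂ hT.le hNd.le hTΔ hXq hF hcd hP hW
      hHW hs hg hl
      hl₁ hcl hcD hB0 hhY c huS hd he (ρ := fun j => (2 * n *
        ((2 * C0 + 1) * (X / Real.sqrt (N * Δ * nm l / nm g * nm (g * l₁))) *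
          (1 + 2 ^ (a + 2 + 1))) * (nm d / nm e) *
        (min 1 (lmB (9 * s) (X / 64) (N * Δ * nm l / nm g) (nm (g * l₁)) d e)) ^ B *
        (C1 * (max 1 (lmB (9 * s) (X / 64) (N * Δ * nm l / nm g) (nm (g * l₁)) d e) * Δ) ^ ε1 *
      ndx j ((nm g * (nm d / nm e) : ℝ) ^ (-(1 / 3) : ℝ)) Nd Δ
        (max 1 (lmB (9 * s) (X / 64) (N * Δ * nm l / nm g) (nm (g * l₁)) d e)) *
      T))⁻¹) (fun j => by
        have := hV j
        positivity)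
    refine h1.trans (le_of_eq ?_)
    congr 2
    refine Finset.sum_congr rfl fun f _ => Finset.sum_congr rfl fun j _ => ?_
    beta_reduce
    congr 2
    ring
  · -- the values
    intro f hf j
    beta_reduce
    obtain ⟨hf1, hf2⟩ := Finset.mem_filter.mp hf
    have hfp := ((mem_S hY0).1 hf1).2.1
    have hγ : IsPrim (g * (d * f)) := hg.mul (hd'.2.1.mul hfp)
    have hdl : (nm d : ℝ) ≤ nm l₁ := by
      exact_mod_cast Div277.nm_le_of_dvd hl₁.ne_zero ((dvd_mul_right d f).trans hf2)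
    have hed : (nm e : ℝ) ≤ nm d := by
      exact_mod_cast Div277.nm_le_of_dvd hd'.2.1.ne_zero he'.2
    have nγ : (nm (g * (d * f)) : ℝ) = nm g * (nm d * nm f) := by
      simp only [nm_mul]; push_cast; ring
    have g1 := nm_ge_one hg.ne_zero
    have l1 := nm_ge_one hl.ne_zero
    have l11 := nm_ge_one hl₁.ne_zero
    have d1 := nm_ge_one hd'.2.1.ne_zero
    have f1 := nm_ge_one hfp.ne_zero
    have hLZ : (nm l : ℝ) ≤ Z := by
      refine le_trans ?_ hK1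
      have h1 : (nm l : ℝ) ≤ (nm g * nm l) ^ 2 := by
        have h2 : (1 : ℝ) ≤ nm g * nm l := one_le_mul_of_one_le_of_one_le g1 l1
        have h3 : (nm l : ℝ) ≤ nm g * nm l := le_mul_of_one_le_left nl.le g1
        nlinarith
      exact h1.trans (le_mul_of_one_le_left (by positivity) l11)
    have hL1Z : (nm l₁ : ℝ) ≤ Z := by
      refine le_trans ?_ hK1
      have h2 : (1 : ℝ) ≤ nm g * nm l := one_le_mul_of_one_le_of_one_le g1 l1
      exact le_mul_of_one_le_right nl₁.le (one_le_pow₀ h2)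
    have hnsU : (nm s : ℝ) ≤ U := by
      refine le_trans ?_ hsU
      rw [nm_mul]
      push_cast
      have : (1 : ℝ) ≤ nm (9 : Eis) := nm_ge_one (by decide)
      exact le_mul_of_one_le_left ns.le this
    have hHs0 : 0 ≤ ∑ r ∈ S Δ, (1 / (nm r : ℝ)) := Finset.sum_nonneg fun _ _ => by positivity
    have hksq := k0_sq (N := N) (Δ := Δ) (L := nm l) (G := nm g) (L1 := nm l₁) (X := X)
      (y := N * Δ * nm l * nm l₁ / X) (D0 := (2 * C0 + 1) * (1 + 2 ^ (a + 2 + 1)))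
      (k0 := (2 * C0 + 1) * (X / Real.sqrt (N * Δ * nm l / nm g * nm (g * l₁))) *
      (1 + 2 ^ (a + 2 + 1))) hN hΔ0 nl ng nl₁ hX rfl (by rw [ngl]; ring)
    have h2 : 0 ≤ 2 * n * ((2 * C0 + 1) * (1 + 2 ^ (a + 2 + 1))) ^ 2 := by positivity
    have hCh0 : 0 ≤ Ch * Z ^ ε1 := hHs0.trans hHs
    have hkey : X / (N * Δ * nm l * nm l₁ / X) * (nm d / nm e : ℝ) ^ 2 *
        ((min 1 (lmB (9 * s) (X / 64) (N * Δ * nm l / nm g) (nm (g * l₁)) d e)) ^ B) ^ 2 *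
        (C1 * (max 1 (lmB (9 * s) (X / 64) (N * Δ * nm l / nm g) (nm (g * l₁)) d e) * Δ) ^ ε1 *
          ndx j ((nm g * (nm d / nm e) : ℝ) ^ (-(1 / 3) : ℝ)) Nd Δ
            (max 1 (lmB (9 * s) (X / 64) (N * Δ * nm l / nm g) (nm (g * l₁)) d e)) * T) *
        (W j (max 1 (lmB (9 * s) (X / 64) (N * Δ * nm l / nm g) (nm (g * l₁)) d e) *
          nm (xd s g l d e)) * (1 / (nm g * (nm d * nm f)) * ∑ r ∈ S Δ, (1 / (nm r : ℝ)))) ≤
        (C1 * (192 * U * Z ^ (6 * ε1)) * T * (Ch * Z ^ ε1)) * (2 ^ a * (18 * (192 * U)) *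
            (X * vx j Δ Nd ((X / (N * Δ)) ^ 2 / (σ * (nm l₁ * (nm g * nm l) ^ 2)))
              (N * Δ * nm l * nm l₁ / X * (nm g : ℝ) ^ 2) *
              W j (cst U * (N * Δ * (nm l₁ * (nm g * nm l) ^ 2) / X)))) := by
      cases j with
      | false =>
        have htv := tuple_val (a := a) (B := B) hB (hW false) (U := U) (Z := Z) (N := N) (X := X)
          (Δ := Δ) (ε1 := ε1) (C1 := C1) (T := T) (Hs := ∑ r ∈ S Δ, (1 / (nm r : ℝ))) (Ch := Ch)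
          (σ := σ) (G := nm g) (L := nm l) (L1 := nm l₁) (D := nm d) (E := nm e) (F := nm f)
          (δ := 1) (nM := nm (9 * s)) (ns := nm s) (y := N * Δ * nm l * nm l₁ / X)
          (lm := lmB (9 * s) (X / 64) (N * Δ * nm l / nm g) (nm (g * l₁)) d e)
          (nx := nm (xd s g l d e))
          (θ := (X / (N * Δ)) ^ 2 / (σ * (nm l₁ * (nm g * nm l) ^ 2)))
          (P0 := cst U * (N * Δ * (nm l₁ * (nm g * nm l) ^ 2) / X)) hU hZ hN hNZ hX hXZ hΔ1 hΔZ hε0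
          hε1 hC1 hT.le hHs0 hHs hσ1 hσ9 g1 l1 hLZ l11 hL1Z d1 hdl
          (nm_ge_one he'.1.ne_zero) hed f1 le_rfl
          (one_le_mul_of_one_le_of_one_le g1 (one_le_mul_of_one_le_of_one_le d1 f1))
          (nm_ge_one (LC_pt hs).ne) hsU ns hnsU rfl hlm (nm_xd he'.1.ne_zero he'.2) rfl rfl
        rw [div_one] at htv
        unfold ndx vx
        simp only [Bool.false_eq_true, if_false]
        refine htv.trans ?_
        have hnf : 0 ≤ nf2 Δ ((X / (N * Δ)) ^ 2 / (σ * (nm l₁ * (nm g * nm l) ^ 2))) :=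
          nf2_nonneg hΔ0.le (by positivity)
        have hWn : 0 ≤ W false (cst U * (N * Δ * (nm l₁ * (nm g * nm l) ^ 2) / X)) :=
          (hW false).nonneg _ (by unfold cst; positivity)
        have hcc : 0 ≤ C1 * (192 * U * Z ^ (6 * ε1)) * T * (Ch * Z ^ ε1) :=
          mul_nonneg (by positivity) hCh0
        refine mul_le_mul_of_nonneg_left ?_ hcc
        refine mul_le_mul_of_nonneg_right ?_ (by positivity)
        have : (2 : ℝ) ^ a * (9 * (192 * U)) ≤ 2 ^ a * (18 * (192 * U)) :=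
          mul_le_mul_of_nonneg_left (by linarith) (by positivity)
        exact this
      | true =>
        have htv := tuple_valx (a := a) (B := B) hB (hW true) (U := U) (Z := Z) (N := N) (X := X)
          (Δ := Δ) (ε1 := ε1) (C1 := C1) (T := T) (Hs := ∑ r ∈ S Δ, (1 / (nm r : ℝ))) (Ch := Ch)
          (G := nm g) (L := nm l) (L1 := nm l₁) (D := nm d) (E := nm e) (F := nm f)
          (nM := nm (9 * s)) (ns := nm s) (y := N * Δ * nm l * nm l₁ / X)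
          (lm := lmB (9 * s) (X / 64) (N * Δ * nm l / nm g) (nm (g * l₁)) d e)
          (nx := nm (xd s g l d e)) (Nd := Nd)
          (P0 := cst U * (N * Δ * (nm l₁ * (nm g * nm l) ^ 2) / X)) hU hZ hN hNZ hX hXZ hΔ1 hΔZ hε0
          hε1 hC1 hT.le hHs0 hHs hNd.le g1 l1 hLZ l11 hL1Z d1
          (nm_ge_one he'.1.ne_zero) hed f1
          (nm_ge_one (LC_pt hs).ne) hsU ns hnsU rfl hlm (nm_xd he'.1.ne_zero he'.2) rfl
        unfold ndx vx
        simp only [if_true]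
        exact htv
    rw [← nγ] at hkey
    rw [mul_pow, mul_pow, hksq]
    refine le_trans (le_of_eq ?_) (mul_le_mul_of_nonneg_left hkey h2)
    ring

end Crest.Agent.R017.PoDx50
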