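import Crest.Agent.R017.PoDx6_50

/-!
# Row 17, E3 class E: the second form in two classes (helper50), part 7

`fam_blockx`, `one_blockx` : one kernel, one divisor of its square part.
-/

set_option autoImplicit false
set_option linter.unusedVariables false

noncomputable section

open Complex MeasureTheory
open scoped ComplexConjugate Classical

namespace Crest.Agent.R017.PoDx50

open Crest.Agent.R012 Crest.Agent.R012.Eis Crest.Agent.R012.MC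
open Crest.Agent.R012.LS2 (S mem_S bl mem_bl)
open Crest.Agent.R012.Mob705 (mu pdiv mem_pdiv abs_mu_le_one sum_mu_coprime)
open Crest.Agent.R012.NonCube52 (Ker kv Good nm_kv)
open Crest.Agent.R017.E1551 (nmpos jb jb_pos integrable_jb integrable_jb_mul nm_ge_one)
open Crest.Agent.R017.BD829
open Crest.Agent.R017.PoH347
open Crest.Agent.R017.Mode405 (VI Slp)
open Crest.Agent.R017.E3D579 (bt)
open Crest.Agent.R017.PoD50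
open Crest.Agent.R017.PoHx72
open Crest.Agent.R017.MX744
open Crest.Agent.R017.PoDy72
open Gauss880 (syG)

/-- the number of the tuples without the common divisor -/
lemma count_lex {Y T : ℝ} (hY : 0 ≤ Y) (hT : ∀ n ∈ S Y, (Div277.tau n : ℝ) ≤ T) {g l₁ : Eis}
    (hl₁ : l₁ ∈ S Y) (hg : IsPrim g) (hgl : g * l₁ ∈ S Y) :
    ∑ d ∈ S Y, ∑ _e ∈ pdiv d, ∑ f ∈ (S Y).filter (fun f => d * f ∣ l₁), (1 : ℝ) ≤ T ^ 4 := by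
  refine le_trans ?_ (count_le hY hT hl₁ hg hgl)
  refine Finset.sum_le_sum fun d hd => Finset.sum_le_sum fun e _ => Finset.sum_le_sum fun f hf => ?_
  have hd' := ((mem_S hY).1 hd).2.1
  have hf' := ((mem_S hY).1 (Finset.mem_filter.mp hf).1).2.1
  have h1 : (1 : Eis) ∈ pdiv (g * (d * f)) :=
    (mem_pdiv (hg.mul (hd'.mul hf')).ne_zero).mpr ⟨isPrim_one, one_dvd _⟩
  have h2 : (0 : ℝ) ≤ 1 := zero_le_one
  exact Finset.single_le_sum (f := fun _ : Eis => (1 : ℝ)) (fun _ _ => h2) h1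

set_option maxHeartbeats 1000000 in
/-- the family from the number of the tuples `T ^ 4` -/
theorem fam_blockx {v : ℝ → ℝ} (hv : Wgt v) {A B a : ℕ} (hA : 1 < A) (hB : a + 3 ≤ B)
    {ε1 C1 Ch U C0 R N Z Δ X T σ B0 Nd : ℝ} (hR : 0 ≤ R) (hk : KT v (R + 3) A B C0)
    (hε0 : 0 < ε1) (hε1 : ε1 ≤ 1) (hC1 : 0 < C1) (hCh : 0 < Ch)
    (hLS : CrLSx A ε1 C1) (hU : 1 ≤ U) (hZ : 1 ≤ Z) (hN : 0 < N) (hNZ : N ≤ Z)
    (hX : 0 < X) (hXZ : 1 ≤ X * Z) (hΔ1 : 1 ≤ Δ) (hΔZ : Δ ≤ Z) (hT : 0 < T)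
    (hTY : ∀ m ∈ S (Z ^ 3), (Div277.tau m : ℝ) ≤ T)
    (hHs : ∑ r ∈ S Δ, (1 / (nm r : ℝ)) ≤ Ch * Z ^ ε1) (hσ1 : 1 ≤ σ) (hσ9 : σ ≤ 9)
    {ι : Type} {Q : Finset ι} {b : ι → Eis → ℂ} {Xq : ι → ℝ} {𝒟 : ι → Finset Eis}
    (hXq : ∀ q ∈ Q, X / 64 ≤ Xq q ∧ Xq q ≤ X) (hF : DFam R Z N Δ 1 Q b 𝒟) (hNd : 0 < Nd)
    (hcd : ∀ q ∈ Q, ((𝒟 q).card : ℝ) ≤ Nd) {Pr : ι → Eis → Eis → Prop}
    (hP : ∀ q ∈ Q, PrOK (b q) (Pr q)) {W : Bool → ℝ → ℝ} (hW : ∀ j, Slp a (W j))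
    (hHW : ∀ j, HWx j A B0 Q b 1 Pr (W j)) {s : Eis} (hs : SU s)
    (hsU : (nm (9 * s) : ℝ) ≤ U) {g l l₁ : Eis}
    (hg : IsPrim g) (hl : IsPrim l) (hl₁ : IsPrim l₁) (hgl : Squarefree (g * l))
    (hl₁s : Squarefree l₁) (hc1 : IsCoprime l₁ (g * l))
    (hcD : ∀ q ∈ Q, ∀ D ∈ 𝒟 q, IsCoprime (g * l₁) D) (hB0 : (nm l₁ : ℝ) * Δ ≤ B0)
    (hK1 : (nm l₁ : ℝ) * (nm g * nm l) ^ 2 ≤ Z)
    (hN1 : (nm l₁ : ℝ) * Real.exp (R + 3) < N * Δ) :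
    ∑ q ∈ Q, ∑ D ∈ 𝒟 q, ‖Sh v (Xq q) (pt s) (bg (bt D (b q)) g l) (g * l₁)‖ ^ 2 ≤
      2 * T ^ 4 * (2 * T ^ 4 * ((2 * C0 + 1) * (1 + 2 ^ (a + 2 + 1))) ^ 2 *
          ((C1 * (192 * U * Z ^ (6 * ε1)) * T * (Ch * Z ^ ε1)) * ((2 ^ a * 4) * (9 * (192 * U)) *
            ∑ j : Bool, (X * vx j Δ Nd ((X / (N * Δ)) ^ 2 / (σ * (nm l₁ * (nm g * nm l) ^ 2)))
              (N * Δ * nm l * nm l₁ / X * (nm g : ℝ) ^ 2) *
              W j (cst U * (N * Δ * (nm l₁ * (nm g * nm l) ^ 2) / X)))))) := by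
  have hC0 := hk.1
  have hZ0 : 0 < Z := by linarith
  have hΔ0 : 0 < Δ := by linarith
  have hY1 : (1 : ℝ) ≤ Z ^ 3 := one_le_pow₀ hZ
  have hY0 : (0 : ℝ) ≤ Z ^ 3 := by positivity
  have g1 := nm_ge_one hg.ne_zero
  have l1 := nm_ge_one hl.ne_zero
  have l11 := nm_ge_one hl₁.ne_zero
  have nU1 : (1 : ℝ) ≤ nm (9 * s) := nm_ge_one (LC_pt hs).ne
  have ng := nmpos hg.ne_zero
  have nl := nmpos hl.ne_zero
  have nl₁ := nmpos hl₁.ne_zero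
  have hg1l1 : (1 : ℝ) ≤ nm g * nm l := one_le_mul_of_one_le_of_one_le g1 l1
  have hgg : (nm g : ℝ) ≤ (nm g * nm l) ^ 2 := by
    have h3 : (nm g : ℝ) ≤ nm g * nm l := le_mul_of_one_le_right ng.le l1
    nlinarith
  have hll : (nm l : ℝ) ≤ (nm g * nm l) ^ 2 := by
    have h3 : (nm l : ℝ) ≤ nm g * nm l := le_mul_of_one_le_left nl.le g1
    nlinarith
  have hLZ : (nm l : ℝ) ≤ Z := (hll.trans (le_mul_of_one_le_left (by positivity) l11)).trans hK1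
  have hcl : IsCoprime (g * l₁) l :=
    IsCoprime.mul_left (isRelPrime_iff_isCoprime.mp (squarefree_mul_iff.mp hgl).1)
      hc1.of_mul_right_right
  have hcg : IsCoprime g l₁ := hc1.of_mul_right_left.symm
  have hhY : g * l₁ ∈ S (Z ^ 3) := by
    rw [mem_S hY0]
    refine ⟨?_, hg.mul hl₁, squarefree_mul_iff.mpr ⟨hcg.isRelPrime,
      (squarefree_mul_iff.mp hgl).2.1, hl₁s⟩⟩
    rw [nm_mul]
    push_cast
    have h4 : (nm g : ℝ) * nm l₁ ≤ Z := by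
      refine le_trans ?_ hK1
      rw [mul_comm]
      exact mul_le_mul_of_nonneg_left hgg nl₁.le
    exact h4.trans (le_self_pow₀ hZ (by norm_num))
  have hl₁Y : l₁ ∈ S (Z ^ 3) := Dual2813.S_of_dvd hY0 hhY hl₁ ⟨g, by ring⟩
  have hsup : ∀ y, y ≤ Δ * Z → ∀ q ∈ Q, ∀ u : Eis → ℂ, (∀ n, u n ≠ 0 → n ∈ S (Δ * Z)) →
      ∀ n, bg u g l n ≠ 0 → n ∈ S (Z ^ 3) := by
    intro y _ q _ u hu n hn
    have h5 := bg_supp (by positivity) hu hg hl (squarefree_mul_iff.mp hgl).2.2 n hn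
    refine S_mono (by positivity) ?_ h5
    calc (nm l : ℝ) * (Δ * Z) ≤ Z * (Z * Z) := by gcongr
      _ = Z ^ 3 := by ring
  have hsD : ∀ q ∈ Q, ∀ D ∈ 𝒟 q, ∀ n, bg (bt D (b q)) g l n ≠ 0 → n ∈ S (Z ^ 3) :=
    fun q hq D hD => hsup _ le_rfl q hq _ (bt_supp hZ0.le hΔ0.le (hF.supp q hq) (hF.sub q hq hD))
  have hXq0 : ∀ q ∈ Q, 0 < Xq q := fun q hq => lt_of_lt_of_le (by positivity) (hXq q hq).1
  have huS : ∀ q ∈ Q, ∀ n, bg (BB (𝒟 q)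
      (fun D => conj (Sh v (Xq q) (pt s) (bg (bt D (b q)) g l) (g * l₁))) (b q)) g l n ≠ 0 →
      n ∈ S (Z ^ 3) :=
    fun q hq => hsup _ le_rfl q hq _ (BB_supp hZ0.le hΔ0.le (hF.supp q hq) (hF.sub q hq) _)
  have hcn : ∑ q ∈ Q, ∑ D ∈ 𝒟 q,
      ‖conj (Sh v (Xq q) (pt s) (bg (bt D (b q)) g l) (g * l₁))‖ ^ 2 =
      ∑ q ∈ Q, ∑ D ∈ 𝒟 q, ‖Sh v (Xq q) (pt s) (bg (bt D (b q)) g l) (g * l₁)‖ ^ 2 :=
    Finset.sum_congr rfl fun q _ => Finset.sum_congr rfl fun D _ => by rw [RCLike.norm_conj]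
  have hTΔ : ∀ m ∈ S Δ, (Div277.tau m : ℝ) ≤ T := by
    intro m hm
    refine hTY m (S_mono hΔ0.le ?_ hm)
    exact hΔZ.trans (le_self_pow₀ hZ (by norm_num))
  have h1 := sum_bd hv hR hk hA (by omega : 1 < B) hZ0.le hN hΔ1 hY1 hF (X := X)
    (fun q hq => ⟨hXq0 q hq, (hXq q hq).2⟩) hs hg hl hl₁ hcl hhY hN1
    (fun q D => conj (Sh v (Xq q) (pt s) (bg (bt D (b q)) g l) (g * l₁)))
    (Qq := fun q => ∑ D ∈ 𝒟 q, ‖Sh v (Xq q) (pt s) (bg (bt D (b q)) g l) (g * l₁)‖ ^ 2)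
    (fun q _ => Finset.sum_nonneg fun _ _ => by positivity)
    (fun q hq => Sh_dual hv (hXq0 q hq) (pt s) (𝒟 q) (b q) (hsD q hq) hhY) huS
  have h2 := fun d (hd : d ∈ S (Z ^ 3)) e (he : e ∈ pdiv d) =>
    pair_dex hA hB hε0 hε1 hC1 hLS hU hC0 hZ hN hNZ hX hXZ hΔ1 hΔZ hT hTΔ hHs (n := 2 * T ^ 4)
      (by positivity) hσ1 hσ9 (fun q hq => (hXq q hq).1) hF hNd hcd hP hW hHW hs hsU hg hl hl₁ hcl
      hcD hB0 hK1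
      hY0 hhY (fun q D => conj (Sh v (Xq q) (pt s) (bg (bt D (b q)) g l) (g * l₁))) huS hd he
  have h3 := count_lex hY0 hTY hl₁Y hg hhY
  rw [hcn] at h2
  have hQ0 : 0 ≤ ∑ q ∈ Q, ∑ D ∈ 𝒟 q, ‖Sh v (Xq q) (pt s) (bg (bt D (b q)) g l) (g * l₁)‖ ^ 2 :=
    Finset.sum_nonneg fun _ _ => Finset.sum_nonneg fun _ _ => by positivity
  have hvn : ∀ j, 0 ≤ vx j Δ Nd ((X / (N * Δ)) ^ 2 / (σ * (nm l₁ * (nm g * nm l) ^ 2)))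
      (N * Δ * nm l * nm l₁ / X * (nm g : ℝ) ^ 2) :=
    fun j => vx_nonneg j hΔ0.le hNd.le (by positivity) (by positivity)
  have hWn : ∀ j, 0 ≤ W j (cst U * (N * Δ * (nm l₁ * (nm g * nm l) ^ 2) / X)) :=
    fun j => (hW j).nonneg _ (by unfold cst; positivity)
  have h4 := pairs_sumx (n := 2 * T ^ 4) (by positivity) hQ0 (fun j => by
      have e1 := hvn j
      have e2 := hWn j
      positivity) h1 h2 (by linarith)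
  refine h4.trans (le_of_eq ?_)
  rw [← Finset.mul_sum, ← Finset.mul_sum, ← Finset.mul_sum]
  ring

/-- **one divisor of the square part of one kernel** -/
theorem one_blockx {R U : ℝ} (hR : 0 ≤ R) (hU : 1 ≤ U) {A a B : ℕ} (hA : 1 < A) (hB : a + 3 ≤ B)
    {ε : ℝ} (hε : 0 < ε) : ∃ C : ℝ, 0 < C ∧ ∀ (v : ℝ → ℝ), Wgt v → ∀ C0 : ℝ,
    KT v (R + 3) A B C0 → ∀ Z N X Δ σ B0 Nd : ℝ, 1 ≤ Z → 0 < N → N ≤ Z → 0 < X → 1 ≤ X * Z →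
    1 ≤ Δ → Δ ≤ Z → 1 ≤ σ → σ ≤ 9 → 0 < Nd →
    ∀ {ι : Type} (Q : Finset ι) (b : ι → Eis → ℂ) (Xq : ι → ℝ) (𝒟 : ι → Finset Eis),
      (∀ q ∈ Q, X / 64 ≤ Xq q ∧ Xq q ≤ X) → DFam R Z N Δ 1 Q b 𝒟 →
      (∀ q ∈ Q, ((𝒟 q).card : ℝ) ≤ Nd) →
    ∀ Pr : ι → Eis → Eis → Prop, (∀ q ∈ Q, PrOK (b q) (Pr q)) →
    ∀ W : Bool → ℝ → ℝ, (∀ j, Slp a (W j)) → (∀ j, HWx j A B0 Q b 1 Pr (W j)) →
    ∀ s : Eis, SU s → (nm (9 * s) : ℝ) ≤ U →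
    ∀ g l l₁ : Eis, IsPrim g → IsPrim l → IsPrim l₁ → Squarefree (g * l) → Squarefree l₁ →
      IsCoprime l₁ (g * l) → (∀ q ∈ Q, ∀ D ∈ 𝒟 q, IsCoprime (g * l₁) D) →
      (nm l₁ : ℝ) * Δ ≤ B0 →
      (nm l₁ : ℝ) * (nm g * nm l) ^ 2 ≤ Z → (nm l₁ : ℝ) * Real.exp (R + 3) < N * Δ →
    ∑ q ∈ Q, ∑ D ∈ 𝒟 q, ‖Sh v (Xq q) (pt s) (bg (bt D (b q)) g l) (g * l₁)‖ ^ 2 ≤
      C * (1 + C0) ^ 2 * Z ^ ε *
        ∑ j : Bool, (X * vx j Δ Nd ((X / (N * Δ)) ^ 2 / (σ * (nm l₁ * (nm g * nm l) ^ 2)))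
              (N * Δ * nm l * nm l₁ / X * (nm g : ℝ) ^ 2) *
              W j (cst U * (N * Δ * (nm l₁ * (nm g * nm l) ^ 2) / X))) := by
  set ε1 : ℝ := min 1 (ε / 34) with hε1
  have hε1p : 0 < ε1 := lt_min one_pos (by linarith)
  have hε1l : ε1 ≤ 1 := min_le_left _ _
  have hε1e : 34 * ε1 ≤ ε := by
    have : ε1 ≤ ε / 34 := min_le_right _ _
    linarith
  have hA' : (1 : ℝ) < (A : ℝ) := by exact_mod_cast hA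
  obtain ⟨C1, hC1, hLS⟩ := cr_lsx (A := A) hA' hε1p
  obtain ⟨Ch, hCh, hharm⟩ := harm hε1p
  obtain ⟨Ct, hCt1, hCt⟩ := tau_unif hε1p
  have hCt0 : 0 < Ct := by linarith
  refine ⟨16 * Ct ^ 9 * (1 + 2 ^ (a + 2 + 1)) ^ 2 *
    (C1 * (192 * U) * Ch * ((2 ^ a * 4) * (9 * (192 * U)))), by positivity, ?_⟩
  intro v hv C0 hk Z N X Δ σ B0 Nd hZ hN hNZ hX hXZ hΔ1 hΔZ hσ1 hσ9 hNd ι Q b Xq 𝒟 hXq hF hcd Pr hP
    W hW hHW s hs hsU g l l₁ hg hl hl₁ hgl hl₁s hc1 hcD hB0 hK1 hN1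
  have hZ0 : 0 < Z := by linarith
  have hΔ0 : 0 < Δ := by linarith
  have hZ3 : (1 : ℝ) ≤ Z ^ 3 := one_le_pow₀ hZ
  have ng := nmpos hg.ne_zero
  have nl := nmpos hl.ne_zero
  have nl₁ := nmpos hl₁.ne_zero
  have h1 := fam_blockx hv hA hB (C0 := C0) (T := Ct * (Z ^ 3) ^ ε1) hR hk hε1p hε1l hC1 hCh hLS
    hU hZ hN hNZ hX hXZ hΔ1 hΔZ (by positivity) (hCt (Z ^ 3) hZ3) (hharm Δ Z hΔ1 hΔZ) hσ1 hσ9 hXq
    hF hNd hcd hP hW hHW hs hsU hg hl hl₁ hgl hl₁s hc1 hcD hB0 hK1 hN1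
  refine h1.trans ?_
  have hvn : ∀ j, 0 ≤ vx j Δ Nd ((X / (N * Δ)) ^ 2 / (σ * (nm l₁ * (nm g * nm l) ^ 2)))
      (N * Δ * nm l * nm l₁ / X * (nm g : ℝ) ^ 2) :=
    fun j => vx_nonneg j hΔ0.le hNd.le (by positivity) (by positivity)
  have hWn : ∀ j, 0 ≤ W j (cst U * (N * Δ * (nm l₁ * (nm g * nm l) ^ 2) / X)) :=
    fun j => (hW j).nonneg _ (by unfold cst; positivity)
  exact pow_arith hZ hε1e hCt0 hk.1 hC1 hU hCh (by positivity) (Finset.sum_nonneg fun j _ => by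
    have e1 := hvn j
    have e2 := hWn j
    positivity)

end Crest.Agent.R017.PoDx50
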