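import Crest.Agent.R017.PoD13_50
import Crest.Agent.R017.MDxb_744

/-!
# Row 17, E3 class E: the second form in two classes (helper405, for helper50)

`OneBx` : the statement of the class version of helper50's `one_block`;
`podx_of` : helper744's `PoDx` from it.
-/

set_option autoImplicit false
set_option linter.unusedVariables false

noncomputable section

open Complex MeasureTheory
open scoped ComplexConjugate Classical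

namespace Crest.Agent.R017.PoDz405

open Crest.Agent.R012 Crest.Agent.R012.Eis Crest.Agent.R012.MC
open Crest.Agent.R012.LS2 (S mem_S bl mem_bl)
open Crest.Agent.R012.Mob705 (mu pdiv mem_pdiv abs_mu_le_one sum_mu_coprime)
open Crest.Agent.R012.NonCube52 (Ker kv Good nm_kv)
open Crest.Agent.R012.Weight600 (osc pw norm_osc norm_pw)
open Crest.Agent.R017.E1551 (nmpos jb jb_pos integrable_jb integrable_jb_mul nm_ge_one)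
open Crest.Agent.R017.BD829
open Crest.Agent.R017.PoH347
open Crest.Agent.R017.Mode405 (VI Slp XS nfE)
open Crest.Agent.R017.E3D579 (bt)
open Crest.Agent.R017.PoD50
open Crest.Agent.R017.PoHx72
open Crest.Agent.R017.MX744

/-- the statement of the class version of `one_block` -/
def OneBx (R U : ℝ) (A a B : ℕ) (ε C : ℝ) : Prop :=
  ∀ (v : ℝ → ℝ), Wgt v → ∀ C0 : ℝ, KT v (R + 3) A B C0 → ∀ Z N X Δ σ B0 : ℝ,
    1 ≤ Z → 0 < N → N ≤ Z → 0 < X → X ≤ Z → 1 ≤ X * Z → 1 ≤ Δ → Δ ≤ Z → 1 ≤ σ → σ ≤ 9 →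
    ∀ {ι : Type} (Q : Finset ι) (b : ι → Eis → ℂ) (Xq : ι → ℝ) (𝒟 : ι → Finset Eis),
      (∀ q ∈ Q, X / 64 ≤ Xq q ∧ Xq q ≤ X) → DFam R Z N Δ 1 Q b 𝒟 →
    ∀ Pr : ι → Eis → Eis → Prop, (∀ q ∈ Q, PrOK (b q) (Pr q)) →
    ∀ W : Bool → ℝ → ℝ, (∀ j, Slp a (W j)) → (∀ j, HWx j A B0 Q b 1 Pr (W j)) →
    ∀ s : Eis, SU s → (nm (9 * s) : ℝ) ≤ U →
    ∀ g l l₁ : Eis, IsPrim g → IsPrim l → IsPrim l₁ → Squarefree (g * l) → Squarefree l₁ →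
      IsCoprime l₁ (g * l) → (∀ q ∈ Q, ∀ D ∈ 𝒟 q, IsCoprime (g * l₁) D) →
      (nm l₁ : ℝ) * Δ ≤ B0 → (nm l₁ : ℝ) * (nm g * nm l) ^ 2 ≤ Z →
      (nm l₁ : ℝ) * Real.exp (R + 3) < N * Δ →
    ∀ Nd : ℝ, (∀ q ∈ Q, ((𝒟 q).card : ℝ) ≤ Nd) →
    ∑ q ∈ Q, ∑ D ∈ 𝒟 q, ‖Sh v (Xq q) (pt s) (bg (bt D (b q)) g l) (g * l₁)‖ ^ 2 ≤
      C * (1 + C0) ^ 2 * Z ^ ε *
        (X * (nf2 Δ ((X / (N * Δ)) ^ 2 / (σ * (nm l₁ * (nm g * nm l) ^ 2))) *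
              W false (cst U * (N * Δ * (nm l₁ * (nm g * nm l) ^ 2) / X)) +
          Nd * (N * Δ * nm l * nm l₁ / X * (nm g : ℝ) ^ 2) ^ (-(2 / 3) : ℝ) *
              W true (cst U * (N * Δ * (nm l₁ * (nm g * nm l) ^ 2) / X))))

/-- the principal value: all divisors against the whole square part -/
lemma pr_all {x l s n : ℝ} (hx : 0 < x) (hl : 1 ≤ l) (hs : 1 ≤ s) (hs9 : s ≤ 9) (hn : l ≤ n) :
    x ^ (-(2 / 3) : ℝ) ≤ 9 * ((x * (s * l)) ^ (-(2 / 3) : ℝ) * n ^ (2 / 3 : ℝ)) := by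
  have hl0 : 0 < l := by linarith
  have hs0 : 0 < s := by linarith
  have hn0 : 0 < n := by linarith
  have e1 : (x * (s * l)) ^ (-(2 / 3) : ℝ) = x ^ (-(2 / 3) : ℝ) * ((s * l) ^ (2 / 3 : ℝ))⁻¹ := by
    rw [Real.mul_rpow hx.le (by positivity), Real.rpow_neg (by positivity : 0 ≤ s * l)]
  have h1 : (s * l) ^ (2 / 3 : ℝ) ≤ 9 * n ^ (2 / 3 : ℝ) := by
    calc (s * l) ^ (2 / 3 : ℝ) ≤ (9 * n) ^ (2 / 3 : ℝ) :=
          Real.rpow_le_rpow (by positivity) (mul_le_mul hs9 hn hl0.le (by norm_num)) (by norm_num)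
      _ = 9 ^ (2 / 3 : ℝ) * n ^ (2 / 3 : ℝ) := Real.mul_rpow (by norm_num) hn0.le
      _ ≤ 9 * n ^ (2 / 3 : ℝ) := by
          refine mul_le_mul_of_nonneg_right ?_ (by positivity)
          calc (9 : ℝ) ^ (2 / 3 : ℝ) ≤ 9 ^ (1 : ℝ) :=
                Real.rpow_le_rpow_of_exponent_le (by norm_num) (by norm_num)
            _ = 9 := Real.rpow_one 9
  have h2 : 0 < (s * l) ^ (2 / 3 : ℝ) := by positivity
  have h3 : 0 < x ^ (-(2 / 3) : ℝ) := by positivity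
  rw [e1]
  calc x ^ (-(2 / 3) : ℝ) = x ^ (-(2 / 3) : ℝ) * ((s * l) ^ (2 / 3 : ℝ))⁻¹ *
        (s * l) ^ (2 / 3 : ℝ) := by field_simp
    _ ≤ x ^ (-(2 / 3) : ℝ) * ((s * l) ^ (2 / 3 : ℝ))⁻¹ * (9 * n ^ (2 / 3 : ℝ)) :=
        mul_le_mul_of_nonneg_left h1 (by positivity)
    _ = _ := by ring

set_option maxHeartbeats 1000000 in
/-- **the bound at one kernel**, two classes of frequencies, from one block -/
theorem podx_of (hOB : ∀ (R U : ℝ) (A a B : ℕ), 0 ≤ R → 1 ≤ U → 1 < A → a + 3 ≤ B →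
      ∀ ε : ℝ, 0 < ε → ∃ C : ℝ, 0 < C ∧ OneBx R U A a B ε C)
    {u : Eis} (hu : SU u) {χ : Eis → ℂ} (hχ : ∀ x, IsPrim x → χ x = conj (sy u x))
    {w₀ : ℝ → ℝ} (hw : Wgt w₀) : PoDx χ w₀ := by
  intro R hR a A hA ε hε
  set ε1 : ℝ := ε / 3 with hε1
  have hε1p : 0 < ε1 := by positivity
  have hnu : (1 : ℝ) ≤ nm u := nm_ge_one hu.ne
  have hU1 : (1 : ℝ) ≤ 729 * (nm u : ℝ) := by linarith
  obtain ⟨Ck, J, hCk, hKT⟩ := TWt405.KT_tw hw (R := R + 3) (by positivity) A (a + 3)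
  obtain ⟨Cp, hCp, hpv⟩ := hOB R (729 * (nm u : ℝ)) A a (a + 3) hR hU1 hA le_rfl ε1 hε1p
  obtain ⟨Ct, hCt1, hCt⟩ := tau_unif hε1p
  have hCt0 : 0 < Ct := by linarith
  refine ⟨9 * (4 * Ct ^ 2 * (Cp * (1 + Ck) ^ 2)), cst (729 * (nm u : ℝ)), 2 * J, by positivity,
    ?_, ?_⟩
  · unfold cst
    have h1 : (1 : ℝ) ≤ (3 * (729 * (nm u : ℝ))) ^ 2 := one_le_pow₀ (by linarith)
    have h2 : (1 : ℝ) ≤ 729 * (nm u : ℝ) * (3 * (729 * (nm u : ℝ))) ^ 2 :=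
      one_le_mul_of_one_le_of_one_le hU1 h1
    exact one_le_mul_of_one_le_of_one_le (by linarith) h2
  intro Z N Δ X hZ hN hNZ hΔ1 hΔZ hX hXle hXZ κ hκ hkZ hkN ι Q b Xq 𝒟 hXq hb hwb hD Pr hPr W hW
    hHW W1 hW10 hW1 t
  have hZ0 : 0 < Z := by linarith
  have hΔ0 : 0 < Δ := by linarith
  have ht1 : 1 ≤ 1 + |t| := by linarith [abs_nonneg t]
  have nkv : (1 : ℝ) ≤ nm (kv κ) := NonCube52.one_le_nmkv hκ
  have nk0 : (0 : ℝ) < nm (kv κ) := by linarith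
  have n1 := nmpos hκ.prim1.ne_zero
  have n2 := nmpos hκ.prim2.ne_zero
  set Nd : ℝ := ((Q.biUnion 𝒟).card : ℝ) with hNd
  have hNd0 : 0 ≤ Nd := Nat.cast_nonneg _
  set I0 : ℝ := N * Δ * nm (kv κ) / X with hI0
  have hI0p : 0 < I0 := by rw [hI0]; positivity
  have enf : nfE Δ (nm (kv κ)) I0 = nf2 Δ ((X / (N * Δ)) ^ 2 / nm (kv κ)) :=
    (nf2_eq hN hΔ0 hX nk0).symm
  rw [enf]
  have hnf : 0 ≤ nf2 Δ ((X / (N * Δ)) ^ 2 / nm (kv κ)) := nf2_nonneg hΔ0.le (by positivity)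
  set T : ℝ := X * (nf2 Δ ((X / (N * Δ)) ^ 2 / nm (kv κ)) * W1 false +
    Nd * I0 ^ (-(2 / 3) : ℝ) * (nm κ.2.2 : ℝ) ^ (2 / 3 : ℝ) * W1 true) with hT
  have hWf := hW10 false
  have hWt := hW10 true
  have hT0 : 0 ≤ T := by positivity
  by_cases hN1 : Real.exp (-(R + 3)) ≤ N
  swap
  · -- everything vanishes
    push Not at hN1
    have hb0 : ∀ q ∈ Q, ∀ n, b q n = 0 := by
      intro q hq n
      by_contra hn
      have h1 := (mem_S hZ0.le).1 (hb q hq n hn)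
      have h2 := hwb q hq n hn
      have h3 : (1 : ℝ) ≤ nm n := nm_ge_one h1.2.1.ne_zero
      have h4 := Real.log_nonneg h3
      have h5 := Real.log_lt_log hN hN1
      rw [Real.log_exp] at h5
      have h6 := (abs_le.mp h2).2
      linarith
    have e1 : ∑ q ∈ Q, ∑ D ∈ 𝒟 q, ‖XS χ w₀ (Xq q) t (bt D (b q)) κ‖ ^ 2 = 0 := by
      refine Finset.sum_eq_zero fun q hq => Finset.sum_eq_zero fun D _ => ?_
      rw [XS_zero (bt_zero (hb0 q hq) D)]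
      simp
    rw [e1]
    positivity
  have hkB : (nm (kv κ) : ℝ) * Δ ≤ (N * Δ) ^ 2 := by
    have h1 : (nm (kv κ) : ℝ) ≤ N * Δ * Real.exp (-(R + 3)) := by
      rw [Real.exp_neg, ← div_eq_mul_inv, le_div_iff₀ (Real.exp_pos _)]
      exact hkN.le
    calc (nm (kv κ) : ℝ) * Δ ≤ N * Δ * Real.exp (-(R + 3)) * Δ :=
          mul_le_mul_of_nonneg_right h1 hΔ0.le
      _ ≤ N * Δ * N * Δ := by gcongr
      _ = (N * Δ) ^ 2 := by ring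
  have hF : DFam R Z N Δ 1 Q b 𝒟 :=
    ⟨hb, hwb, fun q hq D hDm => (mem_S hΔ0.le).2 ⟨(hD q hq D hDm).2.2.2.1, (hD q hq D hDm).1,
        (hD q hq D hDm).2.1⟩, fun q hq D hDm => by linarith [(hD q hq D hDm).2.2.1],
        fun q _ D _ => isCoprime_one_right⟩
  have ekv : (nm (kv κ) : ℝ) = 3 ^ κ.1.2 * (nm κ.2.1 * (nm κ.2.2 : ℝ) ^ 2) := by
    rw [nm_kv]; push_cast; ring
  have hσ1 : (1 : ℝ) ≤ 3 ^ κ.1.2 := one_le_pow₀ (by norm_num)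
  have hσ9 : (3 : ℝ) ^ κ.1.2 ≤ 9 := by
    calc (3 : ℝ) ^ κ.1.2 ≤ 3 ^ 2 := pow_le_pow_right₀ (by norm_num) (by have := hκ.hj; omega)
      _ = 9 := by norm_num
  have hkge : (nm κ.2.1 : ℝ) * (nm κ.2.2 : ℝ) ^ 2 ≤ nm (kv κ) := NonCube52.nm_kv_ge κ
  have hl1 : (nm κ.2.1 : ℝ) ≤ nm (kv κ) := by
    refine le_trans ?_ hkge
    exact le_mul_of_one_le_right n1.le (one_le_pow₀ (nm_ge_one hκ.prim2.ne_zero))
  set C0 : ℝ := Ck * (1 + |t|) ^ J with hC0d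
  have hC00 : 0 ≤ C0 := by positivity
  -- one divisor
  have hsu : SU (u * su κ) := hu.mul (SU_su _)
  have hsU : (nm (9 * (u * su κ)) : ℝ) ≤ 729 * (nm u : ℝ) := by
    have h2 : (nm (9 * su κ) : ℝ) ≤ 729 := nm_M_le hκ.hj
    have h3 : (nm (9 * (u * su κ)) : ℝ) = nm (9 * su κ) * nm u := by
      simp only [nm_mul]
      push_cast
      ring
    rw [h3]
    exact mul_le_mul_of_nonneg_right h2 (Nat.cast_nonneg _)
  have hcard1 : ∀ q ∈ Q, ((𝒟 q).card : ℝ) ≤ Nd := by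
    intro q hq
    rw [hNd]
    exact_mod_cast Finset.card_le_card (Finset.subset_biUnion_of_mem 𝒟 hq)
  have hdiv : ∀ v : ℝ → ℝ, Wgt v → KT v (R + 3) A (a + 3) C0 → ∀ g ∈ pdiv κ.2.2,
      ∑ q ∈ Q, ∑ D ∈ 𝒟 q, ‖Sh v (Xq q) (pt (u * su κ)) (bg (bt D (b q)) g (κ.2.2 / g))
        (g * κ.2.1)‖ ^ 2 ≤ Cp * (1 + C0) ^ 2 * Z ^ ε1 * (9 * T) := by
    intro v hv hk g hg
    have hg' := (mem_pdiv hκ.prim2.ne_zero).mp hg
    have egl : g * (κ.2.2 / g) = κ.2.2 := EuclideanDomain.mul_div_cancel' hg'.1.ne_zero hg'.2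
    have hl : IsPrim (κ.2.2 / g) := div_prim hκ.prim2 hg
    have enm : (nm g : ℝ) * nm (κ.2.2 / g) = nm κ.2.2 := by
      conv_rhs => rw [← egl, nm_mul]
      push_cast
      rfl
    have g1 : (1 : ℝ) ≤ nm g := nm_ge_one hg'.1.ne_zero
    have l1 : (1 : ℝ) ≤ nm (κ.2.2 / g) := nm_ge_one hl.ne_zero
    have hcD : ∀ q ∈ Q, ∀ D ∈ 𝒟 q, IsCoprime (g * κ.2.1) D := by
      intro q hq D hDm
      refine ((hD q hq D hDm).2.2.2.2).of_isCoprime_of_dvd_left ?_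
      unfold kv
      have h1 : g * κ.2.1 ∣ κ.2.1 * κ.2.2 ^ 2 := by
        rw [mul_comm g]
        exact mul_dvd_mul_left _ (hg'.2.trans (dvd_pow_self _ (by norm_num)))
      have e1 : w ^ κ.1.1 * lam ^ κ.1.2 * κ.2.1 * κ.2.2 ^ 2 =
          w ^ κ.1.1 * lam ^ κ.1.2 * (κ.2.1 * κ.2.2 ^ 2) := by ring
      rw [e1]
      exact dvd_mul_of_dvd_right h1 _
    have h1 := hpv v hv C0 hk Z N X Δ (3 ^ κ.1.2) ((N * Δ) ^ 2) hZ hN hNZ hX hXle hXZ hΔ1 hΔZ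
      hσ1 hσ9 Q b Xq 𝒟 hXq hF Pr hPr W hW hHW (u * su κ) hsu hsU g (κ.2.2 / g) κ.2.1 hg'.1 hl
      hκ.prim1 (by rw [egl]; exact hκ.sqf2) hκ.sqf1 (by rw [egl]; exact hκ.cop) hcD
      ((mul_le_mul_of_nonneg_right hl1 hΔ0.le).trans hkB)
      (by rw [enm]; exact hkge.trans hkZ)
      ((mul_le_mul_of_nonneg_right hl1 (Real.exp_pos _).le).trans_lt hkN) Nd hcard1
    rw [enm, ← ekv] at h1
    refine h1.trans ?_
    have h2 : ∀ j, W j (cst (729 * (nm u : ℝ)) * (N * Δ * (nm κ.2.1 * (nm κ.2.2 : ℝ) ^ 2) / X)) ≤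
        W1 j := by
      intro j
      refine le_trans (PoD50.slp_mono (hW j) (by unfold cst; positivity) ?_) (hW1 j)
      have h3 : 0 ≤ cst (729 * (nm u : ℝ)) := by unfold cst; positivity
      refine mul_le_mul_of_nonneg_left ?_ h3
      rw [hI0]
      exact div_le_div_of_nonneg_right (mul_le_mul_of_nonneg_left hkge (by positivity)) hX.le
    have h20 : ∀ j, 0 ≤ W j (cst (729 * (nm u : ℝ)) *
        (N * Δ * (nm κ.2.1 * (nm κ.2.2 : ℝ) ^ 2) / X)) := fun j =>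
      (hW j).nonneg _ (by unfold cst; positivity)
    have hx0 : 0 < N * Δ * (nm (κ.2.2 / g) : ℝ) * nm κ.2.1 / X * (nm g : ℝ) ^ 2 := by
      have : (0 : ℝ) < nm (κ.2.2 / g) := by linarith
      have : (0 : ℝ) < nm g := by linarith
      positivity
    have hp := pr_all hx0 l1 hσ1 hσ9 (n := (nm κ.2.2 : ℝ)) (by
      rw [← enm]
      exact le_mul_of_one_le_left (by linarith) g1)
    have e3 : N * Δ * (nm (κ.2.2 / g) : ℝ) * nm κ.2.1 / X * (nm g : ℝ) ^ 2 *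
        (3 ^ κ.1.2 * nm (κ.2.2 / g)) = I0 := by
      rw [hI0, ekv, ← enm]
      ring
    rw [e3] at hp
    have hIp : 0 ≤ I0 ^ (-(2 / 3) : ℝ) * (nm κ.2.2 : ℝ) ^ (2 / 3 : ℝ) := by positivity
    have hb1 : nf2 Δ ((X / (N * Δ)) ^ 2 / nm (kv κ)) *
        W false (cst (729 * (nm u : ℝ)) * (N * Δ * (nm κ.2.1 * (nm κ.2.2 : ℝ) ^ 2) / X)) ≤
        9 * (nf2 Δ ((X / (N * Δ)) ^ 2 / nm (kv κ)) * W1 false) := by
      have h5 : nf2 Δ ((X / (N * Δ)) ^ 2 / nm (kv κ)) *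
        W false (cst (729 * (nm u : ℝ)) * (N * Δ * (nm κ.2.1 * (nm κ.2.2 : ℝ) ^ 2) / X)) ≤
        nf2 Δ ((X / (N * Δ)) ^ 2 / nm (kv κ)) * W1 false :=
        mul_le_mul_of_nonneg_left (h2 false) hnf
      have h6 : 0 ≤ nf2 Δ ((X / (N * Δ)) ^ 2 / nm (kv κ)) * W1 false := mul_nonneg hnf hWf
      linarith
    have hb2 : Nd * (N * Δ * (nm (κ.2.2 / g) : ℝ) * nm κ.2.1 / X * (nm g : ℝ) ^ 2) ^
          (-(2 / 3) : ℝ) *
        W true (cst (729 * (nm u : ℝ)) * (N * Δ * (nm κ.2.1 * (nm κ.2.2 : ℝ) ^ 2) / X)) ≤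
        9 * (Nd * I0 ^ (-(2 / 3) : ℝ) * (nm κ.2.2 : ℝ) ^ (2 / 3 : ℝ) * W1 true) := by
      calc _ ≤ Nd * (9 * (I0 ^ (-(2 / 3) : ℝ) * (nm κ.2.2 : ℝ) ^ (2 / 3 : ℝ))) * W1 true := by
            refine mul_le_mul (mul_le_mul_of_nonneg_left hp hNd0) (h2 true) (h20 true) ?_
            exact mul_nonneg hNd0 (mul_nonneg (by norm_num) hIp)
        _ = _ := by ring
    have hCC : 0 ≤ Cp * (1 + C0) ^ 2 * Z ^ ε1 := by positivity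
    refine mul_le_mul_of_nonneg_left ?_ hCC
    rw [hT]
    calc X * (_ + _) ≤ X * (9 * (nf2 Δ ((X / (N * Δ)) ^ 2 / nm (kv κ)) * W1 false) +
          9 * (Nd * I0 ^ (-(2 / 3) : ℝ) * (nm κ.2.2 : ℝ) ^ (2 / 3 : ℝ) * W1 true)) :=
          mul_le_mul_of_nonneg_left (add_le_add hb1 hb2) hX.le
      _ = _ := by ring
  have htau : (Div277.tau κ.2.2 : ℝ) ≤ Ct * Z ^ ε1 := by
    refine hCt Z hZ κ.2.2 ((mem_S hZ0.le).mpr ⟨?_, hκ.prim2, hκ.sqf2⟩)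
    have h7 : (nm κ.2.2 : ℝ) ≤ (nm κ.2.2 : ℝ) ^ 2 :=
      le_self_pow₀ (nm_ge_one hκ.prim2.ne_zero) (by norm_num)
    have h8 : (nm κ.2.2 : ℝ) ^ 2 ≤ nm κ.2.1 * (nm κ.2.2 : ℝ) ^ 2 :=
      le_mul_of_one_le_left (by positivity) (nm_ge_one hκ.prim1.ne_zero)
    linarith
  have hcard : ((pdiv κ.2.2).card : ℝ) ≤ Ct * Z ^ ε1 := htau
  -- the sum
  have h1 : ∑ q ∈ Q, ∑ D ∈ 𝒟 q, ‖XS χ w₀ (Xq q) t (bt D (b q)) κ‖ ^ 2 ≤
      2 * (Div277.tau κ.2.2 : ℝ) * ∑ g ∈ pdiv κ.2.2, (∑ q ∈ Q, ∑ D ∈ 𝒟 q,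
        ‖Sh (TWt405.wc w₀ t) (Xq q) (pt (u * su κ)) (bg (bt D (b q)) g (κ.2.2 / g))
          (g * κ.2.1)‖ ^ 2 + ∑ q ∈ Q, ∑ D ∈ 𝒟 q,
        ‖Sh (TWt405.wsn w₀ t) (Xq q) (pt (u * su κ)) (bg (bt D (b q)) g (κ.2.2 / g))
          (g * κ.2.1)‖ ^ 2) := by
    refine (Finset.sum_le_sum fun q hq => Finset.sum_le_sum fun D hD1 =>
      XS_le_Sh u hχ hw (lt_of_lt_of_le (by positivity) (hXq q hq).1) t
        (Y := Δ * Z) (by positivity) (bt_supp hZ0.le hΔ0.le (hF.supp q hq) (hF.sub q hq hD1))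
        hκ).trans (le_of_eq ?_)
    simp only [← Finset.mul_sum]
    congr 1
    exact swap3 Q 𝒟 (pdiv κ.2.2) (fun q D g =>
      ‖Sh (TWt405.wc w₀ t) (Xq q) (pt (u * su κ)) (bg (bt D (b q)) g (κ.2.2 / g))
          (g * κ.2.1)‖ ^ 2) (fun q D g =>
      ‖Sh (TWt405.wsn w₀ t) (Xq q) (pt (u * su κ)) (bg (bt D (b q)) g (κ.2.2 / g))
          (g * κ.2.1)‖ ^ 2)
  have h2 : ∀ g ∈ pdiv κ.2.2, (∑ q ∈ Q, ∑ D ∈ 𝒟 q,
        ‖Sh (TWt405.wc w₀ t) (Xq q) (pt (u * su κ)) (bg (bt D (b q)) g (κ.2.2 / g))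
          (g * κ.2.1)‖ ^ 2 + ∑ q ∈ Q, ∑ D ∈ 𝒟 q,
        ‖Sh (TWt405.wsn w₀ t) (Xq q) (pt (u * su κ)) (bg (bt D (b q)) g (κ.2.2 / g))
          (g * κ.2.1)‖ ^ 2) ≤ 2 * (Cp * (1 + C0) ^ 2 * Z ^ ε1 * (9 * T)) := by
    intro g hg
    have b1 := hdiv _ (TWt405.wgt_wc hw t) (hKT t).1 g hg
    have b2 := hdiv _ (TWt405.wgt_wsn hw t) (hKT t).2 g hg
    linarith
  have h3 : ∑ g ∈ pdiv κ.2.2, (∑ q ∈ Q, ∑ D ∈ 𝒟 q,
        ‖Sh (TWt405.wc w₀ t) (Xq q) (pt (u * su κ)) (bg (bt D (b q)) g (κ.2.2 / g))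
          (g * κ.2.1)‖ ^ 2 + ∑ q ∈ Q, ∑ D ∈ 𝒟 q,
        ‖Sh (TWt405.wsn w₀ t) (Xq q) (pt (u * su κ)) (bg (bt D (b q)) g (κ.2.2 / g))
          (g * κ.2.1)‖ ^ 2) ≤
        (Ct * Z ^ ε1) * (2 * (Cp * (1 + C0) ^ 2 * Z ^ ε1 * (9 * T))) := by
    refine (Finset.sum_le_sum h2).trans ?_
    rw [Finset.sum_const, nsmul_eq_mul]
    exact mul_le_mul_of_nonneg_right hcard (by positivity)
  refine h1.trans ?_
  have h4 : (1 + C0) ^ 2 ≤ (1 + Ck) ^ 2 * (1 + |t|) ^ (2 * J) := by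
    have h5 : 1 ≤ (1 + |t|) ^ J := one_le_pow₀ ht1
    have h6 : 1 + C0 ≤ (1 + Ck) * (1 + |t|) ^ J := by rw [hC0d]; nlinarith
    calc (1 + C0) ^ 2 ≤ ((1 + Ck) * (1 + |t|) ^ J) ^ 2 :=
          pow_le_pow_left₀ (by positivity) h6 2
      _ = _ := by rw [mul_pow, ← pow_mul, mul_comm J 2]
  have h7 : Z ^ ε1 * Z ^ ε1 * Z ^ ε1 = Z ^ ε := by
    rw [← Real.rpow_add hZ0, ← Real.rpow_add hZ0]
    congr 1
    rw [hε1]; ring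
  calc _ ≤ 2 * (Ct * Z ^ ε1) *
        ((Ct * Z ^ ε1) * (2 * (Cp * (1 + C0) ^ 2 * Z ^ ε1 * (9 * T)))) := by
        refine mul_le_mul (mul_le_mul_of_nonneg_left htau (by norm_num)) h3 ?_ (by positivity)
        exact Finset.sum_nonneg fun _ _ => by positivity
    _ = 9 * (4 * Ct ^ 2 * Cp * (1 + C0) ^ 2 * (Z ^ ε1 * Z ^ ε1 * Z ^ ε1) * T) := by ring
    _ = 9 * (4 * Ct ^ 2 * Cp * (1 + C0) ^ 2 * Z ^ ε * T) := by rw [h7]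
    _ ≤ 9 * (4 * Ct ^ 2 * Cp * ((1 + Ck) ^ 2 * (1 + |t|) ^ (2 * J)) * Z ^ ε * T) := by gcongr
    _ = _ := by ring

/-- all the principal characters -/
def PoDxAll : Prop := ∀ u, PoH347.SU u → ∀ χ : Eis → ℂ, (∀ x, IsPrim x → χ x = conj (sy u x)) →
  ∀ w, Wgt w → MX744.PoDx χ w

theorem poDxAll_of (hOB : ∀ (R U : ℝ) (A a B : ℕ), 0 ≤ R → 1 ≤ U → 1 < A → a + 3 ≤ B →
      ∀ ε : ℝ, 0 < ε → ∃ C : ℝ, 0 < C ∧ OneBx R U A a B ε C) : PoDxAll :=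
  fun _ hu _ hχ _ hw => podx_of hOB hu hχ hw

end Crest.Agent.R017.PoDz405
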