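import Crest.Agent.R017.PoH10_347

/-!
# Row 17, block C70, leaf E3 (HB form of the MODE lemma), part 11 (helper347)

`fam_block` : one block of the family.
-/

set_option autoImplicit false

noncomputable section

open Complex MeasureTheory
open scoped ComplexConjugate Classical

namespace Crest.Agent.R017.PoH347

open Crest.Agent.R012 Crest.Agent.R012.Eis Crest.Agent.R012.MC
open Crest.Agent.R012.LS2 (S mem_S bl mem_bl)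
open Crest.Agent.R012.Mob705 (mu pdiv mem_pdiv)
open Crest.Agent.R012.NonCube52 (Ker kv Good)
open Crest.Agent.R017.E1551 (nmpos jb jb_pos nm_ge_one)
open Crest.Agent.R017.BD829
open Crest.Agent.R017.Mode405 (Slp nf Il VI)

lemma swap5 {F : Eis → Eis → Eis → Eis → Eis → ℝ} (Q T D Fs : Finset Eis)
    (E : Eis → Finset Eis) :
    ∑ q ∈ Q, ∑ l ∈ T, ∑ d ∈ D, ∑ e ∈ E d, ∑ f ∈ Fs, F q l d e f =
      ∑ d ∈ D, ∑ e ∈ E d, ∑ f ∈ Fs, ∑ q ∈ Q, ∑ l ∈ T, F q l d e f := by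
  calc ∑ q ∈ Q, ∑ l ∈ T, ∑ d ∈ D, ∑ e ∈ E d, ∑ f ∈ Fs, F q l d e f
      = ∑ q ∈ Q, ∑ d ∈ D, ∑ l ∈ T, ∑ e ∈ E d, ∑ f ∈ Fs, F q l d e f :=
        Finset.sum_congr rfl fun q _ => Finset.sum_comm
    _ = ∑ d ∈ D, ∑ q ∈ Q, ∑ l ∈ T, ∑ e ∈ E d, ∑ f ∈ Fs, F q l d e f := Finset.sum_comm
    _ = ∑ d ∈ D, ∑ q ∈ Q, ∑ e ∈ E d, ∑ l ∈ T, ∑ f ∈ Fs, F q l d e f :=
        Finset.sum_congr rfl fun d _ => Finset.sum_congr rfl fun q _ => Finset.sum_comm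
    _ = ∑ d ∈ D, ∑ e ∈ E d, ∑ q ∈ Q, ∑ l ∈ T, ∑ f ∈ Fs, F q l d e f :=
        Finset.sum_congr rfl fun d _ => Finset.sum_comm
    _ = ∑ d ∈ D, ∑ e ∈ E d, ∑ q ∈ Q, ∑ f ∈ Fs, ∑ l ∈ T, F q l d e f :=
        Finset.sum_congr rfl fun d _ => Finset.sum_congr rfl fun e _ =>
          Finset.sum_congr rfl fun q _ => Finset.sum_comm
    _ = ∑ d ∈ D, ∑ e ∈ E d, ∑ f ∈ Fs, ∑ q ∈ Q, ∑ l ∈ T, F q l d e f :=
        Finset.sum_congr rfl fun d _ => Finset.sum_congr rfl fun e _ => Finset.sum_comm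

/-- harmonic sum with divisors -/
lemma harm3 {ε : ℝ} (hε : 0 < ε) : ∃ C : ℝ, 0 < C ∧ ∀ Y Z : ℝ, 1 ≤ Y → Y ≤ Z →
    ∑ d ∈ S Y, ∑ _e ∈ pdiv d, ∑ f ∈ S Y, (1 / (nm d : ℝ) * (1 / nm f)) ≤ C * Z ^ (3 * ε) := by
  obtain ⟨Ct, hCt1, hCt⟩ := tau_unif hε
  obtain ⟨Ch, hCh, hharm⟩ := harm hε
  have hCt0 : 0 < Ct := by linarith
  refine ⟨Ct * Ch ^ 2, by positivity, fun Y Z hY hYZ => ?_⟩
  have hZ0 : 0 < Z := by linarith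
  have h1 := hharm Y Z hY hYZ
  set H := ∑ n ∈ S Y, (1 / (nm n : ℝ)) with hH
  have hH0 : 0 ≤ H := Finset.sum_nonneg fun _ _ => by positivity
  calc ∑ d ∈ S Y, ∑ _e ∈ pdiv d, ∑ f ∈ S Y, (1 / (nm d : ℝ) * (1 / nm f))
      = ∑ d ∈ S Y, (Div277.tau d : ℝ) * (1 / (nm d : ℝ) * H) := by
        refine Finset.sum_congr rfl fun d _ => ?_
        rw [Finset.sum_const, nsmul_eq_mul, ← Finset.mul_sum]
        rfl
    _ ≤ ∑ d ∈ S Y, (Ct * Z ^ ε) * (1 / (nm d : ℝ) * H) := by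
        refine Finset.sum_le_sum fun d hd => ?_
        have h2 := hCt Y hY d hd
        have h3 : Y ^ ε ≤ Z ^ ε := Real.rpow_le_rpow (by linarith) hYZ hε.le
        refine mul_le_mul_of_nonneg_right (h2.trans ?_) (by positivity)
        exact mul_le_mul_of_nonneg_left h3 hCt0.le
    _ = (Ct * Z ^ ε) * (H * H) := by rw [← Finset.mul_sum, ← Finset.sum_mul]
    _ ≤ (Ct * Z ^ ε) * ((Ch * Z ^ ε) * (Ch * Z ^ ε)) := by gcongr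
    _ = Ct * Ch ^ 2 * (Z ^ ε * Z ^ ε * Z ^ ε) := by ring
    _ = Ct * Ch ^ 2 * Z ^ (3 * ε) := by
        rw [← Real.rpow_add hZ0, ← Real.rpow_add hZ0]
        congr 2
        ring

/-- **one block of the family** -/
theorem fam_block {R : ℝ} (hR : 0 ≤ R) {A a : ℕ} (hA : 1 < A) {ε : ℝ} (hε0 : 0 < ε)
    (hε : ε ≤ 1) :
    ∃ C : ℝ, 0 < C ∧ ∀ (v : ℝ → ℝ), Wgt v → ∀ C0 : ℝ, KT v (max R 2) A (a + 4) C0 →
      ∀ Z N X lam₀ : ℝ, 1 ≤ Z → 0 < N → N ≤ Z → 0 < X → 1 ≤ X * Z →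
      1 ≤ lam₀ → lam₀ ≤ Z → lam₀ * Real.exp R < N →
      ∀ (Q : Finset Eis) (b : Eis → Eis → ℂ) (Xq : Eis → ℝ),
      (∀ q ∈ Q, X / 4 ≤ Xq q ∧ Xq q ≤ X) →
      (∀ q ∈ Q, ∀ n, b q n ≠ 0 → n ∈ S Z) → (∀ q ∈ Q, Win (b q) (Real.log N) R) →
      ∀ W : ℝ → ℝ, Slp a W →
      (∀ g f π : Eis, IsPrim g → IsPrim f → IsPrim π → ∀ P : ℝ, 1 ≤ P →
        (nm g : ℝ) * nm f * ∑ q ∈ Q, VI A (b q) (g * f) f π P ≤ W P) →
      ∀ W1 : ℝ, 0 ≤ W1 → (∀ E : ℝ, 1 ≤ E → E ≤ lam₀ →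
        W (8 * 86093442 * 17496 * Il N lam₀ X * E) ≤ E * W1) →
      ∀ (p : ℕ × ℕ), p.2 < 3 → ∀ g : Eis, IsPrim g → ∀ j1 j3 : ℕ,
      ∑ q ∈ Q, ∑ l ∈ T3 lam₀ g j3, ∑ l₁ ∈ H1 lam₀ p g l j1,
        ‖Sh v (Xq q) (ps (p, (1, 1))) (bg (b q) g l) (g * l₁)‖ ^ 2 ≤
        C * (1 + C0) ^ 2 * Z ^ (8 * ε) * (1 / nm g * (X * nf lam₀ (Il N lam₀ X) * W1)) := by
  obtain ⟨Ci, hCi, hinner⟩ := inner_block hR (A := A) (B := a + 4) (a := a + 3) hA (by omega)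
    (by omega) hε0
  obtain ⟨Cf, hCf, hfam⟩ := fam_one (A := A) (a := a) hA hε0 hε
  obtain ⟨Ch, hCh, hharm⟩ := harm3 hε0
  refine ⟨Ci * Cf * Ch, by positivity, ?_⟩
  intro v hv C0 hk Z N X lam₀ hZ hN hNZ hX hXZ hlam1 hlamZ hlamN Q b Xq hXq hb hwb W hW hVI W1
    hW1 hWW p hp g hg j1 j3
  have hZ0 : 0 < Z := by linarith
  have hlam0 : 0 ≤ lam₀ := by linarith
  have ng := nmpos hg.ne_zero
  have ng1 := nm_ge_one hg.ne_zero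
  have hC0 := hk.1
  have hI : 0 < Il N lam₀ X := by unfold Il; positivity
  have hT0 : 0 ≤ X * nf lam₀ (Il N lam₀ X) * W1 := by unfold nf; positivity
  by_cases hem : ∃ l ∈ T3 lam₀ g j3, ∃ x, x ∈ H1 lam₀ p g l j1
  swap
  · push Not at hem
    have h0 : ∑ q ∈ Q, ∑ l ∈ T3 lam₀ g j3, ∑ l₁ ∈ H1 lam₀ p g l j1,
        ‖Sh v (Xq q) (ps (p, (1, 1))) (bg (b q) g l) (g * l₁)‖ ^ 2 = 0 := by
      refine Finset.sum_eq_zero fun q _ => Finset.sum_eq_zero fun l hl => ?_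
      rw [Finset.eq_empty_of_forall_notMem (hem l hl), Finset.sum_empty]
    rw [h0]
    have h1 : 0 ≤ 1 / (nm g : ℝ) * (X * nf lam₀ (Il N lam₀ X) * W1) :=
      mul_nonneg (by positivity) hT0
    exact mul_nonneg (by positivity) h1
  obtain ⟨l0, hl0, x0, hx0⟩ := hem
  -- the size condition
  have hl : (2 : ℝ) ^ j1 * (nm g * 2 ^ j3) ^ 2 ≤ lam₀ := by
    obtain ⟨h1, h2, h3, h4⟩ := Finset.mem_filter.mp hx0
    obtain ⟨h5, -, h6⟩ := Finset.mem_filter.mp hl0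
    have h5' := (mem_S hlam0).1 h5
    have h7 := (pow_log_le (nm_pos.mpr h2.prim1.ne_zero).ne' h4).1
    have h8 := (pow_log_le (nm_pos.mpr h5'.2.1.ne_zero).ne' h6).1
    have h9 := NonCube52.nm_kv_ge (p, (x0, g * l0))
    refine le_trans (le_trans ?_ h9) h3
    simp only [nm_mul]
    push_cast
    gcongr
  have h2j1 : (1 : ℝ) ≤ 2 ^ j1 := one_le_pow₀ (by norm_num)
  have h2j3 : (1 : ℝ) ≤ 2 ^ j3 := one_le_pow₀ (by norm_num)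
  have hprod : (2 : ℝ) ^ j3 * 2 ^ j1 ≤ Z := by
    refine le_trans ?_ (hl.trans hlamZ)
    have h1 : (2 : ℝ) ^ j3 ≤ (nm g * 2 ^ j3) ^ 2 := by
      have h2 : (2 : ℝ) ^ j3 ≤ nm g * 2 ^ j3 := le_mul_of_one_le_left (by positivity) ng1
      have h3 : (1 : ℝ) ≤ nm g * 2 ^ j3 := h2j3.trans h2
      calc (2 : ℝ) ^ j3 ≤ nm g * 2 ^ j3 := h2
        _ ≤ (nm g * 2 ^ j3) * (nm g * 2 ^ j3) := le_mul_of_one_le_left (by linarith) h3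
        _ = _ := by ring
    rw [mul_comm]
    exact mul_le_mul_of_nonneg_left h1 (by positivity)
  -- the sum over the blocks
  have hS : ∀ q ∈ Q, ∀ l ∈ T3 lam₀ g j3, ∑ l₁ ∈ H1 lam₀ p g l j1,
      ‖Sh v (Xq q) (ps (p, (1, 1))) (bg (b q) g l) (g * l₁)‖ ^ 2 ≤
      Ci * (1 + C0) ^ 2 * Z ^ ε * ∑ d ∈ S lam₀, ∑ e ∈ pdiv d, ∑ f ∈ S lam₀,
        if IsCoprime (d * f) l then
          Tm A (a + 4) (a + 3) N X j1 j3 (p, (1, 1)) (b q) g l d e f else 0 := by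
    intro q hq l hl'
    obtain ⟨h5, h6, h7⟩ := Finset.mem_filter.mp hl'
    have h5' := (mem_S hlam0).1 h5
    exact hinner v hv C0 hk Z N X (Xq q) lam₀ hZ hN hNZ hX hXZ (hXq q hq).1 (hXq q hq).2 hlam1
      hlamZ hlamN (b q) (hb q hq) (hwb q hq) p hp g l hg h5'.2.1 h6 j1 j3 h7
  refine (Finset.sum_le_sum fun q hq => Finset.sum_le_sum fun l hl' => hS q hq l hl').trans ?_
  simp_rw [← Finset.mul_sum]
  rw [swap5 Q (T3 lam₀ g j3) (S lam₀) (S lam₀) (fun d => pdiv d)]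
  have h3 : ∑ d ∈ S lam₀, ∑ e ∈ pdiv d, ∑ f ∈ S lam₀, ∑ q ∈ Q, ∑ l ∈ T3 lam₀ g j3,
      (if IsCoprime (d * f) l then
        Tm A (a + 4) (a + 3) N X j1 j3 (p, (1, 1)) (b q) g l d e f else 0) ≤
      ∑ d ∈ S lam₀, ∑ e ∈ pdiv d, ∑ f ∈ S lam₀, Cf * Z ^ (4 * ε) *
        (1 / nm g * (X * nf lam₀ (Il N lam₀ X) * W1)) * (1 / nm d * (1 / nm f)) :=
    Finset.sum_le_sum fun d hd => Finset.sum_le_sum fun e he => Finset.sum_le_sum fun f hf =>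
      hfam Z N X lam₀ hZ hN hNZ hX hXZ hlam1 hlamZ Q b hb W hW hVI W1 hW1 hWW (p, (1, 1)) hp g hg
        j1 j3 hl hprod d hd e he f hf
  have h4 := hharm lam₀ Z hlam1 hlamZ
  have h5 : 0 ≤ Cf * Z ^ (4 * ε) * (1 / nm g * (X * nf lam₀ (Il N lam₀ X) * W1)) :=
    mul_nonneg (by positivity) (mul_nonneg (by positivity) hT0)
  have h6 : ∑ d ∈ S lam₀, ∑ e ∈ pdiv d, ∑ f ∈ S lam₀, Cf * Z ^ (4 * ε) *
        (1 / nm g * (X * nf lam₀ (Il N lam₀ X) * W1)) * (1 / (nm d : ℝ) * (1 / nm f)) =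
      Cf * Z ^ (4 * ε) * (1 / nm g * (X * nf lam₀ (Il N lam₀ X) * W1)) *
        ∑ d ∈ S lam₀, ∑ e ∈ pdiv d, ∑ f ∈ S lam₀, (1 / (nm d : ℝ) * (1 / nm f)) := by
    simp_rw [← Finset.mul_sum]
  rw [h6] at h3
  have h7 := h3.trans (mul_le_mul_of_nonneg_left h4 h5)
  refine (mul_le_mul_of_nonneg_left h7 (by positivity)).trans (le_of_eq ?_)
  have e8 : Z ^ (8 * ε) = Z ^ ε * Z ^ (4 * ε) * Z ^ (3 * ε) := by
    rw [← Real.rpow_add hZ0, ← Real.rpow_add hZ0]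
    congr 1
    ring
  rw [e8]
  ring

end Crest.Agent.R017.PoH347
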