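import Crest.Agent.R017.PoH14_347

/-!
# Row 17, block C70, leaf E3 (HB form of the MODE lemma), part 15 (helper347)

`RG_fams`, `fam_ones`, `fam_blocks` : one block of a family, hypothesis `HW`, kernels prime to `ka`.
-/

set_option autoImplicit false

noncomputable section

open Complex MeasureTheory
open scoped ComplexConjugate Classical

namespace Crest.Agent.R017.PoH347

open Crest.Agent.R012 Crest.Agent.R012.Eis Crest.Agent.R012.MC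
open Crest.Agent.R012.LS2 (S mem_S bl mem_bl)
open Crest.Agent.R012.Mob705 (mu pdiv mem_pdiv)
open Crest.Agent.R012.NonCube52 (Ker kv Good)
open Crest.Agent.R017.E1551 (nmpos jb jb_pos nm_ge_one)
open Crest.Agent.R017.BD829
open Crest.Agent.R017.Mode405 (Slp Il VI)

/-- the natural scale of the block -/
def xx (s g d e : Eis) : Eis := s * ((9 * s) * sq3) ^ 2 * g ^ 2 * (d / e) ^ 2 * e

lemma xx_eq {s g d e f : Eis} (he : e ≠ 0) (hed : e ∣ d) :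
    (s * (e * ((9 * s) * sq3)) ^ 2 * f) * (g * d * f) ^ 2 = xx s g d e * (e * f) ^ 3 := by
  obtain ⟨d', rfl⟩ := hed
  unfold xx
  rw [mul_div_cancel_left₀ _ he]
  ring

lemma xx_ne {s g d e : Eis} (hs : SU s) (hg : g ≠ 0) (hd : d ≠ 0) (he : e ≠ 0) (hed : e ∣ d) :
    xx s g d e ≠ 0 := by
  obtain ⟨d', rfl⟩ := hed
  unfold xx
  rw [mul_div_cancel_left₀ _ he]
  have h1 := right_ne_zero_of_mul hd
  have h2 := (LC_pt hs).ne
  exact mul_ne_zero (mul_ne_zero (mul_ne_zero (mul_ne_zero hs.ne (pow_ne_zero _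
    (mul_ne_zero h2 sq3_ne_zero))) (pow_ne_zero _ hg)) (pow_ne_zero _ h1)) he

lemma nm_xx_le {U : ℝ} {s g d e : Eis} (hs : SU s) (hsU : (nm (9 * s) : ℝ) ≤ U) (hd : d ≠ 0)
    (he : e ≠ 0) (hed : e ∣ d) :
    (nm (xx s g d e) : ℝ) ≤ 9 * U ^ 3 * ((nm g : ℝ) ^ 2 * ((nm d : ℝ) ^ 2 / nm e)) := by
  obtain ⟨d', rfl⟩ := hed
  have ne := nmpos he
  have h9 : nm (9 : Eis) = 81 := by
    have : (9 : Eis) = 3 * 3 := by norm_num
    rw [this, nm_mul, nm_three]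
  have h3 : nm sq3 = 3 := by decide
  have hsle : (nm s : ℝ) ≤ U := by
    refine le_trans ?_ hsU
    rw [nm_mul, h9]
    push_cast
    have : (0 : ℝ) ≤ nm s := Nat.cast_nonneg _
    linarith
  have e1 : (nm (xx s g (e * d') e) : ℝ) =
      nm s * (nm (9 * s) : ℝ) ^ 2 * 9 * ((nm g : ℝ) ^ 2 * ((nm (e * d') : ℝ) ^ 2 / nm e)) := by
    unfold xx
    rw [mul_div_cancel_left₀ _ he]
    simp only [nm_mul, nm_pow, h3]
    push_cast
    field_simp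
    ring
  rw [e1]
  have hU0 : 0 ≤ U := (Nat.cast_nonneg _).trans hsU
  have h4 : (nm s : ℝ) * (nm (9 * s) : ℝ) ^ 2 * 9 ≤ 9 * U ^ 3 := by
    calc (nm s : ℝ) * (nm (9 * s) : ℝ) ^ 2 * 9 ≤ U * U ^ 2 * 9 := by gcongr
      _ = _ := by ring
  exact mul_le_mul_of_nonneg_right h4 (by positivity)

set_option maxHeartbeats 2000000 in
/-- the family of mean squares, merged -/
theorem RG_fams {A a : ℕ} (hA : 1 < A) {ε : ℝ} (hε0 : 0 < ε) (hε : ε ≤ 1) :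
    ∃ C : ℝ, 0 < C ∧ ∀ Z : ℝ, 1 ≤ Z → ∀ {ι : Type} (Q : Finset ι) (b : ι → Eis → ℂ),
      (∀ q ∈ Q, ∀ n, b q n ≠ 0 → n ∈ S Z) → ∀ W : ℝ → ℝ, Slp a W →
      ∀ (B0 : ℝ) (ka : Eis), HW A B0 Q b ka W →
      ∀ s : Eis, SU s → ∀ lam₀ : ℝ, 0 ≤ lam₀ → lam₀ ≤ Z → lam₀ ^ 2 ≤ B0 →
      ∀ (g : Eis), IsPrim g → IsCoprime g ka → ∀ (j3 : ℕ), ∀ d ∈ S lam₀, ∀ e ∈ pdiv d,
      ∀ f ∈ S lam₀, IsCoprime (d * f) ka →
      ∀ Λ : ℝ, 1 ≤ Λ →
      ∑ i ∈ (Q ×ˢ T3 lam₀ g j3).filter (fun i => IsCoprime (d * f) i.2),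
        RG A (a + 3) (rs (bg (b i.1) g i.2) (pt s) d f) ((e * ((9 * s) * sq3)) ^ 2 * f) Λ ≤
      C * (Λ * (2 * 2 ^ j3)) ^ ε * (W (Λ * (2 * 2 ^ j3) * nm (xx s g d e)) /
        (nm g * nm d * nm f)) := by
  have hA' : (1 : ℝ) < (A : ℝ) := by exact_mod_cast hA
  obtain ⟨C, hC1, hC⟩ := Div277.tau_le_rpow hε0
  have hC0 : 0 < C := by linarith
  refine ⟨2 * C, by positivity, ?_⟩
  intro Z hZ ι Q b hb W hW B0 ka hVI s hs lam₀ hlam0 hlamZ hB0 g hg hgk j3 d hd e he f hf hdfk Λ hΛ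
  have hZ0 : 0 ≤ Z := by linarith
  have hd' := (mem_S hlam0).1 hd
  have hf' := (mem_S hlam0).1 hf
  have he' := (mem_pdiv hd'.2.1.ne_zero).mp he
  have ng := nmpos hg.ne_zero
  have nd := nmpos hd'.2.1.ne_zero
  have nf' := nmpos hf'.2.1.ne_zero
  have ne := nmpos he'.1.ne_zero
  have hΛ0 : 0 < Λ := by linarith
  set F0 : Eis := (e * ((9 * s) * sq3)) ^ 2 with hF0
  have hF0n : F0 ≠ 0 := by
    rw [hF0]
    exact pow_ne_zero _ (mul_ne_zero he'.1.ne_zero (mul_ne_zero (LC_pt hs).ne sq3_ne_zero))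
  set Wc : ℝ := W (Λ * (2 * 2 ^ j3) * nm (xx s g d e)) with hWc
  have hxne : xx s g d e ≠ 0 := xx_ne hs hg.ne_zero hd'.2.1.ne_zero he'.1.ne_zero he'.2
  have nxx := nmpos hxne
  have hWc0 : 0 ≤ Wc := hW.nonneg _ (by positivity)
  set V : ℝ := (Λ * (2 * 2 ^ j3)) ^ ε with hV
  have hV0 : 0 ≤ V := by positivity
  have hY1 : (1 : ℝ) ≤ Z ^ 2 := one_le_pow₀ hZ
  -- the supports
  have hsup : ∀ i ∈ (Q ×ˢ T3 lam₀ g j3).filter (fun i => IsCoprime (d * f) i.2),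
      ∀ n, rs (bg (b i.1) g i.2) (pt s) d f n ≠ 0 → n ∈ S (Z ^ 2) := by
    rintro ⟨q, l⟩ hi n hn
    obtain ⟨hi1, -⟩ := Finset.mem_filter.mp hi
    obtain ⟨hq, hl⟩ := Finset.mem_product.mp hi1
    obtain ⟨hl1, hl2, -⟩ := Finset.mem_filter.mp hl
    have hl' := (mem_S hlam0).1 hl1
    refine rs_supp (by positivity) (u := bg (b q) g l) (fun m hm => ?_) (pt s) hd'.2.1 hf'.2.1 n hn
    obtain ⟨k, rfl, hc, hk⟩ := exists_of_bg hl'.2.1.ne_zero hm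
    have h1 := (mem_S hZ0).1 (hb q hq _ hk)
    have hkp : IsPrim k := h1.2.1.of_mul_left hg
    rw [mem_S (by positivity)]
    refine ⟨?_, hl'.2.1.mul hkp, squarefree_mul_iff.mpr
      ⟨(hc.of_mul_right_right).symm.isRelPrime, hl'.2.2, h1.2.2.of_mul_right⟩⟩
    rw [nm_mul]
    push_cast
    have h2 : (nm k : ℝ) ≤ Z := by
      refine le_trans ?_ h1.1
      rw [nm_mul]
      push_cast
      exact le_mul_of_one_le_left (Nat.cast_nonneg _) (nm_ge_one hg.ne_zero)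
    calc (nm l : ℝ) * nm k ≤ Z * Z := mul_le_mul (hl'.1.trans hlamZ) h2 (Nat.cast_nonneg _) hZ0
      _ = Z ^ 2 := by ring
  have hbound : ∀ j : ℕ, ∑ i ∈ (Q ×ˢ T3 lam₀ g j3).filter (fun i => IsCoprime (d * f) i.2),
      EB A (rs (bg (b i.1) g i.2) (pt s) d f) (F0 * f) (2 ^ j * Λ) ≤
      (C * V * (Wc / (nm g * nm d * nm f))) * (2 ^ (a + 1)) ^ j := by
    intro j
    have h2j : (1 : ℝ) ≤ 2 ^ j := one_le_pow₀ (by norm_num)
    set τ : ℝ := C * (2 ^ j * V) with hτ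
    have hτ0 : 0 ≤ τ := by positivity
    -- reorganise
    have e1 : ∑ i ∈ (Q ×ˢ T3 lam₀ g j3).filter (fun i => IsCoprime (d * f) i.2),
        EB A (rs (bg (b i.1) g i.2) (pt s) d f) (F0 * f) (2 ^ j * Λ) =
        ∑ q ∈ Q, ∑ l ∈ (T3 lam₀ g j3).filter (fun l => IsCoprime (d * f) l),
          EB A (rs (bg (b q) g l) (pt s) d f) (F0 * f) (2 ^ j * Λ) := by
      rw [Finset.sum_filter, Finset.sum_product]
      refine Finset.sum_congr rfl fun q _ => ?_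
      rw [Finset.sum_filter]
    rw [e1]
    have h1 : ∀ q ∈ Q, ∑ l ∈ (T3 lam₀ g j3).filter (fun l => IsCoprime (d * f) l),
        EB A (rs (bg (b q) g l) (pt s) d f) (F0 * f) (2 ^ j * Λ) ≤
        τ * VI A (b q) (g * d * f) (s * F0 * f) 1 (2 ^ j * Λ * (2 * 2 ^ j3)) := by
      intro q hq
      refine sum_EB_bgs hA' hZ0 (hb q hq) hg hd'.2.1 hf'.2.1 s
        (Z := 2 ^ j * Λ) (L := 2 * 2 ^ j3) (by positivity) (by positivity) (fun l hl => ?_)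
        (fun x hx => ?_)
      · obtain ⟨hl1, hl2⟩ := Finset.mem_filter.mp hl
        obtain ⟨hl3, -, hl4⟩ := Finset.mem_filter.mp hl1
        have hl' := (mem_S hlam0).1 hl3
        exact ⟨hl'.2.1, (pow_log_le (nm_pos.mpr hl'.2.1.ne_zero).ne' hl4).2, hl2⟩
      · have hx' := (mem_bl (by positivity)).1 hx
        refine (hC x hx'.1).trans ?_
        rw [hτ]
        refine mul_le_mul_of_nonneg_left ?_ hC0.le
        calc (nm x : ℝ) ^ ε ≤ (2 ^ j * Λ * (2 * 2 ^ j3)) ^ ε :=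
              Real.rpow_le_rpow (Nat.cast_nonneg _) hx'.2 hε0.le
          _ = (2 ^ j : ℝ) ^ ε * V := by
              rw [mul_assoc, Real.mul_rpow (by positivity) (by positivity)]
          _ ≤ 2 ^ j * V := by
              refine mul_le_mul_of_nonneg_right ?_ hV0
              calc (2 ^ j : ℝ) ^ ε ≤ (2 ^ j : ℝ) ^ (1 : ℝ) :=
                    Real.rpow_le_rpow_of_exponent_le h2j hε
                _ = 2 ^ j := Real.rpow_one _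
    refine (Finset.sum_le_sum h1).trans ?_
    rw [← Finset.mul_sum]
    have hP1 : (1 : ℝ) ≤ 2 ^ j * Λ * (2 * 2 ^ j3) := by
      have h3 : (1 : ℝ) ≤ 2 ^ j3 := one_le_pow₀ (by norm_num)
      exact one_le_mul_of_one_le_of_one_le (one_le_mul_of_one_le_of_one_le h2j hΛ) (by linarith)
    have hφ : s * F0 * f ≠ 0 := mul_ne_zero (mul_ne_zero hs.ne hF0n) hf'.2.1.ne_zero
    have hnD : (nm (e * f) : ℝ) ≤ B0 := by
      refine le_trans ?_ hB0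
      have h3 : (nm e : ℝ) ≤ lam₀ := by
        refine le_trans ?_ hd'.1
        exact_mod_cast Div277.nm_le_of_dvd hd'.2.1.ne_zero he'.2
      rw [nm_mul, sq]
      push_cast
      exact mul_le_mul h3 hf'.1 (Nat.cast_nonneg _) hlam0
    have h2 := hVI (g * d * f) (s * F0 * f) (xx s g d e) (e * f) ((hg.mul hd'.2.1).mul hf'.2.1)
      (by rw [mul_assoc]; exact hgk.mul_left hdfk) hφ hxne
      (mul_ne_zero he'.1.ne_zero hf'.2.1.ne_zero) hnD (by rw [hF0]; exact xx_eq he'.1.ne_zero he'.2)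
      _ hP1
    have h3 := slp_dbl_pow hW (P := Λ * (2 * 2 ^ j3) * nm (xx s g d e)) (by positivity) j
    have h4 : ∑ q ∈ Q, VI A (b q) (g * d * f) (s * F0 * f) 1 (2 ^ j * Λ * (2 * 2 ^ j3)) ≤
        (2 ^ a) ^ j * (Wc / (nm g * nm d * nm f)) := by
      rw [← mul_div_assoc, le_div_iff₀ (by positivity), mul_comm]
      simp only [nm_mul] at h2
      push_cast at h2
      refine h2.trans (le_trans (le_of_eq ?_) h3)
      congr 1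
      ring
    calc τ * ∑ q ∈ Q, VI A (b q) (g * d * f) (s * F0 * f) 1 (2 ^ j * Λ * (2 * 2 ^ j3))
        ≤ τ * ((2 ^ a) ^ j * (Wc / (nm g * nm d * nm f))) := mul_le_mul_of_nonneg_left h4 hτ0
      _ = (C * V * (Wc / (nm g * nm d * nm f))) * (2 ^ (a + 1)) ^ j := by
          rw [hτ, pow_succ, mul_pow]; ring
  have hfin := RG_sum_le hA' hY1 ((Q ×ˢ T3 lam₀ g j3).filter (fun i => IsCoprime (d * f) i.2))
    (u := fun i => rs (bg (b i.1) g i.2) (pt s) d f) hsup (F0 * f) hΛ hbound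
  refine hfin.trans (le_of_eq ?_)
  ring

/-- the size of the scale -/
lemma V_les {U N X Z : ℝ} (hU : 1 ≤ U) (hN : 0 < N) (hNZ : N ≤ Z) (hX : 0 < X) (hXZ : 1 ≤ X * Z)
    (hZ : 1 ≤ Z) {j1 j3 : ℕ} (hprod : (2 : ℝ) ^ j3 * 2 ^ j1 ≤ Z) {d e : Eis}
    (hd : 1 ≤ (nm d : ℝ)) (hed : (nm e : ℝ) ≤ nm d) {ε : ℝ} (hε0 : 0 < ε) (hε : ε ≤ 1) :
    (max 1 (lmq U N X j1 j3 d e) * (2 * 2 ^ j3)) ^ ε ≤ 768 * U * Z ^ (4 * ε) := by
  have hZ0 : 0 < Z := by linarith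
  have hj3Z : (2 : ℝ) ^ j3 ≤ Z :=
    (le_mul_of_one_le_right (by positivity) (one_le_pow₀ (by norm_num))).trans hprod
  have h2 : lmq U N X j1 j3 d e ≤ 384 * U * Z ^ 3 := by
    unfold lmq
    rw [div_le_iff₀ (by positivity)]
    have h3 : (nm e : ℝ) ≤ (nm d : ℝ) ^ 2 := by nlinarith
    have h4 : N * 2 ^ j3 * 2 ^ j1 ≤ Z * Z := by
      rw [mul_assoc]
      exact mul_le_mul hNZ hprod (by positivity) hZ0.le
    calc 384 * U * (nm e : ℝ) * (N * 2 ^ j3 * 2 ^ j1)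
        ≤ 384 * U * (nm d : ℝ) ^ 2 * (Z * Z) := by gcongr
      _ ≤ 384 * U * (nm d : ℝ) ^ 2 * (Z * Z) * (X * Z) :=
          le_mul_of_one_le_right (by positivity) hXZ
      _ = 384 * U * Z ^ 3 * (X * (nm d : ℝ) ^ 2) := by ring
  have h5 : max 1 (lmq U N X j1 j3 d e) ≤ 384 * U * Z ^ 3 := by
    refine max_le ?_ h2
    have : (1 : ℝ) ≤ Z ^ 3 := one_le_pow₀ hZ
    have h6 : (1 : ℝ) ≤ 384 * U := by linarith
    exact one_le_mul_of_one_le_of_one_le h6 this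
  have h6 : max 1 (lmq U N X j1 j3 d e) * (2 * 2 ^ j3) ≤ 768 * U * Z ^ 4 := by
    calc max 1 (lmq U N X j1 j3 d e) * (2 * 2 ^ j3) ≤ (384 * U * Z ^ 3) * (2 * Z) := by gcongr
      _ = _ := by ring
  have hU7 : 1 ≤ 768 * U := by linarith
  calc (max 1 (lmq U N X j1 j3 d e) * (2 * 2 ^ j3)) ^ ε ≤ (768 * U * Z ^ 4) ^ ε :=
        Real.rpow_le_rpow (by positivity) h6 hε0.le
    _ = (768 * U) ^ ε * Z ^ (4 * ε) := by
        rw [Real.mul_rpow (by linarith) (by positivity), ← Real.rpow_natCast Z 4,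
          ← Real.rpow_mul hZ0.le]
        norm_num
    _ ≤ 768 * U * Z ^ (4 * ε) := by
        refine mul_le_mul_of_nonneg_right ?_ (by positivity)
        calc (768 * U : ℝ) ^ ε ≤ (768 * U) ^ (1 : ℝ) :=
              Real.rpow_le_rpow_of_exponent_le hU7 hε
          _ = 768 * U := Real.rpow_one _

/-- **one term of the family** -/
theorem fam_ones {U : ℝ} (hU : 1 ≤ U) {A a : ℕ} (hA : 1 < A) {ε : ℝ} (hε0 : 0 < ε) (hε : ε ≤ 1) :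
    ∃ C : ℝ, 0 < C ∧ ∀ Z N X lam₀ : ℝ, 1 ≤ Z → 0 < N → N ≤ Z → 0 < X → 1 ≤ X * Z →
      1 ≤ lam₀ → lam₀ ≤ Z →
      ∀ {ι : Type} (Q : Finset ι) (b : ι → Eis → ℂ),
      (∀ q ∈ Q, ∀ n, b q n ≠ 0 → n ∈ S Z) →
      ∀ W : ℝ → ℝ, Slp a W → ∀ (B0 : ℝ) (ka : Eis), HW A B0 Q b ka W → lam₀ ^ 2 ≤ B0 →
      ∀ W1 : ℝ, W (18 * U ^ 3 * (384 * U) * Il N lam₀ X) ≤ W1 →
      ∀ s : Eis, SU s → (nm (9 * s) : ℝ) ≤ U → ∀ g : Eis, IsPrim g → IsCoprime g ka →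
      ∀ j1 j3 : ℕ,
      (2 : ℝ) ^ j1 * (nm g * 2 ^ j3) ^ 2 ≤ lam₀ → (2 : ℝ) ^ j3 * 2 ^ j1 ≤ Z →
      ∀ d ∈ S lam₀, ∀ e ∈ pdiv d, ∀ f ∈ S lam₀,
      ∑ q ∈ Q, ∑ l ∈ T3 lam₀ g j3, (if IsCoprime (d * f) l ∧ IsCoprime (d * f) ka then
        Tms A (a + 4) (a + 3) U N X j1 j3 s (b q) g l d e f else 0) ≤
      C * Z ^ (4 * ε) * (1 / nm g * (X * nfo lam₀ (Il N lam₀ X) * W1)) *
        (1 / nm d * (1 / nm f)) := by
  obtain ⟨Cr, hCr, hRG⟩ := RG_fams (A := A) (a := a) hA hε0 hε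
  have hU0 : 0 < U := by linarith
  refine ⟨Cr * (768 * U) * (2 ^ (a + 1) * (384 * U)), by positivity, ?_⟩
  intro Z N X lam₀ hZ hN hNZ hX hXZ hlam1 hlamZ ι Q b hb W hW B0 ka hVI hB0 W1
    hW1 s hs hsU g hg hgk j1 j3 hl hprod d hd e he f hf
  have hZ0 : 0 < Z := by linarith
  have hlam0 : 0 ≤ lam₀ := by linarith
  have ng := nmpos hg.ne_zero
  have ng1 := nm_ge_one hg.ne_zero
  have h2j1 : (1 : ℝ) ≤ 2 ^ j1 := one_le_pow₀ (by norm_num)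
  have h2j3 : (1 : ℝ) ≤ 2 ^ j3 := one_le_pow₀ (by norm_num)
  have hd' := (mem_S hlam0).1 hd
  have hf' := (mem_S hlam0).1 hf
  have he' := (mem_pdiv hd'.2.1.ne_zero).mp he
  have nd := nmpos hd'.2.1.ne_zero
  have nf' := nmpos hf'.2.1.ne_zero
  have ne := nmpos he'.1.ne_zero
  have nd1 := nm_ge_one hd'.2.1.ne_zero
  have nf1 := nm_ge_one hf'.2.1.ne_zero
  have ne1 := nm_ge_one he'.1.ne_zero
  have hed : (nm e : ℝ) ≤ nm d := by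
    exact_mod_cast Div277.nm_le_of_dvd hd'.2.1.ne_zero he'.2
  have hlp := lmq_pos hU0 hN hX j1 j3 hd'.2.1.ne_zero he'.1.ne_zero
  have hΛ1 : 1 ≤ max 1 (lmq U N X j1 j3 d e) := le_max_left _ _
  have hΛ0 : 0 < max 1 (lmq U N X j1 j3 d e) := by linarith
  have hnr0 : 0 ≤ nrm (nm g * 2 ^ j1 / (nm d * nm f)) (max 1 (lmq U N X j1 j3 d e)) :=
    nrm_nonneg (by positivity) hΛ0.le
  have hmin0 : 0 < min 1 (lmq U N X j1 j3 d e) := lt_min one_pos hlp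
  have hIl : 0 < Il N lam₀ X := by unfold Il; positivity
  have hW10 : 0 ≤ W1 := (hW.nonneg _ (by positivity)).trans hW1
  have hnf0 : 0 ≤ nfo lam₀ (Il N lam₀ X) := nfo_nonneg hlam0 hIl.le
  by_cases hk : IsCoprime (d * f) ka
  swap
  · have h0 : ∑ q ∈ Q, ∑ l ∈ T3 lam₀ g j3, (if IsCoprime (d * f) l ∧ IsCoprime (d * f) ka then
        Tms A (a + 4) (a + 3) U N X j1 j3 s (b q) g l d e f else 0) = 0 :=
      Finset.sum_eq_zero fun q _ => Finset.sum_eq_zero fun l _ => if_neg fun h => hk h.2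
    rw [h0]
    positivity
  have e1 : ∑ q ∈ Q, ∑ l ∈ T3 lam₀ g j3, (if IsCoprime (d * f) l ∧ IsCoprime (d * f) ka then
      Tms A (a + 4) (a + 3) U N X j1 j3 s (b q) g l d e f else 0) =
      (X ^ 2 / (N * 2 ^ j3 * 2 ^ j1) * (nm d / nm e : ℝ) ^ 2 *
      nrm (nm g * 2 ^ j1 / (nm d * nm f)) (max 1 (lmq U N X j1 j3 d e)) *
      (min 1 (lmq U N X j1 j3 d e)) ^ (a + 4)) *
        ∑ i ∈ (Q ×ˢ T3 lam₀ g j3).filter (fun i => IsCoprime (d * f) i.2),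
        RG A (a + 3) (rs (bg (b i.1) g i.2) (pt s) d f) ((e * ((9 * s) * sq3)) ^ 2 * f)
          (max 1 (lmq U N X j1 j3 d e)) := by
    rw [Finset.sum_filter, Finset.sum_product, Finset.mul_sum]
    refine Finset.sum_congr rfl fun q _ => ?_
    rw [Finset.mul_sum]
    refine Finset.sum_congr rfl fun l _ => ?_
    simp only [hk, and_true]
    split_ifs
    · unfold Tms
      ring
    · rw [mul_zero]
  rw [e1]
  have h1 := hRG Z hZ Q b hb W hW B0 ka hVI s hs lam₀ hlam0 hlamZ hB0 g hg hgk j3 d hd e he f hf hk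
    _ hΛ1
  have hxne : xx s g d e ≠ 0 := xx_ne hs hg.ne_zero hd'.2.1.ne_zero he'.1.ne_zero he'.2
  have nxx := nmpos hxne
  have hmono : W (max 1 (lmq U N X j1 j3 d e) * (2 * 2 ^ j3) * nm (xx s g d e)) ≤
      W (18 * U ^ 3 * max 1 (lmq U N X j1 j3 d e) * 2 ^ j3 *
        ((nm g : ℝ) ^ 2 * ((nm d : ℝ) ^ 2 / nm e))) := by
    refine slp_mono hW (by positivity) ?_
    have h2 := nm_xx_le (g := g) hs hsU hd'.2.1.ne_zero he'.1.ne_zero he'.2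
    calc max 1 (lmq U N X j1 j3 d e) * (2 * 2 ^ j3) * (nm (xx s g d e) : ℝ)
        ≤ max 1 (lmq U N X j1 j3 d e) * (2 * 2 ^ j3) *
          (9 * U ^ 3 * ((nm g : ℝ) ^ 2 * ((nm d : ℝ) ^ 2 / nm e))) :=
          mul_le_mul_of_nonneg_left h2 (by positivity)
      _ = _ := by ring
  have h1' := h1.trans (mul_le_mul_of_nonneg_left
    (div_le_div_of_nonneg_right hmono (by positivity : (0 : ℝ) ≤ nm g * nm d * nm f))
    (by positivity : 0 ≤ Cr * (max 1 (lmq U N X j1 j3 d e) * (2 * 2 ^ j3)) ^ ε))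
  have hU1 : 1 ≤ U ^ 3 := one_le_pow₀ hU
  have hblock := block_b (B := a + 4) (by omega) hW (c1 := 18 * U ^ 3) (c2 := 384 * U)
    (X := X) (N := N) (lam := lam₀) (L1 := 2 ^ j1) (L3 := 2 ^ j3) (G := nm g) (D := nm d)
    (E := nm e) (F := nm f) (lm := lmq U N X j1 j3 d e) (by linarith) (by linarith) hX hN
    (by linarith) h2j1 h2j3 ng1 ne1 hed nf1 hl hW1 rfl
  have hV := V_les hU hN hNZ hX hXZ hZ hprod nd1 hed hε0 hε
  have hWc : 0 ≤ W (18 * U ^ 3 * max 1 (lmq U N X j1 j3 d e) * 2 ^ j3 *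
        ((nm g : ℝ) ^ 2 * ((nm d : ℝ) ^ 2 / nm e))) :=
    hW.nonneg _ (by positivity)
  have hfin := term_arith (by positivity) h1' rfl ng nd nf' hCr.le hV hblock (by positivity)
    (by positivity)
  refine hfin.trans (le_of_eq ?_)
  ring

lemma swap5s {ι : Type} {F : ι → Eis → Eis → Eis → Eis → ℝ} (Q : Finset ι) (T D Fs : Finset Eis)
    (E : Eis → Finset Eis) :
    ∑ q ∈ Q, ∑ l ∈ T, ∑ d ∈ D, ∑ e ∈ E d, ∑ f ∈ Fs, F q l d e f =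
      ∑ d ∈ D, ∑ e ∈ E d, ∑ f ∈ Fs, ∑ q ∈ Q, ∑ l ∈ T, F q l d e f := by
  calc ∑ q ∈ Q, ∑ l ∈ T, ∑ d ∈ D, ∑ e ∈ E d, ∑ f ∈ Fs, F q l d e f
      = ∑ q ∈ Q, ∑ d ∈ D, ∑ l ∈ T, ∑ e ∈ E d, ∑ f ∈ Fs, F q l d e f :=
        Finset.sum_congr rfl fun q _ => Finset.sum_comm
    _ = ∑ d ∈ D, ∑ q ∈ Q, ∑ l ∈ T, ∑ e ∈ E d, ∑ f ∈ Fs, F q l d e f := Finset.sum_comm
    _ = ∑ d ∈ D, ∑ q ∈ Q, ∑ e ∈ E d, ∑ l ∈ T, ∑ f ∈ Fs, F q l d e f :=
        Finset.sum_congr rfl fun d _ => Finset.sum_congr rfl fun q _ => Finset.sum_comm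
    _ = ∑ d ∈ D, ∑ e ∈ E d, ∑ q ∈ Q, ∑ l ∈ T, ∑ f ∈ Fs, F q l d e f :=
        Finset.sum_congr rfl fun d _ => Finset.sum_comm
    _ = ∑ d ∈ D, ∑ e ∈ E d, ∑ q ∈ Q, ∑ f ∈ Fs, ∑ l ∈ T, F q l d e f :=
        Finset.sum_congr rfl fun d _ => Finset.sum_congr rfl fun e _ =>
          Finset.sum_congr rfl fun q _ => Finset.sum_comm
    _ = ∑ d ∈ D, ∑ e ∈ E d, ∑ f ∈ Fs, ∑ q ∈ Q, ∑ l ∈ T, F q l d e f :=
        Finset.sum_congr rfl fun d _ => Finset.sum_congr rfl fun e _ => Finset.sum_comm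

/-- **one block of the family** -/
theorem fam_blocks {R : ℝ} (hR : 0 ≤ R) {U : ℝ} (hU : 81 ≤ U) {A a : ℕ} (hA : 1 < A) {ε : ℝ} (hε0 : 0 < ε)
    (hε : ε ≤ 1) :
    ∃ C : ℝ, 0 < C ∧ ∀ (v : ℝ → ℝ), Wgt v → ∀ C0 : ℝ, KT v (max R 2) A (a + 4) C0 →
      ∀ s : Eis, SU s → (nm (9 * s) : ℝ) ≤ U →
      ∀ Z N X lam₀ : ℝ, 1 ≤ Z → 0 < N → N ≤ Z → 0 < X → 1 ≤ X * Z →
      1 ≤ lam₀ → lam₀ ≤ Z → lam₀ * Real.exp R < N →
      ∀ {ι : Type} (Q : Finset ι) (b : ι → Eis → ℂ) (Xq : ι → ℝ),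
      (∀ q ∈ Q, X / 64 ≤ Xq q ∧ Xq q ≤ X) →
      (∀ q ∈ Q, ∀ n, b q n ≠ 0 → n ∈ S Z) → (∀ q ∈ Q, Win (b q) (Real.log N) R) →
      ∀ W : ℝ → ℝ, Slp a W → ∀ (B0 : ℝ) (ka : Eis), HW A B0 Q b ka W → lam₀ ^ 2 ≤ B0 →
      ∀ W1 : ℝ, W (18 * U ^ 3 * (384 * U) * Il N lam₀ X) ≤ W1 →
      ∀ (p : ℕ × ℕ) (g : Eis), IsPrim g → IsCoprime g ka → ∀ j1 j3 : ℕ,
      ∑ q ∈ Q, ∑ l ∈ T3 lam₀ g j3, ∑ l₁ ∈ H1k lam₀ ka p g l j1,
        ‖Sh v (Xq q) (pt s) (bg (b q) g l) (g * l₁)‖ ^ 2 ≤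
        C * (1 + C0) ^ 2 * Z ^ (8 * ε) * (1 / nm g * (X * nfo lam₀ (Il N lam₀ X) * W1)) := by
  obtain ⟨Ci, hCi, hinner⟩ := inner_blocks hR hU (A := A) (B := a + 4) (a := a + 3) hA (by omega)
    (by omega) hε0
  obtain ⟨Cf, hCf, hfam⟩ := fam_ones (U := U) (by linarith) (A := A) (a := a) hA hε0 hε
  obtain ⟨Ch, hCh, hharm⟩ := harm3 hε0
  refine ⟨Ci * Cf * Ch, by positivity, ?_⟩
  intro v hv C0 hk s hs hsU Z N X lam₀ hZ hN hNZ hX hXZ hlam1 hlamZ hlamN ι Q b Xq hXq hb hwb W hW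
    B0 ka hVI hB0 W1 hW1 p g hg hgk j1 j3
  have hZ0 : 0 < Z := by linarith
  have hlam0 : 0 ≤ lam₀ := by linarith
  have ng := nmpos hg.ne_zero
  have ng1 := nm_ge_one hg.ne_zero
  have hC0 := hk.1
  have hI : 0 < Il N lam₀ X := by unfold Il; positivity
  have hU0 : 0 < U := by linarith
  have hW10 : 0 ≤ W1 := (hW.nonneg _ (by positivity)).trans hW1
  have hnf0 : 0 ≤ nfo lam₀ (Il N lam₀ X) := nfo_nonneg hlam0 hI.le
  have hT0 : 0 ≤ X * nfo lam₀ (Il N lam₀ X) * W1 := by positivity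
  by_cases hem : ∃ l ∈ T3 lam₀ g j3, ∃ x, x ∈ H1k lam₀ ka p g l j1
  swap
  · push Not at hem
    have h0 : ∑ q ∈ Q, ∑ l ∈ T3 lam₀ g j3, ∑ l₁ ∈ H1k lam₀ ka p g l j1,
        ‖Sh v (Xq q) (pt s) (bg (b q) g l) (g * l₁)‖ ^ 2 = 0 := by
      refine Finset.sum_eq_zero fun q _ => Finset.sum_eq_zero fun l hl => ?_
      rw [Finset.eq_empty_of_forall_notMem (hem l hl), Finset.sum_empty]
    rw [h0]
    have h1 : 0 ≤ 1 / (nm g : ℝ) * (X * nfo lam₀ (Il N lam₀ X) * W1) :=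
      mul_nonneg (by positivity) hT0
    exact mul_nonneg (by positivity) h1
  obtain ⟨l0, hl0, x0, hx0⟩ := hem
  -- the size condition
  have hl : (2 : ℝ) ^ j1 * (nm g * 2 ^ j3) ^ 2 ≤ lam₀ := by
    obtain ⟨h1, h2, h3, h4⟩ := Finset.mem_filter.mp (Finset.mem_filter.mp hx0).1
    obtain ⟨h5, -, h6⟩ := Finset.mem_filter.mp hl0
    have h5' := (mem_S hlam0).1 h5
    have h7 := (pow_log_le (nm_pos.mpr h2.prim1.ne_zero).ne' h4).1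
    have h8 := (pow_log_le (nm_pos.mpr h5'.2.1.ne_zero).ne' h6).1
    have h9 := NonCube52.nm_kv_ge (p, (x0, g * l0))
    refine le_trans (le_trans ?_ h9) h3
    simp only [nm_mul]
    push_cast
    gcongr
  have h2j1 : (1 : ℝ) ≤ 2 ^ j1 := one_le_pow₀ (by norm_num)
  have h2j3 : (1 : ℝ) ≤ 2 ^ j3 := one_le_pow₀ (by norm_num)
  have hprod : (2 : ℝ) ^ j3 * 2 ^ j1 ≤ Z := by
    refine le_trans ?_ (hl.trans hlamZ)
    have h1 : (2 : ℝ) ^ j3 ≤ (nm g * 2 ^ j3) ^ 2 := by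
      have h2 : (2 : ℝ) ^ j3 ≤ nm g * 2 ^ j3 := le_mul_of_one_le_left (by positivity) ng1
      have h3 : (1 : ℝ) ≤ nm g * 2 ^ j3 := h2j3.trans h2
      calc (2 : ℝ) ^ j3 ≤ nm g * 2 ^ j3 := h2
        _ ≤ (nm g * 2 ^ j3) * (nm g * 2 ^ j3) := le_mul_of_one_le_left (by linarith) h3
        _ = _ := by ring
    rw [mul_comm]
    exact mul_le_mul_of_nonneg_left h1 (by positivity)
  -- the sum over the blocks
  have hS : ∀ q ∈ Q, ∀ l ∈ T3 lam₀ g j3, ∑ l₁ ∈ H1k lam₀ ka p g l j1,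
      ‖Sh v (Xq q) (pt s) (bg (b q) g l) (g * l₁)‖ ^ 2 ≤
      Ci * (1 + C0) ^ 2 * Z ^ ε * ∑ d ∈ S lam₀, ∑ e ∈ pdiv d, ∑ f ∈ S lam₀,
        if IsCoprime (d * f) l ∧ IsCoprime (d * f) ka then
          Tms A (a + 4) (a + 3) U N X j1 j3 s (b q) g l d e f else 0 := by
    intro q hq l hl'
    obtain ⟨h5, h6, h7⟩ := Finset.mem_filter.mp hl'
    have h5' := (mem_S hlam0).1 h5
    exact hinner v hv C0 hk s hs hsU Z N X (Xq q) lam₀ hZ hN hNZ hX hXZ (hXq q hq).1 (hXq q hq).2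
      hlam1 hlamZ hlamN (b q) (hb q hq) (hwb q hq) ka p g l hg h5'.2.1 h6 j1 j3 h7
  refine (Finset.sum_le_sum fun q hq => Finset.sum_le_sum fun l hl' => hS q hq l hl').trans ?_
  simp_rw [← Finset.mul_sum]
  rw [swap5s Q (T3 lam₀ g j3) (S lam₀) (S lam₀) (fun d => pdiv d)]
  have h3 : ∑ d ∈ S lam₀, ∑ e ∈ pdiv d, ∑ f ∈ S lam₀, ∑ q ∈ Q, ∑ l ∈ T3 lam₀ g j3,
      (if IsCoprime (d * f) l ∧ IsCoprime (d * f) ka then
        Tms A (a + 4) (a + 3) U N X j1 j3 s (b q) g l d e f else 0) ≤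
      ∑ d ∈ S lam₀, ∑ e ∈ pdiv d, ∑ f ∈ S lam₀, Cf * Z ^ (4 * ε) *
        (1 / nm g * (X * nfo lam₀ (Il N lam₀ X) * W1)) * (1 / nm d * (1 / nm f)) :=
    Finset.sum_le_sum fun d hd => Finset.sum_le_sum fun e he => Finset.sum_le_sum fun f hf =>
      hfam Z N X lam₀ hZ hN hNZ hX hXZ hlam1 hlamZ Q b hb W hW B0 ka hVI hB0 W1 hW1 s hs hsU g hg
        hgk j1 j3 hl hprod d hd e he f hf
  have h4 := hharm lam₀ Z hlam1 hlamZ
  have h5 : 0 ≤ Cf * Z ^ (4 * ε) * (1 / nm g * (X * nfo lam₀ (Il N lam₀ X) * W1)) :=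
    mul_nonneg (by positivity) (mul_nonneg (by positivity) hT0)
  have h6 : ∑ d ∈ S lam₀, ∑ e ∈ pdiv d, ∑ f ∈ S lam₀, Cf * Z ^ (4 * ε) *
        (1 / nm g * (X * nfo lam₀ (Il N lam₀ X) * W1)) * (1 / (nm d : ℝ) * (1 / nm f)) =
      Cf * Z ^ (4 * ε) * (1 / nm g * (X * nfo lam₀ (Il N lam₀ X) * W1)) *
        ∑ d ∈ S lam₀, ∑ e ∈ pdiv d, ∑ f ∈ S lam₀, (1 / (nm d : ℝ) * (1 / nm f)) := by
    simp_rw [← Finset.mul_sum]
  rw [h6] at h3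
  have h7 := h3.trans (mul_le_mul_of_nonneg_left h4 h5)
  refine (mul_le_mul_of_nonneg_left h7 (by positivity)).trans (le_of_eq ?_)
  have e8 : Z ^ (8 * ε) = Z ^ ε * Z ^ (4 * ε) * Z ^ (3 * ε) := by
    rw [← Real.rpow_add hZ0, ← Real.rpow_add hZ0]
    congr 1
    ring
  rw [e8]
  ring

end Crest.Agent.R017.PoH347
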