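import Crest.Agent.R017.PoH4_347

/-!
# Row 17, block C70, leaf E3 (HB form of the MODE lemma), part 5 (helper347)

`RG` : regularised mean squares; `poh_reg` : the second Poisson summation with `RG`.
-/

set_option autoImplicit false

noncomputable section

open Complex MeasureTheory
open scoped ComplexConjugate Classical

namespace Crest.Agent.R017.PoH347

open Crest.Agent.R012 Crest.Agent.R012.Eis Crest.Agent.R012.MC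
open Crest.Agent.R012.LS2 (S mem_S bl mem_bl)
open Crest.Agent.R012.Mob705 (mu pdiv mem_pdiv)
open Crest.Agent.R017.CM106 (CS TG norm_Gsy_le)
open Crest.Agent.R017.E1551 (nmpos jb jb_pos jb_neg continuous_jb integrable_jb integrable_jb_mul
  nm_ge_one)
open Crest.Agent.R017.BD829

/-- the mean square over the block `Z` -/
def EB (A : ℝ) (u : Eis → ℂ) (F : Eis) (Z : ℝ) : ℝ := ∑ k ∈ bl Z, EQ A u (k * F)

/-- the regularised mean square -/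
def RG (A : ℝ) (a : ℕ) (u : Eis → ℂ) (F : Eis) (Z : ℝ) : ℝ :=
  ∑' j : ℕ, (((2 : ℝ) ^ a)⁻¹) ^ j * EB A u F (2 ^ j * Z)

lemma EB_nonneg (A : ℝ) (u : Eis → ℂ) (F : Eis) (Z : ℝ) : 0 ≤ EB A u F Z :=
  Finset.sum_nonneg fun _ _ => EQ_nonneg _ _ _

lemma bl_mono {Z Z' : ℝ} (hZ : 0 ≤ Z) (h : Z ≤ Z') : bl Z ⊆ bl Z' := by
  intro k hk
  rw [mem_bl hZ] at hk
  rw [mem_bl (hZ.trans h)]
  exact ⟨hk.1, hk.2.trans h⟩

lemma EB_mono (A : ℝ) (u : Eis → ℂ) (F : Eis) {Z Z' : ℝ} (hZ : 0 ≤ Z) (h : Z ≤ Z') :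
    EB A u F Z ≤ EB A u F Z' :=
  Finset.sum_le_sum_of_subset_of_nonneg (bl_mono hZ h) fun _ _ _ => EQ_nonneg _ _ _

lemma EB_growth {A : ℝ} (hA : 1 < A) {N : ℝ} (hN : 1 ≤ N) {u : Eis → ℂ}
    (hu : ∀ n, u n ≠ 0 → n ∈ S N) (F : Eis) {Z : ℝ} (hZ : 1 ≤ Z) :
    ∃ C : ℝ, 0 ≤ C ∧ ∀ j : ℕ, EB A u F (2 ^ j * Z) ≤ C * 4 ^ j := by
  obtain ⟨C, hC, h⟩ := EQ_ls hA (ε := 1) one_pos
  have hZ0 : 0 ≤ Z := by linarith
  have hN0 : 0 ≤ N := by linarith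
  have h0 := nrm_nonneg hN0 hZ0
  refine ⟨C * (Z * N) * nrm N Z * ∑ m ∈ S N, ‖u m‖ ^ 2, by positivity, fun j => ?_⟩
  have h2 : (1 : ℝ) ≤ 2 ^ j := one_le_pow₀ (by norm_num)
  have h1 := h N (2 ^ j * Z) hN (by nlinarith) u hu F
  rw [Real.rpow_one] at h1
  refine h1.trans ?_
  have h3 : nrm N (2 ^ j * Z) ≤ 2 ^ j * nrm N Z := nrm_smul hN0 hZ0 h2
  have h4 : (0 : ℝ) ≤ ∑ m ∈ S N, ‖u m‖ ^ 2 := Finset.sum_nonneg fun _ _ => by positivity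
  have e4 : (4 : ℝ) ^ j = 2 ^ j * 2 ^ j := by rw [← mul_pow]; norm_num
  calc C * (2 ^ j * Z * N) * nrm N (2 ^ j * Z) * ∑ m ∈ S N, ‖u m‖ ^ 2
      ≤ C * (2 ^ j * Z * N) * (2 ^ j * nrm N Z) * ∑ m ∈ S N, ‖u m‖ ^ 2 := by gcongr
    _ = _ := by rw [e4]; ring

lemma RG_summable {A : ℝ} (hA : 1 < A) {a : ℕ} (ha : 3 ≤ a) {N : ℝ} (hN : 1 ≤ N) {u : Eis → ℂ}
    (hu : ∀ n, u n ≠ 0 → n ∈ S N) (F : Eis) {Z : ℝ} (hZ : 1 ≤ Z) :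
    Summable fun j : ℕ => (((2 : ℝ) ^ a)⁻¹) ^ j * EB A u F (2 ^ j * Z) := by
  obtain ⟨C, hC, h⟩ := EB_growth hA hN hu F hZ
  have h1 : Summable fun j : ℕ => C * ((1 : ℝ) / 2) ^ j :=
    (summable_geometric_of_lt_one (by norm_num) (by norm_num)).mul_left C
  refine Summable.of_nonneg_of_le (fun j => mul_nonneg (by positivity) (EB_nonneg _ _ _ _))
    (fun j => ?_) h1
  have h8 : ((2 : ℝ) ^ a)⁻¹ ≤ 1 / 8 := by
    rw [inv_le_comm₀ (by positivity) (by norm_num)]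
    calc ((1 : ℝ) / 8)⁻¹ = 2 ^ 3 := by norm_num
      _ ≤ 2 ^ a := pow_le_pow_right₀ (by norm_num) ha
  calc (((2 : ℝ) ^ a)⁻¹) ^ j * EB A u F (2 ^ j * Z) ≤ (1 / 8) ^ j * (C * 4 ^ j) := by
        refine mul_le_mul (pow_le_pow_left₀ (by positivity) h8 j) (h j) (EB_nonneg _ _ _ _)
          (by positivity)
    _ = C * ((1 / 8) * 4) ^ j := by rw [mul_pow]; ring
    _ = C * (1 / 2) ^ j := by norm_num

lemma RG_ge {A : ℝ} (hA : 1 < A) {a : ℕ} (ha : 3 ≤ a) {N : ℝ} (hN : 1 ≤ N) {u : Eis → ℂ}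
    (hu : ∀ n, u n ≠ 0 → n ∈ S N) (F : Eis) {Z : ℝ} (hZ : 1 ≤ Z) :
    EB A u F Z ≤ RG A a u F Z := by
  have h1 := (RG_summable hA ha hN hu F hZ).le_tsum 0
    (fun j _ => mul_nonneg (by positivity) (EB_nonneg _ _ _ _))
  rw [pow_zero, one_mul, pow_zero, one_mul] at h1
  exact h1

lemma RG_dbl {A : ℝ} (hA : 1 < A) {a : ℕ} (ha : 3 ≤ a) {N : ℝ} (hN : 1 ≤ N) {u : Eis → ℂ}
    (hu : ∀ n, u n ≠ 0 → n ∈ S N) (F : Eis) {Z : ℝ} (hZ : 1 ≤ Z) :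
    RG A a u F (2 * Z) ≤ 2 ^ a * RG A a u F Z := by
  have hs := RG_summable hA ha hN hu F hZ
  have h1 : RG A a u F (2 * Z) = ∑' j : ℕ, 2 ^ a *
      ((((2 : ℝ) ^ a)⁻¹) ^ (j + 1) * EB A u F (2 ^ (j + 1) * Z)) := by
    unfold RG
    refine tsum_congr fun j => ?_
    rw [show (2 : ℝ) ^ j * (2 * Z) = 2 ^ (j + 1) * Z by ring, pow_succ (((2 : ℝ) ^ a)⁻¹)]
    have h2 : (2 : ℝ) ^ a * ((2 : ℝ) ^ a)⁻¹ = 1 := mul_inv_cancel₀ (by positivity)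
    calc (((2 : ℝ) ^ a)⁻¹) ^ j * EB A u F (2 ^ (j + 1) * Z)
        = ((2 : ℝ) ^ a * ((2 : ℝ) ^ a)⁻¹) * ((((2 : ℝ) ^ a)⁻¹) ^ j * EB A u F (2 ^ (j + 1) * Z)) := by
          rw [h2, one_mul]
      _ = _ := by ring
  rw [h1, tsum_mul_left]
  refine mul_le_mul_of_nonneg_left ?_ (by positivity)
  have h3 := hs.tsum_eq_zero_add
  unfold RG
  rw [h3]
  have h4 : 0 ≤ (((2 : ℝ) ^ a)⁻¹) ^ 0 * EB A u F (2 ^ 0 * Z) :=
    mul_nonneg (by positivity) (EB_nonneg _ _ _ _)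
  linarith

lemma RG_nonneg (A : ℝ) (a : ℕ) (u : Eis → ℂ) (F : Eis) (Z : ℝ) : 0 ≤ RG A a u F Z :=
  tsum_nonneg fun _ => mul_nonneg (by positivity) (EB_nonneg _ _ _ _)

/-- **the second Poisson summation with the large sieve**, regularised mean squares. -/
theorem poh_reg {R : ℝ} (hR : 0 ≤ R) {A B a : ℕ} (hA : 1 < A)
    (hB : a + 1 ≤ B) (ha : 3 ≤ a) {ε : ℝ} (hε : 0 < ε) :
    ∃ C : ℝ, 0 < C ∧ ∀ (w : ℝ → ℝ), Wgt w → ∀ C0 : ℝ, KT w R A B C0 →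
      ∀ (M : Eis) (ψ : Eis → ℂ), LC M ψ → ∀ P X Y N L : ℝ, 1 ≤ P → (nm M : ℝ) ≤ P →
      1 ≤ Y → Y ≤ P → 0 < X → 1 ≤ X * P → 0 < N → N ≤ P → 0 < L → L ≤ P →
      ∀ b : Eis → ℂ, (∀ n, b n ≠ 0 → n ∈ S Y) → Win b (Real.log N) R →
      ∀ Hs : Finset Eis, Hs ⊆ S Y → (∀ h ∈ Hs, |Real.log (nm h) - Real.log L| ≤ R / 2) →
      (∀ h ∈ Hs, b h = 0) →
      ∑ h ∈ Hs, ‖Sh w X ψ b h‖ ^ 2 ≤ C * (1 + C0) ^ 2 * P ^ ε * (X ^ 2 / (N * L)) *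
        ∑ d ∈ Dh Y Hs, ∑ e ∈ pdiv d, ∑ f ∈ Fh Y Hs d,
          (nm d / nm e : ℝ) ^ 2 * nrm (L / (nm d * nm f)) (max 1 (lmB M X N L d e)) *
            ((min 1 (lmB M X N L d e)) ^ B *
              RG A a (rs b ψ d f) ((e * (M * sq3)) ^ 2 * f) (max 1 (lmB M X N L d e))) := by
  have hA' : (1 : ℝ) < (A : ℝ) := by exact_mod_cast hA
  obtain ⟨C, hC, h⟩ := poh_r hR hA hB (by omega) hε
  refine ⟨C, hC, fun w hw C0 hk M ψ hψ P X Y N L hP hMP hY hYP hX hXP hN hNP hL hLP b hb hwb Hs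
    hHs hHw hHb => ?_⟩
  have hY0 : 0 ≤ Y := by linarith
  have hsup : ∀ d ∈ Dh Y Hs, ∀ f ∈ Fh Y Hs d, ∀ n, rs b ψ d f n ≠ 0 → n ∈ S Y := by
    intro d hd f hf
    have hd' := (mem_S hY0).1 (Finset.mem_filter.mp hd).1
    have hf' := (mem_S hY0).1 (Finset.mem_filter.mp hf).1
    exact rs_supp hY0 hb ψ hd'.2.1 hf'.2.1
  refine h w hw C0 hk M ψ hψ P X Y N L hP hMP hY hYP hX hXP hN hNP hL hLP b hb hwb Hs
    hHs hHw hHb (fun d e f Z => RG A a (rs b ψ d f) ((e * (M * sq3)) ^ 2 * f) Z)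
    (fun d hd e _ f hf Z hZ => ?_) (fun d hd e _ f hf Z hZ => ?_)
  · have h1 := RG_ge hA' ha hY (hsup d hd f hf) ((e * (M * sq3)) ^ 2 * f) hZ
    refine le_trans (le_of_eq ?_) h1
    unfold EB
    refine Finset.sum_congr rfl fun k _ => ?_
    unfold Hf
    rw [mul_assoc k]
  · exact RG_dbl hA' ha hY (hsup d hd f hf) _ hZ

end Crest.Agent.R017.PoH347
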