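import Crest.Agent.R017.PoH16_347
import Crest.Agent.R017.PoHr_681

/-!
# Row 17, block C70, leaf E4, x-side: the structured bound with a Hecke character, part 1 (helper347)

`pth χ l₀ s` : the twist `χ · conj (s/·) · ang l₀`;  `EQ_bgh`, `sum_EB_bgh` : mean squares;
`HWh` : the hypothesis on the c-side moments of `b · ψ`;  `XS_splith` : the splitting.
-/

set_option autoImplicit false

noncomputable section

open Complex MeasureTheory
open scoped ComplexConjugate Classical ContDiff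

namespace Crest.Agent.R017.PoH347

open Crest.Agent.R012 Crest.Agent.R012.Eis Crest.Agent.R012.MC
open Crest.Agent.R012.LS2 (S mem_S bl mem_bl)
open Crest.Agent.R012.Mob705 (mu pdiv mem_pdiv)
open Crest.Agent.R012.Weight600 (osc pw norm_osc)
open Crest.Agent.R012.NonCube52 (Ker kv Good)
open Crest.Agent.R017.CM106 (CS TG norm_Gsy_le)
open Crest.Agent.R017.E1551 (nmpos jb jb_pos jb_neg continuous_jb integrable_jb integrable_jb_mul
  nm_ge_one CS_fin summable_wF)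
open Crest.Agent.R017.BD829
open Crest.Agent.R017.End699 (HC)
open Crest.Agent.R017.FE47 (PS XK gt rad)
open Crest.Agent.R017.BDh681 (ShH KTc)
open Crest.Agent.R017.Mode405 (Slp Il VI XS)
open Gauss880 (syG)

/-- the character `χ · conj (s/·)` -/
def chs (χ : Eis → ℂ) (s x : Eis) : ℂ := χ x * conj (sy s x)

lemma HC_chs {M : Eis} {χ : Eis → ℂ} (h : HC M χ) {s : Eis} (hs : s ≠ 0) :
    HC (M * (9 * s)) (chs χ s) := h.mul (End699.hc_sy hs).conj

/-- the full twist -/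
def pth (χ : Eis → ℂ) (l₀ : ℤ) (s m : Eis) : ℂ := BDh681.ps (chs χ s) l₀ m

lemma norm_ps_le' {M : Eis} {χ : Eis → ℂ} (h : HC M χ) (l₀ : ℤ) {x : Eis} (hx : IsPrim x) :
    ‖BDh681.ps χ l₀ x‖ ≤ 1 := by
  unfold BDh681.ps
  rw [norm_mul]
  refine mul_le_one₀ ?_ (norm_nonneg _) (BDh681.norm_ang_le l₀ x)
  rcases h.char.norm x hx with h1 | h1
  · rw [h1]; simp
  · exact h1.le

lemma norm_pth_le {M : Eis} {χ : Eis → ℂ} (h : HC M χ) (l₀ : ℤ) {s : Eis} (hs : s ≠ 0) {x : Eis}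
    (hx : IsPrim x) : ‖pth χ l₀ s x‖ ≤ 1 := norm_ps_le' (HC_chs h hs) l₀ hx

lemma ps_mul' {M : Eis} {χ : Eis → ℂ} (h : HC M χ) (l₀ : ℤ) {a b : Eis} (ha : IsPrim a)
    (hb : IsPrim b) : BDh681.ps χ l₀ (a * b) = BDh681.ps χ l₀ a * BDh681.ps χ l₀ b := by
  unfold BDh681.ps
  rw [h.char.mul a b ha hb, P355.ang_mul]
  ring

lemma norm_ps_eq {M : Eis} {χ : Eis → ℂ} (h : HC M χ) (l₀ : ℤ) {x : Eis} (hx : IsPrim x)
    (hc : IsCoprime x M) : ‖BDh681.ps χ l₀ x‖ = 1 := by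
  unfold BDh681.ps
  rw [norm_mul, h.norm_eq_one hx hc, one_mul]
  unfold ang
  rw [norm_zpow, FE47.norm_toC_div x hx.ne_zero, one_zpow]

lemma pth_eq (χ : Eis → ℂ) (l₀ : ℤ) (s x : Eis) :
    pth χ l₀ s x = BDh681.ps χ l₀ x * conj (sy s x) := by
  unfold pth BDh681.ps chs
  ring

lemma pth_mul {M : Eis} {χ : Eis → ℂ} (h : HC M χ) (l₀ : ℤ) (s : Eis) {a b : Eis}
    (ha : IsPrim a) (hb : IsPrim b) : pth χ l₀ s (a * b) = pth χ l₀ s a * pth χ l₀ s b := by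
  rw [pth_eq, pth_eq, pth_eq, ps_mul' h l₀ ha hb, syG.mul_right _ _ _ ha hb, map_mul]
  ring

/-- the twisted Gauss side of a dilated sequence -/
lemma TT_bgh {M : Eis} {χ : Eis → ℂ} (hχ : HC M χ) (l₀ : ℤ) {Y : ℝ} (hY : 0 ≤ Y) {b : Eis → ℂ}
    (hb : ∀ n, b n ≠ 0 → n ∈ S Y) {g l D : Eis}
    (hg : IsPrim g) (hl : IsPrim l) (hD : IsPrim D) (hDl : IsCoprime D l) (s H : Eis)
    (t : ℝ) :
    TT (fun m => bg b g l (D * m) * pth χ l₀ s m) H t =
      (if IsCoprime D (g * l) then pth χ l₀ s l * pw t (nm l) * (G l * conj (sy H l)) else 0) *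
        TT (fun n => b (g * D * n) * BDh681.ps χ l₀ n) (s * l * H) t := by
  have nl := nmpos hl.ne_zero
  by_cases hc : IsCoprime D (g * l)
  swap
  · rw [if_neg hc, zero_mul]
    unfold TT TG
    refine (tsum_congr fun m => ?_).trans tsum_zero
    have h0 : bg b g l (D * m) = 0 := by
      by_contra h
      obtain ⟨n, hn, hcn, -⟩ := exists_of_bg hl.ne_zero h
      apply hc
      have h1 : D ∣ l * n := ⟨m, hn.symm⟩
      have h2 : D ∣ n := hDl.dvd_of_dvd_mul_left h1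
      exact hcn.of_isCoprime_of_dvd_left h2
    beta_reduce
    rw [h0]; ring
  rw [if_pos hc]
  unfold TT TG
  have hinj : Function.Injective (fun n : Eis => l * n) := mul_right_injective₀ hl.ne_zero
  have hsup : Function.support (fun m : Eis => bg b g l (D * m) * pth χ l₀ s m * pw t (nm m) *
      (G m * conj (sy H m))) ⊆ Set.range (fun n : Eis => l * n) := by
    intro m hm
    rw [Function.mem_support] at hm
    have h1 : bg b g l (D * m) ≠ 0 := by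
      intro h0; apply hm; rw [h0]; ring
    obtain ⟨n, hn, -, -⟩ := exists_of_bg hl.ne_zero h1
    have h2 : l ∣ D * m := ⟨n, hn⟩
    obtain ⟨k, hk⟩ := hDl.symm.dvd_of_dvd_mul_left h2
    exact ⟨k, hk.symm⟩
  rw [← hinj.tsum_eq hsup, ← tsum_mul_left]
  refine tsum_congr fun n => ?_
  beta_reduce
  have e0 : D * (l * n) = l * (D * n) := by ring
  rw [e0, bg_mul hl.ne_zero]
  have e1 : g * (D * n) = g * D * n := by ring
  rw [e1]
  by_cases hb0 : b (g * D * n) = 0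
  · rw [hb0]; simp
  have hn1 := (mem_S hY).1 (hb _ hb0)
  have hgD : IsPrim (g * D) := hg.mul hD
  have hnp : IsPrim n := hn1.2.1.of_mul_left hgD
  have hng : IsCoprime (g * D) n := cop_of_sqf hn1.2.2
  have eG : G (l * n) = G l * G n * conj (sy l n) := Gauss880.G_mul_all syG hl hnp
  by_cases hln : IsCoprime l n
  · have hc2 : IsCoprime (D * n) (g * l) := by
      refine hc.mul_left ?_
      exact (hng.of_mul_left_left.symm).mul_right hln.symm
    rw [if_pos hc2, eG]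
    have e2 : pth χ l₀ s (l * n) = pth χ l₀ s l * (BDh681.ps χ l₀ n * conj (sy s n)) := by
      rw [pth_mul hχ l₀ s hl hnp, pth_eq χ l₀ s n]
    have e3 : pw t (nm (l * n)) = pw t (nm l) * pw t (nm n) := by
      rw [nm_mul]; push_cast
      exact pw_mul nl (nmpos hnp.ne_zero) t
    have e4 : sy H (l * n) = sy H l * sy H n := syG.mul_right _ _ _ hl hnp
    have e5 : sy (s * l * H) n = sy s n * sy l n * sy H n := by
      rw [syG.mul_left _ _ _ hnp, syG.mul_left _ _ _ hnp]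
    rw [e2, e3, e4, e5]
    simp only [map_mul]
    ring
  · have h0 : sy l n = 0 := (syG.eq_zero l n hnp).mpr hln
    have hc2 : ¬ IsCoprime (D * n) (g * l) := by
      intro h
      exact hln (h.of_mul_left_right.of_mul_right_right).symm
    rw [if_neg hc2]
    have e5 : sy (s * l * H) n = 0 := by
      rw [syG.mul_left _ _ _ hnp, syG.mul_left _ _ _ hnp, h0]; ring
    rw [e5]
    simp

/-- the support of a dilated twisted sequence -/
lemma dil_supp (χ : Eis → ℂ) (l₀ : ℤ) {Y : ℝ} (hY : 0 ≤ Y) {b : Eis → ℂ}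
    (hb : ∀ n, b n ≠ 0 → n ∈ S Y) {γ : Eis} (hγ : IsPrim γ) :
    ∀ n, b (γ * n) * BDh681.ps χ l₀ n ≠ 0 → n ∈ S Y := by
  intro n hn
  have h1 := (mem_S hY).1 (hb _ (left_ne_zero_of_mul hn))
  rw [mem_S hY]
  refine ⟨?_, h1.2.1.of_mul_left hγ, h1.2.2.of_mul_right⟩
  refine le_trans ?_ h1.1
  rw [nm_mul]
  push_cast
  exact le_mul_of_one_le_left (Nat.cast_nonneg _) (nm_ge_one hγ.ne_zero)

/-- **the mean square of a dilated sequence** -/
theorem EQ_bgh {M : Eis} {χ : Eis → ℂ} (hχ : HC M χ) (l₀ : ℤ) {A : ℝ} (hA : 1 < A) {Y : ℝ}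
    (hY : 0 ≤ Y) {b : Eis → ℂ} (hb : ∀ n, b n ≠ 0 → n ∈ S Y) {g l D : Eis} (hg : IsPrim g)
    (hl : IsPrim l) (hD : IsPrim D) (hDl : IsCoprime D l) {s : Eis} (hs : s ≠ 0) (H : Eis) :
    EQ A (fun m => bg b g l (D * m) * pth χ l₀ s m) H ≤
      EQ A (fun n => b (g * D * n) * BDh681.ps χ l₀ n) (s * l * H) := by
  have hgD : IsPrim (g * D) := hg.mul hD
  have hsup := dil_supp χ l₀ hY hb hgD
  unfold EQ
  refine integral_mono_of_nonneg (Filter.Eventually.of_forall fun t =>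
    mul_nonneg (jb_pos A t).le (by positivity)) (integrable_EQ hA hY hsup _)
    (Filter.Eventually.of_forall fun t => ?_)
  beta_reduce
  refine mul_le_mul_of_nonneg_left ?_ (jb_pos A t).le
  refine pow_le_pow_left₀ (norm_nonneg _) ?_ 2
  rw [TT_bgh hχ l₀ hY hb hg hl hD hDl, norm_mul]
  refine mul_le_of_le_one_left (norm_nonneg _) ?_
  split_ifs
  · rw [norm_mul, norm_mul, norm_pw, mul_one]
    exact mul_le_one₀ (norm_pth_le hχ l₀ hs hl) (norm_nonneg _) (norm_Gsy_le hl)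
  · simp

/-- the c-side functional of a twisted sequence -/
def VIt (A : ℝ) (b ψ : Eis → ℂ) (γ φ : Eis) (P : ℝ) : ℝ :=
  ∑ k ∈ bl P, EQ A (fun m => b (γ * m) * ψ m) (k * φ)

/-- **the merged mean squares** -/
theorem sum_EB_bgh {M : Eis} {χ : Eis → ℂ} (hχ : HC M χ) (l₀ : ℤ) {A : ℝ} (hA : 1 < A) {Y : ℝ}
    (hY : 0 ≤ Y) {b : Eis → ℂ}
    (hb : ∀ n, b n ≠ 0 → n ∈ S Y) {g d f : Eis} (hg : IsPrim g) (hd : IsPrim d) (hf : IsPrim f)
    {s : Eis} (hs : s ≠ 0) {F0 : Eis} {Z L τ : ℝ} (hZ : 0 ≤ Z) (hL : 0 ≤ L)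
    {T : Finset Eis} (hT : ∀ l ∈ T, IsPrim l ∧ (nm l : ℝ) ≤ L ∧ IsCoprime (d * f) l)
    (ht : ∀ x ∈ bl (Z * L), (Div277.tau x : ℝ) ≤ τ) :
    ∑ l ∈ T, EB A (rs (bg b g l) (pth χ l₀ s) d f) (F0 * f) Z ≤
      τ * VIt A b (BDh681.ps χ l₀) (g * d * f) (s * F0 * f) (Z * L) := by
  set F : Eis → ℝ := fun y =>
    EQ A (fun n => b (g * (d * f) * n) * BDh681.ps χ l₀ n) (y * (s * F0 * f)) with hFd
  have hF : ∀ x, 0 ≤ F x := fun x => EQ_nonneg _ _ _
  have h1 : ∀ l ∈ T, EB A (rs (bg b g l) (pth χ l₀ s) d f) (F0 * f) Z ≤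
      ∑ k ∈ bl Z, F (k * l) := by
    intro l hl
    obtain ⟨hl1, -, hl3⟩ := hT l hl
    unfold EB
    refine Finset.sum_le_sum fun k _ => ?_
    have h2 := EQ_bgh hχ l₀ hA hY hb hg hl1 (hd.mul hf) hl3 hs (k * (F0 * f))
    unfold rs
    refine h2.trans (le_of_eq ?_)
    rw [hFd]
    beta_reduce
    congr 1
    ring
  refine (Finset.sum_le_sum h1).trans ?_
  refine (merge hF hZ hL (fun l hl => ⟨(hT l hl).1, (hT l hl).2.1⟩) ht).trans (le_of_eq ?_)
  unfold VIt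
  congr 1
  refine Finset.sum_congr rfl fun k _ => ?_
  rw [hFd]
  beta_reduce
  congr 1
  funext n
  rw [mul_assoc g d f]

/-- **the hypothesis on the c-side moments of `b ψ`** -/
def HWh (A B0 : ℝ) {ι : Type} (Q : Finset ι) (b : ι → Eis → ℂ) (ψ : Eis → ℂ) (ka : Eis)
    (W : ℝ → ℝ) : Prop :=
  ∀ γ φ x D : Eis, IsPrim γ → IsCoprime γ ka → φ ≠ 0 → x ≠ 0 → D ≠ 0 → (nm D : ℝ) ≤ B0 →
    φ * γ ^ 2 = x * D ^ 3 →
    ∀ P : ℝ, 1 ≤ P → (nm γ : ℝ) * ∑ q ∈ Q, VIt A (b q) ψ γ φ P ≤ W (P * nm x)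

lemma TT_smul (c : ℂ) (u : Eis → ℂ) (H : Eis) (t : ℝ) :
    TT (fun m => c * u m) H t = c * TT u H t := by
  unfold TT TG
  rw [← tsum_mul_left]
  exact tsum_congr fun m => by ring

lemma EQ_smul (A : ℝ) {c : ℂ} (hc : ‖c‖ = 1) (u : Eis → ℂ) (H : Eis) :
    EQ A (fun m => c * u m) H = EQ A u H := by
  unfold EQ
  simp_rw [TT_smul, norm_mul, hc, one_mul]

lemma TT_eq_zero {u : Eis → ℂ} (hu : ∀ n, u n = 0) (H : Eis) (t : ℝ) : TT u H t = 0 := by
  unfold TT TG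
  simp [hu]

/-- the hypothesis of `b ψ`, as a condition on the family `b ψ` -/
lemma HWh_of {M : Eis} {χ : Eis → ℂ} (hχ : HC M χ) (l₀ : ℤ) {A B0 : ℝ} {ι : Type} {Q : Finset ι}
    {b : ι → Eis → ℂ} (hb : ∀ q ∈ Q, ∀ n, b q n ≠ 0 → IsPrim n) {ka : Eis} {W : ℝ → ℝ}
    (hM : M ∣ ka) (h : HW A B0 Q (fun q m => b q m * BDh681.ps χ l₀ m) ka W) :
    HWh A B0 Q b (BDh681.ps χ l₀) ka W := by
  intro γ φ x D hγ hγk hφ hx hD hDB he P hP
  refine le_trans (le_of_eq ?_) (h γ φ x D hγ hγk hφ hx hD hDB he P hP)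
  congr 1
  refine Finset.sum_congr rfl fun q hq => ?_
  unfold VIt VI
  refine Finset.sum_congr rfl fun k _ => ?_
  rw [← EQ_smul A (norm_ps_eq hχ l₀ hγ (hγk.of_isCoprime_of_dvd_right hM))
    (fun m => b q (γ * m) * BDh681.ps χ l₀ m)]
  congr 1
  funext m
  rw [if_pos isCoprime_one_right]
  beta_reduce
  by_cases h0 : b q (γ * m) = 0
  · rw [h0]; ring
  · have hm : IsPrim m := (hb q hq _ h0).of_mul_left hγ
    rw [ps_mul' hχ l₀ hγ hm]
    ring

/-- the weight in the logarithmic variable -/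
def lw (w₀ : ℝ → ℝ) (v : ℝ) : ℂ := ((w₀ (Real.exp v) : ℝ) : ℂ)

lemma ShH_eq_tsum (w₀ : ℝ → ℝ) (χ : Eis → ℂ) (l₀ : ℤ) {X : ℝ} (hX : 0 < X) (t : ℝ)
    (b : Eis → ℂ) (h : Eis) :
    ShH (lw w₀) χ l₀ (Real.log X) t b h = ∑' x : Eis, (if IsPrim x then BDh681.ps χ l₀ x *
      (CS b x * conj (sy x h)) * pw t (nm x) else 0) * ((w₀ (nm x / X) : ℝ) : ℂ) := by
  unfold ShH PS
  refine tsum_congr fun x => ?_
  unfold End699.ext XK lw BDh681.ps pw
  by_cases hx : IsPrim x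
  · rw [if_pos hx, if_pos hx]
    have nx := nmpos hx.ne_zero
    rw [Real.exp_sub, Real.exp_log nx, Real.exp_log hX]
    ring
  · rw [if_neg hx, if_neg hx]
    ring

/-- **`XS` through `ShH`** -/
theorem XS_splith {M : Eis} {χ : Eis → ℂ} (_hχ : HC M χ) (l₀ : ℤ) {w₀ : ℝ → ℝ} (hw : Wgt w₀)
    {X : ℝ} (hX : 0 < X) (t : ℝ) {Y : ℝ} (hY : 0 ≤ Y)
    {b : Eis → ℂ} (hb : ∀ n, b n ≠ 0 → n ∈ S Y) {κ : Ker} (hκ : Good κ) :
    XS (BDh681.ps χ l₀) w₀ X t b κ = ∑ g ∈ pdiv κ.2.2,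
      ShH (lw w₀) (chs χ (su κ)) l₀ (Real.log X) t (bg b g (κ.2.2 / g)) (g * κ.2.1) := by
  simp_rw [ShH_eq_tsum w₀ _ l₀ hX t]
  rw [← Summable.tsum_finsetSum]
  · unfold XS
    refine tsum_congr fun x => ?_
    by_cases hx : IsPrim x
    · simp only [if_pos hx]
      rw [← Finset.sum_mul]
      congr 1
      rw [← Finset.sum_mul]
      congr 1
      have e2 : CS b x * conj (sy (kv κ) x) = ∑ g ∈ pdiv κ.2.2, ps κ x *
          (CS (bg b g (κ.2.2 / g)) x * conj (sy x (g * κ.2.1))) := by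
        rw [sy_kv hx]
        calc CS b x * (ps κ x * conj (sy κ.2.1 x) * sy κ.2.2 x)
            = ps κ x * conj (sy κ.2.1 x) * (CS b x * sy κ.2.2 x) := by ring
          _ = _ := by
            rw [CS_split hY hb hκ.prim2 hx, Finset.mul_sum]
            refine Finset.sum_congr rfl fun g hg => ?_
            have hg' := (mem_pdiv hκ.prim2.ne_zero).mp hg
            rw [syG.mul_right _ _ _ hg'.1 hκ.prim1, Sym645.sy_reciprocity hx hg'.1,
              Sym645.sy_reciprocity hx hκ.prim1, map_mul]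
            ring
      rw [e2, Finset.mul_sum]
      refine Finset.sum_congr rfl fun g _ => ?_
      unfold BDh681.ps chs ps
      ring
    · simp only [if_neg hx, zero_mul, Finset.sum_const_zero]
  · intro g _
    exact summable_wF hw hX _

end Crest.Agent.R017.PoH347
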