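import Crest.Agent.R017.BD6_829
import Crest.Agent.R012.NonCubeW_52
import Crest.Agent.R012.Glue1_372
import Crest.Agent.R012.LS2Main_381

/-!
# Row 17, block C70, leaf E3 (HB form of the MODE lemma), part 1 (helper347)

`nrm` : the norm of the complete large sieve; `EQ_ls` : Heath-Brown's large sieve for the mean square
of the twisted Gauss side over all nonzero frequencies; `sum_tau3` : divisor multiplicities.
-/

set_option autoImplicit false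

noncomputable section

open Complex MeasureTheory
open scoped ComplexConjugate Classical

namespace Crest.Agent.R017.PoH347

open Crest.Agent.R012 Crest.Agent.R012.Eis Crest.Agent.R012.MC
open Crest.Agent.R012.LS2 (S mem_S bl mem_bl)
open Crest.Agent.R012.Mob705 (mu pdiv mem_pdiv)
open Crest.Agent.R012.Tau671 (norm_sy_le)
open Crest.Agent.R012.Weight600 (pw)
open Crest.Agent.R017.PX764 (Gh)
open Crest.Agent.R017.CM106 (CS TG norm_Gsy_le)
open Crest.Agent.R017.E1551 (nmpos jb jb_pos jb_neg continuous_jb integrable_jb integrable_jb_mul)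
open Crest.Agent.R017.BD829
open Gauss880 (syG)

/-! ### the norm of the complete large sieve -/

/-- the norm of the complete large sieve -/
def nrm (N I : ℝ) : ℝ := I + N * I ^ (1 / 3 : ℝ) + (I * N) ^ (2 / 3 : ℝ)

lemma nrm_nonneg {N I : ℝ} (hN : 0 ≤ N) (hI : 0 ≤ I) : 0 ≤ nrm N I := by
  unfold nrm; positivity

lemma nrm_pos {N I : ℝ} (hN : 0 ≤ N) (hI : 0 < I) : 0 < nrm N I := by
  unfold nrm; positivity

lemma nrm_mono {N N' I I' : ℝ} (hN : 0 ≤ N) (hI : 0 ≤ I) (h : N ≤ N') (h' : I ≤ I') :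
    nrm N I ≤ nrm N' I' := by
  unfold nrm
  have hN' : 0 ≤ N' := hN.trans h
  have hI' : 0 ≤ I' := hI.trans h'
  gcongr

lemma nrm_smul {N I r : ℝ} (hN : 0 ≤ N) (hI : 0 ≤ I) (hr : 1 ≤ r) :
    nrm N (r * I) ≤ r * nrm N I := by
  have hr0 : 0 ≤ r := by linarith
  have h1 : r ^ (1 / 3 : ℝ) ≤ r := by
    conv_rhs => rw [← Real.rpow_one r]
    exact Real.rpow_le_rpow_of_exponent_le hr (by norm_num)
  have h2 : r ^ (2 / 3 : ℝ) ≤ r := by
    conv_rhs => rw [← Real.rpow_one r]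
    exact Real.rpow_le_rpow_of_exponent_le hr (by norm_num)
  unfold nrm
  rw [Real.mul_rpow hr0 hI, mul_assoc r I N, Real.mul_rpow hr0 (mul_nonneg hI hN)]
  have h3 : N * (r ^ (1 / 3 : ℝ) * I ^ (1 / 3 : ℝ)) ≤ r * (N * I ^ (1 / 3 : ℝ)) := by
    have : 0 ≤ N * I ^ (1 / 3 : ℝ) := by positivity
    nlinarith
  have h4 : r ^ (2 / 3 : ℝ) * (I * N) ^ (2 / 3 : ℝ) ≤ r * (I * N) ^ (2 / 3 : ℝ) := by
    have : 0 ≤ (I * N) ^ (2 / 3 : ℝ) := by positivity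
    nlinarith
  nlinarith

lemma nrm_smul_left {N I r : ℝ} (hN : 0 ≤ N) (hI : 0 ≤ I) (hr : 1 ≤ r) :
    nrm (r * N) I ≤ r * nrm N I := by
  have hr0 : 0 ≤ r := by linarith
  have h2 : r ^ (2 / 3 : ℝ) ≤ r := by
    conv_rhs => rw [← Real.rpow_one r]
    exact Real.rpow_le_rpow_of_exponent_le hr (by norm_num)
  unfold nrm
  rw [show I * (r * N) = r * (I * N) by ring, Real.mul_rpow hr0 (mul_nonneg hI hN)]
  have h4 : r ^ (2 / 3 : ℝ) * (I * N) ^ (2 / 3 : ℝ) ≤ r * (I * N) ^ (2 / 3 : ℝ) := by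
    have : 0 ≤ (I * N) ^ (2 / 3 : ℝ) := by positivity
    nlinarith
  nlinarith

/-! ### the large sieve -/

theorem TT_ls {ε : ℝ} (hε : 0 < ε) : ∃ C : ℝ, 0 < C ∧ ∀ N Z : ℝ, 1 ≤ N → 1 ≤ Z →
    ∀ v : Eis → ℂ, (∀ n, v n ≠ 0 → n ∈ S N) → ∀ (g : Eis) (t : ℝ),
      ∑ k ∈ bl Z, ‖TT v (k * g) t‖ ^ 2 ≤
        C * (Z * N) ^ ε * nrm N Z * ∑ m ∈ S N, ‖v m‖ ^ 2 := by
  obtain ⟨C, hC, h⟩ := NonCube52.all_bound Sym645.syFacts NonCube52.L1Prop_holds
    (Glue372.HBProp_of_final LS2.hb_final) hε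
  refine ⟨C, hC, fun N Z hN hZ v hv g t => ?_⟩
  have hN0 : 0 ≤ N := by linarith
  have hZ0 : 0 ≤ Z := by linarith
  set β : Eis → ℂ := fun m => conj (v m * G m * conj (sy g m) * pw t (nm m)) with hβ
  have h1 := h N Z hN hZ (S N) (fun b hb => by
    rw [mem_S hN0] at hb
    exact ⟨hb.2.1, hb.2.2, hb.1⟩) β (bl Z) (fun x hx => by
    rw [mem_bl hZ0] at hx
    exact hx)
  have e1 : ∀ k ∈ bl Z, ‖TT v (k * g) t‖ ^ 2 = ‖∑ b ∈ S N, β b * sy k b‖ ^ 2 := by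
    intro k hk
    rw [TT_fin hv, ← RCLike.norm_conj (∑ m ∈ S N, _)]
    congr 2
    rw [map_sum]
    refine Finset.sum_congr rfl fun m hm => ?_
    have hm' := (mem_S hN0).1 hm
    have e2 : sy (k * g) m = sy k m * sy g m := syG.mul_left _ _ _ hm'.2.1
    rw [hβ]
    unfold Gh
    simp only [map_mul, Complex.conj_conj]
    rw [e2]
    ring
  rw [Finset.sum_congr rfl e1]
  refine h1.trans ?_
  have hβ1 : ∑ b ∈ S N, ‖β b‖ ^ 2 ≤ ∑ m ∈ S N, ‖v m‖ ^ 2 := by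
    refine Finset.sum_le_sum fun m hm => ?_
    have hm' := (mem_S hN0).1 hm
    refine pow_le_pow_left₀ (norm_nonneg _) ?_ 2
    rw [hβ]
    beta_reduce
    have hpw : ‖pw t (nm m : ℝ)‖ = 1 := by
      unfold pw; exact Weight600.norm_osc _ _
    rw [RCLike.norm_conj, norm_mul, hpw, mul_one, mul_assoc, norm_mul]
    exact mul_le_of_le_one_right (norm_nonneg _) (norm_Gsy_le hm'.2.1)
  have e3 : C * (Z * N) ^ ε * (Z + N * Z ^ ((1 : ℝ) / 3) + (Z * N) ^ ((2 : ℝ) / 3)) =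
      C * (Z * N) ^ ε * nrm N Z := rfl
  rw [e3]
  refine mul_le_mul_of_nonneg_left hβ1 ?_
  have := nrm_nonneg hN0 hZ0
  positivity

/-- **Heath-Brown's large sieve for the mean squares**, complete family, any fixed twist `g` -/
theorem EQ_ls {A : ℝ} (hA : 1 < A) {ε : ℝ} (hε : 0 < ε) : ∃ C : ℝ, 0 < C ∧ ∀ N Z : ℝ, 1 ≤ N →
    1 ≤ Z → ∀ v : Eis → ℂ, (∀ n, v n ≠ 0 → n ∈ S N) → ∀ g : Eis,
      ∑ k ∈ bl Z, EQ A v (k * g) ≤ C * (Z * N) ^ ε * nrm N Z * ∑ m ∈ S N, ‖v m‖ ^ 2 := by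
  obtain ⟨C, hC, h⟩ := TT_ls hε
  have hJ : 0 ≤ ∫ t, jb A t := integral_nonneg fun t => (jb_pos A t).le
  refine ⟨C * ((∫ t, jb A t) + 1), by positivity, fun N Z hN hZ v hv g => ?_⟩
  have hN0 : 0 ≤ N := by linarith
  have hZ0 : 0 ≤ Z := by linarith
  unfold EQ
  rw [← integral_finsetSum _ fun k _ => integrable_EQ hA hN0 hv (k * g)]
  have h2 : (∫ t, ∑ k ∈ bl Z, jb A t * ‖TT v (k * g) t‖ ^ 2) ≤
      ∫ t, jb A t * (C * (Z * N) ^ ε * nrm N Z * ∑ m ∈ S N, ‖v m‖ ^ 2) := by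
    refine integral_mono (integrable_finsetSum _ fun k _ => integrable_EQ hA hN0 hv (k * g))
      ((integrable_jb hA).mul_const _) fun t => ?_
    beta_reduce
    rw [← Finset.mul_sum]
    exact mul_le_mul_of_nonneg_left (h N Z hN hZ v hv g t) (jb_pos A t).le
  refine h2.trans ?_
  rw [integral_mul_const]
  have h3 : 0 ≤ C * (Z * N) ^ ε * nrm N Z * ∑ m ∈ S N, ‖v m‖ ^ 2 := by
    have := nrm_nonneg hN0 hZ0
    have : 0 ≤ ∑ m ∈ S N, ‖v m‖ ^ 2 := Finset.sum_nonneg fun _ _ => by positivity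
    positivity
  calc (∫ t, jb A t) * (C * (Z * N) ^ ε * nrm N Z * ∑ m ∈ S N, ‖v m‖ ^ 2)
      ≤ ((∫ t, jb A t) + 1) * (C * (Z * N) ^ ε * nrm N Z * ∑ m ∈ S N, ‖v m‖ ^ 2) :=
        mul_le_mul_of_nonneg_right (by linarith) h3
    _ = _ := by ring

/-! ### divisor multiplicities -/

lemma tau_unif {ε : ℝ} (hε : 0 < ε) : ∃ C : ℝ, 1 ≤ C ∧ ∀ Y : ℝ, 1 ≤ Y → ∀ n ∈ S Y,
    (Div277.tau n : ℝ) ≤ C * Y ^ ε := by
  obtain ⟨C, hC1, hC⟩ := Div277.tau_le_rpow hε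
  refine ⟨C, hC1, fun Y hY n hn => ?_⟩
  have hn' := (mem_S (by linarith)).1 hn
  refine (hC n hn'.2.1.ne_zero).trans ?_
  exact mul_le_mul_of_nonneg_left (Real.rpow_le_rpow (Nat.cast_nonneg _) hn'.1 hε.le)
    (by linarith)

/-- the blocks `c (d f ·)`, `e ∣ d`, have bounded multiplicity -/
theorem sum_tau3 {ε : ℝ} (hε : 0 < ε) : ∃ C : ℝ, 1 ≤ C ∧ ∀ Y : ℝ, 1 ≤ Y → ∀ c : Eis → ℂ,
    (∀ n, c n ≠ 0 → n ∈ S Y) →
    ∑ d ∈ S Y, ∑ _e ∈ pdiv d, ∑ f ∈ S Y, ∑ n ∈ S Y, ‖c (d * f * n)‖ ^ 2 ≤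
      C * Y ^ ε * ∑ h ∈ S Y, ‖c h‖ ^ 2 := by
  obtain ⟨C, hC1, hC⟩ := tau_unif (ε := ε / 3) (by linarith)
  refine ⟨C ^ 3, one_le_pow₀ hC1, fun Y hY c hc => ?_⟩
  have hY0 : 0 ≤ Y := by linarith
  set T : ℝ := C * Y ^ (ε / 3) with hT
  have hT0 : 0 ≤ T := by positivity
  -- one block
  have h1 : ∀ d ∈ S Y, ∀ f ∈ S Y, ∑ n ∈ S Y, ‖c (d * f * n)‖ ^ 2 ≤
      ∑ h ∈ S Y, if d * f ∣ h then ‖c h‖ ^ 2 else 0 := by
    intro d hd f hf
    have hdp := ((mem_S hY0).1 hd).2.1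
    have hfp := ((mem_S hY0).1 hf).2.1
    have hdf : d * f ≠ 0 := mul_ne_zero hdp.ne_zero hfp.ne_zero
    rw [← Finset.sum_filter]
    have e1 : ∑ n ∈ S Y, ‖c (d * f * n)‖ ^ 2 =
        ∑ n ∈ (S Y).filter (fun n => c (d * f * n) ≠ 0), ‖c (d * f * n)‖ ^ 2 := by
      rw [Finset.sum_filter]
      refine Finset.sum_congr rfl fun n _ => ?_
      split_ifs with h
      · rfl
      · push Not at h
        rw [h]; simp
    rw [e1]
    have hinj : Set.InjOn (fun n => d * f * n)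
        ((S Y).filter (fun n => c (d * f * n) ≠ 0) : Set Eis) := by
      intro x _ y _ hxy
      exact mul_left_cancel₀ hdf hxy
    rw [← Finset.sum_image (f := fun h => ‖c h‖ ^ 2) hinj]
    refine Finset.sum_le_sum_of_subset_of_nonneg (fun h hh => ?_) (fun _ _ _ => by positivity)
    rw [Finset.mem_image] at hh
    obtain ⟨n, hn, rfl⟩ := hh
    rw [Finset.mem_filter] at hn ⊢
    exact ⟨hc _ hn.2, Dvd.intro _ rfl⟩
  have h2 : ∀ d ∈ S Y, ((pdiv d).card : ℝ) ≤ T := fun d hd => hC Y hY d hd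
  calc ∑ d ∈ S Y, ∑ _e ∈ pdiv d, ∑ f ∈ S Y, ∑ n ∈ S Y, ‖c (d * f * n)‖ ^ 2
      ≤ ∑ d ∈ S Y, T * ∑ f ∈ S Y, ∑ h ∈ S Y, (if d * f ∣ h then ‖c h‖ ^ 2 else 0) := by
        refine Finset.sum_le_sum fun d hd => ?_
        rw [Finset.sum_const, nsmul_eq_mul]
        have h3 : 0 ≤ ∑ f ∈ S Y, ∑ n ∈ S Y, ‖c (d * f * n)‖ ^ 2 :=
          Finset.sum_nonneg fun _ _ => Finset.sum_nonneg fun _ _ => by positivity
        exact mul_le_mul (h2 d hd) (Finset.sum_le_sum fun f hf => h1 d hd f hf) h3 hT0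
    _ = T * ∑ h ∈ S Y, ‖c h‖ ^ 2 *
          ∑ d ∈ S Y, ∑ f ∈ S Y, (if d * f ∣ h then (1 : ℝ) else 0) := by
        rw [← Finset.mul_sum]
        congr 1
        have e2 : ∀ d ∈ S Y, ∑ f ∈ S Y, ∑ h ∈ S Y, (if d * f ∣ h then ‖c h‖ ^ 2 else 0) =
            ∑ h ∈ S Y, ∑ f ∈ S Y, (if d * f ∣ h then ‖c h‖ ^ 2 else 0) :=
          fun d _ => Finset.sum_comm
        rw [Finset.sum_congr rfl e2, Finset.sum_comm]
        refine Finset.sum_congr rfl fun h _ => ?_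
        rw [Finset.mul_sum]
        refine Finset.sum_congr rfl fun d _ => ?_
        rw [Finset.mul_sum]
        refine Finset.sum_congr rfl fun f _ => ?_
        split_ifs <;> simp
    _ ≤ T * ∑ h ∈ S Y, ‖c h‖ ^ 2 * (T * T) := by
        refine mul_le_mul_of_nonneg_left (Finset.sum_le_sum fun h hh => ?_) hT0
        refine mul_le_mul_of_nonneg_left ?_ (by positivity)
        have hh' := (mem_S hY0).1 hh
        have hh0 : h ≠ 0 := hh'.2.1.ne_zero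
        have h4 : ∑ d ∈ S Y, ∑ f ∈ S Y, (if d * f ∣ h then (1 : ℝ) else 0) ≤
            (∑ d ∈ S Y, if d ∣ h then (1 : ℝ) else 0) *
              ∑ f ∈ S Y, (if f ∣ h then (1 : ℝ) else 0) := by
          rw [Finset.sum_mul_sum]
          refine Finset.sum_le_sum fun d _ => Finset.sum_le_sum fun f _ => ?_
          by_cases h5 : d * f ∣ h
          · rw [if_pos h5, if_pos (dvd_of_mul_right_dvd h5), if_pos (dvd_of_mul_left_dvd h5),
              one_mul]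
          · rw [if_neg h5]
            split_ifs <;> norm_num
        have h6 : ∑ d ∈ S Y, (if d ∣ h then (1 : ℝ) else 0) ≤ T := by
          rw [← Finset.sum_filter, Finset.sum_const, nsmul_eq_mul, mul_one]
          refine le_trans ?_ (hC Y hY h hh)
          unfold Div277.tau
          norm_cast
          refine Finset.card_le_card fun d hd => ?_
          rw [Finset.mem_filter, mem_S hY0] at hd
          exact (Div277.mem_dvs hh0).mpr ⟨hd.1.2.1, hd.2⟩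
        refine h4.trans (mul_le_mul h6 h6 ?_ hT0)
        exact Finset.sum_nonneg fun _ _ => by split_ifs <;> norm_num
    _ = C ^ 3 * Y ^ ε * ∑ h ∈ S Y, ‖c h‖ ^ 2 := by
        rw [← Finset.sum_mul]
        have e3 : Y ^ ε = Y ^ (ε / 3) * Y ^ (ε / 3) * Y ^ (ε / 3) := by
          rw [← Real.rpow_add (by linarith), ← Real.rpow_add (by linarith)]
          congr 1; ring
        rw [e3, hT]
        ring

end Crest.Agent.R017.PoH347
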