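import Crest.Agent.R017.PoH3_347

/-!
# Row 17, block C70, leaf E3 (HB form of the MODE lemma), part 4 (helper347)

`poh_r` : `poh_kt` with the sums over `d`, `f` restricted to `d f ∣ h` for some `h ∈ Hs`;
`poh_reg` : the same with the regularised mean squares `RG`.
-/

set_option autoImplicit false

noncomputable section

open Complex MeasureTheory
open scoped ComplexConjugate Classical

namespace Crest.Agent.R017.PoH347

open Crest.Agent.R012 Crest.Agent.R012.Eis Crest.Agent.R012.MC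
open Crest.Agent.R012.LS2 (S mem_S bl mem_bl)
open Crest.Agent.R012.Mob705 (mu pdiv mem_pdiv)
open Crest.Agent.R017.CM106 (CS TG norm_Gsy_le)
open Crest.Agent.R017.E1551 (nmpos jb jb_pos jb_neg continuous_jb integrable_jb integrable_jb_mul
  nm_ge_one)
open Crest.Agent.R017.BD829

/-- the divisors `d` of elements of `Hs` -/
def Dh (Y : ℝ) (Hs : Finset Eis) : Finset Eis := (S Y).filter fun d => ∃ h ∈ Hs, d ∣ h

/-- the `f` such that `d f` divides an element of `Hs` -/
def Fh (Y : ℝ) (Hs : Finset Eis) (d : Eis) : Finset Eis := (S Y).filter fun f => ∃ h ∈ Hs, d * f ∣ h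

set_option maxHeartbeats 4000000 in
/-- **the second Poisson summation with the large sieve**, restricted sums. -/
theorem poh_r {R : ℝ} (hR : 0 ≤ R) {A B a : ℕ} (hA : 1 < A)
    (hB : a + 1 ≤ B) (ha : 2 ≤ a) {ε : ℝ} (hε : 0 < ε) :
    ∃ C : ℝ, 0 < C ∧ ∀ (w : ℝ → ℝ), Wgt w → ∀ C0 : ℝ, KT w R A B C0 →
      ∀ (M : Eis) (ψ : Eis → ℂ), LC M ψ → ∀ P X Y N L : ℝ, 1 ≤ P → (nm M : ℝ) ≤ P →
      1 ≤ Y → Y ≤ P → 0 < X → 1 ≤ X * P → 0 < N → N ≤ P → 0 < L → L ≤ P →
      ∀ b : Eis → ℂ, (∀ n, b n ≠ 0 → n ∈ S Y) → Win b (Real.log N) R →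
      ∀ Hs : Finset Eis, Hs ⊆ S Y → (∀ h ∈ Hs, |Real.log (nm h) - Real.log L| ≤ R / 2) →
      (∀ h ∈ Hs, b h = 0) → ∀ G : Eis → Eis → Eis → ℝ → ℝ,
      (∀ d ∈ Dh Y Hs, ∀ e ∈ pdiv d, ∀ f ∈ Fh Y Hs d, ∀ Z, 1 ≤ Z →
        ∑ k ∈ bl Z, EQ A (rs b ψ d f) (Hf M e k f) ≤ G d e f Z) →
      (∀ d ∈ Dh Y Hs, ∀ e ∈ pdiv d, ∀ f ∈ Fh Y Hs d, ∀ Z, 1 ≤ Z →
        G d e f (2 * Z) ≤ 2 ^ a * G d e f Z) →
      ∑ h ∈ Hs, ‖Sh w X ψ b h‖ ^ 2 ≤ C * (1 + C0) ^ 2 * P ^ ε * (X ^ 2 / (N * L)) *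
        ∑ d ∈ Dh Y Hs, ∑ e ∈ pdiv d, ∑ f ∈ Fh Y Hs d,
          (nm d / nm e : ℝ) ^ 2 * nrm (L / (nm d * nm f)) (max 1 (lmB M X N L d e)) *
            ((min 1 (lmB M X N L d e)) ^ B * G d e f (max 1 (lmB M X N L d e))) := by
  have hA' : (1 : ℝ) < (A : ℝ) := by exact_mod_cast hA
  have hB1 : 1 < B := by omega
  set ε1 : ℝ := min 1 (ε / 12) with hε1
  have hε1p : 0 < ε1 := lt_min one_pos (by linarith)
  have hε1l : ε1 ≤ 1 := min_le_left _ _
  have hε1e : 6 * ε1 ≤ ε / 2 := by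
    have : ε1 ≤ ε / 12 := min_le_right _ _
    linarith
  obtain ⟨C1, hC1, hLS⟩ := EQ_ls hA' hε1p
  obtain ⟨C2, hC2, hT3⟩ := sum_tau3 (ε := ε / 2) (by linarith)
  set q : ℝ := Real.exp (R / 2) with hq
  have hq1 : 1 ≤ q := Real.one_le_exp (by linarith)
  set cV : ℝ := C1 * (3 * q) ^ ε1 * q with hcV
  have hcVp : 0 < cV := by positivity
  refine ⟨4 * (2 * (1 + 2 ^ (a + 1))) ^ 2 * C2 * cV, by positivity, ?_⟩
  intro w hw C0 hk
  have hBD := BD_kt hw hk hA hB1
  have hC0 := hk.1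
  set D0 : ℝ := (2 * C0 + 1) * (1 + 2 ^ (a + 1)) with hD0
  have hD0p : 0 < D0 := by positivity
  intro M ψ hψ P X Y N L hP hMP hY hYP hX hXP hN hNP hL hLP b hb hwb Hs hHs hHw hHb G hG hG2
  have hP0 : 0 < P := by linarith
  have hY0 : 0 ≤ Y := by linarith
  have nM := nmpos hψ.ne
  set c : Eis → ℂ := fun h => if h ∈ Hs then Sh w X ψ b h else 0 with hc
  have hcs : ∀ n, c n ≠ 0 → n ∈ Hs := by
    intro n hn
    by_contra h1
    rw [hc] at hn
    beta_reduce at hn
    rw [if_neg h1] at hn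
    exact hn rfl
  have hcY : ∀ n, c n ≠ 0 → n ∈ S Y := fun n hn => hHs (hcs n hn)
  have hwc : Win c (Real.log L) R := fun n hn => hHw n (hcs n hn)
  have hHL : ∀ n ∈ Hs, (nm n : ℝ) ≤ q * L := by
    intro n hn
    have h1 := hHw n hn
    have h2 := nmpos ((mem_S hY0).1 (hHs hn)).2.1.ne_zero
    have h3 : Real.log (nm n) ≤ Real.log (q * L) := by
      rw [hq, Real.log_mul (Real.exp_pos _).ne' hL.ne', Real.log_exp]
      have := (abs_le.mp h1).2
      linarith
    exact (Real.log_le_log_iff h2 (by positivity)).mp h3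
  have hcL : ∀ n, c n ≠ 0 → (nm n : ℝ) ≤ q * L := fun n hn => hHL n (hcs n hn)
  have hDS : ∀ d ∈ Dh Y Hs, d ∈ S Y := fun d hd => (Finset.mem_filter.mp hd).1
  have hFL : ∀ d f, f ∈ Fh Y Hs d → (nm d : ℝ) * nm f ≤ q * L := by
    intro d f hf
    obtain ⟨_, h, hh, hdv⟩ := Finset.mem_filter.mp hf
    have h0 := ((mem_S hY0).1 (hHs hh)).2.1.ne_zero
    have h1 : (nm (d * f) : ℝ) ≤ nm h := by
      exact_mod_cast Div277.nm_le_of_dvd h0 hdv
    rw [nm_mul] at h1
    push_cast at h1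
    exact h1.trans (hHL h hh)
  -- the total
  set Q : ℝ := ∑ h ∈ Hs, ‖Sh w X ψ b h‖ ^ 2 with hQ
  have hQ0 : 0 ≤ Q := Finset.sum_nonneg fun _ _ => by positivity
  have hQc : ∑ h ∈ S Y, ‖c h‖ ^ 2 = Q := by
    rw [hQ, ← Finset.sum_subset hHs]
    · exact Finset.sum_congr rfl fun h hh => by rw [hc]; beta_reduce; rw [if_pos hh]
    · intro h _ hh
      rw [hc]; beta_reduce; rw [if_neg hh]; simp
  have hdual := dual hw hX (ψ := ψ) hb hHs
  have hbd := hBD M ψ hψ X hX Y hY b c hb hcY N L hN hL hwb hwc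
  have hmain : ∑ d ∈ S Y, (∑ e ∈ pdiv d, (mu e : ℂ) * (nm e : ℂ)⁻¹ * ψ e) *
      (b d * conj (c d)) = 0 := by
    refine Finset.sum_eq_zero fun d _ => ?_
    by_cases h1 : c d = 0
    · rw [h1]; simp
    · rw [hHb d (hcs d h1)]; simp
  rw [hmain, mul_zero, sub_zero] at hbd
  have hdual' : ‖BS w X ψ b c‖ = Q := by
    rw [hc, hdual, Complex.norm_real, Real.norm_of_nonneg hQ0]
  rw [hdual'] at hbd
  set sr : ℝ := Real.sqrt (N * L) with hsr
  have hsr0 : 0 < sr := Real.sqrt_pos.mpr (by positivity)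
  set κ : ℝ := D0 * (X / sr) with hκ
  have hκ0 : 0 < κ := by positivity
  set T : ℝ := C2 * Y ^ (ε / 2) with hT
  have hTp : 0 < T := by positivity
  -- abbreviations
  set N' : Eis → Eis → ℝ := fun d f => q * L / (nm d * nm f) with hN'
  set Λ : Eis → Eis → ℝ := fun d e => max 1 (lmB M X N L d e) with hΛ
  set m : Eis → Eis → ℝ := fun d e => (min 1 (lmB M X N L d e)) ^ B with hm
  set V : Eis → Eis → Eis → ℝ := fun d e f =>
    C1 * (Λ d e * N' d f) ^ ε1 * nrm (N' d f) (Λ d e) with hV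
  set E : Eis → Eis → ℝ := fun d f => ∑ n ∈ S Y, ‖c (d * f * n)‖ ^ 2 with hE
  have hE0 : ∀ d f, 0 ≤ E d f := fun d f => Finset.sum_nonneg fun _ _ => by positivity
  set r : Eis → Eis → ℝ := fun d e => (nm d / nm e : ℝ) with hr
  -- the blocks
  have hblock : ∀ d ∈ Dh Y Hs, ∀ e ∈ pdiv d, κ * (r d e * (m d e * ∑ f ∈ Fh Y Hs d,
      ((2 * κ * T * r d e * m d e * V d e f) * G d e f (Λ d e) +
        (2 * κ * T * r d e * m d e * V d e f)⁻¹ * (V d e f * E d f)))) =
      ∑ f ∈ Fh Y Hs d, (2 * κ ^ 2 * T * ((r d e) ^ 2 * (m d e) ^ 2 * V d e f *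
        G d e f (Λ d e)) + E d f / (2 * T)) := by
    intro d hd e he
    have hd' := (mem_S hY0).1 (hDS d hd)
    have he' := ((mem_pdiv hd'.2.1.ne_zero).mp he).1
    have nd := nmpos hd'.2.1.ne_zero
    have ne := nmpos he'.ne_zero
    have hl : 0 < lmB M X N L d e := by unfold lmB; positivity
    have hr0 : 0 < r d e := by rw [hr]; positivity
    have hm0 : 0 < m d e := by
      rw [hm]
      have : 0 < min 1 (lmB M X N L d e) := lt_min one_pos hl
      positivity
    rw [Finset.mul_sum, Finset.mul_sum, Finset.mul_sum]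
    refine Finset.sum_congr rfl fun f hf => ?_
    have hf' := (mem_S hY0).1 (Finset.mem_filter.mp hf).1
    have nf := nmpos hf'.2.1.ne_zero
    have hN0 : 0 < N' d f := by rw [hN']; positivity
    have hΛ0 : 0 < Λ d e := lt_of_lt_of_le one_pos (le_max_left _ _)
    have hV0 : 0 < V d e f := by
      have := nrm_pos hN0.le hΛ0
      rw [hV]; positivity
    exact block_arith hκ0 hTp hr0 hm0 hV0
  have hmode : ∀ d ∈ Dh Y Hs, ∀ e ∈ pdiv d, ModeS A B M ψ X N L Y b c d e ≤ (1 + 2 ^ (a + 1)) *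
      (m d e * ∑ f ∈ Fh Y Hs d,
      ((2 * κ * T * r d e * m d e * V d e f) * G d e f (Λ d e) +
        (2 * κ * T * r d e * m d e * V d e f)⁻¹ * (V d e f * E d f))) := by
    intro d hd e he
    have hd' := (mem_S hY0).1 (hDS d hd)
    have he' := ((mem_pdiv hd'.2.1.ne_zero).mp he).1
    have nd := nmpos hd'.2.1.ne_zero
    have ne := nmpos he'.ne_zero
    have hl : 0 < lmB M X N L d e := by unfold lmB; positivity
    have hr0 : 0 < r d e := by rw [hr]; positivity
    have hm0 : 0 < m d e := by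
      rw [hm]
      have : 0 < min 1 (lmB M X N L d e) := lt_min one_pos hl
      positivity
    have hΛ1 : 1 ≤ Λ d e := le_max_left _ _
    have hN1 : ∀ f ∈ Fh Y Hs d, 1 ≤ N' d f := by
      intro f hf
      have hf' := Finset.mem_filter.mp hf
      have nf := nmpos ((mem_S hY0).1 hf'.1).2.1.ne_zero
      rw [hN']
      beta_reduce
      rw [one_le_div (by positivity)]
      exact hFL d f hf
    refine ModeS_le_f hA hB hψ hX hN hL hY0 hb hcY hd'.2.1 he'.ne_zero
      (Fs := Fh Y Hs d) (Finset.filter_subset _ _) (fun f hf hf' n => ?_)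
      (Gu := fun f => G d e f)
      (Gv := fun f Z => C1 * (Z * N' d f) ^ ε1 * nrm (N' d f) Z * E d f)
      (fun f hf Z hZ => hG d hd e he f hf Z hZ) (fun f hf Z hZ => ?_)
      (fun f hf Z hZ => hG2 d hd e he f hf Z hZ) (fun f hf Z hZ => ?_)
      (ρ := fun f => 2 * κ * T * r d e * m d e * V d e f) (fun f hf => ?_)
    · -- the sequence vanishes
      unfold rs
      have h0 : c (d * f * n) = 0 := by
        by_contra h1
        exact hf' (Finset.mem_filter.mpr ⟨hf, d * f * n, hcs _ h1, dvd_mul_right _ _⟩)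
      rw [h0, zero_mul]
    · -- the large sieve
      have hf' := Finset.mem_filter.mp hf
      have hfp := ((mem_S hY0).1 hf'.1).2.1
      have nf := nmpos hfp.ne_zero
      have hdf : IsPrim (d * f) := hd'.2.1.mul hfp
      have hN1' := hN1 f hf
      have hv1 : ∀ n, rs c (fun m => conj (ψ m)) d f n ≠ 0 → n ∈ S (N' d f) := by
        intro n hn
        have h1 : c (d * f * n) ≠ 0 := by
          intro h0
          apply hn
          unfold rs
          rw [h0, zero_mul]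
        have h2 := (mem_S hY0).1 (hcY _ h1)
        have h3 := hcL _ h1
        rw [mem_S (by linarith)]
        refine ⟨?_, h2.2.1.of_mul_left hdf, h2.2.2.of_mul_right⟩
        rw [hN']
        beta_reduce
        rw [le_div_iff₀ (by positivity)]
        refine le_trans (le_of_eq ?_) h3
        rw [nm_mul, nm_mul]
        push_cast
        ring
      have h1 := hLS (N' d f) Z hN1' hZ (rs c (fun m => conj (ψ m)) d f) hv1
        ((e * (M * sq3)) ^ 2 * f)
      have e1 : ∀ k ∈ bl Z, EQ A (rs c (fun m => conj (ψ m)) d f) (k * ((e * (M * sq3)) ^ 2 * f)) =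
          EQ A (rs c (fun m => conj (ψ m)) d f) (Hf M e k f) := by
        intro k _
        unfold Hf
        rw [mul_assoc k]
      rw [Finset.sum_congr rfl e1] at h1
      refine h1.trans ?_
      have hZ0 : 0 ≤ Z := by linarith
      have h2 : 0 ≤ C1 * (Z * N' d f) ^ ε1 * nrm (N' d f) Z := by
        have := nrm_nonneg (by linarith : 0 ≤ N' d f) hZ0
        positivity
      refine mul_le_mul_of_nonneg_left ?_ h2
      rw [hE]
      beta_reduce
      have e2 : ∀ n ∈ S (N' d f), ‖rs c (fun m => conj (ψ m)) d f n‖ ^ 2 =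
          ‖c (d * f * n)‖ ^ 2 := by
        intro n hn
        have hn' := (mem_S (by linarith)).1 hn
        unfold rs
        rw [norm_mul, RCLike.norm_conj, hψ.norm n hn'.2.1, mul_one]
      rw [Finset.sum_congr rfl e2]
      rw [← Finset.sum_filter_ne_zero]
      refine Finset.sum_le_sum_of_subset_of_nonneg (fun n hn => ?_) (fun _ _ _ => by positivity)
      obtain ⟨hn, hne⟩ := Finset.mem_filter.mp hn
      have h3 : c (d * f * n) ≠ 0 := by
        intro h0; apply hne; rw [h0]; simp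
      have h4 := (mem_S hY0).1 (hcY _ h3)
      have hn' := (mem_S (by linarith)).1 hn
      rw [mem_S hY0]
      refine ⟨?_, hn'.2.1, hn'.2.2⟩
      refine le_trans ?_ h4.1
      rw [nm_mul]
      push_cast
      have h5 := nm_ge_one hdf.ne_zero
      have h6 : (0 : ℝ) ≤ nm n := Nat.cast_nonneg _
      exact le_mul_of_one_le_left h6 h5
    · -- doubling
      have hN1' := hN1 f hf
      have hZ0 : 0 ≤ Z := by linarith
      have h1 : nrm (N' d f) (2 * Z) ≤ 2 * nrm (N' d f) Z :=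
        nrm_smul (by linarith) hZ0 (by norm_num)
      have h2 : (2 * Z * N' d f) ^ ε1 ≤ 2 * (Z * N' d f) ^ ε1 := by
        rw [mul_assoc, Real.mul_rpow (by norm_num) (by positivity)]
        refine mul_le_mul_of_nonneg_right ?_ (by positivity)
        calc (2 : ℝ) ^ ε1 ≤ 2 ^ (1 : ℝ) :=
              Real.rpow_le_rpow_of_exponent_le (by norm_num) hε1l
          _ = 2 := Real.rpow_one 2
      have h3 := nrm_nonneg (by linarith : 0 ≤ N' d f) hZ0
      have h4 := nrm_nonneg (by linarith : 0 ≤ N' d f) (by linarith : 0 ≤ 2 * Z)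
      have h5 : (4 : ℝ) ≤ 2 ^ a := by
        calc (4 : ℝ) = 2 ^ 2 := by norm_num
          _ ≤ 2 ^ a := pow_le_pow_right₀ (by norm_num) ha
      have h6 := hE0 d f
      have h7 : 0 ≤ (Z * N' d f) ^ ε1 := by positivity
      calc C1 * (2 * Z * N' d f) ^ ε1 * nrm (N' d f) (2 * Z) * E d f
          ≤ C1 * (2 * (Z * N' d f) ^ ε1) * (2 * nrm (N' d f) Z) * E d f := by gcongr
        _ = 4 * (C1 * (Z * N' d f) ^ ε1 * nrm (N' d f) Z * E d f) := by ring
        _ ≤ 2 ^ a * (C1 * (Z * N' d f) ^ ε1 * nrm (N' d f) Z * E d f) :=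
            mul_le_mul_of_nonneg_right h5 (by positivity)
    · -- positivity of the parameter
      have hN0 : 0 < N' d f := by linarith [hN1 f hf]
      have hV0 : 0 < V d e f := by
        have := nrm_pos hN0.le (by linarith : 0 < Λ d e)
        rw [hV]; positivity
      positivity
  -- assembly
  have hQ1 : Q ≤ ∑ d ∈ Dh Y Hs, ∑ e ∈ pdiv d, ∑ f ∈ Fh Y Hs d,
      (2 * κ ^ 2 * T * ((r d e) ^ 2 * (m d e) ^ 2 * V d e f * G d e f (Λ d e)) +
        E d f / (2 * T)) := by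
    refine hbd.trans ?_
    rw [← Finset.sum_subset (Finset.filter_subset (fun d => ∃ h ∈ Hs, d ∣ h) (S Y)) (fun d _ hd => by
      refine Finset.sum_eq_zero fun e _ => ?_
      have h0 : ModeS A B M ψ X N L Y b c d e = 0 := by
        unfold ModeS
        refine (tsum_congr fun h => ?_).trans tsum_zero
        split_ifs
        · rfl
        · have h2 : ∑ f ∈ S Y, EE A (rs b ψ d f) (rs c (fun m => conj (ψ m)) d f) (Hf M e h f) = 0 := by
            refine Finset.sum_eq_zero fun f _ => EE_zero_right (fun n => ?_) _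
            unfold rs
            have h1 : c (d * f * n) = 0 := by
              by_contra h1
              exact hd (Finset.mem_filter.mpr ⟨by assumption, d * f * n, hcs _ h1,
                Dvd.intro _ (mul_assoc d f n).symm⟩)
            rw [h1, zero_mul]
          rw [h2, mul_zero]
      rw [h0, mul_zero])]
    change 2 * C0 * (X / sr) * ∑ d ∈ Dh Y Hs, _ ≤ _
    rw [Finset.mul_sum]
    refine Finset.sum_le_sum fun d hd => ?_
    rw [Finset.mul_sum]
    refine Finset.sum_le_sum fun e he => ?_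
    rw [← hblock d hd e he]
    have hr0 : 0 ≤ r d e := by rw [hr]; positivity
    have h1 := mul_le_mul_of_nonneg_left (hmode d hd e he) hr0
    have h2 : 0 ≤ X / sr := by positivity
    have hMS : 0 ≤ ModeS A B M ψ X N L Y b c d e := by
      unfold ModeS
      refine tsum_nonneg fun h => ?_
      split_ifs
      · exact le_rfl
      · exact mul_nonneg (WB_nonneg hX.le hN.le hL.le B d e h)
          (Finset.sum_nonneg fun _ _ => EE_nonneg _ _ _ _)
    calc 2 * C0 * (X / sr) * (nm d / nm e * ModeS A B M ψ X N L Y b c d e)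
        ≤ (2 * C0 + 1) * (X / sr) * (r d e * ModeS A B M ψ X N L Y b c d e) := by
          have h3 : 0 ≤ r d e * ModeS A B M ψ X N L Y b c d e := mul_nonneg hr0 hMS
          have h4 : 2 * C0 * (X / sr) ≤ (2 * C0 + 1) * (X / sr) :=
            mul_le_mul_of_nonneg_right (by linarith) h2
          exact mul_le_mul_of_nonneg_right h4 h3
      _ ≤ (2 * C0 + 1) * (X / sr) * (r d e * ((1 + 2 ^ (a + 1)) * (m d e * ∑ f ∈ Fh Y Hs d,
      ((2 * κ * T * r d e * m d e * V d e f) * G d e f (Λ d e) +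
        (2 * κ * T * r d e * m d e * V d e f)⁻¹ * (V d e f * E d f))))) :=
          mul_le_mul_of_nonneg_left h1 (by positivity)
      _ = _ := by rw [hκ, hD0]; ring
  have hsplit : ∑ d ∈ Dh Y Hs, ∑ e ∈ pdiv d, ∑ f ∈ Fh Y Hs d,
      (2 * κ ^ 2 * T * ((r d e) ^ 2 * (m d e) ^ 2 * V d e f * G d e f (Λ d e)) +
        E d f / (2 * T)) =
      2 * κ ^ 2 * T * (∑ d ∈ Dh Y Hs, ∑ e ∈ pdiv d, ∑ f ∈ Fh Y Hs d,
        (r d e) ^ 2 * (m d e) ^ 2 * V d e f * G d e f (Λ d e)) +
      (∑ d ∈ Dh Y Hs, ∑ e ∈ pdiv d, ∑ f ∈ Fh Y Hs d, E d f) / (2 * T) := by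
    simp_rw [Finset.sum_add_distrib, Finset.mul_sum, Finset.sum_div]
  have hEs : ∑ d ∈ Dh Y Hs, ∑ e ∈ pdiv d, ∑ f ∈ Fh Y Hs d, E d f ≤ T * Q := by
    have h1 := hT3 Y hY c hcY
    rw [hQc] at h1
    refine le_trans ?_ h1
    refine le_trans (Finset.sum_le_sum fun d _ => Finset.sum_le_sum fun e _ =>
      Finset.sum_le_sum_of_subset_of_nonneg (Finset.filter_subset _ _) (fun f _ _ => hE0 d f)) ?_
    exact Finset.sum_le_sum_of_subset_of_nonneg (Finset.filter_subset _ _) (fun d _ _ =>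
      Finset.sum_nonneg fun e _ => Finset.sum_nonneg fun f _ => hE0 d f)
  have hQ2 : Q ≤ 4 * κ ^ 2 * T * (∑ d ∈ Dh Y Hs, ∑ e ∈ pdiv d, ∑ f ∈ Fh Y Hs d,
        (r d e) ^ 2 * (m d e) ^ 2 * V d e f * G d e f (Λ d e)) := by
    have h1 : (∑ d ∈ Dh Y Hs, ∑ e ∈ pdiv d, ∑ f ∈ Fh Y Hs d, E d f) / (2 * T) ≤ Q / 2 := by
      rw [div_le_div_iff₀ (by positivity) (by norm_num)]
      linarith
    rw [hsplit] at hQ1
    linarith
  have hκ2 : κ ^ 2 = D0 ^ 2 * (X ^ 2 / (N * L)) := by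
    rw [hκ, mul_pow, div_pow, hsr, Real.sq_sqrt (by positivity)]
  have hTP : T ≤ C2 * P ^ (ε / 2) :=
    mul_le_mul_of_nonneg_left (Real.rpow_le_rpow hY0 hYP (by linarith)) (by linarith)
  have hterm : ∀ d ∈ Dh Y Hs, ∀ e ∈ pdiv d, ∀ f ∈ Fh Y Hs d,
      (r d e) ^ 2 * (m d e) ^ 2 * V d e f * G d e f (Λ d e) ≤
      (cV * P ^ (ε / 2)) * ((nm d / nm e : ℝ) ^ 2 * nrm (L / (nm d * nm f))
        (max 1 (lmB M X N L d e)) *
            ((min 1 (lmB M X N L d e)) ^ B * G d e f (max 1 (lmB M X N L d e)))) := by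
    intro d hd e he f hf
    have hd' := (mem_S hY0).1 (hDS d hd)
    have he' := (mem_pdiv hd'.2.1.ne_zero).mp he
    have hf' := Finset.mem_filter.mp hf
    have hfp := (mem_S hY0).1 hf'.1
    have nd := nmpos hd'.2.1.ne_zero
    have ne := nmpos he'.1.ne_zero
    have nf := nmpos hfp.2.1.ne_zero
    have nd1 := nm_ge_one hd'.2.1.ne_zero
    have nf1 := nm_ge_one hfp.2.1.ne_zero
    have hl : 0 < lmB M X N L d e := by unfold lmB; positivity
    have hΛ1 : 1 ≤ Λ d e := le_max_left _ _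
    have hG0 : 0 ≤ G d e f (Λ d e) :=
      (Finset.sum_nonneg fun k _ => EQ_nonneg _ _ _).trans (hG d hd e he f hf _ hΛ1)
    have hmin0 : 0 < min 1 (lmB M X N L d e) := lt_min one_pos hl
    have hm0 : 0 < m d e := by rw [hm]; positivity
    have hm1 : m d e ≤ 1 := by
      rw [hm]
      exact pow_le_one₀ hmin0.le (min_le_left _ _)
    have hne : (nm e : ℝ) ≤ P := by
      have h1 : (nm e : ℝ) ≤ nm d := by
        have := Div277.nm_le_of_dvd hd'.2.1.ne_zero he'.2
        exact_mod_cast this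
      linarith [hd'.1]
    have hLam : Λ d e ≤ 3 * P ^ 5 := by
      rw [hΛ]
      refine max_le ?_ ?_
      · have : (1 : ℝ) ≤ P ^ 5 := one_le_pow₀ hP
        linarith
      · unfold lmB
        rw [div_le_iff₀ (by positivity)]
        have h1 : (1 : ℝ) ≤ (nm d : ℝ) ^ 2 := one_le_pow₀ nd1
        have h2 : 3 * (nm M : ℝ) * nm e * (N * L) ≤ 3 * P * P * (P * P) := by gcongr
        have h3 : (1 : ℝ) ≤ X * P * (nm d : ℝ) ^ 2 := by
          calc (1 : ℝ) = 1 * 1 := by ring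
            _ ≤ X * P * (nm d : ℝ) ^ 2 := mul_le_mul hXP h1 (by norm_num) (by positivity)
        calc 3 * (nm M : ℝ) * nm e * (N * L) ≤ 3 * P * P * (P * P) * 1 := by linarith
          _ ≤ 3 * P * P * (P * P) * (X * P * (nm d : ℝ) ^ 2) :=
              mul_le_mul_of_nonneg_left h3 (by positivity)
          _ = 3 * P ^ 5 * (X * (nm d : ℝ) ^ 2) := by ring
    have hNP' : N' d f ≤ q * P := by
      rw [hN']
      beta_reduce
      rw [div_le_iff₀ (by positivity)]
      have h1 : (1 : ℝ) ≤ nm d * nm f := one_le_mul_of_one_le_of_one_le nd1 nf1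
      have h2 : q * L ≤ q * P := mul_le_mul_of_nonneg_left hLP (by linarith)
      have h3 : 0 ≤ q * P := mul_nonneg (by linarith) hP0.le
      exact h2.trans (le_mul_of_one_le_right h3 h1)
    have hN0 : 0 ≤ N' d f := by rw [hN']; positivity
    have hpow : (Λ d e * N' d f) ^ ε1 ≤ (3 * q) ^ ε1 * P ^ (ε / 2) := by
      have h1 : Λ d e * N' d f ≤ (3 * q) * P ^ 6 := by
        calc Λ d e * N' d f ≤ (3 * P ^ 5) * (q * P) :=
              mul_le_mul hLam hNP' hN0 (by positivity)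
          _ = (3 * q) * P ^ 6 := by ring
      calc (Λ d e * N' d f) ^ ε1 ≤ ((3 * q) * P ^ 6) ^ ε1 :=
            Real.rpow_le_rpow (mul_nonneg (by linarith) hN0) h1 hε1p.le
        _ = (3 * q) ^ ε1 * P ^ (6 * ε1) := by
            rw [Real.mul_rpow (by positivity) (by positivity), ← Real.rpow_natCast P 6,
              ← Real.rpow_mul hP0.le]
            norm_num
        _ ≤ (3 * q) ^ ε1 * P ^ (ε / 2) :=
            mul_le_mul_of_nonneg_left (Real.rpow_le_rpow_of_exponent_le hP hε1e) (by positivity)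
    have hnrm : nrm (N' d f) (Λ d e) ≤ q * nrm (L / (nm d * nm f)) (Λ d e) := by
      have h1 : N' d f = q * (L / (nm d * nm f)) := by rw [hN']; ring
      rw [h1]
      exact nrm_smul_left (by positivity) (by linarith) hq1
    have hnn : 0 ≤ nrm (L / (nm d * nm f)) (Λ d e) := nrm_nonneg (by positivity) (by linarith)
    have hnn' : 0 ≤ nrm (N' d f) (Λ d e) := nrm_nonneg hN0 (by linarith)
    have hVle : V d e f ≤ (cV * P ^ (ε / 2)) * nrm (L / (nm d * nm f)) (Λ d e) := by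
      calc V d e f = C1 * (Λ d e * N' d f) ^ ε1 * nrm (N' d f) (Λ d e) := rfl
        _ ≤ C1 * ((3 * q) ^ ε1 * P ^ (ε / 2)) * (q * nrm (L / (nm d * nm f)) (Λ d e)) := by
            gcongr
        _ = (cV * P ^ (ε / 2)) * nrm (L / (nm d * nm f)) (Λ d e) := by rw [hcV]; ring
    have hm2 : (m d e) ^ 2 ≤ m d e := by
      rw [pow_two]; exact mul_le_of_le_one_left hm0.le hm1
    have hr2 : 0 ≤ (r d e) ^ 2 := by positivity
    calc (r d e) ^ 2 * (m d e) ^ 2 * V d e f * G d e f (Λ d e)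
        ≤ (r d e) ^ 2 * m d e * ((cV * P ^ (ε / 2)) * nrm (L / (nm d * nm f)) (Λ d e)) *
          G d e f (Λ d e) := by gcongr
      _ = _ := by rw [hr, hm, hΛ]; ring
  have hsum : ∑ d ∈ Dh Y Hs, ∑ e ∈ pdiv d, ∑ f ∈ Fh Y Hs d,
        (r d e) ^ 2 * (m d e) ^ 2 * V d e f * G d e f (Λ d e) ≤
      (cV * P ^ (ε / 2)) * ∑ d ∈ Dh Y Hs, ∑ e ∈ pdiv d, ∑ f ∈ Fh Y Hs d,
        (nm d / nm e : ℝ) ^ 2 * nrm (L / (nm d * nm f)) (max 1 (lmB M X N L d e)) *
            ((min 1 (lmB M X N L d e)) ^ B * G d e f (max 1 (lmB M X N L d e))) := by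
    rw [Finset.mul_sum]
    refine Finset.sum_le_sum fun d hd => ?_
    rw [Finset.mul_sum]
    refine Finset.sum_le_sum fun e he => ?_
    rw [Finset.mul_sum]
    exact Finset.sum_le_sum fun f hf => hterm d hd e he f hf
  set Sg : ℝ := ∑ d ∈ Dh Y Hs, ∑ e ∈ pdiv d, ∑ f ∈ Fh Y Hs d,
        (nm d / nm e : ℝ) ^ 2 * nrm (L / (nm d * nm f)) (max 1 (lmB M X N L d e)) *
            ((min 1 (lmB M X N L d e)) ^ B * G d e f (max 1 (lmB M X N L d e))) with hSg
  have hSg0 : 0 ≤ Sg := by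
    refine Finset.sum_nonneg fun d hd => Finset.sum_nonneg fun e he =>
      Finset.sum_nonneg fun f hf => ?_
    have hd' := (mem_S hY0).1 (hDS d hd)
    have he' := (mem_pdiv hd'.2.1.ne_zero).mp he
    have nd := nmpos hd'.2.1.ne_zero
    have ne := nmpos he'.1.ne_zero
    have hl : 0 < lmB M X N L d e := by unfold lmB; positivity
    have hΛ1 : 1 ≤ Λ d e := le_max_left _ _
    have hG0 : 0 ≤ G d e f (Λ d e) :=
      (Finset.sum_nonneg fun k _ => EQ_nonneg _ _ _).trans (hG d hd e he f hf _ hΛ1)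
    have hmin0 : 0 < min 1 (lmB M X N L d e) := lt_min one_pos hl
    have hnn : 0 ≤ nrm (L / (nm d * nm f)) (max 1 (lmB M X N L d e)) :=
      nrm_nonneg (by positivity) (by positivity)
    have hG0' : 0 ≤ G d e f (max 1 (lmB M X N L d e)) := hG0
    positivity
  have hfin := final_arith hQ2 hsum hTP hκ2 hSg0 hcVp.le (Real.rpow_nonneg hP0.le (ε / 2)) hTp.le
  have hPP : P ^ (ε / 2) * P ^ (ε / 2) = P ^ ε := by
    rw [← Real.rpow_add hP0]
    congr 1
    ring
  rw [hPP] at hfin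
  refine hfin.trans ?_
  rw [hD0]
  exact kt_arith (by positivity) hC0 (by positivity) hcVp.le (by positivity) (by positivity) hSg0

end Crest.Agent.R017.PoH347
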