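import Crest.Agent.R017.PoH5_347
import Crest.Agent.R017.TWt_405
import Crest.Agent.R017.StA_828
import Crest.Agent.R017.ModeDefs_405

/-!
# Row 17, block C70, leaf E3 (HB form of the MODE lemma), part 6 (helper347)

`bg b g l` : the dilated sequence `l n ↦ b (g n)`, `(n, g l) = 1`;
`CS_split` : `CS b x (l₂/x) = ∑_{g ∣ l₂} CS (bg b g (l₂/g)) x conj (g/x)`;
`XS_split` : the sum `XS` at a cube-free kernel through the sums `Sh`.
-/

set_option autoImplicit false

noncomputable section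

open Complex MeasureTheory
open scoped ComplexConjugate Classical

namespace Crest.Agent.R017.PoH347

open Crest.Agent.R012 Crest.Agent.R012.Eis Crest.Agent.R012.MC
open Crest.Agent.R012.LS2 (S mem_S bl mem_bl)
open Crest.Agent.R012.Mob705 (mu pdiv mem_pdiv)
open Crest.Agent.R012.Weight600 (osc pw norm_osc)
open Crest.Agent.R012.NonCube52 (Ker kv Good)
open Crest.Agent.R017.CM106 (CS TG norm_Gsy_le)
open Crest.Agent.R017.E1551 (nmpos jb jb_pos jb_neg continuous_jb integrable_jb integrable_jb_mul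
  nm_ge_one CS_fin summable_wF)
open Crest.Agent.R017.BD829
open Gauss880 (syG)

lemma cop_of_sqf {a b : Eis} (h : Squarefree (a * b)) : IsCoprime a b :=
  (squarefree_mul_iff.mp h).1.isCoprime

/-- the dilated sequence -/
def bg (b : Eis → ℂ) (g l : Eis) (m : Eis) : ℂ :=
  if l ∣ m ∧ IsCoprime (m / l) (g * l) then b (g * (m / l)) else 0

lemma bg_mul {b : Eis → ℂ} {g l : Eis} (hl : l ≠ 0) (n : Eis) :
    bg b g l (l * n) = if IsCoprime n (g * l) then b (g * n) else 0 := by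
  unfold bg
  rw [mul_div_cancel_left₀ _ hl]
  simp only [dvd_mul_right, true_and]

lemma exists_of_bg {b : Eis → ℂ} {g l m : Eis} (hl : l ≠ 0) (h : bg b g l m ≠ 0) :
    ∃ n, m = l * n ∧ IsCoprime n (g * l) ∧ b (g * n) ≠ 0 := by
  have h1 : l ∣ m := by
    by_contra h1
    apply h
    unfold bg
    rw [if_neg (fun h2 => h1 h2.1)]
  obtain ⟨n, rfl⟩ := h1
  rw [bg_mul hl] at h
  by_cases h2 : IsCoprime n (g * l)
  · rw [if_pos h2] at h
    exact ⟨n, rfl, h2, h⟩
  · rw [if_neg h2] at h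
    exact absurd rfl h

lemma CS_bg {Y : ℝ} {b : Eis → ℂ} (hb : ∀ n, b n ≠ 0 → n ∈ S Y) {g l : Eis} (hg : g ≠ 0)
    (hl : l ≠ 0) (x : Eis) :
    CS (bg b g l) x = ∑ m ∈ S Y, if g ∣ m ∧ IsCoprime (m / g) (g * l) then
      b m * sy x (l * (m / g)) else 0 := by
  have hinj : Set.InjOn (fun m : Eis => l * (m / g))
      ((S Y).filter (fun m => g ∣ m ∧ IsCoprime (m / g) (g * l)) : Finset Eis) := by
    intro m hm m' hm' he
    have h1 := (Finset.mem_filter.mp hm).2.1
    have h2 := (Finset.mem_filter.mp hm').2.1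
    obtain ⟨n, rfl⟩ := h1
    obtain ⟨n', rfl⟩ := h2
    beta_reduce at he
    rw [mul_div_cancel_left₀ _ hg, mul_div_cancel_left₀ _ hg] at he
    rw [mul_left_cancel₀ hl he]
  unfold CS
  rw [tsum_eq_sum (s := ((S Y).filter (fun m => g ∣ m ∧ IsCoprime (m / g) (g * l))).image
    (fun m => l * (m / g))), Finset.sum_image hinj, Finset.sum_filter]
  · refine Finset.sum_congr rfl fun m _ => ?_
    split_ifs with h
    · obtain ⟨n, rfl⟩ := h.1
      rw [mul_div_cancel_left₀ _ hg] at h ⊢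
      rw [bg_mul hl, if_pos h.2]
    · rfl
  · intro m hm
    by_contra h
    have h1 : bg b g l m ≠ 0 := by
      intro h0
      rw [h0, zero_mul] at h
      exact h rfl
    obtain ⟨n, rfl, hc, hn⟩ := exists_of_bg hl h1
    apply hm
    rw [Finset.mem_image]
    refine ⟨g * n, Finset.mem_filter.mpr ⟨hb _ hn, dvd_mul_right _ _, ?_⟩, ?_⟩
    · rw [mul_div_cancel_left₀ _ hg]; exact hc
    · rw [mul_div_cancel_left₀ _ hg]

lemma split_pt {l m x : Eis} (hl : IsPrim l) (hm : IsPrim m) (hms : Squarefree m)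
    (hx : IsPrim x) :
    sy x m * sy l x = ∑ g ∈ pdiv l, if g ∣ m ∧ IsCoprime (m / g) (g * (l / g)) then
      sy x ((l / g) * (m / g)) * conj (sy g x) else 0 := by
  obtain ⟨h1, h2, h3, h4, h5⟩ := StA828.gp_spec l hm
  set g := StA828.gp l m with hg
  have hgl : g ∣ l := ⟨_, h3⟩
  have hgm : g ∣ m := ⟨_, h4⟩
  have hgmem : g ∈ pdiv l := (mem_pdiv hl.ne_zero).mpr ⟨h1, hgl⟩
  have hlg : IsPrim (l / g) := by
    have : IsPrim (g * (l / g)) := by rw [← h3]; exact hl
    exact this.of_mul_left h1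
  have hcg : IsCoprime (m / g) g := by
    have h6 : Squarefree (g * (m / g)) := by rw [← h4]; exact hms
    exact (cop_of_sqf h6).symm
  have hc : IsCoprime (m / g) (g * (l / g)) := hcg.mul_right h5.symm
  rw [Finset.sum_eq_single_of_mem g hgmem]
  · rw [if_pos ⟨hgm, hc⟩]
    have e1 : sy x m = sy x g * sy x (m / g) := by
      conv_lhs => rw [h4]
      exact syG.mul_right _ _ _ h1 h2
    have e2 : sy l x = sy g x * sy (l / g) x := by
      conv_lhs => rw [h3]
      exact syG.mul_left _ _ _ hx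
    have e3 : sy x ((l / g) * (m / g)) = sy x (l / g) * sy x (m / g) :=
      syG.mul_right _ _ _ hlg h2
    have e4 : sy x g = sy g x := Sym645.sy_reciprocity hx h1
    have e5 : sy (l / g) x = sy x (l / g) := Sym645.sy_reciprocity hlg hx
    have e6 := Gauss880.sy_sq_eq_conj syG (x := g) hx
    rw [e1, e2, e3, e4, e5]
    calc sy g x * sy x (m / g) * (sy g x * sy x (l / g))
        = sy x (l / g) * sy x (m / g) * (sy g x) ^ 2 := by ring
      _ = _ := by rw [e6]
  · intro g' hg' hne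
    rw [if_neg]
    rintro ⟨hd, hc'⟩
    apply hne
    have hg1 := (mem_pdiv hl.ne_zero).mp hg'
    have e1 : m = g' * (m / g') := by
      obtain ⟨n, hn⟩ := hd
      conv_rhs => rw [hn, mul_div_cancel_left₀ _ hg1.1.ne_zero]
      exact hn
    have e2 : l = g' * (l / g') := by
      obtain ⟨n, hn⟩ := hg1.2
      conv_rhs => rw [hn, mul_div_cancel_left₀ _ hg1.1.ne_zero]
      exact hn
    exact (StA828.gp_eq hm hg1.1 e2 e1 (hc'.of_mul_right_right).symm).symm

/-- **the splitting** -/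
lemma CS_split {Y : ℝ} (hY : 0 ≤ Y) {b : Eis → ℂ} (hb : ∀ n, b n ≠ 0 → n ∈ S Y) {l x : Eis}
    (hl : IsPrim l) (hx : IsPrim x) :
    CS b x * sy l x = ∑ g ∈ pdiv l, CS (bg b g (l / g)) x * conj (sy g x) := by
  have hlg : ∀ g ∈ pdiv l, g ≠ 0 ∧ l / g ≠ 0 := by
    intro g hg
    have h1 := (mem_pdiv hl.ne_zero).mp hg
    refine ⟨h1.1.ne_zero, fun h0 => ?_⟩
    obtain ⟨n, hn⟩ := h1.2
    rw [hn, mul_div_cancel_left₀ _ h1.1.ne_zero] at h0
    rw [h0, mul_zero] at hn
    exact hl.ne_zero hn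
  have e1 : ∀ g ∈ pdiv l, CS (bg b g (l / g)) x * conj (sy g x) = ∑ m ∈ S Y,
      b m * (if g ∣ m ∧ IsCoprime (m / g) (g * (l / g)) then
      sy x ((l / g) * (m / g)) * conj (sy g x) else 0) := by
    intro g hg
    rw [CS_bg hb (hlg g hg).1 (hlg g hg).2, Finset.sum_mul]
    refine Finset.sum_congr rfl fun m _ => ?_
    split_ifs
    · ring
    · ring
  rw [Finset.sum_congr rfl e1, Finset.sum_comm, CS_fin hb, Finset.sum_mul]
  refine Finset.sum_congr rfl fun m hm => ?_
  have hm' := (mem_S hY).1 hm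
  rw [← Finset.mul_sum, ← split_pt hl hm'.2.1 hm'.2.2 hx]
  ring

/-- the `S`-unit part of a kernel -/
def su (κ : Ker) : Eis := w ^ κ.1.1 * lam ^ κ.1.2

/-- the twist of a kernel -/
def ps (κ : Ker) (x : Eis) : ℂ := conj (sy (su κ) x)

lemma sy_kv {κ : Ker} {x : Eis} (hx : IsPrim x) :
    conj (sy (kv κ) x) = ps κ x * conj (sy κ.2.1 x) * sy κ.2.2 x := by
  have e1 : sy (kv κ) x = sy (su κ) x * sy κ.2.1 x * sy κ.2.2 x ^ 2 := by
    unfold kv su
    rw [syG.mul_left _ _ _ hx, syG.mul_left _ _ _ hx, Char766.sy_pow_left hx]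
  rw [e1, Gauss880.sy_sq_eq_conj syG hx, map_mul, map_mul, Complex.conj_conj]
  rfl

/-- **`XS` through `Sh`** -/
theorem XS_split {w₀ : ℝ → ℝ} (hw : Wgt w₀) {X : ℝ} (hX : 0 < X) (t : ℝ) {Y : ℝ} (hY : 0 ≤ Y)
    {b : Eis → ℂ} (hb : ∀ n, b n ≠ 0 → n ∈ S Y) {κ : Ker} (hκ : Good κ) :
    Mode405.XS (fun _ => 1) w₀ X t b κ = pw t X * ∑ g ∈ pdiv κ.2.2,
      (Sh (TWt405.wc w₀ t) X (ps κ) (bg b g (κ.2.2 / g)) (g * κ.2.1) +
        Sh (TWt405.wsn w₀ t) X (ps κ) (bg b g (κ.2.2 / g)) (g * κ.2.1) * I) := by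
  have hwc := TWt405.wgt_wc hw t
  have hws := TWt405.wgt_wsn hw t
  have hpt : ∀ x : Eis, IsPrim x → pw t (nm x) * ((w₀ (nm x / X) : ℝ) : ℂ) =
      pw t X * ((((TWt405.wc w₀ t (nm x / X) : ℝ) : ℂ)) +
        ((TWt405.wsn w₀ t (nm x / X) : ℝ) : ℂ) * I) := by
    intro x hx
    have nx := nmpos hx.ne_zero
    rw [← TWt405.wc_add_wsn]
    unfold pw
    rw [Real.log_div nx.ne' hX.ne']
    unfold osc
    have : cexp (↑(t * Real.log (nm x)) * I) = cexp (↑(t * Real.log X) * I) *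
        cexp (↑(t * (Real.log (nm x) - Real.log X)) * I) := by
      rw [← Complex.exp_add]
      congr 1
      push_cast
      ring
    push_cast at this ⊢
    rw [this]
    ring
  have e1 : ∀ g ∈ pdiv κ.2.2, Sh (TWt405.wc w₀ t) X (ps κ) (bg b g (κ.2.2 / g)) (g * κ.2.1) +
        Sh (TWt405.wsn w₀ t) X (ps κ) (bg b g (κ.2.2 / g)) (g * κ.2.1) * I =
      ∑' x : Eis, (if IsPrim x then ps κ x * (CS (bg b g (κ.2.2 / g)) x *
        conj (sy x (g * κ.2.1))) else 0) * ((((TWt405.wc w₀ t (nm x / X) : ℝ) : ℂ)) +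
        ((TWt405.wsn w₀ t (nm x / X) : ℝ) : ℂ) * I) := by
    intro g _
    unfold Sh
    rw [← tsum_mul_right, ← Summable.tsum_add (summable_wF hwc hX _)
      ((summable_wF hws hX _).mul_right _)]
    refine tsum_congr fun x => ?_
    ring
  rw [Finset.sum_congr rfl e1, ← Summable.tsum_finsetSum, ← tsum_mul_left]
  · unfold Mode405.XS
    refine tsum_congr fun x => ?_
    by_cases hx : IsPrim x
    · rw [if_pos hx]
      simp only [if_pos hx]
      rw [← Finset.sum_mul]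
      have e2 : CS b x * conj (sy (kv κ) x) = ∑ g ∈ pdiv κ.2.2, ps κ x *
          (CS (bg b g (κ.2.2 / g)) x * conj (sy x (g * κ.2.1))) := by
        rw [sy_kv hx]
        calc CS b x * (ps κ x * conj (sy κ.2.1 x) * sy κ.2.2 x)
            = ps κ x * conj (sy κ.2.1 x) * (CS b x * sy κ.2.2 x) := by ring
          _ = _ := by
            rw [CS_split hY hb hκ.prim2 hx, Finset.mul_sum]
            refine Finset.sum_congr rfl fun g hg => ?_
            have hg' := (mem_pdiv hκ.prim2.ne_zero).mp hg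
            rw [syG.mul_right _ _ _ hg'.1 hκ.prim1, Sym645.sy_reciprocity hx hg'.1,
              Sym645.sy_reciprocity hx hκ.prim1, map_mul]
            ring
      have e3 := hpt x hx
      rw [← Finset.mul_sum] at e2
      calc (1 : ℂ) * (CS b x * conj (sy (kv κ) x)) * pw t (nm x) * ((w₀ (nm x / X) : ℝ) : ℂ)
          = (CS b x * conj (sy (kv κ) x)) * (pw t (nm x) * ((w₀ (nm x / X) : ℝ) : ℂ)) := by ring
        _ = _ := by rw [e2, e3, ← Finset.mul_sum]; ring
    · rw [if_neg hx]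
      simp only [if_neg hx, zero_mul, Finset.sum_const_zero, mul_zero]
  · intro g _
    have h1 := (summable_wF hwc hX (fun x => if IsPrim x then ps κ x *
      (CS (bg b g (κ.2.2 / g)) x * conj (sy x (g * κ.2.1))) else 0)).add
      ((summable_wF hws hX (fun x => if IsPrim x then ps κ x *
      (CS (bg b g (κ.2.2 / g)) x * conj (sy x (g * κ.2.1))) else 0)).mul_right I)
    refine h1.congr fun x => ?_
    ring

end Crest.Agent.R017.PoH347
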