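import Crest.Agent.R017.PoH6_347

/-!
# Row 17, block C70, leaf E3 (HB form of the MODE lemma), part 7 (helper347)

`EQ_bg` : the mean squares of the dilated sequences; `sum_EB_bg` : merging the frequencies `k l`.
-/

set_option autoImplicit false

noncomputable section

open Complex MeasureTheory
open scoped ComplexConjugate Classical

namespace Crest.Agent.R017.PoH347

open Crest.Agent.R012 Crest.Agent.R012.Eis Crest.Agent.R012.MC
open Crest.Agent.R012.LS2 (S mem_S bl mem_bl)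
open Crest.Agent.R012.Mob705 (mu pdiv mem_pdiv)
open Crest.Agent.R012.Weight600 (osc pw norm_osc)
open Crest.Agent.R012.NonCube52 (Ker kv Good)
open Crest.Agent.R017.CM106 (CS TG norm_Gsy_le)
open Crest.Agent.R017.E1551 (nmpos jb jb_pos jb_neg continuous_jb integrable_jb integrable_jb_mul
  nm_ge_one CS_fin summable_wF)
open Crest.Agent.R017.BD829
open Gauss880 (syG)

lemma pw_mul {x y : ℝ} (hx : 0 < x) (hy : 0 < y) (t : ℝ) : pw t (x * y) = pw t x * pw t y := by
  unfold pw osc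
  rw [Real.log_mul hx.ne' hy.ne', ← Complex.exp_add]
  congr 1
  push_cast
  ring

lemma norm_pw (t x : ℝ) : ‖pw t x‖ = 1 := by
  unfold pw; exact norm_osc _ _

lemma su_ne {κ : Ker} : su κ ≠ 0 := by
  unfold su
  exact mul_ne_zero (pow_ne_zero _ isUnit_w.ne_zero) (pow_ne_zero _ lam_ne_zero)

/-- the twisted Gauss side of a dilated sequence -/
lemma TT_bg {Y : ℝ} (hY : 0 ≤ Y) {b : Eis → ℂ} (hb : ∀ n, b n ≠ 0 → n ∈ S Y) {g l D : Eis}
    (hg : IsPrim g) (hl : IsPrim l) (hD : IsPrim D) (hDl : IsCoprime D l) (κ : Ker) (H : Eis)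
    (t : ℝ) :
    TT (fun m => bg b g l (D * m) * ps κ m) H t =
      (if IsCoprime D (g * l) then ps κ l * pw t (nm l) * (G l * conj (sy H l)) else 0) *
        TT (fun n => b (g * D * n)) (su κ * l * H) t := by
  have nl := nmpos hl.ne_zero
  by_cases hc : IsCoprime D (g * l)
  swap
  · rw [if_neg hc, zero_mul]
    unfold TT TG
    refine (tsum_congr fun m => ?_).trans tsum_zero
    have h0 : bg b g l (D * m) = 0 := by
      by_contra h
      obtain ⟨n, hn, hcn, -⟩ := exists_of_bg hl.ne_zero h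
      apply hc
      have h1 : D ∣ l * n := ⟨m, hn.symm⟩
      have h2 : D ∣ n := hDl.dvd_of_dvd_mul_left h1
      exact hcn.of_isCoprime_of_dvd_left h2
    beta_reduce
    rw [h0]; ring
  rw [if_pos hc]
  unfold TT TG
  have hinj : Function.Injective (fun n : Eis => l * n) := mul_right_injective₀ hl.ne_zero
  have hsup : Function.support (fun m : Eis => bg b g l (D * m) * ps κ m * pw t (nm m) *
      (G m * conj (sy H m))) ⊆ Set.range (fun n : Eis => l * n) := by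
    intro m hm
    rw [Function.mem_support] at hm
    have h1 : bg b g l (D * m) ≠ 0 := by
      intro h0; apply hm; rw [h0]; ring
    obtain ⟨n, hn, -, -⟩ := exists_of_bg hl.ne_zero h1
    have h2 : l ∣ D * m := ⟨n, hn⟩
    obtain ⟨k, hk⟩ := hDl.symm.dvd_of_dvd_mul_left h2
    exact ⟨k, hk.symm⟩
  rw [← hinj.tsum_eq hsup, ← tsum_mul_left]
  refine tsum_congr fun n => ?_
  beta_reduce
  have e0 : D * (l * n) = l * (D * n) := by ring
  rw [e0, bg_mul hl.ne_zero]
  have e1 : g * (D * n) = g * D * n := by ring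
  rw [e1]
  by_cases hb0 : b (g * D * n) = 0
  · rw [hb0]; simp
  have hn1 := (mem_S hY).1 (hb _ hb0)
  have hgD : IsPrim (g * D) := hg.mul hD
  have hnp : IsPrim n := hn1.2.1.of_mul_left hgD
  have hng : IsCoprime (g * D) n := cop_of_sqf hn1.2.2
  have eG : G (l * n) = G l * G n * conj (sy l n) := Gauss880.G_mul_all syG hl hnp
  by_cases hln : IsCoprime l n
  · have hc2 : IsCoprime (D * n) (g * l) := by
      refine hc.mul_left ?_
      exact (hng.of_mul_left_left.symm).mul_right hln.symm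
    rw [if_pos hc2, eG]
    have e2 : ps κ (l * n) = ps κ l * ps κ n := by
      unfold ps
      rw [syG.mul_right _ _ _ hl hnp, map_mul]
    have e3 : pw t (nm (l * n)) = pw t (nm l) * pw t (nm n) := by
      rw [nm_mul]; push_cast
      exact pw_mul nl (nmpos hnp.ne_zero) t
    have e4 : sy H (l * n) = sy H l * sy H n := syG.mul_right _ _ _ hl hnp
    have e5 : sy (su κ * l * H) n = sy (su κ) n * sy l n * sy H n := by
      rw [syG.mul_left _ _ _ hnp, syG.mul_left _ _ _ hnp]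
    rw [e2, e3, e4, e5]
    simp only [map_mul]
    unfold ps
    ring
  · have h0 : sy l n = 0 := (syG.eq_zero l n hnp).mpr hln
    have hc2 : ¬ IsCoprime (D * n) (g * l) := by
      intro h
      exact hln (h.of_mul_left_right.of_mul_right_right).symm
    rw [if_neg hc2]
    have e5 : sy (su κ * l * H) n = 0 := by
      rw [syG.mul_left _ _ _ hnp, syG.mul_left _ _ _ hnp, h0]; ring
    rw [e5]
    simp

lemma norm_ps_le (κ : Ker) {x : Eis} (hx : IsPrim x) : ‖ps κ x‖ ≤ 1 := by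
  unfold ps
  rw [RCLike.norm_conj]
  exact Tau671.norm_sy_le hx

/-- **the mean square of a dilated sequence** -/
theorem EQ_bg {A : ℝ} (hA : 1 < A) {Y : ℝ} (hY : 0 ≤ Y) {b : Eis → ℂ}
    (hb : ∀ n, b n ≠ 0 → n ∈ S Y) {g l D : Eis} (hg : IsPrim g) (hl : IsPrim l) (hD : IsPrim D)
    (hDl : IsCoprime D l) (κ : Ker) (H : Eis) :
    EQ A (fun m => bg b g l (D * m) * ps κ m) H ≤
      EQ A (fun n => b (g * D * n)) (su κ * l * H) := by
  have hgD : IsPrim (g * D) := hg.mul hD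
  have hsup : ∀ n, b (g * D * n) ≠ 0 → n ∈ S Y := by
    intro n hn
    have h1 := (mem_S hY).1 (hb _ hn)
    rw [mem_S hY]
    refine ⟨?_, h1.2.1.of_mul_left hgD, h1.2.2.of_mul_right⟩
    refine le_trans ?_ h1.1
    rw [nm_mul]
    push_cast
    exact le_mul_of_one_le_left (Nat.cast_nonneg _) (nm_ge_one hgD.ne_zero)
  unfold EQ
  refine integral_mono_of_nonneg (Filter.Eventually.of_forall fun t =>
    mul_nonneg (jb_pos A t).le (by positivity)) (integrable_EQ hA hY hsup _)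
    (Filter.Eventually.of_forall fun t => ?_)
  beta_reduce
  refine mul_le_mul_of_nonneg_left ?_ (jb_pos A t).le
  refine pow_le_pow_left₀ (norm_nonneg _) ?_ 2
  rw [TT_bg hY hb hg hl hD hDl, norm_mul]
  refine mul_le_of_le_one_left (norm_nonneg _) ?_
  split_ifs
  · rw [norm_mul, norm_mul, norm_pw, mul_one]
    exact mul_le_one₀ (norm_ps_le κ hl) (norm_nonneg _) (norm_Gsy_le hl)
  · simp

/-- merging frequencies -/
lemma merge {F : Eis → ℝ} (hF : ∀ x, 0 ≤ F x) {Z L τ : ℝ} (hZ : 0 ≤ Z) (hL : 0 ≤ L)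
    {T : Finset Eis} (hT : ∀ l ∈ T, IsPrim l ∧ (nm l : ℝ) ≤ L)
    (ht : ∀ x ∈ bl (Z * L), (Div277.tau x : ℝ) ≤ τ) :
    ∑ l ∈ T, ∑ k ∈ bl Z, F (k * l) ≤ τ * ∑ x ∈ bl (Z * L), F x := by
  have hZL : 0 ≤ Z * L := mul_nonneg hZ hL
  have h1 : ∀ l ∈ T, ∑ k ∈ bl Z, F (k * l) ≤ ∑ x ∈ bl (Z * L), if l ∣ x then F x else 0 := by
    intro l hl
    have hl' := hT l hl
    have hinj : Set.InjOn (fun k : Eis => k * l) (bl Z : Set Eis) := by
      intro x _ y _ hxy
      exact mul_right_cancel₀ hl'.1.ne_zero hxy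
    rw [← Finset.sum_image (f := F) hinj, ← Finset.sum_filter]
    refine Finset.sum_le_sum_of_subset_of_nonneg (fun x hx => ?_) (fun _ _ _ => hF _)
    obtain ⟨k, hk, rfl⟩ := Finset.mem_image.mp hx
    have hk' := (mem_bl hZ).1 hk
    rw [Finset.mem_filter, mem_bl hZL]
    refine ⟨⟨mul_ne_zero hk'.1 hl'.1.ne_zero, ?_⟩, dvd_mul_left _ _⟩
    rw [nm_mul]
    push_cast
    exact mul_le_mul hk'.2 hl'.2 (Nat.cast_nonneg _) hZ
  refine (Finset.sum_le_sum h1).trans ?_
  rw [Finset.sum_comm, Finset.mul_sum]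
  refine Finset.sum_le_sum fun x hx => ?_
  have hx' := (mem_bl hZL).1 hx
  rw [← Finset.sum_filter, Finset.sum_const, nsmul_eq_mul]
  refine mul_le_mul_of_nonneg_right (le_trans ?_ (ht x hx)) (hF x)
  have h2 : (T.filter fun l => l ∣ x) ⊆ Div277.dvs x := by
    intro l hl
    obtain ⟨h3, h4⟩ := Finset.mem_filter.mp hl
    exact (Div277.mem_dvs hx'.1).mpr ⟨(hT l h3).1, h4⟩
  exact_mod_cast Finset.card_le_card h2

/-- dilating the frequencies -/
lemma dil_freq {F : Eis → ℝ} (hF : ∀ x, 0 ≤ F x) {Z : ℝ} (hZ : 0 ≤ Z) {c : Eis} (hc : c ≠ 0)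
    {W : ℝ} (hW : Z * nm c ≤ W) :
    ∑ x ∈ bl Z, F (x * c) ≤ ∑ y ∈ bl W, F y := by
  have hinj : Set.InjOn (fun k : Eis => k * c) (bl Z : Set Eis) := by
    intro x _ y _ hxy
    exact mul_right_cancel₀ hc hxy
  have hW0 : 0 ≤ W := (mul_nonneg hZ (Nat.cast_nonneg _)).trans hW
  rw [← Finset.sum_image (f := F) hinj]
  refine Finset.sum_le_sum_of_subset_of_nonneg (fun x hx => ?_) (fun _ _ _ => hF _)
  obtain ⟨k, hk, rfl⟩ := Finset.mem_image.mp hx
  have hk' := (mem_bl hZ).1 hk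
  rw [mem_bl hW0]
  refine ⟨mul_ne_zero hk'.1 hc, le_trans ?_ hW⟩
  rw [nm_mul]
  push_cast
  exact mul_le_mul_of_nonneg_right hk'.2 (Nat.cast_nonneg _)

/-- **the merged mean squares** -/
theorem sum_EB_bg {A : ℝ} (hA : 1 < A) {Y : ℝ} (hY : 0 ≤ Y) {b : Eis → ℂ}
    (hb : ∀ n, b n ≠ 0 → n ∈ S Y) {g d f : Eis} (hg : IsPrim g) (hd : IsPrim d) (hf : IsPrim f)
    (κ : Ker) {F0 : Eis} (hF0 : F0 ≠ 0) {Z L τ : ℝ} (hZ : 0 ≤ Z) (hL : 0 ≤ L) (hτ : 0 ≤ τ)
    {T : Finset Eis} (hT : ∀ l ∈ T, IsPrim l ∧ (nm l : ℝ) ≤ L ∧ IsCoprime (d * f) l)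
    (ht : ∀ x ∈ bl (Z * L), (Div277.tau x : ℝ) ≤ τ) {W : ℝ}
    (hW : Z * L * nm (su κ * F0) ≤ W) :
    ∑ l ∈ T, EB A (rs (bg b g l) (ps κ) d f) (F0 * f) Z ≤
      τ * Mode405.VI A b (g * d * f) f 1 W := by
  set F : Eis → ℝ := fun y => EQ A (fun n => b (g * (d * f) * n)) (y * f) with hFd
  have hF : ∀ x, 0 ≤ F x := fun x => EQ_nonneg _ _ _
  have h1 : ∀ l ∈ T, EB A (rs (bg b g l) (ps κ) d f) (F0 * f) Z ≤
      ∑ k ∈ bl Z, F ((k * l) * (su κ * F0)) := by
    intro l hl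
    obtain ⟨hl1, -, hl3⟩ := hT l hl
    unfold EB
    refine Finset.sum_le_sum fun k _ => ?_
    have h2 := EQ_bg hA hY hb hg hl1 (hd.mul hf) hl3 κ (k * (F0 * f))
    unfold rs
    refine h2.trans (le_of_eq ?_)
    rw [hFd]
    beta_reduce
    congr 1
    ring
  refine (Finset.sum_le_sum h1).trans ?_
  refine (merge (F := fun x => F (x * (su κ * F0))) (fun x => hF _) hZ hL
    (fun l hl => ⟨(hT l hl).1, (hT l hl).2.1⟩) ht).trans ?_
  refine mul_le_mul_of_nonneg_left ?_ hτ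
  refine (dil_freq hF (mul_nonneg hZ hL) (mul_ne_zero su_ne hF0) hW).trans (le_of_eq ?_)
  unfold Mode405.VI
  refine Finset.sum_congr rfl fun k _ => ?_
  rw [hFd]
  beta_reduce
  congr 1
  funext n
  rw [if_pos isCoprime_one_right, mul_assoc g d f]

end Crest.Agent.R017.PoH347
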