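import Crest.Agent.R017.PoH7_347

/-!
# Row 17, block C70, leaf E3 (HB form of the MODE lemma), part 8 (helper347)

`block_bound` : the real arithmetic of one block; `RG_sum_le` : sums of regularised mean squares.
-/

set_option autoImplicit false

noncomputable section

open Complex MeasureTheory
open scoped ComplexConjugate Classical

namespace Crest.Agent.R017.PoH347

open Crest.Agent.R012 Crest.Agent.R012.Eis Crest.Agent.R012.MC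
open Crest.Agent.R012.LS2 (S mem_S bl mem_bl)
open Crest.Agent.R012.Mob705 (mu pdiv mem_pdiv)
open Crest.Agent.R017.E1551 (nmpos jb jb_pos nm_ge_one)
open Crest.Agent.R017.BD829
open Crest.Agent.R017.Mode405 (Slp nf Il)

/-! ### cube roots -/

lemma r13 {x : ℝ} (hx : 0 ≤ x) : (x ^ (1 / 3 : ℝ)) ^ 3 = x := by
  rw [← Real.rpow_natCast, ← Real.rpow_mul hx]; norm_num

lemma r23 {x : ℝ} (hx : 0 ≤ x) : (x ^ (2 / 3 : ℝ)) ^ 3 = x ^ 2 := by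
  rw [← Real.rpow_natCast, ← Real.rpow_mul hx, ← Real.rpow_natCast]; norm_num

lemma rm23 {x : ℝ} (hx : 0 ≤ x) : (x ^ (-(2 / 3) : ℝ)) ^ 3 = (x ^ 2)⁻¹ := by
  rw [Real.rpow_neg hx, inv_pow, r23 hx]

lemma rm13 {x : ℝ} (hx : 0 ≤ x) : (x ^ (-(1 / 3) : ℝ)) ^ 3 = x⁻¹ := by
  rw [Real.rpow_neg hx, inv_pow, r13 hx]

lemma cb2 {N1 lm θ lam I : ℝ} (_hN : 0 ≤ N1) (hl : 0 < lm) (hθ : 0 ≤ θ) (hlam : 0 < lam)
    (hI : 0 < I) (h : N1 ^ 3 * θ * I ^ 2 ≤ 8 * lm ^ 2 * lam ^ 3) :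
    N1 * lm ^ (1 / 3 : ℝ) * θ ^ (1 / 3 : ℝ) ≤ 2 * lm * (lam * I ^ (-(2 / 3) : ℝ)) := by
  refine le_of_pow_le_pow_left₀ (n := 3) (by norm_num) (by positivity) ?_
  have e1 : (N1 * lm ^ (1 / 3 : ℝ) * θ ^ (1 / 3 : ℝ)) ^ 3 = N1 ^ 3 * lm * θ := by
    rw [mul_pow, mul_pow, r13 hl.le, r13 hθ]
  have e2 : (2 * lm * (lam * I ^ (-(2 / 3) : ℝ))) ^ 3 = 8 * lm ^ 3 * lam ^ 3 * (I ^ 2)⁻¹ := by
    rw [mul_pow, mul_pow, mul_pow, rm23 hI.le]; ring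
  rw [e1, e2, ← div_eq_mul_inv, le_div_iff₀ (by positivity)]
  calc N1 ^ 3 * lm * θ * I ^ 2 = lm * (N1 ^ 3 * θ * I ^ 2) := by ring
    _ ≤ lm * (8 * lm ^ 2 * lam ^ 3) := mul_le_mul_of_nonneg_left h hl.le
    _ = _ := by ring

lemma cb3 {N1 lm θ lam I : ℝ} (hN : 0 ≤ N1) (hl : 0 < lm) (hθ : 0 ≤ θ) (hlam : 0 < lam)
    (hI : 0 < I) (h : N1 ^ 2 * θ * I ≤ 8 * lm * lam ^ 2) :
    (lm * N1) ^ (2 / 3 : ℝ) * θ ^ (1 / 3 : ℝ) ≤
      2 * lm * (lam ^ (2 / 3 : ℝ) * I ^ (-(1 / 3) : ℝ)) := by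
  refine le_of_pow_le_pow_left₀ (n := 3) (by norm_num) (by positivity) ?_
  have e1 : ((lm * N1) ^ (2 / 3 : ℝ) * θ ^ (1 / 3 : ℝ)) ^ 3 = (lm * N1) ^ 2 * θ := by
    rw [mul_pow, r23 (by positivity), r13 hθ]
  have e2 : (2 * lm * (lam ^ (2 / 3 : ℝ) * I ^ (-(1 / 3) : ℝ))) ^ 3 =
      8 * lm ^ 3 * lam ^ 2 * I⁻¹ := by
    rw [mul_pow, mul_pow, mul_pow, rm13 hI.le, r23 hlam.le]; ring
  rw [e1, e2, ← div_eq_mul_inv, le_div_iff₀ hI]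
  calc (lm * N1) ^ 2 * θ * I = lm ^ 2 * (N1 ^ 2 * θ * I) := by ring
    _ ≤ lm ^ 2 * (8 * lm * lam ^ 2) := mul_le_mul_of_nonneg_left h (by positivity)
    _ = _ := by ring

/-! ### slopes -/

lemma slp_mono {a : ℕ} {W : ℝ → ℝ} (h : Slp a W) {P' P : ℝ} (h1 : 0 < P') (h2 : P' ≤ P) :
    W P' ≤ W P := by
  have hP : 0 < P := h1.trans_le h2
  refine (h.low P' P h1 h2).trans ?_
  refine mul_le_of_le_one_left (h.nonneg P hP) ?_
  exact Real.rpow_le_one (by positivity) ((div_le_one hP).mpr h2) (by norm_num)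

lemma slp_dbl_pow {a : ℕ} {W : ℝ → ℝ} (h : Slp a W) {P : ℝ} (h1 : 0 < P) (n : ℕ) :
    W (2 ^ n * P) ≤ (2 ^ a) ^ n * W P := by
  induction n with
  | zero => simp
  | succ n ih =>
    have h2 : (0 : ℝ) < 2 ^ n * P := by positivity
    calc W (2 ^ (n + 1) * P) = W (2 * (2 ^ n * P)) := by congr 1; ring
      _ ≤ 2 ^ a * W (2 ^ n * P) := h.dbl _ h2
      _ ≤ 2 ^ a * ((2 ^ a) ^ n * W P) := mul_le_mul_of_nonneg_left ih (by positivity)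
      _ = _ := by ring

lemma slp_up {a : ℕ} {W : ℝ → ℝ} (h : Slp a W) {P r : ℝ} (h1 : 0 < P) (hr : 1 ≤ r) :
    W (r * P) ≤ (2 * r) ^ a * W P := by
  obtain ⟨n, hn1, hn2⟩ : ∃ n : ℕ, r ≤ 2 ^ n ∧ (2 : ℝ) ^ n ≤ 2 * r := by
    obtain ⟨n, h2, h3⟩ := exists_nat_pow_near hr (by norm_num : (1 : ℝ) < 2)
    refine ⟨n + 1, h3.le, ?_⟩
    rw [pow_succ]; linarith
  have hr0 : 0 < r := by linarith
  have hW : 0 ≤ W P := h.nonneg P h1
  calc W (r * P) ≤ W (2 ^ n * P) :=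
        slp_mono h (mul_pos hr0 h1) (mul_le_mul_of_nonneg_right hn1 h1.le)
    _ ≤ (2 ^ a) ^ n * W P := slp_dbl_pow h h1 n
    _ = (2 ^ n) ^ a * W P := by rw [← pow_mul, ← pow_mul, mul_comm a n]
    _ ≤ (2 * r) ^ a * W P := by gcongr

/-! ### one block -/

/-- the block at the natural scale -/
lemma block_nat {a : ℕ} {W : ℝ → ℝ} (hW : Slp a W) {c1 c2 X N lam L1 L3 G D E F W1 lm : ℝ}
    (hc1 : 1 ≤ c1) (hc2 : 1 ≤ c2) (hX : 0 < X) (hN : 0 < N) (hlam : 0 < lam) (hL1 : 1 ≤ L1)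
    (hL3 : 1 ≤ L3) (hG : 1 ≤ G) (hE : 1 ≤ E) (hED : E ≤ D) (hF : 1 ≤ F) (hEl : E ≤ lam)
    (hl : L1 * (G * L3) ^ 2 ≤ lam) (hW1 : 0 ≤ W1)
    (hWW : ∀ E : ℝ, 1 ≤ E → E ≤ lam → W (8 * c1 * c2 * Il N lam X * E) ≤ E * W1)
    (hlm : lm = c2 * E * (N * L3 * L1) / (X * D ^ 2)) :
    X ^ 2 / (N * L3 * L1) * (D / E) ^ 2 * (nrm (G * L1 / (D * F)) lm * W (c1 * lm * L3 * E ^ 2)) ≤
      2 * c2 * (X * nf lam (Il N lam X) * W1) := by
  have hD : 1 ≤ D := hE.trans hED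
  have hI : 0 < Il N lam X := by unfold Il; positivity
  set I := Il N lam X with hIdef
  have hI' : I = N * lam / X := rfl
  have hlm0 : 0 < lm := by rw [hlm]; positivity
  set N1 : ℝ := G * L1 / (D * F) with hN1
  have hN10 : 0 < N1 := by positivity
  set θ : ℝ := (E / D) ^ 2 * (L1 * L3 ^ 2) / (8 * lam) with hθ
  have hθ0 : 0 < θ := by positivity
  have hG2 : 1 ≤ G ^ 2 := one_le_pow₀ hG
  have hL32 : 1 ≤ L3 ^ 2 := one_le_pow₀ hL3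
  have hl' : L1 * L3 ^ 2 ≤ lam := by
    refine le_trans ?_ hl
    rw [mul_pow]
    have : L3 ^ 2 ≤ G ^ 2 * L3 ^ 2 := le_mul_of_one_le_left (by positivity) hG2
    exact mul_le_mul_of_nonneg_left this (by positivity)
  have hED' : (E / D) ^ 2 ≤ 1 := pow_le_one₀ (by positivity) ((div_le_one (by linarith)).mpr hED)
  have hθ1 : θ ≤ 1 := by
    rw [hθ, div_le_one (by positivity)]
    calc (E / D) ^ 2 * (L1 * L3 ^ 2) ≤ 1 * lam :=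
          mul_le_mul hED' hl' (by positivity) zero_le_one
      _ ≤ 8 * lam := by linarith
  -- the value of `W`
  have hP : c1 * lm * L3 * E ^ 2 = θ * (8 * c1 * c2 * I * E) := by
    rw [hlm, hθ, hI']
    field_simp
  have hWP : W (c1 * lm * L3 * E ^ 2) ≤ θ ^ (1 / 3 : ℝ) * (E * W1) := by
    have h1 : 0 < 8 * c1 * c2 * I * E := by positivity
    have h2 := hW.low (θ * (8 * c1 * c2 * I * E)) (8 * c1 * c2 * I * E) (by positivity)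
      (mul_le_of_le_one_left h1.le hθ1)
    rw [mul_div_assoc, div_self h1.ne', mul_one] at h2
    rw [hP]
    exact h2.trans (mul_le_mul_of_nonneg_left (hWW E hE hEl) (by positivity))
  -- the three terms
  have t1 : lm * θ ^ (1 / 3 : ℝ) ≤ 2 * lm * 1 := by
    have : θ ^ (1 / 3 : ℝ) ≤ 1 := Real.rpow_le_one hθ0.le hθ1 (by norm_num)
    nlinarith
  have hGL : G ^ 3 * L1 ^ 2 ≤ lam ^ 2 := by
    calc G ^ 3 * L1 ^ 2 ≤ (L1 * (G * L3) ^ 2) ^ 2 := by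
          have h1 : (1 : ℝ) ≤ G * L3 ^ 4 := one_le_mul_of_one_le_of_one_le hG (one_le_pow₀ hL3)
          calc G ^ 3 * L1 ^ 2 ≤ G ^ 3 * L1 ^ 2 * (G * L3 ^ 4) :=
                le_mul_of_one_le_right (by positivity) h1
            _ = _ := by ring
      _ ≤ lam ^ 2 := pow_le_pow_left₀ (by positivity) hl 2
  have hGL2 : G ^ 2 * L1 ^ 2 * L3 ≤ lam ^ 2 := by
    calc G ^ 2 * L1 ^ 2 * L3 ≤ (L1 * (G * L3) ^ 2) ^ 2 := by
          have h1 : (1 : ℝ) ≤ G ^ 2 * L3 ^ 3 :=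
            one_le_mul_of_one_le_of_one_le hG2 (one_le_pow₀ hL3)
          calc G ^ 2 * L1 ^ 2 * L3 ≤ G ^ 2 * L1 ^ 2 * L3 * (G ^ 2 * L3 ^ 3) :=
                le_mul_of_one_le_right (by positivity) h1
            _ = _ := by ring
      _ ≤ lam ^ 2 := pow_le_pow_left₀ (by positivity) hl 2
  have t2 : N1 * lm ^ (1 / 3 : ℝ) * θ ^ (1 / 3 : ℝ) ≤ 2 * lm * (lam * I ^ (-(2 / 3) : ℝ)) := by
    refine cb2 hN10.le hlm0 hθ0.le hlam hI ?_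
    have e1 : N1 ^ 3 * θ * I ^ 2 =
        (G ^ 3 * L1 ^ 2) * (L1 ^ 2 * L3 ^ 2 * E ^ 2 * N ^ 2 * lam) / (8 * D ^ 5 * F ^ 3 * X ^ 2) := by
      rw [hN1, hθ, hI']; field_simp
    have e2 : 8 * lm ^ 2 * lam ^ 3 =
        (lam ^ 2) * (L1 ^ 2 * L3 ^ 2 * E ^ 2 * N ^ 2 * lam) * (64 * c2 ^ 2 * D * F ^ 3) /
          (8 * D ^ 5 * F ^ 3 * X ^ 2) := by
      rw [hlm]; field_simp; ring
    rw [e1, e2]
    refine div_le_div_of_nonneg_right ?_ (by positivity)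
    have h1 : (1 : ℝ) ≤ 64 * c2 ^ 2 * D * F ^ 3 := by
      have a1 : (1 : ℝ) ≤ c2 ^ 2 := one_le_pow₀ hc2
      have a2 : (1 : ℝ) ≤ F ^ 3 := one_le_pow₀ hF
      have a3 : (1 : ℝ) ≤ 64 * c2 ^ 2 := by linarith
      exact one_le_mul_of_one_le_of_one_le (one_le_mul_of_one_le_of_one_le a3 hD) a2
    calc (G ^ 3 * L1 ^ 2) * (L1 ^ 2 * L3 ^ 2 * E ^ 2 * N ^ 2 * lam)
        ≤ lam ^ 2 * (L1 ^ 2 * L3 ^ 2 * E ^ 2 * N ^ 2 * lam) :=
          mul_le_mul_of_nonneg_right hGL (by positivity)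
      _ ≤ _ := le_mul_of_one_le_right (by positivity) h1
  have t3 : (lm * N1) ^ (2 / 3 : ℝ) * θ ^ (1 / 3 : ℝ) ≤
      2 * lm * (lam ^ (2 / 3 : ℝ) * I ^ (-(1 / 3) : ℝ)) := by
    refine cb3 hN10.le hlm0 hθ0.le hlam hI ?_
    have e1 : N1 ^ 2 * θ * I =
        (G ^ 2 * L1 ^ 2 * L3) * (L1 * L3 * E * N) * E / (8 * D ^ 4 * F ^ 2 * X) := by
      rw [hN1, hθ, hI']; field_simp
    have e2 : 8 * lm * lam ^ 2 = (lam ^ 2) * (L1 * L3 * E * N) * (64 * c2 * D ^ 2 * F ^ 2) /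
          (8 * D ^ 4 * F ^ 2 * X) := by
      rw [hlm]; field_simp; ring
    rw [e1, e2]
    refine div_le_div_of_nonneg_right ?_ (by positivity)
    have h1 : E ≤ 64 * c2 * D ^ 2 * F ^ 2 := by
      have a1 : (1 : ℝ) ≤ D * F ^ 2 := one_le_mul_of_one_le_of_one_le hD (one_le_pow₀ hF)
      have a3 : (1 : ℝ) ≤ 64 * c2 := by linarith
      calc E ≤ D := hED
        _ ≤ D * (64 * c2 * (D * F ^ 2)) :=
            le_mul_of_one_le_right (by linarith) (one_le_mul_of_one_le_of_one_le a3 a1)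
        _ = _ := by ring
    calc (G ^ 2 * L1 ^ 2 * L3) * (L1 * L3 * E * N) * E
        ≤ lam ^ 2 * (L1 * L3 * E * N) * (64 * c2 * D ^ 2 * F ^ 2) := by
          refine mul_le_mul (mul_le_mul_of_nonneg_right hGL2 (by positivity)) h1
            (by linarith) (by positivity)
      _ = _ := rfl
  -- assembly
  have hnrm : nrm N1 lm * θ ^ (1 / 3 : ℝ) ≤ 2 * lm * nf lam I := by
    unfold nrm nf
    calc (lm + N1 * lm ^ (1 / 3 : ℝ) + (lm * N1) ^ (2 / 3 : ℝ)) * θ ^ (1 / 3 : ℝ)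
        = lm * θ ^ (1 / 3 : ℝ) + N1 * lm ^ (1 / 3 : ℝ) * θ ^ (1 / 3 : ℝ) +
          (lm * N1) ^ (2 / 3 : ℝ) * θ ^ (1 / 3 : ℝ) := by ring
      _ ≤ 2 * lm * 1 + 2 * lm * (lam * I ^ (-(2 / 3) : ℝ)) +
          2 * lm * (lam ^ (2 / 3 : ℝ) * I ^ (-(1 / 3) : ℝ)) := by linarith
      _ = _ := by ring
  have hn0 : 0 ≤ nrm N1 lm := nrm_nonneg hN10.le hlm0.le
  have hpre : X ^ 2 / (N * L3 * L1) * (D / E) ^ 2 * E * lm = c2 * X := by
    rw [hlm]; field_simp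
  calc X ^ 2 / (N * L3 * L1) * (D / E) ^ 2 * (nrm N1 lm * W (c1 * lm * L3 * E ^ 2))
      ≤ X ^ 2 / (N * L3 * L1) * (D / E) ^ 2 * (nrm N1 lm * (θ ^ (1 / 3 : ℝ) * (E * W1))) := by
        gcongr
    _ = X ^ 2 / (N * L3 * L1) * (D / E) ^ 2 * E * W1 * (nrm N1 lm * θ ^ (1 / 3 : ℝ)) := by ring
    _ ≤ X ^ 2 / (N * L3 * L1) * (D / E) ^ 2 * E * W1 * (2 * lm * nf lam I) :=
        mul_le_mul_of_nonneg_left hnrm (by positivity)
    _ = 2 * (X ^ 2 / (N * L3 * L1) * (D / E) ^ 2 * E * lm) * W1 * nf lam I := by ring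
    _ = _ := by rw [hpre]; ring

/-- **one block** -/
theorem block_bound {a B : ℕ} (hB : a + 1 ≤ B) {W : ℝ → ℝ} (hW : Slp a W)
    {c1 c2 X N lam L1 L3 G D E F W1 lm : ℝ}
    (hc1 : 1 ≤ c1) (hc2 : 1 ≤ c2) (hX : 0 < X) (hN : 0 < N) (hlam : 0 < lam) (hL1 : 1 ≤ L1)
    (hL3 : 1 ≤ L3) (hG : 1 ≤ G) (hE : 1 ≤ E) (hED : E ≤ D) (hF : 1 ≤ F) (hEl : E ≤ lam)
    (hl : L1 * (G * L3) ^ 2 ≤ lam) (hW1 : 0 ≤ W1)
    (hWW : ∀ E : ℝ, 1 ≤ E → E ≤ lam → W (8 * c1 * c2 * Il N lam X * E) ≤ E * W1)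
    (hlm : lm = c2 * E * (N * L3 * L1) / (X * D ^ 2)) :
    X ^ 2 / (N * L3 * L1) * (D / E) ^ 2 * nrm (G * L1 / (D * F)) (max 1 lm) *
      ((min 1 lm) ^ B * W (c1 * max 1 lm * L3 * E ^ 2)) ≤
      2 ^ (a + 1) * c2 * (X * nf lam (Il N lam X) * W1) := by
  have hD : 1 ≤ D := hE.trans hED
  have hlm0 : 0 < lm := by rw [hlm]; positivity
  have hN1 : 0 ≤ G * L1 / (D * F) := by positivity
  have hb := block_nat hW hc1 hc2 hX hN hlam hL1 hL3 hG hE hED hF hEl hl hW1 hWW hlm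
  have hI : 0 < Il N lam X := by unfold Il; positivity
  have hnf : 0 ≤ X * nf lam (Il N lam X) * W1 := by
    unfold nf; positivity
  have hpre : 0 ≤ X ^ 2 / (N * L3 * L1) * (D / E) ^ 2 := by positivity
  have h2a : (1 : ℝ) ≤ 2 ^ a := one_le_pow₀ (by norm_num)
  have hfin : 2 ^ a * (2 * c2 * (X * nf lam (Il N lam X) * W1)) =
      2 ^ (a + 1) * c2 * (X * nf lam (Il N lam X) * W1) := by ring
  rw [← hfin]
  rcases le_total 1 lm with h | h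
  · rw [max_eq_right h, min_eq_left h, one_pow, one_mul]
    refine le_trans (le_of_eq (by ring)) (hb.trans ?_)
    exact le_mul_of_one_le_left (by positivity) h2a
  · rw [max_eq_left h, min_eq_right h]
    have hinv : 1 ≤ lm⁻¹ := (one_le_inv₀ hlm0).mpr h
    have h1 : nrm (G * L1 / (D * F)) 1 ≤ lm⁻¹ * nrm (G * L1 / (D * F)) lm := by
      have := nrm_smul hN1 hlm0.le hinv
      rwa [inv_mul_cancel₀ hlm0.ne'] at this
    have hP0 : 0 < c1 * lm * L3 * E ^ 2 := by positivity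
    have h2 : W (c1 * 1 * L3 * E ^ 2) ≤ (2 * lm⁻¹) ^ a * W (c1 * lm * L3 * E ^ 2) := by
      have := slp_up hW hP0 hinv
      have e1 : lm⁻¹ * (c1 * lm * L3 * E ^ 2) = c1 * 1 * L3 * E ^ 2 := by
        field_simp
      rwa [e1] at this
    have hW0 : 0 ≤ W (c1 * lm * L3 * E ^ 2) := hW.nonneg _ hP0
    have hW2 : 0 ≤ W (c1 * 1 * L3 * E ^ 2) := hW.nonneg _ (by positivity)
    have hn0 : 0 ≤ nrm (G * L1 / (D * F)) lm := nrm_nonneg hN1 hlm0.le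
    have hn1 : 0 ≤ nrm (G * L1 / (D * F)) 1 := nrm_nonneg hN1 zero_le_one
    have h3 : lm ^ B * (lm⁻¹ * (2 * lm⁻¹) ^ a) ≤ 2 ^ a := by
      obtain ⟨k, rfl⟩ := Nat.exists_eq_add_of_le hB
      have e1 : lm ^ (a + 1 + k) * (lm⁻¹ * (2 * lm⁻¹) ^ a) = 2 ^ a * lm ^ k := by
        rw [mul_pow, inv_pow]
        field_simp
        ring
      rw [e1]
      exact mul_le_of_le_one_right (by positivity) (pow_le_one₀ hlm0.le h)
    calc X ^ 2 / (N * L3 * L1) * (D / E) ^ 2 * nrm (G * L1 / (D * F)) 1 *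
          (lm ^ B * W (c1 * 1 * L3 * E ^ 2))
        ≤ X ^ 2 / (N * L3 * L1) * (D / E) ^ 2 * (lm⁻¹ * nrm (G * L1 / (D * F)) lm) *
          (lm ^ B * ((2 * lm⁻¹) ^ a * W (c1 * lm * L3 * E ^ 2))) := by
          gcongr
      _ = (lm ^ B * (lm⁻¹ * (2 * lm⁻¹) ^ a)) * (X ^ 2 / (N * L3 * L1) * (D / E) ^ 2 *
          (nrm (G * L1 / (D * F)) lm * W (c1 * lm * L3 * E ^ 2))) := by ring
      _ ≤ 2 ^ a * (2 * c2 * (X * nf lam (Il N lam X) * W1)) := by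
          refine mul_le_mul h3 hb ?_ (by positivity)
          positivity

/-! ### sums of regularised mean squares -/

lemma RG_mono {A : ℝ} (hA : 1 < A) {a : ℕ} (ha : 3 ≤ a) {N : ℝ} (hN : 1 ≤ N) {u : Eis → ℂ}
    (hu : ∀ n, u n ≠ 0 → n ∈ S N) (F : Eis) {Z Z' : ℝ} (hZ : 1 ≤ Z) (h : Z ≤ Z') :
    RG A a u F Z ≤ RG A a u F Z' := by
  unfold RG
  refine Summable.tsum_le_tsum (fun j => ?_) (RG_summable hA ha hN hu F hZ)
    (RG_summable hA ha hN hu F (hZ.trans h))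
  refine mul_le_mul_of_nonneg_left (EB_mono _ _ _ (by positivity) ?_) (by positivity)
  exact mul_le_mul_of_nonneg_left h (by positivity)

lemma RG_sum_le {A : ℝ} (hA : 1 < A) {a : ℕ} {N : ℝ} (hN : 1 ≤ N) {ι : Type*} (T : Finset ι)
    {u : ι → Eis → ℂ} (hu : ∀ i ∈ T, ∀ n, u i n ≠ 0 → n ∈ S N) (F : Eis) {Z : ℝ} (hZ : 1 ≤ Z)
    {K : ℝ} (h : ∀ j : ℕ, ∑ i ∈ T, EB A (u i) F (2 ^ j * Z) ≤ K * (2 ^ (a + 1)) ^ j) :
    ∑ i ∈ T, RG A (a + 3) (u i) F Z ≤ 2 * K := by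
  have hK : 0 ≤ K := by
    have h1 := h 0
    rw [pow_zero, pow_zero, mul_one] at h1
    exact (Finset.sum_nonneg fun _ _ => EB_nonneg _ _ _ _).trans h1
  have hs : ∀ i ∈ T, Summable fun j : ℕ => (((2 : ℝ) ^ (a + 3))⁻¹) ^ j *
      EB A (u i) F (2 ^ j * Z) := fun i hi => RG_summable hA (by omega) hN (hu i hi) F hZ
  unfold RG
  rw [← Summable.tsum_finsetSum hs]
  have hg : Summable fun j : ℕ => K * ((1 : ℝ) / 4) ^ j :=
    (summable_geometric_of_lt_one (by norm_num) (by norm_num)).mul_left K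
  have h2 : ∀ j : ℕ, ∑ i ∈ T, (((2 : ℝ) ^ (a + 3))⁻¹) ^ j * EB A (u i) F (2 ^ j * Z) ≤
      K * ((1 : ℝ) / 4) ^ j := by
    intro j
    rw [← Finset.mul_sum]
    calc (((2 : ℝ) ^ (a + 3))⁻¹) ^ j * ∑ i ∈ T, EB A (u i) F (2 ^ j * Z)
        ≤ (((2 : ℝ) ^ (a + 3))⁻¹) ^ j * (K * (2 ^ (a + 1)) ^ j) :=
          mul_le_mul_of_nonneg_left (h j) (by positivity)
      _ = K * ((((2 : ℝ) ^ (a + 3))⁻¹) * 2 ^ (a + 1)) ^ j := by rw [mul_pow]; ring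
      _ = K * ((1 : ℝ) / 4) ^ j := by
          congr 2
          rw [show a + 3 = (a + 1) + 2 by ring, pow_add _ (a + 1) 2]
          field_simp
          norm_num
  refine (Summable.tsum_le_tsum h2 ?_ hg).trans ?_
  · exact summable_sum hs
  · rw [tsum_mul_left, tsum_geometric_of_lt_one (by norm_num) (by norm_num)]
    linarith

end Crest.Agent.R017.PoH347
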