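import Crest.Agent.R017.PoH8_347

/-!
# Row 17, block C70, leaf E3 (HB form of the MODE lemma), part 9 (helper347)

`inner_block` : one dilated sequence `bg b g l`, the `l₁` in one dyadic block.
-/

set_option autoImplicit false

noncomputable section

open Complex MeasureTheory
open scoped ComplexConjugate Classical

namespace Crest.Agent.R017.PoH347

open Crest.Agent.R012 Crest.Agent.R012.Eis Crest.Agent.R012.MC
open Crest.Agent.R012.LS2 (S mem_S bl mem_bl)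
open Crest.Agent.R012.Mob705 (mu pdiv mem_pdiv)
open Crest.Agent.R012.NonCube52 (Ker kv Good)
open Crest.Agent.R017.E1551 (nmpos jb jb_pos nm_ge_one)
open Crest.Agent.R017.BD829
open Crest.Agent.R017.Mode405 (Slp nf Il)

/-- comparison of sums -/
lemma sum_le_sub {ι : Type*} {s t : Finset ι} {f g : ι → ℝ} (hg : ∀ x ∈ t, 0 ≤ g x)
    (h : ∀ x ∈ s, f x ≠ 0 → x ∈ t ∧ f x ≤ g x) : ∑ x ∈ s, f x ≤ ∑ x ∈ t, g x := by
  rw [← Finset.sum_filter_ne_zero]
  calc ∑ x ∈ s.filter (fun x => f x ≠ 0), f x ≤ ∑ x ∈ s.filter (fun x => f x ≠ 0), g x :=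
        Finset.sum_le_sum fun x hx => (h x (Finset.mem_filter.mp hx).1
          (Finset.mem_filter.mp hx).2).2
    _ ≤ ∑ x ∈ t, g x := Finset.sum_le_sum_of_subset_of_nonneg
        (fun x hx => (h x (Finset.mem_filter.mp hx).1 (Finset.mem_filter.mp hx).2).1)
        (fun x hx _ => hg x hx)

lemma RG_zero {A : ℝ} {a : ℕ} {u : Eis → ℂ} (hu : ∀ n, u n = 0) (F : Eis) (Z : ℝ) :
    RG A a u F Z = 0 := by
  unfold RG EB EQ
  simp [TT_zero hu]

lemma su_cop (κ : Ker) {c : Eis} (hc : IsPrim c) : IsCoprime (su κ) c := by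
  have h3 : IsCoprime (3 : Eis) c := hc.isCoprime_three.symm
  have hl : IsCoprime lam c := h3.of_isCoprime_of_dvd_left lam_dvd_three
  unfold su
  exact (isCoprime_of_isUnit (isUnit_w.pow _) _).mul_left hl.pow_left

lemma LC_ps (κ : Ker) : LC (9 * su κ) (ps κ) :=
  (LC_sy su_ne (fun _ hc => su_cop κ hc)).conj

lemma nm_su_le {κ : Ker} (hκ : κ.1.2 < 3) : (nm (su κ) : ℝ) ≤ 9 := by
  have h1 : nm (su κ) = 3 ^ κ.1.2 := by
    unfold su
    simp only [nm_mul, nm_pow, nm_w, nm_lam, one_pow, one_mul]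
  rw [h1]
  push_cast
  calc (3 : ℝ) ^ κ.1.2 ≤ 3 ^ 2 := pow_le_pow_right₀ (by norm_num) (by omega)
    _ = 9 := by norm_num

lemma nm_M_le {κ : Ker} (hκ : κ.1.2 < 3) : (nm (9 * su κ) : ℝ) ≤ 729 := by
  have h1 := nm_su_le hκ
  have h9 : nm (9 : Eis) = 81 := by
    have : (9 : Eis) = 3 * 3 := by norm_num
    rw [this, nm_mul, nm_three]
  rw [nm_mul, h9]
  push_cast
  linarith

/-- the `l₁` of one block -/
def H1 (lam₀ : ℝ) (p : ℕ × ℕ) (g l : Eis) (j : ℕ) : Finset Eis :=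
  (S lam₀).filter fun l₁ => Good (p, (l₁, g * l)) ∧ (nm (kv (p, (l₁, g * l))) : ℝ) ≤ lam₀ ∧
    Nat.log 2 (nm l₁) = j

/-- the scale of the block -/
def lmp (N X : ℝ) (j1 j3 : ℕ) (d e : Eis) : ℝ :=
  17496 * nm e * (N * 2 ^ j3 * 2 ^ j1) / (X * (nm d : ℝ) ^ 2)

/-- one term of the block bound -/
def Tm (A : ℝ) (B a : ℕ) (N X : ℝ) (j1 j3 : ℕ) (κ : Ker) (b : Eis → ℂ) (g l d e f : Eis) : ℝ :=
  X ^ 2 / (N * 2 ^ j3 * 2 ^ j1) * (nm d / nm e : ℝ) ^ 2 *
    nrm (nm g * 2 ^ j1 / (nm d * nm f)) (max 1 (lmp N X j1 j3 d e)) *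
    ((min 1 (lmp N X j1 j3 d e)) ^ B *
      RG A a (rs (bg b g l) (ps κ) d f) ((e * ((9 * su κ) * sq3)) ^ 2 * f)
        (max 1 (lmp N X j1 j3 d e)))

lemma lmp_pos {N X : ℝ} (hN : 0 < N) (hX : 0 < X) (j1 j3 : ℕ) {d e : Eis} (hd : d ≠ 0)
    (he : e ≠ 0) : 0 < lmp N X j1 j3 d e := by
  have h1 := nmpos hd
  have h2 := nmpos he
  unfold lmp; positivity

lemma Tm_nonneg {A : ℝ} {B a : ℕ} {N X : ℝ} (hN : 0 < N) (hX : 0 < X) (j1 j3 : ℕ) (κ : Ker)
    (b : Eis → ℂ) (g l : Eis) {d e f : Eis} (hd : d ≠ 0) (he : e ≠ 0) :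
    0 ≤ Tm A B a N X j1 j3 κ b g l d e f := by
  have h := lmp_pos hN hX j1 j3 hd he
  have h1 : 0 ≤ nrm (nm g * 2 ^ j1 / (nm d * nm f)) (max 1 (lmp N X j1 j3 d e)) :=
    nrm_nonneg (by positivity) (by positivity)
  have h2 := RG_nonneg A a (rs (bg b g l) (ps κ) d f) ((e * ((9 * su κ) * sq3)) ^ 2 * f)
        (max 1 (lmp N X j1 j3 d e))
  have h3 : 0 ≤ min 1 (lmp N X j1 j3 d e) := (lt_min one_pos h).le
  unfold Tm; positivity

lemma pow_log_le {n : ℕ} (hn : n ≠ 0) {j : ℕ} (h : Nat.log 2 n = j) :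
    (2 : ℝ) ^ j ≤ n ∧ (n : ℝ) ≤ 2 * 2 ^ j := by
  have h1 := Nat.pow_log_le_self 2 hn
  have h2 := Nat.lt_pow_succ_log_self (b := 2) (by norm_num) n
  rw [h] at h1 h2
  refine ⟨by exact_mod_cast h1, ?_⟩
  have h3 : (n : ℝ) ≤ 2 ^ (j + 1) := by exact_mod_cast h2.le
  rw [pow_succ] at h3
  linarith

set_option maxHeartbeats 1000000 in
/-- **one dilated sequence, one dyadic block** -/
theorem inner_block {R : ℝ} (hR : 0 ≤ R) {A B a : ℕ} (hA : 1 < A)
    (hB : a + 1 ≤ B) (ha : 3 ≤ a) {ε : ℝ} (hε : 0 < ε) :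
    ∃ C : ℝ, 0 < C ∧ ∀ (v : ℝ → ℝ), Wgt v → ∀ C0 : ℝ, KT v (max R 2) A B C0 →
      ∀ Z N X X' lam₀ : ℝ, 1 ≤ Z → 0 < N → N ≤ Z → 0 < X → 1 ≤ X * Z → X / 4 ≤ X' → X' ≤ X →
      1 ≤ lam₀ → lam₀ ≤ Z → lam₀ * Real.exp R < N →
      ∀ b : Eis → ℂ, (∀ n, b n ≠ 0 → n ∈ S Z) → Win b (Real.log N) R →
      ∀ (p : ℕ × ℕ), p.2 < 3 → ∀ g l : Eis, IsPrim g → IsPrim l → Squarefree (g * l) →
      ∀ j1 j3 : ℕ, Nat.log 2 (nm l) = j3 →
      ∑ l₁ ∈ H1 lam₀ p g l j1, ‖Sh v X' (ps (p, (1, 1))) (bg b g l) (g * l₁)‖ ^ 2 ≤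
        C * (1 + C0) ^ 2 * Z ^ ε * ∑ d ∈ S lam₀, ∑ e ∈ pdiv d, ∑ f ∈ S lam₀,
          if IsCoprime (d * f) l then Tm A B a N X j1 j3 (p, (1, 1)) b g l d e f else 0 := by
  have hA' : (1 : ℝ) < (A : ℝ) := by exact_mod_cast hA
  set R' : ℝ := max R 2 with hR'
  have hR'0 : 0 ≤ R' := by rw [hR']; positivity
  have hR'2 : 2 ≤ R' := le_max_right _ _
  have hRR' : R ≤ R' := le_max_left _ _
  obtain ⟨C, hC, hreg⟩ := poh_reg hR'0 hA hB ha (ε := ε / 2) (by linarith)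
  refine ⟨C * 729 ^ (ε / 2), by positivity, ?_⟩
  intro v hv C0 hk Z N X X' lam₀ hZ hN hNZ hX hXZ hX'1 hX'2 hlam1 hlZ hlN b hb hwb p hp g l hg hl hgl
    j1 j3 hj3
  have hZ0 : 0 < Z := by linarith
  have hX' : 0 < X' := by linarith
  have hlam0 : 0 ≤ lam₀ := by linarith
  set κ : Ker := (p, (1, 1)) with hκ
  have ng := nmpos hg.ne_zero
  have nl := nmpos hl.ne_zero
  have ng1 := nm_ge_one hg.ne_zero
  have nl1 := nm_ge_one hl.ne_zero
  have hl3 := pow_log_le (nm_pos.mpr hl.ne_zero).ne' hj3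
  have hgs : Squarefree g := (squarefree_mul_iff.mp hgl).2.1
  have hls : Squarefree l := (squarefree_mul_iff.mp hgl).2.2
  have hglc : IsCoprime g l := cop_of_sqf hgl
  have hC0 := hk.1
  -- nonnegativity of the right side
  have hTm : ∀ d ∈ S lam₀, ∀ e ∈ pdiv d, ∀ f ∈ S lam₀,
      0 ≤ if IsCoprime (d * f) l then Tm A B a N X j1 j3 κ b g l d e f else 0 := by
    intro d hd e he f _
    have hd' := (mem_S hlam0).1 hd
    split_ifs
    · exact Tm_nonneg hN hX j1 j3 κ b g l hd'.2.1.ne_zero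
        ((mem_pdiv hd'.2.1.ne_zero).mp he).1.ne_zero
    · exact le_rfl
  rcases (H1 lam₀ p g l j1).eq_empty_or_nonempty with hem | ⟨x0, hx0⟩
  · rw [hem, Finset.sum_empty]
    have : 0 ≤ ∑ d ∈ S lam₀, ∑ e ∈ pdiv d, ∑ f ∈ S lam₀,
          if IsCoprime (d * f) l then Tm A B a N X j1 j3 κ b g l d e f else 0 :=
      Finset.sum_nonneg fun d hd => Finset.sum_nonneg fun e he => Finset.sum_nonneg fun f hf =>
        hTm d hd e he f hf
    exact mul_nonneg (by positivity) this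
  -- the properties of the elements of the block
  have hprop : ∀ x ∈ H1 lam₀ p g l j1, IsPrim x ∧ Squarefree x ∧ IsCoprime x (g * l) ∧
      (nm x : ℝ) * (nm g * nm l) ^ 2 ≤ lam₀ ∧ (2 : ℝ) ^ j1 ≤ nm x ∧ (nm x : ℝ) ≤ 2 * 2 ^ j1 := by
    intro x hx
    obtain ⟨h1, h2, h3, h4⟩ := Finset.mem_filter.mp hx
    have h5 := pow_log_le (nm_pos.mpr h2.prim1.ne_zero).ne' h4
    refine ⟨h2.prim1, h2.sqf1, h2.cop, ?_, h5.1, h5.2⟩
    have h6 := NonCube52.nm_kv_ge (p, (x, g * l))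
    refine le_trans (le_trans (le_of_eq ?_) h6) h3
    rw [nm_mul]
    push_cast
    ring
  -- the set of the products
  set Hs : Finset Eis := (H1 lam₀ p g l j1).image (fun x => g * x) with hHs
  have hinj : Set.InjOn (fun x : Eis => g * x) (H1 lam₀ p g l j1 : Set Eis) := by
    intro x _ y _ hxy
    exact mul_left_cancel₀ hg.ne_zero hxy
  have hmemH : ∀ h ∈ Hs, ∃ x ∈ H1 lam₀ p g l j1, h = g * x := by
    intro h hh
    obtain ⟨x, hx, hx'⟩ := Finset.mem_image.mp hh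
    exact ⟨x, hx, hx'.symm⟩
  have hsumH : ∑ l₁ ∈ H1 lam₀ p g l j1, ‖Sh v X' (ps κ) (bg b g l) (g * l₁)‖ ^ 2 =
      ∑ h ∈ Hs, ‖Sh v X' (ps κ) (bg b g l) h‖ ^ 2 := by
    rw [hHs, Finset.sum_image hinj]
  have hgx : ∀ x ∈ H1 lam₀ p g l j1, (nm g : ℝ) * nm x ≤ lam₀ := by
    intro x hx
    obtain ⟨h1, -, -, h4, -, -⟩ := hprop x hx
    have nx := nmpos h1.ne_zero
    refine le_trans ?_ h4
    have h5 : (nm g : ℝ) ≤ (nm g * nm l) ^ 2 := by
      have h6 : (nm g : ℝ) ≤ nm g * nm l := le_mul_of_one_le_right ng.le nl1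
      have h7 : (1 : ℝ) ≤ nm g * nm l := ng1.trans h6
      calc (nm g : ℝ) ≤ nm g * nm l := h6
        _ ≤ (nm g * nm l) * (nm g * nm l) := le_mul_of_one_le_left (by linarith) h7
        _ = _ := by ring
    rw [mul_comm]
    exact mul_le_mul_of_nonneg_left h5 nx.le
  set Y : ℝ := Z ^ 2 with hY
  have hZY : Z ≤ Y := by rw [hY]; nlinarith
  have hY1 : 1 ≤ Y := by linarith
  have hY0 : 0 ≤ Y := by linarith
  -- support and window of the dilated sequence
  have hbs : ∀ n, bg b g l n ≠ 0 → n ∈ S Y := by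
    intro m hm
    obtain ⟨n, rfl, hc, hn⟩ := exists_of_bg hl.ne_zero hm
    have h1 := (mem_S hZ0.le).1 (hb _ hn)
    have hnp : IsPrim n := h1.2.1.of_mul_left hg
    have hns : Squarefree n := h1.2.2.of_mul_right
    rw [mem_S hY0]
    refine ⟨?_, hl.mul hnp, ?_⟩
    · rw [nm_mul]
      push_cast
      have h2 : (nm n : ℝ) ≤ Z := by
        refine le_trans ?_ h1.1
        rw [nm_mul]
        push_cast
        exact le_mul_of_one_le_left (Nat.cast_nonneg _) ng1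
      have h3 : (nm l : ℝ) ≤ Z := by
        obtain ⟨h4, -, -, h5, -, -⟩ := hprop x0 hx0
        have nx1 := nm_ge_one h4.ne_zero
        have h6 : (nm l : ℝ) ≤ nm x0 * (nm g * nm l) ^ 2 := by
          have h7 : (nm l : ℝ) ≤ nm g * nm l := le_mul_of_one_le_left nl.le ng1
          have h8 : (1 : ℝ) ≤ nm g * nm l := nl1.trans h7
          calc (nm l : ℝ) ≤ nm g * nm l := h7
            _ ≤ (nm g * nm l) * (nm g * nm l) := le_mul_of_one_le_left (by linarith) h8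
            _ ≤ nm x0 * ((nm g * nm l) * (nm g * nm l)) :=
                le_mul_of_one_le_left (by positivity) nx1
            _ = _ := by ring
        linarith
      calc (nm l : ℝ) * nm n ≤ Z * Z := mul_le_mul h3 h2 (Nat.cast_nonneg _) hZ0.le
        _ = Y := by rw [hY]; ring
    · exact squarefree_mul_iff.mpr ⟨(hc.of_mul_right_right).symm.isRelPrime, hls, hns⟩
  have hN' : 0 < N * nm l / nm g := by positivity
  have hwbs : Win (bg b g l) (Real.log (N * nm l / nm g)) R' := by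
    intro m hm
    obtain ⟨n, rfl, hc, hn⟩ := exists_of_bg hl.ne_zero hm
    have h1 := hwb _ hn
    have h2 := (mem_S hZ0.le).1 (hb _ hn)
    have hnp : IsPrim n := h2.2.1.of_mul_left hg
    have nn := nmpos hnp.ne_zero
    rw [nm_mul] at h1 ⊢
    push_cast at h1 ⊢
    rw [Real.log_mul ng.ne' nn.ne'] at h1
    rw [Real.log_mul nl.ne' nn.ne', Real.log_div (by positivity) ng.ne',
      Real.log_mul hN.ne' nl.ne']
    have e1 : Real.log (nm l) + Real.log (nm n) -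
        (Real.log N + Real.log (nm l) - Real.log (nm g)) =
        Real.log (nm g) + Real.log (nm n) - Real.log N := by ring
    rw [e1]
    linarith
  -- the set `Hs`
  have hHsY : Hs ⊆ S Y := by
    intro h hh
    obtain ⟨x, hx, rfl⟩ := hmemH h hh
    obtain ⟨h1, h2, h3, -, -, -⟩ := hprop x hx
    rw [mem_S hY0]
    refine ⟨?_, hg.mul h1, squarefree_mul_iff.mpr ⟨(h3.of_mul_right_left).symm.isRelPrime, hgs, h2⟩⟩
    rw [nm_mul]
    push_cast
    linarith [hgx x hx]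
  have hL : (0 : ℝ) < nm g * 2 ^ j1 := by positivity
  have hHw : ∀ h ∈ Hs, |Real.log (nm h) - Real.log (nm g * 2 ^ j1)| ≤ R' / 2 := by
    intro h hh
    obtain ⟨x, hx, rfl⟩ := hmemH h hh
    obtain ⟨h1, -, -, -, h5, h6⟩ := hprop x hx
    have nx := nmpos h1.ne_zero
    have h2j : (0 : ℝ) < 2 ^ j1 := by positivity
    rw [nm_mul]
    push_cast
    rw [Real.log_mul ng.ne' nx.ne', Real.log_mul ng.ne' h2j.ne']
    have h7 : Real.log (2 ^ j1) ≤ Real.log (nm x) := Real.log_le_log h2j h5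
    have h8 : Real.log (nm x) ≤ Real.log 2 + Real.log (2 ^ j1) := by
      rw [← Real.log_mul (by norm_num) h2j.ne']
      exact Real.log_le_log nx h6
    have h9 : Real.log 2 ≤ 1 := by linarith [Real.log_two_lt_d9]
    rw [abs_le]
    constructor <;> linarith
  have hHb : ∀ h ∈ Hs, bg b g l h = 0 := by
    intro h hh
    obtain ⟨x, hx, rfl⟩ := hmemH h hh
    obtain ⟨h1, -, h3, h4, -, -⟩ := hprop x hx
    by_contra hne
    obtain ⟨n, hn1, hn2, hn3⟩ := exists_of_bg hl.ne_zero hne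
    -- `l = 1`
    have hl1 : l = 1 := by
      have h5 : IsCoprime (g * x) l := hglc.mul_left h3.of_mul_right_right
      have h6 : IsUnit l := by
        have h7 : l ∣ g * x := ⟨n, hn1⟩
        exact (h5.symm.of_isCoprime_of_dvd_right h7 : IsCoprime l l).isUnit_of_dvd' dvd_rfl dvd_rfl
      exact hl.eq_of_associated isPrim_one (associated_one_iff_isUnit.mpr h6)
    have hg1 : g = 1 := by
      have h7 : g ∣ l * n := ⟨x, hn1.symm⟩
      rw [hl1, one_mul] at h7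
      have h8 : IsCoprime n g := hn2.of_mul_right_left
      have h6 : IsUnit g := (h8.symm.of_isCoprime_of_dvd_right h7 : IsCoprime g g).isUnit_of_dvd'
        dvd_rfl dvd_rfl
      exact hg.eq_of_associated isPrim_one (associated_one_iff_isUnit.mpr h6)
    rw [hl1, hg1, one_mul, one_mul] at hn1
    rw [hg1, one_mul] at hn3
    rw [← hn1] at hn3
    have h9 := hwb x hn3
    have nx := nmpos h1.ne_zero
    have h10 := hgx x hx
    rw [hg1, nm_one] at h10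
    push_cast at h10
    rw [one_mul] at h10
    have h11 : Real.log (nm x) + R < Real.log N := by
      have h12 : (nm x : ℝ) * Real.exp R < N :=
        lt_of_le_of_lt (mul_le_mul_of_nonneg_right h10 (Real.exp_pos _).le) hlN
      have h13 := Real.log_lt_log (by positivity) h12
      rwa [Real.log_mul nx.ne' (Real.exp_pos _).ne', Real.log_exp] at h13
    have h14 := (abs_le.mp h9).1
    linarith
  -- the size parameters
  have hxy0 := hprop x0 hx0
  have hlP : (nm g : ℝ) * 2 ^ j1 ≤ 729 * Z ^ 2 := by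
    have h1 := hgx x0 hx0
    have h2 : (nm g : ℝ) * 2 ^ j1 ≤ nm g * nm x0 :=
      mul_le_mul_of_nonneg_left hxy0.2.2.2.2.1 ng.le
    nlinarith
  have hnl : (nm l : ℝ) ≤ Z := by
    obtain ⟨h4, -, -, h5, -, -⟩ := hxy0
    have nx1 := nm_ge_one h4.ne_zero
    have h6 : (nm l : ℝ) ≤ nm x0 * (nm g * nm l) ^ 2 := by
      have h7 : (nm l : ℝ) ≤ nm g * nm l := le_mul_of_one_le_left nl.le ng1
      have h8 : (1 : ℝ) ≤ nm g * nm l := nl1.trans h7
      calc (nm l : ℝ) ≤ nm g * nm l := h7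
        _ ≤ (nm g * nm l) * (nm g * nm l) := le_mul_of_one_le_left (by linarith) h8
        _ ≤ nm x0 * ((nm g * nm l) * (nm g * nm l)) :=
            le_mul_of_one_le_left (by positivity) nx1
        _ = _ := by ring
    linarith
  have hNP : N * nm l / nm g ≤ 729 * Z ^ 2 := by
    rw [div_le_iff₀ ng]
    have h1 : N * nm l ≤ Z * Z := mul_le_mul hNZ hnl nl.le hZ0.le
    nlinarith
  have hXP : 1 ≤ X' * (729 * Z ^ 2) := by
    have h1 : X * Z ≤ X' * (729 * Z ^ 2) := by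
      have h2 : X ≤ 4 * X' := by linarith
      have h3 : Z ≤ Z ^ 2 := by nlinarith
      calc X * Z ≤ (4 * X') * Z ^ 2 := mul_le_mul h2 h3 hZ0.le (by positivity)
        _ ≤ X' * (729 * Z ^ 2) := by nlinarith [mul_pos hX' (pow_pos hZ0 2)]
    linarith
  have hmain := hreg v hv C0 hk (9 * su κ) (ps κ) (LC_ps κ) (729 * Z ^ 2) X' Y
    (N * nm l / nm g) (nm g * 2 ^ j1) (by nlinarith) ((nm_M_le hp).trans (by nlinarith)) hY1
    (by rw [hY]; nlinarith) hX' hXP hN' hNP hL hlP (bg b g l) hbs hwbs Hs hHsY hHw hHb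
  rw [hsumH]
  refine hmain.trans ?_
  -- the constant
  have hcst : C * (1 + C0) ^ 2 * (729 * Z ^ 2) ^ (ε / 2) =
      C * 729 ^ (ε / 2) * (1 + C0) ^ 2 * Z ^ ε := by
    rw [Real.mul_rpow (by norm_num) (by positivity), ← Real.rpow_natCast Z 2,
      ← Real.rpow_mul hZ0.le]
    norm_num
    have : (2 : ℝ) * (ε / 2) = ε := by ring
    rw [this]
    ring
  rw [hcst, mul_assoc (C * 729 ^ (ε / 2) * (1 + C0) ^ 2 * Z ^ ε)]
  refine mul_le_mul_of_nonneg_left ?_ (by positivity)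
  rw [Finset.mul_sum]
  -- comparison of the scales
  have hlmle : ∀ d e : Eis, d ≠ 0 → e ≠ 0 →
      lmB (9 * su κ) X' (N * nm l / nm g) (nm g * 2 ^ j1) d e ≤ lmp N X j1 j3 d e := by
    intro d e hd he
    have nd := nmpos hd
    have ne := nmpos he
    unfold lmB lmp
    have hMle := nm_M_le (κ := κ) hp
    have e1 : N * nm l / nm g * (nm g * 2 ^ j1) = N * nm l * 2 ^ j1 := by field_simp
    rw [e1, div_le_div_iff₀ (by positivity) (by positivity)]
    have h1 : N * nm l * 2 ^ j1 ≤ 2 * (N * 2 ^ j3 * 2 ^ j1) := by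
      have : N * nm l * 2 ^ j1 ≤ N * (2 * 2 ^ j3) * 2 ^ j1 := by
        have := hl3.2
        gcongr
      linarith
    have h2 : X ≤ 4 * X' := by linarith
    have hMe : 3 * (nm (9 * su κ) : ℝ) * nm e ≤ 3 * 729 * nm e := by gcongr
    calc 3 * (nm (9 * su κ) : ℝ) * nm e * (N * nm l * 2 ^ j1) * (X * nm d ^ 2)
        ≤ 3 * 729 * nm e * (2 * (N * 2 ^ j3 * 2 ^ j1)) * ((4 * X') * nm d ^ 2) := by gcongr
      _ = 17496 * nm e * (N * 2 ^ j3 * 2 ^ j1) * (X' * nm d ^ 2) := by ring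
  have hlBpos : ∀ d e : Eis, d ≠ 0 → e ≠ 0 →
      0 < lmB (9 * su κ) X' (N * nm l / nm g) (nm g * 2 ^ j1) d e := by
    intro d e hd he
    have nd := nmpos hd
    have ne := nmpos he
    have nM := nmpos (LC_ps κ).ne
    unfold lmB
    positivity
  -- the terms
  have hkey : ∀ d ∈ Dh Y Hs, ∀ e ∈ pdiv d, ∀ f ∈ Fh Y Hs d,
      X' ^ 2 / (N * nm l / nm g * (nm g * 2 ^ j1)) *
        ((nm d / nm e : ℝ) ^ 2 * nrm (nm g * 2 ^ j1 / (nm d * nm f))
          (max 1 (lmB (9 * su κ) X' (N * nm l / nm g) (nm g * 2 ^ j1) d e)) *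
          ((min 1 (lmB (9 * su κ) X' (N * nm l / nm g) (nm g * 2 ^ j1) d e)) ^ B *
            RG A a (rs (bg b g l) (ps κ) d f) ((e * ((9 * su κ) * sq3)) ^ 2 * f)
              (max 1 (lmB (9 * su κ) X' (N * nm l / nm g) (nm g * 2 ^ j1) d e)))) ≠ 0 →
      (d ∈ S lam₀ ∧ f ∈ S lam₀) ∧
      X' ^ 2 / (N * nm l / nm g * (nm g * 2 ^ j1)) *
        ((nm d / nm e : ℝ) ^ 2 * nrm (nm g * 2 ^ j1 / (nm d * nm f))
          (max 1 (lmB (9 * su κ) X' (N * nm l / nm g) (nm g * 2 ^ j1) d e)) *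
          ((min 1 (lmB (9 * su κ) X' (N * nm l / nm g) (nm g * 2 ^ j1) d e)) ^ B *
            RG A a (rs (bg b g l) (ps κ) d f) ((e * ((9 * su κ) * sq3)) ^ 2 * f)
              (max 1 (lmB (9 * su κ) X' (N * nm l / nm g) (nm g * 2 ^ j1) d e)))) ≤
        if IsCoprime (d * f) l then Tm A B a N X j1 j3 κ b g l d e f else 0 := by
    intro d hd e he f hf hne
    obtain ⟨hdY, hdh⟩ := Finset.mem_filter.mp hd
    obtain ⟨hfY, hfh⟩ := Finset.mem_filter.mp hf
    have hd' := (mem_S hY0).1 hdY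
    have hf' := (mem_S hY0).1 hfY
    have he' := (mem_pdiv hd'.2.1.ne_zero).mp he
    have nd := nmpos hd'.2.1.ne_zero
    have nf := nmpos hf'.2.1.ne_zero
    have ne := nmpos he'.1.ne_zero
    have nd1 := nm_ge_one hd'.2.1.ne_zero
    have nf1 := nm_ge_one hf'.2.1.ne_zero
    obtain ⟨h, hh, hdf⟩ := hfh
    obtain ⟨x, hx, rfl⟩ := hmemH h hh
    obtain ⟨hx1, -, hx3, hx4, hx5, -⟩ := hprop x hx
    have hcl : IsCoprime (d * f) l := by
      have h5 : IsCoprime (g * x) l := hglc.mul_left hx3.of_mul_right_right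
      exact h5.of_isCoprime_of_dvd_left hdf
    -- the sequence does not vanish
    have hex : ∃ m, rs (bg b g l) (ps κ) d f m ≠ 0 := by
      by_contra h0
      push Not at h0
      apply hne
      rw [RG_zero h0]
      ring
    obtain ⟨m, hm⟩ := hex
    have hm1 : bg b g l (d * f * m) ≠ 0 := by
      intro h0; apply hm; unfold rs; rw [h0, zero_mul]
    obtain ⟨n, hn1, hn2, -⟩ := exists_of_bg hl.ne_zero hm1
    have hdn : d * f ∣ n := by
      have : d * f ∣ l * n := ⟨m, hn1.symm⟩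
      exact hcl.dvd_of_dvd_mul_left this
    have hcg : IsCoprime (d * f) g := (hn2.of_mul_right_left).of_isCoprime_of_dvd_left hdn
    have hdx : d * f ∣ x := hcg.dvd_of_dvd_mul_left hdf
    have hle : (nm d : ℝ) * nm f ≤ lam₀ := by
      have h1 : (nm (d * f) : ℝ) ≤ nm x := by
        exact_mod_cast Div277.nm_le_of_dvd hx1.ne_zero hdx
      rw [nm_mul] at h1
      push_cast at h1
      have h2 := hgx x hx
      have h3 : (nm x : ℝ) ≤ nm g * nm x := le_mul_of_one_le_left (Nat.cast_nonneg _) ng1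
      linarith
    have hdl : (nm d : ℝ) ≤ lam₀ := (le_mul_of_one_le_right nd.le nf1).trans hle
    have hfl : (nm f : ℝ) ≤ lam₀ := (le_mul_of_one_le_left nf.le nd1).trans hle
    refine ⟨⟨(mem_S hlam0).mpr ⟨hdl, hd'.2.1, hd'.2.2⟩, (mem_S hlam0).mpr ⟨hfl, hf'.2.1, hf'.2.2⟩⟩, ?_⟩
    rw [if_pos hcl]
    have hlm := hlmle d e hd'.2.1.ne_zero he'.1.ne_zero
    have hlB := hlBpos d e hd'.2.1.ne_zero he'.1.ne_zero
    have hsup := rs_supp hY0 hbs (ps κ) hd'.2.1 hf'.2.1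
    have hmx : max 1 (lmB (9 * su κ) X' (N * nm l / nm g) (nm g * 2 ^ j1) d e) ≤
        max 1 (lmp N X j1 j3 d e) := max_le_max le_rfl hlm
    have hRG := RG_mono hA' ha hY1 hsup ((e * ((9 * su κ) * sq3)) ^ 2 * f)
      (le_max_left 1 (lmB (9 * su κ) X' (N * nm l / nm g) (nm g * 2 ^ j1) d e)) hmx
    have hRG0 := RG_nonneg A a (rs (bg b g l) (ps κ) d f) ((e * ((9 * su κ) * sq3)) ^ 2 * f)
      (max 1 (lmB (9 * su κ) X' (N * nm l / nm g) (nm g * 2 ^ j1) d e))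
    have hnr := nrm_mono (N := nm g * 2 ^ j1 / (nm d * nm f)) (by positivity) (by positivity) le_rfl hmx
    have hnr0 : 0 ≤ nrm (nm g * 2 ^ j1 / (nm d * nm f))
      (max 1 (lmB (9 * su κ) X' (N * nm l / nm g) (nm g * 2 ^ j1) d e)) :=
      nrm_nonneg (by positivity) (by positivity)
    have hmin0 : 0 < min 1 (lmB (9 * su κ) X' (N * nm l / nm g) (nm g * 2 ^ j1) d e) :=
      lt_min one_pos hlB
    have hmin : (min 1 (lmB (9 * su κ) X' (N * nm l / nm g) (nm g * 2 ^ j1) d e)) ^ B ≤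
        (min 1 (lmp N X j1 j3 d e)) ^ B :=
      pow_le_pow_left₀ hmin0.le (min_le_min le_rfl hlm) B
    have hpre : X' ^ 2 / (N * nm l / nm g * (nm g * 2 ^ j1)) ≤ X ^ 2 / (N * 2 ^ j3 * 2 ^ j1) := by
      have e1 : N * nm l / nm g * (nm g * 2 ^ j1) = N * nm l * 2 ^ j1 := by field_simp
      rw [e1]
      have h1 := hl3.1
      gcongr
    have hlp := lmp_pos hN hX j1 j3 hd'.2.1.ne_zero he'.1.ne_zero
    have hmp0 : 0 < min 1 (lmp N X j1 j3 d e) := lt_min one_pos hlp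
    have hnr1 : 0 ≤ nrm (nm g * 2 ^ j1 / (nm d * nm f)) (max 1 (lmp N X j1 j3 d e)) :=
      hnr0.trans hnr
    unfold Tm
    calc X' ^ 2 / (N * nm l / nm g * (nm g * 2 ^ j1)) *
        ((nm d / nm e : ℝ) ^ 2 * nrm (nm g * 2 ^ j1 / (nm d * nm f))
          (max 1 (lmB (9 * su κ) X' (N * nm l / nm g) (nm g * 2 ^ j1) d e)) *
          ((min 1 (lmB (9 * su κ) X' (N * nm l / nm g) (nm g * 2 ^ j1) d e)) ^ B *
            RG A a (rs (bg b g l) (ps κ) d f) ((e * ((9 * su κ) * sq3)) ^ 2 * f)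
              (max 1 (lmB (9 * su κ) X' (N * nm l / nm g) (nm g * 2 ^ j1) d e))))
        ≤ X ^ 2 / (N * 2 ^ j3 * 2 ^ j1) *
        ((nm d / nm e : ℝ) ^ 2 * nrm (nm g * 2 ^ j1 / (nm d * nm f))
          (max 1 (lmp N X j1 j3 d e)) *
          ((min 1 (lmp N X j1 j3 d e)) ^ B *
            RG A a (rs (bg b g l) (ps κ) d f) ((e * ((9 * su κ) * sq3)) ^ 2 * f)
              (max 1 (lmp N X j1 j3 d e)))) := by
          gcongr
      _ = _ := by ring
  -- the sums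
  refine sum_le_sub (fun d hd => Finset.sum_nonneg fun e he => Finset.sum_nonneg fun f hf =>
    hTm d hd e he f hf) (fun d hd hdne => ?_)
  rw [Finset.mul_sum] at hdne ⊢
  obtain ⟨e0, he0, hne0⟩ := Finset.exists_ne_zero_of_sum_ne_zero hdne
  rw [Finset.mul_sum] at hne0
  obtain ⟨f0, hf0, hne1⟩ := Finset.exists_ne_zero_of_sum_ne_zero hne0
  have hdmem := (hkey d hd e0 he0 f0 hf0 hne1).1.1
  refine ⟨hdmem, Finset.sum_le_sum fun e he => ?_⟩
  rw [Finset.mul_sum]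
  refine sum_le_sub (fun f hf => hTm d hdmem e he f hf) (fun f hf hfne => ?_)
  have := hkey d hd e he f hf hfne
  exact ⟨this.1.2, this.2⟩

end Crest.Agent.R017.PoH347
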