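import Crest.Agent.R017.PoHy_72
import Crest.Agent.R017.PoH9_347

/-!
# Row 17, E3 with principal frequencies, part 3 (helper72)

`VIc` : the c-side functional over the frequencies with `Q`;  `sum_EBq_bg` : merging the frequencies
`k l`;  `block_boundj` : the real arithmetic of one block, both classes;  `RGq_sum_le`.
-/

set_option autoImplicit false

noncomputable section

open Complex MeasureTheory
open scoped ComplexConjugate Classical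

namespace Crest.Agent.R017.PoHx72

open Crest.Agent.R012 Crest.Agent.R012.Eis Crest.Agent.R012.MC
open Crest.Agent.R012.LS2 (S mem_S bl mem_bl)
open Crest.Agent.R012.Mob705 (mu pdiv mem_pdiv)
open Crest.Agent.R012.NonCube52 (Ker kv Good)
open Crest.Agent.R017.E1551 (nmpos jb jb_pos nm_ge_one)
open Crest.Agent.R017.BD829
open Crest.Agent.R017.PoH347
open Crest.Agent.R017.Mode405 (Slp nf Il VI)

/-- the c-side functional over the frequencies `k f` with `Q` -/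
def VIc (A : ℝ) (b : Eis → ℂ) (g f π : Eis) (P : ℝ) (Q : Eis → Prop) : ℝ :=
  ∑ k ∈ (bl P).filter (fun k => Q (k * f)),
    EQ A (fun m => if IsCoprime m π then b (g * m) else 0) (k * f)

lemma VIc_nonneg (A : ℝ) (b : Eis → ℂ) (g f π : Eis) (P : ℝ) (Q : Eis → Prop) :
    0 ≤ VIc A b g f π P Q := Finset.sum_nonneg fun _ _ => EQ_nonneg _ _ _

lemma VIc_le_VI (A : ℝ) (b : Eis → ℂ) (g f π : Eis) (P : ℝ) (Q : Eis → Prop) :
    VIc A b g f π P Q ≤ VI A b g f π P :=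
  Finset.sum_le_sum_of_subset_of_nonneg (Finset.filter_subset _ _) fun _ _ _ => EQ_nonneg _ _ _

lemma VIc_mono (A : ℝ) (b : Eis → ℂ) (g f π : Eis) {P P' : ℝ} (hP : 0 ≤ P) (h : P ≤ P')
    (Q : Eis → Prop) : VIc A b g f π P Q ≤ VIc A b g f π P' Q :=
  Finset.sum_le_sum_of_subset_of_nonneg (Finset.filter_subset_filter _ (bl_mono hP h))
    fun _ _ _ => EQ_nonneg _ _ _

lemma Cls_Cub {Pr : Eis → Prop} (x : Eis) (j : Bool) :
    Cls (fun H => Pr (x * H)) j = fun H => Cls Pr j (x * H) := by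
  funext H
  rfl

/-- the weight of the class `j` : `true` = principal -/
def nfj (j : Bool) (lam I : ℝ) : ℝ := if j = true then lam * I ^ (-(2 / 3) : ℝ) else nf lam I

lemma nfj_nonneg (j : Bool) {lam I : ℝ} (hl : 0 ≤ lam) (hI : 0 ≤ I) : 0 ≤ nfj j lam I := by
  unfold nfj nf
  split_ifs <;> positivity

/-- **the merged mean squares** over the frequencies with `Q` -/
theorem sum_EBq_bg {A : ℝ} (hA : 1 < A) {Y : ℝ} (hY : 0 ≤ Y) {b : Eis → ℂ}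
    (hb : ∀ n, b n ≠ 0 → n ∈ S Y) {g d f : Eis} (hg : IsPrim g) (hd : IsPrim d) (hf : IsPrim f)
    (κ : Ker) {F0 : Eis} (hF0 : F0 ≠ 0) {Z L τ : ℝ} (hZ : 0 ≤ Z) (hL : 0 ≤ L) (hτ : 0 ≤ τ)
    {T : Finset Eis} (hT : ∀ l ∈ T, IsPrim l ∧ (nm l : ℝ) ≤ L ∧ IsCoprime (d * f) l)
    (ht : ∀ x ∈ bl (Z * L), (Div277.tau x : ℝ) ≤ τ) {W : ℝ}
    (hW : Z * L * nm (su κ * F0) ≤ W) (Q : Eis → Prop) :
    ∑ l ∈ T, EBq A (rs (bg b g l) (ps κ) d f) (F0 * f) (fun H => Q (su κ * l * H)) Z ≤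
      τ * VIc A b (g * d * f) f 1 W Q := by
  set F : Eis → ℝ := fun y => if Q (y * f) then EQ A (fun n => b (g * (d * f) * n)) (y * f)
    else 0 with hFd
  have hF : ∀ x, 0 ≤ F x := fun x => by
    rw [hFd]; beta_reduce
    split_ifs
    · exact EQ_nonneg _ _ _
    · exact le_rfl
  have h1 : ∀ l ∈ T, EBq A (rs (bg b g l) (ps κ) d f) (F0 * f) (fun H => Q (su κ * l * H)) Z ≤
      ∑ k ∈ bl Z, F ((k * l) * (su κ * F0)) := by
    intro l hl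
    obtain ⟨hl1, -, hl3⟩ := hT l hl
    unfold EBq
    rw [Finset.sum_filter]
    refine Finset.sum_le_sum fun k _ => ?_
    have e0 : su κ * l * (k * (F0 * f)) = k * l * (su κ * F0) * f := by ring
    have h2 := EQ_bg hA hY hb hg hl1 (hd.mul hf) hl3 κ (k * (F0 * f))
    unfold rs
    rw [hFd]
    beta_reduce
    rw [e0] at h2 ⊢
    split_ifs
    · exact h2
    · exact le_rfl
  refine (Finset.sum_le_sum h1).trans ?_
  refine (merge (F := fun x => F (x * (su κ * F0))) (fun x => hF _) hZ hL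
    (fun l hl => ⟨(hT l hl).1, (hT l hl).2.1⟩) ht).trans ?_
  refine mul_le_mul_of_nonneg_left ?_ hτ
  refine (dil_freq hF (mul_nonneg hZ hL) (mul_ne_zero su_ne hF0) hW).trans (le_of_eq ?_)
  unfold VIc
  rw [Finset.sum_filter]
  refine Finset.sum_congr rfl fun k _ => ?_
  rw [hFd]
  beta_reduce
  congr 2
  funext n
  rw [if_pos isCoprime_one_right, mul_assoc g d f]

/-! ### one block -/

/-- the block at the natural scale, principal class -/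
lemma block_natP {a : ℕ} {W : ℝ → ℝ} (hW : Slp a W) {c1 c2 X N lam L1 L3 G D E F W1 lm : ℝ}
    (hc1 : 1 ≤ c1) (hc2 : 1 ≤ c2) (hX : 0 < X) (hN : 0 < N) (hlam : 0 < lam) (hL1 : 1 ≤ L1)
    (hL3 : 1 ≤ L3) (hG : 1 ≤ G) (hE : 1 ≤ E) (hED : E ≤ D) (hF : 1 ≤ F) (hEl : E ≤ lam)
    (hl : L1 * (G * L3) ^ 2 ≤ lam) (hW1 : 0 ≤ W1)
    (hWW : ∀ E : ℝ, 1 ≤ E → E ≤ lam → W (8 * c1 * c2 * Il N lam X * E) ≤ E * W1)
    (hlm : lm = c2 * E * (N * L3 * L1) / (X * D ^ 2)) :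
    X ^ 2 / (N * L3 * L1) * (D / E) ^ 2 * (18 * (G * L1 / (D * F) * lm ^ (1 / 3 : ℝ)) * W (c1 * lm * L3 * E ^ 2)) ≤
      36 * c2 * (X * (lam * (Il N lam X) ^ (-(2 / 3) : ℝ)) * W1) := by
  have hD : 1 ≤ D := hE.trans hED
  have hI : 0 < Il N lam X := by unfold Il; positivity
  set I := Il N lam X with hIdef
  have hI' : I = N * lam / X := rfl
  have hlm0 : 0 < lm := by rw [hlm]; positivity
  set N1 : ℝ := G * L1 / (D * F) with hN1
  have hN10 : 0 < N1 := by positivity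
  set θ : ℝ := (E / D) ^ 2 * (L1 * L3 ^ 2) / (8 * lam) with hθ
  have hθ0 : 0 < θ := by positivity
  have hG2 : 1 ≤ G ^ 2 := one_le_pow₀ hG
  have hL32 : 1 ≤ L3 ^ 2 := one_le_pow₀ hL3
  have hl' : L1 * L3 ^ 2 ≤ lam := by
    refine le_trans ?_ hl
    rw [mul_pow]
    have : L3 ^ 2 ≤ G ^ 2 * L3 ^ 2 := le_mul_of_one_le_left (by positivity) hG2
    exact mul_le_mul_of_nonneg_left this (by positivity)
  have hED' : (E / D) ^ 2 ≤ 1 := pow_le_one₀ (by positivity) ((div_le_one (by linarith)).mpr hED)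
  have hθ1 : θ ≤ 1 := by
    rw [hθ, div_le_one (by positivity)]
    calc (E / D) ^ 2 * (L1 * L3 ^ 2) ≤ 1 * lam :=
          mul_le_mul hED' hl' (by positivity) zero_le_one
      _ ≤ 8 * lam := by linarith
  -- the value of `W`
  have hP : c1 * lm * L3 * E ^ 2 = θ * (8 * c1 * c2 * I * E) := by
    rw [hlm, hθ, hI']
    field_simp
  have hWP : W (c1 * lm * L3 * E ^ 2) ≤ θ ^ (1 / 3 : ℝ) * (E * W1) := by
    have h1 : 0 < 8 * c1 * c2 * I * E := by positivity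
    have h2 := hW.low (θ * (8 * c1 * c2 * I * E)) (8 * c1 * c2 * I * E) (by positivity)
      (mul_le_of_le_one_left h1.le hθ1)
    rw [mul_div_assoc, div_self h1.ne', mul_one] at h2
    rw [hP]
    exact h2.trans (mul_le_mul_of_nonneg_left (hWW E hE hEl) (by positivity))
  have hGL : G ^ 3 * L1 ^ 2 ≤ lam ^ 2 := by
    calc G ^ 3 * L1 ^ 2 ≤ (L1 * (G * L3) ^ 2) ^ 2 := by
          have h1 : (1 : ℝ) ≤ G * L3 ^ 4 := one_le_mul_of_one_le_of_one_le hG (one_le_pow₀ hL3)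
          calc G ^ 3 * L1 ^ 2 ≤ G ^ 3 * L1 ^ 2 * (G * L3 ^ 4) :=
                le_mul_of_one_le_right (by positivity) h1
            _ = _ := by ring
      _ ≤ lam ^ 2 := pow_le_pow_left₀ (by positivity) hl 2
  have t2 : N1 * lm ^ (1 / 3 : ℝ) * θ ^ (1 / 3 : ℝ) ≤ 2 * lm * (lam * I ^ (-(2 / 3) : ℝ)) := by
    refine cb2 hN10.le hlm0 hθ0.le hlam hI ?_
    have e1 : N1 ^ 3 * θ * I ^ 2 =
        (G ^ 3 * L1 ^ 2) * (L1 ^ 2 * L3 ^ 2 * E ^ 2 * N ^ 2 * lam) / (8 * D ^ 5 * F ^ 3 * X ^ 2) := by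
      rw [hN1, hθ, hI']; field_simp
    have e2 : 8 * lm ^ 2 * lam ^ 3 =
        (lam ^ 2) * (L1 ^ 2 * L3 ^ 2 * E ^ 2 * N ^ 2 * lam) * (64 * c2 ^ 2 * D * F ^ 3) /
          (8 * D ^ 5 * F ^ 3 * X ^ 2) := by
      rw [hlm]; field_simp; ring
    rw [e1, e2]
    refine div_le_div_of_nonneg_right ?_ (by positivity)
    have h1 : (1 : ℝ) ≤ 64 * c2 ^ 2 * D * F ^ 3 := by
      have a1 : (1 : ℝ) ≤ c2 ^ 2 := one_le_pow₀ hc2
      have a2 : (1 : ℝ) ≤ F ^ 3 := one_le_pow₀ hF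
      have a3 : (1 : ℝ) ≤ 64 * c2 ^ 2 := by linarith
      exact one_le_mul_of_one_le_of_one_le (one_le_mul_of_one_le_of_one_le a3 hD) a2
    calc (G ^ 3 * L1 ^ 2) * (L1 ^ 2 * L3 ^ 2 * E ^ 2 * N ^ 2 * lam)
        ≤ lam ^ 2 * (L1 ^ 2 * L3 ^ 2 * E ^ 2 * N ^ 2 * lam) :=
          mul_le_mul_of_nonneg_right hGL (by positivity)
      _ ≤ _ := le_mul_of_one_le_right (by positivity) h1
  have hnrm : 18 * (N1 * lm ^ (1 / 3 : ℝ)) * θ ^ (1 / 3 : ℝ) ≤ 36 * lm * (lam * I ^ (-(2 / 3) : ℝ)) := by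
    linarith
  have hn0 : 0 ≤ 18 * (N1 * lm ^ (1 / 3 : ℝ)) := by positivity
  have hpre : X ^ 2 / (N * L3 * L1) * (D / E) ^ 2 * E * lm = c2 * X := by
    rw [hlm]; field_simp
  calc X ^ 2 / (N * L3 * L1) * (D / E) ^ 2 * (18 * (N1 * lm ^ (1 / 3 : ℝ)) * W (c1 * lm * L3 * E ^ 2))
      ≤ X ^ 2 / (N * L3 * L1) * (D / E) ^ 2 * (18 * (N1 * lm ^ (1 / 3 : ℝ)) *
          (θ ^ (1 / 3 : ℝ) * (E * W1))) := by
        gcongr
    _ = X ^ 2 / (N * L3 * L1) * (D / E) ^ 2 * E * W1 *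
          (18 * (N1 * lm ^ (1 / 3 : ℝ)) * θ ^ (1 / 3 : ℝ)) := by ring
    _ ≤ X ^ 2 / (N * L3 * L1) * (D / E) ^ 2 * E * W1 * (36 * lm * (lam * I ^ (-(2 / 3) : ℝ))) :=
        mul_le_mul_of_nonneg_left hnrm (by positivity)
    _ = 36 * (X ^ 2 / (N * L3 * L1) * (D / E) ^ 2 * E * lm) * W1 * (lam * I ^ (-(2 / 3) : ℝ)) := by
        ring
    _ = _ := by rw [hpre]; ring

/-- the block at the natural scale, both classes -/
lemma block_natj (j : Bool) {a : ℕ} {W : ℝ → ℝ} (hW : Slp a W)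
    {c1 c2 X N lam L1 L3 G D E F W1 lm : ℝ}
    (hc1 : 1 ≤ c1) (hc2 : 1 ≤ c2) (hX : 0 < X) (hN : 0 < N) (hlam : 0 < lam) (hL1 : 1 ≤ L1)
    (hL3 : 1 ≤ L3) (hG : 1 ≤ G) (hE : 1 ≤ E) (hED : E ≤ D) (hF : 1 ≤ F) (hEl : E ≤ lam)
    (hl : L1 * (G * L3) ^ 2 ≤ lam) (hW1 : 0 ≤ W1)
    (hWW : ∀ E : ℝ, 1 ≤ E → E ≤ lam → W (8 * c1 * c2 * Il N lam X * E) ≤ E * W1)
    (hlm : lm = c2 * E * (N * L3 * L1) / (X * D ^ 2)) :
    X ^ 2 / (N * L3 * L1) * (D / E) ^ 2 * (nj 18 j (G * L1 / (D * F)) lm *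
      W (c1 * lm * L3 * E ^ 2)) ≤ 36 * c2 * (X * nfj j lam (Il N lam X) * W1) := by
  unfold nj nfj
  cases j
  · simp only [Bool.false_eq_true, if_false]
    have h := block_nat hW hc1 hc2 hX hN hlam hL1 hL3 hG hE hED hF hEl hl hW1 hWW hlm
    refine h.trans ?_
    have hI : 0 < Il N lam X := by unfold Il; positivity
    have h1 : 0 ≤ X * nf lam (Il N lam X) * W1 := by unfold nf; positivity
    have h2 : 0 ≤ c2 * (X * nf lam (Il N lam X) * W1) := mul_nonneg (by linarith) h1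
    nlinarith
  · simp only [if_true]
    exact block_natP hW hc1 hc2 hX hN hlam hL1 hL3 hG hE hED hF hEl hl hW1 hWW hlm

/-- **one block**, both classes -/
theorem block_boundj (j : Bool) {a B : ℕ} (hB : a + 1 ≤ B) {W : ℝ → ℝ} (hW : Slp a W)
    {c1 c2 X N lam L1 L3 G D E F W1 lm : ℝ}
    (hc1 : 1 ≤ c1) (hc2 : 1 ≤ c2) (hX : 0 < X) (hN : 0 < N) (hlam : 0 < lam) (hL1 : 1 ≤ L1)
    (hL3 : 1 ≤ L3) (hG : 1 ≤ G) (hE : 1 ≤ E) (hED : E ≤ D) (hF : 1 ≤ F) (hEl : E ≤ lam)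
    (hl : L1 * (G * L3) ^ 2 ≤ lam) (hW1 : 0 ≤ W1)
    (hWW : ∀ E : ℝ, 1 ≤ E → E ≤ lam → W (8 * c1 * c2 * Il N lam X * E) ≤ E * W1)
    (hlm : lm = c2 * E * (N * L3 * L1) / (X * D ^ 2)) :
    X ^ 2 / (N * L3 * L1) * (D / E) ^ 2 * nj 18 j (G * L1 / (D * F)) (max 1 lm) *
      ((min 1 lm) ^ B * W (c1 * max 1 lm * L3 * E ^ 2)) ≤
      18 * (2 ^ (a + 1) * c2) * (X * nfj j lam (Il N lam X) * W1) := by
  have hD : 1 ≤ D := hE.trans hED
  have hlm0 : 0 < lm := by rw [hlm]; positivity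
  have hN1 : 0 ≤ G * L1 / (D * F) := by positivity
  have hb := block_natj j hW hc1 hc2 hX hN hlam hL1 hL3 hG hE hED hF hEl hl hW1 hWW hlm
  have hI : 0 < Il N lam X := by unfold Il; positivity
  have hnf : 0 ≤ X * nfj j lam (Il N lam X) * W1 := by
    have := nfj_nonneg j hlam.le hI.le; positivity
  have hpre : 0 ≤ X ^ 2 / (N * L3 * L1) * (D / E) ^ 2 := by positivity
  have h2a : (1 : ℝ) ≤ 2 ^ a := one_le_pow₀ (by norm_num)
  have hfin : 2 ^ a * (36 * c2 * (X * nfj j lam (Il N lam X) * W1)) =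
      18 * (2 ^ (a + 1) * c2) * (X * nfj j lam (Il N lam X) * W1) := by ring
  rw [← hfin]
  rcases le_total 1 lm with h | h
  · rw [max_eq_right h, min_eq_left h, one_pow, one_mul]
    refine le_trans (le_of_eq (by ring)) (hb.trans ?_)
    exact le_mul_of_one_le_left (by positivity) h2a
  · rw [max_eq_left h, min_eq_right h]
    have hinv : 1 ≤ lm⁻¹ := (one_le_inv₀ hlm0).mpr h
    have h1 : nj 18 j (G * L1 / (D * F)) 1 ≤ lm⁻¹ * nj 18 j (G * L1 / (D * F)) lm := by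
      have := nj_smul (by norm_num : (0 : ℝ) ≤ 18) j hN1 hlm0.le hinv
      rwa [inv_mul_cancel₀ hlm0.ne'] at this
    have hP0 : 0 < c1 * lm * L3 * E ^ 2 := by positivity
    have h2 : W (c1 * 1 * L3 * E ^ 2) ≤ (2 * lm⁻¹) ^ a * W (c1 * lm * L3 * E ^ 2) := by
      have := slp_up hW hP0 hinv
      have e1 : lm⁻¹ * (c1 * lm * L3 * E ^ 2) = c1 * 1 * L3 * E ^ 2 := by
        field_simp
      rwa [e1] at this
    have hW0 : 0 ≤ W (c1 * lm * L3 * E ^ 2) := hW.nonneg _ hP0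
    have hW2 : 0 ≤ W (c1 * 1 * L3 * E ^ 2) := hW.nonneg _ (by positivity)
    have hn0 : 0 ≤ nj 18 j (G * L1 / (D * F)) lm := nj_nonneg (by norm_num) j hN1 hlm0.le
    have hn1 : 0 ≤ nj 18 j (G * L1 / (D * F)) 1 := nj_nonneg (by norm_num) j hN1 zero_le_one
    have h3 : lm ^ B * (lm⁻¹ * (2 * lm⁻¹) ^ a) ≤ 2 ^ a := by
      obtain ⟨k, rfl⟩ := Nat.exists_eq_add_of_le hB
      have e1 : lm ^ (a + 1 + k) * (lm⁻¹ * (2 * lm⁻¹) ^ a) = 2 ^ a * lm ^ k := by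
        rw [mul_pow, inv_pow]
        field_simp
        ring
      rw [e1]
      exact mul_le_of_le_one_right (by positivity) (pow_le_one₀ hlm0.le h)
    calc X ^ 2 / (N * L3 * L1) * (D / E) ^ 2 * nj 18 j (G * L1 / (D * F)) 1 *
          (lm ^ B * W (c1 * 1 * L3 * E ^ 2))
        ≤ X ^ 2 / (N * L3 * L1) * (D / E) ^ 2 * (lm⁻¹ * nj 18 j (G * L1 / (D * F)) lm) *
          (lm ^ B * ((2 * lm⁻¹) ^ a * W (c1 * lm * L3 * E ^ 2))) := by
          gcongr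
      _ = (lm ^ B * (lm⁻¹ * (2 * lm⁻¹) ^ a)) * (X ^ 2 / (N * L3 * L1) * (D / E) ^ 2 *
          (nj 18 j (G * L1 / (D * F)) lm * W (c1 * lm * L3 * E ^ 2))) := by ring
      _ ≤ 2 ^ a * (36 * c2 * (X * nfj j lam (Il N lam X) * W1)) := by
          refine mul_le_mul h3 hb ?_ (by positivity)
          positivity

/-! ### sums of regularised mean squares -/

lemma RGq_mono {A : ℝ} (hA : 1 < A) {a : ℕ} (ha : 3 ≤ a) {N : ℝ} (hN : 1 ≤ N) {u : Eis → ℂ}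
    (hu : ∀ n, u n ≠ 0 → n ∈ S N) (F : Eis) (Q : Eis → Prop) {Z Z' : ℝ} (hZ : 1 ≤ Z) (h : Z ≤ Z') :
    RGq A a u F Q Z ≤ RGq A a u F Q Z' := by
  unfold RGq
  refine Summable.tsum_le_tsum (fun j => ?_) (RGq_summable hA ha hN hu F Q hZ)
    (RGq_summable hA ha hN hu F Q (hZ.trans h))
  refine mul_le_mul_of_nonneg_left (EBq_mono _ _ _ _ (by positivity) ?_) (by positivity)
  exact mul_le_mul_of_nonneg_left h (by positivity)

lemma RGq_sum_le {A : ℝ} (hA : 1 < A) {a : ℕ} {N : ℝ} (hN : 1 ≤ N) {ι : Type*} (T : Finset ι)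
    {u : ι → Eis → ℂ} (hu : ∀ i ∈ T, ∀ n, u i n ≠ 0 → n ∈ S N) (F : Eis) (Q : Eis → Prop) {Z : ℝ} (hZ : 1 ≤ Z)
    {K : ℝ} (h : ∀ j : ℕ, ∑ i ∈ T, EBq A (u i) F Q (2 ^ j * Z) ≤ K * (2 ^ (a + 1)) ^ j) :
    ∑ i ∈ T, RGq A (a + 3) (u i) F Q Z ≤ 2 * K := by
  have hK : 0 ≤ K := by
    have h1 := h 0
    rw [pow_zero, pow_zero, mul_one] at h1
    exact (Finset.sum_nonneg fun _ _ => EBq_nonneg _ _ _ _ _).trans h1
  have hs : ∀ i ∈ T, Summable fun j : ℕ => (((2 : ℝ) ^ (a + 3))⁻¹) ^ j *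
      EBq A (u i) F Q (2 ^ j * Z) := fun i hi => RGq_summable hA (by omega) hN (hu i hi) F Q hZ
  unfold RGq
  rw [← Summable.tsum_finsetSum hs]
  have hg : Summable fun j : ℕ => K * ((1 : ℝ) / 4) ^ j :=
    (summable_geometric_of_lt_one (by norm_num) (by norm_num)).mul_left K
  have h2 : ∀ j : ℕ, ∑ i ∈ T, (((2 : ℝ) ^ (a + 3))⁻¹) ^ j * EBq A (u i) F Q (2 ^ j * Z) ≤
      K * ((1 : ℝ) / 4) ^ j := by
    intro j
    rw [← Finset.mul_sum]
    calc (((2 : ℝ) ^ (a + 3))⁻¹) ^ j * ∑ i ∈ T, EBq A (u i) F Q (2 ^ j * Z)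
        ≤ (((2 : ℝ) ^ (a + 3))⁻¹) ^ j * (K * (2 ^ (a + 1)) ^ j) :=
          mul_le_mul_of_nonneg_left (h j) (by positivity)
      _ = K * ((((2 : ℝ) ^ (a + 3))⁻¹) * 2 ^ (a + 1)) ^ j := by rw [mul_pow]; ring
      _ = K * ((1 : ℝ) / 4) ^ j := by
          congr 2
          rw [show a + 3 = (a + 1) + 2 by ring, pow_add _ (a + 1) 2]
          field_simp
          norm_num
  refine (Summable.tsum_le_tsum h2 ?_ hg).trans ?_
  · exact summable_sum hs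
  · rw [tsum_mul_left, tsum_geometric_of_lt_one (by norm_num) (by norm_num)]
    linarith

end Crest.Agent.R017.PoHx72
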