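import Crest.Agent.R017.BL4_858
import Crest.Agent.R017.FE6_47
import Crest.Agent.R012.SumMod_880
import Crest.Agent.R012.Lat_277
import Crest.Agent.R012.LatSum_413

/-!
# Row 17, block C70 (E3), pointwise Poisson (1): Parseval for the dual sums (helper405)

* `parseval` : `∑_{k mod c} |dualSum c χ k|² = N(c) ∑_{a mod c} |χ a|²`
* `tsum_dual_le` : `∑_k |dualSum c χ k|² (1 + N(k)/P)^{-A} ≤ C N(c)² (1 + P/N(c))` for `|χ| ≤ 1`
-/

set_option autoImplicit false

noncomputable section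

open Complex MeasureTheory Filter Topology
open scoped SchwartzMap ContDiff ComplexConjugate

namespace Crest.Agent.R017.PoL405

open Crest.Agent.R012 Crest.Agent.R012.Eis Crest.Agent.R012.Po581
open Crest.Agent.R012.SumMod880 (Q finQ card_Q mk_eq_iff mk_out)
open Crest.Agent.R017.FE47

/-! ### orthogonality -/

lemma eC_dl_sub {c : Eis} (k a b : Eis) :
    eC (dl k / toC c * toC a) * conj (eC (dl k / toC c * toC b)) =
      eC (dl k / toC c * toC (a - b)) := by
  rw [SumMod880.conj_eC, ← Po581.eC_add']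
  congr 1
  rw [map_sub]; ring

lemma pmod_eC_dl_k {c : Eis} (hc : c ≠ 0) (d : Eis) :
    PMod c (fun k => eC (dl k / toC c * toC d)) := by
  intro x t
  have hc' := Po581.toC_ne_zero hc
  have h3 := iS3_ne_zero
  have h1 : dl (x + c * t) / toC c * toC d = dl x / toC c * toC d + dl t * toC d := by
    unfold dl
    rw [map_add, map_mul]; field_simp
  simp only
  rw [h1, Po581.eC_add', eC_dl_mul, mul_one]

open Classical in
lemma sum_eC_dl {c : Eis} (hc : c ≠ 0) [Fintype (Q c)] (d : Eis) :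
    ∑ q : Q c, eC (dl (Quotient.out q) / toC c * toC d) = if c ∣ d then (nm c : ℂ) else 0 := by
  rw [← SumMod880.sumMod_eq_sum (fun k => eC (dl k / toC c * toC d))]
  have hc' := Po581.toC_ne_zero hc
  have h3 := iS3_ne_zero
  split_ifs with hd
  · obtain ⟨s, rfl⟩ := hd
    have : ∀ k : Eis, eC (dl k / toC c * toC (c * s)) = 1 := by
      intro k
      have : dl k / toC c * toC (c * s) = dl k * toC s := by
        rw [map_mul]; field_simp
      rw [this, eC_dl_mul]
    rw [SumMod880.sumMod_congr' this, SumMod880.sumMod_const hc, mul_one]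
  · have hex : ∃ t : Eis, eC (dl t / toC c * toC d) ≠ 1 := by
      by_contra hcon
      push Not at hcon
      have h := SumMod880.exists_of_eC_trivial (z := toC d / (iS3 * toC c)) (fun t => by
        have := hcon t
        rw [← this]
        congr 1
        unfold dl
        field_simp)
      obtain ⟨s, hs⟩ := h
      have e1 : toC (w * lam) = iS3 := by
        rw [← toC_sq3]
        congr 1
      rw [e1] at hs
      apply hd
      refine ⟨s, toC_injective ?_⟩
      rw [map_mul, ← hs]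
      field_simp
    obtain ⟨t, ht⟩ := hex
    refine SumMod880.sumMod_eq_zero_of_shift hc (fun x y hxy => (pmod_eC_dl_k hc d).congr hxy) t _ ht
      (fun x => ?_)
    have : dl (x + t) / toC c * toC d = dl t / toC c * toC d + dl x / toC c * toC d := by
      unfold dl
      rw [map_add]; ring
    rw [this, Po581.eC_add']

/-- **Parseval**. -/
theorem parseval {c : Eis} (hc : c ≠ 0) [Fintype (Q c)] (χ : Eis → ℂ) :
    ∑ q : Q c, ‖dualSum c χ (Quotient.out q)‖ ^ 2 =
      nm c * ∑ q : Q c, ‖χ (Quotient.out q)‖ ^ 2 := by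
  classical
  have key : ((∑ q : Q c, ‖dualSum c χ (Quotient.out q)‖ ^ 2 : ℝ) : ℂ) =
      ((nm c * ∑ q : Q c, ‖χ (Quotient.out q)‖ ^ 2 : ℝ) : ℂ) := by
    push_cast
    have e1 : ∀ q : Q c, ((‖dualSum c χ (Quotient.out q)‖ : ℂ)) ^ 2 =
        ∑ a : Q c, ∑ b : Q c, χ (Quotient.out a) * conj (χ (Quotient.out b)) *
          eC (dl (Quotient.out q) / toC c * toC (Quotient.out a - Quotient.out b)) := by
      intro q
      rw [← Complex.mul_conj']
      unfold dualSum
      rw [SumMod880.sumMod_eq_sum, map_sum, Finset.sum_mul_sum]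
      refine Finset.sum_congr rfl fun a _ => Finset.sum_congr rfl fun b _ => ?_
      rw [map_mul, ← eC_dl_sub]
      ring
    rw [Finset.sum_congr rfl fun q _ => e1 q, Finset.sum_comm, Finset.mul_sum]
    refine Finset.sum_congr rfl fun a _ => ?_
    rw [Finset.sum_comm]
    have e2 : ∀ b : Q c, ∑ q : Q c, χ (Quotient.out a) * conj (χ (Quotient.out b)) *
          eC (dl (Quotient.out q) / toC c * toC (Quotient.out a - Quotient.out b)) =
        if a = b then (nm c : ℂ) * (χ (Quotient.out a) * conj (χ (Quotient.out a))) else 0 := by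
      intro b
      rw [← Finset.mul_sum, sum_eC_dl hc]
      by_cases hab : a = b
      · subst hab
        rw [if_pos rfl, sub_self, if_pos (dvd_zero c)]
        ring
      · rw [if_neg hab, if_neg, mul_zero]
        intro hdvd
        apply hab
        rw [← mk_out a, ← mk_out b]
        exact mk_eq_iff.mpr hdvd
    rw [Finset.sum_congr rfl fun b _ => e2 b, Finset.sum_ite_eq Finset.univ a, if_pos (Finset.mem_univ _),
      Complex.mul_conj']
  exact_mod_cast key

/-- the dual sum is periodic -/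
lemma pmod_dualSum {c : Eis} (hc : c ≠ 0) (χ : Eis → ℂ) : PMod c (fun k => dualSum c χ k) := by
  intro k t
  simp only
  unfold dualSum
  refine sumMod_congr fun a => ?_
  congr 1
  exact pmod_eC_dl_k hc a k t

lemma sum_out_le {c : Eis} (hc : c ≠ 0) [Fintype (Q c)] {χ : Eis → ℂ} (h1 : ∀ a, ‖χ a‖ ≤ 1) :
    ∑ q : Q c, ‖dualSum c χ (Quotient.out q)‖ ^ 2 ≤ (nm c : ℝ) ^ 2 := by
  rw [parseval hc χ]
  have h2 : ∑ q : Q c, ‖χ (Quotient.out q)‖ ^ 2 ≤ nm c := by
    calc ∑ q : Q c, ‖χ (Quotient.out q)‖ ^ 2 ≤ ∑ _q : Q c, (1 : ℝ) := by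
          refine Finset.sum_le_sum fun q _ => ?_
          have := h1 (Quotient.out q)
          have h0 := norm_nonneg (χ (Quotient.out q))
          nlinarith
      _ = nm c := by
          rw [Finset.sum_const, nsmul_eq_mul, mul_one, Finset.card_univ, ← Nat.card_eq_fintype_card,
            card_Q hc]
  calc (nm c : ℝ) * ∑ q : Q c, ‖χ (Quotient.out q)‖ ^ 2 ≤ nm c * nm c := by gcongr
    _ = _ := by ring

/-- Parseval on a ball -/
lemma sum_ball_le {c : Eis} (hc : c ≠ 0) {χ : Eis → ℂ} (h1 : ∀ a, ‖χ a‖ ≤ 1) (X : ℕ)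
    (F : Finset Eis) (hF : ∀ k ∈ F, nm k ≤ X) :
    ∑ k ∈ F, ‖dualSum c χ k‖ ^ 2 ≤ 50 * ((X : ℝ) / nm c + 1) * (nm c : ℝ) ^ 2 := by
  classical
  have := finQ hc
  have := Fintype.ofFinite (Q c)
  rw [← Finset.sum_fiberwise_of_maps_to (s := F) (t := Finset.univ)
    (g := fun k => SumMod880.mk c k) (fun _ _ => Finset.mem_univ _)]
  have e1 : ∀ q : Q c, ∑ k ∈ F.filter (fun k => SumMod880.mk c k = q), ‖dualSum c χ k‖ ^ 2 ≤
      50 * ((X : ℝ) / nm c + 1) * ‖dualSum c χ (Quotient.out q)‖ ^ 2 := by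
    intro q
    have e2 : ∀ k ∈ F.filter (fun k => SumMod880.mk c k = q),
        ‖dualSum c χ k‖ ^ 2 = ‖dualSum c χ (Quotient.out q)‖ ^ 2 := by
      intro k hk
      have h2 : c ∣ k - Quotient.out q := by
        rw [← mk_eq_iff, mk_out]
        exact (Finset.mem_filter.mp hk).2
      have h4 : dualSum c χ k = dualSum c χ (Quotient.out q) := (pmod_dualSum hc χ).congr h2
      rw [h4]
    rw [Finset.sum_congr rfl e2, Finset.sum_const, nsmul_eq_mul]
    refine mul_le_mul_of_nonneg_right ?_ (by positivity)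
    have h3 : F.filter (fun k => SumMod880.mk c k = q) ⊆ Lat277.ballC X c (Quotient.out q) := by
      intro k hk
      rw [Finset.mem_filter] at hk
      rw [Lat277.mem_ballC]
      refine ⟨hF k hk.1, ?_⟩
      rw [← mk_eq_iff, mk_out]
      exact hk.2
    calc ((F.filter (fun k => SumMod880.mk c k = q)).card : ℝ) ≤
          (Lat277.ballC X c (Quotient.out q)).card := by exact_mod_cast Finset.card_le_card h3
      _ ≤ _ := Lat277.card_ballC_le X hc _
  calc ∑ q : Q c, ∑ k ∈ F.filter (fun k => SumMod880.mk c k = q), ‖dualSum c χ k‖ ^ 2 ≤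
        ∑ q : Q c, 50 * ((X : ℝ) / nm c + 1) * ‖dualSum c χ (Quotient.out q)‖ ^ 2 :=
        Finset.sum_le_sum fun q _ => e1 q
    _ = 50 * ((X : ℝ) / nm c + 1) * ∑ q : Q c, ‖dualSum c χ (Quotient.out q)‖ ^ 2 := by
        rw [Finset.mul_sum]
    _ ≤ _ := by
        gcongr
        exact sum_out_le hc h1

/-- layer cake for the weight `(1 + x)^{-A}` -/
lemma wt_le_layers {x : ℝ} (hx : 0 ≤ x) {N : ℕ} (hN : x ≤ 2 ^ N) :
    ((1 + x) ^ 3)⁻¹ ≤ 8 * ∑ n ∈ Finset.range (N + 1), (if x ≤ 2 ^ n then ((8 : ℝ) ^ n)⁻¹ else 0) := by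
  classical
  have hex : ∃ n, x ≤ 2 ^ n := ⟨N, hN⟩
  set n0 := Nat.find hex with hn0
  have h1 : x ≤ 2 ^ n0 := Nat.find_spec hex
  have h2 : n0 ≤ N := Nat.find_min' hex hN
  have h3 : (if x ≤ 2 ^ n0 then ((8 : ℝ) ^ n0)⁻¹ else 0) ≤
      ∑ n ∈ Finset.range (N + 1), (if x ≤ 2 ^ n then ((8 : ℝ) ^ n)⁻¹ else 0) := by
    refine Finset.single_le_sum (f := fun n => (if x ≤ 2 ^ n then ((8 : ℝ) ^ n)⁻¹ else 0))
      (fun n _ => ?_) (Finset.mem_range.mpr (by omega))
    split_ifs <;> positivity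
  rw [if_pos h1] at h3
  refine le_trans ?_ (mul_le_mul_of_nonneg_left h3 (by norm_num : (0 : ℝ) ≤ 8))
  rcases Nat.eq_zero_or_pos n0 with h0 | h0
  · rw [h0]
    have h4 : 1 ≤ (1 + x) ^ 3 := one_le_pow₀ (by linarith)
    have h5 : ((1 + x) ^ 3)⁻¹ ≤ 1 := inv_le_one_of_one_le₀ h4
    simp
    linarith
  · have h4 : (2 : ℝ) ^ (n0 - 1) < x := by
      by_contra hcon
      exact Nat.find_min hex (m := n0 - 1) (by omega) (not_lt.mp hcon)
    have h5 : (8 : ℝ) ^ (n0 - 1) ≤ (1 + x) ^ 3 := by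
      have : (8 : ℝ) ^ (n0 - 1) = ((2 : ℝ) ^ (n0 - 1)) ^ 3 := by
        rw [← pow_mul, mul_comm, pow_mul]; norm_num
      rw [this]
      gcongr
      linarith
    have h6 : (8 : ℝ) * ((8 : ℝ) ^ n0)⁻¹ = ((8 : ℝ) ^ (n0 - 1))⁻¹ := by
      obtain ⟨m, hm⟩ : ∃ m, n0 = m + 1 := ⟨n0 - 1, by omega⟩
      rw [hm, pow_succ]
      simp
    rw [h6]
    exact inv_anti₀ (by positivity) h5

/-- **weighted Parseval** on finite sets -/
theorem sum_dual_le {c : Eis} (hc : c ≠ 0) {χ : Eis → ℂ} (h1 : ∀ a, ‖χ a‖ ≤ 1) {P : ℝ}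
    (hP : 0 < P) (F : Finset Eis) :
    ∑ k ∈ F, ‖dualSum c χ k‖ ^ 2 * ((1 + nm k / P) ^ 3)⁻¹ ≤
      1600 * (1 + P / nm c) * (nm c : ℝ) ^ 2 := by
  classical
  obtain ⟨N, hN⟩ : ∃ N : ℕ, ∀ k ∈ F, (nm k : ℝ) / P ≤ 2 ^ N := by
    obtain ⟨N, hN⟩ := pow_unbounded_of_one_lt (∑ k ∈ F, (nm k : ℝ) / P) (one_lt_two (α := ℝ))
    refine ⟨N, fun k hk => le_trans ?_ hN.le⟩
    exact Finset.single_le_sum (f := fun k : Eis => (nm k : ℝ) / P) (fun _ _ => by positivity) hk
  have hc0 : (0 : ℝ) < nm c := by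
    have := nm_pos.mpr hc
    exact_mod_cast this
  calc ∑ k ∈ F, ‖dualSum c χ k‖ ^ 2 * ((1 + nm k / P) ^ 3)⁻¹
      ≤ ∑ k ∈ F, ‖dualSum c χ k‖ ^ 2 * (8 * ∑ n ∈ Finset.range (N + 1),
          (if (nm k : ℝ) / P ≤ 2 ^ n then ((8 : ℝ) ^ n)⁻¹ else 0)) := by
        refine Finset.sum_le_sum fun k hk => ?_
        exact mul_le_mul_of_nonneg_left (wt_le_layers (by positivity) (hN k hk)) (by positivity)
    _ = ∑ n ∈ Finset.range (N + 1), 8 * ((8 : ℝ) ^ n)⁻¹ *
          ∑ k ∈ F.filter (fun k => (nm k : ℝ) / P ≤ 2 ^ n), ‖dualSum c χ k‖ ^ 2 := by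
        simp_rw [Finset.mul_sum]
        rw [Finset.sum_comm]
        refine Finset.sum_congr rfl fun n _ => ?_
        rw [Finset.sum_filter]
        refine Finset.sum_congr rfl fun k _ => ?_
        split_ifs <;> ring
    _ ≤ ∑ n ∈ Finset.range (N + 1), 8 * ((8 : ℝ) ^ n)⁻¹ *
          (50 * (2 ^ n * (1 + P / nm c)) * (nm c : ℝ) ^ 2) := by
        refine Finset.sum_le_sum fun n _ => mul_le_mul_of_nonneg_left ?_ (by positivity)
        refine (sum_ball_le hc h1 ⌊2 ^ n * P⌋₊ _ (fun k hk => ?_)).trans ?_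
        · rw [Finset.mem_filter, div_le_iff₀ hP] at hk
          exact Nat.le_floor hk.2
        · refine mul_le_mul_of_nonneg_right ?_ (by positivity)
          have h2 : (⌊2 ^ n * P⌋₊ : ℝ) ≤ 2 ^ n * P := Nat.floor_le (by positivity)
          have h3 : (⌊2 ^ n * P⌋₊ : ℝ) / nm c ≤ 2 ^ n * (P / nm c) := by
            rw [← mul_div_assoc]
            gcongr
          have h4 : (1 : ℝ) ≤ 2 ^ n := one_le_pow₀ (by norm_num)
          nlinarith
    _ = (∑ n ∈ Finset.range (N + 1), (1 / 4 : ℝ) ^ n) * (400 * (1 + P / nm c) * (nm c : ℝ) ^ 2) := by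
        rw [Finset.sum_mul]
        refine Finset.sum_congr rfl fun n _ => ?_
        have h5 : ((8 : ℝ) ^ n)⁻¹ * 2 ^ n = (1 / 4 : ℝ) ^ n := by
          rw [show (8 : ℝ) = 4 * 2 by norm_num, mul_pow, one_div, inv_pow]
          field_simp
        rw [← h5]; ring
    _ ≤ 4 * (400 * (1 + P / nm c) * (nm c : ℝ) ^ 2) := by
        refine mul_le_mul_of_nonneg_right ?_ (by positivity)
        have h6 := geom_sum_eq (show (1 / 4 : ℝ) ≠ 1 by norm_num) (N + 1)
        rw [h6]
        have h7 : (0 : ℝ) ≤ (1 / 4) ^ (N + 1) := by positivity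
        rw [div_le_iff_of_neg (by norm_num)]
        linarith
    _ = _ := by ring

end Crest.Agent.R017.PoL405
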