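import Crest.Agent.R017.PoL1_405

/-!
# Row 17, block C70 (E3), pointwise Poisson (2): the transformed sums (helper405)
-/

set_option autoImplicit false

noncomputable section

open Complex MeasureTheory Filter Topology
open scoped SchwartzMap ContDiff ComplexConjugate

namespace Crest.Agent.R017.PoL405

open Crest.Agent.R012 Crest.Agent.R012.Eis Crest.Agent.R012.Po581 Crest.Agent.R012.Gauss880
open Crest.Agent.R012.Weight600 (osc norm_osc)
open Crest.Agent.R012.Mob705 Crest.Agent.R012.Div277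
open Crest.Agent.R017.FE47 Crest.Agent.R017.End699 Crest.Agent.R017.BL4858

lemma XK_kp (χ : Eis → ℂ) (m : Eis) :
    XK χ (kp m 1) 0 = fun x => χ x * conj (sy x m) := by
  funext x
  unfold XK kp ang
  rw [Sym645.sy_one_right, zpow_zero]
  ring

lemma G_one : G (1 : Eis) = 1 := by
  have h := gs_one_eq isPrim_one
  unfold G
  have h2 : gs 1 1 = 1 := by
    unfold gs
    have h3 : (fun x : Eis => sy x 1 * eC (toC 1 * toC x / toC 1)) = fun _ => (1 : ℂ) := by
      funext x
      rw [Sym645.sy_one_right, map_one, one_mul, div_one, one_mul, SumMod880.eC_toC]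
    rw [h3, SumMod880.sumMod_const one_ne_zero]
    simp
  rw [h2]
  simp

/-- the frequency `k` of the dual side -/
lemma fC_term {w : ℝ → ℂ} (t κ : ℝ) {M m k : Eis} (hM : M ≠ 0) (hm : m ≠ 0) (hk : k ≠ 0) :
    fC (fX (gt w 0 t) (Real.exp κ)) (dl k / toC (M * m)) =
      (Real.exp κ : ℂ) * rad (gt w 0 t)
        ((Real.log (nm k) + κ - Real.log (3 * nm M)) - Real.log (nm m)) := by
  have hX : 0 < Real.exp κ := Real.exp_pos κ
  have hsX := Real.sqrt_pos.mpr hX
  have hMm : toC (M * m) ≠ 0 := Po581.toC_ne_zero (mul_ne_zero hM hm)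
  have hdl : dl k / toC (M * m) ≠ 0 :=
    div_ne_zero (div_ne_zero (Po581.toC_ne_zero hk) iS3_ne_zero) hMm
  have hξ : ((Real.sqrt (Real.exp κ) : ℝ) : ℂ) * (dl k / toC (M * m)) ≠ 0 :=
    mul_ne_zero (by exact_mod_cast hsX.ne') hdl
  have hMp : (0 : ℝ) < nm M := by exact_mod_cast nm_pos.mpr hM
  have hmp : (0 : ℝ) < nm m := by exact_mod_cast nm_pos.mpr hm
  have hkp : (0 : ℝ) < nm k := by exact_mod_cast nm_pos.mpr hk
  rw [fC_fX _ hX, fC_polar (fun ζ hζ z => gt_rot w 0 t hζ z) hξ]
  have e2 : ‖((Real.sqrt (Real.exp κ) : ℝ) : ℂ) * (dl k / toC (M * m))‖ ^ 2 =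
      Real.exp κ * (nm k / (3 * (nm M * nm m))) := by
    rw [norm_mul, mul_pow, Complex.norm_real, Real.norm_of_nonneg hsX.le, Real.sq_sqrt hX.le,
      norm_div, div_pow, norm_toC_sq, nm_mul]
    unfold dl
    rw [norm_div, div_pow, norm_toC_sq, norm_iS3, Real.sq_sqrt (by norm_num)]
    push_cast
    field_simp
  rw [e2, neg_zero, zpow_zero, one_mul]
  congr 2
  rw [Real.log_mul hX.ne' (by positivity), Real.log_exp, Real.log_div hkp.ne' (by positivity),
    Real.log_mul (by norm_num) (by positivity), Real.log_mul hMp.ne' hmp.ne',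
    Real.log_mul (by norm_num) hMp.ne']
  ring

lemma sy_zero_left {m : Eis} (hm : IsPrim m) (h1 : m ≠ 1) : sy 0 m = 0 :=
  (isCh_sy syG hm).zero 0 fun h => h1 (by
    rw [isCoprime_zero_left] at h
    exact isPrim_eq_one_of_isUnit hm h)

/-- summand of the dual side -/
def dterm (w : ℝ → ℂ) (M : Eis) (χ : Eis → ℂ) (κ t : ℝ) (m k : Eis) : ℂ :=
  if k = 0 then 0 else DM M χ k * sy k m *
    rad (gt w 0 t) ((Real.log (nm k) + κ - Real.log (3 * nm M)) - Real.log (nm m))

/-- the constant in front of the dual side -/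
def cst (M : Eis) (χ : Eis → ℂ) (m : Eis) : ℂ :=
  χ m * conj (G m) * conj (sy (M * Po581.sq3) m)

theorem PS_dual {w : ℝ → ℂ} (w1 : ContDiff ℝ ∞ w) (w2 : HasCompactSupport w) {M m : Eis}
    {χ : Eis → ℂ} (h : HC M χ) (hm : IsPrim m) (sm : Squarefree m) (hcop : IsCoprime m M)
    (h1 : m ≠ 1) (κ t : ℝ) :
    Summable (dterm w M χ κ t m) ∧
    PS w (fun x => χ x * conj (sy x m)) κ t =
      osc t κ * ((2 / (Real.sqrt 3 * nm M) * Real.exp κ : ℝ) : ℂ) *
        (((Real.sqrt (nm m))⁻¹ : ℝ) : ℂ) * cst M χ m * ∑' k : Eis, dterm w M χ κ t m k := by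
  have had : Ad (gt w 0 t) := (ad_gf w1 w2 0).tws t
  have hX : 0 < Real.exp κ := Real.exp_pos κ
  have hS := had.scale hX
  have hM0 := h.q0
  have hm0 := hm.ne_zero
  have hexp : ((Real.exp κ : ℝ) : ℂ) ≠ 0 := by exact_mod_cast hX.ne'
  have hterm : ∀ k, DM M χ k * conj (kp m 1 k) * fC (fX (gt w 0 t) (Real.exp κ))
      (dl k / toC (M * (1 * m))) = (Real.exp κ : ℂ) * dterm w M χ κ t m k := by
    intro k
    unfold dterm
    by_cases hk : k = 0
    · subst hk
      have : conj (kp m 1 0) = 0 := by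
        unfold kp
        rw [sy_zero_left hm h1]
        simp
      rw [this]
      simp
    · rw [if_neg hk, one_mul, fC_term t κ hM0 hm0 hk]
      have : conj (kp m 1 k) = sy k m := by
        unfold kp
        rw [Sym645.sy_one_right, one_mul, Complex.conj_conj]
      rw [this]
      ring
  have hsum : Summable (fun k : Eis => DM M χ k * conj (kp m 1 k) *
      fC (fX (gt w 0 t) (Real.exp κ)) (dl k / toC (M * (1 * m)))) := by
    have := summable_dual hS.toS h hm isPrim_one (q := M * (1 * m))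
      (mul_ne_zero hM0 (by rwa [one_mul]))
    rwa [Ad.coe_toS] at this
  have hsum' : Summable (dterm w M χ κ t m) := by
    have h2 := hsum.mul_left ((Real.exp κ : ℂ)⁻¹)
    refine h2.congr fun k => ?_
    rw [hterm, ← mul_assoc, inv_mul_cancel₀ hexp, one_mul]
  refine ⟨hsum', ?_⟩
  have hP := poisson_kp hS.toS h hm isPrim_one sm squarefree_one isCoprime_one_left
    hcop isCoprime_one_left
  rw [Ad.coe_toS] at hP
  rw [← XK_kp, PS_eq_tsum, hP, tsum_congr hterm, tsum_mul_left]
  unfold cst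
  have e1 : kp m 1 (M * Po581.sq3) = conj (sy (M * Po581.sq3) m) := by
    unfold kp
    rw [Sym645.sy_one_right, one_mul]
  have e2 : nm (1 : Eis) = 1 := by simp
  rw [e1, one_mul, G_one, one_mul, e2]
  push_cast
  rw [mul_one]
  ring

end Crest.Agent.R017.PoL405
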