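import Crest.Agent.R017.PoL2_405

/-!
# Row 17, block C70 (E3), pointwise Poisson (3): the pointwise bound (helper405)

`pol` : for a character `χ` mod `M`, `β` on squarefree primary `m` prime to `M`, `m ≠ 1`,
`|log N(m) - γ| ≤ R`:
`|∑_m β(m) ∑_x χ(x) conj (x/m) N(x)^{it} w(log N(x) - κ)|² ≤
  C (1+|t|)^J (e^κ + e^{2κ-γ}) ∑_k (1 + N(k) e^{κ-γ}/N(M))^{-A} ∫ (1+|s|)^{-K} |Dks s k|² ds`.
-/

set_option autoImplicit false

noncomputable section

open Complex MeasureTheory Filter Topology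
open scoped SchwartzMap ContDiff ComplexConjugate

namespace Crest.Agent.R017.PoL405

open Crest.Agent.R012 Crest.Agent.R012.Eis Crest.Agent.R012.Po581 Crest.Agent.R012.Gauss880
open Crest.Agent.R012.Weight600 (osc norm_osc)
open Crest.Agent.R012.Mob705 Crest.Agent.R012.Div277
open Crest.Agent.R017.FE47 Crest.Agent.R017.End699 Crest.Agent.R017.BL4858

/-- the dual sum at the frequency `k` and the height `s` -/
def Dks (I : Finset Eis) (β χ : Eis → ℂ) (M : Eis) (γ s : ℝ) (k : Eis) : ℂ :=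
  ∑ m ∈ I, β m * cst M χ m * ((Real.exp ((γ - Real.log (nm m)) / 2) : ℝ) : ℂ) *
    osc s (γ - Real.log (nm m)) * sy k m

/-- its weighted mean square -/
def Eks (I : Finset Eis) (β χ : Eis → ℂ) (M : Eis) (γ : ℝ) (K : ℕ) (k : Eis) : ℝ :=
  ∫ s : ℝ, ((1 + |s|) ^ K)⁻¹ * ‖Dks I β χ M γ s k‖ ^ 2

lemma continuous_Dks (I : Finset Eis) (β χ : Eis → ℂ) (M : Eis) (γ : ℝ) (k : Eis) :
    Continuous fun s => Dks I β χ M γ s k := by
  unfold Dks
  refine continuous_finsetSum _ fun m _ => ?_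
  exact (continuous_const.mul (Weight600.continuous_osc_left _)).mul continuous_const

lemma norm_Dks_le (I : Finset Eis) (β χ : Eis → ℂ) (M : Eis) (γ s : ℝ) (k : Eis) :
    ‖Dks I β χ M γ s k‖ ≤ ∑ m ∈ I, ‖β m * cst M χ m *
      ((Real.exp ((γ - Real.log (nm m)) / 2) : ℝ) : ℂ)‖ * ‖sy k m‖ := by
  unfold Dks
  refine (norm_sum_le _ _).trans (Finset.sum_le_sum fun m _ => ?_)
  rw [norm_mul, norm_mul, norm_osc, mul_one]

lemma norm_Dks_le' {I : Finset Eis} (hI : ∀ m ∈ I, IsPrim m) (β χ : Eis → ℂ) (M : Eis) (γ s : ℝ)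
    (k : Eis) :
    ‖Dks I β χ M γ s k‖ ≤ ∑ m ∈ I, ‖β m * cst M χ m *
      ((Real.exp ((γ - Real.log (nm m)) / 2) : ℝ) : ℂ)‖ := by
  refine (norm_Dks_le I β χ M γ s k).trans (Finset.sum_le_sum fun m hm => ?_)
  exact mul_le_of_le_one_right (norm_nonneg _)
    ((isCh_sy syG (hI m hm)).norm_le_one (hI m hm).ne_zero k)

lemma integrable_Eks {I : Finset Eis} (hI : ∀ m ∈ I, IsPrim m) (β χ : Eis → ℂ) (M : Eis) (γ : ℝ)
    {K : ℕ} (hK : 2 ≤ K) (k : Eis) :
    Integrable fun s : ℝ => ((1 + |s|) ^ K)⁻¹ * ‖Dks I β χ M γ s k‖ ^ 2 := by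
  refine (integrable_wt hK).mul_bdd (c := (∑ m ∈ I, ‖β m * cst M χ m *
      ((Real.exp ((γ - Real.log (nm m)) / 2) : ℝ) : ℂ)‖) ^ 2)
    (((continuous_Dks I β χ M γ k).norm.pow 2).aestronglyMeasurable)
    (Eventually.of_forall fun s => ?_)
  rw [norm_pow, norm_norm]
  gcongr
  exact norm_Dks_le' hI β χ M γ s k

lemma integrable_Dks {I : Finset Eis} (hI : ∀ m ∈ I, IsPrim m) (β χ : Eis → ℂ) (M : Eis) (γ : ℝ)
    {K : ℕ} (hK : 2 ≤ K) (k : Eis) :
    Integrable fun s : ℝ => ((1 + |s|) ^ K)⁻¹ * ‖Dks I β χ M γ s k‖ := by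
  refine (integrable_wt hK).mul_bdd (c := (∑ m ∈ I, ‖β m * cst M χ m *
      ((Real.exp ((γ - Real.log (nm m)) / 2) : ℝ) : ℂ)‖))
    (((continuous_Dks I β χ M γ k).norm).aestronglyMeasurable)
    (Eventually.of_forall fun s => ?_)
  rw [norm_norm]
  exact norm_Dks_le' hI β χ M γ s k

lemma Eks_nonneg (I : Finset Eis) (β χ : Eis → ℂ) (M : Eis) (γ : ℝ) (K : ℕ) (k : Eis) :
    0 ≤ Eks I β χ M γ K k := integral_nonneg fun _ => by positivity

lemma Eks_le {I : Finset Eis} (hI : ∀ m ∈ I, IsPrim m) (β χ : Eis → ℂ) (M : Eis) (γ : ℝ)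
    {K : ℕ} (hK : 2 ≤ K) (k : Eis) :
    Eks I β χ M γ K k ≤ (∫ s : ℝ, ((1 + |s|) ^ K)⁻¹) * (∑ m ∈ I, ‖β m * cst M χ m *
      ((Real.exp ((γ - Real.log (nm m)) / 2) : ℝ) : ℂ)‖) ^ 2 := by
  unfold Eks
  rw [← integral_mul_const]
  refine integral_mono (integrable_Eks hI β χ M γ hK k) ((integrable_wt hK).mul_const _) fun s => ?_
  simp only
  gcongr
  exact norm_Dks_le' hI β χ M γ s k

/-- Cauchy-Schwarz for the weight -/
lemma wt_cs {K : ℕ} (hK : 2 ≤ K) {g : ℝ → ℝ} (hg0 : ∀ s, 0 ≤ g s) (_hg : Continuous g)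
    (hg1 : Integrable fun s : ℝ => ((1 + |s|) ^ K)⁻¹ * g s)
    (hg2 : Integrable fun s : ℝ => ((1 + |s|) ^ K)⁻¹ * g s ^ 2) :
    (∫ s : ℝ, ((1 + |s|) ^ K)⁻¹ * g s) ^ 2 ≤
      (∫ s : ℝ, ((1 + |s|) ^ K)⁻¹) * ∫ s : ℝ, ((1 + |s|) ^ K)⁻¹ * g s ^ 2 := by
  set W : ℝ := ∫ s : ℝ, ((1 + |s|) ^ K)⁻¹ with hW
  set X : ℝ := ∫ s : ℝ, ((1 + |s|) ^ K)⁻¹ * g s with hX
  set Y : ℝ := ∫ s : ℝ, ((1 + |s|) ^ K)⁻¹ * g s ^ 2 with hY
  have hi := integrable_wt hK
  have hX0 : 0 ≤ X := integral_nonneg fun s => mul_nonneg (by positivity) (hg0 s)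
  have hW0 : 0 ≤ W := integral_nonneg fun s => by positivity
  have hY0 : 0 ≤ Y := integral_nonneg fun s => by positivity
  -- quadratic polynomial
  have hq : ∀ l : ℝ, 0 ≤ l ^ 2 * W - 2 * l * X + Y := by
    intro l
    have h1 : ∫ s : ℝ, ((1 + |s|) ^ K)⁻¹ * (l - g s) ^ 2 = l ^ 2 * W - 2 * l * X + Y := by
      have e1 : ∀ s : ℝ, ((1 + |s|) ^ K)⁻¹ * (l - g s) ^ 2 =
          (((1 + |s|) ^ K)⁻¹ * l ^ 2 - (2 * l) * (((1 + |s|) ^ K)⁻¹ * g s)) +
            ((1 + |s|) ^ K)⁻¹ * g s ^ 2 := fun s => by ring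
      have i1 : Integrable fun s : ℝ => ((1 + |s|) ^ K)⁻¹ * l ^ 2 := hi.mul_const _
      have i2 : Integrable fun s : ℝ => (2 * l) * (((1 + |s|) ^ K)⁻¹ * g s) := hg1.const_mul _
      have i3 : Integrable fun s : ℝ => ((1 + |s|) ^ K)⁻¹ * l ^ 2 -
        (2 * l) * (((1 + |s|) ^ K)⁻¹ * g s) := i1.sub i2
      rw [integral_congr_ae (Eventually.of_forall e1), integral_add i3 hg2,
        integral_sub i1 i2, integral_mul_const, integral_const_mul]
      rw [hW, hX, hY]; ring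
    rw [← h1]
    exact integral_nonneg fun s => by positivity
  rcases hW0.eq_or_lt with hW1 | hW1
  · by_contra hcon
    push Not at hcon
    rw [← hW1, zero_mul] at hcon
    have hX1 : 0 < X := by
      rcases hX0.eq_or_lt with h | h
      · rw [← h] at hcon; norm_num at hcon
      · exact h
    have h2 := hq ((Y + 1) / (2 * X))
    rw [← hW1] at h2
    have h3 : 2 * ((Y + 1) / (2 * X)) * X = Y + 1 := by field_simp
    rw [h3] at h2
    linarith
  · have h2 := hq (X / W)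
    have h3 : (X / W) ^ 2 * W - 2 * (X / W) * X + Y = Y - X ^ 2 / W := by
      field_simp; ring
    rw [h3] at h2
    have h4 : X ^ 2 / W ≤ Y := by linarith
    rw [div_le_iff₀ hW1] at h4
    linarith

lemma summable_wk {P : ℝ} (hP : 0 < P) {A : ℕ} (hA : 2 ≤ A) :
    Summable fun k : Eis => ((1 + (nm k : ℝ) / P) ^ A)⁻¹ := by
  have h1 : Summable fun k : Eis => (if k = 0 then (1 : ℝ) else 0) + P ^ 2 * (nm k : ℝ) ^ (-(2 : ℝ)) := by
    refine Summable.add ?_ ((LatSum413.summable_nm_rpow (by norm_num)).mul_left _)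
    exact summable_of_ne_finset_zero (s := {0}) (fun k hk => by
      rw [if_neg]; simpa using hk)
  refine Summable.of_nonneg_of_le (fun k => by positivity) (fun k => ?_) h1
  by_cases hk : k = 0
  · subst hk
    simp
  · rw [if_neg hk, zero_add]
    have hk1 : (0 : ℝ) < nm k := by exact_mod_cast nm_pos.mpr hk
    have h2 : ((nm k : ℝ) / P) ^ 2 ≤ (1 + (nm k : ℝ) / P) ^ A := by
      have h3 : 1 ≤ 1 + (nm k : ℝ) / P := by
        have : 0 < (nm k : ℝ) / P := by positivity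
        linarith
      calc ((nm k : ℝ) / P) ^ 2 ≤ (1 + (nm k : ℝ) / P) ^ 2 := by gcongr; linarith
        _ ≤ _ := pow_le_pow_right₀ h3 hA
    have h4 : P ^ 2 * (nm k : ℝ) ^ (-(2 : ℝ)) = (((nm k : ℝ) / P) ^ 2)⁻¹ := by
      rw [Real.rpow_neg hk1.le, show (2 : ℝ) = ((2 : ℕ) : ℝ) by norm_num, Real.rpow_natCast,
        div_pow, inv_div]
      ring
    rw [h4]
    exact inv_anti₀ (by positivity) h2

lemma summable_Eks {I : Finset Eis} (hI : ∀ m ∈ I, IsPrim m) (β χ : Eis → ℂ) (M : Eis) (γ : ℝ)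
    {K : ℕ} (hK : 2 ≤ K) {P : ℝ} (hP : 0 < P) {A : ℕ} (hA : 2 ≤ A) :
    Summable fun k : Eis => ((1 + (nm k : ℝ) / P) ^ A)⁻¹ * Eks I β χ M γ K k := by
  refine Summable.of_nonneg_of_le (fun k => mul_nonneg (by positivity) (Eks_nonneg _ _ _ _ _ _ _))
    (fun k => mul_le_mul_of_nonneg_left (Eks_le hI β χ M γ hK k) (by positivity))
    ((summable_wk hP hA).mul_right _)

set_option maxHeartbeats 1000000 in
/-- **the pointwise bound** -/
theorem pol {w : ℝ → ℂ} (w1 : ContDiff ℝ ∞ w) (w2 : HasCompactSupport w) {Rc : ℝ} (hRc : 0 ≤ Rc)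
    (A K : ℕ) (hA : 2 ≤ A) (hK : 2 ≤ K) :
    ∃ (C : ℝ) (J : ℕ), 0 ≤ C ∧ ∀ (M : Eis) (χ : Eis → ℂ), HC M χ →
      ∀ (I : Finset Eis) (β : Eis → ℂ) (γ : ℝ),
      (∀ m ∈ I, IsPrim m ∧ Squarefree m ∧ IsCoprime m M ∧ m ≠ 1 ∧ |Real.log (nm m) - γ| ≤ Rc) →
      ∀ κ t : ℝ,
      ‖∑ m ∈ I, β m * PS w (fun x => χ x * conj (sy x m)) κ t‖ ^ 2 ≤
        C * (1 + |t|) ^ J * (Real.exp κ + Real.exp (2 * κ - γ)) *
          ∑' k : Eis, ((1 + (nm k : ℝ) / (nm M * Real.exp (γ - κ))) ^ A)⁻¹ *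
            Eks I β χ M γ K k := by
  have hab : (-Rc - 1 : ℝ) ≤ Rc + 1 := by linarith
  have hχ1 : ContDiff ℝ ∞ (Weight600.cutC (-Rc - 1) (Rc + 1) 1) := Weight600.contDiff_cutC
  have hχ2 : HasCompactSupport (Weight600.cutC (-Rc - 1) (Rc + 1) 1) :=
    Weight600.hasCompactSupport_cutC (by norm_num) hab
  have hχ3 : ∀ u, |u| ≤ Rc → Weight600.cutC (-Rc - 1) (Rc + 1) 1 u = 1 := by
    intro u hu
    have h1 := abs_le.mp hu
    unfold Weight600.cutC
    rw [Weight600.cutL_eq_one (by norm_num) (by linarith) (by linarith)]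
    simp
  obtain ⟨C0, J, hC0, hsep⟩ := rad_sep (ad_gf w1 w2 0) hχ1 hχ2 (3 + A) K
  set W : ℝ := ∫ s : ℝ, ((1 + |s|) ^ K)⁻¹ with hW
  have hW0 : 0 ≤ W := integral_nonneg fun s => by positivity
  refine ⟨2 * 3 ^ (2 * (3 + A)) * C0 ^ 2 * W * 1600, 2 * J, by positivity, ?_⟩
  intro M χ h I β γ hI κ t
  have hIp : ∀ m ∈ I, IsPrim m := fun m hm => (hI m hm).1
  have hM0 : (0 : ℝ) < nm M := by exact_mod_cast nm_pos.mpr h.q0
  set P : ℝ := nm M * Real.exp (γ - κ) with hP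
  have hP0 : 0 < P := by positivity
  set T : ℝ := ∑' k : Eis, ((1 + (nm k : ℝ) / P) ^ A)⁻¹ * Eks I β χ M γ K k with hT
  have hsT := summable_Eks hIp β χ M γ hK hP0 hA
  have hT0 : 0 ≤ T := tsum_nonneg fun k => mul_nonneg (by positivity) (Eks_nonneg _ _ _ _ _ _ _)
  -- the terms
  set a : Eis → ℂ := fun k => ∑ m ∈ I, β m * (((Real.sqrt (nm m))⁻¹ : ℝ) : ℂ) * cst M χ m *
    dterm w M χ κ t m k with ha
  set c0 : ℝ := 2 / (Real.sqrt 3 * nm M) * Real.exp κ with hc0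
  have hS : ∑ m ∈ I, β m * PS w (fun x => χ x * conj (sy x m)) κ t =
      osc t κ * (c0 : ℂ) * ∑' k, a k := by
    have h1 : ∑' k, a k = ∑ m ∈ I, ∑' k, β m * (((Real.sqrt (nm m))⁻¹ : ℝ) : ℂ) * cst M χ m *
        dterm w M χ κ t m k := by
      rw [ha]
      refine Summable.tsum_finsetSum fun m hm => ?_
      obtain ⟨h1, h2, h3, h4, _⟩ := hI m hm
      exact (PS_dual w1 w2 h h1 h2 h3 h4 κ t).1.mul_left _
    rw [h1, Finset.mul_sum]
    refine Finset.sum_congr rfl fun m hm => ?_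
    obtain ⟨h1, h2, h3, h4, _⟩ := hI m hm
    rw [(PS_dual w1 w2 h h1 h2 h3 h4 κ t).2, tsum_mul_left]
    ring
  -- bound of one term
  have hterm : ∀ k, ‖a k‖ ≤ (C0 * (1 + |t|) ^ J * Real.exp (-γ / 2) * 3 ^ (3 + A) * Real.sqrt W) *
      ((‖DM M χ k‖ * Real.sqrt (((1 + (nm k : ℝ) / P) ^ 3)⁻¹)) *
        Real.sqrt (((1 + (nm k : ℝ) / P) ^ A)⁻¹ * Eks I β χ M γ K k)) := by
    intro k
    by_cases hk : k = 0
    · have : a k = 0 := by
        rw [ha]
        refine Finset.sum_eq_zero fun m _ => ?_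
        unfold dterm
        rw [if_pos hk, mul_zero]
      rw [this, norm_zero]
      positivity
    have hkp : (0 : ℝ) < nm k := by exact_mod_cast nm_pos.mpr hk
    set sk : ℝ := Real.log (nm k) + κ - Real.log (3 * nm M) - γ with hsk
    obtain ⟨ker, k1, k2, k3, k4⟩ := hsep t sk
    have e1 : a k = DM M χ k * ((Real.exp (-γ / 2) : ℝ) : ℂ) *
        ∫ s, ker s * Dks I β χ M γ s k := by
      have e2 : ∀ m ∈ I, β m * (((Real.sqrt (nm m))⁻¹ : ℝ) : ℂ) * cst M χ m *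
          dterm w M χ κ t m k = DM M χ k * ((Real.exp (-γ / 2) : ℝ) : ℂ) *
          ∫ s, ker s * (β m * cst M χ m * ((Real.exp ((γ - Real.log (nm m)) / 2) : ℝ) : ℂ) *
            osc s (γ - Real.log (nm m)) * sy k m) := by
        intro m hm
        obtain ⟨h1, h2, h3, h4, h5⟩ := hI m hm
        have hmp : (0 : ℝ) < nm m := by exact_mod_cast nm_pos.mpr h1.ne_zero
        have e3 : (fun s => ker s * (β m * cst M χ m *
            ((Real.exp ((γ - Real.log (nm m)) / 2) : ℝ) : ℂ) *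
            osc s (γ - Real.log (nm m)) * sy k m)) = fun s => (β m * cst M χ m *
            ((Real.exp ((γ - Real.log (nm m)) / 2) : ℝ) : ℂ) * sy k m) *
              (ker s * osc s (γ - Real.log (nm m))) := by
          funext s; ring
        rw [e3, integral_const_mul, k4, hχ3 _ (by rwa [abs_sub_comm]), one_mul]
        unfold dterm
        rw [if_neg hk]
        have e4 : (((Real.sqrt (nm m))⁻¹ : ℝ) : ℂ) = ((Real.exp (-γ / 2) : ℝ) : ℂ) *
            ((Real.exp ((γ - Real.log (nm m)) / 2) : ℝ) : ℂ) := by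
          rw [← Complex.ofReal_mul, ← Real.exp_add]
          congr 1
          rw [Real.sqrt_eq_rpow, Real.rpow_def_of_pos hmp, ← Real.exp_neg]
          congr 1
          ring
        rw [e4]
        have e5 : γ - Real.log (nm m) + sk =
            Real.log (nm k) + κ - Real.log (3 * nm M) - Real.log (nm m) := by
          rw [hsk]; ring
        rw [e5]
        have e6 : gt w 0 t = tws (gf w 0) t := rfl
        rw [e6]
        ring
      rw [ha]
      simp only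
      rw [Finset.sum_congr rfl e2, ← Finset.mul_sum]
      congr 1
      rw [← integral_finsetSum]
      · congr 1
        funext s
        rw [← Finset.mul_sum]
        rfl
      · intro m _
        have e3 : (fun s => ker s * (β m * cst M χ m *
            ((Real.exp ((γ - Real.log (nm m)) / 2) : ℝ) : ℂ) *
            osc s (γ - Real.log (nm m)) * sy k m)) = fun s => (β m * cst M χ m *
            ((Real.exp ((γ - Real.log (nm m)) / 2) : ℝ) : ℂ) * sy k m) *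
              (ker s * osc s (γ - Real.log (nm m))) := by
          funext s; ring
        rw [e3]
        exact (integrable_mul_osc k2 _).const_mul _
    have hx : (0 : ℝ) ≤ (nm k : ℝ) / P := by positivity
    have e7 : Real.exp sk = ((nm k : ℝ) / P) / 3 := by
      rw [hsk, hP, Real.exp_sub, Real.exp_sub, Real.exp_add, Real.exp_log hkp,
        Real.exp_log (by positivity), Real.exp_sub]
      field_simp
    have e8 : ((1 + Real.exp sk) ^ (3 + A))⁻¹ ≤ 3 ^ (3 + A) * ((1 + (nm k : ℝ) / P) ^ (3 + A))⁻¹ := by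
      rw [e7, ← div_eq_mul_inv, le_div_iff₀ (by positivity), ← div_eq_inv_mul,
        div_le_iff₀ (by positivity), ← mul_pow]
      gcongr
      linarith
    have hbd : ‖∫ s, ker s * Dks I β χ M γ s k‖ ≤ C0 * (1 + |t|) ^ J *
        ((1 + Real.exp sk) ^ (3 + A))⁻¹ * Real.sqrt (W * Eks I β χ M γ K k) := by
      calc ‖∫ s, ker s * Dks I β χ M γ s k‖ ≤ ∫ s, ‖ker s * Dks I β χ M γ s k‖ :=
            norm_integral_le_integral_norm _
        _ ≤ ∫ s, (C0 * (1 + |t|) ^ J * ((1 + Real.exp sk) ^ (3 + A))⁻¹) *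
              (((1 + |s|) ^ K)⁻¹ * ‖Dks I β χ M γ s k‖) := by
            refine integral_mono_of_nonneg (Eventually.of_forall fun _ => norm_nonneg _)
              ((integrable_Dks hIp β χ M γ hK k).const_mul _) (Eventually.of_forall fun s => ?_)
            simp only
            rw [norm_mul, ← mul_assoc]
            exact mul_le_mul_of_nonneg_right (k3 s) (norm_nonneg _)
        _ = (C0 * (1 + |t|) ^ J * ((1 + Real.exp sk) ^ (3 + A))⁻¹) *
              ∫ s, (((1 + |s|) ^ K)⁻¹ * ‖Dks I β χ M γ s k‖) := integral_const_mul _ _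
        _ ≤ _ := by
            refine mul_le_mul_of_nonneg_left ?_ (by positivity)
            refine Real.le_sqrt_of_sq_le ?_
            exact wt_cs hK (fun s => norm_nonneg _) (continuous_Dks I β χ M γ k).norm
              (integrable_Dks hIp β χ M γ hK k) (integrable_Eks hIp β χ M γ hK k)
    rw [e1, norm_mul, norm_mul, Complex.norm_real, Real.norm_of_nonneg (Real.exp_pos _).le]
    have e9 : Real.sqrt (((1 + (nm k : ℝ) / P) ^ 3)⁻¹) *
        Real.sqrt (((1 + (nm k : ℝ) / P) ^ A)⁻¹ * Eks I β χ M γ K k) ≥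
        ((1 + (nm k : ℝ) / P) ^ (3 + A))⁻¹ * Real.sqrt (Eks I β χ M γ K k) := by
      rw [Real.sqrt_mul (by positivity), ← mul_assoc, ← Real.sqrt_mul (by positivity),
        ← mul_inv, ← pow_add]
      refine mul_le_mul_of_nonneg_right ?_ (Real.sqrt_nonneg _)
      refine Real.le_sqrt_of_sq_le ?_
      have h1 : ((1 + (nm k : ℝ) / P) ^ (3 + A))⁻¹ ≤ 1 :=
        inv_le_one_of_one_le₀ (one_le_pow₀ (by linarith))
      have h0 : 0 ≤ ((1 + (nm k : ℝ) / P) ^ (3 + A))⁻¹ := by positivity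
      nlinarith
    calc ‖DM M χ k‖ * Real.exp (-γ / 2) * ‖∫ s, ker s * Dks I β χ M γ s k‖
        ≤ ‖DM M χ k‖ * Real.exp (-γ / 2) * (C0 * (1 + |t|) ^ J *
          (3 ^ (3 + A) * ((1 + (nm k : ℝ) / P) ^ (3 + A))⁻¹) *
            (Real.sqrt W * Real.sqrt (Eks I β χ M γ K k))) := by
          refine mul_le_mul_of_nonneg_left (hbd.trans ?_) (by positivity)
          rw [Real.sqrt_mul hW0]
          gcongr
      _ = (C0 * (1 + |t|) ^ J * Real.exp (-γ / 2) * 3 ^ (3 + A) * Real.sqrt W) *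
          (‖DM M χ k‖ * (((1 + (nm k : ℝ) / P) ^ (3 + A))⁻¹ * Real.sqrt (Eks I β χ M γ K k))) := by
          ring
      _ ≤ (C0 * (1 + |t|) ^ J * Real.exp (-γ / 2) * 3 ^ (3 + A) * Real.sqrt W) *
          (‖DM M χ k‖ * (Real.sqrt (((1 + (nm k : ℝ) / P) ^ 3)⁻¹) *
        Real.sqrt (((1 + (nm k : ℝ) / P) ^ A)⁻¹ * Eks I β χ M γ K k))) := by
          gcongr
      _ = _ := by ring
  set c1 : ℝ := C0 * (1 + |t|) ^ J * Real.exp (-γ / 2) * 3 ^ (3 + A) * Real.sqrt W with hc1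
  have hc10 : 0 ≤ c1 := by positivity
  set B : ℝ := c1 * Real.sqrt ((1600 * (1 + P / nm M) * (nm M : ℝ) ^ 2) * T) with hB
  have hfin : ∀ F : Finset Eis, ∑ k ∈ F, ‖a k‖ ≤ B := by
    intro F
    have hχn : ∀ x, ‖End699.ext χ x‖ ≤ 1 := by
      intro x
      simp only [End699.ext]
      split_ifs with hx
      · exact h.char.norm_le hx
      · simp
    calc ∑ k ∈ F, ‖a k‖ ≤ ∑ k ∈ F, c1 *
          ((‖DM M χ k‖ * Real.sqrt (((1 + (nm k : ℝ) / P) ^ 3)⁻¹)) *
          Real.sqrt (((1 + (nm k : ℝ) / P) ^ A)⁻¹ * Eks I β χ M γ K k)) :=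
          Finset.sum_le_sum fun k _ => hterm k
      _ = c1 * ∑ k ∈ F, ((‖DM M χ k‖ * Real.sqrt (((1 + (nm k : ℝ) / P) ^ 3)⁻¹)) *
          Real.sqrt (((1 + (nm k : ℝ) / P) ^ A)⁻¹ * Eks I β χ M γ K k)) := by
          rw [Finset.mul_sum]
      _ ≤ c1 * Real.sqrt ((1600 * (1 + P / nm M) * (nm M : ℝ) ^ 2) * T) := by
          refine mul_le_mul_of_nonneg_left ?_ hc10
          refine Real.le_sqrt_of_sq_le ?_
          refine (Finset.sum_mul_sq_le_sq_mul_sq F _ _).trans ?_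
          have h1 : ∑ k ∈ F, (‖DM M χ k‖ * Real.sqrt (((1 + (nm k : ℝ) / P) ^ 3)⁻¹)) ^ 2 ≤
              1600 * (1 + P / nm M) * (nm M : ℝ) ^ 2 := by
            refine le_trans (le_of_eq ?_) (sum_dual_le h.q0 hχn hP0 F)
            refine Finset.sum_congr rfl fun k _ => ?_
            rw [mul_pow, Real.sq_sqrt (by positivity)]
            rfl
          have h2 : ∑ k ∈ F, (Real.sqrt (((1 + (nm k : ℝ) / P) ^ A)⁻¹ * Eks I β χ M γ K k)) ^ 2 ≤
              T := by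
            have h3 : ∀ k ∈ F, (Real.sqrt (((1 + (nm k : ℝ) / P) ^ A)⁻¹ * Eks I β χ M γ K k)) ^ 2 =
                ((1 + (nm k : ℝ) / P) ^ A)⁻¹ * Eks I β χ M γ K k := fun k _ =>
              Real.sq_sqrt (mul_nonneg (by positivity) (Eks_nonneg _ _ _ _ _ _ _))
            rw [Finset.sum_congr rfl h3]
            exact hsT.sum_le_tsum F fun k _ => mul_nonneg (by positivity) (Eks_nonneg _ _ _ _ _ _ _)
          exact mul_le_mul h1 h2 (Finset.sum_nonneg fun _ _ => by positivity) (by positivity)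
  have hsa : Summable fun k => ‖a k‖ :=
    summable_of_sum_le (fun k => norm_nonneg _) hfin
  have hna : ‖∑' k, a k‖ ≤ B := (norm_tsum_le_tsum_norm hsa).trans
    (Real.tsum_le_of_sum_le (fun k => norm_nonneg _) hfin)
  rw [hS, norm_mul, norm_mul, norm_osc, one_mul, Complex.norm_real,
    Real.norm_of_nonneg (by positivity : (0 : ℝ) ≤ c0)]
  calc (c0 * ‖∑' k, a k‖) ^ 2 ≤ (c0 * B) ^ 2 := by gcongr
    _ = c0 ^ 2 * c1 ^ 2 * ((1600 * (1 + P / nm M) * (nm M : ℝ) ^ 2) * T) := by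
        rw [hB, mul_pow c0, mul_pow c1, Real.sq_sqrt (mul_nonneg (by positivity) hT0)]; ring
    _ ≤ _ := by
        have e1 : c0 ^ 2 = 4 / 3 / (nm M : ℝ) ^ 2 * Real.exp (2 * κ) := by
          rw [hc0, mul_pow, div_pow, mul_pow, Real.sq_sqrt (by norm_num), ← Real.exp_nat_mul]
          push_cast
          field_simp
          norm_num
        have e2 : c1 ^ 2 = C0 ^ 2 * (1 + |t|) ^ (2 * J) * Real.exp (-γ) * 3 ^ (2 * (3 + A)) * W := by
          rw [hc1, mul_pow, mul_pow, mul_pow, mul_pow, Real.sq_sqrt hW0, ← pow_mul, ← pow_mul,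
            ← Real.exp_nat_mul, mul_comm J 2, mul_comm (3 + A) 2]
          congr 4
          push_cast
          ring
        have e3 : P / nm M = Real.exp (γ - κ) := by
          rw [hP]; field_simp
        have e4 : Real.exp (2 * κ) * Real.exp (-γ) * (1 + Real.exp (γ - κ)) =
            Real.exp κ + Real.exp (2 * κ - γ) := by
          rw [mul_add, mul_one, ← Real.exp_add, ← Real.exp_add, add_comm]
          congr 2; all_goals ring
        rw [e1, e2, e3]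
        have e5 : 4 / 3 / (nm M : ℝ) ^ 2 * Real.exp (2 * κ) *
            (C0 ^ 2 * (1 + |t|) ^ (2 * J) * Real.exp (-γ) * 3 ^ (2 * (3 + A)) * W) *
            (1600 * (1 + Real.exp (γ - κ)) * (nm M : ℝ) ^ 2 * T) =
            4 / 3 * 3 ^ (2 * (3 + A)) * C0 ^ 2 * W * 1600 * (1 + |t|) ^ (2 * J) *
            (Real.exp (2 * κ) * Real.exp (-γ) * (1 + Real.exp (γ - κ))) * T := by
          field_simp
        rw [e5, e4]
        gcongr
        norm_num

end Crest.Agent.R017.PoL405
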