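import Crest.Agent.R017.R2N_777
import Crest.Agent.R017.MTL_537

/-!
# Row 17, R8: the polar number of the near cross term (helper777)

* `PoN` : the exponent of the polar number of helper106's `Qs_N2`
* `pol_exp` : the number is `≤ 3 exp PoN`
* `polN` : the line of the polar number, near domain
-/

set_option autoImplicit false
set_option linter.unusedVariables false

noncomputable section

namespace Crest.Agent.R017.PoN777

open Crest.Agent.R017.R2N777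
open Crest.Agent.R017.NE73 (flK)
open Crest.Agent.R017.MTL537 (ML)

/-- the exponent of the polar number -/
def PoN (κ x a v b₀ : ℝ) : ℝ := 2 / 3 * κ + 2 / 3 * x - b₀ +
  max (2 / 3 * (v + 3 * a)) (max (x - b₀) ((v + 3 * a) / 3 + 2 / 3 * (x - b₀)))

/-- the polar number in exponents -/
lemma pol_exp (κ x a v b₀ : ℝ) :
    Real.exp v ^ (-(1 : ℝ) / 3) * Real.exp κ ^ ((2 : ℝ) / 3) / Real.exp a *
      (Real.exp x ^ ((2 : ℝ) / 3) / Real.exp b₀ *
        ((Real.exp v * Real.exp a ^ 3) ^ ((1 : ℝ) / 3) *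
          ML (Real.exp v * Real.exp a ^ 3) (Real.exp x / Real.exp b₀))) ≤
      3 * Real.exp (PoN κ x a v b₀) := by
  have e3 : Real.exp v * Real.exp a ^ 3 = Real.exp (v + 3 * a) := by
    rw [Real.exp_add, ← Real.exp_nat_mul]
    norm_num
  have e4 : Real.exp x / Real.exp b₀ = Real.exp (x - b₀) := (Real.exp_sub _ _).symm
  obtain ⟨m, hm⟩ : ∃ m : ℝ, m = max (2 / 3 * (v + 3 * a)) (max (x - b₀)
    ((v + 3 * a) / 3 + 2 / 3 * (x - b₀))) := ⟨_, rfl⟩
  have hML : ML (Real.exp (v + 3 * a)) (Real.exp (x - b₀)) ≤ 3 * Real.exp m := by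
    unfold MTL537.ML
    rw [← Real.exp_mul, ← Real.exp_mul, ← Real.exp_mul, ← Real.exp_add]
    have g1 : Real.exp ((v + 3 * a) * ((2 : ℝ) / 3)) ≤ Real.exp m :=
      Real.exp_le_exp.2 (by rw [hm]; exact le_trans (by linarith) (le_max_left _ _))
    have g2 : Real.exp (x - b₀) ≤ Real.exp m :=
      Real.exp_le_exp.2 (by rw [hm]; exact le_trans (le_max_left _ _) (le_max_right _ _))
    have g3 : Real.exp ((v + 3 * a) * ((1 : ℝ) / 3) + (x - b₀) * ((2 : ℝ) / 3)) ≤ Real.exp m :=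
      Real.exp_le_exp.2 (by
        rw [hm]
        exact le_trans (by linarith) ((le_max_right _ _).trans (le_max_right _ _)))
    linarith
  rw [e3, e4]
  have h1 : Real.exp v ^ (-(1 : ℝ) / 3) * Real.exp κ ^ ((2 : ℝ) / 3) / Real.exp a *
      (Real.exp x ^ ((2 : ℝ) / 3) / Real.exp b₀ * Real.exp (v + 3 * a) ^ ((1 : ℝ) / 3)) =
      Real.exp (2 / 3 * κ + 2 / 3 * x - b₀) := by
    rw [← Real.exp_mul, ← Real.exp_mul, ← Real.exp_mul, ← Real.exp_mul, ← Real.exp_add,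
      ← Real.exp_sub, ← Real.exp_sub, ← Real.exp_add, ← Real.exp_add]
    congr 1
    ring
  have h2 : PoN κ x a v b₀ = (2 / 3 * κ + 2 / 3 * x - b₀) + m := by
    unfold PoN
    rw [hm]
  calc Real.exp v ^ (-(1 : ℝ) / 3) * Real.exp κ ^ ((2 : ℝ) / 3) / Real.exp a *
      (Real.exp x ^ ((2 : ℝ) / 3) / Real.exp b₀ *
        (Real.exp (v + 3 * a) ^ ((1 : ℝ) / 3) *
          ML (Real.exp (v + 3 * a)) (Real.exp (x - b₀)))) =
      (Real.exp v ^ (-(1 : ℝ) / 3) * Real.exp κ ^ ((2 : ℝ) / 3) / Real.exp a *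
      (Real.exp x ^ ((2 : ℝ) / 3) / Real.exp b₀ * Real.exp (v + 3 * a) ^ ((1 : ℝ) / 3))) *
        ML (Real.exp (v + 3 * a)) (Real.exp (x - b₀)) := by ring
    _ ≤ Real.exp (2 / 3 * κ + 2 / 3 * x - b₀) * (3 * Real.exp m) := by
        rw [h1]
        exact mul_le_mul_of_nonneg_left hML (Real.exp_pos _).le
    _ = 3 * Real.exp (PoN κ x a v b₀) := by
        rw [h2, Real.exp_add]
        ring

/-- the same, for positive reals -/
lemma pol_le {V K a X b₀ : ℝ} (hV : 0 < V) (hK : 0 < K) (ha : 0 < a) (hX : 0 < X) :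
    V ^ (-(1 : ℝ) / 3) * K ^ ((2 : ℝ) / 3) / a *
      (X ^ ((2 : ℝ) / 3) / Real.exp b₀ * ((V * a ^ 3) ^ ((1 : ℝ) / 3) *
        ML (V * a ^ 3) (X / Real.exp b₀))) ≤
      3 * Real.exp (PoN (Real.log K) (Real.log X) (Real.log a) (Real.log V) b₀) := by
  have h := pol_exp (Real.log K) (Real.log X) (Real.log a) (Real.log V) b₀
  rwa [Real.exp_log hV, Real.exp_log hK, Real.exp_log ha, Real.exp_log hX] at h

/-- `PoN` is antitone in `b₀` -/
lemma PoN_anti {κ x a v b₀ b₁ : ℝ} (h : b₁ ≤ b₀) : PoN κ x a v b₀ ≤ PoN κ x a v b₁ := by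
  unfold PoN
  have h1 : max (2 / 3 * (v + 3 * a)) (max (x - b₀) ((v + 3 * a) / 3 + 2 / 3 * (x - b₀))) ≤
      max (2 / 3 * (v + 3 * a)) (max (x - b₁) ((v + 3 * a) / 3 + 2 / 3 * (x - b₁))) :=
    max_le_max le_rfl (max_le_max (by linarith) (by linarith))
  linarith

/-- **the line of the polar number** -/
theorem polN {K n V t h s d₀ A e v b₀ : ℝ} (hS : StN K n V t) (h00 : 0 ≤ h)
    (h1 : 3 * h ≤ max 0 (4 * n - 3 * K) + K / 200) (s0 : 0 ≤ s) (s1 : 100 * s ≤ K)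
    (A0 : 0 ≤ A) (A1 : A ≤ d₀) (D1 : 2000 * d₀ ≤ 2000 * n - 1499 * K + t) (e0 : 0 ≤ e)
    (e1 : 9 * e ≤ max 0 (4 * n - 3 * K) + K / 100) (v0 : 0 ≤ v) (hv : v + 2 * d₀ ≤ V + t)
    (hb : (2 * K - h - (n - d₀) - v - 3 * (e + A)) / 3 - s ≤ b₀) :
    d₀ - A + PoN K (n - d₀) (e + A) v b₀ + K / 20 ≤ 2 * (K + n) - ThN K n d₀ e v := by
  obtain ⟨K0, t0, tK, n5, n3, vn⟩ := hS
  have hM : (max 0 (4 * n - 3 * K) = 0 ∧ 4 * n - 3 * K ≤ 0) ∨
      (max 0 (4 * n - 3 * K) = 4 * n - 3 * K ∧ 0 ≤ 4 * n - 3 * K) := by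
    rcases le_total 0 (4 * n - 3 * K) with h' | h'
    · exact Or.inr ⟨max_eq_right h', h'⟩
    · exact Or.inl ⟨max_eq_left h', h'⟩
  have hT := fl_le K (v + e) (n - d₀ - e)
  have hP := PoN_anti (κ := K) (x := n - d₀) (a := e + A) (v := v) hb
  refine le_trans (add_le_add (add_le_add le_rfl hP) le_rfl) ?_
  unfold PoN ThN
  generalize max 0 (4 * n - 3 * K) = M at hM h1 e1
  generalize flK K (v + e) (n - d₀ - e) = T at hT
  have key : ∀ m : ℝ, (m = 2 / 3 * (v + 3 * (e + A)) ∨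
      m = n - d₀ - ((2 * K - h - (n - d₀) - v - 3 * (e + A)) / 3 - s) ∨
      m = (v + 3 * (e + A)) / 3 + 2 / 3 *
        (n - d₀ - ((2 * K - h - (n - d₀) - v - 3 * (e + A)) / 3 - s))) →
      d₀ - A + (2 / 3 * K + 2 / 3 * (n - d₀) - ((2 * K - h - (n - d₀) - v - 3 * (e + A)) / 3 - s) +
        m) + K / 20 ≤
      2 * (K + n) - (d₀ + 2 / 3 * K - v / 3 - (n - d₀) / 3 + T) := by
    intro m hm
    rcases hM with ⟨rfl, hM⟩ | ⟨rfl, hM⟩ <;> rcases hT with hT | hT <;>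
      rcases hm with rfl | rfl | rfl <;> linarith
  refine key _ ?_
  rcases max_choice (2 / 3 * (v + 3 * (e + A)))
    (max (n - d₀ - ((2 * K - h - (n - d₀) - v - 3 * (e + A)) / 3 - s))
      ((v + 3 * (e + A)) / 3 + 2 / 3 *
        (n - d₀ - ((2 * K - h - (n - d₀) - v - 3 * (e + A)) / 3 - s)))) with h' | h'
  · exact Or.inl h'
  · rcases max_choice (n - d₀ - ((2 * K - h - (n - d₀) - v - 3 * (e + A)) / 3 - s))
      ((v + 3 * (e + A)) / 3 + 2 / 3 *
        (n - d₀ - ((2 * K - h - (n - d₀) - v - 3 * (e + A)) / 3 - s))) with h'' | h''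
    · exact Or.inr (Or.inl (h'.trans h''))
    · exact Or.inr (Or.inr (h'.trans h''))

end Crest.Agent.R017.PoN777
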