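import Crest.Agent.R017.PoXa_70
import Crest.Agent.R017.PoH21_347

/-!
# Row 17, T.7 (class E), cube line, port P1, part b (helper70)

`VItc`, `HWhx j` : the c-side moments of `b · ψ`, class `j` of the frequencies;  `sum_EBq_bghx`,
`Tmhx`, `inner_blockhx` : helper347's `sum_EB_bgh`, `Tmh`, `inner_blockh` with both classes, as in
helper72's `PoHs_72`.
-/

set_option autoImplicit false

noncomputable section

open Complex MeasureTheory
open scoped ComplexConjugate Classical ContDiff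

namespace Crest.Agent.R017.PoX70

open Crest.Agent.R012 Crest.Agent.R012.Eis Crest.Agent.R012.MC
open Crest.Agent.R012.LS2 (S mem_S bl mem_bl)
open Crest.Agent.R012.Mob705 (mu pdiv mem_pdiv)
open Crest.Agent.R012.NonCube52 (Ker kv Good)
open Crest.Agent.R017.E1551 (nmpos jb jb_pos nm_ge_one)
open Crest.Agent.R017.BD829
open Crest.Agent.R017.End699 (HC)
open Crest.Agent.R017.FE47 (PS XK gt rad)
open Crest.Agent.R017.BDh681 (ShH KTc)
open Crest.Agent.R017.PoH347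
open Crest.Agent.R017.PoHx72
open Crest.Agent.R017.Mode405 (Slp Il VI XS)

/-- the c-side functional of a twisted sequence, frequencies with `Q` -/
def VItc (A : ℝ) (b ψ : Eis → ℂ) (γ φ : Eis) (P : ℝ) (Q : Eis → Prop) : ℝ :=
  ∑ k ∈ (bl P).filter (fun k => Q (k * φ)), EQ A (fun m => b (γ * m) * ψ m) (k * φ)

/-- the hypothesis `HWh` for the class `j` of the frequencies (`true` = principal) -/
def HWhx (j : Bool) (A B0 : ℝ) {ι : Type} (Q : Finset ι) (b : ι → Eis → ℂ) (ψ : Eis → ℂ)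
    (ka : Eis) (Pr : ι → Eis → Eis → Prop) (W : ℝ → ℝ) : Prop :=
  ∀ γ φ x D : Eis, IsPrim γ → IsCoprime γ ka → φ ≠ 0 → x ≠ 0 → D ≠ 0 → (nm D : ℝ) ≤ B0 →
    φ * γ ^ 2 = x * D ^ 3 →
    ∀ P : ℝ, 1 ≤ P → (nm γ : ℝ) * ∑ q ∈ Q, VItc A (b q) ψ γ φ P (Cls (Pr q γ) j) ≤ W (P * nm x)

/-- the hypothesis of `b ψ`, as a condition on the family `b ψ`, class `j` -/
lemma HWhx_of (j : Bool) {M : Eis} {χ : Eis → ℂ} (hχ : HC M χ) (l₀ : ℤ) {A B0 : ℝ} {ι : Type}
    {Q : Finset ι} {b : ι → Eis → ℂ} (hb : ∀ q ∈ Q, ∀ n, b q n ≠ 0 → IsPrim n) {ka : Eis}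
    {Pr : ι → Eis → Eis → Prop} {W : ℝ → ℝ}
    (hM : M ∣ ka) (h : HWx j A B0 Q (fun q m => b q m * BDh681.ps χ l₀ m) ka Pr W) :
    HWhx j A B0 Q b (BDh681.ps χ l₀) ka Pr W := by
  intro γ φ x D hγ hγk hφ hx hD hDB he P hP
  refine le_trans (le_of_eq ?_) (h γ φ x D hγ hγk hφ hx hD hDB he P hP)
  congr 1
  refine Finset.sum_congr rfl fun q hq => ?_
  unfold VItc VIc
  refine Finset.sum_congr rfl fun k _ => ?_
  rw [← PoH347.EQ_smul A (norm_ps_eq hχ l₀ hγ (hγk.of_isCoprime_of_dvd_right hM))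
    (fun m => b q (γ * m) * BDh681.ps χ l₀ m)]
  congr 1
  funext m
  rw [if_pos isCoprime_one_right]
  beta_reduce
  by_cases h0 : b q (γ * m) = 0
  · rw [h0]; ring
  · have hm : IsPrim m := (hb q hq _ h0).of_mul_left hγ
    rw [ps_mul' hχ l₀ hγ hm]
    ring

/-- **the merged mean squares** over the frequencies with `Q`, Hecke twist -/
theorem sum_EBq_bghx {M : Eis} {χ : Eis → ℂ} (hχ : HC M χ) (l₀ : ℤ) {A : ℝ} (hA : 1 < A) {Y : ℝ}
    (hY : 0 ≤ Y) {b : Eis → ℂ}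
    (hb : ∀ n, b n ≠ 0 → n ∈ S Y) {g d f : Eis} (hg : IsPrim g) (hd : IsPrim d) (hf : IsPrim f)
    {s : Eis} (hs : s ≠ 0) {F0 : Eis} {Z L τ : ℝ} (hZ : 0 ≤ Z) (hL : 0 ≤ L) (hτ : 0 ≤ τ)
    {T : Finset Eis} (hT : ∀ l ∈ T, IsPrim l ∧ (nm l : ℝ) ≤ L ∧ IsCoprime (d * f) l)
    (ht : ∀ x ∈ bl (Z * L), (Div277.tau x : ℝ) ≤ τ) (Q : Eis → Prop) :
    ∑ l ∈ T, EBq A (rs (bg b g l) (BDh681.ps (chs χ s) l₀) d f) (F0 * f)
        (fun H => Q (s * l * H)) Z ≤
      τ * VItc A b (BDh681.ps χ l₀) (g * (d * f)) (s * F0 * f) (Z * L) Q := by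
  set F : Eis → ℝ := fun y => if Q (y * (s * F0 * f)) then
    EQ A (fun n => b (g * (d * f) * n) * BDh681.ps χ l₀ n) (y * (s * F0 * f)) else 0 with hFd
  have hF : ∀ x, 0 ≤ F x := fun x => by
    rw [hFd]; beta_reduce
    split_ifs
    · exact EQ_nonneg _ _ _
    · exact le_rfl
  have h1 : ∀ l ∈ T, EBq A (rs (bg b g l) (BDh681.ps (chs χ s) l₀) d f) (F0 * f)
      (fun H => Q (s * l * H)) Z ≤ ∑ k ∈ bl Z, F (k * l) := by
    intro l hl
    obtain ⟨hl1, -, hl3⟩ := hT l hl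
    unfold EBq
    rw [Finset.sum_filter]
    refine Finset.sum_le_sum fun k _ => ?_
    have e0 : s * l * (k * (F0 * f)) = k * l * (s * F0 * f) := by ring
    have h2 := EQ_bgh hχ l₀ hA hY hb hg hl1 (hd.mul hf) hl3 hs (k * (F0 * f))
    unfold pth at h2
    unfold rs
    rw [hFd]
    beta_reduce
    rw [e0] at h2 ⊢
    split_ifs
    · exact h2
    · exact le_rfl
  refine (Finset.sum_le_sum h1).trans ?_
  refine (merge hF hZ hL (fun l hl => ⟨(hT l hl).1, (hT l hl).2.1⟩) ht).trans ?_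
  refine mul_le_mul_of_nonneg_left (le_of_eq ?_) hτ
  unfold VItc
  rw [Finset.sum_filter]

/-- one term of the block bound -/
def Tmhx (j : Bool) (Pr : Eis → Eis → Prop) (A : ℝ) (B a : ℕ) (U N X : ℝ) (j1 j3 : ℕ) (M : Eis) (χ : Eis → ℂ)
    (l₀ : ℤ) (s : Eis) (b : Eis → ℂ) (g l d e f : Eis) : ℝ :=
  X ^ 2 / (N * 2 ^ j3 * 2 ^ j1) * (nm d / nm e : ℝ) ^ 2 *
    nj (cpx g d e) j (nm g * 2 ^ j1 / (nm d * nm f)) (max 1 (lmq U N X j1 j3 d e)) *
    ((min 1 (lmq U N X j1 j3 d e)) ^ B *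
      RGq A a (rs (bg b g l) (BDh681.ps (chs χ s) l₀) d f) ((e * ((M * (9 * s)) * sq3)) ^ 2 * f)
        (fun H => Cls (Pr (g * (d * f))) j (s * l * H))
        (max 1 (lmq U N X j1 j3 d e)))

lemma Tmhx_nonneg (j : Bool) (Pr : Eis → Eis → Prop) {A : ℝ} {B a : ℕ} {U N X : ℝ} (hU : 0 < U)
    (hN : 0 < N) (hX : 0 < X)
    (j1 j3 : ℕ) (M : Eis) (χ : Eis → ℂ) (l₀ : ℤ) (s : Eis) (b : Eis → ℂ) (g l : Eis) {d e f : Eis} (hd : d ≠ 0) (he : e ≠ 0) :
    0 ≤ Tmhx j Pr A B a U N X j1 j3 M χ l₀ s b g l d e f := by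
  have h := lmq_pos hU hN hX j1 j3 hd he
  have h1 : 0 ≤ nj (cpx g d e) j (nm g * 2 ^ j1 / (nm d * nm f)) (max 1 (lmq U N X j1 j3 d e)) :=
    nj_nonneg (cpx_pos g d e).le j (by positivity) (by positivity)
  have h2 := RGq_nonneg A a (rs (bg b g l) (BDh681.ps (chs χ s) l₀) d f) ((e * ((M * (9 * s)) * sq3)) ^ 2 * f)
        (fun H => Cls (Pr (g * (d * f))) j (s * l * H))
        (max 1 (lmq U N X j1 j3 d e))
  have h3 : 0 ≤ min 1 (lmq U N X j1 j3 d e) := (lt_min one_pos h).le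
  unfold Tmhx; positivity

set_option maxHeartbeats 1000000 in
/-- **one dilated sequence, one dyadic block**, both classes of frequencies -/
theorem inner_blockhx (l₀ : ℤ) {R : ℝ} (hR : 0 ≤ R) {U : ℝ} (hU : 81 ≤ U) {A B a : ℕ} (hA : 1 < A)
    (hB : a + 1 ≤ B) (ha : 3 ≤ a) {ε : ℝ} (hε : 0 < ε) :
    ∃ C : ℝ, 0 < C ∧ ∀ (v : ℝ → ℝ), Wgt v → ∀ t C0 : ℝ,
      KTc (rad (gt (lw v) l₀ t)) (max R 2) A B C0 →
      ∀ (M : Eis) (χ : Eis → ℂ), HC M χ → ∀ s : Eis, SU s → (nm (M * (9 * s)) : ℝ) ≤ U →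
      ∀ Z N X X' lam₀ : ℝ, 1 ≤ Z → 0 < N → N ≤ Z → 0 < X → 1 ≤ X * Z → X / 64 ≤ X' → X' ≤ X →
      1 ≤ lam₀ → lam₀ ≤ Z → lam₀ * Real.exp R < N →
      ∀ b : Eis → ℂ, (∀ n, b n ≠ 0 → n ∈ S Z) → (∀ n, b n ≠ 0 → IsCoprime n M) →
      Win b (Real.log N) R →
      ∀ (ka : Eis), M ∣ ka → ∀ (p : ℕ × ℕ) (g l : Eis), IsPrim g → IsPrim l → Squarefree (g * l) →
      IsCoprime (g * l) M →
      ∀ j1 j3 : ℕ, Nat.log 2 (nm l) = j3 →
      ∀ Pr : Eis → Eis → Prop, (∀ D, D ≠ 0 → Cub (Pr D)) →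
      (∀ D H, IsPrim D → H ≠ 0 → (∃ m, b (D * m) ≠ 0) → Pr D H →
        ∃ s t, D ^ 2 * H * s = t ^ 3 ∧ IsCoprime s D) →
      ∑ l₁ ∈ H1k lam₀ ka p g l j1, ‖ShH (lw v) (chs χ s) l₀ (Real.log X') t (bg b g l) (g * l₁)‖ ^ 2 ≤
        C * (1 + C0) ^ 2 * Z ^ ε * ∑ d ∈ S lam₀, ∑ e ∈ pdiv d, ∑ f ∈ S lam₀,
          if IsCoprime (d * f) l ∧ IsCoprime (d * f) ka then
            ∑ j : Bool, Tmhx j Pr A B a U N X j1 j3 M χ l₀ s b g l d e f else 0 := by
  have hA' : (1 : ℝ) < (A : ℝ) := by exact_mod_cast hA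
  set R' : ℝ := max R 2 with hR'
  have hR'0 : 0 ≤ R' := by rw [hR']; positivity
  have hR'2 : 2 ≤ R' := le_max_right _ _
  have hRR' : R ≤ R' := le_max_left _ _
  obtain ⟨C, hC, hreg⟩ := pohH_regc l₀ hR'0 hA hB ha (ε := ε / 2) (by linarith)
  have hU0 : 0 < U := by linarith
  refine ⟨C * U ^ (ε / 2), by positivity, ?_⟩
  intro v hv t C0 hk M χ hχ s hs hsU Z N X X' lam₀ hZ hN hNZ hX hXZ hX'1 hX'2 hlam1 hlZ hlN b hb
    hbM hwb ka hka p g l hg hl hgl hglM j1 j3 hj3 Pr hPr hcp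
  have hZ0 : 0 < Z := by linarith
  have hX' : 0 < X' := by linarith
  have hlam0 : 0 ≤ lam₀ := by linarith
  have ng := nmpos hg.ne_zero
  have nl := nmpos hl.ne_zero
  have ng1 := nm_ge_one hg.ne_zero
  have nl1 := nm_ge_one hl.ne_zero
  have hl3 := pow_log_le (nm_pos.mpr hl.ne_zero).ne' hj3
  have hgs : Squarefree g := (squarefree_mul_iff.mp hgl).2.1
  have hls : Squarefree l := (squarefree_mul_iff.mp hgl).2.2
  have hglc : IsCoprime g l := cop_of_sqf hgl
  have hC0 := hk.1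
  -- nonnegativity of the right side
  have hTm : ∀ d ∈ S lam₀, ∀ e ∈ pdiv d, ∀ f ∈ S lam₀,
      0 ≤ if IsCoprime (d * f) l ∧ IsCoprime (d * f) ka then
            ∑ j : Bool, Tmhx j Pr A B a U N X j1 j3 M χ l₀ s b g l d e f else 0 := by
    intro d hd e he f _
    have hd' := (mem_S hlam0).1 hd
    split_ifs
    · exact Finset.sum_nonneg fun j _ => Tmhx_nonneg j Pr hU0 hN hX j1 j3 M χ l₀ s b g l hd'.2.1.ne_zero
        ((mem_pdiv hd'.2.1.ne_zero).mp he).1.ne_zero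
    · exact le_rfl
  rcases (H1k lam₀ ka p g l j1).eq_empty_or_nonempty with hem | ⟨x0, hx0⟩
  · rw [hem, Finset.sum_empty]
    have : 0 ≤ ∑ d ∈ S lam₀, ∑ e ∈ pdiv d, ∑ f ∈ S lam₀,
          if IsCoprime (d * f) l ∧ IsCoprime (d * f) ka then
            ∑ j : Bool, Tmhx j Pr A B a U N X j1 j3 M χ l₀ s b g l d e f else 0 :=
      Finset.sum_nonneg fun d hd => Finset.sum_nonneg fun e he => Finset.sum_nonneg fun f hf =>
        hTm d hd e he f hf
    exact mul_nonneg (by positivity) this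
  -- the properties of the elements of the block
  have hprop : ∀ x ∈ H1k lam₀ ka p g l j1, IsPrim x ∧ Squarefree x ∧ IsCoprime x (g * l) ∧
      (nm x : ℝ) * (nm g * nm l) ^ 2 ≤ lam₀ ∧ (2 : ℝ) ^ j1 ≤ nm x ∧ (nm x : ℝ) ≤ 2 * 2 ^ j1 := by
    intro x hx
    obtain ⟨h1, h2, h3, h4⟩ := Finset.mem_filter.mp (Finset.mem_filter.mp hx).1
    have h5 := pow_log_le (nm_pos.mpr h2.prim1.ne_zero).ne' h4
    refine ⟨h2.prim1, h2.sqf1, h2.cop, ?_, h5.1, h5.2⟩
    have h6 := NonCube52.nm_kv_ge (p, (x, g * l))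
    refine le_trans (le_trans (le_of_eq ?_) h6) h3
    rw [nm_mul]
    push_cast
    ring
  -- the set of the products
  set Hs : Finset Eis := (H1k lam₀ ka p g l j1).image (fun x => g * x) with hHs
  have hinj : Set.InjOn (fun x : Eis => g * x) (H1k lam₀ ka p g l j1 : Set Eis) := by
    intro x _ y _ hxy
    exact mul_left_cancel₀ hg.ne_zero hxy
  have hmemH : ∀ h ∈ Hs, ∃ x ∈ H1k lam₀ ka p g l j1, h = g * x := by
    intro h hh
    obtain ⟨x, hx, hx'⟩ := Finset.mem_image.mp hh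
    exact ⟨x, hx, hx'.symm⟩
  have hsumH : ∑ l₁ ∈ H1k lam₀ ka p g l j1, ‖ShH (lw v) (chs χ s) l₀ (Real.log X') t (bg b g l) (g * l₁)‖ ^ 2 =
      ∑ h ∈ Hs, ‖ShH (lw v) (chs χ s) l₀ (Real.log X') t (bg b g l) h‖ ^ 2 := by
    rw [hHs, Finset.sum_image hinj]
  have hgx : ∀ x ∈ H1k lam₀ ka p g l j1, (nm g : ℝ) * nm x ≤ lam₀ := by
    intro x hx
    obtain ⟨h1, -, -, h4, -, -⟩ := hprop x hx
    have nx := nmpos h1.ne_zero
    refine le_trans ?_ h4
    have h5 : (nm g : ℝ) ≤ (nm g * nm l) ^ 2 := by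
      have h6 : (nm g : ℝ) ≤ nm g * nm l := le_mul_of_one_le_right ng.le nl1
      have h7 : (1 : ℝ) ≤ nm g * nm l := ng1.trans h6
      calc (nm g : ℝ) ≤ nm g * nm l := h6
        _ ≤ (nm g * nm l) * (nm g * nm l) := le_mul_of_one_le_left (by linarith) h7
        _ = _ := by ring
    rw [mul_comm]
    exact mul_le_mul_of_nonneg_left h5 nx.le
  set Y : ℝ := Z ^ 2 with hY
  have hZY : Z ≤ Y := by rw [hY]; nlinarith
  have hY1 : 1 ≤ Y := by linarith
  have hY0 : 0 ≤ Y := by linarith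
  -- support and window of the dilated sequence
  have hbs : ∀ n, bg b g l n ≠ 0 → n ∈ S Y := by
    intro m hm
    obtain ⟨n, rfl, hc, hn⟩ := exists_of_bg hl.ne_zero hm
    have h1 := (mem_S hZ0.le).1 (hb _ hn)
    have hnp : IsPrim n := h1.2.1.of_mul_left hg
    have hns : Squarefree n := h1.2.2.of_mul_right
    rw [mem_S hY0]
    refine ⟨?_, hl.mul hnp, ?_⟩
    · rw [nm_mul]
      push_cast
      have h2 : (nm n : ℝ) ≤ Z := by
        refine le_trans ?_ h1.1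
        rw [nm_mul]
        push_cast
        exact le_mul_of_one_le_left (Nat.cast_nonneg _) ng1
      have h3 : (nm l : ℝ) ≤ Z := by
        obtain ⟨h4, -, -, h5, -, -⟩ := hprop x0 hx0
        have nx1 := nm_ge_one h4.ne_zero
        have h6 : (nm l : ℝ) ≤ nm x0 * (nm g * nm l) ^ 2 := by
          have h7 : (nm l : ℝ) ≤ nm g * nm l := le_mul_of_one_le_left nl.le ng1
          have h8 : (1 : ℝ) ≤ nm g * nm l := nl1.trans h7
          calc (nm l : ℝ) ≤ nm g * nm l := h7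
            _ ≤ (nm g * nm l) * (nm g * nm l) := le_mul_of_one_le_left (by linarith) h8
            _ ≤ nm x0 * ((nm g * nm l) * (nm g * nm l)) :=
                le_mul_of_one_le_left (by positivity) nx1
            _ = _ := by ring
        linarith
      calc (nm l : ℝ) * nm n ≤ Z * Z := mul_le_mul h3 h2 (Nat.cast_nonneg _) hZ0.le
        _ = Y := by rw [hY]; ring
    · exact squarefree_mul_iff.mpr ⟨(hc.of_mul_right_right).symm.isRelPrime, hls, hns⟩
  have hN' : 0 < N * nm l / nm g := by positivity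
  have hwbs : Win (bg b g l) (Real.log (N * nm l / nm g)) R' := by
    intro m hm
    obtain ⟨n, rfl, hc, hn⟩ := exists_of_bg hl.ne_zero hm
    have h1 := hwb _ hn
    have h2 := (mem_S hZ0.le).1 (hb _ hn)
    have hnp : IsPrim n := h2.2.1.of_mul_left hg
    have nn := nmpos hnp.ne_zero
    rw [nm_mul] at h1 ⊢
    push_cast at h1 ⊢
    rw [Real.log_mul ng.ne' nn.ne'] at h1
    rw [Real.log_mul nl.ne' nn.ne', Real.log_div (by positivity) ng.ne',
      Real.log_mul hN.ne' nl.ne']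
    have e1 : Real.log (nm l) + Real.log (nm n) -
        (Real.log N + Real.log (nm l) - Real.log (nm g)) =
        Real.log (nm g) + Real.log (nm n) - Real.log N := by ring
    rw [e1]
    linarith
  -- the set `Hs`
  have hHsY : Hs ⊆ S Y := by
    intro h hh
    obtain ⟨x, hx, rfl⟩ := hmemH h hh
    obtain ⟨h1, h2, h3, -, -, -⟩ := hprop x hx
    rw [mem_S hY0]
    refine ⟨?_, hg.mul h1, squarefree_mul_iff.mpr ⟨(h3.of_mul_right_left).symm.isRelPrime, hgs, h2⟩⟩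
    rw [nm_mul]
    push_cast
    linarith [hgx x hx]
  have hL : (0 : ℝ) < nm g * 2 ^ j1 := by positivity
  have hHw : ∀ h ∈ Hs, |Real.log (nm h) - Real.log (nm g * 2 ^ j1)| ≤ R' / 2 := by
    intro h hh
    obtain ⟨x, hx, rfl⟩ := hmemH h hh
    obtain ⟨h1, -, -, -, h5, h6⟩ := hprop x hx
    have nx := nmpos h1.ne_zero
    have h2j : (0 : ℝ) < 2 ^ j1 := by positivity
    rw [nm_mul]
    push_cast
    rw [Real.log_mul ng.ne' nx.ne', Real.log_mul ng.ne' h2j.ne']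
    have h7 : Real.log (2 ^ j1) ≤ Real.log (nm x) := Real.log_le_log h2j h5
    have h8 : Real.log (nm x) ≤ Real.log 2 + Real.log (2 ^ j1) := by
      rw [← Real.log_mul (by norm_num) h2j.ne']
      exact Real.log_le_log nx h6
    have h9 : Real.log 2 ≤ 1 := by linarith [Real.log_two_lt_d9]
    rw [abs_le]
    constructor <;> linarith
  have hHb : ∀ h ∈ Hs, bg b g l h = 0 := by
    intro h hh
    obtain ⟨x, hx, rfl⟩ := hmemH h hh
    obtain ⟨h1, -, h3, h4, -, -⟩ := hprop x hx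
    by_contra hne
    obtain ⟨n, hn1, hn2, hn3⟩ := exists_of_bg hl.ne_zero hne
    -- `l = 1`
    have hl1 : l = 1 := by
      have h5 : IsCoprime (g * x) l := hglc.mul_left h3.of_mul_right_right
      have h6 : IsUnit l := by
        have h7 : l ∣ g * x := ⟨n, hn1⟩
        exact (h5.symm.of_isCoprime_of_dvd_right h7 : IsCoprime l l).isUnit_of_dvd' dvd_rfl dvd_rfl
      exact hl.eq_of_associated isPrim_one (associated_one_iff_isUnit.mpr h6)
    have hg1 : g = 1 := by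
      have h7 : g ∣ l * n := ⟨x, hn1.symm⟩
      rw [hl1, one_mul] at h7
      have h8 : IsCoprime n g := hn2.of_mul_right_left
      have h6 : IsUnit g := (h8.symm.of_isCoprime_of_dvd_right h7 : IsCoprime g g).isUnit_of_dvd'
        dvd_rfl dvd_rfl
      exact hg.eq_of_associated isPrim_one (associated_one_iff_isUnit.mpr h6)
    rw [hl1, hg1, one_mul, one_mul] at hn1
    rw [hg1, one_mul] at hn3
    rw [← hn1] at hn3
    have h9 := hwb x hn3
    have nx := nmpos h1.ne_zero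
    have h10 := hgx x hx
    rw [hg1, nm_one] at h10
    push_cast at h10
    rw [one_mul] at h10
    have h11 : Real.log (nm x) + R < Real.log N := by
      have h12 : (nm x : ℝ) * Real.exp R < N :=
        lt_of_le_of_lt (mul_le_mul_of_nonneg_right h10 (Real.exp_pos _).le) hlN
      have h13 := Real.log_lt_log (by positivity) h12
      rwa [Real.log_mul nx.ne' (Real.exp_pos _).ne', Real.log_exp] at h13
    have h14 := (abs_le.mp h9).1
    linarith
  -- the size parameters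
  have hxy0 := hprop x0 hx0
  have hlP : (nm g : ℝ) * 2 ^ j1 ≤ U * Z ^ 2 := by
    have h1 := hgx x0 hx0
    have h2 : (nm g : ℝ) * 2 ^ j1 ≤ nm g * nm x0 :=
      mul_le_mul_of_nonneg_left hxy0.2.2.2.2.1 ng.le
    nlinarith
  have hnl : (nm l : ℝ) ≤ Z := by
    obtain ⟨h4, -, -, h5, -, -⟩ := hxy0
    have nx1 := nm_ge_one h4.ne_zero
    have h6 : (nm l : ℝ) ≤ nm x0 * (nm g * nm l) ^ 2 := by
      have h7 : (nm l : ℝ) ≤ nm g * nm l := le_mul_of_one_le_left nl.le ng1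
      have h8 : (1 : ℝ) ≤ nm g * nm l := nl1.trans h7
      calc (nm l : ℝ) ≤ nm g * nm l := h7
        _ ≤ (nm g * nm l) * (nm g * nm l) := le_mul_of_one_le_left (by linarith) h8
        _ ≤ nm x0 * ((nm g * nm l) * (nm g * nm l)) :=
            le_mul_of_one_le_left (by positivity) nx1
        _ = _ := by ring
    linarith
  have hNP : N * nm l / nm g ≤ U * Z ^ 2 := by
    rw [div_le_iff₀ ng]
    have h1 : N * nm l ≤ Z * Z := mul_le_mul hNZ hnl nl.le hZ0.le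
    nlinarith
  have hXP : 1 ≤ X' * (U * Z ^ 2) := by
    have h1 : X * Z ≤ X' * (U * Z ^ 2) := by
      have h2 : X ≤ 64 * X' := by linarith
      have h3 : Z ≤ Z ^ 2 := by nlinarith
      calc X * Z ≤ (64 * X') * Z ^ 2 := mul_le_mul h2 h3 hZ0.le (by positivity)
        _ ≤ X' * (U * Z ^ 2) := by nlinarith [mul_pos hX' (pow_pos hZ0 2)]
    linarith
  have hbsM : ∀ n, bg b g l n ≠ 0 → IsCoprime n (M * (9 * s)) := by
    intro m hm
    have hm' := (mem_S hY0).1 (hbs m hm)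
    refine cop_mod hs hm'.2.1 ?_
    obtain ⟨n, rfl, hc, hn⟩ := exists_of_bg hl.ne_zero hm
    exact hglM.of_mul_left_right.mul_left (hbM _ hn).of_mul_left_right
  have hHM : ∀ h ∈ Hs, IsCoprime h (M * (9 * s)) := by
    intro h hh
    have hh' := (mem_S hY0).1 (hHsY hh)
    refine cop_mod hs hh'.2.1 ?_
    obtain ⟨x, hx, rfl⟩ := hmemH h hh
    exact hglM.of_mul_left_left.mul_left
      ((Finset.mem_filter.mp hx).2.of_isCoprime_of_dvd_right hka)
  -- the principal frequencies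
  set Pr' : Eis → Eis → Prop := fun D H => (∃ m, bg b g l (D * m) ≠ 0) ∧
    Pr (g * D) (s * l * H) with hPr'
  have hcnt : ∀ d ∈ Dh Y Hs, ∀ e ∈ pdiv d, ∀ f ∈ Fh Y Hs d, ∀ Z₁ : ℝ, 1 ≤ Z₁ →
      (((bl Z₁).filter (fun k => Pr' (d * f) (k * ((e * ((M * (9 * s)) * sq3)) ^ 2 * f)))).card : ℝ) ≤
        cpx g d e * Z₁ ^ (1 / 3 : ℝ) := by
    intro d hd e he f hf Z₁ hZ₁
    obtain ⟨hdY, hdh⟩ := Finset.mem_filter.mp hd
    obtain ⟨hfY, hfh⟩ := Finset.mem_filter.mp hf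
    have hd' := (mem_S hY0).1 hdY
    have hf' := (mem_S hY0).1 hfY
    have he' := (mem_pdiv hd'.2.1.ne_zero).mp he
    by_cases hnv : ∃ m, bg b g l (d * f * m) ≠ 0
    swap
    · rw [Finset.filter_false_of_mem (fun k _ hk => hnv hk.1)]
      rw [Finset.card_empty, Nat.cast_zero]
      have := cpx_pos g d e
      positivity
    obtain ⟨h, hh, hdf⟩ := hfh
    obtain ⟨x, hx, rfl⟩ := hmemH h hh
    obtain ⟨hx1, -, hx3, -, -, -⟩ := hprop x hx
    have hcl : IsCoprime (d * f) l := by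
      have h5 : IsCoprime (g * x) l := hglc.mul_left hx3.of_mul_right_right
      exact h5.of_isCoprime_of_dvd_left hdf
    obtain ⟨m, hm⟩ := hnv
    obtain ⟨n, hn1, hn2, hn3⟩ := exists_of_bg hl.ne_zero hm
    have hdn : d * f ∣ n := by
      have : d * f ∣ l * n := ⟨m, hn1.symm⟩
      exact hcl.dvd_of_dvd_mul_left this
    have hcg : IsCoprime (d * f) g := (hn2.of_mul_right_left).of_isCoprime_of_dvd_left hdn
    obtain ⟨m', rfl⟩ := hdn
    have hb2 : b (g * (d * f) * m') ≠ 0 := by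
      rw [mul_assoc]; exact hn3
    have hDs : Squarefree (g * (d * f)) := by
      have h6 := ((mem_S hZ0.le).1 (hb _ hb2)).2.2
      exact h6.of_mul_left
    obtain ⟨d', hd''⟩ := he'.2
    have hd'0 : d' ≠ 0 := by
      rintro rfl
      rw [mul_zero] at hd''
      exact hd'.2.1.ne_zero hd''
    have hd'p : IsPrim d' := by
      have : IsPrim (e * d') := by rw [← hd'']; exact hd'.2.1
      exact this.of_mul_left he'.1
    have hgdp : IsPrim (g * (d * f)) := hg.mul (hd'.2.1.mul hf'.2.1)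
    have hup : IsPrim (g * d') := hg.mul hd'p
    have h1 := card_u (Q := fun H => Pr (g * (d * f)) (s * l * H))
      (Cub.mul_left' (hPr (g * (d * f)) hgdp.ne_zero) (mul_ne_zero hs.ne hl.ne_zero))
      (u := g * d') hup.ne_zero (F := (e * ((M * (9 * s)) * sq3)) ^ 2 * f)
      (mul_ne_zero (pow_ne_zero 2 (mul_ne_zero he'.1.ne_zero
        (mul_ne_zero (HC_chs hχ hs.ne).q0 sq3_ne_zero))) hf'.2.1.ne_zero) hZ₁ (fun k hk hQ => ?_)
    · refine le_trans ?_ (h1.trans (le_of_eq ?_))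
      · refine Nat.cast_le.mpr (Finset.card_le_card ?_)
        intro k hk
        obtain ⟨hk1, hk2⟩ := Finset.mem_filter.mp hk
        exact Finset.mem_filter.mpr ⟨hk1, hk2.2⟩
      · have e9 : (nm (g * d') : ℝ) = nm g * nm d / nm e := by
          rw [hd'', nm_mul, nm_mul]
          push_cast
          have := nmpos he'.1.ne_zero
          field_simp
        have e10 : max (1 : ℝ) (nm g * nm d / nm e) = nm g * nm d / nm e := by
          rw [← e9]
          exact max_eq_right (nm_ge_one hup.ne_zero)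
        unfold cpx
        rw [e10, ← e9]
    · -- the divisibility
      have hk' := (mem_bl (by linarith)).1 hk
      have hH0 : s * l * (k * ((e * ((M * (9 * s)) * sq3)) ^ 2 * f)) ≠ 0 :=
        mul_ne_zero (mul_ne_zero hs.ne hl.ne_zero) (mul_ne_zero hk'.1
          (mul_ne_zero (pow_ne_zero 2 (mul_ne_zero he'.1.ne_zero
            (mul_ne_zero (HC_chs hχ hs.ne).q0 sq3_ne_zero))) hf'.2.1.ne_zero))
      obtain ⟨s', t, hst, hsc⟩ := hcp _ _ hgdp hH0 ⟨m', hb2⟩ hQ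
      have h2 := dvd_of_pr hDs hgdp.ne_zero hsc hst
      have h3 : g * d' ∣ s * l * (k * ((e * ((M * (9 * s)) * sq3)) ^ 2 * f)) := by
        refine dvd_trans ?_ h2
        rw [hd'']
        exact ⟨e * f, by ring⟩
      -- coprimality
      have hDs' : Squarefree (g * (e * d' * f)) := by rw [← hd'']; exact hDs
      have c1 : IsCoprime (g * d') (e * f) := by
        have h4 : Squarefree (g * d' * (e * f)) := by
          have : g * (e * d' * f) = g * d' * (e * f) := by ring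
          rwa [this] at hDs'
        exact cop_of_sqf h4
      have c2 : IsCoprime (g * d') s := (hs.cop _ hup).symm
      have c3 : IsCoprime (g * d') ((M * (9 * s)) * sq3) := by
        have h4 : IsCoprime (g * d') M := by
          refine IsCoprime.of_isCoprime_of_dvd_left (hbM _ hb2).of_mul_left_left ?_
          exact mul_dvd_mul_left g ⟨e * f, by rw [hd'']; ring⟩
        have h5 : IsCoprime (M * (9 * s)) (g * d') := (cop_mod hs hup h4).symm
        have h6 : IsCoprime sq3 (g * d') := sq3_cop hup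
        exact (h5.mul_left h6).symm
      have c4 : IsCoprime (g * d') l := by
        refine hglc.mul_left ?_
        have : d' ∣ d * f := ⟨e * f, by rw [hd'']; ring⟩
        exact hcl.of_isCoprime_of_dvd_left this
      have h7 : g * d' ∣ k * ((e * ((M * (9 * s)) * sq3)) ^ 2 * f) :=
        (c2.mul_right c4).dvd_of_dvd_mul_left h3
      have c5 : IsCoprime (g * d') ((e * ((M * (9 * s)) * sq3)) ^ 2 * f) :=
        ((c1.of_mul_right_left.mul_right c3).pow_right).mul_right c1.of_mul_right_right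
      exact c5.dvd_of_dvd_mul_right h7
  have hmain := hreg (lw v) (lw_smooth hv) (lw_cpt hv) t C0 hk (M * (9 * s)) (chs χ s)
    (HC_chs hχ hs.ne) (U * Z ^ 2) X' Y
    (N * nm l / nm g) (nm g * 2 ^ j1) (by nlinarith) (hsU.trans (by nlinarith)) hY1
    (by rw [hY]; nlinarith) hX' hXP hN' hNP hL hlP (bg b g l) hbs hbsM hwbs Hs hHsY hHM hHw hHb
    Pr' (fun d e => cpx g d e) (fun d e => cpx_pos g d e) (fun d hd e he f hf Z₁ hZ₁ => by
      convert hcnt d hd e he f hf Z₁ hZ₁)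
  rw [hsumH]
  refine hmain.trans ?_
  -- the constant
  have hcst : C * (1 + C0) ^ 2 * (U * Z ^ 2) ^ (ε / 2) =
      C * U ^ (ε / 2) * (1 + C0) ^ 2 * Z ^ ε := by
    rw [Real.mul_rpow hU0.le (by positivity), ← Real.rpow_natCast Z 2,
      ← Real.rpow_mul hZ0.le]
    have : (((2 : ℕ) : ℝ)) * (ε / 2) = ε := by push_cast; ring
    rw [this]
    ring
  rw [hcst, mul_assoc (C * U ^ (ε / 2) * (1 + C0) ^ 2 * Z ^ ε)]
  refine mul_le_mul_of_nonneg_left ?_ (by positivity)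
  rw [Finset.mul_sum]
  -- comparison of the scales
  have hlmle : ∀ d e : Eis, d ≠ 0 → e ≠ 0 →
      lmB (M * (9 * s)) X' (N * nm l / nm g) (nm g * 2 ^ j1) d e ≤ lmq U N X j1 j3 d e := by
    intro d e hd he
    have nd := nmpos hd
    have ne := nmpos he
    unfold lmB lmq
    have hMle := hsU
    have e1 : N * nm l / nm g * (nm g * 2 ^ j1) = N * nm l * 2 ^ j1 := by field_simp
    rw [e1, div_le_div_iff₀ (by positivity) (by positivity)]
    have h1 : N * nm l * 2 ^ j1 ≤ 2 * (N * 2 ^ j3 * 2 ^ j1) := by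
      have : N * nm l * 2 ^ j1 ≤ N * (2 * 2 ^ j3) * 2 ^ j1 := by
        have := hl3.2
        gcongr
      linarith
    have h2 : X ≤ 64 * X' := by linarith
    have hMe : 3 * (nm (M * (9 * s)) : ℝ) * nm e ≤ 3 * U * nm e := by gcongr
    calc 3 * (nm (M * (9 * s)) : ℝ) * nm e * (N * nm l * 2 ^ j1) * (X * nm d ^ 2)
        ≤ 3 * U * nm e * (2 * (N * 2 ^ j3 * 2 ^ j1)) * ((64 * X') * nm d ^ 2) := by gcongr
      _ = 384 * U * nm e * (N * 2 ^ j3 * 2 ^ j1) * (X' * nm d ^ 2) := by ring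
  have hlBpos : ∀ d e : Eis, d ≠ 0 → e ≠ 0 →
      0 < lmB (M * (9 * s)) X' (N * nm l / nm g) (nm g * 2 ^ j1) d e := by
    intro d e hd he
    have nd := nmpos hd
    have ne := nmpos he
    have nM := nmpos (HC_chs hχ hs.ne).q0
    unfold lmB
    positivity
  -- the terms
  have hkey : ∀ d ∈ Dh Y Hs, ∀ e ∈ pdiv d, ∀ f ∈ Fh Y Hs d,
      X' ^ 2 / (N * nm l / nm g * (nm g * 2 ^ j1)) *
(∑ j : Bool, ((nm d / nm e : ℝ) ^ 2 * nj (cpx g d e) j (nm g * 2 ^ j1 / (nm d * nm f))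
          (max 1 (lmB (M * (9 * s)) X' (N * nm l / nm g) (nm g * 2 ^ j1) d e)) *
          ((min 1 (lmB (M * (9 * s)) X' (N * nm l / nm g) (nm g * 2 ^ j1) d e)) ^ B *
            RGq A a (rs (bg b g l) (BDh681.ps (chs χ s) l₀) d f) ((e * ((M * (9 * s)) * sq3)) ^ 2 * f)
              (Cls (Pr' (d * f)) j)
              (max 1 (lmB (M * (9 * s)) X' (N * nm l / nm g) (nm g * 2 ^ j1) d e))))) ≠ 0 →
      (d ∈ S lam₀ ∧ f ∈ S lam₀) ∧
      X' ^ 2 / (N * nm l / nm g * (nm g * 2 ^ j1)) *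
(∑ j : Bool, ((nm d / nm e : ℝ) ^ 2 * nj (cpx g d e) j (nm g * 2 ^ j1 / (nm d * nm f))
          (max 1 (lmB (M * (9 * s)) X' (N * nm l / nm g) (nm g * 2 ^ j1) d e)) *
          ((min 1 (lmB (M * (9 * s)) X' (N * nm l / nm g) (nm g * 2 ^ j1) d e)) ^ B *
            RGq A a (rs (bg b g l) (BDh681.ps (chs χ s) l₀) d f) ((e * ((M * (9 * s)) * sq3)) ^ 2 * f)
              (Cls (Pr' (d * f)) j)
              (max 1 (lmB (M * (9 * s)) X' (N * nm l / nm g) (nm g * 2 ^ j1) d e))))) ≤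
        if IsCoprime (d * f) l ∧ IsCoprime (d * f) ka then
            ∑ j : Bool, Tmhx j Pr A B a U N X j1 j3 M χ l₀ s b g l d e f else 0 := by
    intro d hd e he f hf hne
    obtain ⟨hdY, hdh⟩ := Finset.mem_filter.mp hd
    obtain ⟨hfY, hfh⟩ := Finset.mem_filter.mp hf
    have hd' := (mem_S hY0).1 hdY
    have hf' := (mem_S hY0).1 hfY
    have he' := (mem_pdiv hd'.2.1.ne_zero).mp he
    have nd := nmpos hd'.2.1.ne_zero
    have nf := nmpos hf'.2.1.ne_zero
    have ne := nmpos he'.1.ne_zero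
    have nd1 := nm_ge_one hd'.2.1.ne_zero
    have nf1 := nm_ge_one hf'.2.1.ne_zero
    obtain ⟨h, hh, hdf⟩ := hfh
    obtain ⟨x, hx, rfl⟩ := hmemH h hh
    obtain ⟨hx1, -, hx3, hx4, hx5, -⟩ := hprop x hx
    have hcl : IsCoprime (d * f) l := by
      have h5 : IsCoprime (g * x) l := hglc.mul_left hx3.of_mul_right_right
      exact h5.of_isCoprime_of_dvd_left hdf
    -- the sequence does not vanish
    have hex : ∃ m, rs (bg b g l) (BDh681.ps (chs χ s) l₀) d f m ≠ 0 := by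
      by_contra h0
      push Not at h0
      apply hne
      simp [RGq_zero h0]
    obtain ⟨m, hm⟩ := hex
    have hm1 : bg b g l (d * f * m) ≠ 0 := by
      intro h0; apply hm; unfold rs; rw [h0, zero_mul]
    obtain ⟨n, hn1, hn2, -⟩ := exists_of_bg hl.ne_zero hm1
    have hdn : d * f ∣ n := by
      have : d * f ∣ l * n := ⟨m, hn1.symm⟩
      exact hcl.dvd_of_dvd_mul_left this
    have hcg : IsCoprime (d * f) g := (hn2.of_mul_right_left).of_isCoprime_of_dvd_left hdn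
    have hdx : d * f ∣ x := hcg.dvd_of_dvd_mul_left hdf
    have hle : (nm d : ℝ) * nm f ≤ lam₀ := by
      have h1 : (nm (d * f) : ℝ) ≤ nm x := by
        exact_mod_cast Div277.nm_le_of_dvd hx1.ne_zero hdx
      rw [nm_mul] at h1
      push_cast at h1
      have h2 := hgx x hx
      have h3 : (nm x : ℝ) ≤ nm g * nm x := le_mul_of_one_le_left (Nat.cast_nonneg _) ng1
      linarith
    have hdl : (nm d : ℝ) ≤ lam₀ := (le_mul_of_one_le_right nd.le nf1).trans hle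
    have hfl : (nm f : ℝ) ≤ lam₀ := (le_mul_of_one_le_left nf.le nd1).trans hle
    refine ⟨⟨(mem_S hlam0).mpr ⟨hdl, hd'.2.1, hd'.2.2⟩, (mem_S hlam0).mpr ⟨hfl, hf'.2.1, hf'.2.2⟩⟩, ?_⟩
    have hcka : IsCoprime (d * f) ka :=
      (Finset.mem_filter.mp hx).2.of_isCoprime_of_dvd_left hdx
    rw [if_pos ⟨hcl, hcka⟩, Finset.mul_sum]
    refine Finset.sum_le_sum fun j _ => ?_
    have eCls : Cls (Pr' (d * f)) j = fun H => Cls (Pr (g * (d * f))) j (s * l * H) := by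
      funext H
      have hnv : ∃ m, bg b g l (d * f * m) ≠ 0 := ⟨m, hm1⟩
      unfold Cls
      rw [hPr']
      simp only [hnv, true_and]
    rw [eCls]
    have hlm := hlmle d e hd'.2.1.ne_zero he'.1.ne_zero
    have hlB := hlBpos d e hd'.2.1.ne_zero he'.1.ne_zero
    have hsup := rs_supp hY0 hbs (BDh681.ps (chs χ s) l₀) hd'.2.1 hf'.2.1
    have hmx : max 1 (lmB (M * (9 * s)) X' (N * nm l / nm g) (nm g * 2 ^ j1) d e) ≤
        max 1 (lmq U N X j1 j3 d e) := max_le_max le_rfl hlm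
    have hRG := RGq_mono hA' ha hY1 hsup ((e * ((M * (9 * s)) * sq3)) ^ 2 * f)
      (fun H => Cls (Pr (g * (d * f))) j (s * l * H))
      (le_max_left 1 (lmB (M * (9 * s)) X' (N * nm l / nm g) (nm g * 2 ^ j1) d e)) hmx
    have hRG0 := RGq_nonneg A a (rs (bg b g l) (BDh681.ps (chs χ s) l₀) d f) ((e * ((M * (9 * s)) * sq3)) ^ 2 * f)
      (fun H => Cls (Pr (g * (d * f))) j (s * l * H))
      (max 1 (lmB (M * (9 * s)) X' (N * nm l / nm g) (nm g * 2 ^ j1) d e))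
    have hnr := nj_mono (cpx_pos g d e).le j (N := nm g * 2 ^ j1 / (nm d * nm f)) (by positivity)
      (le_trans zero_le_one (le_max_left 1
        (lmB (M * (9 * s)) X' (N * nm l / nm g) (nm g * 2 ^ j1) d e))) hmx
    have hnr0 : 0 ≤ nj (cpx g d e) j (nm g * 2 ^ j1 / (nm d * nm f))
      (max 1 (lmB (M * (9 * s)) X' (N * nm l / nm g) (nm g * 2 ^ j1) d e)) :=
      nj_nonneg (cpx_pos g d e).le j (by positivity) (by positivity)
    have hmin0 : 0 < min 1 (lmB (M * (9 * s)) X' (N * nm l / nm g) (nm g * 2 ^ j1) d e) :=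
      lt_min one_pos hlB
    have hmin : (min 1 (lmB (M * (9 * s)) X' (N * nm l / nm g) (nm g * 2 ^ j1) d e)) ^ B ≤
        (min 1 (lmq U N X j1 j3 d e)) ^ B :=
      pow_le_pow_left₀ hmin0.le (min_le_min le_rfl hlm) B
    have hpre : X' ^ 2 / (N * nm l / nm g * (nm g * 2 ^ j1)) ≤ X ^ 2 / (N * 2 ^ j3 * 2 ^ j1) := by
      have e1 : N * nm l / nm g * (nm g * 2 ^ j1) = N * nm l * 2 ^ j1 := by field_simp
      rw [e1]
      have h1 := hl3.1
      gcongr
    have hlp := lmq_pos hU0 hN hX j1 j3 hd'.2.1.ne_zero he'.1.ne_zero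
    have hmp0 : 0 < min 1 (lmq U N X j1 j3 d e) := lt_min one_pos hlp
    have hnr1 : 0 ≤ nj (cpx g d e) j (nm g * 2 ^ j1 / (nm d * nm f))
        (max 1 (lmq U N X j1 j3 d e)) :=
      hnr0.trans hnr
    unfold Tmhx
    calc X' ^ 2 / (N * nm l / nm g * (nm g * 2 ^ j1)) *
        ((nm d / nm e : ℝ) ^ 2 * nj (cpx g d e) j (nm g * 2 ^ j1 / (nm d * nm f))
          (max 1 (lmB (M * (9 * s)) X' (N * nm l / nm g) (nm g * 2 ^ j1) d e)) *
          ((min 1 (lmB (M * (9 * s)) X' (N * nm l / nm g) (nm g * 2 ^ j1) d e)) ^ B *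
            RGq A a (rs (bg b g l) (BDh681.ps (chs χ s) l₀) d f) ((e * ((M * (9 * s)) * sq3)) ^ 2 * f)
              (fun H => Cls (Pr (g * (d * f))) j (s * l * H))
              (max 1 (lmB (M * (9 * s)) X' (N * nm l / nm g) (nm g * 2 ^ j1) d e))))
        ≤ X ^ 2 / (N * 2 ^ j3 * 2 ^ j1) *
        ((nm d / nm e : ℝ) ^ 2 * nj (cpx g d e) j (nm g * 2 ^ j1 / (nm d * nm f))
          (max 1 (lmq U N X j1 j3 d e)) *
          ((min 1 (lmq U N X j1 j3 d e)) ^ B *
            RGq A a (rs (bg b g l) (BDh681.ps (chs χ s) l₀) d f) ((e * ((M * (9 * s)) * sq3)) ^ 2 * f)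
              (fun H => Cls (Pr (g * (d * f))) j (s * l * H))
              (max 1 (lmq U N X j1 j3 d e)))) := by
          gcongr
      _ = _ := by ring
  -- the sums
  refine sum_le_sub (fun d hd => Finset.sum_nonneg fun e he => Finset.sum_nonneg fun f hf =>
    hTm d hd e he f hf) (fun d hd hdne => ?_)
  rw [Finset.mul_sum] at hdne ⊢
  obtain ⟨e0, he0, hne0⟩ := Finset.exists_ne_zero_of_sum_ne_zero hdne
  rw [Finset.mul_sum] at hne0
  obtain ⟨f0, hf0, hne1⟩ := Finset.exists_ne_zero_of_sum_ne_zero hne0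
  have hdmem := (hkey d hd e0 he0 f0 hf0 hne1).1.1
  refine ⟨hdmem, Finset.sum_le_sum fun e he => ?_⟩
  rw [Finset.mul_sum]
  refine sum_le_sub (fun f hf => hTm d hdmem e he f hf) (fun f hf hfne => ?_)
  have := hkey d hd e he f hf hfne
  exact ⟨this.1.2, this.2⟩

end Crest.Agent.R017.PoX70
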