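import Crest.Agent.R017.PoXb_70

/-!
# Row 17, T.7 (class E), cube line, port P1, part c (helper70)

`RG_famhx`, `fam_onehx`, `fam_blockhx` : helper347's `RG_famh`, `fam_oneh`, `fam_blockh` with both
classes of frequencies.
-/

set_option autoImplicit false

noncomputable section

open Complex MeasureTheory
open scoped ComplexConjugate Classical

namespace Crest.Agent.R017.PoX70

open Crest.Agent.R012 Crest.Agent.R012.Eis Crest.Agent.R012.MC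
open Crest.Agent.R012.LS2 (S mem_S bl mem_bl)
open Crest.Agent.R012.Mob705 (mu pdiv mem_pdiv)
open Crest.Agent.R012.NonCube52 (Ker kv Good)
open Crest.Agent.R017.E1551 (nmpos jb jb_pos nm_ge_one)
open Crest.Agent.R017.BD829
open Crest.Agent.R017.End699 (HC)
open Crest.Agent.R017.FE47 (PS XK gt rad)
open Crest.Agent.R017.BDh681 (ShH KTc)
open Crest.Agent.R017.PoH347
open Crest.Agent.R017.PoHx72
open Crest.Agent.R017.Mode405 (Slp Il VI XS)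

set_option maxHeartbeats 2000000 in
/-- the family of mean squares of one class, merged -/
theorem RG_famhx (j : Bool) (l₀ : ℤ) {A a : ℕ} (hA : 1 < A) {ε : ℝ} (hε0 : 0 < ε) (hε : ε ≤ 1) :
    ∃ C : ℝ, 0 < C ∧ ∀ Z : ℝ, 1 ≤ Z → ∀ {ι : Type} (Q : Finset ι) (b : ι → Eis → ℂ),
      (∀ q ∈ Q, ∀ n, b q n ≠ 0 → n ∈ S Z) → ∀ W : ℝ → ℝ, Slp a W →
      ∀ (M : Eis) (χ : Eis → ℂ), HC M χ → ∀ (B0 : ℝ) (ka : Eis) (Pr : ι → Eis → Eis → Prop),
      HWhx j A B0 Q b (BDh681.ps χ l₀) ka Pr W →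
      ∀ s : Eis, SU s → ∀ lam₀ : ℝ, 0 ≤ lam₀ → lam₀ ≤ Z → lam₀ ^ 2 ≤ B0 →
      ∀ (g : Eis), IsPrim g → IsCoprime g ka → ∀ (j3 : ℕ), ∀ d ∈ S lam₀, ∀ e ∈ pdiv d,
      ∀ f ∈ S lam₀, IsCoprime (d * f) ka →
      ∀ Λ : ℝ, 1 ≤ Λ →
      ∑ i ∈ (Q ×ˢ T3 lam₀ g j3).filter (fun i => IsCoprime (d * f) i.2),
        RGq A (a + 3) (rs (bg (b i.1) g i.2) (BDh681.ps (chs χ s) l₀) d f) ((e * ((M * (9 * s)) * sq3)) ^ 2 * f)
          (fun H => Cls (Pr i.1 (g * (d * f))) j (s * i.2 * H)) Λ ≤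
      C * (Λ * (2 * 2 ^ j3)) ^ ε * (W (Λ * (2 * 2 ^ j3) * nm (xxh M s g d e)) /
        (nm g * nm d * nm f)) := by
  have hA' : (1 : ℝ) < (A : ℝ) := by exact_mod_cast hA
  obtain ⟨C, hC1, hC⟩ := Div277.tau_le_rpow hε0
  have hC0 : 0 < C := by linarith
  refine ⟨2 * C, by positivity, ?_⟩
  intro Z hZ ι Q b hb W hW M χ hχ B0 ka Pr hVI s hs lam₀ hlam0 hlamZ hB0 g hg hgk j3 d hd e he f hf
    hdfk Λ hΛ
  have hZ0 : 0 ≤ Z := by linarith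
  have hd' := (mem_S hlam0).1 hd
  have hf' := (mem_S hlam0).1 hf
  have he' := (mem_pdiv hd'.2.1.ne_zero).mp he
  have ng := nmpos hg.ne_zero
  have nd := nmpos hd'.2.1.ne_zero
  have nf' := nmpos hf'.2.1.ne_zero
  have ne := nmpos he'.1.ne_zero
  have hΛ0 : 0 < Λ := by linarith
  set F0 : Eis := (e * ((M * (9 * s)) * sq3)) ^ 2 with hF0
  have hF0n : F0 ≠ 0 := by
    rw [hF0]
    exact pow_ne_zero _ (mul_ne_zero he'.1.ne_zero (mul_ne_zero (mul_ne_zero hχ.q0 (LC_pt hs).ne) sq3_ne_zero))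
  set Wc : ℝ := W (Λ * (2 * 2 ^ j3) * nm (xxh M s g d e)) with hWc
  have hxne : xxh M s g d e ≠ 0 := xxh_ne hχ.q0 hs hg.ne_zero hd'.2.1.ne_zero he'.1.ne_zero he'.2
  have nxx := nmpos hxne
  have hWc0 : 0 ≤ Wc := hW.nonneg _ (by positivity)
  set V : ℝ := (Λ * (2 * 2 ^ j3)) ^ ε with hV
  have hV0 : 0 ≤ V := by positivity
  have hY1 : (1 : ℝ) ≤ Z ^ 2 := one_le_pow₀ hZ
  set Qc : ι × Eis → Eis → Prop := fun i H => Cls (Pr i.1 (g * (d * f))) j (s * i.2 * H) with hQc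
  -- the supports
  have hsup : ∀ i ∈ (Q ×ˢ T3 lam₀ g j3).filter (fun i => IsCoprime (d * f) i.2),
      ∀ n, rs (bg (b i.1) g i.2) (BDh681.ps (chs χ s) l₀) d f n ≠ 0 → n ∈ S (Z ^ 2) := by
    rintro ⟨q, l⟩ hi n hn
    obtain ⟨hi1, -⟩ := Finset.mem_filter.mp hi
    obtain ⟨hq, hl⟩ := Finset.mem_product.mp hi1
    obtain ⟨hl1, hl2, -⟩ := Finset.mem_filter.mp hl
    have hl' := (mem_S hlam0).1 hl1
    refine rs_supp (by positivity) (u := bg (b q) g l) (fun m hm => ?_) (BDh681.ps (chs χ s) l₀) hd'.2.1 hf'.2.1 n hn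
    obtain ⟨k, rfl, hc, hk⟩ := exists_of_bg hl'.2.1.ne_zero hm
    have h1 := (mem_S hZ0).1 (hb q hq _ hk)
    have hkp : IsPrim k := h1.2.1.of_mul_left hg
    rw [mem_S (by positivity)]
    refine ⟨?_, hl'.2.1.mul hkp, squarefree_mul_iff.mpr
      ⟨(hc.of_mul_right_right).symm.isRelPrime, hl'.2.2, h1.2.2.of_mul_right⟩⟩
    rw [nm_mul]
    push_cast
    have h2 : (nm k : ℝ) ≤ Z := by
      refine le_trans ?_ h1.1
      rw [nm_mul]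
      push_cast
      exact le_mul_of_one_le_left (Nat.cast_nonneg _) (nm_ge_one hg.ne_zero)
    calc (nm l : ℝ) * nm k ≤ Z * Z := mul_le_mul (hl'.1.trans hlamZ) h2 (Nat.cast_nonneg _) hZ0
      _ = Z ^ 2 := by ring
  have hbound : ∀ jj : ℕ, ∑ i ∈ (Q ×ˢ T3 lam₀ g j3).filter (fun i => IsCoprime (d * f) i.2),
      EBq A (rs (bg (b i.1) g i.2) (BDh681.ps (chs χ s) l₀) d f) (F0 * f) (Qc i) (2 ^ jj * Λ) ≤
      (C * V * (Wc / (nm g * nm d * nm f))) * (2 ^ (a + 1)) ^ jj := by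
    intro jj
    have h2j : (1 : ℝ) ≤ 2 ^ jj := one_le_pow₀ (by norm_num)
    set τ : ℝ := C * (2 ^ jj * V) with hτ
    have hτ0 : 0 ≤ τ := by positivity
    -- reorganise
    have e1 : ∑ i ∈ (Q ×ˢ T3 lam₀ g j3).filter (fun i => IsCoprime (d * f) i.2),
        EBq A (rs (bg (b i.1) g i.2) (BDh681.ps (chs χ s) l₀) d f) (F0 * f) (Qc i) (2 ^ jj * Λ) =
        ∑ q ∈ Q, ∑ l ∈ (T3 lam₀ g j3).filter (fun l => IsCoprime (d * f) l),
          EBq A (rs (bg (b q) g l) (BDh681.ps (chs χ s) l₀) d f) (F0 * f) (Qc (q, l)) (2 ^ jj * Λ) := by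
      rw [Finset.sum_filter, Finset.sum_product]
      refine Finset.sum_congr rfl fun q _ => ?_
      rw [Finset.sum_filter]
    rw [e1]
    have h1 : ∀ q ∈ Q, ∑ l ∈ (T3 lam₀ g j3).filter (fun l => IsCoprime (d * f) l),
        EBq A (rs (bg (b q) g l) (BDh681.ps (chs χ s) l₀) d f) (F0 * f) (Qc (q, l)) (2 ^ jj * Λ) ≤
        τ * VItc A (b q) (BDh681.ps χ l₀) (g * (d * f)) (s * F0 * f) (2 ^ jj * Λ * (2 * 2 ^ j3))
          (Cls (Pr q (g * (d * f))) j) := by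
      intro q hq
      refine sum_EBq_bghx hχ l₀ hA' hZ0 (hb q hq) hg hd'.2.1 hf'.2.1 hs.ne
        (Z := 2 ^ jj * Λ) (L := 2 * 2 ^ j3) (by positivity) (by positivity) hτ0 (fun l hl => ?_)
        (fun x hx => ?_) (Cls (Pr q (g * (d * f))) j)
      · obtain ⟨hl1, hl2⟩ := Finset.mem_filter.mp hl
        obtain ⟨hl3, -, hl4⟩ := Finset.mem_filter.mp hl1
        have hl' := (mem_S hlam0).1 hl3
        exact ⟨hl'.2.1, (pow_log_le (nm_pos.mpr hl'.2.1.ne_zero).ne' hl4).2, hl2⟩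
      · have hx' := (mem_bl (by positivity)).1 hx
        refine (hC x hx'.1).trans ?_
        rw [hτ]
        refine mul_le_mul_of_nonneg_left ?_ hC0.le
        calc (nm x : ℝ) ^ ε ≤ (2 ^ jj * Λ * (2 * 2 ^ j3)) ^ ε :=
              Real.rpow_le_rpow (Nat.cast_nonneg _) hx'.2 hε0.le
          _ = (2 ^ jj : ℝ) ^ ε * V := by
              rw [mul_assoc, Real.mul_rpow (by positivity) (by positivity)]
          _ ≤ 2 ^ jj * V := by
              refine mul_le_mul_of_nonneg_right ?_ hV0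
              calc (2 ^ jj : ℝ) ^ ε ≤ (2 ^ jj : ℝ) ^ (1 : ℝ) :=
                    Real.rpow_le_rpow_of_exponent_le h2j hε
                _ = 2 ^ jj := Real.rpow_one _
    refine (Finset.sum_le_sum h1).trans ?_
    rw [← Finset.mul_sum]
    have hP1 : (1 : ℝ) ≤ 2 ^ jj * Λ * (2 * 2 ^ j3) := by
      have h3 : (1 : ℝ) ≤ 2 ^ j3 := one_le_pow₀ (by norm_num)
      exact one_le_mul_of_one_le_of_one_le (one_le_mul_of_one_le_of_one_le h2j hΛ) (by linarith)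
    have hφ : s * F0 * f ≠ 0 := mul_ne_zero (mul_ne_zero hs.ne hF0n) hf'.2.1.ne_zero
    have hnD : (nm (e * f) : ℝ) ≤ B0 := by
      refine le_trans ?_ hB0
      have h3 : (nm e : ℝ) ≤ lam₀ := by
        refine le_trans ?_ hd'.1
        exact_mod_cast Div277.nm_le_of_dvd hd'.2.1.ne_zero he'.2
      rw [nm_mul, sq]
      push_cast
      exact mul_le_mul h3 hf'.1 (Nat.cast_nonneg _) hlam0
    have h2 := hVI (g * (d * f)) (s * F0 * f) (xxh M s g d e) (e * f) (hg.mul (hd'.2.1.mul hf'.2.1))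
      (hgk.mul_left hdfk) hφ hxne
      (mul_ne_zero he'.1.ne_zero hf'.2.1.ne_zero) hnD
      (by rw [hF0, ← mul_assoc g d f]; exact xxh_eq he'.1.ne_zero he'.2) _ hP1
    have h3 := slp_dbl_pow hW (P := Λ * (2 * 2 ^ j3) * nm (xxh M s g d e)) (by positivity) jj
    have h4 : ∑ q ∈ Q, VItc A (b q) (BDh681.ps χ l₀) (g * (d * f)) (s * F0 * f)
          (2 ^ jj * Λ * (2 * 2 ^ j3)) (Cls (Pr q (g * (d * f))) j) ≤
        (2 ^ a) ^ jj * (Wc / (nm g * nm d * nm f)) := by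
      rw [← mul_div_assoc, le_div_iff₀ (by positivity), mul_comm]
      have e3 : (nm (g * (d * f)) : ℝ) = nm g * nm d * nm f := by
        rw [nm_mul, nm_mul]; push_cast; ring
      rw [e3] at h2
      refine h2.trans (le_trans (le_of_eq ?_) h3)
      congr 1
      ring
    calc τ * ∑ q ∈ Q, VItc A (b q) (BDh681.ps χ l₀) (g * (d * f)) (s * F0 * f)
          (2 ^ jj * Λ * (2 * 2 ^ j3)) (Cls (Pr q (g * (d * f))) j)
        ≤ τ * ((2 ^ a) ^ jj * (Wc / (nm g * nm d * nm f))) := mul_le_mul_of_nonneg_left h4 hτ0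
      _ = (C * V * (Wc / (nm g * nm d * nm f))) * (2 ^ (a + 1)) ^ jj := by
          rw [hτ, pow_succ, mul_pow]; ring
  have hfin := RGq_sum_lex (A := (A : ℝ)) (a := a) (N := Z ^ 2) hA' hY1
    ((Q ×ˢ T3 lam₀ g j3).filter (fun i => IsCoprime (d * f) i.2))
    (u := fun i => rs (bg (b i.1) g i.2) (BDh681.ps (chs χ s) l₀) d f) (fun i hi n hn => by
      exact hsup i hi n hn) (F0 * f) Qc (Z := Λ) hΛ
    (K := C * V * (Wc / (nm g * nm d * nm f))) (fun jj => by exact hbound jj)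
  refine hfin.trans (le_of_eq ?_)
  ring

/-- **one term of the family**, class `j` -/
theorem fam_onehx (j : Bool) (l₀ : ℤ) {U : ℝ} (hU : 1 ≤ U) {A a : ℕ} (hA : 1 < A) {ε : ℝ} (hε0 : 0 < ε)
    (hε : ε ≤ 1) :
    ∃ C : ℝ, 0 < C ∧ ∀ Z N X lam₀ : ℝ, 1 ≤ Z → 0 < N → N ≤ Z → 0 < X → 1 ≤ X * Z →
      1 ≤ lam₀ → lam₀ ≤ Z →
      ∀ {ι : Type} (Q : Finset ι) (b : ι → Eis → ℂ),
      (∀ q ∈ Q, ∀ n, b q n ≠ 0 → n ∈ S Z) →
      ∀ W : ℝ → ℝ, Slp a W → ∀ (M : Eis) (χ : Eis → ℂ), HC M χ →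
      ∀ (B0 : ℝ) (ka : Eis) (Pr : ι → Eis → Eis → Prop),
      HWhx j A B0 Q b (BDh681.ps χ l₀) ka Pr W → lam₀ ^ 2 ≤ B0 →
      ∀ W1 : ℝ, W (18 * U ^ 3 * (384 * U) * Il N lam₀ X) ≤ W1 →
      ∀ s : Eis, SU s → (nm (M * (9 * s)) : ℝ) ≤ U → ∀ g : Eis, IsPrim g → IsCoprime g ka →
      ∀ j1 j3 : ℕ,
      (2 : ℝ) ^ j1 * (nm g * 2 ^ j3) ^ 2 ≤ lam₀ → (2 : ℝ) ^ j3 * 2 ^ j1 ≤ Z →
      ∀ d ∈ S lam₀, ∀ e ∈ pdiv d, ∀ f ∈ S lam₀,
      ∑ q ∈ Q, ∑ l ∈ T3 lam₀ g j3, (if IsCoprime (d * f) l ∧ IsCoprime (d * f) ka then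
        Tmhx j (Pr q) A (a + 4) (a + 3) U N X j1 j3 M χ l₀ s (b q) g l d e f else 0) ≤
      C * Z ^ (4 * ε) * (1 / nm g * (X * nfx j lam₀ (Il N lam₀ X) * W1)) *
        (1 / nm d * (1 / nm f)) := by
  obtain ⟨Cr, hCr, hRG⟩ := RG_famhx j l₀ (A := A) (a := a) hA hε0 hε
  have hU0 : 0 < U := by linarith
  refine ⟨Cr * (768 * U) * (18 * (2 ^ a * (384 * U))), by positivity, ?_⟩
  intro Z N X lam₀ hZ hN hNZ hX hXZ hlam1 hlamZ ι Q b hb W hW M χ hχ B0 ka Pr hVI hB0 W1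
    hW1 s hs hsU g hg hgk j1 j3 hl hprod d hd e he f hf
  have hZ0 : 0 < Z := by linarith
  have hlam0 : 0 ≤ lam₀ := by linarith
  have ng := nmpos hg.ne_zero
  have ng1 := nm_ge_one hg.ne_zero
  have h2j1 : (1 : ℝ) ≤ 2 ^ j1 := one_le_pow₀ (by norm_num)
  have h2j3 : (1 : ℝ) ≤ 2 ^ j3 := one_le_pow₀ (by norm_num)
  have hd' := (mem_S hlam0).1 hd
  have hf' := (mem_S hlam0).1 hf
  have he' := (mem_pdiv hd'.2.1.ne_zero).mp he
  have nd := nmpos hd'.2.1.ne_zero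
  have nf' := nmpos hf'.2.1.ne_zero
  have ne := nmpos he'.1.ne_zero
  have nd1 := nm_ge_one hd'.2.1.ne_zero
  have nf1 := nm_ge_one hf'.2.1.ne_zero
  have ne1 := nm_ge_one he'.1.ne_zero
  have hed : (nm e : ℝ) ≤ nm d := by
    exact_mod_cast Div277.nm_le_of_dvd hd'.2.1.ne_zero he'.2
  have hlp := lmq_pos hU0 hN hX j1 j3 hd'.2.1.ne_zero he'.1.ne_zero
  have hΛ1 : 1 ≤ max 1 (lmq U N X j1 j3 d e) := le_max_left _ _
  have hΛ0 : 0 < max 1 (lmq U N X j1 j3 d e) := by linarith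
  have hnr0 : 0 ≤ nj (cpx g d e) j (nm g * 2 ^ j1 / (nm d * nm f))
      (max 1 (lmq U N X j1 j3 d e)) := nj_nonneg (cpx_pos g d e).le j (by positivity) hΛ0.le
  have hmin0 : 0 < min 1 (lmq U N X j1 j3 d e) := lt_min one_pos hlp
  have hIl : 0 < Il N lam₀ X := by unfold Il; positivity
  have hW10 : 0 ≤ W1 := (hW.nonneg _ (by positivity)).trans hW1
  have hnf0 : 0 ≤ nfx j lam₀ (Il N lam₀ X) := nfx_nonneg j hlam0 hIl.le
  by_cases hk : IsCoprime (d * f) ka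
  swap
  · have h0 : ∑ q ∈ Q, ∑ l ∈ T3 lam₀ g j3, (if IsCoprime (d * f) l ∧ IsCoprime (d * f) ka then
        Tmhx j (Pr q) A (a + 4) (a + 3) U N X j1 j3 M χ l₀ s (b q) g l d e f else 0) = 0 :=
      Finset.sum_eq_zero fun q _ => Finset.sum_eq_zero fun l _ => if_neg fun h => hk h.2
    rw [h0]
    positivity
  have e1 : ∑ q ∈ Q, ∑ l ∈ T3 lam₀ g j3, (if IsCoprime (d * f) l ∧ IsCoprime (d * f) ka then
      Tmhx j (Pr q) A (a + 4) (a + 3) U N X j1 j3 M χ l₀ s (b q) g l d e f else 0) =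
      (X ^ 2 / (N * 2 ^ j3 * 2 ^ j1) * (nm d / nm e : ℝ) ^ 2 *
      nj (cpx g d e) j (nm g * 2 ^ j1 / (nm d * nm f)) (max 1 (lmq U N X j1 j3 d e)) *
      (min 1 (lmq U N X j1 j3 d e)) ^ (a + 4)) *
        ∑ i ∈ (Q ×ˢ T3 lam₀ g j3).filter (fun i => IsCoprime (d * f) i.2),
        RGq A (a + 3) (rs (bg (b i.1) g i.2) (BDh681.ps (chs χ s) l₀) d f) ((e * ((M * (9 * s)) * sq3)) ^ 2 * f)
          (fun H => Cls (Pr i.1 (g * (d * f))) j (s * i.2 * H)) (max 1 (lmq U N X j1 j3 d e)) := by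
    rw [Finset.sum_filter, Finset.sum_product, Finset.mul_sum]
    refine Finset.sum_congr rfl fun q _ => ?_
    rw [Finset.mul_sum]
    refine Finset.sum_congr rfl fun l _ => ?_
    simp only [hk, and_true]
    split_ifs
    · unfold Tmhx
      ring
    · rw [mul_zero]
  rw [e1]
  have h1 := hRG Z hZ Q b hb W hW M χ hχ B0 ka Pr hVI s hs lam₀ hlam0 hlamZ hB0 g hg hgk j3 d hd e
    he f hf hk
    _ hΛ1
  have hxne : xxh M s g d e ≠ 0 := xxh_ne hχ.q0 hs hg.ne_zero hd'.2.1.ne_zero he'.1.ne_zero he'.2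
  have nxx := nmpos hxne
  have hmono : W (max 1 (lmq U N X j1 j3 d e) * (2 * 2 ^ j3) * nm (xxh M s g d e)) ≤
      W (18 * U ^ 3 * max 1 (lmq U N X j1 j3 d e) * 2 ^ j3 *
        ((nm d : ℝ) ^ 2 * (nm g : ℝ) ^ 2 / nm e)) := by
    refine slp_mono hW (by positivity) ?_
    have h2 := nm_xxh_le (g := g) hχ.q0 hs hsU hd'.2.1.ne_zero he'.1.ne_zero he'.2
    have e7 : (nm g : ℝ) ^ 2 * ((nm d : ℝ) ^ 2 / nm e) = (nm d : ℝ) ^ 2 * (nm g : ℝ) ^ 2 / nm e := by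
      ring
    rw [e7] at h2
    calc max 1 (lmq U N X j1 j3 d e) * (2 * 2 ^ j3) * (nm (xxh M s g d e) : ℝ)
        ≤ max 1 (lmq U N X j1 j3 d e) * (2 * 2 ^ j3) *
          (9 * U ^ 3 * ((nm d : ℝ) ^ 2 * (nm g : ℝ) ^ 2 / nm e)) :=
          mul_le_mul_of_nonneg_left h2 (by positivity)
      _ = _ := by ring
  have h1' := h1.trans (mul_le_mul_of_nonneg_left
    (div_le_div_of_nonneg_right hmono (by positivity : (0 : ℝ) ≤ nm g * nm d * nm f))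
    (by positivity : 0 ≤ Cr * (max 1 (lmq U N X j1 j3 d e) * (2 * 2 ^ j3)) ^ ε))
  have hU1 : 1 ≤ U ^ 3 := one_le_pow₀ hU
  have hblock := block_boundx j (B := a + 4) (by omega) hW (c1 := 18 * U ^ 3) (c2 := 384 * U)
    (X := X) (N := N) (lam := lam₀) (L1 := 2 ^ j1) (L3 := 2 ^ j3) (G := nm g) (D := nm d)
    (E := nm e) (F := nm f) (lm := lmq U N X j1 j3 d e) (by linarith) (by linarith) hX hN
    (by linarith) h2j1 h2j3 ng1 ne1 hed nf1 hl hW10 hW1 rfl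
  have hV := V_les hU hN hNZ hX hXZ hZ hprod nd1 hed hε0 hε
  have hWc : 0 ≤ W (18 * U ^ 3 * max 1 (lmq U N X j1 j3 d e) * 2 ^ j3 *
        ((nm d : ℝ) ^ 2 * (nm g : ℝ) ^ 2 / nm e)) :=
    hW.nonneg _ (by positivity)
  have hfin := term_arith (by positivity) h1' rfl ng nd nf' hCr.le hV hblock (by positivity)
    (by positivity)
  refine hfin.trans (le_of_eq ?_)
  ring

/-- **one block of the family**, both classes -/
theorem fam_blockhx (l₀ : ℤ) {R : ℝ} (hR : 0 ≤ R) {U : ℝ} (hU : 81 ≤ U) {A a : ℕ} (hA : 1 < A) {ε : ℝ} (hε0 : 0 < ε)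
    (hε : ε ≤ 1) :
    ∃ C : ℝ, 0 < C ∧ ∀ (v : ℝ → ℝ), Wgt v → ∀ t C0 : ℝ,
      KTc (rad (gt (lw v) l₀ t)) (max R 2) A (a + 4) C0 →
      ∀ (M : Eis) (χ : Eis → ℂ), HC M χ → ∀ s : Eis, SU s → (nm (M * (9 * s)) : ℝ) ≤ U →
      ∀ Z N X lam₀ : ℝ, 1 ≤ Z → 0 < N → N ≤ Z → 0 < X → 1 ≤ X * Z →
      1 ≤ lam₀ → lam₀ ≤ Z → lam₀ * Real.exp R < N →
      ∀ {ι : Type} (Q : Finset ι) (b : ι → Eis → ℂ) (Xq : ι → ℝ),
      (∀ q ∈ Q, X / 64 ≤ Xq q ∧ Xq q ≤ X) →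
      (∀ q ∈ Q, ∀ n, b q n ≠ 0 → n ∈ S Z) → (∀ q ∈ Q, ∀ n, b q n ≠ 0 → IsCoprime n M) →
      (∀ q ∈ Q, Win (b q) (Real.log N) R) →
      ∀ (B0 : ℝ) (ka : Eis) (Pr : ι → Eis → Eis → Prop), (∀ q ∈ Q, ∀ D, D ≠ 0 → Cub (Pr q D)) →
      (∀ q ∈ Q, ∀ D H, IsPrim D → H ≠ 0 → (∃ m, b q (D * m) ≠ 0) → Pr q D H →
        ∃ s t, D ^ 2 * H * s = t ^ 3 ∧ IsCoprime s D) →
      ∀ W : Bool → ℝ → ℝ, (∀ j, Slp a (W j)) →
      (∀ j, HWhx j A B0 Q b (BDh681.ps χ l₀) ka Pr (W j)) →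
      lam₀ ^ 2 ≤ B0 → M ∣ ka →
      ∀ W1 : Bool → ℝ, (∀ j, W j (18 * U ^ 3 * (384 * U) * Il N lam₀ X) ≤ W1 j) →
      ∀ (p : ℕ × ℕ) (g : Eis), IsPrim g → IsCoprime g ka → ∀ j1 j3 : ℕ,
      ∑ q ∈ Q, ∑ l ∈ T3k lam₀ ka g j3, ∑ l₁ ∈ H1k lam₀ ka p g l j1,
        ‖ShH (lw v) (chs χ s) l₀ (Real.log (Xq q)) t (bg (b q) g l) (g * l₁)‖ ^ 2 ≤
        C * (1 + C0) ^ 2 * Z ^ (8 * ε) *
          ∑ j : Bool, (1 / nm g * (X * nfx j lam₀ (Il N lam₀ X) * W1 j)) := by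
  obtain ⟨Ci, hCi, hinner⟩ := inner_blockhx l₀ hR hU (A := A) (B := a + 4) (a := a + 3) hA (by omega)
    (by omega) hε0
  obtain ⟨Cf1, hCf1, hfam1⟩ := fam_onehx true l₀ (U := U) (by linarith) (A := A) (a := a) hA hε0 hε
  obtain ⟨Cf2, hCf2, hfam2⟩ := fam_onehx false l₀ (U := U) (by linarith) (A := A) (a := a) hA hε0 hε
  set Cf : ℝ := Cf1 + Cf2 with hCfd
  have hCf : 0 < Cf := by positivity
  obtain ⟨Ch, hCh, hharm⟩ := harm3 hε0
  refine ⟨Ci * Cf * Ch, by positivity, ?_⟩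
  intro v hv t C0 hk M χ hχ s hs hsU Z N X lam₀ hZ hN hNZ hX hXZ hlam1 hlamZ hlamN ι Q b Xq hXq hb
    hbM hwb B0 ka Pr hPr hcp W hW hVI hB0 hMka W1 hW1 p g hg hgk j1 j3
  have hZ0 : 0 < Z := by linarith
  have hlam0 : 0 ≤ lam₀ := by linarith
  have ng := nmpos hg.ne_zero
  have ng1 := nm_ge_one hg.ne_zero
  have hC0 := hk.1
  have hI : 0 < Il N lam₀ X := by unfold Il; positivity
  have hU0 : 0 < U := by linarith
  have hW10 : ∀ j, 0 ≤ W1 j := fun j => ((hW j).nonneg _ (by positivity)).trans (hW1 j)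
  have hT0 : ∀ j, 0 ≤ X * nfx j lam₀ (Il N lam₀ X) * W1 j := fun j =>
    mul_nonneg (mul_nonneg hX.le (nfx_nonneg j hlam0 hI.le)) (hW10 j)
  by_cases hem : ∃ l ∈ T3k lam₀ ka g j3, ∃ x, x ∈ H1k lam₀ ka p g l j1
  swap
  · push Not at hem
    have h0 : ∑ q ∈ Q, ∑ l ∈ T3k lam₀ ka g j3, ∑ l₁ ∈ H1k lam₀ ka p g l j1,
        ‖ShH (lw v) (chs χ s) l₀ (Real.log (Xq q)) t (bg (b q) g l) (g * l₁)‖ ^ 2 = 0 := by
      refine Finset.sum_eq_zero fun q _ => Finset.sum_eq_zero fun l hl => ?_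
      rw [Finset.eq_empty_of_forall_notMem (hem l hl), Finset.sum_empty]
    rw [h0]
    have h1 : 0 ≤ ∑ j : Bool, 1 / (nm g : ℝ) * (X * nfx j lam₀ (Il N lam₀ X) * W1 j) :=
      Finset.sum_nonneg fun j _ => mul_nonneg (by positivity) (hT0 j)
    exact mul_nonneg (by positivity) h1
  obtain ⟨l0, hl0, x0, hx0⟩ := hem
  -- the size condition
  have hl : (2 : ℝ) ^ j1 * (nm g * 2 ^ j3) ^ 2 ≤ lam₀ := by
    obtain ⟨h1, h2, h3, h4⟩ := Finset.mem_filter.mp (Finset.mem_filter.mp hx0).1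
    obtain ⟨h5, -, h6⟩ := Finset.mem_filter.mp (Finset.mem_filter.mp hl0).1
    have h5' := (mem_S hlam0).1 h5
    have h7 := (pow_log_le (nm_pos.mpr h2.prim1.ne_zero).ne' h4).1
    have h8 := (pow_log_le (nm_pos.mpr h5'.2.1.ne_zero).ne' h6).1
    have h9 := NonCube52.nm_kv_ge (p, (x0, g * l0))
    refine le_trans (le_trans ?_ h9) h3
    simp only [nm_mul]
    push_cast
    gcongr
  have h2j1 : (1 : ℝ) ≤ 2 ^ j1 := one_le_pow₀ (by norm_num)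
  have h2j3 : (1 : ℝ) ≤ 2 ^ j3 := one_le_pow₀ (by norm_num)
  have hprod : (2 : ℝ) ^ j3 * 2 ^ j1 ≤ Z := by
    refine le_trans ?_ (hl.trans hlamZ)
    have h1 : (2 : ℝ) ^ j3 ≤ (nm g * 2 ^ j3) ^ 2 := by
      have h2 : (2 : ℝ) ^ j3 ≤ nm g * 2 ^ j3 := le_mul_of_one_le_left (by positivity) ng1
      have h3 : (1 : ℝ) ≤ nm g * 2 ^ j3 := h2j3.trans h2
      calc (2 : ℝ) ^ j3 ≤ nm g * 2 ^ j3 := h2
        _ ≤ (nm g * 2 ^ j3) * (nm g * 2 ^ j3) := le_mul_of_one_le_left (by linarith) h3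
        _ = _ := by ring
    rw [mul_comm]
    exact mul_le_mul_of_nonneg_left h1 (by positivity)
  -- the sum over the blocks
  have hS : ∀ q ∈ Q, ∀ l ∈ T3k lam₀ ka g j3, ∑ l₁ ∈ H1k lam₀ ka p g l j1,
      ‖ShH (lw v) (chs χ s) l₀ (Real.log (Xq q)) t (bg (b q) g l) (g * l₁)‖ ^ 2 ≤
      Ci * (1 + C0) ^ 2 * Z ^ ε * ∑ d ∈ S lam₀, ∑ e ∈ pdiv d, ∑ f ∈ S lam₀,
        if IsCoprime (d * f) l ∧ IsCoprime (d * f) ka then ∑ j : Bool,
          Tmhx j (Pr q) A (a + 4) (a + 3) U N X j1 j3 M χ l₀ s (b q) g l d e f else 0 := by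
    intro q hq l hl'
    obtain ⟨h5, h6, h7⟩ := Finset.mem_filter.mp (Finset.mem_filter.mp hl').1
    have h8 : IsCoprime (g * l) M := (hgk.of_isCoprime_of_dvd_right hMka).mul_left
      ((Finset.mem_filter.mp hl').2.of_isCoprime_of_dvd_right hMka)
    have h5' := (mem_S hlam0).1 h5
    exact hinner v hv t C0 hk M χ hχ s hs hsU Z N X (Xq q) lam₀ hZ hN hNZ hX hXZ (hXq q hq).1
      (hXq q hq).2 hlam1 hlamZ hlamN (b q) (hb q hq) (hbM q hq) (hwb q hq) ka hMka p g l hg h5'.2.1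
      h6 h8 j1 j3 h7 (Pr q) (hPr q hq) (hcp q hq)
  refine (Finset.sum_le_sum fun q hq => Finset.sum_le_sum fun l hl' => hS q hq l hl').trans ?_
  simp_rw [← Finset.mul_sum]
  rw [swap5x Q (T3k lam₀ ka g j3) (S lam₀) (S lam₀) (fun d => pdiv d)]
  have hfam : ∀ j : Bool, ∀ d ∈ S lam₀, ∀ e ∈ pdiv d, ∀ f ∈ S lam₀,
      ∑ q ∈ Q, ∑ l ∈ T3k lam₀ ka g j3, (if IsCoprime (d * f) l ∧ IsCoprime (d * f) ka then
        Tmhx j (Pr q) A (a + 4) (a + 3) U N X j1 j3 M χ l₀ s (b q) g l d e f else 0) ≤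
      Cf * Z ^ (4 * ε) * (1 / nm g * (X * nfx j lam₀ (Il N lam₀ X) * W1 j)) *
        (1 / nm d * (1 / nm f)) := by
    intro j d hd e he f hf
    have h0 : 0 ≤ Z ^ (4 * ε) * (1 / nm g * (X * nfx j lam₀ (Il N lam₀ X) * W1 j)) *
        (1 / nm d * (1 / nm f)) :=
      mul_nonneg (mul_nonneg (by positivity) (mul_nonneg (by positivity) (hT0 j))) (by positivity)
    have hd' := (mem_S hlam0).1 hd
    refine le_trans (Finset.sum_le_sum fun q _ =>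
      Finset.sum_le_sum_of_subset_of_nonneg (t := T3 lam₀ g j3) (Finset.filter_subset _ _)
        fun l _ _ => ?_) ?_
    · split_ifs
      · exact Tmhx_nonneg j (Pr q) hU0 hN hX j1 j3 M χ l₀ s (b q) g l hd'.2.1.ne_zero
          ((mem_pdiv hd'.2.1.ne_zero).mp he).1.ne_zero
      · exact le_rfl
    cases j
    · have h1 := hfam2 Z N X lam₀ hZ hN hNZ hX hXZ hlam1 hlamZ Q b hb (W false) (hW false) M χ hχ
        B0 ka Pr (hVI false) hB0 (W1 false) (hW1 false) s hs hsU g hg hgk j1 j3 hl hprod d hd e he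
        f hf
      refine h1.trans ?_
      rw [hCfd]
      nlinarith
    · have h1 := hfam1 Z N X lam₀ hZ hN hNZ hX hXZ hlam1 hlamZ Q b hb (W true) (hW true) M χ hχ
        B0 ka Pr (hVI true) hB0 (W1 true) (hW1 true) s hs hsU g hg hgk j1 j3 hl hprod d hd e he
        f hf
      refine h1.trans ?_
      rw [hCfd]
      nlinarith
  have h3 : ∑ d ∈ S lam₀, ∑ e ∈ pdiv d, ∑ f ∈ S lam₀, ∑ q ∈ Q, ∑ l ∈ T3k lam₀ ka g j3,
      (if IsCoprime (d * f) l ∧ IsCoprime (d * f) ka then ∑ j : Bool,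
        Tmhx j (Pr q) A (a + 4) (a + 3) U N X j1 j3 M χ l₀ s (b q) g l d e f else 0) ≤
      ∑ d ∈ S lam₀, ∑ e ∈ pdiv d, ∑ f ∈ S lam₀, Cf * Z ^ (4 * ε) *
        (∑ j : Bool, (1 / nm g * (X * nfx j lam₀ (Il N lam₀ X) * W1 j))) *
          (1 / nm d * (1 / nm f)) := by
    refine Finset.sum_le_sum fun d hd => Finset.sum_le_sum fun e he =>
      Finset.sum_le_sum fun f hf => ?_
    have e1 : ∑ q ∈ Q, ∑ l ∈ T3k lam₀ ka g j3, (if IsCoprime (d * f) l ∧ IsCoprime (d * f) ka then ∑ j : Bool,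
        Tmhx j (Pr q) A (a + 4) (a + 3) U N X j1 j3 M χ l₀ s (b q) g l d e f else 0) =
        ∑ j : Bool, ∑ q ∈ Q, ∑ l ∈ T3k lam₀ ka g j3, (if IsCoprime (d * f) l ∧ IsCoprime (d * f) ka then
        Tmhx j (Pr q) A (a + 4) (a + 3) U N X j1 j3 M χ l₀ s (b q) g l d e f else 0) := by
      simp only [Fintype.sum_bool]
      rw [← Finset.sum_add_distrib]
      refine Finset.sum_congr rfl fun q _ => ?_
      rw [← Finset.sum_add_distrib]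
      refine Finset.sum_congr rfl fun l _ => ?_
      split_ifs
      · rfl
      · rw [add_zero]
    rw [e1]
    refine (Finset.sum_le_sum fun j _ => hfam j d hd e he f hf).trans (le_of_eq ?_)
    simp only [Fintype.sum_bool]
    ring
  have h4 := hharm lam₀ Z hlam1 hlamZ
  set T : ℝ := ∑ j : Bool, (1 / nm g * (X * nfx j lam₀ (Il N lam₀ X) * W1 j)) with hTd
  have hTT : 0 ≤ T := Finset.sum_nonneg fun j _ => mul_nonneg (by positivity) (hT0 j)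
  have h5 : 0 ≤ Cf * Z ^ (4 * ε) * T := mul_nonneg (by positivity) hTT
  have h6 : ∑ d ∈ S lam₀, ∑ e ∈ pdiv d, ∑ f ∈ S lam₀, Cf * Z ^ (4 * ε) * T *
        (1 / (nm d : ℝ) * (1 / nm f)) =
      Cf * Z ^ (4 * ε) * T *
        ∑ d ∈ S lam₀, ∑ e ∈ pdiv d, ∑ f ∈ S lam₀, (1 / (nm d : ℝ) * (1 / nm f)) := by
    simp_rw [← Finset.mul_sum]
  rw [h6] at h3
  have h7 := h3.trans (mul_le_mul_of_nonneg_left h4 h5)
  refine (mul_le_mul_of_nonneg_left h7 (by positivity)).trans (le_of_eq ?_)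
  have e8 : Z ^ (8 * ε) = Z ^ ε * Z ^ (4 * ε) * Z ^ (3 * ε) := by
    rw [← Real.rpow_add hZ0, ← Real.rpow_add hZ0]
    congr 1
    ring
  have hTs : T = 1 / (nm g : ℝ) * ∑ j : Bool, (X * nfx j lam₀ (Il N lam₀ X) * W1 j) := by
    rw [hTd, ← Finset.mul_sum]
  rw [e8, hTs]
  ring

end Crest.Agent.R017.PoX70
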