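import Crest.Agent.R017.PoXc_70

/-!
# Row 17, T.7 (class E), cube line, port P1, part d (helper70)

`pohs_vhx`, `pohs_wHx` : helper347's `pohs_vh`, `pohs_wH` with both classes of frequencies.
-/

set_option autoImplicit false

noncomputable section

open Complex MeasureTheory
open scoped ComplexConjugate Classical ContDiff

namespace Crest.Agent.R017.PoX70

open Crest.Agent.R012 Crest.Agent.R012.Eis Crest.Agent.R012.MC
open Crest.Agent.R012.LS2 (S mem_S bl mem_bl)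
open Crest.Agent.R012.Mob705 (mu pdiv mem_pdiv)
open Crest.Agent.R012.Weight600 (osc pw norm_osc)
open Crest.Agent.R012.NonCube52 (Ker kv Good)
open Crest.Agent.R017.CM106 (CS TG norm_Gsy_le)
open Crest.Agent.R017.E1551 (nmpos jb jb_pos jb_neg continuous_jb integrable_jb integrable_jb_mul
  nm_ge_one CS_fin summable_wF)
open Crest.Agent.R017.BD829
open Crest.Agent.R017.End699 (HC)
open Crest.Agent.R017.FE47 (PS XK gt rad)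
open Crest.Agent.R017.BDh681 (ShH KTc)
open Crest.Agent.R017.PoH347
open Crest.Agent.R017.PoHx72
open Crest.Agent.R017.Mode405 (Slp Il VI KS mem_KS XS)
open Gauss880 (syG)

/-- **all blocks**, one weight, both classes -/
theorem pohs_vhx {M : Eis} {χ : Eis → ℂ} (hχ : HC M χ) (l₀ : ℤ) {R : ℝ} (hR : 0 ≤ R) {A a : ℕ} (hA : 1 < A) {ε : ℝ} (hε0 : 0 < ε)
    (hε : ε ≤ 1) :
    ∃ C : ℝ, 0 < C ∧ ∀ (v : ℝ → ℝ), Wgt v → ∀ t C0 : ℝ,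
      KTc (rad (gt (lw v) l₀ t)) (max R 2) A (a + 4) C0 →
      ∀ Z N X lam₀ : ℝ, 1 ≤ Z → 0 < N → N ≤ Z → 0 < X → 1 ≤ X * Z →
      1 ≤ lam₀ → lam₀ ≤ Z → lam₀ * Real.exp R < N →
      ∀ {ι : Type} (Q : Finset ι) (b : ι → Eis → ℂ) (Xq : ι → ℝ),
      (∀ q ∈ Q, X / 64 ≤ Xq q ∧ Xq q ≤ X) →
      (∀ q ∈ Q, ∀ n, b q n ≠ 0 → n ∈ S Z) → (∀ q ∈ Q, ∀ n, b q n ≠ 0 → IsCoprime n M) →
      (∀ q ∈ Q, Win (b q) (Real.log N) R) →
      ∀ (B0 : ℝ) (ka : Eis), M ∣ ka →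
      ∀ Pr : ι → Eis → Eis → Prop, (∀ q ∈ Q, ∀ D, D ≠ 0 → Cub (Pr q D)) →
      (∀ q ∈ Q, ∀ D H, IsPrim D → H ≠ 0 → (∃ m, b q (D * m) ≠ 0) → Pr q D H →
        ∃ s t, D ^ 2 * H * s = t ^ 3 ∧ IsCoprime s D) →
      ∀ W : Bool → ℝ → ℝ, (∀ j, Slp a (W j)) →
      (∀ j, HWhx j A B0 Q b (BDh681.ps χ l₀) ka Pr (W j)) →
      lam₀ ^ 2 ≤ B0 →
      ∀ W1 : Bool → ℝ, (∀ j, W j (18 * (729 * (nm M : ℝ)) ^ 3 * (384 * (729 * (nm M : ℝ))) * Il N lam₀ X) ≤ W1 j) →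
      ∑ q ∈ Q, ∑ κ ∈ KSa ka lam₀, ∑ g ∈ pdiv κ.2.2,
        ‖ShH (lw v) (chs χ (su κ)) l₀ (Real.log (Xq q)) t (bg (b q) g (κ.2.2 / g)) (g * κ.2.1)‖ ^ 2 ≤
        C * (1 + C0) ^ 2 * Z ^ (11 * ε) *
          ∑ j : Bool, (X * nfx j lam₀ (Il N lam₀ X) * W1 j) := by
  have hnu : (1 : ℝ) ≤ nm M := nm_ge_one hχ.q0
  set U : ℝ := 729 * (nm M : ℝ) with hUdef
  have hU : 81 ≤ U := by rw [hUdef]; linarith
  have hU0 : 0 < U := by linarith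
  obtain ⟨Cb, hCb, hblk⟩ := fam_blockhx l₀ hR hU (A := A) (a := a) hA hε0 hε
  obtain ⟨Ch, hCh, hharm⟩ := harm hε0
  obtain ⟨Cj, hCj, hJn⟩ := Jn_le hε0
  refine ⟨9 * (Ch * (Cj * (Cj * Cb))), by positivity, ?_⟩
  intro v hv t C0 hk Z N X lam₀ hZ hN hNZ hX hXZ hlam1 hlamZ hlamN ι Q b Xq hXq hb hbM hwb B0 ka
    hMka Pr hPr hcp W hW hVI hB0 W1 hW1
  have hZ0 : 0 < Z := by linarith
  have hlam0 : 0 ≤ lam₀ := by linarith
  have hC0 := hk.1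
  have hI : 0 < Il N lam₀ X := by unfold Il; positivity
  set T : ℝ := ∑ j : Bool, (X * nfx j lam₀ (Il N lam₀ X) * W1 j) with hT
  have hW10 : ∀ j, 0 ≤ W1 j := fun j => ((hW j).nonneg _ (by positivity)).trans (hW1 j)
  have hT0 : 0 ≤ T := Finset.sum_nonneg fun j _ =>
    mul_nonneg (mul_nonneg hX.le (nfx_nonneg j hlam0 hI.le)) (hW10 j)
  -- the family inside
  set Ψ : ℕ × ℕ → Eis → Eis → Eis → ℝ := fun p g l x =>
    if IsCoprime x ka ∧ IsCoprime g ka ∧ IsCoprime l ka then ∑ q ∈ Q,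
        ‖ShH (lw v) (chs χ (su (p, (1, 1)))) l₀ (Real.log (Xq q)) t (bg (b q) g l) (g * x)‖ ^ 2 else 0 with hΨ
  have hΨ0 : ∀ p g l x, 0 ≤ Ψ p g l x := by
    intro p g l x
    rw [hΨ]
    beta_reduce
    split_ifs
    · exact Finset.sum_nonneg fun _ _ => by positivity
    · exact le_rfl
  have e1 : ∑ q ∈ Q, ∑ κ ∈ KSa ka lam₀, ∑ g ∈ pdiv κ.2.2,
        ‖ShH (lw v) (chs χ (su κ)) l₀ (Real.log (Xq q)) t (bg (b q) g (κ.2.2 / g)) (g * κ.2.1)‖ ^ 2 ≤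
      ∑ κ ∈ KS lam₀, ∑ g ∈ pdiv κ.2.2, Ψ κ.1 g (κ.2.2 / g) κ.2.1 := by
    rw [Finset.sum_comm]
    unfold KSa
    rw [Finset.sum_filter]
    refine Finset.sum_le_sum fun κ hκ => ?_
    split_ifs with hc
    · rw [Finset.sum_comm]
      refine Finset.sum_le_sum fun g hg => ?_
      have hg' := (mem_pdiv (mem_KS.mp hκ).1.prim2.ne_zero).mp hg
      have h1 : IsCoprime κ.2.1 ka := hc.of_mul_left_left
      have h2 : IsCoprime g ka := hc.of_mul_left_right.of_isCoprime_of_dvd_left hg'.2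
      have h3 : IsCoprime (κ.2.2 / g) ka := by
        refine hc.of_mul_left_right.of_isCoprime_of_dvd_left ?_
        obtain ⟨n, hn⟩ := hg'.2
        rw [hn, mul_div_cancel_left₀ _ hg'.1.ne_zero]
        exact dvd_mul_left _ _
      rw [hΨ]
      beta_reduce
      rw [if_pos ⟨h1, h2, h3⟩]
      rfl
    · exact Finset.sum_nonneg fun g _ => hΨ0 _ _ _ _
  refine e1.trans ?_
  refine (reorg hlam0 (Ψ := Ψ) hΨ0).trans ?_
  have h1 : ∀ p ∈ Finset.range 3 ×ˢ Finset.range 3, ∀ g ∈ S lam₀,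
      ∀ j3 ∈ Finset.range (Jn lam₀), ∀ j1 ∈ Finset.range (Jn lam₀),
      ∑ l ∈ T3 lam₀ g j3, ∑ x ∈ H1 lam₀ p g l j1, Ψ p g l x ≤
      Cb * (1 + C0) ^ 2 * Z ^ (8 * ε) * T * (1 / nm g) := by
    intro p hp g hg j3 _ j1 _
    have hp' := Finset.mem_product.mp hp
    by_cases hgk : IsCoprime g ka
    swap
    · have h0 : ∑ l ∈ T3 lam₀ g j3, ∑ x ∈ H1 lam₀ p g l j1, Ψ p g l x = 0 := by
        refine Finset.sum_eq_zero fun l _ => Finset.sum_eq_zero fun x _ => ?_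
        rw [hΨ]
        beta_reduce
        exact if_neg fun h => hgk h.2.1
      rw [h0]
      positivity
    have e2 : ∑ l ∈ T3 lam₀ g j3, ∑ x ∈ H1 lam₀ p g l j1, Ψ p g l x =
        ∑ q ∈ Q, ∑ l ∈ T3k lam₀ ka g j3, ∑ x ∈ H1k lam₀ ka p g l j1,
        ‖ShH (lw v) (chs χ (su (p, (1, 1)))) l₀ (Real.log (Xq q)) t (bg (b q) g l) (g * x)‖ ^ 2 := by
      symm
      rw [Finset.sum_comm]
      unfold T3k
      rw [Finset.sum_filter]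
      refine Finset.sum_congr rfl fun l _ => ?_
      by_cases hlk : IsCoprime l ka
      · rw [if_pos hlk, Finset.sum_comm]
        unfold H1k
        rw [Finset.sum_filter]
        refine Finset.sum_congr rfl fun x _ => ?_
        rw [hΨ]
        beta_reduce
        simp only [hgk, hlk, and_true]
      · rw [if_neg hlk]
        symm
        refine Finset.sum_eq_zero fun x _ => ?_
        rw [hΨ]
        beta_reduce
        exact if_neg fun h => hlk h.2.2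
    refine e2.le.trans ?_
    have hsu : SU (su (p, (1, 1))) := SU_su _
    have hsU : (nm (M * (9 * su (p, (1, 1)))) : ℝ) ≤ U := by
      have h2 : (nm (9 * su (p, ((1 : Eis), (1 : Eis)))) : ℝ) ≤ 729 :=
        nm_M_le (Finset.mem_range.mp hp'.2)
      have h3 : (nm (M * (9 * su (p, ((1 : Eis), (1 : Eis))))) : ℝ) =
          nm (9 * su (p, ((1 : Eis), (1 : Eis)))) * nm M := by
        rw [nm_mul]
        push_cast
        ring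
      rw [h3, hUdef]
      exact mul_le_mul_of_nonneg_right h2 (Nat.cast_nonneg _)
    refine (hblk v hv t C0 hk M χ hχ _ hsu hsU Z N X lam₀ hZ hN hNZ hX hXZ hlam1 hlamZ hlamN Q b Xq
      hXq hb hbM hwb B0 ka Pr hPr hcp W hW hVI hB0 hMka W1 hW1 p g ((mem_S hlam0).1 hg).2.1 hgk
      j1 j3).trans (le_of_eq ?_)
    rw [← Finset.mul_sum, ← hT]
    ring
  have hJ0 : (0 : ℝ) ≤ Jn lam₀ := Nat.cast_nonneg _
  have hJ := hJn lam₀ Z hlam1 hlamZ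
  have hH := hharm lam₀ Z hlam1 hlamZ
  set K : ℝ := Cb * (1 + C0) ^ 2 * Z ^ (8 * ε) * T with hK
  have hK0 : 0 ≤ K := by positivity
  calc ∑ p ∈ Finset.range 3 ×ˢ Finset.range 3, ∑ g ∈ S lam₀, ∑ j3 ∈ Finset.range (Jn lam₀),
        ∑ j1 ∈ Finset.range (Jn lam₀), ∑ l ∈ T3 lam₀ g j3, ∑ x ∈ H1 lam₀ p g l j1,
          Ψ p g l x
      ≤ ∑ _p ∈ Finset.range 3 ×ˢ Finset.range 3, ∑ g ∈ S lam₀, ∑ _j3 ∈ Finset.range (Jn lam₀),
        ∑ _j1 ∈ Finset.range (Jn lam₀), K * (1 / nm g) :=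
        Finset.sum_le_sum fun p hp => Finset.sum_le_sum fun g hg => Finset.sum_le_sum fun j3 hj3 =>
          Finset.sum_le_sum fun j1 hj1 => h1 p hp g hg j3 hj3 j1 hj1
    _ = 9 * ((∑ g ∈ S lam₀, (1 / (nm g : ℝ))) * ((Jn lam₀ : ℝ) * ((Jn lam₀ : ℝ) * K))) := by
        have e3 : ∑ g ∈ S lam₀, ((Jn lam₀ : ℝ) * ((Jn lam₀ : ℝ) * (K * (1 / nm g)))) =
            (∑ g ∈ S lam₀, (1 / (nm g : ℝ))) * ((Jn lam₀ : ℝ) * ((Jn lam₀ : ℝ) * K)) := by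
          rw [Finset.sum_mul]
          exact Finset.sum_congr rfl fun g _ => by ring
        simp only [Finset.sum_const, Finset.card_product, Finset.card_range, nsmul_eq_mul]
        rw [e3]
        push_cast
        ring
    _ ≤ 9 * ((Ch * Z ^ ε) * ((Cj * Z ^ ε) * ((Cj * Z ^ ε) * K))) := by gcongr
    _ = 9 * (Ch * (Cj * (Cj * Cb))) * (1 + C0) ^ 2 * (Z ^ ε * Z ^ ε * Z ^ ε * Z ^ (8 * ε)) * T := by
        rw [hK]; ring
    _ = _ := by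
        rw [← Real.rpow_add hZ0, ← Real.rpow_add hZ0, ← Real.rpow_add hZ0]
        congr 3
        ring

/-- **the structured bound with a Hecke character**, both classes of frequencies -/
theorem pohs_wHx {M : Eis} {χ : Eis → ℂ} (hχ : HC M χ) (l₀ : ℤ)
    {w₀ : ℝ → ℝ} (hw : Wgt w₀) {R : ℝ} (hR : 0 ≤ R) {a A : ℕ} (hA : 1 < A) {ε : ℝ} (hε : 0 < ε) :
    ∃ (C c : ℝ) (J : ℕ), 0 ≤ C ∧ 1 ≤ c ∧
    ∀ Z N X lam : ℝ, 1 ≤ Z → 0 < N → N ≤ Z → 0 < X → 1 ≤ X * Z → 1 ≤ lam → lam ≤ Z →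
      lam * Real.exp R < N →
    ∀ {ι : Type} (Q : Finset ι) (b : ι → Eis → ℂ) (Xq : ι → ℝ),
      (∀ q ∈ Q, X / 64 ≤ Xq q ∧ Xq q ≤ X) →
      (∀ q ∈ Q, ∀ n, b q n ≠ 0 → n ∈ S Z) → (∀ q ∈ Q, ∀ n, b q n ≠ 0 → IsCoprime n M) →
      (∀ q ∈ Q, Win (b q) (Real.log N) R) →
    ∀ (ka : Eis), M ∣ ka →
      ∀ Pr : ι → Eis → Eis → Prop, (∀ q ∈ Q, ∀ D, D ≠ 0 → Cub (Pr q D)) →
      (∀ q ∈ Q, ∀ D H, IsPrim D → H ≠ 0 → (∃ m, b q (D * m) ≠ 0) → Pr q D H →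
        ∃ s t, D ^ 2 * H * s = t ^ 3 ∧ IsCoprime s D) →
    ∀ W : Bool → ℝ → ℝ, (∀ j, Slp a (W j)) →
      (∀ j, HWx j A (N ^ 2) Q (fun q m => b q m * BDh681.ps χ l₀ m) ka Pr (W j)) →
    ∀ W1 : Bool → ℝ, (∀ j, W j (c * Il N lam X) ≤ W1 j) →
    ∀ t : ℝ, ∑ q ∈ Q, ∑ κ ∈ KSa ka lam, ‖XS (BDh681.ps χ l₀) w₀ (Xq q) t (b q) κ‖ ^ 2 ≤
      C * Z ^ ε * (1 + |t|) ^ J * ∑ j : Bool, (X * nfx j lam (Il N lam X) * W1 j) := by
  set ε1 : ℝ := min 1 (ε / 12) with hε1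
  have hε1p : 0 < ε1 := lt_min one_pos (by linarith)
  have hε1l : ε1 ≤ 1 := min_le_left _ _
  have hε1e : 12 * ε1 ≤ ε := by
    have : ε1 ≤ ε / 12 := min_le_right _ _
    linarith
  have hnu : (1 : ℝ) ≤ nm M := nm_ge_one hχ.q0
  obtain ⟨Ck, J, hCk, hKT⟩ := BDh681.KTc_rad (lw_smooth hw) (lw_cpt hw) l₀ (R := max R 2)
    (by positivity) A (a + 4)
  obtain ⟨Cp, hCp, hpv⟩ := pohs_vhx hχ l₀ hR (A := A) (a := a) hA hε1p hε1l
  obtain ⟨Ct, hCt1, hCt⟩ := tau_unif hε1p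
  have hCt0 : 0 < Ct := by linarith
  refine ⟨Ct * (Cp * (1 + Ck) ^ 2),
    18 * (729 * (nm M : ℝ)) ^ 3 * (384 * (729 * (nm M : ℝ))), 2 * J, by positivity, ?_, ?_⟩
  · have h1 : (1 : ℝ) ≤ (729 * (nm M : ℝ)) ^ 3 := one_le_pow₀ (by linarith)
    exact one_le_mul_of_one_le_of_one_le (by linarith) (by linarith)
  intro Z N X lam₀ hZ hN hNZ hX hXZ hlam1 hlamZ hlamN ι Q b Xq hXq hb hbM hwb ka hMka Pr hPr hcp
    W hW hVI W1 hW1 t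
  have hZ0 : 0 < Z := by linarith
  have hlam0 : 0 ≤ lam₀ := by linarith
  have hlamN' : lam₀ ≤ N :=
    (le_mul_of_one_le_right hlam0 (Real.one_le_exp hR)).trans hlamN.le
  have hB0 : lam₀ ^ 2 ≤ N ^ 2 := pow_le_pow_left₀ hlam0 hlamN' 2
  have ht1 : 1 ≤ 1 + |t| := by linarith [abs_nonneg t]
  have hI : 0 < Il N lam₀ X := by unfold Il; positivity
  have hW10 : ∀ j, 0 ≤ W1 j := fun j => ((hW j).nonneg _ (by positivity)).trans (hW1 j)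
  set T : ℝ := ∑ j : Bool, (X * nfx j lam₀ (Il N lam₀ X) * W1 j) with hT
  have hT0 : 0 ≤ T := Finset.sum_nonneg fun j _ =>
    mul_nonneg (mul_nonneg hX.le (nfx_nonneg j hlam0 hI.le)) (hW10 j)
  set C0 : ℝ := Ck * (1 + |t|) ^ J with hC0d
  have hC00 : 0 ≤ C0 := by positivity
  have hVIh : ∀ j, HWhx j A (N ^ 2) Q b (BDh681.ps χ l₀) ka Pr (W j) := fun j =>
    HWhx_of j hχ l₀ (fun q hq n hn => ((mem_S hZ0.le).1 (hb q hq n hn)).2.1) hMka (hVI j)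
  have b1 := hpv w₀ hw t C0 (hKT t) Z N X lam₀ hZ hN hNZ hX hXZ hlam1 hlamZ hlamN Q b
    Xq hXq hb hbM hwb (N ^ 2) ka hMka Pr hPr hcp W hW hVIh hB0 W1 hW1
  rw [← hT] at b1
  -- one kernel
  have h1 : ∀ q ∈ Q, ∀ κ ∈ KSa ka lam₀, ‖XS (BDh681.ps χ l₀) w₀ (Xq q) t (b q) κ‖ ^ 2 ≤
      (Ct * Z ^ ε1) * (∑ g ∈ pdiv κ.2.2, ‖ShH (lw w₀) (chs χ (su κ)) l₀ (Real.log (Xq q)) t
          (bg (b q) g (κ.2.2 / g)) (g * κ.2.1)‖ ^ 2) := by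
    intro q hq κ hκ
    obtain ⟨hg, hkv⟩ := mem_KS.mp (Finset.mem_filter.mp hκ).1
    have hXq0 : 0 < Xq q := by have := (hXq q hq).1; linarith
    rw [XS_splith hχ l₀ hw hXq0 t hZ0.le (hb q hq) hg]
    have hcs := norm_sum_le (pdiv κ.2.2) (fun g =>
      ShH (lw w₀) (chs χ (su κ)) l₀ (Real.log (Xq q)) t (bg (b q) g (κ.2.2 / g)) (g * κ.2.1))
    have htau : (Div277.tau κ.2.2 : ℝ) ≤ Ct * Z ^ ε1 := by
      refine hCt Z hZ κ.2.2 ((mem_S hZ0.le).mpr ⟨?_, hg.prim2, hg.sqf2⟩)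
      have n1 := nm_ge_one hg.prim1.ne_zero
      have n2 := nm_ge_one hg.prim2.ne_zero
      have h3 := NonCube52.nm_kv_ge κ
      have h7 : (nm κ.2.2 : ℝ) ≤ (nm κ.2.2 : ℝ) ^ 2 := by nlinarith
      have h8 : (nm κ.2.2 : ℝ) ^ 2 ≤ nm κ.2.1 * (nm κ.2.2 : ℝ) ^ 2 :=
        le_mul_of_one_le_left (by positivity) n1
      linarith
    refine (pow_le_pow_left₀ (norm_nonneg _) hcs 2).trans ?_
    refine (sq_sum_le_card_mul_sum_sq).trans ?_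
    refine mul_le_mul_of_nonneg_right htau (Finset.sum_nonneg fun _ _ => by positivity)
  have h2 : ∑ q ∈ Q, ∑ κ ∈ KSa ka lam₀, ‖XS (BDh681.ps χ l₀) w₀ (Xq q) t (b q) κ‖ ^ 2 ≤
      (Ct * Z ^ ε1) * (∑ q ∈ Q, ∑ κ ∈ KSa ka lam₀, ∑ g ∈ pdiv κ.2.2,
        ‖ShH (lw w₀) (chs χ (su κ)) l₀ (Real.log (Xq q)) t
          (bg (b q) g (κ.2.2 / g)) (g * κ.2.1)‖ ^ 2) := by
    refine (Finset.sum_le_sum fun q hq => Finset.sum_le_sum fun κ hκ => h1 q hq κ hκ).trans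
      (le_of_eq ?_)
    simp only [← Finset.mul_sum]
  refine h2.trans ?_
  have h3 : 0 ≤ Ct * Z ^ ε1 := by positivity
  refine (mul_le_mul_of_nonneg_left b1 h3).trans ?_
  have h4 : (1 + C0) ^ 2 ≤ (1 + Ck) ^ 2 * (1 + |t|) ^ (2 * J) := by
    have h5 : 1 ≤ (1 + |t|) ^ J := one_le_pow₀ ht1
    have h6 : 1 + C0 ≤ (1 + Ck) * (1 + |t|) ^ J := by rw [hC0d]; nlinarith
    calc (1 + C0) ^ 2 ≤ ((1 + Ck) * (1 + |t|) ^ J) ^ 2 :=
          pow_le_pow_left₀ (by positivity) h6 2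
      _ = _ := by rw [mul_pow, ← pow_mul, mul_comm J 2]
  have h7 : Z ^ ε1 * Z ^ (11 * ε1) ≤ Z ^ ε := by
    rw [← Real.rpow_add hZ0]
    exact Real.rpow_le_rpow_of_exponent_le hZ (by linarith)
  calc (Ct * Z ^ ε1) * (Cp * (1 + C0) ^ 2 * Z ^ (11 * ε1) * T)
      = Ct * Cp * (1 + C0) ^ 2 * (Z ^ ε1 * Z ^ (11 * ε1)) * T := by ring
    _ ≤ Ct * Cp * ((1 + Ck) ^ 2 * (1 + |t|) ^ (2 * J)) * Z ^ ε * T := by gcongr
    _ = _ := by ring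

end Crest.Agent.R017.PoX70
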