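import Crest.Agent.R017.E2w_440
import Crest.Agent.R017.PoHc_72
import Crest.Agent.R017.ExD6_791
import Crest.Agent.R017.MoF4_106
import Crest.Agent.R017.H1q_401

/-!
# Row 17, T.7, `E2` for a difference of shapes: the principal `d` of the `DD`-moment (helper502)

Part 1: `DN n g₂ g₃ d` = `d = m a² (g₃ n)³`, `g₂ ∣ a`; the principal `d` have the same `m`, `a`.

* `PrK Pr M0` : the class of the principal frequencies
* `dn_str`, `dn_unique`, `dn_div` : structure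
* `PV`, `cs_le` : the value at a principal `d`
-/

set_option autoImplicit false
set_option linter.unusedVariables false
set_option linter.unusedSectionVars false

noncomputable section

open Complex
open scoped ComplexConjugate

namespace Crest.Agent.R017.PrD502

open Crest.Agent.R012 Crest.Agent.R012.Eis Crest.Agent.R012.GaussLoc283
open Crest.Agent.R012.Mob705 hiding pb mem_pb
open Crest.Agent.R012.Div277
open Crest.Agent.R012.LS2 (S mem_S)
open Crest.Agent.R012.Weight600 (osc norm_osc)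
open Crest.Agent.R017.CM106 (sub CS FS)
open Crest.Agent.R017.H1401 (pb mem_pb DD DN HW WM QQ)
open Crest.Agent.R017.E2440 (cT ag)
open Crest.Agent.R017.PoHx72 (Cub dvd_of_sq_dvd_cube)
open Crest.Agent.R017.ExD791 (Mg)

/-! ### structure -/

/-- the class of the principal frequencies: they differ by cubes, cubes are harmless, and outside
`M0` all exponents are multiples of `3` -/
structure PrK (Pr : Eis → Prop) (M0 : Eis) : Prop where
  m0 : M0 ≠ 0
  cub : Cub Pr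
  up : ∀ k x : Eis, k ≠ 0 → x ≠ 0 → Pr k → Pr (k * x ^ 3)
  nr : ∀ k : Eis, k ≠ 0 → Pr k → ∃ s t : Eis, s ≠ 0 ∧ k * s = t ^ 3 ∧
    ∀ p : Eis, Prime p → p ∣ s → p ∣ M0

/-- the cubes -/
lemma prK_cube : PrK (fun H => ∃ c, H = c ^ 3) 1 := by
  refine ⟨one_ne_zero, Cub.cube, ?_, ?_⟩
  · rintro _ x - - ⟨c, rfl⟩
    exact ⟨c * x, by ring⟩
  · rintro _ - ⟨c, rfl⟩
    exact ⟨1, c, one_ne_zero, by ring, fun p _ h => h⟩

/-- `m a²` with `m a` squarefree is cube-free -/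
lemma cubefree_kern {m a : Eis} (h : Squarefree (m * a)) (p : Eis) (hp : Prime p) :
    ¬ p ^ 3 ∣ m * a ^ 2 := by
  intro hd
  have hm := h.of_mul_left
  have ha := h.of_mul_right
  by_cases hpa : p ∣ a
  · obtain ⟨a1, rfl⟩ := hpa
    have h1 : p ∣ m * a1 ^ 2 := by
      have h2 : p ^ 2 * p ∣ p ^ 2 * (m * a1 ^ 2) := by
        have e : p ^ 2 * (m * a1 ^ 2) = m * (p * a1) ^ 2 := by ring
        have e2 : p ^ 2 * p = p ^ 3 := by ring
        rw [e, e2]; exact hd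
      exact (mul_dvd_mul_iff_left (pow_ne_zero 2 hp.ne_zero)).mp h2
    rcases hp.dvd_or_dvd h1 with h3 | h3
    · obtain ⟨m1, rfl⟩ := h3
      exact hp.not_isUnit (h p ⟨m1 * a1, by ring⟩)
    · obtain ⟨a2, rfl⟩ := hp.dvd_of_dvd_pow h3
      exact hp.not_isUnit (ha p ⟨a2, by ring⟩)
  · have hc : IsCoprime (p ^ 3) (a ^ 2) :=
      ((hp.irreducible.coprime_iff_not_dvd).mpr hpa).pow
    have h1 : p ^ 3 ∣ m := hc.dvd_of_dvd_mul_right hd
    exact hp.not_isUnit (hm p (dvd_trans ⟨p, by ring⟩ h1))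

lemma a_dvd {m a m' a' : Eis} (h : Squarefree (m * a)) (h' : Squarefree (m' * a'))
    (e : m * a ^ 2 = m' * a' ^ 2) : a ∣ a' := by
  have h1 : a * a ∣ a' ^ 2 * m' := ⟨m, by linear_combination -e⟩
  have h2 : a ∣ a' ^ 2 := h'.of_mul_left.dvd_of_squarefree_of_mul_dvd_mul_left h1
  exact (h.of_mul_right.dvd_pow_iff_dvd (by norm_num)).mp h2

/-- **uniqueness of the kernel** -/
lemma kern_unique {Pr : Eis → Prop} (hP : Cub Pr) {c m a u m' a' u' : Eis} (hc : c ≠ 0)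
    (hm : IsPrim m) (ha : IsPrim a) (hu : IsPrim u) (hm' : IsPrim m') (ha' : IsPrim a')
    (hu' : IsPrim u') (h : Squarefree (m * a)) (h' : Squarefree (m' * a'))
    (hp : Pr (m * a ^ 2 * u ^ 3 * c)) (hp' : Pr (m' * a' ^ 2 * u' ^ 3 * c)) :
    m * a ^ 2 = m' * a' ^ 2 ∧ a = a' := by
  have hk0 : m * a ^ 2 ≠ 0 := (hm.mul (ha.pow 2)).ne_zero
  have hk0' : m' * a' ^ 2 ≠ 0 := (hm'.mul (ha'.pow 2)).ne_zero
  obtain ⟨t, ht⟩ := hP.mul hc (m * a ^ 2 * u ^ 3) (m' * a' ^ 2 * u' ^ 3)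
    (mul_ne_zero hk0 (pow_ne_zero _ hu.ne_zero)) (mul_ne_zero hk0' (pow_ne_zero _ hu'.ne_zero))
    hp hp'
  have hv : u * u' ^ 2 ≠ 0 := (hu.mul (hu'.pow 2)).ne_zero
  have h1 : (u * u' ^ 2) ^ 3 ∣ t ^ 3 := by
    rw [← ht]; exact ⟨m * a ^ 2 * (m' * a' ^ 2) ^ 2, by ring⟩
  obtain ⟨s, rfl⟩ := (UniqueFactorizationMonoid.pow_dvd_pow_iff_dvd (n := 3) (by norm_num)).mp h1
  have h2 : (m * a ^ 2) * (m' * a' ^ 2) ^ 2 = s ^ 3 := by
    apply mul_left_cancel₀ (pow_ne_zero 3 hv)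
    linear_combination ht
  have h3 : (m' * a' ^ 2) ^ 2 ∣ s ^ 3 := ⟨m * a ^ 2, by rw [← h2]; ring⟩
  obtain ⟨r, rfl⟩ := dvd_of_sq_dvd_cube _ le_rfl hk0' (cubefree_kern h') h3
  have h4 : m * a ^ 2 = m' * a' ^ 2 * r ^ 3 := by
    apply mul_left_cancel₀ (pow_ne_zero 2 hk0')
    linear_combination h2
  have hr : IsUnit r := by
    by_contra hn
    have hr0 : r ≠ 0 := by
      rintro rfl
      apply hk0
      rw [h4]; ring
    obtain ⟨p, hpi, hpr⟩ := WfDvdMonoid.exists_irreducible_factor hn hr0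
    exact cubefree_kern h p hpi.prime (by
      rw [h4]; exact (pow_dvd_pow_of_dvd hpr 3).mul_left _)
  have h5 : m * a ^ 2 = m' * a' ^ 2 := by
    refine IsPrim.eq_of_associated (hm.mul (ha.pow 2)) (hm'.mul (ha'.pow 2)) ?_
    refine associated_of_dvd_dvd ?_ ?_
    · rw [h4]
      exact (IsUnit.mul_right_dvd (hr.pow 3)).mpr dvd_rfl
    · rw [h4]; exact dvd_mul_right _ _
  refine ⟨h5, ?_⟩
  exact IsPrim.eq_of_associated ha ha'
    (associated_of_dvd_dvd (a_dvd h h' h5) (a_dvd h' h h5.symm))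

/-- the primes of the square part divide `E M0` -/
lemma dn_div {Pr : Eis → Prop} {M0 : Eis} (hP : PrK Pr M0) {E B τ m a u : Eis} (hE : E ≠ 0)
    (hB : IsPrim B) (hBs : Squarefree B) (hτ0 : τ ≠ 0)
    (hτ : ∀ p : Eis, Prime p → IsPrim p → ¬ p ∣ τ) (hm : IsPrim m) (ha : IsPrim a)
    (hu : IsPrim u) (h : Squarefree (m * (a * u))) (hp : Pr (m * a ^ 2 * u ^ 3 * (E * τ * B ^ 2))) :
    a ∣ E * M0 := by
  have has : Squarefree a := h.of_mul_right.of_mul_left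
  rw [← Mob705.prod_pp ha has]
  refine (ppSet_pp a).prod_dvd.mpr fun p hp1 => ?_
  have hpp := isPP_of_mem_pp hp1
  have hpr := hpp.prime
  have hpa := dvd_of_mem_pp hp1
  by_contra hn
  have hnE : ¬ p ∣ E := fun h' => hn (h'.mul_right _)
  have hnM : ¬ p ∣ M0 := fun h' => hn (h'.mul_left _)
  have hnτ := hτ p hpr hpp.1
  obtain ⟨a1, rfl⟩ := hpa
  have hna1 : ¬ p ∣ a1 := by
    rintro ⟨a2, rfl⟩
    exact hpr.not_isUnit (has p ⟨a2, by ring⟩)
  have hnm : ¬ p ∣ m := by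
    rintro ⟨m1, rfl⟩
    exact hpr.not_isUnit (h p ⟨m1 * (a1 * u), by ring⟩)
  have hnu : ¬ p ∣ u := by
    rintro ⟨u1, rfl⟩
    exact hpr.not_isUnit (h.of_mul_right p ⟨a1 * u1, by ring⟩)
  have hk0 : m * (p * a1) ^ 2 * u ^ 3 * (E * τ * B ^ 2) ≠ 0 :=
    mul_ne_zero ((hm.mul (ha.pow 2)).mul (hu.pow 3)).ne_zero
      (mul_ne_zero (mul_ne_zero hE hτ0) (pow_ne_zero _ hB.ne_zero))
  obtain ⟨s, t, hs0, hst, hsM⟩ := hP.nr _ hk0 hp
  have hns : ¬ p ∣ s := fun h' => hnM (hsM p hpr h')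
  -- `y` collects everything prime to `p`
  have hpt : p ∣ t := by
    apply hpr.dvd_of_dvd_pow (n := 3)
    rw [← hst]
    exact ⟨m * (p * a1 ^ 2) * u ^ 3 * (E * τ * B ^ 2) * s, by ring⟩
  obtain ⟨t1, rfl⟩ := hpt
  have h1 : m * a1 ^ 2 * u ^ 3 * (E * τ * B ^ 2) * s = p * t1 ^ 3 := by
    apply mul_left_cancel₀ (pow_ne_zero 2 hpr.ne_zero)
    linear_combination hst
  have hpB : p ∣ B := by
    have h2 : p ∣ m * a1 ^ 2 * u ^ 3 * (E * τ * B ^ 2) * s := ⟨t1 ^ 3, h1⟩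
    rcases hpr.dvd_or_dvd h2 with h3 | h3
    · rcases hpr.dvd_or_dvd h3 with h4 | h4
      · rcases hpr.dvd_or_dvd h4 with h5 | h5
        · rcases hpr.dvd_or_dvd h5 with h6 | h6
          · exact absurd h6 hnm
          · exact absurd (hpr.dvd_of_dvd_pow h6) hna1
        · exact absurd (hpr.dvd_of_dvd_pow h5) hnu
      · rcases hpr.dvd_or_dvd h4 with h5 | h5
        · rcases hpr.dvd_or_dvd h5 with h6 | h6
          · exact absurd h6 hnE
          · exact absurd h6 hnτ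
        · exact hpr.dvd_of_dvd_pow h5
    · exact absurd h3 hns
  obtain ⟨B1, rfl⟩ := hpB
  have hnB1 : ¬ p ∣ B1 := by
    rintro ⟨B2, rfl⟩
    exact hpr.not_isUnit (hBs p ⟨B2, by ring⟩)
  have h2 : m * a1 ^ 2 * u ^ 3 * (E * τ * (p * B1 ^ 2)) * s = t1 ^ 3 := by
    apply mul_left_cancel₀ hpr.ne_zero
    linear_combination h1
  have hpt1 : p ∣ t1 := by
    apply hpr.dvd_of_dvd_pow (n := 3)
    rw [← h2]
    exact ⟨m * a1 ^ 2 * u ^ 3 * (E * τ * B1 ^ 2) * s, by ring⟩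
  obtain ⟨t2, rfl⟩ := hpt1
  have h3 : m * a1 ^ 2 * u ^ 3 * (E * τ * B1 ^ 2) * s = p * (p * t2 ^ 3) := by
    apply mul_left_cancel₀ hpr.ne_zero
    linear_combination h2
  have h4 : p ∣ m * a1 ^ 2 * u ^ 3 * (E * τ * B1 ^ 2) * s := ⟨p * t2 ^ 3, h3⟩
  rcases hpr.dvd_or_dvd h4 with h3 | h3
  · rcases hpr.dvd_or_dvd h3 with h4 | h4
    · rcases hpr.dvd_or_dvd h4 with h5 | h5
      · rcases hpr.dvd_or_dvd h5 with h6 | h6
        · exact absurd h6 hnm
        · exact absurd (hpr.dvd_of_dvd_pow h6) hna1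
      · exact absurd (hpr.dvd_of_dvd_pow h5) hnu
    · rcases hpr.dvd_or_dvd h4 with h5 | h5
      · rcases hpr.dvd_or_dvd h5 with h6 | h6
        · exact absurd h6 hnE
        · exact absurd h6 hnτ
      · exact absurd (hpr.dvd_of_dvd_pow h5) hnB1
  · exact absurd h3 hns

/-! ### the value -/

/-- the bound of the principal values, 791's `ExD` -/
def PV (Pr : Eis → Prop) (J : ℕ) (Ax d0 Zp : ℝ) (al : Eis → ℂ) : Prop :=
  ∀ g : Eis, IsPrim g → (nm g : ℝ) ≤ Zp → ∀ k : Eis, k ≠ 0 → (nm k : ℝ) ≤ Zp → Pr k → ∀ t : ℝ,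
    ‖∑' n : Eis, al (g * n) * (osc t (Real.log (nm n)) * sy k n)‖ ≤
      (1 + |t|) ^ J * (Ax / nm g * Mg d0 g)

lemma sy_cube_cop {d m : Eis} (hm : IsPrim m) [Decidable (IsCoprime m d)] :
    sy (d ^ 3) m = if IsCoprime m d then 1 else 0 := by
  rw [syAx.pow_left d hm]
  by_cases h : IsCoprime m d
  · rw [if_pos h, syAx.cube d m hm h.symm]
  · rw [if_neg h, (syAx.eq_zero d m hm).mpr (fun h' => h h'.symm)]
    norm_num

/-- **the value at a principal `d`** -/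
theorem cs_le {Pr : Eis → Prop} {M0 : Eis} (hP : PrK Pr M0) {J : ℕ} {Ax d0 Zp : ℝ}
    {al : Eis → ℂ} (hal : FS al) (hV : PV Pr J Ax d0 Zp al) {δ g' E B τ G d : Eis}
    (hδ : IsPrim δ) (hg' : IsPrim g') (hE : E ≠ 0) (hτ0 : τ ≠ 0) (hB : IsPrim B) (hG : IsPrim G)
    (hd : IsPrim d) (hp : Pr (d * (E * τ * B ^ 2))) (h1 : (nm (g' * B * G) : ℝ) ≤ Zp)
    (h2 : (nm (d * (E * τ * B ^ 2) * δ ^ 3) : ℝ) ≤ Zp) (t : ℝ) :
    ‖CS (sub (cT (ag al δ g') E B τ t) G) d‖ ≤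
      (1 + |t|) ^ J * (Ax / nm (g' * B * G) * Mg d0 (g' * B * G)) := by
  classical
  have hk0 : d * (E * τ * B ^ 2) ≠ 0 :=
    mul_ne_zero hd.ne_zero (mul_ne_zero (mul_ne_zero hE hτ0) (pow_ne_zero _ hB.ne_zero))
  have hk : d * (E * τ * B ^ 2) * δ ^ 3 ≠ 0 := mul_ne_zero hk0 (pow_ne_zero _ hδ.ne_zero)
  have hV' := hV (g' * B * G) ((hg'.mul hB).mul hG) h1 _ hk h2 (hP.up _ _ hk0 hδ.ne_zero hp) (-t)
  rw [abs_neg] at hV'
  set u : ℂ := (if IsCoprime (B * G) δ then 1 else 0) * (sy E G * conj (sy B G)) *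
    (sy τ G * osc t (-Real.log (nm G))) with hu
  have hu1 : ‖u‖ ≤ 1 := by
    have a1 : ‖(if IsCoprime (B * G) δ then (1 : ℂ) else 0)‖ ≤ 1 := by split_ifs <;> simp
    have a2 := syAx.norm_le_one E hG
    have a3 := syAx.norm_le_one B hG
    have a4 := syAx.norm_le_one τ hG
    rw [hu, norm_mul, norm_mul, norm_mul, norm_mul, norm_osc, RCLike.norm_conj]
    calc _ ≤ (1 : ℝ) * (1 * 1) * (1 * 1) := by gcongr
      _ = 1 := by norm_num
  have e1 : CS (sub (cT (ag al δ g') E B τ t) G) d =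
      u * ∑' n : Eis, al (g' * B * G * n) * (osc (-t) (Real.log (nm n)) *
        sy (d * (E * τ * B ^ 2) * δ ^ 3) n) := by
    unfold CM106.CS
    rw [← tsum_mul_left]
    refine tsum_congr fun m => ?_
    unfold CM106.sub E2440.cT E2440.ag
    have e2 : g' * (B * (G * m)) = g' * B * G * m := by ring
    rw [e2]
    by_cases h0 : al (g' * B * G * m) = 0
    · rw [h0]; simp
    have hpm : IsPrim m := (hal.prim _ h0).of_mul_left ((hg'.mul hB).mul hG)
    have hnG : (nm G : ℝ) ≠ 0 := by exact_mod_cast (nm_pos.mpr hG.ne_zero).ne'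
    have hnm : (nm m : ℝ) ≠ 0 := by exact_mod_cast (nm_pos.mpr hpm.ne_zero).ne'
    have hc : IsCoprime (B * (G * m)) δ ↔ IsCoprime (B * G) δ ∧ IsCoprime m δ := by
      rw [← mul_assoc]
      exact IsCoprime.mul_left_iff
    have e3 : sy E (G * m) = sy E G * sy E m := syAx.mul_right _ _ _ hG hpm
    have e4 : sy (G * m) B = sy B G * sy B m := by
      rw [syAx.recip _ _ (hG.mul hpm) hB]; exact syAx.mul_right _ _ _ hG hpm
    have e5 : sy τ (G * m) = sy τ G * sy τ m := syAx.mul_right _ _ _ hG hpm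
    have e6 : osc t (-Real.log (nm (G * m))) =
        osc t (-Real.log (nm G)) * osc (-t) (Real.log (nm m)) := by
      rw [nm_mul, Nat.cast_mul, Real.log_mul hnG hnm, neg_add, Weight600.osc_add_right]
      congr 1
      rw [Weight600.osc_neg_left, Weight600.osc_neg_right]
    have e7 : sy (d * (E * τ * B ^ 2) * δ ^ 3) m =
        (sy d m * (sy E m * sy τ m * conj (sy B m))) * (if IsCoprime m δ then 1 else 0) := by
      rw [syAx.mul_left _ _ _ hpm, syAx.mul_left _ _ _ hpm, syAx.mul_left _ _ _ hpm,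
        syAx.mul_left _ _ _ hpm, syAx.pow_left B hpm, ← syAx.conj_eq_sq B hpm, sy_cube_cop hpm]
    rw [e3, e4, e5, e6, e7, hu]
    by_cases c1 : IsCoprime (B * G) δ
    · by_cases c2 : IsCoprime m δ
      · rw [if_pos (hc.mpr ⟨c1, c2⟩), if_pos c1, if_pos c2, map_mul]
        ring
      · rw [if_neg (fun h => c2 (hc.mp h).2), if_neg c2]
        ring
    · rw [if_neg (fun h => c1 (hc.mp h).1), if_neg c1]
      ring
  rw [e1, norm_mul]
  calc ‖u‖ * _ ≤ 1 * _ := mul_le_mul_of_nonneg_right hu1 (norm_nonneg _)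
    _ ≤ _ := by rw [one_mul]; exact hV'

end Crest.Agent.R017.PrD502
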