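import Crest.Agent.R017.PrD1_502

/-!
# Row 17, T.7: the principal `d` of the `DD`-moment, part 2 (helper502)

* `moP_n` : one `n`
* `moP_dvs` : the sum over `n ∣ ν`
-/

set_option autoImplicit false
set_option linter.unusedVariables false
set_option linter.unusedSectionVars false

noncomputable section

open Complex
open scoped ComplexConjugate

namespace Crest.Agent.R017.PrD502

open Crest.Agent.R012 Crest.Agent.R012.Eis Crest.Agent.R012.GaussLoc283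
open Crest.Agent.R012.Mob705 hiding pb mem_pb
open Crest.Agent.R012.Div277
open Crest.Agent.R012.LS2 (S mem_S)
open Crest.Agent.R012.Weight600 (osc norm_osc)
open Crest.Agent.R017.CM106 (sub CS FS)
open Crest.Agent.R017.H1401 (pb mem_pb DD DN HW WM QQ)
open Crest.Agent.R017.E2440 (cT ag one_le_nm)
open Crest.Agent.R017.MoF106 (MoP)
open Crest.Agent.R017.PoHx72 (Cub dvd_of_sq_dvd_cube)
open Crest.Agent.R017.ExD791 (Mg)

/-- the saving, squared -/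
def Mu (d0 : ℝ) (g : Eis) : ℝ := min 1 ((nm g : ℝ) * Real.exp (-d0))

lemma Mu_nonneg (d0 : ℝ) (g : Eis) : 0 ≤ Mu d0 g := by unfold Mu; positivity

lemma Mu_le_one (d0 : ℝ) (g : Eis) : Mu d0 g ≤ 1 := min_le_left _ _

lemma Mg_sq (d0 : ℝ) (g : Eis) : Mg d0 g ^ 2 = Mu d0 g := by
  unfold ExD791.Mg Mu
  have hx : (0 : ℝ) ≤ (nm g : ℝ) ^ (1 / 2 : ℝ) * Real.exp (-(d0 / 2)) := by positivity
  have e1 : ((nm g : ℝ) ^ (1 / 2 : ℝ) * Real.exp (-(d0 / 2))) ^ 2 = nm g * Real.exp (-d0) := by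
    rw [mul_pow, ← Real.rpow_natCast, ← Real.rpow_mul (Nat.cast_nonneg _), ← Real.exp_nat_mul]
    have e2 : (1 / 2 : ℝ) * ((2 : ℕ) : ℝ) = 1 := by norm_num
    have e3 : ((2 : ℕ) : ℝ) * -(d0 / 2) = -d0 := by push_cast; ring
    rw [e2, e3, Real.rpow_one]
  rw [← e1]
  rcases le_total 1 ((nm g : ℝ) ^ (1 / 2 : ℝ) * Real.exp (-(d0 / 2))) with h | h
  · rw [min_eq_left h, min_eq_left (one_le_pow₀ h), one_pow]
  · rw [min_eq_right h, min_eq_right (pow_le_one₀ hx h)]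

lemma Mu_mul (d0 : ℝ) {x y : Eis} (hy : y ≠ 0) : Mu d0 (x * y) ≤ nm y * Mu d0 x := by
  unfold Mu
  have h1 : (1 : ℝ) ≤ nm y := one_le_nm hy
  rw [mul_min_of_nonneg _ _ (by positivity), mul_one, nm_mul, Nat.cast_mul]
  refine min_le_min h1 (le_of_eq ?_)
  ring

/-- the weight -/
lemma W_le {R Z : ℝ} (hR : 0 ≤ R) (hZ : 0 ≤ Z) {x y : Eis} (hx : x ≠ 0) (hy : y ≠ 0) :
    WM R Z x y * ((nm x : ℝ) * nm y)⁻¹ ≤
      (1 / (nm y : ℝ)) * (nm x * R + Z + (R * Z) ^ ((2 : ℝ) / 3)) := by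
  have h1 : (1 : ℝ) ≤ nm x := one_le_nm hx
  have h2 : (1 : ℝ) ≤ nm y := one_le_nm hy
  have hx0 : (0 : ℝ) < nm x := by linarith
  have hy0 : (0 : ℝ) < nm y := by linarith
  have h3 : (1 : ℝ) ≤ nm x * nm y := one_le_mul_of_one_le_of_one_le h1 h2
  have h4 := H1401.WM_le_HW (R := R) (Z := Z) x y
  unfold H1401.HW at h4
  set x' : ℝ := (nm x : ℝ)
  set y' : ℝ := (nm y : ℝ)
  have h5 : (R * (Z / (x' * y') ^ 2)) ^ ((2 : ℝ) / 3) ≤ (R * Z) ^ ((2 : ℝ) / 3) * x'⁻¹ := by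
    have e1 : R * (Z / (x' * y') ^ 2) = (R * Z) / (x' * y') ^ 2 := by ring
    rw [e1, Real.div_rpow (by positivity) (by positivity), div_eq_mul_inv]
    refine mul_le_mul_of_nonneg_left ?_ (by positivity)
    refine inv_anti₀ hx0 ?_
    have e2 : ((x' * y') ^ 2) ^ ((2 : ℝ) / 3) = (x' * y') ^ (4 / 3 : ℝ) := by
      rw [← Real.rpow_natCast, ← Real.rpow_mul (by positivity)]
      norm_num
    rw [e2]
    calc x' ≤ x' * y' := by nlinarith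
      _ = (x' * y') ^ (1 : ℝ) := (Real.rpow_one _).symm
      _ ≤ (x' * y') ^ (4 / 3 : ℝ) := Real.rpow_le_rpow_of_exponent_le h3 (by norm_num)
  have h6 : Z / (x' * y') ^ 2 ≤ Z * x'⁻¹ := by
    rw [div_eq_mul_inv]
    refine mul_le_mul_of_nonneg_left ?_ hZ
    refine inv_anti₀ hx0 ?_
    calc x' ≤ x' * y' := by nlinarith
      _ = (x' * y') * 1 := (mul_one _).symm
      _ ≤ (x' * y') * (x' * y') := by gcongr
      _ = _ := by ring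
  calc WM R Z x y * (x' * y')⁻¹
      ≤ (x' ^ 2 * (R + Z / (x' * y') ^ 2 + (R * (Z / (x' * y') ^ 2)) ^ ((2 : ℝ) / 3))) *
        (x' * y')⁻¹ := by gcongr
    _ ≤ (x' ^ 2 * (R + Z * x'⁻¹ + (R * Z) ^ ((2 : ℝ) / 3) * x'⁻¹)) * (x' * y')⁻¹ := by gcongr
    _ = (1 / y') * (x' * R + Z + (R * Z) ^ ((2 : ℝ) / 3)) := by
        field_simp

set_option maxHeartbeats 1000000 in
open Classical in
/-- **one `n`** -/
theorem moP_n {ε : ℝ} (hε : 0 < ε) : ∃ C : ℝ, 1 ≤ C ∧ ∀ {Pr : Eis → Prop} {M0 : Eis},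
    PrK Pr M0 → ∀ {J : ℕ} {Ax d0 Zp : ℝ} {al : Eis → ℂ}, FS al → PV Pr J Ax d0 Zp al →
    ∀ {δ g' E B τ n : Eis}, IsPrim δ → IsPrim g' → E ≠ 0 → τ ≠ 0 →
    (∀ p : Eis, Prime p → IsPrim p → ¬ p ∣ τ) → IsPrim B → Squarefree B → IsPrim n →
    ∀ {X Z R Zw : ℝ}, 1 ≤ X → 1 ≤ Z → 0 ≤ R → 0 ≤ Zw → (nm g' : ℝ) * nm B * (X * X) ≤ Zp →
    Z * nm (E * τ * B ^ 2) * (nm δ : ℝ) ^ 3 ≤ Zp → ∀ {P : Eis → Eis → Eis → Prop},
    (∀ g₂ g₃ d, P g₂ g₃ d → DN n g₂ g₃ d ∧ Pr (d * (E * τ * B ^ 2))) → ∀ t : ℝ,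
    MoP (ag al δ g') E B τ X t Z (WM R Zw) P ≤
      (1 + |t|) ^ (2 * J) * (C * Z ^ ε * (1 + Real.log X)) *
        ((Ax / (nm g' * nm B)) ^ 2 * Mu d0 (g' * B)) *
        (R * min (Real.sqrt (Z / (nm n : ℝ) ^ 3)) (nm (E * M0)) + Zw +
          (R * Zw) ^ ((2 : ℝ) / 3)) := by
  obtain ⟨Ct, hCt, htau⟩ := tau_le_rpow hε
  refine ⟨Ct * 100, by linarith, ?_⟩
  intro Pr M0 hP J Ax d0 Zp al hal hV δ g' E B τ n hδ hg' hE hτ0 hτ hB hBs hn X Z R Zw hX hZ hR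
    hZw hZ1 hZ2 P hPp t
  have hX0 : (0 : ℝ) ≤ X := by linarith
  have hZ0 : (0 : ℝ) ≤ Z := by linarith
  have hnn : (1 : ℝ) ≤ nm n := one_le_nm hn.ne_zero
  have hng : (1 : ℝ) ≤ nm g' := one_le_nm hg'.ne_zero
  have hnB : (1 : ℝ) ≤ nm B := one_le_nm hB.ne_zero
  have hlog : 0 ≤ Real.log X := Real.log_nonneg hX
  set Z' : ℝ := Z / (nm n : ℝ) ^ 3 with hZ'
  have hZ'0 : 0 ≤ Z' := by positivity
  set U : ℝ := (1 + |t|) ^ (2 * J) * ((Ax / (nm g' * nm B)) ^ 2 * Mu d0 (g' * B)) with hU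
  have hU0 : 0 ≤ U := by
    have := Mu_nonneg d0 (g' * B)
    positivity
  have hRHS : (1 + |t|) ^ (2 * J) * (Ct * 100 * Z ^ ε * (1 + Real.log X)) *
        ((Ax / (nm g' * nm B)) ^ 2 * Mu d0 (g' * B)) *
        (R * min (Real.sqrt Z') (nm (E * M0)) + Zw + (R * Zw) ^ ((2 : ℝ) / 3)) =
      U * ((Ct * Z ^ ε) * (100 * (1 + Real.log X)) *
        (R * min (Real.sqrt Z') (nm (E * M0)) + Zw + (R * Zw) ^ ((2 : ℝ) / 3))) := by
    rw [hU]; ring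
  rw [hRHS]
  have hmin0 : 0 ≤ min (Real.sqrt Z') (nm (E * M0)) := by positivity
  by_cases hex : ∃ g₂ ∈ S X, ∃ g₃ ∈ S X, ∃ d, d ∈ (pb Z).filter (P g₂ g₃)
  swap
  · have h0 : MoP (ag al δ g') E B τ X t Z (WM R Zw) P = 0 := by
      unfold MoF106.MoP
      refine Finset.sum_eq_zero fun g₂ h2 => Finset.sum_eq_zero fun g₃ h3 => ?_
      have : (pb Z).filter (P g₂ g₃) = ∅ := by
        rw [Finset.eq_empty_iff_forall_notMem]
        exact fun d hd => hex ⟨g₂, h2, g₃, h3, d, hd⟩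
      rw [this, Finset.sum_empty, mul_zero]
    rw [h0]
    positivity
  obtain ⟨x2, hx2, x3, hx3, d1, hd1⟩ := hex
  rw [Finset.mem_filter, mem_pb hZ0] at hd1
  obtain ⟨⟨hd1Z, hd1p⟩, hd1P⟩ := hd1
  obtain ⟨⟨z1, m1, hz1, hm1, hs1, hd1e⟩, hd1Pr⟩ := hPp _ _ _ hd1P
  obtain ⟨hx2X, hx2p, hx2s⟩ := (mem_S hX0).mp hx2
  obtain ⟨hx3X, hx3p, hx3s⟩ := (mem_S hX0).mp hx3
  have hc : E * τ * B ^ 2 ≠ 0 := mul_ne_zero (mul_ne_zero hE hτ0) (pow_ne_zero _ hB.ne_zero)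
  set a0 : Eis := x2 * z1 with ha0
  have ha0p : IsPrim a0 := hx2p.mul hz1
  have hform : ∀ {y2 y3 z m : Eis}, Squarefree (m * (y2 * ((y3 * n) * z))) →
      Squarefree (m * ((y2 * z) * (y3 * n))) ∧
      QQ n y2 y3 z m = m * (y2 * z) ^ 2 * (y3 * n) ^ 3 := by
    intro y2 y3 z m h
    refine ⟨?_, by unfold H1401.QQ; ring⟩
    have e : m * (y2 * z * (y3 * n)) = m * (y2 * ((y3 * n) * z)) := by ring
    rw [e]; exact h
  obtain ⟨hs1', hd1e'⟩ := hform hs1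
  rw [hd1e'] at hd1e
  have hs1a : Squarefree (m1 * a0) := by
    refine hs1'.squarefree_of_dvd ⟨x3 * n, by rw [ha0]; ring⟩
  have hd1Pr' : Pr (m1 * a0 ^ 2 * (x3 * n) ^ 3 * (E * τ * B ^ 2)) := by
    rw [← hd1e]; exact hd1Pr
  -- the square part
  have ha0d : a0 ∣ E * M0 := dn_div hP hE hB hBs hτ0 hτ hm1 ha0p (hx3p.mul hn) hs1' hd1Pr'
  have ha0n : (nm a0 : ℝ) ≤ nm (E * M0) := by
    exact_mod_cast nm_le_of_dvd (mul_ne_zero hE hP.m0) ha0d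
  have ha0Z : (nm a0 : ℝ) ^ 2 ≤ Z' := by
    rw [hZ', le_div_iff₀ (by positivity)]
    have e1 : (nm d1 : ℝ) = nm m1 * (nm a0 : ℝ) ^ 2 * ((nm x3 : ℝ) * nm n) ^ 3 := by
      rw [hd1e, nm_mul, nm_mul, nm_pow, nm_pow, nm_mul x3 n]
      push_cast
      ring
    have h1 : (1 : ℝ) ≤ nm m1 := one_le_nm hm1.ne_zero
    have h2 : (1 : ℝ) ≤ nm x3 := one_le_nm hx3p.ne_zero
    calc (nm a0 : ℝ) ^ 2 * (nm n : ℝ) ^ 3 = 1 * (nm a0 : ℝ) ^ 2 * (1 * (nm n : ℝ)) ^ 3 := by ring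
      _ ≤ nm m1 * (nm a0 : ℝ) ^ 2 * ((nm x3 : ℝ) * nm n) ^ 3 := by gcongr
      _ = nm d1 := e1.symm
      _ ≤ Z := hd1Z
  have ha0s : (nm a0 : ℝ) ≤ Real.sqrt Z' := Real.le_sqrt_of_sq_le ha0Z
  have hta0 : (tau a0 : ℝ) ≤ Ct * Z ^ ε := by
    refine (htau a0 ha0p.ne_zero).trans ?_
    have h1 : (1 : ℝ) ≤ nm a0 := one_le_nm ha0p.ne_zero
    have h2 : (nm a0 : ℝ) ≤ Z := by
      have h3 : (nm a0 : ℝ) ≤ (nm a0 : ℝ) ^ 2 := by nlinarith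
      have h4 : Z' ≤ Z := div_le_self hZ0 (one_le_pow₀ hnn)
      linarith
    gcongr
  -- the inner sums
  set b : Eis → Eis → ℝ := fun g₂ g₃ =>
    if g₂ ∣ a0 then U * ((nm g₂ : ℝ) * nm g₃)⁻¹ else 0 with hb
  have hin : ∀ g₂ ∈ S X, ∀ g₃ ∈ S X, ∑ d ∈ (pb Z).filter (P g₂ g₃),
      ‖CS (sub (cT (ag al δ g') E B τ t) (g₂ * g₃)) d‖ ^ 2 ≤ b g₂ g₃ := by
    intro g₂ h2 g₃ h3
    obtain ⟨h2X, h2p, h2s⟩ := (mem_S hX0).mp h2
    obtain ⟨h3X, h3p, h3s⟩ := (mem_S hX0).mp h3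
    have hb0 : 0 ≤ b g₂ g₃ := by
      simp only [hb]
      split_ifs
      · positivity
      · exact le_rfl
    -- every member is the same element
    have huniq : ∀ d ∈ (pb Z).filter (P g₂ g₃), d = m1 * a0 ^ 2 * (g₃ * n) ^ 3 ∧ g₂ ∣ a0 ∧
        ‖CS (sub (cT (ag al δ g') E B τ t) (g₂ * g₃)) d‖ ^ 2 ≤ b g₂ g₃ := by
      intro d hd
      rw [Finset.mem_filter, mem_pb hZ0] at hd
      obtain ⟨⟨hdZ, hdp⟩, hdP⟩ := hd
      obtain ⟨⟨z, m, hz, hm, hs, hde⟩, hdPr⟩ := hPp _ _ _ hdP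
      obtain ⟨hs', hde'⟩ := hform hs
      rw [hde'] at hde
      have hsa : Squarefree (m * (g₂ * z)) :=
        hs'.squarefree_of_dvd ⟨g₃ * n, by ring⟩
      have hdPr' : Pr (m * (g₂ * z) ^ 2 * (g₃ * n) ^ 3 * (E * τ * B ^ 2)) := by
        rw [← hde]; exact hdPr
      obtain ⟨k1, k2⟩ := kern_unique hP.cub hc hm (h2p.mul hz) (h3p.mul hn) hm1 ha0p
        (hx3p.mul hn) hsa hs1a hdPr' hd1Pr'
      have hga : g₂ ∣ a0 := by rw [← k2]; exact dvd_mul_right _ _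
      refine ⟨by rw [hde, k1], hga, ?_⟩
      simp only [hb]
      rw [if_pos hga]
      have hn2 : (1 : ℝ) ≤ nm g₂ := one_le_nm h2p.ne_zero
      have hn3 : (1 : ℝ) ≤ nm g₃ := one_le_nm h3p.ne_zero
      have hcs := cs_le hP hal hV hδ hg' hE hτ0 hB (h2p.mul h3p) hdp hdPr (by
        rw [nm_mul, nm_mul, nm_mul g₂ g₃]
        push_cast
        calc (nm g' : ℝ) * nm B * ((nm g₂ : ℝ) * nm g₃) ≤ (nm g' : ℝ) * nm B * (X * X) := by gcongr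
          _ ≤ Zp := hZ1) (by
        rw [nm_mul, nm_mul, nm_pow]
        push_cast
        calc (nm d : ℝ) * nm (E * τ * B ^ 2) * (nm δ : ℝ) ^ 3
            ≤ Z * nm (E * τ * B ^ 2) * (nm δ : ℝ) ^ 3 := by gcongr
          _ ≤ Zp := hZ2) t
      have e1 : ((1 + |t|) ^ J * (Ax / nm (g' * B * (g₂ * g₃)) * Mg d0 (g' * B * (g₂ * g₃)))) ^ 2 =
          (1 + |t|) ^ (2 * J) * ((Ax / nm (g' * B * (g₂ * g₃))) ^ 2 *
            Mu d0 (g' * B * (g₂ * g₃))) := by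
        rw [← Mg_sq]; ring
      refine (pow_le_pow_left₀ (norm_nonneg _) hcs 2).trans ?_
      rw [e1]
      have hgg : g₂ * g₃ ≠ 0 := (h2p.mul h3p).ne_zero
      have e2 : (nm (g' * B * (g₂ * g₃)) : ℝ) = (nm g' * nm B) * ((nm g₂ : ℝ) * nm g₃) := by
        rw [nm_mul, nm_mul, nm_mul g₂ g₃]
        push_cast
        ring
      have h5 := Mu_mul d0 (x := g' * B) hgg
      have e3 : (nm (g₂ * g₃) : ℝ) = (nm g₂ : ℝ) * nm g₃ := by rw [nm_mul]; push_cast; ring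
      rw [e3] at h5
      rw [e2, hU]
      have hMu := Mu_nonneg d0 (g' * B)
      calc (1 + |t|) ^ (2 * J) * ((Ax / ((nm g' * nm B) * ((nm g₂ : ℝ) * nm g₃))) ^ 2 *
            Mu d0 (g' * B * (g₂ * g₃)))
          ≤ (1 + |t|) ^ (2 * J) * ((Ax / ((nm g' * nm B) * ((nm g₂ : ℝ) * nm g₃))) ^ 2 *
            ((nm g₂ : ℝ) * nm g₃ * Mu d0 (g' * B))) := by gcongr
        _ = _ := by
          field_simp
    rcases ((pb Z).filter (P g₂ g₃)).eq_empty_or_nonempty with he | ⟨d, hd⟩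
    · rw [he, Finset.sum_empty]; exact hb0
    · obtain ⟨e1, e2, e3⟩ := huniq d hd
      have hsub : (pb Z).filter (P g₂ g₃) = {d} := by
        rw [Finset.eq_singleton_iff_unique_mem]
        exact ⟨hd, fun x hx => by rw [(huniq x hx).1, e1]⟩
      rw [hsub, Finset.sum_singleton]
      exact e3
  -- the outer sums
  have hW0 : ∀ g₂ g₃, 0 ≤ WM R Zw g₂ g₃ := fun g₂ g₃ => H1401.WM_nonneg hR hZw g₂ g₃
  have hmain : MoP (ag al δ g') E B τ X t Z (WM R Zw) P ≤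
      ∑ g₂ ∈ S X, ∑ g₃ ∈ S X, WM R Zw g₂ g₃ * b g₂ g₃ := by
    unfold MoF106.MoP
    exact Finset.sum_le_sum fun g₂ h2 => Finset.sum_le_sum fun g₃ h3 =>
      mul_le_mul_of_nonneg_left (hin g₂ h2 g₃ h3) (hW0 _ _)
  refine hmain.trans ?_
  set Q : ℝ := R * min (Real.sqrt Z') (nm (E * M0)) + Zw + (R * Zw) ^ ((2 : ℝ) / 3) with hQ
  have hQ0 : 0 ≤ Q := by positivity
  have hrow : ∀ g₂ ∈ S X, ∑ g₃ ∈ S X, WM R Zw g₂ g₃ * b g₂ g₃ ≤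
      if g₂ ∣ a0 then U * ((100 * (1 + Real.log X)) * Q) else 0 := by
    intro g₂ h2
    obtain ⟨h2X, h2p, h2s⟩ := (mem_S hX0).mp h2
    by_cases hga : g₂ ∣ a0
    · rw [if_pos hga]
      have hn2 : (nm g₂ : ℝ) ≤ min (Real.sqrt Z') (nm (E * M0)) := by
        have h4 : (nm g₂ : ℝ) ≤ nm a0 := by exact_mod_cast nm_le_of_dvd ha0p.ne_zero hga
        exact le_min (h4.trans ha0s) (h4.trans ha0n)
      calc ∑ g₃ ∈ S X, WM R Zw g₂ g₃ * b g₂ g₃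
          ≤ ∑ g₃ ∈ S X, (1 / (nm g₃ : ℝ)) * (U * Q) := by
            refine Finset.sum_le_sum fun g₃ h3 => ?_
            obtain ⟨h3X, h3p, h3s⟩ := (mem_S hX0).mp h3
            simp only [hb]
            rw [if_pos hga]
            have h5 := W_le hR hZw h2p.ne_zero h3p.ne_zero
            calc WM R Zw g₂ g₃ * (U * ((nm g₂ : ℝ) * nm g₃)⁻¹)
                = U * (WM R Zw g₂ g₃ * ((nm g₂ : ℝ) * nm g₃)⁻¹) := by ring
              _ ≤ U * ((1 / (nm g₃ : ℝ)) * (nm g₂ * R + Zw + (R * Zw) ^ ((2 : ℝ) / 3))) :=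
                  mul_le_mul_of_nonneg_left h5 hU0
              _ ≤ U * ((1 / (nm g₃ : ℝ)) * (min (Real.sqrt Z') (nm (E * M0)) * R + Zw +
                  (R * Zw) ^ ((2 : ℝ) / 3))) := by gcongr
              _ = _ := by rw [hQ]; ring
        _ = (∑ g₃ ∈ S X, (1 / (nm g₃ : ℝ))) * (U * Q) := by rw [Finset.sum_mul]
        _ ≤ (100 * (1 + Real.log X)) * (U * Q) := by
            refine mul_le_mul_of_nonneg_right (E2440.sum_inv_S hX) (by positivity)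
        _ = _ := by ring
    · rw [if_neg hga]
      refine le_of_eq (Finset.sum_eq_zero fun g₃ _ => ?_)
      simp only [hb]
      rw [if_neg hga, mul_zero]
  refine (Finset.sum_le_sum hrow).trans ?_
  rw [← Finset.sum_filter, Finset.sum_const, nsmul_eq_mul]
  have hcard : (((S X).filter (fun g₂ => g₂ ∣ a0)).card : ℝ) ≤ Ct * Z ^ ε := by
    refine le_trans ?_ hta0
    unfold Div277.tau
    norm_cast
    refine Finset.card_le_card fun x hx => ?_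
    rw [Finset.mem_filter, mem_S hX0] at hx
    rw [mem_dvs ha0p.ne_zero]
    exact ⟨hx.1.2.1, hx.2⟩
  calc (((S X).filter (fun g₂ => g₂ ∣ a0)).card : ℝ) * (U * ((100 * (1 + Real.log X)) * Q))
      ≤ (Ct * Z ^ ε) * (U * ((100 * (1 + Real.log X)) * Q)) := by gcongr
    _ = _ := by ring

/-- the number at `(Z, B)` -/
def prN (R Z Ax d0 : ℝ) (L : ℝ) (g' B : Eis) : ℝ :=
  ((Ax / (nm g' * nm B)) ^ 2 * Mu d0 (g' * B)) *
    (R * min (Real.sqrt Z) L + Z + (R * Z) ^ ((2 : ℝ) / 3))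

lemma prN_nonneg {R Z Ax d0 L : ℝ} (hR : 0 ≤ R) (hZ : 0 ≤ Z) (hL : 0 ≤ L) (g' B : Eis) :
    0 ≤ prN R Z Ax d0 L g' B := by
  have := Mu_nonneg d0 (g' * B)
  unfold prN
  positivity

set_option maxHeartbeats 1000000 in
open Classical in
/-- **the sum over `n ∣ ν`** (401's `H1v`) -/
theorem moP_dvs {ε : ℝ} (hε : 0 < ε) : ∃ C : ℝ, 1 ≤ C ∧ ∀ {Pr : Eis → Prop} {M0 : Eis},
    PrK Pr M0 → ∀ {J : ℕ} {Ax d0 Zp : ℝ} {al : Eis → ℂ}, FS al → PV Pr J Ax d0 Zp al →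
    ∀ {δ g' E B τ ν : Eis}, IsPrim δ → IsPrim g' → E ≠ 0 → τ ≠ 0 →
    (∀ p : Eis, Prime p → IsPrim p → ¬ p ∣ τ) → IsPrim B → Squarefree B → IsPrim ν →
    ∀ {X Z R : ℝ}, 1 ≤ X → 1 ≤ Z → 0 ≤ R → (nm g' : ℝ) * nm B * (X * X) ≤ Zp →
    Z * nm (E * τ * B ^ 2) * (nm δ : ℝ) ^ 3 ≤ Zp → ∀ {P : Eis → Eis → Eis → Eis → Prop},
    (∀ n g₂ g₃ d, n ∣ ν → P n g₂ g₃ d → DN n g₂ g₃ d ∧ Pr (d * (E * τ * B ^ 2))) → ∀ t : ℝ,
    ∑ n ∈ dvs ν, (nm n : ℝ) *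
        MoP (ag al δ g') E B τ X t Z (WM R (Z / (nm n : ℝ) ^ 3)) (P n) ≤
      (1 + |t|) ^ (2 * J) * (C * (Z * nm ν) ^ ε * (1 + Real.log X)) *
        prN R Z Ax d0 (nm (E * M0) * nm ν) g' B := by
  obtain ⟨C, hC, h⟩ := moP_n hε
  obtain ⟨Ct, hCt, htau⟩ := tau_le_rpow hε
  refine ⟨C * Ct, one_le_mul_of_one_le_of_one_le hC hCt, ?_⟩
  intro Pr M0 hP J Ax d0 Zp al hal hV δ g' E B τ ν hδ hg' hE hτ0 hτ hB hBs hν X Z R hX hZ hR
    hZ1 hZ2 P hPp t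
  have hX0 : (0 : ℝ) ≤ X := by linarith
  have hZ0 : (0 : ℝ) ≤ Z := by linarith
  have hlog : 0 ≤ Real.log X := Real.log_nonneg hX
  have hnν : (1 : ℝ) ≤ nm ν := one_le_nm hν.ne_zero
  have hMu := Mu_nonneg d0 (g' * B)
  have hterm : ∀ n ∈ dvs ν, (nm n : ℝ) *
      MoP (ag al δ g') E B τ X t Z (WM R (Z / (nm n : ℝ) ^ 3)) (P n) ≤
      (1 + |t|) ^ (2 * J) * (C * Z ^ ε * (1 + Real.log X)) *
        prN R Z Ax d0 (nm (E * M0) * nm ν) g' B := by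
    intro n hn
    obtain ⟨hnp, hnd⟩ := (mem_dvs hν.ne_zero).mp hn
    have hnn : (1 : ℝ) ≤ nm n := one_le_nm hnp.ne_zero
    have hnn0 : (0 : ℝ) < nm n := by linarith
    have hnle : (nm n : ℝ) ≤ nm ν := by exact_mod_cast nm_le_of_dvd hν.ne_zero hnd
    have key := h hP hal hV hδ hg' hE hτ0 hτ hB hBs hnp hX hZ hR
      (Zw := Z / (nm n : ℝ) ^ 3) (by positivity) hZ1 hZ2 (P := P n)
      (fun g₂ g₃ d hd => hPp n g₂ g₃ d hnd hd) t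
    set U : ℝ := (1 + |t|) ^ (2 * J) * (C * Z ^ ε * (1 + Real.log X)) with hU
    have hU0 : 0 ≤ U := by positivity
    have hV0 : 0 ≤ (Ax / (nm g' * nm B)) ^ 2 * Mu d0 (g' * B) := by positivity
    have h1 : (nm n : ℝ) * min (Real.sqrt (Z / (nm n : ℝ) ^ 3)) (nm (E * M0)) ≤
        min (Real.sqrt Z) (nm (E * M0) * nm ν) := by
      rw [mul_min_of_nonneg _ _ hnn0.le]
      refine min_le_min ?_ ?_
      · apply Real.le_sqrt_of_sq_le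
        rw [mul_pow, Real.sq_sqrt (by positivity)]
        have e1 : (nm n : ℝ) ^ 2 * (Z / (nm n : ℝ) ^ 3) = Z / nm n := by field_simp
        rw [e1]
        exact div_le_self hZ0 hnn
      · rw [mul_comm]
        gcongr
    have h2 : (nm n : ℝ) * (Z / (nm n : ℝ) ^ 3) ≤ Z := by
      have e1 : (nm n : ℝ) * (Z / (nm n : ℝ) ^ 3) = Z / (nm n : ℝ) ^ 2 := by field_simp
      rw [e1]
      exact div_le_self hZ0 (one_le_pow₀ hnn)
    have h3 : (nm n : ℝ) * (R * (Z / (nm n : ℝ) ^ 3)) ^ ((2 : ℝ) / 3) ≤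
        (R * Z) ^ ((2 : ℝ) / 3) := by
      have e1 : R * (Z / (nm n : ℝ) ^ 3) = (R * Z) / (nm n : ℝ) ^ 3 := by ring
      have e2 : ((nm n : ℝ) ^ 3) ^ ((2 : ℝ) / 3) = (nm n : ℝ) ^ 2 := by
        rw [← Real.rpow_natCast, ← Real.rpow_mul hnn0.le, ← Real.rpow_natCast]
        norm_num
      rw [e1, Real.div_rpow (by positivity) (by positivity), e2]
      have e3 : (nm n : ℝ) * ((R * Z) ^ ((2 : ℝ) / 3) / (nm n : ℝ) ^ 2) =
          (R * Z) ^ ((2 : ℝ) / 3) / nm n := by field_simp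
      rw [e3]
      exact div_le_self (by positivity) hnn
    calc (nm n : ℝ) * MoP (ag al δ g') E B τ X t Z (WM R (Z / (nm n : ℝ) ^ 3)) (P n)
        ≤ (nm n : ℝ) * (U * ((Ax / (nm g' * nm B)) ^ 2 * Mu d0 (g' * B)) *
          (R * min (Real.sqrt (Z / (nm n : ℝ) ^ 3)) (nm (E * M0)) + Z / (nm n : ℝ) ^ 3 +
            (R * (Z / (nm n : ℝ) ^ 3)) ^ ((2 : ℝ) / 3))) :=
          mul_le_mul_of_nonneg_left key hnn0.le
      _ = U * (((Ax / (nm g' * nm B)) ^ 2 * Mu d0 (g' * B)) *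
          (R * ((nm n : ℝ) * min (Real.sqrt (Z / (nm n : ℝ) ^ 3)) (nm (E * M0))) +
            (nm n : ℝ) * (Z / (nm n : ℝ) ^ 3) +
            (nm n : ℝ) * (R * (Z / (nm n : ℝ) ^ 3)) ^ ((2 : ℝ) / 3))) := by ring
      _ ≤ U * (((Ax / (nm g' * nm B)) ^ 2 * Mu d0 (g' * B)) *
          (R * min (Real.sqrt Z) (nm (E * M0) * nm ν) + Z + (R * Z) ^ ((2 : ℝ) / 3))) := by
          gcongr
      _ = _ := rfl
  refine (Finset.sum_le_sum hterm).trans ?_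
  rw [Finset.sum_const, nsmul_eq_mul]
  have hpr := prN_nonneg (Ax := Ax) (d0 := d0) hR hZ0
    (by positivity : (0 : ℝ) ≤ nm (E * M0) * nm ν) g' B
  have hc : ((dvs ν).card : ℝ) ≤ Ct * (nm ν : ℝ) ^ ε := htau ν hν.ne_zero
  calc ((dvs ν).card : ℝ) * ((1 + |t|) ^ (2 * J) * (C * Z ^ ε * (1 + Real.log X)) *
        prN R Z Ax d0 (nm (E * M0) * nm ν) g' B)
      ≤ (Ct * (nm ν : ℝ) ^ ε) * ((1 + |t|) ^ (2 * J) * (C * Z ^ ε * (1 + Real.log X)) *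
        prN R Z Ax d0 (nm (E * M0) * nm ν) g' B) := by gcongr
    _ = _ := by
        rw [Real.mul_rpow hZ0 (by positivity)]
        ring

open Classical in
lemma sum_cover (s N : Finset Eis) (f : Eis → ℝ) (hf : ∀ d, 0 ≤ f d) (P : Eis → Prop)
    (Q : Eis → Eis → Prop) (h : ∀ d, P d → ∃ n ∈ N, Q n d) :
    ∑ d ∈ s.filter P, f d ≤ ∑ n ∈ N, ∑ d ∈ s.filter (fun d => P d ∧ Q n d), f d := by
  have e1 : ∀ n ∈ N, ∑ d ∈ s.filter (fun d => P d ∧ Q n d), f d =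
      ∑ d ∈ s.filter P, if Q n d then f d else 0 := by
    intro n _
    rw [← Finset.sum_filter, Finset.filter_filter]
  rw [Finset.sum_congr rfl e1, Finset.sum_comm]
  refine Finset.sum_le_sum fun d hd => ?_
  rw [Finset.mem_filter] at hd
  obtain ⟨n, hn, hq⟩ := h d hd.2
  have h1 : (if Q n d then f d else 0) ≤ ∑ n ∈ N, if Q n d then f d else 0 :=
    Finset.single_le_sum (f := fun n => if Q n d then f d else 0)
      (fun n _ => by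
        split_ifs
        · exact hf d
        · exact le_rfl) hn
  rwa [if_pos hq] at h1

set_option maxHeartbeats 1000000 in
open Classical in
/-- **the `DD` form** (401's `H1m`, 440's `MoW` with `WM`) -/
theorem moP_DD {ε : ℝ} (hε : 0 < ε) : ∃ C : ℝ, 1 ≤ C ∧ ∀ {Pr : Eis → Prop} {M0 : Eis},
    PrK Pr M0 → ∀ {J : ℕ} {Ax d0 Zp : ℝ} {al : Eis → ℂ}, FS al → PV Pr J Ax d0 Zp al →
    ∀ {δ g' E B τ ν : Eis}, IsPrim δ → IsPrim g' → E ≠ 0 → τ ≠ 0 →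
    (∀ p : Eis, Prime p → IsPrim p → ¬ p ∣ τ) → IsPrim B → Squarefree B → IsPrim ν →
    ∀ {X Z R : ℝ}, 1 ≤ X → 1 ≤ Z → 0 ≤ R → (nm g' : ℝ) * nm B * (X * X) ≤ Zp →
    Z * nm (E * τ * B ^ 2) * (nm δ : ℝ) ^ 3 ≤ Zp → ∀ {P : Eis → Eis → Eis → Prop},
    (∀ g₂ g₃ d, P g₂ g₃ d → DD ν g₂ g₃ d ∧ Pr (d * (E * τ * B ^ 2))) → ∀ t : ℝ,
    MoP (ag al δ g') E B τ X t Z (WM R Z) P ≤
      (1 + |t|) ^ (2 * J) * (C * (Z * nm ν) ^ ε * (1 + Real.log X)) *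
        prN R Z Ax d0 (nm (E * M0)) g' B := by
  obtain ⟨C, hC, h⟩ := moP_n hε
  obtain ⟨Ct, hCt, htau⟩ := tau_le_rpow hε
  refine ⟨C * Ct, one_le_mul_of_one_le_of_one_le hC hCt, ?_⟩
  intro Pr M0 hP J Ax d0 Zp al hal hV δ g' E B τ ν hδ hg' hE hτ0 hτ hB hBs hν X Z R hX hZ hR
    hZ1 hZ2 P hPp t
  have hX0 : (0 : ℝ) ≤ X := by linarith
  have hZ0 : (0 : ℝ) ≤ Z := by linarith
  have hlog : 0 ≤ Real.log X := Real.log_nonneg hX
  have hMu := Mu_nonneg d0 (g' * B)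
  have hsplit : MoP (ag al δ g') E B τ X t Z (WM R Z) P ≤
      ∑ n ∈ dvs ν, MoP (ag al δ g') E B τ X t Z (WM R Z)
        (fun g₂ g₃ d => P g₂ g₃ d ∧ DN n g₂ g₃ d) := by
    unfold MoF106.MoP
    have e0 : ∀ (F : Eis → Eis → Eis → ℝ), ∑ n ∈ dvs ν, ∑ g₂ ∈ S X, ∑ g₃ ∈ S X, F n g₂ g₃ =
        ∑ g₂ ∈ S X, ∑ g₃ ∈ S X, ∑ n ∈ dvs ν, F n g₂ g₃ := by
      intro F
      rw [Finset.sum_comm]
      exact Finset.sum_congr rfl fun _ _ => Finset.sum_comm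
    rw [e0]
    refine Finset.sum_le_sum fun g₂ _ => Finset.sum_le_sum fun g₃ _ => ?_
    rw [← Finset.mul_sum]
    refine mul_le_mul_of_nonneg_left ?_ (H1401.WM_nonneg hR hZ0 g₂ g₃)
    set f : Eis → ℝ := fun d => ‖CS (sub (cT (ag al δ g') E B τ t) (g₂ * g₃)) d‖ ^ 2 with hf
    have hf0 : ∀ d, 0 ≤ f d := fun d => by simp only [hf]; positivity
    have key := sum_cover (pb Z) (dvs ν) f hf0 (P g₂ g₃) (fun n d => DN n g₂ g₃ d) (fun d hd => by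
      obtain ⟨n, z, m, hn, hz, hm, hnν, hs, he⟩ := (hPp _ _ _ hd).1
      exact ⟨n, (mem_dvs hν.ne_zero).mpr ⟨hn, hnν⟩, z, m, hz, hm, hs, he⟩)
    refine key.trans (le_of_eq (Finset.sum_congr rfl fun n _ => Finset.sum_congr ?_ fun _ _ => rfl))
    ext d
    simp only [Finset.mem_filter]
  refine hsplit.trans ?_
  have hterm : ∀ n ∈ dvs ν, MoP (ag al δ g') E B τ X t Z (WM R Z)
      (fun g₂ g₃ d => P g₂ g₃ d ∧ DN n g₂ g₃ d) ≤
      (1 + |t|) ^ (2 * J) * (C * Z ^ ε * (1 + Real.log X)) *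
        prN R Z Ax d0 (nm (E * M0)) g' B := by
    intro n hn
    obtain ⟨hnp, hnd⟩ := (mem_dvs hν.ne_zero).mp hn
    have hnn : (1 : ℝ) ≤ nm n := one_le_nm hnp.ne_zero
    have key := h hP hal hV hδ hg' hE hτ0 hτ hB hBs hnp hX hZ hR
      (Zw := Z) hZ0 hZ1 hZ2 (P := fun g₂ g₃ d => P g₂ g₃ d ∧ DN n g₂ g₃ d)
      (fun g₂ g₃ d hd => ⟨hd.2, (hPp g₂ g₃ d hd.1).2⟩) t
    refine key.trans ?_
    unfold prN
    have h1 : Z / (nm n : ℝ) ^ 3 ≤ Z := div_le_self hZ0 (one_le_pow₀ hnn)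
    have h2 : 0 ≤ (1 + |t|) ^ (2 * J) * (C * Z ^ ε * (1 + Real.log X)) := by positivity
    calc (1 + |t|) ^ (2 * J) * (C * Z ^ ε * (1 + Real.log X)) *
          ((Ax / (nm g' * nm B)) ^ 2 * Mu d0 (g' * B)) *
          (R * min (Real.sqrt (Z / (nm n : ℝ) ^ 3)) (nm (E * M0)) + Z +
            (R * Z) ^ ((2 : ℝ) / 3))
        ≤ (1 + |t|) ^ (2 * J) * (C * Z ^ ε * (1 + Real.log X)) *
          ((Ax / (nm g' * nm B)) ^ 2 * Mu d0 (g' * B)) *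
          (R * min (Real.sqrt Z) (nm (E * M0)) + Z + (R * Z) ^ ((2 : ℝ) / 3)) := by gcongr
      _ = _ := by ring
  refine (Finset.sum_le_sum hterm).trans ?_
  rw [Finset.sum_const, nsmul_eq_mul]
  have hpr := prN_nonneg (Ax := Ax) (d0 := d0) hR hZ0
    (by positivity : (0 : ℝ) ≤ nm (E * M0)) g' B
  have hc : ((dvs ν).card : ℝ) ≤ Ct * (nm ν : ℝ) ^ ε := htau ν hν.ne_zero
  calc ((dvs ν).card : ℝ) * ((1 + |t|) ^ (2 * J) * (C * Z ^ ε * (1 + Real.log X)) *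
        prN R Z Ax d0 (nm (E * M0)) g' B)
      ≤ (Ct * (nm ν : ℝ) ^ ε) * ((1 + |t|) ^ (2 * J) * (C * Z ^ ε * (1 + Real.log X)) *
        prN R Z Ax d0 (nm (E * M0)) g' B) := by gcongr
    _ = _ := by
        rw [Real.mul_rpow hZ0 (by positivity)]
        ring

end Crest.Agent.R017.PrD502
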