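import Crest.Agent.R017.PrD2_502
import Crest.Agent.R017.FlC_502
import Crest.Agent.R017.E2sp_579

/-!
# Row 17, T.7: the principal `d` of the `DD`-moment, part 3 (helper502)

* `b1`, `b2` : the part of `B` dividing `D = E M0`, the generic part; `b2_dvd` : the generic part of
  `B` divides every principal `d`
* `moP_n2`, `moP_dvs2` : the moments with this information
* `prM`, `cell_dual`, `cell_dir`, `GP_le` : the cell sums
-/

set_option autoImplicit false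
set_option linter.unusedVariables false
set_option linter.unusedSectionVars false

noncomputable section

open Complex
open scoped ComplexConjugate

namespace Crest.Agent.R017.PrD502

open Crest.Agent.R012 Crest.Agent.R012.Eis Crest.Agent.R012.GaussLoc283
open Crest.Agent.R012.Mob705 hiding pb mem_pb
open Crest.Agent.R012.Div277
open Crest.Agent.R012.LS2 (S mem_S)
open Crest.Agent.R012.Weight600 (osc norm_osc)
open Crest.Agent.R017.CM106 (sub CS FS)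
open Crest.Agent.R017.H1401 (pb mem_pb DD DN HW WM QQ)
open Crest.Agent.R017.E2440 (cT ag one_le_nm)
open Crest.Agent.R017.MoF106 (MoP)
open Crest.Agent.R017.PoHx72 (Cub dvd_of_sq_dvd_cube)
open Crest.Agent.R017.ExD791 (Mg)
open Crest.Agent.R017.FlC502 (thd thd_nonneg thd_le_one)

/-! ### the generic part of `B` -/

open Classical in
/-- the part of `B` whose primes divide `D` -/
def b1 (D B : Eis) : Eis := ∏ p ∈ (pp B).filter (fun p => p ∣ D), p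

open Classical in
/-- the generic part of `B` -/
def b2 (D B : Eis) : Eis := ∏ p ∈ (pp B).filter (fun p => ¬ p ∣ D), p

lemma b1_mul_b2 (D : Eis) {B : Eis} (hB : IsPrim B) (hs : Squarefree B) : b1 D B * b2 D B = B := by
  classical
  unfold b1 b2
  rw [Finset.prod_filter_mul_prod_filter_not, prod_pp hB hs]

lemma b1_prim (D B : Eis) : IsPrim (b1 D B) := by
  classical
  exact ((ppSet_pp B).subset (Finset.filter_subset _ _)).isPrim_prod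

lemma b2_prim (D B : Eis) : IsPrim (b2 D B) := by
  classical
  exact ((ppSet_pp B).subset (Finset.filter_subset _ _)).isPrim_prod

lemma b2_sqf (D B : Eis) : Squarefree (b2 D B) := by
  classical
  exact ((ppSet_pp B).subset (Finset.filter_subset _ _)).squarefree_prod

lemma b1_dvd (D B : Eis) : b1 D B ∣ D := by
  classical
  refine ((ppSet_pp B).subset (Finset.filter_subset _ _)).prod_dvd.mpr fun p hp => ?_
  exact (Finset.mem_filter.mp hp).2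

lemma one_le_b2 (D B : Eis) : (1 : ℝ) ≤ nm (b2 D B) := one_le_nm (b2_prim D B).ne_zero

lemma nm_b1_b2 (D : Eis) {B : Eis} (hB : IsPrim B) (hs : Squarefree B) :
    (nm (b1 D B) : ℝ) * nm (b2 D B) = nm B := by
  rw [← Nat.cast_mul, ← nm_mul, b1_mul_b2 D hB hs]

lemma no_sq_cube {p w u t : Eis} (hp : Prime p) (hw : ¬ p ∣ w) (hu : u ≠ 0)
    (h : p ^ 2 * w * u ^ 3 = t ^ 3) : False := by
  have h1 : u ^ 3 ∣ t ^ 3 := ⟨p ^ 2 * w, by rw [← h]; ring⟩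
  obtain ⟨s, rfl⟩ := (UniqueFactorizationMonoid.pow_dvd_pow_iff_dvd (n := 3) (by norm_num)).mp h1
  have h2 : p ^ 2 * w = s ^ 3 := by
    apply mul_left_cancel₀ (pow_ne_zero 3 hu)
    linear_combination h
  have h3 : p ∣ s := hp.dvd_of_dvd_pow (n := 3) ⟨p * w, by rw [← h2]; ring⟩
  obtain ⟨r, rfl⟩ := h3
  have h4 : w = p * r ^ 3 := by
    apply mul_left_cancel₀ (pow_ne_zero 2 hp.ne_zero)
    linear_combination h2
  exact hw ⟨r ^ 3, h4⟩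

/-- **the generic part of `B` divides every principal `d`** -/
lemma b2_dvd {Pr : Eis → Prop} {M0 : Eis} (hP : PrK Pr M0) {E B τ m a u : Eis} (hE : E ≠ 0)
    (hB : IsPrim B) (hBs : Squarefree B) (hτ0 : τ ≠ 0)
    (hτ : ∀ p : Eis, Prime p → IsPrim p → ¬ p ∣ τ) (hm : IsPrim m) (ha : IsPrim a)
    (hu : IsPrim u) (h : Squarefree (m * (a * u))) (hp : Pr (m * a ^ 2 * u ^ 3 * (E * τ * B ^ 2))) :
    b2 (E * M0) B ∣ m := by
  classical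
  refine ((ppSet_pp B).subset (Finset.filter_subset _ _)).prod_dvd.mpr fun p hp1 => ?_
  rw [Finset.mem_filter] at hp1
  obtain ⟨hp1, hn⟩ := hp1
  have hpp := isPP_of_mem_pp hp1
  have hpr := hpp.prime
  have hpB := dvd_of_mem_pp hp1
  by_contra hnm
  have hnE : ¬ p ∣ E := fun h' => hn (h'.mul_right _)
  have hnM : ¬ p ∣ M0 := fun h' => hn (h'.mul_left _)
  have hnτ := hτ p hpr hpp.1
  have hna : ¬ p ∣ a := fun h' => hn (h'.trans (dn_div hP hE hB hBs hτ0 hτ hm ha hu h hp))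
  have hk0 : m * a ^ 2 * u ^ 3 * (E * τ * B ^ 2) ≠ 0 :=
    mul_ne_zero ((hm.mul (ha.pow 2)).mul (hu.pow 3)).ne_zero
      (mul_ne_zero (mul_ne_zero hE hτ0) (pow_ne_zero _ hB.ne_zero))
  obtain ⟨s, t, hs0, hst, hsM⟩ := hP.nr _ hk0 hp
  have hns : ¬ p ∣ s := fun h' => hnM (hsM p hpr h')
  obtain ⟨B1, rfl⟩ := hpB
  have hnB1 : ¬ p ∣ B1 := by
    rintro ⟨B2, rfl⟩
    exact hpr.not_isUnit (hBs p ⟨B2, by ring⟩)
  have hw : ¬ p ∣ m * a ^ 2 * (E * τ * B1 ^ 2) * s := by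
    intro h4
    rcases hpr.dvd_or_dvd h4 with h3 | h3
    · rcases hpr.dvd_or_dvd h3 with h4 | h4
      · rcases hpr.dvd_or_dvd h4 with h5 | h5
        · exact hnm h5
        · exact hna (hpr.dvd_of_dvd_pow h5)
      · rcases hpr.dvd_or_dvd h4 with h5 | h5
        · rcases hpr.dvd_or_dvd h5 with h6 | h6
          · exact hnE h6
          · exact hnτ h6
        · exact hnB1 (hpr.dvd_of_dvd_pow h5)
    · exact hns h3
  exact no_sq_cube hpr hw hu.ne_zero (t := t) (by rw [← hst]; ring)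

/-- the sum over `B` with the non-generic part -/
lemma sum_b1 {X : ℝ} (hX : 1 ≤ X) {D : Eis} (hD : D ≠ 0) :
    ∑ B ∈ S X, (nm (b1 D B) : ℝ) ^ ((1 : ℝ) / 3) / nm B ≤ tau D * (100 * (1 + Real.log X)) := by
  classical
  have hX0 : (0 : ℝ) ≤ X := by linarith
  have h1 : ∑ B ∈ S X, (nm (b1 D B) : ℝ) ^ ((1 : ℝ) / 3) / nm B =
      ∑ x ∈ (S X).image (fun B => (b1 D B, b2 D B)),
        (nm x.1 : ℝ) ^ ((1 : ℝ) / 3) / (nm x.1 * nm x.2) := by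
    rw [Finset.sum_image]
    · refine Finset.sum_congr rfl fun B hB => ?_
      obtain ⟨-, h2, h3⟩ := (mem_S hX0).mp hB
      rw [nm_b1_b2 D h2 h3]
    · intro B hB B' hB' he
      obtain ⟨-, h2, h3⟩ := (mem_S hX0).mp (Finset.mem_coe.mp hB)
      obtain ⟨-, h2', h3'⟩ := (mem_S hX0).mp (Finset.mem_coe.mp hB')
      simp only [Prod.mk.injEq] at he
      rw [← b1_mul_b2 D h2 h3, ← b1_mul_b2 D h2' h3', he.1, he.2]
  have h2 : (S X).image (fun B => (b1 D B, b2 D B)) ⊆ dvs D ×ˢ S X := by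
    intro x hx
    obtain ⟨B, hB, rfl⟩ := Finset.mem_image.mp hx
    obtain ⟨h1, h2, h3⟩ := (mem_S hX0).mp hB
    rw [Finset.mem_product, mem_dvs hD, mem_S hX0]
    refine ⟨⟨b1_prim D B, b1_dvd D B⟩, ?_, b2_prim D B, b2_sqf D B⟩
    have h4 : (nm (b2 D B) : ℝ) ≤ nm B := by
      rw [← nm_b1_b2 D h2 h3]
      have := one_le_nm (b1_prim D B).ne_zero
      nlinarith [one_le_b2 D B]
    linarith
  rw [h1]
  refine (Finset.sum_le_sum_of_subset_of_nonneg h2 fun _ _ _ => by positivity).trans ?_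
  rw [Finset.sum_product]
  have h3 : ∀ x ∈ dvs D, ∑ y ∈ S X, (nm x : ℝ) ^ ((1 : ℝ) / 3) / (nm x * nm y) ≤
      100 * (1 + Real.log X) := by
    intro x hx
    have hx1 : (1 : ℝ) ≤ nm x := one_le_nm ((mem_dvs hD).mp hx).1.ne_zero
    have e1 : ∀ y ∈ S X, (nm x : ℝ) ^ ((1 : ℝ) / 3) / (nm x * nm y) ≤ 1 / (nm y : ℝ) := by
      intro y hy
      have hy1 : (1 : ℝ) ≤ nm y := one_le_nm ((mem_S hX0).mp hy).2.1.ne_zero
      rw [div_le_div_iff₀ (by positivity) (by positivity), one_mul]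
      refine mul_le_mul_of_nonneg_right ?_ (by positivity)
      calc (nm x : ℝ) ^ ((1 : ℝ) / 3) ≤ (nm x : ℝ) ^ (1 : ℝ) :=
            Real.rpow_le_rpow_of_exponent_le hx1 (by norm_num)
        _ = nm x := Real.rpow_one _
    exact (Finset.sum_le_sum e1).trans (E2440.sum_inv_S hX)
  refine (Finset.sum_le_sum h3).trans (le_of_eq ?_)
  rw [Finset.sum_const, nsmul_eq_mul]
  rfl

set_option maxHeartbeats 1000000 in
open Classical in
/-- **one `n`**, with the generic part of `B` -/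
theorem moP_n2 {ε : ℝ} (hε : 0 < ε) : ∃ C : ℝ, 1 ≤ C ∧ ∀ {Pr : Eis → Prop} {M0 : Eis},
    PrK Pr M0 → ∀ {J : ℕ} {Ax d0 Zp : ℝ} {al : Eis → ℂ}, FS al → PV Pr J Ax d0 Zp al →
    ∀ {δ g' E B τ n : Eis}, IsPrim δ → IsPrim g' → E ≠ 0 → τ ≠ 0 →
    (∀ p : Eis, Prime p → IsPrim p → ¬ p ∣ τ) → IsPrim B → Squarefree B → IsPrim n →
    ∀ {X Z R Zw : ℝ}, 1 ≤ X → 1 ≤ Z → 0 ≤ R → 0 ≤ Zw → (nm g' : ℝ) * nm B * (X * X) ≤ Zp →
    Z * nm (E * τ * B ^ 2) * (nm δ : ℝ) ^ 3 ≤ Zp → ∀ {P : Eis → Eis → Eis → Prop},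
    (∀ g₂ g₃ d, P g₂ g₃ d → DN n g₂ g₃ d ∧ Pr (d * (E * τ * B ^ 2))) → ∀ t : ℝ,
    MoP (ag al δ g') E B τ X t Z (WM R Zw) P ≤
      (1 + |t|) ^ (2 * J) * (C * Z ^ ε * (1 + Real.log X)) *
        ((Ax / (nm g' * nm B)) ^ 2 * Mu d0 (g' * B)) *
        (if (nm (b2 (E * M0) B) : ℝ) ≤ Z / (nm n : ℝ) ^ 3 then
          (R * min (Real.sqrt (Z / (nm n : ℝ) ^ 3 / nm (b2 (E * M0) B))) (nm (E * M0)) + Zw +
            (R * Zw) ^ ((2 : ℝ) / 3)) else 0) := by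
  obtain ⟨Ct, hCt, htau⟩ := tau_le_rpow hε
  refine ⟨Ct * 100, by linarith, ?_⟩
  intro Pr M0 hP J Ax d0 Zp al hal hV δ g' E B τ n hδ hg' hE hτ0 hτ hB hBs hn X Z R Zw hX hZ hR
    hZw hZ1 hZ2 P hPp t
  have hX0 : (0 : ℝ) ≤ X := by linarith
  have hZ0 : (0 : ℝ) ≤ Z := by linarith
  have hnn : (1 : ℝ) ≤ nm n := one_le_nm hn.ne_zero
  have hng : (1 : ℝ) ≤ nm g' := one_le_nm hg'.ne_zero
  have hnB : (1 : ℝ) ≤ nm B := one_le_nm hB.ne_zero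
  have hlog : 0 ≤ Real.log X := Real.log_nonneg hX
  set Z' : ℝ := Z / (nm n : ℝ) ^ 3 with hZ'
  have hZ'0 : 0 ≤ Z' := by positivity
  set U : ℝ := (1 + |t|) ^ (2 * J) * ((Ax / (nm g' * nm B)) ^ 2 * Mu d0 (g' * B)) with hU
  have hU0 : 0 ≤ U := by
    have := Mu_nonneg d0 (g' * B)
    positivity
  set bb : ℝ := (nm (b2 (E * M0) B) : ℝ) with hbb
  have hbb1 : 1 ≤ bb := one_le_b2 _ _
  set Q : ℝ := R * min (Real.sqrt (Z' / bb)) (nm (E * M0)) + Zw + (R * Zw) ^ ((2 : ℝ) / 3) with hQ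
  have hQ0 : 0 ≤ Q := by positivity
  have hRHS : (1 + |t|) ^ (2 * J) * (Ct * 100 * Z ^ ε * (1 + Real.log X)) *
        ((Ax / (nm g' * nm B)) ^ 2 * Mu d0 (g' * B)) * (if bb ≤ Z' then Q else 0) =
      U * ((Ct * Z ^ ε) * (100 * (1 + Real.log X)) * (if bb ≤ Z' then Q else 0)) := by
    rw [hU]; ring
  rw [hRHS]
  have hmin0 : 0 ≤ min (Real.sqrt (Z' / bb)) (nm (E * M0)) := by positivity
  by_cases hex : ∃ g₂ ∈ S X, ∃ g₃ ∈ S X, ∃ d, d ∈ (pb Z).filter (P g₂ g₃)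
  swap
  · have h0 : MoP (ag al δ g') E B τ X t Z (WM R Zw) P = 0 := by
      unfold MoF106.MoP
      refine Finset.sum_eq_zero fun g₂ h2 => Finset.sum_eq_zero fun g₃ h3 => ?_
      have : (pb Z).filter (P g₂ g₃) = ∅ := by
        rw [Finset.eq_empty_iff_forall_notMem]
        exact fun d hd => hex ⟨g₂, h2, g₃, h3, d, hd⟩
      rw [this, Finset.sum_empty, mul_zero]
    rw [h0]
    split_ifs
    · positivity
    · rw [mul_zero, mul_zero]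
  obtain ⟨x2, hx2, x3, hx3, d1, hd1⟩ := hex
  rw [Finset.mem_filter, mem_pb hZ0] at hd1
  obtain ⟨⟨hd1Z, hd1p⟩, hd1P⟩ := hd1
  obtain ⟨⟨z1, m1, hz1, hm1, hs1, hd1e⟩, hd1Pr⟩ := hPp _ _ _ hd1P
  obtain ⟨hx2X, hx2p, hx2s⟩ := (mem_S hX0).mp hx2
  obtain ⟨hx3X, hx3p, hx3s⟩ := (mem_S hX0).mp hx3
  have hc : E * τ * B ^ 2 ≠ 0 := mul_ne_zero (mul_ne_zero hE hτ0) (pow_ne_zero _ hB.ne_zero)
  set a0 : Eis := x2 * z1 with ha0
  have ha0p : IsPrim a0 := hx2p.mul hz1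
  have hform : ∀ {y2 y3 z m : Eis}, Squarefree (m * (y2 * ((y3 * n) * z))) →
      Squarefree (m * ((y2 * z) * (y3 * n))) ∧
      QQ n y2 y3 z m = m * (y2 * z) ^ 2 * (y3 * n) ^ 3 := by
    intro y2 y3 z m h
    refine ⟨?_, by unfold H1401.QQ; ring⟩
    have e : m * (y2 * z * (y3 * n)) = m * (y2 * ((y3 * n) * z)) := by ring
    rw [e]; exact h
  obtain ⟨hs1', hd1e'⟩ := hform hs1
  rw [hd1e'] at hd1e
  have hs1a : Squarefree (m1 * a0) := by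
    refine hs1'.squarefree_of_dvd ⟨x3 * n, by rw [ha0]; ring⟩
  have hd1Pr' : Pr (m1 * a0 ^ 2 * (x3 * n) ^ 3 * (E * τ * B ^ 2)) := by
    rw [← hd1e]; exact hd1Pr
  -- the square part
  have ha0d : a0 ∣ E * M0 := dn_div hP hE hB hBs hτ0 hτ hm1 ha0p (hx3p.mul hn) hs1' hd1Pr'
  have ha0n : (nm a0 : ℝ) ≤ nm (E * M0) := by
    exact_mod_cast nm_le_of_dvd (mul_ne_zero hE hP.m0) ha0d
  have hbm : bb ≤ nm m1 := by
    rw [hbb]
    exact_mod_cast nm_le_of_dvd hm1.ne_zero (b2_dvd hP hE hB hBs hτ0 hτ hm1 ha0p (hx3p.mul hn)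
      hs1' hd1Pr')
  have ha01 : (1 : ℝ) ≤ nm a0 := one_le_nm ha0p.ne_zero
  have ha0Z : bb * (nm a0 : ℝ) ^ 2 ≤ Z' := by
    rw [hZ', le_div_iff₀ (by positivity)]
    have e1 : (nm d1 : ℝ) = nm m1 * (nm a0 : ℝ) ^ 2 * ((nm x3 : ℝ) * nm n) ^ 3 := by
      rw [hd1e, nm_mul, nm_mul, nm_pow, nm_pow, nm_mul x3 n]
      push_cast
      ring
    have h2 : (1 : ℝ) ≤ nm x3 := one_le_nm hx3p.ne_zero
    calc bb * (nm a0 : ℝ) ^ 2 * (nm n : ℝ) ^ 3 = bb * (nm a0 : ℝ) ^ 2 * (1 * (nm n : ℝ)) ^ 3 := by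
          ring
      _ ≤ nm m1 * (nm a0 : ℝ) ^ 2 * ((nm x3 : ℝ) * nm n) ^ 3 := by gcongr
      _ = nm d1 := e1.symm
      _ ≤ Z := hd1Z
  have hbZ : bb ≤ Z' := by nlinarith [one_le_pow₀ (n := 2) ha01]
  rw [if_pos hbZ]
  have ha0s : (nm a0 : ℝ) ≤ Real.sqrt (Z' / bb) := by
    apply Real.le_sqrt_of_sq_le
    rw [le_div_iff₀ (by linarith), mul_comm]
    exact ha0Z
  have hta0 : (tau a0 : ℝ) ≤ Ct * Z ^ ε := by
    refine (htau a0 ha0p.ne_zero).trans ?_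
    have h1 : (1 : ℝ) ≤ nm a0 := one_le_nm ha0p.ne_zero
    have h2 : (nm a0 : ℝ) ≤ Z := by
      have h3 : (nm a0 : ℝ) ≤ (nm a0 : ℝ) ^ 2 := by nlinarith
      have h4 : Z' ≤ Z := div_le_self hZ0 (one_le_pow₀ hnn)
      have h5 : (nm a0 : ℝ) ^ 2 ≤ bb * (nm a0 : ℝ) ^ 2 := le_mul_of_one_le_left (by positivity) hbb1
      linarith
    gcongr
  -- the inner sums
  set b : Eis → Eis → ℝ := fun g₂ g₃ =>
    if g₂ ∣ a0 then U * ((nm g₂ : ℝ) * nm g₃)⁻¹ else 0 with hb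
  have hin : ∀ g₂ ∈ S X, ∀ g₃ ∈ S X, ∑ d ∈ (pb Z).filter (P g₂ g₃),
      ‖CS (sub (cT (ag al δ g') E B τ t) (g₂ * g₃)) d‖ ^ 2 ≤ b g₂ g₃ := by
    intro g₂ h2 g₃ h3
    obtain ⟨h2X, h2p, h2s⟩ := (mem_S hX0).mp h2
    obtain ⟨h3X, h3p, h3s⟩ := (mem_S hX0).mp h3
    have hb0 : 0 ≤ b g₂ g₃ := by
      simp only [hb]
      split_ifs
      · positivity
      · exact le_rfl
    -- every member is the same element
    have huniq : ∀ d ∈ (pb Z).filter (P g₂ g₃), d = m1 * a0 ^ 2 * (g₃ * n) ^ 3 ∧ g₂ ∣ a0 ∧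
        ‖CS (sub (cT (ag al δ g') E B τ t) (g₂ * g₃)) d‖ ^ 2 ≤ b g₂ g₃ := by
      intro d hd
      rw [Finset.mem_filter, mem_pb hZ0] at hd
      obtain ⟨⟨hdZ, hdp⟩, hdP⟩ := hd
      obtain ⟨⟨z, m, hz, hm, hs, hde⟩, hdPr⟩ := hPp _ _ _ hdP
      obtain ⟨hs', hde'⟩ := hform hs
      rw [hde'] at hde
      have hsa : Squarefree (m * (g₂ * z)) :=
        hs'.squarefree_of_dvd ⟨g₃ * n, by ring⟩
      have hdPr' : Pr (m * (g₂ * z) ^ 2 * (g₃ * n) ^ 3 * (E * τ * B ^ 2)) := by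
        rw [← hde]; exact hdPr
      obtain ⟨k1, k2⟩ := kern_unique hP.cub hc hm (h2p.mul hz) (h3p.mul hn) hm1 ha0p
        (hx3p.mul hn) hsa hs1a hdPr' hd1Pr'
      have hga : g₂ ∣ a0 := by rw [← k2]; exact dvd_mul_right _ _
      refine ⟨by rw [hde, k1], hga, ?_⟩
      simp only [hb]
      rw [if_pos hga]
      have hn2 : (1 : ℝ) ≤ nm g₂ := one_le_nm h2p.ne_zero
      have hn3 : (1 : ℝ) ≤ nm g₃ := one_le_nm h3p.ne_zero
      have hcs := cs_le hP hal hV hδ hg' hE hτ0 hB (h2p.mul h3p) hdp hdPr (by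
        rw [nm_mul, nm_mul, nm_mul g₂ g₃]
        push_cast
        calc (nm g' : ℝ) * nm B * ((nm g₂ : ℝ) * nm g₃) ≤ (nm g' : ℝ) * nm B * (X * X) := by gcongr
          _ ≤ Zp := hZ1) (by
        rw [nm_mul, nm_mul, nm_pow]
        push_cast
        calc (nm d : ℝ) * nm (E * τ * B ^ 2) * (nm δ : ℝ) ^ 3
            ≤ Z * nm (E * τ * B ^ 2) * (nm δ : ℝ) ^ 3 := by gcongr
          _ ≤ Zp := hZ2) t
      have e1 : ((1 + |t|) ^ J * (Ax / nm (g' * B * (g₂ * g₃)) * Mg d0 (g' * B * (g₂ * g₃)))) ^ 2 =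
          (1 + |t|) ^ (2 * J) * ((Ax / nm (g' * B * (g₂ * g₃))) ^ 2 *
            Mu d0 (g' * B * (g₂ * g₃))) := by
        rw [← Mg_sq]; ring
      refine (pow_le_pow_left₀ (norm_nonneg _) hcs 2).trans ?_
      rw [e1]
      have hgg : g₂ * g₃ ≠ 0 := (h2p.mul h3p).ne_zero
      have e2 : (nm (g' * B * (g₂ * g₃)) : ℝ) = (nm g' * nm B) * ((nm g₂ : ℝ) * nm g₃) := by
        rw [nm_mul, nm_mul, nm_mul g₂ g₃]
        push_cast
        ring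
      have h5 := Mu_mul d0 (x := g' * B) hgg
      have e3 : (nm (g₂ * g₃) : ℝ) = (nm g₂ : ℝ) * nm g₃ := by rw [nm_mul]; push_cast; ring
      rw [e3] at h5
      rw [e2, hU]
      have hMu := Mu_nonneg d0 (g' * B)
      calc (1 + |t|) ^ (2 * J) * ((Ax / ((nm g' * nm B) * ((nm g₂ : ℝ) * nm g₃))) ^ 2 *
            Mu d0 (g' * B * (g₂ * g₃)))
          ≤ (1 + |t|) ^ (2 * J) * ((Ax / ((nm g' * nm B) * ((nm g₂ : ℝ) * nm g₃))) ^ 2 *
            ((nm g₂ : ℝ) * nm g₃ * Mu d0 (g' * B))) := by gcongr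
        _ = _ := by
          field_simp
    rcases ((pb Z).filter (P g₂ g₃)).eq_empty_or_nonempty with he | ⟨d, hd⟩
    · rw [he, Finset.sum_empty]; exact hb0
    · obtain ⟨e1, e2, e3⟩ := huniq d hd
      have hsub : (pb Z).filter (P g₂ g₃) = {d} := by
        rw [Finset.eq_singleton_iff_unique_mem]
        exact ⟨hd, fun x hx => by rw [(huniq x hx).1, e1]⟩
      rw [hsub, Finset.sum_singleton]
      exact e3
  -- the outer sums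
  have hW0 : ∀ g₂ g₃, 0 ≤ WM R Zw g₂ g₃ := fun g₂ g₃ => H1401.WM_nonneg hR hZw g₂ g₃
  have hmain : MoP (ag al δ g') E B τ X t Z (WM R Zw) P ≤
      ∑ g₂ ∈ S X, ∑ g₃ ∈ S X, WM R Zw g₂ g₃ * b g₂ g₃ := by
    unfold MoF106.MoP
    exact Finset.sum_le_sum fun g₂ h2 => Finset.sum_le_sum fun g₃ h3 =>
      mul_le_mul_of_nonneg_left (hin g₂ h2 g₃ h3) (hW0 _ _)
  refine hmain.trans ?_
  have hrow : ∀ g₂ ∈ S X, ∑ g₃ ∈ S X, WM R Zw g₂ g₃ * b g₂ g₃ ≤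
      if g₂ ∣ a0 then U * ((100 * (1 + Real.log X)) * Q) else 0 := by
    intro g₂ h2
    obtain ⟨h2X, h2p, h2s⟩ := (mem_S hX0).mp h2
    by_cases hga : g₂ ∣ a0
    · rw [if_pos hga]
      have hn2 : (nm g₂ : ℝ) ≤ min (Real.sqrt (Z' / bb)) (nm (E * M0)) := by
        have h4 : (nm g₂ : ℝ) ≤ nm a0 := by exact_mod_cast nm_le_of_dvd ha0p.ne_zero hga
        exact le_min (h4.trans ha0s) (h4.trans ha0n)
      calc ∑ g₃ ∈ S X, WM R Zw g₂ g₃ * b g₂ g₃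
          ≤ ∑ g₃ ∈ S X, (1 / (nm g₃ : ℝ)) * (U * Q) := by
            refine Finset.sum_le_sum fun g₃ h3 => ?_
            obtain ⟨h3X, h3p, h3s⟩ := (mem_S hX0).mp h3
            simp only [hb]
            rw [if_pos hga]
            have h5 := W_le hR hZw h2p.ne_zero h3p.ne_zero
            calc WM R Zw g₂ g₃ * (U * ((nm g₂ : ℝ) * nm g₃)⁻¹)
                = U * (WM R Zw g₂ g₃ * ((nm g₂ : ℝ) * nm g₃)⁻¹) := by ring
              _ ≤ U * ((1 / (nm g₃ : ℝ)) * (nm g₂ * R + Zw + (R * Zw) ^ ((2 : ℝ) / 3))) :=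
                  mul_le_mul_of_nonneg_left h5 hU0
              _ ≤ U * ((1 / (nm g₃ : ℝ)) * (min (Real.sqrt (Z' / bb)) (nm (E * M0)) * R + Zw +
                  (R * Zw) ^ ((2 : ℝ) / 3))) := by gcongr
              _ = _ := by rw [hQ]; ring
        _ = (∑ g₃ ∈ S X, (1 / (nm g₃ : ℝ))) * (U * Q) := by rw [Finset.sum_mul]
        _ ≤ (100 * (1 + Real.log X)) * (U * Q) := by
            refine mul_le_mul_of_nonneg_right (E2440.sum_inv_S hX) (by positivity)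
        _ = _ := by ring
    · rw [if_neg hga]
      refine le_of_eq (Finset.sum_eq_zero fun g₃ _ => ?_)
      simp only [hb]
      rw [if_neg hga, mul_zero]
  refine (Finset.sum_le_sum hrow).trans ?_
  rw [← Finset.sum_filter, Finset.sum_const, nsmul_eq_mul]
  have hcard : (((S X).filter (fun g₂ => g₂ ∣ a0)).card : ℝ) ≤ Ct * Z ^ ε := by
    refine le_trans ?_ hta0
    unfold Div277.tau
    norm_cast
    refine Finset.card_le_card fun x hx => ?_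
    rw [Finset.mem_filter, mem_S hX0] at hx
    rw [mem_dvs ha0p.ne_zero]
    exact ⟨hx.1.2.1, hx.2⟩
  calc (((S X).filter (fun g₂ => g₂ ∣ a0)).card : ℝ) * (U * ((100 * (1 + Real.log X)) * Q))
      ≤ (Ct * Z ^ ε) * (U * ((100 * (1 + Real.log X)) * Q)) := by gcongr
    _ = _ := by ring

/-- the number at `(Z, B)`, `b` = the norm of the generic part of `B` -/
def prM (R Z Ax d0 L b : ℝ) (g' B : Eis) : ℝ := by
  classical
  exact ((Ax / (nm g' * nm B)) ^ 2 * Mu d0 (g' * B)) *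
    (if b ≤ Z then R * min (Real.sqrt (Z / b)) L + Z + (R * Z) ^ ((2 : ℝ) / 3) else 0)

lemma prM_nonneg {R Z Ax d0 L b : ℝ} (hR : 0 ≤ R) (hZ : 0 ≤ Z) (hL : 0 ≤ L) (g' B : Eis) :
    0 ≤ prM R Z Ax d0 L b g' B := by
  have := Mu_nonneg d0 (g' * B)
  unfold prM
  split_ifs
  · positivity
  · rw [mul_zero]

set_option maxHeartbeats 1000000 in
open Classical in
/-- **the sum over `n ∣ ν`** (401's `H1v`) -/
theorem moP_dvs2 {ε : ℝ} (hε : 0 < ε) : ∃ C : ℝ, 1 ≤ C ∧ ∀ {Pr : Eis → Prop} {M0 : Eis},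
    PrK Pr M0 → ∀ {J : ℕ} {Ax d0 Zp : ℝ} {al : Eis → ℂ}, FS al → PV Pr J Ax d0 Zp al →
    ∀ {δ g' E B τ ν : Eis}, IsPrim δ → IsPrim g' → E ≠ 0 → τ ≠ 0 →
    (∀ p : Eis, Prime p → IsPrim p → ¬ p ∣ τ) → IsPrim B → Squarefree B → IsPrim ν →
    ∀ {X Z R : ℝ}, 1 ≤ X → 1 ≤ Z → 0 ≤ R → (nm g' : ℝ) * nm B * (X * X) ≤ Zp →
    Z * nm (E * τ * B ^ 2) * (nm δ : ℝ) ^ 3 ≤ Zp → ∀ {P : Eis → Eis → Eis → Eis → Prop},
    (∀ n g₂ g₃ d, n ∣ ν → P n g₂ g₃ d → DN n g₂ g₃ d ∧ Pr (d * (E * τ * B ^ 2))) → ∀ t : ℝ,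
    ∑ n ∈ dvs ν, (nm n : ℝ) *
        MoP (ag al δ g') E B τ X t Z (WM R (Z / (nm n : ℝ) ^ 3)) (P n) ≤
      (1 + |t|) ^ (2 * J) * (C * (Z * nm ν) ^ ε * (1 + Real.log X)) *
        prM R Z Ax d0 (nm (E * M0) * nm ν) (nm (b2 (E * M0) B)) g' B := by
  obtain ⟨C, hC, h⟩ := moP_n2 hε
  obtain ⟨Ct, hCt, htau⟩ := tau_le_rpow hε
  refine ⟨C * Ct, one_le_mul_of_one_le_of_one_le hC hCt, ?_⟩
  intro Pr M0 hP J Ax d0 Zp al hal hV δ g' E B τ ν hδ hg' hE hτ0 hτ hB hBs hν X Z R hX hZ hR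
    hZ1 hZ2 P hPp t
  have hX0 : (0 : ℝ) ≤ X := by linarith
  have hZ0 : (0 : ℝ) ≤ Z := by linarith
  have hlog : 0 ≤ Real.log X := Real.log_nonneg hX
  have hnν : (1 : ℝ) ≤ nm ν := one_le_nm hν.ne_zero
  have hMu := Mu_nonneg d0 (g' * B)
  set bb : ℝ := (nm (b2 (E * M0) B) : ℝ) with hbb
  have hbb1 : 1 ≤ bb := one_le_b2 _ _
  have hterm : ∀ n ∈ dvs ν, (nm n : ℝ) *
      MoP (ag al δ g') E B τ X t Z (WM R (Z / (nm n : ℝ) ^ 3)) (P n) ≤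
      (1 + |t|) ^ (2 * J) * (C * Z ^ ε * (1 + Real.log X)) *
        prM R Z Ax d0 (nm (E * M0) * nm ν) bb g' B := by
    intro n hn
    obtain ⟨hnp, hnd⟩ := (mem_dvs hν.ne_zero).mp hn
    have hnn : (1 : ℝ) ≤ nm n := one_le_nm hnp.ne_zero
    have hnn0 : (0 : ℝ) < nm n := by linarith
    have hnle : (nm n : ℝ) ≤ nm ν := by exact_mod_cast nm_le_of_dvd hν.ne_zero hnd
    have key := h hP hal hV hδ hg' hE hτ0 hτ hB hBs hnp hX hZ hR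
      (Zw := Z / (nm n : ℝ) ^ 3) (by positivity) hZ1 hZ2 (P := P n)
      (fun g₂ g₃ d hd => hPp n g₂ g₃ d hnd hd) t
    set U : ℝ := (1 + |t|) ^ (2 * J) * (C * Z ^ ε * (1 + Real.log X)) with hU
    have hU0 : 0 ≤ U := by positivity
    have hV0 : 0 ≤ (Ax / (nm g' * nm B)) ^ 2 * Mu d0 (g' * B) := by positivity
    by_cases hbZ : bb ≤ Z / (nm n : ℝ) ^ 3
    swap
    · rw [if_neg hbZ, mul_zero] at key
      calc (nm n : ℝ) * MoP (ag al δ g') E B τ X t Z (WM R (Z / (nm n : ℝ) ^ 3)) (P n)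
          ≤ (nm n : ℝ) * 0 := mul_le_mul_of_nonneg_left key hnn0.le
        _ ≤ _ := by
            rw [mul_zero]
            exact mul_nonneg hU0 (prM_nonneg hR hZ0 (by positivity) _ _)
    rw [if_pos hbZ] at key
    have hbZ' : bb ≤ Z := hbZ.trans (div_le_self hZ0 (one_le_pow₀ hnn))
    have h1 : (nm n : ℝ) * min (Real.sqrt (Z / (nm n : ℝ) ^ 3 / bb)) (nm (E * M0)) ≤
        min (Real.sqrt (Z / bb)) (nm (E * M0) * nm ν) := by
      rw [mul_min_of_nonneg _ _ hnn0.le]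
      refine min_le_min ?_ ?_
      · apply Real.le_sqrt_of_sq_le
        rw [mul_pow, Real.sq_sqrt (by positivity)]
        have e1 : (nm n : ℝ) ^ 2 * (Z / (nm n : ℝ) ^ 3 / bb) = Z / bb / nm n := by field_simp
        rw [e1]
        exact div_le_self (by positivity) hnn
      · rw [mul_comm]
        gcongr
    have h2 : (nm n : ℝ) * (Z / (nm n : ℝ) ^ 3) ≤ Z := by
      have e1 : (nm n : ℝ) * (Z / (nm n : ℝ) ^ 3) = Z / (nm n : ℝ) ^ 2 := by field_simp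
      rw [e1]
      exact div_le_self hZ0 (one_le_pow₀ hnn)
    have h3 : (nm n : ℝ) * (R * (Z / (nm n : ℝ) ^ 3)) ^ ((2 : ℝ) / 3) ≤
        (R * Z) ^ ((2 : ℝ) / 3) := by
      have e1 : R * (Z / (nm n : ℝ) ^ 3) = (R * Z) / (nm n : ℝ) ^ 3 := by ring
      have e2 : ((nm n : ℝ) ^ 3) ^ ((2 : ℝ) / 3) = (nm n : ℝ) ^ 2 := by
        rw [← Real.rpow_natCast, ← Real.rpow_mul hnn0.le, ← Real.rpow_natCast]
        norm_num
      rw [e1, Real.div_rpow (by positivity) (by positivity), e2]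
      have e3 : (nm n : ℝ) * ((R * Z) ^ ((2 : ℝ) / 3) / (nm n : ℝ) ^ 2) =
          (R * Z) ^ ((2 : ℝ) / 3) / nm n := by field_simp
      rw [e3]
      exact div_le_self (by positivity) hnn
    calc (nm n : ℝ) * MoP (ag al δ g') E B τ X t Z (WM R (Z / (nm n : ℝ) ^ 3)) (P n)
        ≤ (nm n : ℝ) * (U * ((Ax / (nm g' * nm B)) ^ 2 * Mu d0 (g' * B)) *
          (R * min (Real.sqrt (Z / (nm n : ℝ) ^ 3 / bb)) (nm (E * M0)) + Z / (nm n : ℝ) ^ 3 +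
            (R * (Z / (nm n : ℝ) ^ 3)) ^ ((2 : ℝ) / 3))) :=
          mul_le_mul_of_nonneg_left key hnn0.le
      _ = U * (((Ax / (nm g' * nm B)) ^ 2 * Mu d0 (g' * B)) *
          (R * ((nm n : ℝ) * min (Real.sqrt (Z / (nm n : ℝ) ^ 3 / bb)) (nm (E * M0))) +
            (nm n : ℝ) * (Z / (nm n : ℝ) ^ 3) +
            (nm n : ℝ) * (R * (Z / (nm n : ℝ) ^ 3)) ^ ((2 : ℝ) / 3))) := by ring
      _ ≤ U * (((Ax / (nm g' * nm B)) ^ 2 * Mu d0 (g' * B)) *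
          (R * min (Real.sqrt (Z / bb)) (nm (E * M0) * nm ν) + Z + (R * Z) ^ ((2 : ℝ) / 3))) := by
          gcongr
      _ = _ := by
          unfold prM
          rw [if_pos hbZ']
  refine (Finset.sum_le_sum hterm).trans ?_
  rw [Finset.sum_const, nsmul_eq_mul]
  have hpr := prM_nonneg (Ax := Ax) (d0 := d0) (b := bb) hR hZ0
    (by positivity : (0 : ℝ) ≤ nm (E * M0) * nm ν) g' B
  have hc : ((dvs ν).card : ℝ) ≤ Ct * (nm ν : ℝ) ^ ε := htau ν hν.ne_zero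
  calc ((dvs ν).card : ℝ) * ((1 + |t|) ^ (2 * J) * (C * Z ^ ε * (1 + Real.log X)) *
        prM R Z Ax d0 (nm (E * M0) * nm ν) (nm (b2 (E * M0) B)) g' B)
      ≤ (Ct * (nm ν : ℝ) ^ ε) * ((1 + |t|) ^ (2 * J) * (C * Z ^ ε * (1 + Real.log X)) *
        prM R Z Ax d0 (nm (E * M0) * nm ν) (nm (b2 (E * M0) B)) g' B) := by gcongr
    _ = _ := by
        rw [Real.mul_rpow hZ0 (by positivity)]
        ring

/-! ### the cells -/

lemma min_interp {x y : ℝ} (hx : 0 ≤ x) (hy : 0 ≤ y) :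
    min (Real.sqrt x) y ≤ x ^ ((1 : ℝ) / 3) * y ^ ((1 : ℝ) / 3) := by
  set m := min (Real.sqrt x) y with hm
  have hm0 : 0 ≤ m := le_min (Real.sqrt_nonneg _) hy
  have e1 : x ^ ((1 : ℝ) / 3) = (Real.sqrt x) ^ ((2 : ℝ) / 3) := by
    rw [Real.sqrt_eq_rpow, ← Real.rpow_mul hx]
    norm_num
  rw [e1]
  have e2 : m = m ^ ((2 : ℝ) / 3) * m ^ ((1 : ℝ) / 3) := by
    rcases hm0.eq_or_lt with h0 | h0
    · rw [← h0, Real.zero_rpow (by norm_num), zero_mul]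
    · rw [← Real.rpow_add h0]
      norm_num
  rw [e2]
  exact mul_le_mul (Real.rpow_le_rpow hm0 (min_le_left _ _) (by norm_num))
    (Real.rpow_le_rpow hm0 (min_le_right _ _) (by norm_num)) (by positivity) (by positivity)

/-- **one cell** -/
lemma cell_le {R Z L b q th : ℝ} (hR : 0 ≤ R) (hZ : 1 ≤ Z) (hL : 0 ≤ L) (hb : 1 ≤ b)
    (hq : 0 ≤ q) (h0 : 0 ≤ th) (h1 : th ≤ 1) (h2 : th ≤ (q * Z) ^ ((1 : ℝ) / 3)) (Y : Prop)
    [Decidable Y] :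
    th ^ 2 * ((2 / Z) * (if Y then R * min (Real.sqrt (Z / b)) L + Z + (R * Z) ^ ((2 : ℝ) / 3)
      else 0)) ≤
      2 * (1 + R ^ ((2 : ℝ) / 3) * min 1 (q ^ ((1 : ℝ) / 3)) +
        R * min 1 (L ^ ((1 : ℝ) / 3) * b ^ (-(1 / 3) : ℝ) * q ^ ((2 : ℝ) / 3))) := by
  have hZ0 : 0 < Z := by linarith
  have hb0 : 0 < b := by linarith
  have hrhs : 0 ≤ 2 * (1 + R ^ ((2 : ℝ) / 3) * min 1 (q ^ ((1 : ℝ) / 3)) +
        R * min 1 (L ^ ((1 : ℝ) / 3) * b ^ (-(1 / 3) : ℝ) * q ^ ((2 : ℝ) / 3))) := by positivity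
  split_ifs
  swap
  · rw [mul_zero, mul_zero]; exact hrhs
  have hth1 : th ^ 2 ≤ 1 := pow_le_one₀ h0 h1
  have hth2 : th ^ 2 ≤ q ^ ((1 : ℝ) / 3) * Z ^ ((1 : ℝ) / 3) := by
    calc th ^ 2 = th * th := by ring
      _ ≤ (q * Z) ^ ((1 : ℝ) / 3) * 1 := mul_le_mul h2 h1 h0 (by positivity)
      _ = _ := by rw [mul_one, Real.mul_rpow hq hZ0.le]
  have hth3 : th ^ 2 ≤ q ^ ((2 : ℝ) / 3) * Z ^ ((2 : ℝ) / 3) := by
    calc th ^ 2 ≤ ((q * Z) ^ ((1 : ℝ) / 3)) ^ 2 := pow_le_pow_left₀ h0 h2 2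
      _ = (q * Z) ^ ((2 : ℝ) / 3) := by
          rw [← Real.rpow_natCast, ← Real.rpow_mul (by positivity)]; norm_num
      _ = _ := Real.mul_rpow hq hZ0.le
  -- the three terms
  have t3 : th ^ 2 * ((R * Z) ^ ((2 : ℝ) / 3) / Z) ≤
      R ^ ((2 : ℝ) / 3) * min 1 (q ^ ((1 : ℝ) / 3)) := by
    have e1 : (R * Z) ^ ((2 : ℝ) / 3) / Z = R ^ ((2 : ℝ) / 3) * Z ^ (-(1 / 3) : ℝ) := by
      rw [Real.mul_rpow hR hZ0.le, mul_div_assoc]
      congr 1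
      rw [div_eq_iff hZ0.ne', ← Real.rpow_add_one hZ0.ne']
      norm_num
    rw [e1, mul_left_comm]
    refine mul_le_mul_of_nonneg_left (le_min ?_ ?_) (by positivity)
    · exact mul_le_one₀ hth1 (by positivity)
        (Real.rpow_le_one_of_one_le_of_nonpos hZ (by norm_num))
    · calc th ^ 2 * Z ^ (-(1 / 3) : ℝ) ≤
            (q ^ ((1 : ℝ) / 3) * Z ^ ((1 : ℝ) / 3)) * Z ^ (-(1 / 3) : ℝ) :=
            mul_le_mul_of_nonneg_right hth2 (by positivity)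
        _ = q ^ ((1 : ℝ) / 3) * (Z ^ ((1 : ℝ) / 3) * Z ^ (-(1 / 3) : ℝ)) := by ring
        _ = q ^ ((1 : ℝ) / 3) := by
            rw [← Real.rpow_add hZ0]; norm_num
  have t1 : th ^ 2 * (min (Real.sqrt (Z / b)) L / Z) ≤
      min 1 (L ^ ((1 : ℝ) / 3) * b ^ (-(1 / 3) : ℝ) * q ^ ((2 : ℝ) / 3)) := by
    refine le_min ?_ ?_
    · refine mul_le_one₀ hth1 (by positivity) ?_
      rw [div_le_one hZ0]
      refine (min_le_left _ _).trans ?_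
      apply Real.sqrt_le_iff.mpr
      refine ⟨hZ0.le, ?_⟩
      have h5 : Z / b ≤ Z := div_le_self hZ0.le hb
      nlinarith
    · have h5 := min_interp (x := Z / b) (y := L) (by positivity) hL
      have e2 : (Z / b) ^ ((1 : ℝ) / 3) = Z ^ ((1 : ℝ) / 3) * b ^ (-(1 / 3) : ℝ) := by
        rw [Real.div_rpow hZ0.le hb0.le, Real.rpow_neg hb0.le]; rfl
      rw [e2] at h5
      calc th ^ 2 * (min (Real.sqrt (Z / b)) L / Z)
          ≤ (q ^ ((2 : ℝ) / 3) * Z ^ ((2 : ℝ) / 3)) *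
            ((Z ^ ((1 : ℝ) / 3) * b ^ (-(1 / 3) : ℝ) * L ^ ((1 : ℝ) / 3)) / Z) := by
            refine mul_le_mul hth3 ?_ (by positivity) (by positivity)
            exact div_le_div_of_nonneg_right h5 hZ0.le
        _ = (L ^ ((1 : ℝ) / 3) * b ^ (-(1 / 3) : ℝ) * q ^ ((2 : ℝ) / 3)) *
            ((Z ^ ((2 : ℝ) / 3) * Z ^ ((1 : ℝ) / 3)) / Z) := by ring
        _ = _ := by
            rw [← Real.rpow_add hZ0]
            norm_num
            rw [div_self hZ0.ne', mul_one]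
  calc th ^ 2 * ((2 / Z) * (R * min (Real.sqrt (Z / b)) L + Z + (R * Z) ^ ((2 : ℝ) / 3)))
      = 2 * (th ^ 2 * (Z / Z) + th ^ 2 * ((R * Z) ^ ((2 : ℝ) / 3) / Z) +
          R * (th ^ 2 * (min (Real.sqrt (Z / b)) L / Z))) := by ring
    _ ≤ 2 * (1 + R ^ ((2 : ℝ) / 3) * min 1 (q ^ ((1 : ℝ) / 3)) +
        R * min 1 (L ^ ((1 : ℝ) / 3) * b ^ (-(1 / 3) : ℝ) * q ^ ((2 : ℝ) / 3))) := by
        rw [div_self hZ0.ne', mul_one]
        gcongr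

lemma Mu_le_third {d0 : ℝ} {x y : Eis} (hy : y ≠ 0) :
    Mu d0 (x * y) ≤ (nm y : ℝ) ^ ((1 : ℝ) / 3) * Mu d0 x ^ ((1 : ℝ) / 3) := by
  have h0 := Mu_nonneg d0 (x * y)
  have h1 := Mu_le_one d0 (x * y)
  have h2 := Mu_mul d0 (x := x) hy
  rw [← Real.mul_rpow (Nat.cast_nonneg _) (Mu_nonneg d0 x)]
  calc Mu d0 (x * y) ≤ Mu d0 (x * y) ^ ((1 : ℝ) / 3) := by
        rcases h0.eq_or_lt with h | h
        · rw [← h, Real.zero_rpow (by norm_num)]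
        · calc Mu d0 (x * y) = Mu d0 (x * y) ^ (1 : ℝ) := (Real.rpow_one _).symm
            _ ≤ _ := Real.rpow_le_rpow_of_exponent_ge h h1 (by norm_num)
    _ ≤ _ := Real.rpow_le_rpow h0 h2 (by norm_num)

/-- the real number of the principal half -/
def PRn (R A Z1 L Mg' τD H : ℝ) : ℝ :=
  Mg' * (1 + R ^ ((2 : ℝ) / 3) * min 1 (Z1 ^ (-(1 / 3) : ℝ)) +
      R * min 1 (L ^ ((1 : ℝ) / 3) * Z1 ^ (-(2 / 3) : ℝ))) +
    R ^ ((2 : ℝ) / 3) * (H / A) ^ ((1 : ℝ) / 3) * Mg' ^ ((1 : ℝ) / 3) +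
    τD * (R * L ^ ((1 : ℝ) / 3) * (H / A) ^ ((2 : ℝ) / 3))

set_option maxHeartbeats 1000000 in
open Classical in
/-- **the cell sums of the principal half** -/
theorem GP_le {R X A B0 H Ax d0 L : ℝ} {ν D g' : Eis} {ϑ ϑd : ℝ → ℝ} {N : Eis → ℕ} {N0 : ℕ}
    (hR : 1 ≤ R) (hX : 1 ≤ X) (hA : 0 < A) (hH : 0 ≤ H) (hL : 0 ≤ L) (hν : IsPrim ν) (hD : D ≠ 0)
    (hg' : IsPrim g') (hϑ : ∀ y : ℝ, 0 < y → 0 ≤ ϑ y ∧ ϑ y ≤ 1 ∧ ϑ y ≤ y ^ (-(1 / 3) : ℝ))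
    (hϑd : ∀ y : ℝ, 0 < y → 0 ≤ ϑd y ∧ ϑd y ≤ 1 ∧ ϑd y ≤ (H * y) ^ ((1 : ℝ) / 3))
    (hN : ∀ B ∈ S X, N B ≤ N0) :
    ∑ B ∈ S X, ∑ j ∈ Finset.range (N B), (if (nm B : ℝ) ≤ B0 then
      ϑ (R * (nm ν : ℝ) ^ 2 * (X / nm B) / (A / (nm B : ℝ) ^ 2 * 2 ^ j)) ^ 2
      else ϑd (2 ^ j / (A / (nm B : ℝ) ^ 2)) ^ 2) *
        ((2 / 2 ^ j) * prM R (2 ^ j) Ax d0 L (nm (b2 D B)) g' B) ≤
      N0 * (200 * (1 + Real.log X)) * ((Ax / nm g') ^ 2 *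
        PRn R A (R * (nm ν : ℝ) ^ 2 * X / A) L (Mu d0 g') (tau D) H) := by
  have hX0 : (0 : ℝ) ≤ X := by linarith
  have hR0 : (0 : ℝ) < R := by linarith
  have hlog : 0 ≤ Real.log X := Real.log_nonneg hX
  have hnν : (1 : ℝ) ≤ nm ν := one_le_nm hν.ne_zero
  have hng : (1 : ℝ) ≤ nm g' := one_le_nm hg'.ne_zero
  have hMg := Mu_nonneg d0 g'
  set Z1 : ℝ := R * (nm ν : ℝ) ^ 2 * X / A with hZ1
  have hZ10 : 0 < Z1 := by rw [hZ1]; positivity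
  set c3 : ℝ := R ^ ((2 : ℝ) / 3) * (H / A) ^ ((1 : ℝ) / 3) with hc3
  set c1 : ℝ := R * L ^ ((1 : ℝ) / 3) * (H / A) ^ ((2 : ℝ) / 3) with hc1
  have hc30 : 0 ≤ c3 := by positivity
  have hc10 : 0 ≤ c1 := by positivity
  set K1 : ℝ := 1 + R ^ ((2 : ℝ) / 3) * min 1 (Z1 ^ (-(1 / 3) : ℝ)) +
      R * min 1 (L ^ ((1 : ℝ) / 3) * Z1 ^ (-(2 / 3) : ℝ)) with hK1
  have hK10 : 0 ≤ K1 := by positivity
  have hK11 : 1 ≤ K1 := by
    have a1 : 0 ≤ R ^ ((2 : ℝ) / 3) * min 1 (Z1 ^ (-(1 / 3) : ℝ)) := by positivity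
    have a2 : 0 ≤ R * min 1 (L ^ ((1 : ℝ) / 3) * Z1 ^ (-(2 / 3) : ℝ)) := by positivity
    rw [hK1]; linarith
  -- one `B`
  have hrow : ∀ B ∈ S X, ∑ j ∈ Finset.range (N B), (if (nm B : ℝ) ≤ B0 then
      ϑ (R * (nm ν : ℝ) ^ 2 * (X / nm B) / (A / (nm B : ℝ) ^ 2 * 2 ^ j)) ^ 2
      else ϑd (2 ^ j / (A / (nm B : ℝ) ^ 2)) ^ 2) *
        ((2 / 2 ^ j) * prM R (2 ^ j) Ax d0 L (nm (b2 D B)) g' B) ≤
      (N0 * 2 * (Ax / nm g') ^ 2) * ((Mu d0 g' * K1 + c3 * Mu d0 g' ^ ((1 : ℝ) / 3)) *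
        (1 / (nm B : ℝ)) + c1 * ((nm (b1 D B) : ℝ) ^ ((1 : ℝ) / 3) / nm B)) := by
    intro B hB
    obtain ⟨hBX, hB1, hBs⟩ := (mem_S hX0).mp hB
    have hNB : (1 : ℝ) ≤ nm B := one_le_nm hB1.ne_zero
    have hNB0 : (0 : ℝ) < nm B := by linarith
    have hb1 : (1 : ℝ) ≤ nm (b1 D B) := one_le_nm (b1_prim D B).ne_zero
    have hb2 := one_le_b2 D B
    have hbb := nm_b1_b2 D hB1 hBs
    set bb : ℝ := (nm (b2 D B) : ℝ) with hbbd
    have hMB := Mu_nonneg d0 (g' * B)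
    set V : ℝ := (Ax / (nm g' * nm B)) ^ 2 * Mu d0 (g' * B) with hV
    have hV0 : 0 ≤ V := by positivity
    have hVe : V = (Ax / nm g') ^ 2 * (((nm B : ℝ) ^ 2)⁻¹ * Mu d0 (g' * B)) := by
      rw [hV]; field_simp
    -- the three sums
    have s1 : ((nm B : ℝ) ^ 2)⁻¹ * Mu d0 (g' * B) ≤ Mu d0 g' * (1 / (nm B : ℝ)) := by
      calc ((nm B : ℝ) ^ 2)⁻¹ * Mu d0 (g' * B) ≤ ((nm B : ℝ) ^ 2)⁻¹ * (nm B * Mu d0 g') :=
            mul_le_mul_of_nonneg_left (Mu_mul d0 hB1.ne_zero) (by positivity)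
        _ = _ := by field_simp
    have e43 : (nm B : ℝ) ^ ((2 : ℝ) / 3) * (nm B : ℝ) ^ ((1 : ℝ) / 3) = nm B := by
      rw [← Real.rpow_add hNB0]; norm_num
    have e23 : (nm B : ℝ) ^ ((4 : ℝ) / 3) * (nm B : ℝ) ^ (-(1 / 3) : ℝ) = nm B := by
      rw [← Real.rpow_add hNB0]; norm_num
    have s3 : ((nm B : ℝ) ^ 2)⁻¹ * Mu d0 (g' * B) * (nm B : ℝ) ^ ((2 : ℝ) / 3) ≤
        Mu d0 g' ^ ((1 : ℝ) / 3) * (1 / (nm B : ℝ)) := by
      calc ((nm B : ℝ) ^ 2)⁻¹ * Mu d0 (g' * B) * (nm B : ℝ) ^ ((2 : ℝ) / 3)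
          ≤ ((nm B : ℝ) ^ 2)⁻¹ * ((nm B : ℝ) ^ ((1 : ℝ) / 3) * Mu d0 g' ^ ((1 : ℝ) / 3)) *
            (nm B : ℝ) ^ ((2 : ℝ) / 3) := by
            refine mul_le_mul_of_nonneg_right ?_ (by positivity)
            exact mul_le_mul_of_nonneg_left (Mu_le_third hB1.ne_zero) (by positivity)
        _ = ((nm B : ℝ) ^ 2)⁻¹ * Mu d0 g' ^ ((1 : ℝ) / 3) *
            ((nm B : ℝ) ^ ((2 : ℝ) / 3) * (nm B : ℝ) ^ ((1 : ℝ) / 3)) := by ring
        _ = _ := by rw [e43]; field_simp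
    have s2 : ((nm B : ℝ) ^ 2)⁻¹ * Mu d0 (g' * B) * ((nm B : ℝ) ^ ((4 : ℝ) / 3) *
        bb ^ (-(1 / 3) : ℝ)) ≤ (nm (b1 D B) : ℝ) ^ ((1 : ℝ) / 3) / nm B := by
      have e5 : (nm (b1 D B) : ℝ) ^ ((1 : ℝ) / 3) = (nm B : ℝ) ^ ((1 : ℝ) / 3) *
          bb ^ (-(1 / 3) : ℝ) := by
        rw [← hbb, Real.mul_rpow (by positivity) (by positivity), mul_assoc,
          ← Real.rpow_add (by linarith)]
        norm_num
      have e6 : (nm B : ℝ) ^ ((4 : ℝ) / 3) = nm B * (nm B : ℝ) ^ ((1 : ℝ) / 3) := by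
        rw [mul_comm, ← Real.rpow_add_one hNB0.ne']; norm_num
      calc ((nm B : ℝ) ^ 2)⁻¹ * Mu d0 (g' * B) * ((nm B : ℝ) ^ ((4 : ℝ) / 3) *
            bb ^ (-(1 / 3) : ℝ))
          ≤ ((nm B : ℝ) ^ 2)⁻¹ * 1 * ((nm B : ℝ) ^ ((4 : ℝ) / 3) * bb ^ (-(1 / 3) : ℝ)) := by
            refine mul_le_mul_of_nonneg_right ?_ (by positivity)
            exact mul_le_mul_of_nonneg_left (Mu_le_one _ _) (by positivity)
        _ = _ := by rw [e6, e5]; field_simp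
    have hcell : ∀ j ∈ Finset.range (N B), (if (nm B : ℝ) ≤ B0 then
        ϑ (R * (nm ν : ℝ) ^ 2 * (X / nm B) / (A / (nm B : ℝ) ^ 2 * 2 ^ j)) ^ 2
        else ϑd (2 ^ j / (A / (nm B : ℝ) ^ 2)) ^ 2) *
          ((2 / 2 ^ j) * prM R (2 ^ j) Ax d0 L bb g' B) ≤
        2 * (Ax / nm g') ^ 2 * ((Mu d0 g' * K1 + c3 * Mu d0 g' ^ ((1 : ℝ) / 3)) *
        (1 / (nm B : ℝ)) + c1 * ((nm (b1 D B) : ℝ) ^ ((1 : ℝ) / 3) / nm B)) := by
      intro j _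
      set Z : ℝ := 2 ^ j with hZdef
      have hZ : 1 ≤ Z := one_le_pow₀ (by norm_num)
      have hZ0 : 0 < Z := by linarith
      have hA0 : 0 ≤ (Ax / (nm g' : ℝ)) ^ 2 := sq_nonneg _
      have hM13 : 0 ≤ Mu d0 g' ^ ((1 : ℝ) / 3) := by positivity
      by_cases hcase : (nm B : ℝ) ≤ B0
      · rw [if_pos hcase]
        set y : ℝ := R * (nm ν : ℝ) ^ 2 * (X / nm B) / (A / (nm B : ℝ) ^ 2 * Z) with hy
        have hye : y = Z1 * nm B / Z := by rw [hy, hZ1]; field_simp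
        have hy0 : 0 < y := by rw [hye]; positivity
        obtain ⟨a0, a1, a2⟩ := hϑ y hy0
        have hq : 0 ≤ (Z1 * nm B)⁻¹ := by positivity
        have a3 : ϑ y ≤ ((Z1 * nm B)⁻¹ * Z) ^ ((1 : ℝ) / 3) := by
          refine a2.trans (le_of_eq ?_)
          rw [Real.rpow_neg hy0.le, ← Real.inv_rpow hy0.le, hye]
          congr 1
          field_simp
        have h7 := cell_le (Y := bb ≤ Z) hR0.le hZ hL hb2 hq a0 a1 a3
        have hq1 : (Z1 * nm B)⁻¹ ≤ Z1⁻¹ := by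
          refine inv_anti₀ hZ10 ?_
          nlinarith
        have a4 : ((Z1 * nm B)⁻¹) ^ ((1 : ℝ) / 3) ≤ Z1 ^ (-(1 / 3) : ℝ) := by
          rw [Real.rpow_neg hZ10.le, ← Real.inv_rpow hZ10.le]
          exact Real.rpow_le_rpow hq hq1 (by norm_num)
        have a5 : L ^ ((1 : ℝ) / 3) * bb ^ (-(1 / 3) : ℝ) * ((Z1 * nm B)⁻¹) ^ ((2 : ℝ) / 3) ≤
            L ^ ((1 : ℝ) / 3) * Z1 ^ (-(2 / 3) : ℝ) := by
          have b1 : bb ^ (-(1 / 3) : ℝ) ≤ 1 :=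
            Real.rpow_le_one_of_one_le_of_nonpos hb2 (by norm_num)
          have b2 : ((Z1 * nm B)⁻¹) ^ ((2 : ℝ) / 3) ≤ Z1 ^ (-(2 / 3) : ℝ) := by
            rw [Real.rpow_neg hZ10.le, ← Real.inv_rpow hZ10.le]
            exact Real.rpow_le_rpow hq hq1 (by norm_num)
          calc _ ≤ L ^ ((1 : ℝ) / 3) * 1 * Z1 ^ (-(2 / 3) : ℝ) := by gcongr
            _ = _ := by ring
        have h8 : ϑ y ^ 2 * ((2 / Z) * prM R Z Ax d0 L bb g' B) ≤ V * (2 * K1) := by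
          unfold prM
          rw [← hV]
          calc _ = V * (ϑ y ^ 2 * ((2 / Z) * (if bb ≤ Z then
                R * min (Real.sqrt (Z / bb)) L + Z + (R * Z) ^ ((2 : ℝ) / 3) else 0))) := by ring
            _ ≤ V * (2 * K1) := by
                refine mul_le_mul_of_nonneg_left (h7.trans ?_) hV0
                rw [hK1]
                gcongr
        refine h8.trans ?_
        rw [hVe]
        calc (Ax / nm g') ^ 2 * (((nm B : ℝ) ^ 2)⁻¹ * Mu d0 (g' * B)) * (2 * K1)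
            ≤ (Ax / nm g') ^ 2 * (Mu d0 g' * (1 / (nm B : ℝ))) * (2 * K1) := by gcongr
          _ = 2 * (Ax / nm g') ^ 2 * ((Mu d0 g' * K1 + 0) * (1 / (nm B : ℝ)) + 0) := by ring
          _ ≤ _ := by gcongr <;> positivity
      · rw [if_neg hcase]
        set y : ℝ := Z / (A / (nm B : ℝ) ^ 2) with hy
        have hy0 : 0 < y := by positivity
        obtain ⟨a0, a1, a2⟩ := hϑd y hy0
        have hq : 0 ≤ H / A * (nm B : ℝ) ^ 2 := by positivity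
        have a3 : ϑd y ≤ (H / A * (nm B : ℝ) ^ 2 * Z) ^ ((1 : ℝ) / 3) := by
          refine a2.trans (le_of_eq ?_)
          congr 1
          rw [hy]
          field_simp
        have h7 := cell_le (Y := bb ≤ Z) hR0.le hZ hL hb2 hq a0 a1 a3
        have a4 : (H / A * (nm B : ℝ) ^ 2) ^ ((1 : ℝ) / 3) =
            (H / A) ^ ((1 : ℝ) / 3) * (nm B : ℝ) ^ ((2 : ℝ) / 3) := by
          rw [Real.mul_rpow (by positivity) (by positivity), ← Real.rpow_natCast,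
            ← Real.rpow_mul hNB0.le]
          norm_num
        have a5 : (H / A * (nm B : ℝ) ^ 2) ^ ((2 : ℝ) / 3) =
            (H / A) ^ ((2 : ℝ) / 3) * (nm B : ℝ) ^ ((4 : ℝ) / 3) := by
          rw [Real.mul_rpow (by positivity) (by positivity), ← Real.rpow_natCast,
            ← Real.rpow_mul hNB0.le]
          norm_num
        have h8 : ϑd y ^ 2 * ((2 / Z) * prM R Z Ax d0 L bb g' B) ≤
            V * (2 * (1 + c3 * (nm B : ℝ) ^ ((2 : ℝ) / 3) +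
              c1 * ((nm B : ℝ) ^ ((4 : ℝ) / 3) * bb ^ (-(1 / 3) : ℝ)))) := by
          unfold prM
          rw [← hV]
          calc _ = V * (ϑd y ^ 2 * ((2 / Z) * (if bb ≤ Z then
                R * min (Real.sqrt (Z / bb)) L + Z + (R * Z) ^ ((2 : ℝ) / 3) else 0))) := by ring
            _ ≤ V * (2 * (1 + R ^ ((2 : ℝ) / 3) * (H / A * (nm B : ℝ) ^ 2) ^ ((1 : ℝ) / 3) +
                R * (L ^ ((1 : ℝ) / 3) * bb ^ (-(1 / 3) : ℝ) *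
                  (H / A * (nm B : ℝ) ^ 2) ^ ((2 : ℝ) / 3)))) := by
                refine mul_le_mul_of_nonneg_left (h7.trans ?_) hV0
                gcongr
                · exact min_le_right _ _
                · exact min_le_right _ _
            _ = _ := by rw [a4, a5, hc3, hc1]; ring
        refine h8.trans ?_
        rw [hVe]
        calc (Ax / nm g') ^ 2 * (((nm B : ℝ) ^ 2)⁻¹ * Mu d0 (g' * B)) *
              (2 * (1 + c3 * (nm B : ℝ) ^ ((2 : ℝ) / 3) +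
              c1 * ((nm B : ℝ) ^ ((4 : ℝ) / 3) * bb ^ (-(1 / 3) : ℝ))))
            = 2 * (Ax / nm g') ^ 2 * (((nm B : ℝ) ^ 2)⁻¹ * Mu d0 (g' * B) * 1 +
                c3 * (((nm B : ℝ) ^ 2)⁻¹ * Mu d0 (g' * B) * (nm B : ℝ) ^ ((2 : ℝ) / 3)) +
                c1 * (((nm B : ℝ) ^ 2)⁻¹ * Mu d0 (g' * B) * ((nm B : ℝ) ^ ((4 : ℝ) / 3) *
                  bb ^ (-(1 / 3) : ℝ)))) := by ring
          _ ≤ 2 * (Ax / nm g') ^ 2 * ((Mu d0 g' * (1 / (nm B : ℝ))) * K1 +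
                c3 * (Mu d0 g' ^ ((1 : ℝ) / 3) * (1 / (nm B : ℝ))) +
                c1 * ((nm (b1 D B) : ℝ) ^ ((1 : ℝ) / 3) / nm B)) := by gcongr
          _ = _ := by ring
    refine (Finset.sum_le_sum hcell).trans ?_
    rw [Finset.sum_const, Finset.card_range, nsmul_eq_mul]
    have hNN : ((N B : ℕ) : ℝ) ≤ N0 := by exact_mod_cast hN B hB
    have hM13 : 0 ≤ Mu d0 g' ^ ((1 : ℝ) / 3) := by positivity
    calc (N B : ℝ) * (2 * (Ax / nm g') ^ 2 * ((Mu d0 g' * K1 + c3 * Mu d0 g' ^ ((1 : ℝ) / 3)) *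
        (1 / (nm B : ℝ)) + c1 * ((nm (b1 D B) : ℝ) ^ ((1 : ℝ) / 3) / nm B)))
        ≤ (N0 : ℝ) * (2 * (Ax / nm g') ^ 2 * ((Mu d0 g' * K1 + c3 * Mu d0 g' ^ ((1 : ℝ) / 3)) *
        (1 / (nm B : ℝ)) + c1 * ((nm (b1 D B) : ℝ) ^ ((1 : ℝ) / 3) / nm B))) := by
          refine mul_le_mul_of_nonneg_right hNN (by positivity)
      _ = _ := by ring
  refine (Finset.sum_le_sum hrow).trans ?_
  rw [← Finset.mul_sum, Finset.sum_add_distrib, ← Finset.mul_sum, ← Finset.mul_sum]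
  have hM13 : 0 ≤ Mu d0 g' ^ ((1 : ℝ) / 3) := by positivity
  calc (N0 * 2 * (Ax / nm g') ^ 2) * ((Mu d0 g' * K1 + c3 * Mu d0 g' ^ ((1 : ℝ) / 3)) *
        (∑ B ∈ S X, 1 / (nm B : ℝ)) +
        c1 * ∑ B ∈ S X, ((nm (b1 D B) : ℝ) ^ ((1 : ℝ) / 3) / nm B))
      ≤ (N0 * 2 * (Ax / nm g') ^ 2) * ((Mu d0 g' * K1 + c3 * Mu d0 g' ^ ((1 : ℝ) / 3)) *
        (100 * (1 + Real.log X)) + c1 * (tau D * (100 * (1 + Real.log X)))) := by
        refine mul_le_mul_of_nonneg_left (add_le_add ?_ ?_) (by positivity)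
        · exact mul_le_mul_of_nonneg_left (E2440.sum_inv_S hX) (by positivity)
        · exact mul_le_mul_of_nonneg_left (sum_b1 hX hD) hc10
    _ = _ := by
        unfold PRn
        rw [hK1, hc1, hc3]
        ring

/-! ### the twisted cubes -/

/-- the twisted cubes -/
lemma prK_tw {κ : Eis} (hκ : κ ≠ 0) : PrK (fun H => ∃ c, H * κ ^ 2 = c ^ 3) κ := by
  refine ⟨hκ, ?_, ?_, ?_⟩
  · have h := Cub.mul Cub.cube (x := κ ^ 2) (pow_ne_zero 2 hκ)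
    exact h
  · rintro k x - - ⟨c, hc⟩
    exact ⟨c * x, by rw [mul_pow, ← hc]; ring⟩
  · rintro k - ⟨c, hc⟩
    exact ⟨κ ^ 2, c, pow_ne_zero 2 hκ, hc, fun p hp h => hp.dvd_of_dvd_pow h⟩

/-! ### the `MH` form (579's `E2sp_579`) -/

lemma dl_ne {σ : Eis} (hσ : X6C180.Sg σ) (i : X6C180.IX σ) : X6C180.dl' σ i ≠ 0 := by
  obtain ⟨m, hm⟩ := X6C180.dl_SU hσ.ne_zero i
  intro h0
  rw [h0, zero_dvd_iff] at hm
  have h3 : (lam : Eis) ≠ 0 := by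
    intro h
    have := three_eq
    rw [h] at this
    have h4 : (3 : Eis) ≠ 0 := by norm_num
    apply h4
    rw [this]
    ring
  exact pow_ne_zero m h3 hm

lemma dl_np {σ : Eis} (hσ : X6C180.Sg σ) (i : X6C180.IX σ) :
    ∀ p : Eis, Prime p → IsPrim p → ¬ p ∣ X6C180.dl' σ i := by
  intro q hqq hq hqd
  obtain ⟨m, hm⟩ := X6C180.dl_SU hσ.ne_zero i
  have h4 : q ∣ lam := hqq.dvd_of_dvd_pow (hqd.trans hm)
  have h5 : IsCoprime q (3 : Eis) := hq.isCoprime_three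
  have h6 : q ∣ (3 : Eis) := by
    rw [three_eq]
    exact (h4.trans (dvd_pow_self lam two_ne_zero)).mul_left _
  exact hqq.not_isUnit (h5.isUnit_of_dvd' dvd_rfl h6)

set_option maxHeartbeats 1000000 in
open Classical in
/-- **the principal half of the moment hypothesis** -/
theorem MH_pr {ε : ℝ} (hε : 0 < ε) : ∃ C : ℝ, 1 ≤ C ∧ ∀ {Pr : Eis → Prop} {M0 : Eis},
    PrK Pr M0 → ∀ {J : ℕ} {Ax d0 Zp : ℝ} {al : Eis → ℂ}, FS al → PV Pr J Ax d0 Zp al →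
    ∀ {σ : Eis}, X6C180.Sg σ → ∀ {δ g' E ν : Eis}, IsPrim δ → IsPrim g' → E ≠ 0 → IsPrim ν →
    ∀ {X R cd : ℝ} {N : Eis → ℕ} {N0 : ℕ}, 1 ≤ X → 0 ≤ R → (∀ B ∈ S X, N B ≤ N0) →
    (∀ i : X6C180.IX σ, (nm (X6C180.dl' σ i) : ℝ) ≤ cd) → (nm g' : ℝ) * X ^ 3 ≤ Zp →
    2 ^ N0 * (nm E * cd * X ^ 2) * (nm δ : ℝ) ^ 3 ≤ Zp → ∀ {Q : Eis → Eis → Eis → Prop},
    (∀ B τ d, Q B τ d → Pr (d * (E * τ * B ^ 2))) →
    E2sp579.MH (WM R) (fun n j g₂ g₃ d => DN n g₂ g₃ d ∧ (2 : ℝ) ^ j / 2 < nm d)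
      Q (ag al δ g') E σ ν X (2 * J) N
      (fun B j => C * (2 ^ N0 * nm ν) ^ ε * (1 + Real.log X) *
        prM R (2 ^ j) Ax d0 (nm (E * M0) * nm ν) (nm (b2 (E * M0) B)) g' B) := by
  obtain ⟨C, hC, h⟩ := moP_dvs2 hε
  refine ⟨C, hC, ?_⟩
  intro Pr M0 hP J Ax d0 Zp al hal hV σ hσ δ g' E ν hδ hg' hE hν X R cd N N0 hX hR hN hcd hZ1 hZ2
    Q hQ B hB i t j hj
  have hX0 : (0 : ℝ) ≤ X := by linarith
  obtain ⟨hBX, hB1, hBs⟩ := (mem_S hX0).mp hB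
  have hNB : (1 : ℝ) ≤ nm B := one_le_nm hB1.ne_zero
  have hlog : 0 ≤ Real.log X := Real.log_nonneg hX
  have hnν : (1 : ℝ) ≤ nm ν := one_le_nm hν.ne_zero
  have hjN : (2 : ℝ) ^ j ≤ 2 ^ N0 := pow_le_pow_right₀ (by norm_num) (hj.le.trans (hN B hB))
  have hi0 : (0 : ℝ) ≤ cd := (Nat.cast_nonneg _).trans (hcd i)
  have key := h hP hal hV hδ hg' hE (dl_ne hσ i) (dl_np hσ i) hB1 hBs hν hX
    (Z := 2 ^ j) (one_le_pow₀ (by norm_num)) hR (by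
      calc (nm g' : ℝ) * nm B * (X * X) ≤ nm g' * X * (X * X) := by gcongr
        _ = nm g' * X ^ 3 := by ring
        _ ≤ Zp := hZ1) (by
      rw [nm_mul, nm_mul, nm_pow]
      push_cast
      calc (2 : ℝ) ^ j * (nm E * nm (X6C180.dl' σ i) * (nm B : ℝ) ^ 2) * (nm δ : ℝ) ^ 3
          ≤ 2 ^ N0 * (nm E * cd * X ^ 2) * (nm δ : ℝ) ^ 3 := by
            have := hcd i
            gcongr
        _ ≤ Zp := hZ2)
    (P := fun n => E2sp579.fP (fun g₂ g₃ d => DN n g₂ g₃ d ∧ (2 : ℝ) ^ j / 2 < nm d)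
      (Q B (X6C180.dl' σ i)))
    (fun n g₂ g₃ d _ hd => ⟨hd.1.1, hQ _ _ _ hd.2⟩) t
  refine key.trans ?_
  have h3 : ((2 : ℝ) ^ j * nm ν) ^ ε ≤ (2 ^ N0 * nm ν) ^ ε := by
    refine Real.rpow_le_rpow (by positivity) ?_ hε.le
    gcongr
  have h4 := prM_nonneg (Ax := Ax) (d0 := d0) (b := (nm (b2 (E * M0) B) : ℝ)) hR
    (by positivity : (0 : ℝ) ≤ 2 ^ j) (by positivity : (0 : ℝ) ≤ nm (E * M0) * nm ν) g' B
  rw [mul_assoc]
  refine mul_le_mul_of_nonneg_left ?_ (by positivity)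
  refine mul_le_mul_of_nonneg_right ?_ h4
  gcongr

end Crest.Agent.R017.PrD502
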