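import Crest.Agent.R017.PrD3_502

/-!
# Row 17, T.7: the principal half of `E2`, part 4: the sums over `c`, `j₂` (helper502)

* `PJn` : the number after the sums over `c` and `j₂`
* `PJ_le` : the sum of `RR^(-1/3) (K / nm (e A j₂))^(2/3) PRn ..`
* `GPsum_le` : the same for the cell sums
-/

set_option autoImplicit false
set_option linter.unusedVariables false
set_option linter.unusedSectionVars false

noncomputable section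

open Complex
open scoped ComplexConjugate

namespace Crest.Agent.R017.PrD502

open Crest.Agent.R012 Crest.Agent.R012.Eis Crest.Agent.R012.GaussLoc283
open Crest.Agent.R012.Mob705 hiding pb mem_pb
open Crest.Agent.R012.Div277
open Crest.Agent.R012.LS2 (S mem_S)
open Crest.Agent.R017.E2440 (ag one_le_nm RR C4 mem_C4 card_S_le')

lemma cube_root {Y : ℝ} (hY : 0 < Y) : ∃ y : ℝ, 0 < y ∧ Y = y ^ 3 := by
  refine ⟨Y ^ ((1 : ℝ) / 3), by positivity, ?_⟩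
  rw [← Real.rpow_natCast, ← Real.rpow_mul hY.le]
  norm_num

section
variable {y : ℝ}

lemma cb_rpow (hy : 0 < y) (p : ℝ) : (y ^ 3) ^ p = y ^ (3 * p) := by
  rw [← Real.rpow_natCast, ← Real.rpow_mul hy.le]
  norm_num

lemma r13 (hy : 0 < y) : (y ^ 3) ^ ((1 : ℝ) / 3) = y := by
  rw [cb_rpow hy]; norm_num

lemma r23 (hy : 0 < y) : (y ^ 3) ^ ((2 : ℝ) / 3) = y ^ 2 := by
  rw [cb_rpow hy, ← Real.rpow_natCast]; norm_num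

lemma r43 (hy : 0 < y) : (y ^ 3) ^ ((4 : ℝ) / 3) = y ^ 4 := by
  rw [cb_rpow hy, ← Real.rpow_natCast]; norm_num

lemma rn13 (hy : 0 < y) : (y ^ 3) ^ (-(1 / 3) : ℝ) = y⁻¹ := by
  rw [cb_rpow hy, ← Real.rpow_neg_one]; norm_num

lemma rn13' (hy : 0 < y) : (y ^ 3) ^ (-(1 : ℝ) / 3) = y⁻¹ := by
  rw [cb_rpow hy, ← Real.rpow_neg_one]; norm_num

lemma rn23 (hy : 0 < y) : (y ^ 3) ^ (-(2 / 3) : ℝ) = (y ^ 2)⁻¹ := by
  rw [cb_rpow hy, ← Real.rpow_natCast, ← Real.rpow_neg hy.le]; norm_num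

end

/-- one `(c, j₂)` -/
lemma PR_one {V K X a cc j nM nν H Mg' τD : ℝ} (hV : 0 < V) (hK : 0 < K) (hX : 0 < X)
    (ha : 0 < a) (hc : 1 ≤ cc) (hj : 1 ≤ j) (hM : 0 < nM) (hν : 1 ≤ nν) (hH : 0 < H)
    (hMg : 0 ≤ Mg') (hτ : 0 ≤ τD) :
    (V * a / (cc * j ^ 2)) ^ (-(1 : ℝ) / 3) * (K / (a * j)) ^ ((2 : ℝ) / 3) *
      PRn (V * a / (cc * j ^ 2)) (K / (a * j)) (V * a / (cc * j ^ 2) * nν ^ 2 * X / (K / (a * j)))
        (a * j * nM * nν) Mg' τD H ≤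
      Mg' * (cc ^ ((1 : ℝ) / 3) * K ^ ((2 : ℝ) / 3) * V ^ (-(1 / 3) : ℝ) / a) +
      (Mg' * (K * X ^ (-(1 / 3) : ℝ) / a + K ^ ((4 : ℝ) / 3) * X ^ (-(2 / 3) : ℝ) *
        nM ^ ((1 : ℝ) / 3) / a) + (V * K * H) ^ ((1 : ℝ) / 3) * Mg' ^ ((1 : ℝ) / 3) +
        τD * (V ^ ((2 : ℝ) / 3) * a * (nM * nν) ^ ((1 : ℝ) / 3) * H ^ ((2 : ℝ) / 3))) *
        (1 / j) := by
  have hc0 : 0 < cc := by linarith
  have hj0 : 0 < j := by linarith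
  have hν0 : 0 < nν := by linarith
  obtain ⟨v, hv, rfl⟩ := cube_root hV
  obtain ⟨k, hk, rfl⟩ := cube_root hK
  obtain ⟨x, hx, rfl⟩ := cube_root hX
  obtain ⟨α, hα, rfl⟩ := cube_root ha
  obtain ⟨γ, hγ, rfl⟩ := cube_root hc0
  obtain ⟨ι, hι, rfl⟩ := cube_root hj0
  obtain ⟨μ, hμ, rfl⟩ := cube_root hM
  obtain ⟨ρ, hρ, rfl⟩ := cube_root hν0
  obtain ⟨η, hη, rfl⟩ := cube_root hH
  have hγ1 : 1 ≤ γ := by
    by_contra h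
    push Not at h
    have : γ ^ 3 < 1 := pow_lt_one₀ hγ.le h (by norm_num)
    linarith
  have hρ1 : 1 ≤ ρ := by
    by_contra h
    push Not at h
    have : ρ ^ 3 < 1 := pow_lt_one₀ hρ.le h (by norm_num)
    linarith
  have eR : v ^ 3 * α ^ 3 / (γ ^ 3 * (ι ^ 3) ^ 2) = (v * α / (γ * ι ^ 2)) ^ 3 := by
    field_simp
  have eA : k ^ 3 / (α ^ 3 * ι ^ 3) = (k / (α * ι)) ^ 3 := by
    field_simp
  set R1 : ℝ := v * α / (γ * ι ^ 2) with hR1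
  set A1 : ℝ := k / (α * ι) with hA1
  have hR10 : 0 < R1 := by positivity
  have hA10 : 0 < A1 := by positivity
  have eZ : R1 ^ 3 * (ρ ^ 3) ^ 2 * x ^ 3 / A1 ^ 3 = (R1 * ρ ^ 2 * x / A1) ^ 3 := by
    field_simp
  have eL : α ^ 3 * ι ^ 3 * μ ^ 3 * ρ ^ 3 = (α * ι * μ * ρ) ^ 3 := by ring
  have eHA : η ^ 3 / A1 ^ 3 = (η / A1) ^ 3 := by field_simp
  have eVKH : v ^ 3 * k ^ 3 * η ^ 3 = (v * k * η) ^ 3 := by ring
  have eMn : μ ^ 3 * ρ ^ 3 = (μ * ρ) ^ 3 := by ring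
  rw [eR, eA]
  unfold PRn
  rw [eZ, eL, eHA, eVKH, eMn, rn13' hR10, r23 hA10, r23 hR10, rn13 (by positivity),
    r13 (by positivity : 0 < α * ι * μ * ρ), rn23 (by positivity), r13 (by positivity : 0 < η / A1),
    r23 (by positivity : 0 < η / A1), r13 hγ, r23 hk, rn13 hv, rn13 hx, r43 hk, rn23 hx, r13 hμ,
    r13 (by positivity : 0 < v * k * η), r23 hv, r13 (by positivity : 0 < μ * ρ), r23 hη]
  have hM13 : 0 ≤ Mg' ^ ((1 : ℝ) / 3) := by positivity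
  set Q := Mg' ^ ((1 : ℝ) / 3) with hQ
  set Z1 : ℝ := R1 * ρ ^ 2 * x / A1 with hZ1
  have hZ10 : 0 < Z1 := by positivity
  have m1 : min 1 Z1⁻¹ ≤ Z1⁻¹ := min_le_right _ _
  have m2 : min 1 (α * ι * μ * ρ * (Z1 ^ 2)⁻¹) ≤ α * ι * μ * ρ * (Z1 ^ 2)⁻¹ := min_le_right _ _
  have t1 : R1⁻¹ * A1 ^ 2 = γ * k ^ 2 * v⁻¹ / α ^ 3 := by
    rw [hR1, hA1]; field_simp
  have t2 : R1⁻¹ * A1 ^ 2 * (R1 ^ 2 * Z1⁻¹) ≤ k ^ 3 * x⁻¹ / α ^ 3 * (1 / ι ^ 3) := by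
    have e : R1⁻¹ * A1 ^ 2 * (R1 ^ 2 * Z1⁻¹) = k ^ 3 * x⁻¹ / α ^ 3 * (1 / ι ^ 3) * (ρ ^ 2)⁻¹ := by
      rw [hZ1, hR1, hA1]; field_simp
    rw [e]
    exact mul_le_of_le_one_right (by positivity) (inv_le_one_of_one_le₀ (one_le_pow₀ hρ1))
  have t3 : R1⁻¹ * A1 ^ 2 * (R1 ^ 3 * (α * ι * μ * ρ * (Z1 ^ 2)⁻¹)) ≤
      k ^ 4 * (x ^ 2)⁻¹ * μ / α ^ 3 * (1 / ι ^ 3) := by
    have e : R1⁻¹ * A1 ^ 2 * (R1 ^ 3 * (α * ι * μ * ρ * (Z1 ^ 2)⁻¹)) =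
        k ^ 4 * (x ^ 2)⁻¹ * μ / α ^ 3 * (1 / ι ^ 3) * (ρ ^ 3)⁻¹ := by
      rw [hZ1, hR1, hA1]; field_simp
    rw [e]
    exact mul_le_of_le_one_right (by positivity) (inv_le_one_of_one_le₀ (one_le_pow₀ hρ1))
  have t4 : R1⁻¹ * A1 ^ 2 * (R1 ^ 2 * (η / A1)) ≤ v * k * η * (1 / ι ^ 3) := by
    have e : R1⁻¹ * A1 ^ 2 * (R1 ^ 2 * (η / A1)) = v * k * η * (1 / ι ^ 3) * γ⁻¹ := by
      rw [hR1, hA1]; field_simp
    rw [e]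
    exact mul_le_of_le_one_right (by positivity) (inv_le_one_of_one_le₀ hγ1)
  have t5 : R1⁻¹ * A1 ^ 2 * (R1 ^ 3 * (α * ι * μ * ρ) * (η / A1) ^ 2) ≤
      v ^ 2 * α ^ 3 * (μ * ρ) * η ^ 2 * (1 / ι ^ 3) := by
    have e : R1⁻¹ * A1 ^ 2 * (R1 ^ 3 * (α * ι * μ * ρ) * (η / A1) ^ 2) =
        v ^ 2 * α ^ 3 * (μ * ρ) * η ^ 2 * (1 / ι ^ 3) * (γ ^ 2)⁻¹ := by
      rw [hR1, hA1]; field_simp
    rw [e]
    exact mul_le_of_le_one_right (by positivity) (inv_le_one_of_one_le₀ (one_le_pow₀ hγ1))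
  calc R1⁻¹ * A1 ^ 2 * (Mg' * (1 + R1 ^ 2 * min 1 Z1⁻¹ +
        R1 ^ 3 * min 1 (α * ι * μ * ρ * (Z1 ^ 2)⁻¹)) + R1 ^ 2 * (η / A1) * Q +
        τD * (R1 ^ 3 * (α * ι * μ * ρ) * (η / A1) ^ 2))
      ≤ R1⁻¹ * A1 ^ 2 * (Mg' * (1 + R1 ^ 2 * Z1⁻¹ +
        R1 ^ 3 * (α * ι * μ * ρ * (Z1 ^ 2)⁻¹)) + R1 ^ 2 * (η / A1) * Q +
        τD * (R1 ^ 3 * (α * ι * μ * ρ) * (η / A1) ^ 2)) := by gcongr
    _ = Mg' * (R1⁻¹ * A1 ^ 2) + Mg' * (R1⁻¹ * A1 ^ 2 * (R1 ^ 2 * Z1⁻¹)) +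
        Mg' * (R1⁻¹ * A1 ^ 2 * (R1 ^ 3 * (α * ι * μ * ρ * (Z1 ^ 2)⁻¹))) +
        (R1⁻¹ * A1 ^ 2 * (R1 ^ 2 * (η / A1))) * Q +
        τD * (R1⁻¹ * A1 ^ 2 * (R1 ^ 3 * (α * ι * μ * ρ) * (η / A1) ^ 2)) := by ring
    _ ≤ Mg' * (γ * k ^ 2 * v⁻¹ / α ^ 3) + Mg' * (k ^ 3 * x⁻¹ / α ^ 3 * (1 / ι ^ 3)) +
        Mg' * (k ^ 4 * (x ^ 2)⁻¹ * μ / α ^ 3 * (1 / ι ^ 3)) +
        (v * k * η * (1 / ι ^ 3)) * Q +
        τD * (v ^ 2 * α ^ 3 * (μ * ρ) * η ^ 2 * (1 / ι ^ 3)) := by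
        refine add_le_add (add_le_add (add_le_add (add_le_add (le_of_eq (by rw [t1])) ?_) ?_) ?_) ?_
        · exact mul_le_mul_of_nonneg_left t2 hMg
        · exact mul_le_mul_of_nonneg_left t3 hMg
        · exact mul_le_mul_of_nonneg_right t4 hM13
        · exact mul_le_mul_of_nonneg_left t5 hτ
    _ = _ := by ring

/-- the number after the sums over `c` and `j₂` (`a = nm (e A)`) -/
def PJn (K V X a nM nν H Mg' T : ℝ) : ℝ :=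
  Mg' * (K ^ ((2 : ℝ) / 3) * V ^ ((1 : ℝ) / 6) / a + K * X ^ (-(1 / 3) : ℝ) / a +
    K ^ ((4 : ℝ) / 3) * X ^ (-(2 / 3) : ℝ) * nM ^ ((1 : ℝ) / 3) / a) +
  (V * K * H) ^ ((1 : ℝ) / 3) * Mg' ^ ((1 : ℝ) / 3) +
  T * (V ^ ((2 : ℝ) / 3) * a * (nM * nν) ^ ((1 : ℝ) / 3) * H ^ ((2 : ℝ) / 3))

lemma nm_C4 {c : Eis} (hc : c ∈ C4) : (1 : ℝ) ≤ nm c ∧ (nm c : ℝ) ≤ 9 := by
  have h3 : nm (3 : Eis) = 9 := by decide
  have hw : nm (w : Eis) = 1 := by decide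
  have h := mem_C4.mp hc
  refine ⟨one_le_nm h.ne_zero, ?_⟩
  unfold C4 at hc
  simp only [Finset.mem_insert, Finset.mem_singleton] at hc
  rcases hc with rfl | rfl | rfl | rfl
  · rw [nm_one]; norm_num
  · rw [h3]; norm_num
  · rw [nm_mul, h3, hw]; norm_num
  · rw [nm_mul, nm_pow, h3, hw]; norm_num

lemma card_C4 : (C4.card : ℝ) ≤ 4 := by
  have : C4.card ≤ 4 := by
    unfold C4
    exact Finset.card_le_four
  exact_mod_cast this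

set_option maxHeartbeats 1000000 in
open Classical in
/-- **the sums over `c` and `j₂`** -/
theorem PJ_le {V K X H Mg' T W : ℝ} {e A M0 ν : Eis} (hV : 1 ≤ V) (hK : 0 < K) (hX : 0 < X)
    (he : e ≠ 0) (hA : A ≠ 0) (hM0 : M0 ≠ 0) (hν : ν ≠ 0) (hH : 0 < H) (hMg : 0 ≤ Mg')
    (hW : 0 ≤ W) (hT : ∀ j₂ ∈ S (Real.sqrt V), (tau (e * A * j₂ * M0) : ℝ) ≤ T) :
    ∑ c ∈ C4, ∑ j₂ ∈ (S (Real.sqrt V)).filter (fun j₂ => 1 ≤ RR V e A c j₂),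
      RR V e A c j₂ ^ (-(1 : ℝ) / 3) * (K / nm (e * A * j₂)) ^ ((2 : ℝ) / 3) *
        (W * PRn (RR V e A c j₂) (K / nm (e * A * j₂))
          (RR V e A c j₂ * (nm ν : ℝ) ^ 2 * X / (K / nm (e * A * j₂)))
          (nm (e * A * j₂ * M0) * nm ν) Mg' (tau (e * A * j₂ * M0)) H) ≤
      1200 * (1 + Real.log V) * (W * PJn K V X (nm (e * A)) (nm M0) (nm ν) H Mg' T) := by
  have hV0 : 0 < V := by linarith
  have hsV : 1 ≤ Real.sqrt V := Real.one_le_sqrt.mpr hV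
  have hsV0 : (0 : ℝ) ≤ Real.sqrt V := by linarith
  have hlV : 0 ≤ Real.log V := Real.log_nonneg hV
  have hls : Real.log (Real.sqrt V) ≤ Real.log V := by
    rw [Real.log_sqrt hV0.le]; linarith
  have hls0 : 0 ≤ Real.log (Real.sqrt V) := Real.log_nonneg hsV
  set a : ℝ := (nm (e * A) : ℝ) with ha
  have ha1 : 1 ≤ a := one_le_nm (mul_ne_zero he hA)
  have ha0 : 0 < a := by linarith
  have hnM : (1 : ℝ) ≤ nm M0 := one_le_nm hM0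
  have hnν : (1 : ℝ) ≤ nm ν := one_le_nm hν
  have hM13 : 0 ≤ Mg' ^ ((1 : ℝ) / 3) := by positivity
  have hT0 : 0 ≤ T := by
    refine le_trans (Nat.cast_nonneg (tau (e * A * 1 * M0))) (hT 1 ?_)
    rw [mem_S hsV0]
    exact ⟨by rw [nm_one]; simpa using hsV, isPrim_one, squarefree_one⟩
  set P0 : ℝ := Mg' * (3 * K ^ ((2 : ℝ) / 3) * V ^ (-(1 / 3) : ℝ) / a) with hP0
  set P1 : ℝ := Mg' * (K * X ^ (-(1 / 3) : ℝ) / a + K ^ ((4 : ℝ) / 3) * X ^ (-(2 / 3) : ℝ) *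
        (nm M0 : ℝ) ^ ((1 : ℝ) / 3) / a) + (V * K * H) ^ ((1 : ℝ) / 3) * Mg' ^ ((1 : ℝ) / 3) +
        T * (V ^ ((2 : ℝ) / 3) * a * (nm M0 * nm ν) ^ ((1 : ℝ) / 3) * H ^ ((2 : ℝ) / 3)) with hP1
  have hP00 : 0 ≤ P0 := by positivity
  have hP10 : 0 ≤ P1 := by positivity
  have h1 : ∀ c ∈ C4, ∀ j₂ ∈ (S (Real.sqrt V)).filter (fun j₂ => 1 ≤ RR V e A c j₂),
      RR V e A c j₂ ^ (-(1 : ℝ) / 3) * (K / nm (e * A * j₂)) ^ ((2 : ℝ) / 3) *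
        (W * PRn (RR V e A c j₂) (K / nm (e * A * j₂))
          (RR V e A c j₂ * (nm ν : ℝ) ^ 2 * X / (K / nm (e * A * j₂)))
          (nm (e * A * j₂ * M0) * nm ν) Mg' (tau (e * A * j₂ * M0)) H) ≤
      W * (P0 + P1 * (1 / (nm j₂ : ℝ))) := by
    intro c hc j₂ hj
    rw [Finset.mem_filter] at hj
    obtain ⟨hjS, -⟩ := hj
    obtain ⟨hj1, hj2, hj3⟩ := (mem_S hsV0).mp hjS
    have hnj : (1 : ℝ) ≤ nm j₂ := one_le_nm hj2.ne_zero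
    obtain ⟨hc1, hc9⟩ := nm_C4 hc
    have e1 : (nm (e * A * j₂) : ℝ) = a * nm j₂ := by rw [nm_mul]; push_cast; rfl
    have e2 : (nm (e * A * j₂ * M0) : ℝ) * nm ν = a * nm j₂ * nm M0 * nm ν := by
      rw [nm_mul, Nat.cast_mul, e1]
    have e3 : RR V e A c j₂ = V * a / (nm c * (nm j₂ : ℝ) ^ 2) := rfl
    have h2 := PR_one (V := V) (K := K) (X := X) (a := a) (cc := nm c) (j := nm j₂)
      (nM := nm M0) (nν := nm ν) (H := H) (Mg' := Mg') (τD := (tau (e * A * j₂ * M0) : ℝ)) hV0 hK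
      hX ha0 hc1 hnj (by linarith) hnν hH hMg (Nat.cast_nonneg _)
    rw [← e3, ← e1] at h2
    rw [e1] at h2 ⊢
    rw [e2]
    have h3 : (nm c : ℝ) ^ ((1 : ℝ) / 3) ≤ 3 := by
      calc (nm c : ℝ) ^ ((1 : ℝ) / 3) ≤ (27 : ℝ) ^ ((1 : ℝ) / 3) :=
            Real.rpow_le_rpow (by positivity) (by linarith) (by norm_num)
        _ = ((3 : ℝ) ^ 3) ^ ((1 : ℝ) / 3) := by norm_num
        _ = 3 := r13 (by norm_num)
    calc _ = W * (RR V e A c j₂ ^ (-(1 : ℝ) / 3) * (K / (a * nm j₂)) ^ ((2 : ℝ) / 3) *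
          PRn (RR V e A c j₂) (K / (a * nm j₂))
          (RR V e A c j₂ * (nm ν : ℝ) ^ 2 * X / (K / (a * nm j₂)))
          (a * nm j₂ * nm M0 * nm ν) Mg' (tau (e * A * j₂ * M0)) H) := by ring
      _ ≤ W * (Mg' * ((nm c : ℝ) ^ ((1 : ℝ) / 3) * K ^ ((2 : ℝ) / 3) * V ^ (-(1 / 3) : ℝ) / a) +
          (Mg' * (K * X ^ (-(1 / 3) : ℝ) / a + K ^ ((4 : ℝ) / 3) * X ^ (-(2 / 3) : ℝ) *
          (nm M0 : ℝ) ^ ((1 : ℝ) / 3) / a) + (V * K * H) ^ ((1 : ℝ) / 3) * Mg' ^ ((1 : ℝ) / 3) +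
          (tau (e * A * j₂ * M0) : ℝ) * (V ^ ((2 : ℝ) / 3) * a *
            (nm M0 * nm ν) ^ ((1 : ℝ) / 3) * H ^ ((2 : ℝ) / 3))) * (1 / nm j₂)) :=
          mul_le_mul_of_nonneg_left h2 hW
      _ ≤ W * (P0 + P1 * (1 / (nm j₂ : ℝ))) := by
          rw [hP0, hP1]
          have := hT j₂ hjS
          gcongr
  have h2 : ∀ c ∈ C4, ∑ j₂ ∈ (S (Real.sqrt V)).filter (fun j₂ => 1 ≤ RR V e A c j₂),
      RR V e A c j₂ ^ (-(1 : ℝ) / 3) * (K / nm (e * A * j₂)) ^ ((2 : ℝ) / 3) *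
        (W * PRn (RR V e A c j₂) (K / nm (e * A * j₂))
          (RR V e A c j₂ * (nm ν : ℝ) ^ 2 * X / (K / nm (e * A * j₂)))
          (nm (e * A * j₂ * M0) * nm ν) Mg' (tau (e * A * j₂ * M0)) H) ≤
      W * (P0 * (100 * Real.sqrt V) + P1 * (100 * (1 + Real.log V))) := by
    intro c hc
    refine (Finset.sum_le_sum (h1 c hc)).trans ?_
    rw [← Finset.mul_sum]
    refine mul_le_mul_of_nonneg_left ?_ hW
    refine (Finset.sum_le_sum_of_subset_of_nonneg (Finset.filter_subset _ _)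
      (fun _ _ _ => by positivity)).trans ?_
    have e9 : ∑ j₂ ∈ S (Real.sqrt V), (P0 + P1 * (1 / (nm j₂ : ℝ))) =
        P0 * (S (Real.sqrt V)).card + P1 * ∑ j₂ ∈ S (Real.sqrt V), 1 / (nm j₂ : ℝ) := by
      rw [Finset.sum_add_distrib, Finset.sum_const, nsmul_eq_mul, Finset.mul_sum, mul_comm P0]
    rw [e9]
    refine add_le_add ?_ ?_
    · exact mul_le_mul_of_nonneg_left (card_S_le' hsV) hP00
    · refine mul_le_mul_of_nonneg_left ((E2440.sum_inv_S hsV).trans ?_) hP10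
      linarith
  refine (Finset.sum_le_sum h2).trans ?_
  rw [Finset.sum_const, nsmul_eq_mul]
  have e6 : V ^ (-(1 / 3) : ℝ) * Real.sqrt V = V ^ ((1 : ℝ) / 6) := by
    rw [Real.sqrt_eq_rpow, ← Real.rpow_add hV0]; norm_num
  have h3 : P0 * (100 * Real.sqrt V) + P1 * (100 * (1 + Real.log V)) ≤
      300 * (1 + Real.log V) * PJn K V X a (nm M0) (nm ν) H Mg' T := by
    have e7 : P0 * (100 * Real.sqrt V) =
        300 * (Mg' * (K ^ ((2 : ℝ) / 3) * V ^ ((1 : ℝ) / 6) / a)) := by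
      rw [hP0, ← e6]; ring
    rw [e7]
    unfold PJn
    set Q0 : ℝ := Mg' * (K ^ ((2 : ℝ) / 3) * V ^ ((1 : ℝ) / 6) / a) with hQ0
    have hQ00 : 0 ≤ Q0 := by positivity
    have e8 : Mg' * (K ^ ((2 : ℝ) / 3) * V ^ ((1 : ℝ) / 6) / a + K * X ^ (-(1 / 3) : ℝ) / a +
        K ^ ((4 : ℝ) / 3) * X ^ (-(2 / 3) : ℝ) * (nm M0 : ℝ) ^ ((1 : ℝ) / 3) / a) +
        (V * K * H) ^ ((1 : ℝ) / 3) * Mg' ^ ((1 : ℝ) / 3) +
        T * (V ^ ((2 : ℝ) / 3) * a * (nm M0 * nm ν) ^ ((1 : ℝ) / 3) * H ^ ((2 : ℝ) / 3)) =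
        Q0 + P1 := by rw [hQ0, hP1]; ring
    rw [e8]
    nlinarith [mul_nonneg hlV hQ00, mul_nonneg hlV hP10]
  have h4 : 0 ≤ P0 * (100 * Real.sqrt V) + P1 * (100 * (1 + Real.log V)) := by positivity
  calc (C4.card : ℝ) * (W * (P0 * (100 * Real.sqrt V) + P1 * (100 * (1 + Real.log V))))
      ≤ 4 * (W * (300 * (1 + Real.log V) * PJn K V X a (nm M0) (nm ν) H Mg' T)) :=
        mul_le_mul card_C4 (mul_le_mul_of_nonneg_left h3 hW) (by positivity) (by norm_num)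
    _ = _ := by ring

set_option maxHeartbeats 1000000 in
open Classical in
/-- **the cell sums, summed over `c` and `j₂`** -/
theorem GPsum_le {V K X B0 H Ax d0 T W : ℝ} {e A M0 ν g' : Eis} {ϑ ϑd : ℝ → ℝ}
    {N : Eis → Eis → Eis → ℕ} {N0 : ℕ} (hV : 1 ≤ V) (hK : 0 < K) (hX : 1 ≤ X) (he : e ≠ 0)
    (hA : A ≠ 0) (hM0 : M0 ≠ 0) (hν : IsPrim ν) (hg' : IsPrim g') (hH : 0 < H) (hW : 0 ≤ W)
    (hϑ : ∀ y : ℝ, 0 < y → 0 ≤ ϑ y ∧ ϑ y ≤ 1 ∧ ϑ y ≤ y ^ (-(1 / 3) : ℝ))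
    (hϑd : ∀ y : ℝ, 0 < y → 0 ≤ ϑd y ∧ ϑd y ≤ 1 ∧ ϑd y ≤ (H * y) ^ ((1 : ℝ) / 3))
    (hN : ∀ c ∈ C4, ∀ j₂ ∈ S (Real.sqrt V), 1 ≤ RR V e A c j₂ → ∀ B ∈ S X, N c j₂ B ≤ N0)
    (hT : ∀ j₂ ∈ S (Real.sqrt V), (tau (e * A * j₂ * M0) : ℝ) ≤ T) :
    ∑ c ∈ C4, ∑ j₂ ∈ (S (Real.sqrt V)).filter (fun j₂ => 1 ≤ RR V e A c j₂),
      RR V e A c j₂ ^ (-(1 : ℝ) / 3) * (K / nm (e * A * j₂)) ^ ((2 : ℝ) / 3) *
        ∑ B ∈ S X, ∑ j ∈ Finset.range (N c j₂ B), (if (nm B : ℝ) ≤ B0 then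
          ϑ (RR V e A c j₂ * (nm ν : ℝ) ^ 2 * (X / nm B) /
            (K / nm (e * A * j₂) / (nm B : ℝ) ^ 2 * 2 ^ j)) ^ 2
          else ϑd (2 ^ j / (K / nm (e * A * j₂) / (nm B : ℝ) ^ 2)) ^ 2) *
          ((2 / 2 ^ j) * (W * prM (RR V e A c j₂) (2 ^ j) Ax d0 (nm (e * A * j₂ * M0) * nm ν)
            (nm (b2 (e * A * j₂ * M0) B)) g' B)) ≤
      1200 * (1 + Real.log V) * ((W * (N0 * (200 * (1 + Real.log X)) * (Ax / nm g') ^ 2)) *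
        PJn K V X (nm (e * A)) (nm M0) (nm ν) H (Mu d0 g') T) := by
  have hV0 : 0 < V := by linarith
  have hsV0 : (0 : ℝ) ≤ Real.sqrt V := Real.sqrt_nonneg _
  have hlX : 0 ≤ Real.log X := Real.log_nonneg hX
  have hMg := Mu_nonneg d0 g'
  have hng : (1 : ℝ) ≤ nm g' := one_le_nm hg'.ne_zero
  refine le_trans ?_ (PJ_le (V := V) (K := K) (X := X) (H := H) (Mg' := Mu d0 g') (T := T)
    (W := W * (N0 * (200 * (1 + Real.log X)) * (Ax / nm g') ^ 2)) hV hK (by linarith) he hA hM0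
    hν.ne_zero hH hMg (by positivity) hT)
  refine Finset.sum_le_sum fun c hc => Finset.sum_le_sum fun j₂ hj => ?_
  rw [Finset.mem_filter] at hj
  obtain ⟨hjS, hR⟩ := hj
  obtain ⟨hj1, hj2, hj3⟩ := (mem_S hsV0).mp hjS
  have hE : e * A * j₂ ≠ 0 := mul_ne_zero (mul_ne_zero he hA) hj2.ne_zero
  have hE1 : (1 : ℝ) ≤ nm (e * A * j₂) := one_le_nm hE
  have hA' : 0 < K / nm (e * A * j₂) := by positivity
  refine mul_le_mul_of_nonneg_left ?_ (by positivity)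
  have h1 := GP_le (R := RR V e A c j₂) (X := X) (A := K / nm (e * A * j₂)) (B0 := B0) (H := H)
    (Ax := Ax) (d0 := d0) (L := nm (e * A * j₂ * M0) * nm ν) (ν := ν) (D := e * A * j₂ * M0)
    (g' := g') (ϑ := ϑ) (ϑd := ϑd) (N := N c j₂) (N0 := N0) hR hX hA' hH.le (by positivity) hν
    (mul_ne_zero hE hM0) hg' hϑ hϑd (fun B hB => hN c hc j₂ hjS hR B hB)
  have e1 : ∀ B ∈ S X, ∑ j ∈ Finset.range (N c j₂ B), (if (nm B : ℝ) ≤ B0 then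
          ϑ (RR V e A c j₂ * (nm ν : ℝ) ^ 2 * (X / nm B) /
            (K / nm (e * A * j₂) / (nm B : ℝ) ^ 2 * 2 ^ j)) ^ 2
          else ϑd (2 ^ j / (K / nm (e * A * j₂) / (nm B : ℝ) ^ 2)) ^ 2) *
          ((2 / 2 ^ j) * (W * prM (RR V e A c j₂) (2 ^ j) Ax d0 (nm (e * A * j₂ * M0) * nm ν)
            (nm (b2 (e * A * j₂ * M0) B)) g' B)) =
      W * ∑ j ∈ Finset.range (N c j₂ B), (if (nm B : ℝ) ≤ B0 then
          ϑ (RR V e A c j₂ * (nm ν : ℝ) ^ 2 * (X / nm B) /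
            (K / nm (e * A * j₂) / (nm B : ℝ) ^ 2 * 2 ^ j)) ^ 2
          else ϑd (2 ^ j / (K / nm (e * A * j₂) / (nm B : ℝ) ^ 2)) ^ 2) *
          ((2 / 2 ^ j) * prM (RR V e A c j₂) (2 ^ j) Ax d0 (nm (e * A * j₂ * M0) * nm ν)
            (nm (b2 (e * A * j₂ * M0) B)) g' B) := by
    intro B _
    rw [Finset.mul_sum]
    exact Finset.sum_congr rfl fun j _ => by ring
  rw [Finset.sum_congr rfl e1, ← Finset.mul_sum]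
  refine (mul_le_mul_of_nonneg_left h1 hW).trans (le_of_eq ?_)
  ring

end Crest.Agent.R017.PrD502
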