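import Crest.Agent.R017.PrD4_502
import Crest.Agent.R017.PB_791
import Crest.Agent.R017.MoL1_106
import Crest.Agent.R017.ExRed2_848

/-!
# Row 17, T.7: the principal half of `E2`, part 5: the values (helper502)

* `pv_bw` : the principal values of the twisted window at height `t₀`
* `pv_xr` : the principal values of 791's `xr` (`cs_ex`)
-/

set_option autoImplicit false
set_option linter.unusedVariables false
set_option linter.unusedSectionVars false

noncomputable section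

open Complex MeasureTheory Filter
open scoped ComplexConjugate

namespace Crest.Agent.R017.PrD502

open Crest.Agent.R012 Crest.Agent.R012.Eis Crest.Agent.R012.GaussLoc283
open Crest.Agent.R012.Weight600 (osc norm_osc pw)
open Crest.Agent.R017.CM106 (CS FS)
open Crest.Agent.R017.Win813 (WK ew wn supp_fin pw_split iA integrable_ew integral_ew)
open Crest.Agent.R017.RGw813 (bt T9)
open Crest.Agent.R017.MoL106 (kw kw_ne)
open Crest.Agent.R017.ExD791 (Mg xr)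

lemma PV.mono {Pr Pr' : Eis → Prop} {J : ℕ} {Ax Ax' d0 Zp Zp' : ℝ} {al : Eis → ℂ}
    (h : PV Pr J Ax d0 Zp al) (hP : ∀ k, k ≠ 0 → Pr' k → Pr k) (hA : Ax ≤ Ax') (hZ : Zp' ≤ Zp) :
    PV Pr' J Ax' d0 Zp' al := by
  intro g hg hgZ k hk hkZ hp t
  have hMg : 0 ≤ Mg d0 g := by unfold ExD791.Mg; positivity
  refine (h g hg (hgZ.trans hZ) k hk (hkZ.trans hZ) (hP k hk hp) t).trans ?_
  gcongr

lemma one_add_add3 (t a s : ℝ) : 1 + |t + a + s| ≤ (1 + |t|) * (1 + |a|) * (1 + |s|) := by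
  have h1 := abs_add_le (t + a) s
  have h2 := abs_add_le t a
  have := abs_nonneg t
  have := abs_nonneg a
  have := abs_nonneg s
  nlinarith [mul_nonneg (abs_nonneg t) (abs_nonneg a), mul_nonneg (abs_nonneg t) (abs_nonneg s),
    mul_nonneg (abs_nonneg a) (abs_nonneg s),
    mul_nonneg (mul_nonneg (abs_nonneg t) (abs_nonneg a)) (abs_nonneg s)]

lemma ew_pow {A J : ℕ} {η : ℝ} (hη : 0 < η) (hη1 : η ≤ 1) (hJ : J ≤ A) (s : ℝ) :
    ew A η s * (1 + |s|) ^ J ≤ (η⁻¹) ^ J * ew (A - J) η s := by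
  have hs := abs_nonneg s
  have h1 : 1 + |s| ≤ η⁻¹ * (1 + η * |s|) := by
    have e : η⁻¹ * (1 + η * |s|) = η⁻¹ + |s| := by field_simp
    rw [e]
    have := one_le_inv_iff₀.mpr ⟨hη, hη1⟩
    linarith
  have h2 : (1 + |s|) ^ J ≤ (η⁻¹) ^ J * (1 + η * |s|) ^ J := by
    rw [← mul_pow]
    exact pow_le_pow_left₀ (by positivity) h1 J
  unfold Win813.ew
  have hb : 0 < 1 + η * |s| := by positivity
  have e2 : (1 + η * |s|) ^ A = (1 + η * |s|) ^ (A - J) * (1 + η * |s|) ^ J := by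
    rw [← pow_add, Nat.sub_add_cancel hJ]
  calc η * ((1 + η * |s|) ^ A)⁻¹ * (1 + |s|) ^ J
      ≤ η * ((1 + η * |s|) ^ A)⁻¹ * ((η⁻¹) ^ J * (1 + η * |s|) ^ J) :=
        mul_le_mul_of_nonneg_left h2 (by positivity)
    _ = (η⁻¹) ^ J * (η * ((1 + η * |s|) ^ (A - J))⁻¹) * ((1 + η * |s|) ^ J *
        ((1 + η * |s|) ^ J)⁻¹) := by rw [e2, mul_inv]; ring
    _ = _ := by rw [mul_inv_cancel₀ (by positivity), mul_one]

set_option maxHeartbeats 1000000 in
/-- **the principal values of the twisted window at height `t₀`** -/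
theorem pv_bw {J : ℕ} {Ax d0 Zp : ℝ} {x : Eis → ℂ} (hx : FS x)
    (hV : PV (fun H => ∃ c, H = c ^ 3) J Ax d0 Zp x) (hAx : 0 ≤ Ax) {Cw η : ℝ} {Aw : ℕ}
    {φ : ℝ → ℝ} (hφ : WK Cw η Aw φ) (hC : 0 ≤ Cw) (hη : 0 < η) (hη1 : η ≤ 1) (hJ : J + 2 ≤ Aw)
    (p : ℕ × ℕ) (t₀ : ℝ) :
    PV (fun H => ∃ c, H * kw p ^ 2 = c ^ 3) J
      (Cw * iA (Aw - J) * (η⁻¹) ^ J * (1 + |t₀|) ^ J * Ax) d0 (Zp / (nm (kw p) : ℝ) ^ 2)
      (fun n => bt φ x p n * pw t₀ (nm n)) := by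
  intro g hg hgZ k hk hkZ hp t
  obtain ⟨kk, hk1, hk2, hk3⟩ := hφ
  have hκ := kw_ne p
  have hnκ : (1 : ℝ) ≤ nm (kw p) := E2440.one_le_nm hκ
  have hZp : Zp / (nm (kw p) : ℝ) ^ 2 ≤ Zp ∨ Zp < 0 := by
    rcases le_or_gt 0 Zp with h | h
    · exact Or.inl (div_le_self h (one_le_pow₀ hnκ))
    · exact Or.inr h
  have hng : (1 : ℝ) ≤ nm g := E2440.one_le_nm hg.ne_zero
  have hZ0 : 0 ≤ Zp := by
    by_contra h
    push Not at h
    have : Zp / (nm (kw p) : ℝ) ^ 2 < 0 := div_neg_of_neg_of_pos h (by positivity)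
    linarith
  have hgZ' : (nm g : ℝ) ≤ Zp := hgZ.trans (div_le_self hZ0 (one_le_pow₀ hnκ))
  have hkZ' : (nm (k * kw p ^ 2) : ℝ) ≤ Zp := by
    rw [nm_mul, nm_pow]
    push_cast
    rwa [le_div_iff₀ (by positivity)] at hkZ
  have hkκ : k * kw p ^ 2 ≠ 0 := mul_ne_zero hk (pow_ne_zero _ hκ)
  have hMg : 0 ≤ Mg d0 g := by unfold ExD791.Mg; positivity
  -- the values of `x`
  have hval : ∀ s : ℝ, ‖∑' n : Eis, x (g * n) * (osc (t + t₀ + s) (Real.log (nm n)) *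
      sy (k * kw p ^ 2) n)‖ ≤ ((1 + |t|) * (1 + |t₀|) * (1 + |s|)) ^ J * (Ax / nm g * Mg d0 g) := by
    intro s
    refine (hV g hg hgZ' _ hkκ hkZ' hp (t + t₀ + s)).trans ?_
    refine mul_le_mul_of_nonneg_right ?_ (by positivity)
    exact pow_le_pow_left₀ (by positivity) (one_add_add3 t t₀ s) J
  -- the finite support
  obtain ⟨T, hT, hT'⟩ := supp_fin hx hg.ne_zero
  have hTp : ∀ n ∈ T, IsPrim n := fun n hn => (hx.prim _ (hT' n hn)).of_mul_left hg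
  set c0 : ℂ := conj (sy (kw p) g) * pw t₀ (nm g) with hc0
  have hc01 : ‖c0‖ ≤ 1 := by
    rw [hc0, norm_mul, RCLike.norm_conj, Weight600.norm_pw, mul_one]
    exact syAx.norm_le_one (kw p) hg
  set Fx : ℝ → ℂ := fun s => ∑' n : Eis, x (g * n) * (osc (t + t₀ + s) (Real.log (nm n)) *
      sy (k * kw p ^ 2) n) with hFx
  have hFs : ∀ s, Fx s = ∑ n ∈ T, x (g * n) * (osc (t + t₀ + s) (Real.log (nm n)) *
      sy (k * kw p ^ 2) n) := by
    intro s
    simp only [hFx]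
    refine tsum_eq_sum fun n hn => ?_
    have h0 : x (g * n) = 0 := by
      by_contra h; exact hn (hT n h)
    rw [h0, zero_mul]
  have hA2 : 2 ≤ Aw := by omega
  have hki : Integrable kk := by
    refine ((integrable_ew hA2 hη).const_mul Cw).mono' hk1.aestronglyMeasurable
      (Eventually.of_forall fun s => hk2 s)
  have hint : ∀ u : ℝ, Integrable fun s => kk s * osc s u := fun u =>
    hki.mul_bdd (c := 1) (Weight600.continuous_osc_left u).aestronglyMeasurable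
      (Eventually.of_forall fun t => (norm_osc _ _).le)
  -- the identity
  have e1 : ∑' n : Eis, (fun n => bt φ x p n * pw t₀ (nm n)) (g * n) *
      (osc t (Real.log (nm n)) * sy k n) =
      ∫ s, kk s * (osc s (Real.log (nm g)) * (c0 * Fx s)) := by
    have e2 : ∀ n ∈ T, (bt φ x p (g * n) * pw t₀ (nm (g * n))) *
        (osc t (Real.log (nm n)) * sy k n) =
        ∫ s, (c0 * (x (g * n) * (osc (t + t₀) (Real.log (nm n)) * sy (k * kw p ^ 2) n))) *
          (kk s * osc s (Real.log (nm (g * n)))) := by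
      intro n hn
      have hn1 := hTp n hn
      rw [integral_const_mul, ← hk3, pw_split hg.ne_zero hn1.ne_zero]
      have e3 : sy (k * kw p ^ 2) n = sy k n * conj (sy (kw p) n) := by
        rw [syAx.mul_left _ _ _ hn1, syAx.pow_left (kw p) hn1, ← syAx.conj_eq_sq (kw p) hn1]
      have e4 : conj (sy (kw p) (g * n)) = conj (sy (kw p) g) * conj (sy (kw p) n) := by
        rw [syAx.mul_right _ _ _ hg hn1, map_mul]
      have e5 : pw t₀ (nm n) = osc t₀ (Real.log (nm n)) := rfl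
      have e6 : bt φ x p (g * n) = x (g * n) * (φ (Real.log (nm (g * n))) : ℂ) *
          conj (sy (kw p) (g * n)) := rfl
      rw [e6, e4, e3, e5, Weight600.osc_add_left, hc0]
      ring
    rw [tsum_eq_sum (s := T)]
    · have e7 : ∑ n ∈ T, (fun n => bt φ x p n * pw t₀ (nm n)) (g * n) *
          (osc t (Real.log (nm n)) * sy k n) = ∑ n ∈ T,
          ∫ s, (c0 * (x (g * n) * (osc (t + t₀) (Real.log (nm n)) * sy (k * kw p ^ 2) n))) *
          (kk s * osc s (Real.log (nm (g * n)))) := Finset.sum_congr rfl e2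
      rw [e7, ← integral_finsetSum _ fun n _ => (hint _).const_mul _]
      congr 1
      funext s
      rw [hFs, Finset.mul_sum, Finset.mul_sum, Finset.mul_sum]
      refine Finset.sum_congr rfl fun n hn => ?_
      have hn1 := hTp n hn
      have hnn : ((nm n : ℕ) : ℝ) ≠ 0 := by exact_mod_cast (nm_pos.2 hn1.ne_zero).ne'
      have hgg : ((nm g : ℕ) : ℝ) ≠ 0 := by exact_mod_cast (nm_pos.2 hg.ne_zero).ne'
      rw [nm_mul, Nat.cast_mul, Real.log_mul hgg hnn, Weight600.osc_add_right,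
        Weight600.osc_add_left (t + t₀) s]
      ring
    · intro n hn
      have h0 : x (g * n) = 0 := by
        by_contra h; exact hn (hT n h)
      have e6 : bt φ x p (g * n) = x (g * n) * (φ (Real.log (nm (g * n))) : ℂ) *
          conj (sy (kw p) (g * n)) := rfl
      show (bt φ x p (g * n) * pw t₀ (nm (g * n))) * (osc t (Real.log (nm n)) * sy k n) = 0
      rw [e6, h0]
      ring
  rw [e1]
  set V : ℝ := ((1 + |t|) * (1 + |t₀|)) ^ J * (Ax / nm g * Mg d0 g) with hVd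
  have hV0 : 0 ≤ V := by positivity
  have hpt : ∀ s, ‖kk s * (osc s (Real.log (nm g)) * (c0 * Fx s))‖ ≤
      (Cw * (η⁻¹) ^ J * V) * ew (Aw - J) η s := by
    intro s
    rw [norm_mul, norm_mul, norm_osc, one_mul, norm_mul]
    have h1 := hval s
    have h2 := ew_pow (A := Aw) (J := J) hη hη1 (by omega) s
    have hew := Win813.ew_nonneg (A := Aw) hη s
    have h3 : ‖c0‖ * ‖Fx s‖ ≤ (1 + |s|) ^ J * V := by
      calc ‖c0‖ * ‖Fx s‖ ≤ 1 * ‖Fx s‖ := mul_le_mul_of_nonneg_right hc01 (norm_nonneg _)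
        _ ≤ ((1 + |t|) * (1 + |t₀|) * (1 + |s|)) ^ J * (Ax / nm g * Mg d0 g) := by
            rw [one_mul]; exact h1
        _ = _ := by rw [hVd, mul_pow]; ring
    calc ‖kk s‖ * (‖c0‖ * ‖Fx s‖) ≤ (Cw * ew Aw η s) * ((1 + |s|) ^ J * V) :=
          mul_le_mul (hk2 s) h3 (by positivity) (by positivity)
      _ = Cw * V * (ew Aw η s * (1 + |s|) ^ J) := by ring
      _ ≤ Cw * V * ((η⁻¹) ^ J * ew (Aw - J) η s) := mul_le_mul_of_nonneg_left h2 (by positivity)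
      _ = _ := by ring
  refine (norm_integral_le_of_norm_le
    ((integrable_ew (A := Aw - J) (by omega) hη).const_mul _)
    (Eventually.of_forall hpt)).trans (le_of_eq ?_)
  rw [integral_const_mul, integral_ew _ hη, hVd, mul_pow]
  ring

/-- the values from the `CS` form -/
lemma pv_cs {Pr : Eis → Prop} {J : ℕ} {Ax d0 Zp : ℝ} {x : Eis → ℂ}
    (h : ∀ g : Eis, IsPrim g → (nm g : ℝ) ≤ Zp → ∀ k : Eis, k ≠ 0 → (nm k : ℝ) ≤ Zp → Pr k →
      ∀ t : ℝ, ‖CS (E1551.tws (E1551.sg x g) t) k‖ ≤ Ax * (nm g : ℝ)⁻¹ * Mg d0 g * (1 + |t|) ^ J) :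
    PV Pr J Ax d0 Zp x := by
  intro g hg hgZ k hk hkZ hp t
  have e : ∑' n : Eis, x (g * n) * (osc t (Real.log (nm n)) * sy k n) =
      CS (E1551.tws (E1551.sg x g) t) k := by
    unfold CM106.CS E1551.tws E1551.sg Weight600.pw
    exact tsum_congr fun n => by ring
  rw [e]
  refine (h g hg hgZ k hk hkZ hp t).trans (le_of_eq ?_)
  rw [div_eq_mul_inv]; ring

open Crest.Agent.R017.End699 Crest.Agent.R017.FE47 Crest.Agent.R017.Two939 in
open Crest.Agent.R017.TXC791 in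
open Crest.Agent.R017.B770 in
open Crest.Agent.R017.Leg381 (Pf LF) in
open Crest.Agent.R017.OKi848 (OKi) in
open Crest.Agent.R017.RG64 (Ht) in
open Crest.Agent.R017.Sup271 (NPm) in
/-- **the principal values of 791's `xr`** -/
theorem pv_xr {h : ℝ → ℝ} {c : ℝ} (hpu : PU h c) (N : ℕ) {B : ℝ} (hB : 0 ≤ B) {ε : ℝ}
    (hε : 0 < ε) :
    ∃ C : ℝ, 1 ≤ C ∧ ∀ X : ℝ, 3 ≤ X → ∀ P : DPar, OKi P → HC P.n P.ψ → (nm P.n : ℝ) ≤ X ^ B →
      (∀ k : Eis, k ≠ 0 → (∃ c, k = c ^ 3) → ¬ NPm P.n P.ψ P.l₂ k) →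
      ∀ z D0 : ℝ, 1 ≤ D0 →
      ∀ (p1 p2 : Pf) (l : List Pf), p1.1.u = .one → p2.1.u = .one → p1.1.kd = .mo →
      p2.1.kd = .mo → (nm p1.1.d : ℝ) ≤ X ^ B → (nm p2.1.d : ℝ) ≤ X ^ B → l.length ≤ N →
      LF l ≤ B * Real.log X →
      ∀ d s0 : ℝ, s0 ≤ p1.1.z → s0 ≤ p2.1.z → s0 ≤ p1.1.z + p2.1.z - d → s0 ≤ d →
      s0 ≤ B * Real.log X → ∀ (q : Eis), q ≠ 0 → (nm q : ℝ) ≤ X ^ B →
      PV (fun H => ∃ c, H = c ^ 3) 6
        (C * X ^ ε * D0 ^ 2 * Ht (p1 :: p2 :: l) ^ 3 * Real.exp (LF (p1 :: p2 :: l))) s0 (X ^ B)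
        (xr z D0 P h q p1 p2 l d) := by
  obtain ⟨C, hC, hb⟩ := ExD791.cs_ex hpu N hB hε
  refine ⟨C, hC, ?_⟩
  intro X hX P hP hψ hPn hnp z D0 hD0 p1 p2 l hu1 hu2 hk1 hk2 hd1 hd2 hlen hLl d s0 hy1 hy2
    hy3 hy4 hs0 q hq hqX
  refine pv_cs fun g hg hgZ k hk hkZ hp t => ?_
  exact hb X hX P hP hψ hPn z D0 hD0 p1 p2 l hu1 hu2 hk1 hk2 hd1 hd2 hlen hLl k hk hkZ
    (hnp k hk hp) d s0 hy1 hy2 hy3 hy4 hs0 q g hq hqX hg hgZ t

open Crest.Agent.R017.Sup271 (NPm) in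
/-- cubes are principal for the reduced character -/
lemma cube_np {n : Eis} (hn : n ≠ 0) (k : Eis) (hk : k ≠ 0) (h : ∃ c, k = c ^ 3) :
    ¬ NPm n (End699.prin0 n) 0 k := by
  intro h1
  obtain ⟨c, hc⟩ := h
  exact ((Red848.NPm_prin_iff hn hk).mp h1).2 c hc

end Crest.Agent.R017.PrD502
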