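import Crest.Agent.R017.PrD5_502
import Crest.Agent.R017.PrE_176
import Crest.Agent.R017.E2ze_440

/-!
# Row 17, T.7: the principal half of `E2` as one theorem (helper502)

* `PR_half` : `Ex c j₂ B j` with (i) the moment hypothesis `MH` of the principal half and (ii) the
  bound of the sum over `c`, `j₂` of the weighted shell sums `GKd`
-/

set_option autoImplicit false
set_option linter.unusedVariables false
set_option linter.unusedSectionVars false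

noncomputable section

open Complex MeasureTheory Filter
open scoped ComplexConjugate

namespace Crest.Agent.R017.PrD502

open Crest.Agent.R012 Crest.Agent.R012.Eis Crest.Agent.R012.GaussLoc283
open Crest.Agent.R012.Div277
open Crest.Agent.R012.Mob705 hiding pb mem_pb
open Crest.Agent.R012.LS2 (S mem_S)
open Crest.Agent.R012.Weight600 (osc norm_osc pw)
open Crest.Agent.R017.CM106 (CS FS)
open Crest.Agent.R017.H1401 (DN WM)
open Crest.Agent.R017.X6C180 (IX dl' Sg)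
open Crest.Agent.R017.GrB829 (IsC)
open Crest.Agent.R017.Win813 (WK iA)
open Crest.Agent.R017.RGw813 (bt T9)
open Crest.Agent.R017.MoL106 (kw kw_ne)
open Crest.Agent.R017.E2440 (ag one_le_nm RR C4 mem_C4 prs mem_prs NBf NBf_le GKd
  shells_small le_two_pow_ceil isC_sg)
open Crest.Agent.R017.PrE176 (PJm GPsumM_le)

/-- the norms of the twists `dl'` -/
def cdl : ℝ := 1 + ∑ c ∈ C4, ∑ i : IX c, (nm (dl' c i) : ℝ)

lemma one_le_cdl : 1 ≤ cdl := by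
  unfold cdl
  have : 0 ≤ ∑ c ∈ C4, ∑ i : IX c, (nm (dl' c i) : ℝ) :=
    Finset.sum_nonneg fun _ _ => Finset.sum_nonneg fun _ _ => by positivity
  linarith

lemma le_cdl {c : Eis} (hc : c ∈ C4) (i : IX c) : (nm (dl' c i) : ℝ) ≤ cdl := by
  unfold cdl
  have h1 : (nm (dl' c i) : ℝ) ≤ ∑ i : IX c, (nm (dl' c i) : ℝ) :=
    Finset.single_le_sum (f := fun i : IX c => (nm (dl' c i) : ℝ)) (fun _ _ => by positivity)
      (Finset.mem_univ i)
  have h2 : ∑ i : IX c, (nm (dl' c i) : ℝ) ≤ ∑ c ∈ C4, ∑ i : IX c, (nm (dl' c i) : ℝ) :=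
    Finset.single_le_sum (f := fun c => ∑ i : IX c, (nm (dl' c i) : ℝ))
      (fun _ _ => Finset.sum_nonneg fun _ _ => by positivity) hc
  linarith

lemma nm_kw {p : ℕ × ℕ} (hp : p ∈ T9) : (nm (kw p) : ℝ) ≤ 9 := by
  have hw : nm (w : Eis) = 1 := by decide
  have hl : nm (lam : Eis) = 3 := by decide
  unfold RGw813.T9 at hp
  rw [Finset.mem_product, Finset.mem_range, Finset.mem_range] at hp
  unfold MoL106.kw
  rw [nm_mul, nm_pow, nm_pow, hw, hl]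
  push_cast
  have h1 : (3 : ℝ) ^ p.2 ≤ 3 ^ 2 := pow_le_pow_right₀ (by norm_num) (by omega)
  norm_num at h1 ⊢
  linarith

lemma two_pow_ceil_le {y : ℝ} (hy : 1 ≤ y) : (2 : ℝ) ^ ⌈Real.logb 2 y⌉₊ ≤ 2 * y := by
  have hy0 : 0 < y := by linarith
  have h0 : 0 ≤ Real.logb 2 y := Real.logb_nonneg (by norm_num) hy
  have h1 := (Nat.ceil_lt_add_one h0).le
  calc (2 : ℝ) ^ ⌈Real.logb 2 y⌉₊ = (2 : ℝ) ^ ((⌈Real.logb 2 y⌉₊ : ℕ) : ℝ) :=
        (Real.rpow_natCast _ _).symm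
    _ ≤ (2 : ℝ) ^ (Real.logb 2 y + 1) := Real.rpow_le_rpow_of_exponent_le (by norm_num) h1
    _ = 2 * y := by
        rw [Real.rpow_add (by norm_num), Real.rpow_logb (by norm_num) (by norm_num) hy0,
          Real.rpow_one]
        ring

lemma MH_monoJ {W : ℝ → Eis → Eis → ℝ} {P : Eis → ℕ → Eis → Eis → Eis → Prop}
    {Q : Eis → Eis → Eis → Prop} {α : Eis → ℂ} {E σ ν : Eis} {X : ℝ} {J J' : ℕ} {N : Eis → ℕ}
    {Mw : Eis → ℕ → ℝ} (h : E2sp579.MH W P Q α E σ ν X J N Mw) (hJ : J ≤ J')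
    (h0 : ∀ B j, 0 ≤ Mw B j) : E2sp579.MH W P Q α E σ ν X J' N Mw := by
  intro B hB i t j hj
  refine (h B hB i t j hj).trans ?_
  refine mul_le_mul_of_nonneg_right ?_ (h0 B j)
  exact pow_le_pow_right₀ (by have := abs_nonneg t; linarith) hJ

lemma PJm_mono3 {K V X a nM nν H Mg' T : ℝ} (hV : 0 < V) (hK : 0 < K) (hX : 0 < X) (ha : 0 < a)
    (hM : 0 ≤ nM) (hν : 0 < nν) (hH : 0 < H) (hMg : 0 ≤ Mg') (h3 : nM ^ ((1 : ℝ) / 3) ≤ 3)
    (hT : 1 ≤ T) : PJm K V X a nM nν H Mg' T ≤ 3 * T * PJm K V X a 1 nν H Mg' 1 := by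
  unfold PJm
  rw [Real.one_rpow, one_mul nν, Real.mul_rpow hM hν.le]
  set q0 : ℝ := K ^ ((2 : ℝ) / 3) * V ^ ((1 : ℝ) / 6) / a with hq0
  set q1 : ℝ := K * X ^ (-(1 / 3) : ℝ) * nν ^ (-(2 / 3) : ℝ) / a with hq1
  set q2 : ℝ := K ^ ((4 : ℝ) / 3) * X ^ (-(2 / 3) : ℝ) with hq2
  set q3 : ℝ := (V * K * H) ^ ((1 : ℝ) / 3) * Mg' ^ ((1 : ℝ) / 3) with hq3
  set q4 : ℝ := V ^ ((2 : ℝ) / 3) * a with hq4
  set q5 : ℝ := nν ^ ((1 : ℝ) / 3) with hq5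
  set q6 : ℝ := H ^ ((2 : ℝ) / 3) with hq6
  set m : ℝ := nM ^ ((1 : ℝ) / 3) with hm
  have a0 : 0 ≤ q0 := by positivity
  have a1 : 0 ≤ q1 := by positivity
  have a2 : 0 ≤ q2 * nν⁻¹ / a := by positivity
  have a3 : 0 ≤ q3 := by positivity
  have a4 : 0 ≤ q4 * q5 * q6 := by positivity
  have hm0 : 0 ≤ m := by positivity
  calc Mg' * (q0 + q1 + q2 * m * nν⁻¹ / a) + q3 + T * (q4 * (m * q5) * q6)
      = Mg' * (1 * q0 + 1 * q1 + m * (q2 * nν⁻¹ / a)) + 1 * q3 + T * (m * (q4 * q5 * q6)) := by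
        ring
    _ ≤ Mg' * ((3 * T) * q0 + (3 * T) * q1 + (3 * T) * (q2 * nν⁻¹ / a)) + (3 * T) * q3 +
        T * (3 * (q4 * q5 * q6)) := by
        have h1 : (1 : ℝ) ≤ 3 * T := by linarith
        have h2 : m ≤ 3 * T := by linarith
        gcongr
    _ = 3 * T * (Mg' * (q0 + q1 + q2 * 1 * nν⁻¹ / a) + q3 + 1 * (q4 * q5 * q6)) := by ring

set_option maxHeartbeats 4000000 in
open Classical in
/-- **the principal half** -/
theorem PR_half {ε ε' : ℝ} (hε : 0 < ε) (hε' : 0 < ε') (J : ℕ) : ∃ (b : ℕ) (C : ℝ), 1 ≤ C ∧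
    ∀ P : ℝ, 1 ≤ P → ∀ {x : Eis → ℂ} {Ax d0 Zp : ℝ}, FS x → 0 ≤ Ax →
    PV (fun H => ∃ c, H = c ^ 3) J Ax d0 Zp x → C * P ^ b ≤ Zp →
    ∀ {Cw η : ℝ} {Aw : ℕ} {φ : ℝ → ℝ}, WK Cw η Aw φ → 0 ≤ Cw → 0 < η → η ≤ 1 → J + 2 ≤ Aw →
    ∀ p ∈ T9, ∀ (t₀ : ℝ) (Jt : ℕ), 2 * J ≤ Jt →
    ∀ X V K B0 H : ℝ, X ≤ P → 1 ≤ V → V ≤ P → 0 < K → K⁻¹ ≤ P → K ≤ P → 1 ≤ H → H ≤ P →
    ∀ δ e : Eis, IsPrim δ → Squarefree δ → (nm δ : ℝ) ≤ P → IsPrim e → (nm e : ℝ) ≤ P →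
    ∀ y ∈ prs δ, ∀ A ∈ pdiv y.1, (nm y.1 : ℝ) ≤ X →
    ∃ Ex : Eis → Eis → Eis → ℕ → ℝ, (∀ c j₂ B j, 0 ≤ Ex c j₂ B j) ∧
      (∀ c ∈ C4, ∀ j₂ ∈ S (Real.sqrt V), 1 ≤ RR V e A c j₂ →
        E2sp579.MH (WM (RR V e A c j₂)) (fun n j g₂ g₃ d => DN n g₂ g₃ d ∧ (2 : ℝ) ^ j / 2 < nm d)
          (fun B τ d => ∃ c₀, d * (e * A * j₂ * τ * B ^ 2) * kw p ^ 2 = c₀ ^ 3)
          (ag (fun n => bt φ x p n * pw t₀ (nm n)) δ y.1) (e * A * j₂) c y.2 (X / nm y.1) Jt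
          (NBf (P ^ ε') H (X / nm y.1) (RR V e A c j₂) (K / nm (e * A * j₂)) B0 y.2)
          (Ex c j₂)) ∧
      ∀ ϑ ϑd : ℝ → ℝ, (∀ y : ℝ, 0 < y → 0 ≤ ϑ y ∧ ϑ y ≤ 1 ∧ ϑ y ≤ y ^ (-(1 / 3) : ℝ)) →
        (∀ y : ℝ, 0 < y → 0 ≤ ϑd y ∧ ϑd y ≤ 1 ∧ ϑd y ≤ (H * y) ^ ((1 : ℝ) / 3)) →
        ∑ c ∈ C4, ∑ j₂ ∈ (S (Real.sqrt V)).filter (fun j₂ => 1 ≤ RR V e A c j₂),
          RR V e A c j₂ ^ (-(1 : ℝ) / 3) * (K / nm (e * A * j₂)) ^ ((2 : ℝ) / 3) *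
            GKd ϑ ϑd (RR V e A c j₂) (X / nm y.1) (K / nm (e * A * j₂)) B0 y.2
              (NBf (P ^ ε') H (X / nm y.1) (RR V e A c j₂) (K / nm (e * A * j₂)) B0 y.2)
              (fun B j => (2 / 2 ^ j) * Ex c j₂ B j) ≤
          C * P ^ ε * ((Cw * iA (Aw - J) * (η⁻¹) ^ J * (1 + |t₀|) ^ J * Ax / nm y.1) ^ 2 *
            PJm K V (X / nm y.1) (nm (e * A)) 1 (nm y.2) H (Mu d0 y.1) 1) := by
  set cN : ℕ := ⌈ε'⌉₊ + 12 with hcN
  have hε8 : 0 < ε / 8 := by positivity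
  set ε0 : ℝ := ε / 8 / (cN + 2) with hε0
  have hcN0 : (0 : ℝ) < (cN : ℝ) + 2 := by positivity
  have hε00 : 0 < ε0 := by positivity
  have hε0e : ((cN : ℝ) + 2) * ε0 = ε / 8 := by rw [hε0]; field_simp
  obtain ⟨C0, hC0, hMH⟩ := MH_pr hε00
  obtain ⟨C1, hC1, hN0⟩ := shells_small hε8 cN
  obtain ⟨Ct, hCt, htau⟩ := tau_le_rpow (ε := ε / 8 / 3) (by positivity)
  have hcd := one_le_cdl
  set L1 : ℝ := 1 + (ε / 8)⁻¹ with hL1
  have hL11 : 1 ≤ L1 := by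
    rw [hL1]
    have : 0 < (ε / 8)⁻¹ := by positivity
    linarith
  set CW : ℝ := C0 * 40 ^ ε0 * L1 with hCW
  have h40 : 1 ≤ (40 : ℝ) ^ ε0 := Real.one_le_rpow (by norm_num) hε00.le
  have hCW1 : 1 ≤ CW := by
    rw [hCW]
    exact one_le_mul_of_one_le_of_one_le (one_le_mul_of_one_le_of_one_le hC0 h40) hL11
  set CT : ℝ := Ct * 9 ^ (ε / 8 / 3) with hCT
  have hCT1 : 1 ≤ CT := by
    rw [hCT]
    exact one_le_mul_of_one_le_of_one_le hCt (Real.one_le_rpow (by norm_num) (by positivity))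
  refine ⟨cN + 9, 81 * 40 * cdl + 1200 * L1 * (CW * (C1 * (200 * L1))) * (3 * CT), ?_, ?_⟩
  · have : 0 ≤ 1200 * L1 * (CW * (C1 * (200 * L1))) * (3 * CT) := by positivity
    linarith
  intro P hP x Ax d0 Zp hx hAx hV hZp Cw η Aw φ hφ hCw hη hη1 hJ p hp t₀ Jt hJt X V K B0 H hXP hV1
    hVP hK hKi hKP hH1 hHP δ e hδ hδs hδP he heP y hy A hA hyX
  have hy' := (mem_prs hδ).mp hy
  have hA' := (mem_pdiv hy'.1.ne_zero).mp hA
  have hP0 : 0 < P := by linarith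
  have hPe : 1 ≤ P ^ ε' := Real.one_le_rpow hP hε'.le
  have hy1 : (1 : ℝ) ≤ nm y.1 := one_le_nm hy'.1.ne_zero
  have hy2 : (1 : ℝ) ≤ nm y.2 := one_le_nm hy'.2.1.ne_zero
  have hNe : (1 : ℝ) ≤ nm e := one_le_nm he.ne_zero
  have hNA : (1 : ℝ) ≤ nm A := one_le_nm hA'.1.ne_zero
  have hnδ' : (nm δ : ℝ) = nm y.1 * nm y.2 := by
    rw [← Nat.cast_mul, ← nm_mul, hy'.2.2]
  have hy1P : (nm y.1 : ℝ) ≤ P := by nlinarith
  have hy2P : (nm y.2 : ℝ) ≤ P := by nlinarith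
  have hAP : (nm A : ℝ) ≤ P := by
    have h1 : nm A ≤ nm y.1 := nm_le_of_dvd hy'.1.ne_zero hA'.2
    have h2 : (nm A : ℝ) ≤ nm y.1 := by exact_mod_cast h1
    linarith
  set X' : ℝ := X / nm y.1 with hX'
  have hX1 : 1 ≤ X' := by rwa [hX', le_div_iff₀ (by linarith), one_mul]
  have hX0 : 0 ≤ X' := by linarith
  have hXP' : X' ≤ P := by
    have : X' ≤ X := div_le_self (by linarith) hy1
    linarith
  have hsV : 1 ≤ Real.sqrt V := Real.one_le_sqrt.mpr hV1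
  have hsV0 : (0 : ℝ) ≤ Real.sqrt V := by linarith
  have hsVV : Real.sqrt V ≤ P := by
    apply Real.sqrt_le_iff.mpr
    refine ⟨hP0.le, ?_⟩
    nlinarith
  set N0 : ℕ := ⌈Real.logb 2 (20 * (P ^ cN * P))⌉₊ with hN0d
  have hPcN : 1 ≤ P ^ cN := one_le_pow₀ hP
  have hW1 : 1 ≤ 20 * (P ^ cN * P) := by nlinarith
  have h2N : (2 : ℝ) ^ N0 ≤ 40 * (P ^ cN * P) := by
    have := two_pow_ceil_le hW1
    linarith
  have hN01 : (N0 : ℝ) + 1 ≤ C1 * P ^ (ε / 8) := hN0 P hP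
  have hlog : ∀ Y : ℝ, 1 ≤ Y → Y ≤ P → 1 + Real.log Y ≤ L1 * P ^ (ε / 8) := by
    intro Y hY1 hYP
    have h1 : Real.log Y ≤ Real.log P := Real.log_le_log (by linarith) hYP
    have h2 := E2440.log_le_pow hP hε8
    have h3 : 1 ≤ P ^ (ε / 8) := Real.one_le_rpow hP hε8.le
    rw [hL1]
    nlinarith
  have hPe8 : 1 ≤ P ^ (ε / 8) := Real.one_le_rpow hP hε8.le
  have hlX : 0 ≤ Real.log X' := Real.log_nonneg hX1
  have hlV : 0 ≤ Real.log V := Real.log_nonneg hV1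
  set M0 : Eis := kw p with hM0
  have hM0n : M0 ≠ 0 := kw_ne p
  have hM09 : (nm M0 : ℝ) ≤ 9 := nm_kw hp
  have hM01 : (1 : ℝ) ≤ nm M0 := one_le_nm hM0n
  set Ax' : ℝ := Cw * iA (Aw - J) * (η⁻¹) ^ J * (1 + |t₀|) ^ J * Ax with hAx'
  have hFSb : FS (fun n => bt φ x p n * pw t₀ (nm n)) := Win813.FS_pw (RGw813.FS_bt hx φ p) t₀
  have hPVb := pv_bw hx hV hAx hφ hCw hη hη1 hJ p t₀
  set W : ℝ := C0 * (2 ^ N0 * nm y.2) ^ ε0 * (1 + Real.log X') with hW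
  have hW0 : 0 ≤ W := by positivity
  have hWle : W ≤ CW * (P ^ (ε / 8) * P ^ (ε / 8)) := by
    have h1 : ((2 : ℝ) ^ N0 * nm y.2) ^ ε0 ≤ 40 ^ ε0 * P ^ (ε / 8) := by
      have h2 : (2 : ℝ) ^ N0 * nm y.2 ≤ 40 * P ^ (cN + 2) := by
        calc (2 : ℝ) ^ N0 * nm y.2 ≤ 40 * (P ^ cN * P) * P := by gcongr
          _ = 40 * P ^ (cN + 2) := by ring
      calc ((2 : ℝ) ^ N0 * nm y.2) ^ ε0 ≤ (40 * P ^ (cN + 2)) ^ ε0 :=
            Real.rpow_le_rpow (by positivity) h2 hε00.le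
        _ = 40 ^ ε0 * P ^ (ε / 8) := by
            rw [Real.mul_rpow (by norm_num) (by positivity), ← Real.rpow_natCast,
              ← Real.rpow_mul hP0.le, ← hε0e]
            push_cast
            rfl
    calc W ≤ C0 * (40 ^ ε0 * P ^ (ε / 8)) * (L1 * P ^ (ε / 8)) := by
          rw [hW]
          have := hlog X' hX1 hXP'
          gcongr
      _ = _ := by rw [hCW]; ring
  have hRR0 : ∀ c j₂, 0 ≤ RR V e A c j₂ := fun c j₂ => by
    unfold E2440.RR; positivity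
  -- sizes
  have hjs : ∀ j₂ ∈ S (Real.sqrt V), IsPrim j₂ ∧ (1 : ℝ) ≤ nm j₂ ∧ (nm j₂ : ℝ) ≤ P := by
    intro j₂ hj
    obtain ⟨h1, h2, h3⟩ := (mem_S hsV0).mp hj
    exact ⟨h2, one_le_nm h2.ne_zero, h1.trans hsVV⟩
  have hnea : (nm (e * A) : ℝ) = nm e * nm A := by rw [nm_mul]; push_cast; ring
  have hnE : ∀ j₂, (nm (e * A * j₂) : ℝ) = nm e * nm A * nm j₂ := by
    intro j₂
    rw [nm_mul, nm_mul]; push_cast; ring
  have hnEP : ∀ j₂ ∈ S (Real.sqrt V), (nm (e * A * j₂) : ℝ) ≤ P ^ 3 := by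
    intro j₂ hj
    obtain ⟨h1, h2, h3⟩ := hjs j₂ hj
    rw [hnE]
    calc (nm e : ℝ) * nm A * nm j₂ ≤ P * P * P := by gcongr
      _ = P ^ 3 := by ring
  have hNle : ∀ c ∈ C4, ∀ j₂ ∈ S (Real.sqrt V), 1 ≤ RR V e A c j₂ → ∀ B ∈ S X',
      NBf (P ^ ε') H X' (RR V e A c j₂) (K / nm (e * A * j₂)) B0 y.2 B ≤ N0 := by
    intro c hc j₂ hj hR B hB
    obtain ⟨hj1, hj2, hj3⟩ := hjs j₂ hj
    obtain ⟨hB1, hB2, -⟩ := (mem_S hX0).mp hB
    have hE1 : (1 : ℝ) ≤ nm (e * A * j₂) :=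
      one_le_nm (mul_ne_zero (mul_ne_zero he.ne_zero hA'.1.ne_zero) hj1.ne_zero)
    have hAp : 0 < K / nm (e * A * j₂) := by positivity
    obtain ⟨hc1, -⟩ := nm_C4 hc
    have hRP : RR V e A c j₂ ≤ P ^ 3 := by
      unfold E2440.RR
      rw [hnea]
      have h1 : (1 : ℝ) ≤ nm c * (nm j₂ : ℝ) ^ 2 := by
        have := one_le_pow₀ (n := 2) hj2
        nlinarith
      refine (div_le_self (by positivity) h1).trans ?_
      calc V * (nm e * nm A) ≤ P * (P * P) := by gcongr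
        _ = P ^ 3 := by ring
    have hAi : (K / nm (e * A * j₂))⁻¹ ≤ P ^ 4 := by
      rw [inv_div, div_eq_mul_inv]
      calc (nm (e * A * j₂) : ℝ) * K⁻¹ ≤ P ^ 3 * P := by
            have := hnEP j₂ hj
            gcongr
        _ = P ^ 4 := by ring
    have hceil : P ^ ε' ≤ P ^ ⌈ε'⌉₊ := by
      rw [← Real.rpow_natCast]
      exact Real.rpow_le_rpow_of_exponent_le hP (Nat.le_ceil _)
    refine NBf_le hPe hH1 hX1 hR hAp hy'.2.1 hB2.ne_zero hB1 (W := 20 * (P ^ cN * P))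
      (by positivity) ?_ ?_
    · rw [div_eq_mul_inv]
      calc 2 * P ^ ε' * (H * (RR V e A c j₂ * (nm y.2 : ℝ) ^ 2 * X' ^ 2)) *
            (K / nm (e * A * j₂))⁻¹ ≤ 2 * P ^ ⌈ε'⌉₊ * (P * (P ^ 3 * P ^ 2 * P ^ 2)) * P ^ 4 := by
            gcongr
        _ = 2 * (P ^ cN * 1) := by rw [hcN]; ring
        _ ≤ 20 * (P ^ cN * P) := by nlinarith
    · have h1 : K / nm (e * A * j₂) ≤ P := (div_le_self hK.le hE1).trans hKP
      have h2 : P ≤ P ^ cN * P := le_mul_of_one_le_left hP0.le hPcN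
      have h3 : 0 ≤ P ^ cN * P := by positivity
      linarith
  have hZp' : 40 * cdl * P ^ (cN + 9) ≤ Zp / (nm M0 : ℝ) ^ 2 := by
    rw [le_div_iff₀ (by positivity)]
    have h0 : 0 ≤ 1200 * L1 * (CW * (C1 * (200 * L1))) * (3 * CT) := by positivity
    have h1 : (nm M0 : ℝ) ^ 2 ≤ 81 := by nlinarith
    calc 40 * cdl * P ^ (cN + 9) * (nm M0 : ℝ) ^ 2 ≤ 40 * cdl * P ^ (cN + 9) * 81 := by gcongr
      _ = (81 * 40 * cdl) * P ^ (cN + 9) := by ring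
      _ ≤ (81 * 40 * cdl + 1200 * L1 * (CW * (C1 * (200 * L1))) * (3 * CT)) * P ^ (cN + 9) := by
          refine mul_le_mul_of_nonneg_right (by linarith) (by positivity)
      _ ≤ Zp := hZp
  refine ⟨fun c j₂ B j => W * prM (RR V e A c j₂) (2 ^ j) Ax' d0
    (nm (e * A * j₂ * M0) * nm y.2) (nm (b2 (e * A * j₂ * M0) B)) y.1 B, ?_, ?_, ?_⟩
  · intro c j₂ B j
    exact mul_nonneg hW0 (prM_nonneg (hRR0 c j₂) (by positivity) (by positivity) _ _)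
  · intro c hc j₂ hj hR
    obtain ⟨hj1, hj2, hj3⟩ := hjs j₂ hj
    have hE : e * A * j₂ ≠ 0 := mul_ne_zero (mul_ne_zero he.ne_zero hA'.1.ne_zero) hj1.ne_zero
    refine MH_monoJ (J := 2 * J) ?_ hJt (fun B j =>
      mul_nonneg hW0 (prM_nonneg (hRR0 c j₂) (by positivity) (by positivity) _ _))
    have hcc := one_le_cdl
    exact hMH (prK_tw hM0n) hFSb hPVb (isC_sg (mem_C4.mp hc)) hδ hy'.1 hE hy'.2.1 hX1 (hRR0 c j₂)
      (hNle c hc j₂ hj hR) (le_cdl hc) (by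
        refine le_trans ?_ hZp'
        calc (nm y.1 : ℝ) * X' ^ 3 ≤ P * P ^ 3 := by gcongr
          _ = 1 * 1 * P ^ 4 := by ring
          _ ≤ 40 * cdl * P ^ (cN + 9) := by
              have : P ^ 4 ≤ P ^ (cN + 9) := pow_le_pow_right₀ hP (by omega)
              gcongr
              norm_num) (by
        refine le_trans ?_ hZp'
        calc (2 : ℝ) ^ N0 * (nm (e * A * j₂) * cdl * X' ^ 2) * (nm δ : ℝ) ^ 3
            ≤ (40 * (P ^ cN * P)) * (P ^ 3 * cdl * P ^ 2) * P ^ 3 := by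
              have := hnEP j₂ hj
              gcongr
          _ = 40 * cdl * P ^ (cN + 9) := by ring)
      (fun B τ d h => h)
  · intro ϑ ϑd hϑ hϑd
    have hT : ∀ j₂ ∈ S (Real.sqrt V), (tau (e * A * j₂ * M0) : ℝ) ≤ CT * P ^ (ε / 8) := by
      intro j₂ hj
      obtain ⟨hj1, hj2, hj3⟩ := hjs j₂ hj
      have hE : e * A * j₂ ≠ 0 := mul_ne_zero (mul_ne_zero he.ne_zero hA'.1.ne_zero) hj1.ne_zero
      refine (htau _ (mul_ne_zero hE hM0n)).trans ?_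
      have h1 : (nm (e * A * j₂ * M0) : ℝ) ≤ 9 * P ^ 3 := by
        rw [nm_mul, Nat.cast_mul]
        have := hnEP j₂ hj
        calc (nm (e * A * j₂) : ℝ) * nm M0 ≤ P ^ 3 * 9 := by gcongr
          _ = _ := by ring
      calc Ct * (nm (e * A * j₂ * M0) : ℝ) ^ (ε / 8 / 3) ≤ Ct * (9 * P ^ 3) ^ (ε / 8 / 3) := by
            gcongr
        _ = _ := by
            rw [Real.mul_rpow (by norm_num) (by positivity), ← Real.rpow_natCast,
              ← Real.rpow_mul hP0.le, hCT]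
            have : ((3 : ℕ) : ℝ) * (ε / 8 / 3) = ε / 8 := by push_cast; ring
            rw [this]
            ring
    have h1 := GPsumM_le (V := V) (K := K) (X := X') (B0 := B0) (H := H) (Ax := Ax') (d0 := d0)
      (T := CT * P ^ (ε / 8)) (W := W) (e := e) (A := A) (M0 := M0) (ν := y.2) (g' := y.1)
      (ϑ := ϑ) (ϑd := ϑd)
      (N := fun c j₂ => NBf (P ^ ε') H X' (RR V e A c j₂) (K / nm (e * A * j₂)) B0 y.2) (N0 := N0)
      hV1 hK hX1 he.ne_zero hA'.1.ne_zero hM0n hy'.2.1 hy'.1 (by linarith) hW0 hϑ hϑd hNle hT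
    refine le_trans (le_of_eq ?_) (h1.trans ?_)
    · rfl
    set PJ1 : ℝ := PJm K V X' (nm (e * A)) 1 (nm y.2) H (Mu d0 y.1) 1 with hPJ1
    have hMu := Mu_nonneg d0 y.1
    have hPJ : PJm K V X' (nm (e * A)) (nm M0) (nm y.2) H (Mu d0 y.1) (CT * P ^ (ε / 8)) ≤
        (3 * CT) * P ^ (ε / 8) * PJ1 := by
      have hV0 : 0 < V := by linarith
      have hH0 : 0 < H := by linarith
      have hX'0 : 0 < X' := by linarith
      have hea : (0 : ℝ) < nm (e * A) := by rw [hnea]; positivity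
      have h3 : (nm M0 : ℝ) ^ ((1 : ℝ) / 3) ≤ 3 := by
        calc (nm M0 : ℝ) ^ ((1 : ℝ) / 3) ≤ (27 : ℝ) ^ ((1 : ℝ) / 3) :=
              Real.rpow_le_rpow (by positivity) (by linarith) (by norm_num)
          _ = ((3 : ℝ) ^ 3) ^ ((1 : ℝ) / 3) := by norm_num
          _ = 3 := r13 (by norm_num)
      have hCTP : 1 ≤ CT * P ^ (ε / 8) := one_le_mul_of_one_le_of_one_le hCT1 hPe8
      have hT31 : (3 * CT) * P ^ (ε / 8) = 3 * (CT * P ^ (ε / 8)) := by ring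
      rw [hT31, hPJ1]
      exact PJm_mono3 hV0 hK hX'0 hea (by linarith) (by positivity) hH0 hMu h3 hCTP
    have hPJ10 : 0 ≤ PJ1 := by
      rw [hPJ1]; unfold PJm
      have hV0 : 0 < V := by linarith
      have hH0 : 0 < H := by linarith
      have hX'0 : 0 < X' := by linarith
      positivity
    have e8 : (P ^ (ε / 8)) ^ 6 ≤ P ^ ε := by
      rw [← Real.rpow_natCast, ← Real.rpow_mul hP0.le]
      refine Real.rpow_le_rpow_of_exponent_le hP ?_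
      push_cast
      linarith
    set q : ℝ := P ^ (ε / 8) with hq
    have hq0 : 0 ≤ q := by linarith
    have hN02 : (N0 : ℝ) ≤ C1 * q := by linarith
    have hsq : 0 ≤ (Ax' / nm y.1) ^ 2 := sq_nonneg _
    calc 1200 * (1 + Real.log V) * ((W * (N0 * (200 * (1 + Real.log X')) *
          (Ax' / nm y.1) ^ 2)) * PJm K V X' (nm (e * A)) (nm M0) (nm y.2) H (Mu d0 y.1) (CT * q))
        ≤ 1200 * (L1 * q) * (((CW * (q * q)) * ((C1 * q) * (200 * (L1 * q)) *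
          (Ax' / nm y.1) ^ 2)) * ((3 * CT) * q * PJ1)) := by
          have b1 := hlog V hV1 hVP
          have b2 := hlog X' hX1 hXP'
          have hV0 : 0 < V := by linarith
          have hH0 : 0 < H := by linarith
          have hX'0 : 0 < X' := by linarith
          have b3 : 0 ≤ PJm K V X' (nm (e * A)) (nm M0) (nm y.2) H (Mu d0 y.1) (CT * q) := by
            unfold PJm
            positivity
          gcongr
      _ = (1200 * L1 * (CW * (C1 * (200 * L1))) * (3 * CT)) * q ^ 6 *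
          ((Ax' / nm y.1) ^ 2 * PJ1) := by ring
      _ ≤ (81 * 40 * cdl + 1200 * L1 * (CW * (C1 * (200 * L1))) * (3 * CT)) * P ^ ε *
          ((Ax' / nm y.1) ^ 2 * PJ1) := by
          refine mul_le_mul_of_nonneg_right ?_ (mul_nonneg hsq hPJ10)
          refine mul_le_mul ?_ e8 (by positivity) (by positivity)
          have : 0 ≤ 81 * 40 * cdl := by linarith
          linarith
      _ = _ := rfl

end Crest.Agent.R017.PrD502
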