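import Crest.Agent.R017.QsJe_401
import Crest.Agent.R017.GKC_739
import Crest.Agent.R017.MoJPr_176

/-!
# Row 17, block C70, leaf E2 (helper401): joint cells with a principal part, part 1

* `wB` : the weight of a shell in `GKd`
* `tJ_le_wB` : the weight of a joint shell, doubling kernels, no block across `B0`
* `reorg` : the sum over the joint shells
* `GJ_Ex` : the principal part of the joint shells
-/

set_option autoImplicit false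
set_option linter.unusedVariables false

noncomputable section

open Complex
open scoped ComplexConjugate

namespace Crest.Agent.R017.QsJ401

open Crest.Agent.R012 Crest.Agent.R012.Eis
open Crest.Agent.R012.Div277
open Crest.Agent.R012.Mob705 (pdiv mem_pdiv)
open Crest.Agent.R012.LS2 (S mem_S)
open Crest.Agent.R017.X6C180 (IX dl')
open Crest.Agent.R017.CM106 (sub CS FS)
open Crest.Agent.R017.H1401 (pb mem_pb DN WM WJ)
open Crest.Agent.R017.MoF106 (MoP NX bk mem_bk bk_prim bk_nm_ge sum_bk UU)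
open Crest.Agent.R017.E2D401 (MoJ Bj dhJ_H1J dhr_H1v)
open Crest.Agent.R017.E2440

/-- the weight of a shell in `GKd` -/
def wB (ϑ ϑd : ℝ → ℝ) (R X A B0 : ℝ) (ν B : Eis) (j : ℕ) : ℝ := by
  classical
  exact if (nm B : ℝ) ≤ B0 then
    ϑ (R * (nm ν : ℝ) ^ 2 * (X / nm B) / (A / (nm B : ℝ) ^ 2 * 2 ^ j)) ^ 2 else
    ϑd (2 ^ j / (A / (nm B : ℝ) ^ 2)) ^ 2

lemma wB_nonneg (ϑ ϑd : ℝ → ℝ) (R X A B0 : ℝ) (ν B : Eis) (j : ℕ) :
    0 ≤ wB ϑ ϑd R X A B0 ν B j := by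
  unfold wB
  split_ifs <;> positivity

lemma GKd_eq (ϑ ϑd : ℝ → ℝ) (R X A B0 : ℝ) (ν : Eis) (N : Eis → ℕ) (MD : Eis → ℕ → ℝ) :
    GKd ϑ ϑd R X A B0 ν N MD =
      ∑ B ∈ S X, ∑ j ∈ Finset.range (N B), wB ϑ ϑd R X A B0 ν B j * MD B j := by
  unfold E2440.GKd wB
  rfl

/-- **the weight of a joint shell** -/
lemma tJ_le_wB {ϑ ϑd : ℝ → ℝ} {Cd : ℝ} (hCd : 0 ≤ Cd)
    (hθ0 : ∀ x : ℝ, 0 < x → 0 ≤ ϑ x) (hθd0 : ∀ x : ℝ, 0 < x → 0 ≤ ϑd x)
    (h1 : ∀ x y : ℝ, 0 < x → 0 < y → x ≤ 4 * y → y ≤ 4 * x → ϑ x ≤ Cd * ϑ y)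
    (h2 : ∀ x y : ℝ, 0 < x → 0 < y → x ≤ 4 * y → y ≤ 4 * x → ϑd x ≤ Cd * ϑd y)
    {R X A B0 : ℝ} (hR : 0 < R) (hX : 0 < X) (hA : 0 < A) {ν B : Eis} (hν : ν ≠ 0) (hB : B ≠ 0)
    {u : ℕ} (hu : blk B = u) (hnc : ¬ ((2 : ℝ) ^ u / 2 < B0 ∧ B0 < 2 ^ u)) (j : ℕ) :
    tJ ϑ ϑd R X A B0 ν u j ≤ Cd ^ 2 * wB ϑ ϑd R X A B0 ν B j := by
  have hb : (0 : ℝ) < nm B := by exact_mod_cast nm_pos.mpr hB
  have hn : (0 : ℝ) < nm ν := by exact_mod_cast nm_pos.mpr hν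
  have k1 := blk_lt hB
  have k2 := blk_le B
  rw [hu] at k1 k2
  have hU : (0 : ℝ) < 2 ^ u := by positivity
  have hj : (0 : ℝ) < 2 ^ j := by positivity
  unfold E2440.tJ wB
  by_cases hc : (nm B : ℝ) ≤ B0
  · have c1 : (2 : ℝ) ^ u / 2 < B0 := k1.trans_le hc
    have c2 : ¬ B0 < (2 : ℝ) ^ u := fun h => hnc ⟨c1, h⟩
    rw [if_pos c1, if_neg c2, if_pos hc, add_zero, ← mul_pow]
    refine pow_le_pow_left₀ (hθ0 _ (by positivity)) ?_ 2
    have e1 : R * (nm ν : ℝ) ^ 2 * (X * 2 ^ u / 2) / (A * 2 ^ j) =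
        (R * (nm ν : ℝ) ^ 2 * X / (A * 2 ^ j)) * (2 ^ u / 2) := by field_simp
    have e2 : R * (nm ν : ℝ) ^ 2 * (X / nm B) / (A / (nm B : ℝ) ^ 2 * 2 ^ j) =
        (R * (nm ν : ℝ) ^ 2 * X / (A * 2 ^ j)) * nm B := by field_simp
    have hp : 0 < R * (nm ν : ℝ) ^ 2 * X / (A * 2 ^ j) := by positivity
    refine h1 _ _ (by positivity) (by positivity) ?_ ?_
    · rw [e1, e2]
      nlinarith
    · rw [e1, e2]
      nlinarith
  · push Not at hc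
    have c2 : B0 < (2 : ℝ) ^ u := hc.trans_le k2
    have c1 : ¬ (2 : ℝ) ^ u / 2 < B0 := fun h => hnc ⟨h, c2⟩
    rw [if_neg c1, if_pos c2, if_neg (not_le.mpr hc), zero_add, ← mul_pow]
    refine pow_le_pow_left₀ (hθd0 _ (by positivity)) ?_ 2
    have e1 : (2 : ℝ) ^ j / (A / (2 ^ u) ^ 2) = (2 ^ j / A) * (2 ^ u) ^ 2 := by field_simp
    have e2 : (2 : ℝ) ^ j / (A / (nm B : ℝ) ^ 2) = (2 ^ j / A) * (nm B : ℝ) ^ 2 := by
      field_simp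
    have hp : (0 : ℝ) < 2 ^ j / A := by positivity
    have q1 : ((2 : ℝ) ^ u) ^ 2 ≤ 4 * (nm B : ℝ) ^ 2 := by nlinarith
    have q2 : (nm B : ℝ) ^ 2 ≤ ((2 : ℝ) ^ u) ^ 2 := pow_le_pow_left₀ hb.le k2 2
    refine h2 _ _ (by positivity) (by positivity) ?_ ?_
    · rw [e1, e2]
      calc (2 : ℝ) ^ j / A * (2 ^ u) ^ 2 ≤ 2 ^ j / A * (4 * (nm B : ℝ) ^ 2) :=
            mul_le_mul_of_nonneg_left q1 hp.le
        _ = _ := by ring
    · rw [e1, e2]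
      calc (2 : ℝ) ^ j / A * (nm B : ℝ) ^ 2 ≤ 2 ^ j / A * (2 ^ u) ^ 2 :=
            mul_le_mul_of_nonneg_left q2 hp.le
        _ ≤ _ := by
            have : 0 ≤ (2 : ℝ) ^ j / A * (2 ^ u) ^ 2 := by positivity
            linarith

open Classical in
/-- **the sum over the joint shells** -/
lemma reorg {X : ℝ} (N : Eis → ℕ) (jm : ℕ → ℕ → Prop) (f : Eis → ℕ → ℝ)
    (hf : ∀ B ∈ S X, ∀ j, 0 ≤ f B j) :
    ∑ u ∈ Finset.range (bkN X), ∑ j ∈ (Finset.range (NJ N X u)).filter (fun j => jm u j),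
      ∑ B ∈ Bj X N u j, f B j ≤ ∑ B ∈ S X, ∑ j ∈ Finset.range (N B), f B j := by
  have h1 : ∀ u ∈ Finset.range (bkN X),
      ∑ j ∈ (Finset.range (NJ N X u)).filter (fun j => jm u j), ∑ B ∈ Bj X N u j, f B j ≤
      ∑ B ∈ (S X).filter (fun B => blk B = u), ∑ j ∈ Finset.range (N B), f B j := by
    intro u _
    have e1 : ∑ j ∈ (Finset.range (NJ N X u)).filter (fun j => jm u j),
        ∑ B ∈ Bj X N u j, f B j =
        ∑ B ∈ (S X).filter (fun B => blk B = u),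
          ∑ j ∈ ((Finset.range (NJ N X u)).filter (fun j => jm u j)).filter (fun j => j < N B),
            f B j := by
      have e2 : ∀ j ∈ (Finset.range (NJ N X u)).filter (fun j => jm u j),
          ∑ B ∈ Bj X N u j, f B j = ∑ B ∈ (S X).filter (fun B => blk B = u),
            if j < N B then f B j else 0 := by
        intro j _
        rw [← Finset.sum_filter, Finset.filter_filter]
        refine Finset.sum_congr ?_ fun _ _ => rfl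
        ext B
        rw [mem_Bj, Finset.mem_filter]
      rw [Finset.sum_congr rfl e2, Finset.sum_comm]
      exact Finset.sum_congr rfl fun B _ => (Finset.sum_filter _ _).symm
    rw [e1]
    refine Finset.sum_le_sum fun B hB => ?_
    refine Finset.sum_le_sum_of_subset_of_nonneg (fun j hj => ?_) fun j _ _ =>
      hf B (Finset.mem_filter.mp hB).1 j
    rw [Finset.mem_filter] at hj
    exact Finset.mem_range.mpr hj.2
  refine (Finset.sum_le_sum h1).trans ?_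
  refine Finset.sum_fiberwise_le_sum_of_sum_fiber_nonneg fun u _ => ?_
  exact Finset.sum_nonneg fun B hB => Finset.sum_nonneg fun j _ =>
    hf B (Finset.mem_filter.mp hB).1 j

open Classical in
/-- **the principal part of the joint shells** -/
theorem GJ_Ex {ϑ ϑd : ℝ → ℝ} {Cd : ℝ} (hCd : 0 ≤ Cd)
    (hθ0 : ∀ x : ℝ, 0 < x → 0 ≤ ϑ x) (hθd0 : ∀ x : ℝ, 0 < x → 0 ≤ ϑd x)
    (h1 : ∀ x y : ℝ, 0 < x → 0 < y → x ≤ 4 * y → y ≤ 4 * x → ϑ x ≤ Cd * ϑ y)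
    (h2 : ∀ x y : ℝ, 0 < x → 0 < y → x ≤ 4 * y → y ≤ 4 * x → ϑd x ≤ Cd * ϑd y)
    {R X A B0 : ℝ} (hR : 0 < R) (hX : 0 < X) (hA : 0 < A) {ν : Eis} (hν : ν ≠ 0)
    (N : Eis → ℕ) (jm : ℕ → ℕ → Prop)
    (hnc : ∀ u j, jm u j → (Bj X N u j).Nonempty → ¬ ((2 : ℝ) ^ u / 2 < B0 ∧ B0 < 2 ^ u))
    {Ex : Eis → ℕ → ℝ} (hEx : ∀ B j, 0 ≤ Ex B j) :
    ∑ u ∈ Finset.range (bkN X), ∑ j ∈ (Finset.range (NJ N X u)).filter (fun j => jm u j),
      tJ ϑ ϑd R X A B0 ν u j * ((2 / 2 ^ j) * ∑ B ∈ Bj X N u j, Ex B j) ≤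
    Cd ^ 2 * GKd ϑ ϑd R X A B0 ν N (fun B j => (2 / 2 ^ j) * Ex B j) := by
  have h3 := reorg N jm (fun B j => wB ϑ ϑd R X A B0 ν B j * ((2 / 2 ^ j) * Ex B j))
    (X := X) (fun B _ j => mul_nonneg (wB_nonneg _ _ _ _ _ _ _ _ _)
      (mul_nonneg (by positivity) (hEx B j)))
  rw [GKd_eq]
  refine le_trans ?_ (mul_le_mul_of_nonneg_left h3 (sq_nonneg Cd))
  rw [Finset.mul_sum]
  refine Finset.sum_le_sum fun u _ => ?_
  rw [Finset.mul_sum]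
  refine Finset.sum_le_sum fun j hj => ?_
  rw [Finset.mem_filter] at hj
  rw [Finset.mul_sum, Finset.mul_sum, Finset.mul_sum]
  refine Finset.sum_le_sum fun B hB => ?_
  have hB' := mem_Bj.1 hB
  have hBp := ((mem_S hX.le).1 hB'.1).2.1.ne_zero
  have h4 := tJ_le_wB hCd hθ0 hθd0 h1 h2 hR hX hA hν hBp hB'.2.1 (hnc u j hj.2 ⟨B, hB⟩) j
  calc _ ≤ (Cd ^ 2 * wB ϑ ϑd R X A B0 ν B j) * ((2 / 2 ^ j) * Ex B j) :=
        mul_le_mul_of_nonneg_right h4 (mul_nonneg (by positivity) (hEx B j))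
    _ = _ := by ring

end Crest.Agent.R017.QsJ401
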