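import Crest.Agent.R017.QsO_83
import Crest.Agent.R017.MoCb_83
import Crest.Agent.R017.E4C_401

/-!
# Row 17, E2, R-side of the `l`-terms of the tail of (LB) (helper83), part a

* `rad_count` : `#{l ≤ T : ρ l = r} ≤ C T ^ ε` if all primes of `l` divide `ρ l`
* `sum_la`    : `∑_l ∑_{a b = ρ l} f a b ≤ C T ^ ε ∑_{b ≤ T} ∑_{a ≤ T} f a b`
* `QF_alr`    : quadratic functionals of the restricted sequences
* `REb_lsum`, `REb_lsum_num`, `REb_lsum_list` : the `l`-sum of `REb` from the inner double sums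
-/

set_option autoImplicit false

noncomputable section

open Complex
open scoped ComplexConjugate Classical

namespace Crest.Agent.R017.RCl83

open Crest.Agent.R012 Crest.Agent.R012.Eis Crest.Agent.R012.Gauss880
open Crest.Agent.R012.LS2 (S mem_S)
open Crest.Agent.R012.Mob705 (pdiv mem_pdiv)
open Crest.Agent.R012.Weight600 (osc norm_osc pw)
open Crest.Agent.R012.Div277 (tau dvs mem_dvs tau_le_rpow nm_le_of_dvd)
open Crest.Agent.R017.CM106 (CS FS)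
open Crest.Agent.R017.HP842 (sqc)
open Crest.Agent.R017.Leg381 (alf alF Pf)
open Crest.Agent.R017.FE47 (cx)
open Crest.Agent.R017.TPOk571 (IP SD SD_w)
open Crest.Agent.R017.MoL106 (FromP)
open Crest.Agent.R017.B770 Crest.Agent.R017.Prov71
open Crest.Agent.R017.E2440 (Qs RR prs mem_prs C4 mem_C4)
open Crest.Agent.R017.NtC320 (QF QF_sum)
open Crest.Agent.R017.LBx48 (REb neb R2)
open Crest.Agent.R017.RGw813 (bt)
open Crest.Agent.R017.E4352 (PrI LCnt)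
open Crest.Agent.R017.QsO83 (bw QF_Qs QF_sum1 nt_list)
open Crest.Agent.R017.MoCa83 (alr alr_ne norm_alr_le alr_bt)

/-- the hypotheses on the index set -/
structure RadOK (T : ℝ) (Λ : Finset Eis) (ρ : Eis → Eis) : Prop where
  prim : ∀ l ∈ Λ, IsPrim l
  le : ∀ l ∈ Λ, (nm l : ℝ) ≤ T
  rp : ∀ l ∈ Λ, IsPrim (ρ l)
  rs : ∀ l ∈ Λ, Squarefree (ρ l)
  dvd : ∀ l ∈ Λ, ρ l ∣ l
  rad : ∀ l ∈ Λ, ∀ p : Eis, Prime p → p ∣ l → p ∣ ρ l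

lemma RadOK.mono {T : ℝ} {Λ Λ' : Finset Eis} {ρ : Eis → Eis} (h : RadOK T Λ ρ) (hs : Λ' ⊆ Λ) :
    RadOK T Λ' ρ where
  prim l hl := h.prim l (hs hl)
  le l hl := h.le l (hs hl)
  rp l hl := h.rp l (hs hl)
  rs l hl := h.rs l (hs hl)
  dvd l hl := h.dvd l (hs hl)
  rad l hl := h.rad l (hs hl)

lemma RadOK.rle {T : ℝ} {Λ : Finset Eis} {ρ : Eis → Eis} (h : RadOK T Λ ρ) {l : Eis}
    (hl : l ∈ Λ) : (nm (ρ l) : ℝ) ≤ T := by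
  refine le_trans ?_ (h.le l hl)
  exact_mod_cast nm_le_of_dvd (h.prim l hl).ne_zero (h.dvd l hl)

/-- **few `l` have the same radical** -/
theorem rad_count {ε : ℝ} (hε : 0 < ε) : ∃ C : ℝ, 1 ≤ C ∧ ∀ (T : ℝ) (Λ : Finset Eis)
    (ρ : Eis → Eis), 1 ≤ T → RadOK T Λ ρ → ∀ r : Eis,
    ((Λ.filter (fun l => ρ l = r)).card : ℝ) ≤ C * T ^ ε := by
  obtain ⟨C, hC0, hC⟩ := E4401.lCnt ε hε
  refine ⟨max C 1, le_max_right _ _, ?_⟩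
  intro T Λ ρ hT hΛ r
  have hT1 : 1 ≤ T ^ ε := Real.one_le_rpow hT hε.le
  rcases (Λ.filter (fun l => ρ l = r)).eq_empty_or_nonempty with h0 | ⟨l₀, hl₀⟩
  · rw [h0, Finset.card_empty]
    have : 0 ≤ max C 1 := le_trans hC0 (le_max_left _ _)
    simp only [Nat.cast_zero]
    positivity
  · rw [Finset.mem_filter] at hl₀
    have hr : r = ρ l₀ := hl₀.2.symm
    have h1 := hC r T hT (by rw [hr]; exact (hΛ.rp l₀ hl₀.1).ne_zero)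
      (by rw [hr]; exact hΛ.rle hl₀.1)
    refine le_trans ?_ (h1.trans (mul_le_mul_of_nonneg_right (le_max_left _ _) (by linarith)))
    refine Nat.cast_le.2 (Finset.card_le_card fun l hl => ?_)
    rw [Finset.mem_filter] at hl ⊢
    refine ⟨mem_primBall.mpr ⟨Nat.le_floor (hΛ.le l hl.1), hΛ.prim l hl.1⟩, hΛ.prim l hl.1, ?_⟩
    intro p hp hpl
    have := hΛ.rad l hl.1 p hp hpl
    rwa [hl.2] at this

/-- **the exchange of `l` and `a b = ρ l`** -/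
theorem sum_la {ε : ℝ} (hε : 0 < ε) : ∃ C : ℝ, 1 ≤ C ∧ ∀ (T : ℝ) (Λ : Finset Eis)
    (ρ : Eis → Eis), 1 ≤ T → RadOK T Λ ρ → ∀ (Bs As : Finset Eis),
    (∀ b, IsPrim b → Squarefree b → (nm b : ℝ) ≤ T → b ∈ Bs) →
    (∀ a, IsPrim a → Squarefree a → (nm a : ℝ) ≤ T → a ∈ As) →
    ∀ f : Eis → Eis → ℝ, (∀ b ∈ Bs, ∀ a ∈ As, 0 ≤ f b a) →
    ∀ Q : Eis → Prop, (∑ l ∈ Λ, ∑ a ∈ (dvs (ρ l)).filter (fun a => Q (ρ l / a)), f (ρ l / a) a) ≤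
      C * T ^ ε * ∑ b ∈ Bs.filter Q, ∑ a ∈ As, f b a := by
  obtain ⟨C, hC1, hC⟩ := rad_count hε
  refine ⟨C, hC1, ?_⟩
  intro T Λ ρ hT hΛ Bs As hBs hAs f hf Q
  -- facts about `a b = ρ l`
  have hab : ∀ l ∈ Λ, ∀ a ∈ dvs (ρ l), ρ l = ρ l / a * a ∧ a ∈ As ∧ ρ l / a ∈ Bs := by
    intro l hl a ha
    have hρ := (hΛ.rp l hl)
    have ha' := (mem_dvs hρ.ne_zero).mp ha
    have e1 : a * (ρ l / a) = ρ l := EuclideanDomain.mul_div_cancel' ha'.1.ne_zero ha'.2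
    have hb : IsPrim (ρ l / a) := IsPrim.of_mul_left (by rw [e1]; exact hρ) ha'.1
    have hbd : ρ l / a ∣ ρ l := ⟨a, by rw [mul_comm]; exact e1.symm⟩
    refine ⟨by rw [mul_comm]; exact e1.symm, hAs a ha'.1 ((hΛ.rs l hl).squarefree_of_dvd ha'.2) ?_,
      hBs _ hb ((hΛ.rs l hl).squarefree_of_dvd hbd) ?_⟩
    · refine le_trans ?_ (hΛ.rle hl)
      exact_mod_cast nm_le_of_dvd hρ.ne_zero ha'.2
    · refine le_trans ?_ (hΛ.rle hl)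
      exact_mod_cast nm_le_of_dvd hρ.ne_zero hbd
  have h1 : ∀ l ∈ Λ, ∑ a ∈ (dvs (ρ l)).filter (fun a => Q (ρ l / a)), f (ρ l / a) a ≤
      ∑ b ∈ Bs.filter Q, ∑ a ∈ As, if ρ l = b * a then f b a else 0 := by
    intro l hl
    rw [← Finset.sum_product']
    have e2 : ∑ a ∈ (dvs (ρ l)).filter (fun a => Q (ρ l / a)), f (ρ l / a) a =
        ∑ x ∈ ((dvs (ρ l)).filter (fun a => Q (ρ l / a))).image (fun a => (ρ l / a, a)),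
          (if ρ l = x.1 * x.2 then f x.1 x.2 else 0) := by
      rw [Finset.sum_image (fun a _ a' _ h => (Prod.ext_iff.1 h).2)]
      refine Finset.sum_congr rfl fun a ha => ?_
      rw [Finset.mem_filter] at ha
      simp only
      rw [if_pos (hab l hl a ha.1).1]
    rw [e2]
    refine Finset.sum_le_sum_of_subset_of_nonneg (fun x hx => ?_) fun x hx _ => ?_
    · rw [Finset.mem_image] at hx
      obtain ⟨a, ha, rfl⟩ := hx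
      rw [Finset.mem_filter] at ha
      obtain ⟨-, h3, h4⟩ := hab l hl a ha.1
      exact Finset.mem_product.2 ⟨Finset.mem_filter.2 ⟨h4, ha.2⟩, h3⟩
    · rw [Finset.mem_product] at hx
      split_ifs
      · exact hf _ (Finset.mem_filter.1 hx.1).1 _ hx.2
      · exact le_rfl
  refine (Finset.sum_le_sum h1).trans ?_
  rw [Finset.sum_comm, Finset.mul_sum]
  refine Finset.sum_le_sum fun b hb => ?_
  rw [Finset.sum_comm, Finset.mul_sum]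
  refine Finset.sum_le_sum fun a ha => ?_
  rw [← Finset.sum_filter, Finset.sum_const, nsmul_eq_mul]
  exact mul_le_mul_of_nonneg_right (hC T Λ ρ hT hΛ (b * a)) (hf b (Finset.mem_filter.1 hb).1 a ha)

lemma FS_alr {α : Eis → ℂ} (h : FS α) (a b : Eis) : FS (alr α a b) where
  fin := h.fin.subset fun _ hn => (alr_ne hn).2.2
  prim := fun m hm => h.prim m (alr_ne hm).2.2

lemma alr_lin {κ : Type} (T : Finset κ) (c : κ → ℂ) (β : κ → Eis → ℂ) (a b : Eis) :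
    alr (fun n => ∑ x ∈ T, c x * β x n) a b = fun n => ∑ x ∈ T, c x * alr (β x) a b n := by
  funext n
  unfold MoCa83.alr
  by_cases h : a ∣ n ∧ IsCoprime n b
  · simp only [if_pos h]
  · simp only [if_neg h, mul_zero, Finset.sum_const_zero]

/-- **quadratic functionals of the restricted sequences** -/
theorem QF_alr {Φ : (Eis → ℂ) → ℝ} (hΦ : QF Φ) (a b : Eis) : QF (fun α => Φ (alr α a b)) := by
  intro κ T c β hc hβ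
  beta_reduce
  rw [alr_lin]
  exact hΦ κ T c _ hc fun x hx => FS_alr (hβ x hx) a b

/-! ### `REb` -/

lemma sum_comm3 {ι₁ ι₂ ι₃ : Type} (s : Finset ι₁) (t : Finset ι₂) (u : ι₂ → Finset ι₃)
    (f : ι₁ → ι₂ → ι₃ → ℝ) : ∑ a ∈ s, ∑ b ∈ t, ∑ c ∈ u b, f a b c =
      ∑ b ∈ t, ∑ c ∈ u b, ∑ a ∈ s, f a b c := by
  rw [Finset.sum_comm]
  exact Finset.sum_congr rfl fun b _ => Finset.sum_comm

/-- the inner double sum -/
def Qc (α : Eis → ℂ) (K V : ℝ) (F : ℝ → ℂ) (δ e : Eis) (y : Eis × Eis) (A : Eis) : ℝ :=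
  ∑ c ∈ C4, ∑ j₂ ∈ S (Real.sqrt V), Qs α δ e V K F y A c j₂

lemma Qc_nonneg (α : Eis → ℂ) (K V : ℝ) (F : ℝ → ℂ) (δ e : Eis) (y : Eis × Eis) (A : Eis) :
    0 ≤ Qc α K V F δ e y A :=
  Finset.sum_nonneg fun _ _ => Finset.sum_nonneg fun _ _ => E2440.Qs_nonneg _ _ _ _ _ _ _ _ _ _

lemma card_prs_le {δ : Eis} : ((prs δ).card : ℝ) ≤ (tau δ : ℝ) ^ 2 := by
  have : (prs δ).card ≤ (dvs δ ×ˢ dvs δ).card := by
    unfold E2440.prs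
    exact Finset.card_filter_le _ _
  rw [Finset.card_product] at this
  unfold Div277.tau
  rw [sq]
  exact_mod_cast this

lemma card_pdiv_le {δ : Eis} (hδ : IsPrim δ) {y : Eis × Eis} (hy : y ∈ prs δ) :
    ((pdiv y.1).card : ℝ) ≤ (tau δ : ℝ) := by
  have hy' := (mem_prs hδ).mp hy
  unfold Div277.tau
  refine Nat.cast_le.2 (Finset.card_le_card fun A hA => ?_)
  have hA' := (mem_pdiv hy'.1.ne_zero).mp hA
  exact (mem_dvs hδ.ne_zero).2 ⟨hA'.1, hA'.2.trans (hy'.2.2 ▸ dvd_mul_right _ _)⟩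

/-- Cauchy over `(y, A)` -/
lemma R2_sq_le {δ : Eis} (hδ : IsPrim δ) (α : Eis → ℂ) (K V : ℝ) (F : ℝ → ℂ) (e : Eis) :
    R2 α K F δ e V ^ 2 ≤ (tau δ : ℝ) ^ 3 * ∑ y ∈ prs δ, ∑ A ∈ pdiv y.1, Qc α K V F δ e y A := by
  have hq0 := fun y A => Qc_nonneg α K V F δ e y A
  have e0 : R2 α K F δ e V = ∑ y ∈ prs δ, ∑ A ∈ pdiv y.1, Real.sqrt (Qc α K V F δ e y A) := rfl
  have h1 : (∑ y ∈ prs δ, ∑ A ∈ pdiv y.1, Real.sqrt (Qc α K V F δ e y A)) ^ 2 ≤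
      (prs δ).card * ∑ y ∈ prs δ, (∑ A ∈ pdiv y.1, Real.sqrt (Qc α K V F δ e y A)) ^ 2 :=
    sq_sum_le_card_mul_sum_sq
  have h2 : ∀ y ∈ prs δ, (∑ A ∈ pdiv y.1, Real.sqrt (Qc α K V F δ e y A)) ^ 2 ≤
      (tau δ : ℝ) * ∑ A ∈ pdiv y.1, Qc α K V F δ e y A := by
    intro y hy
    have h3 : (∑ A ∈ pdiv y.1, Real.sqrt (Qc α K V F δ e y A)) ^ 2 ≤
        (pdiv y.1).card * ∑ A ∈ pdiv y.1, Real.sqrt (Qc α K V F δ e y A) ^ 2 :=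
      sq_sum_le_card_mul_sum_sq
    refine h3.trans ?_
    rw [Finset.sum_congr rfl fun A _ => Real.sq_sqrt (hq0 y A)]
    exact mul_le_mul_of_nonneg_right (card_pdiv_le hδ hy) (Finset.sum_nonneg fun _ _ => hq0 _ _)
  have h3 : ∑ y ∈ prs δ, (∑ A ∈ pdiv y.1, Real.sqrt (Qc α K V F δ e y A)) ^ 2 ≤
      (tau δ : ℝ) * ∑ y ∈ prs δ, ∑ A ∈ pdiv y.1, Qc α K V F δ e y A := by
    rw [Finset.mul_sum]
    exact Finset.sum_le_sum h2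
  have h4 : 0 ≤ ∑ y ∈ prs δ, ∑ A ∈ pdiv y.1, Qc α K V F δ e y A :=
    Finset.sum_nonneg fun _ _ => Finset.sum_nonneg fun _ _ => hq0 _ _
  rw [e0]
  refine h1.trans ?_
  calc ((prs δ).card : ℝ) * ∑ y ∈ prs δ, (∑ A ∈ pdiv y.1, Real.sqrt (Qc α K V F δ e y A)) ^ 2
      ≤ (tau δ : ℝ) ^ 2 * ((tau δ : ℝ) * ∑ y ∈ prs δ, ∑ A ∈ pdiv y.1, Qc α K V F δ e y A) :=
        mul_le_mul card_prs_le h3 (Finset.sum_nonneg fun _ _ => sq_nonneg _) (by positivity)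
    _ = _ := by ring

/-- the inner sum over `(l, a)` -/
def Qla (α : Eis → ℂ) (Λ : Finset Eis) (ρ : Eis → Eis) (W Kl : Eis → ℝ) (V : ℝ) (F : ℝ → ℂ)
    (δ e : Eis) (y : Eis × Eis) (A : Eis) : ℝ :=
  ∑ l ∈ Λ, W l * Kl l ^ (-(2 / 3) : ℝ) * ∑ a ∈ (dvs (ρ l)).filter (fun a => ρ l / a ∣ δ),
    Qc (alr α a (ρ l / a)) (Kl l) V F δ e y A

lemma Qla_nonneg {α : Eis → ℂ} {Λ : Finset Eis} {ρ : Eis → Eis} {W Kl : Eis → ℝ}
    (hW : ∀ l ∈ Λ, 0 ≤ W l) (hK : ∀ l ∈ Λ, 0 ≤ Kl l) (V : ℝ) (F : ℝ → ℂ)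
    (δ e : Eis) (y : Eis × Eis) (A : Eis) : 0 ≤ Qla α Λ ρ W Kl V F δ e y A :=
  Finset.sum_nonneg fun l hl => mul_nonneg (mul_nonneg (hW l hl) (Real.rpow_nonneg (hK l hl) _))
    (Finset.sum_nonneg fun _ _ => Qc_nonneg _ _ _ _ _ _ _ _)

/-- one `(δ, i, e)` -/
lemma lsum_one {δ : Eis} (hδ : IsPrim δ) (α : Eis → ℂ) {Λ : Finset Eis} (ρ : Eis → Eis)
    {W Kl : Eis → ℝ} (hW : ∀ l ∈ Λ, 0 ≤ W l) (hK : ∀ l ∈ Λ, 0 ≤ Kl l) (V : ℝ) (F : ℝ → ℂ)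
    (e : Eis) {Q : ℝ}
    (hQ : ∀ y ∈ prs δ, ∀ A ∈ pdiv y.1, Qla α Λ ρ W Kl V F δ e y A ≤ Q) :
    ∑ l ∈ Λ, W l * ∑ a ∈ (dvs (ρ l)).filter (fun a => ρ l / a ∣ δ),
      Kl l ^ (-(2 / 3) : ℝ) * R2 (alr α a (ρ l / a)) (Kl l) F δ e V ^ 2 ≤ (tau δ : ℝ) ^ 6 * Q := by
  have hQ0 : 0 ≤ Q := by
    have hy : ((1 : Eis), δ) ∈ prs δ := (mem_prs hδ).mpr ⟨isPrim_one, hδ, one_mul _⟩
    exact (Qla_nonneg hW hK V F δ e _ 1).trans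
      (hQ _ hy 1 ((mem_pdiv (one_ne_zero)).mpr ⟨isPrim_one, one_dvd _⟩))
  have h1 : ∀ l ∈ Λ, W l * ∑ a ∈ (dvs (ρ l)).filter (fun a => ρ l / a ∣ δ),
      Kl l ^ (-(2 / 3) : ℝ) * R2 (alr α a (ρ l / a)) (Kl l) F δ e V ^ 2 ≤
      (tau δ : ℝ) ^ 3 * ∑ y ∈ prs δ, ∑ A ∈ pdiv y.1, (W l * Kl l ^ (-(2 / 3) : ℝ) *
        ∑ a ∈ (dvs (ρ l)).filter (fun a => ρ l / a ∣ δ),
          Qc (alr α a (ρ l / a)) (Kl l) V F δ e y A) := by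
    intro l hl
    have hWl := hW l hl
    have hKl : 0 ≤ Kl l ^ (-(2 / 3) : ℝ) := Real.rpow_nonneg (hK l hl) _
    have e1 : (tau δ : ℝ) ^ 3 * ∑ y ∈ prs δ, ∑ A ∈ pdiv y.1, (W l * Kl l ^ (-(2 / 3) : ℝ) *
        ∑ a ∈ (dvs (ρ l)).filter (fun a => ρ l / a ∣ δ),
          Qc (alr α a (ρ l / a)) (Kl l) V F δ e y A) =
        W l * ∑ a ∈ (dvs (ρ l)).filter (fun a => ρ l / a ∣ δ), Kl l ^ (-(2 / 3) : ℝ) *
          ((tau δ : ℝ) ^ 3 * ∑ y ∈ prs δ, ∑ A ∈ pdiv y.1,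
            Qc (alr α a (ρ l / a)) (Kl l) V F δ e y A) := by
      have e2 : ∑ y ∈ prs δ, ∑ A ∈ pdiv y.1,
          ∑ a ∈ (dvs (ρ l)).filter (fun a => ρ l / a ∣ δ),
            Qc (alr α a (ρ l / a)) (Kl l) V F δ e y A =
          ∑ a ∈ (dvs (ρ l)).filter (fun a => ρ l / a ∣ δ), ∑ y ∈ prs δ, ∑ A ∈ pdiv y.1,
            Qc (alr α a (ρ l / a)) (Kl l) V F δ e y A := by
        rw [sum_comm3]
      simp only [← Finset.mul_sum]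
      rw [← e2]
      ring
    rw [e1]
    refine mul_le_mul_of_nonneg_left (Finset.sum_le_sum fun a _ => ?_) hWl
    exact mul_le_mul_of_nonneg_left (R2_sq_le hδ _ _ _ _ _) hKl
  refine (Finset.sum_le_sum h1).trans ?_
  have e3 : ∑ l ∈ Λ, (tau δ : ℝ) ^ 3 * ∑ y ∈ prs δ, ∑ A ∈ pdiv y.1,
      (W l * Kl l ^ (-(2 / 3) : ℝ) * ∑ a ∈ (dvs (ρ l)).filter (fun a => ρ l / a ∣ δ),
          Qc (alr α a (ρ l / a)) (Kl l) V F δ e y A) =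
      (tau δ : ℝ) ^ 3 * ∑ y ∈ prs δ, ∑ A ∈ pdiv y.1, Qla α Λ ρ W Kl V F δ e y A := by
    rw [← Finset.mul_sum, sum_comm3]
    rfl
  rw [e3]
  have h4 : ∑ y ∈ prs δ, ∑ A ∈ pdiv y.1, Qla α Λ ρ W Kl V F δ e y A ≤ (tau δ : ℝ) ^ 3 * Q := by
    have h5 : ∀ y ∈ prs δ, ∑ A ∈ pdiv y.1, Qla α Λ ρ W Kl V F δ e y A ≤ (tau δ : ℝ) * Q := by
      intro y hy
      refine (Finset.sum_le_sum (hQ y hy)).trans ?_
      rw [Finset.sum_const, nsmul_eq_mul]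
      exact mul_le_mul_of_nonneg_right (card_pdiv_le hδ hy) hQ0
    refine (Finset.sum_le_sum h5).trans ?_
    rw [Finset.sum_const, nsmul_eq_mul]
    calc ((prs δ).card : ℝ) * ((tau δ : ℝ) * Q) ≤ (tau δ : ℝ) ^ 2 * ((tau δ : ℝ) * Q) :=
          mul_le_mul_of_nonneg_right card_prs_le (by positivity)
      _ = _ := by ring
  calc (tau δ : ℝ) ^ 3 * ∑ y ∈ prs δ, ∑ A ∈ pdiv y.1, Qla α Λ ρ W Kl V F δ e y A
      ≤ (tau δ : ℝ) ^ 3 * ((tau δ : ℝ) ^ 3 * Q) := mul_le_mul_of_nonneg_left h4 (by positivity)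
    _ = _ := by ring

/-- **the `l`-sum of `REb` from the inner double sums** -/
theorem REb_lsum {ε : ℝ} (hε : 0 < ε) : ∃ C : ℝ, 1 ≤ C ∧
    ∀ (P E0 Z V : ℝ) (D : Finset Eis) (I : ℕ) (F : ℝ → ℂ) (α : Eis → ℂ) (Λ : Finset Eis)
      (ρ : Eis → Eis) (W Kl : Eis → ℝ), (∀ l ∈ Λ, 0 ≤ W l) → (∀ l ∈ Λ, 0 ≤ Kl l) → 0 ≤ V →
    (∀ δ ∈ D, IsPrim δ ∧ (nm δ : ℝ) ≤ P) → ∀ Qb : Eis → ℕ → Eis → ℝ,
    (∀ δ ∈ D, ∀ i ∈ neb δ Z V I, ∀ e ∈ S E0, 0 ≤ Qb δ i e) →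
    (∀ δ ∈ D, ∀ i ∈ neb δ Z V I, ∀ e ∈ S E0, ∀ y ∈ prs δ, ∀ A ∈ pdiv y.1,
      Qla α Λ ρ W Kl (V / 2 ^ i) F δ e y A ≤ Qb δ i e) →
    ∑ l ∈ Λ, W l * ∑ a ∈ dvs (ρ l), REb (alr α a (ρ l / a)) (Kl l) F
        (D.filter (fun δ => ρ l / a ∣ δ)) I E0 Z V ≤
      C * P ^ ε * ∑ δ ∈ D, ∑ i ∈ neb δ Z V I, ∑ e ∈ S E0,
        ((V / 2 ^ i) ^ (1 / 3 : ℝ) / nm e) * Qb δ i e := by
  obtain ⟨C, hC, hτ⟩ := tau_le_rpow (show (0 : ℝ) < ε / 6 by linarith)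
  refine ⟨C ^ 6, one_le_pow₀ hC, ?_⟩
  intro P E0 Z V D I F α Λ ρ W Kl hW hK hV hD Qb hQ0 hQ
  have hτ1 : ∀ δ ∈ D, (tau δ : ℝ) ^ 6 ≤ C ^ 6 * P ^ ε := by
    intro δ hδ
    have hδp := (hD δ hδ).1
    have hδ1 : (1 : ℝ) ≤ nm δ := by exact_mod_cast nm_pos.2 hδp.ne_zero
    have hP1 : 1 ≤ P := hδ1.trans (hD δ hδ).2
    have hC0 : 0 ≤ C := by linarith
    have h2 : (tau δ : ℝ) ≤ C * P ^ (ε / 6) := (hτ δ hδp.ne_zero).trans (by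
      have := (hD δ hδ).2
      gcongr)
    calc (tau δ : ℝ) ^ 6 ≤ (C * P ^ (ε / 6)) ^ 6 := by gcongr
      _ = C ^ 6 * P ^ ε := by
        rw [mul_pow, ← Real.rpow_natCast (P ^ (ε / 6)) 6, ← Real.rpow_mul (by linarith)]
        congr 2
        push_cast; ring
  have e1 : ∑ l ∈ Λ, W l * ∑ a ∈ dvs (ρ l), REb (alr α a (ρ l / a)) (Kl l) F
        (D.filter (fun δ => ρ l / a ∣ δ)) I E0 Z V =
      ∑ δ ∈ D, ∑ i ∈ neb δ Z V I, ∑ e ∈ S E0, ((V / 2 ^ i) ^ (1 / 3 : ℝ) / nm e) *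
        ∑ l ∈ Λ, W l * ∑ a ∈ (dvs (ρ l)).filter (fun a => ρ l / a ∣ δ),
          Kl l ^ (-(2 / 3) : ℝ) * R2 (alr α a (ρ l / a)) (Kl l) F δ e (V / 2 ^ i) ^ 2 := by
    have h1 : ∀ l ∈ Λ, W l * ∑ a ∈ dvs (ρ l), REb (alr α a (ρ l / a)) (Kl l) F
        (D.filter (fun δ => ρ l / a ∣ δ)) I E0 Z V =
        ∑ δ ∈ D, ∑ i ∈ neb δ Z V I, ∑ e ∈ S E0, ((V / 2 ^ i) ^ (1 / 3 : ℝ) / nm e) *
        (W l * ∑ a ∈ (dvs (ρ l)).filter (fun a => ρ l / a ∣ δ),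
          Kl l ^ (-(2 / 3) : ℝ) * R2 (alr α a (ρ l / a)) (Kl l) F δ e (V / 2 ^ i) ^ 2) := by
      intro l _
      have h2 : ∀ a ∈ dvs (ρ l), REb (alr α a (ρ l / a)) (Kl l) F
          (D.filter (fun δ => ρ l / a ∣ δ)) I E0 Z V =
          ∑ δ ∈ D, if ρ l / a ∣ δ then ∑ i ∈ neb δ Z V I, ∑ e ∈ S E0,
            (Kl l ^ (-(2 / 3) : ℝ) * (V / 2 ^ i) ^ (1 / 3 : ℝ) / nm e) *
            R2 (alr α a (ρ l / a)) (Kl l) F δ e (V / 2 ^ i) ^ 2 else 0 := by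
        intro a _
        unfold LBx48.REb
        rw [Finset.sum_filter]
      rw [Finset.sum_congr rfl h2, Finset.sum_comm, Finset.mul_sum]
      refine Finset.sum_congr rfl fun δ _ => ?_
      rw [← Finset.sum_filter, Finset.sum_comm, Finset.mul_sum]
      refine Finset.sum_congr rfl fun i _ => ?_
      rw [Finset.sum_comm, Finset.mul_sum]
      refine Finset.sum_congr rfl fun e _ => ?_
      rw [Finset.mul_sum, Finset.mul_sum, Finset.mul_sum]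
      exact Finset.sum_congr rfl fun a _ => by ring
    rw [Finset.sum_congr rfl h1, Finset.sum_comm]
    refine Finset.sum_congr rfl fun δ _ => ?_
    rw [Finset.sum_comm]
    refine Finset.sum_congr rfl fun i _ => ?_
    rw [Finset.sum_comm]
    exact Finset.sum_congr rfl fun e _ => (Finset.mul_sum _ _ _).symm
  rw [e1, Finset.mul_sum]
  refine Finset.sum_le_sum fun δ hδ => ?_
  rw [Finset.mul_sum]
  refine Finset.sum_le_sum fun i hi => ?_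
  rw [Finset.mul_sum]
  refine Finset.sum_le_sum fun e he => ?_
  have h3 := lsum_one (hD δ hδ).1 α ρ hW hK (V / 2 ^ i) F e (hQ δ hδ i hi e he)
  have hw : 0 ≤ (V / 2 ^ i) ^ (1 / 3 : ℝ) / (nm e : ℝ) := by positivity
  have hq := hQ0 δ hδ i hi e he
  calc _ ≤ (V / 2 ^ i) ^ (1 / 3 : ℝ) / (nm e : ℝ) * ((tau δ : ℝ) ^ 6 * Qb δ i e) :=
        mul_le_mul_of_nonneg_left h3 hw
    _ = (tau δ : ℝ) ^ 6 * ((V / 2 ^ i) ^ (1 / 3 : ℝ) / (nm e : ℝ) * Qb δ i e) := by ring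
    _ ≤ _ := mul_le_mul_of_nonneg_right (hτ1 δ hδ) (by positivity)

lemma alr_bw (φ : ℝ → ℝ) (p : ℕ × ℕ) (t : ℝ) (α : Eis → ℂ) (a b : Eis) :
    alr (bw φ p t α) a b = bw φ p t (alr α a b) := alr_bt φ α p t a b

/-- the inner sum over `(l, a)` is a quadratic functional -/
theorem QF_Qla {F : ℝ → ℂ} (hF : ∃ b : ℝ, ∀ x, F x ≠ 0 → x ≤ b) {Λ : Finset Eis}
    {ρ : Eis → Eis} {W Kl : Eis → ℝ} (hW : ∀ l ∈ Λ, 0 ≤ W l) (hK : ∀ l ∈ Λ, 0 < Kl l)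
    {δ e : Eis} (he : e ≠ 0) {y : Eis × Eis} (hy : IsPrim y.1) {A : Eis} (hA : A ≠ 0) (V : ℝ)
    (φ : ℝ → ℝ) (p : ℕ × ℕ) (t : ℝ) :
    QF (fun α => Qla (bw φ p t α) Λ ρ W Kl V F δ e y A) := by
  refine QF_sum Λ (W := fun l => W l * Kl l ^ (-(2 / 3) : ℝ)) (fun l hl =>
    mul_nonneg (hW l hl) (Real.rpow_nonneg (hK l hl).le _)) fun l hl => ?_
  refine QF_sum1 _ fun a _ => ?_
  have h1 : (fun α => Qc (alr (bw φ p t α) a (ρ l / a)) (Kl l) V F δ e y A) =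
      fun α => (fun α' => ∑ c ∈ C4, ∑ j₂ ∈ S (Real.sqrt V),
        Qs (bw φ p t α') δ e V (Kl l) F y A c j₂) (alr α a (ρ l / a)) := by
    funext α
    rw [alr_bw]
    rfl
  rw [h1]
  exact QF_alr (QF_Qs hF (hK l hl) he hy hA V φ p t) a (ρ l / a)

/-- **the `l`-sum of `REb` of a flagged list, from the natural level** -/
theorem REb_lsum_list {ε : ℝ} (hε : 0 < ε) : ∃ C : ℝ, 1 ≤ C ∧
    ∀ (h : ℝ → ℝ) (R : ℝ), (∀ u, cx h u ≠ 0 → |u| ≤ R) → ∀ (μ : ℝ) (Pd : DPar) (hP : Pd.OK)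
    (ps : List Pf) (z D0 : ℝ), 1 ≤ D0 → ∀ (q : Eis) (φ : ℝ → ℝ) (p : ℕ × ℕ) (t : ℝ)
    (P E0 Z V : ℝ) (D : Finset Eis) (I : ℕ) (F : ℝ → ℂ), (∃ b : ℝ, ∀ x, F x ≠ 0 → x ≤ b) →
    ∀ (Λ : Finset Eis) (ρ : Eis → Eis) (W Kl : Eis → ℝ), (∀ l ∈ Λ, 0 ≤ W l) →
    (∀ l ∈ Λ, 0 < Kl l) → 0 ≤ V →
    (∀ δ ∈ D, IsPrim δ ∧ (nm δ : ℝ) ≤ P) → ∀ Qb : Eis → ℕ → Eis → ℝ,
    (∀ δ ∈ D, ∀ i ∈ neb δ Z V I, ∀ e ∈ S E0, 0 ≤ Qb δ i e) →
    (∀ δ ∈ D, ∀ i ∈ neb δ Z V I, ∀ e ∈ S E0, ∀ y ∈ prs δ, ∀ A ∈ pdiv y.1,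
      ∀ γ : Eis, IsPrim γ → Squarefree γ → IsCoprime γ q → (nm γ : ℝ) ≤ D0 ^ ps.length →
      ∀ j : Fin ps.length → IP, (∀ i, FromP hP (j i) (ps.get i).1) →
      ∑ i, (j i).z = Leg381.LF ps - Real.log (nm γ) →
      Qla (bw φ p t (MoF106.dl γ (TP320.sq (q * γ) ((SD h μ ps.length).w j)))) Λ ρ W Kl
        (V / 2 ^ i) F δ e y A ≤ Qb δ i e) →
    ∑ l ∈ Λ, W l * ∑ a ∈ dvs (ρ l), REb (alr (bw φ p t (sqc q (alF z D0 Pd h ps))) a (ρ l / a))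
        (Kl l) F (D.filter (fun δ => ρ l / a ∣ δ)) I E0 Z V ≤
      C * P ^ ε * ((100 * D0) ^ ps.length) ^ 2 * ∑ δ ∈ D, ∑ i ∈ neb δ Z V I, ∑ e ∈ S E0,
        ((V / 2 ^ i) ^ (1 / 3 : ℝ) / nm e) * Qb δ i e := by
  obtain ⟨C, hC, H⟩ := REb_lsum hε
  refine ⟨C, hC, ?_⟩
  intro h R hR μ Pd hP ps z D0 hD0 q φ p t P E0 Z V D I F hF Λ ρ W Kl hW hK hV hD Qb hQ0 hQ
  have h1 := H P E0 Z V D I F (bw φ p t (sqc q (alF z D0 Pd h ps))) Λ ρ W Kl hW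
    (fun l hl => (hK l hl).le) hV hD (fun δ i e => ((100 * D0) ^ ps.length) ^ 2 * Qb δ i e)
    (fun δ hδ i hi e he => by
      have := hQ0 δ hδ i hi e he
      positivity) ?_
  · refine h1.trans (le_of_eq ?_)
    rw [mul_assoc (C * P ^ ε)]
    congr 1
    rw [Finset.mul_sum]
    refine Finset.sum_congr rfl fun δ _ => ?_
    rw [Finset.mul_sum]
    refine Finset.sum_congr rfl fun i _ => ?_
    rw [Finset.mul_sum]
    exact Finset.sum_congr rfl fun e _ => by ring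
  · intro δ hδ i hi e he y hy A hA
    have hy' := (mem_prs (hD δ hδ).1).mp hy
    have hA' := (mem_pdiv hy'.1.ne_zero).mp hA
    have he0 : e ≠ 0 := by
      unfold LS2.S at he
      rw [Finset.mem_filter, mem_primBall] at he
      exact he.1.2.ne_zero
    exact nt_list (QF_Qla hF hW hK (δ := δ) he0 hy'.1 hA'.1.ne_zero (V / 2 ^ i) φ p t) hR μ hP ps
      (z := z) hD0 q (hQ0 δ hδ i hi e he)
      (fun γ g1 g2 g3 g4 j g5 g6 => hQ δ hδ i hi e he y hy A hA γ g1 g2 g3 g4 j g5 g6)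

end Crest.Agent.R017.RCl83
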