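import Crest.Agent.R017.PrH_502
import Crest.Agent.R017.PrF_502
import Crest.Agent.R017.RCla_83
import Crest.Agent.R017.QsJf_401

/-!
# Row 17, T.7: the principal half of the `l`-terms (helper502), part 2

* `ExA`, `MH_alr`, `sum_ExA` : the numbers for all `a`
* `PRl`, `GPl_le` : the cell sums with the weight free of `l`
-/

set_option autoImplicit false
set_option linter.unusedVariables false
set_option linter.unusedSectionVars false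

noncomputable section

open Complex
open scoped ComplexConjugate

namespace Crest.Agent.R017.PrD502

open Crest.Agent.R012 Crest.Agent.R012.Eis Crest.Agent.R012.GaussLoc283
open Crest.Agent.R012.Mob705 hiding pb mem_pb
open Crest.Agent.R012.Div277
open Crest.Agent.R012.LS2 (S mem_S)
open Crest.Agent.R012.Weight600 (osc norm_osc)
open Crest.Agent.R017.CM106 (sub CS FS)
open Crest.Agent.R017.H1401 (pb mem_pb DD DN HW WM QQ)
open Crest.Agent.R017.E2440 (cT ag one_le_nm)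
open Crest.Agent.R017.MoF106 (MoP)
open Crest.Agent.R017.PoHx72 (Cub dvd_of_sq_dvd_cube)
open Crest.Agent.R017.ExD791 (Mg)
open Crest.Agent.R017.MoCa83 (alr)
open Crest.Agent.R017.X6C180 (IX dl' Sg)

/-! ### the functional -/

lemma MoW_sum {ι : Type} (s : Finset ι) (X Z : ℝ) (W : Eis → Eis → ℝ)
    (P : Eis → Eis → Eis → Prop) (F : ι → Eis → ℝ) :
    ∑ a ∈ s, MoW X Z W P (F a) = MoW X Z W P (fun G => ∑ a ∈ s, F a G) := by
  classical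
  unfold MoW
  rw [Finset.sum_comm]
  refine Finset.sum_congr rfl fun g₂ _ => ?_
  rw [Finset.sum_comm]
  refine Finset.sum_congr rfl fun g₃ _ => ?_
  rw [← Finset.mul_sum, Finset.sum_comm]

lemma MoW_mono {X Z : ℝ} {W : Eis → Eis → ℝ} (hW : ∀ g₂ g₃, 0 ≤ W g₂ g₃)
    {P : Eis → Eis → Eis → Prop} {F F' : Eis → ℝ}
    (h : ∀ g₂ ∈ S X, ∀ g₃ ∈ S X, F (g₂ * g₃) ≤ F' (g₂ * g₃)) :
    MoW X Z W P F ≤ MoW X Z W P F' := by
  classical
  unfold MoW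
  refine Finset.sum_le_sum fun g₂ h2 => Finset.sum_le_sum fun g₃ h3 => ?_
  exact mul_le_mul_of_nonneg_left (Finset.sum_le_sum fun _ _ => h g₂ h2 g₃ h3) (hW _ _)

lemma MoW_const (c X Z : ℝ) (W : Eis → Eis → ℝ) (P : Eis → Eis → Eis → Prop) (F : Eis → ℝ) :
    MoW X Z W P (fun G => c * F G) = c * MoW X Z W P F := by
  classical
  unfold MoW
  rw [Finset.mul_sum]
  refine Finset.sum_congr rfl fun g₂ _ => ?_
  rw [Finset.mul_sum]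
  refine Finset.sum_congr rfl fun g₃ _ => ?_
  rw [← Finset.mul_sum]
  ring

lemma MoW_nonneg {X Z : ℝ} {W : Eis → Eis → ℝ} (hW : ∀ g₂ g₃, 0 ≤ W g₂ g₃)
    {P : Eis → Eis → Eis → Prop} {F : Eis → ℝ} (hF : ∀ G, 0 ≤ F G) : 0 ≤ MoW X Z W P F := by
  classical
  unfold MoW
  exact Finset.sum_nonneg fun _ _ => Finset.sum_nonneg fun _ _ =>
    mul_nonneg (hW _ _) (Finset.sum_nonneg fun _ _ => hF _)

/-! ### the numbers -/

open Classical in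
/-- the number of the principal moments for `a` -/
def ExA (Ax d0 X R : ℝ) (Q : Eis → Eis → Eis → Prop) (g' σ ν a B : Eis) (j : ℕ) : ℝ :=
  ∑ i : IX σ, ∑ n ∈ dvs ν, (nm n : ℝ) *
    MoW X (2 ^ j) (WM R (2 ^ j / (nm n : ℝ) ^ 3))
      (E2sp579.fP (fun g₂ g₃ d => DN n g₂ g₃ d ∧ (2 : ℝ) ^ j / 2 < nm d) (Q B (dl' σ i)))
      (fun G => Gv Ax d0 a (g' * B * G) ^ 2)

lemma ExA_nonneg (Ax d0 X : ℝ) {R : ℝ} (hR : 0 ≤ R) (Q : Eis → Eis → Eis → Prop)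
    (g' σ ν a B : Eis) (j : ℕ) : 0 ≤ ExA Ax d0 X R Q g' σ ν a B j := by
  unfold ExA
  refine Finset.sum_nonneg fun i _ => Finset.sum_nonneg fun n _ =>
    mul_nonneg (Nat.cast_nonneg _) ?_
  exact MoW_nonneg (fun g₂ g₃ => H1401.WM_nonneg hR (by positivity) g₂ g₃) fun G => sq_nonneg _

set_option maxHeartbeats 1000000 in
open Classical in
/-- **the principal moments of the restricted sequences** -/
theorem MH_alr {Pr : Eis → Prop} {M0 : Eis} (hP : PrK Pr M0) {J : ℕ} {Ax d0 Zp : ℝ}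
    {al : Eis → ℂ} (hal : FS al) (hV : PV Pr J Ax d0 Zp al) {σ : Eis} (hσ : Sg σ)
    {a b δ g' E ν : Eis} (ha : IsPrim a) (has : Squarefree a) (hb : IsPrim b) (hδ : IsPrim δ)
    (hg' : IsPrim g') (hE : E ≠ 0) {X R cd : ℝ} {N : Eis → ℕ} {N0 : ℕ} (hX : 1 ≤ X)
    (hR : 0 ≤ R) (hN : ∀ B ∈ S X, N B ≤ N0) (hcd : ∀ i : IX σ, (nm (dl' σ i) : ℝ) ≤ cd)
    (hZ1 : (nm g' : ℝ) * X ^ 3 * nm a ≤ Zp)
    (hZ2 : 2 ^ N0 * (nm E * cd * X ^ 2) * (nm δ : ℝ) ^ 3 * (nm b : ℝ) ^ 3 ≤ Zp)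
    {Q : Eis → Eis → Eis → Prop} (hQ : ∀ B τ d, Q B τ d → Pr (d * (E * τ * B ^ 2))) :
    E2sp579.MH (WM R) (fun n j g₂ g₃ d => DN n g₂ g₃ d ∧ (2 : ℝ) ^ j / 2 < nm d)
      Q (ag (alr al a b) δ g') E σ ν X (2 * J) N (ExA Ax d0 X R Q g' σ ν a) := by
  intro B hB i t j hj
  have hX0 : (0 : ℝ) ≤ X := by linarith
  obtain ⟨hBX, hB1, hBs⟩ := (mem_S hX0).mp hB
  have hNB : (1 : ℝ) ≤ nm B := one_le_nm hB1.ne_zero
  have hNa : (1 : ℝ) ≤ nm a := one_le_nm ha.ne_zero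
  have hNb : (1 : ℝ) ≤ nm b := one_le_nm hb.ne_zero
  have hjN : (2 : ℝ) ^ j ≤ 2 ^ N0 := pow_le_pow_right₀ (by norm_num) (hj.le.trans (hN B hB))
  have hi0 : (0 : ℝ) ≤ cd := (Nat.cast_nonneg _).trans (hcd i)
  have hVG := alr_VG hP hal hV ha has hb
  have h1 : (nm g' : ℝ) * nm B * (X * X) ≤ Zp / nm a := by
    rw [le_div_iff₀ (by linarith)]
    calc (nm g' : ℝ) * nm B * (X * X) * nm a ≤ nm g' * X * (X * X) * nm a := by gcongr
      _ = nm g' * X ^ 3 * nm a := by ring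
      _ ≤ Zp := hZ1
  have h2 : (2 : ℝ) ^ j * nm (E * dl' σ i * B ^ 2) * (nm δ : ℝ) ^ 3 ≤ Zp / (nm b : ℝ) ^ 3 := by
    rw [le_div_iff₀ (by positivity), nm_mul, nm_mul, nm_pow]
    push_cast
    calc (2 : ℝ) ^ j * (nm E * nm (dl' σ i) * (nm B : ℝ) ^ 2) * (nm δ : ℝ) ^ 3 * (nm b : ℝ) ^ 3
        ≤ 2 ^ N0 * (nm E * cd * X ^ 2) * (nm δ : ℝ) ^ 3 * (nm b : ℝ) ^ 3 := by
          have := hcd i
          gcongr
      _ ≤ Zp := hZ2
  set G0 : IX σ → ℝ := fun i => ∑ n ∈ dvs ν, (nm n : ℝ) *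
    MoW X (2 ^ j) (WM R (2 ^ j / (nm n : ℝ) ^ 3))
      (E2sp579.fP (fun g₂ g₃ d => DN n g₂ g₃ d ∧ (2 : ℝ) ^ j / 2 < nm d) (Q B (dl' σ i)))
      (fun G => Gv Ax d0 a (g' * B * G) ^ 2) with hG0
  have hG00 : ∀ i ∈ Finset.univ, 0 ≤ G0 i := fun i _ =>
    Finset.sum_nonneg fun n _ => mul_nonneg (Nat.cast_nonneg _)
      (MoW_nonneg (fun g₂ g₃ => H1401.WM_nonneg hR (by positivity) g₂ g₃) fun G => sq_nonneg _)
  have h3 : G0 i ≤ ExA Ax d0 X R Q g' σ ν a B j :=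
    Finset.single_le_sum (f := G0) hG00 (Finset.mem_univ i)
  refine le_trans ?_ (mul_le_mul_of_nonneg_left h3 (by positivity))
  simp only [hG0]
  rw [Finset.mul_sum]
  refine Finset.sum_le_sum fun n hn => ?_
  rw [mul_left_comm]
  refine mul_le_mul_of_nonneg_left ?_ (Nat.cast_nonneg _)
  exact moP_le_moW hP (FS_alr hal a b) hVG hδ hg' hE (dl_ne hσ i) hB1 hX0 (by positivity) h1 h2
    (fun g₂ g₃ => H1401.WM_nonneg hR (by positivity) g₂ g₃) (fun g₂ g₃ d hd => hQ _ _ _ hd.2) t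

set_option maxHeartbeats 1000000 in
open Classical in
/-- **all `a` at once** -/
theorem sum_ExA {ε : ℝ} (hε : 0 < ε) : ∃ C : ℝ, 1 ≤ C ∧ ∀ {Pr : Eis → Prop} {M0 : Eis},
    PrK Pr M0 → ∀ {Ax d0 : ℝ} {g' E B σ ν : Eis}, IsPrim g' → E ≠ 0 → Sg σ → IsPrim B →
    Squarefree B → IsPrim ν → ∀ {X R T : ℝ} {N0 j : ℕ}, 1 ≤ X → 0 ≤ R → 1 ≤ T → j ≤ N0 →
    ∀ {Q : Eis → Eis → Eis → Prop}, (∀ B τ d, Q B τ d → Pr (d * (E * τ * B ^ 2))) →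
    ∑ a ∈ S T, ExA Ax d0 X R Q g' σ ν a B j ≤
      ((Fintype.card (IX σ) : ℝ) * (C * (nm g' * nm B * X ^ 2) ^ ε * (1 + Real.log T) *
        ((2 ^ N0 * nm ν) ^ ε * (1 + Real.log X)))) *
        prM R (2 ^ j) Ax d0 (nm (E * M0) * nm ν) (nm (b2 (E * M0) B)) g' B := by
  obtain ⟨C, hC, h⟩ := moW_dvs2 hε
  obtain ⟨Ct, hCt, htau⟩ := tau_le_rpow hε
  refine ⟨Ct * 100 * C, by nlinarith [one_le_mul_of_one_le_of_one_le hCt hC], ?_⟩
  intro Pr M0 hP Ax d0 g' E B σ ν hg' hE hσ hB hBs hν X R T N0 j hX hR hT hj Q hQ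
  have hX0 : (0 : ℝ) ≤ X := by linarith
  have hNB : (1 : ℝ) ≤ nm B := one_le_nm hB.ne_zero
  have hng : (1 : ℝ) ≤ nm g' := one_le_nm hg'.ne_zero
  have hnν : (1 : ℝ) ≤ nm ν := one_le_nm hν.ne_zero
  have hlT : 0 ≤ Real.log T := Real.log_nonneg hT
  have hlX : 0 ≤ Real.log X := Real.log_nonneg hX
  have hjN : (2 : ℝ) ^ j ≤ 2 ^ N0 := pow_le_pow_right₀ (by norm_num) hj
  set U : ℝ := Ct * (nm g' * nm B * X ^ 2) ^ ε * (100 * (1 + Real.log T)) with hU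
  have hU0 : 0 ≤ U := by positivity
  have hW0 : ∀ n : Eis, ∀ g₂ g₃, 0 ≤ WM R (2 ^ j / (nm n : ℝ) ^ 3) g₂ g₃ := fun n g₂ g₃ =>
    H1401.WM_nonneg hR (by positivity) g₂ g₃
  -- the sum over `a`
  have e1 : ∑ a ∈ S T, ExA Ax d0 X R Q g' σ ν a B j = ∑ i : IX σ, ∑ n ∈ dvs ν, (nm n : ℝ) *
      MoW X (2 ^ j) (WM R (2 ^ j / (nm n : ℝ) ^ 3))
      (E2sp579.fP (fun g₂ g₃ d => DN n g₂ g₃ d ∧ (2 : ℝ) ^ j / 2 < nm d) (Q B (dl' σ i)))
      (fun G => ∑ a ∈ S T, Gv Ax d0 a (g' * B * G) ^ 2) := by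
    unfold ExA
    rw [Finset.sum_comm]
    refine Finset.sum_congr rfl fun i _ => ?_
    rw [Finset.sum_comm]
    refine Finset.sum_congr rfl fun n _ => ?_
    rw [← Finset.mul_sum, MoW_sum]
  rw [e1]
  have h1 : ∀ i : IX σ, ∑ n ∈ dvs ν, (nm n : ℝ) *
      MoW X (2 ^ j) (WM R (2 ^ j / (nm n : ℝ) ^ 3))
      (E2sp579.fP (fun g₂ g₃ d => DN n g₂ g₃ d ∧ (2 : ℝ) ^ j / 2 < nm d) (Q B (dl' σ i)))
      (fun G => ∑ a ∈ S T, Gv Ax d0 a (g' * B * G) ^ 2) ≤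
      U * ((C * (2 ^ N0 * nm ν) ^ ε * (1 + Real.log X)) *
        prM R (2 ^ j) Ax d0 (nm (E * M0) * nm ν) (nm (b2 (E * M0) B)) g' B) := by
    intro i
    have h2 : ∀ n ∈ dvs ν, (nm n : ℝ) *
      MoW X (2 ^ j) (WM R (2 ^ j / (nm n : ℝ) ^ 3))
      (E2sp579.fP (fun g₂ g₃ d => DN n g₂ g₃ d ∧ (2 : ℝ) ^ j / 2 < nm d) (Q B (dl' σ i)))
      (fun G => ∑ a ∈ S T, Gv Ax d0 a (g' * B * G) ^ 2) ≤
      U * ((nm n : ℝ) * MoW X (2 ^ j) (WM R (2 ^ j / (nm n : ℝ) ^ 3))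
        (E2sp579.fP (fun g₂ g₃ d => DN n g₂ g₃ d ∧ (2 : ℝ) ^ j / 2 < nm d) (Q B (dl' σ i)))
        (fun G => (Ax / nm (g' * B * G)) ^ 2 * Mu d0 (g' * B * G))) := by
      intro n _
      rw [mul_left_comm U]
      refine mul_le_mul_of_nonneg_left ?_ (Nat.cast_nonneg _)
      rw [← MoW_const]
      refine MoW_mono (hW0 n) fun g₂ k2 g₃ k3 => ?_
      obtain ⟨h2X, h2p, h2s⟩ := (mem_S hX0).mp k2
      obtain ⟨h3X, h3p, h3s⟩ := (mem_S hX0).mp k3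
      have hgp : IsPrim (g' * B * (g₂ * g₃)) := (hg'.mul hB).mul (h2p.mul h3p)
      refine (sum_Gv Ax d0 hT hgp).trans ?_
      have hMu := Mu_nonneg d0 (g' * B * (g₂ * g₃))
      refine mul_le_mul_of_nonneg_right ?_ (by positivity)
      rw [hU]
      refine mul_le_mul_of_nonneg_right ?_ (by positivity)
      refine (htau _ hgp.ne_zero).trans ?_
      have h5 : (nm (g' * B * (g₂ * g₃)) : ℝ) ≤ nm g' * nm B * X ^ 2 := by
        rw [nm_mul, nm_mul, nm_mul g₂ g₃]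
        push_cast
        calc (nm g' : ℝ) * nm B * (nm g₂ * nm g₃) ≤ nm g' * nm B * (X * X) := by gcongr
          _ = _ := by ring
      gcongr
    refine (Finset.sum_le_sum h2).trans ?_
    rw [← Finset.mul_sum]
    refine mul_le_mul_of_nonneg_left ?_ hU0
    refine (h hP (Ax := Ax) (d0 := d0) hg' hE (dl_ne hσ i) (dl_np hσ i) hB hBs hν hX
      (Z := 2 ^ j) (one_le_pow₀ (by norm_num)) hR
      (P := fun n => E2sp579.fP (fun g₂ g₃ d => DN n g₂ g₃ d ∧ (2 : ℝ) ^ j / 2 < nm d)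
        (Q B (dl' σ i)))
      (fun n g₂ g₃ d _ hd => ⟨hd.1.1, hQ _ _ _ hd.2⟩)).trans ?_
    have h4 := prM_nonneg (Ax := Ax) (d0 := d0) (b := (nm (b2 (E * M0) B) : ℝ)) hR
      (by positivity : (0 : ℝ) ≤ 2 ^ j) (by positivity : (0 : ℝ) ≤ nm (E * M0) * nm ν) g' B
    refine mul_le_mul_of_nonneg_right ?_ h4
    gcongr
  refine (Finset.sum_le_sum fun i _ => h1 i).trans (le_of_eq ?_)
  rw [Finset.sum_const, nsmul_eq_mul, Finset.card_univ, hU]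
  ring

end Crest.Agent.R017.PrD502
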