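import Crest.Agent.R017.PrH2_502
import Crest.Agent.R017.PrI_176

/-!
# Row 17, T.7: the principal half of the `l`-terms (helper502), part 3

* `cell_le1`, `wl`, `GPl_le` : the cell sums with the weight free of `l`
* `wl_bound` : the weights of the `l`-terms
* `prl_half` : the principal half of the `l`-terms
-/

set_option autoImplicit false
set_option linter.unusedVariables false
set_option linter.unusedSectionVars false

noncomputable section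

open Complex
open scoped ComplexConjugate

namespace Crest.Agent.R017.PrD502

open Crest.Agent.R012 Crest.Agent.R012.Eis Crest.Agent.R012.GaussLoc283
open Crest.Agent.R012.Mob705 hiding pb mem_pb
open Crest.Agent.R012.Div277
open Crest.Agent.R012.LS2 (S mem_S)
open Crest.Agent.R012.Weight600 (osc norm_osc)
open Crest.Agent.R017.CM106 (sub CS FS)
open Crest.Agent.R017.H1401 (pb mem_pb DD DN HW WM QQ)
open Crest.Agent.R017.E2440 (cT ag one_le_nm)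
open Crest.Agent.R017.MoF106 (MoP)
open Crest.Agent.R017.PoHx72 (Cub dvd_of_sq_dvd_cube)
open Crest.Agent.R017.ExD791 (Mg)
open Crest.Agent.R017.MoCa83 (alr)
open Crest.Agent.R017.X6C180 (IX dl' Sg)
open Crest.Agent.R017.PrI176 (PRl PJl PJL_le BRl pj_bdl RPl RPl_nonneg reb_prl rpl_num)

/-- **one cell**, weight of exponent `1/3` -/
lemma cell_le1 {R Z L b q w : ℝ} (hR : 0 ≤ R) (hZ : 1 ≤ Z) (hL : 0 ≤ L) (hb : 1 ≤ b)
    (hq : 0 ≤ q) (h0 : 0 ≤ w) (h1 : w ≤ 1) (h2 : w ≤ (q * Z) ^ ((1 : ℝ) / 3)) (Y : Prop)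
    [Decidable Y] (hY : Y → b ≤ Z) :
    w * ((2 / Z) * (if Y then R * min (Real.sqrt (Z / b)) L + Z + (R * Z) ^ ((2 : ℝ) / 3)
      else 0)) ≤
      2 * (1 + R ^ ((2 : ℝ) / 3) * q ^ ((1 : ℝ) / 3) +
        R * (L ^ ((1 : ℝ) / 3) * b ^ (-(2 / 3) : ℝ) * q ^ ((1 : ℝ) / 3))) := by
  have hZ0 : 0 < Z := by linarith
  have hb0 : 0 < b := by linarith
  have hrhs : 0 ≤ 2 * (1 + R ^ ((2 : ℝ) / 3) * q ^ ((1 : ℝ) / 3) +
        R * (L ^ ((1 : ℝ) / 3) * b ^ (-(2 / 3) : ℝ) * q ^ ((1 : ℝ) / 3))) := by positivity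
  split_ifs with hYY
  swap
  · rw [mul_zero, mul_zero]; exact hrhs
  have hbZ := hY hYY
  have hw2 : w ≤ q ^ ((1 : ℝ) / 3) * Z ^ ((1 : ℝ) / 3) := by
    rw [← Real.mul_rpow hq hZ0.le]
    exact h2
  have t3 : w * ((R * Z) ^ ((2 : ℝ) / 3) / Z) ≤ R ^ ((2 : ℝ) / 3) * q ^ ((1 : ℝ) / 3) := by
    have e1 : (R * Z) ^ ((2 : ℝ) / 3) / Z = R ^ ((2 : ℝ) / 3) * Z ^ (-(1 / 3) : ℝ) := by
      rw [Real.mul_rpow hR hZ0.le, mul_div_assoc]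
      congr 1
      rw [div_eq_iff hZ0.ne', ← Real.rpow_add_one hZ0.ne']
      norm_num
    rw [e1, mul_left_comm]
    refine mul_le_mul_of_nonneg_left ?_ (by positivity)
    calc w * Z ^ (-(1 / 3) : ℝ) ≤
          (q ^ ((1 : ℝ) / 3) * Z ^ ((1 : ℝ) / 3)) * Z ^ (-(1 / 3) : ℝ) :=
          mul_le_mul_of_nonneg_right hw2 (by positivity)
      _ = q ^ ((1 : ℝ) / 3) * (Z ^ ((1 : ℝ) / 3) * Z ^ (-(1 / 3) : ℝ)) := by ring
      _ = q ^ ((1 : ℝ) / 3) := by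
          rw [← Real.rpow_add hZ0]; norm_num
  have t1 : w * (min (Real.sqrt (Z / b)) L / Z) ≤
      L ^ ((1 : ℝ) / 3) * b ^ (-(2 / 3) : ℝ) * q ^ ((1 : ℝ) / 3) := by
    have h5 := min_interp (x := Z / b) (y := L) (by positivity) hL
    have e2 : (Z / b) ^ ((1 : ℝ) / 3) = Z ^ ((1 : ℝ) / 3) * b ^ (-(1 / 3) : ℝ) := by
      rw [Real.div_rpow hZ0.le hb0.le, Real.rpow_neg hb0.le]; rfl
    rw [e2] at h5
    have hZb : Z ^ (-(1 / 3) : ℝ) ≤ b ^ (-(1 / 3) : ℝ) :=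
      Real.rpow_le_rpow_of_nonpos hb0 hbZ (by norm_num)
    have eZ : Z ^ ((1 : ℝ) / 3) * Z ^ ((1 : ℝ) / 3) / Z = Z ^ (-(1 / 3) : ℝ) := by
      rw [← Real.rpow_add hZ0, div_eq_iff hZ0.ne', ← Real.rpow_add_one hZ0.ne']
      norm_num
    have eb : b ^ (-(1 / 3) : ℝ) * b ^ (-(1 / 3) : ℝ) = b ^ (-(2 / 3) : ℝ) := by
      rw [← Real.rpow_add hb0]; norm_num
    calc w * (min (Real.sqrt (Z / b)) L / Z)
        ≤ (q ^ ((1 : ℝ) / 3) * Z ^ ((1 : ℝ) / 3)) *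
          ((Z ^ ((1 : ℝ) / 3) * b ^ (-(1 / 3) : ℝ) * L ^ ((1 : ℝ) / 3)) / Z) := by
          refine mul_le_mul hw2 ?_ (by positivity) (by positivity)
          exact div_le_div_of_nonneg_right h5 hZ0.le
      _ = (L ^ ((1 : ℝ) / 3) * b ^ (-(1 / 3) : ℝ) * q ^ ((1 : ℝ) / 3)) *
          (Z ^ ((1 : ℝ) / 3) * Z ^ ((1 : ℝ) / 3) / Z) := by ring
      _ = (L ^ ((1 : ℝ) / 3) * b ^ (-(1 / 3) : ℝ) * q ^ ((1 : ℝ) / 3)) * Z ^ (-(1 / 3) : ℝ) := by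
          rw [eZ]
      _ ≤ (L ^ ((1 : ℝ) / 3) * b ^ (-(1 / 3) : ℝ) * q ^ ((1 : ℝ) / 3)) * b ^ (-(1 / 3) : ℝ) :=
          mul_le_mul_of_nonneg_left hZb (by positivity)
      _ = L ^ ((1 : ℝ) / 3) * (b ^ (-(1 / 3) : ℝ) * b ^ (-(1 / 3) : ℝ)) * q ^ ((1 : ℝ) / 3) := by
          ring
      _ = _ := by rw [eb]
  calc w * ((2 / Z) * (R * min (Real.sqrt (Z / b)) L + Z + (R * Z) ^ ((2 : ℝ) / 3)))
      = 2 * (w * (Z / Z) + w * ((R * Z) ^ ((2 : ℝ) / 3) / Z) +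
          R * (w * (min (Real.sqrt (Z / b)) L / Z))) := by ring
    _ ≤ 2 * (1 + R ^ ((2 : ℝ) / 3) * q ^ ((1 : ℝ) / 3) +
        R * (L ^ ((1 : ℝ) / 3) * b ^ (-(2 / 3) : ℝ) * q ^ ((1 : ℝ) / 3))) := by
        rw [div_self hZ0.ne', mul_one]
        gcongr

/-- the direct weight -/
def wl2 (A H : ℝ) (B : Eis) (j : ℕ) : ℝ :=
  min 1 ((H * (2 ^ j / (A / (nm B : ℝ) ^ 2))) ^ ((1 : ℝ) / 3))

/-- the dual weight -/
def wl1 (R X A : ℝ) (ν B : Eis) (j : ℕ) : ℝ :=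
  min 1 ((R * (nm ν : ℝ) ^ 2 * (X / nm B) / (A / (nm B : ℝ) ^ 2 * 2 ^ j)) ^ (-(1 / 3) : ℝ)) ^ 2

lemma wl2_nonneg {A H : ℝ} (hA : 0 ≤ A) (hH : 0 ≤ H) (B : Eis) (j : ℕ) : 0 ≤ wl2 A H B j := by
  unfold wl2; positivity

lemma wl1_nonneg (R X A : ℝ) (ν B : Eis) (j : ℕ) : 0 ≤ wl1 R X A ν B j := by
  unfold wl1; positivity

set_option maxHeartbeats 1000000 in
open Classical in
/-- **the cell sums, dual weight** -/
theorem GPl1 {R X A Ax d0 L : ℝ} {ν D g' : Eis} {N0 : ℕ}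
    (hR : 1 ≤ R) (hX : 1 ≤ X) (hA : 0 < A) (hL : 0 ≤ L) (hν : IsPrim ν) (hD : D ≠ 0)
    (hg' : IsPrim g') :
    ∑ B ∈ S X, ∑ j ∈ Finset.range N0, wl1 R X A ν B j *
        ((2 / 2 ^ j) * prM R (2 ^ j) Ax d0 L (nm (b2 D B)) g' B) ≤
      N0 * (200 * (1 + Real.log X)) * ((Ax / nm g') ^ 2 *
        (Mu d0 g' * (1 + R ^ ((2 : ℝ) / 3) *
          min 1 ((R * (nm ν : ℝ) ^ 2 * X / A) ^ (-(1 / 3) : ℝ)) +
        R * min 1 (L ^ ((1 : ℝ) / 3) * (R * (nm ν : ℝ) ^ 2 * X / A) ^ (-(2 / 3) : ℝ))))) := by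
  have hX0 : (0 : ℝ) ≤ X := by linarith
  have h := GP_le (R := R) (X := X) (A := A) (B0 := X) (H := 0) (Ax := Ax) (d0 := d0) (L := L)
    (ν := ν) (D := D) (g' := g') (ϑ := fun y => min 1 (y ^ (-(1 / 3) : ℝ))) (ϑd := fun _ => 0)
    (N := fun _ => N0) (N0 := N0) hR hX hA le_rfl hL hν hD hg'
    (fun y hy => ⟨le_min zero_le_one (by positivity), min_le_left _ _, min_le_right _ _⟩)
    (fun y hy => ⟨le_rfl, zero_le_one, by positivity⟩) (fun B _ => le_rfl)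
  refine le_trans (le_of_eq ?_) (h.trans (le_of_eq ?_))
  · refine Finset.sum_congr rfl fun B hB => Finset.sum_congr rfl fun j _ => ?_
    rw [if_pos ((mem_S hX0).mp hB).1]
    rfl
  · unfold PRn
    rw [zero_div, Real.zero_rpow (by norm_num), Real.zero_rpow (by norm_num)]
    ring

set_option maxHeartbeats 1000000 in
open Classical in
/-- **the cell sums, direct weight** -/
theorem GPl2 {R X A H Ax d0 L : ℝ} {D g' : Eis} {N0 : ℕ}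
    (hR : 1 ≤ R) (hX : 1 ≤ X) (hA : 0 < A) (hH : 0 ≤ H) (hL : 0 ≤ L) (hD : D ≠ 0)
    (hg' : IsPrim g') :
    ∑ B ∈ S X, ∑ j ∈ Finset.range N0, wl2 A H B j *
        ((2 / 2 ^ j) * prM R (2 ^ j) Ax d0 L (nm (b2 D B)) g' B) ≤
      N0 * (200 * (1 + Real.log X)) * ((Ax / nm g') ^ 2 *
        (Mu d0 g' + R ^ ((2 : ℝ) / 3) * (H / A) ^ ((1 : ℝ) / 3) * Mu d0 g' ^ ((1 : ℝ) / 3) +
          tau D * (Mu d0 g' * (R * L ^ ((1 : ℝ) / 3) * (H / A) ^ ((1 : ℝ) / 3))))) := by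
  have hX0 : (0 : ℝ) ≤ X := by linarith
  have hR0 : (0 : ℝ) < R := by linarith
  have hlog : 0 ≤ Real.log X := Real.log_nonneg hX
  have hng : (1 : ℝ) ≤ nm g' := one_le_nm hg'.ne_zero
  have hMg := Mu_nonneg d0 g'
  set c3 : ℝ := R ^ ((2 : ℝ) / 3) * (H / A) ^ ((1 : ℝ) / 3) with hc3
  set c1 : ℝ := R * L ^ ((1 : ℝ) / 3) * (H / A) ^ ((1 : ℝ) / 3) with hc1
  have hc30 : 0 ≤ c3 := by positivity
  have hc10 : 0 ≤ c1 := by positivity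
  have hrow : ∀ B ∈ S X, ∑ j ∈ Finset.range N0, wl2 A H B j *
        ((2 / 2 ^ j) * prM R (2 ^ j) Ax d0 L (nm (b2 D B)) g' B) ≤
      (N0 * 2 * (Ax / nm g') ^ 2) * ((Mu d0 g' + c3 * Mu d0 g' ^ ((1 : ℝ) / 3)) *
        (1 / (nm B : ℝ)) + (c1 * Mu d0 g') * ((nm (b1 D B) : ℝ) / nm B)) := by
    intro B hB
    obtain ⟨hBX, hB1, hBs⟩ := (mem_S hX0).mp hB
    have hNB : (1 : ℝ) ≤ nm B := one_le_nm hB1.ne_zero
    have hNB0 : (0 : ℝ) < nm B := by linarith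
    have hb1 : (1 : ℝ) ≤ nm (b1 D B) := one_le_nm (b1_prim D B).ne_zero
    have hb2 := one_le_b2 D B
    have hbb := nm_b1_b2 D hB1 hBs
    set bb : ℝ := (nm (b2 D B) : ℝ) with hbbd
    have hbb0 : 0 < bb := by linarith
    have hMB := Mu_nonneg d0 (g' * B)
    set V : ℝ := (Ax / (nm g' * nm B)) ^ 2 * Mu d0 (g' * B) with hV
    have hV0 : 0 ≤ V := by positivity
    have hVe : V = (Ax / nm g') ^ 2 * (((nm B : ℝ) ^ 2)⁻¹ * Mu d0 (g' * B)) := by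
      rw [hV]; field_simp
    have s1 : ((nm B : ℝ) ^ 2)⁻¹ * Mu d0 (g' * B) ≤ Mu d0 g' * (1 / (nm B : ℝ)) := by
      calc ((nm B : ℝ) ^ 2)⁻¹ * Mu d0 (g' * B) ≤ ((nm B : ℝ) ^ 2)⁻¹ * (nm B * Mu d0 g') :=
            mul_le_mul_of_nonneg_left (Mu_mul d0 hB1.ne_zero) (by positivity)
        _ = _ := by field_simp
    have e43 : (nm B : ℝ) ^ ((2 : ℝ) / 3) * (nm B : ℝ) ^ ((1 : ℝ) / 3) = nm B := by
      rw [← Real.rpow_add hNB0]; norm_num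
    have s3 : ((nm B : ℝ) ^ 2)⁻¹ * Mu d0 (g' * B) * (nm B : ℝ) ^ ((2 : ℝ) / 3) ≤
        Mu d0 g' ^ ((1 : ℝ) / 3) * (1 / (nm B : ℝ)) := by
      calc ((nm B : ℝ) ^ 2)⁻¹ * Mu d0 (g' * B) * (nm B : ℝ) ^ ((2 : ℝ) / 3)
          ≤ ((nm B : ℝ) ^ 2)⁻¹ * ((nm B : ℝ) ^ ((1 : ℝ) / 3) * Mu d0 g' ^ ((1 : ℝ) / 3)) *
            (nm B : ℝ) ^ ((2 : ℝ) / 3) := by
            refine mul_le_mul_of_nonneg_right ?_ (by positivity)
            exact mul_le_mul_of_nonneg_left (Mu_le_third hB1.ne_zero) (by positivity)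
        _ = ((nm B : ℝ) ^ 2)⁻¹ * Mu d0 g' ^ ((1 : ℝ) / 3) *
            ((nm B : ℝ) ^ ((2 : ℝ) / 3) * (nm B : ℝ) ^ ((1 : ℝ) / 3)) := by ring
        _ = _ := by rw [e43]; field_simp
    have s2 : ((nm B : ℝ) ^ 2)⁻¹ * Mu d0 (g' * B) * ((nm B : ℝ) ^ ((2 : ℝ) / 3) *
        bb ^ (-(2 / 3) : ℝ)) ≤ Mu d0 g' * ((nm (b1 D B) : ℝ) / nm B) := by
      have e5 : (nm B : ℝ) ^ ((2 : ℝ) / 3) * bb ^ (-(2 / 3) : ℝ) =
          (nm (b1 D B) : ℝ) ^ ((2 : ℝ) / 3) := by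
        rw [← hbb, Real.mul_rpow (by positivity) (by positivity), mul_assoc,
          ← Real.rpow_add hbb0]
        norm_num
      have e6 : (nm (b1 D B) : ℝ) ^ ((2 : ℝ) / 3) ≤ nm (b1 D B) := by
        calc (nm (b1 D B) : ℝ) ^ ((2 : ℝ) / 3) ≤ (nm (b1 D B) : ℝ) ^ (1 : ℝ) :=
              Real.rpow_le_rpow_of_exponent_le hb1 (by norm_num)
          _ = _ := Real.rpow_one _
      rw [e5]
      calc ((nm B : ℝ) ^ 2)⁻¹ * Mu d0 (g' * B) * (nm (b1 D B) : ℝ) ^ ((2 : ℝ) / 3)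
          ≤ (Mu d0 g' * (1 / (nm B : ℝ))) * nm (b1 D B) := by
            refine mul_le_mul s1 e6 (by positivity) (by positivity)
        _ = _ := by ring
    have hcell : ∀ j ∈ Finset.range N0, wl2 A H B j *
        ((2 / 2 ^ j) * prM R (2 ^ j) Ax d0 L bb g' B) ≤
        2 * (Ax / nm g') ^ 2 * ((Mu d0 g' + c3 * Mu d0 g' ^ ((1 : ℝ) / 3)) *
        (1 / (nm B : ℝ)) + (c1 * Mu d0 g') * ((nm (b1 D B) : ℝ) / nm B)) := by
      intro j _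
      set Z : ℝ := 2 ^ j with hZdef
      have hZ : 1 ≤ Z := one_le_pow₀ (by norm_num)
      have hZ0 : 0 < Z := by linarith
      have hq : 0 ≤ H / A * (nm B : ℝ) ^ 2 := by positivity
      set w : ℝ := wl2 A H B j with hw
      have a0 : 0 ≤ w := wl2_nonneg hA.le hH B j
      have a1 : w ≤ 1 := min_le_left _ _
      have a2 : w ≤ (H / A * (nm B : ℝ) ^ 2 * Z) ^ ((1 : ℝ) / 3) := by
        refine (min_le_right _ _).trans (le_of_eq ?_)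
        congr 1
        rw [← hZdef]
        field_simp
      have h7 := cell_le1 (R := R) (Y := bb ≤ Z) hR0.le hZ hL hb2 hq a0 a1 a2 (fun h => h)
      have a4 : (H / A * (nm B : ℝ) ^ 2) ^ ((1 : ℝ) / 3) =
          (H / A) ^ ((1 : ℝ) / 3) * (nm B : ℝ) ^ ((2 : ℝ) / 3) := by
        rw [Real.mul_rpow (by positivity) (by positivity), ← Real.rpow_natCast,
          ← Real.rpow_mul hNB0.le]
        norm_num
      have h8 : w * ((2 / Z) * prM R Z Ax d0 L bb g' B) ≤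
          V * (2 * (1 + c3 * (nm B : ℝ) ^ ((2 : ℝ) / 3) +
            c1 * ((nm B : ℝ) ^ ((2 : ℝ) / 3) * bb ^ (-(2 / 3) : ℝ)))) := by
        unfold prM
        rw [← hV]
        calc _ = V * (w * ((2 / Z) * (if bb ≤ Z then
              R * min (Real.sqrt (Z / bb)) L + Z + (R * Z) ^ ((2 : ℝ) / 3) else 0))) := by ring
          _ ≤ V * (2 * (1 + R ^ ((2 : ℝ) / 3) * (H / A * (nm B : ℝ) ^ 2) ^ ((1 : ℝ) / 3) +
              R * (L ^ ((1 : ℝ) / 3) * bb ^ (-(2 / 3) : ℝ) *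
                (H / A * (nm B : ℝ) ^ 2) ^ ((1 : ℝ) / 3)))) :=
              mul_le_mul_of_nonneg_left h7 hV0
          _ = _ := by rw [a4, hc3, hc1]; ring
      refine h8.trans ?_
      rw [hVe]
      calc (Ax / nm g') ^ 2 * (((nm B : ℝ) ^ 2)⁻¹ * Mu d0 (g' * B)) *
            (2 * (1 + c3 * (nm B : ℝ) ^ ((2 : ℝ) / 3) +
            c1 * ((nm B : ℝ) ^ ((2 : ℝ) / 3) * bb ^ (-(2 / 3) : ℝ))))
          = 2 * (Ax / nm g') ^ 2 * (((nm B : ℝ) ^ 2)⁻¹ * Mu d0 (g' * B) +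
              c3 * (((nm B : ℝ) ^ 2)⁻¹ * Mu d0 (g' * B) * (nm B : ℝ) ^ ((2 : ℝ) / 3)) +
              c1 * (((nm B : ℝ) ^ 2)⁻¹ * Mu d0 (g' * B) * ((nm B : ℝ) ^ ((2 : ℝ) / 3) *
                bb ^ (-(2 / 3) : ℝ)))) := by ring
        _ ≤ 2 * (Ax / nm g') ^ 2 * (Mu d0 g' * (1 / (nm B : ℝ)) +
              c3 * (Mu d0 g' ^ ((1 : ℝ) / 3) * (1 / (nm B : ℝ))) +
              c1 * (Mu d0 g' * ((nm (b1 D B) : ℝ) / nm B))) := by gcongr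
        _ = _ := by ring
    refine (Finset.sum_le_sum hcell).trans ?_
    rw [Finset.sum_const, Finset.card_range, nsmul_eq_mul]
    exact le_of_eq (by ring)
  refine (Finset.sum_le_sum hrow).trans ?_
  rw [← Finset.mul_sum, Finset.sum_add_distrib, ← Finset.mul_sum, ← Finset.mul_sum]
  have hM13 : 0 ≤ Mu d0 g' ^ ((1 : ℝ) / 3) := by positivity
  calc (N0 * 2 * (Ax / nm g') ^ 2) * ((Mu d0 g' + c3 * Mu d0 g' ^ ((1 : ℝ) / 3)) *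
        (∑ B ∈ S X, 1 / (nm B : ℝ)) +
        (c1 * Mu d0 g') * ∑ B ∈ S X, ((nm (b1 D B) : ℝ) / nm B))
      ≤ (N0 * 2 * (Ax / nm g') ^ 2) * ((Mu d0 g' + c3 * Mu d0 g' ^ ((1 : ℝ) / 3)) *
        (100 * (1 + Real.log X)) + (c1 * Mu d0 g') * (tau D * (100 * (1 + Real.log X)))) := by
        refine mul_le_mul_of_nonneg_left (add_le_add ?_ ?_) (by positivity)
        · exact mul_le_mul_of_nonneg_left (E2440.sum_inv_S hX) (by positivity)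
        · exact mul_le_mul_of_nonneg_left (sum_b1' hX hD) (by positivity)
    _ = _ := by
        rw [hc1, hc3]
        ring

open Classical in
/-- **the cell sums with both weights** -/
theorem GPl_le {R X A H Ax d0 L : ℝ} {ν D g' : Eis} {N0 : ℕ}
    (hR : 1 ≤ R) (hX : 1 ≤ X) (hA : 0 < A) (hH : 0 ≤ H) (hL : 0 ≤ L) (hν : IsPrim ν) (hD : D ≠ 0)
    (hg' : IsPrim g') :
    ∑ B ∈ S X, ∑ j ∈ Finset.range N0, (wl1 R X A ν B j + wl2 A H B j) *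
        ((2 / 2 ^ j) * prM R (2 ^ j) Ax d0 L (nm (b2 D B)) g' B) ≤
      N0 * (400 * (1 + Real.log X)) * ((Ax / nm g') ^ 2 *
        PRl R A (R * (nm ν : ℝ) ^ 2 * X / A) L (Mu d0 g') (tau D) H) := by
  have h1 := GPl1 (Ax := Ax) (d0 := d0) (N0 := N0) hR hX hA hL hν hD hg'
  have h2 := GPl2 (Ax := Ax) (d0 := d0) (N0 := N0) hR hX hA hH hL hD hg'
  have hR0 : (0 : ℝ) < R := by linarith
  have hX0 : (0 : ℝ) < X := by linarith
  have hlog : 0 ≤ Real.log X := Real.log_nonneg hX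
  have hnν : (1 : ℝ) ≤ nm ν := one_le_nm hν.ne_zero
  have hMg := Mu_nonneg d0 g'
  simp only [add_mul, Finset.sum_add_distrib]
  refine (add_le_add h1 h2).trans ?_
  set Z1 : ℝ := R * (nm ν : ℝ) ^ 2 * X / A with hZ1
  have hZ10 : 0 < Z1 := by rw [hZ1]; positivity
  unfold PrI176.PRl
  set Y : ℝ := (Ax / (nm g' : ℝ)) ^ 2 with hY
  have hY0 : 0 ≤ Y := sq_nonneg _
  set a1 : ℝ := Mu d0 g' * (R ^ ((2 : ℝ) / 3) * min 1 (Z1 ^ (-(1 / 3) : ℝ)) +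
    R * min 1 (L ^ ((1 : ℝ) / 3) * Z1 ^ (-(2 / 3) : ℝ))) with ha1
  set a2 : ℝ := R ^ ((2 : ℝ) / 3) * (H / A) ^ ((1 : ℝ) / 3) * Mu d0 g' ^ ((1 : ℝ) / 3) with ha2
  set a3 : ℝ := tau D * (Mu d0 g' * (R * L ^ ((1 : ℝ) / 3) * (H / A) ^ ((1 : ℝ) / 3))) with ha3
  have b1 : 0 ≤ a1 := by positivity
  have b2 : 0 ≤ a2 := by positivity
  have b3 : 0 ≤ a3 := by positivity
  have hk : 0 ≤ (N0 : ℝ) * (200 * (1 + Real.log X)) * Y := by positivity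
  have e1 : Mu d0 g' * (1 + R ^ ((2 : ℝ) / 3) * min 1 (Z1 ^ (-(1 / 3) : ℝ)) +
    R * min 1 (L ^ ((1 : ℝ) / 3) * Z1 ^ (-(2 / 3) : ℝ))) = Mu d0 g' + a1 := by rw [ha1]; ring
  rw [e1]
  nlinarith [mul_nonneg hk b1, mul_nonneg hk b2, mul_nonneg hk b3]

end Crest.Agent.R017.PrD502
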