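import Crest.Agent.R017.PrH3_502

/-!
# Row 17, T.7: the principal half of the `l`-terms (helper502), part 4

* `wl_bound` : the weights of the `l`-terms
* `prl_a`, `prl_l`, `prl_half` : the principal half of the `l`-terms
-/

set_option autoImplicit false
set_option linter.unusedVariables false
set_option linter.unusedSectionVars false

noncomputable section

open Complex
open scoped ComplexConjugate

namespace Crest.Agent.R017.PrD502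

open Crest.Agent.R012 Crest.Agent.R012.Eis Crest.Agent.R012.GaussLoc283
open Crest.Agent.R012.Mob705 hiding pb mem_pb
open Crest.Agent.R012.Div277
open Crest.Agent.R012.LS2 (S mem_S)
open Crest.Agent.R012.Weight600 (osc norm_osc pw)
open Crest.Agent.R017.CM106 (sub CS FS)
open Crest.Agent.R017.H1401 (pb mem_pb DD DN HW WM QQ)
open Crest.Agent.R017.E2440 (ag one_le_nm RR C4 mem_C4 prs mem_prs NBf NBf_le GKd
  shells_small le_two_pow_ceil isC_sg)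
open Crest.Agent.R017.ExD791 (Mg)
open Crest.Agent.R017.MoCa83 (alr)
open Crest.Agent.R017.X6C180 (IX dl' Sg)
open Crest.Agent.R017.Win813 (WK iA)
open Crest.Agent.R017.RGw813 (bt T9)
open Crest.Agent.R017.MoL106 (kw kw_ne)
open Crest.Agent.R017.RCl83 (RadOK sum_la sum_comm3)
open Crest.Agent.R017.PrI176 (PRl PJl PJL_le BRl pj_bdl RPl RPl_nonneg reb_prl rpl_num)

/-- the weights of the `l`-terms -/
lemma wl_bound {ϑ ϑd : ℝ → ℝ} {H : ℝ}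
    (hϑ : ∀ y : ℝ, 0 < y → 0 ≤ ϑ y ∧ ϑ y ≤ 1 ∧ ϑ y ≤ y ^ (-(1 / 3) : ℝ))
    (hϑd : ∀ y : ℝ, 0 < y → 0 ≤ ϑd y ∧ ϑd y ≤ 1 ∧ ϑd y ≤ (H * y) ^ ((1 : ℝ) / 3))
    {W m R X A A' B0 : ℝ} {ν B : Eis} {j : ℕ} (hm : 1 ≤ m) (hW0 : 0 ≤ W) (hW : W ≤ m⁻¹)
    (hA : 0 < A) (hA' : A' = A / m ^ 3) (hR : 0 < R) (hX : 0 < X) (hH : 0 ≤ H) (hν : ν ≠ 0)
    (hB : B ≠ 0) :
    W * QsJ401.wB ϑ ϑd R X A' B0 ν B j ≤ wl1 R X A ν B j + wl2 A H B j := by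
  have hm0 : 0 < m := by linarith
  have hm3 : 1 ≤ m ^ 3 := one_le_pow₀ hm
  have hW1 : W ≤ 1 := hW.trans (inv_le_one_of_one_le₀ hm)
  have hnν : (0 : ℝ) < nm ν := by exact_mod_cast nm_pos.2 hν
  have hnB : (0 : ℝ) < nm B := by exact_mod_cast nm_pos.2 hB
  have h1 := wl1_nonneg R X A ν B j
  have h2 := wl2_nonneg hA.le hH B j
  unfold QsJ401.wB
  split_ifs with hc
  · refine le_trans ?_ (le_add_of_nonneg_right h2)
    set y : ℝ := R * (nm ν : ℝ) ^ 2 * (X / nm B) / (A / (nm B : ℝ) ^ 2 * 2 ^ j) with hy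
    have hy0 : 0 < y := by positivity
    have e : R * (nm ν : ℝ) ^ 2 * (X / nm B) / (A' / (nm B : ℝ) ^ 2 * 2 ^ j) = m ^ 3 * y := by
      rw [hA', hy]; field_simp
    rw [e]
    have hyy : y ≤ m ^ 3 * y := le_mul_of_one_le_left hy0.le hm3
    obtain ⟨a0, a1, a2⟩ := hϑ (m ^ 3 * y) (by positivity)
    have a3 : ϑ (m ^ 3 * y) ≤ min 1 (y ^ (-(1 / 3) : ℝ)) :=
      le_min a1 (a2.trans (Real.rpow_le_rpow_of_nonpos hy0 hyy (by norm_num)))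
    calc W * ϑ (m ^ 3 * y) ^ 2 ≤ 1 * min 1 (y ^ (-(1 / 3) : ℝ)) ^ 2 :=
          mul_le_mul hW1 (pow_le_pow_left₀ a0 a3 2) (by positivity) (by norm_num)
      _ = wl1 R X A ν B j := by rw [one_mul]; rfl
  · refine le_trans ?_ (le_add_of_nonneg_left h1)
    set y : ℝ := 2 ^ j / (A / (nm B : ℝ) ^ 2) with hy
    have hy0 : 0 < y := by positivity
    have e : 2 ^ j / (A' / (nm B : ℝ) ^ 2) = m ^ 3 * y := by
      rw [hA', hy]; field_simp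
    rw [e]
    obtain ⟨a0, a1, a2⟩ := hϑd (m ^ 3 * y) (by positivity)
    have e2 : (H * (m ^ 3 * y)) ^ ((1 : ℝ) / 3) = m * (H * y) ^ ((1 : ℝ) / 3) := by
      rw [show H * (m ^ 3 * y) = m ^ 3 * (H * y) by ring,
        Real.mul_rpow (by positivity) (by positivity), r13 hm0]
    rw [e2] at a2
    have hHy : 0 ≤ (H * y) ^ ((1 : ℝ) / 3) := by positivity
    unfold wl2
    refine le_min ?_ ?_
    · exact mul_le_one₀ hW1 (sq_nonneg _) (pow_le_one₀ a0 a1)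
    · calc W * ϑd (m ^ 3 * y) ^ 2 = W * (ϑd (m ^ 3 * y) * ϑd (m ^ 3 * y)) := by ring
        _ ≤ m⁻¹ * (m * (H * y) ^ ((1 : ℝ) / 3) * 1) := by
            refine mul_le_mul hW ?_ (by positivity) (by positivity)
            exact mul_le_mul a2 a1 a0 (by positivity)
        _ = (H * y) ^ ((1 : ℝ) / 3) := by field_simp

lemma PJl_mono3 {K V X a nM nν H Mg' T : ℝ} (hV : 0 < V) (hK : 0 < K) (hX : 0 < X) (ha : 0 < a)
    (hM : 0 ≤ nM) (hν : 0 < nν) (hH : 0 < H) (hMg : 0 ≤ Mg') (h3 : nM ^ ((1 : ℝ) / 3) ≤ 3)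
    (hT : 1 ≤ T) : PJl K V X a nM nν H Mg' T ≤ 3 * T * PJl K V X a 1 nν H Mg' 1 := by
  unfold PrI176.PJl
  rw [Real.one_rpow, one_mul nν, Real.mul_rpow hM hν.le]
  set q0 : ℝ := K ^ ((2 : ℝ) / 3) * V ^ ((1 : ℝ) / 6) / a with hq0
  set q1 : ℝ := K * X ^ (-(1 / 3) : ℝ) * nν ^ (-(2 / 3) : ℝ) / a with hq1
  set q2 : ℝ := K ^ ((4 : ℝ) / 3) * X ^ (-(2 / 3) : ℝ) with hq2
  set q3 : ℝ := (V * K * H) ^ ((1 : ℝ) / 3) * Mg' ^ ((1 : ℝ) / 3) with hq3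
  set q4 : ℝ := V ^ ((2 : ℝ) / 3) * a ^ ((2 : ℝ) / 3) * K ^ ((1 : ℝ) / 3) with hq4
  set q5 : ℝ := nν ^ ((1 : ℝ) / 3) with hq5
  set q6 : ℝ := H ^ ((1 : ℝ) / 3) with hq6
  set m : ℝ := nM ^ ((1 : ℝ) / 3) with hm
  have a0 : 0 ≤ q0 := by positivity
  have a1 : 0 ≤ q1 := by positivity
  have a2 : 0 ≤ q2 * nν⁻¹ / a := by positivity
  have a3 : 0 ≤ q3 := by positivity
  have a4 : 0 ≤ Mg' * (q4 * q5 * q6) := by positivity
  have hm0 : 0 ≤ m := by positivity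
  calc Mg' * (q0 + q1 + q2 * m * nν⁻¹ / a) + q3 + T * (Mg' * (q4 * (m * q5) * q6))
      = Mg' * (1 * q0 + 1 * q1 + m * (q2 * nν⁻¹ / a)) + 1 * q3 +
          T * (m * (Mg' * (q4 * q5 * q6))) := by ring
    _ ≤ Mg' * ((3 * T) * q0 + (3 * T) * q1 + (3 * T) * (q2 * nν⁻¹ / a)) + (3 * T) * q3 +
        T * (3 * (Mg' * (q4 * q5 * q6))) := by
        have h1 : (1 : ℝ) ≤ 3 * T := by linarith
        have h2 : m ≤ 3 * T := by linarith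
        gcongr
    _ = 3 * T * (Mg' * (q0 + q1 + q2 * 1 * nν⁻¹ / a) + q3 + 1 * (Mg' * (q4 * q5 * q6))) := by
        ring

/-- the weighted cell sum, free of `l` -/
def Wc (H R X A : ℝ) (ν : Eis) (N0 : ℕ) (E : Eis → ℕ → ℝ) : ℝ :=
  ∑ B ∈ S X, ∑ j ∈ Finset.range N0, (wl1 R X A ν B j + wl2 A H B j) * ((2 / 2 ^ j) * E B j)

lemma Wc_nonneg {H R X A : ℝ} (hA : 0 ≤ A) (hH : 0 ≤ H) (ν : Eis) (N0 : ℕ) {E : Eis → ℕ → ℝ}
    (hE : ∀ B j, 0 ≤ E B j) : 0 ≤ Wc H R X A ν N0 E := by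
  unfold Wc
  refine Finset.sum_nonneg fun B _ => Finset.sum_nonneg fun j _ => ?_
  have h1 := wl1_nonneg R X A ν B j
  have h2 := wl2_nonneg hA hH B j
  have := hE B j
  positivity

set_option maxHeartbeats 1000000 in
open Classical in
/-- **the sum over `a`, `c`, `j₂`** -/
theorem prl_a {V K X H Ax d0 Tt W0 : ℝ} {e A M0 ν g' : Eis} {N0 : ℕ} {As : Finset Eis}
    {Ex : Eis → Eis → Eis → Eis → ℕ → ℝ} (hV : 1 ≤ V) (hK : 0 < K) (hX : 1 ≤ X) (he : e ≠ 0)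
    (hA : A ≠ 0) (hM0 : M0 ≠ 0) (hν : IsPrim ν) (hg' : IsPrim g') (hH : 0 < H) (hW : 0 ≤ W0)
    (hE : ∀ c ∈ C4, ∀ j₂ ∈ S (Real.sqrt V), 1 ≤ RR V e A c j₂ → ∀ B ∈ S X, ∀ j < N0,
      ∑ a ∈ As, Ex a c j₂ B j ≤ W0 * prM (RR V e A c j₂) (2 ^ j) Ax d0
        (nm (e * A * j₂ * M0) * nm ν) (nm (b2 (e * A * j₂ * M0) B)) g' B)
    (hT : ∀ j₂ ∈ S (Real.sqrt V), (tau (e * A * j₂ * M0) : ℝ) ≤ Tt) :
    ∑ a ∈ As, ∑ c ∈ C4, ∑ j₂ ∈ (S (Real.sqrt V)).filter (fun j₂ => 1 ≤ RR V e A c j₂),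
      RR V e A c j₂ ^ (-(1 : ℝ) / 3) * (K / nm (e * A * j₂)) ^ ((2 : ℝ) / 3) *
        Wc H (RR V e A c j₂) X (K / nm (e * A * j₂)) ν N0 (Ex a c j₂) ≤
      1200 * (1 + Real.log V) * ((W0 * (N0 * (400 * (1 + Real.log X)) * (Ax / nm g') ^ 2)) *
        PJl K V X (nm (e * A)) (nm M0) (nm ν) H (Mu d0 g') Tt) := by
  have hsV0 : (0 : ℝ) ≤ Real.sqrt V := Real.sqrt_nonneg _
  have hX0 : (0 : ℝ) ≤ X := by linarith
  have hlX : 0 ≤ Real.log X := Real.log_nonneg hX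
  have hMu := Mu_nonneg d0 g'
  have hPJ := PJL_le (V := V) (K := K) (X := X) (H := H) (Mg' := Mu d0 g') (T := Tt)
    (W := W0 * (N0 * (400 * (1 + Real.log X)) * (Ax / nm g') ^ 2)) (e := e) (A := A) (M0 := M0)
    (ν := ν) hV hK (by linarith) he hA hM0 hν.ne_zero hH hMu (by positivity) hT
  refine le_trans ?_ hPJ
  rw [sum_comm3]
  refine Finset.sum_le_sum fun c hc => Finset.sum_le_sum fun j₂ hj => ?_
  rw [Finset.mem_filter] at hj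
  obtain ⟨hjS, hjR⟩ := hj
  have hj1 : IsPrim j₂ := ((mem_S hsV0).mp hjS).2.1
  have hE0 : e * A * j₂ ≠ 0 := mul_ne_zero (mul_ne_zero he hA) hj1.ne_zero
  have hnE : (0 : ℝ) < nm (e * A * j₂) := by exact_mod_cast nm_pos.2 hE0
  have hAp : 0 < K / nm (e * A * j₂) := by positivity
  have hR0 : 0 ≤ RR V e A c j₂ := by linarith
  rw [← Finset.mul_sum]
  refine mul_le_mul_of_nonneg_left ?_ (by positivity)
  have e1 : ∑ a ∈ As, Wc H (RR V e A c j₂) X (K / nm (e * A * j₂)) ν N0 (Ex a c j₂) =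
      ∑ B ∈ S X, ∑ j ∈ Finset.range N0, (wl1 (RR V e A c j₂) X (K / nm (e * A * j₂)) ν B j +
        wl2 (K / nm (e * A * j₂)) H B j) * ((2 / 2 ^ j) * ∑ a ∈ As, Ex a c j₂ B j) := by
    unfold Wc
    rw [Finset.sum_comm]
    refine Finset.sum_congr rfl fun B _ => ?_
    rw [Finset.sum_comm]
    refine Finset.sum_congr rfl fun j _ => ?_
    rw [Finset.mul_sum, Finset.mul_sum]
  rw [e1]
  have h2 : ∀ B ∈ S X, ∀ j ∈ Finset.range N0,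
      (wl1 (RR V e A c j₂) X (K / nm (e * A * j₂)) ν B j +
        wl2 (K / nm (e * A * j₂)) H B j) * ((2 / 2 ^ j) * ∑ a ∈ As, Ex a c j₂ B j) ≤
      W0 * ((wl1 (RR V e A c j₂) X (K / nm (e * A * j₂)) ν B j +
        wl2 (K / nm (e * A * j₂)) H B j) * ((2 / 2 ^ j) * prM (RR V e A c j₂) (2 ^ j) Ax d0
        (nm (e * A * j₂ * M0) * nm ν) (nm (b2 (e * A * j₂ * M0) B)) g' B)) := by
    intro B hB j hj'
    have h3 := hE c hc j₂ hjS hjR B hB j (Finset.mem_range.mp hj')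
    have h4 := wl1_nonneg (RR V e A c j₂) X (K / nm (e * A * j₂)) ν B j
    have h5 := wl2_nonneg hAp.le hH.le B j
    calc _ ≤ (wl1 (RR V e A c j₂) X (K / nm (e * A * j₂)) ν B j +
        wl2 (K / nm (e * A * j₂)) H B j) * ((2 / 2 ^ j) * (W0 * prM (RR V e A c j₂) (2 ^ j) Ax d0
        (nm (e * A * j₂ * M0) * nm ν) (nm (b2 (e * A * j₂ * M0) B)) g' B)) := by
          refine mul_le_mul_of_nonneg_left ?_ (by positivity)
          exact mul_le_mul_of_nonneg_left h3 (by positivity)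
      _ = _ := by ring
  refine (Finset.sum_le_sum fun B hB => Finset.sum_le_sum fun j hj' => h2 B hB j hj').trans ?_
  have h6 := GPl_le (R := RR V e A c j₂) (X := X) (A := K / nm (e * A * j₂)) (H := H) (Ax := Ax)
    (d0 := d0) (L := nm (e * A * j₂ * M0) * nm ν) (ν := ν) (D := e * A * j₂ * M0) (g' := g')
    (N0 := N0) hjR hX hAp hH.le (by positivity) hν (mul_ne_zero hE0 hM0) hg'
  simp only [← Finset.mul_sum]
  calc W0 * ∑ B ∈ S X, ∑ j ∈ Finset.range N0,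
        (wl1 (RR V e A c j₂) X (K / nm (e * A * j₂)) ν B j +
        wl2 (K / nm (e * A * j₂)) H B j) * ((2 / 2 ^ j) * prM (RR V e A c j₂) (2 ^ j) Ax d0
        (nm (e * A * j₂ * M0) * nm ν) (nm (b2 (e * A * j₂ * M0) B)) g' B)
      ≤ W0 * (N0 * (400 * (1 + Real.log X)) * ((Ax / nm g') ^ 2 *
        PRl (RR V e A c j₂) (K / nm (e * A * j₂))
          (RR V e A c j₂ * (nm ν : ℝ) ^ 2 * X / (K / nm (e * A * j₂)))
          (nm (e * A * j₂ * M0) * nm ν) (Mu d0 g') (tau (e * A * j₂ * M0)) H)) :=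
        mul_le_mul_of_nonneg_left h6 hW
    _ = _ := by ring

set_option maxHeartbeats 1000000 in
open Classical in
/-- **one `l`** -/
lemma prl_l {ϑ ϑd : ℝ → ℝ} {H : ℝ}
    (hϑ : ∀ y : ℝ, 0 < y → 0 ≤ ϑ y ∧ ϑ y ≤ 1 ∧ ϑ y ≤ y ^ (-(1 / 3) : ℝ))
    (hϑd : ∀ y : ℝ, 0 < y → 0 ≤ ϑd y ∧ ϑd y ≤ 1 ∧ ϑd y ≤ (H * y) ^ ((1 : ℝ) / 3))
    {W m R X K K' nE B0 : ℝ} {ν : Eis} (hm : 1 ≤ m) (hW0 : 0 ≤ W) (hW : W ≤ m⁻¹)
    (hK : 0 < K) (hnE : 0 < nE) (hK' : K' = K / m ^ 3) (hR : 0 < R) (hX : 1 ≤ X) (hH : 0 ≤ H)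
    (hν : ν ≠ 0) {N : Eis → ℕ} {N0 : ℕ} (hN : ∀ B ∈ S X, N B ≤ N0) {E : Eis → ℕ → ℝ}
    (hE : ∀ B j, 0 ≤ E B j) :
    W * K' ^ (-(2 / 3) : ℝ) * (R ^ (-(1 : ℝ) / 3) * (K' / nE) ^ ((2 : ℝ) / 3) *
        GKd ϑ ϑd R X (K' / nE) B0 ν N (fun B j => (2 / 2 ^ j) * E B j)) ≤
      K ^ (-(2 / 3) : ℝ) * (R ^ (-(1 : ℝ) / 3) * (K / nE) ^ ((2 : ℝ) / 3) *
        Wc H R X (K / nE) ν N0 E) := by
  have hm0 : 0 < m := by linarith
  have hX0 : (0 : ℝ) ≤ X := by linarith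
  have hK'0 : 0 < K' := by rw [hK']; positivity
  have e1 : K' ^ (-(2 / 3) : ℝ) * (K' / nE) ^ ((2 : ℝ) / 3) = nE ^ (-(2 / 3) : ℝ) := by
    rw [Real.div_rpow hK'0.le hnE.le, Real.rpow_neg hK'0.le, Real.rpow_neg hnE.le]
    have : K' ^ ((2 : ℝ) / 3) ≠ 0 := (Real.rpow_pos_of_pos hK'0 _).ne'
    field_simp
  have e2 : K ^ (-(2 / 3) : ℝ) * (K / nE) ^ ((2 : ℝ) / 3) = nE ^ (-(2 / 3) : ℝ) := by
    rw [Real.div_rpow hK.le hnE.le, Real.rpow_neg hK.le, Real.rpow_neg hnE.le]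
    have : K ^ ((2 : ℝ) / 3) ≠ 0 := (Real.rpow_pos_of_pos hK _).ne'
    field_simp
  have e3 : W * K' ^ (-(2 / 3) : ℝ) * (R ^ (-(1 : ℝ) / 3) * (K' / nE) ^ ((2 : ℝ) / 3) *
        GKd ϑ ϑd R X (K' / nE) B0 ν N (fun B j => (2 / 2 ^ j) * E B j)) =
      R ^ (-(1 : ℝ) / 3) * nE ^ (-(2 / 3) : ℝ) * (W * GKd ϑ ϑd R X (K' / nE) B0 ν N
        (fun B j => (2 / 2 ^ j) * E B j)) := by
    rw [← e1]; ring
  have e4 : K ^ (-(2 / 3) : ℝ) * (R ^ (-(1 : ℝ) / 3) * (K / nE) ^ ((2 : ℝ) / 3) *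
        Wc H R X (K / nE) ν N0 E) =
      R ^ (-(1 : ℝ) / 3) * nE ^ (-(2 / 3) : ℝ) * Wc H R X (K / nE) ν N0 E := by
    rw [← e2]; ring
  rw [e3, e4]
  refine mul_le_mul_of_nonneg_left ?_ (by positivity)
  rw [QsJ401.GKd_eq, Finset.mul_sum]
  unfold Wc
  refine Finset.sum_le_sum fun B hB => ?_
  obtain ⟨hBX, hB1, hBs⟩ := (mem_S hX0).mp hB
  rw [Finset.mul_sum]
  have h1 : ∀ j, W * (QsJ401.wB ϑ ϑd R X (K' / nE) B0 ν B j * ((2 / 2 ^ j) * E B j)) ≤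
      (wl1 R X (K / nE) ν B j + wl2 (K / nE) H B j) * ((2 / 2 ^ j) * E B j) := by
    intro j
    have h2 := wl_bound hϑ hϑd (R := R) (X := X) (A := K / nE) (A' := K' / nE) (B0 := B0)
      (ν := ν) (B := B) (j := j) hm hW0 hW (by positivity)
      (by rw [hK']; field_simp) hR (by linarith) hH hν hB1.ne_zero
    have h3 := hE B j
    rw [← mul_assoc]
    exact mul_le_mul_of_nonneg_right h2 (by positivity)
  refine (Finset.sum_le_sum fun j _ => h1 j).trans ?_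
  refine Finset.sum_le_sum_of_subset_of_nonneg (Finset.range_subset_range.mpr (hN B hB))
    fun j _ _ => ?_
  have h2 := wl1_nonneg R X (K / nE) ν B j
  have h3 := wl2_nonneg (A := K / nE) (by positivity) hH B j
  have h4 := hE B j
  positivity

end Crest.Agent.R017.PrD502
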