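import Crest.Agent.R017.PrH4_502

/-!
# Row 17, T.7: the principal half of the `l`-terms (helper502), part 5

* `prl_half` : the principal half of the `l`-terms
-/

set_option autoImplicit false
set_option linter.unusedVariables false
set_option linter.unusedSectionVars false

noncomputable section

open Complex
open scoped ComplexConjugate

namespace Crest.Agent.R017.PrD502

open Crest.Agent.R012 Crest.Agent.R012.Eis Crest.Agent.R012.GaussLoc283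
open Crest.Agent.R012.Mob705 hiding pb mem_pb
open Crest.Agent.R012.Div277
open Crest.Agent.R012.LS2 (S mem_S)
open Crest.Agent.R012.Weight600 (osc norm_osc pw)
open Crest.Agent.R017.CM106 (sub CS FS)
open Crest.Agent.R017.H1401 (pb mem_pb DD DN HW WM QQ)
open Crest.Agent.R017.E2440 (ag one_le_nm RR C4 mem_C4 prs mem_prs NBf NBf_le GKd
  shells_small le_two_pow_ceil isC_sg)
open Crest.Agent.R017.ExD791 (Mg)
open Crest.Agent.R017.MoCa83 (alr)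
open Crest.Agent.R017.X6C180 (IX dl' Sg)
open Crest.Agent.R017.Win813 (WK iA)
open Crest.Agent.R017.RGw813 (bt T9)
open Crest.Agent.R017.MoL106 (kw kw_ne)
open Crest.Agent.R017.RCl83 (RadOK sum_la sum_comm3)
open Crest.Agent.R017.PrI176 (PRl PJl PJL_le BRl pj_bdl RPl RPl_nonneg reb_prl rpl_num)

/-- the cardinalities of the index sets -/
def cIX : ℝ := 1 + ∑ c ∈ C4, (Fintype.card (IX c) : ℝ)

lemma one_le_cIX : 1 ≤ cIX := by
  have : 0 ≤ ∑ c ∈ C4, (Fintype.card (IX c) : ℝ) := Finset.sum_nonneg fun _ _ => by positivity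
  unfold cIX; linarith

lemma le_cIX {c : Eis} (hc : c ∈ C4) : (Fintype.card (IX c) : ℝ) ≤ cIX := by
  have := Finset.single_le_sum (f := fun c : Eis => (Fintype.card (IX c) : ℝ))
    (fun _ _ => by positivity) hc
  unfold cIX; linarith

/-- the real inequality of the end -/
lemma prl_end {k v W0 n0 x A2 Y l C1 Y' : ℝ} (hk : 0 ≤ k) (hv0 : 0 ≤ v) (hv : v ≤ l)
    (hW0 : 0 ≤ W0) (hn0 : 0 ≤ n0) (hn : n0 ≤ C1) (hx0 : 0 ≤ x) (hx : x ≤ l) (hA : 0 ≤ A2)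
    (hY0 : 0 ≤ Y) (hY : Y ≤ Y') :
    k * (1200 * v * ((W0 * (n0 * (400 * x) * A2)) * Y)) ≤
      k * (1200 * l * ((W0 * (C1 * (400 * l) * A2)) * Y')) := by
  have h1 : 0 ≤ l := hv0.trans hv
  have h2 : 0 ≤ C1 := hn0.trans hn
  gcongr

lemma prl_end2 {Cl t q Cd S S' c : ℝ} (hCl : 0 ≤ Cl) (ht : t ≤ q) (hq : 0 ≤ q) (hc0 : 0 ≤ c)
    (hc : c ≤ Cd) (hS0 : 0 ≤ S) (hS : S ≤ S') :
    Cl * t * (c * S) ≤ Cl * q * (Cd * S') := by
  refine mul_le_mul (mul_le_mul_of_nonneg_left ht hCl) (mul_le_mul hc hS hS0 (hc0.trans hc))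
    (mul_nonneg hc0 hS0) (mul_nonneg hCl hq)

set_option maxHeartbeats 4000000 in
open Classical in
/-- **the principal half of the `l`-terms** -/
theorem prl_half {ε ε' : ℝ} (hε : 0 < ε) (hε' : 0 < ε') (J : ℕ) : ∃ (b₀ : ℕ) (C : ℝ), 1 ≤ C ∧
    ∀ P : ℝ, 1 ≤ P → ∀ {x : Eis → ℂ} {Ax d0 Zp : ℝ}, FS x → 0 ≤ Ax →
    PV (fun H => ∃ c, H = c ^ 3) J Ax d0 Zp x → C * P ^ b₀ ≤ Zp →
    ∀ {Cw η : ℝ} {Aw : ℕ} {φ : ℝ → ℝ}, WK Cw η Aw φ → 0 ≤ Cw → 0 < η → η ≤ 1 → J + 2 ≤ Aw →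
    ∀ p ∈ T9, ∀ (t₀ : ℝ) (Jt : ℕ), 2 * J ≤ Jt →
    ∀ (X V K H T : ℝ) (Λ : Finset Eis) (ρ : Eis → Eis) (B0 Kl W : Eis → ℝ), RadOK T Λ ρ →
    X ≤ P → 1 ≤ V → V ≤ P → 0 < K → 1 ≤ H → H ≤ P → 1 ≤ T → T ≤ P →
    (∀ l ∈ Λ, Kl l = K / (nm l : ℝ) ^ 3 ∧ (Kl l)⁻¹ ≤ P ∧ Kl l ≤ P ∧ 0 ≤ W l ∧
      W l ≤ (nm l : ℝ)⁻¹) →
    ∀ δ e : Eis, IsPrim δ → Squarefree δ → (nm δ : ℝ) ≤ P → IsPrim e → (nm e : ℝ) ≤ P →
    ∀ y ∈ prs δ, ∀ A ∈ pdiv y.1, (nm y.1 : ℝ) ≤ X →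
    ∃ Ex : Eis → Eis → Eis → Eis → ℕ → ℝ, (∀ a c j₂ B j, 0 ≤ Ex a c j₂ B j) ∧
      (∀ l ∈ Λ, ∀ a b : Eis, IsPrim a → Squarefree a → (nm a : ℝ) ≤ T → IsPrim b →
        (nm b : ℝ) ≤ T → ∀ c ∈ C4, ∀ j₂ ∈ S (Real.sqrt V), 1 ≤ RR V e A c j₂ →
        E2sp579.MH (WM (RR V e A c j₂)) (fun n j g₂ g₃ d => DN n g₂ g₃ d ∧ (2 : ℝ) ^ j / 2 < nm d)
          (fun B τ d => ∃ c₀, d * (e * A * j₂ * τ * B ^ 2) * kw p ^ 2 = c₀ ^ 3)
          (ag (alr (fun n => bt φ x p n * pw t₀ (nm n)) a b) δ y.1) (e * A * j₂) c y.2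
          (X / nm y.1) Jt
          (NBf (P ^ ε') H (X / nm y.1) (RR V e A c j₂) (Kl l / nm (e * A * j₂)) (B0 l) y.2)
          (Ex a c j₂)) ∧
      ∀ ϑ ϑd : ℝ → ℝ, (∀ y : ℝ, 0 < y → 0 ≤ ϑ y ∧ ϑ y ≤ 1 ∧ ϑ y ≤ y ^ (-(1 / 3) : ℝ)) →
        (∀ y : ℝ, 0 < y → 0 ≤ ϑd y ∧ ϑd y ≤ 1 ∧ ϑd y ≤ (H * y) ^ ((1 : ℝ) / 3)) →
        ∑ l ∈ Λ, W l * Kl l ^ (-(2 / 3) : ℝ) *
          ∑ a ∈ (dvs (ρ l)).filter (fun a => ρ l / a ∣ δ),
          ∑ c ∈ C4, ∑ j₂ ∈ (S (Real.sqrt V)).filter (fun j₂ => 1 ≤ RR V e A c j₂),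
          RR V e A c j₂ ^ (-(1 : ℝ) / 3) * (Kl l / nm (e * A * j₂)) ^ ((2 : ℝ) / 3) *
            GKd ϑ ϑd (RR V e A c j₂) (X / nm y.1) (Kl l / nm (e * A * j₂)) (B0 l) y.2
              (NBf (P ^ ε') H (X / nm y.1) (RR V e A c j₂) (Kl l / nm (e * A * j₂)) (B0 l) y.2)
              (fun B j => (2 / 2 ^ j) * Ex a c j₂ B j) ≤
          C * P ^ ε * (K ^ (-(2 / 3) : ℝ) *
            ((Cw * iA (Aw - J) * (η⁻¹) ^ J * (1 + |t₀|) ^ J * Ax / nm y.1) ^ 2 *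
            PJl K V (X / nm y.1) (nm (e * A)) 1 (nm y.2) H (Mu d0 y.1) 1)) := by
  set cN : ℕ := ⌈ε'⌉₊ + 12 with hcN
  have hε8 : 0 < ε / 16 := by positivity
  set ε0 : ℝ := ε / 16 / (cN + 4) with hε0
  have hcN0 : (0 : ℝ) < (cN : ℝ) + 4 := by positivity
  have hε00 : 0 < ε0 := by positivity
  have hε0e : ((cN : ℝ) + 4) * ε0 = ε / 16 := by rw [hε0]; field_simp
  obtain ⟨C0, hC0, hMH⟩ := sum_ExA hε00
  obtain ⟨C1, hC1, hN0⟩ := shells_small hε8 cN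
  obtain ⟨Ct, hCt, htau⟩ := tau_le_rpow (ε := ε / 16 / 3) (by positivity)
  obtain ⟨Cd, hCd, htaud⟩ := tau_le_rpow hε8
  obtain ⟨Cl, hCl, hsla⟩ := sum_la hε8
  have hcd := one_le_cdl
  have hcI := one_le_cIX
  set L1 : ℝ := 1 + (ε / 16)⁻¹ with hL1
  have hL11 : 1 ≤ L1 := by
    rw [hL1]
    have : 0 < (ε / 16)⁻¹ := by positivity
    linarith
  set CW : ℝ := cIX * (C0 * L1 * (40 ^ ε0 * L1)) with hCW
  have h40 : 1 ≤ (40 : ℝ) ^ ε0 := Real.one_le_rpow (by norm_num) hε00.le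
  have hCW1 : 1 ≤ CW := by
    rw [hCW]
    exact one_le_mul_of_one_le_of_one_le hcI (one_le_mul_of_one_le_of_one_le
      (one_le_mul_of_one_le_of_one_le hC0 hL11) (one_le_mul_of_one_le_of_one_le h40 hL11))
  set CT : ℝ := Ct * 9 ^ (ε / 16 / 3) with hCT
  have hCT1 : 1 ≤ CT := by
    rw [hCT]
    exact one_le_mul_of_one_le_of_one_le hCt (Real.one_le_rpow (by norm_num) (by positivity))
  set CF : ℝ := Cl * Cd * (1200 * L1 * (CW * (C1 * (400 * L1))) * (3 * CT)) with hCF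
  have hCF0 : 0 ≤ CF := by positivity
  refine ⟨cN + 12, 81 * 40 * cdl + CF, ?_, ?_⟩
  · linarith
  intro P hP x Ax d0 Zp hx hAx hV hZp Cw η Aw φ hφ hCw hη hη1 hJ p hp t₀ Jt hJt X V K H T Λ ρ B0
    Kl W hΛ hXP hV1 hVP hK hH1 hHP hT1 hTP hKl δ e hδ hδs hδP he heP y hy A hA hyX
  have hy' := (mem_prs hδ).mp hy
  have hA' := (mem_pdiv hy'.1.ne_zero).mp hA
  have hP0 : 0 < P := by linarith
  have hPe : 1 ≤ P ^ ε' := Real.one_le_rpow hP hε'.le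
  have hy1 : (1 : ℝ) ≤ nm y.1 := one_le_nm hy'.1.ne_zero
  have hy2 : (1 : ℝ) ≤ nm y.2 := one_le_nm hy'.2.1.ne_zero
  have hNe : (1 : ℝ) ≤ nm e := one_le_nm he.ne_zero
  have hNA : (1 : ℝ) ≤ nm A := one_le_nm hA'.1.ne_zero
  have hnδ' : (nm δ : ℝ) = nm y.1 * nm y.2 := by
    rw [← Nat.cast_mul, ← nm_mul, hy'.2.2]
  have hy1P : (nm y.1 : ℝ) ≤ P := by nlinarith
  have hy2P : (nm y.2 : ℝ) ≤ P := by nlinarith
  have hAP : (nm A : ℝ) ≤ P := by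
    have h1 : nm A ≤ nm y.1 := nm_le_of_dvd hy'.1.ne_zero hA'.2
    have h2 : (nm A : ℝ) ≤ nm y.1 := by exact_mod_cast h1
    linarith
  set X' : ℝ := X / nm y.1 with hX'
  have hX1 : 1 ≤ X' := by rwa [hX', le_div_iff₀ (by linarith), one_mul]
  have hX0 : 0 ≤ X' := by linarith
  have hXP' : X' ≤ P := by
    have : X' ≤ X := div_le_self (by linarith) hy1
    linarith
  have hsV : 1 ≤ Real.sqrt V := Real.one_le_sqrt.mpr hV1
  have hsV0 : (0 : ℝ) ≤ Real.sqrt V := by linarith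
  have hsVV : Real.sqrt V ≤ P := by
    apply Real.sqrt_le_iff.mpr
    refine ⟨hP0.le, ?_⟩
    nlinarith
  set N0 : ℕ := ⌈Real.logb 2 (20 * (P ^ cN * P))⌉₊ with hN0d
  have hPcN : 1 ≤ P ^ cN := one_le_pow₀ hP
  have hW1 : 1 ≤ 20 * (P ^ cN * P) := by nlinarith
  have h2N : (2 : ℝ) ^ N0 ≤ 40 * (P ^ cN * P) := by
    have := two_pow_ceil_le hW1
    linarith
  have hN01 : (N0 : ℝ) + 1 ≤ C1 * P ^ (ε / 16) := hN0 P hP
  have hlog : ∀ Y : ℝ, 1 ≤ Y → Y ≤ P → 1 + Real.log Y ≤ L1 * P ^ (ε / 16) := by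
    intro Y hY1 hYP
    have h1 : Real.log Y ≤ Real.log P := Real.log_le_log (by linarith) hYP
    have h2 := E2440.log_le_pow hP hε8
    have h3 : 1 ≤ P ^ (ε / 16) := Real.one_le_rpow hP hε8.le
    rw [hL1]
    nlinarith
  have hPe8 : 1 ≤ P ^ (ε / 16) := Real.one_le_rpow hP hε8.le
  have hlX : 0 ≤ Real.log X' := Real.log_nonneg hX1
  have hlV : 0 ≤ Real.log V := Real.log_nonneg hV1
  have hlT : 0 ≤ Real.log T := Real.log_nonneg hT1
  set M0 : Eis := kw p with hM0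
  have hM0n : M0 ≠ 0 := kw_ne p
  have hM09 : (nm M0 : ℝ) ≤ 9 := nm_kw hp
  have hM01 : (1 : ℝ) ≤ nm M0 := one_le_nm hM0n
  set Ax' : ℝ := Cw * iA (Aw - J) * (η⁻¹) ^ J * (1 + |t₀|) ^ J * Ax with hAx'
  have hFSb : FS (fun n => bt φ x p n * pw t₀ (nm n)) := Win813.FS_pw (RGw813.FS_bt hx φ p) t₀
  have hPVb := pv_bw hx hV hAx hφ hCw hη hη1 hJ p t₀
  set W0 : ℝ := CW * (P ^ (ε / 16)) ^ 4 with hW0d
  have hW00 : 0 ≤ W0 := by positivity
  have hRR0 : ∀ c j₂, 0 ≤ RR V e A c j₂ := fun c j₂ => by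
    unfold E2440.RR; positivity
  -- sizes
  have hjs : ∀ j₂ ∈ S (Real.sqrt V), IsPrim j₂ ∧ (1 : ℝ) ≤ nm j₂ ∧ (nm j₂ : ℝ) ≤ P := by
    intro j₂ hj
    obtain ⟨h1, h2, h3⟩ := (mem_S hsV0).mp hj
    exact ⟨h2, one_le_nm h2.ne_zero, h1.trans hsVV⟩
  have hnea : (nm (e * A) : ℝ) = nm e * nm A := by rw [nm_mul]; push_cast; ring
  have hnE : ∀ j₂, (nm (e * A * j₂) : ℝ) = nm e * nm A * nm j₂ := by
    intro j₂
    rw [nm_mul, nm_mul]; push_cast; ring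
  have hnEP : ∀ j₂ ∈ S (Real.sqrt V), (nm (e * A * j₂) : ℝ) ≤ P ^ 3 := by
    intro j₂ hj
    obtain ⟨h1, h2, h3⟩ := hjs j₂ hj
    rw [hnE]
    calc (nm e : ℝ) * nm A * nm j₂ ≤ P * P * P := by gcongr
      _ = P ^ 3 := by ring
  have hKl0 : ∀ l ∈ Λ, 0 < Kl l ∧ (1 : ℝ) ≤ nm l := by
    intro l hl
    have h1 : (1 : ℝ) ≤ nm l := one_le_nm (hΛ.prim l hl).ne_zero
    rw [(hKl l hl).1]
    exact ⟨by positivity, h1⟩
  have hNle : ∀ l ∈ Λ, ∀ c ∈ C4, ∀ j₂ ∈ S (Real.sqrt V), 1 ≤ RR V e A c j₂ → ∀ B ∈ S X',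
      NBf (P ^ ε') H X' (RR V e A c j₂) (Kl l / nm (e * A * j₂)) (B0 l) y.2 B ≤ N0 := by
    intro l hl c hc j₂ hj hR B hB
    obtain ⟨-, hKi, hKP, -, -⟩ := hKl l hl
    have hKp := (hKl0 l hl).1
    obtain ⟨hj1, hj2, hj3⟩ := hjs j₂ hj
    obtain ⟨hB1, hB2, -⟩ := (mem_S hX0).mp hB
    have hE1 : (1 : ℝ) ≤ nm (e * A * j₂) :=
      one_le_nm (mul_ne_zero (mul_ne_zero he.ne_zero hA'.1.ne_zero) hj1.ne_zero)
    have hAp : 0 < Kl l / nm (e * A * j₂) := by positivity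
    obtain ⟨hc1, -⟩ := nm_C4 hc
    have hRP : RR V e A c j₂ ≤ P ^ 3 := by
      unfold E2440.RR
      rw [hnea]
      have h1 : (1 : ℝ) ≤ nm c * (nm j₂ : ℝ) ^ 2 := by
        have := one_le_pow₀ (n := 2) hj2
        nlinarith
      refine (div_le_self (by positivity) h1).trans ?_
      calc V * (nm e * nm A) ≤ P * (P * P) := by gcongr
        _ = P ^ 3 := by ring
    have hAi : (Kl l / nm (e * A * j₂))⁻¹ ≤ P ^ 4 := by
      rw [inv_div, div_eq_mul_inv]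
      calc (nm (e * A * j₂) : ℝ) * (Kl l)⁻¹ ≤ P ^ 3 * P := by
            have := hnEP j₂ hj
            gcongr
        _ = P ^ 4 := by ring
    have hceil : P ^ ε' ≤ P ^ ⌈ε'⌉₊ := by
      rw [← Real.rpow_natCast]
      exact Real.rpow_le_rpow_of_exponent_le hP (Nat.le_ceil _)
    refine NBf_le hPe hH1 hX1 hR hAp hy'.2.1 hB2.ne_zero hB1 (W := 20 * (P ^ cN * P))
      (by positivity) ?_ ?_
    · rw [div_eq_mul_inv]
      calc 2 * P ^ ε' * (H * (RR V e A c j₂ * (nm y.2 : ℝ) ^ 2 * X' ^ 2)) *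
            (Kl l / nm (e * A * j₂))⁻¹ ≤
            2 * P ^ ⌈ε'⌉₊ * (P * (P ^ 3 * P ^ 2 * P ^ 2)) * P ^ 4 := by
            gcongr
        _ = 2 * (P ^ cN * 1) := by rw [hcN]; ring
        _ ≤ 20 * (P ^ cN * P) := by nlinarith
    · have h1 : Kl l / nm (e * A * j₂) ≤ P := (div_le_self hKp.le hE1).trans hKP
      have h2 : P ≤ P ^ cN * P := le_mul_of_one_le_left hP0.le hPcN
      have h3 : 0 ≤ P ^ cN * P := by positivity
      linarith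
  have hZp' : 40 * cdl * P ^ (cN + 12) ≤ Zp / (nm M0 : ℝ) ^ 2 := by
    rw [le_div_iff₀ (by positivity)]
    have h1 : (nm M0 : ℝ) ^ 2 ≤ 81 := by nlinarith
    calc 40 * cdl * P ^ (cN + 12) * (nm M0 : ℝ) ^ 2 ≤ 40 * cdl * P ^ (cN + 12) * 81 := by gcongr
      _ = (81 * 40 * cdl) * P ^ (cN + 12) := by ring
      _ ≤ (81 * 40 * cdl + CF) * P ^ (cN + 12) := by
          refine mul_le_mul_of_nonneg_right (by linarith) (by positivity)
      _ ≤ Zp := hZp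
  set Qp : Eis → Eis → Eis → Eis → Prop := fun j₂ B τ d =>
    ∃ c₀, d * (e * A * j₂ * τ * B ^ 2) * kw p ^ 2 = c₀ ^ 3 with hQp
  set Ex : Eis → Eis → Eis → Eis → ℕ → ℝ := fun a c j₂ =>
    ExA Ax' d0 X' (RR V e A c j₂) (Qp j₂) y.1 c y.2 a with hEx
  have hEx0 : ∀ a c j₂ B j, 0 ≤ Ex a c j₂ B j := fun a c j₂ B j =>
    ExA_nonneg _ _ _ (hRR0 c j₂) _ _ _ _ _ _ _
  refine ⟨Ex, hEx0, ?_, ?_⟩
  · intro l hl a b ha has haT hb hbT c hc j₂ hj hR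
    obtain ⟨hj1, hj2, hj3⟩ := hjs j₂ hj
    have hE : e * A * j₂ ≠ 0 := mul_ne_zero (mul_ne_zero he.ne_zero hA'.1.ne_zero) hj1.ne_zero
    refine MH_monoJ (J := 2 * J) ?_ hJt (fun B j => hEx0 a c j₂ B j)
    exact MH_alr (prK_tw hM0n) hFSb hPVb (isC_sg (mem_C4.mp hc)) ha has hb hδ hy'.1 hE hX1
      (hRR0 c j₂) (hNle l hl c hc j₂ hj hR) (le_cdl hc) (by
        refine le_trans ?_ hZp'
        calc (nm y.1 : ℝ) * X' ^ 3 * nm a ≤ P * P ^ 3 * P := by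
              have := haT.trans hTP
              gcongr
          _ = 1 * 1 * P ^ 5 := by ring
          _ ≤ 40 * cdl * P ^ (cN + 12) := by
              have : P ^ 5 ≤ P ^ (cN + 12) := pow_le_pow_right₀ hP (by omega)
              gcongr
              norm_num) (by
        refine le_trans ?_ hZp'
        calc (2 : ℝ) ^ N0 * (nm (e * A * j₂) * cdl * X' ^ 2) * (nm δ : ℝ) ^ 3 * (nm b : ℝ) ^ 3
            ≤ (40 * (P ^ cN * P)) * (P ^ 3 * cdl * P ^ 2) * P ^ 3 * P ^ 3 := by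
              have := hnEP j₂ hj
              have := hbT.trans hTP
              gcongr
          _ = 40 * cdl * P ^ (cN + 12) := by ring)
      (fun B τ d h => h)
  · intro ϑ ϑd hϑ hϑd
    set fa : Eis → ℝ := fun a => K ^ (-(2 / 3) : ℝ) *
      ∑ c ∈ C4, ∑ j₂ ∈ (S (Real.sqrt V)).filter (fun j₂ => 1 ≤ RR V e A c j₂),
      RR V e A c j₂ ^ (-(1 : ℝ) / 3) * (K / nm (e * A * j₂)) ^ ((2 : ℝ) / 3) *
        Wc H (RR V e A c j₂) X' (K / nm (e * A * j₂)) y.2 N0 (Ex a c j₂) with hfa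
    have hfa0 : ∀ a, 0 ≤ fa a := by
      intro a
      simp only [hfa]
      refine mul_nonneg (by positivity) (Finset.sum_nonneg fun c _ =>
        Finset.sum_nonneg fun j₂ _ => mul_nonneg ?_ (Wc_nonneg (by positivity) (by linarith) _ _
          (hEx0 a c j₂)))
      have := hRR0 c j₂
      positivity
    -- one `l`
    have hl1 : ∀ l ∈ Λ, W l * Kl l ^ (-(2 / 3) : ℝ) *
          ∑ a ∈ (dvs (ρ l)).filter (fun a => ρ l / a ∣ δ),
          ∑ c ∈ C4, ∑ j₂ ∈ (S (Real.sqrt V)).filter (fun j₂ => 1 ≤ RR V e A c j₂),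
          RR V e A c j₂ ^ (-(1 : ℝ) / 3) * (Kl l / nm (e * A * j₂)) ^ ((2 : ℝ) / 3) *
            GKd ϑ ϑd (RR V e A c j₂) X' (Kl l / nm (e * A * j₂)) (B0 l) y.2
              (NBf (P ^ ε') H X' (RR V e A c j₂) (Kl l / nm (e * A * j₂)) (B0 l) y.2)
              (fun B j => (2 / 2 ^ j) * Ex a c j₂ B j) ≤
        ∑ a ∈ (dvs (ρ l)).filter (fun a => ρ l / a ∣ δ), fa a := by
      intro l hl
      obtain ⟨hK1, -, -, hWl0, hWl1⟩ := hKl l hl
      rw [Finset.mul_sum]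
      refine Finset.sum_le_sum fun a _ => ?_
      simp only [hfa]
      rw [Finset.mul_sum, Finset.mul_sum]
      refine Finset.sum_le_sum fun c hc => ?_
      rw [Finset.mul_sum, Finset.mul_sum]
      refine Finset.sum_le_sum fun j₂ hj => ?_
      rw [Finset.mem_filter] at hj
      obtain ⟨hj1, hj2, hj3⟩ := hjs j₂ hj.1
      have hE1 : (0 : ℝ) < nm (e * A * j₂) := by
        exact_mod_cast nm_pos.2 (mul_ne_zero (mul_ne_zero he.ne_zero hA'.1.ne_zero) hj1.ne_zero)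
      exact prl_l hϑ hϑd (hKl0 l hl).2 hWl0 hWl1 hK hE1 hK1 (by linarith [hj.2]) hX1
        (by linarith) hy'.2.1.ne_zero (hNle l hl c hc j₂ hj.1 hj.2) (hEx0 a c j₂)
    refine (Finset.sum_le_sum hl1).trans ?_
    have hS1 : ∀ b : Eis, IsPrim b → Squarefree b → (nm b : ℝ) ≤ T → b ∈ S T := fun b h1 h2 h3 =>
      (mem_S (by linarith)).mpr ⟨h3, h1, h2⟩
    refine (hsla T Λ ρ hT1 hΛ (S T) (S T) hS1 hS1 (fun _ a => fa a) (fun _ _ a _ => hfa0 a)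
      (fun b => b ∣ δ)).trans ?_
    have hcard : (((S T).filter (fun b => b ∣ δ)).card : ℝ) ≤ tau δ := by
      unfold Div277.tau
      norm_cast
      refine Finset.card_le_card fun b hb => ?_
      rw [Finset.mem_filter, mem_S (by linarith)] at hb
      rw [mem_dvs hδ.ne_zero]
      exact ⟨hb.1.2.1, hb.2⟩
    have hT : ∀ j₂ ∈ S (Real.sqrt V), (tau (e * A * j₂ * M0) : ℝ) ≤ CT * P ^ (ε / 16) := by
      intro j₂ hj
      obtain ⟨hj1, hj2, hj3⟩ := hjs j₂ hj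
      have hE : e * A * j₂ ≠ 0 := mul_ne_zero (mul_ne_zero he.ne_zero hA'.1.ne_zero) hj1.ne_zero
      refine (htau _ (mul_ne_zero hE hM0n)).trans ?_
      have h1 : (nm (e * A * j₂ * M0) : ℝ) ≤ 9 * P ^ 3 := by
        rw [nm_mul, Nat.cast_mul]
        have := hnEP j₂ hj
        calc (nm (e * A * j₂) : ℝ) * nm M0 ≤ P ^ 3 * 9 := by gcongr
          _ = _ := by ring
      calc Ct * (nm (e * A * j₂ * M0) : ℝ) ^ (ε / 16 / 3) ≤ Ct * (9 * P ^ 3) ^ (ε / 16 / 3) := by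
            gcongr
        _ = _ := by
            rw [Real.mul_rpow (by norm_num) (by positivity), ← Real.rpow_natCast,
              ← Real.rpow_mul hP0.le, hCT]
            have : ((3 : ℕ) : ℝ) * (ε / 16 / 3) = ε / 16 := by push_cast; ring
            rw [this]
            ring
    -- the sum over `a`
    have hsumE : ∀ c ∈ C4, ∀ j₂ ∈ S (Real.sqrt V), 1 ≤ RR V e A c j₂ → ∀ B ∈ S X', ∀ j < N0,
        ∑ a ∈ S T, Ex a c j₂ B j ≤ W0 * prM (RR V e A c j₂) (2 ^ j) Ax' d0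
          (nm (e * A * j₂ * M0) * nm y.2) (nm (b2 (e * A * j₂ * M0) B)) y.1 B := by
      intro c hc j₂ hj hR B hB j hjN
      obtain ⟨hj1, hj2, hj3⟩ := hjs j₂ hj
      obtain ⟨hBX, hBp, hBs⟩ := (mem_S hX0).mp hB
      have hE : e * A * j₂ ≠ 0 := mul_ne_zero (mul_ne_zero he.ne_zero hA'.1.ne_zero) hj1.ne_zero
      have h1 := hMH (prK_tw hM0n) (Ax := Ax') (d0 := d0) hy'.1 hE (isC_sg (mem_C4.mp hc)) hBp hBs
        hy'.2.1 hX1 (hRR0 c j₂) hT1 (N0 := N0) (j := j) hjN.le (Q := Qp j₂) (fun B τ d h => h)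
      refine h1.trans ?_
      have h4 := prM_nonneg (Ax := Ax') (d0 := d0) (b := (nm (b2 (e * A * j₂ * M0) B) : ℝ))
        (hRR0 c j₂) (by positivity : (0 : ℝ) ≤ 2 ^ j)
        (by positivity : (0 : ℝ) ≤ nm (e * A * j₂ * M0) * nm y.2) y.1 B
      refine mul_le_mul_of_nonneg_right ?_ h4
      have h5 : ((nm y.1 : ℝ) * nm B * X' ^ 2) ^ ε0 ≤ P ^ (ε / 16) := by
        have h6 : (nm y.1 : ℝ) * nm B * X' ^ 2 ≤ P ^ 4 := by
          have := hBX.trans hXP'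
          calc (nm y.1 : ℝ) * nm B * X' ^ 2 ≤ P * P * P ^ 2 := by gcongr
            _ = P ^ 4 := by ring
        calc ((nm y.1 : ℝ) * nm B * X' ^ 2) ^ ε0 ≤ (P ^ 4) ^ ε0 :=
              Real.rpow_le_rpow (by positivity) h6 hε00.le
          _ = P ^ (4 * ε0) := by
              rw [← Real.rpow_natCast, ← Real.rpow_mul hP0.le]; norm_num
          _ ≤ P ^ (ε / 16) := by
              refine Real.rpow_le_rpow_of_exponent_le hP ?_
              rw [← hε0e]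
              have : (0 : ℝ) ≤ (cN : ℝ) * ε0 := by positivity
              linarith
      have h7 : ((2 : ℝ) ^ N0 * nm y.2) ^ ε0 ≤ 40 ^ ε0 * P ^ (ε / 16) := by
        have h2 : (2 : ℝ) ^ N0 * nm y.2 ≤ 40 * P ^ (cN + 4) := by
          have h8 : P ^ (cN + 2) ≤ P ^ (cN + 4) := pow_le_pow_right₀ hP (by omega)
          calc (2 : ℝ) ^ N0 * nm y.2 ≤ 40 * (P ^ cN * P) * P := by gcongr
            _ = 40 * P ^ (cN + 2) := by ring
            _ ≤ 40 * P ^ (cN + 4) := by linarith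
        calc ((2 : ℝ) ^ N0 * nm y.2) ^ ε0 ≤ (40 * P ^ (cN + 4)) ^ ε0 :=
              Real.rpow_le_rpow (by positivity) h2 hε00.le
          _ = 40 ^ ε0 * P ^ (ε / 16) := by
              rw [Real.mul_rpow (by norm_num) (by positivity), ← Real.rpow_natCast,
                ← Real.rpow_mul hP0.le, ← hε0e]
              push_cast
              rfl
      have h8 := hlog T hT1 hTP
      have h9 := hlog X' hX1 hXP'
      have h10 := le_cIX hc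
      calc (Fintype.card (IX c) : ℝ) * (C0 * ((nm y.1 : ℝ) * nm B * X' ^ 2) ^ ε0 *
            (1 + Real.log T) * ((2 ^ N0 * nm y.2) ^ ε0 * (1 + Real.log X')))
          ≤ cIX * (C0 * P ^ (ε / 16) * (L1 * P ^ (ε / 16)) *
            ((40 ^ ε0 * P ^ (ε / 16)) * (L1 * P ^ (ε / 16)))) := by gcongr
        _ = W0 := by rw [hW0d, hCW]; ring
    have hpa := prl_a (V := V) (K := K) (X := X') (H := H) (Ax := Ax') (d0 := d0)
      (Tt := CT * P ^ (ε / 16)) (W0 := W0) (e := e) (A := A) (M0 := M0) (ν := y.2) (g' := y.1)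
      (N0 := N0) (As := S T) (Ex := Ex) hV1 hK hX1 he.ne_zero hA'.1.ne_zero hM0n hy'.2.1 hy'.1
      (by linarith) hW00 hsumE hT
    have hfs : ∑ a ∈ S T, fa a ≤ K ^ (-(2 / 3) : ℝ) * (1200 * (1 + Real.log V) *
        ((W0 * (N0 * (400 * (1 + Real.log X')) * (Ax' / nm y.1) ^ 2)) *
        PJl K V X' (nm (e * A)) (nm M0) (nm y.2) H (Mu d0 y.1) (CT * P ^ (ε / 16)))) := by
      simp only [hfa]
      rw [← Finset.mul_sum]
      exact mul_le_mul_of_nonneg_left hpa (by positivity)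
    have hfs0 : 0 ≤ ∑ a ∈ S T, fa a := Finset.sum_nonneg fun a _ => hfa0 a
    rw [Finset.sum_const, nsmul_eq_mul]
    have hV0 : 0 < V := by linarith
    have hH0 : 0 < H := by linarith
    have hX'0 : 0 < X' := by linarith
    have hea : (0 : ℝ) < nm (e * A) := by rw [hnea]; positivity
    set PJ1 : ℝ := PJl K V X' (nm (e * A)) 1 (nm y.2) H (Mu d0 y.1) 1 with hPJ1
    have hMu := Mu_nonneg d0 y.1
    have hPJ : PJl K V X' (nm (e * A)) (nm M0) (nm y.2) H (Mu d0 y.1) (CT * P ^ (ε / 16)) ≤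
        (3 * CT) * P ^ (ε / 16) * PJ1 := by
      have h3 : (nm M0 : ℝ) ^ ((1 : ℝ) / 3) ≤ 3 := by
        calc (nm M0 : ℝ) ^ ((1 : ℝ) / 3) ≤ (27 : ℝ) ^ ((1 : ℝ) / 3) :=
              Real.rpow_le_rpow (by positivity) (by linarith) (by norm_num)
          _ = ((3 : ℝ) ^ 3) ^ ((1 : ℝ) / 3) := by norm_num
          _ = 3 := r13 (by norm_num)
      have hCTP : 1 ≤ CT * P ^ (ε / 16) := one_le_mul_of_one_le_of_one_le hCT1 hPe8
      have hT31 : (3 * CT) * P ^ (ε / 16) = 3 * (CT * P ^ (ε / 16)) := by ring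
      rw [hT31, hPJ1]
      exact PJl_mono3 hV0 hK hX'0 hea (by linarith) (by linarith) hH0 hMu h3 hCTP
    have hPJ10 : 0 ≤ PJ1 := by
      rw [hPJ1]; unfold PrI176.PJl
      positivity
    have e8 : (P ^ (ε / 16)) ^ 16 ≤ P ^ ε := by
      rw [← Real.rpow_natCast, ← Real.rpow_mul hP0.le]
      refine Real.rpow_le_rpow_of_exponent_le hP ?_
      push_cast
      linarith
    have hTe : T ^ (ε / 16) ≤ P ^ (ε / 16) := Real.rpow_le_rpow (by linarith) hTP hε8.le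
    have htd : (tau δ : ℝ) ≤ Cd * P ^ (ε / 16) := by
      refine (htaud δ hδ.ne_zero).trans ?_
      gcongr
    set q : ℝ := P ^ (ε / 16) with hq
    have hq0 : 0 ≤ q := by linarith
    have hq10 : q ^ 10 ≤ q ^ 16 := pow_le_pow_right₀ hPe8 (by norm_num)
    have hN02 : (N0 : ℝ) ≤ C1 * q := by linarith
    have hsq : 0 ≤ (Ax' / nm y.1) ^ 2 := sq_nonneg _
    have hKk : 0 ≤ K ^ (-(2 / 3) : ℝ) := by positivity
    have b1 := hlog V hV1 hVP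
    have b2 := hlog X' hX1 hXP'
    have b3 : 0 ≤ PJl K V X' (nm (e * A)) (nm M0) (nm y.2) H (Mu d0 y.1) (CT * q) := by
      unfold PrI176.PJl
      positivity
    calc Cl * T ^ (ε / 16) * ((((S T).filter (fun b => b ∣ δ)).card : ℝ) * ∑ a ∈ S T, fa a)
        ≤ Cl * q * ((Cd * q) * (K ^ (-(2 / 3) : ℝ) * (1200 * (L1 * q) *
          ((W0 * ((C1 * q) * (400 * (L1 * q)) * (Ax' / nm y.1) ^ 2)) * ((3 * CT) * q * PJ1))))) := by
          exact prl_end2 (by linarith) hTe hq0 (Nat.cast_nonneg _) (hcard.trans htd) hfs0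
            (hfs.trans (prl_end hKk (by linarith) b1 hW00 (Nat.cast_nonneg _) hN02 (by linarith)
              b2 hsq b3 hPJ))
      _ = (Cl * Cd * (1200 * L1 * (CW * (C1 * (400 * L1))) * (3 * CT))) * q ^ 10 *
          (K ^ (-(2 / 3) : ℝ) * ((Ax' / nm y.1) ^ 2 * PJ1)) := by
          rw [hW0d]; ring
      _ ≤ (81 * 40 * cdl + CF) * P ^ ε *
          (K ^ (-(2 / 3) : ℝ) * ((Ax' / nm y.1) ^ 2 * PJ1)) := by
          refine mul_le_mul_of_nonneg_right ?_ (mul_nonneg hKk (mul_nonneg hsq hPJ10))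
          refine mul_le_mul ?_ (hq10.trans e8) (by positivity) (by positivity)
          rw [← hCF]
          have : 0 ≤ 81 * 40 * cdl := by linarith
          linarith
      _ = _ := rfl

end Crest.Agent.R017.PrD502
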