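import Crest.Agent.R017.PrD5_502
import Crest.Agent.R017.MoCa_83

/-!
# Row 17, T.7: the principal half of the `l`-terms (helper502), part 1

* `MoW` : the moment functional of a function of `g₂ g₃`; `moW_n2`, `moW_dvs2`
* `alr_val` : the principal values of the sequence on the multiples of `a` prime to `b`
* `ExA`, `MH_alr`, `sum_ExA` : the numbers for all `a`
-/

set_option autoImplicit false
set_option linter.unusedVariables false
set_option linter.unusedSectionVars false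

noncomputable section

open Complex
open scoped ComplexConjugate

namespace Crest.Agent.R017.PrD502

open Crest.Agent.R012 Crest.Agent.R012.Eis Crest.Agent.R012.GaussLoc283
open Crest.Agent.R012.Mob705 hiding pb mem_pb
open Crest.Agent.R012.Div277
open Crest.Agent.R012.LS2 (S mem_S)
open Crest.Agent.R012.Weight600 (osc norm_osc)
open Crest.Agent.R017.CM106 (sub CS FS)
open Crest.Agent.R017.H1401 (pb mem_pb DD DN HW WM QQ)
open Crest.Agent.R017.E2440 (cT ag one_le_nm)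
open Crest.Agent.R017.MoF106 (MoP)
open Crest.Agent.R017.PoHx72 (Cub dvd_of_sq_dvd_cube)
open Crest.Agent.R017.ExD791 (Mg)
open Crest.Agent.R017.MoCa83 (alr)

open Classical in
/-- the moment functional of a function of `g₂ g₃` -/
def MoW (X Z : ℝ) (W : Eis → Eis → ℝ) (P : Eis → Eis → Eis → Prop) (F : Eis → ℝ) : ℝ :=
  ∑ g₂ ∈ S X, ∑ g₃ ∈ S X, W g₂ g₃ * ∑ d ∈ (pb Z).filter (P g₂ g₃), F (g₂ * g₃)

set_option maxHeartbeats 1000000 in
open Classical in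
/-- **one `n`** (no heights, no sequence) -/
theorem moW_n2 {ε : ℝ} (hε : 0 < ε) : ∃ C : ℝ, 1 ≤ C ∧ ∀ {Pr : Eis → Prop} {M0 : Eis},
    PrK Pr M0 → ∀ {Ax d0 : ℝ} {g' E B τ n : Eis}, IsPrim g' → E ≠ 0 → τ ≠ 0 →
    (∀ p : Eis, Prime p → IsPrim p → ¬ p ∣ τ) → IsPrim B → Squarefree B → IsPrim n →
    ∀ {X Z R Zw : ℝ}, 1 ≤ X → 1 ≤ Z → 0 ≤ R → 0 ≤ Zw → ∀ {P : Eis → Eis → Eis → Prop},
    (∀ g₂ g₃ d, P g₂ g₃ d → DN n g₂ g₃ d ∧ Pr (d * (E * τ * B ^ 2))) →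
    MoW X Z (WM R Zw) P (fun G => (Ax / nm (g' * B * G)) ^ 2 * Mu d0 (g' * B * G)) ≤
      (C * Z ^ ε * (1 + Real.log X)) *
        ((Ax / (nm g' * nm B)) ^ 2 * Mu d0 (g' * B)) *
        (if (nm (b2 (E * M0) B) : ℝ) ≤ Z / (nm n : ℝ) ^ 3 then
          (R * min (Real.sqrt (Z / (nm n : ℝ) ^ 3 / nm (b2 (E * M0) B))) (nm (E * M0)) + Zw +
            (R * Zw) ^ ((2 : ℝ) / 3)) else 0) := by
  obtain ⟨Ct, hCt, htau⟩ := tau_le_rpow hε
  refine ⟨Ct * 100, by linarith, ?_⟩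
  intro Pr M0 hP Ax d0 g' E B τ n hg' hE hτ0 hτ hB hBs hn X Z R Zw hX hZ hR hZw P hPp
  have hX0 : (0 : ℝ) ≤ X := by linarith
  have hZ0 : (0 : ℝ) ≤ Z := by linarith
  have hnn : (1 : ℝ) ≤ nm n := one_le_nm hn.ne_zero
  have hng : (1 : ℝ) ≤ nm g' := one_le_nm hg'.ne_zero
  have hnB : (1 : ℝ) ≤ nm B := one_le_nm hB.ne_zero
  have hlog : 0 ≤ Real.log X := Real.log_nonneg hX
  set Z' : ℝ := Z / (nm n : ℝ) ^ 3 with hZ'
  have hZ'0 : 0 ≤ Z' := by positivity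
  set U : ℝ := (Ax / (nm g' * nm B)) ^ 2 * Mu d0 (g' * B) with hU
  have hU0 : 0 ≤ U := by
    have := Mu_nonneg d0 (g' * B)
    positivity
  set bb : ℝ := (nm (b2 (E * M0) B) : ℝ) with hbb
  have hbb1 : 1 ≤ bb := one_le_b2 _ _
  set Q : ℝ := R * min (Real.sqrt (Z' / bb)) (nm (E * M0)) + Zw + (R * Zw) ^ ((2 : ℝ) / 3) with hQ
  have hQ0 : 0 ≤ Q := by positivity
  have hRHS : (Ct * 100 * Z ^ ε * (1 + Real.log X)) *
        ((Ax / (nm g' * nm B)) ^ 2 * Mu d0 (g' * B)) * (if bb ≤ Z' then Q else 0) =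
      U * ((Ct * Z ^ ε) * (100 * (1 + Real.log X)) * (if bb ≤ Z' then Q else 0)) := by
    rw [hU]; ring
  rw [hRHS]
  have hmin0 : 0 ≤ min (Real.sqrt (Z' / bb)) (nm (E * M0)) := by positivity
  by_cases hex : ∃ g₂ ∈ S X, ∃ g₃ ∈ S X, ∃ d, d ∈ (pb Z).filter (P g₂ g₃)
  swap
  · have h0 : MoW X Z (WM R Zw) P (fun G => (Ax / nm (g' * B * G)) ^ 2 *
        Mu d0 (g' * B * G)) = 0 := by
      unfold MoW
      refine Finset.sum_eq_zero fun g₂ h2 => Finset.sum_eq_zero fun g₃ h3 => ?_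
      have : (pb Z).filter (P g₂ g₃) = ∅ := by
        rw [Finset.eq_empty_iff_forall_notMem]
        exact fun d hd => hex ⟨g₂, h2, g₃, h3, d, hd⟩
      rw [this, Finset.sum_empty, mul_zero]
    rw [h0]
    split_ifs
    · positivity
    · rw [mul_zero, mul_zero]
  obtain ⟨x2, hx2, x3, hx3, d1, hd1⟩ := hex
  rw [Finset.mem_filter, mem_pb hZ0] at hd1
  obtain ⟨⟨hd1Z, hd1p⟩, hd1P⟩ := hd1
  obtain ⟨⟨z1, m1, hz1, hm1, hs1, hd1e⟩, hd1Pr⟩ := hPp _ _ _ hd1P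
  obtain ⟨hx2X, hx2p, hx2s⟩ := (mem_S hX0).mp hx2
  obtain ⟨hx3X, hx3p, hx3s⟩ := (mem_S hX0).mp hx3
  have hc : E * τ * B ^ 2 ≠ 0 := mul_ne_zero (mul_ne_zero hE hτ0) (pow_ne_zero _ hB.ne_zero)
  set a0 : Eis := x2 * z1 with ha0
  have ha0p : IsPrim a0 := hx2p.mul hz1
  have hform : ∀ {y2 y3 z m : Eis}, Squarefree (m * (y2 * ((y3 * n) * z))) →
      Squarefree (m * ((y2 * z) * (y3 * n))) ∧
      QQ n y2 y3 z m = m * (y2 * z) ^ 2 * (y3 * n) ^ 3 := by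
    intro y2 y3 z m h
    refine ⟨?_, by unfold H1401.QQ; ring⟩
    have e : m * (y2 * z * (y3 * n)) = m * (y2 * ((y3 * n) * z)) := by ring
    rw [e]; exact h
  obtain ⟨hs1', hd1e'⟩ := hform hs1
  rw [hd1e'] at hd1e
  have hs1a : Squarefree (m1 * a0) := by
    refine hs1'.squarefree_of_dvd ⟨x3 * n, by rw [ha0]; ring⟩
  have hd1Pr' : Pr (m1 * a0 ^ 2 * (x3 * n) ^ 3 * (E * τ * B ^ 2)) := by
    rw [← hd1e]; exact hd1Pr
  -- the square part
  have ha0d : a0 ∣ E * M0 := dn_div hP hE hB hBs hτ0 hτ hm1 ha0p (hx3p.mul hn) hs1' hd1Pr'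
  have ha0n : (nm a0 : ℝ) ≤ nm (E * M0) := by
    exact_mod_cast nm_le_of_dvd (mul_ne_zero hE hP.m0) ha0d
  have hbm : bb ≤ nm m1 := by
    rw [hbb]
    exact_mod_cast nm_le_of_dvd hm1.ne_zero (b2_dvd hP hE hB hBs hτ0 hτ hm1 ha0p (hx3p.mul hn)
      hs1' hd1Pr')
  have ha01 : (1 : ℝ) ≤ nm a0 := one_le_nm ha0p.ne_zero
  have ha0Z : bb * (nm a0 : ℝ) ^ 2 ≤ Z' := by
    rw [hZ', le_div_iff₀ (by positivity)]
    have e1 : (nm d1 : ℝ) = nm m1 * (nm a0 : ℝ) ^ 2 * ((nm x3 : ℝ) * nm n) ^ 3 := by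
      rw [hd1e, nm_mul, nm_mul, nm_pow, nm_pow, nm_mul x3 n]
      push_cast
      ring
    have h2 : (1 : ℝ) ≤ nm x3 := one_le_nm hx3p.ne_zero
    calc bb * (nm a0 : ℝ) ^ 2 * (nm n : ℝ) ^ 3 = bb * (nm a0 : ℝ) ^ 2 * (1 * (nm n : ℝ)) ^ 3 := by
          ring
      _ ≤ nm m1 * (nm a0 : ℝ) ^ 2 * ((nm x3 : ℝ) * nm n) ^ 3 := by gcongr
      _ = nm d1 := e1.symm
      _ ≤ Z := hd1Z
  have hbZ : bb ≤ Z' := by nlinarith [one_le_pow₀ (n := 2) ha01]
  rw [if_pos hbZ]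
  have ha0s : (nm a0 : ℝ) ≤ Real.sqrt (Z' / bb) := by
    apply Real.le_sqrt_of_sq_le
    rw [le_div_iff₀ (by linarith), mul_comm]
    exact ha0Z
  have hta0 : (tau a0 : ℝ) ≤ Ct * Z ^ ε := by
    refine (htau a0 ha0p.ne_zero).trans ?_
    have h1 : (1 : ℝ) ≤ nm a0 := one_le_nm ha0p.ne_zero
    have h2 : (nm a0 : ℝ) ≤ Z := by
      have h3 : (nm a0 : ℝ) ≤ (nm a0 : ℝ) ^ 2 := by nlinarith
      have h4 : Z' ≤ Z := div_le_self hZ0 (one_le_pow₀ hnn)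
      have h5 : (nm a0 : ℝ) ^ 2 ≤ bb * (nm a0 : ℝ) ^ 2 := le_mul_of_one_le_left (by positivity) hbb1
      linarith
    gcongr
  -- the inner sums
  set b : Eis → Eis → ℝ := fun g₂ g₃ =>
    if g₂ ∣ a0 then U * ((nm g₂ : ℝ) * nm g₃)⁻¹ else 0 with hb
  have hin : ∀ g₂ ∈ S X, ∀ g₃ ∈ S X, ∑ d ∈ (pb Z).filter (P g₂ g₃),
      (Ax / nm (g' * B * (g₂ * g₃))) ^ 2 * Mu d0 (g' * B * (g₂ * g₃)) ≤ b g₂ g₃ := by
    intro g₂ h2 g₃ h3
    obtain ⟨h2X, h2p, h2s⟩ := (mem_S hX0).mp h2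
    obtain ⟨h3X, h3p, h3s⟩ := (mem_S hX0).mp h3
    have hb0 : 0 ≤ b g₂ g₃ := by
      simp only [hb]
      split_ifs
      · positivity
      · exact le_rfl
    -- every member is the same element
    have huniq : ∀ d ∈ (pb Z).filter (P g₂ g₃), d = m1 * a0 ^ 2 * (g₃ * n) ^ 3 ∧ g₂ ∣ a0 ∧
        (Ax / nm (g' * B * (g₂ * g₃))) ^ 2 * Mu d0 (g' * B * (g₂ * g₃)) ≤ b g₂ g₃ := by
      intro d hd
      rw [Finset.mem_filter, mem_pb hZ0] at hd
      obtain ⟨⟨hdZ, hdp⟩, hdP⟩ := hd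
      obtain ⟨⟨z, m, hz, hm, hs, hde⟩, hdPr⟩ := hPp _ _ _ hdP
      obtain ⟨hs', hde'⟩ := hform hs
      rw [hde'] at hde
      have hsa : Squarefree (m * (g₂ * z)) :=
        hs'.squarefree_of_dvd ⟨g₃ * n, by ring⟩
      have hdPr' : Pr (m * (g₂ * z) ^ 2 * (g₃ * n) ^ 3 * (E * τ * B ^ 2)) := by
        rw [← hde]; exact hdPr
      obtain ⟨k1, k2⟩ := kern_unique hP.cub hc hm (h2p.mul hz) (h3p.mul hn) hm1 ha0p
        (hx3p.mul hn) hsa hs1a hdPr' hd1Pr'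
      have hga : g₂ ∣ a0 := by rw [← k2]; exact dvd_mul_right _ _
      refine ⟨by rw [hde, k1], hga, ?_⟩
      simp only [hb]
      rw [if_pos hga]
      have hn2 : (1 : ℝ) ≤ nm g₂ := one_le_nm h2p.ne_zero
      have hn3 : (1 : ℝ) ≤ nm g₃ := one_le_nm h3p.ne_zero
      have hgg : g₂ * g₃ ≠ 0 := (h2p.mul h3p).ne_zero
      have e2 : (nm (g' * B * (g₂ * g₃)) : ℝ) = (nm g' * nm B) * ((nm g₂ : ℝ) * nm g₃) := by
        rw [nm_mul, nm_mul, nm_mul g₂ g₃]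
        push_cast
        ring
      have h5 := Mu_mul d0 (x := g' * B) hgg
      have e3 : (nm (g₂ * g₃) : ℝ) = (nm g₂ : ℝ) * nm g₃ := by rw [nm_mul]; push_cast; ring
      rw [e3] at h5
      rw [e2, hU]
      have hMu := Mu_nonneg d0 (g' * B)
      calc (Ax / ((nm g' * nm B) * ((nm g₂ : ℝ) * nm g₃))) ^ 2 * Mu d0 (g' * B * (g₂ * g₃))
          ≤ (Ax / ((nm g' * nm B) * ((nm g₂ : ℝ) * nm g₃))) ^ 2 *
            ((nm g₂ : ℝ) * nm g₃ * Mu d0 (g' * B)) := by gcongr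
        _ = _ := by
          field_simp
    rcases ((pb Z).filter (P g₂ g₃)).eq_empty_or_nonempty with he | ⟨d, hd⟩
    · rw [he, Finset.sum_empty]; exact hb0
    · obtain ⟨e1, e2, e3⟩ := huniq d hd
      have hsub : (pb Z).filter (P g₂ g₃) = {d} := by
        rw [Finset.eq_singleton_iff_unique_mem]
        exact ⟨hd, fun x hx => by rw [(huniq x hx).1, e1]⟩
      rw [hsub, Finset.sum_singleton]
      exact e3
  -- the outer sums
  have hW0 : ∀ g₂ g₃, 0 ≤ WM R Zw g₂ g₃ := fun g₂ g₃ => H1401.WM_nonneg hR hZw g₂ g₃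
  have hmain : MoW X Z (WM R Zw) P (fun G => (Ax / nm (g' * B * G)) ^ 2 *
      Mu d0 (g' * B * G)) ≤ ∑ g₂ ∈ S X, ∑ g₃ ∈ S X, WM R Zw g₂ g₃ * b g₂ g₃ := by
    unfold MoW
    exact Finset.sum_le_sum fun g₂ h2 => Finset.sum_le_sum fun g₃ h3 =>
      mul_le_mul_of_nonneg_left (hin g₂ h2 g₃ h3) (hW0 _ _)
  refine hmain.trans ?_
  have hrow : ∀ g₂ ∈ S X, ∑ g₃ ∈ S X, WM R Zw g₂ g₃ * b g₂ g₃ ≤
      if g₂ ∣ a0 then U * ((100 * (1 + Real.log X)) * Q) else 0 := by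
    intro g₂ h2
    obtain ⟨h2X, h2p, h2s⟩ := (mem_S hX0).mp h2
    by_cases hga : g₂ ∣ a0
    · rw [if_pos hga]
      have hn2 : (nm g₂ : ℝ) ≤ min (Real.sqrt (Z' / bb)) (nm (E * M0)) := by
        have h4 : (nm g₂ : ℝ) ≤ nm a0 := by exact_mod_cast nm_le_of_dvd ha0p.ne_zero hga
        exact le_min (h4.trans ha0s) (h4.trans ha0n)
      calc ∑ g₃ ∈ S X, WM R Zw g₂ g₃ * b g₂ g₃
          ≤ ∑ g₃ ∈ S X, (1 / (nm g₃ : ℝ)) * (U * Q) := by
            refine Finset.sum_le_sum fun g₃ h3 => ?_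
            obtain ⟨h3X, h3p, h3s⟩ := (mem_S hX0).mp h3
            simp only [hb]
            rw [if_pos hga]
            have h5 := W_le hR hZw h2p.ne_zero h3p.ne_zero
            calc WM R Zw g₂ g₃ * (U * ((nm g₂ : ℝ) * nm g₃)⁻¹)
                = U * (WM R Zw g₂ g₃ * ((nm g₂ : ℝ) * nm g₃)⁻¹) := by ring
              _ ≤ U * ((1 / (nm g₃ : ℝ)) * (nm g₂ * R + Zw + (R * Zw) ^ ((2 : ℝ) / 3))) :=
                  mul_le_mul_of_nonneg_left h5 hU0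
              _ ≤ U * ((1 / (nm g₃ : ℝ)) * (min (Real.sqrt (Z' / bb)) (nm (E * M0)) * R + Zw +
                  (R * Zw) ^ ((2 : ℝ) / 3))) := by gcongr
              _ = _ := by rw [hQ]; ring
        _ = (∑ g₃ ∈ S X, (1 / (nm g₃ : ℝ))) * (U * Q) := by rw [Finset.sum_mul]
        _ ≤ (100 * (1 + Real.log X)) * (U * Q) := by
            refine mul_le_mul_of_nonneg_right (E2440.sum_inv_S hX) (by positivity)
        _ = _ := by ring
    · rw [if_neg hga]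
      refine le_of_eq (Finset.sum_eq_zero fun g₃ _ => ?_)
      simp only [hb]
      rw [if_neg hga, mul_zero]
  refine (Finset.sum_le_sum hrow).trans ?_
  rw [← Finset.sum_filter, Finset.sum_const, nsmul_eq_mul]
  have hcard : (((S X).filter (fun g₂ => g₂ ∣ a0)).card : ℝ) ≤ Ct * Z ^ ε := by
    refine le_trans ?_ hta0
    unfold Div277.tau
    norm_cast
    refine Finset.card_le_card fun x hx => ?_
    rw [Finset.mem_filter, mem_S hX0] at hx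
    rw [mem_dvs ha0p.ne_zero]
    exact ⟨hx.1.2.1, hx.2⟩
  calc (((S X).filter (fun g₂ => g₂ ∣ a0)).card : ℝ) * (U * ((100 * (1 + Real.log X)) * Q))
      ≤ (Ct * Z ^ ε) * (U * ((100 * (1 + Real.log X)) * Q)) := by gcongr
    _ = _ := by ring

set_option maxHeartbeats 1000000 in
open Classical in
/-- **the sum over `n ∣ ν`** (401's `H1v`) -/
theorem moW_dvs2 {ε : ℝ} (hε : 0 < ε) : ∃ C : ℝ, 1 ≤ C ∧ ∀ {Pr : Eis → Prop} {M0 : Eis},
    PrK Pr M0 → ∀ {Ax d0 : ℝ} {g' E B τ ν : Eis}, IsPrim g' → E ≠ 0 → τ ≠ 0 →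
    (∀ p : Eis, Prime p → IsPrim p → ¬ p ∣ τ) → IsPrim B → Squarefree B → IsPrim ν →
    ∀ {X Z R : ℝ}, 1 ≤ X → 1 ≤ Z → 0 ≤ R → ∀ {P : Eis → Eis → Eis → Eis → Prop},
    (∀ n g₂ g₃ d, n ∣ ν → P n g₂ g₃ d → DN n g₂ g₃ d ∧ Pr (d * (E * τ * B ^ 2))) →
    ∑ n ∈ dvs ν, (nm n : ℝ) *
        MoW X Z (WM R (Z / (nm n : ℝ) ^ 3)) (P n)
          (fun G => (Ax / nm (g' * B * G)) ^ 2 * Mu d0 (g' * B * G)) ≤
      (C * (Z * nm ν) ^ ε * (1 + Real.log X)) *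
        prM R Z Ax d0 (nm (E * M0) * nm ν) (nm (b2 (E * M0) B)) g' B := by
  obtain ⟨C, hC, h⟩ := moW_n2 hε
  obtain ⟨Ct, hCt, htau⟩ := tau_le_rpow hε
  refine ⟨C * Ct, one_le_mul_of_one_le_of_one_le hC hCt, ?_⟩
  intro Pr M0 hP Ax d0 g' E B τ ν hg' hE hτ0 hτ hB hBs hν X Z R hX hZ hR P hPp
  set F0 : Eis → ℝ := fun G => (Ax / nm (g' * B * G)) ^ 2 * Mu d0 (g' * B * G) with hF0
  have hX0 : (0 : ℝ) ≤ X := by linarith
  have hZ0 : (0 : ℝ) ≤ Z := by linarith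
  have hlog : 0 ≤ Real.log X := Real.log_nonneg hX
  have hnν : (1 : ℝ) ≤ nm ν := one_le_nm hν.ne_zero
  have hMu := Mu_nonneg d0 (g' * B)
  set bb : ℝ := (nm (b2 (E * M0) B) : ℝ) with hbb
  have hbb1 : 1 ≤ bb := one_le_b2 _ _
  have hterm : ∀ n ∈ dvs ν, (nm n : ℝ) *
      MoW X Z (WM R (Z / (nm n : ℝ) ^ 3)) (P n) F0 ≤
      (C * Z ^ ε * (1 + Real.log X)) *
        prM R Z Ax d0 (nm (E * M0) * nm ν) bb g' B := by
    intro n hn
    obtain ⟨hnp, hnd⟩ := (mem_dvs hν.ne_zero).mp hn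
    have hnn : (1 : ℝ) ≤ nm n := one_le_nm hnp.ne_zero
    have hnn0 : (0 : ℝ) < nm n := by linarith
    have hnle : (nm n : ℝ) ≤ nm ν := by exact_mod_cast nm_le_of_dvd hν.ne_zero hnd
    have key := h hP (Ax := Ax) (d0 := d0) hg' hE hτ0 hτ hB hBs hnp hX hZ hR
      (Zw := Z / (nm n : ℝ) ^ 3) (by positivity) (P := P n)
      (fun g₂ g₃ d hd => hPp n g₂ g₃ d hnd hd)
    set U : ℝ := C * Z ^ ε * (1 + Real.log X) with hU
    have hU0 : 0 ≤ U := by positivity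
    have hV0 : 0 ≤ (Ax / (nm g' * nm B)) ^ 2 * Mu d0 (g' * B) := by positivity
    by_cases hbZ : bb ≤ Z / (nm n : ℝ) ^ 3
    swap
    · rw [if_neg hbZ, mul_zero] at key
      calc (nm n : ℝ) * MoW X Z (WM R (Z / (nm n : ℝ) ^ 3)) (P n) F0
          ≤ (nm n : ℝ) * 0 := mul_le_mul_of_nonneg_left key hnn0.le
        _ ≤ _ := by
            rw [mul_zero]
            exact mul_nonneg hU0 (prM_nonneg hR hZ0 (by positivity) _ _)
    rw [if_pos hbZ] at key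
    have hbZ' : bb ≤ Z := hbZ.trans (div_le_self hZ0 (one_le_pow₀ hnn))
    have h1 : (nm n : ℝ) * min (Real.sqrt (Z / (nm n : ℝ) ^ 3 / bb)) (nm (E * M0)) ≤
        min (Real.sqrt (Z / bb)) (nm (E * M0) * nm ν) := by
      rw [mul_min_of_nonneg _ _ hnn0.le]
      refine min_le_min ?_ ?_
      · apply Real.le_sqrt_of_sq_le
        rw [mul_pow, Real.sq_sqrt (by positivity)]
        have e1 : (nm n : ℝ) ^ 2 * (Z / (nm n : ℝ) ^ 3 / bb) = Z / bb / nm n := by field_simp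
        rw [e1]
        exact div_le_self (by positivity) hnn
      · rw [mul_comm]
        gcongr
    have h2 : (nm n : ℝ) * (Z / (nm n : ℝ) ^ 3) ≤ Z := by
      have e1 : (nm n : ℝ) * (Z / (nm n : ℝ) ^ 3) = Z / (nm n : ℝ) ^ 2 := by field_simp
      rw [e1]
      exact div_le_self hZ0 (one_le_pow₀ hnn)
    have h3 : (nm n : ℝ) * (R * (Z / (nm n : ℝ) ^ 3)) ^ ((2 : ℝ) / 3) ≤
        (R * Z) ^ ((2 : ℝ) / 3) := by
      have e1 : R * (Z / (nm n : ℝ) ^ 3) = (R * Z) / (nm n : ℝ) ^ 3 := by ring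
      have e2 : ((nm n : ℝ) ^ 3) ^ ((2 : ℝ) / 3) = (nm n : ℝ) ^ 2 := by
        rw [← Real.rpow_natCast, ← Real.rpow_mul hnn0.le, ← Real.rpow_natCast]
        norm_num
      rw [e1, Real.div_rpow (by positivity) (by positivity), e2]
      have e3 : (nm n : ℝ) * ((R * Z) ^ ((2 : ℝ) / 3) / (nm n : ℝ) ^ 2) =
          (R * Z) ^ ((2 : ℝ) / 3) / nm n := by field_simp
      rw [e3]
      exact div_le_self (by positivity) hnn
    calc (nm n : ℝ) * MoW X Z (WM R (Z / (nm n : ℝ) ^ 3)) (P n) F0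
        ≤ (nm n : ℝ) * (U * ((Ax / (nm g' * nm B)) ^ 2 * Mu d0 (g' * B)) *
          (R * min (Real.sqrt (Z / (nm n : ℝ) ^ 3 / bb)) (nm (E * M0)) + Z / (nm n : ℝ) ^ 3 +
            (R * (Z / (nm n : ℝ) ^ 3)) ^ ((2 : ℝ) / 3))) :=
          mul_le_mul_of_nonneg_left key hnn0.le
      _ = U * (((Ax / (nm g' * nm B)) ^ 2 * Mu d0 (g' * B)) *
          (R * ((nm n : ℝ) * min (Real.sqrt (Z / (nm n : ℝ) ^ 3 / bb)) (nm (E * M0))) +
            (nm n : ℝ) * (Z / (nm n : ℝ) ^ 3) +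
            (nm n : ℝ) * (R * (Z / (nm n : ℝ) ^ 3)) ^ ((2 : ℝ) / 3))) := by ring
      _ ≤ U * (((Ax / (nm g' * nm B)) ^ 2 * Mu d0 (g' * B)) *
          (R * min (Real.sqrt (Z / bb)) (nm (E * M0) * nm ν) + Z + (R * Z) ^ ((2 : ℝ) / 3))) := by
          gcongr
      _ = _ := by
          unfold prM
          rw [if_pos hbZ']
  refine (Finset.sum_le_sum hterm).trans ?_
  rw [Finset.sum_const, nsmul_eq_mul]
  have hpr := prM_nonneg (Ax := Ax) (d0 := d0) (b := bb) hR hZ0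
    (by positivity : (0 : ℝ) ≤ nm (E * M0) * nm ν) g' B
  have hc : ((dvs ν).card : ℝ) ≤ Ct * (nm ν : ℝ) ^ ε := htau ν hν.ne_zero
  calc ((dvs ν).card : ℝ) * ((C * Z ^ ε * (1 + Real.log X)) *
        prM R Z Ax d0 (nm (E * M0) * nm ν) (nm (b2 (E * M0) B)) g' B)
      ≤ (Ct * (nm ν : ℝ) ^ ε) * ((C * Z ^ ε * (1 + Real.log X)) *
        prM R Z Ax d0 (nm (E * M0) * nm ν) (nm (b2 (E * M0) B)) g' B) := by gcongr
    _ = _ := by
        rw [Real.mul_rpow hZ0 (by positivity)]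
        ring


/-! ### the values of the restricted sequence -/

/-- the value at `g` of the sequence on the multiples of `a` -/
def Gv (Ax d0 : ℝ) (a g : Eis) : ℝ := Ax / nm (g * b2 g a) * Mg d0 (g * b2 g a)

lemma dvd_b2 {g a n : Eis} (ha : IsPrim a) (hs : Squarefree a) : a ∣ g * n ↔ b2 g a ∣ n := by
  classical
  constructor
  · intro h
    refine ((ppSet_pp a).subset (Finset.filter_subset _ _)).prod_dvd.mpr fun p hp => ?_
    rw [Finset.mem_filter] at hp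
    have hpr := (isPP_of_mem_pp hp.1).prime
    rcases hpr.dvd_or_dvd ((dvd_of_mem_pp hp.1).trans h) with h1 | h1
    · exact absurd h1 hp.2
    · exact h1
  · intro h
    calc a = b1 g a * b2 g a := (b1_mul_b2 g ha hs).symm
      _ ∣ g * n := mul_dvd_mul (b1_dvd g a) h

lemma FS_alr {α : Eis → ℂ} (h : FS α) (a b : Eis) : FS (alr α a b) where
  fin := h.fin.subset fun n hn => by
    have h1 : alr α a b n ≠ 0 := hn
    exact (MoCa83.alr_ne h1).2.2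
  prim n hn := h.prim n (MoCa83.alr_ne hn).2.2

set_option maxHeartbeats 1000000 in
open Classical in
/-- **the principal values of the restricted sequence** -/
theorem alr_val {Pr : Eis → Prop} {M0 : Eis} (hP : PrK Pr M0) {J : ℕ} {Ax d0 Zp : ℝ}
    {al : Eis → ℂ} (hal : FS al) (hV : PV Pr J Ax d0 Zp al) {a b : Eis} (ha : IsPrim a)
    (has : Squarefree a) (hb : IsPrim b) {g : Eis} (hg : IsPrim g)
    (hgZ : (nm (g * a) : ℝ) ≤ Zp) {k : Eis} (hk : k ≠ 0) (hkZ : (nm (k * b ^ 3) : ℝ) ≤ Zp)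
    (hp : Pr k) (t : ℝ) :
    ‖∑' n : Eis, alr al a b (g * n) * (osc t (Real.log (nm n)) * sy k n)‖ ≤
      (1 + |t|) ^ J * Gv Ax d0 a g := by
  set a' : Eis := b2 g a with ha'
  have ha'p : IsPrim a' := b2_prim g a
  have ha'0 : a' ≠ 0 := ha'p.ne_zero
  have hga : IsPrim (g * a') := hg.mul ha'p
  have hnga : (nm (g * a') : ℝ) ≤ Zp := by
    refine le_trans ?_ hgZ
    rw [nm_mul, nm_mul]
    push_cast
    have h1 : (nm a' : ℝ) ≤ nm a := by
      have h2 := nm_b1_b2 g ha has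
      have h3 : (1 : ℝ) ≤ nm (b1 g a) := one_le_nm (b1_prim g a).ne_zero
      have h4 : (0 : ℝ) ≤ nm a' := Nat.cast_nonneg _
      rw [← h2]
      nlinarith
    gcongr
  have hkb : k * b ^ 3 ≠ 0 := mul_ne_zero hk (pow_ne_zero _ hb.ne_zero)
  have hV' := hV (g * a') hga hnga _ hkb hkZ (hP.up _ _ hk hb.ne_zero hp) t
  set u : ℂ := (if IsCoprime (g * a') b then 1 else 0) *
    (osc t (Real.log (nm a')) * sy k a') with hu
  have hu1 : ‖u‖ ≤ 1 := by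
    have a1 : ‖(if IsCoprime (g * a') b then (1 : ℂ) else 0)‖ ≤ 1 := by split_ifs <;> simp
    have a2 := syAx.norm_le_one k ha'p
    rw [hu, norm_mul, norm_mul, norm_osc, one_mul]
    exact mul_le_one₀ a1 (norm_nonneg _) a2
  have hinj : Function.Injective (fun m : Eis => a' * m) := mul_right_injective₀ ha'0
  have e0 : ∑' n : Eis, alr al a b (g * n) * (osc t (Real.log (nm n)) * sy k n) =
      ∑' m : Eis, alr al a b (g * (a' * m)) * (osc t (Real.log (nm (a' * m))) * sy k (a' * m)) := by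
    refine (hinj.tsum_eq (f := fun n => alr al a b (g * n) *
      (osc t (Real.log (nm n)) * sy k n)) ?_).symm
    intro n hn
    rw [Function.mem_support] at hn
    have h1 : alr al a b (g * n) ≠ 0 := left_ne_zero_of_mul hn
    obtain ⟨m, hm⟩ := (dvd_b2 ha has).mp (MoCa83.alr_ne h1).1
    exact ⟨m, hm.symm⟩
  have e1 : ∑' n : Eis, alr al a b (g * n) * (osc t (Real.log (nm n)) * sy k n) =
      u * ∑' n : Eis, al (g * a' * n) * (osc t (Real.log (nm n)) * sy (k * b ^ 3) n) := by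
    rw [e0, ← tsum_mul_left]
    refine tsum_congr fun m => ?_
    have e2 : g * (a' * m) = g * a' * m := by ring
    have e3 : alr al a b (g * a' * m) = if IsCoprime (g * a' * m) b then al (g * a' * m) else 0 := by
      have h1 : a ∣ g * a' * m := by
        rw [← e2, dvd_b2 ha has]
        exact dvd_mul_right _ _
      unfold MoCa83.alr
      by_cases hc : IsCoprime (g * a' * m) b
      · rw [if_pos ⟨h1, hc⟩, if_pos hc]
      · rw [if_neg (fun h => hc h.2), if_neg hc]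
    rw [e2, e3]
    by_cases h0 : al (g * a' * m) = 0
    · rw [h0]; simp
    have hpm : IsPrim m := (hal.prim _ h0).of_mul_left hga
    have hnG : (nm a' : ℝ) ≠ 0 := by exact_mod_cast (nm_pos.mpr ha'0).ne'
    have hnm : (nm m : ℝ) ≠ 0 := by exact_mod_cast (nm_pos.mpr hpm.ne_zero).ne'
    have hc : IsCoprime (g * a' * m) b ↔ IsCoprime (g * a') b ∧ IsCoprime m b :=
      IsCoprime.mul_left_iff
    have e4 : sy k (a' * m) = sy k a' * sy k m := syAx.mul_right _ _ _ ha'p hpm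
    have e5 : osc t (Real.log (nm (a' * m))) =
        osc t (Real.log (nm a')) * osc t (Real.log (nm m)) := by
      rw [nm_mul, Nat.cast_mul, Real.log_mul hnG hnm, Weight600.osc_add_right]
    have e6 : sy (k * b ^ 3) m = sy k m * (if IsCoprime m b then 1 else 0) := by
      rw [syAx.mul_left _ _ _ hpm, sy_cube_cop hpm]
    rw [e4, e5, e6, hu]
    by_cases c1 : IsCoprime (g * a') b
    · by_cases c2 : IsCoprime m b
      · rw [if_pos (hc.mpr ⟨c1, c2⟩), if_pos c1, if_pos c2]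
        ring
      · rw [if_neg (fun h => c2 (hc.mp h).2), if_neg c2]
        ring
    · rw [if_neg (fun h => c1 (hc.mp h).1), if_neg c1]
      ring
  rw [e1, norm_mul]
  calc ‖u‖ * _ ≤ 1 * _ := mul_le_mul_of_nonneg_right hu1 (norm_nonneg _)
    _ ≤ _ := by rw [one_mul]; exact hV'

/-- values bounded by a function of `g` -/
def VG (Pr : Eis → Prop) (J : ℕ) (Zg Zk : ℝ) (Gf : Eis → ℝ) (al : Eis → ℂ) : Prop :=
  ∀ g : Eis, IsPrim g → (nm g : ℝ) ≤ Zg → ∀ k : Eis, k ≠ 0 → (nm k : ℝ) ≤ Zk → Pr k → ∀ t : ℝ,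
    ‖∑' n : Eis, al (g * n) * (osc t (Real.log (nm n)) * sy k n)‖ ≤ (1 + |t|) ^ J * Gf g

theorem alr_VG {Pr : Eis → Prop} {M0 : Eis} (hP : PrK Pr M0) {J : ℕ} {Ax d0 Zp : ℝ}
    {al : Eis → ℂ} (hal : FS al) (hV : PV Pr J Ax d0 Zp al) {a b : Eis} (ha : IsPrim a)
    (has : Squarefree a) (hb : IsPrim b) :
    VG Pr J (Zp / nm a) (Zp / (nm b : ℝ) ^ 3) (Gv Ax d0 a) (alr al a b) := by
  have h1 : (1 : ℝ) ≤ nm a := one_le_nm ha.ne_zero
  have h2 : (1 : ℝ) ≤ nm b := one_le_nm hb.ne_zero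
  intro g hg hgZ k hk hkZ hp t
  rw [le_div_iff₀ (by linarith)] at hgZ
  rw [le_div_iff₀ (by positivity)] at hkZ
  refine alr_val hP hal hV ha has hb hg ?_ hk ?_ hp t
  · rw [nm_mul]; push_cast; exact hgZ
  · rw [nm_mul, nm_pow]; push_cast; exact hkZ

open Classical in
/-- **the value at a principal `d`** -/
theorem cs_leG {Pr : Eis → Prop} {M0 : Eis} (hP : PrK Pr M0) {J : ℕ} {Zg Zk : ℝ}
    {Gf : Eis → ℝ} {al : Eis → ℂ} (hal : FS al) (hV : VG Pr J Zg Zk Gf al) {δ g' E B τ G d : Eis}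
    (hδ : IsPrim δ) (hg' : IsPrim g') (hE : E ≠ 0) (hτ0 : τ ≠ 0) (hB : IsPrim B) (hG : IsPrim G)
    (hd : IsPrim d) (hp : Pr (d * (E * τ * B ^ 2))) (h1 : (nm (g' * B * G) : ℝ) ≤ Zg)
    (h2 : (nm (d * (E * τ * B ^ 2) * δ ^ 3) : ℝ) ≤ Zk) (t : ℝ) :
    ‖CS (sub (cT (ag al δ g') E B τ t) G) d‖ ≤
      (1 + |t|) ^ J * Gf (g' * B * G) := by
  classical
  have hk0 : d * (E * τ * B ^ 2) ≠ 0 :=
    mul_ne_zero hd.ne_zero (mul_ne_zero (mul_ne_zero hE hτ0) (pow_ne_zero _ hB.ne_zero))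
  have hk : d * (E * τ * B ^ 2) * δ ^ 3 ≠ 0 := mul_ne_zero hk0 (pow_ne_zero _ hδ.ne_zero)
  have hV' := hV (g' * B * G) ((hg'.mul hB).mul hG) h1 _ hk h2 (hP.up _ _ hk0 hδ.ne_zero hp) (-t)
  rw [abs_neg] at hV'
  set u : ℂ := (if IsCoprime (B * G) δ then 1 else 0) * (sy E G * conj (sy B G)) *
    (sy τ G * osc t (-Real.log (nm G))) with hu
  have hu1 : ‖u‖ ≤ 1 := by
    have a1 : ‖(if IsCoprime (B * G) δ then (1 : ℂ) else 0)‖ ≤ 1 := by split_ifs <;> simp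
    have a2 := syAx.norm_le_one E hG
    have a3 := syAx.norm_le_one B hG
    have a4 := syAx.norm_le_one τ hG
    rw [hu, norm_mul, norm_mul, norm_mul, norm_mul, norm_osc, RCLike.norm_conj]
    calc _ ≤ (1 : ℝ) * (1 * 1) * (1 * 1) := by gcongr
      _ = 1 := by norm_num
  have e1 : CS (sub (cT (ag al δ g') E B τ t) G) d =
      u * ∑' n : Eis, al (g' * B * G * n) * (osc (-t) (Real.log (nm n)) *
        sy (d * (E * τ * B ^ 2) * δ ^ 3) n) := by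
    unfold CM106.CS
    rw [← tsum_mul_left]
    refine tsum_congr fun m => ?_
    unfold CM106.sub E2440.cT E2440.ag
    have e2 : g' * (B * (G * m)) = g' * B * G * m := by ring
    rw [e2]
    by_cases h0 : al (g' * B * G * m) = 0
    · rw [h0]; simp
    have hpm : IsPrim m := (hal.prim _ h0).of_mul_left ((hg'.mul hB).mul hG)
    have hnG : (nm G : ℝ) ≠ 0 := by exact_mod_cast (nm_pos.mpr hG.ne_zero).ne'
    have hnm : (nm m : ℝ) ≠ 0 := by exact_mod_cast (nm_pos.mpr hpm.ne_zero).ne'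
    have hc : IsCoprime (B * (G * m)) δ ↔ IsCoprime (B * G) δ ∧ IsCoprime m δ := by
      rw [← mul_assoc]
      exact IsCoprime.mul_left_iff
    have e3 : sy E (G * m) = sy E G * sy E m := syAx.mul_right _ _ _ hG hpm
    have e4 : sy (G * m) B = sy B G * sy B m := by
      rw [syAx.recip _ _ (hG.mul hpm) hB]; exact syAx.mul_right _ _ _ hG hpm
    have e5 : sy τ (G * m) = sy τ G * sy τ m := syAx.mul_right _ _ _ hG hpm
    have e6 : osc t (-Real.log (nm (G * m))) =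
        osc t (-Real.log (nm G)) * osc (-t) (Real.log (nm m)) := by
      rw [nm_mul, Nat.cast_mul, Real.log_mul hnG hnm, neg_add, Weight600.osc_add_right]
      congr 1
      rw [Weight600.osc_neg_left, Weight600.osc_neg_right]
    have e7 : sy (d * (E * τ * B ^ 2) * δ ^ 3) m =
        (sy d m * (sy E m * sy τ m * conj (sy B m))) * (if IsCoprime m δ then 1 else 0) := by
      rw [syAx.mul_left _ _ _ hpm, syAx.mul_left _ _ _ hpm, syAx.mul_left _ _ _ hpm,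
        syAx.mul_left _ _ _ hpm, syAx.pow_left B hpm, ← syAx.conj_eq_sq B hpm, sy_cube_cop hpm]
    rw [e3, e4, e5, e6, e7, hu]
    by_cases c1 : IsCoprime (B * G) δ
    · by_cases c2 : IsCoprime m δ
      · rw [if_pos (hc.mpr ⟨c1, c2⟩), if_pos c1, if_pos c2, map_mul]
        ring
      · rw [if_neg (fun h => c2 (hc.mp h).2), if_neg c2]
        ring
    · rw [if_neg (fun h => c1 (hc.mp h).1), if_neg c1]
      ring
  rw [e1, norm_mul]
  calc ‖u‖ * _ ≤ 1 * _ := mul_le_mul_of_nonneg_right hu1 (norm_nonneg _)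
    _ ≤ _ := by rw [one_mul]; exact hV'


set_option maxHeartbeats 1000000 in
open Classical in
/-- **the moment by the values** -/
theorem moP_le_moW {Pr : Eis → Prop} {M0 : Eis} (hP : PrK Pr M0) {J : ℕ} {Zg Zk : ℝ}
    {Gf : Eis → ℝ} {al : Eis → ℂ} (hal : FS al) (hV : VG Pr J Zg Zk Gf al) {δ g' E B τ : Eis}
    (hδ : IsPrim δ) (hg' : IsPrim g') (hE : E ≠ 0) (hτ0 : τ ≠ 0) (hB : IsPrim B) {X Z : ℝ}
    (hX : 0 ≤ X) (hZ : 0 ≤ Z) (hZ1 : (nm g' : ℝ) * nm B * (X * X) ≤ Zg)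
    (hZ2 : Z * nm (E * τ * B ^ 2) * (nm δ : ℝ) ^ 3 ≤ Zk) {W : Eis → Eis → ℝ}
    (hW : ∀ g₂ g₃, 0 ≤ W g₂ g₃) {P : Eis → Eis → Eis → Prop}
    (hPp : ∀ g₂ g₃ d, P g₂ g₃ d → Pr (d * (E * τ * B ^ 2))) (t : ℝ) :
    MoP (ag al δ g') E B τ X t Z W P ≤
      (1 + |t|) ^ (2 * J) * MoW X Z W P (fun G => Gf (g' * B * G) ^ 2) := by
  unfold MoF106.MoP MoW
  rw [Finset.mul_sum]
  refine Finset.sum_le_sum fun g₂ h2 => ?_
  rw [Finset.mul_sum]
  refine Finset.sum_le_sum fun g₃ h3 => ?_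
  rw [mul_left_comm]
  refine mul_le_mul_of_nonneg_left ?_ (hW g₂ g₃)
  rw [Finset.mul_sum]
  refine Finset.sum_le_sum fun d hd => ?_
  rw [Finset.mem_filter, mem_pb hZ] at hd
  obtain ⟨⟨hdZ, hdp⟩, hdP⟩ := hd
  obtain ⟨h2X, h2p, h2s⟩ := (mem_S hX).mp h2
  obtain ⟨h3X, h3p, h3s⟩ := (mem_S hX).mp h3
  have hcs := cs_leG hP hal hV hδ hg' hE hτ0 hB (h2p.mul h3p) hdp (hPp _ _ _ hdP) (by
    rw [nm_mul, nm_mul, nm_mul g₂ g₃]
    push_cast
    calc (nm g' : ℝ) * nm B * ((nm g₂ : ℝ) * nm g₃) ≤ (nm g' : ℝ) * nm B * (X * X) := by gcongr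
      _ ≤ Zg := hZ1) (by
    rw [nm_mul, nm_mul, nm_pow]
    push_cast
    calc (nm d : ℝ) * nm (E * τ * B ^ 2) * (nm δ : ℝ) ^ 3
        ≤ Z * nm (E * τ * B ^ 2) * (nm δ : ℝ) ^ 3 := by gcongr
      _ ≤ Zk := hZ2) t
  calc ‖CS (sub (cT (ag al δ g') E B τ t) (g₂ * g₃)) d‖ ^ 2
      ≤ ((1 + |t|) ^ J * Gf (g' * B * (g₂ * g₃))) ^ 2 :=
        pow_le_pow_left₀ (norm_nonneg _) hcs 2
    _ = _ := by ring

/-! ### the sum over `a` -/

/-- the sum over `B` with the non-generic part, exponent `1` -/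
lemma sum_b1' {X : ℝ} (hX : 1 ≤ X) {D : Eis} (hD : D ≠ 0) :
    ∑ B ∈ S X, (nm (b1 D B) : ℝ) / nm B ≤ tau D * (100 * (1 + Real.log X)) := by
  classical
  have hX0 : (0 : ℝ) ≤ X := by linarith
  have h1 : ∑ B ∈ S X, (nm (b1 D B) : ℝ) / nm B =
      ∑ x ∈ (S X).image (fun B => (b1 D B, b2 D B)), (nm x.1 : ℝ) / (nm x.1 * nm x.2) := by
    rw [Finset.sum_image]
    · refine Finset.sum_congr rfl fun B hB => ?_
      obtain ⟨-, h2, h3⟩ := (mem_S hX0).mp hB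
      rw [nm_b1_b2 D h2 h3]
    · intro B hB B' hB' he
      obtain ⟨-, h2, h3⟩ := (mem_S hX0).mp (Finset.mem_coe.mp hB)
      obtain ⟨-, h2', h3'⟩ := (mem_S hX0).mp (Finset.mem_coe.mp hB')
      simp only [Prod.mk.injEq] at he
      rw [← b1_mul_b2 D h2 h3, ← b1_mul_b2 D h2' h3', he.1, he.2]
  have h2 : (S X).image (fun B => (b1 D B, b2 D B)) ⊆ dvs D ×ˢ S X := by
    intro x hx
    obtain ⟨B, hB, rfl⟩ := Finset.mem_image.mp hx
    obtain ⟨h1, h2, h3⟩ := (mem_S hX0).mp hB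
    rw [Finset.mem_product, mem_dvs hD, mem_S hX0]
    refine ⟨⟨b1_prim D B, b1_dvd D B⟩, ?_, b2_prim D B, b2_sqf D B⟩
    have h4 : (nm (b2 D B) : ℝ) ≤ nm B := by
      rw [← nm_b1_b2 D h2 h3]
      have := one_le_nm (b1_prim D B).ne_zero
      nlinarith [one_le_b2 D B]
    linarith
  rw [h1]
  refine (Finset.sum_le_sum_of_subset_of_nonneg h2 fun _ _ _ => by positivity).trans ?_
  rw [Finset.sum_product]
  have h3 : ∀ x ∈ dvs D, ∑ y ∈ S X, (nm x : ℝ) / (nm x * nm y) ≤ 100 * (1 + Real.log X) := by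
    intro x hx
    have hx1 : (1 : ℝ) ≤ nm x := one_le_nm ((mem_dvs hD).mp hx).1.ne_zero
    have e1 : ∀ y ∈ S X, (nm x : ℝ) / (nm x * nm y) ≤ 1 / (nm y : ℝ) := by
      intro y hy
      have hy1 : (1 : ℝ) ≤ nm y := one_le_nm ((mem_S hX0).mp hy).2.1.ne_zero
      rw [div_le_div_iff₀ (by positivity) (by positivity), one_mul]
    exact (Finset.sum_le_sum e1).trans (E2440.sum_inv_S hX)
  refine (Finset.sum_le_sum h3).trans (le_of_eq ?_)
  rw [Finset.sum_const, nsmul_eq_mul]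
  rfl

lemma Gv_sq_le (Ax d0 : ℝ) {a g : Eis} (ha : IsPrim a) (has : Squarefree a) (hg : IsPrim g) :
    Gv Ax d0 a g ^ 2 ≤ ((Ax / nm g) ^ 2 * Mu d0 g) * ((nm (b1 g a) : ℝ) / nm a) := by
  have h1 : (1 : ℝ) ≤ nm (b2 g a) := one_le_b2 g a
  have h2 : (1 : ℝ) ≤ nm (b1 g a) := one_le_nm (b1_prim g a).ne_zero
  have hg1 : (1 : ℝ) ≤ nm g := one_le_nm hg.ne_zero
  have h3 := nm_b1_b2 g ha has
  have h4 := Mu_mul d0 (x := g) (b2_prim g a).ne_zero
  have h5 := Mu_nonneg d0 g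
  have e1 : Gv Ax d0 a g ^ 2 = (Ax / nm (g * b2 g a)) ^ 2 * Mu d0 (g * b2 g a) := by
    unfold Gv
    rw [mul_pow, Mg_sq]
  have e2 : (nm (g * b2 g a) : ℝ) = nm g * nm (b2 g a) := by rw [nm_mul]; push_cast; rfl
  rw [e1, e2, ← h3]
  calc (Ax / (nm g * nm (b2 g a))) ^ 2 * Mu d0 (g * b2 g a)
      ≤ (Ax / (nm g * nm (b2 g a))) ^ 2 * (nm (b2 g a) * Mu d0 g) := by gcongr
    _ = _ := by field_simp

/-- **all `a` at once** -/
lemma sum_Gv (Ax d0 : ℝ) {T : ℝ} (hT : 1 ≤ T) {g : Eis} (hg : IsPrim g) :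
    ∑ a ∈ S T, Gv Ax d0 a g ^ 2 ≤
      (tau g * (100 * (1 + Real.log T))) * ((Ax / nm g) ^ 2 * Mu d0 g) := by
  have hT0 : (0 : ℝ) ≤ T := by linarith
  have h5 := Mu_nonneg d0 g
  refine (Finset.sum_le_sum fun a ha => Gv_sq_le Ax d0 ((mem_S hT0).mp ha).2.1
    ((mem_S hT0).mp ha).2.2 hg).trans ?_
  rw [← Finset.mul_sum, mul_comm]
  exact mul_le_mul_of_nonneg_right (sum_b1' hT hg.ne_zero) (by positivity)


end Crest.Agent.R017.PrD502
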