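import Crest.Agent.R017.R2N_777
import Crest.Agent.R017.PrE_176

/-!
# Row 17, R8 (exceptional class): the principal line of the near cross term (helper777)

* `PjN` : the exponent of helper176's `PJm`; `pjm_le` : `PJm ≤ 5 exp PjN`
* `prN` : the line, flat `T`-number
* `prNb` : the line, bias `T`-number (`helper994`'s `TbN`, written out)
-/

set_option autoImplicit false
set_option linter.unusedVariables false

noncomputable section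

namespace Crest.Agent.R017.PrN777

open Crest.Agent.R017.R2N777
open Crest.Agent.R017.NE73 (flK)
open Crest.Agent.R017.PrE176 (PJm)

/-- the exponent of the number of the principal part: `x = log X`, `a = log nm (e A)`,
`Mg' = e^(-σ)`, `T = e^τ` -/
def PjN (κ v x a μ ν h σ τ : ℝ) : ℝ :=
  max (-σ + 2 / 3 * κ + v / 6 - a) (max (-σ + κ - x / 3 - 2 / 3 * ν - a)
    (max (-σ + 4 / 3 * κ - 2 / 3 * x + μ / 3 - ν - a) (max ((v + κ + h) / 3 - σ / 3)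
      (τ + 2 / 3 * v + a + (μ + ν) / 3 + 2 / 3 * h))))

lemma PjN_le (κ v x a μ ν h σ τ : ℝ) :
    PjN κ v x a μ ν h σ τ = -σ + 2 / 3 * κ + v / 6 - a ∨
    PjN κ v x a μ ν h σ τ = -σ + κ - x / 3 - 2 / 3 * ν - a ∨
    PjN κ v x a μ ν h σ τ = -σ + 4 / 3 * κ - 2 / 3 * x + μ / 3 - ν - a ∨
    PjN κ v x a μ ν h σ τ = (v + κ + h) / 3 - σ / 3 ∨
    PjN κ v x a μ ν h σ τ = τ + 2 / 3 * v + a + (μ + ν) / 3 + 2 / 3 * h := by
  unfold PjN
  rcases max_choice (-σ + 2 / 3 * κ + v / 6 - a) (max (-σ + κ - x / 3 - 2 / 3 * ν - a)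
    (max (-σ + 4 / 3 * κ - 2 / 3 * x + μ / 3 - ν - a) (max ((v + κ + h) / 3 - σ / 3)
      (τ + 2 / 3 * v + a + (μ + ν) / 3 + 2 / 3 * h)))) with h1 | h1
  · exact Or.inl h1
  rw [h1]
  rcases max_choice (-σ + κ - x / 3 - 2 / 3 * ν - a)
    (max (-σ + 4 / 3 * κ - 2 / 3 * x + μ / 3 - ν - a) (max ((v + κ + h) / 3 - σ / 3)
      (τ + 2 / 3 * v + a + (μ + ν) / 3 + 2 / 3 * h))) with h2 | h2
  · exact Or.inr (Or.inl h2)
  rw [h2]
  rcases max_choice (-σ + 4 / 3 * κ - 2 / 3 * x + μ / 3 - ν - a) (max ((v + κ + h) / 3 - σ / 3)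
      (τ + 2 / 3 * v + a + (μ + ν) / 3 + 2 / 3 * h)) with h3 | h3
  · exact Or.inr (Or.inr (Or.inl h3))
  rw [h3]
  rcases max_choice ((v + κ + h) / 3 - σ / 3)
      (τ + 2 / 3 * v + a + (μ + ν) / 3 + 2 / 3 * h) with h4 | h4
  · exact Or.inr (Or.inr (Or.inr (Or.inl h4)))
  · exact Or.inr (Or.inr (Or.inr (Or.inr h4)))

/-- **`PJm` in exponents** -/
lemma pjm_exp (κ v x a μ ν h σ τ : ℝ) :
    PJm (Real.exp κ) (Real.exp v) (Real.exp x) (Real.exp a) (Real.exp μ) (Real.exp ν)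
      (Real.exp h) (Real.exp (-σ)) (Real.exp τ) ≤ 5 * Real.exp (PjN κ v x a μ ν h σ τ) := by
  unfold PrE176.PJm
  have e1 : Real.exp (-σ) * (Real.exp κ ^ ((2 : ℝ) / 3) * Real.exp v ^ ((1 : ℝ) / 6) /
      Real.exp a) ≤ Real.exp (PjN κ v x a μ ν h σ τ) := by
    rw [← Real.exp_mul, ← Real.exp_mul, ← Real.exp_add, ← Real.exp_sub, ← Real.exp_add]
    exact Real.exp_le_exp.2 (le_trans (le_of_eq (by ring)) (le_max_left _ _))
  have e2 : Real.exp (-σ) * (Real.exp κ * Real.exp x ^ (-(1 / 3) : ℝ) *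
      Real.exp ν ^ (-(2 / 3) : ℝ) / Real.exp a) ≤ Real.exp (PjN κ v x a μ ν h σ τ) := by
    rw [← Real.exp_mul, ← Real.exp_mul, ← Real.exp_add, ← Real.exp_add, ← Real.exp_sub,
      ← Real.exp_add]
    exact Real.exp_le_exp.2 (le_trans (le_of_eq (by ring))
      ((le_max_left _ _).trans (le_max_right _ _)))
  have e3 : Real.exp (-σ) * (Real.exp κ ^ ((4 : ℝ) / 3) * Real.exp x ^ (-(2 / 3) : ℝ) *
      Real.exp μ ^ ((1 : ℝ) / 3) * (Real.exp ν)⁻¹ / Real.exp a) ≤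
      Real.exp (PjN κ v x a μ ν h σ τ) := by
    rw [← Real.exp_neg, ← Real.exp_mul, ← Real.exp_mul, ← Real.exp_mul, ← Real.exp_add,
      ← Real.exp_add, ← Real.exp_add, ← Real.exp_sub, ← Real.exp_add]
    exact Real.exp_le_exp.2 (le_trans (le_of_eq (by ring))
      ((le_max_left _ _).trans ((le_max_right _ _).trans (le_max_right _ _))))
  have e4 : (Real.exp v * Real.exp κ * Real.exp h) ^ ((1 : ℝ) / 3) *
      Real.exp (-σ) ^ ((1 : ℝ) / 3) ≤ Real.exp (PjN κ v x a μ ν h σ τ) := by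
    rw [← Real.exp_add, ← Real.exp_add, ← Real.exp_mul, ← Real.exp_mul, ← Real.exp_add]
    exact Real.exp_le_exp.2 (le_trans (le_of_eq (by ring))
      ((le_max_left _ _).trans ((le_max_right _ _).trans ((le_max_right _ _).trans
        (le_max_right _ _)))))
  have e5 : Real.exp τ * (Real.exp v ^ ((2 : ℝ) / 3) * Real.exp a *
      (Real.exp μ * Real.exp ν) ^ ((1 : ℝ) / 3) * Real.exp h ^ ((2 : ℝ) / 3)) ≤
      Real.exp (PjN κ v x a μ ν h σ τ) := by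
    rw [← Real.exp_add μ, ← Real.exp_mul, ← Real.exp_mul, ← Real.exp_mul, ← Real.exp_add,
      ← Real.exp_add, ← Real.exp_add, ← Real.exp_add]
    exact Real.exp_le_exp.2 (le_trans (le_of_eq (by ring))
      ((le_max_right _ _).trans ((le_max_right _ _).trans ((le_max_right _ _).trans
        (le_max_right _ _)))))
  rw [mul_add, mul_add]
  linarith

/-- the same, for positive reals -/
lemma pjm_le {K V X a nM nν H Mg T : ℝ} (hK : 0 < K) (hV : 0 < V) (hX : 0 < X) (ha : 0 < a)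
    (hM : 0 < nM) (hν : 0 < nν) (hH : 0 < H) (hMg : 0 < Mg) (hT : 0 < T) :
    PJm K V X a nM nν H Mg T ≤ 5 * Real.exp (PjN (Real.log K) (Real.log V) (Real.log X)
      (Real.log a) (Real.log nM) (Real.log nν) (Real.log H) (-Real.log Mg) (Real.log T)) := by
  have h := pjm_exp (Real.log K) (Real.log V) (Real.log X) (Real.log a) (Real.log nM)
    (Real.log nν) (Real.log H) (-Real.log Mg) (Real.log T)
  rwa [neg_neg, Real.exp_log hK, Real.exp_log hV, Real.exp_log hX, Real.exp_log ha,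
    Real.exp_log hM, Real.exp_log hν, Real.exp_log hH, Real.exp_log hMg, Real.exp_log hT] at h

/-- **the principal line**, flat `T`-number: the room is the one of the bias premise -/
theorem prN {K n V t h d₁ ν A e v s₀ σ c₁ ρ₀ μ τ : ℝ} (hS : StN K n V t) (h00 : 0 ≤ h)
    (h1 : 3 * h ≤ max 0 (4 * n - 3 * K) + K / 200) (n0 : 0 ≤ ν) (A0 : 0 ≤ A) (A1 : A ≤ d₁)
    (D1 : 2000 * (d₁ + ν) ≤ 2000 * n - 1499 * K + t) (e0 : 0 ≤ e)
    (e1 : 9 * e ≤ max 0 (4 * n - 3 * K) + K / 100) (v0 : 0 ≤ v)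
    (hv : v + 2 * (d₁ + ν) ≤ V + t) (hc : 3 / 4 * K - c₁ ≤ n) (htop : 2 * n ≤ K + V + t)
    (hs : (V + n - K) / 3 + max 0 (n - 3 / 4 * K) + ρ₀ ≤ s₀) (hσ : s₀ - d₁ ≤ σ) (hσ0 : 0 ≤ σ)
    (c0 : 0 ≤ c₁) (c2 : 1000 * c₁ ≤ K) (r0 : 0 ≤ ρ₀) (r1 : 100 * ρ₀ ≤ K) (m0 : 0 ≤ μ)
    (m1 : 1000 * μ ≤ K) (t1 : 1000 * τ ≤ K) :
    2 * (n - d₁) + PjN K v (n - d₁) (e + A) μ ν h σ τ + (ρ₀ - c₁ - t - μ) ≤
      -v / 3 + 2 / 3 * K - e + 2 * (K + n) - ThN K n (d₁ + ν) e v - (d₁ + ν) := by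
  obtain ⟨K0, t0, tK, n5, n3, vn⟩ := hS
  have hM : (max 0 (4 * n - 3 * K) = 0 ∧ 4 * n - 3 * K ≤ 0) ∨
      (max 0 (4 * n - 3 * K) = 4 * n - 3 * K ∧ 0 ≤ 4 * n - 3 * K) := by
    rcases le_total 0 (4 * n - 3 * K) with h' | h'
    · exact Or.inr ⟨max_eq_right h', h'⟩
    · exact Or.inl ⟨max_eq_left h', h'⟩
  have hT := fl_le K (v + e) (n - (d₁ + ν) - e)
  have q1 := le_max_left 0 (n - 3 / 4 * K)
  have q2 := le_max_right 0 (n - 3 / 4 * K)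
  have hP := PjN_le K v (n - d₁) (e + A) μ ν h σ τ
  unfold ThN
  generalize max 0 (4 * n - 3 * K) = M at hM h1 e1
  generalize max 0 (n - 3 / 4 * K) = N at q1 q2 hs
  generalize flK K (v + e) (n - (d₁ + ν) - e) = T at hT
  generalize PjN K v (n - d₁) (e + A) μ ν h σ τ = P at hP
  rcases hM with ⟨rfl, hM⟩ | ⟨rfl, hM⟩ <;> rcases hT with hT | hT <;>
    rcases hP with rfl | rfl | rfl | rfl | rfl <;> linarith

/-- **the principal line**, bias `T`-number -/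
theorem prNb {K n V t h d₁ ν A e v s₀ σ c₁ ρ₀ μ τ : ℝ} (hS : StN K n V t) (h00 : 0 ≤ h)
    (h1 : 3 * h ≤ max 0 (4 * n - 3 * K) + K / 200) (n0 : 0 ≤ ν) (A0 : 0 ≤ A) (A1 : A ≤ d₁)
    (D1 : 2000 * (d₁ + ν) ≤ 2000 * n - 1499 * K + t) (e0 : 0 ≤ e)
    (e1 : 9 * e ≤ max 0 (4 * n - 3 * K) + K / 100) (v0 : 0 ≤ v)
    (hv : v + 2 * (d₁ + ν) ≤ V + t) (hc : 3 / 4 * K - c₁ ≤ n) (htop : 2 * n ≤ K + V + t)
    (hs : (V + n - K) / 3 + max 0 (n - 3 / 4 * K) + ρ₀ ≤ s₀) (hσ : s₀ - d₁ ≤ σ) (hσ0 : 0 ≤ σ)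
    (c0 : 0 ≤ c₁) (c2 : 1000 * c₁ ≤ K) (r0 : 0 ≤ ρ₀) (r1 : 100 * ρ₀ ≤ K) (m0 : 0 ≤ μ)
    (m1 : 1000 * μ ≤ K) (t1 : 1000 * τ ≤ K) :
    2 * (n - d₁) + PjN K v (n - d₁) (e + A) μ ν h σ τ + (ρ₀ - c₁ - t - μ) ≤
      -v / 3 + 2 / 3 * K - e + 2 * (K + n) - ((d₁ + ν) + 2 / 3 * K - v / 3 - (n - (d₁ + ν)) / 3 +
        (5 / 3 * (n - (d₁ + ν) - e) + 2 / 3 * (v + e) - max 0 (s₀ - ((d₁ + ν) + e)))) -
        (d₁ + ν) := by
  obtain ⟨K0, t0, tK, n5, n3, vn⟩ := hS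
  have hM : (max 0 (4 * n - 3 * K) = 0 ∧ 4 * n - 3 * K ≤ 0) ∨
      (max 0 (4 * n - 3 * K) = 4 * n - 3 * K ∧ 0 ≤ 4 * n - 3 * K) := by
    rcases le_total 0 (4 * n - 3 * K) with h' | h'
    · exact Or.inr ⟨max_eq_right h', h'⟩
    · exact Or.inl ⟨max_eq_left h', h'⟩
  have q1 := le_max_left 0 (n - 3 / 4 * K)
  have q2 := le_max_right 0 (n - 3 / 4 * K)
  have b1 := le_max_left 0 (s₀ - ((d₁ + ν) + e))
  have b2 := le_max_right 0 (s₀ - ((d₁ + ν) + e))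
  have hP := PjN_le K v (n - d₁) (e + A) μ ν h σ τ
  generalize max 0 (4 * n - 3 * K) = M at hM h1 e1
  generalize max 0 (n - 3 / 4 * K) = N at q1 q2 hs
  generalize max 0 (s₀ - ((d₁ + ν) + e)) = B at b1 b2
  generalize PjN K v (n - d₁) (e + A) μ ν h σ τ = P at hP
  rcases hM with ⟨rfl, hM⟩ | ⟨rfl, hM⟩ <;>
    rcases hP with rfl | rfl | rfl | rfl | rfl <;> linarith

end Crest.Agent.R017.PrN777
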