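import Crest.Agent.R017.ProvN_71
import Crest.Agent.R017.XPD_571
import Crest.Agent.R017.XCol_298

/-!
# Row 17, provider: `Open1` from `rawP` (helper571)

* `open1_of` : both Poisson fields from `rawP` and `colP`
* `open1_N` : class N, `colP` proved
* `brules_N` : `BRules` for class N from `rawP` alone
-/

set_option autoImplicit false

noncomputable section

namespace Crest.Agent.R017.ProvD571

open Crest.Agent.R012 Crest.Agent.R012.Eis
open Crest.Agent.R017.XG702 (Pcs BG)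
open Crest.Agent.R017.ER911
open Crest.Agent.R017.B770 Crest.Agent.R017.FE47 Crest.Agent.R017.End699
open Crest.Agent.R017.Prov71
open Crest.Agent.R017.HP842 (Pc KS sqc Kg alL)
open Crest.Agent.R017.Sup271 (NPm)

variable {Lam : Type*}

/-- field `rawP` of `XP699.Raw` -/
def RawP (π : Lam → DPar) (h : ℝ → ℝ) : Prop :=
  ∀ (κ : ℝ) (u : List ℝ) (m a E : ℝ), 0 ≤ κ → Okl u m a → κ + (u.sum + m + a) ≤ E →
    (∀ (u' : List ℝ) (m' a' l : ℝ), Shl u' u → 0 ≤ m' → m' ≤ m → 0 ≤ a' → a' ≤ a → 0 ≤ l →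
      2 * (u'.sum + m' + a') - κ ≤ l → l + (u'.sum + m' + a') ≤ 3 * (u.sum + m + a) - κ →
      BG Dq (fun lam => Sp (π lam) h) l u' (wt m' a')
        (E - (u.sum + m + a) - κ / 3 + 2 / 3 * (l + (u'.sum + m' + a')))) →
    BG Dq (fun lam l ps => RQ (fun k => k ≠ 0) h l (ps.map (Pq.pc (π lam)))) κ u (wt m a) E

/-- field `colP` of `XP699.Raw` -/
def ColP (θ : ℝ) (π : Lam → DPar) (h : ℝ → ℝ) : Prop :=
  ∀ (i : ℝ) (u : List ℝ) (m a : ℝ), 0 ≤ i → Okl u m a →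
    BG Dq (fun lam l ps => RQ (fun k => CubeFree k ∧ ¬ (π lam).NP2 k) h l
      (ps.map (Pq.pc (π lam)))) i u (wt m a) (2 * a + 2 * θ * m)

theorem open1_of {θ : ℝ} {π : Lam → DPar} (hP : ∀ lam, (π lam).OK) {h : ℝ → ℝ} {c : ℝ}
    (hpu : PU h c) (hrawP : RawP π h) (hcolP : ColP θ π h) : Open1 θ π h where
  poisC := XPD571.poisC_inst hP hpu hrawP hcolP
  poisG := XPD571.poisG_inst hP hpu hrawP hcolP

/-- class N -/
theorem open1_N {θ : ℝ} (hθ : 1 / 2 < θ) (hθ1 : θ ≤ 1) (hPF : PF Set.univ θ)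
    {π : Lam → DPar} (hP : ∀ lam, (π lam).OK) {h : ℝ → ℝ} {c : ℝ} (hpu : PU h c)
    (hN : ∀ lam, ∀ k : Eis, k ≠ 0 → NPm (π lam).n (π lam).ψ (π lam).l₂ k)
    (hrawP : RawP π h) : Open1 θ π h :=
  open1_of hP hpu hrawP (Col298.colP hθ hθ1 hPF hpu π hP hN)

/-- class N: all the base rules from `rawP` -/
theorem brules_N {θ : ℝ} (hθ : 1 / 2 < θ) (hθ1 : θ ≤ 1) (hPF : PF Set.univ θ)
    {h : ℝ → ℝ} {c : ℝ} (hpu : PU h c) {π : Lam → DPar} (hP : ∀ lam, (π lam).OK)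
    (hN : ∀ lam, ∀ k : Eis, k ≠ 0 → NPm (π lam).n (π lam).ψ (π lam).l₂ k)
    (hrawP : RawP π h) :
    BRules θ Dq (fun lam => Rp (π lam) h) (fun lam => Sp (π lam) h) :=
  brules_of hθ hθ1 hPF hpu hP (open1_N hθ hθ1 hPF hP hpu hN hrawP)

end Crest.Agent.R017.ProvD571
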