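import Crest.Agent.R017.ProvM_71
import Crest.Agent.R017.XPD_571
import Crest.Agent.R017.XCol_298
import Crest.Agent.R017.XPC_699

/-!
# Row 17, provider: class N (helper71)

* `RawPF π h` : the raw rule (P) of the provider
* `open1_N`, `brulesN` : `Open1`, `BRules` for a family without principal `k` (smooth pieces)
* `provN_71` : the bundle for class N, from `RemF` alone
-/

set_option autoImplicit false

noncomputable section

namespace Crest.Agent.R017.Prov71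

open Crest.Agent.R012 Crest.Agent.R012.Eis
open Crest.Agent.R017.XG702 (Pcs BG)
open Crest.Agent.R017.ER911
open Crest.Agent.R017.B770 Crest.Agent.R017.FE47 Crest.Agent.R017.End699

/-- the raw rule (P) -/
def RawPF {Lam : Type*} (π : Lam → DPar) (h : ℝ → ℝ) : Prop :=
  ∀ (κ : ℝ) (u : List ℝ) (m a E : ℝ), 0 ≤ κ → Okl u m a → κ + (u.sum + m + a) ≤ E →
    (∀ (u' : List ℝ) (m' a' l : ℝ), Shl u' u → 0 ≤ m' → m' ≤ m → 0 ≤ a' → a' ≤ a → 0 ≤ l →
      2 * (u'.sum + m' + a') - κ ≤ l → l + (u'.sum + m' + a') ≤ 3 * (u.sum + m + a) - κ →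
      BG Dq (XPD571.SP0 π h) l u' (wt m' a')
        (E - (u.sum + m + a) - κ / 3 + 2 / 3 * (l + (u'.sum + m' + a')))) →
    BG Dq (XPD571.RF0 π h) κ u (wt m a) E

theorem rawPF {Lam : Type*} {h : ℝ → ℝ} {c : ℝ} (hh : PU h c) {π : Lam → DPar}
    (hP : ∀ lam, (π lam).OK) : RawPF π h := XP699.rawP_699 hh π hP

/-- the open fields in class N -/
theorem open1_N {Lam : Type*} {θ : ℝ} (hθ : 1 / 2 < θ) (hθ1 : θ ≤ 1) (hPF : PF Set.univ θ)
    {h : ℝ → ℝ} {c : ℝ} (hh : PU h c) {π : Lam → DPar} (hP : ∀ lam, (π lam).OK)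
    (hN : ∀ lam, ∀ k : Eis, k ≠ 0 → Sup271.NPm (π lam).n (π lam).ψ (π lam).l₂ k) :
    Open1 θ π h where
  poisC := XPD571.poisC_inst hP hh (rawPF hh hP) (Col298.colP hθ hθ1 hPF hh π hP hN)
  poisG := XPD571.poisG_inst hP hh (rawPF hh hP) (Col298.colP hθ hθ1 hPF hh π hP hN)

/-- **`BRules`, class N** -/
theorem brulesN {Lam : Type*} {θ : ℝ} (hθ : 1 / 2 < θ) (hθ1 : θ ≤ 1) (hPF : PF Set.univ θ)
    {h : ℝ → ℝ} {c : ℝ} (hh : PU h c) {π : Lam → DPar} (hP : ∀ lam, (π lam).OK)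
    (hN : ∀ lam, ∀ k : Eis, k ≠ 0 → Sup271.NPm (π lam).n (π lam).ψ (π lam).l₂ k) :
    BRules θ Dq (fun lam => Rp (π lam) h) (fun lam => Sp (π lam) h) :=
  brules_of hθ hθ1 hPF hh hP (open1_N hθ hθ1 hPF hh hP hN)

/-- **the provider, class N** -/
theorem provN_71 {Lam : Type*} {θ : ℝ} (hθ : 7 / 8 ≤ θ) (hθ1 : θ ≤ 1) (hPF : PF Set.univ θ)
    {h : ℝ → ℝ} {c : ℝ} (hh : PU h c) {π : Lam → DPar} (hP : ∀ lam, (π lam).OK)
    (hN : ∀ lam, ∀ k : Eis, k ≠ 0 → Sup271.NPm (π lam).n (π lam).ψ (π lam).l₂ k)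
    (Hrem : RemF θ π h) :
    ProvE θ (ex Dq (fun lam => Rp (π lam) h)) (ex Dq (fun lam => Sp (π lam) h))
      (ex Dq (fun lam => S0p (π lam) h)) (ex Dq (fun lam => Rc (π lam) h))
      (ex Dq (fun lam => Bc (π lam) h)) :=
  prov_71 hθ hθ1 hPF hh hP (open1_N (by linarith) hθ1 hPF hh hP hN) Hrem

end Crest.Agent.R017.Prov71
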