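import Crest.Agent.R017.TX9_939
import Crest.Agent.R017.TPP9_320

/-!
# Row 17: exceptional two-factor theorem, the rule `PoisC` (helper939)
-/

set_option autoImplicit false

noncomputable section

open Complex MeasureTheory
open scoped ComplexConjugate ContDiff

namespace Crest.Agent.R017.TP320

open Crest.Agent.R012 Crest.Agent.R012.Eis Crest.Agent.R012.LS2 Crest.Agent.R012.Gauss880
open Crest.Agent.R012.Div277 Crest.Agent.R012.Weight600
open Crest.Agent.R012.PSer47 Crest.Agent.R017.End699 Crest.Agent.R017.FE47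
open Crest.Agent.R017.Two939 (cfa cfa_mul cfa_prim cfa_support sum_mul_le sy_cube_pp Po)
open Crest.Agent.R017.CM106 (CS TG FS)
open Crest.Agent.R017.TwoEx791 Crest.Agent.R017.TXC791

lemma sq_zero_seq (q : Eis) : sq q (0 : Eis → ℂ) = 0 := by
  funext n
  unfold sq
  simp

lemma VG_zero (L : ℝ) (q : Eis) : VG L (sq q (0 : Eis → ℂ)) = 0 := by
  rw [sq_zero_seq]
  unfold VG TG
  simp

/-- the difference vanishes at very short lengths -/
lemma dw_zero {h : ℝ → ℝ} {χ : Eis → ℂ} {l : ℤ} {R : ℝ} (hR : ∀ u, cx h u ≠ 0 → |u| ≤ R)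
    {z1 z2 : ℝ} (hz : z1 + z2 < -(2 * R)) (δ t1 t2 : ℝ) : dw h χ l z1 z2 δ t1 t2 = 0 := by
  funext n
  rw [Pi.zero_apply]
  unfold dw
  have key : ∀ y1 y2 : ℝ, y1 + y2 = z1 + z2 →
      conv (co h χ l y1 t1) (co h χ l y2 t2) n = 0 := by
    intro y1 y2 hy
    by_contra h0
    have hs := conv_co_supp hR h0
    have hp := conv_co_prim h0
    have hn := log_nm_nonneg' hp
    rw [abs_le] at hs
    linarith [hs.2]
  rw [key z1 z2 rfl, key (z1 + δ) (z2 - δ) (by ring), sub_zero]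

/-- **rule PoisC** -/
theorem poisC_ex {h : ℝ → ℝ} {c : ℝ} (hpu : PU h c) {Mo : Eis} {χ : Eis → ℂ} (hχ : HC Mo χ)
    (l : ℤ) : PoisC (wdc h χ l) (tdc h χ l) := by
  classical
  intro ε Mx hε hMx
  obtain ⟨R, hR0, hR⟩ := exists_R (cs_cx hpu.cs)
  set ε1 : ℝ := min ε 1 / 20 with hε1d
  have hmin : 0 < min ε 1 := lt_min hε one_pos
  have hε1 : 0 < ε1 := by positivity
  have hε1ε : 20 * ε1 ≤ ε := by
    have : min ε 1 ≤ ε := min_le_left _ _
    rw [hε1d]; linarith
  have hε11 : ε1 ≤ 1 := by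
    have : min ε 1 ≤ 1 := min_le_right _ _
    rw [hε1d]; linarith
  have hok := df_ok hpu hχ l hR0 hR (μ := Mx / 2) (by positivity)
  obtain ⟨Cp, r, hCp, hr, hP⟩ := P_rule hok hε1
  obtain ⟨Cg, hCg, hG⟩ := VG_dw_le hpu.cs hε1
  obtain ⟨Cd, hCd, hD⟩ := VC_dw_le hpu hε1
  set ρ : ℝ := R + r + 1 with hρd
  have hρ0 : 0 ≤ ρ := by positivity
  have heρ : 1 ≤ Real.exp ρ := Real.one_le_exp hρ0
  have her : 1 ≤ Real.exp r := Real.one_le_exp hr
  -- the size of the moduli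
  set Q1 : ℝ := Cd * Real.exp ρ with hQ1
  set Q2 : ℝ := Cp * (Q1 * 9) with hQ2
  have hQ11 : 1 ≤ Q1 := one_le_mul_of_one_le_of_one_le hCd heρ
  have hQ21 : 1 ≤ Q2 := one_le_mul_of_one_le_of_one_le hCp (by linarith)
  set CL : ℝ := Cp * 3 * Real.exp (4 * r + 2 * R) * Q2 with hCL
  set Ca : ℝ := Cg * Q2 * Cp * 3 * Real.exp r with hCa
  set Cf : ℝ := Q1 * Cp * 3 * Ca with hCf
  have hCL1 : 1 ≤ CL := by
    have : 1 ≤ Real.exp (4 * r + 2 * R) := Real.one_le_exp (by positivity)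
    exact one_le_mul_of_one_le_of_one_le (one_le_mul_of_one_le_of_one_le (by linarith) this) hQ21
  have hCa1 : 1 ≤ Ca := one_le_mul_of_one_le_of_one_le (by
    have : 1 ≤ Cg * Q2 * Cp := one_le_mul_of_one_le_of_one_le
      (one_le_mul_of_one_le_of_one_le hCg hQ21) hCp
    linarith) her
  have hCf1 : 1 ≤ Cf := one_le_mul_of_one_le_of_one_le (by
    have : 1 ≤ Q1 * Cp := one_le_mul_of_one_le_of_one_le hQ11 hCp
    linarith) hCa1
  set C : ℝ := CL + Cf + Real.exp (2 * r) + 3 with hCd'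
  have he2r : 0 < Real.exp (2 * r) := Real.exp_pos _
  have hC : 1 ≤ C := by rw [hCd']; linarith
  have hC0 : 0 < C := by linarith
  refine ⟨C, 0, hC, le_rfl, ?_⟩
  intro o K q t1 t2 B hK hq hB H
  rw [Real.rpow_zero, mul_one]
  have hK0 : 0 < K := by linarith
  have hN := hq.N_pos
  have hsz := hq.one_le_sz
  set X := K * q.sz with hXd
  have hX : 1 ≤ X := one_le_mul_of_one_le_of_one_le hK hsz
  have hX0 : 0 < X := by linarith
  have hKX : K ≤ X := le_mul_of_one_le_right hK0.le hsz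
  have hszX : q.sz ≤ X := le_mul_of_one_le_left (by linarith) hK
  have hNX : q.N ≤ X := (N_le_sz hq).trans hszX
  set X0 := 3 * X with hX0d
  have hX03 : 3 ≤ X0 := by rw [hX0d]; linarith
  have hX01 : 1 ≤ X0 := by linarith
  have hX00 : 0 < X0 := by linarith
  set E := X ^ ε1 with hE
  have hE1 : 1 ≤ E := Real.one_le_rpow hX hε1.le
  have hEX : E ≤ X := by
    calc E ≤ X ^ (1 : ℝ) := Real.rpow_le_rpow_of_exponent_le hX hε11
      _ = X := Real.rpow_one X
  have hE0 : 0 < E := by linarith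
  have hX0E : X0 ^ ε1 ≤ 3 * E := by
    rw [hX0d, Real.mul_rpow (by norm_num) hX0.le]
    have : (3 : ℝ) ^ ε1 ≤ 3 := by
      calc (3 : ℝ) ^ ε1 ≤ 3 ^ (1 : ℝ) := Real.rpow_le_rpow_of_exponent_le (by norm_num) hε11
        _ = 3 := Real.rpow_one 3
    gcongr
  have hX0E1 : 1 ≤ X0 ^ ε1 := Real.one_le_rpow hX01 hε1.le
  have hEn : ∀ n : ℕ, (n : ℝ) ≤ 20 → E ^ n ≤ X ^ ε := by
    intro n hn
    rw [hE, ← Real.rpow_natCast, ← Real.rpow_mul hX0.le]
    apply Real.rpow_le_rpow_of_exponent_le hX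
    nlinarith
  have hEε : E ≤ X ^ ε := by simpa using hEn 1 (by norm_num)
  have hXε1 : 1 ≤ X ^ ε := hE1.trans hEε
  set z1 := Real.log q.Y1 with hz1
  set z2 := Real.log q.Y2 with hz2
  set δ := dltP ρ o q with hδ
  have hezz : Real.exp (z1 + z2) = q.N := by
    rw [Real.exp_add, hz1, hz2, Real.exp_log hq.Y1, Real.exp_log hq.Y2]; rfl
  have hlogN : z1 + z2 = Real.log q.N := by rw [← hezz, Real.log_exp]
  have hW : Real.exp (z1 + z2 + |δ|) ≤ Real.exp ρ * X ^ 2 := by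
    refine (exp_dltP_le hρ0 o hq).trans ?_
    gcongr
  -- the constant of the hypothesis of (P)
  set a : ℝ := Ca * E ^ 6 * (q.N / K * B) with ha
  have ha0 : 0 ≤ a := by positivity
  -- squarefree sides
  have hside : ∀ a1 a2 : Eis, IsPrim a1 → IsPrim a2 →
      (nm (a1 * a2) : ℝ) ≤ Cd * Real.exp (z1 + z2 + |δ|) →
      VC K (sq (a1 * a2) (dw h χ l (z1 - Real.log (nm a1)) (z2 - Real.log (nm a2)) δ t1 t2)) ≤
        (Cp * X0 ^ ε1 * (K + K * a)) * (Real.exp (z1 + z2) / nm (a1 * a2)) := by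
    intro a1 a2 ha1 ha2 hle
    have hn1 := one_le_nm' ha1
    have hn2 := one_le_nm' ha2
    have hl1 := log_nm_nonneg' ha1
    have hl2 := log_nm_nonneg' ha2
    have hnn : (nm (a1 * a2) : ℝ) = nm a1 * nm a2 := by rw [nm_mul]; push_cast; rfl
    have hnle : (nm (a1 * a2) : ℝ) ≤ Q1 * X ^ 2 := by
      refine hle.trans ?_
      rw [hQ1]
      calc Cd * Real.exp (z1 + z2 + |δ|) ≤ Cd * (Real.exp ρ * X ^ 2) := by gcongr
        _ = _ := by ring
    set j : DI := ⟨z1 - Real.log (nm a1), z2 - Real.log (nm a2), δ, 0, 0, t1, t2⟩ with hj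
    have hlen : (df h χ l (Mx / 2)).len j = z1 + z2 - Real.log (nm (a1 * a2)) := by
      show (z1 - Real.log (nm a1)) + (z2 - Real.log (nm a2)) = _
      rw [hnn, Real.log_mul (by linarith) (by linarith)]; ring
    have helen : Real.exp ((df h χ l (Mx / 2)).len j) = Real.exp (z1 + z2) / nm (a1 * a2) := by
      rw [hlen, Real.exp_sub, Real.exp_log]
      rw [hnn]; nlinarith
    have hht : (df h χ l (Mx / 2)).ht j = 1 := by
      show (1 + |(0 : ℝ)|) ^ (Mx / 2) * (1 + |(0 : ℝ)|) ^ (Mx / 2) = 1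
      simp
    have hwj : (df h χ l (Mx / 2)).w j =
        dw h χ l (z1 - Real.log (nm a1)) (z2 - Real.log (nm a2)) δ t1 t2 := by
      show dw h χ l (z1 - Real.log (nm a1)) (z2 - Real.log (nm a2)) δ (t1 + 0) (t2 + 0) = _
      rw [add_zero, add_zero]
    have hnm1 : (1 : ℝ) ≤ nm (a1 * a2) := by rw [hnn]; nlinarith
    have key := hP X0 K a hX03 hK (by rw [hX0d]; linarith) ha0 j (by
      rw [helen, hezz]
      calc q.N / nm (a1 * a2) ≤ q.N := div_le_self hN.le hnm1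
        _ ≤ X0 := by rw [hX0d]; linarith) (a1 * a2) (ha1.mul ha2) ?_
    · rw [hwj, hht, helen] at key
      refine key.trans (le_of_eq ?_)
      ring
    -- the hypothesis of (P)
    intro j' q' n1 φ _ hdom hφ hn1' hlen' hlen'' hq'p hdvd hq'le hKn
    obtain ⟨d1, d2, d3, d4, d5⟩ := hdom
    have hwj' : (df h χ l (Mx / 2)).w j' =
        dw h χ l j'.z1 j'.z2 δ (t1 + j'.s1) (t2 + j'.s2) := by
      show dw h χ l j'.z1 j'.z2 j'.δ (j'.t1 + j'.s1) (j'.t2 + j'.s2) = _
      rw [d3, d4, d5]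
    have hhtj' : (df h χ l (Mx / 2)).ht j' ^ 2 = ((1 + |j'.s1|) * (1 + |j'.s2|)) ^ Mx := by
      show ((1 + |j'.s1|) ^ (Mx / 2) * (1 + |j'.s2|) ^ (Mx / 2)) ^ 2 = _
      have h1 : 0 ≤ 1 + |j'.s1| := by positivity
      have h2 : 0 ≤ 1 + |j'.s2| := by positivity
      rw [← Real.mul_rpow h1 h2, ← Real.rpow_natCast, ← Real.rpow_mul (by positivity)]
      congr 1; push_cast; ring
    set T := ((1 + |j'.s1|) * (1 + |j'.s2|)) ^ Mx with hT
    have hT0 : 0 ≤ T := by positivity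
    rw [hwj', hhtj']
    have hlj' : (df h χ l (Mx / 2)).len j' = j'.z1 + j'.z2 := rfl
    rw [hlj'] at hlen' hlen'' ⊢
    rw [hlen] at hn1'
    by_cases hshort : j'.z1 + j'.z2 < -(2 * R)
    · rw [dw_zero hR hshort, VG_zero]
      positivity
    have hlong : -(2 * R) ≤ j'.z1 + j'.z2 := not_lt.mp hshort
    have hlognm : 0 ≤ Real.log (nm (a1 * a2)) := Real.log_nonneg hnm1
    have hn1z : n1 ≤ z1 + z2 + r := by linarith
    have hφle : φ ≤ z1 + z2 + 2 * r + 2 * R := by linarith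
    set Λ := Cp * X0 ^ ε1 * Real.exp (φ + 2 * n1) / K with hΛ
    have hq'X : (nm q' : ℝ) ≤ Q2 * X ^ 4 := by
      refine hq'le.trans ?_
      rw [hQ2]
      calc Cp * nm (a1 * a2) * X0 ^ 2 ≤ Cp * (Q1 * X ^ 2) * X0 ^ 2 := by gcongr
        _ = _ := by rw [hX0d]; ring
    have hΛ1 : 1 ≤ Λ := by
      rw [hΛ, le_div_iff₀ hK0, one_mul]
      calc K ≤ Cp * Real.exp (2 * n1) := hKn
        _ = Cp * 1 * (1 * Real.exp (2 * n1)) := by ring
        _ ≤ Cp * X0 ^ ε1 * (Real.exp φ * Real.exp (2 * n1)) := by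
            have := Real.one_le_exp hφ
            gcongr
        _ = _ := by rw [← Real.exp_add]
    have hΛ0 : 0 < Λ := by linarith
    set Bd : ℝ := Λ * Real.exp (j'.z1 + j'.z2 + (z1 + z2 - n1 + r)) * (B * T) with hBd
    have hBd0 : 0 ≤ Bd := by positivity
    have hVG := hG hχ l Λ j'.z1 j'.z2 δ (t1 + j'.s1) (t2 + j'.s2) Bd hΛ0 hBd0 q' hq'p.ne_zero ?_
    · refine hVG.trans ?_
      have e1 : (nm q' : ℝ) ^ ε1 ≤ Q2 * E ^ 4 := by
        have hq'0 : (0 : ℝ) ≤ nm q' := by positivity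
        calc (nm q' : ℝ) ^ ε1 ≤ (Q2 * X ^ 4) ^ ε1 := by gcongr
          _ = Q2 ^ ε1 * (X ^ 4) ^ ε1 := Real.mul_rpow (by positivity) (by positivity)
          _ ≤ Q2 ^ (1 : ℝ) * E ^ 4 := by
              have h1 := Real.rpow_le_rpow_of_exponent_le hQ21 hε11
              have h2 : (X ^ 4) ^ ε1 = E ^ 4 := by
                rw [hE, ← Real.rpow_natCast, ← Real.rpow_natCast, ← Real.rpow_mul hX0.le,
                  ← Real.rpow_mul hX0.le, mul_comm]
              rw [h2]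
              gcongr
          _ = _ := by rw [Real.rpow_one]
      have e2 : Bd ≤ (Cp * (3 * E) * Real.exp r) * (q.N / K * B) *
          (Real.exp (φ + n1 + (j'.z1 + j'.z2)) * T) := by
        rw [hBd, hΛ]
        have e3 : Real.exp (φ + 2 * n1) * Real.exp (j'.z1 + j'.z2 + (z1 + z2 - n1 + r)) =
            Real.exp r * q.N * Real.exp (φ + n1 + (j'.z1 + j'.z2)) := by
          rw [← hezz, ← Real.exp_add, ← Real.exp_add, ← Real.exp_add]
          congr 1; ring
        calc Cp * X0 ^ ε1 * Real.exp (φ + 2 * n1) / K *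
              Real.exp (j'.z1 + j'.z2 + (z1 + z2 - n1 + r)) * (B * T) =
              Cp * X0 ^ ε1 * (Real.exp (φ + 2 * n1) *
                Real.exp (j'.z1 + j'.z2 + (z1 + z2 - n1 + r))) / K * (B * T) := by ring
          _ = Cp * X0 ^ ε1 * (Real.exp r * q.N * Real.exp (φ + n1 + (j'.z1 + j'.z2))) / K *
                (B * T) := by rw [e3]
          _ ≤ Cp * (3 * E) * (Real.exp r * q.N * Real.exp (φ + n1 + (j'.z1 + j'.z2))) / K *
                (B * T) := by gcongr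
          _ = _ := by ring
      calc Cg * (nm q' : ℝ) ^ ε1 * Bd ≤ Cg * (Q2 * E ^ 4) *
            ((Cp * (3 * E) * Real.exp r) * (q.N / K * B) *
              (Real.exp (φ + n1 + (j'.z1 + j'.z2)) * T)) := by gcongr
        _ = Ca * E ^ 5 * (q.N / K * B) * (Real.exp (φ + n1 + (j'.z1 + j'.z2)) * T) := by
            rw [hCa]; ring
        _ ≤ Ca * E ^ 6 * (q.N / K * B) * (Real.exp (φ + n1 + (j'.z1 + j'.z2)) * T) := by
            have : E ^ 5 ≤ E ^ 6 := pow_le_pow_right₀ hE1 (by norm_num)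
            gcongr
        _ = _ := by rw [ha]; ring
    -- the hypothesis of (F)
    intro b1 b2 hb1 hb2 hbd
    have hm1 := one_le_nm' hb1
    have hm2 := one_le_nm' hb2
    have hm1' := log_nm_nonneg' hb1
    have hm2' := log_nm_nonneg' hb2
    have hmm : (nm (b1 * b2) : ℝ) = nm b1 * nm b2 := by rw [nm_mul]; push_cast; rfl
    have hmm1 : (1 : ℝ) ≤ nm (b1 * b2) := by rw [hmm]; nlinarith
    have hmle : (nm (b1 * b2) : ℝ) ≤ nm q' := by
      obtain ⟨w, hw⟩ := hbd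
      have hw0 : w ≠ 0 := by
        rintro rfl
        rw [mul_zero] at hw
        exact hq'p.ne_zero hw
      have : nm (b1 * b2) ≤ nm q' := by
        rw [hw, nm_mul (b1 * b2) w]
        exact Nat.le_mul_of_pos_right _ (nm_pos.mpr hw0)
      exact_mod_cast this
    set A := (nm (b1 * b2) : ℝ) with hA
    have hA0 : 0 < A := by linarith
    set ζ1 := j'.z1 - Real.log (nm b1) - z1 with hζ1
    set ζ2 := j'.z2 - Real.log (nm b2) - z2 with hζ2
    have hjz1 : j'.z1 ≤ z1 - Real.log (nm a1) + r := d1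
    have hjz2 : j'.z2 ≤ z2 - Real.log (nm a2) + r := d2
    have hζ1r : ζ1 ≤ r := by rw [hζ1]; linarith
    have hζ2r : ζ2 ≤ r := by rw [hζ2]; linarith
    have hlogA : Real.log A = Real.log (nm b1) + Real.log (nm b2) := by
      rw [hmm, Real.log_mul (by linarith) (by linarith)]
    have hζζ : ζ1 + ζ2 = j'.z1 + j'.z2 - Real.log A - (z1 + z2) := by
      rw [hlogA, hζ1, hζ2]; ring
    have e1 : j'.z1 - Real.log (nm b1) = Real.log q.Y1 + ζ1 := by rw [hζ1]; ring
    have e2 : j'.z2 - Real.log (nm b2) = Real.log q.Y2 + ζ2 := by rw [hζ2]; ring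
    have hLpos : 0 < Λ * A := by positivity
    have hUD := UD_sc12 (h := h) (χ := χ) (l := l) hR o hLpos hq
      (ζ1 := ζ1) (ρ := ρ) (by rw [hρd]; linarith) ζ2 (t1 + j'.s1) (t2 + j'.s2)
    rw [e1, e2]
    have hgoal : ∑ k ∈ bl (Λ * A), ‖DG h χ l k (Real.log q.Y1 + ζ1) (Real.log q.Y2 + ζ2)
        δ (t1 + j'.s1) (t2 + j'.s2)‖ ^ 2 = UD h χ l (Λ * A) (Real.log q.Y1 + ζ1)
        (Real.log q.Y2 + ζ2) (dltP ρ o q) (t1 + j'.s1) (t2 + j'.s2) := rfl
    rw [hgoal, hUD]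
    -- apply the hypothesis of the rule
    set D : ℝ := Real.exp (z1 + z2 - n1 + r) with hDd
    set F : ℝ := A * Real.exp φ with hFd
    have hD1 : 1 ≤ D := Real.one_le_exp (by linarith)
    have hF1 : 1 ≤ F := one_le_mul_of_one_le_of_one_le hmm1 (Real.one_le_exp hφ)
    have hDF : Real.exp (ζ1 + ζ2) * (D * F) =
        Real.exp (j'.z1 + j'.z2 - n1 + φ + r) := by
      rw [hζζ, hDd, hFd]
      have : A = Real.exp (Real.log A) := (Real.exp_log hA0).symm
      nth_rewrite 2 [this]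
      rw [← Real.exp_add, ← Real.exp_add, ← Real.exp_add]
      congr 1; ring
    have hCE : X0 ^ ε1 ≤ C * X ^ ε := by
      calc X0 ^ ε1 ≤ 3 * E := hX0E
        _ ≤ C * X ^ ε := by
            have : 3 ≤ C := by rw [hCd']; linarith
            gcongr
    have hCr : Real.exp (2 * r) ≤ C * X ^ ε := by
      calc Real.exp (2 * r) ≤ C := by rw [hCd']; linarith
        _ ≤ C * X ^ ε := le_mul_of_one_le_right hC0.le hXε1
    have hsub : Qd.Sub (C * X ^ ε) (D * F) q (sc1 (Real.exp ζ1) (sc2 (Real.exp ζ2) q)) := by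
      apply sub_sc12 hq
      · exact le_trans (Real.exp_le_exp.2 (by linarith)) hCr
      · exact le_trans (Real.exp_le_exp.2 (by linarith)) hCr
      · rw [hDF]
        exact le_trans (Real.exp_le_exp.2 (by linarith)) hCr
      · rw [hDF]
        have h1 : Real.exp (-(ε1 * Real.log X0)) ≤ Real.exp (j'.z1 + j'.z2 - n1 + φ + r) :=
          Real.exp_le_exp.2 (by linarith)
        have h2 : Real.exp (-(ε1 * Real.log X0)) = (X0 ^ ε1)⁻¹ := by
          rw [Real.rpow_def_of_pos hX00, ← Real.exp_neg, mul_comm]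
        rw [h2] at h1
        have h3 : 0 < X0 ^ ε1 := by linarith
        calc (1 : ℝ) = X0 ^ ε1 * (X0 ^ ε1)⁻¹ := (mul_inv_cancel₀ h3.ne').symm
          _ ≤ (C * X ^ ε) * Real.exp (j'.z1 + j'.z2 - n1 + φ + r) := by gcongr
    have hLle : Λ * A ≤ C * X ^ 20 := by
      have h1 : Λ ≤ Cp * (3 * E) * Real.exp (4 * r + 2 * R) * X ^ 3 := by
        rw [hΛ]
        have h2 : Real.exp (φ + 2 * n1) ≤ Real.exp (4 * r + 2 * R) * X ^ 3 := by
          calc Real.exp (φ + 2 * n1) ≤ Real.exp ((4 * r + 2 * R) + (z1 + z2) + (z1 + z2)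
                + (z1 + z2)) := Real.exp_le_exp.2 (by linarith)
            _ = Real.exp (4 * r + 2 * R) * q.N ^ 3 := by
                rw [Real.exp_add, Real.exp_add, Real.exp_add, hezz]; ring
            _ ≤ _ := by gcongr
        calc Cp * X0 ^ ε1 * Real.exp (φ + 2 * n1) / K ≤
              Cp * X0 ^ ε1 * Real.exp (φ + 2 * n1) := div_le_self (by positivity) hK
          _ ≤ Cp * (3 * E) * (Real.exp (4 * r + 2 * R) * X ^ 3) := by gcongr
          _ = _ := by ring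
      calc Λ * A ≤ (Cp * (3 * E) * Real.exp (4 * r + 2 * R) * X ^ 3) * (Q2 * X ^ 4) := by
            have := hmle.trans hq'X
            gcongr
        _ = CL * (E * X ^ 7) := by rw [hCL]; ring
        _ ≤ CL * (X * X ^ 7) := by gcongr
        _ = CL * X ^ 8 := by ring
        _ ≤ C * X ^ 20 := by
            have h2 : CL ≤ C := by rw [hCd']; linarith
            have h3 : X ^ 8 ≤ X ^ 20 := pow_le_pow_right₀ hX (by norm_num)
            gcongr
    have hΛA1 : 1 ≤ Λ * A := one_le_mul_of_one_le_of_one_le hΛ1 hmm1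
    have hcond : F * 1 ^ 3 * q.N ^ 2 ≤ C * X ^ ε * (D ^ 2 * K * (Λ * A)) := by
      have h1 : D ^ 2 * K * (Λ * A) =
          (Cp * X0 ^ ε1 * Real.exp (2 * r)) * (F * q.N ^ 2) := by
        rw [hDd, hΛ, hFd, ← hezz]
        have h2 : Real.exp (z1 + z2 - n1 + r) ^ 2 * Real.exp (φ + 2 * n1) =
            Real.exp (2 * r) * Real.exp φ * Real.exp (z1 + z2) ^ 2 := by
          rw [← Real.exp_nat_mul, ← Real.exp_nat_mul, ← Real.exp_add, ← Real.exp_add,
            ← Real.exp_add]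
          congr 1; push_cast; ring
        calc Real.exp (z1 + z2 - n1 + r) ^ 2 * K *
              (Cp * X0 ^ ε1 * Real.exp (φ + 2 * n1) / K * A) =
              (Real.exp (z1 + z2 - n1 + r) ^ 2 * Real.exp (φ + 2 * n1)) *
                (Cp * X0 ^ ε1 * A) := by field_simp
          _ = _ := by rw [h2]; ring
      rw [h1]
      have h3 : 1 ≤ Real.exp (2 * r) := Real.one_le_exp (by positivity)
      have h4 : 1 ≤ C * X ^ ε * (Cp * X0 ^ ε1 * Real.exp (2 * r)) :=
        one_le_mul_of_one_le_of_one_le (one_le_mul_of_one_le_of_one_le hC hXε1)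
          (one_le_mul_of_one_le_of_one_le (one_le_mul_of_one_le_of_one_le hCp hX0E1) h3)
      calc F * 1 ^ 3 * q.N ^ 2 = 1 * (F * q.N ^ 2) := by ring
        _ ≤ (C * X ^ ε * (Cp * X0 ^ ε1 * Real.exp (2 * r))) * (F * q.N ^ 2) := by gcongr
        _ = _ := by ring
    have happ := H D 1 F (Λ * A) (sc1 (Real.exp ζ1) (sc2 (Real.exp ζ2) q)) j'.s1 j'.s2 le_rfl
      hD1 hF1 hsub hΛA1 hLle hcond
    have hD0 : 0 < D := by linarith
    have htd : tdc h χ l o (Λ * A) (sc1 (Real.exp ζ1) (sc2 (Real.exp ζ2) q))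
        (t1 + j'.s1) (t2 + j'.s2) ≤ D * (B * T) := by
      have : 1 / D * tdc h χ l o (Λ * A) (sc1 (Real.exp ζ1) (sc2 (Real.exp ζ2) q))
        (t1 + j'.s1) (t2 + j'.s2) ≤ B * T := happ
      rw [one_div, inv_mul_le_iff₀ hD0] at this
      exact this
    have h5 : A * (Real.exp (ζ1 + ζ2) * q.N) = Real.exp (j'.z1 + j'.z2) := by
      rw [← hezz, hζζ]
      have : A = Real.exp (Real.log A) := (Real.exp_log hA0).symm
      nth_rewrite 1 [this]
      rw [← Real.exp_add, ← Real.exp_add]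
      congr 1; ring
    calc Λ * A * (Real.exp (ζ1 + ζ2) * q.N) *
          tdc h χ l o (Λ * A) (sc1 (Real.exp ζ1) (sc2 (Real.exp ζ2) q))
            (t1 + j'.s1) (t2 + j'.s2) ≤
          Λ * A * (Real.exp (ζ1 + ζ2) * q.N) * (D * (B * T)) := by gcongr
      _ = Λ * (A * (Real.exp (ζ1 + ζ2) * q.N)) * D * (B * T) := by ring
      _ = Λ * Real.exp (j'.z1 + j'.z2) * D * (B * T) := by rw [h5]
      _ = Bd := by rw [hBd, hDd, Real.exp_add (j'.z1 + j'.z2)]; ring
  -- assembly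
  have hfull := hD Mo χ hχ l K z1 z2 δ t1 t2 (Cp * X0 ^ ε1 * (K + K * a)) (by positivity) hside
  rw [hz1, hz2, hδ, VC_dw_eq hpu.cs hR o hK0 hq (by rw [hρd]; linarith), ← hz1, ← hz2, ← hδ,
    hezz] at hfull
  have hKN : 0 < K * q.N := by positivity
  have hWE : Real.exp (z1 + z2 + |δ|) ^ ε1 ≤ Real.exp ρ * E ^ 2 := by
    calc Real.exp (z1 + z2 + |δ|) ^ ε1 ≤ (Real.exp ρ * X ^ 2) ^ ε1 := by
          apply Real.rpow_le_rpow (Real.exp_pos _).le hW hε1.le
      _ = Real.exp ρ ^ ε1 * (X ^ 2) ^ ε1 := Real.mul_rpow (by positivity) (by positivity)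
      _ ≤ Real.exp ρ ^ (1 : ℝ) * E ^ 2 := by
          have h1 := Real.rpow_le_rpow_of_exponent_le heρ hε11
          have h2 : (X ^ 2) ^ ε1 = E ^ 2 := by
            rw [hE, ← Real.rpow_natCast, ← Real.rpow_natCast, ← Real.rpow_mul hX0.le,
              ← Real.rpow_mul hX0.le, mul_comm]
          rw [h2]
          gcongr
      _ = _ := by rw [Real.rpow_one]
  have hfin : K * q.N * wdc h χ l o K q t1 t2 ≤
      K * q.N * (C * X ^ ε * (1 + q.N / K * B)) := by
    have h0 : 0 ≤ q.N / K * B := by positivity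
    calc K * q.N * wdc h χ l o K q t1 t2 ≤ _ := hfull
      _ ≤ Cd * (Real.exp ρ * E ^ 2) * (Cp * (3 * E) * (K + K * a) * q.N) := by gcongr
      _ = K * q.N * (Q1 * Cp * 3 * E ^ 3 * (1 + a)) := by rw [hQ1]; ring
      _ ≤ K * q.N * (Q1 * Cp * 3 * E ^ 3 * (Ca * E ^ 6 * (1 + q.N / K * B))) := by
          have h1 : 1 + a ≤ Ca * E ^ 6 * (1 + q.N / K * B) := by
            rw [ha]
            have : 1 ≤ Ca * E ^ 6 := one_le_mul_of_one_le_of_one_le hCa1 (one_le_pow₀ hE1)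
            nlinarith
          gcongr
      _ = K * q.N * (Cf * E ^ 9 * (1 + q.N / K * B)) := by rw [hCf]; ring
      _ ≤ K * q.N * (C * X ^ ε * (1 + q.N / K * B)) := by
          have h1 : Cf ≤ C := by rw [hCd']; linarith
          have h2 := hEn 9 (by norm_num)
          gcongr
  exact le_of_mul_le_mul_left hfin hKN

end Crest.Agent.R017.TP320
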