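import Crest.Agent.R017.TXG1_411

/-!
# Row 17: exceptional two-factor theorem, `PoisG` (2): the rule (helper411)

* `VC_gen` : the second moment of `dw` over all `k`
* `sub_of` : the sub-shapes
* `poisG`  : `PoisG (Wn h M χ l) (tdc h χ l)`
-/

set_option autoImplicit false

noncomputable section

open Complex MeasureTheory Filter Topology
open scoped ContDiff ComplexConjugate

namespace Crest.Agent.R017.TXG411

open Crest.Agent.R012 Crest.Agent.R012.Eis Crest.Agent.R012.LS2 Crest.Agent.R012.Gauss880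
open Crest.Agent.R012.Weight600 (osc norm_osc ker)
open Crest.Agent.R012.PSer47 Crest.Agent.R012.Div277
open Crest.Agent.R017.End699 Crest.Agent.R017.FE47
open Crest.Agent.R017.Two939 (Wn Wd W2 T2 Td Df TDf Po cfo cfa)
open Crest.Agent.R017.Sup271 (NPm)
open Crest.Agent.R017.TP320 (conv VC VG dw co df DG TGo DI)
open Crest.Agent.R017.CM106 (CS TG)
open Crest.Agent.R017.TXE411 (CubeB CubeN bp w2o D2)
open Crest.Agent.R017.TXC791 (wdc tdc PoisG)
open Crest.Agent.R017.TwoEx791 (Qd)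

/-- the second moment of the family over all `k` -/
theorem VC_gen {h : ℝ → ℝ} {c : ℝ} (hpu : PU h c) {M : Eis} {χ : Eis → ℂ} (hχ : HC M χ) (l : ℤ)
    {R : ℝ} (hR : ∀ u, cx h u ≠ 0 → |u| ≤ R) {ε : ℝ} (hε : 0 < ε) :
    ∃ C J : ℝ, 1 ≤ C ∧ 0 ≤ J ∧ ∀ (o : Bool) (K z1 z2 δ t1 t2 B : ℝ) (p : Qd), 1 ≤ K → 0 ≤ B →
      p.Ok → p.Y1 = Real.exp z1 → p.Y2 = Real.exp z2 →
      (o = true → p.Z1 = Real.exp (z1 + δ) ∧ p.Z2 = Real.exp (z2 - δ)) →
      (o = false → z1 + δ < -R) → ∀ q : Eis, q ≠ 0 →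
      (∀ a1 a2 : Eis, IsPrim a1 → IsPrim a2 →
        Wn h M χ l K (p.Y1 / nm a1) (p.Y2 / nm a2) t1 t2 ≤ B ∧
        (o = true → Wn h M χ l K (p.Z1 / nm a1) (p.Z2 / nm a2) t1 t2 ≤ B)) →
      VC K (TP320.sq q (dw h χ l z1 z2 δ t1 t2)) ≤ C * (K * nm q * p.sz) ^ ε *
        (B + ((1 + |t1|) * (1 + |t2|)) ^ J * K ^ (-(2 / 3) : ℝ) * Qd.pl o p) * (K * p.N) := by
  obtain ⟨C1, J, hC1, hJ, h1⟩ := TXE411.VC_D2_le hpu hχ l (cubeB hpu hχ l) (cubeN hχ l) hε
  obtain ⟨C2, hC2, h2⟩ := TXE411.VC_w2o_le hpu hχ l (cubeN hχ l) hε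
  refine ⟨C1 * C2, J, one_le_mul_of_one_le_of_one_le hC1 hC2, hJ, ?_⟩
  intro o K z1 z2 δ t1 t2 B p hK hB hp e1 e2 e3 e4 q hq hyp
  have hK0 : 0 < K := by linarith
  have hq1 : (1 : ℝ) ≤ nm q := by exact_mod_cast nm_pos.mpr hq
  have hN := hp.N_pos
  have hpl := hp.pl_pos o
  have hsz := hp.one_le_sz
  have hT1 : 1 ≤ (1 + |t1|) * (1 + |t2|) :=
    one_le_mul_of_one_le_of_one_le (by linarith [abs_nonneg t1]) (by linarith [abs_nonneg t2])
  have hTJ : 1 ≤ ((1 + |t1|) * (1 + |t2|)) ^ J := Real.one_le_rpow hT1 hJ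
  have hnn : 0 ≤ (K * nm q * p.sz) ^ ε *
      (B + ((1 + |t1|) * (1 + |t2|)) ^ J * K ^ (-(2 / 3) : ℝ) * Qd.pl o p) * (K * p.N) := by
    positivity
  cases o
  · rw [dw_w2o hR (e4 rfl), ← e1, ← e2]
    have h3 := h2 K p.Y1 p.Y2 t1 t2 B hK hp.Y1 hp.Y2 hB q hq fun a1 a2 g1 g2 => (hyp a1 a2 g1 g2).1
    refine h3.trans ?_
    have k1 : ((nm q : ℝ) * ((1 + p.Y1) * (1 + p.Y2))) ^ ε ≤ (K * nm q * p.sz) ^ ε := by
      refine Real.rpow_le_rpow ?_ ?_ hε.le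
      · have := hp.Y1; have := hp.Y2; positivity
      · have g1 := hp.Y1; have g2 := hp.Y2; have g3 := hp.Z1; have g4 := hp.Z2
        have hz : (1 + p.Y1) * (1 + p.Y2) ≤ p.sz := by
          unfold Qd.sz
          have : 1 ≤ (1 + p.Z1) * (1 + p.Z2) :=
            one_le_mul_of_one_le_of_one_le (by linarith) (by linarith)
          exact le_mul_of_one_le_right (by positivity) this
        calc (nm q : ℝ) * ((1 + p.Y1) * (1 + p.Y2)) ≤ 1 * nm q * p.sz := by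
              rw [one_mul]; gcongr
          _ ≤ K * nm q * p.sz := by gcongr
    have k2 : B + K ^ (-(2 / 3) : ℝ) * (p.Y1 * p.Y2) ≤
        B + ((1 + |t1|) * (1 + |t2|)) ^ J * K ^ (-(2 / 3) : ℝ) * Qd.pl false p := by
      have : Qd.pl false p = p.Y1 * p.Y2 := by
        unfold Qd.pl Qd.N
        simp
      rw [this]
      have g0 : 0 ≤ K ^ (-(2 / 3) : ℝ) * (p.Y1 * p.Y2) := by
        have := hp.Y1; have := hp.Y2; positivity
      nlinarith
    have g5 : 0 ≤ B + K ^ (-(2 / 3) : ℝ) * (p.Y1 * p.Y2) := by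
      have := hp.Y1; have := hp.Y2; positivity
    calc C2 * ((nm q : ℝ) * ((1 + p.Y1) * (1 + p.Y2))) ^ ε *
          (B + K ^ (-(2 / 3) : ℝ) * (p.Y1 * p.Y2)) * (K * (p.Y1 * p.Y2))
        ≤ C2 * (K * nm q * p.sz) ^ ε *
          (B + ((1 + |t1|) * (1 + |t2|)) ^ J * K ^ (-(2 / 3) : ℝ) * Qd.pl false p) *
            (K * (p.Y1 * p.Y2)) := by
          have := hp.Y1; have := hp.Y2
          gcongr
      _ = 1 * C2 * ((K * nm q * p.sz) ^ ε *
          (B + ((1 + |t1|) * (1 + |t2|)) ^ J * K ^ (-(2 / 3) : ℝ) * Qd.pl false p) *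
            (K * p.N)) := by unfold Qd.N; ring
      _ ≤ C1 * C2 * ((K * nm q * p.sz) ^ ε *
          (B + ((1 + |t1|) * (1 + |t2|)) ^ J * K ^ (-(2 / 3) : ℝ) * Qd.pl false p) *
            (K * p.N)) := by gcongr
      _ = _ := by ring
  · obtain ⟨e5, e6⟩ := e3 rfl
    rw [dw_D2, ← e1, ← e2, ← e5, ← e6]
    have h3 := h1 K p.Y1 p.Y2 p.Z1 p.Z2 t1 t2 B hK hp.Y1 hp.Y2 hp.Z1 hp.Z2 hp.eq hB q hq
      fun a1 a2 g1 g2 => ⟨(hyp a1 a2 g1 g2).1, (hyp a1 a2 g1 g2).2 rfl⟩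
    refine h3.trans ?_
    have e7 : Qd.pl true p = min (p.Y1 * p.Y2) (p.Y1 + p.Y2 + p.Z1 + p.Z2) := by
      unfold Qd.pl Qd.N Qd.S
      simp
    have e8 : (1 + p.Y1) * (1 + p.Y2) * ((1 + p.Z1) * (1 + p.Z2)) = p.sz := rfl
    rw [← e7, e8]
    calc C1 * (K * nm q * p.sz) ^ ε *
          (B + ((1 + |t1|) * (1 + |t2|)) ^ J * K ^ (-(2 / 3) : ℝ) * Qd.pl true p) *
            (K * (p.Y1 * p.Y2))
        = C1 * 1 * ((K * nm q * p.sz) ^ ε *
          (B + ((1 + |t1|) * (1 + |t2|)) ^ J * K ^ (-(2 / 3) : ℝ) * Qd.pl true p) *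
            (K * p.N)) := by unfold Qd.N; ring
      _ ≤ C1 * C2 * ((K * nm q * p.sz) ^ ε *
          (B + ((1 + |t1|) * (1 + |t2|)) ^ J * K ^ (-(2 / 3) : ℝ) * Qd.pl true p) *
            (K * p.N)) := by gcongr
      _ = _ := by ring

/-- the shape with the first and second lengths replaced -/
def sh (q : Qd) (U1 U2 : ℝ) : Qd := ⟨U1, U2, q.Z1 / q.Y1 * U1, q.Z2 / q.Y2 * U2⟩

lemma sh_ok {q : Qd} (hq : q.Ok) {U1 U2 : ℝ} (h1 : 0 < U1) (h2 : 0 < U2) : (sh q U1 U2).Ok := by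
  have g1 := hq.Y1; have g2 := hq.Y2; have g3 := hq.Z1; have g4 := hq.Z2
  refine ⟨h1, h2, by unfold sh; positivity, by unfold sh; positivity, ?_⟩
  unfold sh
  simp only
  have e := hq.eq
  have e1 : q.Z1 / q.Y1 * U1 * (q.Z2 / q.Y2 * U2) = (q.Z1 * q.Z2) / (q.Y1 * q.Y2) * (U1 * U2) := by
    field_simp
  rw [e1, ← e, div_self (by positivity), one_mul]

lemma sh_Z1_le {q : Qd} (hq : q.Ok) {U1 U2 r : ℝ} (h1 : U1 ≤ r * q.Y1) :
    (sh q U1 U2).Z1 ≤ r * q.Z1 := by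
  have g1 := hq.Y1; have g3 := hq.Z1
  unfold sh
  simp only
  calc q.Z1 / q.Y1 * U1 ≤ q.Z1 / q.Y1 * (r * q.Y1) := by gcongr
    _ = r * q.Z1 := by field_simp

lemma sh_Z2_le {q : Qd} (hq : q.Ok) {U1 U2 r : ℝ} (h2 : U2 ≤ r * q.Y2) :
    (sh q U1 U2).Z2 ≤ r * q.Z2 := by
  have g1 := hq.Y2; have g3 := hq.Z2
  unfold sh
  simp only
  calc q.Z2 / q.Y2 * U2 ≤ q.Z2 / q.Y2 * (r * q.Y2) := by gcongr
    _ = r * q.Z2 := by field_simp

/-- the sub-shapes -/
lemma sub_of {q : Qd} (hq : q.Ok) {U1 U2 r r' : ℝ} (hr : 1 ≤ r) (hrr : r ≤ r') (h1 : 0 < U1)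
    (h2 : 0 < U2) (b1 : U1 ≤ r * q.Y1) (b2 : U2 ≤ r * q.Y2) (b3 : U1 * U2 ≤ r * q.N) :
    Qd.Sub r' (1 * max 1 (q.N / (U1 * U2))) q (sh q U1 U2) := by
  have g1 := hq.Y1; have g2 := hq.Y2; have g3 := hq.Z1; have g4 := hq.Z2
  have hN := hq.N_pos
  have hr0 : 0 ≤ r := by linarith
  have hU : 0 < U1 * U2 := mul_pos h1 h2
  have e0 : (sh q U1 U2).N = U1 * U2 := rfl
  have e1 : U1 * U2 * (1 * max 1 (q.N / (U1 * U2))) = max (U1 * U2) q.N := by
    rw [one_mul, mul_max_of_nonneg _ _ hU.le, mul_one, mul_div_cancel₀ _ hU.ne']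
  refine ⟨sh_ok hq h1 h2, ?_, ?_, ?_, ?_, ?_, ?_⟩
  · exact b1.trans (by gcongr)
  · exact b2.trans (by gcongr)
  · exact (sh_Z1_le hq b1).trans (by gcongr)
  · exact (sh_Z2_le hq b2).trans (by gcongr)
  · rw [e0, e1]
    refine max_le (b3.trans (by gcongr)) ?_
    calc q.N = 1 * q.N := (one_mul _).symm
      _ ≤ r' * q.N := by gcongr; linarith
  · rw [e0, e1]
    calc q.N ≤ max (U1 * U2) q.N := le_max_right _ _
      _ = 1 * max (U1 * U2) q.N := (one_mul _).symm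
      _ ≤ r' * max (U1 * U2) q.N := by
        have : 0 ≤ max (U1 * U2) q.N := le_trans hN.le (le_max_right _ _)
        gcongr
        linarith

lemma N_le_sz {q : Qd} (hq : q.Ok) : q.N ≤ q.sz := by
  have g1 := hq.Y1; have g2 := hq.Y2; have g3 := hq.Z1; have g4 := hq.Z2
  unfold Qd.N Qd.sz
  have h1 : q.Y1 * q.Y2 ≤ (1 + q.Y1) * (1 + q.Y2) := by nlinarith
  have h2 : 1 ≤ (1 + q.Z1) * (1 + q.Z2) :=
    one_le_mul_of_one_le_of_one_le (by linarith) (by linarith)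
  calc q.Y1 * q.Y2 ≤ (1 + q.Y1) * (1 + q.Y2) * 1 := by rw [mul_one]; exact h1
    _ ≤ _ := by gcongr

/-- the final arithmetic -/
lemma arith {C1 C2 r E X N N' Λ nq s' B HM T TJ L μ2 p p' V : ℝ} (hC1 : 1 ≤ C1)
    (hr : 1 ≤ r) (hX : 1 ≤ X) (hN : 0 < N) (hN' : 0 < N') (hL : 1 ≤ L) (hB : 0 ≤ B)
    (hE : 1 ≤ E) (hΛ : Λ = C1 * E * N ^ 2 / L) (hTJ0 : 0 ≤ T)
    (hHM0 : 0 ≤ HM) (hHM : HM ≤ μ2) (hJ : TJ ≤ T * μ2) (hμ : 0 ≤ μ2) (hp' : p' ≤ r * p) (hp : 0 < p)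
    (hp0 : 0 < p') (hTJ : 0 ≤ TJ) (hC2 : 1 ≤ C2)
    (hs : (Λ * nq * s') ≤ (C1 ^ 2 * r ^ 4) * X ^ 5) {e1 : ℝ} (he1 : 0 < e1) (he1' : e1 ≤ 1)
    (hEX : E = X ^ e1) (hs0 : 0 ≤ Λ * nq * s')
    (hV : V ≤ C2 * (Λ * nq * s') ^ e1 * (B * HM + TJ * Λ ^ (-(2 / 3) : ℝ) * p') * (Λ * N')) :
    V ≤ (C1 ^ 3 * C2 * r ^ 5 * E ^ 6 * (N * B + T * L ^ (2 / 3 : ℝ) * N ^ (-(1 / 3) : ℝ) * p)) / L *
      (N * N') * μ2 := by
  have hΛ0 : 0 < Λ := by rw [hΛ]; positivity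
  have h1 : (Λ * nq * s') ^ e1 ≤ (C1 ^ 2 * r ^ 4) * E ^ 5 := by
    rw [hEX]
    exact TwoEx791.rpow_bd hs0 (by
      have := one_le_pow₀ hC1 (n := 2)
      have := one_le_pow₀ hr (n := 4)
      nlinarith) hX he1.le he1' hs
  have h2 : Λ ^ (-(2 / 3) : ℝ) ≤ L ^ (2 / 3 : ℝ) * N ^ (-(4 / 3) : ℝ) := by
    have h3 : N ^ 2 / L ≤ Λ := by
      rw [hΛ]
      have : 1 ≤ C1 * E := one_le_mul_of_one_le_of_one_le hC1 hE
      gcongr
      nlinarith [sq_nonneg N]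
    have h4 : Λ ^ (-(2 / 3) : ℝ) ≤ (N ^ 2 / L) ^ (-(2 / 3) : ℝ) :=
      Real.rpow_le_rpow_of_nonpos (by positivity) h3 (by norm_num)
    refine h4.trans (le_of_eq ?_)
    rw [Real.div_rpow (by positivity) (by positivity), ← Real.rpow_natCast N 2,
      ← Real.rpow_mul hN.le, Real.rpow_neg (by positivity : (0 : ℝ) ≤ L) (2 / 3), div_inv_eq_mul]
    rw [mul_comm]
    congr 2
    norm_num
  have hp'0 : 0 ≤ p' := hp0.le
  have h5 : B * HM + TJ * Λ ^ (-(2 / 3) : ℝ) * p' ≤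
      r * μ2 * (B + T * L ^ (2 / 3 : ℝ) * N ^ (-(4 / 3) : ℝ) * p) := by
    have k1 : B * HM ≤ r * μ2 * B := by
      calc B * HM ≤ B * μ2 := by gcongr
        _ = 1 * μ2 * B := by ring
        _ ≤ r * μ2 * B := by gcongr
    have k2 : TJ * Λ ^ (-(2 / 3) : ℝ) * p' ≤
        (T * μ2) * (L ^ (2 / 3 : ℝ) * N ^ (-(4 / 3) : ℝ)) * (r * p) := by
      gcongr
    calc B * HM + TJ * Λ ^ (-(2 / 3) : ℝ) * p' ≤ r * μ2 * B +
        (T * μ2) * (L ^ (2 / 3 : ℝ) * N ^ (-(4 / 3) : ℝ)) * (r * p) := add_le_add k1 k2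
      _ = _ := by ring
  have h6 : N * N ^ (-(4 / 3) : ℝ) = N ^ (-(1 / 3) : ℝ) := by
    nth_rewrite 1 [← Real.rpow_one N]
    rw [← Real.rpow_add hN]
    norm_num
  refine hV.trans ?_
  have h7 : 0 ≤ B + T * L ^ (2 / 3 : ℝ) * N ^ (-(4 / 3) : ℝ) * p := by positivity
  have h8 : 0 ≤ B * HM + TJ * Λ ^ (-(2 / 3) : ℝ) * p' := by positivity
  calc C2 * (Λ * nq * s') ^ e1 * (B * HM + TJ * Λ ^ (-(2 / 3) : ℝ) * p') * (Λ * N')
      ≤ C2 * ((C1 ^ 2 * r ^ 4) * E ^ 5) *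
        (r * μ2 * (B + T * L ^ (2 / 3 : ℝ) * N ^ (-(4 / 3) : ℝ) * p)) * (Λ * N') := by
        gcongr
    _ = C2 * (C1 ^ 2 * r ^ 4 * E ^ 5) *
        (r * μ2 * (B + T * L ^ (2 / 3 : ℝ) * N ^ (-(4 / 3) : ℝ) * p)) *
          (C1 * E * N ^ 2 / L * N') := by rw [hΛ]
    _ = (C1 ^ 3 * C2 * r ^ 5 * E ^ 6 * (N * B + T * L ^ (2 / 3 : ℝ) *
          (N * N ^ (-(4 / 3) : ℝ)) * p)) / L * (N * N') * μ2 := by ring
    _ = _ := by rw [h6]

/-- **Poisson, Gauss side to character side**, exceptional class -/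
theorem poisG {h : ℝ → ℝ} {c : ℝ} (hpu : PU h c) {M : Eis} {χ : Eis → ℂ} (hχ : HC M χ) (l : ℤ) :
    PoisG (Wn h M χ l) (tdc h χ l) := by
  intro ε Mx hε hMx
  obtain ⟨R, hR0, hR⟩ := FE47.exists_R (FE47.cs_cx hpu.cs)
  set e1 : ℝ := min (ε / 8) 1 with he1d
  have he1 : 0 < e1 := lt_min (by positivity) one_pos
  have he1' : e1 ≤ 1 := min_le_right _ _
  have he8 : ((8 : ℕ) : ℝ) * e1 ≤ ε := by
    have : e1 ≤ ε / 8 := min_le_left _ _
    push_cast
    linarith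
  clear_value e1
  have hcpos := hpu.cpos
  set R1 : ℝ := 2 * (2 * R + 1 + c) + 3 with hR1
  have hR10 : 0 ≤ R1 := by rw [hR1]; linarith
  obtain ⟨C2, J, hC2, hJ, hVC⟩ := VC_gen hpu hχ l hR he1
  set μ : ℝ := Mx + J with hμ
  have hμ0 : 0 ≤ μ := by rw [hμ]; linarith
  obtain ⟨C1, hC1, hG⟩ := GR106.G_rule (TP320.df_ok hpu hχ l hR0 hR hμ0) he1
  set r : ℝ := Real.exp (2 * R1) with hr
  have hr1 : 1 ≤ r := Real.one_le_exp (by linarith)
  have hrR : Real.exp R1 ≤ r := Real.exp_le_exp.2 (by linarith)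
  have hCC : 1 ≤ C1 ^ 4 * C2 * r ^ 5 := one_le_mul_of_one_le_of_one_le
    (one_le_mul_of_one_le_of_one_le (one_le_pow₀ hC1) hC2) (one_le_pow₀ hr1)
  refine ⟨C1 ^ 4 * C2 * r ^ 5, J, hCC, hJ, ?_⟩
  intro o L q t1 t2 B hL hq hB hyp
  have g1 := hq.Y1; have g2 := hq.Y2; have g3 := hq.Z1; have g4 := hq.Z2
  have hN := hq.N_pos
  have hpl := hq.pl_pos o
  have hsz := hq.one_le_sz
  have hNsz := N_le_sz hq
  have hL0 : 0 < L := by linarith
  set X : ℝ := L * q.sz with hXd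
  have hX1 : 1 ≤ X := one_le_mul_of_one_le_of_one_le hL hsz
  have hLX : L ≤ X := le_mul_of_one_le_right (by linarith) hsz
  have hszX : q.sz ≤ X := le_mul_of_one_le_left (by linarith) hL
  have hNX : q.N ≤ X := hNsz.trans hszX
  have hX0 : 0 < X := by linarith
  set E : ℝ := X ^ e1 with hEd
  have hE1 : 1 ≤ E := Real.one_le_rpow hX1 he1.le
  have hEX : E ≤ X := by
    calc E ≤ X ^ (1 : ℝ) := Real.rpow_le_rpow_of_exponent_le hX1 he1'
      _ = X := Real.rpow_one X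
  have hE8 : E ^ 8 ≤ X ^ ε := TwoEx791.pow_eps hX1 he8
  have hEε : E ≤ X ^ ε := by
    refine le_trans ?_ hE8
    calc E = E ^ 1 := (pow_one E).symm
      _ ≤ E ^ 8 := pow_le_pow_right₀ hE1 (by norm_num)
  have hXε1 : 1 ≤ X ^ ε := hE1.trans hEε
  set T : ℝ := (1 + |t1|) * (1 + |t2|) with hT
  have hT1 : 1 ≤ T :=
    one_le_mul_of_one_le_of_one_le (by linarith [abs_nonneg t1]) (by linarith [abs_nonneg t2])
  have hT0 : 0 < T := by linarith
  have hTJ1 : 1 ≤ T ^ J := Real.one_le_rpow hT1 hJ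
  set δ : ℝ := dl (R + R1 + 1) o q with hδ
  set j : DI := ⟨Real.log q.Y1, Real.log q.Y2, δ, 0, 0, t1, t2⟩ with hj
  have hlen : Real.exp ((df h χ l μ).len j) = q.N := by
    have e : (df h χ l μ).len j = Real.log q.Y1 + Real.log q.Y2 := rfl
    rw [e, Real.exp_add, Real.exp_log g1, Real.exp_log g2]
    rfl
  set a : ℝ := C1 ^ 3 * C2 * r ^ 5 * E ^ 6 * (q.N * B + T ^ J * L ^ (2 / 3 : ℝ) *
    q.N ^ (-(1 / 3) : ℝ) * Qd.pl o q) with ha
  have ha0 : 0 ≤ a := by rw [ha]; positivity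
  have key := hG X L a hX1 hL hLX ha0 j (by rw [hlen]; exact hNX) 1 isPrim_one ?_
  · -- conclusion
    have ht : (df h χ l μ).ht j = 1 := by
      have e : (df h χ l μ).ht j = (1 + |(0 : ℝ)|) ^ μ * (1 + |(0 : ℝ)|) ^ μ := rfl
      rw [e]; simp
    have hw : (df h χ l μ).w j = dw h χ l (Real.log q.Y1) (Real.log q.Y2) δ t1 t2 := by
      have e : (df h χ l μ).w j = dw h χ l (Real.log q.Y1) (Real.log q.Y2) δ (t1 + 0)
        (t2 + 0) := rfl
      rw [e, add_zero, add_zero]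
    rw [ht, hw, hlen] at key
    rw [VG_gen hpu.cs χ l hR (by linarith : R < R + R1 + 1) o L hq t1 t2]
    rw [div_le_iff₀ (by positivity)]
    refine key.trans ?_
    have k1 : L ^ (2 / 3 : ℝ) = L * L ^ (-(1 / 3) : ℝ) := by
      nth_rewrite 2 [← Real.rpow_one L]
      rw [← Real.rpow_add hL0]
      norm_num
    have k2 : L + a ≤ C1 ^ 3 * C2 * r ^ 5 * E ^ 6 * T ^ J * (1 + q.N / L * B +
        L ^ (-(1 / 3) : ℝ) * q.N ^ (-(1 / 3) : ℝ) * Qd.pl o q) * L := by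
      have k3 : 1 ≤ C1 ^ 3 * C2 * r ^ 5 * E ^ 6 * T ^ J :=
        one_le_mul_of_one_le_of_one_le (one_le_mul_of_one_le_of_one_le
          (one_le_mul_of_one_le_of_one_le
          (one_le_mul_of_one_le_of_one_le (one_le_pow₀ hC1) hC2) (one_le_pow₀ hr1))
          (one_le_pow₀ hE1)) hTJ1
      have k4 : a ≤ C1 ^ 3 * C2 * r ^ 5 * E ^ 6 * T ^ J * (q.N / L * B +
        L ^ (-(1 / 3) : ℝ) * q.N ^ (-(1 / 3) : ℝ) * Qd.pl o q) * L := by
        have k5 : C1 ^ 3 * C2 * r ^ 5 * E ^ 6 * T ^ J * (q.N / L * B +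
          L ^ (-(1 / 3) : ℝ) * q.N ^ (-(1 / 3) : ℝ) * Qd.pl o q) * L =
          C1 ^ 3 * C2 * r ^ 5 * E ^ 6 * (T ^ J * (q.N * B) + T ^ J * L ^ (2 / 3 : ℝ) *
            q.N ^ (-(1 / 3) : ℝ) * Qd.pl o q) := by
          rw [k1]
          field_simp
        rw [k5, ha]
        have k6 : q.N * B ≤ T ^ J * (q.N * B) := le_mul_of_one_le_left (by positivity) hTJ1
        gcongr
      calc L + a ≤ C1 ^ 3 * C2 * r ^ 5 * E ^ 6 * T ^ J * L +
          C1 ^ 3 * C2 * r ^ 5 * E ^ 6 * T ^ J * (q.N / L * B +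
          L ^ (-(1 / 3) : ℝ) * q.N ^ (-(1 / 3) : ℝ) * Qd.pl o q) * L := by
            refine add_le_add (le_mul_of_one_le_left hL0.le k3) k4
        _ = _ := by ring
    have k7 : 0 ≤ 1 + q.N / L * B + L ^ (-(1 / 3) : ℝ) * q.N ^ (-(1 / 3) : ℝ) * Qd.pl o q := by
      positivity
    have k8 : E ^ 7 ≤ X ^ ε := le_trans (pow_le_pow_right₀ hE1 (by norm_num)) hE8
    calc C1 * X ^ e1 * (L + a) * q.N * 1 ^ 2
        = C1 * E * (L + a) * q.N := by rw [← hEd]; ring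
      _ ≤ C1 * E * (C1 ^ 3 * C2 * r ^ 5 * E ^ 6 * T ^ J * (1 + q.N / L * B +
        L ^ (-(1 / 3) : ℝ) * q.N ^ (-(1 / 3) : ℝ) * Qd.pl o q) * L) * q.N := by gcongr
      _ = (C1 ^ 4 * C2 * r ^ 5) * E ^ 7 * T ^ J * (1 + q.N / L * B +
        L ^ (-(1 / 3) : ℝ) * q.N ^ (-(1 / 3) : ℝ) * Qd.pl o q) * (L * q.N) := by ring
      _ ≤ (C1 ^ 4 * C2 * r ^ 5) * X ^ ε * T ^ J * (1 + q.N / L * B +
        L ^ (-(1 / 3) : ℝ) * q.N ^ (-(1 / 3) : ℝ) * Qd.pl o q) * (L * q.N) := by gcongr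
      _ = _ := by rfl
  · -- the hypothesis
    rintro ⟨z1, z2, δ', s1, s2, t1', t2'⟩ q' _ hdom hlen' hq' _ hnq'
    obtain ⟨d1, d2, d3, d4, d5⟩ := hdom
    change z1 ≤ Real.log q.Y1 + R1 at d1
    change z2 ≤ Real.log q.Y2 + R1 at d2
    change δ' = δ at d3
    have d4' : t1 = t1' := d4.symm
    have d5' : t2 = t2' := d5.symm
    clear d4 d5
    subst d3 d4' d5'
    have e1' : (df h χ l μ).len ⟨z1, z2, δ, s1, s2, t1, t2⟩ = z1 + z2 := rfl
    have e2' : (df h χ l μ).ht ⟨z1, z2, δ, s1, s2, t1, t2⟩ =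
      (1 + |s1|) ^ μ * (1 + |s2|) ^ μ := rfl
    have e3' : (df h χ l μ).w ⟨z1, z2, δ, s1, s2, t1, t2⟩ =
      dw h χ l z1 z2 δ (t1 + s1) (t2 + s2) := rfl
    have e4' : (df h χ l μ).len j = Real.log q.Y1 + Real.log q.Y2 := rfl
    rw [e1', e4'] at hlen'
    rw [e3', e2', e1', Real.exp_add ((df h χ l μ).len j), hlen]
    set Λ : ℝ := C1 * X ^ e1 * q.N ^ 2 / L with hΛ
    have hΛ0 : 0 < Λ := by positivity
    set H : ℝ := (1 + |s1|) * (1 + |s2|) with hH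
    have hH1 : 1 ≤ H :=
      one_le_mul_of_one_le_of_one_le (by linarith [abs_nonneg s1]) (by linarith [abs_nonneg s2])
    have hH0 : 0 < H := by linarith
    have hμ2 : ((1 + |s1|) ^ μ * (1 + |s2|) ^ μ) ^ 2 = H ^ (2 * μ) := by
      rw [← Real.mul_rpow (by positivity) (by positivity), ← hH, ← Real.rpow_natCast,
        ← Real.rpow_mul hH0.le]
      congr 1; push_cast; ring
    rw [hμ2]
    rcases lt_or_ge Λ 1 with hΛ1 | hΛ1
    · have e5 : bl Λ = ∅ := by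
        rw [Finset.eq_empty_iff_forall_notMem]
        intro k hk
        have h2 := (mem_bl hΛ0.le).mp hk
        have h3 : (1 : ℝ) ≤ nm k := by exact_mod_cast nm_pos.mpr h2.1
        linarith [h2.2]
      unfold VC
      rw [e5, Finset.sum_empty]
      positivity
    have ez1 : Real.exp z1 ≤ Real.exp R1 * q.Y1 := by
      calc Real.exp z1 ≤ Real.exp (Real.log q.Y1 + R1) := Real.exp_le_exp.2 d1
        _ = _ := by rw [Real.exp_add, Real.exp_log g1]; ring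
    have ez2 : Real.exp z2 ≤ Real.exp R1 * q.Y2 := by
      calc Real.exp z2 ≤ Real.exp (Real.log q.Y2 + R1) := Real.exp_le_exp.2 d2
        _ = _ := by rw [Real.exp_add, Real.exp_log g2]; ring
    have ez12 : Real.exp z1 * Real.exp z2 ≤ Real.exp R1 * q.N := by
      rw [← Real.exp_add]
      calc Real.exp (z1 + z2) ≤ Real.exp (Real.log q.Y1 + Real.log q.Y2 + R1) :=
            Real.exp_le_exp.2 hlen'
        _ = _ := by
            rw [Real.exp_add, Real.exp_add, Real.exp_log g1, Real.exp_log g2]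
            unfold Qd.N
            ring
    set p : Qd := sh q (Real.exp z1) (Real.exp z2) with hp
    have hpok : p.Ok := sh_ok hq (Real.exp_pos _) (Real.exp_pos _)
    have hpN : p.N = Real.exp z1 * Real.exp z2 := rfl
    have hpY1 : p.Y1 = Real.exp z1 := rfl
    have hpY2 : p.Y2 = Real.exp z2 := rfl
    have hpZ1 : p.Z1 = q.Z1 / q.Y1 * Real.exp z1 := rfl
    have hpZ2 : p.Z2 = q.Z2 / q.Y2 * Real.exp z2 := rfl
    have hV := hVC o Λ z1 z2 δ (t1 + s1) (t2 + s2) (B * H ^ Mx) p hΛ1 (by positivity) hpok rfl rfl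
      ?_ ?_ q' hq'.ne_zero ?_
    · -- the arithmetic
      have hszp : p.sz ≤ r ^ 4 * X := by
        have f1 := sh_Z1_le hq (U2 := Real.exp z2) ez1
        have f2 := sh_Z2_le hq (U1 := Real.exp z1) ez2
        rw [← hp] at f1 f2
        have p1 := hpok.Y1; have p2 := hpok.Y2; have p3 := hpok.Z1; have p4 := hpok.Z2
        have k : ∀ x y : ℝ, 0 < y → x ≤ Real.exp R1 * y → 1 + x ≤ r * (1 + y) := by
          intro x y hy hxy
          have : Real.exp R1 * y ≤ r * y := by gcongr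
          linarith
        calc p.sz = (1 + p.Y1) * (1 + p.Y2) * ((1 + p.Z1) * (1 + p.Z2)) := rfl
          _ ≤ (r * (1 + q.Y1)) * (r * (1 + q.Y2)) * ((r * (1 + q.Z1)) * (r * (1 + q.Z2))) := by
              have a1 := k _ _ g1 ez1
              have a2 := k _ _ g2 ez2
              have a3 := k _ _ g3 f1
              have a4 := k _ _ g4 f2
              rw [hpY1, hpY2]
              gcongr
          _ = r ^ 4 * q.sz := by unfold Qd.sz; ring
          _ ≤ r ^ 4 * X := by gcongr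
      have hplp : Qd.pl o p ≤ r * Qd.pl o q := by
        have f1 := sh_Z1_le hq (U2 := Real.exp z2) ez1
        have f2 := sh_Z2_le hq (U1 := Real.exp z1) ez2
        rw [← hp] at f1 f2
        have hNp : p.N ≤ r * q.N := by
          rw [hpN]
          refine ez12.trans ?_
          gcongr
        have hSp : p.S ≤ r * q.S := by
          have m1 : Real.exp R1 * q.S ≤ r * q.S := by
            have := hq.S_pos
            gcongr
          refine le_trans ?_ m1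
          unfold Qd.S
          rw [hpY1, hpY2]
          linarith
        unfold Qd.pl
        split_ifs
        · rw [mul_min_of_nonneg _ _ (by linarith)]
          exact min_le_min hNp hSp
        · exact hNp
      have hnq1 : (nm q' : ℝ) ≤ C1 * X := by
        have : (nm (1 : Eis) : ℝ) = 1 := by simp
        rw [this, one_mul] at hnq'
        exact hnq'
      have hΛX : Λ ≤ C1 * X ^ 3 := by
        rw [hΛ, div_le_iff₀ hL0]
        have b1 : X ^ e1 * q.N ^ 2 ≤ X * X ^ 2 := by gcongr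
        calc C1 * X ^ e1 * q.N ^ 2 = C1 * (X ^ e1 * q.N ^ 2) := by ring
          _ ≤ C1 * (X * X ^ 2) := by gcongr
          _ = C1 * X ^ 3 * 1 := by ring
          _ ≤ C1 * X ^ 3 * L := by gcongr
      have hprod : Λ * nm q' * p.sz ≤ (C1 ^ 2 * r ^ 4) * X ^ 5 := by
        have hs0 : 0 ≤ p.sz := by linarith [hpok.one_le_sz]
        calc Λ * nm q' * p.sz ≤ (C1 * X ^ 3) * (C1 * X) * (r ^ 4 * X) := by gcongr
          _ = _ := by ring
      have hs0 : 0 ≤ Λ * nm q' * p.sz := by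
        have := hpok.one_le_sz
        positivity
      have hTJ : ((1 + |t1 + s1|) * (1 + |t2 + s2|)) ^ J ≤ T ^ J * H ^ (2 * μ) := by
        have b1 : ((1 + |t1 + s1|) * (1 + |t2 + s2|)) ^ J ≤ T ^ J * H ^ J := by
          rw [← Real.mul_rpow hT0.le hH0.le]
          refine Real.rpow_le_rpow (by positivity) ?_ hJ
          have c1 := Two320.one_add_abs_add t1 s1
          have c2 := Two320.one_add_abs_add t2 s2
          calc (1 + |t1 + s1|) * (1 + |t2 + s2|) ≤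
              ((1 + |t1|) * (1 + |s1|)) * ((1 + |t2|) * (1 + |s2|)) := by gcongr
            _ = T * H := by rw [hT, hH]; ring
        refine b1.trans ?_
        have : H ^ J ≤ H ^ (2 * μ) := Real.rpow_le_rpow_of_exponent_le hH1 (by
          rw [hμ]; linarith)
        gcongr
      have hfin := arith (C1 := C1) (C2 := C2) (r := r) (E := E) (X := X) (N := q.N) (N' := p.N)
        (Λ := Λ) (nq := nm q') (s' := p.sz) (B := B) (HM := H ^ Mx) (T := T ^ J)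
        (TJ := ((1 + |t1 + s1|) * (1 + |t2 + s2|)) ^ J) (L := L) (μ2 := H ^ (2 * μ))
        (p := Qd.pl o q) (p' := Qd.pl o p)
        (V := VC Λ (TP320.sq q' (dw h χ l z1 z2 δ (t1 + s1) (t2 + s2))))
        hC1 hr1 hX1 hN hpok.N_pos hL hB hE1 (by rw [hΛ]) (by positivity) (by positivity)
        (Real.rpow_le_rpow_of_exponent_le hH1 (by rw [hμ]; linarith)) hTJ (by positivity)
        hplp hpl (hpok.pl_pos o) (by positivity) hC2 hprod he1 he1' rfl hs0 hV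
      refine hfin.trans (le_of_eq ?_)
      rw [ha, hpN, ← Real.exp_add]
    · intro ho
      rw [hpZ1, hpZ2]
      have e5 : δ = Real.log q.Z1 - Real.log q.Y1 := by
        rw [hδ]; unfold dl; rw [if_pos ho]
      constructor
      · rw [e5, Real.exp_add, Real.exp_sub, Real.exp_log g3, Real.exp_log g1]; ring
      · have e6 : Real.exp (z2 - δ) = Real.exp z2 * (q.Y1 / q.Z1) := by
          rw [e5, Real.exp_sub, Real.exp_sub, Real.exp_log g3, Real.exp_log g1]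
          field_simp
        have e7 : q.Z2 / q.Y2 = q.Y1 / q.Z1 := by
          rw [div_eq_div_iff g2.ne' g3.ne']
          have := hq.eq
          linarith
        rw [e6, e7]; ring
    · intro ho
      rw [hδ]
      unfold dl
      rw [ho]
      simp only [Bool.false_eq_true, if_false]
      linarith
    · intro a1 a2 p1 p2
      have n1 : (1 : ℝ) ≤ nm a1 := one_le_nm p1
      have n2 : (1 : ℝ) ≤ nm a2 := one_le_nm p2
      have n10 : (0 : ℝ) < nm a1 := by linarith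
      have n20 : (0 : ℝ) < nm a2 := by linarith
      have u1 : 0 < Real.exp z1 / nm a1 := by positivity
      have u2 : 0 < Real.exp z2 / nm a2 := by positivity
      have v1 : Real.exp z1 / nm a1 ≤ Real.exp z1 := div_le_self (Real.exp_pos _).le n1
      have v2 : Real.exp z2 / nm a2 ≤ Real.exp z2 := div_le_self (Real.exp_pos _).le n2
      have hCE : Real.exp R1 ≤ C1 ^ 4 * C2 * r ^ 5 * (L * q.sz) ^ ε := by
        rw [← hXd]
        calc Real.exp R1 ≤ r := hrR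
          _ = 1 * r * 1 := by ring
          _ ≤ (C1 ^ 4 * C2) * r ^ 5 * X ^ ε := by
              have w1 : 1 ≤ C1 ^ 4 * C2 :=
                one_le_mul_of_one_le_of_one_le (one_le_pow₀ hC1) hC2
              have w2 : r ≤ r ^ 5 := by
                calc r = r ^ 1 := (pow_one r).symm
                  _ ≤ r ^ 5 := pow_le_pow_right₀ hr1 (by norm_num)
              gcongr
      have hsub := sub_of hq (r := Real.exp R1) (r' := C1 ^ 4 * C2 * r ^ 5 * (L * q.sz) ^ ε)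
        (Real.one_le_exp hR10) hCE u1 u2 (v1.trans ez1) (v2.trans ez2) (by
          refine le_trans ?_ ez12
          gcongr)
      have hΛX : Λ ≤ C1 ^ 4 * C2 * r ^ 5 * (L * q.sz) ^ 20 := by
        rw [← hXd, hΛ, div_le_iff₀ hL0]
        have b1 : X ^ e1 * q.N ^ 2 ≤ X * X ^ 2 := by gcongr
        have w1 : C1 ≤ C1 ^ 4 * C2 * r ^ 5 := by
          calc C1 = C1 ^ 1 * 1 * 1 := by ring
            _ ≤ C1 ^ 4 * C2 * r ^ 5 := by
                have w2 : C1 ^ 1 ≤ C1 ^ 4 := pow_le_pow_right₀ hC1 (by norm_num)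
                have w3 : 1 ≤ r ^ 5 := one_le_pow₀ hr1
                gcongr
        have w4 : X ^ 3 ≤ X ^ 20 := pow_le_pow_right₀ hX1 (by norm_num)
        calc C1 * X ^ e1 * q.N ^ 2 = C1 * (X ^ e1 * q.N ^ 2) := by ring
          _ ≤ C1 * (X * X ^ 2) := by gcongr
          _ = C1 * X ^ 3 * 1 := by ring
          _ ≤ (C1 ^ 4 * C2 * r ^ 5) * X ^ 20 * L := by gcongr
      have hh := hyp 1 1 (max 1 (q.N / (Real.exp z1 / nm a1 * (Real.exp z2 / nm a2)))) Λ _ s1 s2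
        le_rfl le_rfl (le_max_left _ _) hsub hΛ1 hΛX
      have e5 : (1 : ℝ) / 1 = 1 := by norm_num
      rw [e5, one_mul, one_mul] at hh
      refine ⟨hh.1, fun ho => ?_⟩
      have h9 := hh.2 ho
      have e6 : (sh q (Real.exp z1 / nm a1) (Real.exp z2 / nm a2)).Z1 = p.Z1 / nm a1 := by
        rw [hpZ1]; unfold sh; simp only; ring
      have e7 : (sh q (Real.exp z1 / nm a1) (Real.exp z2 / nm a2)).Z2 = p.Z2 / nm a2 := by
        rw [hpZ2]; unfold sh; simp only; ring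
      rw [e6, e7] at h9
      exact h9

end Crest.Agent.R017.TXG411
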