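import Crest.Agent.R017.TPEb_411

/-!
# Row 17: two-factor sides, squarefree → natural (3): the final inequality (helper411)

`sq_nat` = leaf (E) of 320.
-/

set_option autoImplicit false

noncomputable section

open Complex MeasureTheory Filter Topology
open scoped ContDiff ComplexConjugate

namespace Crest.Agent.R017.TPE411

open Crest.Agent.R012 Crest.Agent.R012.Eis Crest.Agent.R012.Gauss880 Crest.Agent.R012.LS2
open Crest.Agent.R012.Weight600 (osc norm_osc ker)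
open Crest.Agent.R012.PSer47 Crest.Agent.R012.Div277 Crest.Agent.R012.Mob705
open Crest.Agent.R017.End699 Crest.Agent.R017.FE47 Crest.Agent.R017.Two939
open Crest.Agent.R017.CM106 (CS)
open Crest.Agent.R017.TP320 (w2 VC)

/-- the weight of an index -/
def wt (j : Σ _ : Eis, (Eis × Eis) × (Eis × Eis)) : ℝ :=
  ((nm (A1 j) : ℝ) * nm (A2 j)) ^ (-(1 / 2) : ℝ)

lemma isPrim_A1 {q : Eis} {N : ℕ} {j : Σ _ : Eis, (Eis × Eis) × (Eis × Eis)} (hj : j ∈ JJ q N) :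
    IsPrim (A1 j) := by
  obtain ⟨h1, ⟨h2, h3⟩, _⟩ := mem_JJ hj
  unfold A1
  rw [sq]
  exact h1.mul ((h2.mul h2).mul h3)

lemma isPrim_A2 {q : Eis} {N : ℕ} {j : Σ _ : Eis, (Eis × Eis) × (Eis × Eis)} (hj : j ∈ JJ q N) :
    IsPrim (A2 j) := by
  obtain ⟨h1, _, ⟨h2, h3⟩⟩ := mem_JJ hj
  unfold A2
  rw [sq]
  exact h1.mul ((h2.mul h2).mul h3)

lemma wt_pos {q : Eis} {N : ℕ} {j : Σ _ : Eis, (Eis × Eis) × (Eis × Eis)} (hj : j ∈ JJ q N) :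
    0 < wt j := by
  have h1 := one_le_nm (isPrim_A1 hj)
  have h2 := one_le_nm (isPrim_A2 hj)
  unfold wt
  positivity

lemma wt_sq {q : Eis} {N : ℕ} {j : Σ _ : Eis, (Eis × Eis) × (Eis × Eis)} (hj : j ∈ JJ q N) :
    wt j * wt j = ((nm (A1 j) : ℝ) * nm (A2 j))⁻¹ := by
  have h1 := one_le_nm (isPrim_A1 hj)
  have h2 := one_le_nm (isPrim_A2 hj)
  unfold wt
  rw [← Real.rpow_add (by positivity)]
  norm_num [Real.rpow_neg_one, mul_comm]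

lemma wt_le {q : Eis} {N : ℕ} {j : Σ _ : Eis, (Eis × Eis) × (Eis × Eis)} (hj : j ∈ JJ q N) :
    wt j ≤ (nm j.1 : ℝ)⁻¹ * ((nm j.2.1.1 : ℝ)⁻¹ * (nm j.2.2.1 : ℝ)⁻¹) := by
  obtain ⟨h1, ⟨h2, h3⟩, ⟨h4, h5⟩⟩ := mem_JJ hj
  have n1 := one_le_nm h1
  have n2 := one_le_nm h2
  have n3 := one_le_nm h3
  have n4 := one_le_nm h4
  have n5 := one_le_nm h5
  have e1 : ((nm j.1 : ℝ)⁻¹ * ((nm j.2.1.1 : ℝ)⁻¹ * (nm j.2.2.1 : ℝ)⁻¹)) =
      (((nm j.1 : ℝ) * (nm j.2.1.1 * nm j.2.2.1)) ^ 2) ^ (-(1 / 2) : ℝ) := by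
    rw [← Real.rpow_natCast, ← Real.rpow_mul (by positivity)]
    have : ((2 : ℕ) : ℝ) * (-(1 / 2)) = -1 := by norm_num
    rw [this, Real.rpow_neg_one, mul_inv, mul_inv]
  rw [e1]
  unfold wt A1 A2
  apply Real.rpow_le_rpow_of_nonpos (by positivity) _ (by norm_num)
  simp only [nm_mul, nm_pow]
  push_cast
  have e2 : ((nm j.1 : ℝ) * (nm j.2.1.1 ^ 2 * nm j.2.1.2) *
      (nm j.1 * (nm j.2.2.1 ^ 2 * nm j.2.2.2))) =
      ((nm j.1 : ℝ) * (nm j.2.1.1 * nm j.2.2.1)) ^ 2 * (nm j.2.1.2 * nm j.2.2.2) := by ring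
  rw [e2]
  have h6 : (1 : ℝ) ≤ nm j.2.1.2 * nm j.2.2.2 := by nlinarith
  nlinarith [show (0:ℝ) ≤ ((nm j.1 : ℝ) * (nm j.2.1.1 * nm j.2.2.1)) ^ 2 by positivity]

/-- harmonic sums -/
lemma sum_inv_le {δ : ℝ} (hδ : 0 < δ) : ∃ C : ℝ, 0 ≤ C ∧ ∀ N : ℕ, 1 ≤ N →
    ∑ g ∈ primBall N, (nm g : ℝ)⁻¹ ≤ C * (N : ℝ) ^ δ := by
  have hs := LatSum413.summable_nm_rpow (s := 1 + δ) (by linarith)
  refine ⟨∑' z : Eis, (nm z : ℝ) ^ (-(1 + δ)), tsum_nonneg fun z => by positivity,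
    fun N hN => ?_⟩
  have hN0 : (0 : ℝ) < N := by exact_mod_cast hN
  calc ∑ g ∈ primBall N, (nm g : ℝ)⁻¹ ≤
      ∑ g ∈ primBall N, (nm g : ℝ) ^ (-(1 + δ)) * (N : ℝ) ^ δ := by
        refine Finset.sum_le_sum fun g hg => ?_
        rw [mem_primBall] at hg
        have h1 := one_le_nm hg.2
        have h2 : (nm g : ℝ) ≤ N := by exact_mod_cast hg.1
        have h0 : (0 : ℝ) < nm g := by linarith
        rw [neg_add, Real.rpow_add h0, Real.rpow_neg_one, Real.rpow_neg h0.le]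
        have h3 : (nm g : ℝ) ^ δ ≤ (N : ℝ) ^ δ := Real.rpow_le_rpow h0.le h2 hδ.le
        have h4 : 0 < (nm g : ℝ) ^ δ := Real.rpow_pos_of_pos h0 _
        have h5 : 1 ≤ ((nm g : ℝ) ^ δ)⁻¹ * (N : ℝ) ^ δ := by
          rw [inv_mul_eq_div, le_div_iff₀ h4, one_mul]; exact h3
        calc (nm g : ℝ)⁻¹ = (nm g : ℝ)⁻¹ * 1 := (mul_one _).symm
          _ ≤ (nm g : ℝ)⁻¹ * (((nm g : ℝ) ^ δ)⁻¹ * (N : ℝ) ^ δ) := by gcongr
          _ = _ := by ring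
    _ = (∑ g ∈ primBall N, (nm g : ℝ) ^ (-(1 + δ))) * (N : ℝ) ^ δ := by rw [Finset.sum_mul]
    _ ≤ _ := by
        gcongr
        exact hs.sum_le_tsum _ fun z _ => by positivity

/-- total weight, in terms of divisor counts -/
lemma sum_wt_le' (q : Eis) (N : ℕ) :
    ∑ j ∈ JJ q N, wt j ≤ ∑ g ∈ primBall N, (nm g : ℝ)⁻¹ *
      (((tau (q * g) : ℝ) * ∑ s ∈ primBall N, (nm s : ℝ)⁻¹) *
        ((tau (q * g) : ℝ) * ∑ s ∈ primBall N, (nm s : ℝ)⁻¹)) := by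
  calc ∑ j ∈ JJ q N, wt j
      ≤ ∑ j ∈ JJ q N, (nm j.1 : ℝ)⁻¹ * ((nm j.2.1.1 : ℝ)⁻¹ * (nm j.2.2.1 : ℝ)⁻¹) :=
        Finset.sum_le_sum fun j hj => wt_le hj
    _ = _ := by
        unfold JJ
        rw [Finset.sum_sigma]
        refine Finset.sum_congr rfl fun g _ => ?_
        simp only
        rw [← Finset.mul_sum]
        congr 1
        have e1 : ∀ a b : Finset (Eis × Eis), ∑ x ∈ a ×ˢ b, (nm x.1.1 : ℝ)⁻¹ * (nm x.2.1 : ℝ)⁻¹ =
            (∑ x ∈ a, (nm x.1 : ℝ)⁻¹) * (∑ x ∈ b, (nm x.1 : ℝ)⁻¹) := by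
          intro a b
          rw [Finset.sum_mul_sum, Finset.sum_product]
        have e2 : ∑ x ∈ primBall N ×ˢ dvs (q * g), (nm x.1 : ℝ)⁻¹ =
            (tau (q * g) : ℝ) * ∑ s ∈ primBall N, (nm s : ℝ)⁻¹ := by
          rw [Finset.sum_product, Finset.mul_sum]
          refine Finset.sum_congr rfl fun s _ => ?_
          simp only
          rw [Finset.sum_const, nsmul_eq_mul]
          rfl
        rw [e1, e2]

/-- total weight -/
lemma sum_wt_le {δ : ℝ} (hδ : 0 < δ) : ∃ C : ℝ, 0 ≤ C ∧ ∀ (q : Eis) (N : ℕ), q ≠ 0 → 1 ≤ N →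
    ∑ j ∈ JJ q N, wt j ≤ C * ((nm q : ℝ) ^ (2 * δ) * (N : ℝ) ^ (5 * δ)) := by
  obtain ⟨Ct, hCt1, hCt⟩ := tau_le_rpow hδ
  obtain ⟨C1, hC1, h1⟩ := sum_inv_le hδ
  have hCt0 : 0 ≤ Ct := by linarith
  refine ⟨Ct ^ 2 * C1 ^ 3, by positivity, fun q N hq hN => ?_⟩
  have hN0 : (0 : ℝ) < N := by exact_mod_cast hN
  have hq1 : (1 : ℝ) ≤ nm q := by exact_mod_cast nm_pos.mpr hq
  have a1 : (nm q : ℝ) ^ (2 * δ) = ((nm q : ℝ) ^ δ) ^ 2 := by
    rw [← Real.rpow_natCast, ← Real.rpow_mul (by positivity), mul_comm]; norm_num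
  have a2 : (N : ℝ) ^ (5 * δ) = ((N : ℝ) ^ δ) ^ 5 := by
    rw [← Real.rpow_natCast, ← Real.rpow_mul (by positivity), mul_comm]; norm_num
  rw [a1, a2]
  have hb0 : 0 ≤ (nm q : ℝ) ^ δ := by positivity
  have hc0 : 0 ≤ (N : ℝ) ^ δ := by positivity
  have h5 := h1 N hN
  have h6 : 0 ≤ ∑ s ∈ primBall N, (nm s : ℝ)⁻¹ := Finset.sum_nonneg fun s _ => by positivity
  have key : ∀ g ∈ primBall N, (tau (q * g) : ℝ) ≤ Ct * ((nm q : ℝ) ^ δ * (N : ℝ) ^ δ) := by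
    intro g hg
    rw [mem_primBall] at hg
    have h2 := one_le_nm hg.2
    have h3 : (nm g : ℝ) ≤ N := by exact_mod_cast hg.1
    refine (hCt _ (mul_ne_zero hq hg.2.ne_zero)).trans ?_
    rw [nm_mul]
    push_cast
    rw [Real.mul_rpow (by positivity) (by positivity)]
    have h9 : (nm g : ℝ) ^ δ ≤ (N : ℝ) ^ δ := Real.rpow_le_rpow (by linarith) h3 hδ.le
    exact mul_le_mul_of_nonneg_left (mul_le_mul_of_nonneg_left h9 hb0) hCt0
  generalize hS : ∑ s ∈ primBall N, (nm s : ℝ)⁻¹ = S at h5 h6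
  generalize (nm q : ℝ) ^ δ = b at hb0 key ⊢
  generalize (N : ℝ) ^ δ = c at hc0 h5 key ⊢
  refine (sum_wt_le' q N).trans ?_
  rw [hS]
  have hU : 0 ≤ (Ct * (b * c)) * (C1 * c) := by positivity
  calc ∑ g ∈ primBall N, (nm g : ℝ)⁻¹ * (((tau (q * g) : ℝ) * S) * ((tau (q * g) : ℝ) * S))
      ≤ ∑ g ∈ primBall N, (nm g : ℝ)⁻¹ *
          (((Ct * (b * c)) * (C1 * c)) * ((Ct * (b * c)) * (C1 * c))) := by
        refine Finset.sum_le_sum fun g hg => ?_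
        have h7 : (0 : ℝ) ≤ tau (q * g) := Nat.cast_nonneg _
        have h8 : (tau (q * g) : ℝ) * S ≤ (Ct * (b * c)) * (C1 * c) :=
          mul_le_mul (key g hg) h5 h6 (by positivity)
        have h9 : 0 ≤ (tau (q * g) : ℝ) * S := mul_nonneg h7 h6
        refine mul_le_mul_of_nonneg_left ?_ (by positivity)
        exact mul_le_mul h8 h8 h9 hU
    _ = S * (((Ct * (b * c)) * (C1 * c)) * ((Ct * (b * c)) * (C1 * c))) := by
        rw [← Finset.sum_mul, hS]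
    _ ≤ (C1 * c) * (((Ct * (b * c)) * (C1 * c)) * ((Ct * (b * c)) * (C1 * c))) :=
        mul_le_mul_of_nonneg_right h5 (mul_nonneg hU hU)
    _ = _ := by ring

/-- **(E)**: from the natural second moments to the squarefree two-piece sequence. -/
theorem sq_nat {h : ℝ → ℝ} {c : ℝ} (hpu : PU h c) {ε : ℝ} (hε : 0 < ε) (Mx : ℝ) :
    ∃ C : ℝ, 0 < C ∧ ∀ (M : Eis) (χ : Eis → ℂ), HC M χ → ∀ (l : ℤ) (K Z1 Z2 t1 t2 A : ℝ),
      0 < K → 0 < Z1 → 0 < Z2 → 0 ≤ A → ∀ q : Eis, q ≠ 0 →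
      (∀ Z1' Z2' s1 s2 : ℝ, 1 ≤ Z1' → Z1' ≤ C * (1 + Z1) → 1 ≤ Z2' → Z2' ≤ C * (1 + Z2) →
        W2 h χ l K Z1' Z2' (t1 + s1) (t2 + s2) ≤ A * ((1 + |s1|) * (1 + |s2|)) ^ Mx) →
      VC K (TP320.sq q (w2 h χ l Z1 Z2 t1 t2)) ≤
        C * ((nm q : ℝ) * (1 + Z1) * (1 + Z2)) ^ ε * A * K * Z1 * Z2 := by
  obtain ⟨E, C0, hE, hC0, hPP⟩ := PP_le hpu Mx
  obtain ⟨R, hR0, hR⟩ := exists_R (cs_cx hpu.cs)
  set δ : ℝ := ε / 10 with hδd
  have hδ : 0 < δ := by positivity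
  obtain ⟨Cw, hCw, hw⟩ := sum_wt_le hδ
  set C : ℝ := C0 * (Cw ^ 2 * (Real.exp R) ^ ε) + E with hCd
  have hCC : C0 * (Cw ^ 2 * (Real.exp R) ^ ε) ≤ C := by rw [hCd]; linarith
  have hEC : E ≤ C := by
    rw [hCd]
    have : 0 ≤ C0 * (Cw ^ 2 * (Real.exp R) ^ ε) := by positivity
    linarith
  have hC1 : 1 ≤ C := hE.trans hEC
  refine ⟨C, by linarith, fun M χ hχ l K Z1 Z2 t1 t2 A hK hZ1 hZ2 hA q hq hyp => ?_⟩
  have hq1 : (1 : ℝ) ≤ nm q := by exact_mod_cast nm_pos.mpr hq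
  -- the cut-off
  set X : ℝ := Real.exp R * ((1 + Z1) * (1 + Z2)) with hX
  have heR : 1 ≤ Real.exp R := Real.one_le_exp hR0
  have hX1 : 1 ≤ X := by
    rw [hX]
    have : 1 ≤ (1 + Z1) * (1 + Z2) := by nlinarith
    nlinarith
  set N : ℕ := ⌊X⌋₊ with hN
  have hN1 : 1 ≤ N := Nat.le_floor (by simpa using hX1)
  have hNX : (N : ℝ) ≤ X := Nat.floor_le (by linarith)
  have hsup : ∀ {Z : ℝ}, 0 < Z → Z ≤ (1 + Z1) * (1 + Z2) → SupN (cx h) (Real.log Z) N := by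
    intro Z hZ hZle
    refine supN_of hR ?_
    rw [Real.exp_add, Real.exp_log hZ]
    calc Z * Real.exp R ≤ (1 + Z1) * (1 + Z2) * Real.exp R := by gcongr
      _ = X := by rw [hX]; ring
      _ < N + 1 := Nat.lt_floor_add_one X
  have hs1 := hsup hZ1 (by nlinarith)
  have hs2 := hsup hZ2 (by nlinarith)
  -- the individual second moments
  have hyp' : ∀ {Y1 Y2 : ℝ}, 0 < Y1 → Y1 ≤ Z1 → 0 < Y2 → Y2 ≤ Z2 →
      ∑ k ∈ bl K, ‖P h χ l k Y1 t1‖ ^ 2 * ‖P h χ l k Y2 t2‖ ^ 2 ≤ C0 * A * (K * Y1 * Y2) := by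
    intro Y1 Y2 hY1 hY1Z hY2 hY2Z
    refine hPP M χ hχ l K t1 t2 A Y1 Y2 hK.le hY1 hY2 hA ?_
    intro Z1' Z2' s1 s2 a1 a2 a3 a4
    have h1 : Z1' ≤ C * (1 + Z1) := a2.trans (by
      calc E * Y1 ≤ C * Z1 := by gcongr
        _ ≤ C * (1 + Z1) := by nlinarith)
    have h2 : Z2' ≤ C * (1 + Z2) := a4.trans (by
      calc E * Y2 ≤ C * Z2 := by gcongr
        _ ≤ C * (1 + Z2) := by nlinarith)
    have h3 := hyp Z1' Z2' s1 s2 a1 h1 a3 h2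
    unfold W2 at h3
    have hpos : 0 < K * Z1' * Z2' := by positivity
    rwa [div_le_iff₀ hpos] at h3
  -- pointwise bound
  set rj : (Σ _ : Eis, (Eis × Eis) × (Eis × Eis)) → Eis → ℝ := fun j k =>
    ‖P h χ l k (Z1 / nm (A1 j)) t1‖ * ‖P h χ l k (Z2 / nm (A2 j)) t2‖ with hrj
  have hrj0 : ∀ j k, 0 ≤ rj j k := fun j k => by positivity
  have hpt : ∀ k : Eis, ‖CS (TP320.sq q (w2 h χ l Z1 Z2 t1 t2)) k‖ ≤ ∑ j ∈ JJ q N, rj j k := by
    intro k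
    rw [CS_sq_eq hpu.cs hχ l hq hs1 hs2 t1 t2 k]
    refine (norm_sum_le _ _).trans (Finset.sum_le_sum fun j hj => ?_)
    have b1 := norm_fac_le (h := h) hχ l k hZ1 t1 (isPrim_A1 hj)
    have b2 := norm_fac_le (h := h) hχ l k hZ2 t2 (isPrim_A2 hj)
    rw [norm_mul, norm_mul]
    calc _ ≤ 1 * (‖P h χ l k (Z1 / nm (A1 j)) t1‖ * ‖P h χ l k (Z2 / nm (A2 j)) t2‖) :=
          mul_le_mul (norm_mj_le q j) (mul_le_mul b1 b2 (norm_nonneg _) (norm_nonneg _))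
            (by positivity) zero_le_one
      _ = rj j k := one_mul _
  have hmom : ∀ j ∈ JJ q N, ∑ k ∈ bl K, rj j k ^ 2 ≤ C0 * A * (K * Z1 * Z2) * (wt j * wt j) := by
    intro j hj
    have n1 := one_le_nm (isPrim_A1 hj)
    have n2 := one_le_nm (isPrim_A2 hj)
    have h3 := hyp' (Y1 := Z1 / nm (A1 j)) (Y2 := Z2 / nm (A2 j)) (by positivity)
      (div_le_self hZ1.le n1) (by positivity) (div_le_self hZ2.le n2)
    have e1 : ∑ k ∈ bl K, rj j k ^ 2 = ∑ k ∈ bl K,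
        ‖P h χ l k (Z1 / nm (A1 j)) t1‖ ^ 2 * ‖P h χ l k (Z2 / nm (A2 j)) t2‖ ^ 2 :=
      Finset.sum_congr rfl fun k _ => by rw [hrj]; ring
    rw [e1]
    refine h3.trans (le_of_eq ?_)
    rw [wt_sq hj, mul_inv]
    have : (nm (A1 j) : ℝ) ≠ 0 := by linarith
    have : (nm (A2 j) : ℝ) ≠ 0 := by linarith
    field_simp
  set W : ℝ := ∑ j ∈ JJ q N, wt j with hW
  have hW0 : 0 ≤ W := Finset.sum_nonneg fun j hj => (wt_pos hj).le
  have hmain : VC K (TP320.sq q (w2 h χ l Z1 Z2 t1 t2)) ≤ W * (W * (C0 * A * (K * Z1 * Z2))) := by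
    unfold TP320.VC
    calc ∑ k ∈ bl K, ‖CS (TP320.sq q (w2 h χ l Z1 Z2 t1 t2)) k‖ ^ 2
        ≤ ∑ k ∈ bl K, W * ∑ j ∈ JJ q N, (wt j)⁻¹ * rj j k ^ 2 := by
          refine Finset.sum_le_sum fun k _ => ?_
          refine (pow_le_pow_left₀ (norm_nonneg _) (hpt k) 2).trans ?_
          refine Finset.sum_sq_le_sum_mul_sum_of_sq_le_mul _ (fun j hj => (wt_pos hj).le)
            (fun j hj => ?_) fun j hj => ?_
          · have := (wt_pos hj).le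
            positivity
          · have := (wt_pos hj).ne'
            rw [← mul_assoc, mul_inv_cancel₀ this, one_mul]
      _ = W * ∑ j ∈ JJ q N, (wt j)⁻¹ * ∑ k ∈ bl K, rj j k ^ 2 := by
          rw [← Finset.mul_sum]
          congr 1
          rw [Finset.sum_comm]
          refine Finset.sum_congr rfl fun j _ => ?_
          rw [Finset.mul_sum]
      _ ≤ W * ∑ j ∈ JJ q N, wt j * (C0 * A * (K * Z1 * Z2)) := by
          refine mul_le_mul_of_nonneg_left (Finset.sum_le_sum fun j hj => ?_) hW0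
          have hp := wt_pos hj
          calc (wt j)⁻¹ * ∑ k ∈ bl K, rj j k ^ 2
              ≤ (wt j)⁻¹ * (C0 * A * (K * Z1 * Z2) * (wt j * wt j)) := by
                have := hmom j hj
                gcongr
            _ = _ := by field_simp
      _ = _ := by rw [← Finset.sum_mul]
  have hWle : W ≤ Cw * ((nm q : ℝ) ^ (2 * δ) * (N : ℝ) ^ (5 * δ)) := hw q N hq hN1
  have hN0 : (0 : ℝ) ≤ N := Nat.cast_nonneg _
  have hWW : W * W ≤ Cw ^ 2 * ((Real.exp R) ^ ε * ((nm q : ℝ) * (1 + Z1) * (1 + Z2)) ^ ε) := by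
    calc W * W ≤ (Cw * ((nm q : ℝ) ^ (2 * δ) * (N : ℝ) ^ (5 * δ))) *
          (Cw * ((nm q : ℝ) ^ (2 * δ) * (N : ℝ) ^ (5 * δ))) :=
          mul_le_mul hWle hWle hW0 (by positivity)
      _ = Cw ^ 2 * (((nm q : ℝ) ^ (2 * δ) * (nm q : ℝ) ^ (2 * δ)) *
          ((N : ℝ) ^ (5 * δ) * (N : ℝ) ^ (5 * δ))) := by ring
      _ = Cw ^ 2 * ((nm q : ℝ) ^ (4 * δ) * (N : ℝ) ^ ε) := by
          rw [← Real.rpow_add (by linarith), ← Real.rpow_add (by exact_mod_cast hN1)]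
          congr 3 <;> [skip; skip]
          · ring_nf
          · rw [hδd]; ring
      _ ≤ Cw ^ 2 * ((nm q : ℝ) ^ ε * X ^ ε) := by
          have h4 : (nm q : ℝ) ^ (4 * δ) ≤ (nm q : ℝ) ^ ε :=
            Real.rpow_le_rpow_of_exponent_le hq1 (by rw [hδd]; linarith)
          have h5 : (N : ℝ) ^ ε ≤ X ^ ε := Real.rpow_le_rpow hN0 hNX hε.le
          have h6 : 0 ≤ (nm q : ℝ) ^ ε := by positivity
          have h7 : 0 ≤ (N : ℝ) ^ ε := by positivity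
          have h8 := mul_le_mul h4 h5 h7 h6
          have h9 : 0 ≤ Cw ^ 2 := by positivity
          exact mul_le_mul_of_nonneg_left h8 h9
      _ = _ := by
          rw [hX, Real.mul_rpow (by positivity) (by positivity), mul_assoc (nm q : ℝ),
            Real.mul_rpow (x := (nm q : ℝ)) (by positivity) (by positivity)]
          ring
  calc VC K (TP320.sq q (w2 h χ l Z1 Z2 t1 t2)) ≤ W * (W * (C0 * A * (K * Z1 * Z2))) := hmain
    _ = W * W * (C0 * (A * (K * Z1 * Z2))) := by ring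
    _ ≤ (Cw ^ 2 * ((Real.exp R) ^ ε * ((nm q : ℝ) * (1 + Z1) * (1 + Z2)) ^ ε)) *
        (C0 * (A * (K * Z1 * Z2))) := mul_le_mul_of_nonneg_right hWW (by positivity)
    _ = (C0 * (Cw ^ 2 * (Real.exp R) ^ ε)) *
        (((nm q : ℝ) * (1 + Z1) * (1 + Z2)) ^ ε * (A * (K * Z1 * Z2))) := by ring
    _ ≤ C * (((nm q : ℝ) * (1 + Z1) * (1 + Z2)) ^ ε * (A * (K * Z1 * Z2))) :=
        mul_le_mul_of_nonneg_right hCC (by positivity)
    _ = _ := by ring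

end Crest.Agent.R017.TPE411
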