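import Crest.Agent.R017.ProvI_71
import Crest.Agent.R017.TPEc_411

/-!
# Row 17: the field `tf` of `BRules` (helper164)

* `CS_pc_eq`   : the sum of a typed piece is `PS`
* `norm_CS_pc` : trivial bound
* `CS_lump`    : a smooth lump `χ ang^l prin0 d`: Möbius over the divisors of `d`
* `TF4`        : the two-factor theorem (fourth moment), for a set `Q` of frequencies
* `tf_BG`      : the field `tf` in `BG` form
-/

set_option autoImplicit false

noncomputable section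

open Complex
open scoped ComplexConjugate

namespace Crest.Agent.R017.XTf164

open Crest.Agent.R012 Crest.Agent.R012.Eis Crest.Agent.R012.LS2 Crest.Agent.R012.Gauss880
open Crest.Agent.R012.Mob705
open Crest.Agent.R012.PSer47
open Crest.Agent.R012.Weight600 (osc norm_osc)
open Crest.Agent.R012.Div277
open Crest.Agent.R017.CM106 Crest.Agent.R017.FE47 Crest.Agent.R017.End699
open Crest.Agent.R017.HSep813 (gw)
open Crest.Agent.R017.Two939 Crest.Agent.R017.HP842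
open Crest.Agent.R017.XG702 (Pcs BG)
open Crest.Agent.R017.B770
open Crest.Agent.R017.Prov71 (Kd wt Pq chK Dq Rp Qp RQ isChar_chK)

/-! ### pieces as `PS` -/

lemma CS_pc_eq (h : ℝ → ℝ) (p : Pc) (k : Eis) :
    CS (pc h p) k = PS (cx h) (fun b => uv p.u b * p.ψ b * sy k b) (Real.log p.Y) p.t := by
  classical
  unfold CS PS
  refine tsum_congr fun b => ?_
  unfold pc End699.ext gw
  by_cases hb : IsPrim b
  · simp only [hb, if_true]; ring
  · simp [hb]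

lemma norm_uv_le (u : UT) (b : Eis) : ‖uv u b‖ ≤ 1 := by
  classical
  cases u with
  | one => simp [uv]
  | mu => exact TPE411.norm_mu_le b
  | sq => unfold uv; simp only; split_ifs <;> simp
  | pr => unfold uv; simp only; split_ifs <;> simp
  | del => unfold uv; simp only; split_ifs <;> simp

/-- trivial bound for a typed piece -/
lemma norm_CS_pc {h : ℝ → ℝ} {c : ℝ} (hpu : PU h c) : ∃ C : ℝ, 1 ≤ C ∧ ∀ (p : Pc) (k : Eis),
    (∀ b, IsPrim b → ‖p.ψ b‖ ≤ 1) → 0 < p.Y → ‖CS (pc h p) k‖ ≤ C * p.Y := by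
  obtain ⟨C, hC, hb⟩ := norm_PS_le (cd_cx hpu.cd).continuous (cs_cx hpu.cs)
  refine ⟨C + 1, by linarith, fun p k hψ hY => ?_⟩
  rw [CS_pc_eq]
  have h1 := hb (fun b => uv p.u b * p.ψ b * sy k b) (fun b hb' => by
    rw [norm_mul, norm_mul]
    have e1 := norm_uv_le p.u b
    have e2 := hψ b hb'
    have e3 := norm_sy_le (k := k) hb'
    calc ‖uv p.u b‖ * ‖p.ψ b‖ * ‖sy k b‖ ≤ 1 * 1 * 1 := by gcongr
      _ = 1 := by ring) (Real.log p.Y) p.t
  rw [Real.exp_log hY] at h1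
  refine h1.trans ?_
  gcongr
  linarith

/-- a smooth lump -/
lemma CS_lump {h : ℝ → ℝ} {c : ℝ} (hpu : PU h c) {M : Eis} {χ : Eis → ℂ} (hχ : HC M χ) (l : ℤ)
    {d : Eis} (hd : d ≠ 0) {Y : ℝ} (hY : 0 < Y) (t : ℝ) (k : Eis) :
    CS (pc h ⟨.one, fun b => χ b * ang l b * prin0 d b, Y, t⟩) k =
      ∑ e ∈ dvs d, (muE e : ℂ) * (XK χ (sy k) l e * osc t (Real.log (nm e)) *
        P h χ l k (Y / nm e) t) := by
  rw [CS_pc_eq]
  have e1 : (fun b => uv UT.one b * (χ b * ang l b * prin0 d b) * sy k b) =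
      fun b => XK χ (sy k) l b * prin0 d b := by
    funext b
    unfold XK uv
    ring
  show PS (cx h) (fun b => uv UT.one b * (χ b * ang l b * prin0 d b) * sy k b) (Real.log Y) t = _
  rw [e1, TPE411.PS_prin0 (cs_cx hpu.cs) (TPE411.isChar_XK hχ l k) hd]
  refine Finset.sum_congr rfl fun e he => ?_
  have he0 : e ≠ 0 := (isPrim_of_mem_dvs he).ne_zero
  have hn : (0 : ℝ) < nm e := by exact_mod_cast nm_pos.2 he0
  unfold P
  rw [Real.log_div hY.ne' hn.ne']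

/-- the fourth power of a lump -/
lemma norm_lump_pow4 {h : ℝ → ℝ} {c : ℝ} (hpu : PU h c) {M : Eis} {χ : Eis → ℂ} (hχ : HC M χ)
    (l : ℤ) {d : Eis} (hd : d ≠ 0) {Y : ℝ} (hY : 0 < Y) (t : ℝ) (k : Eis) :
    ‖CS (pc h ⟨.one, fun b => χ b * ang l b * prin0 d b, Y, t⟩) k‖ ^ 4 ≤
      (tau d : ℝ) ^ 3 * ∑ e ∈ dvs d, ‖P h χ l k (Y / nm e) t‖ ^ 4 := by
  rw [CS_lump hpu hχ l hd hY]
  have h1 : ‖∑ e ∈ dvs d, (muE e : ℂ) * (XK χ (sy k) l e * osc t (Real.log (nm e)) *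
        P h χ l k (Y / nm e) t)‖ ≤ ∑ e ∈ dvs d, ‖P h χ l k (Y / nm e) t‖ := by
    refine (norm_sum_le _ _).trans (Finset.sum_le_sum fun e he => ?_)
    rw [norm_mul, norm_mul, norm_mul, norm_osc, mul_one]
    have e1 := TPE411.norm_mu_le e
    have e2 := norm_XS_le hχ l k e (isPrim_of_mem_dvs he)
    calc ‖(muE e : ℂ)‖ * (‖XK χ (sy k) l e‖ * ‖P h χ l k (Y / nm e) t‖)
        ≤ 1 * (1 * ‖P h χ l k (Y / nm e) t‖) := by gcongr
      _ = ‖P h χ l k (Y / nm e) t‖ := by ring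
  refine (pow_le_pow_left₀ (norm_nonneg _) h1 4).trans ?_
  have h2 := pow_sum_le_card_mul_sum_pow (s := dvs d)
    (f := fun e => ‖P h χ l k (Y / nm e) t‖) (fun _ _ => norm_nonneg _) 3
  exact h2

/-! ### the two-factor theorem as a hypothesis -/

open Classical in
/-- fourth moments of the smooth sums over the `k` with `Q k` -/
def TF4 (h : ℝ → ℝ) (χ : Eis → ℂ) (l : ℤ) (Q : Eis → Prop) : Prop :=
  ∀ ε : ℝ, 0 < ε → ∃ C A : ℝ, 0 < C ∧ 0 ≤ A ∧ ∀ K Y t : ℝ, 1 ≤ K → 1 ≤ Y →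
    ∑ k ∈ (bl K).filter Q, ‖P h χ l k Y t‖ ^ 4 ≤
      C * (K * Y) ^ ε * (1 + |t|) ^ A * (K * Y ^ 2)

lemma TF4.mono {h : ℝ → ℝ} {χ : Eis → ℂ} {l : ℤ} {Q Q' : Eis → Prop} (H : TF4 h χ l Q')
    (hQ : ∀ k, Q k → Q' k) : TF4 h χ l Q := by
  classical
  intro ε hε
  obtain ⟨C, A, hC, hA, hb⟩ := H ε hε
  refine ⟨C, A, hC, hA, fun K Y t hK hY => le_trans ?_ (hb K Y t hK hY)⟩
  refine Finset.sum_le_sum_of_subset_of_nonneg ?_ fun k _ _ => by positivity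
  intro k hk
  rw [Finset.mem_filter] at hk ⊢
  exact ⟨hk.1, hQ k hk.2⟩

/-- from helper320's normalised fourth moment -/
lemma TF4_of_V4 {h : ℝ → ℝ} {χ : Eis → ℂ} {l : ℤ} (Q : Eis → Prop)
    (H : ∀ ε : ℝ, 0 < ε → ∃ C A : ℝ, 0 < C ∧ 0 ≤ A ∧ ∀ K Y t : ℝ, 1 ≤ K → 1 ≤ Y →
      V4 h χ l K Y t ≤ C * (K * Y) ^ ε * (1 + |t|) ^ A) : TF4 h χ l Q := by
  classical
  intro ε hε
  obtain ⟨C, A, hC, hA, hb⟩ := H ε hε
  refine ⟨C, A, hC, hA, fun K Y t hK hY => ?_⟩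
  have h1 := hb K Y t hK hY
  have hK0 : 0 < K := by linarith
  have hY0 : 0 < Y := by linarith
  unfold V4 at h1
  rw [div_le_iff₀ (by positivity)] at h1
  refine le_trans ?_ h1
  exact Finset.sum_le_sum_of_subset_of_nonneg (Finset.filter_subset _ _) fun k _ _ => by positivity

/-- all lengths -/
lemma TF4.all {h : ℝ → ℝ} {c : ℝ} (hpu : PU h c) {M : Eis} {χ : Eis → ℂ} (hχ : HC M χ) {l : ℤ}
    {Q : Eis → Prop} [DecidablePred Q] (H : TF4 h χ l Q) :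
    ∀ ε : ℝ, 0 < ε → ∃ C A : ℝ, 0 < C ∧ 0 ≤ A ∧ ∀ K Y Y' t : ℝ, 1 ≤ K → 1 ≤ Y → 0 < Y' → Y' ≤ Y →
    ∑ k ∈ (bl K).filter Q, ‖P h χ l k Y' t‖ ^ 4 ≤
      C * (K * Y) ^ ε * (1 + |t|) ^ A * (K * Y ^ 2) := by
  classical
  intro ε hε
  obtain ⟨C, A, hC, hA, hb⟩ := H ε hε
  obtain ⟨C', hC', hb'⟩ := norm_P_le hpu
  refine ⟨C + 16 * C' ^ 4, A, by positivity, hA, fun K Y Y' t hK hY hY'0 hY' => ?_⟩
  have hK0 : 0 < K := by linarith
  have hY0 : 0 < Y := by linarith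
  have ht : 1 ≤ (1 + |t|) ^ A := Real.one_le_rpow (by linarith [abs_nonneg t]) hA
  have hKY : 1 ≤ (K * Y) ^ ε :=
    Real.one_le_rpow (one_le_mul_of_one_le_of_one_le hK hY) hε.le
  by_cases h1 : 1 ≤ Y'
  · have h2 := hb K Y' t hK h1
    have h3 : ∑ k ∈ (bl K).filter Q, ‖P h χ l k Y' t‖ ^ 4 ≤
        C * (K * Y') ^ ε * (1 + |t|) ^ A * (K * Y' ^ 2) := by
      convert h2 using 2
      congr
    refine h3.trans ?_
    have h4 : (K * Y') ^ ε ≤ (K * Y) ^ ε :=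
      Real.rpow_le_rpow (by positivity) (by gcongr) hε.le
    have h5 : K * Y' ^ 2 ≤ K * Y ^ 2 := by gcongr
    have h6 : C ≤ C + 16 * C' ^ 4 := by linarith [show (0:ℝ) ≤ 16 * C' ^ 4 by positivity]
    gcongr
  · push Not at h1
    calc ∑ k ∈ (bl K).filter Q, ‖P h χ l k Y' t‖ ^ 4
        ≤ ∑ k ∈ (bl K).filter Q, (C' * 1) ^ 4 := by
          refine Finset.sum_le_sum fun k _ => ?_
          have h2 := hb' M χ hχ l k Y' t hY'0
          have h3 : ‖P h χ l k Y' t‖ ≤ C' * 1 := h2.trans (by gcongr)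
          gcongr
      _ = ((bl K).filter Q).card * C' ^ 4 := by
          rw [Finset.sum_const, nsmul_eq_mul, mul_one]
      _ ≤ (16 * K) * C' ^ 4 := by
          gcongr
          refine le_trans ?_ (CR2.card_bl_le hK0.le)
          exact_mod_cast Finset.card_le_card (Finset.filter_subset _ _)
      _ = 16 * C' ^ 4 * 1 * 1 * (K * 1 ^ 2) := by ring
      _ ≤ (C + 16 * C' ^ 4) * (K * Y) ^ ε * (1 + |t|) ^ A * (K * Y ^ 2) := by
          gcongr
          linarith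

/-- the fourth moment of a lump -/
lemma lump4 {h : ℝ → ℝ} {c : ℝ} (hpu : PU h c) {M : Eis} {χ : Eis → ℂ} (hχ : HC M χ) {l : ℤ}
    {Q : Eis → Prop} [DecidablePred Q] {ε C A : ℝ}
    (hb : ∀ K Y Y' t : ℝ, 1 ≤ K → 1 ≤ Y → 0 < Y' → Y' ≤ Y →
      ∑ k ∈ (bl K).filter Q, ‖P h χ l k Y' t‖ ^ 4 ≤
        C * (K * Y) ^ ε * (1 + |t|) ^ A * (K * Y ^ 2)) {d : Eis} (hd : d ≠ 0) {K Y t : ℝ}
    (hK : 1 ≤ K) (hY : 1 ≤ Y) :
    ∑ k ∈ (bl K).filter Q, ‖CS (pc h ⟨.one, fun b => χ b * ang l b * prin0 d b, Y, t⟩) k‖ ^ 4 ≤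
      (tau d : ℝ) ^ 4 * (C * (K * Y) ^ ε * (1 + |t|) ^ A * (K * Y ^ 2)) := by
  have hY0 : 0 < Y := by linarith
  calc ∑ k ∈ (bl K).filter Q, ‖CS (pc h ⟨.one, fun b => χ b * ang l b * prin0 d b, Y, t⟩) k‖ ^ 4
      ≤ ∑ k ∈ (bl K).filter Q, (tau d : ℝ) ^ 3 * ∑ e ∈ dvs d, ‖P h χ l k (Y / nm e) t‖ ^ 4 :=
        Finset.sum_le_sum fun k _ => norm_lump_pow4 hpu hχ l hd hY0 t k
    _ = (tau d : ℝ) ^ 3 * ∑ e ∈ dvs d, ∑ k ∈ (bl K).filter Q, ‖P h χ l k (Y / nm e) t‖ ^ 4 := by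
        rw [← Finset.mul_sum, Finset.sum_comm]
    _ ≤ (tau d : ℝ) ^ 3 * ∑ e ∈ dvs d, (C * (K * Y) ^ ε * (1 + |t|) ^ A * (K * Y ^ 2)) := by
        refine mul_le_mul_of_nonneg_left (Finset.sum_le_sum fun e he => ?_) (by positivity)
        have he1 : (1 : ℝ) ≤ nm e := by
          exact_mod_cast nm_pos.2 (isPrim_of_mem_dvs he).ne_zero
        exact hb K Y (Y / nm e) t hK hY (by positivity) (div_le_self hY0.le he1)
    _ = (tau d : ℝ) ^ 4 * (C * (K * Y) ^ ε * (1 + |t|) ^ A * (K * Y ^ 2)) := by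
        rw [Finset.sum_const, nsmul_eq_mul]
        show (tau d : ℝ) ^ 3 * ((tau d : ℝ) * _) = _
        ring

/-! ### granular pieces -/

lemma norm_chK_le {P : DPar} (hP : P.OK) (k : Kd) {b : Eis} (hb : IsPrim b) :
    ‖chK P k b‖ ≤ 1 := (isChar_chK hP k).norm_le hb

lemma gran_prod {P : DPar} (hP : P.OK) {h : ℝ → ℝ} {Cg : ℝ} (hCg : 1 ≤ Cg)
    (hg : ∀ (p : Pc) (k : Eis), (∀ b, IsPrim b → ‖p.ψ b‖ ≤ 1) → 0 < p.Y →
      ‖CS (pc h p) k‖ ≤ Cg * p.Y) (k : Eis) (gs : List Pq) :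
    ((gs.map (Pq.pc P)).map fun p => ‖CS (pc h p) k‖ ^ 2).prod ≤
      (Cg ^ 2) ^ gs.length * Real.exp (2 * (gs.map fun g => g.z).sum) := by
  induction gs with
  | nil => simp
  | cons g gs ih =>
    rw [List.map_cons, List.map_cons, List.prod_cons, List.length_cons, List.map_cons,
      List.sum_cons]
    have h1 := hg (g.pc P) k (fun b hb => (g.ok hP).ch.norm_le hb) (Real.exp_pos _)
    have h2 : ‖CS (pc h (g.pc P)) k‖ ^ 2 ≤ (Cg * Real.exp g.z) ^ 2 :=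
      pow_le_pow_left₀ (norm_nonneg _) h1 2
    have h3 : 0 ≤ ((gs.map (Pq.pc P)).map fun p => ‖CS (pc h p) k‖ ^ 2).prod := by
      refine List.prod_nonneg fun a ha => ?_
      obtain ⟨p, _, rfl⟩ := List.mem_map.1 ha
      positivity
    calc ‖CS (pc h (g.pc P)) k‖ ^ 2 * ((gs.map (Pq.pc P)).map fun p => ‖CS (pc h p) k‖ ^ 2).prod
        ≤ (Cg * Real.exp g.z) ^ 2 *
          ((Cg ^ 2) ^ gs.length * Real.exp (2 * (gs.map fun g => g.z).sum)) := by gcongr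
      _ = (Cg ^ 2) ^ (gs.length + 1) * Real.exp (2 * (g.z + (gs.map fun g => g.z).sum)) := by
        rw [mul_add, Real.exp_add, pow_succ, two_mul g.z, Real.exp_add]; ring

lemma sum_z {X : ℝ} (hX : 1 < X) (gs : List Pq) :
    (gs.map fun g => g.z).sum = Real.log X * (Dq.mass X gs .mo + Dq.mass X gs .am) := by
  have hl : Real.log X ≠ 0 := (Real.log_pos hX).ne'
  induction gs with
  | nil => simp
  | cons g gs ih =>
    rw [List.map_cons, List.sum_cons, ih, Pcs.mass_cons, Pcs.mass_cons]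
    have e : g.z = Real.log X * Dq.nl X g := by
      show g.z = Real.log X * (g.z / Real.log X)
      field_simp
    have hk : g.kd = .mo ∨ g.kd = .am := by cases g.kd <;> simp
    rcases hk with hk | hk
    · have : Dq.kind g = .mo := hk
      rw [this, e]; simp; ring
    · have : Dq.kind g = .am := hk
      rw [this, e]; simp; ring

/-! ### the field `tf` -/

lemma rpow_le_of_log {X z y : ℝ} (hX : 1 < X) (h : z / Real.log X ≤ y) :
    Real.exp z ≤ X ^ y := by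
  have hl : 0 < Real.log X := Real.log_pos hX
  rw [Real.rpow_def_of_pos (by linarith), Real.exp_le_exp]
  rw [div_le_iff₀ hl] at h
  linarith

/-- **the field `tf`** -/
theorem tf_BG {Lam : Type*} (π : Lam → DPar) (hP' : ∀ lam, (π lam).OK) {h : ℝ → ℝ} {c : ℝ}
    (hpu : PU h c) (H' : ∀ lam, TF4 h (π lam).ψ (π lam).l₂ (Qp (π lam))) {κ y₁ y₂ : ℝ}
    (hκ : 0 ≤ κ) (h1 : 0 ≤ y₁) (h2 : 0 ≤ y₂) :
    BG Dq (fun lam => Rp (π lam) h) κ [y₁, y₂] (wt 0 0) (κ + (y₁ + y₂)) := by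
  classical
  intro ε hε
  set S : ℝ := κ + y₁ + y₂ + 4 with hS
  have hS0 : 0 < S := by positivity
  set δ : ℝ := min (ε / 32) 1 with hδ
  have hδ0 : 0 < δ := by positivity
  have hδ1 : δ ≤ ε / 32 := min_le_left _ _
  have hδ2 : δ ≤ 1 := min_le_right _ _
  refine ⟨δ, hδ0, fun lam N B => ?_⟩
  have H := H' lam
  have hP := hP' lam
  beta_reduce
  generalize π lam = P at H hP ⊢
  obtain ⟨C, A, hC, hA, hb⟩ := H.all hpu hP.ψ (ε / (8 * S)) (by positivity)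
  obtain ⟨Cg, hCg, hg⟩ := norm_CS_pc hpu
  set B₀ : ℝ := max B 1 with hB₀
  have hB1 : 1 ≤ B₀ := le_max_right _ _
  obtain ⟨Ct, hCt, ht⟩ := tau_le_rpow (ε := ε / (32 * B₀)) (by positivity)
  refine ⟨ε / (8 * (A + 1)), by positivity,
    max 2 ((C * Ct ^ 4 * (Cg ^ 2) ^ N + 1) ^ (8 / ε)), lt_of_lt_of_le (by norm_num)
      (le_max_left _ _), ?_⟩
  intro X hX k us gs hk hnear hgran hgood
  have hX2 : 2 ≤ X := (le_max_left _ _).trans hX
  have hX1 : 1 < X := by linarith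
  have hX0 : 0 < X := by linarith
  have hl : 0 < Real.log X := Real.log_pos hX1
  have hconst : C * Ct ^ 4 * (Cg ^ 2) ^ N ≤ X ^ (ε / 8) := by
    have e1 : (C * Ct ^ 4 * (Cg ^ 2) ^ N + 1) ^ (8 / ε) ≤ X := (le_max_right _ _).trans hX
    have e2 : ((C * Ct ^ 4 * (Cg ^ 2) ^ N + 1) ^ (8 / ε)) ^ (ε / 8) ≤ X ^ (ε / 8) :=
      Real.rpow_le_rpow (by positivity) e1 (by positivity)
    rw [← Real.rpow_mul (by positivity)] at e2
    have e3 : 8 / ε * (ε / 8) = 1 := by field_simp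
    rw [e3, Real.rpow_one] at e2
    linarith
  obtain ⟨p₁, p₂, rfl, hp1, hp2, hn1, hn2⟩ : ∃ p₁ p₂, us = [p₁, p₂] ∧ Dq.lump p₁ ∧ Dq.lump p₂ ∧
      |Dq.nl X p₁ - y₁| ≤ δ ∧ |Dq.nl X p₂ - y₂| ≤ δ := by
    unfold Pcs.Near at hnear
    rcases hnear with _ | ⟨ha, hr⟩
    rcases hr with _ | ⟨hb', hr'⟩
    rcases hr' with _ | _
    exact ⟨_, _, rfl, ha.1, hb'.1, ha.2, hb'.2⟩
  have hg1 := hgood p₁ (by simp)
  have hg2 := hgood p₂ (by simp)
  -- small families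
  by_cases hk0 : k < 0
  · have : bl (Real.exp (k * Real.log X)) = ∅ := by
      rw [Finset.eq_empty_iff_forall_notMem]
      intro x hx
      rw [mem_bl (Real.exp_pos _).le] at hx
      have e1 : (1 : ℝ) ≤ nm x := by exact_mod_cast nm_pos.2 hx.1
      have e2 : Real.exp (k * Real.log X) < 1 := by
        rw [Real.exp_lt_one_iff]
        exact mul_neg_of_neg_of_pos hk0 hl
      linarith [hx.2]
    unfold Rp RQ
    rw [this, Finset.filter_empty, Finset.sum_empty]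
    positivity
  push Not at hk0
  have hK : 1 ≤ Real.exp (k * Real.log X) := Real.one_le_exp (by positivity)
  set K : ℝ := Real.exp (k * Real.log X) with hKdef
  have hKX : K ≤ X ^ (κ + δ) := by
    apply rpow_le_of_log hX1
    rw [mul_div_assoc, div_self hl.ne', mul_one]
    linarith [(abs_le.1 hk).2]
  -- one lump
  have key : ∀ (p : Pq) (y : ℝ), Dq.lump p → |Dq.nl X p - y| ≤ δ → 0 ≤ y → y ≤ y₁ + y₂ →
      (Dq.s1 p ≤ X ^ (ε / (8 * (A + 1))) ∧ Dq.s2 p ≤ X ^ B ∧ 0 ≤ Dq.len p) →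
      ∑ k ∈ (bl K).filter (Qp P), ‖CS (pc h (p.pc P)) k‖ ^ 4 ≤
        (C * Ct ^ 4 * X ^ (3 * ε / 8) * K) * Real.exp p.z ^ 2 ∧ Real.exp p.z ≤ X ^ (y + δ) := by
    intro p y hp hn hy0 hy hgp
    obtain ⟨hkd, hu⟩ := hp
    have hz : Real.exp p.z ≤ X ^ (y + δ) := by
      apply rpow_le_of_log hX1
      have := (abs_le.1 hn).2
      have e : Dq.nl X p = p.z / Real.log X := rfl
      rw [e] at this
      linarith
    refine ⟨?_, hz⟩
    have hY1 : 1 ≤ Real.exp p.z := Real.one_le_exp hgp.2.2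
    have e1 := lump4 hpu hP.ψ hb p.d0 (t := p.t) hK hY1
    have e2 : p.pc P = ⟨.one, fun b => P.ψ b * ang P.l₂ b * prin0 p.d b, Real.exp p.z, p.t⟩ := by
      unfold Pq.pc chK
      rw [hu, hkd]
    rw [e2]
    refine e1.trans ?_
    have f1 : (tau p.d : ℝ) ^ 4 ≤ Ct ^ 4 * X ^ (ε / 8) := by
      have g1 := ht p.d p.d0
      have g2 : (nm p.d : ℝ) ^ (ε / (32 * B₀)) ≤ X ^ (ε / 32) := by
        have g3 : (nm p.d : ℝ) ≤ X ^ B₀ :=
          hgp.2.1.trans (Real.rpow_le_rpow_of_exponent_le hX1.le (le_max_left _ _))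
        calc (nm p.d : ℝ) ^ (ε / (32 * B₀)) ≤ (X ^ B₀) ^ (ε / (32 * B₀)) :=
              Real.rpow_le_rpow (by positivity) g3 (by positivity)
          _ = X ^ (ε / 32) := by
              rw [← Real.rpow_mul hX0.le]; congr 1; field_simp
      calc (tau p.d : ℝ) ^ 4 ≤ (Ct * X ^ (ε / 32)) ^ 4 := by
            refine pow_le_pow_left₀ (by positivity) (g1.trans ?_) 4
            gcongr
        _ = Ct ^ 4 * X ^ (ε / 8) := by
            rw [mul_pow, ← Real.rpow_natCast (X ^ (ε / 32)) 4, ← Real.rpow_mul hX0.le]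
            congr 2; push_cast; ring
    have f2 : (K * Real.exp p.z) ^ (ε / (8 * S)) ≤ X ^ (ε / 8) := by
      calc (K * Real.exp p.z) ^ (ε / (8 * S)) ≤ (X ^ S) ^ (ε / (8 * S)) := by
            refine Real.rpow_le_rpow (by positivity) ?_ (by positivity)
            calc K * Real.exp p.z ≤ X ^ (κ + δ) * X ^ (y + δ) := by gcongr
              _ = X ^ (κ + δ + (y + δ)) := by rw [← Real.rpow_add hX0]
              _ ≤ X ^ S := Real.rpow_le_rpow_of_exponent_le hX1.le (by rw [hS]; linarith)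
        _ = X ^ (ε / 8) := by rw [← Real.rpow_mul hX0.le]; congr 1; field_simp
    have f3 : (1 + |p.t|) ^ A ≤ X ^ (ε / 8) := by
      calc (1 + |p.t|) ^ A ≤ (X ^ (ε / (8 * (A + 1)))) ^ A :=
            Real.rpow_le_rpow (by positivity) hgp.1 hA
        _ = X ^ (ε / (8 * (A + 1)) * A) := by rw [← Real.rpow_mul hX0.le]
        _ ≤ X ^ (ε / 8) := by
            refine Real.rpow_le_rpow_of_exponent_le hX1.le ?_
            rw [div_mul_eq_mul_div, div_le_div_iff₀ (by positivity) (by norm_num)]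
            nlinarith
    calc (tau p.d : ℝ) ^ 4 * (C * (K * Real.exp p.z) ^ (ε / (8 * S)) * (1 + |p.t|) ^ A *
          (K * Real.exp p.z ^ 2))
        ≤ (Ct ^ 4 * X ^ (ε / 8)) * (C * X ^ (ε / 8) * X ^ (ε / 8) * (K * Real.exp p.z ^ 2)) := by
          gcongr
      _ = (C * Ct ^ 4 * (X ^ (ε / 8) * X ^ (ε / 8) * X ^ (ε / 8)) * K) * Real.exp p.z ^ 2 := by
          ring
      _ = (C * Ct ^ 4 * X ^ (3 * ε / 8) * K) * Real.exp p.z ^ 2 := by
          rw [← Real.rpow_add hX0, ← Real.rpow_add hX0]; congr 4; ring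
  obtain ⟨a1, b1⟩ := key p₁ y₁ hp1 hn1 h1 (by linarith) hg1
  obtain ⟨a2, b2⟩ := key p₂ y₂ hp2 hn2 h2 (by linarith) hg2
  set G : ℝ := C * Ct ^ 4 * X ^ (3 * ε / 8) * K with hG
  have hG0 : 0 ≤ G := by positivity
  -- the pair
  have hpair : ∑ k ∈ (bl K).filter (Qp P), ‖CS (pc h (p₁.pc P)) k‖ ^ 2 *
      ‖CS (pc h (p₂.pc P)) k‖ ^ 2 ≤ G * Real.exp p₁.z * Real.exp p₂.z := by
    have e1 := Finset.sum_mul_sq_le_sq_mul_sq ((bl K).filter (Qp P))
      (fun k => ‖CS (pc h (p₁.pc P)) k‖ ^ 2) (fun k => ‖CS (pc h (p₂.pc P)) k‖ ^ 2)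
    have e2 : (∑ k ∈ (bl K).filter (Qp P), ‖CS (pc h (p₁.pc P)) k‖ ^ 2 *
        ‖CS (pc h (p₂.pc P)) k‖ ^ 2) ^ 2 ≤ (G * Real.exp p₁.z * Real.exp p₂.z) ^ 2 := by
      refine e1.trans ?_
      simp only [← pow_mul]
      calc _ ≤ (G * Real.exp p₁.z ^ 2) * (G * Real.exp p₂.z ^ 2) := by
            refine mul_le_mul ?_ ?_ (Finset.sum_nonneg fun _ _ => by positivity) (by positivity)
            · exact a1
            · exact a2
        _ = _ := by ring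
    exact le_of_pow_le_pow_left₀ (by norm_num) (by positivity) e2
  -- the granular part
  have hgr : ∀ k : Eis, ((gs.map (Pq.pc P)).map fun p => ‖CS (pc h p) k‖ ^ 2).prod ≤
      (Cg ^ 2) ^ N * X ^ (ε / 8) := by
    intro k
    refine (gran_prod hP hCg hg k gs).trans ?_
    have e1 : (Cg ^ 2) ^ gs.length ≤ (Cg ^ 2) ^ N :=
      pow_le_pow_right₀ (one_le_pow₀ hCg) hgran.1
    have e2 : Real.exp (2 * (gs.map fun g => g.z).sum) ≤ X ^ (ε / 8) := by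
      apply rpow_le_of_log hX1
      rw [sum_z hX1]
      have m1 := (abs_le.1 (hgran.2.2 .mo)).2
      have m2 := (abs_le.1 (hgran.2.2 .am)).2
      have w1 : wt 0 0 Kd.mo = 0 := rfl
      have w2 : wt 0 0 Kd.am = 0 := rfl
      rw [w1] at m1
      rw [w2] at m2
      rw [← mul_assoc, mul_comm 2 (Real.log X), mul_assoc, mul_div_assoc, mul_comm, ]
      rw [div_mul_cancel₀ _ hl.ne']
      linarith
    gcongr
  have hfin : Rp P h (k * Real.log X) ([p₁, p₂] ++ gs) ≤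
      (G * Real.exp p₁.z * Real.exp p₂.z) * ((Cg ^ 2) ^ N * X ^ (ε / 8)) := by
    unfold Rp RQ
    rw [← hKdef]
    calc _ ≤ ∑ k ∈ (bl K).filter (Qp P), (‖CS (pc h (p₁.pc P)) k‖ ^ 2 *
          ‖CS (pc h (p₂.pc P)) k‖ ^ 2) * ((Cg ^ 2) ^ N * X ^ (ε / 8)) := by
          refine Finset.sum_le_sum fun k _ => ?_
          simp only [List.cons_append, List.nil_append, List.map_cons, List.prod_cons]
          rw [← mul_assoc]
          exact mul_le_mul_of_nonneg_left (hgr k) (by positivity)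
      _ = (∑ k ∈ (bl K).filter (Qp P), ‖CS (pc h (p₁.pc P)) k‖ ^ 2 *
          ‖CS (pc h (p₂.pc P)) k‖ ^ 2) * ((Cg ^ 2) ^ N * X ^ (ε / 8)) := by
          rw [Finset.sum_mul]
      _ ≤ _ := by gcongr
  refine hfin.trans ?_
  calc (G * Real.exp p₁.z * Real.exp p₂.z) * ((Cg ^ 2) ^ N * X ^ (ε / 8))
      = (C * Ct ^ 4 * (Cg ^ 2) ^ N) * (X ^ (3 * ε / 8) * K * Real.exp p₁.z * Real.exp p₂.z *
        X ^ (ε / 8)) := by rw [hG]; ring
    _ ≤ X ^ (ε / 8) * (X ^ (3 * ε / 8) * X ^ (κ + δ) * X ^ (y₁ + δ) * X ^ (y₂ + δ) *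
        X ^ (ε / 8)) := by gcongr
    _ = X ^ (ε / 8 + (3 * ε / 8 + (κ + δ) + (y₁ + δ) + (y₂ + δ) + ε / 8)) := by
        rw [← Real.rpow_add hX0, ← Real.rpow_add hX0, ← Real.rpow_add hX0, ← Real.rpow_add hX0,
          ← Real.rpow_add hX0]
    _ ≤ X ^ (κ + (y₁ + y₂) + ε) := by
        refine Real.rpow_le_rpow_of_exponent_le hX1.le ?_
        linarith

end Crest.Agent.R017.XTf164
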