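import Crest.Agent.R017.TXM2_791
import Crest.Agent.R017.TXG2_411
import Crest.Agent.R017.TX10_939
import Crest.Agent.R017.XTf_164

/-!
# Row 17: **the two-factor theorem**, every `χ`, generic or exceptional (helper791, 939, 411, 320)

`rules_c`  : `TwoEx791.Rules` for the concrete families.
`TF_fourth`: fourth moments over the nonprincipal `k`.
`TF_mixed` : mixed second moments (own heights) over the nonprincipal `k`.
`TF_gauss`, `TF_all` : differences of two shapes / single shapes over **all** `k ≠ 0`, Gauss side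
and character side, with the exact contribution of the principal `k`.
`TF4_NP`, `TF4_Qp` : the field `tf` (literal form of `XTf_164`).
-/

set_option autoImplicit false

noncomputable section

open Complex MeasureTheory Filter Topology
open scoped ContDiff

namespace Crest.Agent.R017.TXF791

open Crest.Agent.R012 Crest.Agent.R012.Eis Crest.Agent.R012.LS2
open Crest.Agent.R017.End699 Crest.Agent.R017.FE47 Crest.Agent.R017.Two939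
open Crest.Agent.R017.TwoEx791 Crest.Agent.R017.TXC791
open Crest.Agent.R017.Sup271 (NPm)
open Crest.Agent.R017.B770
open Crest.Agent.R017.Prov71 (Qp)
open Crest.Agent.R017.XTf164 (TF4)

/-- **the rules** -/
theorem rules_c {h : ℝ → ℝ} {c : ℝ} (hpu : PU h c) {M : Eis} {χ : Eis → ℂ} (hχ : HC M χ) (l : ℤ) :
    ∃ z : ℝ, Rules z (Vn h M χ l) (Wn h M χ l) (wdc h χ l) (tdc h χ l) :=
  rules_of hpu hχ l (TXG411.poisG hpu hχ l) (TP320.poisC_ex hpu hχ l) (TXM791.monoG_ex hpu hχ l)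

/-- **two-factor theorem, fourth moments, nonprincipal members, every `χ`** -/
theorem TF_fourth {h : ℝ → ℝ} {c : ℝ} (hpu : PU h c) {M : Eis} {χ : Eis → ℂ} (hχ : HC M χ)
    (l : ℤ) : ∀ ε : ℝ, 0 < ε → ∃ C A : ℝ, 1 ≤ C ∧ 0 ≤ A ∧ ∀ K Y t : ℝ, 1 ≤ K → 1 ≤ Y →
      Vn h M χ l K Y t ≤ C * (K * Y) ^ ε * (1 + |t|) ^ A := by
  intro ε hε
  obtain ⟨z, hR⟩ := rules_c hpu hχ l
  obtain ⟨C, A, hC1, hA, hb⟩ := two_factor hR ε hε
  refine ⟨C * 2 ^ ε, A, ?_, hA, fun K Y t hK hY => ?_⟩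
  · exact one_le_mul_of_one_le_of_one_le hC1 (Real.one_le_rpow (by norm_num) hε.le)
  have h1 := hb K Y t hK (hR.c_le.trans hY)
  refine h1.trans ?_
  have h2 : (K * (1 + Y)) ^ ε ≤ 2 ^ ε * (K * Y) ^ ε := by
    rw [← Real.mul_rpow (by norm_num) (by positivity)]
    refine Real.rpow_le_rpow (by positivity) ?_ hε.le
    nlinarith
  calc C * (K * (1 + Y)) ^ ε * (1 + |t|) ^ A
      ≤ C * (2 ^ ε * (K * Y) ^ ε) * (1 + |t|) ^ A := by gcongr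
    _ = _ := by ring

/-- the literal form of `XTf_164` -/
theorem TF4_NP {h : ℝ → ℝ} {c : ℝ} (hpu : PU h c) {M : Eis} {χ : Eis → ℂ} (hχ : HC M χ) (l : ℤ) :
    TF4 h χ l (NPm M χ l) := by
  classical
  intro ε hε
  obtain ⟨C, A, hC1, hA, hb⟩ := TF_fourth hpu hχ l ε hε
  refine ⟨C, A, by linarith, hA, fun K Y t hK hY => ?_⟩
  have h1 := hb K Y t hK hY
  unfold Vn at h1
  rw [div_le_iff₀ (by positivity)] at h1
  have e1 : (bl K).filter (NPm M χ l) = bn M χ l K := by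
    unfold bn
    congr
  rw [e1]
  exact h1

/-- the form of the provider -/
theorem TF4_Qp {h : ℝ → ℝ} {c : ℝ} (hpu : PU h c) {P : DPar} (hP : P.OK) :
    TF4 h P.ψ P.l₂ (Qp P) :=
  (TF4_NP hpu hP.ψ P.l₂).mono fun _ hk => hk.1.2

/-- **second moments, mixed heights, nonprincipal members** -/
theorem TF_mixed {h : ℝ → ℝ} {c : ℝ} (hpu : PU h c) {M : Eis} {χ : Eis → ℂ} (hχ : HC M χ) (l : ℤ) :
    ∀ ε : ℝ, 0 < ε → ∃ C A : ℝ, 1 ≤ C ∧ 0 ≤ A ∧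
    ∀ K Y1 Y2 t1 t2 : ℝ, 1 ≤ K → 1 ≤ Y1 → 1 ≤ Y2 → Wn h M χ l K Y1 Y2 t1 t2 ≤
      C * (K * Y1 * Y2) ^ ε * ((1 + |t1|) * (1 + |t2|)) ^ A := by
  intro ε hε
  obtain ⟨z, hR⟩ := rules_c hpu hχ l
  obtain ⟨C, A, hC1, hA, hb⟩ := two_factor_mixed hR ε hε
  refine ⟨C * 4 ^ ε, A, ?_, hA, fun K Y1 Y2 t1 t2 hK hY1 hY2 => ?_⟩
  · exact one_le_mul_of_one_le_of_one_le hC1 (Real.one_le_rpow (by norm_num) hε.le)
  have h1 := hb K Y1 Y2 t1 t2 hK (hR.c_le.trans hY1) (hR.c_le.trans hY2)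
  have h2 : (K * ((1 + Y1) * (1 + Y2))) ^ ε ≤ 4 ^ ε * (K * Y1 * Y2) ^ ε := by
    rw [← Real.mul_rpow (by norm_num) (by positivity)]
    refine Real.rpow_le_rpow (by positivity) ?_ hε.le
    have h3 : (1 + Y1) * (1 + Y2) ≤ (2 * Y1) * (2 * Y2) := by
      gcongr <;> linarith
    calc K * ((1 + Y1) * (1 + Y2)) ≤ K * ((2 * Y1) * (2 * Y2)) := by gcongr
      _ = _ := by ring
  refine h1.trans ?_
  calc C * (K * ((1 + Y1) * (1 + Y2))) ^ ε * ((1 + |t1|) * (1 + |t2|)) ^ A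
      ≤ C * (4 ^ ε * (K * Y1 * Y2) ^ ε) * ((1 + |t1|) * (1 + |t2|)) ^ A := by gcongr
    _ = _ := by ring

/-- **Gauss side, all `k ≠ 0`** -/
theorem TF_gauss {h : ℝ → ℝ} {c : ℝ} (hpu : PU h c) {M : Eis} {χ : Eis → ℂ} (hχ : HC M χ) (l : ℤ) :
    ∀ ε : ℝ, 0 < ε → ∃ C A : ℝ, 1 ≤ C ∧ 0 ≤ A ∧
    ∀ (o : Bool) (L : ℝ) (q : Qd) (t1 t2 : ℝ), 1 ≤ L → q.Ok →
      tdc h χ l o L q t1 t2 ≤ C * (L * q.sz) ^ ε * ((1 + |t1|) * (1 + |t2|)) ^ A *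
        (1 + q.N / L + L ^ (-(1 / 3 : ℝ)) * q.N ^ (-(1 / 3 : ℝ)) * Qd.pl o q) := by
  obtain ⟨z, hR⟩ := rules_c hpu hχ l
  exact two_factor_gauss hR

/-- **character side, all `k ≠ 0`** -/
theorem TF_all {h : ℝ → ℝ} {c : ℝ} (hpu : PU h c) {M : Eis} {χ : Eis → ℂ} (hχ : HC M χ) (l : ℤ) :
    ∀ ε : ℝ, 0 < ε → ∃ C A : ℝ, 1 ≤ C ∧ 0 ≤ A ∧
    ∀ (o : Bool) (K : ℝ) (q : Qd) (t1 t2 : ℝ), 1 ≤ K → q.Ok →
      wdc h χ l o K q t1 t2 ≤ C * (K * q.sz) ^ ε * ((1 + |t1|) * (1 + |t2|)) ^ A *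
        (1 + q.N / K + K ^ (-(2 / 3 : ℝ)) * Qd.pl o q) := by
  obtain ⟨z, hR⟩ := rules_c hpu hχ l
  exact two_factor_all hR

/-- **the field `tf` of `BRules`, every class** -/
theorem tf_all {h : ℝ → ℝ} {c : ℝ} (hpu : PU h c) {Lam : Type} (π : Lam → DPar)
    (hP : ∀ lam, (π lam).OK) {κ y₁ y₂ : ℝ} (hκ : 0 ≤ κ) (h1 : 0 ≤ y₁) (h2 : 0 ≤ y₂) :
    XG702.BG Prov71.Dq (fun lam => Prov71.Rp (π lam) h) κ [y₁, y₂] (Prov71.wt 0 0)
      (κ + (y₁ + y₂)) :=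
  XTf164.tf_BG π hP hpu (fun lam => TF4_Qp hpu (hP lam)) hκ h1 h2

end Crest.Agent.R017.TXF791
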