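import Crest.Agent.R017.ProvB_71
import Crest.Agent.R017.XCub_71
import Crest.Agent.R017.XHB4_411
import Crest.Agent.R017.SupI_271
import Crest.Agent.R017.XC6_858
import Crest.Agent.R017.XFl4_571
import Crest.Agent.R017.XTf_164
import Crest.Agent.R017.TXF_791

/-!
# Row 17, provider: assembly (helper71)

* `brules_of` : `BRules` for any family `π : Lam → DPar` from the open fields
-/

set_option autoImplicit false

noncomputable section

namespace Crest.Agent.R017.Prov71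

open Crest.Agent.R012 Crest.Agent.R012.Eis
open Crest.Agent.R017.XG702 (Pcs BG)
open Crest.Agent.R017.ER911
open Crest.Agent.R017.B770 Crest.Agent.R017.FE47 Crest.Agent.R017.End699

/-- the open fields of `BRules` -/
structure Open1 {Lam : Type*} (θ : ℝ) (π : Lam → DPar) (h : ℝ → ℝ) : Prop where
  poisC : ∀ (κ : ℝ) (u : List ℝ) (m a E : ℝ), 0 ≤ κ → Okl u m a →
    κ + (u.sum + m + a) ≤ E → 2 * (u.sum + m + a) ≤ E →
    (∀ (u' : List ℝ) (m' a' i : ℝ), Shl u' u → 0 ≤ m' → m' ≤ m → 0 ≤ a' → a' ≤ a → 0 ≤ i →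
      i ≤ 2 * (u'.sum + m' + a') - κ →
      BG Dq (fun lam => Sp (π lam) h) i u' (wt m' a') (E - (κ + (u.sum + m + a) -
        2 * (u'.sum + m' + a') + (2 * (u'.sum + m' + a') - κ - i) / 3))) →
    ∀ κ' : ℝ, 0 ≤ κ' → κ' ≤ κ →
      BG Dq (fun lam => Rp (π lam) h) κ' u (wt m a) (E - (κ - κ') / 3)
  poisG : ∀ (κ : ℝ) (u : List ℝ) (m a E : ℝ), 0 ≤ κ → Okl u m a →
    κ + (u.sum + m + a) ≤ E →
    (∀ (u' : List ℝ) (m' a' i : ℝ), Shl u' u → 0 ≤ m' → m' ≤ m → 0 ≤ a' → a' ≤ a → 0 ≤ i →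
      (∀ y ∈ u', y ≤ i) → i ≤ 2 * (u.sum + m + a) - κ →
      BG Dq (fun lam => Rp (π lam) h) i u' (wt m' a') (E - (κ - (u'.sum + m' + a') +
        (2 * (u.sum + m + a) - κ - i) / 3))) →
    (∀ (u' : List ℝ) (m' a' : ℝ), Shl u' u → 0 ≤ m' → m' ≤ m → 0 ≤ a' → a' ≤ a →
      κ ≤ 2 * (u.sum + m + a) →
      κ - (u'.sum + m' + a') + (2 * (u.sum + m + a) - κ) / 3 + 2 * a' + 2 * θ * m' ≤ E) →
    ∀ κ' : ℝ, 0 ≤ κ' → κ' ≤ κ →
      BG Dq (fun lam => Sp (π lam) h) κ' u (wt m a) (E - (κ - κ') / 3)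

theorem brules_of {Lam : Type*} {θ : ℝ} (hθ : 1 / 2 < θ) (hθ1 : θ ≤ 1) (hPF : PF Set.univ θ)
    {h : ℝ → ℝ} {c : ℝ} (hh : PU h c) {π : Lam → DPar} (hP : ∀ lam, (π lam).OK)
    (H : Open1 θ π h) :
    BRules θ Dq (fun lam => Rp (π lam) h) (fun lam => Sp (π lam) h) where
  permR := pinv_Rp π h
  permS := pinv_Sp π h
  trivR := XHB411.triv_Rp hP hh
  trivS := XHB411.triv_Sp hP hh
  hbC κ u m a _ _ := XHB411.bg_Rp hP hh κ u m a
  hbG κ u m a _ _ := XHB411.bg_Sp hP hh κ u m a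
  tf κ y₁ y₂ h1 h2 h3 _ := XTf164.tf_BG π hP hh
    (fun lam => TXF791.TF4_Qp hh (hP lam)) (h1.trans h3) h1 h2
  poisC := H.poisC
  poisG := H.poisG
  cau := XC858.cau_858 hP hh
  cauS := XC858.cauS_858 hP hh
  flip := XFl571.flip_Rp hP hh
  sup := SupI271.sup_271 hθ hθ1 hPF hh π hP
  supS := SupI271.supS_271 hθ hθ1 hPF hh π hP

end Crest.Agent.R017.Prov71
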