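import Crest.Agent.R017.XG2_702
import Crest.Agent.R017.ExpRules_911

/-!
# Row 17, provider spine (helper71): from `BG` statements to `ExpRules` (helper911)

* `Kd` : the two granular kinds (Möbius, amplifier), `wt m a`
* `ex D Ψ : EF` : the least nonnegative exponent of `Ψ`
* `BRules θ D R S` : the rules as statements about `BG` (lists of pieces)
* `BRules.exp : BRules θ D R S → ExpRules θ (ex D R) (ex D S)`
-/

set_option autoImplicit false

noncomputable section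

namespace Crest.Agent.R017.Prov71

open Crest.Agent.R017.XG702 (Pcs BG)
open Crest.Agent.R017.ER911

/-- granular kinds -/
inductive Kd | mo | am
  deriving DecidableEq

instance : Fintype Kd := ⟨{Kd.mo, Kd.am}, fun t => by cases t <;> simp⟩

/-- the masses -/
def wt (m a : ℝ) : Kd → ℝ
  | .mo => m
  | .am => a

lemma wt_nonneg {m a : ℝ} (hm : 0 ≤ m) (ha : 0 ≤ a) (t : Kd) : 0 ≤ wt m a t := by
  cases t <;> assumption

variable {Pc Lam : Type*} {D : Pcs Pc Kd} {Ψ R S : Lam → ℝ → List Pc → ℝ}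

/-- the least nonnegative exponent -/
def ex (D : Pcs Pc Kd) (Ψ : Lam → ℝ → List Pc → ℝ) : EF := fun κ Y m a =>
  sInf {e | 0 ≤ e ∧ BG D Ψ κ Y.toList (wt m a) e}

lemma ex_nonneg (κ : ℝ) (Y : Multiset ℝ) (m a : ℝ) : 0 ≤ ex D Ψ κ Y m a :=
  Real.sInf_nonneg fun _ he => he.1

lemma ex_bdd (κ : ℝ) (Y : Multiset ℝ) (m a : ℝ) :
    BddBelow {e | 0 ≤ e ∧ BG D Ψ κ Y.toList (wt m a) e} := ⟨0, fun _ he => he.1⟩

lemma ex_le' {κ : ℝ} {Y : Multiset ℝ} {m a e : ℝ} (he : 0 ≤ e)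
    (h : BG D Ψ κ Y.toList (wt m a) e) : ex D Ψ κ Y m a ≤ e :=
  csInf_le (ex_bdd κ Y m a) ⟨he, h⟩

/-- permutation invariance -/
def Pinv (Ψ : Lam → ℝ → List Pc → ℝ) : Prop :=
  ∀ lam l ps qs, ps.Perm qs → Ψ lam l ps = Ψ lam l qs

lemma BG_toList (hΨ : Pinv Ψ) {κ : ℝ} {u : List ℝ} {w : Kd → ℝ} {e : ℝ} :
    BG D Ψ κ (u : Multiset ℝ).toList w e ↔ BG D Ψ κ u w e := by
  have hp : (u : Multiset ℝ).toList.Perm u := by
    rw [← Multiset.coe_eq_coe, Multiset.coe_toList]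
  exact ⟨fun h => XG702.BG.perm hΨ h hp, fun h => XG702.BG.perm hΨ h hp.symm⟩

lemma ex_le (hΨ : Pinv Ψ) {κ : ℝ} {u : List ℝ} {m a e : ℝ} (he : 0 ≤ e)
    (h : BG D Ψ κ u (wt m a) e) : ex D Ψ κ u m a ≤ e :=
  ex_le' he ((BG_toList hΨ).2 h)

/-- nonnegative lists -/
def Okl (u : List ℝ) (m a : ℝ) : Prop := (∀ y ∈ u, 0 ≤ y) ∧ 0 ≤ m ∧ 0 ≤ a

/-- a trivial bound exists -/
def Triv (D : Pcs Pc Kd) (Ψ : Lam → ℝ → List Pc → ℝ) : Prop :=
  ∀ (κ : ℝ) (u : List ℝ) (m a : ℝ), 0 ≤ κ → Okl u m a → ∃ e, BG D Ψ κ u (wt m a) e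

/-- the exponent is attained -/
lemma ex_spec (hΨ : Pinv Ψ) (ht : Triv D Ψ) {κ : ℝ} {u : List ℝ} {m a : ℝ} (hκ : 0 ≤ κ)
    (hu : Okl u m a) : BG D Ψ κ u (wt m a) (ex D Ψ κ u m a) := by
  refine XG702.BG.of_forall fun e' he' => ?_
  obtain ⟨e₀, he₀⟩ := ht κ u m a hκ hu
  have hne : {e | 0 ≤ e ∧ BG D Ψ κ (u : Multiset ℝ).toList (wt m a) e}.Nonempty :=
    ⟨max e₀ 0, le_max_right _ _, (BG_toList hΨ).2 (he₀.mono (le_max_left _ _))⟩
  obtain ⟨e, he, hlt⟩ := exists_lt_of_csInf_lt hne he'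
  exact ((BG_toList hΨ).1 he.2).mono hlt.le

lemma BG_of_ex (hΨ : Pinv Ψ) (ht : Triv D Ψ) {κ : ℝ} {u : List ℝ} {m a e : ℝ} (hκ : 0 ≤ κ)
    (hu : Okl u m a) (h : ex D Ψ κ u m a ≤ e) : BG D Ψ κ u (wt m a) e :=
  (ex_spec hΨ ht hκ hu).mono h

/-- shortenings of lists -/
def Shl (u' u : List ℝ) : Prop := List.Forall₂ (fun a b => 0 ≤ a ∧ a ≤ b) u' u

lemma Shl.sh {u' u : List ℝ} (h : Shl u' u) : Sh (u' : Multiset ℝ) (u : Multiset ℝ) := by
  unfold Shl at h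
  induction h with
  | nil => exact Multiset.Rel.zero
  | cons h1 _ ih =>
    rw [← Multiset.cons_coe, ← Multiset.cons_coe]
    exact Multiset.Rel.cons h1 ih

lemma Shl.nonneg {u' u : List ℝ} (h : Shl u' u) : ∀ y ∈ u', 0 ≤ y := by
  intro y hy
  exact h.sh.nonneg y (by simpa using hy)

/-- **the rules at the level of `BG`** -/
structure BRules (θ : ℝ) (D : Pcs Pc Kd) (R S : Lam → ℝ → List Pc → ℝ) : Prop where
  permR : Pinv R
  permS : Pinv S
  trivR : Triv D R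
  trivS : Triv D S
  hbC : ∀ (κ : ℝ) (u : List ℝ) (m a : ℝ), 0 ≤ κ → Okl u m a →
    BG D R κ u (wt m a) (max (κ + (u.sum + m + a)) (max (2 * (u.sum + m + a) + κ / 3)
      ((u.sum + m + a) + 2 / 3 * (κ + (u.sum + m + a)))))
  hbG : ∀ (κ : ℝ) (u : List ℝ) (m a : ℝ), 0 ≤ κ → Okl u m a →
    BG D S κ u (wt m a) (max (κ + (u.sum + m + a)) (max (2 * (u.sum + m + a) + κ / 3)
      ((u.sum + m + a) + 2 / 3 * (κ + (u.sum + m + a)))))
  tf : ∀ κ y₁ y₂ : ℝ, 0 ≤ y₁ → 0 ≤ y₂ → y₁ ≤ κ → y₂ ≤ κ →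
    BG D R κ [y₁, y₂] (wt 0 0) (κ + (y₁ + y₂))
  poisC : ∀ (κ : ℝ) (u : List ℝ) (m a E : ℝ), 0 ≤ κ → Okl u m a →
    κ + (u.sum + m + a) ≤ E → 2 * (u.sum + m + a) ≤ E →
    (∀ (u' : List ℝ) (m' a' i : ℝ), Shl u' u → 0 ≤ m' → m' ≤ m → 0 ≤ a' → a' ≤ a → 0 ≤ i →
      i ≤ 2 * (u'.sum + m' + a') - κ →
      BG D S i u' (wt m' a') (E - (κ + (u.sum + m + a) - 2 * (u'.sum + m' + a') +
        (2 * (u'.sum + m' + a') - κ - i) / 3))) →
    ∀ κ' : ℝ, 0 ≤ κ' → κ' ≤ κ → BG D R κ' u (wt m a) (E - (κ - κ') / 3)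
  poisG : ∀ (κ : ℝ) (u : List ℝ) (m a E : ℝ), 0 ≤ κ → Okl u m a →
    κ + (u.sum + m + a) ≤ E →
    (∀ (u' : List ℝ) (m' a' i : ℝ), Shl u' u → 0 ≤ m' → m' ≤ m → 0 ≤ a' → a' ≤ a → 0 ≤ i →
      (∀ y ∈ u', y ≤ i) → i ≤ 2 * (u.sum + m + a) - κ →
      BG D R i u' (wt m' a') (E - (κ - (u'.sum + m' + a') +
        (2 * (u.sum + m + a) - κ - i) / 3))) →
    (∀ (u' : List ℝ) (m' a' : ℝ), Shl u' u → 0 ≤ m' → m' ≤ m → 0 ≤ a' → a' ≤ a →
      κ ≤ 2 * (u.sum + m + a) →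
      κ - (u'.sum + m' + a') + (2 * (u.sum + m + a) - κ) / 3 + 2 * a' + 2 * θ * m' ≤ E) →
    ∀ κ' : ℝ, 0 ≤ κ' → κ' ≤ κ → BG D S κ' u (wt m a) (E - (κ - κ') / 3)
  cau : ∀ (κ : ℝ) (u : List ℝ) (m a b c e : ℝ), 0 ≤ κ → Okl u m a → 0 ≤ b → b ≤ m → 0 ≤ c →
    c ≤ a → BG D S (κ + (b + c)) u (wt (m - b) (a - c)) e → BG D S κ u (wt m a) ((b + c) + e)
  cauS : ∀ (κ y : ℝ) (u : List ℝ) (m a e : ℝ), 0 ≤ κ → 0 ≤ y → Okl u m a →
    BG D S (κ + y) u (wt m a) e → BG D S κ (y :: u) (wt m a) (y + e)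
  flip : ∀ (κ y : ℝ) (u : List ℝ) (m a E : ℝ), 0 ≤ κ → 0 ≤ y → Okl u m a →
    (∀ y' : ℝ, 0 ≤ y' → y' ≤ y → 2 * y' ≤ κ → BG D R κ (y' :: u) (wt m a) E) →
    (∀ y' t : ℝ, y' ≤ y → y' ≤ κ → κ ≤ 2 * y' → 0 ≤ t → t ≤ κ - y' →
      BG D R κ ((κ - t - y') :: u) (wt m a) (E - (2 * y' - κ + t))) →
    BG D R κ (y :: u) (wt m a) E
  sup : ∀ (κ : ℝ) (u : List ℝ) (m a b c e : ℝ), 0 ≤ κ → Okl u m a → 0 ≤ b → b ≤ m → 0 ≤ c →
    c ≤ a → BG D R κ u (wt (m - b) (a - c)) e → BG D R κ u (wt m a) (2 * θ * (b + c) + e)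
  supS : ∀ (κ y : ℝ) (u : List ℝ) (m a e : ℝ), 0 ≤ κ → 0 ≤ y → Okl u m a →
    BG D R κ u (wt m a) e → BG D R κ (y :: u) (wt m a) (2 * θ * y + e)

theorem sum_toList (Y : Multiset ℝ) : Y.toList.sum = Y.sum := by
  conv_rhs => rw [← Multiset.coe_toList Y]
  rw [Multiset.sum_coe]

lemma okl_of {Y : Multiset ℝ} {m a : ℝ} (h : Ok Y m a) : Okl Y.toList m a :=
  ⟨fun y hy => h.1 y (Multiset.mem_toList.1 hy), h.2.1, h.2.2⟩

lemma sum_nonneg_of {Y : Multiset ℝ} {m a : ℝ} (h : Ok Y m a) : 0 ≤ Y.sum + m + a := by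
  have := Multiset.sum_nonneg h.1
  linarith [h.2.1, h.2.2]

/-- **the exponent rules** -/
theorem BRules.exp {θ : ℝ} (hθ : 0 ≤ θ) (H : BRules θ D R S) :
    ExpRules θ (ex D R) (ex D S) where
  hbC := by
    intro κ Y m a hκ hY
    have h := H.hbC κ Y.toList m a hκ (okl_of hY)
    rw [sum_toList] at h
    exact ex_le' (le_max_of_le_left (by linarith [sum_nonneg_of hY])) h
  hbG := by
    intro κ Y m a hκ hY
    have h := H.hbG κ Y.toList m a hκ (okl_of hY)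
    rw [sum_toList] at h
    exact ex_le' (le_max_of_le_left (by linarith [sum_nonneg_of hY])) h
  tf := by
    intro κ y₁ y₂ h1 h2 h3 h4
    have h := H.tf κ y₁ y₂ h1 h2 h3 h4
    have := ex_le H.permR (by linarith) h
    exact this
  poisC := by
    intro κ Y m a E hκ hY hE1 hE2 hch κ' hκ' hκκ
    have h := H.poisC κ Y.toList m a E hκ (okl_of hY) (by rw [sum_toList]; exact hE1)
      (by rw [sum_toList]; exact hE2) (fun u' m' a' i hsh hm0 hm1 ha0 ha1 hi0 hi1 => by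
        have hsh' : Sh (u' : Multiset ℝ) Y := by
          have := hsh.sh
          rwa [Multiset.coe_toList] at this
        have hsum : (u' : Multiset ℝ).sum = u'.sum := Multiset.sum_coe u'
        have h1 := hch (u' : Multiset ℝ) m' a' i hsh' hm0 hm1 ha0 ha1 hi0 (by rw [hsum]; exact hi1)
        rw [hsum] at h1
        refine BG_of_ex H.permS H.trivS hi0 ⟨hsh.nonneg, hm0, ha0⟩ ?_
        rw [sum_toList]
        linarith) κ' hκ' hκκ
    have h2 := ex_le' (D := D) (Ψ := R) (by linarith [sum_nonneg_of hY]) h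
    linarith
  poisG := by
    intro κ Y m a E hκ hY hE1 hch hcube κ' hκ' hκκ
    have h := H.poisG κ Y.toList m a E hκ (okl_of hY) (by rw [sum_toList]; exact hE1)
      (fun u' m' a' i hsh hm0 hm1 ha0 ha1 hi0 hyi hi1 => by
        have hsh' : Sh (u' : Multiset ℝ) Y := by
          have := hsh.sh
          rwa [Multiset.coe_toList] at this
        have hsum : (u' : Multiset ℝ).sum = u'.sum := Multiset.sum_coe u'
        rw [sum_toList] at hi1
        have h1 := hch (u' : Multiset ℝ) m' a' i hsh' hm0 hm1 ha0 ha1 hi0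
          (fun y hy => hyi y (by simpa using hy)) hi1
        rw [hsum] at h1
        refine BG_of_ex H.permR H.trivR hi0 ⟨hsh.nonneg, hm0, ha0⟩ ?_
        rw [sum_toList]
        linarith)
      (fun u' m' a' hsh hm0 hm1 ha0 ha1 hk => by
        have hsh' : Sh (u' : Multiset ℝ) Y := by
          have := hsh.sh
          rwa [Multiset.coe_toList] at this
        have hsum : (u' : Multiset ℝ).sum = u'.sum := Multiset.sum_coe u'
        rw [sum_toList] at hk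
        have h1 := hcube (u' : Multiset ℝ) m' a' hsh' hm0 hm1 ha0 ha1 hk
        rw [hsum] at h1
        rw [sum_toList]
        exact h1) κ' hκ' hκκ
    have h2 := ex_le' (D := D) (Ψ := S) (by linarith [sum_nonneg_of hY]) h
    linarith
  cau := by
    intro κ Y m a b c hκ hY hb0 hb1 hc0 hc1
    have h0 : Okl Y.toList (m - b) (a - c) :=
      ⟨(okl_of hY).1, by linarith, by linarith⟩
    have h1 := ex_spec H.permS H.trivS (κ := κ + (b + c)) (by linarith) h0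
    have h2 := H.cau κ Y.toList m a b c _ hκ (okl_of hY) hb0 hb1 hc0 hc1 h1
    have h3 := ex_le' (D := D) (Ψ := S) (by
      have := ex_nonneg (D := D) (Ψ := S) (κ + (b + c)) Y.toList (m - b) (a - c)
      linarith) h2
    rwa [Multiset.coe_toList] at h3
  cauS := by
    intro κ y Y m a hκ hy hY
    have h1 := ex_spec H.permS H.trivS (κ := κ + y) (by linarith) (okl_of hY)
    have h2 := H.cauS κ y Y.toList m a _ hκ hy (okl_of hY) h1
    have h3 := ex_le H.permS (by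
      have := ex_nonneg (D := D) (Ψ := S) (κ + y) Y.toList m a
      linarith) h2
    rw [← Multiset.cons_coe, Multiset.coe_toList] at h3
    exact h3
  flip := by
    intro κ y Y m a E hκ hy hY h1 h2
    have hE : 0 ≤ E := (ex_nonneg κ (0 ::ₘ Y) m a).trans (h1 0 le_rfl hy (by linarith))
    have hok : ∀ z : ℝ, 0 ≤ z → Okl (z :: Y.toList) m a := fun z hz =>
      ⟨fun x hx => by
        rcases List.mem_cons.1 hx with rfl | hx
        · exact hz
        · exact (okl_of hY).1 x hx, hY.2.1, hY.2.2⟩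
    have hcoe : ∀ z : ℝ, ((z :: Y.toList : List ℝ) : Multiset ℝ) = z ::ₘ Y := fun z => by
      rw [← Multiset.cons_coe, Multiset.coe_toList]
    have h := H.flip κ y Y.toList m a E hκ hy (okl_of hY)
      (fun y' h3 h4 h5 => BG_of_ex H.permR H.trivR hκ (hok y' h3)
        (by rw [hcoe]; exact h1 y' h3 h4 h5))
      (fun y' t h3 h4 h5 h6 h7 => BG_of_ex H.permR H.trivR hκ (hok _ (by linarith))
        (by rw [hcoe]; linarith [h2 y' t h3 h4 h5 h6 h7]))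
    have h3 := ex_le H.permR hE h
    rwa [hcoe] at h3
  sup := by
    intro κ Y m a b c hκ hY hb0 hb1 hc0 hc1
    have h0 : Okl Y.toList (m - b) (a - c) :=
      ⟨(okl_of hY).1, by linarith, by linarith⟩
    have h1 := ex_spec H.permR H.trivR (κ := κ) hκ h0
    have h2 := H.sup κ Y.toList m a b c _ hκ (okl_of hY) hb0 hb1 hc0 hc1 h1
    have h3 := ex_le' (D := D) (Ψ := R) (by
      have := ex_nonneg (D := D) (Ψ := R) κ Y.toList (m - b) (a - c)
      positivity) h2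
    rwa [Multiset.coe_toList] at h3
  supS := by
    intro κ y Y m a hκ hy hY
    have h1 := ex_spec H.permR H.trivR (κ := κ) hκ (okl_of hY)
    have h2 := H.supS κ y Y.toList m a _ hκ hy (okl_of hY) h1
    have h3 := ex_le H.permR (by
      have := ex_nonneg (D := D) (Ψ := R) κ Y.toList m a
      positivity) h2
    rw [← Multiset.cons_coe, Multiset.coe_toList] at h3
    exact h3
  zero := by
    intro κ Y m a hκ hY
    have h1 := XG702.BG.zero H.permR (ex_spec H.permR H.trivR (κ := κ) hκ (okl_of hY))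
    have h3 := ex_le H.permR (ex_nonneg _ _ _ _) h1
    rw [← Multiset.cons_coe, Multiset.coe_toList] at h3
    exact h3
  zeroG := by
    intro κ Y m a hκ hY
    have h1 := XG702.BG.zero H.permS (ex_spec H.permS H.trivS (κ := κ) hκ (okl_of hY))
    have h3 := ex_le H.permS (ex_nonneg _ _ _ _) h1
    rw [← Multiset.cons_coe, Multiset.coe_toList] at h3
    exact h3

end Crest.Agent.R017.Prov71
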