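import Crest.Agent.R017.Sup_271
import Crest.Agent.R017.PX1_764

/-!
# Row 17, exceptional class (helper545): the form of an exceptional character

If `ψ (k/·)` is principal for some `k ≠ 0` then `ψ = conj (k0/·)` on everything prime to `n`, with
`k0` composed of primes dividing `n`.
-/

set_option autoImplicit false

noncomputable section

open scoped ComplexConjugate

namespace Crest.Agent.R017.PsiEx545

open Crest.Agent.R012 Crest.Agent.R012.Eis Crest.Agent.R012.Mob705 Crest.Agent.R012.Gauss880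
open Crest.Agent.R012.PSer47 Crest.Agent.R012.Div277 Crest.Agent.R012.Char766
open Crest.Agent.R017.End699 Crest.Agent.R017.Sup271

lemma prime_dvd {n k : Eis} {ψ : Eis → ℂ} (hc : HC n ψ) {i j : ℕ} {k1 k2 m : Eis}
    (hd : IsCubDec k i j k1 k2 m) (hk : k ≠ 0)
    (hp : ∀ b, IsPrim b → IsCoprime b (n * (9 * k)) → ψ b * sy k b = 1) {p : Eis}
    (hpp : Mob705.IsPP p) (hpk : p ∣ k1 * k2) : p ∣ n := by
  by_contra hn
  have h9 : (9 : Eis) ≠ 0 := by norm_num
  set M : Eis := n * (9 * k) with hMdef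
  have hM : M ≠ 0 := mul_ne_zero hc.q0 (mul_ne_zero h9 hk)
  have h9M : (9 : Eis) ∣ M := ⟨n * k, by rw [hMdef]; ring⟩
  have hhM : k ∣ M := ⟨9 * n, by rw [hMdef]; ring⟩
  have hnM : n ∣ M := ⟨9 * k, by rw [hMdef]⟩
  have hk1h : k1 ∣ k := ⟨w ^ i * lam ^ j * k2 ^ 2 * m ^ 3, by rw [hd.eq]; ring⟩
  have hk2h : k2 ∣ k := ⟨w ^ i * lam ^ j * k1 * k2 * m ^ 3, by rw [hd.eq]; ring⟩
  have hmh : m ∣ k := ⟨w ^ i * lam ^ j * k1 * k2 ^ 2 * m ^ 2, by rw [hd.eq]; ring⟩
  obtain ⟨b, hb1, hb2, hb3, hb4, hb5⟩ := exists_test hpp.prime hpp.isPrim hM h9M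
  have hpn : IsCoprime p n := hpp.prime.irreducible.coprime_iff_not_dvd.2 hn
  have hψ : ψ b = 1 := by
    rw [hc.per b 1 hb1 isPrim_one (hb5 n hpn hnM), hc.char.one]
  have h1 := hp b hb1 hb2
  rw [hψ, one_mul] at h1
  have hmb : IsCoprime m b := (hb2.of_isCoprime_of_dvd_right (hmh.trans hhM)).symm
  have hw : sy w b = 1 := by rw [suppl.w9 b 1 hb1 isPrim_one hb4, sy_one_right]
  have hl : sy lam b = 1 := by rw [suppl.lam9 b 1 hb1 isPrim_one hb4, sy_one_right]
  rw [hd.sy_eq hb1 hmb, hw, hl, one_pow, one_pow, one_mul, one_mul] at h1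
  rcases hpp.prime.dvd_or_dvd hpk with h | h
  · obtain ⟨t, ht⟩ := h
    have htP : IsPrim t := (ht ▸ hd.prim1).of_mul_left hpp.isPrim
    have hpt : IsCoprime p t := by
      rw [hpp.prime.irreducible.coprime_iff_not_dvd]
      rintro ⟨s, hs⟩
      refine hpp.prime.not_isUnit (hd.sqf1 p ⟨s, ?_⟩)
      rw [ht, hs]; ring
    have hpk2 : IsCoprime p k2 := (hd.cop).of_isCoprime_of_dvd_left ⟨t, ht⟩
    have e1 : sy b k2 = 1 := by
      rw [sy_congr hd.prim2 (hb5 k2 hpk2 (hk2h.trans hhM)), sy_one_left hd.prim2]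
    have e2 : sy b k1 = wC := by
      rw [ht, sy_mul_right hpp.isPrim htP, hb3,
        sy_congr htP (hb5 t hpt ((Dvd.intro_left p ht.symm).trans (hk1h.trans hhM))),
        sy_one_left htP, mul_one]
    rw [e1, e2] at h1
    exact wC_ne_one (by simpa using h1)
  · obtain ⟨t, ht⟩ := h
    have htP : IsPrim t := (ht ▸ hd.prim2).of_mul_left hpp.isPrim
    have hpt : IsCoprime p t := by
      rw [hpp.prime.irreducible.coprime_iff_not_dvd]
      rintro ⟨s, hs⟩
      refine hpp.prime.not_isUnit (hd.sqf2 p ⟨s, ?_⟩)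
      rw [ht, hs]; ring
    have hpk1 : IsCoprime p k1 := (hd.cop.symm).of_isCoprime_of_dvd_left ⟨t, ht⟩
    have e1 : sy b k1 = 1 := by
      rw [sy_congr hd.prim1 (hb5 k1 hpk1 (hk1h.trans hhM)), sy_one_left hd.prim1]
    have e2 : sy b k2 = wC := by
      rw [ht, sy_mul_right hpp.isPrim htP, hb3,
        sy_congr htP (hb5 t hpt ((Dvd.intro_left p ht.symm).trans (hk2h.trans hhM))),
        sy_one_left htP, mul_one]
    have e3 : conj (sy b k2) = wC ^ 2 := by
      rw [conj_sy hd.prim2, e2]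
    rw [e1, e3, one_mul] at h1
    exact wC_sq_ne_one h1

/-- a primary `b' ≡ b` modulo `M`, prime to `m` -/
lemma exists_shift {M m b : Eis} (h9 : (9 : Eis) ∣ M) (hm : m ≠ 0) (hb : IsPrim b)
    (hbM : IsCoprime b M) : ∃ b', IsPrim b' ∧ IsCoprime b' M ∧ IsCoprime b' m ∧ M ∣ b' - b := by
  classical
  set T : Finset Eis := (pp m).filter (fun p => ¬ p ∣ b) with hT
  have hTP : PPSet T := (ppSet_pp m).subset (Finset.filter_subset _ _)
  set t : Eis := ∏ p ∈ T, p with ht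
  have hb'p : IsPrim (b + M * t) := by
    obtain ⟨c, hc⟩ := h9
    unfold IsPrim at *
    have e : b + M * t - 1 = (b - 1) + 3 * (3 * c * t) := by rw [hc]; ring
    rw [e]
    exact dvd_add hb (dvd_mul_right _ _)
  refine ⟨b + M * t, hb'p, hbM.add_mul_left_left t, ?_, ⟨t, by ring⟩⟩
  rw [isCoprime_iff_pp hb'p]
  intro p hp hpb hpm
  by_cases h : p ∣ b
  · have h1 : p ∣ M * t := (dvd_add_right h).1 hpb
    rcases hp.prime.dvd_or_dvd h1 with h2 | h2
    · exact hp.prime.not_isUnit (hbM.isUnit_of_dvd' h h2)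
    · have h3 := (hTP.dvd_prod hp).1 h2
      rw [hT, Finset.mem_filter] at h3
      exact h3.2 h
  · have h1 : p ∈ T := by
      rw [hT, Finset.mem_filter]
      exact ⟨(mem_pp hm).2 ⟨hp, hpm⟩, h⟩
    have h2 : p ∣ M * t := ((hTP.dvd_prod hp).2 h1).mul_left M
    exact h ((dvd_add_left h2).1 hpb)

/-- **the exceptional characters** -/
theorem psi_form {n k : Eis} {ψ : Eis → ℂ} {l : ℤ} (hc : HC n ψ) (hk : k ≠ 0)
    (h : ¬ NPm n ψ l k) : l = 0 ∧ ∃ k0 : Eis, k0 ≠ 0 ∧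
      (∀ p, Mob705.IsPP p → p ∣ k0 → p ∣ n) ∧
      ∀ b, IsPrim b → IsCoprime b n → ψ b = conj (sy k0 b) := by
  unfold NPm NP at h
  push Not at h
  obtain ⟨hl, hp⟩ := h
  refine ⟨hl, ?_⟩
  obtain ⟨i, j, k1, k2, m, hd⟩ := exists_isCubDec hk
  set k0 : Eis := w ^ i * lam ^ j * k1 * k2 ^ 2 with hk0
  have hkk : k = k0 * m ^ 3 := hd.eq
  have hk00 : k0 ≠ 0 := by
    intro h0
    rw [hkk, h0, zero_mul] at hk
    exact hk rfl
  have hprime : ∀ p, Mob705.IsPP p → p ∣ k0 → p ∣ n := by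
    intro p hpp hpk
    refine prime_dvd hc hd hk hp hpp ?_
    have hpl : ¬ p ∣ lam ^ j := by
      intro h1
      have h2 : p ∣ lam := hpp.prime.dvd_of_dvd_pow h1
      exact hpp.prime.not_isUnit (hpp.isPrim.isCoprime_lam.isUnit_of_dvd' dvd_rfl h2)
    have hpw : ¬ p ∣ w ^ i := by
      intro h1
      exact hpp.prime.not_isUnit (isUnit_of_dvd_unit h1 (isUnit_w.pow i))
    rw [hk0] at hpk
    rcases hpp.prime.dvd_or_dvd hpk with h1 | h1
    · rcases hpp.prime.dvd_or_dvd h1 with h2 | h2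
      · rcases hpp.prime.dvd_or_dvd h2 with h3 | h3
        · exact absurd h3 hpw
        · exact absurd h3 hpl
      · exact h2.mul_right k2
    · exact (hpp.prime.dvd_of_dvd_pow h1).mul_left k1
  refine ⟨k0, hk00, hprime, fun b hb hbn => ?_⟩
  have hb9 : IsCoprime b 9 := by
    have h3 : IsCoprime b 3 := hbn.of_isCoprime_of_dvd_right hc.three
    rw [show (9 : Eis) = 3 * 3 by norm_num]
    exact h3.mul_right h3
  have hbk0 : IsCoprime b k0 := by
    rw [isCoprime_iff_pp hb]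
    intro p hpp hpb hpk
    exact hpp.prime.not_isUnit (hbn.isUnit_of_dvd' hpb (hprime p hpp hpk))
  have hbM : IsCoprime b (n * (9 * k0)) := hbn.mul_right (hb9.mul_right hbk0)
  obtain ⟨b', h1, h2, h3, h4⟩ := exists_shift (M := n * (9 * k0)) (m := m)
    ⟨n * k0, by ring⟩ hd.ne hb hbM
  have h5 : IsCoprime b' (n * (9 * k)) := by
    rw [hkk]
    refine h2.of_mul_right_left.mul_right (h2.of_mul_right_right.of_mul_right_left.mul_right ?_)
    exact h2.of_mul_right_right.of_mul_right_right.mul_right h3.pow_right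
  have h6 := hp b' h1 h5
  have h7 : ψ b' = ψ b := hc.per b' b h1 hb ((dvd_mul_right n _).trans h4)
  have h8 : sy k b' = sy k0 b := by
    rw [hkk, PX764.sy_cube_left h1 k0 h3.symm]
    exact sy_periodic suppl hk00 h1 hb ((dvd_mul_left (9 * k0) n).trans h4)
  rw [h7, h8] at h6
  have h9 : ‖sy k0 b‖ = 1 := PX764.norm_sy_one hb hbk0.symm
  have h10 : sy k0 b * conj (sy k0 b) = 1 := by
    rw [Complex.mul_conj, Complex.normSq_eq_norm_sq, h9]; norm_num
  calc ψ b = ψ b * (sy k0 b * conj (sy k0 b)) := by rw [h10, mul_one]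
    _ = (ψ b * sy k0 b) * conj (sy k0 b) := by ring
    _ = _ := by rw [h6, one_mul]

end Crest.Agent.R017.PsiEx545
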