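import Crest.Agent.R017.RGwH_813
import Crest.Agent.R017.NtC3_320

/-!
# Row 17, C.REMg (helper813): removal of windows and heights from arbitrary quadratic functionals

For `Φ β = ∑ x ∈ X, W x * ‖Λ x β‖ ^ 2` with linear `Λ x` (320's `Lin`):
* `sq_win` : `Φ (wn φ α · n^{it}) ≤ C² iA ∫ ew η s Φ (α · n^{i(t+s)})`
* `sq_win_pt` : polynomial growth in the height is preserved, cost `η^{-J}`
* `sq_bt` : the same for the twisted windows `bt φ α p`
* `CS_tw2` : the nine twists on the character side are changes of the frequency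
-/

set_option autoImplicit false

noncomputable section

open Complex MeasureTheory Filter Topology
open scoped ComplexConjugate Classical

namespace Crest.Agent.R017.QFw813

open Crest.Agent.R012 Crest.Agent.R012.Eis
open Crest.Agent.R012.Weight600 (osc pw)
open Crest.Agent.R017.CM106 (CS TG FS)
open Crest.Agent.R017.NtC320 (Lin QF)
open Crest.Agent.R017.Win813
open Crest.Agent.R017.RGw813

/-- the unit sequence at `b` -/
def dl (b : Eis) : Eis → ℂ := fun n => if n = b then 1 else 0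

lemma FS_dl {b : Eis} (hb : IsPrim b) : FS (dl b) where
  fin := (Set.finite_singleton b).subset fun n hn => by
    by_contra h
    exact hn (if_neg h)
  prim := fun n hn => by
    have : n = b := by
      by_contra h
      exact hn (if_neg h)
    rw [this]; exact hb

/-- a linear functional as a linear form with a height -/
lemma Lin_HF {Λ : (Eis → ℂ) → ℂ} (hΛ : Lin Λ) {α : Eis → ℂ} (h : FS α) (t : ℝ) :
    Λ (fun n => α n * pw t (nm n)) =
      HF h.fin.toFinset (fun b => b) (fun b => α b * Λ (dl b)) t := by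
  have e1 : (fun n => α n * pw t (nm n)) =
      fun n => ∑ b ∈ h.fin.toFinset, (α b * pw t (nm b)) * dl b n := by
    funext n
    by_cases hn : α n = 0
    · rw [hn, zero_mul, Finset.sum_eq_zero]
      intro b hb
      have hb' : α b ≠ 0 := h.fin.mem_toFinset.1 hb
      have : n ≠ b := fun h0 => hb' (h0 ▸ hn)
      unfold dl
      rw [if_neg this, mul_zero]
    · rw [Finset.sum_eq_single n]
      · unfold dl; rw [if_pos rfl, mul_one]
      · intro b _ hb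
        unfold dl; rw [if_neg (Ne.symm hb), mul_zero]
      · intro h0
        exact absurd (h.fin.mem_toFinset.2 hn) h0
  rw [e1, hΛ Eis h.fin.toFinset (fun b => α b * pw t (nm b)) dl fun b hb =>
    FS_dl (h.prim b (h.fin.mem_toFinset.1 hb))]
  unfold HF
  exact Finset.sum_congr rfl fun b _ => by ring

lemma Lin_HW {Λ : (Eis → ℂ) → ℂ} (hΛ : Lin Λ) {α : Eis → ℂ} (h : FS α) (φ : ℝ → ℝ) (t : ℝ) :
    Λ (fun n => wn φ α n * pw t (nm n)) =
      HW φ h.fin.toFinset (fun b => b) (fun b => α b * Λ (dl b)) t := by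
  have e1 : (fun n => wn φ α n * pw t (nm n)) =
      fun n => ∑ b ∈ h.fin.toFinset, (wn φ α b * pw t (nm b)) * dl b n := by
    funext n
    by_cases hn : α n = 0
    · have h0 : wn φ α n = 0 := by unfold wn; rw [hn, zero_mul]
      rw [h0, zero_mul, Finset.sum_eq_zero]
      intro b hb
      have hb' : α b ≠ 0 := h.fin.mem_toFinset.1 hb
      have : n ≠ b := fun h0 => hb' (h0 ▸ hn)
      unfold dl
      rw [if_neg this, mul_zero]
    · rw [Finset.sum_eq_single n]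
      · unfold dl; rw [if_pos rfl, mul_one]
      · intro b _ hb
        unfold dl; rw [if_neg (Ne.symm hb), mul_zero]
      · intro h0
        exact absurd (h.fin.mem_toFinset.2 hn) h0
  rw [e1, hΛ Eis h.fin.toFinset (fun b => wn φ α b * pw t (nm b)) dl fun b hb =>
    FS_dl (h.prim b (h.fin.mem_toFinset.1 hb))]
  unfold HW wn
  exact Finset.sum_congr rfl fun b _ => by ring

section

variable {ι : Type} {X : Finset ι} {W : ι → ℝ} {Λ : ι → (Eis → ℂ) → ℂ}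

/-- **removal of a window** -/
theorem sq_win {C η : ℝ} {B : ℕ} (hC : 0 ≤ C) (hη : 0 < η) (hB : 2 ≤ B) {φ : ℝ → ℝ}
    (hφ : WK C η B φ) (hW : ∀ x ∈ X, 0 ≤ W x) (hΛ : ∀ x ∈ X, Lin (Λ x)) {α : Eis → ℂ}
    (h : FS α) (t : ℝ) :
    ∑ x ∈ X, W x * ‖Λ x (fun n => wn φ α n * pw t (nm n))‖ ^ 2 ≤
      C ^ 2 * iA B * ∫ s, ew B η s *
        ∑ x ∈ X, W x * ‖Λ x (fun n => α n * pw (t + s) (nm n))‖ ^ 2 := by
  have h1 := win_sum hC hη hB hφ X W hW h.fin.toFinset (fun b => b)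
    (fun x b => α b * Λ x (dl b)) t
  have e1 : ∑ x ∈ X, W x * ‖Λ x (fun n => wn φ α n * pw t (nm n))‖ ^ 2 =
      ∑ x ∈ X, W x * ‖HW φ h.fin.toFinset (fun b => b) (fun b => α b * Λ x (dl b)) t‖ ^ 2 :=
    Finset.sum_congr rfl fun x hx => by rw [Lin_HW (hΛ x hx) h]
  have e2 : ∀ s, ∑ x ∈ X, W x * ‖Λ x (fun n => α n * pw (t + s) (nm n))‖ ^ 2 =
      ∑ x ∈ X, W x * ‖HF h.fin.toFinset (fun b => b) (fun b => α b * Λ x (dl b)) (t + s)‖ ^ 2 :=
    fun s => Finset.sum_congr rfl fun x hx => by rw [Lin_HF (hΛ x hx) h]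
  rw [e1]
  simp_rw [e2]
  exact h1

lemma continuous_sq (hΛ : ∀ x ∈ X, Lin (Λ x)) {α : Eis → ℂ} (h : FS α) :
    Continuous fun t => ∑ x ∈ X, W x * ‖Λ x (fun n => α n * pw t (nm n))‖ ^ 2 := by
  refine continuous_finsetSum _ fun x hx => ?_
  have e1 : (fun t => W x * ‖Λ x (fun n => α n * pw t (nm n))‖ ^ 2) = fun t => W x *
      ‖HF h.fin.toFinset (fun b => b) (fun b => α b * Λ x (dl b)) t‖ ^ 2 := by
    funext t; rw [Lin_HF (hΛ x hx) h]
  rw [e1]
  exact continuous_const.mul ((continuous_HF _ _ _).norm.pow 2)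

lemma sq_bdd (hW : ∀ x ∈ X, 0 ≤ W x) (hΛ : ∀ x ∈ X, Lin (Λ x)) {α : Eis → ℂ} (h : FS α) :
    ∃ M : ℝ, ∀ t, ∑ x ∈ X, W x * ‖Λ x (fun n => α n * pw t (nm n))‖ ^ 2 ≤ M := by
  refine ⟨∑ x ∈ X, W x * (∑ b ∈ h.fin.toFinset, ‖α b * Λ x (dl b)‖) ^ 2, fun t => ?_⟩
  refine Finset.sum_le_sum fun x hx => mul_le_mul_of_nonneg_left ?_ (hW x hx)
  rw [Lin_HF (hΛ x hx) h]
  exact pow_le_pow_left₀ (norm_nonneg _) (norm_HF_le _ _ _ t) 2

/-- **removal of a window, pointwise bounds of polynomial growth** -/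
theorem sq_win_pt {C η M : ℝ} {B J : ℕ} (hC : 0 ≤ C) (hη : 0 < η) (hη1 : η ≤ 1)
    (hBJ : J + 2 ≤ B) {φ : ℝ → ℝ} (hφ : WK C η B φ) (hW : ∀ x ∈ X, 0 ≤ W x)
    (hΛ : ∀ x ∈ X, Lin (Λ x)) {α : Eis → ℂ} (h : FS α) (hM0 : 0 ≤ M)
    (hM : ∀ t : ℝ, ∑ x ∈ X, W x * ‖Λ x (fun n => α n * pw t (nm n))‖ ^ 2 ≤
      M * (1 + |t|) ^ J) (t : ℝ) :
    ∑ x ∈ X, W x * ‖Λ x (fun n => wn φ α n * pw t (nm n))‖ ^ 2 ≤
      C ^ 2 * iA B * iA 2 * (η⁻¹) ^ J * M * (1 + |t|) ^ J := by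
  have hB2 : 2 ≤ B := by omega
  obtain ⟨M', hM'⟩ := sq_bdd hW hΛ h
  refine (sq_win hC hη hB2 hφ hW hΛ h t).trans ?_
  have h1 := int_ew_pt hBJ hη hη1 (continuous_sq (W := W) hΛ h)
    (fun t => Finset.sum_nonneg fun x hx => mul_nonneg (hW x hx) (by positivity)) hM' hM hM0 t
  calc C ^ 2 * iA B * ∫ s, ew B η s *
        ∑ x ∈ X, W x * ‖Λ x (fun n => α n * pw (t + s) (nm n))‖ ^ 2 ≤
      C ^ 2 * iA B * (iA 2 * (η⁻¹) ^ J * (M * (1 + |t|) ^ J)) :=
        mul_le_mul_of_nonneg_left h1 (mul_nonneg (by positivity) (iA_nonneg B))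
    _ = _ := by ring

/-- **twisted windows** -/
theorem sq_bt {C η M : ℝ} {B J : ℕ} (hC : 0 ≤ C) (hη : 0 < η) (hη1 : η ≤ 1)
    (hBJ : J + 2 ≤ B) {φ : ℝ → ℝ} (hφ : WK C η B φ) (hW : ∀ x ∈ X, 0 ≤ W x)
    (hΛ : ∀ x ∈ X, Lin (Λ x)) {α : Eis → ℂ} (h : FS α) (p : ℕ × ℕ) (hM0 : 0 ≤ M)
    (hM : ∀ t : ℝ, ∑ x ∈ X, W x * ‖Λ x (fun n => tw2 p.1 p.2 α n * pw t (nm n))‖ ^ 2 ≤
      M * (1 + |t|) ^ J) (t : ℝ) :
    ∑ x ∈ X, W x * ‖Λ x (fun n => bt φ α p n * pw t (nm n))‖ ^ 2 ≤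
      C ^ 2 * iA B * iA 2 * (η⁻¹) ^ J * M * (1 + |t|) ^ J := by
  have e1 : bt φ α p = wn φ (tw2 p.1 p.2 α) := (wn_tw2 φ p.1 p.2 α).symm
  rw [e1]
  exact sq_win_pt hC hη hη1 hBJ hφ hW hΛ (FS_tw2 h p.1 p.2) hM0 hM t

end

/-! ### the twists on the character side -/

lemma sy_tw {n : Eis} (hn : IsPrim n) (c k : Eis) :
    conj (sy c n) * sy k n = sy (c ^ 2 * k) n := by
  rw [Char766.sy_mul_left hn, Char766.conj_sy hn, pow_two c, Char766.sy_mul_left hn]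
  ring

/-- the nine twists are changes of the frequency -/
lemma CS_tw2 {α : Eis → ℂ} (h : ∀ n, α n ≠ 0 → IsPrim n) (a b : ℕ) (f : Eis → ℂ) (k : Eis) :
    CS (fun n => tw2 a b α n * f n) k =
      CS (fun n => α n * f n) ((w ^ a * lam ^ b) ^ 2 * k) := by
  unfold CM106.CS tw2
  refine tsum_congr fun n => ?_
  by_cases h0 : α n = 0
  · simp [h0]
  · rw [← sy_tw (h n h0)]
    beta_reduce
    ring

/-- the same for subsequences -/
lemma norm_CS_sub_tw2 {α : Eis → ℂ} (h : ∀ n, α n ≠ 0 → IsPrim n) {δ : Eis} (hδ : IsPrim δ)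
    (a b : ℕ) (f : Eis → ℂ) (k : Eis) :
    ‖CS (fun m => tw2 a b α (δ * m) * f m) k‖ =
      ‖CS (fun m => α (δ * m) * f m) ((w ^ a * lam ^ b) ^ 2 * k)‖ := by
  have e1 : CS (fun m => tw2 a b α (δ * m) * f m) k = conj (sy (w ^ a * lam ^ b) δ) *
      CS (fun m => α (δ * m) * f m) ((w ^ a * lam ^ b) ^ 2 * k) := by
    unfold CM106.CS tw2
    rw [← tsum_mul_left]
    refine tsum_congr fun m => ?_
    by_cases h0 : α (δ * m) = 0
    · simp [h0]
    · have hm : IsPrim m := IsPrim.of_mul_left (h _ h0) hδ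
      rw [← sy_tw hm]
      beta_reduce
      rw [Char766.sy_mul_right hδ hm, map_mul]
      ring
  rw [e1, norm_mul, RCLike.norm_conj, norm_wl hδ, one_mul]

end Crest.Agent.R017.QFw813
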