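import Crest.Agent.R017.RGq_777
import Crest.Agent.R017.QLd_777

/-!
# Row 17, section D: the side condition (r2**), structural half (helper777)

For a child `{y₁, y₂, y₃ | m, a}` with total `n`, `G = y₃ + m + a`, loss `D ≥ 2 d G` and
`U ≥ n/3 + y₃/2, n/3 + 4/15 G, 2/3 G, m + a`:

* `full_TF`, `full_T`, `full_V` : sufficient conditions for `Full`
* `pm_of` : sufficient conditions for `PM`
-/

set_option autoImplicit false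

noncomputable section

namespace Crest.Agent.R017.SC777

open Crest.Agent.R017.ER911

variable {d : ℝ} {r s : EF}

/-- the child `{y₁, y₂, y₃ | m, a}` with total `n`, granular + short part `≤ G`, loss `D` -/
structure Chi (d y₁ y₂ y₃ m a n G D : ℝ) : Prop where
  h1 : 0 ≤ y₁
  h2 : 0 ≤ y₂
  h3 : 0 ≤ y₃
  hm : 0 ≤ m
  ha : 0 ≤ a
  hn : n = y₁ + y₂ + y₃ + m + a
  hG : y₃ + m + a ≤ G
  hD : 2 * d * G ≤ D
  hd : 0 ≤ d
  hd8 : 8 * d ≤ 1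

/-- the parameter `U` of the child -/
structure ChU (y₃ w n G U : ℝ) : Prop where
  u1 : n / 3 + y₃ / 2 ≤ U
  u2 : n / 3 + 4 / 15 * G ≤ U
  u3 : 2 / 3 * G ≤ U
  u4 : w ≤ U

theorem Chi.D0 {y₁ y₂ y₃ m a n G D : ℝ} (h : Chi d y₁ y₂ y₃ m a n G D) : 0 ≤ D := by
  have h3 := h.h3; have hm := h.hm; have ha := h.ha; have hG := h.hG; have hD := h.hD
  have : 0 ≤ 2 * d * G := mul_nonneg (mul_nonneg two_pos.le h.hd) (by linarith)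
  linarith

/-- shortenings -/
theorem Chi.sub {y₁ y₂ y₃ m a n G D : ℝ} (h : Chi d y₁ y₂ y₃ m a n G D)
    {a₁ a₂ a₃ m' a' n' : ℝ} (q1 : 0 ≤ a₁) (_q1' : a₁ ≤ y₁) (q2 : 0 ≤ a₂) (_q2' : a₂ ≤ y₂)
    (q3 : 0 ≤ a₃) (q3' : a₃ ≤ y₃) (hm0 : 0 ≤ m') (hm1 : m' ≤ m) (ha0 : 0 ≤ a') (ha1 : a' ≤ a)
    (hn' : n' = a₁ + a₂ + a₃ + m' + a') : Chi d a₁ a₂ a₃ m' a' n' G D := by
  obtain ⟨h1, h2, h3, hm, ha, hn, hG, hD, hd, hd8⟩ := h
  exact ⟨q1, q2, q3, hm0, ha0, hn', by linarith, hD, hd, hd8⟩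

theorem ChU.sub {y₃ w n G U y₃' w' n' : ℝ} (h : ChU y₃ w n G U) (h3 : y₃' ≤ y₃) (hw : w' ≤ w)
    (hn : n' ≤ n) : ChU y₃' w' n' G U := by
  obtain ⟨u1, u2, u3, u4⟩ := h
  exact ⟨by linarith, by linarith, u3, by linarith⟩

/-- the Gauss side is ideal up to `D` at the family `v ≥ n + x` -/
theorem gauss4x (R : ExpRules (7 / 8 + d) r s)
    {y₁ y₂ y₃ m a n G D x v : ℝ} (h : Chi d y₁ y₂ y₃ m a n G D)
    (x1 : 3 / 4 * y₃ ≤ x) (x2 : 2 / 5 * G ≤ x)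
    (x3 : G - n / 2 ≤ x) (x5 : 3 * (m + a) ≤ n + 2 * x)
    (hv : n + x ≤ v) :
    ∀ v' : ℝ, 0 ≤ v' → v' ≤ v → s v' {y₁, y₂, y₃} m a + (v - v') / 3 ≤ v + n + D := by
  have hD0 := h.D0
  obtain ⟨h1, h2, h3, hm, ha, hn, hG, hD, hd, hd8⟩ := h
  have hx0 : 0 ≤ x := by linarith
  refine R.poisG v {y₁, y₂, y₃} m a _ (by linarith) (ok3 h1 h2 h3 hm ha)
    (by rw [sum3]; linarith) ?_ ?_
  · intro Y' m' a' i hYs hm0 hm1 ha0 ha1 hi hyi hii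
    obtain ⟨a₁, a₂, a₃, rfl, q1, q1', q2, q2', q3, q3'⟩ := sh3 hYs
    rw [sum3] at hii
    rw [sum3, sum3]
    obtain ⟨hi1, hi2, hi3⟩ := mem3 hyi
    have p1 : 2 * d * (a₃ + m' + a') ≤ D :=
      (mul_le_mul_of_nonneg_left (by linarith) (by linarith)).trans hD
    have key := col3x R hd hi q1 q2 q3 hm0 ha0 hi1 hi2 p1
      (T := n - (2 * n - v - i) / 3 + D)
      (by linarith) (by linarith) (by linarith) (fun h => by linarith)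
    linarith
  · intro Y' m' a' hYs hm0 hm1 ha0 ha1 hk
    obtain ⟨a₁, a₂, a₃, rfl, q1, q1', q2, q2', q3, q3'⟩ := sh3 hYs
    rw [sum3] at hk
    rw [sum3, sum3]
    have p1 : 8 * d * m' ≤ 1 * m' := mul_le_mul_of_nonneg_right hd8 hm0
    linarith

/-- the Gauss side at all levels -/
theorem gauss4 (R : ExpRules (7 / 8 + d) r s)
    {y₁ y₂ y₃ m a n G D U : ℝ} (h : Chi d y₁ y₂ y₃ m a n G D) (hU : ChU y₃ (m + a) n G U)
    {f : ℝ} (hf : 0 ≤ f) :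
    s f {y₁, y₂, y₃} m a ≤ f + n + D ∨ s f {y₁, y₂, y₃} m a ≤ f / 3 + 4 / 3 * n + U + D := by
  obtain ⟨u1, u2, u3, u4⟩ := hU
  obtain ⟨x, hx⟩ : ∃ x, x = 3 / 2 * U - n / 2 := ⟨_, rfl⟩
  rcases le_or_gt (n + x) f with hfx | hfx
  · left
    have := gauss4x R h (x := x) (by linarith) (by linarith) (by linarith) (by linarith) hfx f hf
      le_rfl
    linarith
  · right
    have := gauss4x R h (x := x) (by linarith) (by linarith) (by linarith) (by linarith) le_rfl f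
      hf hfx.le
    linarith

/-- the character side at the families `k ≥ n - x` -/
theorem char4x (R : ExpRules (7 / 8 + d) r s)
    {y₁ y₂ y₃ m a n G D U k : ℝ} (h : Chi d y₁ y₂ y₃ m a n G D) (hU : ChU y₃ (m + a) n G U)
    (hk0 : 0 ≤ k) (hk : 3 / 2 * n - 3 / 2 * U ≤ k) {V : ℝ}
    (hV1 : k + n + D ≤ V) (hV2 : 2 / 3 * k + n + U + D ≤ V) :
    ∀ k' : ℝ, 0 ≤ k' → k' ≤ k → r k' {y₁, y₂, y₃} m a + (k - k') / 3 ≤ V := by
  have hD0 := h.D0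
  have h' := h
  obtain ⟨h1, h2, h3, hm, ha, hn, hG, hD, hd, hd8⟩ := h'
  refine R.poisC k {y₁, y₂, y₃} m a _ hk0 (ok3 h1 h2 h3 hm ha)
    (by rw [sum3]; linarith) (by rw [sum3]; linarith) ?_
  intro Y' m' a' i hYs hm0 hm1 ha0 ha1 hi hii
  obtain ⟨a₁, a₂, a₃, rfl, q1, q1', q2, q2', q3, q3'⟩ := sh3 hYs
  rw [sum3] at hii
  rw [sum3, sum3]
  obtain ⟨n', hn'⟩ : ∃ n', n' = a₁ + a₂ + a₃ + m' + a' := ⟨_, rfl⟩
  have hc := h.sub q1 q1' q2 q2' q3 q3' hm0 hm1 ha0 ha1 hn'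
  have hcU := hU.sub (y₃' := a₃) (w' := m' + a') (n' := n') q3' (by linarith) (by linarith)
  rcases gauss4 R hc hcU hi with h4 | h4 <;> linarith

/-- the character side at all families -/
theorem char4 (R : ExpRules (7 / 8 + d) r s)
    {y₁ y₂ y₃ m a n G D U : ℝ} (h : Chi d y₁ y₂ y₃ m a n G D) (hU : ChU y₃ (m + a) n G U)
    {k : ℝ} (hk0 : 0 ≤ k) {V : ℝ} (hV1 : k + n + D ≤ V) (hV2 : 2 / 3 * k + n + U + D ≤ V)
    (hV3 : k / 3 + 3 / 2 * n + U / 2 + D ≤ V) :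
    ∀ k' : ℝ, 0 ≤ k' → k' ≤ k → r k' {y₁, y₂, y₃} m a + (k - k') / 3 ≤ V := by
  have hD0 := h.D0
  have h' := h
  obtain ⟨h1, h2, h3, hm, ha, hn, hG, hD, hd, hd8⟩ := h'
  have hU' := hU
  obtain ⟨u1, u2, u3, u4⟩ := hU'
  intro k' hk0' hkk
  rcases le_or_gt (3 / 2 * n - 3 / 2 * U) k with hk | hk
  · exact char4x R h hU hk0 hk hV1 hV2 k' hk0' hkk
  · have := char4x R h hU (k := 3 / 2 * n - 3 / 2 * U) (V := 2 * n + D) (by linarith) le_rfl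
      (by linarith) (by linarith) k' hk0' (by linarith)
    linarith

/-- `Full` by the two-factor theorem and the pointwise bound -/
theorem full_TF (R : ExpRules (7 / 8 + d) r s)
    {y₁ y₂ y₃ m a n G D κ ρ : ℝ} (h : Chi d y₁ y₂ y₃ m a n G D)
    (hT : κ + n + 3 / 4 * G + D ≤ ρ) (hp : 2 * a + 2 * (7 / 8 + d) * m + κ / 3 ≤ ρ) :
    Full (7 / 8 + d) r κ {y₁, y₂, y₃} m a ρ := by
  obtain ⟨h1, h2, h3, hm, ha, hn, hG, hD, hd, hd8⟩ := h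
  refine ⟨?_, hp⟩
  intro Y'' κ' hY hκ0 hκ1 hy
  obtain ⟨a₁, a₂, a₃, rfl, q1, q1', q2, q2', q3, q3'⟩ := sh3 hY
  obtain ⟨hi1, hi2, hi3⟩ := mem3 hy
  have e1 := sup3 R hκ0 q1 q2 q3 hm ha hi1 hi2
  have p1 : 2 * d * (a₃ + m + a) ≤ D :=
    (mul_le_mul_of_nonneg_left (by linarith) (by linarith)).trans hD
  linarith

/-- `Full` (useful at a family above the two long lumps) -/
theorem full_T (R : ExpRules (7 / 8 + d) r s)
    {y₁ y₂ y₃ m a n G D κ ρ : ℝ} (h : Chi d y₁ y₂ y₃ m a n G D)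
    (hT0 : κ + n + 3 / 4 * y₃ + D ≤ ρ)
    (hT1 : 5 / 12 * κ + 7 / 12 * (y₁ + y₂) + n + 3 / 4 * G + D ≤ ρ)
    (hT2 : 1 / 2 * κ + 1 / 4 * (y₁ + y₂) + n + 3 / 4 * G + D ≤ ρ)
    (hp : 2 * a + 2 * (7 / 8 + d) * m + κ / 3 ≤ ρ) :
    Full (7 / 8 + d) r κ {y₁, y₂, y₃} m a ρ := by
  obtain ⟨h1, h2, h3, hm, ha, hn, hG, hD, hd, hd8⟩ := h
  refine ⟨?_, hp⟩
  intro Y'' κ' hY hκ0 hκ1 hy
  obtain ⟨a₁, a₂, a₃, rfl, q1, q1', q2, q2', q3, q3'⟩ := sh3 hY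
  obtain ⟨hi1, hi2, hi3⟩ := mem3 hy
  have p1 : 2 * d * (a₃ + m + a) ≤ D :=
    (mul_le_mul_of_nonneg_left (by linarith) (by linarith)).trans hD
  have key := col3x R hd hκ0 q1 q2 q3 hm ha hi1 hi2 p1
    (T := ρ - (κ - κ') / 3 - (a₁ + a₂ + a₃ + m + a))
    (by linarith) (by linarith) (by linarith) (fun h => by linarith)
  linarith

/-- `Full` by the dual side -/
theorem full_V (R : ExpRules (7 / 8 + d) r s)
    {y₁ y₂ y₃ m a n G D U κ ρ : ℝ} (h : Chi d y₁ y₂ y₃ m a n G D) (hU : ChU y₃ (m + a) n G U)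
    (hV1 : κ + n + D ≤ ρ) (hV2 : 2 / 3 * κ + n + U + D ≤ ρ)
    (hV3 : κ / 3 + 3 / 2 * n + U / 2 + D ≤ ρ)
    (hp : 2 * a + 2 * (7 / 8 + d) * m + κ / 3 ≤ ρ) :
    Full (7 / 8 + d) r κ {y₁, y₂, y₃} m a ρ := by
  refine ⟨?_, hp⟩
  intro Y'' κ' hY hκ0 hκ1 _
  obtain ⟨a₁, a₂, a₃, rfl, q1, q1', q2, q2', q3, q3'⟩ := sh3 hY
  have h' := h
  obtain ⟨h1, h2, h3, hm, ha, hn, hG, hD, hd, hd8⟩ := h'
  obtain ⟨n', hn'⟩ : ∃ n', n' = a₁ + a₂ + a₃ + m + a := ⟨_, rfl⟩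
  have hc := h.sub q1 q1' q2 q2' q3 q3' hm le_rfl ha le_rfl hn'
  have hcU := hU.sub (y₃' := a₃) (w' := m + a) (n' := n') q3' le_rfl (by linarith)
  exact char4 R hc hcU (hκ0.trans hκ1) (by linarith) (by linarith) (by linarith) κ' hκ0 hκ1

/-- `PM` by the dual side -/
theorem pm_of (R : ExpRules (7 / 8 + d) r s)
    {y₁ y₂ y₃ m a n G D U i b ρ : ℝ} (h : Chi d y₁ y₂ y₃ m a n G D)
    (hU : ChU y₃ (m + a) n G U) (hb : 0 ≤ b)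
    (hp1 : i + b + n ≤ ρ) (hp2 : 2 * n + b + D ≤ ρ)
    (hp3 : 2 / 3 * i + b / 3 + n + U + D ≤ ρ) :
    PM s i b {y₁, y₂, y₃} m a ρ := by
  have hD0 := h.D0
  have h' := h
  obtain ⟨h1, h2, h3, hm, ha, hn, hG, hD, hd, hd8⟩ := h'
  refine ⟨by rw [sum3]; linarith, by rw [sum3]; linarith, ?_, ?_⟩
  · intro Y'' m'' a'' n'' f hY hm0 hm1 ha0 ha1 hn'' hf hff
    obtain ⟨a₁, a₂, a₃, rfl, q1, q1', q2, q2', q3, q3'⟩ := sh3 hY
    rw [sum3] at hn''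
    rw [sum3]
    have hc := h.sub q1 q1' q2 q2' q3 q3' hm0 hm1 ha0 ha1 hn''
    have hcU := hU.sub (y₃' := a₃) (w' := m'' + a'') (n' := n'') q3' (by linarith) (by linarith)
    rcases gauss4 R hc hcU hf with h4 | h4 <;> linarith
  · intro Y'' m'' a'' n'' n₁ hY hm0 hm1 ha0 ha1 hn'' hn1 hn1' hi1
    obtain ⟨a₁, a₂, a₃, rfl, q1, q1', q2, q2', q3, q3'⟩ := sh3 hY
    rw [sum3] at hn'' hn1'
    rw [sum3]
    have hc := h.sub q1 q1' q2 q2' q3 q3' hm0 hm1 ha0 ha1 hn''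
    have hcU := hU.sub (y₃' := a₃) (w' := m'' + a'') (n' := n'') q3' (by linarith) (by linarith)
    rcases gauss4 R hc hcU (f := b + 3 * n₁ - n'' - i) (by linarith) with h4 | h4 <;> linarith

end Crest.Agent.R017.SC777
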