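import Crest.Agent.R017.QLs_777

/-!
# Row 17, section D: the side condition (r2**) with a principal entry (helper777)

exceptional class: the pair rules have the further entry `2 n' + (i + 2 b) / 3 - d₀`,
`d₀ ≥ (v + n - K) / 3`.

* `r2x_tree` : the case tree
-/

set_option autoImplicit false

noncomputable section

namespace Crest.Agent.R017.SC777

open Crest.Agent.R017.ER911

variable {d : ℝ} {r s : EF}

/-- the case tree, principal entry with gain `d₀` in the pair rules -/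
theorem r2x_tree {K v n E C₁ w₁ D μ : ℝ} (H : Ln K v n E C₁ w₁ D (2 * μ)) (hμ : 0 ≤ μ)
    (hμK : 60 * μ ≤ K)
    (hD : 0 ≤ D) {z C w n' i b g t W ρ U d₀ : ℝ}
    (hd0 : (v + n - K) / 3 ≤ d₀) (hz : 0 ≤ z) (hC : 0 ≤ C) (hw : 0 ≤ w)
    (hC1 : C ≤ C₁) (hw1 : w ≤ w₁) (hn' : n' = z + C + w) (hi : 0 ≤ i) (hb : 0 ≤ b) (hg : 0 ≤ g)
    (ht : 0 ≤ t) (hlen : n' + b + g ≤ n) (hi1 : i ≤ v + n - K + 3 * t + b + μ)
    (hi2 : i + 2 * b + 3 * t ≤ K + μ) (hv : v ≤ 2 * (i + b))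
    (hW : W = max v (max i (2 / 3 * (v + i))))
    (hρ : ρ = E + t - (v + n - 2 * K) / 3 - μ - g - W + i)
    (hU : U = max (max (n' / 3 + C / 2) (n' / 3 + 4 / 15 * (C + w))) (max (2 / 3 * (C + w)) w)) :
    2 * w + (i + 2 * b) / 3 ≤ ρ ∧
    ((i + 2 * b) + n' + 3 / 4 * (C + w) + D ≤ ρ ∨
    ((i + 2 * b) + n' + 3 / 4 * C + D ≤ ρ ∧
      5 / 12 * (i + 2 * b) + 7 / 12 * z + n' + 3 / 4 * (C + w) + D ≤ ρ ∧
      1 / 2 * (i + 2 * b) + 1 / 4 * z + n' + 3 / 4 * (C + w) + D ≤ ρ) ∨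
    ((i + 2 * b) + n' + D ≤ ρ ∧ 2 / 3 * (i + 2 * b) + n' + U + D ≤ ρ ∧
      (i + 2 * b) / 3 + 3 / 2 * n' + U / 2 + D ≤ ρ) ∨
    (i + b + n' ≤ ρ ∧ 2 * n' + b + g + D ≤ ρ ∧ 2 / 3 * i + b / 3 + n' + U + D ≤ ρ ∧
      2 * n' + (i + 2 * b) / 3 - d₀ ≤ ρ) ∨
    (i + b + n' ≤ ρ ∧ 2 * n' + i + D ≤ ρ ∧ 2 / 3 * b + i / 3 + n' + U + D ≤ ρ ∧
      2 * n' + (i + 2 * b) / 3 - d₀ ≤ ρ)) := by
  obtain ⟨n0, v0, v23, n56, c0, w0, c4, w3, wc, l0, l1, l2, l3, l4, l7, l8, l10, l11⟩ := H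
  have hWc : (W = v ∧ i ≤ v ∧ 2 / 3 * (v + i) ≤ v) ∨
      (W = i ∧ v ≤ i ∧ 2 / 3 * (v + i) ≤ i) ∨
      (W = 2 / 3 * (v + i) ∧ v ≤ 2 / 3 * (v + i) ∧ i ≤ 2 / 3 * (v + i)) := by
    rcases max_cases v (max i (2 / 3 * (v + i))) with ⟨h1, h2⟩ | ⟨h1, h2⟩
    · left
      rw [hW, h1]
      exact ⟨rfl, (le_max_left _ _).trans h2, (le_max_right _ _).trans h2⟩
    · rcases max_cases i (2 / 3 * (v + i)) with ⟨h3, h4⟩ | ⟨h3, h4⟩
      · right; left
        rw [hW, h1, h3]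
        rw [h3] at h2
        exact ⟨rfl, h2.le, h4⟩
      · right; right
        rw [hW, h1, h3]
        rw [h3] at h2
        exact ⟨rfl, h2.le, h4.le⟩
  clear hW
  rcases hWc with ⟨rfl, a1, a2⟩ | ⟨rfl, a1, a2⟩ | ⟨rfl, a1, a2⟩
  · refine ⟨by linarith, ?_⟩
    rcases le_or_gt ((i + 2 * b) + n' + 3 / 4 * (C + w) + D) ρ with h1 | h1
    · exact Or.inl h1
    right
    have T1 : 5 / 12 * (i + 2 * b) + 7 / 12 * z + n' + 3 / 4 * (C + w) + D ≤ ρ := by linarith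
    have T2 : 1 / 2 * (i + 2 * b) + 1 / 4 * z + n' + 3 / 4 * (C + w) + D ≤ ρ := by linarith
    rcases le_or_gt ((i + 2 * b) + n' + 3 / 4 * C + D) ρ with h2 | h2
    · exact Or.inl ⟨h2, T1, T2⟩
    right
    have b1 : i + b + n' ≤ ρ := by linarith
    have b3 : 2 / 3 * i + b / 3 + n' + U + D ≤ ρ := by
      have : U ≤ ρ - (2 / 3 * i + b / 3 + n' + D) := by
        rw [hU]
        refine max_le (max_le ?_ ?_) (max_le ?_ ?_) <;> linarith
      linarith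
    rcases le_or_gt (2 * n' + b + g + D) ρ with h3 | h3
    · exact Or.inr (Or.inl ⟨b1, h3, b3, by linarith⟩)
    have b3' : 2 / 3 * b + i / 3 + n' + U + D ≤ ρ := by
      have : U ≤ ρ - (2 / 3 * b + i / 3 + n' + D) := by
        rw [hU]
        refine max_le (max_le ?_ ?_) (max_le ?_ ?_) <;> linarith
      linarith
    rcases le_or_gt (2 * n' + i + D) ρ with h4 | h4
    · exact Or.inr (Or.inr ⟨b1, h4, b3', by linarith⟩)
    left
    refine ⟨by linarith, ?_, ?_⟩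
    · have : U ≤ ρ - (2 / 3 * (i + 2 * b) + n' + D) := by
        rw [hU]
        refine max_le (max_le ?_ ?_) (max_le ?_ ?_) <;> linarith
      linarith
    · have : U ≤ 2 * (ρ - ((i + 2 * b) / 3 + 3 / 2 * n' + D)) := by
        rw [hU]
        refine max_le (max_le ?_ ?_) (max_le ?_ ?_) <;> linarith
      linarith
  · refine ⟨by linarith, ?_⟩
    right; left
    refine ⟨by linarith, by linarith, by linarith⟩
  · refine ⟨by linarith, ?_⟩
    rcases le_or_gt ((i + 2 * b) + n' + 3 / 4 * (C + w) + D) ρ with h1 | h1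
    · exact Or.inl h1
    right
    have T1 : 5 / 12 * (i + 2 * b) + 7 / 12 * z + n' + 3 / 4 * (C + w) + D ≤ ρ := by linarith
    have T2 : 1 / 2 * (i + 2 * b) + 1 / 4 * z + n' + 3 / 4 * (C + w) + D ≤ ρ := by linarith
    rcases le_or_gt ((i + 2 * b) + n' + 3 / 4 * C + D) ρ with h2 | h2
    · exact Or.inl ⟨h2, T1, T2⟩
    right
    have b1 : i + b + n' ≤ ρ := by linarith
    have b3 : 2 / 3 * i + b / 3 + n' + U + D ≤ ρ := by
      have : U ≤ ρ - (2 / 3 * i + b / 3 + n' + D) := by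
        rw [hU]
        refine max_le (max_le ?_ ?_) (max_le ?_ ?_) <;> linarith
      linarith
    have hV : 2 * n' + b + g + D > ρ ∨ 2 * n' + (i + 2 * b) / 3 - d₀ > ρ →
        ((i + 2 * b) + n' + D ≤ ρ ∧ 2 / 3 * (i + 2 * b) + n' + U + D ≤ ρ ∧
          (i + 2 * b) / 3 + 3 / 2 * n' + U / 2 + D ≤ ρ) := by
      intro hh
      refine ⟨by rcases hh with h | h <;> linarith, ?_, ?_⟩
      · have : U ≤ ρ - (2 / 3 * (i + 2 * b) + n' + D) := by
          rw [hU]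
          refine max_le (max_le ?_ ?_) (max_le ?_ ?_) <;> rcases hh with h | h <;> linarith
        linarith
      · have : U ≤ 2 * (ρ - ((i + 2 * b) / 3 + 3 / 2 * n' + D)) := by
          rw [hU]
          refine max_le (max_le ?_ ?_) (max_le ?_ ?_) <;> rcases hh with h | h <;> linarith
        linarith
    rcases le_or_gt (2 * n' + b + g + D) ρ with h3 | h3
    · rcases le_or_gt (2 * n' + (i + 2 * b) / 3 - d₀) ρ with h5 | h5
      · exact Or.inr (Or.inl ⟨b1, h3, b3, h5⟩)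
      · exact Or.inl (hV (Or.inr h5))
    exact Or.inl (hV (Or.inl h3))

end Crest.Agent.R017.SC777
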