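import Crest.Agent.R017.Master5_699

/-!
# Row 17: a zero-free strip for all Hecke L-functions of `ℚ(√-3)` (helper770)

Consistency check of the chain: sections A, B, E, D.box and `BOX3 1` already give one step of
the bootstrap, i.e. a zero-free strip `Re s > 1 - δ`.
-/

set_option autoImplicit false

namespace Crest.Agent.R017.QRH770

open Crest.Agent.R017.End699 Crest.Agent.R017.B770

/-- the first step of the bootstrap is a theorem -/
theorem strip : ∃ δ : ℝ, 0 < δ ∧ PF Set.univ (1 - δ) :=
  BAll770.stepB3 SecA499.secA 1 (by norm_num) le_rfl (pf_one _) One319.dout3_one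

end Crest.Agent.R017.QRH770
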