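import Crest.Agent.R012.Sym4_645

/-!
# Row 17: the quadratic residue symbol of `ℤ[ω]` (1)

* `qu x p : ℤ`  : quadratic residue symbol modulo a prime `p` (Euler's criterion)
* `qy x c : ℤ`  : product of `qu x p` over the prime factors `p` of `c`
* multiplicativity, periodicity, values
* `qy_intCast`: `(n/c)_2 = Jacobi(n, N c)` for rational `n` and odd `c`
-/

set_option autoImplicit false

noncomputable section

open Crest.Agent.R012 Crest.Agent.R012.Eis Crest.Agent.R012.Sym645

namespace Crest.Agent.R017.QS411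

open Classical in
/-- The quadratic residue symbol `(x/p)_2` modulo a prime `p` (not above `2`). -/
def qu (x p : Eis) : ℤ :=
  if p ∣ x then 0 else if p ∣ x ^ ((nm p - 1) / 2) - 1 then 1 else -1

/-- The quadratic residue symbol `(x/c)_2`. -/
def qy (x c : Eis) : ℤ :=
  ((UniqueFactorizationMonoid.factors c).map (fun p => qu x p)).prod

/-! ### oddness -/

lemma odd_mul {a b : Eis} (ha : nm a % 2 = 1) (hb : nm b % 2 = 1) : nm (a * b) % 2 = 1 := by
  rw [nm_mul, Nat.mul_mod, ha, hb]

lemma odd_of_mul {a b : Eis} (h : nm (a * b) % 2 = 1) : nm a % 2 = 1 ∧ nm b % 2 = 1 := by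
  rw [nm_mul] at h
  have h1 : Odd (nm a * nm b) := Nat.odd_iff.2 h
  rw [Nat.odd_mul] at h1
  exact ⟨Nat.odd_iff.1 h1.1, Nat.odd_iff.1 h1.2⟩

lemma odd_unit {u : Eis} (hu : IsUnit u) : nm u % 2 = 1 := by
  rw [isUnit_iff.1 hu]

lemma ne_zero_of_odd {a : Eis} (h : nm a % 2 = 1) : a ≠ 0 := by
  rintro rfl
  have : nm (0 : Eis) = 0 := nm_eq_zero.2 rfl
  rw [this] at h
  simp at h

@[elab_as_elim]
theorem odd_induction {P : Eis → Prop} (hunit : ∀ u, IsUnit u → P u)
    (hmul : ∀ p b, Prime p → nm p % 2 = 1 → nm b % 2 = 1 → P b → P (p * b))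
    {c : Eis} (hc : nm c % 2 = 1) : P c := by
  revert hc
  refine UniqueFactorizationMonoid.induction_on_prime c ?_ ?_ ?_
  · intro h
    exact absurd rfl (ne_zero_of_odd h)
  · intro u hu _
    exact hunit u hu
  · intro a p _ hp ih hc
    have h := odd_of_mul hc
    exact hmul p a hp h.1 h.2 (ih h.2)

/-! ### the prime case -/

instance decEqRq (p : Eis) : DecidableEq (Rq p) := Classical.decEq _

lemma ringChar_ne_two {p : Eis} [hp : Fact (Prime p)] (h2 : nm p % 2 = 1) :
    ringChar (Rq p) ≠ 2 := by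
  intro h
  have := (FiniteField.even_card_iff_char_two (F := Rq p)).1 h
  rw [card_Rq] at this
  omega

lemma qu_eq {p : Eis} [hp : Fact (Prime p)] (h2 : nm p % 2 = 1) (x : Eis) :
    qu x p = quadraticChar (Rq p) (rq p x) := by
  unfold qu
  by_cases h : p ∣ x
  · rw [if_pos h, rq_eq_zero.2 h, quadraticChar_zero]
  · have hx : rq p x ≠ 0 := by rwa [Ne, rq_eq_zero]
    rw [if_neg h, quadraticChar_eq_pow_of_char_ne_two (ringChar_ne_two h2) hx]
    have e : Fintype.card (Rq p) / 2 = (nm p - 1) / 2 := by rw [card_Rq]; omega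
    have key : (p ∣ x ^ ((nm p - 1) / 2) - 1) ↔ rq p x ^ (Fintype.card (Rq p) / 2) = 1 := by
      rw [e, ← rq_eq]
      show Ideal.Quotient.mk _ _ = Ideal.Quotient.mk _ _ ↔ _
      rw [map_pow, map_one]
    by_cases h3 : p ∣ x ^ ((nm p - 1) / 2) - 1
    · rw [if_pos h3, if_pos (key.1 h3)]
    · rw [if_neg h3, if_neg (fun h4 => h3 (key.2 h4))]

lemma qu_mul {p : Eis} (hp : Prime p) (h2 : nm p % 2 = 1) (x y : Eis) :
    qu (x * y) p = qu x p * qu y p := by
  have : Fact (Prime p) := ⟨hp⟩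
  have e : rq p (x * y) = rq p x * rq p y := map_mul (Ideal.Quotient.mk _) x y
  rw [qu_eq h2, qu_eq h2, qu_eq h2, e, map_mul]

lemma qu_congr {p : Eis} (hp : Prime p) (h2 : nm p % 2 = 1) {x y : Eis} (h : p ∣ x - y) :
    qu x p = qu y p := by
  have : Fact (Prime p) := ⟨hp⟩
  rw [qu_eq h2, qu_eq h2, rq_eq.2 h]

lemma qu_one {p : Eis} (hp : Prime p) (h2 : nm p % 2 = 1) : qu 1 p = 1 := by
  have : Fact (Prime p) := ⟨hp⟩
  have e : rq p 1 = 1 := map_one (Ideal.Quotient.mk _)
  rw [qu_eq h2, e, map_one]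

lemma qu_of_dvd {x p : Eis} (h : p ∣ x) : qu x p = 0 := by
  unfold qu; rw [if_pos h]

lemma qu_sq {x p : Eis} (h : ¬ p ∣ x) : qu x p ^ 2 = 1 := by
  unfold qu; rw [if_neg h]
  split_ifs <;> norm_num

lemma qu_assoc {x p q : Eis} (h : Associated p q) : qu x p = qu x q := by
  have h1 : ∀ z : Eis, p ∣ z ↔ q ∣ z := fun z => h.dvd_iff_dvd_left
  have h2 : nm p = nm q := by
    obtain ⟨u, rfl⟩ := h
    rw [nm_mul, isUnit_iff.1 u.isUnit, mul_one]
  unfold qu
  rw [h2]
  by_cases ha : p ∣ x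
  · rw [if_pos ha, if_pos ((h1 _).1 ha)]
  · rw [if_neg ha, if_neg (fun hq => ha ((h1 _).2 hq))]
    by_cases hb : p ∣ x ^ ((nm q - 1) / 2) - 1
    · rw [if_pos hb, if_pos ((h1 _).1 hb)]
    · rw [if_neg hb, if_neg (fun hq => hb ((h1 _).2 hq))]

lemma conj_sub' (x y : Eis) : Eis.conj (x - y) = Eis.conj x - Eis.conj y := conjHom.map_sub x y
lemma conj_pow' (x : Eis) (n : ℕ) : Eis.conj (x ^ n) = Eis.conj x ^ n := map_pow conjHom x n
lemma conj_one' : Eis.conj 1 = 1 := map_one conjHom

lemma conj_dvd_iff {x y : Eis} : Eis.conj x ∣ Eis.conj y ↔ x ∣ y := by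
  constructor
  · intro h
    have := conj_dvd_conj h
    rwa [conj_conj, conj_conj] at this
  · exact conj_dvd_conj

lemma qu_conj (x p : Eis) : qu (Eis.conj x) (Eis.conj p) = qu x p := by
  have h2 : nm (Eis.conj p) = nm p := nm_conj p
  have h3 : Eis.conj p ∣ Eis.conj x ^ ((nm p - 1) / 2) - 1 ↔ p ∣ x ^ ((nm p - 1) / 2) - 1 := by
    rw [← conj_dvd_iff, conj_sub', conj_pow', conj_one', conj_conj, conj_conj]
  unfold qu
  rw [h2]
  by_cases ha : p ∣ x
  · rw [if_pos ha, if_pos (conj_dvd_iff.2 ha)]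
  · rw [if_neg ha, if_neg (fun hq => ha (conj_dvd_iff.1 hq))]
    by_cases hb : p ∣ x ^ ((nm p - 1) / 2) - 1
    · rw [if_pos hb, if_pos (h3.2 hb)]
    · rw [if_neg hb, if_neg (fun hq => hb (h3.1 hq))]

/-! ### the symbol -/

lemma prod_rel2 {x : Eis} {s t : Multiset Eis} (h : Multiset.Rel Associated s t) :
    (s.map (fun p => qu x p)).prod = (t.map (fun p => qu x p)).prod := by
  induction h with
  | zero => rfl
  | cons hab _ ih =>
    simp only [Multiset.map_cons, Multiset.prod_cons]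
    rw [qu_assoc hab, ih]

lemma qy_mul_right (x : Eis) {a b : Eis} (ha : a ≠ 0) (hb : b ≠ 0) :
    qy x (a * b) = qy x a * qy x b := by
  unfold qy
  rw [prod_rel2 (UniqueFactorizationMonoid.factors_mul ha hb), Multiset.map_add,
    Multiset.prod_add]

lemma qy_assoc_right (x : Eis) {a b : Eis} (h : Associated a b) : qy x a = qy x b := by
  by_cases ha : a = 0
  · subst ha
    rw [(associated_zero_iff_eq_zero b).1 h.symm]
  unfold qy
  refine prod_rel2 (UniqueFactorizationMonoid.factors_unique ?_ ?_ ?_)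
  · exact fun _ => UniqueFactorizationMonoid.irreducible_of_factor _
  · exact fun _ => UniqueFactorizationMonoid.irreducible_of_factor _
  · have hb : b ≠ 0 := by
      rintro rfl
      exact ha ((associated_zero_iff_eq_zero a).1 h)
    exact (UniqueFactorizationMonoid.factors_prod ha).trans
      (h.trans (UniqueFactorizationMonoid.factors_prod hb).symm)

@[simp] lemma qy_one_right (x : Eis) : qy x 1 = 1 := by
  unfold qy
  rw [UniqueFactorizationMonoid.factors_one]
  simp

lemma qy_unit_right (x : Eis) {u : Eis} (hu : IsUnit u) : qy x u = 1 := by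
  rw [qy_assoc_right x (associated_one_iff_isUnit.2 hu), qy_one_right]

lemma qy_prime (x : Eis) {p : Eis} (hp : Prime p) : qy x p = qu x p := by
  have h : Multiset.Rel Associated (UniqueFactorizationMonoid.factors p) {p} := by
    refine UniqueFactorizationMonoid.factors_unique ?_ ?_ ?_
    · exact fun _ => UniqueFactorizationMonoid.irreducible_of_factor _
    · intro q hq
      rw [Multiset.mem_singleton.1 hq]; exact hp.irreducible
    · rw [Multiset.prod_singleton]
      exact UniqueFactorizationMonoid.factors_prod hp.ne_zero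
  unfold qy
  rw [prod_rel2 h]
  simp

lemma qy_mul_left {c : Eis} (hc : nm c % 2 = 1) (x y : Eis) :
    qy (x * y) c = qy x c * qy y c := by
  refine odd_induction ?_ ?_ hc
  · intro u hu
    simp only [qy_unit_right _ hu, mul_one]
  · intro p b hp hp2 hb h
    have hb0 := ne_zero_of_odd hb
    rw [qy_mul_right _ hp.ne_zero hb0, qy_mul_right _ hp.ne_zero hb0,
      qy_mul_right _ hp.ne_zero hb0, h, qy_prime _ hp, qy_prime _ hp, qy_prime _ hp,
      qu_mul hp hp2]
    ring

lemma qy_congr {c x y : Eis} (hc : nm c % 2 = 1) (h : c ∣ x - y) : qy x c = qy y c := by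
  revert h
  refine odd_induction ?_ ?_ hc
  · intro u hu _
    simp only [qy_unit_right _ hu]
  · intro p b hp hp2 hb h hd
    have hb0 := ne_zero_of_odd hb
    rw [qy_mul_right _ hp.ne_zero hb0, qy_mul_right _ hp.ne_zero hb0,
      h ((dvd_mul_left b p).trans hd), qy_prime _ hp, qy_prime _ hp,
      qu_congr hp hp2 ((dvd_mul_right p b).trans hd)]

@[simp] lemma qy_one_left {c : Eis} (hc : nm c % 2 = 1) : qy 1 c = 1 := by
  refine odd_induction ?_ ?_ hc
  · intro u hu
    exact qy_unit_right _ hu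
  · intro p b hp hp2 hb h
    rw [qy_mul_right _ hp.ne_zero (ne_zero_of_odd hb), h, qy_prime _ hp, qu_one hp hp2, one_mul]

lemma qy_pow_left {c : Eis} (hc : nm c % 2 = 1) (x : Eis) (n : ℕ) :
    qy (x ^ n) c = qy x c ^ n := by
  induction n with
  | zero => simp [qy_one_left hc]
  | succ n ih => rw [pow_succ, qy_mul_left hc, ih, pow_succ]

lemma qy_pow_right (x : Eis) {c : Eis} (hc : c ≠ 0) (n : ℕ) :
    qy x (c ^ n) = qy x c ^ n := by
  induction n with
  | zero => simp
  | succ n ih => rw [pow_succ, qy_mul_right x (pow_ne_zero n hc) hc, ih, pow_succ]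

lemma qy_sq {c x : Eis} (hc : nm c % 2 = 1) (hx : IsCoprime x c) : qy x c ^ 2 = 1 := by
  revert hx
  refine odd_induction ?_ ?_ hc
  · intro u hu _
    rw [qy_unit_right _ hu]; norm_num
  · intro p b hp hp2 hb h hx
    have h1 : IsCoprime x p := hx.of_mul_right_left
    have h2 : IsCoprime x b := hx.of_mul_right_right
    have hnd : ¬ p ∣ x := fun hd => hp.not_isUnit (h1.isUnit_of_dvd' hd dvd_rfl)
    rw [qy_mul_right _ hp.ne_zero (ne_zero_of_odd hb), mul_pow, h h2, qy_prime _ hp, qu_sq hnd,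
      mul_one]

lemma qy_eq_zero_iff {c x : Eis} (hc : nm c % 2 = 1) : qy x c = 0 ↔ ¬ IsCoprime x c := by
  constructor
  · intro h hx
    have := qy_sq hc hx
    rw [h] at this
    norm_num at this
  · refine odd_induction ?_ ?_ hc
    · intro u hu h
      obtain ⟨v, hv⟩ := hu.exists_left_inv
      exact absurd ⟨0, v, by rw [zero_mul, zero_add, hv]⟩ h
    · intro p b hp hp2 hb h hx
      rw [qy_mul_right _ hp.ne_zero (ne_zero_of_odd hb)]
      by_cases hpx : p ∣ x
      · rw [qy_prime _ hp, qu_of_dvd hpx, zero_mul]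
      · have h1 : IsCoprime x p := (isCoprime_of_prime_not_dvd hp hpx).symm
        have h2 : ¬ IsCoprime x b := fun h2 => hx (h1.mul_right h2)
        rw [h h2, mul_zero]

lemma qy_cases {c x : Eis} (hc : nm c % 2 = 1) (hx : IsCoprime x c) :
    qy x c = 1 ∨ qy x c = -1 := by
  have h := qy_sq hc hx
  have h2 : (qy x c - 1) * (qy x c + 1) = 0 := by linear_combination h
  rcases mul_eq_zero.1 h2 with h3 | h3
  · left; omega
  · right; omega

lemma qy_conj (x : Eis) {c : Eis} (hc : nm c % 2 = 1) :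
    qy (Eis.conj x) (Eis.conj c) = qy x c := by
  refine odd_induction ?_ ?_ hc
  · intro u hu
    have hu' : IsUnit (Eis.conj u) := by
      rw [isUnit_iff, nm_conj]
      exact isUnit_iff.1 hu
    rw [qy_unit_right _ hu, qy_unit_right _ hu']
  · intro p b hp hp2 hb h
    have hb0 := ne_zero_of_odd hb
    have hb0' : Eis.conj b ≠ 0 := ne_zero_of_odd (by rw [nm_conj]; exact hb)
    have hp' := conj_prime hp
    rw [conj_mul, qy_mul_right _ hp'.ne_zero hb0', qy_mul_right _ hp.ne_zero hb0, h,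
      qy_prime _ hp', qy_prime _ hp, qu_conj]

end Crest.Agent.R017.QS411
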