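import Crest.Agent.R017.QSa_411
import Mathlib.NumberTheory.LegendreSymbol.JacobiSymbol

/-!
# Row 17: the quadratic residue symbol of `ℤ[ω]` (2): rational arguments

* `qy_intCast`: `(n/c)_2 = Jacobi(n, N c)` for rational `n` and odd `c`
* `qy_natCast_right`: `(x/n)_2 = Jacobi(N x, n)` for odd `n : ℕ`
-/

set_option autoImplicit false

noncomputable section

open Crest.Agent.R012 Crest.Agent.R012.Eis Crest.Agent.R012.Sym645

namespace Crest.Agent.R017.QS411

open scoped NumberTheorySymbols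

lemma pow_aux {F : Type} [Field F] {l : ℕ} (hl : l % 2 = 1) {a e : F} (he : e = 1 ∨ e = -1)
    (ha : a ^ ((l - 1) / 2) = e) (f : ℕ) : a ^ ((l ^ f - 1) / 2) = e ^ f := by
  have hodd : ∀ f : ℕ, l ^ f % 2 = 1 := fun f => Nat.odd_iff.1 ((Nat.odd_iff.2 hl).pow)
  have hpow : ∀ f : ℕ, (e ^ f) ^ l = e ^ f := by
    intro f
    have h2 : (e ^ f) ^ 2 = 1 := by
      rw [← pow_mul, mul_comm, pow_mul]
      rcases he with h | h <;> rw [h] <;> simp
    have h3 : l = 2 * (l / 2) + 1 := by omega
    rw [h3, pow_succ, pow_mul, h2, one_pow, one_mul]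
  induction f with
  | zero => simp
  | succ f ih =>
    have h1 := hodd f
    have h3 : (l ^ (f + 1) - 1) / 2 = (l ^ f - 1) / 2 * l + (l - 1) / 2 := by
      obtain ⟨k, hk⟩ : ∃ k, l ^ f = 2 * k + 1 := ⟨l ^ f / 2, by omega⟩
      obtain ⟨m, hm⟩ : ∃ m, l = 2 * m + 1 := ⟨l / 2, by omega⟩
      have e1 : (l ^ f - 1) / 2 = k := by omega
      have e2 : (l - 1) / 2 = m := by omega
      rw [e1, e2, pow_succ, hk]
      have : (2 * k + 1) * l - 1 = 2 * (k * l + m) := by
        have : (2 * k + 1) * l = 2 * (k * l) + l := by ring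
        omega
      omega
    rw [h3, pow_add, pow_mul, ih, hpow, ha, pow_succ]

/-- quadratic character of a rational integer in a finite field of odd cardinality. -/
lemma quadraticChar_intCast {F : Type} [Field F] [Fintype F] [DecidableEq F]
    (h2 : Fintype.card F % 2 = 1) (n : ℤ) :
    quadraticChar F (n : F) = J(n | Fintype.card F) := by
  obtain ⟨f, hl, hf⟩ := FiniteField.card F (ringChar F)
  set l := ringChar F with hldef
  have : Fact l.Prime := ⟨hl⟩
  have hchar : ringChar F ≠ 2 := by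
    intro h
    have := (FiniteField.even_card_iff_char_two (F := F)).1 h
    omega
  have hl2 : l % 2 = 1 := by
    rcases hl.eq_two_or_odd with h | h
    · exact absurd h hchar
    · exact h
  rw [hf, jacobiSym.pow_right, ← jacobiSym.legendreSym.to_jacobiSym]
  have hinj : ∀ a b : ℤ, (a = 0 ∨ a = 1 ∨ a = -1) → (b = 0 ∨ b = 1 ∨ b = -1) →
      (a : F) = (b : F) → a = b := by
    intro a b ha hb hab
    have h2 : (2 : F) ≠ 0 := Ring.two_ne_zero hchar
    have h11 : (1 : F) ≠ -1 := Ring.neg_one_ne_one_of_char_ne_two hchar |>.symm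
    rcases ha with rfl | rfl | rfl <;> rcases hb with rfl | rfl | rfl <;> simp_all
    all_goals first | exact h11 hab | exact h11 hab.symm
  apply hinj
  · by_cases h : (n : F) = 0
    · left; rw [h]; simp
    · rcases quadraticChar_dichotomy h with h | h <;> simp [h]
  · rcases jacobiSym.trichotomy n l with h | h | h
    · left; rw [jacobiSym.legendreSym.to_jacobiSym, h, zero_pow f.ne_zero]
    · right; left; rw [jacobiSym.legendreSym.to_jacobiSym, h, one_pow]
    · rw [jacobiSym.legendreSym.to_jacobiSym, h]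
      rcases neg_one_pow_eq_or ℤ (f : ℕ) with h | h <;> rw [h] <;> simp
  rw [quadraticChar_eq_pow_of_char_ne_two' hchar, hf]
  have hcast : ((legendreSym l n : ℤ) : F) = (n : F) ^ ((l - 1) / 2) := by
    have h := legendreSym.eq_pow l n
    have h3 := congrArg (ZMod.castHom (dvd_refl l) F) h
    rw [map_intCast, map_pow, map_intCast] at h3
    rw [h3]
    congr 1
    omega
  push_cast
  have hlf : l ^ (f : ℕ) % 2 = 1 := Nat.odd_iff.1 ((Nat.odd_iff.2 hl2).pow)
  have e1 : l ^ (f : ℕ) / 2 = (l ^ (f : ℕ) - 1) / 2 := by omega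
  rw [e1]
  by_cases h0 : (n : F) = 0
  · have hn0 : (n : ZMod l) = 0 := by
      rw [ZMod.intCast_zmod_eq_zero_iff_dvd]
      exact (CharP.intCast_eq_zero_iff F l n).1 h0
    rw [(legendreSym.eq_zero_iff l n).2 hn0, h0]
    have h1l := hl.one_lt
    have : 3 ≤ l ^ (f : ℕ) := by
      calc 3 ≤ l := by omega
        _ = l ^ 1 := (pow_one l).symm
        _ ≤ l ^ (f : ℕ) := Nat.pow_le_pow_right hl.pos f.pos
    rw [zero_pow (by omega), Int.cast_zero, zero_pow f.ne_zero]
  · refine pow_aux hl2 ?_ hcast.symm f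
    have hn0 : (n : ZMod l) ≠ 0 := by
      intro h
      apply h0
      rw [ZMod.intCast_zmod_eq_zero_iff_dvd] at h
      exact (CharP.intCast_eq_zero_iff F l n).2 h
    rcases legendreSym.eq_one_or_neg_one l hn0 with h | h <;> rw [h] <;> simp

/-- `(n/c)_2 = Jacobi(n, N c)`. -/
theorem qy_intCast {c : Eis} (hc : nm c % 2 = 1) (n : ℤ) : qy (n : Eis) c = J(n | nm c) := by
  refine odd_induction ?_ ?_ hc
  · intro u hu
    rw [qy_unit_right _ hu, isUnit_iff.1 hu, jacobiSym.one_right]
  · intro p b hp hp2 hb h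
    have hb0 := ne_zero_of_odd hb
    rw [qy_mul_right _ hp.ne_zero hb0, h, nm_mul,
      jacobiSym.mul_right' n (nm_pos.2 hp.ne_zero).ne' (nm_pos.2 hb0).ne', qy_prime _ hp]
    have : Fact (Prime p) := ⟨hp⟩
    have e : rq p (n : Eis) = (n : Rq p) := map_intCast (Ideal.Quotient.mk _) n
    rw [qu_eq hp2, e, quadraticChar_intCast (by rw [card_Rq]; exact hp2), card_Rq]

/-! ### rational lower argument -/

lemma w_not_dvd_aux {n : ℕ} (h1 : n ≠ 1) : ¬ ((n : ℕ) : Eis) ∣ 1 - w := by
  rintro ⟨t, ht⟩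
  have h := congrArg QuadraticAlgebra.im ht
  rw [im_mul'] at h
  simp [w] at h
  have h2 : (n : ℤ) ∣ 1 := ⟨-t.im, by linarith⟩
  have h3 := Int.natAbs_dvd_natAbs.2 h2
  simp at h3
  exact h1 h3

lemma orderOf_frob_aux {F : Type} [Field F] [Fintype F] {l : ℕ} (hl : 2 ≤ l)
    (hcard : Fintype.card F = l ^ 2) (h : ∀ x : F, x ^ l = x) : False := by
  classical
  obtain ⟨g, hg⟩ := IsCyclic.exists_generator (α := Fˣ)
  have h1 : orderOf g = l ^ 2 - 1 := by
    rw [orderOf_eq_card_of_forall_mem_zpowers hg, Nat.card_eq_fintype_card, Fintype.card_units,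
      hcard]
  have h2 : g ^ (l - 1) = 1 := by
    have h3 := h (g : F)
    have h4 : (g : F) ^ (l - 1) * (g : F) = 1 * g := by
      rw [← pow_succ, Nat.sub_add_cancel (by omega), h3, one_mul]
    have h5 := mul_right_cancel₀ (Units.ne_zero g) h4
    apply Units.ext
    rw [Units.val_pow_eq_pow_val, h5, Units.val_one]
  have h3 := orderOf_dvd_of_pow_eq_one h2
  rw [h1] at h3
  have h4 := Nat.le_of_dvd (by omega) h3
  have h5 : l * 2 ≤ l ^ 2 := by nlinarith
  omega

/-- Frobenius at an inert rational prime is complex conjugation. -/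
lemma frob_conj {l : ℕ} (hl : l.Prime) [hp : Fact (Prime ((l : ℕ) : Eis))] (x : Eis) :
    rq (l : Eis) x ^ l = rq (l : Eis) (Eis.conj x) := by
  have hcard : Fintype.card (Rq (l : Eis)) = l ^ 2 := by rw [card_Rq, nm_natCast]
  have hlf : Fact l.Prime := ⟨hl⟩
  have h0 : ((l : ℕ) : Rq (l : Eis)) = 0 := by
    have : rq (l : Eis) ((l : ℕ) : Eis) = 0 := rq_eq_zero.2 dvd_rfl
    rw [← this]
    exact (map_natCast (Ideal.Quotient.mk (Ideal.span ({((l : ℕ) : Eis)} : Set Eis))) l).symm
  have hch : CharP (Rq (l : Eis)) l := by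
    have h1 : ringChar (Rq (l : Eis)) ∣ l := (ringChar.spec (Rq (l : Eis)) l).1 h0
    rcases (Nat.dvd_prime hl).1 h1 with h2 | h2
    · exfalso
      have h3 := (CharP.cast_eq_zero_iff (Rq (l : Eis)) (ringChar (Rq (l : Eis))) 1).2
        (by rw [h2])
      simp at h3
    · have h4 := ringChar.charP (Rq (l : Eis)); rwa [h2] at h4
  have hint : ∀ n : ℤ, ((n : ℤ) : Rq (l : Eis)) ^ l = n := by
    intro n
    have h1 := ZMod.pow_card (n : ZMod l)
    have h3 := congrArg (ZMod.castHom (dvd_refl l) (Rq (l : Eis))) h1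
    rw [map_pow, map_intCast] at h3
    exact h3
  have hdec : ∀ y : Eis, rq (l : Eis) y = (y.re : Rq (l : Eis)) + (y.im : Rq (l : Eis)) * rq (l : Eis) w := by
    intro y
    have h1 : y = (y.re : Eis) + (y.im : Eis) * w := eq_re_add y
    conv_lhs => rw [h1]
    show Ideal.Quotient.mk _ _ = _
    rw [map_add, map_mul, map_intCast, map_intCast]
  have hexp : ∀ y : Eis, rq (l : Eis) y ^ l =
      (y.re : Rq (l : Eis)) + (y.im : Rq (l : Eis)) * rq (l : Eis) w ^ l := by
    intro y
    rw [hdec y, add_pow_char, mul_pow, hint, hint]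
  have hw3 : rq (l : Eis) w ^ 3 = 1 := by
    have : rq (l : Eis) (w ^ 3) = 1 := by
      rw [w_cube]; exact map_one (Ideal.Quotient.mk _)
    rw [← this]
    exact (map_pow (Ideal.Quotient.mk _) w 3).symm
  have hl1 := hl.two_le
  have hcase : l % 3 = 2 := by
    have h3 : l % 3 = 0 ∨ l % 3 = 1 ∨ l % 3 = 2 := by omega
    rcases h3 with h3 | h3 | h3
    · exfalso
      have hl3 : l = 3 := ((Nat.prime_dvd_prime_iff_eq Nat.prime_three hl).1
        (Nat.dvd_of_mod_eq_zero h3)).symm
      have hd : ((l : ℕ) : Eis) ∣ (1 - w) ^ 2 := by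
        refine ⟨-w, ?_⟩
        rw [hl3]
        push_cast
        linear_combination (1 : Eis) * w_sq
      have hd2 := hp.out.dvd_of_dvd_pow hd
      exact w_not_dvd_aux hl.one_lt.ne' hd2
    · exfalso
      have hwl : rq (l : Eis) w ^ l = rq (l : Eis) w := by
        have e : l = 3 * (l / 3) + 1 := by omega
        rw [e, pow_succ, pow_mul, ← e, hw3, one_pow, one_mul]
      refine orderOf_frob_aux hl1 hcard ?_
      intro y
      obtain ⟨y, rfl⟩ := Ideal.Quotient.mk_surjective y
      have h5 := hexp y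
      rw [hwl, ← hdec y] at h5
      exact h5
    · exact h3
  have hwl : rq (l : Eis) w ^ l = rq (l : Eis) w ^ 2 := by
    have e : l = 3 * (l / 3) + 2 := by omega
    rw [e, pow_add, pow_mul, ← e, hw3, one_pow, one_mul]
  rw [hexp x, hwl]
  have h6 : Eis.conj x = (x.re : Eis) + (x.im : Eis) * w ^ 2 := by
    apply ext'
    · rw [w_sq]; simp [conj_re, w]; ring
    · rw [w_sq]; simp [conj_im, w]
  rw [h6]
  show _ = Ideal.Quotient.mk _ _
  rw [map_add, map_mul, map_intCast, map_intCast, map_pow]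

/-- `(x/n)_2 = Jacobi(N x, n)` for odd `n`. -/
theorem qy_natCast_right (x : Eis) {n : ℕ} (hn : n % 2 = 1) :
    qy x ((n : ℕ) : Eis) = J((nm x : ℤ) | n) := by
  revert hn
  refine induction_on_primes (motive := fun n => n % 2 = 1 → qy x ((n : ℕ) : Eis) = J((nm x : ℤ) | n))
    ?_ ?_ ?_ n
  · intro h; simp at h
  · intro _
    rw [Nat.cast_one, qy_one_right, jacobiSym.one_right]
  · intro l m hl ih hlm
    have hlm' : Odd (l * m) := Nat.odd_iff.2 hlm
    rw [Nat.odd_mul] at hlm'
    have hl2 := Nat.odd_iff.1 hlm'.1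
    have hm2 := Nat.odd_iff.1 hlm'.2
    have hm0 : m ≠ 0 := by omega
    have hl0 : l ≠ 0 := hl.ne_zero
    rw [Nat.cast_mul, qy_mul_right _ (Nat.cast_ne_zero.2 hl0) (Nat.cast_ne_zero.2 hm0), ih hm2,
      jacobiSym.mul_right' _ hl0 hm0]
    congr 1
    have hlf : Fact l.Prime := ⟨hl⟩
    have hnml : nm ((l : ℕ) : Eis) = l ^ 2 := nm_natCast l
    by_cases hp : Prime ((l : ℕ) : Eis)
    · have hpf : Fact (Prime ((l : ℕ) : Eis)) := ⟨hp⟩
      have hodd : nm ((l : ℕ) : Eis) % 2 = 1 := by
        rw [hnml]; exact Nat.odd_iff.1 ((Nat.odd_iff.2 hl2).pow)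
      rw [qy_prime _ hp, qu_eq hodd]
      have hchar := ringChar_ne_two (p := ((l : ℕ) : Eis)) hodd
      have hinj : ∀ a b : ℤ, (a = 0 ∨ a = 1 ∨ a = -1) → (b = 0 ∨ b = 1 ∨ b = -1) →
          (a : Rq (l : Eis)) = (b : Rq (l : Eis)) → a = b := by
        intro a b ha hb hab
        have h2 : (2 : Rq (l : Eis)) ≠ 0 := Ring.two_ne_zero hchar
        have h11 : (1 : Rq (l : Eis)) ≠ -1 := Ring.neg_one_ne_one_of_char_ne_two hchar |>.symm
        rcases ha with rfl | rfl | rfl <;> rcases hb with rfl | rfl | rfl <;> simp_all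
        all_goals first | exact h11 hab | exact h11 hab.symm
      apply hinj
      · by_cases h : rq (l : Eis) x = 0
        · left; rw [h]; simp
        · rcases quadraticChar_dichotomy h with h | h <;> simp [h]
      · exact jacobiSym.trichotomy _ _
      rw [quadraticChar_eq_pow_of_char_ne_two' hchar, card_Rq, hnml]
      have h3 : l ^ 2 / 2 = (l + 1) * ((l - 1) / 2) := by
        obtain ⟨k, hk⟩ : ∃ k, l = 2 * k + 1 := ⟨l / 2, by omega⟩
        have e2 : (l - 1) / 2 = k := by omega
        rw [e2, hk]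
        have : (2 * k + 1) ^ 2 = 2 * ((2 * k + 1 + 1) * k) + 1 := by ring
        omega
      have h4 : rq (l : Eis) x ^ (l + 1) = ((nm x : ℤ) : Rq (l : Eis)) := by
        rw [pow_succ, frob_conj hl x]
        have : rq (l : Eis) (x * Eis.conj x) = rq (l : Eis) x * rq (l : Eis) (Eis.conj x) :=
          map_mul (Ideal.Quotient.mk _) _ _
        rw [mul_comm, ← this, mul_conj]
        push_cast
        exact map_natCast (Ideal.Quotient.mk _) (nm x)
      rw [h3, pow_mul, h4, ← jacobiSym.legendreSym.to_jacobiSym]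
      have h0 : ((l : ℕ) : Rq (l : Eis)) = 0 := by
        have : rq (l : Eis) ((l : ℕ) : Eis) = 0 := rq_eq_zero.2 dvd_rfl
        rw [← this]
        exact (map_natCast (Ideal.Quotient.mk (Ideal.span ({((l : ℕ) : Eis)} : Set Eis))) l).symm
      have hch : CharP (Rq (l : Eis)) l := by
        have h1 : ringChar (Rq (l : Eis)) ∣ l := (ringChar.spec (Rq (l : Eis)) l).1 h0
        rcases (Nat.dvd_prime hl).1 h1 with h2 | h2
        · exfalso
          have h3 := (CharP.cast_eq_zero_iff (Rq (l : Eis)) (ringChar (Rq (l : Eis))) 1).2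
            (by rw [h2])
          simp at h3
        · have h4 := ringChar.charP (Rq (l : Eis)); rwa [h2] at h4
      have h5 := legendreSym.eq_pow l (nm x : ℤ)
      have h6 := congrArg (ZMod.castHom (dvd_refl l) (Rq (l : Eis))) h5
      rw [map_intCast, map_pow, map_intCast] at h6
      rw [h6]
      congr 1
      omega
    · -- `l` splits or ramifies
      have hne : ¬ Irreducible ((l : ℕ) : Eis) := fun h => hp h.prime
      have hnu : ¬ IsUnit ((l : ℕ) : Eis) := by
        rw [isUnit_iff, hnml]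
        have := hl.one_lt
        intro h; nlinarith
      rw [irreducible_iff] at hne
      push Not at hne
      obtain ⟨a, b, hab, ha, hb⟩ := hne hnu
      have h1 : nm a * nm b = l ^ 2 := by rw [← nm_mul, ← hab, hnml]
      have ha1 : nm a ≠ 1 := fun h => ha (isUnit_iff.2 h)
      have hb1 : nm b ≠ 1 := fun h => hb (isUnit_iff.2 h)
      have hna : nm a = l := by
        have h2 : nm a ∣ l ^ 2 := ⟨nm b, h1.symm⟩
        obtain ⟨k, hk, hk2⟩ := (Nat.dvd_prime_pow hl).1 h2
        interval_cases k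
        · exact absurd hk2 ha1
        · rw [hk2, pow_one]
        · exfalso
          rw [hk2] at h1
          have h3 : 0 < l ^ 2 := pow_pos hl.pos 2
          exact hb1 (Nat.eq_of_mul_eq_mul_left h3 (by rw [h1, mul_one]))
      have hl' : ((l : ℕ) : Eis) = a * Eis.conj a := by rw [mul_conj, hna]
      have hodd : nm a % 2 = 1 := by rw [hna]; exact hl2
      have ha0 := ne_zero_of_odd hodd
      have ha0' : Eis.conj a ≠ 0 := ne_zero_of_odd (by rw [nm_conj]; exact hodd)
      have e1 : qy x (Eis.conj a) = qy (Eis.conj x) a := by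
        rw [← qy_conj (Eis.conj x) hodd, conj_conj]
      rw [hl', qy_mul_right _ ha0 ha0', e1, ← qy_mul_left hodd, mul_conj]
      have e2 : ((nm x : ℕ) : Eis) = ((nm x : ℤ) : Eis) := by push_cast; rfl
      rw [e2, qy_intCast hodd, hna]

end Crest.Agent.R017.QS411
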