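import Crest.Agent.R017.QSb_411

/-!
# Row 17: the quadratic residue symbol of `ℤ[ω]` (3): two-adic signs

* `gg D M` : the value of the Jacobi symbol `(D/M)` when `M` is a square modulo every odd divisor
  of `D` (`jac_eval`)
* `e4`: the reciprocity sign, a function of residues modulo `4`
* finite verifications modulo `8` (`fin_check`)
-/

set_option autoImplicit false

noncomputable section

open Crest.Agent.R012 Crest.Agent.R012.Eis Crest.Agent.R012.Sym645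

namespace Crest.Agent.R017.QS411

open scoped NumberTheorySymbols

/-- Norm form. -/
@[reducible] def nf (x y : ℤ) : ℤ := x * x - x * y + y * y

/-- Two-adic sign. -/
@[reducible] def gg (D M : ℤ) : ℤ :=
  if D % 2 = 1 then (if D % 4 = 3 ∧ M % 4 = 3 then -1 else 1)
  else if D % 4 = 2 then
    (if M % 8 = 3 ∨ M % 8 = 5 then -1 else 1) * (if M % 4 = 3 ∧ D % 8 = 6 then -1 else 1)
  else 1

/-- First coordinate of the class. -/
@[reducible] def cA (x y : ℤ) : Prop := (x * x * x - 3 * x * y * y + y * y * y) % 4 = 3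
/-- Second coordinate of the class. -/
@[reducible] def cB (x y : ℤ) : Prop := (3 * x * y * (x - y)) % 4 = 2

/-- The reciprocity sign. -/
@[reducible] def e4 (x y u v : ℤ) : ℤ :=
  (if cA x y ∧ cB u v then -1 else 1) * (if cB x y ∧ cA u v then -1 else 1) *
    (if cB x y ∧ cB u v then -1 else 1)

lemma gg_congr {D D' M M' : ℤ} (h1 : D % 8 = D' % 8) (h2 : M % 8 = M' % 8) :
    gg D M = gg D' M' := by
  have a1 : D % 2 = D' % 2 := by omega
  have a2 : D % 4 = D' % 4 := by omega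
  have a3 : M % 4 = M' % 4 := by omega
  unfold gg
  rw [a1, a2, a3, h1, h2]

/-- Finite check modulo 8, part 1. -/
lemma fin_check1 : ∀ x y u v : Fin 8,
    nf (x : ℕ) (y : ℕ) % 2 = 1 → nf (u : ℕ) (v : ℕ) % 2 = 1 →
    ((((x : ℕ) : ℤ) * (v : ℕ) - (u : ℕ) * (y : ℕ)) % 8 = 4 →
      (nf (x : ℕ) (y : ℕ) * nf (u : ℕ) (v : ℕ)) % 4 = 1) ∧
    ((((x : ℕ) : ℤ) * (v : ℕ) - (u : ℕ) * (y : ℕ)) % 8 = 0 →
      (nf (x : ℕ) (y : ℕ) * nf (u : ℕ) (v : ℕ)) % 8 = 1) := by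
  decide +kernel

/-- Finite check modulo 8, part 2. -/
lemma fin_check2 : ∀ x y u v : Fin 8,
    nf (x : ℕ) (y : ℕ) % 2 = 1 → nf (u : ℕ) (v : ℕ) % 2 = 1 →
    gg (v : ℕ) (nf (u : ℕ) (v : ℕ)) * gg (-(y : ℕ)) (nf (x : ℕ) (y : ℕ)) *
      gg (((x : ℕ) : ℤ) * (v : ℕ) - (u : ℕ) * (y : ℕ))
        (nf (x : ℕ) (y : ℕ) * nf (u : ℕ) (v : ℕ)) = e4 (x : ℕ) (y : ℕ) (u : ℕ) (v : ℕ) := by
  decide +kernel

end Crest.Agent.R017.QS411
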