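import Crest.Agent.R017.QSc_411

/-!
# Row 17: the quadratic residue symbol of `ℤ[ω]` (4): reciprocity

`qy_reciprocity : (a/b)_2 = eps4 a b * (b/a)_2` for all odd `a`, `b`.
-/

set_option autoImplicit false

noncomputable section

open Crest.Agent.R012 Crest.Agent.R012.Eis Crest.Agent.R012.Sym645

namespace Crest.Agent.R017.QS411

open scoped NumberTheorySymbols

lemma jac_m {M m : ℕ} (hM : M % 2 = 1) (hm : m % 2 = 1) (h : J((M : ℤ) | m) = 1) :
    J((m : ℤ) | M) = if m % 4 = 3 ∧ M % 4 = 3 then -1 else 1 := by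
  have h1 := jacobiSym.quadratic_reciprocity_if hm hM
  rw [← h1, h]

lemma jac_neg_one {M : ℕ} (hM : M % 2 = 1) : J(-1 | M) = if M % 4 = 3 then -1 else 1 := by
  rw [jacobiSym.at_neg_one (Nat.odd_iff.2 hM), ZMod.χ₄_nat_eq_if_mod_four]
  split_ifs <;> omega

lemma jac_two {M : ℕ} (hM : M % 2 = 1) : J(2 | M) = if M % 8 = 3 ∨ M % 8 = 5 then -1 else 1 := by
  rw [jacobiSym.at_two (Nat.odd_iff.2 hM), ZMod.χ₈_nat_eq_if_mod_eight]
  split_ifs <;> omega

/-- Evaluation of `(D/M)` when `M` is a square modulo the odd part of `D`. -/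
theorem jac_eval {M : ℕ} (hM : M % 2 = 1) {D : ℤ} (h0 : D = 0 → M = 1)
    (h4 : D % 8 = 4 → M % 4 = 1) (h8 : D % 8 = 0 → M % 8 = 1)
    (hsq : ∀ m : ℕ, m % 2 = 1 → (m : ℤ) ∣ D → J((M : ℤ) | m) = 1) :
    J(D | M) = gg D M := by
  by_cases hD : D = 0
  · rw [h0 hD, hD, jacobiSym.one_right]; decide
  obtain ⟨k, m, hm, hkm⟩ := Nat.exists_eq_two_pow_mul_odd (Int.natAbs_ne_zero.2 hD)
  have hm2 := Nat.odd_iff.1 hm
  obtain ⟨s, hs, hDs⟩ : ∃ s : ℤ, (s = 1 ∨ s = -1) ∧ D = s * (2 ^ k * (m : ℤ)) := by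
    rcases Int.natAbs_eq D with h | h
    · refine ⟨1, Or.inl rfl, ?_⟩
      rw [h, hkm]; push_cast; ring
    · refine ⟨-1, Or.inr rfl, ?_⟩
      rw [h, hkm]; push_cast; ring
  have hmD : (m : ℤ) ∣ D := ⟨s * 2 ^ k, by rw [hDs]; ring⟩
  have e1 : J(D | M) = J(s | M) * (J(2 | M) ^ k * J((m : ℤ) | M)) := by
    rw [hDs, jacobiSym.mul_left, jacobiSym.mul_left, jacobiSym.pow_left]
  have hM4' : (M % 4 = 1 ∧ (M : ℤ) % 4 = 1) ∨ (M % 4 = 3 ∧ (M : ℤ) % 4 = 3) := by omega
  have hm4' : m % 4 = 1 ∨ m % 4 = 3 := by omega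
  rw [e1, jac_m hM hm2 (hsq m hm2 hmD)]
  by_cases hk0 : k = 0
  · subst hk0
    rw [pow_zero, one_mul] at hDs
    rw [pow_zero, one_mul]
    have hDo : D % 2 = 1 := by rcases hs with rfl | rfl <;> omega
    have hg : gg D M = if D % 4 = 3 ∧ (M : ℤ) % 4 = 3 then -1 else 1 := by
      simp only [gg]; rw [if_pos hDo]
    rw [hg]
    rcases hs with rfl | rfl
    · rw [jacobiSym.one_left, one_mul]
      have : (D % 4 = 3 ∧ (M : ℤ) % 4 = 3) ↔ (m % 4 = 3 ∧ M % 4 = 3) := by omega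
      rw [if_congr this rfl rfl]
    · rw [jac_neg_one hM]
      rcases hM4' with ⟨a1, a2⟩ | ⟨a1, a2⟩ <;> rcases hm4' with b | b
      · simp [a1, a2]
      · simp [a1, a2]
      · have c : D % 4 = 3 := by omega
        simp [a1, a2, b, c]
      · have c : D % 4 = 1 := by omega
        simp [a1, a2, b, c]
  by_cases hk1 : k = 1
  · subst hk1
    rw [pow_one] at hDs
    rw [pow_one, jac_two hM]
    have hDo : D % 4 = 2 := by rcases hs with rfl | rfl <;> omega
    have hg : gg D M = (if (M : ℤ) % 8 = 3 ∨ (M : ℤ) % 8 = 5 then -1 else 1) *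
        (if (M : ℤ) % 4 = 3 ∧ D % 8 = 6 then -1 else 1) := by
      simp only [gg]; rw [if_neg (by omega), if_pos hDo]
    have h8 : ((M : ℤ) % 8 = 3 ∨ (M : ℤ) % 8 = 5) ↔ (M % 8 = 3 ∨ M % 8 = 5) := by omega
    rw [hg, if_congr h8 rfl rfl]
    generalize (if M % 8 = 3 ∨ M % 8 = 5 then (-1 : ℤ) else 1) = t
    rcases hs with rfl | rfl
    · rw [jacobiSym.one_left, one_mul]
      rcases hM4' with ⟨a1, a2⟩ | ⟨a1, a2⟩ <;> rcases hm4' with b | b
      · simp [a1, a2]
      · simp [a1, a2]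
      · have c : D % 8 = 2 := by omega
        simp [a1, a2, b, c]
      · have c : D % 8 = 6 := by omega
        simp [a1, a2, b, c]
    · rw [jac_neg_one hM]
      rcases hM4' with ⟨a1, a2⟩ | ⟨a1, a2⟩ <;> rcases hm4' with b | b
      · simp [a1, a2]
      · simp [a1, a2]
      · have c : D % 8 = 6 := by omega
        simp [a1, a2, b, c]
      · have c : D % 8 = 2 := by omega
        simp [a1, a2, b, c]
  have hfour : (4 : ℤ) ∣ D := by
    obtain ⟨j, rfl⟩ : ∃ j, k = j + 2 := ⟨k - 2, by omega⟩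
    exact ⟨s * (2 ^ j * m), by rw [hDs]; ring⟩
  have hM4 : M % 4 = 1 := by
    have : D % 8 = 0 ∨ D % 8 = 4 := by omega
    rcases this with h | h
    · have := h8 h; omega
    · exact h4 h
  have hg : gg D M = 1 := by
    unfold gg
    rw [if_neg (by omega), if_neg (by omega)]
  have hs1 : J(s | M) = 1 := by
    rcases hs with rfl | rfl
    · exact jacobiSym.one_left _
    · rw [jac_neg_one hM, if_neg (by omega)]
  rw [hg, hs1, if_neg (by omega), one_mul, mul_one, jac_two hM]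
  by_cases hk2 : k = 2
  · rw [hk2]
    split_ifs <;> norm_num
  · have h8' : (8 : ℤ) ∣ D := by
      obtain ⟨j, rfl⟩ : ∃ j, k = j + 3 := ⟨k - 3, by omega⟩
      exact ⟨s * (2 ^ j * m), by rw [hDs]; ring⟩
    have := h8 (by omega)
    rw [if_neg (by omega), one_pow]

/-! ### primitive pairs -/

lemma nm_eq_nf (x y : ℤ) : (nm (⟨x, y⟩ : Eis) : ℤ) = nf x y := by
  rw [nm_cast]; simp only [nf]; ring

lemma odd_nf_iff (x y : ℤ) (h : nm (⟨x, y⟩ : Eis) % 2 = 1) : nf x y % 2 = 1 := by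
  rw [← nm_eq_nf]; omega

lemma nf_modEq {x x' y y' n : ℤ} (h1 : x ≡ x' [ZMOD n]) (h2 : y ≡ y' [ZMOD n]) :
    nf x y ≡ nf x' y' [ZMOD n] :=
  ((h1.mul h1).sub (h1.mul h2)).add (h2.mul h2)

/-- `(v / N b) = gg v (N b)` for primitive `b = u + v ω`. -/
lemma jac_v {u v : ℤ} (hb : nm (⟨u, v⟩ : Eis) % 2 = 1) (hg : IsCoprime u v) (s : ℤ)
    (hs : s = 1 ∨ s = -1) :
    J(s * v | nm (⟨u, v⟩ : Eis)) = gg (s * v) (nf u v) := by
  rw [← nm_eq_nf]
  have hN := nm_eq_nf u v
  have hodd := odd_nf_iff u v hb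
  have hss : s * s = 1 := by rcases hs with h | h <;> rw [h] <;> norm_num
  refine jac_eval hb ?_ ?_ ?_ ?_
  · intro h
    have hv : v = 0 := by
      have : s * (s * v) = 0 := by rw [h, mul_zero]
      rw [← mul_assoc, hss, one_mul] at this
      exact this
    rw [hv] at hg hN ⊢
    have hu : IsUnit u := isCoprime_zero_right.1 hg
    have : ((nm (⟨u, 0⟩ : Eis) : ℕ) : ℤ) = 1 := by
      rw [hN]
      rcases Int.isUnit_iff.1 hu with h | h <;> rw [h] <;> norm_num [nf]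
    exact_mod_cast this
  · intro h
    have hv : v % 8 = 4 := by rcases hs with h1 | h1 <;> rw [h1] at h <;> omega
    have hu : u % 2 = 1 := by
      by_contra hu
      have hu0 : u ≡ 0 [ZMOD 2] := by rw [Int.modEq_zero_iff_dvd]; omega
      have hv0 : v ≡ 0 [ZMOD 2] := by rw [Int.modEq_zero_iff_dvd]; omega
      have := nf_modEq hu0 hv0
      unfold Int.ModEq at this
      rw [hodd] at this
      norm_num [nf] at this
    have h4 : nf u v ≡ 1 [ZMOD 4] := by
      have hv0 : v ≡ 0 [ZMOD 4] := by rw [Int.modEq_zero_iff_dvd]; omega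
      have hu4 : u % 4 = 1 ∨ u % 4 = 3 := by omega
      rcases hu4 with hu4 | hu4
      · exact (nf_modEq (show u ≡ 1 [ZMOD 4] from hu4) hv0).trans (by decide)
      · exact (nf_modEq (show u ≡ 3 [ZMOD 4] from hu4) hv0).trans (by decide)
    unfold Int.ModEq at h4
    omega
  · intro h
    have hv : v % 8 = 0 := by rcases hs with h1 | h1 <;> rw [h1] at h <;> omega
    have hu : u % 2 = 1 := by
      by_contra hu
      have hu0 : u ≡ 0 [ZMOD 2] := by rw [Int.modEq_zero_iff_dvd]; omega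
      have hv0 : v ≡ 0 [ZMOD 2] := by rw [Int.modEq_zero_iff_dvd]; omega
      have := nf_modEq hu0 hv0
      unfold Int.ModEq at this
      rw [hodd] at this
      norm_num [nf] at this
    have h4 : nf u v ≡ 1 [ZMOD 8] := by
      have hv0 : v ≡ 0 [ZMOD 8] := by rw [Int.modEq_zero_iff_dvd]; omega
      have hu4 : u % 8 = 1 ∨ u % 8 = 3 ∨ u % 8 = 5 ∨ u % 8 = 7 := by omega
      rcases hu4 with hu4 | hu4 | hu4 | hu4
      · exact (nf_modEq (show u ≡ 1 [ZMOD 8] from hu4) hv0).trans (by decide)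
      · exact (nf_modEq (show u ≡ 3 [ZMOD 8] from hu4) hv0).trans (by decide)
      · exact (nf_modEq (show u ≡ 5 [ZMOD 8] from hu4) hv0).trans (by decide)
      · exact (nf_modEq (show u ≡ 7 [ZMOD 8] from hu4) hv0).trans (by decide)
    unfold Int.ModEq at h4
    omega
  · intro m hm hd
    have hmv : (m : ℤ) ∣ v := by
      have : v = s * (s * v) := by rw [← mul_assoc, hss, one_mul]
      rw [this]; exact hd.mul_left s
    have hgm : IsCoprime u (m : ℤ) := hg.of_isCoprime_of_dvd_right hmv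
    have h1 : ((nm (⟨u, v⟩ : Eis) : ℕ) : ℤ) % m = (u ^ 2) % m := by
      rw [hN]
      show nf u v ≡ u ^ 2 [ZMOD m]
      apply Int.ModEq.symm
      rw [Int.modEq_iff_dvd]
      have : nf u v - u ^ 2 = v * (v - u) := by simp only [nf]; ring
      rw [this]
      exact hmv.mul_right _
    rw [jacobiSym.mod_left' h1]
    exact jacobiSym.sq_one' (Int.isCoprime_iff_gcd_eq_one.1 hgm)

end Crest.Agent.R017.QS411
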