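import Crest.Agent.R017.QSd_411
import Crest.Agent.R012.Sym5_645

/-!
# Row 17: the quadratic residue symbol of `ℤ[ω]` (5): reciprocity

`qy_reciprocity : (a/b)_2 = eps4 a b * (b/a)_2` for all odd `a`, `b`.
-/

set_option autoImplicit false

noncomputable section

open Crest.Agent.R012 Crest.Agent.R012.Eis Crest.Agent.R012.Sym645

namespace Crest.Agent.R017.QS411

open scoped NumberTheorySymbols

/-- `(a/b)_2` for primitive `b = u + v ω`. -/
lemma qy_prim {u v : ℤ} (hb : nm (⟨u, v⟩ : Eis) % 2 = 1) (hg : IsCoprime u v) (x y : ℤ) :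
    qy ⟨x, y⟩ ⟨u, v⟩ = J(v | nm (⟨u, v⟩ : Eis)) * J(x * v - u * y | nm (⟨u, v⟩ : Eis)) := by
  have hN := nm_eq_nf u v
  have h1 : qy ((v : ℤ) : Eis) ⟨u, v⟩ = J(v | nm (⟨u, v⟩ : Eis)) := qy_intCast hb v
  have h2 : qy ((x * v - u * y : ℤ) : Eis) ⟨u, v⟩ = J(x * v - u * y | nm (⟨u, v⟩ : Eis)) :=
    qy_intCast hb _
  have h3 : qy (⟨x, y⟩ * ((v : ℤ) : Eis)) ⟨u, v⟩ = qy ((x * v - u * y : ℤ) : Eis) ⟨u, v⟩ := by
    refine qy_congr hb ⟨⟨y, 0⟩, ?_⟩
    apply ext'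
    · simp [QuadraticAlgebra.re_sub]
    · simp [QuadraticAlgebra.im_sub]; ring
  rw [qy_mul_left hb, h1, h2] at h3
  have hgcd : Int.gcd v (nm (⟨u, v⟩ : Eis) : ℤ) = 1 := by
    rw [hN, ← Int.isCoprime_iff_gcd_eq_one]
    have : nf u v = u * u + v * (v - u) := by simp only [nf]; ring
    rw [this]
    exact (IsCoprime.mul_right hg.symm hg.symm).add_mul_left_right _
  have hsq : J(v | nm (⟨u, v⟩ : Eis)) ^ 2 = 1 := jacobiSym.sq_one hgcd
  calc qy ⟨x, y⟩ ⟨u, v⟩ = J(v | nm (⟨u, v⟩ : Eis)) *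
        (qy ⟨x, y⟩ ⟨u, v⟩ * J(v | nm (⟨u, v⟩ : Eis))) := by
          linear_combination (-qy ⟨x, y⟩ ⟨u, v⟩) * hsq
    _ = _ := by rw [h3]

/-- Norm identity. -/
lemma norm_rel (x y u v : ℤ) :
    nf x y * v ^ 2 - nf u v * y ^ 2 = (x * v - u * y) * ((x * v + u * y) - y * v) := by
  simp only [nf]; ring

lemma nm_int_mul (n : ℤ) (z : Eis) : (nm ((n : Eis) * z) : ℤ) = n ^ 2 * nm z := by
  rw [nm_mul]; push_cast; rw [nm_intCast]

/-- If `a`, `b` are coprime, then `gcd(N b, D) ∣ v ^ 2`. -/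
lemma key_cop {x y u v : ℤ} (hab : IsCoprime (⟨x, y⟩ : Eis) ⟨u, v⟩) {l : ℤ}
    (hlD : l ∣ x * v - u * y) (hlN : l ∣ nf u v) : l ∣ v ^ 2 := by
  obtain ⟨s, t, hst⟩ := hab
  obtain ⟨D', hD'⟩ := hlD
  -- `v = s D + b (s y + t v)`
  have h1 : ((v : ℤ) : Eis) = ((l : ℤ) : Eis) * (s * ((D' : ℤ) : Eis)) +
      (⟨u, v⟩ : Eis) * (s * ((y : ℤ) : Eis) + t * ((v : ℤ) : Eis)) := by
    have h2 : (⟨x, y⟩ : Eis) * ((v : ℤ) : Eis) =
        ((l : ℤ) : Eis) * ((D' : ℤ) : Eis) + (⟨u, v⟩ : Eis) * ((y : ℤ) : Eis) := by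
      have h3 : ((l : ℤ) : Eis) * ((D' : ℤ) : Eis) = ((x * v - u * y : ℤ) : Eis) := by
        rw [hD']; push_cast; ring
      rw [h3]
      apply ext'
      · simp
      · simp; ring
    linear_combination (((v : ℤ) : Eis)) * (-hst) + s * h2
  obtain ⟨m, hm⟩ := hlN
  -- conjugate and multiply
  set A : Eis := s * ((D' : ℤ) : Eis) with hA
  set B : Eis := s * ((y : ℤ) : Eis) + t * ((v : ℤ) : Eis) with hB
  have h4 : ((v ^ 2 : ℤ) : Eis) = ((l : ℤ) : Eis) * (A * ((v : ℤ) : Eis) +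
      (⟨u, v⟩ : Eis) * B * Eis.conj A + ((m : ℤ) : Eis) * (B * Eis.conj B)) := by
    have hc := congrArg Eis.conj h1
    rw [conj_add, conj_mul ((l : ℤ) : Eis) A, conj_mul ⟨u, v⟩ B, conj_intCast,
      conj_intCast] at hc
    have hbb : (⟨u, v⟩ : Eis) * Eis.conj ⟨u, v⟩ = ((l : ℤ) : Eis) * ((m : ℤ) : Eis) := by
      rw [mul_conj]
      have : ((nm (⟨u, v⟩ : Eis) : ℕ) : Eis) = ((nf u v : ℤ) : Eis) := by
        rw [← nm_eq_nf]; push_cast; rfl
      rw [this, hm]; push_cast; ring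
    push_cast
    calc ((v : ℤ) : Eis) ^ 2 = ((v : ℤ) : Eis) * ((v : ℤ) : Eis) := by ring
      _ = (((l : ℤ) : Eis) * A + (⟨u, v⟩ : Eis) * B) * ((v : ℤ) : Eis) := by rw [← h1]
      _ = ((l : ℤ) : Eis) * (A * ((v : ℤ) : Eis)) + (⟨u, v⟩ : Eis) * B * ((v : ℤ) : Eis) := by ring
      _ = ((l : ℤ) : Eis) * (A * ((v : ℤ) : Eis)) + (⟨u, v⟩ : Eis) * B *
            (((l : ℤ) : Eis) * Eis.conj A + Eis.conj ⟨u, v⟩ * Eis.conj B) := by rw [← hc]
      _ = ((l : ℤ) : Eis) * (A * ((v : ℤ) : Eis) + (⟨u, v⟩ : Eis) * B * Eis.conj A) +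
            ((⟨u, v⟩ : Eis) * Eis.conj ⟨u, v⟩) * (B * Eis.conj B) := by ring
      _ = _ := by rw [hbb]; ring
  have h5 := congrArg QuadraticAlgebra.re h4
  rw [re_mul'] at h5
  refine ⟨(A * ((v : ℤ) : Eis) +
      (⟨u, v⟩ : Eis) * B * Eis.conj A + ((m : ℤ) : Eis) * (B * Eis.conj B)).re, ?_⟩
  have e1 : ((v ^ 2 : ℤ) : Eis).re = v ^ 2 := by simp [pow_two]
  have e2 : ((l : ℤ) : Eis).re = l := by simp
  have e3 : ((l : ℤ) : Eis).im = 0 := by simp
  rw [e1, e2, e3, zero_mul, sub_zero] at h5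
  exact h5

/-- A prime dividing `D` divides neither norm. -/
lemma not_dvd_nf {x y u v : ℤ} (hab : IsCoprime (⟨x, y⟩ : Eis) ⟨u, v⟩) (huv : IsCoprime u v)
    {l : ℤ} (hl : Prime l) (hlD : l ∣ x * v - u * y) : ¬ l ∣ nf u v := by
  intro hlN
  have h1 : l ∣ v := hl.dvd_of_dvd_pow (key_cop hab hlD hlN)
  have h2 : l ∣ u ^ 2 := by
    have : u ^ 2 = nf u v - v * (v - u) := by simp only [nf]; ring
    rw [this]
    exact dvd_sub hlN (h1.mul_right _)
  have h3 : l ∣ u := hl.dvd_of_dvd_pow h2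
  exact hl.not_isUnit (huv.isUnit_of_dvd' h3 h1)

lemma dvd_nf_swap {x y u v : ℤ} {l : ℤ} (hlD : l ∣ x * v - u * y) : l ∣ u * y - x * v := by
  have : u * y - x * v = -(x * v - u * y) := by ring
  rw [this]
  exact (dvd_neg).2 hlD

/-- `N a * N b` is a square modulo every odd prime dividing `D`. -/
lemma jac_prime_D {x y u v : ℤ} (hab : IsCoprime (⟨x, y⟩ : Eis) ⟨u, v⟩) (hxy : IsCoprime x y)
    (huv : IsCoprime u v) {l : ℕ} (hl : l.Prime) (hlD : (l : ℤ) ∣ x * v - u * y) :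
    J(nf x y * nf u v | l) = 1 := by
  have hlp : Prime (l : ℤ) := Nat.prime_iff_prime_int.1 hl
  have hN2 : ¬ (l : ℤ) ∣ nf u v := not_dvd_nf hab huv hlp hlD
  have hN1 : ¬ (l : ℤ) ∣ nf x y := not_dvd_nf hab.symm hxy hlp (dvd_nf_swap hlD)
  have hgc : ∀ z : ℤ, ¬ (l : ℤ) ∣ z → Int.gcd z l = 1 := by
    intro z hz
    rw [← Int.isCoprime_iff_gcd_eq_one]
    exact (hlp.irreducible.coprime_iff_not_dvd.2 hz).symm
  by_cases hv : (l : ℤ) ∣ v
  · have hu : ¬ (l : ℤ) ∣ u := fun h => hlp.not_isUnit (huv.isUnit_of_dvd' h hv)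
    have hy : (l : ℤ) ∣ y := by
      have h1 : (l : ℤ) ∣ u * y := by
        have : u * y = x * v - (x * v - u * y) := by ring
        rw [this]
        exact dvd_sub (hv.mul_left x) hlD
      rcases hlp.dvd_or_dvd h1 with h | h
      · exact absurd h hu
      · exact h
    have hx : ¬ (l : ℤ) ∣ x := fun h => hlp.not_isUnit (hxy.isUnit_of_dvd' h hy)
    have h1 : (nf x y * nf u v) % (l : ℤ) = ((x * u) ^ 2) % (l : ℤ) := by
      show nf x y * nf u v ≡ (x * u) ^ 2 [ZMOD l]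
      have a1 : nf x y ≡ x ^ 2 [ZMOD l] := by
        apply Int.ModEq.symm
        rw [Int.modEq_iff_dvd]
        have : nf x y - x ^ 2 = y * (y - x) := by simp only [nf]; ring
        rw [this]; exact hy.mul_right _
      have a2 : nf u v ≡ u ^ 2 [ZMOD l] := by
        apply Int.ModEq.symm
        rw [Int.modEq_iff_dvd]
        have : nf u v - u ^ 2 = v * (v - u) := by simp only [nf]; ring
        rw [this]; exact hv.mul_right _
      have := a1.mul a2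
      rwa [← mul_pow] at this
    rw [jacobiSym.mod_left' h1]
    refine jacobiSym.sq_one' (hgc _ ?_)
    intro h
    rcases hlp.dvd_or_dvd h with h | h
    · exact hx h
    · exact hu h
  · have h1 : (nf x y * nf u v * v ^ 2) % (l : ℤ) = ((nf u v * y) ^ 2) % (l : ℤ) := by
      show nf x y * nf u v * v ^ 2 ≡ (nf u v * y) ^ 2 [ZMOD l]
      apply Int.ModEq.symm
      rw [Int.modEq_iff_dvd]
      have : nf x y * nf u v * v ^ 2 - (nf u v * y) ^ 2 =
          nf u v * (nf x y * v ^ 2 - nf u v * y ^ 2) := by ring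
      rw [this, norm_rel]
      exact (hlD.mul_right _).mul_left _
    have hy : ¬ (l : ℤ) ∣ y := by
      intro h
      have h2 : (l : ℤ) ∣ nf x y * nf u v * v ^ 2 := by
        have h3 : (l : ℤ) ∣ (nf u v * y) ^ 2 := by
          rw [pow_two]; exact ((h.mul_left _).mul_right _)
        exact Int.dvd_of_emod_eq_zero (by rw [h1]; exact Int.emod_eq_zero_of_dvd h3)
      rcases hlp.dvd_or_dvd h2 with h3 | h3
      · rcases hlp.dvd_or_dvd h3 with h4 | h4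
        · exact hN1 h4
        · exact hN2 h4
      · exact hv (hlp.dvd_of_dvd_pow h3)
    have h2 := jacobiSym.mod_left' h1
    rw [jacobiSym.mul_left, jacobiSym.sq_one' (hgc v hv), mul_one] at h2
    rw [h2]
    refine jacobiSym.sq_one' (hgc _ ?_)
    intro h
    rcases hlp.dvd_or_dvd h with h | h
    · exact hN2 h
    · exact hy h

lemma jac_D {x y u v : ℤ} (hab : IsCoprime (⟨x, y⟩ : Eis) ⟨u, v⟩) (hxy : IsCoprime x y)
    (huv : IsCoprime u v) (m : ℕ) (hm : m % 2 = 1) (hmD : (m : ℤ) ∣ x * v - u * y) :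
    J(nf x y * nf u v | m) = 1 := by
  revert hm hmD
  refine induction_on_primes (motive := fun m => m % 2 = 1 → (m : ℤ) ∣ x * v - u * y →
    J(nf x y * nf u v | m) = 1) ?_ ?_ ?_ m
  · intro h; simp at h
  · intro _ _; exact jacobiSym.one_right _
  · intro l k hl ih hlk hd
    have h1 : Odd (l * k) := Nat.odd_iff.2 hlk
    rw [Nat.odd_mul] at h1
    have hk0 : k ≠ 0 := by
      rintro rfl; simp at hlk
    push_cast at hd
    rw [jacobiSym.mul_right' _ hl.ne_zero hk0,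
      jac_prime_D hab hxy huv hl ((dvd_mul_right _ _).trans hd),
      ih (Nat.odd_iff.1 h1.2) ((dvd_mul_left _ _).trans hd), one_mul]

end Crest.Agent.R017.QS411
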