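import Crest.Agent.R017.QSe_411

/-!
# Row 17: the quadratic residue symbol of `ℤ[ω]` (6): reciprocity

* `eps4 a b : ℤ` : the reciprocity sign, depends only on `a`, `b` modulo `4`, bimultiplicative,
  symmetric
* `qy_reciprocity : nm a % 2 = 1 → nm b % 2 = 1 → qy a b = eps4 a b * qy b a`
-/

set_option autoImplicit false

noncomputable section

open Crest.Agent.R012 Crest.Agent.R012.Eis Crest.Agent.R012.Sym645

namespace Crest.Agent.R017.QS411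

open scoped NumberTheorySymbols

lemma fin8 (x : ℤ) : ∃ i : Fin 8, ((i : ℕ) : ℤ) ≡ x [ZMOD 8] := by
  refine ⟨⟨(x % 8).toNat, by omega⟩, ?_⟩
  show (((x % 8).toNat : ℕ) : ℤ) % 8 = x % 8
  omega

lemma fin4 (x : ℤ) : ∃ i : Fin 4, ((i : ℕ) : ℤ) ≡ x [ZMOD 4] := by
  refine ⟨⟨(x % 4).toNat, by omega⟩, ?_⟩
  show (((x % 4).toNat : ℕ) : ℤ) % 4 = x % 4
  omega

lemma mod4_of_mod8 {a b : ℤ} (h : a ≡ b [ZMOD 8]) : a ≡ b [ZMOD 4] :=
  h.of_dvd (by norm_num)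

lemma mod2_of_mod8 {a b : ℤ} (h : a ≡ b [ZMOD 8]) : a ≡ b [ZMOD 2] :=
  h.of_dvd (by norm_num)

lemma mod2_of_mod4 {a b : ℤ} (h : a ≡ b [ZMOD 4]) : a ≡ b [ZMOD 2] :=
  h.of_dvd (by norm_num)

lemma cA_congr {x x' y y' : ℤ} (h1 : x ≡ x' [ZMOD 4]) (h2 : y ≡ y' [ZMOD 4]) :
    cA x y ↔ cA x' y' := by
  have h : x * x * x - 3 * x * y * y + y * y * y ≡
      x' * x' * x' - 3 * x' * y' * y' + y' * y' * y' [ZMOD 4] :=
    ((((h1.mul h1).mul h1).sub (((h1.mul_left 3).mul h2).mul h2))).add ((h2.mul h2).mul h2)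
  unfold Int.ModEq at h
  unfold cA
  rw [h]

lemma cB_congr {x x' y y' : ℤ} (h1 : x ≡ x' [ZMOD 4]) (h2 : y ≡ y' [ZMOD 4]) :
    cB x y ↔ cB x' y' := by
  have h : 3 * x * y * (x - y) ≡ 3 * x' * y' * (x' - y') [ZMOD 4] :=
    ((h1.mul_left 3).mul h2).mul (h1.sub h2)
  unfold Int.ModEq at h
  unfold cB
  rw [h]

lemma e4_congr {x x' y y' u u' v v' : ℤ} (h1 : x ≡ x' [ZMOD 4]) (h2 : y ≡ y' [ZMOD 4])
    (h3 : u ≡ u' [ZMOD 4]) (h4 : v ≡ v' [ZMOD 4]) : e4 x y u v = e4 x' y' u' v' := by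
  unfold e4
  rw [if_congr (and_congr (cA_congr h1 h2) (cB_congr h3 h4)) rfl rfl,
    if_congr (and_congr (cB_congr h1 h2) (cA_congr h3 h4)) rfl rfl,
    if_congr (and_congr (cB_congr h1 h2) (cB_congr h3 h4)) rfl rfl]

lemma e4_symm (x y u v : ℤ) : e4 x y u v = e4 u v x y := by
  unfold e4
  rw [if_congr (and_comm (a := cA u v) (b := cB x y)) rfl rfl,
    if_congr (and_comm (a := cB u v) (b := cA x y)) rfl rfl,
    if_congr (and_comm (a := cB u v) (b := cB x y)) rfl rfl]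
  ring

lemma e4_cases (x y u v : ℤ) : e4 x y u v = 1 ∨ e4 x y u v = -1 := by
  unfold e4
  split_ifs <;> norm_num

lemma e4_sq (x y u v : ℤ) : e4 x y u v * e4 x y u v = 1 := by
  rcases e4_cases x y u v with h | h <;> rw [h] <;> norm_num

/-- Finite check modulo 4: multiplicativity. -/
lemma fin_check3 : ∀ x y x' y' u v : Fin 4,
    nf (x : ℕ) (y : ℕ) % 2 = 1 → nf (x' : ℕ) (y' : ℕ) % 2 = 1 → nf (u : ℕ) (v : ℕ) % 2 = 1 →
    e4 (((x : ℕ) : ℤ) * (x' : ℕ) - (y : ℕ) * (y' : ℕ))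
      (((x : ℕ) : ℤ) * (y' : ℕ) + (y : ℕ) * (x' : ℕ) - (y : ℕ) * (y' : ℕ)) (u : ℕ) (v : ℕ) =
    e4 (x : ℕ) (y : ℕ) (u : ℕ) (v : ℕ) * e4 (x' : ℕ) (y' : ℕ) (u : ℕ) (v : ℕ) := by
  decide +kernel

/-- Finite check modulo 4: rational argument. -/
lemma fin_check4 : ∀ g u v : Fin 4,
    ((g : ℕ) : ℤ) % 2 = 1 → nf (u : ℕ) (v : ℕ) % 2 = 1 →
    e4 (g : ℕ) 0 (u : ℕ) (v : ℕ) =
      if ((g : ℕ) : ℤ) % 4 = 3 ∧ nf (u : ℕ) (v : ℕ) % 4 = 3 then -1 else 1 := by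
  decide +kernel

lemma e4_mul {x y x' y' u v : ℤ} (h1 : nf x y % 2 = 1) (h2 : nf x' y' % 2 = 1)
    (h3 : nf u v % 2 = 1) :
    e4 (x * x' - y * y') (x * y' + y * x' - y * y') u v = e4 x y u v * e4 x' y' u v := by
  obtain ⟨a, ha⟩ := fin4 x
  obtain ⟨b, hb⟩ := fin4 y
  obtain ⟨a', ha'⟩ := fin4 x'
  obtain ⟨b', hb'⟩ := fin4 y'
  obtain ⟨c, hc⟩ := fin4 u
  obtain ⟨d, hd⟩ := fin4 v
  have k1 : nf (a : ℕ) (b : ℕ) % 2 = 1 :=
    Eq.trans (nf_modEq (mod2_of_mod4 ha) (mod2_of_mod4 hb)) h1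
  have k2 : nf (a' : ℕ) (b' : ℕ) % 2 = 1 :=
    Eq.trans (nf_modEq (mod2_of_mod4 ha') (mod2_of_mod4 hb')) h2
  have k3 : nf (c : ℕ) (d : ℕ) % 2 = 1 :=
    Eq.trans (nf_modEq (mod2_of_mod4 hc) (mod2_of_mod4 hd)) h3
  have h := fin_check3 a b a' b' c d k1 k2 k3
  rw [e4_congr ((ha.mul ha').sub (hb.mul hb')) (((ha.mul hb').add (hb.mul ha')).sub (hb.mul hb'))
    hc hd, e4_congr ha hb hc hd, e4_congr ha' hb' hc hd] at h
  exact h

lemma e4_rat {g u v : ℤ} (h1 : g % 2 = 1) (h2 : nf u v % 2 = 1) :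
    e4 g 0 u v = if g % 4 = 3 ∧ nf u v % 4 = 3 then -1 else 1 := by
  obtain ⟨a, ha⟩ := fin4 g
  obtain ⟨c, hc⟩ := fin4 u
  obtain ⟨d, hd⟩ := fin4 v
  have k1 : ((a : ℕ) : ℤ) % 2 = 1 := Eq.trans (mod2_of_mod4 ha) h1
  have k3 : nf (c : ℕ) (d : ℕ) % 2 = 1 :=
    Eq.trans (nf_modEq (mod2_of_mod4 hc) (mod2_of_mod4 hd)) h2
  have h := fin_check4 a c d k1 k3
  rw [e4_congr ha (Int.ModEq.refl 0) hc hd] at h
  have e1 : ((a : ℕ) : ℤ) % 4 = g % 4 := ha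
  have e2 : nf (c : ℕ) (d : ℕ) % 4 = nf u v % 4 := nf_modEq hc hd
  rw [e1, e2] at h
  exact h

/-! ### primitive coprime pairs -/

theorem recip_prim {x y u v : ℤ} (ha : nm (⟨x, y⟩ : Eis) % 2 = 1)
    (hb : nm (⟨u, v⟩ : Eis) % 2 = 1) (hab : IsCoprime (⟨x, y⟩ : Eis) ⟨u, v⟩)
    (hxy : IsCoprime x y) (huv : IsCoprime u v) :
    qy ⟨x, y⟩ ⟨u, v⟩ = e4 x y u v * qy ⟨u, v⟩ ⟨x, y⟩ := by
  have oa := odd_nf_iff x y ha
  have ob := odd_nf_iff u v hb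
  obtain ⟨a, ea⟩ := fin8 x
  obtain ⟨b, eb⟩ := fin8 y
  obtain ⟨c, ec⟩ := fin8 u
  obtain ⟨d, ed⟩ := fin8 v
  have k1 : nf (a : ℕ) (b : ℕ) % 2 = 1 :=
    Eq.trans (nf_modEq (mod2_of_mod8 ea) (mod2_of_mod8 eb)) oa
  have k2 : nf (c : ℕ) (d : ℕ) % 2 = 1 :=
    Eq.trans (nf_modEq (mod2_of_mod8 ec) (mod2_of_mod8 ed)) ob
  have eN1 : nf (a : ℕ) (b : ℕ) ≡ nf x y [ZMOD 8] := nf_modEq ea eb
  have eN2 : nf (c : ℕ) (d : ℕ) ≡ nf u v [ZMOD 8] := nf_modEq ec ed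
  have eD : ((a : ℕ) : ℤ) * (d : ℕ) - (c : ℕ) * (b : ℕ) ≡ x * v - u * y [ZMOD 8] :=
    (ea.mul ed).sub (ec.mul eb)
  have eM := eN1.mul eN2
  have c1 := fin_check1 a b c d k1 k2
  have c2 := fin_check2 a b c d k1 k2
  have eM4 : (nf (a : ℕ) (b : ℕ) * nf (c : ℕ) (d : ℕ)) % 4 = (nf x y * nf u v) % 4 :=
    mod4_of_mod8 eM
  have eM8 : (nf (a : ℕ) (b : ℕ) * nf (c : ℕ) (d : ℕ)) % 8 = (nf x y * nf u v) % 8 := eM
  have eD8 : (((a : ℕ) : ℤ) * (d : ℕ) - (c : ℕ) * (b : ℕ)) % 8 = (x * v - u * y) % 8 := eD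
  rw [eD8, eM4, eM8] at c1
  -- the three Jacobi symbols
  have h1 := qy_prim hb huv x y
  have h2 := qy_prim ha hxy u v
  have h3 := jac_v hb huv 1 (Or.inl rfl)
  have h4 := jac_v ha hxy (-1) (Or.inr rfl)
  rw [one_mul] at h3
  have hM : (((nm (⟨x, y⟩ : Eis) * nm (⟨u, v⟩ : Eis) : ℕ)) : ℤ) = nf x y * nf u v := by
    push_cast
    rw [nm_eq_nf, nm_eq_nf]
  have hMo : (nm (⟨x, y⟩ : Eis) * nm (⟨u, v⟩ : Eis)) % 2 = 1 := by
    rw [Nat.mul_mod, ha, hb]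
  have h5 : J(x * v - u * y | nm (⟨x, y⟩ : Eis) * nm (⟨u, v⟩ : Eis)) =
      gg (x * v - u * y) (nf x y * nf u v) := by
    rw [← hM]
    refine jac_eval hMo ?_ ?_ ?_ ?_
    · intro h0
      have i1 : nf u v ∣ v ^ 2 := key_cop hab (by rw [h0]; exact dvd_zero _) dvd_rfl
      have i2 : nf x y ∣ y ^ 2 := key_cop hab.symm
        (by
          have : u * y - x * v = 0 := by linarith
          rw [this]; exact dvd_zero _) dvd_rfl
      have j1 : IsCoprime (nf u v) (v ^ 2) := by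
        refine IsCoprime.pow_right ?_
        have : nf u v = u * u + v * (v - u) := by simp only [nf]; ring
        rw [this]
        exact (IsCoprime.mul_left huv huv).add_mul_left_left _
      have j2 : IsCoprime (nf x y) (y ^ 2) := by
        refine IsCoprime.pow_right ?_
        have : nf x y = x * x + y * (y - x) := by simp only [nf]; ring
        rw [this]
        exact (IsCoprime.mul_left hxy hxy).add_mul_left_left _
      have l1 : IsUnit (nf u v) := j1.isUnit_of_dvd i1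
      have l2 : IsUnit (nf x y) := j2.isUnit_of_dvd i2
      rw [← nm_eq_nf] at l1 l2
      have m1 : nm (⟨u, v⟩ : Eis) = 1 := Int.ofNat_isUnit.1 l1 |> Nat.isUnit_iff.1
      have m2 : nm (⟨x, y⟩ : Eis) = 1 := Int.ofNat_isUnit.1 l2 |> Nat.isUnit_iff.1
      rw [m1, m2]
    · intro h
      have := c1.1 h
      rw [← hM] at this
      omega
    · intro h
      have := c1.2 h
      rw [← hM] at this
      omega
    · intro m hm hd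
      rw [hM]
      exact jac_D hab hxy huv m hm hd
  have hne1 : nm (⟨x, y⟩ : Eis) ≠ 0 := by omega
  have hne2 : nm (⟨u, v⟩ : Eis) ≠ 0 := by omega
  rw [jacobiSym.mul_right' _ hne1 hne2] at h5
  have h6 : J(y | nm (⟨x, y⟩ : Eis)) * J(u * y - x * v | nm (⟨x, y⟩ : Eis)) =
      J(-1 * y | nm (⟨x, y⟩ : Eis)) * J(x * v - u * y | nm (⟨x, y⟩ : Eis)) := by
    rw [← jacobiSym.mul_left, ← jacobiSym.mul_left]
    congr 1
    ring
  have hprod : qy ⟨x, y⟩ ⟨u, v⟩ * qy ⟨u, v⟩ ⟨x, y⟩ = e4 x y u v := by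
    rw [h1, h2, h6, h3, h4]
    have c3 : gg v (nf u v) * gg (-1 * y) (nf x y) * gg (x * v - u * y) (nf x y * nf u v) =
        e4 x y u v := by
      rw [← e4_congr (mod4_of_mod8 ea) (mod4_of_mod8 eb) (mod4_of_mod8 ec) (mod4_of_mod8 ed), ← c2,
        gg_congr ed eN2, gg_congr (D := -((b : ℕ) : ℤ)) (D' := -1 * y) (by
          have : -((b : ℕ) : ℤ) ≡ -y [ZMOD 8] := eb.neg
          rw [neg_one_mul]; exact this) eN1, gg_congr eD8 eM8]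
    rw [← c3, ← h5]
    ring
  have hsq : qy ⟨u, v⟩ ⟨x, y⟩ ^ 2 = 1 := qy_sq ha hab.symm
  linear_combination (qy ⟨u, v⟩ ⟨x, y⟩) * hprod - qy ⟨x, y⟩ ⟨u, v⟩ * hsq

end Crest.Agent.R017.QS411
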