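import Crest.Agent.R017.QSf_411

/-!
# Row 17: the quadratic residue symbol of `ℤ[ω]` (7): general reciprocity, supplementary laws

* `eps4 a b : ℤ` : the reciprocity sign; depends only on `a`, `b` modulo `4`, symmetric,
  bimultiplicative, `±1`
* `qy_reciprocity : nm a % 2 = 1 → nm b % 2 = 1 → qy a b = eps4 a b * qy b a`
* `qy_recip_four : 4 ∣ a - 1 → nm b % 2 = 1 → qy a b = qy b a`
* `qy_neg_one`, `qy_two`, `qy_w`, `qy_lam`
* `qy_periodic`
-/

set_option autoImplicit false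

noncomputable section

open Crest.Agent.R012 Crest.Agent.R012.Eis Crest.Agent.R012.Sym645

namespace Crest.Agent.R017.QS411

open scoped NumberTheorySymbols

/-- The reciprocity sign `(-1)^{Tr(x_a x_b)}` where `a = ω^i (1 + 2 x_a)` modulo `4`. -/
def eps4 (a b : Eis) : ℤ := e4 a.re a.im b.re b.im

lemma four_dvd_iff {z : Eis} : (4 : Eis) ∣ z ↔ (4 ∣ z.re ∧ 4 ∣ z.im) := by
  have h4r : (4 : Eis).re = 4 := rfl
  have h4i : (4 : Eis).im = 0 := rfl
  constructor
  · rintro ⟨s, rfl⟩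
    rw [re_mul', im_mul', h4r, h4i]
    constructor
    · exact ⟨s.re, by ring⟩
    · exact ⟨s.im, by ring⟩
  · rintro ⟨⟨s, hs⟩, ⟨t, ht⟩⟩
    refine ⟨⟨s, t⟩, ?_⟩
    apply ext'
    · rw [re_mul', h4r, h4i, hs]; ring
    · rw [im_mul', h4r, h4i, ht]; ring

lemma eps4_congr_left {a a' : Eis} (b : Eis) (h : (4 : Eis) ∣ a - a') : eps4 a b = eps4 a' b := by
  rw [four_dvd_iff, QuadraticAlgebra.re_sub, QuadraticAlgebra.im_sub] at h
  refine e4_congr ?_ ?_ (Int.ModEq.refl _) (Int.ModEq.refl _)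
  · exact (Int.modEq_iff_dvd.2 (by
      have := h.1; omega))
  · exact (Int.modEq_iff_dvd.2 (by
      have := h.2; omega))

lemma eps4_symm (a b : Eis) : eps4 a b = eps4 b a := e4_symm _ _ _ _

lemma eps4_congr_right (a : Eis) {b b' : Eis} (h : (4 : Eis) ∣ b - b') :
    eps4 a b = eps4 a b' := by
  rw [eps4_symm, eps4_congr_left a h, eps4_symm]

lemma eps4_cases (a b : Eis) : eps4 a b = 1 ∨ eps4 a b = -1 := e4_cases _ _ _ _

lemma eps4_mul_self (a b : Eis) : eps4 a b * eps4 a b = 1 := e4_sq _ _ _ _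

lemma odd_nf (a : Eis) (h : nm a % 2 = 1) : nf a.re a.im % 2 = 1 := odd_nf_iff a.re a.im h

lemma eps4_mul_left {a a' b : Eis} (h1 : nm a % 2 = 1) (h2 : nm a' % 2 = 1)
    (h3 : nm b % 2 = 1) : eps4 (a * a') b = eps4 a b * eps4 a' b := by
  unfold eps4
  rw [re_mul', im_mul']
  exact e4_mul (odd_nf a h1) (odd_nf a' h2) (odd_nf b h3)

lemma eps4_mul_right {a b b' : Eis} (h1 : nm a % 2 = 1) (h2 : nm b % 2 = 1)
    (h3 : nm b' % 2 = 1) : eps4 a (b * b') = eps4 a b * eps4 a b' := by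
  rw [eps4_symm, eps4_mul_left h2 h3 h1, eps4_symm b a, eps4_symm b' a]

/-- Content of an element. -/
lemma exists_content {a : Eis} (ha : a ≠ 0) :
    ∃ (g : ℕ) (x y : ℤ), IsCoprime x y ∧ a = ((g : ℕ) : Eis) * ⟨x, y⟩ := by
  have h0 : 0 < Int.gcd a.re a.im := by
    rw [Int.gcd_pos_iff]
    by_contra h
    push Not at h
    exact ha (ext' h.1 h.2)
  obtain ⟨x, y, h1, h2, h3⟩ := Int.exists_gcd_one h0
  refine ⟨Int.gcd a.re a.im, x, y, Int.isCoprime_iff_gcd_eq_one.2 h1, ?_⟩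
  apply ext'
  · rw [re_mul']; simp; linarith
  · rw [im_mul']; simp; linarith

/-- The reciprocity relation. -/
def Recip (a b : Eis) : Prop := qy a b = eps4 a b * qy b a

lemma Recip.symm {a b : Eis} (h : Recip a b) : Recip b a := by
  unfold Recip at *
  rw [h, ← mul_assoc, eps4_symm b a, eps4_mul_self, one_mul]

lemma Recip.mul {a a' b : Eis} (ha : nm a % 2 = 1) (ha' : nm a' % 2 = 1) (hb : nm b % 2 = 1)
    (h1 : Recip a b) (h2 : Recip a' b) : Recip (a * a') b := by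
  unfold Recip at *
  rw [qy_mul_left hb, qy_mul_right _ (ne_zero_of_odd ha) (ne_zero_of_odd ha'), h1, h2,
    eps4_mul_left ha ha' hb]
  ring

lemma recip_nat {g : ℕ} {b : Eis} (hg : g % 2 = 1) (hb : nm b % 2 = 1) :
    Recip ((g : ℕ) : Eis) b := by
  unfold Recip
  have e1 : ((g : ℕ) : Eis) = (((g : ℕ) : ℤ) : Eis) := by push_cast; rfl
  have h1 : qy ((g : ℕ) : Eis) b = J((g : ℤ) | nm b) := by rw [e1]; exact qy_intCast hb _
  rw [h1, qy_natCast_right b hg, ← jacobiSym.quadratic_reciprocity_if hg hb]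
  have h2 : eps4 ((g : ℕ) : Eis) b = if g % 4 = 3 ∧ nm b % 4 = 3 then -1 else 1 := by
    unfold eps4
    have r1 : (((g : ℕ) : Eis)).re = g := by simp
    have r2 : (((g : ℕ) : Eis)).im = 0 := by simp
    rw [r1, r2, e4_rat (by omega) (odd_nf b hb)]
    have h3 : nf b.re b.im = nm b := (nm_eq_nf b.re b.im).symm
    rw [h3]
    refine if_congr ?_ rfl rfl
    omega
  rw [h2]
  split_ifs <;> ring

lemma recip_primitive {x y u v : ℤ} (ha : nm (⟨x, y⟩ : Eis) % 2 = 1)
    (hb : nm (⟨u, v⟩ : Eis) % 2 = 1) (hxy : IsCoprime x y) (huv : IsCoprime u v) :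
    Recip ⟨x, y⟩ ⟨u, v⟩ := by
  unfold Recip
  by_cases hab : IsCoprime (⟨x, y⟩ : Eis) ⟨u, v⟩
  · exact recip_prim ha hb hab hxy huv
  · rw [(qy_eq_zero_iff hb).2 hab, (qy_eq_zero_iff ha).2 (fun h => hab h.symm), mul_zero]

theorem recip_all {a b : Eis} (ha : nm a % 2 = 1) (hb : nm b % 2 = 1) : Recip a b := by
  obtain ⟨g, x, y, hxy, hga⟩ := exists_content (ne_zero_of_odd ha)
  obtain ⟨h, u, v, huv, hhb⟩ := exists_content (ne_zero_of_odd hb)
  have hg1 := odd_of_mul (hga ▸ ha)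
  have hh1 := odd_of_mul (hhb ▸ hb)
  have hgo : g % 2 = 1 := by
    have := hg1.1
    rw [nm_natCast] at this
    have h2 : Odd (g ^ 2) := Nat.odd_iff.2 this
    rw [Nat.odd_pow_iff (by norm_num)] at h2
    exact Nat.odd_iff.1 h2
  have hho : h % 2 = 1 := by
    have := hh1.1
    rw [nm_natCast] at this
    have h2 : Odd (h ^ 2) := Nat.odd_iff.2 this
    rw [Nat.odd_pow_iff (by norm_num)] at h2
    exact Nat.odd_iff.1 h2
  have s1 : Recip ⟨x, y⟩ b := by
    refine Recip.symm ?_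
    rw [hhb]
    refine Recip.mul hh1.1 hh1.2 hg1.2 (recip_nat hho hg1.2) ?_
    exact recip_primitive hh1.2 hg1.2 huv hxy
  have s2 : Recip ((g : ℕ) : Eis) b := recip_nat hgo hb
  rw [hga]
  exact Recip.mul hg1.1 hg1.2 hb s2 s1

/-- **Quadratic reciprocity in `ℤ[ω]`.** -/
theorem qy_reciprocity {a b : Eis} (ha : nm a % 2 = 1) (hb : nm b % 2 = 1) :
    qy a b = eps4 a b * qy b a := recip_all ha hb

lemma eps4_one_left (b : Eis) : eps4 1 b = 1 := by
  unfold eps4
  have h1 : (1 : Eis).re = 1 := rfl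
  have h2 : (1 : Eis).im = 0 := rfl
  rw [h1, h2]
  unfold e4 cA cB
  norm_num

lemma eps4_of_four {a : Eis} (b : Eis) (h : (4 : Eis) ∣ a - 1) : eps4 a b = 1 := by
  rw [eps4_congr_left b h, eps4_one_left]

lemma odd_of_four {a : Eis} (h : (4 : Eis) ∣ a - 1) : nm a % 2 = 1 := by
  rw [four_dvd_iff, QuadraticAlgebra.re_sub, QuadraticAlgebra.im_sub, one_re', one_im'] at h
  have h1 : a.re ≡ 1 [ZMOD 2] := by rw [Int.modEq_iff_dvd]; omega
  have h2 : a.im ≡ 0 [ZMOD 2] := by rw [Int.modEq_iff_dvd]; omega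
  have h3 := nf_modEq h1 h2
  have h4 : nf a.re a.im = nm a := (nm_eq_nf a.re a.im).symm
  rw [h4] at h3
  have : (nm a : ℤ) % 2 = 1 := h3
  omega

/-- Reciprocity when one argument is `1` modulo `4`. -/
theorem qy_recip_four {a b : Eis} (ha : (4 : Eis) ∣ a - 1) (hb : nm b % 2 = 1) :
    qy a b = qy b a := by
  rw [qy_reciprocity (odd_of_four ha) hb, eps4_of_four b ha, one_mul]

/-! ### supplementary laws -/

theorem qy_neg_one {c : Eis} (hc : nm c % 2 = 1) :
    qy (-1) c = if nm c % 4 = 3 then -1 else 1 := by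
  have h := qy_intCast hc (-1)
  push_cast at h
  rw [h, jac_neg_one hc]

theorem qy_two {c : Eis} (hc : nm c % 2 = 1) :
    qy 2 c = if nm c % 8 = 3 ∨ nm c % 8 = 5 then -1 else 1 := by
  have h := qy_intCast hc 2
  push_cast at h
  rw [h, jac_two hc]

theorem qy_w {c : Eis} (hc : nm c % 2 = 1) : qy w c = 1 := by
  have h : w = (w ^ 2) ^ 2 := by
    rw [← pow_mul]
    show w = w ^ 4
    have : w ^ 4 = w ^ 3 * w := by ring
    rw [this, w_cube, one_mul]
  have hw : IsCoprime (w ^ 2) c := by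
    have hu : IsUnit (w ^ 2) := isUnit_w.pow 2
    obtain ⟨v, hv⟩ := hu.exists_left_inv
    exact ⟨v, 0, by rw [hv, zero_mul, add_zero]⟩
  rw [h, qy_pow_left hc, qy_sq hc hw]

lemma odd_lam : nm lam % 2 = 1 := by
  have : nm lam = 3 := nm_lam
  rw [this]

/-- For primary odd `c`, `(λ/c)_2` depends only on `c` modulo `4`. -/
theorem qy_lam {c : Eis} (hc : nm c % 2 = 1) (hp : IsPrim c) : qy lam c = eps4 lam c := by
  rw [qy_reciprocity odd_lam hc]
  have h : qy c lam = 1 := by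
    have h1 : lam ∣ c - 1 := lam_dvd_three.trans hp
    rw [qy_congr odd_lam h1, qy_one_left odd_lam]
  rw [h, mul_one]

/-- Periodicity in the lower argument. -/
theorem qy_periodic_odd {x c c' : Eis} (hx : nm x % 2 = 1) (hc : nm c % 2 = 1)
    (hc' : nm c' % 2 = 1) (h : 4 * x ∣ c - c') : qy x c = qy x c' := by
  rw [qy_reciprocity hx hc, qy_reciprocity hx hc',
    eps4_congr_right x ((dvd_mul_right _ _).trans h), qy_congr hx ((dvd_mul_left _ _).trans h)]

end Crest.Agent.R017.QS411
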