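import Mathlib

/-!
# Row 17: the sign of the rational quadratic Gauss sum (via the theta function)

`landsberg : Σ_{r < n} exp(2πi r²/n) = √n (1 + i) (1 + (-i)^n) / 2` for `n ≥ 1`.
-/

set_option autoImplicit false

noncomputable section

open Complex Filter Topology
open scoped Real

namespace Crest.Agent.R017.QS411

/-- Theta series over a residue class. -/
def Th (z : ℂ) (N : ℕ) (r : ℤ) : ℂ := ∑' j : ℤ, cexp (-π * z * ((r : ℂ) + N * j) ^ 2)

lemma summable_gauss {c : ℝ} (hc : 0 < c) : Summable (fun n : ℤ => Real.exp (-π * (c * (n : ℝ) ^ 2))) := by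
  have h := summable_pow_mul_jacobiTheta₂_term_bound 0 hc 0
  simpa using h

lemma norm_term (a b : ℂ) (hb : b.re = 0) (n : ℤ) :
    ‖cexp (-π * a * (n : ℂ) ^ 2 + 2 * π * b * n)‖ = Real.exp (-π * (a.re * (n : ℝ) ^ 2)) := by
  rw [Complex.norm_exp]
  congr 1
  have h1 : (n : ℂ) ^ 2 = (((n : ℝ) ^ 2 : ℝ) : ℂ) := by push_cast; rfl
  have h2 : (n : ℂ) = ((n : ℝ) : ℂ) := by push_cast; rfl
  rw [Complex.add_re, h1, Complex.re_mul_ofReal, h2, Complex.re_mul_ofReal]
  have e1 : (-(π : ℂ) * a).re = -π * a.re := by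
    rw [← ofReal_neg, Complex.re_ofReal_mul]
  have e2 : (2 * (π : ℂ) * b).re = 0 := by
    have : (2 * (π : ℂ) * b) = ((2 * π : ℝ) : ℂ) * b := by push_cast; ring
    rw [this, Complex.re_ofReal_mul, hb, mul_zero]
  rw [e1, e2]
  ring

lemma summable_term {a b : ℂ} (ha : 0 < a.re) (hb : b.re = 0) :
    Summable (fun n : ℤ => cexp (-π * a * (n : ℂ) ^ 2 + 2 * π * b * n)) := by
  refine Summable.of_norm ?_
  simp_rw [norm_term a b hb]
  exact summable_gauss ha

/-- The constant. -/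
def C0 : ℝ := ∑' n : ℤ, Real.exp (-π * ((1 / 2 : ℝ) * (n : ℝ) ^ 2))

lemma tail_bound {a b : ℂ} (ha : 1 ≤ a.re) (hb : b.re = 0) :
    ‖(∑' n : ℤ, cexp (-π * a * (n : ℂ) ^ 2 + 2 * π * b * n)) - 1‖ ≤
      C0 * Real.exp (-π * (a.re / 2)) := by
  have hs := summable_term (a := a) (b := b) (by linarith) hb
  have h0 : (∑' n : ℤ, cexp (-π * a * (n : ℂ) ^ 2 + 2 * π * b * n)) - 1 =
      ∑' n : ℤ, (if n = 0 then 0 else cexp (-π * a * (n : ℂ) ^ 2 + 2 * π * b * n)) := by
    rw [hs.tsum_eq_add_tsum_ite 0]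
    simp
  rw [h0]
  have hg := (summable_gauss (c := 1 / 2) (by norm_num)).mul_right (Real.exp (-π * (a.re / 2)))
  have hle : ∀ n : ℤ, ‖(if n = 0 then (0 : ℂ) else cexp (-π * a * (n : ℂ) ^ 2 + 2 * π * b * n))‖ ≤
      Real.exp (-π * ((1 / 2 : ℝ) * (n : ℝ) ^ 2)) * Real.exp (-π * (a.re / 2)) := by
    intro n
    split_ifs with hn
    · rw [norm_zero]; positivity
    · rw [norm_term a b hb, ← Real.exp_add, Real.exp_le_exp]
      have h1 : (1 : ℝ) ≤ (n : ℝ) ^ 2 := by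
        have : (1 : ℤ) ≤ n ^ 2 := by
          have := Int.one_le_abs hn
          nlinarith [sq_abs n]
        exact_mod_cast this
      have hpi := Real.pi_pos
      have h2 : a.re / 2 + 1 / 2 * (n : ℝ) ^ 2 ≤ a.re * (n : ℝ) ^ 2 := by nlinarith
      nlinarith
  have hsn : Summable (fun n : ℤ =>
      ‖(if n = 0 then (0 : ℂ) else cexp (-π * a * (n : ℂ) ^ 2 + 2 * π * b * n))‖) :=
    Summable.of_nonneg_of_le (fun _ => norm_nonneg _) hle hg
  refine (norm_tsum_le_tsum_norm hsn).trans ?_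
  refine (hsn.tsum_le_tsum hle hg).trans ?_
  rw [tsum_mul_right]
  rfl

/-- Functional equation for the class theta series. -/
lemma Th_eq {z : ℂ} {N : ℕ} (hN : 0 < N) (r : ℤ) (ha : 0 < (1 / (z * (N : ℂ) ^ 2)).re) :
    Th z N r = (1 / (z * (N : ℂ) ^ 2)) ^ (1 / 2 : ℂ) *
      ∑' n : ℤ, cexp (-π * (1 / (z * (N : ℂ) ^ 2)) * (n : ℂ) ^ 2 +
        2 * π * (-I * ((r : ℂ) / N)) * n) := by
  have h := Complex.tsum_exp_neg_quadratic ha (-I * ((r : ℂ) / N))
  rw [h]
  have hz0 : z ≠ 0 := by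
    rintro rfl
    simp at ha
  have hN0 : (N : ℂ) ≠ 0 := by exact_mod_cast hN.ne'
  have ha0 : (1 / (z * (N : ℂ) ^ 2)) ≠ 0 := by
    rw [one_div]
    exact inv_ne_zero (mul_ne_zero hz0 (pow_ne_zero 2 hN0))
  have hp : (1 / (z * (N : ℂ) ^ 2)) ^ (1 / 2 : ℂ) ≠ 0 := by
    rw [Ne, Complex.cpow_eq_zero_iff]
    exact fun h => ha0 h.1
  rw [← mul_assoc, mul_one_div_cancel hp, one_mul]
  unfold Th
  refine tsum_congr fun j => ?_
  congr 1
  have hI : I * (-I * ((r : ℂ) / N)) = (r : ℂ) / N := by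
    rw [← mul_assoc, mul_neg, I_mul_I]; ring
  rw [hI]
  field_simp
  ring

/-- Splitting a sum over `ℤ` into residue classes. -/
lemma tsum_classes {f : ℤ → ℂ} (hf : Summable f) (N : ℕ) [NeZero N] :
    ∑' k : ℤ, f k = ∑ r ∈ Finset.range N, ∑' j : ℤ, f ((r : ℤ) + N * j) := by
  have e := (Int.divModEquiv N).symm
  have h1 : ∑' k : ℤ, f k = ∑' p : ℤ × Fin N, f ((Int.divModEquiv N).symm p) :=
    ((Int.divModEquiv N).symm.tsum_eq f).symm
  have hs : Summable (fun p : ℤ × Fin N => f ((Int.divModEquiv N).symm p)) :=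
    (Int.divModEquiv N).symm.summable_iff.2 hf
  rw [h1]
  have hs2 : Summable (fun p : Fin N × ℤ => f ((Int.divModEquiv N).symm (p.2, p.1))) :=
    (Equiv.prodComm (Fin N) ℤ).summable_iff.2 hs
  have h2 : ∑' p : ℤ × Fin N, f ((Int.divModEquiv N).symm p) =
      ∑' p : Fin N × ℤ, f ((Int.divModEquiv N).symm (p.2, p.1)) :=
    ((Equiv.prodComm (Fin N) ℤ).tsum_eq (fun p : ℤ × Fin N => f ((Int.divModEquiv N).symm p))).symm
  rw [h2, hs2.tsum_prod, tsum_fintype, Finset.sum_range]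
  refine Finset.sum_congr rfl fun r _ => tsum_congr fun j => ?_
  rw [Int.divModEquiv_symm_apply]
  congr 1
  push_cast
  ring

/-- Asymptotics of the class theta series. -/
lemma Th_tendsto {ι : Type} {l : Filter ι} (z : ι → ℂ) {N : ℕ} (hN : 0 < N) (r : ℤ)
    (hz : Tendsto (fun i => (1 / (z i * (N : ℂ) ^ 2)).re) l atTop) {c : ι → ℂ} {L : ℂ}
    (hc : Tendsto (fun i => c i * (1 / (z i * (N : ℂ) ^ 2)) ^ (1 / 2 : ℂ)) l (𝓝 L)) :
    Tendsto (fun i => c i * Th (z i) N r) l (𝓝 L) := by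
  have h1 : Tendsto (fun i => ∑' n : ℤ, cexp (-π * (1 / (z i * (N : ℂ) ^ 2)) * (n : ℂ) ^ 2 +
        2 * π * (-I * ((r : ℂ) / N)) * n)) l (𝓝 1) := by
    rw [tendsto_iff_norm_sub_tendsto_zero]
    have h2 : Tendsto (fun i => C0 * Real.exp (-π * ((1 / (z i * (N : ℂ) ^ 2)).re / 2))) l
        (𝓝 (C0 * 0)) := by
      refine Tendsto.const_mul _ (Real.tendsto_exp_atBot.comp ?_)
      have h3 : Tendsto (fun i => (1 / (z i * (N : ℂ) ^ 2)).re / 2) l atTop :=
        hz.atTop_div_const (by norm_num)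
      have h4 := h3.const_mul_atTop Real.pi_pos
      have h5 := tendsto_neg_atTop_atBot.comp h4
      refine h5.congr fun i => ?_
      simp only [Function.comp_apply]
      ring
    rw [mul_zero] at h2
    refine squeeze_zero' (Eventually.of_forall fun _ => norm_nonneg _) ?_ h2
    filter_upwards [hz.eventually_ge_atTop 1] with i hi
    refine tail_bound hi ?_
    have : -I * ((r : ℂ) / N) = ((-(r / N : ℝ) : ℝ) : ℂ) * I := by push_cast; ring
    rw [this, Complex.re_ofReal_mul, I_re, mul_zero]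
  have h3 := hc.mul h1
  rw [mul_one] at h3
  refine h3.congr' ?_
  filter_upwards [hz.eventually_gt_atTop 0] with i hi
  rw [Th_eq hN r hi, mul_assoc]

lemma exp_period {x : ℂ} {k : ℤ} : cexp (x + 2 * π * I * k) = cexp x := by
  have : (2 * π * I * k : ℂ) = (k : ℂ) * (2 * π * I) := by ring
  rw [this, Complex.exp_add, Complex.exp_int_mul_two_pi_mul_I, mul_one]

/-- **Landsberg–Schaar** (case `p = 1`). -/
theorem landsberg {n : ℕ} (hn : 0 < n) :
    ∑ r ∈ Finset.range n, cexp (2 * π * I * (r : ℂ) ^ 2 / n) =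
      (1 / (-2 * I / n) ^ (1 / 2 : ℂ)) * (1 + cexp (-(π * I * n / 2))) := by
  have hn0 : (n : ℂ) ≠ 0 := by exact_mod_cast hn.ne'
  have hnr : (0 : ℝ) < n := by exact_mod_cast hn
  have : NeZero n := ⟨hn.ne'⟩
  have hI2 : (I : ℂ) ^ 2 = -1 := I_sq
  -- parameters
  set a : ℝ → ℂ := fun e => (e : ℂ) - 2 * I / n with ha
  set w : ℝ → ℂ := fun e => 1 / a e - I * n / 2 with hw
  have ha0 : ∀ e : ℝ, a e ≠ 0 := by
    intro e h
    have h1 := congrArg Complex.im h
    have h2 : (a e).im = -(2 / n) := by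
      have : a e = ((e : ℝ) : ℂ) + ((-(2 / n) : ℝ) : ℂ) * I := by
        simp only [ha]; push_cast; ring
      rw [this]; simp
    rw [h2] at h1
    simp at h1
    exact hn.ne' h1
  have hare : ∀ e : ℝ, (a e).re = e := by
    intro e
    have : a e = ((e : ℝ) : ℂ) + ((-(2 / n) : ℝ) : ℂ) * I := by
      simp only [ha]; push_cast; ring
    rw [this]; simp
  have hwa : ∀ e : ℝ, w e * a e = -(I * n * e / 2) := by
    intro e
    simp only [hw]
    rw [sub_mul, one_div_mul_cancel (ha0 e)]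
    simp only [ha]
    field_simp
    linear_combination (2 : ℂ) * hI2
  have hw0 : ∀ e : ℝ, 0 < e → w e ≠ 0 := by
    intro e he h
    have h1 := hwa e
    rw [h, zero_mul] at h1
    have h2 : (I * n * e / 2 : ℂ) ≠ 0 := by
      refine div_ne_zero (mul_ne_zero (mul_ne_zero I_ne_zero hn0) ?_) two_ne_zero
      exact_mod_cast he.ne'
    exact h2 (by rw [← neg_eq_zero]; exact h1.symm)
  -- 1 / (4 w)
  have hinv : ∀ e : ℝ, 0 < e → 1 / (w e * (2 : ℕ) ^ 2) = ((1 / e : ℝ) : ℂ) * (I * a e / (2 * n)) := by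
    intro e he
    have he0 : (e : ℂ) ≠ 0 := by exact_mod_cast he.ne'
    have h1 := hwa e
    have h2 := hw0 e he
    push_cast
    rw [div_eq_iff (mul_ne_zero h2 (by norm_num))]
    have h3 : (1 / (e : ℂ)) * (I * a e / (2 * n)) * (w e * 2 ^ 2) =
        (1 / (e : ℂ)) * (2 * I * (w e * a e) / n) := by ring
    rw [h3, h1]
    field_simp
    linear_combination (1 : ℂ) * hI2
  have hexpr : ∀ e : ℝ, I * a e / (2 * n) = ((1 / (n : ℝ) ^ 2 : ℝ) : ℂ) + ((e / (2 * n) : ℝ) : ℂ) * I := by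
    intro e
    simp only [ha]
    push_cast
    field_simp
    linear_combination (-2 : ℂ) * hI2
  -- the two evaluations of the theta series
  set E : ℝ → ℂ := fun e => ∑' k : ℤ, cexp (-π * a e * (k : ℂ) ^ 2) with hE
  have hsum : ∀ e : ℝ, 0 < e → Summable (fun k : ℤ => cexp (-π * a e * (k : ℂ) ^ 2)) := by
    intro e he
    have := summable_term (a := a e) (b := 0) (by rw [hare]; exact he) (by simp)
    simpa using this
  have hleft : ∀ e : ℝ, 0 < e → E e =
      ∑ r ∈ Finset.range n, cexp (2 * π * I * (r : ℂ) ^ 2 / n) * Th e n r := by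
    intro e he
    simp only [hE]
    rw [tsum_classes (hsum e he) n]
    refine Finset.sum_congr rfl fun r _ => ?_
    unfold Th
    rw [← tsum_mul_left]
    refine tsum_congr fun j => ?_
    rw [← Complex.exp_add, ← exp_period (k := -(j * (2 * r + n * j)))]
    congr 1
    simp only [ha]
    push_cast
    field_simp
    ring
  have hright : ∀ e : ℝ, 0 < e → E e = 1 / (a e) ^ (1 / 2 : ℂ) *
      (Th (w e) 2 0 + cexp (-(π * I * n / 2)) * Th (w e) 2 1) := by
    intro e he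
    simp only [hE]
    rw [Complex.tsum_exp_neg_mul_int_sq (by rw [hare]; exact he)]
    congr 1
    have hs2 : Summable (fun k : ℤ => cexp (-π / a e * (k : ℂ) ^ 2)) := by
      have h1 : 0 < (1 / a e).re := by
        rw [one_div, Complex.inv_re, hare]
        exact div_pos he (Complex.normSq_pos.2 (ha0 e))
      have := summable_term (a := 1 / a e) (b := 0) h1 (by simp)
      refine this.congr fun k => ?_
      congr 1
      ring
    rw [tsum_classes hs2 2, Finset.sum_range_succ, Finset.sum_range_one]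
    congr 1
    · unfold Th
      refine tsum_congr fun j => ?_
      rw [← exp_period (x := -π / a e * ((((0 : ℕ) : ℤ) + ((2 : ℕ) : ℤ) * j : ℤ) : ℂ) ^ 2)
        (k := n * j ^ 2)]
      congr 1
      simp only [hw]
      push_cast
      ring
    · unfold Th
      rw [← tsum_mul_left]
      refine tsum_congr fun j => ?_
      rw [← exp_period (x := -π / a e * ((((1 : ℕ) : ℤ) + ((2 : ℕ) : ℤ) * j : ℤ) : ℂ) ^ 2)
        (k := n * (j ^ 2 + j)), ← Complex.exp_add]
      congr 1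
      simp only [hw]
      push_cast
      ring
  -- limits
  have hpos : ∀ᶠ e : ℝ in 𝓝[>] 0, 0 < e := eventually_mem_nhdsWithin
  have hid : Tendsto (fun e : ℝ => (e : ℂ)) (𝓝[>] 0) (𝓝 0) := by
    have : Tendsto (fun e : ℝ => (e : ℂ)) (𝓝 0) (𝓝 ((0 : ℝ) : ℂ)) :=
      Complex.continuous_ofReal.tendsto 0
    rw [ofReal_zero] at this
    exact this.mono_left nhdsWithin_le_nhds
  have hinvtop : Tendsto (fun e : ℝ => 1 / e) (𝓝[>] 0) atTop := by
    simpa using tendsto_inv_nhdsGT_zero (𝕜 := ℝ)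
  have limL : ∀ r : ℤ, Tendsto (fun e : ℝ => ((e : ℝ) : ℂ) ^ (1 / 2 : ℂ) * Th e n r) (𝓝[>] 0)
      (𝓝 (1 / n)) := by
    intro r
    have hval : ∀ e : ℝ, (1 / ((e : ℂ) * (n : ℂ) ^ 2)) = ((1 / (e * (n : ℝ) ^ 2) : ℝ) : ℂ) := by
      intro e; push_cast; rfl
    refine Th_tendsto (fun e : ℝ => (e : ℂ)) hn r ?_ ?_
    · simp_rw [hval, ofReal_re]
      have h1 : Tendsto (fun e : ℝ => 1 / e * (1 / (n : ℝ) ^ 2)) (𝓝[>] 0) atTop :=
        hinvtop.atTop_mul_const (by positivity)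
      refine h1.congr fun e => ?_
      rw [one_div_mul_one_div]
    · refine tendsto_const_nhds.congr' ?_
      filter_upwards [hpos] with e he
      rw [hval, ← Complex.mul_cpow_ofReal_nonneg he.le (by positivity), ← ofReal_mul]
      have : e * (1 / (e * (n : ℝ) ^ 2)) = (1 / (n : ℝ)) ^ 2 := by field_simp
      rw [this]
      have h2 : ((((1 / (n : ℝ)) ^ 2 : ℝ)) : ℂ) ^ (1 / 2 : ℂ) = ((((1 / (n : ℝ)) ^ 2 : ℝ) ^ (1 / 2 : ℝ) : ℝ) : ℂ) := by
        rw [ofReal_cpow (by positivity)]; push_cast; rfl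
      rw [h2, ← Real.rpow_natCast, ← Real.rpow_mul (by positivity)]
      norm_num
  have limR : ∀ r : ℤ, Tendsto (fun e : ℝ => ((e : ℝ) : ℂ) ^ (1 / 2 : ℂ) * Th (w e) 2 r) (𝓝[>] 0)
      (𝓝 (1 / n)) := by
    intro r
    refine Th_tendsto w (by norm_num) r ?_ ?_
    · have h1 : Tendsto (fun e : ℝ => 1 / e * (1 / (n : ℝ) ^ 2)) (𝓝[>] 0) atTop :=
        hinvtop.atTop_mul_const (by positivity)
      refine h1.congr' ?_
      filter_upwards [hpos] with e he
      rw [hinv e he, Complex.re_ofReal_mul, hexpr, Complex.add_re, Complex.ofReal_re,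
        Complex.re_ofReal_mul, Complex.I_re, mul_zero, add_zero]
    · have h1 : Tendsto (fun e : ℝ => (I * a e / (2 * n)) ^ (1 / 2 : ℂ)) (𝓝[>] 0)
          (𝓝 ((((1 / (n : ℝ) ^ 2 : ℝ)) : ℂ) ^ (1 / 2 : ℂ))) := by
        refine Tendsto.cpow ?_ tendsto_const_nhds ?_
        · simp_rw [hexpr]
          have h2 : Tendsto (fun e : ℝ => (((1 / (n : ℝ) ^ 2 : ℝ)) : ℂ) + ((e / (2 * n) : ℝ) : ℂ) * I)
              (𝓝[>] 0) (𝓝 ((((1 / (n : ℝ) ^ 2 : ℝ)) : ℂ) + 0)) := by
            refine tendsto_const_nhds.add ?_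
            have h3 : Tendsto (fun e : ℝ => (e : ℂ) * (1 / (2 * n) * I)) (𝓝[>] 0) (𝓝 (0 * (1 / (2 * n) * I))) :=
              hid.mul_const _
            rw [zero_mul] at h3
            refine h3.congr fun e => ?_
            push_cast; ring
          rw [add_zero] at h2
          exact h2
        · rw [Complex.ofReal_mem_slitPlane]
          positivity
      have h2 : ((((1 / (n : ℝ) ^ 2 : ℝ)) : ℂ) ^ (1 / 2 : ℂ)) = 1 / n := by
        have h3 : (1 / (n : ℝ) ^ 2 : ℝ) = (1 / (n : ℝ)) ^ 2 := by field_simp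
        have h2 : ((((1 / (n : ℝ)) ^ 2 : ℝ)) : ℂ) ^ (1 / 2 : ℂ) = ((((1 / (n : ℝ)) ^ 2 : ℝ) ^ (1 / 2 : ℝ) : ℝ) : ℂ) := by
          rw [ofReal_cpow (by positivity)]; push_cast; rfl
        rw [h3, h2, ← Real.rpow_natCast, ← Real.rpow_mul (by positivity)]
        norm_num
      rw [h2] at h1
      refine h1.congr' ?_
      filter_upwards [hpos] with e he
      rw [hinv e he]
      have he0 : (I * a e / (2 * n)) ≠ 0 :=
        div_ne_zero (mul_ne_zero I_ne_zero (ha0 e)) (mul_ne_zero two_ne_zero hn0)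
      have h3 : (((1 / e : ℝ) : ℂ) * (I * a e / (2 * n))) ^ (1 / 2 : ℂ) =
          ((1 / e : ℝ) : ℂ) ^ (1 / 2 : ℂ) * (I * a e / (2 * n)) ^ (1 / 2 : ℂ) := by
        have h1e : (0 : ℝ) < 1 / e := by positivity
        rw [Complex.cpow_def_of_ne_zero (mul_ne_zero (by exact_mod_cast h1e.ne') he0),
          Complex.cpow_def_of_ne_zero he0,
          Complex.cpow_def_of_ne_zero (by exact_mod_cast h1e.ne'),
          Complex.log_ofReal_mul h1e he0, ← Complex.ofReal_log h1e.le, ← Complex.exp_add]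
        congr 1
        ring
      rw [h3, ← mul_assoc, ← Complex.mul_cpow_ofReal_nonneg he.le (by positivity), ← ofReal_mul]
      have : e * (1 / e) = 1 := by field_simp
      rw [this, ofReal_one, Complex.one_cpow, one_mul]
  have lim1 : Tendsto (fun e : ℝ => ((e : ℝ) : ℂ) ^ (1 / 2 : ℂ) * E e) (𝓝[>] 0)
      (𝓝 ((∑ r ∈ Finset.range n, cexp (2 * π * I * (r : ℂ) ^ 2 / n)) * (1 / n))) := by
    have h1 : Tendsto (fun e : ℝ => ∑ r ∈ Finset.range n, cexp (2 * π * I * (r : ℂ) ^ 2 / n) *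
        (((e : ℝ) : ℂ) ^ (1 / 2 : ℂ) * Th e n r)) (𝓝[>] 0)
        (𝓝 (∑ r ∈ Finset.range n, cexp (2 * π * I * (r : ℂ) ^ 2 / n) * (1 / n))) :=
      tendsto_finsetSum _ fun r _ => (limL r).const_mul _
    rw [Finset.sum_mul]
    refine h1.congr' ?_
    filter_upwards [hpos] with e he
    rw [hleft e he, Finset.mul_sum]
    exact Finset.sum_congr rfl fun r _ => by ring
  have hacont : Tendsto a (𝓝[>] 0) (𝓝 (-2 * I / n)) := by
    have h1 : Tendsto (fun e : ℝ => (e : ℂ) - 2 * I / n) (𝓝[>] 0) (𝓝 (0 - 2 * I / n)) :=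
      hid.sub_const _
    have : (0 - 2 * I / n : ℂ) = -2 * I / n := by ring
    rwa [this] at h1
  have hslit : (-2 * I / n : ℂ) ∈ Complex.slitPlane := by
    rw [Complex.mem_slitPlane_iff]
    right
    have : (-2 * I / n : ℂ) = ((-(2 / n) : ℝ) : ℂ) * I := by push_cast; ring
    rw [this]
    simp
    exact hn.ne'
  have lim2 : Tendsto (fun e : ℝ => ((e : ℝ) : ℂ) ^ (1 / 2 : ℂ) * E e) (𝓝[>] 0)
      (𝓝 ((1 / (-2 * I / n) ^ (1 / 2 : ℂ)) * (1 / n + cexp (-(π * I * n / 2)) * (1 / n)))) := by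
    have h0 : Tendsto (fun e : ℝ => 1 / (a e) ^ (1 / 2 : ℂ)) (𝓝[>] 0)
        (𝓝 (1 / (-2 * I / n) ^ (1 / 2 : ℂ))) := by
      refine Tendsto.div tendsto_const_nhds (Tendsto.cpow hacont tendsto_const_nhds hslit) ?_
      rw [Ne, Complex.cpow_eq_zero_iff]
      exact fun h => Complex.slitPlane_ne_zero hslit h.1
    have h1 := h0.mul ((limR 0).add ((limR 1).const_mul (cexp (-(π * I * n / 2)))))
    refine h1.congr' ?_
    filter_upwards [hpos] with e he
    rw [hright e he]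
    ring
  have huniq := tendsto_nhds_unique lim1 lim2
  have hn1 : (1 / n : ℂ) ≠ 0 := one_div_ne_zero hn0
  apply mul_right_cancel₀ hn1
  rw [huniq]
  ring

end Crest.Agent.R017.QS411
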