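import Crest.Agent.R017.QSh_411

/-!
# Row 17: the rational quadratic Gauss sum

`rat_gauss : Σ_{k < l} (k/l) e(t k / l) = (t/l) √l η(l)`, `η(l) = 1` or `i`.
-/

set_option autoImplicit false

noncomputable section

open Complex
open scoped Real NumberTheorySymbols

namespace Crest.Agent.R017.QS411

/-- `1` or `i` according to `n` modulo `4`. -/
def eta4 (n : ℕ) : ℂ := if n % 4 = 3 then I else 1

theorem landsberg_odd {n : ℕ} (hn : n % 2 = 1) :
    ∑ r ∈ Finset.range n, cexp (2 * π * I * (r : ℂ) ^ 2 / n) = (Real.sqrt n : ℂ) * eta4 n := by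
  have hn0 : 0 < n := by omega
  have hnr : (0 : ℝ) < n := by exact_mod_cast hn0
  rw [landsberg hn0]
  have hs : (Real.sqrt n : ℝ) ≠ 0 := (Real.sqrt_pos.2 hnr).ne'
  have hsC : ((Real.sqrt n : ℝ) : ℂ) ≠ 0 := by exact_mod_cast hs
  have hsq : ((Real.sqrt n : ℝ) : ℂ) ^ 2 = n := by
    rw [← ofReal_pow, Real.sq_sqrt hnr.le]; push_cast; rfl
  have hI2 : (I : ℂ) ^ 2 = -1 := I_sq
  have h1 : (-2 * I / n : ℂ) = ((1 - I) / (Real.sqrt n : ℝ)) ^ 2 := by
    rw [div_pow, hsq]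
    congr 1
    linear_combination -hI2
  have h2 : (-2 * I / n : ℂ) ^ (1 / 2 : ℂ) = (1 - I) / (Real.sqrt n : ℝ) := by
    rw [h1]
    have : (1 / 2 : ℂ) = (2⁻¹ : ℂ) := by norm_num
    rw [this]
    refine Complex.sq_cpow_two_inv ?_
    rw [Complex.div_ofReal_re]
    simp
    exact hn0
  have h1I : (1 - I : ℂ) ≠ 0 := by
    intro h
    have := congrArg Complex.re h
    simp at this
  rw [h2, one_div_div]
  have h3 : cexp (-(π * I * n / 2)) = (-I) ^ n := by
    rw [← Complex.exp_neg_pi_div_two_mul_I, ← Complex.exp_nat_mul]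
    congr 1
    ring
  rw [h3]
  unfold eta4
  rcases (by omega : n % 4 = 1 ∨ n % 4 = 3) with h | h
  · rw [if_neg (by omega)]
    have e : n = 4 * (n / 4) + 1 := by omega
    have h4 : (-I) ^ n = -I := by
      rw [e, pow_succ, pow_mul]
      have : (-I) ^ 4 = 1 := by
        have : (-I : ℂ) ^ 4 = (I ^ 2) ^ 2 := by ring
        rw [this, hI2]; norm_num
      rw [this, one_pow, one_mul]
    rw [h4]
    field_simp
    ring
  · rw [if_pos h]
    have e : n = 4 * (n / 4) + 3 := by omega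
    have h4 : (-I) ^ n = I := by
      rw [e, pow_add, pow_mul]
      have : (-I) ^ 4 = 1 := by
        have : (-I : ℂ) ^ 4 = (I ^ 2) ^ 2 := by ring
        rw [this, hI2]; norm_num
      rw [this, one_pow, one_mul]
      have : (-I : ℂ) ^ 3 = -(I ^ 2) * I := by ring
      rw [this, hI2]; ring
    rw [h4]
    field_simp
    linear_combination hI2

/-- `Σ_x ψ(x²) = Σ_x χ(x) ψ(x)` for the quadratic character. -/
lemma sum_sq {F : Type} [Field F] [Fintype F] [DecidableEq F] (hF : ringChar F ≠ 2)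
    {ψ : AddChar F ℂ} (hψ : ψ ≠ 0) :
    ∑ x : F, ψ (x ^ 2) = ∑ x : F, ((quadraticChar F x : ℤ) : ℂ) * ψ x := by
  have h1 : ∑ x : F, ψ (x ^ 2) = ∑ y : F, ∑ x ∈ Finset.univ.filter (fun x : F => x ^ 2 = y), ψ (x ^ 2) :=
    (Finset.sum_fiberwise (Finset.univ : Finset F) (fun x : F => x ^ 2) (fun x => ψ (x ^ 2))).symm
  rw [h1]
  have h2 : ∀ y : F, ∑ x ∈ Finset.univ.filter (fun x : F => x ^ 2 = y), ψ (x ^ 2) =
      (((quadraticChar F y : ℤ) : ℂ) + 1) * ψ y := by
    intro y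
    have h3 : ∑ x ∈ Finset.univ.filter (fun x : F => x ^ 2 = y), ψ (x ^ 2) =
        ∑ x ∈ Finset.univ.filter (fun x : F => x ^ 2 = y), ψ y :=
      Finset.sum_congr rfl fun x hx => by rw [(Finset.mem_filter.1 hx).2]
    rw [h3, Finset.sum_const, nsmul_eq_mul]
    congr 1
    have h4 := quadraticChar_card_sqrts hF y
    have h5 : ({x : F | x ^ 2 = y}.toFinset) = Finset.univ.filter (fun x : F => x ^ 2 = y) := by
      ext x; simp
    rw [h5] at h4
    have : ((((Finset.univ.filter (fun x : F => x ^ 2 = y)).card : ℕ) : ℤ) : ℂ) =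
        (((quadraticChar F y + 1 : ℤ)) : ℂ) := by rw [h4]
    push_cast at this
    exact this
  rw [Finset.sum_congr rfl fun y _ => h2 y]
  simp_rw [add_mul, one_mul]
  rw [Finset.sum_add_distrib, AddChar.sum_eq_zero_iff_ne_zero.2 hψ, add_zero]

/-- Sum over `range` and over `ZMod`. -/
lemma sum_range_zmod {l : ℕ} [NeZero l] (f : ZMod l → ℂ) :
    ∑ k ∈ Finset.range l, f (k : ZMod l) = ∑ x : ZMod l, f x := by
  refine Finset.sum_bij' (fun k _ => (k : ZMod l)) (fun x _ => x.val) ?_ ?_ ?_ ?_ ?_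
  · intro k _; exact Finset.mem_univ _
  · intro x _; exact Finset.mem_range.2 (ZMod.val_lt x)
  · intro k hk; exact ZMod.val_cast_of_lt (Finset.mem_range.1 hk)
  · intro x _; exact ZMod.natCast_zmod_val x
  · intro k _; rfl

lemma std_ne_zero {l : ℕ} [Fact l.Prime] : (ZMod.stdAddChar (N := l)) ≠ 0 := by
  have := ZMod.isPrimitive_stdAddChar l
  intro h
  have h1 := this (a := 1) one_ne_zero
  apply h1
  rw [h]
  ext x
  simp

/-- The rational quadratic Gauss sum. -/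
theorem rat_gauss {l : ℕ} (hl : l.Prime) (hl2 : l % 2 = 1) {t : ℤ} (ht : ¬ (l : ℤ) ∣ t) :
    ∑ k ∈ Finset.range l, ((J((k : ℤ) | l) : ℤ) : ℂ) * cexp (2 * π * I * (t * k : ℤ) / l) =
      ((J(t | l) : ℤ) : ℂ) * ((Real.sqrt l : ℂ) * eta4 l) := by
  have hf : Fact l.Prime := ⟨hl⟩
  have hne : l ≠ 2 := by omega
  have hch : ringChar (ZMod l) ≠ 2 := by rw [ZMod.ringChar_zmod_n]; exact hne
  -- the basic sum
  have hbase : ∑ x : ZMod l, ((quadraticChar (ZMod l) x : ℤ) : ℂ) * ZMod.stdAddChar x =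
      (Real.sqrt l : ℂ) * eta4 l := by
    rw [← sum_sq hch std_ne_zero, ← landsberg_odd hl2, ← sum_range_zmod]
    refine Finset.sum_congr rfl fun r _ => ?_
    have h1 : ((r : ZMod l)) ^ 2 = (((r : ℤ) ^ 2 : ℤ) : ZMod l) := by push_cast; rfl
    rw [h1, ZMod.stdAddChar_coe]
    congr 1
    push_cast
    rfl
  have ht0 : (t : ZMod l) ≠ 0 := by
    rw [Ne, ZMod.intCast_zmod_eq_zero_iff_dvd]; exact ht
  have hterm : ∀ k : ℕ, ((J((k : ℤ) | l) : ℤ) : ℂ) * cexp (2 * π * I * (t * k : ℤ) / l) =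
      ((quadraticChar (ZMod l) (k : ZMod l) : ℤ) : ℂ) *
        ZMod.stdAddChar ((t : ZMod l) * (k : ZMod l)) := by
    intro k
    have h1 : ((t : ZMod l) * (k : ZMod l)) = ((t * k : ℤ) : ZMod l) := by push_cast; rfl
    rw [h1, ZMod.stdAddChar_coe, ← jacobiSym.legendreSym.to_jacobiSym]
    congr 2
    unfold legendreSym
    push_cast
    rfl
  rw [Finset.sum_congr rfl fun k _ => hterm k,
    sum_range_zmod (fun x => ((quadraticChar (ZMod l) x : ℤ) : ℂ) *
        ZMod.stdAddChar ((t : ZMod l) * x)), ← hbase, Finset.mul_sum]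
  -- substitute `x = y / t`
  have hJ : ((J(t | l) : ℤ) : ℂ) = ((quadraticChar (ZMod l) (t : ZMod l) : ℤ) : ℂ) := by
    rw [← jacobiSym.legendreSym.to_jacobiSym]; rfl
  rw [hJ]
  refine Fintype.sum_equiv (Equiv.mulLeft₀ (t : ZMod l) ht0) _ _ fun x => ?_
  rw [Equiv.mulLeft₀_apply, map_mul (quadraticChar (ZMod l)) (t : ZMod l) x]
  have hsq : (((quadraticChar (ZMod l) (t : ZMod l) : ℤ) : ℂ)) *
      (((quadraticChar (ZMod l) (t : ZMod l) : ℤ) : ℂ)) = 1 := by
    rw [← Int.cast_mul, ← pow_two, quadraticChar_sq_one ht0, Int.cast_one]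
  push_cast
  linear_combination (-(((quadraticChar (ZMod l) x : ℤ) : ℂ)) *
    ZMod.stdAddChar ((t : ZMod l) * x)) * hsq

end Crest.Agent.R017.QS411
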