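import Crest.Agent.R017.QSg_411
import Crest.Agent.R017.QSi_411
import Crest.Agent.R017.Sx1_440

/-!
# Row 17: the quadratic Gauss sums over `ℤ[ω]` at primes
-/

set_option autoImplicit false

noncomputable section

open Complex
open Crest.Agent.R012 Crest.Agent.R012.Eis Crest.Agent.R012.Sym645

open scoped Real NumberTheorySymbols

namespace Crest.Agent.R017.QS411

open Crest.Agent.R017.Sx440

/-! ### bridge to `Sx1_440` -/

lemma sy20_eq_qu (x p : Eis) : sy20 x p = (qu x p : ℂ) := by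
  unfold sy20 qu
  split_ifs <;> simp

theorem sy2_eq_qy (x c : Eis) : sy2 x c = (qy x c : ℂ) := by
  unfold sy2 qy
  generalize UniqueFactorizationMonoid.factors c = s
  induction s using Multiset.induction_on with
  | empty => simp
  | cons a s ih =>
    simp only [Multiset.map_cons, Multiset.prod_cons]
    rw [ih, sy20_eq_qu]
    push_cast
    rfl

lemma odd_of_od {c : Eis} (h : Od c) : nm c % 2 = 1 := h.nm_odd

lemma od_of_odd {c : Eis} (h : nm c % 2 = 1) : Od c := by
  rintro ⟨t, ht⟩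
  rw [ht, nm_mul, Sx440.nm_two] at h
  omega

/-- Reciprocity for `sy2`. -/
theorem sy2_reciprocity {a b : Eis} (ha : Od a) (hb : Od b) :
    sy2 a b = (eps4 a b : ℂ) * sy2 b a := by
  rw [sy2_eq_qy, sy2_eq_qy, qy_reciprocity (odd_of_od ha) (odd_of_od hb)]
  push_cast
  rfl

/-! ### traces -/

lemma eC_rat (z : Eis) (l : ℕ) :
    eC (toC z / l) = cexp (2 * π * I * ((2 * z.re - z.im : ℤ) : ℂ) / l) := by
  unfold eC
  congr 1
  have h1 : toC z / (l : ℂ) + (starRingEnd ℂ) (toC z / (l : ℂ)) =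
      ((2 * z.re - z.im : ℤ) : ℂ) / l := by
    rw [map_div₀, map_natCast, ← add_div]
    congr 1
    rw [Complex.add_conj, toC_re]
    push_cast
    ring
  rw [h1]
  ring

/-- `√-3`. -/
def s3 : Eis := ⟨1, 2⟩

lemma nm_s3 : nm s3 = 3 := by
  have h := nm_cast s3
  have h1 : s3.re = 1 := rfl
  have h2 : s3.im = 2 := rfl
  rw [h1, h2] at h
  norm_num at h
  exact_mod_cast h

lemma odd_s3 : nm s3 % 2 = 1 := by rw [nm_s3]

lemma s3_coprime {c : Eis} (hc : nm c % 3 = 1) : IsCoprime s3 c := by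
  have hp : Prime s3 := by
    rw [← irreducible_iff_prime]
    refine ⟨?_, ?_⟩
    · rw [isUnit_iff, nm_s3]; norm_num
    · intro a b hab
      have h := congrArg nm hab
      rw [nm_s3, nm_mul] at h
      have hd : nm a ∣ 3 := ⟨nm b, h⟩
      rcases (Nat.dvd_prime Nat.prime_three).1 hd with h1 | h1
      · left; exact isUnit_iff.2 h1
      · right; rw [isUnit_iff]; rw [h1] at h; omega
  refine isCoprime_of_prime_not_dvd hp ?_
  intro hd
  have := nm_dvd_nm hd
  rw [nm_s3] at this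
  omega

/-- `(√-3 / c)_2` for primary `c`. -/
lemma qy_s3 {c : Eis} (hc : nm c % 2 = 1) (hp : IsPrim c) : qy s3 c = eps4 s3 c := by
  rw [qy_reciprocity odd_s3 hc]
  have h : qy c s3 = 1 := by
    have h1 : s3 ∣ c - 1 := by
      have h3 : s3 ∣ (3 : Eis) := ⟨⟨-1, -2⟩, by
        apply ext'
        · rw [re_mul']; rfl
        · rw [im_mul']; rfl⟩
      exact h3.trans hp
    rw [qy_congr odd_s3 h1, qy_one_left odd_s3]
  rw [h, mul_one]

/-! ### split primes -/

lemma isCRS_rat {c : Eis} {l : ℕ} (hl : l.Prime) (hc : nm c = l) :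
    open Classical in IsCRS c ((Finset.range l).image (fun k : ℕ => ((k : ℕ) : Eis))) := by
  classical
  have hc0 : c ≠ 0 := by
    rintro rfl
    rw [nm_eq_zero.2 rfl] at hc
    exact hl.ne_zero hc.symm
  have hfin := finite_QE hc0
  have hinj' : ∀ a b : ℕ, a < l → b < l → c ∣ ((a : ℕ) : Eis) - ((b : ℕ) : Eis) → a = b := by
    intro a b ha hb h
    have h1 := nm_dvd_nm h
    have h2 : ((a : ℕ) : Eis) - ((b : ℕ) : Eis) = (((a : ℤ) - b : ℤ) : Eis) := by push_cast; rfl
    rw [h2, hc] at h1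
    have h3 : (l : ℤ) ∣ ((a : ℤ) - b) ^ 2 := by
      rw [← nm_intCast]; exact_mod_cast h1
    have h4 : (l : ℤ) ∣ (a : ℤ) - b := (Nat.prime_iff_prime_int.1 hl).dvd_of_dvd_pow h3
    obtain ⟨t, ht⟩ := h4
    have ha' : (a : ℤ) < l := by exact_mod_cast ha
    have hb' : (b : ℤ) < l := by exact_mod_cast hb
    have hlp : (0 : ℤ) < l := by exact_mod_cast hl.pos
    have ht0 : t = 0 := by
      by_contra h
      rcases lt_or_gt_of_ne h with h | h
      · have : (l : ℤ) * t ≤ (l : ℤ) * (-1) := by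
          apply mul_le_mul_of_nonneg_left _ hlp.le; omega
        omega
      · have : (l : ℤ) * 1 ≤ (l : ℤ) * t := by
          apply mul_le_mul_of_nonneg_left _ hlp.le; omega
        omega
    rw [ht0, mul_zero] at ht
    omega
  have hf : Function.Injective (fun k : Fin l => mkQ c (((k : ℕ) : ℕ) : Eis)) := by
    intro a b h
    exact Fin.ext (hinj' a b a.2 b.2 (mkQ_eq_iff.1 h))
  have hb := hf.bijective_of_nat_card_le (by rw [card_QE, hc, Nat.card_eq_fintype_card, Fintype.card_fin])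
  rw [isCRS_iff]
  constructor
  · intro x
    obtain ⟨k, hk⟩ := hb.2 (mkQ c x)
    refine ⟨((k : ℕ) : Eis), Finset.mem_image.2 ⟨k, Finset.mem_range.2 k.2, rfl⟩, ?_⟩
    exact mkQ_eq_iff.1 hk.symm
  · intro s hs t ht h
    obtain ⟨a, ha, rfl⟩ := Finset.mem_image.1 hs
    obtain ⟨b, hb, rfl⟩ := Finset.mem_image.1 ht
    rw [hinj' a b (Finset.mem_range.1 ha) (Finset.mem_range.1 hb) h]

end Crest.Agent.R017.QS411
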