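import Crest.Agent.R017.QSj_411

/-!
# Row 17: the quadratic Gauss sums over `ℤ[ω]` (2)

* `kap4 c ∈ {1, i, -1, -i}` depends only on `c` modulo `4`
* `G2_eq : G2 c = kap4 c` for squarefree odd primary `c`
-/

set_option autoImplicit false

noncomputable section

open Complex
open Crest.Agent.R012 Crest.Agent.R012.Eis Crest.Agent.R012.Sym645

open scoped Real NumberTheorySymbols

namespace Crest.Agent.R017.QS411

open Crest.Agent.R017.Sx440

lemma pmod_term {c : Eis} (hc : Od c) :
    PMod c (fun x => sy2 x c * eC (toC 1 * toC x / toC c)) :=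
  Gauss880.per_gsum (isCh_sy2 hc) 1

lemma gs2_split {u v : ℤ} {l : ℕ} (hl : l.Prime) (hl2 : l % 2 = 1) (hl3 : l % 3 = 1)
    (hnm : nm (⟨u, v⟩ : Eis) = l) (hprim : IsPrim (⟨u, v⟩ : Eis)) :
    gs2 1 ⟨u, v⟩ = ((eps4 s3 ⟨u, v⟩ * J(3 * v | l) : ℤ) : ℂ) * ((Real.sqrt l : ℂ) * eta4 l) := by
  classical
  set c : Eis := ⟨u, v⟩ with hc
  have hodd : nm c % 2 = 1 := by rw [hnm]; exact hl2
  have hOd : Od c := od_of_odd hodd
  have hc0 : c ≠ 0 := ne_zero_of_odd hodd
  have h3 : nm c % 3 = 1 := by rw [hnm]; exact hl3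
  have hcop := s3_coprime h3
  have hper := pmod_term hOd
  have hlp : Prime (l : ℤ) := Nat.prime_iff_prime_int.1 hl
  have hN : (l : ℤ) = nf u v := by rw [← hnm]; exact nm_eq_nf u v
  have hlv : ¬ (l : ℤ) ∣ v := by
    intro h
    have h1 : (l : ℤ) ∣ u ^ 2 := by
      have : u ^ 2 = nf u v - v * (v - u) := by simp only [nf]; ring
      rw [this, ← hN]
      exact dvd_sub dvd_rfl (h.mul_right _)
    have h2 := hlp.dvd_of_dvd_pow h1
    obtain ⟨a, ha⟩ := h2
    obtain ⟨b, hb⟩ := h
    have h4 : (l : ℤ) * (l * nf a b) = l * 1 := by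
      have : nf u v = (l : ℤ) * (l * nf a b) := by
        simp only [nf]; rw [ha, hb]; ring
      rw [← this, ← hN, mul_one]
    have h5 := mul_left_cancel₀ (by exact_mod_cast hl.ne_zero : (l : ℤ) ≠ 0) h4
    have h6 : (l : ℤ) ∣ 1 := ⟨_, h5.symm⟩
    exact hlp.not_isUnit (isUnit_of_dvd_one h6)
  have hl3v : ¬ (l : ℤ) ∣ 3 * v := by
    intro h
    rcases hlp.dvd_or_dvd h with h | h
    · have h1 := Int.le_of_dvd (by norm_num) h
      have h2 := hl.two_le
      have : l = 3 ∨ l = 2 := by omega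
      omega
    · exact hlv h
  unfold gs2 Gauss880.gsum
  rw [← sumMod_mul_coprime hc0 hper hcop, sumMod_eq_sum (isCRS_rat hl hnm) (hper.comp_mul s3),
    Finset.sum_image (by
      intro a _ b _ h
      have := congrArg QuadraticAlgebra.re h
      simpa using this)]
  have hterm : ∀ k : ℕ, sy2 (s3 * ((k : ℕ) : Eis)) c *
      eC (toC 1 * toC (s3 * ((k : ℕ) : Eis)) / toC c) =
      ((eps4 s3 c : ℤ) : ℂ) * (((J((k : ℤ) | l) : ℤ) : ℂ) *
        cexp (2 * π * I * ((3 * v) * k : ℤ) / l)) := by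
    intro k
    have h1 : sy2 (s3 * ((k : ℕ) : Eis)) c = ((eps4 s3 c : ℤ) : ℂ) * ((J((k : ℤ) | l) : ℤ) : ℂ) := by
      rw [sy2_eq_qy, qy_mul_left hodd, qy_s3 hodd hprim]
      have e1 : ((k : ℕ) : Eis) = (((k : ℕ) : ℤ) : Eis) := by push_cast; rfl
      rw [e1, qy_intCast hodd, hnm]
      push_cast
      rfl
    have hcC : toC c ≠ 0 := by rwa [Ne, toC_eq_zero]
    have hlC : (l : ℂ) ≠ 0 := by exact_mod_cast hl.ne_zero
    have h2 : toC 1 * toC (s3 * ((k : ℕ) : Eis)) / toC c =
        toC (s3 * ((k : ℕ) : Eis) * Eis.conj c) / l := by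
      have h3 : toC c * toC (Eis.conj c) = (l : ℂ) := by
        rw [← map_mul, Eis.mul_conj, hnm, map_natCast]
      rw [div_eq_div_iff hcC hlC, map_one, one_mul, ← h3, map_mul, map_mul, map_mul]
      ring
    rw [h1, h2, eC_rat, mul_assoc]
    congr 3
    have h4 : (2 * (s3 * ((k : ℕ) : Eis) * Eis.conj c).re - (s3 * ((k : ℕ) : Eis) * Eis.conj c).im : ℤ)
        = 3 * v * k := by
      have e1 : s3.re = 1 := rfl
      have e2 : s3.im = 2 := rfl
      have e3 : (((k : ℕ) : Eis)).re = k := by simp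
      have e4 : (((k : ℕ) : Eis)).im = 0 := by simp
      have r1 : (s3 * ((k : ℕ) : Eis)).re = k := by rw [re_mul', e1, e2, e3, e4]; ring
      have r2 : (s3 * ((k : ℕ) : Eis)).im = 2 * k := by rw [im_mul', e1, e2, e3, e4]; ring
      have r3 : c.re = u := rfl
      have r4 : c.im = v := rfl
      rw [re_mul' (s3 * ((k : ℕ) : Eis)) (Eis.conj c),
        im_mul' (s3 * ((k : ℕ) : Eis)) (Eis.conj c), Eis.conj_re, Eis.conj_im, r1, r2, r3, r4]
      ring
    rw [h4]
  rw [Finset.sum_congr rfl fun k _ => hterm k, ← Finset.mul_sum, rat_gauss hl hl2 hl3v]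
  push_cast
  ring

/-! ### inert primes -/

lemma sum_geom {l : ℕ} (hl : 0 < l) (t : ℤ) :
    ∑ k ∈ Finset.range l, cexp (2 * π * I * ((k * t : ℤ) : ℂ) / l) =
      if (l : ℤ) ∣ t then (l : ℂ) else 0 := by
  have hl0 : (l : ℂ) ≠ 0 := by exact_mod_cast hl.ne'
  have hterm : ∀ k : ℕ, cexp (2 * π * I * ((k * t : ℤ) : ℂ) / l) =
      cexp (2 * π * I * (t : ℂ) / l) ^ k := by
    intro k
    rw [← Complex.exp_nat_mul]
    congr 1
    push_cast
    ring
  rw [Finset.sum_congr rfl fun k _ => hterm k]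
  split_ifs with h
  · obtain ⟨s, rfl⟩ := h
    have : cexp (2 * π * I * (((l : ℤ) * s : ℤ) : ℂ) / l) = 1 := by
      rw [Complex.exp_eq_one_iff]
      refine ⟨s, ?_⟩
      push_cast
      field_simp
    rw [this]
    simp
  · have hne : cexp (2 * π * I * (t : ℂ) / l) ≠ 1 := by
      intro h1
      rw [Complex.exp_eq_one_iff] at h1
      obtain ⟨s, hs⟩ := h1
      apply h
      refine ⟨s, ?_⟩
      have hpi : (2 * π * I : ℂ) ≠ 0 := Complex.two_pi_I_ne_zero
      have h2 : (t : ℂ) = (l : ℂ) * s := by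
        have h3 : (2 * π * I : ℂ) * t = (2 * π * I) * (l * s) := by
          rw [div_eq_iff hl0] at hs
          rw [hs]; ring
        exact mul_left_cancel₀ hpi h3
      exact_mod_cast h2
    rw [geom_sum_eq hne]
    have : cexp (2 * π * I * (t : ℂ) / l) ^ l = 1 := by
      rw [← Complex.exp_nat_mul, Complex.exp_eq_one_iff]
      refine ⟨t, ?_⟩
      field_simp
    rw [this, sub_self, zero_div]

lemma od_natCast {l : ℕ} (hl2 : l % 2 = 1) : Od ((l : ℕ) : Eis) := by
  refine od_of_odd ?_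
  rw [nm_natCast]; exact Nat.odd_iff.1 ((Nat.odd_iff.2 hl2).pow)

/-- The Gauss sum at an inert prime. -/
lemma gs2_inert {l : ℕ} (hl : l.Prime) (hl2 : l % 2 = 1) (hl3 : l ≠ 3)
    (hp : Prime ((l : ℕ) : Eis)) :
    gs2 1 ((l : ℕ) : Eis) = ((J(3 | l) : ℤ) : ℂ) * l := by
  classical
  set c : Eis := ((l : ℕ) : Eis) with hc
  have hOd : Od c := od_natCast hl2
  have hodd : nm c % 2 = 1 := odd_of_od hOd
  have hc0 : c ≠ 0 := ne_zero_of_odd hodd
  have hper := pmod_term hOd
  have hl0 : l ≠ 0 := hl.ne_zero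
  have hlC : (l : ℂ) ≠ 0 := by exact_mod_cast hl0
  have hl1 := hl.one_lt
  have htoc : toC c = (l : ℂ) := by rw [hc, map_natCast]
  have hlp : Prime (l : ℤ) := Nat.prime_iff_prime_int.1 hl
  have hdvd : ∀ z : Eis, c ∣ z ↔ (l : ℤ) ∣ z.re ∧ (l : ℤ) ∣ z.im := by
    intro z
    have := @intCast_dvd_iff (l : ℤ) z
    rwa [Int.cast_natCast] at this
  -- rational numbers are squares
  have hrat : ∀ k : ℕ, ¬ l ∣ k → sy2 ((k : ℕ) : Eis) c = 1 := by
    intro k hk
    rw [sy2_eq_qy, qy_natCast_right _ hl2, nm_natCast]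
    have : J(((k ^ 2 : ℕ) : ℤ) | l) = 1 := by
      push_cast
      refine jacobiSym.sq_one' ?_
      rw [← Int.isCoprime_iff_gcd_eq_one, Int.isCoprime_iff_gcd_eq_one]
      simpa [Int.gcd_natCast_natCast] using ((Nat.Prime.coprime_iff_not_dvd hl).2 hk).symm
    rw [this]; norm_num
  have hcopk : ∀ k : ℕ, ¬ l ∣ k → IsCoprime ((k : ℕ) : Eis) c := by
    intro k hk
    have h1 := (Nat.Prime.coprime_iff_not_dvd hl).2 hk
    have h2 : IsCoprime (k : ℤ) (l : ℤ) := by
      rw [Int.isCoprime_iff_gcd_eq_one]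
      simpa [Int.gcd_natCast_natCast] using h1.symm
    obtain ⟨a, b, hab⟩ := h2
    refine ⟨(a : Eis), (b : Eis), ?_⟩
    have := congrArg (fun z : ℤ => (z : Eis)) hab
    push_cast at this
    exact this
  -- the averaged identity
  set f : ℕ → Eis → ℂ := fun k x => sy2 x c *
    cexp (2 * π * I * ((k * (2 * x.re - x.im) : ℤ) : ℂ) / l) with hf
  have hf1 : ∀ x, sy2 x c * eC (toC 1 * toC x / toC c) = f 1 x := by
    intro x
    simp only [hf]
    rw [map_one, one_mul, htoc, eC_rat]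
    congr 3
    push_cast; ring
  have hperf : ∀ k, PMod c (f k) := by
    intro k x t
    simp only [hf]
    have h1 : sy2 (x + c * t) c = sy2 x c := (isCh_sy2 hOd).per x t
    rw [h1]
    congr 1
    have h2 : (x + c * t).re = x.re + l * t.re := by
      rw [QuadraticAlgebra.re_add, re_mul']; simp [hc]
    have h3 : (x + c * t).im = x.im + l * t.im := by
      rw [QuadraticAlgebra.im_add, im_mul']; simp [hc]
    rw [h2, h3, ← exp_period (x := 2 * π * I * ((k * (2 * x.re - x.im) : ℤ) : ℂ) / l)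
      (k := k * (2 * t.re - t.im))]
    congr 1
    push_cast
    field_simp
    ring
  have hgs : gs2 1 c = sumMod c (f 1) := by
    unfold gs2 Gauss880.gsum
    exact sumMod_congr hf1
  have hk1 : ∀ k : ℕ, ¬ l ∣ k → sumMod c (f k) = gs2 1 c := by
    intro k hk
    rw [hgs, ← sumMod_mul_coprime hc0 (hperf 1) (hcopk k hk)]
    refine sumMod_congr fun x => ?_
    simp only [hf]
    have h1 : sy2 (((k : ℕ) : Eis) * x) c = sy2 x c := by
      rw [sy2_mul_left hOd, hrat k hk, one_mul]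
    have e3 : (((k : ℕ) : Eis)).re = k := by simp
    have e4 : (((k : ℕ) : Eis)).im = 0 := by simp
    rw [h1, re_mul', im_mul', e3, e4]
    congr 3
    push_cast
    ring
  -- sum over k
  have htot : ∑ k ∈ Finset.range l, sumMod c (f k) =
      sumMod c (fun x => sy2 x c * (if (l : ℤ) ∣ 2 * x.re - x.im then (l : ℂ) else 0)) := by
    rw [← sumMod_finset_sum hc0]
    refine sumMod_congr fun x => ?_
    simp only [hf]
    rw [← Finset.mul_sum, sum_geom hl.pos]
  have hzero : sumMod c (f 0) = 0 := by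
    obtain ⟨x, hx, hx1⟩ := exists_sy20_eq_neg_one hp hOd |>.imp fun x hx => (⟨by
      intro h; rw [sy20_of_dvd h] at hx; norm_num at hx, hx⟩ : ¬ c ∣ x ∧ sy20 x c = -1)
    have h1 : sumMod c (f 0) = sumMod c (fun x => sy2 x c) := by
      refine sumMod_congr fun x => ?_
      simp [hf]
    rw [h1]
    refine Gauss880.sumMod_ch_eq_zero hc0 (isCh_sy2 hOd)
      (isCoprime_of_prime_not_dvd hp hx).symm ?_
    rw [sy2_prime x hp, hx1]; norm_num
  have hsum1 : ∑ k ∈ Finset.range l, sumMod c (f k) = ((l : ℂ) - 1) * gs2 1 c := by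
    obtain ⟨m, hm⟩ : ∃ m, l = m + 1 := ⟨l - 1, by omega⟩
    rw [hm, Finset.sum_range_succ', hzero, add_zero]
    have : ∀ k ∈ Finset.range m, sumMod c (f (k + 1)) = gs2 1 c := by
      intro k hk
      refine hk1 _ ?_
      intro h
      have h2 := Nat.le_of_dvd (by omega) h
      have h3 := Finset.mem_range.1 hk
      omega
    rw [Finset.sum_congr rfl this, Finset.sum_const, Finset.card_range, nsmul_eq_mul]
    push_cast
    ring
  -- evaluation of the right side
  have hpm : PMod c (fun x => sy2 x c * (if (l : ℤ) ∣ 2 * x.re - x.im then (l : ℂ) else 0)) := by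
    intro x t
    beta_reduce
    have h1 : sy2 (x + c * t) c = sy2 x c := (isCh_sy2 hOd).per x t
    have h2 : (x + c * t).re = x.re + l * t.re := by
      rw [QuadraticAlgebra.re_add, re_mul']; simp [hc]
    have h3 : (x + c * t).im = x.im + l * t.im := by
      rw [QuadraticAlgebra.im_add, im_mul']; simp [hc]
    have h4 : ((l : ℤ) ∣ 2 * (x.re + l * t.re) - (x.im + l * t.im)) ↔
        ((l : ℤ) ∣ 2 * x.re - x.im) := by
      have : 2 * (x.re + l * t.re) - (x.im + l * t.im) =
        (2 * x.re - x.im) + l * (2 * t.re - t.im) := by ring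
      rw [this, dvd_add_left (dvd_mul_right _ _)]
    rw [h1, h2, h3, if_congr h4 rfl rfl]
  have hrhs : sumMod c (fun x => sy2 x c * (if (l : ℤ) ∣ 2 * x.re - x.im then (l : ℂ) else 0)) =
      ((l : ℂ) - 1) * (((J(3 | l) : ℤ) : ℂ) * l) := by
    have hin : ∀ a ∈ Finset.range l, ∑ b ∈ Finset.range l,
        (sy2 (⟨(a : ℤ), (b : ℤ)⟩ : Eis) c *
          (if (l : ℤ) ∣ 2 * (a : ℤ) - (b : ℤ) then (l : ℂ) else 0)) =
        if a = 0 then 0 else ((J(3 | l) : ℤ) : ℂ) * l := by
      intro a ha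
      rw [Finset.sum_eq_single (2 * a % l)]
      · have h1 : (l : ℤ) ∣ 2 * (a : ℤ) - ((2 * a % l : ℕ) : ℤ) := by
          push_cast
          exact Int.dvd_self_sub_emod
        rw [if_pos h1]
        have h2 : sy2 (⟨(a : ℤ), ((2 * a % l : ℕ) : ℤ)⟩ : Eis) c = sy2 (s3 * ((a : ℕ) : Eis)) c := by
          refine sy2_congr hOd ?_
          rw [hdvd]
          have e1 : s3.re = 1 := rfl
          have e2 : s3.im = 2 := rfl
          have e3 : (((a : ℕ) : Eis)).re = a := by simp
          have e4 : (((a : ℕ) : Eis)).im = 0 := by simp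
          rw [QuadraticAlgebra.re_sub, QuadraticAlgebra.im_sub, re_mul', im_mul', e1, e2, e3, e4]
          constructor
          · have : (a : ℤ) - (1 * a - 2 * 0) = 0 := by ring
            rw [this]; exact dvd_zero _
          · have h5 : ((2 * a % l : ℕ) : ℤ) - (1 * 0 + 2 * a - 2 * 0) =
              -(2 * (a : ℤ) - ((2 * a % l : ℕ) : ℤ)) := by ring
            rw [h5, dvd_neg]; exact h1
        rw [h2, sy2_mul_left hOd]
        have h3 : sy2 s3 c = ((J(3 | l) : ℤ) : ℂ) := by
          rw [sy2_eq_qy, hc, qy_natCast_right _ hl2, nm_s3]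
          push_cast; rfl
        rw [h3]
        split_ifs with ha0
        · subst ha0
          have : sy2 (((0 : ℕ) : Eis)) c = 0 := by
            rw [sy2_prime _ hp]
            exact sy20_of_dvd (by rw [Nat.cast_zero]; exact dvd_zero _)
          rw [this]; ring
        · have hla : ¬ l ∣ a := by
            intro h
            have h2 := Nat.le_of_dvd (Nat.pos_of_ne_zero ha0) h
            have h3 := Finset.mem_range.1 ha
            omega
          rw [hrat a hla]; ring
      · intro b hb hne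
        rw [if_neg, mul_zero]
        intro h
        apply hne
        have h1 : (2 * (a : ℤ)) % l = (b : ℤ) % l :=
          Int.ModEq.symm ((Int.modEq_iff_dvd).2 h)
        have h2 : (b : ℤ) % l = b := Int.emod_eq_of_lt (by positivity) (by
          exact_mod_cast Finset.mem_range.1 hb)
        rw [h2] at h1
        have h3 : ((2 * a % l : ℕ) : ℤ) = (b : ℤ) := by push_cast; exact h1
        exact_mod_cast h3.symm
      · intro h
        exact absurd (Finset.mem_range.2 (Nat.mod_lt _ hl.pos)) h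
    have h0 := sumMod_natCast hl0 (f := fun x => sy2 x c *
      (if (l : ℤ) ∣ 2 * x.re - x.im then (l : ℂ) else 0)) hpm
    rw [h0]
    rw [Finset.sum_congr rfl hin]
    obtain ⟨m, hm⟩ : ∃ m, l = m + 1 := ⟨l - 1, by omega⟩
    have hcast : (l : ℂ) - 1 = m := by rw [hm]; push_cast; ring
    rw [hcast]
    have h5 : ∑ a ∈ Finset.range l, (if a = 0 then (0 : ℂ) else ((J(3 | l) : ℤ) : ℂ) * l) =
        ∑ a ∈ Finset.range (m + 1), (if a = 0 then (0 : ℂ) else ((J(3 | l) : ℤ) : ℂ) * l) := by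
      rw [← hm]
    rw [h5, Finset.sum_range_succ']
    simp
  have hne1 : ((l : ℂ) - 1) ≠ 0 := by
    intro h
    have h2 : (l : ℂ) = ((1 : ℕ) : ℂ) := by rw [sub_eq_zero] at h; rw [h]; push_cast; rfl
    have h3 : l = 1 := by exact_mod_cast h2
    omega
  apply mul_left_cancel₀ hne1
  rw [← hsum1, htot, hrhs]

end Crest.Agent.R017.QS411
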