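import Crest.Agent.R017.E4Xh_681
import Crest.Agent.R017.E4Xi_92

/-!
# Row 17, block C70, leaf E4 (x-side): the conductor of the inner coefficient (helper681)

* `exists_qg` : a cube-free primary number is `q g²`
* `qg_le` : `(nm q)² nm g ≤ (nm P)² / (nm A)³` for a square-free `A` with `A² ∣ P`
* `FFa_qg` : the conductor of a tuple
-/

set_option autoImplicit false
set_option linter.unusedVariables false
set_option maxHeartbeats 400000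

noncomputable section

open scoped Classical

namespace Crest.Agent.R017.E4Xb681

open Crest.Agent.R012 Crest.Agent.R012.Eis
open Crest.Agent.R017.C70 (CbF JC)
open Crest.Agent.R017.E1551 (nmpos nm_ge_one)
open Crest.Agent.R017.E4zz92 (Tu PP)
open Crest.Agent.R017.E4X92
open Crest.Agent.R017.E4352 (PrI)
open Crest.Agent.R017.E4579 (SupB)

/-- a squarefree number whose square divides `q g²` divides `g` -/
lemma dvd_g {q g A : Eis} (hq : Squarefree (q * g)) (hA : Squarefree A) (hg : g ≠ 0) (hq0 : q ≠ 0)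
    (h : A ^ 2 ∣ q * g ^ 2) : A ∣ g := by
  refine E4zz92.dvd_of_primes hA fun p hp hpA => ?_
  by_contra hpg
  have h1 : p ^ 2 ∣ q * g ^ 2 := (pow_dvd_pow_of_dvd hpA 2).trans h
  have hc : IsCoprime (p ^ 2) (g ^ 2) := ((hp.coprime_iff_not_dvd).mpr hpg).pow
  have h2 : p ^ 2 ∣ q := hc.dvd_of_dvd_mul_right h1
  have h3 : p * p ∣ q * g := by
    rw [← sq]
    exact h2.mul_right g
  exact hp.not_isUnit (hq p h3)

/-- **the bound of the conductor** -/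
lemma qg_le {P q g A : Eis} (hP : P = q * g ^ 2) (hq : Squarefree (q * g)) (hA : Squarefree A)
    (hP0 : P ≠ 0) (h : A ^ 2 ∣ P) :
    A ∣ g ∧ (nm q : ℝ) ^ 2 * nm g ≤ (nm P : ℝ) ^ 2 / (nm A : ℝ) ^ 3 := by
  have hq0 : q ≠ 0 := by
    rintro rfl; exact hP0 (by rw [hP, zero_mul])
  have hg0 : g ≠ 0 := by
    rintro rfl; exact hP0 (by rw [hP]; ring)
  have hAg : A ∣ g := dvd_g hq hA hg0 hq0 (hP ▸ h)
  refine ⟨hAg, ?_⟩
  have hA0 : A ≠ 0 := by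
    rintro rfl
    exact hg0 (zero_dvd_iff.mp hAg)
  have nA := nmpos hA0
  have ng := nmpos hg0
  have h1 : (nm A : ℝ) ≤ nm g := by exact_mod_cast Div277.nm_le_of_dvd hg0 hAg
  rw [le_div_iff₀ (by positivity), hP, nm_mul, nm_pow]
  push_cast
  calc (nm q : ℝ) ^ 2 * nm g * (nm A : ℝ) ^ 3 ≤ (nm q : ℝ) ^ 2 * nm g * (nm g : ℝ) ^ 3 := by
        gcongr
    _ = _ := by ring

/-- **the conductor of a tuple** -/
theorem FFa_qg {x : XF} {a : Tu} (hS : IsPrim (x.Sf a.q)) (hg₁ : PrI x.M x.g₁) (hν : IsPrim a.ν)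
    (hσ : IsPrim (a.us * a.τ)) (hσS : SupB (a.us * a.τ) (x.Sf a.q)) (hJ : JC (x.FFa a))
    (hc₀ : x.c₀ ≠ 0) :
    ∃ q g : Eis, IsPrim q ∧ IsPrim g ∧ Squarefree q ∧ Squarefree g ∧ IsCoprime q g ∧
      PP (x.Sf a.q) x.g₁ a.ν (a.us * a.τ) = q * g ^ 2 ∧
      x.FFa a = q * x.c₀ * g ^ 2 * 1 ^ 3 ∧ (nm q : ℝ) ≤ nm (x.FFa a) ∧ (nm g : ℝ) ≤ nm (x.FFa a) ∧
      ∀ A : Eis, Squarefree A → A ^ 2 ∣ PP (x.Sf a.q) x.g₁ a.ν (a.us * a.τ) →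
        A ∣ g ∧ (nm q : ℝ) ^ 2 * nm g ≤
          4 * ((2 : ℝ) ^ lg (PP (x.Sf a.q) x.g₁ a.ν (a.us * a.τ))) ^ 2 / (nm A : ℝ) ^ 3 := by
  obtain ⟨p1, p2, -, -, p5⟩ := pp_facts hS hg₁ hν hσ hσS hJ hc₀
  obtain ⟨q, g, h1, h2, h3, h4, h5, h6⟩ := E3A164.cbf_dec p1 p2
  have hF : x.FFa a = x.c₀ * PP (x.Sf a.q) x.g₁ a.ν (a.us * a.τ) := by
    unfold XF.FFa
    rw [E4zz92.FF_eq]
  have hF0 : x.FFa a ≠ 0 := by
    rw [hF]; exact mul_ne_zero hc₀ p5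
  refine ⟨q, g, h1, h3, h2, h4, h5, h6, by rw [hF, h6]; ring, ?_, ?_, ?_⟩
  · exact_mod_cast Div277.nm_le_of_dvd hF0 ⟨x.c₀ * g ^ 2, by rw [hF, h6]; ring⟩
  · exact_mod_cast Div277.nm_le_of_dvd hF0 ⟨x.c₀ * q * g, by rw [hF, h6]; ring⟩
  · intro A hA hd
    obtain ⟨k1, k2⟩ := qg_le h6 (squarefree_mul_iff.mpr ⟨h5.isRelPrime, h2, h4⟩) hA p5 hd
    refine ⟨k1, k2.trans ?_⟩
    have hA0 : A ≠ 0 := by
      rintro rfl
      exact h3.ne_zero (zero_dvd_iff.mp k1)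
    have nA := nmpos hA0
    have h7 := le_pow_lg (PP (x.Sf a.q) x.g₁ a.ν (a.us * a.τ))
    calc (nm (PP (x.Sf a.q) x.g₁ a.ν (a.us * a.τ)) : ℝ) ^ 2 / (nm A : ℝ) ^ 3 ≤
          (2 * (2 : ℝ) ^ lg (PP (x.Sf a.q) x.g₁ a.ν (a.us * a.τ))) ^ 2 / (nm A : ℝ) ^ 3 := by
          gcongr
      _ = _ := by ring

/-- **the weight of the conductor of a tuple** in the sizes of its class (`nk (P ^ 2)` is 770's
`qg P`, lemma `qg_eq`) -/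
theorem nk_PP {x : XF} {a : Tu} (hS : IsPrim (x.Sf a.q)) (hg₁ : PrI x.M x.g₁) (hν : IsPrim a.ν)
    (hσ : IsPrim (a.us * a.τ)) (hσS : SupB (a.us * a.τ) (x.Sf a.q)) (hJ : JC (x.FFa a))
    (hc₀ : x.c₀ ≠ 0) {A : Eis} (hA : Squarefree A)
    (hd : A ^ 2 ∣ PP (x.Sf a.q) x.g₁ a.ν (a.us * a.τ)) :
    IsPrim (PP (x.Sf a.q) x.g₁ a.ν (a.us * a.τ)) ∧
    (Mode405.nk (PP (x.Sf a.q) x.g₁ a.ν (a.us * a.τ) ^ 2) : ℝ) ≤
      4 * ((2 : ℝ) ^ lg (PP (x.Sf a.q) x.g₁ a.ν (a.us * a.τ))) ^ 2 / (nm A : ℝ) ^ 3 := by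
  obtain ⟨p1, -, -, -, -⟩ := pp_facts hS hg₁ hν hσ hσS hJ hc₀
  obtain ⟨q, g, h1, h2, h3, h4, h5, h6, -, -, -, h7⟩ := FFa_qg hS hg₁ hν hσ hσS hJ hc₀
  refine ⟨p1, le_trans ?_ (h7 A hA hd).2⟩
  have e : (q * g ^ 2) ^ 2 = (q ^ 2 * g) * g ^ 3 := by ring
  have h0 : q ^ 2 * g ≠ 0 := mul_ne_zero (pow_ne_zero _ h1.ne_zero) h2.ne_zero
  rw [h6, e, E3q681.nk_mul_cube h0 h2.ne_zero]
  refine (nk_le_nm h0).trans (le_of_eq ?_)
  rw [nm_mul, nm_pow]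
  push_cast
  ring

end Crest.Agent.R017.E4Xb681
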