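import Crest.Agent.R017.E2zd_440

/-!
# Row 17, block C70, leaf E2 (helper401): `QsNJ_le` for `K ≥ P⁻¹` (copy of helper440's proof)
-/

set_option autoImplicit false
set_option linter.unusedVariables false
set_option linter.unusedSectionVars false
set_option linter.unusedTactic false

noncomputable section

open Complex MeasureTheory
open scoped ComplexConjugate

namespace Crest.Agent.R017.QsJ401

open Crest.Agent.R012 Crest.Agent.R012.Eis Crest.Agent.R012.GaussLoc283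
open Crest.Agent.R012.Mob705 hiding pb mem_pb
open Crest.Agent.R012.Div277
open Crest.Agent.R012.LS2 (S mem_S)
open Crest.Agent.R017.PX764 (th Gh n6 cD)
open Crest.Agent.R017.F1
open Crest.Agent.R017.X6C180 (Sg fA WF V1 cM n13 IX dl' om' GF)
open Crest.Agent.R017.X6545 (TF Bd)
open Crest.Agent.R017.X6W180 (TF1 tf1_tf)
open Crest.Agent.R017.CM106 (sub CS FS)
open Crest.Agent.R017.GrB829 (IsC)
open Crest.Agent.R017.E2440

set_option maxHeartbeats 4000000 in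
open Classical in
/-- **`Qs` with joint shells and the parameters chosen**, any `K ≥ P⁻¹` -/
theorem QsNJ_leK {ε : ℝ} (hε : 0 < ε) (a M' : ℕ) : ∃ (M : ℕ) (C : ℝ), 0 ≤ C ∧
    ∀ P : ℝ, 1 ≤ P → ∀ (Jt : ℕ) (Ft : ℝ → ℂ) (cc H : ℝ) (ϑ ϑd : ℝ → ℝ)
    (om : ∀ σ : Eis, IX σ → ℝ → ℂ), (∀ σ ∈ C4, KDd σ Jt M Ft cc H ϑ ϑd (om σ)) → H ≤ P →
    ∀ X Y K B0 : ℝ, X ≤ P → Y ≤ P → 0 < K → K⁻¹ ≤ P → K ≤ P → ∀ α : Eis → ℂ, FS α →
    (∀ n, α n ≠ 0 → Squarefree n) → (∀ n, α n ≠ 0 → X / 2 < nm n ∧ (nm n : ℝ) ≤ X) →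
    (∀ n, ‖α n‖ ≤ P ^ a) → ∀ δ e : Eis, IsPrim δ → Squarefree δ → (nm δ : ℝ) ≤ P → IsPrim e →
    (nm e : ℝ) ≤ P → ∀ y ∈ prs δ, ∀ A ∈ pdiv y.1, ∀ c ∈ C4, ∀ j₂ : Eis, IsPrim j₂ →
    1 ≤ RR Y e A c j₂ → (nm y.1 : ℝ) ≤ X → ∀ (MD : Eis → ℕ → ℝ) (Mt : Eis → ℝ)
    (jm : ℕ → ℕ → Prop) (MJ : ℕ → ℕ → ℝ),
    DHJ Jt (RR Y e A c j₂) (X / nm y.1) c (e * A * j₂) y.2 (ag α δ y.1)
      (NBf (P ^ ε) H (X / nm y.1) (RR Y e A c j₂) (K / nm (e * A * j₂)) B0 y.2) jm MJ →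
    DHr Jt (RR Y e A c j₂) (X / nm y.1) c (e * A * j₂) y.2 (ag α δ y.1)
      (NBf (P ^ ε) H (X / nm y.1) (RR Y e A c j₂) (K / nm (e * A * j₂)) B0 y.2)
      (fun B j => ¬ jm (blk B) j) MD →
    (∀ B ∈ S (X / nm y.1), B0 < nm B →
      ∑ r ∈ (S (RR Y e A c j₂)).filter (fun r => IsCoprime r y.2 ∧ RR Y e A c j₂ / 2 < nm r),
        ‖MT (ag α δ y.1) (e * A * j₂) B c r‖ ^ 2 ≤ Mt B) →
    Qs α δ e Y K Ft y A c j₂ ≤ C * cc ^ 2 * P ^ ε *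
      (RR Y e A c j₂ ^ (-(1 : ℝ) / 3) * (K / nm (e * A * j₂)) ^ ((2 : ℝ) / 3) *
          GG ϑ ϑd (RR Y e A c j₂) (X / nm y.1) (K / nm (e * A * j₂)) B0 y.2
            (NBf (P ^ ε) H (X / nm y.1) (RR Y e A c j₂) (K / nm (e * A * j₂)) B0 y.2) MD jm MJ +
        PJ (X / nm y.1) (RR Y e A c j₂) (K / nm (e * A * j₂)) B0 y.2 Mt + (P ^ M')⁻¹) := by
  obtain ⟨M, C, hC, h⟩ := EJ_num hε (a + 6) M'
  refine ⟨M, cKJ4 * C, mul_nonneg cKJ4_nonneg hC, ?_⟩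
  intro P hP Jt Ft cc H ϑ ϑd om hKD hHP X Y K B0 hXP hYP hK0 hKiP hKP α hα hs hsp hαP δ e hδ hδs hδP he heP
    y hy A hA c hc j₂ hj₂ hR hyX MD Mt jm MJ hDJ hD hMt
  have hy' := (mem_prs hδ).mp hy
  have hA' := (mem_pdiv hy'.1.ne_zero).mp hA
  have hcI := mem_C4.mp hc
  have hy0 : (1 : ℝ) ≤ nm y.1 := one_le_nm hy'.1.ne_zero
  have hP0 : 0 < P := by linarith
  have hNe : (1 : ℝ) ≤ nm e := one_le_nm he.ne_zero
  have hNA : (1 : ℝ) ≤ nm A := one_le_nm hA'.1.ne_zero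
  have hNj : (1 : ℝ) ≤ nm j₂ := one_le_nm hj₂.ne_zero
  have hNc : (1 : ℝ) ≤ nm c := one_le_nm hcI.ne_zero
  have hnδ : nm δ = nm y.1 * nm y.2 := by rw [← hy'.2.2, nm_mul]
  have hy2 : (1 : ℝ) ≤ nm y.2 := one_le_nm hy'.2.1.ne_zero
  have hnδ' : (nm δ : ℝ) = nm y.1 * nm y.2 := by exact_mod_cast hnδ
  have hy1P : (nm y.1 : ℝ) ≤ P := by nlinarith
  have hy2P : (nm y.2 : ℝ) ≤ P := by nlinarith
  have hAP : (nm A : ℝ) ≤ P := by
    have h1 : nm A ≤ nm y.1 := nm_le_of_dvd hy'.1.ne_zero hA'.2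
    have h2 : (nm A : ℝ) ≤ nm y.1 := by exact_mod_cast h1
    linarith
  have hX1 : 1 ≤ X / nm y.1 := by rwa [le_div_iff₀ (by linarith), one_mul]
  have hXP' : X / nm y.1 ≤ P := by
    have : X / nm y.1 ≤ X := div_le_self (by linarith) hy0
    linarith
  have hpow : ∀ m : ℕ, m ≤ a + 6 → P ^ m ≤ P ^ (a + 6) := fun m hm => pow_le_pow_right₀ hP hm
  have hP1 : P ≤ P ^ (a + 6) := by simpa using hpow 1 (by omega)
  have hY0 : 0 < Y := by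
    by_contra hY
    push Not at hY
    have : RR Y e A c j₂ ≤ 0 := by
      unfold RR
      refine div_nonpos_of_nonpos_of_nonneg ?_ (by positivity)
      exact mul_nonpos_of_nonpos_of_nonneg hY (Nat.cast_nonneg _)
    linarith
  have hnea : (nm (e * A) : ℝ) = nm e * nm A := by rw [nm_mul]; push_cast; ring
  have hRP : RR Y e A c j₂ ≤ P ^ 3 := by
    unfold RR
    rw [hnea]
    have h1 : (1 : ℝ) ≤ nm c * (nm j₂ : ℝ) ^ 2 := by
      have := one_le_pow₀ (n := 2) hNj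
      nlinarith
    refine (div_le_self (by positivity) h1).trans ?_
    calc Y * (nm e * nm A) ≤ P * (P * P) := by gcongr
      _ = P ^ 3 := by ring
  have hjP : (nm j₂ : ℝ) ≤ P ^ 3 := by
    have h1 : 1 ≤ RR Y e A c j₂ := hR
    unfold RR at h1
    rw [hnea, le_div_iff₀ (by positivity), one_mul] at h1
    have h2 : (nm j₂ : ℝ) ≤ (nm j₂ : ℝ) ^ 2 := by nlinarith
    have h3 : (nm j₂ : ℝ) ^ 2 ≤ nm c * (nm j₂ : ℝ) ^ 2 := by
      have : 0 ≤ (nm j₂ : ℝ) ^ 2 := by positivity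
      nlinarith
    calc (nm j₂ : ℝ) ≤ nm c * (nm j₂ : ℝ) ^ 2 := h2.trans h3
      _ ≤ Y * (nm e * nm A) := h1
      _ ≤ P * (P * P) := by gcongr
      _ = P ^ 3 := by ring
  have hEe : e * A * j₂ ≠ 0 := mul_ne_zero (mul_ne_zero he.ne_zero hA'.1.ne_zero) hj₂.ne_zero
  have hE1 : (1 : ℝ) ≤ nm (e * A * j₂) := one_le_nm hEe
  have hnE : (nm (e * A * j₂) : ℝ) = nm e * nm A * nm j₂ := by
    rw [nm_mul, nm_mul]; push_cast; ring
  have hAp : 0 < K / nm (e * A * j₂) := by positivity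
  have hApP : K / nm (e * A * j₂) ≤ P := by
    have := div_le_self hK0.le hE1
    linarith
  have hAiP : (K / nm (e * A * j₂))⁻¹ ≤ P ^ 6 := by
    rw [inv_div, div_eq_mul_inv]
    rw [hnE]
    calc (nm e : ℝ) * nm A * nm j₂ * K⁻¹ ≤ P * P * P ^ 3 * P := by gcongr
      _ = P ^ 6 := by ring
  have hL1 : L1 (ag α δ y.1) (X / nm y.1) ≤ 100 * P ^ (a + 6) := by
    unfold L1
    calc ∑ n ∈ S (X / nm y.1), ‖ag α δ y.1 n‖ ≤ ∑ n ∈ S (X / nm y.1), P ^ a := by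
          refine Finset.sum_le_sum fun n _ => ?_
          unfold ag
          split_ifs
          · exact hαP _
          · rw [norm_zero]; positivity
      _ = (S (X / nm y.1)).card * P ^ a := by rw [Finset.sum_const, nsmul_eq_mul]
      _ ≤ (100 * (X / nm y.1)) * P ^ a :=
          mul_le_mul_of_nonneg_right (card_S_le' hX1) (by positivity)
      _ ≤ (100 * P) * P ^ a := by gcongr
      _ = 100 * P ^ (a + 1) := by ring
      _ ≤ _ := mul_le_mul_of_nonneg_left (hpow _ (by omega)) (by norm_num)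
  have hH1 : 1 ≤ H := (hKD c hc).kd.H1
  obtain ⟨N0, hM, hE⟩ := h P hP (X / nm y.1) (RR Y e A c j₂) (K / nm (e * A * j₂)) H B0 hX1
    (hXP'.trans hP1) hR (hRP.trans (hpow 3 (by omega))) hAp (hApP.trans hP1)
    (hAiP.trans (hpow 6 (by omega))) hH1 (hHP.trans hP1) c (e * A * j₂) y.2 (ag α δ y.1) hy'.2.1
    (hy2P.trans hP1) hL1 Jt MD Mt jm MJ hDJ hD hMt
  have h1 := QsJ_le hKD hK0 (Real.one_le_rpow hP hε.le) hα hs hsp hδ hδs he hy hA hc hj₂ hR hyX hM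
  refine h1.trans ?_
  have h2 := hE ϑ ϑd
  calc _ ≤ cKJ4 * cc ^ 2 * (C * P ^ ε * _) :=
        mul_le_mul_of_nonneg_left h2 (mul_nonneg cKJ4_nonneg (sq_nonneg _))
    _ = _ := by ring


end Crest.Agent.R017.QsJ401
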