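import Crest.Agent.R017.QsJa_401

/-!
# Row 17, block C70, leaf E2 (helper401): the cells of `QsNJ_le`, part 2

* `small_num` : the numbers of cells and the `ε`-factors
* `Qs_one` : one index `j₂`, in terms of the separate and the joint moments
-/

set_option autoImplicit false
set_option linter.unusedVariables false

noncomputable section

open Complex
open scoped ComplexConjugate

namespace Crest.Agent.R017.QsJ401

open Crest.Agent.R012 Crest.Agent.R012.Eis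
open Crest.Agent.R012.Div277
open Crest.Agent.R012.Mob705 (pdiv mem_pdiv)
open Crest.Agent.R012.LS2 (S mem_S)
open Crest.Agent.R017.X6C180 (IX dl')
open Crest.Agent.R017.CM106 (sub CS FS)
open Crest.Agent.R017.H1401 (pb mem_pb DN WM WJ)
open Crest.Agent.R017.MoF106 (MoP NX bk mem_bk bk_prim bk_nm_ge sum_bk UU)
open Crest.Agent.R017.MoL106 (NX_sq_le)
open Crest.Agent.R017.E2D401 (MoJ Bj dhJ_H1J dhr_H1v)
open Crest.Agent.R017.E2440

lemma NX_pos (X : ℝ) : (1 : ℝ) ≤ NX X := by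
  unfold MoF106.NX
  push_cast
  have := Nat.cast_nonneg (α := ℝ) ⌊3 * Real.log X⌋₊
  linarith

/-- the exponent of the shells -/
def cNe (ε : ℝ) : ℕ := ⌈ε⌉₊ + 14

/-- the number of shells -/
def N0e (ε P : ℝ) : ℕ := ⌈Real.logb 2 (20 * (P ^ cNe ε * P))⌉₊

lemma two_pow_N0 {ε P : ℝ} (hP : 1 ≤ P) {j : ℕ} (hj : j < N0e ε P) :
    (2 : ℝ) ^ j ≤ 20 * (P ^ cNe ε * P) := by
  have hP0 : 0 < P := by linarith
  exact (two_pow_lt (by positivity) hj).le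

section sizes
variable {ε P X V K H B0 : ℝ} {δ e A c j₂ : Eis} {y : Eis × Eis}

/-- the sizes -/
structure Sz (P X V K H : ℝ) (δ e A c : Eis) (y : Eis × Eis) : Prop where
  P1 : 1 ≤ P
  H1 : 1 ≤ H
  HP : H ≤ P
  XP : X ≤ P
  VP : V ≤ P
  V1 : 1 ≤ V
  K0 : 0 < K
  KiP : K⁻¹ ≤ P
  KP : K ≤ P
  δp : IsPrim δ
  δs : Squarefree δ
  δP : (nm δ : ℝ) ≤ P
  ep : IsPrim e
  eP : (nm e : ℝ) ≤ P
  hy : y ∈ prs δ
  hA : A ∈ pdiv y.1
  yX : (nm y.1 : ℝ) ≤ X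
  hc : c ∈ C4

variable (h : Sz P X V K H δ e A c y)
include h

lemma Sz.y1 : IsPrim y.1 := ((mem_prs h.δp).mp h.hy).1
lemma Sz.y2 : IsPrim y.2 := ((mem_prs h.δp).mp h.hy).2.1
lemma Sz.ye : y.1 * y.2 = δ := ((mem_prs h.δp).mp h.hy).2.2
lemma Sz.Ap : IsPrim A := ((mem_pdiv h.y1.ne_zero).mp h.hA).1
lemma Sz.Ad : A ∣ y.1 := ((mem_pdiv h.y1.ne_zero).mp h.hA).2
lemma Sz.y2s : Squarefree y.2 := h.δs.squarefree_of_dvd (h.ye ▸ dvd_mul_left _ _)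
lemma Sz.n1 : (1 : ℝ) ≤ nm y.1 := one_le_nm h.y1.ne_zero
lemma Sz.n2 : (1 : ℝ) ≤ nm y.2 := one_le_nm h.y2.ne_zero
lemma Sz.nA : (1 : ℝ) ≤ nm A := one_le_nm h.Ap.ne_zero
lemma Sz.ne : (1 : ℝ) ≤ nm e := one_le_nm h.ep.ne_zero
lemma Sz.P0 : 0 < P := by linarith [h.P1]
lemma Sz.X1 : 1 ≤ X / nm y.1 := by
  rw [le_div_iff₀ (by linarith [h.n1]), one_mul]
  exact h.yX
lemma Sz.XP' : X / nm y.1 ≤ P := by
  have h0 : 0 ≤ X := by linarith [h.n1, h.yX]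
  exact (div_le_self h0 h.n1).trans h.XP
lemma Sz.y1P : (nm y.1 : ℝ) ≤ P := by
  have h1 : nm y.1 ≤ nm δ := nm_le_of_dvd h.δp.ne_zero (h.ye ▸ dvd_mul_right _ _)
  have h2 : (nm y.1 : ℝ) ≤ nm δ := by exact_mod_cast h1
  linarith [h.δP]
lemma Sz.y2P : (nm y.2 : ℝ) ≤ P := by
  have h1 : nm y.2 ≤ nm δ := nm_le_of_dvd h.δp.ne_zero (h.ye ▸ dvd_mul_left _ _)
  have h2 : (nm y.2 : ℝ) ≤ nm δ := by exact_mod_cast h1
  linarith [h.δP]
lemma Sz.AP : (nm A : ℝ) ≤ P := by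
  have h1 : nm A ≤ nm y.1 := nm_le_of_dvd h.y1.ne_zero h.Ad
  have h2 : (nm A : ℝ) ≤ nm y.1 := by exact_mod_cast h1
  linarith [h.y1P]
lemma Sz.nmeA : (nm (e * A) : ℝ) = nm e * nm A := by rw [nm_mul]; push_cast; ring
lemma Sz.eA0 : (0 : ℝ) < nm (e * A) := by
  rw [h.nmeA]
  have := h.ne
  have := h.nA
  positivity

lemma Sz.jprim (hj : j₂ ∈ S (Real.sqrt V)) : IsPrim j₂ :=
  ((mem_S (Real.sqrt_nonneg V)).1 hj).2.1

lemma Sz.jP (hj : j₂ ∈ S (Real.sqrt V)) : (nm j₂ : ℝ) ≤ P := by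
  have h1 := ((mem_S (Real.sqrt_nonneg V)).1 hj).1
  have h2 : Real.sqrt V ≤ V := by
    have h3 := Real.sqrt_le_sqrt (show V ≤ V ^ 2 by nlinarith [h.V1])
    rwa [Real.sqrt_sq (by linarith [h.V1])] at h3
  linarith [h.VP]

lemma Sz.RR_le (hj : j₂ ∈ S (Real.sqrt V)) : RR V e A c j₂ ≤ P ^ 3 := by
  have hj1 : (1 : ℝ) ≤ nm j₂ := one_le_nm (h.jprim hj).ne_zero
  have hc1 := one_le_nmC h.hc
  unfold E2440.RR
  rw [h.nmeA]
  have h1 : (1 : ℝ) ≤ nm c * (nm j₂ : ℝ) ^ 2 := by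
    have := one_le_pow₀ (n := 2) hj1
    nlinarith
  have hV := h.V1
  have := h.ne
  have := h.nA
  refine (div_le_self (by positivity) h1).trans ?_
  calc V * ((nm e : ℝ) * nm A) ≤ P * (P * P) := by
        have := h.VP
        have := h.eP
        have := h.AP
        have := h.P0
        gcongr
    _ = P ^ 3 := by ring

lemma Sz.E_eq (hj : j₂ ∈ S (Real.sqrt V)) :
    (nm (e * A * j₂) : ℝ) = nm e * nm A * nm j₂ := by
  rw [nm_mul, nm_mul]; push_cast; ring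

lemma Sz.E1 (hj : j₂ ∈ S (Real.sqrt V)) : (1 : ℝ) ≤ nm (e * A * j₂) :=
  one_le_nm (mul_ne_zero (mul_ne_zero h.ep.ne_zero h.Ap.ne_zero) (h.jprim hj).ne_zero)

lemma Sz.Kj0 (hj : j₂ ∈ S (Real.sqrt V)) : 0 < K / nm (e * A * j₂) := by
  have := h.E1 hj
  have := h.K0
  positivity

lemma Sz.KjP (hj : j₂ ∈ S (Real.sqrt V)) : K / nm (e * A * j₂) ≤ P := by
  have := div_le_self h.K0.le (h.E1 hj)
  linarith [h.KP]

lemma Sz.KjiP (hj : j₂ ∈ S (Real.sqrt V)) : (K / nm (e * A * j₂))⁻¹ ≤ P ^ 4 := by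
  rw [inv_div, div_eq_mul_inv, h.E_eq hj]
  have := h.ne
  have := h.nA
  have hj1 : (1 : ℝ) ≤ nm j₂ := one_le_nm (h.jprim hj).ne_zero
  have := h.jP hj
  have := h.eP
  have := h.AP
  have := h.KiP
  have := h.P0
  have := h.K0
  calc (nm e : ℝ) * nm A * nm j₂ * K⁻¹ ≤ P * P * P * P := by gcongr
    _ = P ^ 4 := by ring

lemma Sz.shells (hε : 0 < ε) (hj : j₂ ∈ S (Real.sqrt V)) (hR : 1 ≤ RR V e A c j₂) {B : Eis}
    (hB : B ∈ S (X / nm y.1)) :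
    Nj (P ^ (ε / 2)) H (X / nm y.1) V K B0 y.2 e A c j₂ B ≤ N0e ε P := by
  have hP := h.P1
  have hP0 := h.P0
  have hX1 := h.X1
  have hX0 : 0 ≤ X / nm y.1 := by linarith
  have hT : 1 ≤ P ^ (ε / 2) := Real.one_le_rpow hP (by linarith)
  have hTP : P ^ (ε / 2) ≤ P ^ ⌈ε⌉₊ := by
    rw [← Real.rpow_natCast]
    exact Real.rpow_le_rpow_of_exponent_le hP ((by linarith : ε / 2 ≤ ε).trans (Nat.le_ceil _))
  have hPow : P ^ cNe ε = P ^ ⌈ε⌉₊ * P ^ 14 := by unfold cNe; rw [pow_add]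
  have hc1 : (1 : ℝ) ≤ P ^ ⌈ε⌉₊ := one_le_pow₀ hP
  obtain ⟨hBX, hB1, -⟩ := (mem_S hX0).mp hB
  have hA0 := h.Kj0 hj
  unfold Nj N0e
  refine NBf_le hT h.H1 hX1 hR hA0 h.y2 hB1.ne_zero hBX (by positivity) ?_ ?_
  · rw [div_eq_mul_inv]
    have a1 := h.KjiP hj
    have a2 := h.RR_le hj
    have a3 := h.y2P
    have a4 := h.XP'
    have a5 := h.HP
    have a6 := h.n2
    have a7 := h.H1
    calc 2 * P ^ (ε / 2) * (H * (RR V e A c j₂ * (nm y.2 : ℝ) ^ 2 * (X / nm y.1) ^ 2)) *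
          (K / nm (e * A * j₂))⁻¹
        ≤ 2 * P ^ ⌈ε⌉₊ * (P * (P ^ 3 * P ^ 2 * P ^ 2)) * P ^ 4 := by gcongr
      _ = 2 * (P ^ ⌈ε⌉₊ * P ^ 12) := by ring
      _ ≤ 20 * (P ^ ⌈ε⌉₊ * P ^ 14 * P) := by
          have e1 : P ^ ⌈ε⌉₊ * P ^ 12 ≤ P ^ ⌈ε⌉₊ * P ^ 14 * P := by
            rw [mul_assoc]
            refine mul_le_mul_of_nonneg_left ?_ (by positivity)
            calc P ^ 12 ≤ P ^ 15 := pow_le_pow_right₀ hP (by norm_num)
              _ = P ^ 14 * P := by ring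
          have e2 : 0 ≤ P ^ ⌈ε⌉₊ * P ^ 14 * P := by positivity
          linarith
      _ = _ := by rw [hPow]
  · have a1 := h.KjP hj
    have e1 : P ≤ P ^ cNe ε * P := by
      have : 1 ≤ P ^ cNe ε := one_le_pow₀ hP
      nlinarith
    have e2 : 0 ≤ P ^ cNe ε * P := by positivity
    linarith

end sizes

/-- the number of cells -/
theorem small_num {ε : ℝ} (hε : 0 < ε) : ∃ C : ℝ, 1 ≤ C ∧ ∀ P X V : ℝ, 1 ≤ P → 1 ≤ X → X ≤ P →
    1 ≤ V → V ≤ P → ∀ ν : Eis, ν ≠ 0 → (nm ν : ℝ) ≤ P →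
    (NX (Real.sqrt V) : ℝ) * NX X * N0e ε P * (dvs ν).card ≤ C * P ^ (ε / 4) ∧
    (NX (Real.sqrt V) : ℝ) * bkN X * N0e ε P ≤ C * P ^ (ε / 4) ∧
    (NX (Real.sqrt V) : ℝ) * NX X ≤ C * P ^ (ε / 4) := by
  obtain ⟨C1, hC1, h1⟩ := NX_sq_le (show 0 < ε / 16 by linarith)
  obtain ⟨C2, hC2, h2⟩ := shells_small (show 0 < ε / 16 by linarith) (cNe ε)
  obtain ⟨C3, hC3, h3⟩ := tau_le_rpow (show 0 < ε / 16 by linarith)
  set C4' : ℝ := 2 * (1 + (ε / 16)⁻¹) with hC4'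
  have hei : 0 < (ε / 16)⁻¹ := by positivity
  have hC41 : 1 ≤ C4' := by rw [hC4']; linarith
  set D : ℝ := C1 * C1 * (C2 + 1) * C3 * C4' with hD
  refine ⟨D, ?_, ?_⟩
  · rw [hD]
    exact one_le_mul_of_one_le_of_one_le (one_le_mul_of_one_le_of_one_le
      (one_le_mul_of_one_le_of_one_le (one_le_mul_of_one_le_of_one_le hC1 hC1) (by linarith)) hC3)
      hC41
  intro P X V hP hX hXP hV hVP ν hν hνP
  have hP0 : 0 < P := by linarith
  set q : ℝ := P ^ (ε / 16) with hq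
  have hq1 : 1 ≤ q := Real.one_le_rpow hP (by linarith)
  have hq4 : P ^ (ε / 4) = q * q * q * q := by
    rw [hq, ← Real.rpow_add hP0, ← Real.rpow_add hP0, ← Real.rpow_add hP0]
    congr 1; ring
  have hsV : 1 ≤ Real.sqrt V := Real.one_le_sqrt.mpr hV
  have hsVP : Real.sqrt V ≤ P := by
    have h3 := Real.sqrt_le_sqrt (show V ≤ V ^ 2 by nlinarith)
    rw [Real.sqrt_sq (by linarith)] at h3
    linarith
  have a1 : (NX (Real.sqrt V) : ℝ) ≤ C1 * q := by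
    have := h1 _ P hsV hsVP
    have h0 := NX_pos (Real.sqrt V)
    nlinarith
  have a2 : (NX X : ℝ) ≤ C1 * q := by
    have := h1 _ P hX hXP
    have h0 := NX_pos X
    nlinarith
  have a3 : (N0e ε P : ℝ) ≤ (C2 + 1) * q := by
    have := h2 P hP
    unfold N0e
    nlinarith
  have a4 : ((dvs ν).card : ℝ) ≤ C3 * q := by
    have h11 := h3 ν hν
    unfold tau at h11
    refine h11.trans (mul_le_mul_of_nonneg_left ?_ (by linarith))
    exact Real.rpow_le_rpow (Nat.cast_nonneg _) hνP (by linarith)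
  have a5 : (bkN X : ℝ) ≤ C4' * q := by
    refine (bkN_le hX).trans ?_
    have h5 : Real.log X ≤ (ε / 16)⁻¹ * q := by
      have h8 : Real.log X ≤ (ε / 16)⁻¹ * X ^ (ε / 16) := by
        have h := Real.log_le_rpow_div (by linarith : (0 : ℝ) ≤ X) (show 0 < ε / 16 by linarith)
        rwa [div_eq_inv_mul] at h
      refine h8.trans (mul_le_mul_of_nonneg_left ?_ hei.le)
      exact Real.rpow_le_rpow (by linarith) hXP (by linarith)
    rw [hC4']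
    nlinarith
  have n1 := Nat.cast_nonneg (α := ℝ) (NX (Real.sqrt V))
  have n2 := Nat.cast_nonneg (α := ℝ) (NX X)
  have n3 := Nat.cast_nonneg (α := ℝ) (N0e ε P)
  have n4 := Nat.cast_nonneg (α := ℝ) (dvs ν).card
  have n5 := Nat.cast_nonneg (α := ℝ) (bkN X)
  have hq0 : 0 < q := by linarith
  rw [hq4]
  refine ⟨?_, ?_, ?_⟩
  · calc (NX (Real.sqrt V) : ℝ) * NX X * N0e ε P * (dvs ν).card
        ≤ (C1 * q) * (C1 * q) * ((C2 + 1) * q) * (C3 * q) := by gcongr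
      _ = (C1 * C1 * (C2 + 1) * C3 * 1) * (q * q * q * q) := by ring
      _ ≤ D * (q * q * q * q) := by
          rw [hD]
          gcongr
  · calc (NX (Real.sqrt V) : ℝ) * bkN X * N0e ε P
        ≤ (C1 * q) * (C4' * q) * ((C2 + 1) * q) := by gcongr
      _ = (C1 * 1 * (C2 + 1) * 1 * C4') * (q * q * q * 1) := by ring
      _ ≤ D * (q * q * q * q) := by
          rw [hD]
          gcongr
  · calc (NX (Real.sqrt V) : ℝ) * NX X ≤ (C1 * q) * (C1 * q) := by gcongr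
      _ = (C1 * C1 * 1 * 1 * 1) * (q * q * 1 * 1) := by ring
      _ ≤ D * (q * q * q * q) := by
          rw [hD]
          gcongr
          linarith

end Crest.Agent.R017.QsJ401
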