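import Crest.Agent.R017.QsJb_401

/-!
# Row 17, block C70, leaf E2 (helper401): the cells of `QsNJ_le`, part 3

* `Qs_one` : one index `j₂`, in terms of the separate and the joint moments
* `Qs_cellsJ` : `∑_c ∑_{j₂} Qs`, separate cells, joint cells, polar cells
-/

set_option autoImplicit false
set_option linter.unusedVariables false

noncomputable section

open Complex
open scoped ComplexConjugate

namespace Crest.Agent.R017.QsJ401

open Crest.Agent.R012 Crest.Agent.R012.Eis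
open Crest.Agent.R012.Div277
open Crest.Agent.R012.Mob705 (pdiv mem_pdiv)
open Crest.Agent.R012.LS2 (S mem_S)
open Crest.Agent.R017.X6C180 (IX dl')
open Crest.Agent.R017.CM106 (sub CS FS)
open Crest.Agent.R017.H1401 (pb mem_pb DN WM WJ)
open Crest.Agent.R017.MoF106 (MoP NX bk mem_bk bk_prim bk_nm_ge sum_bk UU)
open Crest.Agent.R017.E2D401 (MoJ Bj dhJ_H1J dhr_H1v)
open Crest.Agent.R017.E2440

/-- the size of the `ε`-factor -/
def b1e (ε : ℝ) : ℕ := cNe ε + 7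

/-- the small exponent -/
def e1e (ε : ℝ) : ℝ := ε / (8 * b1e ε)

lemma b1e_pos (ε : ℝ) : (0 : ℝ) < b1e ε := by
  unfold b1e; push_cast
  have := Nat.cast_nonneg (α := ℝ) (cNe ε)
  linarith

lemma e1e_pos {ε : ℝ} (hε : 0 < ε) : 0 < e1e ε := by
  unfold e1e
  have := b1e_pos ε
  positivity

lemma big_pow {ε P : ℝ} (hε : 0 < ε) (hP : 1 ≤ P) {x : ℝ} (hx0 : 0 ≤ x)
    (hx : x ≤ 40 * P ^ b1e ε) : x ^ e1e ε ≤ 40 ^ e1e ε * P ^ (ε / 8) := by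
  have he := e1e_pos hε
  have hP0 : 0 < P := by linarith
  refine (Real.rpow_le_rpow hx0 hx he.le).trans (le_of_eq ?_)
  rw [Real.mul_rpow (by norm_num) (by positivity), ← Real.rpow_natCast P, ← Real.rpow_mul hP0.le]
  congr 2
  unfold e1e
  have := b1e_pos ε
  field_simp

/-- the separate part of one `j₂` -/
def gR (X : ℝ) (jm : ℕ → ℕ → Prop) (N : Eis → ℕ) (ν : Eis) (F : Eis → ℕ → Eis → ℝ) : ℝ := by
  classical
  exact ∑ B ∈ S X, ∑ j ∈ (Finset.range (N B)).filter (fun j => ¬ jm (blk B) j),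
    (2 / 2 ^ j) * ∑ n ∈ dvs ν, (nm n : ℝ) * F B j n

/-- the joint part of one `j₂` -/
def gJ (X : ℝ) (jm : ℕ → ℕ → Prop) (N : Eis → ℕ) (FJ : ℕ → ℕ → ℝ) : ℝ := by
  classical
  exact ∑ u ∈ Finset.range (bkN X), ∑ j ∈ (Finset.range (NJ N X u)).filter (fun j => jm u j),
    (2 / 2 ^ j) * (2 / 2 ^ u) * FJ u j

/-- the polar part of one `j₂` -/
def gT (R X B0 : ℝ) (ν : Eis) (α : Eis → ℂ) (E c : Eis) : ℝ := by
  classical
  exact if ν = 1 then ∑ B ∈ (S X).filter (fun B => B0 < nm B), (nm B : ℝ) ^ (-(4 : ℝ) / 3) *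
    ∑ r ∈ (S R).filter (fun r => IsCoprime r ν ∧ R / 2 < nm r), ‖MT α E B c r‖ ^ 2 else 0

open Classical in
/-- the hypotheses on the moments of one `j₂` -/
structure Hm (Jt : ℕ) (ε P X V K H B0 : ℝ) (α : Eis → ℂ) (δ e A c : Eis) (y : Eis × Eis)
    (j₂ : Eis) (jm : ℕ → ℕ → Prop) (F : Eis → ℕ → Eis → ℝ) (FJ : ℕ → ℕ → ℝ) : Prop where
  F0 : ∀ B j n, 0 ≤ F B j n
  FJ0 : ∀ u j, 0 ≤ FJ u j
  mo : ∀ B ∈ S (X / nm y.1), ∀ j < Nj (P ^ (ε / 2)) H (X / nm y.1) V K B0 y.2 e A c j₂ B,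
    ¬ jm (blk B) j → ∀ (i : IX c) (t : ℝ),
    ∑ n ∈ dvs y.2, (nm n : ℝ) * MoP (ag α δ y.1) (e * A * j₂) B (dl' c i) (X / nm y.1) t (2 ^ j)
      (WM (RR V e A c j₂) (2 ^ j / (nm n : ℝ) ^ 3))
      (fun g₂ g₃ d => DN n g₂ g₃ d ∧ (2 : ℝ) ^ j / 2 < nm d) ≤
    (1 + |t|) ^ Jt * ∑ n ∈ dvs y.2, (nm n : ℝ) * F B j n
  moJ : ∀ u j, jm u j →
    (Bj (X / nm y.1) (Nj (P ^ (ε / 2)) H (X / nm y.1) V K B0 y.2 e A c j₂) u j).Nonempty →
    ∀ (i : IX c) (t : ℝ),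
    MoJ y.2 (ag α δ y.1) (e * A * j₂) (dl' c i) (X / nm y.1) t (RR V e A c j₂) (2 ^ j) (2 ^ u)
      (Bj (X / nm y.1) (Nj (P ^ (ε / 2)) H (X / nm y.1) V K B0 y.2 e A c j₂) u j) ≤
    (1 + |t|) ^ Jt * FJ u j

lemma fin_real {W W0 c4 Cr Cj l4 p GGv g PJv gt Mi : ℝ} (hW00 : 0 ≤ W0) (hc4 : 1 ≤ c4)
    (hCr : 1 ≤ Cr) (hCj : 1 ≤ Cj) (hl4 : 1 ≤ l4) (hp : 0 ≤ p) (hg : 0 ≤ g) (hgt : 0 ≤ gt)
    (hMi : 0 ≤ Mi) (hWn : 0 ≤ W) (hW : W ≤ W0 * c4) (hGG : GGv ≤ (Cr + 2 * Cj) * (l4 * p) * g)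
    (hPJ : PJv ≤ (W0 * c4) ^ 2 * gt) :
    W * GGv + PJv + Mi ≤ (c4 ^ 2 * ((Cr + 2 * Cj) * l4)) *
      (W0 * (p * g) + W0 ^ 2 * gt + Mi) := by
  have hD1 : 1 ≤ (Cr + 2 * Cj) * l4 := one_le_mul_of_one_le_of_one_le (by linarith) hl4
  have hc2 : 1 ≤ c4 ^ 2 := one_le_pow₀ hc4
  have t1 : W * GGv ≤ (c4 ^ 2 * ((Cr + 2 * Cj) * l4)) * (W0 * (p * g)) := by
    calc W * GGv ≤ (W0 * c4) * ((Cr + 2 * Cj) * (l4 * p) * g) :=
          (mul_le_mul_of_nonneg_left hGG hWn).trans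
            (mul_le_mul_of_nonneg_right hW (by positivity))
      _ = (c4 * ((Cr + 2 * Cj) * l4)) * (W0 * (p * g)) := by ring
      _ ≤ _ := by
          refine mul_le_mul_of_nonneg_right ?_ (by positivity)
          refine mul_le_mul_of_nonneg_right ?_ (by positivity)
          nlinarith
  have t2 : PJv ≤ (c4 ^ 2 * ((Cr + 2 * Cj) * l4)) * (W0 ^ 2 * gt) := by
    refine hPJ.trans ?_
    have e1 : (W0 * c4) ^ 2 * gt = c4 ^ 2 * (W0 ^ 2 * gt) := by ring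
    rw [e1]
    refine mul_le_mul_of_nonneg_right ?_ (by positivity)
    exact le_mul_of_one_le_right (by positivity) hD1
  have t3 : Mi ≤ (c4 ^ 2 * ((Cr + 2 * Cj) * l4)) * Mi :=
    le_mul_of_one_le_left hMi (one_le_mul_of_one_le_of_one_le hc2 hD1)
  calc _ ≤ _ := add_le_add (add_le_add t1 t2) t3
    _ = _ := by ring

set_option maxHeartbeats 1000000 in
open Classical in
/-- **one `j₂`** -/
theorem Qs_one {ε : ℝ} (hε : 0 < ε) (a M' : ℕ) : ∃ (M : ℕ) (C : ℝ), 0 ≤ C ∧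
    ∀ (P : ℝ) (Jt : ℕ) (Ft : ℝ → ℂ) (cc H : ℝ) (ϑ ϑd : ℝ → ℝ)
    (om : ∀ σ : Eis, IX σ → ℝ → ℂ), (∀ σ ∈ C4, KDd σ Jt M Ft cc H ϑ ϑd (om σ)) →
    (∀ y : ℝ, 0 < y → ϑ y ≤ 1) → (∀ y : ℝ, 0 < y → ϑd y ≤ 1) →
    ∀ (X V K B0 : ℝ) (α : Eis → ℂ), FS α →
    (∀ n, α n ≠ 0 → Squarefree n) → (∀ n, α n ≠ 0 → X / 2 < nm n ∧ (nm n : ℝ) ≤ X) →
    (∀ n, ‖α n‖ ≤ P ^ a) → ∀ (δ e A c : Eis) (y : Eis × Eis), Sz P X V K H δ e A c y →
    ∀ j₂ ∈ S (Real.sqrt V), 1 ≤ RR V e A c j₂ →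
    ∀ (jm : ℕ → ℕ → Prop) (F : Eis → ℕ → Eis → ℝ) (FJ : ℕ → ℕ → ℝ),
    Hm Jt ε P X V K H B0 α δ e A c y j₂ jm F FJ →
    Qs α δ e V K Ft y A c j₂ ≤ C * cc ^ 2 * P ^ (ε / 2) *
      ((V ^ (-(1 : ℝ) / 3) * K ^ ((2 : ℝ) / 3) / nm (e * A)) * (P ^ (ε / 8) *
        (gR (X / nm y.1) jm (Nj (P ^ (ε / 2)) H (X / nm y.1) V K B0 y.2 e A c j₂) y.2 F +
         gJ (X / nm y.1) jm (Nj (P ^ (ε / 2)) H (X / nm y.1) V K B0 y.2 e A c j₂) FJ)) +
       (V ^ (-(1 : ℝ) / 3) * K ^ ((2 : ℝ) / 3) / nm (e * A)) ^ 2 *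
        gT (RR V e A c j₂) (X / nm y.1) B0 y.2 (ag α δ y.1) (e * A * j₂) c + (P ^ M')⁻¹) := by
  obtain ⟨M, C, hC, hQ⟩ := QsNJ_leK (show 0 < ε / 2 by linarith) a M'
  obtain ⟨Cj, hCj, hJ⟩ := dhJ_H1J (e1e_pos hε)
  obtain ⟨Cr, hCr, hr⟩ := dhr_H1v (e1e_pos hε)
  set D : ℝ := cC4 ^ 2 * ((Cr + 2 * Cj) * 40 ^ e1e ε) with hD
  have h40 : (1 : ℝ) ≤ 40 ^ e1e ε := Real.one_le_rpow (by norm_num) (e1e_pos hε).le
  have hc4 := one_le_cC4
  have hD1 : 1 ≤ D := by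
    rw [hD]
    refine one_le_mul_of_one_le_of_one_le (one_le_pow₀ hc4) ?_
    exact one_le_mul_of_one_le_of_one_le (by linarith) h40
  refine ⟨M, C * D, by positivity, ?_⟩
  intro P Jt Ft cc H ϑ ϑd om hKD hϑ hϑd X V K B0 α hα hs hsp hαP δ e A c y h j₂ hj hR jm F FJ hm
  have hP := h.P1
  have hP0 := h.P0
  have hX1 := h.X1
  have hX0 : 0 ≤ X / nm y.1 := by linarith
  have hjp := h.jprim hj
  have hK0 := h.K0
  have hKj0 := h.Kj0 hj
  have hV0 : 0 < V := by linarith [h.V1]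
  have hRp : 0 < RR V e A c j₂ := by linarith
  have hCf := cf_ag hα hs h.δp h.hy
  have hsup : ∀ n, ag α δ y.1 n ≠ 0 → (nm n : ℝ) ≤ X / nm y.1 := by
    intro n hn
    have h2 := hsp _ (ag_ne hn).2
    rw [nm_mul] at h2
    push_cast at h2
    rw [le_div_iff₀ (by linarith [h.n1])]
    nlinarith [h2.2]
  have hν1 := h.n2
  set N : Eis → ℕ := Nj (P ^ (ε / 2)) H (X / nm y.1) V K B0 y.2 e A c j₂ with hN
  have hN0 : ∀ B ∈ S (X / nm y.1), N B ≤ N0e ε P := fun B hB => h.shells hε hj hR hB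
  set x : ℝ := (nm (e * A) : ℝ) with hx
  have hDHJ := hJ (isC_sg (mem_C4.mp h.hc)) Jt hR hX1 (E := e * A * j₂) h.y2 h.y2s hCf hsup
    (N := N) (jm := fun u j => jm u j) (Mw := FJ) (fun u j huj i t => by
      rcases (Bj (X / nm y.1) N u j).eq_empty_or_nonempty with h0 | h0
      · have e0 : MoJ y.2 (ag α δ y.1) (e * A * j₂) (dl' c i) (X / nm y.1) t (RR V e A c j₂)
            (2 ^ j) (2 ^ u) (Bj (X / nm y.1) N u j) = 0 := by
          rw [h0]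
          unfold E2D401.MoJ
          simp
        rw [e0]
        have := hm.FJ0 u j
        positivity
      · exact hm.moJ u j huj h0 i t)
  have hDHr := hr (isC_sg (mem_C4.mp h.hc)) Jt hR hX1 (E := e * A * j₂) h.y2 h.y2s hCf hsup
    (N := N) (Pj := fun B j => ¬ jm (blk B) j)
    (Mw := fun B j => ∑ n ∈ dvs y.2, (nm n : ℝ) * F B j n)
    (fun B hB i t j hjN hPj => hm.mo B hB j hjN hPj i t)
  have h1 := hQ P hP Jt Ft cc H ϑ ϑd om hKD h.HP X V K B0 h.XP h.VP hK0 h.KiP h.KP α hα hs hsp hαP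
    δ e h.δp h.δs h.δP h.ep h.eP y h.hy A h.hA c h.hc j₂ hjp hR h.yX _
    (fun B => ∑ r ∈ (S (RR V e A c j₂)).filter
      (fun r => IsCoprime r y.2 ∧ RR V e A c j₂ / 2 < nm r),
        ‖MT (ag α δ y.1) (e * A * j₂) B c r‖ ^ 2) jm _ hDHJ hDHr (fun _ _ _ => le_rfl)
  refine h1.trans ?_
  -- the sizes of the `ε`-factors
  have hRR := h.RR_le hj
  have hXP := h.XP'
  have hy2P := h.y2P
  have hpowN : ∀ j < N0e ε P, RR V e A c j₂ * 2 ^ j * (X / nm y.1) * nm y.2 * (2 * P) ≤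
      40 * P ^ b1e ε := by
    intro j hjN
    have h2 := two_pow_N0 hP hjN
    calc RR V e A c j₂ * 2 ^ j * (X / nm y.1) * nm y.2 * (2 * P)
        ≤ P ^ 3 * (20 * (P ^ cNe ε * P)) * P * P * (2 * P) := by gcongr
      _ = 40 * (P ^ cNe ε * P ^ 7) := by ring
      _ = _ := by unfold b1e; rw [pow_add]
  have hDr : ∀ B ∈ S (X / nm y.1), ∀ j < N B,
      (RR V e A c j₂ * 2 ^ j * (X / nm y.1) * nm y.2) ^ e1e ε ≤ 40 ^ e1e ε * P ^ (ε / 8) := by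
    intro B hB j hjB
    have hjN := hjB.trans_le (hN0 B hB)
    refine big_pow hε hP (by positivity) (le_trans ?_ (hpowN j hjN))
    refine le_mul_of_one_le_right (by positivity) (by linarith)
  have hDj : ∀ u j, j < NJ N (X / nm y.1) u →
      (RR V e A c j₂ * 2 ^ j * (X / nm y.1) * nm y.2 * 2 ^ u) ^ e1e ε ≤
        40 ^ e1e ε * P ^ (ε / 8) := by
    intro u j hj'
    have hjN := hj'.trans_le (NJ_le hN0 u)
    unfold E2440.NJ at hj'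
    rw [Finset.lt_sup_iff] at hj'
    obtain ⟨B, hB, hB2⟩ := hj'
    rw [Finset.mem_filter, mem_S hX0] at hB
    have h3 := blk_lt hB.1.2.1.ne_zero
    rw [hB.2] at h3
    refine big_pow hε hP (by positivity) (le_trans ?_ (hpowN j hjN))
    refine mul_le_mul_of_nonneg_left ?_ (by positivity)
    linarith [hB.1.1]
  set L : ℝ := 40 ^ e1e ε * P ^ (ε / 8) with hL
  have hL0 : 0 ≤ L := by rw [hL]; positivity
  -- the separate shells
  have hth : ∀ z : ℝ, 0 < z → ϑ z ^ 2 ≤ 1 := fun z hz =>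
    pow_le_one₀ ((hKD c h.hc).kd.th0 z hz) (hϑ z hz)
  have hthd : ∀ z : ℝ, 0 < z → ϑd z ^ 2 ≤ 1 := fun z hz =>
    pow_le_one₀ ((hKD c h.hc).d0 z hz) (hϑd z hz)
  have hF0 := hm.F0
  have hFJ0 := hm.FJ0
  have hGR : GR ϑ ϑd (RR V e A c j₂) (X / nm y.1) (K / nm (e * A * j₂)) B0 y.2 N
      (fun B j => ¬ jm (blk B) j) (fun B j => Cr * (RR V e A c j₂ * 2 ^ j * (X / nm y.1) *
        nm y.2) ^ e1e ε * (2 / 2 ^ j) * ∑ n ∈ dvs y.2, (nm n : ℝ) * F B j n) ≤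
      Cr * L * gR (X / nm y.1) jm N y.2 F := by
    unfold E2440.GR gR
    rw [Finset.mul_sum]
    refine Finset.sum_le_sum fun B hB => ?_
    rw [Finset.mul_sum]
    refine (le_of_eq (Finset.sum_congr (by ext j; simp only [Finset.mem_filter])
      fun _ _ => rfl)).trans (Finset.sum_le_sum fun j hj' => ?_)
    rw [Finset.mem_filter, Finset.mem_range] at hj'
    obtain ⟨hBX, hB1, -⟩ := (mem_S hX0).mp hB
    have hNB : (1 : ℝ) ≤ nm B := one_le_nm hB1.ne_zero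
    have hs0 : 0 ≤ (2 / 2 ^ j : ℝ) * ∑ n ∈ dvs y.2, (nm n : ℝ) * F B j n :=
      mul_nonneg (by positivity) (Finset.sum_nonneg fun n _ => mul_nonneg (Nat.cast_nonneg _)
        (hF0 _ _ _))
    have hq := hDr B hB j hj'.1
    have hw : (if (nm B : ℝ) ≤ B0 then ϑ (RR V e A c j₂ * (nm y.2 : ℝ) ^ 2 *
        (X / nm y.1 / nm B) / (K / nm (e * A * j₂) / (nm B : ℝ) ^ 2 * 2 ^ j)) ^ 2 else
        ϑd (2 ^ j / (K / nm (e * A * j₂) / (nm B : ℝ) ^ 2)) ^ 2) ≤ 1 := by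
      split_ifs
      · exact hth _ (by positivity)
      · exact hthd _ (by positivity)
    calc _ ≤ 1 * (Cr * (RR V e A c j₂ * 2 ^ j * (X / nm y.1) * nm y.2) ^ e1e ε * (2 / 2 ^ j) *
            ∑ n ∈ dvs y.2, (nm n : ℝ) * F B j n) := by
          refine mul_le_mul_of_nonneg_right hw ?_
          beta_reduce
          rw [mul_assoc]
          exact mul_nonneg (by positivity) hs0
      _ = Cr * (RR V e A c j₂ * 2 ^ j * (X / nm y.1) * nm y.2) ^ e1e ε * ((2 / 2 ^ j) *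
            ∑ n ∈ dvs y.2, (nm n : ℝ) * F B j n) := by ring
      _ ≤ _ := by
          refine mul_le_mul_of_nonneg_right ?_ hs0
          exact mul_le_mul_of_nonneg_left hq (by linarith)
  have hGJ : GJ ϑ ϑd (RR V e A c j₂) (X / nm y.1) (K / nm (e * A * j₂)) B0 y.2 N jm
      (fun u j => Cj * (RR V e A c j₂ * 2 ^ j * (X / nm y.1) * nm y.2 * 2 ^ u) ^ e1e ε *
        (2 / 2 ^ j) * (2 / 2 ^ u) * FJ u j) ≤ 2 * Cj * L * gJ (X / nm y.1) jm N FJ := by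
    unfold E2440.GJ gJ
    rw [Finset.mul_sum]
    refine Finset.sum_le_sum fun u hu => ?_
    rw [Finset.mul_sum]
    refine Finset.sum_le_sum fun j hj' => ?_
    rw [Finset.mem_filter, Finset.mem_range] at hj'
    have hs0 : 0 ≤ (2 / 2 ^ j : ℝ) * (2 / 2 ^ u) * FJ u j :=
      mul_nonneg (by positivity) (hFJ0 _ _)
    have hq := hDj u j hj'.1
    have hw : tJ ϑ ϑd (RR V e A c j₂) (X / nm y.1) (K / nm (e * A * j₂)) B0 y.2 u j ≤ 2 := by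
      unfold E2440.tJ
      have a1 : (if (2 : ℝ) ^ u / 2 < B0 then ϑ (RR V e A c j₂ * (nm y.2 : ℝ) ^ 2 *
          (X / nm y.1 * 2 ^ u / 2) / (K / nm (e * A * j₂) * 2 ^ j)) ^ 2 else 0) ≤ 1 := by
        split_ifs
        · exact hth _ (by positivity)
        · exact zero_le_one
      have a2 : (if B0 < (2 : ℝ) ^ u then ϑd (2 ^ j / (K / nm (e * A * j₂) / (2 ^ u) ^ 2)) ^ 2
          else 0) ≤ 1 := by
        split_ifs
        · exact hthd _ (by positivity)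
        · exact zero_le_one
      linarith
    calc _ ≤ 2 * (Cj * (RR V e A c j₂ * 2 ^ j * (X / nm y.1) * nm y.2 * 2 ^ u) ^ e1e ε *
            (2 / 2 ^ j) * (2 / 2 ^ u) * FJ u j) := by
          refine mul_le_mul_of_nonneg_right hw ?_
          have : 0 ≤ Cj * (RR V e A c j₂ * 2 ^ j * (X / nm y.1) * nm y.2 * 2 ^ u) ^ e1e ε *
            ((2 / 2 ^ j) * (2 / 2 ^ u) * FJ u j) := mul_nonneg (by positivity) hs0
          refine this.trans (le_of_eq ?_)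
          ring
      _ = 2 * Cj * (RR V e A c j₂ * 2 ^ j * (X / nm y.1) * nm y.2 * 2 ^ u) ^ e1e ε *
            ((2 / 2 ^ j) * (2 / 2 ^ u) * FJ u j) := by ring
      _ ≤ _ := by
          refine mul_le_mul_of_nonneg_right ?_ hs0
          exact mul_le_mul_of_nonneg_left hq (by linarith)
  have hgR0 : 0 ≤ gR (X / nm y.1) jm N y.2 F := by
    unfold gR
    exact Finset.sum_nonneg fun B _ => Finset.sum_nonneg fun j _ => mul_nonneg (by positivity)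
      (Finset.sum_nonneg fun n _ => mul_nonneg (Nat.cast_nonneg _) (hF0 _ _ _))
  have hgJ0 : 0 ≤ gJ (X / nm y.1) jm N FJ := by
    unfold gJ
    exact Finset.sum_nonneg fun u _ => Finset.sum_nonneg fun j _ => mul_nonneg (by positivity)
      (hFJ0 _ _)
  have hgT0 : 0 ≤ gT (RR V e A c j₂) (X / nm y.1) B0 y.2 (ag α δ y.1) (e * A * j₂) c := by
    unfold gT
    split_ifs
    · exact Finset.sum_nonneg fun B _ => mul_nonneg (by positivity)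
        (Finset.sum_nonneg fun _ _ => by positivity)
    · exact le_rfl
  set W0 : ℝ := V ^ (-(1 : ℝ) / 3) * K ^ ((2 : ℝ) / 3) / x with hW0
  have hx0 : 0 < x := h.eA0
  have hW00 : 0 ≤ W0 := by rw [hW0]; positivity
  have hW : RR V e A c j₂ ^ (-(1 : ℝ) / 3) * (K / nm (e * A * j₂)) ^ ((2 : ℝ) / 3) ≤
      W0 * cC4 := by
    rw [RR_norm hV0 hK0 h.ep.ne_zero h.Ap.ne_zero (C4_ne h.hc) hjp.ne_zero]
    exact mul_le_mul_of_nonneg_left (cC_third h.hc) hW00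
  have hWn : 0 ≤ RR V e A c j₂ ^ (-(1 : ℝ) / 3) * (K / nm (e * A * j₂)) ^ ((2 : ℝ) / 3) := by
    positivity
  have hPJ : PJ (X / nm y.1) (RR V e A c j₂) (K / nm (e * A * j₂)) B0 y.2
      (fun B => ∑ r ∈ (S (RR V e A c j₂)).filter
      (fun r => IsCoprime r y.2 ∧ RR V e A c j₂ / 2 < nm r),
        ‖MT (ag α δ y.1) (e * A * j₂) B c r‖ ^ 2) ≤ (W0 * cC4) ^ 2 *
        gT (RR V e A c j₂) (X / nm y.1) B0 y.2 (ag α δ y.1) (e * A * j₂) c := by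
    unfold gT E2440.PJ
    split_ifs with hy1
    · rw [RR_norm2 hRp hKj0]
      refine mul_le_mul_of_nonneg_right (pow_le_pow_left₀ hWn hW 2) ?_
      exact Finset.sum_nonneg fun B _ => mul_nonneg (by positivity)
        (Finset.sum_nonneg fun _ _ => by positivity)
    · rw [mul_zero]
  have hc0 : 0 ≤ C * cc ^ 2 * P ^ (ε / 2) := by positivity
  rw [show C * D * cc ^ 2 * P ^ (ε / 2) = C * cc ^ 2 * P ^ (ε / 2) * D by ring, mul_assoc (C * cc ^ 2 * P ^ (ε / 2)) D]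
  refine mul_le_mul_of_nonneg_left ?_ hc0
  have hGG : GG ϑ ϑd (RR V e A c j₂) (X / nm y.1) (K / nm (e * A * j₂)) B0 y.2 N
      (fun B j => Cr * (RR V e A c j₂ * 2 ^ j * (X / nm y.1) *
        nm y.2) ^ e1e ε * (2 / 2 ^ j) * ∑ n ∈ dvs y.2, (nm n : ℝ) * F B j n) jm
      (fun u j => Cj * (RR V e A c j₂ * 2 ^ j * (X / nm y.1) * nm y.2 * 2 ^ u) ^ e1e ε *
        (2 / 2 ^ j) * (2 / 2 ^ u) * FJ u j) ≤
      (Cr + 2 * Cj) * L * (gR (X / nm y.1) jm N y.2 F + gJ (X / nm y.1) jm N FJ) := by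
    unfold E2440.GG
    refine (add_le_add hGR hGJ).trans ?_
    have b1 : 0 ≤ 2 * Cj * L * gR (X / nm y.1) jm N y.2 F := by positivity
    have b2 : 0 ≤ Cr * L * gJ (X / nm y.1) jm N FJ := by positivity
    linarith
  have hsum0 : 0 ≤ gR (X / nm y.1) jm N y.2 F + gJ (X / nm y.1) jm N FJ := by linarith
  have hM'0 : 0 ≤ (P ^ M')⁻¹ := by positivity
  rw [hL] at hGG
  exact fin_real hW00 hc4 hCr hCj h40 (by positivity) hsum0 hgT0 hM'0 hWn hW hGG hPJ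

end Crest.Agent.R017.QsJ401
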