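import Crest.Agent.R017.QsJc_401

/-!
# Row 17, block C70, leaf E2 (helper401): the cells of `QsNJ_le`, part 4

* `Qs_cellsJ` : `∑_c ∑_{j₂} Qs`, in terms of separate cells, joint cells and polar cells
-/

set_option autoImplicit false
set_option linter.unusedVariables false

noncomputable section

open Complex
open scoped ComplexConjugate

namespace Crest.Agent.R017.QsJ401

open Crest.Agent.R012 Crest.Agent.R012.Eis
open Crest.Agent.R012.Div277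
open Crest.Agent.R012.Mob705 (pdiv mem_pdiv)
open Crest.Agent.R012.LS2 (S mem_S)
open Crest.Agent.R017.X6C180 (IX dl')
open Crest.Agent.R017.CM106 (sub CS FS)
open Crest.Agent.R017.H1401 (pb mem_pb DN WM WJ)
open Crest.Agent.R017.MoF106 (MoP NX bk mem_bk bk_prim bk_nm_ge sum_bk UU)
open Crest.Agent.R017.E2D401 (MoJ Bj dhJ_H1J dhr_H1v)
open Crest.Agent.R017.E2440

lemma swap3 {ι κ μ : Type*} (T : Finset ι) (Bs : ι → Finset κ) (D : Finset μ) (a : ℝ) (g : μ → ℝ)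
    (F : ι → κ → μ → ℝ) :
    ∑ j ∈ T, ∑ B ∈ Bs j, a * ∑ n ∈ D, g n * F j B n =
      ∑ n ∈ D, a * (g n * ∑ j ∈ T, ∑ B ∈ Bs j, F j B n) := by
  simp only [Finset.mul_sum]
  calc ∑ j ∈ T, ∑ B ∈ Bs j, ∑ n ∈ D, a * (g n * F j B n)
      = ∑ j ∈ T, ∑ n ∈ D, ∑ B ∈ Bs j, a * (g n * F j B n) :=
        Finset.sum_congr rfl fun j _ => Finset.sum_comm
    _ = _ := Finset.sum_comm

open Classical in
/-- the sum of the separate parts -/
lemma sum_gR {T H X V K B0 : ℝ} (hX : 1 ≤ X) (hV : 1 ≤ V) {ν e A c : Eis}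
    (jm : ℕ → ℕ → ℕ → Prop) {N0 : ℕ} (hN : ∀ l, ∀ j₂ ∈ Tb V e A c l, ∀ B ∈ S X,
      Nj T H X V K B0 ν e A c j₂ B ≤ N0) (F : Eis → Eis → ℕ → Eis → ℝ) {M0 : ℝ} (hM0 : 0 ≤ M0)
    (hcell : ∀ l u j, CellN T H X V K B0 ν e A c (jm l) l u j → ∀ n ∈ dvs ν,
      (2 / 2 ^ j : ℝ) * ((nm n : ℝ) * ∑ j₂ ∈ Tb V e A c l, ∑ B ∈ (bk X u).filter
        (fun B => j < Nj T H X V K B0 ν e A c j₂ B ∧ ¬ jm l (blk B) j), F j₂ B j n) ≤ M0) :
    ∑ j₂ ∈ (S (Real.sqrt V)).filter (fun j => 1 ≤ RR V e A c j),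
      gR X (jm (UU j₂)) (Nj T H X V K B0 ν e A c j₂) ν (F j₂) ≤
      (NX (Real.sqrt V)) * (NX X) * N0 * (dvs ν).card * M0 := by
  have h1 := sum_cellN (T := T) (H := H) (K := K) (B0 := B0) hX hV (ν := ν) jm hN
    (fun j₂ B j => (2 / 2 ^ j : ℝ) * ∑ n ∈ dvs ν, (nm n : ℝ) * F j₂ B j n)
    (M0 := (dvs ν).card * M0) (by positivity) (by
      intro l u j hcl
      beta_reduce
      rw [swap3]
      refine (Finset.sum_le_sum fun n hn => hcell l u j hcl n hn).trans (le_of_eq ?_)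
      rw [Finset.sum_const, nsmul_eq_mul])
  refine le_trans (le_of_eq ?_) (h1.trans (le_of_eq (by ring)))
  refine Finset.sum_congr rfl fun j₂ _ => ?_
  unfold gR
  refine Finset.sum_congr rfl fun B _ => ?_
  refine Finset.sum_congr ?_ fun _ _ => rfl
  ext j
  simp only [Finset.mem_filter]

open Classical in
/-- the sum of the joint parts -/
lemma sum_gJ {T H X V K B0 : ℝ} (hX : 1 ≤ X) (hV : 1 ≤ V) {ν e A c : Eis}
    (jm : ℕ → ℕ → ℕ → Prop) {N0 : ℕ} (hN : ∀ l, ∀ j₂ ∈ Tb V e A c l, ∀ B ∈ S X,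
      Nj T H X V K B0 ν e A c j₂ B ≤ N0) (FJ : Eis → ℕ → ℕ → ℝ)
    (hF : ∀ l, ∀ j₂ ∈ Tb V e A c l, ∀ u j, 0 ≤ FJ j₂ u j) {M0 : ℝ} (hM0 : 0 ≤ M0)
    (hcell : ∀ l u j, jm l u j → CellJ T H X V K B0 ν e A c l u j →
      (2 / 2 ^ j : ℝ) * (2 / 2 ^ u) * ∑ j₂ ∈ Tb V e A c l, FJ j₂ u j ≤ M0) :
    ∑ j₂ ∈ (S (Real.sqrt V)).filter (fun j => 1 ≤ RR V e A c j),
      gJ X (jm (UU j₂)) (Nj T H X V K B0 ν e A c j₂) (FJ j₂) ≤
      (NX (Real.sqrt V)) * (bkN X) * N0 * M0 := by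
  have hV1 : 0 ≤ Real.sqrt V := Real.sqrt_nonneg V
  have hmem : ∀ j₂ ∈ (S (Real.sqrt V)).filter (fun j => 1 ≤ RR V e A c j),
      j₂ ∈ Tb V e A c (UU j₂) := by
    intro j₂ hj
    rw [Finset.mem_filter] at hj
    rw [mem_Tb, mem_bk hV1]
    exact ⟨⟨(mem_S hV1).1 hj.1, rfl⟩, hj.2⟩
  have h1 := sum_cellJ (T := T) (H := H) (K := K) (B0 := B0) hX hV (ν := ν) jm hN
    (fun j₂ u j => max 0 ((2 / 2 ^ j : ℝ) * (2 / 2 ^ u) * FJ j₂ u j))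
    (fun _ _ _ => le_max_left _ _) hM0 (by
      intro l u j hj hcl
      refine le_trans (le_of_eq ?_) (hcell l u j hj hcl)
      rw [Finset.mul_sum]
      refine Finset.sum_congr rfl fun j₂ hj₂ => ?_
      exact max_eq_right (mul_nonneg (by positivity) (hF l j₂ hj₂ u j)))
  refine le_trans (Finset.sum_le_sum fun j₂ hj₂ => ?_) h1
  unfold gJ
  refine Finset.sum_le_sum fun u _ => Finset.sum_le_sum fun j _ => ?_
  exact le_max_right _ _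

open Classical in
/-- the sum of the polar parts -/
lemma sum_gT {X V B0 : ℝ} (hX : 1 ≤ X) (hV : 1 ≤ V) {ν e A c : Eis} (α : Eis → ℂ) {M1 : ℝ}
    (hM1 : 0 ≤ M1)
    (hcell : ν = 1 → ∀ l u, (∃ B ∈ bk X u, B0 < nm B) → Real.exp (-(4 / 3) * ((u : ℝ) / 3)) *
      ∑ j₂ ∈ Tb V e A c l, ∑ B ∈ bk X u, ∑ r ∈ (S (RR V e A c j₂)).filter
        (fun r => IsCoprime r ν ∧ RR V e A c j₂ / 2 < nm r), ‖MT α (e * A * j₂) B c r‖ ^ 2 ≤ M1) :
    ∑ j₂ ∈ (S (Real.sqrt V)).filter (fun j => 1 ≤ RR V e A c j),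
      gT (RR V e A c j₂) X B0 ν α (e * A * j₂) c ≤ (NX (Real.sqrt V)) * (NX X) * M1 := by
  by_cases hν : ν = 1
  · refine le_trans (le_of_eq ?_) (sum_cellT (e := e) (A := A) (c := c) hX hV
      (fun j₂ B => ∑ r ∈ (S (RR V e A c j₂)).filter
        (fun r => IsCoprime r ν ∧ RR V e A c j₂ / 2 < nm r), ‖MT α (e * A * j₂) B c r‖ ^ 2)
      (fun _ _ => Finset.sum_nonneg fun _ _ => by positivity) hM1 (hcell hν))
    refine Finset.sum_congr rfl fun j₂ _ => ?_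
    unfold gT
    rw [if_pos hν]
  · refine le_trans (le_of_eq (Finset.sum_eq_zero fun j₂ _ => ?_)) (by positivity)
    unfold gT
    rw [if_neg hν]

set_option maxHeartbeats 1000000 in
open Classical in
/-- **the sums `Qs` over `c` and `j₂`** in terms of the separate, the joint and the polar cells -/
theorem Qs_cellsJ {ε : ℝ} (hε : 0 < ε) (a M' : ℕ) : ∃ (M : ℕ) (C : ℝ), 0 ≤ C ∧
    ∀ (P : ℝ) (Jt : ℕ) (Ft : ℝ → ℂ) (cc H : ℝ) (ϑ ϑd : ℝ → ℝ)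
    (om : ∀ σ : Eis, IX σ → ℝ → ℂ), (∀ σ ∈ C4, KDd σ Jt M Ft cc H ϑ ϑd (om σ)) →
    (∀ y : ℝ, 0 < y → ϑ y ≤ 1) → (∀ y : ℝ, 0 < y → ϑd y ≤ 1) →
    ∀ (X V K B0 : ℝ) (α : Eis → ℂ), FS α →
    (∀ n, α n ≠ 0 → Squarefree n) → (∀ n, α n ≠ 0 → X / 2 < nm n ∧ (nm n : ℝ) ≤ X) →
    (∀ n, ‖α n‖ ≤ P ^ a) → ∀ (δ e A : Eis) (y : Eis × Eis),
    (∀ c ∈ C4, Sz P X V K H δ e A c y) →
    ∀ (jm : Eis → ℕ → ℕ → ℕ → Prop) (F : Eis → Eis → Eis → ℕ → Eis → ℝ)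
    (FJ : Eis → Eis → ℕ → ℕ → ℝ) (M0 M1 : ℝ), 0 ≤ M0 → 0 ≤ M1 →
    (∀ c ∈ C4, ∀ l, ∀ j₂ ∈ Tb V e A c l,
      Hm Jt ε P X V K H B0 α δ e A c y j₂ (jm c l) (F c j₂) (FJ c j₂)) →
    (∀ c ∈ C4, ∀ l u j, CellN (P ^ (ε / 2)) H (X / nm y.1) V K B0 y.2 e A c (jm c l) l u j →
      ∀ n ∈ dvs y.2, (2 / 2 ^ j : ℝ) * ((nm n : ℝ) * ∑ j₂ ∈ Tb V e A c l,
        ∑ B ∈ (bk (X / nm y.1) u).filter (fun B =>
          j < Nj (P ^ (ε / 2)) H (X / nm y.1) V K B0 y.2 e A c j₂ B ∧ ¬ jm c l (blk B) j),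
          F c j₂ B j n) ≤ M0) →
    (∀ c ∈ C4, ∀ l u j, jm c l u j →
      CellJ (P ^ (ε / 2)) H (X / nm y.1) V K B0 y.2 e A c l u j →
      (2 / 2 ^ j : ℝ) * (2 / 2 ^ u) * ∑ j₂ ∈ Tb V e A c l, FJ c j₂ u j ≤ M0) →
    (y.2 = 1 → ∀ c ∈ C4, ∀ l u, (∃ B ∈ bk (X / nm y.1) u, B0 < nm B) →
      Real.exp (-(4 / 3) * ((u : ℝ) / 3)) * ∑ j₂ ∈ Tb V e A c l, ∑ B ∈ bk (X / nm y.1) u,
        ∑ r ∈ (S (RR V e A c j₂)).filter
          (fun r => IsCoprime r y.2 ∧ RR V e A c j₂ / 2 < nm r),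
          ‖MT (ag α δ y.1) (e * A * j₂) B c r‖ ^ 2 ≤ M1) →
    ∑ c ∈ C4, ∑ j₂ ∈ S (Real.sqrt V), Qs α δ e V K Ft y A c j₂ ≤ C * cc ^ 2 * P ^ ε *
      ((V ^ (-(1 : ℝ) / 3) * K ^ ((2 : ℝ) / 3) / nm (e * A)) * M0 +
       (V ^ (-(1 : ℝ) / 3) * K ^ ((2 : ℝ) / 3) / nm (e * A)) ^ 2 * M1 + (P ^ M')⁻¹) := by
  obtain ⟨M, C, hC, hQ⟩ := Qs_one hε a (M' + 1)
  obtain ⟨D, hD, hn⟩ := small_num hε
  refine ⟨M, C4.card * (C * (2 * D + 16)), by positivity, ?_⟩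
  intro P Jt Ft cc H ϑ ϑd om hKD hϑ hϑd X V K B0 α hα hs hsp hαP δ e A y hSz jm F FJ M0 M1 hM0 hM1
    hHm hcN hcJ hcT
  have h1 : (1 : Eis) ∈ C4 := mem_C4.mpr (Or.inl rfl)
  have h := hSz 1 h1
  have hP := h.P1
  have hP0 := h.P0
  have hX1 := h.X1
  have hV1 := h.V1
  have hV0 : 0 < V := by linarith
  have hsV := Real.sqrt_nonneg V
  have hsV1 : 1 ≤ Real.sqrt V := Real.one_le_sqrt.mpr hV1
  have hx0 := h.eA0
  have hK0 := h.K0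
  set W0 : ℝ := V ^ (-(1 : ℝ) / 3) * K ^ ((2 : ℝ) / 3) / nm (e * A) with hW0
  have hW00 : 0 ≤ W0 := by rw [hW0]; positivity
  obtain ⟨n1, n2, n3⟩ := hn P (X / nm y.1) V hP hX1 h.XP' hV1 h.VP y.2 h.y2.ne_zero h.y2P
  have hPe : 0 ≤ P ^ (ε / 4) := by positivity
  have hone : ∀ c ∈ C4, ∑ j₂ ∈ S (Real.sqrt V), Qs α δ e V K Ft y A c j₂ ≤
      C * (2 * D + 16) * cc ^ 2 * P ^ ε * (W0 * M0 + W0 ^ 2 * M1 + (P ^ M')⁻¹) := by
    intro c hc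
    have hcS := hSz c hc
    have e1 : ∑ j₂ ∈ S (Real.sqrt V), Qs α δ e V K Ft y A c j₂ =
        ∑ j₂ ∈ (S (Real.sqrt V)).filter (fun j => 1 ≤ RR V e A c j),
          Qs α δ e V K Ft y A c j₂ := by
      rw [Finset.sum_filter]
      refine Finset.sum_congr rfl fun j₂ _ => ?_
      split_ifs with hR
      · rfl
      · exact Qs_zero (fun n hn => (hsp n hn).2) hV0.le Ft hα h.δp h.hy fun hh => hR hh.1
    rw [e1]
    have e2 : ∀ j₂ ∈ (S (Real.sqrt V)).filter (fun j => 1 ≤ RR V e A c j),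
        Qs α δ e V K Ft y A c j₂ ≤ C * cc ^ 2 * P ^ (ε / 2) *
        (W0 * (P ^ (ε / 8) * (gR (X / nm y.1) (jm c (UU j₂))
          (Nj (P ^ (ε / 2)) H (X / nm y.1) V K B0 y.2 e A c j₂) y.2 (F c j₂) +
         gJ (X / nm y.1) (jm c (UU j₂))
          (Nj (P ^ (ε / 2)) H (X / nm y.1) V K B0 y.2 e A c j₂) (FJ c j₂))) +
         W0 ^ 2 * gT (RR V e A c j₂) (X / nm y.1) B0 y.2 (ag α δ y.1) (e * A * j₂) c +
         (P ^ (M' + 1))⁻¹) := by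
      intro j₂ hj
      rw [Finset.mem_filter] at hj
      have hT : j₂ ∈ Tb V e A c (UU j₂) := by
        rw [mem_Tb, mem_bk hsV]
        exact ⟨⟨(mem_S hsV).1 hj.1, rfl⟩, hj.2⟩
      exact hQ P Jt Ft cc H ϑ ϑd om hKD hϑ hϑd X V K B0 α hα hs hsp hαP δ e A c y hcS j₂ hj.1
        hj.2 (jm c (UU j₂)) (F c j₂) (FJ c j₂) (hHm c hc (UU j₂) j₂ hT)
    have hN : ∀ l, ∀ j₂ ∈ Tb V e A c l, ∀ B ∈ S (X / nm y.1),
        Nj (P ^ (ε / 2)) H (X / nm y.1) V K B0 y.2 e A c j₂ B ≤ N0e ε P := by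
      intro l j₂ hj B hB
      rw [mem_Tb, mem_bk hsV] at hj
      exact hcS.shells hε ((mem_S hsV).2 hj.1.1) hj.2 hB
    have g1 := sum_gR (H := H) (K := K) (B0 := B0) (T := P ^ (ε / 2)) hX1 hV1 (jm c) hN (F c) hM0
      (fun l u j hcl n hn => hcN c hc l u j hcl n hn)
    have g2 := sum_gJ (H := H) (K := K) (B0 := B0) (T := P ^ (ε / 2)) hX1 hV1 (jm c) hN (FJ c)
      (fun l j₂ hj u j => (hHm c hc l j₂ hj).FJ0 u j) hM0
      (fun l u j hj hcl => hcJ c hc l u j hj hcl)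
    have g3 := sum_gT (e := e) (A := A) (c := c) (B0 := B0) (ν := y.2) hX1 hV1 (ag α δ y.1) hM1
      (fun hy l u hB => hcT hy c hc l u hB)
    have g4 : (((S (Real.sqrt V)).filter (fun j => 1 ≤ RR V e A c j)).card : ℝ) ≤ 16 * P := by
      have h5 : (((S (Real.sqrt V)).filter (fun j => 1 ≤ RR V e A c j)).card : ℝ) ≤
          (S (Real.sqrt V)).card := by exact_mod_cast Finset.card_filter_le _ _
      have h6 := GLS106.card_S_le hsV1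
      have h7 : Real.sqrt V ≤ P := by
        have h8 := Real.sqrt_le_sqrt (show V ≤ V ^ 2 by nlinarith)
        rw [Real.sqrt_sq hV0.le] at h8
        linarith [h.VP]
      linarith
    refine (Finset.sum_le_sum e2).trans ?_
    rw [← Finset.mul_sum, Finset.sum_add_distrib, Finset.sum_add_distrib, ← Finset.mul_sum,
      ← Finset.mul_sum, ← Finset.mul_sum, Finset.sum_add_distrib, Finset.sum_const, nsmul_eq_mul]
    set G1 : ℝ := ∑ j₂ ∈ (S (Real.sqrt V)).filter (fun j => 1 ≤ RR V e A c j),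
      gR (X / nm y.1) (jm c (UU j₂)) (Nj (P ^ (ε / 2)) H (X / nm y.1) V K B0 y.2 e A c j₂) y.2
        (F c j₂)
    set G2 : ℝ := ∑ j₂ ∈ (S (Real.sqrt V)).filter (fun j => 1 ≤ RR V e A c j),
      gJ (X / nm y.1) (jm c (UU j₂)) (Nj (P ^ (ε / 2)) H (X / nm y.1) V K B0 y.2 e A c j₂)
        (FJ c j₂)
    set G3 : ℝ := ∑ j₂ ∈ (S (Real.sqrt V)).filter (fun j => 1 ≤ RR V e A c j),
      gT (RR V e A c j₂) (X / nm y.1) B0 y.2 (ag α δ y.1) (e * A * j₂) c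
    set G4 : ℝ := (((S (Real.sqrt V)).filter (fun j => 1 ≤ RR V e A c j)).card : ℝ)
    have k1 : G1 ≤ D * P ^ (ε / 4) * M0 := g1.trans (mul_le_mul_of_nonneg_right n1 hM0)
    have k2 : G2 ≤ D * P ^ (ε / 4) * M0 := g2.trans (mul_le_mul_of_nonneg_right n2 hM0)
    have k3 : G3 ≤ D * P ^ (ε / 4) * M1 := g3.trans (mul_le_mul_of_nonneg_right n3 hM1)
    have k4 : G4 * (P ^ (M' + 1))⁻¹ ≤ 16 * (P ^ M')⁻¹ := by
      have : (P ^ (M' + 1))⁻¹ = P⁻¹ * (P ^ M')⁻¹ := by rw [pow_succ, mul_inv, mul_comm]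
      rw [this]
      have h9 : 0 ≤ (P ^ M')⁻¹ := by positivity
      calc G4 * (P⁻¹ * (P ^ M')⁻¹) ≤ (16 * P) * (P⁻¹ * (P ^ M')⁻¹) :=
            mul_le_mul_of_nonneg_right g4 (by positivity)
        _ = 16 * (P ^ M')⁻¹ := by field_simp
    have p1 : 1 ≤ P ^ (ε / 8) := Real.one_le_rpow hP (by linarith)
    have p2 : 1 ≤ P ^ (ε / 4) := Real.one_le_rpow hP (by linarith)
    have p3 : P ^ (ε / 2) * (P ^ (ε / 8) * P ^ (ε / 4)) ≤ P ^ ε := by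
      rw [← Real.rpow_add hP0, ← Real.rpow_add hP0]
      exact Real.rpow_le_rpow_of_exponent_le hP (by linarith)
    have h9 : 0 ≤ (P ^ M')⁻¹ := by positivity
    have hD0 : 0 ≤ D := by linarith
    calc C * cc ^ 2 * P ^ (ε / 2) * (W0 * (P ^ (ε / 8) * (G1 + G2)) + W0 ^ 2 * G3 +
          G4 * (P ^ (M' + 1))⁻¹)
        ≤ C * cc ^ 2 * P ^ (ε / 2) * (W0 * (P ^ (ε / 8) * (D * P ^ (ε / 4) * M0 +
          D * P ^ (ε / 4) * M0)) + W0 ^ 2 * (D * P ^ (ε / 4) * M1) + 16 * (P ^ M')⁻¹) := by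
          gcongr
      _ ≤ C * cc ^ 2 * P ^ (ε / 2) * ((P ^ (ε / 8) * P ^ (ε / 4)) * ((2 * D + 16) *
          (W0 * M0 + W0 ^ 2 * M1 + (P ^ M')⁻¹))) := by
          refine mul_le_mul_of_nonneg_left ?_ (by positivity)
          have q1 : W0 ^ 2 * (D * P ^ (ε / 4) * M1) ≤
              (P ^ (ε / 8) * P ^ (ε / 4)) * ((2 * D + 16) * (W0 ^ 2 * M1)) := by
            calc W0 ^ 2 * (D * P ^ (ε / 4) * M1) = (1 * P ^ (ε / 4)) * (D * (W0 ^ 2 * M1)) := by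
                  ring
              _ ≤ _ := by
                  gcongr
                  linarith
          have q2 : 16 * (P ^ M')⁻¹ ≤
              (P ^ (ε / 8) * P ^ (ε / 4)) * ((2 * D + 16) * (P ^ M')⁻¹) := by
            calc 16 * (P ^ M')⁻¹ = (1 * 1) * (16 * (P ^ M')⁻¹) := by ring
              _ ≤ _ := by
                  gcongr
                  linarith
          have q3 : W0 * (P ^ (ε / 8) * (D * P ^ (ε / 4) * M0 + D * P ^ (ε / 4) * M0)) ≤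
              (P ^ (ε / 8) * P ^ (ε / 4)) * ((2 * D + 16) * (W0 * M0)) := by
            calc W0 * (P ^ (ε / 8) * (D * P ^ (ε / 4) * M0 + D * P ^ (ε / 4) * M0)) =
                  (P ^ (ε / 8) * P ^ (ε / 4)) * ((2 * D) * (W0 * M0)) := by ring
              _ ≤ _ := by
                  gcongr
                  linarith
          calc _ ≤ (P ^ (ε / 8) * P ^ (ε / 4)) * ((2 * D + 16) * (W0 * M0)) +
                (P ^ (ε / 8) * P ^ (ε / 4)) * ((2 * D + 16) * (W0 ^ 2 * M1)) +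
                (P ^ (ε / 8) * P ^ (ε / 4)) * ((2 * D + 16) * (P ^ M')⁻¹) :=
                add_le_add (add_le_add q3 q1) q2
            _ = _ := by ring
      _ = (P ^ (ε / 2) * (P ^ (ε / 8) * P ^ (ε / 4))) * (C * cc ^ 2 * ((2 * D + 16) *
          (W0 * M0 + W0 ^ 2 * M1 + (P ^ M')⁻¹))) := by ring
      _ ≤ P ^ ε * (C * cc ^ 2 * ((2 * D + 16) * (W0 * M0 + W0 ^ 2 * M1 + (P ^ M')⁻¹))) := by
          gcongr
      _ = _ := by ring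
  refine (Finset.sum_le_sum hone).trans (le_of_eq ?_)
  rw [Finset.sum_const, nsmul_eq_mul]
  ring

end Crest.Agent.R017.QsJ401
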