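import Crest.Agent.R017.QsJf_401

/-!
# Row 17, block C70, leaf E2 (helper401): joint cells with a principal part, part 2

* `Hmx` : the hypotheses on the moments
* `Qs_onex` : one `j₂`
-/

set_option autoImplicit false
set_option linter.unusedVariables false

noncomputable section

open Complex
open scoped ComplexConjugate

namespace Crest.Agent.R017.QsJ401

open Crest.Agent.R012 Crest.Agent.R012.Eis
open Crest.Agent.R012.Div277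
open Crest.Agent.R012.Mob705 (pdiv mem_pdiv)
open Crest.Agent.R012.LS2 (S mem_S)
open Crest.Agent.R017.X6C180 (IX dl')
open Crest.Agent.R017.CM106 (sub CS FS)
open Crest.Agent.R017.H1401 (pb mem_pb DN WM WJ)
open Crest.Agent.R017.MoF106 (MoP NX bk mem_bk bk_prim bk_nm_ge sum_bk UU)
open Crest.Agent.R017.E2D401 (MoJ Bj dhJ_H1J dhr_H1v)
open Crest.Agent.R017.E2440
open Crest.Agent.R017.GKC739 (MTs PTs MTs_nonneg)

open Classical in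
/-- the separate shells -/
lemma GR_split {ϑ ϑd : ℝ → ℝ} (hθ : ∀ x : ℝ, 0 < x → 0 ≤ ϑ x ∧ ϑ x ≤ 1)
    (hθd : ∀ x : ℝ, 0 < x → 0 ≤ ϑd x ∧ ϑd x ≤ 1)
    {R X A B0 : ℝ} (hR : 0 < R) (hX : 0 < X) (hA : 0 < A) {ν : Eis} (hν : ν ≠ 0)
    {N : Eis → ℕ} {jm : ℕ → ℕ → Prop} {cr : Eis → ℕ → ℝ} {L : ℝ}
    (hcr : ∀ B ∈ S X, ∀ j < N B, cr B j ≤ L) (hcr0 : ∀ B ∈ S X, ∀ j < N B, 0 ≤ cr B j)
    {F : Eis → ℕ → Eis → ℝ} (hF : ∀ B j n, 0 ≤ F B j n) {Ex : Eis → ℕ → ℝ}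
    (hEx : ∀ B j, 0 ≤ Ex B j) :
    GR ϑ ϑd R X A B0 ν N (fun B j => ¬ jm (blk B) j)
      (fun B j => cr B j * (2 / 2 ^ j) * (∑ n ∈ dvs ν, (nm n : ℝ) * F B j n + Ex B j)) ≤
      L * gR X jm N ν F + L * GKd ϑ ϑd R X A B0 ν N (fun B j => (2 / 2 ^ j) * Ex B j) := by
  have hν0 : (0 : ℝ) < nm ν := by exact_mod_cast nm_pos.mpr hν
  have hwB : ∀ B ∈ S X, ∀ j, wB ϑ ϑd R X A B0 ν B j ≤ 1 := by
    intro B hB j
    have hb : (0 : ℝ) < nm B := by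
      exact_mod_cast nm_pos.mpr ((mem_S hX.le).1 hB).2.1.ne_zero
    unfold wB
    split_ifs
    · obtain ⟨a, b⟩ := hθ (R * (nm ν : ℝ) ^ 2 * (X / nm B) / (A / (nm B : ℝ) ^ 2 * 2 ^ j))
        (by positivity)
      exact pow_le_one₀ a b
    · obtain ⟨a, b⟩ := hθd (2 ^ j / (A / (nm B : ℝ) ^ 2)) (by positivity)
      exact pow_le_one₀ a b
  have e1 : GR ϑ ϑd R X A B0 ν N (fun B j => ¬ jm (blk B) j)
      (fun B j => cr B j * (2 / 2 ^ j) * (∑ n ∈ dvs ν, (nm n : ℝ) * F B j n + Ex B j)) =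
      ∑ B ∈ S X, ∑ j ∈ (Finset.range (N B)).filter (fun j => ¬ jm (blk B) j),
        wB ϑ ϑd R X A B0 ν B j *
          (cr B j * (2 / 2 ^ j) * (∑ n ∈ dvs ν, (nm n : ℝ) * F B j n + Ex B j)) := by
    unfold E2440.GR wB
    refine Finset.sum_congr rfl fun B _ => Finset.sum_congr ?_ fun _ _ => rfl
    ext j
    simp only [Finset.mem_filter]
  rw [e1, GKd_eq]
  unfold gR
  rw [Finset.mul_sum, Finset.mul_sum, ← Finset.sum_add_distrib]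
  refine Finset.sum_le_sum fun B hB => ?_
  have h2 : ∑ j ∈ (Finset.range (N B)).filter (fun j => ¬ jm (blk B) j),
      wB ϑ ϑd R X A B0 ν B j * (cr B j * (2 / 2 ^ j) *
        (∑ n ∈ dvs ν, (nm n : ℝ) * F B j n + Ex B j)) ≤
      ∑ j ∈ (Finset.range (N B)).filter (fun j => ¬ jm (blk B) j),
        (L * ((2 / 2 ^ j) * ∑ n ∈ dvs ν, (nm n : ℝ) * F B j n) +
          L * (wB ϑ ϑd R X A B0 ν B j * ((2 / 2 ^ j) * Ex B j))) := by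
    refine Finset.sum_le_sum fun j hj => ?_
    rw [Finset.mem_filter, Finset.mem_range] at hj
    have k1 := hcr B hB j hj.1
    have k0 := hcr0 B hB j hj.1
    have k2 := hwB B hB j
    have k3 := wB_nonneg ϑ ϑd R X A B0 ν B j
    have k4 : 0 ≤ (2 / 2 ^ j : ℝ) * ∑ n ∈ dvs ν, (nm n : ℝ) * F B j n :=
      mul_nonneg (by positivity) (Finset.sum_nonneg fun n _ => mul_nonneg (Nat.cast_nonneg _)
        (hF _ _ _))
    have k5 : 0 ≤ (2 / 2 ^ j : ℝ) * Ex B j := mul_nonneg (by positivity) (hEx B j)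
    have k6 : wB ϑ ϑd R X A B0 ν B j * cr B j ≤ L := by
      calc _ ≤ 1 * cr B j := mul_le_mul_of_nonneg_right k2 k0
        _ ≤ L := by rw [one_mul]; exact k1
    calc _ = (wB ϑ ϑd R X A B0 ν B j * cr B j) *
          ((2 / 2 ^ j) * ∑ n ∈ dvs ν, (nm n : ℝ) * F B j n) +
          cr B j * (wB ϑ ϑd R X A B0 ν B j * ((2 / 2 ^ j) * Ex B j)) := by ring
      _ ≤ _ := add_le_add (mul_le_mul_of_nonneg_right k6 k4)
          (mul_le_mul_of_nonneg_right k1 (mul_nonneg k3 k5))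
  refine h2.trans ?_
  rw [Finset.sum_add_distrib, ← Finset.mul_sum, ← Finset.mul_sum]
  refine add_le_add le_rfl ?_
  by_cases hne : (Finset.range (N B)).Nonempty
  · obtain ⟨j₀, hj₀⟩ := hne
    have hL : 0 ≤ L := (hcr0 B hB j₀ (Finset.mem_range.mp hj₀)).trans
      (hcr B hB j₀ (Finset.mem_range.mp hj₀))
    refine mul_le_mul_of_nonneg_left ?_ hL
    exact Finset.sum_le_sum_of_subset_of_nonneg (Finset.filter_subset _ _) fun j _ _ =>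
      mul_nonneg (wB_nonneg _ _ _ _ _ _ _ _ _) (mul_nonneg (by positivity) (hEx B j))
  · rw [Finset.not_nonempty_iff_eq_empty] at hne
    rw [hne]
    simp

open Classical in
/-- the joint shells -/
lemma GJ_split {ϑ ϑd : ℝ → ℝ} {Cd : ℝ} (hCd : 0 ≤ Cd)
    (hθ : ∀ x : ℝ, 0 < x → 0 ≤ ϑ x ∧ ϑ x ≤ 1) (hθd : ∀ x : ℝ, 0 < x → 0 ≤ ϑd x ∧ ϑd x ≤ 1)
    (h1 : ∀ x y : ℝ, 0 < x → 0 < y → x ≤ 4 * y → y ≤ 4 * x → ϑ x ≤ Cd * ϑ y)
    (h2 : ∀ x y : ℝ, 0 < x → 0 < y → x ≤ 4 * y → y ≤ 4 * x → ϑd x ≤ Cd * ϑd y)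
    {R X A B0 : ℝ} (hR : 0 < R) (hX : 0 < X) (hA : 0 < A) {ν : Eis} (hν : ν ≠ 0)
    {N : Eis → ℕ} {jm : ℕ → ℕ → Prop}
    (hnc : ∀ u j, jm u j → (Bj X N u j).Nonempty → ¬ ((2 : ℝ) ^ u / 2 < B0 ∧ B0 < 2 ^ u))
    {cr : ℕ → ℕ → ℝ} {L : ℝ} (hL : 0 ≤ L) (hcr : ∀ u j, j < NJ N X u → cr u j ≤ L)
    {FJ : ℕ → ℕ → ℝ} (hF : ∀ u j, 0 ≤ FJ u j) {κ : ℝ} (hκ : 0 ≤ κ) {Ex : Eis → ℕ → ℝ}
    (hEx : ∀ B j, 0 ≤ Ex B j) :
    GJ ϑ ϑd R X A B0 ν N jm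
      (fun u j => cr u j * (2 / 2 ^ j) * (2 / 2 ^ u) *
        (FJ u j + κ * 2 ^ u * ∑ B ∈ Bj X N u j, Ex B j)) ≤
      2 * L * gJ X jm N FJ +
        2 * κ * L * Cd ^ 2 * GKd ϑ ϑd R X A B0 ν N (fun B j => (2 / 2 ^ j) * Ex B j) := by
  have hν0 : (0 : ℝ) < nm ν := by exact_mod_cast nm_pos.mpr hν
  have h3 := GJ_Ex hCd (fun x hx => (hθ x hx).1) (fun x hx => (hθd x hx).1) h1 h2 hR hX hA hν N jm
    hnc hEx
  have h4 : GJ ϑ ϑd R X A B0 ν N jm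
      (fun u j => cr u j * (2 / 2 ^ j) * (2 / 2 ^ u) *
        (FJ u j + κ * 2 ^ u * ∑ B ∈ Bj X N u j, Ex B j)) ≤
      2 * L * gJ X jm N FJ + 2 * κ * L * ∑ u ∈ Finset.range (bkN X),
        ∑ j ∈ (Finset.range (NJ N X u)).filter (fun j => jm u j),
        tJ ϑ ϑd R X A B0 ν u j * ((2 / 2 ^ j) * ∑ B ∈ Bj X N u j, Ex B j) := by
    unfold E2440.GJ gJ
    rw [Finset.mul_sum, Finset.mul_sum, ← Finset.sum_add_distrib]
    refine Finset.sum_le_sum fun u _ => ?_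
    rw [Finset.mul_sum, Finset.mul_sum, ← Finset.sum_add_distrib]
    refine Finset.sum_le_sum fun j hj => ?_
    rw [Finset.mem_filter, Finset.mem_range] at hj
    have k1 := hcr u j hj.1
    have k3 := tJ_nonneg ϑ ϑd R X A B0 ν u j
    have k2 : tJ ϑ ϑd R X A B0 ν u j ≤ 2 := by
      unfold E2440.tJ
      have a1 : (if (2 : ℝ) ^ u / 2 < B0 then ϑ (R * (nm ν : ℝ) ^ 2 *
          (X * 2 ^ u / 2) / (A * 2 ^ j)) ^ 2 else 0) ≤ 1 := by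
        split_ifs
        · obtain ⟨a, b⟩ := hθ (R * (nm ν : ℝ) ^ 2 * (X * 2 ^ u / 2) / (A * 2 ^ j))
            (by positivity)
          exact pow_le_one₀ a b
        · exact zero_le_one
      have a2 : (if B0 < (2 : ℝ) ^ u then ϑd (2 ^ j / (A / (2 ^ u) ^ 2)) ^ 2
          else 0) ≤ 1 := by
        split_ifs
        · obtain ⟨a, b⟩ := hθd (2 ^ j / (A / (2 ^ u) ^ 2)) (by positivity)
          exact pow_le_one₀ a b
        · exact zero_le_one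
      linarith
    have k4 : 0 ≤ (2 / 2 ^ j : ℝ) * (2 / 2 ^ u) * FJ u j := mul_nonneg (by positivity) (hF _ _)
    have k5 : 0 ≤ (2 / 2 ^ j : ℝ) * ∑ B ∈ Bj X N u j, Ex B j :=
      mul_nonneg (by positivity) (Finset.sum_nonneg fun B _ => hEx B j)
    have e0 : (2 : ℝ) ^ u ≠ 0 := by positivity
    have t1 : tJ ϑ ϑd R X A B0 ν u j * cr u j ≤ 2 * L :=
      (mul_le_mul_of_nonneg_left k1 k3).trans (mul_le_mul_of_nonneg_right k2 hL)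
    have t2 : tJ ϑ ϑd R X A B0 ν u j * cr u j ≤ tJ ϑ ϑd R X A B0 ν u j * L :=
      mul_le_mul_of_nonneg_left k1 k3
    calc _ = (tJ ϑ ϑd R X A B0 ν u j * cr u j) * ((2 / 2 ^ j : ℝ) * (2 / 2 ^ u) * FJ u j) +
          (tJ ϑ ϑd R X A B0 ν u j * cr u j) *
            (2 * κ * ((2 / 2 ^ j : ℝ) * ∑ B ∈ Bj X N u j, Ex B j)) := by
          field_simp
      _ ≤ (2 * L) * ((2 / 2 ^ j : ℝ) * (2 / 2 ^ u) * FJ u j) +
          (tJ ϑ ϑd R X A B0 ν u j * L) *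
            (2 * κ * ((2 / 2 ^ j : ℝ) * ∑ B ∈ Bj X N u j, Ex B j)) :=
          add_le_add (mul_le_mul_of_nonneg_right t1 k4)
            (mul_le_mul_of_nonneg_right t2 (by positivity))
      _ = _ := by ring
  refine h4.trans (add_le_add le_rfl ?_)
  calc _ ≤ 2 * κ * L * (Cd ^ 2 * GKd ϑ ϑd R X A B0 ν N (fun B j => (2 / 2 ^ j) * Ex B j)) :=
        mul_le_mul_of_nonneg_left h3 (by positivity)
    _ = _ := by ring

open Classical in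
/-- the hypotheses on the moments of one `j₂`, with a principal part `Ex` -/
structure Hmx (κ : ℝ) (Jt : ℕ) (ε P X V K H B0 : ℝ) (α : Eis → ℂ) (δ e A c : Eis) (y : Eis × Eis)
    (j₂ : Eis) (jm : ℕ → ℕ → Prop) (F : Eis → ℕ → Eis → ℝ) (FJ : ℕ → ℕ → ℝ)
    (Ex : Eis → ℕ → ℝ) : Prop where
  F0 : ∀ B j n, 0 ≤ F B j n
  FJ0 : ∀ u j, 0 ≤ FJ u j
  Ex0 : ∀ B j, 0 ≤ Ex B j
  mo : ∀ B ∈ S (X / nm y.1), ∀ j < Nj (P ^ (ε / 2)) H (X / nm y.1) V K B0 y.2 e A c j₂ B,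
    ¬ jm (blk B) j → ∀ (i : IX c) (t : ℝ),
    ∑ n ∈ dvs y.2, (nm n : ℝ) * MoP (ag α δ y.1) (e * A * j₂) B (dl' c i) (X / nm y.1) t (2 ^ j)
      (WM (RR V e A c j₂) (2 ^ j / (nm n : ℝ) ^ 3))
      (fun g₂ g₃ d => DN n g₂ g₃ d ∧ (2 : ℝ) ^ j / 2 < nm d) ≤
    (1 + |t|) ^ Jt * (∑ n ∈ dvs y.2, (nm n : ℝ) * F B j n + Ex B j)
  moJ : ∀ u j, jm u j →
    (Bj (X / nm y.1) (Nj (P ^ (ε / 2)) H (X / nm y.1) V K B0 y.2 e A c j₂) u j).Nonempty →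
    ∀ (i : IX c) (t : ℝ),
    MoJ y.2 (ag α δ y.1) (e * A * j₂) (dl' c i) (X / nm y.1) t (RR V e A c j₂) (2 ^ j) (2 ^ u)
      (Bj (X / nm y.1) (Nj (P ^ (ε / 2)) H (X / nm y.1) V K B0 y.2 e A c j₂) u j) ≤
    (1 + |t|) ^ Jt * (FJ u j + κ * 2 ^ u *
      ∑ B ∈ Bj (X / nm y.1) (Nj (P ^ (ε / 2)) H (X / nm y.1) V K B0 y.2 e A c j₂) u j, Ex B j)
  nc : ∀ u j, jm u j →
    (Bj (X / nm y.1) (Nj (P ^ (ε / 2)) H (X / nm y.1) V K B0 y.2 e A c j₂) u j).Nonempty →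
    ¬ ((2 : ℝ) ^ u / 2 < B0 ∧ B0 < 2 ^ u)

lemma fin_realx {W W0 c4 a1 a2 l4 p GGv g gx PJv Mi : ℝ} (hW00 : 0 ≤ W0) (hc4 : 1 ≤ c4)
    (ha1 : 1 ≤ a1) (ha2 : a1 ≤ a2) (hl4 : 1 ≤ l4) (hp : 0 ≤ p) (hg : 0 ≤ g) (hgx : 0 ≤ gx)
    (hPJ : 0 ≤ PJv) (hMi : 0 ≤ Mi) (hWn : 0 ≤ W) (hW : W ≤ W0 * c4)
    (hGG : GGv ≤ a1 * (l4 * p) * g + a2 * (l4 * p) * gx) :
    W * GGv + PJv + Mi ≤ (c4 * (a2 * l4)) *
      (W0 * (p * g) + p * (W * gx) + PJv + Mi) := by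
  have ha : 1 ≤ a2 := ha1.trans ha2
  have hD1 : 1 ≤ c4 * (a2 * l4) :=
    one_le_mul_of_one_le_of_one_le hc4 (one_le_mul_of_one_le_of_one_le ha hl4)
  have t1 : W * GGv ≤ (c4 * (a2 * l4)) * (W0 * (p * g)) + (c4 * (a2 * l4)) * (p * (W * gx)) := by
    calc W * GGv ≤ W * (a1 * (l4 * p) * g + a2 * (l4 * p) * gx) :=
          mul_le_mul_of_nonneg_left hGG hWn
      _ = W * (a1 * (l4 * p) * g) + (a2 * l4) * (p * (W * gx)) := by ring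
      _ ≤ (W0 * c4) * (a2 * (l4 * p) * g) + (c4 * (a2 * l4)) * (p * (W * gx)) := by
          refine add_le_add ?_ ?_
          · have : a1 * (l4 * p) * g ≤ a2 * (l4 * p) * g := by gcongr
            exact (mul_le_mul_of_nonneg_left this hWn).trans
              (mul_le_mul_of_nonneg_right hW (by positivity))
          · refine mul_le_mul_of_nonneg_right ?_ (by positivity)
            exact le_mul_of_one_le_left (by positivity) hc4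
      _ = _ := by ring
  have t2 : PJv ≤ (c4 * (a2 * l4)) * PJv := le_mul_of_one_le_left hPJ hD1
  have t3 : Mi ≤ (c4 * (a2 * l4)) * Mi := le_mul_of_one_le_left hMi hD1
  calc _ ≤ _ := add_le_add (add_le_add t1 t2) t3
    _ = _ := by ring

set_option maxHeartbeats 1000000 in
open Classical in
/-- **one `j₂`**, with a principal part -/
theorem Qs_onex {ε : ℝ} (hε : 0 < ε) (a M' : ℕ) {κ Cd : ℝ} (hκ : 0 ≤ κ) (hCd : 0 ≤ Cd) :
    ∃ (M : ℕ) (C : ℝ), 0 ≤ C ∧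
    ∀ (P : ℝ) (Jt : ℕ) (Ft : ℝ → ℂ) (cc H : ℝ) (ϑ ϑd : ℝ → ℝ)
    (om : ∀ σ : Eis, IX σ → ℝ → ℂ), (∀ σ ∈ C4, KDd σ Jt M Ft cc H ϑ ϑd (om σ)) →
    (∀ y : ℝ, 0 < y → ϑ y ≤ 1) → (∀ y : ℝ, 0 < y → ϑd y ≤ 1) →
    (∀ x y : ℝ, 0 < x → 0 < y → x ≤ 4 * y → y ≤ 4 * x → ϑ x ≤ Cd * ϑ y) →
    (∀ x y : ℝ, 0 < x → 0 < y → x ≤ 4 * y → y ≤ 4 * x → ϑd x ≤ Cd * ϑd y) →
    ∀ (X V K B0 : ℝ) (α : Eis → ℂ), FS α →
    (∀ n, α n ≠ 0 → Squarefree n) → (∀ n, α n ≠ 0 → X / 2 < nm n ∧ (nm n : ℝ) ≤ X) →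
    (∀ n, ‖α n‖ ≤ P ^ a) → ∀ (δ e A c : Eis) (y : Eis × Eis), Sz P X V K H δ e A c y →
    ∀ j₂ ∈ S (Real.sqrt V), 1 ≤ RR V e A c j₂ →
    ∀ (jm : ℕ → ℕ → Prop) (F : Eis → ℕ → Eis → ℝ) (FJ : ℕ → ℕ → ℝ) (Ex : Eis → ℕ → ℝ),
    Hmx κ Jt ε P X V K H B0 α δ e A c y j₂ jm F FJ Ex →
    Qs α δ e V K Ft y A c j₂ ≤ C * cc ^ 2 * P ^ (ε / 2) *
      ((V ^ (-(1 : ℝ) / 3) * K ^ ((2 : ℝ) / 3) / nm (e * A)) * (P ^ (ε / 8) *
        (gR (X / nm y.1) jm (Nj (P ^ (ε / 2)) H (X / nm y.1) V K B0 y.2 e A c j₂) y.2 F +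
         gJ (X / nm y.1) jm (Nj (P ^ (ε / 2)) H (X / nm y.1) V K B0 y.2 e A c j₂) FJ)) +
       P ^ (ε / 8) * (RR V e A c j₂ ^ (-(1 : ℝ) / 3) * (K / nm (e * A * j₂)) ^ ((2 : ℝ) / 3) *
        GKd ϑ ϑd (RR V e A c j₂) (X / nm y.1) (K / nm (e * A * j₂)) B0 y.2
          (Nj (P ^ (ε / 2)) H (X / nm y.1) V K B0 y.2 e A c j₂)
          (fun B j => (2 / 2 ^ j) * Ex B j)) +
       PJ (X / nm y.1) (RR V e A c j₂) (K / nm (e * A * j₂)) B0 y.2 (MTs α δ e V y A c j₂) +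
       (P ^ M')⁻¹) := by
  obtain ⟨M, C, hC, hQ⟩ := QsNJ_leK (show 0 < ε / 2 by linarith) a M'
  obtain ⟨Cj, hCj, hJ⟩ := dhJ_H1J (e1e_pos hε)
  obtain ⟨Cr, hCr, hr⟩ := dhr_H1v (e1e_pos hε)
  have h40 : (1 : ℝ) ≤ 40 ^ e1e ε := Real.one_le_rpow (by norm_num) (e1e_pos hε).le
  have hc4 := one_le_cC4
  set a1 : ℝ := Cr + 2 * Cj with ha1d
  set a2 : ℝ := Cr + 2 * Cj * (1 + κ * Cd ^ 2) with ha2d
  have ha1 : 1 ≤ a1 := by rw [ha1d]; linarith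
  have hCj0 : 0 ≤ Cj := by linarith
  have ha2 : a1 ≤ a2 := by
    have : 0 ≤ 2 * Cj * (κ * Cd ^ 2) := by positivity
    rw [ha1d, ha2d]
    linarith
  refine ⟨M, C * (cC4 * (a2 * 40 ^ e1e ε)), by
    have : 0 ≤ a2 := by linarith
    positivity, ?_⟩
  intro P Jt Ft cc H ϑ ϑd om hKD hϑ hϑd hdb hdbd X V K B0 α hα hs hsp hαP δ e A c y h j₂ hj hR jm
    F FJ Ex hm
  have hP := h.P1
  have hP0 := h.P0
  have hX1 := h.X1
  have hX0 : 0 ≤ X / nm y.1 := by linarith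
  have hXp : 0 < X / nm y.1 := by linarith
  have hjp := h.jprim hj
  have hK0 := h.K0
  have hKj0 := h.Kj0 hj
  have hV0 : 0 < V := by linarith [h.V1]
  have hRp : 0 < RR V e A c j₂ := by linarith
  have hCf := cf_ag hα hs h.δp h.hy
  have hsup : ∀ n, ag α δ y.1 n ≠ 0 → (nm n : ℝ) ≤ X / nm y.1 := by
    intro n hn
    have h2 := hsp _ (ag_ne hn).2
    rw [nm_mul] at h2
    push_cast at h2
    rw [le_div_iff₀ (by linarith [h.n1])]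
    nlinarith [h2.2]
  have hν1 := h.n2
  set N : Eis → ℕ := Nj (P ^ (ε / 2)) H (X / nm y.1) V K B0 y.2 e A c j₂ with hN
  have hN0 : ∀ B ∈ S (X / nm y.1), N B ≤ N0e ε P := fun B hB => h.shells hε hj hR hB
  have hDHJ := hJ (isC_sg (mem_C4.mp h.hc)) Jt hR hX1 (E := e * A * j₂) h.y2 h.y2s hCf hsup
    (N := N) (jm := fun u j => jm u j)
    (Mw := fun u j => FJ u j + κ * 2 ^ u * ∑ B ∈ Bj (X / nm y.1) N u j, Ex B j)
    (fun u j huj i t => by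
      rcases (Bj (X / nm y.1) N u j).eq_empty_or_nonempty with h0 | h0
      · have e0 : MoJ y.2 (ag α δ y.1) (e * A * j₂) (dl' c i) (X / nm y.1) t (RR V e A c j₂)
            (2 ^ j) (2 ^ u) (Bj (X / nm y.1) N u j) = 0 := by
          rw [h0]
          unfold E2D401.MoJ
          simp
        rw [e0]
        have := hm.FJ0 u j
        rw [h0, Finset.sum_empty, mul_zero, add_zero]
        positivity
      · exact hm.moJ u j huj h0 i t)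
  have hDHr := hr (isC_sg (mem_C4.mp h.hc)) Jt hR hX1 (E := e * A * j₂) h.y2 h.y2s hCf hsup
    (N := N) (Pj := fun B j => ¬ jm (blk B) j)
    (Mw := fun B j => ∑ n ∈ dvs y.2, (nm n : ℝ) * F B j n + Ex B j)
    (fun B hB i t j hjN hPj => hm.mo B hB j hjN hPj i t)
  have h1 := hQ P hP Jt Ft cc H ϑ ϑd om hKD h.HP X V K B0 h.XP h.VP hK0 h.KiP h.KP α hα hs hsp hαP
    δ e h.δp h.δs h.δP h.ep h.eP y h.hy A h.hA c h.hc j₂ hjp hR h.yX _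
    (MTs α δ e V y A c j₂) jm _ hDHJ hDHr (fun _ _ _ => by
      unfold GKC739.MTs
      exact le_rfl)
  refine h1.trans ?_
  -- the sizes of the `ε`-factors
  have hRR := h.RR_le hj
  have hXP := h.XP'
  have hy2P := h.y2P
  have hpowN : ∀ j < N0e ε P, RR V e A c j₂ * 2 ^ j * (X / nm y.1) * nm y.2 * (2 * P) ≤
      40 * P ^ b1e ε := by
    intro j hjN
    have h2 := two_pow_N0 hP hjN
    calc RR V e A c j₂ * 2 ^ j * (X / nm y.1) * nm y.2 * (2 * P)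
        ≤ P ^ 3 * (20 * (P ^ cNe ε * P)) * P * P * (2 * P) := by gcongr
      _ = 40 * (P ^ cNe ε * P ^ 7) := by ring
      _ = _ := by unfold b1e; rw [pow_add]
  set L : ℝ := 40 ^ e1e ε * P ^ (ε / 8) with hL
  have hL0 : 0 ≤ L := by rw [hL]; positivity
  have hDr : ∀ B ∈ S (X / nm y.1), ∀ j < N B,
      Cr * (RR V e A c j₂ * 2 ^ j * (X / nm y.1) * nm y.2) ^ e1e ε ≤ Cr * L := by
    intro B hB j hjB
    have hjN := hjB.trans_le (hN0 B hB)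
    refine mul_le_mul_of_nonneg_left (big_pow hε hP (by positivity) (le_trans ?_ (hpowN j hjN)))
      (by linarith)
    refine le_mul_of_one_le_right (by positivity) (by linarith)
  have hDj : ∀ u j, j < NJ N (X / nm y.1) u →
      Cj * (RR V e A c j₂ * 2 ^ j * (X / nm y.1) * nm y.2 * 2 ^ u) ^ e1e ε ≤ Cj * L := by
    intro u j hj'
    have hjN := hj'.trans_le (NJ_le hN0 u)
    unfold E2440.NJ at hj'
    rw [Finset.lt_sup_iff] at hj'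
    obtain ⟨B, hB, hB2⟩ := hj'
    rw [Finset.mem_filter, mem_S hX0] at hB
    have h3 := blk_lt hB.1.2.1.ne_zero
    rw [hB.2] at h3
    refine mul_le_mul_of_nonneg_left (big_pow hε hP (by positivity) (le_trans ?_ (hpowN j hjN)))
      hCj0
    refine mul_le_mul_of_nonneg_left ?_ (by positivity)
    linarith [hB.1.1]
  have hth : ∀ z : ℝ, 0 < z → 0 ≤ ϑ z ∧ ϑ z ≤ 1 := fun z hz =>
    ⟨(hKD c h.hc).kd.th0 z hz, hϑ z hz⟩
  have hthd : ∀ z : ℝ, 0 < z → 0 ≤ ϑd z ∧ ϑd z ≤ 1 := fun z hz =>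
    ⟨(hKD c h.hc).d0 z hz, hϑd z hz⟩
  have hF0 := hm.F0
  have hFJ0 := hm.FJ0
  have hEx0 := hm.Ex0
  have hGR := GR_split (B0 := B0) (cr := fun _ j => Cr * (RR V e A c j₂ * 2 ^ j * (X / nm y.1) *
      nm y.2) ^ e1e ε) hth hthd hRp hXp hKj0 h.y2.ne_zero (jm := jm) hDr
      (fun B _ j _ => by
        have : 0 ≤ Cr := by linarith
        positivity) hF0 hEx0
  have hGJ := GJ_split (B0 := B0) (cr := fun u j => Cj * (RR V e A c j₂ * 2 ^ j * (X / nm y.1) *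
      nm y.2 * 2 ^ u) ^ e1e ε) hCd hth hthd hdb hdbd hRp hXp hKj0 h.y2.ne_zero (jm := jm)
      hm.nc (mul_nonneg hCj0 hL0) hDj hFJ0 hκ hEx0
  have hgR0 : 0 ≤ gR (X / nm y.1) jm N y.2 F := by
    unfold gR
    exact Finset.sum_nonneg fun B _ => Finset.sum_nonneg fun j _ => mul_nonneg (by positivity)
      (Finset.sum_nonneg fun n _ => mul_nonneg (Nat.cast_nonneg _) (hF0 _ _ _))
  have hgJ0 : 0 ≤ gJ (X / nm y.1) jm N FJ := by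
    unfold gJ
    exact Finset.sum_nonneg fun u _ => Finset.sum_nonneg fun j _ => mul_nonneg (by positivity)
      (hFJ0 _ _)
  have hgx0 : 0 ≤ GKd ϑ ϑd (RR V e A c j₂) (X / nm y.1) (K / nm (e * A * j₂)) B0 y.2 N
      (fun B j => (2 / 2 ^ j) * Ex B j) := by
    rw [GKd_eq]
    exact Finset.sum_nonneg fun B _ => Finset.sum_nonneg fun j _ =>
      mul_nonneg (wB_nonneg _ _ _ _ _ _ _ _ _) (mul_nonneg (by positivity) (hEx0 B j))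
  have hPJ0 : 0 ≤ PJ (X / nm y.1) (RR V e A c j₂) (K / nm (e * A * j₂)) B0 y.2
      (MTs α δ e V y A c j₂) :=
    GKC739.PJ_nn hRp.le hKj0.le fun B => MTs_nonneg _ _ _ _ _ _ _ _ _
  set W0 : ℝ := V ^ (-(1 : ℝ) / 3) * K ^ ((2 : ℝ) / 3) / nm (e * A) with hW0
  have hx0 : (0 : ℝ) < nm (e * A) := h.eA0
  have hW00 : 0 ≤ W0 := by rw [hW0]; positivity
  have hW : RR V e A c j₂ ^ (-(1 : ℝ) / 3) * (K / nm (e * A * j₂)) ^ ((2 : ℝ) / 3) ≤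
      W0 * cC4 := by
    rw [RR_norm hV0 hK0 h.ep.ne_zero h.Ap.ne_zero (C4_ne h.hc) hjp.ne_zero]
    exact mul_le_mul_of_nonneg_left (cC_third h.hc) hW00
  have hWn : 0 ≤ RR V e A c j₂ ^ (-(1 : ℝ) / 3) * (K / nm (e * A * j₂)) ^ ((2 : ℝ) / 3) := by
    positivity
  have hc0 : 0 ≤ C * cc ^ 2 * P ^ (ε / 2) := by positivity
  rw [show C * (cC4 * (a2 * 40 ^ e1e ε)) * cc ^ 2 * P ^ (ε / 2) =
    C * cc ^ 2 * P ^ (ε / 2) * (cC4 * (a2 * 40 ^ e1e ε)) by ring,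
    mul_assoc (C * cc ^ 2 * P ^ (ε / 2)) (cC4 * (a2 * 40 ^ e1e ε))]
  refine mul_le_mul_of_nonneg_left ?_ hc0
  set gx : ℝ := GKd ϑ ϑd (RR V e A c j₂) (X / nm y.1) (K / nm (e * A * j₂)) B0 y.2 N
      (fun B j => (2 / 2 ^ j) * Ex B j) with hgx
  set gr : ℝ := gR (X / nm y.1) jm N y.2 F with hgr
  set gj : ℝ := gJ (X / nm y.1) jm N FJ with hgj
  have hsum0 : 0 ≤ gr + gj := by linarith
  have hM'0 : 0 ≤ (P ^ M')⁻¹ := by positivity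
  refine fin_realx (p := P ^ (ε / 8)) (g := gr + gj) (gx := gx) hW00 hc4 ha1 ha2 h40
    (by positivity) hsum0 hgx0 hPJ0 hM'0 hWn hW ?_
  unfold E2440.GG
  refine (add_le_add hGR hGJ).trans ?_
  rw [← hL]
  have b1 : 0 ≤ 2 * Cj * L * gr := by positivity
  have b2 : 0 ≤ Cr * L * gj := by
    have : 0 ≤ Cr := by linarith
    positivity
  have b3 : 0 ≤ 2 * Cj * L * gx := by positivity
  rw [ha1d, ha2d]
  nlinarith

end Crest.Agent.R017.QsJ401
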