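import Crest.Agent.R017.QsJg_401

/-!
# Row 17, block C70, leaf E2 (helper401): joint cells with a principal part, part 3

* `Qs_cellsJx` : `∑_c ∑_{j₂} Qs`, separate and joint cells, principal part and polar sum kept
-/

set_option autoImplicit false
set_option linter.unusedVariables false

noncomputable section

open Complex
open scoped ComplexConjugate

namespace Crest.Agent.R017.QsJ401

open Crest.Agent.R012 Crest.Agent.R012.Eis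
open Crest.Agent.R012.Div277
open Crest.Agent.R012.Mob705 (pdiv mem_pdiv)
open Crest.Agent.R012.LS2 (S mem_S)
open Crest.Agent.R017.X6C180 (IX dl')
open Crest.Agent.R017.CM106 (sub CS FS)
open Crest.Agent.R017.H1401 (pb mem_pb DN WM WJ)
open Crest.Agent.R017.MoF106 (MoP NX bk mem_bk bk_prim bk_nm_ge sum_bk UU)
open Crest.Agent.R017.E2D401 (MoJ Bj)
open Crest.Agent.R017.E2440
open Crest.Agent.R017.GKC739 (MTs PTs MTs_nonneg)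

set_option maxHeartbeats 1000000 in
open Classical in
/-- **the sums `Qs` over `c` and `j₂`** : separate cells `F`, joint cells `FJ`, principal part `Ex`
with the weights kept, polar sum `PTs` kept -/
theorem Qs_cellsJx {ε : ℝ} (hε : 0 < ε) (a M' : ℕ) {κ Cd : ℝ} (hκ : 0 ≤ κ) (hCd : 0 ≤ Cd) :
    ∃ (M : ℕ) (C : ℝ), 0 ≤ C ∧
    ∀ (P : ℝ) (Jt : ℕ) (Ft : ℝ → ℂ) (cc H : ℝ) (ϑ ϑd : ℝ → ℝ)
    (om : ∀ σ : Eis, IX σ → ℝ → ℂ), (∀ σ ∈ C4, KDd σ Jt M Ft cc H ϑ ϑd (om σ)) →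
    (∀ y : ℝ, 0 < y → ϑ y ≤ 1) → (∀ y : ℝ, 0 < y → ϑd y ≤ 1) →
    (∀ x y : ℝ, 0 < x → 0 < y → x ≤ 4 * y → y ≤ 4 * x → ϑ x ≤ Cd * ϑ y) →
    (∀ x y : ℝ, 0 < x → 0 < y → x ≤ 4 * y → y ≤ 4 * x → ϑd x ≤ Cd * ϑd y) →
    ∀ (X V K B0 : ℝ) (α : Eis → ℂ), FS α →
    (∀ n, α n ≠ 0 → Squarefree n) → (∀ n, α n ≠ 0 → X / 2 < nm n ∧ (nm n : ℝ) ≤ X) →
    (∀ n, ‖α n‖ ≤ P ^ a) → ∀ (δ e A : Eis) (y : Eis × Eis),
    (∀ c ∈ C4, Sz P X V K H δ e A c y) →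
    ∀ (jm : Eis → ℕ → ℕ → ℕ → Prop) (F : Eis → Eis → Eis → ℕ → Eis → ℝ)
    (FJ : Eis → Eis → ℕ → ℕ → ℝ) (Ex : Eis → Eis → Eis → ℕ → ℝ) (M0 : ℝ), 0 ≤ M0 →
    (∀ c ∈ C4, ∀ l, ∀ j₂ ∈ Tb V e A c l,
      Hmx κ Jt ε P X V K H B0 α δ e A c y j₂ (jm c l) (F c j₂) (FJ c j₂) (Ex c j₂)) →
    (∀ c ∈ C4, ∀ l u j, CellN (P ^ (ε / 2)) H (X / nm y.1) V K B0 y.2 e A c (jm c l) l u j →
      ∀ n ∈ dvs y.2, (2 / 2 ^ j : ℝ) * ((nm n : ℝ) * ∑ j₂ ∈ Tb V e A c l,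
        ∑ B ∈ (bk (X / nm y.1) u).filter (fun B =>
          j < Nj (P ^ (ε / 2)) H (X / nm y.1) V K B0 y.2 e A c j₂ B ∧ ¬ jm c l (blk B) j),
          F c j₂ B j n) ≤ M0) →
    (∀ c ∈ C4, ∀ l u j, jm c l u j →
      CellJ (P ^ (ε / 2)) H (X / nm y.1) V K B0 y.2 e A c l u j →
      (2 / 2 ^ j : ℝ) * (2 / 2 ^ u) * ∑ j₂ ∈ Tb V e A c l, FJ c j₂ u j ≤ M0) →
    ∑ c ∈ C4, ∑ j₂ ∈ S (Real.sqrt V), Qs α δ e V K Ft y A c j₂ ≤ C * cc ^ 2 * P ^ (ε / 2) *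
      (P ^ (ε / 2) * (V ^ (-(1 : ℝ) / 3) * K ^ ((2 : ℝ) / 3) / nm (e * A) * M0 +
        ∑ c ∈ C4, ∑ j₂ ∈ (S (Real.sqrt V)).filter (fun j₂ => 1 ≤ RR V e A c j₂),
          RR V e A c j₂ ^ (-(1 : ℝ) / 3) * (K / nm (e * A * j₂)) ^ ((2 : ℝ) / 3) *
            GKd ϑ ϑd (RR V e A c j₂) (X / nm y.1) (K / nm (e * A * j₂)) B0 y.2
              (NBf (P ^ (ε / 2)) H (X / nm y.1) (RR V e A c j₂) (K / nm (e * A * j₂)) B0 y.2)
              (fun B j => (2 / 2 ^ j) * Ex c j₂ B j) + (P ^ M')⁻¹) +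
        PTs α δ e V K X B0 y A) := by
  obtain ⟨M, C, hC, hQ⟩ := Qs_onex hε a (M' + 1) hκ hCd
  obtain ⟨D, hD, hn⟩ := small_num hε
  refine ⟨M, C * (2 * D + 16) * (C4.card + 1), by positivity, ?_⟩
  intro P Jt Ft cc H ϑ ϑd om hKD hϑ hϑd hdb hdbd X V K B0 α hα hs hsp hαP δ e A y hSz jm F FJ Ex M0
    hM0 hHm hcN hcJ
  have h1 : (1 : Eis) ∈ C4 := mem_C4.mpr (Or.inl rfl)
  have h := hSz 1 h1
  have hP := h.P1
  have hP0 := h.P0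
  have hX1 := h.X1
  have hV1 := h.V1
  have hV0 : 0 < V := by linarith
  have hsV := Real.sqrt_nonneg V
  have hsV1 : 1 ≤ Real.sqrt V := Real.one_le_sqrt.mpr hV1
  have hx0 := h.eA0
  have hK0 := h.K0
  set W0 : ℝ := V ^ (-(1 : ℝ) / 3) * K ^ ((2 : ℝ) / 3) / nm (e * A) with hW0
  have hW00 : 0 ≤ W0 := by rw [hW0]; positivity
  obtain ⟨n1, n2, -⟩ := hn P (X / nm y.1) V hP hX1 h.XP' hV1 h.VP y.2 h.y2.ne_zero h.y2P
  have hPe : 0 ≤ P ^ (ε / 4) := by positivity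
  have p1 : 1 ≤ P ^ (ε / 8) := Real.one_le_rpow hP (by linarith)
  have p2 : 1 ≤ P ^ (ε / 4) := Real.one_le_rpow hP (by linarith)
  have p3 : P ^ (ε / 8) * P ^ (ε / 4) ≤ P ^ (ε / 2) := by
    rw [← Real.rpow_add hP0]
    exact Real.rpow_le_rpow_of_exponent_le hP (by linarith)
  have p4 : P ^ (ε / 8) ≤ P ^ (ε / 2) :=
    Real.rpow_le_rpow_of_exponent_le hP (by linarith)
  have p5 : 1 ≤ P ^ (ε / 2) := Real.one_le_rpow hP (by linarith)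
  have h9 : 0 ≤ (P ^ M')⁻¹ := by positivity
  have hD0 : 0 ≤ D := by linarith
  set gx : Eis → Eis → ℝ := fun c j₂ =>
    RR V e A c j₂ ^ (-(1 : ℝ) / 3) * (K / nm (e * A * j₂)) ^ ((2 : ℝ) / 3) *
      GKd ϑ ϑd (RR V e A c j₂) (X / nm y.1) (K / nm (e * A * j₂)) B0 y.2
        (NBf (P ^ (ε / 2)) H (X / nm y.1) (RR V e A c j₂) (K / nm (e * A * j₂)) B0 y.2)
        (fun B j => (2 / 2 ^ j) * Ex c j₂ B j) with hgx
  set gp : Eis → Eis → ℝ := fun c j₂ =>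
    PJ (X / nm y.1) (RR V e A c j₂) (K / nm (e * A * j₂)) B0 y.2 (MTs α δ e V y A c j₂) with hgp
  have hTmem : ∀ c, ∀ j₂ ∈ (S (Real.sqrt V)).filter (fun j => 1 ≤ RR V e A c j),
      j₂ ∈ Tb V e A c (UU j₂) := by
    intro c j₂ hj
    rw [Finset.mem_filter] at hj
    rw [mem_Tb, mem_bk hsV]
    exact ⟨⟨(mem_S hsV).1 hj.1, rfl⟩, hj.2⟩
  have hgx0 : ∀ c ∈ C4, ∀ j₂ ∈ (S (Real.sqrt V)).filter (fun j => 1 ≤ RR V e A c j),
      0 ≤ gx c j₂ := by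
    intro c hc j₂ hj
    have hR : 1 ≤ RR V e A c j₂ := (Finset.mem_filter.mp hj).2
    have hE0 := (hHm c hc (UU j₂) j₂ (hTmem c j₂ hj)).Ex0
    have hK := (hSz c hc).Kj0 (Finset.mem_filter.mp hj).1
    simp only [hgx]
    refine mul_nonneg (mul_nonneg (by positivity) (by positivity)) ?_
    rw [GKd_eq]
    exact Finset.sum_nonneg fun B _ => Finset.sum_nonneg fun j _ =>
      mul_nonneg (wB_nonneg _ _ _ _ _ _ _ _ _) (mul_nonneg (by positivity) (hE0 B j))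
  have hgp0 : ∀ c ∈ C4, ∀ j₂ ∈ (S (Real.sqrt V)).filter (fun j => 1 ≤ RR V e A c j),
      0 ≤ gp c j₂ := by
    intro c hc j₂ hj
    have hR : 1 ≤ RR V e A c j₂ := (Finset.mem_filter.mp hj).2
    have hK := (hSz c hc).Kj0 (Finset.mem_filter.mp hj).1
    exact GKC739.PJ_nn (by linarith) hK.le fun B => MTs_nonneg _ _ _ _ _ _ _ _ _
  have hone : ∀ c ∈ C4, ∑ j₂ ∈ S (Real.sqrt V), Qs α δ e V K Ft y A c j₂ ≤
      C * (2 * D + 16) * cc ^ 2 * P ^ (ε / 2) * (P ^ (ε / 2) * (W0 * M0 +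
        ∑ j₂ ∈ (S (Real.sqrt V)).filter (fun j => 1 ≤ RR V e A c j), gx c j₂ + (P ^ M')⁻¹) +
        ∑ j₂ ∈ (S (Real.sqrt V)).filter (fun j => 1 ≤ RR V e A c j), gp c j₂) := by
    intro c hc
    have hcS := hSz c hc
    have e1 : ∑ j₂ ∈ S (Real.sqrt V), Qs α δ e V K Ft y A c j₂ =
        ∑ j₂ ∈ (S (Real.sqrt V)).filter (fun j => 1 ≤ RR V e A c j),
          Qs α δ e V K Ft y A c j₂ := by
      rw [Finset.sum_filter]
      refine Finset.sum_congr rfl fun j₂ _ => ?_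
      split_ifs with hR
      · rfl
      · exact Qs_zero (fun n hn => (hsp n hn).2) hV0.le Ft hα h.δp h.hy fun hh => hR hh.1
    rw [e1]
    have e2 : ∀ j₂ ∈ (S (Real.sqrt V)).filter (fun j => 1 ≤ RR V e A c j),
        Qs α δ e V K Ft y A c j₂ ≤ C * cc ^ 2 * P ^ (ε / 2) *
        (W0 * (P ^ (ε / 8) * (gR (X / nm y.1) (jm c (UU j₂))
          (Nj (P ^ (ε / 2)) H (X / nm y.1) V K B0 y.2 e A c j₂) y.2 (F c j₂) +
         gJ (X / nm y.1) (jm c (UU j₂))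
          (Nj (P ^ (ε / 2)) H (X / nm y.1) V K B0 y.2 e A c j₂) (FJ c j₂))) +
         P ^ (ε / 8) * gx c j₂ + gp c j₂ + (P ^ (M' + 1))⁻¹) := by
      intro j₂ hj
      have hT := hTmem c j₂ hj
      rw [Finset.mem_filter] at hj
      exact hQ P Jt Ft cc H ϑ ϑd om hKD hϑ hϑd hdb hdbd X V K B0 α hα hs hsp hαP δ e A c y hcS j₂
        hj.1 hj.2 (jm c (UU j₂)) (F c j₂) (FJ c j₂) (Ex c j₂) (hHm c hc (UU j₂) j₂ hT)
    have hN : ∀ l, ∀ j₂ ∈ Tb V e A c l, ∀ B ∈ S (X / nm y.1),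
        Nj (P ^ (ε / 2)) H (X / nm y.1) V K B0 y.2 e A c j₂ B ≤ N0e ε P := by
      intro l j₂ hj B hB
      rw [mem_Tb, mem_bk hsV] at hj
      exact hcS.shells hε ((mem_S hsV).2 hj.1.1) hj.2 hB
    have g1 := sum_gR (H := H) (K := K) (B0 := B0) (T := P ^ (ε / 2)) hX1 hV1 (jm c) hN (F c) hM0
      (fun l u j hcl n hn => hcN c hc l u j hcl n hn)
    have g2 := sum_gJ (H := H) (K := K) (B0 := B0) (T := P ^ (ε / 2)) hX1 hV1 (jm c) hN (FJ c)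
      (fun l j₂ hj u j => (hHm c hc l j₂ hj).FJ0 u j) hM0
      (fun l u j hj hcl => hcJ c hc l u j hj hcl)
    have g4 : (((S (Real.sqrt V)).filter (fun j => 1 ≤ RR V e A c j)).card : ℝ) ≤ 16 * P := by
      have h5 : (((S (Real.sqrt V)).filter (fun j => 1 ≤ RR V e A c j)).card : ℝ) ≤
          (S (Real.sqrt V)).card := by exact_mod_cast Finset.card_filter_le _ _
      have h6 := GLS106.card_S_le hsV1
      have h7 : Real.sqrt V ≤ P := by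
        have h8 := Real.sqrt_le_sqrt (show V ≤ V ^ 2 by nlinarith)
        rw [Real.sqrt_sq hV0.le] at h8
        linarith [h.VP]
      linarith
    refine (Finset.sum_le_sum e2).trans ?_
    rw [← Finset.mul_sum, Finset.sum_add_distrib, Finset.sum_add_distrib, Finset.sum_add_distrib,
      ← Finset.mul_sum, ← Finset.mul_sum, ← Finset.mul_sum, Finset.sum_add_distrib,
      Finset.sum_const, nsmul_eq_mul]
    set G1 : ℝ := ∑ j₂ ∈ (S (Real.sqrt V)).filter (fun j => 1 ≤ RR V e A c j),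
      gR (X / nm y.1) (jm c (UU j₂)) (Nj (P ^ (ε / 2)) H (X / nm y.1) V K B0 y.2 e A c j₂) y.2
        (F c j₂)
    set G2 : ℝ := ∑ j₂ ∈ (S (Real.sqrt V)).filter (fun j => 1 ≤ RR V e A c j),
      gJ (X / nm y.1) (jm c (UU j₂)) (Nj (P ^ (ε / 2)) H (X / nm y.1) V K B0 y.2 e A c j₂)
        (FJ c j₂)
    have hGx : 0 ≤ ∑ j₂ ∈ (S (Real.sqrt V)).filter (fun j => 1 ≤ RR V e A c j), gx c j₂ :=
      Finset.sum_nonneg fun j₂ hj => hgx0 c hc j₂ hj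
    have hGp : 0 ≤ ∑ j₂ ∈ (S (Real.sqrt V)).filter (fun j => 1 ≤ RR V e A c j), gp c j₂ :=
      Finset.sum_nonneg fun j₂ hj => hgp0 c hc j₂ hj
    set Gx : ℝ := ∑ j₂ ∈ (S (Real.sqrt V)).filter (fun j => 1 ≤ RR V e A c j), gx c j₂
    set Gp : ℝ := ∑ j₂ ∈ (S (Real.sqrt V)).filter (fun j => 1 ≤ RR V e A c j), gp c j₂
    set G4 : ℝ := (((S (Real.sqrt V)).filter (fun j => 1 ≤ RR V e A c j)).card : ℝ)
    have k1 : G1 ≤ D * P ^ (ε / 4) * M0 := g1.trans (mul_le_mul_of_nonneg_right n1 hM0)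
    have k2 : G2 ≤ D * P ^ (ε / 4) * M0 := g2.trans (mul_le_mul_of_nonneg_right n2 hM0)
    have k4 : G4 * (P ^ (M' + 1))⁻¹ ≤ 16 * (P ^ M')⁻¹ := by
      have : (P ^ (M' + 1))⁻¹ = P⁻¹ * (P ^ M')⁻¹ := by rw [pow_succ, mul_inv, mul_comm]
      rw [this]
      calc G4 * (P⁻¹ * (P ^ M')⁻¹) ≤ (16 * P) * (P⁻¹ * (P ^ M')⁻¹) :=
            mul_le_mul_of_nonneg_right g4 (by positivity)
        _ = 16 * (P ^ M')⁻¹ := by field_simp
    have hb : W0 * (P ^ (ε / 8) * (G1 + G2)) + P ^ (ε / 8) * Gx + Gp + G4 * (P ^ (M' + 1))⁻¹ ≤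
        (2 * D + 16) * (P ^ (ε / 2) * (W0 * M0 + Gx + (P ^ M')⁻¹) + Gp) := by
      have q1 : W0 * (P ^ (ε / 8) * (G1 + G2)) ≤ (2 * D) * (P ^ (ε / 2) * (W0 * M0)) := by
        calc W0 * (P ^ (ε / 8) * (G1 + G2))
            ≤ W0 * (P ^ (ε / 8) * (D * P ^ (ε / 4) * M0 + D * P ^ (ε / 4) * M0)) := by gcongr
          _ = (P ^ (ε / 8) * P ^ (ε / 4)) * (2 * D * (W0 * M0)) := by ring
          _ ≤ P ^ (ε / 2) * (2 * D * (W0 * M0)) :=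
              mul_le_mul_of_nonneg_right p3 (by positivity)
          _ = _ := by ring
      have q2 : P ^ (ε / 8) * Gx ≤ P ^ (ε / 2) * Gx := mul_le_mul_of_nonneg_right p4 hGx
      have q3 : G4 * (P ^ (M' + 1))⁻¹ ≤ 16 * (P ^ (ε / 2) * (P ^ M')⁻¹) := by
        refine k4.trans (mul_le_mul_of_nonneg_left ?_ (by norm_num))
        exact le_mul_of_one_le_left h9 p5
      have r1 : 0 ≤ P ^ (ε / 2) * (W0 * M0) := by positivity
      have r2 : 0 ≤ P ^ (ε / 2) * Gx := by positivity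
      have r3 : 0 ≤ P ^ (ε / 2) * (P ^ M')⁻¹ := by positivity
      nlinarith [mul_nonneg hD0 r2, mul_nonneg hD0 r3, mul_nonneg hD0 hGp]
    calc _ ≤ C * cc ^ 2 * P ^ (ε / 2) *
          ((2 * D + 16) * (P ^ (ε / 2) * (W0 * M0 + Gx + (P ^ M')⁻¹) + Gp)) :=
          mul_le_mul_of_nonneg_left hb (by positivity)
      _ = _ := by ring
  refine (Finset.sum_le_sum hone).trans ?_
  rw [← Finset.mul_sum, Finset.sum_add_distrib, ← Finset.mul_sum, Finset.sum_add_distrib,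
    Finset.sum_add_distrib, Finset.sum_const, Finset.sum_const, nsmul_eq_mul, nsmul_eq_mul]
  have hPT : PTs α δ e V K X B0 y A =
      ∑ c ∈ C4, ∑ j₂ ∈ (S (Real.sqrt V)).filter (fun j => 1 ≤ RR V e A c j), gp c j₂ := by
    unfold GKC739.PTs
    rfl
  rw [hPT]
  have s1 : 0 ≤ ∑ c ∈ C4, ∑ j₂ ∈ (S (Real.sqrt V)).filter (fun j => 1 ≤ RR V e A c j), gx c j₂ :=
    Finset.sum_nonneg fun c hc => Finset.sum_nonneg fun j₂ hj => hgx0 c hc j₂ hj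
  have s2 : 0 ≤ ∑ c ∈ C4, ∑ j₂ ∈ (S (Real.sqrt V)).filter (fun j => 1 ≤ RR V e A c j), gp c j₂ :=
    Finset.sum_nonneg fun c hc => Finset.sum_nonneg fun j₂ hj => hgp0 c hc j₂ hj
  set Sx : ℝ := ∑ c ∈ C4, ∑ j₂ ∈ (S (Real.sqrt V)).filter (fun j => 1 ≤ RR V e A c j), gx c j₂
  set Sp : ℝ := ∑ c ∈ C4, ∑ j₂ ∈ (S (Real.sqrt V)).filter (fun j => 1 ≤ RR V e A c j), gp c j₂
  set n4 : ℝ := (C4.card : ℝ) with hn4
  have hn40 : 0 ≤ n4 := Nat.cast_nonneg _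
  have t1 : P ^ (ε / 2) * (n4 * (W0 * M0) + Sx + n4 * (P ^ M')⁻¹) + Sp ≤
      (n4 + 1) * (P ^ (ε / 2) * (W0 * M0 + Sx + (P ^ M')⁻¹) + Sp) := by
    have r0 : 0 ≤ P ^ (ε / 2) := by positivity
    have r1 : 0 ≤ P ^ (ε / 2) * (W0 * M0) := by positivity
    have r2 : 0 ≤ P ^ (ε / 2) * Sx := by positivity
    have r3 : 0 ≤ P ^ (ε / 2) * (P ^ M')⁻¹ := by positivity
    nlinarith [mul_nonneg hn40 r2, mul_nonneg hn40 s2]
  calc _ ≤ C * (2 * D + 16) * cc ^ 2 * P ^ (ε / 2) *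
        ((n4 + 1) * (P ^ (ε / 2) * (W0 * M0 + Sx + (P ^ M')⁻¹) + Sp)) :=
        mul_le_mul_of_nonneg_left t1 (by positivity)
    _ = _ := by ring

end Crest.Agent.R017.QsJ401
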