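import Crest.Agent.R017.QsJh_401
import Crest.Agent.R017.E2ze_440

/-!
# Row 17, block C70, leaf E2 (helper401): inputs of `Qs_cellsJx`

* `dbl_th`, `dbl_thd` : doubling of the kernels of `KDd_cmp`
* `nc_pow` : `B0` a power of `2`
* `moJ_x` : the joint moments from the not principal part and the principal part
* `mo_x` : the separate moments
-/

set_option autoImplicit false
set_option linter.unusedVariables false

noncomputable section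

open Complex
open scoped ComplexConjugate

namespace Crest.Agent.R017.QsJ401

open Crest.Agent.R012 Crest.Agent.R012.Eis
open Crest.Agent.R012.Div277
open Crest.Agent.R012.LS2 (S mem_S)
open Crest.Agent.R017.X6C180 (IX dl')
open Crest.Agent.R017.CM106 (sub CS FS)
open Crest.Agent.R017.H1401 (pb mem_pb DN WM WJ)
open Crest.Agent.R017.MoF106 (MoP NX bk mem_bk bk_prim bk_nm_ge sum_bk UU)
open Crest.Agent.R017.E2D401 (MoJ Bj)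
open Crest.Agent.R017.MoJ401 (MoJQ MoJ_split MNJ)
open Crest.Agent.R017.E2sp579 (MH fP)
open Crest.Agent.R017.FlC502 (thd)
open Crest.Agent.R017.E2440

/-! ### doubling -/

lemma rpow_four_third : (4 : ℝ) ^ ((1 : ℝ) / 3) ≤ 4 := by
  calc (4 : ℝ) ^ ((1 : ℝ) / 3) ≤ 4 ^ (1 : ℝ) :=
        Real.rpow_le_rpow_of_exponent_le (by norm_num) (by norm_num)
    _ = 4 := Real.rpow_one _

lemma dbl_third {x y : ℝ} (hx : 0 < x) (hy : 0 < y) (h : y ≤ 4 * x) :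
    x ^ (-(1 / 3) : ℝ) ≤ 4 * y ^ (-(1 / 3) : ℝ) := by
  have h1 : (4 * x) ^ (-(1 / 3) : ℝ) ≤ y ^ (-(1 / 3) : ℝ) :=
    Real.rpow_le_rpow_of_nonpos hy h (by norm_num)
  rw [Real.mul_rpow (by norm_num) hx.le] at h1
  have h2 : (4 : ℝ) ^ (-(1 / 3) : ℝ) * 4 ^ ((1 : ℝ) / 3) = 1 := by
    rw [← Real.rpow_add (by norm_num)]
    norm_num
  have h3 : 0 ≤ (4 : ℝ) ^ ((1 : ℝ) / 3) := by positivity
  have h4 : 0 ≤ x ^ (-(1 / 3) : ℝ) := by positivity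
  have h5 : 0 ≤ y ^ (-(1 / 3) : ℝ) := by positivity
  calc x ^ (-(1 / 3) : ℝ) = 4 ^ ((1 : ℝ) / 3) * ((4 : ℝ) ^ (-(1 / 3) : ℝ) * x ^ (-(1 / 3) : ℝ)) := by
        rw [← mul_assoc, mul_comm (4 ^ ((1 : ℝ) / 3)) _, h2, one_mul]
    _ ≤ 4 ^ ((1 : ℝ) / 3) * y ^ (-(1 / 3) : ℝ) := mul_le_mul_of_nonneg_left h1 h3
    _ ≤ 4 * y ^ (-(1 / 3) : ℝ) := mul_le_mul_of_nonneg_right rpow_four_third h5

lemma min_dbl {a b c d k : ℝ} (hk : 0 ≤ k) (h1 : a ≤ k * c) (h2 : b ≤ k * d) :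
    min a b ≤ k * min c d := by
  rw [mul_min_of_nonneg _ _ hk]
  exact min_le_min h1 h2

/-- doubling of the dual kernel -/
lemma dbl_th (p : ℕ) {H : ℝ} (hH : 0 ≤ H) (x y : ℝ) (hx : 0 < x) (hy : 0 < y)
    (h1 : x ≤ 4 * y) (h2 : y ≤ 4 * x) :
    min (x ^ (-(1 / 3) : ℝ)) (min 1 ((x * H) ^ p)) ≤
      4 ^ (p + 1) * min (y ^ (-(1 / 3) : ℝ)) (min 1 ((y * H) ^ p)) := by
  have k1 : (4 : ℝ) ≤ 4 ^ (p + 1) := by
    calc (4 : ℝ) = 4 ^ 1 := (pow_one _).symm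
      _ ≤ 4 ^ (p + 1) := pow_le_pow_right₀ (by norm_num) (by omega)
  have k2 : (1 : ℝ) ≤ 4 ^ (p + 1) := one_le_pow₀ (by norm_num)
  refine min_dbl (by positivity) ?_ (min_dbl (by positivity) ?_ ?_)
  · exact (dbl_third hx hy h2).trans (mul_le_mul_of_nonneg_right k1 (by positivity))
  · rw [mul_one]; exact k2
  · calc (x * H) ^ p ≤ (4 * y * H) ^ p :=
          pow_le_pow_left₀ (by positivity) (mul_le_mul_of_nonneg_right h1 hH) p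
      _ = 4 ^ p * (y * H) ^ p := by rw [← mul_pow, mul_assoc]
      _ ≤ 4 ^ (p + 1) * (y * H) ^ p := by
          refine mul_le_mul_of_nonneg_right ?_ (by positivity)
          exact pow_le_pow_right₀ (by norm_num) (by omega)

/-- doubling of the direct kernel -/
lemma dbl_thd (p : ℕ) {H : ℝ} (hH : 0 ≤ H) (x y : ℝ) (hx : 0 < x) (hy : 0 < y)
    (h1 : x ≤ 4 * y) (h2 : y ≤ 4 * x) : thd H x ≤ 4 ^ (p + 1) * thd H y := by
  have k1 : (4 : ℝ) ≤ 4 ^ (p + 1) := by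
    calc (4 : ℝ) = 4 ^ 1 := (pow_one _).symm
      _ ≤ 4 ^ (p + 1) := pow_le_pow_right₀ (by norm_num) (by omega)
  have k2 : (1 : ℝ) ≤ 4 ^ (p + 1) := one_le_pow₀ (by norm_num)
  unfold FlC502.thd
  refine min_dbl (by positivity) (by rw [mul_one]; exact k2) ?_
  calc (H * x) ^ ((1 : ℝ) / 3) ≤ (4 * (H * y)) ^ ((1 : ℝ) / 3) := by
        refine Real.rpow_le_rpow (by positivity) ?_ (by norm_num)
        calc H * x ≤ H * (4 * y) := mul_le_mul_of_nonneg_left h1 hH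
          _ = _ := by ring
    _ = 4 ^ ((1 : ℝ) / 3) * (H * y) ^ ((1 : ℝ) / 3) := Real.mul_rpow (by norm_num) (by positivity)
    _ ≤ 4 ^ (p + 1) * (H * y) ^ ((1 : ℝ) / 3) :=
        mul_le_mul_of_nonneg_right (rpow_four_third.trans k1) (by positivity)

lemma th_le_one (p : ℕ) (H y : ℝ) : min (y ^ (-(1 / 3) : ℝ)) (min 1 ((y * H) ^ p)) ≤ 1 :=
  (min_le_right _ _).trans (min_le_left _ _)

/-! ### no block across `B0` -/

lemma nc_pow (k u : ℕ) : ¬ ((2 : ℝ) ^ u / 2 < 2 ^ k ∧ (2 : ℝ) ^ k < 2 ^ u) := by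
  rintro ⟨h1, h2⟩
  have h3 : k < u := (pow_lt_pow_iff_right₀ (by norm_num : (1 : ℝ) < 2)).mp h2
  have h4 : (2 : ℝ) ^ (k + 1) ≤ 2 ^ u := pow_le_pow_right₀ (by norm_num) h3
  rw [pow_succ] at h4
  linarith

lemma nc_lt_one {B0 : ℝ} (hB : B0 ≤ 1 / 2) (u : ℕ) :
    ¬ ((2 : ℝ) ^ u / 2 < B0 ∧ B0 < 2 ^ u) := by
  rintro ⟨h1, -⟩
  have : (1 : ℝ) ≤ 2 ^ u := one_le_pow₀ (by norm_num)
  linarith

/-! ### the moments -/

/-- **the joint moments** -/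
theorem moJ_x {Jt : ℕ} {T H X V K B0 C0 : ℝ} {ν g₀ δ e A c j₂ : Eis}
    {Qf : Eis → Eis → Eis → Eis → Prop} {α : Eis → ℂ} (hX : 0 ≤ X) (hν : ν ≠ 0)
    (hR : 0 ≤ RR V e A c j₂) (hα : (Function.support (ag α δ g₀)).Finite) (hC0 : 0 ≤ C0)
    {Mp : Eis → ℕ → ℝ}
    (hMH : MH (WM (RR V e A c j₂)) (fun n j g₂ g₃ d => DN n g₂ g₃ d ∧ (2 : ℝ) ^ j / 2 < nm d)
      (fun B τ d => ¬ Qf (e * A * j₂) B τ d) (ag α δ g₀) (e * A * j₂) c ν X Jt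
      (Nj T H X V K B0 ν e A c j₂) Mp)
    {u j : ℕ} (hj : ((2 : ℝ) ^ j * 2 ^ u) ^ 2 ≤ C0 * RR V e A c j₂) (i : IX c) (t : ℝ) :
    MoJ ν (ag α δ g₀) (e * A * j₂) (dl' c i) X t (RR V e A c j₂) (2 ^ j) (2 ^ u)
      (Bj X (Nj T H X V K B0 ν e A c j₂) u j) ≤
    (1 + |t|) ^ Jt * (FJQ Jt T H X V K B0 ν g₀ δ e A c Qf α j₂ u j +
      (1 + C0) * 2 ^ u * ∑ B ∈ Bj X (Nj T H X V K B0 ν e A c j₂) u j, Mp B j) := by
  rw [MoJ_split _ (fun B d => Qf (e * A * j₂) B (dl' c i) d), mul_add]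
  refine add_le_add (FJQ_spec hX hR hα u j i t) ?_
  exact MoJPr176.mojq_MH hC0 hR hX hν hMH hj i t

/-- **the separate moments** -/
theorem mo_x {Jt : ℕ} {R X : ℝ} {ν E c : Eis} {α : Eis → ℂ} {Q : Eis → Eis → Eis → Prop}
    {N : Eis → ℕ} {Mn Mp : Eis → ℕ → ℝ}
    (hn : MH (WM R) (fun n j g₂ g₃ d => DN n g₂ g₃ d ∧ (2 : ℝ) ^ j / 2 < nm d)
      Q α E c ν X Jt N Mn)
    (hp : MH (WM R) (fun n j g₂ g₃ d => DN n g₂ g₃ d ∧ (2 : ℝ) ^ j / 2 < nm d)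
      (fun B τ d => ¬ Q B τ d) α E c ν X Jt N Mp) {B : Eis} (hB : B ∈ S X) {j : ℕ}
    (hj : j < N B) (i : IX c) (t : ℝ) :
    ∑ n ∈ dvs ν, (nm n : ℝ) * MoP α E B (dl' c i) X t (2 ^ j) (WM R (2 ^ j / (nm n : ℝ) ^ 3))
      (fun g₂ g₃ d => DN n g₂ g₃ d ∧ (2 : ℝ) ^ j / 2 < nm d) ≤
    (1 + |t|) ^ Jt * (Mn B j + Mp B j) :=
  E2sp579.hyp_split hn hp B hB i t j hj

end Crest.Agent.R017.QsJ401
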