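import Crest.Agent.R017.QsJi_401
import Crest.Agent.R017.MoN4_106
import Crest.Agent.R017.NPy_739

/-!
# Row 17, block C70, leaf E2 (helper401): the joint cells of `Qs_cellsJ` / `Qs_cellsJx` from a line

* `GaC` : the inequality of one cell (106's `cell_ga2`), for a functional `Φ` and a predicate `Qg`
* `cellLJ_ga` : the natural cells of a joint cell from the line
* `FJQ_line`, `FJQ_line1` : the joint cells of a flagged list / one opened piece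
* `FJQ_two` : the same for a difference of two sequences
* `jmV` : the choice of the joint cells
-/

set_option autoImplicit false
set_option linter.unusedVariables false
set_option maxHeartbeats 400000

noncomputable section

open Complex Finset
open scoped ComplexConjugate

namespace Crest.Agent.R017.QsJ401

open Crest.Agent.R012 Crest.Agent.R012.Eis
open Crest.Agent.R012.Div277
open Crest.Agent.R012.LS2 (S mem_S)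
open Crest.Agent.R017.X6C180 (IX dl')
open Crest.Agent.R017.CM106 (sub CS FS)
open Crest.Agent.R017.FE47 (cx PU)
open Crest.Agent.R017.HP842 (pc sqc)
open Crest.Agent.R017.H1401 (pb mem_pb WM HW DN)
open Crest.Agent.R017.Leg381 (alf alF Pf LF)
open Crest.Agent.R017.B770
open Crest.Agent.R017.Prov71
open Crest.Agent.R017.XRG106
open Crest.Agent.R017.TPOk571 (IP FP SD SD_w SD_len SD_ht sd_ok AC relU)
open Crest.Agent.R017.Win813 (iA iA_nonneg WK)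
open Crest.Agent.R017.MoF106
open Crest.Agent.R017.MoL106 (FromP Q4 mem_Q4 f4 kw kw_ne PM2 cell_ga2)
open Crest.Agent.R017.E2D401 (MoJ Bj)
open Crest.Agent.R017.QsO83 (bw FS_bw)
open Crest.Agent.R017.E2440
open Crest.Agent.R017.MoJ401

/-! ### one cell -/

/-- **the inequality of one joint cell** for a two-level functional `Φ` (level, size of `b`, list)
and frequencies with the property `Qg` -/
def GaC (P : DPar) (h : ℝ → ℝ) (Qg : Eis → Prop) (Φ : ℝ → ℝ → List Pq → ℝ) (ε C : ℝ) : Prop :=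
  ∀ (T : Finset Eis) (X Z U R : ℝ) (l u v w : ℕ) (Pr : Eis → Eis → Eis → Eis → Eis → Prop)
    (g₃ g₀ E τ n₀ g : Eis), 0 ≤ X → 1 ≤ Z → 1 ≤ U → 0 ≤ R → E ≠ 0 → τ ≠ 0 → IsPrim g₀ →
    IsPrim n₀ → IsPrim g →
    (∀ y ∈ T, IsPrim y ∧ (nm y : ℝ) ≤ Real.exp ((l : ℝ) / 3 + 1 / 3)) → g₃ ∈ bk X w →
    Real.exp ((u : ℝ) / 3) * nm g ≤ U →
    (∀ x ∈ Q4 T X (Z / nm g) u v Pr g₃, Qg (f4 E τ x)) →
    ∀ X0 s₁ : ℝ, Real.log (nm (E * τ)) + 1 / 3 ≤ s₁ →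
    Real.exp ((l : ℝ) / 3 + 1 / 3) * Z ≤ X0 → Real.exp (((u + v : ℕ) : ℝ) / 3 + 2 / 3) ≤ X0 →
    ∀ {r : ℕ} (s' : Fin r → Pq) (n K Lv s Bd Wt : ℝ), 0 ≤ Bd → 0 ≤ Wt →
    0 ≤ s → R ≤ Real.exp (s + Lv - 2 * (l / 3)) →
    2 * (Real.log Z + l / 3 + Real.log U) ≤ Lv →
    (0 ≤ Real.log Z + l / 3 + s₁ - Real.log (nm g) - 2 * (v / 3) →
      Φ (Real.log Z + l / 3 + s₁ - Real.log (nm g) - 2 * (v / 3))
        (u / 3 + 2 / 3 + v / 3) (List.ofFn s') ≤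
        Bd * Wt * Real.exp (n + K - (Lv - (Real.log Z + l / 3 + s₁) -
          (u / 3 + 2 / 3 + Real.log (nm g)) + 2 * Real.log (nm g) +
          (n - (u / 3 + 2 / 3 + Real.log (nm g)) - ∑ k, (s' k).z)))) →
    (nm n₀ : ℝ) * nm g * wJc R (Z / (nm n₀ : ℝ) ^ 3) U (nm g) (Real.exp ((v : ℝ) / 3)) *
        Real.exp ((w : ℝ) / 3) *
      ∑ x ∈ Q4 T X (Z / nm g) u v Pr g₃, ∏ k, ‖CS (pc h ((s' k).pc P)) (f4 E τ x)‖ ^ 2 ≤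
    C * X0 ^ ε * (nm n₀ * (Z * U * (Bd * Real.exp (n + K + s + s₁)))) *
      Real.exp (∑ k, (s' k).z - (n - (Real.log (nm (g₀ * g)) +
        ((u : ℝ) / 3 + v / 3 + w / 3)))) * Wt

/-- class N : helper106's `cell_ga2` -/
theorem gaC_N {ε : ℝ} (hε : 0 < ε) : ∃ C : ℝ, 1 ≤ C ∧ ∀ (P : DPar) (h : ℝ → ℝ),
    GaC P h (fun _ => True) (PM2 P h) ε C := by
  obtain ⟨C, hC, H⟩ := cell_ga2 hε
  refine ⟨C, hC, fun P h => ?_⟩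
  intro T X Z U R l u v w Pr g₃ g₀ E τ n₀ g hX hZ hU hR hE hτ hg₀ hn₀ hg hT hg₃ hu _ X0 s₁ hs₁
    hX0 hB r s' n K Lv s Bd Wt hBd hWt hs hR2 hJ hga
  exact H T X Z U R l u v w Pr g₃ g₀ E τ n₀ g hX hZ hU hR hE hτ hg₀ hn₀ hg hT hg₃ hu X0 s₁ hs₁
    hX0 hB P h s' n K Lv s Bd Wt hBd hWt hs hR2 hJ hga

/-! ### sizes -/

/-- `nm (kw p)^2 ≤ 81` and `nm (dl' c i)` -/
def kap : ℝ := Real.log (81 * (1 + ∑ c ∈ C4, dmx c)) + 1 / 3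

lemma nm_kw_le {p : ℕ × ℕ} (hp : p ∈ RGw813.T9) : (nm (kw p) : ℝ) ≤ 9 := by
  unfold RGw813.T9 at hp
  rw [Finset.mem_product, Finset.mem_range, Finset.mem_range] at hp
  unfold MoL106.kw
  rw [nm_mul, nm_pow, nm_pow, nm_lam]
  have h1 : nm (w : Eis) = 1 := by
    simp
  rw [h1]
  have h2 : 3 ^ p.2 ≤ 3 ^ 2 := Nat.pow_le_pow_right (by norm_num) (by omega)
  push_cast
  have h3 : (3 : ℝ) ^ p.2 ≤ 3 ^ 2 := by exact_mod_cast h2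
  rw [one_pow]
  linarith

lemma freq_ne {e A : Eis} (he : e ≠ 0) (hA : A ≠ 0) (p : ℕ × ℕ) : e * A * kw p ^ 2 ≠ 0 :=
  mul_ne_zero (mul_ne_zero he hA) (pow_ne_zero 2 (kw_ne p))

lemma freq_log {e A c : Eis} (he : e ≠ 0) (hA : A ≠ 0) (hc : c ∈ C4) {p : ℕ × ℕ}
    (hp : p ∈ RGw813.T9) (i : IX c) :
    Real.log (nm (e * A * kw p ^ 2 * dl' c i)) + 1 / 3 ≤ Real.log (nm (e * A)) + kap := by
  have hx : (0 : ℝ) < nm (e * A) := by exact_mod_cast nm_pos.2 (mul_ne_zero he hA)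
  have hk : (0 : ℝ) < nm (kw p) := by exact_mod_cast nm_pos.2 (kw_ne p)
  have hd : (0 : ℝ) < nm (dl' c i) := by exact_mod_cast nm_pos.2 (dl_ne_zero (C4_ne hc) i)
  have h1 := nm_kw_le hp
  have h2 : (nm (dl' c i) : ℝ) ≤ 1 + ∑ c ∈ C4, dmx c := by
    have h3 := le_dmx c i
    have h4 : dmx c ≤ ∑ c ∈ C4, dmx c :=
      Finset.single_le_sum (f := fun c => dmx c)
        (fun c _ => Finset.sum_nonneg fun _ _ => Nat.cast_nonneg _) hc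
    linarith
  have e1 : (nm (e * A * kw p ^ 2 * dl' c i) : ℝ) = nm (e * A) * (nm (kw p) ^ 2 * nm (dl' c i)) := by
    rw [nm_mul, nm_mul (e * A), nm_pow]; push_cast; ring
  rw [e1, Real.log_mul hx.ne' (by positivity)]
  unfold kap
  have h5 : Real.log ((nm (kw p) : ℝ) ^ 2 * nm (dl' c i)) ≤
      Real.log (81 * (1 + ∑ c ∈ C4, dmx c)) := by
    refine Real.log_le_log (by positivity) ?_
    have h6 : (nm (kw p) : ℝ) ^ 2 ≤ 81 := by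
      calc (nm (kw p) : ℝ) ^ 2 ≤ 9 ^ 2 := pow_le_pow_left₀ hk.le h1 2
        _ = 81 := by norm_num
    exact mul_le_mul h6 h2 hd.le (by norm_num)
  linarith


/-! ### the natural cells of a joint cell -/

/-- **the line of the joint cells** -/
def LineJ (μ C : ℝ) {r : ℕ} (s : Fin r → Pq) (Φ : ℝ → ℝ → List Pq → ℝ) (X : ℝ) (ν g₀ δ : Eis)
    (l u j : ℕ) (s₁ n0 K Lv Bd : ℝ) : Prop :=
  ∀ n ∈ dvs ν, ∀ g ∈ S ((2 : ℝ) ^ u), IsCoprime g δ →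
    ∀ u' < NX X, ∀ v < NX X, ∀ w < NX X, Real.exp ((u' : ℝ) / 3) * nm g ≤ 2 ^ u →
    (2 : ℝ) ^ u ≤ 2 * (Real.exp ((u' : ℝ) / 3 + 1 / 3) * nm g) →
    (nm n : ℝ) ^ 3 * (Real.exp (2 * ((v : ℝ) / 3)) * Real.exp w) ≤ 2 ^ j / nm g →
    ∀ (s' : Fin r → Pq) (W0 : ℝ), 1 ≤ W0 → (∀ k, Rl C W0 (s' k) (s k)) →
    ∑ k, (s' k).z ≤ n0 - (Real.log (nm (g₀ * g)) + ((u' : ℝ) / 3 + v / 3 + w / 3)) + C →
    0 ≤ Real.log (2 ^ j) + l / 3 + s₁ - Real.log (nm g) - 2 * (v / 3) →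
    Φ (Real.log (2 ^ j) + l / 3 + s₁ - Real.log (nm g) - 2 * (v / 3))
      (u' / 3 + 2 / 3 + v / 3) (List.ofFn s') ≤
      Bd * W0 ^ (2 * μ) * Real.exp (n0 + K - (Lv - (Real.log (2 ^ j) + l / 3 + s₁) -
        (u' / 3 + 2 / 3 + Real.log (nm g)) + 2 * Real.log (nm g) +
        (n0 - (u' / 3 + 2 / 3 + Real.log (nm g)) - ∑ k, (s' k).z)))

/-- **the natural cells of a joint cell** -/
theorem cellLJ_ga {P : DPar} {h : ℝ → ℝ} {Qg : Eis → Prop} {Φ : ℝ → ℝ → List Pq → ℝ} {ε Cg : ℝ}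
    (hG : GaC P h Qg Φ ε Cg) (hCg : 0 ≤ Cg) {μ C : ℝ} {r : ℕ} {s : Fin r → Pq}
    {T H X V K B0 : ℝ} {ν e A c δ g₀ : Eis} {p : ℕ × ℕ} {l u j : ℕ}
    {Qf : Eis → Eis → Eis → Eis → Prop} {n0 Kx Lv sx s₁ Bd X0 : ℝ}
    (hX : 0 ≤ X) (hV : 0 ≤ V) (he : e ≠ 0) (hA : A ≠ 0) (hc : c ∈ C4) (hν : IsPrim ν)
    (hg₀ : IsPrim g₀)
    (hs₁ : ∀ i : IX c, Real.log (nm (e * A * kw p ^ 2 * dl' c i)) + 1 / 3 ≤ s₁)
    (hX0 : Real.exp ((l : ℝ) / 3 + 1) * 2 ^ j * 2 ^ u ≤ X0)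
    (hBd : 0 ≤ Bd) (hsx : 0 ≤ sx) (hR : V * nm (e * A) ≤ Real.exp (sx + Lv))
    (hJ : 2 * (Real.log (2 ^ j) + l / 3 + Real.log (2 ^ u)) ≤ Lv)
    (hQf : ∀ g y B g₂ g₃ m : Eis, IsPrim g → IsPrim y → IsPrim B → IsPrim g₂ → IsPrim g₃ →
      IsPrim m → ∀ i : IX c, Qf (e * A * y) (g * B) (dl' c i) (g * (g₂ ^ 2 * g₃ ^ 3 * m)) →
      Qg (f4 (e * A * kw p ^ 2) (dl' c i) (y, B, g₂, m)))
    (hL : LineJ μ C s Φ X ν g₀ δ l u j s₁ n0 Kx Lv Bd) :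
    CellLJ h μ C P s T H X V K B0 ν e A c δ g₀ p l u j Qf n0
      (Cg * X0 ^ ε * (nm ν * (2 ^ j * 2 ^ u * (Bd * Real.exp (n0 + Kx + sx + s₁))))) := by
  intro n hn g hg hgδ u' hu' v hv w hw h1 h2 h3 i g₃ hg₃ s' W0 hW0 hRl hle
  have hU1 : (1 : ℝ) ≤ 2 ^ u := one_le_pow₀ (by norm_num)
  have hZ1 : (1 : ℝ) ≤ 2 ^ j := one_le_pow₀ (by norm_num)
  have hU0 : (0 : ℝ) ≤ 2 ^ u := by linarith
  obtain ⟨-, hgp, -⟩ := (mem_S hU0).1 hg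
  obtain ⟨hnp, hnν⟩ := (mem_dvs hν.ne_zero).1 hn
  have hg1 : (1 : ℝ) ≤ nm g := one_le_nm hgp.ne_zero
  have hn1 : (1 : ℝ) ≤ nm n := one_le_nm hnp.ne_zero
  have hν0 : ν ≠ 0 := hν.ne_zero
  have hnle : (nm n : ℝ) ≤ nm ν := by
    exact_mod_cast nm_le_of_dvd hν0 hnν
  have hcn := one_le_nmC hc
  have hR0 : 0 ≤ V * nm (e * A) / (nm c * Real.exp ((l : ℝ) / 3) ^ 2) := by positivity
  have hRle : V * nm (e * A) / (nm c * Real.exp ((l : ℝ) / 3) ^ 2) ≤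
      Real.exp (sx + Lv - 2 * ((l : ℝ) / 3)) := by
    have e1 : Real.exp ((l : ℝ) / 3) ^ 2 = Real.exp (2 * ((l : ℝ) / 3)) := by
      rw [← Real.exp_nat_mul]; norm_num
    rw [div_le_iff₀ (by positivity), e1]
    calc V * nm (e * A) ≤ Real.exp (sx + Lv) := hR
      _ = 1 * (Real.exp (sx + Lv - 2 * ((l : ℝ) / 3)) * Real.exp (2 * ((l : ℝ) / 3))) := by
          rw [← Real.exp_add, one_mul]; congr 1; ring
      _ ≤ nm c * (Real.exp (sx + Lv - 2 * ((l : ℝ) / 3)) * Real.exp (2 * ((l : ℝ) / 3))) := by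
          gcongr
      _ = _ := by ring
  -- sizes
  have el : (0 : ℝ) ≤ (l : ℝ) / 3 := by positivity
  have hj0 : (0 : ℝ) < 2 ^ j := by positivity
  have hX1 : Real.exp ((l : ℝ) / 3 + 1 / 3) * 2 ^ j ≤ X0 := by
    refine le_trans ?_ hX0
    calc Real.exp ((l : ℝ) / 3 + 1 / 3) * 2 ^ j
        ≤ Real.exp ((l : ℝ) / 3 + 1) * 2 ^ j := by
          gcongr; norm_num
      _ ≤ Real.exp ((l : ℝ) / 3 + 1) * 2 ^ j * 2 ^ u := le_mul_of_one_le_right (by positivity) hU1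
  have hu3 : Real.exp ((u' : ℝ) / 3) ≤ 2 ^ u := by
    refine le_trans ?_ h1
    exact le_mul_of_one_le_right (Real.exp_pos _).le hg1
  have hv3 : Real.exp ((v : ℝ) / 3) ≤ 2 ^ j := by
    have a1 : (2 : ℝ) ^ j / nm g ≤ 2 ^ j := div_le_self hj0.le hg1
    have a2 : Real.exp (2 * ((v : ℝ) / 3)) ≤
        (nm n : ℝ) ^ 3 * (Real.exp (2 * ((v : ℝ) / 3)) * Real.exp w) := by
      have b1 : (1 : ℝ) ≤ (nm n : ℝ) ^ 3 := one_le_pow₀ hn1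
      have b2 : (1 : ℝ) ≤ Real.exp w := Real.one_le_exp (Nat.cast_nonneg _)
      calc Real.exp (2 * ((v : ℝ) / 3)) = 1 * (Real.exp (2 * ((v : ℝ) / 3)) * 1) := by ring
        _ ≤ _ := by gcongr
    have a3 : Real.exp ((v : ℝ) / 3) ≤ Real.exp (2 * ((v : ℝ) / 3)) := by
      apply Real.exp_le_exp.2
      have : (0 : ℝ) ≤ (v : ℝ) / 3 := by positivity
      linarith
    linarith
  have hX2 : Real.exp (((u' + v : ℕ) : ℝ) / 3 + 2 / 3) ≤ X0 := by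
    refine le_trans ?_ hX0
    have e1 : Real.exp (((u' + v : ℕ) : ℝ) / 3 + 2 / 3) =
        Real.exp (2 / 3) * Real.exp ((v : ℝ) / 3) * Real.exp ((u' : ℝ) / 3) := by
      rw [← Real.exp_add, ← Real.exp_add]; congr 1; push_cast; ring
    rw [e1]
    have e2 : Real.exp (2 / 3) ≤ Real.exp ((l : ℝ) / 3 + 1) := Real.exp_le_exp.2 (by linarith)
    gcongr
  have hW00 : 0 ≤ W0 ^ (2 * μ) := Real.rpow_nonneg (by linarith) _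
  have hX00 : 0 ≤ X0 := (Real.exp_pos _).le.trans hX2
  have hmain := hG (Tb V e A c l) X (2 ^ j) (2 ^ u)
    (V * nm (e * A) / (nm c * Real.exp ((l : ℝ) / 3) ^ 2)) l u' v w
    (fun y B g₂ g₃ d => g * B ∈ Bj X (Nj T H X V K B0 ν e A c y) u j ∧
      PJQ (fun B d => Qf (e * A * y) B (dl' c i) d) n g (2 ^ j) B g₂ g₃ d)
    g₃ g₀ (e * A * kw p ^ 2) (dl' c i) n g hX hZ1 hU1 hR0 (freq_ne he hA p)
    (dl_ne_zero (C4_ne hc) i) hg₀ hnp hgp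
    (fun y hy => ⟨GKC739.Tb_prim hy, bk_nm_le (Real.sqrt_nonneg V) (mem_Tb.1 hy).1⟩) hg₃ h1 ?_
    X0 s₁ (hs₁ i) hX1 hX2 s' n0 Kx Lv sx Bd (W0 ^ (2 * μ)) hBd hW00 hsx hRle hJ
    (hL n hn g hg hgδ u' hu' v hv w hw h1 h2 h3 s' W0 hW0 hRl hle)
  · refine hmain.trans ?_
    refine mul_le_mul_of_nonneg_right (mul_le_mul_of_nonneg_right ?_ (Real.exp_pos _).le) hW00
    refine mul_le_mul_of_nonneg_left ?_ (mul_nonneg hCg (Real.rpow_nonneg hX00 _))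
    exact mul_le_mul_of_nonneg_right hnle (by positivity)
  · rintro ⟨y, B, g₂, m⟩ hx
    obtain ⟨⟨x1, x2, x3, x4⟩, -, -, -, x6⟩ := mem_Q4.1 hx
    have hZg : 0 ≤ (2 : ℝ) ^ j / nm g := by positivity
    exact hQf g y B g₂ g₃ m hgp (GKC739.Tb_prim x1) (bk_prim hX x2) (bk_prim hX x3)
      (bk_prim hX hg₃) ((mem_pb hZg).1 x4).2 i x6


/-! ### the joint cells of flagged lists -/

lemma fin_M {C Cg pA t X0 ν Bex S ε : ℝ} {j u : ℕ} (hX0 : 0 < X0)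
    (h : S ≤ C * pA * t * X0 ^ ε * (Cg * X0 ^ ε * (ν * (2 ^ j * 2 ^ u * Bex)))) :
    (2 / 2 ^ j : ℝ) * (2 / 2 ^ u) * S ≤ 4 * (C * Cg) * pA * t * X0 ^ (2 * ε) * (ν * Bex) := by
  have e1 : X0 ^ (2 * ε) = X0 ^ ε * X0 ^ ε := by
    rw [← Real.rpow_add hX0]; congr 1; ring
  calc (2 / 2 ^ j : ℝ) * (2 / 2 ^ u) * S
      ≤ (2 / 2 ^ j : ℝ) * (2 / 2 ^ u) *
        (C * pA * t * X0 ^ ε * (Cg * X0 ^ ε * (ν * (2 ^ j * 2 ^ u * Bex)))) :=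
        mul_le_mul_of_nonneg_left h (by positivity)
    _ = _ := by
        rw [e1]
        field_simp
        ring

/-- **the joint cells of a flagged list, from the line** -/
theorem FJQ_line {h : ℝ → ℝ} {c₀ : ℝ} (hpu : PU h c₀) {R : ℝ} (hR0 : 0 ≤ R)
    (hR : ∀ u, cx h u ≠ 0 → |u| ≤ R) {μ : ℝ} (hμ : 0 ≤ μ) (r : ℕ) {ε : ℝ} (hε : 0 < ε) :
    ∃ C : ℝ, 1 ≤ C ∧ ∀ A' : ℕ, 2 * (r * μ) + 2 ≤ A' → ∀ Cφ η : ℝ, 0 ≤ Cφ → 0 < η → η ≤ 1 →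
      ∀ φ : ℝ → ℝ, WK Cφ η A' φ → ∀ (p : ℕ × ℕ) (t₀ : ℝ) (P : DPar) (_ : P.OK)
      (ps : List Pf), ps.length = r → (∀ x ∈ ps, 0 ≤ x.1.z) → ∀ z D0 : ℝ, 1 ≤ D0 →
      ∀ q g₀ δ ν e A : Eis, IsPrim q → IsPrim g₀ → IsPrim δ → IsPrim ν → e ≠ 0 → A ≠ 0 →
      ∀ (T H X V K B0 X0 : ℝ), 1 ≤ X → 2 * X ≤ X0 → 0 ≤ V → D0 ^ r ≤ X0 → (nm g₀ : ℝ) ≤ X0 →
      (nm q : ℝ) ≤ X0 → (nm δ : ℝ) ≤ X0 → (nm ν : ℝ) ≤ X0 → (∀ x ∈ ps, Real.exp x.1.z ≤ X0) →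
      ∀ c ∈ C4, ∀ (l u j : ℕ) (Qf : Eis → Eis → Eis → Eis → Prop),
      CellJ T H X V K B0 ν e A c l u j →
      ∀ (Qg : Eis → Prop) (Φ : ℝ → ℝ → List Pq → ℝ) (Cg : ℝ), 0 ≤ Cg → GaC P h Qg Φ ε Cg →
      (∀ g y B g₂ g₃ m : Eis, IsPrim g → IsPrim y → IsPrim B → IsPrim g₂ → IsPrim g₃ →
        IsPrim m → ∀ i : IX c, Qf (e * A * y) (g * B) (dl' c i) (g * (g₂ ^ 2 * g₃ ^ 3 * m)) →
        Qg (f4 (e * A * kw p ^ 2) (dl' c i) (y, B, g₂, m))) →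
      ∀ Kx Lv sx s₁ Bd : ℝ, 0 ≤ Bd → 0 ≤ sx → V * nm (e * A) ≤ Real.exp (sx + Lv) →
      (∀ i : IX c, Real.log (nm (e * A * kw p ^ 2 * dl' c i)) + 1 / 3 ≤ s₁) →
      Real.exp ((l : ℝ) / 3 + 1) * 2 ^ j * 2 ^ u ≤ X0 →
      2 * (Real.log (2 ^ j) + l / 3 + Real.log (2 ^ u)) ≤ Lv →
      LineJ μ C (fun i => (ps.get i).1) Φ X ν g₀ δ l u j s₁ (LF ps) Kx Lv Bd →
      (2 / 2 ^ j : ℝ) * (2 / 2 ^ u) * ∑ j₂ ∈ Tb V e A c l,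
        FJQ A' T H X V K B0 ν g₀ δ e A c Qf (bw φ p t₀ (sqc q (alF z D0 P h ps))) j₂ u j ≤
      4 * (C * Cg) * (((100 * D0) ^ r) ^ 2 * (Cφ ^ 2 * iA A' * (η * (η ^ A')⁻¹))) *
        (1 + |t₀|) ^ A' * X0 ^ (2 * ε) *
        (nm ν * (Bd * Real.exp (LF ps + Kx + sx + s₁))) := by
  obtain ⟨C, hC, H1⟩ := FJQ_list hpu hR0 hR hμ r hε
  refine ⟨C, hC, ?_⟩
  intro A' hA' Cφ η hCφ hη hη1 φ hφ p t₀ P hP ps hr hs z D0 hD q g₀ δ ν e A hq hg₀ hδ hν he hA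
    T H X V K B0 X0 hX hXX hV hDX hgX hqX hδX hνX hsX c hc l u j Qf hcJ Qg Φ Cg hCg hG hQf
    Kx Lv sx s₁ Bd hBd hsx hRV hs₁ hXX0 hJ hL
  have hX0 : 0 ≤ X := by linarith
  have hX00 : 0 < X0 := by linarith
  have hcell := cellLJ_ga (T := T) (H := H) (K := K) (B0 := B0) hG hCg hX0 hV he hA hc hν hg₀ hs₁
    hXX0 hBd hsx hRV hJ hQf hL
  have h2 := H1 A' hA' Cφ η hCφ hη hη1 φ hφ p t₀ P hP ps hr hs z D0 hD q g₀ δ ν e A hq hg₀ hδ hν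
    T H X V K B0 X0 hX hXX hV hDX hgX hqX hδX hνX hsX c hc l u j Qf _ (by positivity) hcJ hcell
  refine fin_M hX00 (h2.trans (le_of_eq ?_))
  ring

/-- **the joint cells of one opened piece, from the line** -/
theorem FJQ_line1 {h : ℝ → ℝ} {c₀ : ℝ} (hpu : PU h c₀) {R : ℝ} (hR0 : 0 ≤ R)
    (hR : ∀ u, cx h u ≠ 0 → |u| ≤ R) {μ : ℝ} (hμ : 0 ≤ μ) (r : ℕ) {ε : ℝ} (hε : 0 < ε) :
    ∃ C : ℝ, 1 ≤ C ∧ ∀ A' : ℕ, 2 * (r * μ) + 2 ≤ A' → ∀ Cφ η : ℝ, 0 ≤ Cφ → 0 < η → η ≤ 1 →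
      ∀ φ : ℝ → ℝ, WK Cφ η A' φ → ∀ (p : ℕ × ℕ) (t₀ : ℝ) (P : DPar) (hP : P.OK)
      (s : Fin r → Pq), (∀ i, 0 ≤ (s i).z) → ∀ jp : Fin r → IP, (∀ i, FromP hP (jp i) (s i)) →
      ∀ γ q g₀ δ ν e A : Eis, IsPrim γ → Squarefree γ → IsPrim q → IsPrim g₀ → IsPrim δ →
      IsPrim ν → e ≠ 0 → A ≠ 0 → ∀ (T H X V K B0 X0 : ℝ), 1 ≤ X → 2 * X ≤ X0 → 0 ≤ V →
      (nm γ : ℝ) ≤ X0 → (nm g₀ : ℝ) ≤ X0 → (nm q : ℝ) ≤ X0 → (nm δ : ℝ) ≤ X0 →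
      (nm ν : ℝ) ≤ X0 → (∀ i, Real.exp (s i).z ≤ X0) →
      ∀ c ∈ C4, ∀ (l u j : ℕ) (Qf : Eis → Eis → Eis → Eis → Prop),
      CellJ T H X V K B0 ν e A c l u j →
      ∀ (Qg : Eis → Prop) (Φ : ℝ → ℝ → List Pq → ℝ) (Cg : ℝ), 0 ≤ Cg → GaC P h Qg Φ ε Cg →
      (∀ g y B g₂ g₃ m : Eis, IsPrim g → IsPrim y → IsPrim B → IsPrim g₂ → IsPrim g₃ →
        IsPrim m → ∀ i : IX c, Qf (e * A * y) (g * B) (dl' c i) (g * (g₂ ^ 2 * g₃ ^ 3 * m)) →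
        Qg (f4 (e * A * kw p ^ 2) (dl' c i) (y, B, g₂, m))) →
      ∀ Kx Lv sx s₁ Bd : ℝ, 0 ≤ Bd → 0 ≤ sx → V * nm (e * A) ≤ Real.exp (sx + Lv) →
      (∀ i : IX c, Real.log (nm (e * A * kw p ^ 2 * dl' c i)) + 1 / 3 ≤ s₁) →
      Real.exp ((l : ℝ) / 3 + 1) * 2 ^ j * 2 ^ u ≤ X0 →
      2 * (Real.log (2 ^ j) + l / 3 + Real.log (2 ^ u)) ≤ Lv →
      LineJ μ C s Φ X ν g₀ δ l u j s₁ (∑ k, (jp k).z + Real.log (nm γ)) Kx Lv Bd →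
      (2 / 2 ^ j : ℝ) * (2 / 2 ^ u) * ∑ j₂ ∈ Tb V e A c l,
        FJQ A' T H X V K B0 ν g₀ δ e A c Qf
          (bw φ p t₀ (MoF106.dl γ (TP320.sq (q * γ) ((SD h μ r).w jp)))) j₂ u j ≤
      4 * (C * Cg) * (Cφ ^ 2 * iA A' * (η * (η ^ A')⁻¹)) * (1 + |t₀|) ^ A' * X0 ^ (2 * ε) *
        (nm ν * (Bd * Real.exp (∑ k, (jp k).z + Real.log (nm γ) + Kx + sx + s₁))) := by
  obtain ⟨C, hC, H1⟩ := FJQ_dl hpu hR0 hR hμ r hε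
  refine ⟨C, hC, ?_⟩
  intro A' hA' Cφ η hCφ hη hη1 φ hφ p t₀ P hP s hs jp hjp γ q g₀ δ ν e A hγ hγs hq hg₀ hδ hν he
    hA T H X V K B0 X0 hX hXX hV hγX hgX hqX hδX hνX hsX c hc l u j Qf hcJ Qg Φ Cg hCg hG hQf
    Kx Lv sx s₁ Bd hBd hsx hRV hs₁ hXX0 hJ hL
  have hX0 : 0 ≤ X := by linarith
  have hX00 : 0 < X0 := by linarith
  have hcell := cellLJ_ga (T := T) (H := H) (K := K) (B0 := B0) hG hCg hX0 hV he hA hc hν hg₀ hs₁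
    hXX0 hBd hsx hRV hJ hQf hL
  have h2 := H1 A' hA' Cφ η hCφ hη hη1 φ hφ p t₀ P hP s hs jp hjp γ q g₀ δ ν e A hγ hγs hq hg₀ hδ
    hν T H X V K B0 X0 hX hXX hV hγX hgX hqX hδX hνX hsX c hc l u j Qf _ (by positivity) hcJ hcell
  exact fin_M hX00 h2

/-- **a difference of two sequences** -/
theorem FJQ_two {Jt : ℕ} {T H X V K B0 : ℝ} (hX : 0 ≤ X) {ν e A c δ g₀ : Eis}
    (hg₀ : IsPrim g₀) {Qf : Eis → Eis → Eis → Eis → Prop} {φ : ℝ → ℝ} {p : ℕ × ℕ} {t₀ : ℝ}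
    {l u j : ℕ} {a b : Eis → ℂ} (ha : FS a) (hb : FS b) {ζ : ℂ} (hζ : ‖ζ‖ ≤ 1) :
    ∑ j₂ ∈ Tb V e A c l, FJQ Jt T H X V K B0 ν g₀ δ e A c Qf
      (bw φ p t₀ (fun m => a m - ζ * b m)) j₂ u j ≤
    2 * (∑ j₂ ∈ Tb V e A c l, FJQ Jt T H X V K B0 ν g₀ δ e A c Qf (bw φ p t₀ a) j₂ u j +
      ∑ j₂ ∈ Tb V e A c l, FJQ Jt T H X V K B0 ν g₀ δ e A c Qf (bw φ p t₀ b) j₂ u j) := by
  have hQF : NtC320.QF (fun α => ∑ j₂ ∈ Tb V e A c l,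
      FJQ Jt T H X V K B0 ν g₀ δ e A c Qf (bw φ p t₀ α) j₂ u j) := by
    refine QsO83.QF_sum1 _ fun j₂ hj₂ => ?_
    have h1 : 0 ≤ RR V e A c j₂ := by linarith [(mem_Tb.1 hj₂).2]
    exact QF_MNJ φ p t₀ hg₀ hX h1 (fun B hB => (mem_Bj.1 hB).1) _
  exact NPx739.QF_sub hQF ha hb hζ

/-! ### the choice of the joint cells -/

/-- **the joint cells** : `(2^j e^(l/3) 2^u)^2 ≤ V` -/
def jmV (V : ℝ) (l u j : ℕ) : Prop :=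
  2 * (Real.log (2 ^ j) + (l : ℝ) / 3 + Real.log (2 ^ u)) ≤ Real.log V

lemma jmV_RR {V : ℝ} {e A c j₂ : Eis} (he : e ≠ 0) (hA : A ≠ 0) (hc : c ∈ C4) {l u j : ℕ}
    (h : jmV V l u j) (hj : j₂ ∈ Tb V e A c l) :
    ((2 : ℝ) ^ j * 2 ^ u) ^ 2 ≤ 60 * RR V e A c j₂ := by
  have hV : 0 < V := GKC739.V_pos (mem_Tb.1 hj).2
  have hjp := GKC739.Tb_prim hj
  have hj2 := bk_nm_le (Real.sqrt_nonneg V) (mem_Tb.1 hj).1
  have hj1 : (1 : ℝ) ≤ nm j₂ := one_le_nm hjp.ne_zero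
  obtain ⟨hc1, hc2⟩ := GKC739.nm_C hc
  have hx : (1 : ℝ) ≤ nm (e * A) := one_le_nm (mul_ne_zero he hA)
  have h1 : ((2 : ℝ) ^ j * Real.exp ((l : ℝ) / 3) * 2 ^ u) ^ 2 ≤ V := by
    rw [← Real.exp_log hV]
    have e1 : ((2 : ℝ) ^ j * Real.exp ((l : ℝ) / 3) * 2 ^ u) ^ 2 =
        Real.exp (2 * (Real.log (2 ^ j) + (l : ℝ) / 3 + Real.log (2 ^ u))) := by
      have a1 : Real.exp (Real.log ((2 : ℝ) ^ j)) = 2 ^ j := Real.exp_log (by positivity)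
      have a2 : Real.exp (Real.log ((2 : ℝ) ^ u)) = 2 ^ u := Real.exp_log (by positivity)
      rw [two_mul, Real.exp_add, Real.exp_add, Real.exp_add, a1, a2]
      ring
    rw [e1]
    exact Real.exp_le_exp.2 h
  have hE : (nm j₂ : ℝ) ^ 2 ≤ 2 * Real.exp ((l : ℝ) / 3) ^ 2 := by
    have e2 : Real.exp ((l : ℝ) / 3 + 1 / 3) ^ 2 = Real.exp (2 / 3) * Real.exp ((l : ℝ) / 3) ^ 2 := by
      rw [← Real.exp_nat_mul, ← Real.exp_nat_mul, ← Real.exp_add]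
      congr 1; push_cast; ring
    have e3 : Real.exp (2 / 3) ≤ 2 := by
      have h3 : Real.exp (2 / 3) ^ 3 ≤ 2 ^ 3 := by
        rw [← Real.exp_nat_mul]
        have : ((3 : ℕ) : ℝ) * (2 / 3) = 2 := by norm_num
        rw [this]
        have h4 := Real.exp_one_lt_d9
        have h5 : Real.exp 2 = Real.exp 1 * Real.exp 1 := by
          rw [← Real.exp_add]; norm_num
        rw [h5]
        have h6 := Real.exp_pos 1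
        nlinarith
      exact le_of_pow_le_pow_left₀ (by norm_num) (by norm_num) h3
    calc (nm j₂ : ℝ) ^ 2 ≤ Real.exp ((l : ℝ) / 3 + 1 / 3) ^ 2 := by gcongr
      _ = Real.exp (2 / 3) * Real.exp ((l : ℝ) / 3) ^ 2 := e2
      _ ≤ _ := by gcongr
  have hEp : 0 < Real.exp ((l : ℝ) / 3) := Real.exp_pos _
  have h5 : V / (54 * Real.exp ((l : ℝ) / 3) ^ 2) ≤ RR V e A c j₂ := by
    unfold E2440.RR
    rw [div_le_div_iff₀ (by positivity) (by positivity)]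
    calc V * (nm c * (nm j₂ : ℝ) ^ 2) ≤ V * (27 * (2 * Real.exp ((l : ℝ) / 3) ^ 2)) := by gcongr
      _ = V * 1 * (54 * Real.exp ((l : ℝ) / 3) ^ 2) := by ring
      _ ≤ V * nm (e * A) * (54 * Real.exp ((l : ℝ) / 3) ^ 2) := by gcongr
  have h6 : ((2 : ℝ) ^ j * 2 ^ u) ^ 2 ≤ V / Real.exp ((l : ℝ) / 3) ^ 2 := by
    rw [le_div_iff₀ (by positivity)]
    calc ((2 : ℝ) ^ j * 2 ^ u) ^ 2 * Real.exp ((l : ℝ) / 3) ^ 2 =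
        ((2 : ℝ) ^ j * Real.exp ((l : ℝ) / 3) * 2 ^ u) ^ 2 := by ring
      _ ≤ V := h1
  have h7 : V / Real.exp ((l : ℝ) / 3) ^ 2 = 54 * (V / (54 * Real.exp ((l : ℝ) / 3) ^ 2)) := by
    field_simp
  have h8 : 0 ≤ RR V e A c j₂ := le_trans (by positivity) h5
  linarith

/-! ### the predicate of the exceptional class -/

/-- the frequency (with the class `p`) is not a cube -/
def QE (p : ℕ × ℕ) : Eis → Eis → Eis → Eis → Prop :=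
  fun E B τ d => ¬ NPx739.PrQ (E * kw p ^ 2) B τ d

lemma QE_freq {e A c : Eis} (he : e ≠ 0) (hA : A ≠ 0) (hc : c ∈ C4) (p : ℕ × ℕ)
    (g y B g₂ g₃ m : Eis) (hg : IsPrim g) (hy : IsPrim y) (hB : IsPrim B) (h2 : IsPrim g₂)
    (h3 : IsPrim g₃) (hm : IsPrim m) (i : IX c)
    (h : QE p (e * A * y) (g * B) (dl' c i) (g * (g₂ ^ 2 * g₃ ^ 3 * m))) :
    T411.NCube (f4 (e * A * kw p ^ 2) (dl' c i) (y, B, g₂, m)) := by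
  refine ⟨?_, fun b hb => h ⟨g * g₃ * b, ?_⟩⟩
  · unfold MoL106.f4
    exact mul_ne_zero (mul_ne_zero (mul_ne_zero (freq_ne he hA p) hy.ne_zero)
      (dl_ne_zero (C4_ne hc) i)) (mul_ne_zero hm.ne_zero
        (pow_ne_zero 2 (mul_ne_zero h2.ne_zero hB.ne_zero)))
  · have e1 : (g * g₃ * b) ^ 3 = (g * g₃) ^ 3 * b ^ 3 := by ring
    rw [e1, ← hb]
    unfold MoL106.f4
    ring

end Crest.Agent.R017.QsJ401
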