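import Crest.Agent.R017.QsJj_401
import Crest.Agent.R017.MoN6_106

/-!
# Row 17, block C70, leaf E2 (helper401): the cells of flagged lists for an abstract functional

(helper106's `MoN5`, `MoN6` with a functional `Φ` in place of `PM2 P h` and predicates.)

* `PLnF` : the pair lines, `PLnF.down` : at a lower level
* `R2C` : the inequality of a separate cell; `QfOK` : the predicate of the merged frequency
* `cellsNF`, `cellsJF` : the separate and the joint cells of a flagged list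
-/

set_option autoImplicit false
set_option linter.unusedVariables false
set_option maxHeartbeats 1600000

noncomputable section

open Finset
open scoped ComplexConjugate

namespace Crest.Agent.R017.QsJ401

open Crest.Agent.R012 Crest.Agent.R012.Eis Crest.Agent.R012.LS2
open Crest.Agent.R017.B770
open Crest.Agent.R017.Prov71
open Crest.Agent.R017.CM106 (CS FS)
open Crest.Agent.R017.FE47 (cx PU)
open Crest.Agent.R017.HP842 (pc sqc)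
open Crest.Agent.R017.Leg381 (alf alF Pf LF LF_get)
open Crest.Agent.R017.XRG106
open Crest.Agent.R017.X6C180 (IX dl')
open Crest.Agent.R017.Win813 (iA iA_nonneg WK)
open Crest.Agent.R017.RGw813 (T9)
open Crest.Agent.R017.H1401 (pb mem_pb WM HW DN)
open Crest.Agent.R017.MoF106
open Crest.Agent.R017.MoL106
open Crest.Agent.R017.RC106
open Crest.Agent.R017.QsO83 (bw FS_bw)
open Crest.Agent.R017.E2440
open Crest.Agent.R017.MoJ401 (CellXJ)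
open Crest.Agent.R017.E2sp579 (fP)
open Crest.Agent.R017.NPy739 (MNc CellH CellL cell_list opL opL_nonneg MNc_nonneg)
open Crest.Agent.R017.E2D401 (Bj)
open Div277 (tau dvs mem_dvs nm_le_of_dvd)

/-- **the pair lines** of the natural children, for a functional `Φ` (level, size of `b`, list) -/
structure PLnF (Φ : ℝ → ℝ → List Pq → ℝ) (μ C : ℝ) {r : ℕ} (s : Fin r → Pq)
    (n K Lv m e Bd : ℝ) : Prop where
  r2 : ∀ (s' : Fin r → Pq) (W0 : ℝ), 1 ≤ W0 → (∀ k, Rl C W0 (s' k) (s k)) →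
    ∀ i b g : ℝ, 0 ≤ b → 0 ≤ g → 0 ≤ i - 2 * g → ∑ k, (s' k).z + b + g ≤ n + e →
    i ≤ Lv + n - K + b + m → i + 2 * b ≤ K + m → Lv ≤ 2 * (i + b) + e →
    Φ (i - 2 * g) (b + g) (List.ofFn s') ≤ Bd * W0 ^ (2 * μ) *
      Real.exp (n + K + i - nr Lv i - (n - b - ∑ k, (s' k).z))
  ga : ∀ (s' : Fin r → Pq) (W0 : ℝ), 1 ≤ W0 → (∀ k, Rl C W0 (s' k) (s k)) →
    ∀ i b g γ : ℝ, 0 ≤ γ → γ ≤ b → 0 ≤ g → 0 ≤ i - γ - 2 * g →
    ∑ k, (s' k).z + b ≤ n + e → i ≤ Lv + n - K + b + m → i + 2 * b ≤ K + m →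
    2 * (i + b) ≤ Lv → Φ (i - γ - 2 * g) (b - γ + g) (List.ofFn s') ≤
      Bd * W0 ^ (2 * μ) * Real.exp (n + K - (Lv - i - b + 2 * γ + (n - b - ∑ k, (s' k).z)))

lemma pLnF_N {P : DPar} {h : ℝ → ℝ} {μ C : ℝ} {r : ℕ} {s : Fin r → Pq} {n K Lv m e Bd : ℝ} :
    PLnF (PM2 P h) μ C s n K Lv m e Bd ↔ PLn P h μ C s n K Lv m e Bd :=
  ⟨fun H => ⟨H.r2, H.ga⟩, fun H => ⟨H.r2, H.ga⟩⟩

/-- the two levels -/
lemma nr_step {L L' i y e : ℝ} (hy : 0 ≤ y) (he : 0 ≤ e) (h : 2 * y ≤ L' - L + e) :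
    nr L i + y - e ≤ nr L' (i + y) := by
  have n1 := le_nr_v L' (i + y)
  have n2 := le_nr_i L' (i + y)
  have n3 := le_nr_m L' (i + y)
  have h4 : nr L i ≤ nr L' (i + y) - y + e := by
    unfold nr at n1 n2 n3 ⊢
    refine max_le ?_ (max_le ?_ ?_)
    · linarith
    · linarith
    · linarith
  linarith

/-- **the lines at a lower level** -/
theorem PLnF.down {Φ : ℝ → ℝ → List Pq → ℝ} {μ C : ℝ} {r : ℕ} {s : Fin r → Pq}
    {n K Lv Lv' m m' e Bd : ℝ}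
    (hmono : ∀ l l' β ps, l ≤ l' → Φ l β ps ≤ Φ l' β ps)
    (hBd : 0 ≤ Bd) (he : 0 ≤ e) (hm : m' + e ≤ m) (hm' : 0 ≤ m') (hL : Lv' ≤ Lv)
    (hK : 3 * Lv ≤ 2 * K + m') (hK0 : 0 ≤ K)
    (H : PLnF Φ μ C s n K Lv m e Bd) : PLnF Φ μ C s n K Lv' m' e (Bd * Real.exp e) := by
  refine ⟨?_, ?_⟩
  · intro s' W0 hW0 hR i b g hb hg hi h1 h2 h3 h4
    have hW : 0 ≤ W0 ^ (2 * μ) := Real.rpow_nonneg (by linarith) _
    by_cases hc : Lv ≤ 2 * (i + b) + e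
    · refine (H.r2 s' W0 hW0 hR i b g hb hg hi h1 (by linarith) (by linarith) hc).trans ?_
      have h5 : nr Lv' i ≤ nr Lv i := nr_mono hL
      have e1 : Bd * Real.exp e * W0 ^ (2 * μ) *
          Real.exp (n + K + i - nr Lv' i - (n - b - ∑ k, (s' k).z)) =
          Bd * W0 ^ (2 * μ) *
          (Real.exp e * Real.exp (n + K + i - nr Lv' i - (n - b - ∑ k, (s' k).z))) := by ring
      rw [e1, ← Real.exp_add]
      refine mul_le_mul_of_nonneg_left (Real.exp_le_exp.2 ?_) (mul_nonneg hBd hW)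
      linarith
    · push Not at hc
      have hy : 0 ≤ Lv / 2 - b - i := by linarith
      have h6 : Φ (i - 2 * g) (b + g) (List.ofFn s') ≤
          Φ (i + (Lv / 2 - b - i) - 2 * g) (b + g) (List.ofFn s') :=
        hmono _ _ _ _ (by linarith)
      refine h6.trans ((H.r2 s' W0 hW0 hR (i + (Lv / 2 - b - i)) b g hb hg (by linarith) h1
        (by linarith) (by linarith) (by linarith)).trans ?_)
      have h5 := nr_step (L := Lv') (L' := Lv) (i := i) (y := Lv / 2 - b - i) (e := e) hy he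
        (by linarith)
      have e1 : Bd * Real.exp e * W0 ^ (2 * μ) *
          Real.exp (n + K + i - nr Lv' i - (n - b - ∑ k, (s' k).z)) =
          Bd * W0 ^ (2 * μ) *
          (Real.exp e * Real.exp (n + K + i - nr Lv' i - (n - b - ∑ k, (s' k).z))) := by ring
      rw [e1, ← Real.exp_add]
      refine mul_le_mul_of_nonneg_left (Real.exp_le_exp.2 ?_) (mul_nonneg hBd hW)
      linarith
  · intro s' W0 hW0 hR i b g γ hγ hγb hg hi h1 h2 h3 h4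
    have hW : 0 ≤ W0 ^ (2 * μ) := Real.rpow_nonneg (by linarith) _
    refine (H.ga s' W0 hW0 hR i b g γ hγ hγb hg hi h1 (by linarith) (by linarith)
      (by linarith)).trans ?_
    have e1 : Bd * Real.exp e * W0 ^ (2 * μ) *
        Real.exp (n + K - (Lv' - i - b + 2 * γ + (n - b - ∑ k, (s' k).z))) =
        Bd * W0 ^ (2 * μ) *
        (Real.exp e * Real.exp (n + K - (Lv' - i - b + 2 * γ + (n - b - ∑ k, (s' k).z)))) := by
      ring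
    rw [e1, ← Real.exp_add]
    refine mul_le_mul_of_nonneg_left (Real.exp_le_exp.2 ?_) (mul_nonneg hBd hW)
    linarith


/-- **the inequality of one separate cell** (helper106's `cell_r2`) for a functional `Φ` -/
def R2C (P : DPar) (h : ℝ → ℝ) (Qg : Eis → Prop) (Φ : ℝ → ℝ → List Pq → ℝ) (ε C : ℝ) : Prop :=
  ∀ (T : Finset Eis) (X Z : ℝ) (l u v w : ℕ) (Pr : Eis → Eis → Eis → Eis → Eis → Prop)
    (g₃ g₀ E τ : Eis), 0 ≤ X → 1 ≤ Z → E ≠ 0 → τ ≠ 0 → IsPrim g₀ →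
    (∀ y ∈ T, IsPrim y ∧ (nm y : ℝ) ≤ Real.exp ((l : ℝ) / 3 + 1 / 3)) → g₃ ∈ bk X w →
    (∀ x ∈ Q4 T X Z u v Pr g₃, Qg (f4 E τ x)) →
    ∀ X0 : ℝ, Real.exp ((l : ℝ) / 3 + 1 / 3) * Z ≤ X0 →
    Real.exp (((u + v : ℕ) : ℝ) / 3 + 2 / 3) ≤ X0 →
    ∀ s₁ : ℝ, Real.log (nm (E * τ)) + 1 / 3 ≤ s₁ →
    ∀ {r : ℕ} (s' : Fin r → Pq) (n K Lv s Bd Wt : ℝ), 0 ≤ Bd → 0 ≤ Wt →
    (0 ≤ Real.log Z + l / 3 + s₁ - 2 * (v / 3) →
      Φ (Real.log Z + l / 3 + s₁ - 2 * (v / 3)) (u / 3 + 2 / 3 + v / 3) (List.ofFn s') ≤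
        Bd * Wt * Real.exp (n + K + (Real.log Z + l / 3 + s₁) -
          nr Lv (Real.log Z + l / 3 + s₁) - (n - (u / 3 + 2 / 3) - ∑ k, (s' k).z))) →
    Real.exp (v / 3 + nr Lv (Real.log Z + l / 3) - l / 3 + s) * Real.exp ((w : ℝ) / 3) *
      ∑ x ∈ Q4 T X Z u v Pr g₃, ∏ k, ‖CS (pc h ((s' k).pc P)) (f4 E τ x)‖ ^ 2 ≤
    C * X0 ^ ε * (Z * (Bd * Real.exp (n + K + s + s₁ + 2 / 3))) *
      Real.exp (∑ k, (s' k).z - (n - (Real.log (nm g₀) + ((u : ℝ) / 3 + v / 3 + w / 3)))) *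
        Wt

/-- class N : helper106's `cell_r2` -/
theorem r2C_N {ε : ℝ} (hε : 0 < ε) : ∃ C : ℝ, 1 ≤ C ∧ ∀ (P : DPar) (h : ℝ → ℝ),
    R2C P h (fun _ => True) (PM2 P h) ε C := by
  obtain ⟨C, hC, H⟩ := cell_r2 hε
  refine ⟨C, hC, fun P h => ?_⟩
  intro T X Z l u v w Pr g₃ g₀ E τ hX hZ hE hτ hg₀ hT hg₃ _ X0 hX0 hB s₁ hs₁ r s' n K Lv s Bd Wt
    hBd hWt hpm
  exact H T X Z l u v w Pr g₃ g₀ E τ hX hZ hE hτ hg₀ hT hg₃ X0 hX0 hB s₁ hs₁ P h s' n K Lv s Bd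
    Wt hBd hWt hpm

/-- **the predicate of the merged frequencies** -/
def QfOK (e A c : Eis) (p : ℕ × ℕ) (Qf : Eis → Eis → Eis → Eis → Prop) (Qg : Eis → Prop) : Prop :=
  ∀ g y B g₂ g₃ m : Eis, IsPrim g → IsPrim y → IsPrim B → IsPrim g₂ → IsPrim g₃ →
    IsPrim m → ∀ i : IX c, Qf (e * A * y) (g * B) (dl' c i) (g * (g₂ ^ 2 * g₃ ^ 3 * m)) →
    Qg (f4 (e * A * kw p ^ 2) (dl' c i) (y, B, g₂, m))

lemma isPrim_one' : IsPrim (1 : Eis) := isPrim_one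

lemma QfOK.one {e A c : Eis} {p : ℕ × ℕ} {Qf : Eis → Eis → Eis → Eis → Prop} {Qg : Eis → Prop}
    (H : QfOK e A c p Qf Qg) {y B g₂ g₃ m : Eis} (hy : IsPrim y) (hB : IsPrim B)
    (h2 : IsPrim g₂) (h3 : IsPrim g₃) (hm : IsPrim m) (i : IX c)
    (h : Qf (e * A * y) B (dl' c i) (g₂ ^ 2 * g₃ ^ 3 * m)) :
    Qg (f4 (e * A * kw p ^ 2) (dl' c i) (y, B, g₂, m)) := by
  refine H 1 y B g₂ g₃ m isPrim_one' hy hB h2 h3 hm i ?_
  rw [one_mul, one_mul]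
  exact h

/-- class N -/
lemma qfOK_N (e A c : Eis) (p : ℕ × ℕ) : QfOK e A c p (fun _ _ _ _ => True) (fun _ => True) :=
  fun _ _ _ _ _ _ _ _ _ _ _ _ _ _ => trivial

/-- the exceptional class -/
lemma qfOK_E {e A c : Eis} (he : e ≠ 0) (hA : A ≠ 0) (hc : c ∈ C4) (p : ℕ × ℕ) :
    QfOK e A c p (QE p) T411.NCube := fun g y B g₂ g₃ m hg hy hB h2 h3 hm i h =>
  QE_freq he hA hc p g y B g₂ g₃ m hg hy hB h2 h3 hm i h

/-- **the separate cells** of a flagged list, for a functional `Φ` -/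
theorem cellsNF {h : ℝ → ℝ} {c₀ : ℝ} (hpu : PU h c₀) {R : ℝ} (hR0 : 0 ≤ R)
    (hR : ∀ u, cx h u ≠ 0 → |u| ≤ R) {μ : ℝ} (hμ : 0 ≤ μ) (r : ℕ) {ε₁ : ℝ} (hε₁ : 0 < ε₁) :
    ∃ C : ℝ, 1 ≤ C ∧ ∀ C₂ : ℝ, 1 ≤ C₂ → ∀ A' : ℕ, 2 * (r * μ) + 2 ≤ A' → ∀ Cφ η : ℝ, 0 ≤ Cφ → 0 < η → η ≤ 1 →
      ∀ φ : ℝ → ℝ, WK Cφ η A' φ → ∀ p ∈ T9, ∀ (t₀ : ℝ) (P : DPar) (_ : P.OK)
      (Φ : ℝ → ℝ → List Pq → ℝ) (Qg : Eis → Prop) (Qf : Eis → Eis → Eis → Eis → Prop)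
      (_ : R2C P h Qg Φ ε₁ C₂)
      (ps : List Pf), ps.length = r → (∀ x ∈ ps, 0 ≤ x.1.z) → ∀ z D0 : ℝ, 1 ≤ D0 →
      ∀ q : Eis, IsPrim q → ∀ (e₀ ε Pz X V Kf B0 H X0 : ℝ) (δ e A c : Eis) (y : Eis × Eis)
      (K Lv d Bd : ℝ), 0 < ε → Sz Pz X V Kf H δ e A c y → QfOK e A c p Qf Qg →
      Env e₀ ε Pz X V Kf B0 H X0 δ e (LF ps) K Lv d → C ≤ e₀ → D0 ^ r ≤ X0 → (nm q : ℝ) ≤ X0 →
      (∀ x ∈ ps, Real.exp x.1.z ≤ X0) → 0 ≤ Bd →
      PLnF Φ μ C (fun i => (ps.get i).1) (LF ps) K Lv (17 * d + 8 * e₀) (2 * e₀) Bd →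
      ∀ l u j, CellN (Pz ^ (ε / 2)) H (X / nm y.1) V Kf B0 y.2 e A c
        (jmL (2 * d + e₀) Lv l) l u j →
      ∀ n ∈ dvs y.2, (2 / 2 ^ j : ℝ) * ((nm n : ℝ) * ∑ j₂ ∈ Tb V e A c l,
        ∑ B ∈ bk (X / nm y.1) u,
          MNc A' V e A c (X / nm y.1) Qf δ y.1 φ p t₀ j₂ B j n
            (sqc q (alF z D0 P h ps))) ≤
      C * C₂ * (Cφ ^ 2 * iA A' * (η * (η ^ A')⁻¹)) * X0 ^ (2 * ε₁) * (1 + |t₀|) ^ A' * opL r D0 *
        (Bd * Real.exp (LF ps + K + 5 * d + 3 * e₀)) := by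
  obtain ⟨C₁, hC₁, H1⟩ := cell_list hpu hR0 hR hμ r hε₁
  refine ⟨C₁, hC₁, ?_⟩
  intro C₂ hC₂ A' hA' Cφ η hCφ hη hη1 φ hφ p hp t₀ P hP Φ Qg Qf H2 ps hr hs z D0 hD q hq e₀ ε Pz
    X V Kf B0 H X0 δ e A c y K Lv d Bd hε hz hQf he hCe hDX hqX hsX hBd hln l u j hcell n hn
  subst hr
  set n₀ : ℝ := LF ps with hn₀
  have e1 := he.e0
  have hd0 := he.d0
  have hn0 := he.n0
  have hK0 := he.K0
  have hv0 := he.v0
  set X' : ℝ := X / nm y.1 with hX'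
  have hX1 : 1 ≤ X' := hz.X1
  have hX'0 : 0 ≤ X' := by linarith
  have hlX' : Real.log X' ≤ n₀ + e₀ := he.lX' hz
  set s : ℝ := 2 * d + e₀ with hs'
  have hs0 : 0 ≤ s := by rw [hs']; linarith
  set a : ℝ := (l : ℝ) / 3 with ha
  have ha0 : 0 ≤ a := by positivity
  set zj : ℝ := Real.log (2 ^ j) with hzj
  have hzj0 : 0 ≤ zj := Real.log_nonneg (one_le_pow₀ (by norm_num))
  have h2j : (0 : ℝ) < 2 ^ j := by positivity
  have h2j1 : (1 : ℝ) ≤ 2 ^ j := one_le_pow₀ (by norm_num)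
  have eZ : (2 : ℝ) ^ j = Real.exp zj := (Real.exp_log h2j).symm
  have hE : e * A ≠ 0 := mul_ne_zero hz.ep.ne_zero hz.Ap.ne_zero
  have hX0p := he.X0
  -- the range
  obtain ⟨j₂, hj₂, B, hB, hj, hjm⟩ := hcell
  have hcell' : GKC739.Cell (Pz ^ (ε / 2)) H V Kf X' B0 y.2 e A c l u j :=
    ⟨j₂, by rw [← RC106.Tb_eq]; exact hj₂, B, hB, hj⟩
  obtain ⟨g1, g2⟩ := he.shell hε hz hcell'
  have hnj : Lv < 2 * (zj + a + s + ((u : ℝ) / 3 + 1 / 3 + 0.7 + 2 / 3)) := by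
    unfold jmL at hjm
    push Not at hjm
    have := blk_bk hX'0 hB
    linarith
  have hub : (u : ℝ) / 3 ≤ Real.log X' := by
    have h3 := (bk_nm_ge hX'0 hB).trans ((mem_bk hX'0).1 hB).1.1
    exact (Real.le_log_iff_exp_le (by linarith)).2 h3
  -- the weights
  set Wb : ℕ → ℕ → ℝ := fun v _ => 3 * Real.exp (2 / 3) *
    Real.exp ((v : ℝ) / 3 + nr Lv (zj + a) - a + s) with hWbd
  have hn1 : (1 : ℝ) ≤ nm n := by
    have := (mem_dvs hz.y2.ne_zero).1 hn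
    exact_mod_cast nm_pos.2 this.1.ne_zero
  have hny : (nm n : ℝ) ≤ Real.exp d := by
    have h3 := (mem_dvs hz.y2.ne_zero).1 hn
    have h4 : nm n ≤ nm y.2 := nm_le_of_dvd hz.y2.ne_zero h3.2
    exact (by exact_mod_cast h4 : (nm n : ℝ) ≤ nm y.2).trans (he.ny2 hz)
  have hRm0 : 0 ≤ V * nm (e * A) / (nm c * Real.exp ((l : ℝ) / 3) ^ 2) := by
    have := hz.V1
    positivity
  have hWb : ∀ v < NX X', ∀ w < NX X', ∀ g₂ ∈ bk X' v, ∀ g₃ ∈ bk X' w,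
      WM (V * nm (e * A) / (nm c * Real.exp ((l : ℝ) / 3) ^ 2)) (2 ^ j / (nm n : ℝ) ^ 3) g₂ g₃ ≤
        Wb v w := by
    intro v hv w hw g₂ hg₂ g₃ hg₃
    have hg3 : (1 : ℝ) ≤ nm g₃ := by exact_mod_cast nm_pos.2 (bk_prim hX'0 hg₃).ne_zero
    have h3 := WM_cell (V := Lv) (s := s) (a := a) (g := (v : ℝ) / 3) (w := 0) (i := zj + a)
      hs0 ha0 le_rfl (by positivity) hRm0 (by positivity : (0 : ℝ) ≤ 2 ^ j / (nm n : ℝ) ^ 3)
      (he.Rm hz l) (by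
        have h4 : (2 : ℝ) ^ j / (nm n : ℝ) ^ 3 ≤ 2 ^ j := div_le_self h2j.le (one_le_pow₀ hn1)
        refine h4.trans (le_of_eq ?_)
        rw [eZ]; congr 1; ring) (bk_nm_ge hX'0 hg₂) (bk_nm_le hX'0 hg₂)
      (by rw [Real.exp_zero]; exact hg3)
    refine h3.trans (le_of_eq ?_)
    rw [hWbd]
    beta_reduce
    congr 2
    ring
  have hWb0 : ∀ v < NX X', ∀ w < NX X', 0 ≤ Wb v w := fun v _ w _ => by
    rw [hWbd]; positivity
  set M : ℝ := 3 * Real.exp (2 / 3) * (C₂ * X0 ^ ε₁ *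
    (2 ^ j * (Bd * Real.exp (n₀ + K + s + s + 2 / 3)))) with hM
  have hC₂0 : 0 ≤ C₂ := by linarith
  have hM0 : 0 ≤ M := by rw [hM]; positivity
  have hcl : CellL h μ C₁ P ps V e A c X' Qf y.1 p l u j n Wb M := by
    intro v hv w hw hWp i g₃ hg₃ s' W0 hW0 hRl hle
    rw [← LF_get] at hle ⊢
    have hv3 := NX_lt hX1 hv
    have hn1g : 0 ≤ Real.log (nm y.1) := Real.log_nonneg hz.n1
    have hw0 : (0 : ℝ) ≤ w := Nat.cast_nonneg w
    have hv0' : (0 : ℝ) ≤ v := Nat.cast_nonneg v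
    have hu0' : (0 : ℝ) ≤ u := Nat.cast_nonneg u
    have h3 := H2 (GKC739.Tb V e A c l) X' (2 ^ j) l u v w
      (fun y B => fP (fun g₂ g₃ d => DN n g₂ g₃ d ∧ (2 : ℝ) ^ j / 2 < nm d)
        (Qf (e * A * y) B (dl' c i)))
      g₃ y.1 (e * A * kw p ^ 2) (dl' c i) hX'0 h2j1
      (mul_ne_zero hE (pow_ne_zero 2 (kw_ne p))) (dl_ne_zero (QsJ401.C4_ne hz.hc) i) hz.y1
      (fun t ht => ⟨GKC739.Tb_prim ht, bk_nm_le (Real.sqrt_nonneg V) (GKC739.mem_Tb.1 ht).1⟩)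
      hg₃ (by
        rintro ⟨y', B', g₂, m⟩ hx
        obtain ⟨⟨x1, x2, x3, x4⟩, -, x5⟩ := mem_Q4.1 hx
        exact hQf.one (GKC739.Tb_prim x1) (bk_prim hX'0 x2) (bk_prim hX'0 x3)
          (bk_prim hX'0 hg₃) ((mem_pb h2j.le).1 x4).2 i x5.2) X0 (by
        rw [eZ, ← Real.exp_add]
        exact he.leX0 (by linarith)) (by
        exact he.leX0 (by push_cast; linarith)) s (he.fr hz hp i) s' n₀ K Lv s Bd
      (W0 ^ (2 * μ)) hBd (Real.rpow_nonneg (by linarith) _) (by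
        intro h0
        refine (hln.r2 s' W0 hW0 hRl (zj + a + s)
          ((u : ℝ) / 3 + 2 / 3) ((v : ℝ) / 3) (by positivity) (by positivity) h0 (by linarith)
          (by linarith) (by linarith) (by linarith)))
    have hW1 : Wb v w = 3 * Real.exp (2 / 3) *
      Real.exp ((v : ℝ) / 3 + nr Lv (zj + a) - a + s) := rfl
    rw [hW1, hM]
    calc _ = 3 * Real.exp (2 / 3) * (Real.exp ((v : ℝ) / 3 + nr Lv (zj + a) - a + s) *
          Real.exp ((w : ℝ) / 3) * ∑ x ∈ Q4 (GKC739.Tb V e A c l) X' (2 ^ j) u v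
            (fun y B => fP (fun g₂ g₃ d => DN n g₂ g₃ d ∧ (2 : ℝ) ^ j / 2 < nm d)
              (Qf (e * A * y) B (dl' c i))) g₃,
          ∏ k, ‖CS (pc h ((s' k).pc P)) (f4 (e * A * kw p ^ 2) (dl' c i) x)‖ ^ 2) := by ring
      _ ≤ _ := mul_le_mul_of_nonneg_left h3 (by positivity)
      _ = _ := by ring
  have hmain := H1 A' hA' Cφ η hCφ hη hη1 φ hφ p t₀ P hP ps rfl hs z D0 hD q y.1 δ e A hq hz.y1
    hz.δp hz.ep hz.Ap V X' X0 hX1 ((he.X' hz).trans (he.leX0 (by linarith))) hDX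
    ((he.ny1 hz).trans (he.leX0 (by linarith))) hqX
    ((le_exp_of_log (by exact_mod_cast nm_pos.2 hz.δp.ne_zero) he.lδ).trans
      (he.leX0 (by linarith))) hsX l u j n Qf Wb c hz.hc hWb hWb0 M hM0 hcl
  have hiA := iA_nonneg A'
  set pA : ℝ := Cφ ^ 2 * iA A' * (η * (η ^ A')⁻¹) with hpA
  have hpA0 : 0 ≤ pA := by positivity
  have hop := opL_nonneg ps.length (show (0 : ℝ) ≤ D0 by linarith)
  have hX2 : X0 ^ (2 * ε₁) = X0 ^ ε₁ * X0 ^ ε₁ := by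
    rw [← Real.rpow_add hX0p]; congr 1; ring
  have hnum : 2 * ((nm n : ℝ) * (3 * Real.exp (2 / 3) * Real.exp (n₀ + K + s + s + 2 / 3))) ≤
      Real.exp (n₀ + K + 5 * d + 3 * e₀) := by
    calc 2 * ((nm n : ℝ) * (3 * Real.exp (2 / 3) * Real.exp (n₀ + K + s + s + 2 / 3)))
        = 2 * (3 * Real.exp (2 / 3)) * ((nm n : ℝ) * Real.exp (n₀ + K + s + s + 2 / 3)) := by
          ring
      _ ≤ Real.exp 4 * (Real.exp d * Real.exp (n₀ + K + s + s + 2 / 3)) := by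
          have := six_le
          gcongr
      _ = Real.exp (4 + (d + (n₀ + K + s + s + 2 / 3))) := by
          rw [Real.exp_add 4, Real.exp_add d]
      _ ≤ _ := by
          refine Real.exp_le_exp.2 ?_
          rw [hs']
          linarith
  have hP1 : 0 ≤ C₁ * C₂ * pA * (X0 ^ ε₁ * X0 ^ ε₁) * (1 + |t₀|) ^ A' * opL ps.length D0 * Bd := by
    have : 0 ≤ C₁ := by linarith
    positivity
  calc (2 / 2 ^ j : ℝ) * ((nm n : ℝ) * _) ≤ (2 / 2 ^ j : ℝ) * ((nm n : ℝ) *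
        (C₁ * pA * X0 ^ ε₁ * (1 + |t₀|) ^ A' * opL ps.length D0 * M)) := by
        refine mul_le_mul_of_nonneg_left ?_ (by positivity)
        rw [RC106.Tb_eq]
        exact mul_le_mul_of_nonneg_left hmain (Nat.cast_nonneg _)
    _ = (C₁ * C₂ * pA * (X0 ^ ε₁ * X0 ^ ε₁) * (1 + |t₀|) ^ A' * opL ps.length D0 * Bd) *
        (2 * ((nm n : ℝ) * (3 * Real.exp (2 / 3) * Real.exp (n₀ + K + s + s + 2 / 3)))) := by
        rw [hM]
        field_simp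
    _ ≤ (C₁ * C₂ * pA * (X0 ^ ε₁ * X0 ^ ε₁) * (1 + |t₀|) ^ A' * opL ps.length D0 * Bd) *
        Real.exp (n₀ + K + 5 * d + 3 * e₀) := mul_le_mul_of_nonneg_left hnum hP1
    _ = _ := by rw [hX2]; ring

/-- **the joint cells** of a flagged list, for a functional `Φ` -/
theorem cellsJF {h : ℝ → ℝ} {c₀ : ℝ} (hpu : PU h c₀) {R : ℝ} (hR0 : 0 ≤ R)
    (hR : ∀ u, cx h u ≠ 0 → |u| ≤ R) {μ : ℝ} (hμ : 0 ≤ μ) (r : ℕ) {ε₁ : ℝ} (hε₁ : 0 < ε₁) :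
    ∃ C : ℝ, 1 ≤ C ∧ ∀ C₂ : ℝ, 1 ≤ C₂ → ∀ A' : ℕ, 2 * (r * μ) + 2 ≤ A' → ∀ Cφ η : ℝ, 0 ≤ Cφ → 0 < η → η ≤ 1 →
      ∀ φ : ℝ → ℝ, WK Cφ η A' φ → ∀ p ∈ T9, ∀ (t₀ : ℝ) (P : DPar) (_ : P.OK)
      (Φ : ℝ → ℝ → List Pq → ℝ) (Qg : Eis → Prop) (Qf : Eis → Eis → Eis → Eis → Prop)
      (_ : GaC P h Qg Φ ε₁ C₂)
      (ps : List Pf), ps.length = r → (∀ x ∈ ps, 0 ≤ x.1.z) → ∀ z D0 : ℝ, 1 ≤ D0 →
      ∀ q : Eis, IsPrim q → ∀ (e₀ ε Pz X V Kf B0 H X0 : ℝ) (δ e A c : Eis) (y : Eis × Eis)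
      (K Lv d Bd : ℝ), 0 < ε → Sz Pz X V Kf H δ e A c y → QfOK e A c p Qf Qg →
      Env e₀ ε Pz X V Kf B0 H X0 δ e (LF ps) K Lv d → C ≤ e₀ → D0 ^ r ≤ X0 → (nm q : ℝ) ≤ X0 →
      (∀ x ∈ ps, Real.exp x.1.z ≤ X0) → 0 ≤ Bd →
      PLnF Φ μ C (fun i => (ps.get i).1) (LF ps) K Lv (17 * d + 8 * e₀) (2 * e₀) Bd →
      ∀ l u j, jmL (2 * d + e₀) Lv l u j →
      CellJ (Pz ^ (ε / 2)) H (X / nm y.1) V Kf B0 y.2 e A c l u j →
      (2 / 2 ^ j : ℝ) * (2 / 2 ^ u) * ∑ j₂ ∈ QsJ401.Tb V e A c l,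
        FJQ A' (Pz ^ (ε / 2)) H (X / nm y.1) V Kf B0 y.2 y.1 δ e A c Qf
          (bw φ p t₀ (sqc q (alF z D0 P h ps))) j₂ u j ≤
      C * C₂ * (Cφ ^ 2 * iA A' * (η * (η ^ A')⁻¹)) * X0 ^ (2 * ε₁) * (1 + |t₀|) ^ A' * opL r D0 *
        (Bd * Real.exp (LF ps + K + 5 * d + 3 * e₀)) := by
  obtain ⟨C₁, hC₁, H1⟩ := FJQ_list hpu hR0 hR hμ r hε₁
  refine ⟨C₁, hC₁, ?_⟩
  intro C₂ hC₂ A' hA' Cφ η hCφ hη hη1 φ hφ p hp t₀ P hP Φ Qg Qf H2 ps hr hs z D0 hD q hq e₀ ε Pz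
    X V Kf B0 H X0 δ e A c y K Lv d Bd hε hz hQf he hCe hDX hqX hsX hBd hln l u j hjm hcell
  subst hr
  set n₀ : ℝ := LF ps with hn₀
  have e1 := he.e0
  have hd0 := he.d0
  have hn0 := he.n0
  have hK0 := he.K0
  have hv0 := he.v0
  set X' : ℝ := X / nm y.1 with hX'
  have hX1 : 1 ≤ X' := hz.X1
  have hX'0 : 0 ≤ X' := by linarith
  have hlX' : Real.log X' ≤ n₀ + e₀ := he.lX' hz
  set s : ℝ := 2 * d + e₀ with hs'
  have hs0 : 0 ≤ s := by rw [hs']; linarith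
  set a : ℝ := (l : ℝ) / 3 with ha
  have ha0 : 0 ≤ a := by positivity
  set zj : ℝ := Real.log (2 ^ j) with hzj
  have hzj0 : 0 ≤ zj := Real.log_nonneg (one_le_pow₀ (by norm_num))
  have h2j : (0 : ℝ) < 2 ^ j := by positivity
  have h2j1 : (1 : ℝ) ≤ 2 ^ j := one_le_pow₀ (by norm_num)
  have eZ : (2 : ℝ) ^ j = Real.exp zj := (Real.exp_log h2j).symm
  set β : ℝ := Real.log (2 ^ u) with hβ
  have hβ0 : 0 ≤ β := Real.log_nonneg (one_le_pow₀ (by norm_num))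
  have h2u : (0 : ℝ) < 2 ^ u := by positivity
  have h2u1 : (1 : ℝ) ≤ 2 ^ u := one_le_pow₀ (by norm_num)
  have eU : (2 : ℝ) ^ u = Real.exp β := (Real.exp_log h2u).symm
  have hE : e * A ≠ 0 := mul_ne_zero hz.ep.ne_zero hz.Ap.ne_zero
  have hX0p := he.X0
  have hiA := iA_nonneg A'
  -- the range
  obtain ⟨g1, g2⟩ := he.shellJ hε hz hcell
  have hjm' : 2 * (zj + a + s + (β + 2 / 3)) ≤ Lv := hjm
  have hβX : β ≤ n₀ + e₀ + 0.7 := by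
    have h1 := hcell.U_le hX'0
    have h2 := Real.log_le_log h2u h1
    rw [Real.log_mul (by norm_num) (by linarith)] at h2
    have := log2_le1
    linarith
  have hRm0 : 0 ≤ V * nm (e * A) / (nm c * Real.exp ((l : ℝ) / 3) ^ 2) := by
    have := hz.V1
    positivity
  have hC₂0 : 0 ≤ C₂ := by linarith
  set M : ℝ := C₂ * X0 ^ ε₁ * (Real.exp d *
    (2 ^ j * 2 ^ u * (Bd * Real.exp (n₀ + K + s + s)))) with hM
  have hM0 : 0 ≤ M := by rw [hM]; positivity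
  have hcl : CellLJ h μ C₁ P (fun i => (ps.get i).1) (Pz ^ (ε / 2)) H X' V Kf B0 y.2 e A c δ y.1 p
      l u j Qf n₀ M := by
    intro n hn g hg hgδ u' hu' v hv w hw q1 q2 q3 i g₃ hg₃ s' W0 hW0 hRl hle
    have hv3 := NX_lt hX1 hv
    have hu3 := NX_lt hX1 hu'
    have hw0 : (0 : ℝ) ≤ w := Nat.cast_nonneg w
    have hv0' : (0 : ℝ) ≤ v := Nat.cast_nonneg v
    have hu0' : (0 : ℝ) ≤ u' := Nat.cast_nonneg u'
    obtain ⟨-, hgp, -⟩ := (mem_S h2u.le).1 hg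
    have hnp := ((mem_dvs hz.y2.ne_zero).1 hn)
    have hn1 : (1 : ℝ) ≤ nm n := by exact_mod_cast nm_pos.2 hnp.1.ne_zero
    have hny : (nm n : ℝ) ≤ Real.exp d := by
      have h4 : nm n ≤ nm y.2 := nm_le_of_dvd hz.y2.ne_zero hnp.2
      exact (by exact_mod_cast h4 : (nm n : ℝ) ≤ nm y.2).trans (he.ny2 hz)
    have hG1 : (1 : ℝ) ≤ nm g := by exact_mod_cast nm_pos.2 hgp.ne_zero
    have hG0 : (0 : ℝ) < nm g := by linarith
    set γ : ℝ := Real.log (nm g) with hγ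
    have hγ0 : 0 ≤ γ := Real.log_nonneg hG1
    have eG : (nm g : ℝ) = Real.exp γ := (Real.exp_log hG0).symm
    have hn1g : 0 ≤ Real.log (nm y.1) := Real.log_nonneg hz.n1
    have hgg : Real.log (nm (y.1 * g)) = Real.log (nm y.1) + γ := by
      rw [nm_mul, Nat.cast_mul, Real.log_mul (by linarith [hz.n1]) hG0.ne']
    rw [hgg] at hle
    have k1 : (u' : ℝ) / 3 + γ ≤ β := by
      have h1 : Real.exp ((u' : ℝ) / 3 + γ) ≤ Real.exp β := by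
        rw [Real.exp_add, ← eG, ← eU]; exact q1
      exact Real.exp_le_exp.1 h1
    have k2 : β ≤ 0.7 + ((u' : ℝ) / 3 + 1 / 3 + γ) := by
      have h1 := Real.log_le_log h2u q2
      rw [Real.log_mul (by norm_num) (by positivity), Real.log_mul (Real.exp_pos _).ne' hG0.ne',
        Real.log_exp] at h1
      have := log2_le1
      linarith
    have h3 := H2 (QsJ401.Tb V e A c l) X' (2 ^ j) (2 ^ u)
      (V * nm (e * A) / (nm c * Real.exp ((l : ℝ) / 3) ^ 2)) l u' v w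
      (fun y_1 B g₂ g₃ d_1 => g * B ∈ Bj X' (Nj (Pz ^ (ε / 2)) H X' V Kf B0 y.2 e A c y_1) u j ∧
        MoJ401.PJQ (fun B d => Qf (e * A * y_1) B (dl' c i) d) n g (2 ^ j)
          B g₂ g₃ d_1)
      g₃ y.1 (e * A * kw p ^ 2) (dl' c i) n g hX'0 h2j1 h2u1 hRm0
      (mul_ne_zero hE (pow_ne_zero 2 (kw_ne p))) (dl_ne_zero (QsJ401.C4_ne hz.hc) i) hz.y1
      hnp.1 hgp (fun t ht => ⟨bk_prim (Real.sqrt_nonneg V) (QsJ401.mem_Tb.1 ht).1,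
        bk_nm_le (Real.sqrt_nonneg V) (QsJ401.mem_Tb.1 ht).1⟩)
      hg₃ q1 (by
        rintro ⟨y', B', g₂, m⟩ hx
        obtain ⟨⟨x1, x2, x3, x4⟩, -, -, -, x6⟩ := mem_Q4.1 hx
        have hZg : 0 ≤ (2 : ℝ) ^ j / nm g := by positivity
        exact hQf g y' B' g₂ g₃ m hgp (GKC739.Tb_prim x1) (bk_prim hX'0 x2) (bk_prim hX'0 x3)
          (bk_prim hX'0 hg₃) ((mem_pb hZg).1 x4).2 i x6) X0 s (he.fr hz hp i) (by
        rw [eZ, ← Real.exp_add]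
        exact he.leX0 (by linarith)) (by
        exact he.leX0 (by push_cast; linarith)) s' n₀ K Lv s Bd
      (W0 ^ (2 * μ)) hBd (Real.rpow_nonneg (by linarith) _) hs0 (he.Rm hz l) (by
        show 2 * (zj + a + β) ≤ Lv
        linarith) (by
        intro h0
        have h4 := hln.ga s' W0 hW0 hRl (zj + a + s)
          ((u' : ℝ) / 3 + 2 / 3 + γ) ((v : ℝ) / 3) γ hγ0 (by linarith) (by positivity) h0
          (by linarith) (by linarith) (by linarith) (by linarith)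
        rw [show (u' : ℝ) / 3 + 2 / 3 + γ - γ + (v : ℝ) / 3 = (u' : ℝ) / 3 + 2 / 3 + v / 3 by
          ring] at h4
        exact h4)
    refine h3.trans ?_
    rw [hM]
    have hW20 : 0 ≤ W0 ^ (2 * μ) := Real.rpow_nonneg (by linarith) _
    gcongr
  have hmain := H1 A' hA' Cφ η hCφ hη hη1 φ hφ p t₀ P hP ps rfl hs z D0 hD q y.1 δ y.2 e A hq
    hz.y1 hz.δp hz.y2 (Pz ^ (ε / 2)) H X' V Kf B0 X0 hX1 (by
      have h2 : (2 : ℝ) ≤ Real.exp 1 := by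
        have := Real.add_one_le_exp (1 : ℝ); linarith
      calc 2 * X' ≤ Real.exp 1 * Real.exp (n₀ + e₀) := mul_le_mul h2 (he.X' hz) hX'0
            (Real.exp_pos _).le
        _ = Real.exp (1 + (n₀ + e₀)) := by rw [← Real.exp_add]
        _ ≤ X0 := he.leX0 (by linarith)) (by linarith [hz.V1]) hDX
    ((he.ny1 hz).trans (he.leX0 (by linarith))) hqX
    ((le_exp_of_log (by exact_mod_cast nm_pos.2 hz.δp.ne_zero) he.lδ).trans
      (he.leX0 (by linarith))) ((he.ny2 hz).trans (he.leX0 (by linarith))) hsX c hz.hc l u j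
    Qf M hM0 hcell hcl
  set pA : ℝ := Cφ ^ 2 * iA A' * (η * (η ^ A')⁻¹) with hpA
  have hpA0 : 0 ≤ pA := by positivity
  have hop : ((100 * D0) ^ ps.length) ^ 2 ≤ opL ps.length D0 := by
    unfold NPy739.opL
    exact le_mul_of_one_le_left (by positivity) (one_le_pow₀ hD)
  have hX2 : X0 ^ (2 * ε₁) = X0 ^ ε₁ * X0 ^ ε₁ := by
    rw [← Real.rpow_add hX0p]; congr 1; ring
  have hnum : 4 * (Real.exp d * Real.exp (n₀ + K + s + s)) ≤
      Real.exp (n₀ + K + 5 * d + 3 * e₀) := by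
    calc 4 * (Real.exp d * Real.exp (n₀ + K + s + s))
        ≤ Real.exp 4 * (Real.exp d * Real.exp (n₀ + K + s + s)) := by
          have h4 : (4 : ℝ) ≤ Real.exp 4 := by
            have := Real.add_one_le_exp (4 : ℝ); linarith
          gcongr
      _ = Real.exp (4 + (d + (n₀ + K + s + s))) := by
          rw [Real.exp_add 4, Real.exp_add d]
      _ ≤ _ := by
          refine Real.exp_le_exp.2 ?_
          rw [hs']
          linarith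
  have hC₁0 : 0 ≤ C₁ := by linarith
  have hP1 : 0 ≤ C₁ * C₂ * pA * (X0 ^ ε₁ * X0 ^ ε₁) * (1 + |t₀|) ^ A' *
      ((100 * D0) ^ ps.length) ^ 2 * Bd := by
    positivity
  calc (2 / 2 ^ j : ℝ) * (2 / 2 ^ u) * _ ≤ (2 / 2 ^ j : ℝ) * (2 / 2 ^ u) *
        (((100 * D0) ^ ps.length) ^ 2 * (C₁ * pA * (1 + |t₀|) ^ A' * X0 ^ ε₁ * M)) :=
        mul_le_mul_of_nonneg_left hmain (by positivity)
    _ = (C₁ * C₂ * pA * (X0 ^ ε₁ * X0 ^ ε₁) * (1 + |t₀|) ^ A' *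
        ((100 * D0) ^ ps.length) ^ 2 * Bd) * (4 * (Real.exp d * Real.exp (n₀ + K + s + s))) := by
        rw [hM]
        field_simp
        ring
    _ ≤ (C₁ * C₂ * pA * (X0 ^ ε₁ * X0 ^ ε₁) * (1 + |t₀|) ^ A' *
        ((100 * D0) ^ ps.length) ^ 2 * Bd) * Real.exp (n₀ + K + 5 * d + 3 * e₀) :=
        mul_le_mul_of_nonneg_left hnum hP1
    _ ≤ (C₁ * C₂ * pA * (X0 ^ ε₁ * X0 ^ ε₁) * (1 + |t₀|) ^ A' *
        opL ps.length D0 * Bd) * Real.exp (n₀ + K + 5 * d + 3 * e₀) := by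
        refine mul_le_mul_of_nonneg_right ?_ (Real.exp_pos _).le
        refine mul_le_mul_of_nonneg_right ?_ hBd
        exact mul_le_mul_of_nonneg_left hop (by positivity)
    _ = _ := by rw [hX2]; ring


end Crest.Agent.R017.QsJ401
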