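import Crest.Agent.R017.QsJk_401
import Crest.Agent.R017.RGc_64

/-!
# Row 17, block C70, leaf E2 (helper401): the cells of a difference of two flagged lists

* `cellsNx`, `cellsJx` : the hypotheses (hN), (hJ) of `Qs_cellsJx` for `a - ζ b`
* `jmL_RR` : the joint cells at the level of `V`
* `hmx_E` : the hypotheses on the moments
-/

set_option autoImplicit false
set_option linter.unusedVariables false
set_option maxHeartbeats 800000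

noncomputable section

open Finset
open scoped ComplexConjugate

namespace Crest.Agent.R017.QsJ401

open Crest.Agent.R012 Crest.Agent.R012.Eis Crest.Agent.R012.LS2
open Crest.Agent.R017.B770
open Crest.Agent.R017.Prov71
open Crest.Agent.R017.CM106 (CS FS)
open Crest.Agent.R017.FE47 (cx PU)
open Crest.Agent.R017.HP842 (pc sqc)
open Crest.Agent.R017.Leg381 (alf alF Pf LF LF_get)
open Crest.Agent.R017.XRG106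
open Crest.Agent.R017.X6C180 (IX dl')
open Crest.Agent.R017.Win813 (iA iA_nonneg WK)
open Crest.Agent.R017.RGw813 (T9)
open Crest.Agent.R017.H1401 (pb mem_pb WM HW DN)
open Crest.Agent.R017.MoF106
open Crest.Agent.R017.MoL106
open Crest.Agent.R017.RC106
open Crest.Agent.R017.QsO83 (bw FS_bw)
open Crest.Agent.R017.E2440
open Crest.Agent.R017.E2sp579 (fP MH)
open Crest.Agent.R017.NPy739 (MNc cell_two opL opL_nonneg MNc_nonneg MNc_spec)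
open Crest.Agent.R017.E2D401 (Bj)
open Div277 (tau dvs mem_dvs nm_le_of_dvd)

/-- the sequence of a flagged list -/
lemma FS_ps {h : ℝ → ℝ} {c₀ : ℝ} (hpu : PU h c₀) {P : DPar} (hP : P.OK) (q : Eis) (z D0 : ℝ)
    (ps : List Pf) : FS (sqc q (alF z D0 P h ps)) :=
  HP842.FS.sqc (RG64.FS_alF (bump_of_cs hpu.cs) hP z D0 ps) q

open Classical in
/-- **the separate cells of a difference** -/
theorem cellsNx {h : ℝ → ℝ} {c₀ : ℝ} (hpu : PU h c₀) {R : ℝ} (hR0 : 0 ≤ R)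
    (hR : ∀ u, cx h u ≠ 0 → |u| ≤ R) {μ : ℝ} (hμ : 0 ≤ μ) (r : ℕ) {ε₁ : ℝ} (hε₁ : 0 < ε₁) :
    ∃ C : ℝ, 1 ≤ C ∧ ∀ C₂ : ℝ, 1 ≤ C₂ → ∀ A' : ℕ, 2 * (r * μ) + 2 ≤ A' →
      ∀ Cφ η : ℝ, 0 ≤ Cφ → 0 < η → η ≤ 1 →
      ∀ φ : ℝ → ℝ, WK Cφ η A' φ → ∀ p ∈ T9, ∀ (t₀ : ℝ) (P : DPar) (_ : P.OK)
      (Φ : ℝ → ℝ → List Pq → ℝ) (Qg : Eis → Prop) (Qf : Eis → Eis → Eis → Eis → Prop)
      (_ : R2C P h Qg Φ ε₁ C₂)
      (ps ps' : List Pf), ps.length = r → ps'.length = r → LF ps' = LF ps →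
      (∀ x ∈ ps, 0 ≤ x.1.z) → (∀ x ∈ ps', 0 ≤ x.1.z) → ∀ z D0 : ℝ, 1 ≤ D0 →
      ∀ q : Eis, IsPrim q → ∀ (e₀ ε Pz X V Kf B0 H X0 : ℝ) (δ e A c : Eis) (y : Eis × Eis)
      (K Lv d Bd : ℝ), 0 < ε → Sz Pz X V Kf H δ e A c y → QfOK e A c p Qf Qg →
      Env e₀ ε Pz X V Kf B0 H X0 δ e (LF ps) K Lv d → C ≤ e₀ → D0 ^ r ≤ X0 → (nm q : ℝ) ≤ X0 →
      (∀ x ∈ ps, Real.exp x.1.z ≤ X0) → (∀ x ∈ ps', Real.exp x.1.z ≤ X0) → 0 ≤ Bd →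
      PLnF Φ μ C (fun i => (ps.get i).1) (LF ps) K Lv (17 * d + 8 * e₀) (2 * e₀) Bd →
      PLnF Φ μ C (fun i => (ps'.get i).1) (LF ps) K Lv (17 * d + 8 * e₀) (2 * e₀) Bd →
      ∀ ζ : ℂ, ‖ζ‖ ≤ 1 →
      ∀ l u j, CellN (Pz ^ (ε / 2)) H (X / nm y.1) V Kf B0 y.2 e A c
        (jmL (2 * d + e₀) Lv l) l u j →
      ∀ n ∈ dvs y.2, (2 / 2 ^ j : ℝ) * ((nm n : ℝ) * ∑ j₂ ∈ Tb V e A c l,
        ∑ B ∈ (bk (X / nm y.1) u).filter (fun B =>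
          j < Nj (Pz ^ (ε / 2)) H (X / nm y.1) V Kf B0 y.2 e A c j₂ B ∧
            ¬ jmL (2 * d + e₀) Lv l (blk B) j),
          MNc A' V e A c (X / nm y.1) Qf δ y.1 φ p t₀ j₂ B j n
            (fun m => sqc q (alF z D0 P h ps) m - ζ * sqc q (alF z D0 P h ps') m)) ≤
      4 * C * C₂ * (Cφ ^ 2 * iA A' * (η * (η ^ A')⁻¹)) * X0 ^ (2 * ε₁) * (1 + |t₀|) ^ A' *
        opL r D0 * (Bd * Real.exp (LF ps + K + 5 * d + 3 * e₀)) := by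
  obtain ⟨C, hC, H1⟩ := cellsNF hpu hR0 hR hμ r hε₁
  refine ⟨C, hC, ?_⟩
  intro C₂ hC₂ A' hA' Cφ η hCφ hη hη1 φ hφ p hp t₀ P hP Φ Qg Qf H2 ps ps' hr hr' hLF hs hs' z D0
    hD q hq e₀ ε Pz X V Kf B0 H X0 δ e A c y K Lv d Bd hε hz hQf he hCe hDX hqX hsX hsX' hBd hln
    hln' ζ hζ l u j hcell n hn
  have hX'0 : 0 ≤ X / nm y.1 := by linarith [hz.X1]
  have a1 := H1 C₂ hC₂ A' hA' Cφ η hCφ hη hη1 φ hφ p hp t₀ P hP Φ Qg Qf H2 ps hr hs z D0 hD q hq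
    e₀ ε Pz X V Kf B0 H X0 δ e A c y K Lv d Bd hε hz hQf he hCe hDX hqX hsX hBd hln l u j hcell
    n hn
  have a2 := H1 C₂ hC₂ A' hA' Cφ η hCφ hη hη1 φ hφ p hp t₀ P hP Φ Qg Qf H2 ps' hr' hs' z D0 hD q
    hq e₀ ε Pz X V Kf B0 H X0 δ e A c y K Lv d Bd hε hz hQf (by rw [hLF]; exact he) hCe hDX hqX
    hsX' hBd (by rw [hLF]; exact hln') l u j hcell n hn
  rw [hLF] at a2
  have hfa := FS_ps hpu hP q z D0 ps
  have hfb := FS_ps hpu hP q z D0 ps'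
  have h1 : ∑ j₂ ∈ Tb V e A c l,
      ∑ B ∈ (bk (X / nm y.1) u).filter (fun B =>
          j < Nj (Pz ^ (ε / 2)) H (X / nm y.1) V Kf B0 y.2 e A c j₂ B ∧
            ¬ jmL (2 * d + e₀) Lv l (blk B) j),
        MNc A' V e A c (X / nm y.1) Qf δ y.1 φ p t₀ j₂ B j n
          (fun m => sqc q (alF z D0 P h ps) m - ζ * sqc q (alF z D0 P h ps') m) ≤
      ∑ j₂ ∈ GKC739.Tb V e A c l, ∑ B ∈ bk (X / nm y.1) u,
        MNc A' V e A c (X / nm y.1) Qf δ y.1 φ p t₀ j₂ B j n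
          (fun m => sqc q (alF z D0 P h ps) m - ζ * sqc q (alF z D0 P h ps') m) := by
    rw [RC106.Tb_eq]
    refine Finset.sum_le_sum fun t ht => ?_
    refine Finset.sum_le_sum_of_subset_of_nonneg (Finset.filter_subset _ _) fun B hB _ => ?_
    exact MNc_nonneg (GKC739.mem_Tb.1 ht).2
  have h2 := cell_two (J := A') (V := V) (e := e) (A := A) (c := c) hX'0 (Qf := Qf) (δ := δ)
    hz.y1 (φ := φ) (p := p) (t₀ := t₀) (l := l) (u := u) (j := j) (n := n) hfa hfb hζ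
  rw [RC106.Tb_eq] at a1 a2
  have h3 := h1.trans h2
  have hn0 : (0 : ℝ) ≤ nm n := Nat.cast_nonneg _
  have h2j : (0 : ℝ) < 2 ^ j := by positivity
  have h4 := mul_le_mul_of_nonneg_left (mul_le_mul_of_nonneg_left h3 hn0)
    (show (0 : ℝ) ≤ 2 / 2 ^ j by positivity)
  refine h4.trans ?_
  have e1 : ∀ S1 S2 : ℝ, (2 / 2 ^ j : ℝ) * ((nm n : ℝ) * (2 * (S1 + S2))) =
      2 * ((2 / 2 ^ j : ℝ) * ((nm n : ℝ) * S1) + (2 / 2 ^ j : ℝ) * ((nm n : ℝ) * S2)) := by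
    intro S1 S2; ring
  rw [e1]
  refine (mul_le_mul_of_nonneg_left (add_le_add a1 a2) (by norm_num)).trans (le_of_eq ?_)
  ring

/-- **the joint cells of a difference** -/
theorem cellsJx {h : ℝ → ℝ} {c₀ : ℝ} (hpu : PU h c₀) {R : ℝ} (hR0 : 0 ≤ R)
    (hR : ∀ u, cx h u ≠ 0 → |u| ≤ R) {μ : ℝ} (hμ : 0 ≤ μ) (r : ℕ) {ε₁ : ℝ} (hε₁ : 0 < ε₁) :
    ∃ C : ℝ, 1 ≤ C ∧ ∀ C₂ : ℝ, 1 ≤ C₂ → ∀ A' : ℕ, 2 * (r * μ) + 2 ≤ A' →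
      ∀ Cφ η : ℝ, 0 ≤ Cφ → 0 < η → η ≤ 1 →
      ∀ φ : ℝ → ℝ, WK Cφ η A' φ → ∀ p ∈ T9, ∀ (t₀ : ℝ) (P : DPar) (_ : P.OK)
      (Φ : ℝ → ℝ → List Pq → ℝ) (Qg : Eis → Prop) (Qf : Eis → Eis → Eis → Eis → Prop)
      (_ : GaC P h Qg Φ ε₁ C₂)
      (ps ps' : List Pf), ps.length = r → ps'.length = r → LF ps' = LF ps →
      (∀ x ∈ ps, 0 ≤ x.1.z) → (∀ x ∈ ps', 0 ≤ x.1.z) → ∀ z D0 : ℝ, 1 ≤ D0 →
      ∀ q : Eis, IsPrim q → ∀ (e₀ ε Pz X V Kf B0 H X0 : ℝ) (δ e A c : Eis) (y : Eis × Eis)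
      (K Lv d Bd : ℝ), 0 < ε → Sz Pz X V Kf H δ e A c y → QfOK e A c p Qf Qg →
      Env e₀ ε Pz X V Kf B0 H X0 δ e (LF ps) K Lv d → C ≤ e₀ → D0 ^ r ≤ X0 → (nm q : ℝ) ≤ X0 →
      (∀ x ∈ ps, Real.exp x.1.z ≤ X0) → (∀ x ∈ ps', Real.exp x.1.z ≤ X0) → 0 ≤ Bd →
      PLnF Φ μ C (fun i => (ps.get i).1) (LF ps) K Lv (17 * d + 8 * e₀) (2 * e₀) Bd →
      PLnF Φ μ C (fun i => (ps'.get i).1) (LF ps) K Lv (17 * d + 8 * e₀) (2 * e₀) Bd →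
      ∀ ζ : ℂ, ‖ζ‖ ≤ 1 →
      ∀ l u j, jmL (2 * d + e₀) Lv l u j →
      CellJ (Pz ^ (ε / 2)) H (X / nm y.1) V Kf B0 y.2 e A c l u j →
      (2 / 2 ^ j : ℝ) * (2 / 2 ^ u) * ∑ j₂ ∈ Tb V e A c l,
        FJQ A' (Pz ^ (ε / 2)) H (X / nm y.1) V Kf B0 y.2 y.1 δ e A c Qf
          (bw φ p t₀ (fun m => sqc q (alF z D0 P h ps) m - ζ * sqc q (alF z D0 P h ps') m))
          j₂ u j ≤
      4 * C * C₂ * (Cφ ^ 2 * iA A' * (η * (η ^ A')⁻¹)) * X0 ^ (2 * ε₁) * (1 + |t₀|) ^ A' *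
        opL r D0 * (Bd * Real.exp (LF ps + K + 5 * d + 3 * e₀)) := by
  obtain ⟨C, hC, H1⟩ := cellsJF hpu hR0 hR hμ r hε₁
  refine ⟨C, hC, ?_⟩
  intro C₂ hC₂ A' hA' Cφ η hCφ hη hη1 φ hφ p hp t₀ P hP Φ Qg Qf H2 ps ps' hr hr' hLF hs hs' z D0
    hD q hq e₀ ε Pz X V Kf B0 H X0 δ e A c y K Lv d Bd hε hz hQf he hCe hDX hqX hsX hsX' hBd hln
    hln' ζ hζ l u j hjm hcell
  have hX'0 : 0 ≤ X / nm y.1 := by linarith [hz.X1]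
  have a1 := H1 C₂ hC₂ A' hA' Cφ η hCφ hη hη1 φ hφ p hp t₀ P hP Φ Qg Qf H2 ps hr hs z D0 hD q hq
    e₀ ε Pz X V Kf B0 H X0 δ e A c y K Lv d Bd hε hz hQf he hCe hDX hqX hsX hBd hln l u j hjm
    hcell
  have a2 := H1 C₂ hC₂ A' hA' Cφ η hCφ hη hη1 φ hφ p hp t₀ P hP Φ Qg Qf H2 ps' hr' hs' z D0 hD q
    hq e₀ ε Pz X V Kf B0 H X0 δ e A c y K Lv d Bd hε hz hQf (by rw [hLF]; exact he) hCe hDX hqX
    hsX' hBd (by rw [hLF]; exact hln') l u j hjm hcell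
  rw [hLF] at a2
  have hfa := FS_ps hpu hP q z D0 ps
  have hfb := FS_ps hpu hP q z D0 ps'
  have h2 := FJQ_two (Jt := A') (T := Pz ^ (ε / 2)) (H := H) (V := V) (K := Kf) (B0 := B0) hX'0
    (ν := y.2) (e := e) (A := A) (c := c) (δ := δ) hz.y1 (Qf := Qf) (φ := φ) (p := p) (t₀ := t₀)
    (l := l) (u := u) (j := j) hfa hfb hζ
  have h4 := mul_le_mul_of_nonneg_left h2 (show (0 : ℝ) ≤ (2 / 2 ^ j) * (2 / 2 ^ u) by positivity)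
  refine h4.trans ?_
  rw [mul_left_comm, mul_add]
  refine (mul_le_mul_of_nonneg_left (add_le_add a1 a2) (by norm_num)).trans (le_of_eq ?_)
  ring

/-! ### the joint cells at the level of `V` -/

lemma jmL_jmV {V s₁ Lv : ℝ} (hs : 0 ≤ s₁) (hL : Lv ≤ Real.log V) {l u j : ℕ}
    (h : jmL s₁ Lv l u j) : jmV V l u j := by
  unfold RC106.jmL at h
  unfold jmV
  linarith

lemma jmL_RR {V s₁ Lv : ℝ} {e A c j₂ : Eis} (he : e ≠ 0) (hA : A ≠ 0) (hc : c ∈ C4)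
    (hs : 0 ≤ s₁) (hL : Lv ≤ Real.log V) {l u j : ℕ} (h : jmL s₁ Lv l u j)
    (hj : j₂ ∈ Tb V e A c l) : ((2 : ℝ) ^ j * 2 ^ u) ^ 2 ≤ 60 * RR V e A c j₂ :=
  jmV_RR he hA hc (jmL_jmV hs hL h) hj

/-- **the hypotheses on the moments of one `j₂`** (exceptional class) -/
theorem hmx_E {Jt : ℕ} {ε Pz X V K H : ℝ} {k : ℕ} {δ e A c : Eis} {y : Eis × Eis}
    (hz : Sz Pz X V K H δ e A c y) {x : Eis → ℂ} (hx : FS x) {φ : ℝ → ℝ} {p : ℕ × ℕ} {t₀ : ℝ}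
    {Qf : Eis → Eis → Eis → Eis → Prop} {s₁ Lv : ℝ} (hs₁ : 0 ≤ s₁) (hL : Lv ≤ Real.log V)
    {l : ℕ} {j₂ : Eis} (hj₂ : j₂ ∈ Tb V e A c l) {Ex : Eis → ℕ → ℝ} (hEx : ∀ B j, 0 ≤ Ex B j)
    (hMH : MH (WM (RR V e A c j₂)) (fun n j g₂ g₃ d => DN n g₂ g₃ d ∧ (2 : ℝ) ^ j / 2 < nm d)
      (fun B τ d => ¬ Qf (e * A * j₂) B τ d) (ag (bw φ p t₀ x) δ y.1) (e * A * j₂) c y.2
      (X / nm y.1) Jt (Nj (Pz ^ (ε / 2)) H (X / nm y.1) V K (2 ^ k) y.2 e A c j₂) Ex) :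
    Hmx (1 + 60) Jt ε Pz X V K H (2 ^ k) (bw φ p t₀ x) δ e A c y j₂ (jmL s₁ Lv l)
      (fun B j n => MNc Jt V e A c (X / nm y.1) Qf δ y.1 φ p t₀ j₂ B j n x)
      (fun u j => FJQ Jt (Pz ^ (ε / 2)) H (X / nm y.1) V K (2 ^ k) y.2 y.1 δ e A c Qf
        (bw φ p t₀ x) j₂ u j) Ex := by
  have hR1 : 1 ≤ RR V e A c j₂ := (mem_Tb.1 hj₂).2
  have hX'0 : 0 ≤ X / nm y.1 := by linarith [hz.X1]
  have hR0 : 0 ≤ RR V e A c j₂ := by linarith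
  have hag := E2440.fs_ag (δ := δ) (FS_bw (φ := φ) (p := p) (t := t₀) hx) hz.y1
  refine ⟨fun B j n => MNc_nonneg hR1, fun u j => FJQ_nonneg hR0 u j, hEx, ?_, ?_, ?_⟩
  · intro B hB j hj _ i t
    refine mo_x (Mn := fun B j => ∑ n ∈ dvs y.2, (nm n : ℝ) *
      MNc Jt V e A c (X / nm y.1) Qf δ y.1 φ p t₀ j₂ B j n x)
      (Q := fun B τ d => Qf (e * A * j₂) B τ d) ?_ hMH hB hj i t
    intro B' hB' i' t' j' _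
    exact MNc_spec hX'0 hz.y1 hR1 ((mem_S hX'0).1 hB').2.1.ne_zero j' y.2 hx i' t'
  · intro u j hj _ i t
    have h := moJ_x (T := Pz ^ (ε / 2)) (H := H) (K := K) (B0 := 2 ^ k) (C0 := 60) (Jt := Jt)
      (Qf := Qf) hX'0 hz.y2.ne_zero hR0 hag.fin (by norm_num) hMH (u := u) (j := j)
      (jmL_RR hz.ep.ne_zero hz.Ap.ne_zero hz.hc hs₁ hL hj hj₂) i t
    exact h
  · intro u j _ _
    exact nc_pow k u

end Crest.Agent.R017.QsJ401
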