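import Crest.Agent.R017.QsJl_401

/-!
# Row 17, block C70, leaf E2 (helper401): the natural cells from the pair lines

* `WbF` : the weights of a separate cell
* `cellH_F`, `cellLJ_F` : the hypotheses `CellH`, `CellLJ` of the list theorems from `PLnF`
-/

set_option autoImplicit false
set_option linter.unusedVariables false
set_option maxHeartbeats 1600000

noncomputable section

open Finset
open scoped ComplexConjugate

namespace Crest.Agent.R017.QsJ401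

open Crest.Agent.R012 Crest.Agent.R012.Eis Crest.Agent.R012.LS2
open Crest.Agent.R017.B770
open Crest.Agent.R017.Prov71
open Crest.Agent.R017.CM106 (CS FS)
open Crest.Agent.R017.FE47 (cx PU)
open Crest.Agent.R017.HP842 (pc sqc)
open Crest.Agent.R017.Leg381 (alf alF Pf LF LF_get)
open Crest.Agent.R017.XRG106
open Crest.Agent.R017.X6C180 (IX dl')
open Crest.Agent.R017.Win813 (iA iA_nonneg WK)
open Crest.Agent.R017.RGw813 (T9)
open Crest.Agent.R017.H1401 (pb mem_pb WM HW DN)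
open Crest.Agent.R017.MoF106
open Crest.Agent.R017.MoL106
open Crest.Agent.R017.RC106
open Crest.Agent.R017.QsO83 (bw FS_bw)
open Crest.Agent.R017.E2440
open Crest.Agent.R017.MoJ401 (CellXJ)
open Crest.Agent.R017.E2sp579 (fP)
open Crest.Agent.R017.NPy739 (MNc CellH CellL cell_list opL opL_nonneg MNc_nonneg)
open Crest.Agent.R017.E2D401 (Bj)
open Div277 (tau dvs mem_dvs nm_le_of_dvd)

/-- the weights of a separate cell -/
def WbF (Lv z a s : ℝ) : ℕ → ℕ → ℝ :=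
  fun v _ => 3 * Real.exp (2 / 3) * Real.exp ((v : ℝ) / 3 + nr Lv (z + a) - a + s)

/-- **the natural cells of a separate cell** -/
theorem cellH_F {P : DPar} {h : ℝ → ℝ} {Qg : Eis → Prop} {Φ : ℝ → ℝ → List Pq → ℝ} {ε₁ C₂ : ℝ}
    (H2 : R2C P h Qg Φ ε₁ C₂) (hC₂ : 1 ≤ C₂) {μ C₁ : ℝ} {r : ℕ} {s : Fin r → Pq}
    {Qf : Eis → Eis → Eis → Eis → Prop} {p : ℕ × ℕ} (hp : p ∈ T9)
    {e₀ ε Pz X V Kf B0 H X0 : ℝ} {δ e A c : Eis} {y : Eis × Eis} {n₀ K Lv d Bd : ℝ}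
    (hε : 0 < ε) (hz : Sz Pz X V Kf H δ e A c y) (hQf : QfOK e A c p Qf Qg)
    (he : Env e₀ ε Pz X V Kf B0 H X0 δ e n₀ K Lv d) (hCe : C₁ ≤ e₀)
    (hsum : ∑ k, (s k).z = n₀) (hBd : 0 ≤ Bd)
    (hln : PLnF Φ μ C₁ s n₀ K Lv (17 * d + 8 * e₀) (2 * e₀) Bd) {l u j : ℕ}
    (hcell : CellN (Pz ^ (ε / 2)) H (X / nm y.1) V Kf B0 y.2 e A c
      (jmL (2 * d + e₀) Lv l) l u j) {n : Eis} (hn : n ∈ dvs y.2) :
    ((∀ v < NX (X / nm y.1), ∀ w < NX (X / nm y.1), ∀ g₂ ∈ bk (X / nm y.1) v,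
      ∀ g₃ ∈ bk (X / nm y.1) w,
      WM (V * nm (e * A) / (nm c * Real.exp ((l : ℝ) / 3) ^ 2)) (2 ^ j / (nm n : ℝ) ^ 3) g₂ g₃ ≤
        WbF Lv (Real.log (2 ^ j)) ((l : ℝ) / 3) (2 * d + e₀) v w) ∧
    (∀ v < NX (X / nm y.1), ∀ w < NX (X / nm y.1),
      0 ≤ WbF Lv (Real.log (2 ^ j)) ((l : ℝ) / 3) (2 * d + e₀) v w)) ∧
    CellH h μ C₁ P s V e A c (X / nm y.1) Qf y.1 p l u j n
      (WbF Lv (Real.log (2 ^ j)) ((l : ℝ) / 3) (2 * d + e₀))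
      (3 * Real.exp (2 / 3) * (C₂ * X0 ^ ε₁ *
        (2 ^ j * (Bd * Real.exp (n₀ + K + (2 * d + e₀) + (2 * d + e₀) + 2 / 3))))) := by
  have e1 := he.e0
  have hd0 := he.d0
  have hn0 := he.n0
  have hK0 := he.K0
  have hv0 := he.v0
  set X' : ℝ := X / nm y.1 with hX'
  have hX1 : 1 ≤ X' := hz.X1
  have hX'0 : 0 ≤ X' := by linarith
  have hlX' : Real.log X' ≤ n₀ + e₀ := he.lX' hz
  set sx : ℝ := 2 * d + e₀ with hs'
  have hs0 : 0 ≤ sx := by rw [hs']; linarith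
  set a : ℝ := (l : ℝ) / 3 with ha
  have ha0 : 0 ≤ a := by positivity
  set zj : ℝ := Real.log (2 ^ j) with hzj
  have hzj0 : 0 ≤ zj := Real.log_nonneg (one_le_pow₀ (by norm_num))
  have h2j : (0 : ℝ) < 2 ^ j := by positivity
  have h2j1 : (1 : ℝ) ≤ 2 ^ j := one_le_pow₀ (by norm_num)
  have eZ : (2 : ℝ) ^ j = Real.exp zj := (Real.exp_log h2j).symm
  have hE : e * A ≠ 0 := mul_ne_zero hz.ep.ne_zero hz.Ap.ne_zero
  have hX0p := he.X0
  -- the range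
  obtain ⟨j₂, hj₂, B, hB, hj, hjm⟩ := hcell
  have hcell' : GKC739.Cell (Pz ^ (ε / 2)) H V Kf X' B0 y.2 e A c l u j :=
    ⟨j₂, by rw [← RC106.Tb_eq]; exact hj₂, B, hB, hj⟩
  obtain ⟨g1, g2⟩ := he.shell hε hz hcell'
  have hnj : Lv < 2 * (zj + a + sx + ((u : ℝ) / 3 + 1 / 3 + 0.7 + 2 / 3)) := by
    unfold jmL at hjm
    push Not at hjm
    have := blk_bk hX'0 hB
    linarith
  have hub : (u : ℝ) / 3 ≤ Real.log X' := by
    have h3 := (bk_nm_ge hX'0 hB).trans ((mem_bk hX'0).1 hB).1.1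
    exact (Real.le_log_iff_exp_le (by linarith)).2 h3
  -- the weights
  set Wb : ℕ → ℕ → ℝ := fun v _ => 3 * Real.exp (2 / 3) *
    Real.exp ((v : ℝ) / 3 + nr Lv (zj + a) - a + sx) with hWbd
  have hn1 : (1 : ℝ) ≤ nm n := by
    have := (mem_dvs hz.y2.ne_zero).1 hn
    exact_mod_cast nm_pos.2 this.1.ne_zero
  have hny : (nm n : ℝ) ≤ Real.exp d := by
    have h3 := (mem_dvs hz.y2.ne_zero).1 hn
    have h4 : nm n ≤ nm y.2 := nm_le_of_dvd hz.y2.ne_zero h3.2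
    exact (by exact_mod_cast h4 : (nm n : ℝ) ≤ nm y.2).trans (he.ny2 hz)
  have hRm0 : 0 ≤ V * nm (e * A) / (nm c * Real.exp ((l : ℝ) / 3) ^ 2) := by
    have := hz.V1
    positivity
  have hWb : ∀ v < NX X', ∀ w < NX X', ∀ g₂ ∈ bk X' v, ∀ g₃ ∈ bk X' w,
      WM (V * nm (e * A) / (nm c * Real.exp ((l : ℝ) / 3) ^ 2)) (2 ^ j / (nm n : ℝ) ^ 3) g₂ g₃ ≤
        Wb v w := by
    intro v hv w hw g₂ hg₂ g₃ hg₃
    have hg3 : (1 : ℝ) ≤ nm g₃ := by exact_mod_cast nm_pos.2 (bk_prim hX'0 hg₃).ne_zero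
    have h3 := WM_cell (V := Lv) (s := sx) (a := a) (g := (v : ℝ) / 3) (w := 0) (i := zj + a)
      hs0 ha0 le_rfl (by positivity) hRm0 (by positivity : (0 : ℝ) ≤ 2 ^ j / (nm n : ℝ) ^ 3)
      (he.Rm hz l) (by
        have h4 : (2 : ℝ) ^ j / (nm n : ℝ) ^ 3 ≤ 2 ^ j := div_le_self h2j.le (one_le_pow₀ hn1)
        refine h4.trans (le_of_eq ?_)
        rw [eZ]; congr 1; ring) (bk_nm_ge hX'0 hg₂) (bk_nm_le hX'0 hg₂)
      (by rw [Real.exp_zero]; exact hg3)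
    refine h3.trans (le_of_eq ?_)
    rw [hWbd]
    beta_reduce
    congr 2
    ring
  have hWb0 : ∀ v < NX X', ∀ w < NX X', 0 ≤ Wb v w := fun v _ w _ => by
    rw [hWbd]; positivity
  set M : ℝ := 3 * Real.exp (2 / 3) * (C₂ * X0 ^ ε₁ *
    (2 ^ j * (Bd * Real.exp (n₀ + K + sx + sx + 2 / 3)))) with hM
  have hC₂0 : 0 ≤ C₂ := by linarith
  have hM0 : 0 ≤ M := by rw [hM]; positivity
  have hcl : CellH h μ C₁ P s V e A c X' Qf y.1 p l u j n Wb M := by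
    intro v hv w hw hWp i g₃ hg₃ s' W0 hW0 hRl hle
    rw [hsum] at hle ⊢
    have hv3 := NX_lt hX1 hv
    have hn1g : 0 ≤ Real.log (nm y.1) := Real.log_nonneg hz.n1
    have hw0 : (0 : ℝ) ≤ w := Nat.cast_nonneg w
    have hv0' : (0 : ℝ) ≤ v := Nat.cast_nonneg v
    have hu0' : (0 : ℝ) ≤ u := Nat.cast_nonneg u
    have h3 := H2 (GKC739.Tb V e A c l) X' (2 ^ j) l u v w
      (fun y B => fP (fun g₂ g₃ d => DN n g₂ g₃ d ∧ (2 : ℝ) ^ j / 2 < nm d)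
        (Qf (e * A * y) B (dl' c i)))
      g₃ y.1 (e * A * kw p ^ 2) (dl' c i) hX'0 h2j1
      (mul_ne_zero hE (pow_ne_zero 2 (kw_ne p))) (dl_ne_zero (QsJ401.C4_ne hz.hc) i) hz.y1
      (fun t ht => ⟨GKC739.Tb_prim ht, bk_nm_le (Real.sqrt_nonneg V) (GKC739.mem_Tb.1 ht).1⟩)
      hg₃ (by
        rintro ⟨y', B', g₂, m⟩ hx
        obtain ⟨⟨x1, x2, x3, x4⟩, -, x5⟩ := mem_Q4.1 hx
        exact hQf.one (GKC739.Tb_prim x1) (bk_prim hX'0 x2) (bk_prim hX'0 x3)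
          (bk_prim hX'0 hg₃) ((mem_pb h2j.le).1 x4).2 i x5.2) X0 (by
        rw [eZ, ← Real.exp_add]
        exact he.leX0 (by linarith)) (by
        exact he.leX0 (by push_cast; linarith)) sx (he.fr hz hp i) s' n₀ K Lv sx Bd
      (W0 ^ (2 * μ)) hBd (Real.rpow_nonneg (by linarith) _) (by
        intro h0
        refine (hln.r2 s' W0 hW0 hRl (zj + a + sx)
          ((u : ℝ) / 3 + 2 / 3) ((v : ℝ) / 3) (by positivity) (by positivity) h0 (by linarith)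
          (by linarith) (by linarith) (by linarith)))
    have hW1 : Wb v w = 3 * Real.exp (2 / 3) *
      Real.exp ((v : ℝ) / 3 + nr Lv (zj + a) - a + sx) := rfl
    rw [hW1, hM]
    calc _ = 3 * Real.exp (2 / 3) * (Real.exp ((v : ℝ) / 3 + nr Lv (zj + a) - a + sx) *
          Real.exp ((w : ℝ) / 3) * ∑ x ∈ Q4 (GKC739.Tb V e A c l) X' (2 ^ j) u v
            (fun y B => fP (fun g₂ g₃ d => DN n g₂ g₃ d ∧ (2 : ℝ) ^ j / 2 < nm d)
              (Qf (e * A * y) B (dl' c i))) g₃,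
          ∏ k, ‖CS (pc h ((s' k).pc P)) (f4 (e * A * kw p ^ 2) (dl' c i) x)‖ ^ 2) := by ring
      _ ≤ _ := mul_le_mul_of_nonneg_left h3 (by positivity)
      _ = _ := by ring
  exact ⟨⟨hWb, hWb0⟩, hcl⟩

/-- **the natural cells of a joint cell** -/
theorem cellLJ_F {P : DPar} {h : ℝ → ℝ} {Qg : Eis → Prop} {Φ : ℝ → ℝ → List Pq → ℝ} {ε₁ C₂ : ℝ}
    (H2 : GaC P h Qg Φ ε₁ C₂) (hC₂ : 1 ≤ C₂) {μ C₁ : ℝ} {r : ℕ} {s : Fin r → Pq}
    {Qf : Eis → Eis → Eis → Eis → Prop} {p : ℕ × ℕ} (hp : p ∈ T9)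
    {e₀ ε Pz X V Kf B0 H X0 : ℝ} {δ e A c : Eis} {y : Eis × Eis} {n₀ K Lv d Bd : ℝ}
    (hε : 0 < ε) (hz : Sz Pz X V Kf H δ e A c y) (hQf : QfOK e A c p Qf Qg)
    (he : Env e₀ ε Pz X V Kf B0 H X0 δ e n₀ K Lv d) (hCe : C₁ ≤ e₀) (hBd : 0 ≤ Bd)
    (hln : PLnF Φ μ C₁ s n₀ K Lv (17 * d + 8 * e₀) (2 * e₀) Bd) {l u j : ℕ}
    (hjm : jmL (2 * d + e₀) Lv l u j)
    (hcell : CellJ (Pz ^ (ε / 2)) H (X / nm y.1) V Kf B0 y.2 e A c l u j) :
    CellLJ h μ C₁ P s (Pz ^ (ε / 2)) H (X / nm y.1) V Kf B0 y.2 e A c δ y.1 p l u j Qf n₀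
      (C₂ * X0 ^ ε₁ * (Real.exp d *
        (2 ^ j * 2 ^ u * (Bd * Real.exp (n₀ + K + (2 * d + e₀) + (2 * d + e₀)))))) := by
  have e1 := he.e0
  have hd0 := he.d0
  have hn0 := he.n0
  have hK0 := he.K0
  have hv0 := he.v0
  set X' : ℝ := X / nm y.1 with hX'
  have hX1 : 1 ≤ X' := hz.X1
  have hX'0 : 0 ≤ X' := by linarith
  have hlX' : Real.log X' ≤ n₀ + e₀ := he.lX' hz
  set sx : ℝ := 2 * d + e₀ with hs'
  have hs0 : 0 ≤ sx := by rw [hs']; linarith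
  set a : ℝ := (l : ℝ) / 3 with ha
  have ha0 : 0 ≤ a := by positivity
  set zj : ℝ := Real.log (2 ^ j) with hzj
  have hzj0 : 0 ≤ zj := Real.log_nonneg (one_le_pow₀ (by norm_num))
  have h2j : (0 : ℝ) < 2 ^ j := by positivity
  have h2j1 : (1 : ℝ) ≤ 2 ^ j := one_le_pow₀ (by norm_num)
  have eZ : (2 : ℝ) ^ j = Real.exp zj := (Real.exp_log h2j).symm
  set β : ℝ := Real.log (2 ^ u) with hβ
  have hβ0 : 0 ≤ β := Real.log_nonneg (one_le_pow₀ (by norm_num))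
  have h2u : (0 : ℝ) < 2 ^ u := by positivity
  have h2u1 : (1 : ℝ) ≤ 2 ^ u := one_le_pow₀ (by norm_num)
  have eU : (2 : ℝ) ^ u = Real.exp β := (Real.exp_log h2u).symm
  have hE : e * A ≠ 0 := mul_ne_zero hz.ep.ne_zero hz.Ap.ne_zero
  have hX0p := he.X0
  -- the range
  obtain ⟨g1, g2⟩ := he.shellJ hε hz hcell
  have hjm' : 2 * (zj + a + sx + (β + 2 / 3)) ≤ Lv := hjm
  have hβX : β ≤ n₀ + e₀ + 0.7 := by
    have h1 := hcell.U_le hX'0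
    have h2 := Real.log_le_log h2u h1
    rw [Real.log_mul (by norm_num) (by linarith)] at h2
    have := log2_le1
    linarith
  have hRm0 : 0 ≤ V * nm (e * A) / (nm c * Real.exp ((l : ℝ) / 3) ^ 2) := by
    have := hz.V1
    positivity
  have hC₂0 : 0 ≤ C₂ := by linarith
  set M : ℝ := C₂ * X0 ^ ε₁ * (Real.exp d *
    (2 ^ j * 2 ^ u * (Bd * Real.exp (n₀ + K + sx + sx)))) with hM
  have hM0 : 0 ≤ M := by rw [hM]; positivity
  have hcl : CellLJ h μ C₁ P s (Pz ^ (ε / 2)) H X' V Kf B0 y.2 e A c δ y.1 p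
      l u j Qf n₀ M := by
    intro n hn g hg hgδ u' hu' v hv w hw q1 q2 q3 i g₃ hg₃ s' W0 hW0 hRl hle
    have hv3 := NX_lt hX1 hv
    have hu3 := NX_lt hX1 hu'
    have hw0 : (0 : ℝ) ≤ w := Nat.cast_nonneg w
    have hv0' : (0 : ℝ) ≤ v := Nat.cast_nonneg v
    have hu0' : (0 : ℝ) ≤ u' := Nat.cast_nonneg u'
    obtain ⟨-, hgp, -⟩ := (mem_S h2u.le).1 hg
    have hnp := ((mem_dvs hz.y2.ne_zero).1 hn)
    have hn1 : (1 : ℝ) ≤ nm n := by exact_mod_cast nm_pos.2 hnp.1.ne_zero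
    have hny : (nm n : ℝ) ≤ Real.exp d := by
      have h4 : nm n ≤ nm y.2 := nm_le_of_dvd hz.y2.ne_zero hnp.2
      exact (by exact_mod_cast h4 : (nm n : ℝ) ≤ nm y.2).trans (he.ny2 hz)
    have hG1 : (1 : ℝ) ≤ nm g := by exact_mod_cast nm_pos.2 hgp.ne_zero
    have hG0 : (0 : ℝ) < nm g := by linarith
    set γ : ℝ := Real.log (nm g) with hγ
    have hγ0 : 0 ≤ γ := Real.log_nonneg hG1
    have eG : (nm g : ℝ) = Real.exp γ := (Real.exp_log hG0).symm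
    have hn1g : 0 ≤ Real.log (nm y.1) := Real.log_nonneg hz.n1
    have hgg : Real.log (nm (y.1 * g)) = Real.log (nm y.1) + γ := by
      rw [nm_mul, Nat.cast_mul, Real.log_mul (by linarith [hz.n1]) hG0.ne']
    rw [hgg] at hle
    have k1 : (u' : ℝ) / 3 + γ ≤ β := by
      have h1 : Real.exp ((u' : ℝ) / 3 + γ) ≤ Real.exp β := by
        rw [Real.exp_add, ← eG, ← eU]; exact q1
      exact Real.exp_le_exp.1 h1
    have k2 : β ≤ 0.7 + ((u' : ℝ) / 3 + 1 / 3 + γ) := by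
      have h1 := Real.log_le_log h2u q2
      rw [Real.log_mul (by norm_num) (by positivity), Real.log_mul (Real.exp_pos _).ne' hG0.ne',
        Real.log_exp] at h1
      have := log2_le1
      linarith
    have h3 := H2 (QsJ401.Tb V e A c l) X' (2 ^ j) (2 ^ u)
      (V * nm (e * A) / (nm c * Real.exp ((l : ℝ) / 3) ^ 2)) l u' v w
      (fun y_1 B g₂ g₃ d_1 => g * B ∈ Bj X' (Nj (Pz ^ (ε / 2)) H X' V Kf B0 y.2 e A c y_1) u j ∧
        MoJ401.PJQ (fun B d => Qf (e * A * y_1) B (dl' c i) d) n g (2 ^ j)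
          B g₂ g₃ d_1)
      g₃ y.1 (e * A * kw p ^ 2) (dl' c i) n g hX'0 h2j1 h2u1 hRm0
      (mul_ne_zero hE (pow_ne_zero 2 (kw_ne p))) (dl_ne_zero (QsJ401.C4_ne hz.hc) i) hz.y1
      hnp.1 hgp (fun t ht => ⟨bk_prim (Real.sqrt_nonneg V) (QsJ401.mem_Tb.1 ht).1,
        bk_nm_le (Real.sqrt_nonneg V) (QsJ401.mem_Tb.1 ht).1⟩)
      hg₃ q1 (by
        rintro ⟨y', B', g₂, m⟩ hx
        obtain ⟨⟨x1, x2, x3, x4⟩, -, -, -, x6⟩ := mem_Q4.1 hx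
        have hZg : 0 ≤ (2 : ℝ) ^ j / nm g := by positivity
        exact hQf g y' B' g₂ g₃ m hgp (GKC739.Tb_prim x1) (bk_prim hX'0 x2) (bk_prim hX'0 x3)
          (bk_prim hX'0 hg₃) ((mem_pb hZg).1 x4).2 i x6) X0 sx (he.fr hz hp i) (by
        rw [eZ, ← Real.exp_add]
        exact he.leX0 (by linarith)) (by
        exact he.leX0 (by push_cast; linarith)) s' n₀ K Lv sx Bd
      (W0 ^ (2 * μ)) hBd (Real.rpow_nonneg (by linarith) _) hs0 (he.Rm hz l) (by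
        show 2 * (zj + a + β) ≤ Lv
        linarith) (by
        intro h0
        have h4 := hln.ga s' W0 hW0 hRl (zj + a + sx)
          ((u' : ℝ) / 3 + 2 / 3 + γ) ((v : ℝ) / 3) γ hγ0 (by linarith) (by positivity) h0
          (by linarith) (by linarith) (by linarith) (by linarith)
        rw [show (u' : ℝ) / 3 + 2 / 3 + γ - γ + (v : ℝ) / 3 = (u' : ℝ) / 3 + 2 / 3 + v / 3 by
          ring] at h4
        exact h4)
    refine h3.trans ?_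
    rw [hM]
    have hW20 : 0 ≤ W0 ^ (2 * μ) := Real.rpow_nonneg (by linarith) _
    gcongr
  exact hcl

end Crest.Agent.R017.QsJ401
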