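import Crest.Agent.R017.QsJk_401
import Crest.Agent.R017.RlB_791

/-!
# Row 17, block C70, leaf E2 (helper401): the pair lines of the natural children from the lines of
the base list

* `LnGa`, `LnR2` : the lines (ga), (r2) above a base list, logarithmic, for a functional `Φ`
* `plnF_of` : `PLnF` for the natural list under a flagged list derived from the base list
-/

set_option autoImplicit false
set_option linter.unusedVariables false
set_option maxHeartbeats 800000

noncomputable section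

open Finset
open scoped ComplexConjugate

namespace Crest.Agent.R017.QsJ401

open Crest.Agent.R012 Crest.Agent.R012.Eis Crest.Agent.R012.LS2
open Crest.Agent.R017.B770
open Crest.Agent.R017.Prov71
open Crest.Agent.R017.Leg381 (alf alF Pf LF LF_get natl)
open Crest.Agent.R017.XRG106
open Crest.Agent.R017.MoL106 (nr)
open Crest.Agent.R017.RG64 (SbL Sb Ht one_le_Ht)
open Crest.Agent.R017.XP699 (LL Chd hcost cst)

/-- **the line (ga)** above the list `base`, logarithmic: `n` = length, `v` = level, `Kl` = family,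
`TT` = range of all parameters, `e` = tolerance, `m` = room and gain -/
def LnGa (Φ : ℝ → ℝ → List Pq → ℝ) (M r bm TT e m n v Kl Bd : ℝ) (base : List Pq) : Prop :=
  ∀ (l β g₂ g γ : ℝ) (ps' : List Pq), 0 ≤ l → l ≤ TT → 0 ≤ β → β ≤ TT → 0 ≤ g₂ → g₂ ≤ TT →
    0 ≤ g → g ≤ TT → 0 ≤ γ → γ ≤ TT →
    List.Forall₂ (Chd Dq hcost r bm) ps' base → LL Dq ps' ≤ n + e →
    LL Dq ps' + (β + γ - g₂) + g - n ≤ e →
    (l + γ + 2 * g₂) - (v + n - Kl + (β + γ - g₂) + m) ≤ e →
    (l + γ + 2 * g₂) + 2 * (β + γ - g₂) - Kl - m ≤ e →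
    2 * ((l + γ + 2 * g₂) + (β + γ - g₂)) - v ≤ e → g₂ - β ≤ e →
    Φ l β ps' ≤ Bd * cst hcost ps' base ^ M *
      Real.exp (4 / 3 * n + (v + Kl) / 3 + (-((v + n - 2 * Kl) / 3) - m - g - v +
        (l + γ + 2 * g₂) + (β + γ - g₂) - 2 * γ))

/-- **the line (r2)** above the list `base`, logarithmic -/
def LnR2 (Φ : ℝ → ℝ → List Pq → ℝ) (M r bm TT e m n v Kl Bd : ℝ) (base : List Pq) : Prop :=
  ∀ (l β g₂ g : ℝ) (ps' : List Pq), 0 ≤ l → l ≤ TT → 0 ≤ β → β ≤ TT → 0 ≤ g₂ → g₂ ≤ TT →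
    0 ≤ g → g ≤ TT →
    List.Forall₂ (Chd Dq hcost r bm) ps' base → LL Dq ps' ≤ n + e →
    LL Dq ps' + (β - g₂) + g - n ≤ e →
    (l + 2 * g₂) - (v + n - Kl + (β - g₂) + m) ≤ e →
    (l + 2 * g₂) + 2 * (β - g₂) - Kl - m ≤ e →
    v - 2 * ((l + 2 * g₂) + (β - g₂)) ≤ e → g₂ - β ≤ e → g₂ - g ≤ e →
    Φ l β ps' ≤ Bd * cst hcost ps' base ^ M *
      Real.exp (4 / 3 * n + (v + Kl) / 3 + (-((v + n - 2 * Kl) / 3) - m - g -
        max v (max (l + 2 * g₂) (2 / 3 * (v + (l + 2 * g₂)))) + (l + 2 * g₂)))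

lemma forall₂_ofFn {C W0 : ℝ} {r : ℕ} {s' : Fin r → Pq} {l : List Pf} (hl : l.length = r)
    (h : ∀ k : Fin r, Rl C W0 (s' k) (l.get (k.cast hl.symm)).1) :
    List.Forall₂ (Rl C W0) (List.ofFn s') (l.map Prod.fst) := by
  subst hl
  rw [List.forall₂_iff_get]
  refine ⟨by simp, fun i h1 h2 => ?_⟩
  have h3 := h ⟨i, by simpa using h1⟩
  simpa using h3

lemma LL_ofFn {r : ℕ} (s' : Fin r → Pq) : LL Dq (List.ofFn s') = ∑ k, (s' k).z := by
  unfold XP699.LL
  rw [List.map_ofFn, List.sum_ofFn]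
  rfl

/-- **the pair lines of the natural children** -/
theorem plnF_of {Φ : ℝ → ℝ → List Pq → ℝ} {M r bm TT e m n v Kl Bd C S c₁ X μ' : ℝ}
    {base : List Pq} {l : List Pf} {e₁ m₁ : ℝ} {N : ℕ}
    (hga : LnGa Φ M r bm TT e m n v Kl Bd base) (hr2 : LnR2 Φ M r bm TT e m n v Kl Bd base)
    (hX : 0 < X) (hC : 0 ≤ C) (hS : SbL S l base) (hz : ∀ q ∈ base, Dq.len q ≤ c₁ * Real.log X)
    (hr : C + S ≤ r) (hbm : C * Real.exp S * X ^ c₁ ≤ bm) (hN : l.length ≤ N)
    (hM : 0 ≤ M) (hμ : N * M ≤ 2 * μ') (hBd : 0 ≤ Bd)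
    (he1 : 0 ≤ e₁) (he : e₁ ≤ e) (hm : m₁ ≤ m + e) (hm0 : 0 ≤ m₁) (hK : 0 ≤ Kl)
    (hn : 0 ≤ n) (hnT : n ≤ TT) (hT : Kl + m₁ ≤ TT) :
    PLnF Φ μ' C (fun i => (l.get i).1) n Kl v m₁ e₁
      (Bd * (Ht l * Ht (natl base)) ^ M * Real.exp (-m)) := by
  have hHt : 1 ≤ Ht l * Ht (natl base) :=
    one_le_mul_of_one_le_of_one_le (one_le_Ht _) (one_le_Ht _)
  -- the cost
  have hcost : ∀ (s' : Fin l.length → Pq) (W0 : ℝ), 1 ≤ W0 →
      (∀ k, Rl C W0 (s' k) (l.get k).1) →
      List.Forall₂ (Chd Dq hcost r bm) (List.ofFn s') base ∧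
      cst hcost (List.ofFn s') base ^ M ≤ (Ht l * Ht (natl base)) ^ M * W0 ^ (2 * μ') := by
    intro s' W0 hW0 hR
    have h1 : List.Forall₂ (Rl C W0) (List.ofFn s') (l.map Prod.fst) :=
      forall₂_ofFn rfl fun k => hR k
    refine ⟨RlB791.chdL_mono hr hbm (RlB791.chdL_of_rl hX hC h1 hS hz), ?_⟩
    have h2 := RlB791.cst_rl hW0 h1 hS
    have h3 := RlB791.one_le_cst (List.ofFn s') base
    have hW00 : 0 < W0 := by linarith
    calc cst hcost (List.ofFn s') base ^ M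
        ≤ (W0 ^ l.length * (Ht l * Ht (natl base))) ^ M :=
          Real.rpow_le_rpow (by linarith) h2 hM
      _ = (W0 ^ l.length) ^ M * (Ht l * Ht (natl base)) ^ M :=
          Real.mul_rpow (by positivity) (by linarith)
      _ ≤ W0 ^ (2 * μ') * (Ht l * Ht (natl base)) ^ M := by
          refine mul_le_mul_of_nonneg_right ?_ (Real.rpow_nonneg (by linarith) _)
          rw [← Real.rpow_natCast, ← Real.rpow_mul hW00.le]
          refine Real.rpow_le_rpow_of_exponent_le hW0 ?_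
          have h4 : (l.length : ℝ) ≤ N := by exact_mod_cast hN
          nlinarith
      _ = _ := mul_comm _ _
  have hfin : ∀ {A cM HH W x y : ℝ}, A ≤ Bd * cM * Real.exp x → cM ≤ HH * W → 0 ≤ HH * W →
      x ≤ -m + y → A ≤ Bd * HH * Real.exp (-m) * W * Real.exp y := by
    intro A cM HH W x y h1 h2 h3 h4
    calc A ≤ Bd * cM * Real.exp x := h1
      _ ≤ Bd * (HH * W) * Real.exp (-m + y) :=
          mul_le_mul (mul_le_mul_of_nonneg_left h2 hBd) (Real.exp_le_exp.2 h4)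
            (Real.exp_pos _).le (mul_nonneg hBd h3)
      _ = _ := by rw [Real.exp_add]; ring
  refine ⟨?_, ?_⟩
  · intro s' W0 hW0 hR i b g hb hg hi h1 h2 h3 h4
    obtain ⟨c1, c2⟩ := hcost s' W0 hW0 hR
    have hz0 : 0 ≤ ∑ k, (s' k).z := Finset.sum_nonneg fun k _ => (hR k).z0
    set σ : ℝ := ∑ k, (s' k).z with hσ
    have hi0 : 0 ≤ i := by linarith
    set gg : ℝ := max 0 (n - b - σ) with hgg
    have g1 : 0 ≤ gg := le_max_left _ _
    have g2 : n - b - σ ≤ gg := le_max_right _ _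
    have g3 : gg ≤ n := max_le hn (by linarith)
    have g4 : σ + b + gg - n ≤ e₁ := by
      rcases le_total 0 (n - b - σ) with h5 | h5
      · rw [hgg, max_eq_right h5]; linarith
      · rw [hgg, max_eq_left h5]; linarith
    have hl := hr2 (i - 2 * g) (b + g) g gg (List.ofFn s') hi (by linarith) (by linarith)
      (by linarith) hg (by linarith) g1 (by linarith) c1 (by rw [LL_ofFn]; linarith)
      (by rw [LL_ofFn]; linarith) (by linarith) (by linarith) (by linarith) (by linarith)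
      (by linarith)
    have hHW : 0 ≤ (Ht l * Ht (natl base)) ^ M * W0 ^ (2 * μ') :=
      mul_nonneg (Real.rpow_nonneg (by linarith) _) (Real.rpow_nonneg (by linarith) _)
    refine hfin hl c2 hHW ?_
    unfold MoL106.nr
    have e1 : i - 2 * g + 2 * g = i := by ring
    rw [e1]
    linarith
  · intro s' W0 hW0 hR i b g γ hγ hγb hg hi h1 h2 h3 h4
    obtain ⟨c1, c2⟩ := hcost s' W0 hW0 hR
    have hz0 : 0 ≤ ∑ k, (s' k).z := Finset.sum_nonneg fun k _ => (hR k).z0
    set σ : ℝ := ∑ k, (s' k).z with hσ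
    have hb : 0 ≤ b := by linarith
    have hi0 : 0 ≤ i := by linarith
    set gg : ℝ := max 0 (n - b - σ) with hgg
    have g1 : 0 ≤ gg := le_max_left _ _
    have g2 : n - b - σ ≤ gg := le_max_right _ _
    have g3 : gg ≤ n := max_le hn (by linarith)
    have g4 : σ + b + gg - n ≤ e₁ := by
      rcases le_total 0 (n - b - σ) with h5 | h5
      · rw [hgg, max_eq_right h5]; linarith
      · rw [hgg, max_eq_left h5]; linarith
    have hl := hga (i - γ - 2 * g) (b - γ + g) g gg γ (List.ofFn s') hi (by linarith)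
      (by linarith) (by linarith) hg (by linarith) g1 (by linarith) hγ (by linarith) c1
      (by rw [LL_ofFn]; linarith)
      (by rw [LL_ofFn]; linarith) (by linarith) (by linarith) (by linarith) (by linarith)
    have hHW : 0 ≤ (Ht l * Ht (natl base)) ^ M * W0 ^ (2 * μ') :=
      mul_nonneg (Real.rpow_nonneg (by linarith) _) (Real.rpow_nonneg (by linarith) _)
    refine hfin hl c2 hHW ?_
    linarith

end Crest.Agent.R017.QsJ401
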