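import Crest.Agent.R017.QsJo_401

/-!
# Row 17, block C70, leaf E2 (helper401): the pair lines at the family `K log X - 3 t`

* `LnGaT`, `LnR2T` : the lines (ga), (r2) with the parameter `t`; `lnGaT_of`, `lnR2T_of`
* `plnFT_of`, `plnFT_leaf`, `plnFT_two` : `PLnF` at the family `K log X - 3 t`
-/

set_option autoImplicit false
set_option linter.unusedVariables false
set_option maxHeartbeats 800000

noncomputable section

open Finset
open scoped ComplexConjugate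

namespace Crest.Agent.R017.QsJ401

open Crest.Agent.R012 Crest.Agent.R012.Eis Crest.Agent.R012.LS2
open Crest.Agent.R017.B770
open Crest.Agent.R017.Prov71
open Crest.Agent.R017.Leg381 (alf alF Pf LF LF_get natl)
open Crest.Agent.R017.XRG106
open Crest.Agent.R017.MoL106 (nr)
open Crest.Agent.R017.RG64 (SbL Sb Ht one_le_Ht RFacts LF_nonneg)
open Crest.Agent.R017.XP699 (LL Chd hcost cst)
open Crest.Agent.R017.RGB545 (Line Th TK rbx IN GN EN bN LE PQe LN PFp)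
open Crest.Agent.R017.RXk848 (LnP Lmp)
open Crest.Agent.R017.RX298 (rp rpB Lg LF_rp Ht_rp SbL_rp rp_length rpB_length)

variable {Lam : Type*}

/-- **the line (ga)** above the list `base`, logarithmic, with the parameter `t` -/
def LnGaT (Φ : ℝ → ℝ → List Pq → ℝ) (M r bm TT e m n v Kl Bd : ℝ) (base : List Pq) : Prop :=
  ∀ (t l β g₂ g γ : ℝ) (ps' : List Pq), 0 ≤ t → t ≤ TT → 0 ≤ l → l ≤ TT → 0 ≤ β → β ≤ TT →
    0 ≤ g₂ → g₂ ≤ TT → 0 ≤ g → g ≤ TT → 0 ≤ γ → γ ≤ TT →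
    List.Forall₂ (Chd Dq hcost r bm) ps' base → LL Dq ps' ≤ n + e →
    LL Dq ps' + (β + γ - g₂) + g - n ≤ e →
    (l + γ + 2 * g₂) - (v + n - Kl + 3 * t + (β + γ - g₂) + m) ≤ e →
    (l + γ + 2 * g₂) + 2 * (β + γ - g₂) + 3 * t - Kl - m ≤ e →
    2 * ((l + γ + 2 * g₂) + (β + γ - g₂)) - v ≤ e → g₂ - β ≤ e →
    Φ l β ps' ≤ Bd * cst hcost ps' base ^ M *
      Real.exp (4 / 3 * n + (v + Kl) / 3 + (t - ((v + n - 2 * Kl) / 3) - m - g - v +
        (l + γ + 2 * g₂) + (β + γ - g₂) - 2 * γ))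

/-- **the line (r2)** above the list `base`, logarithmic, with the parameter `t` -/
def LnR2T (Φ : ℝ → ℝ → List Pq → ℝ) (M r bm TT e m n v Kl Bd : ℝ) (base : List Pq) : Prop :=
  ∀ (t l β g₂ g : ℝ) (ps' : List Pq), 0 ≤ t → t ≤ TT → 0 ≤ l → l ≤ TT → 0 ≤ β → β ≤ TT →
    0 ≤ g₂ → g₂ ≤ TT → 0 ≤ g → g ≤ TT →
    List.Forall₂ (Chd Dq hcost r bm) ps' base → LL Dq ps' ≤ n + e →
    LL Dq ps' + (β - g₂) + g - n ≤ e →
    (l + 2 * g₂) - (v + n - Kl + 3 * t + (β - g₂) + m) ≤ e →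
    (l + 2 * g₂) + 2 * (β - g₂) + 3 * t - Kl - m ≤ e →
    v - 2 * ((l + 2 * g₂) + (β - g₂)) ≤ e → g₂ - β ≤ e → g₂ - g ≤ e →
    Φ l β ps' ≤ Bd * cst hcost ps' base ^ M *
      Real.exp (4 / 3 * n + (v + Kl) / 3 + (t - ((v + n - 2 * Kl) / 3) - m - g -
        max v (max (l + 2 * g₂) (2 / 3 * (v + (l + 2 * g₂)))) + (l + 2 * g₂)))

/-- **the pair lines of the natural children**, family `Kl - 3 t` -/
theorem plnFT_of {Φ : ℝ → ℝ → List Pq → ℝ} {M r bm TT e m n v Kl Bd C S c₁ X μ' : ℝ}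
    {base : List Pq} {l : List Pf} {e₁ m₁ t : ℝ} {N : ℕ}
    (hga : LnGaT Φ M r bm TT e m n v Kl Bd base) (hr2 : LnR2T Φ M r bm TT e m n v Kl Bd base)
    (hX : 0 < X) (hC : 0 ≤ C) (hS : SbL S l base) (hz : ∀ q ∈ base, Dq.len q ≤ c₁ * Real.log X)
    (hr : C + S ≤ r) (hbm : C * Real.exp S * X ^ c₁ ≤ bm) (hN : l.length ≤ N)
    (hM : 0 ≤ M) (hμ : N * M ≤ 2 * μ') (hBd : 0 ≤ Bd)
    (he1 : 0 ≤ e₁) (he : e₁ ≤ e) (hm : m₁ ≤ m + e) (hT0 : 0 ≤ TT)
    (hn : 0 ≤ n) (hnT : n ≤ TT) (hT : Kl + m₁ ≤ TT) (ht : 0 ≤ t) (htT : t ≤ TT) :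
    PLnF Φ μ' C (fun i => (l.get i).1) n (Kl - 3 * t) v m₁ e₁
      (Bd * (Ht l * Ht (natl base)) ^ M * Real.exp (4 * t - m)) := by
  have hHt : 1 ≤ Ht l * Ht (natl base) :=
    one_le_mul_of_one_le_of_one_le (one_le_Ht _) (one_le_Ht _)
  -- the cost
  have hcost : ∀ (s' : Fin l.length → Pq) (W0 : ℝ), 1 ≤ W0 →
      (∀ k, Rl C W0 (s' k) (l.get k).1) →
      List.Forall₂ (Chd Dq hcost r bm) (List.ofFn s') base ∧
      cst hcost (List.ofFn s') base ^ M ≤ (Ht l * Ht (natl base)) ^ M * W0 ^ (2 * μ') := by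
    intro s' W0 hW0 hR
    have h1 : List.Forall₂ (Rl C W0) (List.ofFn s') (l.map Prod.fst) :=
      forall₂_ofFn rfl fun k => hR k
    refine ⟨RlB791.chdL_mono hr hbm (RlB791.chdL_of_rl hX hC h1 hS hz), ?_⟩
    have h2 := RlB791.cst_rl hW0 h1 hS
    have h3 := RlB791.one_le_cst (List.ofFn s') base
    have hW00 : 0 < W0 := by linarith
    calc cst hcost (List.ofFn s') base ^ M
        ≤ (W0 ^ l.length * (Ht l * Ht (natl base))) ^ M :=
          Real.rpow_le_rpow (by linarith) h2 hM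
      _ = (W0 ^ l.length) ^ M * (Ht l * Ht (natl base)) ^ M :=
          Real.mul_rpow (by positivity) (by linarith)
      _ ≤ W0 ^ (2 * μ') * (Ht l * Ht (natl base)) ^ M := by
          refine mul_le_mul_of_nonneg_right ?_ (Real.rpow_nonneg (by linarith) _)
          rw [← Real.rpow_natCast, ← Real.rpow_mul hW00.le]
          refine Real.rpow_le_rpow_of_exponent_le hW0 ?_
          have h4 : (l.length : ℝ) ≤ N := by exact_mod_cast hN
          nlinarith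
      _ = _ := mul_comm _ _
  have hfin : ∀ {A cM HH W x y : ℝ}, A ≤ Bd * cM * Real.exp x → cM ≤ HH * W → 0 ≤ HH * W →
      x ≤ (4 * t - m) + y → A ≤ Bd * HH * Real.exp (4 * t - m) * W * Real.exp y := by
    intro A cM HH W x y h1 h2 h3 h4
    calc A ≤ Bd * cM * Real.exp x := h1
      _ ≤ Bd * (HH * W) * Real.exp ((4 * t - m) + y) :=
          mul_le_mul (mul_le_mul_of_nonneg_left h2 hBd) (Real.exp_le_exp.2 h4)
            (Real.exp_pos _).le (mul_nonneg hBd h3)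
      _ = _ := by rw [Real.exp_add]; ring
  refine ⟨?_, ?_⟩
  · intro s' W0 hW0 hR i b g hb hg hi h1 h2 h3 h4
    obtain ⟨c1, c2⟩ := hcost s' W0 hW0 hR
    have hz0 : 0 ≤ ∑ k, (s' k).z := Finset.sum_nonneg fun k _ => (hR k).z0
    set σ : ℝ := ∑ k, (s' k).z with hσ
    have hi0 : 0 ≤ i := by linarith
    set gg : ℝ := max 0 (n - b - σ) with hgg
    have g1 : 0 ≤ gg := le_max_left _ _
    have g2 : n - b - σ ≤ gg := le_max_right _ _
    have g3 : gg ≤ n := max_le hn (by linarith)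
    have g4 : σ + b + gg - n ≤ e₁ := by
      rcases le_total 0 (n - b - σ) with h5 | h5
      · rw [hgg, max_eq_right h5]; linarith
      · rw [hgg, max_eq_left h5]; linarith
    have hl := hr2 t (i - 2 * g) (b + g) g gg (List.ofFn s') ht htT hi (by linarith) (by linarith)
      (by linarith) hg (by linarith) g1 (by linarith) c1 (by rw [LL_ofFn]; linarith)
      (by rw [LL_ofFn]; linarith) (by linarith) (by linarith) (by linarith) (by linarith)
      (by linarith)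
    have hHW : 0 ≤ (Ht l * Ht (natl base)) ^ M * W0 ^ (2 * μ') :=
      mul_nonneg (Real.rpow_nonneg (by linarith) _) (Real.rpow_nonneg (by linarith) _)
    refine hfin hl c2 hHW ?_
    unfold MoL106.nr
    have e1 : i - 2 * g + 2 * g = i := by ring
    rw [e1]
    linarith
  · intro s' W0 hW0 hR i b g γ hγ hγb hg hi h1 h2 h3 h4
    obtain ⟨c1, c2⟩ := hcost s' W0 hW0 hR
    have hz0 : 0 ≤ ∑ k, (s' k).z := Finset.sum_nonneg fun k _ => (hR k).z0
    set σ : ℝ := ∑ k, (s' k).z with hσ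
    have hb : 0 ≤ b := by linarith
    have hi0 : 0 ≤ i := by linarith
    set gg : ℝ := max 0 (n - b - σ) with hgg
    have g1 : 0 ≤ gg := le_max_left _ _
    have g2 : n - b - σ ≤ gg := le_max_right _ _
    have g3 : gg ≤ n := max_le hn (by linarith)
    have g4 : σ + b + gg - n ≤ e₁ := by
      rcases le_total 0 (n - b - σ) with h5 | h5
      · rw [hgg, max_eq_right h5]; linarith
      · rw [hgg, max_eq_left h5]; linarith
    have hl := hga t (i - γ - 2 * g) (b - γ + g) g gg γ (List.ofFn s') ht htT hi (by linarith)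
      (by linarith) (by linarith) hg (by linarith) g1 (by linarith) hγ (by linarith) c1
      (by rw [LL_ofFn]; linarith)
      (by rw [LL_ofFn]; linarith) (by linarith) (by linarith) (by linarith) (by linarith)
    have hHW : 0 ≤ (Ht l * Ht (natl base)) ^ M * W0 ^ (2 * μ') :=
      mul_nonneg (Real.rpow_nonneg (by linarith) _) (Real.rpow_nonneg (by linarith) _)
    refine hfin hl c2 hHW ?_
    linarith

lemma th_mem5 {K y a0 a1 a2 a3 a4 : ℝ} (hy : 0 < y) (h0 : 0 ≤ a0 * y) (h0' : a0 * y ≤ TK K * y)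
    (h1 : 0 ≤ a1 * y) (h1' : a1 * y ≤ TK K * y) (h2 : 0 ≤ a2 * y) (h2' : a2 * y ≤ TK K * y)
    (h4 : 0 ≤ a4 * y) (h4' : a4 * y ≤ TK K * y)
    (h3 : 0 ≤ a3 * y) (h3' : a3 * y ≤ TK K * y) :
    (![a0, a1, a2, a4, a3] : Fin 5 → ℝ) ∈ Set.Icc (0 : Fin 5 → ℝ) (fun _ => TK K) := by
  have k : ∀ a b : ℝ, a * y ≤ b * y → a ≤ b := fun a b h => le_of_mul_le_mul_right h hy
  have k0 : ∀ a : ℝ, 0 ≤ a * y → 0 ≤ a := fun a h => k 0 a (by linarith)
  have hT : 0 ≤ TK K := k0 _ (h0.trans h0')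
  constructor
  · intro i
    fin_cases i
    · exact k0 _ h0
    · exact k0 _ h1
    · exact k0 _ h2
    · exact k0 _ h4
    · exact k0 _ h3
  · intro i
    fin_cases i
    · exact k _ _ h0'
    · exact k _ _ h1'
    · exact k _ _ h2'
    · exact k _ _ h4'
    · exact k _ _ h3'

/-- **the line (ga)** -/
theorem lnGaT_of {L : IN → Line Lam 5} {lam : Lam} {Φ : ℝ → ℝ → List Pq → ℝ}
    {K ε M r bm X n v Bd c μ : ℝ} {base : List Pq} (hL : LnEq L lam Φ c μ) (hX : 1 < X)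
    (H : LnP L lam K ε M r bm X (n / Real.log X) (v / Real.log X) Bd base) :
    LnGaT Φ M r bm (TK K * Real.log X) (ε * Real.log X) (μ * Real.log X) n v (K * Real.log X) Bd
      base := by
  intro t l β g₂ g γ ps' ht htT hl hlT hβ hβT hg₂ hg₂T hg hgT hγ hγT hch hLL h1 h2 h3 h4 h5
  have hX0 : 0 < X := by linarith
  have hy0 : 0 < Real.log X := Real.log_pos hX
  unfold RXk848.LnP at H
  obtain ⟨y, hy⟩ : ∃ y, y = Real.log X := ⟨_, rfl⟩
  rw [← hy] at hy0 htT hlT hβT hg₂T hgT hγT hLL h1 h2 h3 h4 h5 ⊢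
  simp only [← hy] at H
  obtain ⟨t', rfl⟩ : ∃ a, t = a * y := ⟨t / y, by field_simp⟩
  obtain ⟨l', rfl⟩ : ∃ a, l = a * y := ⟨l / y, by field_simp⟩
  obtain ⟨β', rfl⟩ : ∃ a, β = a * y := ⟨β / y, by field_simp⟩
  obtain ⟨g₂', rfl⟩ : ∃ a, g₂ = a * y := ⟨g₂ / y, by field_simp⟩
  obtain ⟨g', rfl⟩ : ∃ a, g = a * y := ⟨g / y, by field_simp⟩
  obtain ⟨γ', rfl⟩ : ∃ a, γ = a * y := ⟨γ / y, by field_simp⟩
  obtain ⟨n', rfl⟩ : ∃ a, n = a * y := ⟨n / y, by field_simp⟩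
  obtain ⟨v', rfl⟩ : ∃ a, v = a * y := ⟨v / y, by field_simp⟩
  obtain ⟨q, hq⟩ : ∃ a, LL Dq ps' = a * y := ⟨LL Dq ps' / y, by field_simp⟩
  have hd : ∀ a : ℝ, a * y / y = a := fun a => mul_div_cancel_right₀ a hy0.ne'
  rw [hq] at hLL h1
  have k : ∀ a b : ℝ, a * y ≤ b * y → a ≤ b := fun a b h => le_of_mul_le_mul_right h hy0
  have h := H .ga ⟨_, th_mem5 hy0 hβ hβT hg₂ hg₂T hg hgT ht htT hγ hγT⟩ (l' * y) ps' hl hlT hch
    (by rw [hq, hd]; linarith)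
    (by
      rw [hL.g1, hq, hd, hd, hd, hd]
      show max (max (q + (β' + γ' - g₂') + g' - n')
        ((l' + γ' + 2 * g₂') - (v' + n' - K + 3 * t' + (β' + γ' - g₂') + μ)))
        (max ((l' + γ' + 2 * g₂') + 2 * (β' + γ' - g₂') + 3 * t' - K - μ)
        (max (2 * ((l' + γ' + 2 * g₂') + (β' + γ' - g₂')) - v') (g₂' - β'))) ≤ ε
      refine max_le (max_le (k _ _ ?_) (k _ _ ?_)) (max_le (k _ _ ?_) (max_le (k _ _ ?_)
        (k _ _ ?_)))
      · linarith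
      · linarith
      · linarith
      · linarith
      · linarith)
    (fun hz => absurd hz hL.g4)
  rw [hL.g5, hL.g3, hL.g2, hq, hd, hd, hd, hd, Real.rpow_def_of_pos hX0, ← hy] at h
  refine h.trans (le_of_eq ?_)
  congr 2
  show y * (4 / 3 * n' + (v' + K) / 3 + (t' - (v' + n' - 2 * K) / 3 - μ - g' - v' +
      (l' + γ' + 2 * g₂') + (β' + γ' - g₂') - 2 * γ')) = _
  ring

/-- **the line (r2)** -/
theorem lnR2T_of {L : IN → Line Lam 5} {lam : Lam} {Φ : ℝ → ℝ → List Pq → ℝ}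
    {K ε M r bm X n v Bd c μ : ℝ} {base : List Pq} (hL : LnEq L lam Φ c μ) (hX : 1 < X)
    (H : LnP L lam K ε M r bm X (n / Real.log X) (v / Real.log X) Bd base) :
    LnR2T Φ M r bm (TK K * Real.log X) (ε * Real.log X) (μ * Real.log X) n v (K * Real.log X) Bd
      base := by
  intro t l β g₂ g ps' ht htT hl hlT hβ hβT hg₂ hg₂T hg hgT hch hLL h1 h2 h3 h4 h5 h6
  have hX0 : 0 < X := by linarith
  have hy0 : 0 < Real.log X := Real.log_pos hX
  unfold RXk848.LnP at H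
  obtain ⟨y, hy⟩ : ∃ y, y = Real.log X := ⟨_, rfl⟩
  rw [← hy] at hy0 htT hlT hβT hg₂T hgT hLL h1 h2 h3 h4 h5 h6 ⊢
  simp only [← hy] at H
  obtain ⟨t', rfl⟩ : ∃ a, t = a * y := ⟨t / y, by field_simp⟩
  obtain ⟨l', rfl⟩ : ∃ a, l = a * y := ⟨l / y, by field_simp⟩
  obtain ⟨β', rfl⟩ : ∃ a, β = a * y := ⟨β / y, by field_simp⟩
  obtain ⟨g₂', rfl⟩ : ∃ a, g₂ = a * y := ⟨g₂ / y, by field_simp⟩
  obtain ⟨g', rfl⟩ : ∃ a, g = a * y := ⟨g / y, by field_simp⟩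
  obtain ⟨n', rfl⟩ : ∃ a, n = a * y := ⟨n / y, by field_simp⟩
  obtain ⟨v', rfl⟩ : ∃ a, v = a * y := ⟨v / y, by field_simp⟩
  obtain ⟨q, hq⟩ : ∃ a, LL Dq ps' = a * y := ⟨LL Dq ps' / y, by field_simp⟩
  have hd : ∀ a : ℝ, a * y / y = a := fun a => mul_div_cancel_right₀ a hy0.ne'
  rw [hq] at hLL h1
  have k : ∀ a b : ℝ, a * y ≤ b * y → a ≤ b := fun a b h => le_of_mul_le_mul_right h hy0
  have hT0 : 0 ≤ TK K * y := hβ.trans hβT
  have h := H .r2 ⟨_, th_mem5 hy0 hβ hβT hg₂ hg₂T hg hgT ht htT (a3 := 0) (by linarith)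
    (by linarith)⟩
    (l' * y) ps' hl hlT hch
    (by rw [hq, hd]; linarith)
    (by
      rw [hL.r1, hq, hd, hd, hd, hd]
      show max (max (q + (β' - g₂') + g' - n')
        ((l' + 2 * g₂') - (v' + n' - K + 3 * t' + (β' - g₂') + μ)))
        (max ((l' + 2 * g₂') + 2 * (β' - g₂') + 3 * t' - K - μ)
        (max (v' - 2 * ((l' + 2 * g₂') + (β' - g₂'))) (max (g₂' - β') (g₂' - g')))) ≤ ε
      refine max_le (max_le (k _ _ ?_) (k _ _ ?_)) (max_le (k _ _ ?_) (max_le (k _ _ ?_)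
        (max_le (k _ _ ?_) (k _ _ ?_))))
      · linarith
      · linarith
      · linarith
      · linarith
      · linarith
      · linarith)
    (fun hz => absurd hz hL.r4)
  rw [hL.r5, hL.r3, hL.r2, hq, hd, hd, hd, hd, Real.rpow_def_of_pos hX0, ← hy] at h
  have em : max (v' * y) (max (l' * y + 2 * (g₂' * y))
      (2 / 3 * (v' * y + (l' * y + 2 * (g₂' * y))))) =
      y * max v' (max (l' + 2 * g₂') (2 / 3 * (v' + (l' + 2 * g₂')))) := by
    rw [mul_max_of_nonneg _ _ hy0.le, mul_max_of_nonneg _ _ hy0.le]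
    congr 1
    · ring
    · congr 1
      · ring
      · ring
  rw [em]
  refine h.trans (le_of_eq ?_)
  congr 2
  show y * (4 / 3 * n' + (v' + K) / 3 + (t' - (v' + n' - 2 * K) / 3 - μ - g' -
      max v' (max (l' + 2 * g₂') (2 / 3 * (v' + (l' + 2 * g₂')))) + (l' + 2 * g₂'))) = _
  ring

/-- **the pair lines of a derived list**, family `K log X - 3 t` -/
theorem plnFT_leaf {L : IN → Line Lam 5} {lam : Lam} {Φ : ℝ → ℝ → List Pq → ℝ}
    {K ε M r bm X n Bd c μ C S c₁ μ' m₁ e₁ Lv t : ℝ} {base : List Pq} {l : List Pf} {N : ℕ}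
    (hL : LnEq L lam Φ c μ) (hX : 1 < X)
    (H : LnP L lam K ε M r bm X (n / Real.log X) (Lv / Real.log X) Bd base)
    (hC : 0 ≤ C) (hS : SbL S l base) (hz : ∀ q ∈ base, Dq.len q ≤ c₁ * Real.log X)
    (hr : C + S ≤ r) (hbm : C * Real.exp S * X ^ c₁ ≤ bm) (hN : l.length ≤ N)
    (hM : 0 ≤ M) (hμ : N * M ≤ 2 * μ') (hBd : 0 ≤ Bd)
    (he1 : 0 ≤ e₁) (he : e₁ ≤ ε * Real.log X) (hm : m₁ ≤ (μ + ε) * Real.log X)
    (hn : 0 ≤ n) (hnT : n ≤ TK K * Real.log X) (hμT : K + μ + ε ≤ TK K)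
    (ht : 0 ≤ t) (htT : t ≤ TK K * Real.log X) :
    PLnF Φ μ' C (fun i => (l.get i).1) n (K * Real.log X - 3 * t) Lv m₁ e₁
      (Bd * (Ht l * Ht (natl base)) ^ M * Real.exp (4 * t - μ * Real.log X)) := by
  have hX0 : 0 < X := by linarith
  have hy0 : 0 < Real.log X := Real.log_pos hX
  refine plnFT_of (lnGaT_of hL hX H) (lnR2T_of hL hX H) hX0 hC hS hz hr hbm hN hM hμ hBd he1 he
    (by linarith) (ht.trans htT) hn hnT ?_ ht htT
  have h1 : (K + μ + ε) * Real.log X ≤ TK K * Real.log X := by gcongr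
  linarith

/-- **the pair lines of the list and of the replaced list** (exceptional class), family
`K log X - 3 t` -/
theorem plnFT_two {L : IN → Line Lam 5} {lam : Lam} {Φ : ℝ → ℝ → List Pq → ℝ}
    {K ε M r bm X Bd c c' μ C S c₀ d₀ μ' m₁ e₁ Lv t : ℝ} {ps₀ : List Pq} {ps : List Pf} {N : ℕ}
    {N₀ N₁ : ℕ} (hL : LnEq L lam Φ c' μ) (hX : 1 < X)
    (H : ∀ t : Bool, LnP L lam K ε M r bm X (LF ps / Real.log X) (Lv / Real.log X) Bd
      (rbx d₀ t X ps₀))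
    (hF : RFacts K c ε X ps₀ ps Lv N₀ N₁) (hC : 0 ≤ C) (hS0 : 0 ≤ S) (hS : SbL S ps ps₀)
    (hz : ∀ q ∈ ps₀, Dq.len q ≤ c₀ * Real.log X) (hc₀ : 0 ≤ c₀) (hd₀ : 0 ≤ d₀)
    (hdc : d₀ ≤ 2 * c₀) (hLg : Lg (d₀ * Real.log X) ps)
    (hr : C + 2 * S ≤ r) (hbm : C * Real.exp (2 * S) * X ^ (2 * c₀) ≤ bm)
    (hN : ps₀.length ≤ N) (hM : 0 ≤ M) (hμ : N * M ≤ 2 * μ') (hBd : 0 ≤ Bd)
    (he1 : 0 ≤ e₁) (he : e₁ ≤ ε * Real.log X) (hm : m₁ ≤ (μ + ε) * Real.log X)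
    (hK : 0 ≤ K) (hεT : 2 * ε ≤ 9 * K + 10) (hμT : μ + ε ≤ 9 * K + 10)
    (ht : 0 ≤ t) (htT : t ≤ 10 * (K + 1) * Real.log X) :
    PLnF Φ μ' C (fun i => (ps.get i).1) (LF ps) (K * Real.log X - 3 * t) Lv m₁ e₁
      (Bd * (Ht ps * Ht (natl ps₀)) ^ M * Real.exp (4 * t - μ * Real.log X)) ∧
    PLnF Φ μ' C (fun i => ((rp (d₀ * Real.log X) ps).get i).1) (LF ps)
      (K * Real.log X - 3 * t) Lv m₁ e₁
      (Bd * (Ht ps * Ht (natl ps₀)) ^ M * Real.exp (4 * t - μ * Real.log X)) := by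
  have hX0 : 0 < X := by linarith
  have hy0 : 0 < Real.log X := Real.log_pos hX
  have hn : 0 ≤ LF ps := LF_nonneg hS.z_nonneg
  have eT : TK K = 10 * (K + 1) := rfl
  have hnT : LF ps ≤ TK K * Real.log X := by
    have h1 := hF.nK
    have h2 := hF.hi
    have h3 : (K + 2 * ε) * Real.log X ≤ TK K * Real.log X := by
      refine mul_le_mul_of_nonneg_right ?_ hy0.le
      rw [eT]; linarith
    linarith
  have hμT' : K + μ + ε ≤ TK K := by rw [eT]; linarith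
  have htT' : t ≤ TK K * Real.log X := by rw [eT]; exact htT
  have hlen : ps.length ≤ N := by rw [hS.length]; exact hN
  have hexp : Real.exp S ≤ Real.exp (2 * S) := Real.exp_le_exp.2 (by linarith)
  have hXc : X ^ c₀ ≤ X ^ (2 * c₀) :=
    Real.rpow_le_rpow_of_exponent_le hX.le (by linarith)
  have hp0 := H false
  have hp1 := H true
  have er0 : rbx d₀ false X ps₀ = ps₀ := by unfold RGB545.rbx; simp
  have er1 : rbx d₀ true X ps₀ = rpB (d₀ * Real.log X) ps₀ := by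
    rw [rpB_eq']; unfold RGB545.rbx; simp
  rw [er0] at hp0
  rw [er1] at hp1
  refine ⟨?_, ?_⟩
  · exact plnFT_leaf hL hX hp0 hC hS hz (by linarith)
      (le_trans (by gcongr) hbm) hlen hM hμ hBd he1 he hm hn hnT hμT' ht htT'
  · have hD : 0 ≤ d₀ * Real.log X := by positivity
    have h1 := plnFT_leaf (n := LF ps) hL hX hp1 hC (SbL_rp hS0 hD hS hLg)
      (c₁ := 2 * c₀) (N := N) (μ' := μ') (e₁ := e₁) (m₁ := m₁) (t := t)
      (fun q hq => by
        have := len_rpB' (L := c₀ * Real.log X) hD (by nlinarith) (by positivity) hz q hq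
        linarith)
      (by linarith) hbm (by rw [rp_length]; exact hlen) hM hμ hBd he1 he hm hn hnT hμT' ht htT'
    rw [Ht_rp, Ht_natl_rpB'] at h1
    exact h1

end Crest.Agent.R017.QsJ401
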