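import Crest.Agent.R017.QsJp_401

/-!
# Row 17, block C70, leaf E2 (helper401): the pair lines at a lower level and a smaller family

* `PLnF.downT` : helper502's step, from all families `K - 3 t₁`, `t₁ ≤ t`, to a lower level at
  the family `K - 3 t`
* `plnFT_down` : for the list and the replaced list, from the premises of the leaf `RLeafX`
-/

set_option autoImplicit false
set_option linter.unusedVariables false
set_option maxHeartbeats 800000

noncomputable section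

open Finset
open scoped ComplexConjugate

namespace Crest.Agent.R017.QsJ401

open Crest.Agent.R012 Crest.Agent.R012.Eis Crest.Agent.R012.LS2
open Crest.Agent.R012.T411 (NCube)
open Crest.Agent.R017.B770
open Crest.Agent.R017.Prov71
open Crest.Agent.R017.Leg381 (alf alF Pf LF LF_get natl)
open Crest.Agent.R017.XRG106
open Crest.Agent.R017.MoL106 (nr nr_mono)
open Crest.Agent.R017.RG64 (SbL Sb Ht one_le_Ht RFacts LF_nonneg)
open Crest.Agent.R017.XP699 (LL Chd hcost cst)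
open Crest.Agent.R017.RGB545 (Line Th TK rbx IN GN EN bN LE PQe LN PFp)
open Crest.Agent.R017.RXk848 (LnP Lmp)
open Crest.Agent.R017.RX298 (rp rpB Lg LF_rp Ht_rp SbL_rp rp_length rpB_length)

/-- the functional of class E is monotone in the level -/
lemma pqe_mono {Lam : Type*} (π : Lam → DPar) (h : ℝ → ℝ) (lam : Lam) :
    ∀ (l l' β : ℝ) (ps : List Pq), l ≤ l' → PQe π h lam l β ps ≤ PQe π h lam l' β ps :=
  fun _ _ _ ps hl => RQd385.PM2Q_mono (fun _ hk => hk) hl le_rfl ps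

/-- **the lines at a lower level, family `K - 3 t`** -/
theorem PLnF.downT {Φ : ℝ → ℝ → List Pq → ℝ} {μ C : ℝ} {r : ℕ} {s : Fin r → Pq}
    {n K Lv Lv' m m' e Bd t : ℝ}
    (hmono : ∀ l l' β ps, l ≤ l' → Φ l β ps ≤ Φ l' β ps)
    (hBd : 0 ≤ Bd) (he : 0 ≤ e) (hm : m' + e ≤ m) (hm' : 0 ≤ m') (hL : Lv' ≤ Lv)
    (hK : 3 * Lv ≤ 2 * K + m') (ht : 0 ≤ t)
    (H : ∀ t₁, 0 ≤ t₁ → t₁ ≤ t → PLnF Φ μ C s n (K - 3 * t₁) Lv m e (Bd * Real.exp (4 * t₁))) :
    PLnF Φ μ C s n (K - 3 * t) Lv' m' e (Bd * Real.exp (4 * t) * Real.exp e) := by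
  refine ⟨?_, ?_⟩
  · intro s' W0 hW0 hR i b g hb hg hi h1 h2 h3 h4
    have hW : 0 ≤ W0 ^ (2 * μ) := Real.rpow_nonneg (by linarith) _
    have hz0 : 0 ≤ ∑ k, (s' k).z := Finset.sum_nonneg fun k _ => (hR k).z0
    have hi0 : 0 ≤ i := by linarith
    have hBW : 0 ≤ Bd * W0 ^ (2 * μ) := mul_nonneg hBd hW
    by_cases hc : Lv ≤ 2 * (i + b) + e
    · refine ((H t ht le_rfl).r2 s' W0 hW0 hR i b g hb hg hi h1 (by linarith) (by linarith)
        hc).trans ?_
      have h5 : nr Lv' i ≤ nr Lv i := nr_mono hL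
      have e0 : Bd * Real.exp (4 * t) * W0 ^ (2 * μ) *
          Real.exp (n + (K - 3 * t) + i - nr Lv i - (n - b - ∑ k, (s' k).z)) =
          Bd * W0 ^ (2 * μ) * (Real.exp (4 * t) *
          Real.exp (n + (K - 3 * t) + i - nr Lv i - (n - b - ∑ k, (s' k).z))) := by ring
      have e1 : Bd * Real.exp (4 * t) * Real.exp e * W0 ^ (2 * μ) *
          Real.exp (n + (K - 3 * t) + i - nr Lv' i - (n - b - ∑ k, (s' k).z)) =
          Bd * W0 ^ (2 * μ) * (Real.exp (4 * t) * Real.exp e *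
          Real.exp (n + (K - 3 * t) + i - nr Lv' i - (n - b - ∑ k, (s' k).z))) := by ring
      rw [e0, e1, ← Real.exp_add, ← Real.exp_add, ← Real.exp_add]
      refine mul_le_mul_of_nonneg_left (Real.exp_le_exp.2 ?_) hBW
      linarith
    · push Not at hc
      set y : ℝ := Lv / 2 - b - i with hy
      have hy0 : 0 ≤ y := by linarith
      have hbK : b ≤ (K + m') / 2 := by linarith
      have hKm : 0 ≤ K + m' := by linarith
      set t₁ : ℝ := min t ((K + m - Lv / 2 - b) / 3) with ht₁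
      have hD : 0 ≤ K + m - Lv / 2 - b := by linarith
      have a1 : 0 ≤ t₁ := le_min ht (by linarith)
      have a2 : t₁ ≤ t := min_le_left _ _
      have a3 : t₁ ≤ (K + m - Lv / 2 - b) / 3 := min_le_right _ _
      have h6 : Φ (i - 2 * g) (b + g) (List.ofFn s') ≤
          Φ (i + y - 2 * g) (b + g) (List.ofFn s') := hmono _ _ _ _ (by linarith)
      have hw1 : i + y ≤ Lv + n - (K - 3 * t₁) + b + m := by
        rcases le_total t ((K + m - Lv / 2 - b) / 3) with h7 | h7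
        · rw [ht₁, min_eq_left h7]
          linarith
        · rw [ht₁, min_eq_right h7]
          linarith
      refine h6.trans (((H t₁ a1 a2).r2 s' W0 hW0 hR (i + y) b g hb hg (by linarith) h1
        hw1 (by linarith) (by linarith)).trans ?_)
      have h5 := nr_step (L := Lv') (L' := Lv) (i := i) (y := y) (e := e) hy0 he
        (by linarith)
      have e0 : Bd * Real.exp (4 * t₁) * W0 ^ (2 * μ) *
          Real.exp (n + (K - 3 * t₁) + (i + y) - nr Lv (i + y) - (n - b - ∑ k, (s' k).z)) =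
          Bd * W0 ^ (2 * μ) * (Real.exp (4 * t₁) *
          Real.exp (n + (K - 3 * t₁) + (i + y) - nr Lv (i + y) -
            (n - b - ∑ k, (s' k).z))) := by ring
      have e1 : Bd * Real.exp (4 * t) * Real.exp e * W0 ^ (2 * μ) *
          Real.exp (n + (K - 3 * t) + i - nr Lv' i - (n - b - ∑ k, (s' k).z)) =
          Bd * W0 ^ (2 * μ) * (Real.exp (4 * t) * Real.exp e *
          Real.exp (n + (K - 3 * t) + i - nr Lv' i - (n - b - ∑ k, (s' k).z))) := by ring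
      rw [e0, e1, ← Real.exp_add, ← Real.exp_add, ← Real.exp_add]
      refine mul_le_mul_of_nonneg_left (Real.exp_le_exp.2 ?_) hBW
      linarith
  · intro s' W0 hW0 hR i b g γ hγ hγb hg hi h1 h2 h3 h4
    have hW : 0 ≤ W0 ^ (2 * μ) := Real.rpow_nonneg (by linarith) _
    refine ((H t ht le_rfl).ga s' W0 hW0 hR i b g γ hγ hγb hg hi h1 (by linarith) (by linarith)
      (by linarith)).trans ?_
    have e0 : Bd * Real.exp (4 * t) * W0 ^ (2 * μ) *
        Real.exp (n + (K - 3 * t) - (Lv - i - b + 2 * γ + (n - b - ∑ k, (s' k).z))) =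
        Bd * W0 ^ (2 * μ) * (Real.exp (4 * t) *
        Real.exp (n + (K - 3 * t) - (Lv - i - b + 2 * γ + (n - b - ∑ k, (s' k).z)))) := by ring
    have e1 : Bd * Real.exp (4 * t) * Real.exp e * W0 ^ (2 * μ) *
        Real.exp (n + (K - 3 * t) - (Lv' - i - b + 2 * γ + (n - b - ∑ k, (s' k).z))) =
        Bd * W0 ^ (2 * μ) * (Real.exp (4 * t) * Real.exp e *
        Real.exp (n + (K - 3 * t) - (Lv' - i - b + 2 * γ + (n - b - ∑ k, (s' k).z)))) := by ring
    rw [e0, e1, ← Real.exp_add, ← Real.exp_add, ← Real.exp_add]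
    refine mul_le_mul_of_nonneg_left (Real.exp_le_exp.2 ?_) (mul_nonneg hBd hW)
    linarith

variable {Lam : Type*}

/-- **the pair lines of the list and of the replaced list** (exceptional class), family
`K log X - 3 t`, any lower level -/
theorem plnFT_down {L : IN → Line Lam 5} {lam : Lam} {Φ : ℝ → ℝ → List Pq → ℝ}
    {K ε M r bm X Bd c c' μ C S c₀ d₀ μ' m₁ e₁ Lv Lv' t : ℝ} {ps₀ : List Pq} {ps : List Pf}
    {N : ℕ} {N₀ N₁ : ℕ} (hL : LnEq L lam Φ c' μ)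
    (hmono : ∀ l l' β ps, l ≤ l' → Φ l β ps ≤ Φ l' β ps) (hX : 1 < X)
    (H : ∀ t : Bool, LnP L lam K ε M r bm X (LF ps / Real.log X) (Lv / Real.log X) Bd
      (rbx d₀ t X ps₀))
    (hF : RFacts K c ε X ps₀ ps Lv N₀ N₁) (hC : 0 ≤ C) (hS0 : 0 ≤ S) (hS : SbL S ps ps₀)
    (hz : ∀ q ∈ ps₀, Dq.len q ≤ c₀ * Real.log X) (hc₀ : 0 ≤ c₀) (hd₀ : 0 ≤ d₀)
    (hdc : d₀ ≤ 2 * c₀) (hLg : Lg (d₀ * Real.log X) ps)
    (hr : C + 2 * S ≤ r) (hbm : C * Real.exp (2 * S) * X ^ (2 * c₀) ≤ bm)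
    (hN : ps₀.length ≤ N) (hM : 0 ≤ M) (hμ : N * M ≤ 2 * μ') (hBd : 0 ≤ Bd)
    (he1 : 0 ≤ e₁) (he : e₁ ≤ ε * Real.log X) (hm0 : 0 ≤ m₁)
    (hm : m₁ + e₁ ≤ (μ + ε) * Real.log X)
    (hK : 0 ≤ K) (hεT : 2 * ε ≤ 9 * K + 10) (hμT : μ + ε ≤ 9 * K + 10)
    (ht : 0 ≤ t) (htT : t ≤ 10 * (K + 1) * Real.log X) (hLv : Lv' ≤ Lv)
    (hLK : 3 * Lv ≤ 2 * (K * Real.log X)) :
    PLnF Φ μ' C (fun i => (ps.get i).1) (LF ps) (K * Real.log X - 3 * t) Lv' m₁ e₁
      (Bd * (Ht ps * Ht (natl ps₀)) ^ M * Real.exp (4 * t - μ * Real.log X) * Real.exp e₁) ∧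
    PLnF Φ μ' C (fun i => ((rp (d₀ * Real.log X) ps).get i).1) (LF ps)
      (K * Real.log X - 3 * t) Lv' m₁ e₁
      (Bd * (Ht ps * Ht (natl ps₀)) ^ M * Real.exp (4 * t - μ * Real.log X) *
        Real.exp e₁) := by
  have hB' : 0 ≤ Bd * (Ht ps * Ht (natl ps₀)) ^ M * Real.exp (-(μ * Real.log X)) := by
    have h1 : 1 ≤ Ht ps * Ht (natl ps₀) :=
      one_le_mul_of_one_le_of_one_le (one_le_Ht _) (one_le_Ht _)
    have h2 : 0 ≤ (Ht ps * Ht (natl ps₀)) ^ M := Real.rpow_nonneg (by linarith) _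
    positivity
  have key : ∀ t₁, 0 ≤ t₁ → t₁ ≤ t →
      PLnF Φ μ' C (fun i => (ps.get i).1) (LF ps) (K * Real.log X - 3 * t₁) Lv (m₁ + e₁) e₁
        (Bd * (Ht ps * Ht (natl ps₀)) ^ M * Real.exp (-(μ * Real.log X)) *
          Real.exp (4 * t₁)) ∧
      PLnF Φ μ' C (fun i => ((rp (d₀ * Real.log X) ps).get i).1) (LF ps)
        (K * Real.log X - 3 * t₁) Lv (m₁ + e₁) e₁
        (Bd * (Ht ps * Ht (natl ps₀)) ^ M * Real.exp (-(μ * Real.log X)) *
          Real.exp (4 * t₁)) := by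
    intro t₁ h1 h2
    have h3 := plnFT_two (N := N) (μ' := μ') (m₁ := m₁ + e₁) (e₁ := e₁) (t := t₁) hL hX H hF hC
      hS0 hS hz hc₀ hd₀ hdc hLg hr hbm hN hM hμ hBd he1 he hm hK hεT hμT h1 (h2.trans htT)
    have e1 : Bd * (Ht ps * Ht (natl ps₀)) ^ M * Real.exp (4 * t₁ - μ * Real.log X) =
        Bd * (Ht ps * Ht (natl ps₀)) ^ M * Real.exp (-(μ * Real.log X)) *
          Real.exp (4 * t₁) := by
      rw [sub_eq_add_neg, Real.exp_add]; ring
    rw [e1] at h3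
    exact h3
  have e2 : Bd * (Ht ps * Ht (natl ps₀)) ^ M * Real.exp (4 * t - μ * Real.log X) =
      Bd * (Ht ps * Ht (natl ps₀)) ^ M * Real.exp (-(μ * Real.log X)) * Real.exp (4 * t) := by
    rw [sub_eq_add_neg, Real.exp_add]; ring
  rw [e2]
  exact ⟨PLnF.downT hmono hB' he1 le_rfl hm0 hLv (by linarith) ht fun t₁ h1 h2 =>
      (key t₁ h1 h2).1,
    PLnF.downT hmono hB' he1 le_rfl hm0 hLv (by linarith) ht fun t₁ h1 h2 => (key t₁ h1 h2).2⟩

end Crest.Agent.R017.QsJ401
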