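import Crest.Agent.R017.R1ME_904

/-!
# Row 17, R8 / P1MX: the class-E mismatch, `δ ≤ 3/20 k` (helper904)

As `coreMs`, `coreMs2` (second form) and the cube class, with the exponent `hE` of `H`.
`ℓ` = what the three lumps of the child lost, `q` = length of the amplifier part, `γ = log g`,
`ρ = log (g / h)`, `p ≤ N - ℓ + q - 2 γ`, `a` = level of the class (`≤ v - ρ`), `b = log U_e`.
-/

set_option autoImplicit false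
set_option linter.unusedVariables false

noncomputable section

namespace Crest.Agent.R017.R1M904

open Crest.Agent.R017.RnP571 (Dh)
open Crest.Agent.R017.P1Q904 (LQ LQ_ge)
open Crest.Agent.R017

lemma hM_le_hE (N k p δ x v s : ℝ) : hM N k p δ x ≤ hE N k p δ x v s := by
  unfold hM hE
  refine max_le_max le_rfl ?_
  have h1 := le_max_left (4 / 3 * p + 2 / 3 * x)
    (p + v - max 0 (max (5 / 3 * s) (3 * s - 52 / 300 * k)))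
  linarith

set_option maxHeartbeats 16000000 in
/-- **the structured part, second form** (`ρ ≤ x + t`) -/
lemma coreMsF {k y₃ y₄ u x D t p v ρ a n h δ b i m x' S γ q ℓ s : ℝ} (hD : Dh k y₃ y₄ u x D)
    (t0 : 0 ≤ t) (t1 : t ≤ k / 20000) (hp : p ≤ y₃ + y₄ + u - ℓ + q - 2 * γ + t)
    (v1 : v ≤ 2 * (y₃ + y₄ + u) - k + 21 / 5 * x - 2 * ℓ + k / 50)
    (v2 : v ≤ 3 / 4 * (y₃ + y₄ + u) + 21 / 5 * x - 2 * ℓ + k / 50)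
    (v3 : v ≤ 2 * (y₃ + y₄ + u) - k + 21 / 5 * x + t)
    (v4 : v ≤ 3 / 4 * (y₃ + y₄ + u) + 21 / 5 * x + t)
    (ha : a ≤ v - ρ + t) (hn : n ≤ p + ρ + t)
    (hh : h ≤ hE (y₃ + y₄ + u) k p δ x v s - 2 * b + t) (hL : 0 ≤ h + 2 * a - k - δ + t)
    (ρ0 : 0 ≤ ρ) (ρ1 : ρ ≤ x + t) (b0 : 0 ≤ b) (δ0 : 0 ≤ δ) (δ1 : δ ≤ 3 / 20 * k + t)
    (γ0 : 0 ≤ γ) (q1 : q ≤ x + t) (ℓ0 : 0 ≤ ℓ + t) (hs : 17 / 100 * k - ℓ - γ - t ≤ s)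
    (x0' : 0 ≤ x') (x1' : x' ≤ x + t) (hm : m ≤ p - δ - b + t) (i0 : 0 ≤ i)
    (hi : i ≤ n + a + h - k + t) (s1 : S - x' ≤ u + t) (s2 : 3 * (S - x') ≤ m - x')
    (s3 : 2 * (S - x') ≤ i) :
    2 / 3 * k - (h + a) / 3 + 5 / 3 * δ + b + P1Q904.gQ (h + 2 * a - k - δ) (n + a + h - k) +
      2 / 3 * (n - δ) + (i + 3 / 4 * S + 61 / 100 * D) + (n + a + h - k - i) / 3 + k / 200 ≤
      k + p + LQ (y₃ + y₄ + u) k D := by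
  obtain ⟨L1, L2⟩ := LQ_ge (y₃ + y₄ + u) k D
  obtain ⟨w, X, w0, w1, w2, X0, X1, hh'⟩ := hE_cases (y₃ + y₄ + u) k p δ x v s
  have hg := P1Q904.gQ_cases (h + 2 * a - k - δ) (n + a + h - k)
  generalize LQ (y₃ + y₄ + u) k D = L at *
  generalize hE (y₃ + y₄ + u) k p δ x v s = H at *
  generalize P1Q904.gQ (h + 2 * a - k - δ) (n + a + h - k) = g at *
  obtain ⟨k0, u4, y43, u0, y3, N1, near, x0, adm, d0, d1⟩ := hD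
  rcases hg with rfl | rfl | rfl | rfl <;> rcases hh' with hh' | hh' | hh' <;>
    rcases adm with ⟨a0, rfl | a1⟩ | ⟨a1, a2, a3⟩ <;> linarith

set_option maxHeartbeats 16000000 in
/-- the principal part, second form -/
lemma coreMs2F {k y₃ y₄ u x D t p v ρ a n h δ b x' γ q ℓ s : ℝ} (hD : Dh k y₃ y₄ u x D)
    (t0 : 0 ≤ t) (t1 : t ≤ k / 20000) (p0 : k / 2 - 2 * x - t ≤ p)
    (hp : p ≤ y₃ + y₄ + u - ℓ + q - 2 * γ + t)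
    (v1 : v ≤ 2 * (y₃ + y₄ + u) - k + 21 / 5 * x - 2 * ℓ + k / 50)
    (v2 : v ≤ 3 / 4 * (y₃ + y₄ + u) + 21 / 5 * x - 2 * ℓ + k / 50)
    (v3 : v ≤ 2 * (y₃ + y₄ + u) - k + 21 / 5 * x + t)
    (v4 : v ≤ 3 / 4 * (y₃ + y₄ + u) + 21 / 5 * x + t)
    (ha : a ≤ v - ρ + t) (hn : n ≤ p + ρ + t)
    (hh : h ≤ hE (y₃ + y₄ + u) k p δ x v s - 2 * b + t) (hL : 0 ≤ h + 2 * a - k - δ + t)
    (ρ0 : 0 ≤ ρ) (ρ1 : ρ ≤ x + t) (b0 : 0 ≤ b) (δ0 : 0 ≤ δ) (δ1 : δ ≤ 3 / 20 * k + t)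
    (γ0 : 0 ≤ γ) (q1 : q ≤ x + t) (ℓ0 : 0 ≤ ℓ + t) (hs : 17 / 100 * k - ℓ - γ - t ≤ s)
    (x0' : 0 ≤ x') (x1' : x' ≤ x + t) :
    2 / 3 * k - (h + a) / 3 + 5 / 3 * δ + b + P1Q904.gQ (h + 2 * a - k - δ) (n + a + h - k) +
      2 / 3 * (n - δ) + max 0 ((n + a + h - k) / 3 + x') + k / 200 ≤
      k + p + LQ (y₃ + y₄ + u) k D := by
  obtain ⟨L1, L2⟩ := LQ_ge (y₃ + y₄ + u) k D
  obtain ⟨w, X, w0, w1, w2, X0, X1, hh'⟩ := hE_cases (y₃ + y₄ + u) k p δ x v s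
  have hg := P1Q904.gQ_cases (h + 2 * a - k - δ) (n + a + h - k)
  have h0 : max 0 ((n + a + h - k) / 3 + x') = 0 ∨
      max 0 ((n + a + h - k) / 3 + x') = (n + a + h - k) / 3 + x' := max_choice _ _
  generalize LQ (y₃ + y₄ + u) k D = L at *
  generalize hE (y₃ + y₄ + u) k p δ x v s = H at *
  generalize P1Q904.gQ (h + 2 * a - k - δ) (n + a + h - k) = g at *
  obtain ⟨k0, u4, y43, u0, y3, N1, near, x0, adm, d0, d1⟩ := hD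
  rcases h0 with h0 | h0 <;> rw [h0] <;>
  rcases hg with rfl | rfl | rfl | rfl <;> rcases hh' with hh' | hh' | hh' <;>
    rcases adm with ⟨a0, rfl | a1⟩ | ⟨a1, a2, a3⟩ <;> linarith

set_option maxHeartbeats 4000000 in
/-- **the cube class** -/
theorem lineTF {k y₃ y₄ u x D t p v ρ a h δ b γ q ℓ s₀ s e : ℝ} (hD : Dh k y₃ y₄ u x D)
    (t0 : 0 ≤ t) (t1 : t ≤ k / 20000) (hp : p ≤ y₃ + y₄ + u - ℓ + q - 2 * γ + t)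
    (v1 : v ≤ 2 * (y₃ + y₄ + u) - k + 21 / 5 * x - 2 * ℓ + k / 50)
    (v2 : v ≤ 3 / 4 * (y₃ + y₄ + u) + 21 / 5 * x - 2 * ℓ + k / 50)
    (v3 : v ≤ 2 * (y₃ + y₄ + u) - k + 21 / 5 * x + t)
    (v4 : v ≤ 3 / 4 * (y₃ + y₄ + u) + 21 / 5 * x + t)
    (ha : a ≤ v - ρ + t) (hh : h ≤ hE (y₃ + y₄ + u) k p δ x v s - 2 * b + t)
    (hL : 0 ≤ h + 2 * a - k - δ + t)
    (ρ0 : 0 ≤ ρ) (b0 : 0 ≤ b) (δ0 : 0 ≤ δ) (δ1 : δ ≤ 3 / 20 * k + t) (γ0 : 0 ≤ γ)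
    (q1 : q ≤ x + t) (γ1 : γ ≤ q + t) (ℓ0 : 0 ≤ ℓ + t) (hs : 17 / 100 * k - ℓ - γ - t ≤ s)
    (b1 : b ≤ k / 64 + x + t) (hs0 : 17 / 100 * k - ℓ - t ≤ s₀) :
    h / 3 + 4 / 3 * a + 4 / 3 * (p + ρ) - δ + 2 * e - (ρ + b) +
      min 0 ((γ - ρ) + δ + (ρ + b) - s₀) + k / 200 ≤ k + p + LQ (y₃ + y₄ + u) k D + 2 * e - b := by
  have e0 : (γ - ρ) + δ + (ρ + b) - s₀ = γ + δ + b - s₀ := by ring
  rw [e0]
  obtain ⟨L1, L2⟩ := LQ_ge (y₃ + y₄ + u) k D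
  obtain ⟨w, X, w0, w1, w2, X0, X1, hh'⟩ := hE_cases (y₃ + y₄ + u) k p δ x v s
  have m1 := min_le_left 0 (γ + δ + b - s₀)
  have m2 := min_le_right 0 (γ + δ + b - s₀)
  generalize LQ (y₃ + y₄ + u) k D = L at *
  generalize hE (y₃ + y₄ + u) k p δ x v s = H at *
  generalize min 0 (γ + δ + b - s₀) = m at *
  obtain ⟨k0, u4, y43, u0, y3, N1, near, x0, adm, d0, d1⟩ := hD
  rcases hh' with hh' | hh' | hh' <;>
    rcases adm with ⟨a0, rfl | a1⟩ | ⟨a1, a2, a3⟩ <;> linarith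

end Crest.Agent.R017.R1M904
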