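import Crest.Agent.R017.R1M_904

/-!
# Row 17, R8 / P1MX: the cube class of the mismatch of a difference (helper904)

Homogeneous, tolerance `t`. `ℓ` = what the three lumps of the child lost, `q` = length of the
amplifier part, `γ = log g`, `ρ = log (g / h)`, `p = N - ℓ + q - 2 γ` (at most), `a` = level of the
class (`≤ v - ρ`), `b = log U_e`, `h` = exponent of `H`, `s₀` = shortest of the four lengths.
-/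

set_option autoImplicit false
set_option linter.unusedVariables false

noncomputable section

namespace Crest.Agent.R017.R1M904

open Crest.Agent.R017.RnP571 (Dh)
open Crest.Agent.R017.P1Q904 (LQ LQ_ge)
open Crest.Agent.R017

set_option maxHeartbeats 2000000 in
/-- **the cube class** -/
theorem lineTM {k y₃ y₄ u x D t p v ρ a h δ b γ q ℓ s₀ : ℝ} (hD : Dh k y₃ y₄ u x D) (t0 : 0 ≤ t)
    (t1 : t ≤ k / 20000) (hp : p ≤ y₃ + y₄ + u - ℓ + q - 2 * γ + t)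
    (v1 : v ≤ 2 * (y₃ + y₄ + u) - k + 21 / 5 * x - 2 * ℓ + k / 50)
    (v2 : v ≤ 3 / 4 * (y₃ + y₄ + u) + 21 / 5 * x - 2 * ℓ + k / 50)
    (v3 : v ≤ 2 * (y₃ + y₄ + u) - k + 21 / 5 * x + t)
    (v4 : v ≤ 3 / 4 * (y₃ + y₄ + u) + 21 / 5 * x + t)
    (ha : a ≤ v - ρ + t) (hh : h ≤ hM (y₃ + y₄ + u) k p δ x - 2 * b + t)
    (hL : 0 ≤ h + 2 * a - k - δ + t)
    (ρ0 : 0 ≤ ρ) (b0 : 0 ≤ b) (δ0 : 0 ≤ δ) (δ1 : δ ≤ 13 / 100 * k + t) (γ0 : 0 ≤ γ)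
    (q1 : q ≤ x + t) (γ1 : γ ≤ q + t) (ℓ0 : 0 ≤ ℓ + t) (hs : 17 / 100 * k - ℓ - t ≤ s₀) :
    h / 3 + 4 / 3 * a + (p + ρ) / 3 - δ + min 0 (γ + δ + b - s₀) + k / 200 ≤
      k + LQ (y₃ + y₄ + u) k D := by
  obtain ⟨L1, L2⟩ := LQ_ge (y₃ + y₄ + u) k D
  have hh' := hM_cases (y₃ + y₄ + u) k p δ x
  have m1 := min_le_left 0 (γ + δ + b - s₀)
  have m2 := min_le_right 0 (γ + δ + b - s₀)
  generalize LQ (y₃ + y₄ + u) k D = L at *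
  generalize hM (y₃ + y₄ + u) k p δ x = w at *
  generalize min 0 (γ + δ + b - s₀) = m at *
  obtain ⟨k0, u4, y43, u0, y3, N1, near, x0, adm, d0, d1⟩ := hD
  rcases hh' with hh' | ⟨hh', hh2⟩ <;>
    rcases adm with ⟨a0, rfl | a1⟩ | ⟨a1, a2, a3⟩ <;> linarith

/-- in the form of the target -/
theorem lineTM' {k y₃ y₄ u x D t p v ρ a h δ b γ q ℓ s₀ e : ℝ} (hD : Dh k y₃ y₄ u x D) (t0 : 0 ≤ t)
    (t1 : t ≤ k / 20000) (hp : p ≤ y₃ + y₄ + u - ℓ + q - 2 * γ + t)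
    (v1 : v ≤ 2 * (y₃ + y₄ + u) - k + 21 / 5 * x - 2 * ℓ + k / 50)
    (v2 : v ≤ 3 / 4 * (y₃ + y₄ + u) + 21 / 5 * x - 2 * ℓ + k / 50)
    (v3 : v ≤ 2 * (y₃ + y₄ + u) - k + 21 / 5 * x + t)
    (v4 : v ≤ 3 / 4 * (y₃ + y₄ + u) + 21 / 5 * x + t)
    (ha : a ≤ v - ρ + t) (hh : h ≤ hM (y₃ + y₄ + u) k p δ x - 2 * b + t)
    (hL : 0 ≤ h + 2 * a - k - δ + t)
    (ρ0 : 0 ≤ ρ) (b0 : 0 ≤ b) (δ0 : 0 ≤ δ) (δ1 : δ ≤ 13 / 100 * k + t) (γ0 : 0 ≤ γ)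
    (q1 : q ≤ x + t) (γ1 : γ ≤ q + t) (ℓ0 : 0 ≤ ℓ + t) (hs : 17 / 100 * k - ℓ - t ≤ s₀) :
    h / 3 + 4 / 3 * a + 4 / 3 * (p + ρ) - δ + 2 * e - (ρ + b) +
      min 0 ((γ - ρ) + δ + (ρ + b) - s₀) + k / 200 ≤ k + p + LQ (y₃ + y₄ + u) k D + 2 * e - b := by
  have h0 : (γ - ρ) + δ + (ρ + b) - s₀ = γ + δ + b - s₀ := by ring
  rw [h0]
  have := lineTM hD t0 t1 hp v1 v2 v3 v4 ha hh hL ρ0 b0 δ0 δ1 γ0 q1 γ1 ℓ0 hs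
  linarith

end Crest.Agent.R017.R1M904
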