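import Mathlib

/-!
# Row 17, class E, line (r2): the real tree, region of T3a (helper994)

* `coreA` : pure reals, one `linarith` per leaf of the exact branch-and-bound tree
-/

set_option autoImplicit false

noncomputable section

namespace Crest.Agent.R017.R2E994

set_option maxHeartbeats 4000000 in
theorem coreA {K₁ P₁ C₁ w₁ K n v D μ e₀ x y z w i b g t W ρ U : ℝ}
    (h3 : 4 * C₁ ≤ K₁)
    (h7 : 40 * (P₁ + C₁ + w₁) + 9 * (C₁ + w₁) ≤ 36 * K₁)
    (h9 : 15 * (P₁ + C₁ + w₁) + 2 * (C₁ + w₁) ≤ 13 * K₁)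
    (h10 : 15 * (P₁ + C₁ + w₁) + 3 * C₁ ≤ 13 * K₁)
    (h11 : K₁ ≤ K)
    (h12 : n ≤ (P₁ + C₁ + w₁))
    (h13 : 3 * v ≤ 2 * K)
    (h14 : 3 * (v + n) ≤ 9 * (P₁ + C₁ + w₁) - 4 * K₁ + K + 3 * e₀)
    (h15 : v + 3 * K₁ ≤ 2 * n + 2 * K + e₀)
    (h16 : K₁ ≤ (P₁ + C₁ + w₁) + C₁)
    (h17 : 2 * K₁ ≤ 2 * (P₁ + C₁ + w₁) + P₁)
    (h21 : 40 * (P₁ + C₁ + w₁) ≤ 33 * K₁)
    (h26 : 0 ≤ i)
    (h27 : 0 ≤ b)
    (h28 : 0 ≤ g)
    (h29 : 0 ≤ t)
    (h30 : 0 ≤ μ)
    (h31 : 0 ≤ e₀)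
    (h32 : 0 ≤ D)
    (h33 : 60 * μ ≤ K)
    (h34 : (x + y + z + w) + b + g ≤ n)
    (h35 : i ≤ v + n - K + 3 * t + b + μ)
    (h36 : i + 2 * b + 3 * t ≤ K + μ)
    (h37 : v ≤ 2 * (i + b))
    (h38 : 0 ≤ z)
    (h39 : 0 ≤ w)
    (h40 : z ≤ y)
    (h41 : y ≤ x)
    (h42 : z ≤ C₁)
    (h43 : w ≤ w₁)
    (h46 : 2 / 3 * (v + i) ≤ W)
    (h47 : 4 / 3 * n + (v + K) / 3 + D + 2 * μ + 2 * e₀ + t - (v + n - 2 * K) / 3 - μ - g - W + i ≤ ρ)
    (h48 : (x + y + z + w) / 3 + z / 2 ≤ U)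
    (h49 : (x + y + z + w) / 3 + 4 / 15 * (z + w) ≤ U)
    (h51 : w ≤ U)
    (dW : W ≤ v ∨ W ≤ i ∨ W ≤ 2 / 3 * (v + i))
    (dU : U ≤ (x + y + z + w) / 3 + z / 2 ∨ U ≤ (x + y + z + w) / 3 + 4 / 15 * (z + w) ∨ U ≤ 2 / 3 * (z + w) ∨ U ≤ w)
    (dA1 : (i + 2 * b) + (x + y + z + w) + 3 / 4 * (z + w) + D > ρ)
    (dA2 : (i + 2 * b) + (x + y + z + w) + 3 / 4 * z + D > ρ ∨ 5 / 12 * (i + 2 * b) + 7 / 12 * (x + y) + (x + y + z + w) + 3 / 4 * (z + w) + D > ρ ∨ 1 / 2 * (i + 2 * b) + 1 / 4 * (x + y) + (x + y + z + w) + 3 / 4 * (z + w) + D > ρ)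
    (dA3 : (i + 2 * b) + (x + y + z + w) + D > ρ ∨ 2 / 3 * (i + 2 * b) + (x + y + z + w) + U + D > ρ ∨ (i + 2 * b) / 3 + 3 / 2 * (x + y + z + w) + U / 2 + D > ρ)
    (dbe : i + b + (x + y + z + w) > ρ ∨ 2 * (x + y + z + w) + b + g + D > ρ ∨ 2 / 3 * i + b / 3 + (x + y + z + w) + U + D > ρ ∨ (0 < (2 * (x + y + z + w) + (i + 2 * b) / 3 - ρ) ∧ (2 * (x + y + z + w) + (i + 2 * b) / 3 - ρ) > x ∧ (2 * (x + y + z + w) + (i + 2 * b) / 3 - ρ) > z) ∨ (0 < (2 * (x + y + z + w) + (i + 2 * b) / 3 - ρ) ∧ (2 * (x + y + z + w) + (i + 2 * b) / 3 - ρ) > x ∧ 2 * (x + y + z - 2 * (2 * (x + y + z + w) + (i + 2 * b) / 3 - ρ)) ≤ (i + b)) ∨ (0 < (2 * (x + y + z + w) + (i + 2 * b) / 3 - ρ) ∧ 2 * (x + y - (2 * (x + y + z + w) + (i + 2 * b) / 3 - ρ)) ≤ (i + b) ∧ (2 * (x + y + z + w) + (i + 2 * b) / 3 - ρ) > z) ∨ (0 < (2 * (x + y + z + w) + (i + 2 * b) / 3 - ρ) ∧ 2 * (x + y - (2 * (x + y + z + w) + (i + 2 * b) / 3 - ρ)) ≤ (i + b) ∧ 2 * (x + y + z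 - 2 * (2 * (x + y + z + w) + (i + 2 * b) / 3 - ρ)) ≤ (i + b)))
    (dbp : i + b + (x + y + z + w) > ρ ∨ 2 * (x + y + z + w) + i + D > ρ ∨ 2 / 3 * b + i / 3 + (x + y + z + w) + U + D > ρ ∨ 2 * (x + y + z + w) + (2 * i + b) / 3 > ρ) : False := by
  have hK : 0 ≤ K := by linarith only [h33, h30]
  have aA1_0 := dA1
  rcases dW with aW_0 | aW_0 | aW_0
  · rcases dA2 with aA2_0 | aA2_0 | aA2_0
    · rcases dbp with abp_0 | abp_0 | abp_0 | abp_0
      · linarith only [hK, h13, h29, h30, h31, h32, h34, h47, aW_0, abp_0]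
      · rcases dU with aU_0 | aU_0 | aU_0 | aU_0
        · rcases dA3 with aA3_0 | aA3_0 | aA3_0
          · linarith only [hK, h11, h14, h15, h21, h28, h29, h30, h31, h34, h47, aW_0, abp_0, aA3_0]
          · linarith only [hK, h11, h14, h15, h21, h28, h29, h30, h31, h34, h37, h39, h40, h41, h47, aW_0, abp_0, aU_0, aA3_0]
          · linarith only [hK, h10, h11, h14, h15, h21, h28, h29, h30, h31, h34, h37, h42, h47, aW_0, aA2_0, aU_0, aA3_0]
        · rcases dA3 with aA3_0 | aA3_0 | aA3_0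
          · linarith only [hK, h11, h14, h15, h21, h28, h29, h30, h31, h34, h47, aW_0, abp_0, aA3_0]
          · linarith only [hK, h9, h11, h14, h15, h16, h21, h28, h29, h30, h31, h34, h37, h40, h41, h43, h47, aW_0, abp_0, aU_0, aA3_0]
          · linarith only [hK, h9, h11, h14, h15, h16, h28, h29, h30, h31, h34, h37, h40, h41, h43, h47, h48, aW_0, aA2_0, aU_0, aA3_0]
        · linarith only [hK, h13, h29, h30, h31, h34, h40, h41, h47, h49, h51, aW_0, aA2_0, abp_0, aU_0]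
        · linarith only [hK, h7, h13, h14, h15, h16, h17, h28, h29, h30, h31, h34, h43, h47, h49, aW_0, aA2_0, abp_0, aU_0]
      · rcases dU with aU_0 | aU_0 | aU_0 | aU_0
        · linarith only [hK, h3, h10, h11, h14, h15, h28, h29, h30, h31, h34, h37, h42, h47, aW_0, abp_0, aU_0]
        · linarith only [hK, h7, h9, h11, h14, h15, h28, h29, h30, h31, h34, h37, h42, h43, h47, aW_0, abp_0, aU_0]
        · linarith only [hK, h13, h26, h29, h30, h31, h34, h37, h40, h41, h47, h49, h51, aW_0, abp_0, aU_0]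
        · linarith only [hK, h7, h13, h14, h15, h16, h17, h26, h29, h30, h31, h34, h37, h43, h47, aW_0, abp_0, aU_0]
      · rcases dU with aU_0 | aU_0 | aU_0 | aU_0
        · rcases dA3 with aA3_0 | aA3_0 | aA3_0
          · linarith only [hK, h11, h14, h15, h21, h28, h29, h30, h31, h32, h34, h37, h47, aW_0, abp_0, aA3_0]
          · linarith only [hK, h11, h14, h15, h21, h28, h29, h30, h31, h32, h34, h37, h39, h40, h41, h47, aW_0, abp_0, aU_0, aA3_0]
          · linarith only [hK, h10, h11, h14, h15, h21, h28, h29, h30, h31, h34, h37, h42, h47, aW_0, aA2_0, aU_0, aA3_0]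
        · rcases dA3 with aA3_0 | aA3_0 | aA3_0
          · linarith only [hK, h11, h14, h15, h21, h28, h29, h30, h31, h32, h34, h37, h47, aW_0, abp_0, aA3_0]
          · linarith only [hK, h9, h11, h14, h15, h16, h21, h28, h29, h30, h31, h32, h34, h37, h40, h41, h43, h47, aW_0, abp_0, aU_0, aA3_0]
          · linarith only [hK, h9, h11, h14, h15, h16, h28, h29, h30, h31, h34, h37, h40, h41, h43, h47, h48, aW_0, aA2_0, aU_0, aA3_0]
        · linarith only [hK, h13, h27, h29, h30, h31, h32, h34, h37, h40, h41, h47, h49, h51, aW_0, abp_0, aU_0]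
        · linarith only [hK, h7, h11, h14, h15, h16, h17, h29, h30, h31, h32, h34, h37, h38, h43, h47, h49, aW_0, aA2_0, abp_0, aU_0]
    · linarith only [hK, h9, h11, h14, h15, h21, h28, h29, h30, h31, h34, h37, h42, h43, h47, aA1_0, aW_0, aA2_0]
    · linarith only [hK, h7, h9, h11, h14, h15, h16, h26, h28, h29, h30, h31, h34, h37, h40, h41, h43, h47, aW_0, aA2_0]
  · linarith only [hK, h7, h11, h12, h16, h17, h28, h29, h31, h33, h34, h35, h36, h40, h41, h43, h46, h47, aA1_0, aW_0]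
  · rcases dA2 with aA2_0 | aA2_0 | aA2_0
    · rcases dbe with abe_0 | abe_0 | abe_0 | ⟨abe_0, abe_1, abe_2⟩ | ⟨abe_0, abe_1, abe_2⟩ | ⟨abe_0, abe_1, abe_2⟩ | ⟨abe_0, abe_1, abe_2⟩
      · linarith only [hK, h11, h14, h15, h21, h29, h30, h31, h32, h34, h35, h36, h47, aW_0, abe_0]
      · rcases dU with aU_0 | aU_0 | aU_0 | aU_0
        · rcases dA3 with aA3_0 | aA3_0 | aA3_0
          · linarith only [hK, h11, h14, h15, h21, h29, h30, h31, h34, h35, h47, aW_0, abe_0, aA3_0]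
          · linarith only [hK, h10, h11, h14, h15, h21, h28, h29, h30, h31, h34, h35, h42, h47, aW_0, abe_0, aU_0, aA3_0]
          · linarith only [hK, h10, h11, h14, h15, h21, h28, h29, h30, h31, h34, h35, h42, h47, aW_0, aA2_0, aU_0, aA3_0]
        · linarith only [hK, h9, h11, h14, h15, h16, h29, h30, h31, h34, h35, h42, h43, h47, h48, aW_0, aA2_0, abe_0, aU_0]
        · linarith only [hK, h11, h14, h15, h21, h29, h30, h31, h34, h35, h40, h41, h47, h49, h51, aW_0, aA2_0, abe_0, aU_0]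
        · linarith only [hK, h9, h11, h14, h15, h16, h21, h29, h30, h31, h34, h35, h40, h41, h43, h47, h49, aW_0, aA2_0, abe_0, aU_0]
      · rcases dU with aU_0 | aU_0 | aU_0 | aU_0
        · linarith only [hK, h10, h11, h14, h15, h21, h27, h28, h30, h31, h34, h35, h42, h47, aW_0, abe_0, aU_0]
        · linarith only [hK, h9, h11, h14, h15, h16, h27, h28, h30, h31, h34, h35, h42, h43, h47, h48, aW_0, abe_0, aU_0]
        · linarith only [hK, h11, h14, h15, h21, h27, h30, h31, h34, h35, h40, h41, h47, h49, h51, aW_0, abe_0, aU_0]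
        · linarith only [hK, h7, h11, h14, h15, h16, h17, h27, h30, h31, h34, h35, h43, h47, aW_0, abe_0, aU_0]
      · linarith only [hK, h9, h10, h11, h14, h15, h28, h29, h30, h31, h32, h34, h35, h40, h41, h42, h43, h47, aW_0, aA2_0, abe_1]
      · linarith only [hK, h9, h10, h12, h14, h15, h28, h29, h30, h31, h32, h34, h35, h40, h41, h42, h43, h47, aW_0, aA2_0, abe_1]
      · rcases dU with aU_0 | aU_0 | aU_0 | aU_0
        · rcases dA3 with aA3_0 | aA3_0 | aA3_0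
          · linarith only [hK, h11, h14, h15, h21, h28, h29, h30, h31, h32, h34, h35, h47, h49, aW_0, abe_1, abe_2, aU_0, aA3_0]
          · linarith only [hK, h11, h14, h15, h21, h28, h29, h30, h31, h32, h34, h35, h47, aW_0, aA2_0, abe_2, aU_0, aA3_0]
          · linarith only [hK, h11, h14, h15, h21, h28, h29, h30, h31, h32, h34, h35, h47, aW_0, aA2_0, abe_2, aU_0, aA3_0]
        · rcases dA3 with aA3_0 | aA3_0 | aA3_0
          · linarith only [hK, h9, h11, h14, h15, h16, h28, h29, h30, h31, h32, h34, h35, h43, h47, aW_0, abe_1, abe_2, aA3_0]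
          · linarith only [hK, h9, h11, h14, h15, h16, h21, h28, h29, h30, h31, h32, h34, h35, h43, h47, h48, aW_0, abe_2, aU_0, aA3_0]
          · linarith only [hK, h9, h11, h14, h15, h16, h28, h29, h30, h31, h34, h35, h42, h43, h47, h48, aW_0, aA2_0, aU_0, aA3_0]
        · linarith only [hK, h13, h27, h29, h30, h31, h32, h34, h40, h41, h47, h49, h51, aW_0, abe_2, aU_0]
        · linarith only [hK, h7, h11, h14, h15, h16, h17, h29, h30, h31, h32, h34, h35, h38, h43, h47, h49, aW_0, aA2_0, abe_0, aU_0]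
      · rcases dU with aU_0 | aU_0 | aU_0 | aU_0
        · rcases dA3 with aA3_0 | aA3_0 | aA3_0
          · linarith only [hK, h9, h12, h14, h15, h16, h28, h29, h30, h31, h32, h34, h35, h43, h47, aW_0, abe_2, aA3_0]
          · linarith only [hK, h9, h12, h14, h15, h21, h28, h29, h30, h31, h32, h34, h35, h42, h43, h47, aW_0, abe_2, aU_0, aA3_0]
          · linarith only [hK, h10, h12, h14, h15, h21, h28, h29, h30, h31, h34, h35, h42, h47, aW_0, aA2_0, aU_0, aA3_0]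
        · rcases dA3 with aA3_0 | aA3_0 | aA3_0
          · linarith only [hK, h9, h12, h14, h15, h16, h28, h29, h30, h31, h32, h34, h35, h43, h47, aW_0, abe_2, aA3_0]
          · linarith only [hK, h9, h12, h14, h15, h16, h28, h29, h30, h31, h32, h34, h35, h42, h43, h47, aW_0, abe_2, aU_0, aA3_0]
          · linarith only [hK, h9, h12, h14, h15, h16, h28, h29, h30, h31, h34, h35, h42, h43, h47, h48, aW_0, aA2_0, aU_0, aA3_0]
        · linarith only [hK, h13, h27, h29, h30, h31, h32, h34, h40, h41, h47, h49, h51, aW_0, abe_0, aU_0]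
        · linarith only [hK, h7, h12, h14, h15, h16, h17, h29, h30, h31, h32, h34, h35, h38, h43, h47, h49, aW_0, aA2_0, abe_0, aU_0]
    · linarith only [hK, h9, h11, h14, h15, h28, h29, h30, h31, h34, h35, h42, h43, h47, aA1_0, aW_0, aA2_0]
    · linarith only [hK, h7, h11, h14, h15, h17, h27, h28, h29, h30, h31, h34, h35, h42, h43, h47, aW_0, aA2_0]

end Crest.Agent.R017.R2E994
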