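import Mathlib

/-!
# Row 17, class E, line (r2): the real tree, region of T3N (helper994)

* `coreN` : pure reals, one `linarith` per leaf of the exact branch-and-bound tree
-/

set_option autoImplicit false

noncomputable section

namespace Crest.Agent.R017.R2E994

set_option maxHeartbeats 4000000 in
theorem coreN {k l A B C w₀ K₁ P₁ C₁ w₁ K n v E D μ e₀ x y z w i b g t W ρ U : ℝ}
    (h1 : 0 ≤ l)
    (h6 : 9 * w₀ ≤ k)
    (h7 : A + B + 2 * C ≤ k + 3 * l)
    (h8 : 5 * (A + B + C) ≤ 4 * (k + 3 * l))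
    (h12 : w₁ ≤ w₀)
    (h13 : P₁ ≤ A + B)
    (h14 : C₁ ≤ C)
    (h15 : k + 3 * l ≤ K₁)
    (h16 : K₁ ≤ K)
    (h17 : n ≤ (P₁ + C₁ + w₁))
    (h18 : v + n ≤ 3 * (A + B + C + w₀) - k + (K - K₁) / 3)
    (h19 : v + 2 * K₁ + k ≤ 2 * n + 2 * K)
    (h20 : 4 / 3 * n + v / 3 + K / 3 + D + 2 * μ + 2 * e₀ ≤ E)
    (h23 : 40 * (A + B + C + w₀) ≤ 33 * K₁)
    (h24 : 3 * v ≤ 2 * K)
    (h26 : 4 * C₁ ≤ K)
    (h29 : 2 * n + 5 / 3 * v - 4 / 3 * K + 3 / 4 * (C₁ + w₁) + D + 2 * μ ≤ E)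
    (h33 : 2 * n + 5 / 4 * v - 11 / 12 * K + 1 / 3 * (C₁ + w₁) + D + 2 * μ ≤ E)
    (h35 : 37 / 21 * n + 25 / 21 * v - 2 / 3 * K + 3 / 7 * C₁ + D + 2 * μ ≤ E)
    (h39 : 0 ≤ i)
    (h40 : 0 ≤ b)
    (h41 : 0 ≤ g)
    (h42 : 0 ≤ t)
    (h43 : 0 ≤ μ)
    (h44 : 0 ≤ e₀)
    (h45 : 0 ≤ D)
    (h46 : 60 * μ ≤ K)
    (h47 : (x + y + z + w) + b + g ≤ n)
    (h48 : i ≤ v + n - K + 3 * t + b + μ)
    (h49 : i + 2 * b + 3 * t ≤ K + μ)
    (h50 : v ≤ 2 * (i + b))
    (h51 : 0 ≤ z)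
    (h52 : 0 ≤ w)
    (h53 : z ≤ y)
    (h54 : y ≤ x)
    (h55 : z ≤ C₁)
    (h56 : w ≤ w₁)
    (h59 : 2 / 3 * (v + i) ≤ W)
    (h60 : E + t - (v + n - 2 * K) / 3 - μ - g - W + i ≤ ρ)
    (h61 : (x + y + z + w) / 3 + z / 2 ≤ U)
    (h62 : (x + y + z + w) / 3 + 4 / 15 * (z + w) ≤ U)
    (h64 : w ≤ U)
    (dW : W ≤ v ∨ W ≤ i ∨ W ≤ 2 / 3 * (v + i))
    (dU : U ≤ (x + y + z + w) / 3 + z / 2 ∨ U ≤ (x + y + z + w) / 3 + 4 / 15 * (z + w) ∨ U ≤ 2 / 3 * (z + w) ∨ U ≤ w)
    (dA1 : (i + 2 * b) + (x + y + z + w) + 3 / 4 * (z + w) + D > ρ)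
    (dA2 : (i + 2 * b) + (x + y + z + w) + 3 / 4 * z + D > ρ ∨ 5 / 12 * (i + 2 * b) + 7 / 12 * (x + y) + (x + y + z + w) + 3 / 4 * (z + w) + D > ρ ∨ 1 / 2 * (i + 2 * b) + 1 / 4 * (x + y) + (x + y + z + w) + 3 / 4 * (z + w) + D > ρ)
    (dA3 : (i + 2 * b) + (x + y + z + w) + D > ρ ∨ 2 / 3 * (i + 2 * b) + (x + y + z + w) + U + D > ρ ∨ (i + 2 * b) / 3 + 3 / 2 * (x + y + z + w) + U / 2 + D > ρ)
    (dbe : i + b + (x + y + z + w) > ρ ∨ 2 * (x + y + z + w) + b + g + D > ρ ∨ 2 / 3 * i + b / 3 + (x + y + z + w) + U + D > ρ ∨ (0 < (2 * (x + y + z + w) + (i + 2 * b) / 3 - ρ) ∧ (2 * (x + y + z + w) + (i + 2 * b) / 3 - ρ) > x ∧ (2 * (x + y + z + w) + (i + 2 * b) / 3 - ρ) > z) ∨ (0 < (2 * (x + y + z + w) + (i + 2 * b) / 3 - ρ) ∧ (2 * (x + y + z + w) + (i + 2 * b) / 3 - ρ) > x ∧ 2 * (x + y + z - 2 * (2 * (x + y + z + w) + (i + 2 * b) / 3 - ρ)) ≤ (i + b)) ∨ (0 < (2 * (x + y + z + w) + (i + 2 * b) / 3 - ρ) ∧ 2 * (x + y - (2 * (x + y + z +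 w) + (i + 2 * b) / 3 - ρ)) ≤ (i + b) ∧ (2 * (x + y + z + w) + (i + 2 * b) / 3 - ρ) > z) ∨ (0 < (2 * (x + y + z + w) + (i + 2 * b) / 3 - ρ) ∧ 2 * (x + y - (2 * (x + y + z + w) + (i + 2 * b) / 3 - ρ)) ≤ (i + b) ∧ 2 * (x + y + z - 2 * (2 * (x + y + z + w) + (i + 2 * b) / 3 - ρ)) ≤ (i + b)))
    (dbp : i + b + (x + y + z + w) > ρ ∨ 2 * (x + y + z + w) + i + D > ρ ∨ 2 / 3 * b + i / 3 + (x + y + z + w) + U + D > ρ ∨ 2 * (x + y + z + w) + (2 * i + b) / 3 > ρ)
    (dwx : w₀ ≤ 0 ∨ 5 * (A + B + C + w₀) ≤ 4 * k)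
    (dnn : 6 * (A + B + C) ≤ 5 * k ∨ (w₀ ≤ 0 ∧ 10 * (A + B + C) ≤ 9 * k ∧ 4 * (A + B + C) ≤ 3 * (k + 3 * l) ∧ 18 * (A + B + C) ≤ 15 * k + 15 * l)) : False := by
  have hK : 0 ≤ K := by linarith only [h46, h43]
  have aA1_0 := dA1
  rcases dW with aW_0 | aW_0 | aW_0
  · rcases dA2 with aA2_0 | aA2_0 | aA2_0
    · rcases dwx with awx_0 | awx_0
      · rcases dnn with ann_0 | ⟨ann_0, ann_1, ann_2, ann_3⟩
        · rcases dbp with abp_0 | abp_0 | abp_0 | abp_0
          · linarith only [hK, h20, h24, h42, h43, h44, h45, h47, h60, aW_0, abp_0]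
          · rcases dU with aU_0 | aU_0 | aU_0 | aU_0
            · rcases dA3 with aA3_0 | aA3_0 | aA3_0
              · linarith only [hK, h8, h15, h16, h18, h19, h20, h41, h42, h43, h44, h47, h60, aW_0, awx_0, ann_0, abp_0, aA3_0]
              · linarith only [hK, h8, h15, h16, h18, h19, h20, h41, h42, h43, h44, h47, h50, h52, h53, h54, h60, aW_0, awx_0, ann_0, abp_0, aU_0, aA3_0]
              · linarith only [hK, h7, h8, h14, h15, h16, h18, h19, h20, h41, h42, h43, h44, h47, h50, h55, h60, aW_0, aA2_0, awx_0, ann_0, aU_0, aA3_0]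
            · linarith only [hK, h8, h12, h15, h16, h18, h19, h20, h41, h42, h43, h44, h47, h56, h60, h61, aA1_0, aW_0, awx_0, ann_0, abp_0, aU_0]
            · linarith only [hK, h8, h12, h15, h18, h19, h20, h42, h43, h44, h47, h48, h50, h53, h54, h56, h60, h61, aA1_0, aW_0, awx_0, ann_0, abp_0, aU_0]
            · linarith only [hK, h8, h12, h15, h18, h19, h20, h42, h43, h44, h47, h48, h50, h51, h56, h60, h61, aA1_0, aW_0, awx_0, ann_0, abp_0, aU_0]
          · rcases dU with aU_0 | aU_0 | aU_0 | aU_0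
            · linarith only [hK, h7, h8, h14, h15, h16, h18, h19, h20, h41, h42, h43, h44, h47, h50, h55, h60, aW_0, awx_0, ann_0, abp_0, aU_0]
            · linarith only [hK, h8, h12, h15, h16, h18, h19, h20, h41, h42, h43, h44, h47, h50, h56, h60, h61, aW_0, awx_0, ann_0, abp_0, aU_0]
            · linarith only [hK, h12, h20, h24, h39, h42, h43, h44, h47, h50, h53, h54, h56, h60, h61, aW_0, awx_0, abp_0, aU_0]
            · linarith only [hK, h12, h20, h24, h39, h42, h43, h44, h47, h50, h56, h60, aW_0, awx_0, abp_0, aU_0]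
          · rcases dU with aU_0 | aU_0 | aU_0 | aU_0
            · rcases dA3 with aA3_0 | aA3_0 | aA3_0
              · linarith only [hK, h8, h15, h16, h18, h19, h20, h41, h42, h43, h44, h45, h47, h50, h60, aW_0, awx_0, ann_0, abp_0, aA3_0]
              · linarith only [hK, h8, h15, h16, h18, h19, h20, h41, h42, h43, h44, h45, h47, h50, h52, h53, h54, h60, aW_0, awx_0, ann_0, abp_0, aU_0, aA3_0]
              · linarith only [hK, h7, h8, h12, h14, h15, h16, h18, h19, h20, h41, h42, h43, h44, h47, h50, h55, h56, h60, aA1_0, aW_0, awx_0, ann_0, aU_0, aA3_0]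
            · linarith only [hK, h8, h12, h15, h16, h18, h19, h20, h41, h42, h43, h44, h45, h47, h50, h56, h60, h61, aA1_0, aW_0, awx_0, ann_0, abp_0, aU_0]
            · linarith only [hK, h8, h12, h15, h18, h19, h20, h24, h42, h43, h44, h45, h47, h48, h50, h53, h54, h56, h60, h61, aW_0, awx_0, ann_0, abp_0, aU_0]
            · linarith only [hK, h8, h12, h15, h18, h19, h20, h24, h42, h43, h44, h45, h47, h48, h50, h51, h56, h60, h61, aW_0, awx_0, ann_0, abp_0, aU_0]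
        · rcases dbp with abp_0 | abp_0 | abp_0 | abp_0
          · linarith only [hK, h20, h24, h42, h43, h44, h45, h47, h60, aW_0, abp_0]
          · linarith only [hK, h15, h16, h18, h19, h20, h41, h42, h43, h44, h47, h53, h54, h60, aA1_0, aW_0, aA2_0, ann_0, ann_2, ann_3, abp_0]
          · rcases dU with aU_0 | aU_0 | aU_0 | aU_0
            · linarith only [hK, h15, h16, h18, h19, h20, h26, h41, h42, h43, h44, h47, h50, h55, h60, aW_0, ann_0, ann_2, ann_3, abp_0, aU_0]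
            · linarith only [hK, h12, h15, h16, h18, h19, h20, h41, h42, h43, h44, h47, h50, h56, h60, h61, aW_0, ann_0, ann_2, ann_3, abp_0, aU_0]
            · linarith only [hK, h12, h20, h24, h39, h42, h43, h44, h47, h50, h53, h54, h56, h60, h61, aW_0, ann_0, abp_0, aU_0]
            · linarith only [hK, h12, h20, h24, h39, h42, h43, h44, h47, h50, h56, h60, aW_0, ann_0, abp_0, aU_0]
          · rcases dU with aU_0 | aU_0 | aU_0 | aU_0
            · rcases dA3 with aA3_0 | aA3_0 | aA3_0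
              · linarith only [hK, h15, h16, h18, h19, h20, h41, h42, h43, h44, h45, h47, h50, h60, aW_0, ann_0, ann_2, ann_3, abp_0, aA3_0]
              · linarith only [hK, h15, h16, h18, h19, h20, h41, h42, h43, h44, h45, h47, h50, h52, h53, h54, h60, aW_0, ann_0, ann_2, ann_3, abp_0, aU_0, aA3_0]
              · linarith only [hK, h15, h16, h18, h19, h20, h41, h42, h43, h44, h47, h50, h53, h54, h60, aA1_0, aW_0, aA2_0, ann_0, ann_2, ann_3, aU_0, aA3_0]
            · linarith only [hK, h12, h15, h16, h18, h19, h20, h41, h42, h43, h44, h45, h47, h50, h56, h60, h61, aW_0, aA2_0, ann_0, ann_2, ann_3, abp_0, aU_0]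
            · linarith only [hK, h12, h15, h18, h19, h20, h24, h42, h43, h44, h45, h47, h48, h50, h53, h54, h56, h60, h61, aW_0, ann_0, ann_2, ann_3, abp_0, aU_0]
            · linarith only [hK, h12, h15, h18, h19, h20, h24, h42, h43, h44, h45, h47, h48, h50, h51, h56, h60, h61, aW_0, ann_0, ann_2, ann_3, abp_0, aU_0]
      · rcases dbp with abp_0 | abp_0 | abp_0 | abp_0
        · linarith only [hK, h20, h24, h42, h43, h44, h45, h47, h60, aW_0, abp_0]
        · linarith only [hK, h1, h15, h16, h18, h19, h20, h41, h42, h43, h44, h47, h53, h54, h60, aA1_0, aW_0, aA2_0, awx_0, abp_0]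
        · rcases dU with aU_0 | aU_0 | aU_0 | aU_0
          · linarith only [hK, h1, h15, h16, h18, h19, h20, h26, h41, h42, h43, h44, h47, h50, h55, h60, aW_0, awx_0, abp_0, aU_0]
          · linarith only [hK, h1, h6, h12, h15, h16, h18, h19, h20, h41, h42, h43, h44, h47, h50, h56, h60, h61, aW_0, awx_0, abp_0, aU_0]
          · linarith only [hK, h20, h24, h39, h42, h43, h44, h47, h50, h53, h54, h60, h62, h64, aW_0, abp_0, aU_0]
          · linarith only [hK, h1, h6, h12, h15, h18, h19, h20, h24, h39, h42, h43, h44, h47, h50, h56, h60, aW_0, awx_0, abp_0, aU_0]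
        · linarith only [hK, h1, h15, h16, h18, h19, h20, h41, h42, h43, h44, h45, h47, h50, h53, h54, h60, aA1_0, aW_0, aA2_0, awx_0, abp_0]
    · linarith only [hK, h20, h24, h33, h41, h42, h43, h44, h47, h50, h55, h56, h60, aA1_0, aW_0, aA2_0]
    · linarith only [hK, h6, h12, h13, h14, h16, h17, h18, h20, h23, h24, h39, h41, h42, h43, h44, h47, h50, h53, h54, h56, h60, aW_0, aA2_0]
  · linarith only [hK, h1, h6, h12, h13, h14, h15, h16, h17, h20, h23, h41, h42, h44, h46, h47, h48, h49, h53, h54, h56, h59, h60, aA1_0, aW_0]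
  · rcases dA2 with aA2_0 | aA2_0 | aA2_0
    · rcases dbe with abe_0 | abe_0 | abe_0 | ⟨abe_0, abe_1, abe_2⟩ | ⟨abe_0, abe_1, abe_2⟩ | ⟨abe_0, abe_1, abe_2⟩ | ⟨abe_0, abe_1, abe_2⟩
      · linarith only [hK, h12, h13, h14, h16, h17, h20, h23, h24, h42, h43, h44, h45, h47, h48, h49, h60, aW_0, abe_0]
      · rcases dwx with awx_0 | awx_0
        · rcases dnn with ann_0 | ⟨ann_0, ann_1, ann_2, ann_3⟩
          · linarith only [hK, h7, h8, h14, h15, h16, h18, h19, h20, h42, h43, h44, h47, h48, h55, h60, aW_0, aA2_0, abe_0, awx_0, ann_0]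
          · linarith only [hK, h15, h16, h18, h19, h20, h41, h42, h43, h44, h47, h48, h52, h53, h54, h60, aW_0, aA2_0, abe_0, ann_0, ann_2, ann_3]
        · linarith only [hK, h1, h15, h16, h18, h19, h20, h41, h42, h43, h44, h47, h48, h53, h54, h60, aA1_0, aW_0, aA2_0, abe_0, awx_0]
      · rcases dU with aU_0 | aU_0 | aU_0 | aU_0
        · linarith only [hK, h12, h13, h14, h16, h17, h23, h24, h26, h35, h40, h41, h43, h47, h48, h55, h60, aW_0, abe_0, aU_0]
        · linarith only [hK, h6, h12, h13, h14, h16, h17, h18, h20, h23, h24, h40, h41, h43, h44, h47, h48, h56, h60, h61, aW_0, abe_0, aU_0]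
        · linarith only [hK, h12, h13, h14, h16, h17, h20, h23, h24, h40, h43, h44, h47, h48, h53, h54, h60, h62, h64, aW_0, abe_0, aU_0]
        · linarith only [hK, h6, h12, h13, h14, h16, h17, h18, h20, h23, h24, h40, h43, h44, h47, h48, h56, h60, aW_0, abe_0, aU_0]
      · linarith only [hK, h12, h13, h14, h16, h17, h23, h29, h33, h35, h41, h42, h43, h45, h47, h48, h53, h54, h55, h56, h60, aW_0, aA2_0, abe_1]
      · linarith only [hK, h12, h13, h14, h16, h17, h23, h29, h33, h35, h41, h42, h43, h45, h47, h48, h53, h54, h55, h56, h60, aW_0, aA2_0, abe_1]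
      · rcases dwx with awx_0 | awx_0
        · linarith only [hK, h7, h8, h12, h13, h14, h15, h16, h17, h20, h24, h41, h43, h44, h45, h47, h48, h55, h56, h60, aW_0, abe_1, abe_2, awx_0]
        · linarith only [hK, h1, h6, h12, h15, h16, h18, h19, h20, h41, h42, h43, h44, h45, h47, h48, h56, h60, aW_0, aA2_0, abe_1, abe_2, awx_0]
      · rcases dwx with awx_0 | awx_0
        · linarith only [hK, h7, h8, h12, h13, h14, h15, h16, h17, h20, h24, h41, h43, h44, h45, h47, h48, h55, h56, h60, aW_0, abe_1, abe_2, awx_0, aA1_0, aA2_0, abe_0]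
        · linarith only [hK, h1, h6, h12, h15, h16, h18, h19, h20, h41, h42, h43, h44, h45, h47, h48, h53, h54, h56, h60, aW_0, aA2_0, abe_2, awx_0]
    · linarith only [hK, h33, h41, h42, h43, h47, h48, h55, h56, h60, aA1_0, aW_0, aA2_0]
    · linarith only [hK, h1, h6, h12, h13, h14, h15, h16, h17, h20, h23, h35, h40, h41, h42, h43, h44, h47, h48, h53, h54, h55, h56, h60, aW_0, aA2_0]

end Crest.Agent.R017.R2E994
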