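import Crest.Agent.R017.RGE4_545
import Crest.Agent.R017.PXa_829
import Crest.Agent.R017.R2Ea_994
import Crest.Agent.R017.R2Eb_994

/-!
# Row 17, class E, line (r2): the case tree (helper994)

The child `{x, y, z | w}`, `x ≥ y ≥ z`, of total `n'`; `κ = i + 2 b`, `s = i + b`,
`G = 2 n' + κ / 3 - ρ` (missing gain of the principal column).

* `AltE` : the alternatives: the complete family (two-factor theorem, flip, dual side); the pair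
  rule with the principal column closed by `G ≤ 0`, by the merged lump `x + y - G` or by the merged
  lump `x + y + z - 2 G`; the pair rule with the roles exchanged
* `r2E_A`, `r2E_N` : `PXn` (helper829) on the regions `RegA`, `RegN` (helper545)
* `sort3` : every child can be sorted
-/

set_option autoImplicit false

noncomputable section

namespace Crest.Agent.R017.R2E994

open Crest.Agent.R017.ER911 Crest.Agent.R017.SC777 Crest.Agent.R017.NG911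
open Crest.Agent.R017.RGB545

/-- the alternatives of the line (r2) in class E, sorted child `{x, y, z | w}` of total `n'`,
cell `(i, b, g)`, target `ρ`, loss `D` -/
def AltE (D ρ i b g x y z w n' U : ℝ) : Prop :=
  (i + 2 * b) + n' + 3 / 4 * (z + w) + D ≤ ρ ∨
  ((i + 2 * b) + n' + 3 / 4 * z + D ≤ ρ ∧
    5 / 12 * (i + 2 * b) + 7 / 12 * (x + y) + n' + 3 / 4 * (z + w) + D ≤ ρ ∧
    1 / 2 * (i + 2 * b) + 1 / 4 * (x + y) + n' + 3 / 4 * (z + w) + D ≤ ρ) ∨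
  ((i + 2 * b) + n' + D ≤ ρ ∧ 2 / 3 * (i + 2 * b) + n' + U + D ≤ ρ ∧
    (i + 2 * b) / 3 + 3 / 2 * n' + U / 2 + D ≤ ρ) ∨
  (i + b + n' ≤ ρ ∧ 2 * n' + b + g + D ≤ ρ ∧ 2 / 3 * i + b / 3 + n' + U + D ≤ ρ ∧
    (2 * n' + (i + 2 * b) / 3 ≤ ρ ∨
    (2 * n' + (i + 2 * b) / 3 - ρ ≤ x ∧
      i + b < 2 * (x + y - (2 * n' + (i + 2 * b) / 3 - ρ))) ∨
    (2 * n' + (i + 2 * b) / 3 - ρ ≤ z ∧
      i + b < 2 * (x + y + z - 2 * (2 * n' + (i + 2 * b) / 3 - ρ))))) ∨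
  (i + b + n' ≤ ρ ∧ 2 * n' + i + D ≤ ρ ∧ 2 / 3 * b + i / 3 + n' + U + D ≤ ρ ∧
    2 * n' + (2 * i + b) / 3 ≤ ρ)

/-- the negations of the alternatives, as the cores take them -/
lemma altE_neg {D ρ i b g x y z w n' U : ℝ} (h : ¬ AltE D ρ i b g x y z w n' U) :
    (ρ < (i + 2 * b) + n' + 3 / 4 * (z + w) + D) ∧
    (ρ < (i + 2 * b) + n' + 3 / 4 * z + D ∨
      ρ < 5 / 12 * (i + 2 * b) + 7 / 12 * (x + y) + n' + 3 / 4 * (z + w) + D ∨
      ρ < 1 / 2 * (i + 2 * b) + 1 / 4 * (x + y) + n' + 3 / 4 * (z + w) + D) ∧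
    (ρ < (i + 2 * b) + n' + D ∨ ρ < 2 / 3 * (i + 2 * b) + n' + U + D ∨
      ρ < (i + 2 * b) / 3 + 3 / 2 * n' + U / 2 + D) ∧
    (ρ < i + b + n' ∨ ρ < 2 * n' + b + g + D ∨ ρ < 2 / 3 * i + b / 3 + n' + U + D ∨
      (0 < 2 * n' + (i + 2 * b) / 3 - ρ ∧ x < 2 * n' + (i + 2 * b) / 3 - ρ ∧
        z < 2 * n' + (i + 2 * b) / 3 - ρ) ∨
      (0 < 2 * n' + (i + 2 * b) / 3 - ρ ∧ x < 2 * n' + (i + 2 * b) / 3 - ρ ∧
        2 * (x + y + z - 2 * (2 * n' + (i + 2 * b) / 3 - ρ)) ≤ i + b) ∨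
      (0 < 2 * n' + (i + 2 * b) / 3 - ρ ∧
        2 * (x + y - (2 * n' + (i + 2 * b) / 3 - ρ)) ≤ i + b ∧
        z < 2 * n' + (i + 2 * b) / 3 - ρ) ∨
      (0 < 2 * n' + (i + 2 * b) / 3 - ρ ∧
        2 * (x + y - (2 * n' + (i + 2 * b) / 3 - ρ)) ≤ i + b ∧
        2 * (x + y + z - 2 * (2 * n' + (i + 2 * b) / 3 - ρ)) ≤ i + b)) ∧
    (ρ < i + b + n' ∨ ρ < 2 * n' + i + D ∨ ρ < 2 / 3 * b + i / 3 + n' + U + D ∨
      ρ < 2 * n' + (2 * i + b) / 3) := by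
  unfold AltE at h
  simp only [not_or] at h
  obtain ⟨h1, h2, h3, h4, h5⟩ := h
  refine ⟨not_le.1 h1, ?_, ?_, ?_, ?_⟩
  · by_contra hc
    simp only [not_or, not_lt] at hc
    exact h2 hc
  · by_contra hc
    simp only [not_or, not_lt] at hc
    exact h3 hc
  · by_contra hc
    simp only [not_or, not_lt] at hc
    obtain ⟨c1, c2, c3, c4, c5, c6, c7⟩ := hc
    refine h4 ⟨c1, c2, c3, ?_⟩
    by_contra h6
    simp only [not_or] at h6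
    obtain ⟨e1, e2, e3⟩ := h6
    have e1' : 0 < 2 * n' + (i + 2 * b) / 3 - ρ := by
      have := not_le.1 e1
      linarith
    rcases lt_or_ge x (2 * n' + (i + 2 * b) / 3 - ρ) with f | f
    · rcases lt_or_ge z (2 * n' + (i + 2 * b) / 3 - ρ) with f' | f'
      · exact c4 ⟨e1', f, f'⟩
      · refine c5 ⟨e1', f, ?_⟩
        by_contra f2
        exact e3 ⟨f', not_le.1 f2⟩
    · have f3 : 2 * (x + y - (2 * n' + (i + 2 * b) / 3 - ρ)) ≤ i + b := by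
        by_contra f2
        exact e2 ⟨f, not_le.1 f2⟩
      rcases lt_or_ge z (2 * n' + (i + 2 * b) / 3 - ρ) with f' | f'
      · exact c6 ⟨e1', f3, f'⟩
      · refine c7 ⟨e1', f3, ?_⟩
        by_contra f2
        exact e3 ⟨f', not_le.1 f2⟩
  · by_contra hc
    simp only [not_or, not_lt] at hc
    exact h5 hc

lemma W_cases {v i W : ℝ} (hW : W = max v (max i (2 / 3 * (v + i)))) :
    2 / 3 * (v + i) ≤ W ∧ (W ≤ v ∨ W ≤ i ∨ W ≤ 2 / 3 * (v + i)) := by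
  refine ⟨hW ▸ (le_max_right _ _).trans (le_max_right _ _), ?_⟩
  rcases max_choice v (max i (2 / 3 * (v + i))) with h | h
  · left; rw [hW, h]
  · rcases max_choice i (2 / 3 * (v + i)) with h' | h'
    · right; left; rw [hW, h, h']
    · right; right; rw [hW, h, h']

lemma U_cases {a b c d U : ℝ} (hU : U = max (max a b) (max c d)) :
    a ≤ U ∧ b ≤ U ∧ c ≤ U ∧ d ≤ U ∧ (U ≤ a ∨ U ≤ b ∨ U ≤ c ∨ U ≤ d) := by
  refine ⟨hU ▸ (le_max_left _ _).trans (le_max_left _ _),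
    hU ▸ (le_max_right _ _).trans (le_max_left _ _),
    hU ▸ (le_max_left _ _).trans (le_max_right _ _),
    hU ▸ (le_max_right _ _).trans (le_max_right _ _), ?_⟩
  rcases max_choice (max a b) (max c d) with h | h
  · rcases max_choice a b with h' | h'
    · left; rw [hU, h, h']
    · right; left; rw [hU, h, h']
  · rcases max_choice c d with h' | h'
    · right; right; left; rw [hU, h, h']
    · right; right; right; rw [hU, h, h']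

/-- every child can be sorted, the shortest piece is at most the third one -/
theorem sort3 {x₁ x₂ x₃ C : ℝ} (h1 : 0 ≤ x₁) (h2 : 0 ≤ x₂) (h3 : 0 ≤ x₃) (hC : x₃ ≤ C) :
    ∃ x y z : ℝ, ({x₁, x₂, x₃} : Multiset ℝ) = {x, y, z} ∧ y ≤ x ∧ z ≤ y ∧ 0 ≤ z ∧ z ≤ C ∧
      x + y + z = x₁ + x₂ + x₃ := by
  have p12 : ∀ a b c : ℝ, ({a, b, c} : Multiset ℝ) = {b, a, c} := fun a b c =>
    Multiset.cons_swap a b {c}
  have p23 : ∀ a b c : ℝ, ({a, b, c} : Multiset ℝ) = {a, c, b} := fun a b c => by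
    show a ::ₘ (b ::ₘ {c}) = a ::ₘ (c ::ₘ {b})
    rw [show (b ::ₘ ({c} : Multiset ℝ)) = c ::ₘ {b} from Multiset.pair_comm b c]
  rcases le_total x₂ x₁ with a | a
  · rcases le_total x₃ x₂ with b | b
    · exact ⟨x₁, x₂, x₃, rfl, a, b, h3, hC, rfl⟩
    · rcases le_total x₃ x₁ with c | c
      · exact ⟨x₁, x₃, x₂, p23 _ _ _, c, b, h2, b.trans hC, by ring⟩
      · exact ⟨x₃, x₁, x₂, by rw [p23, p12], c, a, h2, b.trans hC, by ring⟩
  · rcases le_total x₃ x₁ with b | b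
    · exact ⟨x₂, x₁, x₃, p12 _ _ _, a, b, h3, hC, by ring⟩
    · rcases le_total x₃ x₂ with c | c
      · exact ⟨x₂, x₃, x₁, by rw [p12, p23], c, b, h1, b.trans hC, by ring⟩
      · exact ⟨x₃, x₂, x₁, by rw [p23, p12, p23], c, a, h1, b.trans hC, by ring⟩

/-- **the tree on `RegA`** -/
theorem r2E_A {K₁ P₁ C₁ m₁ a₁ n₁ K v n E D μ e₀ : ℝ}
    (H : RegA K₁ P₁ C₁ m₁ a₁ n₁ K v n E D (2 * μ) e₀) (hμ : 0 ≤ μ) (hμK : 60 * μ ≤ K)
    (hD : 0 ≤ D) {x y z w n' i b g t W ρ U : ℝ} (hyx : y ≤ x) (hzy : z ≤ y) (hz : 0 ≤ z)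
    (hw : 0 ≤ w) (hzC : z ≤ C₁) (hw1 : w ≤ m₁ + a₁) (hn' : n' = x + y + z + w) (hi : 0 ≤ i)
    (hb : 0 ≤ b) (hg : 0 ≤ g) (ht : 0 ≤ t) (hlen : n' + b + g ≤ n)
    (hi1 : i ≤ v + n - K + 3 * t + b + μ) (hi2 : i + 2 * b + 3 * t ≤ K + μ)
    (hv : v ≤ 2 * (i + b)) (hW : W = max v (max i (2 / 3 * (v + i))))
    (hρ : ρ = E + t - (v + n - 2 * K) / 3 - μ - g - W + i)
    (hU : U = max (max (n' / 3 + z / 2) (n' / 3 + 4 / 15 * (z + w))) (max (2 / 3 * (z + w)) w)) :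
    PX829.PXn i b g x y z w n' D U ρ := by
  have hLn := H.toDom.ln
  show 2 * w + (i + 2 * b) / 3 ≤ ρ ∧ AltE D ρ i b g x y z w n' U
  refine ⟨(r2_tree hLn hμ hμK hD (z := x + y) (by linarith) hz hw hzC hw1 (by linarith) hi hb hg
    ht hlen hi1 hi2 hv hW hρ hU).1, ?_⟩
  by_contra hc
  obtain ⟨d1, d2, d3, d4, d5⟩ := altE_neg hc
  obtain ⟨w1, w2⟩ := W_cases hW
  obtain ⟨u1, u2, u3, u4, u5⟩ := U_cases hU
  subst hn'
  have tot : n₁ = P₁ + C₁ + (m₁ + a₁) := by linarith [H.tot]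
  have el := H.el
  have q1 := H.h4
  have q2 := H.h36
  have q3 := H.h9
  have q4 := H.h10
  have q5 := H.vn
  have q6 := H.nC
  have q7 := H.nP
  have q8 := H.h11
  have q9 := H.nn
  rw [tot] at q2 q3 q4 q5 q6 q7 q8 q9
  exact coreA (K₁ := K₁) (P₁ := P₁) (C₁ := C₁) (w₁ := m₁ + a₁) (K := K) (n := n) (v := v)
    (D := D) (μ := μ) (e₀ := e₀) (x := x) (y := y) (z := z) (w := w) (i := i) (b := b) (g := g)
    (t := t) (W := W) (ρ := ρ) (U := U)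
    q1 q2 q3 q4 H.kK q9 H.v23 q5 H.sx q6 q7 q8 hi hb hg ht hμ H.e0 hD hμK hlen hi1 hi2 hv hz hw
    hzy hyx hzC hw1 w1 (by linarith) u1 u2 u4 w2 u5 d1 d2 d3 d4 d5

/-- **the tree on `RegN`** -/
theorem r2E_N {k l A B C m a K₁ P₁ C₁ m₁ a₁ n₁ K v n E D μ e₀ : ℝ}
    (H : RegN k l A B C m a K₁ P₁ C₁ m₁ a₁ n₁ K v n E D (2 * μ) e₀) (hμ : 0 ≤ μ)
    (hμK : 60 * μ ≤ K)
    (hD : 0 ≤ D) {x y z w n' i b g t W ρ U : ℝ} (hyx : y ≤ x) (hzy : z ≤ y) (hz : 0 ≤ z)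
    (hw : 0 ≤ w) (hzC : z ≤ C₁) (hw1 : w ≤ m₁ + a₁) (hn' : n' = x + y + z + w) (hi : 0 ≤ i)
    (hb : 0 ≤ b) (hg : 0 ≤ g) (ht : 0 ≤ t) (hlen : n' + b + g ≤ n)
    (hi1 : i ≤ v + n - K + 3 * t + b + μ) (hi2 : i + 2 * b + 3 * t ≤ K + μ)
    (hv : v ≤ 2 * (i + b)) (hW : W = max v (max i (2 / 3 * (v + i))))
    (hρ : ρ = E + t - (v + n - 2 * K) / 3 - μ - g - W + i)
    (hU : U = max (max (n' / 3 + z / 2) (n' / 3 + 4 / 15 * (z + w))) (max (2 / 3 * (z + w)) w)) :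
    PX829.PXn i b g x y z w n' D U ρ := by
  have hLn := H.toLn
  show 2 * w + (i + 2 * b) / 3 ≤ ρ ∧ AltE D ρ i b g x y z w n' U
  refine ⟨(r2_tree hLn hμ hμK hD (z := x + y) (by linarith) hz hw hzC hw1 (by linarith) hi hb hg
    ht hlen hi1 hi2 hv hW hρ hU).1, ?_⟩
  by_contra hc
  obtain ⟨d1, d2, d3, d4, d5⟩ := altE_neg hc
  obtain ⟨w1, w2⟩ := W_cases hW
  obtain ⟨u1, u2, u3, u4, u5⟩ := U_cases hU
  subst hn'
  have tot : n₁ = P₁ + C₁ + (m₁ + a₁) := by linarith [H.tot]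
  have ng := H.ng
  have g1 := ng.sig
  have g2 := ng.l1
  have q1 := H.m1
  have q2 := H.a1
  have q3 := H.nn
  rw [tot] at q3
  have dwx : m + a ≤ 0 ∨ 5 * (A + B + C + (m + a)) ≤ 4 * k := by
    rcases ng.wx with h | h
    · exact Or.inl h.le
    · exact Or.inr h
  have dnn : 6 * (A + B + C) ≤ 5 * k ∨ (m + a ≤ 0 ∧ 10 * (A + B + C) ≤ 9 * k ∧
      4 * (A + B + C) ≤ 3 * (k + 3 * l) ∧ 18 * (A + B + C) ≤ 15 * k + 15 * l) := by
    rcases ng.nn with h | ⟨e1, e2, e3, e4⟩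
    · exact Or.inl h
    · exact Or.inr ⟨e1.le, e2, e3, e4⟩
  have vs := H.vs
  have el := H.el
  have h11 := H.h11
  exact coreN (k := k) (l := l) (A := A) (B := B) (C := C) (w₀ := m + a) (K₁ := K₁) (P₁ := P₁)
    (C₁ := C₁) (w₁ := m₁ + a₁) (K := K) (n := n) (v := v) (E := E)
    (D := D) (μ := μ) (e₀ := e₀) (x := x) (y := y) (z := z) (w := w) (i := i) (b := b) (g := g)
    (t := t) (W := W) (ρ := ρ) (U := U)
    ng.l0 ng.w9 g1 g2 (by linarith) H.P1 H.C1 H.kK₁ H.kK q3 (by linarith) (by linarith [H.sx])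
    (by linarith)
    (by linarith) hLn.v23 hLn.c4 hLn.l1 hLn.l7 hLn.l10 hi hb hg ht hμ H.e0 hD hμK hlen hi1 hi2 hv
    hz hw hzy hyx hzC hw1 w1 (by linarith) u1 u2 u4 w2 u5 d1 d2 d3 d4 d5 dwx dnn

end Crest.Agent.R017.R2E994
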