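import Mathlib

/-!
# Row 17, R8 (exceptional class), near lists: the real tree of the cross term (helper994)

* `coreX` : pure reals, one `linarith` per leaf of the exact branch-and-bound tree
-/

set_option autoImplicit false

noncomputable section

namespace Crest.Agent.R017.R2NX994

set_option maxHeartbeats 4000000 in
theorem coreX {K n V t h d₀ ν A e v b g g₂ i ms z₁ z₂ z₃ M m₁ m₂ m₃ L W T R s₀ U : ℝ}
    (h0 : 0 ≤ t)
    (h1 : 20000 * t ≤ K)
    (h2 : 5 * n ≤ 4 * K + t)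
    (h3 : 1499 * K ≤ 2000 * n)
    (h4 : 5 * (V + n) ≤ 7 * K + t)
    (h6 : 3 * h ≤ M + K / 200)
    (h7 : 0 ≤ ν)
    (h8 : 0 ≤ A)
    (h9 : A ≤ d₀)
    (h10 : 2000 * (d₀ + ν) ≤ 2000 * n - 1499 * K + t)
    (h11 : 0 ≤ e)
    (h12 : 9 * e ≤ M + K / 100)
    (h14 : v + 2 * (d₀ + ν) ≤ V + t)
    (h15 : 0 ≤ b)
    (h16 : 0 ≤ g)
    (h17 : 0 ≤ i)
    (h18 : 0 ≤ ms)
    (h19 : i ≤ v + n - K + h + 2 * (e + A) + 2 * ν - d₀ + b + t)
    (h20 : i ≤ K - (e + A) - 2 * b + t)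
    (h21 : 0 ≤ z₃)
    (h22 : z₃ ≤ z₂)
    (h23 : z₂ ≤ z₁)
    (h24 : z₁ + z₂ + z₃ + (d₀ + b + g + ms) ≤ n + t)
    (h25 : 0 ≤ g₂)
    (h26 : g₂ ≤ g)
    (h28 : m₁ ≤ (e + A + i + 2 * b))
    (h29 : m₂ ≤ (e + A + i + 2 * b))
    (h31 : m₁ ≤ z₁)
    (h32 : m₂ ≤ z₂)
    (h33 : m₃ ≤ z₃)
    (h34 : L ≤ m₁)
    (h35 : L ≤ (e + A + i + 2 * b) - m₁)
    (h36 : L ≤ m₂)
    (h37 : L ≤ (e + A + i + 2 * b) - m₂)
    (h38 : L ≤ m₃)
    (h40 : (z₁ + z₂ + z₃) / 3 + z₃ / 2 ≤ U)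
    (h43 : 2 * (K + n) - T - (d₀ + ν - A) - (W - i) - ms - K / 500 ≤ R)
    (h44 : (V + n - K) / 3 + (n - 3 / 4 * K) ≤ s₀ + t)
    (dM : (M ≤ 0 ∧ 4 * n - 3 * K ≤ 0) ∨
      (M ≤ 4 * n - 3 * K ∧ 0 ≤ 4 * n - 3 * K))
    (dT : T ≤ (d₀ + ν) + 2 / 3 * K - v / 3 - (n - (d₀ + ν)) / 3 + 2 * (n - (d₀ + ν) - e) ∨
      T ≤ (d₀ + ν) + 2 / 3 * K - v / 3 - (n - (d₀ + ν)) / 3 + (4 / 3 * (n - (d₀ + ν) - e) + (K + (v + e)) / 3) ∨
      (T ≤ (d₀ + ν) + 2 / 3 * K - v / 3 - (n - (d₀ + ν)) / 3 + (5 / 3 * (n - (d₀ + ν) - e) + 2 / 3 * (v + e)) ∧ T ≤ (d₀ + ν) + 2 / 3 * K - v / 3 - (n - (d₀ + ν)) / 3 + (5 / 3 * (n - (d₀ + ν) - e) + 2 / 3 * (v + e) - (s₀ - ((d₀ + ν) + e)))))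
    (dW : W ≤ v + e + A + g ∨
      W ≤ i + g ∨
      W ≤ 2 / 3 * (v + e + A + i) + g)
    (dU : U ≤ (z₁ + z₂ + z₃) / 3 + z₃ / 2 ∨
      U ≤ (z₁ + z₂ + z₃) / 3 + 4 / 15 * z₃ ∨
      U ≤ 2 / 3 * z₃)
    (dH1 : R < (e + A + i + 2 * b) + (m₁ + m₂ + m₃) + 3 / 4 * L ∨
      R < (e + A + i + 2 * b) / 3)
    (dH2 : R < (e + A + i - 2 * g₂) + (b + g₂) + (z₁ + z₂ + z₃) ∨
      R < 2 * (z₁ + z₂ + z₃) + (b + g₂) ∨
      R < 2 / 3 * (e + A + i - 2 * g₂) + (b + g₂) / 3 + (z₁ + z₂ + z₃) + U ∨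
      R < 2 * (z₁ + z₂ + z₃) + ((e + A + i - 2 * g₂) + 2 * (b + g₂)) / 3)
    (dH3 : R < (e + A + i - 2 * g₂) + (b + g₂) + (z₁ + z₂ + z₃) ∨
      R < 2 * (z₁ + z₂ + z₃) + (b + g₂) ∨
      R < 2 / 3 * (e + A + i - 2 * g₂) + (b + g₂) / 3 + (z₁ + z₂ + z₃) + U ∨
      z₁ < (2 * (z₁ + z₂ + z₃) + ((e + A + i - 2 * g₂) + 2 * (b + g₂)) / 3 - R) ∨
      2 * (z₁ + z₂ - (2 * (z₁ + z₂ + z₃) + ((e + A + i - 2 * g₂) + 2 * (b + g₂)) / 3 - R)) ≤ (e + A + i - 2 * g₂) + (b + g₂))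
    (dH5 : R < (e + A + i - 2 * g₂) + (b + g₂) + (z₁ + z₂ + z₃) ∨
      R < 2 * (z₁ + z₂ + z₃) + (e + A + i - 2 * g₂) ∨
      R < 2 / 3 * (b + g₂) + (e + A + i - 2 * g₂) / 3 + (z₁ + z₂ + z₃) + U ∨
      R < 2 * (z₁ + z₂ + z₃) + (2 * (e + A + i - 2 * g₂) + (b + g₂)) / 3)
    (dH6 : R < (e + A + i - 2 * g₂) + (b + g₂) + (z₁ + z₂ + z₃) ∨
      R < 2 * (z₁ + z₂ + z₃) + (e + A + i - 2 * g₂) ∨
      R < 2 / 3 * (b + g₂) + (e + A + i - 2 * g₂) / 3 + (z₁ + z₂ + z₃) + U ∨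
      z₁ < (2 * (z₁ + z₂ + z₃) + (2 * (e + A + i - 2 * g₂) + (b + g₂)) / 3 - R) ∨
      2 * (z₁ + z₂ - (2 * (z₁ + z₂ + z₃) + (2 * (e + A + i - 2 * g₂) + (b + g₂)) / 3 - R)) ≤ (e + A + i - 2 * g₂) + (b + g₂)) : False := by
  have hK : 0 ≤ K := by linarith only [h0, h1]
  rcases dM with ⟨aM_0, aM_1⟩ | ⟨aM_0, aM_1⟩
  · rcases dH1 with aH1_0 | aH1_0
    · rcases dT with aT_0 | aT_0 | ⟨aT_0, aT_1⟩
      · rcases dW with aW_0 | aW_0 | aW_0
        · rcases dH5 with aH5_0 | aH5_0 | aH5_0 | aH5_0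
          · linarith only [hK, h1, h4, h7, h8, h9, h14, h24, h25, h43, aT_0, aW_0, aH5_0]
          · linarith only [hK, h1, h4, h7, h8, h9, h14, h16, h18, h22, h23, h24, h25, h31, h32, h33, h38, h43, aM_1, aH1_0, aT_0, aW_0, aH5_0]
          · rcases dU with aU_0 | aU_0 | aU_0
            · linarith only [hK, h1, h4, h7, h8, h9, h11, h14, h16, h17, h18, h22, h23, h24, h31, h32, h33, h37, h43, aM_1, aH1_0, aT_0, aW_0, aH5_0, aU_0]
            · linarith only [hK, h1, h4, h7, h8, h9, h11, h14, h16, h17, h18, h24, h28, h29, h33, h37, h40, h43, aM_1, aH1_0, aT_0, aW_0, aH5_0, aU_0]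
            · linarith only [hK, h1, h4, h7, h8, h9, h11, h14, h17, h22, h23, h24, h28, h29, h33, h35, h40, h43, aH1_0, aT_0, aW_0, aH5_0, aU_0]
          · linarith only [hK, h1, h4, h7, h8, h9, h11, h14, h16, h17, h18, h22, h24, h25, h31, h32, h33, h34, h38, h43, aM_1, aH1_0, aT_0, aW_0, aH5_0]
        · linarith only [hK, h1, h4, h6, h8, h9, h10, h11, h14, h16, h18, h19, h20, h23, h24, h31, h32, h33, h36, h38, h43, aM_0, aM_1, aH1_0, aT_0, aW_0]
        · rcases dU with aU_0 | aU_0 | aU_0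
          · rcases dH2 with aH2_0 | aH2_0 | aH2_0 | aH2_0
            · linarith only [hK, h1, h4, h6, h7, h8, h9, h12, h14, h19, h20, h24, h25, h43, aM_0, aM_1, aT_0, aW_0, aH2_0]
            · linarith only [hK, h1, h4, h6, h7, h8, h9, h11, h14, h16, h18, h19, h22, h24, h26, h31, h32, h33, h34, h38, h43, aM_0, aM_1, aH1_0, aT_0, aW_0, aH2_0]
            · linarith only [hK, h1, h4, h6, h7, h8, h9, h12, h14, h16, h18, h19, h22, h23, h24, h25, h31, h32, h33, h37, h43, aM_0, aM_1, aH1_0, aT_0, aW_0, aU_0, aH2_0]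
            · linarith only [hK, h1, h4, h6, h7, h8, h9, h11, h14, h16, h18, h19, h22, h24, h31, h32, h33, h34, h38, h43, aM_0, aM_1, aH1_0, aT_0, aW_0, aH2_0]
          · linarith only [hK, h1, h4, h6, h7, h8, h9, h11, h14, h19, h20, h24, h31, h32, h33, h38, h40, h43, aM_0, aM_1, aH1_0, aT_0, aW_0, aU_0]
          · linarith only [hK, h1, h4, h6, h7, h8, h9, h11, h14, h19, h20, h23, h24, h31, h32, h33, h36, h38, h40, h43, aM_0, aM_1, aH1_0, aT_0, aW_0, aU_0]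
      · rcases dW with aW_0 | aW_0 | aW_0
        · rcases dH6 with aH6_0 | aH6_0 | aH6_0 | aH6_0 | aH6_0
          · linarith only [hK, h1, h3, h4, h7, h8, h9, h12, h14, h24, h25, h43, aM_0, aT_0, aW_0, aH6_0]
          · linarith only [hK, h1, h3, h4, h7, h8, h9, h12, h14, h16, h18, h22, h24, h25, h31, h32, h33, h34, h38, h43, aM_0, aH1_0, aT_0, aW_0, aH6_0]
          · rcases dU with aU_0 | aU_0 | aU_0
            · linarith only [hK, h1, h3, h4, h7, h8, h9, h12, h14, h16, h17, h18, h22, h23, h24, h31, h32, h33, h37, h43, aM_0, aH1_0, aT_0, aW_0, aH6_0, aU_0]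
            · linarith only [hK, h1, h3, h4, h7, h8, h9, h12, h14, h16, h17, h18, h24, h31, h32, h33, h35, h37, h40, h43, aM_0, aH1_0, aT_0, aW_0, aH6_0, aU_0]
            · linarith only [hK, h1, h3, h4, h7, h8, h9, h12, h14, h15, h17, h22, h23, h24, h40, h43, aM_0, aT_0, aW_0, aH6_0, aU_0]
          · linarith only [hK, h1, h3, h4, h7, h8, h9, h12, h14, h16, h18, h22, h23, h24, h25, h31, h32, h33, h34, h37, h43, aM_0, aH1_0, aT_0, aW_0, aH6_0]
          · linarith only [hK, h1, h3, h4, h6, h7, h8, h9, h12, h14, h16, h18, h19, h22, h23, h24, h25, h31, h32, h33, h34, h43, aM_0, aH1_0, aT_0, aW_0, aH6_0]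
        · linarith only [hK, h1, h4, h6, h8, h9, h10, h12, h14, h16, h18, h19, h20, h24, h31, h32, h33, h34, h36, h38, h43, aM_0, aM_1, aH1_0, aT_0, aW_0]
        · rcases dH3 with aH3_0 | aH3_0 | aH3_0 | aH3_0 | aH3_0
          · linarith only [hK, h1, h3, h4, h6, h7, h8, h9, h12, h14, h19, h20, h24, h25, h43, aM_0, aT_0, aW_0, aH3_0]
          · linarith only [hK, h1, h3, h4, h6, h7, h8, h9, h12, h14, h16, h18, h19, h22, h24, h26, h31, h32, h33, h34, h38, h43, aM_0, aH1_0, aT_0, aW_0, aH3_0]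
          · rcases dU with aU_0 | aU_0 | aU_0
            · linarith only [hK, h1, h3, h4, h6, h7, h8, h9, h12, h14, h16, h18, h19, h22, h23, h24, h25, h31, h32, h33, h37, h43, aM_0, aH1_0, aT_0, aW_0, aH3_0, aU_0]
            · linarith only [hK, h1, h3, h4, h6, h7, h8, h9, h12, h14, h16, h18, h19, h24, h25, h31, h32, h33, h38, h40, h43, aM_0, aH1_0, aT_0, aW_0, aH3_0, aU_0]
            · linarith only [hK, h1, h3, h4, h6, h7, h8, h9, h12, h14, h15, h19, h22, h23, h24, h25, h40, h43, aM_0, aT_0, aW_0, aH3_0, aU_0]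
          · linarith only [hK, h1, h3, h4, h6, h7, h8, h9, h12, h14, h16, h18, h19, h22, h23, h24, h31, h32, h33, h35, h43, aM_0, aH1_0, aT_0, aW_0, aH3_0]
          · linarith
      · rcases dW with aW_0 | aW_0 | aW_0
        · rcases dH6 with aH6_0 | aH6_0 | aH6_0 | aH6_0 | aH6_0
          · linarith only [hK, h1, h3, h4, h7, h8, h9, h12, h14, h24, h25, h43, h44, aM_0, aT_1, aW_0, aH6_0]
          · linarith only [hK, h1, h3, h4, h7, h8, h9, h12, h14, h16, h18, h23, h24, h25, h31, h32, h33, h36, h38, h43, h44, aM_0, aH1_0, aT_1, aW_0, aH6_0]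
          · rcases dU with aU_0 | aU_0 | aU_0
            · linarith only [hK, h1, h3, h4, h7, h8, h9, h12, h14, h16, h17, h18, h22, h23, h24, h31, h32, h33, h37, h43, h44, aM_0, aH1_0, aT_1, aW_0, aH6_0, aU_0]
            · linarith only [hK, h1, h3, h4, h7, h8, h9, h12, h14, h16, h17, h18, h24, h31, h32, h33, h35, h37, h40, h43, h44, aM_0, aH1_0, aT_1, aW_0, aH6_0, aU_0]
            · linarith only [hK, h1, h3, h4, h7, h8, h9, h12, h14, h15, h17, h22, h23, h24, h40, h43, h44, aM_0, aT_1, aW_0, aH6_0, aU_0]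
          · linarith only [hK, h1, h3, h4, h7, h8, h9, h12, h14, h16, h18, h22, h23, h24, h25, h31, h32, h33, h34, h37, h43, h44, aM_0, aH1_0, aT_1, aW_0, aH6_0]
          · linarith only [hK, h1, h3, h4, h6, h7, h8, h9, h12, h14, h16, h18, h19, h22, h23, h24, h25, h31, h32, h33, h34, h43, h44, aM_0, aH1_0, aT_1, aW_0, aH6_0]
        · linarith only [hK, h1, h4, h6, h8, h9, h10, h12, h14, h16, h18, h19, h20, h23, h24, h31, h32, h33, h36, h38, h43, h44, aM_0, aM_1, aH1_0, aT_1, aW_0]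
        · rcases dH3 with aH3_0 | aH3_0 | aH3_0 | aH3_0 | aH3_0
          · linarith only [hK, h1, h3, h4, h6, h7, h8, h9, h12, h14, h19, h20, h24, h25, h43, h44, aM_0, aT_1, aW_0, aH3_0]
          · linarith only [hK, h1, h3, h4, h6, h7, h8, h9, h12, h14, h16, h18, h19, h22, h24, h26, h31, h32, h33, h34, h38, h43, h44, aM_0, aH1_0, aT_1, aW_0, aH3_0]
          · rcases dU with aU_0 | aU_0 | aU_0
            · linarith only [hK, h1, h3, h4, h6, h7, h8, h9, h12, h14, h16, h18, h19, h22, h23, h24, h25, h31, h32, h33, h37, h43, h44, aM_0, aH1_0, aT_1, aW_0, aH3_0, aU_0]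
            · linarith only [hK, h1, h3, h4, h6, h7, h8, h9, h12, h14, h16, h18, h19, h24, h25, h31, h32, h33, h38, h40, h43, h44, aM_0, aH1_0, aT_1, aW_0, aH3_0, aU_0]
            · linarith only [hK, h1, h3, h4, h6, h7, h8, h9, h12, h14, h15, h19, h22, h23, h24, h25, h40, h43, h44, aM_0, aT_1, aW_0, aH3_0, aU_0]
          · linarith only [hK, h1, h3, h4, h6, h7, h8, h9, h12, h14, h16, h18, h19, h22, h23, h24, h31, h32, h33, h37, h43, h44, aM_0, aH1_0, aT_1, aW_0, aH3_0]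
          · linarith
    · rcases dT with aT_0 | aT_0 | ⟨aT_0, aT_1⟩
      · rcases dW with aW_0 | aW_0 | aW_0
        · linarith only [hK, h1, h4, h7, h8, h9, h11, h14, h15, h17, h21, h22, h23, h24, h43, aH1_0, aT_0, aW_0]
        · linarith only [hK, h1, h6, h8, h9, h10, h11, h19, h21, h22, h23, h24, h43, aM_0, aM_1, aH1_0, aT_0, aW_0]
        · linarith only [hK, h1, h4, h7, h8, h9, h11, h14, h15, h21, h22, h23, h24, h43, aM_1, aH1_0, aT_0, aW_0]
      · rcases dW with aW_0 | aW_0 | aW_0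
        · linarith only [hK, h1, h3, h4, h7, h8, h9, h12, h14, h15, h17, h21, h22, h23, h24, h43, aM_0, aH1_0, aT_0, aW_0]
        · linarith only [hK, h1, h4, h6, h8, h9, h10, h14, h19, h21, h22, h23, h24, h43, aM_0, aM_1, aH1_0, aT_0, aW_0]
        · linarith only [hK, h1, h3, h4, h7, h8, h9, h14, h15, h21, h22, h23, h24, h43, aH1_0, aT_0, aW_0]
      · rcases dW with aW_0 | aW_0 | aW_0
        · linarith only [hK, h1, h3, h4, h7, h8, h9, h12, h14, h15, h17, h21, h22, h23, h24, h43, h44, aM_0, aH1_0, aT_1, aW_0]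
        · linarith only [hK, h1, h4, h6, h8, h9, h10, h12, h14, h19, h21, h22, h23, h24, h43, h44, aM_0, aH1_0, aT_1, aW_0]
        · linarith only [hK, h1, h3, h4, h7, h8, h9, h12, h14, h15, h21, h22, h23, h24, h43, h44, aM_0, aH1_0, aT_1, aW_0]
  · rcases dH1 with aH1_0 | aH1_0
    · rcases dT with aT_0 | aT_0 | ⟨aT_0, aT_1⟩
      · rcases dW with aW_0 | aW_0 | aW_0
        · rcases dH5 with aH5_0 | aH5_0 | aH5_0 | aH5_0
          · linarith only [hK, h1, h4, h7, h8, h9, h14, h24, h25, h43, aT_0, aW_0, aH5_0]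
          · linarith only [hK, h1, h2, h4, h7, h8, h9, h14, h16, h18, h22, h23, h24, h25, h31, h32, h33, h38, h43, aH1_0, aT_0, aW_0, aH5_0]
          · rcases dU with aU_0 | aU_0 | aU_0
            · linarith only [hK, h1, h2, h4, h7, h8, h9, h11, h14, h16, h17, h18, h22, h23, h24, h31, h32, h33, h37, h43, aH1_0, aT_0, aW_0, aH5_0, aU_0]
            · linarith only [hK, h1, h2, h4, h7, h8, h9, h11, h14, h16, h17, h18, h24, h28, h29, h33, h37, h40, h43, aH1_0, aT_0, aW_0, aH5_0, aU_0]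
            · linarith only [hK, h1, h4, h7, h8, h9, h11, h14, h17, h22, h23, h24, h28, h29, h33, h35, h40, h43, aH1_0, aT_0, aW_0, aH5_0, aU_0]
          · linarith only [hK, h1, h2, h4, h7, h8, h9, h11, h14, h16, h17, h18, h22, h24, h25, h31, h32, h33, h34, h38, h43, aH1_0, aT_0, aW_0, aH5_0]
        · rcases dU with aU_0 | aU_0 | aU_0
          · rcases dH2 with aH2_0 | aH2_0 | aH2_0 | aH2_0
            · linarith only [hK, h1, h2, h4, h6, h8, h9, h10, h14, h19, h20, h24, h25, h43, aM_0, aT_0, aW_0, aH2_0]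
            · linarith only [hK, h1, h2, h4, h6, h8, h9, h10, h11, h14, h16, h18, h19, h22, h24, h26, h31, h32, h33, h34, h38, h43, aM_0, aH1_0, aT_0, aW_0, aH2_0]
            · linarith only [hK, h1, h2, h4, h6, h8, h9, h10, h12, h14, h16, h18, h19, h22, h23, h24, h25, h31, h32, h33, h34, h43, aM_0, aH1_0, aT_0, aW_0, aU_0, aH2_0]
            · linarith only [hK, h1, h2, h4, h6, h8, h9, h10, h11, h14, h16, h18, h19, h23, h24, h31, h32, h33, h36, h38, h43, aM_0, aH1_0, aT_0, aW_0, aH2_0]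
          · linarith only [hK, h1, h2, h6, h8, h9, h10, h11, h19, h20, h24, h31, h32, h33, h38, h40, h43, aM_0, aH1_0, aT_0, aW_0, aU_0]
          · linarith only [hK, h1, h2, h6, h8, h9, h10, h11, h19, h20, h23, h24, h31, h32, h33, h36, h38, h40, h43, aM_0, aH1_0, aT_0, aW_0, aU_0]
        · rcases dH3 with aH3_0 | aH3_0 | aH3_0 | aH3_0 | aH3_0
          · linarith only [hK, h1, h2, h4, h6, h7, h8, h9, h12, h14, h19, h20, h24, h25, h43, aM_0, aT_0, aW_0, aH3_0]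
          · linarith only [hK, h1, h2, h4, h6, h7, h8, h9, h11, h14, h16, h18, h19, h22, h24, h26, h31, h32, h33, h34, h38, h43, aM_0, aH1_0, aT_0, aW_0, aH3_0]
          · rcases dU with aU_0 | aU_0 | aU_0
            · linarith only [hK, h1, h2, h4, h6, h7, h8, h9, h12, h14, h16, h18, h19, h22, h24, h25, h31, h32, h33, h34, h36, h43, aM_0, aH1_0, aT_0, aW_0, aH3_0, aU_0]
            · linarith only [hK, h1, h2, h4, h6, h7, h8, h9, h12, h14, h16, h18, h19, h24, h25, h31, h32, h33, h38, h40, h43, aM_0, aH1_0, aT_0, aW_0, aH3_0, aU_0]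
            · linarith only [hK, h1, h2, h4, h6, h7, h8, h9, h14, h15, h19, h22, h23, h24, h25, h40, h43, aM_0, aT_0, aW_0, aH3_0, aU_0]
          · linarith only [hK, h1, h2, h4, h6, h7, h8, h9, h11, h14, h16, h18, h19, h22, h23, h24, h31, h32, h33, h37, h43, aM_0, aH1_0, aT_0, aW_0, aH3_0]
          · linarith
      · rcases dW with aW_0 | aW_0 | aW_0
        · rcases dH6 with aH6_0 | aH6_0 | aH6_0 | aH6_0 | aH6_0
          · linarith only [hK, h1, h4, h7, h8, h9, h12, h14, h24, h25, h43, aM_0, aM_1, aT_0, aW_0, aH6_0]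
          · linarith only [hK, h1, h4, h7, h8, h9, h12, h14, h16, h18, h22, h24, h25, h31, h32, h33, h34, h38, h43, aM_0, aM_1, aH1_0, aT_0, aW_0, aH6_0]
          · rcases dU with aU_0 | aU_0 | aU_0
            · linarith only [hK, h1, h4, h7, h8, h9, h12, h14, h16, h17, h18, h22, h23, h24, h31, h32, h33, h37, h43, aM_0, aM_1, aH1_0, aT_0, aW_0, aH6_0, aU_0]
            · linarith only [hK, h1, h4, h7, h8, h9, h12, h14, h16, h17, h18, h24, h31, h32, h33, h35, h37, h40, h43, aM_0, aM_1, aH1_0, aT_0, aW_0, aH6_0, aU_0]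
            · linarith only [hK, h1, h4, h7, h8, h9, h12, h14, h15, h17, h22, h23, h24, h40, h43, aM_0, aM_1, aT_0, aW_0, aH6_0, aU_0]
          · linarith only [hK, h1, h4, h7, h8, h9, h12, h14, h16, h18, h22, h23, h24, h25, h31, h32, h33, h34, h37, h43, aM_0, aM_1, aH1_0, aT_0, aW_0, aH6_0]
          · linarith only [hK, h1, h2, h4, h6, h7, h8, h9, h12, h14, h16, h18, h19, h22, h23, h24, h25, h31, h32, h33, h34, h43, aM_0, aH1_0, aT_0, aW_0, aH6_0]
        · rcases dU with aU_0 | aU_0 | aU_0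
          · rcases dH2 with aH2_0 | aH2_0 | aH2_0 | aH2_0
            · linarith only [hK, h1, h2, h4, h6, h8, h9, h10, h12, h14, h19, h20, h24, h25, h43, aM_0, aT_0, aW_0, aH2_0]
            · linarith only [hK, h1, h2, h4, h6, h8, h9, h10, h12, h14, h16, h18, h19, h23, h24, h26, h31, h32, h33, h36, h38, h43, aM_0, aH1_0, aT_0, aW_0, aH2_0]
            · linarith only [hK, h1, h2, h4, h6, h8, h9, h10, h12, h14, h16, h18, h19, h22, h23, h24, h25, h31, h32, h33, h34, h43, aM_0, aH1_0, aT_0, aW_0, aU_0, aH2_0]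
            · linarith only [hK, h1, h2, h4, h6, h8, h9, h10, h12, h14, h16, h18, h19, h22, h24, h31, h32, h33, h34, h38, h43, aM_0, aH1_0, aT_0, aW_0, aH2_0]
          · linarith only [hK, h1, h2, h4, h6, h8, h9, h10, h14, h19, h20, h24, h31, h32, h33, h38, h40, h43, aM_0, aH1_0, aT_0, aW_0, aU_0]
          · linarith only [hK, h1, h2, h4, h6, h8, h9, h10, h14, h19, h20, h24, h31, h32, h33, h34, h36, h38, h40, h43, aM_0, aH1_0, aT_0, aW_0, aU_0]
        · rcases dH3 with aH3_0 | aH3_0 | aH3_0 | aH3_0 | aH3_0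
          · linarith only [hK, h1, h2, h4, h6, h7, h8, h9, h12, h14, h19, h20, h24, h25, h43, aM_0, aT_0, aW_0, aH3_0]
          · linarith only [hK, h1, h2, h4, h6, h7, h8, h9, h12, h14, h16, h18, h19, h22, h24, h26, h31, h32, h33, h34, h38, h43, aM_0, aH1_0, aT_0, aW_0, aH3_0]
          · rcases dU with aU_0 | aU_0 | aU_0
            · linarith only [hK, h1, h2, h4, h6, h7, h8, h9, h12, h14, h16, h18, h19, h22, h24, h25, h31, h32, h33, h34, h36, h43, aM_0, aH1_0, aT_0, aW_0, aH3_0, aU_0]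
            · linarith only [hK, h1, h2, h4, h6, h7, h8, h9, h12, h14, h16, h18, h19, h24, h25, h31, h32, h33, h38, h40, h43, aM_0, aH1_0, aT_0, aW_0, aH3_0, aU_0]
            · linarith only [hK, h1, h2, h4, h6, h7, h8, h9, h12, h14, h15, h19, h22, h23, h24, h25, h40, h43, aM_0, aT_0, aW_0, aH3_0, aU_0]
          · linarith only [hK, h1, h4, h7, h8, h9, h14, h15, h16, h18, h22, h23, h24, h43, aT_0, aW_0, aH3_0]
          · linarith
      · rcases dW with aW_0 | aW_0 | aW_0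
        · rcases dH6 with aH6_0 | aH6_0 | aH6_0 | aH6_0 | aH6_0
          · linarith only [hK, h1, h4, h7, h8, h9, h12, h14, h24, h25, h43, h44, aM_0, aM_1, aT_1, aW_0, aH6_0]
          · linarith only [hK, h1, h4, h7, h8, h9, h12, h14, h16, h18, h23, h24, h25, h31, h32, h33, h36, h38, h43, h44, aM_0, aM_1, aH1_0, aT_1, aW_0, aH6_0]
          · rcases dU with aU_0 | aU_0 | aU_0
            · linarith only [hK, h1, h4, h7, h8, h9, h12, h14, h16, h17, h18, h22, h23, h24, h31, h32, h33, h37, h43, h44, aM_0, aM_1, aH1_0, aT_1, aW_0, aH6_0, aU_0]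
            · linarith only [hK, h1, h4, h7, h8, h9, h12, h14, h16, h17, h18, h24, h31, h32, h33, h35, h37, h40, h43, h44, aM_0, aM_1, aH1_0, aT_1, aW_0, aH6_0, aU_0]
            · linarith only [hK, h1, h4, h7, h8, h9, h12, h14, h15, h17, h22, h23, h24, h40, h43, h44, aM_0, aM_1, aT_1, aW_0, aH6_0, aU_0]
          · linarith only [hK, h1, h4, h7, h8, h9, h12, h14, h16, h18, h22, h23, h24, h25, h31, h32, h33, h34, h37, h43, h44, aM_0, aM_1, aH1_0, aT_1, aW_0, aH6_0]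
          · linarith only [hK, h1, h4, h6, h7, h8, h9, h12, h14, h16, h18, h19, h22, h23, h24, h25, h31, h32, h33, h34, h43, h44, aM_0, aM_1, aH1_0, aT_1, aW_0, aH6_0]
        · rcases dU with aU_0 | aU_0 | aU_0
          · rcases dH2 with aH2_0 | aH2_0 | aH2_0 | aH2_0
            · linarith only [hK, h1, h2, h4, h6, h8, h9, h10, h12, h14, h19, h20, h24, h25, h43, h44, aM_0, aT_1, aW_0, aH2_0]
            · linarith only [hK, h1, h2, h4, h6, h8, h9, h10, h12, h14, h16, h18, h19, h22, h23, h24, h26, h31, h32, h33, h38, h43, h44, aM_0, aH1_0, aT_1, aW_0, aH2_0]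
            · linarith only [hK, h1, h2, h4, h6, h8, h9, h10, h12, h14, h16, h18, h19, h22, h23, h24, h25, h31, h32, h33, h34, h43, h44, aM_0, aH1_0, aT_1, aW_0, aU_0, aH2_0]
            · linarith only [hK, h1, h2, h4, h6, h8, h9, h10, h12, h14, h16, h18, h19, h22, h24, h31, h32, h33, h34, h38, h43, h44, aM_0, aH1_0, aT_1, aW_0, aH2_0]
          · linarith only [hK, h1, h2, h4, h6, h8, h9, h10, h12, h14, h19, h20, h24, h31, h32, h33, h38, h40, h43, h44, aM_0, aH1_0, aT_1, aW_0, aU_0]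
          · linarith only [hK, h1, h2, h4, h6, h8, h9, h10, h12, h14, h19, h20, h24, h31, h32, h33, h34, h36, h38, h40, h43, h44, aM_0, aH1_0, aT_1, aW_0, aU_0]
        · rcases dH3 with aH3_0 | aH3_0 | aH3_0 | aH3_0 | aH3_0
          · linarith only [hK, h1, h4, h6, h7, h8, h9, h12, h14, h19, h20, h24, h25, h43, h44, aM_0, aM_1, aT_1, aW_0, aH3_0]
          · linarith only [hK, h1, h4, h6, h7, h8, h9, h12, h14, h16, h18, h19, h22, h24, h26, h31, h32, h33, h34, h38, h43, h44, aM_0, aM_1, aH1_0, aT_1, aW_0, aH3_0]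
          · rcases dU with aU_0 | aU_0 | aU_0
            · linarith only [hK, h1, h2, h4, h6, h7, h8, h9, h12, h14, h16, h18, h19, h22, h24, h25, h31, h32, h33, h34, h36, h43, h44, aM_0, aH1_0, aT_1, aW_0, aH3_0, aU_0]
            · linarith only [hK, h1, h2, h4, h6, h7, h8, h9, h12, h14, h16, h18, h19, h24, h25, h31, h32, h33, h38, h40, h43, h44, aM_0, aH1_0, aT_1, aW_0, aH3_0, aU_0]
            · linarith only [hK, h1, h4, h6, h7, h8, h9, h12, h14, h15, h19, h22, h23, h24, h25, h40, h43, h44, aM_0, aM_1, aT_1, aW_0, aH3_0, aU_0]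
          · linarith only [hK, h1, h4, h6, h7, h8, h9, h12, h14, h16, h18, h19, h22, h23, h24, h31, h32, h33, h37, h43, h44, aM_0, aM_1, aH1_0, aT_1, aW_0, aH3_0]
          · linarith
    · rcases dT with aT_0 | aT_0 | ⟨aT_0, aT_1⟩
      · rcases dW with aW_0 | aW_0 | aW_0
        · linarith only [hK, h1, h4, h7, h8, h9, h11, h14, h15, h17, h21, h22, h23, h24, h43, aH1_0, aT_0, aW_0]
        · linarith only [hK, h1, h2, h6, h8, h9, h10, h11, h19, h21, h22, h23, h24, h43, aM_0, aH1_0, aT_0, aW_0]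
        · linarith only [hK, h1, h2, h4, h7, h8, h9, h11, h14, h15, h21, h22, h23, h24, h43, aH1_0, aT_0, aW_0]
      · rcases dW with aW_0 | aW_0 | aW_0
        · linarith only [hK, h1, h4, h7, h8, h9, h12, h14, h15, h17, h21, h22, h23, h24, h43, aM_0, aM_1, aH1_0, aT_0, aW_0]
        · linarith only [hK, h1, h2, h4, h6, h8, h9, h10, h14, h19, h21, h22, h23, h24, h43, aM_0, aH1_0, aT_0, aW_0]
        · linarith only [hK, h1, h4, h7, h8, h9, h14, h15, h21, h22, h23, h24, h43, aM_1, aH1_0, aT_0, aW_0]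
      · rcases dW with aW_0 | aW_0 | aW_0
        · linarith only [hK, h1, h4, h7, h8, h9, h12, h14, h15, h17, h21, h22, h23, h24, h43, h44, aM_0, aM_1, aH1_0, aT_1, aW_0]
        · linarith only [hK, h1, h2, h4, h6, h8, h9, h10, h12, h14, h19, h21, h22, h23, h24, h43, h44, aM_0, aH1_0, aT_1, aW_0]
        · linarith only [hK, h1, h4, h7, h8, h9, h12, h14, h15, h21, h22, h23, h24, h43, h44, aM_0, aM_1, aH1_0, aT_1, aW_0]

end Crest.Agent.R017.R2NX994
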