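import Crest.Agent.R017.R2N_777
import Crest.Agent.R017.PXc_829
import Crest.Agent.R017.R2NXa_994

/-!
# Row 17, R8 (exceptional class): the cross term of the near-equal triple (helper994)

The class-E twin of helper777's `R2N` (same cells, windows, tolerances). `T`-side: the flat number
`ThN` or the bias number `TbN` of the difference with the replaced list (short lump `s₀`).
`R`-side: the merged family (`r3`, principal line `I / 3`) or helper829's closed form `PXsn` of the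
pair alternative. No condition on the shape of the child (children of BOTH lists).

* `TbN` : the bias branch of the `T`-number
* `R2NX`, `r2NX` : the line, proof
* `r2NX_px` : with `ExpRules`, pair alternative in the form `PXs`
-/

set_option autoImplicit false
set_option linter.unusedVariables false

noncomputable section

namespace Crest.Agent.R017.R2NX994

open Crest.Agent.R017.P1R904
open Crest.Agent.R017.P1G904 (Ww Ww_le)
open Crest.Agent.R017.NE73 (flK)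
open Crest.Agent.R017.R2N777 (ThN StN fl_le l3_leN r3_leN)
open Crest.Agent.R017.PX829 (PXsn PXs pxs_of)
open Crest.Agent.R017.ER911 (ExpRules EF)

/-- the bias branch of the `T`-number -/
def TbN (K s₀ n D e v : ℝ) : ℝ :=
  D + 2 / 3 * K - v / 3 - (n - D) / 3 +
    (5 / 3 * (n - D - e) + 2 / 3 * (v + e) - max 0 (s₀ - (D + e)))

/-- **the line** -/
def R2NX : Prop := ∀ K n V t h d F d₀ ν A e v b g g₂ i ms z₁ z₂ z₃ s₀ T ρ n' U : ℝ,
  StN K n V t → 0 ≤ h → 3 * h ≤ max 0 (4 * n - 3 * K) + K / 200 → 0 ≤ d → 2 * d * z₃ ≤ F →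
  (V + n - K) / 3 + (n - 3 / 4 * K) ≤ s₀ + t → 0 ≤ ν → 0 ≤ A → A ≤ d₀ →
  2000 * (d₀ + ν) ≤ 2000 * n - 1499 * K + t → 0 ≤ e →
  9 * e ≤ max 0 (4 * n - 3 * K) + K / 100 → 0 ≤ v → v + 2 * (d₀ + ν) ≤ V + t → 0 ≤ b →
  0 ≤ g → 0 ≤ i → 0 ≤ ms → i ≤ v + n - K + h + 2 * (e + A) + 2 * ν - d₀ + b + t →
  i ≤ K - (e + A) - 2 * b + t → 0 ≤ z₃ → z₃ ≤ z₂ → z₂ ≤ z₁ →
  z₁ + z₂ + z₃ + (d₀ + b + g + ms) ≤ n + t → 0 ≤ g₂ → g₂ ≤ g → 2 * g₂ ≤ i + t →
  (T ≤ ThN K n (d₀ + ν) e v ∨ T ≤ TbN K s₀ n (d₀ + ν) e v) →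
  ρ = 2 * (K + n) - T + F - (d₀ + ν - A + (Ww (v + e + A) i g - i) + ms) - K / 500 →
  n' = z₁ + z₂ + z₃ →
  U = max (max (n' / 3 + z₃ / 2) (n' / 3 + 4 / 15 * z₃)) (2 / 3 * z₃) →
  (r3 d (e + A + i + 2 * b) (min z₁ (e + A + i + 2 * b)) (min z₂ (e + A + i + 2 * b))
      (min z₃ (e + A + i + 2 * b)) 0 ≤ ρ ∧ (e + A + i + 2 * b) / 3 ≤ ρ) ∨
    PXsn (e + A + i - 2 * g₂) (b + g₂) 0 z₁ z₂ z₃ 0 n' (2 * d * z₃) U ρ

/-- from the room `R` without losses to the closed form -/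
lemma alt_ofN {I M L z₁ z₂ z₃ ii bb n' D U R ρ r : ℝ}
    (hr : r ≤ I + M + 3 / 4 * L + (ρ - R)) (hD : D ≤ ρ - R) (hρ : R ≤ ρ)
    (hfull : (ii + 2 * bb) / 3 ≤ ρ)
    (h : (R < I + M + 3 / 4 * L ∨ R < I / 3) →
      (R < ii + bb + n' ∨ R < 2 * n' + bb ∨ R < 2 / 3 * ii + bb / 3 + n' + U ∨
        R < 2 * n' + (ii + 2 * bb) / 3) →
      (R < ii + bb + n' ∨ R < 2 * n' + bb ∨ R < 2 / 3 * ii + bb / 3 + n' + U ∨
        z₁ < 2 * n' + (ii + 2 * bb) / 3 - R ∨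
        2 * (z₁ + z₂ - (2 * n' + (ii + 2 * bb) / 3 - R)) ≤ ii + bb) →
      (R < ii + bb + n' ∨ R < 2 * n' + ii ∨ R < 2 / 3 * bb + ii / 3 + n' + U ∨
        R < 2 * n' + (2 * ii + bb) / 3) →
      (R < ii + bb + n' ∨ R < 2 * n' + ii ∨ R < 2 / 3 * bb + ii / 3 + n' + U ∨
        z₁ < 2 * n' + (2 * ii + bb) / 3 - R ∨
        2 * (z₁ + z₂ - (2 * n' + (2 * ii + bb) / 3 - R)) ≤ ii + bb) → False) :
    (r ≤ ρ ∧ I / 3 ≤ ρ) ∨ PXsn ii bb 0 z₁ z₂ z₃ 0 n' D U ρ := by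
  by_contra hcon
  rw [not_or] at hcon
  obtain ⟨c1, c2⟩ := hcon
  unfold PXsn at c2
  rw [not_and] at c2
  have c3 := c2 (by linarith)
  rw [not_or, not_or, not_or, not_or] at c3
  obtain ⟨-, -, -, c4, c5⟩ := c3
  refine h ?_ ?_ ?_ ?_ ?_
  · by_contra hc
    rw [not_or, not_lt, not_lt] at hc
    exact c1 ⟨by linarith [hc.1], by linarith [hc.2]⟩
  · by_contra hc
    rw [not_or, not_or, not_or, not_lt, not_lt, not_lt, not_lt] at hc
    obtain ⟨a1, a2, a3, a4⟩ := hc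
    exact c4 ⟨by linarith, by linarith, by linarith, Or.inl (by linarith)⟩
  · by_contra hc
    rw [not_or, not_or, not_or, not_or, not_lt, not_lt, not_lt, not_lt, not_le] at hc
    obtain ⟨a1, a2, a3, a4, a5⟩ := hc
    exact c4 ⟨by linarith, by linarith, by linarith, Or.inr (Or.inl ⟨by linarith, by linarith⟩)⟩
  · by_contra hc
    rw [not_or, not_or, not_or, not_lt, not_lt, not_lt, not_lt] at hc
    obtain ⟨a1, a2, a3, a4⟩ := hc
    exact c5 ⟨by linarith, by linarith, by linarith, Or.inl (by linarith)⟩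
  · by_contra hc
    rw [not_or, not_or, not_or, not_or, not_lt, not_lt, not_lt, not_lt, not_le] at hc
    obtain ⟨a1, a2, a3, a4, a5⟩ := hc
    exact c5 ⟨by linarith, by linarith, by linarith, Or.inr (Or.inl ⟨by linarith, by linarith⟩)⟩

set_option maxHeartbeats 1000000 in
/-- **the line** -/
theorem r2NX : R2NX := by
  intro K n V t h d F d₀ ν A e v b g g₂ i ms z₁ z₂ z₃ s₀ T ρ n' U hS h00 h1 d0 hF hs n0 A0 A1 D1
    e0 e1 v0 hv b0 g0 i0 ms0 i1 i2 z30 z32 z21 tot q0 q1 q2 hT hρ hn hU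
  obtain ⟨K0, t0, tK, n5, n3, vn⟩ := hS
  have hM : (max 0 (4 * n - 3 * K) ≤ 0 ∧ 4 * n - 3 * K ≤ 0) ∨
      (max 0 (4 * n - 3 * K) ≤ 4 * n - 3 * K ∧ 0 ≤ 4 * n - 3 * K) := by
    rcases le_total 0 (4 * n - 3 * K) with h' | h'
    · exact Or.inr ⟨(max_eq_right h').le, h'⟩
    · exact Or.inl ⟨(max_eq_left h').le, h'⟩
  generalize max 0 (4 * n - 3 * K) = M at hM h1 e1
  have hT' : T ≤ (d₀ + ν) + 2 / 3 * K - v / 3 - (n - (d₀ + ν)) / 3 + 2 * (n - (d₀ + ν) - e) ∨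
      T ≤ (d₀ + ν) + 2 / 3 * K - v / 3 - (n - (d₀ + ν)) / 3 +
        (4 / 3 * (n - (d₀ + ν) - e) + (K + (v + e)) / 3) ∨
      (T ≤ (d₀ + ν) + 2 / 3 * K - v / 3 - (n - (d₀ + ν)) / 3 +
        (5 / 3 * (n - (d₀ + ν) - e) + 2 / 3 * (v + e)) ∧
       T ≤ (d₀ + ν) + 2 / 3 * K - v / 3 - (n - (d₀ + ν)) / 3 +
        (5 / 3 * (n - (d₀ + ν) - e) + 2 / 3 * (v + e) - (s₀ - ((d₀ + ν) + e)))) := by
    rcases hT with hT | hT
    · unfold ThN at hT
      rcases fl_le K (v + e) (n - (d₀ + ν) - e) with h' | h'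
      · exact Or.inl (by linarith)
      · exact Or.inr (Or.inl (by linarith))
    · unfold TbN at hT
      have b1 := le_max_left 0 (s₀ - (d₀ + ν + e))
      have b2 := le_max_right 0 (s₀ - (d₀ + ν + e))
      exact Or.inr (Or.inr ⟨by linarith, by linarith⟩)
  clear hT
  have hW : Ww (v + e + A) i g ≤ v + e + A + g ∨ Ww (v + e + A) i g ≤ i + g ∨
      Ww (v + e + A) i g ≤ 2 / 3 * (v + e + A + i) + g := by
    rcases Ww_le (v + e + A) i g with h' | h' | h'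
    · exact Or.inl (by linarith)
    · exact Or.inr (Or.inl (by linarith))
    · exact Or.inr (Or.inr (by linarith))
  generalize Ww (v + e + A) i g = W at hρ hW
  subst hn
  have u1 : (z₁ + z₂ + z₃) / 3 + z₃ / 2 ≤ U := by
    rw [hU]; exact (le_max_left _ _).trans (le_max_left _ _)
  have hU' : U ≤ (z₁ + z₂ + z₃) / 3 + z₃ / 2 ∨ U ≤ (z₁ + z₂ + z₃) / 3 + 4 / 15 * z₃ ∨
      U ≤ 2 / 3 * z₃ := by
    rw [hU]
    rcases max_choice (max ((z₁ + z₂ + z₃) / 3 + z₃ / 2) ((z₁ + z₂ + z₃) / 3 + 4 / 15 * z₃))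
      (2 / 3 * z₃) with h' | h'
    · rw [h']
      rcases max_choice ((z₁ + z₂ + z₃) / 3 + z₃ / 2) ((z₁ + z₂ + z₃) / 3 + 4 / 15 * z₃)
        with h'' | h''
      · rw [h'']; exact Or.inl le_rfl
      · rw [h'']; exact Or.inr (Or.inl le_rfl)
    · rw [h']; exact Or.inr (Or.inr le_rfl)
  clear hU
  have z20 : 0 ≤ z₂ := z30.trans z32
  have z10 : 0 ≤ z₁ := z20.trans z21
  have hI : 0 ≤ e + A + i + 2 * b := by linarith
  have hF0 : 0 ≤ F := (mul_nonneg (mul_nonneg (by norm_num) d0) z30).trans hF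
  have k1 := min_le_right z₁ (e + A + i + 2 * b)
  have k2 := min_le_right z₂ (e + A + i + 2 * b)
  have k3 := min_le_right z₃ (e + A + i + 2 * b)
  have j1 := min_le_left z₁ (e + A + i + 2 * b)
  have j2 := min_le_left z₂ (e + A + i + 2 * b)
  have j3 := min_le_left z₃ (e + A + i + 2 * b)
  obtain ⟨l1, l2, l3', l4, l5, l6⟩ := l3_leN (e + A + i + 2 * b) (min z₁ (e + A + i + 2 * b))
    (min z₂ (e + A + i + 2 * b)) (min z₃ (e + A + i + 2 * b))
  have hr := r3_leN (i := e + A + i + 2 * b) d0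
    (z₁ := min z₁ (e + A + i + 2 * b)) (z₂ := min z₂ (e + A + i + 2 * b))
    (z₃ := min z₃ (e + A + i + 2 * b)) (F := F)
    (le_trans (mul_le_mul_of_nonneg_left
      ((min_le_right _ _).trans ((min_le_right _ _).trans j3)) (by linarith)) hF)
  generalize r3 d (e + A + i + 2 * b) (min z₁ (e + A + i + 2 * b))
    (min z₂ (e + A + i + 2 * b)) (min z₃ (e + A + i + 2 * b)) 0 = r at hr ⊢
  generalize l3 (e + A + i + 2 * b) (min z₁ (e + A + i + 2 * b))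
    (min z₂ (e + A + i + 2 * b)) (min z₃ (e + A + i + 2 * b)) = L at hr l1 l2 l3' l4 l5 l6
  generalize min z₁ (e + A + i + 2 * b) = m₁ at hr k1 j1 l1 l2
  generalize min z₂ (e + A + i + 2 * b) = m₂ at hr k2 j2 l3' l4
  generalize min z₃ (e + A + i + 2 * b) = m₃ at hr k3 j3 l5 l6
  refine alt_ofN (I := e + A + i + 2 * b) (M := m₁ + m₂ + m₃) (L := L) (R := ρ - F)
    (by linarith) (by linarith) (by linarith) ?_ ?_
  · rw [hρ]
    rcases hT' with h' | h' | ⟨h', -⟩ <;> rcases hW with h'' | h'' | h'' <;>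
      rcases hM with ⟨hM, hM'⟩ | ⟨hM, hM'⟩ <;> linarith
  · intro H1 H2 H3 H5 H6
    exact coreX t0 tK n5 n3 vn h1 n0 A0 A1 D1 e0 e1 hv b0 g0 i0 ms0 i1 i2 z30 z32 z21 tot q0 q1
      k1 k2 j1 j2 j3 l1 l2 l3' l4 l5 u1 (by linarith) hs hM hT' hW hU' H1 H2 H3 H5 H6

end Crest.Agent.R017.R2NX994
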