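import Crest.Agent.R017.R2MX_994
import Crest.Agent.R017.NES_994

/-!
# Row 17, FlatNE: the pair line of class E in the form `PXs` (helper994)

* `r2MX_pxsT` : `R2MX` with `ExpRules`
-/

set_option autoImplicit false
set_option linter.unusedVariables false

noncomputable section

namespace Crest.Agent.R017.R2MX994

open Crest.Agent.R017.ER911 (Ok Sh EF ExpRules)
open Crest.Agent.R017.R2M777 (WwN)
open Crest.Agent.R017.R2N777 (ThN StN)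
open Crest.Agent.R017.PX829 (PXsn PXs PX pxs_of)
open Crest.Agent.R017.R2NX994 (TbN)
open Crest.Agent.R017.NES994

variable {d : ℝ} {r s : EF}

/-- **the pair line of class E in the form `PXs`**, any order of the lumps -/
theorem r2MX_pxsT (R : ExpRules (7 / 8 + d) r s) (hd : 0 ≤ d) (hd8 : d ≤ 1 / 8)
    {K n V t h F d₀ ν A e v b g g₂ i ms z₁ z₂ z₃ s₀ T ρ : ℝ}
    (hS : StN K n V t) (h0 : 0 ≤ h) (h1 : 3 * h ≤ max 0 (4 * n - 3 * K) + K / 200)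
    (hs : (V + n - K) / 3 + (n - 3 / 4 * K) ≤ s₀ + t) (ν0 : 0 ≤ ν) (A0 : 0 ≤ A) (A1 : A ≤ d₀)
    (D1 : 2000 * (d₀ + ν) ≤ 2000 * n - 1499 * K + t) (e0 : 0 ≤ e)
    (e1 : 9 * e ≤ max 0 (4 * n - 3 * K) + K / 100) (v0 : 0 ≤ v) (hv : v + 2 * (d₀ + ν) ≤ V + t)
    (b0 : 0 ≤ b) (g0 : 0 ≤ g) (i0 : 0 ≤ i) (ms0 : 0 ≤ ms)
    (i1 : i ≤ v + n - K + h + 2 * (e + A) + 2 * ν - d₀ + b + t)
    (i2 : i ≤ K - (e + A) - 2 * b + t) (z10 : 0 ≤ z₁) (z20 : 0 ≤ z₂) (z30 : 0 ≤ z₃)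
    (hF : 2 * d * min z₁ (min z₂ z₃) ≤ F)
    (tot : z₁ + z₂ + z₃ + (d₀ + b + g + ms) ≤ n + t) (q0 : 0 ≤ g₂) (q1 : g₂ ≤ g)
    (q2 : 2 * g₂ ≤ e + A + i)
    (hT : T ≤ ThN K n (d₀ + ν) e v ∨ T ≤ TbN K s₀ n (d₀ + ν) e v)
    (hρ : 2 * (K + n) - T + F -
      (d₀ + ν - A + (WwN (v + e + A) i g ν - i) + ms) - K / 500 ≤ ρ) :
    PXs (7 / 8 + d) r s (e + A + i - 2 * g₂) (b + g₂) {z₁, z₂, z₃} 0 0 ρ := by
  obtain ⟨a, b', c, hM, c0, cb, ba, hsum, hc⟩ := sort3 z10 z20 z30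
  rw [hM]
  rw [← hc] at hF
  have hI : 0 ≤ e + A + i + 2 * b := by linarith
  have key := r2MX K n V t h d F d₀ ν A e v b g g₂ i ms a b' c s₀
    (2 * (K + n) + F - (d₀ + ν - A + (WwN (v + e + A) i g ν - i) + ms) - K / 500 - ρ) ρ
    (a + b' + c) _ hS h0 h1 hd hF hs ν0 A0 A1 D1 e0 e1 v0 hv b0 g0 i0 ms0 i1 i2 c0 cb ba
    (by linarith) q0 q1 (by linarith [hS.t0]) (by
      rcases hT with h' | h'
      · exact Or.inl (by linarith)
      · exact Or.inr (by linarith)) (by ring) rfl rfl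
  rcases key with ⟨k1, k2⟩ | key
  · refine Or.inl (PX.full _ _ _ _ ?_)
    have e2 : e + A + i - 2 * g₂ + 2 * (b + g₂) = e + A + i + 2 * b := by ring
    rw [e2]
    exact full_P1 R hd hd8 (c0.trans (cb.trans ba)) (c0.trans cb) c0 k1 k2
  · have h5 := pxs_of (i := e + A + i - 2 * g₂) (b := b + g₂) (g := 0) (g₂ := 0)
      (y₁ := a) (y₂ := b') (y₃ := c) (m := 0) (a := 0) (n' := a + b' + c) (D := 2 * d * c)
      (U := max (max ((a + b' + c) / 3 + c / 2) ((a + b' + c) / 3 + 4 / 15 * c)) (2 / 3 * c))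
      (ρ := ρ) R hd (by linarith) cb ba c0 le_rfl le_rfl (by ring) (le_of_eq (by ring)) (U0 c0)
      (by linarith) (by linarith) le_rfl le_rfl (by linarith) (by simpa using key)
    simpa using h5

end Crest.Agent.R017.R2MX994
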