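import Crest.Agent.R017.R3e_571

/-!
# Row 17, T.7 / T.5 (helper791): c-side moments over an arbitrary finite set of frequencies

The chain R3d / R3e of helper571 (`grandX`, `natGc`, `natGX`, `flagGX`, `listRX`) with an arbitrary
finite set `Ks` of frequencies in place of `bl Λ`: the hypothesis is a bound of
`RS P h Ks ps' = ∑ κ ∈ Ks, ∏ ‖CS (pc h p') κ‖²` for the children; `RS_filter`:
`RS P h ((bl Λ).filter Q) = RQ Q h (log Λ)`.

* `listRXS` : flagged lists, everything depending on the index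
* `btS_pt`, `winS` : twisted windows
-/

set_option autoImplicit false
set_option maxHeartbeats 400000

noncomputable section

open Complex
open scoped ComplexConjugate

namespace Crest.Agent.R017.R3Q791

open Crest.Agent.R012 Crest.Agent.R012.Eis Crest.Agent.R012.LS2 Crest.Agent.R012.Gauss880
open Crest.Agent.R012.PSer47 (IsChar)
open Crest.Agent.R012.Div277 Crest.Agent.R012.Weight600
open Crest.Agent.R017.CM106 Crest.Agent.R017.FE47
open Crest.Agent.R017.B770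
open Crest.Agent.R017.Prov71
open Crest.Agent.R017.HP842 (UT Pc pc KS sqc Th alL al ssub pc_support FS_cv FS_pc)
open Crest.Agent.R017.TPOk571 (IP FP SD SD_w SD_len SD_ht sd_ok relU)
open Crest.Agent.R017.TP320 (Fam tw)
open Crest.Agent.R017.XHB411 (tl)
open Crest.Agent.R017.XRG106 (Rl RFp ip chd chd_pc tl_ofFn CS_al RFp_ofFn one_add_mul exists_rep
  rep CS_eq_zero)
open Crest.Agent.R017.NtC320 (gC gC_ne gC_fin MulCh Tn mem_Tn nm_prod_le cg cB cg_prim cB_prim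
  gp_cg gp_cB cB_dvd cg_dvd gC_nt nt_qf QF_of_lin Lin_gC norm_CS_gC_dil prim_prod)
open Crest.Agent.R017.Rough381 (sh shS sh_OK)
open Crest.Agent.R017.Leg381 (alf Pf alF LF alF_get LF_get)
open Crest.Agent.R017.StA828 (gp)
open Crest.Agent.R017.R3571

variable {r : ℕ}

/-- second moments over a finite set of frequencies -/
def RS (P : DPar) (h : ℝ → ℝ) (Ks : Finset Eis) (ps : List Pq) : ℝ :=
  ∑ κ ∈ Ks, (ps.map fun p => ‖CS (pc h (p.pc P)) κ‖ ^ 2).prod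

lemma RS_ofFn {h : ℝ → ℝ} {P : DPar} {r : ℕ} (s : Fin r → Pq) {Ks : Finset Eis} :
    RS P h Ks (List.ofFn s) = ∑ κ ∈ Ks, ∏ i, ‖CS (pc h ((s i).pc P)) κ‖ ^ 2 := by
  unfold RS
  refine Finset.sum_congr rfl fun k _ => ?_
  rw [List.map_ofFn, List.prod_ofFn]
  rfl

lemma RS_nonneg (P : DPar) (h : ℝ → ℝ) (Ks : Finset Eis) (ps : List Pq) : 0 ≤ RS P h Ks ps := by
  refine Finset.sum_nonneg fun k _ => List.prod_nonneg ?_
  intro a ha
  obtain ⟨p, _, rfl⟩ := List.mem_map.1 ha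
  positivity

lemma RS_mono (P : DPar) (h : ℝ → ℝ) {Ks Ks' : Finset Eis} (hK : Ks ⊆ Ks') (ps : List Pq) :
    RS P h Ks ps ≤ RS P h Ks' ps := by
  refine Finset.sum_le_sum_of_subset_of_nonneg hK fun k _ _ => List.prod_nonneg ?_
  intro a ha
  obtain ⟨p, _, rfl⟩ := List.mem_map.1 ha
  positivity

/-- the moments over the frequencies with `Q` -/
lemma RS_filter (P : DPar) (h : ℝ → ℝ) (Q : Eis → Prop) [DecidablePred Q] {Λ : ℝ} (hΛ : 0 < Λ)
    (ps : List Pq) : RS P h ((bl Λ).filter Q) ps = RQ Q h (Real.log Λ) (ps.map (Pq.pc P)) := by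
  classical
  unfold RS RQ
  rw [Real.exp_log hΛ]
  refine Finset.sum_congr (by congr) fun k _ => ?_
  rw [List.map_map]
  rfl

open Classical in
/-- **child indices → natural lists**, coprimality and frequency depending on the index -/
theorem grandXS {h : ℝ → ℝ} {c : ℝ} (hpu : PU h c) (μ : ℝ) (r : ℕ) {ρ : ℝ}
    (hρ : 0 ≤ ρ) {ε : ℝ} (hε : 0 < ε) :
    ∃ C : ℝ, 1 ≤ C ∧ ∀ C' : ℝ, C ≤ C' → ∀ (P : DPar), P.OK → ∀ s : Fin r → Pq,
      (∀ i, 0 ≤ (s i).z) → ∀ j : Fin r → IP, Below P ρ j s →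
      ∀ {β : Type} (T : Finset β) (Wx : β → ℝ), (∀ x ∈ T, 0 ≤ Wx x) → ∀ (q fr : β → Eis),
      (∀ x ∈ T, q x ≠ 0) →
      ∀ (Ks : Finset Eis) (X0 Q0 B Tm : ℝ), 1 ≤ X0 → 1 ≤ Q0 → (∀ x ∈ T, (nm (q x) : ℝ) ≤ Q0) →
      (∀ i, Real.exp (s i).z ≤ X0) → 0 ≤ B → 0 ≤ Tm →
      (∀ x ∈ T, fr x ∈ Ks) →
      (∀ κ ∈ Ks, ∑ x ∈ T.filter (fun x => fr x = κ), Wx x ≤ Tm) →
      (∀ (s' : Fin r → Pq) (W : ℝ), 1 ≤ W → (∀ i, Rl C' W (s' i) (s i)) →
        tl Dq (List.ofFn s') ≤ ∑ i, (j i).z + C' →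
        RS P h Ks (List.ofFn s') ≤
          B * Real.exp (tl Dq (List.ofFn s')) * W ^ (2 * μ)) →
      ∑ x ∈ T, Wx x * ‖CS (sqc (q x) (al h (fun i => (j i).pc))) (fr x)‖ ^ 2 ≤
        C' * Q0 ^ ε * X0 ^ ε * (Tm * B * Real.exp (∑ i, (j i).z) * Wt j ^ (2 * μ)) := by
  obtain ⟨R, hR0, hR⟩ := exists_R (cs_cx hpu.cs)
  obtain ⟨T0, C1, hC1, hT, hrep⟩ := exists_rep hpu hR
  obtain ⟨C3, hC3, hS⟩ := sq_nat_pc_ix r hR0 hε
  set Kr : ℝ := (C1 ^ 2) ^ r * Real.exp (r * (R + C1)) with hKr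
  have hKr1 : 1 ≤ Kr := by
    refine one_le_mul_of_one_le_of_one_le (one_le_pow₀ (one_le_pow₀ hC1)) ?_
    exact Real.one_le_exp (by positivity)
  have hE1 : 1 ≤ Real.exp ρ := Real.one_le_exp hρ
  have hE2 : 1 ≤ Real.exp R := Real.one_le_exp hR0
  have hEe : 1 ≤ Real.exp ρ ^ ε := Real.one_le_rpow hE1 hε.le
  have hr0 : (0 : ℝ) ≤ r := Nat.cast_nonneg r
  have hrR : 0 ≤ r * (R + C1) := by positivity
  have hK0 : 1 ≤ C3 * Real.exp ρ ^ ε * Kr :=
    one_le_mul_of_one_le_of_one_le (one_le_mul_of_one_le_of_one_le hC3 hEe) hKr1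
  refine ⟨C3 * Real.exp ρ ^ ε * Kr + (ρ + R + C1) + Real.exp ρ * Real.exp R + r * (R + C1), ?_, ?_⟩
  · have : 0 ≤ Real.exp ρ * Real.exp R := by positivity
    linarith
  intro C' hC' P hP s hs j hj β T Wx hWx q fr hq Ks X0 Q0 B Tm hX0 hQ0 hqQ hsX hB hTm0 hfr hTm hyp
  have hEE : 1 ≤ Real.exp ρ * Real.exp R := one_le_mul_of_one_le_of_one_le hE1 hE2
  have hC'a : C3 * Real.exp ρ ^ ε * Kr ≤ C' := by linarith
  have hC'b : ρ + C1 ≤ C' := by linarith
  have hC'c : Real.exp ρ * Real.exp R ≤ C' := by linarith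
  have hC'd : r * (R + C1) ≤ C' := by linarith
  have hC'0 : 1 ≤ C' := by linarith
  have hX00 : 0 < X0 := by linarith
  have hQ00 : 0 < Q0 := by linarith
  set W : ℝ := Wt j with hW
  have hW1 : 1 ≤ W := one_le_Wt j
  have hWi : ∀ i, 1 + |(j i).s| ≤ W := le_Wt j
  have hW0 : 0 < W := by linarith
  set B1 : ℝ := Tm * B * W ^ (2 * μ) * Kr with hB1
  have hB10 : 0 ≤ B1 := by positivity
  have key2 := hS h hR (Fin r) (by simp) (fun i => (j i).pc) (fun i => (j i).pc_OK)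
    (Real.exp ρ * X0) (one_le_mul_of_one_le_of_one_le hE1 hX0) (fun i => by
      show Real.exp (j i).z ≤ _
      calc Real.exp (j i).z ≤ Real.exp ((s i).z + ρ) := Real.exp_le_exp.2 (hj.z i)
        _ = Real.exp (s i).z * Real.exp ρ := Real.exp_add _ _
        _ ≤ X0 * Real.exp ρ := by
            have := hsX i
            gcongr
        _ = _ := mul_comm _ _) T Wx hWx q fr Q0 hq hqQ hQ0 B1 hB10 ?_
  · refine key2.trans ?_
    have e1 : ∏ i, ((j i).pc).Y = Real.exp (∑ i, (j i).z) := by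
      rw [Real.exp_sum]
      rfl
    rw [e1]
    have h7 : (Real.exp ρ * X0) ^ ε = Real.exp ρ ^ ε * X0 ^ ε :=
      Real.mul_rpow (Real.exp_pos _).le hX00.le
    rw [h7]
    have hp : 0 ≤ Q0 ^ ε * X0 ^ ε * (Tm * B * Real.exp (∑ i, (j i).z) * W ^ (2 * μ)) := by
      positivity
    calc C3 * Q0 ^ ε * (Real.exp ρ ^ ε * X0 ^ ε) * (B1 * Real.exp (∑ i, (j i).z))
        = (C3 * Real.exp ρ ^ ε * Kr) * (Q0 ^ ε * X0 ^ ε *
          (Tm * B * Real.exp (∑ i, (j i).z) * W ^ (2 * μ))) := by rw [hB1]; ring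
      _ ≤ C' * (Q0 ^ ε * X0 ^ ε *
          (Tm * B * Real.exp (∑ i, (j i).z) * W ^ (2 * μ))) := mul_le_mul_of_nonneg_right hC'a hp
      _ = _ := by ring
  -- the grandchildren
  intro b hb
  have hb0 : ∀ i, b i ≠ 0 := fun i => (hb i).ne_zero
  set g : Fin r → Pq := fun i => (chd (s i) (j i)).sub (b i) (hb0 i) with hg
  have hgz : ∀ i, (g i).z = (j i).z - Real.log (nm (b i)) := fun i => rfl
  have hlogb : ∀ i, 0 ≤ Real.log (nm (b i)) := fun i =>
    Real.log_nonneg (by exact_mod_cast nm_pos.2 (hb0 i))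
  have hgpc : ∀ i, (g i).pc P = ((j i).pc).sub (b i) := by
    intro i
    have hψ : (j i).ψ = (ip hP (s i)).ψ := Subtype.ext (hj.ψ i)
    rw [← chd_pc hP hψ]
    exact HP842.Pq_sub_pc P _ (hb0 i)
  have e2 : ssub (fun i => (j i).pc) b = fun i => (g i).pc P := by
    funext i
    rw [hgpc]
    rfl
  have hh : Bump h := ⟨R, hR⟩
  have hY : ∏ i, (ssub (fun i => (j i).pc) b i).Y = ∏ i, Real.exp (g i).z := by
    rw [e2]
    rfl
  rw [hY, e2]
  have hr0' : 0 ≤ B1 * ∏ i, Real.exp (g i).z :=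
    mul_nonneg hB10 (Finset.prod_nonneg fun i _ => (Real.exp_pos _).le)
  by_cases hneg : ∃ i, (g i).z < -R
  · obtain ⟨i, hi⟩ := hneg
    rw [Finset.sum_eq_zero]
    · exact hr0'
    intro k _
    rw [CS_al hh hP, Finset.prod_eq_zero (Finset.mem_univ i) (CS_eq_zero hR hP hi _)]
    simp
  push Not at hneg
  have hRl : ∀ i, Rl C' W (rep T0 (g i)) (s i) := by
    intro i
    have hd1 : (1 : ℝ) ≤ nm (s i).d := by exact_mod_cast nm_pos.2 (s i).d0
    have hz1 : 1 ≤ Real.exp (s i).z := Real.one_le_exp (hs i)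
    unfold rep
    by_cases hz : (g i).z < 0
    · rw [if_pos hz]
      obtain ⟨t1, t2, t3, t4, t5, t6⟩ := hT (g i).kd
      refine ⟨t1, fun _ => t2, t3, ?_, ?_, ?_⟩
      · linarith [hs i]
      · rw [t5, abs_zero, add_zero]
        exact one_le_mul_of_one_le_of_one_le hW1 (by linarith [abs_nonneg (s i).t])
      · refine t6.trans ?_
        have : C1 ≤ C' := by linarith
        calc C1 ≤ C' * 1 * 1 := by linarith
          _ ≤ C' * nm (s i).d * Real.exp (s i).z := by gcongr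
    · rw [if_neg hz]
      push Not at hz
      refine ⟨rfl, fun h1 => ?_, hz, ?_, ?_, ?_⟩
      · have h2 : (j i).u = .one := hj.one i h1
        show ((j i).u).sub (b i) = .one
        rw [h2]
        unfold HP842.UT.sub
        rw [if_neg]
        rintro ⟨h3, _⟩
        exact absurd h3 (by decide)
      · rw [hgz]
        linarith [hj.z i, hlogb i]
      · show 1 + |(j i).t0 + (j i).s| ≤ _
        rw [hj.t0]
        exact one_add_mul (hWi i)
      · have h3 : (nm (g i).d : ℝ) ≤ nm (s i).d * nm (b i) := by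
          have hb1 : (1 : ℝ) ≤ nm (b i) := by exact_mod_cast nm_pos.2 (hb0 i)
          have e5 : (g i).d = if (j i).u = .mu ∨ (j i).u = .sq then (s i).d * b i else (s i).d := by
            rfl
          rw [e5]
          split_ifs
          · rw [nm_mul]; push_cast; exact le_rfl
          · exact le_mul_of_one_le_right (Nat.cast_nonneg _) hb1
        have h4 : (nm (b i) : ℝ) ≤ Real.exp ρ * Real.exp (s i).z := by
          have hbp : (0 : ℝ) < nm (b i) := by exact_mod_cast nm_pos.2 (hb0 i)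
          rw [← Real.exp_add, ← Real.exp_log hbp]
          refine Real.exp_le_exp.2 ?_
          rw [hgz] at hz
          linarith [hj.z i]
        have h5 : Real.exp ρ ≤ C' := by
          refine le_trans ?_ hC'c
          exact le_mul_of_one_le_right (Real.exp_pos _).le hE2
        calc (nm (g i).d : ℝ) ≤ nm (s i).d * nm (b i) := h3
          _ ≤ nm (s i).d * (Real.exp ρ * Real.exp (s i).z) := by gcongr
          _ ≤ nm (s i).d * (C' * Real.exp (s i).z) := by gcongr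
          _ = _ := by ring
  have h9 : tl Dq (List.ofFn fun i => rep T0 (g i)) ≤ (∑ i, (g i).z) + r * (R + C1) := by
    rw [tl_ofFn]
    calc ∑ i, (rep T0 (g i)).z ≤ ∑ i, ((g i).z + (R + C1)) := by
          refine Finset.sum_le_sum fun i _ => ?_
          unfold rep
          by_cases hz : (g i).z < 0
          · rw [if_pos hz]
            have := (hT (g i).kd).2.2.2.1
            linarith [hneg i]
          · rw [if_neg hz]
            linarith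
      _ = _ := by
          rw [Finset.sum_add_distrib, Finset.sum_const, Finset.card_univ, Fintype.card_fin,
            nsmul_eq_mul]
  have h10 : ∑ i, (g i).z ≤ ∑ i, (j i).z :=
    Finset.sum_le_sum fun i _ => by rw [hgz]; linarith [hlogb i]
  have h8 := hyp (fun i => rep T0 (g i)) W hW1 hRl (by linarith)
  rw [RS_ofFn] at h8
  calc ∑ x ∈ T, Wx x * ‖CS (al h fun i => (g i).pc P) (fr x)‖ ^ 2
      ≤ Tm * ∑ k ∈ Ks, ‖CS (al h fun i => (g i).pc P) k‖ ^ 2 :=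
        sum_mult_le T Wx fr (Ks) hfr hTm (F := fun k => ‖CS (al h fun i => (g i).pc P) k‖ ^ 2)
          fun _ => by positivity
    _ ≤ Tm * ∑ k ∈ Ks, (C1 ^ 2) ^ r * ∏ i, ‖CS (pc h ((rep T0 (g i)).pc P)) k‖ ^ 2 := by
        refine mul_le_mul_of_nonneg_left (Finset.sum_le_sum fun k hk => ?_) hTm0
        rw [CS_al hh hP, norm_prod, ← Finset.prod_pow]
        calc ∏ i, ‖CS (pc h ((g i).pc P)) k‖ ^ 2
            ≤ ∏ i, (C1 ^ 2 * ‖CS (pc h ((rep T0 (g i)).pc P)) k‖ ^ 2) := by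
              refine Finset.prod_le_prod (fun i _ => by positivity) fun i _ => ?_
              rw [← mul_pow]
              exact pow_le_pow_left₀ (norm_nonneg _) (hrep P hP (g i) k) 2
          _ = _ := by
              rw [Finset.prod_mul_distrib, Finset.prod_const, Finset.card_univ, Fintype.card_fin]
    _ = Tm * ((C1 ^ 2) ^ r * ∑ k ∈ Ks, ∏ i, ‖CS (pc h ((rep T0 (g i)).pc P)) k‖ ^ 2) := by
        rw [← Finset.mul_sum]
    _ ≤ Tm * ((C1 ^ 2) ^ r * (B * Real.exp (tl Dq (List.ofFn fun i => rep T0 (g i))) *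
          W ^ (2 * μ))) := by gcongr
    _ ≤ Tm * ((C1 ^ 2) ^ r * (B * Real.exp ((∑ i, (g i).z) + r * (R + C1)) *
          W ^ (2 * μ))) := by gcongr
    _ = B1 * ∏ i, Real.exp (g i).z := by
        rw [hB1, hKr, ← Real.exp_sum, Real.exp_add]
        ring


open Classical in
/-- **natural lists, one class**: the moments of the subsequences, everything depending on the
index -/
theorem natGcS {h : ℝ → ℝ} {c : ℝ} (hpu : PU h c) {μ : ℝ} (hμ : 0 ≤ μ) (s0 : ℝ) (r : ℕ) {ε : ℝ}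
    (hε : 0 < ε) :
    ∃ C : ℝ, 1 ≤ C ∧ ∀ (P : DPar), P.OK → ∀ s : Fin r → Pq,
      (∀ i, 0 ≤ (s i).z) → ∀ j : Fin r → IP, Below P 0 j s → (∀ i, (j i).s = 0) →
      ∀ {β : Type} (T : Finset β) (Wx : β → ℝ), (∀ x ∈ T, 0 ≤ Wx x) →
      ∀ (q : Eis) (δ e π fr : β → Eis), q ≠ 0 → (∀ x ∈ T, IsPrim (δ x)) →
      (∀ x ∈ T, IsPrim (e x)) → (∀ x ∈ T, π x ≠ 0) →
      ∀ (Ks : Finset Eis) (X0 t B Tm α : ℝ), 1 ≤ X0 → (nm q : ℝ) ≤ X0 → (∀ x ∈ T, (nm (δ x) : ℝ) ≤ X0) →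
      (∀ x ∈ T, (nm (e x) : ℝ) ≤ X0) → (∀ x ∈ T, (nm (π x) : ℝ) ≤ X0) →
      (∀ i, Real.exp (s i).z ≤ X0) → 0 ≤ B → 0 ≤ Tm →
      0 ≤ α → Real.exp α ≤ X0 ^ (2 : ℝ) →
      (∀ x ∈ T, α ≤ Real.log (nm (δ x * e x)) ∧ Real.log (nm (δ x * e x)) ≤ α + 1) →
      (∀ x ∈ T, fr x ∈ Ks) →
      (∀ κ ∈ Ks, ∑ x ∈ T.filter (fun x => fr x = κ), Wx x ≤ Tm) →
      (∀ (s' : Fin r → Pq) (W : ℝ), 1 ≤ W → (∀ i, Rl C W (s' i) (s i)) →
        tl Dq (List.ofFn s') ≤ ∑ i, (j i).z - α + C →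
        RS P h Ks (List.ofFn s') ≤
          B * Real.exp (tl Dq (List.ofFn s')) * W ^ (2 * μ)) →
      ∑ x ∈ T, Wx x * ((nm (e x) : ℝ) ^ s0 *
        ‖CS (gC (sqc q (al h (fun i => (j i).pc))) (δ x) (e x) (π x) (tw s0 t)) (fr x)‖) ^ 2 ≤
        C * X0 ^ ε * (1 + |t|) ^ (2 * (r * μ)) * (Tm * B) *
          Real.exp ((1 - 2 * s0) * (∑ i, (j i).z - α)) := by
  obtain ⟨R, hR0, hR⟩ := exists_R (cs_cx hpu.cs)
  have hΦ := sd_ok hpu hR0 hR hμ r
  set Rt : ℝ := r * (2 * R + 3) with hRt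
  have hRt0 : 0 ≤ Rt := by positivity
  set ε' : ℝ := ε / 9 with hε'
  have hε'0 : 0 < ε' := by positivity
  obtain ⟨C2, hC2, hsp⟩ := hΦ.split ε' s0 hε'0
  obtain ⟨C3, hC3, hgr⟩ := grandXS hpu μ r hRt0 hε'0
  have hE1 : 1 ≤ Real.exp Rt := Real.one_le_exp hRt0
  have hK : 1 ≤ C2 ^ 2 * C3 * Real.exp Rt :=
    one_le_mul_of_one_le_of_one_le (one_le_mul_of_one_le_of_one_le (one_le_pow₀ hC2) hC3) hE1
  refine ⟨C2 ^ 2 * C3 * Real.exp Rt + (C3 + Rt), by linarith, ?_⟩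
  set C : ℝ := C2 ^ 2 * C3 * Real.exp Rt + (C3 + Rt) with hC
  intro P hP s hs j hj hjs β T Wx hWx q δ e π fr hq hδ he hπ Ks X0 t B Tm α hX0 hqX hδX heX hπX hsX
    hB hTm0 hα0 hαX hα hfr hTm hyp
  have hX00 : 0 < X0 := by linarith
  have hδe : ∀ x ∈ T, IsPrim (δ x * e x) := fun x hx => (hδ x hx).mul (he x hx)
  set S0 : ℝ := ∑ i, (j i).z with hS0
  have hlen : (SD h μ r).len j = S0 := SD_len h μ r j
  have hht : (SD h μ r).ht j = 1 := by
    rw [SD_ht]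
    refine Finset.prod_eq_one fun i _ => ?_
    rw [hjs i, abs_zero, add_zero, Real.one_rpow]
  have hwj : (SD h μ r).w j = al h (fun i => (j i).pc) := SD_w h μ r j
  -- the support
  have hsupp : ∀ j' : Fin r → IP, ∀ b, (SD h μ r).w j' b ≠ 0 →
      (nm b : ℝ) ≤ Real.exp ((SD h μ r).len j' + Rt) := by
    intro j' b hb
    have hb0 : (0 : ℝ) < nm b := nm_cast_pos (hΦ.prim j' b hb).ne_zero
    rw [← Real.log_le_iff_le_exp hb0]
    have := (abs_le.1 (hΦ.supp j' b hb)).2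
    linarith
  set X₁ : ℝ := Real.exp (|S0| + |α| + 2 * Rt) with hX₁
  have hX₁0 : 0 ≤ X₁ := (Real.exp_pos _).le
  have hw1 : ∀ n, (SD h μ r).w j n ≠ 0 → (nm n : ℝ) ≤ X₁ := fun n hn => (hsupp j n hn).trans
    (Real.exp_le_exp.2 (by
      rw [hlen]; have := le_abs_self S0; have := abs_nonneg α; linarith))
  set N : β → Eis := fun x => q * (δ x * e x) * π x with hN
  have hN0 : ∀ x ∈ T, N x ≠ 0 := fun x hx =>
    mul_ne_zero (mul_ne_zero hq (hδe x hx).ne_zero) (hπ x hx)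
  have hNX : ∀ x ∈ T, (nm (N x) : ℝ) ≤ X0 ^ (4 : ℝ) := by
    intro x hx
    have h1 := hδX x hx
    have h2 := heX x hx
    have h3 := hπX x hx
    rw [hN]
    simp only
    rw [nm_mul, nm_mul, nm_mul]
    push_cast
    have h9 : X0 ^ (4 : ℝ) = X0 * (X0 * X0) * X0 := by
      rw [show (4 : ℝ) = ((4 : ℕ) : ℝ) by norm_num, Real.rpow_natCast]; ring
    rw [h9]
    gcongr
  have hQ1 : 1 ≤ X0 ^ (4 : ℝ) := Real.one_le_rpow hX0 (by norm_num)
  -- the bound of the children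
  set M2 : ℝ := C3 * (X0 ^ (4 : ℝ)) ^ ε' * X0 ^ ε' * (Tm * B * Real.exp (S0 - α + Rt)) with hM2
  have hM20 : 0 ≤ M2 := by positivity
  have hchild : ∀ j', (SD h μ r).good j' → (SD h μ r).dom Rt j' j →
      (SD h μ r).len j' ≤ (SD h μ r).len j - α + Rt →
      ∑ x ∈ T, Wx x * ‖CS (sqc (N x) ((SD h μ r).w j')) (fr x)‖ ^ 2 ≤
        M2 * (SD h μ r).ht j' ^ 2 := by
    intro j' _ hdom hl
    have hdom' : ∀ i, (j' i).z ≤ (j i).z + Rt ∧ (j' i).t0 = (j i).t0 ∧ (j' i).ψ = (j i).ψ ∧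
      relU (j' i).u (j i).u := hdom
    have hlen' : (SD h μ r).len j' = ∑ i, (j' i).z := SD_len h μ r j'
    rw [hlen', hlen] at hl
    have hb : Below P Rt j' s := by
      refine ⟨fun i => ?_, fun i => ?_, fun i => ?_, fun i hi => ?_⟩
      · have := hj.z i
        linarith [(hdom' i).1]
      · rw [(hdom' i).2.1, hj.t0]
      · rw [(hdom' i).2.2.1, hj.ψ]
      · have h2 := hj.one i hi
        rcases (hdom' i).2.2.2 with h3 | h3
        · rw [h3, h2]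
        · rw [h2] at h3
          exact absurd h3.1 (by decide)
    rw [ht_sq]
    have h1 := hgr C3 le_rfl P hP s hs j' hb T Wx hWx N fr hN0 Ks X0 (X0 ^ (4 : ℝ)) B Tm hX0 hQ1 hNX
      hsX hB hTm0 hfr hTm (fun s' W hW hR' hl' => hyp s' W hW
        (fun i => (hR' i).mono (by linarith)) (by linarith))
    have e1 : ∀ x, CS (sqc (N x) ((SD h μ r).w j')) (fr x) =
        CS (sqc (N x) (al h (fun i => (j' i).pc))) (fr x) := by
      intro x; rw [SD_w]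
    rw [Finset.sum_congr rfl fun x _ => by rw [e1 x]]
    refine h1.trans ?_
    have h2 : Real.exp (∑ i, (j' i).z) ≤ Real.exp (S0 - α + Rt) := Real.exp_le_exp.2 hl
    have h3 : 0 ≤ Wt j' ^ (2 * μ) := Real.rpow_nonneg (by linarith [one_le_Wt j']) _
    rw [hM2]
    calc C3 * (X0 ^ (4 : ℝ)) ^ ε' * X0 ^ ε' * (Tm * B * Real.exp (∑ i, (j' i).z) *
          Wt j' ^ (2 * μ))
        ≤ C3 * (X0 ^ (4 : ℝ)) ^ ε' * X0 ^ ε' * (Tm * B * Real.exp (S0 - α + Rt) *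
          Wt j' ^ (2 * μ)) := by gcongr
      _ = _ := by ring
  -- the splitting
  have hcR : ∀ x ∈ T, ∀ b ∈ S X₁, cR (N x) (fr x) b ≠ 0 → IsPrim b ∧ IsCoprime (δ x * e x) b := by
    intro x _ b _ hb
    have h1 := cR_ne hb
    refine ⟨h1.1, ?_⟩
    have h2 := h1.2.2
    rw [hN] at h2
    exact h2.of_mul_right_left.of_mul_right_right.symm
  have hspl := MoF106.split_sq' hsp T (fun x => δ x * e x) Wx hWx (S X₁)
    (fun x b => cR (N x) (fr x) b) j α t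
    (fun x hx => ⟨hδe x hx, (hα x hx).1, (hα x hx).2⟩) hcR (M := Real.sqrt M2)
    (Real.sqrt_nonneg _) (fun j => zero_le_one.trans (hΦ.ht1 j)) (by
      intro j' hg hd hl hl2
      have hw2 : ∀ b, (SD h μ r).w j' b ≠ 0 → (nm b : ℝ) ≤ X₁ := by
        intro b hb
        refine (hsupp j' b hb).trans (Real.exp_le_exp.2 ?_)
        rw [hlen] at hl
        have h3 := le_abs_self S0
        have h4 := neg_abs_le α
        linarith
      have e1 : ∀ x ∈ T, Wx x *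
          ‖∑ b ∈ S X₁, (SD h μ r).w j' b * cR (N x) (fr x) b‖ ^ 2 =
            Wx x * ‖CS (sqc (N x) ((SD h μ r).w j')) (fr x)‖ ^ 2 := by
        intro x _
        congr 3
        unfold CM106.CS
        rw [tsum_eq_sum (s := S X₁)]
        · refine Finset.sum_congr rfl fun b hb => ?_
          have hbp := ((mem_S hX₁0).1 hb).2.1
          unfold cR HP842.sqc
          rw [if_pos hbp]; ring
        · intro b hb
          by_contra h0
          have h1 : sqc (N x) ((SD h μ r).w j') b ≠ 0 := left_ne_zero_of_mul h0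
          have h2 : (SD h μ r).w j' b ≠ 0 := right_ne_zero_of_mul h1
          have h3 : Th (N x) b ≠ 0 := left_ne_zero_of_mul h1
          apply hb
          rw [mem_S hX₁0]
          refine ⟨hw2 b h2, hΦ.prim j' b h2, ?_⟩
          unfold HP842.Th at h3
          split_ifs at h3 with h4
          · exact h4.1
          · exact absurd rfl h3
      rw [Finset.sum_congr rfl e1, mul_pow, Real.sq_sqrt hM20]
      exact hchild j' hg hd hl)
  -- conclusion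
  have h1 : ∑ x ∈ T, Wx x * ((nm (e x) : ℝ) ^ s0 *
        ‖CS (gC (sqc q (al h (fun i => (j i).pc))) (δ x) (e x) (π x) (tw s0 t)) (fr x)‖) ^ 2 ≤
      ∑ x ∈ T, Wx x *
        ‖∑ b ∈ S X₁, (SD h μ r).w j (δ x * e x * b) * tw s0 t b * cR (N x) (fr x) b‖ ^ 2 := by
    refine Finset.sum_le_sum fun x hx => ?_
    have h2 := norm_CS_gC (w := (SD h μ r).w j) (fun n => hΦ.prim j n) hX₁0 hw1 q (hδ x hx)
      (he x hx) (π x) s0 t (fr x)
    have hne0 : (0 : ℝ) < nm (e x) := nm_cast_pos (he x hx).ne_zero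
    rw [hwj] at h2 ⊢
    refine mul_le_mul_of_nonneg_left ?_ (hWx x hx)
    refine pow_le_pow_left₀ (by positivity) ?_ 2
    calc (nm (e x) : ℝ) ^ s0 *
          ‖CS (gC (sqc q (al h fun i => (j i).pc)) (δ x) (e x) (π x) (tw s0 t)) (fr x)‖
        ≤ (nm (e x) : ℝ) ^ s0 * ((nm (e x) : ℝ) ^ (-s0) *
          ‖∑ b ∈ S X₁, al h (fun i => (j i).pc) (δ x * e x * b) * tw s0 t b *
            cR (q * (δ x * e x) * π x) (fr x) b‖) := mul_le_mul_of_nonneg_left h2 (by positivity)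
      _ = ((nm (e x) : ℝ) ^ s0 * (nm (e x) : ℝ) ^ (-s0)) *
          ‖∑ b ∈ S X₁, al h (fun i => (j i).pc) (δ x * e x * b) * tw s0 t b *
            cR (q * (δ x * e x) * π x) (fr x) b‖ := by ring
      _ = _ := by
        rw [← Real.rpow_add hne0, add_neg_cancel, Real.rpow_zero, one_mul]
  refine h1.trans (hspl.trans ?_)
  rw [hlen, hht, mul_one]
  have ht0 : (0 : ℝ) ≤ 1 + |t| := by positivity
  have e2 : ((1 + |t|) ^ (r * μ)) ^ 2 = (1 + |t|) ^ (2 * (r * μ)) := by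
    rw [← Real.rpow_natCast, ← Real.rpow_mul ht0]; congr 1; push_cast; ring
  have e4 : Real.exp (ε' * |α|) ^ 2 ≤ X0 ^ (4 * ε') := by
    rw [abs_of_nonneg hα0, ← Real.exp_nat_mul]
    have h7 : Real.exp (((2 : ℕ) : ℝ) * (ε' * α)) = (Real.exp α) ^ (2 * ε') := by
      rw [← Real.exp_mul]; congr 1; push_cast; ring
    rw [h7]
    calc (Real.exp α) ^ (2 * ε') ≤ (X0 ^ (2 : ℝ)) ^ (2 * ε') :=
          Real.rpow_le_rpow (by positivity) hαX (by positivity)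
      _ = _ := by rw [← Real.rpow_mul hX00.le]; congr 1; ring
  have e5 : (X0 ^ (4 : ℝ)) ^ ε' = X0 ^ (4 * ε') := by rw [← Real.rpow_mul hX00.le]
  have e7 : X0 ^ (4 * ε') * X0 ^ (4 * ε') * X0 ^ ε' = X0 ^ ε := by
    rw [← Real.rpow_add hX00, ← Real.rpow_add hX00]; congr 1; rw [hε']; ring
  have e8 : Real.exp (-s0 * (S0 - α)) ^ 2 * Real.exp (S0 - α + Rt) =
      Real.exp ((1 - 2 * s0) * (S0 - α)) * Real.exp Rt := by
    rw [← Real.exp_nat_mul, ← Real.exp_add, ← Real.exp_add]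
    congr 1; push_cast; ring
  calc (C2 * Real.exp (ε' * |α|) * Real.exp (-s0 * (S0 - α)) *
        (1 + |t|) ^ (r * μ) * Real.sqrt M2) ^ 2
      = C2 ^ 2 * Real.exp (ε' * |α|) ^ 2 * Real.exp (-s0 * (S0 - α)) ^ 2 *
        ((1 + |t|) ^ (r * μ)) ^ 2 * (Real.sqrt M2 ^ 2) := by ring
    _ = C2 ^ 2 * Real.exp (ε' * |α|) ^ 2 * Real.exp (-s0 * (S0 - α)) ^ 2 *
        (1 + |t|) ^ (2 * (r * μ)) * M2 := by rw [e2, Real.sq_sqrt hM20]
    _ ≤ C2 ^ 2 * X0 ^ (4 * ε') * Real.exp (-s0 * (S0 - α)) ^ 2 *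
        (1 + |t|) ^ (2 * (r * μ)) * M2 := by gcongr
    _ = (C2 ^ 2 * C3) * (X0 ^ (4 * ε') * X0 ^ (4 * ε') * X0 ^ ε') *
        (1 + |t|) ^ (2 * (r * μ)) * (Tm * B) *
        (Real.exp (-s0 * (S0 - α)) ^ 2 * Real.exp (S0 - α + Rt)) := by rw [hM2, e5]; ring
    _ = (C2 ^ 2 * C3 * Real.exp Rt) * X0 ^ ε * (1 + |t|) ^ (2 * (r * μ)) * (Tm * B) *
        Real.exp ((1 - 2 * s0) * (S0 - α)) := by rw [e7, e8]; ring
    _ ≤ C * X0 ^ ε * (1 + |t|) ^ (2 * (r * μ)) * (Tm * B) *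
        Real.exp ((1 - 2 * s0) * (S0 - α)) := by
        have : C2 ^ 2 * C3 * Real.exp Rt ≤ C := by rw [hC]; linarith
        gcongr

open Classical in
/-- **natural lists**: the moments of the subsequences, everything depending on the index -/
theorem natGXS {h : ℝ → ℝ} {c : ℝ} (hpu : PU h c) {μ : ℝ} (hμ : 0 ≤ μ) {s0 : ℝ}
    (hs1 : s0 ≤ 1 / 2) (r : ℕ) {ε : ℝ} (hε : 0 < ε) :
    ∃ C : ℝ, 1 ≤ C ∧ ∀ (P : DPar), P.OK → ∀ s : Fin r → Pq,
      (∀ i, 0 ≤ (s i).z) → ∀ j : Fin r → IP, Below P 0 j s → (∀ i, (j i).s = 0) →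
      ∀ {β : Type} (T : Finset β) (Wx : β → ℝ), (∀ x ∈ T, 0 ≤ Wx x) →
      ∀ (q : Eis) (δ e π fr : β → Eis), q ≠ 0 → (∀ x ∈ T, IsPrim (δ x)) →
      (∀ x ∈ T, IsPrim (e x)) → (∀ x ∈ T, π x ≠ 0) →
      ∀ (Ks : Finset Eis) (X0 t B Tm A0 : ℝ), 1 ≤ X0 → (nm q : ℝ) ≤ X0 → (∀ x ∈ T, (nm (δ x) : ℝ) ≤ X0) →
      (∀ x ∈ T, (nm (e x) : ℝ) ≤ X0) → (∀ x ∈ T, (nm (π x) : ℝ) ≤ X0) →
      (∀ i, Real.exp (s i).z ≤ X0) → 0 ≤ B → 0 ≤ Tm → 0 < A0 →
      (∀ x ∈ T, A0 ≤ nm (δ x) * nm (e x)) →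
      (∀ x ∈ T, fr x ∈ Ks) →
      (∀ κ ∈ Ks, ∑ x ∈ T.filter (fun x => fr x = κ), Wx x ≤ Tm) →
      (∀ (s' : Fin r → Pq) (W : ℝ), 1 ≤ W → (∀ i, Rl C W (s' i) (s i)) →
        tl Dq (List.ofFn s') ≤ ∑ i, (j i).z - Real.log A0 + C →
        RS P h Ks (List.ofFn s') ≤
          B * Real.exp (tl Dq (List.ofFn s')) * W ^ (2 * μ)) →
      ∑ x ∈ T, Wx x * ((nm (e x) : ℝ) ^ s0 *
        ‖CS (gC (sqc q (al h (fun i => (j i).pc))) (δ x) (e x) (π x) (tw s0 t)) (fr x)‖) ^ 2 ≤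
        C * X0 ^ ε * (1 + |t|) ^ (2 * (r * μ)) * (Tm * B) *
          (Real.exp (∑ i, (j i).z) / A0) ^ (1 - 2 * s0) := by
  obtain ⟨C, hC, H⟩ := natGcS hpu hμ s0 r (ε := ε / 2) (by positivity)
  set K : ℝ := 4 / ε + 1 with hK
  have hK0 : 0 ≤ K := by positivity
  have hK1 : 1 ≤ K := by
    have : 0 ≤ 4 / ε := by positivity
    rw [hK]; linarith
  refine ⟨K * C, one_le_mul_of_one_le_of_one_le hK1 hC, ?_⟩
  have hCK : C ≤ K * C := le_mul_of_one_le_left (by linarith) hK1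
  intro P hP s hs j hj hjs β T Wx hWx q δ e π fr hq hδ he hπ Ks X0 t B Tm A0 hX0 hqX hδX heX hπX hsX
    hB hTm0 hA0 hA hfr hTm hyp
  have hX00 : 0 < X0 := by linarith
  have hlX : 0 ≤ Real.log X0 := Real.log_nonneg hX0
  set S0 : ℝ := ∑ i, (j i).z with hS0
  set α0 : ℝ := max 0 (Real.log A0) with hα0
  have hα00 : 0 ≤ α0 := le_max_left _ _
  have hα0A : Real.log A0 ≤ α0 := le_max_right _ _
  set lg : β → ℝ := fun x => Real.log (nm (δ x * e x)) with hlg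
  have hnde : ∀ x ∈ T, (0 : ℝ) < nm (δ x * e x) := fun x hx =>
    nm_cast_pos ((hδ x hx).mul (he x hx)).ne_zero
  have hlg0 : ∀ x ∈ T, α0 ≤ lg x := by
    intro x hx
    refine max_le (Real.log_nonneg (one_le_nm ((hδ x hx).mul (he x hx)).ne_zero)) ?_
    refine Real.log_le_log hA0 ((hA x hx).trans (le_of_eq ?_))
    rw [nm_mul]; push_cast; rfl
  have hlgX : ∀ x ∈ T, lg x ≤ 2 * Real.log X0 := by
    intro x hx
    have h1 := hδX x hx
    have h2 := heX x hx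
    have h3 : (nm (δ x * e x) : ℝ) ≤ X0 ^ 2 := by
      rw [nm_mul, pow_two]; push_cast
      exact mul_le_mul h1 h2 (Nat.cast_nonneg _) hX00.le
    calc lg x ≤ Real.log (X0 ^ 2) := Real.log_le_log (hnde x hx) h3
      _ = _ := by rw [Real.log_pow]; push_cast; ring
  set Jn : ℕ := ⌊2 * Real.log X0⌋₊ with hJn
  set cl : β → ℕ := fun x => ⌊lg x - α0⌋₊ with hcl
  have hcl' : ∀ x ∈ T, cl x ∈ Finset.range (Jn + 1) := by
    intro x hx
    rw [Finset.mem_range, Nat.lt_succ_iff]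
    exact Nat.floor_le_floor (by linarith [hlgX x hx])
  set E : ℝ := C * X0 ^ (ε / 2) * (1 + |t|) ^ (2 * (r * μ)) * (Tm * B) *
          Real.exp ((1 - 2 * s0) * (S0 - α0)) with hE
  have hE0 : 0 ≤ E := by positivity
  have hcls : ∀ k ∈ Finset.range (Jn + 1), ∑ x ∈ T.filter (fun x => cl x = k), Wx x *
      ((nm (e x) : ℝ) ^ s0 *
        ‖CS (gC (sqc q (al h (fun i => (j i).pc))) (δ x) (e x) (π x) (tw s0 t)) (fr x)‖) ^ 2 ≤ E := by
    intro k _
    rcases (T.filter (fun x => cl x = k)).eq_empty_or_nonempty with hemp | ⟨x0, hx0⟩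
    · rw [hemp, Finset.sum_empty]; exact hE0
    have hx0T := (Finset.mem_filter.1 hx0).1
    have hx0c : cl x0 = k := (Finset.mem_filter.1 hx0).2
    have hk : ∀ x ∈ T.filter (fun x => cl x = k), α0 + k ≤ lg x ∧ lg x ≤ α0 + k + 1 := by
      intro x hx
      have h1 := (Finset.mem_filter.1 hx)
      have h2 : 0 ≤ lg x - α0 := by linarith [hlg0 x h1.1]
      have h3 := Nat.floor_le h2
      have h4 := Nat.lt_floor_add_one (lg x - α0)
      have h5 : (⌊lg x - α0⌋₊ : ℝ) = k := by exact_mod_cast h1.2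
      rw [h5] at h3 h4
      constructor <;> linarith
    have hsub : T.filter (fun x => cl x = k) ⊆ T := Finset.filter_subset _ _
    have h1 := H P hP s hs j hj hjs (T.filter (fun x => cl x = k)) Wx
      (fun x hx => hWx x (hsub hx)) q δ e π fr hq (fun x hx => hδ x (hsub hx))
      (fun x hx => he x (hsub hx)) (fun x hx => hπ x (hsub hx)) Ks X0 t B Tm (α0 + k) hX0 hqX
      (fun x hx => hδX x (hsub hx)) (fun x hx => heX x (hsub hx)) (fun x hx => hπX x (hsub hx))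
      hsX hB hTm0 (by positivity) (by
        have h2 := (hk x0 hx0).1
        have h3 := hlgX x0 hx0T
        have h4 : X0 ^ (2 : ℝ) = Real.exp (2 * Real.log X0) := by
          rw [Real.rpow_def_of_pos hX00, mul_comm]
        rw [h4]
        exact Real.exp_le_exp.2 (by linarith)) hk (fun x hx => hfr x (hsub hx))
      (fun κ hκ => by
        refine le_trans ?_ (hTm κ hκ)
        refine Finset.sum_le_sum_of_subset_of_nonneg ?_ fun x hx _ =>
          hWx x (Finset.mem_filter.1 hx).1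
        exact Finset.filter_subset_filter _ hsub)
      (fun s' W hW hR' hl => hyp s' W hW (fun i => (hR' i).mono hCK) (by
        have : (0 : ℝ) ≤ k := Nat.cast_nonneg k
        linarith))
    refine h1.trans ?_
    rw [hE]
    have h2 : Real.exp ((1 - 2 * s0) * (S0 - (α0 + k))) ≤ Real.exp ((1 - 2 * s0) * (S0 - α0)) := by
      refine Real.exp_le_exp.2 ?_
      have h3 : (0 : ℝ) ≤ k := Nat.cast_nonneg k
      have h4 : 0 ≤ 1 - 2 * s0 := by linarith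
      exact mul_le_mul_of_nonneg_left (by linarith) h4
    gcongr
  have h1 : ∑ x ∈ T, Wx x * ((nm (e x) : ℝ) ^ s0 *
        ‖CS (gC (sqc q (al h (fun i => (j i).pc))) (δ x) (e x) (π x) (tw s0 t)) (fr x)‖) ^ 2 =
      ∑ k ∈ Finset.range (Jn + 1), ∑ x ∈ T.filter (fun x => cl x = k), Wx x *
      ((nm (e x) : ℝ) ^ s0 *
        ‖CS (gC (sqc q (al h (fun i => (j i).pc))) (δ x) (e x) (π x) (tw s0 t)) (fr x)‖) ^ 2 :=
    (Finset.sum_fiberwise_of_maps_to hcl' _).symm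
  rw [h1]
  refine (Finset.sum_le_sum hcls).trans ?_
  rw [Finset.sum_const, Finset.card_range, nsmul_eq_mul]
  have h2 : ((Jn + 1 : ℕ) : ℝ) ≤ K * X0 ^ (ε / 2) := by
    have h3 : (Jn : ℝ) ≤ 2 * Real.log X0 := Nat.floor_le (by linarith)
    have h4 : Real.log X0 ≤ X0 ^ (ε / 2) / (ε / 2) := Real.log_le_rpow_div hX00.le (by positivity)
    have h5 : 1 ≤ X0 ^ (ε / 2) := Real.one_le_rpow hX0 (by positivity)
    push_cast
    calc (Jn : ℝ) + 1 ≤ 2 * (X0 ^ (ε / 2) / (ε / 2)) + X0 ^ (ε / 2) := by linarith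
      _ = _ := by rw [hK]; field_simp; ring
  have h3 : Real.exp ((1 - 2 * s0) * (S0 - α0)) ≤ (Real.exp S0 / A0) ^ (1 - 2 * s0) := by
    have h4 : 0 ≤ 1 - 2 * s0 := by linarith
    have h5 : Real.exp (S0 - α0) ≤ Real.exp S0 / A0 := by
      rw [Real.exp_sub]
      refine div_le_div_of_nonneg_left (Real.exp_pos _).le hA0 ?_
      calc A0 = Real.exp (Real.log A0) := (Real.exp_log hA0).symm
        _ ≤ _ := Real.exp_le_exp.2 hα0A
    calc Real.exp ((1 - 2 * s0) * (S0 - α0)) = (Real.exp (S0 - α0)) ^ (1 - 2 * s0) := by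
          rw [← Real.exp_mul]; congr 1; ring
      _ ≤ _ := Real.rpow_le_rpow (by positivity) h5 h4
  have h6 : X0 ^ (ε / 2) * X0 ^ (ε / 2) = X0 ^ ε := by
    rw [← Real.rpow_add hX00]; congr 1; ring
  calc ((Jn + 1 : ℕ) : ℝ) * E ≤ (K * X0 ^ (ε / 2)) * E := mul_le_mul_of_nonneg_right h2 hE0
    _ = K * C * (X0 ^ (ε / 2) * X0 ^ (ε / 2)) * (1 + |t|) ^ (2 * (r * μ)) * (Tm * B) *
        Real.exp ((1 - 2 * s0) * (S0 - α0)) := by rw [hE]; ring
    _ ≤ K * C * X0 ^ ε * (1 + |t|) ^ (2 * (r * μ)) * (Tm * B) *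
        (Real.exp S0 / A0) ^ (1 - 2 * s0) := by
        rw [h6]
        gcongr

/-! ### flags -/

open Classical in
/-- **flagged families**, everything depending on the index -/
theorem flagGXS {h : ℝ → ℝ} {c : ℝ} (hpu : PU h c) {μ : ℝ} (hμ : 0 ≤ μ) {s0 : ℝ} (hs0 : 0 ≤ s0)
    (hs1 : s0 ≤ 1 / 2) (r : ℕ) {ε : ℝ} (hε : 0 < ε) :
    ∃ C : ℝ, 1 ≤ C ∧ ∀ (P : DPar), P.OK → ∀ s : Fin r → Pq,
      (∀ i, 0 ≤ (s i).z) → ∀ (z D0 : ℝ) (fl : Fin r → Bool), 1 ≤ D0 →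
      ∀ {β : Type} (T : Finset β) (Wx : β → ℝ), (∀ x ∈ T, 0 ≤ Wx x) →
      ∀ (q : Eis) (δ e π fr : β → Eis), q ≠ 0 → (∀ x ∈ T, IsPrim (δ x)) →
      (∀ x ∈ T, IsPrim (e x)) → (∀ x ∈ T, π x ≠ 0) →
      ∀ (Ks : Finset Eis) (X0 t B Tm A0 : ℝ), 1 ≤ X0 → D0 ≤ X0 → (nm q : ℝ) ≤ X0 → (∀ x ∈ T, (nm (δ x) : ℝ) ≤ X0) →
      (∀ x ∈ T, (nm (e x) : ℝ) ≤ X0) → (∀ x ∈ T, (nm (π x) : ℝ) ≤ X0) →
      (∀ i, Real.exp (s i).z ≤ X0) → 0 ≤ B → 0 ≤ Tm → 0 < A0 →
      (∀ x ∈ T, A0 ≤ nm (δ x) * nm (e x)) →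
      (∀ x ∈ T, fr x ∈ Ks) →
      (∀ κ ∈ Ks, ∑ x ∈ T.filter (fun x => fr x = κ), Wx x ≤ Tm) →
      (∀ (s' : Fin r → Pq) (W : ℝ), 1 ≤ W → (∀ i, Rl C W (s' i) (s i)) →
        tl Dq (List.ofFn s') ≤ ∑ i, (s i).z - Real.log A0 + C →
        RS P h Ks (List.ofFn s') ≤
          B * Real.exp (tl Dq (List.ofFn s')) * W ^ (2 * μ)) →
      ∑ x ∈ T, Wx x * ((nm (e x) : ℝ) ^ s0 *
        ‖CS (gC (sqc q (alf z D0 h (fun i => (s i).pc P) fl)) (δ x) (e x) (π x) (tw s0 t))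
          (fr x)‖) ^ 2 ≤
        ((100 * D0) ^ r) ^ 2 * ((D0 ^ r) ^ (2 * s0) * (C * X0 ^ ε * (1 + |t|) ^ (2 * (r * μ)) *
          (Tm * B) * (Real.exp (∑ i, (s i).z) / A0) ^ (1 - 2 * s0))) := by
  obtain ⟨R, hR0, hR⟩ := exists_R (cs_cx hpu.cs)
  have hr1 : (0 : ℝ) < (r : ℝ) + 1 := by positivity
  obtain ⟨C, hC, H⟩ := natGXS hpu hμ hs1 r (ε := ε / (r + 1)) (by positivity)
  refine ⟨C, hC, ?_⟩
  intro P hP s hs z D0 fl hD0 β T Wx hWx q δ e π fr hq hδ he hπ Ks X0 t B Tm A0 hX0 hDX hqX hδX heX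
    hπX hsX hB hTm0 hA0 hA hfr hTm hyp
  have hX00 : 0 < X0 := by linarith
  have hD00 : 0 < D0 := by linarith
  set S0 : ℝ := ∑ i, (s i).z with hS0
  set M0 : ℝ := C * X0 ^ ε * (1 + |t|) ^ (2 * (r * μ)) *
          (Tm * B) * (Real.exp S0 / A0) ^ (1 - 2 * s0) with hM0'
  have hM00 : 0 ≤ M0 := by positivity
  have hsq : ∀ x ∈ T, ∀ a : ℝ, Wx x * ((nm (e x) : ℝ) ^ s0 * a) ^ 2 =
      (Wx x * (nm (e x) : ℝ) ^ (2 * s0)) * a ^ 2 := by
    intro x hx a
    have : (0 : ℝ) < nm (e x) := nm_cast_pos (he x hx).ne_zero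
    rw [mul_pow, ← Real.rpow_natCast ((nm (e x) : ℝ) ^ s0), ← Real.rpow_mul this.le]
    rw [show s0 * ((2 : ℕ) : ℝ) = 2 * s0 by push_cast; ring]
    ring
  rw [Finset.sum_congr rfl fun x hx => hsq x hx _]
  have key := gC_ntX (ι := Fin r) (h := h) hR (s := fun i => (s i).pc P) (fun i => (s i).ok hP)
    (z := z) hD0 fl q T (W := fun x => Wx x * (nm (e x) : ℝ) ^ (2 * s0))
    (fun x hx => mul_nonneg (hWx x hx) (by positivity)) δ e π fr hδ he (MulCh_tw hs0 t)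
    (M := (D0 ^ r) ^ (2 * s0) * M0) (by positivity) ?_
  · rwa [Fintype.card_fin] at key
  intro g hg
  have hgp : ∀ i, IsPrim (g i) := fun i => ((mem_Tn hD00.le).1 hg i).1
  have hG : IsPrim (∏ i, g i) := prim_prod hgp
  set G : Eis := ∏ i, g i with hGd
  have hGn : (nm G : ℝ) ≤ D0 ^ r := by
    have := nm_prod_le hD00.le hg
    rwa [Fintype.card_fin] at this
  have hG1 : (1 : ℝ) ≤ nm G := one_le_nm hG.ne_zero
  have hG0 : (0 : ℝ) < nm G := by linarith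
  set X0' : ℝ := X0 ^ ((r : ℝ) + 1) with hX0'
  have hXX : X0 ≤ X0' := by
    rw [hX0']
    conv_lhs => rw [← Real.rpow_one X0]
    refine Real.rpow_le_rpow_of_exponent_le hX0 ?_
    have : (0 : ℝ) ≤ r := Nat.cast_nonneg r
    linarith
  set δ' : β → Eis := fun x => cB G (δ x) with hδ'
  set e' : β → Eis := fun x => cB (cg G (δ x)) (e x) with he'
  have h1 := H P hP s hs (jx hP s g) (jx_below hP s hgp) (fun _ => rfl) T Wx hWx (q * G) δ' e' π fr
    (mul_ne_zero hq hG.ne_zero) (fun x hx => cB_prim (hδ x hx)) (fun x hx => cB_prim (he x hx)) hπ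
    Ks X0' t B Tm (A0 / nm G) (hX0.trans hXX) (by
      rw [nm_mul, hX0', Real.rpow_add_one hX00.ne', Real.rpow_natCast]
      push_cast
      calc (nm q : ℝ) * nm G ≤ X0 * D0 ^ r := by gcongr
        _ ≤ X0 * X0 ^ r := by gcongr
        _ = _ := by ring) (fun x hx => (nm_cB_le' (hδ x hx)).trans ((hδX x hx).trans hXX))
    (fun x hx => (nm_cB_le' (he x hx)).trans ((heX x hx).trans hXX))
    (fun x hx => (hπX x hx).trans hXX) (fun i => (hsX i).trans hXX) hB hTm0 (by positivity)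
    (fun x hx => by
      rw [div_le_iff₀ hG0]
      have h2 := nm_cB_le hG (hδ x hx) (he x hx)
      calc A0 ≤ nm (δ x) * nm (e x) := hA x hx
        _ ≤ nm G * (nm (cB G (δ x)) * nm (cB (cg G (δ x)) (e x))) := h2
        _ = _ := by ring) hfr hTm ?_
  · have e2 : X0' ^ (ε / (r + 1)) = X0 ^ ε := by
      rw [hX0', ← Real.rpow_mul hX00.le]
      congr 1
      field_simp
    rw [e2, sum_jx hP s hgp, ← hGd] at h1
    have e3 : Real.exp S0 / nm G / (A0 / nm G) = Real.exp S0 / A0 := by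
      field_simp
    rw [← hS0, e3] at h1
    have e1 : (fun i => (jx hP s g i).pc) = shS (fun i => (s i).pc P) g := jx_pc hP s hgp
    rw [e1] at h1
    calc ∑ x ∈ T, Wx x * (nm (e x) : ℝ) ^ (2 * s0) *
          ‖CS (gC (sqc (q * G) (al h (shS (fun i => (s i).pc P) g))) (cB G (δ x))
            (cB (cg G (δ x)) (e x)) (π x) (tw s0 t)) (fr x)‖ ^ 2
        ≤ ∑ x ∈ T, (D0 ^ r) ^ (2 * s0) * (Wx x * ((nm (e' x) : ℝ) ^ s0 *
          ‖CS (gC (sqc (q * G) (al h (shS (fun i => (s i).pc P) g))) (δ' x)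
            (e' x) (π x) (tw s0 t)) (fr x)‖) ^ 2) := by
          refine Finset.sum_le_sum fun x hx => ?_
          have p1 := cg_prim hG (hδ x hx)
          have q1 := cB_prim (g := cg G (δ x)) (he x hx)
          have hne' : (0 : ℝ) < nm (e' x) := nm_cast_pos q1.ne_zero
          have hne : (0 : ℝ) < nm (e x) := nm_cast_pos (he x hx).ne_zero
          have h3 : (nm (e x) : ℝ) ≤ D0 ^ r * nm (e' x) := by
            have e5 : (nm (e x) : ℝ) = nm (gp (cg G (δ x)) (e x)) * nm (cB (cg G (δ x)) (e x)) := by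
              have := gp_cB (g := cg G (δ x)) (he x hx)
              conv_lhs => rw [← this]
              rw [nm_mul]; push_cast; rfl
            have e6 : (nm (gp (cg G (δ x)) (e x)) : ℝ) ≤ nm G := by
              have h7 : gp (cg G (δ x)) (e x) ∣ G := by
                have h8 : gp (cg G (δ x)) (e x) ∣ cg G (δ x) := by
                  conv_rhs => rw [← gp_cg (g := cg G (δ x)) (he x hx)]
                  exact dvd_mul_right _ _
                exact h8.trans (cg_dvd (hδ x hx))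
              exact_mod_cast Div277.nm_le_of_dvd hG.ne_zero h7
            rw [e5]
            exact mul_le_mul_of_nonneg_right (e6.trans hGn) (Nat.cast_nonneg _)
          have h4 : (nm (e x) : ℝ) ^ (2 * s0) ≤ (D0 ^ r) ^ (2 * s0) * ((nm (e' x) : ℝ) ^ s0) ^ 2 := by
            have h5 : ((nm (e' x) : ℝ) ^ s0) ^ 2 = (nm (e' x) : ℝ) ^ (2 * s0) := by
              rw [← Real.rpow_natCast, ← Real.rpow_mul hne'.le]; congr 1; push_cast; ring
            rw [h5, ← Real.mul_rpow (by positivity) hne'.le]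
            exact Real.rpow_le_rpow hne.le h3 (by linarith)
          have hW0 := hWx x hx
          calc Wx x * (nm (e x) : ℝ) ^ (2 * s0) * ‖CS (gC (sqc (q * G)
                (al h (shS (fun i => (s i).pc P) g))) (cB G (δ x))
                (cB (cg G (δ x)) (e x)) (π x) (tw s0 t)) (fr x)‖ ^ 2
              ≤ Wx x * ((D0 ^ r) ^ (2 * s0) * ((nm (e' x) : ℝ) ^ s0) ^ 2) * ‖CS (gC (sqc (q * G)
                (al h (shS (fun i => (s i).pc P) g))) (cB G (δ x))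
                (cB (cg G (δ x)) (e x)) (π x) (tw s0 t)) (fr x)‖ ^ 2 := by gcongr
            _ = _ := by rw [hδ', he']; ring
      _ = (D0 ^ r) ^ (2 * s0) * ∑ x ∈ T, (Wx x * ((nm (e' x) : ℝ) ^ s0 *
          ‖CS (gC (sqc (q * G) (al h (shS (fun i => (s i).pc P) g))) (δ' x)
            (e' x) (π x) (tw s0 t)) (fr x)‖) ^ 2) := by rw [Finset.mul_sum]
      _ ≤ (D0 ^ r) ^ (2 * s0) * M0 := by
          refine mul_le_mul_of_nonneg_left ?_ (by positivity)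
          rw [hM0']
          exact h1
  · intro s' W hW hR' hl
    refine hyp s' W hW hR' (hl.trans ?_)
    have h7 : ∑ i, (jx hP s g i).z = S0 - Real.log (nm G) := by
      have h8 := sum_jx hP s hgp
      rw [← hGd] at h8
      have h9 := congrArg Real.log h8
      rwa [Real.log_exp, Real.log_div (Real.exp_pos _).ne' hG0.ne', Real.log_exp] at h9
    rw [h7, Real.log_div hA0.ne' hG0.ne']
    linarith

open Classical in
/-- **flagged lists**, everything depending on the index -/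
theorem listRXS {h : ℝ → ℝ} {c : ℝ} (hpu : PU h c) {μ : ℝ} (hμ : 0 ≤ μ) {s0 : ℝ} (hs0 : 0 ≤ s0)
    (hs1 : s0 ≤ 1 / 2) (n : ℕ) {ε : ℝ} (hε : 0 < ε) :
    ∃ C : ℝ, 1 ≤ C ∧ ∀ (P : DPar), P.OK → ∀ ps : List Pf, ps.length ≤ n →
      (∀ p ∈ ps, 0 ≤ p.1.z) → ∀ (z D0 : ℝ), 1 ≤ D0 →
      ∀ {β : Type} (T : Finset β) (Wx : β → ℝ), (∀ x ∈ T, 0 ≤ Wx x) →
      ∀ (q : Eis) (δ e π fr : β → Eis), q ≠ 0 → (∀ x ∈ T, IsPrim (δ x)) →
      (∀ x ∈ T, IsPrim (e x)) → (∀ x ∈ T, π x ≠ 0) →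
      ∀ (Ks : Finset Eis) (X0 t B Tm A0 : ℝ), 1 ≤ X0 → D0 ≤ X0 → (nm q : ℝ) ≤ X0 → (∀ x ∈ T, (nm (δ x) : ℝ) ≤ X0) →
      (∀ x ∈ T, (nm (e x) : ℝ) ≤ X0) → (∀ x ∈ T, (nm (π x) : ℝ) ≤ X0) →
      (∀ p ∈ ps, Real.exp p.1.z ≤ X0) → 0 ≤ B → 0 ≤ Tm → 0 < A0 →
      (∀ x ∈ T, A0 ≤ nm (δ x) * nm (e x)) →
      (∀ x ∈ T, fr x ∈ Ks) →
      (∀ κ ∈ Ks, ∑ x ∈ T.filter (fun x => fr x = κ), Wx x ≤ Tm) →
      (∀ (ps' : List Pq) (W : ℝ), 1 ≤ W → List.Forall₂ (Rl C W) ps' (ps.map Prod.fst) →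
        tl Dq ps' ≤ LF ps - Real.log A0 + C →
        RS P h Ks ps' ≤ B * Real.exp (tl Dq ps') * W ^ (2 * μ)) →
      ∑ x ∈ T, Wx x * ((nm (e x) : ℝ) ^ s0 *
        ‖CS (gC (sqc q (alF z D0 P h ps)) (δ x) (e x) (π x) (tw s0 t)) (fr x)‖) ^ 2 ≤
        C * (D0 ^ n) ^ (2 + 2 * s0) * X0 ^ ε * (1 + |t|) ^ (2 * (n * μ)) *
          (Tm * B) * (Real.exp (LF ps) / A0) ^ (1 - 2 * s0) := by
  choose C hC H using fun r => flagGXS hpu hμ hs0 hs1 r hε
  have hle : ∀ r ≤ n, C r ≤ ∑ r ∈ Finset.range (n + 1), C r := fun r hr =>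
    Finset.single_le_sum (f := C) (fun i _ => by linarith [hC i]) (Finset.mem_range.2 (by omega))
  have h100 : (1 : ℝ) ≤ (100 ^ n) ^ 2 := one_le_pow₀ (one_le_pow₀ (by norm_num))
  set C0 : ℝ := ∑ r ∈ Finset.range (n + 1), C r with hC0
  have hC01 : 1 ≤ C0 := (hC 0).trans (hle 0 (Nat.zero_le _))
  refine ⟨(100 ^ n) ^ 2 * C0, one_le_mul_of_one_le_of_one_le h100 hC01, ?_⟩
  intro P hP ps hlen hz z D0 hD0 β T Wx hWx q δ e π fr hq hδ he hπ Ks X0 t B Tm A0 hX0 hDX hqX hδX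
    heX hπX hsX hB hTm0 hA0 hA hfr hTm hyp
  have hD00 : 0 < D0 := by linarith
  set r := ps.length with hr
  have hCr : C r ≤ (100 ^ n) ^ 2 * C0 := (hle r hlen).trans (le_mul_of_one_le_left (by linarith) h100)
  have key := H r P hP (fun i => (ps.get i).1) (fun i => hz _ (List.get_mem _ _)) z D0
    (fun i => (ps.get i).2) hD0 T Wx hWx q δ e π fr hq hδ he hπ Ks X0 t B Tm A0 hX0 hDX hqX hδX heX
    hπX (fun i => hsX _ (List.get_mem _ _)) hB hTm0 hA0 hA hfr hTm ?_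
  · rw [← alF_get, ← LF_get] at key
    refine key.trans ?_
    have hX00 : 0 < X0 := by linarith
    have ht1 : (1 : ℝ) ≤ 1 + |t| := by linarith [abs_nonneg t]
    have h1 : ((100 * D0) ^ r) ^ 2 ≤ (100 ^ n) ^ 2 * (D0 ^ n) ^ (2 : ℝ) := by
      rw [Real.rpow_two, ← mul_pow, ← mul_pow]
      refine pow_le_pow_left₀ (by positivity) ?_ 2
      exact pow_le_pow_right₀ (by linarith) hlen
    have h2 : (D0 ^ r) ^ (2 * s0) ≤ (D0 ^ n) ^ (2 * s0) :=
      Real.rpow_le_rpow (by positivity) (pow_le_pow_right₀ hD0 hlen) (by linarith)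
    have h3 : (1 + |t|) ^ (2 * ((r : ℝ) * μ)) ≤ (1 + |t|) ^ (2 * ((n : ℝ) * μ)) := by
      refine Real.rpow_le_rpow_of_exponent_le ht1 ?_
      have : (r : ℝ) ≤ n := by exact_mod_cast hlen
      have := mul_le_mul_of_nonneg_right this hμ
      linarith
    have h4 : C r ≤ C0 := hle r hlen
    set V : ℝ := (Real.exp (LF ps) / A0) ^ (1 - 2 * s0) with hV
    have hV0 : 0 ≤ V := by positivity
    have hCr0 : 0 ≤ C r := by linarith [hC r]
    calc ((100 * D0) ^ r) ^ 2 * ((D0 ^ r) ^ (2 * s0) * (C r * X0 ^ ε *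
          (1 + |t|) ^ (2 * (r * μ)) * (Tm * B) * V))
        ≤ ((100 ^ n) ^ 2 * (D0 ^ n) ^ (2 : ℝ)) * ((D0 ^ n) ^ (2 * s0) * (C0 * X0 ^ ε *
          (1 + |t|) ^ (2 * (n * μ)) * (Tm * B) * V)) := by gcongr
      _ = (100 ^ n) ^ 2 * C0 * ((D0 ^ n) ^ (2 : ℝ) * (D0 ^ n) ^ (2 * s0)) * X0 ^ ε *
          (1 + |t|) ^ (2 * (n * μ)) * (Tm * B) * V := by ring
      _ = _ := by rw [← Real.rpow_add (by positivity)]
  · intro s' W hW hR' hl
    rw [← LF_get] at hl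
    refine hyp (List.ofFn s') W hW ?_ (by linarith)
    rw [List.forall₂_iff_get]
    refine ⟨by simp [hr], fun i hi hi' => ?_⟩
    have hi2 : i < r := by simpa using hi
    have := (hR' ⟨i, hi2⟩).mono hCr
    simpa using this

end Crest.Agent.R017.R3Q791
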