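import Crest.Agent.R017.R3a_571

/-!
# Row 17, E3/E2 for RG and P1: c-side moments of subsequences (helper571), part 2

* `flagG`  : flagged families (opening of the flags by helper320)
* `listR`  : flagged lists
* `KS_pt`  : windows, polynomial heights
* `winR`   : twisted windows `bt φ al p * pw t₀` of flagged lists
-/

set_option autoImplicit false
set_option maxHeartbeats 400000

noncomputable section

open Complex
open scoped ComplexConjugate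

namespace Crest.Agent.R017.R3571

open Crest.Agent.R012 Crest.Agent.R012.Eis Crest.Agent.R012.LS2 Crest.Agent.R012.Gauss880
open Crest.Agent.R012.PSer47 (IsChar)
open Crest.Agent.R012.Div277 Crest.Agent.R012.Weight600
open Crest.Agent.R017.CM106 Crest.Agent.R017.FE47
open Crest.Agent.R017.B770
open Crest.Agent.R017.Prov71
open Crest.Agent.R017.HP842 (UT Pc pc KS sqc Th alL al ssub pc_support sq_nat_pc)
open Crest.Agent.R017.TPOk571 (IP FP SD SD_w SD_len SD_ht sd_ok relU)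
open Crest.Agent.R017.TP320 (Fam tw)
open Crest.Agent.R017.XHB411 (tl)
open Crest.Agent.R017.XRG106 (Rl RFp ip chd chd_pc tl_ofFn CS_al RFp_ofFn one_add_mul exists_rep
  rep CS_eq_zero)
open Crest.Agent.R017.NtC320 (gC gC_ne gC_fin MulCh Tn mem_Tn nm_prod_le cg cB cg_prim cB_prim
  gp_cg gp_cB cB_dvd cg_dvd gC_nt)
open Crest.Agent.R017.Rough381 (sh shS)
open Crest.Agent.R017.Leg381 (alf)
open Crest.Agent.R017.StA828 (gp)

lemma MulCh_tw {s0 : ℝ} (hs0 : 0 ≤ s0) (t : ℝ) : MulCh (tw s0 t) where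
  mul := fun a b _ _ => TP320.tw_mul s0 t a b
  le := fun a ha => by
    rw [TP320.norm_tw s0 t ha]
    exact Real.rpow_le_one_of_one_le_of_nonpos (one_le_nm ha.ne_zero) (by linarith)

/-- the index of a shortened piece -/
def jx {P : DPar} (hP : P.OK) {r : ℕ} (s : Fin r → Pq) (x : Fin r → Eis) (i : Fin r) : IP :=
  ⟨(s i).u.sub (x i), ⟨((s i).pc P).ψ, ((s i).ok hP).ch⟩, (s i).z - Real.log (nm (x i)), 0, (s i).t⟩

lemma jx_pc {P : DPar} (hP : P.OK) {r : ℕ} (s : Fin r → Pq) {x : Fin r → Eis}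
    (hx : ∀ i, IsPrim (x i)) :
    (fun i => (jx hP s x i).pc) = shS (fun i => (s i).pc P) x := by
  funext i
  have h0 := nm_cast_pos (hx i).ne_zero
  show (⟨(s i).u.sub (x i), ((s i).pc P).ψ, Real.exp ((s i).z - Real.log (nm (x i))),
    (s i).t + 0⟩ : Pc) = ⟨(s i).u.sub (x i), ((s i).pc P).ψ, Real.exp (s i).z / nm (x i), (s i).t⟩
  rw [Real.exp_sub, Real.exp_log h0, add_zero]

lemma jx_below {P : DPar} (hP : P.OK) {r : ℕ} (s : Fin r → Pq) {x : Fin r → Eis}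
    (hx : ∀ i, IsPrim (x i)) : Below P 0 (jx hP s x) s := by
  refine ⟨fun i => ?_, fun i => rfl, fun i => rfl, fun i hi => ?_⟩
  · have h1 := Real.log_nonneg (one_le_nm (hx i).ne_zero)
    show (s i).z - Real.log (nm (x i)) ≤ _
    linarith
  · show (s i).u.sub (x i) = .one
    rw [hi]
    unfold HP842.UT.sub
    rw [if_neg]
    rintro ⟨h3, _⟩
    exact absurd h3 (by decide)

lemma sum_jx {P : DPar} (hP : P.OK) {r : ℕ} (s : Fin r → Pq) {x : Fin r → Eis}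
    (hx : ∀ i, IsPrim (x i)) :
    Real.exp (∑ i, (jx hP s x i).z) = Real.exp (∑ i, (s i).z) / nm (∏ i, x i) := by
  have e1 : ∑ i, (jx hP s x i).z = ∑ i, (s i).z - ∑ i, Real.log (nm (x i)) := by
    rw [← Finset.sum_sub_distrib]
    rfl
  rw [e1, Real.exp_sub, Real.exp_sum (Finset.univ) (fun i => Real.log (nm (x i)))]
  congr 1
  rw [HP842.nm_prod_cast]
  exact Finset.prod_congr rfl fun i _ => Real.exp_log (nm_cast_pos (hx i).ne_zero)

/-- the norms of the parameters after opening -/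
lemma nm_cB_le {g δ e : Eis} (hg : IsPrim g) (hδ : IsPrim δ) (he : IsPrim e) :
    (nm δ : ℝ) * nm e ≤ nm g * (nm (cB g δ) * nm (cB (cg g δ) e)) := by
  have p1 := cg_prim hg hδ
  have e1 : (nm δ : ℝ) = nm (gp g δ) * nm (cB g δ) := by
    have := gp_cB (g := g) hδ
    conv_lhs => rw [← this]
    rw [nm_mul]; push_cast; rfl
  have e2 : (nm e : ℝ) = nm (gp (cg g δ) e) * nm (cB (cg g δ) e) := by
    have := gp_cB (g := cg g δ) he
    conv_lhs => rw [← this]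
    rw [nm_mul]; push_cast; rfl
  have e3 : (nm g : ℝ) = nm (gp g δ) * nm (cg g δ) := by
    have := gp_cg (g := g) hδ
    conv_lhs => rw [← this]
    rw [nm_mul]; push_cast; rfl
  have e4 : (nm (cg g δ) : ℝ) = nm (gp (cg g δ) e) * nm (cg (cg g δ) e) := by
    have := gp_cg (g := cg g δ) he
    conv_lhs => rw [← this]
    rw [nm_mul]; push_cast; rfl
  have e5 : (1 : ℝ) ≤ nm (cg (cg g δ) e) := one_le_nm (cg_prim p1 he).ne_zero
  rw [e1, e2, e3, e4]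
  have h0 : (0 : ℝ) ≤ nm (gp g δ) * nm (cB g δ) * (nm (gp (cg g δ) e) * nm (cB (cg g δ) e)) := by
    positivity
  calc (nm (gp g δ) : ℝ) * nm (cB g δ) * (nm (gp (cg g δ) e) * nm (cB (cg g δ) e))
      ≤ (nm (gp g δ) : ℝ) * nm (cB g δ) * (nm (gp (cg g δ) e) * nm (cB (cg g δ) e)) *
        nm (cg (cg g δ) e) := le_mul_of_one_le_right h0 e5
    _ = _ := by ring

lemma nm_cB_le' {g δ : Eis} (hδ : IsPrim δ) : (nm (cB g δ) : ℝ) ≤ nm δ := by
  exact_mod_cast Div277.nm_le_of_dvd hδ.ne_zero (cB_dvd hδ)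

open Classical in
/-- **flagged families** -/
theorem flagG {h : ℝ → ℝ} {c : ℝ} (hpu : PU h c) {μ : ℝ} (hμ : 0 ≤ μ) {s0 : ℝ} (hs0 : 0 ≤ s0)
    (r : ℕ) {ε : ℝ} (hε : 0 < ε) :
    ∃ C : ℝ, 1 ≤ C ∧ ∀ (P : DPar), P.OK → ∀ s : Fin r → Pq,
      (∀ i, 0 ≤ (s i).z) → ∀ (z D0 : ℝ) (fl : Fin r → Bool), 1 ≤ D0 →
      ∀ q δ e π f : Eis, q ≠ 0 → IsPrim δ → IsPrim e → π ≠ 0 → f ≠ 0 →
      ∀ X0 Λ t B : ℝ, 1 ≤ X0 → D0 ≤ X0 → (nm q : ℝ) ≤ X0 → (nm δ : ℝ) ≤ X0 → (nm e : ℝ) ≤ X0 →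
      (nm π : ℝ) ≤ X0 → (∀ i, Real.exp (s i).z ≤ X0) → 0 < Λ → 0 ≤ B →
      (∀ (s' : Fin r → Pq) (W : ℝ), 1 ≤ W → (∀ i, Rl C W (s' i) (s i)) →
        tl Dq (List.ofFn s') ≤ ∑ i, (s i).z - Real.log (nm δ * nm e) + C →
        RFp P h (Real.log (Λ * nm f)) (List.ofFn s') ≤
          B * Real.exp (tl Dq (List.ofFn s')) * W ^ (2 * μ)) →
      ∑ k ∈ bl Λ, ‖CS (gC (sqc q (alf z D0 h (fun i => (s i).pc P) fl)) δ e π (tw s0 t))
          (k * f)‖ ^ 2 ≤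
        ((100 * D0) ^ r) ^ 2 * (C * X0 ^ ε * (1 + |t|) ^ (2 * (r * μ)) * B *
          ((D0 ^ r) ^ (2 * s0) * (Real.exp (∑ i, (s i).z) / nm δ) ^ (-(2 * s0)) *
            (Real.exp (∑ i, (s i).z) / (nm δ * nm e)))) := by
  obtain ⟨R, hR0, hR⟩ := exists_R (cs_cx hpu.cs)
  have hr1 : (0 : ℝ) < (r : ℝ) + 1 := by positivity
  obtain ⟨C, hC, H⟩ := natG hpu hμ s0 r (ε := ε / (r + 1)) (by positivity)
  refine ⟨C, hC, ?_⟩
  intro P hP s hs z D0 fl hD0 q δ e π f hq hδ he hπ hf X0 Λ t B hX0 hDX hqX hδX heX hπX hsX hΛ hB hyp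
  have hX00 : 0 < X0 := by linarith
  have hD00 : 0 < D0 := by linarith
  have hd0 := nm_cast_pos hδ.ne_zero
  have he0 := nm_cast_pos he.ne_zero
  set S0 : ℝ := ∑ i, (s i).z with hS0
  set M : ℝ := C * X0 ^ ε * (1 + |t|) ^ (2 * (r * μ)) * B *
          ((D0 ^ r) ^ (2 * s0) * (Real.exp S0 / nm δ) ^ (-(2 * s0)) *
            (Real.exp S0 / (nm δ * nm e))) with hM
  have hM0 : 0 ≤ M := by positivity
  have key := gC_nt (ι := Fin r) (h := h) hR (s := fun i => (s i).pc P) (fun i => (s i).ok hP)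
    (z := z) hD0 fl q hδ he π (MulCh_tw hs0 t) (bl Λ) (W := fun _ => 1)
    (fun _ _ => zero_le_one) (fun k => k * f) hM0 ?_
  · simp only [one_mul] at key
    rwa [Fintype.card_fin] at key
  intro x hx
  have hxp : ∀ i, IsPrim (x i) := fun i => ((mem_Tn hD00.le).1 hx i).1
  have hg : IsPrim (∏ i, x i) := NtC320.prim_prod hxp
  set g : Eis := ∏ i, x i with hgd
  have hgn : (nm g : ℝ) ≤ D0 ^ r := by
    have := nm_prod_le hD00.le hx
    rwa [Fintype.card_fin] at this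
  have hg1 : (1 : ℝ) ≤ nm g := one_le_nm hg.ne_zero
  have hg0 : (0 : ℝ) < nm g := by linarith
  set X0' : ℝ := X0 ^ ((r : ℝ) + 1) with hX0'
  have hXX : X0 ≤ X0' := by
    rw [hX0']
    conv_lhs => rw [← Real.rpow_one X0]
    refine Real.rpow_le_rpow_of_exponent_le hX0 ?_
    have : (0 : ℝ) ≤ r := Nat.cast_nonneg r
    linarith
  have h1 := H P hP s hs (jx hP s x) (jx_below hP s hxp) (fun _ => rfl) (q * g) (cB g δ)
    (cB (cg g δ) e) π f (mul_ne_zero hq hg.ne_zero) (cB_prim hδ) (cB_prim he) hπ hf X0' Λ t B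
    (hX0.trans hXX) (by
      rw [nm_mul, hX0', Real.rpow_add_one hX00.ne', Real.rpow_natCast]
      push_cast
      calc (nm q : ℝ) * nm g ≤ X0 * D0 ^ r := by gcongr
        _ ≤ X0 * X0 ^ r := by gcongr
        _ = _ := by ring) ((nm_cB_le' hδ).trans (hδX.trans hXX))
    ((nm_cB_le' he).trans (heX.trans hXX)) (hπX.trans hXX) (fun i => (hsX i).trans hXX) hΛ hB ?_
  · simp only [one_mul]
    have e1 : (fun i => (jx hP s x i).pc) = shS (fun i => (s i).pc P) x := jx_pc hP s hxp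
    rw [e1] at h1
    refine h1.trans ?_
    rw [sum_jx hP s hxp, ← hgd]
    have e2 : X0' ^ (ε / (r + 1)) = X0 ^ ε := by
      rw [hX0', ← Real.rpow_mul hX00.le]
      congr 1
      field_simp
    rw [e2]
    have hcB0 := nm_cast_pos (cB_prim (g := g) hδ).ne_zero
    have hcC0 := nm_cast_pos (cB_prim (g := cg g δ) he).ne_zero
    have e3 : Real.exp S0 / nm g / (nm (cB g δ) * nm (cB (cg g δ) e)) ≤
        Real.exp S0 / (nm δ * nm e) := by
      rw [div_div]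
      have h2 := nm_cB_le hg hδ he
      have h3 := (Real.exp_pos S0).le
      exact div_le_div_of_nonneg_left h3 (by positivity) h2
    have e4 : (Real.exp S0 / nm g / nm (cB g δ)) ^ (-(2 * s0)) ≤
        (D0 ^ r) ^ (2 * s0) * (Real.exp S0 / nm δ) ^ (-(2 * s0)) := by
      have h4 : Real.exp S0 / nm δ / D0 ^ r ≤ Real.exp S0 / nm g / nm (cB g δ) := by
        rw [div_div, div_div]
        have h3 := (Real.exp_pos S0).le
        refine div_le_div_of_nonneg_left h3 (by positivity) ?_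
        rw [mul_comm]
        have := nm_cB_le' (g := g) hδ
        gcongr
      have h5 : 0 < Real.exp S0 / nm δ / D0 ^ r := by positivity
      calc (Real.exp S0 / nm g / nm (cB g δ)) ^ (-(2 * s0)) ≤
            (Real.exp S0 / nm δ / D0 ^ r) ^ (-(2 * s0)) :=
              Real.rpow_le_rpow_of_nonpos h5 h4 (by linarith)
        _ = _ := by
            rw [Real.div_rpow (by positivity) (by positivity), Real.rpow_neg (by positivity)
              (2 * s0), Real.rpow_neg (by positivity : (0 : ℝ) ≤ D0 ^ r)]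
            rw [div_eq_mul_inv, inv_inv]
            ring
    rw [hM]
    have h6 : 0 ≤ C * X0 ^ ε * (1 + |t|) ^ (2 * (r * μ)) * B := by positivity
    refine mul_le_mul_of_nonneg_left ?_ h6
    exact mul_le_mul e4 e3 (by positivity) (by positivity)
  · intro s' W hW hR' hl
    refine hyp s' W hW hR' (hl.trans ?_)
    have h7 : ∑ i, (jx hP s x i).z = S0 - Real.log (nm g) := by
      have h8 := sum_jx hP s hxp
      rw [← hgd] at h8
      have h9 := congrArg Real.log h8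
      rwa [Real.log_exp, Real.log_div (Real.exp_pos _).ne' hg0.ne', Real.log_exp] at h9
    rw [h7]
    have hcB0 := nm_cast_pos (cB_prim (g := g) hδ).ne_zero
    have hcC0 := nm_cast_pos (cB_prim (g := cg g δ) he).ne_zero
    have h8 : Real.log (nm δ * nm e) ≤
        Real.log (nm g) + Real.log (nm (cB g δ) * nm (cB (cg g δ) e)) := by
      rw [← Real.log_mul hg0.ne' (by positivity)]
      exact Real.log_le_log (by positivity) (nm_cB_le hg hδ he)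
    linarith

/-! ### flagged lists -/

open Crest.Agent.R017.Leg381 (Pf alF LF alF_get LF_get)

/-- **flagged lists** -/
theorem listR {h : ℝ → ℝ} {c : ℝ} (hpu : PU h c) {μ : ℝ} (hμ : 0 ≤ μ) {s0 : ℝ} (hs0 : 0 ≤ s0)
    (n : ℕ) {ε : ℝ} (hε : 0 < ε) :
    ∃ C : ℝ, 1 ≤ C ∧ ∀ (P : DPar), P.OK → ∀ ps : List Pf, ps.length ≤ n →
      (∀ p ∈ ps, 0 ≤ p.1.z) → ∀ (z D0 : ℝ), 1 ≤ D0 →
      ∀ q δ e π f : Eis, q ≠ 0 → IsPrim δ → IsPrim e → π ≠ 0 → f ≠ 0 →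
      ∀ X0 Λ t B : ℝ, 1 ≤ X0 → D0 ≤ X0 → (nm q : ℝ) ≤ X0 → (nm δ : ℝ) ≤ X0 → (nm e : ℝ) ≤ X0 →
      (nm π : ℝ) ≤ X0 → (∀ p ∈ ps, Real.exp p.1.z ≤ X0) → 0 < Λ → 0 ≤ B →
      (∀ (ps' : List Pq) (W : ℝ), 1 ≤ W → List.Forall₂ (Rl C W) ps' (ps.map Prod.fst) →
        tl Dq ps' ≤ LF ps - Real.log (nm δ * nm e) + C →
        RFp P h (Real.log (Λ * nm f)) ps' ≤ B * Real.exp (tl Dq ps') * W ^ (2 * μ)) →
      ∑ k ∈ bl Λ, ‖CS (gC (sqc q (alF z D0 P h ps)) δ e π (tw s0 t)) (k * f)‖ ^ 2 ≤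
        C * (D0 ^ n) ^ (2 + 2 * s0) * X0 ^ ε * (1 + |t|) ^ (2 * (n * μ)) * B *
          ((Real.exp (LF ps) / nm δ) ^ (-(2 * s0)) * (Real.exp (LF ps) / (nm δ * nm e))) := by
  choose C hC H using fun r => flagG hpu hμ hs0 r hε
  have hle : ∀ r ≤ n, C r ≤ ∑ r ∈ Finset.range (n + 1), C r := fun r hr =>
    Finset.single_le_sum (f := C) (fun i _ => by linarith [hC i]) (Finset.mem_range.2 (by omega))
  have h100 : (1 : ℝ) ≤ (100 ^ n) ^ 2 := one_le_pow₀ (one_le_pow₀ (by norm_num))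
  set C0 : ℝ := ∑ r ∈ Finset.range (n + 1), C r with hC0
  have hC01 : 1 ≤ C0 := (hC 0).trans (hle 0 (Nat.zero_le _))
  refine ⟨(100 ^ n) ^ 2 * C0, one_le_mul_of_one_le_of_one_le h100 hC01, ?_⟩
  intro P hP ps hlen hz z D0 hD0 q δ e π f hq hδ he hπ hf X0 Λ t B hX0 hDX hqX hδX heX hπX hsX hΛ
    hB hyp
  have hD00 : 0 < D0 := by linarith
  set r := ps.length with hr
  have hCr : C r ≤ (100 ^ n) ^ 2 * C0 := (hle r hlen).trans (le_mul_of_one_le_left (by linarith) h100)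
  have key := H r P hP (fun i => (ps.get i).1) (fun i => hz _ (List.get_mem _ _)) z D0
    (fun i => (ps.get i).2) hD0 q δ e π f hq hδ he hπ hf X0 Λ t B hX0 hDX hqX hδX heX hπX
    (fun i => hsX _ (List.get_mem _ _)) hΛ hB ?_
  · rw [← alF_get, ← LF_get] at key
    refine key.trans ?_
    have hd0 := nm_cast_pos hδ.ne_zero
    have he0 := nm_cast_pos he.ne_zero
    have hX00 : 0 < X0 := by linarith
    have ht1 : (1 : ℝ) ≤ 1 + |t| := by linarith [abs_nonneg t]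
    have h1 : ((100 * D0) ^ r) ^ 2 ≤ (100 ^ n) ^ 2 * (D0 ^ n) ^ (2 : ℝ) := by
      rw [Real.rpow_two, ← mul_pow, ← mul_pow]
      refine pow_le_pow_left₀ (by positivity) ?_ 2
      exact pow_le_pow_right₀ (by linarith) hlen
    have h2 : (D0 ^ r) ^ (2 * s0) ≤ (D0 ^ n) ^ (2 * s0) :=
      Real.rpow_le_rpow (by positivity) (pow_le_pow_right₀ hD0 hlen) (by linarith)
    have h3 : (1 + |t|) ^ (2 * ((r : ℝ) * μ)) ≤ (1 + |t|) ^ (2 * ((n : ℝ) * μ)) := by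
      refine Real.rpow_le_rpow_of_exponent_le ht1 ?_
      have : (r : ℝ) ≤ n := by exact_mod_cast hlen
      have := mul_le_mul_of_nonneg_right this hμ
      linarith
    have h4 : C r ≤ C0 := hle r hlen
    set U : ℝ := (Real.exp (LF ps) / nm δ) ^ (-(2 * s0)) with hU
    set V : ℝ := Real.exp (LF ps) / (nm δ * nm e) with hV
    have hU0 : 0 ≤ U := by positivity
    have hV0 : 0 ≤ V := by positivity
    have hCr0 : 0 ≤ C r := by linarith [hC r]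
    calc ((100 * D0) ^ r) ^ 2 * (C r * X0 ^ ε * (1 + |t|) ^ (2 * (r * μ)) * B *
          ((D0 ^ r) ^ (2 * s0) * U * V))
        ≤ ((100 ^ n) ^ 2 * (D0 ^ n) ^ (2 : ℝ)) * (C0 * X0 ^ ε * (1 + |t|) ^ (2 * (n * μ)) * B *
          ((D0 ^ n) ^ (2 * s0) * U * V)) := by gcongr
      _ = (100 ^ n) ^ 2 * C0 * ((D0 ^ n) ^ (2 : ℝ) * (D0 ^ n) ^ (2 * s0)) * X0 ^ ε *
          (1 + |t|) ^ (2 * (n * μ)) * B * (U * V) := by ring
      _ = _ := by rw [← Real.rpow_add (by positivity)]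
  · intro s' W hW hR' hl
    rw [← LF_get] at hl
    refine hyp (List.ofFn s') W hW ?_ (by linarith)
    rw [List.forall₂_iff_get]
    refine ⟨by simp [hr], fun i hi hi' => ?_⟩
    have hi2 : i < r := by simpa using hi
    have := (hR' ⟨i, hi2⟩).mono hCr
    simpa using this

lemma RQ_mono_l (Q : Eis → Prop) (h : ℝ → ℝ) {l l' : ℝ} (hl : l ≤ l') (ps : List HP842.Pc) :
    RQ Q h l ps ≤ RQ Q h l' ps := by
  classical
  unfold RQ
  refine Finset.sum_le_sum_of_subset_of_nonneg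
    (Finset.filter_subset_filter _ (TP320.bl_mono (Real.exp_pos _).le (Real.exp_le_exp.2 hl)))
    fun k _ _ => ?_
  refine List.prod_nonneg ?_
  intro a ha
  obtain ⟨p, _, rfl⟩ := List.mem_map.1 ha
  positivity

lemma RFp_mono (P : DPar) (h : ℝ → ℝ) {l l' : ℝ} (hl : l ≤ l') (ps : List Pq) :
    RFp P h l ps ≤ RFp P h l' ps := RQ_mono_l _ h hl _

/-- flagged sequences are finite and primary -/
lemma FS_alf {h : ℝ → ℝ} {R : ℝ} (hR : ∀ u, cx h u ≠ 0 → |u| ≤ R) {r : ℕ} {s : Fin r → Pc}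
    (hs : ∀ i, (s i).OK) (z D0 : ℝ) (fl : Fin r → Bool) : FS (alf z D0 h s fl) := by
  unfold Leg381.alf
  refine HP842.FS_cv fun i => ?_
  have h1 := HP842.FS_pc hR (hs i)
  exact { fin := h1.fin.subset fun n hn h0 => hn (by
            have h0' : pc h (s i) n = 0 := h0
            unfold Leg381.fpc; rw [h0', zero_mul])
          prim := fun m hm => h1.prim m (fun h0 => hm (by unfold Leg381.fpc; rw [h0, zero_mul])) }

/-! ### windows -/

open MeasureTheory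
open Crest.Agent.R017.Win813 (WK wn ew iA iA_nonneg HF KS_HF KS_win continuous_HF norm_HF_le
  supp_fin FS_wn wn_ne)
open Crest.Agent.R017.RGw813 (int_ew_pt tw2 bt FS_tw2 wn_tw2 norm_wl sy_wl sy_w3 sy_l3)

/-- **windows**: polynomial heights -/
theorem KS_pt {C η : ℝ} {A J : ℕ} (hC : 0 ≤ C) (hη : 0 < η) (hη1 : η ≤ 1) (hAJ : J + 2 ≤ A)
    {φ : ℝ → ℝ} (hφ : WK C η A φ) (K : Eis → Eis → ℂ) {α : Eis → ℂ} (h : FS α) {e : Eis}
    (he : e ≠ 0) {ι : Type} (T : Finset ι) (W : ι → ℝ) (hW : ∀ x ∈ T, 0 ≤ W x) (l : ι → Eis)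
    {M : ℝ} (hM0 : 0 ≤ M)
    (hM : ∀ u : ℝ, ∑ x ∈ T, W x * ‖KS K (fun m => α (e * m) * pw u (nm m)) (l x)‖ ^ 2 ≤
      M * (1 + |u|) ^ J) (t : ℝ) :
    ∑ x ∈ T, W x * ‖KS K (fun m => wn φ α (e * m) * pw t (nm m)) (l x)‖ ^ 2 ≤
      C ^ 2 * iA A * (iA 2 * (η⁻¹) ^ J * (M * (1 + |t|) ^ J)) := by
  have hA : 2 ≤ A := by omega
  refine (KS_win hC hη hA hφ K h he T W hW l t).trans ?_
  refine mul_le_mul_of_nonneg_left ?_ (mul_nonneg (by positivity) (iA_nonneg A))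
  obtain ⟨T', hT', hT''⟩ := supp_fin h he
  have e1 : ∀ u x, ‖KS K (fun m => α (e * m) * pw u (nm m)) (l x)‖ =
      ‖HF T' (fun m => e * m) (fun m => α (e * m) * K (l x) m) u‖ := fun u x =>
    KS_HF K h he hT' hT'' u (l x)
  set F : ℝ → ℝ := fun u => ∑ x ∈ T, W x * ‖KS K (fun m => α (e * m) * pw u (nm m)) (l x)‖ ^ 2
    with hF
  have hFc : Continuous F := by
    refine continuous_finsetSum _ fun x _ => ?_
    simp_rw [e1]
    exact ((continuous_HF T' _ _).norm.pow 2).const_mul _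
  have hF0 : ∀ u, 0 ≤ F u := fun u => Finset.sum_nonneg fun x hx =>
    mul_nonneg (hW x hx) (by positivity)
  have hFb : ∀ u, F u ≤ ∑ x ∈ T, W x * (∑ b ∈ T', ‖α (e * b) * K (l x) b‖) ^ 2 := by
    intro u
    refine Finset.sum_le_sum fun x hx => mul_le_mul_of_nonneg_left ?_ (hW x hx)
    rw [e1]
    exact pow_le_pow_left₀ (norm_nonneg _) (norm_HF_le T' _ _ u) 2
  exact int_ew_pt hAJ hη hη1 hFc hF0 hFb hM hM0 t

/-- the kernel of `gC` -/
def KC (e π : Eis) (s0 : ℝ) (κ m : Eis) : ℂ := by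
  classical exact if e ∣ m ∧ IsCoprime m π then tw s0 0 m * sy κ m else 0

lemma tw_pw (s0 t : ℝ) {m : Eis} (hm : m ≠ 0) : tw s0 t m = tw s0 0 m * pw t (nm m) := by
  have h0 : (0 : ℝ) < nm m := nm_cast_pos hm
  rw [Weight600.pw_eq_cpow h0]
  unfold TP320.tw
  have h1 : ((nm m : ℕ) : ℂ) = ((nm m : ℝ) : ℂ) := by push_cast; rfl
  rw [h1, ← Complex.cpow_add _ _ (by exact_mod_cast h0.ne')]
  congr 1
  push_cast; ring

/-- the functional as a `KS` -/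
lemma gC_KS {α : Eis → ℂ} (h : FS α) {δ : Eis} (hδ : IsPrim δ) (e π : Eis) (s0 t : ℝ) (κ : Eis) :
    CS (gC α δ e π (tw s0 t)) κ = KS (KC e π s0) (fun m => α (δ * m) * pw t (nm m)) κ := by
  unfold CM106.CS HP842.KS
  refine tsum_congr fun m => ?_
  unfold NtC320.gC KC
  by_cases h0 : α (δ * m) = 0
  · simp [h0]
  have hm : IsPrim m := IsPrim.of_mul_left (h.prim _ h0) hδ
  by_cases h1 : e ∣ m ∧ IsCoprime m π
  · rw [if_pos h1, if_pos h1, tw_pw s0 t hm.ne_zero]; ring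
  · rw [if_neg h1, if_neg h1]; ring

lemma conj_sy_wl {n : Eis} (hn : IsPrim n) (a b : ℕ) :
    conj (sy (w ^ a * lam ^ b) n) = sy ((w ^ a * lam ^ b) ^ 2) n := by
  have h1 := norm_wl hn a b
  have h3 : sy (w ^ a * lam ^ b) n ^ 3 = 1 := by
    rw [sy_wl hn, mul_pow, ← pow_mul, ← pow_mul, mul_comm a 3, mul_comm b 3, pow_mul, pow_mul,
      sy_w3 hn, sy_l3 hn, one_pow, one_pow, one_mul]
  have h4 : sy ((w ^ a * lam ^ b) ^ 2) n = sy (w ^ a * lam ^ b) n ^ 2 := by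
    rw [sq, sq]; exact syG.mul_left _ _ n hn
  have h5 : sy (w ^ a * lam ^ b) n * conj (sy (w ^ a * lam ^ b) n) = 1 := by
    rw [Complex.mul_conj, Complex.normSq_eq_norm_sq, h1]; simp
  have h6 : sy (w ^ a * lam ^ b) n ≠ 0 := fun h0 => by rw [h0, norm_zero] at h1; exact zero_ne_one h1
  rw [h4]
  refine mul_left_cancel₀ h6 ?_
  rw [h5, ← h3]; ring

/-- the twist moves the frequency -/
lemma norm_gC_tw2 {α : Eis → ℂ} (h : FS α) {δ : Eis} (hδ : IsPrim δ) (e π : Eis) (s0 t : ℝ)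
    (a b : ℕ) (κ : Eis) :
    ‖CS (gC (tw2 a b α) δ e π (tw s0 t)) κ‖ ≤
      ‖CS (gC α δ e π (tw s0 t)) (κ * (w ^ a * lam ^ b) ^ 2)‖ := by
  have e1 : CS (gC (tw2 a b α) δ e π (tw s0 t)) κ =
      conj (sy (w ^ a * lam ^ b) δ) * CS (gC α δ e π (tw s0 t)) (κ * (w ^ a * lam ^ b) ^ 2) := by
    unfold CM106.CS
    rw [← tsum_mul_left]
    refine tsum_congr fun m => ?_
    unfold NtC320.gC RGw813.tw2
    by_cases h0 : α (δ * m) = 0
    · rw [h0]; simp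
    have hm : IsPrim m := IsPrim.of_mul_left (h.prim _ h0) hδ
    by_cases h1 : e ∣ m ∧ IsCoprime m π
    · rw [if_pos h1, if_pos h1]
      have e2 : sy (w ^ a * lam ^ b) (δ * m) = sy (w ^ a * lam ^ b) δ * sy (w ^ a * lam ^ b) m :=
        syG.mul_right _ _ _ hδ hm
      have e3 : sy (κ * (w ^ a * lam ^ b) ^ 2) m = sy κ m * conj (sy (w ^ a * lam ^ b) m) := by
        rw [conj_sy_wl hm]; exact syG.mul_left _ _ m hm
      rw [e2, e3, map_mul]; ring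
    · rw [if_neg h1, if_neg h1]; ring
  rw [e1, norm_mul, RCLike.norm_conj]
  exact mul_le_of_le_one_left (norm_nonneg _) (CF61.norm_sy_le _ _)

open Classical in
/-- **twisted windows of a sequence** -/
theorem bt_pt {C η : ℝ} {A J : ℕ} (hC : 0 ≤ C) (hη : 0 < η) (hη1 : η ≤ 1) (hAJ : J + 2 ≤ A)
    {φ : ℝ → ℝ} (hφ : WK C η A φ) {α : Eis → ℂ} (h : FS α) {δ : Eis} (hδ : IsPrim δ)
    (e π : Eis) (s0 : ℝ) (p : ℕ × ℕ) (T : Finset Eis) (f : Eis) {M : ℝ} (hM0 : 0 ≤ M)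
    (hM : ∀ u : ℝ, ∑ k ∈ T, ‖CS (gC α δ e π (tw s0 u))
      (k * (f * (w ^ p.1 * lam ^ p.2) ^ 2))‖ ^ 2 ≤ M * (1 + |u|) ^ J) (t₀ t : ℝ) :
    ∑ k ∈ T, ‖CS (gC (fun n => bt φ α p n * pw t₀ (nm n)) δ e π (tw s0 t)) (k * f)‖ ^ 2 ≤
      C ^ 2 * iA A * (iA 2 * (η⁻¹) ^ J * (M * (1 + |t₀ + t|) ^ J)) := by
  have hF := FS_tw2 h p.1 p.2
  have e1 : bt φ α p = wn φ (tw2 p.1 p.2 α) := (wn_tw2 φ p.1 p.2 α).symm
  have key := KS_pt hC hη hη1 hAJ hφ (KC e π s0) hF hδ.ne_zero T (fun _ => 1)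
    (fun _ _ => zero_le_one) (fun k => k * f) hM0 (fun u => by
      refine le_trans (Finset.sum_le_sum fun k _ => ?_) (hM u)
      rw [one_mul, ← gC_KS hF hδ, ← mul_assoc]
      exact pow_le_pow_left₀ (norm_nonneg _) (norm_gC_tw2 h hδ e π s0 u p.1 p.2 (k * f)) 2)
    (t₀ + t)
  refine le_trans (le_of_eq ?_) key
  refine Finset.sum_congr rfl fun k _ => ?_
  rw [one_mul, ← gC_KS (FS_wn hF) hδ]
  congr 1
  have e2 : CS (gC (fun n => bt φ α p n * pw t₀ (nm n)) δ e π (tw s0 t)) (k * f) =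
      pw t₀ (nm δ) * CS (gC (wn φ (tw2 p.1 p.2 α)) δ e π (tw s0 (t₀ + t))) (k * f) := by
    unfold CM106.CS
    rw [← tsum_mul_left]
    refine tsum_congr fun m => ?_
    unfold NtC320.gC
    rw [e1]
    by_cases h0 : wn φ (tw2 p.1 p.2 α) (δ * m) = 0
    · simp [h0]
    have hm : IsPrim m := IsPrim.of_mul_left ((FS_wn hF).prim _ h0) hδ
    by_cases h1 : e ∣ m ∧ IsCoprime m π
    · have e3 := Win813.pw_split hδ.ne_zero hm.ne_zero t₀
      rw [if_pos h1, if_pos h1, tw_pw s0 t hm.ne_zero, tw_pw s0 (t₀ + t) hm.ne_zero,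
        pw_add_left]
      show wn φ (tw2 p.1 p.2 α) (δ * m) * pw t₀ (nm (δ * m)) * _ * _ = _
      rw [e3]
      ring
    · rw [if_neg h1, if_neg h1]; ring
  rw [e2, norm_mul, norm_pw, one_mul]

/-- **twisted windows of flagged lists** -/
theorem winR {h : ℝ → ℝ} {c : ℝ} (hpu : PU h c) {μ : ℝ} (hμ : 0 ≤ μ) {s0 : ℝ} (hs0 : 0 ≤ s0)
    (n : ℕ) {ε : ℝ} (hε : 0 < ε) :
    ∃ C : ℝ, 1 ≤ C ∧ ∀ (P : DPar), P.OK → ∀ ps : List Pf, ps.length ≤ n →
      (∀ p ∈ ps, 0 ≤ p.1.z) → ∀ (z D0 : ℝ), 1 ≤ D0 →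
      ∀ q δ e π f : Eis, q ≠ 0 → IsPrim δ → IsPrim e → π ≠ 0 → f ≠ 0 →
      ∀ X0 Λ B : ℝ, 1 ≤ X0 → D0 ≤ X0 → (nm q : ℝ) ≤ X0 → (nm δ : ℝ) ≤ X0 → (nm e : ℝ) ≤ X0 →
      (nm π : ℝ) ≤ X0 → (∀ p ∈ ps, Real.exp p.1.z ≤ X0) → 0 < Λ → 0 ≤ B →
      (∀ (ps' : List Pq) (W : ℝ), 1 ≤ W → List.Forall₂ (Rl C W) ps' (ps.map Prod.fst) →
        tl Dq ps' ≤ LF ps - Real.log (nm δ * nm e) + C →
        RFp P h (Real.log (81 * Λ * nm f)) ps' ≤ B * Real.exp (tl Dq ps') * W ^ (2 * μ)) →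
      ∀ (Cw η : ℝ) (A J : ℕ), 0 ≤ Cw → 0 < η → η ≤ 1 → J + 2 ≤ A → 2 * (n * μ) ≤ J →
      ∀ (φ : ℝ → ℝ), WK Cw η A φ → ∀ (a : ℕ × ℕ), a.2 ≤ 2 → ∀ (t₀ t : ℝ),
      ∑ k ∈ bl Λ, ‖CS (gC (fun m => bt φ (sqc q (alF z D0 P h ps)) a m * pw t₀ (nm m)) δ e π
          (tw s0 t)) (k * f)‖ ^ 2 ≤
        (Cw ^ 2 * iA A * iA 2 * (η⁻¹) ^ J) * (C * (D0 ^ n) ^ (2 + 2 * s0) * X0 ^ ε *
          (1 + |t₀ + t|) ^ J * B *
          ((Real.exp (LF ps) / nm δ) ^ (-(2 * s0)) * (Real.exp (LF ps) / (nm δ * nm e)))) := by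
  classical
  obtain ⟨R, hR0, hR⟩ := exists_R (cs_cx hpu.cs)
  obtain ⟨C, hC, H⟩ := listR hpu hμ hs0 n hε
  refine ⟨C, hC, ?_⟩
  intro P hP ps hlen hz z D0 hD0 q δ e π f hq hδ he hπ hf X0 Λ B hX0 hDX hqX hδX heX hπX hsX hΛ
    hB hyp Cw η A J hCw hη hη1 hAJ hJ φ hφ a ha t₀ t
  have hd0 := nm_cast_pos hδ.ne_zero
  have he0 := nm_cast_pos he.ne_zero
  have hf0 := nm_cast_pos hf
  have hFS : FS (sqc q (alF z D0 P h ps)) := by
    refine HP842.FS.sqc ?_ q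
    rw [alF_get]
    exact FS_alf hR (fun i => ((ps.get i).1.ok hP)) z D0 _
  set wl : Eis := (w ^ a.1 * lam ^ a.2) ^ 2 with hwl
  have hlam : (lam : Eis) ≠ 0 := lam_ne_zero
  have hw : (w : Eis) ≠ 0 := isUnit_w.ne_zero
  have hwl0 : wl ≠ 0 := pow_ne_zero _ (mul_ne_zero (pow_ne_zero _ hw) (pow_ne_zero _ hlam))
  have hnwl : (nm wl : ℝ) ≤ 81 := by
    have h1 : nm wl ≤ 81 := by
      rw [hwl, nm_pow, nm_mul, nm_pow, nm_pow]
      have hw1 : nm w = 1 := nm_w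
      have hl3 : nm lam = 3 := nm_lam
      rw [hw1, hl3, one_pow, one_mul, ← pow_mul]
      calc 3 ^ (a.2 * 2) ≤ 3 ^ 4 := Nat.pow_le_pow_right (by norm_num) (by omega)
        _ = 81 := by norm_num
    exact_mod_cast h1
  have hnwl0 : (0 : ℝ) < nm wl := nm_cast_pos hwl0
  set U : ℝ := (Real.exp (LF ps) / nm δ) ^ (-(2 * s0)) * (Real.exp (LF ps) / (nm δ * nm e)) with hU
  have hU0 : 0 ≤ U := by positivity
  set M : ℝ := C * (D0 ^ n) ^ (2 + 2 * s0) * X0 ^ ε * B * U with hM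
  have hM0 : 0 ≤ M := by positivity
  have key := bt_pt hCw hη hη1 hAJ hφ hFS hδ e π s0 a (bl Λ) f hM0 (fun u => by
    have h1 := H P hP ps hlen hz z D0 hD0 q δ e π (f * wl) hq hδ he hπ (mul_ne_zero hf hwl0)
      X0 Λ u B hX0 hDX hqX hδX heX hπX hsX hΛ hB (fun ps' W hW hR' hl => by
        refine le_trans ?_ (hyp ps' W hW hR' hl)
        refine RFp_mono P h ?_ ps'
        have hfw : (0 : ℝ) < nm (f * wl) := nm_cast_pos (mul_ne_zero hf hwl0)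
        refine Real.log_le_log (by positivity) ?_
        rw [nm_mul]
        push_cast
        calc Λ * (nm f * nm wl) ≤ Λ * (nm f * 81) := by gcongr
          _ = _ := by ring)
    refine h1.trans ?_
    have ht1 : (1 : ℝ) ≤ 1 + |u| := by linarith [abs_nonneg u]
    have h2 : (1 + |u|) ^ (2 * ((n : ℝ) * μ)) ≤ (1 + |u|) ^ J := by
      rw [← Real.rpow_natCast]
      exact Real.rpow_le_rpow_of_exponent_le ht1 hJ
    rw [hM]
    calc C * (D0 ^ n) ^ (2 + 2 * s0) * X0 ^ ε * (1 + |u|) ^ (2 * (n * μ)) * B * U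
        ≤ C * (D0 ^ n) ^ (2 + 2 * s0) * X0 ^ ε * (1 + |u|) ^ J * B * U := by gcongr
      _ = _ := by ring) t₀ t
  refine key.trans (le_of_eq ?_)
  rw [hM]
  ring

end Crest.Agent.R017.R3571
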