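import Crest.Agent.R017.R3b_571

/-!
# Row 17, E3/E2 for RG and P1: c-side moments of subsequences (helper571), part 3

Index-dependent parameters: `(δ, e, π)`, the coprimality and the frequency depend on the index.

* `sq_nat_ix`, `sq_nat_pc_ix` : squarefree → natural, the coprimality depends on the index
-/

set_option autoImplicit false
set_option maxHeartbeats 400000

noncomputable section

open Complex
open scoped ComplexConjugate

namespace Crest.Agent.R017.R3571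

open Crest.Agent.R012 Crest.Agent.R012.Eis Crest.Agent.R012.LS2 Crest.Agent.R012.Gauss880
open Crest.Agent.R012.PSer47 (IsChar)
open Crest.Agent.R012.Mob705 (pp ppSet_pp prod_pp isPP_of_mem_pp dvd_of_mem_pp)
open Crest.Agent.R012.Div277 Crest.Agent.R012.Weight600
open Crest.Agent.R017.CM106 Crest.Agent.R017.FE47
open Crest.Agent.R017.Asm986 (Pf)
open Crest.Agent.R017.HP842 (UT Pc pc sqc Th al ssub pc_support lamQ lamQ_zero norm_lamQ_le' Tu mem_Tu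
  card_Tu_le Bd FS_pc Bd_pc ceil_le norm_CS_sub ssub_Y CS_sqc norm_sy_prim cv nm_prod' isPrim_prod)

/-! ### coprimality depending on the index -/

section fam

variable {ι : Type} [Fintype ι] [DecidableEq ι]

/-- the support of the coefficients -/
lemma lamQ_supp' {q : Eis} {a : ι → Eis} (ha : ∀ i, IsPrim (a i))
    (h : lamQ q a ≠ 0) : ∃ u v, IsPrim u ∧ IsPrim v ∧ ∏ i, a i = u * v ∧ Pf u ∧ Squarefree v ∧
      v ∣ q := by
  obtain ⟨u, v, hu, hv, huv, hpf, hsf, hco⟩ :=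
    NSx545.exists_pfsf _ le_rfl (isPrim_prod (s := Finset.univ) ha)
  refine ⟨u, v, hu, hv, huv, hpf, hsf, ?_⟩
  rw [← prod_pp hv hsf]
  refine (ppSet_pp v).prod_dvd.2 fun p hp => ?_
  have hpp := isPP_of_mem_pp hp
  have hpv := dvd_of_mem_pp hp
  by_contra hq
  apply h
  refine lamQ_zero hpp hq ha (huv ▸ hpv.mul_left u) ?_
  intro h2
  rw [huv] at h2
  have h3 : ¬ p ∣ u := fun h4 => hpp.prime.not_isUnit (hco.isUnit_of_dvd' h4 hpv)
  have h4 : p ^ 2 ∣ v := hpp.prime.pow_dvd_of_dvd_mul_left 2 h3 (by rwa [pow_two])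
  rw [pow_two] at h4
  exact hpp.prime.not_isUnit (hsf p h4)

end fam

/-- weighted Cauchy-Schwarz, index-dependent coefficients -/
lemma cauchy_ix {P β : Type*} (A : Finset P) (c : β → P → ℝ) (C' n : P → ℝ)
    (hn : ∀ p ∈ A, 0 < n p) (T : Finset β) (W : β → ℝ) (hW : ∀ x ∈ T, 0 ≤ W x)
    (hc : ∀ x ∈ T, ∀ p ∈ A, 0 ≤ c x p) (hC' : ∀ x ∈ T, ∀ p ∈ A, c x p ≤ C' p)
    (Sx : β → ℝ) (hS0 : ∀ x ∈ T, 0 ≤ Sx x) (z : P → β → ℝ)
    (hS : ∀ x ∈ T, Sx x ≤ ∑ p ∈ A, c x p * z p x) {F : ℝ}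
    (hF' : ∀ x ∈ T, ∑ p ∈ A, c x p * n p ^ (-(1 / 2 : ℝ)) ≤ F)
    (hC'0 : ∀ p ∈ A, 0 ≤ C' p) (hF : 0 ≤ F)
    {B' : P → ℝ} (hB : ∀ p ∈ A, C' p ≠ 0 → ∑ x ∈ T, W x * z p x ^ 2 ≤ B' p) :
    ∑ x ∈ T, W x * Sx x ^ 2 ≤ F * ∑ p ∈ A, C' p * (n p ^ (1 / 2 : ℝ) * B' p) := by
  have e1 : ∀ x ∈ T, W x * Sx x ^ 2 ≤
      W x * (F * ∑ p ∈ A, C' p * n p ^ (1 / 2 : ℝ) * z p x ^ 2) := by
    intro x hx
    refine mul_le_mul_of_nonneg_left ?_ (hW x hx)
    refine (pow_le_pow_left₀ (hS0 x hx) (hS x hx) 2).trans ?_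
    have h1 : (∑ p ∈ A, c x p * z p x) ^ 2 ≤ (∑ p ∈ A, c x p * n p ^ (-(1 / 2 : ℝ))) *
        ∑ p ∈ A, c x p * n p ^ (1 / 2 : ℝ) * z p x ^ 2 := by
      refine Finset.sum_sq_le_sum_mul_sum_of_sq_eq_mul A
        (fun a ha => mul_nonneg (hc x hx a ha) (Real.rpow_nonneg (hn a ha).le _))
        (fun a ha => mul_nonneg (mul_nonneg (hc x hx a ha) (Real.rpow_nonneg (hn a ha).le _))
          (sq_nonneg _)) fun a ha => ?_
      have h1 : n a ^ (-(1 / 2 : ℝ)) * n a ^ (1 / 2 : ℝ) = 1 := by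
        rw [← Real.rpow_add (hn a ha)]; norm_num
      calc (c x a * z a x) ^ 2 = c x a * c x a * z a x ^ 2 * 1 := by ring
        _ = c x a * c x a * z a x ^ 2 * (n a ^ (-(1 / 2 : ℝ)) * n a ^ (1 / 2 : ℝ)) := by rw [h1]
        _ = _ := by ring
    refine h1.trans (mul_le_mul (hF' x hx) ?_ ?_ hF)
    · refine Finset.sum_le_sum fun p hp => ?_
      have := Real.rpow_nonneg (hn p hp).le (1 / 2)
      exact mul_le_mul_of_nonneg_right (mul_le_mul_of_nonneg_right (hC' x hx p hp) this)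
        (sq_nonneg _)
    · exact Finset.sum_nonneg fun p hp => mul_nonneg
        (mul_nonneg (hc x hx p hp) (Real.rpow_nonneg (hn p hp).le _)) (sq_nonneg _)
  refine (Finset.sum_le_sum e1).trans ?_
  have e2 : ∑ x ∈ T, W x * (F * ∑ p ∈ A, C' p * n p ^ (1 / 2 : ℝ) * z p x ^ 2) =
      F * ∑ p ∈ A, C' p * (n p ^ (1 / 2 : ℝ) * ∑ x ∈ T, W x * z p x ^ 2) := by
    simp_rw [Finset.mul_sum]
    rw [Finset.sum_comm]
    refine Finset.sum_congr rfl fun a _ => Finset.sum_congr rfl fun k _ => ?_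
    ring
  rw [e2]
  refine mul_le_mul_of_nonneg_left (Finset.sum_le_sum fun p hp => ?_) hF
  by_cases h0 : C' p = 0
  · rw [h0, zero_mul, zero_mul]
  · exact mul_le_mul_of_nonneg_left (mul_le_mul_of_nonneg_left (hB p hp h0)
      (Real.rpow_nonneg (hn p hp).le _)) (hC'0 p hp)

/-- the boxes -/
def bx (ι : Type) [Fintype ι] [DecidableEq ι] (X r : ℕ) : Finset ((ι → Eis) × (Eis × Eis)) := by
  classical
  exact Fintype.piFinset (fun _ : ι => primBall X) ×ˢ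
    (((primBall (X ^ r)).filter Pf) ×ˢ S ((X : ℝ) ^ r))

lemma mem_bx {ι : Type} [Fintype ι] [DecidableEq ι] {X r : ℕ} {p : (ι → Eis) × (Eis × Eis)} :
    p ∈ bx ι X r ↔ (∀ i, nm (p.1 i) ≤ X ∧ IsPrim (p.1 i)) ∧
      ((nm p.2.1 ≤ X ^ r ∧ IsPrim p.2.1) ∧ Pf p.2.1) ∧
      ((nm p.2.2 : ℝ) ≤ (X : ℝ) ^ r ∧ IsPrim p.2.2 ∧ Squarefree p.2.2) := by
  classical
  unfold bx
  rw [Finset.mem_product, Finset.mem_product, Fintype.mem_piFinset, Finset.mem_filter,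
    mem_primBall, mem_S (by positivity)]
  simp only [mem_primBall]

open Classical in
/-- sums over the boxes -/
theorem bx_sum (r : ℕ) {ε : ℝ} (hε : 0 < ε) : ∃ C : ℝ, 1 ≤ C ∧ ∀ (ι : Type) [Fintype ι]
    [DecidableEq ι], Fintype.card ι ≤ r → ∀ X : ℕ, 1 ≤ X → ∀ G : Eis → ℝ, (∀ v, 0 ≤ G v) →
    ∑ p ∈ bx ι X r, (if ∏ i, p.1 i = p.2.1 * p.2.2 then
      (tau (p.2.1 * p.2.2) : ℝ) ^ r * ((nm p.2.1 : ℝ) ^ (-(1 / 2 : ℝ)) * G p.2.2) else 0) ≤
      C * (X : ℝ) ^ ε * ∑ v ∈ S ((X : ℝ) ^ r), G v := by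
  classical
  set δ : ℝ := ε / (3 * (r + 1)) with hδ
  have hr : (0 : ℝ) ≤ r := Nat.cast_nonneg _
  have hδ0 : 0 < δ := by rw [hδ]; positivity
  obtain ⟨C1, hC1, h1⟩ := tau_le_rpow (ε := δ / (2 * r + 1)) (by positivity)
  obtain ⟨C3, hC3, h3⟩ := TPD813.sum_pf_le hδ0
  refine ⟨C1 ^ (2 * r) * (C3 + 1), ?_, ?_⟩
  · have a1 : 1 ≤ C1 ^ (2 * r) := one_le_pow₀ hC1
    exact one_le_mul_of_one_le_of_one_le a1 (by linarith)
  intro ι _ _ hcard X hX G hG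
  have hX1 : (1 : ℝ) ≤ X := by exact_mod_cast hX
  have htau : ∀ n : Eis, n ≠ 0 → (tau n : ℝ) ^ (2 * r) ≤ C1 ^ (2 * r) * (nm n : ℝ) ^ δ := by
    intro n hn
    have b1 := h1 n hn
    have hn1 : (1 : ℝ) ≤ nm n := by exact_mod_cast nm_pos.2 hn
    calc (tau n : ℝ) ^ (2 * r) ≤ (C1 * (nm n : ℝ) ^ (δ / (2 * r + 1))) ^ (2 * r) :=
          pow_le_pow_left₀ (Nat.cast_nonneg _) b1 _
      _ = C1 ^ (2 * r) * (nm n : ℝ) ^ (δ / (2 * r + 1) * (2 * r : ℕ)) := by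
          rw [mul_pow, ← Real.rpow_natCast ((nm n : ℝ) ^ _), ← Real.rpow_mul (by linarith)]
      _ ≤ C1 ^ (2 * r) * (nm n : ℝ) ^ δ := by
          refine mul_le_mul_of_nonneg_left ?_ (by positivity)
          apply Real.rpow_le_rpow_of_exponent_le hn1
          rw [div_mul_eq_mul_div, div_le_iff₀ (by positivity)]
          push_cast
          nlinarith
  set A := Fintype.piFinset (fun _ : ι => primBall X) with hA
  set U := (primBall (X ^ r)).filter Pf with hU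
  set V := S ((X : ℝ) ^ r) with hV
  have hXr0 : (0 : ℝ) ≤ (X : ℝ) ^ r := by positivity
  have hmA : ∀ x, x ∈ A ↔ ∀ i, nm (x i) ≤ X ∧ IsPrim (x i) := by
    intro x
    rw [hA, Fintype.mem_piFinset]
    exact forall_congr' fun i => mem_primBall
  have e0 : bx ι X r = A ×ˢ (U ×ˢ V) := rfl
  rw [e0, Finset.sum_product_right]
  have e2 : ∀ p ∈ U ×ˢ V, ∑ a ∈ A, (if ∏ i, a i = p.1 * p.2 then
      (tau (p.1 * p.2) : ℝ) ^ r * ((nm p.1 : ℝ) ^ (-(1 / 2 : ℝ)) * G p.2) else 0) ≤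
      (C1 ^ (2 * r) * ((X : ℝ) ^ r) ^ (3 * δ)) * ((nm p.1 : ℝ) ^ (-(1 / 2 + δ)) * G p.2) := by
    rintro ⟨u, v⟩ hp
    rw [Finset.mem_product, hU, Finset.mem_filter, mem_primBall, hV, mem_S hXr0] at hp
    obtain ⟨⟨⟨hu1, hu⟩, hpf⟩, hv1, hv, hvs⟩ := hp
    simp only at hu1 hu hpf hv1 hv hvs ⊢
    have hn : IsPrim (u * v) := hu.mul hv
    have hu1' : (1 : ℝ) ≤ nm u := by exact_mod_cast nm_pos.2 hu.ne_zero
    have hv1' : (1 : ℝ) ≤ nm v := by exact_mod_cast nm_pos.2 hv.ne_zero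
    have hu2 : (nm u : ℝ) ≤ (X : ℝ) ^ r := by exact_mod_cast hu1
    rw [← Finset.sum_filter, Finset.sum_const, nsmul_eq_mul]
    have c2 : ((A.filter (fun a => ∏ i, a i = u * v)).card : ℝ) ≤ (tau (u * v) : ℝ) ^ r := by
      have d1 : (A.filter (fun a => ∏ i, a i = u * v)).card ≤ (Tu ι (u * v)).card := by
        apply Finset.card_le_card
        intro a ha
        rw [Finset.mem_filter, hmA] at ha
        rw [mem_Tu]
        exact ⟨fun i => (ha.1 i).2, ha.2⟩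
      have d2 : 1 ≤ tau (u * v) := Div277.one_le_tau hn.ne_zero
      have d3 : (Tu ι (u * v)).card ≤ tau (u * v) ^ r :=
        (card_Tu_le _).trans (Nat.pow_le_pow_right d2 hcard)
      exact_mod_cast d1.trans d3
    have hnuv : (nm (u * v) : ℝ) = (nm u : ℝ) * nm v := by rw [nm_mul]; push_cast; ring
    have hGv := hG v
    have ht := htau _ hn.ne_zero
    have h5 : (nm (u * v) : ℝ) ^ δ ≤ ((X : ℝ) ^ r) ^ δ * ((X : ℝ) ^ r) ^ δ := by
      rw [hnuv, Real.mul_rpow (by positivity) (by positivity)]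
      gcongr
    have h6 : (nm u : ℝ) ^ (-(1 / 2 : ℝ)) ≤
        ((X : ℝ) ^ r) ^ δ * (nm u : ℝ) ^ (-(1 / 2 + δ)) := by
      have g2 : (nm u : ℝ) ^ (-(1 / 2 : ℝ)) = (nm u : ℝ) ^ δ * (nm u : ℝ) ^ (-(1 / 2 + δ)) := by
        rw [← Real.rpow_add (by linarith)]
        congr 1; ring
      rw [g2]
      gcongr
    have h7 : ((X : ℝ) ^ r) ^ (3 * δ) =
        (((X : ℝ) ^ r) ^ δ * ((X : ℝ) ^ r) ^ δ) * ((X : ℝ) ^ r) ^ δ := by
      have : (0 : ℝ) < (X : ℝ) ^ r := by positivity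
      rw [← Real.rpow_add this, ← Real.rpow_add this]
      congr 1; ring
    calc ((A.filter (fun a => ∏ i, a i = u * v)).card : ℝ) *
          ((tau (u * v) : ℝ) ^ r * ((nm u : ℝ) ^ (-(1 / 2 : ℝ)) * G v))
        ≤ (tau (u * v) : ℝ) ^ r * ((tau (u * v) : ℝ) ^ r *
          ((nm u : ℝ) ^ (-(1 / 2 : ℝ)) * G v)) := by
          refine mul_le_mul_of_nonneg_right c2 ?_
          positivity
      _ = (tau (u * v) : ℝ) ^ (2 * r) * ((nm u : ℝ) ^ (-(1 / 2 : ℝ)) * G v) := by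
          rw [two_mul, pow_add]; ring
      _ ≤ (C1 ^ (2 * r) * (((X : ℝ) ^ r) ^ δ * ((X : ℝ) ^ r) ^ δ)) *
          ((((X : ℝ) ^ r) ^ δ * (nm u : ℝ) ^ (-(1 / 2 + δ))) * G v) := by
          refine mul_le_mul ?_ ?_ (by positivity) (by positivity)
          · exact ht.trans (mul_le_mul_of_nonneg_left h5 (by positivity))
          · exact mul_le_mul_of_nonneg_right h6 hGv
      _ = _ := by rw [h7]; ring
  refine (Finset.sum_le_sum e2).trans ?_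
  rw [← Finset.mul_sum, Finset.sum_product]
  have e3 : ∑ u ∈ U, ∑ v ∈ V, (nm u : ℝ) ^ (-(1 / 2 + δ)) * G v =
      (∑ u ∈ U, (nm u : ℝ) ^ (-(1 / 2 + δ))) * ∑ v ∈ V, G v := by
    rw [Finset.sum_mul_sum]
  rw [e3]
  have e4 : ∑ u ∈ U, (nm u : ℝ) ^ (-(1 / 2 + δ)) ≤ C3 + 1 := (h3 (X ^ r)).trans (by linarith)
  have e5 : ((X : ℝ) ^ r) ^ (3 * δ) ≤ (X : ℝ) ^ ε := by
    rw [← Real.rpow_natCast, ← Real.rpow_mul (by linarith)]
    apply Real.rpow_le_rpow_of_exponent_le hX1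
    rw [hδ]
    rw [mul_div_assoc', mul_div_assoc', div_le_iff₀ (by positivity)]
    nlinarith
  have e6 : 0 ≤ ∑ v ∈ V, G v := Finset.sum_nonneg fun v _ => hG v
  have e7 : 0 ≤ ∑ u ∈ U, (nm u : ℝ) ^ (-(1 / 2 + δ)) := Finset.sum_nonneg fun _ _ => by positivity
  calc C1 ^ (2 * r) * ((X : ℝ) ^ r) ^ (3 * δ) *
        ((∑ u ∈ U, (nm u : ℝ) ^ (-(1 / 2 + δ))) * ∑ v ∈ V, G v)
      ≤ C1 ^ (2 * r) * (X : ℝ) ^ ε * ((C3 + 1) * ∑ v ∈ V, G v) := by gcongr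
    _ = _ := by ring


open Classical in
/-- **squarefree → natural**, coprimality and frequency depending on the index -/
theorem sq_nat_ix (r : ℕ) {ε : ℝ} (hε : 0 < ε) : ∃ C : ℝ, 1 ≤ C ∧ ∀ (ι : Type) [Fintype ι]
    [DecidableEq ι], Fintype.card ι ≤ r → ∀ (f : ι → Eis → ℂ) (X : ℕ), 1 ≤ X → Bd X f →
    (∀ i, FS (f i)) → ∀ {β : Type} (T : Finset β) (W : β → ℝ), (∀ x ∈ T, 0 ≤ W x) →
    ∀ (q fr : β → Eis) (Q0 : ℝ), (∀ x ∈ T, q x ≠ 0) → (∀ x ∈ T, (nm (q x) : ℝ) ≤ Q0) → 1 ≤ Q0 →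
    ∀ B : ℝ, 0 ≤ B →
    (∀ a : ι → Eis, (∀ i, IsPrim (a i)) → (∀ i, nm (a i) ≤ X) →
      ∑ x ∈ T, W x * ‖CS (cv (fun i => sub (f i) (a i))) (fr x)‖ ^ 2 ≤ B / nm (∏ i, a i)) →
    ∑ x ∈ T, W x * ‖CS (sqc (q x) (cv f)) (fr x)‖ ^ 2 ≤ C * Q0 ^ ε * (X : ℝ) ^ ε * B := by
  obtain ⟨C, hC, H⟩ := bx_sum r (ε := ε / 3) (by positivity)
  obtain ⟨C2, hC2, h2⟩ := tau_le_rpow hε
  have hL : ∃ C4 : ℝ, 1 ≤ C4 ∧ ∀ X : ℕ, 1 ≤ X →
      ∑ v ∈ S ((X : ℝ) ^ r), (1 : ℝ) / nm v ≤ C4 * (X : ℝ) ^ (ε / 3) := by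
    refine ⟨200 * (1 + r * (3 / ε)), ?_, ?_⟩
    · have : 0 ≤ (r : ℝ) * (3 / ε) := by positivity
      linarith
    intro X hX
    have hX1 : (1 : ℝ) ≤ X := by exact_mod_cast hX
    have h3 := E1551.sum_inv_S (Y := (X : ℝ) ^ r) (one_le_pow₀ hX1)
    refine h3.trans ?_
    have h4 : Real.log X ≤ (3 / ε) * (X : ℝ) ^ (ε / 3) := by
      have := Real.log_le_rpow_div (by linarith : (0 : ℝ) ≤ X) (by positivity : 0 < ε / 3)
      calc Real.log X ≤ (X : ℝ) ^ (ε / 3) / (ε / 3) := this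
        _ = _ := by field_simp
    have h5 : 1 ≤ (X : ℝ) ^ (ε / 3) := Real.one_le_rpow hX1 (by positivity)
    rw [Real.log_pow]
    have hr : (0 : ℝ) ≤ r := Nat.cast_nonneg _
    calc 200 * (1 + r * Real.log X)
        ≤ 200 * ((X : ℝ) ^ (ε / 3) + r * ((3 / ε) * (X : ℝ) ^ (ε / 3))) := by gcongr
      _ = _ := by ring
  obtain ⟨C4, hC4, h4⟩ := hL
  refine ⟨(C * C2) * (C * C4), one_le_mul_of_one_le_of_one_le
    (one_le_mul_of_one_le_of_one_le hC hC2) (one_le_mul_of_one_le_of_one_le hC hC4), ?_⟩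
  intro ι _ _ hcard f X hX hf hfs β T W hW q fr Q0 hq hqQ hQ0 B hB0 hB
  have hX1 : (1 : ℝ) ≤ X := by exact_mod_cast hX
  have hXr0 : (0 : ℝ) ≤ (X : ℝ) ^ r := by positivity
  have hQe : 0 ≤ Q0 ^ ε := by positivity
  have hQ00 : 0 < Q0 := by linarith
  set A := bx ι X r with hA
  have ht0 : ∀ p : (ι → Eis) × (Eis × Eis), (0 : ℝ) ≤ (tau (p.2.1 * p.2.2) : ℝ) ^ r :=
    fun p => by positivity
  have key := cauchy_ix A
    (fun x p => if ∏ i, p.1 i = p.2.1 * p.2.2 ∧ p.2.2 ∣ q x then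
      (tau (p.2.1 * p.2.2) : ℝ) ^ r else 0)
    (fun p => if ∏ i, p.1 i = p.2.1 * p.2.2 then (tau (p.2.1 * p.2.2) : ℝ) ^ r else 0)
    (fun p => (nm p.2.1 : ℝ)) (fun p hp => by
      have h1 := (mem_bx.1 hp).2.1.1.2
      exact nm_cast_pos h1.ne_zero) T W hW
    (fun x _ p _ => by split_ifs; exacts [ht0 p, le_rfl])
    (fun x _ p _ => by
      by_cases h0 : ∏ i, p.1 i = p.2.1 * p.2.2
      · rw [if_pos h0]
        split_ifs
        exacts [le_rfl, ht0 p]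
      · rw [if_neg h0, if_neg (fun h => h0 h.1)])
    (fun x => ‖CS (sqc (q x) (cv f)) (fr x)‖) (fun x _ => norm_nonneg _)
    (fun p x => ‖CS (cv (fun i => sub (f i) (p.1 i))) (fr x)‖) (fun x hx => by
      show ‖CS (sqc (q x) (cv f)) (fr x)‖ ≤ _
      rw [CS_sqc hf hfs (q x) (fr x)]
      refine (norm_sum_le _ _).trans ?_
      have e0 : A = Fintype.piFinset (fun _ : ι => primBall X) ×ˢ
        (((primBall (X ^ r)).filter Pf) ×ˢ S ((X : ℝ) ^ r)) := rfl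
      rw [e0, Finset.sum_product]
      refine Finset.sum_le_sum fun a ha => ?_
      rw [Fintype.mem_piFinset] at ha
      have hap : ∀ i, nm (a i) ≤ X ∧ IsPrim (a i) := fun i => mem_primBall.1 (ha i)
      have hsy : ‖sy (fr x) (∏ i, a i)‖ ≤ 1 := norm_sy_prim (isPrim_prod fun i => (hap i).2)
      have hz : 0 ≤ ‖CS (cv (fun i => sub (f i) (a i))) (fr x)‖ := norm_nonneg _
      have hterm : ∀ p : Eis × Eis, 0 ≤ (if ∏ i, a i = p.1 * p.2 ∧ p.2 ∣ q x then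
          (tau (p.1 * p.2) : ℝ) ^ r else 0) * ‖CS (cv (fun i => sub (f i) (a i))) (fr x)‖ := by
        intro p
        refine mul_nonneg ?_ hz
        split_ifs
        · positivity
        · exact le_rfl
      by_cases h0 : lamQ (q x) a = 0
      · rw [h0, zero_mul, norm_zero]
        exact Finset.sum_nonneg fun p _ => hterm p
      obtain ⟨u, v, hu, hv, huv, hpf, hvs, hvq⟩ := lamQ_supp' (fun i => (hap i).2) h0
      have hP := (isPrim_prod (s := Finset.univ) fun i => (hap i).2)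
      have hPn : nm (∏ i, a i) ≤ X ^ r := by
        rw [nm_prod']
        calc ∏ i, nm (a i) ≤ ∏ _i : ι, X := Finset.prod_le_prod' fun i _ => (hap i).1
          _ = X ^ Fintype.card ι := by rw [Finset.prod_const, Fintype.card]
          _ ≤ X ^ r := Nat.pow_le_pow_right hX hcard
      have hmem : (u, v) ∈ (((primBall (X ^ r)).filter Pf) ×ˢ S ((X : ℝ) ^ r)) := by
        rw [Finset.mem_product, Finset.mem_filter, mem_primBall, mem_S hXr0]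
        have b1 : nm u ≤ nm (∏ i, a i) := Div277.nm_le_of_dvd hP.ne_zero ⟨v, huv⟩
        have b2 : nm v ≤ nm (∏ i, a i) := Div277.nm_le_of_dvd hP.ne_zero
          ⟨u, by rw [huv]; ring⟩
        exact ⟨⟨⟨b1.trans hPn, hu⟩, hpf⟩, by exact_mod_cast b2.trans hPn, hv, hvs⟩
      refine le_trans ?_ (Finset.single_le_sum (f := fun p : Eis × Eis =>
        (if ∏ i, a i = p.1 * p.2 ∧ p.2 ∣ q x then
          (tau (p.1 * p.2) : ℝ) ^ r else 0) * ‖CS (cv (fun i => sub (f i) (a i))) (fr x)‖)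
        (fun p _ => hterm p) hmem)
      show ‖lamQ (q x) a * (sy (fr x) (∏ i, a i) * CS (cv (fun i => sub (f i) (a i))) (fr x))‖ ≤
        (if ∏ i, a i = u * v ∧ v ∣ q x then (tau (u * v) : ℝ) ^ r else 0) *
          ‖CS (cv (fun i => sub (f i) (a i))) (fr x)‖
      rw [if_pos ⟨huv, hvq⟩, norm_mul, norm_mul]
      have h5 : ‖lamQ (q x) a‖ ≤ (tau (u * v) : ℝ) ^ r := by
        refine (norm_lamQ_le' (q x) fun i => (hap i).2).trans ?_
        rw [huv]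
        refine pow_le_pow_right₀ ?_ hcard
        exact_mod_cast Div277.one_le_tau (hu.mul hv).ne_zero
      refine mul_le_mul h5 ?_ (by positivity) (by positivity)
      exact mul_le_of_le_one_left hz hsy)
    (F := C * (X : ℝ) ^ (ε / 3) * (C2 * Q0 ^ ε)) (fun x hx => by
      have h5 := H ι hcard X hX (fun v => if v ∣ q x then 1 else 0) (fun v => by
        split_ifs <;> norm_num)
      have h6 : ∑ v ∈ S ((X : ℝ) ^ r), (if v ∣ q x then (1 : ℝ) else 0) ≤ C2 * Q0 ^ ε := by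
        rw [← Finset.sum_filter, Finset.sum_const, nsmul_eq_mul, mul_one]
        have h7 : ((S ((X : ℝ) ^ r)).filter fun v => v ∣ q x).card ≤ tau (q x) := by
          refine Finset.card_le_card fun v hv => ?_
          rw [Finset.mem_filter, mem_S hXr0] at hv
          exact (mem_dvs (hq x hx)).2 ⟨hv.1.2.1, hv.2⟩
        calc ((((S ((X : ℝ) ^ r)).filter fun v => v ∣ q x).card : ℕ) : ℝ) ≤ tau (q x) := by
              exact_mod_cast h7
          _ ≤ C2 * (nm (q x) : ℝ) ^ ε := h2 _ (hq x hx)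
          _ ≤ C2 * Q0 ^ ε := by
              have := hqQ x hx
              gcongr
      refine le_trans (le_of_eq ?_) (h5.trans (mul_le_mul_of_nonneg_left h6 (by positivity)))
      refine Finset.sum_congr rfl fun p _ => ?_
      by_cases h0 : ∏ i, p.1 i = p.2.1 * p.2.2
      · by_cases h1 : p.2.2 ∣ q x
        · simp only [if_pos h0, if_pos (And.intro h0 h1), if_pos h1]
          ring
        · simp only [if_pos h0, if_neg (fun h : _ ∧ _ => h1 h.2), if_neg h1]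
          ring
      · simp only [if_neg h0, if_neg (fun h : _ ∧ _ => h0 h.1)]
        ring)
    (fun p _ => by split_ifs; exacts [ht0 p, le_rfl]) (by positivity)
    (B' := fun p => B / (nm p.2.1 * nm p.2.2)) (fun p hp h0 => by
      have h1 := mem_bx.1 hp
      have h3 : ∏ i, p.1 i = p.2.1 * p.2.2 := by
        by_contra h5
        exact h0 (if_neg h5)
      have h6 := hB p.1 (fun i => (h1.1 i).2) (fun i => (h1.1 i).1)
      rw [h3, nm_mul] at h6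
      push_cast at h6
      exact h6)
  refine key.trans ?_
  have h5 := H ι hcard X hX (fun v => 1 / (nm v : ℝ)) (fun v => by positivity)
  have h6 : ∑ p ∈ A, (if ∏ i, p.1 i = p.2.1 * p.2.2 then (tau (p.2.1 * p.2.2) : ℝ) ^ r else 0) *
      ((nm p.2.1 : ℝ) ^ (1 / 2 : ℝ) * (B / (nm p.2.1 * nm p.2.2))) =
      B * ∑ p ∈ A, (if ∏ i, p.1 i = p.2.1 * p.2.2 then
      (tau (p.2.1 * p.2.2) : ℝ) ^ r * ((nm p.2.1 : ℝ) ^ (-(1 / 2 : ℝ)) * (1 / (nm p.2.2 : ℝ)))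
        else 0) := by
    rw [Finset.mul_sum]
    refine Finset.sum_congr rfl fun p hp => ?_
    have h1 := (mem_bx.1 hp).2.1.1.2
    have h7 := nm_cast_pos h1.ne_zero
    split_ifs
    · have h8 : (nm p.2.1 : ℝ) ^ (1 / 2 : ℝ) / nm p.2.1 = (nm p.2.1 : ℝ) ^ (-(1 / 2 : ℝ)) := by
        rw [div_eq_iff h7.ne']
        nth_rewrite 3 [← Real.rpow_one (nm p.2.1 : ℝ)]
        rw [← Real.rpow_add h7]; norm_num
      rw [← h8]
      field_simp
    · ring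
  rw [h6]
  have h7 : (X : ℝ) ^ (ε / 3) * ((X : ℝ) ^ (ε / 3) * (X : ℝ) ^ (ε / 3)) = (X : ℝ) ^ ε := by
    have : (0 : ℝ) < X := by linarith
    rw [← Real.rpow_add this, ← Real.rpow_add this]
    congr 1; ring
  calc C * (X : ℝ) ^ (ε / 3) * (C2 * Q0 ^ ε) * (B * ∑ p ∈ A, (if ∏ i, p.1 i = p.2.1 * p.2.2 then
      (tau (p.2.1 * p.2.2) : ℝ) ^ r * ((nm p.2.1 : ℝ) ^ (-(1 / 2 : ℝ)) * (1 / (nm p.2.2 : ℝ)))
        else 0))
      ≤ C * (X : ℝ) ^ (ε / 3) * (C2 * Q0 ^ ε) *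
        (B * (C * (X : ℝ) ^ (ε / 3) * (C4 * (X : ℝ) ^ (ε / 3)))) := by
        refine mul_le_mul_of_nonneg_left ?_ (by positivity)
        refine mul_le_mul_of_nonneg_left ?_ hB0
        refine h5.trans (mul_le_mul_of_nonneg_left (h4 X hX) (by positivity))
    _ = (C * C2) * (C * C4) * Q0 ^ ε *
        ((X : ℝ) ^ (ε / 3) * ((X : ℝ) ^ (ε / 3) * (X : ℝ) ^ (ε / 3))) * B := by ring
    _ = _ := by rw [h7]

/-- **squarefree → natural** for typed pieces, coprimality and frequency depending on the index -/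
theorem sq_nat_pc_ix (r : ℕ) {R ε : ℝ} (hR0 : 0 ≤ R) (hε : 0 < ε) :
    ∃ C : ℝ, 1 ≤ C ∧ ∀ (h : ℝ → ℝ),
    (∀ u, cx h u ≠ 0 → |u| ≤ R) → ∀ (ι : Type) [Fintype ι] [DecidableEq ι], Fintype.card ι ≤ r →
    ∀ (s : ι → Pc), (∀ i, (s i).OK) → ∀ X : ℝ, 1 ≤ X → (∀ i, (s i).Y ≤ X) →
    ∀ {β : Type} (T : Finset β) (W : β → ℝ), (∀ x ∈ T, 0 ≤ W x) →
    ∀ (q fr : β → Eis) (Q0 : ℝ), (∀ x ∈ T, q x ≠ 0) → (∀ x ∈ T, (nm (q x) : ℝ) ≤ Q0) → 1 ≤ Q0 →
    ∀ B : ℝ, 0 ≤ B →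
    (∀ a : ι → Eis, (∀ i, IsPrim (a i)) →
      ∑ x ∈ T, W x * ‖CS (al h (ssub s a)) (fr x)‖ ^ 2 ≤ B * ∏ i, (ssub s a i).Y) →
    ∑ x ∈ T, W x * ‖CS (sqc (q x) (al h s)) (fr x)‖ ^ 2 ≤
      C * Q0 ^ ε * X ^ ε * (B * ∏ i, (s i).Y) := by
  obtain ⟨C, hC, H⟩ := sq_nat_ix r hε
  have hc1 : (1 : ℝ) ≤ (2 * Real.exp R) ^ ε :=
    Real.one_le_rpow (by have := Real.one_le_exp hR0; linarith) hε.le
  refine ⟨C * (2 * Real.exp R) ^ ε, one_le_mul_of_one_le_of_one_le hC hc1, ?_⟩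
  intro h hR ι _ _ hcard s hs X hX hsX β T W hW q fr Q0 hq hqQ hQ0 B hB hyp
  have hX' : 1 ≤ ⌈Real.exp R * X⌉₊ := by
    rw [Nat.one_le_ceil_iff]
    have := Real.exp_pos R
    positivity
  have hY : 0 ≤ ∏ i, (s i).Y := Finset.prod_nonneg fun i _ => (hs i).Y0.le
  have h1 := H ι hcard (fun i => pc h (s i)) ⌈Real.exp R * X⌉₊ hX' (Bd_pc hR hs hsX)
    (fun i => FS_pc hR (hs i)) T W hW q fr Q0 hq hqQ hQ0 (B * ∏ i, (s i).Y) (mul_nonneg hB hY)
    (fun a ha _ => by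
      have h2 := hyp a ha
      rw [ssub_Y, mul_div_assoc'] at h2
      refine le_trans (Finset.sum_le_sum fun k hk => ?_) h2
      refine mul_le_mul_of_nonneg_left ?_ (hW k hk)
      exact pow_le_pow_left₀ (norm_nonneg _) (norm_CS_sub hs ha _) 2)
  refine h1.trans ?_
  have h3 := ceil_le hR0 hX hε
  have hq0 : 0 ≤ Q0 ^ ε := by positivity
  calc C * Q0 ^ ε * (⌈Real.exp R * X⌉₊ : ℝ) ^ ε * (B * ∏ i, (s i).Y)
      ≤ C * Q0 ^ ε * ((2 * Real.exp R) ^ ε * X ^ ε) * (B * ∏ i, (s i).Y) := by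
        have := mul_nonneg hB hY
        gcongr
    _ = _ := by ring

end Crest.Agent.R017.R3571
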