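import Crest.Agent.R017.R3d_571

/-!
# Row 17, E3/E2 for RG and P1: c-side moments of subsequences (helper571), part 5

* `natGX`  : natural lists, everything depending on the index
* `flagGX`, `listRX` : flagged families, flagged lists
-/

set_option autoImplicit false
set_option maxHeartbeats 400000

noncomputable section

open Complex
open scoped ComplexConjugate

namespace Crest.Agent.R017.R3571

open Crest.Agent.R012 Crest.Agent.R012.Eis Crest.Agent.R012.LS2 Crest.Agent.R012.Gauss880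
open Crest.Agent.R012.PSer47 (IsChar)
open Crest.Agent.R012.Div277 Crest.Agent.R012.Weight600
open Crest.Agent.R017.CM106 Crest.Agent.R017.FE47
open Crest.Agent.R017.B770
open Crest.Agent.R017.Prov71
open Crest.Agent.R017.HP842 (UT Pc pc KS sqc Th alL al ssub pc_support FS_cv FS_pc)
open Crest.Agent.R017.TPOk571 (IP FP SD SD_w SD_len SD_ht sd_ok relU)
open Crest.Agent.R017.TP320 (Fam tw)
open Crest.Agent.R017.XHB411 (tl)
open Crest.Agent.R017.XRG106 (Rl RFp ip chd chd_pc tl_ofFn CS_al RFp_ofFn one_add_mul exists_rep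
  rep CS_eq_zero)
open Crest.Agent.R017.NtC320 (gC gC_ne gC_fin MulCh Tn mem_Tn nm_prod_le cg cB cg_prim cB_prim
  gp_cg gp_cB cB_dvd cg_dvd gC_nt nt_qf QF_of_lin Lin_gC norm_CS_gC_dil prim_prod)
open Crest.Agent.R017.Rough381 (sh shS sh_OK)
open Crest.Agent.R017.Leg381 (alf Pf alF LF alF_get LF_get)
open Crest.Agent.R017.StA828 (gp)

variable {r : ℕ}

open Classical in
/-- **natural lists**: the moments of the subsequences, everything depending on the index -/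
theorem natGX {h : ℝ → ℝ} {c : ℝ} (hpu : PU h c) {μ : ℝ} (hμ : 0 ≤ μ) {s0 : ℝ}
    (hs1 : s0 ≤ 1 / 2) (r : ℕ) {ε : ℝ} (hε : 0 < ε) :
    ∃ C : ℝ, 1 ≤ C ∧ ∀ (P : DPar), P.OK → ∀ s : Fin r → Pq,
      (∀ i, 0 ≤ (s i).z) → ∀ j : Fin r → IP, Below P 0 j s → (∀ i, (j i).s = 0) →
      ∀ {β : Type} (T : Finset β) (Wx : β → ℝ), (∀ x ∈ T, 0 ≤ Wx x) →
      ∀ (q : Eis) (δ e π fr : β → Eis), q ≠ 0 → (∀ x ∈ T, IsPrim (δ x)) →
      (∀ x ∈ T, IsPrim (e x)) → (∀ x ∈ T, π x ≠ 0) →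
      ∀ X0 Λ t B Tm A0 : ℝ, 1 ≤ X0 → (nm q : ℝ) ≤ X0 → (∀ x ∈ T, (nm (δ x) : ℝ) ≤ X0) →
      (∀ x ∈ T, (nm (e x) : ℝ) ≤ X0) → (∀ x ∈ T, (nm (π x) : ℝ) ≤ X0) →
      (∀ i, Real.exp (s i).z ≤ X0) → 0 < Λ → 0 ≤ B → 0 ≤ Tm → 0 < A0 →
      (∀ x ∈ T, A0 ≤ nm (δ x) * nm (e x)) →
      (∀ x ∈ T, fr x ∈ bl Λ) →
      (∀ κ ∈ bl Λ, ∑ x ∈ T.filter (fun x => fr x = κ), Wx x ≤ Tm) →
      (∀ (s' : Fin r → Pq) (W : ℝ), 1 ≤ W → (∀ i, Rl C W (s' i) (s i)) →
        tl Dq (List.ofFn s') ≤ ∑ i, (j i).z - Real.log A0 + C →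
        RFp P h (Real.log Λ) (List.ofFn s') ≤
          B * Real.exp (tl Dq (List.ofFn s')) * W ^ (2 * μ)) →
      ∑ x ∈ T, Wx x * ((nm (e x) : ℝ) ^ s0 *
        ‖CS (gC (sqc q (al h (fun i => (j i).pc))) (δ x) (e x) (π x) (tw s0 t)) (fr x)‖) ^ 2 ≤
        C * X0 ^ ε * (1 + |t|) ^ (2 * (r * μ)) * (Tm * B) *
          (Real.exp (∑ i, (j i).z) / A0) ^ (1 - 2 * s0) := by
  obtain ⟨C, hC, H⟩ := natGc hpu hμ s0 r (ε := ε / 2) (by positivity)
  set K : ℝ := 4 / ε + 1 with hK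
  have hK0 : 0 ≤ K := by positivity
  have hK1 : 1 ≤ K := by
    have : 0 ≤ 4 / ε := by positivity
    rw [hK]; linarith
  refine ⟨K * C, one_le_mul_of_one_le_of_one_le hK1 hC, ?_⟩
  have hCK : C ≤ K * C := le_mul_of_one_le_left (by linarith) hK1
  intro P hP s hs j hj hjs β T Wx hWx q δ e π fr hq hδ he hπ X0 Λ t B Tm A0 hX0 hqX hδX heX hπX hsX
    hΛ hB hTm0 hA0 hA hfr hTm hyp
  have hX00 : 0 < X0 := by linarith
  have hlX : 0 ≤ Real.log X0 := Real.log_nonneg hX0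
  set S0 : ℝ := ∑ i, (j i).z with hS0
  set α0 : ℝ := max 0 (Real.log A0) with hα0
  have hα00 : 0 ≤ α0 := le_max_left _ _
  have hα0A : Real.log A0 ≤ α0 := le_max_right _ _
  set lg : β → ℝ := fun x => Real.log (nm (δ x * e x)) with hlg
  have hnde : ∀ x ∈ T, (0 : ℝ) < nm (δ x * e x) := fun x hx =>
    nm_cast_pos ((hδ x hx).mul (he x hx)).ne_zero
  have hlg0 : ∀ x ∈ T, α0 ≤ lg x := by
    intro x hx
    refine max_le (Real.log_nonneg (one_le_nm ((hδ x hx).mul (he x hx)).ne_zero)) ?_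
    refine Real.log_le_log hA0 ((hA x hx).trans (le_of_eq ?_))
    rw [nm_mul]; push_cast; rfl
  have hlgX : ∀ x ∈ T, lg x ≤ 2 * Real.log X0 := by
    intro x hx
    have h1 := hδX x hx
    have h2 := heX x hx
    have h3 : (nm (δ x * e x) : ℝ) ≤ X0 ^ 2 := by
      rw [nm_mul, pow_two]; push_cast
      exact mul_le_mul h1 h2 (Nat.cast_nonneg _) hX00.le
    calc lg x ≤ Real.log (X0 ^ 2) := Real.log_le_log (hnde x hx) h3
      _ = _ := by rw [Real.log_pow]; push_cast; ring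
  set Jn : ℕ := ⌊2 * Real.log X0⌋₊ with hJn
  set cl : β → ℕ := fun x => ⌊lg x - α0⌋₊ with hcl
  have hcl' : ∀ x ∈ T, cl x ∈ Finset.range (Jn + 1) := by
    intro x hx
    rw [Finset.mem_range, Nat.lt_succ_iff]
    exact Nat.floor_le_floor (by linarith [hlgX x hx])
  set E : ℝ := C * X0 ^ (ε / 2) * (1 + |t|) ^ (2 * (r * μ)) * (Tm * B) *
          Real.exp ((1 - 2 * s0) * (S0 - α0)) with hE
  have hE0 : 0 ≤ E := by positivity
  have hcls : ∀ k ∈ Finset.range (Jn + 1), ∑ x ∈ T.filter (fun x => cl x = k), Wx x *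
      ((nm (e x) : ℝ) ^ s0 *
        ‖CS (gC (sqc q (al h (fun i => (j i).pc))) (δ x) (e x) (π x) (tw s0 t)) (fr x)‖) ^ 2 ≤ E := by
    intro k _
    rcases (T.filter (fun x => cl x = k)).eq_empty_or_nonempty with hemp | ⟨x0, hx0⟩
    · rw [hemp, Finset.sum_empty]; exact hE0
    have hx0T := (Finset.mem_filter.1 hx0).1
    have hx0c : cl x0 = k := (Finset.mem_filter.1 hx0).2
    have hk : ∀ x ∈ T.filter (fun x => cl x = k), α0 + k ≤ lg x ∧ lg x ≤ α0 + k + 1 := by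
      intro x hx
      have h1 := (Finset.mem_filter.1 hx)
      have h2 : 0 ≤ lg x - α0 := by linarith [hlg0 x h1.1]
      have h3 := Nat.floor_le h2
      have h4 := Nat.lt_floor_add_one (lg x - α0)
      have h5 : (⌊lg x - α0⌋₊ : ℝ) = k := by exact_mod_cast h1.2
      rw [h5] at h3 h4
      constructor <;> linarith
    have hsub : T.filter (fun x => cl x = k) ⊆ T := Finset.filter_subset _ _
    have h1 := H P hP s hs j hj hjs (T.filter (fun x => cl x = k)) Wx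
      (fun x hx => hWx x (hsub hx)) q δ e π fr hq (fun x hx => hδ x (hsub hx))
      (fun x hx => he x (hsub hx)) (fun x hx => hπ x (hsub hx)) X0 Λ t B Tm (α0 + k) hX0 hqX
      (fun x hx => hδX x (hsub hx)) (fun x hx => heX x (hsub hx)) (fun x hx => hπX x (hsub hx))
      hsX hΛ hB hTm0 (by positivity) (by
        have h2 := (hk x0 hx0).1
        have h3 := hlgX x0 hx0T
        have h4 : X0 ^ (2 : ℝ) = Real.exp (2 * Real.log X0) := by
          rw [Real.rpow_def_of_pos hX00, mul_comm]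
        rw [h4]
        exact Real.exp_le_exp.2 (by linarith)) hk (fun x hx => hfr x (hsub hx))
      (fun κ hκ => by
        refine le_trans ?_ (hTm κ hκ)
        refine Finset.sum_le_sum_of_subset_of_nonneg ?_ fun x hx _ =>
          hWx x (Finset.mem_filter.1 hx).1
        exact Finset.filter_subset_filter _ hsub)
      (fun s' W hW hR' hl => hyp s' W hW (fun i => (hR' i).mono hCK) (by
        have : (0 : ℝ) ≤ k := Nat.cast_nonneg k
        linarith))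
    refine h1.trans ?_
    rw [hE]
    have h2 : Real.exp ((1 - 2 * s0) * (S0 - (α0 + k))) ≤ Real.exp ((1 - 2 * s0) * (S0 - α0)) := by
      refine Real.exp_le_exp.2 ?_
      have h3 : (0 : ℝ) ≤ k := Nat.cast_nonneg k
      have h4 : 0 ≤ 1 - 2 * s0 := by linarith
      exact mul_le_mul_of_nonneg_left (by linarith) h4
    gcongr
  have h1 : ∑ x ∈ T, Wx x * ((nm (e x) : ℝ) ^ s0 *
        ‖CS (gC (sqc q (al h (fun i => (j i).pc))) (δ x) (e x) (π x) (tw s0 t)) (fr x)‖) ^ 2 =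
      ∑ k ∈ Finset.range (Jn + 1), ∑ x ∈ T.filter (fun x => cl x = k), Wx x *
      ((nm (e x) : ℝ) ^ s0 *
        ‖CS (gC (sqc q (al h (fun i => (j i).pc))) (δ x) (e x) (π x) (tw s0 t)) (fr x)‖) ^ 2 :=
    (Finset.sum_fiberwise_of_maps_to hcl' _).symm
  rw [h1]
  refine (Finset.sum_le_sum hcls).trans ?_
  rw [Finset.sum_const, Finset.card_range, nsmul_eq_mul]
  have h2 : ((Jn + 1 : ℕ) : ℝ) ≤ K * X0 ^ (ε / 2) := by
    have h3 : (Jn : ℝ) ≤ 2 * Real.log X0 := Nat.floor_le (by linarith)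
    have h4 : Real.log X0 ≤ X0 ^ (ε / 2) / (ε / 2) := Real.log_le_rpow_div hX00.le (by positivity)
    have h5 : 1 ≤ X0 ^ (ε / 2) := Real.one_le_rpow hX0 (by positivity)
    push_cast
    calc (Jn : ℝ) + 1 ≤ 2 * (X0 ^ (ε / 2) / (ε / 2)) + X0 ^ (ε / 2) := by linarith
      _ = _ := by rw [hK]; field_simp; ring
  have h3 : Real.exp ((1 - 2 * s0) * (S0 - α0)) ≤ (Real.exp S0 / A0) ^ (1 - 2 * s0) := by
    have h4 : 0 ≤ 1 - 2 * s0 := by linarith
    have h5 : Real.exp (S0 - α0) ≤ Real.exp S0 / A0 := by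
      rw [Real.exp_sub]
      refine div_le_div_of_nonneg_left (Real.exp_pos _).le hA0 ?_
      calc A0 = Real.exp (Real.log A0) := (Real.exp_log hA0).symm
        _ ≤ _ := Real.exp_le_exp.2 hα0A
    calc Real.exp ((1 - 2 * s0) * (S0 - α0)) = (Real.exp (S0 - α0)) ^ (1 - 2 * s0) := by
          rw [← Real.exp_mul]; congr 1; ring
      _ ≤ _ := Real.rpow_le_rpow (by positivity) h5 h4
  have h6 : X0 ^ (ε / 2) * X0 ^ (ε / 2) = X0 ^ ε := by
    rw [← Real.rpow_add hX00]; congr 1; ring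
  calc ((Jn + 1 : ℕ) : ℝ) * E ≤ (K * X0 ^ (ε / 2)) * E := mul_le_mul_of_nonneg_right h2 hE0
    _ = K * C * (X0 ^ (ε / 2) * X0 ^ (ε / 2)) * (1 + |t|) ^ (2 * (r * μ)) * (Tm * B) *
        Real.exp ((1 - 2 * s0) * (S0 - α0)) := by rw [hE]; ring
    _ ≤ K * C * X0 ^ ε * (1 + |t|) ^ (2 * (r * μ)) * (Tm * B) *
        (Real.exp S0 / A0) ^ (1 - 2 * s0) := by
        rw [h6]
        gcongr

/-! ### flags -/

section nt

variable {ι : Type} [Fintype ι] [DecidableEq ι]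

/-- opening of the flags, everything depending on the index -/
theorem gC_ntX {h : ℝ → ℝ} {R : ℝ} (hR : ∀ u, cx h u ≠ 0 → |u| ≤ R) {s : ι → Pc}
    (hs : ∀ i, (s i).OK) {z D0 : ℝ} (hD : 1 ≤ D0) (f : ι → Bool) (q : Eis) {β : Type*}
    (T : Finset β) {W : β → ℝ} (hW : ∀ x ∈ T, 0 ≤ W x) (δ e π fr : β → Eis)
    (hδ : ∀ x ∈ T, IsPrim (δ x)) (he : ∀ x ∈ T, IsPrim (e x)) {χ : Eis → ℂ} (hχ : MulCh χ)
    {M : ℝ} (hM0 : 0 ≤ M)
    (hM : ∀ g ∈ Tn ι D0, ∑ x ∈ T, W x * ‖CS (gC (sqc (q * ∏ i, g i) (al h (shS s g)))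
      (cB (∏ i, g i) (δ x)) (cB (cg (∏ i, g i) (δ x)) (e x)) (π x) χ) (fr x)‖ ^ 2 ≤ M) :
    ∑ x ∈ T, W x * ‖CS (gC (sqc q (alf z D0 h s f)) (δ x) (e x) (π x) χ) (fr x)‖ ^ 2 ≤
      ((100 * D0) ^ Fintype.card ι) ^ 2 * M := by
  refine nt_qf (ι := ι)
    (Φ := fun α => ∑ x ∈ T, W x * ‖CS (gC α (δ x) (e x) (π x) χ) (fr x)‖ ^ 2)
    (QF_of_lin T hW (Λ := fun x α => CS (gC α (δ x) (e x) (π x) χ) (fr x))
      fun x hx => Lin_gC (hδ x hx).ne_zero (e x) (π x) χ (fr x)) hR hs (z := z) hD f q hM0 ?_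
  intro g hg
  have hp := ((mem_Tn (by linarith)).1 hg)
  have hgp : IsPrim (∏ i, g i) := prim_prod fun i => (hp i).1
  have hγ : ∀ m, sqc (q * ∏ i, g i) (al h (shS s g)) m ≠ 0 → IsPrim m :=
    (HP842.FS.sqc (FS_cv fun i => FS_pc hR (sh_OK (hs i) (hp i).1)) _).prim
  refine le_trans (Finset.sum_le_sum fun k hk => ?_) (hM g hg)
  refine mul_le_mul_of_nonneg_left ?_ (hW k hk)
  exact pow_le_pow_left₀ (norm_nonneg _) (norm_CS_gC_dil hgp (hδ k hk) (he k hk) (π k) hγ hχ _) 2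

end nt

open Classical in
/-- **flagged families**, everything depending on the index -/
theorem flagGX {h : ℝ → ℝ} {c : ℝ} (hpu : PU h c) {μ : ℝ} (hμ : 0 ≤ μ) {s0 : ℝ} (hs0 : 0 ≤ s0)
    (hs1 : s0 ≤ 1 / 2) (r : ℕ) {ε : ℝ} (hε : 0 < ε) :
    ∃ C : ℝ, 1 ≤ C ∧ ∀ (P : DPar), P.OK → ∀ s : Fin r → Pq,
      (∀ i, 0 ≤ (s i).z) → ∀ (z D0 : ℝ) (fl : Fin r → Bool), 1 ≤ D0 →
      ∀ {β : Type} (T : Finset β) (Wx : β → ℝ), (∀ x ∈ T, 0 ≤ Wx x) →
      ∀ (q : Eis) (δ e π fr : β → Eis), q ≠ 0 → (∀ x ∈ T, IsPrim (δ x)) →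
      (∀ x ∈ T, IsPrim (e x)) → (∀ x ∈ T, π x ≠ 0) →
      ∀ X0 Λ t B Tm A0 : ℝ, 1 ≤ X0 → D0 ≤ X0 → (nm q : ℝ) ≤ X0 → (∀ x ∈ T, (nm (δ x) : ℝ) ≤ X0) →
      (∀ x ∈ T, (nm (e x) : ℝ) ≤ X0) → (∀ x ∈ T, (nm (π x) : ℝ) ≤ X0) →
      (∀ i, Real.exp (s i).z ≤ X0) → 0 < Λ → 0 ≤ B → 0 ≤ Tm → 0 < A0 →
      (∀ x ∈ T, A0 ≤ nm (δ x) * nm (e x)) →
      (∀ x ∈ T, fr x ∈ bl Λ) →
      (∀ κ ∈ bl Λ, ∑ x ∈ T.filter (fun x => fr x = κ), Wx x ≤ Tm) →
      (∀ (s' : Fin r → Pq) (W : ℝ), 1 ≤ W → (∀ i, Rl C W (s' i) (s i)) →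
        tl Dq (List.ofFn s') ≤ ∑ i, (s i).z - Real.log A0 + C →
        RFp P h (Real.log Λ) (List.ofFn s') ≤
          B * Real.exp (tl Dq (List.ofFn s')) * W ^ (2 * μ)) →
      ∑ x ∈ T, Wx x * ((nm (e x) : ℝ) ^ s0 *
        ‖CS (gC (sqc q (alf z D0 h (fun i => (s i).pc P) fl)) (δ x) (e x) (π x) (tw s0 t))
          (fr x)‖) ^ 2 ≤
        ((100 * D0) ^ r) ^ 2 * ((D0 ^ r) ^ (2 * s0) * (C * X0 ^ ε * (1 + |t|) ^ (2 * (r * μ)) *
          (Tm * B) * (Real.exp (∑ i, (s i).z) / A0) ^ (1 - 2 * s0))) := by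
  obtain ⟨R, hR0, hR⟩ := exists_R (cs_cx hpu.cs)
  have hr1 : (0 : ℝ) < (r : ℝ) + 1 := by positivity
  obtain ⟨C, hC, H⟩ := natGX hpu hμ hs1 r (ε := ε / (r + 1)) (by positivity)
  refine ⟨C, hC, ?_⟩
  intro P hP s hs z D0 fl hD0 β T Wx hWx q δ e π fr hq hδ he hπ X0 Λ t B Tm A0 hX0 hDX hqX hδX heX
    hπX hsX hΛ hB hTm0 hA0 hA hfr hTm hyp
  have hX00 : 0 < X0 := by linarith
  have hD00 : 0 < D0 := by linarith
  set S0 : ℝ := ∑ i, (s i).z with hS0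
  set M0 : ℝ := C * X0 ^ ε * (1 + |t|) ^ (2 * (r * μ)) *
          (Tm * B) * (Real.exp S0 / A0) ^ (1 - 2 * s0) with hM0'
  have hM00 : 0 ≤ M0 := by positivity
  have hsq : ∀ x ∈ T, ∀ a : ℝ, Wx x * ((nm (e x) : ℝ) ^ s0 * a) ^ 2 =
      (Wx x * (nm (e x) : ℝ) ^ (2 * s0)) * a ^ 2 := by
    intro x hx a
    have : (0 : ℝ) < nm (e x) := nm_cast_pos (he x hx).ne_zero
    rw [mul_pow, ← Real.rpow_natCast ((nm (e x) : ℝ) ^ s0), ← Real.rpow_mul this.le]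
    rw [show s0 * ((2 : ℕ) : ℝ) = 2 * s0 by push_cast; ring]
    ring
  rw [Finset.sum_congr rfl fun x hx => hsq x hx _]
  have key := gC_ntX (ι := Fin r) (h := h) hR (s := fun i => (s i).pc P) (fun i => (s i).ok hP)
    (z := z) hD0 fl q T (W := fun x => Wx x * (nm (e x) : ℝ) ^ (2 * s0))
    (fun x hx => mul_nonneg (hWx x hx) (by positivity)) δ e π fr hδ he (MulCh_tw hs0 t)
    (M := (D0 ^ r) ^ (2 * s0) * M0) (by positivity) ?_
  · rwa [Fintype.card_fin] at key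
  intro g hg
  have hgp : ∀ i, IsPrim (g i) := fun i => ((mem_Tn hD00.le).1 hg i).1
  have hG : IsPrim (∏ i, g i) := prim_prod hgp
  set G : Eis := ∏ i, g i with hGd
  have hGn : (nm G : ℝ) ≤ D0 ^ r := by
    have := nm_prod_le hD00.le hg
    rwa [Fintype.card_fin] at this
  have hG1 : (1 : ℝ) ≤ nm G := one_le_nm hG.ne_zero
  have hG0 : (0 : ℝ) < nm G := by linarith
  set X0' : ℝ := X0 ^ ((r : ℝ) + 1) with hX0'
  have hXX : X0 ≤ X0' := by
    rw [hX0']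
    conv_lhs => rw [← Real.rpow_one X0]
    refine Real.rpow_le_rpow_of_exponent_le hX0 ?_
    have : (0 : ℝ) ≤ r := Nat.cast_nonneg r
    linarith
  set δ' : β → Eis := fun x => cB G (δ x) with hδ'
  set e' : β → Eis := fun x => cB (cg G (δ x)) (e x) with he'
  have h1 := H P hP s hs (jx hP s g) (jx_below hP s hgp) (fun _ => rfl) T Wx hWx (q * G) δ' e' π fr
    (mul_ne_zero hq hG.ne_zero) (fun x hx => cB_prim (hδ x hx)) (fun x hx => cB_prim (he x hx)) hπ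
    X0' Λ t B Tm (A0 / nm G) (hX0.trans hXX) (by
      rw [nm_mul, hX0', Real.rpow_add_one hX00.ne', Real.rpow_natCast]
      push_cast
      calc (nm q : ℝ) * nm G ≤ X0 * D0 ^ r := by gcongr
        _ ≤ X0 * X0 ^ r := by gcongr
        _ = _ := by ring) (fun x hx => (nm_cB_le' (hδ x hx)).trans ((hδX x hx).trans hXX))
    (fun x hx => (nm_cB_le' (he x hx)).trans ((heX x hx).trans hXX))
    (fun x hx => (hπX x hx).trans hXX) (fun i => (hsX i).trans hXX) hΛ hB hTm0 (by positivity)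
    (fun x hx => by
      rw [div_le_iff₀ hG0]
      have h2 := nm_cB_le hG (hδ x hx) (he x hx)
      calc A0 ≤ nm (δ x) * nm (e x) := hA x hx
        _ ≤ nm G * (nm (cB G (δ x)) * nm (cB (cg G (δ x)) (e x))) := h2
        _ = _ := by ring) hfr hTm ?_
  · have e2 : X0' ^ (ε / (r + 1)) = X0 ^ ε := by
      rw [hX0', ← Real.rpow_mul hX00.le]
      congr 1
      field_simp
    rw [e2, sum_jx hP s hgp, ← hGd] at h1
    have e3 : Real.exp S0 / nm G / (A0 / nm G) = Real.exp S0 / A0 := by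
      field_simp
    rw [← hS0, e3] at h1
    have e1 : (fun i => (jx hP s g i).pc) = shS (fun i => (s i).pc P) g := jx_pc hP s hgp
    rw [e1] at h1
    calc ∑ x ∈ T, Wx x * (nm (e x) : ℝ) ^ (2 * s0) *
          ‖CS (gC (sqc (q * G) (al h (shS (fun i => (s i).pc P) g))) (cB G (δ x))
            (cB (cg G (δ x)) (e x)) (π x) (tw s0 t)) (fr x)‖ ^ 2
        ≤ ∑ x ∈ T, (D0 ^ r) ^ (2 * s0) * (Wx x * ((nm (e' x) : ℝ) ^ s0 *
          ‖CS (gC (sqc (q * G) (al h (shS (fun i => (s i).pc P) g))) (δ' x)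
            (e' x) (π x) (tw s0 t)) (fr x)‖) ^ 2) := by
          refine Finset.sum_le_sum fun x hx => ?_
          have p1 := cg_prim hG (hδ x hx)
          have q1 := cB_prim (g := cg G (δ x)) (he x hx)
          have hne' : (0 : ℝ) < nm (e' x) := nm_cast_pos q1.ne_zero
          have hne : (0 : ℝ) < nm (e x) := nm_cast_pos (he x hx).ne_zero
          have h3 : (nm (e x) : ℝ) ≤ D0 ^ r * nm (e' x) := by
            have e5 : (nm (e x) : ℝ) = nm (gp (cg G (δ x)) (e x)) * nm (cB (cg G (δ x)) (e x)) := by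
              have := gp_cB (g := cg G (δ x)) (he x hx)
              conv_lhs => rw [← this]
              rw [nm_mul]; push_cast; rfl
            have e6 : (nm (gp (cg G (δ x)) (e x)) : ℝ) ≤ nm G := by
              have h7 : gp (cg G (δ x)) (e x) ∣ G := by
                have h8 : gp (cg G (δ x)) (e x) ∣ cg G (δ x) := by
                  conv_rhs => rw [← gp_cg (g := cg G (δ x)) (he x hx)]
                  exact dvd_mul_right _ _
                exact h8.trans (cg_dvd (hδ x hx))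
              exact_mod_cast Div277.nm_le_of_dvd hG.ne_zero h7
            rw [e5]
            exact mul_le_mul_of_nonneg_right (e6.trans hGn) (Nat.cast_nonneg _)
          have h4 : (nm (e x) : ℝ) ^ (2 * s0) ≤ (D0 ^ r) ^ (2 * s0) * ((nm (e' x) : ℝ) ^ s0) ^ 2 := by
            have h5 : ((nm (e' x) : ℝ) ^ s0) ^ 2 = (nm (e' x) : ℝ) ^ (2 * s0) := by
              rw [← Real.rpow_natCast, ← Real.rpow_mul hne'.le]; congr 1; push_cast; ring
            rw [h5, ← Real.mul_rpow (by positivity) hne'.le]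
            exact Real.rpow_le_rpow hne.le h3 (by linarith)
          have hW0 := hWx x hx
          calc Wx x * (nm (e x) : ℝ) ^ (2 * s0) * ‖CS (gC (sqc (q * G)
                (al h (shS (fun i => (s i).pc P) g))) (cB G (δ x))
                (cB (cg G (δ x)) (e x)) (π x) (tw s0 t)) (fr x)‖ ^ 2
              ≤ Wx x * ((D0 ^ r) ^ (2 * s0) * ((nm (e' x) : ℝ) ^ s0) ^ 2) * ‖CS (gC (sqc (q * G)
                (al h (shS (fun i => (s i).pc P) g))) (cB G (δ x))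
                (cB (cg G (δ x)) (e x)) (π x) (tw s0 t)) (fr x)‖ ^ 2 := by gcongr
            _ = _ := by rw [hδ', he']; ring
      _ = (D0 ^ r) ^ (2 * s0) * ∑ x ∈ T, (Wx x * ((nm (e' x) : ℝ) ^ s0 *
          ‖CS (gC (sqc (q * G) (al h (shS (fun i => (s i).pc P) g))) (δ' x)
            (e' x) (π x) (tw s0 t)) (fr x)‖) ^ 2) := by rw [Finset.mul_sum]
      _ ≤ (D0 ^ r) ^ (2 * s0) * M0 := by
          refine mul_le_mul_of_nonneg_left ?_ (by positivity)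
          rw [hM0']
          exact h1
  · intro s' W hW hR' hl
    refine hyp s' W hW hR' (hl.trans ?_)
    have h7 : ∑ i, (jx hP s g i).z = S0 - Real.log (nm G) := by
      have h8 := sum_jx hP s hgp
      rw [← hGd] at h8
      have h9 := congrArg Real.log h8
      rwa [Real.log_exp, Real.log_div (Real.exp_pos _).ne' hG0.ne', Real.log_exp] at h9
    rw [h7, Real.log_div hA0.ne' hG0.ne']
    linarith

open Classical in
/-- **flagged lists**, everything depending on the index -/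
theorem listRX {h : ℝ → ℝ} {c : ℝ} (hpu : PU h c) {μ : ℝ} (hμ : 0 ≤ μ) {s0 : ℝ} (hs0 : 0 ≤ s0)
    (hs1 : s0 ≤ 1 / 2) (n : ℕ) {ε : ℝ} (hε : 0 < ε) :
    ∃ C : ℝ, 1 ≤ C ∧ ∀ (P : DPar), P.OK → ∀ ps : List Pf, ps.length ≤ n →
      (∀ p ∈ ps, 0 ≤ p.1.z) → ∀ (z D0 : ℝ), 1 ≤ D0 →
      ∀ {β : Type} (T : Finset β) (Wx : β → ℝ), (∀ x ∈ T, 0 ≤ Wx x) →
      ∀ (q : Eis) (δ e π fr : β → Eis), q ≠ 0 → (∀ x ∈ T, IsPrim (δ x)) →
      (∀ x ∈ T, IsPrim (e x)) → (∀ x ∈ T, π x ≠ 0) →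
      ∀ X0 Λ t B Tm A0 : ℝ, 1 ≤ X0 → D0 ≤ X0 → (nm q : ℝ) ≤ X0 → (∀ x ∈ T, (nm (δ x) : ℝ) ≤ X0) →
      (∀ x ∈ T, (nm (e x) : ℝ) ≤ X0) → (∀ x ∈ T, (nm (π x) : ℝ) ≤ X0) →
      (∀ p ∈ ps, Real.exp p.1.z ≤ X0) → 0 < Λ → 0 ≤ B → 0 ≤ Tm → 0 < A0 →
      (∀ x ∈ T, A0 ≤ nm (δ x) * nm (e x)) →
      (∀ x ∈ T, fr x ∈ bl Λ) →
      (∀ κ ∈ bl Λ, ∑ x ∈ T.filter (fun x => fr x = κ), Wx x ≤ Tm) →
      (∀ (ps' : List Pq) (W : ℝ), 1 ≤ W → List.Forall₂ (Rl C W) ps' (ps.map Prod.fst) →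
        tl Dq ps' ≤ LF ps - Real.log A0 + C →
        RFp P h (Real.log Λ) ps' ≤ B * Real.exp (tl Dq ps') * W ^ (2 * μ)) →
      ∑ x ∈ T, Wx x * ((nm (e x) : ℝ) ^ s0 *
        ‖CS (gC (sqc q (alF z D0 P h ps)) (δ x) (e x) (π x) (tw s0 t)) (fr x)‖) ^ 2 ≤
        C * (D0 ^ n) ^ (2 + 2 * s0) * X0 ^ ε * (1 + |t|) ^ (2 * (n * μ)) *
          (Tm * B) * (Real.exp (LF ps) / A0) ^ (1 - 2 * s0) := by
  choose C hC H using fun r => flagGX hpu hμ hs0 hs1 r hε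
  have hle : ∀ r ≤ n, C r ≤ ∑ r ∈ Finset.range (n + 1), C r := fun r hr =>
    Finset.single_le_sum (f := C) (fun i _ => by linarith [hC i]) (Finset.mem_range.2 (by omega))
  have h100 : (1 : ℝ) ≤ (100 ^ n) ^ 2 := one_le_pow₀ (one_le_pow₀ (by norm_num))
  set C0 : ℝ := ∑ r ∈ Finset.range (n + 1), C r with hC0
  have hC01 : 1 ≤ C0 := (hC 0).trans (hle 0 (Nat.zero_le _))
  refine ⟨(100 ^ n) ^ 2 * C0, one_le_mul_of_one_le_of_one_le h100 hC01, ?_⟩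
  intro P hP ps hlen hz z D0 hD0 β T Wx hWx q δ e π fr hq hδ he hπ X0 Λ t B Tm A0 hX0 hDX hqX hδX
    heX hπX hsX hΛ hB hTm0 hA0 hA hfr hTm hyp
  have hD00 : 0 < D0 := by linarith
  set r := ps.length with hr
  have hCr : C r ≤ (100 ^ n) ^ 2 * C0 := (hle r hlen).trans (le_mul_of_one_le_left (by linarith) h100)
  have key := H r P hP (fun i => (ps.get i).1) (fun i => hz _ (List.get_mem _ _)) z D0
    (fun i => (ps.get i).2) hD0 T Wx hWx q δ e π fr hq hδ he hπ X0 Λ t B Tm A0 hX0 hDX hqX hδX heX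
    hπX (fun i => hsX _ (List.get_mem _ _)) hΛ hB hTm0 hA0 hA hfr hTm ?_
  · rw [← alF_get, ← LF_get] at key
    refine key.trans ?_
    have hX00 : 0 < X0 := by linarith
    have ht1 : (1 : ℝ) ≤ 1 + |t| := by linarith [abs_nonneg t]
    have h1 : ((100 * D0) ^ r) ^ 2 ≤ (100 ^ n) ^ 2 * (D0 ^ n) ^ (2 : ℝ) := by
      rw [Real.rpow_two, ← mul_pow, ← mul_pow]
      refine pow_le_pow_left₀ (by positivity) ?_ 2
      exact pow_le_pow_right₀ (by linarith) hlen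
    have h2 : (D0 ^ r) ^ (2 * s0) ≤ (D0 ^ n) ^ (2 * s0) :=
      Real.rpow_le_rpow (by positivity) (pow_le_pow_right₀ hD0 hlen) (by linarith)
    have h3 : (1 + |t|) ^ (2 * ((r : ℝ) * μ)) ≤ (1 + |t|) ^ (2 * ((n : ℝ) * μ)) := by
      refine Real.rpow_le_rpow_of_exponent_le ht1 ?_
      have : (r : ℝ) ≤ n := by exact_mod_cast hlen
      have := mul_le_mul_of_nonneg_right this hμ
      linarith
    have h4 : C r ≤ C0 := hle r hlen
    set V : ℝ := (Real.exp (LF ps) / A0) ^ (1 - 2 * s0) with hV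
    have hV0 : 0 ≤ V := by positivity
    have hCr0 : 0 ≤ C r := by linarith [hC r]
    calc ((100 * D0) ^ r) ^ 2 * ((D0 ^ r) ^ (2 * s0) * (C r * X0 ^ ε *
          (1 + |t|) ^ (2 * (r * μ)) * (Tm * B) * V))
        ≤ ((100 ^ n) ^ 2 * (D0 ^ n) ^ (2 : ℝ)) * ((D0 ^ n) ^ (2 * s0) * (C0 * X0 ^ ε *
          (1 + |t|) ^ (2 * (n * μ)) * (Tm * B) * V)) := by gcongr
      _ = (100 ^ n) ^ 2 * C0 * ((D0 ^ n) ^ (2 : ℝ) * (D0 ^ n) ^ (2 * s0)) * X0 ^ ε *
          (1 + |t|) ^ (2 * (n * μ)) * (Tm * B) * V := by ring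
      _ = _ := by rw [← Real.rpow_add (by positivity)]
  · intro s' W hW hR' hl
    rw [← LF_get] at hl
    refine hyp (List.ofFn s') W hW ?_ (by linarith)
    rw [List.forall₂_iff_get]
    refine ⟨by simp [hr], fun i hi hi' => ?_⟩
    have hi2 : i < r := by simpa using hi
    have := (hR' ⟨i, hi2⟩).mono hCr
    simpa using this

end Crest.Agent.R017.R3571
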