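import Crest.Agent.R017.QLs_777

/-!
# Row 17, section D: the Gram line (R3) in the normalization of `QL3` (helper116)

`E` of `QL3` is the target of `s₀ v` (`4/3 n + (v + K)/3 + F`), so the loss of the Gram line is
`x/3` resp. `x - I₀/2` with `x = 2 v - K`, `I₀ = v + n - K` (E3, second form):

* `r3_lines'` : the Gram line from `Ln` and one more line `l5`
* `Dom.l5` : the line on the domain of the (TB) induction
-/

set_option autoImplicit false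

noncomputable section

namespace Crest.Agent.R017.SC777

open Crest.Agent.R017.ER911

variable {d : ℝ} {r s : EF}

/-- the Gram line with the loss of E3 (second form): `x/3`, `x - I₀/2`, `x = 2 v - K`,
`I₀ = v + n - K` -/
theorem r3_lines' (R : ExpRules (7 / 8 + d) r s) (hd : 0 ≤ d) (hd8 : 8 * d ≤ 1)
    {K v n E C₁ w₁ D μ : ℝ} (H : Ln K v n E C₁ w₁ D (2 * μ)) (hμ : 0 ≤ μ)
    (l5 : 3 / 2 * n + 5 / 2 * v - 3 / 2 * K + 3 / 4 * (C₁ + w₁) + D + 2 * μ ≤ E)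
    (hD : 2 * d * (C₁ + w₁) ≤ D) {z₁ z₂ z₃ m a n' : ℝ} (h1 : 0 ≤ z₁) (h2 : 0 ≤ z₂)
    (h3 : 0 ≤ z₃) (hm : 0 ≤ m) (ha : 0 ≤ a) (hC : z₃ ≤ C₁) (hw : m + a ≤ w₁)
    (hn' : n' = z₁ + z₂ + z₃ + m + a) (hnn : n' ≤ n) (_hv : 0 ≤ v + n - K + μ) :
    Full (7 / 8 + d) r (v + n - K + μ) {z₁, z₂, z₃} m a
      (E - (n - n') - max 0 (max ((2 * v - K) / 3) ((3 * v - K - n) / 2)) - μ) := by
  have hD0 : 0 ≤ D := (mul_nonneg (mul_nonneg two_pos.le hd) (by linarith)).trans hD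
  have hc : Chi d z₁ z₂ z₃ m a n' (z₃ + m + a) D :=
    ⟨h1, h2, h3, hm, ha, hn', le_rfl,
      (mul_le_mul_of_nonneg_left (by linarith) (by linarith)).trans hD, hd, hd8⟩
  have hdm : 8 * d * m ≤ 1 * m := mul_le_mul_of_nonneg_right hd8 hm
  obtain ⟨n0, v0, v23, n56, c0, w0, c4, w3, wc, l0, l1, l2, l3, l4, l7, l8, l10⟩ := H
  rcases max_cases 0 (max ((2 * v - K) / 3) ((3 * v - K - n) / 2)) with ⟨h, _⟩ | ⟨h, _⟩ <;> rw [h]
  · refine full_TF R hc ?_ ?_ <;> linarith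
  · rcases max_cases ((2 * v - K) / 3) ((3 * v - K - n) / 2) with ⟨h, _⟩ | ⟨h, _⟩ <;> rw [h] <;>
      refine full_TF R hc ?_ ?_ <;> linarith

theorem Dom.l5 {K₁ n₁ C₁ w₁ K v n E D M e₀ : ℝ} (H : Dom K₁ n₁ C₁ w₁ K v n E D M e₀) :
    3 / 2 * n + 5 / 2 * v - 3 / 2 * K + 3 / 4 * (C₁ + w₁) + D + M ≤ E := by
  obtain ⟨c0, w0, wc, w3, h4, h56, h36, h8, h9, h10, kK, n0, nn, v0, v23, vn, sx, e0, el⟩ := H
  linarith

end Crest.Agent.R017.SC777
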