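import Crest.Agent.R017.R3e_571
import Crest.Agent.R017.ModeC_405
import Crest.Agent.R017.E3Te_829
import Crest.Agent.R017.E3Tf_829

/-!
# Row 17, E3: the hypothesis (hW°) of MODE* for the sequences of the cells (helper571)

* `RM`      : the c-side moment at one frequency
* `TT_bF`, `EQ_bF` : `b = bF κ F (b0 a d e f)` dilated by `γ` prime to `κ`
* `hWo_bF`  : (hW°) from the natural moments
* `RM_eq_gC`, `RM_le` : `RM` as moments of `gC`
-/

set_option autoImplicit false
set_option maxHeartbeats 400000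

noncomputable section

open Complex MeasureTheory
open scoped ComplexConjugate

namespace Crest.Agent.R017.R3571

open Crest.Agent.R012 Crest.Agent.R012.Eis Crest.Agent.R012.MC
open Crest.Agent.R012.LS2 (S mem_S bl mem_bl)
open Crest.Agent.R012.Mob705 (pdiv mem_pdiv)
open Crest.Agent.R012.Weight600 (pw norm_pw pw_add_left)
open Crest.Agent.R017.CM106 (CS TG FS)
open Crest.Agent.R017.TP320 (tw)
open Crest.Agent.R017.NtC320 (gC gC_ne gC_fin cg cB cg_prim cB_prim gp_cg gp_cB cB_dvd cg_dvd)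
open Crest.Agent.R017.StA828 (gp)
open Crest.Agent.R017.BD829 (TT EQ EQ_nonneg)
open Crest.Agent.R017.E1551 (jb jb_pos)
open Crest.Agent.R017.Mode405 (VI bs)
open Crest.Agent.R017.GrB829 (IsC)
open Crest.Agent.R017.PX764 (n6 Gh n6_mul norm_sy_one)
open Crest.Agent.R017.E3D579 (bF bt b0 bt_mul bt_supp FS_b0 sy_mulL sy_mulR sy_conj_sq n6_nonneg)
open Gauss880 (syG)

open Classical in
/-- the sequence of the c-side moment: `a` dilated by `γ`, multiples of `e`, prime to `π` -/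
def rm (a : Eis → ℂ) (e γ π : Eis) (t : ℝ) (m : Eis) : ℂ :=
  (if e ∣ γ * m ∧ IsCoprime m π then a (γ * m) * (n6 m : ℂ) else 0) * pw t (nm m)

open Classical in
/-- the c-side moment at one frequency -/
def RMm (A : ℝ) (a : Eis → ℂ) (e γ π r : Eis) : ℝ :=
  ∫ t, jb A t * ‖CS (fun m => (if e ∣ γ * m ∧ IsCoprime m π then a (γ * m) * (n6 m : ℂ) else 0) *
    pw t (nm m)) r‖ ^ 2

lemma RMm_eq (A : ℝ) (a : Eis → ℂ) (e γ π r : Eis) :
    RMm A a e γ π r = ∫ t, jb A t * ‖CS (rm a e γ π t) r‖ ^ 2 := rfl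

lemma RMm_nonneg (A : ℝ) (a : Eis → ℂ) (e γ π r : Eis) : 0 ≤ RMm A a e γ π r :=
  integral_nonneg fun t => mul_nonneg (jb_pos A t).le (by positivity)

/-- the sum is a finite sum of oscillations -/
lemma CS_rm {a : Eis → ℂ} (ha : FS a) {γ : Eis} (hγ : γ ≠ 0) (e π r : Eis) :
    ∃ (T : Finset Eis) (c : Eis → ℂ), ∀ t : ℝ, CS (rm a e γ π t) r = Win813.HF T (fun m => m) c t := by
  classical
  obtain ⟨T, hT, -⟩ := Win813.supp_fin ha hγ
  refine ⟨T, fun m => (if e ∣ γ * m ∧ IsCoprime m π then a (γ * m) * (n6 m : ℂ) else 0) * sy r m,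
    fun t => ?_⟩
  unfold CM106.CS Win813.HF rm
  rw [tsum_eq_sum (s := T)]
  · exact Finset.sum_congr rfl fun m _ => by ring
  · intro m hm
    have : a (γ * m) = 0 := by
      by_contra h; exact hm (hT m h)
    rw [this]; simp

lemma integrable_RM {A : ℝ} (hA : 1 < A) {a : Eis → ℂ} (ha : FS a) {γ : Eis} (hγ : γ ≠ 0)
    (e π r : Eis) : Integrable fun t => jb A t * ‖CS (rm a e γ π t) r‖ ^ 2 := by
  obtain ⟨T, c, h⟩ := CS_rm ha hγ e π r
  refine E1551.integrable_jb_mul hA (f := fun t => ‖CS (rm a e γ π t) r‖ ^ 2) ?_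
    (B := (∑ b ∈ T, ‖c b‖) ^ 2) fun t => ?_
  · have : (fun t => ‖CS (rm a e γ π t) r‖ ^ 2) = fun t =>
        ‖Win813.HF T (fun m => m) c t‖ ^ 2 := funext fun t => by rw [h]
    rw [this]
    exact (Win813.continuous_HF T _ c).norm.pow 2
  · rw [abs_of_nonneg (by positivity), h]
    exact pow_le_pow_left₀ (norm_nonneg _) (Win813.norm_HF_le T _ c t) 2

lemma RMm_neg (A : ℝ) (a : Eis → ℂ) (e γ π r : Eis) :
    RMm A a e γ π r = ∫ t, jb A t * ‖CS (rm a e γ π (-t)) r‖ ^ 2 := by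
  rw [RMm_eq, ← integral_neg_eq_self (fun t => jb A t * ‖CS (rm a e γ π t) r‖ ^ 2)]
  simp only [E1551.jb_neg]

lemma conj_pw (t x : ℝ) : conj (pw (-t) x) = pw t x := by
  unfold pw Weight600.osc
  rw [← Complex.exp_conj]
  congr 1
  simp

open Classical in
/-- **the Gauss side of a dilated cell sequence** -/
theorem TT_bF {a : Eis → ℂ} (ha : FS a) (hsf : ∀ n, a n ≠ 0 → Squarefree n) (d : Eis)
    {κ γ : Eis} (hκ : IsPrim κ) (hγ : IsPrim γ) (hγκ : IsCoprime γ κ) (e f F π H : Eis) (t : ℝ) :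
    ‖TT (fun m => if IsCoprime m π then bF κ F (b0 a d e f) (γ * m) else 0) H t‖ ≤
      n6 γ * ‖CS (rm a e γ (π * (κ * f)) (-t)) (H * (f * F * γ) ^ 2)‖ := by
  have hinj : Function.Injective (fun m : Eis => κ * m) := fun x y h =>
    mul_left_cancel₀ hκ.ne_zero h
  set u : ℂ := (if IsCoprime κ π ∧ IsCoprime f (d * γ) then
    (n6 γ : ℂ) * (sy F γ * sy κ γ * sy f γ * conj (G γ) * pw t (nm κ) * (G κ * conj (sy H κ)))
    else 0) with hu
  have key : ∀ m, (fun m => if IsCoprime m π then bF κ F (b0 a d e f) (γ * m) else 0) (κ * m) *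
      pw t (nm (κ * m)) * (G (κ * m) * conj (sy H (κ * m))) =
      u * conj (rm a e γ (π * (κ * f)) (-t) m * sy (H * (f * F * γ) ^ 2) m) := by
    intro m
    have e0 : γ * (κ * m) = κ * (γ * m) := by ring
    simp only
    unfold rm bF
    by_cases h0 : a (γ * m) = 0
    · rw [e0, bt_mul hκ.ne_zero]
      unfold b0
      rw [h0]; simp
    have hgm : IsPrim (γ * m) := ha.prim _ h0
    have hm : IsPrim m := hgm.of_mul_left hγ
    have hs := hsf _ h0
    have hms : Squarefree m := hs.of_mul_right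
    rw [e0, bt_mul hκ.ne_zero]
    have c1 : IsCoprime (κ * m) π ↔ IsCoprime κ π ∧ IsCoprime m π := IsCoprime.mul_left_iff
    have c2 : IsCoprime f (d * (γ * m)) ↔ IsCoprime f (d * γ) ∧ IsCoprime f m := by
      rw [← mul_assoc]; exact IsCoprime.mul_right_iff
    have c3 : IsCoprime m (π * (κ * f)) ↔ IsCoprime m π ∧ IsCoprime m κ ∧ IsCoprime m f := by
      rw [IsCoprime.mul_right_iff, IsCoprime.mul_right_iff]
    by_cases hu1 : IsCoprime κ π ∧ IsCoprime f (d * γ)
    swap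
    · rw [hu, if_neg hu1, zero_mul]
      unfold b0
      by_cases h1 : IsCoprime (κ * m) π
      · rw [if_pos h1, if_neg (fun h => hu1 ⟨(c1.1 h1).1, (c2.1 h.2).1⟩)]; ring
      · rw [if_neg h1]; ring
    rw [hu, if_pos hu1]
    by_cases h2 : (e ∣ γ * m ∧ IsCoprime m (π * (κ * f)))
    · have h3 := c3.1 h2.2
      unfold b0
      rw [if_pos h2, if_pos (c1.2 ⟨hu1.1, h3.1⟩), if_pos ⟨h2.1, c2.2 ⟨hu1.2, h3.2.2.symm⟩⟩]
      have g1 : G (γ * m) = G γ * G m * conj (sy γ m) := Gauss880.G_mul_all syG hγ hm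
      have g2 : G (κ * m) = G κ * G m * conj (sy κ m) := Gauss880.G_mul_all syG hκ hm
      have g3 : G m * conj (G m) = 1 := Gauss880.G_mul_conj syG hm hms
      have g4 : sy κ m * conj (sy κ m) = 1 := by
        rw [Complex.mul_conj, Complex.normSq_eq_norm_sq, norm_sy_one hm h3.2.1.symm]; simp
      have g5 : sy (f * F * γ) m * conj (sy H m) = conj (sy (H * (f * F * γ) ^ 2) m) :=
        sy_conj_sq hm
      have g6 : sy (f * F * γ) m = sy f m * sy F m * sy γ m := by
        rw [sy_mulL hm, sy_mulL hm]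
      have g7 : pw t (nm (κ * m)) = pw t (nm κ) * pw t (nm m) :=
        Win813.pw_split hκ.ne_zero hm.ne_zero t
      unfold Gh
      rw [g1, g2, g7, sy_mulR hγ hm, sy_mulR hγ hm, sy_mulR hγ hm, sy_mulR hκ hm, n6_mul]
      simp only [map_mul, Complex.conj_conj, Complex.conj_ofReal, conj_pw]
      rw [← g5, g6]
      push_cast
      linear_combination
        ((conj (a (γ * m)) * (n6 γ * n6 m) * conj (G γ) * sy γ m * sy f γ * sy f m * sy F γ *
          sy F m * sy κ γ * pw t (nm κ) * pw t (nm m) * G κ * conj (sy H κ) * conj (sy H m)) *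
            (G m * conj (G m))) * g4 +
        (conj (a (γ * m)) * (n6 γ * n6 m) * conj (G γ) * sy γ m * sy f γ * sy f m * sy F γ *
          sy F m * sy κ γ * pw t (nm κ) * pw t (nm m) * G κ * conj (sy H κ) * conj (sy H m)) * g3
    · rw [if_neg h2]
      simp only [zero_mul, map_zero, mul_zero]
      by_cases h4 : IsCoprime (κ * m) π
      · rw [if_pos h4]
        unfold b0
        by_cases h5 : e ∣ γ * m ∧ IsCoprime f (d * (γ * m))
        · have h6 : ¬ IsCoprime κ m := fun h7 => h2 ⟨h5.1, c3.2 ⟨(c1.1 h4).2, h7.symm,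
            (c2.1 h5.2).2.symm⟩⟩
          have h8 : sy κ m = 0 := (syG.eq_zero κ m hm).mpr h6
          rw [sy_mulR (x := κ) hγ hm, h8]; ring
        · rw [if_neg h5]; ring
      · rw [if_neg h4]; ring
  have e5 : TT (fun m => if IsCoprime m π then bF κ F (b0 a d e f) (γ * m) else 0) H t =
      u * conj (CS (rm a e γ (π * (κ * f)) (-t)) (H * (f * F * γ) ^ 2)) := by
    unfold BD829.TT CM106.TG CM106.CS
    rw [Complex.conj_tsum, ← tsum_mul_left, ← hinj.tsum_eq (f := fun m =>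
      (fun m => if IsCoprime m π then bF κ F (b0 a d e f) (γ * m) else 0) m *
      pw t (nm m) * (G m * conj (sy H m)))]
    · exact tsum_congr fun m => key m
    · intro m hm
      have h1 := left_ne_zero_of_mul (left_ne_zero_of_mul (show
        (fun m => if IsCoprime m π then bF κ F (b0 a d e f) (γ * m) else 0) m *
        pw t (nm m) * (G m * conj (sy H m)) ≠ 0 from hm))
      simp only at h1
      split_ifs at h1 with h2
      · unfold bF at h1
        obtain ⟨n, hn, -⟩ := bt_supp hκ.ne_zero h1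
        have h3 : κ ∣ m := hγκ.symm.dvd_of_dvd_mul_left ⟨n, hn⟩
        obtain ⟨m', rfl⟩ := h3
        exact ⟨m', rfl⟩
      · exact absurd rfl h1
  have hnu : ‖u‖ ≤ n6 γ := by
    have hn6 := n6_nonneg γ
    rw [hu]
    split_ifs
    · rw [norm_mul, Complex.norm_real, Real.norm_eq_abs, abs_of_nonneg hn6]
      refine mul_le_of_le_one_right hn6 ?_
      simp only [norm_mul, RCLike.norm_conj, norm_pw]
      have h1 := CF61.norm_sy_le F γ
      have h2 := CF61.norm_sy_le κ γ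
      have h3 := CF61.norm_sy_le f γ
      have h4 := CF61.norm_sy_le H κ
      have h5 := Gauss880.norm_G_le syG hγ
      have h6 := Gauss880.norm_G_le syG hκ
      calc ‖sy F γ‖ * ‖sy κ γ‖ * ‖sy f γ‖ * ‖G γ‖ * 1 * (‖G κ‖ * ‖sy H κ‖)
          ≤ 1 * 1 * 1 * 1 * 1 * (1 * 1) := by gcongr
        _ = 1 := by norm_num
    · rw [norm_zero]; exact hn6
  rw [e5, norm_mul, RCLike.norm_conj]
  exact mul_le_mul_of_nonneg_right hnu (norm_nonneg _)


open Classical in
/-- **`EQ` of a dilated cell sequence** -/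
theorem EQ_bF {A : ℝ} (hA : 1 < A) {a : Eis → ℂ} (ha : FS a)
    (hsf : ∀ n, a n ≠ 0 → Squarefree n) (d : Eis)
    {κ γ : Eis} (hκ : IsPrim κ) (hγ : IsPrim γ) (hγκ : IsCoprime γ κ) (e f F π H : Eis) :
    EQ A (fun m => if IsCoprime m π then bF κ F (b0 a d e f) (γ * m) else 0) H ≤
      n6 γ ^ 2 * RMm A a e γ (π * (κ * f)) (H * (f * F * γ) ^ 2) := by
  rw [RMm_neg, ← integral_const_mul]
  unfold BD829.EQ
  refine integral_mono_of_nonneg (Filter.Eventually.of_forall fun t => ?_) ?_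
    (Filter.Eventually.of_forall fun t => ?_)
  · exact mul_nonneg (jb_pos A t).le (by positivity)
  · refine Integrable.const_mul ?_ _
    have h1 := (integrable_RM hA ha hγ.ne_zero e (π * (κ * f)) (H * (f * F * γ) ^ 2)).comp_neg
    simpa only [E1551.jb_neg] using h1
  · beta_reduce
    have h1 := TT_bF ha hsf d hκ hγ hγκ e f F π H t
    have h2 := pow_le_pow_left₀ (norm_nonneg _) h1 2
    rw [mul_pow] at h2
    calc jb A t * ‖TT (fun m => if IsCoprime m π then bF κ F (b0 a d e f) (γ * m) else 0) H t‖ ^ 2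
        ≤ jb A t * (n6 γ ^ 2 * ‖CS (rm a e γ (π * (κ * f)) (-t)) (H * (f * F * γ) ^ 2)‖ ^ 2) :=
          mul_le_mul_of_nonneg_left h2 (jb_pos A t).le
      _ = _ := by ring

/-- changing the coprimality and the frequency -/
lemma RMm_congr (A : ℝ) {a : Eis → ℂ} (ha : FS a) {e γ π π' r r' : Eis} (hγ : IsPrim γ)
    (h : ∀ m, IsPrim m → ((IsCoprime m π ∧ sy r m ≠ 0) ∨ (IsCoprime m π' ∧ sy r' m ≠ 0) →
      IsCoprime m π ∧ IsCoprime m π' ∧ sy r m = sy r' m)) :
    RMm A a e γ π r = RMm A a e γ π' r' := by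
  classical
  rw [RMm_eq, RMm_eq]
  refine integral_congr_ae (Filter.Eventually.of_forall fun t => ?_)
  beta_reduce
  congr 3
  unfold CM106.CS
  refine tsum_congr fun m => ?_
  unfold rm
  by_cases h0 : a (γ * m) = 0
  · rw [h0]; simp
  have hm : IsPrim m := (ha.prim _ h0).of_mul_left hγ
  by_cases h1 : IsCoprime m π ∧ sy r m ≠ 0
  · obtain ⟨h2, h3, h4⟩ := h m hm (Or.inl h1)
    by_cases h5 : e ∣ γ * m
    · rw [if_pos ⟨h5, h2⟩, if_pos ⟨h5, h3⟩, h4]
    · rw [if_neg (fun h => h5 h.1), if_neg (fun h => h5 h.1)]; ring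
  · by_cases h1' : IsCoprime m π' ∧ sy r' m ≠ 0
    · obtain ⟨h2, h3, h4⟩ := h m hm (Or.inr h1')
      exact absurd ⟨h2, h4 ▸ h1'.2⟩ h1
    · have e1 : (if e ∣ γ * m ∧ IsCoprime m π then a (γ * m) * (n6 m : ℂ) else 0) *
          pw t (nm m) * sy r m = 0 := by
        by_cases h5 : e ∣ γ * m ∧ IsCoprime m π
        · have : sy r m = 0 := by
            by_contra h6; exact h1 ⟨h5.2, h6⟩
          rw [this, mul_zero]
        · rw [if_neg h5]; ring
      have e2 : (if e ∣ γ * m ∧ IsCoprime m π' then a (γ * m) * (n6 m : ℂ) else 0) *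
          pw t (nm m) * sy r' m = 0 := by
        by_cases h5 : e ∣ γ * m ∧ IsCoprime m π'
        · have : sy r' m = 0 := by
            by_contra h6; exact h1' ⟨h5.2, h6⟩
          rw [this, mul_zero]
        · rw [if_neg h5]; ring
      rw [e1, e2]

lemma nm_sq_c {c : Eis} (hc : IsC c) : (nm (c ^ 2) : ℝ) ≤ 81 := by
  have h3 : nm (3 : Eis) = 9 := nm_three
  have hw1 : nm w = 1 := nm_w
  have h : nm (c ^ 2) ≤ 81 := by
    rw [nm_pow]
    rcases hc with rfl | rfl | rfl | rfl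
    · rw [nm_one]; norm_num
    · rw [h3]; norm_num
    · rw [nm_mul, h3, hw1]; norm_num
    · rw [nm_mul, h3, nm_pow, hw1]; norm_num
  exact_mod_cast h

lemma c_ne {c : Eis} (hc : IsC c) : c ≠ 0 := by
  have h3 : (3 : Eis) ≠ 0 := nm_pos.1 (by rw [nm_three]; norm_num)
  rcases hc with rfl | rfl | rfl | rfl
  · exact one_ne_zero
  · exact h3
  · exact mul_ne_zero h3 isUnit_w.ne_zero
  · exact mul_ne_zero h3 (pow_ne_zero _ isUnit_w.ne_zero)

/-- every nonzero element has a primary part for coprimality with primary elements -/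
lemma exists_pp {x : Eis} (hx : x ≠ 0) : ∃ y, IsPrim y ∧ (nm y : ℝ) ≤ nm x ∧
    ∀ m, IsPrim m → (IsCoprime m x ↔ IsCoprime m y) := by
  obtain ⟨k, u, y, hu, hy, rfl⟩ := CharSum852.exists_decomp hx
  refine ⟨y, hy, ?_, fun m hm => ?_⟩
  · have h1 : nm y ≤ nm (lam ^ k * (u * y)) :=
      Div277.nm_le_of_dvd hx ⟨lam ^ k * u, by ring⟩
    exact_mod_cast h1
  · constructor
    · intro h
      exact h.of_mul_right_right.of_mul_right_right
    · intro h
      refine (Char766.IsPrim.coprime_pow_lam hm k).mul_right (IsCoprime.mul_right ?_ h)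
      exact isCoprime_one_right.of_isCoprime_of_dvd_right (isUnit_iff_dvd_one.1 hu)


lemma cop_m {m x : Eis} (h : sy x m ≠ 0) (hm : IsPrim m) : IsCoprime m x := by
  by_contra h1
  exact h ((syG.eq_zero x m hm).mpr fun h2 => h1 h2.symm)

open Classical in
/-- **(hW°) for the cell sequences** -/
theorem hW_of {A : ℝ} (hA : 1 < A) {ε : ℝ} (hε : 0 < ε) : ∃ C : ℝ, 0 ≤ C ∧ ∀ Z : ℝ, 1 ≤ Z →
    ∀ a : Eis → ℂ, FS a → (∀ n, a n ≠ 0 → Squarefree n) →
    ∀ d e q g κ F c : Eis, IsPrim d → IsPrim e → IsPrim q → IsPrim g → IsPrim κ → IsPrim F →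
    IsC c → Squarefree (q * g * κ * F) → (nm (q * g * κ * F) : ℝ) ≤ Z →
    ∀ W0 : ℝ → ℝ, (∀ γ π, IsPrim γ → IsPrim π → (nm π : ℝ) ≤ Z ^ 4 → ∀ P : ℝ, 0 < P →
      (nm γ : ℝ) * n6 γ ^ 2 * ∑ r ∈ bl P, RMm A a e γ π r ≤ W0 P) →
    ∀ γ φ x C3 : Eis, IsPrim γ → IsCoprime γ κ → φ ≠ 0 → x ≠ 0 → C3 ≠ 0 →
    φ * γ ^ 2 = x * C3 ^ 3 → (nm C3 : ℝ) ≤ Z ^ 2 → ∀ P : ℝ, 0 < P →
    ∑ d₁ ∈ pdiv (q * g * κ * F), (nm d₁ : ℝ)⁻¹ *
      ((nm γ : ℝ) * VI A (bs (bF κ F (b0 a d e (q * c * g ^ 2))) d₁) γ φ 1 (nm d₁ * P / nm x)) ≤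
      C * Z ^ ε * W0 (81 * (P * ((nm F : ℝ) ^ 2 * (nm q : ℝ) ^ 2 * nm g))) := by
  obtain ⟨C, hC, hτ⟩ := Div277.tau_le_rpow hε
  refine ⟨C, by linarith, ?_⟩
  intro Z hZ a ha hsf d e q g κ F c hd he hq hg hκ hF hc hsq hnm W0 hW0 γ φ x C3 hγ hγκ hφ hx hC3
    hid hC3Z P hP
  have hN0 : q * g * κ * F ≠ 0 := (((hq.mul hg).mul hκ).mul hF).ne_zero
  have hγ0 := nm_cast_pos hγ.ne_zero
  have hx0 := nm_cast_pos hx
  set P' : ℝ := 81 * (P * ((nm F : ℝ) ^ 2 * (nm q : ℝ) ^ 2 * nm g)) with hP'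
  have hnF := nm_cast_pos hF.ne_zero
  have hnq := nm_cast_pos hq.ne_zero
  have hng := nm_cast_pos hg.ne_zero
  have hP'0 : 0 < P' := by positivity
  set b : Eis → ℂ := bF κ F (b0 a d e (q * c * g ^ 2)) with hb
  have hW00 : 0 ≤ W0 P' := by
    refine le_trans ?_ (hW0 γ 1 hγ isPrim_one (by
      rw [nm_one, Nat.cast_one]; exact one_le_pow₀ hZ) P' hP'0)
    have := n6_nonneg γ
    exact mul_nonneg (by positivity) (Finset.sum_nonneg fun r _ => RMm_nonneg _ _ _ _ _ _)
  -- one divisor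
  have key : ∀ d₁ ∈ pdiv (q * g * κ * F), (nm d₁ : ℝ)⁻¹ *
      ((nm γ : ℝ) * VI A (bs b d₁) γ φ 1 (nm d₁ * P / nm x)) ≤ W0 P' := by
    intro d₁ hd₁
    rw [mem_pdiv hN0] at hd₁
    obtain ⟨hd₁p, hd₁d⟩ := hd₁
    have hd₁1 := one_le_nm hd₁p.ne_zero
    have hd₁0 : (0 : ℝ) < nm d₁ := by linarith
    have hd₁s : Squarefree d₁ := hsq.squarefree_of_dvd hd₁d
    have hinv : (nm d₁ : ℝ)⁻¹ ≤ 1 := inv_le_one_of_one_le₀ hd₁1
    -- the value at `k`
    have hval : ∀ k, EQ A (fun m => if IsCoprime m 1 then bs b d₁ (γ * m) else 0) (k * φ) ≤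
        EQ A (fun m => if IsCoprime m 1 then b (γ * m) else 0) (k * φ * d₁ ^ 2) := by
      intro k
      have hu : ∀ m, (if IsCoprime m 1 then b (γ * m) else 0) ≠ 0 → IsPrim m := by
        intro m hm
        rw [if_pos isCoprime_one_right] at hm
        exact ((E3D579.FS.bF hκ (FS_b0 ha d e _)).prim _ hm).of_mul_left hγ
      have e1 : (fun m => if IsCoprime m 1 then bs b d₁ (γ * m) else 0) =
          fun m => sy d₁ γ * (sy d₁ m * (if IsCoprime m 1 then b (γ * m) else 0)) := by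
        funext m
        rw [if_pos isCoprime_one_right, if_pos isCoprime_one_right]
        unfold Mode405.bs
        by_cases h0 : b (γ * m) = 0
        · rw [h0]; ring
        · have hm : IsPrim m := ((E3D579.FS.bF hκ (FS_b0 ha d e _)).prim _ h0).of_mul_left hγ
          rw [sy_mulR hγ hm]; ring
      rw [e1, E3D579.EQ_smul, E3D579.EQ_sy hu]
      have h1 : ‖sy d₁ γ‖ ^ 2 ≤ 1 := pow_le_one₀ (norm_nonneg _) (CF61.norm_sy_le d₁ γ)
      exact mul_le_of_le_one_left (EQ_nonneg _ _ _) h1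
    by_cases hcop : IsCoprime d₁ κ
    swap
    · -- not coprime: everything vanishes
      have hz : ∀ k, EQ A (fun m => if IsCoprime m 1 then bs b d₁ (γ * m) else 0) (k * φ) = 0 := by
        intro k
        have e1 : (fun m => if IsCoprime m 1 then bs b d₁ (γ * m) else 0) = fun _ => (0 : ℂ) := by
          funext m
          rw [if_pos isCoprime_one_right]
          unfold Mode405.bs
          by_cases h0 : b (γ * m) = 0
          · rw [h0, zero_mul]
          · have hgm := (E3D579.FS.bF hκ (FS_b0 ha d e _)).prim _ h0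
            have h1 : κ ∣ γ * m := by
              rw [hb] at h0
              unfold E3D579.bF at h0
              obtain ⟨n, hn, -⟩ := bt_supp hκ.ne_zero h0
              exact ⟨n, hn⟩
            have h2 : sy d₁ (γ * m) = 0 := (syG.eq_zero d₁ _ hgm).mpr fun h3 =>
              hcop (h3.of_isCoprime_of_dvd_right h1)
            rw [h2, mul_zero]
        rw [e1]
        unfold BD829.EQ BD829.TT CM106.TG
        simp
      have : VI A (bs b d₁) γ φ 1 (nm d₁ * P / nm x) = 0 := by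
        unfold Mode405.VI
        exact Finset.sum_eq_zero fun k _ => hz k
      rw [this]; simpa using hW00
    -- the decomposition
    have hd₁' : d₁ ∣ q * g * F := by
      have h1 : d₁ ∣ κ * (q * g * F) := by
        rw [show κ * (q * g * F) = q * g * κ * F by ring]; exact hd₁d
      exact hcop.dvd_of_dvd_mul_left h1
    obtain ⟨dq, q1, hdq, hq1, hqq, dg, g1, hdg, hg1, hgg, dF, F1, hdF, hF1, hFF, hdd⟩ :
        ∃ dq q1, IsPrim dq ∧ IsPrim q1 ∧ q = dq * q1 ∧ ∃ dg g1, IsPrim dg ∧ IsPrim g1 ∧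
          g = dg * g1 ∧ ∃ dF F1, IsPrim dF ∧ IsPrim F1 ∧ F = dF * F1 ∧ d₁ = dq * dg * dF := by
      obtain ⟨u, v, hu, hv, hud, hvd, huv⟩ := Div277.exists_prim_factor hd₁p hd₁'
      obtain ⟨s, t, hs, ht, hsd, htd, hst⟩ := Div277.exists_prim_factor hu hud
      obtain ⟨q1, hq1⟩ := hsd
      obtain ⟨g1, hg1⟩ := htd
      obtain ⟨F1, hF1⟩ := hvd
      exact ⟨s, q1, hs, (hq1 ▸ hq : IsPrim (s * q1)).of_mul_left hs, hq1, t, g1, ht,
        (hg1 ▸ hg : IsPrim (t * g1)).of_mul_left ht, hg1, v, F1, hv,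
        (hF1 ▸ hF : IsPrim (v * F1)).of_mul_left hv, hF1, by rw [huv, hst]⟩
    have hcne := c_ne hc
    set f : Eis := q * c * g ^ 2 with hf
    set y : Eis := x * (c ^ 2 * (dq * q1 ^ 2 * dF * F1 ^ 2 * g1)) with hy
    set D : Eis := C3 * dq * dg ^ 2 * g1 * dF with hD
    have hy0 : y ≠ 0 := by
      refine mul_ne_zero hx (mul_ne_zero (pow_ne_zero _ hcne) ?_)
      exact mul_ne_zero (mul_ne_zero (mul_ne_zero (mul_ne_zero hdq.ne_zero
        (pow_ne_zero _ hq1.ne_zero)) hdF.ne_zero) (pow_ne_zero _ hF1.ne_zero)) hg1.ne_zero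
    have hR : ∀ k : Eis, k * φ * d₁ ^ 2 * (f * F * γ) ^ 2 = k * y * D ^ 3 := by
      intro k
      have e1 : k * φ * d₁ ^ 2 * (f * F * γ) ^ 2 = k * (φ * γ ^ 2) * (d₁ * f * F) ^ 2 := by ring
      rw [e1, hid, hf, hy, hD, hdd, hqq, hgg, hFF]
      ring
    have hπ0 : κ * q * g * dF * C3 ≠ 0 := mul_ne_zero (mul_ne_zero (mul_ne_zero
      (mul_ne_zero hκ.ne_zero hq.ne_zero) hg.ne_zero) hdF.ne_zero) hC3
    obtain ⟨π, hπp, hπn, hπc⟩ := exists_pp hπ0
    have hπZ : (nm π : ℝ) ≤ Z ^ 4 := by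
      refine hπn.trans ?_
      have hF1' := one_le_nm hF1.ne_zero
      have h1 : (nm (κ * q * g * dF) : ℝ) ≤ nm (q * g * κ * F) := by
        rw [hFF]
        simp only [nm_mul]
        push_cast
        have h2 : (0 : ℝ) ≤ nm κ * nm q * nm g * nm dF := by positivity
        calc (nm κ : ℝ) * nm q * nm g * nm dF ≤ nm κ * nm q * nm g * nm dF * nm F1 :=
              le_mul_of_one_le_right h2 hF1'
          _ = _ := by ring
      rw [nm_mul]
      push_cast
      calc (nm (κ * q * g * dF) : ℝ) * nm C3 ≤ Z * Z ^ 2 := by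
            have : (0 : ℝ) ≤ nm C3 := Nat.cast_nonneg _
            gcongr
            exact h1.trans hnm
        _ = Z ^ 3 := by ring
        _ ≤ Z ^ 4 := pow_le_pow_right₀ hZ (by norm_num)
    have hRM : ∀ k, RMm A a e γ (1 * (κ * f)) (k * φ * d₁ ^ 2 * (f * F * γ) ^ 2) =
        RMm A a e γ π (k * y) := by
      intro k
      refine RMm_congr A ha hγ fun m hm h => ?_
      have hcc : IsCoprime m π ↔ IsCoprime m (κ * q * g * dF * C3) := (hπc m hm).symm
      have e2 : IsCoprime m D → sy (k * y * D ^ 3) m = sy (k * y) m := fun h1 =>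
        PX764.sy_cube_left hm _ h1.symm
      rw [hR k]
      rcases h with ⟨h1, h2⟩ | ⟨h1, h2⟩
      · rw [hR k] at h2
        have h3 := cop_m h2 hm
        have h4 : IsCoprime m D := (IsCoprime.pow_right_iff (by norm_num)).1 h3.of_mul_right_right
        rw [hD] at h4
        have h5 : IsCoprime m (κ * f) := h1.of_mul_right_right
        have h6 : IsCoprime m f := h5.of_mul_right_right
        rw [hf] at h6
        have h7 : IsCoprime m g := (IsCoprime.pow_right_iff (by norm_num)).1 h6.of_mul_right_right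
        have h8 : IsCoprime m q := h6.of_mul_right_left.of_mul_right_left
        have h9 : IsCoprime m dF := h4.of_mul_right_right
        have h10 : IsCoprime m C3 :=
          h4.of_mul_right_left.of_mul_right_left.of_mul_right_left.of_mul_right_left
        exact ⟨h1, hcc.2 ((((h5.of_mul_right_left.mul_right h8).mul_right h7).mul_right
          h9).mul_right h10), e2 h4⟩
      · have h3 := cop_m h2 hm
        have h4 := hcc.1 h1
        have h10 : IsCoprime m C3 := h4.of_mul_right_right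
        have h9 : IsCoprime m dF := h4.of_mul_right_left.of_mul_right_right
        have h7 : IsCoprime m g := h4.of_mul_right_left.of_mul_right_left.of_mul_right_right
        have h8 : IsCoprime m q :=
          h4.of_mul_right_left.of_mul_right_left.of_mul_right_left.of_mul_right_right
        have h11 : IsCoprime m κ :=
          h4.of_mul_right_left.of_mul_right_left.of_mul_right_left.of_mul_right_left
        have h12 : IsCoprime m y := h3.of_mul_right_right
        rw [hy] at h12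
        have h13 : IsCoprime m c :=
          (IsCoprime.pow_right_iff (by norm_num)).1 h12.of_mul_right_right.of_mul_right_left
        have h14 : IsCoprime m f := (h8.mul_right h13).mul_right (h7.pow_right)
        have h15 : IsCoprime m dq := h8.of_isCoprime_of_dvd_right ⟨q1, hqq⟩
        have h16 : IsCoprime m dg := h7.of_isCoprime_of_dvd_right ⟨g1, hgg⟩
        have h17 : IsCoprime m g1 := h7.of_isCoprime_of_dvd_right ⟨dg, by rw [hgg]; ring⟩
        have h18 : IsCoprime m D :=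
          (((h10.mul_right h15).mul_right h16.pow_right).mul_right h17).mul_right h9
        exact ⟨isCoprime_one_right.mul_right (h11.mul_right h14), h1, e2 h18⟩
    have hinj : Set.InjOn (fun k : Eis => k * y) (bl (nm d₁ * P / nm x) : Set Eis) :=
      fun u _ v _ huv => mul_right_cancel₀ hy0 huv
    have hny : (nm y : ℝ) * (nm d₁ * P / nm x) ≤ P' := by
      have h1 := nm_sq_c hc
      have e1 : (nm y : ℝ) * (nm d₁ * P / nm x) = nm (c ^ 2) * (P * ((nm F : ℝ) ^ 2 *
          (nm q : ℝ) ^ 2 * nm g)) := by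
        rw [hy, hdd, hqq, hgg, hFF]
        simp only [nm_mul, nm_pow]
        push_cast
        field_simp
      rw [e1, hP']
      gcongr
    have hsum : VI A (bs b d₁) γ φ 1 (nm d₁ * P / nm x) ≤
        n6 γ ^ 2 * ∑ r ∈ bl P', RMm A a e γ π r := by
      unfold Mode405.VI
      calc ∑ k ∈ bl (nm d₁ * P / nm x),
            EQ A (fun m => if IsCoprime m 1 then bs b d₁ (γ * m) else 0) (k * φ)
          ≤ ∑ k ∈ bl (nm d₁ * P / nm x), n6 γ ^ 2 * RMm A a e γ π (k * y) := by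
            refine Finset.sum_le_sum fun k _ => (hval k).trans ?_
            rw [← hRM k]
            exact EQ_bF hA ha hsf d hκ hγ hγκ e f F 1 (k * φ * d₁ ^ 2)
        _ = n6 γ ^ 2 * ∑ r ∈ (bl (nm d₁ * P / nm x)).image (fun k => k * y),
            RMm A a e γ π r := by rw [← Finset.mul_sum, Finset.sum_image hinj]
        _ ≤ n6 γ ^ 2 * ∑ r ∈ bl P', RMm A a e γ π r := by
            refine mul_le_mul_of_nonneg_left ?_ (by positivity)
            refine Finset.sum_le_sum_of_subset_of_nonneg ?_ fun r _ _ => RMm_nonneg _ _ _ _ _ _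
            intro r hr
            obtain ⟨k, hk, rfl⟩ := Finset.mem_image.1 hr
            have hP1 : 0 ≤ (nm d₁ : ℝ) * P / nm x := by positivity
            rw [mem_bl hP1] at hk
            rw [mem_bl hP'0.le]
            refine ⟨mul_ne_zero hk.1 hy0, ?_⟩
            rw [nm_mul]
            push_cast
            have hy1 : (0 : ℝ) ≤ nm y := Nat.cast_nonneg _
            calc (nm k : ℝ) * nm y ≤ (nm d₁ * P / nm x) * nm y :=
                  mul_le_mul_of_nonneg_right hk.2 hy1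
              _ = nm y * (nm d₁ * P / nm x) := by ring
              _ ≤ P' := hny
    have hfin := hW0 γ π hγ hπp hπZ P' hP'0
    have hV0 : 0 ≤ (nm γ : ℝ) * (n6 γ ^ 2 * ∑ r ∈ bl P', RMm A a e γ π r) := by
      have : 0 ≤ ∑ r ∈ bl P', RMm A a e γ π r :=
        Finset.sum_nonneg fun r _ => RMm_nonneg _ _ _ _ _ _
      positivity
    calc (nm d₁ : ℝ)⁻¹ * ((nm γ : ℝ) * VI A (bs b d₁) γ φ 1 (nm d₁ * P / nm x))
        ≤ (nm d₁ : ℝ)⁻¹ * ((nm γ : ℝ) * (n6 γ ^ 2 * ∑ r ∈ bl P', RMm A a e γ π r)) := by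
          gcongr
      _ ≤ 1 * ((nm γ : ℝ) * (n6 γ ^ 2 * ∑ r ∈ bl P', RMm A a e γ π r)) :=
          mul_le_mul_of_nonneg_right hinv hV0
      _ = (nm γ : ℝ) * n6 γ ^ 2 * ∑ r ∈ bl P', RMm A a e γ π r := by ring
      _ ≤ W0 P' := hfin
  -- the sum
  calc ∑ d₁ ∈ pdiv (q * g * κ * F), (nm d₁ : ℝ)⁻¹ *
      ((nm γ : ℝ) * VI A (bs b d₁) γ φ 1 (nm d₁ * P / nm x))
      ≤ ∑ d₁ ∈ pdiv (q * g * κ * F), W0 P' := Finset.sum_le_sum key
    _ = ((pdiv (q * g * κ * F)).card : ℝ) * W0 P' := by rw [Finset.sum_const, nsmul_eq_mul]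
    _ ≤ C * Z ^ ε * W0 P' := by
        refine mul_le_mul_of_nonneg_right ?_ hW00
        have h1 : ((pdiv (q * g * κ * F)).card : ℝ) ≤ C * (nm (q * g * κ * F) : ℝ) ^ ε :=
          hτ _ hN0
        refine h1.trans ?_
        have : (0 : ℝ) ≤ nm (q * g * κ * F) := Nat.cast_nonneg _
        gcongr

end Crest.Agent.R017.R3571
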