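import Crest.Agent.R017.R4a_571
import Crest.Agent.R017.AL_813

/-!
# Row 17, E3: the R-hypothesis of RESULT from lists (helper571)

* `rm_gC`   : the sequence of `RMm` is a `gC`
* `RM_sum`  : `RMm` from bounds with polynomial heights
* `RH_bt`   : twisted windows of flagged lists
-/

set_option autoImplicit false
set_option maxHeartbeats 400000

noncomputable section

open Complex MeasureTheory
open scoped ComplexConjugate

namespace Crest.Agent.R017.R3571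

open Crest.Agent.R012 Crest.Agent.R012.Eis Crest.Agent.R012.MC
open Crest.Agent.R012.LS2 (S mem_S bl mem_bl)
open Crest.Agent.R012.Weight600 (pw norm_pw pw_add_left)
open Crest.Agent.R017.CM106 (CS TG FS)
open Crest.Agent.R017.FE47
open Crest.Agent.R017.B770
open Crest.Agent.R017.Prov71
open Crest.Agent.R017.HP842 (sqc)
open Crest.Agent.R017.TP320 (tw)
open Crest.Agent.R017.XHB411 (tl)
open Crest.Agent.R017.XRG106 (Rl RFp)
open Crest.Agent.R017.NtC320 (gC gC_ne gC_fin cg cB cg_prim cB_prim gp_cg gp_cB cB_dvd cg_dvd cop)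
open Crest.Agent.R017.StA828 (gp)
open Crest.Agent.R017.E1551 (jb jb_pos)
open Crest.Agent.R017.PX764 (n6)
open Crest.Agent.R017.E3D579 (n6_nonneg)
open Crest.Agent.R017.Leg381 (Pf alF LF alF_get LF_get)
open Crest.Agent.R017.Win813 (WK wn iA iA_nonneg)
open Crest.Agent.R017.RGw813 (bt)

lemma tw_zero (s0 : ℝ) (m : Eis) : tw s0 0 m = (((nm m : ℝ) ^ (-s0) : ℝ) : ℂ) := by
  unfold TP320.tw
  rw [Complex.ofReal_cpow (Nat.cast_nonneg _)]
  push_cast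
  congr 1
  ring

lemma tw_n6 (t : ℝ) {m : Eis} (hm : m ≠ 0) : tw (1 / 6) t m = (n6 m : ℂ) * pw t (nm m) := by
  rw [tw_pw _ t hm, tw_zero]
  unfold PX764.n6
  congr 3
  norm_num

/-- divisibility after dilation -/
lemma dvd_mul_iff_cB {G e m : Eis} (he : IsPrim e) : e ∣ G * m ↔ cB G e ∣ m := by
  have h1 := gp_cB (g := G) he
  have h2 := gp_cg (g := G) he
  have h3 := (cop (g := G) he)
  have h0 : gp G e ≠ 0 := fun h => he.ne_zero (by rw [← h1, h, zero_mul])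
  constructor
  · intro h
    have h4 : gp G e * cB G e ∣ gp G e * (cg G e * m) := by
      rw [h1, ← mul_assoc, h2]; exact h
    have h5 : cB G e ∣ cg G e * m := (mul_dvd_mul_iff_left h0).1 h4
    exact h3.symm.dvd_of_dvd_mul_left h5
  · rintro ⟨k, rfl⟩
    refine ⟨cg G e * k, ?_⟩
    calc G * (cB G e * k) = (gp G e * cg G e) * (cB G e * k) := by rw [h2]
      _ = (gp G e * cB G e) * (cg G e * k) := by ring
      _ = e * (cg G e * k) := by rw [h1]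

/-- the sequence of `RMm` -/
lemma rm_gC {α : Eis → ℂ} (hα : ∀ n, α n ≠ 0 → IsPrim n) {d γ e : Eis} (hd : IsPrim d)
    (hγ : IsPrim γ) (he : IsPrim e) (π : Eis) (t : ℝ) :
    rm (fun m => α (d * m)) e γ π t = gC α (d * γ) (cB γ e) π (tw (1 / 6) t) := by
  classical
  funext m
  unfold rm NtC320.gC
  have e0 : d * (γ * m) = d * γ * m := by ring
  beta_reduce
  rw [e0]
  by_cases h0 : α (d * γ * m) = 0
  · rw [h0]; simp
  have hm : IsPrim m := IsPrim.of_mul_left (hα _ h0) (hd.mul hγ)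
  by_cases h1 : e ∣ γ * m ∧ IsCoprime m π
  · rw [if_pos h1, if_pos ⟨(dvd_mul_iff_cB he).1 h1.1, h1.2⟩, tw_n6 t hm.ne_zero]; ring
  · rw [if_neg h1, if_neg (fun h => h1 ⟨(dvd_mul_iff_cB he).2 h.1, h.2⟩)]; ring

/-- the constant `∫ (1+|t|)⁻²` -/
def jc : ℝ := ∫ t, jb 2 t

lemma jc_nonneg : 0 ≤ jc := integral_nonneg fun t => (jb_pos 2 t).le

/-- `RMm` from polynomial heights -/
theorem RM_sum {A : ℝ} {J : ℕ} (hA : (J : ℝ) + 2 ≤ A) {α : Eis → ℂ} (hα : FS α) {d γ e : Eis}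
    (hd : IsPrim d) (hγ : IsPrim γ) (he : IsPrim e) (π : Eis) {β : Type} (T : Finset β)
    (fr : β → Eis) {M : ℝ}
    (hM : ∀ t : ℝ, ∑ x ∈ T, ‖CS (gC α (d * γ) (cB γ e) π (tw (1 / 6) t)) (fr x)‖ ^ 2 ≤
      M * (1 + |t|) ^ J) :
    ∑ x ∈ T, RMm A (fun m => α (d * m)) e γ π (fr x) ≤ M * jc := by
  have hJ : (0 : ℝ) ≤ J := Nat.cast_nonneg J
  have hA1 : 1 < A := by linarith
  have hFS : FS (fun m => α (d * m)) :=
    { fin := hα.fin.preimage (f := fun m => d * m) (fun x _ y _ hxy =>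
        mul_left_cancel₀ hd.ne_zero hxy)
      prim := fun m hm => IsPrim.of_mul_left (hα.prim _ hm) hd }
  have e1 : ∀ x, RMm A (fun m => α (d * m)) e γ π (fr x) =
      ∫ t, jb A t * ‖CS (gC α (d * γ) (cB γ e) π (tw (1 / 6) t)) (fr x)‖ ^ 2 := by
    intro x
    rw [RMm_eq]
    refine integral_congr_ae (Filter.Eventually.of_forall fun t => ?_)
    beta_reduce
    rw [rm_gC hα.prim hd hγ he]
  have hint : ∀ x ∈ T, Integrable fun t =>
      jb A t * ‖CS (gC α (d * γ) (cB γ e) π (tw (1 / 6) t)) (fr x)‖ ^ 2 := by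
    intro x _
    have h1 := integrable_RM hA1 hFS hγ.ne_zero e π (fr x)
    refine h1.congr (Filter.Eventually.of_forall fun t => ?_)
    beta_reduce
    rw [rm_gC hα.prim hd hγ he]
  rw [Finset.sum_congr rfl fun x _ => e1 x, ← integral_finsetSum T hint]
  unfold jc
  rw [← integral_const_mul]
  refine integral_mono (integrable_finsetSum T hint)
    ((E1551.integrable_jb (by norm_num)).const_mul _) fun t => ?_
  beta_reduce
  rw [← Finset.mul_sum]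
  have ht1 : (1 : ℝ) ≤ 1 + |t| := by linarith [abs_nonneg t]
  have ht0 : (0 : ℝ) < 1 + |t| := by linarith
  have hj := (jb_pos A t).le
  have h3 : jb A t * (1 + |t|) ^ J ≤ jb 2 t := by
    unfold E1551.jb
    rw [← Real.rpow_natCast, ← Real.rpow_add ht0]
    exact Real.rpow_le_rpow_of_exponent_le ht1 (by linarith)
  have hM0 : 0 ≤ M := by
    have h4 := hM 0
    rw [abs_zero, add_zero, one_pow, mul_one] at h4
    exact (Finset.sum_nonneg fun x _ => by positivity).trans h4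
  calc jb A t * ∑ x ∈ T, ‖CS (gC α (d * γ) (cB γ e) π (tw (1 / 6) t)) (fr x)‖ ^ 2
      ≤ jb A t * (M * (1 + |t|) ^ J) := mul_le_mul_of_nonneg_left (hM t) hj
    _ = M * (jb A t * (1 + |t|) ^ J) := by ring
    _ ≤ M * jb 2 t := mul_le_mul_of_nonneg_left h3 hM0


/-- a vanishing sequence -/
lemma RMm_zero {A : ℝ} {a : Eis → ℂ} {e γ π r : Eis} (h : ∀ m, a (γ * m) = 0) :
    RMm A a e γ π r = 0 := by
  classical
  have : ∀ t, CS (rm a e γ π t) r = 0 := by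
    intro t
    unfold CM106.CS rm
    refine (tsum_congr fun m => ?_).trans tsum_zero
    rw [h m]; simp
  rw [RMm_eq]
  simp [this]

/-- the weights -/
lemma wt_le {E nd nγ ne e0 : ℝ} (hE : 0 < E) (hd : 0 < nd) (hγ : 0 < nγ) (he : 1 ≤ ne)
    (he0 : e0 = nγ ^ (-(1 / 6 : ℝ))) :
    nγ * e0 ^ 2 * ((E / (nd * nγ)) ^ (-(2 * (1 / 6 : ℝ))) * (E / (nd * nγ * ne))) ≤
      (E / nd) ^ (2 / 3 : ℝ) := by
  have h1 : e0 ^ 2 = nγ ^ (-(1 / 3 : ℝ)) := by
    rw [he0, ← Real.rpow_natCast, ← Real.rpow_mul hγ.le]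
    congr 1; norm_num
  have h2 : E / (nd * nγ) = (E / nd) / nγ := by rw [div_div]
  have hEd : 0 < E / nd := by positivity
  have h3 : (E / (nd * nγ)) ^ (-(2 * (1 / 6 : ℝ))) =
      (E / nd) ^ (-(1 / 3 : ℝ)) * nγ ^ (1 / 3 : ℝ) := by
    rw [h2, Real.div_rpow hEd.le hγ.le, show (-(2 * (1 / 6 : ℝ))) = -(1 / 3 : ℝ) by norm_num,
      Real.rpow_neg hγ.le, div_eq_mul_inv, inv_inv]
  have h4 : nγ ^ (-(1 / 3 : ℝ)) * nγ ^ (1 / 3 : ℝ) = 1 := by
    rw [← Real.rpow_add hγ]; norm_num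
  have h5 : (E / nd) ^ (-(1 / 3 : ℝ)) * (E / nd) = (E / nd) ^ (2 / 3 : ℝ) := by
    conv_lhs => rw [← Real.rpow_one (E / nd), ← Real.rpow_mul hEd.le, ← Real.rpow_add hEd]
    norm_num
  rw [h1, h3]
  calc nγ * nγ ^ (-(1 / 3 : ℝ)) * ((E / nd) ^ (-(1 / 3 : ℝ)) * nγ ^ (1 / 3 : ℝ) *
        (E / (nd * nγ * ne)))
      = (nγ ^ (-(1 / 3 : ℝ)) * nγ ^ (1 / 3 : ℝ)) * ((E / nd) ^ (-(1 / 3 : ℝ)) * (E / nd)) / ne := by
        field_simp
    _ = (E / nd) ^ (2 / 3 : ℝ) / ne := by rw [h4, h5, one_mul]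
    _ ≤ (E / nd) ^ (2 / 3 : ℝ) := div_le_self (by positivity) he

open Classical in
/-- **(RH) for twisted windows of flagged lists**, at one `(γ, π)` -/
theorem RH_bt {h : ℝ → ℝ} {c : ℝ} (hpu : PU h c) {μ : ℝ} (hμ : 0 ≤ μ) (n : ℕ) {ε : ℝ}
    (hε : 0 < ε) :
    ∃ C : ℝ, 1 ≤ C ∧ ∀ (P : DPar), P.OK → ∀ ps : List Pf, ps.length ≤ n →
      (∀ p ∈ ps, 0 ≤ p.1.z) → ∀ (z D0 : ℝ), 1 ≤ D0 →
      ∀ q d e f : Eis, q ≠ 0 → IsPrim d → IsPrim e → f ≠ 0 →
      ∀ X0 : ℝ, 1 ≤ X0 → D0 ≤ X0 → (nm q : ℝ) ≤ X0 → (nm d : ℝ) ≤ X0 → (nm e : ℝ) ≤ X0 →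
      (∀ p ∈ ps, Real.exp p.1.z ≤ X0) →
      ∀ (Cw η : ℝ) (Aw J : ℕ), 0 ≤ Cw → 0 < η → η ≤ 1 → J + 2 ≤ Aw → 2 * (n * μ) ≤ J →
      ∀ (φ : ℝ → ℝ), WK Cw η Aw φ → ∀ (a : ℕ × ℕ), a.2 ≤ 2 → ∀ (t₀ A : ℝ), (J : ℝ) + 2 ≤ A →
      ∀ γ π : Eis, IsPrim γ → IsPrim π → (nm π : ℝ) ≤ X0 →
      ∀ Λ B : ℝ, 0 < Λ → 0 ≤ B →
      (∀ (ps' : List Pq) (W : ℝ), 1 ≤ W → List.Forall₂ (Rl C W) ps' (ps.map Prod.fst) →
        tl Dq ps' ≤ LF ps - Real.log (nm d * nm e) + C →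
        RFp P h (Real.log (81 * Λ * nm f)) ps' ≤ B * Real.exp (tl Dq ps') * W ^ (2 * μ)) →
      (nm γ : ℝ) * n6 γ ^ 2 * ∑ k ∈ bl Λ, RMm A
          (fun m => bt φ (sqc q (alF z D0 P h ps)) a (d * m) * pw t₀ (nm (d * m))) e γ π (k * f) ≤
        (Cw ^ 2 * (η⁻¹) ^ J) * (C * (D0 ^ n) ^ (3 : ℝ) * X0 ^ ε * (1 + |t₀|) ^ J * B) *
          (Real.exp (LF ps) / nm d) ^ (2 / 3 : ℝ) := by
  obtain ⟨R, hR0, hR⟩ := exists_R (cs_cx hpu.cs)
  set ε' : ℝ := ε / (n + 1) with hε'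
  have hn0 : (0 : ℝ) ≤ n := Nat.cast_nonneg n
  have hε'0 : 0 < ε' := by positivity
  obtain ⟨C, hC, H⟩ := winR hpu hμ (s0 := 1 / 6) (by norm_num) n hε'0
  have hjc := jc_nonneg
  have hiA := iA_nonneg 2
  set K : ℝ := 1 + iA 2 ^ 2 * Real.exp (n * R) ^ ε' * jc with hK
  have hK0 : 0 ≤ iA 2 ^ 2 * Real.exp (n * R) ^ ε' * jc := by positivity
  have hK1 : 1 ≤ K := by rw [hK]; linarith
  refine ⟨C * K, one_le_mul_of_one_le_of_one_le hC hK1, ?_⟩
  have hCK : C ≤ C * K := le_mul_of_one_le_right (by linarith) hK1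
  intro P hP ps hlen hz z D0 hD0 q d e f hq hd he hf X0 hX0 hDX hqX hdX heX hsX Cw η Aw J hCw hη
    hη1 hAJ hJ φ hφ a ha t₀ A hA γ π hγ hπ hπX Λ B hΛ hB hyp
  have hX00 : 0 < X0 := by linarith
  have hd0 := nm_cast_pos hd.ne_zero
  have hγ0 := nm_cast_pos hγ.ne_zero
  have he1 := one_le_nm he.ne_zero
  have hγ1 := one_le_nm hγ.ne_zero
  have hD00 : 0 < D0 := by linarith
  have ht0 : (1 : ℝ) ≤ 1 + |t₀| := by linarith [abs_nonneg t₀]
  set al : Eis → ℂ := fun m => bt φ (sqc q (alF z D0 P h ps)) a m * pw t₀ (nm m) with hal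
  have hal0 : ∀ m, al m ≠ 0 → alF z D0 P h ps m ≠ 0 := by
    intro m hm h0
    apply hm
    rw [hal]
    simp only
    unfold RGw813.bt RGw813.tw2 Win813.wn HP842.sqc
    rw [h0]; ring
  have hFSa : FS (alF z D0 P h ps) := by
    rw [alF_get]
    exact FS_alf hR (fun i => ((ps.get i).1.ok hP)) z D0 _
  have hFS : FS al :=
    { fin := hFSa.fin.subset fun m hm => hal0 m hm
      prim := fun m hm => hFSa.prim m (hal0 m hm) }
  have hRHS : 0 ≤ (Cw ^ 2 * (η⁻¹) ^ J) * (C * K * (D0 ^ n) ^ (3 : ℝ) * X0 ^ ε * (1 + |t₀|) ^ J * B) *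
          (Real.exp (LF ps) / nm d) ^ (2 / 3 : ℝ) := by positivity
  -- the length
  have hLF : Real.exp (LF ps) ≤ X0 ^ n := by
    have h1 : ∀ l : List Pf, (∀ p ∈ l, Real.exp p.1.z ≤ X0) → Real.exp (LF l) ≤ X0 ^ l.length := by
      intro l
      induction l with
      | nil => intro _; simp [LF]
      | cons p l ih =>
        intro hl
        have h2 : LF (p :: l) = p.1.z + LF l := by unfold LF; simp
        rw [h2, Real.exp_add, List.length_cons, pow_succ, mul_comm]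
        exact mul_le_mul (ih fun x hx => hl x (List.mem_cons_of_mem _ hx))
          (hl p List.mem_cons_self) (Real.exp_pos _).le (by positivity)
    exact (h1 ps hsX).trans (pow_le_pow_right₀ hX0 hlen)
  have hsup : ∀ m, al m ≠ 0 → (nm m : ℝ) ≤ X0 ^ n * Real.exp (n * R) := by
    intro m hm
    have h1 := Crest.Agent.R017.AL813.alF_supp hR z D0 P ps (hal0 m hm)
    have hm0 := nm_cast_pos h1.1.ne_zero
    have h2 := (abs_le.1 h1.2).2
    have h3 : Real.log (nm m) ≤ LF ps + n * R := by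
      have h4 : (ps.length : ℝ) * R ≤ n * R := by
        have : (ps.length : ℝ) ≤ n := by exact_mod_cast hlen
        exact mul_le_mul_of_nonneg_right this hR0
      linarith
    calc (nm m : ℝ) = Real.exp (Real.log (nm m)) := (Real.exp_log hm0).symm
      _ ≤ Real.exp (LF ps + n * R) := Real.exp_le_exp.2 h3
      _ = Real.exp (LF ps) * Real.exp (n * R) := Real.exp_add _ _
      _ ≤ _ := by gcongr
  by_cases hγX : (nm γ : ℝ) ≤ X0 ^ n * Real.exp (n * R)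
  swap
  · -- everything vanishes
    have hz0 : ∀ m, (fun m => al (d * m)) (γ * m) = 0 := by
      intro m
      by_contra h0
      have h1 := hsup _ h0
      have h2 := (hFS.prim _ h0).ne_zero
      apply hγX
      refine le_trans ?_ h1
      exact_mod_cast Div277.nm_le_of_dvd h2 ⟨d * m, by ring⟩
    have h1 : ∑ k ∈ bl Λ, RMm A (fun m => al (d * m)) e γ π (k * f) = 0 :=
      Finset.sum_eq_zero fun k _ => RMm_zero hz0
    have h2 : (fun m => bt φ (sqc q (alF z D0 P h ps)) a (d * m) * pw t₀ (nm (d * m))) =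
        fun m => al (d * m) := rfl
    rw [h2, h1, mul_zero]
    exact hRHS
  -- the main case
  set X0' : ℝ := X0 ^ ((n : ℝ) + 1) * Real.exp (n * R) with hX0'
  have hER : 1 ≤ Real.exp (n * R) := Real.one_le_exp (by positivity)
  have hXn : X0 ^ ((n : ℝ) + 1) = X0 ^ n * X0 := by
    rw [Real.rpow_add_one hX00.ne', Real.rpow_natCast]
  have hX1n : 1 ≤ X0 ^ n := one_le_pow₀ hX0
  have hXX : X0 ≤ X0' := by
    rw [hX0', hXn]
    calc X0 = 1 * X0 * 1 := by ring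
      _ ≤ X0 ^ n * X0 * Real.exp (n * R) := by gcongr
  have hcB : (nm e : ℝ) ≤ nm γ * nm (cB γ e) := by
    have e1 : (nm e : ℝ) = nm (gp γ e) * nm (cB γ e) := by
      have := gp_cB (g := γ) he
      conv_lhs => rw [← this]
      rw [nm_mul]; push_cast; rfl
    have e2 : (nm (gp γ e) : ℝ) ≤ nm γ := by
      have h3 : gp γ e ∣ γ := by
        conv_rhs => rw [← gp_cg (g := γ) he]
        exact dvd_mul_right _ _
      exact_mod_cast Div277.nm_le_of_dvd hγ.ne_zero h3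
    rw [e1]
    exact mul_le_mul_of_nonneg_right e2 (Nat.cast_nonneg _)
  have hcBp : IsPrim (cB γ e) := cB_prim he
  have hcB1 := one_le_nm hcBp.ne_zero
  have hdγ : IsPrim (d * γ) := hd.mul hγ
  have hnd : (nm (d * γ) : ℝ) = nm d * nm γ := by rw [nm_mul]; push_cast; rfl
  have hiAw : iA Aw ≤ iA 2 := by
    unfold Win813.iA
    refine integral_mono (Win813.integrable_base (by omega)) (Win813.integrable_base le_rfl)
      fun t => ?_
    have ht1 : (1 : ℝ) ≤ 1 + |t| := by linarith [abs_nonneg t]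
    refine inv_anti₀ (by positivity) (pow_le_pow_right₀ ht1 (by omega))
  set V : ℝ := (Real.exp (LF ps) / (nm d * nm γ)) ^ (-(2 * (1 / 6 : ℝ))) *
    (Real.exp (LF ps) / (nm d * nm γ * nm (cB γ e))) with hV
  have hV0 : 0 ≤ V := by positivity
  set M : ℝ := (Cw ^ 2 * iA 2 * iA 2 * (η⁻¹) ^ J) * (C * (D0 ^ n) ^ (2 + 2 * (1 / 6 : ℝ)) *
    X0' ^ ε' * (1 + |t₀|) ^ J * B * V) with hM
  have hsum := RM_sum hA hFS hd hγ he π (bl Λ) (fun k => k * f) (M := M) (fun t => by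
    have h1 := H P hP ps hlen hz z D0 hD0 q (d * γ) (cB γ e) π f hq hdγ hcBp hπ.ne_zero hf X0' Λ B
      (hX0.trans hXX) (hDX.trans hXX) (hqX.trans hXX) (by
        rw [hnd, hX0', hXn]
        calc (nm d : ℝ) * nm γ ≤ X0 * (X0 ^ n * Real.exp (n * R)) := by gcongr
          _ = _ := by ring) ((nm_cB_le' he).trans (heX.trans hXX)) (hπX.trans hXX)
      (fun p hp => (hsX p hp).trans hXX) hΛ hB (fun ps' W hW hR' hl => by
        refine hyp ps' W hW ?_ ?_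
        · exact hR'.imp fun _ _ hx => hx.mono hCK
        · have h5 : Real.log (nm d * nm e) ≤ Real.log (nm (d * γ) * nm (cB γ e)) := by
            refine Real.log_le_log (by positivity) ?_
            rw [hnd, mul_assoc]
            exact mul_le_mul_of_nonneg_left hcB hd0.le
          linarith) Cw η Aw J hCw hη hη1 hAJ hJ φ hφ a ha t₀ t
    refine h1.trans ?_
    rw [hnd]
    have h6 : (1 + |t₀ + t|) ^ J ≤ (1 + |t₀|) ^ J * (1 + |t|) ^ J := by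
      rw [← mul_pow]
      refine pow_le_pow_left₀ (by positivity) ?_ J
      have h7 := abs_add_le t₀ t
      have h8 := mul_nonneg (abs_nonneg t₀) (abs_nonneg t)
      nlinarith
    have hiAw0 := iA_nonneg Aw
    calc (Cw ^ 2 * iA Aw * iA 2 * (η⁻¹) ^ J) * (C * (D0 ^ n) ^ (2 + 2 * (1 / 6 : ℝ)) * X0' ^ ε' *
          (1 + |t₀ + t|) ^ J * B * ((Real.exp (LF ps) / (nm d * nm γ)) ^ (-(2 * (1 / 6 : ℝ))) *
            (Real.exp (LF ps) / (nm d * nm γ * nm (cB γ e)))))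
        ≤ (Cw ^ 2 * iA 2 * iA 2 * (η⁻¹) ^ J) * (C * (D0 ^ n) ^ (2 + 2 * (1 / 6 : ℝ)) * X0' ^ ε' *
          ((1 + |t₀|) ^ J * (1 + |t|) ^ J) * B * V) := by
          rw [← hV]
          gcongr
      _ = M * (1 + |t|) ^ J := by rw [hM]; ring)
  have hw := wt_le (E := Real.exp (LF ps)) (Real.exp_pos _) hd0 hγ0 hcB1
    (show n6 γ = (nm γ : ℝ) ^ (-(1 / 6 : ℝ)) by unfold PX764.n6; congr 1; norm_num)
  have hn6 := n6_nonneg γ
  have hD3 : (D0 ^ n) ^ (2 + 2 * (1 / 6 : ℝ)) ≤ (D0 ^ n) ^ (3 : ℝ) :=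
    Real.rpow_le_rpow_of_exponent_le (one_le_pow₀ hD0) (by norm_num)
  have hXe : X0' ^ ε' = X0 ^ ε * Real.exp (n * R) ^ ε' := by
    rw [hX0', Real.mul_rpow (by positivity) (by positivity), ← Real.rpow_mul hX00.le]
    congr 2
    rw [hε']; field_simp
  calc (nm γ : ℝ) * n6 γ ^ 2 * ∑ k ∈ bl Λ, RMm A (fun m => al (d * m)) e γ π (k * f)
      ≤ (nm γ : ℝ) * n6 γ ^ 2 * (M * jc) := mul_le_mul_of_nonneg_left hsum (by positivity)
    _ = (Cw ^ 2 * (η⁻¹) ^ J) * (C * (iA 2 ^ 2 * jc) * (D0 ^ n) ^ (2 + 2 * (1 / 6 : ℝ)) *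
        X0' ^ ε' * (1 + |t₀|) ^ J * B) * ((nm γ : ℝ) * n6 γ ^ 2 * V) := by rw [hM]; ring
    _ ≤ (Cw ^ 2 * (η⁻¹) ^ J) * (C * (iA 2 ^ 2 * jc) * (D0 ^ n) ^ (3 : ℝ) *
        X0' ^ ε' * (1 + |t₀|) ^ J * B) * (Real.exp (LF ps) / nm d) ^ (2 / 3 : ℝ) := by
        gcongr
    _ = (Cw ^ 2 * (η⁻¹) ^ J) * (C * (iA 2 ^ 2 * Real.exp (n * R) ^ ε' * jc) *
        (D0 ^ n) ^ (3 : ℝ) * X0 ^ ε * (1 + |t₀|) ^ J * B) *
        (Real.exp (LF ps) / nm d) ^ (2 / 3 : ℝ) := by rw [hXe]; ring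
    _ ≤ (Cw ^ 2 * (η⁻¹) ^ J) * (C * K * (D0 ^ n) ^ (3 : ℝ) * X0 ^ ε * (1 + |t₀|) ^ J * B) *
        (Real.exp (LF ps) / nm d) ^ (2 / 3 : ℝ) := by
        have : iA 2 ^ 2 * Real.exp (n * R) ^ ε' * jc ≤ K := by rw [hK]; linarith
        gcongr

end Crest.Agent.R017.R3571
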