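import Crest.Agent.R017.R4c_571

/-!
# Row 17, E3: (RH) for all `P`, twisted windows of flagged lists (helper571)

* `mom_bt` : the moments of `gC`
* `RH_all` : (RH) with the two-slope function
-/

set_option autoImplicit false
set_option maxHeartbeats 400000

noncomputable section

open Complex MeasureTheory
open scoped ComplexConjugate

namespace Crest.Agent.R017.R3571

open Crest.Agent.R012 Crest.Agent.R012.Eis Crest.Agent.R012.MC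
open Crest.Agent.R012.LS2 (S mem_S bl mem_bl)
open Crest.Agent.R012.Weight600 (pw norm_pw pw_add_left)
open Crest.Agent.R017.CM106 (CS TG FS)
open Crest.Agent.R017.FE47
open Crest.Agent.R017.B770
open Crest.Agent.R017.Prov71
open Crest.Agent.R017.HP842 (sqc)
open Crest.Agent.R017.TP320 (tw)
open Crest.Agent.R017.XHB411 (tl)
open Crest.Agent.R017.XRG106 (Rl RFp)
open Crest.Agent.R017.NtC320 (gC gC_ne gC_fin cg cB cg_prim cB_prim gp_cg gp_cB cB_dvd cg_dvd cop)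
open Crest.Agent.R017.StA828 (gp)
open Crest.Agent.R017.E1551 (jb jb_pos)
open Crest.Agent.R017.PX764 (n6)
open Crest.Agent.R017.E3D579 (n6_nonneg)
open Crest.Agent.R017.Leg381 (Pf alF LF alF_get LF_get)
open Crest.Agent.R017.Win813 (WK wn iA iA_nonneg)
open Crest.Agent.R017.RGw813 (bt)
open Crest.Agent.R017.Mode405 (Slp)

/-- the length of a list -/
lemma exp_LF_le {X0 : ℝ} (hX0 : 1 ≤ X0) {n : ℕ} {ps : List Pf} (hlen : ps.length ≤ n)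
    (h : ∀ p ∈ ps, Real.exp p.1.z ≤ X0) : Real.exp (LF ps) ≤ X0 ^ n := by
  have h1 : ∀ l : List Pf, (∀ p ∈ l, Real.exp p.1.z ≤ X0) → Real.exp (LF l) ≤ X0 ^ l.length := by
    intro l
    induction l with
    | nil => intro _; simp [LF]
    | cons p l ih =>
      intro hl
      have h2 : LF (p :: l) = p.1.z + LF l := by unfold LF; simp
      rw [h2, Real.exp_add, List.length_cons, pow_succ, mul_comm]
      exact mul_le_mul (ih fun x hx => hl x (List.mem_cons_of_mem _ hx))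
        (hl p List.mem_cons_self) (Real.exp_pos _).le (by positivity)
  exact (h1 ps h).trans (pow_le_pow_right₀ hX0 hlen)

lemma LF_nonneg' {ps : List Pf} (h : ∀ p ∈ ps, 0 ≤ p.1.z) : 0 ≤ LF ps := by
  unfold LF
  exact List.sum_nonneg fun x hx => by
    obtain ⟨p, hp, rfl⟩ := List.mem_map.1 hx
    exact h p hp

lemma W2_mono (a : ℕ) {P1 W1 W1' Λ : ℝ} (hP1 : 0 < P1) (hΛ : 0 < Λ) (h : W1 ≤ W1') :
    W2 a P1 W1 Λ ≤ W2 a P1 W1' Λ := by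
  unfold W2
  split_ifs <;> exact mul_le_mul_of_nonneg_left h (by positivity)

/-- **the moments of `gC`**, twisted windows of flagged lists, all `γ` up to the length -/
theorem mom_bt {h : ℝ → ℝ} {c : ℝ} (hpu : PU h c) {μ : ℝ} (hμ : 0 ≤ μ) (n : ℕ) {R : ℝ}
    (hR0 : 0 ≤ R) {ε : ℝ} (hε : 0 < ε) :
    ∃ C : ℝ, 1 ≤ C ∧ ∀ (P : DPar), P.OK → ∀ ps : List Pf, ps.length ≤ n →
      (∀ p ∈ ps, 0 ≤ p.1.z) → ∀ (z D0 : ℝ), 1 ≤ D0 →
      ∀ q d e f : Eis, q ≠ 0 → IsPrim d → IsPrim e → f ≠ 0 →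
      ∀ X0 : ℝ, 1 ≤ X0 → D0 ≤ X0 → (nm q : ℝ) ≤ X0 → (nm d : ℝ) ≤ X0 → (nm e : ℝ) ≤ X0 →
      (∀ p ∈ ps, Real.exp p.1.z ≤ X0) →
      ∀ (Cw η : ℝ) (Aw J : ℕ), 0 ≤ Cw → 0 < η → η ≤ 1 → J + 2 ≤ Aw → 2 * (n * μ) ≤ J →
      ∀ (φ : ℝ → ℝ), WK Cw η Aw φ → ∀ (a : ℕ × ℕ), a.2 ≤ 2 → ∀ (t₀ : ℝ),
      ∀ γ π : Eis, IsPrim γ → IsPrim π → (nm γ : ℝ) ≤ X0 ^ n * Real.exp (n * R) →
      (nm π : ℝ) ≤ X0 → ∀ Λ B : ℝ, 0 < Λ → 0 ≤ B →
      (∀ (ps' : List Pq) (W : ℝ), 1 ≤ W → List.Forall₂ (Rl C W) ps' (ps.map Prod.fst) →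
        tl Dq ps' ≤ LF ps - Real.log (nm d * nm e) + C →
        RFp P h (Real.log (81 * Λ * nm f)) ps' ≤ B * Real.exp (tl Dq ps') * W ^ (2 * μ)) →
      ∀ t : ℝ, ∑ k ∈ bl Λ, ‖CS (gC (fun m => bt φ (sqc q (alF z D0 P h ps)) a m *
          pw t₀ (nm m)) (d * γ) (cB γ e) π (tw (1 / 6) t)) (k * f)‖ ^ 2 ≤
        (Cw ^ 2 * (η⁻¹) ^ J) * (C * (D0 ^ n) ^ (3 : ℝ) * X0 ^ ε * (1 + |t₀|) ^ J * B) *
          (1 + |t|) ^ J * ((Real.exp (LF ps) / (nm d * nm γ)) ^ (-(2 * (1 / 6 : ℝ))) *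
            (Real.exp (LF ps) / (nm d * nm γ * nm (cB γ e)))) := by
  set ε' : ℝ := ε / (n + 1) with hε'
  have hn0 : (0 : ℝ) ≤ n := Nat.cast_nonneg n
  have hε'0 : 0 < ε' := by positivity
  obtain ⟨C, hC, H⟩ := winR hpu hμ (s0 := 1 / 6) (by norm_num) n hε'0
  have hiA := iA_nonneg 2
  set K : ℝ := 1 + iA 2 ^ 2 * Real.exp (n * R) ^ ε' with hK
  have hK0 : 0 ≤ iA 2 ^ 2 * Real.exp (n * R) ^ ε' := by positivity
  have hK1 : 1 ≤ K := by rw [hK]; linarith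
  refine ⟨C * K, one_le_mul_of_one_le_of_one_le hC hK1, ?_⟩
  have hCK : C ≤ C * K := le_mul_of_one_le_right (by linarith) hK1
  intro P hP ps hlen hz z D0 hD0 q d e f hq hd he hf X0 hX0 hDX hqX hdX heX hsX Cw η Aw J hCw hη
    hη1 hAJ hJ φ hφ a ha t₀ γ π hγ hπ hγX hπX Λ B hΛ hB hyp t
  have hX00 : 0 < X0 := by linarith
  have hd0 := nm_cast_pos hd.ne_zero
  have hγ0 := nm_cast_pos hγ.ne_zero
  have he1 := one_le_nm he.ne_zero
  have hγ1 := one_le_nm hγ.ne_zero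
  have hD00 : 0 < D0 := by linarith
  have ht0 : (1 : ℝ) ≤ 1 + |t₀| := by linarith [abs_nonneg t₀]
  set X0' : ℝ := X0 ^ ((n : ℝ) + 1) * Real.exp (n * R) with hX0'
  have hER : 1 ≤ Real.exp (n * R) := Real.one_le_exp (by positivity)
  have hXn : X0 ^ ((n : ℝ) + 1) = X0 ^ n * X0 := by
    rw [Real.rpow_add_one hX00.ne', Real.rpow_natCast]
  have hX1n : 1 ≤ X0 ^ n := one_le_pow₀ hX0
  have hXX : X0 ≤ X0' := by
    rw [hX0', hXn]
    calc X0 = 1 * X0 * 1 := by ring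
      _ ≤ X0 ^ n * X0 * Real.exp (n * R) := by gcongr
  have hcB : (nm e : ℝ) ≤ nm γ * nm (cB γ e) := by
    have e1 : (nm e : ℝ) = nm (gp γ e) * nm (cB γ e) := by
      have := gp_cB (g := γ) he
      conv_lhs => rw [← this]
      rw [nm_mul]; push_cast; rfl
    have e2 : (nm (gp γ e) : ℝ) ≤ nm γ := by
      have h3 : gp γ e ∣ γ := by
        conv_rhs => rw [← gp_cg (g := γ) he]
        exact dvd_mul_right _ _
      exact_mod_cast Div277.nm_le_of_dvd hγ.ne_zero h3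
    rw [e1]
    exact mul_le_mul_of_nonneg_right e2 (Nat.cast_nonneg _)
  have hcBp : IsPrim (cB γ e) := cB_prim he
  have hcB1 := one_le_nm hcBp.ne_zero
  have hdγ : IsPrim (d * γ) := hd.mul hγ
  have hnd : (nm (d * γ) : ℝ) = nm d * nm γ := by rw [nm_mul]; push_cast; rfl
  have hiAw : iA Aw ≤ iA 2 := by
    unfold Win813.iA
    refine integral_mono (Win813.integrable_base (by omega)) (Win813.integrable_base le_rfl)
      fun t => ?_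
    have ht1 : (1 : ℝ) ≤ 1 + |t| := by linarith [abs_nonneg t]
    refine inv_anti₀ (by positivity) (pow_le_pow_right₀ ht1 (by omega))
  set V : ℝ := (Real.exp (LF ps) / (nm d * nm γ)) ^ (-(2 * (1 / 6 : ℝ))) *
    (Real.exp (LF ps) / (nm d * nm γ * nm (cB γ e))) with hV
  have hV0 : 0 ≤ V := by positivity
  have h1 := H P hP ps hlen hz z D0 hD0 q (d * γ) (cB γ e) π f hq hdγ hcBp hπ.ne_zero hf X0' Λ B
    (hX0.trans hXX) (hDX.trans hXX) (hqX.trans hXX) (by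
      rw [hnd, hX0', hXn]
      calc (nm d : ℝ) * nm γ ≤ X0 * (X0 ^ n * Real.exp (n * R)) := by gcongr
        _ = _ := by ring) ((nm_cB_le' he).trans (heX.trans hXX)) (hπX.trans hXX)
    (fun p hp => (hsX p hp).trans hXX) hΛ hB (fun ps' W hW hR' hl => by
      refine hyp ps' W hW ?_ ?_
      · exact hR'.imp fun _ _ hx => hx.mono hCK
      · have h5 : Real.log (nm d * nm e) ≤ Real.log (nm (d * γ) * nm (cB γ e)) := by
          refine Real.log_le_log (by positivity) ?_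
          rw [hnd, mul_assoc]
          exact mul_le_mul_of_nonneg_left hcB hd0.le
        linarith) Cw η Aw J hCw hη hη1 hAJ hJ φ hφ a ha t₀ t
  refine h1.trans ?_
  rw [hnd]
  have h6 : (1 + |t₀ + t|) ^ J ≤ (1 + |t₀|) ^ J * (1 + |t|) ^ J := by
    rw [← mul_pow]
    refine pow_le_pow_left₀ (by positivity) ?_ J
    have h7 := abs_add_le t₀ t
    have h8 := mul_nonneg (abs_nonneg t₀) (abs_nonneg t)
    nlinarith
  have hiAw0 := iA_nonneg Aw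
  have hD3 : (D0 ^ n) ^ (2 + 2 * (1 / 6 : ℝ)) ≤ (D0 ^ n) ^ (3 : ℝ) :=
    Real.rpow_le_rpow_of_exponent_le (one_le_pow₀ hD0) (by norm_num)
  have hXe : X0' ^ ε' = X0 ^ ε * Real.exp (n * R) ^ ε' := by
    rw [hX0', Real.mul_rpow (by positivity) (by positivity), ← Real.rpow_mul hX00.le]
    congr 2
    rw [hε']; field_simp
  rw [← hV]
  calc (Cw ^ 2 * iA Aw * iA 2 * (η⁻¹) ^ J) * (C * (D0 ^ n) ^ (2 + 2 * (1 / 6 : ℝ)) * X0' ^ ε' *
        (1 + |t₀ + t|) ^ J * B * V)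
      ≤ (Cw ^ 2 * iA 2 * iA 2 * (η⁻¹) ^ J) * (C * (D0 ^ n) ^ (3 : ℝ) * X0' ^ ε' *
        ((1 + |t₀|) ^ J * (1 + |t|) ^ J) * B * V) := by gcongr
    _ = (Cw ^ 2 * (η⁻¹) ^ J) * (C * (iA 2 ^ 2 * Real.exp (n * R) ^ ε') *
        (D0 ^ n) ^ (3 : ℝ) * X0 ^ ε * (1 + |t₀|) ^ J * B) * (1 + |t|) ^ J * V := by rw [hXe]; ring
    _ ≤ (Cw ^ 2 * (η⁻¹) ^ J) * (C * K * (D0 ^ n) ^ (3 : ℝ) * X0 ^ ε * (1 + |t₀|) ^ J * B) *
        (1 + |t|) ^ J * V := by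
        have : iA 2 ^ 2 * Real.exp (n * R) ^ ε' ≤ K := by rw [hK]; linarith
        gcongr

open Classical in
/-- **(RH) for all `P`** with the two-slope function, twisted windows of flagged lists: the bound
is used only for levels up to `P1 * X0 ^ δ`, with slope `1/3` -/
theorem RH_all {h : ℝ → ℝ} {c : ℝ} (hpu : PU h c) {μ : ℝ} (hμ : 0 ≤ μ) (n : ℕ) {δ m : ℝ}
    (hδ : 0 < δ) (hm : 0 ≤ m) :
    ∃ a : ℕ, 1 ≤ a ∧ ∀ ε : ℝ, 0 < ε →
    ∃ C : ℝ, 1 ≤ C ∧ ∀ (P : DPar), P.OK → ∀ ps : List Pf, ps.length ≤ n →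
      (∀ p ∈ ps, 0 ≤ p.1.z) → ∀ (z D0 : ℝ), 1 ≤ D0 →
      ∀ q d e f : Eis, q ≠ 0 → IsPrim d → IsPrim e → f ≠ 0 →
      ∀ X0 : ℝ, 1 ≤ X0 → D0 ≤ X0 → (nm q : ℝ) ≤ X0 → (nm d : ℝ) ≤ X0 → (nm e : ℝ) ≤ X0 →
      (∀ p ∈ ps, Real.exp p.1.z ≤ X0) →
      ∀ (Cw η : ℝ) (Aw J : ℕ), 0 ≤ Cw → 0 < η → η ≤ 1 → J + 2 ≤ Aw → 2 * (n * μ) ≤ J →
      ∀ (φ : ℝ → ℝ), WK Cw η Aw φ → ∀ (b : ℕ × ℕ), b.2 ≤ 2 → ∀ (t₀ A : ℝ), (J : ℝ) + 2 ≤ A →
      ∀ P1 B : ℝ, 0 < P1 → P1 ≤ X0 ^ m → 1 ≤ B →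
      (∀ Λ : ℝ, 1 ≤ Λ → Λ ≤ P1 * X0 ^ δ →
        ∀ (ps' : List Pq) (W : ℝ), 1 ≤ W → List.Forall₂ (Rl C W) ps' (ps.map Prod.fst) →
        tl Dq ps' ≤ LF ps - Real.log (nm d * nm e) + C →
        RFp P h (Real.log (81 * Λ * nm f)) ps' ≤
          (Λ / (P1 * X0 ^ δ)) ^ (1 / 3 : ℝ) * B * Real.exp (tl Dq ps') * W ^ (2 * μ)) →
      ∀ γ π : Eis, IsPrim γ → IsPrim π → (nm π : ℝ) ≤ X0 → ∀ Λ : ℝ, 0 < Λ →
      (nm γ : ℝ) * n6 γ ^ 2 * ∑ k ∈ bl Λ, RMm A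
          (fun m => bt φ (sqc q (alF z D0 P h ps)) b (d * m) * pw t₀ (nm (d * m))) e γ π (k * f) ≤
        W2 a P1 ((Cw ^ 2 * (η⁻¹) ^ J) * (C * (D0 ^ n) ^ (3 : ℝ) * X0 ^ ε * (1 + |t₀|) ^ J * B) *
          (Real.exp (LF ps) / nm d) ^ (2 / 3 : ℝ)) Λ := by
  classical
  obtain ⟨R, hR0, hR⟩ := exists_R (cs_cx hpu.cs)
  obtain ⟨C1, hC1, hsum⟩ := AL813.sum_alF_le hpu n
  have hn0 : (0 : ℝ) ≤ n := Nat.cast_nonneg n
  obtain ⟨a0, ha0⟩ := exists_nat_ge ((5 * n + m + 1) / δ)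
  refine ⟨a0 + 1, by omega, fun ε hε => ?_⟩
  obtain ⟨C2, hC2, hmom⟩ := mom_bt hpu hμ n hR0 hε
  have hjc := jc_nonneg
  have hiA := iA_nonneg 2
  have hER : 1 ≤ Real.exp (n * R) := Real.one_le_exp (by positivity)
  set C3 : ℝ := C2 + 16 * (iA 2 ^ 2 * C1 ^ 2 * Real.exp (n * R) ^ 5) with hC3
  have hC30 : 0 ≤ 16 * (iA 2 ^ 2 * C1 ^ 2 * Real.exp (n * R) ^ 5) := by positivity
  have hC31 : 1 ≤ C3 := by rw [hC3]; linarith
  refine ⟨C3 * (1 + jc), one_le_mul_of_one_le_of_one_le hC31 (by linarith), ?_⟩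
  have hCC : C2 ≤ C3 * (1 + jc) := by
    calc C2 ≤ C3 := by rw [hC3]; linarith
      _ ≤ C3 * (1 + jc) := le_mul_of_one_le_right (by linarith) (by linarith)
  intro P hP ps hlen hz z D0 hD0 q d e f hq hd he hf X0 hX0 hDX hqX hdX heX hsX Cw η Aw J hCw hη
    hη1 hAJ hJ φ hφ b hb t₀ A hA P1 B hP1 hP1X hB hyp γ π hγ hπ hπX Λ hΛ
  have hX00 : 0 < X0 := by linarith
  have hd0 := nm_cast_pos hd.ne_zero
  have hD00 : 0 < D0 := by linarith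
  have ht0 : (1 : ℝ) ≤ 1 + |t₀| := by linarith [abs_nonneg t₀]
  have hB0 : 0 ≤ B := by linarith
  have hηi : 1 ≤ η⁻¹ := (one_le_inv₀ hη).2 hη1
  set al : Eis → ℂ := fun m => bt φ (sqc q (alF z D0 P h ps)) b m * pw t₀ (nm m) with hal
  have hals : ∀ m, al m ≠ 0 → sqc q (alF z D0 P h ps) m ≠ 0 := by
    intro m hm h0
    apply hm
    rw [hal]
    simp only
    unfold RGw813.bt RGw813.tw2 Win813.wn
    rw [h0]; ring
  have hFSa : FS (sqc q (alF z D0 P h ps)) := HP842.FS.sqc (RG64.FS_alF ⟨R, hR⟩ hP z D0 ps) q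
  have hFS : FS al :=
    { fin := hFSa.fin.subset fun m hm => hals m hm
      prim := fun m hm => hFSa.prim m (hals m hm) }
  have hLF := exp_LF_le hX0 hlen hsX
  have hLF0 := LF_nonneg' hz
  have hlR : (ps.length : ℝ) * R ≤ n * R :=
    mul_le_mul_of_nonneg_right (by exact_mod_cast hlen) hR0
  set Y : ℝ := X0 ^ n * Real.exp (n * R) with hY
  have hY1 : 1 ≤ Y := one_le_mul_of_one_le_of_one_le (one_le_pow₀ hX0) hER
  have hYS : ∀ m, al m ≠ 0 → m ∈ S Y := by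
    intro m hm
    refine AL813.al_mem_S hR z D0 P q ps ?_ (hals m hm)
    calc Real.exp (LF ps + ps.length * R) ≤ Real.exp (LF ps + n * R) :=
          Real.exp_le_exp.2 (by linarith)
      _ = Real.exp (LF ps) * Real.exp (n * R) := Real.exp_add _ _
      _ ≤ Y := by rw [hY]; gcongr
  have hiAw : iA Aw ≤ iA 2 := by
    unfold Win813.iA
    refine integral_mono (Win813.integrable_base (by omega)) (Win813.integrable_base le_rfl)
      fun t => ?_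
    have ht1 : (1 : ℝ) ≤ 1 + |t| := by linarith [abs_nonneg t]
    refine inv_anti₀ (by positivity) (pow_le_pow_right₀ ht1 (by omega))
  have hG : ∑ k ∈ S Y, ‖al k‖ ≤ Cw * iA 2 * (C1 * Y ^ 2) := by
    calc ∑ k ∈ S Y, ‖al k‖ ≤ ∑ k ∈ S Y, Cw * iA 2 * ‖sqc q (alF z D0 P h ps) k‖ := by
          refine Finset.sum_le_sum fun k hk => ?_
          have hk1 := ((mem_S (by linarith)).1 hk).2.1
          rw [hal]
          simp only
          unfold RGw813.bt RGw813.tw2 Win813.wn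
          rw [norm_mul, norm_pw, mul_one, norm_mul, norm_mul, Complex.norm_real, Real.norm_eq_abs,
            RCLike.norm_conj]
          have h1 := (hφ.le hη (by omega) (Real.log (nm k))).trans
            (mul_le_mul_of_nonneg_left hiAw hCw)
          have h2 : ‖sy (w ^ b.1 * lam ^ b.2) k‖ ≤ 1 := CF61.norm_sy_le _ _
          calc ‖sqc q (alF z D0 P h ps) k‖ * |φ (Real.log (nm k))| * ‖sy (w ^ b.1 * lam ^ b.2) k‖
              ≤ ‖sqc q (alF z D0 P h ps) k‖ * (Cw * iA 2) * 1 := by gcongr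
            _ = _ := by ring
      _ = Cw * iA 2 * ∑ k ∈ S Y, ‖sqc q (alF z D0 P h ps) k‖ := by rw [Finset.mul_sum]
      _ ≤ _ := by
          have := hsum z D0 P hP q ps hlen Y hY1
          gcongr
  set Bb : ℝ := (Cw ^ 2 * (η⁻¹) ^ J) * (C3 * (D0 ^ n) ^ (3 : ℝ) * X0 ^ ε * (1 + |t₀|) ^ J * B)
    with hBb
  have hBb0 : 0 ≤ Bb := by positivity
  have hXδ : 1 ≤ X0 ^ δ := Real.one_le_rpow hX0 hδ.le
  have hmain := RH_gen (A := A) (J := J) hA hFS (f := f) hd he (Y := Y) (Xπ := X0)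
    (E := Real.exp (LF ps)) (by linarith) hYS hG (Real.exp_pos _) (P1 := P1) (P2 := P1 * X0 ^ δ)
    (B := Bb) (a := a0 + 1) (by omega) hP1 (le_mul_of_one_le_right hP1.le hXδ) hBb0
    (fun γ π hγ hπ hγY hπX Λ hΛ1 hΛ2 t => by
      have hΛ0 : 0 < Λ := by linarith
      have h1 := hmom P hP ps hlen hz z D0 hD0 q d e f hq hd he hf X0 hX0 hDX hqX hdX heX hsX Cw η
        Aw J hCw hη hη1 hAJ hJ φ hφ b hb t₀ γ π hγ hπ hγY hπX Λ
        ((Λ / (P1 * X0 ^ δ)) ^ (1 / 3 : ℝ) * B) hΛ0 (by positivity) (fun ps' W hW hR' hl => by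
          refine hyp Λ hΛ1 hΛ2 ps' W hW (hR'.imp fun _ _ hx => hx.mono hCC) ?_
          linarith) t
      refine h1.trans ?_
      have hγ0 := nm_cast_pos hγ.ne_zero
      have h2 : C2 ≤ C3 := by rw [hC3]; linarith
      calc _ = (Λ / (P1 * X0 ^ δ)) ^ (1 / 3 : ℝ) * ((Cw ^ 2 * (η⁻¹) ^ J) *
            (C2 * (D0 ^ n) ^ (3 : ℝ) * X0 ^ ε * (1 + |t₀|) ^ J * B)) * (1 + |t|) ^ J *
            ((Real.exp (LF ps) / (nm d * nm γ)) ^ (-(2 * (1 / 6 : ℝ))) *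
            (Real.exp (LF ps) / (nm d * nm γ * nm (cB γ e)))) := by ring
        _ ≤ _ := by
            rw [hBb]
            gcongr) ?_ hγ hπ hπX hΛ
  · refine hmain.trans (W2_mono (a0 + 1) hP1 hΛ ?_)
    rw [hBb]
    have h1 : jc ≤ 1 + jc := by linarith
    calc jc * ((Cw ^ 2 * (η⁻¹) ^ J) * (C3 * (D0 ^ n) ^ (3 : ℝ) * X0 ^ ε * (1 + |t₀|) ^ J * B) *
          (Real.exp (LF ps) / nm d) ^ (2 / 3 : ℝ))
        ≤ (1 + jc) * ((Cw ^ 2 * (η⁻¹) ^ J) * (C3 * (D0 ^ n) ^ (3 : ℝ) * X0 ^ ε *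
          (1 + |t₀|) ^ J * B) * (Real.exp (LF ps) / nm d) ^ (2 / 3 : ℝ)) := by gcongr
      _ = _ := by ring
  · -- the trivial condition
    have e1 : P1 * X0 ^ δ / P1 = X0 ^ δ := by field_simp
    rw [e1, Nat.add_sub_cancel]
    have h1 : X0 ^ (5 * (n : ℝ) + m + 1) ≤ (X0 ^ δ) ^ a0 := by
      rw [← Real.rpow_natCast, ← Real.rpow_mul hX00.le]
      refine Real.rpow_le_rpow_of_exponent_le hX0 ?_
      rw [div_le_iff₀ hδ] at ha0
      linarith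
    have h2 : X0 ^ (-(1 : ℝ)) ≤ (Real.exp (LF ps) / nm d) ^ (2 / 3 : ℝ) := by
      calc X0 ^ (-(1 : ℝ)) ≤ X0 ^ (-(2 / 3 : ℝ)) :=
            Real.rpow_le_rpow_of_exponent_le hX0 (by norm_num)
        _ = (1 / X0) ^ (2 / 3 : ℝ) := by
            rw [one_div, Real.inv_rpow hX00.le, Real.rpow_neg hX00.le]
        _ ≤ _ := by
            refine Real.rpow_le_rpow (by positivity) ?_ (by norm_num)
            have := Real.one_le_exp hLF0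
            gcongr
    have h3 : Cw ^ 2 * (C3 * X0 ^ (5 * (n : ℝ) + m)) ≤
        (X0 ^ δ) ^ a0 * (Bb * (Real.exp (LF ps) / nm d) ^ (2 / 3 : ℝ)) := by
      have h4 : Cw ^ 2 * C3 ≤ Bb := by
        rw [hBb]
        have g1 : 1 ≤ (D0 ^ n) ^ (3 : ℝ) := Real.one_le_rpow (one_le_pow₀ hD0) (by norm_num)
        have g2 : 1 ≤ X0 ^ ε := Real.one_le_rpow hX0 hε.le
        have g3 : 1 ≤ (1 + |t₀|) ^ J := one_le_pow₀ ht0
        have g4 : 1 ≤ (η⁻¹) ^ J := one_le_pow₀ hηi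
        calc Cw ^ 2 * C3 = (Cw ^ 2 * 1) * (C3 * 1 * 1 * 1 * 1) := by ring
          _ ≤ _ := by gcongr
      have e2 : X0 ^ (5 * (n : ℝ) + m) = X0 ^ (5 * (n : ℝ) + m + 1) * X0 ^ (-(1 : ℝ)) := by
        rw [← Real.rpow_add hX00]; congr 1; ring
      calc Cw ^ 2 * (C3 * X0 ^ (5 * (n : ℝ) + m)) =
            X0 ^ (5 * (n : ℝ) + m + 1) * (Cw ^ 2 * C3 * X0 ^ (-(1 : ℝ))) := by rw [e2]; ring
        _ ≤ (X0 ^ δ) ^ a0 * (Bb * (Real.exp (LF ps) / nm d) ^ (2 / 3 : ℝ)) := by gcongr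
    refine le_trans ?_ h3
    have e3 : X0 ^ (5 * (n : ℝ) + m) = (X0 ^ n) ^ 5 * X0 ^ m := by
      rw [Real.rpow_add hX00, ← pow_mul, ← Real.rpow_natCast]
      congr 2
      push_cast; ring
    calc 16 * (Y * (Cw * iA 2 * (C1 * Y ^ 2)) ^ 2) * P1
        = Cw ^ 2 * (16 * (iA 2 ^ 2 * C1 ^ 2 * Real.exp (n * R) ^ 5)) * (X0 ^ n) ^ 5 * P1 := by
          rw [hY]; ring
      _ ≤ Cw ^ 2 * C3 * (X0 ^ n) ^ 5 * X0 ^ m := by
          have : 16 * (iA 2 ^ 2 * C1 ^ 2 * Real.exp (n * R) ^ 5) ≤ C3 := by rw [hC3]; linarith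
          gcongr
      _ = _ := by rw [e3]; ring

end Crest.Agent.R017.R3571
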