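import Crest.Agent.R017.R4d_571

/-!
# Row 17, E3: (RH) for flagged lists without window and for sums of natural families (helper571)

* `RH_list` : (RH) for all `P`, `sqc q (alF ..)`
* `gC_dil`, `CS_gC_sum` : dilation to a common multiple, finite sums
-/

set_option autoImplicit false
set_option maxHeartbeats 400000

noncomputable section

open Complex MeasureTheory
open scoped ComplexConjugate

namespace Crest.Agent.R017.R3571

open Crest.Agent.R012 Crest.Agent.R012.Eis Crest.Agent.R012.MC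
open Crest.Agent.R012.LS2 (S mem_S bl mem_bl)
open Crest.Agent.R012.Weight600 (pw norm_pw pw_add_left)
open Crest.Agent.R017.CM106 (CS TG FS)
open Crest.Agent.R017.FE47
open Crest.Agent.R017.B770
open Crest.Agent.R017.Prov71
open Crest.Agent.R017.HP842 (sqc)
open Crest.Agent.R017.TP320 (tw)
open Crest.Agent.R017.XHB411 (tl)
open Crest.Agent.R017.XRG106 (Rl RFp)
open Crest.Agent.R017.NtC320 (gC gC_ne gC_fin cg cB cg_prim cB_prim gp_cg gp_cB cB_dvd cg_dvd cop)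
open Crest.Agent.R017.StA828 (gp)
open Crest.Agent.R017.E1551 (jb jb_pos)
open Crest.Agent.R017.PX764 (n6)
open Crest.Agent.R017.E3D579 (n6_nonneg)
open Crest.Agent.R017.Leg381 (Pf alF LF alF_get LF_get)
open Crest.Agent.R017.Win813 (WK wn iA iA_nonneg)
open Crest.Agent.R017.RGw813 (bt)
open Crest.Agent.R017.Mode405 (Slp)

open Classical in
/-- **(RH) for all `P`** with the two-slope function, flagged lists without window -/
theorem RH_list {h : ℝ → ℝ} {c : ℝ} (hpu : PU h c) {μ : ℝ} (hμ : 0 ≤ μ) (n : ℕ) {δ : ℝ}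
    (hδ : 0 < δ) (m : ℝ) :
    ∃ a : ℕ, 1 ≤ a ∧ ∀ ε : ℝ, 0 < ε →
    ∃ C : ℝ, 1 ≤ C ∧ ∀ (P : DPar), P.OK → ∀ ps : List Pf, ps.length ≤ n →
      (∀ p ∈ ps, 0 ≤ p.1.z) → ∀ (z D0 : ℝ), 1 ≤ D0 →
      ∀ q d e f : Eis, q ≠ 0 → IsPrim d → IsPrim e → f ≠ 0 →
      ∀ X0 : ℝ, 1 ≤ X0 → D0 ≤ X0 → (nm q : ℝ) ≤ X0 → (nm d : ℝ) ≤ X0 → (nm e : ℝ) ≤ X0 →
      (∀ p ∈ ps, Real.exp p.1.z ≤ X0) →
      ∀ (J : ℕ), 2 * (n * μ) ≤ J → ∀ (A : ℝ), (J : ℝ) + 2 ≤ A →
      ∀ P1 B : ℝ, 0 < P1 → P1 ≤ X0 ^ m → 1 ≤ B →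
      (∀ Λ : ℝ, 1 ≤ Λ → Λ ≤ P1 * X0 ^ δ →
        ∀ (ps' : List Pq) (W : ℝ), 1 ≤ W → List.Forall₂ (Rl C W) ps' (ps.map Prod.fst) →
        tl Dq ps' ≤ LF ps - Real.log (nm d * nm e) + C →
        RFp P h (Real.log (Λ * nm f)) ps' ≤
          (Λ / (P1 * X0 ^ δ)) ^ (1 / 3 : ℝ) * B * Real.exp (tl Dq ps') * W ^ (2 * μ)) →
      ∀ γ π : Eis, IsPrim γ → IsPrim π → (nm π : ℝ) ≤ X0 → ∀ Λ : ℝ, 0 < Λ →
      (nm γ : ℝ) * n6 γ ^ 2 * ∑ k ∈ bl Λ, RMm A
          (fun m => sqc q (alF z D0 P h ps) (d * m)) e γ π (k * f) ≤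
        W2 a P1 (C * (D0 ^ n) ^ (3 : ℝ) * X0 ^ ε * B *
          (Real.exp (LF ps) / nm d) ^ (2 / 3 : ℝ)) Λ := by
  classical
  obtain ⟨R, hR0, hR⟩ := exists_R (cs_cx hpu.cs)
  obtain ⟨C1, hC1, hsum⟩ := AL813.sum_alF_le hpu n
  have hn0 : (0 : ℝ) ≤ n := Nat.cast_nonneg n
  obtain ⟨a0, ha0⟩ := exists_nat_ge ((5 * n + m + 1) / δ)
  refine ⟨a0 + 1, by omega, fun ε hε => ?_⟩
  set ε' : ℝ := ε / (n + 1) with hε'
  have hε'0 : 0 < ε' := by positivity
  obtain ⟨C2, hC2, hmom⟩ := listR hpu hμ (s0 := 1 / 6) (by norm_num) n hε'0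
  have hjc := jc_nonneg
  have hER : 1 ≤ Real.exp (n * R) := Real.one_le_exp (by positivity)
  have hERe : 1 ≤ Real.exp (n * R) ^ ε' := Real.one_le_rpow hER hε'0.le
  set C3 : ℝ := C2 * Real.exp (n * R) ^ ε' + 16 * (C1 ^ 2 * Real.exp (n * R) ^ 5) with hC3
  have hC30 : 0 ≤ 16 * (C1 ^ 2 * Real.exp (n * R) ^ 5) := by positivity
  have hC20 : 1 ≤ C2 * Real.exp (n * R) ^ ε' := one_le_mul_of_one_le_of_one_le hC2 hERe
  have hC31 : 1 ≤ C3 := by rw [hC3]; linarith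
  refine ⟨C3 * (1 + jc), one_le_mul_of_one_le_of_one_le hC31 (by linarith), ?_⟩
  have hCC : C2 ≤ C3 * (1 + jc) := by
    calc C2 ≤ C2 * Real.exp (n * R) ^ ε' := le_mul_of_one_le_right (by linarith) hERe
      _ ≤ C3 := by rw [hC3]; linarith
      _ ≤ C3 * (1 + jc) := le_mul_of_one_le_right (by linarith) (by linarith)
  intro P hP ps hlen hz z D0 hD0 q d e f hq hd he hf X0 hX0 hDX hqX hdX heX hsX J hJ A hA P1 B hP1
    hP1X hB hyp γ π hγ hπ hπX Λ hΛ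
  have hX00 : 0 < X0 := by linarith
  have hd0 := nm_cast_pos hd.ne_zero
  have hD00 : 0 < D0 := by linarith
  have hB0 : 0 ≤ B := by linarith
  set al : Eis → ℂ := sqc q (alF z D0 P h ps) with hal
  have hFS : FS al := HP842.FS.sqc (RG64.FS_alF ⟨R, hR⟩ hP z D0 ps) q
  have hLF := exp_LF_le hX0 hlen hsX
  have hLF0 := LF_nonneg' hz
  have hlR : (ps.length : ℝ) * R ≤ n * R :=
    mul_le_mul_of_nonneg_right (by exact_mod_cast hlen) hR0
  set Y : ℝ := X0 ^ n * Real.exp (n * R) with hY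
  have hX1n : 1 ≤ X0 ^ n := one_le_pow₀ hX0
  have hY1 : 1 ≤ Y := one_le_mul_of_one_le_of_one_le hX1n hER
  have hYS : ∀ m, al m ≠ 0 → m ∈ S Y := by
    intro m hm
    refine AL813.al_mem_S hR z D0 P q ps ?_ hm
    calc Real.exp (LF ps + ps.length * R) ≤ Real.exp (LF ps + n * R) :=
          Real.exp_le_exp.2 (by linarith)
      _ = Real.exp (LF ps) * Real.exp (n * R) := Real.exp_add _ _
      _ ≤ Y := by rw [hY]; gcongr
  have hG : ∑ k ∈ S Y, ‖al k‖ ≤ C1 * Y ^ 2 := hsum z D0 P hP q ps hlen Y hY1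
  set X0' : ℝ := X0 ^ ((n : ℝ) + 1) * Real.exp (n * R) with hX0'
  have hXn : X0 ^ ((n : ℝ) + 1) = X0 ^ n * X0 := by
    rw [Real.rpow_add_one hX00.ne', Real.rpow_natCast]
  have hXX : X0 ≤ X0' := by
    rw [hX0', hXn]
    calc X0 = 1 * X0 * 1 := by ring
      _ ≤ X0 ^ n * X0 * Real.exp (n * R) := by gcongr
  have hXe : X0' ^ ε' = X0 ^ ε * Real.exp (n * R) ^ ε' := by
    rw [hX0', Real.mul_rpow (by positivity) (by positivity), ← Real.rpow_mul hX00.le]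
    congr 2
    rw [hε']; field_simp
  set Bb : ℝ := C3 * (D0 ^ n) ^ (3 : ℝ) * X0 ^ ε * B with hBb
  have hBb0 : 0 ≤ Bb := by positivity
  have hXδ : 1 ≤ X0 ^ δ := Real.one_le_rpow hX0 hδ.le
  have hmain := RH_gen (A := A) (J := J) hA hFS (f := f) hd he (Y := Y) (Xπ := X0)
    (E := Real.exp (LF ps)) (by linarith) hYS hG (Real.exp_pos _) (P1 := P1) (P2 := P1 * X0 ^ δ)
    (B := Bb) (a := a0 + 1) (by omega) hP1 (le_mul_of_one_le_right hP1.le hXδ) hBb0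
    (fun γ π hγ hπ hγY hπX Λ hΛ1 hΛ2 t => by
      have hΛ0 : 0 < Λ := by linarith
      have hγ0 := nm_cast_pos hγ.ne_zero
      have hγ1 := one_le_nm hγ.ne_zero
      have he1 := one_le_nm he.ne_zero
      have hcBp : IsPrim (cB γ e) := cB_prim he
      have hcB1 := one_le_nm hcBp.ne_zero
      have hdγ : IsPrim (d * γ) := hd.mul hγ
      have hnd : (nm (d * γ) : ℝ) = nm d * nm γ := by rw [nm_mul]; push_cast; rfl
      have hcB : (nm e : ℝ) ≤ nm γ * nm (cB γ e) := by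
        have e1 : (nm e : ℝ) = nm (gp γ e) * nm (cB γ e) := by
          have := gp_cB (g := γ) he
          conv_lhs => rw [← this]
          rw [nm_mul]; push_cast; rfl
        have e2 : (nm (gp γ e) : ℝ) ≤ nm γ := by
          have h3 : gp γ e ∣ γ := by
            conv_rhs => rw [← gp_cg (g := γ) he]
            exact dvd_mul_right _ _
          exact_mod_cast Div277.nm_le_of_dvd hγ.ne_zero h3
        rw [e1]
        exact mul_le_mul_of_nonneg_right e2 (Nat.cast_nonneg _)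
      have h1 := hmom P hP ps hlen hz z D0 hD0 q (d * γ) (cB γ e) π f hq hdγ hcBp hπ.ne_zero hf
        X0' Λ t ((Λ / (P1 * X0 ^ δ)) ^ (1 / 3 : ℝ) * B) (hX0.trans hXX) (hDX.trans hXX)
        (hqX.trans hXX) (by
          rw [hnd, hX0', hXn]
          calc (nm d : ℝ) * nm γ ≤ X0 * (X0 ^ n * Real.exp (n * R)) := by gcongr
            _ = _ := by ring) ((nm_cB_le' he).trans (heX.trans hXX)) (hπX.trans hXX)
        (fun p hp => (hsX p hp).trans hXX) hΛ0 (by positivity) (fun ps' W hW hR' hl => by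
          refine hyp Λ hΛ1 hΛ2 ps' W hW (hR'.imp fun _ _ hx => hx.mono hCC) ?_
          have h5 : Real.log (nm d * nm e) ≤ Real.log (nm (d * γ) * nm (cB γ e)) := by
            refine Real.log_le_log (by positivity) ?_
            rw [hnd, mul_assoc]
            exact mul_le_mul_of_nonneg_left hcB hd0.le
          linarith)
      rw [hnd] at h1
      refine h1.trans ?_
      have ht1 : (1 : ℝ) ≤ 1 + |t| := by linarith [abs_nonneg t]
      have h6 : (1 + |t|) ^ (2 * (n * μ)) ≤ (1 + |t|) ^ J := by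
        rw [← Real.rpow_natCast]
        exact Real.rpow_le_rpow_of_exponent_le ht1 hJ
      have hD3 : (D0 ^ n) ^ (2 + 2 * (1 / 6 : ℝ)) ≤ (D0 ^ n) ^ (3 : ℝ) :=
        Real.rpow_le_rpow_of_exponent_le (one_le_pow₀ hD0) (by norm_num)
      set V : ℝ := (Real.exp (LF ps) / (nm d * nm γ)) ^ (-(2 * (1 / 6 : ℝ))) *
        (Real.exp (LF ps) / (nm d * nm γ * nm (cB γ e))) with hV
      have hV0 : 0 ≤ V := by positivity
      have h7 : C2 * Real.exp (n * R) ^ ε' ≤ C3 := by rw [hC3]; linarith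
      calc C2 * (D0 ^ n) ^ (2 + 2 * (1 / 6 : ℝ)) * X0' ^ ε' * (1 + |t|) ^ (2 * (n * μ)) *
            ((Λ / (P1 * X0 ^ δ)) ^ (1 / 3 : ℝ) * B) * V
          ≤ C2 * (D0 ^ n) ^ (3 : ℝ) * X0' ^ ε' * (1 + |t|) ^ J *
            ((Λ / (P1 * X0 ^ δ)) ^ (1 / 3 : ℝ) * B) * V := by gcongr
        _ = (Λ / (P1 * X0 ^ δ)) ^ (1 / 3 : ℝ) * ((C2 * Real.exp (n * R) ^ ε') *
            (D0 ^ n) ^ (3 : ℝ) * X0 ^ ε * B) * (1 + |t|) ^ J * V := by rw [hXe]; ring
        _ ≤ _ := by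
            rw [hBb]
            gcongr) ?_ hγ hπ hπX hΛ
  · refine hmain.trans (W2_mono (a0 + 1) hP1 hΛ ?_)
    rw [hBb]
    have h1 : jc ≤ 1 + jc := by linarith
    calc jc * (C3 * (D0 ^ n) ^ (3 : ℝ) * X0 ^ ε * B * (Real.exp (LF ps) / nm d) ^ (2 / 3 : ℝ))
        ≤ (1 + jc) * (C3 * (D0 ^ n) ^ (3 : ℝ) * X0 ^ ε * B *
          (Real.exp (LF ps) / nm d) ^ (2 / 3 : ℝ)) := by gcongr
      _ = _ := by ring
  · -- the trivial condition
    have e1 : P1 * X0 ^ δ / P1 = X0 ^ δ := by field_simp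
    rw [e1, Nat.add_sub_cancel]
    have h1 : X0 ^ (5 * (n : ℝ) + m + 1) ≤ (X0 ^ δ) ^ a0 := by
      rw [← Real.rpow_natCast, ← Real.rpow_mul hX00.le]
      refine Real.rpow_le_rpow_of_exponent_le hX0 ?_
      rw [div_le_iff₀ hδ] at ha0
      linarith
    have h2 : X0 ^ (-(1 : ℝ)) ≤ (Real.exp (LF ps) / nm d) ^ (2 / 3 : ℝ) := by
      calc X0 ^ (-(1 : ℝ)) ≤ X0 ^ (-(2 / 3 : ℝ)) :=
            Real.rpow_le_rpow_of_exponent_le hX0 (by norm_num)
        _ = (1 / X0) ^ (2 / 3 : ℝ) := by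
            rw [one_div, Real.inv_rpow hX00.le, Real.rpow_neg hX00.le]
        _ ≤ _ := by
            refine Real.rpow_le_rpow (by positivity) ?_ (by norm_num)
            have := Real.one_le_exp hLF0
            gcongr
    have h3 : C3 * X0 ^ (5 * (n : ℝ) + m) ≤
        (X0 ^ δ) ^ a0 * (Bb * (Real.exp (LF ps) / nm d) ^ (2 / 3 : ℝ)) := by
      have h4 : C3 ≤ Bb := by
        rw [hBb]
        have g1 : 1 ≤ (D0 ^ n) ^ (3 : ℝ) := Real.one_le_rpow (one_le_pow₀ hD0) (by norm_num)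
        have g2 : 1 ≤ X0 ^ ε := Real.one_le_rpow hX0 hε.le
        calc C3 = C3 * 1 * 1 * 1 := by ring
          _ ≤ _ := by gcongr
      have e2 : X0 ^ (5 * (n : ℝ) + m) = X0 ^ (5 * (n : ℝ) + m + 1) * X0 ^ (-(1 : ℝ)) := by
        rw [← Real.rpow_add hX00]; congr 1; ring
      calc C3 * X0 ^ (5 * (n : ℝ) + m) =
            X0 ^ (5 * (n : ℝ) + m + 1) * (C3 * X0 ^ (-(1 : ℝ))) := by rw [e2]; ring
        _ ≤ (X0 ^ δ) ^ a0 * (Bb * (Real.exp (LF ps) / nm d) ^ (2 / 3 : ℝ)) := by gcongr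
    refine le_trans ?_ h3
    have e3 : X0 ^ (5 * (n : ℝ) + m) = (X0 ^ n) ^ 5 * X0 ^ m := by
      rw [Real.rpow_add hX00, ← pow_mul, ← Real.rpow_natCast]
      congr 2
      push_cast; ring
    calc 16 * (Y * (C1 * Y ^ 2) ^ 2) * P1
        = (16 * (C1 ^ 2 * Real.exp (n * R) ^ 5)) * (X0 ^ n) ^ 5 * P1 := by
          rw [hY]; ring
      _ ≤ C3 * (X0 ^ n) ^ 5 * X0 ^ m := by
          have : 16 * (C1 ^ 2 * Real.exp (n * R) ^ 5) ≤ C3 := by rw [hC3]; linarith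
          gcongr
      _ = _ := by rw [e3]; ring

open Classical in
/-- **passing to a common multiple** -/
theorem gC_up {a : Eis → ℂ} (ha : ∀ n, a n ≠ 0 → IsPrim n) {γ x e : Eis} (hγ : IsPrim γ)
    (hx : IsPrim x) (he : IsPrim e) (hG : ∀ m, a (γ * m) ≠ 0 → x ∣ m) (π : Eis) (s0 t : ℝ)
    (k : Eis) :
    ‖CS (gC a γ e π (tw s0 t)) k‖ ≤ (nm (x * cB x e) : ℝ) ^ (-s0) *
      ‖CS (gC a (γ * (x * cB x e)) 1 π (tw s0 t)) k‖ := by
  set L : Eis := x * cB x e with hL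
  have hLp : IsPrim L := hx.mul (cB_prim he)
  have hinj : Function.Injective (fun b : Eis => L * b) := fun a b hab =>
    mul_left_cancel₀ hLp.ne_zero hab
  set u : ℂ := (if IsCoprime L π then tw s0 t L * sy k L else 0) with hu
  have hterm : ∀ b, gC a γ e π (tw s0 t) (L * b) * sy k (L * b) =
      u * (gC a (γ * L) 1 π (tw s0 t) b * sy k b) := by
    intro b
    unfold gC
    have e0 : γ * (L * b) = γ * L * b := by ring
    rw [e0]
    by_cases h0 : a (γ * L * b) = 0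
    · rw [h0]; simp
    have hb : IsPrim b := IsPrim.of_mul_left (ha _ h0) (hγ.mul hLp)
    have e2 : IsCoprime (L * b) π ↔ IsCoprime L π ∧ IsCoprime b π := IsCoprime.mul_left_iff
    have e3 : sy k (L * b) = sy k L * sy k b := Gauss880.syG.mul_right k L b hLp hb
    have e4 : e ∣ L * b := by
      rw [hL, mul_assoc]
      exact (dvd_mul_iff_cB he).2 (dvd_mul_right _ _)
    rw [e3, TP320.tw_mul, hu]
    by_cases h1 : IsCoprime L π
    · by_cases h2 : IsCoprime b π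
      · rw [if_pos ⟨e4, e2.2 ⟨h1, h2⟩⟩, if_pos h1, if_pos ⟨one_dvd _, h2⟩]; ring
      · rw [if_neg (fun h => h2 (e2.1 h.2).2), if_pos h1, if_neg (fun h => h2 h.2)]; ring
    · rw [if_neg (fun h => h1 (e2.1 h.2).1), if_neg h1]; ring
  have e5 : CS (gC a γ e π (tw s0 t)) k =
      ∑' b, u * (gC a (γ * L) 1 π (tw s0 t) b * sy k b) := by
    unfold CM106.CS
    rw [← hinj.tsum_eq (f := fun m => gC a γ e π (tw s0 t) m * sy k m)]
    · exact tsum_congr fun b => hterm b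
    · intro m hm
      have h1 := gC_ne (left_ne_zero_of_mul (show gC a γ e π (tw s0 t) m * sy k m ≠ 0 from hm))
      obtain ⟨m1, rfl⟩ := hG m h1.2
      obtain ⟨b, rfl⟩ := (dvd_mul_iff_cB he).1 h1.1.1
      exact ⟨b, by rw [hL]; ring⟩
  have hnu : ‖u‖ ≤ (nm L : ℝ) ^ (-s0) := by
    rw [hu]
    split_ifs
    · rw [norm_mul, TP320.norm_tw s0 t hLp]
      have h2 := CF61.norm_sy_le k L
      have h3 : 0 ≤ (nm L : ℝ) ^ (-s0) := by positivity
      calc (nm L : ℝ) ^ (-s0) * ‖sy k L‖ ≤ (nm L : ℝ) ^ (-s0) * 1 := by gcongr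
        _ = _ := by ring
    · rw [norm_zero]; positivity
  rw [e5, tsum_mul_left, norm_mul]
  exact mul_le_mul_of_nonneg_right hnu (norm_nonneg _)

/-- finite sums of pieces -/
theorem gC_pieces {a : Eis → ℂ} {M π : Eis} {χ : Eis → ℂ} {β : Type} (T : Finset β) {K : β → ℂ}
    (hK : ∀ x ∈ T, ‖K x‖ ≤ 1) {b : β → Eis → ℂ} (hb : ∀ x ∈ T, FS (b x))
    (h : ∀ m, a (M * m) = ∑ x ∈ T, K x * b x m) (k : Eis) :
    ‖CS (gC a M 1 π χ) k‖ ^ 2 ≤ T.card * ∑ x ∈ T, ‖CS (gC (b x) 1 1 π χ) k‖ ^ 2 := by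
  classical
  have e1 : gC a M 1 π χ = fun n => ∑ x ∈ T, K x * gC (b x) 1 1 π χ n := by
    funext n
    unfold gC
    rw [h n]
    split_ifs with h
    · rw [Finset.sum_mul]
      exact Finset.sum_congr rfl fun x _ => by rw [one_mul]; ring
    · simp
  rw [e1, NtC320.CS_sum T K (fun x hx => gC_fin (hb x hx).fin one_ne_zero 1 π χ)]
  have h1 : ‖∑ x ∈ T, K x * CS (gC (b x) 1 1 π χ) k‖ ≤ ∑ x ∈ T, ‖CS (gC (b x) 1 1 π χ) k‖ := by
    refine (norm_sum_le _ _).trans (Finset.sum_le_sum fun x hx => ?_)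
    rw [norm_mul]
    exact mul_le_of_le_one_left (norm_nonneg _) (hK x hx)
  calc ‖∑ x ∈ T, K x * CS (gC (b x) 1 1 π χ) k‖ ^ 2 ≤
        (∑ x ∈ T, ‖CS (gC (b x) 1 1 π χ) k‖) ^ 2 := pow_le_pow_left₀ (norm_nonneg _) h1 2
    _ ≤ _ := by
        have := sq_sum_le_card_mul_sum_sq (s := T) (f := fun x => ‖CS (gC (b x) 1 1 π χ) k‖)
        simpa using this

end Crest.Agent.R017.R3571
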