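import Crest.Agent.R017.R4e_571

/-!
# Row 17, E3: (RH) for sums of natural families (helper571)

* `RH_dec` : (RH) for all `P`, sequences with a decomposition into natural families
-/

set_option autoImplicit false
set_option maxHeartbeats 400000

noncomputable section

open Complex MeasureTheory
open scoped ComplexConjugate

namespace Crest.Agent.R017.R3571

open Crest.Agent.R012 Crest.Agent.R012.Eis Crest.Agent.R012.MC
open Crest.Agent.R012.LS2 (S mem_S bl mem_bl)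
open Crest.Agent.R012.Weight600 (pw norm_pw pw_add_left)
open Crest.Agent.R017.CM106 (CS TG FS)
open Crest.Agent.R017.FE47
open Crest.Agent.R017.B770
open Crest.Agent.R017.Prov71
open Crest.Agent.R017.HP842 (sqc)
open Crest.Agent.R017.TPOk571 (IP)
open Crest.Agent.R017.TP320 (tw)
open Crest.Agent.R017.XHB411 (tl)
open Crest.Agent.R017.XRG106 (Rl RFp)
open Crest.Agent.R017.NtC320 (gC gC_ne gC_fin cg cB cg_prim cB_prim gp_cg gp_cB cB_dvd cg_dvd cop)
open Crest.Agent.R017.StA828 (gp)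
open Crest.Agent.R017.E1551 (jb jb_pos)
open Crest.Agent.R017.PX764 (n6)
open Crest.Agent.R017.E3D579 (n6_nonneg)
open Crest.Agent.R017.Leg381 (Pf alF LF alF_get LF_get)
open Crest.Agent.R017.Win813 (WK wn iA iA_nonneg)
open Crest.Agent.R017.RGw813 (bt)
open Crest.Agent.R017.Mode405 (Slp)

open Classical in
/-- **(RH) for all `P`**, sequences with a decomposition into natural families -/
theorem RH_dec {h : ℝ → ℝ} {c : ℝ} (hpu : PU h c) {μ : ℝ} (hμ : 0 ≤ μ) (r : ℕ) {δ : ℝ}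
    (hδ : 0 < δ) (m : ℝ) {m1 m2 : ℝ} (hm1 : 0 ≤ m1) :
    ∃ a : ℕ, 1 ≤ a ∧ ∀ ε : ℝ, 0 < ε →
    ∃ C : ℝ, 1 ≤ C ∧ ∀ (P : DPar), P.OK → ∀ s : Fin r → Pq, (∀ i, 0 ≤ (s i).z) →
      ∀ X0 : ℝ, 1 ≤ X0 → (∀ i, Real.exp (s i).z ≤ X0) →
      ∀ (al : Eis → ℂ) (Y : ℝ), FS al → 0 ≤ Y → Y ≤ X0 ^ m1 → (∀ n, al n ≠ 0 → n ∈ S Y) →
      ∑ n ∈ S Y, ‖al n‖ ≤ X0 ^ m2 →
      ∀ e f G : Eis, IsPrim e → f ≠ 0 → IsPrim G → (nm e : ℝ) ≤ X0 → (nm G : ℝ) ≤ X0 →
      (∀ n, al n ≠ 0 → G ∣ n) → ∀ E Ct : ℝ, X0⁻¹ ≤ E → 1 ≤ Ct →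
      (∀ M : Eis, IsPrim M → G ∣ M → e ∣ M → (nm M : ℝ) ≤ X0 ^ (m1 + 2) →
        ∃ (β : Type) (T : Finset β) (Kc : β → ℂ) (j : β → Fin r → IP) (N : Eis),
        (T.card : ℝ) ≤ Ct ∧ (∀ b ∈ T, ‖Kc b‖ ≤ 1) ∧ (∀ b ∈ T, Below P 0 (j b) s) ∧
        (∀ b ∈ T, ∀ i, (j b i).s = 0) ∧ N ≠ 0 ∧ (nm N : ℝ) ≤ X0 * nm M ∧
        (∀ b ∈ T, ∑ i, (j b i).z ≤ Real.log (E / nm M)) ∧
        ∀ n, al (M * n) = ∑ b ∈ T, Kc b * sqc N (HP842.al h (fun i => (j b i).pc)) n) →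
      ∀ (J : ℕ), 2 * (r * μ) ≤ J → ∀ (A : ℝ), (J : ℝ) + 2 ≤ A →
      ∀ P1 B : ℝ, 0 < P1 → P1 ≤ X0 ^ m → 1 ≤ B →
      (∀ Λ : ℝ, 1 ≤ Λ → Λ ≤ P1 * X0 ^ δ →
        ∀ (s' : Fin r → Pq) (W : ℝ), 1 ≤ W → (∀ i, Rl C W (s' i) (s i)) →
        tl Dq (List.ofFn s') ≤ Real.log (E / nm (G * cB G e)) + C →
        RFp P h (Real.log (Λ * nm f)) (List.ofFn s') ≤
          (Λ / (P1 * X0 ^ δ)) ^ (1 / 3 : ℝ) * B * Real.exp (tl Dq (List.ofFn s')) *
            W ^ (2 * μ)) →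
      ∀ γ π : Eis, IsPrim γ → IsPrim π → (nm π : ℝ) ≤ X0 → ∀ Λ : ℝ, 0 < Λ →
      (nm γ : ℝ) * n6 γ ^ 2 * ∑ k ∈ bl Λ, RMm A al e γ π (k * f) ≤
        W2 a P1 (C * Ct ^ 2 * X0 ^ ε * B * E ^ (2 / 3 : ℝ)) Λ := by
  classical
  obtain ⟨R, hR0, hR⟩ := exists_R (cs_cx hpu.cs)
  obtain ⟨a0, ha0⟩ := exists_nat_ge ((m1 + 2 * m2 + m + 1) / δ)
  refine ⟨a0 + 1, by omega, fun ε hε => ?_⟩
  set ε' : ℝ := ε / (m1 + 3) with hε'
  have hε'0 : 0 < ε' := by positivity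
  obtain ⟨C2, hC2, hmom⟩ := natG hpu hμ (1 / 6) r hε'0
  have hjc := jc_nonneg
  set C3 : ℝ := C2 + 16 with hC3
  have hC31 : 1 ≤ C3 := by rw [hC3]; linarith
  refine ⟨C3 * (1 + jc), one_le_mul_of_one_le_of_one_le hC31 (by linarith), ?_⟩
  have hCC : C2 ≤ C3 * (1 + jc) := by
    calc C2 ≤ C3 := by rw [hC3]; linarith
      _ ≤ C3 * (1 + jc) := le_mul_of_one_le_right (by linarith) (by linarith)
  intro P hP s hs X0 hX0 hsX al Y hFS hY0 hYX hYS hG e f G he hf hGp heX hGX hGd E Ct hE hCt hdec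
    J hJ A hA P1 B hP1 hP1X hB hyp γ π hγ hπ hπX Λ hΛ
  have hX00 : 0 < X0 := by linarith
  have hE0 : 0 < E := lt_of_lt_of_le (by positivity) hE
  have hB0 : 0 ≤ B := by linarith
  have hCt0 : 0 ≤ Ct := by linarith
  set Bb : ℝ := C3 * Ct ^ 2 * X0 ^ ε * B with hBb
  have hBb0 : 0 ≤ Bb := by positivity
  have hXδ : 1 ≤ X0 ^ δ := Real.one_le_rpow hX0 hδ.le
  set X0' : ℝ := X0 ^ (m1 + 3) with hX0'
  have hXX : X0 ≤ X0' := by
    rw [hX0']
    conv_lhs => rw [← Real.rpow_one X0]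
    exact Real.rpow_le_rpow_of_exponent_le hX0 (by linarith)
  have hXe : X0' ^ ε' = X0 ^ ε := by
    rw [hX0', ← Real.rpow_mul hX00.le]
    congr 1
    rw [hε']; field_simp
  have hone : IsPrim (1 : Eis) := isPrim_one
  have hn1 : (nm (1 : Eis) : ℝ) = 1 := by simp
  have hmain := RH_gen (A := A) (J := J) hA hFS (f := f) (d := 1) hone he (Y := Y) (Xπ := X0)
    (E := E) hY0 hYS hG hE0 (P1 := P1) (P2 := P1 * X0 ^ δ)
    (B := Bb) (a := a0 + 1) (by omega) hP1 (le_mul_of_one_le_right hP1.le hXδ) hBb0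
    (fun γ π hγ hπ hγY hπX Λ hΛ1 hΛ2 t => by
      have hΛ0 : 0 < Λ := by linarith
      have hγ0 := nm_cast_pos hγ.ne_zero
      have hγ1 := one_le_nm hγ.ne_zero
      rw [one_mul, hn1, one_mul]
      set x : Eis := cB γ G with hx
      have hxp : IsPrim x := cB_prim hGp
      have hcBp : IsPrim (cB γ e) := cB_prim he
      set L : Eis := x * cB x (cB γ e) with hL
      have hLp : IsPrim L := hxp.mul (cB_prim hcBp)
      have hL0 := nm_cast_pos hLp.ne_zero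
      set M : Eis := γ * L with hM
      have hMp : IsPrim M := hγ.mul hLp
      have hM0 := nm_cast_pos hMp.ne_zero
      have hnM : (nm M : ℝ) = nm γ * nm L := by rw [hM, nm_mul]; push_cast; rfl
      have hGM : G ∣ M := by
        rw [hM]; exact (dvd_mul_iff_cB hGp).2 (dvd_mul_right _ _)
      have hceL : cB γ e ∣ L := by
        rw [hL]; exact (dvd_mul_iff_cB hcBp).2 dvd_rfl
      have heM : e ∣ M := by
        rw [hM]; exact (dvd_mul_iff_cB he).2 hceL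
      have hMX : (nm M : ℝ) ≤ X0 ^ (m1 + 2) := by
        have h1 : (nm x : ℝ) ≤ X0 := (nm_cB_le' hGp).trans hGX
        have h2 : (nm (cB x (cB γ e)) : ℝ) ≤ X0 := ((nm_cB_le' hcBp).trans (nm_cB_le' he)).trans heX
        have h3 : (nm L : ℝ) ≤ X0 * X0 := by
          rw [hL, nm_mul]; push_cast; gcongr
        rw [hnM, Real.rpow_add hX00]
        calc (nm γ : ℝ) * nm L ≤ X0 ^ m1 * (X0 * X0) := by
              refine mul_le_mul (hγY.trans hYX) h3 (Nat.cast_nonneg _) (by positivity)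
          _ = _ := by
              congr 1
              rw [show (2 : ℝ) = ((2 : ℕ) : ℝ) by norm_num, Real.rpow_natCast]; ring
      obtain ⟨β, T, Kc, j, N, hT, hKc, hBel, hjs, hN0, hNX, hjz, hal⟩ := hdec M hMp hGM heM hMX
      have hup := fun k => gC_up hFS.prim hγ hxp hcBp (fun m hm => (dvd_mul_iff_cB hGp).1
        (hGd _ hm)) π (1 / 6) t k
      have hFSb : ∀ b ∈ T, FS (sqc N (HP842.al h (fun i => (j b i).pc))) := by
        intro b _
        exact HP842.FS.sqc (HP842.FS_cv fun i => HP842.FS_pc hR ((j b i).pc_OK)) N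
      have hpc := fun k => gC_pieces (a := al) (M := M) (π := π) (χ := tw (1 / 6) t) T hKc
        hFSb hal k
      have hVm : ∀ b ∈ T, ∑ k ∈ bl Λ, ‖CS (gC (sqc N (HP842.al h (fun i => (j b i).pc))) 1 1 π
          (tw (1 / 6) t)) (k * f)‖ ^ 2 ≤ C2 * X0 ^ ε * (1 + |t|) ^ J *
            ((Λ / (P1 * X0 ^ δ)) ^ (1 / 3 : ℝ) * B) * (E / nm M) ^ (2 / 3 : ℝ) := by
        intro b hb
        have h1 := hmom P hP s hs (j b) (hBel b hb) (hjs b hb) N 1 1 π f hN0 hone hone hπ.ne_zero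
          hf X0' Λ t ((Λ / (P1 * X0 ^ δ)) ^ (1 / 3 : ℝ) * B) (hX0.trans hXX)
          (hNX.trans (by
            rw [hX0', show m1 + 3 = 1 + (m1 + 2) by ring, Real.rpow_add hX00, Real.rpow_one]
            gcongr)) (by rw [hn1]; linarith) (by rw [hn1]; linarith) (hπX.trans hXX)
          (fun i => (hsX i).trans hXX) hΛ0 (by positivity) (fun s' W hW hR' hl => by
            refine hyp Λ hΛ1 hΛ2 s' W hW (fun i => (hR' i).mono hCC) ?_
            have h5 := hjz b hb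
            have h6 : Real.log (E / nm M) ≤ Real.log (E / nm (G * cB G e)) := by
              refine Real.log_le_log (by positivity) ?_
              have h7 : (nm (G * cB G e) : ℝ) ≤ nm M := by
                have : G * cB G e ∣ M := by
                  obtain ⟨m1, hm1⟩ := hGM
                  rw [hm1]
                  refine mul_dvd_mul_left G ?_
                  rw [hm1] at heM
                  exact (dvd_mul_iff_cB he).1 heM
                exact_mod_cast Div277.nm_le_of_dvd hMp.ne_zero this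
              have h8 := nm_cast_pos (hGp.mul (cB_prim (g := G) he)).ne_zero
              gcongr
            simp only [hn1, mul_one, Real.log_one, sub_zero] at hl
            linarith)
        refine h1.trans ?_
        rw [hn1, hXe]
        have ht1 : (1 : ℝ) ≤ 1 + |t| := by linarith [abs_nonneg t]
        have h6 : (1 + |t|) ^ (2 * (r * μ)) ≤ (1 + |t|) ^ J := by
          rw [← Real.rpow_natCast]
          exact Real.rpow_le_rpow_of_exponent_le ht1 hJ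
        have h7 : (Real.exp (∑ i, (j b i).z) / 1) ^ (-(2 * (1 / 6 : ℝ))) *
            (Real.exp (∑ i, (j b i).z) / (1 * 1)) ≤ (E / nm M) ^ (2 / 3 : ℝ) := by
          have h8 : Real.exp (∑ i, (j b i).z) ≤ E / nm M := by
            rw [← Real.exp_log (show 0 < E / nm M by positivity)]
            exact Real.exp_le_exp.2 (hjz b hb)
          have h9 : (0 : ℝ) < Real.exp (∑ i, (j b i).z) := Real.exp_pos _
          have h10 : (Real.exp (∑ i, (j b i).z)) ^ (-(1 / 3 : ℝ)) * Real.exp (∑ i, (j b i).z) =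
              (Real.exp (∑ i, (j b i).z)) ^ (2 / 3 : ℝ) := by
            conv_lhs => rw [← Real.rpow_one (Real.exp (∑ i, (j b i).z)), ← Real.rpow_mul h9.le,
              ← Real.rpow_add h9]
            norm_num
          rw [div_one, mul_one, div_one, show (-(2 * (1 / 6 : ℝ))) = -(1 / 3 : ℝ) by norm_num, h10]
          exact Real.rpow_le_rpow h9.le h8 (by norm_num)
        gcongr
      have hcB1 := nm_cast_pos hcBp.ne_zero
      have hTc : (0 : ℝ) ≤ T.card := Nat.cast_nonneg _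
      have hst : ∀ k ∈ bl Λ, ‖CS (gC al γ (cB γ e) π (tw (1 / 6) t)) (k * f)‖ ^ 2 ≤
          (nm L : ℝ) ^ (-(1 / 3 : ℝ)) * (Ct * ∑ b ∈ T,
            ‖CS (gC (sqc N (HP842.al h (fun i => (j b i).pc))) 1 1 π
              (tw (1 / 6) t)) (k * f)‖ ^ 2) := by
        intro k _
        have g1 := hup (k * f)
        rw [← hL, ← hM] at g1
        have g2 : ((nm L : ℝ) ^ (-(1 / 6 : ℝ))) ^ 2 = (nm L : ℝ) ^ (-(1 / 3 : ℝ)) := by
          rw [← Real.rpow_natCast, ← Real.rpow_mul hL0.le]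
          congr 1; norm_num
        calc ‖CS (gC al γ (cB γ e) π (tw (1 / 6) t)) (k * f)‖ ^ 2
            ≤ ((nm L : ℝ) ^ (-(1 / 6 : ℝ)) * ‖CS (gC al M 1 π (tw (1 / 6) t)) (k * f)‖) ^ 2 :=
              pow_le_pow_left₀ (norm_nonneg _) g1 2
          _ = (nm L : ℝ) ^ (-(1 / 3 : ℝ)) * ‖CS (gC al M 1 π (tw (1 / 6) t)) (k * f)‖ ^ 2 := by
              rw [mul_pow, g2]
          _ ≤ (nm L : ℝ) ^ (-(1 / 3 : ℝ)) * (T.card * ∑ b ∈ T,
                ‖CS (gC (sqc N (HP842.al h (fun i => (j b i).pc))) 1 1 π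
                  (tw (1 / 6) t)) (k * f)‖ ^ 2) := by
              exact mul_le_mul_of_nonneg_left (hpc (k * f)) (by positivity)
          _ ≤ _ := by gcongr
      have hLV : (nm L : ℝ) ^ (-(1 / 3 : ℝ)) * (E / nm M) ^ (2 / 3 : ℝ) ≤
          (E / nm γ) ^ (-(2 * (1 / 6 : ℝ))) * (E / (nm γ * nm (cB γ e))) := by
        have g1 : (nm (cB γ e) : ℝ) ≤ nm L := by
          exact_mod_cast Div277.nm_le_of_dvd hLp.ne_zero hceL
        have hEγ : 0 < E / nm γ := by positivity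
        have g2 : E / nm M = (E / nm γ) / nm L := by rw [hnM, div_div]
        have g3 : (E / nm γ) ^ (-(2 * (1 / 6 : ℝ))) * (E / (nm γ * nm L)) =
            (nm L : ℝ) ^ (-(1 / 3 : ℝ)) * (E / nm M) ^ (2 / 3 : ℝ) := by
          rw [g2, Real.div_rpow hEγ.le hL0.le, ← div_div, show (-(2 * (1 / 6 : ℝ))) = -(1 / 3 : ℝ) by
            norm_num]
          have g4 : (E / nm γ) ^ (-(1 / 3 : ℝ)) * (E / nm γ) = (E / nm γ) ^ (2 / 3 : ℝ) := by
            conv_lhs => rw [← Real.rpow_one (E / nm γ), ← Real.rpow_mul hEγ.le, ← Real.rpow_add hEγ]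
            norm_num
          have g5 : (nm L : ℝ) = (nm L : ℝ) ^ (1 / 3 : ℝ) * (nm L : ℝ) ^ (2 / 3 : ℝ) := by
            rw [← Real.rpow_add hL0]; norm_num
          have g6 : (0 : ℝ) < (nm L : ℝ) ^ (1 / 3 : ℝ) := by positivity
          have g7 : (0 : ℝ) < (nm L : ℝ) ^ (2 / 3 : ℝ) := by positivity
          rw [← mul_div_assoc, g4, Real.rpow_neg hL0.le]
          conv_lhs => rw [g5]
          field_simp
        rw [← g3]
        gcongr
      calc ∑ k ∈ bl Λ, ‖CS (gC al γ (cB γ e) π (tw (1 / 6) t)) (k * f)‖ ^ 2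
          ≤ ∑ k ∈ bl Λ, (nm L : ℝ) ^ (-(1 / 3 : ℝ)) * (Ct * ∑ b ∈ T,
            ‖CS (gC (sqc N (HP842.al h (fun i => (j b i).pc))) 1 1 π
              (tw (1 / 6) t)) (k * f)‖ ^ 2) := Finset.sum_le_sum hst
        _ = (nm L : ℝ) ^ (-(1 / 3 : ℝ)) * (Ct * ∑ b ∈ T, ∑ k ∈ bl Λ,
            ‖CS (gC (sqc N (HP842.al h (fun i => (j b i).pc))) 1 1 π
              (tw (1 / 6) t)) (k * f)‖ ^ 2) := by
            rw [← Finset.mul_sum, ← Finset.mul_sum, Finset.sum_comm]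
        _ ≤ (nm L : ℝ) ^ (-(1 / 3 : ℝ)) * (Ct * ∑ _b ∈ T, C2 * X0 ^ ε * (1 + |t|) ^ J *
            ((Λ / (P1 * X0 ^ δ)) ^ (1 / 3 : ℝ) * B) * (E / nm M) ^ (2 / 3 : ℝ)) := by
            refine mul_le_mul_of_nonneg_left (mul_le_mul_of_nonneg_left
              (Finset.sum_le_sum hVm) hCt0) (by positivity)
        _ = (Ct * T.card * C2 * X0 ^ ε * (1 + |t|) ^ J *
            ((Λ / (P1 * X0 ^ δ)) ^ (1 / 3 : ℝ) * B)) *
            ((nm L : ℝ) ^ (-(1 / 3 : ℝ)) * (E / nm M) ^ (2 / 3 : ℝ)) := by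
            rw [Finset.sum_const, nsmul_eq_mul]; ring
        _ ≤ (Ct * Ct * C3 * X0 ^ ε * (1 + |t|) ^ J *
            ((Λ / (P1 * X0 ^ δ)) ^ (1 / 3 : ℝ) * B)) *
            ((E / nm γ) ^ (-(2 * (1 / 6 : ℝ))) * (E / (nm γ * nm (cB γ e)))) := by
            have : C2 ≤ C3 := by rw [hC3]; linarith
            gcongr
        _ = _ := by rw [hBb]; ring) ?_ hγ hπ hπX hΛ
  · simp only [one_mul, hn1, div_one] at hmain
    refine hmain.trans (W2_mono (a0 + 1) hP1 hΛ ?_)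
    rw [hBb]
    have h1 : jc ≤ 1 + jc := by linarith
    calc jc * (C3 * Ct ^ 2 * X0 ^ ε * B * E ^ (2 / 3 : ℝ))
        ≤ (1 + jc) * (C3 * Ct ^ 2 * X0 ^ ε * B * E ^ (2 / 3 : ℝ)) := by gcongr
      _ = _ := by ring
  · -- the trivial condition
    have e1 : P1 * X0 ^ δ / P1 = X0 ^ δ := by field_simp
    rw [e1, Nat.add_sub_cancel, hn1, div_one]
    have h1 : X0 ^ (m1 + 2 * m2 + m + 1) ≤ (X0 ^ δ) ^ a0 := by
      rw [← Real.rpow_natCast, ← Real.rpow_mul hX00.le]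
      refine Real.rpow_le_rpow_of_exponent_le hX0 ?_
      rw [div_le_iff₀ hδ] at ha0
      linarith
    have h2 : X0 ^ (-(1 : ℝ)) ≤ E ^ (2 / 3 : ℝ) := by
      calc X0 ^ (-(1 : ℝ)) ≤ X0 ^ (-(2 / 3 : ℝ)) :=
            Real.rpow_le_rpow_of_exponent_le hX0 (by norm_num)
        _ = (X0⁻¹) ^ (2 / 3 : ℝ) := by
            rw [Real.inv_rpow hX00.le, Real.rpow_neg hX00.le]
        _ ≤ _ := Real.rpow_le_rpow (by positivity) hE (by norm_num)
    have h4 : 16 ≤ Bb := by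
      have g1 : 1 ≤ Ct ^ 2 := one_le_pow₀ hCt
      have g2 : 1 ≤ X0 ^ ε := Real.one_le_rpow hX0 hε.le
      have g3 : 16 ≤ C3 := by rw [hC3]; linarith
      calc (16 : ℝ) = 16 * 1 * 1 * 1 := by ring
        _ ≤ _ := by rw [hBb]; gcongr
    have hGn : 0 ≤ ∑ n ∈ S Y, ‖al n‖ := Finset.sum_nonneg fun _ _ => norm_nonneg _
    have e3 : X0 ^ (m1 + 2 * m2 + m + 1) * X0 ^ (-(1 : ℝ)) = X0 ^ m1 * (X0 ^ m2) ^ 2 * X0 ^ m := by
      rw [← Real.rpow_natCast, ← Real.rpow_mul hX00.le, ← Real.rpow_add hX00,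
        ← Real.rpow_add hX00, ← Real.rpow_add hX00]
      congr 1
      push_cast; ring
    calc 16 * (Y * (X0 ^ m2) ^ 2) * P1 ≤ 16 * (X0 ^ m1 * (X0 ^ m2) ^ 2) * X0 ^ m := by gcongr
      _ = 16 * (X0 ^ (m1 + 2 * m2 + m + 1) * X0 ^ (-(1 : ℝ))) := by rw [e3]; ring
      _ ≤ Bb * ((X0 ^ δ) ^ a0 * E ^ (2 / 3 : ℝ)) := by gcongr
      _ = _ := by ring

end Crest.Agent.R017.R3571
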