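import Mathlib

/-!
# Row 17, D.cert3 (helper828): error exponents of the exact square (R8), pure reals

All exponents are to the base `K` of the family.  `α₁` = three smooth pieces of total length `N`,
`v` = level of the frequency `κ ~ K^v` of the structured part, `v ≤ 2N - 1`.

* `Rf N i` : `Σ_{k ~ K^i} |α̂₁(k)|²` after reflecting the three pieces and plain Heath-Brown
* `tC a s v` : `Σ_{j ~ K^v} |T_j|²` by Cauchy in the piece `a` and the two-factor theorem for the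
  other two pieces (sum `s`)
* `Err1` : cross term (F1 in `k`), `Err2` : modes of the Gram matrix, `Err3` : the same at a
  shorter family (`E3b`).
-/

set_option autoImplicit false

noncomputable section

namespace Crest.Agent.R017.R8E828

/-- three pieces of total length `N` at a family of length `i`: reflect all three, then
Heath-Brown. -/
def Rf (N i : ℝ) : ℝ := N + max i (max (3 * i - N) (2 / 3 * (i + (3 * i - N))))

/-- Cauchy in the piece `a`, two-factor theorem for the rest (sum `s`), Gauss side. -/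
def tC (a s v : ℝ) : ℝ := a + max (v + a + s) ((5 * s + (v + a)) / 3)

/-- the reflected moment, from its definition: `Σ (2 x_i - i)` + HB for the reflected pieces. -/
theorem Rf_eq (x₁ x₂ x₃ i : ℝ) :
    (2 * x₁ - i) + (2 * x₂ - i) + (2 * x₃ - i) +
      ((i - x₁) + (i - x₂) + (i - x₃)) +
      max i (max ((i - x₁) + (i - x₂) + (i - x₃))
        (2 / 3 * (i + ((i - x₁) + (i - x₂) + (i - x₃))))) = Rf (x₁ + x₂ + x₃) i := by
  unfold Rf
  have h : (i - x₁) + (i - x₂) + (i - x₃) = 3 * i - (x₁ + x₂ + x₃) := by ring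
  rw [h]; ring

/-! ### low levels and D-blocks: the plain `P`-terms (cube multiplicity included) are ideal -/

/-- exponent of the `P`-term at level `v` for a (shortened) block of total length `N'` inside a
side of length `N`: `Σ_{d ~ K^{N-N'}} (K/(N'))·(cubes)·|T_v|²`. -/
def Pt (N N' v t : ℝ) : ℝ := N + 1 - 2 * N' + (2 * N' - 1 - v) / 3 + t

/-- low levels: slack is `(N'+1)/3 - a - 2v/3` and `(1-s)/3`. -/
theorem Pt_low {N a s v t : ℝ} (ht : t ≤ tC a s v) (hs : s ≤ 1)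
    (hv : v ≤ (a + s + 1) / 2 - 3 / 2 * a) : Pt N (a + s) v t ≤ 1 + N := by
  unfold Pt tC at *
  rcases le_max_iff.1 (le_refl (max (v + a + s) ((5 * s + (v + a)) / 3))) with h | h <;>
    linarith [h]

/-- D-blocks: if `N' + a ≤ 1` (`a` any piece of the block) every level is ideal. -/
theorem Pt_dblock {N a s v t : ℝ} (ht : t ≤ tC a s v) (hs : s ≤ 1) (h : a + s + a ≤ 1)
    (hv : v ≤ 2 * (a + s) - 1) : Pt N (a + s) v t ≤ 1 + N :=
  Pt_low ht hs (by linarith)

/-- structured levels, main term removed (weight `1`, no cube multiplicity): only `t ≤ 2N'`. -/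
theorem Pt_top {N N' v t : ℝ} (ht : t ≤ 2 * N') : N + 1 - 2 * N' + t ≤ 1 + N := by linarith

/-- size of a block which is not absolutely ideal: `N' > 3/4`, so `d ≤ K^{N - 3/4}` -/
theorem dblock_size {a₁ a₂ a₃ : ℝ} (h12 : a₃ ≤ a₁) (h23 : a₃ ≤ a₂)
    (h : 1 < a₁ + a₂ + a₃ + a₃) : 3 / 4 < a₁ + a₂ + a₃ := by linarith

/-! ### cross term -/

/-- 440's `R2`: `(K/K*)^{1/3} (J K*)^{-1/6} [T]^{1/2} [HB]^{1/2} [R]^{1/2}`, `κ* = v + N - 1`;
`t` is the moment of the `T_j` without the weight `n^{-1/6}`. -/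
def Err1 (N v t R : ℝ) : ℝ :=
  (1 - (v + N - 1)) / 3 - (v + (v + N - 1)) / 6 +
    ((t - N / 3) + max v (max (v + N - 1) (2 / 3 * (v + (v + N - 1)))) + R) / 2

theorem Err1_le {N v t R : ℝ} (hN' : N ≤ 19 / 23) (hv : v ≤ 2 * N - 1)
    (ht : t ≤ 2 * N) (hR : R ≤ Rf N (v + N - 1)) :
    Err1 N v t R ≤ 1 + N - min (4 / 23) ((19 - 23 * N) / 6) := by
  unfold Err1 Rf at *
  have h1 : min (4 / 23 : ℝ) ((19 - 23 * N) / 6) ≤ 4 / 23 := min_le_left _ _
  have h2 : min (4 / 23 : ℝ) ((19 - 23 * N) / 6) ≤ (19 - 23 * N) / 6 := min_le_right _ _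
  set m := min (4 / 23 : ℝ) ((19 - 23 * N) / 6) with hm
  have key : ∀ A B : ℝ, (A = v ∨ A = v + N - 1 ∨ A = 2 / 3 * (v + (v + N - 1))) →
      (B = v + N - 1 ∨ B = 3 * (v + N - 1) - N ∨
        B = 2 / 3 * (v + N - 1 + (3 * (v + N - 1) - N))) →
      (1 - (v + N - 1)) / 3 - (v + (v + N - 1)) / 6 + ((2 * N - N / 3) + A + (N + B)) / 2 ≤
        1 + N - m := by
    intro A B hA hB
    rcases hA with rfl | rfl | rfl <;> rcases hB with rfl | rfl | rfl <;> linarith
  obtain ⟨A, hA, hA'⟩ : ∃ A, max v (max (v + N - 1) (2 / 3 * (v + (v + N - 1)))) = A ∧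
      (A = v ∨ A = v + N - 1 ∨ A = 2 / 3 * (v + (v + N - 1))) := by
    refine ⟨_, rfl, ?_⟩
    rcases max_choice v (max (v + N - 1) (2 / 3 * (v + (v + N - 1)))) with h | h
    · left; exact h
    · rcases max_choice (v + N - 1) (2 / 3 * (v + (v + N - 1))) with h' | h' <;> rw [h, h'] <;>
        simp
  obtain ⟨B, hB, hB'⟩ : ∃ B, max (v + N - 1) (max (3 * (v + N - 1) - N)
      (2 / 3 * (v + N - 1 + (3 * (v + N - 1) - N)))) = B ∧
      (B = v + N - 1 ∨ B = 3 * (v + N - 1) - N ∨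
        B = 2 / 3 * (v + N - 1 + (3 * (v + N - 1) - N))) := by
    refine ⟨_, rfl, ?_⟩
    rcases max_choice (v + N - 1) (max (3 * (v + N - 1) - N)
      (2 / 3 * (v + N - 1 + (3 * (v + N - 1) - N)))) with h | h
    · left; exact h
    · rcases max_choice (3 * (v + N - 1) - N)
        (2 / 3 * (v + N - 1 + (3 * (v + N - 1) - N))) with h' | h' <;> rw [h, h'] <;> simp
  have := key A B hA' hB'
  rw [hB] at hR
  rw [hA]
  linarith

/-- `α₁ = ` the three smallest pieces: `N ≤ 4/5`, room `1/10`. -/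
theorem Err1_le' {N v t R : ℝ} (hN' : N ≤ 4 / 5) (hv : v ≤ 2 * N - 1)
    (ht : t ≤ 2 * N) (hR : R ≤ Rf N (v + N - 1)) : Err1 N v t R ≤ 1 + N - 1 / 10 := by
  have h := Err1_le (by linarith) hv ht hR
  have : (1 / 10 : ℝ) ≤ min (4 / 23) ((19 - 23 * N) / 6) := le_min (by norm_num) (by linarith)
  linarith

/-! ### Gram matrix: modes -/

/-- Poisson in `k` of the pair `(v, v')`, `τ ≤ v + v' - 1`, then Poisson in `j` (level `v`):
`i = N + τ - v`. -/
def Err2 (N v τ R : ℝ) : ℝ :=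
  2 / 3 + 2 / 3 * v - 4 / 3 * N - τ + max τ (max (N + τ - v) (2 / 3 * (τ + (N + τ - v)))) + R

/-- the definition of `Err2` from the steps: `(1 - v) - 1/3 - v/3 - N/3` (Poisson in `k`, weights),
`2 v - (N + τ)` (Poisson in `j`), Heath-Brown `(τ, i)`, moment of `α₁` at `i`. -/
theorem Err2_eq (N v τ R : ℝ) :
    (1 - v) - 1 / 3 - v / 3 - N / 3 + (2 * v - (N + τ)) +
      max τ (max (N + τ - v) (2 / 3 * (τ + (N + τ - v)))) + R = Err2 N v τ R := by
  unfold Err2; ring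

theorem cases3 (x y z : ℝ) : max x (max y z) = x ∨ max x (max y z) = y ∨ max x (max y z) = z := by
  rcases max_choice x (max y z) with h | h
  · left; exact h
  · rcases max_choice y z with h' | h' <;> rw [h, h'] <;> simp

theorem Err2_le {N v τ R : ℝ} (hN : N ≤ 19 / 23) (hv : v ≤ 2 * N - 1) (hτ0 : 0 ≤ τ)
    (hτ : τ ≤ v + 2 * N - 2)
    (hR : R ≤ Rf N (N + τ - v)) :
    Err2 N v τ R ≤ 1 + N - min (1 / 20) ((19 - 23 * N) / 3) := by
  have h1 : min (1 / 20 : ℝ) ((19 - 23 * N) / 3) ≤ 1 / 20 := min_le_left _ _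
  have h2 : min (1 / 20 : ℝ) ((19 - 23 * N) / 3) ≤ (19 - 23 * N) / 3 := min_le_right _ _
  unfold Err2 Rf at *
  rcases cases3 τ (N + τ - v) (2 / 3 * (τ + (N + τ - v))) with h | h | h <;>
    rcases cases3 (N + τ - v) (3 * (N + τ - v) - N)
      (2 / 3 * (N + τ - v + (3 * (N + τ - v) - N))) with h' | h' | h' <;>
    rw [h'] at hR <;> rw [h] <;> linarith

theorem Err2_le' {N v τ R : ℝ} (hN : N ≤ 4 / 5) (hv : v ≤ 2 * N - 1) (hτ0 : 0 ≤ τ)
    (hτ : τ ≤ v + 2 * N - 2)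
    (hR : R ≤ Rf N (N + τ - v)) : Err2 N v τ R ≤ 1 + N - 1 / 5 := by
  unfold Err2 Rf at *
  rcases cases3 τ (N + τ - v) (2 / 3 * (τ + (N + τ - v))) with h | h | h <;>
    rcases cases3 (N + τ - v) (3 * (N + τ - v) - N)
      (2 / 3 * (N + τ - v + (3 * (N + τ - v) - N))) with h' | h' | h' <;>
    rw [h'] at hR <;> rw [h] <;> linarith

/-! ### the Gram matrix at a shorter family (E3b) -/

/-- modes of `Σ_{k ~ K^{κ'}} |Struct_v|²` relative to its diagonal
`κ' - (1+N+v)/3 + 2N`: the modes contribute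
`κ' - (1+N+v)/3 + [v - N - τ + HB(τ,i) + R(i)]`. -/
def Err3 (N v τ R : ℝ) : ℝ :=
  v - N - τ + max τ (max (N + τ - v) (2 / 3 * (τ + (N + τ - v)))) + R

theorem Err3_le {N v τ R : ℝ} (hN : N ≤ 19 / 23) (hv : v ≤ 2 * N - 1) (hτ0 : 0 ≤ τ)
    (hτ : τ ≤ v + 2 * N - 2)
    (hR : R ≤ Rf N (N + τ - v)) : Err3 N v τ R ≤ 2 * N - 1 / 20 := by
  unfold Err3 Rf at *
  rcases cases3 τ (N + τ - v) (2 / 3 * (τ + (N + τ - v))) with h | h | h <;>
    rcases cases3 (N + τ - v) (3 * (N + τ - v) - N)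
      (2 / 3 * (N + τ - v + (3 * (N + τ - v) - N))) with h' | h' | h' <;>
    rw [h'] at hR <;> rw [h] <;> linarith

end Crest.Agent.R017.R8E828
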