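import Crest.Agent.R017.Rem_381

/-!
# Row 17 (section C, 5-boxes): the regularised splitting (R8.1)

`PH s B`: `B y w` is a positive hermitian sesquilinear form in the variables `y a`, `w a`, `a ∈ s`.

`split`: for `x` there is `w` (supported on `s`) with `x = w + G w` on `s`, where `G` is the operator
of `B`, i.e. `⟨y, x - w⟩ = B y w` for every `y`, and
`|w|² + 2 B w w + |x - w|² = |x|²`, `B w w ≤ B x x`.

`split_bound`: if `‖⟨w, X⟩‖² ≤ A (|w|² + B w w)` for all `w`, then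
`‖⟨x, X⟩‖ ≤ A^{1/2} |x| + ‖B w X‖` with the `w` of `split`.

`r8_split`: the instance for `CR2.DualIneq`: the bilinear form
`∑ h ∈ S X, conj (x h) * ∑ n ∈ T, c n * conj (sy n h)` is bounded by the ideal large sieve bound
plus the polar form `Bd` of the dual form `Qd` at `(w, X)`.
-/

set_option autoImplicit false

noncomputable section

open Finset Matrix MeasureTheory
open scoped ComplexConjugate

namespace Crest.Agent.R017.R8427

open Crest.Agent.R017.Rem381

section ph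

variable {α : Type*}

/-- `B` is a positive hermitian sesquilinear form in the variables in `s`
(conjugate linear in the first argument). -/
def PH (s : Finset α) (B : (α → ℂ) → (α → ℂ) → ℂ) : Prop :=
  ∃ G : α → α → ℂ, (∀ a b, conj (G a b) = G b a) ∧ (∀ w, 0 ≤ (B w w).re) ∧
    ∀ y w, B y w = ∑ a ∈ s, ∑ b ∈ s, conj (y a) * G a b * w b

lemma PH.nonneg {s : Finset α} {B : (α → ℂ) → (α → ℂ) → ℂ} (h : PH s B) (w : α → ℂ) :
    0 ≤ (B w w).re := by
  obtain ⟨G, -, h2, -⟩ := h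
  exact h2 w

lemma PH.herm {s : Finset α} {B : (α → ℂ) → (α → ℂ) → ℂ} (h : PH s B) (y w : α → ℂ) :
    conj (B y w) = B w y := by
  obtain ⟨G, h1, -, h3⟩ := h
  rw [h3, h3, map_sum]
  simp_rw [map_sum, map_mul, Complex.conj_conj, h1]
  rw [Finset.sum_comm]
  exact Finset.sum_congr rfl fun a _ => Finset.sum_congr rfl fun b _ => by ring

lemma PH.congr {s : Finset α} {B B' : (α → ℂ) → (α → ℂ) → ℂ} (h : PH s B)
    (hB : ∀ y w, B' y w = B y w) : PH s B' := by
  obtain ⟨G, h1, h2, h3⟩ := h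
  exact ⟨G, h1, fun w => by rw [hB]; exact h2 w, fun y w => by rw [hB]; exact h3 y w⟩

lemma PH.zero (s : Finset α) : PH s (fun _ _ => 0) :=
  ⟨fun _ _ => 0, by simp, fun _ => le_rfl, by simp⟩

lemma PH.add {s : Finset α} {B B' : (α → ℂ) → (α → ℂ) → ℂ} (h : PH s B) (h' : PH s B') :
    PH s (fun y w => B y w + B' y w) := by
  obtain ⟨G, h1, h2, h3⟩ := h
  obtain ⟨G', h1', h2', h3'⟩ := h'
  refine ⟨fun a b => G a b + G' a b, fun a b => by rw [map_add, h1, h1'],
    fun w => by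
      show 0 ≤ (B w w + B' w w).re
      rw [Complex.add_re]; exact add_nonneg (h2 w) (h2' w), fun y w => ?_⟩
  show B y w + B' y w = _
  rw [h3, h3', ← Finset.sum_add_distrib]
  refine Finset.sum_congr rfl fun a _ => ?_
  rw [← Finset.sum_add_distrib]
  refine Finset.sum_congr rfl fun b _ => ?_
  ring

lemma PH.smul {s : Finset α} {B : (α → ℂ) → (α → ℂ) → ℂ} (h : PH s B) {r : ℝ} (hr : 0 ≤ r) :
    PH s (fun y w => (r : ℂ) * B y w) := by
  obtain ⟨G, h1, h2, h3⟩ := h
  refine ⟨fun a b => r * G a b, fun a b => by rw [map_mul, h1, Complex.conj_ofReal],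
    fun w => by
      show 0 ≤ ((r : ℂ) * B w w).re
      rw [Complex.re_ofReal_mul]; exact mul_nonneg hr (h2 w), fun y w => ?_⟩
  show (r : ℂ) * B y w = _
  rw [h3, Finset.mul_sum]
  refine Finset.sum_congr rfl fun a _ => ?_
  rw [Finset.mul_sum]
  refine Finset.sum_congr rfl fun b _ => ?_
  ring

lemma PH.sum {s : Finset α} {β : Type*} (t : Finset β) {B : β → (α → ℂ) → (α → ℂ) → ℂ}
    (h : ∀ i ∈ t, PH s (B i)) : PH s (fun y w => ∑ i ∈ t, B i y w) := by
  classical
  induction t using Finset.induction_on with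
  | empty => exact (PH.zero s).congr fun y w => by simp
  | insert i t hi ih =>
    refine ((h i (Finset.mem_insert_self _ _)).add
      (ih fun j hj => h j (Finset.mem_insert_of_mem hj))).congr fun y w => ?_
    rw [Finset.sum_insert hi]

/-- the sesquilinear form `conj (L y) * L w` -/
lemma PH.lin (s : Finset α) (L : α → ℂ) :
    PH s (fun y w => conj (∑ a ∈ s, y a * L a) * ∑ a ∈ s, w a * L a) := by
  refine ⟨fun a b => conj (L a) * L b, fun a b => by simp [mul_comm], fun w => ?_, fun y w => ?_⟩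
  · show 0 ≤ (conj (∑ a ∈ s, w a * L a) * ∑ a ∈ s, w a * L a).re
    rw [← Complex.normSq_eq_conj_mul_self, Complex.ofReal_re]
    exact Complex.normSq_nonneg _
  · show conj (∑ a ∈ s, y a * L a) * ∑ a ∈ s, w a * L a = _
    rw [map_sum, Finset.sum_mul_sum]
    refine Finset.sum_congr rfl fun a _ => Finset.sum_congr rfl fun b _ => ?_
    rw [map_mul]
    ring

/-- an integral of forms `conj (L y) * L w` -/
lemma PH.integral_lin (s : Finset α) {L : ℝ → α → ℂ} {ρ : ℝ → ℝ} (hρ : ∀ t, 0 ≤ ρ t)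
    (hi : ∀ a ∈ s, ∀ b ∈ s, Integrable fun t => (ρ t : ℂ) * (conj (L t a) * L t b)) :
    PH s (fun y w => ∫ t, (ρ t : ℂ) * (conj (∑ a ∈ s, y a * L t a) * ∑ a ∈ s, w a * L t a)) := by
  classical
  have key : ∀ y w : α → ℂ,
      (∫ t, (ρ t : ℂ) * (conj (∑ a ∈ s, y a * L t a) * ∑ a ∈ s, w a * L t a)) =
      ∑ a ∈ s, ∑ b ∈ s, conj (y a) * (∫ t, (ρ t : ℂ) * (conj (L t a) * L t b)) * w b := by
    intro y w
    have h1 : ∀ t, (ρ t : ℂ) * (conj (∑ a ∈ s, y a * L t a) * ∑ a ∈ s, w a * L t a) =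
        ∑ a ∈ s, ∑ b ∈ s, (conj (y a) * w b) * ((ρ t : ℂ) * (conj (L t a) * L t b)) := by
      intro t
      rw [map_sum, Finset.sum_mul_sum, Finset.mul_sum]
      refine Finset.sum_congr rfl fun a _ => ?_
      rw [Finset.mul_sum]
      refine Finset.sum_congr rfl fun b _ => ?_
      rw [map_mul]
      ring
    simp_rw [h1]
    rw [integral_finsetSum _ fun a ha => integrable_finsetSum _ fun b hb =>
      (hi a ha b hb).const_mul _]
    refine Finset.sum_congr rfl fun a ha => ?_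
    rw [integral_finsetSum _ fun b hb => (hi a ha b hb).const_mul _]
    refine Finset.sum_congr rfl fun b _ => ?_
    rw [integral_const_mul]
    ring
  refine ⟨fun a b => ∫ t, (ρ t : ℂ) * (conj (L t a) * L t b), fun a b => ?_, fun w => ?_, key⟩
  · rw [← integral_conj]
    refine integral_congr_ae (Filter.Eventually.of_forall fun t => ?_)
    simp only [map_mul, Complex.conj_conj, Complex.conj_ofReal]
    ring
  · have h2 : ∀ t, (ρ t : ℂ) * (conj (∑ a ∈ s, w a * L t a) * ∑ a ∈ s, w a * L t a) =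
        ((ρ t * Complex.normSq (∑ a ∈ s, w a * L t a) : ℝ) : ℂ) := by
      intro t
      rw [← Complex.normSq_eq_conj_mul_self]
      push_cast
      ring
    show 0 ≤ (∫ t, (ρ t : ℂ) * (conj (∑ a ∈ s, w a * L t a) * ∑ a ∈ s, w a * L t a)).re
    simp_rw [h2]
    rw [integral_complex_ofReal, Complex.ofReal_re]
    exact integral_nonneg fun t => mul_nonneg (hρ t) (Complex.normSq_nonneg _)

/-- **Regularised splitting.** -/
theorem split {s : Finset α} {B : (α → ℂ) → (α → ℂ) → ℂ} (hB : PH s B) (x : α → ℂ) :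
    ∃ w : α → ℂ, (∀ a, a ∉ s → w a = 0) ∧
      (∀ y, ∑ a ∈ s, conj (y a) * (x a - w a) = B y w) ∧
      ∑ a ∈ s, ‖w a‖ ^ 2 + 2 * (B w w).re + ∑ a ∈ s, ‖x a - w a‖ ^ 2 = ∑ a ∈ s, ‖x a‖ ^ 2 ∧
      (B w w).re ≤ (B x x).re := by
  classical
  obtain ⟨G, h1, h2, h3⟩ := hB
  set M : Matrix s s ℂ := fun i j => G i j with hM
  have hMh : ∀ i j, conj (M i j) = M j i := fun i j => h1 i j
  have key : ∀ y w : α → ℂ, ip (fun i : s => y i) (M *ᵥ fun i : s => w i) = B y w := by
    intro y w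
    rw [h3]
    simp only [ip, Matrix.mulVec, dotProduct, hM]
    rw [← Finset.sum_coe_sort s]
    refine Finset.sum_congr rfl fun i _ => ?_
    rw [Finset.mul_sum, ← Finset.sum_coe_sort s]
    refine Finset.sum_congr rfl fun j _ => ?_
    ring
  have ext : ∀ v : s → ℂ, ∃ w : α → ℂ, (∀ a, a ∉ s → w a = 0) ∧ (fun i : s => w i) = v := by
    intro v
    refine ⟨fun a => if ha : a ∈ s then v ⟨a, ha⟩ else 0, fun a ha => dif_neg ha, ?_⟩
    funext i
    simp
  have hpos : ∀ v : s → ℂ, 0 ≤ (ip v (M *ᵥ v)).re := by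
    intro v
    obtain ⟨w, -, rfl⟩ := ext v
    rw [key]
    exact h2 w
  set T : (s → ℂ) →ₗ[ℂ] (s → ℂ) := LinearMap.id + Matrix.mulVecLin M with hT
  have hTa : ∀ w, T w = w + M *ᵥ w := fun w => by simp [hT]
  have hinj : Function.Injective T := by
    rw [← LinearMap.ker_eq_bot, LinearMap.ker_eq_bot']
    intro w hw
    rw [hTa] at hw
    have h1 : (ip w (w + M *ᵥ w)).re = 0 := by rw [hw]; simp [ip]
    rw [ip_add_right, Complex.add_re, ip_self_re] at h1
    have h2 := hpos w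
    have h3 : 0 ≤ ∑ i, ‖w i‖ ^ 2 := Finset.sum_nonneg fun i _ => by positivity
    have h4 : ∑ i, ‖w i‖ ^ 2 = 0 := by linarith
    rw [Finset.sum_eq_zero_iff_of_nonneg (fun i _ => by positivity)] at h4
    funext i
    have := h4 i (Finset.mem_univ i)
    simpa using this
  obtain ⟨c, hc⟩ := (LinearMap.injective_iff_surjective.1 hinj) (fun i : s => x i)
  rw [hTa] at hc
  obtain ⟨w, hw0, rfl⟩ := ext c
  have hr : (fun i : s => x i - w i) = M *ᵥ fun i : s => w i := by
    funext i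
    have := congrFun hc i
    simp only [Pi.add_apply] at this
    rw [← this]
    ring
  refine ⟨w, hw0, fun y => ?_, ?_, ?_⟩
  · rw [← key, ← hr]
    simp only [ip]
    rw [← Finset.sum_coe_sort s]
  · have e1 : ∑ a ∈ s, ‖x a‖ ^ 2 =
        (ip (fun i : s => x i) (fun i : s => x i)).re := by
      rw [ip_self_re, ← Finset.sum_coe_sort s]
    have e2 : ∑ a ∈ s, ‖w a‖ ^ 2 = (ip (fun i : s => w i) (fun i : s => w i)).re := by
      rw [ip_self_re, ← Finset.sum_coe_sort s]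
    have e3 : ∑ a ∈ s, ‖x a - w a‖ ^ 2 =
        (ip (M *ᵥ fun i : s => w i) (M *ᵥ fun i : s => w i)).re := by
      rw [← hr, ip_self_re, ← Finset.sum_coe_sort s]
    have e4 : (B w w).re = (ip (fun i : s => w i) (M *ᵥ fun i : s => w i)).re := by rw [key]
    have e5 : (ip (M *ᵥ fun i : s => w i) (fun i : s => w i)).re =
        (ip (fun i : s => w i) (M *ᵥ fun i : s => w i)).re := ip_re_comm _ _
    rw [e1, e2, e3, e4, ← hc, ip_add_left, ip_add_right, ip_add_right]
    simp only [Complex.add_re]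
    rw [e5]
    ring
  · have e4 : (B w w).re = (ip (fun i : s => w i) (M *ᵥ fun i : s => w i)).re := by rw [key]
    have e6 : (B x x).re = (ip (fun i : s => x i) (M *ᵥ fun i : s => x i)).re := by rw [key]
    rw [e4, e6, ← hc]
    set u : s → ℂ := fun i : s => w i
    rw [Matrix.mulVec_add, ip_add_left, ip_add_right, ip_add_right]
    simp only [Complex.add_re]
    have h5 : ip u (M *ᵥ (M *ᵥ u)) = ip (M *ᵥ u) (M *ᵥ u) := ip_mulVec M hMh u _
    have h6 : 0 ≤ (ip (M *ᵥ u) (M *ᵥ u)).re := by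
      rw [ip_self_re]
      exact Finset.sum_nonneg fun i _ => by positivity
    have h7 := hpos (M *ᵥ u)
    rw [h5]
    linarith

/-- the splitting against a vector `X` which is bounded on the form domain -/
theorem split_bound {s : Finset α} {B : (α → ℂ) → (α → ℂ) → ℂ} (hB : PH s B) (x X : α → ℂ)
    {A : ℝ} (hA : 0 ≤ A)
    (h : ∀ w : α → ℂ, ‖∑ a ∈ s, conj (w a) * X a‖ ^ 2 ≤ A * (∑ a ∈ s, ‖w a‖ ^ 2 + (B w w).re)) :
    ∃ w : α → ℂ, (∀ a, a ∉ s → w a = 0) ∧
      ∑ a ∈ s, ‖w a‖ ^ 2 + 2 * (B w w).re + ∑ a ∈ s, ‖x a - w a‖ ^ 2 = ∑ a ∈ s, ‖x a‖ ^ 2 ∧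
      (B w w).re ≤ (B x x).re ∧
      ‖∑ a ∈ s, conj (x a) * X a‖ ≤ √A * √(∑ a ∈ s, ‖x a‖ ^ 2) + ‖B w X‖ := by
  obtain ⟨w, h0, h1, h2, h3⟩ := split hB x
  refine ⟨w, h0, h2, h3, ?_⟩
  have e1 : ∑ a ∈ s, conj (x a) * X a =
      ∑ a ∈ s, conj (w a) * X a + B w X := by
    have e2 : ∑ a ∈ s, conj (x a - w a) * X a = B w X := by
      have e3 := h1 X
      have e4 : conj (∑ a ∈ s, conj (X a) * (x a - w a)) = ∑ a ∈ s, conj (x a - w a) * X a := by
        rw [map_sum]
        refine Finset.sum_congr rfl fun a _ => ?_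
        rw [map_mul, Complex.conj_conj, mul_comm]
      rw [← e4, e3, hB.herm]
    rw [← e2, ← Finset.sum_add_distrib]
    refine Finset.sum_congr rfl fun a _ => ?_
    rw [map_sub]
    ring
  rw [e1]
  refine (norm_add_le _ _).trans (add_le_add ?_ le_rfl)
  have h4 : ‖∑ a ∈ s, conj (w a) * X a‖ ^ 2 ≤ A * ∑ a ∈ s, ‖x a‖ ^ 2 := by
    refine (h w).trans (mul_le_mul_of_nonneg_left ?_ hA)
    have h5 := hB.nonneg w
    have h6 : 0 ≤ ∑ a ∈ s, ‖x a - w a‖ ^ 2 := Finset.sum_nonneg fun i _ => by positivity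
    linarith
  rw [← Real.sqrt_mul hA]
  exact Real.le_sqrt_of_sq_le h4

end ph

end Crest.Agent.R017.R8427
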