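import Crest.Agent.R017.R8a_427

/-!
# Row 17 (section C, 5-boxes): the regularised splitting for the dual inequality (R8.1)

`Bd` is the polar form of `Rem381.Qd`; `r8_split` is the splitting of the bilinear form
`∑ h ∈ S X, conj (x h) * ∑ n ∈ T, c n * conj (sy n h)`.
-/

set_option autoImplicit false

noncomputable section

open MeasureTheory Finset
open scoped ComplexConjugate

namespace Crest.Agent.R017.R8427

open Crest.Agent.R012 Crest.Agent.R017.Rem381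
open Eis LS2 Mob705 CR2 MelSep811

open Classical in
/-- the polar form of the dual form `Qd` -/
def Bd (X Z σ ε : ℝ) (y w : Eis → ℂ) : ℂ :=
  ∑ d ∈ S X, ∑ e ∈ (S X).filter (· ∣ d), ∑ f ∈ S X,
    ((Z / (nm e * nm f) * (nm e * (nm f : ℝ) ^ 2 / Z) ^ σ : ℝ) : ℂ) *
      ∑ l ∈ bl (Lde X Z ε d e), (((nm l : ℝ) ^ (-σ) : ℝ) : ℂ) *
        ∫ t : ℝ, (((1 + t ^ 2)⁻¹ : ℝ) : ℂ) *
          (conj (dsum (rs X y) X d e f l (σ + t * Complex.I)) *
            dsum (rs X w) X d e f l (σ + t * Complex.I))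

lemma ph_Bd {X Z σ ε : ℝ} (hX : 0 ≤ X) (hZ : 0 < Z) : PH (S X) (Bd X Z σ ε) := by
  classical
  have key : ∀ d e f l : Eis, PH (S X) (fun y w => ∫ t : ℝ, (((1 + t ^ 2)⁻¹ : ℝ) : ℂ) *
      (conj (∑ a ∈ S X, y a * Lc X d e f l (σ + t * Complex.I) a) *
        ∑ a ∈ S X, w a * Lc X d e f l (σ + t * Complex.I) a)) := fun d e f l =>
    PH.integral_lin (S X) (L := fun t a => Lc X d e f l (σ + t * Complex.I) a)
      (ρ := fun t => (1 + t ^ 2)⁻¹) (fun t => by positivity)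
      (fun a _ b _ => integrable_prod hX d e f l a b σ)
  have h1 : PH (S X) (fun y w => ∑ d ∈ S X, ∑ e ∈ (S X).filter (· ∣ d), ∑ f ∈ S X,
      ((Z / (nm e * nm f) * (nm e * (nm f : ℝ) ^ 2 / Z) ^ σ : ℝ) : ℂ) *
        ∑ l ∈ bl (Lde X Z ε d e), (((nm l : ℝ) ^ (-σ) : ℝ) : ℂ) *
          ∫ t : ℝ, (((1 + t ^ 2)⁻¹ : ℝ) : ℂ) *
            (conj (∑ a ∈ S X, y a * Lc X d e f l (σ + t * Complex.I) a) *
              ∑ a ∈ S X, w a * Lc X d e f l (σ + t * Complex.I) a)) := by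
    refine PH.sum _ fun d _ => PH.sum _ fun e _ => PH.sum _ fun f _ => ?_
    refine PH.smul ?_ (by positivity)
    refine PH.sum _ fun l _ => ?_
    exact (key d e f l).smul (by positivity)
  refine h1.congr fun y w => ?_
  unfold Bd
  simp_rw [dsum_rs]

lemma Bd_self {X Z σ ε : ℝ} (hX : 0 ≤ X) (w : Eis → ℂ) :
    Bd X Z σ ε w w = (Qd X Z σ ε w : ℂ) := by
  classical
  unfold Bd Qd
  push_cast
  refine Finset.sum_congr rfl fun d _ => Finset.sum_congr rfl fun e _ =>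
    Finset.sum_congr rfl fun f _ => ?_
  congr 1
  have h2 : ∀ t : ℝ, (1 + t ^ 2)⁻¹ * ∑ l ∈ bl (Lde X Z ε d e),
      (nm l : ℝ) ^ (-σ) * ‖dsum (rs X w) X d e f l (σ + t * Complex.I)‖ ^ 2 =
      ∑ l ∈ bl (Lde X Z ε d e), (nm l : ℝ) ^ (-σ) *
        ((1 + t ^ 2)⁻¹ * ‖dsum (rs X w) X d e f l (σ + t * Complex.I)‖ ^ 2) := by
    intro t
    rw [Finset.mul_sum]
    exact Finset.sum_congr rfl fun l _ => by ring
  simp_rw [h2]
  rw [integral_finsetSum _ fun l _ =>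
    (DualIneq811.integrable_dsum hX (rs X w) d e f l σ).const_mul _]
  push_cast
  refine Finset.sum_congr rfl fun l _ => ?_
  rw [integral_const_mul]
  push_cast
  congr 1
  rw [← integral_complex_ofReal]
  refine integral_congr_ae (Filter.Eventually.of_forall fun t => ?_)
  simp only
  rw [← Complex.normSq_eq_conj_mul_self, Complex.normSq_eq_norm_sq]
  push_cast
  ring

/-- **Regularised splitting for the dual inequality** (R8.1). -/
theorem r8_split {σ ε : ℝ} (hσ : 0 < σ) (hσ1 : σ ≤ 1 / 2) (hε : 0 < ε) :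
    ∃ C : ℝ, 0 < C ∧ ∀ X Z : ℝ, 1 ≤ X → 1 ≤ Z → ∀ (T : Finset Eis) (c x : Eis → ℂ),
      ∃ w : Eis → ℂ, (∀ h, h ∉ S X → w h = 0) ∧
        ∑ h ∈ S X, ‖w h‖ ^ 2 + 2 * (Z⁻¹ * Qd X Z σ ε w) + ∑ h ∈ S X, ‖x h - w h‖ ^ 2 =
          ∑ h ∈ S X, ‖x h‖ ^ 2 ∧
        Qd X Z σ ε w ≤ Qd X Z σ ε x ∧
        ‖∑ h ∈ S X, conj (x h) * ∑ n ∈ T, c n * conj (sy n h)‖ ≤
          √(C * Z * ∑ n ∈ T, Real.exp (nm n / Z) * ‖c n‖ ^ 2) * √(∑ h ∈ S X, ‖x h‖ ^ 2) +
          Z⁻¹ * ‖Bd X Z σ ε w (fun h => ∑ n ∈ T, c n * conj (sy n h))‖ := by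
  classical
  obtain ⟨C, hC, hD⟩ := dualIneq σ ε hσ hσ1 hε
  refine ⟨C, hC, fun X Z hX hZ T c x => ?_⟩
  have hX0 : 0 ≤ X := by linarith
  have hZ0 : 0 < Z := by linarith
  have hPH : PH (S X) (fun y w => ((Z⁻¹ : ℝ) : ℂ) * Bd X Z σ ε y w) :=
    (ph_Bd (σ := σ) (ε := ε) hX0 hZ0).smul (r := Z⁻¹) (by positivity)
  have hself : ∀ w, (((Z⁻¹ : ℝ) : ℂ) * Bd X Z σ ε w w).re = Z⁻¹ * Qd X Z σ ε w := fun w => by
    rw [Bd_self hX0, ← Complex.ofReal_mul, Complex.ofReal_re]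
  obtain ⟨w, h0, h1, h2, h3⟩ := split_bound hPH x (fun h => ∑ n ∈ T, c n * conj (sy n h))
    (A := C * Z * ∑ n ∈ T, Real.exp (nm n / Z) * ‖c n‖ ^ 2)
    (mul_nonneg (by positivity) (Finset.sum_nonneg fun n _ => by positivity)) (fun w => by
      have hsum := summable_lhs Sym645.syFacts hX0 hZ0 (rs X w)
      have h1 := hD X Z hX hZ (rs X w) rs_supp
      have h2 : ∀ n, ∑ h ∈ S X, rs X w h * sy n h = ∑ h ∈ S X, w h * sy n h := fun n =>
        Finset.sum_congr rfl fun h hh => by rw [rs_eq hh]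
      have h3 : ∑ h ∈ S X, ‖rs X w h‖ ^ 2 = ∑ h ∈ S X, ‖w h‖ ^ 2 :=
        Finset.sum_congr rfl fun h hh => by rw [rs_eq hh]
      simp only [h2] at h1 hsum
      rw [h3] at h1
      have h4 : ∑ n ∈ T, Real.exp (-(nm n : ℝ) / Z) * ‖∑ h ∈ S X, w h * sy n h‖ ^ 2 ≤
          C * Z * (∑ h ∈ S X, ‖w h‖ ^ 2 + Z⁻¹ * Qd X Z σ ε w) := by
        refine (hsum.sum_le_tsum T fun n _ => by positivity).trans (h1.trans (le_of_eq ?_))
        have e0 : C * Z * ∑ h ∈ S X, ‖w h‖ ^ 2 + C * Qd X Z σ ε w =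
            C * Z * (∑ h ∈ S X, ‖w h‖ ^ 2 + Z⁻¹ * Qd X Z σ ε w) := by
          generalize Qd X Z σ ε w = B
          field_simp
        rw [← e0]
        rfl
      have h5 : ∑ a ∈ S X, conj (w a) * ∑ n ∈ T, c n * conj (sy n a) =
          ∑ n ∈ T, c n * conj (∑ a ∈ S X, w a * sy n a) := by
        simp_rw [map_sum, map_mul, Finset.mul_sum]
        rw [Finset.sum_comm]
        refine Finset.sum_congr rfl fun n _ => Finset.sum_congr rfl fun a _ => ?_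
        ring
      rw [hself, h5]
      have h6 : ‖∑ n ∈ T, c n * conj (∑ a ∈ S X, w a * sy n a)‖ ≤
          ∑ n ∈ T, (Real.exp (nm n / (2 * Z)) * ‖c n‖) *
            (Real.exp (-(nm n : ℝ) / (2 * Z)) * ‖∑ a ∈ S X, w a * sy n a‖) := by
        refine (norm_sum_le _ _).trans (le_of_eq (Finset.sum_congr rfl fun n _ => ?_))
        rw [norm_mul, RCLike.norm_conj]
        have h7 : Real.exp ((nm n : ℝ) / (2 * Z)) * Real.exp (-(nm n : ℝ) / (2 * Z)) = 1 := by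
          rw [← Real.exp_add]
          have : (nm n : ℝ) / (2 * Z) + -(nm n : ℝ) / (2 * Z) = 0 := by ring
          rw [this, Real.exp_zero]
        calc ‖c n‖ * ‖∑ a ∈ S X, w a * sy n a‖
            = (Real.exp ((nm n : ℝ) / (2 * Z)) * Real.exp (-(nm n : ℝ) / (2 * Z))) *
              (‖c n‖ * ‖∑ a ∈ S X, w a * sy n a‖) := by rw [h7, one_mul]
          _ = _ := by ring
      have h8 : (∑ n ∈ T, (Real.exp (nm n / (2 * Z)) * ‖c n‖) *
            (Real.exp (-(nm n : ℝ) / (2 * Z)) * ‖∑ a ∈ S X, w a * sy n a‖)) ^ 2 ≤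
          (∑ n ∈ T, (Real.exp (nm n / (2 * Z)) * ‖c n‖) ^ 2) *
            ∑ n ∈ T, (Real.exp (-(nm n : ℝ) / (2 * Z)) * ‖∑ a ∈ S X, w a * sy n a‖) ^ 2 :=
        Finset.sum_mul_sq_le_sq_mul_sq _ _ _
      have e1 : ∀ n : Eis, (Real.exp (nm n / (2 * Z)) * ‖c n‖) ^ 2 =
          Real.exp (nm n / Z) * ‖c n‖ ^ 2 := fun n => by
        rw [mul_pow, ← Real.exp_nat_mul]
        congr 2
        push_cast
        field_simp
      have e2 : ∀ n : Eis, (Real.exp (-(nm n : ℝ) / (2 * Z)) * ‖∑ a ∈ S X, w a * sy n a‖) ^ 2 =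
          Real.exp (-(nm n : ℝ) / Z) * ‖∑ a ∈ S X, w a * sy n a‖ ^ 2 := fun n => by
        rw [mul_pow, ← Real.exp_nat_mul]
        congr 2
        push_cast
        field_simp
      simp_rw [e1, e2] at h8
      calc ‖∑ n ∈ T, c n * conj (∑ a ∈ S X, w a * sy n a)‖ ^ 2
          ≤ (∑ n ∈ T, (Real.exp (nm n / (2 * Z)) * ‖c n‖) *
            (Real.exp (-(nm n : ℝ) / (2 * Z)) * ‖∑ a ∈ S X, w a * sy n a‖)) ^ 2 := by gcongr
        _ ≤ _ := h8
        _ ≤ (∑ n ∈ T, Real.exp (nm n / Z) * ‖c n‖ ^ 2) *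
            (C * Z * (∑ h ∈ S X, ‖w h‖ ^ 2 + Z⁻¹ * Qd X Z σ ε w)) := by
            gcongr
        _ = _ := by ring)
  refine ⟨w, h0, ?_, ?_, ?_⟩
  · rw [hself] at h1
    exact h1
  · rw [hself, hself] at h2
    exact le_of_mul_le_mul_left h2 (by positivity)
  · refine h3.trans (le_of_eq ?_)
    rw [norm_mul, Complex.norm_real, Real.norm_of_nonneg (by positivity : (0 : ℝ) ≤ Z⁻¹)]

end Crest.Agent.R017.R8427
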