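import Crest.Agent.R017.TUR_47
import Crest.Agent.R017.P1DomS_918

/-!
# Row 17, R8: `TailU`, the real inequality of the principal `k` (helper176)

* `realB` : helper47's `RealB`
-/

set_option autoImplicit false
set_option linter.unusedVariables false

noncomputable section

namespace Crest.Agent.R017.RB176

open Crest.Agent.R017.B770 Crest.Agent.R017.Prov71
open Crest.Agent.R017.E5B71 Crest.Agent.R017.E5L770
open Crest.Agent.R017.TU47

set_option maxHeartbeats 1000000 in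
/-- the linear core -/
theorem core {κ N M a c x v k d T3 t m : ℝ} (hκ : 8 / 9 ≤ κ) (hκ1 : κ ≤ 1) (d0 : 0 ≤ d)
    (d1 : d ≤ 1 / 42) (N0 : 74 / 100 * κ ≤ N) (N1 : N ≤ 102 / 125 * κ) (x0 : 0 ≤ x)
    (x1 : 36 * x ≤ κ) (MN : 2 * N ≤ 3 * M) (a0 : 0 ≤ a) (a1 : 12 * a ≤ κ) (c0 : 0 ≤ c)
    (c1 : 3 * c ≤ 1) (v0 : 0 ≤ v) (v1 : v ≤ 3 / 4 * N + 3 * x) (v2 : v ≤ 2 * N - κ + 3 * x)
    (k0 : 0 ≤ k) (k1 : k ≤ κ) (t0 : 0 ≤ t)
    (ht : t ≤ 5 / 4 * N ∨ t ≤ N + v / 3 ∨ t ≤ (36 * N + 72 * v) / 73)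
    (hT : T3 ≤ 2 * N ∨ T3 ≤ 4 / 3 * N + (v + t) / 3)
    (hm : m ≤ k ∨ m ≤ v ∨ m ≤ 2 / 3 * (k + v)) :
    ((κ - k) / 3 + (T3 - N / 3 + 3 / 4 * (1 / 42) * t - (k + v) / 3 + m)) / 2 +
      (κ / 3 + 2 * (a + c)) / 2 ≤ κ + (N + M + a + c) / 2 - 1 / 100 := by
  rcases ht with ht | ht | ht <;> rcases hT with hT | hT <;> rcases hm with hm | hm | hm <;>
    linarith

lemma T5_ge {d : ℝ} (hd : 0 ≤ d) (q : (Fin 3 ⊕ Fin 5 → ℝ) × (Kd → ℝ)) :
    cκ q.1 + (cN q.1 + cM q.1 + q.2 .mo + q.2 .am) / 2 ≤ T5 (7 / 8 + d) q := by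
  unfold T5 Cone59.Tg
  have h := le_max_left ((cκ q.1 - 1) + (cN q.1 + cM q.1 + q.2 .mo - (2 - 2 * (1 / 3 : ℝ))) / 2 +
    (q.2 .am - 1 / 3) / 2)
    (max ((cκ q.1 - 1) / 2 + 3 / 4 * (cN q.1 + cM q.1 + q.2 .mo - (2 - 2 * (1 / 3 : ℝ))) +
      1 / 4 * (q.2 .am - 1 / 3)) ((cκ q.1 - 1) / 6 +
      (7 / 8 + d) * (cN q.1 + cM q.1 + q.2 .mo - (2 - 2 * (1 / 3 : ℝ))) +
      (7 / 8 + d) * (q.2 .am - 1 / 3)))
  refine le_trans ?_ (add_le_add_right h _)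
  nlinarith

/-- **`RealB`** -/
theorem realB {A d : ℝ} (hd : 0 < d) (hd1 : d ≤ 1 / 42) (hA : A < 1) (hA0 : 2 / 3 ≤ A)
    (hA1 : 16 * (1 - A) ≤ d) : ∃ μ > 0, RealB A d μ := by
  refine ⟨1 / 100, by norm_num, ?_⟩
  intro q hq k k0 k1
  obtain ⟨hw, hv0, hv⟩ := hq
  have hw : Sq5 A d (dn q.1) q.2 := hw
  have hκ0 := hw.κ0
  have hκ1 := hw.κ1
  have hκ : 0 < cκ (dn q.1) := by linarith
  obtain ⟨u4, y43, u0, hy3, N1, near, x0, adm, d0, d1⟩ :=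
    hw.dp hd.le (by linarith) hA.le hA1
  obtain ⟨a1, a2, a3, a4⟩ := hw.anti
  have eN : cN (dn q.1) = cu (dn q.1) 2 + cu (dn q.1) 3 + cu (dn q.1) 4 := rfl
  have eM : cM (dn q.1) = cu (dn q.1) 0 + cu (dn q.1) 1 := rfl
  have hm : ∀ s t : ℝ, s ≤ t → cκ (dn q.1) * s ≤ cκ (dn q.1) * t :=
    fun s t h => mul_le_mul_of_nonneg_left h hκ.le
  have e3 : cκ (dn q.1) * (cu (dn q.1) 2 / cκ (dn q.1)) = cu (dn q.1) 2 := by field_simp
  have e4 : cκ (dn q.1) * (cu (dn q.1) 3 / cκ (dn q.1)) = cu (dn q.1) 3 := by field_simp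
  have e5 : cκ (dn q.1) * (cu (dn q.1) 4 / cκ (dn q.1)) = cu (dn q.1) 4 := by field_simp
  have ex : cκ (dn q.1) * (cx' (dn q.1) / cκ (dn q.1)) = cx' (dn q.1) := by field_simp
  have hNu : cN (dn q.1) ≤ 102 / 125 * cκ (dn q.1) := by
    have := hm _ _ N1
    rw [mul_add, mul_add, e3, e4, e5] at this
    rw [eN]; linarith
  have hnear : 99 / 100 * cκ (dn q.1) ≤ cN (dn q.1) + cu (dn q.1) 4 := by
    have := hm _ _ near
    rw [mul_add, mul_add, mul_left_comm, e3, e4, e5] at this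
    rw [eN]; linarith
  have hx0 : 0 ≤ cx' (dn q.1) := by
    have := hm _ _ x0
    rw [ex, mul_zero] at this
    exact this
  have hxs : cx' (dn q.1) / cκ (dn q.1) ≤ 1 / 36 := by
    rcases adm with ⟨b0, -⟩ | ⟨-, b1, -⟩ <;> linarith
  have hx1 : 36 * cx' (dn q.1) ≤ cκ (dn q.1) := by
    have := hm _ _ hxs
    rw [ex] at this
    linarith
  have hu : 3 * cu (dn q.1) 4 ≤ cN (dn q.1) := by rw [eN]; linarith
  have hMN : 2 * cN (dn q.1) ≤ 3 * cM (dn q.1) := by rw [eN, eM]; linarith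
  have v1 : q.1 none ≤ 3 / 4 * cN (dn q.1) + 3 * cx' (dn q.1) := by
    refine hv.trans ?_
    unfold top5
    linarith [min_le_right (2 * cN (dn q.1) - cκ (dn q.1)) (3 / 4 * cN (dn q.1))]
  have v2 : q.1 none ≤ 2 * cN (dn q.1) - cκ (dn q.1) + 3 * cx' (dn q.1) := by
    refine hv.trans ?_
    unfold top5
    linarith [min_le_left (2 * cN (dn q.1) - cκ (dn q.1)) (3 / 4 * cN (dn q.1))]
  have hN0 : 0 ≤ cN (dn q.1) := by linarith
  refine le_trans ?_ (sub_le_sub_right (T5_ge hd.le (dn q.1, q.2)) _)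
  have ht0 : 0 ≤ kT (q.1 none) (cN (dn q.1)) := by
    unfold kT
    exact le_trans (by positivity) (le_max_left _ _)
  have ht : kT (q.1 none) (cN (dn q.1)) ≤ 5 / 4 * cN (dn q.1) ∨
      kT (q.1 none) (cN (dn q.1)) ≤ cN (dn q.1) + q.1 none / 3 ∨
      kT (q.1 none) (cN (dn q.1)) ≤ (36 * cN (dn q.1) + 72 * q.1 none) / 73 := by
    unfold kT
    rcases max_choice (5 / 4 * cN (dn q.1)) (max (cN (dn q.1) + q.1 none / 3)
      ((36 * cN (dn q.1) + 72 * q.1 none) / 73)) with h | h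
    · rw [h]; exact Or.inl le_rfl
    · rw [h]
      rcases max_choice (cN (dn q.1) + q.1 none / 3)
        ((36 * cN (dn q.1) + 72 * q.1 none) / 73) with h' | h'
      · rw [h']; exact Or.inr (Or.inl le_rfl)
      · rw [h']; exact Or.inr (Or.inr le_rfl)
  have hdt : 3 / 4 * d * kT (q.1 none) (cN (dn q.1)) ≤
      3 / 4 * (1 / 42) * kT (q.1 none) (cN (dn q.1)) := by gcongr
  have hT : max (2 * cN (dn q.1)) (4 / 3 * cN (dn q.1) +
      (q.1 none + kT (q.1 none) (cN (dn q.1))) / 3) ≤ 2 * cN (dn q.1) ∨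
      max (2 * cN (dn q.1)) (4 / 3 * cN (dn q.1) +
      (q.1 none + kT (q.1 none) (cN (dn q.1))) / 3) ≤ 4 / 3 * cN (dn q.1) +
      (q.1 none + kT (q.1 none) (cN (dn q.1))) / 3 := by
    rcases max_choice (2 * cN (dn q.1)) (4 / 3 * cN (dn q.1) +
      (q.1 none + kT (q.1 none) (cN (dn q.1))) / 3) with h | h
    · exact Or.inl h.le
    · exact Or.inr h.le
  have hmm : max k (max (q.1 none) (2 / 3 * (k + q.1 none))) ≤ k ∨
      max k (max (q.1 none) (2 / 3 * (k + q.1 none))) ≤ q.1 none ∨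
      max k (max (q.1 none) (2 / 3 * (k + q.1 none))) ≤ 2 / 3 * (k + q.1 none) := by
    rcases max_choice k (max (q.1 none) (2 / 3 * (k + q.1 none))) with h | h
    · exact Or.inl h.le
    · rcases max_choice (q.1 none) (2 / 3 * (k + q.1 none)) with h' | h'
      · exact Or.inr (Or.inl (h.le.trans h'.le))
      · exact Or.inr (Or.inr (h.le.trans h'.le))
  have hc := core hκ0 hκ1 hd.le hd1 (by linarith) hNu hx0 hx1 hMN (hw.w0 .mo) hw.a12 (hw.w0 .am)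
    (by have := hw.c; linarith) hv0 v1 v2 k0 k1 ht0 ht hT hmm
  refine le_trans ?_ hc
  unfold g2b tT
  linarith

end Crest.Agent.R017.RB176
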