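import Crest.Agent.R017.PrE_176
import Crest.Agent.R017.E2ze_440
import Crest.Agent.R017.PrD5_502
import Crest.Agent.R017.E2sp_579

/-!
# Row 17, exceptional class, T.7, leaf E2-e, part a (helper385): the sums over `c`, `j₂`

* `wt_id` : the weight `RR^(-1/3) (K/nm(e A j₂))^(2/3)` does not depend on `j₂`
* `GKd_split` : `GKd` of the two halves
* `pr_half` : the principal half of the inner double sum of `REb`
-/

set_option autoImplicit false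
set_option linter.unusedVariables false

noncomputable section

open Complex MeasureTheory
open scoped ComplexConjugate

namespace Crest.Agent.R017.RCX385

open Crest.Agent.R012 Crest.Agent.R012.Eis Crest.Agent.R012.GaussLoc283
open Crest.Agent.R012.Mob705 hiding pb mem_pb
open Crest.Agent.R012.Div277
open Crest.Agent.R012.LS2 (S mem_S)
open Crest.Agent.R012.Weight600 (osc norm_osc pw)
open Crest.Agent.R017.PX764 (th Gh n6 cD)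
open Crest.Agent.R017.X6C180 (Sg fA IX dl' om' GF)
open Crest.Agent.R017.CM106 (sub CS FS)
open Crest.Agent.R017.H1401 (DN WM)
open Crest.Agent.R017.E2440
open Crest.Agent.R017.E2sp579 (MH fP dh_split)
open Crest.Agent.R017.PrD502 (PV PrK prK_tw MH_pr prM prM_nonneg Mu Mu_nonneg b2 cube_root r13 r23
  r43 rn13' nm_C4 card_C4)
open Crest.Agent.R017.PrE176 (PJm GPsumM_le)
open Crest.Agent.R017.MoF106 (dmx le_dmx)

/-- the weight does not depend on `j₂` -/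
lemma wt_id {V K : ℝ} (hV : 0 < V) (hK : 0 < K) {e A c j : Eis} (he : e ≠ 0) (hA : A ≠ 0)
    (hc : c ≠ 0) (hj : j ≠ 0) :
    RR V e A c j ^ (-(1 : ℝ) / 3) * (K / nm (e * A * j)) ^ ((2 : ℝ) / 3) =
      (nm c : ℝ) ^ ((1 : ℝ) / 3) * (V ^ (-(1 : ℝ) / 3) * K ^ ((2 : ℝ) / 3) / nm (e * A)) := by
  have hEA : (0 : ℝ) < nm (e * A) := by exact_mod_cast nm_pos.2 (mul_ne_zero he hA)
  have hc0 : (0 : ℝ) < nm c := by exact_mod_cast nm_pos.2 hc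
  have hj0 : (0 : ℝ) < nm j := by exact_mod_cast nm_pos.2 hj
  have e1 : (nm (e * A * j) : ℝ) = nm (e * A) * nm j := by rw [nm_mul]; push_cast; ring
  unfold E2440.RR
  rw [e1]
  obtain ⟨v, hv, hv'⟩ := cube_root hV
  obtain ⟨k, hk, hk'⟩ := cube_root hK
  obtain ⟨x, hx, hx'⟩ := cube_root hEA
  obtain ⟨γ, hγ, hγ'⟩ := cube_root hc0
  obtain ⟨ι, hι, hι'⟩ := cube_root hj0
  rw [hv', hk', hx', hγ', hι']
  have a1 : v ^ 3 * x ^ 3 / (γ ^ 3 * (ι ^ 3) ^ 2) = (v * x / (γ * ι ^ 2)) ^ 3 := by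
    field_simp
  have a2 : k ^ 3 / (x ^ 3 * ι ^ 3) = (k / (x * ι)) ^ 3 := by
    field_simp
  rw [a1, a2, rn13' (by positivity), r23 (by positivity), r13 hγ, rn13' hv, r23 hk]
  field_simp

/-- **`GKd` of the two halves** -/
theorem GKd_split {ϑ ϑd : ℝ → ℝ} {R X A B0 C ε : ℝ} {ν : Eis} {N : Eis → ℕ} {N0 : ℕ}
    {Mp Mn : Eis → ℕ → ℝ} (hϑ : ∀ y : ℝ, 0 < y → 0 ≤ ϑ y ∧ ϑ y ≤ 1)
    (hϑd : ∀ y : ℝ, 0 < y → 0 ≤ ϑd y ∧ ϑd y ≤ 1) (hR : 1 ≤ R) (hX : 1 ≤ X)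
    (hA : 0 < A) (hν : ν ≠ 0) (hε : 0 ≤ ε) (hC : 0 ≤ C) (hN : ∀ B ∈ S X, N B ≤ N0)
    (hp : ∀ B ∈ S X, ∀ j < N B, 0 ≤ Mp B j) (hn : ∀ B ∈ S X, ∀ j < N B, 0 ≤ Mn B j) :
    GKd ϑ ϑd R X A B0 ν N
      (fun B j => C * (R * 2 ^ j * X * nm ν) ^ ε * (2 / 2 ^ j) * (Mp B j + Mn B j)) ≤
      C * (R * 2 ^ N0 * X * nm ν) ^ ε * (GKd ϑ ϑd R X A B0 ν N (fun B j => (2 / 2 ^ j) * Mp B j) +
        ∑ B ∈ S X, ∑ j ∈ Finset.range (N B), (2 / 2 ^ j) * Mn B j) := by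
  have hν0 : (0 : ℝ) < nm ν := by exact_mod_cast nm_pos.mpr hν
  set D := C * (R * 2 ^ N0 * X * nm ν) ^ ε with hD
  have hD0 : 0 ≤ D := by positivity
  unfold E2440.GKd
  rw [mul_add, Finset.mul_sum, Finset.mul_sum, ← Finset.sum_add_distrib]
  refine Finset.sum_le_sum fun B hB => ?_
  rw [Finset.mul_sum, Finset.mul_sum, ← Finset.sum_add_distrib]
  refine Finset.sum_le_sum fun j hj => ?_
  rw [Finset.mem_range] at hj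
  have hB0 : (0 : ℝ) < nm B := by
    exact_mod_cast nm_pos.mpr ((mem_S (by linarith)).mp hB).2.1.ne_zero
  have h1 := hp B hB j hj
  have h2 := hn B hB j hj
  have h3 : (R * 2 ^ j * X * nm ν) ^ ε ≤ (R * 2 ^ N0 * X * nm ν) ^ ε := by
    refine Real.rpow_le_rpow (by positivity) ?_ hε
    have h4 : (2 : ℝ) ^ j ≤ 2 ^ N0 :=
      pow_le_pow_right₀ (by norm_num) (hj.le.trans (hN B hB))
    gcongr
  have h5 : C * (R * 2 ^ j * X * nm ν) ^ ε * (2 / 2 ^ j) * (Mp B j + Mn B j) ≤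
      D * ((2 / 2 ^ j) * (Mp B j + Mn B j)) := by
    have h4 : 0 ≤ (2 / (2 : ℝ) ^ j) * (Mp B j + Mn B j) :=
      mul_nonneg (by positivity) (add_nonneg h1 h2)
    calc C * (R * 2 ^ j * X * nm ν) ^ ε * (2 / 2 ^ j) * (Mp B j + Mn B j)
        = (C * (R * 2 ^ j * X * nm ν) ^ ε) * ((2 / (2 : ℝ) ^ j) * (Mp B j + Mn B j)) := by ring
      _ ≤ D * ((2 / (2 : ℝ) ^ j) * (Mp B j + Mn B j)) :=
          mul_le_mul_of_nonneg_right (mul_le_mul_of_nonneg_left h3 hC) h4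
  set u : ℝ := (if (nm B : ℝ) ≤ B0 then
    ϑ (R * (nm ν : ℝ) ^ 2 * (X / nm B) / (A / (nm B : ℝ) ^ 2 * 2 ^ j)) ^ 2 else
    ϑd (2 ^ j / (A / (nm B : ℝ) ^ 2)) ^ 2) with hu
  have hu0 : 0 ≤ u := by
    rw [hu]; split_ifs <;> positivity
  have hu1 : u ≤ 1 := by
    rw [hu]
    split_ifs
    · have h6 := hϑ (R * (nm ν : ℝ) ^ 2 * (X / nm B) / (A / (nm B : ℝ) ^ 2 * 2 ^ j))
        (by positivity)
      exact pow_le_one₀ h6.1 h6.2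
    · have h6 := hϑd (2 ^ j / (A / (nm B : ℝ) ^ 2)) (by positivity)
      exact pow_le_one₀ h6.1 h6.2
  have h7 : 0 ≤ D * ((2 / (2 : ℝ) ^ j) * Mn B j) := by positivity
  calc u * (C * (R * 2 ^ j * X * nm ν) ^ ε * (2 / 2 ^ j) * (Mp B j + Mn B j))
      ≤ u * (D * ((2 / 2 ^ j) * (Mp B j + Mn B j))) := mul_le_mul_of_nonneg_left h5 hu0
    _ = D * (u * ((2 / 2 ^ j) * Mp B j)) + u * (D * ((2 / 2 ^ j) * Mn B j)) := by ring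
    _ ≤ D * (u * ((2 / 2 ^ j) * Mp B j)) + 1 * (D * ((2 / 2 ^ j) * Mn B j)) := by gcongr
    _ = _ := by ring

/-- a bound of the number of shells -/
lemma nbf_bd {ε : ℝ} (hε : 0 < ε) {P X R A H B0 : ℝ} (hP : 1 ≤ P) (hX : 1 ≤ X) (hXP : X ≤ P)
    (hR : 1 ≤ R) (hRP : R ≤ P ^ 3) (hA : 0 < A) (hAP : A ≤ P) (hAi : A⁻¹ ≤ P ^ 6) (hH : 1 ≤ H)
    (hHP : H ≤ P) {ν : Eis} (hν : IsPrim ν) (hνP : (nm ν : ℝ) ≤ P) {B : Eis} (hB : B ∈ S X) :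
    NBf (P ^ ε) H X R A B0 ν B ≤ ⌈Real.logb 2 (20 * (P ^ (⌈ε⌉₊ + 13) * P))⌉₊ := by
  have hP0 : 0 < P := by linarith
  obtain ⟨hBX, hBp, -⟩ := (mem_S (by linarith)).mp hB
  have hPe : 1 ≤ P ^ ε := Real.one_le_rpow hP hε.le
  have hceil : P ^ ε ≤ P ^ ⌈ε⌉₊ := by
    rw [← Real.rpow_natCast]
    exact Real.rpow_le_rpow_of_exponent_le hP (Nat.le_ceil _)
  have hc1 : (1 : ℝ) ≤ P ^ (⌈ε⌉₊ + 13) := one_le_pow₀ hP
  have hc2 : P ^ ⌈ε⌉₊ * P ^ 14 = P ^ (⌈ε⌉₊ + 13) * P := by ring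
  refine NBf_le hPe hH hX hR hA hν hBp.ne_zero hBX (by positivity) ?_ ?_
  · rw [div_eq_mul_inv]
    calc 2 * P ^ ε * (H * (R * (nm ν : ℝ) ^ 2 * X ^ 2)) * A⁻¹
        ≤ 2 * P ^ ⌈ε⌉₊ * (P * (P ^ 3 * P ^ 2 * P ^ 2)) * P ^ 6 := by gcongr
      _ = 2 * (P ^ ⌈ε⌉₊ * P ^ 14) := by ring
      _ ≤ 20 * (P ^ (⌈ε⌉₊ + 13) * P) := by
          rw [hc2]
          have : 0 ≤ P ^ (⌈ε⌉₊ + 13) * P := by positivity
          linarith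
  · calc 10 * A ≤ 20 * (1 * P) := by linarith
      _ ≤ _ := by gcongr

/-- monotone in the height exponent -/
lemma MH_J {W : ℝ → Eis → Eis → ℝ} {P : Eis → ℕ → Eis → Eis → Eis → Prop}
    {Q : Eis → Eis → Eis → Prop} {α : Eis → ℂ} {E σ ν : Eis} {X : ℝ} {J J' : ℕ} (hJ : J ≤ J')
    {N : Eis → ℕ} {Mw : Eis → ℕ → ℝ} (h0 : ∀ B ∈ S X, ∀ j < N B, 0 ≤ Mw B j)
    (h : MH W P Q α E σ ν X J N Mw) : MH W P Q α E σ ν X J' N Mw := by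
  intro B hB i t j hj
  refine (h B hB i t j hj).trans ?_
  refine mul_le_mul_of_nonneg_right ?_ (h0 B hB j hj)
  exact pow_le_pow_right₀ (by linarith [abs_nonneg t]) hJ

lemma PJm_nonneg {K V X a nM nν H Mg' T : ℝ} (hK : 0 ≤ K) (hV : 0 ≤ V) (hX : 0 ≤ X) (ha : 0 ≤ a)
    (hM : 0 ≤ nM) (hν : 0 ≤ nν) (hH : 0 ≤ H) (hMg : 0 ≤ Mg') (hT : 0 ≤ T) :
    0 ≤ PJm K V X a nM nν H Mg' T := by
  unfold PrE176.PJm
  positivity

lemma PJm_T {K V X a nM nν H Mg' T : ℝ} (hK : 0 ≤ K) (hV : 0 ≤ V) (hX : 0 ≤ X) (ha : 0 ≤ a)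
    (hM : 0 ≤ nM) (hν : 0 ≤ nν) (hH : 0 ≤ H) (hMg : 0 ≤ Mg') (hT : 1 ≤ T) :
    PJm K V X a nM nν H Mg' T ≤ T * PJm K V X a nM nν H Mg' 1 := by
  unfold PrE176.PJm
  have h1 : 0 ≤ Mg' * (K ^ ((2 : ℝ) / 3) * V ^ ((1 : ℝ) / 6) / a +
    K * X ^ (-(1 / 3) : ℝ) * nν ^ (-(2 / 3) : ℝ) / a +
    K ^ ((4 : ℝ) / 3) * X ^ (-(2 / 3) : ℝ) * nM ^ ((1 : ℝ) / 3) * nν⁻¹ / a) +
  (V * K * H) ^ ((1 : ℝ) / 3) * Mg' ^ ((1 : ℝ) / 3) := by positivity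
  have h2 : 0 ≤ V ^ ((2 : ℝ) / 3) * a * (nM * nν) ^ ((1 : ℝ) / 3) * H ^ ((2 : ℝ) / 3) := by
    positivity
  nlinarith

lemma nb_pow {P : ℝ} (hP : 1 ≤ P) (cN : ℕ) :
    (2 : ℝ) ^ ⌈Real.logb 2 (20 * (P ^ cN * P))⌉₊ ≤ 40 * P ^ (cN + 1) := by
  have hP0 : 0 < P := by linarith
  have hW : 1 ≤ 20 * (P ^ cN * P) := by
    have h1 : 1 ≤ P ^ cN := one_le_pow₀ hP
    nlinarith
  have h4 : 0 ≤ Real.logb 2 (20 * (P ^ cN * P)) := Real.logb_nonneg (by norm_num) hW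
  have h5 := (Nat.ceil_lt_add_one h4).le
  rw [← Real.rpow_natCast]
  calc (2 : ℝ) ^ ((⌈Real.logb 2 (20 * (P ^ cN * P))⌉₊ : ℕ) : ℝ)
      ≤ (2 : ℝ) ^ (Real.logb 2 (20 * (P ^ cN * P)) + 1) :=
        Real.rpow_le_rpow_of_exponent_le (by norm_num) h5
    _ = 20 * (P ^ cN * P) * 2 := by
        rw [Real.rpow_add (by norm_num), Real.rpow_logb (by norm_num) (by norm_num) (by linarith),
          Real.rpow_one]
    _ = _ := by rw [pow_succ]; ring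

set_option maxHeartbeats 2000000 in
open Classical in
/-- **the principal half**: the numbers `Ex`, their moment hypothesis, and the cell sum -/
theorem pr_half {ε ε' : ℝ} (hε : 0 < ε) (hε' : 0 < ε') (Jt J : ℕ) (hJ : 2 * J ≤ Jt) :
    ∃ (b : ℕ) (Cz C : ℝ), 1 ≤ Cz ∧ 0 ≤ C ∧ ∀ P : ℝ, 1 ≤ P → ∀ X V K B0 H : ℝ, X ≤ P → 1 ≤ V →
    V ≤ P → 0 < K → K⁻¹ ≤ P → K ≤ P → 1 ≤ H → H ≤ P → ∀ α : Eis → ℂ, FS α →
    ∀ (κ : Eis) (Ax d0 Zp : ℝ), κ ≠ 0 → (nm κ : ℝ) ≤ P →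
    Cz * P ^ b ≤ Zp → PV (fun H => ∃ c, H * κ ^ 2 = c ^ 3) J Ax d0 Zp α →
    ∀ δ e : Eis, IsPrim δ → (nm δ : ℝ) ≤ P → IsPrim e → (nm e : ℝ) ≤ P →
    ∀ y ∈ prs δ, ∀ A ∈ pdiv y.1, (nm y.1 : ℝ) ≤ X →
    ∃ Ex : Eis → Eis → Eis → ℕ → ℝ, (∀ c j₂ B j, 0 ≤ Ex c j₂ B j) ∧
    (∀ c ∈ C4, ∀ j₂ ∈ S (Real.sqrt V), 1 ≤ RR V e A c j₂ →
      MH (WM (RR V e A c j₂)) (fun n j g₂ g₃ d => DN n g₂ g₃ d ∧ (2 : ℝ) ^ j / 2 < nm d)
        (fun B τ d => ∃ c0, d * (e * A * j₂ * τ * B ^ 2) * κ ^ 2 = c0 ^ 3) (ag α δ y.1)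
        (e * A * j₂) c y.2 (X / nm y.1) Jt
        (NBf (P ^ ε') H (X / nm y.1) (RR V e A c j₂) (K / nm (e * A * j₂)) B0 y.2) (Ex c j₂)) ∧
    ∀ ϑ ϑd : ℝ → ℝ,
      (∀ y : ℝ, 0 < y → 0 ≤ ϑ y ∧ ϑ y ≤ 1 ∧ ϑ y ≤ y ^ (-(1 / 3) : ℝ)) →
      (∀ y : ℝ, 0 < y → 0 ≤ ϑd y ∧ ϑd y ≤ 1 ∧ ϑd y ≤ (H * y) ^ ((1 : ℝ) / 3)) →
      ∑ c ∈ C4, ∑ j₂ ∈ (S (Real.sqrt V)).filter (fun j₂ => 1 ≤ RR V e A c j₂),
        RR V e A c j₂ ^ (-(1 : ℝ) / 3) * (K / nm (e * A * j₂)) ^ ((2 : ℝ) / 3) *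
          GKd ϑ ϑd (RR V e A c j₂) (X / nm y.1) (K / nm (e * A * j₂)) B0 y.2
            (NBf (P ^ ε') H (X / nm y.1) (RR V e A c j₂) (K / nm (e * A * j₂)) B0 y.2)
            (fun B j => (2 / 2 ^ j) * Ex c j₂ B j) ≤
      C * P ^ ε * ((Ax / nm y.1) ^ 2 *
        PJm K V (X / nm y.1) (nm (e * A)) (nm κ) (nm y.2) H (Mu d0 y.1) 1) := by
  set cN : ℕ := ⌈ε'⌉₊ + 13 with hcN
  have hcN0 : (0 : ℝ) < cN + 7 := by positivity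
  set ε₁ : ℝ := ε / 6 with hε₁d
  have hε₁ : 0 < ε₁ := by positivity
  set ε₂ : ℝ := ε₁ / (cN + 7) with hε₂d
  have hε₂ : 0 < ε₂ := by positivity
  have hε₂e : ((cN + 7 : ℕ) : ℝ) * ε₂ = ε₁ := by
    rw [hε₂d]; push_cast; field_simp
  obtain ⟨C₂, hC₂, hMH⟩ := MH_pr hε₂
  obtain ⟨C₃, hC₃, hτ⟩ := tau_le_rpow (show (0 : ℝ) < ε₁ / 4 by positivity)
  obtain ⟨C₅, hC₅, hsh⟩ := shells_small hε₁ cN
  set C₄ : ℝ := 1 + ε₁⁻¹ with hC₄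
  have hC₄1 : 1 ≤ C₄ := by
    have : 0 < ε₁⁻¹ := by positivity
    rw [hC₄]; linarith
  set C₆ : ℝ := (40 : ℝ) ^ ε₂ with hC₆
  have hC₆0 : 0 ≤ C₆ := by positivity
  set cd : ℝ := ∑ σ ∈ C4, dmx σ with hcd
  have hdm0 : ∀ σ : Eis, 0 ≤ dmx σ := fun σ => by
    unfold MoF106.dmx
    exact Finset.sum_nonneg fun _ _ => Nat.cast_nonneg _
  have hcd0 : 0 ≤ cd := Finset.sum_nonneg fun σ _ => hdm0 σ
  have hC₂0 : 0 ≤ C₂ := by linarith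
  have hC₃0 : 0 ≤ C₃ := by linarith
  refine ⟨cN + 9, 1 + 40 * (1 + cd), 1200 * C₄ * C₂ * C₆ * C₄ * C₅ * 200 * C₄ * C₃,
    by linarith, by positivity, ?_⟩
  intro P hP X V K B0 H hXP hV hVP hK0 hKi hKP hH1 hHP α hα κ Ax d0
    Zp hκ hκP hZp hPV δ e hδ hδP he heP y hy A hA hyX
  have hP0 : 0 < P := by linarith
  have hy' := (mem_prs hδ).mp hy
  have hA' := (mem_pdiv hy'.1.ne_zero).mp hA
  have hV0 : 0 < V := by linarith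
  have hy0 : (1 : ℝ) ≤ nm y.1 := one_le_nm hy'.1.ne_zero
  have hX0 : 0 ≤ X := by linarith
  have hy2 : (1 : ℝ) ≤ nm y.2 := one_le_nm hy'.2.1.ne_zero
  have hNe : (1 : ℝ) ≤ nm e := one_le_nm he.ne_zero
  have hNA : (1 : ℝ) ≤ nm A := one_le_nm hA'.1.ne_zero
  have hNκ : (1 : ℝ) ≤ nm κ := one_le_nm hκ
  have hH0 : 0 < H := by linarith
  have hMu0 := Mu_nonneg d0 y.1
  have hmu : (nm (e * A) : ℝ) = nm e * nm A := by rw [nm_mul]; push_cast; ring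
  have hea0 : (0 : ℝ) < nm (e * A) := by rw [hmu]; positivity
  have hX1 : 1 ≤ X / nm y.1 := by rwa [le_div_iff₀ (by linarith), one_mul]
  have hXP' : X / nm y.1 ≤ P := (div_le_self hX0 hy0).trans hXP
  set X' : ℝ := X / nm y.1 with hX'
  have hX'0 : 0 < X' := by linarith
  have hδ12 : (nm δ : ℝ) = nm y.1 * nm y.2 := by rw [← hy'.2.2, nm_mul]; push_cast; ring
  have hy1P : (nm y.1 : ℝ) ≤ P := by nlinarith
  have hy2P : (nm y.2 : ℝ) ≤ P := by nlinarith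
  have hAP : (nm A : ℝ) ≤ P := by
    have h1 : nm A ≤ nm y.1 := nm_le_of_dvd hy'.1.ne_zero hA'.2
    have h2 : (nm A : ℝ) ≤ nm y.1 := by exact_mod_cast h1
    linarith
  have hsV0 := Real.sqrt_nonneg V
  have hsV1 : 1 ≤ Real.sqrt V := Real.one_le_sqrt.mpr hV
  have hsVP : Real.sqrt V ≤ P := by
    rw [Real.sqrt_le_left hP0.le]
    nlinarith
  set N0 : ℕ := ⌈Real.logb 2 (20 * (P ^ cN * P))⌉₊ with hN0
  have h2N : (2 : ℝ) ^ N0 ≤ 40 * P ^ (cN + 1) := nb_pow hP cN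
  have hN0le : (N0 : ℝ) ≤ C₅ * P ^ ε₁ := by
    have := hsh P hP
    linarith
  have hfac : ∀ c ∈ C4, ∀ j₂ ∈ S (Real.sqrt V), 1 ≤ RR V e A c j₂ →
      IsPrim j₂ ∧ (nm j₂ : ℝ) ≤ P ∧ e * A * j₂ ≠ 0 ∧ (nm (e * A * j₂) : ℝ) ≤ P ^ 3 ∧
      RR V e A c j₂ ≤ P ^ 3 ∧ 0 < K / nm (e * A * j₂) ∧ K / nm (e * A * j₂) ≤ P ∧
      (K / nm (e * A * j₂))⁻¹ ≤ P ^ 6 := by
    intro c hc j₂ hj hR
    obtain ⟨j1, j2, -⟩ := (mem_S hsV0).mp hj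
    have hNj : (1 : ℝ) ≤ nm j₂ := one_le_nm j2.ne_zero
    have hjP : (nm j₂ : ℝ) ≤ P := j1.trans hsVP
    have hE : e * A * j₂ ≠ 0 := mul_ne_zero (mul_ne_zero he.ne_zero hA'.1.ne_zero) j2.ne_zero
    have hE1 : (1 : ℝ) ≤ nm (e * A * j₂) := one_le_nm hE
    have hnE : (nm (e * A * j₂) : ℝ) = nm e * nm A * nm j₂ := by
      rw [nm_mul, nm_mul]; push_cast; ring
    have hEP : (nm (e * A * j₂) : ℝ) ≤ P ^ 3 := by
      rw [hnE]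
      calc (nm e : ℝ) * nm A * nm j₂ ≤ P * P * P := by gcongr
        _ = P ^ 3 := by ring
    have hc1 := (nm_C4 hc).1
    have hRP : RR V e A c j₂ ≤ P ^ 3 := by
      unfold E2440.RR
      rw [hmu]
      have h1 : (1 : ℝ) ≤ nm c * (nm j₂ : ℝ) ^ 2 := by
        have := one_le_pow₀ (n := 2) hNj
        nlinarith
      refine (div_le_self (by positivity) h1).trans ?_
      calc V * (nm e * nm A) ≤ P * (P * P) := by gcongr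
        _ = P ^ 3 := by ring
    refine ⟨j2, hjP, hE, hEP, hRP, by positivity, (div_le_self hK0.le hE1).trans hKP, ?_⟩
    rw [inv_div, div_eq_mul_inv]
    calc (nm (e * A * j₂) : ℝ) * K⁻¹ ≤ P ^ 3 * P := by gcongr
      _ = P ^ 4 := by ring
      _ ≤ P ^ 6 := pow_le_pow_right₀ hP (by norm_num)
  have hNb : ∀ c ∈ C4, ∀ j₂ ∈ S (Real.sqrt V), 1 ≤ RR V e A c j₂ → ∀ B ∈ S X',
      NBf (P ^ ε') H X' (RR V e A c j₂) (K / nm (e * A * j₂)) B0 y.2 B ≤ N0 := by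
    intro c hc j₂ hj hR B hB
    obtain ⟨f1, f2, f3, f4, f5, f6, f7, f8⟩ := hfac c hc j₂ hj hR
    exact nbf_bd hε' hP hX1 hXP' hR f5 f6 f7 f8 hH1 hHP hy'.2.1 hy2P hB
  -- logarithms
  have hlog : ∀ z : ℝ, 1 ≤ z → z ≤ P → 1 + Real.log z ≤ C₄ * P ^ ε₁ := by
    intro z hz hzP
    have h2 : Real.log z ≤ Real.log P := Real.log_le_log (by linarith) hzP
    have h3 : Real.log P ≤ ε₁⁻¹ * P ^ ε₁ := by
      have := Real.log_le_rpow_div hP0.le hε₁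
      rwa [div_eq_inv_mul] at this
    have h4 : 1 ≤ P ^ ε₁ := Real.one_le_rpow hP hε₁.le
    rw [hC₄]
    nlinarith
  have hq1 : 1 ≤ P ^ ε₁ := Real.one_le_rpow hP hε₁.le
  have h40 : ∀ z : ℝ, 0 ≤ z → z ≤ 40 * P ^ (cN + 7) → z ^ ε₂ ≤ C₆ * P ^ ε₁ := by
    intro z hz hzP
    have hPc : (0 : ℝ) ≤ P ^ (cN + 7) := by positivity
    calc z ^ ε₂ ≤ (40 * P ^ (cN + 7)) ^ ε₂ := Real.rpow_le_rpow hz hzP hε₂.le
      _ = (40 : ℝ) ^ ε₂ * (P ^ (cN + 7)) ^ ε₂ := Real.mul_rpow (by norm_num) hPc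
      _ = _ := by rw [← Real.rpow_natCast P, ← Real.rpow_mul hP0.le, hε₂e]
  -- the principal half
  set W : ℝ := C₂ * (2 ^ N0 * nm y.2) ^ ε₂ * (1 + Real.log X') with hW
  have hlX : 0 ≤ Real.log X' := Real.log_nonneg hX1
  have hlV : 0 ≤ Real.log V := Real.log_nonneg hV
  have hW0 : 0 ≤ W := by positivity
  have hWle : W ≤ C₂ * (C₆ * P ^ ε₁) * (C₄ * P ^ ε₁) := by
    have h1 : (2 ^ N0 * (nm y.2 : ℝ)) ^ ε₂ ≤ C₆ * P ^ ε₁ := by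
      refine h40 _ (by positivity) ?_
      calc (2 : ℝ) ^ N0 * nm y.2 ≤ (40 * P ^ (cN + 1)) * P := by gcongr
        _ = 40 * P ^ (cN + 2) := by ring
        _ ≤ _ := by
            refine mul_le_mul_of_nonneg_left (pow_le_pow_right₀ hP (by omega)) (by norm_num)
    have h2 := hlog X' hX1 hXP'
    rw [hW]
    gcongr
  have hMp : ∀ c ∈ C4, ∀ j₂ ∈ S (Real.sqrt V), 1 ≤ RR V e A c j₂ →
      MH (WM (RR V e A c j₂)) (fun n j g₂ g₃ d => DN n g₂ g₃ d ∧ (2 : ℝ) ^ j / 2 < nm d)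
        (fun B τ d => ∃ c0, d * (e * A * j₂ * τ * B ^ 2) * κ ^ 2 = c0 ^ 3) (ag α δ y.1)
        (e * A * j₂) c y.2 X' Jt (NBf (P ^ ε') H X' (RR V e A c j₂) (K / nm (e * A * j₂)) B0 y.2)
        (fun B j => W * prM (RR V e A c j₂) (2 ^ j) Ax d0 (nm (e * A * j₂ * κ) * nm y.2)
          (nm (b2 (e * A * j₂ * κ) B)) y.1 B) := by
    intro c hc j₂ hj hR
    obtain ⟨f1, f2, f3, f4, f5, f6, f7, f8⟩ := hfac c hc j₂ hj hR
    refine MH_J hJ (fun B hB j hjN => mul_nonneg hW0 (prM_nonneg (by linarith) (by positivity)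
      (by positivity) _ _)) ?_
    have hcdl : ∀ i : IX c, (nm (dl' c i) : ℝ) ≤ cd := fun i =>
      (le_dmx c i).trans (Finset.single_le_sum (f := fun σ => dmx σ) (fun σ _ => hdm0 σ) hc)
    have hZ1 : (nm y.1 : ℝ) * X' ^ 3 ≤ Zp := by
      refine le_trans ?_ hZp
      calc (nm y.1 : ℝ) * X' ^ 3 ≤ P * P ^ 3 := by gcongr
        _ = 1 * P ^ 4 := by ring
        _ ≤ (1 + 40 * (1 + cd)) * P ^ (cN + 9) :=
            mul_le_mul (by linarith) (pow_le_pow_right₀ hP (by omega)) (by positivity)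
              (by positivity)
    have hZ2 : 2 ^ N0 * (nm (e * A * j₂) * cd * X' ^ 2) * (nm δ : ℝ) ^ 3 ≤ Zp := by
      refine le_trans ?_ hZp
      calc (2 : ℝ) ^ N0 * (nm (e * A * j₂) * cd * X' ^ 2) * (nm δ : ℝ) ^ 3
          ≤ (40 * P ^ (cN + 1)) * (P ^ 3 * cd * P ^ 2) * P ^ 3 := by gcongr
        _ = (40 * cd) * P ^ (cN + 9) := by ring
        _ ≤ _ := mul_le_mul_of_nonneg_right (by linarith) (by positivity)
    exact hMH (prK_tw hκ) hα hPV (isC_sg (mem_C4.mp hc)) hδ hy'.1 f3 hy'.2.1 hX1 (by linarith)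
      (hNb c hc j₂ hj hR) hcdl hZ1 hZ2 (fun B τ d h => h)
  have hRR0 : ∀ c j₂ : Eis, 0 ≤ RR V e A c j₂ := fun c j₂ => by unfold E2440.RR; positivity
  refine ⟨fun c j₂ B j => W * prM (RR V e A c j₂) (2 ^ j) Ax d0 (nm (e * A * j₂ * κ) * nm y.2)
    (nm (b2 (e * A * j₂ * κ) B)) y.1 B, fun c j₂ B j => mul_nonneg hW0 (prM_nonneg (hRR0 c j₂)
      (by positivity) (by positivity) _ _), hMp, ?_⟩
  intro ϑ ϑd hϑ hϑd
  have hT : ∀ j₂ ∈ S (Real.sqrt V), (tau (e * A * j₂ * κ) : ℝ) ≤ C₃ * P ^ ε₁ := by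
    intro j₂ hj
    obtain ⟨j1, j2, -⟩ := (mem_S hsV0).mp hj
    have hne : e * A * j₂ * κ ≠ 0 :=
      mul_ne_zero (mul_ne_zero (mul_ne_zero he.ne_zero hA'.1.ne_zero) j2.ne_zero) hκ
    refine (hτ _ hne).trans (mul_le_mul_of_nonneg_left ?_ hC₃0)
    have h1 : (nm (e * A * j₂ * κ) : ℝ) ≤ P ^ 4 := by
      rw [nm_mul, nm_mul, nm_mul]
      push_cast
      calc (nm e : ℝ) * nm A * nm j₂ * nm κ ≤ P * P * P * P := by
            have := j1.trans hsVP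
            gcongr
        _ = P ^ 4 := by ring
    calc (nm (e * A * j₂ * κ) : ℝ) ^ (ε₁ / 4) ≤ (P ^ 4) ^ (ε₁ / 4) := by gcongr
      _ = P ^ ε₁ := by
          rw [← Real.rpow_natCast P 4, ← Real.rpow_mul hP0.le]
          congr 1
          push_cast; ring
  have hT1 : 1 ≤ C₃ * P ^ ε₁ := one_le_mul_of_one_le_of_one_le hC₃ hq1
  have hsP := GPsumM_le (V := V) (K := K) (X := X') (B0 := B0) (H := H) (Ax := Ax) (d0 := d0)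
    (T := C₃ * P ^ ε₁) (W := W) (e := e) (A := A) (M0 := κ) (ν := y.2) (g' := y.1) (ϑ := ϑ)
    (ϑd := ϑd) (N := fun c j₂ => NBf (P ^ ε') H X' (RR V e A c j₂) (K / nm (e * A * j₂)) B0 y.2)
    (N0 := N0) hV hK0 hX1 he.ne_zero hA'.1.ne_zero hκ hy'.2.1 hy'.1 hH0 hW0 hϑ hϑd
    (fun c hc j₂ hj hR => hNb c hc j₂ hj hR) hT
  refine (le_of_eq ?_).trans (hsP.trans ?_)
  · rfl
  set q : ℝ := P ^ ε₁ with hq
  have hq0 : 0 ≤ q := by linarith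
  have hPJT := PJm_T (K := K) (V := V) (X := X') (a := nm (e * A)) (nM := nm κ) (nν := nm y.2)
    (H := H) (Mg' := Mu d0 y.1) (T := C₃ * q) hK0.le hV0.le hX'0.le hea0.le (by linarith)
    (by linarith) hH0.le hMu0 hT1
  have l1 := hlog V hV hVP
  have l2 := hlog X' hX1 hXP'
  have hN0' : (0 : ℝ) ≤ N0 := Nat.cast_nonneg _
  have hp0 : 0 ≤ PJm K V X' (nm (e * A)) (nm κ) (nm y.2) H (Mu d0 y.1) (C₃ * q) :=
    PJm_nonneg hK0.le hV0.le hX'0.le hea0.le (by linarith) (by linarith) hH0.le hMu0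
      (by positivity)
  have hq6 : q ^ 6 = P ^ ε := by
    rw [hq, ← Real.rpow_natCast, ← Real.rpow_mul hP0.le]
    congr 1
    rw [hε₁d]; push_cast; ring
  calc 1200 * (1 + Real.log V) * ((W * (N0 * (200 * (1 + Real.log X')) * (Ax / nm y.1) ^ 2)) *
        PJm K V X' (nm (e * A)) (nm κ) (nm y.2) H (Mu d0 y.1) (C₃ * q))
      ≤ 1200 * (C₄ * q) * (((C₂ * (C₆ * q) * (C₄ * q)) * ((C₅ * q) * (200 * (C₄ * q)) *
        (Ax / nm y.1) ^ 2)) * (C₃ * q *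
          PJm K V X' (nm (e * A)) (nm κ) (nm y.2) H (Mu d0 y.1) 1)) := by
        gcongr
    _ = (1200 * C₄ * C₂ * C₆ * C₄ * C₅ * 200 * C₄ * C₃) * q ^ 6 * ((Ax / nm y.1) ^ 2 *
          PJm K V X' (nm (e * A)) (nm κ) (nm y.2) H (Mu d0 y.1) 1) := by ring
    _ = _ := by rw [hq6]

end Crest.Agent.R017.RCX385
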