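import Crest.Agent.R017.PrE_176
import Crest.Agent.R017.QsO_83

/-!
# Row 17, exceptional class, T.7, leaf E2-e, part b (helper385): `REb` from the inner double sums

* `wsum_one`, `wsum_tiny` : the weighted sums over `δ`, `i`, `e`
* `REb_fin` : `REb` from (not-principal + polar number `Q0 δ`) + (principal number `PJm`) + tiny
-/

set_option autoImplicit false
set_option linter.unusedVariables false

noncomputable section

open Complex MeasureTheory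
open scoped ComplexConjugate Classical

namespace Crest.Agent.R017.RCX385

open Crest.Agent.R012 Crest.Agent.R012.Eis
open Crest.Agent.R012.LS2 (S mem_S)
open Crest.Agent.R012.Mob705 (pdiv mem_pdiv)
open Crest.Agent.R017.E2440 (Qs RR prs mem_prs C4 mem_C4 card_S_le')
open Crest.Agent.R017.LBx48 (REb neb R2)
open Crest.Agent.R017.QsO83 (REb_le_sum)
open Crest.Agent.R017.PrE176 (PJm BRp RPn RPn_nonneg pj_bd reb_pr)
open Crest.Agent.R017.PrD502 (Mu Mu_nonneg)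

lemma S_prim {E0 : ℝ} {e : Eis} (he : e ∈ S E0) : IsPrim e := by
  unfold LS2.S at he
  rw [Finset.mem_filter, mem_primBall] at he
  exact he.1.2

/-- the logarithmic sum -/
lemma log_sum {ε : ℝ} (hε : 0 < ε) {P E0 : ℝ} (hP : 1 ≤ P) (hE0 : E0 ≤ P) :
    ∑ e ∈ S E0, (1 / (nm e : ℝ)) ≤ 100 * (1 + ε⁻¹) * P ^ ε := by
  have hP0 : 0 < P := by linarith
  have hlog : ∑ e ∈ S P, (1 / (nm e : ℝ)) ≤ 100 * (1 + ε⁻¹) * P ^ ε := by
    refine (E1551.sum_inv_S551 hP).trans ?_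
    have h3 : Real.log P ≤ ε⁻¹ * P ^ ε := by
      have := Real.log_le_rpow_div hP0.le hε
      rwa [div_eq_inv_mul] at this
    have h4 : 1 ≤ P ^ ε := Real.one_le_rpow hP hε.le
    nlinarith
  refine le_trans ?_ hlog
  by_cases hE : 0 ≤ E0
  · refine Finset.sum_le_sum_of_subset_of_nonneg (fun e he => ?_) fun _ _ _ => by positivity
    rw [mem_S hE] at he
    rw [mem_S hP0.le]
    exact ⟨he.1.trans hE0, he.2⟩
  · have hemp : S E0 ⊆ S P := by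
      unfold LS2.S
      refine Finset.filter_subset_filter _ fun e he => ?_
      rw [mem_primBall] at he ⊢
      exact ⟨he.1.trans (Nat.floor_le_floor hE0), he.2⟩
    exact Finset.sum_le_sum_of_subset_of_nonneg hemp fun _ _ _ => by positivity

lemma card_neb (δ : Eis) (Z V : ℝ) (I : ℕ) : ((neb δ Z V I).card : ℝ) ≤ I := by
  unfold LBx48.neb
  have := Finset.card_filter_le (Finset.range I) (fun i => (nm δ : ℝ) ^ 2 * (V / 2 ^ i) < 2 * Z)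
  rw [Finset.card_range] at this
  exact_mod_cast this

/-- the weighted sum of the neutral term -/
lemma wsum_one {ε : ℝ} (hε : 0 < ε) {P K E0 Z V : ℝ} {D : Finset Eis} {I : ℕ} (hP : 1 ≤ P)
    (hK : 0 < K) (hV : 0 < V) (hE0 : E0 ≤ P) {Q0 : Eis → ℝ} (hQ0 : ∀ δ ∈ D, 0 ≤ Q0 δ) :
    ∑ δ ∈ D, ∑ i ∈ neb δ Z V I, ∑ e ∈ S E0,
      (K ^ (-(2 / 3) : ℝ) * (V / 2 ^ i) ^ (1 / 3 : ℝ) / nm e) *
        ((V / 2 ^ i) ^ (-(1 / 3) : ℝ) * K ^ (2 / 3 : ℝ) / nm e * Q0 δ) ≤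
      I * (100 * (1 + ε⁻¹) * P ^ ε) * ∑ δ ∈ D, Q0 δ := by
  have hε' : 0 < ε⁻¹ := by positivity
  have hP0 : 0 < P := by linarith
  rw [Finset.mul_sum]
  refine Finset.sum_le_sum fun δ hδ => ?_
  have hq := hQ0 δ hδ
  have h3 : ∀ i ∈ neb δ Z V I, ∑ e ∈ S E0,
      (K ^ (-(2 / 3) : ℝ) * (V / 2 ^ i) ^ (1 / 3 : ℝ) / nm e) *
      ((V / 2 ^ i) ^ (-(1 / 3) : ℝ) * K ^ (2 / 3 : ℝ) / nm e * Q0 δ) ≤
      100 * (1 + ε⁻¹) * P ^ ε * Q0 δ := by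
    intro i _
    have hVi : 0 < V / 2 ^ i := by positivity
    have e1 : K ^ (-(2 / 3) : ℝ) * K ^ (2 / 3 : ℝ) = 1 := by
      rw [← Real.rpow_add hK]; norm_num
    have e2 : (V / 2 ^ i) ^ (1 / 3 : ℝ) * (V / 2 ^ i) ^ (-(1 / 3) : ℝ) = 1 := by
      rw [← Real.rpow_add hVi]; norm_num
    have h4 : ∀ e ∈ S E0, (K ^ (-(2 / 3) : ℝ) * (V / 2 ^ i) ^ (1 / 3 : ℝ) / nm e) *
        ((V / 2 ^ i) ^ (-(1 / 3) : ℝ) * K ^ (2 / 3 : ℝ) / nm e * Q0 δ) ≤ 1 / nm e * Q0 δ := by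
      intro e he
      have hn1 : (1 : ℝ) ≤ nm e := E2440.one_le_nm (S_prim he).ne_zero
      have hn : (0 : ℝ) < nm e := by linarith
      have e3 : (K ^ (-(2 / 3) : ℝ) * (V / 2 ^ i) ^ (1 / 3 : ℝ) / nm e) *
        ((V / 2 ^ i) ^ (-(1 / 3) : ℝ) * K ^ (2 / 3 : ℝ) / nm e * Q0 δ) =
        (K ^ (-(2 / 3) : ℝ) * K ^ (2 / 3 : ℝ)) *
        ((V / 2 ^ i) ^ (1 / 3 : ℝ) * (V / 2 ^ i) ^ (-(1 / 3) : ℝ)) *
        (1 / nm e * (1 / nm e) * Q0 δ) := by ring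
      rw [e3, e1, e2, one_mul, one_mul]
      refine mul_le_mul_of_nonneg_right ?_ hq
      refine mul_le_of_le_one_right (by positivity) ?_
      rw [div_le_one hn]
      exact hn1
    refine (Finset.sum_le_sum h4).trans ?_
    rw [← Finset.sum_mul]
    exact mul_le_mul_of_nonneg_right (log_sum hε hP hE0) hq
  refine (Finset.sum_le_sum h3).trans ?_
  rw [Finset.sum_const, nsmul_eq_mul]
  have h5 := card_neb δ Z V I
  calc _ ≤ (I : ℝ) * (100 * (1 + ε⁻¹) * P ^ ε * Q0 δ) :=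
        mul_le_mul_of_nonneg_right h5 (by positivity)
    _ = _ := by ring

/-- the weighted sum of a constant -/
lemma wsum_tiny {ε : ℝ} (hε : 0 < ε) {P K E0 Z V : ℝ} {D : Finset Eis} {I : ℕ} (hP : 1 ≤ P)
    (hK : 0 < K) (hKi : K⁻¹ ≤ P) (hV : 0 < V) (hVP : V ≤ P) (hE0 : E0 ≤ P) (hD : D ⊆ S P) :
    ∑ δ ∈ D, ∑ i ∈ neb δ Z V I, ∑ e ∈ S E0,
      (K ^ (-(2 / 3) : ℝ) * (V / 2 ^ i) ^ (1 / 3 : ℝ) / nm e) ≤
      I * (100 * (1 + ε⁻¹) * P ^ ε) * (100 * P ^ 3) := by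
  have hε' : 0 < ε⁻¹ := by positivity
  have hP0 : 0 < P := by linarith
  have hw : ∀ i : ℕ, K ^ (-(2 / 3) : ℝ) * (V / 2 ^ i) ^ (1 / 3 : ℝ) ≤ P ^ 2 := by
    intro i
    have h1 : K ^ (-(2 / 3) : ℝ) ≤ P := by
      rw [Real.rpow_neg hK.le, ← Real.inv_rpow hK.le]
      calc K⁻¹ ^ (2 / 3 : ℝ) ≤ P ^ (2 / 3 : ℝ) :=
            Real.rpow_le_rpow (by positivity) hKi (by norm_num)
        _ ≤ P ^ (1 : ℝ) := Real.rpow_le_rpow_of_exponent_le hP (by norm_num)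
        _ = P := Real.rpow_one _
    have h2 : (V / 2 ^ i) ^ (1 / 3 : ℝ) ≤ P := by
      have h3 : V / 2 ^ i ≤ P := (div_le_self hV.le (one_le_pow₀ (by norm_num))).trans hVP
      calc (V / 2 ^ i) ^ (1 / 3 : ℝ) ≤ P ^ (1 / 3 : ℝ) :=
            Real.rpow_le_rpow (by positivity) h3 (by norm_num)
        _ ≤ P ^ (1 : ℝ) := Real.rpow_le_rpow_of_exponent_le hP (by norm_num)
        _ = P := Real.rpow_one _
    calc _ ≤ P * P := mul_le_mul h1 h2 (by positivity) hP0.le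
      _ = P ^ 2 := by ring
  have hi : ∀ δ ∈ D, ∑ i ∈ neb δ Z V I, ∑ e ∈ S E0,
      (K ^ (-(2 / 3) : ℝ) * (V / 2 ^ i) ^ (1 / 3 : ℝ) / nm e) ≤
      I * (P ^ 2 * (100 * (1 + ε⁻¹) * P ^ ε)) := by
    intro δ _
    have h1 : ∀ i ∈ neb δ Z V I, ∑ e ∈ S E0,
        (K ^ (-(2 / 3) : ℝ) * (V / 2 ^ i) ^ (1 / 3 : ℝ) / nm e) ≤
        P ^ 2 * (100 * (1 + ε⁻¹) * P ^ ε) := by
      intro i _
      calc ∑ e ∈ S E0, (K ^ (-(2 / 3) : ℝ) * (V / 2 ^ i) ^ (1 / 3 : ℝ) / nm e)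
          ≤ ∑ e ∈ S E0, P ^ 2 * (1 / nm e) := by
            refine Finset.sum_le_sum fun e _ => ?_
            rw [mul_one_div]
            exact div_le_div_of_nonneg_right (hw i) (Nat.cast_nonneg _)
        _ = P ^ 2 * ∑ e ∈ S E0, (1 / (nm e : ℝ)) := by rw [Finset.mul_sum]
        _ ≤ _ := mul_le_mul_of_nonneg_left (log_sum hε hP hE0) (by positivity)
    refine (Finset.sum_le_sum h1).trans ?_
    rw [Finset.sum_const, nsmul_eq_mul]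
    exact mul_le_mul_of_nonneg_right (card_neb δ Z V I) (by positivity)
  refine (Finset.sum_le_sum hi).trans ?_
  rw [Finset.sum_const, nsmul_eq_mul]
  have h2 : (D.card : ℝ) ≤ 100 * P := by
    have h3 : (D.card : ℝ) ≤ (S P).card := by exact_mod_cast Finset.card_le_card hD
    exact h3.trans (card_S_le' hP)
  calc (D.card : ℝ) * (I * (P ^ 2 * (100 * (1 + ε⁻¹) * P ^ ε)))
      ≤ (100 * P) * (I * (P ^ 2 * (100 * (1 + ε⁻¹) * P ^ ε))) := by gcongr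
    _ = _ := by ring

/-- **`REb` from the inner double sums, three kinds of terms** -/
theorem REb_fin {ε : ℝ} (hε : 0 < ε) : ∃ C : ℝ, 0 ≤ C ∧
    ∀ (P K X E0 Z V nM H d0 Ax G t : ℝ) (D : Finset Eis) (I : ℕ) (F : ℝ → ℂ) (α : Eis → ℂ),
    1 ≤ P → 0 < K → K⁻¹ ≤ P → 0 < X → 0 < V → V ≤ P → 1 ≤ E0 → E0 ≤ P → D ⊆ S P → 0 < nM →
    0 < H → 0 ≤ G → 0 ≤ t → ∀ Q0 : Eis → ℝ, (∀ δ ∈ D, 0 ≤ Q0 δ) →
    (∀ δ ∈ D, ∀ i ∈ neb δ Z V I, ∀ e ∈ S E0, ∀ y ∈ prs δ, ∀ A ∈ pdiv y.1,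
      ∑ c ∈ C4, ∑ j₂ ∈ S (Real.sqrt (V / 2 ^ i)), Qs α δ e (V / 2 ^ i) K F y A c j₂ ≤
        G * ((V / 2 ^ i) ^ (-(1 / 3) : ℝ) * K ^ (2 / 3 : ℝ) / nm e * Q0 δ +
          (Ax / nm y.1) ^ 2 * PJm K (V / 2 ^ i) (X / nm y.1) (nm (e * A)) nM (nm y.2) H
            (Mu d0 y.1) 1 + t)) →
    REb α K F D I E0 Z V ≤ C * P ^ ε * G * I * (∑ δ ∈ D, Q0 δ +
      Ax ^ 2 * RPn d0 K (max Z 0) X nM H 1 E0 + P ^ 3 * t) := by
  have hε2 : 0 < ε / 2 := by linarith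
  obtain ⟨C₁, hC₁, H₁⟩ := REb_le_sum hε2
  obtain ⟨C₂, hC₂, H₂⟩ := reb_pr hε2
  have hinv : 0 < (ε / 2)⁻¹ := by positivity
  refine ⟨C₁ * (100 * (1 + (ε / 2)⁻¹) + C₂ + 100 * (1 + (ε / 2)⁻¹) * 100), by positivity, ?_⟩
  intro P K X E0 Z V nM H d0 Ax G t D I F α hP hK hKi hX hV hVP hE1 hE0 hD hM hH hG ht Q0 hQ0 hQ
  have hP0 : 0 < P := by linarith
  have hDp : ∀ δ ∈ D, IsPrim δ ∧ (nm δ : ℝ) ≤ P := fun δ hδ => by
    have := (mem_S hP0.le).mp (hD hδ)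
    exact ⟨this.2.1, this.1⟩
  have hBR : ∀ (v d e : ℝ), 0 ≤ v → 0 ≤ d → 0 ≤ e → 0 ≤ BRp d0 K v X nM H 1 d e := by
    intro v d e hv hd he
    unfold PrE176.BRp
    positivity
  have h1 := H₁ P K E0 Z V D I F α hK.le hV.le hDp
    (fun δ i e => G * ((V / 2 ^ i) ^ (-(1 / 3) : ℝ) * K ^ (2 / 3 : ℝ) / nm e * Q0 δ +
      Ax ^ 2 * BRp d0 K (V / 2 ^ i) X nM H 1 (nm δ) (nm e) + t))
    (fun δ hδ i _ e _ => by
      have h2 := hQ0 δ hδ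
      have h3 := hBR (V / 2 ^ i) (nm δ) (nm e) (by positivity) (by positivity) (by positivity)
      positivity) ?_
  swap
  · intro δ hδ i hi e he y hy A hA
    refine (hQ δ hδ i hi e he y hy A hA).trans ?_
    refine mul_le_mul_of_nonneg_left ?_ hG
    refine add_le_add (add_le_add le_rfl ?_) le_rfl
    exact pj_bd (hDp δ hδ).1 hy hA (S_prim he).ne_zero hK (by positivity) hX hM hH zero_le_one
  refine h1.trans ?_
  have e1 : ∑ δ ∈ D, ∑ i ∈ neb δ Z V I, ∑ e ∈ S E0,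
      (K ^ (-(2 / 3) : ℝ) * (V / 2 ^ i) ^ (1 / 3 : ℝ) / nm e) *
        (G * ((V / 2 ^ i) ^ (-(1 / 3) : ℝ) * K ^ (2 / 3 : ℝ) / nm e * Q0 δ +
          Ax ^ 2 * BRp d0 K (V / 2 ^ i) X nM H 1 (nm δ) (nm e) + t)) =
      G * (∑ δ ∈ D, ∑ i ∈ neb δ Z V I, ∑ e ∈ S E0,
        (K ^ (-(2 / 3) : ℝ) * (V / 2 ^ i) ^ (1 / 3 : ℝ) / nm e) *
          ((V / 2 ^ i) ^ (-(1 / 3) : ℝ) * K ^ (2 / 3 : ℝ) / nm e * Q0 δ) +
        Ax ^ 2 * ∑ δ ∈ D, ∑ i ∈ neb δ Z V I, ∑ e ∈ S E0,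
        (K ^ (-(2 / 3) : ℝ) * (V / 2 ^ i) ^ (1 / 3 : ℝ) / nm e) *
          BRp d0 K (V / 2 ^ i) X nM H 1 (nm δ) (nm e) +
        t * ∑ δ ∈ D, ∑ i ∈ neb δ Z V I, ∑ e ∈ S E0,
        (K ^ (-(2 / 3) : ℝ) * (V / 2 ^ i) ^ (1 / 3 : ℝ) / nm e)) := by
    simp only [Finset.mul_sum, ← Finset.sum_add_distrib]
    refine Finset.sum_congr rfl fun δ _ => Finset.sum_congr rfl fun i _ =>
      Finset.sum_congr rfl fun e _ => ?_
    ring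
  rw [e1]
  have s1 := wsum_one (ε := ε / 2) hε2 (Z := Z) (I := I) hP hK hV hE0 hQ0
  have s2 := H₂ P K X E0 Z V nM H 1 d0 D I hP hK hX hV hE1 hE0 hD hM hH zero_le_one
  have s3 := wsum_tiny (ε := ε / 2) hε2 (Z := Z) (I := I) hP hK hKi hV hVP hE0 hD
  have hR0 : 0 ≤ RPn d0 K (max Z 0) X nM H 1 E0 :=
    RPn_nonneg hK.le (le_max_right _ _) hX.le hM.le hH.le zero_le_one (by linarith)
  have hS0 : 0 ≤ ∑ δ ∈ D, Q0 δ := Finset.sum_nonneg hQ0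
  set c₀ : ℝ := 100 * (1 + (ε / 2)⁻¹) with hc₀
  have hc₀0 : 0 ≤ c₀ := by positivity
  set q : ℝ := P ^ (ε / 2) with hq
  have hq0 : 0 ≤ q := by positivity
  have hqq : q * q = P ^ ε := by
    rw [hq, ← Real.rpow_add hP0]; congr 1; ring
  set SQ := ∑ δ ∈ D, Q0 δ
  set RP := RPn d0 K (max Z 0) X nM H 1 E0
  calc C₁ * q * (G * (_ + Ax ^ 2 * _ + t * _))
      ≤ C₁ * q * (G * (I * (c₀ * q) * SQ + Ax ^ 2 * (C₂ * q * I * RP) +
          t * (I * (c₀ * q) * (100 * P ^ 3)))) := by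
        gcongr
    _ = C₁ * (q * q) * G * I * (c₀ * SQ + C₂ * (Ax ^ 2 * RP) + c₀ * 100 * (P ^ 3 * t)) := by ring
    _ ≤ C₁ * (q * q) * G * I * ((c₀ + C₂ + c₀ * 100) * (SQ + Ax ^ 2 * RP + P ^ 3 * t)) := by
        refine mul_le_mul_of_nonneg_left ?_ (by positivity)
        have a1 : 0 ≤ Ax ^ 2 * RP := by positivity
        have a2 : 0 ≤ P ^ 3 * t := by positivity
        have a3 : 0 ≤ C₂ := by linarith
        nlinarith [mul_nonneg hc₀0 a1, mul_nonneg hc₀0 a2, mul_nonneg a3 hS0, mul_nonneg a3 a2,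
          mul_nonneg hc₀0 hS0]
    _ = _ := by rw [hqq]; ring

end Crest.Agent.R017.RCX385
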