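import Crest.Agent.R017.RCXa_385
import Crest.Agent.R017.RCXb_385
import Crest.Agent.R017.QsJi_401
import Crest.Agent.R017.NPy_739

/-!
# Row 17, T.7 [E2-e], the number (Rc) of the exceptional class (helper385): one index

* `Qn` : the predicate of the not principal part
* `NPH` : the cell hypotheses of the not principal part (separate and joint)
* `qs_x` : `∑_c ∑_{j₂} Qs` of one index `(δ, e, y, A)`
-/

set_option autoImplicit false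
set_option linter.unusedVariables false
set_option maxHeartbeats 1000000

noncomputable section

open Complex
open scoped ComplexConjugate

namespace Crest.Agent.R017.RCX385

open Crest.Agent.R012 Crest.Agent.R012.Eis
open Crest.Agent.R012.Div277
open Crest.Agent.R012.Mob705 (pdiv mem_pdiv)
open Crest.Agent.R012.LS2 (S mem_S)
open Crest.Agent.R017.X6C180 (IX dl')
open Crest.Agent.R017.CM106 (sub CS FS)
open Crest.Agent.R017.H1401 (pb mem_pb DN WM WJ)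
open Crest.Agent.R017.MoF106 (MoP NX bk mem_bk bk_prim bk_nm_ge sum_bk UU)
open Crest.Agent.R017.MoL106 (kw kw_ne)
open Crest.Agent.R017.E2D401 (MoJ Bj)
open Crest.Agent.R017.E2sp579 (MH fP)
open Crest.Agent.R017.E2440
open Crest.Agent.R017.FlC502 (thd)
open Crest.Agent.R017.QsO83 (bw FS_bw)
open Crest.Agent.R017.NPx739 (PrQ MNn MNn_nonneg MH_MNn)
open Crest.Agent.R017.NPy739 (MNx MNc MNc_spec MNc_nonneg)
open Crest.Agent.R017.GKC739 (MTs PTs)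
open Crest.Agent.R017.QsJ401
open Crest.Agent.R017.PrD502 (PV Mu)
open Crest.Agent.R017.PrE176 (PJm)

/-- the predicate of the not principal part -/
def Qn (p : ℕ × ℕ) (E B τ d : Eis) : Prop := ¬ PrQ (E * kw p ^ 2) B τ d

lemma qn_iff (p : ℕ × ℕ) (E B τ d : Eis) :
    ¬ Qn p E B τ d ↔ ∃ c0, d * (E * τ * B ^ 2) * kw p ^ 2 = c0 ^ 3 := by
  unfold Qn NPx739.PrQ
  rw [not_not]
  constructor
  · rintro ⟨c, hc⟩
    exact ⟨c, by rw [← hc]; ring⟩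
  · rintro ⟨c, hc⟩
    exact ⟨c, by rw [← hc]; ring⟩

open Classical in
/-- **the cells of the not principal part**, separate and joint -/
structure NPH (ε P : ℝ) (Jt : ℕ) (V K H B0 X : ℝ) (x : Eis → ℂ) (φ : ℝ → ℝ) (p : ℕ × ℕ) (t₀ : ℝ)
    (δ e A : Eis) (y : Eis × Eis) (jm : Eis → ℕ → ℕ → ℕ → Prop) (M0 : ℝ) : Prop where
  hN : ∀ c ∈ C4, ∀ l u j, CellN (P ^ (ε / 2)) H (X / nm y.1) V K B0 y.2 e A c (jm c l) l u j →
      ∀ n ∈ dvs y.2, (2 / 2 ^ j : ℝ) * ((nm n : ℝ) * ∑ j₂ ∈ Tb V e A c l,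
        ∑ B ∈ (bk (X / nm y.1) u).filter (fun B =>
          j < Nj (P ^ (ε / 2)) H (X / nm y.1) V K B0 y.2 e A c j₂ B ∧ ¬ jm c l (blk B) j),
          MNc Jt V e A c (X / nm y.1) (Qn p) δ y.1 φ p t₀ j₂ B j n x) ≤ M0
  hJ : ∀ c ∈ C4, ∀ l u j, jm c l u j →
      CellJ (P ^ (ε / 2)) H (X / nm y.1) V K B0 y.2 e A c l u j →
      (2 / 2 ^ j : ℝ) * (2 / 2 ^ u) * ∑ j₂ ∈ Tb V e A c l,
        FJQ Jt (P ^ (ε / 2)) H (X / nm y.1) V K B0 y.2 y.1 δ e A c (Qn p) (bw φ p t₀ x) j₂ u j ≤ M0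

lemma fin_x {q W Gx m T PJv C₂ p2 pe : ℝ} (hp2 : q * q = p2) (hpe : p2 * p2 = pe) (hq : 1 ≤ q)
    (hW : 0 ≤ W) (hm : 0 ≤ m) (hT : 0 ≤ T) (hPJ : 0 ≤ PJv) (hC₂ : 0 ≤ C₂)
    (hG : Gx ≤ C₂ * p2 * PJv) :
    q * (q * (W + Gx + m) + T) ≤ (1 + C₂) * (pe * (W + PJv + m + T)) := by
  subst hp2
  subst hpe
  have hq0 : 0 ≤ q := by linarith
  have h1 : 1 ≤ q * q := one_le_mul_of_one_le_of_one_le hq hq
  have h2 : 0 ≤ q * q := by linarith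
  have h3 : q * q ≤ q * q * (q * q) := le_mul_of_one_le_left h2 h1
  have h5 : 0 ≤ q * q * (q * q) := by positivity
  have h6 : q ≤ q * q := le_mul_of_one_le_left hq0 hq
  have a1 : q * q * W ≤ q * q * (q * q) * W := mul_le_mul_of_nonneg_right h3 hW
  have a2 : q * q * m ≤ q * q * (q * q) * m := mul_le_mul_of_nonneg_right h3 hm
  have a3 : q * T ≤ q * q * (q * q) * T := mul_le_mul_of_nonneg_right (h6.trans h3) hT
  have a4 : q * q * Gx ≤ q * q * (C₂ * (q * q) * PJv) := mul_le_mul_of_nonneg_left hG h2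
  have b1 : 0 ≤ C₂ * (q * q * (q * q) * W) := by positivity
  have b2 : 0 ≤ C₂ * (q * q * (q * q) * m) := by positivity
  have b3 : 0 ≤ C₂ * (q * q * (q * q) * T) := by positivity
  have b4 : 0 ≤ q * q * (q * q) * PJv := by positivity
  calc q * (q * (W + Gx + m) + T) = q * q * W + q * q * Gx + q * q * m + q * T := by ring
    _ ≤ q * q * (q * q) * W + q * q * (C₂ * (q * q) * PJv) + q * q * (q * q) * m +
        q * q * (q * q) * T := by linarith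
    _ ≤ (q * q * (q * q) * W + q * q * (C₂ * (q * q) * PJv) + q * q * (q * q) * m +
        q * q * (q * q) * T) + (C₂ * (q * q * (q * q) * W) + C₂ * (q * q * (q * q) * m) +
        C₂ * (q * q * (q * q) * T) + q * q * (q * q) * PJv) := by linarith
    _ = _ := by ring

open Classical in
/-- **one index** -/
theorem qs_x {ε : ℝ} (hε : 0 < ε) (a M' Jt : ℕ) (hJ : 12 ≤ Jt) {C0 : ℝ} (hC0 : 0 ≤ C0) :
    ∃ (M b : ℕ) (Cz C : ℝ), 1 ≤ Cz ∧ 0 ≤ C ∧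
    ∀ (P : ℝ) (Ft : ℝ → ℂ) (cc H : ℝ) (om : ∀ σ : Eis, IX σ → ℝ → ℂ), 0 ≤ cc →
    (∀ σ ∈ C4, KDd σ Jt M Ft cc H (fun y => min (y ^ (-(1 / 3) : ℝ)) (min 1 ((y * H) ^ 1)))
      (thd H) (om σ)) →
    ∀ (X V K : ℝ) (k₀ : ℕ) (x : Eis → ℂ) (φ : ℝ → ℝ) (p : ℕ × ℕ) (t₀ : ℝ), FS x →
    (∀ n, bw φ p t₀ x n ≠ 0 → Squarefree n) →
    (∀ n, bw φ p t₀ x n ≠ 0 → X / 2 < nm n ∧ (nm n : ℝ) ≤ X) →
    (∀ n, ‖bw φ p t₀ x n‖ ≤ P ^ a) → (nm (kw p) : ℝ) ≤ P →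
    ∀ (Ax d0 Zp : ℝ), Cz * P ^ b ≤ Zp →
    PV (fun H => ∃ c, H * kw p ^ 2 = c ^ 3) 6 Ax d0 Zp (bw φ p t₀ x) →
    ∀ (δ e A : Eis) (y : Eis × Eis), (∀ c ∈ C4, QsJ401.Sz P X V K H δ e A c y) →
    ∀ (jm : Eis → ℕ → ℕ → ℕ → Prop) (M0 : ℝ), 0 ≤ M0 →
    (∀ c ∈ C4, ∀ l u j, jm c l u j → ∀ j₂ ∈ Tb V e A c l,
      ((2 : ℝ) ^ j * 2 ^ u) ^ 2 ≤ C0 * RR V e A c j₂) →
    NPH (ε / 2) P Jt V K H (2 ^ k₀) X x φ p t₀ δ e A y jm M0 →
    ∑ c ∈ C4, ∑ j₂ ∈ S (Real.sqrt V), Qs (bw φ p t₀ x) δ e V K Ft y A c j₂ ≤ C * cc ^ 2 * P ^ ε *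
      (V ^ (-(1 : ℝ) / 3) * K ^ ((2 : ℝ) / 3) / nm (e * A) * M0 +
        (Ax / nm y.1) ^ 2 * PJm K V (X / nm y.1) (nm (e * A)) (nm (kw p)) (nm y.2) H
          (Mu d0 y.1) 1 + (P ^ M')⁻¹ + PTs (bw φ p t₀ x) δ e V K X (2 ^ k₀) y A) := by
  have hε2 : 0 < ε / 2 := by linarith
  have hε4 : 0 < ε / 2 / 2 := by linarith
  obtain ⟨M, C₁, hC₁, H₁⟩ := Qs_cellsJx hε2 a M' (κ := 1 + C0) (Cd := (4 : ℝ) ^ (1 + 1))
    (by linarith) (by positivity)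
  obtain ⟨b, Cz, C₂, hCz, hC₂, H₂⟩ := pr_half hε2 hε4 Jt 6 (by omega)
  refine ⟨M, b, Cz, C₁ * (1 + C₂), hCz, by positivity, ?_⟩
  intro P Ft cc H om hcc hKD X V K k₀ x φ p t₀ hx hs hsp hα hκP Ax d0 Zp hZp hPV δ e A y hSz jm M0
    hM0 hjm hNP
  have h1 : (1 : Eis) ∈ C4 := mem_C4.mpr (Or.inl rfl)
  have h := hSz 1 h1
  have hP := h.P1
  have hP0 := h.P0
  have hX1 := h.X1
  have hV1 := h.V1
  have hV0 : 0 < V := by linarith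
  have hH1 := h.H1
  have hK0 := h.K0
  have hfs : FS (bw φ p t₀ x) := FS_bw hx
  have hy1 := h.y1
  have hy2 := h.y2
  obtain ⟨Ex, hEx0, hEx, hExs⟩ := H₂ P hP X V K (2 ^ k₀) H h.XP hV1 h.VP hK0 h.KiP h.KP hH1 h.HP
    (bw φ p t₀ x) hfs (kw p) Ax d0 Zp (kw_ne p) hκP hZp hPV δ e h.δp h.δP h.ep h.eP y h.hy A h.hA
    h.yX
  have hprin : ∀ c ∈ C4, ∀ j₂, j₂ ∈ S (Real.sqrt V) → 1 ≤ RR V e A c j₂ →
      MH (WM (RR V e A c j₂)) (fun n j g₂ g₃ d => DN n g₂ g₃ d ∧ (2 : ℝ) ^ j / 2 < nm d)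
        (fun B τ d => ¬ Qn p (e * A * j₂) B τ d) (ag (bw φ p t₀ x) δ y.1)
        (e * A * j₂) c y.2 (X / nm y.1) Jt
        (Nj (P ^ (ε / 2 / 2)) H (X / nm y.1) V K (2 ^ k₀) y.2 e A c j₂) (Ex c j₂) := by
    intro c hc j₂ hj hR
    have := hEx c hc j₂ hj hR
    simp only [qn_iff]
    exact this
  have hTS : ∀ c l j₂, j₂ ∈ Tb V e A c l → j₂ ∈ S (Real.sqrt V) ∧ 1 ≤ RR V e A c j₂ := by
    intro c l j₂ hj
    rw [QsJ401.mem_Tb, mem_bk (Real.sqrt_nonneg V)] at hj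
    exact ⟨(mem_S (Real.sqrt_nonneg V)).2 hj.1.1, hj.2⟩
  have hfin : (Function.support (ag (bw φ p t₀ x) δ y.1)).Finite := (fs_ag hfs hy1).fin
  have hX0 : 0 ≤ X / nm y.1 := by linarith
  have key := H₁ P Jt Ft cc H (fun y => min (y ^ (-(1 / 3) : ℝ)) (min 1 ((y * H) ^ 1))) (thd H) om
    hKD (fun y _ => th_le_one 1 H y)
    (fun y _ => by unfold FlC502.thd; exact min_le_left _ _)
    (dbl_th 1 (by linarith)) (dbl_thd 1 (by linarith)) X V K (2 ^ k₀) (bw φ p t₀ x) hfs hs hsp hα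
    δ e A y hSz jm (fun c j₂ B j n => MNc Jt V e A c (X / nm y.1) (Qn p) δ y.1 φ p t₀ j₂ B j n x)
    (fun c j₂ u j => FJQ Jt (P ^ (ε / 2 / 2)) H (X / nm y.1) V K (2 ^ k₀) y.2 y.1 δ e A c (Qn p)
      (bw φ p t₀ x) j₂ u j) Ex M0 hM0
    (fun c hc l j₂ hj => by
      obtain ⟨hjS, hR⟩ := hTS c l j₂ hj
      refine ⟨fun B j n => MNc_nonneg hR, fun u j => FJQ_nonneg (by linarith) u j,
        fun B j => hEx0 c j₂ B j, ?_, ?_, fun u j _ _ => nc_pow k₀ u⟩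
      · intro B hB j hj' _ i t
        refine mo_x (Mn := fun B j => ∑ n ∈ dvs y.2, (nm n : ℝ) *
          MNc Jt V e A c (X / nm y.1) (Qn p) δ y.1 φ p t₀ j₂ B j n x)
          (Q := Qn p (e * A * j₂)) ?_ (hprin c hc j₂ hjS hR) hB hj' i t
        intro B hB i t j _
        exact MNc_spec hX0 hy1 hR ((mem_S hX0).1 hB).2.1.ne_zero j y.2 hx i t
      · intro u j hju _ i t
        exact moJ_x hX0 hy2.ne_zero (by linarith) hfin hC0 (hprin c hc j₂ hjS hR)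
          (hjm c hc l u j hju j₂ hj) i t)
    (fun c hc l u j hcl n hn => hNP.hN c hc l u j hcl n hn)
    (fun c hc l u j hj hcl => hNP.hJ c hc l u j hj hcl)
  have hp2 : 1 ≤ P ^ (ε / 2) := Real.one_le_rpow hP hε2.le
  have hp22 : P ^ ε = P ^ (ε / 2) * P ^ (ε / 2) := by
    rw [← Real.rpow_add hP0]; congr 1; ring
  have hp4 : P ^ (ε / 2 / 2) * P ^ (ε / 2 / 2) = P ^ (ε / 2) := by
    rw [← Real.rpow_add hP0]; congr 1; ring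
  have hp41 : 1 ≤ P ^ (ε / 2 / 2) := Real.one_le_rpow hP hε4.le
  have hPT0 : 0 ≤ PTs (bw φ p t₀ x) δ e V K X (2 ^ k₀) y A := by
    unfold GKC739.PTs
    refine Finset.sum_nonneg fun c hc => Finset.sum_nonneg fun j₂ hj => ?_
    rw [Finset.mem_filter] at hj
    have := (hSz c hc).Kj0 hj.1
    exact GKC739.PJ_nn (by linarith [hj.2]) this.le fun B => GKC739.MTs_nonneg _ _ _ _ _ _ _ _ _
  have hW0 : 0 ≤ V ^ (-(1 : ℝ) / 3) * K ^ ((2 : ℝ) / 3) / nm (e * A) * M0 := by positivity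
  have hEx2 := hExs (fun y => min (y ^ (-(1 / 3) : ℝ)) (min 1 ((y * H) ^ 1))) (thd H)
    (fun y hy => ⟨by positivity, th_le_one 1 H y, min_le_left _ _⟩)
    (fun y hy => by
      unfold FlC502.thd
      exact ⟨by positivity, min_le_left _ _, min_le_right _ _⟩)
  obtain ⟨PJv, hPJv⟩ : ∃ z : ℝ, z = (Ax / nm y.1) ^ 2 * PJm K V (X / nm y.1) (nm (e * A))
    (nm (kw p)) (nm y.2) H (Mu d0 y.1) 1 := ⟨_, rfl⟩
  rw [← hPJv] at hEx2 ⊢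
  have hPJ0 : 0 ≤ PJv := by
    rw [hPJv]
    exact mul_nonneg (sq_nonneg _) (PJm_nonneg hK0.le (by linarith) (by linarith)
      (Nat.cast_nonneg _) (Nat.cast_nonneg _) (Nat.cast_nonneg _) (by linarith)
      (by unfold PrD502.Mu; positivity) zero_le_one)
  obtain ⟨Gx, hGx⟩ : ∃ z : ℝ, z = ∑ c ∈ C4, ∑ j₂ ∈ (S (Real.sqrt V)).filter
      (fun j₂ => 1 ≤ RR V e A c j₂),
        RR V e A c j₂ ^ (-(1 : ℝ) / 3) * (K / nm (e * A * j₂)) ^ ((2 : ℝ) / 3) *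
          GKd (fun y => min (y ^ (-(1 / 3) : ℝ)) (min 1 ((y * H) ^ 1))) (thd H) (RR V e A c j₂)
            (X / nm y.1) (K / nm (e * A * j₂)) (2 ^ k₀) y.2
            (NBf (P ^ (ε / 2 / 2)) H (X / nm y.1) (RR V e A c j₂) (K / nm (e * A * j₂)) (2 ^ k₀)
              y.2) (fun B j => (2 / 2 ^ j) * Ex c j₂ B j) := ⟨_, rfl⟩
  rw [← hGx] at hEx2 key
  refine key.trans ?_
  have hMi : 0 ≤ (P ^ M')⁻¹ := by positivity
  have hcc2 : 0 ≤ C₁ * cc ^ 2 := by positivity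
  have hb : P ^ (ε / 2 / 2) * (P ^ (ε / 2 / 2) * (V ^ (-(1 : ℝ) / 3) * K ^ ((2 : ℝ) / 3) /
      nm (e * A) * M0 + Gx + (P ^ M')⁻¹) + PTs (bw φ p t₀ x) δ e V K X (2 ^ k₀) y A) ≤
      (1 + C₂) * (P ^ ε * (V ^ (-(1 : ℝ) / 3) * K ^ ((2 : ℝ) / 3) / nm (e * A) * M0 + PJv +
        (P ^ M')⁻¹ + PTs (bw φ p t₀ x) δ e V K X (2 ^ k₀) y A)) :=
    fin_x hp4 hp22.symm hp41 hW0 hMi hPT0 hPJ0 hC₂ hEx2
  calc C₁ * cc ^ 2 * P ^ (ε / 2 / 2) * (P ^ (ε / 2 / 2) * (V ^ (-(1 : ℝ) / 3) * K ^ ((2 : ℝ) / 3) /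
        nm (e * A) * M0 + Gx + (P ^ M')⁻¹) + PTs (bw φ p t₀ x) δ e V K X (2 ^ k₀) y A)
      = C₁ * cc ^ 2 * (P ^ (ε / 2 / 2) * (P ^ (ε / 2 / 2) * (V ^ (-(1 : ℝ) / 3) *
        K ^ ((2 : ℝ) / 3) / nm (e * A) * M0 + Gx + (P ^ M')⁻¹) +
          PTs (bw φ p t₀ x) δ e V K X (2 ^ k₀) y A)) := by ring
    _ ≤ _ := mul_le_mul_of_nonneg_left hb hcc2
    _ = _ := by ring

end Crest.Agent.R017.RCX385
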