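import Crest.Agent.R017.MTLn_537
import Crest.Agent.R017.PrG_502

/-!
# Row 17, T.7 [E2-e], the number (Rc) of the exceptional class (helper385): the real numbers

* `rp3`, `prn3` : the number of the principal half (no loss, from the room of the level)
* `pol3` : the number of the polar part
* `I_le`, `kfl` : the number of levels, the choice of `B0`
-/

set_option autoImplicit false
set_option linter.unusedVariables false

noncomputable section

open Complex
open scoped ComplexConjugate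

namespace Crest.Agent.R017.RCX385

open Crest.Agent.R012 Crest.Agent.R012.Eis
open Crest.Agent.R017.PrE176 (RPn)
open Crest.Agent.R017.WDec180 (sc)
open Crest.Agent.R017.MTL537 (ML)

set_option maxHeartbeats 1000000 in
/-- **the real inequality of the principal half** (helper502's `rp2` with the sharp premises) -/
theorem rp3 {K' Z X nM H T E0 d0 κ n v s : ℝ} (hK' : 0 < K') (hZ : 0 < Z) (hX : 0 < X)
    (hM : 1 ≤ nM) (hH : 1 ≤ H) (hT : 0 ≤ T) (hE0 : 0 ≤ E0) (hd0 : 0 ≤ d0) (hs : 0 ≤ s)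
    (h1 : |Real.log K' - κ| ≤ s) (h2 : |Real.log X - n| ≤ s) (hZv : Real.log Z ≤ v)
    (hv : v ≤ 4 * (κ - n) + 12 * s) (hn : n ≤ κ) (h3 : n + 2 / 3 * v ≤ 23 / 18 * κ + s)
    (h4 : n + v ≤ 29 / 18 * κ + s) :
    RPn d0 K' Z X nM H T E0 ≤ nM ^ ((1 : ℝ) / 3) * (Real.exp (κ - n + 2 * s) *
      (3 * Real.exp ((v + n - κ) / 3 - d0) + (1 + E0 * T) * (H * Real.exp (-(κ / 18))))) := by
  obtain ⟨κ', hκe'⟩ : ∃ k, K' = Real.exp k := ⟨Real.log K', (Real.exp_log hK').symm⟩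
  obtain ⟨n', hne⟩ : ∃ k, X = Real.exp k := ⟨Real.log X, (Real.exp_log hX).symm⟩
  obtain ⟨z, hze⟩ : ∃ k, Z = Real.exp k := ⟨Real.log Z, (Real.exp_log hZ).symm⟩
  obtain ⟨η, hηe⟩ : ∃ k, H = Real.exp k := ⟨Real.log H, (Real.exp_log (by linarith)).symm⟩
  subst hκe' hne hze hηe
  rw [Real.log_exp] at h1 h2 hZv
  rw [abs_le] at h1 h2
  have hη : 0 ≤ η := by
    rw [← Real.exp_zero] at hH
    exact Real.exp_le_exp.1 hH
  set m := nM ^ ((1 : ℝ) / 3) with hm
  have hm1 : 1 ≤ m := Real.one_le_rpow hM (by norm_num)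
  have hm0 : 0 ≤ m := by linarith
  set A : ℝ := Real.exp (κ - n + 2 * s) * Real.exp ((v + n - κ) / 3 - d0) with hA
  set B : ℝ := Real.exp (κ - n + 2 * s) * (Real.exp η * Real.exp (-(κ / 18))) with hB
  have hAe : A = Real.exp (κ - n + 2 * s + ((v + n - κ) / 3 - d0)) := by
    rw [hA, ← Real.exp_add]
  have hBe : B = Real.exp (κ - n + 2 * s + (η + -(κ / 18))) := by
    rw [hB, ← Real.exp_add, ← Real.exp_add]
  have hA0 : 0 ≤ A := by rw [hAe]; exact (Real.exp_pos _).le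
  have hB0 : 0 ≤ B := by rw [hBe]; exact (Real.exp_pos _).le
  have t1 : Real.exp (-d0) * Real.exp z ^ ((1 : ℝ) / 2) ≤ A := by
    rw [← Real.exp_mul, ← Real.exp_add, hAe]
    refine Real.exp_le_exp.2 ?_
    linarith
  have t2 : Real.exp (-d0) * (Real.exp κ' * Real.exp z / Real.exp n') ^ ((1 : ℝ) / 3) ≤ A := by
    rw [← Real.exp_add, ← Real.exp_sub, ← Real.exp_mul, ← Real.exp_add, hAe]
    refine Real.exp_le_exp.2 ?_
    linarith
  have t3 : Real.exp (-d0) * (Real.exp κ' ^ ((2 : ℝ) / 3) * Real.exp z ^ ((1 : ℝ) / 3) *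
      Real.exp n' ^ (-(2 / 3) : ℝ)) ≤ A := by
    rw [← Real.exp_mul, ← Real.exp_mul, ← Real.exp_mul, ← Real.exp_add, ← Real.exp_add,
      ← Real.exp_add, hAe]
    refine Real.exp_le_exp.2 ?_
    linarith
  have t4 : Real.exp κ' ^ (-(1 / 3) : ℝ) * Real.exp z ^ ((2 : ℝ) / 3) *
      Real.exp η ^ ((1 : ℝ) / 3) * Real.exp (-d0) ^ ((1 : ℝ) / 3) ≤ B := by
    rw [← Real.exp_mul, ← Real.exp_mul, ← Real.exp_mul, ← Real.exp_mul, ← Real.exp_add,
      ← Real.exp_add, ← Real.exp_add, hBe]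
    refine Real.exp_le_exp.2 ?_
    linarith
  have t5 : Real.exp κ' ^ (-(2 / 3) : ℝ) * Real.exp z * Real.exp η ^ ((2 : ℝ) / 3) ≤ B := by
    rw [← Real.exp_mul, ← Real.exp_mul, ← Real.exp_add, ← Real.exp_add, hBe]
    refine Real.exp_le_exp.2 ?_
    linarith
  have hET : 0 ≤ E0 * T := by positivity
  unfold PrE176.RPn
  calc Real.exp (-d0) * (Real.exp z ^ ((1 : ℝ) / 2) +
        (Real.exp κ' * Real.exp z / Real.exp n') ^ ((1 : ℝ) / 3) +
        Real.exp κ' ^ ((2 : ℝ) / 3) * Real.exp z ^ ((1 : ℝ) / 3) *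
          Real.exp n' ^ (-(2 / 3) : ℝ) * m) +
        Real.exp κ' ^ (-(1 / 3) : ℝ) * Real.exp z ^ ((2 : ℝ) / 3) *
          Real.exp η ^ ((1 : ℝ) / 3) * Real.exp (-d0) ^ ((1 : ℝ) / 3) +
        E0 * T * (Real.exp κ' ^ (-(2 / 3) : ℝ) * Real.exp z * m * Real.exp η ^ ((2 : ℝ) / 3)) =
      Real.exp (-d0) * Real.exp z ^ ((1 : ℝ) / 2) +
        Real.exp (-d0) * (Real.exp κ' * Real.exp z / Real.exp n') ^ ((1 : ℝ) / 3) +
        m * (Real.exp (-d0) * (Real.exp κ' ^ ((2 : ℝ) / 3) * Real.exp z ^ ((1 : ℝ) / 3) *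
          Real.exp n' ^ (-(2 / 3) : ℝ))) +
        Real.exp κ' ^ (-(1 / 3) : ℝ) * Real.exp z ^ ((2 : ℝ) / 3) *
          Real.exp η ^ ((1 : ℝ) / 3) * Real.exp (-d0) ^ ((1 : ℝ) / 3) +
        m * (E0 * T) * (Real.exp κ' ^ (-(2 / 3) : ℝ) * Real.exp z *
          Real.exp η ^ ((2 : ℝ) / 3)) := by ring
    _ ≤ m * A + m * A + m * A + m * B + m * (E0 * T) * B := by
        have k1 : A ≤ m * A := le_mul_of_one_le_left hA0 hm1
        have k2 : B ≤ m * B := le_mul_of_one_le_left hB0 hm1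
        refine add_le_add (add_le_add (add_le_add (add_le_add (t1.trans k1) (t2.trans k1)) ?_)
          (t4.trans k2)) ?_
        · exact mul_le_mul_of_nonneg_left t3 hm0
        · exact mul_le_mul_of_nonneg_left t5 (by positivity)
    _ = _ := by rw [hA, hB]; ring

/-- the scale of a piece -/
lemma log_sc {Nw : ℕ} {M K X : ℝ} (hM : 0 ≤ M) (hX : 3 ≤ X) {i : ℕ} (hi : i < Nw) :
    |Real.log (sc (X ^ K) M i) - K * Real.log X| ≤ M + Nw := by
  have hX0 : 0 < X := by linarith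
  have hi' : (i : ℝ) ≤ Nw := by exact_mod_cast hi.le
  have hi0 : (0 : ℝ) ≤ i := Nat.cast_nonneg _
  have e1 : Real.log (sc (X ^ K) M i) = K * Real.log X + (i - M) := by
    unfold WDec180.sc
    rw [Real.log_mul (by positivity) (Real.exp_pos _).ne', Real.log_rpow hX0, Real.log_exp]
  rw [e1, abs_le]
  constructor <;> linarith

set_option maxHeartbeats 1000000 in
/-- **the number of the principal half in the variables of the leaf**, no loss -/
theorem prn3 {Nw : ℕ} {M R K c d₀ y X n Lv N₁ X' nM H T E0 Θ : ℝ} (hM : 0 ≤ M)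
    (hR : 0 ≤ R) (hc : 0 ≤ c) (hK : 7 * c ≤ K) (hd : 0 ≤ d₀) (hX : 3 ≤ X) (hX' : 0 < X')
    (hXn : |Real.log X' - n| ≤ R) (hN₁ : 1 ≤ N₁) (hNL : 9 * N₁ ≤ Real.exp (Lv + 4))
    (hv3 : 3 * Lv + 200 * c * Real.log X ≤ 2 * K * Real.log X)
    (h56 : 6 * n ≤ (5 * K + 7 * c) * Real.log X)
    {i : ℕ} (hi : i < Nw) (hnM : 1 ≤ nM) (hH : 1 ≤ H) (hT : 0 ≤ T) (hE0 : 0 ≤ E0)
    (hΘ0 : 0 ≤ Θ) (hΘ : Θ ≤ X ^ (y * c)) (hΘH : Θ * ((1 + E0 * T) * H) ≤ X ^ (K / 18)) :
    Θ * RPn (d₀ * Real.log X) (sc (X ^ K) M i) N₁ X' nM H T E0 ≤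
      4 * nM ^ ((1 : ℝ) / 3) * Real.exp (2 * (M + Nw + R + 13)) *
        (X ^ K / Real.exp n) *
        X ^ (max 0 (y * c + (Lv / Real.log X + n / Real.log X - K) / 3 - d₀)) := by
  have hX0 : 0 < X := by linarith
  have hX1 : 1 ≤ X := by linarith
  have hl0 : 0 < Real.log X := Real.log_pos (by linarith)
  have hNw : (0 : ℝ) ≤ Nw := Nat.cast_nonneg _
  have hlsc' := log_sc (K := K) hM hX hi
  set L := Real.log X with hL
  set s : ℝ := M + Nw + R + 12 with hs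
  have hs0 : 0 ≤ s := by positivity
  have hcL : 0 ≤ c * L := by positivity
  have hKL : 7 * (c * L) ≤ K * L := by
    have := mul_le_mul_of_nonneg_right hK hl0.le
    linarith
  have hsc0 : 0 < sc (X ^ K) M i := WDec180.sc_pos (by positivity) M i
  have hN₁e : Real.log N₁ ≤ Lv + 4 := by
    rw [← Real.log_exp (Lv + 4)]
    exact Real.log_le_log (by linarith) (by linarith)
  have hv3' : 3 * Lv + 200 * (c * L) ≤ 2 * (K * L) := by linarith
  have h56' : 6 * n ≤ 5 * (K * L) + 7 * (c * L) := by linarith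
  have key := rp3 (K' := sc (X ^ K) M i) (Z := N₁) (X := X') (nM := nM) (H := H) (T := T)
    (E0 := E0) (d0 := d₀ * L) (κ := K * L) (n := n) (v := Lv + 4) (s := s) hsc0 (by linarith) hX'
    hnM hH hT hE0 (by positivity) hs0 (hlsc'.trans (by rw [hs]; linarith))
    (hXn.trans (by rw [hs]; linarith)) hN₁e (by linarith) (by linarith) (by linarith)
    (by linarith)
  have hm0 : 0 ≤ nM ^ ((1 : ℝ) / 3) := by positivity
  set W : ℝ := X ^ (max 0 (y * c + (Lv / L + n / L - K) / 3 - d₀)) with hW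
  have hW1 : 1 ≤ W := Real.one_le_rpow hX1 (le_max_left _ _)
  have e2 : Θ * Real.exp ((Lv + 4 + n - K * L) / 3 - d₀ * L) ≤ Real.exp (4 / 3) * W := by
    calc Θ * Real.exp ((Lv + 4 + n - K * L) / 3 - d₀ * L) ≤
          X ^ (y * c) * Real.exp ((Lv + 4 + n - K * L) / 3 - d₀ * L) := by gcongr
      _ = Real.exp (4 / 3) * X ^ (y * c + (Lv / L + n / L - K) / 3 - d₀) := by
          rw [Real.rpow_def_of_pos hX0, Real.rpow_def_of_pos hX0, ← hL, ← Real.exp_add,
            ← Real.exp_add]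
          congr 1
          field_simp
          ring
      _ ≤ Real.exp (4 / 3) * W := by
          refine mul_le_mul_of_nonneg_left ?_ (Real.exp_pos _).le
          exact Real.rpow_le_rpow_of_exponent_le hX1 (le_max_right _ _)
  have e3 : Θ * ((1 + E0 * T) * (H * Real.exp (-(K * L / 18)))) ≤ W := by
    have h1 : X ^ (K / 18) * Real.exp (-(K * L / 18)) = 1 := by
      rw [Real.rpow_def_of_pos hX0, ← hL, ← Real.exp_add, ← Real.exp_zero]
      congr 1
      ring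
    calc Θ * ((1 + E0 * T) * (H * Real.exp (-(K * L / 18)))) =
          Θ * ((1 + E0 * T) * H) * Real.exp (-(K * L / 18)) := by ring
      _ ≤ X ^ (K / 18) * Real.exp (-(K * L / 18)) := by gcongr
      _ = 1 := h1
      _ ≤ W := hW1
  have e4 : Real.exp (4 / 3) ≤ Real.exp 2 := Real.exp_le_exp.2 (by norm_num)
  have e5 : (1 : ℝ) ≤ Real.exp 2 := Real.one_le_exp (by norm_num)
  have e6 : Real.exp (K * L - n + 2 * s) * Real.exp 2 =
      Real.exp (2 * (M + Nw + R + 13)) * (X ^ K / Real.exp n) := by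
    rw [Real.rpow_def_of_pos hX0, ← hL, ← Real.exp_sub, ← Real.exp_add, ← Real.exp_add, hs]
    congr 1
    ring
  have hE0' : 0 ≤ Real.exp (K * L - n + 2 * s) := (Real.exp_pos _).le
  calc Θ * RPn (d₀ * L) (sc (X ^ K) M i) N₁ X' nM H T E0 ≤
        Θ * (nM ^ ((1 : ℝ) / 3) * (Real.exp (K * L - n + 2 * s) *
          (3 * Real.exp ((Lv + 4 + n - K * L) / 3 - d₀ * L) +
            (1 + E0 * T) * (H * Real.exp (-(K * L / 18)))))) :=
        mul_le_mul_of_nonneg_left key hΘ0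
    _ = nM ^ ((1 : ℝ) / 3) * (Real.exp (K * L - n + 2 * s) *
          (3 * (Θ * Real.exp ((Lv + 4 + n - K * L) / 3 - d₀ * L)) +
            Θ * ((1 + E0 * T) * (H * Real.exp (-(K * L / 18)))))) := by ring
    _ ≤ nM ^ ((1 : ℝ) / 3) * (Real.exp (K * L - n + 2 * s) *
          (3 * (Real.exp 2 * W) + Real.exp 2 * W)) := by
        have h5 : Θ * Real.exp ((Lv + 4 + n - K * L) / 3 - d₀ * L) ≤ Real.exp 2 * W :=
          e2.trans (mul_le_mul_of_nonneg_right e4 (by linarith))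
        have h6 : Θ * ((1 + E0 * T) * (H * Real.exp (-(K * L / 18)))) ≤ Real.exp 2 * W :=
          e3.trans (le_mul_of_one_le_left (by linarith) e5)
        gcongr
    _ = 4 * nM ^ ((1 : ℝ) / 3) * (Real.exp (K * L - n + 2 * s) * Real.exp 2) * W := by ring
    _ = _ := by rw [e6]; ring

set_option maxHeartbeats 1000000 in
/-- **the number of the polar part** -/
theorem pol3 {K c X n Lv N₁ κ s : ℝ} {k : ℕ} (hX : 3 ≤ X) (hc : 0 < c) (hK : 2000 * c ≤ K)
    (hs : 0 ≤ s) (hκ1 : 1 ≤ κ) (hκ : |Real.log κ - K * Real.log X| ≤ s) (hN₁ : 1 ≤ N₁)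
    (hLN : Real.exp Lv ≤ N₁) (hNL : 9 * N₁ ≤ Real.exp (Lv + 4))
    (hv3 : 3 * Lv + 200 * c * Real.log X ≤ 2 * K * Real.log X)
    (h56 : 6 * n ≤ (5 * K + 7 * c) * Real.log X)
    (hk : 2 * (K * Real.log X) - Lv - n ≤ 3 * (k * Real.log 2) + 3 * s) :
    X ^ (3 * c) * (κ ^ (2 / 3 : ℝ) * Real.exp n ^ (2 / 3 : ℝ) / 2 ^ k *
      ML (9 * (N₁ * (X ^ c * X ^ c) ^ 3)) (Real.exp n / 2 ^ k)) ≤
      3 * Real.exp (11 * s + 24) * (X ^ K * Real.exp n) := by
  have hX0 : 0 < X := by linarith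
  have hX1 : 1 ≤ X := by linarith
  have hl0 : 0 < Real.log X := Real.log_pos (by linarith)
  have hκ0 : 0 < κ := by linarith
  set L := Real.log X with hL
  have hcL : 0 ≤ c * L := by positivity
  have hKL : 2000 * (c * L) ≤ K * L := by
    have := mul_le_mul_of_nonneg_right hK hl0.le
    linarith
  have hv3' : 3 * Lv + 200 * (c * L) ≤ 2 * (K * L) := by linarith
  have h56' : 6 * n ≤ 5 * (K * L) + 7 * (c * L) := by linarith
  rw [abs_le] at hκ
  obtain ⟨κ', hκe⟩ : ∃ a, κ = Real.exp a := ⟨Real.log κ, (Real.exp_log hκ0).symm⟩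
  have hκ' : Real.log κ = κ' := by rw [hκe, Real.log_exp]
  rw [hκ'] at hκ
  have hXr : ∀ a : ℝ, X ^ a = Real.exp (a * L) := fun a => by
    rw [Real.rpow_def_of_pos hX0]; congr 1; ring
  set C : ℝ := Real.exp (5 * s + 12 + 7 * (c * L)) with hC
  have h2k : (2 : ℝ) ^ k = Real.exp (k * Real.log 2) := by
    rw [Real.exp_nat_mul, Real.exp_log (by norm_num)]
  have hN9 : (9 * N₁) ≤ Real.exp (Lv + 4) := hNL
  have key := MTL537.ml_num' (K := κ) (X := Real.exp n) (Z := 9 * N₁) (E := X ^ (6 * c)) (T := 1)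
    (B0 := 2 ^ k) (c := C) hκ1 (Real.exp_pos _) (by positivity) (Real.one_le_rpow hX1 (by positivity))
    le_rfl (by rw [hC]; exact Real.one_le_exp (by positivity)) (one_le_pow₀ (by norm_num))
    (by
      rw [hC, hκe, ← Real.exp_nat_mul, ← Real.exp_nat_mul, ← Real.exp_add]
      refine Real.exp_le_exp.2 ?_
      push_cast
      linarith)
    (by
      have h1 : (9 * N₁) ^ 3 ≤ Real.exp (Lv + 4) ^ 3 := by gcongr
      refine h1.trans ?_
      rw [hC, hκe, ← Real.exp_nat_mul, ← Real.exp_nat_mul, ← Real.exp_add]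
      refine Real.exp_le_exp.2 ?_
      push_cast
      linarith)
    (by
      rw [one_pow, div_one]
      have h1 : Real.exp Lv * Real.exp n * (2 ^ k) ^ 3 ≤ 9 * N₁ * Real.exp n * (2 ^ k) ^ 3 := by
        have : Real.exp Lv ≤ 9 * N₁ := by linarith
        gcongr
      have h2 : κ ^ 2 ≤ C * (Real.exp Lv * Real.exp n * (2 ^ k) ^ 3) := by
        rw [hC, hκe, h2k, ← Real.exp_nat_mul, ← Real.exp_nat_mul, ← Real.exp_add, ← Real.exp_add,
          ← Real.exp_add]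
        refine Real.exp_le_exp.2 ?_
        push_cast
        linarith
      refine h2.trans ?_
      exact mul_le_mul_of_nonneg_left h1 (Real.exp_pos _).le)
  rw [one_pow, div_one, inv_one, one_mul] at key
  have e1 : 9 * (N₁ * (X ^ c * X ^ c) ^ 3) = 9 * N₁ * X ^ (6 * c) := by
    have : (X ^ c * X ^ c) ^ 3 = X ^ (6 * c) := by
      rw [hXr, hXr, ← Real.exp_add, ← Real.exp_nat_mul]
      congr 1
      push_cast
      ring
    rw [this]; ring
  rw [e1]
  calc X ^ (3 * c) * (κ ^ (2 / 3 : ℝ) * Real.exp n ^ (2 / 3 : ℝ) / 2 ^ k *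
        ML (9 * N₁ * X ^ (6 * c)) (Real.exp n / 2 ^ k))
      ≤ X ^ (3 * c) * (3 * (κ * Real.exp n * (κ ^ (-(1 / 36) : ℝ) * X ^ (6 * c) * C ^ 2))) :=
        mul_le_mul_of_nonneg_left key (by positivity)
    _ = 3 * Real.exp (3 * c * L + (κ' + n + (κ' * (-(1 / 36)) + 6 * c * L +
          (2 * (5 * s + 12 + 7 * (c * L)))))) := by
        rw [hXr, hXr, hκe, hC, ← Real.exp_mul, ← Real.exp_nat_mul]
        rw [Real.exp_add (3 * c * L), Real.exp_add (κ' + n), Real.exp_add κ',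
          Real.exp_add (κ' * (-(1 / 36)) + 6 * c * L), Real.exp_add (κ' * (-(1 / 36)))]
        push_cast
        ring
    _ ≤ 3 * Real.exp ((11 * s + 24) + (K * L + n)) := by
        refine mul_le_mul_of_nonneg_left (Real.exp_le_exp.2 ?_) (by norm_num)
        linarith
    _ = _ := by
        rw [hXr, Real.exp_add (11 * s + 24), Real.exp_add (K * L)]
        ring

/-- the number of levels -/
lemma I_le {ε P N₁ : ℝ} {I : ℕ} (hε : 0 < ε) (hP : 1 ≤ P) (hN : N₁ ≤ P) (hI : (2 : ℝ) ^ I ≤ 2 * N₁) :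
    (I : ℝ) ≤ (1 + 2 * ε⁻¹) * P ^ ε := by
  have hP0 : 0 < P := by linarith
  have h1 : (2 : ℝ) ^ I ≤ 2 * P := hI.trans (by linarith)
  have h2 := Real.log_le_log (by positivity) h1
  rw [Real.log_pow, Real.log_mul (by norm_num) hP0.ne'] at h2
  have h3 := Real.log_two_gt_d9
  have h4 : Real.log P ≤ ε⁻¹ * P ^ ε := by
    have := Real.log_le_rpow_div hP0.le hε
    rwa [div_eq_inv_mul] at this
  have h5 : 1 ≤ P ^ ε := Real.one_le_rpow hP hε.le
  have h6 : 0 ≤ Real.log P := Real.log_nonneg hP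
  have h7 : ((I : ℝ) - 1) * Real.log 2 ≤ Real.log P := by linarith
  rcases le_or_gt (I : ℝ) 1 with h | h
  · have : 0 ≤ ε⁻¹ * P ^ ε := by positivity
    nlinarith
  · have h8 : ((I : ℝ) - 1) * (1 / 2) ≤ ((I : ℝ) - 1) * Real.log 2 :=
      mul_le_mul_of_nonneg_left (by linarith) (by linarith)
    nlinarith

/-- the exponent of `B0` -/
def kfl (A : ℝ) : ℕ := ⌊A / (3 * Real.log 2)⌋₊

lemma kfl_mono {A A' : ℝ} (h : A ≤ A') : kfl A ≤ kfl A' := by
  unfold kfl
  have := Real.log_two_gt_d9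
  exact Nat.floor_le_floor (div_le_div_of_nonneg_right h (by linarith))

lemma kfl_le {A : ℝ} (hA : 0 ≤ A) : 3 * (kfl A * Real.log 2) ≤ A := by
  have h2 := Real.log_two_gt_d9
  have h1 : (kfl A : ℝ) ≤ A / (3 * Real.log 2) :=
    Nat.floor_le (div_nonneg hA (by linarith))
  rw [le_div_iff₀ (by linarith)] at h1
  linarith

lemma le_kfl (A : ℝ) : A ≤ 3 * (kfl A * Real.log 2) + 3 := by
  have h2 := Real.log_two_gt_d9
  have h3 := Real.log_two_lt_d9
  have h1 : A / (3 * Real.log 2) < kfl A + 1 := Nat.lt_floor_add_one _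
  rw [div_lt_iff₀ (by linarith)] at h1
  linarith

end Crest.Agent.R017.RCX385
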