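import Crest.Agent.R017.RCXd_385
import Crest.Agent.R017.RCXe_385
import Crest.Agent.R017.QsJl_401
import Crest.Agent.R017.NPz_739

/-!
# Row 17, T.7 [E2-e], the number (Rc) of the exceptional class (helper385): the cells

* `r2C_E`, `gaC_E` : helper739's cell numbers
* `nph_of` : `NPH` for the difference of two flagged lists, from the pair lines
-/

set_option autoImplicit false
set_option linter.unusedVariables false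
set_option maxHeartbeats 1000000

noncomputable section

open Complex
open scoped ComplexConjugate

namespace Crest.Agent.R017.RCX385

open Crest.Agent.R012 Crest.Agent.R012.Eis
open Crest.Agent.R012.T411 (NCube)
open Crest.Agent.R012.LS2 (S mem_S)
open Crest.Agent.R012.Mob705 (pdiv mem_pdiv)
open Crest.Agent.R017.CM106 (sub CS FS)
open Crest.Agent.R017.MoL106 (kw kw_ne)
open Crest.Agent.R017.E2440
open Crest.Agent.R017.B770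
open Crest.Agent.R017.Prov71
open Crest.Agent.R017.FE47 (cx PU)
open Crest.Agent.R017.HP842 (pc sqc)
open Crest.Agent.R017.Leg381 (alf alF Pf LF LF_get)
open Crest.Agent.R017.Win813 (WK iA iA_nonneg)
open Crest.Agent.R017.RGw813 (T9)
open Crest.Agent.R017.RC106 (Env jmL)
open Crest.Agent.R017.QsJ401 (Sz R2C GaC PLnF QfOK QE qfOK_E cellsNx cellsJx)
open Crest.Agent.R017.NPy739 (opL opL_nonneg)
open Crest.Agent.R017.RQd385 (PM2Q)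

/-- the separate cells (helper739) -/
lemma r2C_E {ε : ℝ} (hε : 0 < ε) : ∃ C : ℝ, 1 ≤ C ∧ ∀ (P : DPar) (h : ℝ → ℝ),
    R2C P h NCube (PM2Q NCube P h) ε C := by
  obtain ⟨C, hC, H⟩ := NPz739.cell_r2Q hε
  refine ⟨C, hC, fun P h => ?_⟩
  intro T X Z l u v w Pr g₃ g₀ E τ hX hZ hE hτ hg₀ hT hg₃ hQ X0 hX0 hB s₁ hs₁ r s' n K Lv s Bd Wt
    hBd hWt hpm
  exact H NCube P h T X Z l u v w Pr g₃ g₀ E τ hX hZ hE hτ hg₀ hT hg₃ hQ X0 hX0 hB s₁ hs₁ s' n K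
    Lv s Bd Wt hBd hWt hpm

/-- the joint cells (helper739) -/
lemma gaC_E {ε : ℝ} (hε : 0 < ε) : ∃ C : ℝ, 1 ≤ C ∧ ∀ (P : DPar) (h : ℝ → ℝ),
    GaC P h NCube (PM2Q NCube P h) ε C := by
  obtain ⟨C, hC, H⟩ := NPz739.cell_ga2Q hε
  refine ⟨C, hC, fun P h => ?_⟩
  intro T X Z U R l u v w Pr g₃ g₀ E τ n₀ g hX hZ hU hR hE hτ hg₀ hn₀ hg hT hg₃ hu hQ X0 s₁ hs₁
    hX0 hB r s' n K Lv s Bd Wt hBd hWt hs hRe hJ hga
  exact H NCube P h T X Z U R l u v w Pr g₃ g₀ E τ n₀ g hX hZ hU hR hE hτ hg₀ hn₀ hg hT hg₃ hu hQ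
    X0 s₁ hs₁ hX0 hB s' n K Lv s Bd Wt hBd hWt hs hRe hJ hga

lemma plnF_mono {Φ : ℝ → ℝ → List Pq → ℝ} {μ C C' : ℝ} {r : ℕ} {s : Fin r → Pq}
    {n K Lv m e Bd : ℝ} (H : PLnF Φ μ C s n K Lv m e Bd) (hC : C' ≤ C) :
    PLnF Φ μ C' s n K Lv m e Bd :=
  ⟨fun s' W0 hW hR => H.r2 s' W0 hW fun k => (hR k).mono hC,
    fun s' W0 hW hR => H.ga s' W0 hW fun k => (hR k).mono hC⟩

/-- **the cells of the difference of two flagged lists**, from the pair lines -/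
theorem nph_of {h : ℝ → ℝ} {c₀ : ℝ} (hpu : PU h c₀) {R : ℝ} (hR0 : 0 ≤ R)
    (hR : ∀ u, cx h u ≠ 0 → |u| ≤ R) {μ : ℝ} (hμ : 0 ≤ μ) (r : ℕ) {ε₁ : ℝ} (hε₁ : 0 < ε₁) :
    ∃ C : ℝ, 1 ≤ C ∧ ∀ A' : ℕ, 2 * (r * μ) + 2 ≤ A' →
      ∀ Cφ η : ℝ, 0 ≤ Cφ → 0 < η → η ≤ 1 →
      ∀ φ : ℝ → ℝ, WK Cφ η A' φ → ∀ p ∈ T9, ∀ (t₀ : ℝ) (P : DPar) (_ : P.OK)
      (ps ps' : List Pf), ps.length = r → ps'.length = r → LF ps' = LF ps →
      (∀ x ∈ ps, 0 ≤ x.1.z) → (∀ x ∈ ps', 0 ≤ x.1.z) → ∀ z D0 : ℝ, 1 ≤ D0 →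
      ∀ q : Eis, IsPrim q → ∀ (e₀ ε Pz X V Kf B0 H X0 : ℝ) (δ e A : Eis) (y : Eis × Eis)
      (K Lv d Bd : ℝ), 0 < ε → (∀ c ∈ C4, Sz Pz X V Kf H δ e A c y) →
      Env e₀ ε Pz X V Kf B0 H X0 δ e (LF ps) K Lv d → C ≤ e₀ → D0 ^ r ≤ X0 → (nm q : ℝ) ≤ X0 →
      (∀ x ∈ ps, Real.exp x.1.z ≤ X0) → (∀ x ∈ ps', Real.exp x.1.z ≤ X0) → 0 ≤ Bd →
      PLnF (PM2Q NCube P h) μ C (fun i => (ps.get i).1) (LF ps) K Lv (17 * d + 8 * e₀) (2 * e₀)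
        Bd →
      PLnF (PM2Q NCube P h) μ C (fun i => (ps'.get i).1) (LF ps) K Lv (17 * d + 8 * e₀) (2 * e₀)
        Bd →
      ∀ ζ : ℂ, ‖ζ‖ ≤ 1 →
      NPH ε Pz A' V Kf H B0 X (fun m => sqc q (alF z D0 P h ps) m -
        ζ * sqc q (alF z D0 P h ps') m) φ p t₀ δ e A y (fun _ => jmL (2 * d + e₀) Lv)
        (4 * C * (Cφ ^ 2 * iA A' * (η * (η ^ A')⁻¹)) * X0 ^ (2 * ε₁) * (1 + |t₀|) ^ A' *
          opL r D0 * (Bd * Real.exp (LF ps + K + 5 * d + 3 * e₀))) := by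
  obtain ⟨C2, hC2, H2⟩ := r2C_E hε₁
  obtain ⟨C3, hC3, H3⟩ := gaC_E hε₁
  obtain ⟨CN, hCN, HN⟩ := cellsNx hpu hR0 hR hμ r hε₁
  obtain ⟨CJ, hCJ, HJ⟩ := cellsJx hpu hR0 hR hμ r hε₁
  have a1 : CN ≤ CN * C2 := le_mul_of_one_le_right (by linarith) hC2
  have a2 : CJ ≤ CJ * C3 := le_mul_of_one_le_right (by linarith) hC3
  refine ⟨CN * C2 + CJ * C3, by linarith, ?_⟩
  intro A' hA' Cφ η hCφ hη hη1 φ hφ p hp t₀ P hP ps ps' hr hr' hLF hs hs' z D0 hD q hq e₀ ε Pz X V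
    Kf B0 H X0 δ e A y K Lv d Bd hε hSz he hCe hDX hqX hsX hsX' hBd hln hln' ζ hζ
  have hiA := iA_nonneg A'
  have hop := opL_nonneg r (show (0 : ℝ) ≤ D0 by linarith)
  have hX0 := he.X0
  set M0 : ℝ := (Cφ ^ 2 * iA A' * (η * (η ^ A')⁻¹)) * X0 ^ (2 * ε₁) * (1 + |t₀|) ^ A' *
    opL r D0 * (Bd * Real.exp (LF ps + K + 5 * d + 3 * e₀)) with hM0
  have hM00 : 0 ≤ M0 := by positivity
  have hfin : 4 * (CN * C2 + CJ * C3) * (Cφ ^ 2 * iA A' * (η * (η ^ A')⁻¹)) * X0 ^ (2 * ε₁) *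
      (1 + |t₀|) ^ A' * opL r D0 * (Bd * Real.exp (LF ps + K + 5 * d + 3 * e₀)) =
      4 * (CN * C2 + CJ * C3) * M0 := by rw [hM0]; ring
  rw [hfin]
  constructor
  · intro c hc l u j hcl n hn
    have hz := hSz c hc
    refine (HN C2 hC2 A' hA' Cφ η hCφ hη hη1 φ hφ p hp t₀ P hP (PM2Q NCube P h) NCube (QE p)
      (H2 P h) ps ps' hr hr' hLF hs hs' z D0 hD q hq e₀ ε Pz X V Kf B0 H X0 δ e A c y K Lv d Bd hε
      hz (qfOK_E hz.ep.ne_zero hz.Ap.ne_zero hc p) he (by linarith) hDX hqX hsX hsX' hBd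
      (plnF_mono hln (by linarith)) (plnF_mono hln' (by linarith)) ζ hζ l u j hcl n hn).trans ?_
    calc _ = 4 * (CN * C2) * M0 := by rw [hM0]; ring
      _ ≤ _ := mul_le_mul_of_nonneg_right (by linarith) hM00
  · intro c hc l u j hjm hcl
    have hz := hSz c hc
    refine (HJ C3 hC3 A' hA' Cφ η hCφ hη hη1 φ hφ p hp t₀ P hP (PM2Q NCube P h) NCube (QE p)
      (H3 P h) ps ps' hr hr' hLF hs hs' z D0 hD q hq e₀ ε Pz X V Kf B0 H X0 δ e A c y K Lv d Bd hε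
      hz (qfOK_E hz.ep.ne_zero hz.Ap.ne_zero hc p) he (by linarith) hDX hqX hsX hsX' hBd
      (plnF_mono hln (by linarith)) (plnF_mono hln' (by linarith)) ζ hζ l u j hjm hcl).trans ?_
    calc _ = 4 * (CJ * C3) * M0 := by rw [hM0]; ring
      _ ≤ _ := mul_le_mul_of_nonneg_right (by linarith) hM00

end Crest.Agent.R017.RCX385
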