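import Crest.Agent.R017.RCXn_385

/-!
# Row 17, T.7 [E2-e], the number (Rc) of the exceptional class (helper385): the differences `xs`

* `reb_xs` : `REb` of the windowed difference, all sizes powers of `X`
* `rc_core` : `BeAll (NRc N M F)` from the pair lines of both lists
-/

set_option autoImplicit false
set_option linter.unusedVariables false
set_option maxHeartbeats 1000000

noncomputable section

open Complex
open scoped ComplexConjugate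

namespace Crest.Agent.R017.RCX385

open Crest.Agent.R012 Crest.Agent.R012.Eis
open Crest.Agent.R012.T411 (NCube)
open Crest.Agent.R012.LS2 (S mem_S)
open Crest.Agent.R012.Mob705 (pdiv mem_pdiv)
open Crest.Agent.R017.CM106 (sub CS FS)
open Crest.Agent.R017.MoL106 (kw kw_ne)
open Crest.Agent.R017.E2440
open Crest.Agent.R017.B770
open Crest.Agent.R017.Prov71
open Crest.Agent.R017.FE47 (cx PU)
open Crest.Agent.R017.HP842 (pc sqc)
open Crest.Agent.R017.Leg381 (alf alF Pf LF LF_get)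
open Crest.Agent.R017.Win813 (WK iA iA_nonneg ew ew_nonneg)
open Crest.Agent.R017.RGw813 (T9)
open Crest.Agent.R017.RC106 (Env jmL)
open Crest.Agent.R017.QsJ401 (Sz PLnF Tb jmL_RR)
open Crest.Agent.R017.NPy739 (opL opL_nonneg)
open Crest.Agent.R017.RQd385 (PM2Q PM2Q_mono)
open Crest.Agent.R017.X6C180 (GF)
open Crest.Agent.R017.WDec180 (WD sc)
open Crest.Agent.R017.LBx48 (REb neb)
open Crest.Agent.R017.QsO83 (bw FS_bw)
open Crest.Agent.R017.Sup271 (NPm)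
open Crest.Agent.R017.RG64
open Crest.Agent.R017.RX298 (xs zt norm_zt rp LF_rp rp_length Mk Lg2)
open Crest.Agent.R017.PrD502 (PV xs_facts pv_xs)
open Crest.Agent.R017.PrE176 (RPn)
open Crest.Agent.R017.RLD381 (BeAll NRc)

/-- a smaller order of the window -/
lemma wk_mono {C η : ℝ} {A A' : ℕ} {φ : ℝ → ℝ} (hC : 0 ≤ C) (hη : 0 < η) (hA : A' ≤ A)
    (h : WK C η A φ) : WK C η A' φ := by
  obtain ⟨k, h1, h2, h3⟩ := h
  refine ⟨k, h1, fun s => (h2 s).trans (mul_le_mul_of_nonneg_left ?_ hC), h3⟩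
  unfold Win813.ew
  refine mul_le_mul_of_nonneg_left ?_ hη.le
  have h4 : 1 ≤ 1 + η * |s| := by
    have := abs_nonneg s
    have : 0 ≤ η * |s| := by positivity
    linarith
  exact inv_anti₀ (by positivity) (pow_le_pow_right₀ h4 hA)

lemma z_le_LF {ps : List Pf} (h : ∀ x ∈ ps, 0 ≤ x.1.z) : ∀ x ∈ ps, x.1.z ≤ LF ps := by
  intro x hx
  unfold Leg381.LF
  refine List.single_le_sum (fun y hy => ?_) _ (List.mem_map_of_mem hx)
  obtain ⟨p, hp, rfl⟩ := List.mem_map.1 hy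
  exact h p hp

lemma z_rp {d : ℝ} (hd : 0 ≤ d) {ps : List Pf} (hl : Lg2 d ps) (h : ∀ x ∈ ps, 0 ≤ x.1.z) :
    ∀ x ∈ rp d ps, 0 ≤ x.1.z := by
  match ps, hl with
  | p :: p' :: l, hl =>
    intro x hx
    have hx' : x ∈ (({p.1 with z := p.1.z + p'.1.z - d}, p.2) :: ({p'.1 with z := d}, p'.2) ::
      l : List Pf) := hx
    rcases List.mem_cons.1 hx' with rfl | hx'
    · show 0 ≤ p.1.z + p'.1.z - d
      have := h p' (by simp)
      linarith [hl.1]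
    rcases List.mem_cons.1 hx' with rfl | hx'
    · exact hd
    · exact h x (by simp [hx'])

/-- the room of the constants -/
lemma room_X {G c : ℝ} (hG : 1 ≤ G) (hc : 0 < c) {X : ℝ} (hX : G ^ c⁻¹ ≤ X) : G ≤ X ^ c := by
  have h0 : 0 ≤ G ^ c⁻¹ := by positivity
  calc G = (G ^ c⁻¹) ^ c := by
        rw [← Real.rpow_mul (by linarith), inv_mul_cancel₀ hc.ne', Real.rpow_one]
    _ ≤ X ^ c := Real.rpow_le_rpow h0 hX hc.le

/-- the window scale -/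
lemma log_X2 {X' η n R : ℝ} (hX' : 0 < X') (hη : 0 < η) (hη1 : η ≤ 1 / 2)
    (h : |Real.log X' - n| ≤ R + 1) : |Real.log (X' * Real.exp (η / 2)) - n| ≤ R + 2 := by
  rw [Real.log_mul hX'.ne' (Real.exp_pos _).ne', Real.log_exp]
  rw [abs_le] at h ⊢
  constructor <;> linarith [h.1, h.2]

/-- the level of one block -/
lemma lvl {N₁ Lv : ℝ} {I i : ℕ} (hN : 1 ≤ N₁) (hNL : 9 * N₁ ≤ Real.exp (Lv + 4))
    (hI : (2 : ℝ) ^ I ≤ 2 * N₁) (hi : i < I) : 1 ≤ N₁ / 2 ^ i ∧ N₁ / 2 ^ i ≤ N₁ ∧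
      Real.log (N₁ / 2 ^ i) ≤ Lv + 4 := by
  have h2i : (0 : ℝ) < 2 ^ i := by positivity
  have h1 : (2 : ℝ) ^ (i + 1) ≤ 2 ^ I := pow_le_pow_right₀ (by norm_num) hi
  rw [pow_succ] at h1
  have hV : 1 ≤ N₁ / 2 ^ i := by
    rw [le_div_iff₀ h2i, one_mul]; linarith
  have hVN : N₁ / 2 ^ i ≤ N₁ := div_le_self (by linarith) (one_le_pow₀ (by norm_num))
  refine ⟨hV, hVN, ?_⟩
  rw [← Real.log_exp (Lv + 4)]
  exact Real.log_le_log (by linarith) (by linarith)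

set_option maxHeartbeats 1000000 in
/-- **the cells of all indices** -/
theorem cells_xs {h : ℝ → ℝ} {c₁ : ℝ} (hpu : PU h c₁) {μ : ℝ} (hμ : 0 ≤ μ) (Nl : ℕ) {ε₁ : ℝ}
    (hε₁ : 0 < ε₁) :
    ∃ Cr : ℝ, 1 ≤ Cr ∧ ∀ (Jn : ℕ), 2 * (Nl * μ) + 2 ≤ Jn → ∀ (Cw η : ℝ), 0 ≤ Cw → 0 < η →
      η ≤ 1 / 2 → ∀ φ : ℝ → ℝ, WK Cw η Jn φ → ∀ p ∈ T9, ∀ (t₀ : ℝ) (PP : DPar) (_ : PP.OK)
      (ps : List Pf), ps.length ≤ Nl → (∀ x ∈ ps, 0 ≤ x.1.z) → ∀ (z D0 d₀ : ℝ), 1 ≤ D0 →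
      0 ≤ d₀ → Lg2 d₀ ps →
      ∀ q : Eis, IsPrim q → ∀ (e₀ ε P X' V κ H X0 : ℝ) (δ e A : Eis) (y : Eis × Eis)
      (K Lv d Bd : ℝ), 0 < ε → (∀ c ∈ C4, Sz P X' V κ H δ e A c y) →
      0 ≤ Lv → 3 * Lv ≤ 2 * K → 6 * LF ps ≤ 8 * K → 0 ≤ K → 0 ≤ d →
      Cr ≤ e₀ → 10 ≤ e₀ → RC106.k9 ≤ e₀ → Real.log X' ≤ LF ps + e₀ → Real.log V ≤ Lv + e₀ →
      Real.log κ ≤ K + e₀ → K ≤ Real.log κ + e₀ → ε / 2 * Real.log P ≤ d →
      Real.log H ≤ 8 * d → Real.log (nm δ) ≤ d → Real.log (nm e) ≤ d →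
      Lv + 2 * LF ps + 20 * d + 20 * e₀ ≤ Real.log X0 → 0 < X0 →
      (∀ r ≤ Nl, D0 ^ r ≤ X0) → (nm q : ℝ) ≤ X0 → 0 ≤ Bd →
      PLnF (PM2Q NCube PP h) μ Cr (fun i => (ps.get i).1) (LF ps) K Lv (17 * d + 10 * e₀) (2 * e₀)
        Bd →
      PLnF (PM2Q NCube PP h) μ Cr (fun i => ((rp d₀ ps).get i).1) (LF ps) K Lv (17 * d + 10 * e₀)
        (2 * e₀) Bd →
      ∃ (k₀ : ℕ) (jm : Eis → ℕ → ℕ → ℕ → Prop), kfl (2 * K - Lv - LF ps) ≤ k₀ ∧
        (∀ c ∈ C4, ∀ l u j, jm c l u j → ∀ j₂ ∈ Tb V e A c l,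
          ((2 : ℝ) ^ j * 2 ^ u) ^ 2 ≤ 60 * RR V e A c j₂) ∧
        NPH ε P Jn V κ H (2 ^ k₀) X' (xs q z D0 PP h d₀ ps) φ p t₀ δ e A y jm
          (4 * Cr * (Cw ^ 2 * iA Jn * (η * (η ^ Jn)⁻¹)) * X0 ^ (2 * ε₁) * (1 + |t₀|) ^ Jn *
            opL ps.length D0 * (Bd * Real.exp (2 * e₀) * Real.exp (LF ps + K + 5 * d + 3 * e₀))) := by
  obtain ⟨Rh, hRh⟩ : Bump h := bump_of_cs hpu.cs
  have hRh' : ∀ u, cx h u ≠ 0 → |u| ≤ max Rh 0 := fun u hu => (hRh u hu).trans (le_max_left _ _)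
  choose C hC H using fun r : ℕ => nph_of hpu (le_max_right Rh 0) hRh' hμ r hε₁
  have hC0 : ∀ r ∈ Finset.range (Nl + 1), 0 ≤ C r := fun r _ => by linarith [hC r]
  refine ⟨∑ r ∈ Finset.range (Nl + 1), C r, ?_, ?_⟩
  · exact (hC 0).trans (Finset.single_le_sum hC0 (Finset.mem_range.2 (by omega)))
  intro Jn hJn Cw η hCw hη hη1 φ hφ p hp t₀ PP hP ps hlen hz z D0 d₀ hD hd₀ hLg q hq e₀ ε P X' V κ
    Hh X0 δ e A y K Lv d Bd hε hSz hLv h3 h6 hK hd hCe he10 hk9 hlX hlV hlK hlK' hlT hlH hlδ hle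
    hlX0 hX0 hDX hqX hBd hln hln'
  have hCr : C ps.length ≤ ∑ r ∈ Finset.range (Nl + 1), C r :=
    Finset.single_le_sum hC0 (Finset.mem_range.2 (by omega))
  have h1 : (1 : Eis) ∈ C4 := mem_C4.mpr (Or.inl rfl)
  have hs := hSz 1 h1
  have hV1 := hs.V1
  have hlV0 : 0 ≤ Real.log V := Real.log_nonneg hV1
  have hn0 : 0 ≤ LF ps := LF_nonneg hz
  set L' : ℝ := min Lv (Real.log V) with hL'
  have hL'0 : 0 ≤ L' := le_min hLv hlV0
  have hL'L : L' ≤ Lv := min_le_left _ _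
  have hL'V : L' ≤ Real.log V := min_le_right _ _
  have hlV' : Real.log V ≤ L' + e₀ := by
    rcases le_total Lv (Real.log V) with h0 | h0
    · rw [hL', min_eq_left h0]; exact hlV
    · rw [hL', min_eq_right h0]; linarith
  set A0 : ℝ := 2 * K - L' - LF ps with hA0
  have hA00 : 0 ≤ A0 := by rw [hA0]; linarith
  have h2k : Real.log ((2 : ℝ) ^ kfl A0) = kfl A0 * Real.log 2 := Real.log_pow 2 _
  have hmono : ∀ (l l' β : ℝ) (qs : List Pq), l ≤ l' →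
      PM2Q NCube PP h l β qs ≤ PM2Q NCube PP h l' β qs :=
    fun l l' β qs hll => PM2Q_mono (fun _ hk => hk) hll le_rfl qs
  have he0' : (0 : ℝ) ≤ 2 * e₀ := by linarith
  have down : ∀ {r' : ℕ} {s : Fin r' → Pq}, PLnF (PM2Q NCube PP h) μ
      (∑ r ∈ Finset.range (Nl + 1), C r) s (LF ps) K Lv (17 * d + 10 * e₀) (2 * e₀) Bd →
      PLnF (PM2Q NCube PP h) μ (C ps.length) s (LF ps) K L' (17 * d + 8 * e₀) (2 * e₀)
        (Bd * Real.exp (2 * e₀)) := fun hh =>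
    QsJ401.PLnF.down hmono hBd he0' (by linarith) (by linarith) hL'L (by linarith) hK
      (plnF_mono hh hCr)
  have hlr : (rp d₀ ps).length = ps.length := rp_length d₀ ps
  have hEnv : Env e₀ ε P X' V κ (2 ^ kfl A0) Hh X0 δ e (LF ps) K L' d :=
    { e0 := he10, k9 := hk9, d0 := hd, n0 := hn0, K0 := hK, v0 := hL'0, lX := hlX, lV := hlV',
      lK := hlK, lK' := hlK', lT := hlT, lH := hlH, lδ := hlδ, le := hle,
      B1 := one_le_pow₀ (by norm_num),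
      lB := by
        rw [h2k]
        have := kfl_le hA00
        linarith
      lB' := by
        rw [h2k]
        have := le_kfl A0
        linarith
      lX0 := by linarith
      X0 := hX0 }
  refine ⟨kfl A0, fun _ => jmL (2 * d + e₀) L', kfl_mono (by rw [hA0]; linarith), ?_, ?_⟩
  · intro c hc l u j hjm j₂ hj₂
    exact jmL_RR hs.ep.ne_zero hs.Ap.ne_zero hc (by linarith) hL'V hjm hj₂
  have hJn' : 2 * ((ps.length : ℝ) * μ) + 2 ≤ Jn := by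
    have : (ps.length : ℝ) * μ ≤ Nl * μ :=
      mul_le_mul_of_nonneg_right (by exact_mod_cast hlen) hμ
    linarith
  have hX1 : ∀ x : ℝ, x ≤ LF ps → Real.exp x ≤ X0 := by
    intro x hx
    rw [← Real.exp_log hX0]
    exact Real.exp_le_exp.2 (by linarith)
  have key := H ps.length Jn hJn' Cw η hCw hη (by linarith) φ hφ p hp t₀ PP hP ps (rp d₀ ps) rfl
    hlr (LF_rp d₀ ps) hz (z_rp hd₀ hLg hz) z D0 hD q hq e₀ ε P X' V κ (2 ^ kfl A0) Hh X0 δ e A y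
    K L' d (Bd * Real.exp (2 * e₀)) hε hSz hEnv (by linarith) (hDX _ hlen) hqX
    (fun x hx => hX1 _ (z_le_LF hz x hx))
    (fun x hx => hX1 _ (by
      have := z_le_LF (z_rp hd₀ hLg hz) x hx
      rwa [LF_rp] at this)) (by positivity) (down hln) (down hln') (zt d₀ ps)
    (norm_zt d₀ ps).le
  refine ⟨fun c hc l u j hcl n hn => (key.hN c hc l u j hcl n hn).trans ?_,
    fun c hc l u j hjm hcl => (key.hJ c hc l u j hjm hcl).trans ?_⟩
  all_goals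
    have hiA := iA_nonneg Jn
    have hop := opL_nonneg ps.length (show (0 : ℝ) ≤ D0 by linarith)
    have hC1 := hC ps.length
    gcongr

/-- the end of `reb_key` -/
lemma key_fin {RR C1 e p3 p1 I Xe A D B Ax2 y pw U : ℝ} (hC : 0 ≤ C1) (he : 0 ≤ e) (hp3 : 0 ≤ p3)
    (hp1 : 0 ≤ p1) (hI : I ≤ (1 + 2 * e) * p1) (hI0 : 0 ≤ I) (hP : p3 * p1 ≤ Xe) (hA : 0 ≤ A)
    (hD : 0 ≤ D) (hB : 0 ≤ B) (hY : Ax2 ≤ y) (hpw : 0 ≤ pw) (hU : 0 ≤ U)
    (h : RR ≤ C1 * p3 * I * (A + D * (B * Ax2 * pw) + U + 1)) (hAx : 0 ≤ Ax2 := by positivity) :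
    RR ≤ C1 * (1 + 2 * e) * Xe * (A + D * (B * y * pw) + U + 1) := by
  have h1 : A + D * (B * Ax2 * pw) + U + 1 ≤ A + D * (B * y * pw) + U + 1 := by gcongr
  have h2 : 0 ≤ A + D * (B * Ax2 * pw) + U + 1 := by positivity
  have h3 : C1 * p3 * I ≤ C1 * (1 + 2 * e) * Xe := by
    calc C1 * p3 * I ≤ C1 * p3 * ((1 + 2 * e) * p1) := by gcongr
      _ = C1 * (1 + 2 * e) * (p3 * p1) := by ring
      _ ≤ _ := by gcongr
  refine h.trans ?_
  exact mul_le_mul h3 h1 h2 ((by positivity : (0 : ℝ) ≤ C1 * p3 * I).trans h3)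

set_option maxHeartbeats 2000000 in
open Classical in
/-- **`REb` of the windowed difference**, one piece, all sizes powers of `X` : the four terms -/
theorem reb_key {h : ℝ → ℝ} {c₁ : ℝ} (hpu : PU h c₁) {w : ℝ → ℝ} {N : ℕ} {M : ℝ} {F : ℕ → ℝ → ℂ}
    (hWD : WD w N M F) {PP : DPar} (hP : PP.OK)
    (hnp : ∀ k : Eis, k ≠ 0 → (∃ c, k = c ^ 3) → ¬ NPm PP.n PP.ψ PP.l₂ k) (Nl : ℕ)
    {K c d₀ c₀ μ ε : ℝ} (hc : 0 < c) (hK : 2000 * c ≤ K) (hd₀ : 0 ≤ d₀) (hc₀ : 1 ≤ c₀)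
    (hμ : 0 ≤ μ) (hε : 0 < ε) (hεc : ε ≤ c) (Jn Aw : ℕ) (hJn : 2 * (Nl * μ) + 12 ≤ Jn)
    (hAw : Jn + 2 ≤ Aw) {Cw R η : ℝ} (hCw : 0 ≤ Cw) (hR : 0 ≤ R) (hη : 0 < η) (hη1 : η ≤ 1 / 2) :
    ∃ Cr e₀ C1 Cp cY B₁ ε₁ G : ℝ, 1 ≤ Cr ∧ M + N + R + 14 ≤ e₀ ∧ 0 ≤ C1 ∧ 0 ≤ cY ∧
      B₁ * (2 * ε₁) ≤ ε / 20 ∧ Real.exp (20 * e₀) ≤ G ∧ ∀ X : ℝ, 3 ≤ X → G ≤ X ^ c →
      ∀ δ : ℝ, 0 ≤ δ → δ * (100 * (Nl + 1)) ≤ ε → ∀ (ps : List Pf) (q : Eis) (Lv N₁ : ℝ),
      ps.length ≤ Nl → (∀ x ∈ ps, 0 ≤ x.1.z) → Mk (X ^ c₀) ps → Lg2 (d₀ * Real.log X) ps →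
      LF ps ≤ (K + 2 * c) * Real.log X → 6 * LF ps ≤ (5 * K + 7 * c) * Real.log X → 0 ≤ Lv →
      3 * Lv + 200 * c * Real.log X ≤ 2 * K * Real.log X → Real.exp Lv ≤ N₁ →
      9 * N₁ ≤ Real.exp (Lv + 4) → IsPrim q → (nm q : ℝ) ≤ X ^ c₀ → ∀ Bd : ℝ, 0 ≤ Bd →
      PLnF (PM2Q NCube PP h) μ Cr (fun i => (ps.get i).1) (LF ps) (K * Real.log X) Lv
        (17 * (c * Real.log X) + 10 * e₀) (2 * e₀) Bd →
      PLnF (PM2Q NCube PP h) μ Cr (fun i => ((rp (d₀ * Real.log X) ps).get i).1) (LF ps)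
        (K * Real.log X) Lv (17 * (c * Real.log X) + 10 * e₀) (2 * e₀) Bd →
      ∀ a ∈ T9, ∀ (t X' : ℝ) (φ : ℝ → ℝ), 0 < X' → |Real.log X' - LF ps| ≤ R + 1 →
      WK Cw η Aw φ → (∀ u, φ u ≠ 0 → |u - Real.log X'| ≤ η / 2) → ∀ I : ℕ,
      (2 : ℝ) ^ I ≤ 2 * N₁ → ∀ i < N,
      REb (bw φ a t (xs q (X ^ δ) (X ^ δ) PP h (d₀ * Real.log X) ps))
        (sc (X ^ K) M i) (GF (Fh (F i) (7 * (c * Real.log X)))) (S (X ^ c)) I (X ^ c) N₁ N₁ ≤
      C1 * X ^ (ε / 2) * (X ^ c * (4 * Cr * (Cw ^ 2 * iA Jn * (η * (η ^ Jn)⁻¹)) *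
          (X ^ B₁) ^ (2 * ε₁) * (1 + |t|) ^ Jn * opL ps.length (X ^ δ) *
          (Bd * Real.exp (2 * e₀) *
            Real.exp (LF ps + K * Real.log X + 5 * (c * Real.log X) + 3 * e₀))) +
        X ^ c * (Cw ^ 2 * (η⁻¹) ^ Jn * (1 + |t|) ^ Jn * (cY * X ^ (ε / 20)) *
          (sc (X ^ K) M i ^ (2 / 3 : ℝ) * Real.exp (LF ps) ^ (2 / 3 : ℝ) /
            2 ^ kfl (2 * (K * Real.log X) - Lv - LF ps) *
            MTL537.ML (9 * (N₁ * (X ^ c * X ^ c) ^ 3))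
              (Real.exp (LF ps) / 2 ^ kfl (2 * (K * Real.log X) - Lv - LF ps)))) +
        (Cw * (η⁻¹) ^ 6 * (1 + |t|) ^ 6 *
          (Cp * X ^ (ε / 100) * (X ^ δ) ^ 2 * Ht ps ^ 3 * Real.exp (LF ps))) ^ 2 *
          RPn (d₀ * Real.log X) (sc (X ^ K) M i) N₁ (X' * Real.exp (η / 2)) (nm (kw a))
            (Real.exp (7 * (c * Real.log X))) 1 (X ^ c) + 1) := by
  have hK0 : 0 < K := by linarith
  have hM := hWD.M0
  set εr : ℝ := ε / (200 * (K + 1)) with hεr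
  have hεr0 : 0 < εr := by positivity
  set B₁ : ℝ := 10 * K + c₀ + 1 with hB₁
  have hB₁0 : 0 < B₁ := by positivity
  set ε₁ : ℝ := ε / (40 * B₁) with hε₁
  have hε₁0 : 0 < ε₁ := by positivity
  set ε₂ : ℝ := ε / (100 * (K + 1)) with hε₂
  have hε₂0 : 0 < ε₂ := by positivity
  have hεrK : εr * (200 * (K + 1)) = ε := by rw [hεr]; field_simp
  have hε₂K : ε₂ * (100 * (K + 1)) = ε := by rw [hε₂]; field_simp
  have hε₁B : B₁ * (2 * ε₁) = ε / 20 := by rw [hε₁]; field_simp; ring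
  have hε₂1 : ε₂ ≤ 1 := by nlinarith
  have hεrK1 : εr * K ≤ ε := by
    have h0 : εr * (200 * (K + 1)) = 200 * (εr * K) + 200 * εr := by ring
    have h1 : 0 ≤ εr * K := by positivity
    linarith
  obtain ⟨R₁, Ca, hR₁, hCa, HX⟩ := xs_facts hpu Nl hε₂0
  obtain ⟨b, Cz, C1, hCz, hC1, H1⟩ := reb_x hWD hεr0 hR₁ 1 Jn Aw (by
    have h0 : (0 : ℝ) ≤ Nl * μ := by positivity
    have h1 : (12 : ℝ) ≤ Jn := by linarith
    exact_mod_cast h1) hAw (C0 := 60) (by norm_num)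
  set B : ℝ := 3 * K * b + K + 2 * c + c₀ + 2 with hB
  have hb0 : (0 : ℝ) ≤ b := Nat.cast_nonneg _
  have hKb : 0 ≤ 3 * K * b := by positivity
  obtain ⟨Cp, hCp, HPV⟩ := pv_xs hpu Nl (B := B) (by linarith) (show 0 < ε / 100 by linarith)
  obtain ⟨Cr, hCr, HC⟩ := cells_xs hpu hμ Nl hε₁0
  have hiA := iA_nonneg Aw
  have hNw : (0 : ℝ) ≤ N := Nat.cast_nonneg _
  set e₀ : ℝ := Cr + |RC106.k9| + R + M + N + 14 with he₀
  have hk9 : RC106.k9 ≤ |RC106.k9| := le_abs_self _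
  have hk90 := abs_nonneg RC106.k9
  have hnn : (0 : ℝ) ≤ nm PP.n := Nat.cast_nonneg _
  set G : ℝ := Real.exp (20 * e₀) + Cw * iA Aw * (Ca * (Ca * Real.exp R₁)) + 81 * Cz +
    nm PP.n with hG
  have hG1 : 0 ≤ Cw * iA Aw * (Ca * (Ca * Real.exp R₁)) := by positivity
  have hG2 : 1 ≤ Real.exp (20 * e₀) := Real.one_le_exp (by linarith)
  set cA : ℝ := Cw ^ 2 * iA Jn * (η * (η ^ Jn)⁻¹) with hcA
  have hiJ := iA_nonneg Jn
  have hcA0 : 0 ≤ cA := by positivity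
  set cY : ℝ := (Ca * (Ca * Real.exp R₁)) ^ 2 with hcY
  refine ⟨Cr, e₀, C1 * (1 + 2 * εr⁻¹), Cp, cY, B₁, ε₁, G, hCr, by linarith, by positivity,
    sq_nonneg _, hε₁B.le, by linarith, ?_⟩
  intro X hX hGX δ hδ hδε ps q Lv N₁ hlen hz hMk hLg hn1 hn2 hLv hv3 hN hNL hq hqX Bd hBd hln hln'
    a ha t X' φ hX' hXn hφ hφw I hI i hi
  have hX0 : 0 < X := by linarith
  have hX1 : 1 ≤ X := by linarith
  have hl : 0 < Real.log X := Real.log_pos (by linarith)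
  have hXr : ∀ u : ℝ, X ^ u = Real.exp (u * Real.log X) := fun u => by
    rw [Real.rpow_def_of_pos hX0]; congr 1; ring
  have hle : ∀ {u v : ℝ}, u ≤ v → X ^ u ≤ X ^ v := fun huv =>
    Real.rpow_le_rpow_of_exponent_le hX1 huv
  have hadd : ∀ u v : ℝ, X ^ u * X ^ v = X ^ (u + v) := fun u v => (Real.rpow_add hX0 u v).symm
  have hGe : Real.exp (20 * e₀) ≤ X ^ c := by linarith
  have hLe : 20 * e₀ ≤ c * Real.log X := by
    rw [hXr] at hGe
    exact Real.exp_le_exp.1 hGe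
  have hcL : 0 < c * Real.log X := by positivity
  have hKL : 2000 * (c * Real.log X) ≤ K * Real.log X := by
    have := mul_le_mul_of_nonneg_right hK hl.le
    linarith
  have hn0 : 0 ≤ LF ps := LF_nonneg hz
  have hn1' : LF ps ≤ K * Real.log X + 2 * (c * Real.log X) := by linarith
  have hn2' : 6 * LF ps ≤ 5 * (K * Real.log X) + 7 * (c * Real.log X) := by linarith
  have hv3' : 3 * Lv + 200 * (c * Real.log X) ≤ 2 * (K * Real.log X) := by linarith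
  set n : ℝ := LF ps with hn
  have hen : Real.exp n ≤ X ^ (K + 2 * c) := by
    rw [hXr]
    exact Real.exp_le_exp.2 hn1
  have hN₁ : 1 ≤ N₁ := by linarith [Real.one_le_exp hLv]
  have hXδ : 1 ≤ X ^ δ := Real.one_le_rpow hX1 hδ
  set P : ℝ := X ^ (3 * K) with hPd
  have hP1 : 1 ≤ P := Real.one_le_rpow hX1 (by positivity)
  have hP0 : 0 < P := by linarith
  have hlP : Real.log P = 3 * K * Real.log X := by rw [hPd, Real.log_rpow hX0]
  set x : Eis → ℂ := xs q (X ^ δ) (X ^ δ) PP h (d₀ * Real.log X) ps with hx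
  set Y : ℝ := Ca * (Real.exp R₁ * Real.exp n) with hY
  have hY1 : 1 ≤ Real.exp R₁ * Real.exp n :=
    one_le_mul_of_one_le_of_one_le (Real.one_le_exp hR₁) (Real.one_le_exp hn0)
  have hCaY : Ca ≤ Y := le_mul_of_one_le_right (by linarith) hY1
  have hYY : Real.exp R₁ * Real.exp n ≤ Y := le_mul_of_one_le_left (by linarith) hCa
  have hY1' : 1 ≤ Y := by linarith
  obtain ⟨f1, f2, f3, f4⟩ := HX PP hP q (X ^ δ) (X ^ δ) (d₀ * Real.log X) ps hlen Y hCaY hYY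
  have hPV := HPV X hX PP hP (by
    refine le_trans (by linarith : (nm PP.n : ℝ) ≤ X ^ c) (hle (by linarith))) hnp (X ^ δ) (X ^ δ)
    hXδ ps (hMk.mono (hle (by linarith))) hlen hz (by
      have : (K + 2 * c) * Real.log X ≤ B * Real.log X :=
        mul_le_mul_of_nonneg_right (by linarith) hl.le
      linarith) (d₀ * Real.log X) (by positivity) hLg q hq.ne_zero
    (hqX.trans (hle (by linarith)))
  have hκ0 : 0 < sc (X ^ K) M i := WDec180.sc_pos (by positivity) M i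
  have hlκ := log_sc (K := K) hM hX hi
  have hlκ2 := abs_le.1 hlκ
  have hkP : ∀ j < N, sc (X ^ K) M j ≤ P ∧ (sc (X ^ K) M j)⁻¹ ≤ P := by
    intro j hj
    have h1 := abs_le.1 (log_sc (K := K) hM hX hj)
    have h2 : 0 < sc (X ^ K) M j := WDec180.sc_pos (by positivity) M j
    constructor
    · rw [← Real.log_le_log_iff h2 hP0, hlP]; linarith
    · rw [← Real.log_le_log_iff (inv_pos.2 h2) hP0, hlP, Real.log_inv]; linarith
  have hXn2 := abs_le.1 hXn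
  have hlX2 := log_X2 hX' hη hη1 hXn
  have hlX2' := abs_le.1 hlX2
  have hnP : Real.exp n ≤ P := hen.trans (hle (by linarith))
  have h2X' : 2 * X' ≤ P := by
    rw [← Real.log_le_log_iff (by positivity) hP0, hlP, Real.log_mul (by norm_num) hX'.ne']
    have := Real.log_two_lt_d9
    linarith
  have hP9 : 9 * (N₁ * (X ^ c * X ^ c) ^ 3) ≤ P := by
    have e1 : (X ^ c * X ^ c) ^ 3 = Real.exp (6 * (c * Real.log X)) := by
      rw [hXr, ← Real.exp_add, ← Real.exp_nat_mul]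
      congr 1
      push_cast
      ring
    have e2 : P = Real.exp (3 * (K * Real.log X)) := by
      rw [hPd, hXr]; congr 1; ring
    rw [e1, e2]
    calc 9 * (N₁ * Real.exp (6 * (c * Real.log X)))
        = (9 * N₁) * Real.exp (6 * (c * Real.log X)) := by ring
      _ ≤ Real.exp (Lv + 4) * Real.exp (6 * (c * Real.log X)) := by gcongr
      _ = Real.exp (Lv + 4 + 6 * (c * Real.log X)) := by rw [← Real.exp_add]
      _ ≤ _ := Real.exp_le_exp.2 (by linarith)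
  have hhP : Real.exp (7 * (c * Real.log X)) ≤ P := by
    rw [← Real.log_le_log_iff (Real.exp_pos _) hP0, hlP, Real.log_exp]; linarith
  have hAxP : Cw * iA Aw * (Ca * Y ^ ε₂) ≤ P ^ 1 := by
    have h1 : Y ^ ε₂ ≤ Y := by
      calc Y ^ ε₂ ≤ Y ^ (1 : ℝ) := Real.rpow_le_rpow_of_exponent_le hY1' hε₂1
        _ = Y := Real.rpow_one Y
    rw [pow_one]
    calc Cw * iA Aw * (Ca * Y ^ ε₂) ≤ Cw * iA Aw * (Ca * Y) := by gcongr
      _ = Cw * iA Aw * (Ca * (Ca * Real.exp R₁)) * Real.exp n := by rw [hY]; ring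
      _ ≤ X ^ c * X ^ (K + 2 * c) := by
          have : Cw * iA Aw * (Ca * (Ca * Real.exp R₁)) ≤ X ^ c := by linarith
          gcongr
      _ = X ^ (c + (K + 2 * c)) := hadd _ _
      _ ≤ P := hle (by linarith)
  have hZp : Cz * P ^ b * 81 ≤ X ^ B := by
    have e1 : P ^ b = X ^ (3 * K * b) := by
      rw [hPd, ← Real.rpow_natCast, ← Real.rpow_mul hX0.le]
    have h1 : 81 * Cz ≤ X ^ c := by linarith
    calc Cz * P ^ b * 81 = 81 * Cz * X ^ (3 * K * b) := by rw [e1]; ring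
      _ ≤ X ^ c * X ^ (3 * K * b) := by gcongr
      _ = X ^ (c + 3 * K * b) := hadd _ _
      _ ≤ X ^ B := hle (by linarith)
  set k : ℕ := kfl (2 * (K * Real.log X) - Lv - n) with hk
  have hop := opL_nonneg ps.length (show (0 : ℝ) ≤ X ^ δ by linarith)
  set M0 : ℝ := 4 * Cr * cA * (X ^ B₁) ^ (2 * ε₁) * (1 + |t|) ^ Jn * opL ps.length (X ^ δ) *
    (Bd * Real.exp (2 * e₀) * Real.exp (n + K * Real.log X + 5 * (c * Real.log X) + 3 * e₀))
    with hM0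
  have hM00 : 0 ≤ M0 := by positivity
  have key := H1 P (X ^ K) (Real.exp n) X' (X ^ c) N₁ (X ^ c) (Ca * Y ^ ε₂)
    (Cp * X ^ (ε / 100) * (X ^ δ) ^ 2 * Ht ps ^ 3 * Real.exp n) (d₀ * Real.log X) (X ^ B)
    (7 * (c * Real.log X)) Cw η t I k x φ a hP1 (by positivity) hkP (Real.exp_pos _) hnP hX' h2X'
    (Real.one_le_rpow hX1 hc.le) hN₁ hI (Real.one_le_rpow hX1 hc.le) hP9 (by positivity) hhP hCw hη
    hη1 hφ hφw ha f1 (fun m hm => (f3 m hm).1) (fun m hm => by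
      rw [Real.log_exp]; exact (f3 m hm).2) (by positivity) f4 hAxP (by
      have := one_le_Ht ps
      positivity) hPV hZp M0 hM00 i hi ?_
  swap
  · intro δ' hδ' i' hi' e he y hy A hA hyX
    have hXc : (0 : ℝ) ≤ X ^ c := by positivity
    obtain ⟨hδD, hδp, hδs⟩ := (mem_S hXc).1 hδ'
    obtain ⟨heE, hep, hes⟩ := (mem_S hXc).1 he
    have hiI : i' < I := by
      unfold LBx48.neb at hi'
      exact Finset.mem_range.1 (Finset.mem_filter.1 hi').1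
    obtain ⟨hV1, hVN, hlV⟩ := lvl hN₁ hNL hI hiI
    have hXcP : X ^ c ≤ P := hle (by linarith)
    have hX2P : X' * Real.exp (η / 2) ≤ P := by
      rw [← Real.log_le_log_iff (by positivity) hP0, hlP]; linarith
    have hN₁P : N₁ ≤ P := by
      have h1 : (1 : ℝ) ≤ (X ^ c * X ^ c) ^ 3 := one_le_pow₀ (one_le_mul_of_one_le_of_one_le
        (Real.one_le_rpow hX1 hc.le) (Real.one_le_rpow hX1 hc.le))
      have h2 : N₁ ≤ N₁ * (X ^ c * X ^ c) ^ 3 := le_mul_of_one_le_right (by linarith) h1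
      linarith
    have hSz : ∀ c' ∈ C4, Sz P (X' * Real.exp (η / 2)) (N₁ / 2 ^ i') (sc (X ^ K) M i)
        (Real.exp (7 * (c * Real.log X))) δ' e A c' y := fun c' hc' =>
      { P1 := hP1, H1 := Real.one_le_exp (by positivity), HP := hhP, XP := hX2P,
        VP := hVN.trans hN₁P, V1 := hV1, K0 := hκ0, KiP := (hkP i hi).2, KP := (hkP i hi).1,
        δp := hδp, δs := hδs, δP := hδD.trans hXcP, ep := hep, eP := heE.trans hXcP, hy := hy,
        hA := hA, yX := hyX, hc := hc' }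
    have hlogS : ∀ {m : Eis}, IsPrim m → (nm m : ℝ) ≤ X ^ c →
        Real.log (nm m) ≤ c * Real.log X := by
      intro m hm hmc
      have hm0 : (0 : ℝ) < nm m := by exact_mod_cast nm_pos.2 hm.ne_zero
      rw [← Real.log_rpow hX0]
      exact Real.log_le_log hm0 hmc
    have hlB : Real.log (X ^ B₁) = 10 * (K * Real.log X) + c₀ * Real.log X + Real.log X := by
      rw [Real.log_rpow hX0, hB₁]; ring
    have hc0L : 0 ≤ c₀ * Real.log X := by positivity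
    have hδN : ∀ r ≤ Nl, (X ^ δ) ^ r ≤ X ^ B₁ := by
      intro r hr
      rw [← Real.rpow_natCast, ← Real.rpow_mul hX0.le]
      refine hle ?_
      have h1 : (r : ℝ) ≤ Nl := by exact_mod_cast hr
      have h2 : δ * r ≤ δ * (100 * (Nl + 1)) := mul_le_mul_of_nonneg_left (by
        have : (0 : ℝ) ≤ Nl := Nat.cast_nonneg _
        linarith) hδ
      linarith
    refine HC Jn (by linarith) Cw η hCw hη hη1 φ (wk_mono hCw hη (by omega) hφ) a ha t PP hP ps hlen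
      hz (X ^ δ) (X ^ δ) (d₀ * Real.log X) hXδ (by positivity) hLg q hq e₀ (εr / 2) P
      (X' * Real.exp (η / 2)) (N₁ / 2 ^ i') (sc (X ^ K) M i) (Real.exp (7 * (c * Real.log X)))
      (X ^ B₁) δ' e A y (K * Real.log X) Lv (c * Real.log X) Bd (by positivity) hSz hLv
      (by linarith) (by linarith) (by linarith) hcL.le (by linarith) (by linarith) (by linarith)
      (by linarith [hlX2'.2]) (by linarith) (by linarith [hlκ2.2]) (by linarith [hlκ2.1]) ?_ (by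
        rw [Real.log_exp]; linarith) (hlogS hδp hδD) (hlogS hep heE) (by
        rw [hlB]; linarith) (by positivity) hδN
      (hqX.trans (hle (by linarith))) hBd hln hln'
    rw [hlP]
    have h2 : εr / 2 / 2 * (3 * K * Real.log X) = 3 / 4 * (εr * K) * Real.log X := by ring
    rw [h2]
    have h3 : 3 / 4 * (εr * K) ≤ c := by linarith
    exact mul_le_mul_of_nonneg_right h3 hl.le
  have hYn := num_Y (X := X) (K := K) (c := c) (n := n) (ε := ε) (ε₂ := ε₂) (Ca := Ca) (R₁ := R₁)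
    hX hε hc hK hCa hR₁ hn0 hn1 hε₂0.le hε₂1 hε₂K.le
  rw [← hY, ← hcY] at hYn
  have hI4 := I_le hεr0 hP1 (by
    have h1 : (1 : ℝ) ≤ (X ^ c * X ^ c) ^ 3 := one_le_pow₀ (one_le_mul_of_one_le_of_one_le
      (Real.one_le_rpow hX1 hc.le) (Real.one_le_rpow hX1 hc.le))
    have h2 : N₁ ≤ N₁ * (X ^ c * X ^ c) ^ 3 := le_mul_of_one_le_right (by linarith) h1
    linarith : N₁ ≤ P) hI
  have hPP : P ^ (3 * εr) * P ^ εr ≤ X ^ (ε / 2) := by
    rw [← Real.rpow_add hP0, hPd, ← Real.rpow_mul hX0.le]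
    refine hle ?_
    have h0 : 3 * K * (3 * εr + εr) = 12 * (εr * K) := by ring
    have h1 : εr * (200 * (K + 1)) = 200 * (εr * K) + 200 * εr := by ring
    rw [h0]
    linarith
  have hεri : 0 < εr⁻¹ := inv_pos.2 hεr0
  have hX2p : 0 < X' * Real.exp (η / 2) := by positivity
  have hRP0 : 0 ≤ RPn (d₀ * Real.log X) (sc (X ^ K) M i) N₁ (X' * Real.exp (η / 2))
      (nm (kw a)) (Real.exp (7 * (c * Real.log X))) 1 (X ^ c) :=
    PrE176.RPn_nonneg hκ0.le (by linarith) hX2p.le (Nat.cast_nonneg _) (Real.exp_pos _).le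
      zero_le_one (by positivity)
  have hML0 : 0 ≤ MTL537.ML (9 * (N₁ * (X ^ c * X ^ c) ^ 3)) (Real.exp n / 2 ^ k) :=
    MTL537.ML_nonneg (by positivity) (by positivity)
  exact key_fin hC1 hεri.le (by positivity) (by positivity) hI4 (by positivity) hPP
    (by positivity) (by positivity) (by positivity) hYn (by positivity)
    (mul_nonneg (sq_nonneg _) hRP0) key

end Crest.Agent.R017.RCX385
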