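import Crest.Agent.R017.RCXg_385

/-!
# Row 17, T.7 [E2-e], the number (Rc) of the exceptional class (helper385): the differences `xs`

* `reb_xs` : `REb` of the windowed difference in the form of the leaf
* `rc_core` : `BeAll (NRc N M F)` from the pair lines of both lists
-/

set_option autoImplicit false
set_option linter.unusedVariables false
set_option maxHeartbeats 1000000

noncomputable section

open Complex
open scoped ComplexConjugate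

namespace Crest.Agent.R017.RCX385

open Crest.Agent.R012 Crest.Agent.R012.Eis
open Crest.Agent.R012.T411 (NCube)
open Crest.Agent.R012.LS2 (S mem_S)
open Crest.Agent.R017.MoL106 (kw kw_ne)
open Crest.Agent.R017.E2440
open Crest.Agent.R017.B770
open Crest.Agent.R017.Prov71
open Crest.Agent.R017.FE47 (cx PU)
open Crest.Agent.R017.HP842 (pc sqc)
open Crest.Agent.R017.Leg381 (alf alF Pf LF LF_get)
open Crest.Agent.R017.Win813 (WK iA iA_nonneg)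
open Crest.Agent.R017.RGw813 (T9)
open Crest.Agent.R017.QsJ401 (PLnF)
open Crest.Agent.R017.NPy739 (opL opL_nonneg)
open Crest.Agent.R017.RQd385 (PM2Q)
open Crest.Agent.R017.X6C180 (GF)
open Crest.Agent.R017.WDec180 (WD sc)
open Crest.Agent.R017.LBx48 (REb neb)
open Crest.Agent.R017.QsO83 (bw FS_bw)
open Crest.Agent.R017.Sup271 (NPm)
open Crest.Agent.R017.RG64
open Crest.Agent.R017.RX298 (xs rp Mk Lg2)
open Crest.Agent.R017.PrE176 (RPn)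
open Crest.Agent.R017.RLD381 (BeAll NRc)

lemma two_sq {y : ℝ} (h : 2 ≤ y) : 1 + y ≤ y * y := by nlinarith

/-- the four terms together -/
lemma sum4 {x2 C1 xe a b c d ca cb cr Q Xe cc : ℝ} (h0 : 0 ≤ C1 * xe) (ha : x2 * a ≤ ca * (xe * Q))
    (hb : x2 * b ≤ cb * (xe * Q)) (hc : x2 * c ≤ cr * (xe * Q)) (hd : x2 * d ≤ 1 * (xe * Q))
    (hX : xe * xe = Xe) (hcc : cc = ca + cb + cr + 1) :
    x2 * (C1 * xe * (a + b + c + d)) ≤ C1 * cc * (Xe * Q) := by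
  have h1 : x2 * (a + b + c + d) ≤ cc * (xe * Q) := by
    rw [hcc]
    nlinarith
  calc x2 * (C1 * xe * (a + b + c + d)) = C1 * xe * (x2 * (a + b + c + d)) := by ring
    _ ≤ C1 * xe * (cc * (xe * Q)) := mul_le_mul_of_nonneg_left h1 h0
    _ = C1 * cc * ((xe * xe) * Q) := by ring
    _ = _ := by rw [hX]

set_option maxHeartbeats 1000000 in
open Classical in
/-- **`REb` of the windowed difference**, one piece, all sizes powers of `X` -/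
theorem reb_xs {h : ℝ → ℝ} {c₁ : ℝ} (hpu : PU h c₁) {w : ℝ → ℝ} {N : ℕ} {M : ℝ} {F : ℕ → ℝ → ℂ}
    (hWD : WD w N M F) {PP : DPar} (hP : PP.OK)
    (hnp : ∀ k : Eis, k ≠ 0 → (∃ c, k = c ^ 3) → ¬ NPm PP.n PP.ψ PP.l₂ k) (Nl : ℕ)
    {K c d₀ c₀ μ ε : ℝ} (hc : 0 < c) (hK : 2000 * c ≤ K) (hd₀ : 0 ≤ d₀) (hc₀ : 1 ≤ c₀)
    (hμ : 0 ≤ μ) (hε : 0 < ε) (hεc : ε ≤ c) (Jn Aw : ℕ) (hJn : 2 * (Nl * μ) + 12 ≤ Jn)
    (hAw : Jn + 2 ≤ Aw) {Cw R η : ℝ} (hCw : 0 ≤ Cw) (hR : 0 ≤ R) (hη : 0 < η) (hη1 : η ≤ 1 / 2) :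
    ∃ Cr e₀ C G : ℝ, 1 ≤ Cr ∧ 10 ≤ e₀ ∧ 0 ≤ C ∧ 1 ≤ G ∧ ∀ X : ℝ, 3 ≤ X → G ≤ X ^ c →
      ∀ δ : ℝ, 0 ≤ δ → δ * (100 * (Nl + 1)) ≤ ε → ∀ (ps : List Pf) (q : Eis) (Lv N₁ : ℝ),
      ps.length ≤ Nl → (∀ x ∈ ps, 0 ≤ x.1.z) → Mk (X ^ c₀) ps → Lg2 (d₀ * Real.log X) ps →
      LF ps ≤ (K + 2 * c) * Real.log X → 6 * LF ps ≤ (5 * K + 7 * c) * Real.log X → 0 ≤ Lv →
      3 * Lv + 200 * c * Real.log X ≤ 2 * K * Real.log X → Real.exp Lv ≤ N₁ →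
      9 * N₁ ≤ Real.exp (Lv + 4) → IsPrim q → (nm q : ℝ) ≤ X ^ c₀ → ∀ Bd : ℝ, 0 ≤ Bd →
      PLnF (PM2Q NCube PP h) μ Cr (fun i => (ps.get i).1) (LF ps) (K * Real.log X) Lv
        (17 * (c * Real.log X) + 10 * e₀) (2 * e₀) Bd →
      PLnF (PM2Q NCube PP h) μ Cr (fun i => ((rp (d₀ * Real.log X) ps).get i).1) (LF ps)
        (K * Real.log X) Lv (17 * (c * Real.log X) + 10 * e₀) (2 * e₀) Bd →
      ∀ a ∈ T9, ∀ (t X' : ℝ) (φ : ℝ → ℝ), 0 < X' → |Real.log X' - LF ps| ≤ R + 1 →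
      WK Cw η Aw φ → (∀ u, φ u ≠ 0 → |u - Real.log X'| ≤ η / 2) → ∀ I : ℕ,
      (2 : ℝ) ^ I ≤ 2 * N₁ → ∀ i < N,
      X ^ (2 * c) * REb (bw φ a t (xs q (X ^ δ) (X ^ δ) PP h (d₀ * Real.log X) ps))
        (sc (X ^ K) M i) (GF (Fh (F i) (7 * (c * Real.log X)))) (S (X ^ c)) I (X ^ c) N₁ N₁ ≤
      C * (X ^ ε * ((1 + |t|) ^ Jn * Ht ps ^ 6 * (X ^ K * Real.exp (LF ps)) *
        (X ^ (max 0 (20 * c + (Lv / Real.log X + LF ps / Real.log X - K) / 3 - d₀)) +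
          X ^ (9 * c) * Bd))) := by
  obtain ⟨Cr, e₀, C1, Cp, cY, B₁, ε₁, G, hCr, he₀, hC1, hcY, hε₁B, hGe₀, HK⟩ :=
    reb_key hpu hWD hP hnp Nl hc hK hd₀ hc₀ hμ hε hεc Jn Aw hJn hAw hCw hR hη hη1
  have hM := hWD.M0
  have hNw : (0 : ℝ) ≤ N := Nat.cast_nonneg _
  obtain ⟨cA, hcA⟩ : ∃ z : ℝ, z = Cw ^ 2 * iA Jn * (η * (η ^ Jn)⁻¹) := ⟨_, rfl⟩
  have hiJ := iA_nonneg Jn
  have hcA0 : 0 ≤ cA := by rw [hcA]; positivity
  obtain ⟨cR, hcR⟩ : ∃ z : ℝ, z = 12 * Real.exp (2 * (M + N + (R + 2) + 13)) := ⟨_, rfl⟩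
  have hcR0 : 0 ≤ cR := by rw [hcR]; positivity
  obtain ⟨s₀, hs₀⟩ : ∃ z : ℝ, z = M + N + 1 := ⟨_, rfl⟩
  obtain ⟨cc, hcc⟩ : ∃ z : ℝ, z = 4 * Cr * cA * 100 ^ (2 * Nl) * Real.exp (5 * e₀) +
    Cw ^ 2 * (η⁻¹) ^ Jn * cY * (3 * Real.exp (11 * s₀ + 24)) +
    (Cw * (η⁻¹) ^ 6) ^ 2 * Cp ^ 2 * cR + 1 := ⟨_, rfl⟩
  have hcc0 : 0 ≤ cc := by rw [hcc]; positivity
  rw [← hcA] at HK
  refine ⟨Cr, e₀, C1 * cc, G, hCr, by linarith, by positivity,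
    (Real.one_le_exp (by linarith)).trans hGe₀, ?_⟩
  intro X hX hGX δ hδ hδε ps q Lv N₁ hlen hz hMk hLg hn1 hn2 hLv hv3 hN hNL hq hqX Bd hBd hln hln'
    a ha t X' φ hX' hXn hφ hφw I hI i hi
  have key := HK X hX hGX δ hδ hδε ps q Lv N₁ hlen hz hMk hLg hn1 hn2 hLv hv3 hN hNL hq hqX Bd hBd
    hln hln' a ha t X' φ hX' hXn hφ hφw I hI i hi
  clear HK
  have hX0 : 0 < X := by linarith
  have hX1 : 1 ≤ X := by linarith
  have hl : 0 < Real.log X := Real.log_pos (by linarith)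
  have hXr : ∀ u : ℝ, X ^ u = Real.exp (u * Real.log X) := fun u => by
    rw [Real.rpow_def_of_pos hX0]; congr 1; ring
  have hle : ∀ {u v : ℝ}, u ≤ v → X ^ u ≤ X ^ v := fun huv =>
    Real.rpow_le_rpow_of_exponent_le hX1 huv
  have hadd : ∀ u v : ℝ, X ^ u * X ^ v = X ^ (u + v) := fun u v => (Real.rpow_add hX0 u v).symm
  have hGe : Real.exp (20 * e₀) ≤ X ^ c := hGe₀.trans hGX
  have hLe : 20 * e₀ ≤ c * Real.log X := by
    rw [hXr] at hGe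
    exact Real.exp_le_exp.1 hGe
  have hcL : 0 < c * Real.log X := by positivity
  have hKL : 2000 * (c * Real.log X) ≤ K * Real.log X := by
    have := mul_le_mul_of_nonneg_right hK hl.le
    linarith
  have hn0 : 0 ≤ LF ps := LF_nonneg hz
  have hlκ := log_sc (K := K) hM hX hi
  have hκ0 : 0 < sc (X ^ K) M i := WDec180.sc_pos (by positivity) M i
  have hlX2 := log_X2 hX' hη hη1 hXn
  have hN₁ : 1 ≤ N₁ := by linarith [Real.one_le_exp hLv]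
  have hHt := one_le_Ht ps
  obtain ⟨n, hn⟩ : ∃ n : ℝ, n = LF ps := ⟨_, rfl⟩
  rw [← hn] at key hn0 hn1 hn2 hlX2 ⊢
  obtain ⟨κ, hκ⟩ : ∃ κ : ℝ, κ = sc (X ^ K) M i := ⟨_, rfl⟩
  rw [← hκ] at key hκ0 hlκ ⊢
  obtain ⟨k, hk⟩ : ∃ k : ℕ, k = kfl (2 * (K * Real.log X) - Lv - n) := ⟨_, rfl⟩
  rw [← hk] at key
  obtain ⟨W, hW⟩ : ∃ W : ℝ, W = X ^ (max 0 (20 * c + (Lv / Real.log X + n / Real.log X - K) / 3 -
    d₀)) := ⟨_, rfl⟩
  have hW1 : 1 ≤ W := by rw [hW]; exact Real.one_le_rpow hX1 (le_max_left _ _)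
  have ht1 : 1 ≤ 1 + |t| := by linarith [abs_nonneg t]
  have hJn12 : 12 ≤ Jn := by
    have h0 : (0 : ℝ) ≤ Nl * μ := by positivity
    have h1 : (12 : ℝ) ≤ Jn := by linarith
    exact_mod_cast h1
  obtain ⟨T, hT⟩ : ∃ T : ℝ, T = (1 + |t|) ^ Jn := ⟨_, rfl⟩
  have hT1 : 1 ≤ T := by rw [hT]; exact one_le_pow₀ ht1
  have hT6 : ((1 + |t|) ^ 6) ^ 2 ≤ T := by
    rw [hT, ← pow_mul]
    exact pow_le_pow_right₀ ht1 (by omega)
  have hHq : 1 ≤ Ht ps ^ 6 := one_le_pow₀ hHt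
  have hqA := num_A (X := X) (c := c) (K := K) (ε := ε) (δ := δ) (e₀ := e₀) (Cr := Cr) (cA := cA)
    (T := T) (n := n) (Bd := Bd) (Hq := Ht ps ^ 6) (W := W) (B₁ := B₁) (ε₁ := ε₁)
    (r := ps.length) (Nl := Nl) hX hε hδ hδε hlen hc (by linarith) hcA0 (by linarith) hBd hHq
    (by linarith) hε₁B
  have hκ1 : 1 ≤ κ := by
    rw [← Real.exp_log hκ0]
    exact Real.one_le_exp (by linarith [(abs_le.1 hlκ).1])
  have hpol := pol3 (K := K) (c := c) (X := X) (n := n) (Lv := Lv) (N₁ := N₁)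
    (κ := κ) (s := s₀) (k := k) hX hc hK (by linarith) hκ1 (hlκ.trans (by linarith))
    hN₁ hN hNL hv3 hn2 (by
      have := le_kfl (2 * (K * Real.log X) - Lv - n)
      rw [← hk] at this
      linarith)
  have hqB := num_B (X := X) (c := c) (K := K) (ε := ε) (T := T) (n := n) (Bd := Bd)
    (Hq := Ht ps ^ 6) (W := W) (A2 := cY * X ^ (ε / 20)) (cB := Cw ^ 2 * (η⁻¹) ^ Jn)
    (cP := 3 * Real.exp (11 * s₀ + 24)) (cY := cY)
    (pw := κ ^ (2 / 3 : ℝ) * Real.exp n ^ (2 / 3 : ℝ) / 2 ^ k *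
      MTL537.ML (9 * (N₁ * (X ^ c * X ^ c) ^ 3)) (Real.exp n / 2 ^ k)) hX hε (by linarith) hBd hHq
    hW1 (by positivity) (by positivity) hcY le_rfl (by positivity) hpol
  have h2X : 2 ≤ X ^ c := by
    have h1 : (2 : ℝ) ≤ Real.exp (20 * e₀) := by
      have := Real.add_one_le_exp (20 * e₀)
      linarith
    linarith
  have hX2p : 0 < X' * Real.exp (η / 2) := by positivity
  have hkw1 : (1 : ℝ) ≤ nm (kw a) := one_le_nm (kw_ne a)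
  have hprn := prn3 (Nw := N) (M := M) (R := R + 2) (K := K) (c := c) (d₀ := d₀) (y := 20)
    (X := X) (n := n) (Lv := Lv) (N₁ := N₁) (X' := X' * Real.exp (η / 2)) (nM := nm (kw a))
    (H := Real.exp (7 * (c * Real.log X))) (T := 1) (E0 := X ^ c) (Θ := X ^ (2 * c)) hM
    (by linarith) hc.le (by linarith) hd₀ hX hX2p hlX2 hN₁ hNL hv3 hn2 hi hkw1
    (Real.one_le_exp (by positivity)) zero_le_one (by positivity) (by positivity)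
    (hle (by linarith)) (by
      have e1 : Real.exp (7 * (c * Real.log X)) = X ^ (7 * c) := by
        rw [hXr]; congr 1; ring
      rw [e1, mul_one]
      have h1 : 1 + X ^ c ≤ X ^ c * X ^ c := two_sq h2X
      calc X ^ (2 * c) * ((1 + X ^ c) * X ^ (7 * c))
          ≤ X ^ (2 * c) * ((X ^ c * X ^ c) * X ^ (7 * c)) := by gcongr
        _ = X ^ (2 * c + (c + c + 7 * c)) := by rw [hadd, hadd, hadd]
        _ ≤ X ^ (K / 18) := hle (by linarith))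
  rw [← hW, ← hκ] at hprn
  obtain ⟨RP, hRP⟩ : ∃ z : ℝ, z = RPn (d₀ * Real.log X) κ N₁ (X' * Real.exp (η / 2))
      (nm (kw a)) (Real.exp (7 * (c * Real.log X))) 1 (X ^ c) := ⟨_, rfl⟩
  rw [← hRP] at hprn key
  have hprn' : X ^ (2 * c) * RP ≤ cR * (X ^ K / Real.exp n) * W := by
    refine hprn.trans ?_
    have h1 : (nm (kw a) : ℝ) ^ ((1 : ℝ) / 3) ≤ 3 := by
      calc (nm (kw a) : ℝ) ^ ((1 : ℝ) / 3) ≤ 9 ^ ((1 : ℝ) / 3) :=
            Real.rpow_le_rpow (by linarith) (nm_kw9 ha) (by norm_num)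
        _ ≤ 9 ^ ((1 : ℝ) / 2) := Real.rpow_le_rpow_of_exponent_le (by norm_num) (by norm_num)
        _ = 3 := by
            rw [show (9 : ℝ) = 3 ^ (2 : ℝ) by norm_num, ← Real.rpow_mul (by norm_num)]
            norm_num
    have h2 : 4 * (nm (kw a) : ℝ) ^ ((1 : ℝ) / 3) ≤ 12 := by linarith
    rw [hcR]
    gcongr
  have hRP0 : 0 ≤ RP := by
    rw [hRP]
    exact PrE176.RPn_nonneg hκ0.le (by linarith) hX2p.le (by linarith) (Real.exp_pos _).le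
      zero_le_one (by positivity)
  have hqC := num_C (X := X) (c := c) (K := K) (ε := ε) (δ := δ) (ε₃ := ε / 100) (T := T) (n := n)
    (Bd := Bd) (Ht := Ht ps) (W := W) (cw := Cw) (η6 := (η⁻¹) ^ 6) (t6 := (1 + |t|) ^ 6)
    (Cp := Cp) (cR := cR) (Nl := Nl) hX hε hδ hδε le_rfl hT6 hBd (by linarith) hW1 hRP0
    hcR0 hprn'
  have hqD := num_D (X := X) (c := c) (K := K) (ε := ε) (T := T) (n := n) (Bd := Bd)
    (Hq := Ht ps ^ 6) (W := W) hX hε hc hK hn0 hT1 hBd hHq hW1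
  rw [← hT] at key ⊢
  rw [← hW]
  obtain ⟨Q, hQ⟩ : ∃ Q : ℝ, Q = T * Ht ps ^ 6 * (X ^ K * Real.exp n) *
    (W + X ^ (9 * c) * Bd) := ⟨_, rfl⟩
  rw [← hQ] at hqA hqB hqC hqD ⊢
  have hX2 : 0 ≤ X ^ (2 * c) := by positivity
  have hXX : X ^ (ε / 2) * X ^ (ε / 2) = X ^ ε := by rw [hadd]; congr 1; ring
  refine (mul_le_mul_of_nonneg_left key hX2).trans ?_
  exact sum4 (by positivity) hqA hqB hqC hqD hXX hcc

end Crest.Agent.R017.RCX385
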