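import Crest.Agent.R017.RCXf_385
import Crest.Agent.R017.RLd_381

/-!
# Row 17, T.7 [E2-e], the number (Rc) of the exceptional class (helper385): the four numbers

* `num_A`, `num_B`, `num_C`, `num_D` : cells, polar part, principal part, small part
-/

set_option autoImplicit false
set_option linter.unusedVariables false
set_option maxHeartbeats 1000000

noncomputable section

namespace Crest.Agent.R017.RCX385

open Crest.Agent.R017.NPy739 (opL opL_nonneg)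

lemma opL_le {X δ ε : ℝ} {r Nl : ℕ} (hX : 1 ≤ X) (hδ : 0 ≤ δ)
    (hδε : δ * (100 * (Nl + 1)) ≤ ε) (hr : r ≤ Nl) :
    opL r (X ^ δ) ≤ 100 ^ (2 * Nl) * X ^ (3 * ε / 100) := by
  have hX0 : 0 < X := by linarith
  have hr' : (r : ℝ) ≤ Nl := by exact_mod_cast hr
  have hr0 : (0 : ℝ) ≤ r := Nat.cast_nonneg _
  have e1 : opL r (X ^ δ) = 100 ^ (2 * r) * X ^ (3 * (δ * r)) := by
    unfold NPy739.opL
    have h1 : (X ^ δ) ^ r = X ^ (δ * r) := by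
      rw [← Real.rpow_natCast (X ^ δ) r, ← Real.rpow_mul hX0.le]
    rw [mul_pow, h1, mul_pow, ← pow_mul, mul_comm r 2]
    have h2 : X ^ (3 * (δ * r)) = X ^ (δ * r) * (X ^ (δ * r)) ^ 2 := by
      rw [← Real.rpow_natCast (X ^ (δ * r)) 2, ← Real.rpow_mul hX0.le, ← Real.rpow_add hX0]
      congr 1
      push_cast
      ring
    rw [h2]
    ring
  rw [e1]
  have h3 : 3 * (δ * r) ≤ 3 * ε / 100 := by
    have h4 : δ * r ≤ δ * (Nl + 1) := mul_le_mul_of_nonneg_left (by linarith) hδ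
    linarith
  have h5 : (100 : ℝ) ^ (2 * r) ≤ 100 ^ (2 * Nl) := pow_le_pow_right₀ (by norm_num) (by omega)
  have h6 : X ^ (3 * (δ * r)) ≤ X ^ (3 * ε / 100) := Real.rpow_le_rpow_of_exponent_le hX h3
  exact mul_le_mul h5 h6 (by positivity) (by positivity)

/-- the cells -/
lemma num_A {X c K ε δ e₀ Cr cA T n Bd Hq W B₁ ε₁ : ℝ} {r Nl : ℕ} (hX : 3 ≤ X) (hε : 0 < ε)
    (hδ : 0 ≤ δ) (hδε : δ * (100 * (Nl + 1)) ≤ ε) (hr : r ≤ Nl) (hc : 0 < c) (hCr : 0 ≤ Cr)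
    (hcA : 0 ≤ cA) (hT : 0 ≤ T) (hBd : 0 ≤ Bd) (hHq : 1 ≤ Hq) (hW : 0 ≤ W)
    (hB : B₁ * (2 * ε₁) ≤ ε / 20) :
    X ^ (2 * c) * (X ^ c * (4 * Cr * cA * (X ^ B₁) ^ (2 * ε₁) * T * opL r (X ^ δ) *
      (Bd * Real.exp (2 * e₀) * Real.exp (n + K * Real.log X + 5 * (c * Real.log X) + 3 * e₀)))) ≤
      (4 * Cr * cA * 100 ^ (2 * Nl) * Real.exp (5 * e₀)) *
        (X ^ (ε / 2) * (T * Hq * (X ^ K * Real.exp n) * (W + X ^ (9 * c) * Bd))) := by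
  have hX0 : 0 < X := by linarith
  have hX1 : 1 ≤ X := by linarith
  have h1 : (X ^ B₁) ^ (2 * ε₁) ≤ X ^ (ε / 20) := by
    rw [← Real.rpow_mul hX0.le]
    exact Real.rpow_le_rpow_of_exponent_le hX1 hB
  have h2 := opL_le hX1 hδ hδε hr
  have hop := opL_nonneg r (show (0 : ℝ) ≤ X ^ δ by positivity)
  have e1 : Real.exp (n + K * Real.log X + 5 * (c * Real.log X) + 3 * e₀) =
      X ^ (5 * c) * Real.exp (3 * e₀) * (X ^ K * Real.exp n) := by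
    rw [Real.rpow_def_of_pos hX0, Real.rpow_def_of_pos hX0, ← Real.exp_add, ← Real.exp_add,
      ← Real.exp_add]
    congr 1
    ring
  have e2 : X ^ (2 * c) * (X ^ c * X ^ (5 * c)) = X ^ (8 * c) := by
    rw [← Real.rpow_add hX0, ← Real.rpow_add hX0]; congr 1; ring
  have e3 : Real.exp (2 * e₀) * Real.exp (3 * e₀) = Real.exp (5 * e₀) := by
    rw [← Real.exp_add]; congr 1; ring
  have h3 : X ^ (8 * c) ≤ X ^ (9 * c) := Real.rpow_le_rpow_of_exponent_le hX1 (by linarith)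
  have h4 : X ^ (ε / 20) * X ^ (3 * ε / 100) ≤ X ^ (ε / 2) := by
    rw [← Real.rpow_add hX0]
    exact Real.rpow_le_rpow_of_exponent_le hX1 (by linarith)
  have hKX : 0 ≤ X ^ K * Real.exp n := by positivity
  rw [e1]
  calc X ^ (2 * c) * (X ^ c * (4 * Cr * cA * (X ^ B₁) ^ (2 * ε₁) * T * opL r (X ^ δ) *
        (Bd * Real.exp (2 * e₀) * (X ^ (5 * c) * Real.exp (3 * e₀) * (X ^ K * Real.exp n)))))
      = 4 * Cr * cA * ((X ^ B₁) ^ (2 * ε₁) * opL r (X ^ δ)) *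
        (Real.exp (2 * e₀) * Real.exp (3 * e₀)) * T * (X ^ K * Real.exp n) *
          ((X ^ (2 * c) * (X ^ c * X ^ (5 * c))) * Bd) := by ring
    _ ≤ 4 * Cr * cA * (X ^ (ε / 20) * (100 ^ (2 * Nl) * X ^ (3 * ε / 100))) *
        (Real.exp (2 * e₀) * Real.exp (3 * e₀)) * T * (X ^ K * Real.exp n) *
          (X ^ (9 * c) * Bd) := by
        rw [e2]
        gcongr
    _ = (4 * Cr * cA * 100 ^ (2 * Nl) * Real.exp (5 * e₀)) * ((X ^ (ε / 20) * X ^ (3 * ε / 100)) *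
        (T * 1 * (X ^ K * Real.exp n) * (X ^ (9 * c) * Bd))) := by rw [e3]; ring
    _ ≤ (4 * Cr * cA * 100 ^ (2 * Nl) * Real.exp (5 * e₀)) * (X ^ (ε / 2) *
        (T * Hq * (X ^ K * Real.exp n) * (W + X ^ (9 * c) * Bd))) := by
        have h5 : X ^ (9 * c) * Bd ≤ W + X ^ (9 * c) * Bd := by linarith
        gcongr

/-- the size of the sequence -/
lemma num_Y {X K c n ε ε₂ Ca R₁ : ℝ} (hX : 3 ≤ X) (hε : 0 < ε) (hc : 0 < c) (hcK : 2000 * c ≤ K)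
    (hCa : 1 ≤ Ca) (hR : 0 ≤ R₁) (hn0 : 0 ≤ n) (hn : n ≤ (K + 2 * c) * Real.log X)
    (h0 : 0 ≤ ε₂) (h1 : ε₂ ≤ 1) (h2 : ε₂ * (100 * (K + 1)) ≤ ε) :
    (Ca * (Ca * (Real.exp R₁ * Real.exp n)) ^ ε₂) ^ 2 ≤
      (Ca * (Ca * Real.exp R₁)) ^ 2 * X ^ (ε / 20) := by
  have hX0 : 0 < X := by linarith
  have hX1 : 1 ≤ X := by linarith
  have hl : 0 < Real.log X := Real.log_pos (by linarith)
  have hCR : 1 ≤ Ca * Real.exp R₁ :=
    one_le_mul_of_one_le_of_one_le hCa (Real.one_le_exp hR)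
  have e1 : (Ca * (Real.exp R₁ * Real.exp n)) ^ ε₂ = (Ca * Real.exp R₁) ^ ε₂ *
      Real.exp (n * ε₂) := by
    rw [← mul_assoc, Real.mul_rpow (by positivity) (Real.exp_pos _).le, ← Real.exp_mul]
  have h3 : (Ca * Real.exp R₁) ^ ε₂ ≤ Ca * Real.exp R₁ := by
    calc (Ca * Real.exp R₁) ^ ε₂ ≤ (Ca * Real.exp R₁) ^ (1 : ℝ) :=
          Real.rpow_le_rpow_of_exponent_le hCR h1
      _ = _ := Real.rpow_one _
  have h4 : Real.exp (n * ε₂) ^ 2 ≤ X ^ (ε / 20) := by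
    rw [← Real.exp_nat_mul, Real.rpow_def_of_pos hX0]
    refine Real.exp_le_exp.2 ?_
    have h5 : n * ε₂ ≤ (K + 2 * c) * Real.log X * ε₂ := mul_le_mul_of_nonneg_right hn h0
    have h6 : (K + 2 * c) * ε₂ ≤ 2 * K * ε₂ := mul_le_mul_of_nonneg_right (by linarith) h0
    have h7 : 2 * K * ε₂ ≤ ε / 50 := by nlinarith
    have h8 : (K + 2 * c) * Real.log X * ε₂ ≤ ε / 50 * Real.log X := by
      have := mul_le_mul_of_nonneg_right (h6.trans h7) hl.le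
      linarith
    have h9 : 0 ≤ ε * Real.log X := by positivity
    push_cast
    nlinarith
  rw [e1]
  calc (Ca * ((Ca * Real.exp R₁) ^ ε₂ * Real.exp (n * ε₂))) ^ 2
      = (Ca * (Ca * Real.exp R₁) ^ ε₂) ^ 2 * Real.exp (n * ε₂) ^ 2 := by ring
    _ ≤ _ := by
        have : 0 ≤ (Ca * Real.exp R₁) ^ ε₂ := by positivity
        gcongr

/-- the polar part -/
lemma num_B {X c K ε T n Bd Hq W A2 cB cP pw cY : ℝ} (hX : 3 ≤ X) (hε : 0 < ε) (hT : 0 ≤ T)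
    (hBd : 0 ≤ Bd) (hHq : 1 ≤ Hq) (hW : 1 ≤ W) (hcB : 0 ≤ cB) (hcP : 0 ≤ cP) (hcY : 0 ≤ cY)
    (hA : A2 ≤ cY * X ^ (ε / 20)) (hA0 : 0 ≤ A2)
    (hp : X ^ (3 * c) * pw ≤ cP * (X ^ K * Real.exp n)) :
    X ^ (2 * c) * (X ^ c * (cB * T * A2 * pw)) ≤
      (cB * cY * cP) *
        (X ^ (ε / 2) * (T * Hq * (X ^ K * Real.exp n) * (W + X ^ (9 * c) * Bd))) := by
  have hX0 : 0 < X := by linarith
  have hX1 : 1 ≤ X := by linarith
  have e1 : X ^ (2 * c) * X ^ c = X ^ (3 * c) := by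
    rw [← Real.rpow_add hX0]; congr 1; ring
  have h4 : X ^ (ε / 20) ≤ X ^ (ε / 2) := Real.rpow_le_rpow_of_exponent_le hX1 (by linarith)
  have hKX : 0 ≤ X ^ K * Real.exp n := by positivity
  calc X ^ (2 * c) * (X ^ c * (cB * T * A2 * pw))
      = cB * T * A2 * ((X ^ (2 * c) * X ^ c) * pw) := by ring
    _ ≤ cB * T * A2 * (cP * (X ^ K * Real.exp n)) := by
        rw [e1]
        exact mul_le_mul_of_nonneg_left hp (by positivity)
    _ ≤ cB * T * (cY * X ^ (ε / 2)) * (cP * (X ^ K * Real.exp n)) := by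
        have : A2 ≤ cY * X ^ (ε / 2) := hA.trans (mul_le_mul_of_nonneg_left h4 hcY)
        gcongr
    _ = (cB * cY * cP) * (X ^ (ε / 2) * (T * 1 * (X ^ K * Real.exp n) * 1)) := by ring
    _ ≤ _ := by
        have h5 : 1 ≤ W + X ^ (9 * c) * Bd := by
          have : 0 ≤ X ^ (9 * c) * Bd := by positivity
          linarith
        gcongr

/-- the principal part -/
lemma num_C {X c K ε δ ε₃ T n Bd Ht W cw η6 t6 Cp RP cR : ℝ} {Nl : ℕ} (hX : 3 ≤ X) (hε : 0 < ε)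
    (hδ : 0 ≤ δ) (hδε : δ * (100 * (Nl + 1)) ≤ ε) (hε₃ : ε₃ ≤ ε / 100)
    (hT : t6 ^ 2 ≤ T) (hBd : 0 ≤ Bd) (hHt : 0 ≤ Ht) (hW : 1 ≤ W) (hRP : 0 ≤ RP)
    (hcR : 0 ≤ cR) (hp : X ^ (2 * c) * RP ≤ cR * (X ^ K / Real.exp n) * W) :
    X ^ (2 * c) * ((cw * η6 * t6 * (Cp * X ^ ε₃ * (X ^ δ) ^ 2 * Ht ^ 3 * Real.exp n)) ^ 2 * RP) ≤
      ((cw * η6) ^ 2 * Cp ^ 2 * cR) *
        (X ^ (ε / 2) * (T * Ht ^ 6 * (X ^ K * Real.exp n) * (W + X ^ (9 * c) * Bd))) := by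
  have hX0 : 0 < X := by linarith
  have hX1 : 1 ≤ X := by linarith
  have hT0 : 0 ≤ T := (sq_nonneg _).trans hT
  have h1 : (X ^ ε₃ * (X ^ δ) ^ 2) ^ 2 ≤ X ^ (ε / 2) := by
    have e1 : (X ^ ε₃ * (X ^ δ) ^ 2) ^ 2 = X ^ (2 * ε₃ + 4 * δ) := by
      rw [← Real.rpow_natCast (X ^ δ) 2, ← Real.rpow_mul hX0.le, ← Real.rpow_add hX0,
        ← Real.rpow_natCast _ 2, ← Real.rpow_mul hX0.le]
      congr 1
      push_cast
      ring
    rw [e1]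
    refine Real.rpow_le_rpow_of_exponent_le hX1 ?_
    have : 0 ≤ δ * Nl := by positivity
    nlinarith
  have e2 : Real.exp n * Real.exp n * (X ^ K / Real.exp n) = X ^ K * Real.exp n := by
    field_simp
  have h9 : 0 ≤ X ^ (9 * c) * Bd := by positivity
  calc X ^ (2 * c) * ((cw * η6 * t6 * (Cp * X ^ ε₃ * (X ^ δ) ^ 2 * Ht ^ 3 * Real.exp n)) ^ 2 * RP)
      = (cw * η6) ^ 2 * Cp ^ 2 * t6 ^ 2 * (X ^ ε₃ * (X ^ δ) ^ 2) ^ 2 * Ht ^ 6 *
        (Real.exp n * Real.exp n) * (X ^ (2 * c) * RP) := by ring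
    _ ≤ (cw * η6) ^ 2 * Cp ^ 2 * T * X ^ (ε / 2) * Ht ^ 6 *
        (Real.exp n * Real.exp n) * (cR * (X ^ K / Real.exp n) * W) := by gcongr
    _ = ((cw * η6) ^ 2 * Cp ^ 2 * cR) * (X ^ (ε / 2) *
        (T * Ht ^ 6 * (Real.exp n * Real.exp n * (X ^ K / Real.exp n)) * W)) := by ring
    _ ≤ _ := by
        rw [e2]
        have : W ≤ W + X ^ (9 * c) * Bd := by linarith
        gcongr

/-- the small part -/
lemma num_D {X c K ε T n Bd Hq W : ℝ} (hX : 3 ≤ X) (hε : 0 < ε) (hc : 0 < c)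
    (hK : 2000 * c ≤ K) (hn : 0 ≤ n) (hT : 1 ≤ T)
    (hBd : 0 ≤ Bd) (hHq : 1 ≤ Hq) (hW : 1 ≤ W) :
    X ^ (2 * c) * 1 ≤ 1 *
        (X ^ (ε / 2) * (T * Hq * (X ^ K * Real.exp n) * (W + X ^ (9 * c) * Bd))) := by
  have hX0 : 0 < X := by linarith
  have hX1 : 1 ≤ X := by linarith
  have h9 : 0 ≤ X ^ (9 * c) * Bd := by positivity
  have h1 : X ^ (2 * c) ≤ X ^ K := Real.rpow_le_rpow_of_exponent_le hX1 (by linarith)
  have h2 : 1 ≤ Real.exp n := Real.one_le_exp hn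
  have h3 : 1 ≤ X ^ (ε / 2) := Real.one_le_rpow hX1 (by linarith)
  calc X ^ (2 * c) * 1 = 1 * (1 * (1 * 1 * (X ^ (2 * c) * 1) * 1)) := by ring
    _ ≤ _ := by
        have h5 : 1 ≤ W + X ^ (9 * c) * Bd := by linarith
        gcongr

end Crest.Agent.R017.RCX385
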