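import Crest.Agent.R017.MoN7_106
import Crest.Agent.R017.AL_813

/-!
# Row 17, E2, R-side (helper106): `REb` of a flagged list at one scale

* `WK.anti`, `norm_bw_list` : windows, size of the sequence
* `QN` : the statement of `qsN`
* `reb_one` : `REb` at one scale from the pair lines
-/

set_option autoImplicit false
set_option linter.unusedVariables false
set_option maxHeartbeats 1600000

noncomputable section

open Finset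
open scoped ComplexConjugate

namespace Crest.Agent.R017.RC106

open Crest.Agent.R012 Crest.Agent.R012.Eis
open Crest.Agent.R012.LS2 (S mem_S)
open Crest.Agent.R012.Mob705 (pdiv mem_pdiv)
open Crest.Agent.R017.B770
open Crest.Agent.R017.Prov71
open Crest.Agent.R017.CM106 (CS FS)
open Crest.Agent.R017.FE47 (cx PU)
open Crest.Agent.R017.HP842 (pc sqc)
open Crest.Agent.R017.Leg381 (alf alF Pf LF LF_get)
open Crest.Agent.R017.XRG106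
open Crest.Agent.R017.X6C180 (IX dl' Sg GF om')
open Crest.Agent.R017.X6545 (TF Bd)
open Crest.Agent.R017.X6W180 (TF1 tf1_tf)
open Crest.Agent.R017.Win813 (iA iA_nonneg WK)
open Crest.Agent.R017.RGw813 (T9)
open Crest.Agent.R017.MoF106
open Crest.Agent.R017.MoL106
open Crest.Agent.R017.QsO83 (bw FS_bw bw_ne REb_num)
open Crest.Agent.R017.E2440
open Crest.Agent.R017.QsJ401 (Sz)
open Crest.Agent.R017.NPy739 (opL opL_nonneg)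
open Crest.Agent.R017.LBx48 (REb neb)
open Div277 (tau dvs mem_dvs nm_le_of_dvd tau_le_rpow)

lemma WK_anti {C η : ℝ} {A A' : ℕ} {φ : ℝ → ℝ} (h : WK C η A φ) (hC : 0 ≤ C) (hη : 0 < η)
    (hA : A' ≤ A) : WK C η A' φ := by
  obtain ⟨k, h1, h2, h3⟩ := h
  refine ⟨k, h1, fun s => (h2 s).trans ?_, h3⟩
  refine mul_le_mul_of_nonneg_left ?_ hC
  unfold Win813.ew
  have h0 := abs_nonneg s
  have h4 : 0 ≤ η * |s| := by positivity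
  refine mul_le_mul_of_nonneg_left (inv_anti₀ (by positivity) ?_) hη.le
  exact pow_le_pow_right₀ (by linarith) hA

lemma bw_win {φ : ℝ → ℝ} {p : ℕ × ℕ} {t : ℝ} {α : Eis → ℂ} {n : Eis} (h : bw φ p t α n ≠ 0) :
    α n ≠ 0 ∧ φ (Real.log (nm n)) ≠ 0 := by
  unfold QsO83.bw RGw813.bt at h
  exact Win813.wn_ne (RGw813.tw2_ne (left_ne_zero_of_mul h))

lemma norm_bw_le {Cw η : ℝ} {Aw : ℕ} {φ : ℝ → ℝ} (hφ : WK Cw η Aw φ) (hη : 0 < η) (hA : 2 ≤ Aw)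
    {α : Eis → ℂ} (hF : FS α) (p : ℕ × ℕ) (t : ℝ) (n : Eis) :
    ‖bw φ p t α n‖ ≤ (Cw * iA Aw) * ‖α n‖ := by
  unfold QsO83.bw
  rw [norm_mul, RG64.norm_pw, mul_one]
  unfold RGw813.bt
  rw [RGw813.norm_tw2 (Win813.FS_wn hF)]
  unfold Win813.wn
  rw [norm_mul, Complex.norm_real, Real.norm_eq_abs, mul_comm]
  exact mul_le_mul_of_nonneg_right (hφ.le hη hA _) (norm_nonneg _)

/-- **the size of the sequence** -/
theorem norm_bw_list {h : ℝ → ℝ} {c₀ : ℝ} (hpu : PU h c₀) (N : ℕ) {ε : ℝ} (hε : 0 < ε) :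
    ∃ C : ℝ, 1 ≤ C ∧ ∀ (Cφ η : ℝ) (A : ℕ), 0 < η → 2 ≤ A → 0 ≤ Cφ → ∀ φ : ℝ → ℝ, WK Cφ η A φ →
      ∀ (p : ℕ × ℕ) (t₀ : ℝ) (P : DPar), P.OK → ∀ ps : List Pf, ps.length ≤ N →
      ∀ (z D0 : ℝ) (q : Eis) (Y : ℝ), 1 ≤ Y → FS (sqc q (alF z D0 P h ps)) →
      (∀ n, bw φ p t₀ (sqc q (alF z D0 P h ps)) n ≠ 0 → (nm n : ℝ) ≤ Y) →
      ∀ n, ‖bw φ p t₀ (sqc q (alF z D0 P h ps)) n‖ ≤ Cφ * iA A * (C * Y ^ ε) := by
  obtain ⟨A₀, hA1, hA₀⟩ := AL813.cx_bdd hpu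
  have hN0 : (0 : ℝ) ≤ N := Nat.cast_nonneg _
  set e' : ℝ := ε / (2 * N + 1) with he'
  have he0 : 0 < e' := by positivity
  obtain ⟨C, hC, hτ⟩ := tau_le_rpow he0
  have hC0 : 0 ≤ C := by linarith
  refine ⟨A₀ ^ N * C ^ (2 * N), ?_, ?_⟩
  · have h1 : 1 ≤ A₀ ^ N := one_le_pow₀ hA1
    have h2 : 1 ≤ C ^ (2 * N) := one_le_pow₀ hC
    nlinarith [one_le_mul_of_one_le_of_one_le h1 h2]
  intro Cφ η A hη hA hCφ φ hφ p t₀ P hP ps hN z D0 q Y hY hF hsupp n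
  have hY0 : 0 < Y := by linarith
  have hiA := iA_nonneg A
  by_cases h0 : bw φ p t₀ (sqc q (alF z D0 P h ps)) n = 0
  · rw [h0, norm_zero]
    have h1 : 0 ≤ A₀ := by linarith
    positivity
  have hn := (FS_bw hF).prim n h0
  have hnY := hsupp n h0
  have hnp : (0 : ℝ) < nm n := by exact_mod_cast nm_pos.2 hn.ne_zero
  have ht : (1 : ℝ) ≤ tau n := Leg381.one_le_tau hn.ne_zero
  have h1 := norm_bw_le hφ hη hA hF p t₀ n
  refine h1.trans (mul_le_mul_of_nonneg_left ?_ (by positivity))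
  refine ((AL813.norm_sqc_le q _ n).trans (AL813.norm_alF_le hA₀ z D0 hP ps n)).trans ?_
  have h3 : A₀ ^ ps.length ≤ A₀ ^ N := pow_le_pow_right₀ hA1 hN
  have h4 : (tau n : ℝ) ^ (2 * ps.length) ≤ (tau n : ℝ) ^ (2 * N) :=
    pow_le_pow_right₀ ht (by omega)
  have h5 : (tau n : ℝ) ≤ C * Y ^ e' :=
    (hτ n hn.ne_zero).trans (mul_le_mul_of_nonneg_left (Real.rpow_le_rpow hnp.le hnY he0.le) hC0)
  have h6 : (tau n : ℝ) ^ (2 * N) ≤ C ^ (2 * N) * Y ^ ε := by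
    calc (tau n : ℝ) ^ (2 * N) ≤ (C * Y ^ e') ^ (2 * N) :=
          pow_le_pow_left₀ (by linarith) h5 _
      _ = C ^ (2 * N) * (Y ^ e') ^ (2 * N) := by rw [mul_pow]
      _ ≤ C ^ (2 * N) * Y ^ ε := by
          refine mul_le_mul_of_nonneg_left ?_ (by positivity)
          rw [← Real.rpow_natCast (Y ^ e'), ← Real.rpow_mul hY0.le]
          refine Real.rpow_le_rpow_of_exponent_le hY ?_
          rw [he']
          push_cast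
          rw [div_mul_eq_mul_div, div_le_iff₀ (by positivity)]
          nlinarith
  calc A₀ ^ ps.length * (tau n : ℝ) ^ (2 * ps.length) ≤ A₀ ^ N * (tau n : ℝ) ^ (2 * N) := by
        have : 0 ≤ A₀ := by linarith
        gcongr
    _ ≤ A₀ ^ N * (C ^ (2 * N) * Y ^ ε) := by
        have : 0 ≤ A₀ := by linarith
        gcongr
    _ = _ := by ring

open Classical in
/-- the statement of `qsN` -/
def QN (h : ℝ → ℝ) (μ ε ε₁ : ℝ) (a M' A' r k : ℕ) (C : ℝ) : Prop :=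
    ∀ (F : ℝ → ℂ) (Sf : ℝ), TF1 F → Bd F k Sf → ∀ hh : ℝ, 0 ≤ hh →
      ∀ Cφ η : ℝ, 0 ≤ Cφ → 0 < η → η ≤ 1 → ∀ φ : ℝ → ℝ, WK Cφ η A' φ → ∀ p ∈ T9, ∀ (t₀ : ℝ)
      (P : DPar) (_ : P.OK) (ps : List Pf), ps.length = r → (∀ x ∈ ps, 0 ≤ x.1.z) →
      ∀ z D0 : ℝ, 1 ≤ D0 → ∀ q : Eis, IsPrim q → ∀ (e₀ Pz X V Kf B0 X0 Ax : ℝ) (δ e A : Eis)
      (y : Eis × Eis) (K Lv d s Bb : ℝ), FS (sqc q (alF z D0 P h ps)) →
      (∀ n, bw φ p t₀ (sqc q (alF z D0 P h ps)) n ≠ 0 → Squarefree n) →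
      (∀ n, bw φ p t₀ (sqc q (alF z D0 P h ps)) n ≠ 0 → X / 2 < nm n ∧ (nm n : ℝ) ≤ X) →
      (∀ n, ‖bw φ p t₀ (sqc q (alF z D0 P h ps)) n‖ ≤ Ax) → Ax ≤ Pz ^ a →
      (∀ c ∈ C4, Sz Pz X V Kf (Real.exp hh) δ e A c y) →
      Env e₀ ε Pz X V Kf B0 (Real.exp hh) X0 δ e (LF ps) K Lv d → C ≤ e₀ → D0 ^ r ≤ X0 →
      (nm q : ℝ) ≤ X0 → (∀ x ∈ ps, Real.exp x.1.z ≤ X0) → 0 ≤ Bb →
      PLn P h μ C (fun i => (ps.get i).1) (LF ps) K Lv (17 * d + 8 * e₀) (2 * e₀) Bb →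
      0 ≤ s → 6 * LF ps ≤ 5 * K + s → 3 * Lv ≤ 2 * K + s →
      ∑ c ∈ C4, ∑ j₂ ∈ S (Real.sqrt V), Qs (bw φ p t₀ (sqc q (alF z D0 P h ps))) δ e V Kf
        (GF (Fh F hh)) y A c j₂ ≤
      V ^ (-(1 : ℝ) / 3) * Kf ^ ((2 : ℝ) / 3) / nm e * (C * Sf ^ 2 * Pz ^ ε *
        (Cφ ^ 2 * iA A' * (η * (η ^ A')⁻¹) * X0 ^ (2 * ε₁) * (1 + |t₀|) ^ A' * opL r D0 *
          (Bb * Real.exp (LF ps + K + 5 * d + 3 * e₀)) +
         X0 ^ ε₁ * Ax ^ 2 * Real.exp (LF ps + K - K / 36 + 7 * d + 2 * s + 9 * e₀) +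
         (Pz ^ M')⁻¹))

theorem exists_QN {h : ℝ → ℝ} {c₀ : ℝ} (hpu : PU h c₀) {R : ℝ} (hR0 : 0 ≤ R)
    (hR : ∀ u, cx h u ≠ 0 → |u| ≤ R) {μ : ℝ} (hμ : 0 ≤ μ) (N : ℕ) {ε ε₁ : ℝ} (hε : 0 < ε)
    (hε₁ : 0 < ε₁) (a M' A' : ℕ) (hA' : 2 * (N * μ) + 2 ≤ A') :
    ∃ (k : ℕ → ℕ) (C : ℕ → ℝ), ∀ r ≤ N, 1 ≤ C r ∧ QN h μ ε ε₁ a M' A' r (k r) (C r) := by
  have H : ∀ r : ℕ, ∃ (k : ℕ) (C : ℝ), r ≤ N → 1 ≤ C ∧ QN h μ ε ε₁ a M' A' r k C := by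
    intro r
    by_cases hr : r ≤ N
    · have hrN : (r : ℝ) ≤ N := by exact_mod_cast hr
      obtain ⟨k, C, h1, h2⟩ := qsN hpu hR0 hR hμ r hε hε₁ a M' A'
        (le_trans (by nlinarith [mul_le_mul_of_nonneg_right hrN hμ]) hA')
      exact ⟨k, C, fun _ => ⟨h1, h2⟩⟩
    · exact ⟨0, 0, fun h => absurd h hr⟩
  choose k C hkC using H
  exact ⟨k, C, hkC⟩

lemma opL_mono {r N : ℕ} (h : r ≤ N) {D0 : ℝ} (hD : 1 ≤ D0) : opL r D0 ≤ opL N D0 := by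
  unfold NPy739.opL
  have h1 : D0 ^ r ≤ D0 ^ N := pow_le_pow_right₀ hD h
  have h2 : (100 * D0) ^ r ≤ (100 * D0) ^ N := pow_le_pow_right₀ (by linarith) h
  have h3 : 0 ≤ (100 * D0) ^ r := by positivity
  gcongr

lemma Bd_mono {F : ℝ → ℂ} {k k' : ℕ} {Sf : ℝ} (h : Bd F k' Sf) (hk : k ≤ k') : Bd F k Sf :=
  fun i hi => h i (hi.trans hk)

lemma exp_half_lt : Real.exp (1 / 2) < 2 := by
  have h1 := Real.exp_one_lt_d9
  have h2 : Real.exp (1 / 2) * Real.exp (1 / 2) = Real.exp 1 := by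
    rw [← Real.exp_add]; norm_num
  nlinarith [Real.exp_pos (1 / 2)]

/-- the window is dyadic -/
lemma win_dy {η X' u : ℝ} (hη : η ≤ 1 / 2) (hX : 0 < X') {m : ℝ} (hm : 0 < m)
    (h : |Real.log m - Real.log X'| ≤ η / 2) :
    X' * Real.exp (η / 2) / 2 < m ∧ m ≤ X' * Real.exp (η / 2) := by
  obtain ⟨h1, h2⟩ := abs_le.1 h
  have e1 : X' * Real.exp (η / 2) = Real.exp (Real.log X' + η / 2) := by
    rw [Real.exp_add, Real.exp_log hX]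
  have e2 : m = Real.exp (Real.log m) := (Real.exp_log hm).symm
  constructor
  · rw [e1, e2, div_lt_iff₀ (by norm_num)]
    have h3 : Real.exp (Real.log X' + η / 2) ≤ Real.exp (Real.log m) * Real.exp (1 / 2) := by
      rw [← Real.exp_add]
      exact Real.exp_le_exp.2 (by linarith)
    refine lt_of_le_of_lt h3 ?_
    exact mul_lt_mul_of_pos_left exp_half_lt (Real.exp_pos _)
  · rw [e1, e2]
    exact Real.exp_le_exp.2 (by linarith)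

end Crest.Agent.R017.RC106
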