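import Crest.Agent.R017.RClb_83
import Crest.Agent.R017.MoJh_401
import Crest.Agent.R017.NPy_739

/-!
# Row 17, T.7, `l`-terms of the tail in the exceptional class (helper791), part 1

Adapted from helper83's `RClb_83`: the predicate of the cells may depend on `(y, B)`.

* `NCQ`, `JCQ`                 : the natural cells
* `cellN_sumQ`, `cellJ_sumQ`   : the cell functionals of the restricted sequences, summed over `a`
* `MoJCQr`, `MoJQ_bt_alr`      : the joint functional of a restricted twisted window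
-/

set_option autoImplicit false
set_option maxHeartbeats 400000

noncomputable section

open Complex Finset
open scoped ComplexConjugate Classical

namespace Crest.Agent.R017.RClX791

open Crest.Agent.R012 Crest.Agent.R012.Eis Crest.Agent.R012.Gauss880
open Crest.Agent.R012.LS2 (S mem_S)
open Crest.Agent.R012.Div277 (tau dvs mem_dvs tau_le_rpow nm_le_of_dvd)
open Crest.Agent.R012.Weight600 (pw)
open Crest.Agent.R017.CM106 (CS FS sub)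
open Crest.Agent.R017.HP842 (sqc pc)
open Crest.Agent.R017.FE47
open Crest.Agent.R017.B770 Crest.Agent.R017.Prov71
open Crest.Agent.R017.TPOk571 (IP SD SD_w sd_ok)
open Crest.Agent.R017.X6C180 (IX dl')
open Crest.Agent.R017.H1401 (pb mem_pb WJ WM DN GB)
open Crest.Agent.R017.Win813 (iA iA_nonneg WK)
open Crest.Agent.R017.RGw813 (bt)
open Crest.Agent.R017.XRG106
open Crest.Agent.R017.MoF106
open Crest.Agent.R017.MoL106 (FromP Q4 mem_Q4 f4 MoC_list kw)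
open Crest.Agent.R017.MoJ401 (MoJCQ MoJCQ_list PJQ wJc MoJQ MoJQ_bt_le CS_cT_zero)
open Crest.Agent.R017.E2440 (ag cT)
open Crest.Agent.R017.MoCa83
open Crest.Agent.R017.RCl83 (sum_Sd_le MoC_zero sum_comm3)

/-! ### natural cells -/

/-- **a natural cell** (the hypothesis of `MoC_list`), `L` = length of the list -/
def NCQ (P : DPar) (h : ℝ → ℝ) {r : ℕ} (s : Fin r → Pq) (C μ : ℝ) (σ : Eis) (T : Finset Eis)
    (u : ℕ) (X Z : ℝ) (E g₀ : Eis) (Wb : ℕ → ℕ → ℝ)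
    (Pr : Eis → Eis → IX σ → Eis → Eis → Eis → Prop) (L M : ℝ) : Prop :=
  ∀ v < NX X, ∀ w < NX X, 0 < Wb v w → ∀ i : IX σ, ∀ g₃ ∈ bk X w,
    ∀ (s' : Fin r → Pq) (W0 : ℝ), 1 ≤ W0 → (∀ k, Rl C W0 (s' k) (s k)) →
    ∑ k, (s' k).z ≤ L - (Real.log (nm g₀) + ((u : ℝ) / 3 + v / 3 + w / 3)) + C →
    Wb v w * Real.exp ((w : ℝ) / 3) * ∑ x ∈ Q4 T X Z u v (fun y B => Pr y B i) g₃,
      ∏ k, ‖CS (pc h ((s' k).pc P)) (f4 E (dl' σ i) x)‖ ^ 2 ≤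
    M * Real.exp (∑ k, (s' k).z - (L -
      (Real.log (nm g₀) + ((u : ℝ) / 3 + v / 3 + w / 3)))) * W0 ^ (2 * μ)

lemma NCQ.mono {P : DPar} {h : ℝ → ℝ} {r : ℕ} {s : Fin r → Pq} {C C' μ : ℝ} {σ : Eis}
    {T : Finset Eis} {u : ℕ} {X Z : ℝ} {E g₀ : Eis} {Wb : ℕ → ℕ → ℝ}
    {Pr : Eis → Eis → IX σ → Eis → Eis → Eis → Prop} {L M : ℝ}
    (H : NCQ P h s C μ σ T u X Z E g₀ Wb Pr L M) (hC : C' ≤ C) :
    NCQ P h s C' μ σ T u X Z E g₀ Wb Pr L M := by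
  intro v hv w hw hW i g₃ hg₃ s' W0 hW0 hR hle
  exact H v hv w hw hW i g₃ hg₃ s' W0 hW0 (fun k => (hR k).mono hC) (by linarith)

/-- the cell of `g₀ c` from the cell of `g₀` -/
lemma NCQ.step {P : DPar} {h : ℝ → ℝ} {r : ℕ} {s : Fin r → Pq} {C μ : ℝ} {σ : Eis}
    {T : Finset Eis} {u : ℕ} {X Z : ℝ} {E g₀ : Eis} {Wb : ℕ → ℕ → ℝ}
    {Pr : Eis → Eis → IX σ → Eis → Eis → Eis → Prop} {L M : ℝ}
    (H : NCQ P h s C μ σ T u X Z E g₀ Wb Pr L M) (hg₀ : IsPrim g₀) {c : Eis} (hc : IsPrim c) :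
    NCQ P h s C μ σ T u X Z E (g₀ * c) Wb Pr L (M / nm c) := by
  intro v hv w hw hW i g₃ hg₃ s' W0 hW0 hR hle
  have hc1 : (1 : ℝ) ≤ nm c := by exact_mod_cast nm_pos.2 hc.ne_zero
  have hg1 : (1 : ℝ) ≤ nm g₀ := by exact_mod_cast nm_pos.2 hg₀.ne_zero
  have hlc : 0 ≤ Real.log (nm c) := Real.log_nonneg hc1
  have e1 : Real.log (nm (g₀ * c)) = Real.log (nm g₀) + Real.log (nm c) := by
    rw [nm_mul, Nat.cast_mul, Real.log_mul (by positivity) (by positivity)]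
  rw [e1] at hle ⊢
  refine (H v hv w hw hW i g₃ hg₃ s' W0 hW0 hR (by linarith)).trans (le_of_eq ?_)
  congr 1
  have e2 : ∑ k, (s' k).z - (L - (Real.log (nm g₀) + Real.log (nm c) +
      ((u : ℝ) / 3 + v / 3 + w / 3))) = (∑ k, (s' k).z - (L - (Real.log (nm g₀) +
      ((u : ℝ) / 3 + v / 3 + w / 3)))) + Real.log (nm c) := by ring
  rw [e2, Real.exp_add, Real.exp_log (by positivity)]
  have : (nm c : ℝ) ≠ 0 := by positivity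
  field_simp

/-- **a natural joint cell** (the hypothesis of `MoJCQ_list`) -/
def JCQ (P : DPar) (h : ℝ → ℝ) {r : ℕ} (s : Fin r → Pq) (C μ : ℝ) (σ : Eis) (T : Finset Eis)
    (Bs : Eis → Finset Eis) (X Z Rr U : ℝ) (E g₀ δ ν : Eis) (Q : Eis → IX σ → Eis → Eis → Prop)
    (L M : ℝ) : Prop :=
  ∀ n ∈ dvs ν, ∀ g ∈ S U, IsCoprime g δ →
    ∀ u < NX X, ∀ v < NX X, ∀ w < NX X, Real.exp ((u : ℝ) / 3) * nm g ≤ U →
    U ≤ 2 * (Real.exp ((u : ℝ) / 3 + 1 / 3) * nm g) →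
    (nm n : ℝ) ^ 3 * (Real.exp (2 * ((v : ℝ) / 3)) * Real.exp w) ≤ Z / nm g →
    ∀ i : IX σ, ∀ g₃ ∈ bk X w,
    ∀ (s' : Fin r → Pq) (W0 : ℝ), 1 ≤ W0 → (∀ k, Rl C W0 (s' k) (s k)) →
    ∑ k, (s' k).z ≤ L - (Real.log (nm (g₀ * g)) + ((u : ℝ) / 3 + v / 3 + w / 3)) + C →
    (nm n : ℝ) * nm g * wJc Rr (Z / (nm n : ℝ) ^ 3) U (nm g) (Real.exp ((v : ℝ) / 3)) *
      Real.exp ((w : ℝ) / 3) *
      ∑ x ∈ Q4 T X (Z / nm g) u v (fun y B g₂ g₃ d =>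
        g * B ∈ Bs y ∧ PJQ (Q y i) n g Z B g₂ g₃ d) g₃,
      ∏ k, ‖CS (pc h ((s' k).pc P)) (f4 E (dl' σ i) x)‖ ^ 2 ≤
    M * Real.exp (∑ k, (s' k).z - (L -
      (Real.log (nm (g₀ * g)) + ((u : ℝ) / 3 + v / 3 + w / 3)))) * W0 ^ (2 * μ)

lemma JCQ.mono {P : DPar} {h : ℝ → ℝ} {r : ℕ} {s : Fin r → Pq} {C C' μ : ℝ} {σ : Eis}
    {T : Finset Eis} {Bs : Eis → Finset Eis} {X Z Rr U : ℝ} {E g₀ δ ν : Eis}
    {Q : Eis → IX σ → Eis → Eis → Prop} {L M : ℝ}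
    (H : JCQ P h s C μ σ T Bs X Z Rr U E g₀ δ ν Q L M) (hC : C' ≤ C) :
    JCQ P h s C' μ σ T Bs X Z Rr U E g₀ δ ν Q L M := by
  intro n hn g hg hgδ u hu v hv w hw a1 a2 a3 i g₃ hg₃ s' W0 hW0 hR hle
  exact H n hn g hg hgδ u hu v hv w hw a1 a2 a3 i g₃ hg₃ s' W0 hW0 (fun k => (hR k).mono hC)
    (by linarith)

lemma JCQ.step {P : DPar} {h : ℝ → ℝ} {r : ℕ} {s : Fin r → Pq} {C μ : ℝ} {σ : Eis}
    {T : Finset Eis} {Bs : Eis → Finset Eis} {X Z Rr U : ℝ} (hU : 0 ≤ U) {E g₀ δ ν : Eis}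
    {Q : Eis → IX σ → Eis → Eis → Prop} {L M : ℝ}
    (H : JCQ P h s C μ σ T Bs X Z Rr U E g₀ δ ν Q L M) (hg₀ : IsPrim g₀) {c : Eis}
    (hc : IsPrim c) : JCQ P h s C μ σ T Bs X Z Rr U E (g₀ * c) δ ν Q L (M / nm c) := by
  intro n hn g hg hgδ u hu v hv w hw a1 a2 a3 i g₃ hg₃ s' W0 hW0 hR hle
  have hgp := ((mem_S hU).mp hg).2.1
  have hc1 : (1 : ℝ) ≤ nm c := by exact_mod_cast nm_pos.2 hc.ne_zero
  have hg1 : (1 : ℝ) ≤ nm (g₀ * g) := by exact_mod_cast nm_pos.2 (hg₀.mul hgp).ne_zero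
  have hlc : 0 ≤ Real.log (nm c) := Real.log_nonneg hc1
  have e1 : Real.log (nm (g₀ * c * g)) = Real.log (nm (g₀ * g)) + Real.log (nm c) := by
    have : g₀ * c * g = g₀ * g * c := by ring
    rw [this, nm_mul (g₀ * g), Nat.cast_mul, Real.log_mul (by positivity) (by positivity)]
  rw [e1] at hle ⊢
  refine (H n hn g hg hgδ u hu v hv w hw a1 a2 a3 i g₃ hg₃ s' W0 hW0 hR (by linarith)).trans
    (le_of_eq ?_)
  congr 1
  have e2 : ∑ k, (s' k).z - (L - (Real.log (nm (g₀ * g)) + Real.log (nm c) +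
      ((u : ℝ) / 3 + v / 3 + w / 3))) = (∑ k, (s' k).z - (L - (Real.log (nm (g₀ * g)) +
      ((u : ℝ) / 3 + v / 3 + w / 3)))) + Real.log (nm c) := by ring
  rw [e2, Real.exp_add, Real.exp_log (by positivity)]
  have : (nm c : ℝ) ≠ 0 := by positivity
  field_simp

/-- **the cell functional of the restricted sequences, summed over `a`**, predicate depending on `(y, B)` -/
theorem cellN_sumQ {h : ℝ → ℝ} {c : ℝ} (hpu : PU h c) {R : ℝ} (hR0 : 0 ≤ R)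
    (hR : ∀ u, cx h u ≠ 0 → |u| ≤ R) {μ : ℝ} (hμ : 0 ≤ μ) (r : ℕ) (σ : Eis) {ε : ℝ}
    (hε : 0 < ε) :
    ∃ C : ℝ, 1 ≤ C ∧ ∀ (A' : ℕ), 2 * (r * μ) + 2 ≤ A' → ∀ (Cφ η : ℝ), 0 < η →
      ∀ (P : DPar) (hP : P.OK) (s : Fin r → Pq), (∀ i, 0 ≤ (s i).z) →
      ∀ j : Fin r → IP, (∀ i, FromP hP (j i) (s i)) →
      ∀ (γ q g₀ δ E b : Eis), IsPrim γ → Squarefree γ → IsPrim g₀ → IsPrim q → IsPrim δ →
      IsPrim b →
      ∀ (T 𝒜 : Finset Eis) (u : ℕ) (X Z X0 U : ℝ), 1 ≤ X → 1 ≤ Z → 1 ≤ U → X ≤ X0 → U ≤ X0 →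
      (nm γ : ℝ) ≤ X0 → (nm g₀ : ℝ) ≤ X0 → (nm q : ℝ) ≤ X0 → (nm δ : ℝ) ≤ X0 → (nm b : ℝ) ≤ X0 →
      (∀ i, Real.exp (s i).z ≤ X0) →
      (∀ a ∈ 𝒜, IsPrim a ∧ Squarefree a ∧ (nm a : ℝ) ≤ U) →
      ∀ (W : Eis → Eis → ℝ) (Wb : ℕ → ℕ → ℝ),
      (∀ g₂ ∈ S X, ∀ g₃ ∈ S X, 0 ≤ W g₂ g₃) →
      (∀ v < NX X, ∀ w < NX X, ∀ g₂ ∈ bk X v, ∀ g₃ ∈ bk X w, W g₂ g₃ ≤ Wb v w) →
      (∀ v < NX X, ∀ w < NX X, 0 ≤ Wb v w) →
      ∀ (Pr : Eis → Eis → IX σ → Eis → Eis → Eis → Prop),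
      (∀ y B i g₂ g₃ d, Pr y B i g₂ g₃ d → g₂ ^ 2 * g₃ ^ 3 ∣ d) → ∀ M : ℝ, 0 ≤ M →
      NCQ P h s C μ σ T u X Z E g₀ Wb Pr (∑ k, (j k).z + Real.log (nm γ)) M →
      ∑ a ∈ 𝒜, ∑ y ∈ T, ∑ B ∈ bk X u,
        MoC Cφ η A' σ (ag (alr (dl γ (TP320.sq (q * γ) ((SD h μ r).w j))) a b) δ g₀)
          (E * y) B X Z W (Pr y B) ≤
        C * (Cφ ^ 2 * iA A' * (η * (η ^ A')⁻¹)) * X0 ^ ε * nm γ * M := by
  have hΦ := sd_ok hpu hR0 hR hμ r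
  obtain ⟨C1, hC1, H⟩ := MoC_list hpu hR0 hR hμ r σ (show 0 < ε / 6 by linarith)
  obtain ⟨C2, hC2, hτ⟩ := tau_le_rpow (show 0 < ε / 12 by linarith)
  obtain ⟨C3, hC3, hS⟩ := sum_Sd_le (show 0 < ε / 3 by linarith)
  have hCC : C1 ≤ C1 * C2 * C3 := by
    have h1 : 1 ≤ C2 * C3 := one_le_mul_of_one_le_of_one_le hC2 hC3
    have h2 : C1 * 1 ≤ C1 * (C2 * C3) := mul_le_mul_of_nonneg_left h1 (by linarith)
    linarith
  refine ⟨C1 * C2 * C3, hC1.trans hCC, ?_⟩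
  intro A' hA' Cφ η hη P hP s hs j hj γ q g₀ δ E b hγ hγs hg₀ hq hδ hb T 𝒜 u X Z X0 U hX hZ hU hXX
    hUX hγX hgX hqX hδX hbX hsX h𝒜 W Wb hW hWb hWb0 Pr hPr M hM hNC
  have hA2 : 2 ≤ A' := by
    have h1 : 0 ≤ (r : ℝ) * μ := by positivity
    have : (2 : ℝ) ≤ A' := by linarith
    exact_mod_cast this
  have hX0 : 0 ≤ X := by linarith
  have hU0 : 0 ≤ U := by linarith
  have hX01 : 1 ≤ X0 := by linarith
  have hX00 : 0 < X0 := by linarith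
  have hγ1 : (1 : ℝ) ≤ nm γ := by exact_mod_cast nm_pos.2 hγ.ne_zero
  have hlγ : 0 ≤ Real.log (nm γ) := Real.log_nonneg hγ1
  have hAp : 0 ≤ Cφ ^ 2 * iA A' * (η * (η ^ A')⁻¹) := by
    have := iA_nonneg A'; positivity
  have hC1' : 0 ≤ C1 := by linarith
  have hC2' : 0 ≤ C2 := by linarith
  have hC3' : 0 ≤ C3 := by linarith
  by_cases hγb : IsCoprime γ b
  swap
  · have e1 : ∀ a ∈ 𝒜, ∑ y ∈ T, ∑ B ∈ bk X u,
        MoC Cφ η A' σ (ag (alr (dl γ (TP320.sq (q * γ) ((SD h μ r).w j))) a b) δ g₀)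
          (E * y) B X Z W (Pr y B) = 0 := by
      intro a _
      rw [alr_dl_zero hγb]
      exact Finset.sum_eq_zero fun y _ => Finset.sum_eq_zero fun B _ => MoC_zero δ g₀
    rw [Finset.sum_eq_zero e1]
    positivity
  have hw1 : ∀ n, (SD h μ r).w j n ≠ 0 →
      (nm n : ℝ) ≤ Real.exp ((SD h μ r).len j + r * (2 * R + 3)) := by
    intro b hb
    have hb0 : (0 : ℝ) < nm b := by exact_mod_cast nm_pos.2 (hΦ.prim j b hb).ne_zero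
    rw [← Real.log_le_iff_le_exp hb0]
    have := (abs_le.1 (hΦ.supp j b hb)).2
    linarith
  -- the divisor bound
  set Tm : ℝ := C2 * X0 ^ (ε / 3) with hTm
  have hT : ∀ B ∈ bk X u, ∀ g₂ ∈ S X, ∀ g₃ ∈ S X, (tau (g₀ * (B * (g₂ * g₃))) : ℝ) ≤ Tm := by
    intro B hB g₂ h₂ g₃ h₃
    have hBS : B ∈ S X := (Finset.mem_filter.mp hB).1
    obtain ⟨b1, b2, -⟩ := (mem_S hX0).mp hBS
    obtain ⟨c1, c2, -⟩ := (mem_S hX0).mp h₂
    obtain ⟨d1, d2, -⟩ := (mem_S hX0).mp h₃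
    have hn : (nm (g₀ * (B * (g₂ * g₃))) : ℝ) ≤ X0 ^ 4 := by
      rw [nm_mul, nm_mul, nm_mul]
      push_cast
      calc (nm g₀ : ℝ) * (nm B * (nm g₂ * nm g₃)) ≤ X0 * (X0 * (X0 * X0)) := by
            gcongr <;> linarith
        _ = X0 ^ 4 := by ring
    refine (hτ _ (hg₀.mul (b2.mul (c2.mul d2))).ne_zero).trans ?_
    rw [hTm]
    refine mul_le_mul_of_nonneg_left ?_ hC2'
    calc (nm (g₀ * (B * (g₂ * g₃))) : ℝ) ^ (ε / 12) ≤ (X0 ^ 4) ^ (ε / 12) :=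
          Real.rpow_le_rpow (Nat.cast_nonneg _) hn (by linarith)
      _ = X0 ^ (ε / 3) := by
          rw [← Real.rpow_natCast X0 4, ← Real.rpow_mul hX00.le]
          congr 1; push_cast; ring
  have hTm0 : 0 ≤ Tm := by rw [hTm]; positivity
  -- the sum over `a`
  have step1 : ∑ a ∈ 𝒜, ∑ y ∈ T, ∑ B ∈ bk X u,
      MoC Cφ η A' σ (ag (alr (dl γ (TP320.sq (q * γ) ((SD h μ r).w j))) a b) δ g₀)
        (E * y) B X Z W (Pr y B) ≤ Tm * ∑ c' ∈ Sd U δ, ∑ y ∈ T, ∑ B ∈ bk X u,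
      MoC Cφ η A' σ (aG γ (q * b) (g₀ * c') δ ((SD h μ r).w j)) (E * y) B X Z W (Pr y B) := by
    rw [sum_comm3 𝒜 T (fun _ => bk X u), sum_comm3 (Sd U δ) T (fun _ => bk X u), Finset.mul_sum]
    refine Finset.sum_le_sum fun y _ => ?_
    rw [Finset.mul_sum]
    refine Finset.sum_le_sum fun B hB => ?_
    have hBS : B ∈ S X := (Finset.mem_filter.mp hB).1
    exact MoC_alr hη hA2 (Real.exp_pos _).le hw1 hX0 hγ hγs hγb hg₀ ((mem_S hX0).mp hBS).2.1 hU0 h𝒜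
      hW (hT B hB)
  refine step1.trans ?_
  have e6 : (X0 ^ 2) ^ (ε / 6) = X0 ^ (ε / 3) := by
    rw [← Real.rpow_natCast X0 2, ← Real.rpow_mul hX00.le]
    congr 1; push_cast; ring
  have hXle : X0 ≤ X0 ^ 2 := le_self_pow₀ hX01 (by norm_num)
  have step2 : ∀ c' ∈ Sd U δ, ∑ y ∈ T, ∑ B ∈ bk X u,
      MoC Cφ η A' σ (aG γ (q * b) (g₀ * c') δ ((SD h μ r).w j)) (E * y) B X Z W (Pr y B) ≤
      (C1 * (Cφ ^ 2 * iA A' * (η * (η ^ A')⁻¹)) * X0 ^ (ε / 3) * nm γ * M) * (1 / nm c') := by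
    intro c' hc'
    obtain ⟨c1, c2, -⟩ := (mem_S hU0).mp (Finset.mem_filter.mp hc').1
    have h1 := (hNC.mono hCC).step hg₀ c2
    have h2 := H A' hA' Cφ η hη P hP s hs j hj γ (q * b) (g₀ * c') δ E hγ hγs (hg₀.mul c2)
      (hq.mul hb) hδ T u X Z (X0 ^ 2) hX hZ (hXX.trans hXle) (hγX.trans hXle) (by
        rw [nm_mul, Nat.cast_mul, pow_two]
        exact mul_le_mul hgX (c1.trans hUX) (Nat.cast_nonneg _) hX00.le) (by
        rw [nm_mul, Nat.cast_mul, pow_two]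
        exact mul_le_mul hqX hbX (Nat.cast_nonneg _) hX00.le) (hδX.trans hXle)
      (fun i => (hsX i).trans hXle) W Wb hW hWb hWb0 Pr hPr (M / nm c') (by positivity) ?_
    · rw [e6] at h2
      refine h2.trans (le_of_eq ?_)
      ring
    · intro v hv w hw hWp i g₃ hg₃ s' W0 hW0 hRl hle
      refine (h1 v hv w hw hWp i g₃ hg₃ s' W0 hW0 hRl hle).trans ?_
      have hm : 0 ≤ M / nm c' := by positivity
      have hW00 : 0 ≤ W0 ^ (2 * μ) := Real.rpow_nonneg (by linarith) _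
      refine mul_le_mul_of_nonneg_right (mul_le_mul_of_nonneg_left (Real.exp_le_exp.2 ?_) hm) hW00
      linarith
  have step3 := Finset.sum_le_sum step2
  rw [← Finset.mul_sum] at step3
  have h4 := hS U X0 δ hU hUX
  have hD0 : 0 ≤ C1 * (Cφ ^ 2 * iA A' * (η * (η ^ A')⁻¹)) * X0 ^ (ε / 3) * nm γ * M := by
    positivity
  have h5 := step3.trans (mul_le_mul_of_nonneg_left h4 hD0)
  refine (mul_le_mul_of_nonneg_left h5 hTm0).trans (le_of_eq ?_)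
  have e7 : X0 ^ ε = X0 ^ (ε / 3) * X0 ^ (ε / 3) * X0 ^ (ε / 3) := by
    rw [← Real.rpow_add hX00, ← Real.rpow_add hX00]
    congr 1; ring
  rw [hTm, e7]
  ring

/-! ### the joint functional -/

/-- the block functional of the restricted sequence, through the children -/
def MoJCQr (C η : ℝ) (A : ℕ) (σ γ q g₀ δ : Eis) (w : Eis → ℂ) (a b ν E : Eis) (X R Z U' : ℝ)
    (Bs : Finset Eis) (Q : IX σ → Eis → Eis → Prop) : ℝ :=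
  ∑ n ∈ dvs ν, (nm n : ℝ) * ∑ g ∈ (S U').filter (fun g => IsCoprime g δ),
    ∑ B ∈ (S X).filter (fun B => g * B ∈ Bs),
      MoC C η A σ (ag (alr (dl γ (TP320.sq (q * γ) w)) a b) δ (g₀ * g)) E B X (Z / nm g)
        (fun g₂ _ => WJ R (Z / (nm n : ℝ) ^ 3) U' g g₂) (fun i => PJQ (Q i) n g Z B)

section
variable {w : Eis → ℂ} {X₁ : ℝ} {γ q g₀ δ b : Eis} {𝒜 : Finset Eis} {U : ℝ}

lemma MoJCQr_eq {a e c : Eis} (hγ : γ ≠ 0) (hγb : IsCoprime γ b) (ha : a = e * c) (he : e ∣ γ)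
    (hc : IsCoprime c γ) (C η : ℝ) (A : ℕ) (σ ν E : Eis) (X R Z U' : ℝ) (Bs : Finset Eis)
    (Q : IX σ → Eis → Eis → Prop) :
    MoJCQr C η A σ γ q g₀ δ w a b ν E X R Z U' Bs Q =
      MoJCQ C η A σ γ (q * b) g₀ δ (rs c w) ν E X R Z U' Bs Q := by
  unfold MoJ401.MoJCQ MoJCQr
  refine Finset.sum_congr rfl fun n _ => ?_
  refine congrArg (fun x : ℝ => (nm n : ℝ) * x) ?_
  refine Finset.sum_congr rfl fun g _ => ?_
  refine Finset.sum_congr rfl fun B _ => ?_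
  rw [ag_alr_dl hγ hγb ha he hc]

lemma MoJCQr_nonneg {a : Eis} {C η : ℝ} (hη : 0 < η) {A : ℕ} {σ ν E : Eis} {X R Z U' : ℝ}
    (hR : 0 ≤ R) {Bs : Finset Eis} {Q : IX σ → Eis → Eis → Prop} :
    0 ≤ MoJCQr C η A σ γ q g₀ δ w a b ν E X R Z U' Bs Q := by
  unfold MoJCQr
  exact Finset.sum_nonneg fun n _ => mul_nonneg (Nat.cast_nonneg _) (Finset.sum_nonneg fun g _ =>
    Finset.sum_nonneg fun B _ => MoC_nonneg hη fun _ _ _ _ => H1401.WJ_nonneg hR _ _)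

lemma MoJQ_zero (ν E τ : Eis) (X t R Z U' : ℝ) (Bs : Finset Eis) (Q : Eis → Eis → Prop) :
    MoJQ ν (0 : Eis → ℂ) E τ X t R Z U' Bs Q = 0 := by
  unfold MoJ401.MoJQ
  refine Finset.sum_eq_zero fun n _ => ?_
  rw [Finset.sum_eq_zero, mul_zero]
  intro g₂ _
  refine Finset.sum_eq_zero fun g₃ _ => Finset.sum_eq_zero fun g _ => ?_
  rw [Finset.sum_eq_zero, mul_zero]
  intro B _
  refine Finset.sum_eq_zero fun d _ => ?_
  rw [MoJ401.CS_cT_zero]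
  simp

/-- **the joint functional of a restricted twisted window at height `t₀`** -/
theorem MoJQ_bt_alr {a ν E : Eis} {X R Z U' : ℝ} {σ : Eis} {Bs : Finset Eis} {C η : ℝ} {A : ℕ}
    {φ : ℝ → ℝ}
    (hC : 0 ≤ C) (hη : 0 < η) (hη1 : η ≤ 1) (hA : 2 ≤ A) (hφ : WK C η A φ) (hX₁ : 0 ≤ X₁)
    (hw : ∀ n, w n ≠ 0 → (nm n : ℝ) ≤ X₁) (hX : 0 ≤ X) (hR : 0 ≤ R) (hZ : 0 ≤ Z) (hU' : 0 ≤ U')
    (hγ : IsPrim γ) (hγs : Squarefree γ) (ha : IsPrim a) (has : Squarefree a)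
    (hg₀ : IsPrim g₀) (hBs : ∀ B ∈ Bs, B ∈ S X) (Q : IX σ → Eis → Eis → Prop)
    (p : ℕ × ℕ) (t₀ : ℝ) (i : IX σ) (t : ℝ) :
    MoJQ ν (ag (alr (fun n => bt φ (dl γ (TP320.sq (q * γ) w)) p n * pw t₀ (nm n)) a b) δ g₀) E
        (dl' σ i) X t R Z U' Bs (Q i) ≤
      (1 + |t|) ^ A * ((1 + |t₀|) ^ A *
        MoJCQr C η A σ γ q g₀ δ w a b ν (E * kw p ^ 2) X R Z U' Bs Q) := by
  by_cases hγb : IsCoprime γ b
  · obtain ⟨e, c, hc, h1, h2, h3⟩ := exists_cp hγ hγs ha has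
    rw [alr_bt, alr_dl hγ.ne_zero hγb h1 h2 h3, MoJCQr_eq hγ.ne_zero hγb h1 h2 h3]
    exact MoJQ_bt_le hC hη hη1 hA hφ hX₁ (fun n hn => hw n (rs_ne hn)) hX hR hZ hU' hγ hγs hg₀
      hBs Q p t₀ i t
  · have e1 : (fun n => bt φ (fun _ => (0 : ℂ)) p n * pw t₀ (nm n)) = fun _ => (0 : ℂ) := by
      funext n
      unfold RGw813.bt RGw813.tw2 Win813.wn
      ring
    have h0 : 0 ≤ MoJCQr C η A σ γ q g₀ δ w a b ν (E * kw p ^ 2) X R Z U' Bs Q :=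
      MoJCQr_nonneg hη hR
    rw [alr_bt, alr_dl_zero hγb, e1, ag_zero, MoJQ_zero]
    positivity

/-- **the joint functional summed over `a`** -/
theorem MoJCQr_alr {Cφ η : ℝ} {A : ℕ} {σ ν E : Eis} (hη : 0 < η) (hA : 2 ≤ A) (hX₁ : 0 ≤ X₁)
    (hw : ∀ n, w n ≠ 0 → (nm n : ℝ) ≤ X₁)
    {X R Z U' : ℝ} (hX : 0 ≤ X) (hR : 0 ≤ R) (hU' : 0 ≤ U')
    (hγ : IsPrim γ) (hγs : Squarefree γ) (hγb : IsCoprime γ b)
    (hg₀ : IsPrim g₀) (hU : 0 ≤ U)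
    (h𝒜 : ∀ a ∈ 𝒜, IsPrim a ∧ Squarefree a ∧ (nm a : ℝ) ≤ U) (Bs : Finset Eis)
    (Q : IX σ → Eis → Eis → Prop) {Tm : ℝ}
    (hT : ∀ g ∈ S U', ∀ B ∈ S X, ∀ g₂ ∈ S X, ∀ g₃ ∈ S X,
      (tau (g₀ * g * (B * (g₂ * g₃))) : ℝ) ≤ Tm) :
    ∑ a ∈ 𝒜, MoJCQr Cφ η A σ γ q g₀ δ w a b ν E X R Z U' Bs Q ≤
      Tm * ∑ c ∈ Sd U δ, MoJCQ Cφ η A σ γ (q * b) (g₀ * c) δ w ν E X R Z U' Bs Q := by
  unfold MoJ401.MoJCQ MoJCQr
  rw [Finset.sum_comm, Finset.sum_comm (s := Sd U δ), Finset.mul_sum]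
  refine Finset.sum_le_sum fun n _ => ?_
  rw [← Finset.mul_sum, ← Finset.mul_sum, mul_left_comm Tm (nm n : ℝ)]
  refine mul_le_mul_of_nonneg_left ?_ (Nat.cast_nonneg _)
  rw [Finset.sum_comm, Finset.sum_comm (s := Sd U δ), Finset.mul_sum]
  refine Finset.sum_le_sum fun g hg => ?_
  rw [Finset.sum_comm, Finset.sum_comm (s := Sd U δ), Finset.mul_sum]
  refine Finset.sum_le_sum fun B hB => ?_
  have hgS := (Finset.mem_filter.mp hg).1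
  have hgp := ((mem_S hU').mp hgS).2.1
  have hBS := (Finset.mem_filter.mp hB).1
  have hBp := ((mem_S hX).mp hBS).2.1
  have e2 : ∀ c, g₀ * c * g = g₀ * g * c := fun c => by ring
  have h1 := MoC_alr (Cφ := Cφ) (σ := σ) (δ := δ) (E := E) (Z := Z / nm g) (q := q)
    (P := fun i => PJQ (Q i) n g Z B) hη hA hX₁ hw hX hγ hγs hγb
    (hg₀.mul hgp) hBp hU h𝒜 (W := fun g₂ _ => WJ R (Z / (nm n : ℝ) ^ 3) U' g g₂)
    (fun _ _ _ _ => H1401.WJ_nonneg hR _ _) (fun g₂ h₂ g₃ h₃ => hT g hgS B hBS g₂ h₂ g₃ h₃)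
  simp only [e2]
  exact h1

end

/-- **the joint cell functional of the restricted sequences, summed over `a`** -/
theorem cellJ_sumQ {h : ℝ → ℝ} {c : ℝ} (hpu : PU h c) {R : ℝ} (hR0 : 0 ≤ R)
    (hR : ∀ u, cx h u ≠ 0 → |u| ≤ R) {μ : ℝ} (hμ : 0 ≤ μ) (r : ℕ) (σ : Eis) {ε : ℝ}
    (hε : 0 < ε) :
    ∃ C : ℝ, 1 ≤ C ∧ ∀ (A' : ℕ), 2 * (r * μ) + 2 ≤ A' → ∀ (Cφ η : ℝ), 0 < η →
      ∀ (P : DPar) (hP : P.OK) (s : Fin r → Pq), (∀ i, 0 ≤ (s i).z) →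
      ∀ j : Fin r → IP, (∀ i, FromP hP (j i) (s i)) →
      ∀ (γ q g₀ δ E ν b : Eis), IsPrim γ → Squarefree γ → IsPrim g₀ → IsPrim q → IsPrim δ →
      IsPrim ν → IsPrim b →
      ∀ (T 𝒜 : Finset Eis) (Bs : Eis → Finset Eis) (X Z Rr U X0 Ua : ℝ), 1 ≤ X → 0 ≤ Z → 0 ≤ Rr →
      1 ≤ U → 1 ≤ Ua → X ≤ X0 → U ≤ X0 → Ua ≤ X0 → (nm γ : ℝ) ≤ X0 → (nm g₀ : ℝ) ≤ X0 →
      (nm q : ℝ) ≤ X0 → (nm δ : ℝ) ≤ X0 → (nm ν : ℝ) ≤ X0 → (nm b : ℝ) ≤ X0 →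
      (∀ i, Real.exp (s i).z ≤ X0) →
      (∀ a ∈ 𝒜, IsPrim a ∧ Squarefree a ∧ (nm a : ℝ) ≤ Ua) →
      (∀ y ∈ T, ∀ B ∈ Bs y, B ∈ S X ∧ U / 2 ≤ nm B ∧ (nm B : ℝ) ≤ U) →
      ∀ (Q : Eis → IX σ → Eis → Eis → Prop) (M : ℝ), 0 ≤ M →
      JCQ P h s C μ σ T Bs X Z Rr U E g₀ δ ν Q (∑ k, (j k).z + Real.log (nm γ)) M →
      ∑ a ∈ 𝒜, ∑ y ∈ T, MoJCQr Cφ η A' σ γ q g₀ δ ((SD h μ r).w j) a b ν (E * y) X Rr Z U (Bs y) (Q y) ≤
        C * (Cφ ^ 2 * iA A' * (η * (η ^ A')⁻¹)) * X0 ^ ε * nm γ * M := by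
  have hΦ := sd_ok hpu hR0 hR hμ r
  obtain ⟨C1, hC1, H⟩ := MoJCQ_list hpu hR0 hR hμ r σ (show 0 < ε / 6 by linarith)
  obtain ⟨C2, hC2, hτ⟩ := tau_le_rpow (show 0 < ε / 15 by linarith)
  obtain ⟨C3, hC3, hS⟩ := sum_Sd_le (show 0 < ε / 3 by linarith)
  have hCC : C1 ≤ C1 * C2 * C3 := by
    have h1 : 1 ≤ C2 * C3 := one_le_mul_of_one_le_of_one_le hC2 hC3
    have h2 : C1 * 1 ≤ C1 * (C2 * C3) := mul_le_mul_of_nonneg_left h1 (by linarith)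
    linarith
  refine ⟨C1 * C2 * C3, hC1.trans hCC, ?_⟩
  intro A' hA' Cφ η hη P hP s hs j hj γ q g₀ δ E ν b hγ hγs hg₀ hq hδ hν hb T 𝒜 Bs X Z Rr U X0 Ua
    hX hZ hRr hU hUa hXX hUX hUaX hγX hgX hqX hδX hνX hbX hsX h𝒜 hBs Q M hM hJC
  have hA2 : 2 ≤ A' := by
    have h1 : 0 ≤ (r : ℝ) * μ := by positivity
    have : (2 : ℝ) ≤ A' := by linarith
    exact_mod_cast this
  have hX0 : 0 ≤ X := by linarith
  have hU0 : 0 ≤ U := by linarith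
  have hUa0 : 0 ≤ Ua := by linarith
  have hX01 : 1 ≤ X0 := by linarith
  have hX00 : 0 < X0 := by linarith
  have hγ1 : (1 : ℝ) ≤ nm γ := by exact_mod_cast nm_pos.2 hγ.ne_zero
  have hlγ : 0 ≤ Real.log (nm γ) := Real.log_nonneg hγ1
  have hAp : 0 ≤ Cφ ^ 2 * iA A' * (η * (η ^ A')⁻¹) := by
    have := iA_nonneg A'; positivity
  have hC1' : 0 ≤ C1 := by linarith
  have hC2' : 0 ≤ C2 := by linarith
  have hC3' : 0 ≤ C3 := by linarith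
  by_cases hγb : IsCoprime γ b
  swap
  · have e1 : ∀ a ∈ 𝒜, ∑ y ∈ T,
        MoJCQr Cφ η A' σ γ q g₀ δ ((SD h μ r).w j) a b ν (E * y) X Rr Z U (Bs y) (Q y) = 0 := by
      intro a _
      refine Finset.sum_eq_zero fun y _ => ?_
      unfold MoJCQr
      refine Finset.sum_eq_zero fun n _ => ?_
      rw [Finset.sum_eq_zero, mul_zero]
      intro g _
      refine Finset.sum_eq_zero fun B _ => ?_
      rw [alr_dl_zero hγb]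
      exact MoC_zero δ (g₀ * g)
    rw [Finset.sum_eq_zero e1]
    positivity
  have hw1 : ∀ n, (SD h μ r).w j n ≠ 0 →
      (nm n : ℝ) ≤ Real.exp ((SD h μ r).len j + r * (2 * R + 3)) := by
    intro b hb
    have hb0 : (0 : ℝ) < nm b := by exact_mod_cast nm_pos.2 (hΦ.prim j b hb).ne_zero
    rw [← Real.log_le_iff_le_exp hb0]
    have := (abs_le.1 (hΦ.supp j b hb)).2
    linarith
  -- the divisor bound
  set Tm : ℝ := C2 * X0 ^ (ε / 3) with hTm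
  have hT : ∀ g ∈ S U, ∀ B ∈ S X, ∀ g₂ ∈ S X, ∀ g₃ ∈ S X,
      (tau (g₀ * g * (B * (g₂ * g₃))) : ℝ) ≤ Tm := by
    intro g hg B hB g₂ h₂ g₃ h₃
    obtain ⟨a1, a2, -⟩ := (mem_S hU0).mp hg
    obtain ⟨b1, b2, -⟩ := (mem_S hX0).mp hB
    obtain ⟨c1, c2, -⟩ := (mem_S hX0).mp h₂
    obtain ⟨d1, d2, -⟩ := (mem_S hX0).mp h₃
    have hn : (nm (g₀ * g * (B * (g₂ * g₃))) : ℝ) ≤ X0 ^ 5 := by
      rw [nm_mul, nm_mul, nm_mul, nm_mul]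
      push_cast
      calc (nm g₀ : ℝ) * nm g * (nm B * (nm g₂ * nm g₃)) ≤ X0 * X0 * (X0 * (X0 * X0)) := by
            gcongr <;> linarith
        _ = X0 ^ 5 := by ring
    refine (hτ _ ((hg₀.mul a2).mul (b2.mul (c2.mul d2))).ne_zero).trans ?_
    rw [hTm]
    refine mul_le_mul_of_nonneg_left ?_ hC2'
    calc (nm (g₀ * g * (B * (g₂ * g₃))) : ℝ) ^ (ε / 15) ≤ (X0 ^ 5) ^ (ε / 15) :=
          Real.rpow_le_rpow (Nat.cast_nonneg _) hn (by linarith)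
      _ = X0 ^ (ε / 3) := by
          rw [← Real.rpow_natCast X0 5, ← Real.rpow_mul hX00.le]
          congr 1; push_cast; ring
  have hTm0 : 0 ≤ Tm := by rw [hTm]; positivity
  -- the sum over `a`
  have step1 : ∑ a ∈ 𝒜, ∑ y ∈ T,
      MoJCQr Cφ η A' σ γ q g₀ δ ((SD h μ r).w j) a b ν (E * y) X Rr Z U (Bs y) (Q y) ≤
      Tm * ∑ c' ∈ Sd Ua δ, ∑ y ∈ T,
      MoJCQ Cφ η A' σ γ (q * b) (g₀ * c') δ ((SD h μ r).w j) ν (E * y) X Rr Z U (Bs y) (Q y) := by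
    rw [Finset.sum_comm, Finset.sum_comm (s := Sd Ua δ), Finset.mul_sum]
    refine Finset.sum_le_sum fun y _ => ?_
    exact MoJCQr_alr hη hA2 (Real.exp_pos _).le hw1 hX0 hRr hU0 hγ hγs hγb hg₀ hUa0 h𝒜 (Bs y) (Q y) hT
  refine step1.trans ?_
  have e6 : (X0 ^ 2) ^ (ε / 6) = X0 ^ (ε / 3) := by
    rw [← Real.rpow_natCast X0 2, ← Real.rpow_mul hX00.le]
    congr 1; push_cast; ring
  have hXle : X0 ≤ X0 ^ 2 := le_self_pow₀ hX01 (by norm_num)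
  have step2 : ∀ c' ∈ Sd Ua δ, ∑ y ∈ T,
      MoJCQ Cφ η A' σ γ (q * b) (g₀ * c') δ ((SD h μ r).w j) ν (E * y) X Rr Z U (Bs y) (Q y) ≤
      (C1 * (Cφ ^ 2 * iA A' * (η * (η ^ A')⁻¹)) * X0 ^ (ε / 3) * nm γ * M) * (1 / nm c') := by
    intro c' hc'
    obtain ⟨c1, c2, -⟩ := (mem_S hUa0).mp (Finset.mem_filter.mp hc').1
    have h1 := (hJC.mono hCC).step hU0 hg₀ c2
    have h2 := H A' hA' Cφ η hη P hP s hs j hj γ (q * b) (g₀ * c') δ E ν hγ hγs (hg₀.mul c2)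
      (hq.mul hb) hδ hν T Bs X Z Rr U (X0 ^ 2) hX hZ hRr hU (hXX.trans hXle) (hUX.trans hXle)
      (hγX.trans hXle) (by
        rw [nm_mul, Nat.cast_mul, pow_two]
        exact mul_le_mul hgX (c1.trans hUaX) (Nat.cast_nonneg _) hX00.le) (by
        rw [nm_mul, Nat.cast_mul, pow_two]
        exact mul_le_mul hqX hbX (Nat.cast_nonneg _) hX00.le) (hδX.trans hXle) (hνX.trans hXle)
      (fun i => (hsX i).trans hXle) hBs Q (M / nm c') (by positivity) ?_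
    · rw [e6] at h2
      refine h2.trans (le_of_eq ?_)
      ring
    · intro n hn g hg hgδ u hu v hv w hw a1 a2 a3 i g₃ hg₃ s' W0 hW0 hRl hle
      refine (h1 n hn g hg hgδ u hu v hv w hw a1 a2 a3 i g₃ hg₃ s' W0 hW0 hRl hle).trans ?_
      have hm : 0 ≤ M / nm c' := by positivity
      have hW00 : 0 ≤ W0 ^ (2 * μ) := Real.rpow_nonneg (by linarith) _
      refine mul_le_mul_of_nonneg_right (mul_le_mul_of_nonneg_left (Real.exp_le_exp.2 ?_) hm) hW00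
      linarith
  have step3 := Finset.sum_le_sum step2
  rw [← Finset.mul_sum] at step3
  have h4 := hS Ua X0 δ hUa hUaX
  have hD0 : 0 ≤ C1 * (Cφ ^ 2 * iA A' * (η * (η ^ A')⁻¹)) * X0 ^ (ε / 3) * nm γ * M := by
    positivity
  have h5 := step3.trans (mul_le_mul_of_nonneg_left h4 hD0)
  refine (mul_le_mul_of_nonneg_left h5 hTm0).trans (le_of_eq ?_)
  have e7 : X0 ^ ε = X0 ^ (ε / 3) * X0 ^ (ε / 3) * X0 ^ (ε / 3) := by
    rw [← Real.rpow_add hX00, ← Real.rpow_add hX00]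
    congr 1; ring
  rw [hTm, e7]
  ring

end Crest.Agent.R017.RClX791
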