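import Crest.Agent.R017.RClX1_791

/-!
# Row 17, T.7, `l`-terms of the tail in the exceptional class (helper791), part 2

List level: the cells of the restricted flagged lists, summed over `a`.

* `cell_SDa`, `cell_lista`   : separate cells (739's `MNx`)
* `cell_SDJa`, `cell_listJa` : joint cells (401's `MNJ`)
* `QF_cellN`, `QF_cellJ`     : the quadratic functionals, for several lists
-/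

set_option autoImplicit false
set_option linter.unusedVariables false
set_option maxHeartbeats 400000

noncomputable section

open Complex Finset
open scoped ComplexConjugate Classical

namespace Crest.Agent.R017.RClX791

open Crest.Agent.R012 Crest.Agent.R012.Eis Crest.Agent.R012.Gauss880
open Crest.Agent.R012.LS2 (S mem_S)
open Crest.Agent.R012.Div277 (tau dvs mem_dvs tau_le_rpow nm_le_of_dvd)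
open Crest.Agent.R012.Weight600 (pw)
open Crest.Agent.R017.CM106 (CS FS sub)
open Crest.Agent.R017.HP842 (Pc pc sqc al)
open Crest.Agent.R017.Leg381 (alf alF Pf LF)
open Crest.Agent.R017.FE47
open Crest.Agent.R017.B770 Crest.Agent.R017.Prov71
open Crest.Agent.R017.TPOk571 (IP FP SD SD_w SD_len SD_ht sd_ok)
open Crest.Agent.R017.X6C180 (IX dl')
open Crest.Agent.R017.H1401 (pb mem_pb WJ WM DN HW)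
open Crest.Agent.R017.Win813 (iA iA_nonneg WK)
open Crest.Agent.R017.RGw813 (bt)
open Crest.Agent.R017.XRG106
open Crest.Agent.R017.MoF106
open Crest.Agent.R017.MoL106 (FromP Q4 mem_Q4 f4 kw)
open Crest.Agent.R017.MoJ401
open Crest.Agent.R017.E2440 (ag RR C4 mem_C4)
open Crest.Agent.R017.NtC320 (QF)
open Crest.Agent.R017.E2sp579 (fP)
open Crest.Agent.R017.QsO83 (bw FS_bw QF_sum1)
open Crest.Agent.R017.NPx739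
open Crest.Agent.R017.GKC739 (Tb mem_Tb Tb_rr)
open Crest.Agent.R017.NPy739
open Crest.Agent.R017.MoCa83
open Crest.Agent.R017.RCl83 (alr_bw QF_alr FS_alr)

/-! ### separate cells -/

/-- **the quadratic functional of the separate cells, summed over `a`** -/
theorem QF_cellN {J : ℕ} {V : ℝ} {e A c : Eis} {X : ℝ} (hX : 0 ≤ X)
    (Qf : Eis → Eis → Eis → Eis → Prop) (δ : Eis) {g₀ : Eis} (hg₀ : IsPrim g₀) (φ : ℝ → ℝ)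
    (p : ℕ × ℕ) (t₀ : ℝ) (x₀ : Eis) (l u j : ℕ) (n b : Eis) (𝒜 : Finset Eis) :
    QF (fun α => ∑ a ∈ 𝒜, ∑ j₂ ∈ Tb V e A c l, ∑ B ∈ bk X u,
      MNx J V e A c X (Qf (e * A * j₂ * x₀)) δ g₀ φ p t₀ (e * A * j₂ * x₀) j₂ B j n
        (alr α a b)) := by
  refine QF_sum1 _ fun a _ => QF_sum1 _ fun j₂ hj₂ => QF_sum1 _ fun B hB => ?_
  have h1 : 0 ≤ RR V e A c j₂ := by linarith [(mem_Tb.1 hj₂).2]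
  have h2 : QF (fun α => MNx J V e A c X (Qf (e * A * j₂ * x₀)) δ g₀ φ p t₀ (e * A * j₂ * x₀) j₂
      B j n α) :=
    QF_agbw (QF_MNn (fun g₂ _ g₃ _ => H1401.WM_nonneg h1 (by positivity) g₂ g₃) hX
      (bk_prim hX hB).ne_zero) hg₀ δ φ p t₀
  exact QF_alr h2 a b

/-- **the cells of a flagged list, summed over `a`**, one constant `σ` -/
theorem cell_SDa1 {h : ℝ → ℝ} {c₀ : ℝ} (hpu : PU h c₀) {R : ℝ} (hR0 : 0 ≤ R)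
    (hR : ∀ u, cx h u ≠ 0 → |u| ≤ R) {μ : ℝ} (hμ : 0 ≤ μ) (r : ℕ) {c : Eis} (hc : c ∈ C4)
    {ε : ℝ} (hε : 0 < ε) :
    ∃ C : ℝ, 1 ≤ C ∧ ∀ A' : ℕ, 2 * (r * μ) + 2 ≤ A' → ∀ Cφ η : ℝ, 0 ≤ Cφ → 0 < η → η ≤ 1 →
      ∀ φ : ℝ → ℝ, WK Cφ η A' φ → ∀ (p : ℕ × ℕ) (t₀ : ℝ) (P : DPar) (_ : P.OK)
      (s : Fin r → Pq), (∀ i, 0 ≤ (s i).z) → ∀ (f : Fin r → Bool) (z D0 : ℝ), 1 ≤ D0 →
      ∀ q g₀ δ e A x₀ b : Eis, IsPrim q → IsPrim g₀ → IsPrim δ → IsPrim e → IsPrim A →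
      IsPrim b → ∀ (V X X0 U : ℝ), 1 ≤ X → 1 ≤ U → X ≤ X0 → U ≤ X0 → D0 ^ r ≤ X0 →
      (nm g₀ : ℝ) ≤ X0 → (nm q : ℝ) ≤ X0 → (nm δ : ℝ) ≤ X0 → (nm b : ℝ) ≤ X0 →
      (∀ i, Real.exp (s i).z ≤ X0) → ∀ (𝒜 : Finset Eis),
      (∀ a ∈ 𝒜, IsPrim a ∧ Squarefree a ∧ (nm a : ℝ) ≤ U) → ∀ (l u j : ℕ) (n : Eis)
      (Qf : Eis → Eis → Eis → Eis → Prop) (Wb : ℕ → ℕ → ℝ),
      (∀ v < NX X, ∀ w < NX X, ∀ g₂ ∈ bk X v, ∀ g₃ ∈ bk X w,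
        WM (V * nm (e * A) / (nm c * Real.exp ((l : ℝ) / 3) ^ 2)) (2 ^ j / (nm n : ℝ) ^ 3) g₂ g₃ ≤
          Wb v w) → (∀ v < NX X, ∀ w < NX X, 0 ≤ Wb v w) → ∀ M : ℝ, 0 ≤ M →
      CellX h μ C P s V e A c x₀ X Qf g₀ p l u j n Wb M →
      ∑ a ∈ 𝒜, ∑ j₂ ∈ Tb V e A c l, ∑ B ∈ bk X u, MNx A' V e A c X (Qf (e * A * j₂ * x₀)) δ g₀ φ
        p t₀ (e * A * j₂ * x₀) j₂ B j n
        (alr (sqc q (alf z D0 h (fun i => (s i).pc P) f)) a b) ≤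
      C * (Cφ ^ 2 * iA A' * (η * (η ^ A')⁻¹)) * X0 ^ ε * (1 + |t₀|) ^ A' * opL r D0 * M := by
  have hΦ := sd_ok hpu hR0 hR hμ r
  obtain ⟨C, hC, hML⟩ := cellN_sumQ hpu hR0 hR hμ r c hε
  refine ⟨C, hC, ?_⟩
  intro A' hA' Cφ η hCφ hη hη1 φ hφ p t₀ P hP s hs f z D0 hD q g₀ δ e A x₀ b hq hg₀ hδ he hA hb
    V X X0 U hX hU hXX hUX hDX hgX hqX hδX hbX hsX 𝒜 h𝒜 l u j n Qf Wb hWb hWb0 M hM hcell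
  have hX0 : 0 ≤ X := by linarith
  have hX01 : 1 ≤ X0 := by linarith
  have hC0 : 0 ≤ C := by linarith
  have hD0 : 0 ≤ D0 := by linarith
  have hA2 : 2 ≤ A' := by
    have h1 : (0 : ℝ) ≤ 2 * (r * μ) := by positivity
    have : (2 : ℝ) ≤ A' := by linarith
    exact_mod_cast this
  set pA : ℝ := Cφ ^ 2 * iA A' * (η * (η ^ A')⁻¹) with hpA
  have hpA0 : 0 ≤ pA := by have := iA_nonneg A'; positivity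
  have ht0 : 0 ≤ (1 + |t₀|) ^ A' := by positivity
  have hmain := QsO83.nt_SD (QF_cellN (J := A') (V := V) (e := e) (A := A) (c := c) hX0 Qf δ hg₀
    φ p t₀ x₀ l u j n b 𝒜) hR μ hP s (z := z) hD f q
    (M := (1 + |t₀|) ^ A' * (C * pA * X0 ^ ε * D0 ^ r * M)) (by positivity) ?_
  · refine hmain.trans (le_of_eq ?_)
    unfold opL
    ring
  intro γ hγ hγs _ hγD jp hjp hlen
  have hγX : (nm γ : ℝ) ≤ X0 := hγD.trans hDX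
  set R₀ : ℝ := V * nm (e * A) / (nm c * Real.exp ((l : ℝ) / 3) ^ 2) with hR₀
  by_cases hTb : (Tb V e A c l).Nonempty
  swap
  · rw [Finset.not_nonempty_iff_eq_empty.1 hTb]
    simp only [Finset.sum_empty, Finset.sum_const_zero]
    positivity
  obtain ⟨jj, hjj⟩ := hTb
  have hR₀0 : 0 ≤ R₀ := by
    have h1 := Tb_rr he hA hc hjj
    have h2 := (mem_Tb.1 hjj).2
    linarith
  set W : Eis → Eis → ℝ := WM R₀ (2 ^ j / (nm n : ℝ) ^ 3) with hW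
  have hW0 : ∀ g₂ ∈ S X, ∀ g₃ ∈ S X, 0 ≤ W g₂ g₃ := fun g₂ _ g₃ _ =>
    H1401.WM_nonneg hR₀0 (by positivity) g₂ g₃
  set Pr : Eis → Eis → IX c → Eis → Eis → Eis → Prop := fun y B i =>
    fP (fun g₂ g₃ d => DN n g₂ g₃ d ∧ (2 : ℝ) ^ j / 2 < nm d) (Qf (e * A * y * x₀) B (dl' c i))
    with hPr
  set w : Eis → ℂ := (SD h μ r).w jp with hw
  have hw1 : ∀ n, w n ≠ 0 → (nm n : ℝ) ≤ Real.exp ((SD h μ r).len jp + r * (2 * R + 3)) := by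
    intro b hb
    have hb0 : (0 : ℝ) < nm b := by exact_mod_cast nm_pos.2 (hΦ.prim jp b hb).ne_zero
    rw [← Real.log_le_iff_le_exp hb0]
    have := (abs_le.1 (hΦ.supp jp b hb)).2
    linarith
  -- the piece
  have h1 : ∀ a ∈ 𝒜, ∀ j₂ ∈ Tb V e A c l, ∀ B ∈ bk X u,
      MNx A' V e A c X (Qf (e * A * j₂ * x₀)) δ g₀ φ p t₀ (e * A * j₂ * x₀) j₂ B j n
        (alr (dl γ (TP320.sq (q * γ) w)) a b) ≤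
      (1 + |t₀|) ^ A' * MoC Cφ η A' c (ag (alr (dl γ (TP320.sq (q * γ) w)) a b) δ g₀)
        (e * A * x₀ * kw p ^ 2 * j₂) B X (2 ^ j) W (Pr j₂ B) := by
    intro a ha j₂ hj₂ B hB
    obtain ⟨a1, a2, -⟩ := h𝒜 a ha
    have hR1 := (mem_Tb.1 hj₂).2
    unfold NPy739.MNx
    rw [← alr_bw]
    refine MNn_le fun i t => ?_
    have h2 : ∀ g₂ ∈ S X, ∀ g₃ ∈ S X,
        WM (RR V e A c j₂) (2 ^ j / (nm n : ℝ) ^ 3) g₂ g₃ ≤ W g₂ g₃ := fun g₂ _ g₃ _ =>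
      NPy739.WM_mono (by linarith) (Tb_rr he hA hc hj₂) (by positivity) g₂ g₃
    refine (NPy739.MoP_mono_W h2).trans ?_
    have h3 := MoP_bt_alr (E := e * A * j₂ * x₀) (B := B) (Z := (2 : ℝ) ^ j) (q := q) (δ := δ)
      (b := b) (P := Pr j₂ B) hCφ hη hη1 hA2 hφ (Real.exp_pos _).le hw1 hX0 hγ hγs a1 a2 hg₀
      (bk_prim hX0 hB) hW0 p t₀ i t
    have e1 : e * A * j₂ * x₀ * kw p ^ 2 = e * A * x₀ * kw p ^ 2 * j₂ := by ring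
    rw [e1] at h3
    exact h3
  have h4 := hML A' hA' Cφ η hη P hP s hs jp hjp γ q g₀ δ (e * A * x₀ * kw p ^ 2) b hγ hγs hg₀ hq
    hδ hb (Tb V e A c l) 𝒜 u X (2 ^ j) X0 U hX (one_le_pow₀ (by norm_num)) hU hXX hUX hγX hgX
    hqX hδX hbX hsX h𝒜 W Wb hW0 hWb hWb0 Pr (fun y B i g₂ g₃ d hd => by
      have h5 := hd.1.1.dvd
      exact (dvd_mul_left _ _).trans h5) M hM
    (fun v hv w' hw' hWp i g₃ hg₃ s' W0 hW01 hRl hle => by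
      rw [hlen, sub_add_cancel] at hle ⊢
      exact hcell v hv w' hw' hWp i g₃ hg₃ s' W0 hW01 hRl hle)
  have hnγ : (nm γ : ℝ) ≤ D0 ^ r := hγD
  have hX0' : 0 ≤ X0 ^ ε := Real.rpow_nonneg (by linarith) _
  calc _ ≤ ∑ a ∈ 𝒜, ∑ j₂ ∈ Tb V e A c l, ∑ B ∈ bk X u, (1 + |t₀|) ^ A' *
        MoC Cφ η A' c (ag (alr (dl γ (TP320.sq (q * γ) w)) a b) δ g₀)
          (e * A * x₀ * kw p ^ 2 * j₂) B X (2 ^ j) W (Pr j₂ B) :=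
        Finset.sum_le_sum fun a ha => Finset.sum_le_sum fun j₂ hj₂ => Finset.sum_le_sum
          fun B hB => h1 a ha j₂ hj₂ B hB
    _ = (1 + |t₀|) ^ A' * ∑ a ∈ 𝒜, ∑ j₂ ∈ Tb V e A c l, ∑ B ∈ bk X u,
        MoC Cφ η A' c (ag (alr (dl γ (TP320.sq (q * γ) w)) a b) δ g₀)
          (e * A * x₀ * kw p ^ 2 * j₂) B X (2 ^ j) W (Pr j₂ B) := by
        simp only [Finset.mul_sum]
    _ ≤ (1 + |t₀|) ^ A' * (C * pA * X0 ^ ε * nm γ * M) := mul_le_mul_of_nonneg_left h4 ht0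
    _ ≤ _ := by gcongr

/-- **the cells of a flagged list, summed over `a`** -/
theorem cell_SDa {h : ℝ → ℝ} {c₀ : ℝ} (hpu : PU h c₀) {R : ℝ} (hR0 : 0 ≤ R)
    (hR : ∀ u, cx h u ≠ 0 → |u| ≤ R) {μ : ℝ} (hμ : 0 ≤ μ) (r : ℕ) {ε : ℝ} (hε : 0 < ε) :
    ∃ C : ℝ, 1 ≤ C ∧ ∀ A' : ℕ, 2 * (r * μ) + 2 ≤ A' → ∀ Cφ η : ℝ, 0 ≤ Cφ → 0 < η → η ≤ 1 →
      ∀ φ : ℝ → ℝ, WK Cφ η A' φ → ∀ (p : ℕ × ℕ) (t₀ : ℝ) (P : DPar) (_ : P.OK)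
      (s : Fin r → Pq), (∀ i, 0 ≤ (s i).z) → ∀ (f : Fin r → Bool) (z D0 : ℝ), 1 ≤ D0 →
      ∀ q g₀ δ e A x₀ b : Eis, IsPrim q → IsPrim g₀ → IsPrim δ → IsPrim e → IsPrim A →
      IsPrim b → ∀ (V X X0 U : ℝ), 1 ≤ X → 1 ≤ U → X ≤ X0 → U ≤ X0 → D0 ^ r ≤ X0 →
      (nm g₀ : ℝ) ≤ X0 → (nm q : ℝ) ≤ X0 → (nm δ : ℝ) ≤ X0 → (nm b : ℝ) ≤ X0 →
      (∀ i, Real.exp (s i).z ≤ X0) → ∀ (𝒜 : Finset Eis),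
      (∀ a ∈ 𝒜, IsPrim a ∧ Squarefree a ∧ (nm a : ℝ) ≤ U) → ∀ c ∈ C4, ∀ (l u j : ℕ) (n : Eis)
      (Qf : Eis → Eis → Eis → Eis → Prop) (Wb : ℕ → ℕ → ℝ),
      (∀ v < NX X, ∀ w < NX X, ∀ g₂ ∈ bk X v, ∀ g₃ ∈ bk X w,
        WM (V * nm (e * A) / (nm c * Real.exp ((l : ℝ) / 3) ^ 2)) (2 ^ j / (nm n : ℝ) ^ 3) g₂ g₃ ≤
          Wb v w) → (∀ v < NX X, ∀ w < NX X, 0 ≤ Wb v w) → ∀ M : ℝ, 0 ≤ M →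
      CellX h μ C P s V e A c x₀ X Qf g₀ p l u j n Wb M →
      ∑ a ∈ 𝒜, ∑ j₂ ∈ Tb V e A c l, ∑ B ∈ bk X u, MNx A' V e A c X (Qf (e * A * j₂ * x₀)) δ g₀ φ
        p t₀ (e * A * j₂ * x₀) j₂ B j n
        (alr (sqc q (alf z D0 h (fun i => (s i).pc P) f)) a b) ≤
      C * (Cφ ^ 2 * iA A' * (η * (η ^ A')⁻¹)) * X0 ^ ε * (1 + |t₀|) ^ A' * opL r D0 * M := by
  have key : ∀ c : Eis, ∃ C : ℝ, 1 ≤ C ∧ (c ∈ C4 → ∀ A' : ℕ, 2 * (r * μ) + 2 ≤ A' →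
      ∀ Cφ η : ℝ, 0 ≤ Cφ → 0 < η → η ≤ 1 →
      ∀ φ : ℝ → ℝ, WK Cφ η A' φ → ∀ (p : ℕ × ℕ) (t₀ : ℝ) (P : DPar) (_ : P.OK)
      (s : Fin r → Pq), (∀ i, 0 ≤ (s i).z) → ∀ (f : Fin r → Bool) (z D0 : ℝ), 1 ≤ D0 →
      ∀ q g₀ δ e A x₀ b : Eis, IsPrim q → IsPrim g₀ → IsPrim δ → IsPrim e → IsPrim A →
      IsPrim b → ∀ (V X X0 U : ℝ), 1 ≤ X → 1 ≤ U → X ≤ X0 → U ≤ X0 → D0 ^ r ≤ X0 →
      (nm g₀ : ℝ) ≤ X0 → (nm q : ℝ) ≤ X0 → (nm δ : ℝ) ≤ X0 → (nm b : ℝ) ≤ X0 →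
      (∀ i, Real.exp (s i).z ≤ X0) → ∀ (𝒜 : Finset Eis),
      (∀ a ∈ 𝒜, IsPrim a ∧ Squarefree a ∧ (nm a : ℝ) ≤ U) → ∀ (l u j : ℕ) (n : Eis)
      (Qf : Eis → Eis → Eis → Eis → Prop) (Wb : ℕ → ℕ → ℝ),
      (∀ v < NX X, ∀ w < NX X, ∀ g₂ ∈ bk X v, ∀ g₃ ∈ bk X w,
        WM (V * nm (e * A) / (nm c * Real.exp ((l : ℝ) / 3) ^ 2)) (2 ^ j / (nm n : ℝ) ^ 3) g₂ g₃ ≤
          Wb v w) → (∀ v < NX X, ∀ w < NX X, 0 ≤ Wb v w) → ∀ M : ℝ, 0 ≤ M →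
      CellX h μ C P s V e A c x₀ X Qf g₀ p l u j n Wb M →
      ∑ a ∈ 𝒜, ∑ j₂ ∈ Tb V e A c l, ∑ B ∈ bk X u, MNx A' V e A c X (Qf (e * A * j₂ * x₀)) δ g₀ φ
        p t₀ (e * A * j₂ * x₀) j₂ B j n
        (alr (sqc q (alf z D0 h (fun i => (s i).pc P) f)) a b) ≤
      C * (Cφ ^ 2 * iA A' * (η * (η ^ A')⁻¹)) * X0 ^ ε * (1 + |t₀|) ^ A' * opL r D0 * M) := by
    intro c
    by_cases hc : c ∈ C4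
    · obtain ⟨C, hC, hx⟩ := cell_SDa1 hpu hR0 hR hμ r hc hε
      exact ⟨C, hC, fun _ => hx⟩
    · exact ⟨1, le_rfl, fun h => absurd h hc⟩
  choose Cf hCf hx using key
  have hsum0 : ∀ c ∈ C4, 0 ≤ Cf c := fun c _ => by linarith [hCf c]
  refine ⟨1 + ∑ c ∈ C4, Cf c, by linarith [Finset.sum_nonneg hsum0], ?_⟩
  intro A' hA' Cφ η hCφ hη hη1 φ hφ p t₀ P hP s hs f z D0 hD q g₀ δ e A x₀ b hq hg₀ hδ he hA hb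
    V X X0 U hX hU hXX hUX hDX hgX hqX hδX hbX hsX 𝒜 h𝒜 c hc l u j n Qf Wb hWb hWb0 M hM hcell
  have hle : Cf c ≤ 1 + ∑ c ∈ C4, Cf c := by
    have := Finset.single_le_sum hsum0 hc
    linarith
  refine (hx c hc A' hA' Cφ η hCφ hη hη1 φ hφ p t₀ P hP s hs f z D0 hD q g₀ δ e A x₀ b hq hg₀ hδ
    he hA hb V X X0 U hX hU hXX hUX hDX hgX hqX hδX hbX hsX 𝒜 h𝒜 l u j n Qf Wb hWb hWb0 M hM
    (hcell.mono hle)).trans ?_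
  have h2 := iA_nonneg A'
  have h3 : 0 ≤ X0 := by linarith
  have h4 := opL_nonneg r (show 0 ≤ D0 by linarith)
  gcongr

/-- **the cells of a flagged list, summed over `a`**, list form -/
theorem cell_lista {h : ℝ → ℝ} {c₀ : ℝ} (hpu : PU h c₀) {R : ℝ} (hR0 : 0 ≤ R)
    (hR : ∀ u, cx h u ≠ 0 → |u| ≤ R) {μ : ℝ} (hμ : 0 ≤ μ) (r : ℕ) {ε : ℝ} (hε : 0 < ε) :
    ∃ C : ℝ, 1 ≤ C ∧ ∀ A' : ℕ, 2 * (r * μ) + 2 ≤ A' → ∀ Cφ η : ℝ, 0 ≤ Cφ → 0 < η → η ≤ 1 →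
      ∀ φ : ℝ → ℝ, WK Cφ η A' φ → ∀ (p : ℕ × ℕ) (t₀ : ℝ) (P : DPar) (_ : P.OK)
      (ps : List Pf), ps.length = r → (∀ x ∈ ps, 0 ≤ x.1.z) → ∀ z D0 : ℝ, 1 ≤ D0 →
      ∀ q g₀ δ e A x₀ b : Eis, IsPrim q → IsPrim g₀ → IsPrim δ → IsPrim e → IsPrim A →
      IsPrim b → ∀ (V X X0 U : ℝ), 1 ≤ X → 1 ≤ U → X ≤ X0 → U ≤ X0 → D0 ^ r ≤ X0 →
      (nm g₀ : ℝ) ≤ X0 → (nm q : ℝ) ≤ X0 → (nm δ : ℝ) ≤ X0 → (nm b : ℝ) ≤ X0 →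
      (∀ x ∈ ps, Real.exp x.1.z ≤ X0) → ∀ (𝒜 : Finset Eis),
      (∀ a ∈ 𝒜, IsPrim a ∧ Squarefree a ∧ (nm a : ℝ) ≤ U) → ∀ c ∈ C4, ∀ (l u j : ℕ) (n : Eis)
      (Qf : Eis → Eis → Eis → Eis → Prop) (Wb : ℕ → ℕ → ℝ),
      (∀ v < NX X, ∀ w < NX X, ∀ g₂ ∈ bk X v, ∀ g₃ ∈ bk X w,
        WM (V * nm (e * A) / (nm c * Real.exp ((l : ℝ) / 3) ^ 2)) (2 ^ j / (nm n : ℝ) ^ 3) g₂ g₃ ≤
          Wb v w) → (∀ v < NX X, ∀ w < NX X, 0 ≤ Wb v w) → ∀ M : ℝ, 0 ≤ M →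
      CellX h μ C P (fun i => (ps.get i).1) V e A c x₀ X Qf g₀ p l u j n Wb M →
      ∑ a ∈ 𝒜, ∑ j₂ ∈ Tb V e A c l, ∑ B ∈ bk X u, MNx A' V e A c X (Qf (e * A * j₂ * x₀)) δ g₀ φ
        p t₀ (e * A * j₂ * x₀) j₂ B j n (alr (sqc q (alF z D0 P h ps)) a b) ≤
      C * (Cφ ^ 2 * iA A' * (η * (η ^ A')⁻¹)) * X0 ^ ε * (1 + |t₀|) ^ A' * opL r D0 * M := by
  obtain ⟨C, hC, hx⟩ := cell_SDa hpu hR0 hR hμ r hε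
  refine ⟨C, hC, ?_⟩
  intro A' hA' Cφ η hCφ hη hη1 φ hφ p t₀ P hP ps hr hs z D0 hD q g₀ δ e A x₀ b hq hg₀ hδ he hA hb
    V X X0 U hX hU hXX hUX hDX hgX hqX hδX hbX hsX 𝒜 h𝒜 c hc l u j n Qf Wb hWb hWb0 M hM hcell
  subst hr
  rw [Leg381.alF_get]
  exact hx A' hA' Cφ η hCφ hη hη1 φ hφ p t₀ P hP (fun i => (ps.get i).1)
    (fun i => hs _ (List.get_mem ps i)) _ z D0 hD q g₀ δ e A x₀ b hq hg₀ hδ he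
    hA hb V X X0 U hX hU hXX hUX hDX hgX hqX hδX hbX (fun i => hsX _ (List.get_mem ps i)) 𝒜 h𝒜 c
    hc l u j n Qf Wb hWb hWb0 M hM hcell

/-! ### joint cells -/

/-- **the quadratic functional of the joint cells, summed over `a`** -/
theorem QF_cellJ {J : ℕ} (φ : ℝ → ℝ) (p : ℕ × ℕ) (t₀ : ℝ) (δ : Eis) {g₀ : Eis} (hg₀ : IsPrim g₀)
    {c ν E₀ : Eis} {X Z U : ℝ} (hX : 0 ≤ X) (T : Finset Eis) {Bs : Eis → Finset Eis}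
    {Ry : Eis → ℝ} (hRy : ∀ y ∈ T, 0 ≤ Ry y) (hBs : ∀ y ∈ T, ∀ B ∈ Bs y, B ∈ S X)
    (Q : Eis → IX c → Eis → Eis → Prop) (b : Eis) (𝒜 : Finset Eis) :
    QF (fun α => ∑ a ∈ 𝒜, ∑ y ∈ T, MNJ J c ν (E₀ * y) X (Ry y) Z U (Bs y) (Q y)
      (ag (bw φ p t₀ (alr α a b)) δ g₀)) := by
  refine QF_sum1 _ fun a _ => QF_sum1 _ fun y hy => ?_
  have h2 : QF (fun α => MNJ J c ν (E₀ * y) X (Ry y) Z U (Bs y) (Q y)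
      (ag (bw φ p t₀ α) δ g₀)) :=
    QF_MNJ φ p t₀ hg₀ hX (hRy y hy) (hBs y hy) (Q y)
  exact QF_alr h2 a b

/-- **a flagged list, summed over `a`**, one constant `σ` -/
theorem cell_SDJa1 {h : ℝ → ℝ} {c₀ : ℝ} (hpu : PU h c₀) {R : ℝ} (hR0 : 0 ≤ R)
    (hR : ∀ u, cx h u ≠ 0 → |u| ≤ R) {μ : ℝ} (hμ : 0 ≤ μ) (r : ℕ) (c : Eis) {ε : ℝ} (hε : 0 < ε) :
    ∃ C : ℝ, 1 ≤ C ∧ ∀ A' : ℕ, 2 * (r * μ) + 2 ≤ A' → ∀ Cφ η : ℝ, 0 ≤ Cφ → 0 < η → η ≤ 1 →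
      ∀ φ : ℝ → ℝ, WK Cφ η A' φ → ∀ (p : ℕ × ℕ) (t₀ : ℝ) (P : DPar) (_ : P.OK)
      (s : Fin r → Pq), (∀ i, 0 ≤ (s i).z) → ∀ (f : Fin r → Bool) (z D0 : ℝ), 1 ≤ D0 →
      ∀ q g₀ δ ν E₀ b : Eis, IsPrim q → IsPrim g₀ → IsPrim δ → IsPrim ν → IsPrim b →
      ∀ (X X0 Ua : ℝ), 1 ≤ X → 1 ≤ Ua → X ≤ X0 → Ua ≤ X0 → D0 ^ r ≤ X0 → (nm g₀ : ℝ) ≤ X0 →
      (nm q : ℝ) ≤ X0 → (nm δ : ℝ) ≤ X0 → (nm ν : ℝ) ≤ X0 → (nm b : ℝ) ≤ X0 →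
      (∀ i, Real.exp (s i).z ≤ X0) → ∀ (𝒜 : Finset Eis),
      (∀ a ∈ 𝒜, IsPrim a ∧ Squarefree a ∧ (nm a : ℝ) ≤ Ua) →
      ∀ (T : Finset Eis) (Bs : Eis → Finset Eis) (Z Rm U : ℝ) (Ry : Eis → ℝ),
      0 ≤ Z → 0 ≤ Rm → 1 ≤ U → U ≤ X0 → (∀ y ∈ T, 0 ≤ Ry y ∧ Ry y ≤ Rm) →
      (∀ y ∈ T, ∀ B ∈ Bs y, B ∈ S X ∧ U / 2 ≤ nm B ∧ (nm B : ℝ) ≤ U) →
      ∀ (Q : Eis → IX c → Eis → Eis → Prop) (M : ℝ), 0 ≤ M →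
      CellXJ h μ C P s c δ g₀ ν E₀ p T Bs X Z Rm U Q (∑ k, (s k).z) M →
      ∑ a ∈ 𝒜, ∑ y ∈ T, MNJ A' c ν (E₀ * y) X (Ry y) Z U (Bs y) (Q y)
        (ag (bw φ p t₀ (alr (sqc q (alf z D0 h (fun i => (s i).pc P) f)) a b)) δ g₀) ≤
      ((100 * D0) ^ r) ^ 2 *
        (C * (Cφ ^ 2 * iA A' * (η * (η ^ A')⁻¹)) * (1 + |t₀|) ^ A' * X0 ^ ε * (D0 ^ r * M)) := by
  have hΦ := sd_ok hpu hR0 hR hμ r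
  obtain ⟨C, hC, hML⟩ := cellJ_sumQ hpu hR0 hR hμ r c hε
  refine ⟨C, hC, ?_⟩
  intro A' hA' Cφ η hCφ hη hη1 φ hφ p t₀ P hP s hs f z D0 hD q g₀ δ ν E₀ b hq hg₀ hδ hν hb
    X X0 Ua hX hUa hXX hUaX hDX hgX hqX hδX hνX hbX hsX 𝒜 h𝒜 T Bs Z Rm U Ry hZ hRm hU hUX hRy hBs
    Q M hM hcell
  have hX0 : 0 ≤ X := by linarith
  have hX01 : 1 ≤ X0 := by linarith
  have hX00 : 0 ≤ X0 := by linarith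
  have hC0 : 0 ≤ C := by linarith
  have hD0 : 0 ≤ D0 := by linarith
  have hA2 : 2 ≤ A' := by
    have h1 : (0 : ℝ) ≤ 2 * (r * μ) := by positivity
    have : (2 : ℝ) ≤ A' := by linarith
    exact_mod_cast this
  have hi := iA_nonneg A'
  set pA : ℝ := Cφ ^ 2 * iA A' * (η * (η ^ A')⁻¹) with hpA
  have hpA0 : 0 ≤ pA := by positivity
  have ht0 : 0 ≤ (1 + |t₀|) ^ A' := by positivity
  refine QsO83.nt_SD (QF_cellJ (J := A') (ν := ν) (E₀ := E₀) (Z := Z) (U := U) φ p t₀ δ hg₀ hX0 T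
    (fun y hy => (hRy y hy).1) (fun y hy B hB => (hBs y hy B hB).1) Q b 𝒜) hR μ hP s (z := z) hD f
    q (by positivity) ?_
  intro γ hγ hγs _ hγD jp hjp hlen
  have hγX : (nm γ : ℝ) ≤ X0 := hγD.trans hDX
  set w : Eis → ℂ := (SD h μ r).w jp with hw
  have hw1 : ∀ n, w n ≠ 0 → (nm n : ℝ) ≤ Real.exp ((SD h μ r).len jp + r * (2 * R + 3)) := by
    intro b hb
    have hb0 : (0 : ℝ) < nm b := by exact_mod_cast nm_pos.2 (hΦ.prim jp b hb).ne_zero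
    rw [← Real.log_le_iff_le_exp hb0]
    have := (abs_le.1 (hΦ.supp jp b hb)).2
    linarith
  have h1 : ∀ a ∈ 𝒜, ∀ y ∈ T, MNJ A' c ν (E₀ * y) X (Ry y) Z U (Bs y) (Q y)
        (ag (bw φ p t₀ (alr (dl γ (TP320.sq (q * γ) w)) a b)) δ g₀) ≤
      (1 + |t₀|) ^ A' *
        MoJCQr Cφ η A' c γ q g₀ δ w a b ν (E₀ * kw p ^ 2 * y) X Rm Z U (Bs y) (Q y) := by
    intro a ha y hy
    obtain ⟨a1, a2, -⟩ := h𝒜 a ha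
    rw [← alr_bw]
    refine MNJ_le (mul_nonneg ht0 (MoJCQr_nonneg hη hRm)) fun i t => ?_
    refine (MoJQ_mono (hRy y hy).2 _ _).trans ?_
    have h3 := MoJQ_bt_alr (E := E₀ * y) (q := q) (δ := δ) (b := b) (ν := ν) hCφ hη hη1 hA2 hφ
      (Real.exp_pos _).le hw1 hX0 hRm hZ (by linarith : (0 : ℝ) ≤ U) hγ hγs a1 a2 hg₀
      (fun B hB => (hBs y hy B hB).1) (Q y) p t₀ i t
    have e1 : E₀ * y * kw p ^ 2 = E₀ * kw p ^ 2 * y := by ring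
    rw [e1] at h3
    exact h3
  have h4 := hML A' hA' Cφ η hη P hP s hs jp hjp γ q g₀ δ (E₀ * kw p ^ 2) ν b hγ hγs hg₀ hq
    hδ hν hb T 𝒜 Bs X Z Rm U X0 Ua hX hZ hRm hU hUa hXX hUX hUaX hγX hgX hqX hδX hνX hbX hsX h𝒜
    hBs Q M hM
    (fun n hn g hg hgδ u hu v hv w' hw' k1 k2 k3 i g₃ hg₃ s' W0 hW0 hRl hle => by
      rw [hlen, sub_add_cancel] at hle ⊢
      exact hcell n hn g hg hgδ u hu v hv w' hw' k1 k2 k3 i g₃ hg₃ s' W0 hW0 hRl hle)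
  have hX0' : 0 ≤ X0 ^ ε := Real.rpow_nonneg (by linarith) _
  calc _ ≤ ∑ a ∈ 𝒜, ∑ y ∈ T, (1 + |t₀|) ^ A' *
        MoJCQr Cφ η A' c γ q g₀ δ w a b ν (E₀ * kw p ^ 2 * y) X Rm Z U (Bs y) (Q y) :=
        Finset.sum_le_sum fun a ha => Finset.sum_le_sum fun y hy => h1 a ha y hy
    _ = (1 + |t₀|) ^ A' * ∑ a ∈ 𝒜, ∑ y ∈ T,
        MoJCQr Cφ η A' c γ q g₀ δ w a b ν (E₀ * kw p ^ 2 * y) X Rm Z U (Bs y) (Q y) := by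
        simp only [Finset.mul_sum]
    _ ≤ (1 + |t₀|) ^ A' * (C * pA * X0 ^ ε * nm γ * M) := mul_le_mul_of_nonneg_left h4 ht0
    _ ≤ (1 + |t₀|) ^ A' * (C * pA * X0 ^ ε * D0 ^ r * M) := by gcongr
    _ = _ := by ring

/-- **a flagged list, summed over `a`** -/
theorem cell_SDJa {h : ℝ → ℝ} {c₀ : ℝ} (hpu : PU h c₀) {R : ℝ} (hR0 : 0 ≤ R)
    (hR : ∀ u, cx h u ≠ 0 → |u| ≤ R) {μ : ℝ} (hμ : 0 ≤ μ) (r : ℕ) {ε : ℝ} (hε : 0 < ε) :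
    ∃ C : ℝ, 1 ≤ C ∧ ∀ A' : ℕ, 2 * (r * μ) + 2 ≤ A' → ∀ Cφ η : ℝ, 0 ≤ Cφ → 0 < η → η ≤ 1 →
      ∀ φ : ℝ → ℝ, WK Cφ η A' φ → ∀ (p : ℕ × ℕ) (t₀ : ℝ) (P : DPar) (_ : P.OK)
      (s : Fin r → Pq), (∀ i, 0 ≤ (s i).z) → ∀ (f : Fin r → Bool) (z D0 : ℝ), 1 ≤ D0 →
      ∀ q g₀ δ ν E₀ b : Eis, IsPrim q → IsPrim g₀ → IsPrim δ → IsPrim ν → IsPrim b →
      ∀ (X X0 Ua : ℝ), 1 ≤ X → 1 ≤ Ua → X ≤ X0 → Ua ≤ X0 → D0 ^ r ≤ X0 → (nm g₀ : ℝ) ≤ X0 →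
      (nm q : ℝ) ≤ X0 → (nm δ : ℝ) ≤ X0 → (nm ν : ℝ) ≤ X0 → (nm b : ℝ) ≤ X0 →
      (∀ i, Real.exp (s i).z ≤ X0) → ∀ (𝒜 : Finset Eis),
      (∀ a ∈ 𝒜, IsPrim a ∧ Squarefree a ∧ (nm a : ℝ) ≤ Ua) →
      ∀ c ∈ C4, ∀ (T : Finset Eis) (Bs : Eis → Finset Eis) (Z Rm U : ℝ) (Ry : Eis → ℝ),
      0 ≤ Z → 0 ≤ Rm → 1 ≤ U → U ≤ X0 → (∀ y ∈ T, 0 ≤ Ry y ∧ Ry y ≤ Rm) →
      (∀ y ∈ T, ∀ B ∈ Bs y, B ∈ S X ∧ U / 2 ≤ nm B ∧ (nm B : ℝ) ≤ U) →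
      ∀ (Q : Eis → IX c → Eis → Eis → Prop) (M : ℝ), 0 ≤ M →
      CellXJ h μ C P s c δ g₀ ν E₀ p T Bs X Z Rm U Q (∑ k, (s k).z) M →
      ∑ a ∈ 𝒜, ∑ y ∈ T, MNJ A' c ν (E₀ * y) X (Ry y) Z U (Bs y) (Q y)
        (ag (bw φ p t₀ (alr (sqc q (alf z D0 h (fun i => (s i).pc P) f)) a b)) δ g₀) ≤
      ((100 * D0) ^ r) ^ 2 *
        (C * (Cφ ^ 2 * iA A' * (η * (η ^ A')⁻¹)) * (1 + |t₀|) ^ A' * X0 ^ ε * (D0 ^ r * M)) := by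
  have key := fun c : Eis => cell_SDJa1 hpu hR0 hR hμ r c hε
  choose Cf hCf hx using key
  have hsum0 : ∀ c ∈ C4, 0 ≤ Cf c := fun c _ => by linarith [hCf c]
  refine ⟨1 + ∑ c ∈ C4, Cf c, by linarith [Finset.sum_nonneg hsum0], ?_⟩
  intro A' hA' Cφ η hCφ hη hη1 φ hφ p t₀ P hP s hs f z D0 hD q g₀ δ ν E₀ b hq hg₀ hδ hν hb
    X X0 Ua hX hUa hXX hUaX hDX hgX hqX hδX hνX hbX hsX 𝒜 h𝒜 c hc T Bs Z Rm U Ry hZ hRm hU hUX hRy hBs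
    Q M hM hcell
  have hle : Cf c ≤ 1 + ∑ c ∈ C4, Cf c := by
    have := Finset.single_le_sum hsum0 hc
    linarith
  refine (hx c A' hA' Cφ η hCφ hη hη1 φ hφ p t₀ P hP s hs f z D0 hD q g₀ δ ν E₀ b hq hg₀ hδ hν hb
    X X0 Ua hX hUa hXX hUaX hDX hgX hqX hδX hνX hbX hsX 𝒜 h𝒜 T Bs Z Rm U Ry hZ hRm hU hUX hRy hBs
    Q M hM (hcell.mono hle)).trans ?_
  have h2 := iA_nonneg A'
  have h3 : 0 ≤ X0 := by linarith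
  have h4 : 0 ≤ D0 := by linarith
  gcongr

/-- **a flagged list, summed over `a`**, list form -/
theorem cell_listJa {h : ℝ → ℝ} {c₀ : ℝ} (hpu : PU h c₀) {R : ℝ} (hR0 : 0 ≤ R)
    (hR : ∀ u, cx h u ≠ 0 → |u| ≤ R) {μ : ℝ} (hμ : 0 ≤ μ) (r : ℕ) {ε : ℝ} (hε : 0 < ε) :
    ∃ C : ℝ, 1 ≤ C ∧ ∀ A' : ℕ, 2 * (r * μ) + 2 ≤ A' → ∀ Cφ η : ℝ, 0 ≤ Cφ → 0 < η → η ≤ 1 →
      ∀ φ : ℝ → ℝ, WK Cφ η A' φ → ∀ (p : ℕ × ℕ) (t₀ : ℝ) (P : DPar) (_ : P.OK)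
      (ps : List Pf), ps.length = r → (∀ x ∈ ps, 0 ≤ x.1.z) → ∀ z D0 : ℝ, 1 ≤ D0 →
      ∀ q g₀ δ ν E₀ b : Eis, IsPrim q → IsPrim g₀ → IsPrim δ → IsPrim ν → IsPrim b →
      ∀ (X X0 Ua : ℝ), 1 ≤ X → 1 ≤ Ua → X ≤ X0 → Ua ≤ X0 → D0 ^ r ≤ X0 → (nm g₀ : ℝ) ≤ X0 →
      (nm q : ℝ) ≤ X0 → (nm δ : ℝ) ≤ X0 → (nm ν : ℝ) ≤ X0 → (nm b : ℝ) ≤ X0 →
      (∀ x ∈ ps, Real.exp x.1.z ≤ X0) → ∀ (𝒜 : Finset Eis),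
      (∀ a ∈ 𝒜, IsPrim a ∧ Squarefree a ∧ (nm a : ℝ) ≤ Ua) →
      ∀ c ∈ C4, ∀ (T : Finset Eis) (Bs : Eis → Finset Eis) (Z Rm U : ℝ) (Ry : Eis → ℝ),
      0 ≤ Z → 0 ≤ Rm → 1 ≤ U → U ≤ X0 → (∀ y ∈ T, 0 ≤ Ry y ∧ Ry y ≤ Rm) →
      (∀ y ∈ T, ∀ B ∈ Bs y, B ∈ S X ∧ U / 2 ≤ nm B ∧ (nm B : ℝ) ≤ U) →
      ∀ (Q : Eis → IX c → Eis → Eis → Prop) (M : ℝ), 0 ≤ M →
      CellXJ h μ C P (fun i => (ps.get i).1) c δ g₀ ν E₀ p T Bs X Z Rm U Q (LF ps) M →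
      ∑ a ∈ 𝒜, ∑ y ∈ T, MNJ A' c ν (E₀ * y) X (Ry y) Z U (Bs y) (Q y)
        (ag (bw φ p t₀ (alr (sqc q (alF z D0 P h ps)) a b)) δ g₀) ≤
      ((100 * D0) ^ r) ^ 2 *
        (C * (Cφ ^ 2 * iA A' * (η * (η ^ A')⁻¹)) * (1 + |t₀|) ^ A' * X0 ^ ε * (D0 ^ r * M)) := by
  obtain ⟨C, hC, hx⟩ := cell_SDJa hpu hR0 hR hμ r hε
  refine ⟨C, hC, ?_⟩
  intro A' hA' Cφ η hCφ hη hη1 φ hφ p t₀ P hP ps hr hs z D0 hD q g₀ δ ν E₀ b hq hg₀ hδ hν hb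
    X X0 Ua hX hUa hXX hUaX hDX hgX hqX hδX hνX hbX hsX 𝒜 h𝒜 c hc T Bs Z Rm U Ry hZ hRm hU hUX hRy hBs
    Q M hM hcell
  subst hr
  rw [Leg381.alF_get]
  refine hx A' hA' Cφ η hCφ hη hη1 φ hφ p t₀ P hP (fun i => (ps.get i).1)
    (fun i => hs _ (List.get_mem ps i)) _ z D0 hD q g₀ δ ν E₀ b hq hg₀ hδ hν hb
    X X0 Ua hX hUa hXX hUaX hDX hgX hqX hδX hνX hbX (fun i => hsX _ (List.get_mem ps i)) 𝒜 h𝒜 c hc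
    T Bs Z Rm U Ry hZ hRm hU hUX hRy hBs Q M hM ?_
  have e1 : LF ps = ∑ k : Fin ps.length, (ps.get k).1.z := by
    unfold Leg381.LF
    conv_lhs => rw [← List.ofFn_get ps]
    rw [List.map_ofFn, List.sum_ofFn]
    rfl
  rw [← e1]
  exact hcell

end Crest.Agent.R017.RClX791
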