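import Crest.Agent.R017.RClc_83

/-!
# Row 17, E2, R-side of the `l`-terms of the tail of (LB) (helper83), part d

* `Qla_nat` : the inner sum over `(l, a)` for a natural piece, from the natural cells
-/

set_option autoImplicit false
set_option maxHeartbeats 400000

noncomputable section

open Complex Finset
open scoped ComplexConjugate Classical

namespace Crest.Agent.R017.RCl83

open Crest.Agent.R012 Crest.Agent.R012.Eis Crest.Agent.R012.Gauss880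
open Crest.Agent.R012.LS2 (S mem_S)
open Crest.Agent.R012.Mob705 (pdiv mem_pdiv)
open Crest.Agent.R012.Weight600 (pw)
open Crest.Agent.R012.Div277 (tau dvs mem_dvs tau_le_rpow nm_le_of_dvd)
open Crest.Agent.R017.CM106 (CS FS sub)
open Crest.Agent.R017.HP842 (sqc pc)
open Crest.Agent.R017.FE47
open Crest.Agent.R017.B770 Crest.Agent.R017.Prov71
open Crest.Agent.R017.TPOk571 (IP SD SD_w sd_ok)
open Crest.Agent.R017.X6C180 (IX dl')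
open Crest.Agent.R017.H1401 (pb mem_pb WJ WM DN HW)
open Crest.Agent.R017.Win813 (iA iA_nonneg WK)
open Crest.Agent.R017.XRG106
open Crest.Agent.R017.MoF106
open Crest.Agent.R017.MoL106 (FromP Q4 mem_Q4 f4 kw)
open Crest.Agent.R017.E2440 (Qs RR prs mem_prs C4 mem_C4 ag KDd MT blk bkN blk_lt_bkN blk_lt blk_le)
open Crest.Agent.R017.E2D401 (MoJ Bj)
open Crest.Agent.R017.QsJ401 (Sz Hm Tb Nj CellN CellJ mem_Tb mem_Bj one_le_nmC N0e NX_pos Qs_cellsJ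
  small_num)
open Crest.Agent.R017.QsO83 (bw bw_ne FS_bw)
open Crest.Agent.R017.RGw813 (bt)
open Crest.Agent.R017.MoCa83

lemma bk_lt_NX {X : ℝ} (hX : 1 ≤ X) {u : ℕ} {n : Eis} (h : n ∈ bk X u) : u < NX X := by
  have h1 := (mem_bk (by linarith)).1 h
  have hn : (0 : ℝ) < nm n := by exact_mod_cast nm_pos.2 h1.1.2.1.ne_zero
  have h2 : Real.log (nm n) ≤ Real.log X := Real.log_le_log hn h1.1.1
  rw [← h1.2]
  unfold MoF106.UU MoF106.NX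
  exact Nat.lt_succ_of_le (Nat.floor_le_floor (by linarith))

/-- the index set of the separate cells -/
def IN (V X : ℝ) (N0 : ℕ) (ν : Eis) : Finset (Eis × ℕ × ℕ × ℕ × Eis) :=
  C4 ×ˢ Finset.range (NX (Real.sqrt V)) ×ˢ Finset.range (NX X) ×ˢ Finset.range N0 ×ˢ dvs ν

/-- the index set of the joint cells -/
def IJ (V X : ℝ) (N0 : ℕ) : Finset (Eis × ℕ × ℕ × ℕ) :=
  C4 ×ˢ Finset.range (NX (Real.sqrt V)) ×ˢ Finset.range (bkN X) ×ˢ Finset.range N0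

lemma card_IN (V X : ℝ) (N0 : ℕ) (ν : Eis) :
    ((IN V X N0 ν).card : ℝ) =
      C4.card * ((NX (Real.sqrt V)) * (NX X) * N0 * (dvs ν).card) := by
  unfold IN
  simp only [Finset.card_product, Finset.card_range]
  push_cast
  ring

lemma card_IJ (V X : ℝ) (N0 : ℕ) :
    ((IJ V X N0).card : ℝ) = C4.card * ((NX (Real.sqrt V)) * (bkN X) * N0) := by
  unfold IJ
  simp only [Finset.card_product, Finset.card_range]
  push_cast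
  ring

/-- the windowed pieces -/
lemma bwdl_facts {φ : ℝ → ℝ} {p : ℕ × ℕ} {t₀ : ℝ} {γ q : Eis} {w : Eis → ℂ} (hγ : IsPrim γ)
    (hγs : Squarefree γ) {X : ℝ} (hX : 0 ≤ X)
    (hφX : ∀ u, φ u ≠ 0 → X / 2 < Real.exp u ∧ Real.exp u ≤ X) :
    FS (bw φ p t₀ (dl γ (TP320.sq (q * γ) w))) ∧
    (∀ n, bw φ p t₀ (dl γ (TP320.sq (q * γ) w)) n ≠ 0 → Squarefree n) ∧
    (∀ n, bw φ p t₀ (dl γ (TP320.sq (q * γ) w)) n ≠ 0 → X / 2 < nm n ∧ (nm n : ℝ) ≤ X) := by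
  have h1 : ∀ n, bw φ p t₀ (dl γ (TP320.sq (q * γ) w)) n ≠ 0 → IsPrim n ∧ Squarefree n :=
    fun n hn => dl_sqf hγ hγs (bw_ne hn)
  have h2 : ∀ n, bw φ p t₀ (dl γ (TP320.sq (q * γ) w)) n ≠ 0 → X / 2 < nm n ∧ (nm n : ℝ) ≤ X := by
    intro n hn
    have h3 : φ (Real.log (nm n)) ≠ 0 := by
      intro h0
      apply hn
      unfold QsO83.bw RGw813.bt RGw813.tw2 Win813.wn
      simp [h0]
    have hn0 : (0 : ℝ) < nm n := by exact_mod_cast nm_pos.2 (h1 n hn).1.ne_zero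
    have h4 := hφX _ h3
    rwa [Real.exp_log hn0] at h4
  refine ⟨⟨?_, fun m hm => (h1 m hm).1⟩, fun n hn => (h1 n hn).2, h2⟩
  refine (Finset.finite_toSet (S X)).subset fun n hn => ?_
  rw [Function.mem_support] at hn
  rw [Finset.mem_coe, mem_S hX]
  exact ⟨(h2 n hn).2, h1 n hn⟩

/-- the separate cells which occur for some `l` -/
def oN (T' H X V B0 : ℝ) (Λ : Finset Eis) (Kl : Eis → ℝ) (ν e A c : Eis) (jm : ℕ → ℕ → Prop)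
    (l u j : ℕ) : Prop :=
  ∃ k ∈ Λ, CellN T' H X V (Kl k) B0 ν e A c jm l u j

/-- the joint cells which occur for some `l` -/
def oJ (T' H X V B0 : ℝ) (Λ : Finset Eis) (Kl : Eis → ℝ) (ν e A c : Eis) (l u j : ℕ) : Prop :=
  ∃ k ∈ Λ, CellJ T' H X V (Kl k) B0 ν e A c l u j

section
variable {T' H X V B0 : ℝ} {Λ : Finset Eis} {Kl : Eis → ℝ} {ν e A : Eis}
    {jm : Eis → ℕ → ℕ → ℕ → Prop} {N0 : ℕ}

/-- the sum over the separate cells which occur -/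
def TN (T' H X V B0 : ℝ) (Λ : Finset Eis) (Kl : Eis → ℝ) (ν e A : Eis)
    (jm : Eis → ℕ → ℕ → ℕ → Prop) (N0 : ℕ) (G : Eis → ℕ → ℕ → ℕ → Eis → ℝ) : ℝ :=
  ∑ x ∈ IN V X N0 ν, if oN T' H X V B0 Λ Kl ν e A x.1 (jm x.1 x.2.1) x.2.1 x.2.2.1 x.2.2.2.1
    then G x.1 x.2.1 x.2.2.1 x.2.2.2.1 x.2.2.2.2 else 0

/-- the sum over the joint cells which occur -/
def TJ (T' H X V B0 : ℝ) (Λ : Finset Eis) (Kl : Eis → ℝ) (ν e A : Eis)
    (jm : Eis → ℕ → ℕ → ℕ → Prop) (N0 : ℕ) (G : Eis → ℕ → ℕ → ℕ → ℝ) : ℝ :=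
  ∑ x ∈ IJ V X N0, if jm x.1 x.2.1 x.2.2.1 x.2.2.2 ∧
      oJ T' H X V B0 Λ Kl ν e A x.1 x.2.1 x.2.2.1 x.2.2.2
    then G x.1 x.2.1 x.2.2.1 x.2.2.2 else 0

lemma TN_nonneg {G : Eis → ℕ → ℕ → ℕ → Eis → ℝ} (hG : ∀ c l u j n, 0 ≤ G c l u j n) :
    0 ≤ TN T' H X V B0 Λ Kl ν e A jm N0 G := by
  refine Finset.sum_nonneg fun x _ => ?_
  split_ifs
  · exact hG _ _ _ _ _
  · exact le_rfl

lemma TJ_nonneg {G : Eis → ℕ → ℕ → ℕ → ℝ} (hG : ∀ c l u j, 0 ≤ G c l u j) :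
    0 ≤ TJ T' H X V B0 Λ Kl ν e A jm N0 G := by
  refine Finset.sum_nonneg fun x _ => ?_
  split_ifs
  · exact hG _ _ _ _
  · exact le_rfl

/-- one separate cell -/
lemma le_TN (hX : 1 ≤ X) (hV : 1 ≤ V) {G : Eis → ℕ → ℕ → ℕ → Eis → ℝ}
    (hG : ∀ c l u j n, 0 ≤ G c l u j n) (hN : ∀ k ∈ Λ, ∀ c ∈ C4, ∀ l, ∀ j₂ ∈ Tb V e A c l,
      ∀ B ∈ S X, Nj T' H X V (Kl k) B0 ν e A c j₂ B ≤ N0) {k : Eis} (hk : k ∈ Λ) {c : Eis}
    (hc : c ∈ C4) {l u j : ℕ} (h : CellN T' H X V (Kl k) B0 ν e A c (jm c l) l u j) {n : Eis}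
    (hn : n ∈ dvs ν) : G c l u j n ≤ TN T' H X V B0 Λ Kl ν e A jm N0 G := by
  have hX0 : 0 ≤ X := by linarith
  have hsV : 1 ≤ Real.sqrt V := Real.one_le_sqrt.mpr hV
  obtain ⟨j₂, hj₂, B, hB, hj, -⟩ := id h
  have h1 : l < NX (Real.sqrt V) := bk_lt_NX hsV (mem_Tb.1 hj₂).1
  have h2 : u < NX X := bk_lt_NX hX hB
  have h3 : j < N0 := hj.trans_le (hN k hk c hc l j₂ hj₂ B ((mem_S hX0).2 ((mem_bk hX0).1 hB).1))
  have hx : (c, l, u, j, n) ∈ IN V X N0 ν := by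
    unfold IN
    simp only [Finset.mem_product, Finset.mem_range]
    exact ⟨hc, h1, h2, h3, hn⟩
  have h4 := Finset.single_le_sum (f := fun x : Eis × ℕ × ℕ × ℕ × Eis =>
    if oN T' H X V B0 Λ Kl ν e A x.1 (jm x.1 x.2.1) x.2.1 x.2.2.1 x.2.2.2.1
    then G x.1 x.2.1 x.2.2.1 x.2.2.2.1 x.2.2.2.2 else 0) (fun x _ => by
      split_ifs
      · exact hG _ _ _ _ _
      · exact le_rfl) hx
  rw [if_pos ⟨k, hk, h⟩] at h4
  exact h4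

/-- one joint cell -/
lemma le_TJ (hX : 1 ≤ X) (hV : 1 ≤ V) {G : Eis → ℕ → ℕ → ℕ → ℝ}
    (hG : ∀ c l u j, 0 ≤ G c l u j) (hN : ∀ k ∈ Λ, ∀ c ∈ C4, ∀ l, ∀ j₂ ∈ Tb V e A c l,
      ∀ B ∈ S X, Nj T' H X V (Kl k) B0 ν e A c j₂ B ≤ N0) {k : Eis} (hk : k ∈ Λ) {c : Eis}
    (hc : c ∈ C4) {l u j : ℕ} (hjm : jm c l u j)
    (h : CellJ T' H X V (Kl k) B0 ν e A c l u j) :
    G c l u j ≤ TJ T' H X V B0 Λ Kl ν e A jm N0 G := by
  have hX0 : 0 ≤ X := by linarith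
  have hsV : 1 ≤ Real.sqrt V := Real.one_le_sqrt.mpr hV
  obtain ⟨j₂, hj₂, B, hB⟩ := id h
  rw [mem_Bj] at hB
  have h1 : l < NX (Real.sqrt V) := bk_lt_NX hsV (mem_Tb.1 hj₂).1
  have h2 : u < bkN X := hB.2.1 ▸ blk_lt_bkN hX0 hB.1
  have h3 : j < N0 := hB.2.2.trans_le (hN k hk c hc l j₂ hj₂ B hB.1)
  have hx : (c, l, u, j) ∈ IJ V X N0 := by
    unfold IJ
    simp only [Finset.mem_product, Finset.mem_range]
    exact ⟨hc, h1, h2, h3⟩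
  have h4 := Finset.single_le_sum (f := fun x : Eis × ℕ × ℕ × ℕ =>
    if jm x.1 x.2.1 x.2.2.1 x.2.2.2 ∧ oJ T' H X V B0 Λ Kl ν e A x.1 x.2.1 x.2.2.1 x.2.2.2
    then G x.1 x.2.1 x.2.2.1 x.2.2.2 else 0) (fun x _ => by
      split_ifs
      · exact hG _ _ _ _
      · exact le_rfl) hx
  rw [if_pos ⟨hjm, k, hk, h⟩] at h4
  exact h4

/-- the sum over `a` of the separate cells -/
lemma sum_TN {𝒜 : Finset Eis} {G : Eis → Eis → ℕ → ℕ → ℕ → Eis → ℝ} {b : ℝ} (hb : 0 ≤ b)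
    (h : ∀ c ∈ C4, ∀ l u j, oN T' H X V B0 Λ Kl ν e A c (jm c l) l u j → ∀ n ∈ dvs ν,
      ∑ a ∈ 𝒜, G a c l u j n ≤ b) :
    ∑ a ∈ 𝒜, TN T' H X V B0 Λ Kl ν e A jm N0 (G a) ≤ (IN V X N0 ν).card * b := by
  unfold TN
  rw [Finset.sum_comm]
  refine (Finset.sum_le_card_nsmul _ _ b fun x hx => ?_).trans (le_of_eq (nsmul_eq_mul _ _))
  unfold IN at hx
  simp only [Finset.mem_product, Finset.mem_range] at hx
  by_cases h0 : oN T' H X V B0 Λ Kl ν e A x.1 (jm x.1 x.2.1) x.2.1 x.2.2.1 x.2.2.2.1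
  · simp only [if_pos h0]
    exact h x.1 hx.1 _ _ _ h0 _ hx.2.2.2.2
  · simp only [if_neg h0, Finset.sum_const_zero]
    exact hb

/-- the sum over `a` of the joint cells -/
lemma sum_TJ {𝒜 : Finset Eis} {G : Eis → Eis → ℕ → ℕ → ℕ → ℝ} {b : ℝ} (hb : 0 ≤ b)
    (h : ∀ c ∈ C4, ∀ l u j, jm c l u j → oJ T' H X V B0 Λ Kl ν e A c l u j →
      ∑ a ∈ 𝒜, G a c l u j ≤ b) :
    ∑ a ∈ 𝒜, TJ T' H X V B0 Λ Kl ν e A jm N0 (G a) ≤ (IJ V X N0).card * b := by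
  unfold TJ
  rw [Finset.sum_comm]
  refine (Finset.sum_le_card_nsmul _ _ b fun x hx => ?_).trans (le_of_eq (nsmul_eq_mul _ _))
  unfold IJ at hx
  simp only [Finset.mem_product, Finset.mem_range] at hx
  by_cases h0 : jm x.1 x.2.1 x.2.2.1 x.2.2.2 ∧
      oJ T' H X V B0 Λ Kl ν e A x.1 x.2.1 x.2.2.1 x.2.2.2
  · simp only [if_pos h0]
    exact h x.1 hx.1 _ _ _ h0.1 h0.2
  · simp only [if_neg h0, Finset.sum_const_zero]
    exact hb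

end

lemma card_C4' : C4.card ≤ 4 := by
  unfold E2440.C4
  refine (Finset.card_insert_le _ _).trans ?_
  have h1 := Finset.card_insert_le (3 : Eis) {3 * Eis.w, 3 * Eis.w ^ 2}
  have h2 := Finset.card_insert_le (3 * Eis.w : Eis) {3 * Eis.w ^ 2}
  rw [Finset.card_singleton] at h2
  omega

lemma rpow_third {V K x : ℝ} (hK : 0 < K) :
    (V ^ (-(1 : ℝ) / 3) * K ^ ((2 : ℝ) / 3) / x) = K ^ ((2 : ℝ) / 3) * (V ^ (-(1 : ℝ) / 3) / x) := by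
  ring

/-- the weights of `l` -/
lemma wt_real {W Wm k kt M0 M1 v t P : ℝ} (hW : 0 ≤ W) (hWm : W ≤ Wm) (hk : 0 < k) (hkt : k ≤ kt)
    (hM0 : 0 ≤ M0) (hM1 : 0 ≤ M1) (hv : 0 ≤ v) (ht : 0 ≤ t) (hP : 1 ≤ P) (hkP : k⁻¹ ≤ P) :
    W * k ^ (-(2 / 3) : ℝ) * ((k ^ ((2 : ℝ) / 3) * v) * M0 + (k ^ ((2 : ℝ) / 3) * v) ^ 2 * M1 + t) ≤
      Wm * (v * M0 + kt ^ ((2 : ℝ) / 3) * v ^ 2 * M1 + P * t) := by
  have e1 : k ^ (-(2 / 3) : ℝ) * k ^ ((2 : ℝ) / 3) = 1 := by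
    rw [← Real.rpow_add hk]; norm_num
  have h1 : k ^ ((2 : ℝ) / 3) ≤ kt ^ ((2 : ℝ) / 3) := Real.rpow_le_rpow hk.le hkt (by norm_num)
  have h2 : k ^ (-(2 / 3) : ℝ) ≤ P := by
    have e2 : k ^ (-(2 / 3) : ℝ) = (k⁻¹) ^ ((2 : ℝ) / 3) := by
      rw [Real.inv_rpow hk.le, ← Real.rpow_neg hk.le]
    rw [e2]
    calc (k⁻¹) ^ ((2 : ℝ) / 3) ≤ P ^ ((2 : ℝ) / 3) :=
          Real.rpow_le_rpow (by positivity) hkP (by norm_num)
      _ ≤ P ^ (1 : ℝ) := Real.rpow_le_rpow_of_exponent_le hP (by norm_num)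
      _ = P := Real.rpow_one P
  have hkp : 0 < k ^ ((2 : ℝ) / 3) := Real.rpow_pos_of_pos hk _
  have hkm : 0 < k ^ (-(2 / 3) : ℝ) := Real.rpow_pos_of_pos hk _
  have e3 : k ^ (-(2 / 3) : ℝ) * ((k ^ ((2 : ℝ) / 3) * v) * M0 + (k ^ ((2 : ℝ) / 3) * v) ^ 2 * M1 + t) =
      v * M0 + k ^ ((2 : ℝ) / 3) * v ^ 2 * M1 + k ^ (-(2 / 3) : ℝ) * t := by
    calc _ = (k ^ (-(2 / 3) : ℝ) * k ^ ((2 : ℝ) / 3)) * (v * M0) +
          (k ^ (-(2 / 3) : ℝ) * k ^ ((2 : ℝ) / 3)) * (k ^ ((2 : ℝ) / 3) * v ^ 2 * M1) +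
          k ^ (-(2 / 3) : ℝ) * t := by ring
      _ = _ := by rw [e1]; ring
  rw [mul_assoc, e3]
  have h3 : 0 ≤ v * M0 + k ^ ((2 : ℝ) / 3) * v ^ 2 * M1 + k ^ (-(2 / 3) : ℝ) * t := by positivity
  have h4 : 0 ≤ Wm := hW.trans hWm
  calc W * (v * M0 + k ^ ((2 : ℝ) / 3) * v ^ 2 * M1 + k ^ (-(2 / 3) : ℝ) * t)
      ≤ Wm * (v * M0 + k ^ ((2 : ℝ) / 3) * v ^ 2 * M1 + k ^ (-(2 / 3) : ℝ) * t) :=
        mul_le_mul_of_nonneg_right hWm h3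
    _ ≤ _ := by gcongr

/-- the powers of `P` -/
lemma fin_pow {P ε q : ℝ} (hP : 0 < P) (hq : q = P ^ (ε / 12)) :
    P ^ (ε / 3) = q ^ 4 ∧ P ^ (ε / 6) = q ^ 2 ∧ P ^ (ε / 3 / 4) = q ∧ P ^ ε = q ^ 12 := by
  refine ⟨?_, ?_, ?_, ?_⟩
  · rw [hq, ← Real.rpow_natCast (P ^ (ε / 12)) 4, ← Real.rpow_mul hP.le]
    congr 1; push_cast; ring
  · rw [hq, ← Real.rpow_natCast (P ^ (ε / 12)) 2, ← Real.rpow_mul hP.le]
    congr 1; push_cast; ring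
  · rw [hq]; congr 1; ring
  · rw [hq, ← Real.rpow_natCast (P ^ (ε / 12)) 12, ← Real.rpow_mul hP.le]
    congr 1; push_cast; ring

lemma fin_a {q3 D3 D4 C6 Z6 G1 G2 G3 x1 x2 x3 : ℝ} (hq : 0 ≤ q3) (h3 : 0 ≤ D3) (h4 : 0 ≤ D4)
    (h6 : 1 ≤ C6) (hZ : Z6 = 4 * D3 + 4 * D4 + 100 * C6 + 16) (hG1 : 0 ≤ G1) (hG2 : 0 ≤ G2)
    (hG3 : 0 ≤ G3) (k1 : x1 ≤ q3 * ((4 * D3 + 4 * D4) * G1)) (k2 : x2 ≤ q3 * (100 * C6 * G2))
    (k3 : x3 ≤ q3 * (16 * G3)) : x1 + x2 + x3 ≤ q3 * (Z6 * (G1 + G2 + G3)) := by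
  have m1 : (4 * D3 + 4 * D4) * G1 ≤ Z6 * G1 :=
    mul_le_mul_of_nonneg_right (by rw [hZ]; linarith) hG1
  have m2 : 100 * C6 * G2 ≤ Z6 * G2 :=
    mul_le_mul_of_nonneg_right (by rw [hZ]; linarith) hG2
  have m3 : 16 * G3 ≤ Z6 * G3 :=
    mul_le_mul_of_nonneg_right (by rw [hZ]; linarith) hG3
  have m4 := mul_le_mul_of_nonneg_left (add_le_add (add_le_add m1 m2) m3) hq
  calc _ ≤ q3 * ((4 * D3 + 4 * D4) * G1) + q3 * (100 * C6 * G2) +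
        q3 * (16 * G3) := add_le_add (add_le_add k1 k2) k3
    _ = q3 * ((4 * D3 + 4 * D4) * G1 + 100 * C6 * G2 + 16 * G3) := by ring
    _ ≤ q3 * (Z6 * G1 + Z6 * G2 + Z6 * G3) := m4
    _ = _ := by ring

lemma fin_b {Cq cc q Wm Cl Te C5 Z6 G S : ℝ} (hCq : 0 ≤ Cq) (hq : 1 ≤ q) (hWm : 0 ≤ Wm)
    (hCl : 0 ≤ Cl) (hTe0 : 0 ≤ Te) (hTe : Te ≤ q ^ 2) (hC5 : 0 ≤ C5) (hZ : 0 ≤ Z6) (hG : 0 ≤ G)
    (hS0 : 0 ≤ S) (hS : S ≤ C5 * q * (q ^ 3 * (Z6 * G))) :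
    Cq * cc ^ 2 * q ^ 4 * Wm * (Cl * Te * S) ≤
      ((Cq + 1) * Cl * C5 * Z6) * (cc ^ 2 * q ^ 12 * Wm * G) := by
  have hq0 : 0 ≤ q := by linarith
  have hq10 : q ^ 10 ≤ q ^ 12 := pow_le_pow_right₀ hq (by norm_num)
  calc Cq * cc ^ 2 * q ^ 4 * Wm * (Cl * Te * S)
      ≤ Cq * cc ^ 2 * q ^ 4 * Wm * (Cl * q ^ 2 * (C5 * q * (q ^ 3 * (Z6 * G)))) := by
        gcongr
    _ = (Cq * Cl * C5 * Z6) * (cc ^ 2 * q ^ 10 * Wm * G) := by ring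
    _ ≤ _ := by
        have h1 : Cq ≤ Cq + 1 := by linarith
        gcongr

set_option maxHeartbeats 1600000 in
/-- **the inner sum over `(l, a)` for a natural piece** -/
theorem Qla_nat {h : ℝ → ℝ} {c₀ : ℝ} (hpu : PU h c₀) {R : ℝ} (hR0 : 0 ≤ R)
    (hR : ∀ u, cx h u ≠ 0 → |u| ≤ R) {μ : ℝ} (hμ : 0 ≤ μ) (r : ℕ) {ε : ℝ} (hε : 0 < ε)
    (a₀ M' : ℕ) : ∃ (M : ℕ) (C : ℝ), 1 ≤ C ∧ ∀ A' : ℕ, 2 * (r * μ) + 2 ≤ A' →
    ∀ Cφ η : ℝ, 0 ≤ Cφ → 0 < η → η ≤ 1 → ∀ φ : ℝ → ℝ, WK Cφ η A' φ → ∀ (p : ℕ × ℕ) (t₀ : ℝ)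
    (Pd : DPar) (hPd : Pd.OK) (s : Fin r → Pq), (∀ i, 0 ≤ (s i).z) →
    ∀ jp : Fin r → IP, (∀ i, FromP hPd (jp i) (s i)) →
    ∀ γ q : Eis, IsPrim γ → Squarefree γ → IsPrim q →
    ∀ (P : ℝ) (Ft : ℝ → ℂ) (cc H : ℝ) (ϑ ϑd : ℝ → ℝ) (om : ∀ σ : Eis, IX σ → ℝ → ℂ),
    (∀ σ ∈ C4, KDd σ A' M Ft cc H ϑ ϑd (om σ)) → (∀ y : ℝ, 0 < y → ϑ y ≤ 1) →
    (∀ y : ℝ, 0 < y → ϑd y ≤ 1) →
    ∀ (X V B0 Kt Wm T : ℝ) (Λ : Finset Eis) (ρ : Eis → Eis) (W Kl : Eis → ℝ), RadOK T Λ ρ →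
    1 ≤ T → T ≤ P → 2 * X ≤ P → 0 ≤ V → 0 ≤ Kt → 0 ≤ Wm → (∀ k ∈ Λ, 0 ≤ W k ∧ W k ≤ Wm) →
    (∀ k ∈ Λ, Kl k ≤ Kt) →
    (∀ u, φ u ≠ 0 → X / 2 < Real.exp u ∧ Real.exp u ≤ X) →
    (∀ n, ‖bw φ p t₀ (dl γ (TP320.sq (q * γ) ((SD h μ r).w jp))) n‖ ≤ P ^ a₀) →
    (nm γ : ℝ) ≤ P → (nm q : ℝ) ≤ P → (∀ i, Real.exp (s i).z ≤ P) →
    ∀ (δ e A : Eis) (y : Eis × Eis), (∀ k ∈ Λ, ∀ c ∈ C4, Sz P X V (Kl k) H δ e A c y) →
    ∀ (jm : Eis → ℕ → ℕ → ℕ → Prop) (Mn M1 : ℝ), 0 ≤ Mn → 0 ≤ M1 →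
    (∀ c ∈ C4, ∀ l u j,
      oN (P ^ (ε / 3 / 2)) H (X / nm y.1) V B0 Λ Kl y.2 e A c (jm c l) l u j → ∀ n ∈ dvs y.2,
      ∃ Wb : ℕ → ℕ → ℝ, (∀ v < NX (X / nm y.1), ∀ w < NX (X / nm y.1),
        ∀ g₂ ∈ bk (X / nm y.1) v, ∀ g₃ ∈ bk (X / nm y.1) w,
          WM (Rmx V e A c l) (2 ^ j / (nm n : ℝ) ^ 3) g₂ g₃ ≤ Wb v w) ∧
      (∀ v < NX (X / nm y.1), ∀ w < NX (X / nm y.1), 0 ≤ Wb v w) ∧
      NC Pd h s C μ c (Tb V e A c l) u (X / nm y.1) (2 ^ j) (e * A * kw p ^ 2) y.1 Wb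
        (fun _ g₂ g₃ d => DN n g₂ g₃ d ∧ (2 : ℝ) ^ j / 2 < nm d)
        (∑ k, (jp k).z + Real.log (nm γ)) (2 ^ j * Mn)) →
    (∀ c ∈ C4, ∀ l u j, jm c l u j →
      oJ (P ^ (ε / 3 / 2)) H (X / nm y.1) V B0 Λ Kl y.2 e A c l u j →
      JC Pd h s C μ c (Tb V e A c l) (fun _ => (S (X / nm y.1)).filter (fun B => blk B = u))
        (X / nm y.1) (2 ^ j) (Rmx V e A c l) (2 ^ u) (e * A * kw p ^ 2) y.1 δ y.2
        (∑ k, (jp k).z + Real.log (nm γ)) (2 ^ j * 2 ^ u * Mn)) →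
    (∀ k ∈ Λ, ∀ a ∈ dvs (ρ k), ρ k / a ∣ δ → y.2 = 1 → ∀ c ∈ C4, ∀ l u,
      (∃ B ∈ bk (X / nm y.1) u, B0 < nm B) →
      Real.exp (-(4 / 3) * ((u : ℝ) / 3)) * ∑ j₂ ∈ Tb V e A c l, ∑ B ∈ bk (X / nm y.1) u,
        ∑ x ∈ (S (RR V e A c j₂)).filter
          (fun x => IsCoprime x y.2 ∧ RR V e A c j₂ / 2 < nm x),
          ‖MT (ag (alr (bw φ p t₀ (dl γ (TP320.sq (q * γ) ((SD h μ r).w jp)))) a (ρ k / a)) δ y.1)
            (e * A * j₂) B c x‖ ^ 2 ≤ M1 * (1 / (nm a : ℝ))) →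
    Qla (bw φ p t₀ (dl γ (TP320.sq (q * γ) ((SD h μ r).w jp)))) Λ ρ W Kl V Ft δ e y A ≤
      C * (cc ^ 2 * P ^ ε * Wm * ((V ^ (-(1 : ℝ) / 3) / nm (e * A)) * ((1 + |t₀|) ^ A' *
          (Cφ ^ 2 * iA A' * (η * (η ^ A')⁻¹)) * nm γ * (nm δ * Mn)) +
        Kt ^ ((2 : ℝ) / 3) * (V ^ (-(1 : ℝ) / 3) / nm (e * A)) ^ 2 * M1 + (P ^ M')⁻¹)) := by
  have hε3 : 0 < ε / 3 := by positivity
  have hε6 : 0 < ε / 6 := by positivity
  have hε12 : 0 < ε / 12 := by positivity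
  obtain ⟨M, Cq, hCq, HQ⟩ := Qs_cellsJ hε3 a₀ (M' + 3)
  obtain ⟨D, hD, hsm⟩ := small_num hε3
  obtain ⟨Cl, hCl, hla⟩ := sum_la hε6
  obtain ⟨C3, hC3, hsN⟩ := sumN_le hpu hR0 hR hμ r hε6
  obtain ⟨C4', hC4', hsJ⟩ := sumJ_le hpu hR0 hR hμ r hε6
  obtain ⟨C5, hC5, hτ⟩ := tau_le_rpow hε12
  have hΦ := sd_ok hpu hR0 hR hμ r
  set C6 : ℝ := 1 + (ε / 12)⁻¹ with hC6
  have hε12i : 0 < (ε / 12)⁻¹ := by positivity
  have hC61 : 1 ≤ C6 := by rw [hC6]; linarith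
  set Z6 : ℝ := 4 * (D * C3) + 4 * (D * C4') + 100 * C6 + 16 with hZ6
  have hDC3 : C3 ≤ D * C3 := le_mul_of_one_le_left (by linarith) hD
  have hDC4 : C4' ≤ D * C4' := le_mul_of_one_le_left (by linarith) hD
  have hZ61 : 1 ≤ Z6 := by rw [hZ6]; nlinarith
  have hbig : Z6 ≤ (Cq + 1) * Cl * C5 * Z6 := by
    refine le_mul_of_one_le_left (by linarith) ?_
    exact one_le_mul_of_one_le_of_one_le (one_le_mul_of_one_le_of_one_le (by linarith) hCl) hC5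
  have hCC3 : C3 ≤ (Cq + 1) * Cl * C5 * Z6 := by
    refine le_trans ?_ hbig
    rw [hZ6]; nlinarith
  have hCC4 : C4' ≤ (Cq + 1) * Cl * C5 * Z6 := by
    refine le_trans ?_ hbig
    rw [hZ6]; nlinarith
  refine ⟨M, (Cq + 1) * Cl * C5 * Z6, hZ61.trans hbig, ?_⟩
  intro A' hA' Cφ η hCφ hη hη1 φ hφ p t₀ Pd hPd s hs jp hjp γ q hγ hγs hq P Ft cc H ϑ ϑd om hKD
    hϑ hϑd X V B0 Kt Wm T Λ ρ W Kl hΛ hT1 hTP h2XP hV0 hKt0 hWm0 hW hKt hφX hbP hγP hqP hsP δ e A y hSz jm Mn M1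
    hMn hM1 hHN hHJ hHT
  have hA2 : 2 ≤ A' := by
    have h1 : 0 ≤ (r : ℝ) * μ := by positivity
    have : (2 : ℝ) ≤ A' := by linarith
    exact_mod_cast this
  have hiA := iA_nonneg A'
  set Ap : ℝ := Cφ ^ 2 * iA A' * (η * (η ^ A')⁻¹) with hAp
  have hAp0 : 0 ≤ Ap := by positivity
  set w := (SD h μ r).w jp with hw
  set al := bw φ p t₀ (dl γ (TP320.sq (q * γ) w)) with hal
  -- the empty set
  have hP1 : 1 ≤ P := hT1.trans hTP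
  have hP0 : 0 < P := by linarith
  set v : ℝ := V ^ (-(1 : ℝ) / 3) / nm (e * A) with hv
  have hv0 : 0 ≤ v := by rw [hv]; positivity
  rcases Λ.eq_empty_or_nonempty with hΛ0 | ⟨k₀, hk₀⟩
  · have e0 : Qla al Λ ρ W Kl V Ft δ e y A = 0 := by
      unfold Qla
      rw [hΛ0, Finset.sum_empty]
    rw [e0]
    have : 0 ≤ (Cq + 1) * Cl * C5 * Z6 := by linarith
    positivity
  have h1C : (1 : Eis) ∈ C4 := mem_C4.mpr (Or.inl rfl)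
  have hS0 := hSz k₀ hk₀ 1 h1C
  set X' : ℝ := X / nm y.1 with hX'
  have hX'1 : 1 ≤ X' := hS0.X1
  have hX'P : X' ≤ P := hS0.XP'
  have hX0 : 0 ≤ X := by linarith [hS0.n1, hS0.yX]
  have hV1 : 1 ≤ V := hS0.V1
  obtain ⟨hFS, hsq, hwin⟩ := bwdl_facts (φ := φ) (p := p) (t₀ := t₀) (q := q) (w := w) hγ hγs hX0
    hφX
  have hw1 : ∀ n, w n ≠ 0 → (nm n : ℝ) ≤ Real.exp ((SD h μ r).len jp + r * (2 * R + 3)) := by
    intro b hb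
    have hb0 : (0 : ℝ) < nm b := by exact_mod_cast nm_pos.2 (hΦ.prim jp b hb).ne_zero
    rw [← Real.log_le_iff_le_exp hb0]
    have := (abs_le.1 (hΦ.supp jp b hb)).2
    linarith
  set T' : ℝ := P ^ (ε / 3 / 2) with hT'
  set N0 : ℕ := N0e (ε / 3) P with hN0
  have hN : ∀ k ∈ Λ, ∀ c ∈ C4, ∀ l, ∀ j₂ ∈ Tb V e A c l, ∀ B ∈ S X',
      Nj T' H X' V (Kl k) B0 y.2 e A c j₂ B ≤ N0 := by
    intro k hk c hc l j₂ hj₂ B hB
    have hcS := hSz k hk c hc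
    have hj := mem_Tb.1 hj₂
    rw [mem_bk (Real.sqrt_nonneg V)] at hj
    exact hcS.shells hε3 ((mem_S (Real.sqrt_nonneg V)).2 hj.1.1) hj.2 hB
  -- the numbers
  set G := fun (b a c : Eis) (l u j : ℕ) (n : Eis) =>
    GNa Cφ η A' γ q w δ y.1 e A p X' V a b c l u j n with hG
  set GJ' := fun (b a c : Eis) (l u j : ℕ) =>
    GJa Cφ η A' γ q w δ y.1 y.2 e A p X' V a b c l u j with hGJ'
  have hG0 : ∀ b a c l u j n, 0 ≤ G b a c l u j n := fun b a c l u j n =>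
    GNa_nonneg hη hV0 _ _ _ _ _ _ _ _ _ _ _ _ _ _ _ _ _
  have hGJ0 : ∀ b a c l u j, 0 ≤ GJ' b a c l u j := fun b a c l u j =>
    GJa_nonneg hη hV0 _ _ _ _ _ _ _ _ _ _ _ _ _ _ _ _ _
  set M0 : Eis → Eis → ℝ := fun b a => (1 + |t₀|) ^ A' *
    (TN T' H X' V B0 Λ Kl y.2 e A jm N0 (G b a) + TJ T' H X' V B0 Λ Kl y.2 e A jm N0 (GJ' b a))
    with hM0
  have hM00 : ∀ b a, 0 ≤ M0 b a := fun b a => mul_nonneg (by positivity)
    (add_nonneg (TN_nonneg (hG0 b a)) (TJ_nonneg (hGJ0 b a)))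
  set tn : ℝ := (P ^ (M' + 3))⁻¹ with htn
  have htn0 : 0 ≤ tn := by positivity
  -- one `(l, a)`
  have hone : ∀ k ∈ Λ, ∀ a ∈ (dvs (ρ k)).filter (fun a => ρ k / a ∣ δ),
      Qc (alr al a (ρ k / a)) (Kl k) V Ft δ e y A ≤ Cq * cc ^ 2 * P ^ (ε / 3) *
        ((Kl k ^ ((2 : ℝ) / 3) * v) * M0 (ρ k / a) a +
          (Kl k ^ ((2 : ℝ) / 3) * v) ^ 2 * (M1 * (1 / (nm a : ℝ))) + tn) := by
    intro k hk a ha
    rw [Finset.mem_filter] at ha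
    have hρ := hΛ.rp k hk
    have ha' := (mem_dvs hρ.ne_zero).mp ha.1
    have has : Squarefree a := (hΛ.rs k hk).squarefree_of_dvd ha'.2
    have hna : (1 : ℝ) ≤ nm a := by exact_mod_cast nm_pos.2 ha'.1.ne_zero
    set b := ρ k / a with hb
    have hK0 : 0 < Kl k := (hSz k hk 1 h1C).K0
    have h1 := HQ P A' Ft cc H ϑ ϑd om hKD hϑ hϑd X V (Kl k) B0 (alr al a b) (FS_alr hFS a b)
      (fun n hn => hsq n (alr_ne hn).2.2) (fun n hn => hwin n (alr_ne hn).2.2)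
      (fun n => (norm_alr_le _ _ _ _).trans (hbP n)) δ e A y (fun c hc => hSz k hk c hc) jm
      (fun c j₂ B j n => (1 + |t₀|) ^ A' *
        fN Cφ η A' γ q w δ y.1 e A p X' V a b c (UU j₂) j₂ B j n)
      (fun c j₂ u j => (1 + |t₀|) ^ A' *
        fJ Cφ η A' γ q w δ y.1 y.2 e A p X' V a b c (UU j₂) j₂ u j)
      (M0 b a) (M1 * (1 / (nm a : ℝ))) (hM00 b a) (by positivity)
      (fun c hc l j₂ hj₂ => hm_alr (hSz k hk c hc) hCφ hη hη1 hA2 hφ hγ hγs (Real.exp_pos _).le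
        hw1 ha'.1 has hj₂ (jm c l))
      ?_ ?_ (fun hy c hc l u hB => hHT k hk a ha.1 ha.2 hy c hc l u hB)
    · refine h1.trans (le_of_eq ?_)
      rw [rpow_third hK0]
    · intro c hc l u j hcl n hn
      have h2 : (2 / 2 ^ j : ℝ) * ((nm n : ℝ) * ∑ j₂ ∈ Tb V e A c l,
          ∑ B ∈ (bk X' u).filter (fun B =>
            j < Nj T' H X' V (Kl k) B0 y.2 e A c j₂ B ∧ ¬ jm c l (blk B) j),
          (1 + |t₀|) ^ A' * fN Cφ η A' γ q w δ y.1 e A p X' V a b c (UU j₂) j₂ B j n) ≤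
          (1 + |t₀|) ^ A' * G b a c l u j n := by
        have h3 : ∑ j₂ ∈ Tb V e A c l, ∑ B ∈ (bk X' u).filter (fun B =>
            j < Nj T' H X' V (Kl k) B0 y.2 e A c j₂ B ∧ ¬ jm c l (blk B) j),
          (1 + |t₀|) ^ A' * fN Cφ η A' γ q w δ y.1 e A p X' V a b c (UU j₂) j₂ B j n ≤
          (1 + |t₀|) ^ A' * ∑ j₂ ∈ Tb V e A c l, ∑ B ∈ bk X' u,
            fN Cφ η A' γ q w δ y.1 e A p X' V a b c l j₂ B j n := by
          rw [Finset.mul_sum]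
          refine Finset.sum_le_sum fun j₂ hj₂ => ?_
          rw [Finset.mul_sum, UU_Tb hj₂]
          refine Finset.sum_le_sum_of_subset_of_nonneg (Finset.filter_subset _ _) fun B _ _ => ?_
          have := fN_nonneg (Cφ := Cφ) hη hV0 A' γ q w δ y.1 e A p X' a b c l j₂ B j n
          positivity
        calc _ ≤ (2 / 2 ^ j : ℝ) * ((nm n : ℝ) * ((1 + |t₀|) ^ A' * ∑ j₂ ∈ Tb V e A c l,
              ∑ B ∈ bk X' u, fN Cφ η A' γ q w δ y.1 e A p X' V a b c l j₂ B j n)) :=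
              mul_le_mul_of_nonneg_left (mul_le_mul_of_nonneg_left h3 (Nat.cast_nonneg _))
                (by positivity)
          _ = _ := by
              simp only [hG]
              unfold GNa
              ring
      refine h2.trans ?_
      rw [hM0]
      beta_reduce
      refine mul_le_mul_of_nonneg_left ?_ (by positivity)
      have h4 := le_TN hX'1 hV1 (hG0 b a) hN hk hc hcl hn
      have h5 : 0 ≤ TJ T' H X' V B0 Λ Kl y.2 e A jm N0 (GJ' b a) := TJ_nonneg (hGJ0 b a)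
      linarith
    · intro c hc l u j hjm hcl
      have h2 : (2 / 2 ^ j : ℝ) * (2 / 2 ^ u) * ∑ j₂ ∈ Tb V e A c l,
          (1 + |t₀|) ^ A' * fJ Cφ η A' γ q w δ y.1 y.2 e A p X' V a b c (UU j₂) j₂ u j =
          (1 + |t₀|) ^ A' * GJ' b a c l u j := by
        simp only [hGJ']
        unfold GJa
        rw [← Finset.mul_sum]
        have h3 : ∑ j₂ ∈ Tb V e A c l,
            fJ Cφ η A' γ q w δ y.1 y.2 e A p X' V a b c (UU j₂) j₂ u j =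
            ∑ j₂ ∈ Tb V e A c l, fJ Cφ η A' γ q w δ y.1 y.2 e A p X' V a b c l j₂ u j :=
          Finset.sum_congr rfl fun j₂ hj₂ => by rw [UU_Tb hj₂]
        rw [h3]
        ring
      rw [h2, hM0]
      beta_reduce
      refine mul_le_mul_of_nonneg_left ?_ (by positivity)
      have h4 := le_TJ (H := H) (T' := T') (B0 := B0) hX'1 hV1 (hGJ0 b a) hN hk hc hjm hcl
      have h5 : 0 ≤ TN T' H X' V B0 Λ Kl y.2 e A jm N0 (G b a) := TN_nonneg (hG0 b a)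
      linarith
  have hCq0 : 0 ≤ Cq * cc ^ 2 * P ^ (ε / 3) := by positivity
  set f : Eis → Eis → ℝ := fun b a => v * M0 b a +
    Kt ^ ((2 : ℝ) / 3) * v ^ 2 * (M1 * (1 / (nm a : ℝ))) + P * tn with hf
  have hf0 : ∀ b a, 0 ≤ f b a := by
    intro b a
    have := hM00 b a
    simp only [hf]
    positivity
  have hsum : Qla al Λ ρ W Kl V Ft δ e y A ≤ Cq * cc ^ 2 * P ^ (ε / 3) * Wm *
      ∑ k ∈ Λ, ∑ a ∈ (dvs (ρ k)).filter (fun a => ρ k / a ∣ δ), f (ρ k / a) a := by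
    unfold Qla
    rw [Finset.mul_sum]
    refine Finset.sum_le_sum fun k hk => ?_
    rw [Finset.mul_sum, Finset.mul_sum]
    refine Finset.sum_le_sum fun a ha => ?_
    have h1 := hone k hk a ha
    have hSk := hSz k hk 1 h1C
    have hwk : 0 ≤ W k * Kl k ^ (-(2 / 3) : ℝ) :=
      mul_nonneg (hW k hk).1 (Real.rpow_nonneg hSk.K0.le _)
    have h2 := wt_real (W := W k) (Wm := Wm) (k := Kl k) (kt := Kt) (M0 := M0 (ρ k / a) a)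
      (M1 := M1 * (1 / (nm a : ℝ))) (v := v) (t := tn) (P := P) (hW k hk).1 (hW k hk).2 hSk.K0
      (hKt k hk) (hM00 _ _) (by positivity) hv0 htn0 hP1 hSk.KiP
    calc W k * Kl k ^ (-(2 / 3) : ℝ) * Qc (alr al a (ρ k / a)) (Kl k) V Ft δ e y A
        ≤ W k * Kl k ^ (-(2 / 3) : ℝ) * (Cq * cc ^ 2 * P ^ (ε / 3) *
          ((Kl k ^ ((2 : ℝ) / 3) * v) * M0 (ρ k / a) a +
          (Kl k ^ ((2 : ℝ) / 3) * v) ^ 2 * (M1 * (1 / (nm a : ℝ))) + tn)) :=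
          mul_le_mul_of_nonneg_left h1 hwk
      _ = Cq * cc ^ 2 * P ^ (ε / 3) * (W k * Kl k ^ (-(2 / 3) : ℝ) *
          ((Kl k ^ ((2 : ℝ) / 3) * v) * M0 (ρ k / a) a +
          (Kl k ^ ((2 : ℝ) / 3) * v) ^ 2 * (M1 * (1 / (nm a : ℝ))) + tn)) := by ring
      _ ≤ Cq * cc ^ 2 * P ^ (ε / 3) * (Wm * f (ρ k / a) a) :=
          mul_le_mul_of_nonneg_left h2 hCq0
      _ = _ := by ring
  have hT0 : 0 ≤ T := by linarith
  have hl2 := hla T Λ ρ hT1 hΛ (S T) (S T) (fun b h1 h2 h3 => (mem_S hT0).2 ⟨h3, h1, h2⟩)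
    (fun b h1 h2 h3 => (mem_S hT0).2 ⟨h3, h1, h2⟩) f (fun b _ a _ => hf0 b a) (fun b => b ∣ δ)
  -- the sum over `a` for one `b`
  set bN : ℝ := C3 * Ap * P ^ (ε / 6) * nm γ * (nm δ * Mn) with hbN
  set bJ : ℝ := C4' * Ap * P ^ (ε / 6) * nm γ * Mn with hbJ
  have hC30 : 0 ≤ C3 := by linarith
  have hC40 : 0 ≤ C4' := by linarith
  have hbN0 : 0 ≤ bN := by positivity
  have hbJ0 : 0 ≤ bJ := by positivity
  have hδ1 : (1 : ℝ) ≤ nm δ := by exact_mod_cast nm_pos.2 hS0.δp.ne_zero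
  have h𝒜 : ∀ a ∈ S T, IsPrim a ∧ Squarefree a ∧ (nm a : ℝ) ≤ T := fun a ha => by
    have := (mem_S hT0).1 ha
    exact ⟨this.2.1, this.2.2, this.1⟩
  have hb : ∀ b ∈ (S T).filter (fun b => b ∣ δ), ∑ a ∈ S T, f b a ≤
      v * ((1 + |t₀|) ^ A' * ((IN V X' N0 y.2).card * bN + (IJ V X' N0).card * bJ)) +
      Kt ^ ((2 : ℝ) / 3) * v ^ 2 * M1 * (100 * (1 + Real.log T)) + 16 * T * (P * tn) := by
    intro b hb
    rw [Finset.mem_filter, mem_S hT0] at hb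
    obtain ⟨⟨b1, b2, b3⟩, b4⟩ := hb
    have hTN : ∑ a ∈ S T, TN T' H X' V B0 Λ Kl y.2 e A jm N0 (G b a) ≤
        (IN V X' N0 y.2).card * bN := by
      refine sum_TN hbN0 fun c hc l u j ho n hn => ?_
      obtain ⟨Wb, hWb1, hWb2, hNC⟩ := hHN c hc l u j ho n hn
      have h1 := hsN A' hA' Cφ η hη Pd hPd s hs jp hjp γ q y.1 δ e A b p hγ hγs hS0.y1 hq hS0.δp b2
        c hc (S T) l u j n X' V P T hX'1 hT1 hX'P hTP hV0 hγP hS0.y1P hqP hS0.δP (b1.trans hTP) hsP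
        h𝒜 Wb hWb1 hWb2 Mn hMn (hNC.mono hCC3)
      refine h1.trans ?_
      have hn1 := (mem_dvs hS0.y2.ne_zero).1 hn
      have hn2 : (nm n : ℝ) ≤ nm δ := by
        exact_mod_cast nm_le_of_dvd hS0.δp.ne_zero (hn1.2.trans (hS0.ye ▸ dvd_mul_left _ _))
      rw [hbN]
      gcongr
    have hTJ : ∑ a ∈ S T, TJ T' H X' V B0 Λ Kl y.2 e A jm N0 (GJ' b a) ≤
        (IJ V X' N0).card * bJ := by
      refine sum_TJ hbJ0 fun c hc l u j hjm ho => ?_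
      have hJC := hHJ c hc l u j hjm ho
      have hu : (2 : ℝ) ^ u ≤ P := by
        obtain ⟨k, _, j₂, _, B, hB⟩ := ho
        rw [mem_Bj] at hB
        have hB1 := (mem_S (by linarith : (0 : ℝ) ≤ X')).1 hB.1
        have h2 := blk_lt hB1.2.1.ne_zero
        rw [hB.2.1] at h2
        have h3 : X' ≤ X := div_le_self hX0 hS0.n1
        linarith [hB1.1]
      exact hsJ A' hA' Cφ η hη Pd hPd s hs jp hjp γ q y.1 δ y.2 e A b p hγ hγs hS0.y1 hq hS0.δp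
        hS0.y2 b2 c hc (S T) l u j X' V P T hX'1 hT1 hX'P hTP hu hV0 hγP hS0.y1P hqP hS0.δP hS0.y2P
        (b1.trans hTP) hsP h𝒜 Mn hMn (hJC.mono hCC4)
    have e1 : ∑ a ∈ S T, f b a = v * ((1 + |t₀|) ^ A' *
        (∑ a ∈ S T, TN T' H X' V B0 Λ Kl y.2 e A jm N0 (G b a) +
          ∑ a ∈ S T, TJ T' H X' V B0 Λ Kl y.2 e A jm N0 (GJ' b a))) +
        Kt ^ ((2 : ℝ) / 3) * v ^ 2 * M1 * ∑ a ∈ S T, (1 / (nm a : ℝ)) +
        ((S T).card : ℝ) * (P * tn) := by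
      simp only [hf, hM0]
      rw [Finset.sum_add_distrib, Finset.sum_add_distrib, ← Finset.mul_sum, ← Finset.mul_sum,
        Finset.sum_add_distrib, Finset.sum_const, nsmul_eq_mul]
      congr 2
      rw [Finset.mul_sum]
      exact Finset.sum_congr rfl fun a _ => by ring
    rw [e1]
    have h3 := E1551.sum_inv_S551 hT1
    have h4 := GLS106.card_S_le hT1
    have h5 : 0 ≤ Kt ^ ((2 : ℝ) / 3) * v ^ 2 * M1 := by positivity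
    gcongr
  -- the powers
  obtain ⟨q, hq⟩ : ∃ q, q = P ^ (ε / 12) := ⟨_, rfl⟩
  obtain ⟨hp1, hp2, hp3, hp4⟩ := fin_pow hP0 hq
  have hq1 : 1 ≤ q := by rw [hq]; exact Real.one_le_rpow hP1 (by positivity)
  have hq0 : 0 ≤ q := by linarith
  set G1 : ℝ := v * ((1 + |t₀|) ^ A' * Ap * nm γ * (nm δ * Mn)) with hG1
  set G2 : ℝ := Kt ^ ((2 : ℝ) / 3) * v ^ 2 * M1 with hG2
  set G3 : ℝ := (P ^ M')⁻¹ with hG3
  have hG10 : 0 ≤ G1 := by positivity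
  have hG20 : 0 ≤ G2 := by positivity
  have hG30 : 0 ≤ G3 := by positivity
  obtain ⟨n1, n2, -⟩ := hsm P X' V hP1 hX'1 hX'P hV1 hS0.VP y.2 hS0.y2.ne_zero hS0.y2P
  rw [hp3] at n1 n2
  have hC4c : (C4.card : ℝ) ≤ 4 := by exact_mod_cast card_C4'
  have hD0 : 0 ≤ D := by linarith
  have hcN : ((IN V X' N0 y.2).card : ℝ) ≤ 4 * (D * q) := by
    rw [card_IN]
    exact mul_le_mul hC4c n1 (by positivity) (by norm_num)
  have hcJ : ((IJ V X' N0).card : ℝ) ≤ 4 * (D * q) := by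
    rw [card_IJ]
    exact mul_le_mul hC4c n2 (by positivity) (by norm_num)
  have ha1 : v * ((1 + |t₀|) ^ A' * ((IN V X' N0 y.2).card * bN + (IJ V X' N0).card * bJ)) ≤
      q ^ 3 * ((4 * (D * C3) + 4 * (D * C4')) * G1) := by
    have k1 : ((IN V X' N0 y.2).card : ℝ) * bN ≤
        4 * (D * q) * (C3 * Ap * q ^ 2 * nm γ * (nm δ * Mn)) := by
      rw [hbN, hp2]
      exact mul_le_mul_of_nonneg_right hcN (by positivity)
    have k2 : ((IJ V X' N0).card : ℝ) * bJ ≤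
        4 * (D * q) * (C4' * Ap * q ^ 2 * nm γ * (nm δ * Mn)) := by
      rw [hbJ, hp2]
      refine mul_le_mul hcJ ?_ (by positivity) (by positivity)
      exact mul_le_mul_of_nonneg_left (le_mul_of_one_le_left hMn hδ1) (by positivity)
    calc _ ≤ v * ((1 + |t₀|) ^ A' * (4 * (D * q) * (C3 * Ap * q ^ 2 * nm γ * (nm δ * Mn)) +
          4 * (D * q) * (C4' * Ap * q ^ 2 * nm γ * (nm δ * Mn)))) := by gcongr
      _ = _ := by rw [hG1]; ring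
  have ha2 : G2 * (100 * (1 + Real.log T)) ≤ q ^ 3 * (100 * C6 * G2) := by
    have k1 : Real.log T ≤ (ε / 12)⁻¹ * q := by
      have h7 := Real.log_le_rpow_div hT0 hε12
      have h8 : T ^ (ε / 12) ≤ q := by
        rw [hq]; exact Real.rpow_le_rpow hT0 hTP hε12.le
      rw [div_eq_inv_mul] at h7
      exact h7.trans (mul_le_mul_of_nonneg_left h8 hε12i.le)
    have k2 : 1 + Real.log T ≤ C6 * q := by
      rw [hC6]; nlinarith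
    have k3 : C6 * q ≤ C6 * q ^ 3 :=
      mul_le_mul_of_nonneg_left (le_self_pow₀ hq1 (by norm_num)) (by linarith)
    calc _ ≤ G2 * (100 * (C6 * q ^ 3)) := by gcongr; linarith
      _ = _ := by ring
  have ha3 : 16 * T * (P * tn) ≤ q ^ 3 * (16 * G3) := by
    have k1 : T * (P * tn) ≤ G3 := by
      have e1 : tn = G3 * (P⁻¹ * P⁻¹ * P⁻¹) := by
        rw [htn, hG3, pow_add, mul_inv]; ring
      have hPi : P⁻¹ ≤ 1 := inv_le_one_of_one_le₀ hP1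
      calc T * (P * tn) ≤ P * (P * tn) := by gcongr
        _ = G3 * P⁻¹ := by rw [e1]; field_simp
        _ ≤ G3 * 1 := mul_le_mul_of_nonneg_left hPi hG30
        _ = G3 := mul_one _
    have k2 : 1 ≤ q ^ 3 := one_le_pow₀ hq1
    calc 16 * T * (P * tn) = 16 * (T * (P * tn)) := by ring
      _ ≤ 16 * G3 := by gcongr
      _ ≤ q ^ 3 * (16 * G3) := le_mul_of_one_le_left (by positivity) k2
  have hq3 : 0 ≤ q ^ 3 := by positivity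
  have hFm : v * ((1 + |t₀|) ^ A' * ((IN V X' N0 y.2).card * bN + (IJ V X' N0).card * bJ)) +
      G2 * (100 * (1 + Real.log T)) + 16 * T * (P * tn) ≤ q ^ 3 * (Z6 * (G1 + G2 + G3)) :=
    fin_a hq3 (by positivity) (by positivity) hC61 hZ6 hG10 hG20 hG30 ha1 ha2 ha3
  have hZ60 : 0 ≤ Z6 := by linarith
  have hcard : (((S T).filter (fun b => b ∣ δ)).card : ℝ) ≤ C5 * q := by
    have h1 : ((S T).filter (fun b => b ∣ δ)).card ≤ (dvs δ).card := by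
      refine Finset.card_le_card fun b hb => ?_
      rw [Finset.mem_filter, mem_S hT0] at hb
      exact (mem_dvs hS0.δp.ne_zero).2 ⟨hb.1.2.1, hb.2⟩
    have h2 : (((S T).filter (fun b => b ∣ δ)).card : ℝ) ≤ tau δ := by
      unfold Div277.tau; exact_mod_cast h1
    refine h2.trans ((hτ δ hS0.δp.ne_zero).trans ?_)
    rw [hq]
    have : (nm δ : ℝ) ^ (ε / 12) ≤ P ^ (ε / 12) :=
      Real.rpow_le_rpow (Nat.cast_nonneg _) hS0.δP hε12.le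
    exact mul_le_mul_of_nonneg_left this (by linarith)
  have hbs : ∑ b ∈ (S T).filter (fun b => b ∣ δ), ∑ a ∈ S T, f b a ≤
      C5 * q * (q ^ 3 * (Z6 * (G1 + G2 + G3))) := by
    refine (Finset.sum_le_card_nsmul _ _ _ fun b hb' => (hb b hb').trans hFm).trans ?_
    rw [nsmul_eq_mul]
    exact mul_le_mul_of_nonneg_right hcard (by positivity)
  have hTe : T ^ (ε / 6) ≤ q ^ 2 := by
    rw [← hp2]; exact Real.rpow_le_rpow hT0 hTP hε6.le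
  have hCl0 : 0 ≤ Cl := by linarith
  have hC50 : 0 ≤ C5 := by linarith
  have hbs0 : 0 ≤ ∑ b ∈ (S T).filter (fun b => b ∣ δ), ∑ a ∈ S T, f b a :=
    Finset.sum_nonneg fun _ _ => Finset.sum_nonneg fun _ _ => hf0 _ _
  have hfin := hsum.trans (mul_le_mul_of_nonneg_left hl2 (mul_nonneg hCq0 hWm0))
  refine hfin.trans ?_
  rw [hp1, hp4]
  exact fin_b hCq hq1 hWm0 hCl0 (Real.rpow_nonneg hT0 _) hTe hC50 hZ60 (by positivity) hbs0 hbs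

end Crest.Agent.R017.RCl83
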