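import Crest.Agent.R017.RClX2_791
import Crest.Agent.R017.RCld_83
import Crest.Agent.R017.QsJl_401

/-!
# Row 17, T.7, `l`-terms of the tail in the exceptional class (helper791), part 3

* `FJm`, `MNJ_mono_Bs`, `hmx_L` : the hypotheses of 401's `Qs_cellsJx`, the joint functional does not
  depend on the family
* `TNx`, `TJx` : sums over the cells which occur
* `Qla_X` : the inner sum over `(l, a)` : cells summed over `a`; principal part and polar sum kept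
-/

set_option autoImplicit false
set_option linter.unusedVariables false
set_option maxHeartbeats 400000

noncomputable section

open Complex Finset
open scoped ComplexConjugate Classical

namespace Crest.Agent.R017.RClX791

open Crest.Agent.R012 Crest.Agent.R012.Eis Crest.Agent.R012.Gauss880
open Crest.Agent.R012.LS2 (S mem_S)
open Crest.Agent.R012.Mob705 (pdiv mem_pdiv)
open Crest.Agent.R012.Div277 (tau dvs mem_dvs tau_le_rpow nm_le_of_dvd)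
open Crest.Agent.R012.Weight600 (pw)
open Crest.Agent.R017.CM106 (CS FS sub)
open Crest.Agent.R017.FE47
open Crest.Agent.R017.B770 Crest.Agent.R017.Prov71
open Crest.Agent.R017.X6C180 (IX dl')
open Crest.Agent.R017.H1401 (pb mem_pb WJ WM DN HW)
open Crest.Agent.R017.MoF106
open Crest.Agent.R017.MoJ401 (MNJ MNJ_le MNJ_nonneg MNJ_spec MoJQ)
open Crest.Agent.R017.E2D401 (MoJ Bj)
open Crest.Agent.R017.E2440 (Qs RR prs mem_prs C4 mem_C4 ag KDd MT blk bkN blk_lt_bkN blk_lt blk_le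
  GKd NBf PJ)
open Crest.Agent.R017.QsJ401
open Crest.Agent.R017.RC106 (jmL)
open Crest.Agent.R017.QsO83 (bw bw_ne FS_bw)
open Crest.Agent.R017.GKC739 (MTs PTs MTs_nonneg)
open Crest.Agent.R017.NPy739 (MNc MNc_spec MNc_nonneg)
open Crest.Agent.R017.E2sp579 (MH)
open Crest.Agent.R017.MoCa83
open Crest.Agent.R017.RCl83 (RadOK rad_count sum_la FS_alr alr_bw Qc Qc_nonneg Qla IN IJ card_IN
  card_IJ bk_lt_NX card_C4' wt_real)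

/-! ### the joint functional -/

lemma MoJQ_mono_Bs {ν : Eis} {α : Eis → ℂ} {E τ : Eis} {X t R Z U : ℝ} (hR : 0 ≤ R)
    {Bs Bs' : Finset Eis} (h : Bs ⊆ Bs') (Q : Eis → Eis → Prop) :
    MoJQ ν α E τ X t R Z U Bs Q ≤ MoJQ ν α E τ X t R Z U Bs' Q := by
  unfold MoJ401.MoJQ
  refine Finset.sum_le_sum fun n _ => mul_le_mul_of_nonneg_left ?_ (Nat.cast_nonneg _)
  refine Finset.sum_le_sum fun g₂ _ => Finset.sum_le_sum fun g₃ _ => Finset.sum_le_sum fun g _ => ?_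
  refine mul_le_mul_of_nonneg_left ?_ (H1401.WJ_nonneg hR _ _)
  exact Finset.sum_le_sum_of_subset_of_nonneg h fun _ _ _ =>
    Finset.sum_nonneg fun _ _ => sq_nonneg _

lemma MNJ_mono_Bs {J : ℕ} {c ν E : Eis} {X R Z U : ℝ} {Bs Bs' : Finset Eis}
    {Q : IX c → Eis → Eis → Prop} {α : Eis → ℂ} (hα : (Function.support α).Finite) (hX : 0 ≤ X)
    (hR : 0 ≤ R) (h : Bs ⊆ Bs') (hBs : ∀ B ∈ Bs', B ∈ S X) :
    MNJ J c ν E X R Z U Bs Q α ≤ MNJ J c ν E X R Z U Bs' Q α :=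
  MNJ_le (MNJ_nonneg hR _) fun i t =>
    (MoJQ_mono_Bs hR h (Q i)).trans (MNJ_spec hα hX hR hBs i t)

/-- the joint functional, all `B` of the block -/
def FJm (Jt : ℕ) (V : ℝ) (e A c : Eis) (X : ℝ) (Qf : Eis → Eis → Eis → Eis → Prop)
    (ν δ g₀ : Eis) (φ : ℝ → ℝ) (p : ℕ × ℕ) (t₀ : ℝ) (j₂ : Eis) (u j : ℕ) (α : Eis → ℂ) : ℝ :=
  MNJ Jt c ν (e * A * j₂) X (RR V e A c j₂) (2 ^ j) (2 ^ u) ((S X).filter (fun B => blk B = u))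
    (fun i B d => Qf (e * A * j₂) B (dl' c i) d) (ag (bw φ p t₀ α) δ g₀)

lemma FJm_nonneg {Jt : ℕ} {V : ℝ} {e A c : Eis} {X : ℝ} {Qf : Eis → Eis → Eis → Eis → Prop}
    {ν δ g₀ : Eis} {φ : ℝ → ℝ} {p : ℕ × ℕ} {t₀ : ℝ} {j₂ : Eis} (hR : 0 ≤ RR V e A c j₂)
    (u j : ℕ) (α : Eis → ℂ) : 0 ≤ FJm Jt V e A c X Qf ν δ g₀ φ p t₀ j₂ u j α := MNJ_nonneg hR _

/-- **the hypotheses on the moments of one `j₂`** (exceptional class), the functionals do not depend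
on the family -/
theorem hmx_L {Jt : ℕ} {ε Pz X V K H B0 : ℝ} {δ e A c : Eis} {y : Eis × Eis}
    (hz : Sz Pz X V K H δ e A c y)
    (hB0 : ∀ u : ℕ, ¬ ((2 : ℝ) ^ u / 2 < B0 ∧ B0 < (2 : ℝ) ^ u)) {x : Eis → ℂ} (hx : FS x)
    {φ : ℝ → ℝ} {p : ℕ × ℕ} {t₀ : ℝ}
    {Qf : Eis → Eis → Eis → Eis → Prop} {s₁ Lv : ℝ} (hs₁ : 0 ≤ s₁) (hL : Lv ≤ Real.log V)
    {l : ℕ} {j₂ : Eis} (hj₂ : j₂ ∈ Tb V e A c l) {Ex : Eis → ℕ → ℝ} (hEx : ∀ B j, 0 ≤ Ex B j)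
    (hMH : MH (WM (RR V e A c j₂)) (fun n j g₂ g₃ d => DN n g₂ g₃ d ∧ (2 : ℝ) ^ j / 2 < nm d)
      (fun B τ d => ¬ Qf (e * A * j₂) B τ d) (ag (bw φ p t₀ x) δ y.1) (e * A * j₂) c y.2
      (X / nm y.1) Jt (Nj (Pz ^ (ε / 2)) H (X / nm y.1) V K B0 y.2 e A c j₂) Ex) :
    Hmx (1 + 60) Jt ε Pz X V K H B0 (bw φ p t₀ x) δ e A c y j₂ (jmL s₁ Lv l)
      (fun B j n => MNc Jt V e A c (X / nm y.1) Qf δ y.1 φ p t₀ j₂ B j n x)
      (fun u j => FJm Jt V e A c (X / nm y.1) Qf y.2 δ y.1 φ p t₀ j₂ u j x) Ex := by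
  have hR1 : 1 ≤ RR V e A c j₂ := (mem_Tb.1 hj₂).2
  have hX'0 : 0 ≤ X / nm y.1 := by linarith [hz.X1]
  have hR0 : 0 ≤ RR V e A c j₂ := by linarith
  have hag := E2440.fs_ag (δ := δ) (FS_bw (φ := φ) (p := p) (t := t₀) hx) hz.y1
  refine ⟨fun B j n => MNc_nonneg hR1, fun u j => FJm_nonneg hR0 u j x, hEx, ?_, ?_, ?_⟩
  · intro B hB j hj _ i t
    refine mo_x (Mn := fun B j => ∑ n ∈ dvs y.2, (nm n : ℝ) *
      MNc Jt V e A c (X / nm y.1) Qf δ y.1 φ p t₀ j₂ B j n x)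
      (Q := fun B τ d => Qf (e * A * j₂) B τ d) ?_ hMH hB hj i t
    intro B' hB' i' t' j' _
    exact MNc_spec hX'0 hz.y1 hR1 ((mem_S hX'0).1 hB').2.1.ne_zero j' y.2 hx i' t'
  · intro u j hj _ i t
    have h := moJ_x (T := Pz ^ (ε / 2)) (H := H) (K := K) (B0 := B0) (C0 := 60) (Jt := Jt)
      (Qf := Qf) hX'0 hz.y2.ne_zero hR0 hag.fin (by norm_num) hMH (u := u) (j := j)
      (jmL_RR hz.ep.ne_zero hz.Ap.ne_zero hz.hc hs₁ hL hj hj₂) i t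
    refine h.trans (mul_le_mul_of_nonneg_left ?_ (by positivity))
    refine add_le_add ?_ le_rfl
    unfold QsJ401.FJQ FJm
    refine MNJ_mono_Bs hag.fin hX'0 hR0 (fun B hB => ?_) fun B hB => (Finset.mem_filter.1 hB).1
    rw [mem_Bj] at hB
    exact Finset.mem_filter.2 ⟨hB.1, hB.2.1⟩
  · intro u j _ _
    exact hB0 u

/-! ### sums over the cells -/

/-- the sum over the separate cells with the property `o` -/
def TNx (V X : ℝ) (N0 : ℕ) (ν : Eis) (o : Eis → ℕ → ℕ → ℕ → Prop)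
    (G : Eis → ℕ → ℕ → ℕ → Eis → ℝ) : ℝ :=
  ∑ x ∈ IN V X N0 ν, if o x.1 x.2.1 x.2.2.1 x.2.2.2.1
    then G x.1 x.2.1 x.2.2.1 x.2.2.2.1 x.2.2.2.2 else 0

/-- the sum over the joint cells with the property `o` -/
def TJx (V X : ℝ) (N0 : ℕ) (o : Eis → ℕ → ℕ → ℕ → Prop) (G : Eis → ℕ → ℕ → ℕ → ℝ) : ℝ :=
  ∑ x ∈ IJ V X N0, if o x.1 x.2.1 x.2.2.1 x.2.2.2
    then G x.1 x.2.1 x.2.2.1 x.2.2.2 else 0

section
variable {V X : ℝ} {N0 : ℕ} {ν : Eis} {o : Eis → ℕ → ℕ → ℕ → Prop}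

/-- the terms which occur are nonnegative -/
lemma TNx_nonneg {G : Eis → ℕ → ℕ → ℕ → Eis → ℝ}
    (hG : ∀ c l u j n, 0 ≤ G c l u j n) : 0 ≤ TNx V X N0 ν o G := by
  refine Finset.sum_nonneg fun x _ => ?_
  split_ifs
  · exact hG _ _ _ _ _
  · exact le_rfl

lemma TJx_nonneg {G : Eis → ℕ → ℕ → ℕ → ℝ} (hG : ∀ c l u j, 0 ≤ G c l u j) :
    0 ≤ TJx V X N0 o G := by
  refine Finset.sum_nonneg fun x _ => ?_
  split_ifs
  · exact hG _ _ _ _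
  · exact le_rfl

lemma le_TNx {G : Eis → ℕ → ℕ → ℕ → Eis → ℝ} (hG : ∀ c l u j n, 0 ≤ G c l u j n) {c : Eis}
    (hc : c ∈ C4) {l u j : ℕ} (hl : l < NX (Real.sqrt V)) (hu : u < NX X) (hj : j < N0)
    {n : Eis} (hn : n ∈ dvs ν) (ho : o c l u j) : G c l u j n ≤ TNx V X N0 ν o G := by
  have hx : (c, l, u, j, n) ∈ IN V X N0 ν := by
    unfold RCl83.IN
    simp only [Finset.mem_product, Finset.mem_range]
    exact ⟨hc, hl, hu, hj, hn⟩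
  have h4 := Finset.single_le_sum (f := fun x : Eis × ℕ × ℕ × ℕ × Eis =>
    if o x.1 x.2.1 x.2.2.1 x.2.2.2.1
    then G x.1 x.2.1 x.2.2.1 x.2.2.2.1 x.2.2.2.2 else 0) (fun x _ => by
      split_ifs
      · exact hG _ _ _ _ _
      · exact le_rfl) hx
  rw [if_pos ho] at h4
  exact h4

lemma le_TJx {G : Eis → ℕ → ℕ → ℕ → ℝ} (hG : ∀ c l u j, 0 ≤ G c l u j) {c : Eis}
    (hc : c ∈ C4) {l u j : ℕ} (hl : l < NX (Real.sqrt V)) (hu : u < bkN X) (hj : j < N0)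
    (ho : o c l u j) : G c l u j ≤ TJx V X N0 o G := by
  have hx : (c, l, u, j) ∈ IJ V X N0 := by
    unfold RCl83.IJ
    simp only [Finset.mem_product, Finset.mem_range]
    exact ⟨hc, hl, hu, hj⟩
  have h4 := Finset.single_le_sum (f := fun x : Eis × ℕ × ℕ × ℕ =>
    if o x.1 x.2.1 x.2.2.1 x.2.2.2
    then G x.1 x.2.1 x.2.2.1 x.2.2.2 else 0) (fun x _ => by
      split_ifs
      · exact hG _ _ _ _
      · exact le_rfl) hx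
  rw [if_pos ho] at h4
  exact h4

lemma sum_TNx {𝒜 : Finset Eis} {G : Eis → Eis → ℕ → ℕ → ℕ → Eis → ℝ} {b : ℝ} (hb : 0 ≤ b)
    (h : ∀ c ∈ C4, ∀ l u j, o c l u j → ∀ n ∈ dvs ν, ∑ a ∈ 𝒜, G a c l u j n ≤ b) :
    ∑ a ∈ 𝒜, TNx V X N0 ν o (G a) ≤ (IN V X N0 ν).card * b := by
  unfold TNx
  rw [Finset.sum_comm]
  refine (Finset.sum_le_card_nsmul _ _ b fun x hx => ?_).trans (le_of_eq (nsmul_eq_mul _ _))
  unfold RCl83.IN at hx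
  simp only [Finset.mem_product, Finset.mem_range] at hx
  by_cases h0 : o x.1 x.2.1 x.2.2.1 x.2.2.2.1
  · simp only [if_pos h0]
    exact h x.1 hx.1 _ _ _ h0 _ hx.2.2.2.2
  · simp only [if_neg h0, Finset.sum_const_zero]
    exact hb

lemma sum_TJx {𝒜 : Finset Eis} {G : Eis → Eis → ℕ → ℕ → ℕ → ℝ} {b : ℝ} (hb : 0 ≤ b)
    (h : ∀ c ∈ C4, ∀ l u j, o c l u j → ∑ a ∈ 𝒜, G a c l u j ≤ b) :
    ∑ a ∈ 𝒜, TJx V X N0 o (G a) ≤ (IJ V X N0).card * b := by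
  unfold TJx
  rw [Finset.sum_comm]
  refine (Finset.sum_le_card_nsmul _ _ b fun x hx => ?_).trans (le_of_eq (nsmul_eq_mul _ _))
  unfold RCl83.IJ at hx
  simp only [Finset.mem_product, Finset.mem_range] at hx
  by_cases h0 : o x.1 x.2.1 x.2.2.1 x.2.2.2
  · simp only [if_pos h0]
    exact h x.1 hx.1 _ _ _ h0
  · simp only [if_neg h0, Finset.sum_const_zero]
    exact hb

end

/-! ### the inner sum over `(l, a)` -/

lemma fin_X {Cq cc q Wm Cl Te C5 D8 Gm Sf PrS : ℝ} (hCq : 0 ≤ Cq) (hq : 1 ≤ q) (hWm : 0 ≤ Wm)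
    (hCl : 1 ≤ Cl) (hTe0 : 0 ≤ Te) (hTe : Te ≤ q ^ 2) (hC5 : 1 ≤ C5) (hD8 : 1 ≤ D8) (hG : 0 ≤ Gm)
    (hS0 : 0 ≤ Sf) (hPr : 0 ≤ PrS) (hS : Sf ≤ C5 * q * (q * (D8 * Gm))) :
    Cq * cc ^ 2 * q ^ 4 * (Wm * (Cl * Te * Sf) + PrS) ≤
      ((Cq + 1) * Cl * C5 * D8) * cc ^ 2 * q ^ 12 * (Wm * Gm + PrS) := by
  have hq0 : 0 ≤ q := by linarith
  have hq8 : q ^ 8 ≤ q ^ 12 := pow_le_pow_right₀ hq (by norm_num)
  have hq4 : q ^ 4 ≤ q ^ 12 := pow_le_pow_right₀ hq (by norm_num)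
  have hCl0 : 0 ≤ Cl := by linarith
  have hC50 : 0 ≤ C5 := by linarith
  have hD80 : 0 ≤ D8 := by linarith
  have h1 : Cq ≤ (Cq + 1) * Cl * C5 * D8 := by
    have h2 : 1 ≤ Cl * C5 * D8 :=
      one_le_mul_of_one_le_of_one_le (one_le_mul_of_one_le_of_one_le hCl hC5) hD8
    calc Cq ≤ (Cq + 1) * 1 := by linarith
      _ ≤ (Cq + 1) * (Cl * C5 * D8) := by gcongr
      _ = _ := by ring
  have e1 : Cq * cc ^ 2 * q ^ 4 * (Wm * (Cl * Te * Sf)) ≤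
      ((Cq + 1) * Cl * C5 * D8) * cc ^ 2 * q ^ 12 * (Wm * Gm) := by
    calc Cq * cc ^ 2 * q ^ 4 * (Wm * (Cl * Te * Sf))
        ≤ Cq * cc ^ 2 * q ^ 4 * (Wm * (Cl * q ^ 2 * (C5 * q * (q * (D8 * Gm))))) := by gcongr
      _ = (Cq * Cl * C5 * D8) * (cc ^ 2 * q ^ 8 * (Wm * Gm)) := by ring
      _ ≤ ((Cq + 1) * Cl * C5 * D8) * (cc ^ 2 * q ^ 12 * (Wm * Gm)) := by
          have h3 : Cq ≤ Cq + 1 := by linarith
          gcongr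
      _ = _ := by ring
  have e2 : Cq * cc ^ 2 * q ^ 4 * PrS ≤ ((Cq + 1) * Cl * C5 * D8) * cc ^ 2 * q ^ 12 * PrS := by
    gcongr
  calc _ = Cq * cc ^ 2 * q ^ 4 * (Wm * (Cl * Te * Sf)) + Cq * cc ^ 2 * q ^ 4 * PrS := by ring
    _ ≤ _ := add_le_add e1 e2
    _ = _ := by ring

/-- the principal part of one `(l, a)` -/
def PrX (P ε H : ℝ) (ϑ ϑd : ℝ → ℝ) (V X K B0 : ℝ) (e A : Eis) (y : Eis × Eis)
    (Ex : Eis → Eis → Eis → ℕ → ℝ) : ℝ :=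
  ∑ c ∈ C4, ∑ j₂ ∈ (S (Real.sqrt V)).filter (fun j₂ => 1 ≤ RR V e A c j₂),
    RR V e A c j₂ ^ (-(1 : ℝ) / 3) * (K / nm (e * A * j₂)) ^ ((2 : ℝ) / 3) *
      GKd ϑ ϑd (RR V e A c j₂) (X / nm y.1) (K / nm (e * A * j₂)) B0 y.2
        (NBf (P ^ (ε / 3 / 2)) H (X / nm y.1) (RR V e A c j₂) (K / nm (e * A * j₂)) B0 y.2)
        (fun B j => (2 / 2 ^ j) * Ex c j₂ B j)

lemma PrX_nonneg {P ε H : ℝ} {ϑ ϑd : ℝ → ℝ} {V X K B0 : ℝ} {e A : Eis} {y : Eis × Eis}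
    {Ex : Eis → Eis → Eis → ℕ → ℝ} (hK : 0 ≤ K) (hEx : ∀ c j₂ B j, 0 ≤ Ex c j₂ B j) :
    0 ≤ PrX P ε H ϑ ϑd V X K B0 e A y Ex := by
  refine Finset.sum_nonneg fun c _ => Finset.sum_nonneg fun j₂ hj => ?_
  have hR : 1 ≤ RR V e A c j₂ := (Finset.mem_filter.mp hj).2
  refine mul_nonneg (mul_nonneg (by positivity) (by positivity)) ?_
  rw [GKd_eq]
  exact Finset.sum_nonneg fun B _ => Finset.sum_nonneg fun j _ =>
    mul_nonneg (wB_nonneg _ _ _ _ _ _ _ _ _) (mul_nonneg (by positivity) (hEx _ _ _ _))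

lemma PTs_nonneg {α : Eis → ℂ} {δ e : Eis} {V K X B0 : ℝ} {y : Eis × Eis} {A : Eis}
    (hK : 0 ≤ K) : 0 ≤ PTs α δ e V K X B0 y A := by
  unfold GKC739.PTs
  refine Finset.sum_nonneg fun c _ => Finset.sum_nonneg fun j₂ hj => ?_
  have hR : 1 ≤ RR V e A c j₂ := (Finset.mem_filter.mp hj).2
  exact GKC739.PJ_nn (by linarith) (by positivity) fun B => MTs_nonneg _ _ _ _ _ _ _ _ _

/-- the sum over `(l, a)` -/
def Sla (Λ : Finset Eis) (ρ : Eis → Eis) (W Kl : Eis → ℝ) (δ : Eis) (f : Eis → Eis → ℝ) : ℝ :=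
  ∑ k ∈ Λ, W k * Kl k ^ (-(2 / 3) : ℝ) * ∑ a ∈ (dvs (ρ k)).filter (fun a => ρ k / a ∣ δ), f k a

lemma Sla_nonneg {Λ : Finset Eis} {ρ : Eis → Eis} {W Kl : Eis → ℝ} {δ : Eis} {f : Eis → Eis → ℝ}
    (hW : ∀ k ∈ Λ, 0 ≤ W k) (hK : ∀ k ∈ Λ, 0 ≤ Kl k)
    (hf : ∀ k ∈ Λ, ∀ a ∈ (dvs (ρ k)).filter (fun a => ρ k / a ∣ δ), 0 ≤ f k a) :
    0 ≤ Sla Λ ρ W Kl δ f :=
  Finset.sum_nonneg fun k hk => mul_nonneg (mul_nonneg (hW k hk) (Real.rpow_nonneg (hK k hk) _))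
    (Finset.sum_nonneg fun a ha => hf k hk a ha)

set_option maxHeartbeats 1600000 in
/-- **the inner sum over `(l, a)`** -/
theorem Qla_X {ε : ℝ} (hε : 0 < ε) (a₀ M' : ℕ) {Cd : ℝ} (hCd : 0 ≤ Cd) :
    ∃ (M : ℕ) (C : ℝ), 1 ≤ C ∧
    ∀ (P : ℝ) (A' : ℕ) (Ft : ℝ → ℂ) (cc H : ℝ) (ϑ ϑd : ℝ → ℝ) (om : ∀ σ : Eis, IX σ → ℝ → ℂ),
    (∀ σ ∈ C4, KDd σ A' M Ft cc H ϑ ϑd (om σ)) → (∀ y : ℝ, 0 < y → ϑ y ≤ 1) →
    (∀ y : ℝ, 0 < y → ϑd y ≤ 1) →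
    (∀ x y : ℝ, 0 < x → 0 < y → x ≤ 4 * y → y ≤ 4 * x → ϑ x ≤ Cd * ϑ y) →
    (∀ x y : ℝ, 0 < x → 0 < y → x ≤ 4 * y → y ≤ 4 * x → ϑd x ≤ Cd * ϑd y) →
    ∀ (X V Wm T : ℝ) (Λ : Finset Eis) (ρ : Eis → Eis) (W Kl B0 : Eis → ℝ), RadOK T Λ ρ →
    1 ≤ T → T ≤ P → 0 ≤ V → 0 ≤ Wm → (∀ k ∈ Λ, 0 ≤ W k ∧ W k ≤ Wm) →
    (∀ k ∈ Λ, ∀ u : ℕ, ¬ ((2 : ℝ) ^ u / 2 < B0 k ∧ B0 k < (2 : ℝ) ^ u)) →
    ∀ (φ : ℝ → ℝ) (p : ℕ × ℕ) (t₀ : ℝ) (x : Eis → ℂ), FS x →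
    (∀ n, bw φ p t₀ x n ≠ 0 → Squarefree n) →
    (∀ n, bw φ p t₀ x n ≠ 0 → X / 2 < nm n ∧ (nm n : ℝ) ≤ X) →
    (∀ n, ‖bw φ p t₀ x n‖ ≤ P ^ a₀) → ∀ (δ e A : Eis) (y : Eis × Eis),
    (∀ k ∈ Λ, ∀ c ∈ C4, Sz P X V (Kl k) H δ e A c y) →
    ∀ (Qf : Eis → Eis → Eis → Eis → Prop) (s₁ Lv : ℝ), 0 ≤ s₁ → Lv ≤ Real.log V →
    ∀ (Ex : Eis → Eis → Eis → Eis → Eis → ℕ → ℝ), (∀ k a c j₂ B j, 0 ≤ Ex k a c j₂ B j) →
    (∀ k ∈ Λ, ∀ a ∈ (dvs (ρ k)).filter (fun a => ρ k / a ∣ δ), ∀ c ∈ C4,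
      ∀ j₂ ∈ S (Real.sqrt V), 1 ≤ RR V e A c j₂ →
      MH (WM (RR V e A c j₂)) (fun n j g₂ g₃ d => DN n g₂ g₃ d ∧ (2 : ℝ) ^ j / 2 < nm d)
        (fun B τ d => ¬ Qf (e * A * j₂) B τ d) (ag (alr (bw φ p t₀ x) a (ρ k / a)) δ y.1)
        (e * A * j₂) c y.2 (X / nm y.1) A'
        (Nj (P ^ (ε / 3 / 2)) H (X / nm y.1) V (Kl k) (B0 k) y.2 e A c j₂) (Ex k a c j₂)) →
    ∀ Mn : ℝ, 0 ≤ Mn →
    (∀ b, IsPrim b → Squarefree b → (nm b : ℝ) ≤ T → b ∣ δ → ∀ c ∈ C4, ∀ l u j,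
      (∃ k ∈ Λ, CellN (P ^ (ε / 3 / 2)) H (X / nm y.1) V (Kl k) (B0 k) y.2 e A c
        (jmL s₁ Lv l) l u j) → ∀ n ∈ dvs y.2,
      (2 / 2 ^ j : ℝ) * ((nm n : ℝ) * ∑ a ∈ S T, ∑ j₂ ∈ Tb V e A c l, ∑ B ∈ bk (X / nm y.1) u,
        MNc A' V e A c (X / nm y.1) Qf δ y.1 φ p t₀ j₂ B j n (alr x a b)) ≤ Mn) →
    (∀ b, IsPrim b → Squarefree b → (nm b : ℝ) ≤ T → b ∣ δ → ∀ c ∈ C4, ∀ l u j,
      jmL s₁ Lv l u j → (∃ k ∈ Λ, CellJ (P ^ (ε / 3 / 2)) H (X / nm y.1) V (Kl k) (B0 k) y.2 e A c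
        l u j) →
      (2 / 2 ^ j : ℝ) * (2 / 2 ^ u) * ∑ a ∈ S T, ∑ j₂ ∈ Tb V e A c l,
        FJm A' V e A c (X / nm y.1) Qf y.2 δ y.1 φ p t₀ j₂ u j (alr x a b) ≤ Mn) →
    Qla (bw φ p t₀ x) Λ ρ W Kl V Ft δ e y A ≤
      C * cc ^ 2 * P ^ ε * (Wm * ((V ^ (-(1 : ℝ) / 3) / nm (e * A)) * Mn + (P ^ M')⁻¹) +
        Sla Λ ρ W Kl δ (fun k a => PrX P ε H ϑ ϑd V X (Kl k) (B0 k) e A y (Ex k a) +
          PTs (alr (bw φ p t₀ x) a (ρ k / a)) δ e V (Kl k) X (B0 k) y A)) := by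
  have hε3 : 0 < ε / 3 := by positivity
  have hε6 : 0 < ε / 6 := by positivity
  have hε12 : 0 < ε / 12 := by positivity
  obtain ⟨M, Cq, hCq, HQ⟩ := Qs_cellsJx hε3 a₀ (M' + 3) (show (0 : ℝ) ≤ 1 + 60 by norm_num) hCd
  obtain ⟨D, hD, hsm⟩ := small_num hε3
  obtain ⟨Cl, hCl, hla⟩ := sum_la hε6
  obtain ⟨C5, hC5, hτ⟩ := tau_le_rpow hε12
  set D8 : ℝ := 8 * D + 16 with hD8
  have hD81 : 1 ≤ D8 := by rw [hD8]; linarith
  refine ⟨M, (Cq + 1) * Cl * C5 * D8, ?_, ?_⟩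
  · exact one_le_mul_of_one_le_of_one_le (one_le_mul_of_one_le_of_one_le
      (one_le_mul_of_one_le_of_one_le (by linarith) hCl) hC5) hD81
  intro P A' Ft cc H ϑ ϑd om hKD hϑ hϑd hdb hdbd X V Wm T Λ ρ W Kl B0 hΛ hT1 hTP hV0 hWm0 hW hB0
    φ p t₀ x hx hsq hwin hbP δ e A y hSz Qf s₁ Lv hs₁ hLv Ex hEx0 hMH Mn hMn hHN hHJ
  have hP1 : 1 ≤ P := hT1.trans hTP
  have hP0 : 0 < P := by linarith
  set v : ℝ := V ^ (-(1 : ℝ) / 3) / nm (e * A) with hv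
  have hT0 : 0 ≤ T := by linarith
  rcases Λ.eq_empty_or_nonempty with hΛ0 | ⟨k₀, hk₀⟩
  · have e0 : Qla (bw φ p t₀ x) Λ ρ W Kl V Ft δ e y A = 0 := by
      unfold RCl83.Qla
      rw [hΛ0, Finset.sum_empty]
    have e1 : Sla Λ ρ W Kl δ (fun k a => PrX P ε H ϑ ϑd V X (Kl k) (B0 k) e A y (Ex k a) +
          PTs (alr (bw φ p t₀ x) a (ρ k / a)) δ e V (Kl k) X (B0 k) y A) = 0 := by
      unfold Sla
      rw [hΛ0, Finset.sum_empty]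
    rw [e0, e1]
    have hv0 : 0 ≤ v := by rw [hv]; positivity
    have h1 : 0 ≤ Cl := by linarith
    have h2 : 0 ≤ C5 := by linarith
    positivity
  have h1C : (1 : Eis) ∈ C4 := mem_C4.mpr (Or.inl rfl)
  have hS0 := hSz k₀ hk₀ 1 h1C
  set X' : ℝ := X / nm y.1 with hX'
  have hX'1 : 1 ≤ X' := hS0.X1
  have hX'0 : 0 ≤ X' := by linarith
  have hX'P : X' ≤ P := hS0.XP'
  have hV1 : 1 ≤ V := hS0.V1
  have hsV1 : 1 ≤ Real.sqrt V := Real.one_le_sqrt.mpr hV1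
  have hv0 : 0 ≤ v := by rw [hv]; positivity
  set T' : ℝ := P ^ (ε / 3 / 2) with hT'
  set N0 : ℕ := N0e (ε / 3) P with hN0
  have hN : ∀ k ∈ Λ, ∀ c ∈ C4, ∀ l, ∀ j₂ ∈ Tb V e A c l, ∀ B ∈ S X',
      Nj T' H X' V (Kl k) (B0 k) y.2 e A c j₂ B ≤ N0 := by
    intro k hk c hc l j₂ hj₂ B hB
    have hcS := hSz k hk c hc
    have hj := mem_Tb.1 hj₂
    rw [mem_bk (Real.sqrt_nonneg V)] at hj
    exact hcS.shells hε3 ((mem_S (Real.sqrt_nonneg V)).2 hj.1.1) hj.2 hB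
  -- the numbers
  set G := fun (b a c : Eis) (l u j : ℕ) (n : Eis) =>
    (2 / 2 ^ j : ℝ) * ((nm n : ℝ) * ∑ j₂ ∈ Tb V e A c l, ∑ B ∈ bk X' u,
      MNc A' V e A c X' Qf δ y.1 φ p t₀ j₂ B j n (alr x a b)) with hG
  set GJ' := fun (b a c : Eis) (l u j : ℕ) =>
    (2 / 2 ^ j : ℝ) * (2 / 2 ^ u) * ∑ j₂ ∈ Tb V e A c l,
      FJm A' V e A c X' Qf y.2 δ y.1 φ p t₀ j₂ u j (alr x a b) with hGJ'
  have hG0 : ∀ b a c l u j n, 0 ≤ G b a c l u j n := fun b a c l u j n =>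
    mul_nonneg (by positivity) (mul_nonneg (Nat.cast_nonneg _) (Finset.sum_nonneg fun j₂ hj₂ =>
      Finset.sum_nonneg fun B _ => MNc_nonneg (mem_Tb.1 hj₂).2))
  have hGJ0 : ∀ b a c l u j, 0 ≤ GJ' b a c l u j := fun b a c l u j =>
    mul_nonneg (by positivity) (Finset.sum_nonneg fun j₂ hj₂ =>
      FJm_nonneg (by linarith [(mem_Tb.1 hj₂).2]) _ _ _)
  set oN : Eis → ℕ → ℕ → ℕ → Prop := fun c l u j => ∃ k ∈ Λ,
    CellN T' H X' V (Kl k) (B0 k) y.2 e A c (jmL s₁ Lv l) l u j with hoN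
  set oJ : Eis → ℕ → ℕ → ℕ → Prop := fun c l u j => jmL s₁ Lv l u j ∧ ∃ k ∈ Λ,
    CellJ T' H X' V (Kl k) (B0 k) y.2 e A c l u j with hoJ
  set M0 : Eis → Eis → ℝ := fun b a =>
    TNx V X' N0 y.2 oN (G b a) + TJx V X' N0 oJ (GJ' b a) with hM0
  have hM00 : ∀ b a, 0 ≤ M0 b a := fun b a =>
    add_nonneg (TNx_nonneg (hG0 b a)) (TJx_nonneg (hGJ0 b a))
  set tn : ℝ := (P ^ (M' + 3))⁻¹ with htn
  have htn0 : 0 ≤ tn := by positivity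
  set gx : Eis → Eis → ℝ := fun k a => PrX P ε H ϑ ϑd V X (Kl k) (B0 k) e A y (Ex k a) with hgx
  set gp : Eis → Eis → ℝ := fun k a =>
    PTs (alr (bw φ p t₀ x) a (ρ k / a)) δ e V (Kl k) X (B0 k) y A with hgp
  have hgx0 : ∀ k ∈ Λ, ∀ a, 0 ≤ gx k a := fun k hk a =>
    PrX_nonneg (hSz k hk 1 h1C).K0.le fun c j₂ B j => hEx0 k a c j₂ B j
  have hgp0 : ∀ k ∈ Λ, ∀ a, 0 ≤ gp k a := fun k hk a => PTs_nonneg (hSz k hk 1 h1C).K0.le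
  -- one `(l, a)`
  have hone : ∀ k ∈ Λ, ∀ a ∈ (dvs (ρ k)).filter (fun a => ρ k / a ∣ δ),
      Qc (alr (bw φ p t₀ x) a (ρ k / a)) (Kl k) V Ft δ e y A ≤ Cq * cc ^ 2 * T' *
        (T' * ((Kl k ^ ((2 : ℝ) / 3) * v) * M0 (ρ k / a) a + gx k a + tn) + gp k a) := by
    intro k hk a ha
    have hK0 : 0 < Kl k := (hSz k hk 1 h1C).K0
    have hbw : alr (bw φ p t₀ x) a (ρ k / a) = bw φ p t₀ (alr x a (ρ k / a)) :=
      alr_bw φ p t₀ x a (ρ k / a)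
    have hxa : FS (alr x a (ρ k / a)) := FS_alr hx a _
    have h1 := HQ P A' Ft cc H ϑ ϑd om hKD hϑ hϑd hdb hdbd X V (Kl k) (B0 k)
      (alr (bw φ p t₀ x) a (ρ k / a)) (FS_alr (FS_bw hx) a _)
      (fun n hn => hsq n (alr_ne hn).2.2) (fun n hn => hwin n (alr_ne hn).2.2)
      (fun n => (norm_alr_le _ _ _ _).trans (hbP n)) δ e A y (fun c hc => hSz k hk c hc)
      (fun c l => jmL s₁ Lv l)
      (fun c j₂ B j n => MNc A' V e A c X' Qf δ y.1 φ p t₀ j₂ B j n (alr x a (ρ k / a)))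
      (fun c j₂ u j => FJm A' V e A c X' Qf y.2 δ y.1 φ p t₀ j₂ u j (alr x a (ρ k / a)))
      (Ex k a) (M0 (ρ k / a) a) (hM00 _ _)
      (fun c hc l j₂ hj₂ => by
        have hj := mem_Tb.1 hj₂
        rw [mem_bk (Real.sqrt_nonneg V)] at hj
        have h2 := hMH k hk a ha c hc j₂ ((mem_S (Real.sqrt_nonneg V)).2 hj.1.1) hj.2
        rw [hbw] at h2 ⊢
        exact hmx_L (hSz k hk c hc) (hB0 k hk) hxa hs₁ hLv hj₂ (fun B j => hEx0 k a c j₂ B j) h2)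
      ?_ ?_
    · refine h1.trans (le_of_eq ?_)
      rw [RCl83.rpow_third hK0]
      rfl
    · intro c hc l u j hcl n hn
      obtain ⟨j₂, hj₂, B, hB, hj, hjm⟩ := id hcl
      have h2 : (2 / 2 ^ j : ℝ) * ((nm n : ℝ) * ∑ j₂ ∈ Tb V e A c l,
          ∑ B ∈ (bk X' u).filter (fun B =>
            j < Nj T' H X' V (Kl k) (B0 k) y.2 e A c j₂ B ∧ ¬ jmL s₁ Lv l (blk B) j),
          MNc A' V e A c X' Qf δ y.1 φ p t₀ j₂ B j n (alr x a (ρ k / a))) ≤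
          G (ρ k / a) a c l u j n := by
        refine mul_le_mul_of_nonneg_left (mul_le_mul_of_nonneg_left ?_ (Nat.cast_nonneg _))
          (by positivity)
        refine Finset.sum_le_sum fun j₂ hj₂ => ?_
        exact Finset.sum_le_sum_of_subset_of_nonneg (Finset.filter_subset _ _) fun B _ _ =>
          MNc_nonneg (mem_Tb.1 hj₂).2
      refine h2.trans ?_
      have h3 : 0 ≤ TJx V X' N0 oJ (GJ' (ρ k / a) a) := TJx_nonneg (hGJ0 _ _)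
      have h4 : G (ρ k / a) a c l u j n ≤ TNx V X' N0 y.2 oN (G (ρ k / a) a) :=
        le_TNx (hG0 _ _) hc (bk_lt_NX hsV1 (mem_Tb.1 hj₂).1) (bk_lt_NX hX'1 hB)
          (hj.trans_le (hN k hk c hc l j₂ hj₂ B ((mem_S hX'0).2 ((mem_bk hX'0).1 hB).1))) hn
          ⟨k, hk, hcl⟩
      simp only [hM0]
      linarith
    · intro c hc l u j hjm hcl
      obtain ⟨j₂, hj₂, B, hB⟩ := id hcl
      rw [mem_Bj] at hB
      have h3 : 0 ≤ TNx V X' N0 y.2 oN (G (ρ k / a) a) := TNx_nonneg (hG0 _ _)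
      have h4 : GJ' (ρ k / a) a c l u j ≤ TJx V X' N0 oJ (GJ' (ρ k / a) a) :=
        le_TJx (hGJ0 _ _) hc (bk_lt_NX hsV1 (mem_Tb.1 hj₂).1)
          (hB.2.1 ▸ blk_lt_bkN hX'0 hB.1) (hB.2.2.trans_le (hN k hk c hc l j₂ hj₂ B hB.1))
          ⟨hjm, k, hk, hcl⟩
      have h5 : (2 / 2 ^ j : ℝ) * (2 / 2 ^ u) * ∑ j₂ ∈ Tb V e A c l,
        FJm A' V e A c X' Qf y.2 δ y.1 φ p t₀ j₂ u j (alr x a (ρ k / a)) =
          GJ' (ρ k / a) a c l u j := rfl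
      rw [h5]
      simp only [hM0]
      linarith
  have hT'1 : 1 ≤ T' := Real.one_le_rpow hP1 (by positivity)
  have hT'0 : 0 ≤ T' := by linarith
  set f : Eis → Eis → ℝ := fun b a => v * M0 b a + P * tn with hf
  have hf0 : ∀ b a, 0 ≤ f b a := by
    intro b a
    have := hM00 b a
    simp only [hf]
    positivity
  set PrS : ℝ := Sla Λ ρ W Kl δ (fun k a => gx k a + gp k a) with hPrS
  have hPrS0 : 0 ≤ PrS := Sla_nonneg (fun k hk => (hW k hk).1)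
    (fun k hk => (hSz k hk 1 h1C).K0.le) fun k hk a _ => add_nonneg (hgx0 k hk a) (hgp0 k hk a)
  have hsum : Qla (bw φ p t₀ x) Λ ρ W Kl V Ft δ e y A ≤ Cq * cc ^ 2 * (T' * T') *
      (Wm * ∑ k ∈ Λ, ∑ a ∈ (dvs (ρ k)).filter (fun a => ρ k / a ∣ δ), f (ρ k / a) a + PrS) := by
    rw [hPrS]
    unfold RCl83.Qla Sla
    rw [Finset.mul_sum, ← Finset.sum_add_distrib, Finset.mul_sum]
    refine Finset.sum_le_sum fun k hk => ?_
    rw [Finset.mul_sum, Finset.mul_sum, Finset.mul_sum, ← Finset.sum_add_distrib, Finset.mul_sum]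
    refine Finset.sum_le_sum fun a ha => ?_
    have h1 := hone k hk a ha
    have hSk := hSz k hk 1 h1C
    have hwk : 0 ≤ W k * Kl k ^ (-(2 / 3) : ℝ) :=
      mul_nonneg (hW k hk).1 (Real.rpow_nonneg hSk.K0.le _)
    have h2 := wt_real (W := W k) (Wm := Wm) (k := Kl k) (kt := Kl k) (M0 := M0 (ρ k / a) a)
      (M1 := 0) (v := v) (t := tn) (P := P) (hW k hk).1 (hW k hk).2 hSk.K0
      le_rfl (hM00 _ _) le_rfl hv0 htn0 hP1 hSk.KiP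
    simp only [mul_zero, add_zero] at h2
    have hgx1 := hgx0 k hk a
    have hgp1 := hgp0 k hk a
    have hc0 : 0 ≤ Cq * cc ^ 2 := by positivity
    have h3 : T' * gp k a ≤ T' * T' * gp k a := by
      rw [mul_assoc]
      exact mul_le_mul_of_nonneg_left (le_mul_of_one_le_left hgp1 hT'1) hT'0
    have hTT : 0 ≤ T' * T' := mul_nonneg hT'0 hT'0
    calc W k * Kl k ^ (-(2 / 3) : ℝ) * Qc (alr (bw φ p t₀ x) a (ρ k / a)) (Kl k) V Ft δ e y A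
        ≤ W k * Kl k ^ (-(2 / 3) : ℝ) * (Cq * cc ^ 2 * T' *
        (T' * ((Kl k ^ ((2 : ℝ) / 3) * v) * M0 (ρ k / a) a + gx k a + tn) + gp k a)) :=
          mul_le_mul_of_nonneg_left h1 hwk
      _ = Cq * cc ^ 2 * (T' * T' * (W k * Kl k ^ (-(2 / 3) : ℝ) *
          ((Kl k ^ ((2 : ℝ) / 3) * v) * M0 (ρ k / a) a + tn)) +
          W k * Kl k ^ (-(2 / 3) : ℝ) * (T' * T' * gx k a + T' * gp k a)) := by ring
      _ ≤ Cq * cc ^ 2 * (T' * T' * (Wm * f (ρ k / a) a) +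
          W k * Kl k ^ (-(2 / 3) : ℝ) * (T' * T' * gx k a + T' * T' * gp k a)) := by
          refine mul_le_mul_of_nonneg_left (add_le_add (mul_le_mul_of_nonneg_left h2 hTT)
            (mul_le_mul_of_nonneg_left (by linarith) hwk)) hc0
      _ = _ := by ring
  have hl2 := hla T Λ ρ hT1 hΛ (S T) (S T) (fun b h1 h2 h3 => (mem_S hT0).2 ⟨h3, h1, h2⟩)
    (fun b h1 h2 h3 => (mem_S hT0).2 ⟨h3, h1, h2⟩) f (fun b _ a _ => hf0 b a) (fun b => b ∣ δ)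
  -- the sum over `a` for one `b`
  have hb : ∀ b ∈ (S T).filter (fun b => b ∣ δ), ∑ a ∈ S T, f b a ≤
      v * ((IN V X' N0 y.2).card * Mn + (IJ V X' N0).card * Mn) + 16 * T * (P * tn) := by
    intro b hb
    rw [Finset.mem_filter, mem_S hT0] at hb
    obtain ⟨⟨b1, b2, b3⟩, b4⟩ := hb
    have hTN : ∑ a ∈ S T, TNx V X' N0 y.2 oN (G b a) ≤ (IN V X' N0 y.2).card * Mn := by
      refine sum_TNx hMn fun c hc l u j ho n hn => ?_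
      refine le_trans (le_of_eq ?_) (hHN b b2 b3 b1 b4 c hc l u j ho n hn)
      simp only [hG]
      rw [← Finset.mul_sum, ← Finset.mul_sum]
    have hTJ : ∑ a ∈ S T, TJx V X' N0 oJ (GJ' b a) ≤ (IJ V X' N0).card * Mn := by
      refine sum_TJx hMn fun c hc l u j ho => ?_
      refine le_trans (le_of_eq ?_) (hHJ b b2 b3 b1 b4 c hc l u j ho.1 ho.2)
      simp only [hGJ']
      rw [← Finset.mul_sum]
    have e1 : ∑ a ∈ S T, f b a = v * (∑ a ∈ S T, TNx V X' N0 y.2 oN (G b a) +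
          ∑ a ∈ S T, TJx V X' N0 oJ (GJ' b a)) + ((S T).card : ℝ) * (P * tn) := by
      simp only [hf, hM0]
      rw [Finset.sum_add_distrib, ← Finset.mul_sum, Finset.sum_add_distrib, Finset.sum_const,
        nsmul_eq_mul]
    rw [e1]
    have h4 := GLS106.card_S_le hT1
    gcongr
  -- the powers
  obtain ⟨q, hq⟩ : ∃ q, q = P ^ (ε / 12) := ⟨_, rfl⟩
  obtain ⟨hp1, hp2, hp3, hp4⟩ := RCl83.fin_pow hP0 hq
  have hq1 : 1 ≤ q := by rw [hq]; exact Real.one_le_rpow hP1 (by positivity)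
  have hq0 : 0 ≤ q := by linarith
  have hT'q : T' * T' = q ^ 4 := by
    rw [hT', ← Real.rpow_add hP0, ← hp1]
    congr 1; ring
  have hMi : 0 ≤ (P ^ M')⁻¹ := by positivity
  obtain ⟨n1, n2, -⟩ := hsm P X' V hP1 hX'1 hX'P hV1 hS0.VP y.2 hS0.y2.ne_zero hS0.y2P
  rw [hp3] at n1 n2
  have hC4c : (C4.card : ℝ) ≤ 4 := by exact_mod_cast card_C4'
  have hD0 : 0 ≤ D := by linarith
  have hcN : ((IN V X' N0 y.2).card : ℝ) ≤ 4 * (D * q) := by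
    rw [card_IN]
    exact mul_le_mul hC4c n1 (by positivity) (by norm_num)
  have hcJ : ((IJ V X' N0).card : ℝ) ≤ 4 * (D * q) := by
    rw [card_IJ]
    exact mul_le_mul hC4c n2 (by positivity) (by norm_num)
  set Gm : ℝ := v * Mn + (P ^ M')⁻¹ with hGm
  have hGm0 : 0 ≤ Gm := by positivity
  have hFm : v * ((IN V X' N0 y.2).card * Mn + (IJ V X' N0).card * Mn) + 16 * T * (P * tn) ≤
      q * (D8 * Gm) := by
    have k1 : T * (P * tn) ≤ (P ^ M')⁻¹ := by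
      have e1 : tn = (P ^ M')⁻¹ * (P⁻¹ * P⁻¹ * P⁻¹) := by
        rw [htn, pow_add, mul_inv]; ring
      have hPi : P⁻¹ ≤ 1 := inv_le_one_of_one_le₀ hP1
      calc T * (P * tn) ≤ P * (P * tn) := by gcongr
        _ = (P ^ M')⁻¹ * P⁻¹ := by rw [e1]; field_simp
        _ ≤ (P ^ M')⁻¹ * 1 := mul_le_mul_of_nonneg_left hPi hMi
        _ = (P ^ M')⁻¹ := mul_one _
    have k2 : (P ^ M')⁻¹ ≤ q * (P ^ M')⁻¹ := le_mul_of_one_le_left hMi hq1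
    calc _ ≤ v * (4 * (D * q) * Mn + 4 * (D * q) * Mn) + 16 * (q * (P ^ M')⁻¹) := by
          have k3 : 16 * T * (P * tn) ≤ 16 * (q * (P ^ M')⁻¹) := by
            have := k1.trans k2
            linarith
          refine add_le_add (mul_le_mul_of_nonneg_left (add_le_add
            (mul_le_mul_of_nonneg_right hcN hMn) (mul_le_mul_of_nonneg_right hcJ hMn)) hv0) k3
      _ = q * (8 * D * (v * Mn) + 16 * (P ^ M')⁻¹) := by ring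
      _ ≤ q * (D8 * Gm) := by
          refine mul_le_mul_of_nonneg_left ?_ hq0
          rw [hD8, hGm]
          have h1 : 0 ≤ v * Mn := by positivity
          nlinarith [mul_nonneg hD0 hMi]
  have hcard : (((S T).filter (fun b => b ∣ δ)).card : ℝ) ≤ C5 * q := by
    have h1 : ((S T).filter (fun b => b ∣ δ)).card ≤ (dvs δ).card := by
      refine Finset.card_le_card fun b hb => ?_
      rw [Finset.mem_filter, mem_S hT0] at hb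
      exact (mem_dvs hS0.δp.ne_zero).2 ⟨hb.1.2.1, hb.2⟩
    have h2 : (((S T).filter (fun b => b ∣ δ)).card : ℝ) ≤ tau δ := by
      unfold Div277.tau; exact_mod_cast h1
    refine h2.trans ((hτ δ hS0.δp.ne_zero).trans ?_)
    rw [hq]
    have : (nm δ : ℝ) ^ (ε / 12) ≤ P ^ (ε / 12) :=
      Real.rpow_le_rpow (Nat.cast_nonneg _) hS0.δP hε12.le
    exact mul_le_mul_of_nonneg_left this (by linarith)
  have hbs : ∑ b ∈ (S T).filter (fun b => b ∣ δ), ∑ a ∈ S T, f b a ≤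
      C5 * q * (q * (D8 * Gm)) := by
    refine (Finset.sum_le_card_nsmul _ _ _ fun b hb' => (hb b hb').trans hFm).trans ?_
    rw [nsmul_eq_mul]
    refine mul_le_mul_of_nonneg_right hcard ?_
    have : 0 ≤ D8 := by linarith
    positivity
  have hTe : T ^ (ε / 6) ≤ q ^ 2 := by
    rw [← hp2]; exact Real.rpow_le_rpow hT0 hTP hε6.le
  have hbs0 : 0 ≤ ∑ b ∈ (S T).filter (fun b => b ∣ δ), ∑ a ∈ S T, f b a :=
    Finset.sum_nonneg fun _ _ => Finset.sum_nonneg fun _ _ => hf0 _ _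
  rw [hp4]
  refine le_trans ?_ (fin_X hCq hq1 hWm0 hCl (Real.rpow_nonneg hT0 _) hTe hC5 hD81 hGm0 hbs0 hPrS0
    hbs)
  refine hsum.trans ?_
  rw [hT'q]
  have hc0 : 0 ≤ Cq * cc ^ 2 * q ^ 4 := by positivity
  exact mul_le_mul_of_nonneg_left (add_le_add (mul_le_mul_of_nonneg_left hl2 hWm0) le_rfl) hc0

end Crest.Agent.R017.RClX791
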