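import Crest.Agent.R017.RCld_83
import Crest.Agent.R017.MoN6_106

/-!
# Row 17, E2, R-side of the `l`-terms of the tail of (LB) (helper83), part e

* `EnvL` : the sizes of one block of `l` (family `K`, any crossing)
* `ncB`, `jcB` : the natural cells of `Qla_nat` from the pair lines
-/

set_option autoImplicit false
set_option linter.unusedVariables false
set_option maxHeartbeats 1600000

noncomputable section

open Finset
open scoped ComplexConjugate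

namespace Crest.Agent.R017.RCl83

open Crest.Agent.R012 Crest.Agent.R012.Eis
open Crest.Agent.R012.LS2 (S mem_S)
open Crest.Agent.R017.B770
open Crest.Agent.R017.Prov71
open Crest.Agent.R017.CM106 (CS FS)
open Crest.Agent.R017.FE47 (cx PU)
open Crest.Agent.R017.HP842 (pc sqc)
open Crest.Agent.R017.XRG106
open Crest.Agent.R017.X6C180 (IX dl')
open Crest.Agent.R017.RGw813 (T9)
open Crest.Agent.R017.H1401 (pb mem_pb WM HW DN)
open Crest.Agent.R017.MoF106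
open Crest.Agent.R017.MoL106
open Crest.Agent.R017.E2440 (C4 RR blk blk_lt blk_le)
open Crest.Agent.R017.QsJ401 (Sz CellN CellJ Nj mem_Bj Tb mem_Tb)
open Crest.Agent.R017.MoJ401 (PJ wJc)
open Crest.Agent.R017.E2D401 (Bj)
open Crest.Agent.R017.RC106 (PLn k9 nm_kw log_fr le_exp_of_log jmL log2_le1 blk_bk jcell NX_lt)
open Crest.Agent.R012.Div277 (tau dvs mem_dvs nm_le_of_dvd)

/-- **the sizes of one block of `l`**: `K` = family, the crossing `B0` may be `1 / 2` -/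
structure EnvL (e₀ ε Pz X V Kf B0 H X0 : ℝ) (δ e : Eis) (n K Lv d : ℝ) : Prop where
  e0 : 10 ≤ e₀
  k9 : k9 ≤ e₀
  d0 : 0 ≤ d
  n0 : 0 ≤ n
  K0 : -e₀ ≤ K
  v0 : 0 ≤ Lv
  lX : Real.log X ≤ n + e₀
  lV : Real.log V ≤ Lv + e₀
  lK : Real.log Kf ≤ K + e₀
  lK' : K ≤ Real.log Kf + e₀
  lT : ε / 2 * Real.log Pz ≤ d
  lH : Real.log H ≤ 8 * d
  lδ : Real.log (nm δ) ≤ d
  le : Real.log (nm e) ≤ d
  B1 : 0 < B0
  lB : 3 * Real.log B0 ≤ 2 * K - Lv - n + 3 * e₀ ∨ B0 < 1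
  lB' : 2 * K - Lv - n ≤ 3 * Real.log B0 + 3 * e₀
  lX0 : Lv + 2 * n + 20 * d + 20 * e₀ ≤ Real.log X0
  X0 : 0 < X0

section env

variable {e₀ ε Pz X V Kf B0 H X0 : ℝ} {δ e A c : Eis} {y : Eis × Eis} {n K Lv d : ℝ}

/-- two real forms of the range -/
lemma shell2L {b₀ z a lB n K Lv d e₀ : ℝ} (he : 10 ≤ e₀) (hd : 0 ≤ d)
    (hB' : 2 * K - Lv - n ≤ 3 * lB + 3 * e₀)
    (h : (3 * lB ≤ 2 * K - Lv - n + 3 * e₀ ∧ b₀ ≤ lB ∧
        z + a ≤ Lv + n - K + b₀ + 15 * d + 3 * e₀ + 2) ∨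
      (lB ≤ b₀ + 1 / 3 ∧ z + a + 2 * b₀ ≤ K + e₀ + 3)) :
    z + a ≤ Lv + n - K + b₀ + 15 * d + 6 * e₀ + 5 ∧ z + a + 2 * b₀ ≤ K + 15 * d + 6 * e₀ + 5 := by
  rcases h with ⟨hB, h1, h2⟩ | ⟨h1, h2⟩ <;> constructor <;> linarith

lemma EnvL.nA (he : EnvL e₀ ε Pz X V Kf B0 H X0 δ e n K Lv d)
    (hz : Sz Pz X V Kf H δ e A c y) : (nm A : ℝ) ≤ Real.exp d := by
  have h1 : nm A ≤ nm y.1 := nm_le_of_dvd hz.y1.ne_zero hz.Ad
  have h2 : nm y.1 ≤ nm δ := nm_le_of_dvd hz.δp.ne_zero (hz.ye ▸ dvd_mul_right _ _)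
  have h3 : (nm A : ℝ) ≤ nm δ := by exact_mod_cast h1.trans h2
  refine h3.trans (le_exp_of_log ?_ he.lδ)
  exact_mod_cast nm_pos.2 hz.δp.ne_zero

lemma EnvL.ny1 (he : EnvL e₀ ε Pz X V Kf B0 H X0 δ e n K Lv d)
    (hz : Sz Pz X V Kf H δ e A c y) : (nm y.1 : ℝ) ≤ Real.exp d := by
  have h2 : nm y.1 ≤ nm δ := nm_le_of_dvd hz.δp.ne_zero (hz.ye ▸ dvd_mul_right _ _)
  have h3 : (nm y.1 : ℝ) ≤ nm δ := by exact_mod_cast h2
  refine h3.trans (le_exp_of_log ?_ he.lδ)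
  exact_mod_cast nm_pos.2 hz.δp.ne_zero

lemma EnvL.ny2 (he : EnvL e₀ ε Pz X V Kf B0 H X0 δ e n K Lv d)
    (hz : Sz Pz X V Kf H δ e A c y) : (nm y.2 : ℝ) ≤ Real.exp d := by
  have h2 : nm y.2 ≤ nm δ := nm_le_of_dvd hz.δp.ne_zero (hz.ye ▸ dvd_mul_left _ _)
  have h3 : (nm y.2 : ℝ) ≤ nm δ := by exact_mod_cast h2
  refine h3.trans (le_exp_of_log ?_ he.lδ)
  exact_mod_cast nm_pos.2 hz.δp.ne_zero

lemma EnvL.neA (he : EnvL e₀ ε Pz X V Kf B0 H X0 δ e n K Lv d)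
    (hz : Sz Pz X V Kf H δ e A c y) : (nm (e * A) : ℝ) ≤ Real.exp (2 * d) := by
  rw [hz.nmeA]
  have h1 : (nm e : ℝ) ≤ Real.exp d := le_exp_of_log (by
    exact_mod_cast nm_pos.2 hz.ep.ne_zero) he.le
  have h2 := he.nA hz
  calc (nm e : ℝ) * nm A ≤ Real.exp d * Real.exp d :=
        mul_le_mul h1 h2 (Nat.cast_nonneg _) (Real.exp_pos _).le
    _ = Real.exp (2 * d) := by rw [← Real.exp_add]; congr 1; ring

lemma EnvL.X' (he : EnvL e₀ ε Pz X V Kf B0 H X0 δ e n K Lv d)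
    (hz : Sz Pz X V Kf H δ e A c y) : X / nm y.1 ≤ Real.exp (n + e₀) := by
  have hX0 : 0 < X := by
    have := hz.n1
    have := hz.yX
    linarith
  exact (div_le_self hX0.le hz.n1).trans (le_exp_of_log hX0 he.lX)

/-- **the range of a separate cell** -/
lemma EnvL.shell0 (hε : 0 < ε) (he : EnvL e₀ ε Pz X V Kf B0 H X0 δ e n K Lv d)
    (hz : Sz Pz X V Kf H δ e A c y) {l u j : ℕ}
    (hc : GKC739.Cell (Pz ^ (ε / 2)) H V Kf (X / nm y.1) B0 y.2 e A c l u j) :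
    (Real.exp ((u : ℝ) / 3) ≤ B0 ∧ Real.log (2 ^ j) + (l : ℝ) / 3 ≤
      Lv + n - K + (u : ℝ) / 3 + 15 * d + 3 * e₀ + 2) ∨
    (B0 < Real.exp ((u : ℝ) / 3 + 1 / 3) ∧
      Real.log (2 ^ j) + (l : ℝ) / 3 + 2 * ((u : ℝ) / 3) ≤ K + e₀ + 3) := by
  have hP0 := hz.P0
  have hK0 := hz.K0
  have hT : (1 : ℝ) ≤ Pz ^ (ε / 2) := Real.one_le_rpow hz.P1 (by linarith)
  have h1 := hc.shell hT hz.H1 hz.K0 hz.X1 hz.y2 hz.ep hz.Ap hz.hc
  have hcn := (GKC739.nm_C hz.hc).1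
  have hT2 : Pz ^ (ε / 2) ≤ Real.exp d := by
    rw [Real.rpow_def_of_pos hP0]
    exact Real.exp_le_exp.2 (by linarith [he.lT, mul_comm (ε / 2) (Real.log Pz)])
  have hH0 : 0 < H := by linarith [hz.H1]
  have hH2 : H ≤ Real.exp (8 * d) := le_exp_of_log hH0 he.lH
  have hV0 : 0 < V := by linarith [hz.V1]
  have hV2 : V ≤ Real.exp (Lv + e₀) := le_exp_of_log hV0 he.lV
  have hX2 := he.X' hz
  have hE2 := he.neA hz
  have hy2 := he.ny2 hz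
  have hX10 : 0 ≤ X / nm y.1 := by linarith [hz.X1]
  have hKl : Real.exp (K - e₀) ≤ Kf := by
    rw [← Real.exp_log hK0]
    exact Real.exp_le_exp.2 (by linarith [he.lK'])
  have hKu : Kf ≤ Real.exp (K + e₀) := le_exp_of_log hK0 he.lK
  have h2j : (0 : ℝ) < 2 ^ j := by positivity
  have hea : 0 < Real.exp ((l : ℝ) / 3) := Real.exp_pos _
  have heA1 : (1 : ℝ) ≤ nm (e * A) := by
    exact_mod_cast nm_pos.2 (mul_ne_zero hz.ep.ne_zero hz.Ap.ne_zero)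
  have h4 : (4 : ℝ) ≤ Real.exp 2 := by
    have h5 := Real.exp_one_gt_d9
    have h6 : Real.exp 2 = Real.exp 1 * Real.exp 1 := by rw [← Real.exp_add]; norm_num
    rw [h6]; nlinarith
  have h10 : (10 : ℝ) ≤ Real.exp 3 := by
    have h5 := Real.exp_one_gt_d9
    have h6 : Real.exp 3 = Real.exp 1 * Real.exp 1 * Real.exp 1 := by
      rw [← Real.exp_add, ← Real.exp_add]; norm_num
    have h7 : (7.38 : ℝ) ≤ Real.exp 1 * Real.exp 1 := by nlinarith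
    rw [h6]; nlinarith
  rcases h1 with ⟨h1, h2⟩ | ⟨h1, h2⟩
  · left
    refine ⟨h1, ?_⟩
    have h3 : (2 : ℝ) ^ j ≤ Real.exp (Lv + n - K + (u : ℝ) / 3 + 15 * d + 3 * e₀ + 2 - l / 3) := by
      refine h2.le.trans ?_
      rw [div_le_iff₀ (by positivity)]
      calc 4 * Pz ^ (ε / 2) * H * (nm y.2 : ℝ) ^ 2 * (X / nm y.1) * V * (nm (e * A) : ℝ) ^ 2 *
            Real.exp ((u : ℝ) / 3)
          ≤ Real.exp 2 * Real.exp d * Real.exp (8 * d) * Real.exp d ^ 2 * Real.exp (n + e₀) *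
            Real.exp (Lv + e₀) * Real.exp (2 * d) ^ 2 * Real.exp ((u : ℝ) / 3) := by gcongr
        _ = Real.exp (Lv + n - K + (u : ℝ) / 3 + 15 * d + 3 * e₀ + 2 - l / 3) *
            (1 * Real.exp (K - e₀) * Real.exp ((l : ℝ) / 3)) := by
            rw [one_mul, ← Real.exp_nat_mul, ← Real.exp_nat_mul, ← Real.exp_add, ← Real.exp_add,
              ← Real.exp_add, ← Real.exp_add, ← Real.exp_add, ← Real.exp_add, ← Real.exp_add,
              ← Real.exp_add, ← Real.exp_add]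
            congr 1
            push_cast
            ring
        _ ≤ _ := by gcongr
    have h4 := (Real.log_le_iff_le_exp h2j).2 h3
    linarith
  · right
    refine ⟨h1, ?_⟩
    have h3 : (2 : ℝ) ^ j ≤ Real.exp (K + e₀ + 3 - l / 3 - 2 * ((u : ℝ) / 3)) := by
      refine h2.le.trans ?_
      rw [div_le_iff₀ (by positivity)]
      calc 10 * Kf ≤ Real.exp 3 * Real.exp (K + e₀) := by gcongr
        _ = Real.exp (K + e₀ + 3 - l / 3 - 2 * ((u : ℝ) / 3)) *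
            (1 * Real.exp ((l : ℝ) / 3) * Real.exp ((u : ℝ) / 3) ^ 2) := by
            rw [one_mul, ← Real.exp_nat_mul, ← Real.exp_add, ← Real.exp_add, ← Real.exp_add]
            congr 1
            push_cast
            ring
        _ ≤ _ := by gcongr
    have h4 := (Real.log_le_iff_le_exp h2j).2 h3
    linarith

/-- **the range of a separate cell** -/
lemma EnvL.shell (hε : 0 < ε) (he : EnvL e₀ ε Pz X V Kf B0 H X0 δ e n K Lv d)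
    (hz : Sz Pz X V Kf H δ e A c y) {l u j : ℕ}
    (hc : GKC739.Cell (Pz ^ (ε / 2)) H V Kf (X / nm y.1) B0 y.2 e A c l u j) :
    Real.log (2 ^ j) + (l : ℝ) / 3 ≤ Lv + n - K + (u : ℝ) / 3 + 15 * d + 6 * e₀ + 5 ∧
    Real.log (2 ^ j) + (l : ℝ) / 3 + 2 * ((u : ℝ) / 3) ≤ K + 15 * d + 6 * e₀ + 5 := by
  have hB0 := he.B1
  refine shell2L (lB := Real.log B0) he.e0 he.d0 he.lB' ?_
  rcases he.shell0 hε hz hc with ⟨h1, h2⟩ | ⟨h1, h2⟩
  · left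
    have h3 : 1 ≤ B0 := (Real.one_le_exp (by positivity)).trans h1
    refine ⟨?_, (Real.le_log_iff_exp_le hB0).2 h1, h2⟩
    rcases he.lB with h4 | h4
    · exact h4
    · linarith
  · right
    exact ⟨(Real.log_le_iff_le_exp hB0).2 h1.le, h2⟩

/-- the range of a joint cell -/
lemma EnvL.shellJ (hε : 0 < ε) (he : EnvL e₀ ε Pz X V Kf B0 H X0 δ e n K Lv d)
    (hz : Sz Pz X V Kf H δ e A c y) {l u j : ℕ}
    (hc : CellJ (Pz ^ (ε / 2)) H (X / nm y.1) V Kf B0 y.2 e A c l u j) :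
    Real.log (2 ^ j) + (l : ℝ) / 3 ≤ Lv + n - K + Real.log (2 ^ u) + 15 * d + 6 * e₀ + 5 ∧
    Real.log (2 ^ j) + (l : ℝ) / 3 + 2 * Real.log (2 ^ u) ≤ K + 15 * d + 6 * e₀ + 8 := by
  have hX0 : 0 ≤ X / nm y.1 := by linarith [hz.X1]
  obtain ⟨u', h1, h2, h3⟩ := jcell hX0 hc
  obtain ⟨h4, h5⟩ := he.shell hε hz h1
  constructor <;> linarith

lemma EnvL.leX0 (he : EnvL e₀ ε Pz X V Kf B0 H X0 δ e n K Lv d) {a : ℝ}
    (h : a ≤ Lv + 2 * n + 20 * d + 20 * e₀) : Real.exp a ≤ X0 := by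
  rw [← Real.exp_log he.X0]
  exact Real.exp_le_exp.2 (h.trans he.lX0)

lemma EnvL.Rm (he : EnvL e₀ ε Pz X V Kf B0 H X0 δ e n K Lv d)
    (hz : Sz Pz X V Kf H δ e A c y) (l : ℕ) :
    Rmx V e A c l ≤ Real.exp ((2 * d + e₀) + Lv - 2 * ((l : ℝ) / 3)) := by
  have hcn := (GKC739.nm_C hz.hc).1
  have hV0 : 0 < V := by linarith [hz.V1]
  have hV2 : V ≤ Real.exp (Lv + e₀) := le_exp_of_log hV0 he.lV
  have hE2 := he.neA hz
  unfold Rmx
  rw [div_le_iff₀ (by positivity)]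
  calc V * nm (e * A) ≤ Real.exp (Lv + e₀) * Real.exp (2 * d) :=
        mul_le_mul hV2 hE2 (Nat.cast_nonneg _) (Real.exp_pos _).le
    _ = Real.exp ((2 * d + e₀) + Lv - 2 * ((l : ℝ) / 3)) * (1 * Real.exp ((l : ℝ) / 3) ^ 2) := by
        rw [one_mul, ← Real.exp_nat_mul, ← Real.exp_add, ← Real.exp_add]
        congr 1
        push_cast
        ring
    _ ≤ _ := by gcongr

lemma EnvL.fr (he : EnvL e₀ ε Pz X V Kf B0 H X0 δ e n K Lv d)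
    (hz : Sz Pz X V Kf H δ e A c y) {p : ℕ × ℕ} (hp : p ∈ T9) (i : IX c) :
    Real.log (nm (e * A * kw p ^ 2 * dl' c i)) + 1 / 3 ≤ 2 * d + e₀ := by
  have hE : e * A ≠ 0 := mul_ne_zero hz.ep.ne_zero hz.Ap.ne_zero
  have h1 := log_fr hp hz.hc i hE
  have h2 := he.k9
  have hE0 : (0 : ℝ) < nm (e * A) := by exact_mod_cast nm_pos.2 hE
  have h3 := (Real.log_le_iff_le_exp hE0).2 (he.neA hz)
  linarith

lemma EnvL.lX' (he : EnvL e₀ ε Pz X V Kf B0 H X0 δ e n K Lv d)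
    (hz : Sz Pz X V Kf H δ e A c y) : Real.log (X / nm y.1) ≤ n + e₀ := by
  have h1 := hz.X1
  exact (Real.log_le_iff_le_exp (by linarith)).2 (he.X' hz)

end env

/-- **a separate natural cell, from the pair lines** -/
theorem ncB {ε₁ : ℝ} (hε₁ : 0 < ε₁) : ∃ C₂ : ℝ, 1 ≤ C₂ ∧ ∀ (P : DPar) (h : ℝ → ℝ) {r : ℕ}
    (s : Fin r → Pq) (C μ e₀ ε Pz X V Kf B0 H X0 : ℝ) (δ e A c : Eis) (y : Eis × Eis)
    (n K Lv d Bd : ℝ), 0 < ε → Sz Pz X V Kf H δ e A c y →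
    EnvL e₀ ε Pz X V Kf B0 H X0 δ e n K Lv d → 0 ≤ Bd → C ≤ e₀ →
    PLn P h μ C s n K Lv (17 * d + 8 * e₀) (2 * e₀) Bd → ∀ p ∈ T9, ∀ l u j,
    CellN (Pz ^ (ε / 2)) H (X / nm y.1) V Kf B0 y.2 e A c (jmL (2 * d + e₀) Lv l) l u j →
    ∀ m ∈ dvs y.2, ∃ Wb : ℕ → ℕ → ℝ, (∀ v < NX (X / nm y.1), ∀ w < NX (X / nm y.1),
        ∀ g₂ ∈ bk (X / nm y.1) v, ∀ g₃ ∈ bk (X / nm y.1) w,
          WM (Rmx V e A c l) (2 ^ j / (nm m : ℝ) ^ 3) g₂ g₃ ≤ Wb v w) ∧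
      (∀ v < NX (X / nm y.1), ∀ w < NX (X / nm y.1), 0 ≤ Wb v w) ∧
      NC P h s C μ c (Tb V e A c l) u (X / nm y.1) (2 ^ j) (e * A * kw p ^ 2) y.1 Wb
        (fun _ g₂ g₃ d => DN m g₂ g₃ d ∧ (2 : ℝ) ^ j / 2 < nm d) n
        (2 ^ j * (C₂ * X0 ^ ε₁ * (Bd * Real.exp (n + K + 5 * d + 3 * e₀)))) := by
  obtain ⟨C₂, hC₂, H2⟩ := cell_r2 hε₁
  refine ⟨C₂, hC₂, ?_⟩
  intro P h r s' C μ e₀ ε Pz X V Kf B0 H X0 δ e A c y n₀ K Lv d Bd hε hz he hBd hCe hln p hp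
    l u j hcell m hm
  have e1 := he.e0
  have hd0 := he.d0
  have hn0 := he.n0
  have hK0 := he.K0
  have hv0 := he.v0
  set X' : ℝ := X / nm y.1 with hX'
  have hX1 : 1 ≤ X' := hz.X1
  have hX'0 : 0 ≤ X' := by linarith
  have hlX' : Real.log X' ≤ n₀ + e₀ := he.lX' hz
  set s : ℝ := 2 * d + e₀ with hs'
  have hs0 : 0 ≤ s := by rw [hs']; linarith
  set a : ℝ := (l : ℝ) / 3 with ha
  have ha0 : 0 ≤ a := by positivity
  set zj : ℝ := Real.log (2 ^ j) with hzj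
  have hzj0 : 0 ≤ zj := Real.log_nonneg (one_le_pow₀ (by norm_num))
  have h2j : (0 : ℝ) < 2 ^ j := by positivity
  have h2j1 : (1 : ℝ) ≤ 2 ^ j := one_le_pow₀ (by norm_num)
  have eZ : (2 : ℝ) ^ j = Real.exp zj := (Real.exp_log h2j).symm
  have hE : e * A ≠ 0 := mul_ne_zero hz.ep.ne_zero hz.Ap.ne_zero
  have hX0p := he.X0
  -- the range
  obtain ⟨j₂, hj₂, B, hB, hj, hjm⟩ := hcell
  have hcell' : GKC739.Cell (Pz ^ (ε / 2)) H V Kf X' B0 y.2 e A c l u j :=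
    ⟨j₂, by rw [← RC106.Tb_eq]; exact hj₂, B, hB, hj⟩
  obtain ⟨g1, g2⟩ := he.shell hε hz hcell'
  have hnj : Lv < 2 * (zj + a + s + ((u : ℝ) / 3 + 1 / 3 + 0.7 + 2 / 3)) := by
    unfold RC106.jmL at hjm
    push Not at hjm
    have := blk_bk hX'0 hB
    linarith
  have hub : (u : ℝ) / 3 ≤ Real.log X' := by
    have h3 := (bk_nm_ge hX'0 hB).trans ((mem_bk hX'0).1 hB).1.1
    exact (Real.le_log_iff_exp_le (by linarith)).2 h3
  -- the weights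
  set Wb : ℕ → ℕ → ℝ := fun v _ => 3 * Real.exp (2 / 3) *
    Real.exp ((v : ℝ) / 3 + nr Lv (zj + a) - a + s) with hWbd
  have hn1 : (1 : ℝ) ≤ nm m := by
    have := (mem_dvs hz.y2.ne_zero).1 hm
    exact_mod_cast nm_pos.2 this.1.ne_zero
  have hRm0 : 0 ≤ Rmx V e A c l := Rmx_nonneg (by linarith [hz.V1]) _ _ _ _
  have hWb : ∀ v < NX X', ∀ w < NX X', ∀ g₂ ∈ bk X' v, ∀ g₃ ∈ bk X' w,
      WM (Rmx V e A c l) (2 ^ j / (nm m : ℝ) ^ 3) g₂ g₃ ≤ Wb v w := by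
    intro v hv w hw g₂ hg₂ g₃ hg₃
    have hg3 : (1 : ℝ) ≤ nm g₃ := by exact_mod_cast nm_pos.2 (bk_prim hX'0 hg₃).ne_zero
    have h3 := WM_cell (V := Lv) (s := s) (a := a) (g := (v : ℝ) / 3) (w := 0) (i := zj + a)
      hs0 ha0 le_rfl (by positivity) hRm0 (by positivity : (0 : ℝ) ≤ 2 ^ j / (nm m : ℝ) ^ 3)
      (he.Rm hz l) (by
        have h4 : (2 : ℝ) ^ j / (nm m : ℝ) ^ 3 ≤ 2 ^ j := div_le_self h2j.le (one_le_pow₀ hn1)
        refine h4.trans (le_of_eq ?_)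
        rw [eZ]; congr 1; ring) (bk_nm_ge hX'0 hg₂) (bk_nm_le hX'0 hg₂)
      (by rw [Real.exp_zero]; exact hg3)
    refine h3.trans (le_of_eq ?_)
    rw [hWbd]
    beta_reduce
    congr 2
    ring
  have hWb0 : ∀ v < NX X', ∀ w < NX X', 0 ≤ Wb v w := fun v _ w _ => by
    rw [hWbd]; positivity
  refine ⟨Wb, hWb, hWb0, ?_⟩
  have hC₂0 : 0 ≤ C₂ := by linarith
  intro v hv w hw hWp i g₃ hg₃ s'' W0 hW0 hRl hle
  have hv3 := NX_lt hX1 hv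
  have hn1g : 0 ≤ Real.log (nm y.1) := Real.log_nonneg hz.n1
  have hw0 : (0 : ℝ) ≤ w := Nat.cast_nonneg w
  have hv0' : (0 : ℝ) ≤ v := Nat.cast_nonneg v
  have hu0' : (0 : ℝ) ≤ u := Nat.cast_nonneg u
  have h3 := H2 (Tb V e A c l) X' (2 ^ j) l u v w
    (fun y B g₂ g₃ d => DN m g₂ g₃ d ∧ (2 : ℝ) ^ j / 2 < nm d)
    g₃ y.1 (e * A * kw p ^ 2) (dl' c i) hX'0 h2j1
    (mul_ne_zero hE (pow_ne_zero 2 (kw_ne p))) (dl_ne_zero (QsJ401.C4_ne hz.hc) i) hz.y1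
    (fun t ht => ⟨bk_prim (Real.sqrt_nonneg V) (mem_Tb.1 ht).1,
      bk_nm_le (Real.sqrt_nonneg V) (mem_Tb.1 ht).1⟩)
    hg₃ X0 (by
      rw [eZ, ← Real.exp_add]
      exact he.leX0 (by linarith)) (by
      exact he.leX0 (by push_cast; linarith)) s (he.fr hz hp i) P h s'' n₀ K Lv s Bd
    (W0 ^ (2 * μ)) hBd (Real.rpow_nonneg (by linarith) _) (by
      intro h0
      refine (hln.r2 s'' W0 hW0 hRl (zj + a + s)
        ((u : ℝ) / 3 + 2 / 3) ((v : ℝ) / 3) (by positivity) (by positivity) h0 (by linarith)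
        (by linarith) (by linarith) (by linarith)))
  have hW1 : Wb v w = 3 * Real.exp (2 / 3) *
    Real.exp ((v : ℝ) / 3 + nr Lv (zj + a) - a + s) := rfl
  have hW20 : 0 ≤ W0 ^ (2 * μ) := Real.rpow_nonneg (by linarith) _
  have hnum : 3 * Real.exp (2 / 3) * Real.exp (n₀ + K + s + s + 2 / 3) ≤
      Real.exp (n₀ + K + 5 * d + 3 * e₀) := by
    calc 3 * Real.exp (2 / 3) * Real.exp (n₀ + K + s + s + 2 / 3)
        ≤ 2 * (3 * Real.exp (2 / 3)) * Real.exp (n₀ + K + s + s + 2 / 3) := by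
          have : 0 ≤ 3 * Real.exp (2 / 3) * Real.exp (n₀ + K + s + s + 2 / 3) := by positivity
          linarith
      _ ≤ Real.exp 4 * Real.exp (n₀ + K + s + s + 2 / 3) := by
          have := RC106.six_le
          gcongr
      _ = Real.exp (4 + (n₀ + K + s + s + 2 / 3)) := by
          rw [Real.exp_add 4]
      _ ≤ _ := by
          refine Real.exp_le_exp.2 ?_
          rw [hs']
          linarith
  rw [hW1]
  set Ex : ℝ := Real.exp (∑ k, (s'' k).z - (n₀ - (Real.log (nm y.1) +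
    ((u : ℝ) / 3 + v / 3 + w / 3)))) with hEx
  calc _ = 3 * Real.exp (2 / 3) * (Real.exp ((v : ℝ) / 3 + nr Lv (zj + a) - a + s) *
        Real.exp ((w : ℝ) / 3) * ∑ x ∈ Q4 (Tb V e A c l) X' (2 ^ j) u v
          (fun y B g₂ g₃ d => DN m g₂ g₃ d ∧ (2 : ℝ) ^ j / 2 < nm d) g₃,
        ∏ k, ‖CS (pc h ((s'' k).pc P)) (f4 (e * A * kw p ^ 2) (dl' c i) x)‖ ^ 2) := by ring
    _ ≤ 3 * Real.exp (2 / 3) * (C₂ * X0 ^ ε₁ *
          (2 ^ j * (Bd * Real.exp (n₀ + K + s + s + 2 / 3))) * Ex * W0 ^ (2 * μ)) :=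
        mul_le_mul_of_nonneg_left h3 (by positivity)
    _ = (C₂ * X0 ^ ε₁ * (2 ^ j * Bd) * Ex * W0 ^ (2 * μ)) *
          (3 * Real.exp (2 / 3) * Real.exp (n₀ + K + s + s + 2 / 3)) := by ring
    _ ≤ (C₂ * X0 ^ ε₁ * (2 ^ j * Bd) * Ex * W0 ^ (2 * μ)) *
          Real.exp (n₀ + K + 5 * d + 3 * e₀) :=
        mul_le_mul_of_nonneg_left hnum (by positivity)
    _ = _ := by ring

/-- **a joint natural cell, from the pair lines** -/
theorem jcB {ε₁ : ℝ} (hε₁ : 0 < ε₁) : ∃ C₂ : ℝ, 1 ≤ C₂ ∧ ∀ (P : DPar) (h : ℝ → ℝ) {r : ℕ}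
    (s : Fin r → Pq) (C μ e₀ ε Pz X V Kf B0 H X0 : ℝ) (δ e A c : Eis) (y : Eis × Eis)
    (n K Lv d Bd : ℝ), 0 < ε → Sz Pz X V Kf H δ e A c y →
    EnvL e₀ ε Pz X V Kf B0 H X0 δ e n K Lv d → 0 ≤ Bd → C ≤ e₀ →
    PLn P h μ C s n K Lv (17 * d + 8 * e₀) (2 * e₀) Bd → ∀ p ∈ T9, ∀ l u j,
    jmL (2 * d + e₀) Lv l u j →
    CellJ (Pz ^ (ε / 2)) H (X / nm y.1) V Kf B0 y.2 e A c l u j →
    ∀ Bs : Eis → Finset Eis,
    JC P h s C μ c (Tb V e A c l) Bs (X / nm y.1) (2 ^ j) (Rmx V e A c l) (2 ^ u)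
      (e * A * kw p ^ 2) y.1 δ y.2 n
      (2 ^ j * 2 ^ u * (C₂ * X0 ^ ε₁ * (Bd * Real.exp (n + K + 5 * d + 3 * e₀)))) := by
  obtain ⟨C₂, hC₂, H2⟩ := cell_ga2 hε₁
  refine ⟨C₂, hC₂, ?_⟩
  intro P h r s' C μ e₀ ε Pz X V Kf B0 H X0 δ e A c y n₀ K Lv d Bd hε hz he hBd hCe hln p hp
    l u j hjm hcell Bs
  have e1 := he.e0
  have hd0 := he.d0
  have hn0 := he.n0
  have hK0 := he.K0
  have hv0 := he.v0
  set X' : ℝ := X / nm y.1 with hX'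
  have hX1 : 1 ≤ X' := hz.X1
  have hX'0 : 0 ≤ X' := by linarith
  have hlX' : Real.log X' ≤ n₀ + e₀ := he.lX' hz
  set s : ℝ := 2 * d + e₀ with hs'
  have hs0 : 0 ≤ s := by rw [hs']; linarith
  set a : ℝ := (l : ℝ) / 3 with ha
  have ha0 : 0 ≤ a := by positivity
  set zj : ℝ := Real.log (2 ^ j) with hzj
  have hzj0 : 0 ≤ zj := Real.log_nonneg (one_le_pow₀ (by norm_num))
  have h2j : (0 : ℝ) < 2 ^ j := by positivity
  have h2j1 : (1 : ℝ) ≤ 2 ^ j := one_le_pow₀ (by norm_num)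
  have eZ : (2 : ℝ) ^ j = Real.exp zj := (Real.exp_log h2j).symm
  set β : ℝ := Real.log (2 ^ u) with hβ
  have hβ0 : 0 ≤ β := Real.log_nonneg (one_le_pow₀ (by norm_num))
  have h2u : (0 : ℝ) < 2 ^ u := by positivity
  have h2u1 : (1 : ℝ) ≤ 2 ^ u := one_le_pow₀ (by norm_num)
  have eU : (2 : ℝ) ^ u = Real.exp β := (Real.exp_log h2u).symm
  have hE : e * A ≠ 0 := mul_ne_zero hz.ep.ne_zero hz.Ap.ne_zero
  have hX0p := he.X0
  -- the range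
  obtain ⟨g1, g2⟩ := he.shellJ hε hz hcell
  have hjm' : 2 * (zj + a + s + (β + 2 / 3)) ≤ Lv := hjm
  have hβX : β ≤ n₀ + e₀ + 0.7 := by
    have h1 := hcell.U_le hX'0
    have h2 := Real.log_le_log h2u h1
    rw [Real.log_mul (by norm_num) (by linarith)] at h2
    have := log2_le1
    linarith
  have hRm0 : 0 ≤ Rmx V e A c l := Rmx_nonneg (by linarith [hz.V1]) _ _ _ _
  have hC₂0 : 0 ≤ C₂ := by linarith
  intro m hm g hg hgδ u' hu' v hv w hw q1 q2 q3 i g₃ hg₃ s'' W0 hW0 hRl hle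
  have hv3 := NX_lt hX1 hv
  have hu3 := NX_lt hX1 hu'
  have hw0 : (0 : ℝ) ≤ w := Nat.cast_nonneg w
  have hv0' : (0 : ℝ) ≤ v := Nat.cast_nonneg v
  have hu0' : (0 : ℝ) ≤ u' := Nat.cast_nonneg u'
  obtain ⟨-, hgp, -⟩ := (mem_S h2u.le).1 hg
  have hnp := ((mem_dvs hz.y2.ne_zero).1 hm)
  have hny : (nm m : ℝ) ≤ Real.exp d := by
    have h4 : nm m ≤ nm y.2 := nm_le_of_dvd hz.y2.ne_zero hnp.2
    exact (by exact_mod_cast h4 : (nm m : ℝ) ≤ nm y.2).trans (he.ny2 hz)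
  have hG1 : (1 : ℝ) ≤ nm g := by exact_mod_cast nm_pos.2 hgp.ne_zero
  have hG0 : (0 : ℝ) < nm g := by linarith
  set γ : ℝ := Real.log (nm g) with hγ
  have hγ0 : 0 ≤ γ := Real.log_nonneg hG1
  have eG : (nm g : ℝ) = Real.exp γ := (Real.exp_log hG0).symm
  have hn1g : 0 ≤ Real.log (nm y.1) := Real.log_nonneg hz.n1
  have hgg : Real.log (nm (y.1 * g)) = Real.log (nm y.1) + γ := by
    rw [nm_mul, Nat.cast_mul, Real.log_mul (by linarith [hz.n1]) hG0.ne']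
  have hle' := hle
  rw [hgg] at hle'
  have k1 : (u' : ℝ) / 3 + γ ≤ β := by
    have h1 : Real.exp ((u' : ℝ) / 3 + γ) ≤ Real.exp β := by
      rw [Real.exp_add, ← eG, ← eU]; exact q1
    exact Real.exp_le_exp.1 h1
  have k2 : β ≤ 0.7 + ((u' : ℝ) / 3 + 1 / 3 + γ) := by
    have h1 := Real.log_le_log h2u q2
    rw [Real.log_mul (by norm_num) (by positivity), Real.log_mul (Real.exp_pos _).ne' hG0.ne',
      Real.log_exp] at h1
    have := log2_le1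
    linarith
  have h3 := H2 (Tb V e A c l) X' (2 ^ j) (2 ^ u)
    (Rmx V e A c l) l u' v w
    (fun y B g₂ g₃ d => g * B ∈ Bs y ∧ PJ m g (2 ^ j) B g₂ g₃ d)
    g₃ y.1 (e * A * kw p ^ 2) (dl' c i) m g hX'0 h2j1 h2u1 hRm0
    (mul_ne_zero hE (pow_ne_zero 2 (kw_ne p))) (dl_ne_zero (QsJ401.C4_ne hz.hc) i) hz.y1
    hnp.1 hgp (fun t ht => ⟨bk_prim (Real.sqrt_nonneg V) (mem_Tb.1 ht).1,
      bk_nm_le (Real.sqrt_nonneg V) (mem_Tb.1 ht).1⟩)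
    hg₃ q1 X0 s (he.fr hz hp i) (by
      rw [eZ, ← Real.exp_add]
      exact he.leX0 (by linarith)) (by
      exact he.leX0 (by push_cast; linarith)) P h s'' n₀ K Lv s Bd
    (W0 ^ (2 * μ)) hBd (Real.rpow_nonneg (by linarith) _) hs0 (he.Rm hz l) (by
      show 2 * (zj + a + β) ≤ Lv
      linarith) (by
      intro h0
      have h4 := hln.ga s'' W0 hW0 hRl (zj + a + s)
        ((u' : ℝ) / 3 + 2 / 3 + γ) ((v : ℝ) / 3) γ hγ0 (by linarith) (by positivity) h0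
        (by linarith) (by linarith) (by linarith) (by linarith)
      rw [show (u' : ℝ) / 3 + 2 / 3 + γ - γ + (v : ℝ) / 3 = (u' : ℝ) / 3 + 2 / 3 + v / 3 by
        ring] at h4
      exact h4)
  have hW20 : 0 ≤ W0 ^ (2 * μ) := Real.rpow_nonneg (by linarith) _
  have hnum : Real.exp d * Real.exp (n₀ + K + s + s) ≤ Real.exp (n₀ + K + 5 * d + 3 * e₀) := by
    rw [← Real.exp_add]
    refine Real.exp_le_exp.2 ?_
    rw [hs']
    linarith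
  set Ex : ℝ := Real.exp (∑ k, (s'' k).z - (n₀ - (Real.log (nm (y.1 * g)) +
    ((u' : ℝ) / 3 + v / 3 + w / 3)))) with hEx
  refine h3.trans ?_
  calc C₂ * X0 ^ ε₁ * (nm m * (2 ^ j * 2 ^ u * (Bd * Real.exp (n₀ + K + s + s)))) * Ex *
        W0 ^ (2 * μ)
      ≤ C₂ * X0 ^ ε₁ * (Real.exp d * (2 ^ j * 2 ^ u * (Bd * Real.exp (n₀ + K + s + s)))) * Ex *
        W0 ^ (2 * μ) := by gcongr
    _ = (C₂ * X0 ^ ε₁ * (2 ^ j * 2 ^ u * Bd) * Ex * W0 ^ (2 * μ)) *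
        (Real.exp d * Real.exp (n₀ + K + s + s)) := by ring
    _ ≤ (C₂ * X0 ^ ε₁ * (2 ^ j * 2 ^ u * Bd) * Ex * W0 ^ (2 * μ)) *
        Real.exp (n₀ + K + 5 * d + 3 * e₀) := mul_le_mul_of_nonneg_left hnum (by positivity)
    _ = _ := by ring

end Crest.Agent.R017.RCl83
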