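import Crest.Agent.R017.RClX3_791
import Crest.Agent.R017.RCle_83
import Crest.Agent.R017.QsJm_401

/-!
# Row 17, T.7, `l`-terms of the tail in the exceptional class (helper791), part 4

* `cellH_L`, `cellXJ_L` : the natural cells from the pair lines (401's `cellH_F`, `cellLJ_F` with
  83's `EnvL` and any set of `B`)
* `cellsNxa`, `cellsJxa` : the two cell hypotheses of `Qla_X` for `x = a - ζ b`
-/

set_option autoImplicit false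
set_option linter.unusedVariables false
set_option maxHeartbeats 1600000

noncomputable section

open Finset
open scoped ComplexConjugate Classical

namespace Crest.Agent.R017.RClX791

open Crest.Agent.R012 Crest.Agent.R012.Eis Crest.Agent.R012.LS2
open Crest.Agent.R017.B770
open Crest.Agent.R017.Prov71
open Crest.Agent.R017.CM106 (CS FS)
open Crest.Agent.R017.FE47 (cx PU)
open Crest.Agent.R017.HP842 (pc sqc)
open Crest.Agent.R017.Leg381 (alf alF Pf LF LF_get)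
open Crest.Agent.R017.XRG106
open Crest.Agent.R017.X6C180 (IX dl')
open Crest.Agent.R017.Win813 (iA iA_nonneg WK)
open Crest.Agent.R017.RGw813 (T9)
open Crest.Agent.R017.H1401 (pb mem_pb WM HW DN)
open Crest.Agent.R017.MoF106
open Crest.Agent.R017.MoL106
open Crest.Agent.R017.RC106
open Crest.Agent.R017.QsO83 (bw FS_bw)
open Crest.Agent.R017.E2440
open Crest.Agent.R017.MoJ401 (CellXJ)
open Crest.Agent.R017.E2sp579 (fP)
open Crest.Agent.R017.NPy739 (MNc CellH CellL cell_list opL opL_nonneg MNc_nonneg CellX cellX_one)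
open Crest.Agent.R017.NPx739 (QF_sub)
open Crest.Agent.R017.NtC320 (QF)
open Crest.Agent.R017.E2D401 (Bj)
open Crest.Agent.R017.QsJ401 (Sz CellN CellJ Nj mem_Bj WbF R2C GaC QfOK PLnF FS_ps)
open Crest.Agent.R017.MoCa83
open Crest.Agent.R017.RCl83 (EnvL EnvL.shell EnvL.shellJ EnvL.leX0 EnvL.Rm EnvL.fr EnvL.lX' EnvL.ny2)
open Div277 (tau dvs mem_dvs nm_le_of_dvd)

/-- **the natural cells of a separate cell** -/
theorem cellH_L {P : DPar} {h : ℝ → ℝ} {Qg : Eis → Prop} {Φ : ℝ → ℝ → List Pq → ℝ} {ε₁ C₂ : ℝ}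
    (H2 : R2C P h Qg Φ ε₁ C₂) (hC₂ : 1 ≤ C₂) {μ C₁ : ℝ} {r : ℕ} {s : Fin r → Pq}
    {Qf : Eis → Eis → Eis → Eis → Prop} {p : ℕ × ℕ} (hp : p ∈ T9)
    {e₀ ε Pz X V Kf B0 H X0 : ℝ} {δ e A c : Eis} {y : Eis × Eis} {n₀ K Lv d Bd : ℝ}
    (hε : 0 < ε) (hz : Sz Pz X V Kf H δ e A c y) (hQf : QfOK e A c p Qf Qg)
    (he : EnvL e₀ ε Pz X V Kf B0 H X0 δ e n₀ K Lv d) (hCe : C₁ ≤ e₀)
    (hsum : ∑ k, (s k).z = n₀) (hBd : 0 ≤ Bd)
    (hln : PLnF Φ μ C₁ s n₀ K Lv (17 * d + 8 * e₀) (2 * e₀) Bd) {l u j : ℕ}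
    (hcell : CellN (Pz ^ (ε / 2)) H (X / nm y.1) V Kf B0 y.2 e A c
      (jmL (2 * d + e₀) Lv l) l u j) {n : Eis} (hn : n ∈ dvs y.2) :
    ((∀ v < NX (X / nm y.1), ∀ w < NX (X / nm y.1), ∀ g₂ ∈ bk (X / nm y.1) v,
      ∀ g₃ ∈ bk (X / nm y.1) w,
      WM (V * nm (e * A) / (nm c * Real.exp ((l : ℝ) / 3) ^ 2)) (2 ^ j / (nm n : ℝ) ^ 3) g₂ g₃ ≤
        WbF Lv (Real.log (2 ^ j)) ((l : ℝ) / 3) (2 * d + e₀) v w) ∧
    (∀ v < NX (X / nm y.1), ∀ w < NX (X / nm y.1),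
      0 ≤ WbF Lv (Real.log (2 ^ j)) ((l : ℝ) / 3) (2 * d + e₀) v w)) ∧
    CellH h μ C₁ P s V e A c (X / nm y.1) Qf y.1 p l u j n
      (WbF Lv (Real.log (2 ^ j)) ((l : ℝ) / 3) (2 * d + e₀))
      (3 * Real.exp (2 / 3) * (C₂ * X0 ^ ε₁ *
        (2 ^ j * (Bd * Real.exp (n₀ + K + (2 * d + e₀) + (2 * d + e₀) + 2 / 3))))) := by
  have e1 := he.e0
  have hd0 := he.d0
  have hn0 := he.n0
  have hK0 := he.K0
  have hv0 := he.v0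
  set X' : ℝ := X / nm y.1 with hX'
  have hX1 : 1 ≤ X' := hz.X1
  have hX'0 : 0 ≤ X' := by linarith
  have hlX' : Real.log X' ≤ n₀ + e₀ := he.lX' hz
  set sx : ℝ := 2 * d + e₀ with hs'
  have hs0 : 0 ≤ sx := by rw [hs']; linarith
  set a : ℝ := (l : ℝ) / 3 with ha
  have ha0 : 0 ≤ a := by positivity
  set zj : ℝ := Real.log (2 ^ j) with hzj
  have hzj0 : 0 ≤ zj := Real.log_nonneg (one_le_pow₀ (by norm_num))
  have h2j : (0 : ℝ) < 2 ^ j := by positivity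
  have h2j1 : (1 : ℝ) ≤ 2 ^ j := one_le_pow₀ (by norm_num)
  have eZ : (2 : ℝ) ^ j = Real.exp zj := (Real.exp_log h2j).symm
  have hE : e * A ≠ 0 := mul_ne_zero hz.ep.ne_zero hz.Ap.ne_zero
  have hX0p := he.X0
  -- the range
  obtain ⟨j₂, hj₂, B, hB, hj, hjm⟩ := hcell
  have hcell' : GKC739.Cell (Pz ^ (ε / 2)) H V Kf X' B0 y.2 e A c l u j :=
    ⟨j₂, by rw [← RC106.Tb_eq]; exact hj₂, B, hB, hj⟩
  obtain ⟨g1, g2⟩ := he.shell hε hz hcell'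
  have hnj : Lv < 2 * (zj + a + sx + ((u : ℝ) / 3 + 1 / 3 + 0.7 + 2 / 3)) := by
    unfold jmL at hjm
    push Not at hjm
    have := blk_bk hX'0 hB
    linarith
  have hub : (u : ℝ) / 3 ≤ Real.log X' := by
    have h3 := (bk_nm_ge hX'0 hB).trans ((mem_bk hX'0).1 hB).1.1
    exact (Real.le_log_iff_exp_le (by linarith)).2 h3
  -- the weights
  set Wb : ℕ → ℕ → ℝ := fun v _ => 3 * Real.exp (2 / 3) *
    Real.exp ((v : ℝ) / 3 + nr Lv (zj + a) - a + sx) with hWbd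
  have hn1 : (1 : ℝ) ≤ nm n := by
    have := (mem_dvs hz.y2.ne_zero).1 hn
    exact_mod_cast nm_pos.2 this.1.ne_zero
  have hny : (nm n : ℝ) ≤ Real.exp d := by
    have h3 := (mem_dvs hz.y2.ne_zero).1 hn
    have h4 : nm n ≤ nm y.2 := nm_le_of_dvd hz.y2.ne_zero h3.2
    exact (by exact_mod_cast h4 : (nm n : ℝ) ≤ nm y.2).trans (he.ny2 hz)
  have hRm0 : 0 ≤ V * nm (e * A) / (nm c * Real.exp ((l : ℝ) / 3) ^ 2) := by
    have := hz.V1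
    positivity
  have hWb : ∀ v < NX X', ∀ w < NX X', ∀ g₂ ∈ bk X' v, ∀ g₃ ∈ bk X' w,
      WM (V * nm (e * A) / (nm c * Real.exp ((l : ℝ) / 3) ^ 2)) (2 ^ j / (nm n : ℝ) ^ 3) g₂ g₃ ≤
        Wb v w := by
    intro v hv w hw g₂ hg₂ g₃ hg₃
    have hg3 : (1 : ℝ) ≤ nm g₃ := by exact_mod_cast nm_pos.2 (bk_prim hX'0 hg₃).ne_zero
    have h3 := WM_cell (V := Lv) (s := sx) (a := a) (g := (v : ℝ) / 3) (w := 0) (i := zj + a)
      hs0 ha0 le_rfl (by positivity) hRm0 (by positivity : (0 : ℝ) ≤ 2 ^ j / (nm n : ℝ) ^ 3)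
      (he.Rm hz l) (by
        have h4 : (2 : ℝ) ^ j / (nm n : ℝ) ^ 3 ≤ 2 ^ j := div_le_self h2j.le (one_le_pow₀ hn1)
        refine h4.trans (le_of_eq ?_)
        rw [eZ]; congr 1; ring) (bk_nm_ge hX'0 hg₂) (bk_nm_le hX'0 hg₂)
      (by rw [Real.exp_zero]; exact hg3)
    refine h3.trans (le_of_eq ?_)
    rw [hWbd]
    beta_reduce
    congr 2
    ring
  have hWb0 : ∀ v < NX X', ∀ w < NX X', 0 ≤ Wb v w := fun v _ w _ => by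
    rw [hWbd]; positivity
  set M : ℝ := 3 * Real.exp (2 / 3) * (C₂ * X0 ^ ε₁ *
    (2 ^ j * (Bd * Real.exp (n₀ + K + sx + sx + 2 / 3)))) with hM
  have hC₂0 : 0 ≤ C₂ := by linarith
  have hM0 : 0 ≤ M := by rw [hM]; positivity
  have hcl : CellH h μ C₁ P s V e A c X' Qf y.1 p l u j n Wb M := by
    intro v hv w hw hWp i g₃ hg₃ s' W0 hW0 hRl hle
    rw [hsum] at hle ⊢
    have hv3 := NX_lt hX1 hv
    have hn1g : 0 ≤ Real.log (nm y.1) := Real.log_nonneg hz.n1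
    have hw0 : (0 : ℝ) ≤ w := Nat.cast_nonneg w
    have hv0' : (0 : ℝ) ≤ v := Nat.cast_nonneg v
    have hu0' : (0 : ℝ) ≤ u := Nat.cast_nonneg u
    have h3 := H2 (GKC739.Tb V e A c l) X' (2 ^ j) l u v w
      (fun y B => fP (fun g₂ g₃ d => DN n g₂ g₃ d ∧ (2 : ℝ) ^ j / 2 < nm d)
        (Qf (e * A * y) B (dl' c i)))
      g₃ y.1 (e * A * kw p ^ 2) (dl' c i) hX'0 h2j1
      (mul_ne_zero hE (pow_ne_zero 2 (kw_ne p))) (dl_ne_zero (QsJ401.C4_ne hz.hc) i) hz.y1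
      (fun t ht => ⟨GKC739.Tb_prim ht, bk_nm_le (Real.sqrt_nonneg V) (GKC739.mem_Tb.1 ht).1⟩)
      hg₃ (by
        rintro ⟨y', B', g₂, m⟩ hx
        obtain ⟨⟨x1, x2, x3, x4⟩, -, x5⟩ := mem_Q4.1 hx
        exact hQf.one (GKC739.Tb_prim x1) (bk_prim hX'0 x2) (bk_prim hX'0 x3)
          (bk_prim hX'0 hg₃) ((mem_pb h2j.le).1 x4).2 i x5.2) X0 (by
        rw [eZ, ← Real.exp_add]
        exact he.leX0 (by linarith)) (by
        exact he.leX0 (by push_cast; linarith)) sx (he.fr hz hp i) s' n₀ K Lv sx Bd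
      (W0 ^ (2 * μ)) hBd (Real.rpow_nonneg (by linarith) _) (by
        intro h0
        refine (hln.r2 s' W0 hW0 hRl (zj + a + sx)
          ((u : ℝ) / 3 + 2 / 3) ((v : ℝ) / 3) (by positivity) (by positivity) h0 (by linarith)
          (by linarith) (by linarith) (by linarith)))
    have hW1 : Wb v w = 3 * Real.exp (2 / 3) *
      Real.exp ((v : ℝ) / 3 + nr Lv (zj + a) - a + sx) := rfl
    rw [hW1, hM]
    calc _ = 3 * Real.exp (2 / 3) * (Real.exp ((v : ℝ) / 3 + nr Lv (zj + a) - a + sx) *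
          Real.exp ((w : ℝ) / 3) * ∑ x ∈ Q4 (GKC739.Tb V e A c l) X' (2 ^ j) u v
            (fun y B => fP (fun g₂ g₃ d => DN n g₂ g₃ d ∧ (2 : ℝ) ^ j / 2 < nm d)
              (Qf (e * A * y) B (dl' c i))) g₃,
          ∏ k, ‖CS (pc h ((s' k).pc P)) (f4 (e * A * kw p ^ 2) (dl' c i) x)‖ ^ 2) := by ring
      _ ≤ _ := mul_le_mul_of_nonneg_left h3 (by positivity)
      _ = _ := by ring
  exact ⟨⟨hWb, hWb0⟩, hcl⟩

/-- **the natural cells of a joint cell** -/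
theorem cellXJ_L {P : DPar} {h : ℝ → ℝ} {Qg : Eis → Prop} {Φ : ℝ → ℝ → List Pq → ℝ} {ε₁ C₂ : ℝ}
    (H2 : GaC P h Qg Φ ε₁ C₂) (hC₂ : 1 ≤ C₂) {μ C₁ : ℝ} {r : ℕ} {s : Fin r → Pq}
    {Qf : Eis → Eis → Eis → Eis → Prop} {p : ℕ × ℕ} (hp : p ∈ T9)
    {e₀ ε Pz X V Kf B0 H X0 : ℝ} {δ e A c : Eis} {y : Eis × Eis} {n₀ K Lv d Bd : ℝ}
    (hε : 0 < ε) (hz : Sz Pz X V Kf H δ e A c y) (hQf : QfOK e A c p Qf Qg)
    (he : EnvL e₀ ε Pz X V Kf B0 H X0 δ e n₀ K Lv d) (hCe : C₁ ≤ e₀) (hBd : 0 ≤ Bd)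
    (hln : PLnF Φ μ C₁ s n₀ K Lv (17 * d + 8 * e₀) (2 * e₀) Bd) {l u j : ℕ}
    (hjm : jmL (2 * d + e₀) Lv l u j)
    (hcell : CellJ (Pz ^ (ε / 2)) H (X / nm y.1) V Kf B0 y.2 e A c l u j)
    (Bs : Eis → Finset Eis) :
    CellXJ h μ C₁ P s c δ y.1 y.2 (e * A) p (QsJ401.Tb V e A c l) Bs (X / nm y.1) (2 ^ j)
      (V * nm (e * A) / (nm c * Real.exp ((l : ℝ) / 3) ^ 2)) (2 ^ u)
      (fun y i B d => Qf (e * A * y) B (dl' c i) d) n₀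
      (C₂ * X0 ^ ε₁ * (Real.exp d *
        (2 ^ j * 2 ^ u * (Bd * Real.exp (n₀ + K + (2 * d + e₀) + (2 * d + e₀)))))) := by
  have e1 := he.e0
  have hd0 := he.d0
  have hn0 := he.n0
  have hK0 := he.K0
  have hv0 := he.v0
  set X' : ℝ := X / nm y.1 with hX'
  have hX1 : 1 ≤ X' := hz.X1
  have hX'0 : 0 ≤ X' := by linarith
  have hlX' : Real.log X' ≤ n₀ + e₀ := he.lX' hz
  set sx : ℝ := 2 * d + e₀ with hs'
  have hs0 : 0 ≤ sx := by rw [hs']; linarith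
  set a : ℝ := (l : ℝ) / 3 with ha
  have ha0 : 0 ≤ a := by positivity
  set zj : ℝ := Real.log (2 ^ j) with hzj
  have hzj0 : 0 ≤ zj := Real.log_nonneg (one_le_pow₀ (by norm_num))
  have h2j : (0 : ℝ) < 2 ^ j := by positivity
  have h2j1 : (1 : ℝ) ≤ 2 ^ j := one_le_pow₀ (by norm_num)
  have eZ : (2 : ℝ) ^ j = Real.exp zj := (Real.exp_log h2j).symm
  set β : ℝ := Real.log (2 ^ u) with hβ
  have hβ0 : 0 ≤ β := Real.log_nonneg (one_le_pow₀ (by norm_num))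
  have h2u : (0 : ℝ) < 2 ^ u := by positivity
  have h2u1 : (1 : ℝ) ≤ 2 ^ u := one_le_pow₀ (by norm_num)
  have eU : (2 : ℝ) ^ u = Real.exp β := (Real.exp_log h2u).symm
  have hE : e * A ≠ 0 := mul_ne_zero hz.ep.ne_zero hz.Ap.ne_zero
  have hX0p := he.X0
  -- the range
  obtain ⟨g1, g2⟩ := he.shellJ hε hz hcell
  have hjm' : 2 * (zj + a + sx + (β + 2 / 3)) ≤ Lv := hjm
  have hβX : β ≤ n₀ + e₀ + 0.7 := by
    have h1 := hcell.U_le hX'0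
    have h2 := Real.log_le_log h2u h1
    rw [Real.log_mul (by norm_num) (by linarith)] at h2
    have := log2_le1
    linarith
  have hRm0 : 0 ≤ V * nm (e * A) / (nm c * Real.exp ((l : ℝ) / 3) ^ 2) := by
    have := hz.V1
    positivity
  have hC₂0 : 0 ≤ C₂ := by linarith
  set M : ℝ := C₂ * X0 ^ ε₁ * (Real.exp d *
    (2 ^ j * 2 ^ u * (Bd * Real.exp (n₀ + K + sx + sx)))) with hM
  have hM0 : 0 ≤ M := by rw [hM]; positivity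
  have hcl : CellXJ h μ C₁ P s c δ y.1 y.2 (e * A) p (QsJ401.Tb V e A c l) Bs X' (2 ^ j)
      (V * nm (e * A) / (nm c * Real.exp ((l : ℝ) / 3) ^ 2)) (2 ^ u)
      (fun y i B d => Qf (e * A * y) B (dl' c i) d) n₀ M := by
    intro n hn g hg hgδ u' hu' v hv w hw q1 q2 q3 i g₃ hg₃ s' W0 hW0 hRl hle
    have hv3 := NX_lt hX1 hv
    have hu3 := NX_lt hX1 hu'
    have hw0 : (0 : ℝ) ≤ w := Nat.cast_nonneg w
    have hv0' : (0 : ℝ) ≤ v := Nat.cast_nonneg v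
    have hu0' : (0 : ℝ) ≤ u' := Nat.cast_nonneg u'
    obtain ⟨-, hgp, -⟩ := (mem_S h2u.le).1 hg
    have hnp := ((mem_dvs hz.y2.ne_zero).1 hn)
    have hn1 : (1 : ℝ) ≤ nm n := by exact_mod_cast nm_pos.2 hnp.1.ne_zero
    have hny : (nm n : ℝ) ≤ Real.exp d := by
      have h4 : nm n ≤ nm y.2 := nm_le_of_dvd hz.y2.ne_zero hnp.2
      exact (by exact_mod_cast h4 : (nm n : ℝ) ≤ nm y.2).trans (he.ny2 hz)
    have hG1 : (1 : ℝ) ≤ nm g := by exact_mod_cast nm_pos.2 hgp.ne_zero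
    have hG0 : (0 : ℝ) < nm g := by linarith
    set γ : ℝ := Real.log (nm g) with hγ
    have hγ0 : 0 ≤ γ := Real.log_nonneg hG1
    have eG : (nm g : ℝ) = Real.exp γ := (Real.exp_log hG0).symm
    have hn1g : 0 ≤ Real.log (nm y.1) := Real.log_nonneg hz.n1
    have hgg : Real.log (nm (y.1 * g)) = Real.log (nm y.1) + γ := by
      rw [nm_mul, Nat.cast_mul, Real.log_mul (by linarith [hz.n1]) hG0.ne']
    rw [hgg] at hle
    have k1 : (u' : ℝ) / 3 + γ ≤ β := by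
      have h1 : Real.exp ((u' : ℝ) / 3 + γ) ≤ Real.exp β := by
        rw [Real.exp_add, ← eG, ← eU]; exact q1
      exact Real.exp_le_exp.1 h1
    have k2 : β ≤ 0.7 + ((u' : ℝ) / 3 + 1 / 3 + γ) := by
      have h1 := Real.log_le_log h2u q2
      rw [Real.log_mul (by norm_num) (by positivity), Real.log_mul (Real.exp_pos _).ne' hG0.ne',
        Real.log_exp] at h1
      have := log2_le1
      linarith
    have h3 := H2 (QsJ401.Tb V e A c l) X' (2 ^ j) (2 ^ u)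
      (V * nm (e * A) / (nm c * Real.exp ((l : ℝ) / 3) ^ 2)) l u' v w
      (fun y_1 B g₂ g₃ d_1 => g * B ∈ Bs y_1 ∧
        MoJ401.PJQ (fun B d => Qf (e * A * y_1) B (dl' c i) d) n g (2 ^ j)
          B g₂ g₃ d_1)
      g₃ y.1 (e * A * kw p ^ 2) (dl' c i) n g hX'0 h2j1 h2u1 hRm0
      (mul_ne_zero hE (pow_ne_zero 2 (kw_ne p))) (dl_ne_zero (QsJ401.C4_ne hz.hc) i) hz.y1
      hnp.1 hgp (fun t ht => ⟨bk_prim (Real.sqrt_nonneg V) (QsJ401.mem_Tb.1 ht).1,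
        bk_nm_le (Real.sqrt_nonneg V) (QsJ401.mem_Tb.1 ht).1⟩)
      hg₃ q1 (by
        rintro ⟨y', B', g₂, m⟩ hx
        obtain ⟨⟨x1, x2, x3, x4⟩, -, -, -, x6⟩ := mem_Q4.1 hx
        have hZg : 0 ≤ (2 : ℝ) ^ j / nm g := by positivity
        exact hQf g y' B' g₂ g₃ m hgp (GKC739.Tb_prim x1) (bk_prim hX'0 x2) (bk_prim hX'0 x3)
          (bk_prim hX'0 hg₃) ((mem_pb hZg).1 x4).2 i x6) X0 sx (he.fr hz hp i) (by
        rw [eZ, ← Real.exp_add]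
        exact he.leX0 (by linarith)) (by
        exact he.leX0 (by push_cast; linarith)) s' n₀ K Lv sx Bd
      (W0 ^ (2 * μ)) hBd (Real.rpow_nonneg (by linarith) _) hs0 (he.Rm hz l) (by
        show 2 * (zj + a + β) ≤ Lv
        linarith) (by
        intro h0
        have h4 := hln.ga s' W0 hW0 hRl (zj + a + sx)
          ((u' : ℝ) / 3 + 2 / 3 + γ) ((v : ℝ) / 3) γ hγ0 (by linarith) (by positivity) h0
          (by linarith) (by linarith) (by linarith) (by linarith)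
        rw [show (u' : ℝ) / 3 + 2 / 3 + γ - γ + (v : ℝ) / 3 = (u' : ℝ) / 3 + 2 / 3 + v / 3 by
          ring] at h4
        exact h4)
    refine h3.trans ?_
    rw [hM]
    have hW20 : 0 ≤ W0 ^ (2 * μ) := Real.rpow_nonneg (by linarith) _
    gcongr
  exact hcl

/-! ### the cells of `a - ζ b`, summed over `a` -/

/-- **the separate cells of a restricted difference, summed over `a`** -/
theorem cellsNxa {h : ℝ → ℝ} {c₀ : ℝ} (hpu : PU h c₀) {R : ℝ} (hR0 : 0 ≤ R)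
    (hR : ∀ u, cx h u ≠ 0 → |u| ≤ R) {μ : ℝ} (hμ : 0 ≤ μ) (r : ℕ) {ε₁ : ℝ} (hε₁ : 0 < ε₁) :
    ∃ C : ℝ, 1 ≤ C ∧ ∀ C₂ : ℝ, 1 ≤ C₂ → ∀ A' : ℕ, 2 * (r * μ) + 2 ≤ A' →
      ∀ Cφ η : ℝ, 0 ≤ Cφ → 0 < η → η ≤ 1 →
      ∀ φ : ℝ → ℝ, WK Cφ η A' φ → ∀ p ∈ T9, ∀ (t₀ : ℝ) (P : DPar) (_ : P.OK)
      (Φ : ℝ → ℝ → List Pq → ℝ) (Qg : Eis → Prop) (Qf : Eis → Eis → Eis → Eis → Prop)
      (_ : R2C P h Qg Φ ε₁ C₂)
      (ps ps' : List Pf), ps.length = r → ps'.length = r → LF ps' = LF ps →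
      (∀ x ∈ ps, 0 ≤ x.1.z) → (∀ x ∈ ps', 0 ≤ x.1.z) → ∀ z D0 : ℝ, 1 ≤ D0 →
      ∀ q : Eis, IsPrim q → ∀ (e₀ ε Pz X V Kf B0 H X0 Ua : ℝ) (δ e A c b : Eis) (y : Eis × Eis)
      (K Lv d Bd : ℝ), 0 < ε → Sz Pz X V Kf H δ e A c y → QfOK e A c p Qf Qg →
      EnvL e₀ ε Pz X V Kf B0 H X0 δ e (LF ps) K Lv d → C ≤ e₀ → D0 ^ r ≤ X0 → (nm q : ℝ) ≤ X0 →
      (∀ x ∈ ps, Real.exp x.1.z ≤ X0) → (∀ x ∈ ps', Real.exp x.1.z ≤ X0) → 0 ≤ Bd →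
      1 ≤ Ua → Ua ≤ X0 → IsPrim b → (nm b : ℝ) ≤ X0 →
      PLnF Φ μ C (fun i => (ps.get i).1) (LF ps) K Lv (17 * d + 8 * e₀) (2 * e₀) Bd →
      PLnF Φ μ C (fun i => (ps'.get i).1) (LF ps) K Lv (17 * d + 8 * e₀) (2 * e₀) Bd →
      ∀ ζ : ℂ, ‖ζ‖ ≤ 1 → ∀ 𝒜 : Finset Eis,
      (∀ a ∈ 𝒜, IsPrim a ∧ Squarefree a ∧ (nm a : ℝ) ≤ Ua) →
      ∀ l u j, CellN (Pz ^ (ε / 2)) H (X / nm y.1) V Kf B0 y.2 e A c
        (jmL (2 * d + e₀) Lv l) l u j →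
      ∀ n ∈ dvs y.2, (2 / 2 ^ j : ℝ) * ((nm n : ℝ) * ∑ a ∈ 𝒜, ∑ j₂ ∈ QsJ401.Tb V e A c l,
        ∑ B ∈ bk (X / nm y.1) u, MNc A' V e A c (X / nm y.1) Qf δ y.1 φ p t₀ j₂ B j n
          (alr (fun m => sqc q (alF z D0 P h ps) m - ζ * sqc q (alF z D0 P h ps') m) a b)) ≤
      C * C₂ * (Cφ ^ 2 * iA A' * (η * (η ^ A')⁻¹)) * X0 ^ (2 * ε₁) * (1 + |t₀|) ^ A' *
        opL r D0 * (Bd * Real.exp (LF ps + K + 5 * d + 3 * e₀)) := by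
  obtain ⟨C₁, hC₁, H1⟩ := cell_lista hpu hR0 hR hμ r hε₁
  refine ⟨8 * C₁, by linarith, ?_⟩
  intro C₂ hC₂ A' hA' Cφ η hCφ hη hη1 φ hφ p hp t₀ P hP Φ Qg Qf H2 ps ps' hr hr' hLF hs hs' z D0
    hD q hq e₀ ε Pz X V Kf B0 H X0 Ua δ e A c b y K Lv d Bd hε hz hQf he hCe hDX hqX hsX hsX' hBd
    hUa hUaX hb hbX hln hln' ζ hζ 𝒜 h𝒜 l u j hcell n hn
  have hX'1 := hz.X1
  have hX'0 : 0 ≤ X / nm y.1 := by linarith
  have hX0p := he.X0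
  have hXX0 : X / nm y.1 ≤ X0 := (he.X' hz).trans (he.leX0 (by
    linarith [he.n0, he.v0, he.d0, he.e0]))
  have hy1X : (nm y.1 : ℝ) ≤ X0 := (he.ny1 hz).trans (he.leX0 (by
    linarith [he.n0, he.v0, he.d0, he.e0]))
  have hδX : (nm δ : ℝ) ≤ X0 := by
    have h0 : (0 : ℝ) < nm δ := by exact_mod_cast nm_pos.2 hz.δp.ne_zero
    refine ((Real.log_le_iff_le_exp h0).1 he.lδ).trans (he.leX0 (by
      linarith [he.n0, he.v0, he.d0, he.e0]))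
  set Φf : (Eis → ℂ) → ℝ := fun α => ∑ a ∈ 𝒜, ∑ j₂ ∈ GKC739.Tb V e A c l,
    ∑ B ∈ bk (X / nm y.1) u, MNc A' V e A c (X / nm y.1) Qf δ y.1 φ p t₀ j₂ B j n (alr α a b)
    with hΦf
  have hQF : QF Φf := by
    have h := QF_cellN (J := A') (V := V) (e := e) (A := A) (c := c) hX'0 Qf δ hz.y1 φ p t₀ 1 l u j
      n b 𝒜
    simp only [mul_one] at h
    exact h
  set Mc : ℝ := 3 * Real.exp (2 / 3) * (C₂ * X0 ^ ε₁ * (2 ^ j * (Bd *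
    Real.exp (LF ps + K + (2 * d + e₀) + (2 * d + e₀) + 2 / 3)))) with hMc
  have hC₂0 : 0 ≤ C₂ := by linarith
  have hMc0 : 0 ≤ Mc := by rw [hMc]; positivity
  have key : ∀ qs : List Pf, qs.length = r → LF qs = LF ps → (∀ x ∈ qs, 0 ≤ x.1.z) →
      (∀ x ∈ qs, Real.exp x.1.z ≤ X0) →
      PLnF Φ μ (8 * C₁) (fun i => (qs.get i).1) (LF ps) K Lv (17 * d + 8 * e₀) (2 * e₀) Bd →
      Φf (sqc q (alF z D0 P h qs)) ≤ C₁ * (Cφ ^ 2 * iA A' * (η * (η ^ A')⁻¹)) * X0 ^ ε₁ *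
        (1 + |t₀|) ^ A' * opL r D0 * Mc := by
    intro qs hqr hqL hq0 hqX' hqln
    have hsum : ∑ k, (qs.get k).1.z = LF ps := by rw [← hqL, LF_get]
    obtain ⟨⟨w1, w2⟩, hcl⟩ := cellH_L H2 hC₂ hp hε hz hQf he hCe hsum hBd hqln hcell hn
    have h1 := H1 A' hA' Cφ η hCφ hη hη1 φ hφ p t₀ P hP qs hqr hq0 z D0 hD q y.1 δ e A 1 b hq hz.y1
      hz.δp hz.ep hz.Ap hb V (X / nm y.1) X0 Ua hX'1 hUa hXX0 hUaX hDX hy1X hqX hδX hbX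
      hqX' 𝒜 h𝒜 c hz.hc l u j n Qf _ w1 w2 Mc hMc0
      ((cellX_one.2 hcl).mono (by linarith))
    simp only [mul_one] at h1
    exact h1
  have hfa := FS_ps hpu hP q z D0 ps
  have hfb := FS_ps hpu hP q z D0 ps'
  have h3 := QF_sub hQF hfa hfb hζ
  have k1 := key ps hr rfl hs hsX hln
  have k2 := key ps' hr' hLF hs' hsX' hln'
  set S0 : ℝ := C₁ * (Cφ ^ 2 * iA A' * (η * (η ^ A')⁻¹)) * X0 ^ ε₁ * (1 + |t₀|) ^ A' * opL r D0 *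
    Mc with hS0
  have h4 : Φf (fun m => sqc q (alF z D0 P h ps) m - ζ * sqc q (alF z D0 P h ps') m) ≤ 4 * S0 := by
    refine h3.trans ?_
    linarith
  have e1 : ∑ a ∈ 𝒜, ∑ j₂ ∈ QsJ401.Tb V e A c l, ∑ B ∈ bk (X / nm y.1) u,
      MNc A' V e A c (X / nm y.1) Qf δ y.1 φ p t₀ j₂ B j n
        (alr (fun m => sqc q (alF z D0 P h ps) m - ζ * sqc q (alF z D0 P h ps') m) a b) =
      Φf (fun m => sqc q (alF z D0 P h ps) m - ζ * sqc q (alF z D0 P h ps') m) := by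
    rw [Tb_eq]
  rw [e1]
  have hn0 : (0 : ℝ) ≤ nm n := Nat.cast_nonneg _
  have h2j : (0 : ℝ) < 2 ^ j := by positivity
  have hny : (nm n : ℝ) ≤ Real.exp d := by
    have h3 := (mem_dvs hz.y2.ne_zero).1 hn
    have h4 : nm n ≤ nm y.2 := nm_le_of_dvd hz.y2.ne_zero h3.2
    exact (by exact_mod_cast h4 : (nm n : ℝ) ≤ nm y.2).trans (he.ny2 hz)
  have hiA := iA_nonneg A'
  have hop := opL_nonneg r (show (0 : ℝ) ≤ D0 by linarith)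
  have hC₁0 : 0 ≤ C₁ := by linarith
  have hnum : Real.exp d * (3 * Real.exp (2 / 3) *
      Real.exp (LF ps + K + (2 * d + e₀) + (2 * d + e₀) + 2 / 3)) ≤
      Real.exp (LF ps + K + 5 * d + 3 * e₀) := by
    have h6 : 3 * Real.exp (2 / 3) ≤ Real.exp 4 := by
      have := six_le
      have h7 : 0 ≤ 3 * Real.exp (2 / 3) := by positivity
      linarith
    calc _ ≤ Real.exp d * (Real.exp 4 *
        Real.exp (LF ps + K + (2 * d + e₀) + (2 * d + e₀) + 2 / 3)) := by gcongr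
      _ = Real.exp (d + (4 + (LF ps + K + (2 * d + e₀) + (2 * d + e₀) + 2 / 3))) := by
          rw [Real.exp_add d, Real.exp_add 4]
      _ ≤ _ := Real.exp_le_exp.2 (by linarith [he.e0])
  have hXX : X0 ^ ε₁ * X0 ^ ε₁ = X0 ^ (2 * ε₁) := by
    rw [← Real.rpow_add hX0p]; congr 1; ring
  calc (2 / 2 ^ j : ℝ) * ((nm n : ℝ) *
        Φf (fun m => sqc q (alF z D0 P h ps) m - ζ * sqc q (alF z D0 P h ps') m))
      ≤ (2 / 2 ^ j : ℝ) * (Real.exp d * (4 * S0)) := by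
        refine mul_le_mul_of_nonneg_left ?_ (by positivity)
        have hS00 : 0 ≤ 4 * S0 := by rw [hS0]; positivity
        exact (mul_le_mul_of_nonneg_left h4 hn0).trans (mul_le_mul_of_nonneg_right hny hS00)
    _ = (8 * C₁ * C₂ * (Cφ ^ 2 * iA A' * (η * (η ^ A')⁻¹)) * (X0 ^ ε₁ * X0 ^ ε₁) *
        (1 + |t₀|) ^ A' * opL r D0 * Bd) * (Real.exp d * (3 * Real.exp (2 / 3) *
          Real.exp (LF ps + K + (2 * d + e₀) + (2 * d + e₀) + 2 / 3))) := by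
        rw [hS0, hMc]
        field_simp
        ring
    _ ≤ (8 * C₁ * C₂ * (Cφ ^ 2 * iA A' * (η * (η ^ A')⁻¹)) * (X0 ^ ε₁ * X0 ^ ε₁) *
        (1 + |t₀|) ^ A' * opL r D0 * Bd) * Real.exp (LF ps + K + 5 * d + 3 * e₀) :=
        mul_le_mul_of_nonneg_left hnum (by positivity)
    _ = _ := by rw [hXX]; ring

/-- **the joint cells of a restricted difference, summed over `a`** -/
theorem cellsJxa {h : ℝ → ℝ} {c₀ : ℝ} (hpu : PU h c₀) {R : ℝ} (hR0 : 0 ≤ R)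
    (hR : ∀ u, cx h u ≠ 0 → |u| ≤ R) {μ : ℝ} (hμ : 0 ≤ μ) (r : ℕ) {ε₁ : ℝ} (hε₁ : 0 < ε₁) :
    ∃ C : ℝ, 1 ≤ C ∧ ∀ C₂ : ℝ, 1 ≤ C₂ → ∀ A' : ℕ, 2 * (r * μ) + 2 ≤ A' →
      ∀ Cφ η : ℝ, 0 ≤ Cφ → 0 < η → η ≤ 1 →
      ∀ φ : ℝ → ℝ, WK Cφ η A' φ → ∀ p ∈ T9, ∀ (t₀ : ℝ) (P : DPar) (_ : P.OK)
      (Φ : ℝ → ℝ → List Pq → ℝ) (Qg : Eis → Prop) (Qf : Eis → Eis → Eis → Eis → Prop)
      (_ : GaC P h Qg Φ ε₁ C₂)
      (ps ps' : List Pf), ps.length = r → ps'.length = r → LF ps' = LF ps →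
      (∀ x ∈ ps, 0 ≤ x.1.z) → (∀ x ∈ ps', 0 ≤ x.1.z) → ∀ z D0 : ℝ, 1 ≤ D0 →
      ∀ q : Eis, IsPrim q → ∀ (e₀ ε Pz X V Kf B0 H X0 Ua : ℝ) (δ e A c b : Eis) (y : Eis × Eis)
      (K Lv d Bd : ℝ), 0 < ε → Sz Pz X V Kf H δ e A c y → QfOK e A c p Qf Qg →
      EnvL e₀ ε Pz X V Kf B0 H X0 δ e (LF ps) K Lv d → C ≤ e₀ → D0 ^ r ≤ X0 → (nm q : ℝ) ≤ X0 →
      (∀ x ∈ ps, Real.exp x.1.z ≤ X0) → (∀ x ∈ ps', Real.exp x.1.z ≤ X0) → 0 ≤ Bd →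
      1 ≤ Ua → Ua ≤ X0 → IsPrim b → (nm b : ℝ) ≤ X0 →
      PLnF Φ μ C (fun i => (ps.get i).1) (LF ps) K Lv (17 * d + 8 * e₀) (2 * e₀) Bd →
      PLnF Φ μ C (fun i => (ps'.get i).1) (LF ps) K Lv (17 * d + 8 * e₀) (2 * e₀) Bd →
      ∀ ζ : ℂ, ‖ζ‖ ≤ 1 → ∀ 𝒜 : Finset Eis,
      (∀ a ∈ 𝒜, IsPrim a ∧ Squarefree a ∧ (nm a : ℝ) ≤ Ua) →
      ∀ l u j, jmL (2 * d + e₀) Lv l u j →
      CellJ (Pz ^ (ε / 2)) H (X / nm y.1) V Kf B0 y.2 e A c l u j →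
      (2 / 2 ^ j : ℝ) * (2 / 2 ^ u) * ∑ a ∈ 𝒜, ∑ j₂ ∈ QsJ401.Tb V e A c l,
        FJm A' V e A c (X / nm y.1) Qf y.2 δ y.1 φ p t₀ j₂ u j
          (alr (fun m => sqc q (alF z D0 P h ps) m - ζ * sqc q (alF z D0 P h ps') m) a b) ≤
      C * C₂ * (Cφ ^ 2 * iA A' * (η * (η ^ A')⁻¹)) * X0 ^ (2 * ε₁) * (1 + |t₀|) ^ A' *
        opL r D0 * (Bd * Real.exp (LF ps + K + 5 * d + 3 * e₀)) := by
  obtain ⟨C₁, hC₁, H1⟩ := cell_listJa hpu hR0 hR hμ r hε₁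
  refine ⟨16 * C₁, by linarith, ?_⟩
  intro C₂ hC₂ A' hA' Cφ η hCφ hη hη1 φ hφ p hp t₀ P hP Φ Qg Qf H2 ps ps' hr hr' hLF hs hs' z D0
    hD q hq e₀ ε Pz X V Kf B0 H X0 Ua δ e A c b y K Lv d Bd hε hz hQf he hCe hDX hqX hsX hsX' hBd
    hUa hUaX hb hbX hln hln' ζ hζ 𝒜 h𝒜 l u j hjm hcell
  have hX'1 := hz.X1
  have hX'0 : 0 ≤ X / nm y.1 := by linarith
  have hX0p := he.X0
  have hXX0 : X / nm y.1 ≤ X0 := (he.X' hz).trans (he.leX0 (by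
    linarith [he.n0, he.v0, he.d0, he.e0]))
  have hy1X : (nm y.1 : ℝ) ≤ X0 := (he.ny1 hz).trans (he.leX0 (by
    linarith [he.n0, he.v0, he.d0, he.e0]))
  have hy2X : (nm y.2 : ℝ) ≤ X0 := (he.ny2 hz).trans (he.leX0 (by
    linarith [he.n0, he.v0, he.d0, he.e0]))
  have hδX : (nm δ : ℝ) ≤ X0 := by
    have h0 : (0 : ℝ) < nm δ := by exact_mod_cast nm_pos.2 hz.δp.ne_zero
    refine ((Real.log_le_iff_le_exp h0).1 he.lδ).trans (he.leX0 (by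
      linarith [he.n0, he.v0, he.d0, he.e0]))
  have h2u1 : (1 : ℝ) ≤ 2 ^ u := one_le_pow₀ (by norm_num)
  have huX0 : (2 : ℝ) ^ u ≤ X0 := by
    have h1 := hcell.U_le hX'0
    have h2 : (2 : ℝ) * (X / nm y.1) ≤ Real.exp (1 + (LF ps + e₀)) := by
      rw [Real.exp_add]
      have h3 := Real.exp_one_gt_d9
      exact mul_le_mul (by linarith) (he.X' hz) hX'0 (Real.exp_pos _).le
    exact (h1.trans h2).trans (he.leX0 (by linarith [he.n0, he.v0, he.d0, he.e0]))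
  have hV1 := hz.V1
  have hRm0 : 0 ≤ V * nm (e * A) / (nm c * Real.exp ((l : ℝ) / 3) ^ 2) := by positivity
  set Bsu : Finset Eis := (S (X / nm y.1)).filter (fun B => blk B = u) with hBsu
  have hBs : ∀ t ∈ QsJ401.Tb V e A c l, ∀ B ∈ (fun _ : Eis => Bsu) t,
      B ∈ S (X / nm y.1) ∧ (2 : ℝ) ^ u / 2 ≤ nm B ∧ (nm B : ℝ) ≤ 2 ^ u := by
    intro t _ B hB
    rw [hBsu] at hB
    have hB' := Finset.mem_filter.1 hB
    have h2 := blk_lt ((mem_S hX'0).1 hB'.1).2.1.ne_zero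
    have h3 := blk_le B
    rw [hB'.2] at h2 h3
    exact ⟨hB'.1, h2.le, h3⟩
  have hRy : ∀ t ∈ QsJ401.Tb V e A c l, 0 ≤ RR V e A c t ∧
      RR V e A c t ≤ V * nm (e * A) / (nm c * Real.exp ((l : ℝ) / 3) ^ 2) := fun t ht =>
    ⟨by linarith [(QsJ401.mem_Tb.1 ht).2], QsJ401.RR_le_Rm (by linarith) hz.hc ht⟩
  set Φf : (Eis → ℂ) → ℝ := fun α => ∑ a ∈ 𝒜, ∑ j₂ ∈ QsJ401.Tb V e A c l,
    FJm A' V e A c (X / nm y.1) Qf y.2 δ y.1 φ p t₀ j₂ u j (alr α a b) with hΦf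
  have hQF : QF Φf :=
    QF_cellJ (J := A') (c := c) (ν := y.2) (E₀ := e * A) (Z := 2 ^ j) (U := 2 ^ u) φ p t₀ δ hz.y1
      hX'0 (QsJ401.Tb V e A c l) (Bs := fun _ => Bsu) (Ry := fun t => RR V e A c t)
      (fun t ht => (hRy t ht).1) (fun t ht B hB => (hBs t ht B hB).1)
      (fun t i B d => Qf (e * A * t) B (dl' c i) d) b 𝒜
  set Mc : ℝ := C₂ * X0 ^ ε₁ * (Real.exp d *
        (2 ^ j * 2 ^ u * (Bd * Real.exp (LF ps + K + (2 * d + e₀) + (2 * d + e₀))))) with hMc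
  have hC₂0 : 0 ≤ C₂ := by linarith
  have hMc0 : 0 ≤ Mc := by rw [hMc]; positivity
  have key : ∀ qs : List Pf, qs.length = r → LF qs = LF ps → (∀ x ∈ qs, 0 ≤ x.1.z) →
      (∀ x ∈ qs, Real.exp x.1.z ≤ X0) →
      PLnF Φ μ (16 * C₁) (fun i => (qs.get i).1) (LF ps) K Lv (17 * d + 8 * e₀) (2 * e₀) Bd →
      Φf (sqc q (alF z D0 P h qs)) ≤ ((100 * D0) ^ r) ^ 2 *
        (C₁ * (Cφ ^ 2 * iA A' * (η * (η ^ A')⁻¹)) * (1 + |t₀|) ^ A' * X0 ^ ε₁ *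
          (D0 ^ r * Mc)) := by
    intro qs hqr hqL hq0 hqX' hqln
    have hcl := cellXJ_L H2 hC₂ hp hε hz hQf he hCe hBd hqln hjm hcell (fun _ => Bsu)
    exact H1 A' hA' Cφ η hCφ hη hη1 φ hφ p t₀ P hP qs hqr hq0 z D0 hD q y.1 δ y.2 (e * A) b hq
      hz.y1 hz.δp hz.y2 hb (X / nm y.1) X0 Ua hX'1 hUa hXX0 hUaX hDX hy1X hqX hδX hy2X hbX
      hqX' 𝒜 h𝒜 c hz.hc (QsJ401.Tb V e A c l) (fun _ => Bsu) (2 ^ j)
      (V * nm (e * A) / (nm c * Real.exp ((l : ℝ) / 3) ^ 2)) (2 ^ u) (fun t => RR V e A c t)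
      (by positivity) hRm0 h2u1 huX0 hRy hBs (fun t i B d => Qf (e * A * t) B (dl' c i) d) Mc hMc0
      (by rw [hqL]; exact hcl.mono (by linarith))
  have hfa := FS_ps hpu hP q z D0 ps
  have hfb := FS_ps hpu hP q z D0 ps'
  have h3 := QF_sub hQF hfa hfb hζ
  have k1 := key ps hr rfl hs hsX hln
  have k2 := key ps' hr' hLF hs' hsX' hln'
  set S0 : ℝ := ((100 * D0) ^ r) ^ 2 *
        (C₁ * (Cφ ^ 2 * iA A' * (η * (η ^ A')⁻¹)) * (1 + |t₀|) ^ A' * X0 ^ ε₁ *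
          (D0 ^ r * Mc)) with hS0
  have h4 : Φf (fun m => sqc q (alF z D0 P h ps) m - ζ * sqc q (alF z D0 P h ps') m) ≤ 4 * S0 := by
    refine h3.trans ?_
    linarith
  have e1 : ∑ a ∈ 𝒜, ∑ j₂ ∈ QsJ401.Tb V e A c l,
        FJm A' V e A c (X / nm y.1) Qf y.2 δ y.1 φ p t₀ j₂ u j
          (alr (fun m => sqc q (alF z D0 P h ps) m - ζ * sqc q (alF z D0 P h ps') m) a b) =
      Φf (fun m => sqc q (alF z D0 P h ps) m - ζ * sqc q (alF z D0 P h ps') m) := rfl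
  rw [e1]
  have h2j : (0 : ℝ) < 2 ^ j := by positivity
  have h2u : (0 : ℝ) < 2 ^ u := by positivity
  have hiA := iA_nonneg A'
  have hop := opL_nonneg r (show (0 : ℝ) ≤ D0 by linarith)
  have hC₁0 : 0 ≤ C₁ := by linarith
  have hD00 : 0 ≤ D0 := by linarith
  have hnum : Real.exp d * Real.exp (LF ps + K + (2 * d + e₀) + (2 * d + e₀)) ≤
      Real.exp (LF ps + K + 5 * d + 3 * e₀) := by
    rw [← Real.exp_add]
    exact Real.exp_le_exp.2 (by linarith [he.e0])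
  have hXX : X0 ^ ε₁ * X0 ^ ε₁ = X0 ^ (2 * ε₁) := by
    rw [← Real.rpow_add hX0p]; congr 1; ring
  calc (2 / 2 ^ j : ℝ) * (2 / 2 ^ u) *
        Φf (fun m => sqc q (alF z D0 P h ps) m - ζ * sqc q (alF z D0 P h ps') m)
      ≤ (2 / 2 ^ j : ℝ) * (2 / 2 ^ u) * (4 * S0) :=
        mul_le_mul_of_nonneg_left h4 (by positivity)
    _ = (16 * C₁ * C₂ * (Cφ ^ 2 * iA A' * (η * (η ^ A')⁻¹)) * (X0 ^ ε₁ * X0 ^ ε₁) *
        (1 + |t₀|) ^ A' * opL r D0 * Bd) * (Real.exp d *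
          Real.exp (LF ps + K + (2 * d + e₀) + (2 * d + e₀))) := by
        rw [hS0, hMc]
        unfold NPy739.opL
        field_simp
        ring
    _ ≤ (16 * C₁ * C₂ * (Cφ ^ 2 * iA A' * (η * (η ^ A')⁻¹)) * (X0 ^ ε₁ * X0 ^ ε₁) *
        (1 + |t₀|) ^ A' * opL r D0 * Bd) * Real.exp (LF ps + K + 5 * d + 3 * e₀) :=
        mul_le_mul_of_nonneg_left hnum (by positivity)
    _ = _ := by rw [hXX]; ring

end Crest.Agent.R017.RClX791
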