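import Crest.Agent.R017.RCle_83
import Crest.Agent.R017.MoN7_106

/-!
# Row 17, E2, R-side of the `l`-terms of the tail of (LB) (helper83), part f

* `polarL` : the number of the polar part of one block of `l`
* `qla_blk` : the inner sum over `(l, a)` of one block for a natural piece, from the pair lines
-/

set_option autoImplicit false
set_option linter.unusedVariables false
set_option maxHeartbeats 1600000

noncomputable section

open Finset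
open scoped ComplexConjugate Classical

namespace Crest.Agent.R017.RCl83

open Crest.Agent.R012 Crest.Agent.R012.Eis
open Crest.Agent.R012.LS2 (S mem_S)
open Crest.Agent.R012.Mob705 (pdiv mem_pdiv)
open Crest.Agent.R017.B770
open Crest.Agent.R017.Prov71
open Crest.Agent.R017.CM106 (CS FS)
open Crest.Agent.R017.FE47 (cx PU)
open Crest.Agent.R017.HP842 (pc sqc)
open Crest.Agent.R017.TPOk571 (IP SD SD_w sd_ok)
open Crest.Agent.R017.XRG106
open Crest.Agent.R017.X6C180 (IX dl' Sg GF om')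
open Crest.Agent.R017.X6545 (TF Bd)
open Crest.Agent.R017.X6W180 (TF1 tf1_tf)
open Crest.Agent.R017.FlC502 (thd thd_nonneg thd_le_one)
open Crest.Agent.R017.Win813 (iA iA_nonneg WK)
open Crest.Agent.R017.RGw813 (T9)
open Crest.Agent.R017.H1401 (pb mem_pb WM HW DN)
open Crest.Agent.R017.MoF106
open Crest.Agent.R017.MoL106
open Crest.Agent.R017.QsO83 (bw bw_ne FS_bw)
open Crest.Agent.R017.E2440
open Crest.Agent.R017.QsJ401 (Sz CellN CellJ Nj mem_Bj Tb mem_Tb)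
open Crest.Agent.R017.RC106 (PLn k9 le_exp_of_log jmL log2_le1 kdd_all)
open Crest.Agent.R017.MTL537 (ML ML_mono ML_nonneg ml_num mtl_cell)
open Crest.Agent.R017.MoCa83
open Crest.Agent.R012.Div277 (tau dvs mem_dvs nm_le_of_dvd)

lemma ML_two' {V N : ℝ} (hV : 0 ≤ V) (hN : 0 ≤ N) : ML V (2 * N) ≤ 2 * ML V N := by
  unfold MTL537.ML
  have h1 : (0 : ℝ) ≤ V ^ ((2 : ℝ) / 3) := by positivity
  have h2 : (0 : ℝ) ≤ V ^ ((1 : ℝ) / 3) := by positivity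
  have h3 : (0 : ℝ) ≤ N ^ ((2 : ℝ) / 3) := by positivity
  have h4 : (2 * N) ^ ((2 : ℝ) / 3) ≤ 2 * N ^ ((2 : ℝ) / 3) := by
    rw [Real.mul_rpow (by norm_num) hN]
    have : (2 : ℝ) ^ ((2 : ℝ) / 3) ≤ 2 ^ (1 : ℝ) :=
      Real.rpow_le_rpow_of_exponent_le (by norm_num) (by norm_num)
    rw [Real.rpow_one] at this
    gcongr
  have h5 : V ^ ((1 : ℝ) / 3) * (2 * N) ^ ((2 : ℝ) / 3) ≤
      V ^ ((1 : ℝ) / 3) * (2 * N ^ ((2 : ℝ) / 3)) := mul_le_mul_of_nonneg_left h4 h2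
  linarith

/-- **the number of the polar part of one block of `l`**: `K` = family, `t` = scale of `l` -/
lemma polarL {e₀ ε Pz X V Kf B0 H X0 : ℝ} {δ e A c : Eis} {y : Eis × Eis} {n κ K Lv d t s : ℝ}
    (he : EnvL e₀ ε Pz X V Kf B0 H X0 δ e n κ Lv d) (hz : Sz Pz X V Kf H δ e A c y)
    (hB0 : 1 / 2 ≤ B0) (ht : 0 ≤ t) (hκ : κ = K - 3 * t)
    (hs : 0 ≤ s) (h56 : 6 * n ≤ 5 * K + s) (h32 : 3 * Lv ≤ 2 * K + s) :
    Real.exp (-t) * Real.exp (κ + e₀) ^ ((2 : ℝ) / 3) * (V ^ (-(1 : ℝ) / 3) / nm (e * A)) ^ 2 *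
      (nm δ * (X ^ ((2 : ℝ) / 3) / B0 * ((V * (nm (e * A) : ℝ) ^ 3) ^ ((1 : ℝ) / 3) *
        ML (V * (nm (e * A) : ℝ) ^ 3) (X / B0)))) ≤
      (V ^ (-(1 : ℝ) / 3) / nm (e * A)) *
        Real.exp (n + K - K / 36 + 7 * d + 2 * s + 9 * e₀) := by
  have e1 := he.e0
  have hd0 := he.d0
  have hκ0 := he.K0
  have hV0 : 0 < V := by linarith [hz.V1]
  have hB00 : 0 < B0 := by linarith
  have hX0 : 0 < X := by linarith [hz.n1, hz.yX]
  have hE1 : (1 : ℝ) ≤ nm (e * A) := by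
    exact_mod_cast nm_pos.2 (mul_ne_zero hz.ep.ne_zero hz.Ap.ne_zero)
  have hE0 : (0 : ℝ) < nm (e * A) := by linarith
  have hδ0 : (0 : ℝ) < nm δ := by exact_mod_cast nm_pos.2 hz.δp.ne_zero
  have hX2 : X ≤ Real.exp (n + e₀) := le_exp_of_log hX0 he.lX
  have hV2 : V ≤ Real.exp (Lv + e₀) := le_exp_of_log hV0 he.lV
  have hE2 := he.neA hz
  have hδ2 : (nm δ : ℝ) ≤ Real.exp d := le_exp_of_log hδ0 he.lδ
  set b : ℝ := Real.log (2 * B0) with hb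
  have eb : Real.exp b = 2 * B0 := Real.exp_log (by linarith)
  have hb0 : 0 ≤ b := Real.log_nonneg (by linarith)
  have hbl : Real.log B0 ≤ b := Real.log_le_log hB00 (by linarith)
  have hVE : V * (nm (e * A) : ℝ) ^ 3 ≤ Real.exp (Lv + e₀ + 6 * d) := by
    calc V * (nm (e * A) : ℝ) ^ 3 ≤ Real.exp (Lv + e₀) * Real.exp (2 * d) ^ 3 := by gcongr
      _ = _ := by
        rw [← Real.exp_nat_mul, ← Real.exp_add]
        congr 1
        push_cast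
        ring
  have hVE0 : 0 ≤ V * (nm (e * A) : ℝ) ^ 3 := by positivity
  have hnum := ml_num (k := K + e₀) (n := n + e₀) (v := Lv + e₀) (e := 6 * d) (t := t)
    (b := b) (s := s + 3 * e₀) ht (by linarith) (by linarith) (by linarith)
    (by linarith) (by linarith) hb0 (by linarith [he.lB'])
  rw [show K + e₀ - 3 * t = κ + e₀ by rw [hκ]; ring, eb] at hnum
  have hML : ML (V * (nm (e * A) : ℝ) ^ 3) (X / B0) ≤
      2 * ML (Real.exp (Lv + e₀ + 6 * d)) (Real.exp (n + e₀) / (2 * B0)) := by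
    have h1 : X / B0 ≤ 2 * (Real.exp (n + e₀) / (2 * B0)) := by
      have h2 : 2 * (Real.exp (n + e₀) / (2 * B0)) = Real.exp (n + e₀) / B0 := by field_simp
      rw [h2]
      gcongr
    exact (ML_mono hVE0 (by positivity) hVE h1).trans (ML_two' (by positivity) (by positivity))
  have hML0 : 0 ≤ ML (V * (nm (e * A) : ℝ) ^ 3) (X / B0) := ML_nonneg hVE0 (by positivity)
  have hML1 : 0 ≤ ML (Real.exp (Lv + e₀ + 6 * d)) (Real.exp (n + e₀) / (2 * B0)) :=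
    ML_nonneg (by positivity) (by positivity)
  -- the powers of `V` cancel
  have hc : (V ^ (-(1 : ℝ) / 3) / nm (e * A)) * (V * (nm (e * A) : ℝ) ^ 3) ^ ((1 : ℝ) / 3) =
      1 := by
    rw [Real.mul_rpow hV0.le (by positivity), ← Real.rpow_natCast (nm (e * A) : ℝ) 3,
      ← Real.rpow_mul hE0.le, div_mul_eq_mul_div, ← mul_assoc, ← Real.rpow_add hV0]
    rw [show (-(1 : ℝ) / 3 + 1 / 3) = 0 by norm_num, Real.rpow_zero,
      show ((3 : ℕ) : ℝ) * ((1 : ℝ) / 3) = 1 by norm_num, Real.rpow_one, one_mul,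
      div_self hE0.ne']
  set G : ℝ := V ^ (-(1 : ℝ) / 3) / nm (e * A) with hG
  have hG0 : 0 ≤ G := by positivity
  calc Real.exp (-t) * Real.exp (κ + e₀) ^ ((2 : ℝ) / 3) * G ^ 2 *
      (nm δ * (X ^ ((2 : ℝ) / 3) / B0 * ((V * (nm (e * A) : ℝ) ^ 3) ^ ((1 : ℝ) / 3) *
        ML (V * (nm (e * A) : ℝ) ^ 3) (X / B0))))
      = G * (nm δ * ((G * (V * (nm (e * A) : ℝ) ^ 3) ^ ((1 : ℝ) / 3)) *
        (Real.exp (-t) * (Real.exp (κ + e₀) ^ ((2 : ℝ) / 3) * X ^ ((2 : ℝ) / 3) / B0 *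
          ML (V * (nm (e * A) : ℝ) ^ 3) (X / B0))))) := by ring
    _ = G * (nm δ * (Real.exp (-t) * (Real.exp (κ + e₀) ^ ((2 : ℝ) / 3) * X ^ ((2 : ℝ) / 3) /
          B0 * ML (V * (nm (e * A) : ℝ) ^ 3) (X / B0)))) := by rw [hc, one_mul]
    _ ≤ G * (Real.exp d * (Real.exp (-t) * (Real.exp (κ + e₀) ^ ((2 : ℝ) / 3) *
          Real.exp (n + e₀) ^ ((2 : ℝ) / 3) / B0 *
          (2 * ML (Real.exp (Lv + e₀ + 6 * d)) (Real.exp (n + e₀) / (2 * B0)))))) := by gcongr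
    _ = G * (Real.exp d * (4 * (Real.exp (-t) * (Real.exp (κ + e₀) ^ ((2 : ℝ) / 3) *
          Real.exp (n + e₀) ^ ((2 : ℝ) / 3) / (2 * B0) *
          ML (Real.exp (Lv + e₀ + 6 * d)) (Real.exp (n + e₀) / (2 * B0)))))) := by
        field_simp
        ring
    _ ≤ G * (Real.exp d * (4 * (3 * Real.exp (K + e₀ + (n + e₀) - (K + e₀) / 36 + 6 * d +
        2 * (s + 3 * e₀))))) := by gcongr
    _ ≤ G * (Real.exp d * (Real.exp 4 * Real.exp (K + e₀ + (n + e₀) -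
        (K + e₀) / 36 + 6 * d + 2 * (s + 3 * e₀)))) := by
        have h12 : (12 : ℝ) ≤ Real.exp 4 := by
          have h2 := Real.add_one_le_exp (2 : ℝ)
          have h4 : Real.exp 4 = Real.exp 2 * Real.exp 2 := by rw [← Real.exp_add]; norm_num
          have h5 := Real.exp_one_gt_d9
          have h6 : Real.exp 2 = Real.exp 1 * Real.exp 1 := by rw [← Real.exp_add]; norm_num
          have h7 : (7 : ℝ) ≤ Real.exp 2 := by rw [h6]; nlinarith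
          rw [h4]; nlinarith
        rw [show (4 : ℝ) * (3 * Real.exp (K + e₀ + (n + e₀) - (K + e₀) / 36 + 6 * d +
          2 * (s + 3 * e₀))) = 12 * Real.exp (K + e₀ + (n + e₀) - (K + e₀) / 36 + 6 * d +
          2 * (s + 3 * e₀)) by ring]
        gcongr
    _ = G * Real.exp (d + (4 + (K + e₀ + (n + e₀) - (K + e₀) / 36 + 6 * d +
        2 * (s + 3 * e₀)))) := by
        rw [Real.exp_add d, Real.exp_add 4]
    _ ≤ _ := by
        refine mul_le_mul_of_nonneg_left (Real.exp_le_exp.2 ?_) hG0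
        linarith

/-- the last step of `qla_blk` -/
lemma fin_f {CQ CK Sf Pe w G1 G2 G3 Ge CN CJ CT Z1 Z2 Z3 : ℝ} (hCQ : 1 ≤ CQ) (hCK : 0 ≤ CK)
    (hCN : 0 ≤ CN) (hCJ : 0 ≤ CJ) (hCT : 0 ≤ CT) (hZ3 : 0 ≤ Z3) (hGe : 0 ≤ Ge) (hZ1 : 0 ≤ Z1)
    (hZ2 : 0 ≤ Z2) (hPe : 0 ≤ Pe) (hw : 0 ≤ w) (p1 : w * G1 ≤ Ge * ((CN + CJ) * Z1))
    (p2 : w * G2 ≤ Ge * (CT * Z2)) (p3 : w * G3 ≤ Ge * Z3) :
    CQ * ((CK * Sf) ^ 2 * Pe * w * (G1 + G2 + G3)) ≤
      Ge * (((1 + CQ * CK ^ 2) * (CN + CJ + CT + 1) + CQ) * Sf ^ 2 * Pe * (Z1 + Z2 + Z3)) := by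
  have p4 : w * (G1 + G2 + G3) ≤ Ge * ((CN + CJ + CT + 1) * (Z1 + Z2 + Z3)) := by
    have h5 : Ge * ((CN + CJ) * Z1) + Ge * (CT * Z2) + Ge * Z3 ≤
        Ge * ((CN + CJ + CT + 1) * (Z1 + Z2 + Z3)) := by
      rw [← mul_add, ← mul_add]
      refine mul_le_mul_of_nonneg_left ?_ hGe
      have a1 : 0 ≤ CT * Z1 := by positivity
      have a2 : 0 ≤ (CN + CJ) * Z2 := by positivity
      have a3 : 0 ≤ (CN + CJ + CT) * Z3 := by positivity
      linarith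
    linarith
  have hx : 0 ≤ CQ * CK ^ 2 := by positivity
  calc CQ * ((CK * Sf) ^ 2 * Pe * w * (G1 + G2 + G3))
      = CQ * (CK * Sf) ^ 2 * Pe * (w * (G1 + G2 + G3)) := by ring
    _ ≤ CQ * (CK * Sf) ^ 2 * Pe * (Ge * ((CN + CJ + CT + 1) * (Z1 + Z2 + Z3))) :=
        mul_le_mul_of_nonneg_left p4 (by positivity)
    _ = ((CQ * CK ^ 2) * (CN + CJ + CT + 1)) * (Ge * (Sf ^ 2 * Pe * (Z1 + Z2 + Z3))) := by ring
    _ ≤ ((1 + CQ * CK ^ 2) * (CN + CJ + CT + 1) + CQ) *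
          (Ge * (Sf ^ 2 * Pe * (Z1 + Z2 + Z3))) := by
        refine mul_le_mul_of_nonneg_right ?_ (by positivity)
        linarith
    _ = _ := by ring

/-- **one block of `l`, a natural piece, from the pair lines** -/
theorem qla_blk {h : ℝ → ℝ} {c₀ : ℝ} (hpu : PU h c₀) {R : ℝ} (hR0 : 0 ≤ R)
    (hR : ∀ u, cx h u ≠ 0 → |u| ≤ R) {μ : ℝ} (hμ : 0 ≤ μ) (r : ℕ) {ε ε₁ : ℝ} (hε : 0 < ε)
    (hε₁ : 0 < ε₁) (a₀ M' A' : ℕ) (hA' : 2 * (r * μ) + 2 ≤ A') :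
    ∃ (k : ℕ) (C : ℝ), 1 ≤ C ∧ ∀ (F : ℝ → ℂ) (Sf : ℝ), TF1 F → Bd F k Sf → ∀ hh : ℝ, 0 ≤ hh →
      ∀ Cφ η : ℝ, 0 ≤ Cφ → 0 < η → η ≤ 1 → ∀ φ : ℝ → ℝ, WK Cφ η A' φ → ∀ p ∈ T9, ∀ (t₀ : ℝ)
      (Pd : DPar) (hPd : Pd.OK) (s : Fin r → Pq), (∀ i, 0 ≤ (s i).z) → ∀ jp : Fin r → IP,
      (∀ i, FromP hPd (jp i) (s i)) → ∀ γ q : Eis, IsPrim γ → Squarefree γ → IsPrim q →
      ∀ (e₀ Pz X V B0 T X0 Ax t : ℝ) (Λ : Finset Eis) (ρ : Eis → Eis) (W Kl : Eis → ℝ),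
      RadOK T Λ ρ → Λ.Nonempty → 1 ≤ T → T ≤ Pz → 2 * X ≤ Pz → 0 ≤ t →
      (∀ k ∈ Λ, 0 ≤ W k ∧ W k ≤ Real.exp (-t)) →
      (∀ u, φ u ≠ 0 → X / 2 < Real.exp u ∧ Real.exp u ≤ X) →
      (∀ n, ‖bw φ p t₀ (dl γ (TP320.sq (q * γ) ((SD h μ r).w jp))) n‖ ≤ Ax) →
      Ax ≤ Pz ^ a₀ → (nm γ : ℝ) ≤ Pz → (nm q : ℝ) ≤ Pz → (∀ i, Real.exp (s i).z ≤ Pz) →
      ∀ (δ e A : Eis) (y : Eis × Eis) (n κ K Lv d sg Bb : ℝ), κ = K - 3 * t →
      (∀ k ∈ Λ, ∀ c ∈ C4, Sz Pz X V (Kl k) (Real.exp hh) δ e A c y) →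
      (∀ k ∈ Λ, EnvL e₀ (ε / 3) Pz X V (Kl k) B0 (Real.exp hh) X0 δ e n κ Lv d) →
      1 / 2 ≤ B0 → C ≤ e₀ → 0 ≤ Bb → PLn Pd h μ C s n κ Lv (17 * d + 8 * e₀) (2 * e₀) Bb →
      0 ≤ sg → 6 * n ≤ 5 * K + sg → 3 * Lv ≤ 2 * K + sg →
      n = ∑ k, (jp k).z + Real.log (nm γ) →
      Qla (bw φ p t₀ (dl γ (TP320.sq (q * γ) ((SD h μ r).w jp)))) Λ ρ W Kl V (GF (Fh F hh))
        δ e y A ≤
      V ^ (-(1 : ℝ) / 3) / nm e * (C * Sf ^ 2 * Pz ^ ε *
        (Cφ ^ 2 * iA A' * (η * (η ^ A')⁻¹) * X0 ^ ε₁ * (1 + |t₀|) ^ A' * nm γ *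
          (Bb * Real.exp (n + κ - t + 6 * d + 3 * e₀)) +
         X0 ^ ε₁ * Ax ^ 2 * Real.exp (n + K - K / 36 + 7 * d + 2 * sg + 9 * e₀) +
         (Pz ^ M')⁻¹)) := by
  obtain ⟨M, CQ, hCQ, HQ⟩ := Qla_nat hpu hR0 hR hμ r hε a₀ (M' + 2)
  obtain ⟨k, CK, hCK, HK⟩ := kdd_all A' M 1
  obtain ⟨CN, hCN, HN⟩ := ncB hε₁
  obtain ⟨CJ, hCJ, HJ⟩ := jcB hε₁
  obtain ⟨CT, hCT, HT⟩ := mtl_cell hε₁ (R := 1) zero_le_one
  have hCQK : 0 ≤ CQ * CK ^ 2 := by positivity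
  have hS1 : 1 ≤ CN + CJ + CT + 1 := by linarith
  have hb1 : CN + CJ + CT + 1 ≤ (1 + CQ * CK ^ 2) * (CN + CJ + CT + 1) :=
    le_mul_of_one_le_left (by linarith) (by linarith)
  refine ⟨k, (1 + CQ * CK ^ 2) * (CN + CJ + CT + 1) + CQ, by linarith, ?_⟩
  intro F Sf hF hBF hh hhh Cφ η hCφ hη hη1 φ hφ p hp t₀ Pd hPd s hs jp hjp γ q hγ hγs hq
    e₀ Pz X V B0 T X0 Ax t Λ ρ W Kl hΛ hne hT1 hTP h2X ht hW hφX hAx hAxP hγP hqP hsP δ e A y n κ
    K Lv d sg Bb hκ hSz hEnv hB0h hCe hBb hln hsg h56 h32 hn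
  obtain ⟨k₀, hk₀⟩ := hne
  have hz := hSz k₀ hk₀ 1 (mem_C4.mpr (Or.inl rfl))
  have he := hEnv k₀ hk₀
  have hP0 := hz.P0
  have hP1 := hz.P1
  have e1 := he.e0
  have hd0 := he.d0
  have hX0p := he.X0
  have hV0 : 0 < V := by linarith [hz.V1]
  have hB00 : 0 < B0 := by linarith
  have hAx0 : 0 ≤ Ax := (norm_nonneg _).trans (hAx 0)
  have hiA := iA_nonneg A'
  have hX1 : 1 ≤ X := hz.n1.trans hz.yX
  have hX00 : 0 ≤ X := by linarith
  have hγ1 : (1 : ℝ) ≤ nm γ := by exact_mod_cast nm_pos.2 hγ.ne_zero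
  have hE1 : (1 : ℝ) ≤ nm (e * A) := by
    exact_mod_cast nm_pos.2 (mul_ne_zero hz.ep.ne_zero hz.Ap.ne_zero)
  have hδ0 : (0 : ℝ) < nm δ := by exact_mod_cast nm_pos.2 hz.δp.ne_zero
  set α : Eis → ℂ := bw φ p t₀ (dl γ (TP320.sq (q * γ) ((SD h μ r).w jp))) with hα
  obtain ⟨hFS, hsq, hwin⟩ := bwdl_facts (φ := φ) (p := p) (t₀ := t₀) (q := q)
    (w := (SD h μ r).w jp) hγ hγs hX00 hφX
  rw [← hα] at hFS hsq hwin
  set pA : ℝ := Cφ ^ 2 * iA A' * (η * (η ^ A')⁻¹) with hpA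
  have hpA0 : 0 ≤ pA := by positivity
  have hML0 : 0 ≤ ML (V * (nm (e * A) : ℝ) ^ 3) (X / B0) :=
    ML_nonneg (by positivity) (by positivity)
  set L1 : ℝ := nm δ * (X ^ ((2 : ℝ) / 3) / B0 * ((V * (nm (e * A) : ℝ) ^ 3) ^ ((1 : ℝ) / 3) *
    ML (V * (nm (e * A) : ℝ) ^ 3) (X / B0))) with hL1
  have hL10 : 0 ≤ L1 := by positivity
  set M1 : ℝ := CT * X0 ^ ε₁ * Ax ^ 2 * L1 with hM1
  have hM10 : 0 ≤ M1 := by positivity
  set Ex : ℝ := Real.exp (n + κ + 5 * d + 3 * e₀) with hEx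
  set Mn : ℝ := (CN + CJ) * X0 ^ ε₁ * (Bb * Ex) with hMn
  have hMn0 : 0 ≤ Mn := by positivity
  have hlnQ := hln.mono (show CQ ≤ (1 + CQ * CK ^ 2) * (CN + CJ + CT + 1) + CQ by linarith)
  have hKt : ∀ k ∈ Λ, Kl k ≤ Real.exp (κ + e₀) := fun k hk =>
    le_exp_of_log (hSz k hk 1 (mem_C4.mpr (Or.inl rfl))).K0 (hEnv k hk).lK
  have hCe1 : CQ ≤ e₀ := by linarith
  have h1 := HQ A' hA' Cφ η hCφ hη hη1 φ hφ p t₀ Pd hPd s hs jp hjp γ q hγ hγs hq Pz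
    (GF (Fh F hh)) (CK * Sf) (Real.exp hh)
    (fun y => min (y ^ (-(1 / 3) : ℝ)) (min 1 ((y * Real.exp hh) ^ 1))) (thd (Real.exp hh))
    (fun σ i y => om' σ F i y - om' σ F i (y * Real.exp hh))
    (fun σ hσ => HK F Sf hF hBF hh hhh σ hσ)
    (fun y _ => (min_le_right _ _).trans (min_le_left _ _)) (fun y _ => thd_le_one _ _)
    X V B0 (Real.exp (κ + e₀)) (Real.exp (-t)) T Λ ρ W Kl hΛ hT1 hTP h2X hV0.le
    (Real.exp_pos _).le (Real.exp_pos _).le hW hKt hφX (fun n => (hAx n).trans hAxP) hγP hqP hsP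
    δ e A y hSz (fun _ => jmL (2 * d + e₀) Lv) Mn M1 hMn0 hM10
    (fun c hc l u j hcl m hm => by
      obtain ⟨k, hk, hcell⟩ := hcl
      obtain ⟨Wb, w1, w2, w3⟩ := HN Pd h s CQ μ e₀ (ε / 3) Pz X V (Kl k) B0 (Real.exp hh) X0 δ e A
        c y n κ Lv d Bb (by positivity) (hSz k hk c hc) (hEnv k hk) hBb hCe1 hlnQ p hp l u j
        hcell m hm
      refine ⟨Wb, w1, w2, ?_⟩
      rw [← hn]
      intro v hv w hw hWp i g₃ hg₃ s' W0 hW0 hRl hle
      refine (w3 v hv w hw hWp i g₃ hg₃ s' W0 hW0 hRl hle).trans ?_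
      have hW20 : 0 ≤ W0 ^ (2 * μ) := Real.rpow_nonneg (by linarith) _
      have hmm : CN * X0 ^ ε₁ * (Bb * Ex) ≤ Mn := by
        rw [hMn]
        have : 0 ≤ CJ * (X0 ^ ε₁ * (Bb * Ex)) := by positivity
        nlinarith
      have h2j : (0 : ℝ) < 2 ^ j := by positivity
      gcongr)
    (fun c hc l u j hjm hcl => by
      obtain ⟨k, hk, hcell⟩ := hcl
      have w3 := HJ Pd h s CQ μ e₀ (ε / 3) Pz X V (Kl k) B0 (Real.exp hh) X0 δ e A
        c y n κ Lv d Bb (by positivity) (hSz k hk c hc) (hEnv k hk) hBb hCe1 hlnQ p hp l u j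
        hjm hcell (fun _ => (S (X / nm y.1)).filter (fun B => blk B = u))
      rw [← hn]
      intro m hm g hg hgδ u' hu' v hv w hw q1 q2 q3 i g₃ hg₃ s' W0 hW0 hRl hle
      refine (w3 m hm g hg hgδ u' hu' v hv w hw q1 q2 q3 i g₃ hg₃ s' W0 hW0 hRl hle).trans ?_
      have hW20 : 0 ≤ W0 ^ (2 * μ) := Real.rpow_nonneg (by linarith) _
      have hmm : CJ * X0 ^ ε₁ * (Bb * Ex) ≤ Mn := by
        rw [hMn]
        have : 0 ≤ CN * (X0 ^ ε₁ * (Bb * Ex)) := by positivity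
        nlinarith
      have h2j : (0 : ℝ) < 2 ^ j * 2 ^ u := by positivity
      gcongr)
    (fun k hk a ha haδ hy2 c hc l u hex => by
      have hy1 : y.1 = δ := by
        have := hz.ye
        rwa [hy2, mul_one] at this
      have hX'0 : 0 ≤ X / (nm y.1 : ℝ) := by linarith [hz.X1]
      have hρ := hΛ.rp k hk
      have ha' := (mem_dvs hρ.ne_zero).mp ha
      have has : Squarefree a := (hΛ.rs k hk).squarefree_of_dvd ha'.2
      -- the restricted sequence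
      have hna : (∃ m, alr α a (ρ k / a) m ≠ 0) → (nm a : ℝ) ≤ X := by
        rintro ⟨m, hm⟩
        obtain ⟨g1, -, g3⟩ := alr_ne hm
        have h3 : (nm m : ℝ) ≤ X := (hwin m g3).2
        have h4 : nm a ≤ nm m := nm_le_of_dvd (hFS.prim m g3).ne_zero g1
        exact (by exact_mod_cast h4 : (nm a : ℝ) ≤ nm m).trans h3
      by_cases hex0 : ∃ m, alr α a (ρ k / a) m ≠ 0
      swap
      · push Not at hex0
        have h0 : alr α a (ρ k / a) = fun _ => 0 := funext hex0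
        have hz0 : ∀ j₂ B x, MT (ag (alr α a (ρ k / a)) δ y.1) (e * A * j₂) B c x = 0 := by
          intro j₂ B x
          rw [h0, ag_zero]
          unfold E2440.MT
          simp
        rw [← hα]
        simp only [hz0, norm_zero]
        simp only [ne_eq, OfNat.ofNat_ne_zero, not_false_eq_true, zero_pow, Finset.sum_const_zero,
          mul_zero]
        positivity
      have haX := hna hex0
      have h2 := HT X X X0 Ax (alr α a (ρ k / a)) hX1 (by linarith) hAx0 (fun n hn => by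
          rw [mem_S (by linarith)]
          have hn' := (alr_ne hn).2.2
          exact ⟨(hwin n hn').2, hFS.prim n hn', hsq n hn'⟩) (fun n hn => by
          have hn1 := hwin n (alr_ne hn).2.2
          have hn0 : (0 : ℝ) < nm n := by linarith
          have h3 : Real.log (nm n) ≤ Real.log X := Real.log_le_log hn0 hn1.2
          have h4 : Real.log X ≤ Real.log (2 * nm n) :=
            Real.log_le_log (by linarith) (by linarith)
          rw [Real.log_mul (by norm_num) hn0.ne'] at h4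
          have := log2_le1
          rw [abs_le]
          constructor <;> linarith) (fun n => (norm_alr_le α a (ρ k / a) n).trans (hAx n)) a ha'.1
        has
        (haX.trans ((le_exp_of_log (by linarith) he.lX).trans
          (he.leX0 (by linarith [he.n0, he.v0])))) (fun n hn => (alr_ne hn).1) δ e A hz.δp hz.δs
        hz.ep hz.Ap V B0
        (Real.sqrt V) hV0 hB00 (Real.sqrt_nonneg V)
        ((le_exp_of_log (by linarith) he.lX).trans (he.leX0 (by linarith [he.n0, he.v0]))) (by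
          have hV2 : V ≤ Real.exp (Lv + e₀) := le_exp_of_log hV0 he.lV
          have hE2 := he.neA hz
          calc V * (nm (e * A) : ℝ) ^ 3 ≤ Real.exp (Lv + e₀) * Real.exp (2 * d) ^ 3 := by gcongr
            _ = Real.exp (Lv + e₀ + 6 * d) := by
              rw [← Real.exp_nat_mul, ← Real.exp_add]
              congr 1
              push_cast
              ring
            _ ≤ X0 := he.leX0 (by linarith [he.n0, he.v0])) (Tb V e A c l)
        (fun t ht => by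
          rw [mem_S (Real.sqrt_nonneg V)]
          exact ((mem_bk (Real.sqrt_nonneg V)).1 (mem_Tb.1 ht).1).1)
        (bk (X / nm y.1) u) u (fun B hB => by
          refine ⟨?_, bk_nm_ge hX'0 hB, bk_nm_le hX'0 hB⟩
          rw [mem_S (by linarith)]
          have h6 := ((mem_bk hX'0).1 hB).1
          exact ⟨h6.1.trans (div_le_self (by linarith) hz.n1), h6.2⟩) hex c hc
      rw [hy2]
      rw [hy1] at h2 ⊢
      refine h2.trans (le_of_eq ?_)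
      rw [hM1, hL1]
      ring)
  refine h1.trans ?_
  have hpol := polarL (c := 1) he hz hB0h ht hκ hsg h56 h32
  set G : ℝ := V ^ (-(1 : ℝ) / 3) / nm (e * A) with hG
  set Ge : ℝ := V ^ (-(1 : ℝ) / 3) / nm e with hGe
  have he0 : (0 : ℝ) < nm e := by linarith [hz.ne]
  have hG0 : 0 ≤ G := by positivity
  have hGe0 : 0 ≤ Ge := by positivity
  have hGG : G ≤ Ge := by
    refine div_le_div_of_nonneg_left (by positivity) he0 ?_
    rw [hz.nmeA]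
    exact le_mul_of_one_le_right he0.le hz.nA
  have hδ2 : (nm δ : ℝ) ≤ Real.exp d := le_exp_of_log hδ0 he.lδ
  have hPM : (Pz ^ (M' + 2))⁻¹ ≤ Ge * (Pz ^ M')⁻¹ := by
    have h2 : Pz ^ (-(1 : ℝ) / 3) ≤ V ^ (-(1 : ℝ) / 3) :=
      Real.rpow_le_rpow_of_nonpos hV0 hz.VP (by norm_num)
    have h3 : Pz⁻¹ ≤ V ^ (-(1 : ℝ) / 3) := by
      refine le_trans ?_ h2
      rw [← Real.rpow_neg_one]
      exact Real.rpow_le_rpow_of_exponent_le hP1 (by norm_num)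
    have h4 : Pz⁻¹ * Pz⁻¹ ≤ Ge := by
      rw [hGe, div_eq_mul_inv]
      exact mul_le_mul h3 (inv_anti₀ he0 hz.eP) (by positivity) (by positivity)
    calc (Pz ^ (M' + 2))⁻¹ = Pz⁻¹ * Pz⁻¹ * (Pz ^ M')⁻¹ := by
          rw [pow_add, mul_inv]
          field_simp
      _ ≤ _ := mul_le_mul_of_nonneg_right h4 (by positivity)
  have hWt : Real.exp (-t) ≤ 1 := Real.exp_le_one_iff.2 (by linarith)
  set Z1 : ℝ := pA * X0 ^ ε₁ * (1 + |t₀|) ^ A' * nm γ * (Bb * Real.exp (n + κ - t + 6 * d +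
    3 * e₀)) with hZ1
  set Z2 : ℝ := X0 ^ ε₁ * Ax ^ 2 * Real.exp (n + K - K / 36 + 7 * d + 2 * sg + 9 * e₀) with hZ2
  have hZ10 : 0 ≤ Z1 := by positivity
  have hZ20 : 0 ≤ Z2 := by positivity
  have p1 : Real.exp (-t) * (G * ((1 + |t₀|) ^ A' * pA * nm γ * (nm δ * Mn))) ≤
      Ge * ((CN + CJ) * Z1) := by
    have h2 : Real.exp (-t) * (nm δ * Ex) ≤ Real.exp (n + κ - t + 6 * d + 3 * e₀) := by
      calc Real.exp (-t) * (nm δ * Ex) ≤ Real.exp (-t) * (Real.exp d * Ex) := by gcongr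
        _ = _ := by
          rw [hEx, ← Real.exp_add, ← Real.exp_add]
          congr 1
          ring
    have h3 : Real.exp (-t) * (G * ((1 + |t₀|) ^ A' * pA * nm γ * (nm δ * Mn))) =
        G * ((CN + CJ) * (pA * X0 ^ ε₁ * (1 + |t₀|) ^ A' * nm γ *
          (Bb * (Real.exp (-t) * (nm δ * Ex))))) := by
      rw [hMn]; ring
    rw [h3, hZ1]
    refine mul_le_mul hGG ?_ (by positivity) hGe0
    refine mul_le_mul_of_nonneg_left ?_ (by positivity)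
    refine mul_le_mul_of_nonneg_left ?_ (by positivity)
    exact mul_le_mul_of_nonneg_left h2 hBb
  have p2 : Real.exp (-t) * (Real.exp (κ + e₀) ^ ((2 : ℝ) / 3) * G ^ 2 * M1) ≤
      Ge * (CT * Z2) := by
    calc Real.exp (-t) * (Real.exp (κ + e₀) ^ ((2 : ℝ) / 3) * G ^ 2 * M1)
        = CT * (X0 ^ ε₁ * Ax ^ 2) * (Real.exp (-t) * Real.exp (κ + e₀) ^ ((2 : ℝ) / 3) *
          G ^ 2 * L1) := by rw [hM1]; ring
      _ ≤ CT * (X0 ^ ε₁ * Ax ^ 2) * (G * Real.exp (n + K - K / 36 + 7 * d + 2 * sg +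
          9 * e₀)) := mul_le_mul_of_nonneg_left hpol (by positivity)
      _ = G * (CT * Z2) := by rw [hZ2]; ring
      _ ≤ _ := mul_le_mul_of_nonneg_right hGG (by positivity)
  have p3 : Real.exp (-t) * (Pz ^ (M' + 2))⁻¹ ≤ Ge * (Pz ^ M')⁻¹ := by
    refine le_trans ?_ hPM
    exact mul_le_of_le_one_left (by positivity) hWt
  have hPM0 : 0 ≤ (Pz ^ M')⁻¹ := by positivity
  clear_value Z1 Z2 Mn M1 L1 G Ge Ex
  exact fin_f hCQ hCK (by linarith) (by linarith) hCT hPM0 hGe0 hZ10 hZ20 (by positivity)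
    (by positivity) p1 p2 p3

end Crest.Agent.R017.RCl83
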