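import Crest.Agent.R017.RClX4_791
import Crest.Agent.R017.RClf_83

/-!
# Row 17, T.7, `l`-terms of the tail in the exceptional class (helper791), part 5

* `qlx_blk` : the inner sum over `(l, a)` of one block for `x = a - ζ b` (two flagged lists), from
  R2C / GaC / PLnF; principal part and polar sum kept
-/

set_option autoImplicit false
set_option linter.unusedVariables false
set_option maxHeartbeats 1600000

noncomputable section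

open Finset
open scoped ComplexConjugate Classical

namespace Crest.Agent.R017.RClX791

open Crest.Agent.R012 Crest.Agent.R012.Eis
open Crest.Agent.R012.LS2 (S mem_S)
open Crest.Agent.R012.Mob705 (pdiv mem_pdiv)
open Crest.Agent.R017.B770
open Crest.Agent.R017.Prov71
open Crest.Agent.R017.CM106 (CS FS)
open Crest.Agent.R017.FE47 (cx PU)
open Crest.Agent.R017.HP842 (pc sqc)
open Crest.Agent.R017.Leg381 (alf alF Pf LF LF_get)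
open Crest.Agent.R017.XRG106
open Crest.Agent.R017.X6C180 (IX dl' Sg GF om')
open Crest.Agent.R017.X6545 (TF Bd)
open Crest.Agent.R017.X6W180 (TF1 tf1_tf)
open Crest.Agent.R017.FlC502 (thd thd_nonneg thd_le_one)
open Crest.Agent.R017.Win813 (iA iA_nonneg WK)
open Crest.Agent.R017.RGw813 (T9)
open Crest.Agent.R017.H1401 (pb mem_pb WM HW DN)
open Crest.Agent.R017.MoF106
open Crest.Agent.R017.MoL106
open Crest.Agent.R017.RC106 (jmL kdd_all le_exp_of_log)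
open Crest.Agent.R017.QsO83 (bw bw_ne FS_bw)
open Crest.Agent.R017.E2440
open Crest.Agent.R017.E2sp579 (MH)
open Crest.Agent.R017.NPy739 (MNc opL opL_nonneg)
open Crest.Agent.R017.GKC739 (PTs)
open Crest.Agent.R017.QsJ401 (Sz CellN CellJ Nj R2C GaC QfOK PLnF FS_ps dbl_th dbl_thd)
open Crest.Agent.R017.MoCa83
open Crest.Agent.R017.RCl83 (EnvL EnvL.leX0 RadOK Qla alr_bw)
open Crest.Agent.R012.Div277 (tau dvs mem_dvs nm_le_of_dvd)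

/-- a difference of two flagged lists -/
def xd (P : DPar) (h : ℝ → ℝ) (z D0 : ℝ) (q : Eis) (ps ps' : List Pf) (ζ : ℂ) : Eis → ℂ :=
  fun m => sqc q (alF z D0 P h ps) m - ζ * sqc q (alF z D0 P h ps') m

lemma FS_sub {a b : Eis → ℂ} (ha : FS a) (hb : FS b) (ζ : ℂ) : FS (fun m => a m - ζ * b m) where
  fin := (ha.fin.union hb.fin).subset fun m hm => by
    by_contra h
    rw [Set.mem_union, not_or] at h
    apply hm
    have h1 : a m = 0 := by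
      by_contra h1
      exact h.1 h1
    have h2 : b m = 0 := by
      by_contra h2
      exact h.2 h2
    show a m - ζ * b m = 0
    rw [h1, h2]
    ring
  prim := fun m hm => by
    by_cases h1 : a m = 0
    · refine hb.prim m fun h2 => hm ?_
      rw [h1, h2]
      ring
    · exact ha.prim m h1

lemma xd_FS {h : ℝ → ℝ} {c₀ : ℝ} (hpu : PU h c₀) {P : DPar} (hP : P.OK) (z D0 : ℝ) (q : Eis)
    (ps ps' : List Pf) (ζ : ℂ) : FS (xd P h z D0 q ps ps' ζ) :=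
  FS_sub (FS_ps hpu hP q z D0 ps) (FS_ps hpu hP q z D0 ps') ζ

lemma xd_sqf {P : DPar} {h : ℝ → ℝ} {z D0 : ℝ} {q : Eis} {ps ps' : List Pf} {ζ : ℂ} {n : Eis}
    (hn : xd P h z D0 q ps ps' ζ n ≠ 0) : Squarefree n := by
  by_contra h0
  apply hn
  have h1 : ∀ α : Eis → ℂ, sqc q α n = 0 := by
    intro α
    unfold HP842.sqc
    rw [show HP842.Th q n = 0 from by
      by_contra h2
      exact h0 (Leg381.Th_ne_zero h2).1, zero_mul]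
  unfold xd
  rw [h1, h1]
  ring

/-- the dual kernel -/
def thu (Pw : ℕ) (H : ℝ) : ℝ → ℝ := fun y => min (y ^ (-(1 / 3) : ℝ)) (min 1 ((y * H) ^ Pw))

/-- the last step of `qlx_blk` -/
lemma fin_x5 {CQ CK Sf Pe w G1 G3 Ge Z1 Z3 CC Sl : ℝ} (hCQ : 1 ≤ CQ) (hCK : 0 ≤ CK)
    (hCC : 1 ≤ CC) (hZ3 : 0 ≤ Z3) (hGe : 0 ≤ Ge) (hZ1 : 0 ≤ Z1)
    (hPe : 0 ≤ Pe) (hw : 0 ≤ w) (p1 : w * G1 ≤ Ge * (CC * Z1)) (p3 : w * G3 ≤ Ge * Z3)
    (hSl : 0 ≤ Sl) :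
    CQ * (CK * Sf) ^ 2 * Pe * (w * (G1 + G3) + Sl) ≤
      (1 + CQ * CK ^ 2) * CC * Sf ^ 2 * Pe * (Ge * (Z1 + Z3) + Sl) := by
  have hx : 0 ≤ CQ * CK ^ 2 := by positivity
  have hCC0 : 0 ≤ CC := by linarith
  have p4 : w * (G1 + G3) + Sl ≤ CC * (Ge * (Z1 + Z3) + Sl) := by
    have a1 : Ge * Z3 ≤ CC * (Ge * Z3) := le_mul_of_one_le_left (by positivity) hCC
    have a2 : Sl ≤ CC * Sl := le_mul_of_one_le_left hSl hCC
    nlinarith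
  have h6 : 0 ≤ CC * (Ge * (Z1 + Z3) + Sl) := by positivity
  calc CQ * (CK * Sf) ^ 2 * Pe * (w * (G1 + G3) + Sl)
      = (CQ * CK ^ 2) * (Sf ^ 2 * Pe) * (w * (G1 + G3) + Sl) := by ring
    _ ≤ (CQ * CK ^ 2) * (Sf ^ 2 * Pe) * (CC * (Ge * (Z1 + Z3) + Sl)) :=
        mul_le_mul_of_nonneg_left p4 (by positivity)
    _ ≤ (1 + CQ * CK ^ 2) * (Sf ^ 2 * Pe) * (CC * (Ge * (Z1 + Z3) + Sl)) := by
        refine mul_le_mul_of_nonneg_right (mul_le_mul_of_nonneg_right (by linarith)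
          (by positivity)) h6
    _ = _ := by ring

/-- **one block of `l`, a difference of two flagged lists, from the pair lines** -/
theorem qlx_blk {h : ℝ → ℝ} {c₀ : ℝ} (hpu : PU h c₀) {R : ℝ} (hR0 : 0 ≤ R)
    (hR : ∀ u, cx h u ≠ 0 → |u| ≤ R) {μ : ℝ} (hμ : 0 ≤ μ) (r : ℕ) {ε ε₁ : ℝ} (hε : 0 < ε)
    (hε₁ : 0 < ε₁) (a₀ M' A' Pw : ℕ) (hA' : 2 * (r * μ) + 2 ≤ A') {C₂ : ℝ} (hC₂ : 1 ≤ C₂) :
    ∃ (k : ℕ) (C : ℝ), 1 ≤ C ∧ ∀ (F : ℝ → ℂ) (Sf : ℝ), TF1 F → Bd F k Sf → ∀ hh : ℝ, 0 ≤ hh →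
      ∀ Cφ η : ℝ, 0 ≤ Cφ → 0 < η → η ≤ 1 → ∀ φ : ℝ → ℝ, WK Cφ η A' φ → ∀ p ∈ T9, ∀ (t₀ : ℝ)
      (Pd : DPar) (hPd : Pd.OK) (Φ : ℝ → ℝ → List Pq → ℝ) (Qg : Eis → Prop)
      (Qf : Eis → Eis → Eis → Eis → Prop), R2C Pd h Qg Φ ε₁ C₂ → GaC Pd h Qg Φ ε₁ C₂ →
      ∀ (ps ps' : List Pf), ps.length = r → ps'.length = r → LF ps' = LF ps →
      (∀ x ∈ ps, 0 ≤ x.1.z) → (∀ x ∈ ps', 0 ≤ x.1.z) → ∀ z D0 : ℝ, 1 ≤ D0 →
      ∀ q : Eis, IsPrim q → ∀ ζ : ℂ, ‖ζ‖ ≤ 1 →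
      ∀ (e₀ Pz X V T X0 t : ℝ) (Λ : Finset Eis) (ρ : Eis → Eis) (W Kl B0 : Eis → ℝ),
      RadOK T Λ ρ → Λ.Nonempty → 1 ≤ T → T ≤ Pz → T ≤ X0 → 0 ≤ t →
      (∀ k ∈ Λ, 0 ≤ W k ∧ W k ≤ Real.exp (-t)) →
      (∀ k ∈ Λ, ∀ u : ℕ, ¬ ((2 : ℝ) ^ u / 2 < B0 k ∧ B0 k < (2 : ℝ) ^ u)) →
      (∀ n, bw φ p t₀ (xd Pd h z D0 q ps ps' ζ) n ≠ 0 → X / 2 < nm n ∧ (nm n : ℝ) ≤ X) →
      (∀ n, ‖bw φ p t₀ (xd Pd h z D0 q ps ps' ζ) n‖ ≤ Pz ^ a₀) →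
      D0 ^ r ≤ X0 → (nm q : ℝ) ≤ X0 → (∀ x ∈ ps, Real.exp x.1.z ≤ X0) →
      (∀ x ∈ ps', Real.exp x.1.z ≤ X0) →
      ∀ (δ e A : Eis) (y : Eis × Eis) (κ Lv d Bb : ℝ),
      (∀ k ∈ Λ, ∀ c ∈ C4, Sz Pz X V (Kl k) (Real.exp hh) δ e A c y) →
      (∀ c ∈ C4, QfOK e A c p Qf Qg) →
      (∀ k ∈ Λ, EnvL e₀ (ε / 3) Pz X V (Kl k) (B0 k) (Real.exp hh) X0 δ e (LF ps) κ Lv d) →
      Lv ≤ Real.log V → C ≤ e₀ → 0 ≤ Bb →
      PLnF Φ μ C (fun i => (ps.get i).1) (LF ps) κ Lv (17 * d + 8 * e₀) (2 * e₀) Bb →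
      PLnF Φ μ C (fun i => (ps'.get i).1) (LF ps) κ Lv (17 * d + 8 * e₀) (2 * e₀) Bb →
      ∀ (Ex : Eis → Eis → Eis → Eis → Eis → ℕ → ℝ), (∀ k a c j₂ B j, 0 ≤ Ex k a c j₂ B j) →
      (∀ k ∈ Λ, ∀ a ∈ (dvs (ρ k)).filter (fun a => ρ k / a ∣ δ), ∀ c ∈ C4,
        ∀ j₂ ∈ S (Real.sqrt V), 1 ≤ RR V e A c j₂ →
        MH (WM (RR V e A c j₂)) (fun n j g₂ g₃ d => DN n g₂ g₃ d ∧ (2 : ℝ) ^ j / 2 < nm d)
          (fun B τ d => ¬ Qf (e * A * j₂) B τ d)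
          (ag (alr (bw φ p t₀ (xd Pd h z D0 q ps ps' ζ)) a (ρ k / a)) δ y.1)
          (e * A * j₂) c y.2 (X / nm y.1) A'
          (Nj (Pz ^ (ε / 3 / 2)) (Real.exp hh) (X / nm y.1) V (Kl k) (B0 k) y.2 e A c j₂)
          (Ex k a c j₂)) →
      Qla (bw φ p t₀ (xd Pd h z D0 q ps ps' ζ)) Λ ρ W Kl V (GF (Fh F hh)) δ e y A ≤
        C * Sf ^ 2 * Pz ^ ε * (V ^ (-(1 : ℝ) / 3) / nm e *
          (Cφ ^ 2 * iA A' * (η * (η ^ A')⁻¹) * X0 ^ (2 * ε₁) * (1 + |t₀|) ^ A' * opL r D0 *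
            (Bb * Real.exp (LF ps + κ - t + 5 * d + 3 * e₀)) + (Pz ^ M')⁻¹) +
          Sla Λ ρ W Kl δ (fun k a => PrX Pz ε (Real.exp hh) (thu Pw (Real.exp hh))
            (thd (Real.exp hh)) V X (Kl k) (B0 k) e A y (Ex k a) +
            PTs (alr (bw φ p t₀ (xd Pd h z D0 q ps ps' ζ)) a (ρ k / a)) δ e V (Kl k) X (B0 k)
              y A)) := by
  obtain ⟨M, CQ, hCQ, HQ⟩ := Qla_X hε a₀ (M' + 2) (show (0 : ℝ) ≤ 4 ^ (Pw + 1) by positivity)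
  obtain ⟨k, CK, hCK, HK⟩ := kdd_all A' M Pw
  obtain ⟨CN, hCN, HN⟩ := cellsNxa hpu hR0 hR hμ r hε₁
  obtain ⟨CJ, hCJ, HJ⟩ := cellsJxa hpu hR0 hR hμ r hε₁
  have hCQK : 0 ≤ CQ * CK ^ 2 := by positivity
  set CC : ℝ := (CN + CJ) * C₂ with hCC
  have hCNJ : CN + CJ ≤ CC := le_mul_of_one_le_right (by linarith) hC₂
  have hCC1 : 1 ≤ CC := by linarith
  have hbig : CC ≤ (1 + CQ * CK ^ 2) * CC := le_mul_of_one_le_left (by linarith) (by linarith)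
  refine ⟨k, (1 + CQ * CK ^ 2) * CC, by linarith, ?_⟩
  intro F Sf hF hBF hh hhh Cφ η hCφ hη hη1 φ hφ p hp t₀ Pd hPd Φ Qg Qf H2 HG ps ps' hr hr' hLF hs
    hs' z D0 hD q hq ζ hζ e₀ Pz X V T X0 t Λ ρ W Kl B0 hΛ hne hT1 hTP hTX ht hW hB0 hwin hbP hDX
    hqX hsX hsX' δ e A y κ Lv d Bb hSz hQf hEnv hLv hCe hBb hln hln' Ex hEx0 hMH
  obtain ⟨k₀, hk₀⟩ := hne
  have h1C : (1 : Eis) ∈ C4 := mem_C4.mpr (Or.inl rfl)
  have hz := hSz k₀ hk₀ 1 h1C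
  have he := hEnv k₀ hk₀
  have hP0 := hz.P0
  have hP1 := hz.P1
  have e1 := he.e0
  have hd0 := he.d0
  have hX0p := he.X0
  have hV0 : 0 < V := by linarith [hz.V1]
  have hiA := iA_nonneg A'
  have hop := opL_nonneg r (show (0 : ℝ) ≤ D0 by linarith)
  have hT0 : 0 ≤ T := by linarith
  have hC₂0 : 0 ≤ C₂ := by linarith
  set pA : ℝ := Cφ ^ 2 * iA A' * (η * (η ^ A')⁻¹) with hpA
  have hpA0 : 0 ≤ pA := by positivity
  set Ex' : ℝ := Real.exp (LF ps + κ + 5 * d + 3 * e₀) with hEx'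
  set Mn : ℝ := CC * pA * X0 ^ (2 * ε₁) * (1 + |t₀|) ^ A' * opL r D0 * (Bb * Ex') with hMn
  have hMn0 : 0 ≤ Mn := by rw [hMn]; positivity
  have h𝒜 : ∀ a ∈ S T, IsPrim a ∧ Squarefree a ∧ (nm a : ℝ) ≤ T := fun a ha => by
    have := (mem_S hT0).1 ha
    exact ⟨this.2.1, this.2.2, this.1⟩
  have hmono : ∀ {C' : ℝ} {qs : List Pf}, C' ≤ (1 + CQ * CK ^ 2) * CC →
      PLnF Φ μ ((1 + CQ * CK ^ 2) * CC) (fun i => (qs.get i).1) (LF ps) κ Lv (17 * d + 8 * e₀)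
        (2 * e₀) Bb →
      PLnF Φ μ C' (fun i => (qs.get i).1) (LF ps) κ Lv (17 * d + 8 * e₀) (2 * e₀) Bb :=
    fun hC' H => ⟨fun s' W0 hW0 hR => H.r2 s' W0 hW0 fun k => (hR k).mono hC',
      fun s' W0 hW0 hR => H.ga s' W0 hW0 fun k => (hR k).mono hC'⟩
  have hCNb : CN ≤ (1 + CQ * CK ^ 2) * CC := by linarith
  have hCJb : CJ ≤ (1 + CQ * CK ^ 2) * CC := by linarith
  have h1 := HQ Pz A' (GF (Fh F hh)) (CK * Sf) (Real.exp hh) (thu Pw (Real.exp hh))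
    (thd (Real.exp hh)) (fun σ i y => om' σ F i y - om' σ F i (y * Real.exp hh))
    (fun σ hσ => HK F Sf hF hBF hh hhh σ hσ)
    (fun y _ => (min_le_right _ _).trans (min_le_left _ _)) (fun y _ => thd_le_one _ _)
    (dbl_th Pw (Real.exp_pos _).le) (dbl_thd Pw (Real.exp_pos _).le) X V (Real.exp (-t)) T Λ ρ W
    Kl B0 hΛ hT1 hTP hV0.le (Real.exp_pos _).le hW hB0 φ p t₀ (xd Pd h z D0 q ps ps' ζ)
    (xd_FS hpu hPd z D0 q ps ps' ζ) (fun n hn => xd_sqf (bw_ne hn)) hwin hbP δ e A y hSz Qf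
    (2 * d + e₀) Lv (by linarith) hLv Ex hEx0 hMH Mn hMn0
    (fun b hb hbs hbT hbδ c hc l u j hcl n hn => by
      obtain ⟨k, hk, hcell⟩ := hcl
      have h2 := HN C₂ hC₂ A' hA' Cφ η hCφ hη hη1 φ hφ p hp t₀ Pd hPd Φ Qg Qf H2 ps ps' hr hr' hLF
        hs hs' z D0 hD q hq e₀ (ε / 3) Pz X V (Kl k) (B0 k) (Real.exp hh) X0 T δ e A c b y κ Lv d
        Bb (by positivity) (hSz k hk c hc) (hQf c hc) (hEnv k hk) (by linarith) hDX hqX hsX hsX'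
        hBb hT1 hTX hb (hbT.trans hTX) (hmono hCNb hln) (hmono hCNb hln') ζ hζ (S T) h𝒜 l u j
        hcell n hn
      refine h2.trans ?_
      rw [hMn]
      have h3 : CN * C₂ ≤ CC := by
        rw [hCC]; nlinarith
      gcongr)
    (fun b hb hbs hbT hbδ c hc l u j hjm hcl => by
      obtain ⟨k, hk, hcell⟩ := hcl
      have h2 := HJ C₂ hC₂ A' hA' Cφ η hCφ hη hη1 φ hφ p hp t₀ Pd hPd Φ Qg Qf HG ps ps' hr hr' hLF
        hs hs' z D0 hD q hq e₀ (ε / 3) Pz X V (Kl k) (B0 k) (Real.exp hh) X0 T δ e A c b y κ Lv d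
        Bb (by positivity) (hSz k hk c hc) (hQf c hc) (hEnv k hk) (by linarith) hDX hqX hsX hsX'
        hBb hT1 hTX hb (hbT.trans hTX) (hmono hCJb hln) (hmono hCJb hln') ζ hζ (S T) h𝒜 l u j
        hjm hcell
      refine h2.trans ?_
      rw [hMn]
      have h3 : CJ * C₂ ≤ CC := by
        rw [hCC]; nlinarith
      gcongr)
  refine h1.trans ?_
  set G : ℝ := V ^ (-(1 : ℝ) / 3) / nm (e * A) with hG
  set Ge : ℝ := V ^ (-(1 : ℝ) / 3) / nm e with hGe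
  have he0 : (0 : ℝ) < nm e := by linarith [hz.ne]
  have hG0 : 0 ≤ G := by positivity
  have hGe0 : 0 ≤ Ge := by positivity
  have hGG : G ≤ Ge := by
    refine div_le_div_of_nonneg_left (by positivity) he0 ?_
    rw [hz.nmeA]
    exact le_mul_of_one_le_right he0.le hz.nA
  have hPM : (Pz ^ (M' + 2))⁻¹ ≤ Ge * (Pz ^ M')⁻¹ := by
    have h2 : Pz ^ (-(1 : ℝ) / 3) ≤ V ^ (-(1 : ℝ) / 3) :=
      Real.rpow_le_rpow_of_nonpos hV0 hz.VP (by norm_num)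
    have h3 : Pz⁻¹ ≤ V ^ (-(1 : ℝ) / 3) := by
      refine le_trans ?_ h2
      rw [← Real.rpow_neg_one]
      exact Real.rpow_le_rpow_of_exponent_le hP1 (by norm_num)
    have h4 : Pz⁻¹ * Pz⁻¹ ≤ Ge := by
      rw [hGe, div_eq_mul_inv]
      exact mul_le_mul h3 (inv_anti₀ he0 hz.eP) (by positivity) (by positivity)
    calc (Pz ^ (M' + 2))⁻¹ = Pz⁻¹ * Pz⁻¹ * (Pz ^ M')⁻¹ := by
          rw [pow_add, mul_inv]
          field_simp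
      _ ≤ _ := mul_le_mul_of_nonneg_right h4 (by positivity)
  have hWt : Real.exp (-t) ≤ 1 := Real.exp_le_one_iff.2 (by linarith)
  set Z1 : ℝ := pA * X0 ^ (2 * ε₁) * (1 + |t₀|) ^ A' * opL r D0 *
    (Bb * Real.exp (LF ps + κ - t + 5 * d + 3 * e₀)) with hZ1
  have hZ10 : 0 ≤ Z1 := by positivity
  have p1 : Real.exp (-t) * (G * Mn) ≤ Ge * (CC * Z1) := by
    have h2 : Real.exp (-t) * Ex' = Real.exp (LF ps + κ - t + 5 * d + 3 * e₀) := by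
      rw [hEx', ← Real.exp_add]
      congr 1
      ring
    have h3 : Real.exp (-t) * (G * Mn) = G * (CC * Z1) := by
      rw [hMn, hZ1, ← h2]; ring
    rw [h3]
    exact mul_le_mul_of_nonneg_right hGG (by positivity)
  have p3 : Real.exp (-t) * (Pz ^ (M' + 2))⁻¹ ≤ Ge * (Pz ^ M')⁻¹ := by
    refine le_trans ?_ hPM
    exact mul_le_of_le_one_left (by positivity) hWt
  have hPM0 : 0 ≤ (Pz ^ M')⁻¹ := by positivity
  have hSl : 0 ≤ Sla Λ ρ W Kl δ (fun k a => PrX Pz ε (Real.exp hh) (thu Pw (Real.exp hh))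
            (thd (Real.exp hh)) V X (Kl k) (B0 k) e A y (Ex k a) +
            PTs (alr (bw φ p t₀ (xd Pd h z D0 q ps ps' ζ)) a (ρ k / a)) δ e V (Kl k) X (B0 k)
              y A) :=
    Sla_nonneg (fun k hk => (hW k hk).1) (fun k hk => (hSz k hk 1 h1C).K0.le) fun k hk a _ =>
      add_nonneg (PrX_nonneg (hSz k hk 1 h1C).K0.le fun c j₂ B j => hEx0 k a c j₂ B j)
        (PTs_nonneg (hSz k hk 1 h1C).K0.le)
  clear_value Z1 Mn G Ge Ex' CC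
  exact fin_x5 hCQ hCK hCC1 hPM0 hGe0 hZ10 (by positivity) (by positivity) p1 p3 hSl

end Crest.Agent.R017.RClX791
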