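import Crest.Agent.R017.RClX5_791

/-!
# Row 17, T.7, `l`-terms of the tail in the exceptional class (helper791), part 6

* `cells_blk` : both cell hypotheses of `Qla_X` for one block of `l`, `x = a - ζ b`, from
  R2C / GaC / PLnF
-/

set_option autoImplicit false
set_option linter.unusedVariables false
set_option maxHeartbeats 1600000

noncomputable section

open Finset
open scoped ComplexConjugate Classical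

namespace Crest.Agent.R017.RClX791

open Crest.Agent.R012 Crest.Agent.R012.Eis
open Crest.Agent.R012.LS2 (S mem_S)
open Crest.Agent.R017.B770
open Crest.Agent.R017.Prov71
open Crest.Agent.R017.CM106 (CS FS)
open Crest.Agent.R017.FE47 (cx PU)
open Crest.Agent.R017.HP842 (pc sqc)
open Crest.Agent.R017.Leg381 (alf alF Pf LF LF_get)
open Crest.Agent.R017.XRG106
open Crest.Agent.R017.Win813 (iA iA_nonneg WK)
open Crest.Agent.R017.RGw813 (T9)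
open Crest.Agent.R017.MoF106
open Crest.Agent.R017.MoL106
open Crest.Agent.R017.RC106 (jmL)
open Crest.Agent.R017.E2440
open Crest.Agent.R017.NPy739 (MNc opL opL_nonneg)
open Crest.Agent.R017.QsJ401 (Sz CellN CellJ Nj R2C GaC QfOK PLnF FS_ps Tb)
open Crest.Agent.R017.MoCa83
open Crest.Agent.R017.RCl83 (EnvL EnvL.leX0 RadOK)
open Crest.Agent.R012.Div277 (tau dvs mem_dvs nm_le_of_dvd)

/-- the bound of the cells of one block -/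
def MnB (C Cφ η : ℝ) (A' : ℕ) (X0 ε₁ t₀ : ℝ) (r : ℕ) (D0 Bb n κ d e₀ : ℝ) : ℝ :=
  C * (Cφ ^ 2 * iA A' * (η * (η ^ A')⁻¹)) * X0 ^ (2 * ε₁) * (1 + |t₀|) ^ A' * opL r D0 *
    (Bb * Real.exp (n + κ + 5 * d + 3 * e₀))

lemma MnB_nonneg {C Cφ η : ℝ} {A' : ℕ} {X0 ε₁ t₀ : ℝ} {r : ℕ} {D0 Bb n κ d e₀ : ℝ} (hC : 0 ≤ C)
    (hη : 0 < η) (hX : 0 ≤ X0) (hD : 0 ≤ D0) (hB : 0 ≤ Bb) :
    0 ≤ MnB C Cφ η A' X0 ε₁ t₀ r D0 Bb n κ d e₀ := by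
  have hiA := iA_nonneg A'
  have hop := opL_nonneg r hD
  unfold MnB
  positivity

/-- **the two cell hypotheses of `Qla_X` for one block of `l`**, a difference of two flagged lists,
from the pair lines -/
theorem cells_blk {h : ℝ → ℝ} {c₀ : ℝ} (hpu : PU h c₀) {R : ℝ} (hR0 : 0 ≤ R)
    (hR : ∀ u, cx h u ≠ 0 → |u| ≤ R) {μ : ℝ} (hμ : 0 ≤ μ) (r : ℕ) {ε ε₁ : ℝ} (hε : 0 < ε)
    (hε₁ : 0 < ε₁) (A' : ℕ) (hA' : 2 * (r * μ) + 2 ≤ A') {C₂ : ℝ} (hC₂ : 1 ≤ C₂) :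
    ∃ C : ℝ, 1 ≤ C ∧ ∀ Cφ η : ℝ, 0 ≤ Cφ → 0 < η → η ≤ 1 → ∀ φ : ℝ → ℝ, WK Cφ η A' φ →
      ∀ p ∈ T9, ∀ (t₀ : ℝ) (Pd : DPar) (_ : Pd.OK) (Φ : ℝ → ℝ → List Pq → ℝ) (Qg : Eis → Prop)
      (Qf : Eis → Eis → Eis → Eis → Prop), R2C Pd h Qg Φ ε₁ C₂ → GaC Pd h Qg Φ ε₁ C₂ →
      ∀ (ps ps' : List Pf), ps.length = r → ps'.length = r → LF ps' = LF ps →
      (∀ x ∈ ps, 0 ≤ x.1.z) → (∀ x ∈ ps', 0 ≤ x.1.z) → ∀ z D0 : ℝ, 1 ≤ D0 →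
      ∀ q : Eis, IsPrim q → ∀ ζ : ℂ, ‖ζ‖ ≤ 1 →
      ∀ (e₀ Pz X V H T X0 : ℝ) (Λ : Finset Eis) (Kl B0 : Eis → ℝ), 1 ≤ T → T ≤ X0 →
      D0 ^ r ≤ X0 → (nm q : ℝ) ≤ X0 → (∀ x ∈ ps, Real.exp x.1.z ≤ X0) →
      (∀ x ∈ ps', Real.exp x.1.z ≤ X0) →
      ∀ (δ e A : Eis) (y : Eis × Eis) (κ Lv d Bb : ℝ),
      (∀ k ∈ Λ, ∀ c ∈ C4, Sz Pz X V (Kl k) H δ e A c y) →
      (∀ c ∈ C4, QfOK e A c p Qf Qg) →
      (∀ k ∈ Λ, EnvL e₀ (ε / 3) Pz X V (Kl k) (B0 k) H X0 δ e (LF ps) κ Lv d) →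
      C ≤ e₀ → 0 ≤ Bb →
      PLnF Φ μ C (fun i => (ps.get i).1) (LF ps) κ Lv (17 * d + 8 * e₀) (2 * e₀) Bb →
      PLnF Φ μ C (fun i => (ps'.get i).1) (LF ps) κ Lv (17 * d + 8 * e₀) (2 * e₀) Bb →
      (∀ b, IsPrim b → Squarefree b → (nm b : ℝ) ≤ T → b ∣ δ → ∀ c ∈ C4, ∀ l u j,
        (∃ k ∈ Λ, CellN (Pz ^ (ε / 3 / 2)) H (X / nm y.1) V (Kl k) (B0 k) y.2 e A c
          (jmL (2 * d + e₀) Lv l) l u j) → ∀ n ∈ dvs y.2,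
        (2 / 2 ^ j : ℝ) * ((nm n : ℝ) * ∑ a ∈ S T, ∑ j₂ ∈ Tb V e A c l, ∑ B ∈ bk (X / nm y.1) u,
          MNc A' V e A c (X / nm y.1) Qf δ y.1 φ p t₀ j₂ B j n
            (alr (xd Pd h z D0 q ps ps' ζ) a b)) ≤
          MnB C Cφ η A' X0 ε₁ t₀ r D0 Bb (LF ps) κ d e₀) ∧
      (∀ b, IsPrim b → Squarefree b → (nm b : ℝ) ≤ T → b ∣ δ → ∀ c ∈ C4, ∀ l u j,
        jmL (2 * d + e₀) Lv l u j →
        (∃ k ∈ Λ, CellJ (Pz ^ (ε / 3 / 2)) H (X / nm y.1) V (Kl k) (B0 k) y.2 e A c l u j) →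
        (2 / 2 ^ j : ℝ) * (2 / 2 ^ u) * ∑ a ∈ S T, ∑ j₂ ∈ Tb V e A c l,
          FJm A' V e A c (X / nm y.1) Qf y.2 δ y.1 φ p t₀ j₂ u j
            (alr (xd Pd h z D0 q ps ps' ζ) a b) ≤
          MnB C Cφ η A' X0 ε₁ t₀ r D0 Bb (LF ps) κ d e₀) := by
  obtain ⟨CN, hCN, HN⟩ := cellsNxa hpu hR0 hR hμ r hε₁
  obtain ⟨CJ, hCJ, HJ⟩ := cellsJxa hpu hR0 hR hμ r hε₁
  have hC₂0 : 0 ≤ C₂ := by linarith
  refine ⟨(CN + CJ) * C₂, by nlinarith, ?_⟩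
  intro Cφ η hCφ hη hη1 φ hφ p hp t₀ Pd hPd Φ Qg Qf H2 HG ps ps' hr hr' hLF hs hs' z D0 hD q hq ζ
    hζ e₀ Pz X V H T X0 Λ Kl B0 hT1 hTX hDX hqX hsX hsX' δ e A y κ Lv d Bb hSz hQf hEnv hCe hBb
    hln hln'
  have hT0 : 0 ≤ T := by linarith
  have hX0p : 0 < X0 := by linarith
  have hiA := iA_nonneg A'
  have hop := opL_nonneg r (show (0 : ℝ) ≤ D0 by linarith)
  have h𝒜 : ∀ a ∈ S T, IsPrim a ∧ Squarefree a ∧ (nm a : ℝ) ≤ T := fun a ha => by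
    have := (mem_S hT0).1 ha
    exact ⟨this.2.1, this.2.2, this.1⟩
  have hmono : ∀ {C' : ℝ} {qs : List Pf}, C' ≤ (CN + CJ) * C₂ →
      PLnF Φ μ ((CN + CJ) * C₂) (fun i => (qs.get i).1) (LF ps) κ Lv (17 * d + 8 * e₀)
        (2 * e₀) Bb →
      PLnF Φ μ C' (fun i => (qs.get i).1) (LF ps) κ Lv (17 * d + 8 * e₀) (2 * e₀) Bb :=
    fun hC' H => ⟨fun s' W0 hW0 hR => H.r2 s' W0 hW0 fun k => (hR k).mono hC',
      fun s' W0 hW0 hR => H.ga s' W0 hW0 fun k => (hR k).mono hC'⟩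
  have hCNb : CN ≤ (CN + CJ) * C₂ := by nlinarith
  have hCJb : CJ ≤ (CN + CJ) * C₂ := by nlinarith
  constructor
  · intro b hb hbs hbT hbδ c hc l u j hcl n hn
    obtain ⟨k, hk, hcell⟩ := hcl
    have h2 := HN C₂ hC₂ A' hA' Cφ η hCφ hη hη1 φ hφ p hp t₀ Pd hPd Φ Qg Qf H2 ps ps' hr hr' hLF
      hs hs' z D0 hD q hq e₀ (ε / 3) Pz X V (Kl k) (B0 k) H X0 T δ e A c b y κ Lv d
      Bb (by positivity) (hSz k hk c hc) (hQf c hc) (hEnv k hk) (by linarith) hDX hqX hsX hsX'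
      hBb hT1 hTX hb (hbT.trans hTX) (hmono hCNb hln) (hmono hCNb hln') ζ hζ (S T) h𝒜 l u j
      hcell n hn
    refine h2.trans ?_
    unfold MnB
    have h3 : CN * C₂ ≤ (CN + CJ) * C₂ := by nlinarith
    gcongr
  · intro b hb hbs hbT hbδ c hc l u j hjm hcl
    obtain ⟨k, hk, hcell⟩ := hcl
    have h2 := HJ C₂ hC₂ A' hA' Cφ η hCφ hη hη1 φ hφ p hp t₀ Pd hPd Φ Qg Qf HG ps ps' hr hr' hLF
      hs hs' z D0 hD q hq e₀ (ε / 3) Pz X V (Kl k) (B0 k) H X0 T δ e A c b y κ Lv d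
      Bb (by positivity) (hSz k hk c hc) (hQf c hc) (hEnv k hk) (by linarith) hDX hqX hsX hsX'
      hBb hT1 hTX hb (hbT.trans hTX) (hmono hCJb hln) (hmono hCJb hln') ζ hζ (S T) h𝒜 l u j
      hjm hcell
    refine h2.trans ?_
    unfold MnB
    have h3 : CJ * C₂ ≤ (CN + CJ) * C₂ := by nlinarith
    gcongr

end Crest.Agent.R017.RClX791
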