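import Crest.Agent.R017.RClX6_791
import Crest.Agent.R017.RCXg_385
import Crest.Agent.R017.QsJq_401

/-!
# Row 17, T.7, `l`-terms of the tail in the exceptional class (helper791), part 7

* `B0X` : the crossing of one block, no power of two in the gap
* `cells_blkU` : `cells_blk`, uniform in `A'`
* `cells_xsL` : the cell hypotheses of `Qla_X` for `xs` at every level and every block of `l`
  (model: helper385's `cells_xs`)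
-/

set_option autoImplicit false
set_option linter.unusedVariables false
set_option maxHeartbeats 1600000

noncomputable section

open Finset
open scoped ComplexConjugate Classical

namespace Crest.Agent.R017.RClX791

open Crest.Agent.R012 Crest.Agent.R012.Eis
open Crest.Agent.R012.T411 (NCube)
open Crest.Agent.R012.LS2 (S mem_S)
open Crest.Agent.R012.Mob705 (pdiv mem_pdiv)
open Crest.Agent.R017.B770
open Crest.Agent.R017.Prov71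
open Crest.Agent.R017.CM106 (CS FS)
open Crest.Agent.R017.FE47 (cx PU)
open Crest.Agent.R017.HP842 (pc sqc)
open Crest.Agent.R017.Leg381 (alf alF Pf LF LF_get)
open Crest.Agent.R017.XRG106
open Crest.Agent.R017.Win813 (iA iA_nonneg WK)
open Crest.Agent.R017.RGw813 (T9)
open Crest.Agent.R017.MoF106
open Crest.Agent.R017.MoL106
open Crest.Agent.R017.RC106 (jmL)
open Crest.Agent.R017.E2440
open Crest.Agent.R017.NPy739 (MNc opL opL_nonneg)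
open Crest.Agent.R017.QsJ401 (Sz CellN CellJ Nj R2C GaC QfOK PLnF FS_ps Tb QE qfOK_E)
open Crest.Agent.R017.MoCa83
open Crest.Agent.R017.RCl83 (EnvL EnvL.leX0 RadOK)
open Crest.Agent.R012.Div277 (tau dvs mem_dvs nm_le_of_dvd)
open Crest.Agent.R017.RQd385 (PM2Q PM2Q_mono)
open Crest.Agent.R017.RG64 (LF_nonneg)
open Crest.Agent.R017.RX298 (xs zt norm_zt rp LF_rp rp_length Lg2)
open Crest.Agent.R017.RCX385 (kfl kfl_mono kfl_le le_kfl r2C_E gaC_E plnF_mono z_le_LF z_rp)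

/-! ### the crossing -/

/-- the crossing of one block: a power of two, or `1 / 2` -/
def B0X (A : ℝ) : ℝ := if 0 ≤ A then 2 ^ kfl A else 1 / 2

lemma B0X_half (A : ℝ) : 1 / 2 ≤ B0X A := by
  unfold B0X
  split_ifs
  · have : (1 : ℝ) ≤ 2 ^ kfl A := one_le_pow₀ (by norm_num)
    linarith
  · exact le_rfl

lemma B0X_pos (A : ℝ) : 0 < B0X A := by linarith [B0X_half A]

lemma B0X_mono {A A' : ℝ} (h : A ≤ A') : B0X A ≤ B0X A' := by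
  by_cases h0 : 0 ≤ A
  · have h1 : 0 ≤ A' := h0.trans h
    unfold B0X
    rw [if_pos h0, if_pos h1]
    exact pow_le_pow_right₀ (by norm_num) (kfl_mono h)
  · rw [show B0X A = 1 / 2 by unfold B0X; rw [if_neg h0]]
    exact B0X_half A'

lemma B0X_gap (A : ℝ) (u : ℕ) : ¬ ((2 : ℝ) ^ u / 2 < B0X A ∧ B0X A < (2 : ℝ) ^ u) := by
  rintro ⟨h1, h2⟩
  unfold B0X at h1 h2
  split_ifs at h1 h2 with h
  · have h3 : kfl A < u := (pow_lt_pow_iff_right₀ (by norm_num)).1 h2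
    have h4 : (2 : ℝ) ^ (kfl A + 1) ≤ 2 ^ u := pow_le_pow_right₀ (by norm_num) h3
    rw [pow_succ] at h4
    linarith
  · have h5 : (1 : ℝ) ≤ 2 ^ u := one_le_pow₀ (by norm_num)
    linarith

lemma B0X_up {A e₀ : ℝ} (he : 0 ≤ e₀) : 3 * Real.log (B0X A) ≤ A + 3 * e₀ ∨ B0X A < 1 := by
  unfold B0X
  split_ifs with h
  · left
    rw [Real.log_pow]
    have := kfl_le h
    linarith
  · right
    norm_num

lemma B0X_lo {A e₀ : ℝ} (he : 1 ≤ e₀) : A ≤ 3 * Real.log (B0X A) + 3 * e₀ := by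
  unfold B0X
  split_ifs with h
  · rw [Real.log_pow]
    have := le_kfl A
    linarith
  · rw [show (1 / 2 : ℝ) = 2⁻¹ by norm_num, Real.log_inv]
    have := Real.log_two_lt_d9
    push Not at h
    linarith

/-- `exp (A / 3) ≤ e * B0X A` -/
lemma exp_le_B0X (A : ℝ) : Real.exp (A / 3) ≤ Real.exp 1 * B0X A := by
  have h1 := B0X_lo (A := A) (e₀ := 1) le_rfl
  rw [← Real.exp_log (B0X_pos A), ← Real.exp_add]
  exact Real.exp_le_exp.2 (by linarith)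

/-! ### the cells of one block -/

/-- `cells_blk`, the constant does not depend on `A'` -/
theorem cells_blkU {h : ℝ → ℝ} {c₀ : ℝ} (hpu : PU h c₀) {R : ℝ} (hR0 : 0 ≤ R)
    (hR : ∀ u, cx h u ≠ 0 → |u| ≤ R) {μ : ℝ} (hμ : 0 ≤ μ) (r : ℕ) {ε ε₁ : ℝ} (hε : 0 < ε)
    (hε₁ : 0 < ε₁) {C₂ C₃ : ℝ} (hC₂ : 1 ≤ C₂) (hC₃ : 1 ≤ C₃) :
    ∃ C : ℝ, 1 ≤ C ∧ ∀ A' : ℕ, 2 * (r * μ) + 2 ≤ A' →
      ∀ Cφ η : ℝ, 0 ≤ Cφ → 0 < η → η ≤ 1 → ∀ φ : ℝ → ℝ, WK Cφ η A' φ →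
      ∀ p ∈ T9, ∀ (t₀ : ℝ) (Pd : DPar) (_ : Pd.OK) (Φ : ℝ → ℝ → List Pq → ℝ) (Qg : Eis → Prop)
      (Qf : Eis → Eis → Eis → Eis → Prop), R2C Pd h Qg Φ ε₁ C₂ → GaC Pd h Qg Φ ε₁ C₃ →
      ∀ (ps ps' : List Pf), ps.length = r → ps'.length = r → LF ps' = LF ps →
      (∀ x ∈ ps, 0 ≤ x.1.z) → (∀ x ∈ ps', 0 ≤ x.1.z) → ∀ z D0 : ℝ, 1 ≤ D0 →
      ∀ q : Eis, IsPrim q → ∀ ζ : ℂ, ‖ζ‖ ≤ 1 →
      ∀ (e₀ Pz X V H T X0 : ℝ) (Λ : Finset Eis) (Kl B0 : Eis → ℝ), 1 ≤ T → T ≤ X0 →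
      D0 ^ r ≤ X0 → (nm q : ℝ) ≤ X0 → (∀ x ∈ ps, Real.exp x.1.z ≤ X0) →
      (∀ x ∈ ps', Real.exp x.1.z ≤ X0) →
      ∀ (δ e A : Eis) (y : Eis × Eis) (κ Lv d Bb : ℝ),
      (∀ k ∈ Λ, ∀ c ∈ C4, Sz Pz X V (Kl k) H δ e A c y) →
      (∀ c ∈ C4, QfOK e A c p Qf Qg) →
      (∀ k ∈ Λ, EnvL e₀ (ε / 3) Pz X V (Kl k) (B0 k) H X0 δ e (LF ps) κ Lv d) →
      C ≤ e₀ → 0 ≤ Bb →
      PLnF Φ μ C (fun i => (ps.get i).1) (LF ps) κ Lv (17 * d + 8 * e₀) (2 * e₀) Bb →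
      PLnF Φ μ C (fun i => (ps'.get i).1) (LF ps) κ Lv (17 * d + 8 * e₀) (2 * e₀) Bb →
      (∀ b, IsPrim b → Squarefree b → (nm b : ℝ) ≤ T → b ∣ δ → ∀ c ∈ C4, ∀ l u j,
        (∃ k ∈ Λ, CellN (Pz ^ (ε / 3 / 2)) H (X / nm y.1) V (Kl k) (B0 k) y.2 e A c
          (jmL (2 * d + e₀) Lv l) l u j) → ∀ n ∈ dvs y.2,
        (2 / 2 ^ j : ℝ) * ((nm n : ℝ) * ∑ a ∈ S T, ∑ j₂ ∈ Tb V e A c l, ∑ B ∈ bk (X / nm y.1) u,
          MNc A' V e A c (X / nm y.1) Qf δ y.1 φ p t₀ j₂ B j n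
            (alr (xd Pd h z D0 q ps ps' ζ) a b)) ≤
          MnB C Cφ η A' X0 ε₁ t₀ r D0 Bb (LF ps) κ d e₀) ∧
      (∀ b, IsPrim b → Squarefree b → (nm b : ℝ) ≤ T → b ∣ δ → ∀ c ∈ C4, ∀ l u j,
        jmL (2 * d + e₀) Lv l u j →
        (∃ k ∈ Λ, CellJ (Pz ^ (ε / 3 / 2)) H (X / nm y.1) V (Kl k) (B0 k) y.2 e A c l u j) →
        (2 / 2 ^ j : ℝ) * (2 / 2 ^ u) * ∑ a ∈ S T, ∑ j₂ ∈ Tb V e A c l,
          FJm A' V e A c (X / nm y.1) Qf y.2 δ y.1 φ p t₀ j₂ u j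
            (alr (xd Pd h z D0 q ps ps' ζ) a b) ≤
          MnB C Cφ η A' X0 ε₁ t₀ r D0 Bb (LF ps) κ d e₀) := by
  obtain ⟨CN, hCN, HN⟩ := cellsNxa hpu hR0 hR hμ r hε₁
  obtain ⟨CJ, hCJ, HJ⟩ := cellsJxa hpu hR0 hR hμ r hε₁
  have hC₂0 : 0 ≤ C₂ := by linarith
  have hC₃0 : 0 ≤ C₃ := by linarith
  have a1 : CN ≤ CN * C₂ := le_mul_of_one_le_right (by linarith) hC₂
  have a2 : CJ ≤ CJ * C₃ := le_mul_of_one_le_right (by linarith) hC₃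
  refine ⟨CN * C₂ + CJ * C₃, by linarith, ?_⟩
  intro A' hA' Cφ η hCφ hη hη1 φ hφ p hp t₀ Pd hPd Φ Qg Qf H2 HG ps ps' hr hr' hLF hs hs' z D0 hD
    q hq ζ hζ e₀ Pz X V H T X0 Λ Kl B0 hT1 hTX hDX hqX hsX hsX' δ e A y κ Lv d Bb hSz hQf hEnv hCe
    hBb hln hln'
  have hT0 : 0 ≤ T := by linarith
  have hX0p : 0 < X0 := by linarith
  have hiA := iA_nonneg A'
  have hop := opL_nonneg r (show (0 : ℝ) ≤ D0 by linarith)
  have h𝒜 : ∀ a ∈ S T, IsPrim a ∧ Squarefree a ∧ (nm a : ℝ) ≤ T := fun a ha => by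
    have := (mem_S hT0).1 ha
    exact ⟨this.2.1, this.2.2, this.1⟩
  have hmono : ∀ {C' : ℝ} {qs : List Pf}, C' ≤ CN * C₂ + CJ * C₃ →
      PLnF Φ μ (CN * C₂ + CJ * C₃) (fun i => (qs.get i).1) (LF ps) κ Lv (17 * d + 8 * e₀)
        (2 * e₀) Bb →
      PLnF Φ μ C' (fun i => (qs.get i).1) (LF ps) κ Lv (17 * d + 8 * e₀) (2 * e₀) Bb :=
    fun hC' H => plnF_mono H hC'
  have hCNb : CN ≤ CN * C₂ + CJ * C₃ := by linarith
  have hCJb : CJ ≤ CN * C₂ + CJ * C₃ := by linarith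
  constructor
  · intro b hb hbs hbT hbδ c hc l u j hcl n hn
    obtain ⟨k, hk, hcell⟩ := hcl
    have h2 := HN C₂ hC₂ A' hA' Cφ η hCφ hη hη1 φ hφ p hp t₀ Pd hPd Φ Qg Qf H2 ps ps' hr hr' hLF
      hs hs' z D0 hD q hq e₀ (ε / 3) Pz X V (Kl k) (B0 k) H X0 T δ e A c b y κ Lv d
      Bb (by positivity) (hSz k hk c hc) (hQf c hc) (hEnv k hk) (by linarith) hDX hqX hsX hsX'
      hBb hT1 hTX hb (hbT.trans hTX) (hmono hCNb hln) (hmono hCNb hln') ζ hζ (S T) h𝒜 l u j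
      hcell n hn
    refine h2.trans ?_
    unfold MnB
    have h3 : CN * C₂ ≤ CN * C₂ + CJ * C₃ := by linarith
    gcongr
  · intro b hb hbs hbT hbδ c hc l u j hjm hcl
    obtain ⟨k, hk, hcell⟩ := hcl
    have h2 := HJ C₃ hC₃ A' hA' Cφ η hCφ hη hη1 φ hφ p hp t₀ Pd hPd Φ Qg Qf HG ps ps' hr hr' hLF
      hs hs' z D0 hD q hq e₀ (ε / 3) Pz X V (Kl k) (B0 k) H X0 T δ e A c b y κ Lv d
      Bb (by positivity) (hSz k hk c hc) (hQf c hc) (hEnv k hk) (by linarith) hDX hqX hsX hsX'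
      hBb hT1 hTX hb (hbT.trans hTX) (hmono hCJb hln) (hmono hCJb hln') ζ hζ (S T) h𝒜 l u j
      hjm hcell
    refine h2.trans ?_
    unfold MnB
    have h3 : CJ * C₃ ≤ CN * C₂ + CJ * C₃ := by linarith
    gcongr

lemma xs_eq_xd (q : Eis) (z D0 : ℝ) (P : DPar) (h : ℝ → ℝ) (d₀ : ℝ) (ps : List Pf) :
    xs q z D0 P h d₀ ps = xd P h z D0 q ps (rp d₀ ps) (zt d₀ ps) := rfl

/-- **the cell hypotheses of `Qla_X` for `xs`, at every level, for one block of `l`** -/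
theorem cells_xsL {h : ℝ → ℝ} {c₁ : ℝ} (hpu : PU h c₁) {μ : ℝ} (hμ : 0 ≤ μ) (Nl : ℕ) {ε ε₁ : ℝ}
    (hε : 0 < ε) (hε₁ : 0 < ε₁) :
    ∃ Cr : ℝ, 1 ≤ Cr ∧ ∀ (Jn : ℕ), 2 * (Nl * μ) + 2 ≤ Jn → ∀ (Cw η : ℝ), 0 ≤ Cw → 0 < η →
      η ≤ 1 / 2 → ∀ φ : ℝ → ℝ, WK Cw η Jn φ → ∀ p ∈ T9, ∀ (t₀ : ℝ) (PP : DPar) (_ : PP.OK)
      (ps : List Pf), ps.length ≤ Nl → (∀ x ∈ ps, 0 ≤ x.1.z) → ∀ (z D0 d₀ : ℝ), 1 ≤ D0 →
      0 ≤ d₀ → Lg2 d₀ ps → ∀ q : Eis, IsPrim q →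
      ∀ (e₀ P X' V H T X0 : ℝ) (Λ : Finset Eis) (Kl : Eis → ℝ), 1 ≤ T → T ≤ X0 → 1 ≤ V →
      ∀ (δ e A : Eis) (y : Eis × Eis) (K t Lv d Bd : ℝ),
      (∀ k ∈ Λ, ∀ c ∈ C4, Sz P X' V (Kl k) H δ e A c y) →
      0 ≤ Lv → 3 * Lv ≤ 2 * K → 0 ≤ t → -e₀ ≤ K - 3 * t → 0 ≤ d →
      Cr ≤ e₀ → 10 ≤ e₀ → RC106.k9 ≤ e₀ → Real.log X' ≤ LF ps + e₀ → Real.log V ≤ Lv + e₀ →
      (∀ k ∈ Λ, Real.log (Kl k) ≤ K - 3 * t + e₀ ∧ K - 3 * t ≤ Real.log (Kl k) + e₀) →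
      ε / 3 / 2 * Real.log P ≤ d →
      Real.log H ≤ 8 * d → Real.log (nm δ) ≤ d → Real.log (nm e) ≤ d →
      Lv + 2 * LF ps + 20 * d + 20 * e₀ ≤ Real.log X0 →
      (∀ r ≤ Nl, D0 ^ r ≤ X0) → (nm q : ℝ) ≤ X0 → 0 ≤ Bd →
      (∀ t₁, 0 ≤ t₁ → t₁ ≤ t → PLnF (PM2Q NCube PP h) μ Cr (fun i => (ps.get i).1) (LF ps)
        (K - 3 * t₁) Lv (17 * d + 10 * e₀) (2 * e₀) (Bd * Real.exp (4 * t₁))) →
      (∀ t₁, 0 ≤ t₁ → t₁ ≤ t → PLnF (PM2Q NCube PP h) μ Cr (fun i => ((rp d₀ ps).get i).1) (LF ps)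
        (K - 3 * t₁) Lv (17 * d + 10 * e₀) (2 * e₀) (Bd * Real.exp (4 * t₁))) →
      ∃ (B0 s₁ L' : ℝ), B0X (2 * (K - 3 * t) - Lv - LF ps) ≤ B0 ∧ 0 < B0 ∧
        (∀ u : ℕ, ¬ ((2 : ℝ) ^ u / 2 < B0 ∧ B0 < (2 : ℝ) ^ u)) ∧ 0 ≤ s₁ ∧ L' ≤ Real.log V ∧
        (∀ b, IsPrim b → Squarefree b → (nm b : ℝ) ≤ T → b ∣ δ → ∀ c ∈ C4, ∀ l u j,
          (∃ k ∈ Λ, CellN (P ^ (ε / 3 / 2)) H (X' / nm y.1) V (Kl k) B0 y.2 e A c
            (jmL s₁ L' l) l u j) → ∀ n ∈ dvs y.2,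
          (2 / 2 ^ j : ℝ) * ((nm n : ℝ) * ∑ a ∈ S T, ∑ j₂ ∈ Tb V e A c l,
            ∑ B ∈ bk (X' / nm y.1) u, MNc Jn V e A c (X' / nm y.1) (QE p) δ y.1 φ p t₀ j₂ B j n
              (alr (xs q z D0 PP h d₀ ps) a b)) ≤
            MnB Cr Cw η Jn X0 ε₁ t₀ ps.length D0 (Bd * Real.exp (4 * t) * Real.exp (2 * e₀))
              (LF ps) (K - 3 * t) d e₀) ∧
        (∀ b, IsPrim b → Squarefree b → (nm b : ℝ) ≤ T → b ∣ δ → ∀ c ∈ C4, ∀ l u j,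
          jmL s₁ L' l u j →
          (∃ k ∈ Λ, CellJ (P ^ (ε / 3 / 2)) H (X' / nm y.1) V (Kl k) B0 y.2 e A c l u j) →
          (2 / 2 ^ j : ℝ) * (2 / 2 ^ u) * ∑ a ∈ S T, ∑ j₂ ∈ Tb V e A c l,
            FJm Jn V e A c (X' / nm y.1) (QE p) y.2 δ y.1 φ p t₀ j₂ u j
              (alr (xs q z D0 PP h d₀ ps) a b) ≤
            MnB Cr Cw η Jn X0 ε₁ t₀ ps.length D0 (Bd * Real.exp (4 * t) * Real.exp (2 * e₀))
              (LF ps) (K - 3 * t) d e₀) := by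
  obtain ⟨Rh, hRh⟩ : Bump h := bump_of_cs hpu.cs
  have hRh' : ∀ u, cx h u ≠ 0 → |u| ≤ max Rh 0 := fun u hu => (hRh u hu).trans (le_max_left _ _)
  obtain ⟨C2, hC2, H2⟩ := r2C_E hε₁
  obtain ⟨C3, hC3, H3⟩ := gaC_E hε₁
  choose C hC HH using fun r : ℕ => cells_blkU hpu (le_max_right Rh 0) hRh' hμ r hε hε₁ hC2 hC3
  have hC0 : ∀ r ∈ Finset.range (Nl + 1), 0 ≤ C r := fun r _ => by linarith [hC r]
  refine ⟨∑ r ∈ Finset.range (Nl + 1), C r, ?_, ?_⟩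
  · exact (hC 0).trans (Finset.single_le_sum hC0 (Finset.mem_range.2 (by omega)))
  intro Jn hJn Cw η hCw hη hη1 φ hφ p hp t₀ PP hP ps hlen hz z D0 d₀ hD hd₀ hLg q hq e₀ P X' V
    H T X0 Λ Kl hT1 hTX hV1 δ e A y K t Lv d Bd hSz hLv h3 ht hKt hd hCe he10 hk9 hlX hlV hlK hlT
    hlH hlδ hle hlX0 hDX hqX hBd hln hln'
  have hX0 : 0 < X0 := by linarith
  have hCr : C ps.length ≤ ∑ r ∈ Finset.range (Nl + 1), C r :=
    Finset.single_le_sum hC0 (Finset.mem_range.2 (by omega))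
  have hCr0 : 0 ≤ C ps.length := by linarith [hC ps.length]
  have hlV0 : 0 ≤ Real.log V := Real.log_nonneg hV1
  have hn0 : 0 ≤ LF ps := LF_nonneg hz
  set L' : ℝ := min Lv (Real.log V) with hL'
  have hL'0 : 0 ≤ L' := le_min hLv hlV0
  have hL'L : L' ≤ Lv := min_le_left _ _
  have hL'V : L' ≤ Real.log V := min_le_right _ _
  have hlV' : Real.log V ≤ L' + e₀ := by
    rcases le_total Lv (Real.log V) with h0 | h0
    · rw [hL', min_eq_left h0]; exact hlV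
    · rw [hL', min_eq_right h0]; linarith
  have hmono : ∀ (l l' β : ℝ) (qs : List Pq), l ≤ l' →
      PM2Q NCube PP h l β qs ≤ PM2Q NCube PP h l' β qs :=
    fun l l' β qs hll => PM2Q_mono (fun _ hk => hk) hll le_rfl qs
  have down : ∀ {r' : ℕ} {s : Fin r' → Pq}, (∀ t₁, 0 ≤ t₁ → t₁ ≤ t →
      PLnF (PM2Q NCube PP h) μ (∑ r ∈ Finset.range (Nl + 1), C r) s (LF ps) (K - 3 * t₁) Lv
        (17 * d + 10 * e₀) (2 * e₀) (Bd * Real.exp (4 * t₁))) →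
      PLnF (PM2Q NCube PP h) μ (C ps.length) s (LF ps) (K - 3 * t) L' (17 * d + 8 * e₀) (2 * e₀)
        (Bd * Real.exp (4 * t) * Real.exp (2 * e₀)) := fun hh =>
    QsJ401.PLnF.downT hmono hBd (by linarith) (by linarith) (by linarith) hL'L (by linarith) ht
      fun t₁ h1 h2 => plnF_mono (hh t₁ h1 h2) hCr
  have hlr : (rp d₀ ps).length = ps.length := rp_length d₀ ps
  set A0 : ℝ := 2 * (K - 3 * t) - L' - LF ps with hA0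
  refine ⟨B0X A0, 2 * d + e₀, L', B0X_mono (by rw [hA0]; linarith), B0X_pos _, B0X_gap _,
    by linarith, hL'V, ?_⟩
  rcases Λ.eq_empty_or_nonempty with hΛ0 | hne
  · subst hΛ0
    exact ⟨fun b _ _ _ _ c _ l u j hcl => by obtain ⟨k, hk, _⟩ := hcl; simp at hk,
      fun b _ _ _ _ c _ l u j _ hcl => by obtain ⟨k, hk, _⟩ := hcl; simp at hk⟩
  obtain ⟨k₀, hk₀⟩ := hne
  have hEnv : ∀ k ∈ Λ, EnvL e₀ (ε / 3) P X' V (Kl k) (B0X A0) H X0 δ e (LF ps) (K - 3 * t) L' d :=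
    fun k hk =>
    { e0 := he10, k9 := hk9, d0 := hd, n0 := hn0, K0 := hKt, v0 := hL'0, lX := hlX, lV := hlV',
      lK := (hlK k hk).1, lK' := (hlK k hk).2, lT := hlT, lH := hlH, lδ := hlδ, le := hle,
      B1 := B0X_pos _,
      lB := B0X_up (by linarith), lB' := B0X_lo (by linarith),
      lX0 := by linarith
      X0 := hX0 }
  have hJn' : 2 * ((ps.length : ℝ) * μ) + 2 ≤ Jn := by
    have : (ps.length : ℝ) * μ ≤ Nl * μ :=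
      mul_le_mul_of_nonneg_right (by exact_mod_cast hlen) hμ
    linarith
  have hX1 : ∀ x : ℝ, x ≤ LF ps → Real.exp x ≤ X0 := by
    intro x hx
    rw [← Real.exp_log hX0]
    exact Real.exp_le_exp.2 (by linarith)
  have hQf : ∀ c ∈ C4, QfOK e A c p (QE p) NCube := fun c hc => by
    have hs := hSz k₀ hk₀ c hc
    exact qfOK_E hs.ep.ne_zero hs.Ap.ne_zero hc p
  have key := HH ps.length Jn hJn' Cw η hCw hη (by linarith) φ hφ p hp t₀ PP hP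
    (PM2Q NCube PP h) NCube (QE p) (H2 PP h) (H3 PP h) ps (rp d₀ ps) rfl
    hlr (LF_rp d₀ ps) hz (z_rp hd₀ hLg hz) z D0 hD q hq (zt d₀ ps) (norm_zt d₀ ps).le e₀ P X' V H T
    X0 Λ Kl (fun _ => B0X A0) hT1 hTX (hDX _ hlen) hqX
    (fun x hx => hX1 _ (z_le_LF hz x hx))
    (fun x hx => hX1 _ (by
      have := z_le_LF (z_rp hd₀ hLg hz) x hx
      rwa [LF_rp] at this)) δ e A y (K - 3 * t) L' d (Bd * Real.exp (4 * t) * Real.exp (2 * e₀))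
    hSz hQf hEnv (by linarith) (by positivity) (down hln) (down hln')
  have hiA := iA_nonneg Jn
  have hop := opL_nonneg ps.length (show (0 : ℝ) ≤ D0 by linarith)
  have hM : MnB (C ps.length) Cw η Jn X0 ε₁ t₀ ps.length D0
      (Bd * Real.exp (4 * t) * Real.exp (2 * e₀)) (LF ps) (K - 3 * t) d e₀ ≤
      MnB (∑ r ∈ Finset.range (Nl + 1), C r) Cw η Jn X0 ε₁ t₀ ps.length D0
      (Bd * Real.exp (4 * t) * Real.exp (2 * e₀)) (LF ps) (K - 3 * t) d e₀ := by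
    unfold MnB
    gcongr
  exact ⟨fun b hb hbs hbT hbδ c hc l u j hcl n hn =>
      (key.1 b hb hbs hbT hbδ c hc l u j hcl n hn).trans hM,
    fun b hb hbs hbT hbδ c hc l u j hjm hcl =>
      (key.2 b hb hbs hbT hbδ c hc l u j hjm hcl).trans hM⟩

end Crest.Agent.R017.RClX791
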