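import Crest.Agent.R017.RCla_83
import Crest.Agent.R017.QsJd_401
import Crest.Agent.R017.MoJd_401

/-!
# Row 17, E2, R-side of the `l`-terms of the tail of (LB) (helper83), part b

* `NC`, `JC` : the natural cells (hypotheses of 106's `MoC_list`, 401's `MoJC_list`)
* `cellN_sum`, `cellJ_sum` : the cell functionals of the restricted sequences, summed over `a`
-/

set_option autoImplicit false
set_option maxHeartbeats 400000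

noncomputable section

open Complex Finset
open scoped ComplexConjugate Classical

namespace Crest.Agent.R017.RCl83

open Crest.Agent.R012 Crest.Agent.R012.Eis Crest.Agent.R012.Gauss880
open Crest.Agent.R012.LS2 (S mem_S)
open Crest.Agent.R012.Div277 (tau dvs mem_dvs tau_le_rpow nm_le_of_dvd)
open Crest.Agent.R017.CM106 (CS FS)
open Crest.Agent.R017.HP842 (sqc pc)
open Crest.Agent.R017.FE47
open Crest.Agent.R017.B770 Crest.Agent.R017.Prov71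
open Crest.Agent.R017.TPOk571 (IP SD SD_w sd_ok)
open Crest.Agent.R017.X6C180 (IX dl')
open Crest.Agent.R017.H1401 (pb mem_pb WJ WM DN)
open Crest.Agent.R017.Win813 (iA iA_nonneg WK)
open Crest.Agent.R017.XRG106
open Crest.Agent.R017.MoF106
open Crest.Agent.R017.MoL106 (FromP Q4 mem_Q4 f4 MoC_list kw)
open Crest.Agent.R017.MoJ401 (MoJC MoJC_list PJ wJc)
open Crest.Agent.R017.E2440 (ag)
open Crest.Agent.R017.MoCa83

/-! ### natural cells -/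

/-- **a natural cell** (the hypothesis of `MoC_list`), `L` = length of the list -/
def NC (P : DPar) (h : ℝ → ℝ) {r : ℕ} (s : Fin r → Pq) (C μ : ℝ) (σ : Eis) (T : Finset Eis)
    (u : ℕ) (X Z : ℝ) (E g₀ : Eis) (Wb : ℕ → ℕ → ℝ)
    (Pr : IX σ → Eis → Eis → Eis → Prop) (L M : ℝ) : Prop :=
  ∀ v < NX X, ∀ w < NX X, 0 < Wb v w → ∀ i : IX σ, ∀ g₃ ∈ bk X w,
    ∀ (s' : Fin r → Pq) (W0 : ℝ), 1 ≤ W0 → (∀ k, Rl C W0 (s' k) (s k)) →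
    ∑ k, (s' k).z ≤ L - (Real.log (nm g₀) + ((u : ℝ) / 3 + v / 3 + w / 3)) + C →
    Wb v w * Real.exp ((w : ℝ) / 3) * ∑ x ∈ Q4 T X Z u v (fun _ _ => Pr i) g₃,
      ∏ k, ‖CS (pc h ((s' k).pc P)) (f4 E (dl' σ i) x)‖ ^ 2 ≤
    M * Real.exp (∑ k, (s' k).z - (L -
      (Real.log (nm g₀) + ((u : ℝ) / 3 + v / 3 + w / 3)))) * W0 ^ (2 * μ)

lemma NC.mono {P : DPar} {h : ℝ → ℝ} {r : ℕ} {s : Fin r → Pq} {C C' μ : ℝ} {σ : Eis}
    {T : Finset Eis} {u : ℕ} {X Z : ℝ} {E g₀ : Eis} {Wb : ℕ → ℕ → ℝ}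
    {Pr : IX σ → Eis → Eis → Eis → Prop} {L M : ℝ}
    (H : NC P h s C μ σ T u X Z E g₀ Wb Pr L M) (hC : C' ≤ C) :
    NC P h s C' μ σ T u X Z E g₀ Wb Pr L M := by
  intro v hv w hw hW i g₃ hg₃ s' W0 hW0 hR hle
  exact H v hv w hw hW i g₃ hg₃ s' W0 hW0 (fun k => (hR k).mono hC) (by linarith)

/-- the cell of `g₀ c` from the cell of `g₀` -/
lemma NC.step {P : DPar} {h : ℝ → ℝ} {r : ℕ} {s : Fin r → Pq} {C μ : ℝ} {σ : Eis}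
    {T : Finset Eis} {u : ℕ} {X Z : ℝ} {E g₀ : Eis} {Wb : ℕ → ℕ → ℝ}
    {Pr : IX σ → Eis → Eis → Eis → Prop} {L M : ℝ}
    (H : NC P h s C μ σ T u X Z E g₀ Wb Pr L M) (hg₀ : IsPrim g₀) {c : Eis} (hc : IsPrim c) :
    NC P h s C μ σ T u X Z E (g₀ * c) Wb Pr L (M / nm c) := by
  intro v hv w hw hW i g₃ hg₃ s' W0 hW0 hR hle
  have hc1 : (1 : ℝ) ≤ nm c := by exact_mod_cast nm_pos.2 hc.ne_zero
  have hg1 : (1 : ℝ) ≤ nm g₀ := by exact_mod_cast nm_pos.2 hg₀.ne_zero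
  have hlc : 0 ≤ Real.log (nm c) := Real.log_nonneg hc1
  have e1 : Real.log (nm (g₀ * c)) = Real.log (nm g₀) + Real.log (nm c) := by
    rw [nm_mul, Nat.cast_mul, Real.log_mul (by positivity) (by positivity)]
  rw [e1] at hle ⊢
  refine (H v hv w hw hW i g₃ hg₃ s' W0 hW0 hR (by linarith)).trans (le_of_eq ?_)
  congr 1
  have e2 : ∑ k, (s' k).z - (L - (Real.log (nm g₀) + Real.log (nm c) +
      ((u : ℝ) / 3 + v / 3 + w / 3))) = (∑ k, (s' k).z - (L - (Real.log (nm g₀) +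
      ((u : ℝ) / 3 + v / 3 + w / 3)))) + Real.log (nm c) := by ring
  rw [e2, Real.exp_add, Real.exp_log (by positivity)]
  have : (nm c : ℝ) ≠ 0 := by positivity
  field_simp

/-- **a natural joint cell** (the hypothesis of `MoJC_list`) -/
def JC (P : DPar) (h : ℝ → ℝ) {r : ℕ} (s : Fin r → Pq) (C μ : ℝ) (σ : Eis) (T : Finset Eis)
    (Bs : Eis → Finset Eis) (X Z Rr U : ℝ) (E g₀ δ ν : Eis) (L M : ℝ) : Prop :=
  ∀ n ∈ dvs ν, ∀ g ∈ S U, IsCoprime g δ →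
    ∀ u < NX X, ∀ v < NX X, ∀ w < NX X, Real.exp ((u : ℝ) / 3) * nm g ≤ U →
    U ≤ 2 * (Real.exp ((u : ℝ) / 3 + 1 / 3) * nm g) →
    (nm n : ℝ) ^ 3 * (Real.exp (2 * ((v : ℝ) / 3)) * Real.exp w) ≤ Z / nm g →
    ∀ i : IX σ, ∀ g₃ ∈ bk X w,
    ∀ (s' : Fin r → Pq) (W0 : ℝ), 1 ≤ W0 → (∀ k, Rl C W0 (s' k) (s k)) →
    ∑ k, (s' k).z ≤ L - (Real.log (nm (g₀ * g)) + ((u : ℝ) / 3 + v / 3 + w / 3)) + C →
    (nm n : ℝ) * nm g * wJc Rr (Z / (nm n : ℝ) ^ 3) U (nm g) (Real.exp ((v : ℝ) / 3)) *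
      Real.exp ((w : ℝ) / 3) *
      ∑ x ∈ Q4 T X (Z / nm g) u v (fun y B g₂ g₃ d => g * B ∈ Bs y ∧ PJ n g Z B g₂ g₃ d) g₃,
      ∏ k, ‖CS (pc h ((s' k).pc P)) (f4 E (dl' σ i) x)‖ ^ 2 ≤
    M * Real.exp (∑ k, (s' k).z - (L -
      (Real.log (nm (g₀ * g)) + ((u : ℝ) / 3 + v / 3 + w / 3)))) * W0 ^ (2 * μ)

lemma JC.mono {P : DPar} {h : ℝ → ℝ} {r : ℕ} {s : Fin r → Pq} {C C' μ : ℝ} {σ : Eis}
    {T : Finset Eis} {Bs : Eis → Finset Eis} {X Z Rr U : ℝ} {E g₀ δ ν : Eis} {L M : ℝ}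
    (H : JC P h s C μ σ T Bs X Z Rr U E g₀ δ ν L M) (hC : C' ≤ C) :
    JC P h s C' μ σ T Bs X Z Rr U E g₀ δ ν L M := by
  intro n hn g hg hgδ u hu v hv w hw a1 a2 a3 i g₃ hg₃ s' W0 hW0 hR hle
  exact H n hn g hg hgδ u hu v hv w hw a1 a2 a3 i g₃ hg₃ s' W0 hW0 (fun k => (hR k).mono hC)
    (by linarith)

lemma JC.step {P : DPar} {h : ℝ → ℝ} {r : ℕ} {s : Fin r → Pq} {C μ : ℝ} {σ : Eis}
    {T : Finset Eis} {Bs : Eis → Finset Eis} {X Z Rr U : ℝ} (hU : 0 ≤ U) {E g₀ δ ν : Eis}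
    {L M : ℝ} (H : JC P h s C μ σ T Bs X Z Rr U E g₀ δ ν L M) (hg₀ : IsPrim g₀) {c : Eis}
    (hc : IsPrim c) : JC P h s C μ σ T Bs X Z Rr U E (g₀ * c) δ ν L (M / nm c) := by
  intro n hn g hg hgδ u hu v hv w hw a1 a2 a3 i g₃ hg₃ s' W0 hW0 hR hle
  have hgp := ((mem_S hU).mp hg).2.1
  have hc1 : (1 : ℝ) ≤ nm c := by exact_mod_cast nm_pos.2 hc.ne_zero
  have hg1 : (1 : ℝ) ≤ nm (g₀ * g) := by exact_mod_cast nm_pos.2 (hg₀.mul hgp).ne_zero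
  have hlc : 0 ≤ Real.log (nm c) := Real.log_nonneg hc1
  have e1 : Real.log (nm (g₀ * c * g)) = Real.log (nm (g₀ * g)) + Real.log (nm c) := by
    have : g₀ * c * g = g₀ * g * c := by ring
    rw [this, nm_mul (g₀ * g), Nat.cast_mul, Real.log_mul (by positivity) (by positivity)]
  rw [e1] at hle ⊢
  refine (H n hn g hg hgδ u hu v hv w hw a1 a2 a3 i g₃ hg₃ s' W0 hW0 hR (by linarith)).trans
    (le_of_eq ?_)
  congr 1
  have e2 : ∑ k, (s' k).z - (L - (Real.log (nm (g₀ * g)) + Real.log (nm c) +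
      ((u : ℝ) / 3 + v / 3 + w / 3))) = (∑ k, (s' k).z - (L - (Real.log (nm (g₀ * g)) +
      ((u : ℝ) / 3 + v / 3 + w / 3)))) + Real.log (nm c) := by ring
  rw [e2, Real.exp_add, Real.exp_log (by positivity)]
  have : (nm c : ℝ) ≠ 0 := by positivity
  field_simp

/-- the sum over `c` -/
lemma sum_Sd_le {ε : ℝ} (hε : 0 < ε) : ∃ C : ℝ, 1 ≤ C ∧ ∀ (U X0 : ℝ) (δ : Eis), 1 ≤ U → U ≤ X0 →
    ∑ c ∈ Sd U δ, (1 / (nm c : ℝ)) ≤ C * X0 ^ ε := by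
  have hε1 : 0 < ε⁻¹ := by positivity
  refine ⟨100 * (1 + ε⁻¹), by linarith, ?_⟩
  intro U X0 δ hU hX0
  have h1 : ∑ c ∈ Sd U δ, (1 / (nm c : ℝ)) ≤ ∑ c ∈ S U, (1 / (nm c : ℝ)) :=
    Finset.sum_le_sum_of_subset_of_nonneg (Finset.filter_subset _ _) fun _ _ _ => by positivity
  refine (h1.trans (E1551.sum_inv_S551 hU)).trans ?_
  have hUp : 0 ≤ U := by linarith
  have h2 : Real.log U ≤ ε⁻¹ * U ^ ε := by
    have := Real.log_le_rpow_div hUp hε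
    rwa [div_eq_inv_mul] at this
  have h3 : U ^ ε ≤ X0 ^ ε := Real.rpow_le_rpow hUp hX0 hε.le
  have h4 : 1 ≤ X0 ^ ε := Real.one_le_rpow (hU.trans hX0) hε.le
  nlinarith

/-- the zero sequence -/
lemma MoC_zero {C η : ℝ} {A : ℕ} {σ E B : Eis} {X Z : ℝ} {W : Eis → Eis → ℝ}
    {P : IX σ → Eis → Eis → Eis → Prop} (δ g : Eis) :
    MoC C η A σ (ag (fun _ => (0 : ℂ)) δ g) E B X Z W P = 0 := by
  rw [ag_zero]
  unfold MoF106.MoC MoF106.MoI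
  simp only [MoP_zero, mul_zero, MeasureTheory.integral_zero, Finset.sum_const_zero]

/-- **the cell functional of the restricted sequences, summed over `a`** -/
theorem cellN_sum {h : ℝ → ℝ} {c : ℝ} (hpu : PU h c) {R : ℝ} (hR0 : 0 ≤ R)
    (hR : ∀ u, cx h u ≠ 0 → |u| ≤ R) {μ : ℝ} (hμ : 0 ≤ μ) (r : ℕ) (σ : Eis) {ε : ℝ}
    (hε : 0 < ε) :
    ∃ C : ℝ, 1 ≤ C ∧ ∀ (A' : ℕ), 2 * (r * μ) + 2 ≤ A' → ∀ (Cφ η : ℝ), 0 < η →
      ∀ (P : DPar) (hP : P.OK) (s : Fin r → Pq), (∀ i, 0 ≤ (s i).z) →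
      ∀ j : Fin r → IP, (∀ i, FromP hP (j i) (s i)) →
      ∀ (γ q g₀ δ E b : Eis), IsPrim γ → Squarefree γ → IsPrim g₀ → IsPrim q → IsPrim δ →
      IsPrim b →
      ∀ (T 𝒜 : Finset Eis) (u : ℕ) (X Z X0 U : ℝ), 1 ≤ X → 1 ≤ Z → 1 ≤ U → X ≤ X0 → U ≤ X0 →
      (nm γ : ℝ) ≤ X0 → (nm g₀ : ℝ) ≤ X0 → (nm q : ℝ) ≤ X0 → (nm δ : ℝ) ≤ X0 → (nm b : ℝ) ≤ X0 →
      (∀ i, Real.exp (s i).z ≤ X0) →
      (∀ a ∈ 𝒜, IsPrim a ∧ Squarefree a ∧ (nm a : ℝ) ≤ U) →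
      ∀ (W : Eis → Eis → ℝ) (Wb : ℕ → ℕ → ℝ),
      (∀ g₂ ∈ S X, ∀ g₃ ∈ S X, 0 ≤ W g₂ g₃) →
      (∀ v < NX X, ∀ w < NX X, ∀ g₂ ∈ bk X v, ∀ g₃ ∈ bk X w, W g₂ g₃ ≤ Wb v w) →
      (∀ v < NX X, ∀ w < NX X, 0 ≤ Wb v w) →
      ∀ (Pr : IX σ → Eis → Eis → Eis → Prop),
      (∀ i g₂ g₃ d, Pr i g₂ g₃ d → g₂ ^ 2 * g₃ ^ 3 ∣ d) → ∀ M : ℝ, 0 ≤ M →
      NC P h s C μ σ T u X Z E g₀ Wb Pr (∑ k, (j k).z + Real.log (nm γ)) M →
      ∑ a ∈ 𝒜, ∑ y ∈ T, ∑ B ∈ bk X u,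
        MoC Cφ η A' σ (ag (alr (dl γ (TP320.sq (q * γ) ((SD h μ r).w j))) a b) δ g₀)
          (E * y) B X Z W Pr ≤
        C * (Cφ ^ 2 * iA A' * (η * (η ^ A')⁻¹)) * X0 ^ ε * nm γ * M := by
  have hΦ := sd_ok hpu hR0 hR hμ r
  obtain ⟨C1, hC1, H⟩ := MoC_list hpu hR0 hR hμ r σ (show 0 < ε / 6 by linarith)
  obtain ⟨C2, hC2, hτ⟩ := tau_le_rpow (show 0 < ε / 12 by linarith)
  obtain ⟨C3, hC3, hS⟩ := sum_Sd_le (show 0 < ε / 3 by linarith)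
  have hCC : C1 ≤ C1 * C2 * C3 := by
    have h1 : 1 ≤ C2 * C3 := one_le_mul_of_one_le_of_one_le hC2 hC3
    have h2 : C1 * 1 ≤ C1 * (C2 * C3) := mul_le_mul_of_nonneg_left h1 (by linarith)
    linarith
  refine ⟨C1 * C2 * C3, hC1.trans hCC, ?_⟩
  intro A' hA' Cφ η hη P hP s hs j hj γ q g₀ δ E b hγ hγs hg₀ hq hδ hb T 𝒜 u X Z X0 U hX hZ hU hXX
    hUX hγX hgX hqX hδX hbX hsX h𝒜 W Wb hW hWb hWb0 Pr hPr M hM hNC
  have hA2 : 2 ≤ A' := by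
    have h1 : 0 ≤ (r : ℝ) * μ := by positivity
    have : (2 : ℝ) ≤ A' := by linarith
    exact_mod_cast this
  have hX0 : 0 ≤ X := by linarith
  have hU0 : 0 ≤ U := by linarith
  have hX01 : 1 ≤ X0 := by linarith
  have hX00 : 0 < X0 := by linarith
  have hγ1 : (1 : ℝ) ≤ nm γ := by exact_mod_cast nm_pos.2 hγ.ne_zero
  have hlγ : 0 ≤ Real.log (nm γ) := Real.log_nonneg hγ1
  have hAp : 0 ≤ Cφ ^ 2 * iA A' * (η * (η ^ A')⁻¹) := by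
    have := iA_nonneg A'; positivity
  have hC1' : 0 ≤ C1 := by linarith
  have hC2' : 0 ≤ C2 := by linarith
  have hC3' : 0 ≤ C3 := by linarith
  by_cases hγb : IsCoprime γ b
  swap
  · have e1 : ∀ a ∈ 𝒜, ∑ y ∈ T, ∑ B ∈ bk X u,
        MoC Cφ η A' σ (ag (alr (dl γ (TP320.sq (q * γ) ((SD h μ r).w j))) a b) δ g₀)
          (E * y) B X Z W Pr = 0 := by
      intro a _
      rw [alr_dl_zero hγb]
      exact Finset.sum_eq_zero fun y _ => Finset.sum_eq_zero fun B _ => MoC_zero δ g₀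
    rw [Finset.sum_eq_zero e1]
    positivity
  have hw1 : ∀ n, (SD h μ r).w j n ≠ 0 →
      (nm n : ℝ) ≤ Real.exp ((SD h μ r).len j + r * (2 * R + 3)) := by
    intro b hb
    have hb0 : (0 : ℝ) < nm b := by exact_mod_cast nm_pos.2 (hΦ.prim j b hb).ne_zero
    rw [← Real.log_le_iff_le_exp hb0]
    have := (abs_le.1 (hΦ.supp j b hb)).2
    linarith
  -- the divisor bound
  set Tm : ℝ := C2 * X0 ^ (ε / 3) with hTm
  have hT : ∀ B ∈ bk X u, ∀ g₂ ∈ S X, ∀ g₃ ∈ S X, (tau (g₀ * (B * (g₂ * g₃))) : ℝ) ≤ Tm := by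
    intro B hB g₂ h₂ g₃ h₃
    have hBS : B ∈ S X := (Finset.mem_filter.mp hB).1
    obtain ⟨b1, b2, -⟩ := (mem_S hX0).mp hBS
    obtain ⟨c1, c2, -⟩ := (mem_S hX0).mp h₂
    obtain ⟨d1, d2, -⟩ := (mem_S hX0).mp h₃
    have hn : (nm (g₀ * (B * (g₂ * g₃))) : ℝ) ≤ X0 ^ 4 := by
      rw [nm_mul, nm_mul, nm_mul]
      push_cast
      calc (nm g₀ : ℝ) * (nm B * (nm g₂ * nm g₃)) ≤ X0 * (X0 * (X0 * X0)) := by
            gcongr <;> linarith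
        _ = X0 ^ 4 := by ring
    refine (hτ _ (hg₀.mul (b2.mul (c2.mul d2))).ne_zero).trans ?_
    rw [hTm]
    refine mul_le_mul_of_nonneg_left ?_ hC2'
    calc (nm (g₀ * (B * (g₂ * g₃))) : ℝ) ^ (ε / 12) ≤ (X0 ^ 4) ^ (ε / 12) :=
          Real.rpow_le_rpow (Nat.cast_nonneg _) hn (by linarith)
      _ = X0 ^ (ε / 3) := by
          rw [← Real.rpow_natCast X0 4, ← Real.rpow_mul hX00.le]
          congr 1; push_cast; ring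
  have hTm0 : 0 ≤ Tm := by rw [hTm]; positivity
  -- the sum over `a`
  have step1 : ∑ a ∈ 𝒜, ∑ y ∈ T, ∑ B ∈ bk X u,
      MoC Cφ η A' σ (ag (alr (dl γ (TP320.sq (q * γ) ((SD h μ r).w j))) a b) δ g₀)
        (E * y) B X Z W Pr ≤ Tm * ∑ c' ∈ Sd U δ, ∑ y ∈ T, ∑ B ∈ bk X u,
      MoC Cφ η A' σ (aG γ (q * b) (g₀ * c') δ ((SD h μ r).w j)) (E * y) B X Z W Pr := by
    rw [sum_comm3 𝒜 T (fun _ => bk X u), sum_comm3 (Sd U δ) T (fun _ => bk X u), Finset.mul_sum]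
    refine Finset.sum_le_sum fun y _ => ?_
    rw [Finset.mul_sum]
    refine Finset.sum_le_sum fun B hB => ?_
    have hBS : B ∈ S X := (Finset.mem_filter.mp hB).1
    exact MoC_alr hη hA2 (Real.exp_pos _).le hw1 hX0 hγ hγs hγb hg₀ ((mem_S hX0).mp hBS).2.1 hU0 h𝒜
      hW (hT B hB)
  refine step1.trans ?_
  have e6 : (X0 ^ 2) ^ (ε / 6) = X0 ^ (ε / 3) := by
    rw [← Real.rpow_natCast X0 2, ← Real.rpow_mul hX00.le]
    congr 1; push_cast; ring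
  have hXle : X0 ≤ X0 ^ 2 := le_self_pow₀ hX01 (by norm_num)
  have step2 : ∀ c' ∈ Sd U δ, ∑ y ∈ T, ∑ B ∈ bk X u,
      MoC Cφ η A' σ (aG γ (q * b) (g₀ * c') δ ((SD h μ r).w j)) (E * y) B X Z W Pr ≤
      (C1 * (Cφ ^ 2 * iA A' * (η * (η ^ A')⁻¹)) * X0 ^ (ε / 3) * nm γ * M) * (1 / nm c') := by
    intro c' hc'
    obtain ⟨c1, c2, -⟩ := (mem_S hU0).mp (Finset.mem_filter.mp hc').1
    have h1 := (hNC.mono hCC).step hg₀ c2
    have h2 := H A' hA' Cφ η hη P hP s hs j hj γ (q * b) (g₀ * c') δ E hγ hγs (hg₀.mul c2)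
      (hq.mul hb) hδ T u X Z (X0 ^ 2) hX hZ (hXX.trans hXle) (hγX.trans hXle) (by
        rw [nm_mul, Nat.cast_mul, pow_two]
        exact mul_le_mul hgX (c1.trans hUX) (Nat.cast_nonneg _) hX00.le) (by
        rw [nm_mul, Nat.cast_mul, pow_two]
        exact mul_le_mul hqX hbX (Nat.cast_nonneg _) hX00.le) (hδX.trans hXle)
      (fun i => (hsX i).trans hXle) W Wb hW hWb hWb0 (fun _ _ i g₂ g₃ d => Pr i g₂ g₃ d)
      (fun _ _ i g₂ g₃ d hp => hPr i g₂ g₃ d hp) (M / nm c') (by positivity) ?_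
    · rw [e6] at h2
      refine h2.trans (le_of_eq ?_)
      ring
    · intro v hv w hw hWp i g₃ hg₃ s' W0 hW0 hRl hle
      refine (h1 v hv w hw hWp i g₃ hg₃ s' W0 hW0 hRl hle).trans ?_
      have hm : 0 ≤ M / nm c' := by positivity
      have hW00 : 0 ≤ W0 ^ (2 * μ) := Real.rpow_nonneg (by linarith) _
      refine mul_le_mul_of_nonneg_right (mul_le_mul_of_nonneg_left (Real.exp_le_exp.2 ?_) hm) hW00
      linarith
  have step3 := Finset.sum_le_sum step2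
  rw [← Finset.mul_sum] at step3
  have h4 := hS U X0 δ hU hUX
  have hD0 : 0 ≤ C1 * (Cφ ^ 2 * iA A' * (η * (η ^ A')⁻¹)) * X0 ^ (ε / 3) * nm γ * M := by
    positivity
  have h5 := step3.trans (mul_le_mul_of_nonneg_left h4 hD0)
  refine (mul_le_mul_of_nonneg_left h5 hTm0).trans (le_of_eq ?_)
  have e7 : X0 ^ ε = X0 ^ (ε / 3) * X0 ^ (ε / 3) * X0 ^ (ε / 3) := by
    rw [← Real.rpow_add hX00, ← Real.rpow_add hX00]
    congr 1; ring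
  rw [hTm, e7]
  ring

/-- **the joint cell functional of the restricted sequences, summed over `a`** -/
theorem cellJ_sum {h : ℝ → ℝ} {c : ℝ} (hpu : PU h c) {R : ℝ} (hR0 : 0 ≤ R)
    (hR : ∀ u, cx h u ≠ 0 → |u| ≤ R) {μ : ℝ} (hμ : 0 ≤ μ) (r : ℕ) (σ : Eis) {ε : ℝ}
    (hε : 0 < ε) :
    ∃ C : ℝ, 1 ≤ C ∧ ∀ (A' : ℕ), 2 * (r * μ) + 2 ≤ A' → ∀ (Cφ η : ℝ), 0 < η →
      ∀ (P : DPar) (hP : P.OK) (s : Fin r → Pq), (∀ i, 0 ≤ (s i).z) →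
      ∀ j : Fin r → IP, (∀ i, FromP hP (j i) (s i)) →
      ∀ (γ q g₀ δ E ν b : Eis), IsPrim γ → Squarefree γ → IsPrim g₀ → IsPrim q → IsPrim δ →
      IsPrim ν → IsPrim b →
      ∀ (T 𝒜 : Finset Eis) (Bs : Eis → Finset Eis) (X Z Rr U X0 Ua : ℝ), 1 ≤ X → 0 ≤ Z → 0 ≤ Rr →
      1 ≤ U → 1 ≤ Ua → X ≤ X0 → U ≤ X0 → Ua ≤ X0 → (nm γ : ℝ) ≤ X0 → (nm g₀ : ℝ) ≤ X0 →
      (nm q : ℝ) ≤ X0 → (nm δ : ℝ) ≤ X0 → (nm ν : ℝ) ≤ X0 → (nm b : ℝ) ≤ X0 →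
      (∀ i, Real.exp (s i).z ≤ X0) →
      (∀ a ∈ 𝒜, IsPrim a ∧ Squarefree a ∧ (nm a : ℝ) ≤ Ua) →
      (∀ y ∈ T, ∀ B ∈ Bs y, B ∈ S X ∧ U / 2 ≤ nm B ∧ (nm B : ℝ) ≤ U) → ∀ M : ℝ, 0 ≤ M →
      JC P h s C μ σ T Bs X Z Rr U E g₀ δ ν (∑ k, (j k).z + Real.log (nm γ)) M →
      ∑ a ∈ 𝒜, ∑ y ∈ T, MoJCr Cφ η A' σ γ q g₀ δ ((SD h μ r).w j) a b ν (E * y) X Rr Z U (Bs y) ≤
        C * (Cφ ^ 2 * iA A' * (η * (η ^ A')⁻¹)) * X0 ^ ε * nm γ * M := by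
  have hΦ := sd_ok hpu hR0 hR hμ r
  obtain ⟨C1, hC1, H⟩ := MoJC_list hpu hR0 hR hμ r σ (show 0 < ε / 6 by linarith)
  obtain ⟨C2, hC2, hτ⟩ := tau_le_rpow (show 0 < ε / 15 by linarith)
  obtain ⟨C3, hC3, hS⟩ := sum_Sd_le (show 0 < ε / 3 by linarith)
  have hCC : C1 ≤ C1 * C2 * C3 := by
    have h1 : 1 ≤ C2 * C3 := one_le_mul_of_one_le_of_one_le hC2 hC3
    have h2 : C1 * 1 ≤ C1 * (C2 * C3) := mul_le_mul_of_nonneg_left h1 (by linarith)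
    linarith
  refine ⟨C1 * C2 * C3, hC1.trans hCC, ?_⟩
  intro A' hA' Cφ η hη P hP s hs j hj γ q g₀ δ E ν b hγ hγs hg₀ hq hδ hν hb T 𝒜 Bs X Z Rr U X0 Ua
    hX hZ hRr hU hUa hXX hUX hUaX hγX hgX hqX hδX hνX hbX hsX h𝒜 hBs M hM hJC
  have hA2 : 2 ≤ A' := by
    have h1 : 0 ≤ (r : ℝ) * μ := by positivity
    have : (2 : ℝ) ≤ A' := by linarith
    exact_mod_cast this
  have hX0 : 0 ≤ X := by linarith
  have hU0 : 0 ≤ U := by linarith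
  have hUa0 : 0 ≤ Ua := by linarith
  have hX01 : 1 ≤ X0 := by linarith
  have hX00 : 0 < X0 := by linarith
  have hγ1 : (1 : ℝ) ≤ nm γ := by exact_mod_cast nm_pos.2 hγ.ne_zero
  have hlγ : 0 ≤ Real.log (nm γ) := Real.log_nonneg hγ1
  have hAp : 0 ≤ Cφ ^ 2 * iA A' * (η * (η ^ A')⁻¹) := by
    have := iA_nonneg A'; positivity
  have hC1' : 0 ≤ C1 := by linarith
  have hC2' : 0 ≤ C2 := by linarith
  have hC3' : 0 ≤ C3 := by linarith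
  by_cases hγb : IsCoprime γ b
  swap
  · have e1 : ∀ a ∈ 𝒜, ∑ y ∈ T,
        MoJCr Cφ η A' σ γ q g₀ δ ((SD h μ r).w j) a b ν (E * y) X Rr Z U (Bs y) = 0 := by
      intro a _
      refine Finset.sum_eq_zero fun y _ => ?_
      unfold MoJCr
      refine Finset.sum_eq_zero fun n _ => ?_
      rw [Finset.sum_eq_zero, mul_zero]
      intro g _
      refine Finset.sum_eq_zero fun B _ => ?_
      rw [alr_dl_zero hγb]
      exact MoC_zero δ (g₀ * g)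
    rw [Finset.sum_eq_zero e1]
    positivity
  have hw1 : ∀ n, (SD h μ r).w j n ≠ 0 →
      (nm n : ℝ) ≤ Real.exp ((SD h μ r).len j + r * (2 * R + 3)) := by
    intro b hb
    have hb0 : (0 : ℝ) < nm b := by exact_mod_cast nm_pos.2 (hΦ.prim j b hb).ne_zero
    rw [← Real.log_le_iff_le_exp hb0]
    have := (abs_le.1 (hΦ.supp j b hb)).2
    linarith
  -- the divisor bound
  set Tm : ℝ := C2 * X0 ^ (ε / 3) with hTm
  have hT : ∀ g ∈ S U, ∀ B ∈ S X, ∀ g₂ ∈ S X, ∀ g₃ ∈ S X,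
      (tau (g₀ * g * (B * (g₂ * g₃))) : ℝ) ≤ Tm := by
    intro g hg B hB g₂ h₂ g₃ h₃
    obtain ⟨a1, a2, -⟩ := (mem_S hU0).mp hg
    obtain ⟨b1, b2, -⟩ := (mem_S hX0).mp hB
    obtain ⟨c1, c2, -⟩ := (mem_S hX0).mp h₂
    obtain ⟨d1, d2, -⟩ := (mem_S hX0).mp h₃
    have hn : (nm (g₀ * g * (B * (g₂ * g₃))) : ℝ) ≤ X0 ^ 5 := by
      rw [nm_mul, nm_mul, nm_mul, nm_mul]
      push_cast
      calc (nm g₀ : ℝ) * nm g * (nm B * (nm g₂ * nm g₃)) ≤ X0 * X0 * (X0 * (X0 * X0)) := by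
            gcongr <;> linarith
        _ = X0 ^ 5 := by ring
    refine (hτ _ ((hg₀.mul a2).mul (b2.mul (c2.mul d2))).ne_zero).trans ?_
    rw [hTm]
    refine mul_le_mul_of_nonneg_left ?_ hC2'
    calc (nm (g₀ * g * (B * (g₂ * g₃))) : ℝ) ^ (ε / 15) ≤ (X0 ^ 5) ^ (ε / 15) :=
          Real.rpow_le_rpow (Nat.cast_nonneg _) hn (by linarith)
      _ = X0 ^ (ε / 3) := by
          rw [← Real.rpow_natCast X0 5, ← Real.rpow_mul hX00.le]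
          congr 1; push_cast; ring
  have hTm0 : 0 ≤ Tm := by rw [hTm]; positivity
  -- the sum over `a`
  have step1 : ∑ a ∈ 𝒜, ∑ y ∈ T,
      MoJCr Cφ η A' σ γ q g₀ δ ((SD h μ r).w j) a b ν (E * y) X Rr Z U (Bs y) ≤
      Tm * ∑ c' ∈ Sd Ua δ, ∑ y ∈ T,
      MoJC Cφ η A' σ γ (q * b) (g₀ * c') δ ((SD h μ r).w j) ν (E * y) X Rr Z U (Bs y) := by
    rw [Finset.sum_comm, Finset.sum_comm (s := Sd Ua δ), Finset.mul_sum]
    refine Finset.sum_le_sum fun y _ => ?_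
    exact MoJCr_alr hη hA2 (Real.exp_pos _).le hw1 hX0 hRr hU0 hγ hγs hγb hg₀ hUa0 h𝒜 (Bs y) hT
  refine step1.trans ?_
  have e6 : (X0 ^ 2) ^ (ε / 6) = X0 ^ (ε / 3) := by
    rw [← Real.rpow_natCast X0 2, ← Real.rpow_mul hX00.le]
    congr 1; push_cast; ring
  have hXle : X0 ≤ X0 ^ 2 := le_self_pow₀ hX01 (by norm_num)
  have step2 : ∀ c' ∈ Sd Ua δ, ∑ y ∈ T,
      MoJC Cφ η A' σ γ (q * b) (g₀ * c') δ ((SD h μ r).w j) ν (E * y) X Rr Z U (Bs y) ≤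
      (C1 * (Cφ ^ 2 * iA A' * (η * (η ^ A')⁻¹)) * X0 ^ (ε / 3) * nm γ * M) * (1 / nm c') := by
    intro c' hc'
    obtain ⟨c1, c2, -⟩ := (mem_S hUa0).mp (Finset.mem_filter.mp hc').1
    have h1 := (hJC.mono hCC).step hU0 hg₀ c2
    have h2 := H A' hA' Cφ η hη P hP s hs j hj γ (q * b) (g₀ * c') δ E ν hγ hγs (hg₀.mul c2)
      (hq.mul hb) hδ hν T Bs X Z Rr U (X0 ^ 2) hX hZ hRr hU (hXX.trans hXle) (hUX.trans hXle)
      (hγX.trans hXle) (by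
        rw [nm_mul, Nat.cast_mul, pow_two]
        exact mul_le_mul hgX (c1.trans hUaX) (Nat.cast_nonneg _) hX00.le) (by
        rw [nm_mul, Nat.cast_mul, pow_two]
        exact mul_le_mul hqX hbX (Nat.cast_nonneg _) hX00.le) (hδX.trans hXle) (hνX.trans hXle)
      (fun i => (hsX i).trans hXle) hBs (M / nm c') (by positivity) ?_
    · rw [e6] at h2
      refine h2.trans (le_of_eq ?_)
      ring
    · intro n hn g hg hgδ u hu v hv w hw a1 a2 a3 i g₃ hg₃ s' W0 hW0 hRl hle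
      refine (h1 n hn g hg hgδ u hu v hv w hw a1 a2 a3 i g₃ hg₃ s' W0 hW0 hRl hle).trans ?_
      have hm : 0 ≤ M / nm c' := by positivity
      have hW00 : 0 ≤ W0 ^ (2 * μ) := Real.rpow_nonneg (by linarith) _
      refine mul_le_mul_of_nonneg_right (mul_le_mul_of_nonneg_left (Real.exp_le_exp.2 ?_) hm) hW00
      linarith
  have step3 := Finset.sum_le_sum step2
  rw [← Finset.mul_sum] at step3
  have h4 := hS Ua X0 δ hUa hUaX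
  have hD0 : 0 ≤ C1 * (Cφ ^ 2 * iA A' * (η * (η ^ A')⁻¹)) * X0 ^ (ε / 3) * nm γ * M := by
    positivity
  have h5 := step3.trans (mul_le_mul_of_nonneg_left h4 hD0)
  refine (mul_le_mul_of_nonneg_left h5 hTm0).trans (le_of_eq ?_)
  have e7 : X0 ^ ε = X0 ^ (ε / 3) * X0 ^ (ε / 3) * X0 ^ (ε / 3) := by
    rw [← Real.rpow_add hX00, ← Real.rpow_add hX00]
    congr 1; ring
  rw [hTm, e7]
  ring

end Crest.Agent.R017.RCl83
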