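import Crest.Agent.R017.RClb_83

/-!
# Row 17, E2, R-side of the `l`-terms of the tail of (LB) (helper83), part c

* `GNa`, `GJa` : the cell functionals of the restricted natural pieces
* `hm_alr` : the hypotheses of 401's `Qs_cellsJ` for the restricted natural pieces
* `sumN_le`, `sumJ_le` : the cells summed over `a`
-/

set_option autoImplicit false
set_option maxHeartbeats 400000

noncomputable section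

open Complex Finset
open scoped ComplexConjugate Classical

namespace Crest.Agent.R017.RCl83

open Crest.Agent.R012 Crest.Agent.R012.Eis Crest.Agent.R012.Gauss880
open Crest.Agent.R012.LS2 (S mem_S)
open Crest.Agent.R012.Mob705 (pdiv mem_pdiv)
open Crest.Agent.R012.Weight600 (pw)
open Crest.Agent.R012.Div277 (tau dvs mem_dvs tau_le_rpow nm_le_of_dvd)
open Crest.Agent.R017.CM106 (CS FS sub)
open Crest.Agent.R017.HP842 (sqc pc)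
open Crest.Agent.R017.FE47
open Crest.Agent.R017.B770 Crest.Agent.R017.Prov71
open Crest.Agent.R017.TPOk571 (IP SD SD_w sd_ok)
open Crest.Agent.R017.X6C180 (IX dl')
open Crest.Agent.R017.H1401 (pb mem_pb WJ WM DN HW)
open Crest.Agent.R017.Win813 (iA iA_nonneg WK)
open Crest.Agent.R017.XRG106
open Crest.Agent.R017.MoF106
open Crest.Agent.R017.MoL106 (FromP Q4 mem_Q4 f4 kw)
open Crest.Agent.R017.E2440 (Qs RR prs mem_prs C4 mem_C4 ag KDd MT blk bkN blk_lt_bkN blk_lt blk_le)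
open Crest.Agent.R017.E2D401 (MoJ Bj)
open Crest.Agent.R017.QsJ401 (Sz Hm Tb Nj CellN CellJ mem_Tb mem_Bj one_le_nmC N0e NX_pos)
open Crest.Agent.R017.QsO83 (bw)
open Crest.Agent.R017.RGw813 (bt)
open Crest.Agent.R017.MoCa83

/-! ### monotony -/

lemma HW_mono {R R' Z : ℝ} (hR : 0 ≤ R) (h : R ≤ R') (hZ : 0 ≤ Z) (x y : Eis) :
    HW R Z x y ≤ HW R' Z x y := by
  unfold H1401.HW
  have h1 : 0 ≤ Z / ((nm x : ℝ) * nm y) ^ 2 := by positivity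
  have h2 : (R * (Z / ((nm x : ℝ) * nm y) ^ 2)) ^ ((2 : ℝ) / 3) ≤
      (R' * (Z / ((nm x : ℝ) * nm y) ^ 2)) ^ ((2 : ℝ) / 3) :=
    Real.rpow_le_rpow (mul_nonneg hR h1) (mul_le_mul_of_nonneg_right h h1) (by norm_num)
  linarith

lemma WM_mono {R R' Z : ℝ} (hR : 0 ≤ R) (h : R ≤ R') (hZ : 0 ≤ Z) (x y : Eis) :
    WM R Z x y ≤ WM R' Z x y := by
  unfold H1401.WM
  refine mul_le_mul_of_nonneg_left (min_le_min ?_ (by linarith)) (Nat.cast_nonneg _)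
  exact mul_le_mul_of_nonneg_left (HW_mono hR h hZ x y) (Nat.cast_nonneg _)

lemma MoP_mono_W {α : Eis → ℂ} {E B τ : Eis} {X t Z : ℝ} {W W' : Eis → Eis → ℝ}
    {P : Eis → Eis → Eis → Prop} (hW : ∀ g₂ ∈ S X, ∀ g₃ ∈ S X, W g₂ g₃ ≤ W' g₂ g₃) :
    MoP α E B τ X t Z W P ≤ MoP α E B τ X t Z W' P := by
  unfold MoF106.MoP
  exact Finset.sum_le_sum fun g₂ h₂ => Finset.sum_le_sum fun g₃ h₃ =>
    mul_le_mul_of_nonneg_right (hW g₂ h₂ g₃ h₃) (Finset.sum_nonneg fun _ _ => sq_nonneg _)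

lemma MoJ_mono_Bs {ν : Eis} {α : Eis → ℂ} {E τ : Eis} {X t R Z U : ℝ} (hR : 0 ≤ R)
    {Bs Bs' : Finset Eis} (h : Bs ⊆ Bs') :
    MoJ ν α E τ X t R Z U Bs ≤ MoJ ν α E τ X t R Z U Bs' := by
  unfold E2D401.MoJ
  refine Finset.sum_le_sum fun n _ => mul_le_mul_of_nonneg_left ?_ (Nat.cast_nonneg _)
  refine Finset.sum_le_sum fun g₂ _ => Finset.sum_le_sum fun g₃ _ => Finset.sum_le_sum fun g _ => ?_
  refine mul_le_mul_of_nonneg_left ?_ (H1401.WJ_nonneg hR _ _)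
  exact Finset.sum_le_sum_of_subset_of_nonneg h fun _ _ _ =>
    Finset.sum_nonneg fun _ _ => sq_nonneg _

/-- the common length of the `j₂` of a block -/
def Rmx (V : ℝ) (e A c : Eis) (l : ℕ) : ℝ := V * nm (e * A) / (nm c * Real.exp ((l : ℝ) / 3) ^ 2)

lemma Rmx_nonneg {V : ℝ} (hV : 0 ≤ V) (e A c : Eis) (l : ℕ) : 0 ≤ Rmx V e A c l := by
  unfold Rmx; positivity

lemma RR_le_Rmx {V : ℝ} (hV : 0 ≤ V) {e A c j₂ : Eis} (hc : c ∈ C4) {l : ℕ}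
    (h : j₂ ∈ Tb V e A c l) : RR V e A c j₂ ≤ Rmx V e A c l := by
  have h1 := bk_nm_ge (Real.sqrt_nonneg V) (mem_Tb.1 h).1
  have h2 := one_le_nmC hc
  unfold E2440.RR Rmx
  have h3 := Real.exp_pos ((l : ℝ) / 3)
  gcongr

lemma UU_Tb {V : ℝ} {e A c j₂ : Eis} {l : ℕ} (h : j₂ ∈ Tb V e A c l) : UU j₂ = l :=
  ((mem_bk (Real.sqrt_nonneg V)).1 (mem_Tb.1 h).1).2

/-! ### the functionals -/

/-- the separate functional of one `(j₂, B, j, n)` -/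
def fN (Cφ η : ℝ) (A' : ℕ) (γ q : Eis) (w : Eis → ℂ) (δ g₀ e A : Eis) (p : ℕ × ℕ) (X V : ℝ)
    (a b c : Eis) (l : ℕ) (j₂ B : Eis) (j : ℕ) (n : Eis) : ℝ :=
  MoC Cφ η A' c (ag (alr (dl γ (TP320.sq (q * γ) w)) a b) δ g₀) (e * A * kw p ^ 2 * j₂) B X
    (2 ^ j) (WM (Rmx V e A c l) (2 ^ j / (nm n : ℝ) ^ 3))
    (fun _ g₂ g₃ d => DN n g₂ g₃ d ∧ (2 : ℝ) ^ j / 2 < nm d)

/-- the joint functional of one `(j₂, u, j)` -/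
def fJ (Cφ η : ℝ) (A' : ℕ) (γ q : Eis) (w : Eis → ℂ) (δ g₀ ν e A : Eis) (p : ℕ × ℕ) (X V : ℝ)
    (a b c : Eis) (l : ℕ) (j₂ : Eis) (u j : ℕ) : ℝ :=
  MoJCr Cφ η A' c γ q g₀ δ w a b ν (e * A * kw p ^ 2 * j₂) X (Rmx V e A c l) (2 ^ j) (2 ^ u)
    ((S X).filter (fun B => blk B = u))

lemma fN_nonneg {Cφ η : ℝ} (hη : 0 < η) {V : ℝ} (hV : 0 ≤ V) (A' : ℕ) (γ q : Eis) (w : Eis → ℂ)
    (δ g₀ e A : Eis) (p : ℕ × ℕ) (X : ℝ) (a b c : Eis) (l : ℕ) (j₂ B : Eis) (j : ℕ) (n : Eis) :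
    0 ≤ fN Cφ η A' γ q w δ g₀ e A p X V a b c l j₂ B j n :=
  MoC_nonneg hη fun _ _ _ _ => H1401.WM_nonneg (Rmx_nonneg hV _ _ _ _) (by positivity) _ _

lemma fJ_nonneg {Cφ η : ℝ} (hη : 0 < η) {V : ℝ} (hV : 0 ≤ V) (A' : ℕ) (γ q : Eis) (w : Eis → ℂ)
    (δ g₀ ν e A : Eis) (p : ℕ × ℕ) (X : ℝ) (a b c : Eis) (l : ℕ) (j₂ : Eis) (u j : ℕ) :
    0 ≤ fJ Cφ η A' γ q w δ g₀ ν e A p X V a b c l j₂ u j :=
  MoJCr_nonneg hη (Rmx_nonneg hV _ _ _ _)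

/-- the separate cell -/
def GNa (Cφ η : ℝ) (A' : ℕ) (γ q : Eis) (w : Eis → ℂ) (δ g₀ e A : Eis) (p : ℕ × ℕ) (X V : ℝ)
    (a b c : Eis) (l u j : ℕ) (n : Eis) : ℝ :=
  (2 / 2 ^ j : ℝ) * ((nm n : ℝ) * ∑ j₂ ∈ Tb V e A c l, ∑ B ∈ bk X u,
    fN Cφ η A' γ q w δ g₀ e A p X V a b c l j₂ B j n)

/-- the joint cell -/
def GJa (Cφ η : ℝ) (A' : ℕ) (γ q : Eis) (w : Eis → ℂ) (δ g₀ ν e A : Eis) (p : ℕ × ℕ) (X V : ℝ)
    (a b c : Eis) (l u j : ℕ) : ℝ :=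
  (2 / 2 ^ j : ℝ) * (2 / 2 ^ u) * ∑ j₂ ∈ Tb V e A c l,
    fJ Cφ η A' γ q w δ g₀ ν e A p X V a b c l j₂ u j

lemma GNa_nonneg {Cφ η : ℝ} (hη : 0 < η) {V : ℝ} (hV : 0 ≤ V) (A' : ℕ) (γ q : Eis) (w : Eis → ℂ)
    (δ g₀ e A : Eis) (p : ℕ × ℕ) (X : ℝ) (a b c : Eis) (l u j : ℕ) (n : Eis) :
    0 ≤ GNa Cφ η A' γ q w δ g₀ e A p X V a b c l u j n := by
  unfold GNa
  have : 0 ≤ ∑ j₂ ∈ Tb V e A c l, ∑ B ∈ bk X u,
      fN Cφ η A' γ q w δ g₀ e A p X V a b c l j₂ B j n :=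
    Finset.sum_nonneg fun _ _ => Finset.sum_nonneg fun _ _ =>
      fN_nonneg hη hV _ _ _ _ _ _ _ _ _ _ _ _ _ _ _ _ _ _
  positivity

lemma GJa_nonneg {Cφ η : ℝ} (hη : 0 < η) {V : ℝ} (hV : 0 ≤ V) (A' : ℕ) (γ q : Eis) (w : Eis → ℂ)
    (δ g₀ ν e A : Eis) (p : ℕ × ℕ) (X : ℝ) (a b c : Eis) (l u j : ℕ) :
    0 ≤ GJa Cφ η A' γ q w δ g₀ ν e A p X V a b c l u j := by
  unfold GJa
  have : 0 ≤ ∑ j₂ ∈ Tb V e A c l, fJ Cφ η A' γ q w δ g₀ ν e A p X V a b c l j₂ u j :=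
    Finset.sum_nonneg fun _ _ => fJ_nonneg hη hV _ _ _ _ _ _ _ _ _ _ _ _ _ _ _ _ _ _
  positivity

/-- **the hypotheses on the moments** -/
lemma hm_alr {Cφ η : ℝ} {A' : ℕ} {φ : ℝ → ℝ} {p : ℕ × ℕ} {t₀ : ℝ} {γ q : Eis} {w : Eis → ℂ}
    {ε P X V K H B0 : ℝ} {δ e A c : Eis} {y : Eis × Eis} (hS : Sz P X V K H δ e A c y)
    (hCφ : 0 ≤ Cφ) (hη : 0 < η) (hη1 : η ≤ 1) (hA' : 2 ≤ A') (hφ : WK Cφ η A' φ)
    (hγ : IsPrim γ) (hγs : Squarefree γ) {X₁ : ℝ} (hX₁ : 0 ≤ X₁)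
    (hw : ∀ n, w n ≠ 0 → (nm n : ℝ) ≤ X₁) {a b : Eis} (ha : IsPrim a) (has : Squarefree a)
    {l : ℕ} {j₂ : Eis} (hj : j₂ ∈ Tb V e A c l) (jm : ℕ → ℕ → Prop) :
    Hm A' ε P X V K H B0 (alr (bw φ p t₀ (dl γ (TP320.sq (q * γ) w))) a b) δ e A c y j₂ jm
      (fun B j n => (1 + |t₀|) ^ A' *
        fN Cφ η A' γ q w δ y.1 e A p (X / nm y.1) V a b c (UU j₂) j₂ B j n)
      (fun u j => (1 + |t₀|) ^ A' *
        fJ Cφ η A' γ q w δ y.1 y.2 e A p (X / nm y.1) V a b c (UU j₂) j₂ u j) := by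
  have hV0 : 0 ≤ V := by linarith [hS.V1]
  have hX0 : 0 ≤ X / nm y.1 := by linarith [hS.X1]
  have hR1 : 1 ≤ RR V e A c j₂ := (mem_Tb.1 hj).2
  have hRm : RR V e A c j₂ ≤ Rmx V e A c (UU j₂) := by
    rw [UU_Tb hj]; exact RR_le_Rmx hV0 hS.hc hj
  have eE : e * A * kw p ^ 2 * j₂ = e * A * j₂ * kw p ^ 2 := by ring
  refine ⟨fun B j n => ?_, fun u j => ?_, fun B hB j _ _ i t => ?_, fun u j _ _ i t => ?_⟩
  · have := fN_nonneg (Cφ := Cφ) hη hV0 A' γ q w δ y.1 e A p (X / nm y.1) a b c (UU j₂) j₂ B j n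
    positivity
  · have := fJ_nonneg (Cφ := Cφ) hη hV0 A' γ q w δ y.1 y.2 e A p (X / nm y.1) a b c (UU j₂) j₂ u j
    positivity
  · rw [Finset.mul_sum]
    refine Finset.sum_le_sum fun n _ => ?_
    have hn : (0 : ℝ) ≤ nm n := Nat.cast_nonneg _
    have h1 : MoP (ag (alr (bw φ p t₀ (dl γ (TP320.sq (q * γ) w))) a b) δ y.1) (e * A * j₂) B
        (dl' c i) (X / nm y.1) t (2 ^ j) (WM (RR V e A c j₂) (2 ^ j / (nm n : ℝ) ^ 3))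
        (fun g₂ g₃ d => DN n g₂ g₃ d ∧ (2 : ℝ) ^ j / 2 < nm d) ≤
        (1 + |t|) ^ A' * ((1 + |t₀|) ^ A' *
          fN Cφ η A' γ q w δ y.1 e A p (X / nm y.1) V a b c (UU j₂) j₂ B j n) := by
      refine (MoP_mono_W (W' := WM (Rmx V e A c (UU j₂)) (2 ^ j / (nm n : ℝ) ^ 3))
        fun g₂ _ g₃ _ => WM_mono (by linarith) hRm (by positivity) _ _).trans ?_
      unfold fN
      rw [eE]
      exact MoP_bt_alr (P := fun _ g₂ g₃ d => DN n g₂ g₃ d ∧ (2 : ℝ) ^ j / 2 < nm d) hCφ hη hη1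
        hA' hφ hX₁ hw hX0 hγ hγs ha has hS.y1 ((mem_S hX0).1 hB).2.1
        (fun g₂ _ g₃ _ => H1401.WM_nonneg (Rmx_nonneg hV0 _ _ _ _) (by positivity) _ _) p t₀ i t
    calc _ ≤ (nm n : ℝ) * ((1 + |t|) ^ A' * ((1 + |t₀|) ^ A' *
          fN Cφ η A' γ q w δ y.1 e A p (X / nm y.1) V a b c (UU j₂) j₂ B j n)) :=
          mul_le_mul_of_nonneg_left h1 hn
      _ = _ := by ring
  · refine (MoJ401.MoJ_mono hRm _).trans ((MoJ_mono_Bs (Rmx_nonneg hV0 _ _ _ _)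
      (Bs' := (S (X / nm y.1)).filter (fun B => blk B = u)) ?_).trans ?_)
    · intro B hB
      rw [mem_Bj] at hB
      exact Finset.mem_filter.2 ⟨hB.1, hB.2.1⟩
    · unfold fJ
      rw [eE]
      exact MoJ_bt_alr hCφ hη hη1 hA' hφ hX₁ hw hX0 (Rmx_nonneg hV0 _ _ _ _) (by positivity)
        (by positivity) hγ hγs ha has hS.y1 (fun B hB => (Finset.mem_filter.1 hB).1) p t₀ i t

/-! ### the cells summed over `a` -/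

/-- **the separate cells** -/
theorem sumN_le {h : ℝ → ℝ} {c₀ : ℝ} (hpu : PU h c₀) {R : ℝ} (hR0 : 0 ≤ R)
    (hR : ∀ u, cx h u ≠ 0 → |u| ≤ R) {μ : ℝ} (hμ : 0 ≤ μ) (r : ℕ) {ε : ℝ} (hε : 0 < ε) :
    ∃ C : ℝ, 1 ≤ C ∧ ∀ (A' : ℕ), 2 * (r * μ) + 2 ≤ A' → ∀ (Cφ η : ℝ), 0 < η →
      ∀ (P : DPar) (hP : P.OK) (s : Fin r → Pq), (∀ i, 0 ≤ (s i).z) →
      ∀ jp : Fin r → IP, (∀ i, FromP hP (jp i) (s i)) →
      ∀ (γ q g₀ δ e A b : Eis) (p : ℕ × ℕ), IsPrim γ → Squarefree γ → IsPrim g₀ → IsPrim q →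
      IsPrim δ → IsPrim b → ∀ c ∈ C4,
      ∀ (𝒜 : Finset Eis) (l u j : ℕ) (n : Eis) (X V X0 U : ℝ), 1 ≤ X → 1 ≤ U → X ≤ X0 → U ≤ X0 →
      0 ≤ V → (nm γ : ℝ) ≤ X0 → (nm g₀ : ℝ) ≤ X0 → (nm q : ℝ) ≤ X0 → (nm δ : ℝ) ≤ X0 →
      (nm b : ℝ) ≤ X0 → (∀ i, Real.exp (s i).z ≤ X0) →
      (∀ a ∈ 𝒜, IsPrim a ∧ Squarefree a ∧ (nm a : ℝ) ≤ U) →
      ∀ (Wb : ℕ → ℕ → ℝ),
      (∀ v < NX X, ∀ w < NX X, ∀ g₂ ∈ bk X v, ∀ g₃ ∈ bk X w,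
        WM (Rmx V e A c l) (2 ^ j / (nm n : ℝ) ^ 3) g₂ g₃ ≤ Wb v w) →
      (∀ v < NX X, ∀ w < NX X, 0 ≤ Wb v w) → ∀ M : ℝ, 0 ≤ M →
      NC P h s C μ c (Tb V e A c l) u X (2 ^ j) (e * A * kw p ^ 2) g₀ Wb
        (fun _ g₂ g₃ d => DN n g₂ g₃ d ∧ (2 : ℝ) ^ j / 2 < nm d)
        (∑ k, (jp k).z + Real.log (nm γ)) (2 ^ j * M) →
      ∑ a ∈ 𝒜, GNa Cφ η A' γ q ((SD h μ r).w jp) δ g₀ e A p X V a b c l u j n ≤
        C * (Cφ ^ 2 * iA A' * (η * (η ^ A')⁻¹)) * X0 ^ ε * nm γ * (nm n * M) := by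
  have key := fun σ : Eis => cellN_sum hpu hR0 hR hμ r σ hε
  choose Cf hCf hx using key
  have hsum0 : ∀ c ∈ C4, 0 ≤ Cf c := fun c _ => by linarith [hCf c]
  have hS0 := Finset.sum_nonneg hsum0
  refine ⟨2 * (1 + ∑ c ∈ C4, Cf c), by linarith, ?_⟩
  intro A' hA' Cφ η hη P hP s hs jp hjp γ q g₀ δ e A b p hγ hγs hg₀ hq hδ hb c hc 𝒜 l u j n X V X0
    U hX hU hXX hUX hV hγX hgX hqX hδX hbX hsX h𝒜 Wb hWb hWb0 M hM hNC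
  have hle : Cf c ≤ 1 + ∑ c ∈ C4, Cf c := by
    have := Finset.single_le_sum hsum0 hc
    linarith
  have hle2 : Cf c ≤ 2 * (1 + ∑ c ∈ C4, Cf c) := by linarith
  have h1 := hx c A' hA' Cφ η hη P hP s hs jp hjp γ q g₀ δ (e * A * kw p ^ 2) b hγ hγs hg₀ hq hδ hb
    (Tb V e A c l) 𝒜 u X (2 ^ j) X0 U hX (one_le_pow₀ (by norm_num)) hU hXX hUX hγX hgX hqX hδX hbX
    hsX h𝒜 (WM (Rmx V e A c l) (2 ^ j / (nm n : ℝ) ^ 3)) Wb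
    (fun g₂ _ g₃ _ => H1401.WM_nonneg (Rmx_nonneg hV _ _ _ _) (by positivity) _ _) hWb hWb0
    (fun _ g₂ g₃ d => DN n g₂ g₃ d ∧ (2 : ℝ) ^ j / 2 < nm d)
    (fun _ g₂ g₃ d hd => (dvd_mul_left _ _).trans hd.1.dvd) (2 ^ j * M) (by positivity) (hNC.mono hle2)
  have e1 : ∑ a ∈ 𝒜, GNa Cφ η A' γ q ((SD h μ r).w jp) δ g₀ e A p X V a b c l u j n =
      (2 / 2 ^ j : ℝ) * ((nm n : ℝ) * ∑ a ∈ 𝒜, ∑ y ∈ Tb V e A c l, ∑ B ∈ bk X u,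
        MoC Cφ η A' c (ag (alr (dl γ (TP320.sq (q * γ) ((SD h μ r).w jp))) a b) δ g₀)
          (e * A * kw p ^ 2 * y) B X (2 ^ j) (WM (Rmx V e A c l) (2 ^ j / (nm n : ℝ) ^ 3))
          (fun _ g₂ g₃ d => DN n g₂ g₃ d ∧ (2 : ℝ) ^ j / 2 < nm d)) := by
    unfold GNa fN
    rw [← Finset.mul_sum, ← Finset.mul_sum]
  rw [e1]
  have hAp : 0 ≤ Cφ ^ 2 * iA A' * (η * (η ^ A')⁻¹) := by
    have := iA_nonneg A'; positivity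
  have hX00 : 0 ≤ X0 := by linarith
  have hn : (0 : ℝ) ≤ nm n := Nat.cast_nonneg _
  have h2j : (0 : ℝ) < 2 ^ j := by positivity
  calc _ ≤ (2 / 2 ^ j : ℝ) * ((nm n : ℝ) * (Cf c * (Cφ ^ 2 * iA A' * (η * (η ^ A')⁻¹)) * X0 ^ ε *
        nm γ * (2 ^ j * M))) := by
        refine mul_le_mul_of_nonneg_left (mul_le_mul_of_nonneg_left h1 hn) (by positivity)
    _ = (2 * Cf c) * (Cφ ^ 2 * iA A' * (η * (η ^ A')⁻¹)) * X0 ^ ε * nm γ * (nm n * M) := by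
        field_simp
    _ ≤ _ := by gcongr

/-- **the joint cells** -/
theorem sumJ_le {h : ℝ → ℝ} {c₀ : ℝ} (hpu : PU h c₀) {R : ℝ} (hR0 : 0 ≤ R)
    (hR : ∀ u, cx h u ≠ 0 → |u| ≤ R) {μ : ℝ} (hμ : 0 ≤ μ) (r : ℕ) {ε : ℝ} (hε : 0 < ε) :
    ∃ C : ℝ, 1 ≤ C ∧ ∀ (A' : ℕ), 2 * (r * μ) + 2 ≤ A' → ∀ (Cφ η : ℝ), 0 < η →
      ∀ (P : DPar) (hP : P.OK) (s : Fin r → Pq), (∀ i, 0 ≤ (s i).z) →
      ∀ jp : Fin r → IP, (∀ i, FromP hP (jp i) (s i)) →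
      ∀ (γ q g₀ δ ν e A b : Eis) (p : ℕ × ℕ), IsPrim γ → Squarefree γ → IsPrim g₀ → IsPrim q →
      IsPrim δ → IsPrim ν → IsPrim b → ∀ c ∈ C4,
      ∀ (𝒜 : Finset Eis) (l u j : ℕ) (X V X0 U : ℝ), 1 ≤ X → 1 ≤ U → X ≤ X0 → U ≤ X0 →
      (2 : ℝ) ^ u ≤ X0 → 0 ≤ V → (nm γ : ℝ) ≤ X0 → (nm g₀ : ℝ) ≤ X0 → (nm q : ℝ) ≤ X0 →
      (nm δ : ℝ) ≤ X0 → (nm ν : ℝ) ≤ X0 → (nm b : ℝ) ≤ X0 → (∀ i, Real.exp (s i).z ≤ X0) →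
      (∀ a ∈ 𝒜, IsPrim a ∧ Squarefree a ∧ (nm a : ℝ) ≤ U) → ∀ M : ℝ, 0 ≤ M →
      JC P h s C μ c (Tb V e A c l) (fun _ => (S X).filter (fun B => blk B = u)) X (2 ^ j)
        (Rmx V e A c l) (2 ^ u) (e * A * kw p ^ 2) g₀ δ ν (∑ k, (jp k).z + Real.log (nm γ))
        (2 ^ j * 2 ^ u * M) →
      ∑ a ∈ 𝒜, GJa Cφ η A' γ q ((SD h μ r).w jp) δ g₀ ν e A p X V a b c l u j ≤
        C * (Cφ ^ 2 * iA A' * (η * (η ^ A')⁻¹)) * X0 ^ ε * nm γ * M := by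
  have key := fun σ : Eis => cellJ_sum hpu hR0 hR hμ r σ hε
  choose Cf hCf hx using key
  have hsum0 : ∀ c ∈ C4, 0 ≤ Cf c := fun c _ => by linarith [hCf c]
  have hS0 := Finset.sum_nonneg hsum0
  refine ⟨4 * (1 + ∑ c ∈ C4, Cf c), by linarith, ?_⟩
  intro A' hA' Cφ η hη P hP s hs jp hjp γ q g₀ δ ν e A b p hγ hγs hg₀ hq hδ hν hb c hc 𝒜 l u j X V
    X0 U hX hU hXX hUX huX hV hγX hgX hqX hδX hνX hbX hsX h𝒜 M hM hJC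
  have hX0 : 0 ≤ X := by linarith
  have hle : Cf c ≤ 1 + ∑ c ∈ C4, Cf c := by
    have := Finset.single_le_sum hsum0 hc
    linarith
  have hle2 : Cf c ≤ 4 * (1 + ∑ c ∈ C4, Cf c) := by linarith
  have h1 := hx c A' hA' Cφ η hη P hP s hs jp hjp γ q g₀ δ (e * A * kw p ^ 2) ν b hγ hγs hg₀ hq hδ
    hν hb (Tb V e A c l) 𝒜 (fun _ => (S X).filter (fun B => blk B = u)) X (2 ^ j) (Rmx V e A c l)
    (2 ^ u) X0 U hX (by positivity) (Rmx_nonneg hV _ _ _ _) (one_le_pow₀ (by norm_num)) hU hXX huX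
    hUX hγX hgX hqX hδX hνX hbX hsX h𝒜 (fun y _ B hB => by
      rw [Finset.mem_filter] at hB
      have h2 := blk_lt ((mem_S hX0).1 hB.1).2.1.ne_zero
      have h3 := blk_le B
      rw [hB.2] at h2 h3
      exact ⟨hB.1, h2.le, h3⟩) (2 ^ j * 2 ^ u * M) (by positivity) (hJC.mono hle2)
  have e1 : ∑ a ∈ 𝒜, GJa Cφ η A' γ q ((SD h μ r).w jp) δ g₀ ν e A p X V a b c l u j =
      (2 / 2 ^ j : ℝ) * (2 / 2 ^ u) * ∑ a ∈ 𝒜, ∑ y ∈ Tb V e A c l,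
        MoJCr Cφ η A' c γ q g₀ δ ((SD h μ r).w jp) a b ν (e * A * kw p ^ 2 * y) X (Rmx V e A c l)
          (2 ^ j) (2 ^ u) ((S X).filter (fun B => blk B = u)) := by
    unfold GJa fJ
    rw [← Finset.mul_sum]
  rw [e1]
  have hAp : 0 ≤ Cφ ^ 2 * iA A' * (η * (η ^ A')⁻¹) := by
    have := iA_nonneg A'; positivity
  have hX00 : 0 ≤ X0 := by linarith
  have h2j : (0 : ℝ) < 2 ^ j := by positivity
  have h2u : (0 : ℝ) < 2 ^ u := by positivity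
  calc _ ≤ (2 / 2 ^ j : ℝ) * (2 / 2 ^ u) * (Cf c * (Cφ ^ 2 * iA A' * (η * (η ^ A')⁻¹)) * X0 ^ ε *
        nm γ * (2 ^ j * 2 ^ u * M)) := mul_le_mul_of_nonneg_left h1 (by positivity)
    _ = (4 * Cf c) * (Cφ ^ 2 * iA A' * (η * (η ^ A')⁻¹)) * X0 ^ ε * nm γ * M := by
        field_simp
        ring
    _ ≤ _ := by gcongr

end Crest.Agent.R017.RCl83
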