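import Crest.Agent.R017.MoN5_106
import Crest.Agent.R017.RGN1_545
import Crest.Agent.R017.RlB_791
import Crest.Agent.R017.RGjL_64

/-!
# Row 17, E2, R-side (helper83), part g: the pair lines of the children from the lines of `RLeaf`

* `LnPrem` : the premise of `RLeaf` (class N) for one list
* `pln_of` : `PLn` at the family `K log X - 3 t` from the lines (ga), (r2) of `LN`
-/

set_option autoImplicit false
set_option maxHeartbeats 3200000

noncomputable section

open scoped ComplexConjugate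

namespace Crest.Agent.R017.RCl83

open Crest.Agent.R012 Crest.Agent.R012.Eis
open Crest.Agent.R017.B770
open Crest.Agent.R017.Prov71
open Crest.Agent.R017.XRG106 (Rl)
open Crest.Agent.R017.Leg381 (Pf LF natl LF_get)
open Crest.Agent.R017.RGB545 (Line Th TK LN GN EN bN FN PFp IN)
open Crest.Agent.R017.XP699 (LL Chd hcost cst)
open Crest.Agent.R017.RG64 (Ht SbL one_le_Ht)
open Crest.Agent.R017.PML320 (PMf)
open Crest.Agent.R017.MoL106 (PM2 nr)
open Crest.Agent.R017.RC106 (PLn)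

variable {Lam : Type*}

/-- the premise of `RLeaf` for the lines of class N -/
def LnPrem (π : Lam → DPar) (h : ℝ → ℝ) (c μ K ε M r Cb X Bd : ℝ) (lam : Lam) (ps₀ : List Pq)
    (ps : List Pf) (Lv : ℝ) : Prop :=
  ∀ (j : IN) (θ : Th 5 K) (l : ℝ) (ps' : List Pq), 0 ≤ l → l ≤ TK K * Real.log X →
      List.Forall₂ (Chd Dq hcost r Cb) ps' ps₀ →
      LL Dq ps' ≤ LF ps + ε * Real.log X →
      (LN π h c μ j).G ![K, Lv / Real.log X, LF ps / Real.log X, l / Real.log X,
        LL Dq ps' / Real.log X] θ.1 ≤ ε →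
      ((LN π h c μ j).zl → ∀ q ∈ ps', Dq.lump q → Dq.len q ≤ l + ε * Real.log X) →
      (LN π h c μ j).Φ lam l ((LN π h c μ j).b θ.1 * Real.log X) ps' ≤
        Bd * cst hcost ps' ps₀ ^ M *
        X ^ (4 / 3 * (LF ps / Real.log X) + (Lv / Real.log X + K) / 3 +
          (LN π h c μ j).F ![K, Lv / Real.log X, LF ps / Real.log X, l / Real.log X,
            LL Dq ps' / Real.log X] θ.1)

lemma LL_ofFn {r : ℕ} (s : Fin r → Pq) : LL Dq (List.ofFn s) = ∑ k, (s k).z := by
  unfold XP699.LL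
  rw [List.map_ofFn, List.sum_ofFn]
  rfl

lemma forall2_ofFn {C W : ℝ} (ps : List Pf) (s' : Fin ps.length → Pq)
    (h : ∀ k, Rl C W (s' k) (ps.get k).1) :
    List.Forall₂ (Rl C W) (List.ofFn s') (ps.map Prod.fst) := by
  rw [List.forall₂_iff_get]
  refine ⟨by simp, fun i h1 h2 => ?_⟩
  have h3 : i < ps.length := by simpa using h1
  have h4 := h ⟨i, h3⟩
  simpa using h4

/-- the vector of the parameters -/
def th5 (a b c d e : ℝ) : Fin 5 → ℝ := ![a, b, c, d, e]

lemma th5_mem {a b c d e T : ℝ} (ha : 0 ≤ a) (hb : 0 ≤ b) (hc : 0 ≤ c) (hd : 0 ≤ d) (he : 0 ≤ e)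
    (ha' : a ≤ T) (hb' : b ≤ T) (hc' : c ≤ T) (hd' : d ≤ T) (he' : e ≤ T) :
    th5 a b c d e ∈ Set.Icc (0 : Fin 5 → ℝ) (fun _ => T) := by
  constructor
  · intro i
    fin_cases i <;> simpa [th5]
  · intro i
    fin_cases i <;> simpa [th5]

/-- **the pair lines of the children** at the family `K log X - 3 t` -/
theorem pln_of {π : Lam → DPar} {h : ℝ → ℝ} {c μ K ε M r Cb X Bd : ℝ} {lam : Lam}
    {ps₀ : List Pq} {ps : List Pf} {Lv : ℝ}
    (H : LnPrem π h c μ K ε M r Cb X Bd lam ps₀ ps Lv) (hX : 1 < X) (hK : 0 ≤ K) (hμ0 : 0 ≤ μ)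
    (hμ : μ ≤ 1) (hε0 : 0 ≤ ε) (hε : ε ≤ 1) {N : ℕ} (hN : ps.length ≤ N) (hM : 0 ≤ M) (hBd : 0 ≤ Bd)
    {C S c₀ : ℝ} (hC : 0 ≤ C) (hsb : SbL S ps ps₀) (hz : ∀ q ∈ ps₀, Dq.len q ≤ c₀ * Real.log X)
    (hr : C + S ≤ r) (hCb : C * Real.exp S * X ^ c₀ ≤ Cb)
    (hn0 : 0 ≤ LF ps) (hnK : LF ps ≤ (K + 1) * Real.log X) (hv0 : 0 ≤ Lv)
    {t m e : ℝ} (ht0 : 0 ≤ t) (htK : t ≤ (K + 1) * Real.log X)
    (hm : m ≤ (μ + ε) * Real.log X) (he0 : 0 ≤ e) (he : e ≤ ε * Real.log X) :
    PLn (π lam) h ((N : ℝ) * M / 2) C (fun i => (ps.get i).1) (LF ps) (K * Real.log X - 3 * t) Lv m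
      e (Bd * (Ht ps * Ht (natl ps₀)) ^ M * Real.exp (4 * t - μ * Real.log X)) := by
  have hL : 0 < Real.log X := Real.log_pos hX
  have hX0 : 0 < X := by linarith
  set L : ℝ := Real.log X with hLdef
  set n : ℝ := LF ps with hn
  have hTK : TK K = 10 * (K + 1) := rfl
  have hKL : 0 ≤ K * L := by positivity
  have hεL : ε * L ≤ L := by nlinarith
  have hμL : μ * L ≤ L := by nlinarith
  have hmL : m ≤ 2 * L := by nlinarith
  -- the children
  have hch : ∀ (s' : Fin ps.length → Pq) (W0 : ℝ), 1 ≤ W0 →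
      (∀ k, Rl C W0 (s' k) (ps.get k).1) →
      List.Forall₂ (Chd Dq hcost r Cb) (List.ofFn s') ps₀ ∧
      cst hcost (List.ofFn s') ps₀ ^ M ≤
        W0 ^ (2 * ((N : ℝ) * M / 2)) * (Ht ps * Ht (natl ps₀)) ^ M := by
    intro s' W0 hW0 hR
    have h1 := forall2_ofFn ps s' hR
    exact ⟨RlB791.chdL_mono hr hCb (RlB791.chdL_of_rl hX0 hC h1 hsb hz),
      RlB791.cst_rl_pow hW0 hM h1 hsb hN⟩
  have hHt : 0 ≤ (Ht ps * Ht (natl ps₀)) ^ M := by
    have h1 := one_le_Ht ps
    have h2 := one_le_Ht (natl ps₀)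
    exact Real.rpow_nonneg (by positivity) _
  -- the value of a line
  have hval : ∀ (Φ Cs W : ℝ) (E E' : ℝ), 0 ≤ W → Φ ≤ Bd * Cs * X ^ E →
      Cs ≤ W * (Ht ps * Ht (natl ps₀)) ^ M → E * L ≤ E' + (4 * t - μ * L) →
      Φ ≤ Bd * (Ht ps * Ht (natl ps₀)) ^ M * Real.exp (4 * t - μ * L) * W * Real.exp E' := by
    intro Φ Cs W E E' hW h1 h2 h3
    have h4 : X ^ E ≤ Real.exp (E' + (4 * t - μ * L)) := by
      rw [Real.rpow_def_of_pos hX0]
      refine Real.exp_le_exp.2 ?_
      rw [mul_comm]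
      exact h3
    calc Φ ≤ Bd * Cs * X ^ E := h1
      _ ≤ Bd * (W * (Ht ps * Ht (natl ps₀)) ^ M) * Real.exp (E' + (4 * t - μ * L)) := by
          gcongr
      _ = _ := by rw [Real.exp_add]; ring
  constructor
  · -- (r2)
    intro s' W0 hW0 hR i b g hb hg hl0 hsum hi1 hi2 hi3
    obtain ⟨hc1, hc2⟩ := hch s' W0 hW0 hR
    set n' : ℝ := ∑ k, (s' k).z with hn'
    have hLL : LL Dq (List.ofFn s') = n' := LL_ofFn s'
    have hn'0 : 0 ≤ n' := Finset.sum_nonneg fun k _ => (hR k).z0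
    set θ₂ : ℝ := max 0 (n - b - n') with hθ₂
    have hθ0 : 0 ≤ θ₂ := le_max_left _ _
    have hθ1 : n - b - n' ≤ θ₂ := le_max_right _ _
    have hθn : θ₂ ≤ n := max_le hn0 (by linarith)
    have hθs : n' + b + θ₂ ≤ n + e := by
      rcases le_total 0 (n - b - n') with h1 | h1
      · rw [hθ₂, max_eq_right h1]; linarith
      · rw [hθ₂, max_eq_left h1]; linarith
    have hi4 : i ≤ (K + 2) * L := by linarith
    have hbn : b + g ≤ (K + 2) * L := by linarith
    have dv : ∀ x : ℝ, x / L * L = x := fun x => div_mul_cancel₀ x hL.ne'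
    have d0 : ∀ x : ℝ, 0 ≤ x → 0 ≤ x / L := fun x hx => div_nonneg hx hL.le
    have dT : ∀ x : ℝ, x ≤ 10 * (K + 1) * L → x / L ≤ TK K := fun x hx => by
      rw [hTK, div_le_iff₀ hL]; exact hx
    have hmem := th5_mem (a := (b + g) / L) (b := g / L) (c := θ₂ / L) (d := t / L) (e := 0)
      (T := TK K) (d0 _ (by linarith)) (d0 _ hg) (d0 _ hθ0) (d0 _ ht0) le_rfl
      (dT _ (by nlinarith)) (dT _ (by nlinarith)) (dT _ (by nlinarith)) (dT _ (by nlinarith))
      (by rw [hTK]; linarith)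
    have hG : (LN π h c μ .r2).G ![K, Lv / L, n / L, (i - 2 * g) / L,
        LL Dq (List.ofFn s') / L] (th5 ((b + g) / L) (g / L) (θ₂ / L) (t / L) 0) ≤ ε := by
      rw [hLL]
      show max (max (n' / L + ((b + g) / L - g / L) + θ₂ / L - n / L)
          (((i - 2 * g) / L + 2 * (g / L)) - (Lv / L + n / L - K + 3 * (t / L) +
            ((b + g) / L - g / L) + μ)))
        (max (((i - 2 * g) / L + 2 * (g / L)) + 2 * ((b + g) / L - g / L) + 3 * (t / L) - K - μ)
          (max (Lv / L - 2 * (((i - 2 * g) / L + 2 * (g / L)) + ((b + g) / L - g / L)))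
            (max (g / L - (b + g) / L) (g / L - θ₂ / L)))) ≤ ε
      have e1 : (b + g) / L - g / L = b / L := by ring
      have e2 : (i - 2 * g) / L + 2 * (g / L) = i / L := by ring
      rw [e1, e2]
      have k1 := dv n'
      have k2 := dv b
      have k3 := dv θ₂
      have k4 := dv n
      have k5 := dv i
      have k6 := dv Lv
      have k7 := dv t
      have k8 := dv g
      have k9 := dv (b + g)
      refine max_le (max_le ?_ ?_) (max_le ?_ (max_le ?_ (max_le ?_ ?_))) <;>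
        refine le_of_mul_le_mul_right ?_ hL <;> linarith
    have h1 := H .r2 ⟨_, hmem⟩ (i - 2 * g) (List.ofFn s') hl0 (by rw [hTK]; nlinarith) hc1 (by
      rw [hLL]; linarith) hG (fun hF => hF.elim)
    have h2 : PM2 (π lam) h (i - 2 * g) (b + g) (List.ofFn s') =
        (LN π h c μ .r2).Φ lam (i - 2 * g) ((LN π h c μ .r2).b
          (th5 ((b + g) / L) (g / L) (θ₂ / L) (t / L) 0) * L) (List.ofFn s') := by
      show PMf (π lam) h (i - 2 * g) (b + g) (List.ofFn s') =
        PMf (π lam) h (i - 2 * g) ((b + g) / L * L) (List.ofFn s')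
      rw [dv]
    rw [h2]
    refine hval _ _ _ _ _ (Real.rpow_nonneg (by linarith) _) h1 hc2 ?_
    rw [hLL]
    show (4 / 3 * (n / L) + (Lv / L + K) / 3 + (t / L - (Lv / L + n / L - 2 * K) / 3 - μ - θ₂ / L -
      max (Lv / L) (max ((i - 2 * g) / L + 2 * (g / L)) (2 / 3 * (Lv / L +
        ((i - 2 * g) / L + 2 * (g / L))))) + ((i - 2 * g) / L + 2 * (g / L)))) * L ≤ _
    have e2 : (i - 2 * g) / L + 2 * (g / L) = i / L := by ring
    rw [e2]
    set Mx : ℝ := max (Lv / L) (max (i / L) (2 / 3 * (Lv / L + i / L))) with hMx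
    have hnr : nr Lv i ≤ Mx * L := by
      unfold MoL106.nr
      refine max_le ?_ (max_le ?_ ?_)
      · calc Lv = Lv / L * L := (dv _).symm
          _ ≤ _ := mul_le_mul_of_nonneg_right (le_max_left _ _) hL.le
      · calc i = i / L * L := (dv _).symm
          _ ≤ _ := mul_le_mul_of_nonneg_right ((le_max_left _ _).trans (le_max_right _ _)) hL.le
      · calc 2 / 3 * (Lv + i) = (2 / 3 * (Lv / L + i / L)) * L := by
              have := dv Lv
              have := dv i
              linarith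
          _ ≤ _ := mul_le_mul_of_nonneg_right ((le_max_right _ _).trans (le_max_right _ _)) hL.le
    have k3 := dv θ₂
    have k4 := dv n
    have k5 := dv i
    have k6 := dv Lv
    have k7 := dv t
    have e3 : (4 / 3 * (n / L) + (Lv / L + K) / 3 + (t / L - (Lv / L + n / L - 2 * K) / 3 - μ -
        θ₂ / L - Mx + i / L)) * L = 4 / 3 * (n / L * L) + (Lv / L * L + K * L) / 3 +
        (t / L * L - (Lv / L * L + n / L * L - 2 * (K * L)) / 3 - μ * L - θ₂ / L * L - Mx * L +
          i / L * L) := by ring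
    rw [e3, k3, k4, k5, k6, k7]
    linarith
  · -- (ga)
    intro s' W0 hW0 hR i b g γ hγ0 hγb hg hl0 hsum hi1 hi2 hi3
    obtain ⟨hc1, hc2⟩ := hch s' W0 hW0 hR
    set n' : ℝ := ∑ k, (s' k).z with hn'
    have hLL : LL Dq (List.ofFn s') = n' := LL_ofFn s'
    have hn'0 : 0 ≤ n' := Finset.sum_nonneg fun k _ => (hR k).z0
    set θ₂ : ℝ := max 0 (n - b - n') with hθ₂
    have hθ0 : 0 ≤ θ₂ := le_max_left _ _
    have hθ1 : n - b - n' ≤ θ₂ := le_max_right _ _
    have hθn : θ₂ ≤ n := max_le hn0 (by linarith)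
    have hθs : n' + b + θ₂ ≤ n + e := by
      rcases le_total 0 (n - b - n') with h1 | h1
      · rw [hθ₂, max_eq_right h1]; linarith
      · rw [hθ₂, max_eq_left h1]; linarith
    have hi4 : i ≤ (K + 2) * L := by linarith
    have hbn : b ≤ (K + 2) * L := by linarith
    have hgn : 2 * g ≤ (K + 2) * L := by linarith
    have dv : ∀ x : ℝ, x / L * L = x := fun x => div_mul_cancel₀ x hL.ne'
    have d0 : ∀ x : ℝ, 0 ≤ x → 0 ≤ x / L := fun x hx => div_nonneg hx hL.le
    have dT : ∀ x : ℝ, x ≤ 10 * (K + 1) * L → x / L ≤ TK K := fun x hx => by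
      rw [hTK, div_le_iff₀ hL]; exact hx
    have hmem := th5_mem (a := (b - γ + g) / L) (b := g / L) (c := θ₂ / L) (d := t / L)
      (e := γ / L)
      (T := TK K) (d0 _ (by linarith)) (d0 _ hg) (d0 _ hθ0) (d0 _ ht0) (d0 _ hγ0)
      (dT _ (by nlinarith)) (dT _ (by nlinarith)) (dT _ (by nlinarith)) (dT _ (by nlinarith))
      (dT _ (by nlinarith))
    have hG : (LN π h c μ .ga).G ![K, Lv / L, n / L, (i - γ - 2 * g) / L,
        LL Dq (List.ofFn s') / L] (th5 ((b - γ + g) / L) (g / L) (θ₂ / L) (t / L) (γ / L)) ≤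
        ε := by
      rw [hLL]
      show max (max (n' / L + ((b - γ + g) / L + γ / L - g / L) + θ₂ / L - n / L)
          (((i - γ - 2 * g) / L + γ / L + 2 * (g / L)) - (Lv / L + n / L - K + 3 * (t / L) +
            ((b - γ + g) / L + γ / L - g / L) + μ)))
        (max (((i - γ - 2 * g) / L + γ / L + 2 * (g / L)) + 2 * ((b - γ + g) / L + γ / L -
            g / L) + 3 * (t / L) - K - μ)
          (max (2 * (((i - γ - 2 * g) / L + γ / L + 2 * (g / L)) + ((b - γ + g) / L + γ / L -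
            g / L)) - Lv / L) (g / L - (b - γ + g) / L))) ≤ ε
      have e1 : (b - γ + g) / L + γ / L - g / L = b / L := by ring
      have e2 : (i - γ - 2 * g) / L + γ / L + 2 * (g / L) = i / L := by ring
      rw [e1, e2]
      have k1 := dv n'
      have k2 := dv b
      have k3 := dv θ₂
      have k4 := dv n
      have k5 := dv i
      have k6 := dv Lv
      have k7 := dv t
      have k8 := dv g
      have k9 := dv (b - γ + g)
      refine max_le (max_le ?_ ?_) (max_le ?_ (max_le ?_ ?_)) <;>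
        refine le_of_mul_le_mul_right ?_ hL <;> linarith
    have h1 := H .ga ⟨_, hmem⟩ (i - γ - 2 * g) (List.ofFn s') hl0 (by rw [hTK]; nlinarith) hc1 (by
      rw [hLL]; linarith) hG (fun hF => hF.elim)
    have h2 : PM2 (π lam) h (i - γ - 2 * g) (b - γ + g) (List.ofFn s') =
        (LN π h c μ .ga).Φ lam (i - γ - 2 * g) ((LN π h c μ .ga).b
          (th5 ((b - γ + g) / L) (g / L) (θ₂ / L) (t / L) (γ / L)) * L) (List.ofFn s') := by
      show PMf (π lam) h (i - γ - 2 * g) (b - γ + g) (List.ofFn s') =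
        PMf (π lam) h (i - γ - 2 * g) ((b - γ + g) / L * L) (List.ofFn s')
      rw [dv]
    rw [h2]
    refine hval _ _ _ _ _ (Real.rpow_nonneg (by linarith) _) h1 hc2 ?_
    rw [hLL]
    show (4 / 3 * (n / L) + (Lv / L + K) / 3 + (t / L - (Lv / L + n / L - 2 * K) / 3 - μ - θ₂ / L -
      Lv / L + ((i - γ - 2 * g) / L + γ / L + 2 * (g / L)) +
      ((b - γ + g) / L + γ / L - g / L) - 2 * (γ / L))) * L ≤ _
    have e1 : (b - γ + g) / L + γ / L - g / L = b / L := by ring
    have e2 : (i - γ - 2 * g) / L + γ / L + 2 * (g / L) = i / L := by ring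
    rw [e1, e2]
    have k2 := dv b
    have k3 := dv θ₂
    have k4 := dv n
    have k5 := dv i
    have k6 := dv Lv
    have k7 := dv t
    have k8 := dv γ
    have e3 : (4 / 3 * (n / L) + (Lv / L + K) / 3 + (t / L - (Lv / L + n / L - 2 * K) / 3 - μ -
        θ₂ / L - Lv / L + i / L + b / L - 2 * (γ / L))) * L =
        4 / 3 * (n / L * L) + (Lv / L * L + K * L) / 3 +
        (t / L * L - (Lv / L * L + n / L * L - 2 * (K * L)) / 3 - μ * L - θ₂ / L * L -
          Lv / L * L + i / L * L + b / L * L - 2 * (γ / L * L)) := by ring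
    rw [e3, k2, k3, k4, k5, k6, k7, k8]
    linarith

end Crest.Agent.R017.RCl83
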