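import Crest.Agent.R017.RClf_83
import Crest.Agent.R017.RClg_83
import Crest.Agent.R017.LBo_813
import Crest.Agent.R017.AL_813
import Crest.Agent.R017.HBs_445

/-!
# Row 17, E2, R-side of the `l`-terms of the tail of (LB) (helper83), part h

* `QB`, `qla_all` : the number of one block for all lists of length `≤ N`
* `nat_bd` : the sup norm of a natural piece
* `Qla_zero` : the trivial case
* `B0L`, `Fc`, `env_blk`, `sz_blk` : the sizes at the leaf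
-/

set_option autoImplicit false
set_option linter.unusedVariables false
set_option maxHeartbeats 1600000

noncomputable section

open Finset
open scoped ComplexConjugate Classical

namespace Crest.Agent.R017.RCl83

open Crest.Agent.R012 Crest.Agent.R012.Eis
open Crest.Agent.R012.LS2 (S mem_S)
open Crest.Agent.R012.Mob705 (pdiv mem_pdiv)
open Crest.Agent.R012.Weight600 (pw)
open Crest.Agent.R017.B770
open Crest.Agent.R017.Prov71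
open Crest.Agent.R017.CM106 (CS FS)
open Crest.Agent.R017.FE47 (cx PU)
open Crest.Agent.R017.HP842 (pc sqc)
open Crest.Agent.R017.TPOk571 (IP SD SD_w sd_ok)
open Crest.Agent.R017.XRG106
open Crest.Agent.R017.X6C180 (IX dl' Sg GF om')
open Crest.Agent.R017.X6545 (TF Bd)
open Crest.Agent.R017.X6W180 (TF1 tf1_tf)
open Crest.Agent.R017.Win813 (iA iA_nonneg WK)
open Crest.Agent.R017.RGw813 (T9)
open Crest.Agent.R017.H1401 (pb mem_pb WM HW DN)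
open Crest.Agent.R017.MoF106
open Crest.Agent.R017.MoL106
open Crest.Agent.R017.QsO83 (bw bw_ne FS_bw)
open Crest.Agent.R017.E2440
open Crest.Agent.R017.QsJ401 (Sz CellN CellJ Nj mem_Bj Tb mem_Tb)
open Crest.Agent.R017.RC106 (PLn k9 le_exp_of_log jmL log2_le1 kdd_all)
open Crest.Agent.R017.MoCa83
open Crest.Agent.R012.Div277 (tau dvs mem_dvs nm_le_of_dvd tau_le_rpow)

/-- the statement of `qla_blk` -/
def QB (h : ℝ → ℝ) (μ : ℝ) (r : ℕ) (ε ε₁ : ℝ) (a₀ M' A' k : ℕ) (C : ℝ) : Prop :=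
  ∀ (F : ℝ → ℂ) (Sf : ℝ), TF1 F → Bd F k Sf → ∀ hh : ℝ, 0 ≤ hh →
      ∀ Cφ η : ℝ, 0 ≤ Cφ → 0 < η → η ≤ 1 → ∀ φ : ℝ → ℝ, WK Cφ η A' φ → ∀ p ∈ T9, ∀ (t₀ : ℝ)
      (Pd : DPar) (hPd : Pd.OK) (s : Fin r → Pq), (∀ i, 0 ≤ (s i).z) → ∀ jp : Fin r → IP,
      (∀ i, FromP hPd (jp i) (s i)) → ∀ γ q : Eis, IsPrim γ → Squarefree γ → IsPrim q →
      ∀ (e₀ Pz X V B0 T X0 Ax t : ℝ) (Λ : Finset Eis) (ρ : Eis → Eis) (W Kl : Eis → ℝ),
      RadOK T Λ ρ → Λ.Nonempty → 1 ≤ T → T ≤ Pz → 2 * X ≤ Pz → 0 ≤ t →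
      (∀ k ∈ Λ, 0 ≤ W k ∧ W k ≤ Real.exp (-t)) →
      (∀ u, φ u ≠ 0 → X / 2 < Real.exp u ∧ Real.exp u ≤ X) →
      (∀ n, ‖bw φ p t₀ (dl γ (TP320.sq (q * γ) ((SD h μ r).w jp))) n‖ ≤ Ax) →
      Ax ≤ Pz ^ a₀ → (nm γ : ℝ) ≤ Pz → (nm q : ℝ) ≤ Pz → (∀ i, Real.exp (s i).z ≤ Pz) →
      ∀ (δ e A : Eis) (y : Eis × Eis) (n κ K Lv d sg Bb : ℝ), κ = K - 3 * t →
      (∀ k ∈ Λ, ∀ c ∈ C4, Sz Pz X V (Kl k) (Real.exp hh) δ e A c y) →
      (∀ k ∈ Λ, EnvL e₀ (ε / 3) Pz X V (Kl k) B0 (Real.exp hh) X0 δ e n κ Lv d) →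
      1 / 2 ≤ B0 → C ≤ e₀ → 0 ≤ Bb → PLn Pd h μ C s n κ Lv (17 * d + 8 * e₀) (2 * e₀) Bb →
      0 ≤ sg → 6 * n ≤ 5 * K + sg → 3 * Lv ≤ 2 * K + sg →
      n = ∑ k, (jp k).z + Real.log (nm γ) →
      Qla (bw φ p t₀ (dl γ (TP320.sq (q * γ) ((SD h μ r).w jp)))) Λ ρ W Kl V (GF (Fh F hh))
        δ e y A ≤
      V ^ (-(1 : ℝ) / 3) / nm e * (C * Sf ^ 2 * Pz ^ ε *
        (Cφ ^ 2 * iA A' * (η * (η ^ A')⁻¹) * X0 ^ ε₁ * (1 + |t₀|) ^ A' * nm γ *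
          (Bb * Real.exp (n + κ - t + 6 * d + 3 * e₀)) +
         X0 ^ ε₁ * Ax ^ 2 * Real.exp (n + K - K / 36 + 7 * d + 2 * sg + 9 * e₀) +
         (Pz ^ M')⁻¹))

lemma QB.mono {h : ℝ → ℝ} {μ : ℝ} {r : ℕ} {ε ε₁ : ℝ} {a₀ M' A' k k' : ℕ} {C C' : ℝ}
    (H : QB h μ r ε ε₁ a₀ M' A' k C) (hC0 : 0 ≤ C) (hk : k ≤ k') (hC : C ≤ C') :
    QB h μ r ε ε₁ a₀ M' A' k' C' := by
  intro F Sf hF hBF hh hhh Cφ η hCφ hη hη1 φ hφ p hp t₀ Pd hPd s hs jp hjp γ q hγ hγs hq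
    e₀ Pz X V B0 T X0 Ax t Λ ρ W Kl hΛ hne hT1 hTP h2X ht hW hφX hAx hAxP hγP hqP hsP δ e A y n κ
    K Lv d sg Bb hκ hSz hEnv hB0h hCe hBb hln hsg h56 h32 hn
  refine (H F Sf hF (fun i hi => hBF i (hi.trans hk)) hh hhh Cφ η hCφ hη hη1 φ hφ p hp t₀ Pd hPd s
    hs jp hjp γ q hγ hγs hq e₀ Pz X V B0 T X0 Ax t Λ ρ W Kl hΛ hne hT1 hTP h2X ht hW hφX hAx hAxP
    hγP hqP hsP δ e A y n κ K Lv d sg Bb hκ hSz hEnv hB0h (hC.trans hCe) hBb (hln.mono hC) hsg h56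
    h32 hn).trans ?_
  obtain ⟨k₀, hk₀⟩ := hne
  have hz := hSz k₀ hk₀ 1 (mem_C4.mpr (Or.inl rfl))
  have hP0 := hz.P0
  have hX0 := (hEnv k₀ hk₀).X0
  have hV0 : 0 < V := by linarith [hz.V1]
  have hiA := iA_nonneg A'
  refine mul_le_mul_of_nonneg_left ?_ (by positivity)
  refine mul_le_mul_of_nonneg_right ?_ (by positivity)
  gcongr

/-- **one block for all lists of length `≤ N`** -/
theorem qla_all {h : ℝ → ℝ} {c₀ : ℝ} (hpu : PU h c₀) {R : ℝ} (hR0 : 0 ≤ R)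
    (hR : ∀ u, cx h u ≠ 0 → |u| ≤ R) {μ : ℝ} (hμ : 0 ≤ μ) (N : ℕ) {ε ε₁ : ℝ} (hε : 0 < ε)
    (hε₁ : 0 < ε₁) (a₀ M' A' : ℕ) (hA' : 2 * (N * μ) + 2 ≤ A') :
    ∃ (k : ℕ) (C : ℝ), 1 ≤ C ∧ ∀ r ≤ N, QB h μ r ε ε₁ a₀ M' A' k C := by
  have key : ∀ r : ℕ, ∃ (k : ℕ) (C : ℝ), 1 ≤ C ∧ (r ≤ N → QB h μ r ε ε₁ a₀ M' A' k C) := by
    intro r
    by_cases hr : r ≤ N
    · have hr' : (r : ℝ) ≤ N := by exact_mod_cast hr
      obtain ⟨k, C, hC, H⟩ := qla_blk hpu hR0 hR hμ r hε hε₁ a₀ M' A' (by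
        have : (r : ℝ) * μ ≤ N * μ := mul_le_mul_of_nonneg_right hr' hμ
        linarith)
      exact ⟨k, C, hC, fun _ => H⟩
    · exact ⟨0, 1, le_rfl, fun h => absurd h hr⟩
  choose k C hC H using key
  refine ⟨∑ r ∈ Finset.range (N + 1), k r, ∑ r ∈ Finset.range (N + 1), C r, ?_, ?_⟩
  · have h1 := Finset.single_le_sum (f := C) (fun i _ => by linarith [hC i])
      (Finset.mem_range.2 (Nat.succ_pos N))
    exact (hC 0).trans h1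
  · intro r hr
    have hm : r ∈ Finset.range (N + 1) := Finset.mem_range.2 (Nat.lt_succ_of_le hr)
    refine (H r hr).mono (by linarith [hC r])
      (Finset.single_le_sum (f := k) (fun _ _ => Nat.zero_le _) hm)
      (Finset.single_le_sum (f := C) (fun i _ => by linarith [hC i]) hm)

/-- **the sup norm of a natural piece** -/
theorem nat_bd {h : ℝ → ℝ} {c₀ : ℝ} (hpu : PU h c₀) (N A' : ℕ) (hA' : 2 ≤ A') {Cφ : ℝ}
    (hCφ : 0 ≤ Cφ) {ε₂ : ℝ} (hε₂ : 0 < ε₂) : ∃ C : ℝ, 1 ≤ C ∧ ∀ (μ : ℝ) (r : ℕ), r ≤ N →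
    ∀ η : ℝ, 0 < η → ∀ φ : ℝ → ℝ, WK Cφ η A' φ → ∀ (p : ℕ × ℕ) (t₀ : ℝ) (jp : Fin r → IP)
    (γ q : Eis), IsPrim γ → Squarefree γ → ∀ P X : ℝ, 1 ≤ P → 0 ≤ X → X ≤ P →
    (∀ u, φ u ≠ 0 → X / 2 < Real.exp u ∧ Real.exp u ≤ X) →
    ∀ n, ‖bw φ p t₀ (dl γ (TP320.sq (q * γ) ((SD h μ r).w jp))) n‖ ≤ C * P ^ ε₂ := by
  obtain ⟨A, hA1, hA⟩ := AL813.cx_bdd hpu
  obtain ⟨Ct, hCt, hτ⟩ := tau_le_rpow (show 0 < ε₂ / (N + 1) by positivity)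
  have hiA := iA_nonneg A'
  refine ⟨(Cφ * iA A') * (Ct ^ N * A ^ N) + 1, by
    have : 0 ≤ (Cφ * iA A') * (Ct ^ N * A ^ N) := by positivity
    linarith, ?_⟩
  intro μ r hr η hη φ hφ p t₀ jp γ q hγ hγs P X hP hX hXP hφX n
  have hP0 : 0 ≤ P := by linarith
  have hPe : 0 ≤ P ^ ε₂ := by positivity
  by_cases h0 : bw φ p t₀ (dl γ (TP320.sq (q * γ) ((SD h μ r).w jp))) n = 0
  · rw [h0, norm_zero]
    positivity
  obtain ⟨-, -, hwin⟩ := bwdl_facts (φ := φ) (p := p) (t₀ := t₀) (q := q)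
    (w := (SD h μ r).w jp) hγ hγs hX hφX
  have hn := hwin n h0
  have hd := bw_ne h0
  obtain ⟨m, hm, hsm⟩ := dl_ne hγ.ne_zero hd
  have hnp := dl_sqf hγ hγs hd
  have hγ1 : (1 : ℝ) ≤ nm γ := by exact_mod_cast nm_pos.2 hγ.ne_zero
  have hm0 : m ≠ 0 := by
    rintro rfl
    exact hnp.1.ne_zero (by rw [hm, mul_zero])
  have hmn : (nm m : ℝ) ≤ P := by
    have h1 : nm m ≤ nm n := nm_le_of_dvd hnp.1.ne_zero ⟨γ, by rw [hm]; ring⟩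
    exact (by exact_mod_cast h1 : (nm m : ℝ) ≤ nm n).trans (hn.2.trans hXP)
  have hm1 : (1 : ℝ) ≤ nm m := by exact_mod_cast nm_pos.2 hm0
  -- the norm of the window
  have h1 : ‖bw φ p t₀ (dl γ (TP320.sq (q * γ) ((SD h μ r).w jp))) n‖ ≤
      (Cφ * iA A') * ‖dl γ (TP320.sq (q * γ) ((SD h μ r).w jp)) n‖ := by
    unfold QsO83.bw RGw813.bt RGw813.tw2 Win813.wn
    rw [norm_mul, norm_mul, norm_mul, RCLike.norm_conj, Complex.norm_real, Real.norm_eq_abs,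
      RG64.norm_pw, mul_one]
    have h2 := CF61.norm_sy_le (w ^ p.1 * lam ^ p.2) n
    have h3 := hφ.le hη hA' (Real.log (nm n))
    have h4 := norm_nonneg (dl γ (TP320.sq (q * γ) ((SD h μ r).w jp)) n)
    calc ‖dl γ (TP320.sq (q * γ) ((SD h μ r).w jp)) n‖ * |φ (Real.log (nm n))| *
          ‖sy (w ^ p.1 * lam ^ p.2) n‖
        ≤ ‖dl γ (TP320.sq (q * γ) ((SD h μ r).w jp)) n‖ * (Cφ * iA A') * 1 := by gcongr
      _ = _ := by ring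
  have h2 : ‖dl γ (TP320.sq (q * γ) ((SD h μ r).w jp)) n‖ ≤ (tau m : ℝ) ^ r * A ^ r := by
    rw [hm, dl_mul hγ.ne_zero]
    unfold TP320.sq
    split_ifs with h3
    · rw [SD_w]
      have h4 := HBs445.norm_al_le hA (fun i => (jp i).pc_OK) m
      rwa [Fintype.card_fin] at h4
    · rw [norm_zero]
      positivity
  have h3 : (tau m : ℝ) ^ r * A ^ r ≤ (Ct ^ N * A ^ N) * P ^ ε₂ := by
    have hCt0 : 0 ≤ Ct := by linarith
    have h4 : (tau m : ℝ) ≤ Ct * P ^ (ε₂ / (N + 1)) := (hτ m hm0).trans (by gcongr)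
    have hPq : 1 ≤ P ^ (ε₂ / (N + 1)) := Real.one_le_rpow hP (by positivity)
    have h5 : (tau m : ℝ) ^ r ≤ (Ct * P ^ (ε₂ / (N + 1))) ^ N := by
      calc (tau m : ℝ) ^ r ≤ (Ct * P ^ (ε₂ / (N + 1))) ^ r := by gcongr
        _ ≤ _ := pow_le_pow_right₀ (one_le_mul_of_one_le_of_one_le hCt hPq) hr
    have h6 : (P ^ (ε₂ / (N + 1))) ^ N ≤ P ^ ε₂ := by
      rw [← Real.rpow_natCast, ← Real.rpow_mul hP0]
      refine Real.rpow_le_rpow_of_exponent_le hP ?_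
      rw [div_mul_eq_mul_div, div_le_iff₀ (by positivity)]
      nlinarith
    calc (tau m : ℝ) ^ r * A ^ r ≤ (Ct * P ^ (ε₂ / (N + 1))) ^ N * A ^ N := by
          have hA0 : 0 ≤ A := by linarith
          have := pow_le_pow_right₀ hA1 hr
          gcongr
      _ = (Ct ^ N * A ^ N) * (P ^ (ε₂ / (N + 1))) ^ N := by rw [mul_pow]; ring
      _ ≤ _ := by gcongr
  calc _ ≤ (Cφ * iA A') * ((Ct ^ N * A ^ N) * P ^ ε₂) :=
        h1.trans (mul_le_mul_of_nonneg_left (h2.trans h3) (by positivity))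
    _ ≤ _ := by nlinarith

/-- the trivial case -/
lemma Qla_zero {α : Eis → ℂ} (hα : FS α) {X : ℝ} (hsp : ∀ n, α n ≠ 0 → (nm n : ℝ) ≤ X)
    {δ : Eis} (hδ : IsPrim δ) {y : Eis × Eis} (hy : y ∈ prs δ) (h : ¬ (nm y.1 : ℝ) ≤ X)
    {V : ℝ} (hV : 0 ≤ V) (Λ : Finset Eis) (ρ : Eis → Eis) (W Kl : Eis → ℝ) (F : ℝ → ℂ)
    (e A : Eis) : Qla α Λ ρ W Kl V F δ e y A = 0 := by
  have h1 : ∀ l a, Qc (alr α a (ρ l / a)) (Kl l) V F δ e y A = 0 := by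
    intro l a
    unfold Qc
    refine Finset.sum_eq_zero fun c _ => Finset.sum_eq_zero fun j₂ _ => ?_
    exact Qs_zero (X := X) (fun n hn => hsp n (alr_ne hn).2.2) hV F (FS_alr hα _ _) hδ hy
      (fun h2 => h h2.2)
  unfold Qla
  refine Finset.sum_eq_zero fun l _ => ?_
  rw [Finset.sum_eq_zero fun a _ => h1 l a, mul_zero]

/-! ### the sizes -/

/-- the crossing of one block -/
def B0L (κ Lv n : ℝ) : ℝ := max (1 / 2) (Real.exp ((2 * κ - Lv - n) / 3))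

lemma B0L_half (κ Lv n : ℝ) : 1 / 2 ≤ B0L κ Lv n := le_max_left _ _

lemma B0L_up {κ Lv n e₀ : ℝ} (he : 0 ≤ e₀) :
    3 * Real.log (B0L κ Lv n) ≤ 2 * κ - Lv - n + 3 * e₀ ∨ B0L κ Lv n < 1 := by
  unfold B0L
  rcases le_total (1 / 2) (Real.exp ((2 * κ - Lv - n) / 3)) with h | h
  · left
    rw [max_eq_right h, Real.log_exp]
    linarith
  · right
    rw [max_eq_left h]
    norm_num

lemma B0L_lo {κ Lv n e₀ : ℝ} (he : 0 ≤ e₀) :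
    2 * κ - Lv - n ≤ 3 * Real.log (B0L κ Lv n) + 3 * e₀ := by
  have h1 : (2 * κ - Lv - n) / 3 ≤ Real.log (B0L κ Lv n) := by
    rw [← Real.log_exp ((2 * κ - Lv - n) / 3)]
    exact Real.log_le_log (Real.exp_pos _) (le_max_right _ _)
  linarith

/-- **the facts at the leaf**, `L = log X` -/
structure Fc (K c μ ε L n Lv e₀ κ₁ : ℝ) (N₁ : ℕ) : Prop where
  c0 : 0 < c
  cμ : 1000 * c ≤ μ
  μ1 : μ ≤ 1
  cK : 2000 * c ≤ K
  ε0 : 0 < ε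
  ec : ε ≤ c
  L1 : 1 ≤ L
  e0 : 10 ≤ e₀
  k9 : k9 ≤ e₀
  eL : 100 * e₀ ≤ ε * L
  n0 : 0 ≤ n
  n56 : 6 * n ≤ 5 * (K * L) + 7 * (ε * L)
  v0 : 0 ≤ Lv
  v3 : 3 * Lv ≤ 2 * (K * L)
  N1 : (N₁ : ℝ) ≤ Real.exp (Lv + 4)
  N1p : 1 ≤ N₁
  κ1 : 20 * (K + 2) ≤ κ₁

section fc
variable {K c μ ε L n Lv e₀ κ₁ : ℝ} {N₁ : ℕ} (hF : Fc K c μ ε L n Lv e₀ κ₁ N₁)
include hF

lemma Fc.cL : 0 < c * L := mul_pos hF.c0 (by linarith [hF.L1])
lemma Fc.cL1 : 1000 * (c * L) ≤ L := by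
  have h1 := hF.cμ
  have h2 := hF.μ1
  have h3 := hF.L1
  nlinarith
lemma Fc.cKL : 2000 * (c * L) ≤ K * L := by
  have h1 := hF.cK
  have h3 := hF.L1
  nlinarith
lemma Fc.εL : ε * L ≤ c * L := mul_le_mul_of_nonneg_right hF.ec (by linarith [hF.L1])
lemma Fc.ecL : 100 * e₀ ≤ c * L := hF.eL.trans hF.εL
lemma Fc.κL : 20 * (K * L) + 40 * L ≤ κ₁ * L := by
  have h1 := hF.κ1
  have h3 := hF.L1
  nlinarith

end fc

/-- **the sizes of one block** -/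
lemma env_blk {K c μ ε L n Lv e₀ κ₁ : ℝ} {N₁ : ℕ} (hF : Fc K c μ ε L n Lv e₀ κ₁ N₁)
    {κ Kf V X εq hh : ℝ} {δ e : Eis} (hκ : -e₀ ≤ κ) (hκK : κ ≤ K * L)
    (hK1 : Real.log Kf ≤ κ + e₀) (hK2 : κ ≤ Real.log Kf + e₀) (hX : Real.log X ≤ n + e₀)
    (hV0 : 0 < V) (hV : V ≤ N₁) (hδ : Real.log (nm δ) ≤ c * L) (he : Real.log (nm e) ≤ c * L)
    (hq : εq * κ₁ ≤ c) (hh1 : hh ≤ 16 * (c * L)) :
    EnvL e₀ εq (Real.exp (κ₁ * L)) X V Kf (B0L κ Lv n) (Real.exp hh) (Real.exp (κ₁ * L)) δ e n κ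
      Lv (2 * (c * L)) where
  e0 := hF.e0
  k9 := hF.k9
  d0 := by linarith [hF.cL]
  n0 := hF.n0
  K0 := hκ
  v0 := hF.v0
  lX := hX
  lV := by
    have h1 : Real.log V ≤ Real.log (Real.exp (Lv + 4)) :=
      Real.log_le_log hV0 (hV.trans hF.N1)
    rw [Real.log_exp] at h1
    linarith [hF.e0]
  lK := hK1
  lK' := hK2
  lT := by
    rw [Real.log_exp]
    have h1 := hF.L1
    have h2 : εq * κ₁ * L ≤ c * L := mul_le_mul_of_nonneg_right hq (by linarith)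
    have h3 := hF.cL
    nlinarith
  lH := by
    rw [Real.log_exp]
    linarith
  lδ := by linarith [hF.cL]
  le := by linarith [hF.cL]
  B1 := by linarith [B0L_half κ Lv n]
  lB := B0L_up (by linarith [hF.e0])
  lB' := B0L_lo (by linarith [hF.e0])
  lX0 := by
    rw [Real.log_exp]
    have h1 := hF.κL
    have h2 := hF.n56
    have h3 := hF.v3
    have h4 := hF.cL1
    have h5 := hF.ecL
    have h6 := hF.εL
    have h7 := hF.cL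
    have h8 := hF.cKL
    have h9 := hF.L1
    linarith
  X0 := Real.exp_pos _

/-- **the sizes of one block**, second part -/
lemma sz_blk {K c μ ε L n Lv e₀ κ₁ : ℝ} {N₁ : ℕ} (hF : Fc K c μ ε L n Lv e₀ κ₁ N₁)
    {κ Kf V X hh : ℝ} {δ e A σ : Eis} {y : Eis × Eis} (hκ : -e₀ ≤ κ) (hκK : κ ≤ K * L)
    (hKf : 0 < Kf)
    (hK1 : Real.log Kf ≤ κ + e₀) (hK2 : κ ≤ Real.log Kf + e₀) (hX0 : 0 < X)
    (hX : Real.log X ≤ n + e₀)
    (hV1 : 1 ≤ V) (hV : V ≤ N₁) (hδp : IsPrim δ) (hδs : Squarefree δ)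
    (hδ : Real.log (nm δ) ≤ c * L) (hep : IsPrim e) (he : Real.log (nm e) ≤ c * L)
    (hh0 : 0 ≤ hh) (hh1 : hh ≤ 16 * (c * L)) (hy : y ∈ prs δ) (hA : A ∈ pdiv y.1)
    (hyX : (nm y.1 : ℝ) ≤ X) (hσ : σ ∈ C4) :
    Sz (Real.exp (κ₁ * L)) X V Kf (Real.exp hh) δ e A σ y := by
  have h1 := hF.κL
  have h2 := hF.n56
  have h3 := hF.v3
  have h4 := hF.cL1
  have h5 := hF.ecL
  have h6 := hF.εL
  have h7 := hF.cL
  have h8 := hF.cKL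
  have h9 := hF.L1
  have h10 := hF.v0
  have h11 := hF.n0
  have h12 := hF.e0
  have hle : ∀ {x : ℝ}, 0 < x → Real.log x ≤ κ₁ * L → x ≤ Real.exp (κ₁ * L) :=
    fun hx h => le_exp_of_log hx h
  refine ⟨?_, ?_, ?_, ?_, ?_, hV1, hKf, ?_, ?_, hδp, hδs, ?_, hep, ?_, hy, hA, hyX, hσ⟩
  · exact Real.one_le_exp (by linarith)
  · exact Real.one_le_exp hh0
  · exact Real.exp_le_exp.2 (by linarith)
  · exact hle hX0 (by linarith)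
  · refine (hV.trans hF.N1).trans (Real.exp_le_exp.2 (by linarith))
  · refine hle (by positivity) ?_
    rw [Real.log_inv]
    linarith
  · exact hle hKf (by linarith)
  · exact hle (by exact_mod_cast nm_pos.2 hδp.ne_zero) (by linarith)
  · exact hle (by exact_mod_cast nm_pos.2 hep.ne_zero) (by linarith)

end Crest.Agent.R017.RCl83
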