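import Crest.Agent.R017.RClh_83
import Crest.Agent.R017.CubP_813

/-!
# Row 17, E2, R-side of the `l`-terms of the tail of (LB) (helper83), part i

* `blk_list` : the `l`-sum of `REb` over one dyadic block, for a flagged list
-/

set_option autoImplicit false
set_option linter.unusedVariables false
set_option maxHeartbeats 1600000

noncomputable section

open Finset
open scoped ComplexConjugate Classical

namespace Crest.Agent.R017.RCl83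

open Crest.Agent.R012 Crest.Agent.R012.Eis
open Crest.Agent.R012.LS2 (S mem_S)
open Crest.Agent.R012.Mob705 (pdiv mem_pdiv)
open Crest.Agent.R012.Weight600 (pw)
open Crest.Agent.R017.B770
open Crest.Agent.R017.Prov71
open Crest.Agent.R017.CM106 (CS FS)
open Crest.Agent.R017.FE47 (cx PU)
open Crest.Agent.R017.HP842 (pc sqc)
open Crest.Agent.R017.Leg381 (alf alF Pf LF LF_get)
open Crest.Agent.R017.TPOk571 (IP SD SD_w sd_ok)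
open Crest.Agent.R017.XRG106
open Crest.Agent.R017.X6C180 (IX dl' Sg GF om')
open Crest.Agent.R017.X6545 (TF Bd)
open Crest.Agent.R017.X6W180 (TF1 tf1_tf)
open Crest.Agent.R017.Win813 (iA iA_nonneg WK)
open Crest.Agent.R017.RGw813 (T9)
open Crest.Agent.R017.MoF106
open Crest.Agent.R017.MoL106
open Crest.Agent.R017.QsO83 (bw bw_ne FS_bw)
open Crest.Agent.R017.E2440
open Crest.Agent.R017.QsJ401 (Sz)
open Crest.Agent.R017.RC106 (PLn k9 le_exp_of_log log2_le1)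
open Crest.Agent.R017.LBx48 (REb neb R2)
open Crest.Agent.R017.MoCa83
open Crest.Agent.R017.CubP813 (rl rl_prim rl_sqf rl_dvd)
open Crest.Agent.R012.Div277 (tau dvs mem_dvs nm_le_of_dvd tau_le_rpow)

lemma ge_half {V : ℝ} {I i : ℕ} (hI : (2 : ℝ) ^ I ≤ 2 * V) (hi : i < I) : 1 ≤ V / 2 ^ i := by
  rw [one_le_div (by positivity)]
  have h1 : (2 : ℝ) ^ (i + 1) ≤ 2 ^ I := pow_le_pow_right₀ (by norm_num) hi
  rw [pow_succ] at h1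
  linarith

lemma cancel3 {x a N : ℝ} (hx : 0 < x) (ha : 1 ≤ a) (hN : 0 ≤ N) :
    x ^ (1 / 3 : ℝ) / a * (x ^ (-(1 : ℝ) / 3) / a * N) ≤ N := by
  have h1 : x ^ (1 / 3 : ℝ) * x ^ (-(1 : ℝ) / 3) = 1 := by
    rw [← Real.rpow_add hx]
    norm_num
  have ha0 : 0 < a := by linarith
  calc x ^ (1 / 3 : ℝ) / a * (x ^ (-(1 : ℝ) / 3) / a * N) =
        (x ^ (1 / 3 : ℝ) * x ^ (-(1 : ℝ) / 3)) * N / (a * a) := by field_simp
    _ = N / (a * a) := by rw [h1, one_mul]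
    _ ≤ N := div_le_self hN (by nlinarith)

/-- the sum over `(δ, i, e)` -/
lemma sum_cells (S1 S2 : Finset Eis) (nb : Eis → Finset ℕ) {I : ℕ}
    (hnb : ∀ δ, ((nb δ).card : ℝ) ≤ I) {V : ℝ} (hV : 0 < V) {Q : ℝ} (hQ : 0 ≤ Q)
    (he : ∀ e ∈ S2, (1 : ℝ) ≤ nm e) :
    ∑ δ ∈ S1, ∑ i ∈ nb δ, ∑ e ∈ S2, ((V / 2 ^ i) ^ (1 / 3 : ℝ) / nm e) *
      ((V / 2 ^ i) ^ (-(1 : ℝ) / 3) / nm e * Q) ≤ S1.card * (I * (S2.card * Q)) := by
  have h3 : ∀ δ ∈ S1, ∑ i ∈ nb δ, ∑ e ∈ S2, ((V / 2 ^ i) ^ (1 / 3 : ℝ) / nm e) *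
      ((V / 2 ^ i) ^ (-(1 : ℝ) / 3) / nm e * Q) ≤ I * (S2.card * Q) := by
    intro δ hδ
    have h4 : ∀ i ∈ nb δ, ∑ e ∈ S2, ((V / 2 ^ i) ^ (1 / 3 : ℝ) / nm e) *
      ((V / 2 ^ i) ^ (-(1 : ℝ) / 3) / nm e * Q) ≤ S2.card * Q := by
      intro i hi
      refine (Finset.sum_le_sum fun e he' => cancel3 (by positivity) (he e he') hQ).trans ?_
      rw [Finset.sum_const, nsmul_eq_mul]
    refine (Finset.sum_le_sum h4).trans ?_
    rw [Finset.sum_const, nsmul_eq_mul]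
    exact mul_le_mul_of_nonneg_right (hnb δ) (by positivity)
  refine (Finset.sum_le_sum h3).trans ?_
  rw [Finset.sum_const, nsmul_eq_mul]

lemma dvd_rl_of_prime {l p : Eis} (hl : IsPrim l) (hp : Prime p) (hpl : p ∣ l) : p ∣ rl l := by
  have h1 : ¬ lam ∣ p := fun h => hl.not_lam_dvd (h.trans hpl)
  obtain ⟨y, hy, ha⟩ := exists_isPrim_associated h1
  have h2 : y ∈ Mob705.pp l := (Mob705.mem_pp hl.ne_zero).2
    ⟨⟨hy, ha.prime hp⟩, ha.symm.dvd.trans hpl⟩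
  exact ha.dvd.trans (Finset.dvd_prod_of_mem _ h2)

/-- the radicals of a block -/
lemma rad_rl {T : ℝ} {Λ : Finset Eis} (h : ∀ l ∈ Λ, IsPrim l ∧ (nm l : ℝ) ≤ T) :
    RadOK T Λ rl where
  prim l hl := (h l hl).1
  le l hl := (h l hl).2
  rp l _ := rl_prim l
  rs l _ := rl_sqf l
  dvd l _ := rl_dvd l
  rad l hl p hp hpl := by
    exact dvd_rl_of_prime (h l hl).1 hp hpl

/-- the number of one block -/
def Nq (K c ε L n e₀ κ₁ Cφ η Sf D0 Bb Cb t₀ κ t εq ε₁ ε₂ : ℝ) (A' N : ℕ) : ℝ :=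
  Sf ^ 2 * Real.exp (κ₁ * L) ^ εq *
    (Cφ ^ 2 * iA A' * (η * (η ^ A')⁻¹) * Real.exp (κ₁ * L) ^ ε₁ * (1 + |t₀|) ^ A' * D0 ^ N *
        (Bb * Real.exp (n + κ - t + 6 * (2 * (c * L)) + 3 * e₀)) +
      Real.exp (κ₁ * L) ^ ε₁ * (Cb * Real.exp (κ₁ * L) ^ ε₂) ^ 2 *
        Real.exp (n + K * L - K * L / 36 + 7 * (2 * (c * L)) + 2 * (7 * (ε * L)) + 9 * e₀) +
      (Real.exp (κ₁ * L) ^ 1)⁻¹)

/-- **the `l`-sum of `REb` over one block, for a flagged list** -/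
theorem blk_list {h : ℝ → ℝ} {c₁ : ℝ} (hpu : PU h c₁) {R : ℝ} (hR0 : 0 ≤ R)
    (hR : ∀ u, cx h u ≠ 0 → |u| ≤ R) {μc : ℝ} (hμc : 0 ≤ μc) (N : ℕ) {εq ε₁ ε₂ : ℝ}
    (hεq : 0 < εq) (hε₁ : 0 < ε₁) (hε₂ : 0 < ε₂) (hε₂1 : ε₂ ≤ 1 / 2) (A' : ℕ)
    (hA' : 2 * (N * μc) + 2 ≤ A') {Cφ : ℝ} (hCφ : 0 ≤ Cφ) :
    ∃ (k : ℕ) (C : ℝ), 1 ≤ C ∧ ∀ (Fw : ℝ → ℂ) (Sf : ℝ), TF1 Fw → Bd Fw k Sf →
      ∀ (K c μ ε L n Lv e₀ κ₁ : ℝ) (N₁ : ℕ), Fc K c μ ε L n Lv e₀ κ₁ N₁ → C ≤ e₀ →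
      εq / 3 * κ₁ ≤ c → ∀ (Pd : DPar) (hPd : Pd.OK) (ps : List Pf), ps.length ≤ N → LF ps = n →
      (∀ x ∈ ps, 0 ≤ x.1.z ∧ x.1.z ≤ κ₁ * L) → ∀ z D0 : ℝ, 1 ≤ D0 →
      D0 ^ N ≤ Real.exp (κ₁ * L) →
      ∀ q : Eis, IsPrim q → (nm q : ℝ) ≤ Real.exp (κ₁ * L) → ∀ η : ℝ, 0 < η → η ≤ 1 →
      ∀ φ : ℝ → ℝ, WK Cφ η A' φ → ∀ p ∈ T9, ∀ (t₀ X : ℝ), 0 < X → Real.log X ≤ n + e₀ →
      (∀ u, φ u ≠ 0 → X / 2 < Real.exp u ∧ Real.exp u ≤ X) →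
      ∀ (κ t : ℝ) (Λ : Finset Eis) (Kl : Eis → ℝ), 0 ≤ t → κ = K * L - 3 * t → -e₀ ≤ κ →
      (∀ l ∈ Λ, IsPrim l ∧ Real.exp t ≤ nm l ∧ (nm l : ℝ) ≤ Real.exp (κ₁ * L) ∧ 0 < Kl l ∧
        Real.log (Kl l) ≤ κ + e₀ ∧ κ ≤ Real.log (Kl l) + e₀) →
      ∀ Bb : ℝ, 0 ≤ Bb → PLn Pd h μc C (fun i => (ps.get i).1) (LF ps) κ Lv
        (17 * (2 * (c * L)) + 8 * e₀) (2 * e₀) Bb →
      ∀ (Dd E0 hh : ℝ), 0 ≤ Dd → Dd ≤ Real.exp (c * L) → 0 ≤ E0 → E0 ≤ Real.exp (c * L) →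
      0 ≤ hh → hh ≤ 16 * (c * L) → ∀ I : ℕ, (2 : ℝ) ^ I ≤ 2 * N₁ →
      ∑ l ∈ Λ, (nm l : ℝ)⁻¹ * ∑ a ∈ dvs (rl l),
        REb (alr (bw φ p t₀ (sqc q (alF z D0 Pd h ps))) a (rl l / a)) (Kl l) (GF (Fh Fw hh))
          ((S Dd).filter (fun δ => rl l / a ∣ δ)) I E0 N₁ N₁ ≤
      C * Real.exp (κ₁ * L) ^ εq * ((100 * D0) ^ ps.length) ^ 2 *
        ((S Dd).card * (I * ((S E0).card *
          Nq K c ε L n e₀ κ₁ Cφ η Sf D0 Bb C t₀ κ t εq ε₁ ε₂ A' N))) := by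
  have hA2 : 2 ≤ A' := by
    have h1 : 0 ≤ (N : ℝ) * μc := by positivity
    have : (2 : ℝ) ≤ A' := by linarith
    exact_mod_cast this
  obtain ⟨k, C₁, hC₁, H1⟩ := qla_all hpu hR0 hR hμc N hεq hε₁ 1 1 A' hA'
  obtain ⟨C₂, hC₂, H2⟩ := REb_lsum_list hεq
  obtain ⟨C₃, hC₃, H3⟩ := nat_bd hpu N A' hA2 hCφ hε₂
  have hCC : C₁ * C₂ + C₁ + C₃ ≤ C₁ * C₂ + C₁ + C₃ := le_rfl
  have h12 : 0 ≤ C₁ * C₂ := by positivity
  refine ⟨k, C₁ * C₂ + C₁ + C₃, by linarith, ?_⟩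
  set C : ℝ := C₁ * C₂ + C₁ + C₃ with hCdef
  intro Fw Sf hF hBF K c μ ε L n Lv e₀ κ₁ N₁ hFc hCe hεκ Pd hPd ps hlen hLF hz z D0 hD0 hDN q hq
    hqP η hη hη1 φ hφ p hp t₀ X hX0 hlX hφX κ t Λ Kl ht hκ hκe hΛ Bb hBb hln Dd E0 hh hDd0 hDd hE0
    hE0c hh0 hh1 I hI
  have f1 := hFc.κL
  have f2 := hFc.n56
  have f3 := hFc.v3
  have f4 := hFc.cL1
  have f5 := hFc.ecL
  have f6 := hFc.εL
  have f7 := hFc.cL
  have f8 := hFc.cKL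
  have f9 := hFc.L1
  have f10 := hFc.v0
  have f11 := hFc.n0
  have f12 := hFc.e0
  have f13 := hFc.ε0
  have hεL0 : 0 ≤ ε * L := by positivity
  set P : ℝ := Real.exp (κ₁ * L) with hP
  have hP0 : 0 < P := Real.exp_pos _
  have hκL0 : 0 ≤ κ₁ * L := by linarith
  have hP1 : 1 ≤ P := Real.one_le_exp hκL0
  have hiA := iA_nonneg A'
  have hκK : κ ≤ K * L := by linarith
  have hXP : X ≤ P := le_exp_of_log hX0 (by linarith)
  have h2XP : 2 * X ≤ P := by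
    have h1 : X ≤ Real.exp (n + e₀) := le_exp_of_log hX0 hlX
    have h2 : (2 : ℝ) ≤ Real.exp 1 := by
      have := Real.add_one_le_exp (1 : ℝ); linarith
    calc 2 * X ≤ Real.exp 1 * Real.exp (n + e₀) := by gcongr
      _ = Real.exp (1 + (n + e₀)) := by rw [← Real.exp_add]
      _ ≤ _ := Real.exp_le_exp.2 (by linarith)
  have hN₁1 : (1 : ℝ) ≤ N₁ := by exact_mod_cast hFc.N1p
  have hC0 : 0 ≤ C := by linarith
  have hC1 : 1 ≤ C := by linarith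
  set Q : ℝ := Nq K c ε L n e₀ κ₁ Cφ η Sf D0 Bb C t₀ κ t εq ε₁ ε₂ A' N with hQ
  have hQ0 : 0 ≤ Q := by
    rw [hQ]
    unfold Nq
    positivity
  -- the set of `δ`, `e`
  have hδ' : ∀ δ ∈ S Dd, IsPrim δ ∧ Squarefree δ ∧ Real.log (nm δ) ≤ c * L ∧ (nm δ : ℝ) ≤ P := by
    intro δ hδ
    obtain ⟨h1, h2, h3⟩ := (mem_S hDd0).1 hδ
    have hδ0 : (0 : ℝ) < nm δ := by exact_mod_cast nm_pos.2 h2.ne_zero
    have h4 := (Real.log_le_iff_le_exp hδ0).2 (h1.trans hDd)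
    exact ⟨h2, h3, h4, le_exp_of_log hδ0 (by linarith)⟩
  have he' : ∀ e ∈ S E0, IsPrim e ∧ Real.log (nm e) ≤ c * L := by
    intro e he
    obtain ⟨h1, h2, h3⟩ := (mem_S hE0).1 he
    have he0 : (0 : ℝ) < nm e := by exact_mod_cast nm_pos.2 h2.ne_zero
    exact ⟨h2, (Real.log_le_iff_le_exp he0).2 (h1.trans hE0c)⟩
  have hW : ∀ l ∈ Λ, 0 ≤ (nm l : ℝ)⁻¹ := fun l _ => by positivity
  have hKl : ∀ l ∈ Λ, 0 < Kl l := fun l hl => (hΛ l hl).2.2.2.1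
  have hRad : RadOK P Λ rl := rad_rl fun l hl => ⟨(hΛ l hl).1, (hΛ l hl).2.2.1⟩
  have key := H2 h R hR μc Pd hPd ps z D0 hD0 q φ p t₀ P E0 (N₁ : ℝ) (N₁ : ℝ) (S Dd) I
    (GF (Fh Fw hh)) (bs_Fh (tf1_tf hF) hh0) Λ rl (fun l => (nm l : ℝ)⁻¹) Kl hW hKl
    (by linarith) (fun δ hδ => ⟨(hδ' δ hδ).1, (hδ' δ hδ).2.2.2⟩)
    (fun δ i e => ((N₁ : ℝ) / 2 ^ i) ^ (-(1 : ℝ) / 3) / nm e * (C₁ * Q))
    (fun δ _ i _ e _ => by positivity) ?_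
  · refine key.trans ?_
    have h2 := sum_cells (S Dd) (S E0) (fun δ => neb δ (N₁ : ℝ) (N₁ : ℝ) I) (I := I) (fun δ => by
        have h6 : (neb δ (N₁ : ℝ) (N₁ : ℝ) I).card ≤ (Finset.range I).card := by
          unfold LBx48.neb
          exact Finset.card_filter_le _ _
        rw [Finset.card_range] at h6
        exact_mod_cast h6) (V := (N₁ : ℝ)) (by linarith) (Q := C₁ * Q)
      (mul_nonneg (by linarith) hQ0) (fun e he => by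
        exact_mod_cast nm_pos.2 (he' e he).1.ne_zero)
    have h3 := mul_le_mul_of_nonneg_left h2
      (show 0 ≤ C₂ * P ^ εq * ((100 * D0) ^ ps.length) ^ 2 by positivity)
    refine h3.trans ?_
    clear_value Q P
    calc C₂ * P ^ εq * ((100 * D0) ^ ps.length) ^ 2 * ((S Dd).card * (I * ((S E0).card *
          (C₁ * Q)))) = (C₁ * C₂) * (P ^ εq * ((100 * D0) ^ ps.length) ^ 2 *
            ((S Dd).card * (I * ((S E0).card * Q)))) := by ring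
      _ ≤ C * (P ^ εq * ((100 * D0) ^ ps.length) ^ 2 *
            ((S Dd).card * (I * ((S E0).card * Q)))) :=
          mul_le_mul_of_nonneg_right (by linarith) (by positivity)
      _ = _ := by ring
  · intro δ hδ i hi e he y hy A hA γ hγ hγs hγq hγD j hj hjz
    obtain ⟨d1, d2, d3, d4⟩ := hδ' δ hδ
    obtain ⟨e1, e2⟩ := he' e he
    have hiI : i < I := by
      unfold LBx48.neb at hi
      exact Finset.mem_range.1 (Finset.mem_filter.1 hi).1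
    have hV1 : 1 ≤ (N₁ : ℝ) / 2 ^ i := ge_half hI hiI
    have hVN : (N₁ : ℝ) / 2 ^ i ≤ N₁ := div_le_self (by linarith) (one_le_pow₀ (by norm_num))
    obtain ⟨hFS, hsq, hwin⟩ := bwdl_facts (φ := φ) (p := p) (t₀ := t₀) (q := q)
      (w := (SD h μc ps.length).w j) hγ hγs hX0.le hφX
    by_cases hyX : (nm y.1 : ℝ) ≤ X
    swap
    · rw [Qla_zero hFS (fun n hn => (hwin n hn).2) d1 hy hyX (by linarith)]
      positivity
    rcases Λ.eq_empty_or_nonempty with hΛ0 | hne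
    · have h0 : Qla (bw φ p t₀ (dl γ (TP320.sq (q * γ) ((SD h μc ps.length).w j)))) Λ rl
          (fun l => (nm l : ℝ)⁻¹) Kl ((N₁ : ℝ) / 2 ^ i) (GF (Fh Fw hh)) δ e y A = 0 := by
        unfold Qla
        rw [hΛ0, Finset.sum_empty]
      rw [h0]
      positivity
    have hD0N : D0 ^ ps.length ≤ D0 ^ N := pow_le_pow_right₀ hD0 hlen
    have hγN : (nm γ : ℝ) ≤ D0 ^ N := hγD.trans hD0N
    have hAx : C₃ * P ^ ε₂ ≤ P ^ 1 := by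
      have h1 : C₃ ≤ Real.exp e₀ := by
        have := Real.add_one_le_exp e₀
        linarith
      rw [pow_one, hP, ← Real.exp_mul]
      calc C₃ * Real.exp (κ₁ * L * ε₂) ≤ Real.exp e₀ * Real.exp (κ₁ * L * ε₂) := by gcongr
        _ = Real.exp (e₀ + κ₁ * L * ε₂) := by rw [← Real.exp_add]
        _ ≤ _ := by
          refine Real.exp_le_exp.2 ?_
          have : κ₁ * L * ε₂ ≤ κ₁ * L * (1 / 2) := mul_le_mul_of_nonneg_left hε₂1 hκL0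
          linarith
    have hmain := H1 ps.length hlen Fw Sf hF hBF hh hh0 Cφ η hCφ hη hη1 φ hφ p hp t₀ Pd hPd
      (fun i => (ps.get i).1) (fun i => (hz _ (List.get_mem _ _)).1) j hj γ q hγ hγs hq e₀ P X
      ((N₁ : ℝ) / 2 ^ i) (B0L κ Lv n) P P (C₃ * P ^ ε₂) t Λ rl (fun l => (nm l : ℝ)⁻¹) Kl hRad hne
      hP1 le_rfl h2XP ht (fun l hl => ⟨by positivity, by
        rw [Real.exp_neg]
        exact inv_anti₀ (Real.exp_pos _) (hΛ l hl).2.1⟩) hφX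
      (fun m => H3 μc ps.length hlen η hη φ hφ p t₀ j γ q hγ hγs P X hP1 hX0.le hXP hφX m)
      hAx (hγN.trans hDN) hqP (fun i => Real.exp_le_exp.2 (hz _ (List.get_mem _ _)).2)
      δ e A y n κ (K * L) Lv (2 * (c * L)) (7 * (ε * L)) Bb hκ
      (fun l hl σ hσ => sz_blk hFc hκe hκK (hKl l hl) (hΛ l hl).2.2.2.2.1 (hΛ l hl).2.2.2.2.2
        hX0 hlX hV1 hVN d1 d2 d3 e1 e2 hh0 hh1 hy hA hyX hσ)
      (fun l hl => env_blk hFc hκe hκK (hΛ l hl).2.2.2.2.1 (hΛ l hl).2.2.2.2.2 hlX (by linarith)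
        hVN d3 e2 hεκ hh1)
      (B0L_half _ _ _) (by linarith) hBb (by
        have := hln.mono (show C₁ ≤ C by linarith)
        rw [hLF] at this
        exact this) (by linarith) (by linarith)
      (by linarith) (by rw [hjz, hLF]; ring)
    refine hmain.trans ?_
    have he1 : (0 : ℝ) < nm e := by exact_mod_cast nm_pos.2 e1.ne_zero
    refine mul_le_mul_of_nonneg_left ?_ (by positivity)
    rw [hQ]
    unfold Nq
    rw [← hP]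
    have hC3C : C₃ ≤ C := by linarith
    have hpA0 : 0 ≤ Cφ ^ 2 * iA A' * (η * (η ^ A')⁻¹) := by positivity
    calc C₁ * Sf ^ 2 * P ^ εq * (Cφ ^ 2 * iA A' * (η * (η ^ A')⁻¹) * P ^ ε₁ *
          (1 + |t₀|) ^ A' * (nm γ : ℝ) *
          (Bb * Real.exp (n + κ - t + 6 * (2 * (c * L)) + 3 * e₀)) +
          P ^ ε₁ * (C₃ * P ^ ε₂) ^ 2 *
            Real.exp (n + K * L - K * L / 36 + 7 * (2 * (c * L)) + 2 * (7 * (ε * L)) + 9 * e₀) +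
          (P ^ 1)⁻¹)
        ≤ C₁ * Sf ^ 2 * P ^ εq * (Cφ ^ 2 * iA A' * (η * (η ^ A')⁻¹) * P ^ ε₁ *
          (1 + |t₀|) ^ A' * D0 ^ N *
          (Bb * Real.exp (n + κ - t + 6 * (2 * (c * L)) + 3 * e₀)) +
          P ^ ε₁ * (C * P ^ ε₂) ^ 2 *
            Real.exp (n + K * L - K * L / 36 + 7 * (2 * (c * L)) + 2 * (7 * (ε * L)) + 9 * e₀) +
          (P ^ 1)⁻¹) := by gcongr
      _ = _ := by ring

end Crest.Agent.R017.RCl83
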