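import Crest.Agent.R017.RCli_83
import Crest.Agent.R017.EtA_404

/-!
# Row 17, E2, R-side of the `l`-terms of the tail of (LB) (helper83), part j

* `nq_le` : the number of one block is uniform
* `rl1_le` : `RL1` from the dyadic blocks
-/

set_option autoImplicit false
set_option linter.unusedVariables false
set_option maxHeartbeats 800000

noncomputable section

open Finset
open scoped ComplexConjugate Classical

namespace Crest.Agent.R017.RCl83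

open Crest.Agent.R012 Crest.Agent.R012.Eis
open Crest.Agent.R012.LS2 (S mem_S)
open Crest.Agent.R017.X6C180 (GF)
open Crest.Agent.R017.Win813 (iA iA_nonneg WK)
open Crest.Agent.R017.E2440 (Fh)
open Crest.Agent.R017.LBx48 (REb neb R2)
open Crest.Agent.R017.CubP813 (rl rl_prim rl_sqf rl_dvd)
open Crest.Agent.R017.Et404 (RL1 Lset)
open Crest.Agent.R012.Div277 (tau dvs mem_dvs nm_le_of_dvd tau_le_rpow)

/-- **the number of one block is uniform** -/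
lemma nq_le {K c μ ε L n Lv e₀ κ₁ Cφ η Sf D0 Bd' Cb t₀ κ t εq ε₁ ε₂ : ℝ} {A' N N₁ : ℕ}
    (hF : Fc K c μ ε L n Lv e₀ κ₁ N₁) (hη : 0 < η) (hD : 0 ≤ D0)
    (hq : κ₁ * εq ≤ c / 100) (h1 : κ₁ * ε₁ ≤ c / 100) (h2 : κ₁ * ε₂ ≤ c / 100)
    (hDN : D0 ^ N ≤ Real.exp (c * L / 100)) (hBd : 1 ≤ Bd') (hκ : κ = K * L - 3 * t) :
    Nq K c ε L n e₀ κ₁ Cφ η Sf D0 (Bd' * Real.exp (4 * t - μ * L)) Cb t₀ κ t εq ε₁ ε₂ A' N ≤
      Sf ^ 2 * (Cφ ^ 2 * iA A' * (η * (η ^ A')⁻¹) * Real.exp (3 * e₀) +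
        Cb ^ 2 * Real.exp (9 * e₀) + 1) *
        (Bd' * (1 + |t₀|) ^ A' * Real.exp (n + K * L - 10 * (c * L))) := by
  have f1 := hF.κL
  have f4 := hF.cL1
  have f6 := hF.εL
  have f7 := hF.cL
  have f8 := hF.cKL
  have f9 := hF.L1
  have f11 := hF.n0
  have f14 := hF.cμ
  have hL0 : 0 ≤ L := by linarith
  have hμL : 1000 * (c * L) ≤ μ * L := by nlinarith
  have hiA := iA_nonneg A'
  have hE : ∀ {x : ℝ}, κ₁ * x ≤ c / 100 → Real.exp (κ₁ * L) ^ x ≤ Real.exp (c * L / 100) := by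
    intro x hx
    rw [← Real.exp_mul]
    refine Real.exp_le_exp.2 ?_
    have : κ₁ * x * L ≤ c / 100 * L := mul_le_mul_of_nonneg_right hx hL0
    linarith
  have q1 := hE hq
  have q2 := hE h1
  have q3 := hE h2
  have p0 : ∀ x : ℝ, 0 ≤ Real.exp (κ₁ * L) ^ x := fun x => by positivity
  have hT : 1 ≤ (1 + |t₀|) ^ A' := one_le_pow₀ (by linarith [abs_nonneg t₀])
  set E : ℝ := Real.exp (c * L / 100) with hEd
  have hE0 : 0 ≤ E := (Real.exp_pos _).le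
  set U : ℝ := Real.exp (n + K * L - 10 * (c * L)) with hU
  have hU0 : 0 ≤ U := (Real.exp_pos _).le
  set pA : ℝ := Cφ ^ 2 * iA A' * (η * (η ^ A')⁻¹) with hpA
  have hpA0 : 0 ≤ pA := by positivity
  have hBU : U ≤ Bd' * (1 + |t₀|) ^ A' * U := by
    have : 1 ≤ Bd' * (1 + |t₀|) ^ A' := one_le_mul_of_one_le_of_one_le hBd hT
    nlinarith
  -- the first term
  have r1 : Real.exp (κ₁ * L) ^ εq * (pA * Real.exp (κ₁ * L) ^ ε₁ * (1 + |t₀|) ^ A' * D0 ^ N *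
      (Bd' * Real.exp (4 * t - μ * L) * Real.exp (n + κ - t + 6 * (2 * (c * L)) + 3 * e₀))) ≤
      pA * Real.exp (3 * e₀) * (Bd' * (1 + |t₀|) ^ A' * U) := by
    calc Real.exp (κ₁ * L) ^ εq * (pA * Real.exp (κ₁ * L) ^ ε₁ * (1 + |t₀|) ^ A' * D0 ^ N *
        (Bd' * Real.exp (4 * t - μ * L) * Real.exp (n + κ - t + 6 * (2 * (c * L)) + 3 * e₀)))
        ≤ E * (pA * E * (1 + |t₀|) ^ A' * E *
        (Bd' * Real.exp (4 * t - μ * L) * Real.exp (n + κ - t + 6 * (2 * (c * L)) + 3 * e₀))) := by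
          have := p0 ε₁
          have hDN0 : 0 ≤ D0 ^ N := pow_nonneg hD _
          gcongr
      _ = pA * (Bd' * (1 + |t₀|) ^ A') * (E * E * E * (Real.exp (4 * t - μ * L) *
          Real.exp (n + κ - t + 6 * (2 * (c * L)) + 3 * e₀))) := by ring
      _ ≤ pA * (Bd' * (1 + |t₀|) ^ A') * (Real.exp (3 * e₀) * U) := by
          refine mul_le_mul_of_nonneg_left ?_ (by positivity)
          rw [hEd, hU, ← Real.exp_add, ← Real.exp_add, ← Real.exp_add, ← Real.exp_add,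
            ← Real.exp_add]
          refine Real.exp_le_exp.2 ?_
          rw [hκ]
          linarith
      _ = _ := by ring
  -- the second term
  have r2 : Real.exp (κ₁ * L) ^ εq * (Real.exp (κ₁ * L) ^ ε₁ * (Cb * Real.exp (κ₁ * L) ^ ε₂) ^ 2 *
      Real.exp (n + K * L - K * L / 36 + 7 * (2 * (c * L)) + 2 * (7 * (ε * L)) + 9 * e₀)) ≤
      Cb ^ 2 * Real.exp (9 * e₀) * (Bd' * (1 + |t₀|) ^ A' * U) := by
    calc Real.exp (κ₁ * L) ^ εq * (Real.exp (κ₁ * L) ^ ε₁ * (Cb * Real.exp (κ₁ * L) ^ ε₂) ^ 2 *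
        Real.exp (n + K * L - K * L / 36 + 7 * (2 * (c * L)) + 2 * (7 * (ε * L)) + 9 * e₀))
        = Cb ^ 2 * (Real.exp (κ₁ * L) ^ εq * (Real.exp (κ₁ * L) ^ ε₁ *
          (Real.exp (κ₁ * L) ^ ε₂) ^ 2 *
        Real.exp (n + K * L - K * L / 36 + 7 * (2 * (c * L)) + 2 * (7 * (ε * L)) + 9 * e₀))) := by
          ring
      _ ≤ Cb ^ 2 * (E * (E * E ^ 2 *
        Real.exp (n + K * L - K * L / 36 + 7 * (2 * (c * L)) + 2 * (7 * (ε * L)) + 9 * e₀))) := by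
          have := p0 ε₁
          have := p0 ε₂
          gcongr
      _ ≤ Cb ^ 2 * (Real.exp (9 * e₀) * U) := by
          refine mul_le_mul_of_nonneg_left ?_ (by positivity)
          rw [show E * (E * E ^ 2 * Real.exp (n + K * L - K * L / 36 + 7 * (2 * (c * L)) +
            2 * (7 * (ε * L)) + 9 * e₀)) = E * E * E * E * Real.exp (n + K * L - K * L / 36 +
            7 * (2 * (c * L)) + 2 * (7 * (ε * L)) + 9 * e₀) by ring]
          rw [hEd, hU, ← Real.exp_add, ← Real.exp_add, ← Real.exp_add, ← Real.exp_add,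
            ← Real.exp_add]
          refine Real.exp_le_exp.2 ?_
          linarith
      _ = Cb ^ 2 * Real.exp (9 * e₀) * U := by ring
      _ ≤ _ := mul_le_mul_of_nonneg_left hBU (by positivity)
  -- the third term
  have r3 : Real.exp (κ₁ * L) ^ εq * (Real.exp (κ₁ * L) ^ 1)⁻¹ ≤
      1 * (Bd' * (1 + |t₀|) ^ A' * U) := by
    rw [one_mul, pow_one]
    refine le_trans ?_ hBU
    calc Real.exp (κ₁ * L) ^ εq * (Real.exp (κ₁ * L))⁻¹ ≤ E * (Real.exp (κ₁ * L))⁻¹ := by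
          gcongr
      _ ≤ U := by
          rw [hEd, hU, ← Real.exp_neg, ← Real.exp_add]
          refine Real.exp_le_exp.2 ?_
          linarith
  unfold Nq
  rw [← hpA]
  have e1 : Sf ^ 2 * Real.exp (κ₁ * L) ^ εq * (pA * Real.exp (κ₁ * L) ^ ε₁ * (1 + |t₀|) ^ A' *
      D0 ^ N * (Bd' * Real.exp (4 * t - μ * L) * Real.exp (n + κ - t + 6 * (2 * (c * L)) +
      3 * e₀)) + Real.exp (κ₁ * L) ^ ε₁ * (Cb * Real.exp (κ₁ * L) ^ ε₂) ^ 2 *
      Real.exp (n + K * L - K * L / 36 + 7 * (2 * (c * L)) + 2 * (7 * (ε * L)) + 9 * e₀) +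
      (Real.exp (κ₁ * L) ^ 1)⁻¹) =
      Sf ^ 2 * (Real.exp (κ₁ * L) ^ εq * (pA * Real.exp (κ₁ * L) ^ ε₁ * (1 + |t₀|) ^ A' *
      D0 ^ N * (Bd' * Real.exp (4 * t - μ * L) * Real.exp (n + κ - t + 6 * (2 * (c * L)) +
      3 * e₀))) + Real.exp (κ₁ * L) ^ εq * (Real.exp (κ₁ * L) ^ ε₁ *
      (Cb * Real.exp (κ₁ * L) ^ ε₂) ^ 2 *
      Real.exp (n + K * L - K * L / 36 + 7 * (2 * (c * L)) + 2 * (7 * (ε * L)) + 9 * e₀)) +
      Real.exp (κ₁ * L) ^ εq * (Real.exp (κ₁ * L) ^ 1)⁻¹) := by ring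
  rw [e1, mul_assoc (Sf ^ 2)]
  refine mul_le_mul_of_nonneg_left ?_ (sq_nonneg _)
  calc _ ≤ pA * Real.exp (3 * e₀) * (Bd' * (1 + |t₀|) ^ A' * U) +
        Cb ^ 2 * Real.exp (9 * e₀) * (Bd' * (1 + |t₀|) ^ A' * U) +
        1 * (Bd' * (1 + |t₀|) ^ A' * U) := add_le_add (add_le_add r1 r2) r3
    _ = _ := by ring

/-- the block of `l` -/
def ub (l : Eis) : ℕ := ⌊3 * Real.log (nm l)⌋₊

lemma ub_le {l : Eis} (hl : IsPrim l) : (ub l : ℝ) ≤ 3 * Real.log (nm l) := by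
  have h1 : (1 : ℝ) ≤ nm l := by exact_mod_cast nm_pos.2 hl.ne_zero
  exact Nat.floor_le (by have := Real.log_nonneg h1; positivity)

lemma lt_ub {l : Eis} : 3 * Real.log (nm l) < ub l + 1 := Nat.lt_floor_add_one _

/-- **`RL1` from the dyadic blocks** -/
lemma rl1_le {F : ℝ → ℂ} {b₀ Ki Lc : ℝ} (hKi : 0 < Ki) (hb₀ : 0 < b₀) {X₀ : ℕ} {α : Eis → ℂ}
    {Dd : ℝ} {I : ℕ} {E0 Z : ℝ} {W : ℝ} {Nu : ℕ} (hNu : Real.log b₀ + Real.log Ki < Nu)
    (hW : 0 ≤ W)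
    (hblk : ∀ (u : ℕ) (Λ : Finset Eis), Λ.Nonempty → u < Nu →
      (∀ l ∈ Λ, IsPrim l ∧ ub l = u ∧ (nm l : ℝ) ^ 3 ≤ b₀ * Ki) →
      ∑ l ∈ Λ, (nm l : ℝ)⁻¹ * ∑ a ∈ dvs (rl l),
        REb (MoCa83.alr α a (rl l / a)) (Ki / (nm l : ℝ) ^ 3) F
          ((S Dd).filter (fun δ => rl l / a ∣ δ)) I E0 Z Z ≤ W) :
    RL1 F b₀ Ki Lc X₀ α Dd I E0 Z ≤ Nu * W := by
  unfold Et404.RL1
  have hset : ∀ l ∈ Lset X₀ Lc b₀ Ki, IsPrim l ∧ (nm l : ℝ) ^ 3 ≤ b₀ * Ki := by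
    intro l hl
    unfold Et404.Lset at hl
    obtain ⟨h1, h2⟩ := Finset.mem_filter.1 hl
    exact ⟨(mem_primBall.1 h1).2, h2.2⟩
  have hmaps : ∀ l ∈ Lset X₀ Lc b₀ Ki, ub l ∈ Finset.range Nu := by
    intro l hl
    obtain ⟨h1, h2⟩ := hset l hl
    have h3 : (0 : ℝ) < nm l := by exact_mod_cast nm_pos.2 h1.ne_zero
    have h4 := Real.log_le_log (by positivity) h2
    rw [Real.log_pow, Real.log_mul hb₀.ne' hKi.ne'] at h4
    push_cast at h4
    have h5 := ub_le h1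
    rw [Finset.mem_range]
    have h6 : (ub l : ℝ) < Nu := by linarith
    exact_mod_cast h6
  rw [← Finset.sum_fiberwise_of_maps_to hmaps]
  have h1 : ∀ u ∈ Finset.range Nu, ∑ l ∈ (Lset X₀ Lc b₀ Ki).filter (fun l => ub l = u),
      (nm l : ℝ)⁻¹ * ∑ a ∈ dvs (rl l), REb (CubP813.alr α a (rl l / a)) (Ki / (nm l : ℝ) ^ 3) F
        ((S Dd).filter (fun δ => rl l / a ∣ δ)) I E0 Z Z ≤ W := by
    intro u hu
    rcases ((Lset X₀ Lc b₀ Ki).filter (fun l => ub l = u)).eq_empty_or_nonempty with h0 | h0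
    · rw [h0, Finset.sum_empty]
      exact hW
    · refine le_trans (le_of_eq ?_) (hblk u _ h0 (Finset.mem_range.1 hu) fun l hl => by
        obtain ⟨h2, h3⟩ := Finset.mem_filter.1 hl
        exact ⟨(hset l h2).1, h3, (hset l h2).2⟩)
      refine Finset.sum_congr rfl fun l _ => ?_
      congr 1
  refine (Finset.sum_le_sum h1).trans ?_
  rw [Finset.sum_const, Finset.card_range, nsmul_eq_mul]

end Crest.Agent.R017.RCl83
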