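import Crest.Agent.R017.RGind_777

/-!
# Row 17, section D: the side conditions of the RG recursion for T3a (helper777)

* `QL`      : the literal side conditions (R2), (R3), (R5), (D) + cube columns, margin `μ`
* `gauss3x`, `char3x` : the sides below the family `n` (after helper70)
* `QL_all`  : `QL` for all sub-sides of a state (`QAll`)
* `T3a_rg`  : **T3a from the RG fields**
-/

set_option autoImplicit false

noncomputable section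

namespace Crest.Agent.R017.SC777

open Crest.Agent.R017.ER911

/-- the side conditions at family `K`, level `v`, side `(Y | m, a)` of total `n`, target `E`;
`Y', m', a'` (total `n'`) runs over the sub-sides -/
structure QL (θ : ℝ) (r s₀ : EF) (c μ K v : ℝ) (Y : Multiset ℝ) (m a E : ℝ) : Prop where
  /-- (R2) character side -/
  r2 : ∀ (Y' : Multiset ℝ) (m' a' n n' i : ℝ), Sh Y' Y → 0 ≤ m' → m' ≤ m → 0 ≤ a' → a' ≤ a →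
    n = Y.sum + m + a → n' = Y'.sum + m' + a' → (∀ y ∈ Y', y ≤ i) → 0 ≤ i →
    i ≤ v + n - K + μ →
    r i Y' m' a' + (n - n') + max v (2 / 3 * (v + i)) - i + (v + n - 2 * K) / 3 + μ ≤ E
  /-- (R2) principal frequencies -/
  c2 : ∀ (Y' : Multiset ℝ) (m' a' n n' i : ℝ), Sh Y' Y → 0 ≤ m' → m' ≤ m → 0 ≤ a' → a' ≤ a →
    n = Y.sum + m + a → n' = Y'.sum + m' + a' → 0 ≤ i → i ≤ v + n - K + μ →
    2 * a' + 2 * θ * m' + i / 3 + (n - n') + max v (2 / 3 * (v + i)) - i +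
      (v + n - 2 * K) / 3 + μ ≤ E
  /-- (R3) structured moment of the Gram part -/
  r3 : ∀ (Y' : Multiset ℝ) (m' a' n i : ℝ), Sh Y' Y → 0 ≤ m' → m' ≤ m → 0 ≤ a' → a' ≤ a →
    n = Y.sum + m + a → (∀ y ∈ Y', y ≤ i) → 0 ≤ i → i ≤ v + n - K + μ →
    r i Y' m' a' + (v + n - K - i) / 3 + max 0 ((v + 2 * n - 2 * K) / 3) + μ ≤ E
  /-- (R3) principal frequencies -/
  c3 : ∀ (m' a' n : ℝ), 0 ≤ m' → m' ≤ m → 0 ≤ a' → a' ≤ a → n = Y.sum + m + a →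
    2 * a' + 2 * θ * m' + (v + n - K) / 3 + max 0 ((v + 2 * n - 2 * K) / 3) + μ ≤ E
  /-- (R5) tail of the large cubes -/
  r5 : ∀ (Y' : Multiset ℝ) (m' a' n k : ℝ), Sh Y' Y → 0 ≤ m' → m' ≤ m → 0 ≤ a' → a' ≤ a →
    n = Y.sum + m + a → 0 ≤ k → k ≤ 17 / 20 * K →
    (K - k) / 3 + (r k Y' m' a' + 5 / 3 * n + v / 6 + k / 3) / 2 + (v + n - 2 * K) / 3 + μ ≤ E
  /-- (D) direct side -/
  dd : ∀ (Y' : Multiset ℝ) (m' a' n n' : ℝ), Sh Y' Y → 0 ≤ m' → m' ≤ m → 0 ≤ a' → a' ≤ a →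
    n = Y.sum + m + a → n' = Y'.sum + m' + a' → c ≤ n - n' →
    s₀ (v + 2 * (n - n')) Y' m' a' ≤ E + (n - n')

variable {θ d : ℝ} {r s s₀ : EF}

theorem cons3 (y₁ y₂ y₃ : ℝ) : (y₃ ::ₘ ({y₁, y₂} : Multiset ℝ)) = {y₁, y₂, y₃} := by
  show y₃ ::ₘ y₁ ::ₘ {y₂} = y₁ ::ₘ y₂ ::ₘ {y₃}
  rw [Multiset.cons_swap]
  congr 1
  exact Multiset.pair_comm y₃ y₂

theorem mem3 {y₁ y₂ y₃ i : ℝ} (h : ∀ y ∈ ({y₁, y₂, y₃} : Multiset ℝ), y ≤ i) :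
    y₁ ≤ i ∧ y₂ ≤ i ∧ y₃ ≤ i :=
  ⟨h y₁ (by simp), h y₂ (by simp), h y₃ (by simp)⟩

theorem drop3x (R : ExpRules (7 / 8 + d) r s) {κ y₁ y₂ y₃ m a : ℝ} (hκ : 0 ≤ κ) (h1 : 0 ≤ y₁)
    (h2 : 0 ≤ y₂) (h3 : 0 ≤ y₃) (hm : 0 ≤ m) (ha : 0 ≤ a) :
    r κ {y₁, y₂, y₃} m a ≤ (7 / 4 + 2 * d) * y₃ + r κ {y₁, y₂} m a := by
  have := R.supS κ y₃ {y₁, y₂} m a hκ h3 (ok_pair h1 h2 hm ha)
  rw [cons3] at this
  linarith

/-- two-factor theorem and pointwise bound -/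
theorem sup3 (R : ExpRules (7 / 8 + d) r s) {i y₁ y₂ y₃ m a : ℝ} (hi : 0 ≤ i) (h1 : 0 ≤ y₁)
    (h2 : 0 ≤ y₂) (h3 : 0 ≤ y₃) (hm : 0 ≤ m) (ha : 0 ≤ a) (hi1 : y₁ ≤ i) (hi2 : y₂ ≤ i) :
    r i {y₁, y₂, y₃} m a ≤ i + (y₁ + y₂ + y₃ + m + a) + 3 / 4 * (y₃ + m + a) +
      2 * d * (y₃ + m + a) := by
  have e0 := drop3x R hi h1 h2 h3 hm ha
  have e1 := sup_all R hi h1 h2 hm ha hi1 hi2
  linarith

/-- one column of the Gauss side -/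
theorem col3x (R : ExpRules (7 / 8 + d) r s) (hd : 0 ≤ d) {i a₁ a₂ a₃ m a D T : ℝ} (hi : 0 ≤ i)
    (h1 : 0 ≤ a₁) (h2 : 0 ≤ a₂) (h3 : 0 ≤ a₃) (hm : 0 ≤ m) (ha : 0 ≤ a) (hi1 : a₁ ≤ i)
    (hi2 : a₂ ≤ i) (hD : 2 * d * (a₃ + m + a) ≤ D)
    (hT0 : i + 3 / 4 * a₃ + D ≤ T)
    (hT1 : 5 / 12 * i + 7 / 12 * (a₁ + a₂) + 3 / 4 * (a₃ + m + a) + D ≤ T)
    (hT2 : 1 / 2 * i + 1 / 4 * (a₁ + a₂) + 3 / 4 * (a₃ + m + a) + D ≤ T)
    (hT3 : i ≤ a₁ + a₂ → i + 3 / 4 * (a₃ + m + a) + D ≤ T) :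
    r i {a₁, a₂, a₃} m a ≤ T + (a₁ + a₂ + a₃ + m + a) := by
  have e0 := drop3x R hi h1 h2 h3 hm ha
  rcases le_total i (a₁ + a₂) with h | h
  · have e1 := sup_all R hi h1 h2 hm ha hi1 hi2
    have := hT3 h
    linarith
  · obtain ⟨e, he⟩ : ∃ e, e = max 0 (max (m + a - 7 / 9 * (i - (a₁ + a₂)))
        ((12 * a + 9 * m + 4 * (a₁ + a₂) - 8 * i) / 12)) := ⟨_, rfl⟩
    have he0 : 0 ≤ e := by rw [he]; exact le_max_left _ _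
    have he1 : m + a - 7 / 9 * (i - (a₁ + a₂)) ≤ e := by
      rw [he]; exact (le_max_left _ _).trans (le_max_right _ _)
    have he2 : (12 * a + 9 * m + 4 * (a₁ + a₂) - 8 * i) / 12 ≤ e := by
      rw [he]; exact (le_max_right _ _).trans (le_max_right _ _)
    have e2 := side79a R hd h1 h2 hm ha h he0 he1 (by linarith) hi le_rfl hi1 hi2
    have e3 : 3 / 4 * e ≤ T - i - 3 / 4 * a₃ - D := by
      have : e ≤ 4 / 3 * (T - i - 3 / 4 * a₃ - D) := by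
        rw [he]
        refine max_le (by linarith) (max_le (by linarith) (by linarith))
      linarith
    linarith

/-- the Gauss side is ideal at the family `v ≥ n + x` -/
theorem gauss3x (R : ExpRules (7 / 8 + d) r s) (hd : 0 ≤ d) (hd8 : 8 * d ≤ 1)
    {y₁ y₂ y₃ m a n G D x v : ℝ} (h1 : 0 ≤ y₁) (h2 : 0 ≤ y₂) (h3 : 0 ≤ y₃) (hm : 0 ≤ m)
    (ha : 0 ≤ a) (hn : n = y₁ + y₂ + y₃ + m + a) (hG : y₃ + m + a ≤ G) (hD0 : 0 ≤ D)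
    (hD : 2 * d * G ≤ D) (x1 : 3 / 4 * y₃ + D ≤ x) (x2 : 2 / 5 * G + 12 / 5 * D ≤ x)
    (x3 : G - n / 2 + 2 * D ≤ x) (_x4 : G / 4 + 3 * D ≤ x) (x5 : 3 * (m + a) ≤ n + 2 * x)
    (hv : n + x ≤ v) :
    ∀ v' : ℝ, 0 ≤ v' → v' ≤ v → s v' {y₁, y₂, y₃} m a + (v - v') / 3 ≤ v + n := by
  have hx0 : 0 ≤ x := by linarith
  refine R.poisG v {y₁, y₂, y₃} m a _ (by linarith) (ok3 h1 h2 h3 hm ha)
    (by rw [sum3]; linarith) ?_ ?_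
  · intro Y' m' a' i hYs hm0 hm1 ha0 ha1 hi hyi hii
    obtain ⟨a₁, a₂, a₃, rfl, q1, q1', q2, q2', q3, q3'⟩ := sh3 hYs
    rw [sum3] at hii
    rw [sum3, sum3]
    obtain ⟨hi1, hi2, hi3⟩ := mem3 hyi
    have p1 : 2 * d * (a₃ + m' + a') ≤ D :=
      (mul_le_mul_of_nonneg_left (by linarith) (by linarith)).trans hD
    have key := col3x R hd hi q1 q2 q3 hm0 ha0 hi1 hi2 p1
      (T := n - (2 * n - v - i) / 3)
      (by linarith) (by linarith) (by linarith) (fun h => by linarith)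
    linarith
  · intro Y' m' a' hYs hm0 hm1 ha0 ha1 hk
    obtain ⟨a₁, a₂, a₃, rfl, q1, q1', q2, q2', q3, q3'⟩ := sh3 hYs
    rw [sum3] at hk
    rw [sum3, sum3]
    have p1 : 8 * d * m' ≤ 1 * m' := mul_le_mul_of_nonneg_right hd8 hm0
    linarith

/-- the character side `{y₁,y₂,y₃ | m,a}` at the families `k ≥ n - x` -/
theorem char3x (R : ExpRules (7 / 8 + d) r s) (hd : 0 ≤ d) (hd8 : 8 * d ≤ 1)
    {y₁ y₂ y₃ m a n G D x k : ℝ} (h1 : 0 ≤ y₁) (h2 : 0 ≤ y₂) (h3 : 0 ≤ y₃) (hm : 0 ≤ m)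
    (ha : 0 ≤ a) (hn : n = y₁ + y₂ + y₃ + m + a) (hG : y₃ + m + a ≤ G) (hD0 : 0 ≤ D)
    (hD : 2 * d * G ≤ D) (x1 : 3 / 4 * y₃ + D ≤ x) (x2 : 2 / 5 * G + 12 / 5 * D ≤ x)
    (x3 : G - n / 2 + 2 * D ≤ x) (x4 : G / 4 + 3 * D ≤ x) (x5 : 3 * (m + a) ≤ n + 2 * x)
    (hk0 : 0 ≤ k) (hk : n - x ≤ k) {V : ℝ}
    (hV1 : k + n ≤ V) (hV2 : 2 / 3 * k + 4 / 3 * n + 2 / 3 * x ≤ V) :
    ∀ k' : ℝ, 0 ≤ k' → k' ≤ k → r k' {y₁, y₂, y₃} m a + (k - k') / 3 ≤ V := by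
  refine R.poisC k {y₁, y₂, y₃} m a _ hk0 (ok3 h1 h2 h3 hm ha)
    (by rw [sum3]; linarith) (by rw [sum3]; linarith) ?_
  intro Y' m' a' i hYs hm0 hm1 ha0 ha1 hi hii
  obtain ⟨a₁, a₂, a₃, rfl, q1, q1', q2, q2', q3, q3'⟩ := sh3 hYs
  rw [sum3] at hii
  rw [sum3, sum3]
  obtain ⟨n', hn'⟩ : ∃ n', n' = a₁ + a₂ + a₃ + m' + a' := ⟨_, rfl⟩
  have := gauss3x R hd hd8 (n := n') (G := G) (D := D) (x := x + (n - n') / 2)
    (v := n' + (x + (n - n') / 2)) q1 q2 q3 hm0 ha0 hn' (by linarith) hD0 hD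
    (by linarith) (by linarith) (by linarith) (by linarith) (by linarith) le_rfl i hi
    (by linarith)
  linarith

/-- the character side at all families -/
theorem char3all (R : ExpRules (7 / 8 + d) r s) (hd : 0 ≤ d) (hd8 : 8 * d ≤ 1)
    {y₁ y₂ y₃ m a n G D x k : ℝ} (h1 : 0 ≤ y₁) (h2 : 0 ≤ y₂) (h3 : 0 ≤ y₃) (hm : 0 ≤ m)
    (ha : 0 ≤ a) (hn : n = y₁ + y₂ + y₃ + m + a) (hG : y₃ + m + a ≤ G) (hD0 : 0 ≤ D)
    (hD : 2 * d * G ≤ D) (x1 : 3 / 4 * y₃ + D ≤ x) (x2 : 2 / 5 * G + 12 / 5 * D ≤ x)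
    (x3 : G - n / 2 + 2 * D ≤ x) (x4 : G / 4 + 3 * D ≤ x) (x5 : 3 * (m + a) ≤ n + 2 * x)
    (hk0 : 0 ≤ k) :
    r k {y₁, y₂, y₃} m a ≤ max (k + n) (2 / 3 * k + 4 / 3 * n + 2 / 3 * x) ∨
      (k ≤ n - x ∧ r k {y₁, y₂, y₃} m a ≤ 2 * n - (n - x - k) / 3) := by
  rcases le_or_gt (n - x) k with h | h
  · left
    have := char3x R hd hd8 h1 h2 h3 hm ha hn hG hD0 hD x1 x2 x3 x4 x5 hk0 h
      (V := max (k + n) (2 / 3 * k + 4 / 3 * n + 2 / 3 * x)) (le_max_left _ _) (le_max_right _ _)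
      k hk0 le_rfl
    linarith
  · right
    refine ⟨h.le, ?_⟩
    have := char3x R hd hd8 h1 h2 h3 hm ha hn hG hD0 hD x1 x2 x3 x4 x5 (k := n - x)
      (by linarith) le_rfl (V := 2 * n) (by linarith) (by linarith) k hk0 h.le
    linarith

/-- **the side conditions of all sub-sides of a state** -/
theorem QL_all (R : ExpRules (7 / 8 + d) r s) {κ A B C m a c μ F : ℝ}
    (H : T3H d κ A B C m a c (2 * μ) F) (G : ExpRG c r s₀ (QL (7 / 8 + d) r s₀ c μ)) :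
    QAll (QL (7 / 8 + d) r s₀ c μ) r d κ A B C m a c (2 * μ) F := by
  intro K A₁ B₁ C₁ m₁ a₁ n₁ x hS hX IH
  obtain ⟨hκK, hsub, hn1, lA, lB, lC, l34⟩ := hS
  have q1 := hsub.A1; have q2 := hsub.B1; have q3 := hsub.C1; have q4 := hsub.m1
  have q5 := hsub.a1
  have q0 := hsub.A0; have q0' := hsub.B0; have q6 := hsub.C0; have q7 := hsub.m0
  have q8 := hsub.a0
  have hd := H.d0
  have hd8 := H.d8
  have h56 := H.h56; have hc0 := H.c0; have hF := H.hF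
  have hμ0 := H.μ0
  have hK0 : 0 ≤ K := H.κ0.trans hκK
  have hD1 : 2 * d * (C₁ + m₁ + a₁) ≤ 2 * d * (C + m + a) :=
    mul_le_mul_of_nonneg_left (by linarith) (by linarith)
  have hD0 : 0 ≤ 2 * d * (C + m + a) := mul_nonneg (mul_nonneg two_pos.le H.d0) H.g0
  obtain ⟨D, hDd⟩ : ∃ D, D = 2 * d * (C + m + a) := ⟨_, rfl⟩
  rw [← hDd] at hD0 hF hD1 hX ⊢
  obtain ⟨x1, x2, x3, x4⟩ := hX
  have hw1 : m₁ + a₁ ≤ 3 * C₁ := by linarith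
  have hw2 : 3 * (m₁ + a₁) ≤ K := by linarith
  -- all lines except (D)
  have static : ∀ K' v A₂ B₂ C₂ m₂ a₂ n₂ E : ℝ, K ≤ K' →
      Sub3 A₂ B₂ C₂ m₂ a₂ A₁ B₁ C₁ m₁ a₁ → n₂ = A₂ + B₂ + C₂ + m₂ + a₂ →
      LQ K' v n₂ E n₁ C₁ (C₁ + m₁ + a₁) D x F (2 * μ) →
      (∀ A₃ B₃ C₃ m₃ a₃ n₃ : ℝ, Sub3 A₃ B₃ C₃ m₃ a₃ A₂ B₂ C₂ m₂ a₂ →
        n₃ = A₃ + B₃ + C₃ + m₃ + a₃ → c ≤ n₂ - n₃ →
        s₀ (v + 2 * (n₂ - n₃)) {A₃, B₃, C₃} m₃ a₃ ≤ E + (n₂ - n₃)) →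
      QL (7 / 8 + d) r s₀ c μ K' v {A₂, B₂, C₂} m₂ a₂ E := by
    intro K' v A₂ B₂ C₂ m₂ a₂ n₂ E hK' hs2 hn2 hL hdd
    obtain ⟨v0, v23, l0, l1, l2, l3, l4, l5, l6⟩ := hL
    have p1 := hs2.A1; have p2 := hs2.B1; have p3 := hs2.C1; have p4 := hs2.m1
    have p5 := hs2.a1
    have p0 := hs2.A0; have p0' := hs2.B0; have p6 := hs2.C0; have p7 := hs2.m0
    have p8 := hs2.a0
    have hn21 : n₂ ≤ n₁ := by linarith
    constructor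
    · -- r2
      intro Y' m' a' n n' i hY' hm0 hm1 ha0 ha1 hn hn' hyi hi hii
      obtain ⟨A₃, B₃, C₃, rfl, t0, t1, t2, t3, t4, t5⟩ := sh3 hY'
      rw [sum3] at hn hn'
      obtain ⟨y1, y2, y3⟩ := mem3 hyi
      have e1 := sup3 R hi t0 t2 t4 hm0 ha0 y1 y2
      have e2 : 2 * d * (C₃ + m' + a') ≤ 2 * d * (C₁ + m₁ + a₁) :=
        mul_le_mul_of_nonneg_left (by linarith) (by linarith)
      rcases max_cases v (2 / 3 * (v + i)) with ⟨hm, _⟩ | ⟨hm, _⟩ <;> rw [hm] <;> linarith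
    · -- c2
      intro Y' m' a' n n' i hY' hm0 hm1 ha0 ha1 hn hn' hi hii
      obtain ⟨A₃, B₃, C₃, rfl, t0, t1, t2, t3, t4, t5⟩ := sh3 hY'
      rw [sum3] at hn hn'
      have e2 : 8 * d * m' ≤ 1 * m' := mul_le_mul_of_nonneg_right hd8 hm0
      rcases max_cases v (2 / 3 * (v + i)) with ⟨hm, _⟩ | ⟨hm, _⟩ <;> rw [hm] <;> linarith
    · -- r3
      intro Y' m' a' n i hY' hm0 hm1 ha0 ha1 hn hyi hi hii
      obtain ⟨A₃, B₃, C₃, rfl, t0, t1, t2, t3, t4, t5⟩ := sh3 hY'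
      rw [sum3] at hn
      obtain ⟨y1, y2, y3⟩ := mem3 hyi
      have e1 := sup3 R hi t0 t2 t4 hm0 ha0 y1 y2
      have e2 : 2 * d * (C₃ + m' + a') ≤ 2 * d * (C₁ + m₁ + a₁) :=
        mul_le_mul_of_nonneg_left (by linarith) (by linarith)
      rcases max_cases 0 ((v + 2 * n - 2 * K') / 3) with ⟨hm, _⟩ | ⟨hm, _⟩ <;> rw [hm] <;> linarith
    · -- c3
      intro m' a' n hm0 hm1 ha0 ha1 hn
      rw [sum3] at hn
      have e2 : 8 * d * m' ≤ 1 * m' := mul_le_mul_of_nonneg_right hd8 hm0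
      rcases max_cases 0 ((v + 2 * n - 2 * K') / 3) with ⟨hm, _⟩ | ⟨hm, _⟩ <;> rw [hm] <;> linarith
    · -- r5
      intro Y' m' a' n k hY' hm0 hm1 ha0 ha1 hn hk0 hk
      obtain ⟨A₃, B₃, C₃, rfl, t0, t1, t2, t3, t4, t5⟩ := sh3 hY'
      rw [sum3] at hn
      obtain ⟨n₃, hn3⟩ : ∃ n₃, n₃ = A₃ + B₃ + C₃ + m' + a' := ⟨_, rfl⟩
      have e1 := char3all R hd hd8 (n := n₃) (G := C₁ + m₁ + a₁) (D := D)
        (x := x + (n₁ - n₃) / 2) t0 t2 t4 hm0 ha0 hn3 (by linarith) hD0 hD1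
        (by linarith) (by linarith) (by linarith) (by linarith) (by linarith) hk0
      rcases e1 with e1 | ⟨e0, e1⟩
      · rcases max_cases (k + n₃) (2 / 3 * k + 4 / 3 * n₃ + 2 / 3 * (x + (n₁ - n₃) / 2)) with
          ⟨hm, _⟩ | ⟨hm, _⟩ <;> rw [hm] at e1 <;> linarith
      · linarith
    · -- dd
      intro Y' m' a' n n' hY' hm0 hm1 ha0 ha1 hn hn' hc
      obtain ⟨A₃, B₃, C₃, rfl, t0, t1, t2, t3, t4, t5⟩ := sh3 hY'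
      rw [sum3] at hn hn'
      have := hdd A₃ B₃ C₃ m' a' n' ⟨t0, t1, t2, t3, t4, t5, hm0, hm1, ha0, ha1⟩ hn'
        (by linarith)
      have en : n = n₂ := by linarith
      rw [en]
      exact this
  have main : ∀ k : ℕ, ∀ K' v A₂ B₂ C₂ m₂ a₂ n₂ E : ℝ, K ≤ K' →
      Sub3 A₂ B₂ C₂ m₂ a₂ A₁ B₁ C₁ m₁ a₁ → n₂ = A₂ + B₂ + C₂ + m₂ + a₂ → n₂ ≤ k * c →
      LQ K' v n₂ E n₁ C₁ (C₁ + m₁ + a₁) D x F (2 * μ) →
      QL (7 / 8 + d) r s₀ c μ K' v {A₂, B₂, C₂} m₂ a₂ E := by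
    intro k
    induction k with
    | zero =>
      intro K' v A₂ B₂ C₂ m₂ a₂ n₂ E hK' hs2 hn2 hnk hL
      refine static K' v A₂ B₂ C₂ m₂ a₂ n₂ E hK' hs2 hn2 hL ?_
      intro A₃ B₃ C₃ m₃ a₃ n₃ hs3 hn3 hc3
      exfalso
      have := hs3.A0; have := hs3.B0; have := hs3.C0; have := hs3.m0; have := hs3.a0
      simp only [Nat.cast_zero, zero_mul] at hnk
      linarith
    | succ k ih =>
      intro K' v A₂ B₂ C₂ m₂ a₂ n₂ E hK' hs2 hn2 hnk hL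
      refine static K' v A₂ B₂ C₂ m₂ a₂ n₂ E hK' hs2 hn2 hL ?_
      intro A₃ B₃ C₃ m₃ a₃ n₃ hs3 hn3 hc3
      obtain ⟨b, hb⟩ : ∃ b, b = n₂ - n₃ := ⟨_, rfl⟩
      rw [← hb]
      have hb0 : 0 ≤ b := by linarith
      have hs31 := hs3.trans hs2
      have hLs := hL.step hb0
      have hn21 : n₂ ≤ n₁ := by
        have := hs2.A1; have := hs2.B1; have := hs2.C1; have := hs2.m1; have := hs2.a1
        linarith
      have e3 : n₂ - b = n₃ := by linarith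
      rw [e3] at hLs
      have hcl := IH (K' + 3 * b) A₃ B₃ C₃ m₃ a₃ (by linarith) hs31 (by linarith) (K' + 3 * b)
        (by linarith) le_rfl
      have hl0 := hL.l0
      refine G.bess (K' + 3 * b) (v + 2 * b) {A₃, B₃, C₃} m₃ a₃ n₃ _ hs31.ok
        (by rw [sum3]; exact hn3) (by linarith [hL.v0]) hLs.v23 (by linarith) (by linarith) ?_
      exact ih (K' + 3 * b) (v + 2 * b) A₃ B₃ C₃ m₃ a₃ n₃ (E + b) (by linarith) hs31 hn3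
        (by push_cast at hnk; linarith) hLs
  intro K' v A₂ B₂ C₂ m₂ a₂ n₂ E hK' hs2 hn2 hL
  obtain ⟨k, hk⟩ := exists_nat_ge (n₂ / c)
  refine main k K' v A₂ B₂ C₂ m₂ a₂ n₂ E hK' hs2 hn2 ?_ hL
  rwa [div_le_iff₀ H.c0] at hk

/-- the fields of the RG recursion: arbitrarily small step length and margin -/
structure ExpRGF (θ : ℝ) (r s s₀ : EF) : Prop extends ExpS0 s s₀ where
  rgf : ∀ δ : ℝ, 0 < δ → ∃ c μ : ℝ, 0 < c ∧ 0 ≤ μ ∧ c + μ ≤ δ ∧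
    ExpRG c r s₀ (QL θ r s₀ c μ)

/-- **T3a** from the RG fields: three big lumps -/
theorem T3a_rg (R : ExpRules (7 / 8 + d) r s) (Rm : ExpRGF (7 / 8 + d) r s s₀) (hd : 0 ≤ d)
    (hd8 : 8 * d ≤ 1)
    {κ A B C m a : ℝ} (hκ : 0 ≤ κ) (hA : 0 ≤ A) (hB : 0 ≤ B) (hC : 0 ≤ C) (hm : 0 ≤ m)
    (ha : 0 ≤ a) (hAC : A + C ≤ A + B) (hBC : B + C ≤ A + B) (h4 : 4 * C ≤ κ)
    (h2 : A + B + 2 * C ≤ κ)
    (h56 : 6 * (A + B + C + m + a) ≤ 5 * κ)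
    (h36 : 40 * (A + B + C + m + a) + 9 * (C + m + a) ≤ 36 * κ)
    (h59 : 5 * (A + B) + 9 * (m + a) ≤ 5 * κ) (hamp : 3 * (m + 2 * a) ≤ 2 * κ)
    (h7 : 80 * (A + B + C + m + a) + 30 * C ≤ 73 * κ) :
    ∀ κ' : ℝ, 0 ≤ κ' → κ' ≤ κ →
      r κ' {A, B, C} m a + (κ - κ') / 3 ≤
        κ + (A + B + C + m + a) + 2 * d * (C + m + a) := by
  intro κ' hκ0 hκ'
  refine le_of_forall_pos_le_add fun ε hε => ?_
  obtain ⟨c, μ, hc, hμ, hcμ, G⟩ := Rm.rgf (ε / 100) (by positivity)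
  have H : T3H d (κ + 120 * (ε / 100)) A B C m a c (2 * μ)
      (2 * d * (C + m + a) + 2 * μ + 2 * c) := by
    constructor <;> first | assumption | linarith
  have h := T3a_core R Rm.toExpS0 H G (QL_all R H G) hA hB hC hm ha le_rfl κ' hκ0
    (by linarith)
  linarith

end Crest.Agent.R017.SC777
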