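import Crest.Agent.R017.RuleF_848
import Crest.Agent.R017.RGq_777
import Crest.Agent.R017.XCol_298
import Crest.Agent.R017.XPC_699
import Crest.Agent.R017.XPD_571

/-!
# Row 17, T.5: the fields of the RG recursion from the finite theorems (helper545), part 1

* `ex_RF_le` : the complete character side from the cube-free one and the principal column
* `sh_mid`, `mid` : intermediate sides
* `ExpRG.mono_Q`
-/

set_option autoImplicit false

noncomputable section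

open Set Filter Topology

namespace Crest.Agent.R017.RGB545

open Crest.Agent.R012 Crest.Agent.R012.Eis Crest.Agent.R012.LS2
open Crest.Agent.R017.XG702 (Pcs BG)
open Crest.Agent.R017.B770
open Crest.Agent.R017.Prov71
open Crest.Agent.R017.XP699 (Raw)
open Crest.Agent.R017.ER911 (Ok Sh EF)
open Crest.Agent.R017.SC777 (ExpRG)
open Crest.Agent.R017.XPD571

variable {Lam : Type*}

/-! ### the complete character side -/

/-- **the complete character side** from the cube-free one (lumps at most the level, slope `1/3`)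
and the principal column -/
theorem ex_RF_le {θ : ℝ} {R RF RN Rp S : Lam → ℝ → List Pq → ℝ} (H : Raw θ Dq R RF RN Rp S)
    (hperm : Pinv RN) (htriv : Triv Dq RN) {κ : ℝ} {Y : Multiset ℝ} {m a E : ℝ} (hκ : 0 ≤ κ)
    (hY : Ok Y m a) (hc : 2 * a + 2 * θ * m + κ / 3 ≤ E)
    (hE : 0 ≤ E)
    (hch : ∀ (Y' : Multiset ℝ) (i : ℝ), Sh Y' Y → 0 ≤ i → i ≤ κ → (∀ y ∈ Y', y ≤ i) →
      ex Dq RN i Y' m a + (κ - i) / 3 ≤ E) :
    ex Dq RF κ Y m a ≤ E := by
  refine ex_le' hE (H.cubes κ Y.toList m a E hκ (okl_of hY) fun i hi0 hi1 => ?_)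
  refine BG_add (Φ₁ := RN) (Φ₂ := Rp) ?_ ?_ H.split
  · refine H.cut i Y.toList m a _ hi0 (okl_of hY) fun u' hs hu' => ?_
    have hsh : Sh (u' : Multiset ℝ) Y := by
      have := hs.sh
      rwa [Multiset.coe_toList] at this
    have h1 := hch (u' : Multiset ℝ) i hsh hi0 hi1 (fun y hy => hu' y (by simpa using hy))
    exact BG_of_ex hperm htriv hi0 ⟨hs.nonneg, hY.2.1, hY.2.2⟩ (by linarith)
  · exact (H.colP i Y.toList m a hi0 (okl_of hY)).mono (by linarith)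

/-! ### intermediate sides -/

theorem sh_mid {Y' Y : Multiset ℝ} (h : Sh Y' Y) {t : ℝ} (h0 : 0 ≤ t) (h1 : t ≤ 1) :
    ∃ Z : Multiset ℝ, Sh Y' Z ∧ Sh Z Y ∧ Z.sum = (1 - t) * Y'.sum + t * Y.sum := by
  unfold Sh at *
  induction h with
  | zero => exact ⟨0, Multiset.Rel.zero, Multiset.Rel.zero, by simp⟩
  | @cons a b as bs hab _ ih =>
    obtain ⟨Z, z1, z2, z3⟩ := ih
    have e1 : a ≤ (1 - t) * a + t * b := by nlinarith [mul_nonneg h0 (sub_nonneg.2 hab.2)]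
    have e2 : (1 - t) * a + t * b ≤ b := by
      nlinarith [mul_nonneg (sub_nonneg.2 h1) (sub_nonneg.2 hab.2)]
    refine ⟨((1 - t) * a + t * b) ::ₘ Z, z1.cons ⟨hab.1, e1⟩, z2.cons ⟨hab.1.trans e1, e2⟩, ?_⟩
    rw [Multiset.sum_cons, Multiset.sum_cons, Multiset.sum_cons, z3]
    ring

theorem sh_sum_le {Y' Y : Multiset ℝ} (h : Sh Y' Y) : Y'.sum ≤ Y.sum := by
  unfold Sh at h
  induction h with
  | zero => exact le_rfl
  | @cons a b as bs hab _ ih =>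
    rw [Multiset.sum_cons, Multiset.sum_cons]
    exact add_le_add hab.2 ih

/-- **an intermediate side** of given length -/
theorem mid {Y' Y : Multiset ℝ} {m' m a' a x : ℝ} (h : Sh Y' Y) (hm : m' ≤ m) (ha : a' ≤ a)
    (hx0 : Y'.sum + m' + a' ≤ x) (hx1 : x ≤ Y.sum + m + a) :
    ∃ (Z : Multiset ℝ) (m₁ a₁ : ℝ), Sh Y' Z ∧ Sh Z Y ∧ m' ≤ m₁ ∧ m₁ ≤ m ∧ a' ≤ a₁ ∧ a₁ ≤ a ∧
      x = Z.sum + m₁ + a₁ := by
  have hYs := sh_sum_le h
  obtain ⟨t, ht0, ht1, ht⟩ : ∃ t : ℝ, 0 ≤ t ∧ t ≤ 1 ∧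
      x = (1 - t) * (Y'.sum + m' + a') + t * (Y.sum + m + a) := by
    rcases eq_or_lt_of_le (show Y'.sum + m' + a' ≤ Y.sum + m + a by linarith) with h | h
    · exact ⟨0, le_rfl, zero_le_one, by linarith⟩
    · refine ⟨(x - (Y'.sum + m' + a')) / ((Y.sum + m + a) - (Y'.sum + m' + a')),
        div_nonneg (by linarith) (by linarith), (div_le_one (by linarith)).2 (by linarith), ?_⟩
      have : (Y.sum + m + a) - (Y'.sum + m' + a') ≠ 0 := by linarith
      field_simp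
      ring
  obtain ⟨Z, z1, z2, z3⟩ := sh_mid h ht0 ht1
  refine ⟨Z, (1 - t) * m' + t * m, (1 - t) * a' + t * a, z1, z2, ?_, ?_, ?_, ?_, ?_⟩
  · nlinarith [mul_nonneg ht0 (sub_nonneg.2 hm)]
  · nlinarith [mul_nonneg (sub_nonneg.2 ht1) (sub_nonneg.2 hm)]
  · nlinarith [mul_nonneg ht0 (sub_nonneg.2 ha)]
  · nlinarith [mul_nonneg (sub_nonneg.2 ht1) (sub_nonneg.2 ha)]
  · rw [z3, ht]; ring

/-! ### `ExpRG` -/

/-- the predicate of the side conditions may be strengthened -/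
theorem ExpRG.mono_Q {c : ℝ} {r s₀ : EF} {Q Q' : ℝ → ℝ → Multiset ℝ → ℝ → ℝ → ℝ → Prop}
    (G : ExpRG c r s₀ Q') (hQ : ∀ K v Y m a E, Q K v Y m a E → Q' K v Y m a E) :
    ExpRG c r s₀ Q where
  bess K v Y m a n E h1 h2 h3 h4 h5 h6 h7 := G.bess K v Y m a n E h1 h2 h3 h4 h5 h6 (hQ _ _ _ _ _ _ h7)
  rg K v Y m a n F h1 h2 h3 h4 h5 h6 h7 h8 h9 h10 := G.rg K v Y m a n F h1 h2 h3 h4 h5 h6 h7 h8 h9
    (fun Y' m' a' n' v' k1 k2 k3 k4 k5 k6 k7 k8 k9 =>
      hQ _ _ _ _ _ _ (h10 Y' m' a' n' v' k1 k2 k3 k4 k5 k6 k7 k8 k9))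

end Crest.Agent.R017.RGB545
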