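import Crest.Agent.R017.RGB1_545
import Crest.Agent.R017.UBTriv_973

/-!
# Row 17, T.5: the fields of the RG recursion from the finite theorems (helper545), part 2

* `Hmin H ε₀` : the parent condition `H ≤ min (ε / 100) ε₀`; `parOK_Hmin`
* `ruleExh` : `ruleExd` (helper848) for the identical base map and a side given as multiset
-/

set_option autoImplicit false

noncomputable section

open Set Filter Topology

namespace Crest.Agent.R017.RGB545

open Crest.Agent.R012 Crest.Agent.R012.Eis Crest.Agent.R012.LS2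
open Crest.Agent.R017.XG702 (Pcs BG)
open Crest.Agent.R017.B770
open Crest.Agent.R017.Prov71
open Crest.Agent.R017.XP699
open Crest.Agent.R017.ER911 (Ok Sh EF)
open Crest.Agent.R017.RuleM545

variable {Lam Pc : Type*} {D : Pcs Pc Kd} {cost : Pc → Pc → ℝ} {Θ : Type*}

/-- the parent condition: `H (k, n) ≤ min (ε / 100) ε₀`, `n` the total length (everything over
`log X`); the premises have the slack `ε` -/
def Hmin (D : Pcs Pc Kd) (H : (Fin 2 → ℝ) → ℝ) (ε₀ ε X k : ℝ) (ps : List Pc) : Prop :=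
  H ![k / Real.log X, LL D ps / Real.log X] ≤ min (ε / 100) ε₀

theorem parOK_Hmin {n : ℕ} {H : (Fin 2 → ℝ) → ℝ} (hH : Continuous H) {ε₀ : ℝ} (hε₀ : 0 < ε₀)
    {κ : ℝ} {u : Fin n → ℝ} {w : Kd → ℝ} (h : H ![κ, (∑ i, u i) + (w .mo + w .am)] ≤ 0) :
    ParOK D (Hmin D H ε₀) κ u w := by
  intro ε hε
  obtain ⟨ρ₁, hρ₁, hHn⟩ := Metric.continuous_iff.1 hH ![κ, (∑ i, u i) + (w .mo + w .am)]
    (min (ε / 100) ε₀) (lt_min (by positivity) hε₀)
  have hn : (0 : ℝ) ≤ n := Nat.cast_nonneg n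
  refine ⟨ρ₁ / (2 * (n + 2)), by positivity, ?_⟩
  intro X hX k f gs hk hk1 hf hgs hlen
  have hρ : (n + 2) * (ρ₁ / (2 * (n + 2))) = ρ₁ / 2 := by field_simp
  have hle : ρ₁ / (2 * (n + 2)) ≤ (n + 2) * (ρ₁ / (2 * (n + 2))) := by
    have h0 : 0 ≤ ρ₁ / (2 * (n + 2)) := by positivity
    nlinarith
  have hq : ∀ i, |evv D X k f gs i - vec κ u w i| ≤ ρ₁ / (2 * (n + 2)) := by
    rintro (⟨⟩ | i | t)
    · exact hk1
    · exact (hf i).2
    · exact hgs t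
  have hsm := abs_smv_sub hq
  rw [smv_vec, smv_evv, hρ] at hsm
  have hd : dist ![k / Real.log X, LL D (List.ofFn f ++ gs) / Real.log X]
      ![κ, (∑ i, u i) + (w .mo + w .am)] ≤ ρ₁ / 2 := by
    rw [dist_pi_le_iff (by positivity)]
    intro i
    rw [Real.dist_eq]
    fin_cases i
    · show |k / Real.log X - κ| ≤ _
      linarith
    · exact hsm
  have h1 := hHn _ (lt_of_le_of_lt hd (by linarith))
  rw [Real.dist_eq] at h1
  unfold Hmin
  linarith [(abs_lt.1 h1).2]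

/-- **the transfer rule at the level of `ex`**, finite text `HRcB` with the identical base map and
the parent condition `Hmin` -/
theorem ruleExh [PseudoMetricSpace Θ] [CompactSpace Θ] {ι : Type*} [Finite ι]
    {Ψ : Lam → ℝ → List Pc → ℝ} {Φ : ι → Lam → ℝ → List Pc → ℝ}
    (hcost : ∀ p' p, 1 ≤ cost p' p) (hs1 : ∀ p, 1 ≤ D.s1 p)
    {G F : ι → (Fin 4 → ℝ) → Θ → ℝ} (hG : ∀ j, Continuous fun x : (Fin 4 → ℝ) × Θ => G j x.1 x.2)
    (hF : ∀ j, Continuous fun x : (Fin 4 → ℝ) × Θ => F j x.1 x.2)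
    {H A : (Fin 2 → ℝ) → ℝ} (hH : Continuous H) (hA : Continuous A)
    {zl : ι → Prop} {cl ε₀ : ℝ} (hε₀ : 0 < ε₀)
    (hmono : ∀ lam l l' ps, l ≤ l' → Ψ lam l ps ≤ Ψ lam l' ps)
    (hrule : HRcB D cost Ψ Φ (fun _ _ ps => ps) G F (Hmin D H ε₀) A zl cl)
    (hpermΨ : Pinv Ψ) (hperm : ∀ j, Pinv (Φ j)) (htriv : ∀ j, Triv D (Φ j))
    (triv : ∀ (j : ι) (lam : Lam) (N : ℕ), ∃ C T : ℝ, 0 ≤ C ∧ 0 ≤ T ∧
      ∀ (l : ℝ) (ps : List Pc), 0 ≤ l → ps.length ≤ N → (∀ p ∈ ps, 0 ≤ D.len p) →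
      Φ j lam l ps ≤ C * Real.exp (T * (l + LL D ps)))
    {κ : ℝ} {Y : Multiset ℝ} {m a E : ℝ} (hκ : 0 ≤ κ) (hY : Ok Y m a) (hE0 : 0 ≤ E)
    (hHκ : H ![κ, Y.sum + m + a] ≤ 0) (hE : A ![κ, Y.sum + m + a] ≤ E)
    (hch : ∀ (j : ι) (θ : Θ) (Y' : Multiset ℝ) (m' a' l : ℝ), Sh Y' Y → 0 ≤ m' → m' ≤ m →
      0 ≤ a' → a' ≤ a → 0 ≤ l → l ≤ cl →
      G j ![κ, Y.sum + m + a, l, Y'.sum + m' + a'] θ ≤ 0 →
      (zl j → ∀ y ∈ Y', y ≤ l) →
      ex D (Φ j) l Y' m' a' ≤ E + F j ![κ, Y.sum + m + a, l, Y'.sum + m' + a'] θ) :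
    ex D Ψ κ Y m a ≤ E := by
  have hYl : (List.ofFn Y.toList.get : Multiset ℝ) = Y := by
    rw [List.ofFn_get, Multiset.coe_toList]
  have hsum : ∑ i, Y.toList.get i = Y.sum := by rw [sum_get, sum_toList]
  have key := ruleExd (Θ := Θ) (D := D) (u := Y.toList.get) (ub := fun _ => Y.toList.get)
    (m := m) (a := a) (E := E) (κ := κ) hcost hs1 hG hF hA hmono hrule hpermΨ hperm htriv triv hκ
    (fun i => hY.1 _ (Multiset.mem_toList.1 (List.get_mem _ _)))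
    (fun _ i => hY.1 _ (Multiset.mem_toList.1 (List.get_mem _ _))) hY.2.1 hY.2.2 hE0
    (fun _ => baseOK_id _) (parOK_Hmin hH hε₀ (by
      rw [hsum]
      have e : (wt m a) Kd.mo + (wt m a) Kd.am = m + a := rfl
      rw [e, ← add_assoc]
      exact hHκ)) (by rw [hsum]; exact hE) ?_
  · rwa [hYl] at key
  · intro j θ u' m' a' l h0 h1 hm0 hm1 ha0 ha1 hl hlc hGj hz
    have hsum' : ((List.ofFn u' : List ℝ) : Multiset ℝ).sum = ∑ i, u' i := by
      rw [Multiset.sum_coe, List.sum_ofFn]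
    rw [hsum] at hGj ⊢
    rw [← hsum'] at hGj ⊢
    have hsh : Sh ((List.ofFn u' : List ℝ) : Multiset ℝ) Y := by
      have h2 : Shl (List.ofFn u') (List.ofFn Y.toList.get) := by
        unfold Shl
        rw [forall₂_ofFn_iff]
        exact fun i => ⟨h0 i, h1 i⟩
      have h3 := h2.sh
      rwa [hYl] at h3
    refine hch j θ _ m' a' l hsh hm0 hm1 ha0 ha1 hl hlc hGj fun hzj y hy => ?_
    obtain ⟨i, rfl⟩ := (List.mem_ofFn' _ _).1 (Multiset.mem_coe.1 hy)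
    exact hz hzj i

end Crest.Agent.R017.RGB545
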