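import Crest.Agent.R017.RGB3_545

/-!
# Row 17, T.5: the fields of the RG recursion from the finite theorems (helper545), part 4

* `funOK_RX`, `funOK_Rp`, `funOK_S0p` : the functionals of class N
-/

set_option autoImplicit false

noncomputable section

open Set Filter Topology

namespace Crest.Agent.R017.RGB545

open Crest.Agent.R012 Crest.Agent.R012.Eis Crest.Agent.R012.LS2
open Crest.Agent.R017.XG702 (Pcs BG)
open Crest.Agent.R017.B770
open Crest.Agent.R017.Prov71
open Crest.Agent.R017.XP699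
open Crest.Agent.R017.HP842 (Pc KS sqc Kg alL)
open Crest.Agent.R017.XPD571

variable {Lam : Type*} {π : Lam → DPar} {h : ℝ → ℝ} {c : ℝ}

theorem funOK_RX (hP : ∀ lam, (π lam).OK) (hpu : FE47.PU h c) (Q : Lam → Eis → Prop) :
    FunOK (RX Q π h) where
  perm := fun lam l _ _ hp => RQ_perm _ h l (hp.map _)
  triv := fun κ u m a _ _ => ⟨_, XHB411.bg_RQ hP hpu Q κ u m a⟩
  trivL := fun lam N => by
    obtain ⟨C, hC⟩ := XFl571.triv_RQ hpu (hP lam) (Q lam) N
    refine ⟨max C 0, 2, le_max_right _ _, by norm_num, fun l ps hl hlen hz => ?_⟩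
    refine (hC l hl ps hlen hz).trans ?_
    exact mul_le_mul_of_nonneg_right (le_max_left _ _) (Real.exp_pos _).le

theorem funOK_Rp (hP : ∀ lam, (π lam).OK) (hpu : FE47.PU h c) :
    FunOK (fun lam => Rp (π lam) h) := funOK_RX hP hpu (fun lam => Qp (π lam))

theorem Rp_mono_l (lam : Lam) (l l' : ℝ) (ps : List Pq) (hl : l ≤ l') :
    Rp (π lam) h l ps ≤ Rp (π lam) h l' ps := XP699.RQ_mono_l _ _ hl _

theorem S0p_mono_l (P : DPar) (h : ℝ → ℝ) {l l' : ℝ} (hl : l ≤ l') (ps : List Pq) :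
    S0p P h l ps ≤ S0p P h l' ps := by
  classical
  unfold S0p
  exact Finset.sum_le_sum_of_subset_of_nonneg (Finset.filter_subset_filter _
    (bl_mono (Real.exp_pos _).le (Real.exp_le_exp.2 hl))) fun k _ _ => by positivity

theorem funOK_S0p (hP : ∀ lam, (π lam).OK) (hpu : FE47.PU h c) :
    FunOK (fun lam => S0p (π lam) h) where
  perm := pinv_S0p π h
  triv := fun κ u m a hκ hu => by
    obtain ⟨e, he⟩ := XHB411.triv_Sp hP hpu κ u m a hκ hu
    exact ⟨e, he.comp fun lam l ps => S0p_le (π lam) h l ps⟩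
  trivL := fun lam N => by
    obtain ⟨C, hC, hb⟩ := UBT973.triv_Sp hpu.cd.continuous hpu.cs
    refine ⟨100 * C ^ (2 * N), 2, by positivity, by norm_num, fun l ps hl hlen hz => ?_⟩
    refine (S0p_le _ _ _ _).trans ((hb (π lam) (hP lam) l ps).trans ?_)
    have e : (ps.map Pq.z).sum = LL Dq ps := rfl
    rw [e]
    have h1 : C ^ (2 * ps.length) ≤ C ^ (2 * N) := pow_le_pow_right₀ hC (by omega)
    have h2 : Real.exp (l + 2 * LL Dq ps) ≤ Real.exp (2 * (l + LL Dq ps)) :=
      Real.exp_le_exp.2 (by linarith)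
    gcongr

end Crest.Agent.R017.RGB545
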