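import Crest.Agent.R017.RGB3_545
import Crest.Agent.R017.RGx_590

/-!
# Row 17, T.7: the fields of the RG recursion from the finite theorems (helper545), class E

* `HpX` : the parent condition (three lumps, the first two at least `d₁`)
* `BessFinX`, `bessx_of_fin` : the terminal bound
* `RgFinX`, `rgx_of_fin` : the recursion
* `expRGx_of` : `ExpRGx` from the finite texts
-/

set_option autoImplicit false

noncomputable section

open Set Filter Topology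

namespace Crest.Agent.R017.RGB545

open Crest.Agent.R012 Crest.Agent.R012.Eis Crest.Agent.R012.LS2
open Crest.Agent.R017.XG702 (Pcs BG)
open Crest.Agent.R017.B770
open Crest.Agent.R017.Prov71
open Crest.Agent.R017.XP699
open Crest.Agent.R017.ER911 (Ok Sh EF)
open Crest.Agent.R017.RuleM545
open Crest.Agent.R017.SC777 (PremRG sum3 ok3)

variable {Lam ι : Type*} {p : ℕ}

/-- **the parent condition**: `H (k, n) ≤ min (ε / 100) ε₀`, three lumps in front, the first two at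
least `d₁ - min (ε / 100) ε₀` (over `log X`) -/
def HpX (H : (Fin 2 → ℝ) → ℝ) (ε₀ d₁ ε X k : ℝ) (ps : List Pq) : Prop :=
  Hmin Dq H ε₀ ε X k ps ∧ ∃ (p₁ p₂ p₃ : Pq) (gs : List Pq), ps = p₁ :: p₂ :: p₃ :: gs ∧
    Dq.lump p₁ ∧ Dq.lump p₂ ∧ Dq.lump p₃ ∧ d₁ ≤ Dq.nl X p₁ + min (ε / 100) ε₀ ∧
    d₁ ≤ Dq.nl X p₂ + min (ε / 100) ε₀

theorem parOK_HpX {H : (Fin 2 → ℝ) → ℝ} (hH : Continuous H) {ε₀ : ℝ} (hε₀ : 0 < ε₀)
    {κ y₁ y₂ y₃ d₁ : ℝ} {w : Kd → ℝ}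
    (h : H ![κ, (∑ i, (![y₁, y₂, y₃] : Fin 3 → ℝ) i) + (w .mo + w .am)] ≤ 0)
    (h1 : d₁ ≤ y₁) (h2 : d₁ ≤ y₂) : ParOK Dq (HpX H ε₀ d₁) κ ![y₁, y₂, y₃] w := by
  intro ε hε
  obtain ⟨ρ, hρ, hp⟩ := parOK_Hmin (D := Dq) hH hε₀ h ε hε
  have hm : 0 < min (ε / 100) ε₀ := lt_min (by positivity) hε₀
  refine ⟨min ρ (min (ε / 100) ε₀), lt_min hρ hm, ?_⟩
  intro X hX k f gs hk hk1 hf hgs hlen
  refine ⟨hp X hX k f gs hk (hk1.trans (min_le_left _ _))
    (fun i => ⟨(hf i).1, (hf i).2.trans (min_le_left _ _)⟩)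
    (fun t => (hgs t).trans (min_le_left _ _)) hlen, f 0, f 1, f 2, gs, ?_, (hf 0).1, (hf 1).1,
    (hf 2).1, ?_, ?_⟩
  · simp only [List.ofFn_succ, List.ofFn_zero, List.cons_append, List.nil_append]
    rfl
  · have e : |Dq.nl X (f 0) - y₁| ≤ min ρ (min (ε / 100) ε₀) := (hf 0).2
    have := (abs_le.1 (e.trans (min_le_right _ _))).1
    linarith
  · have e : |Dq.nl X (f 1) - y₂| ≤ min ρ (min (ε / 100) ε₀) := (hf 1).2
    have := (abs_le.1 (e.trans (min_le_right _ _))).1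
    linarith

/-- the base map of the replaced list, `d = 0` allowed -/
theorem baseG_rp {d y₁ y₂ y₃ : ℝ} (hd : 0 ≤ d) (hy : d < y₁ + y₂ ∨ d = 0) :
    BaseG Dq (fun X ps => rp (d * Real.log X) ps) ![y₁, y₂, y₃] ![y₁ + y₂ - d, d, y₃] := by
  intro σ hσ
  obtain ⟨τ, hτ0, hτ1, hτ⟩ : ∃ τ : ℝ, 0 < τ ∧ τ ≤ σ / 2 ∧ (d = 0 ∨ 2 * τ ≤ y₁ + y₂ - d) := by
    rcases hy with hy | hy
    · exact ⟨min (σ / 2) ((y₁ + y₂ - d) / 2), lt_min (by linarith) (by linarith),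
        min_le_left _ _, Or.inr (by linarith [min_le_right (σ / 2) ((y₁ + y₂ - d) / 2)])⟩
    · exact ⟨σ / 2, by linarith, le_rfl, Or.inl hy⟩
  refine ⟨τ, hτ0, ?_⟩
  intro X hX f gs h hf0
  have hX1 : (1 : ℝ) < X := by linarith
  have hlog : 0 < Real.log X := Real.log_pos hX1
  have h0 := h 0
  have h1 := h 1
  have h2 := h 2
  have e0 : |(f 0).z / Real.log X - y₁| ≤ τ := h0.2
  have e1 : |(f 1).z / Real.log X - y₂| ≤ τ := h1.2
  have e2 : |(f 2).z / Real.log X - y₃| ≤ τ := h2.2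
  have a0 := abs_le.1 e0
  have a1 := abs_le.1 e1
  refine ⟨![{f 0 with z := (f 0).z + (f 1).z - d * Real.log X},
    {f 1 with z := d * Real.log X}, f 2], ?_, ?_⟩
  · show rp (d * Real.log X) (List.ofFn f ++ gs) = _
    simp only [List.ofFn_succ, List.ofFn_zero, List.cons_append, List.nil_append]
    rfl
  · intro i
    fin_cases i
    · refine ⟨h0.1, ?_, ?_, rfl, rfl⟩
      · show |((f 0).z + (f 1).z - d * Real.log X) / Real.log X - (y₁ + y₂ - d)| ≤ σ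
        have e : ((f 0).z + (f 1).z - d * Real.log X) / Real.log X - (y₁ + y₂ - d) =
            ((f 0).z / Real.log X - y₁) + ((f 1).z / Real.log X - y₂) := by
          field_simp
          ring
        rw [e]
        refine (abs_add_le _ _).trans ?_
        linarith
      · show 0 ≤ (f 0).z + (f 1).z - d * Real.log X
        rcases hτ with hd0 | hτ
        · have g0 : 0 ≤ (f 0).z := hf0 0
          have g1 : 0 ≤ (f 1).z := hf0 1
          rw [hd0]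
          linarith
        · have h3 : d ≤ (f 0).z / Real.log X + (f 1).z / Real.log X := by linarith
          rw [← add_div, le_div_iff₀ hlog] at h3
          linarith
    · refine ⟨h1.1, ?_, mul_nonneg hd hlog.le, rfl, rfl⟩
      show |d * Real.log X / Real.log X - d| ≤ σ
      rw [mul_div_cancel_right₀ _ hlog.ne', sub_self, abs_zero]
      exact hσ.le
    · exact ⟨h2.1, e2.trans (by linarith), hf0 2, rfl, rfl⟩

/-- the base maps -/
def rbx (d₀ : ℝ) (b : Bool) (X : ℝ) (ps : List Pq) : List Pq :=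
  if b = true then rp (d₀ * Real.log X) ps else ps

/-- the base sides -/
def ubx (d₀ y₁ y₂ y₃ : ℝ) (b : Bool) : Fin 3 → ℝ :=
  if b = true then ![y₁ + y₂ - d₀, d₀, y₃] else ![y₁, y₂, y₃]

lemma ubx_sum (d₀ y₁ y₂ y₃ : ℝ) (b : Bool) : ∑ i, ubx d₀ y₁ y₂ y₃ b i = y₁ + y₂ + y₃ := by
  unfold ubx
  split_ifs <;> rw [Fin.sum_univ_three] <;> simp

/-- the side as multiset -/
def Yx (d₀ y₁ y₂ y₃ : ℝ) (b : Bool) : Multiset ℝ :=
  if b = true then {y₁ + y₂ - d₀, d₀, y₃} else {y₁, y₂, y₃}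

lemma Yx_sum (d₀ y₁ y₂ y₃ : ℝ) (b : Bool) : (Yx d₀ y₁ y₂ y₃ b).sum = y₁ + y₂ + y₃ := by
  unfold Yx
  split_ifs <;> rw [sum3]
  ring

lemma ofFn3 (x y z : ℝ) : ((List.ofFn ![x, y, z] : List ℝ) : Multiset ℝ) = {x, y, z} := by
  simp only [List.ofFn_succ, List.ofFn_zero]
  rfl

lemma ofFn_ubx (d₀ y₁ y₂ y₃ : ℝ) (b : Bool) :
    ((List.ofFn (ubx d₀ y₁ y₂ y₃ b) : List ℝ) : Multiset ℝ) = Yx d₀ y₁ y₂ y₃ b := by
  unfold ubx Yx
  split_ifs <;> exact ofFn3 _ _ _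

lemma sh_of_ubx {d₀ y₁ y₂ y₃ : ℝ} {b : Bool} {u' : Fin 3 → ℝ} (h0 : ∀ i, 0 ≤ u' i)
    (h1 : ∀ i, u' i ≤ ubx d₀ y₁ y₂ y₃ b i) :
    Sh ((List.ofFn u' : List ℝ) : Multiset ℝ) (Yx d₀ y₁ y₂ y₃ b) := by
  rw [← ofFn_ubx]
  have h2 : Shl (List.ofFn u') (List.ofFn (ubx d₀ y₁ y₂ y₃ b)) := by
    unfold Shl
    rw [forall₂_ofFn_iff]
    exact fun i => ⟨h0 i, h1 i⟩
  exact h2.sh

/-! ### the terminal bound -/

/-- the premises of the terminal bound -/
inductive BI (ι : Type*)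
  | r (b : Bool) : BI ι
  | tb (b : Bool) : BI ι
  | o : BI ι
  | q (b : Bool) (j : ι) : BI ι

instance [Finite ι] : Finite (BI ι) := by
  refine Finite.of_surjective (fun x : Bool ⊕ Bool ⊕ Unit ⊕ (Bool × ι) => match x with
    | .inl b => (BI.r b : BI ι) | .inr (.inl b) => .tb b | .inr (.inr (.inl _)) => .o
    | .inr (.inr (.inr x)) => .q x.1 x.2) ?_
  rintro (b | b | _ | ⟨b, j⟩)
  · exact ⟨.inl b, rfl⟩
  · exact ⟨.inr (.inl b), rfl⟩
  · exact ⟨.inr (.inr (.inl ())), rfl⟩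
  · exact ⟨.inr (.inr (.inr (b, j))), rfl⟩

/-- which base map -/
def BI.b : BI ι → Bool
  | .r b => b
  | .tb b => b
  | .o => true
  | .q b _ => b

def Phbx (R S₀ : Lam → ℝ → List Pq → ℝ) (L : ι → Line Lam p) :
    BI ι → Lam → ℝ → ℝ → List Pq → ℝ
  | .r _ => one R
  | .tb _ => one S₀
  | .o => one S₀
  | .q _ j => (L j).Φ

/-- second levels of the terminal bound -/
def bbx (L : ι → Line Lam p) (K : ℝ) : BI ι → Th p K → ℝ
  | .q _ j, θ => (L j).b θ.1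
  | _, _ => 0

/-- conditions of the terminal bound, `x = (v, n, l, n')`; `o` : the replaced side itself -/
def Gbx (L : ι → Line Lam p) (K : ℝ) : BI ι → (Fin 4 → ℝ) → Th p K → ℝ
  | .r _, x, _ => x 2 - K
  | .tb _, x, _ => x 2 - x 0 - (x 1 - x 3)
  | .o, x, _ => max (x 2 - x 0) (x 1 - x 3)
  | .q _ j, x, θ => (L j).G ![K, x 0, x 1, x 2, x 3] θ.1

/-- exponents of the terminal bound, `x = (v, n, l, n')` -/
def Fbx (L : ι → Line Lam p) (K c : ℝ) : BI ι → (Fin 4 → ℝ) → Th p K → ℝ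
  | .r _, x, _ => -((x 1 - x 3) + (K - x 2) / 3 + (x 0 + x 1 - 2 * K) / 3)
  | .tb _, x, _ => -(4 / 3 * (x 1 - x 3)) - (x 0 - x 2) / 3 +
      max 0 (2 / 3 * (x 1 - x 3) + (x 2 - x 0) / 3 - c) + c / 2
  | .o, _, _ => 0
  | .q _ j, x, θ => (L j).F ![K, x 0, x 1, x 2, x 3] θ.1

def zbx (L : ι → Line Lam p) : BI ι → Prop
  | .q _ j => (L j).zl
  | _ => False

/-- the unconditional exponent: `(4/3 n + (k + K) / 3) ∨ (2/3 k + 5/3 n - d₀ + 30 c)` -/
def Abx (K c d₀ : ℝ) (x : Fin 2 → ℝ) : ℝ :=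
  max (Ab K x) (2 / 3 * x 0 + 5 / 3 * x 1 - d₀ + 30 * c)

/-- **the terminal (Bessel) bound, class E, finite text**: parent `v ≤ 2 n`, `3 v + 300 c ≤ 2 K`,
`6 n ≤ 5 K`, `(v + n - K) / 3 ≤ d₀`, three lumps, the first two `≥ d₀ + 2 c`; unconditional term
`Abx` -/
def BessFinX (R S₀ : Lam → ℝ → List Pq → ℝ) (L : ι → Line Lam p) (ε₀ K c d₀ : ℝ) : Prop :=
  HRcG Dq hcost S₀ (Phbx R S₀ L) (bbx L K) (fun j => rbx d₀ j.b) (Gbx L K) (Fbx L K c)
    (HpX (fun x => max (max (x 0 - 2 * x 1) (max (3 * x 0 + 300 * c - 2 * K) (6 * x 1 - 5 * K)))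
      ((x 0 + x 1 - K) / 3 - d₀)) ε₀ (d₀ + 2 * c))
    (Abx K c d₀) (zbx L) (TK K)

theorem bessx_of_fin [Finite ι] {R S₀ : Lam → ℝ → List Pq → ℝ} {L : ι → Line Lam p}
    (hL : ∀ j, (L j).OK) (hR : FunOK R) (hS : FunOK S₀)
    (hSm : ∀ lam l l' ps, l ≤ l' → S₀ lam l ps ≤ S₀ lam l' ps) {ε₀ K c d₀ : ℝ} (hε₀ : 0 < ε₀)
    (hfin : BessFinX R S₀ L ε₀ K c d₀) {v y₁ y₂ y₃ m a n E : ℝ} (hc : 0 ≤ c) (h3 : 0 ≤ y₃)
    (hm : 0 ≤ m) (ha : 0 ≤ a) (hd : 0 ≤ d₀) (hd1 : d₀ + 2 * c ≤ y₁) (hd2 : d₀ + 2 * c ≤ y₂)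
    (hn : n = y₁ + y₂ + y₃ + m + a)
    (hv : 0 ≤ v) (hvn : v ≤ 2 * n) (hvK : 3 * v + 300 * c ≤ 2 * K) (hnK : 6 * n ≤ 5 * K)
    (hdv : (v + n - K) / 3 ≤ d₀)
    (hbias : 2 / 3 * v + 5 / 3 * n - d₀ + 30 * c ≤ E) (hE : 4 / 3 * n + (v + K) / 3 ≤ E)
    (hr : PR (ex Dq R) K v n E {y₁, y₂, y₃} m a)
    (hr' : PR (ex Dq R) K v n E {y₁ + y₂ - d₀, d₀, y₃} m a)
    (hT : PTB c (ex Dq S₀) v n E {y₁, y₂, y₃} m a)
    (hT' : PTB c (ex Dq S₀) v n E {y₁ + y₂ - d₀, d₀, y₃} m a)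
    (hO : ex Dq S₀ v {y₁ + y₂ - d₀, d₀, y₃} m a ≤ E)
    (hQ : QG L K v {y₁, y₂, y₃} m a E) (hQ' : QG L K v {y₁ + y₂ - d₀, d₀, y₃} m a E) :
    ex Dq S₀ v {y₁, y₂, y₃} m a ≤ E := by
  have hy : d₀ < y₁ + y₂ ∨ d₀ = 0 := by
    rcases hd.lt_or_eq with h | h
    · left; linarith
    · right; exact h.symm
  have hrr : ∀ b, PR (ex Dq R) K v n E (Yx d₀ y₁ y₂ y₃ b) m a := by
    rintro (_ | _)
    · exact hr
    · exact hr'
  have hTT : ∀ b : Bool, PTB c (ex Dq S₀) v n E (Yx d₀ y₁ y₂ y₃ b) m a := by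
    rintro (_ | _)
    · exact hT
    · exact hT'
  have hQQ : ∀ b, QG L K v (Yx d₀ y₁ y₂ y₃ b) m a E := by
    rintro (_ | _)
    · exact hQ
    · exact hQ'
  have hYn : ∀ b, (Yx d₀ y₁ y₂ y₃ b).sum + m + a = n := fun b => by rw [Yx_sum, hn]
  have hok : ∀ b, Ok (Yx d₀ y₁ y₂ y₃ b) m a := by
    rintro (_ | _)
    · exact ok3 (by linarith) (by linarith) h3 hm ha
    · exact ok3 (by linarith) hd h3 hm ha
  have hsumu : (∑ i, (![y₁, y₂, y₃] : Fin 3 → ℝ) i) = y₁ + y₂ + y₃ := by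
    rw [Fin.sum_univ_three]; rfl
  have key := ruleBGg (Θ := Th p K) (D := Dq) (cost := hcost) (Ψ := S₀) (Φ := Phbx R S₀ L)
    (bθ := bbx L K) (rb := fun j => rbx d₀ j.b) (u := ![y₁, y₂, y₃])
    (ub := fun j => ubx d₀ y₁ y₂ y₃ j.b)
    (m := m) (a := a) (E := E) (κ := v) ?_ ?_ one_le_hcost (fun q => by
      show 1 ≤ 1 + |q.t|
      linarith [abs_nonneg q.t]) ?_ ?_ ?_ hSm hfin ?_ hv ?_ ?_ hm ha ?_
    (parOK_HpX ?_ hε₀ ?_ hd1 hd2) ?_ ?_
  · have := ex_le hS.perm hQ.1 key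
    rwa [ofFn3] at this
  · rintro (b | b | _ | ⟨b, j⟩)
    · exact continuous_const
    · exact continuous_const
    · exact continuous_const
    · exact (hL j).cb.comp continuous_subtype_val
  · rintro (b | b | _ | ⟨b, j⟩) θ
    · exact le_rfl
    · exact le_rfl
    · exact le_rfl
    · exact (hL j).b0 _ θ.2.1
  · rintro (b | b | _ | ⟨b, j⟩)
    · show Continuous fun x : (Fin 4 → ℝ) × Th p K => x.1 2 - K
      fun_prop
    · show Continuous fun x : (Fin 4 → ℝ) × Th p K => x.1 2 - x.1 0 - (x.1 1 - x.1 3)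
      fun_prop
    · show Continuous fun x : (Fin 4 → ℝ) × Th p K => max (x.1 2 - x.1 0) (x.1 1 - x.1 3)
      fun_prop
    · exact (hL j).cG.comp ((cont5 continuous_const (by fun_prop) (by fun_prop) (by fun_prop)
        (by fun_prop)).prodMk (continuous_subtype_val.comp continuous_snd))
  · rintro (b | b | _ | ⟨b, j⟩)
    · show Continuous fun x : (Fin 4 → ℝ) × Th p K =>
        -((x.1 1 - x.1 3) + (K - x.1 2) / 3 + (x.1 0 + x.1 1 - 2 * K) / 3)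
      fun_prop
    · show Continuous fun x : (Fin 4 → ℝ) × Th p K => -(4 / 3 * (x.1 1 - x.1 3)) -
        (x.1 0 - x.1 2) / 3 + max 0 (2 / 3 * (x.1 1 - x.1 3) + (x.1 2 - x.1 0) / 3 - c) + c / 2
      fun_prop
    · exact continuous_const
    · exact (hL j).cF.comp ((cont5 continuous_const (by fun_prop) (by fun_prop) (by fun_prop)
        (by fun_prop)).prodMk (continuous_subtype_val.comp continuous_snd))
  · unfold Abx Ab
    fun_prop
  · rintro (b | b | _ | ⟨b, j⟩)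
    · exact hR.triv2
    · exact hS.triv2
    · exact hS.triv2
    · exact (hL j).tr
  · intro i
    fin_cases i
    · show 0 ≤ y₁
      linarith
    · show 0 ≤ y₂
      linarith
    · exact h3
  · intro j i
    have := (hok j.b).1
    rw [← ofFn_ubx] at this
    exact this _ (Multiset.mem_coe.2 ((List.mem_ofFn' _ _).2 ⟨i, rfl⟩))
  · intro j
    show BaseG Dq (rbx d₀ j.b) ![y₁, y₂, y₃] (ubx d₀ y₁ y₂ y₃ j.b)
    cases j.b with
    | false => exact baseG_id _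
    | true => exact baseG_rp hd hy
  · exact Continuous.max (Continuous.max (by fun_prop) (Continuous.max (by fun_prop)
      (by fun_prop))) (by fun_prop)
  · rw [hsumu]
    have e : (wt m a) Kd.mo + (wt m a) Kd.am = m + a := rfl
    rw [e, ← add_assoc, ← hn]
    show max (max (v - 2 * n) (max (3 * v + 300 * c - 2 * K) (6 * n - 5 * K)))
      ((v + n - K) / 3 - d₀) ≤ 0
    exact max_le (max_le (by linarith) (max_le (by linarith) (by linarith))) (by linarith)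
  · rw [hsumu, ← hn]
    show max (4 / 3 * n + (v + K) / 3) (2 / 3 * v + 5 / 3 * n - d₀ + 30 * c) ≤ E
    exact max_le hE hbias
  · rintro (b | b | _ | ⟨b, j⟩) θ u' m' a' l h0 h1 hm0 hm1 ha0 ha1 hl hlc hG hz
    · have hsh := sh_of_ubx h0 h1
      have hsu : (∑ i, u' i) = ((List.ofFn u' : List ℝ) : Multiset ℝ).sum := by
        rw [Multiset.sum_coe, List.sum_ofFn]
      rw [hsu] at hG ⊢
      have e4 : BI.b (BI.r b : BI ι) = b := rfl
      rw [e4] at hG hsh ⊢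
      have hG' : l - K ≤ 0 := hG
      refine hR.bg2 hl ⟨hsh.nn, hm0, ha0⟩ ?_
      have h := hrr b _ m' a' _ l hsh hm0 hm1 ha0 ha1 rfl hl (by linarith)
      show _ ≤ E + -((((∑ i, ubx d₀ y₁ y₂ y₃ b i) + m + a -
        (((List.ofFn u' : List ℝ) : Multiset ℝ).sum + m' + a'))) + (K - l) / 3 +
        (v + ((∑ i, ubx d₀ y₁ y₂ y₃ b i) + m + a) - 2 * K) / 3)
      rw [ubx_sum, ← hn]
      linarith
    · have hsh := sh_of_ubx h0 h1
      have hsu : (∑ i, u' i) = ((List.ofFn u' : List ℝ) : Multiset ℝ).sum := by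
        rw [Multiset.sum_coe, List.sum_ofFn]
      rw [hsu] at hG ⊢
      have e4 : BI.b (BI.tb b : BI ι) = b := rfl
      rw [e4] at hG hsh ⊢
      have hG' : l - v - ((∑ i, ubx d₀ y₁ y₂ y₃ b i) + m + a -
        (((List.ofFn u' : List ℝ) : Multiset ℝ).sum + m' + a')) ≤ 0 := hG
      rw [ubx_sum, ← hn] at hG'
      refine hS.bg2 hl ⟨hsh.nn, hm0, ha0⟩ ?_
      have h := hTT b _ m' a' _ l hsh hm0 hm1 ha0 ha1 rfl hl (by linarith)
      refine h.trans (le_of_eq ?_)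
      show _ = E + (-(4 / 3 * ((∑ i, ubx d₀ y₁ y₂ y₃ b i) + m + a -
        (((List.ofFn u' : List ℝ) : Multiset ℝ).sum + m' + a'))) - (v - l) / 3 +
        max 0 (2 / 3 * ((∑ i, ubx d₀ y₁ y₂ y₃ b i) + m + a -
        (((List.ofFn u' : List ℝ) : Multiset ℝ).sum + m' + a')) + (l - v) / 3 - c) + c / 2)
      rw [ubx_sum, ← hn]
      ring
    · have hsh := sh_of_ubx h0 h1
      have hsu : (∑ i, u' i) = ((List.ofFn u' : List ℝ) : Multiset ℝ).sum := by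
        rw [Multiset.sum_coe, List.sum_ofFn]
      rw [hsu] at hG ⊢
      have e4 : BI.b (BI.o : BI ι) = true := rfl
      rw [e4] at hG hsh ⊢
      have hG' : max (l - v) ((∑ i, ubx d₀ y₁ y₂ y₃ true i) + m + a -
        (((List.ofFn u' : List ℝ) : Multiset ℝ).sum + m' + a')) ≤ 0 := hG
      rw [ubx_sum, ← hn] at hG'
      have g1 := (le_max_left _ _).trans hG'
      have g2 := (le_max_right _ _).trans hG'
      have hsl := sh_sum_le hsh
      have hYs := Yx_sum d₀ y₁ y₂ y₃ true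
      have hu' : ((List.ofFn u' : List ℝ) : Multiset ℝ) = Yx d₀ y₁ y₂ y₃ true :=
        sh_eq hsh (by linarith)
      have hm' : m' = m := by linarith
      have ha' : a' = a := by linarith
      refine hS.bg2 hl ⟨hsh.nn, hm0, ha0⟩ ?_
      have h := ex_mono_l hS hSm (κ := v) (κ' := l) hv (by linarith) (hok true)
      rw [hu', hm', ha']
      refine h.trans (hO.trans (le_of_eq ?_))
      show E = E + 0
      ring
    · have hsh := sh_of_ubx h0 h1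
      have hsu : (∑ i, u' i) = (List.ofFn u').sum := by rw [List.sum_ofFn]
      rw [hsu] at hG ⊢
      have e4 : BI.b (BI.q b j : BI ι) = b := rfl
      rw [e4] at hG hsh ⊢
      have hsb : (∑ i, ubx d₀ y₁ y₂ y₃ b i) = (Yx d₀ y₁ y₂ y₃ b).sum := by
        rw [ubx_sum, Yx_sum]
      rw [hsb] at hG ⊢
      exact (hQQ b).2 j θ _ m' a' l hsh hm0 hm1 ha0 ha1 hl hlc hG
        (fun hzj y hy' => by
          obtain ⟨i, rfl⟩ := (List.mem_ofFn' _ _).1 hy'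
          exact hz hzj i)

end Crest.Agent.R017.RGB545
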