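import Crest.Agent.R017.RGB6_545
import Crest.Agent.R017.RGB4_545
import Crest.Agent.R017.QLd_777
import Crest.Agent.R017.ProvS_986

/-!
# Row 17, T.7: class E, the complete character side (helper545)

* `bg_RFX` : the complete character side from the raw rules `RawX`; `bg2_merge`
* `RFx π h`, `S0e π h`, `funOK_RFx`, `funOK_S0e`
* `DataE`, `dataE_of`, `DataE.ex_full`
-/

set_option autoImplicit false

noncomputable section

open Set Filter Topology

namespace Crest.Agent.R017.RGB545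

open Crest.Agent.R012 Crest.Agent.R012.Eis Crest.Agent.R012.LS2
open Crest.Agent.R012.T411 (NCube)
open Crest.Agent.R017.XG702 (Pcs BG)
open Crest.Agent.R017.B770
open Crest.Agent.R017.Prov71
open Crest.Agent.R017.XP699
open Crest.Agent.R017.ER911 (Ok Sh EF)
open Crest.Agent.R017.RuleM545
open Crest.Agent.R017.XPD571
open Crest.Agent.R017.XEx298
open Crest.Agent.R017.XEr298
open Crest.Agent.R017.XS0298
open Crest.Agent.R017.Red848
open Crest.Agent.R017.XC858 (SKq)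
open Crest.Agent.R017.PX764 (Dk)
open Crest.Agent.R017.SC777 (Full)

variable {Lam : Type*} {π : Lam → DPar} {h : ℝ → ℝ} {c₁ θ : ℝ}

/-- **the complete character side** from the cube-free one (lumps at most the level, slope `1/3`)
and the principal column, raw rules `RawX` -/
theorem bg_RFX {R RF RN Rp S : Lam → ℝ → List Pq → ℝ} (H : XPX298.RawX θ Dq R RF RN Rp S)
    (hperm : Pinv RN) (htriv : Triv Dq RN) {κ : ℝ} {u : List ℝ} {m a E : ℝ} (hκ : 0 ≤ κ)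
    (hu : Okl u m a) (hc : 2 * a + 2 * θ * m + κ / 3 ≤ E)
    (hch : ∀ (Y' : Multiset ℝ) (i : ℝ), Sh Y' (u : Multiset ℝ) → 0 ≤ i → i ≤ κ →
      (∀ y ∈ Y', y ≤ i) → ex Dq RN i Y' m a + (κ - i) / 3 ≤ E) :
    BG Dq RF κ u (wt m a) E := by
  refine H.cubes κ u m a E hκ hu fun i hi0 hi1 => ?_
  refine BG_add (Φ₁ := RN) (Φ₂ := Rp) ?_ ?_ H.split
  · refine H.cut i u m a _ hi0 hu fun u' hs hu' => ?_
    have h1 := hch (u' : Multiset ℝ) i hs.sh hi0 hi1 (fun y hy => hu' y (by simpa using hy))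
    exact BG_of_ex hperm htriv hi0 ⟨hs.nonneg, hu.2.1, hu.2.2⟩ (by linarith)
  · exact (H.colP i u m a hi0 hu).mono (by linarith)

/-- **from one level to two levels**: a two-level functional below the merged family -/
theorem bg2_merge {Ψ₂ : Lam → ℝ → ℝ → List Pq → ℝ} {Ψ₁ : Lam → ℝ → List Pq → ℝ}
    (hm : ∀ ε : ℝ, 0 < ε → ∃ C : ℝ, 1 ≤ C ∧ ∀ (lam : Lam) (l β : ℝ), 0 ≤ l → 0 ≤ β →
      ∀ ps : List Pq, Ψ₂ lam l β ps ≤ C * Real.exp (ε * (l + 2 * β)) * Ψ₁ lam (l + 2 * β) ps)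
    (h0 : ∀ (lam : Lam) (l β : ℝ) (ps : List Pq), l < 0 ∨ β < 0 → Ψ₂ lam l β ps ≤ 0)
    {κ b : ℝ} {u : List ℝ} {w : Kd → ℝ} {e : ℝ} (hκ : 0 ≤ κ) (hb : 0 ≤ b)
    (H : BG Dq Ψ₁ (κ + 2 * b) u w e) : BG2 Dq Ψ₂ κ b u w e := by
  intro ε hε
  obtain ⟨δ, hδ, hH⟩ := H (ε / 3) (by linarith)
  obtain ⟨ε', hε'⟩ : ∃ ε', ε' = ε / (3 * (κ + 2 * b + 3)) := ⟨_, rfl⟩
  have hε'0 : 0 < ε' := by rw [hε']; positivity
  obtain ⟨C, hC, hm'⟩ := hm ε' hε'0
  obtain ⟨X₁, hX₁, H1⟩ := XF71.const_le_rpow (C := C) (ε := ε / 3) (by linarith)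
  refine ⟨min (δ / 3) 1, lt_min (by linarith) one_pos, fun lam N B => ?_⟩
  obtain ⟨δ', hδ', X₀, hX₀, K⟩ := hH lam N B
  refine ⟨δ', hδ', max X₀ X₁, lt_max_of_lt_left hX₀, ?_⟩
  intro X hX k β us gs h1 h2 h3 h4 h5
  have hXX := (le_max_left _ _).trans hX
  have hX1 : 1 < X := lt_of_lt_of_le hX₀ hXX
  have hX0 : 0 < X := by linarith
  have hlog : 0 < Real.log X := Real.log_pos hX1
  have hd1 : min (δ / 3) 1 ≤ δ / 3 := min_le_left _ _
  have hd2 : min (δ / 3) 1 ≤ 1 := min_le_right _ _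
  have a1 := abs_le.1 h1
  have a2 := abs_le.1 h2
  rcases lt_or_ge k 0 with hk | hk
  · exact (h0 lam _ _ _ (Or.inl (mul_neg_of_neg_of_pos hk hlog))).trans
      (Real.rpow_nonneg hX0.le _)
  rcases lt_or_ge β 0 with hβ | hβ
  · exact (h0 lam _ _ _ (Or.inr (mul_neg_of_neg_of_pos hβ hlog))).trans
      (Real.rpow_nonneg hX0.le _)
  have h6 := K X hXX (k + 2 * β) us gs (by
      rw [abs_le]; constructor <;> linarith [a1.1, a1.2, a2.1, a2.2])
    (XG702.Near_mono h3 (by linarith)) (XG702.Gran_mono h4 (by linarith) le_rfl) h5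
  have h7 := hm' lam (k * Real.log X) (β * Real.log X) (by positivity) (by positivity) (us ++ gs)
  have e1 : k * Real.log X + 2 * (β * Real.log X) = (k + 2 * β) * Real.log X := by ring
  rw [e1] at h7
  have h8 : Real.exp (ε' * ((k + 2 * β) * Real.log X)) ≤ X ^ (ε / 3) := by
    rw [Real.rpow_def_of_pos hX0]
    refine Real.exp_le_exp.2 ?_
    have h9 : ε' * (k + 2 * β) ≤ ε / 3 := by
      have h10 : ε' * (κ + 2 * b + 3) = ε / 3 := by
        rw [hε']; field_simp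
      rw [← h10]
      exact mul_le_mul_of_nonneg_left (by linarith [a1.2, a2.2]) hε'0.le
    calc ε' * ((k + 2 * β) * Real.log X) = (ε' * (k + 2 * β)) * Real.log X := by ring
      _ ≤ (ε / 3) * Real.log X := mul_le_mul_of_nonneg_right h9 hlog.le
      _ = Real.log X * (ε / 3) := by ring
  have h11 : C ≤ X ^ (ε / 3) := H1 X ((le_max_right _ _).trans hX)
  calc Ψ₂ lam (k * Real.log X) (β * Real.log X) (us ++ gs)
      ≤ C * Real.exp (ε' * ((k + 2 * β) * Real.log X)) *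
        Ψ₁ lam ((k + 2 * β) * Real.log X) (us ++ gs) := h7
    _ ≤ C * Real.exp (ε' * ((k + 2 * β) * Real.log X)) * X ^ (e + ε / 3) := by gcongr
    _ ≤ X ^ (ε / 3) * X ^ (ε / 3) * X ^ (e + ε / 3) := by gcongr
    _ = X ^ (e + ε) := by
        rw [← Real.rpow_add hX0, ← Real.rpow_add hX0]
        congr 1
        ring

/-- the reduced data -/
abbrev rdE (π : Lam → DPar) : Lam → DPar := fun lam => red (π lam)

/-- the character side of class E: all noncubes -/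
abbrev RFx (π : Lam → DPar) (h : ℝ → ℝ) : Lam → ℝ → List Pq → ℝ :=
  RX (fun _ => NCube) (rdE π) h

/-- the cube-free Gauss side of class E -/
abbrev S0e (π : Lam → DPar) (h : ℝ → ℝ) : Lam → ℝ → List Pq → ℝ := fun lam => S0x (red (π lam)) h

/-- the Gauss side of class E -/
abbrev SPe (π : Lam → DPar) (h : ℝ → ℝ) : Lam → ℝ → List Pq → ℝ :=
  fun lam => SKq Dk (red (π lam)) h

/-- the character side of class E, admissible cube-free `k` -/
abbrev RNe (π : Lam → DPar) (h : ℝ → ℝ) : Lam → ℝ → List Pq → ℝ := fun lam => Rt (red (π lam)) h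

theorem red_OK (hP : ∀ lam, (π lam).OK) (hE : ∀ lam, Exc (π lam)) (lam : Lam) :
    (rdE π lam).OK := red_ok (hP lam) (hE lam)

theorem funOK_RFx (hP : ∀ lam, (π lam).OK) (hE : ∀ lam, Exc (π lam)) (hpu : FE47.PU h c₁) :
    FunOK (RFx π h) := funOK_RX (red_OK hP hE) hpu _

theorem RFx_mono_l (lam : Lam) (l l' : ℝ) (ps : List Pq) (hl : l ≤ l') :
    RFx π h lam l ps ≤ RFx π h lam l' ps := XPD571.RQ_mono_l _ _ hl _

theorem S0e_mono_l (lam : Lam) (l l' : ℝ) (ps : List Pq) (hl : l ≤ l') :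
    S0e π h lam l ps ≤ S0e π h lam l' ps := by
  classical
  show S0K Dk (red (π lam)) h l ps ≤ S0K Dk (red (π lam)) h l' ps
  unfold S0K
  exact Finset.sum_le_sum_of_subset_of_nonneg (Finset.filter_subset_filter _
    (bl_mono (Real.exp_pos _).le (Real.exp_le_exp.2 hl))) fun k _ _ => by positivity

theorem funOK_S0e (hP : ∀ lam, (π lam).OK) (hE : ∀ lam, Exc (π lam)) (hpu : FE47.PU h c₁) :
    FunOK (S0e π h) where
  perm := pinv_S0K Dk _ h
  triv := fun κ u m a hκ hu => by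
    obtain ⟨e, he⟩ := Dk848.triv_SD (red_OK hP hE) hpu κ u m a hκ hu
    exact ⟨e, he.comp fun lam l ps => S0K_le Dk (red (π lam)) h l ps⟩
  trivL := fun lam N => by
    obtain ⟨C, T, hC, hT, H⟩ := Dk848.trivL_SD (red_OK hP hE lam) hpu N
    exact ⟨C, T, hC, hT, fun l ps hl hN hz => (S0K_le Dk _ h l ps).trans (H l ps hl hN hz)⟩

/-- the data of class E -/
structure DataE (θ : ℝ) (π : Lam → DPar) (h : ℝ → ℝ) (c₁ : ℝ) : Prop where
  hθ : 0 ≤ θ
  hpu : FE47.PU h c₁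
  hP : ∀ lam, (π lam).OK
  hE : ∀ lam, Exc (π lam)
  raw : XPX298.RawX θ Dq (R1 (fun _ => 1) (rdE π) h) (RF1 (fun _ => 1) (rdE π) h) (RNe π h)
    (RP1 (fun _ => 1) (rdE π) h) (SPe π h)

theorem dataE_of (hθ : 1 / 2 < θ) (hθ1 : θ ≤ 1) (hPF : End699.PF Set.univ θ)
    (hpu : FE47.PU h c₁) (hP : ∀ lam, (π lam).OK) (hE : ∀ lam, Exc (π lam)) :
    DataE θ π h c₁ where
  hθ := by linarith
  hpu := hpu
  hP := hP
  hE := hE
  raw := raw_ex (cc := fun _ => 1) hθ hθ1 hPF hpu (red_OK hP hE) (fun lam k hk => by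
    rw [XEr298.NC_one]
    exact NPm_red_iff (hP lam).ψ.q0 hk) (gaussX_848 (red_OK hP hE) hpu)
    (XT6241.rawPX_red hpu π hP hE) (XT6241.rawGX_red hpu π hP hE)

/-- **the complete family, class E** -/
theorem DataE.bg_full (H : DataE θ π h c₁) {κ : ℝ} {u : List ℝ} {m a ρ : ℝ}
    (hκ : 0 ≤ κ) (hu : Okl u m a) (hF : Full θ (ex Dq (RNe π h)) κ (u : Multiset ℝ) m a ρ) :
    BG Dq (RFx π h) κ u (wt m a) ρ := by
  refine (bg_RFX H.raw (pinv_Rt _ h) (triv_Rt (red_OK H.hP H.hE) H.hpu) hκ hu hF.2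
    (fun Y' i hsh h0 h1 hi => hF.1 Y' i hsh h0 h1 hi)).comp fun lam l ps => ?_
  show RQ NCube h l _ ≤ RQ (NC 1) h l _ + XHB411.idt Zl l ps
  rw [NC_one]
  linarith [XHB411.idt_nonneg Zl l ps]

theorem DataE.ex_full (H : DataE θ π h c₁) {κ : ℝ} {Y : Multiset ℝ} {m a ρ : ℝ}
    (hκ : 0 ≤ κ) (hY : Ok Y m a) (hF : Full θ (ex Dq (RNe π h)) κ Y m a ρ) :
    ex Dq (RFx π h) κ Y m a ≤ ρ := by
  have h2 := hF.2
  have h3 : 0 ≤ θ * m := mul_nonneg H.hθ hY.2.1
  have h4 := hY.2.2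
  refine ex_le' (by linarith) (H.bg_full hκ (okl_of hY) ?_)
  rwa [Multiset.coe_toList]

end Crest.Agent.R017.RGB545
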