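import Crest.Agent.R017.RGx_590

/-!
# Row 17, RG rule: T3a with the terminal bound in (TB) form (helper590), v4

* `PremTB`    : (TB) the claims for all sub-sides and all levels `v' ≤ v + (n - n')`
* `PremR`     : (R') the character side, all sub-sides and all families `κ' ≤ K`
* `PremP`     : (P') the principal column, all sub-sides
* `ExpRGn`    : class N: `bess` with (R'), (P'), (TB); `rg`
* `ExpRGy`    : exceptional class: `bessx`, `rgx`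
* `DQ`        : the domain of the claims: level, family and target of a sub-side
* `bess_suby` : the terminal bound for a sub-side, by induction upward in the family
* `T3a_all_y` : T3a core, `Q` any side conditions on the domain `DQ`
* `QStat`     : the static part of the side conditions; `QAll3_of`
-/

set_option autoImplicit false

noncomputable section

namespace Crest.Agent.R017.SC777

open Crest.Agent.R017.ER911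

variable {d : ℝ} {r s s₀ : EF}

/-- (TB) for the side `(Y | m, a)` of total `n`, level `v`, target `E` -/
def PremTB (c : ℝ) (s₀ : EF) (v n E : ℝ) (Y : Multiset ℝ) (m a : ℝ) : Prop :=
  ∀ (Y' : Multiset ℝ) (m' a' n' v' : ℝ), Sh Y' Y → 0 ≤ m' → m' ≤ m → 0 ≤ a' → a' ≤ a →
    n' = Y'.sum + m' + a' → 0 ≤ v' → v' ≤ v + (n - n') →
    s₀ v' Y' m' a' ≤ E - 4 / 3 * (n - n') - (v - v') / 3 +
      max 0 (2 / 3 * (n - n') + (v' - v) / 3 - c) + c / 2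

/-- (R') for the side `(Y | m, a)` of total `n`, family `K`, level `v`, target `E` -/
def PremR (r : EF) (K v n E : ℝ) (Y : Multiset ℝ) (m a : ℝ) : Prop :=
  ∀ (Y' : Multiset ℝ) (m' a' n' κ' : ℝ), Sh Y' Y → 0 ≤ m' → m' ≤ m → 0 ≤ a' → a' ≤ a →
    n' = Y'.sum + m' + a' → 0 ≤ κ' → κ' ≤ K →
    r κ' Y' m' a' + (K - κ') / 3 + (n - n') + (v + n - 2 * K) / 3 ≤ E

/-- (P') for the side `(Y | m, a)` of total `n`, family `K`, level `v`, target `E` -/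
def PremP (θ K v n E : ℝ) (Y : Multiset ℝ) (m a : ℝ) : Prop :=
  ∀ (Y' : Multiset ℝ) (m' a' n' : ℝ), Sh Y' Y → 0 ≤ m' → m' ≤ m → 0 ≤ a' → a' ≤ a →
    n' = Y'.sum + m' + a' →
    2 * a' + 2 * θ * m' + K / 3 + (n - n') + (v + n - 2 * K) / 3 ≤ E

/-- the fields of the RG recursion, class N -/
structure ExpRGn (θ c : ℝ) (r s₀ : EF) (Q : ℝ → ℝ → Multiset ℝ → ℝ → ℝ → ℝ → Prop) :
    Prop where
  /-- terminal (Bessel) bound -/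
  bess : ∀ (K v : ℝ) (Y : Multiset ℝ) (m a n E : ℝ), Ok Y m a → n = Y.sum + m + a → 0 ≤ v →
    v ≤ 2 * n → 3 * v + 300 * c ≤ 2 * K → 6 * n ≤ 5 * K → 0 < K → 2000 * c ≤ K →
    4 / 3 * n + (v + K) / 3 ≤ E → PremR r K v n E Y m a →
    PremP θ K v n E Y m a → PremTB c s₀ v n E Y m a → Q K v Y m a E → s₀ v Y m a ≤ E
  /-- recursion -/
  rg : ∀ (K v : ℝ) (Y : Multiset ℝ) (m a n F : ℝ), Ok Y m a → n = Y.sum + m + a →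
    2 * n + 100 * c ≤ K + v → 6 * n ≤ 5 * K → 3 * v + 300 * c ≤ 2 * K → 0 < K → 2000 * c ≤ K →
    3 * K ≤ 4 * n → 0 ≤ F → PremRG c (c / 3) s₀ Q K v n F Y m a →
    ∀ v' : ℝ, 0 ≤ v' → v' + 50 * c ≤ v →
      s₀ v' Y m a ≤ 2 * n + F + max 0 ((v' + K - 2 * n) / 3)

/-- the fields of the RG recursion of the exceptional class, step length `c`; `d₀` = the short
lump of the replaced side -/
structure ExpRGy (θ c : ℝ) (r s₀ : EF) (Q : ℝ → ℝ → Multiset ℝ → ℝ → ℝ → ℝ → Prop) :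
    Prop where
  bessx : ∀ (K v y₁ y₂ y₃ m a n d₀ E : ℝ), 0 ≤ y₃ → 0 ≤ m → 0 ≤ a → 0 ≤ d₀ → d₀ + 2 * c ≤ y₁ →
    d₀ + 2 * c ≤ y₂ → n = y₁ + y₂ + y₃ + m + a → 0 ≤ v → v ≤ 2 * n → 3 * v + 300 * c ≤ 2 * K →
    6 * n ≤ 5 * K → 0 < K → 2000 * c ≤ K → 4 / 3 * n + (v + K) / 3 ≤ E →
    (v + n - K) / 3 ≤ d₀ → 2 / 3 * v + 5 / 3 * n - d₀ + 30 * c ≤ E →
    PremR r K v n E {y₁, y₂, y₃} m a → PremR r K v n E {y₁ + y₂ - d₀, d₀, y₃} m a →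
    PremP θ K v n E {y₁, y₂, y₃} m a →
    PremTB c s₀ v n E {y₁, y₂, y₃} m a → PremTB c s₀ v n E {y₁ + y₂ - d₀, d₀, y₃} m a →
    s₀ v {y₁ + y₂ - d₀, d₀, y₃} m a ≤ E →
    Q K v {y₁, y₂, y₃} m a E → Q K v {y₁ + y₂ - d₀, d₀, y₃} m a E →
    s₀ v {y₁, y₂, y₃} m a ≤ E
  rgx : ∀ (K v y₁ y₂ y₃ m a n d₀ F : ℝ), 0 ≤ y₃ → 0 ≤ m → 0 ≤ a → 0 ≤ d₀ → d₀ + 2 * c ≤ y₁ →
    d₀ + 2 * c ≤ y₂ → n = y₁ + y₂ + y₃ + m + a → 2 * n + 100 * c ≤ K + v → 6 * n ≤ 5 * K →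
    3 * v + 300 * c ≤ 2 * K → 0 < K → 2000 * c ≤ K → 3 * K ≤ 4 * n → 0 ≤ F →
    (v + n - K) / 3 ≤ d₀ → 2 / 3 * v + 5 / 3 * n - d₀ + c ≤ 2 * n + F →
    PremRG c (c / 3) s₀ Q K v n F {y₁, y₂, y₃} m a →
    PremRG c 0 s₀ Q K v n F {y₁ + y₂ - d₀, d₀, y₃} m a →
    ∀ v' : ℝ, 0 ≤ v' → v' + 50 * c ≤ v →
      s₀ v' {y₁, y₂, y₃} m a ≤ 2 * n + F + max 0 ((v' + K - 2 * n) / 3)

/-- class N is a special case -/
theorem ExpRGn.toY {θ c : ℝ} (hc : 0 ≤ c) {Q : ℝ → ℝ → Multiset ℝ → ℝ → ℝ → ℝ → Prop}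
    (G : ExpRGn θ c r s₀ Q) : ExpRGy θ c r s₀ Q where
  bessx := by
    intro K v y₁ y₂ y₃ m a n d₀ E h3 hm ha hd h1 h2 hn hv hv2 hvK hnK hK hcK hE _ _ hr _ hP hT _
      _ hQ _
    exact G.bess K v {y₁, y₂, y₃} m a n E (ok3 (by linarith) (by linarith) h3 hm ha)
      (by rw [sum3]; exact hn) hv hv2 hvK hnK hK hcK hE hr hP hT hQ
  rgx := by
    intro K v y₁ y₂ y₃ m a n d₀ F h3 hm ha hd h1 h2 hn h2n hnK hvK hK0 hcK h34 hF _ _ hP _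
    exact G.rg K v {y₁, y₂, y₃} m a n F (ok3 (by linarith) (by linarith) h3 hm ha)
      (by rw [sum3]; exact hn) h2n hnK hvK hK0 hcK h34 hF hP

/-- the ambient hypotheses, with the room for the level margins -/
structure T3Hy (d κ A B C m a c μ F : ℝ) : Prop extends T3H d κ A B C m a c μ F where
  h12 : 6 * (A + B + C + m + a) + 2000 * c ≤ 5 * κ
  c200 : 2000 * c ≤ κ
  F30 : 30 * c ≤ F

/-- the domain of the claims: family `K'`, level `v`, length `n`, target `E`; `S`, `T`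
parameters of the state (T3a, state of family `K` and length `n₁` :
`S = 3 n₁ - 4/3 K + 100 c`, `T = 3 K - 200 c`) -/
structure DC (c F S T K' v n E : ℝ) : Prop where
  v0 : 0 ≤ v
  v23 : 3 * v + 300 * c ≤ 2 * K'
  d2 : 2 * v ≤ n + K'
  vs : v + n ≤ S + K' / 3
  sx : v + T ≤ 2 * n + 2 * K'
  l0 : 4 / 3 * n + (v + K') / 3 + F ≤ E

/-- the domain of the side conditions -/
structure DQ (c F S T K' v n E : ℝ) : Prop extends DC c F S T K' v n E where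
  vv : v ≤ 2 * n

/-- a child of (TB): `b` shorter, level `δ ≤ b` higher -/
theorem DC.child {c F S T K' v n E b δ X : ℝ} (h : DC c F S T K' v n E) (hc : 0 ≤ c)
    (_hb : 0 ≤ b) (hδ : δ ≤ b) (hv : 0 ≤ v + δ) (hX0 : 3 / 2 * c ≤ X)
    (hX : 2 * b + δ - 3 / 2 * c ≤ X) (hd : 2 * v + 3 / 2 * c ≤ n + K') :
    DC c F S T (K' + X) (v + δ) (n - b) (E - 4 / 3 * b + δ / 3 + X / 3) := by
  obtain ⟨v0, v23, d2, vs, sx, l0⟩ := h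
  constructor <;> linarith

/-- the direct side: `b ≥ 2 μ` shorter, level `2 b` higher, gain `μ` -/
theorem DC.step {c μ F S T K' v n E b : ℝ} (h : DC c F S T K' v n E) (_hb : 0 ≤ b)
    (hb2 : 2 * μ ≤ b) (hd : 2 * v + 3 * μ ≤ n + K') :
    DC c F S T (K' + (5 * b - 3 * μ)) (v + 2 * b) (n - b) (E + b - μ) := by
  obtain ⟨v0, v23, d2, vs, sx, l0⟩ := h
  constructor <;> linarith

/-- near the diagonal: large sieve -/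
theorem ls_y (R : ExpRules (7 / 8 + d) r s) (S : ExpS0 s s₀) {c F K' v n E A₂ B₂ C₂ m₂ a₂ : ℝ}
    (hc : 0 ≤ c) (hok : Ok {A₂, B₂, C₂} m₂ a₂) (hn : n = A₂ + B₂ + C₂ + m₂ + a₂) (hv : 0 ≤ v)
    (hF : 2 * c ≤ F) (hcK : 60 * c ≤ K') (h23 : 3 * v ≤ 2 * K') (hd2 : 2 * v ≤ n + K')
    (hd : n + K' < 2 * v + 3 / 2 * c ∨ 2 * (n + v) ≤ K' ∨ 2 * n ≤ v)
    (hl0 : 4 / 3 * n + (v + K') / 3 + F ≤ E) :
    s₀ v {A₂, B₂, C₂} m₂ a₂ ≤ E := by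
  have hl1 := S.le v {A₂, B₂, C₂} m₂ a₂ hv hok
  have hl2 := R.hbG v {A₂, B₂, C₂} m₂ a₂ hv hok
  rw [sum3] at hl2
  have hn0 : 0 ≤ n := by
    have h1 := hok.1 A₂ (by simp); have h2 := hok.1 B₂ (by simp)
    have h3 := hok.1 C₂ (by simp); have h4 := hok.2.1; have h5 := hok.2.2
    linarith
  refine hl1.trans (hl2.trans (max_le ?_ (max_le ?_ ?_))) <;> rcases hd with hd | hd | hd <;>
    linarith

/-- `Q` for the sub-sides of a state on the domain -/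
def QSubD (Q : ℝ → ℝ → Multiset ℝ → ℝ → ℝ → ℝ → Prop) (c F S T K A₁ B₁ C₁ m₁ a₁ : ℝ) : Prop :=
  ∀ K' v A₂ B₂ C₂ m₂ a₂ n₂ E : ℝ, K ≤ K' → Sub3 A₂ B₂ C₂ m₂ a₂ A₁ B₁ C₁ m₁ a₁ →
    n₂ = A₂ + B₂ + C₂ + m₂ + a₂ → DQ c F S T K' v n₂ E → Q K' v {A₂, B₂, C₂} m₂ a₂ E

/-- `Q` for the replaced sides of a state on the domain -/
def QRepD (Q : ℝ → ℝ → Multiset ℝ → ℝ → ℝ → ℝ → Prop) (c F S T K A₁ B₁ C₁ m₁ a₁ n₁ : ℝ) :
    Prop :=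
  ∀ K' v z₁ z₂ z₃ m₂ a₂ n₂ E : ℝ, K ≤ K' → Sw z₁ z₂ z₃ m₂ a₂ n₂ C₁ m₁ a₁ n₁ →
    z₁ + z₂ ≤ A₁ + B₁ → DQ c F S T K' v n₂ E → 2 * v + 3 * z₂ ≤ n₂ + K' → n₂ + z₂ ≤ K' →
    Q K' v {z₁, z₂, z₃} m₂ a₂ E

/-- the terminal bound for a sub-side: induction upward in the family -/
theorem bess_suby {Q : ℝ → ℝ → Multiset ℝ → ℝ → ℝ → ℝ → Prop} (R : ExpRules (7 / 8 + d) r s)
    (S₀ : ExpS0 s s₀) {κ A B C m a c μ F : ℝ} (H : T3Hy d κ A B C m a c μ F)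
    (G : ExpRGy (7 / 8 + d) c r s₀ Q)
    {K A₁ B₁ C₁ m₁ a₁ n₁ S T : ℝ} (hS : StW κ A B C m a K A₁ B₁ C₁ m₁ a₁ n₁)
    (hR : QRepD Q c F S T K A₁ B₁ C₁ m₁ a₁ n₁)
    {A₀ B₀ C₀ m₀ a₀ K₀ : ℝ} (hK₀ : K ≤ K₀) (hs0 : Sub3 A₀ B₀ C₀ m₀ a₀ A₁ B₁ C₁ m₁ a₁)
    (hcl : ∀ K' A₂ B₂ C₂ m₂ a₂ : ℝ, K₀ ≤ K' → Sub3 A₂ B₂ C₂ m₂ a₂ A₀ B₀ C₀ m₀ a₀ →
      Cl3 r K' F A₂ B₂ C₂ m₂ a₂)
    (hQ : ∀ K' v A₂ B₂ C₂ m₂ a₂ n₂ E : ℝ, K₀ ≤ K' → Sub3 A₂ B₂ C₂ m₂ a₂ A₀ B₀ C₀ m₀ a₀ →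
      n₂ = A₂ + B₂ + C₂ + m₂ + a₂ → DQ c F S T K' v n₂ E → Q K' v {A₂, B₂, C₂} m₂ a₂ E)
    (k : ℕ) :
    ∀ K' v A₂ B₂ C₂ m₂ a₂ n₂ E : ℝ, K₀ ≤ K' → Sub3 A₂ B₂ C₂ m₂ a₂ A₀ B₀ C₀ m₀ a₀ →
      n₂ = A₂ + B₂ + C₂ + m₂ + a₂ → DC c F S T K' v n₂ E →
      2 * (n₂ + v) ≤ K' + k * c → s₀ v {A₂, B₂, C₂} m₂ a₂ ≤ E := by
  have hκ0 := H.κ0
  have hc2 := H.c200
  have h12 := H.h12
  have hc0 := H.c0
  have hF := H.hF
  have hF30 := H.F30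
  have hμ0 := H.μ0
  have hAC := H.AC
  have hBC := H.BC
  have hcκ := H.cκ
  have hamp := H.hamp
  have hd8 := H.d8
  have hD0 : 0 ≤ 2 * d * (C + m + a) := mul_nonneg (mul_nonneg two_pos.le H.d0) H.g0
  have hS' := hS
  obtain ⟨hκK, hsub, hn1, hw1, hw2, hw3, hw5⟩ := hS'
  induction k with
  | zero =>
    intro K' v A₂ B₂ C₂ m₂ a₂ n₂ E hK' hs2 hn2 hL hk
    simp only [Nat.cast_zero, zero_mul] at hk
    have hv23 := hL.v23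
    exact ls_y R S₀ hc0.le hs2.ok hn2 hL.v0 (by linarith) (by linarith) (by linarith) hL.d2
      (Or.inr (Or.inl (by linarith))) hL.l0
  | succ k ih =>
    intro K' v A₂ B₂ C₂ m₂ a₂ n₂ E hK' hs2 hn2 hL hk
    have hs21 := hs2.trans hs0
    have q1 := hsub.A1; have q2 := hsub.B1; have q3 := hsub.C1; have q4 := hsub.m1
    have q5 := hsub.a1
    have p1 := hs21.A1; have p2 := hs21.B1; have p3 := hs21.C1; have p4 := hs21.m1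
    have p5 := hs21.a1
    have p0 := hs2.A0; have p0' := hs2.B0; have p6 := hs2.C0; have p7 := hs2.m0
    have p8 := hs2.a0
    have hv0 := hL.v0
    have h23 := hL.v23
    have hd2 := hL.d2
    have hl0 := hL.l0
    have hst := hs21.trans hsub
    have hKK' : K ≤ K' := hK₀.trans hK'
    push_cast at hk
    rcases lt_or_ge (n₂ + K') (2 * v + 3 / 2 * c) with h | hdd
    · exact ls_y R S₀ hc0.le hs2.ok hn2 hv0 (by linarith) (by linarith) (by linarith) hd2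
        (Or.inl h) hl0
    rcases le_or_gt (2 * n₂) v with h | hvv
    · exact ls_y R S₀ hc0.le hs2.ok hn2 hv0 (by linarith) (by linarith) (by linarith) hd2
        (Or.inr (Or.inr h)) hl0
    rcases le_or_gt (3 * C₂) (n₂ + K' - 2 * v) with h | hC
    · have := lump3 R S₀ H.toT3H hst p6 p0 p0' (by linarith) (by ring) (by
        show A₂ ::ₘ B₂ ::ₘ {C₂} = C₂ ::ₘ A₂ ::ₘ {B₂}
        rw [Multiset.cons_swap C₂ A₂]
        congr 1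
        exact Multiset.pair_comm B₂ C₂) (hκK.trans hKK') hv0 (by linarith)
      linarith
    rcases le_or_gt (3 * B₂) (n₂ + K' - 2 * v) with h | hB
    · have := lump3 R S₀ H.toT3H hst p0' p0 p6 (by linarith) (by ring) (Multiset.cons_swap _ _ _)
        (hκK.trans hKK') hv0 (by linarith)
      linarith
    rcases le_or_gt (3 * A₂) (n₂ + K' - 2 * v) with h | hA
    · have := lump3 R S₀ H.toT3H hst p0 p0' p6 (by linarith) (by ring) rfl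
        (hκK.trans hKK') hv0 (by linarith)
      linarith
    obtain ⟨d₀, hd0, hd1, hd2'⟩ : ∃ d₀, 0 ≤ d₀ ∧ (v + n₂ - K') / 3 ≤ d₀ ∧
        (3 * d₀ = v + n₂ - K' ∨ d₀ = 0) := by
      refine ⟨max 0 ((v + n₂ - K') / 3), le_max_left _ _, le_max_right _ _, ?_⟩
      rcases max_cases 0 ((v + n₂ - K') / 3) with ⟨h, _⟩ | ⟨h, _⟩ <;> rw [h]
      · exact Or.inr rfl
      · left; ring
    have hdA : d₀ + 2 * c ≤ A₂ := by rcases hd2' with h | h <;> linarith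
    have hdB : d₀ + 2 * c ≤ B₂ := by rcases hd2' with h | h <;> linarith
    have hrep := hs21.rep hn2 hn1 hd0 (by linarith : d₀ ≤ A₂)
    have hsl : 2 * v + 3 * d₀ + 3 / 2 * c ≤ n₂ + K' := by rcases hd2' with h | h <;> linarith
    have hnd : n₂ + d₀ ≤ K' := by rcases hd2' with h | h <;> linarith
    have hL' : DQ c F S T K' v n₂ E := ⟨hL, hvv.le⟩
    refine G.bessx K' v A₂ B₂ C₂ m₂ a₂ n₂ d₀ E p6 p7 p8 hd0 hdA hdB hn2 hv0 hvv.le h23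
      (by linarith) (by linarith) (by linarith) (by linarith) hd1 (by linarith) ?_ ?_ ?_ ?_ ?_ ?_
      (hQ K' v A₂ B₂ C₂ m₂ a₂ n₂ E hK' hs2 hn2 hL')
      (hR K' v _ _ _ _ _ n₂ E hKK' hrep (by linarith) hL' (by linarith) hnd)
    · -- (R') for the side
      intro Y' m' a' n' κ' hY' hm0 hm1 ha0 ha1 hn' h0 h1
      obtain ⟨A₃, B₃, C₃, rfl, t0, t1, t2, t3, t4, t5⟩ := sh3 hY'
      rw [sum3] at hn'
      have := hcl K' A₃ B₃ C₃ m' a' hK'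
        (Sub3.trans ⟨t0, t1, t2, t3, t4, t5, hm0, hm1, ha0, ha1⟩ hs2) κ' h0 h1
      linarith
    · -- (R') for the replaced side
      intro Y' m' a' n' κ' hY' hm0 hm1 ha0 ha1 hn' h0 h1
      obtain ⟨z₁, z₂, z₃, rfl, t0, t1, t2, t3, t4, t5⟩ := sh3 hY'
      rw [sum3] at hn'
      have := rep_ideal R S₀ H.toT3H hS
        (hrep.sub ⟨t0, t1, t2, t3, t4, t5, hm0, hm1, ha0, ha1⟩ hn') hKK' (by linarith) κ' h0 h1
      linarith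
    · -- (P')
      intro Y' m' a' n' hY' hm0 hm1 ha0 ha1 hn'
      obtain ⟨A₃, B₃, C₃, rfl, t0, t1, t2, t3, t4, t5⟩ := sh3 hY'
      rw [sum3] at hn'
      have e2 : 8 * d * m' ≤ 1 * m' := mul_le_mul_of_nonneg_right hd8 hm0
      linarith
    · -- (TB) for the side
      intro Y' m' a' n' v' hY' hm0 hm1 ha0 ha1 hn' hv' hvn
      obtain ⟨A₃, B₃, C₃, rfl, t0, t1, t2, t3, t4, t5⟩ := sh3 hY'
      rw [sum3] at hn'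
      obtain ⟨b, hb⟩ : ∃ b, b = n₂ - n' := ⟨_, rfl⟩
      obtain ⟨δ, hδ⟩ : ∃ δ, δ = v' - v := ⟨_, rfl⟩
      have hb0 : 0 ≤ b := by linarith
      have hM0 := le_max_left 0 (2 / 3 * (n₂ - n') + (v' - v) / 3 - c)
      have hM1 := le_max_right 0 (2 / 3 * (n₂ - n') + (v' - v) / 3 - c)
      obtain ⟨M, hM⟩ : ∃ M, M = max 0 (2 / 3 * (n₂ - n') + (v' - v) / 3 - c) := ⟨_, rfl⟩
      rw [← hM] at hM0 hM1 ⊢
      have hLc := hL.child (b := b) (δ := δ) (X := 3 * M + 3 / 2 * c) hc0.le hb0 (by linarith)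
        (by linarith) (by linarith) (by linarith) (by linarith)
      rw [show v + δ = v' by linarith, show n₂ - b = n' by linarith] at hLc
      have := ih (K' + (3 * M + 3 / 2 * c)) v' A₃ B₃ C₃ m' a' n' _ (by linarith)
        (Sub3.trans ⟨t0, t1, t2, t3, t4, t5, hm0, hm1, ha0, ha1⟩ hs2) hn' hLc (by linarith)
      linarith
    · -- (TB) for the replaced side
      intro Y' m' a' n' v' hY' hm0 hm1 ha0 ha1 hn' hv' hvn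
      obtain ⟨z₁, z₂, z₃, rfl, t0, t1, t2, t3, t4, t5⟩ := sh3 hY'
      rw [sum3] at hn'
      have hM0 := le_max_left 0 (2 / 3 * (n₂ - n') + (v' - v) / 3 - c)
      have hM1 := le_max_right 0 (2 / 3 * (n₂ - n') + (v' - v) / 3 - c)
      obtain ⟨M, hM⟩ : ∃ M, M = max 0 (2 / 3 * (n₂ - n') + (v' - v) / 3 - c) := ⟨_, rfl⟩
      rw [← hM] at hM0 hM1 ⊢
      have hb0 : 0 ≤ n₂ - n' := by linarith
      have hsw := hrep.sub ⟨t0, t1, t2, t3, t4, t5, hm0, hm1, ha0, ha1⟩ hn'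
      have := rep_level R S₀ H.toT3H hS hsw (f := v') (K' := K' + (3 * M + 3 / 2 * c)) hv'
        (by linarith) (by linarith)
      linarith
    · -- the replaced side itself
      have := rep_level R S₀ H.toT3H hS hrep hv0 hKK' (by linarith)
      linarith

/-- the terminal bound for a sub-side, at its own family -/
theorem bess_pty {Q : ℝ → ℝ → Multiset ℝ → ℝ → ℝ → ℝ → Prop} (R : ExpRules (7 / 8 + d) r s)
    (S₀ : ExpS0 s s₀) {κ A B C m a c μ F : ℝ} (H : T3Hy d κ A B C m a c μ F)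
    (G : ExpRGy (7 / 8 + d) c r s₀ Q)
    {K A₁ B₁ C₁ m₁ a₁ n₁ S T : ℝ} (hS : StW κ A B C m a K A₁ B₁ C₁ m₁ a₁ n₁)
    (hR : QRepD Q c F S T K A₁ B₁ C₁ m₁ a₁ n₁)
    {K' v A₂ B₂ C₂ m₂ a₂ n₂ E : ℝ} (hK' : K ≤ K') (hs2 : Sub3 A₂ B₂ C₂ m₂ a₂ A₁ B₁ C₁ m₁ a₁)
    (hn2 : n₂ = A₂ + B₂ + C₂ + m₂ + a₂) (hL : DC c F S T K' v n₂ E)
    (hcl : ∀ K'' A₃ B₃ C₃ m₃ a₃ : ℝ, K' ≤ K'' → Sub3 A₃ B₃ C₃ m₃ a₃ A₂ B₂ C₂ m₂ a₂ →
      Cl3 r K'' F A₃ B₃ C₃ m₃ a₃)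
    (hQ : ∀ K'' v A₃ B₃ C₃ m₃ a₃ n₃ E : ℝ, K' ≤ K'' → Sub3 A₃ B₃ C₃ m₃ a₃ A₂ B₂ C₂ m₂ a₂ →
      n₃ = A₃ + B₃ + C₃ + m₃ + a₃ → DQ c F S T K'' v n₃ E → Q K'' v {A₃, B₃, C₃} m₃ a₃ E) :
    s₀ v {A₂, B₂, C₂} m₂ a₂ ≤ E := by
  obtain ⟨k, hk⟩ := exists_nat_ge ((2 * (n₂ + v) - K') / c)
  rw [div_le_iff₀ H.c0] at hk
  exact bess_suby R S₀ H G hS hR hK' hs2 hcl hQ k K' v A₂ B₂ C₂ m₂ a₂ n₂ E le_rfl
    ⟨hs2.A0, le_rfl, hs2.B0, le_rfl, hs2.C0, le_rfl, hs2.m0, le_rfl, hs2.a0, le_rfl⟩ hn2 hL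
    (by linarith)

/-- the premises for the sub-sides of the side itself, level `2 n₁ - K + 100 c` -/
theorem prem_selfy {Q : ℝ → ℝ → Multiset ℝ → ℝ → ℝ → ℝ → Prop} (R : ExpRules (7 / 8 + d) r s)
    (S₀ : ExpS0 s s₀) {κ A B C m a c μ F : ℝ} (H : T3Hy d κ A B C m a c μ F)
    (G : ExpRGy (7 / 8 + d) c r s₀ Q)
    {K A₁ B₁ C₁ m₁ a₁ n₁ : ℝ} (hS : St3 κ A B C m a K A₁ B₁ C₁ m₁ a₁ n₁)
    (hRp : QRepD Q c F (3 * n₁ - 4 / 3 * K + 100 * c) (3 * K - 200 * c) K A₁ B₁ C₁ m₁ a₁ n₁)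
    (hQ : QSubD Q c F (3 * n₁ - 4 / 3 * K + 100 * c) (3 * K - 200 * c) K A₁ B₁ C₁ m₁ a₁)
    (IH : IHyp r c F K A₁ B₁ C₁ m₁ a₁) :
    PremRG c (c / 3) s₀ Q K (2 * n₁ - K + 100 * c) n₁ F {A₁, B₁, C₁} m₁ a₁ := by
  have hS' := hS
  obtain ⟨hκK, hsub, hn1, lA, lB, lC, l34⟩ := hS
  have q1 := hsub.A1; have q2 := hsub.B1; have q3 := hsub.C1; have q4 := hsub.m1
  have q5 := hsub.a1
  have q0 := hsub.A0; have q0' := hsub.B0; have q6 := hsub.C0; have q7 := hsub.m0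
  have q8 := hsub.a0
  have h12 := H.h12; have hc0 := H.c0
  have hK0 : 0 ≤ K := H.κ0.trans hκK
  -- the terminal bound
  have hB : ∀ K' v' A₂ B₂ C₂ m₂ a₂ n₂ E : ℝ, K ≤ K' → Sub3 A₂ B₂ C₂ m₂ a₂ A₁ B₁ C₁ m₁ a₁ →
      n₂ = A₂ + B₂ + C₂ + m₂ + a₂ → n₂ - K' + c ≤ n₁ - K →
      DC c F (3 * n₁ - 4 / 3 * K + 100 * c) (3 * K - 200 * c) K' v' n₂ E →
      s₀ v' {A₂, B₂, C₂} m₂ a₂ ≤ E := by
    intro K' v' A₂ B₂ C₂ m₂ a₂ n₂ E hK' hs2 hn2 hc hL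
    refine bess_pty R S₀ H G (hS'.toW H.toT3H) hRp hK' hs2 hn2 hL ?_ ?_
    · intro K'' A₃ B₃ C₃ m₃ a₃ hK'' hs3
      have t1 := hs3.A1; have t2 := hs3.B1; have t3 := hs3.C1; have t4 := hs3.m1
      have t5 := hs3.a1
      exact IH K'' A₃ B₃ C₃ m₃ a₃ (hK'.trans hK'') (hs3.trans hs2) (by linarith)
    · intro K'' v'' A₃ B₃ C₃ m₃ a₃ n₃ E'' hK'' hs3 hn3 hL3
      exact hQ K'' v'' A₃ B₃ C₃ m₃ a₃ n₃ E'' (hK'.trans hK'') (hs3.trans hs2) hn3 hL3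
  constructor
  · intro Y' m' a' n' v' hY' hm0 hm1 ha0 ha1 hn' hc1 hc2 hv0' hv1
    obtain ⟨A₂, B₂, C₂, rfl, hA0, hA1, hB0, hB1, hC0, hC1⟩ := sh3 hY'
    rw [sum3] at hn'
    have hs2 : Sub3 A₂ B₂ C₂ m' a' A₁ B₁ C₁ m₁ a₁ :=
      ⟨hA0, hA1, hB0, hB1, hC0, hC1, hm0, hm1, ha0, ha1⟩
    refine hB K v' A₂ B₂ C₂ m' a' n' _ le_rfl hs2 hn' (by linarith)
      ⟨hv0', ?_, ?_, ?_, ?_, ?_⟩ <;> linarith
  · intro Y' m' a' n' v' w u hY' hm0 hm1 ha0 ha1 hn' hc1 hv0' hw hw3 hu1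
    obtain ⟨A₂, B₂, C₂, rfl, hA0, hA1, hB0, hB1, hC0, hC1⟩ := sh3 hY'
    rw [sum3] at hn'
    have hs2 : Sub3 A₂ B₂ C₂ m' a' A₁ B₁ C₁ m₁ a₁ :=
      ⟨hA0, hA1, hB0, hB1, hC0, hC1, hm0, hm1, ha0, ha1⟩
    have hu0 := le_max_left 0 u
    have hu2 := le_max_right 0 u
    refine hB (K + 3 * max 0 u) v' A₂ B₂ C₂ m' a' n' _ (by linarith) hs2 hn' (by linarith)
      ⟨hv0', ?_, ?_, ?_, ?_, ?_⟩ <;> linarith
  · intro Y' m' a' n' v' hY' hm0 hm1 ha0 ha1 hn' hc2 hv0' hv1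
    obtain ⟨A₂, B₂, C₂, rfl, hA0, hA1, hB0, hB1, hC0, hC1⟩ := sh3 hY'
    rw [sum3] at hn'
    have hs2 : Sub3 A₂ B₂ C₂ m' a' A₁ B₁ C₁ m₁ a₁ :=
      ⟨hA0, hA1, hB0, hB1, hC0, hC1, hm0, hm1, ha0, ha1⟩
    refine hB (K + c) v' A₂ B₂ C₂ m' a' n' _ (by linarith) hs2 hn' (by linarith)
      ⟨hv0', ?_, ?_, ?_, ?_, ?_⟩ <;> linarith
  · intro Y' m' a' n' v' hY' hm0 hm1 ha0 ha1 hn' hc2 hv0' hv1
    obtain ⟨A₂, B₂, C₂, rfl, hA0, hA1, hB0, hB1, hC0, hC1⟩ := sh3 hY'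
    rw [sum3] at hn'
    have hs2 : Sub3 A₂ B₂ C₂ m' a' A₁ B₁ C₁ m₁ a₁ :=
      ⟨hA0, hA1, hB0, hB1, hC0, hC1, hm0, hm1, ha0, ha1⟩
    refine hQ K v' A₂ B₂ C₂ m' a' n' _ le_rfl hs2 hn' ⟨⟨hv0', ?_, ?_, ?_, ?_, ?_⟩, ?_⟩ <;>
      linarith

/-- the premises for the sub-sides of the replaced side -/
theorem prem_repy {Q : ℝ → ℝ → Multiset ℝ → ℝ → ℝ → ℝ → Prop} (R : ExpRules (7 / 8 + d) r s)
    (S₀ : ExpS0 s s₀) {κ A B C m a c μ F : ℝ} (H : T3Hy d κ A B C m a c μ F)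
    {K A₁ B₁ C₁ m₁ a₁ n₁ : ℝ} (hS : St3 κ A B C m a K A₁ B₁ C₁ m₁ a₁ n₁)
    (hRp : QRepD Q c F (3 * n₁ - 4 / 3 * K + 100 * c) (3 * K - 200 * c) K A₁ B₁ C₁ m₁ a₁ n₁) {d₀ : ℝ}
    (hd0 : 3 * d₀ = 3 * n₁ - 2 * K + 210 * c) (hdA : d₀ ≤ A₁) :
    PremRG c 0 s₀ Q K (2 * n₁ - K + 100 * c) n₁ F {A₁ + B₁ - d₀, d₀, C₁} m₁ a₁ := by
  have hS' := hS
  obtain ⟨hκK, hsub, hn1, lA, lB, lC, l34⟩ := hS
  have q1 := hsub.A1; have q2 := hsub.B1; have q3 := hsub.C1; have q4 := hsub.m1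
  have q5 := hsub.a1
  have q0 := hsub.A0; have q0' := hsub.B0; have q6 := hsub.C0; have q7 := hsub.m0
  have q8 := hsub.a0
  have hD0 : 0 ≤ 2 * d * (C + m + a) := mul_nonneg (mul_nonneg two_pos.le H.d0) H.g0
  have h12 := H.h12; have hc0 := H.c0; have hF := H.hF
  have hμ0 := H.μ0
  have hK0 : 0 ≤ K := H.κ0.trans hκK
  have hdp : 0 ≤ d₀ := by linarith
  have hself : Sub3 A₁ B₁ C₁ m₁ a₁ A₁ B₁ C₁ m₁ a₁ :=
    ⟨q0, le_rfl, q0', le_rfl, q6, le_rfl, q7, le_rfl, q8, le_rfl⟩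
  have hrep := hself.rep hn1 hn1 hdp hdA
  -- levels
  have hlv : ∀ z₁ z₂ z₃ m₂ a₂ n₂ f K' : ℝ, Sub3 z₁ z₂ z₃ m₂ a₂ (A₁ + B₁ - d₀) d₀ C₁ m₁ a₁ →
      n₂ = z₁ + z₂ + z₃ + m₂ + a₂ → 0 ≤ f → K ≤ K' → 2 * f + 3 * d₀ - n₂ ≤ K' →
      s₀ f {z₁, z₂, z₃} m₂ a₂ ≤ 4 / 3 * n₂ + (K' + f) / 3 + 2 * d * (C + m + a) := by
    intro z₁ z₂ z₃ m₂ a₂ n₂ f K' hs hn hf hK' hfK
    have h2 := hs.B1
    exact rep_level R S₀ H.toT3H (hS'.toW H.toT3H) (hrep.sub hs hn) hf hK' (by linarith)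
  constructor
  · intro Y' m' a' n' v' hY' hm0 hm1 ha0 ha1 hn' hc1 hc2 hv0' hv1
    obtain ⟨z₁, z₂, z₃, rfl, hA0, hA1, hB0, hB1, hC0, hC1⟩ := sh3 hY'
    rw [sum3] at hn'
    have := hlv z₁ z₂ z₃ m' a' n' v' K ⟨hA0, hA1, hB0, hB1, hC0, hC1, hm0, hm1, ha0, ha1⟩ hn'
      hv0' le_rfl (by linarith)
    linarith
  · intro Y' m' a' n' v' w u hY' hm0 hm1 ha0 ha1 hn' hc1 hv0' hw hw3 hu1
    obtain ⟨z₁, z₂, z₃, rfl, hA0, hA1, hB0, hB1, hC0, hC1⟩ := sh3 hY'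
    rw [sum3] at hn'
    have hu0 := le_max_left 0 u
    have hu2 := le_max_right 0 u
    have := hlv z₁ z₂ z₃ m' a' n' v' (K + 3 * max 0 u)
      ⟨hA0, hA1, hB0, hB1, hC0, hC1, hm0, hm1, ha0, ha1⟩ hn'
      hv0' (by linarith) (by linarith)
    linarith
  · intro Y' m' a' n' v' hY' hm0 hm1 ha0 ha1 hn' hc2 hv0' hv1
    obtain ⟨z₁, z₂, z₃, rfl, hA0, hA1, hB0, hB1, hC0, hC1⟩ := sh3 hY'
    rw [sum3] at hn'
    have := hlv z₁ z₂ z₃ m' a' n' v' K ⟨hA0, hA1, hB0, hB1, hC0, hC1, hm0, hm1, ha0, ha1⟩ hn'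
      hv0' le_rfl (by linarith)
    linarith
  · intro Y' m' a' n' v' hY' hm0 hm1 ha0 ha1 hn' hc2 hv0' hv1
    obtain ⟨z₁, z₂, z₃, rfl, hA0, hA1, hB0, hB1, hC0, hC1⟩ := sh3 hY'
    rw [sum3] at hn'
    have hs := hrep.sub ⟨hA0, hA1, hB0, hB1, hC0, hC1, hm0, hm1, ha0, ha1⟩ hn'
    have hn21 := hs.n21
    refine hRp K v' z₁ z₂ z₃ m' a' n' _ le_rfl hs (by linarith)
      ⟨⟨hv0', ?_, ?_, ?_, ?_, ?_⟩, ?_⟩ ?_ ?_ <;> linarith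

/-- `Q` for the sub-sides and the replaced sides of every state -/
def QAll3 (Q : ℝ → ℝ → Multiset ℝ → ℝ → ℝ → ℝ → Prop) (r : EF)
    (κ A B C m a c F : ℝ) : Prop :=
  ∀ K A₁ B₁ C₁ m₁ a₁ n₁ : ℝ, St3 κ A B C m a K A₁ B₁ C₁ m₁ a₁ n₁ →
    QRepD Q c F (3 * n₁ - 4 / 3 * K + 100 * c) (3 * K - 200 * c) K A₁ B₁ C₁ m₁ a₁ n₁ ∧
      (IHyp r c F K A₁ B₁ C₁ m₁ a₁ → QSubD Q c F (3 * n₁ - 4 / 3 * K + 100 * c) (3 * K - 200 * c) K A₁ B₁ C₁ m₁ a₁)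

/-- one application of `rgx` at the own top -/
theorem rg_top_y {Q : ℝ → ℝ → Multiset ℝ → ℝ → ℝ → ℝ → Prop} (R : ExpRules (7 / 8 + d) r s)
    (S₀ : ExpS0 s s₀) {κ A B C m a c μ F : ℝ} (H : T3Hy d κ A B C m a c μ F)
    (G : ExpRGy (7 / 8 + d) c r s₀ Q) (hQ : QAll3 Q r κ A B C m a c F)
    {K A₁ B₁ C₁ m₁ a₁ n₁ : ℝ} (hS : St3 κ A B C m a K A₁ B₁ C₁ m₁ a₁ n₁)
    (IH : IHyp r c F K A₁ B₁ C₁ m₁ a₁) :
    s₀ (2 * n₁ - K) {A₁, B₁, C₁} m₁ a₁ ≤ 2 * n₁ + F := by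
  have hS' := hS
  obtain ⟨hκK, hsub, hn1, lA, lB, lC, l34⟩ := hS
  have q1 := hsub.A1; have q2 := hsub.B1; have q3 := hsub.C1; have q4 := hsub.m1
  have q5 := hsub.a1
  have q0 := hsub.A0; have q0' := hsub.B0; have q6 := hsub.C0; have q7 := hsub.m0
  have q8 := hsub.a0
  have hD0 : 0 ≤ 2 * d * (C + m + a) := mul_nonneg (mul_nonneg two_pos.le H.d0) H.g0
  have h12 := H.h12; have hc0 := H.c0; have hF := H.hF
  have hcκ := H.cκ; have hμ0 := H.μ0; have hc2 := H.c200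
  have hK0 : 0 ≤ K := H.κ0.trans hκK
  obtain ⟨hRp, hSb⟩ := hQ K A₁ B₁ C₁ m₁ a₁ n₁ hS'
  obtain ⟨d₀, hd0⟩ : ∃ d₀, 3 * d₀ = 3 * n₁ - 2 * K + 210 * c :=
    ⟨(3 * n₁ - 2 * K + 210 * c) / 3, by ring⟩
  have h := G.rgx K (2 * n₁ - K + 100 * c) A₁ B₁ C₁ m₁ a₁ n₁ d₀ F q6 q7 q8 (by linarith)
    (by linarith) (by linarith) hn1 (by linarith) (by linarith) (by linarith) (by linarith)
    (by linarith) (by linarith) (by linarith) (by linarith) (by linarith)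
    (prem_selfy R S₀ H G hS' hRp (hSb IH) IH)
    (prem_repy R S₀ H hS' hRp hd0 (by linarith))
    (2 * n₁ - K) (by linarith) (by linarith)
  have hm : max 0 ((2 * n₁ - K + K - 2 * n₁) / 3) = 0 := max_eq_left (by linarith)
  rw [hm] at h
  linarith

/-- all levels of the Gauss side -/
theorem key3y {Q : ℝ → ℝ → Multiset ℝ → ℝ → ℝ → ℝ → Prop} (R : ExpRules (7 / 8 + d) r s)
    (S₀ : ExpS0 s s₀)
    {κ A B C m a c μ F : ℝ} (H : T3Hy d κ A B C m a c μ F) (G : ExpRGy (7 / 8 + d) c r s₀ Q)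
    (hQ : QAll3 Q r κ A B C m a c F)
    {A' B' C' m' a' : ℝ} (hs : Sub3 A' B' C' m' a' A B C m a)
    {K : ℝ} (hκK : κ ≤ K)
    (IH : 3 * K < 4 * (A' + B' + C' + m' + a') → IHyp r c F K A' B' C' m' a')
    {f : ℝ} (hf : 0 ≤ f) (hft : f ≤ 2 * (A' + B' + C' + m' + a') - K) :
    s₀ f {A', B', C'} m' a' ≤ 4 / 3 * (A' + B' + C' + m' + a') + (K + f) / 3 + F := by
  have hs' := hs
  obtain ⟨hA0, hA1, hB0, hB1, hC0, hC1, hm0, hm1, ha0, ha1⟩ := hs'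
  have hAC := H.AC
  have hBC := H.BC
  have h2 := H.h2
  have h4 := H.h4
  have h56 := H.h56
  have hc0 := H.c0
  rcases le_or_gt (f + C') ((A' + B' + m' + a' + K) / 2) with h | hfC
  · refine lump3 R S₀ H.toT3H hs hC0 hA0 hB0 (by linarith) (by ring) ?_ hκK hf h
    show A' ::ₘ B' ::ₘ {C'} = C' ::ₘ A' ::ₘ {B'}
    rw [Multiset.cons_swap C' A']
    congr 1
    exact Multiset.pair_comm B' C'
  rcases le_or_gt (f + B') ((A' + C' + m' + a' + K) / 2) with h | hfB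
  · refine lump3 R S₀ H.toT3H hs hB0 hA0 hC0 (by linarith) (by ring) ?_ hκK hf h
    exact Multiset.cons_swap _ _ _
  rcases le_or_gt (f + A') ((B' + C' + m' + a' + K) / 2) with h | hfA
  · exact lump3 R S₀ H.toT3H hs hA0 hB0 hC0 (by linarith) (by ring) rfl hκK hf h
  -- REM
  obtain ⟨x, hx⟩ : ∃ x, x = (2 * (A' + B' + C' + m' + a') - K - f) / 3 := ⟨_, rfl⟩
  have hx0 : 0 ≤ x := by linarith
  have hxw : 2 * x ≤ m' + a' := by linarith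
  obtain ⟨b, e, hbc, hb0, hbm, he0, hea⟩ : ∃ b e : ℝ, b + e = x ∧ 0 ≤ b ∧ b ≤ m' ∧ 0 ≤ e ∧
      e ≤ a' := by
    rcases le_total x m' with h | h
    · exact ⟨x, 0, by ring, hx0, h, le_rfl, ha0⟩
    · exact ⟨m', x - m', by ring, hm0, le_rfl, by linarith, by linarith⟩
  obtain ⟨n, hn⟩ : ∃ n, n = A' + B' + C' + (m' - b) + (a' - e) := ⟨_, rfl⟩
  have hfn : f + (b + e) = 2 * n - K := by linarith
  have hS : St3 κ A B C m a K A' B' C' (m' - b) (a' - e) n :=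
    ⟨hκK, ⟨hA0, hA1, hB0, hB1, hC0, hC1, by linarith, by linarith, by linarith, by linarith⟩,
      hn, by linarith, by linarith, by linarith, by linarith⟩
  have hIH := IH (by linarith)
  have htop := rg_top_y R S₀ H G hQ hS (fun K' A₂ B₂ C₂ m₂ a₂ hK' h2' hc2 =>
    hIH K' A₂ B₂ C₂ m₂ a₂ hK' ⟨h2'.A0, h2'.A1, h2'.B0, h2'.B1, h2'.C0, h2'.C1, h2'.m0,
      h2'.m1.trans (by linarith), h2'.a0, h2'.a1.trans (by linarith)⟩ (by linarith))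
  have hcau := S₀.cau f {A', B', C'} m' a' b e hf hs.ok hb0 hbm he0 hea
  rw [hfn] at hcau
  linarith

/-- the claim from the claims before -/
theorem cl_step_y {Q : ℝ → ℝ → Multiset ℝ → ℝ → ℝ → ℝ → Prop} (R : ExpRules (7 / 8 + d) r s)
    (S₀ : ExpS0 s s₀)
    {κ A B C m a c μ F : ℝ} (H : T3Hy d κ A B C m a c μ F) (G : ExpRGy (7 / 8 + d) c r s₀ Q)
    (hQ : QAll3 Q r κ A B C m a c F)
    {A' B' C' m' a' : ℝ} (hs : Sub3 A' B' C' m' a' A B C m a)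
    {K : ℝ} (hκK : κ ≤ K)
    (IH : 3 * K < 4 * (A' + B' + C' + m' + a') → IHyp r c F K A' B' C' m' a') :
    Cl3 r K F A' B' C' m' a' := by
  have hK0 : 0 ≤ K := H.κ0.trans hκK
  have h56 := H.h56
  have hc0 := H.c0
  have hF := H.hF
  have hμ0 := H.μ0
  have hs' := hs
  obtain ⟨hA0, hA1, hB0, hB1, hC0, hC1, hm0, hm1, ha0, ha1⟩ := hs'
  have hD0 : 0 ≤ 2 * d * (C + m + a) := mul_nonneg (mul_nonneg two_pos.le H.d0) H.g0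
  refine R.poisC K {A', B', C'} m' a' (K + (A' + B' + C' + m' + a') + F) hK0 hs.ok
    (by rw [sum3]; linarith) (by rw [sum3]; linarith) ?_
  intro Y'' m'' a'' i hY'' hm0' hm1' ha0' ha1' hi hii
  obtain ⟨A₂, B₂, C₂, rfl, hA0', hA1', hB0', hB1', hC0', hC1'⟩ := sh3 hY''
  rw [sum3] at hii ⊢
  rw [sum3]
  have hs2 : Sub3 A₂ B₂ C₂ m'' a'' A' B' C' m' a' :=
    ⟨hA0', hA1', hB0', hB1', hC0', hC1', hm0', hm1', ha0', ha1'⟩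
  have key : ∀ f : ℝ, 0 ≤ f → f ≤ 2 * (A₂ + B₂ + C₂ + m'' + a'') - K →
      s₀ f {A₂, B₂, C₂} m'' a'' ≤ 4 / 3 * (A₂ + B₂ + C₂ + m'' + a'') + (K + f) / 3 + F :=
    fun f hf hft => key3y R S₀ H G hQ (hs2.trans hs) hκK
      (fun h34 K' A₃ B₃ C₃ m₃ a₃ hK' h3 hc3 =>
        IH (by linarith) K' A₃ B₃ C₃ m₃ a₃ hK' (h3.trans hs2) (by linarith)) hf hft
  have hcube := S₀.cube i {A₂, B₂, C₂} m'' a''
    (4 / 3 * (A₂ + B₂ + C₂ + m'' + a'') + (K + i) / 3 + F) hi hs2.ok (fun u hu hu3 => by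
      have := key (i - 3 * u) (by linarith) (by linarith)
      linarith)
  linarith

/-- **T3a, core**: the claim for every sub-side and every family `K ≥ κ` -/
theorem T3a_all_y {Q : ℝ → ℝ → Multiset ℝ → ℝ → ℝ → ℝ → Prop} (R : ExpRules (7 / 8 + d) r s)
    (S₀ : ExpS0 s s₀)
    {κ A B C m a c μ F : ℝ} (H : T3Hy d κ A B C m a c μ F) (G : ExpRGy (7 / 8 + d) c r s₀ Q)
    (hQ : QAll3 Q r κ A B C m a c F) {K : ℝ} (hκK : κ ≤ K)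
    {A' B' C' m' a' : ℝ} (hs : Sub3 A' B' C' m' a' A B C m a) :
    Cl3 r K F A' B' C' m' a' := by
  obtain ⟨N, hN⟩ : ∃ N, N = A + B + C + m + a := ⟨_, rfl⟩
  have hN0 : 0 ≤ N := by
    have := hs.A0; have := hs.B0; have := hs.C0; have := hs.m0; have := hs.a0
    have := hs.A1; have := hs.B1; have := hs.C1; have := hs.m1; have := hs.a1
    linarith
  have main : ∀ k : ℕ, ∀ K A' B' C' m' a' : ℝ, κ ≤ K → Sub3 A' B' C' m' a' A B C m a →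
      A' + B' + C' + m' + a' - K ≤ -(2 * N) + k * c → Cl3 r K F A' B' C' m' a' := by
    intro k
    induction k with
    | zero =>
      intro K A' B' C' m' a' hK hs hn
      refine cl_step_y R S₀ H G hQ hs hK fun h34 => ?_
      exfalso
      have := hs.A0; have := hs.B0; have := hs.C0; have := hs.m0; have := hs.a0
      have := hs.A1; have := hs.B1; have := hs.C1; have := hs.m1; have := hs.a1
      simp only [Nat.cast_zero, zero_mul] at hn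
      linarith
    | succ k ih =>
      intro K A' B' C' m' a' hK hs hn
      refine cl_step_y R S₀ H G hQ hs hK fun _ => ?_
      intro K' A₂ B₂ C₂ m₂ a₂ hK' h2 hc2
      refine ih K' A₂ B₂ C₂ m₂ a₂ (hK.trans hK') (h2.trans hs) ?_
      push_cast at hn
      linarith
  obtain ⟨k, hk⟩ := exists_nat_ge ((3 * N + |K|) / c)
  refine main k K A' B' C' m' a' hκK hs ?_
  rw [div_le_iff₀ H.c0] at hk
  have := neg_abs_le K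
  have := hs.A1; have := hs.B1; have := hs.C1; have := hs.m1; have := hs.a1
  linarith

/-- **T3a, core** -/
theorem T3a_core_y {Q : ℝ → ℝ → Multiset ℝ → ℝ → ℝ → ℝ → Prop} (R : ExpRules (7 / 8 + d) r s)
    (S₀ : ExpS0 s s₀)
    {κ A B C m a c μ F : ℝ} (H : T3Hy d κ A B C m a c μ F) (G : ExpRGy (7 / 8 + d) c r s₀ Q)
    (hQ : QAll3 Q r κ A B C m a c F)
    (hA : 0 ≤ A) (hB : 0 ≤ B) (hC : 0 ≤ C) (hm : 0 ≤ m) (ha : 0 ≤ a) {K : ℝ} (hκK : κ ≤ K) :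
    Cl3 r K F A B C m a :=
  T3a_all_y R S₀ H G hQ hκK
    ⟨hA, le_rfl, hB, le_rfl, hC, le_rfl, hm, le_rfl, ha, le_rfl⟩

/-- all levels up to the own top, every sub-side, every family `K ≥ κ` -/
theorem key_all_y {Q : ℝ → ℝ → Multiset ℝ → ℝ → ℝ → ℝ → Prop} (R : ExpRules (7 / 8 + d) r s)
    (S₀ : ExpS0 s s₀)
    {κ A B C m a c μ F : ℝ} (H : T3Hy d κ A B C m a c μ F) (G : ExpRGy (7 / 8 + d) c r s₀ Q)
    (hQ : QAll3 Q r κ A B C m a c F) {K : ℝ} (hκK : κ ≤ K)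
    {A' B' C' m' a' : ℝ} (hs : Sub3 A' B' C' m' a' A B C m a)
    {f : ℝ} (hf : 0 ≤ f) (hft : f ≤ 2 * (A' + B' + C' + m' + a') - K) :
    s₀ f {A', B', C'} m' a' ≤ 4 / 3 * (A' + B' + C' + m' + a') + (K + f) / 3 + F :=
  key3y R S₀ H G hQ hs hκK (fun _ _ _ _ _ _ _ hK' h2 _ =>
    T3a_all_y R S₀ H G hQ (hκK.trans hK') (h2.trans hs)) hf hft

/-- **the levels above the top**: every sub-side of a weak state at which `Q` holds on the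
domain -/
theorem bess_all_y {Q : ℝ → ℝ → Multiset ℝ → ℝ → ℝ → ℝ → Prop} (R : ExpRules (7 / 8 + d) r s)
    (S₀ : ExpS0 s s₀)
    {κ A B C m a c μ F : ℝ} (H : T3Hy d κ A B C m a c μ F) (G : ExpRGy (7 / 8 + d) c r s₀ Q)
    (hQ : QAll3 Q r κ A B C m a c F)
    {K A₁ B₁ C₁ m₁ a₁ n₁ S T : ℝ} (hS : StW κ A B C m a K A₁ B₁ C₁ m₁ a₁ n₁)
    (hRp : QRepD Q c F S T K A₁ B₁ C₁ m₁ a₁ n₁)
    (hSb : IHyp r c F K A₁ B₁ C₁ m₁ a₁ → QSubD Q c F S T K A₁ B₁ C₁ m₁ a₁)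
    {K' v A₂ B₂ C₂ m₂ a₂ n₂ E : ℝ} (hK' : K ≤ K') (hs2 : Sub3 A₂ B₂ C₂ m₂ a₂ A₁ B₁ C₁ m₁ a₁)
    (hn2 : n₂ = A₂ + B₂ + C₂ + m₂ + a₂) (hL : DC c F S T K' v n₂ E) :
    s₀ v {A₂, B₂, C₂} m₂ a₂ ≤ E := by
  have hκK := hS.κK
  have hsub := hS.sub
  have hQs := hSb fun K'' A₃ B₃ C₃ m₃ a₃ hK'' h3 _ =>
    T3a_all_y R S₀ H G hQ (hκK.trans hK'') (h3.trans hsub)
  refine bess_pty R S₀ H G hS hRp hK' hs2 hn2 hL ?_ ?_
  · intro K'' A₃ B₃ C₃ m₃ a₃ hK'' hs3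
    exact T3a_all_y R S₀ H G hQ (by linarith) ((hs3.trans hs2).trans hsub)
  · intro K'' v'' A₃ B₃ C₃ m₃ a₃ n₃ E'' hK'' hs3 hn3 hL3
    exact hQs K'' v'' A₃ B₃ C₃ m₃ a₃ n₃ E'' (hK'.trans hK'') (hs3.trans hs2) hn3 hL3

/-! ### the side conditions from their static part -/

/-- the static part of the side conditions `Q` at a state: for every side on the domain, `Q`
follows from the direct side (dd), gain `μ`, and the character side of the children (sq) -/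
def QStat (Q : ℝ → ℝ → Multiset ℝ → ℝ → ℝ → ℝ → Prop) (r s₀ : EF)
    (c μ F S T K A₁ B₁ C₁ m₁ a₁ n₁ : ℝ) : Prop :=
  ∀ K' v z₁ z₂ z₃ m₂ a₂ n₂ E : ℝ, K ≤ K' → Sw z₁ z₂ z₃ m₂ a₂ n₂ C₁ m₁ a₁ n₁ →
    z₁ + z₂ ≤ A₁ + B₁ → DQ c F S T K' v n₂ E →
    (∀ x₁ x₂ x₃ m₃ a₃ n₃ : ℝ, Sub3 x₁ x₂ x₃ m₃ a₃ z₁ z₂ z₃ m₂ a₂ →
      n₃ = x₁ + x₂ + x₃ + m₃ + a₃ → 2 * μ ≤ n₂ - n₃ →
      s₀ (v + 2 * (n₂ - n₃)) {x₁, x₂, x₃} m₃ a₃ ≤ E + (n₂ - n₃) - μ) →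
    (∀ x₁ x₂ x₃ m₃ a₃ n₃ κ' : ℝ, Sub3 x₁ x₂ x₃ m₃ a₃ z₁ z₂ z₃ m₂ a₂ →
      n₃ = x₁ + x₂ + x₃ + m₃ + a₃ → c ≤ n₂ - n₃ → 0 ≤ κ' → κ' ≤ K' →
      r κ' {x₁, x₂, x₃} m₃ a₃ + (K' - κ') / 3 + (n₂ - n₃) + (v + n₂ - 2 * K') / 3 ≤ E) →
    Q K' v {z₁, z₂, z₃} m₂ a₂ E

/-- the replaced sides -/
theorem QStat.rep {Q : ℝ → ℝ → Multiset ℝ → ℝ → ℝ → ℝ → Prop} (R : ExpRules (7 / 8 + d) r s)
    (S₀ : ExpS0 s s₀) {κ A B C m a c μ F : ℝ} (H : T3Hy d κ A B C m a c (2 * μ) F)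
    {K A₁ B₁ C₁ m₁ a₁ n₁ S T : ℝ} (hS : StW κ A B C m a K A₁ B₁ C₁ m₁ a₁ n₁)
    (hQ : QStat Q r s₀ c μ F S T K A₁ B₁ C₁ m₁ a₁ n₁) :
    QRepD Q c F S T K A₁ B₁ C₁ m₁ a₁ n₁ := by
  intro K' v z₁ z₂ z₃ m₂ a₂ n₂ E hK' hs2 hz12 hL hz hnz
  have hF := H.hF
  have hc0 := H.c0
  have hμ0 := H.μ0
  have hl0 := hL.l0
  have hv0 := hL.v0
  refine hQ K' v z₁ z₂ z₃ m₂ a₂ n₂ E hK' hs2 hz12 hL ?_ ?_
  · intro x₁ x₂ x₃ m₃ a₃ n₃ hs3 hn3 hm3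
    have hsw := hs2.sub hs3 hn3
    have hx2 := hs3.B1
    obtain ⟨b, hb⟩ : ∃ b, b = n₂ - n₃ := ⟨_, rfl⟩
    rw [← hb]
    have := rep_level R S₀ H.toT3H hS hsw (f := v + 2 * b) (K' := K' + 5 * b) (by linarith)
      (by linarith) (by linarith)
    linarith
  · intro x₁ x₂ x₃ m₃ a₃ n₃ κ' hs3 hn3 hc3 h0 h1
    have hsw := hs2.sub hs3 hn3
    have hx2 := hs3.B1
    have := rep_ideal R S₀ H.toT3H hS hsw hK' (by linarith) κ' h0 h1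
    linarith

/-- the sub-sides -/
theorem QStat.sub {Q : ℝ → ℝ → Multiset ℝ → ℝ → ℝ → ℝ → Prop} (R : ExpRules (7 / 8 + d) r s)
    (S₀ : ExpS0 s s₀) {κ A B C m a c μ F : ℝ} (H : T3Hy d κ A B C m a c (2 * μ) F)
    (hcμ : c ≤ 2 * μ) (G : ExpRGy (7 / 8 + d) c r s₀ Q)
    {K A₁ B₁ C₁ m₁ a₁ n₁ S T : ℝ} (hS : StW κ A B C m a K A₁ B₁ C₁ m₁ a₁ n₁)
    (hQ : QStat Q r s₀ c μ F S T K A₁ B₁ C₁ m₁ a₁ n₁)
    (IH : IHyp r c F K A₁ B₁ C₁ m₁ a₁) : QSubD Q c F S T K A₁ B₁ C₁ m₁ a₁ := by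
  have hRp := hQ.rep R S₀ H hS
  have hn1 := hS.n1
  have hc0 := H.c0
  have hμ0 := H.μ0
  have hF := H.hF
  have hcκ := H.cκ
  have hκK := hS.κK
  have hD0 : 0 ≤ 2 * d * (C + m + a) := mul_nonneg (mul_nonneg two_pos.le H.d0) H.g0
  have main : ∀ k : ℕ, ∀ K' v A₂ B₂ C₂ m₂ a₂ n₂ E : ℝ, K ≤ K' →
      Sub3 A₂ B₂ C₂ m₂ a₂ A₁ B₁ C₁ m₁ a₁ → n₂ = A₂ + B₂ + C₂ + m₂ + a₂ → n₂ < k * c →
      DQ c F S T K' v n₂ E → Q K' v {A₂, B₂, C₂} m₂ a₂ E := by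
    intro k
    induction k with
    | zero =>
      intro K' v A₂ B₂ C₂ m₂ a₂ n₂ E hK' hs2 hn2 hnk hL
      exfalso
      have := hs2.A0; have := hs2.B0; have := hs2.C0; have := hs2.m0; have := hs2.a0
      simp only [Nat.cast_zero, zero_mul] at hnk
      linarith
    | succ k ih =>
      intro K' v A₂ B₂ C₂ m₂ a₂ n₂ E hK' hs2 hn2 hnk hL
      push_cast at hnk
      have w1 := hs2.A1; have w2 := hs2.B1
      have hn21 := (hs2.sw hn2 hn1).n21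
      -- the terminal bound for the children
      have hT : ∀ K'' v' A₃ B₃ C₃ m₃ a₃ n₃ E' : ℝ, K' ≤ K'' →
          Sub3 A₃ B₃ C₃ m₃ a₃ A₂ B₂ C₂ m₂ a₂ → n₃ = A₃ + B₃ + C₃ + m₃ + a₃ →
          2 * μ ≤ n₂ - n₃ → DC c F S T K'' v' n₃ E' → s₀ v' {A₃, B₃, C₃} m₃ a₃ ≤ E' := by
        intro K'' v' A₃ B₃ C₃ m₃ a₃ n₃ E' hK'' hs3 hn3 hm3 hLs
        have hs31 := hs3.trans hs2
        refine bess_pty R S₀ H G hS hRp (by linarith) hs31 hn3 hLs ?_ ?_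
        · intro K₄ A₄ B₄ C₄ m₄ a₄ hK₄ hs4
          have t1 := hs4.A1; have t2 := hs4.B1; have t3 := hs4.C1; have t4 := hs4.m1
          have t5 := hs4.a1
          exact IH K₄ A₄ B₄ C₄ m₄ a₄ (by linarith) (hs4.trans hs31) (by linarith)
        · intro K₄ v₄ A₄ B₄ C₄ m₄ a₄ n₄ E₄ hK₄ hs4 hn4 hL4
          have t1 := hs4.A1; have t2 := hs4.B1; have t3 := hs4.C1; have t4 := hs4.m1
          have t5 := hs4.a1
          exact ih K₄ v₄ A₄ B₄ C₄ m₄ a₄ n₄ E₄ (by linarith) (hs4.trans hs31) hn4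
            (by linarith) hL4
      refine hQ K' v A₂ B₂ C₂ m₂ a₂ n₂ E hK' (hs2.sw hn2 hn1) (by linarith) hL ?_ ?_
      · intro A₃ B₃ C₃ m₃ a₃ n₃ hs3 hn3 hm3
        obtain ⟨b, hb⟩ : ∃ b, b = n₂ - n₃ := ⟨_, rfl⟩
        rw [← hb]
        have hb0 : 0 ≤ b := by linarith
        have hs31 := hs3.trans hs2
        have hv0 := hL.v0
        rcases lt_or_ge (n₂ + K') (2 * v + 3 * μ) with hdm | hdm
        · -- near the diagonal: large sieve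
          have hl1 := S₀.le (v + 2 * b) {A₃, B₃, C₃} m₃ a₃ (by linarith) hs31.ok
          have hl2 := R.hbG (v + 2 * b) {A₃, B₃, C₃} m₃ a₃ (by linarith) hs31.ok
          rw [sum3, ← hn3] at hl2
          have hd2 := hL.d2
          have hl0 := hL.l0
          have h23 := hL.v23
          refine hl1.trans (hl2.trans (max_le ?_ (max_le ?_ ?_))) <;> linarith
        have hLs := hL.toDC.step hb0 (by linarith) hdm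
        rw [show n₂ - b = n₃ by linarith] at hLs
        exact hT _ _ A₃ B₃ C₃ m₃ a₃ n₃ _ (by linarith) hs3 hn3 hm3 hLs
      · intro A₃ B₃ C₃ m₃ a₃ n₃ κ' hs3 hn3 hc3 h0 h1
        have hl0 := hL.l0
        have := IH K' A₃ B₃ C₃ m₃ a₃ hK' (hs3.trans hs2) (by linarith) κ' h0 h1
        linarith
  intro K' v A₂ B₂ C₂ m₂ a₂ n₂ E hK' hs2 hn2 hL
  obtain ⟨k, hk⟩ := exists_nat_gt (n₂ / c)
  refine main k K' v A₂ B₂ C₂ m₂ a₂ n₂ E hK' hs2 hn2 ?_ hL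
  rwa [div_lt_iff₀ H.c0] at hk

/-- `QAll3` from the static part at every state -/
theorem QAll3_of {Q : ℝ → ℝ → Multiset ℝ → ℝ → ℝ → ℝ → Prop} (R : ExpRules (7 / 8 + d) r s)
    (S₀ : ExpS0 s s₀) {κ A B C m a c μ F : ℝ} (H : T3Hy d κ A B C m a c (2 * μ) F)
    (hcμ : c ≤ 2 * μ) (G : ExpRGy (7 / 8 + d) c r s₀ Q)
    (hQ : ∀ K A₁ B₁ C₁ m₁ a₁ n₁ : ℝ, St3 κ A B C m a K A₁ B₁ C₁ m₁ a₁ n₁ →
      QStat Q r s₀ c μ F (3 * n₁ - 4 / 3 * K + 100 * c) (3 * K - 200 * c) K A₁ B₁ C₁ m₁ a₁ n₁) :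
    QAll3 Q r κ A B C m a c F :=
  fun K A₁ B₁ C₁ m₁ a₁ n₁ hS => ⟨(hQ K A₁ B₁ C₁ m₁ a₁ n₁ hS).rep R S₀ H (hS.toW H.toT3H),
    (hQ K A₁ B₁ C₁ m₁ a₁ n₁ hS).sub R S₀ H hcμ G (hS.toW H.toT3H)⟩

end Crest.Agent.R017.SC777
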