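import Crest.Agent.R017.RGE2_545
import Crest.Agent.R017.RGy_590

/-!
# Row 17, T.7: the RG fields of class E from the finite theorems (helper545)

* `prx_of`, `premP_rp` : the complete character side of class E from `PremR`, `PremP`
* `expRGy_of` : `ExpRGy` from `BessFinX`, `RgFinX`, any side conditions `Q` with `Q → QG (LE ..)`
-/

set_option autoImplicit false

noncomputable section

open Set Filter Topology

namespace Crest.Agent.R017.RGB545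

open Crest.Agent.R012 Crest.Agent.R012.Eis Crest.Agent.R012.LS2
open Crest.Agent.R012.T411 (NCube)
open Crest.Agent.R017.B770
open Crest.Agent.R017.Prov71
open Crest.Agent.R017.XP699
open Crest.Agent.R017.ER911 (Ok Sh EF)
open Crest.Agent.R017.RuleM545
open Crest.Agent.R017.XPD571
open Crest.Agent.R017.XS0298
open Crest.Agent.R017.Red848
open Crest.Agent.R017.PX764 (Dk)
open Crest.Agent.R017.SC777 (Full PremR PremP PremTB PremRG ExpRGy sum3 ok3)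

variable {Lam : Type*} {π : Lam → DPar} {h : ℝ → ℝ} {c₁ θ c μ K v : ℝ}

/-- the complete character side, class E -/
theorem prx_of (H : DataE θ π h c₁) {Y : Multiset ℝ} {m a n E : ℝ}
    (hr : PremR (ex Dq (RNe π h)) K v n E Y m a) (hp : PremP θ K v n E Y m a) :
    PR (ex Dq (RFx π h)) K v n E Y m a := by
  intro Y' m' a' n' l hsh hm0 hm1 ha0 ha1 hn' hl0 hl1
  have hY' : Ok Y' m' a' := by
    refine ⟨fun y hy => ?_, hm0, ha0⟩
    obtain ⟨b, _, hb⟩ := Multiset.exists_mem_of_rel_of_mem hsh hy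
    exact hb.1
  have hF : Full θ (ex Dq (RNe π h)) l Y' m' a'
      (E - ((K - l) / 3 + (n - n') + (v + n - 2 * K) / 3)) := by
    refine ⟨fun Y'' κ' h1 h2 h3 _ => ?_, ?_⟩
    · have hs := sh_sum_le h1
      have h4 := hr Y'' m' a' (Y''.sum + m' + a') κ' (h1.trans hsh) hm0 hm1 ha0 ha1 rfl h2
        (by linarith)
      linarith
    · have h4 := hp Y' m' a' n' hsh hm0 hm1 ha0 ha1 hn'
      linarith
  have h2 := H.ex_full hl0 hY' hF
  linarith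

/-- the principal column depends only on the total of the lumps -/
theorem premP_rp {y₁ y₂ y₃ d₀ m a n E : ℝ} (h1 : 0 ≤ y₁) (h2 : 0 ≤ y₂) (h3 : 0 ≤ y₃)
    (hp : PremP θ K v n E {y₁, y₂, y₃} m a) :
    PremP θ K v n E {y₁ + y₂ - d₀, d₀, y₃} m a := by
  intro Y' m' a' n' hsh hm0 hm1 ha0 ha1 hn'
  have hs := sh_sum_le hsh
  rw [sum3] at hs
  have hs0 : 0 ≤ Y'.sum := Multiset.sum_nonneg fun y hy => by
    obtain ⟨b, _, hb⟩ := Multiset.exists_mem_of_rel_of_mem hsh hy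
    exact hb.1
  -- a shortening of the original side with the same total
  obtain ⟨Z, hZ1, hZ2⟩ : ∃ Z : Multiset ℝ, Sh Z {y₁, y₂, y₃} ∧ Z.sum = Y'.sum := by
    have hok : Sh ({0, 0, 0} : Multiset ℝ) {y₁, y₂, y₃} := by
      refine Multiset.Rel.cons ⟨le_rfl, h1⟩ (Multiset.Rel.cons ⟨le_rfl, h2⟩
        (Multiset.Rel.cons ⟨le_rfl, h3⟩ Multiset.Rel.zero))
    have ht : (y₁ + y₂ + y₃ = 0) ∨ 0 < y₁ + y₂ + y₃ := by
      rcases (by linarith : 0 ≤ y₁ + y₂ + y₃).eq_or_lt with h | h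
      · exact Or.inl h.symm
      · exact Or.inr h
    rcases ht with ht | ht
    · refine ⟨{0, 0, 0}, hok, ?_⟩
      rw [sum3]
      linarith
    · obtain ⟨Z, -, z2, z3⟩ := sh_mid hok (t := Y'.sum / (y₁ + y₂ + y₃)) (by positivity)
        (by rw [div_le_one ht]; linarith)
      refine ⟨Z, z2, ?_⟩
      rw [z3, sum3, sum3]
      field_simp
      ring
  have := hp Z m' a' (Z.sum + m' + a') hZ1 hm0 hm1 ha0 ha1 rfl
  rw [hZ2, ← hn'] at this
  exact this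

/-- **the fields of the recursion, class E**, any side conditions -/
theorem expRGy_of {Q : ℝ → ℝ → Multiset ℝ → ℝ → ℝ → ℝ → Prop} (H : DataE θ π h c₁) (hc : 0 < c)
    (hQ : ∀ (K v : ℝ) (Y : Multiset ℝ) (m a E : ℝ), 0 ≤ v → Q K v Y m a E →
      QG (LE (rdE π) h c μ) K v Y m a E)
    (hB : ∀ K d₀ : ℝ, 0 < K → 2000 * c ≤ K → 0 ≤ d₀ → d₀ ≤ K →
      ∃ ε₀ : ℝ, 0 < ε₀ ∧ BessFinX (RX (fun _ => NCube) (rdE π) h)
        (fun lam => S0K Dk (rdE π lam) h) (LE (rdE π) h c μ) ε₀ K c d₀)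
    (hR : ∀ K v d₀ : ℝ, 0 < K → 2000 * c ≤ K → 3 * v + 300 * c ≤ 2 * K → K + 200 * c ≤ 2 * v →
      0 ≤ d₀ → d₀ ≤ K →
      ∃ ε₀ : ℝ, 0 < ε₀ ∧ RgFinX (fun lam => S0K Dk (rdE π lam) h) (LE (rdE π) h c μ) ε₀ K v c d₀) :
    ExpRGy θ c (ex Dq (RNe π h)) (ex Dq (S0e π h)) Q where
  bessx := by
    intro K v y₁ y₂ y₃ m a n d₀ E h3 hm ha hd hd1 hd2 hn hv hvn h3v h6 hK0 hcK hE hdv hbias hr hr'
      hp hT hT' hO hq hq'
    obtain ⟨ε₀, hε₀, hfin⟩ := hB K d₀ hK0 hcK hd (by linarith)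
    exact bessx_of_fin (le_ok (red_OK H.hP H.hE) H.hpu c μ)
      (funOK_RX (red_OK H.hP H.hE) H.hpu _) (funOK_S0x (red_OK H.hP H.hE) H.hpu)
      (fun lam l l' ps hl => S0e_mono_l (π := π) lam l l' ps hl) hε₀ hfin hc.le h3 hm ha hd hd1 hd2
      hn hv hvn h3v h6 hdv hbias hE (prx_of H hr hp)
      (prx_of H hr' (premP_rp (by linarith) (by linarith) h3 hp)) hT hT' hO (hQ _ _ _ _ _ _ hv hq)
      (hQ _ _ _ _ _ _ hv hq')
  rgx := by
    intro K v y₁ y₂ y₃ m a n d₀ F h3 hm ha hd hd1 hd2 hn h2 h6 h3v hK0 hcK h34 hF hdv hbias hP hP'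
      v' hv0 hv1
    obtain ⟨ε₀, hε₀, hfin⟩ := hR K v d₀ hK0 hcK h3v (by linarith) hd (by linarith)
    refine rgx_of_fin (le_ok (red_OK H.hP H.hE) H.hpu c μ) (funOK_S0x (red_OK H.hP H.hE) H.hpu)
      (fun lam l l' ps hl => S0e_mono_l (π := π) lam l l' ps hl) hε₀ hc hfin h3 hm ha hd hd1 hd2 hn
      h2 h6 h34 hF hdv hbias ?_ ?_ hv0 hv1
    · exact ⟨hP.pT, hP.pJ, hP.p0, fun Y' m' a' n' v'' k1 k2 k3 k4 k5 k6 k7 k8 k9 =>
        hQ _ _ _ _ _ _ k8 (hP.pR Y' m' a' n' v'' k1 k2 k3 k4 k5 k6 k7 k8 k9)⟩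
    · exact ⟨hP'.pT, hP'.pJ, hP'.p0, fun Y' m' a' n' v'' k1 k2 k3 k4 k5 k6 k7 k8 k9 =>
        hQ _ _ _ _ _ _ k8 (hP'.pR Y' m' a' n' v'' k1 k2 k3 k4 k5 k6 k7 k8 k9)⟩

end Crest.Agent.R017.RGB545
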