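import Crest.Agent.R017.RGE2_545

/-!
# Row 17, T.7: tools for the pair rules of class E (helper545)

* `PQs` : the slope form of the two-level functional
* `bg2_perm`, `bg2_coe` : reordering the lumps; `bg2_mono_l` : monotonicity in the levels
* `bg2_of_slope`, `slope_of_bg2` : between `BG2 (PQe ..)` and `BG (PQs ..)`
-/

set_option autoImplicit false

noncomputable section

open Set Filter Topology

namespace Crest.Agent.R017.RGB545

open Crest.Agent.R012 Crest.Agent.R012.Eis Crest.Agent.R012.LS2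
open Crest.Agent.R012.T411 (NCube)
open Crest.Agent.R017.XG702 (Pcs BG)
open Crest.Agent.R017.B770
open Crest.Agent.R017.Prov71
open Crest.Agent.R017.XP699
open Crest.Agent.R017.RuleM545
open Crest.Agent.R017.RQd385 (PM2Q PM2Q_nonneg PM2Q_mono PM2Q_perm)

variable {Lam : Type*} {π : Lam → DPar} {h : ℝ → ℝ}

/-- the slope form of the two-level functional: second level `c l` -/
def PQs (c : ℝ) (π : Lam → DPar) (h : ℝ → ℝ) : Lam → ℝ → List Pq → ℝ :=
  fun lam k ps => PM2Q NCube (π lam) h k (c * k) ps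

theorem PQs_nonneg (c : ℝ) (lam : Lam) (k : ℝ) (ps : List Pq) : 0 ≤ PQs c π h lam k ps :=
  PM2Q_nonneg _ _ _ _ _ _

theorem PQs_perm (c : ℝ) (lam : Lam) (k : ℝ) (ps qs : List Pq) (hp : ps.Perm qs) :
    PQs c π h lam k ps = PQs c π h lam k qs := PM2Q_perm hp

theorem PQe_mono (lam : Lam) {k k' β β' : ℝ} (hk : k ≤ k') (hβ : β ≤ β') (ps : List Pq) :
    PQe π h lam k β ps ≤ PQe π h lam k' β' ps := PM2Q_mono (fun _ h => h) hk hβ ps

/-- **reordering the lumps**, any two-level functional of the multiset -/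
theorem bg2_perm' {Pc : Type*} {D : Pcs Pc Kd}
    {Ψ : Lam → ℝ → ℝ → List Pc → ℝ}
    (hΨ : ∀ lam l β ps qs, ps.Perm qs → Ψ lam l β ps = Ψ lam l β qs) {κ b : ℝ}
    {u u' : List ℝ} {w : Kd → ℝ} {e : ℝ} (H : BG2 D Ψ κ b u w e) (hu : u.Perm u') :
    BG2 D Ψ κ b u' w e := by
  intro ε hε
  obtain ⟨δ, hδ, L⟩ := H ε hε
  refine ⟨δ, hδ, fun lam N B => ?_⟩
  obtain ⟨η, hη, X₀, hX₀, K⟩ := L lam N B
  refine ⟨η, hη, X₀, hX₀, ?_⟩
  intro X hX k β us gs hk hβ hnear hgran hgood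
  unfold Pcs.Near at hnear
  obtain ⟨vs, hvs, hperm⟩ : ∃ vs, List.Forall₂ (fun p x => D.lump p ∧ |D.nl X p - x| ≤ δ) vs u ∧
      vs.Perm us := by
    obtain ⟨vs, h1, h2⟩ := List.perm_comp_forall₂ hu hnear.flip
    exact ⟨vs, h1.flip, h2⟩
  have hp : (vs ++ gs).Perm (us ++ gs) := List.Perm.append_right _ hperm
  rw [← hΨ _ _ _ _ _ hp]
  exact K X hX k β vs gs hk hβ hvs hgran (XG702.Good_perm hp.symm hgood)

theorem bg2_perm {κ b : ℝ} {u u' : List ℝ} {w : Kd → ℝ} {e : ℝ}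
    (H : BG2 Dq (PQe π h) κ b u w e) (hu : u.Perm u') : BG2 Dq (PQe π h) κ b u' w e := by
  refine bg2_perm' (fun lam l β ps qs hp => ?_) H hu
  exact PM2Q_perm (Q := NCube) (P := π lam) (h := h) (l := l) (β := β) hp

theorem bg2_coe {κ b : ℝ} {u u' : List ℝ} {w : Kd → ℝ} {e : ℝ}
    (H : BG2 Dq (PQe π h) κ b u w e) (hu : (u : Multiset ℝ) = (u' : Multiset ℝ)) :
    BG2 Dq (PQe π h) κ b u' w e := bg2_perm H (Multiset.coe_eq_coe.1 hu)

/-- **monotonicity in the levels** -/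
theorem bg2_mono_l {κ b κ' b' : ℝ} {u : List ℝ} {w : Kd → ℝ} {e : ℝ}
    (H : BG2 Dq (PQe π h) κ' b' u w e) (h1 : κ ≤ κ') (h2 : b ≤ b') :
    BG2 Dq (PQe π h) κ b u w e := by
  intro ε hε
  obtain ⟨δ, hδ, K⟩ := H ε hε
  refine ⟨δ, hδ, fun lam N B => ?_⟩
  obtain ⟨δ', hδ', X₀, hX₀, K1⟩ := K lam N B
  refine ⟨δ', hδ', X₀, hX₀, fun X hX k β us gs g1 g2 g3 g4 g5 => ?_⟩
  have hlog : 0 < Real.log X := Real.log_pos (by linarith)
  refine (PQe_mono lam (k' := κ' * Real.log X + (k - κ) * Real.log X)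
    (β' := b' * Real.log X + (β - b) * Real.log X) ?_ ?_ _).trans ?_
  · nlinarith [mul_le_mul_of_nonneg_right h1 hlog.le]
  · nlinarith [mul_le_mul_of_nonneg_right h2 hlog.le]
  · rw [← add_mul, ← add_mul]
    exact K1 X hX _ _ us gs (by rw [add_sub_cancel_left]; exact g1)
      (by rw [add_sub_cancel_left]; exact g2) g3 g4 g5

/-- **from the slope form** -/
theorem bg2_of_slope {κ b : ℝ} (hκ : 0 ≤ κ) (hb : 0 ≤ b) {u : List ℝ} {w : Kd → ℝ} {e : ℝ}
    (H : ∀ ε : ℝ, 0 < ε → ∃ η : ℝ, 0 < η ∧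
      BG Dq (PQs ((b + η) / (κ + η)) π h) (κ + η) u w (e + ε)) :
    BG2 Dq (PQe π h) κ b u w e := by
  intro ε hε
  obtain ⟨η, hη, HB⟩ := H (ε / 2) (by linarith)
  obtain ⟨δ, hδ, K⟩ := HB (ε / 2) (by linarith)
  refine ⟨min δ η, lt_min hδ hη, fun lam N B => ?_⟩
  obtain ⟨δ', hδ', X₀, hX₀, K1⟩ := K lam N B
  refine ⟨δ', hδ', X₀, hX₀, fun X hX k β us gs h1 h2 h3 h4 h5 => ?_⟩
  have hX1 : 1 < X := by linarith
  have hlog : 0 < Real.log X := Real.log_pos hX1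
  have hκη : 0 < κ + η := by linarith
  have hm := min_le_left δ η
  have hm' := min_le_right δ η
  have g1 := (abs_le.1 h1).2
  have g2 := (abs_le.1 h2).2
  have key := K1 X hX (κ + η) us gs (by rw [sub_self, abs_zero]; exact hδ.le)
    (XG702.Near_mono h3 hm) (XG702.Gran_mono h4 hm le_rfl) h5
  refine le_trans ?_ (key.trans (Real.rpow_le_rpow_of_exponent_le hX1.le (by linarith)))
  show _ ≤ PM2Q NCube (π lam) h ((κ + η) * Real.log X)
    ((b + η) / (κ + η) * ((κ + η) * Real.log X)) _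
  refine PM2Q_mono (fun _ h => h) (mul_le_mul_of_nonneg_right (by linarith) hlog.le) ?_ _
  have e1 : (b + η) / (κ + η) * ((κ + η) * Real.log X) = (b + η) * Real.log X := by
    field_simp
  rw [e1]
  exact mul_le_mul_of_nonneg_right (by linarith) hlog.le

/-- **to the slope form** -/
theorem slope_of_bg2 {κ b : ℝ} (hκ : 0 ≤ κ) (hb : 0 ≤ b) {u : List ℝ} {w : Kd → ℝ} {e : ℝ}
    (H : BG2 Dq (PQe π h) κ b u w e) {ε : ℝ} (hε : 0 < ε) : ∃ η₀ : ℝ, 0 < η₀ ∧
      ∀ η : ℝ, 0 < η → η ≤ η₀ → BG Dq (PQs ((b + η) / (κ + η)) π h) (κ + η) u w (e + ε) := by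
  obtain ⟨δ, hδ, K⟩ := H ε hε
  refine ⟨δ / 2, by linarith, fun η hη hηδ => ?_⟩
  intro ε' hε'
  have hκη : 0 < κ + η := by linarith
  obtain ⟨c, hc⟩ : ∃ c, c = (b + η) / (κ + η) := ⟨_, rfl⟩
  have hc0 : 0 ≤ c := by rw [hc]; positivity
  have hcκ : c * (κ + η) = b + η := by rw [hc]; field_simp
  have hc1 : 0 < c + 1 := by linarith
  refine ⟨δ / (2 * (c + 1)), by positivity, fun lam N B => ?_⟩
  obtain ⟨δ', hδ', X₀, hX₀, K1⟩ := K lam N B
  refine ⟨δ', hδ', X₀, hX₀, fun X hX k us gs h1 h3 h4 h5 => ?_⟩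
  have hX1 : 1 < X := by linarith
  have hd : δ / (2 * (c + 1)) ≤ δ / 2 := by
    apply div_le_div_of_nonneg_left hδ.le (by norm_num) (by linarith)
  have hd' : c * (δ / (2 * (c + 1))) ≤ δ / 2 := by
    have e1 : c * (δ / (2 * (c + 1))) = c / (c + 1) * (δ / 2) := by field_simp
    have e2 : c / (c + 1) ≤ 1 := by rw [div_le_one hc1]; linarith
    rw [e1]
    nlinarith
  have g1 := abs_le.1 h1
  have k1 := K1 X hX k (c * k) us gs (by rw [abs_le]; constructor <;> linarith [g1.1, g1.2])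
    (by
      have e3 : c * k - b = c * (k - (κ + η)) + η := by rw [mul_sub, hcκ]; ring
      have e4 : |c * (k - (κ + η))| ≤ δ / 2 := by
        rw [abs_mul, abs_of_nonneg hc0]
        exact (mul_le_mul_of_nonneg_left h1 hc0).trans hd'
      have e5 := abs_le.1 e4
      rw [e3, abs_le]
      constructor <;> linarith [e5.1, e5.2])
    (XG702.Near_mono h3 (by linarith)) (XG702.Gran_mono h4 (by linarith) le_rfl) h5
  rw [← hc]
  show PM2Q NCube (π lam) h (k * Real.log X) (c * (k * Real.log X)) _ ≤ _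
  rw [← mul_assoc]
  exact k1.trans (Real.rpow_le_rpow_of_exponent_le hX1.le (by linarith))

end Crest.Agent.R017.RGB545
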