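import Crest.Agent.R017.RGE4_545

/-!
# Row 17, T.5 / T.7: the RG fields of both classes (helper545)

* `ExpRGFz` : the fields, with an abstract pair alternative for which `PAL` holds
* `PN`, `pal_N` : the pair alternative of class N (helper777's `r2ok_lines`)
* `ExpRGFn.toZ`, `ExpRGFP.toZ` : class N, class E
-/

set_option autoImplicit false

noncomputable section

namespace Crest.Agent.R017.SC777

open Crest.Agent.R017.ER911 Crest.Agent.R017.RGB545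

variable {d θ : ℝ} {r s s₀ : EF}

/-- **the fields of the RG recursion (both classes)**: arbitrarily small step length and margin;
`PA` = the pair alternative of the class -/
structure ExpRGFz (θ : ℝ) (r s s₀ : EF) : Prop extends ExpS0 s s₀ where
  rgf : ∃ PA : ℝ → ℝ → Multiset ℝ → ℝ → ℝ → ℝ → Prop, (ExpRules θ r s → PAL (θ - 7 / 8) PA) ∧
    ∀ δ : ℝ, 0 < δ → ∃ c μ : ℝ, 0 < c ∧ 1000 * c ≤ μ ∧ c + μ ≤ δ ∧
      ExpRGy θ c r s₀ (QL3P θ r s₀ PA c μ)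

/-- the pair alternative of class N -/
def PN (θ : ℝ) (r s : EF) : ℝ → ℝ → Multiset ℝ → ℝ → ℝ → ℝ → Prop := fun l β Y m a ρ =>
  Full θ r (l + 2 * β) Y m a ρ ∨ PM s l β Y m a ρ ∨ PM s β l Y m a ρ

/-- the pair alternative of class N on the lines -/
theorem paln_N (R : ExpRules (7 / 8 + d) r s) (hd : 0 ≤ d) (hd8 : 8 * d ≤ 1)
    {K v n E P₁ C₁ m₁ a₁ D μ : ℝ} (H : Ln K v n E C₁ (m₁ + a₁) D (2 * μ)) (hμ : 0 ≤ μ)
    (hμK : 60 * μ ≤ K) (hD : 2 * d * (C₁ + m₁ + a₁) ≤ D) :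
    PAln (PN (7 / 8 + d) r s) μ K v n E P₁ C₁ m₁ a₁ := by
  intro x₁ x₂ x₃ m' a' h1 h2 h3 hm ha _ hC hm1 ha1 i b g t g₂ hi hb hg ht hlen hi1 hi2 hv hg0 hg1
    hgi
  have h := (r2ok_lines R hd hd8 H hμ hμK (by rw [← add_assoc]; exact hD) h1 h2 h3 hm ha hC
    (by linarith) i b g t hi hb hg ht (by rw [sum3]; exact hlen) hi1 hi2).2 hv g₂ hg0 hg1 hgi
  rcases h with h | h
  · refine Or.inl ?_
    rw [show i - 2 * g₂ + 2 * (b + g₂) = i + 2 * b by ring]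
    exact h
  · exact Or.inr h

/-- **the pair alternative of class N on the regions** -/
theorem pal_N (R : ExpRules (7 / 8 + d) r s) (hd : 0 ≤ d) (hd8 : 8 * d ≤ 1) :
    PAL d (PN (7 / 8 + d) r s) where
  regA := fun _ _ _ _ _ _ _ _ _ _ _ _ _ H hμ hμK hD =>
    paln_N R hd hd8 H.toDom.ln hμ hμK hD
  regW := fun _ _ _ _ _ _ _ _ _ _ _ _ _ H hμ hμK hD =>
    paln_N R hd hd8 H.toLn hμ hμK hD

/-- fewer side conditions -/
theorem ExpRGy.anti {c : ℝ} {Q Q' : ℝ → ℝ → Multiset ℝ → ℝ → ℝ → ℝ → Prop}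
    (G : ExpRGy θ c r s₀ Q) (h : ∀ K v Y m a E, Q' K v Y m a E → Q K v Y m a E) :
    ExpRGy θ c r s₀ Q' where
  bessx := fun K v y₁ y₂ y₃ m a n d₀ E h1 h2 h3 h4 h5 h6 h7 h8 h9 h10 h11 h12 h13 h14 h15 h16 h17
      h18 h19 h20 h21 h22 h23 h24 =>
    G.bessx K v y₁ y₂ y₃ m a n d₀ E h1 h2 h3 h4 h5 h6 h7 h8 h9 h10 h11 h12 h13 h14 h15 h16 h17
      h18 h19 h20 h21 h22 (h _ _ _ _ _ _ h23) (h _ _ _ _ _ _ h24)
  rgx := fun K v y₁ y₂ y₃ m a n d₀ F h1 h2 h3 h4 h5 h6 h7 h8 h9 h10 h11 h12 h13 h14 h15 h16 h17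
      h18 =>
    G.rgx K v y₁ y₂ y₃ m a n d₀ F h1 h2 h3 h4 h5 h6 h7 h8 h9 h10 h11 h12 h13 h14 h15 h16
      ⟨h17.pT, h17.pJ, h17.p0, fun Y' m' a' n' v' g1 g2 g3 g4 g5 g6 g7 g8 g9 =>
        h _ _ _ _ _ _ (h17.pR Y' m' a' n' v' g1 g2 g3 g4 g5 g6 g7 g8 g9)⟩
      ⟨h18.pT, h18.pJ, h18.p0, fun Y' m' a' n' v' g1 g2 g3 g4 g5 g6 g7 g8 g9 =>
        h _ _ _ _ _ _ (h18.pR Y' m' a' n' v' g1 g2 g3 g4 g5 g6 g7 g8 g9)⟩

/-- class N: the side conditions with `PN` are helper777's -/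
theorem ql3_of_N {c μ K v m a E : ℝ} {Y : Multiset ℝ}
    (H : QL3P θ r s₀ (PN θ r s) c μ K v Y m a E) : QL3 θ r s s₀ c μ K v Y m a E where
  e0 := H.e0
  ga := H.ga
  r2 := fun Y' m' a' n n' i b g t g₂ h1 h2 h3 h4 h5 h6 h7 h8 h9 h10 h11 h12 h13 h14 h15 h16 h17
      h18 => by
    have h := H.r2 Y' m' a' n n' i b g t g₂ h1 h2 h3 h4 h5 h6 h7 h8 h9 h10 h11 h12 h13 h14 h15 h16
      h17 h18
    rcases h with h | h
    · refine Or.inl ?_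
      rw [show i - 2 * g₂ + 2 * (b + g₂) = i + 2 * b by ring] at h
      exact h
    · exact Or.inr h
  r3 := H.r3
  sq := H.sq
  sqc := H.sqc
  dd := H.dd

/-- **class N** -/
theorem ExpRGFn.toZ (hθ : 7 / 8 ≤ θ) (hθ1 : θ ≤ 1) (G : ExpRGFn θ r s s₀) :
    ExpRGFz θ r s s₀ where
  toExpS0 := G.toExpS0
  rgf := by
    refine ⟨PN θ r s, fun R => ?_, fun δ hδ => ?_⟩
    · obtain ⟨d, rfl⟩ : ∃ d, θ = 7 / 8 + d := ⟨θ - 7 / 8, by ring⟩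
      rw [add_sub_cancel_left]
      exact pal_N R (by linarith) (by linarith)
    · obtain ⟨c, μ, hc, hcμ, h, g⟩ := G.rgf δ hδ
      exact ⟨c, μ, hc, hcμ, h, (g.toY hc.le).anti fun _ _ _ _ _ _ hq => ql3_of_N hq⟩

/-- **class E** -/
theorem ExpRGFP.toZ {PA : ℝ → ℝ → Multiset ℝ → ℝ → ℝ → ℝ → Prop}
    (hPA : ExpRules θ r s → PAL (θ - 7 / 8) PA) (G : ExpRGFP θ r s s₀ PA) :
    ExpRGFz θ r s s₀ where
  toExpS0 := G.toExpS0
  rgf := ⟨PA, hPA, G.rgf⟩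

/-- **three big lumps from the recursion** -/
theorem t3fld_z (hθ : 7 / 8 ≤ θ) (hθ1 : θ ≤ 1) (R : ExpRules θ r s)
    (Rm : ExpRGFz θ r s s₀) : T3F986.T3Fld θ r := by
  obtain ⟨PA, hPA, G⟩ := Rm.rgf
  exact t3fld_P (hPA R) hθ hθ1 R ⟨Rm.toExpS0, G⟩

end Crest.Agent.R017.SC777
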