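import Crest.Agent.R017.RGE5_545
import Crest.Agent.R017.RGE6_545
import Crest.Agent.R017.RGz_545
import Crest.Agent.R017.PXa_829

/-!
# Row 17, T.7: the pair alternative `PX` is sound (helper545)

* `PairRules` : the four pair rules of class E at the level of `BG2 (PQe ..)`
* `paok_px` : `PAok` for helper829's `PX`
* `expRGFz_E` : the RG field of class E
-/

set_option autoImplicit false

noncomputable section

open Set Filter Topology

namespace Crest.Agent.R017.RGB545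

open Crest.Agent.R012 Crest.Agent.R012.Eis Crest.Agent.R012.LS2
open Crest.Agent.R012.T411 (NCube)
open Crest.Agent.R017.B770
open Crest.Agent.R017.Prov71
open Crest.Agent.R017.XP699
open Crest.Agent.R017.ER911 (Ok Sh EF ExpRules)
open Crest.Agent.R017.RuleM545
open Crest.Agent.R017.XPD571
open Crest.Agent.R017.PM320 (PMx)
open Crest.Agent.R017.PX829 (PX)
open Crest.Agent.R017.SC777 (ExpRGFz)

variable {Lam : Type*} {π : Lam → DPar} {h : ℝ → ℝ} {c₁ θ c μ K v : ℝ}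

/-- **the pair rules of class E** (reduced data `π`), `s` = the pair exponent -/
structure PairRules (π : Lam → DPar) (h : ℝ → ℝ) (s : EF) : Prop where
  /-- the complete pair rule, full kernel -/
  base : ∀ (i b : ℝ) (u : List ℝ) (m a ρ : ℝ), 0 ≤ i → 0 ≤ b → Okl u m a →
    PMx s i b (u : Multiset ℝ) m a ρ → 2 * (u.sum + m + a) + (i + 2 * b) / 3 ≤ ρ →
    BG2 Dq (PQe π h) i b u (wt m a) ρ
  /-- the other order -/
  base' : ∀ (i b : ℝ) (u : List ℝ) (m a ρ : ℝ), 0 ≤ i → 0 ≤ b → Okl u m a →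
    PMx s b i (u : Multiset ℝ) m a ρ → 2 * (u.sum + m + a) + (2 * i + b) / 3 ≤ ρ →
    BG2 Dq (PQe π h) i b u (wt m a) ρ
  /-- the pair rule for the difference with the replaced side -/
  repl : ∀ (i b y₁ y₂ δ : ℝ) (u : List ℝ) (m a ρ : ℝ), 0 ≤ i → 0 ≤ b →
    Okl (y₁ :: y₂ :: u) m a → 0 ≤ δ → δ ≤ y₁ → δ ≤ y₂ →
    PMx s i b ((y₁ :: y₂ :: u : List ℝ) : Multiset ℝ) m a ρ →
    PMx s i b (((y₁ + y₂ - δ) :: δ :: u : List ℝ) : Multiset ℝ) m a ρ →
    2 * (y₁ + y₂ + u.sum + m + a) + (i + 2 * b) / 3 - δ ≤ ρ →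
    BG2 Dq (PQe π h) i b ((y₁ + y₂ - δ) :: δ :: u) (wt m a) ρ →
    BG2 Dq (PQe π h) i b (y₁ :: y₂ :: u) (wt m a) ρ
  /-- the flip of a lump -/
  flip : ∀ (i b y : ℝ) (u : List ℝ) (w : Kd → ℝ) (ρ : ℝ),
    (∀ y' : ℝ, 0 ≤ y' → y' ≤ y → 2 * y' ≤ i + b → BG2 Dq (PQe π h) i b (y' :: u) w ρ) →
    (∀ y' t : ℝ, y' ≤ y → y' ≤ i + b → i + b ≤ 2 * y' → 0 ≤ t → t ≤ i + b - y' →
      BG2 Dq (PQe π h) i b ((i + b - t - y') :: u) w (ρ - (2 * y' - (i + b) + t))) →
    BG2 Dq (PQe π h) i b (y :: u) w ρ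

theorem okl_coe {u u' : List ℝ} {m a : ℝ} (h : Okl u m a)
    (he : (u : Multiset ℝ) = (u' : Multiset ℝ)) : Okl u' m a :=
  ⟨fun y hy => h.1 y (by
    rw [← Multiset.mem_coe, he, Multiset.mem_coe]
    exact hy), h.2.1, h.2.2⟩

/-- **the pair alternative `PX` is sound** -/
theorem paok_px (H : DataE θ π h c₁) (P : PairRules (rdE π) h (ex Dq (SPe π h))) :
    PAok (rdE π) h fun l β Y m a ρ =>
      PX θ (ex Dq (RNe π h)) (ex Dq (SPe π h)) l β Y m a ρ := by
  intro l β u m a ρ hl hβ hu hX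
  generalize hY : (u : Multiset ℝ) = Y at hX
  induction hX generalizing u with
  | full Y m a ρ h =>
    subst hY
    exact H.paok_full l β u m a ρ hl hβ hu h
  | base Y m a ρ h hp =>
    subst hY
    exact P.base l β u m a ρ hl hβ hu h (by rw [← Multiset.sum_coe]; exact hp)
  | base' Y m a ρ h hp =>
    subst hY
    exact P.base' l β u m a ρ hl hβ hu h (by rw [← Multiset.sum_coe]; exact hp)
  | repl y₁ y₂ δ v m a ρ h0 h1 h2 hY1 hY2 hp h ih =>
    obtain ⟨v, rfl⟩ := Quot.exists_rep v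
    have e1 : (u : Multiset ℝ) = ((y₁ :: y₂ :: v : List ℝ) : Multiset ℝ) := hY
    have hu' := okl_coe hu e1
    have hu2 : Okl ((y₁ + y₂ - δ) :: δ :: v) m a := by
      refine ⟨fun y hy => ?_, hu'.2.1, hu'.2.2⟩
      have g1 := hu'.1 y₁ (by simp)
      rcases List.mem_cons.1 hy with rfl | hy
      · linarith
      rcases List.mem_cons.1 hy with rfl | hy
      · exact h0
      · exact hu'.1 y (by simp [hy])
    refine bg2_coe (P.repl l β y₁ y₂ δ v m a ρ hl hβ hu' h0 h1 h2 hY1 hY2 ?_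
      (ih _ hu2 rfl)) e1.symm
    rw [← Multiset.sum_coe]
    exact hp
  | flip y v m a ρ h1 h2 ih1 ih2 =>
    obtain ⟨v, rfl⟩ := Quot.exists_rep v
    have e1 : (u : Multiset ℝ) = ((y :: v : List ℝ) : Multiset ℝ) := hY
    have hu' := okl_coe hu e1
    have hcons : ∀ z : ℝ, 0 ≤ z → Okl (z :: v) m a := by
      intro z hz
      refine ⟨fun x hx => ?_, hu'.2.1, hu'.2.2⟩
      rcases List.mem_cons.1 hx with rfl | hx
      · exact hz
      · exact hu'.1 x (by simp [hx])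
    refine bg2_coe (P.flip l β y v (wt m a) ρ (fun y' g0 g1 g2 => ?_)
      (fun y' t g1 g2 g3 g4 g5 => ?_)) e1.symm
    · exact ih1 y' g0 g1 g2 _ (hcons _ g0) rfl
    · exact ih2 y' t g1 g2 g3 g4 g5 _ (hcons _ (by linarith)) rfl

end Crest.Agent.R017.RGB545
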