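import Crest.Agent.R017.XGe_739
import Crest.Agent.R017.ExRed2_848

/-!
# Row 17, two-level flip (helper739), part 6: the exceptional class

* `flip2_e`, `cut2_e` : the rules for the noncubes, reduced data (`PQe` of helper545)
-/

set_option autoImplicit false

noncomputable section

open Complex
open scoped ComplexConjugate ContDiff

namespace Crest.Agent.R017.XG739

open Crest.Agent.R012 Crest.Agent.R012.Eis Crest.Agent.R012.LS2 Crest.Agent.R012.Gauss880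
open Crest.Agent.R012.T411 (NCube)
open Crest.Agent.R017.End699 Crest.Agent.R017.FE47
open Crest.Agent.R017.B770
open Crest.Agent.R017.Prov71
open Crest.Agent.R017.RQd385 (PM2Q)
open Crest.Agent.R017.RuleM545 (BG2)

/-- noncubes are nonprincipal for reduced data -/
lemma npm_ncube {P : DPar} (hP : P.OK) (hψ : P.ψ = prin0 P.n) (hl : P.l₂ = 0) {k : Eis}
    (hk : NCube k) : k ≠ 0 ∧ Sup271.NPm P.n P.ψ P.l₂ k := by
  refine ⟨hk.1, ?_⟩
  rw [hψ, hl]
  exact (Red848.NPm_prin_iff hP.ψ.q0 hk.1).2 hk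

/-- **two-level flip for the noncubes** -/
theorem flip2_e {Lam : Type*} {π : Lam → DPar} (hP : ∀ lam, (π lam).OK)
    (hψ : ∀ lam, (π lam).ψ = prin0 (π lam).n) (hl : ∀ lam, (π lam).l₂ = 0) {h : ℝ → ℝ} {c : ℝ}
    (hpu : PU h c) {κ b y : ℝ} {u : List ℝ} {w : Kd → ℝ} {E : ℝ}
    (h1 : ∀ y' : ℝ, 0 ≤ y' → y' ≤ y → 2 * y' ≤ κ + b →
      BG2 Dq (fun lam l β ps => PM2Q NCube (π lam) h l β ps) κ b (y' :: u) w E)
    (h2 : ∀ y' t : ℝ, y' ≤ y → y' ≤ κ + b → κ + b ≤ 2 * y' → 0 ≤ t → t ≤ κ + b - y' →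
      BG2 Dq (fun lam l β ps => PM2Q NCube (π lam) h l β ps) κ b ((κ + b - t - y') :: u) w
        (E - (2 * y' - (κ + b) + t))) :
    BG2 Dq (fun lam l β ps => PM2Q NCube (π lam) h l β ps) κ b (y :: u) w E :=
  flip2 (Q := fun _ => NCube) hP hpu (fun lam _ hk => npm_ncube (hP lam) (hψ lam) (hl lam) hk) h1 h2

/-- **two-level cut for the noncubes** -/
theorem cut2_e {Lam : Type*} {π : Lam → DPar} (hP : ∀ lam, (π lam).OK)
    (hψ : ∀ lam, (π lam).ψ = prin0 (π lam).n) (hl : ∀ lam, (π lam).l₂ = 0) {h : ℝ → ℝ} {c : ℝ}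
    (hpu : PU h c) {κ b y : ℝ} {u : List ℝ} {w : Kd → ℝ} {E : ℝ}
    (h1 : ∀ y' : ℝ, 0 ≤ y' → y' ≤ y → y' ≤ κ + b →
      BG2 Dq (fun lam l β ps => PM2Q NCube (π lam) h l β ps) κ b (y' :: u) w E) :
    BG2 Dq (fun lam l β ps => PM2Q NCube (π lam) h l β ps) κ b (y :: u) w E :=
  cut2 (Q := fun _ => NCube) hP hpu (fun lam _ hk => npm_ncube (hP lam) (hψ lam) (hl lam) hk) h1

end Crest.Agent.R017.XG739
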