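import Crest.Agent.R017.SwX_545
import Crest.Agent.R017.RGE7_545
import Crest.Agent.R017.XGf_739

/-!
# Row 17, T.7: the pair rules of class E from `base` and `repl` (helper545)

* `bg2_swap_clo`, `PAok.swap` : the levels exchanged, closed families
* `clo_rdE`, `clo_ncl` : the reduced data of a closed family; class E is closed
* `pairRules_of` : `PairRules` from `base` and `repl` (helper739's flip)
-/

set_option autoImplicit false

noncomputable section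

open Complex
open scoped ComplexConjugate

namespace Crest.Agent.R017.RGB545

open Crest.Agent.R012 Crest.Agent.R012.Eis Crest.Agent.R012.LS2
open Crest.Agent.R012.T411 (NCube)
open Crest.Agent.R012.Div277
open Crest.Agent.R017.FE47 Crest.Agent.R017.End699
open Crest.Agent.R017.B770
open Crest.Agent.R017.Prov71
open Crest.Agent.R017.XP699
open Crest.Agent.R017.ER911 (EF)
open Crest.Agent.R017.RuleM545
open Crest.Agent.R017.Red848
open Crest.Agent.R017.PML320 (cjD cjD_ok conj_prin0)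
open Crest.Agent.R017.PM320 (Clo PMx zD cjD_cjD npm_cj classN_cj)

variable {Lam : Type*} {π : Lam → DPar} {h : ℝ → ℝ} {c₁ : ℝ}

theorem bg2_clo (hc : Clo π) {κ b : ℝ} {u : List ℝ} {w : Kd → ℝ} {e : ℝ}
    (H : BG2 Dq (PQe π h) κ b u w e) : BG2 Dq (PQe (fun lam => cjD (π lam)) h) κ b u w e := by
  intro ε hε
  obtain ⟨δ, hδ, K⟩ := H ε hε
  refine ⟨δ, hδ, fun lam N B => ?_⟩
  obtain ⟨lam', e'⟩ := hc lam
  obtain ⟨δ', hδ', X₀, hX₀, K1⟩ := K lam' N B
  refine ⟨δ', hδ', X₀, hX₀, fun X hX k β us gs g1 g2 g3 g4 g5 => ?_⟩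
  have h1 := K1 X hX k β us gs g1 g2 g3 g4 g5
  dsimp only [PQe] at h1 ⊢
  rw [e'] at h1
  exact h1

/-- **the levels exchanged** -/
theorem bg2_swap_clo (hpu : PU h c₁) (hP : ∀ lam, (π lam).OK) (hc : Clo π)
    {κ b : ℝ} (hκ : 0 ≤ κ) {u : List ℝ} {w : Kd → ℝ} {e : ℝ}
    (H : BG2 Dq (PQe π h) b κ u w e) : BG2 Dq (PQe π h) κ b u w e :=
  bg2_swap hpu hP hκ (bg2_clo hc H)

/-- **the swapped alternative is sound** -/
theorem PAok.swap (hpu : PU h c₁) (hP : ∀ lam, (π lam).OK) (hc : Clo π)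
    {PA : ℝ → ℝ → Multiset ℝ → ℝ → ℝ → ℝ → Prop} (H : PAok π h PA) :
    PAok π h fun l β Y m a ρ => PA β l Y m a ρ := fun l β u m a ρ hl hβ hu hA =>
  bg2_swap_clo hpu hP hc hl (H β l u m a ρ hβ hl hu hA)

theorem red_cjD (P : DPar) : red (cjD P) = cjD (red P) := by
  have e1 : (fun b => conj (prin0 P.n b)) = prin0 P.n := by
    funext b; exact conj_prin0 _ _
  have e2 : (fun b => conj (P.φ b * P.ψ b)) = fun b => conj (P.φ b) * conj (P.ψ b) := by
    funext b; exact map_mul _ _ _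
  show ({ cjD P with ψ := prin0 P.n, φ := fun b => conj (P.φ b) * conj (P.ψ b), l₂ := 0 } : DPar) =
    { red P with
      U := fun _ => 0
      φ := fun b => conj (P.φ b * P.ψ b)
      ψ := fun b => conj (prin0 P.n b)
      l₁ := -P.l₁
      l₂ := -0 }
  rw [e1, e2]
  rfl

/-- the reduced data of a closed family -/
theorem clo_rdE (hc : Clo π) : Clo (rdE π) := fun lam => by
  obtain ⟨lam', e'⟩ := hc lam
  refine ⟨lam', ?_⟩
  show red (π lam') = cjD (red (π lam))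
  rw [e', red_cjD]

theorem ncl_cj {P : DPar} (hN : ¬ ∀ k : Eis, k ≠ 0 → Sup271.NPm P.n P.ψ P.l₂ k) :
    ¬ ∀ k : Eis, k ≠ 0 → Sup271.NPm (cjD P).n (cjD P).ψ (cjD P).l₂ k := by
  intro h1
  have h2 := classN_cj h1
  rw [cjD_cjD] at h2
  exact hN h2

/-- **class E is closed under conjugation** -/
theorem clo_ncl : Clo (fun P : {P : DPar // P.OK ∧
    ¬ ∀ k : Eis, k ≠ 0 → Sup271.NPm P.n P.ψ P.l₂ k} => P.1) := fun P =>
  ⟨⟨cjD P.1, cjD_ok P.2.1, ncl_cj P.2.2⟩, rfl⟩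

/-- **the pair rules of class E** from `base` and `repl` -/
theorem pairRules_of (hpu : PU h c₁) (hP : ∀ lam, (rdE π lam).OK) (hc : Clo (rdE π)) {s : EF}
    (hbase : ∀ (i b : ℝ) (u : List ℝ) (m a ρ : ℝ), 0 ≤ i → 0 ≤ b → Okl u m a →
      PMx s i b (u : Multiset ℝ) m a ρ → 2 * (u.sum + m + a) + (i + 2 * b) / 3 ≤ ρ →
      BG2 Dq (PQe (rdE π) h) i b u (wt m a) ρ)
    (hrepl : ∀ (i b y₁ y₂ δ : ℝ) (u : List ℝ) (m a ρ : ℝ), 0 ≤ i → 0 ≤ b →
      Okl (y₁ :: y₂ :: u) m a → 0 ≤ δ → δ ≤ y₁ → δ ≤ y₂ →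
      PMx s i b ((y₁ :: y₂ :: u : List ℝ) : Multiset ℝ) m a ρ →
      PMx s i b (((y₁ + y₂ - δ) :: δ :: u : List ℝ) : Multiset ℝ) m a ρ →
      2 * (y₁ + y₂ + u.sum + m + a) + (i + 2 * b) / 3 - δ ≤ ρ →
      BG2 Dq (PQe (rdE π) h) i b ((y₁ + y₂ - δ) :: δ :: u) (wt m a) ρ →
      BG2 Dq (PQe (rdE π) h) i b (y₁ :: y₂ :: u) (wt m a) ρ) :
    PairRules (rdE π) h s where
  base := hbase
  base' := fun i b u m a ρ hi hb hu h1 h2 =>
    bg2_swap_clo hpu hP hc hi (hbase b i u m a ρ hb hi hu h1 (by linarith))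
  repl := hrepl
  flip := fun i b y u w ρ h1 h2 =>
    XG739.flip2_e hP (fun _ => rfl) (fun _ => rfl) hpu h1 h2

end Crest.Agent.R017.RGB545
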