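import Crest.Agent.R017.XFu_590
import Crest.Agent.R017.XFh_320
import Crest.Agent.R017.RGE9_545

/-!
# Row 17, T.7: the pair rules of class E, closed (helper545)

* `prin_rdE` : the reduced data have a principal character
* `pairRules_c` : `PairRules` at every closed family of class E (helper590's `base`, helper320's
  `bg2_repl`, helper739's flip, the swap)
-/

set_option autoImplicit false

noncomputable section

namespace Crest.Agent.R017.RGB545

open Crest.Agent.R012 Crest.Agent.R012.Eis Crest.Agent.R012.LS2
open Crest.Agent.R017.B770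
open Crest.Agent.R017.Prov71
open Crest.Agent.R017.XP699
open Crest.Agent.R017.RuleM545
open Crest.Agent.R017.Red848
open Crest.Agent.R017.End699
open Crest.Agent.R017.PM320 (Clo PMx)

variable {Lam : Type*} {π : Lam → DPar} {h : ℝ → ℝ} {c₁ : ℝ}

/-- the reduced data have a principal character -/
theorem prin_rdE (hP : ∀ lam, (rdE π lam).OK) : XF320.Prin (rdE π) := fun lam => by
  refine ⟨(π lam).n, (hP lam).ψ.q0, fun b _ => ?_⟩
  show prin0 (π lam).n b * ang 0 b = prin0 (π lam).n b
  rw [ang_zero', mul_one]

/-- **the pair rules of class E** -/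
theorem pairRules_c (hpu : FE47.PU h c₁) (hP : ∀ lam, (π lam).OK) (hE : ∀ lam, Exc (π lam))
    (hc : Clo π) : PairRules (rdE π) h (ex Dq (SPe π h)) :=
  XFt590.pairRules_E hpu (red_OK hP hE) (clo_rdE hc)
    fun i b y₁ y₂ δ u m a ρ hi hb hu h0 h1 h2 hY hY' hp hx =>
      XF320.bg2_repl hpu (red_OK hP hE) (prin_rdE (red_OK hP hE)) hi hb hu h0 h1 h2 hY hY'
        (by rw [List.sum_cons, List.sum_cons, ← add_assoc]; exact hp) hx

end Crest.Agent.R017.RGB545
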