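import Crest.Agent.R017.RGd_64
import Crest.Agent.R017.OpenT_792

/-!
# Row 17, C.REMg (RG), glue (helper64), part e: flagged lists from natural lists

* `open_num` : claims in slope form for flagged lists from natural lists (`open_T`)
-/

set_option autoImplicit false

noncomputable section

open Complex
open scoped ComplexConjugate

namespace Crest.Agent.R017.RG64

open Crest.Agent.R012 Crest.Agent.R012.Eis Crest.Agent.R012.LS2 Crest.Agent.R012.Gauss880
open Crest.Agent.R017.CM106 Crest.Agent.R017.HP842 Crest.Agent.R017.FE47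
open Crest.Agent.R017.End699 hiding pw
open Crest.Agent.R017.B770
open Crest.Agent.R017.Prov71
open Crest.Agent.R017.Leg381
open Crest.Agent.R017.OpT792 (open_T ChO)

lemma forall_of_forall₂ {α β : Type*} {R : α → β → Prop} {S : α → Prop}
    (hR : ∀ p' p, R p' p → S p') {l' : List α} {l : List β} (h : List.Forall₂ R l' l) :
    ∀ p ∈ l', S p := by
  induction h with
  | nil => simp
  | cons h1 _ ih =>
    intro p hp
    rcases List.mem_cons.1 hp with rfl | hp
    · exact hR _ _ h1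
    · exact ih p hp

/-- **flagged lists from natural lists**, slope form -/
theorem open_num {h : ℝ → ℝ} {c : ℝ} (hpu : PU h c) (N : ℕ) {ε : ℝ} (hε : 0 < ε) {J : ℝ}
    (hJ : 0 ≤ J) : ∃ C r : ℝ, 1 ≤ C ∧ 0 ≤ r ∧ ∀ X : ℝ, 3 ≤ X → ∀ D : Dat, D.P.OK → D.h = h →
    1 ≤ D.D0 → D.J = J → D.ps₀.length ≤ N → ∀ (B s a Q q₀ lo lo' σ σ' : ℝ), 0 ≤ B →
    Real.exp (N * r) ≤ q₀ → (∀ ps : List Pf, SbL s ps D.ps₀ → LF ps ≤ σ → lo ≤ LF ps →
      LF ps ≤ Real.log X ∧ D.v + (D.n - LF ps) + a ≤ Real.log X) →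
    σ + N * r ≤ σ' → lo' ≤ lo - N * (Real.log D.D0 + r) →
    ClN D (ex0 D.κ) B (s + r) (a + r) (Q * q₀) lo' σ' →
    ClX (ex0 D.κ) D (Ge lo) (C * X ^ ε * B) s a Q σ := by
  obtain ⟨C, r, hC, hr, H⟩ := open_T hpu N hε hJ
  refine ⟨C * Real.exp r, r, ?_, hr, ?_⟩
  · have : 1 ≤ Real.exp r := Real.one_le_exp hr
    nlinarith
  intro X hX D hP hh hD0 hDJ hN B s a Q q₀ lo lo' σ σ' hB hq₀ hlog hσ hlo' hCl
  intro q ps k hq hqQ hlo hps hL hk hk'
  have hX1 : (1 : ℝ) ≤ X := by linarith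
  have hlD : 0 ≤ Real.log D.D0 := Real.log_nonneg hD0
  have hlen : ps.length ≤ N := hps.length ▸ hN
  have hlen' : (ps.length : ℝ) ≤ N := by exact_mod_cast hlen
  obtain ⟨hl1, hl2⟩ := hlog ps hps hL hlo
  have hlo1 : lo ≤ LF ps := hlo
  have hz := hps.z_nonneg
  have hHt := one_le_Ht ps
  have key := H X hX D.P hP D.z D.D0 q hD0 k ps hk (hk'.trans hl2) hlen
    (fun p hp => ⟨hz p hp, (z_le_LF hz p hp).trans hl1⟩)
    (B * Ht ps ^ J * Real.exp (ex0 D.κ k (LF ps) + r)) (by positivity) ?_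
  · rw [← hh] at key
    refine key.trans (le_of_eq ?_)
    rw [Real.exp_add, hDJ]
    ring
  · intro l ps' hl hch hll
    have hps' : SbL (s + r) ps' D.ps₀ := hps.child (fun p' p (h : ChO D.D0 r p' p) =>
      ⟨h.1, h.2.1, h.2.2.1, h.2.2.2.1, h.2.2.2.2.1⟩) hch
    have hnat : ∀ p ∈ ps', p.2 = false :=
      forall_of_forall₂ (fun p' p (h : ChO D.D0 r p' p) => h.2.2.2.2.2.1) hch
    have hNr : (ps.length : ℝ) * r ≤ N * r := mul_le_mul_of_nonneg_right hlen' hr
    have hLF1 : LF ps' ≤ LF ps + ps.length * r :=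
      LF_le_of_Ch hr (fun p' p (h : ChO D.D0 r p' p) => h.2.2.2.2.1) hch
    have hLF2 : LF ps - ps.length * (Real.log D.D0 + r) ≤ LF ps' :=
      le_LF_of_Ch (by positivity) (fun p' p (h : ChO D.D0 r p' p) => by
        have := h.2.2.2.2.2.2.1
        linarith) hch
    have hlo2 : lo' ≤ LF ps' := by
      have : (ps.length : ℝ) * (Real.log D.D0 + r) ≤ N * (Real.log D.D0 + r) := by
        gcongr
      linarith
    have hcst := cstF_nonneg ps' ps
    have hll' := (abs_le.1 hll).2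
    have hQ' : (nm q : ℝ) ≤ Q * q₀ := by
      have h1 : (nm q : ℝ) * 1 ≤ nm q * Real.exp (LF ps') :=
        mul_le_mul_of_nonneg_left (Real.one_le_exp (LF_nonneg hps'.z_nonneg)) (Nat.cast_nonneg _)
      have h2 := mod_child (q₀ := q₀) (Nat.cast_nonneg (nm q)) hqQ (r := N * r)
        (m' := LF ps') (by linarith) hq₀
      linarith
    have hb := hCl q ps' l hq hQ' hnat hps' hlo2 (by linarith) hl (by linarith)
    have hHt' : Ht ps' ^ D.J ≤ Ht ps ^ J * cstF ps' ps ^ J := by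
      rw [hDJ, ← Real.mul_rpow (by linarith) hcst]
      exact Real.rpow_le_rpow (by linarith [one_le_Ht ps']) (Ht_le_cst hch) hJ
    rw [hh] at hb
    refine hb.trans ?_
    have hE : Real.exp (ex0 D.κ l (LF ps')) ≤ Real.exp (ex0 D.κ k (LF ps) + r) *
        Real.exp (LF ps' - LF ps) := by
      rw [← Real.exp_add]
      refine Real.exp_le_exp.2 ?_
      unfold ex0
      linarith
    calc B * Ht ps' ^ D.J * Real.exp (ex0 D.κ l (LF ps'))
        ≤ B * (Ht ps ^ J * cstF ps' ps ^ J) *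
          (Real.exp (ex0 D.κ k (LF ps) + r) * Real.exp (LF ps' - LF ps)) := by
          gcongr
      _ = _ := by ring

end Crest.Agent.R017.RG64
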