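import Crest.Agent.R017.RGs_777

/-!
# Row 17, section D: T3a from the RG fields with the side conditions `QL3` (helper777)

* `QAll3_QL3` : the side conditions `QL3` at every state
* `ExpRGFq` : the fields, `1000 c ≤ μ`, with the side conditions `QL3` (the consumers use
  `ExpRGFz`, RGz_545)
* `T3a_rgz` : **T3a**
-/

set_option autoImplicit false

noncomputable section

namespace Crest.Agent.R017.SC777

open Crest.Agent.R017.ER911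

variable {d : ℝ} {r s s₀ : EF}

/-- `QAll3` for `QL3` -/
theorem QAll3_QL3 (R : ExpRules (7 / 8 + d) r s) (S₀ : ExpS0 s s₀) {κ A B C m a c μ F : ℝ}
    (H : T3Hy d κ A B C m a c (2 * μ) F) (HK : T3K κ A B C m a)
    (hF : 2 * d * (C + m + a) + 2 * μ + 400 * c ≤ F) (hcμ : c ≤ 2 * μ)
    (G : ExpRGy (7 / 8 + d) c r s₀ (QL3 (7 / 8 + d) r s s₀ c μ)) :
    QAll3 (QL3 (7 / 8 + d) r s s₀ c μ) r κ A B C m a c F :=
  QAll3_of R S₀ H hcμ G fun _ _ _ _ _ _ _ hS => QL3_stat R H HK hF hS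

/-- the fields of the RG recursion: arbitrarily small step length and margin -/
structure ExpRGFq (θ : ℝ) (r s s₀ : EF) : Prop extends ExpS0 s s₀ where
  rgf : ∀ δ : ℝ, 0 < δ → ∃ c μ : ℝ, 0 < c ∧ 1000 * c ≤ μ ∧ c + μ ≤ δ ∧
    ExpRGy θ c r s₀ (QL3 θ r s s₀ c μ)

/-- class N -/
structure ExpRGFn (θ : ℝ) (r s s₀ : EF) : Prop extends ExpS0 s s₀ where
  rgf : ∀ δ : ℝ, 0 < δ → ∃ c μ : ℝ, 0 < c ∧ 1000 * c ≤ μ ∧ c + μ ≤ δ ∧
    ExpRGn θ c r s₀ (QL3 θ r s s₀ c μ)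

theorem ExpRGFn.toQ {θ : ℝ} (G : ExpRGFn θ r s s₀) : ExpRGFq θ r s s₀ where
  toExpS0 := G.toExpS0
  rgf := fun δ hδ => by
    obtain ⟨c, μ, hc, hcμ, h, g⟩ := G.rgf δ hδ
    exact ⟨c, μ, hc, hcμ, h, g.toY hc.le⟩

/-- the hypotheses of T3a, non-strict -/
structure T3A (κ A B C m a : ℝ) : Prop where
  κ0 : 0 ≤ κ
  A0 : 0 ≤ A
  B0 : 0 ≤ B
  C0 : 0 ≤ C
  m0 : 0 ≤ m
  a0 : 0 ≤ a
  AC : A + C ≤ A + B
  BC : B + C ≤ A + B
  h4 : 4 * C ≤ κ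
  h2 : A + B + 2 * C ≤ κ
  h56 : 6 * (A + B + C + m + a) ≤ 5 * κ
  h36 : 40 * (A + B + C + m + a) + 9 * (C + m + a) ≤ 36 * κ
  h59 : 5 * (A + B) + 9 * (m + a) ≤ 5 * κ
  hamp : 3 * (m + 2 * a) ≤ 2 * κ
  h7 : 80 * (A + B + C + m + a) + 30 * C ≤ 73 * κ
  h8 : 36 * (A + B + C + m + a) + 6 * C ≤ 31 * κ
  h9 : 17 * (A + B + C + m + a) ≤ 13 * κ + 2 * (A + B)
  h10 : 15 * (A + B + C + m + a) + 3 * C ≤ 13 * κ

/-- **T3a** from the RG fields, `QL3` -/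
theorem T3a_rgz (R : ExpRules (7 / 8 + d) r s) (Rm : ExpRGFq (7 / 8 + d) r s s₀) (hd : 0 ≤ d)
    (hd8 : 8 * d ≤ 1) {κ A B C m a : ℝ} (h : T3A κ A B C m a) :
    ∀ κ' : ℝ, 0 ≤ κ' → κ' ≤ κ →
      r κ' {A, B, C} m a + (κ - κ') / 3 ≤
        κ + (A + B + C + m + a) + 2 * d * (C + m + a) := by
  obtain ⟨hκ, hA, hB, hC, hm, ha, hAC, hBC, h4, h2, h56, h36, h59, hamp, h7, h8, h9, h10⟩ := h
  intro κ' hκ0 hκ'
  refine le_of_forall_pos_le_add fun ε hε => ?_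
  obtain ⟨c, μ, hc, hcμ, hδ, G⟩ := Rm.rgf (ε / 1000) (by positivity)
  have H : T3Hy d (κ + 500 * (ε / 1000)) A B C m a c (2 * μ)
      (2 * d * (C + m + a) + 2 * μ + 400 * c) := by
    have hD0 : 0 ≤ 2 * d * (C + m + a) := mul_nonneg (mul_nonneg two_pos.le hd) (by linarith)
    refine ⟨?_, ?_, ?_, ?_⟩
    · constructor <;> first | assumption | linarith
    · linarith
    · linarith
    · linarith
  have HK : T3K (κ + 500 * (ε / 1000)) A B C m a := by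
    constructor <;> linarith
  have h := T3a_core_y R Rm.toExpS0 H G
    (QAll3_QL3 R Rm.toExpS0 H HK le_rfl (by linarith) G) hA hB hC hm ha le_rfl κ' hκ0
    (by linarith)
  linarith

end Crest.Agent.R017.SC777
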