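import Crest.Agent.R017.RGN2_545
import Crest.Agent.R017.RGt_777
import Crest.Agent.R017.ProvS_986

/-!
# Row 17, T.5: the RG field of class N from the finite theorems (helper545)

* `expRGFn_of` : `ExpRGFn` from `BessFin`, `RgFin` for the lines `LN`
-/

set_option autoImplicit false

noncomputable section

open Set Filter Topology

namespace Crest.Agent.R017.RGB545

open Crest.Agent.R012 Crest.Agent.R012.Eis Crest.Agent.R012.LS2
open Crest.Agent.R017.B770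
open Crest.Agent.R017.Prov71
open Crest.Agent.R017.XPD571
open Crest.Agent.R017.SC777 (QL3 ExpRGn ExpRGFn)

variable {Lam : Type*} {π : Lam → DPar} {h : ℝ → ℝ} {c₁ θ : ℝ}

/-- **the RG field of class N** -/
theorem expRGFn_of (H : DataN θ π h c₁)
    (hB : ∀ c μ K : ℝ, 0 < c → 1000 * c ≤ μ → μ ≤ 1 → 0 < K → 2000 * c ≤ K →
      ∃ ε₀ : ℝ, 0 < ε₀ ∧ BessFin (RF0 π h) (S0f π h) (LN π h c μ) ε₀ K c)
    (hR : ∀ c μ K v : ℝ, 0 < c → 1000 * c ≤ μ → μ ≤ 1 → 0 < K → 2000 * c ≤ K →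
      3 * v + 300 * c ≤ 2 * K → K + 200 * c ≤ 2 * v →
      ∃ ε₀ : ℝ, 0 < ε₀ ∧ RgFin (S0f π h) (LN π h c μ) ε₀ K v c) :
    ExpRGFn θ (ex Dq (RN0 π h)) (ex Dq (SP0 π h)) (ex Dq (S0f π h)) where
  toExpS0 := ProvS986.s0_N H.hpu H.hP
  rgf := fun δ hδ => by
    obtain ⟨e, he⟩ : ∃ e, e = min δ 1 := ⟨_, rfl⟩
    have he0 : 0 < e := he ▸ lt_min hδ one_pos
    have he1 : e ≤ 1 := he ▸ min_le_right _ _
    have heδ : e ≤ δ := he ▸ min_le_left _ _
    refine ⟨e / 2000, e / 2, by linarith, by linarith, by linarith, ?_⟩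
    exact expRGn_of H (fun K k1 k2 => hB _ _ K (by linarith) (by linarith) (by linarith) k1 k2)
      (fun K v k1 k2 k3 k4 => hR _ _ K v (by linarith) (by linarith) (by linarith) k1 k2 k3 k4)

end Crest.Agent.R017.RGB545
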