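import Crest.Agent.R017.RGx_590
import Crest.Agent.R017.Scale_770
import Crest.Agent.R017.Scale_911

/-!
# Row 17, section D: scaling of the fields of the RG recursion (helper986)

* `QL_scale` : the side conditions
* `expRGx_scale`, `expRGFx_scale` (`rs`), `ExpRGFx.scale` (`sc`)
-/

set_option autoImplicit false

noncomputable section

namespace Crest.Agent.R017.SC777

open Crest.Agent.R017.ER911 Crest.Agent.R017.Scale770

variable {h θ : ℝ} {r s s₀ : EF}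

/-- **the side conditions are invariant** -/
theorem QL_scale (h0 : 0 < h) {c μ K v m a E : ℝ} {Y : Multiset ℝ}
    (H : QL θ (rs h r) (rs h s₀) c μ K v Y m a E) :
    QL θ r s₀ (h * c) (h * μ) (h * K) (h * v) (Y.map (h * ·)) (h * m) (h * a) (h * E) where
  r2 := by
    intro Y' m' a' n n' i hY hm0 hm1 ha0 ha1 hn hn' hy hi hi'
    obtain ⟨Z, rfl, hZ⟩ := sh_sc h0 hY
    obtain ⟨m'', rfl⟩ := ex_sc h0 m'
    obtain ⟨a'', rfl⟩ := ex_sc h0 a'
    obtain ⟨i'', rfl⟩ := ex_sc h0 i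
    rw [sum_sc] at hn hn'
    have h1 := H.r2 Z m'' a'' (Y.sum + m + a) (Z.sum + m'' + a'') i'' hZ ((pos_sc h0).1 hm0)
      ((le_sc h0).1 hm1) ((pos_sc h0).1 ha0) ((le_sc h0).1 ha1) rfl rfl
      (fun y hy' => (le_sc h0).1 (hy _ (Multiset.mem_map_of_mem _ hy'))) ((pos_sc h0).1 hi)
      ((le_sc h0).1 (hi'.trans (le_of_eq (by rw [hn]; ring))))
    rw [← le_sc h0] at h1
    have e : 2 / 3 * (h * v + h * i'') = h * (2 / 3 * (v + i'')) := by ring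
    rw [e, max_sc h0, le_rs (r := r) h0, hn, hn']
    refine le_trans (le_of_eq ?_) h1
    ring
  c2 := by
    intro Y' m' a' n n' i hY hm0 hm1 ha0 ha1 hn hn' hi hi'
    obtain ⟨Z, rfl, hZ⟩ := sh_sc h0 hY
    obtain ⟨m'', rfl⟩ := ex_sc h0 m'
    obtain ⟨a'', rfl⟩ := ex_sc h0 a'
    obtain ⟨i'', rfl⟩ := ex_sc h0 i
    rw [sum_sc] at hn hn'
    have h1 := H.c2 Z m'' a'' (Y.sum + m + a) (Z.sum + m'' + a'') i'' hZ ((pos_sc h0).1 hm0)
      ((le_sc h0).1 hm1) ((pos_sc h0).1 ha0) ((le_sc h0).1 ha1) rfl rfl ((pos_sc h0).1 hi)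
      ((le_sc h0).1 (hi'.trans (le_of_eq (by rw [hn]; ring))))
    rw [← le_sc h0] at h1
    have e : 2 / 3 * (h * v + h * i'') = h * (2 / 3 * (v + i'')) := by ring
    rw [e, max_sc h0, hn, hn']
    refine le_trans (le_of_eq ?_) h1
    ring
  r3 := by
    intro Y' m' a' n i hY hm0 hm1 ha0 ha1 hn hy hi hi'
    obtain ⟨Z, rfl, hZ⟩ := sh_sc h0 hY
    obtain ⟨m'', rfl⟩ := ex_sc h0 m'
    obtain ⟨a'', rfl⟩ := ex_sc h0 a'
    obtain ⟨i'', rfl⟩ := ex_sc h0 i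
    rw [sum_sc] at hn
    have h1 := H.r3 Z m'' a'' (Y.sum + m + a) i'' hZ ((pos_sc h0).1 hm0)
      ((le_sc h0).1 hm1) ((pos_sc h0).1 ha0) ((le_sc h0).1 ha1) rfl
      (fun y hy' => (le_sc h0).1 (hy _ (Multiset.mem_map_of_mem _ hy'))) ((pos_sc h0).1 hi)
      ((le_sc h0).1 (hi'.trans (le_of_eq (by rw [hn]; ring))))
    rw [← le_sc h0] at h1
    have e : (h * v + 2 * n - 2 * (h * K)) / 3 = h * ((v + 2 * (Y.sum + m + a) - 2 * K) / 3) := by
      rw [hn]; ring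
    have e0 : (0 : ℝ) = h * 0 := by ring
    rw [e, e0, max_sc h0, le_rs (r := r) h0, hn]
    refine le_trans (le_of_eq ?_) h1
    ring
  c3 := by
    intro m' a' n hm0 hm1 ha0 ha1 hn
    obtain ⟨m'', rfl⟩ := ex_sc h0 m'
    obtain ⟨a'', rfl⟩ := ex_sc h0 a'
    rw [sum_sc] at hn
    have h1 := H.c3 m'' a'' (Y.sum + m + a) ((pos_sc h0).1 hm0)
      ((le_sc h0).1 hm1) ((pos_sc h0).1 ha0) ((le_sc h0).1 ha1) rfl
    rw [← le_sc h0] at h1
    have e : (h * v + 2 * n - 2 * (h * K)) / 3 = h * ((v + 2 * (Y.sum + m + a) - 2 * K) / 3) := by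
      rw [hn]; ring
    have e0 : (0 : ℝ) = h * 0 := by ring
    rw [e, e0, max_sc h0, hn]
    refine le_trans (le_of_eq ?_) h1
    ring
  r5 := by
    intro Y' m' a' n k hY hm0 hm1 ha0 ha1 hn hk hk'
    obtain ⟨Z, rfl, hZ⟩ := sh_sc h0 hY
    obtain ⟨m'', rfl⟩ := ex_sc h0 m'
    obtain ⟨a'', rfl⟩ := ex_sc h0 a'
    obtain ⟨k'', rfl⟩ := ex_sc h0 k
    rw [sum_sc] at hn
    have h1 := H.r5 Z m'' a'' (Y.sum + m + a) k'' hZ ((pos_sc h0).1 hm0)
      ((le_sc h0).1 hm1) ((pos_sc h0).1 ha0) ((le_sc h0).1 ha1) rfl ((pos_sc h0).1 hk)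
      ((le_sc h0).1 (hk'.trans (le_of_eq (by ring))))
    rw [← le_sc h0] at h1
    rw [le_rs (r := r) h0, hn]
    refine le_trans (le_of_eq ?_) h1
    ring
  dd := by
    intro Y' m' a' n n' hY hm0 hm1 ha0 ha1 hn hn' hc
    obtain ⟨Z, rfl, hZ⟩ := sh_sc h0 hY
    obtain ⟨m'', rfl⟩ := ex_sc h0 m'
    obtain ⟨a'', rfl⟩ := ex_sc h0 a'
    rw [sum_sc] at hn hn'
    have h1 := H.dd Z m'' a'' (Y.sum + m + a) (Z.sum + m'' + a'') hZ ((pos_sc h0).1 hm0)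
      ((le_sc h0).1 hm1) ((pos_sc h0).1 ha0) ((le_sc h0).1 ha1) rfl rfl
      ((le_sc h0).1 (hc.trans (le_of_eq (by rw [hn, hn']; ring))))
    rw [← le_sc h0, ← le_rs (r := s₀) h0] at h1
    have e : h * v + 2 * (n - n') = h * (v + 2 * ((Y.sum + m + a) - (Z.sum + m'' + a''))) := by
      rw [hn, hn']; ring
    rw [e]
    refine h1.trans (le_of_eq ?_)
    rw [hn, hn']; ring

/-- the premises are invariant -/
theorem premRG_scale (h0 : 0 < h) {c e K v n F m a : ℝ} {Y : Multiset ℝ}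
    {Q Q' : ℝ → ℝ → Multiset ℝ → ℝ → ℝ → ℝ → Prop}
    (hQ : ∀ (K v : ℝ) (Y : Multiset ℝ) (m a E : ℝ), Q' K v Y m a E →
      Q (h * K) (h * v) (Y.map (h * ·)) (h * m) (h * a) (h * E))
    (H : PremRG c e (rs h s₀) Q' K v n F Y m a) :
    PremRG (h * c) (h * e) s₀ Q (h * K) (h * v) (h * n) (h * F) (Y.map (h * ·)) (h * m)
      (h * a) where
  pT := by
    intro Y' m' a' n' v' hY hm0 hm1 ha0 ha1 hn' h1 h2 h3 h4
    obtain ⟨Z, rfl, hZ⟩ := sh_sc h0 hY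
    obtain ⟨m'', rfl⟩ := ex_sc h0 m'
    obtain ⟨a'', rfl⟩ := ex_sc h0 a'
    obtain ⟨v'', rfl⟩ := ex_sc h0 v'
    rw [sum_sc] at hn'
    have e1 : h * (n - (Z.sum + m'' + a'')) = h * n - n' := by rw [hn']; ring
    have h5 := H.pT Z m'' a'' _ v'' hZ ((pos_sc h0).1 hm0) ((le_sc h0).1 hm1) ((pos_sc h0).1 ha0)
      ((le_sc h0).1 ha1) rfl ((le_sc h0).1 (h1.trans (le_of_eq e1.symm)))
      ((le_sc h0).1 (e1.le.trans (h2.trans (le_of_eq (by ring))))) ((pos_sc h0).1 h3)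
      ((le_sc h0).1 (h4.trans (le_of_eq (by rw [← e1]; ring))))
    rw [← le_sc h0, ← le_rs (r := s₀) h0] at h5
    refine h5.trans (le_of_eq ?_)
    rw [hn']; ring
  pJ := by
    intro Y' m' a' n' v' w u hY hm0 hm1 ha0 ha1 hn' h1 h3 h4 h6 h7
    obtain ⟨Z, rfl, hZ⟩ := sh_sc h0 hY
    obtain ⟨m'', rfl⟩ := ex_sc h0 m'
    obtain ⟨a'', rfl⟩ := ex_sc h0 a'
    obtain ⟨v'', rfl⟩ := ex_sc h0 v'
    obtain ⟨w'', rfl⟩ := ex_sc h0 w
    obtain ⟨u'', rfl⟩ := ex_sc h0 u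
    rw [sum_sc] at hn'
    have e1 : h * (n - (Z.sum + m'' + a'')) = h * n - n' := by rw [hn']; ring
    have hne : h ≠ 0 := h0.ne'
    have h5 := H.pJ Z m'' a'' _ v'' w'' u'' hZ ((pos_sc h0).1 hm0) ((le_sc h0).1 hm1)
      ((pos_sc h0).1 ha0) ((le_sc h0).1 ha1) rfl
      ((le_sc h0).1 ((le_of_eq (by ring)).trans (h1.trans (le_of_eq e1.symm))))
      ((pos_sc h0).1 h3) ((pos_sc h0).1 h4)
      (mul_left_cancel₀ hne (by rw [← e1] at h6; linarith))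
      (mul_left_cancel₀ hne (by rw [← e1] at h7; linarith))
    rw [← le_sc h0, ← le_rs (r := s₀) h0] at h5
    refine h5.trans (le_of_eq ?_)
    have e0 : max 0 (h * u'') = h * max 0 u'' := by
      have := max_sc h0 0 u''
      rwa [mul_zero] at this
    rw [hn', e0]; ring
  p0 := by
    intro Y' m' a' n' v' hY hm0 hm1 ha0 ha1 hn' h2 h3 h4
    obtain ⟨Z, rfl, hZ⟩ := sh_sc h0 hY
    obtain ⟨m'', rfl⟩ := ex_sc h0 m'
    obtain ⟨a'', rfl⟩ := ex_sc h0 a'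
    obtain ⟨v'', rfl⟩ := ex_sc h0 v'
    rw [sum_sc] at hn'
    have e1 : h * (n - (Z.sum + m'' + a'')) = h * n - n' := by rw [hn']; ring
    have h5 := H.p0 Z m'' a'' _ v'' hZ ((pos_sc h0).1 hm0) ((le_sc h0).1 hm1) ((pos_sc h0).1 ha0)
      ((le_sc h0).1 ha1) rfl
      ((le_sc h0).1 (e1.le.trans (h2.trans (le_of_eq (by ring))))) ((pos_sc h0).1 h3)
      ((le_sc h0).1 (h4.trans (le_of_eq (by rw [← e1]; ring))))
    rw [← le_sc h0, ← le_rs (r := s₀) h0] at h5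
    refine h5.trans (le_of_eq ?_)
    rw [hn']; ring
  pR := by
    intro Y' m' a' n' v' hY hm0 hm1 ha0 ha1 hn' h2 h3 h4
    obtain ⟨Z, rfl, hZ⟩ := sh_sc h0 hY
    obtain ⟨m'', rfl⟩ := ex_sc h0 m'
    obtain ⟨a'', rfl⟩ := ex_sc h0 a'
    obtain ⟨v'', rfl⟩ := ex_sc h0 v'
    rw [sum_sc] at hn'
    have e1 : h * (n - (Z.sum + m'' + a'')) = h * n - n' := by rw [hn']; ring
    have h5 := H.pR Z m'' a'' _ v'' hZ ((pos_sc h0).1 hm0) ((le_sc h0).1 hm1) ((pos_sc h0).1 ha0)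
      ((le_sc h0).1 ha1) rfl
      ((le_sc h0).1 (e1.le.trans (h2.trans (le_of_eq (by ring))))) ((pos_sc h0).1 h3)
      ((le_sc h0).1 (h4.trans (le_of_eq (by rw [← e1]; ring))))
    have h6 := hQ _ _ _ _ _ _ h5
    have e2 : h * (4 / 3 * (Z.sum + m'' + a'') + (v'' + K) / 3 + F) =
        4 / 3 * n' + (h * v'' + h * K) / 3 + h * F := by rw [hn']; ring
    rwa [e2] at h6

lemma map3 (h x y z : ℝ) : ({x, y, z} : Multiset ℝ).map (h * ·) = {h * x, h * y, h * z} := by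
  simp

/-- **scaling of the fields of the recursion** -/
theorem expRGx_scale (h0 : 0 < h) {c : ℝ} {Q Q' : ℝ → ℝ → Multiset ℝ → ℝ → ℝ → ℝ → Prop}
    (hQ : ∀ (K v : ℝ) (Y : Multiset ℝ) (m a E : ℝ), Q' K v Y m a E →
      Q (h * K) (h * v) (Y.map (h * ·)) (h * m) (h * a) (h * E))
    (G : ExpRGx (h * c) r s₀ Q) : ExpRGx c (rs h r) (rs h s₀) Q' where
  bessx := by
    intro K v y₁ y₂ y₃ m a n d₀ E h3 hm ha hd h1 h2 hn hv hvK hnK g1 g2 g3 hr hr2 hs hQ1 hQ2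
    rw [rs_le h0]
    have ey : h * y₁ + h * y₂ - h * d₀ = h * (y₁ + y₂ - d₀) := by ring
    rw [map3]
    have hr' : ∀ y₁ y₂ y₃ : ℝ, (∀ κ' : ℝ, 0 ≤ κ' → κ' ≤ K →
        rs h r κ' {y₁, y₂, y₃} m a + (K - κ') / 3 + (v + n - 2 * K) / 3 ≤ E) →
        ∀ κ' : ℝ, 0 ≤ κ' → κ' ≤ h * K →
          r κ' {h * y₁, h * y₂, h * y₃} (h * m) (h * a) + (h * K - κ') / 3 +
            (h * v + h * n - 2 * (h * K)) / 3 ≤ h * E := by
      intro y₁ y₂ y₃ hr κ' hκ0 hκ1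
      obtain ⟨κ'', rfl⟩ := ex_sc h0 κ'
      have h4 := hr κ'' ((pos_sc h0).1 hκ0) ((le_sc h0).1 hκ1)
      rw [← le_sc h0] at h4
      refine le_trans (le_of_eq ?_) h4
      rw [← map3, le_rs (r := r) h0]
      ring
    refine G.bessx (h * K) (h * v) (h * y₁) (h * y₂) (h * y₃) (h * m) (h * a) (h * n) (h * d₀)
      (h * E) ((pos_sc h0).2 h3) ((pos_sc h0).2 hm) ((pos_sc h0).2 ha) ((pos_sc h0).2 hd)
      ((le_sc h0).2 h1) ((le_sc h0).2 h2) (by rw [hn]; ring) ((pos_sc h0).2 hv) ?_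
      ((le_sc h0).2 hnK) ?_ ?_ ((pos_sc h0).2 g3) (hr' _ _ _ hr) ?_ ?_ ?_ ?_
    · have := (le_sc h0).2 hvK; linarith
    · have := (le_sc h0).2 g1; linarith
    · have := (le_sc h0).2 g2; linarith
    · rw [ey]; exact hr' _ _ _ hr2
    · rw [rs_le h0, map3] at hs
      rw [ey]; exact hs
    · have h4 := hQ _ _ _ _ _ _ hQ1
      rwa [map3] at h4
    · have h4 := hQ _ _ _ _ _ _ hQ2
      rw [map3] at h4
      rw [ey]; exact h4
  rgx := by
    intro K v y₁ y₂ y₃ m a n d₀ F h3 hm ha hd h1 h2 hn h2n hnK hvK hK0 hcK h34 hF g1 g2 hP hP'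
      v' hv0 hv1
    rw [rs_le h0]
    have ey : h * y₁ + h * y₂ - h * d₀ = h * (y₁ + y₂ - d₀) := by ring
    rw [map3]
    have e3 : h * c / 3 = h * (c / 3) := by ring
    have h5 := G.rgx (h * K) (h * v) (h * y₁) (h * y₂) (h * y₃) (h * m) (h * a) (h * n) (h * d₀)
      (h * F) ((pos_sc h0).2 h3) ((pos_sc h0).2 hm) ((pos_sc h0).2 ha) ((pos_sc h0).2 hd)
      (by have := (le_sc h0).2 h1; linarith) (by have := (le_sc h0).2 h2; linarith)
      (by rw [hn]; ring) (by have := (le_sc h0).2 h2n; linarith) ((le_sc h0).2 hnK)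
      (by have := (le_sc h0).2 hvK; linarith) (mul_pos h0 hK0)
      (by have := (le_sc h0).2 hcK; linarith) (by have := (le_sc h0).2 h34; linarith)
      ((pos_sc h0).2 hF) (by have := (le_sc h0).2 g1; linarith)
      (by have := (le_sc h0).2 g2; linarith)
      (by
        have h6 := premRG_scale h0 hQ hP
        rw [map3] at h6
        rw [e3]; exact h6)
      (by
        have h6 := premRG_scale h0 hQ hP'
        rw [map3, mul_zero] at h6
        rw [ey]; exact h6)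
      (h * v') ((pos_sc h0).2 hv0) ((le_sc h0).2 hv1)
    refine h5.trans (le_of_eq ?_)
    have e0 : max 0 ((h * v' + h * K - 2 * (h * n)) / 3) = h * max 0 ((v' + K - 2 * n) / 3) := by
      have := max_sc h0 0 ((v' + K - 2 * n) / 3)
      rw [mul_zero] at this
      rw [← this]
      congr 1
      ring
    rw [e0]; ring

/-- **scaling of `ExpS0`** -/
theorem expS0_scale (h0 : 0 < h) (S : ExpS0 s s₀) : ExpS0 (rs h s) (rs h s₀) where
  le κ Y m a hκ hY := by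
    rw [rs_le h0, ← le_rs (r := s) h0]
    exact S.le _ _ _ _ ((pos_sc h0).2 hκ) (ok_sc h0 hY)
  cube κ Y m a E hκ hY H := by
    rw [rs_le h0]
    refine S.cube (h * κ) _ _ _ (h * E) ((pos_sc h0).2 hκ) (ok_sc h0 hY) fun u hu hu3 => ?_
    obtain ⟨u', rfl⟩ := ex_sc h0 u
    have h1 := H u' ((pos_sc h0).1 hu) ((le_sc h0).1 ((le_of_eq (by ring)).trans hu3))
    rw [← le_sc h0] at h1
    refine le_trans (le_of_eq ?_) h1
    have e : h * κ - 3 * (h * u') = h * (κ - 3 * u') := by ring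
    rw [e, le_rs (r := s₀) h0]
    ring
  cau κ Y m a b c hκ hY hb0 hb1 hc0 hc1 := by
    rw [rs_le h0]
    have h1 := S.cau (h * κ) (Y.map (h * ·)) (h * m) (h * a) (h * b) (h * c) ((pos_sc h0).2 hκ)
      (ok_sc h0 hY) ((pos_sc h0).2 hb0) ((le_sc h0).2 hb1) ((pos_sc h0).2 hc0) ((le_sc h0).2 hc1)
    refine h1.trans (le_of_eq ?_)
    rw [mul_add h (b + c) (rs h s₀ (κ + (b + c)) Y (m - b) (a - c)), ← le_rs (r := s₀) h0]
    ring_nf
  cauS κ y Y m a hκ hy hY := by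
    rw [rs_le h0, Multiset.map_cons]
    have h1 := S.cauS (h * κ) (h * y) (Y.map (h * ·)) (h * m) (h * a) ((pos_sc h0).2 hκ)
      ((pos_sc h0).2 hy) (ok_sc h0 hY)
    refine h1.trans (le_of_eq ?_)
    rw [mul_add h y (rs h s₀ (κ + y) Y m a), ← le_rs (r := s₀) h0, mul_add h κ y]

/-- **scaling** (`rs`) -/
theorem expRGFx_scale (h0 : 0 < h) (R : ExpRGFx θ r s s₀) :
    ExpRGFx θ (rs h r) (rs h s) (rs h s₀) where
  toExpS0 := expS0_scale h0 R.toExpS0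
  rgf := by
    intro δ hδ
    obtain ⟨c, μ, hc, hμ, hcμ, G⟩ := R.rgf (h * δ) (mul_pos h0 hδ)
    refine ⟨c / h, μ / h, by positivity, by positivity, ?_, ?_⟩
    · rw [← add_div, div_le_iff₀ h0]
      linarith
    · refine expRGx_scale h0 (fun K v Y m a E H => QL_scale h0 H) ?_
      have e1 : h * (c / h) = c := by field_simp
      have e2 : h * (μ / h) = μ := by field_simp
      rw [e1, e2]
      exact G

/-- **scaling** (`sc`) -/
theorem ExpRGFx.scale (R : ExpRGFx θ r s s₀) (h0 : 0 < h) :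
    ExpRGFx θ (sc h r) (sc h s) (sc h s₀) := expRGFx_scale h0 R

end Crest.Agent.R017.SC777
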