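import Crest.Agent.R017.Leg6_381

/-!
# Row 17, C.REMg (RG), glue (helper64), part a: the flat exponent, heights, derived lists

* `fl κ k m` : the flat bound (`κ = log K`, level `k`, length `m`), `fl_step` : it is compatible
  with taking out a factor at fixed `K`
* `Ht ps` : product of the heights, `SbL s ps ps₀` : `ps` is derived from the list `ps₀`
* `ClX`, `Cl` : the claims of the recursion
-/

set_option autoImplicit false

noncomputable section

open Complex
open scoped ComplexConjugate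

namespace Crest.Agent.R017.RG64

open Crest.Agent.R012 Crest.Agent.R012.Eis Crest.Agent.R012.LS2 Crest.Agent.R012.Gauss880
open Crest.Agent.R017.CM106 Crest.Agent.R017.HP842 Crest.Agent.R017.FE47
open Crest.Agent.R017.End699
open Crest.Agent.R017.B770
open Crest.Agent.R017.Prov71
open Crest.Agent.R017.Leg381

/-! ### the flat exponent -/

/-- the flat bound -/
def fl (κ k m : ℝ) : ℝ := 2 * m + max 0 ((k - 2 * m + κ) / 3)

lemma fl_step {κ k m l m' r : ℝ} (hl : |l - (k + m - m')| ≤ r) (hm : m' ≤ m + r) (hr : 0 ≤ r) :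
    fl κ l m' ≤ fl κ k m - (m - m') + 2 * r := by
  unfold fl
  have h1 := (abs_le.1 hl).2
  have h2 : (k - 2 * m + κ) / 3 ≤ max 0 ((k - 2 * m + κ) / 3) := le_max_right _ _
  have h3 : (0 : ℝ) ≤ max 0 ((k - 2 * m + κ) / 3) := le_max_left _ _
  set M := max 0 ((k - 2 * m + κ) / 3) with hM
  rcases le_total 0 ((l - 2 * m' + κ) / 3) with h | h
  · rw [max_eq_right h]
    linarith
  · rw [max_eq_left h]
    linarith

lemma fl_mono {κ k k' m : ℝ} (h : k ≤ k') : fl κ k m ≤ fl κ k' m := by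
  unfold fl
  have : max 0 ((k - 2 * m + κ) / 3) ≤ max 0 ((k' - 2 * m + κ) / 3) :=
    max_le_max le_rfl (by linarith)
  linarith

/-! ### heights -/

/-- product of the heights -/
def Ht (ps : List Pf) : ℝ := (ps.map fun p => 1 + |p.1.t|).prod

@[simp] lemma Ht_nil : Ht [] = 1 := rfl

@[simp] lemma Ht_cons (p : Pf) (ps : List Pf) : Ht (p :: ps) = (1 + |p.1.t|) * Ht ps := by
  unfold Ht; rw [List.map_cons, List.prod_cons]

lemma one_le_Ht (ps : List Pf) : 1 ≤ Ht ps := by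
  induction ps with
  | nil => simp
  | cons p ps ih =>
    rw [Ht_cons]
    have : 1 ≤ 1 + |p.1.t| := by linarith [abs_nonneg p.1.t]
    exact one_le_mul_of_one_le_of_one_le this ih

lemma cstF_nonneg (ps' ps : List Pf) : 0 ≤ cstF ps' ps := by
  unfold cstF
  induction ps' generalizing ps with
  | nil => simp
  | cons p' ps' ih =>
    cases ps with
    | nil => simp
    | cons p ps =>
      rw [List.zipWith_cons_cons, List.prod_cons]
      have := ih ps
      positivity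

lemma Ht_le_cst {R : Pf → Pf → Prop} {ps' ps : List Pf} (h : List.Forall₂ R ps' ps) :
    Ht ps' ≤ Ht ps * cstF ps' ps := by
  induction h with
  | nil => simp [cstF]
  | @cons p' p ps' ps _ _ ih =>
    have e : cstF (p' :: ps') (p :: ps) = (1 + |p'.1.t - p.1.t|) * cstF ps' ps := by
      unfold cstF; rw [List.zipWith_cons_cons, List.prod_cons]
    rw [Ht_cons, Ht_cons, e]
    have h1 : 1 + |p'.1.t| ≤ (1 + |p.1.t|) * (1 + |p'.1.t - p.1.t|) := by
      have h2 : |p'.1.t| ≤ |p.1.t| + |p'.1.t - p.1.t| := by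
        have := abs_add_le p.1.t (p'.1.t - p.1.t)
        rwa [add_sub_cancel] at this
      nlinarith [abs_nonneg p.1.t, abs_nonneg (p'.1.t - p.1.t)]
    have h3 : 0 ≤ Ht ps' := by linarith [one_le_Ht ps']
    calc (1 + |p'.1.t|) * Ht ps' ≤ ((1 + |p.1.t|) * (1 + |p'.1.t - p.1.t|)) *
          (Ht ps * cstF ps' ps) := mul_le_mul h1 ih h3 (by positivity)
      _ = _ := by ring

/-! ### derived lists -/

/-- `p'` is derived from `p`, slack `s` -/
def Sb (s : ℝ) (p' : Pf) (p : Pq) : Prop :=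
  p'.1.kd = p.kd ∧ p'.1.d = p.d ∧ (p.u = .one → p'.1.u = .one) ∧ 0 ≤ p'.1.z ∧ p'.1.z ≤ p.z + s

/-- the list `ps'` is derived from `ps₀` -/
def SbL (s : ℝ) (ps' : List Pf) (ps₀ : List Pq) : Prop := List.Forall₂ (Sb s) ps' ps₀

lemma SbL.mono {s s' : ℝ} (h : s ≤ s') {ps' : List Pf} {ps₀ : List Pq} (hs : SbL s ps' ps₀) :
    SbL s' ps' ps₀ :=
  List.Forall₂.imp (fun _ _ h1 => ⟨h1.1, h1.2.1, h1.2.2.1, h1.2.2.2.1, by linarith [h1.2.2.2.2]⟩) hs

lemma SbL.length {s : ℝ} {ps' : List Pf} {ps₀ : List Pq} (hs : SbL s ps' ps₀) :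
    ps'.length = ps₀.length := List.Forall₂.length_eq hs

lemma SbL.z_nonneg {s : ℝ} {ps' : List Pf} {ps₀ : List Pq} (hs : SbL s ps' ps₀) :
    ∀ p ∈ ps', 0 ≤ p.1.z := by
  unfold SbL at hs
  induction hs with
  | nil => simp
  | cons h _ ih =>
    intro p hp
    rcases List.mem_cons.1 hp with rfl | hp
    · exact h.2.2.2.1
    · exact ih p hp

lemma LF_cons (p : Pf) (ps : List Pf) : LF (p :: ps) = p.1.z + LF ps := by
  unfold LF; rw [List.map_cons, List.sum_cons]

lemma LF_nonneg {ps : List Pf} (h : ∀ p ∈ ps, 0 ≤ p.1.z) : 0 ≤ LF ps := by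
  unfold LF
  refine List.sum_nonneg fun x hx => ?_
  obtain ⟨p, hp, rfl⟩ := List.mem_map.1 hx
  exact h p hp

lemma z_le_LF {ps : List Pf} (h : ∀ p ∈ ps, 0 ≤ p.1.z) : ∀ p ∈ ps, p.1.z ≤ LF ps := by
  intro p hp
  unfold LF
  refine List.single_le_sum (fun x hx => ?_) _ (List.mem_map.2 ⟨p, hp, rfl⟩)
  obtain ⟨q, hq, rfl⟩ := List.mem_map.1 hx
  exact h q hq

/-- children of derived lists -/
lemma SbL.child {R : Pf → Pf → Prop} {r s : ℝ} (hR : ∀ p' p, R p' p → p'.1.kd = p.1.kd ∧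
    p'.1.d = p.1.d ∧ (p.1.u = .one → p'.1.u = .one) ∧ 0 ≤ p'.1.z ∧ p'.1.z ≤ p.1.z + r)
    {ps' ps : List Pf} {ps₀ : List Pq} (h : List.Forall₂ R ps' ps) (hs : SbL s ps ps₀) :
    SbL (s + r) ps' ps₀ := by
  unfold SbL at hs ⊢
  induction hs generalizing ps' with
  | nil =>
    cases h
    exact List.Forall₂.nil
  | cons h1 _ ih =>
    cases h with
    | cons h2 h3 =>
      refine List.Forall₂.cons ?_ (ih h3)
      obtain ⟨a1, a2, a3, a4, a5⟩ := hR _ _ h2
      obtain ⟨b1, b2, b3, b4, b5⟩ := h1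
      exact ⟨a1.trans b1, a2.trans b2, fun hu => a3 (b3 hu), a4, by linarith⟩

lemma SbL.childF {D0 r s : ℝ} {ps' ps : List Pf} {ps₀ : List Pq}
    (h : List.Forall₂ (ChF D0 r) ps' ps) (hs : SbL s ps ps₀) : SbL (s + r) ps' ps₀ :=
  hs.child (fun _ _ h => ⟨h.1, h.2.1, h.2.2.1, h.2.2.2.1, h.2.2.2.2.1⟩) h

lemma SbL.childG {r s : ℝ} {ps' ps : List Pf} {ps₀ : List Pq}
    (h : List.Forall₂ (ChG r) ps' ps) (hs : SbL s ps ps₀) : SbL (s + r) ps' ps₀ :=
  hs.child (fun _ _ h => ⟨h.1, h.2.1, h.2.2.1, h.2.2.2.1, h.2.2.2.2.1⟩) h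

/-- all flags true -/
def NT (ps : List Pf) : Prop := ∀ p ∈ ps, p.2 = true

/-- lengths of children -/
lemma LF_le_of_Ch {R : Pf → Pf → Prop} {r : ℝ} (hr : 0 ≤ r)
    (hR : ∀ p' p, R p' p → p'.1.z ≤ p.1.z + r) {ps' ps : List Pf}
    (h : List.Forall₂ R ps' ps) : LF ps' ≤ LF ps + ps.length * r := by
  induction h with
  | nil => simp [LF]
  | @cons p' p ps' ps h1 _ ih =>
    rw [LF_cons, LF_cons, List.length_cons]
    have := hR _ _ h1
    push_cast
    linarith

/-- a child with a natural piece is shorter -/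
lemma LF_le_of_not_NT {D0 r : ℝ} (hr : 0 ≤ r) {ps' ps : List Pf}
    (h : List.Forall₂ (ChF D0 r) ps' ps) (hn : ¬ NT ps') :
    LF ps' ≤ LF ps - Real.log D0 + ps.length * r := by
  induction h with
  | nil => exact absurd (fun p hp => by simp at hp) hn
  | @cons p' p ps' ps h1 h2 ih =>
    rw [LF_cons, LF_cons, List.length_cons]
    push_cast
    obtain ⟨_, _, _, _, h5, _, _, h8, _⟩ := h1
    by_cases hp : p'.2 = true
    · have hn' : ¬ NT ps' := by
        intro hcon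
        apply hn
        intro x hx
        rcases List.mem_cons.1 hx with rfl | hx
        · exact hp
        · exact hcon x hx
      have := ih hn'
      linarith
    · have h9 := h8 (by simpa using hp)
      have h10 := LF_le_of_Ch hr (fun p' p (h : ChF D0 r p' p) => h.2.2.2.2.1) h2
      linarith

/-! ### the claim -/

/-- data of the recursion: base list, exponent of the heights, `log K`, level, total length -/
structure Dat where
  P : DPar
  h : ℝ → ℝ
  z : ℝ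
  D0 : ℝ
  ps₀ : List Pq
  J : ℝ
  κ : ℝ
  v : ℝ
  n : ℝ

/-- **the claim** for the exponent function `E` (level, length): bound `B`, slack `s`, level
allowance `a`, `nm q * e^{length} ≤ Q`, lengths `≤ σ` -/
def ClX (E : ℝ → ℝ → ℝ) (D : Dat) (F : List Pf → Prop) (B s a Q σ : ℝ) : Prop :=
  ∀ (q : Eis) (ps : List Pf) (k : ℝ), IsPrim q → (nm q : ℝ) * Real.exp (LF ps) ≤ Q → F ps →
    SbL s ps D.ps₀ → LF ps ≤ σ → 0 ≤ k → k ≤ D.v + (D.n - LF ps) + a →
    SF D.z D.D0 q D.P D.h k ps ≤ B * Ht ps ^ D.J * Real.exp (E k (LF ps))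

/-- the claim with the flat exponent -/
abbrev Cl (D : Dat) (F : List Pf → Prop) (B s a Q σ : ℝ) : Prop := ClX (fl D.κ) D F B s a Q σ

lemma ClX.mono {E : ℝ → ℝ → ℝ} {D : Dat} {F : List Pf → Prop} {B s a Q σ B' s' a' Q' σ' : ℝ}
    (h : ClX E D F B s a Q σ) (hB : B ≤ B') (hs : s' ≤ s) (ha : a' ≤ a) (hQ : Q' ≤ Q)
    (hσ : σ' ≤ σ) : ClX E D F B' s' a' Q' σ' := by
  intro q ps k hq hqQ hF hps hL hk hk'
  refine (h q ps k hq (hqQ.trans hQ) hF (hps.mono hs) (hL.trans hσ) hk (by linarith)).trans ?_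
  have h1 := one_le_Ht ps
  have h2 : 0 ≤ Ht ps ^ D.J := Real.rpow_nonneg (by linarith) _
  gcongr

lemma ClX.weaken {E : ℝ → ℝ → ℝ} {D : Dat} {F F' : List Pf → Prop} {B s a Q σ : ℝ}
    (h : ClX E D F B s a Q σ) (hF : ∀ ps, F' ps → F ps) : ClX E D F' B s a Q σ :=
  fun q ps k hq hqQ hF' => h q ps k hq hqQ (hF ps hF')

/-- monotone in the exponent -/
lemma ClX.expo {E E' : ℝ → ℝ → ℝ} {D : Dat} {F : List Pf → Prop} {B s a Q σ : ℝ}
    (h : ClX E D F B s a Q σ) (hB : 0 ≤ B) (hE : ∀ k m, E k m ≤ E' k m) :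
    ClX E' D F B s a Q σ := by
  intro q ps k hq hqQ hF hps hL hk hk'
  refine (h q ps k hq hqQ hF hps hL hk hk').trans ?_
  have h1 := one_le_Ht ps
  have h2 : 0 ≤ Ht ps ^ D.J := Real.rpow_nonneg (by linarith) _
  have h3 := Real.exp_le_exp.2 (hE k (LF ps))
  exact mul_le_mul_of_nonneg_left h3 (mul_nonneg hB h2)

/-- moduli of children -/
lemma mod_child {Q q₀ r nq m m' : ℝ} (hnq : 0 ≤ nq) (h : nq * Real.exp m ≤ Q)
    (hm : m' ≤ m + r) (hr : Real.exp r ≤ q₀) : nq * Real.exp m' ≤ Q * q₀ := by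
  have h1 : Real.exp m' ≤ Real.exp m * Real.exp r := by
    rw [← Real.exp_add]; exact Real.exp_le_exp.2 hm
  have h2 : 0 ≤ nq * Real.exp m := mul_nonneg hnq (Real.exp_pos _).le
  calc nq * Real.exp m' ≤ nq * (Real.exp m * Real.exp r) := mul_le_mul_of_nonneg_left h1 hnq
    _ = nq * Real.exp m * Real.exp r := by ring
    _ ≤ Q * q₀ := mul_le_mul h hr (Real.exp_pos _).le (h2.trans h)

end Crest.Agent.R017.RG64
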