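import Crest.Agent.R017.RGa_64

/-!
# Row 17, C.REMg (RG), glue (helper64), part b: the induction

* `leg_step2` : the Legendre step with ranges of lengths
* `rec_j` : induction over the lengths, upwards from the terminal range
-/

set_option autoImplicit false

noncomputable section

open Complex
open scoped ComplexConjugate

namespace Crest.Agent.R017.RG64

open Crest.Agent.R012 Crest.Agent.R012.Eis Crest.Agent.R012.LS2 Crest.Agent.R012.Gauss880
open Crest.Agent.R017.CM106 Crest.Agent.R017.HP842 Crest.Agent.R017.FE47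
open Crest.Agent.R017.End699
open Crest.Agent.R017.B770
open Crest.Agent.R017.Prov71
open Crest.Agent.R017.Leg381

/-- lower bound of the lengths -/
lemma le_LF_of_Ch {R : Pf → Pf → Prop} {r : ℝ} (hr : 0 ≤ r)
    (hR : ∀ p' p, R p' p → p.1.z - r ≤ p'.1.z) {ps' ps : List Pf}
    (h : List.Forall₂ R ps' ps) : LF ps - ps.length * r ≤ LF ps' := by
  induction h with
  | nil => simp [LF]
  | @cons p' p ps' ps h1 _ ih =>
    rw [LF_cons, LF_cons, List.length_cons]
    have := hR _ _ h1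
    push_cast
    linarith

/-- lists of length `≥ lo` -/
def Ge (lo : ℝ) (ps : List Pf) : Prop := lo ≤ LF ps

/-- truncated lists of length `≥ lo` -/
def NTGe (lo : ℝ) (ps : List Pf) : Prop := NT ps ∧ lo ≤ LF ps

/-- **Legendre step with ranges.** -/
theorem leg_step2 {h : ℝ → ℝ} {c : ℝ} (hpu : PU h c) (N : ℕ) {ε : ℝ} (hε : 0 < ε) {J : ℝ}
    (hJ : 0 ≤ J) : ∃ C r : ℝ, 1 ≤ C ∧ 0 ≤ r ∧ ∀ X : ℝ, 3 ≤ X → ∀ D : Dat, D.P.OK → D.h = h →
    1 ≤ D.D0 → D.J = J → D.ps₀.length ≤ N → ∀ (B₀ B₁ s a Q q₀ σ e lo : ℝ), 0 ≤ B₀ → 0 ≤ B₁ →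
    Real.exp (N * r) ≤ q₀ → (∀ ps : List Pf, SbL s ps D.ps₀ → LF ps ≤ σ → lo ≤ LF ps →
      LF ps ≤ Real.log X ∧ D.v + (D.n - LF ps) + a ≤ Real.log X) →
    e + (N + 1) * r ≤ Real.log D.D0 →
    Cl D (NTGe lo) B₁ (s + r) (a + r) (Q * q₀) (σ + N * r) →
    Cl D (Ge lo) B₀ (s + r) (a + r) (Q * q₀) (σ - e) →
    Cl D (Ge (lo + N * (2 * Real.log D.D0 + r))) (C * X ^ ε * (B₀ + B₁)) s a Q σ := by
  obtain ⟨C, r, hC, hr, H⟩ := leg_list hpu N hε hJ
  refine ⟨C * Real.exp (2 * ((N + 1) * r)), (N + 1) * r, ?_, by positivity, ?_⟩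
  · have : 1 ≤ Real.exp (2 * ((N + 1) * r)) := Real.one_le_exp (by positivity)
    nlinarith
  intro X hX D hP hh hD0 hDJ hN B₀ B₁ s a Q q₀ σ e lo hB₀ hB₁ hq₀ hlog he h1 h0
  intro q ps k hq hqQ hlo hps hL hk hk'
  have hX1 : (1 : ℝ) ≤ X := by linarith
  have hN0 : (0 : ℝ) ≤ N := Nat.cast_nonneg _
  have hlD : 0 ≤ Real.log D.D0 := Real.log_nonneg hD0
  set r' : ℝ := (N + 1) * r with hr'
  have hr'0 : 0 ≤ r' := by positivity
  have hrr' : r ≤ r' := by rw [hr']; nlinarith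
  have hNr : (N : ℝ) * r ≤ r' := by rw [hr']; nlinarith
  have hlen : ps.length ≤ N := hps.length ▸ hN
  have hlen' : (ps.length : ℝ) ≤ N := by exact_mod_cast hlen
  have hlenr : (ps.length : ℝ) * r ≤ r' :=
    (mul_le_mul_of_nonneg_right (by exact_mod_cast hlen) hr).trans hNr
  have hlo' : lo + N * (2 * Real.log D.D0 + r') ≤ LF ps := hlo
  have hlo0 : lo ≤ LF ps := by
    have : 0 ≤ N * (2 * Real.log D.D0 + r') := by positivity
    linarith
  obtain ⟨hl1, hl2⟩ := hlog ps hps hL hlo0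
  have hz := hps.z_nonneg
  have hHt := one_le_Ht ps
  have key := H X hX D.P hP D.z D.D0 q hD0 k ps hk (hk'.trans hl2) hlen
    (fun p hp => ⟨hz p hp, (z_le_LF hz p hp).trans hl1⟩)
    ((B₀ + B₁) * Ht ps ^ J * Real.exp (fl D.κ k (LF ps) + 2 * r')) (by positivity) ?_
  · rw [← hh] at key
    refine key.trans (le_of_eq ?_)
    rw [Real.exp_add, hDJ]
    ring
  · intro l ps' hl hch hll
    have hps' := hps.childF hch
    have hps'2 : SbL (s + r') ps' D.ps₀ := hps'.mono (by linarith)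
    have hLF1 : LF ps' ≤ LF ps + ps.length * r :=
      LF_le_of_Ch hr (fun p' p (h : ChF D.D0 r p' p) => h.2.2.2.2.1) hch
    have hLF2 : LF ps - ps.length * (2 * Real.log D.D0 + r) ≤ LF ps' :=
      le_LF_of_Ch (by positivity) (fun p' p (h : ChF D.D0 r p' p) => by
        have := h.2.2.2.2.2.2.2.2
        linarith) hch
    have hlo2 : lo ≤ LF ps' := by
      have : (ps.length : ℝ) * (2 * Real.log D.D0 + r) ≤ N * (2 * Real.log D.D0 + r') := by
        gcongr
      linarith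
    have hz' := hps'.z_nonneg
    have hlk : l ≤ D.v + (D.n - LF ps') + (a + r') := by
      have := (abs_le.1 hll).2
      linarith
    have hcst := cstF_nonneg ps' ps
    have hfl : fl D.κ l (LF ps') ≤ fl D.κ k (LF ps) - (LF ps - LF ps') + 2 * r' :=
      fl_step (hll.trans hrr') (by linarith) hr'0
    have hHt' : Ht ps' ^ D.J ≤ Ht ps ^ J * cstF ps' ps ^ J := by
      rw [hDJ, ← Real.mul_rpow (by linarith) hcst]
      exact Real.rpow_le_rpow (by linarith [one_le_Ht ps']) (Ht_le_cst hch) hJ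
    have hqQ' : (nm q : ℝ) * Real.exp (LF ps') ≤ Q * q₀ :=
      mod_child (Nat.cast_nonneg _) hqQ (r := N * r') (by
        have : (N : ℝ) * r ≤ N * r' := mul_le_mul_of_nonneg_left hrr' hN0
        have h3 : (ps.length : ℝ) * r ≤ N * r := mul_le_mul_of_nonneg_right hlen' hr
        linarith) hq₀
    have hb : SF D.z D.D0 q D.P D.h l ps' ≤
        (B₀ + B₁) * Ht ps' ^ D.J * Real.exp (fl D.κ l (LF ps')) := by
      have hH0 : 0 ≤ Ht ps' ^ D.J * Real.exp (fl D.κ l (LF ps')) :=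
        mul_nonneg (Real.rpow_nonneg (by linarith [one_le_Ht ps']) _) (Real.exp_pos _).le
      by_cases hnt : NT ps'
      · have h2 := h1 q ps' l hq hqQ' ⟨hnt, hlo2⟩ hps'2 (by
          have : (N : ℝ) * r ≤ N * r' := mul_le_mul_of_nonneg_left hrr' hN0
          have h3 : (ps.length : ℝ) * r ≤ N * r := mul_le_mul_of_nonneg_right
            (by exact_mod_cast hlen) hr
          linarith) hl hlk
        refine h2.trans ?_
        rw [mul_assoc, mul_assoc]
        exact mul_le_mul_of_nonneg_right (by linarith) hH0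
      · have h3 := LF_le_of_not_NT hr hch hnt
        have h2 := h0 q ps' l hq hqQ' hlo2 hps'2 (by
          have : r' ≤ (N + 1) * r' := by nlinarith
          linarith) hl hlk
        refine h2.trans ?_
        rw [mul_assoc, mul_assoc]
        exact mul_le_mul_of_nonneg_right (by linarith) hH0
    rw [hh] at hb
    refine hb.trans ?_
    have hE : Real.exp (fl D.κ l (LF ps')) ≤ Real.exp (fl D.κ k (LF ps) + 2 * r') *
        Real.exp (LF ps' - LF ps) := by
      rw [← Real.exp_add]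
      exact Real.exp_le_exp.2 (by linarith)
    calc (B₀ + B₁) * Ht ps' ^ D.J * Real.exp (fl D.κ l (LF ps'))
        ≤ (B₀ + B₁) * (Ht ps ^ J * cstF ps' ps ^ J) *
          (Real.exp (fl D.κ k (LF ps) + 2 * r') * Real.exp (LF ps' - LF ps)) := by
          gcongr
      _ = _ := by ring

/-- union of two claims -/
lemma ClX.union {E : ℝ → ℝ → ℝ} {D : Dat} {F F₁ F₂ : List Pf → Prop} {B s a Q σ σ₁ : ℝ}
    (h1 : ClX E D F₁ B s a Q σ₁) (h2 : ClX E D F₂ B s a Q σ)
    (hF : ∀ ps, F ps → (F₁ ps ∧ LF ps ≤ σ₁) ∨ F₂ ps) : ClX E D F B s a Q σ := by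
  intro q ps k hq hqQ hFp hps hL hk hk'
  rcases hF ps hFp with h | h
  · exact h1 q ps k hq hqQ h.1 hps h.2 hk hk'
  · exact h2 q ps k hq hqQ h hps hL hk hk'

/-- **Induction over the lengths.** `σ₀ = ` upper end of the terminal range, `lo` = lower end;
`G` = the bound of the new contribution, `C₂` = the constant of the shorter lists. -/
theorem rec_j {D : Dat} {N : ℕ} {C₁ C₂ G B₀ r e α q₀ lo σ₀ : ℝ}
    (hC₁ : 1 ≤ C₁) (hC₂ : 0 ≤ C₂) (hG : 0 ≤ G) (hB₀ : 0 ≤ B₀) (hr : 0 ≤ r)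
    (hα : r ≤ α) (hq₀ : 1 ≤ q₀) (he : 0 ≤ e)
    -- upper bounds of the slacks
    {s a Q : ℝ} (hQ : 0 ≤ Q) (m : ℕ)
    -- terminal range
    (hT : Cl D (Ge lo) B₀ (s + m * (2 * r)) (a + m * (2 * α)) (Q * (q₀ ^ 2) ^ m) σ₀)
    (hlo : lo + N * (2 * Real.log D.D0 + r) ≤ σ₀)
    -- the Legendre step
    (hleg : ∀ B B' s' a' Q' σ' : ℝ, 0 ≤ B → 0 ≤ B' → s ≤ s' → s' ≤ s + m * (2 * r) →
      a ≤ a' → a' ≤ a + m * (2 * α) → σ' ≤ σ₀ + m * e →
      Cl D (NTGe lo) B' (s' + r) (a' + r) (Q' * q₀) (σ' + N * r) →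
      Cl D (Ge lo) B (s' + r) (a' + r) (Q' * q₀) (σ' - e) →
      Cl D (Ge (lo + N * (2 * Real.log D.D0 + r))) (C₁ * (B + B')) s' a' Q' σ')
    -- the truncated lists
    (hNT : ∀ B s' a' Q' σ' : ℝ, 0 ≤ B → s ≤ s' → s' + r ≤ s + m * (2 * r) → a ≤ a' →
      a' + α ≤ a + m * (2 * α) → 0 ≤ Q' → Q' * q₀ ≤ Q * (q₀ ^ 2) ^ m →
      σ' ≤ σ₀ + m * e + N * r →
      Cl D (Ge lo) B (s' + r) (a' + α) (Q' * q₀) (σ' - e - N * r) →
      Cl D (NTGe σ₀) (G + C₂ * B) s' a' Q' σ') :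
    Cl D (Ge lo) ((C₁ * (2 + C₂)) ^ m * (G + B₀)) s a Q (σ₀ + m * e) := by
  have hα0 : 0 ≤ α := hr.trans hα
  have hC3 : 1 ≤ C₁ * (2 + C₂) := by nlinarith
  have hq2 : 1 ≤ q₀ ^ 2 := one_le_pow₀ hq₀
  have hq00 : 0 ≤ q₀ := by linarith
  have key : ∀ j : ℕ, j ≤ m → Cl D (Ge lo) ((C₁ * (2 + C₂)) ^ j * (G + B₀))
      (s + (m - j : ℕ) * (2 * r)) (a + (m - j : ℕ) * (2 * α)) (Q * (q₀ ^ 2) ^ (m - j))
      (σ₀ + j * e) := by
    intro j
    induction j with
    | zero =>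
      intro _
      simp only [pow_zero, one_mul, Nat.sub_zero, CharP.cast_eq_zero, zero_mul, add_zero]
      exact hT.mono (by linarith) le_rfl le_rfl le_rfl le_rfl
    | succ j ih =>
      intro hj
      have hj' : j ≤ m := by omega
      have IH := ih hj'
      set i := m - (j + 1) with hi
      have hij : m - j = i + 1 := by omega
      rw [hij] at IH
      set B : ℝ := (C₁ * (2 + C₂)) ^ j * (G + B₀) with hB
      have hpj : 1 ≤ (C₁ * (2 + C₂)) ^ j := one_le_pow₀ hC3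
      have hB0 : 0 ≤ B := by positivity
      have hBB : B₀ ≤ B := by rw [hB]; nlinarith
      have hBG : G ≤ B := by rw [hB]; nlinarith
      have hi0 : (0 : ℝ) ≤ (i : ℝ) := Nat.cast_nonneg _
      have him : ((i : ℝ) + 1) ≤ m := by
        have : i + 1 ≤ m := by omega
        exact_mod_cast this
      have hjm : ((j : ℝ) + 1) ≤ m := by exact_mod_cast hj
      push_cast at IH
      have hQi : 0 ≤ Q * (q₀ ^ 2) ^ i := by positivity
      have hQi1 : 0 ≤ Q * (q₀ ^ 2) ^ i * q₀ := by positivity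
      have hqi : (q₀ ^ 2) ^ (i + 1) ≤ (q₀ ^ 2) ^ m := pow_le_pow_right₀ hq2 (by omega)
      have hQQ1 : Q * (q₀ ^ 2) ^ (i + 1) ≤ Q * (q₀ ^ 2) ^ m := mul_le_mul_of_nonneg_left hqi hQ
      have hQe : Q * (q₀ ^ 2) ^ (i + 1) = Q * (q₀ ^ 2) ^ i * q₀ * q₀ := by rw [pow_succ]; ring
      have hQa : Q * (q₀ ^ 2) ^ i * q₀ ≤ Q * (q₀ ^ 2) ^ i * q₀ * q₀ :=
        le_mul_of_one_le_right hQi1 hq₀
      have hQb : Q * (q₀ ^ 2) ^ i ≤ Q * (q₀ ^ 2) ^ i * q₀ := le_mul_of_one_le_right hQi hq₀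
      have a1 : (i : ℝ) * (2 * r) + 2 * r ≤ m * (2 * r) := by nlinarith
      have a2 : (i : ℝ) * (2 * α) + 2 * α ≤ m * (2 * α) := by nlinarith
      have a3 : ((j : ℝ) + 1) * e ≤ m * e := mul_le_mul_of_nonneg_right hjm he
      have a4 : 0 ≤ (i : ℝ) * (2 * r) := by positivity
      have a5 : 0 ≤ (i : ℝ) * (2 * α) := by positivity
      -- the truncated lists
      have n1 := hNT B (s + i * (2 * r) + r) (a + i * (2 * α) + r) (Q * (q₀ ^ 2) ^ i * q₀)
        (σ₀ + (j + 1 : ℕ) * e + N * r) hB0 (by linarith) (by linarith) (by linarith)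
        (by linarith) hQi1 (by linarith) (by push_cast; linarith) (by
          refine IH.mono le_rfl (by linarith) (by linarith) (le_of_eq hQe.symm) (by
            push_cast; linarith))
      have n2 : Cl D (NTGe lo) ((1 + C₂) * B) (s + i * (2 * r) + r) (a + i * (2 * α) + r)
          (Q * (q₀ ^ 2) ^ i * q₀) (σ₀ + (j + 1 : ℕ) * e + N * r) := by
        have t1 := hT.mono (B' := (1 + C₂) * B) (s' := s + i * (2 * r) + r)
          (a' := a + i * (2 * α) + r) (Q' := Q * (q₀ ^ 2) ^ i * q₀) (by nlinarith) (by linarith)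
          (by linarith) (by linarith) le_rfl
        have t2 := n1.mono (B' := (1 + C₂) * B) (by linarith) le_rfl le_rfl le_rfl le_rfl
        refine t1.union t2 fun ps hps => ?_
        rcases le_total (LF ps) σ₀ with h | h
        · exact Or.inl ⟨hps.2, h⟩
        · exact Or.inr ⟨hps.1, h⟩
      have n3 := hleg B ((1 + C₂) * B) (s + i * (2 * r)) (a + i * (2 * α)) (Q * (q₀ ^ 2) ^ i)
        (σ₀ + (j + 1 : ℕ) * e) hB0 (by positivity) (by linarith) (by linarith) (by linarith)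
        (by linarith) (by push_cast; linarith) n2
        (IH.mono le_rfl (by linarith) (by linarith) (by linarith) (by
            push_cast; linarith))
      have e1 : C₁ * (B + (1 + C₂) * B) = (C₁ * (2 + C₂)) ^ (j + 1) * (G + B₀) := by
        rw [hB, pow_succ]; ring
      rw [e1] at n3
      have t1 := hT.mono (B' := (C₁ * (2 + C₂)) ^ (j + 1) * (G + B₀)) (s' := s + i * (2 * r))
          (a' := a + i * (2 * α)) (Q' := Q * (q₀ ^ 2) ^ i) (by
            rw [← e1]; nlinarith [mul_nonneg hC₂ hB0]) (by linarith)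
          (by linarith) (by linarith) le_rfl
      refine t1.union n3 fun ps hps => ?_
      rcases le_total (LF ps) σ₀ with h | h
      · exact Or.inl ⟨hps, h⟩
      · exact Or.inr (hlo.trans h)
  have := key m le_rfl
  simpa using this

/-- lengths of derived lists -/
lemma SbL.LF_le {s : ℝ} (hs0 : 0 ≤ s) {ps : List Pf} {ps₀ : List Pq} (hs : SbL s ps ps₀) {N : ℕ}
    (hN : ps₀.length ≤ N) : LF ps ≤ LF (natl ps₀) + N * s := by
  have h1 : LF ps ≤ LF (natl ps₀) + ps₀.length * s := by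
    clear hN
    unfold SbL at hs
    induction hs with
    | nil => simp [natl, LF]
    | @cons p' p ps' ps h _ ih =>
      have e : natl (p :: ps) = (p, false) :: natl ps := rfl
      rw [LF_cons, e, LF_cons, List.length_cons]
      have := h.2.2.2.2
      push_cast
      show p'.1.z + LF ps' ≤ p.z + LF (natl ps) + (ps.length + 1) * s
      linarith
  have h2 : (ps₀.length : ℝ) * s ≤ N * s :=
    mul_le_mul_of_nonneg_right (by exact_mod_cast hN) hs0
  linarith

/-- the upper bound of the lengths is irrelevant at the top -/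
lemma ClX.ext {E : ℝ → ℝ → ℝ} {D : Dat} {F : List Pf → Prop} {B s a Q σ : ℝ}
    (h : ClX E D F B s a Q σ) (hs0 : 0 ≤ s)
    {N : ℕ} (hN : D.ps₀.length ≤ N) (htop : LF (natl D.ps₀) + N * s ≤ σ) (σ' : ℝ) :
    ClX E D F B s a Q σ' :=
  fun q ps k hq hqQ hF hps _ hk hk' =>
    h q ps k hq hqQ hF hps ((hps.LF_le hs0 hN).trans htop) hk hk'

end Crest.Agent.R017.RG64
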