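import Crest.Agent.R017.RGf_64
import Crest.Agent.R017.XCub_71

/-!
# Row 17, C.REMg (RG), glue (helper64), part g: the modulus of the natural lists

* `SF_nat_q` : `SF z D0 q P h l ps = S0p P h l (ps with d := d * q)` for natural flags
-/

set_option autoImplicit false

noncomputable section

open Complex
open scoped ComplexConjugate

namespace Crest.Agent.R017.RG64

open Crest.Agent.R012 Crest.Agent.R012.Eis Crest.Agent.R012.LS2 Crest.Agent.R012.Gauss880
open Crest.Agent.R012.Div277 (dvs mem_dvs isPrim_of_mem_dvs dvs_zero)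
open Crest.Agent.R017.CM106 Crest.Agent.R017.HP842 Crest.Agent.R017.FE47
open Crest.Agent.R017.End699 hiding pw
open Crest.Agent.R017.B770
open Crest.Agent.R017.TP320 (conv)
open Crest.Agent.R017.Prov71
open Crest.Agent.R017.Rough381 (VF VF_nonneg)
open Crest.Agent.R017.Leg381

/-- the modulus `q` merged into the piece -/
def mq (q : Eis) (hq : q ≠ 0) (p : Pq) : Pq := { p with d := p.d * q, d0 := mul_ne_zero p.d0 hq }

/-- the list of the pieces with the modulus `q` merged -/
def mql (q : Eis) (hq : q ≠ 0) (ps : List Pf) : List Pq := ps.map fun p => mq q hq p.1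

lemma prin0_mul' (x y b : Eis) : prin0 (x * y) b = prin0 x b * prin0 y b := by
  classical
  unfold prin0
  by_cases hx : IsCoprime b x
  · by_cases hy : IsCoprime b y
    · rw [if_pos hx, if_pos hy, if_pos (hx.mul_right hy), mul_one]
    · rw [if_neg hy, if_neg (fun h => hy h.of_mul_right_right), mul_zero]
  · rw [if_neg hx, if_neg (fun h => hx h.of_mul_right_left), zero_mul]

lemma prin0_mul_right' (x a b : Eis) : prin0 x (a * b) = prin0 x a * prin0 x b := by
  classical
  unfold prin0
  by_cases hx : IsCoprime a x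
  · by_cases hy : IsCoprime b x
    · rw [if_pos hx, if_pos hy, if_pos (hx.mul_left hy), mul_one]
    · rw [if_neg hy, if_neg (fun h => hy h.of_mul_left_right), mul_zero]
  · rw [if_neg hx, if_neg (fun h => hx h.of_mul_left_left), zero_mul]

lemma pc_mq (h : ℝ → ℝ) (P : DPar) {q : Eis} (hq : q ≠ 0) (p : Pq) (n : Eis) :
    pc h ((mq q hq p).pc P) n = pc h (p.pc P) n * prin0 q n := by
  unfold pc
  by_cases hn : IsPrim n
  · rw [if_pos hn, if_pos hn]
    simp only [Pq.pc_u, Pq.pc_Y, Pq.pc_t, Pq.pc_ψ, mq]
    rw [prin0_mul']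
    ring
  · rw [if_neg hn, if_neg hn, zero_mul]

lemma conv_cop (f g : Eis → ℂ) (q n : Eis) :
    conv (fun n => f n * prin0 q n) (fun n => g n * prin0 q n) n = conv f g n * prin0 q n := by
  unfold conv
  by_cases hn : n = 0
  · subst hn; rw [dvs_zero, Finset.sum_empty, Finset.sum_empty, zero_mul]
  rw [Finset.sum_mul]
  refine Finset.sum_congr rfl fun d hd => ?_
  have h1 := TP320.mul_div_of_mem hd
  have h2 : prin0 q n = prin0 q d * prin0 q (n / d) := by
    conv_lhs => rw [← h1]
    exact prin0_mul_right' q d (n / d)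
  rw [h2]
  ring

lemma alL_mql (h : ℝ → ℝ) (P : DPar) {q : Eis} (hq : q ≠ 0) (ps : List Pf) (n : Eis) :
    alL h ((mql q hq ps).map (Pq.pc P)) n =
      alL h ((ps.map Prod.fst).map (Pq.pc P)) n * prin0 q n := by
  classical
  induction ps generalizing n with
  | nil =>
    show dl n = dl n * prin0 q n
    unfold dl
    split_ifs with h1
    · rw [h1]
      unfold prin0
      rw [if_pos isCoprime_one_left, mul_one]
    · simp
  | cons p ps ih =>
    have e1 : alL h ((mql q hq (p :: ps)).map (Pq.pc P)) =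
        conv (pc h ((mq q hq p.1).pc P)) (alL h ((mql q hq ps).map (Pq.pc P))) := rfl
    have e2 : alL h (((p :: ps).map Prod.fst).map (Pq.pc P)) =
        conv (pc h (p.1.pc P)) (alL h ((ps.map Prod.fst).map (Pq.pc P))) := rfl
    have e3 : alL h ((mql q hq ps).map (Pq.pc P)) =
        fun n => alL h ((ps.map Prod.fst).map (Pq.pc P)) n * prin0 q n := funext fun n => ih n
    have e4 : pc h ((mq q hq p.1).pc P) = fun n => pc h (p.1.pc P) n * prin0 q n :=
      funext fun n => pc_mq h P hq p.1 n
    rw [e1, e2, e3, e4, conv_cop]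

lemma natl_of_false {ps : List Pf} (h : ∀ p ∈ ps, p.2 = false) : ps = natl (ps.map Prod.fst) := by
  unfold natl
  rw [List.map_map]
  conv_lhs => rw [← List.map_id ps]
  refine List.map_congr_left fun p hp => ?_
  show p = (p.1, false)
  rw [← h p hp]

/-- **the modulus merged into the pieces** -/
theorem SF_nat_q (z D0 : ℝ) {q : Eis} (hq : q ≠ 0) (P : DPar) (h : ℝ → ℝ) (l : ℝ)
    {ps : List Pf} (hf : ∀ p ∈ ps, p.2 = false) :
    SF z D0 q P h l ps = S0p P h l (mql q hq ps) := by
  classical
  have e1 : alF z D0 P h ps = alL h ((ps.map Prod.fst).map (Pq.pc P)) := by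
    conv_lhs => rw [natl_of_false hf]
    exact alF_natl z D0 P h _
  have e2 : sqc q (alF z D0 P h ps) = sqc 1 (alL h ((mql q hq ps).map (Pq.pc P))) := by
    funext n
    show Th q n * alF z D0 P h ps n = Th 1 n * alL h ((mql q hq ps).map (Pq.pc P)) n
    rw [e1, alL_mql]
    unfold Th prin0
    by_cases hs : Squarefree n
    · by_cases hc : IsCoprime n q
      · rw [if_pos ⟨hs, hc⟩, if_pos ⟨hs, isCoprime_one_right⟩, if_pos hc, one_mul, one_mul, mul_one]
      · rw [if_neg (fun h => hc h.2), if_neg hc, mul_zero, mul_zero, zero_mul]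
    · rw [if_neg (fun h => hs h.1), if_neg (fun h => hs h.1), zero_mul, zero_mul]
  unfold SF S0p VF
  rw [e2]
  rfl

end Crest.Agent.R017.RG64
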