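import Crest.Agent.R017.RGj_64

/-!
# Row 17, C.REMg (RG), glue (helper64), part k: the lower bound for the lists

* `lb_list` : (LB) for the flagged lists from the claims and the R-side hypotheses
-/

set_option autoImplicit false

noncomputable section

open Complex
open scoped ComplexConjugate

namespace Crest.Agent.R017.RG64

open Crest.Agent.R012 Crest.Agent.R012.Eis Crest.Agent.R012.LS2 Crest.Agent.R012.Gauss880
open Crest.Agent.R012.MC (Wgt)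
open Crest.Agent.R012.Weight600 (osc)
open Crest.Agent.R017.CM106 Crest.Agent.R017.HP842 Crest.Agent.R017.FE47
open Crest.Agent.R017.End699 hiding pw
open Crest.Agent.R017.B770
open Crest.Agent.R017.Prov71
open Crest.Agent.R017.Rough381 (VF)
open Crest.Agent.R017.Leg381
open Crest.Agent.R017.E1551 (sg tws JB yv Dg cP XJw SqP)
open Crest.Agent.R017.C70 (JW)
open Crest.Agent.R017.Win813
open Crest.Agent.R017.RGw813
open Crest.Agent.R017.LBo813 (rho norm_list_le)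

/-- monotone in the error -/
lemma LBn.mono {w : ℝ → ℝ} {Cw η : ℝ} {Aw : ℕ} {K X Y D : ℝ} {N₁ : ℕ} {ρ : ℕ → ℝ} {R : ℝ} {J : ℕ}
    {α : Eis → ℂ} {E E' : ℝ} (h : LBn w Cw η Aw K X Y D N₁ ρ R J α E) (hK : 0 ≤ K) (hX : 0 ≤ X)
    (hE : E ≤ E') : LBn w Cw η Aw K X Y D N₁ ρ R J α E' := by
  intro p hp t X' φ hX' hXX hφ hs
  refine (h p hp t X' φ hX' hXX hφ hs).trans ?_
  have h1 : 0 ≤ K / X := div_nonneg hK hX
  have h2 : 0 ≤ (1 + |t|) ^ J := pow_nonneg (by linarith [abs_nonneg t]) _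
  exact mul_le_mul_of_nonneg_left (mul_le_mul_of_nonneg_right hE h2) h1

lemma hpw_two (x : ℝ) : Real.exp x ^ 2 = Real.exp (2 * x) := by
  rw [show (2 : ℝ) * x = ((2 : ℕ) : ℝ) * x by norm_num, Real.exp_nat_mul]

lemma rpow_half_exp (x : ℝ) : Real.exp x ^ (-(1 / 2) : ℝ) = Real.exp (-(x / 2)) := by
  rw [← Real.exp_mul]
  congr 1
  ring

/-- the constants -/
lemma lb_const {C₁ C₂ C₃ X ε Bf Bl G F f Rn H E2 : ℝ} (hC₁ : 0 ≤ C₁) (hC₂ : 1 ≤ C₂) (hC₃ : 1 ≤ C₃)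
    (hX : 1 ≤ X) (hε : 0 < ε) (hBf : 0 ≤ Bf) (hBl : 0 ≤ Bl) (hG : 0 ≤ G) (hF0 : 0 ≤ F)
    (hF : F ≤ 4 * f) (hRn : 0 ≤ Rn) (hH : 1 ≤ H) (hE2 : 0 ≤ E2) :
    C₁ * X ^ (4 * ε) * (E2 + F * (C₂ * X ^ ε * Bf * H * E2 + C₃ * X ^ ε * Bl * H * G * E2) +
      Rn * H * E2) ≤
    (4 * C₁ * C₂ * C₃ * X ^ (5 * ε) * (1 + f * (Bf + Bl * G) + Rn)) * H * E2 := by
  have hX0 : 0 < X := by linarith
  have hXε : 1 ≤ X ^ ε := Real.one_le_rpow hX hε.le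
  have hf : 0 ≤ f := by linarith
  have e5 : X ^ (5 * ε) = X ^ (4 * ε) * X ^ ε := by
    rw [← Real.rpow_add hX0]; congr 1; ring
  have h23 : 1 ≤ C₂ * C₃ := one_le_mul_of_one_le_of_one_le hC₂ hC₃
  have k1 : E2 ≤ (4 * C₂ * C₃ * X ^ ε) * H * E2 := by
    have : 1 ≤ (4 * C₂ * C₃ * X ^ ε) * H := by
      have h1 : 1 ≤ C₂ * C₃ * X ^ ε := one_le_mul_of_one_le_of_one_le h23 hXε
      have h2 : 1 ≤ C₂ * C₃ * X ^ ε * H := one_le_mul_of_one_le_of_one_le h1 hH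
      nlinarith
    calc E2 = 1 * E2 := (one_mul _).symm
      _ ≤ _ := mul_le_mul_of_nonneg_right this hE2
  have k2 : F * (C₂ * X ^ ε * Bf * H * E2 + C₃ * X ^ ε * Bl * H * G * E2) ≤
      (4 * C₂ * C₃ * X ^ ε) * (f * (Bf + Bl * G)) * H * E2 := by
    have h1 : C₂ * X ^ ε * Bf * H * E2 ≤ C₂ * C₃ * X ^ ε * Bf * H * E2 := by
      have : C₂ ≤ C₂ * C₃ := le_mul_of_one_le_right (by linarith) hC₃
      gcongr
    have h2 : C₃ * X ^ ε * Bl * H * G * E2 ≤ C₂ * C₃ * X ^ ε * (Bl * G) * H * E2 := by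
      have : C₃ ≤ C₂ * C₃ := le_mul_of_one_le_left (by linarith) hC₂
      calc C₃ * X ^ ε * Bl * H * G * E2 = C₃ * X ^ ε * (Bl * G) * H * E2 := by ring
        _ ≤ _ := by gcongr
    calc F * (C₂ * X ^ ε * Bf * H * E2 + C₃ * X ^ ε * Bl * H * G * E2) ≤
        (4 * f) * (C₂ * C₃ * X ^ ε * Bf * H * E2 + C₂ * C₃ * X ^ ε * (Bl * G) * H * E2) := by
          gcongr
      _ = _ := by ring
  have k3 : Rn * H * E2 ≤ (4 * C₂ * C₃ * X ^ ε) * Rn * H * E2 := by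
    have : 1 ≤ 4 * C₂ * C₃ * X ^ ε := by
      have h1 : 1 ≤ C₂ * C₃ * X ^ ε := one_le_mul_of_one_le_of_one_le h23 hXε
      nlinarith
    calc Rn * H * E2 = 1 * (Rn * H * E2) := (one_mul _).symm
      _ ≤ (4 * C₂ * C₃ * X ^ ε) * (Rn * H * E2) := mul_le_mul_of_nonneg_right this (by positivity)
      _ = _ := by ring
  calc C₁ * X ^ (4 * ε) * (E2 + F * (C₂ * X ^ ε * Bf * H * E2 + C₃ * X ^ ε * Bl * H * G * E2) +
      Rn * H * E2) ≤ C₁ * X ^ (4 * ε) * ((4 * C₂ * C₃ * X ^ ε) * H * E2 +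
        (4 * C₂ * C₃ * X ^ ε) * (f * (Bf + Bl * G)) * H * E2 +
        (4 * C₂ * C₃ * X ^ ε) * Rn * H * E2) := by gcongr
    _ = _ := by rw [e5]; ring

set_option maxHeartbeats 1600000 in
/-- **(LB) for the flagged lists** (v2): `c₁` the cutoff `E0` of the gain, `cd` the divisors of the
windows, `cg` the boundary between (SA0) and (L+), `cc` the constant of the claims (J) -/
theorem lb_list {h : ℝ → ℝ} {c : ℝ} (hpu : PU h c) (N : ℕ) {w : ℝ → ℝ} {Λ : ℝ} (hΛ : 1 ≤ Λ)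
    {Rh : LBp → (Eis → ℂ) → ℝ → Prop} (hLB : LBN w Λ Rh) {R Ca Cw η₀ ε e₀ J : ℝ} {Jn Aw : ℕ}
    (hR : 0 ≤ R) (hAL : ALp h N R Ca) (hCw : 0 ≤ Cw) (hη₀ : 0 < η₀) (hη₀1 : η₀ ≤ 1) (hε : 0 < ε)
    (he₀ : 0 < e₀) (hJ : 0 ≤ J) (hJn : (N : ℝ) * J ≤ Jn) (hAw : Jn + 2 ≤ Aw) :
    ∃ C r X₁ : ℝ, 0 ≤ C ∧ 0 ≤ r ∧ ∀ X : ℝ, 3 ≤ X → X₁ ≤ X → ∀ D : Dat, D.P.OK → D.h = h →
    1 ≤ D.D0 → D.J = J → D.ps₀.length ≤ N → 0 ≤ D.κ → D.κ ≤ Real.log X →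
    ∀ Bf Bl s a Q q₀ c₁ cd cg cc x₁ lo lo' σ'' : ℝ, 0 ≤ Bf → 0 ≤ Bl → Real.exp r ≤ q₀ → 0 ≤ a →
    lo' ≤ 0 → 0 ≤ x₁ → 0 ≤ c₁ → e₀ * Real.log X ≤ c₁ → 60 * c₁ ≤ D.κ →
    0 ≤ cd → cd ≤ Real.log X →
    ClX (ex0 D.κ) D (Ge lo) Bf (s + r) (a + r) (Q * q₀) σ'' →
    ClN D (exJ D.κ D.v D.n cc) Bl (s + r) (a + r) (Q * q₀) lo' (D.n - cc + x₁) →
    ∀ (q : Eis) (ps : List Pf), IsPrim q → (nm q : ℝ) * Real.exp (LF ps) ≤ Q →
    SbL s ps D.ps₀ → R + LF ps ≤ Real.log X → D.n - cc ≤ LF ps → LF ps + r ≤ σ'' →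
    lo + cg + N * Real.log D.D0 + r ≤ LF ps → LF ps - cg + r ≤ D.n - cc + x₁ →
    ∀ (N₀ N₁ : ℕ) (Lv : ℝ), 1 ≤ N₀ → N₀ ≤ N₁ → Real.exp Lv ≤ N₀ → 9 * (N₁ : ℝ) ≤ Real.exp (Lv + 4) →
    Lv + 4 + Real.log Λ ≤ Real.log X → Lv + 4 + Real.log Λ + cg ≤ Real.log X →
    Lv + 4 + Real.log Λ ≤ D.v + (D.n - LF ps) + a →
    Lv + 4 + 30 * c₁ ≤ 2 * D.κ →
    ∀ Rn : ℝ, 0 ≤ Rn →
    Rh ⟨Cw, η₀, Aw, Real.exp D.κ, Real.exp (LF ps), X, R, Jn, N₀, N₁, Real.exp c₁, Real.exp cd,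
      Real.exp cg⟩ (sqc q (alF D.z D.D0 D.P D.h ps)) (Rn * Ht ps ^ J * Real.exp (2 * LF ps)) →
    LBn w Cw η₀ Aw (Real.exp D.κ) (Real.exp (LF ps)) X (Real.exp cd) N₁ (rho N₀ N₁) R Jn
      (sqc q (alF D.z D.D0 D.P D.h ps))
      ((C * X ^ (5 * ε) * (1 + Real.exp (-(c₁ / 2)) * (Bf + Bl * Real.exp (N * Real.log D.D0 + a))
        + Rn)) * Ht ps ^ J * Real.exp (2 * LF ps)) := by
  obtain ⟨C₁, hC₁, hLB1⟩ := hLB Cw R ε e₀ Aw Jn hCw hR hε he₀ hAw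
  obtain ⟨C₂, r₂, hC₂, hr₂, hsa⟩ := sa0_list hpu N hε hJ hJn
  obtain ⟨C₃, r₃, hC₃, hr₃, hlp⟩ := lp_list hpu N hε hJ hJn
  obtain ⟨C₄, hC₄, hnl⟩ := norm_list_le hpu N (half_pos hε)
  obtain ⟨X₄, hX₄⟩ : ∃ x : ℝ, x = C₄ ^ (2 / ε) := ⟨_, rfl⟩
  refine ⟨4 * (C₁ * (η₀⁻¹) ^ (2 * Jn + 2)) * C₂ * C₃, max r₂ r₃, max Ca X₄, by positivity,
    hr₂.trans (le_max_left _ _), ?_⟩
  intro X hX hXX D hP hh hD0 hDJ hN hκ hκX Bf Bl s a Q q₀ c₁ cd cg cc x₁ lo lo' σ'' hBf hBl hq₀ ha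
    hlo' hx₁ hc₁ he₀cc hcc60 hcd hcdX hClf hClN q ps hq hqQ hps hRX hcm hσ hlo hgc N₀ N₁ Lv hN0
    hN01 hLv0 hLv1 hLvX hLvg hLva hLv30 Rn hRn hRh
  have hX1 : (1 : ℝ) ≤ X := by linarith
  have hX0 : 0 < X := by linarith
  have hr2 : r₂ ≤ max r₂ r₃ := le_max_left _ _
  have hr3 : r₃ ≤ max r₂ r₃ := le_max_right _ _
  have hlen : ps.length ≤ N := hps.length ▸ hN
  have hLF0 : 0 ≤ LF ps := LF_nonneg hps.z_nonneg
  have hHt := one_le_Ht ps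
  have hHJ : 1 ≤ Ht ps ^ J := Real.one_le_rpow hHt hJ
  have hexpX : Real.exp (LF ps) ≤ X := by
    rw [← Real.le_log_iff_exp_le hX0]; linarith
  have hN1 : (1 : ℝ) ≤ N₁ := by exact_mod_cast hN0.trans hN01
  have hN1' : (N₁ : ℝ) ≤ Real.exp (Lv + 4) := by
    have := Real.exp_pos (Lv + 4)
    linarith
  have hpw : ∀ k : ℕ, Real.exp c₁ ^ k = Real.exp (k * c₁) := fun k => by rw [Real.exp_nat_mul]
  have hΛ0 : 0 < Λ := by linarith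
  have hlΛ : 0 ≤ Real.log Λ := Real.log_nonneg hΛ
  have hZ0 : 0 < 9 * (Λ * (N₁ : ℝ)) := by positivity
  have hLv2 : 9 * (Λ * (N₁ : ℝ)) ≤ Real.exp (Lv + 4 + Real.log Λ) := by
    rw [Real.exp_add (Lv + 4), Real.exp_log hΛ0]
    calc 9 * (Λ * (N₁ : ℝ)) = 9 * (N₁ : ℝ) * Λ := by ring
      _ ≤ _ := mul_le_mul_of_nonneg_right hLv1 hΛ0.le
  have hlZ : Real.log (9 * (Λ * (N₁ : ℝ))) ≤ Lv + 4 + Real.log Λ := by
    rw [← Real.log_exp (Lv + 4 + Real.log Λ)]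
    exact Real.log_le_log hZ0 hLv2
  obtain ⟨a1, a2, -, hFS⟩ := hAL D.z D.D0 D.P hP q ps hlen X ((le_max_left _ _).trans hXX) (by
    rw [← Real.exp_add, ← Real.le_log_iff_exp_le hX0]; linarith)
  rw [← hh] at a1 a2
  have key := hLB1 (Real.exp D.κ) (Real.exp (LF ps)) X (Real.exp c₁) (Real.exp cd) (Real.exp cg)
    η₀ N₀ N₁
    (Real.one_le_exp hLF0) hexpX (by rw [← Real.le_log_iff_exp_le hX0]; exact hκX)
    (by rw [← Real.le_log_iff_exp_le hX0]; linarith)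
    (Real.one_le_exp hcd) (by rw [← Real.le_log_iff_exp_le hX0]; exact hcdX)
    (hN1'.trans (by rw [← Real.le_log_iff_exp_le hX0]; linarith))
    (by
      rw [Real.rpow_def_of_pos hX0]
      exact Real.exp_le_exp.2 (by linarith))
    (by
      rw [hpw]
      push_cast
      exact Real.exp_le_exp.2 hcc60)
    hN0 hN01
    (by
      rw [hpw, hpw_two D.κ]
      push_cast
      calc (N₁ : ℝ) * Real.exp (30 * c₁) ≤ Real.exp (Lv + 4) * Real.exp (30 * c₁) := by gcongr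
        _ = Real.exp (Lv + 4 + 30 * c₁) := by rw [← Real.exp_add]
        _ ≤ _ := Real.exp_le_exp.2 hLv30)
    hη₀ hη₀1 (sqc q (alF D.z D.D0 D.P D.h ps)) a1 a2
    (by
      intro n
      by_cases h0 : sqc q (alF D.z D.D0 D.P D.h ps) n = 0
      · rw [h0, norm_zero]; positivity
      have h1 := hnl D.z D.D0 D.P hP q ps hlen X hX1 n (a1 n h0)
      rw [← hh] at h1
      refine h1.trans ?_
      have h2 : C₄ ≤ X ^ (ε / 2) := by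
        have h3 : C₄ = X₄ ^ (ε / 2) := by
          rw [hX₄, ← Real.rpow_mul (by linarith)]
          have : 2 / ε * (ε / 2) = 1 := by field_simp
          rw [this, Real.rpow_one]
        rw [h3]
        refine Real.rpow_le_rpow ?_ ((le_max_right _ _).trans hXX) (by positivity)
        rw [hX₄]; positivity
      calc C₄ * X ^ (ε / 2) ≤ X ^ (ε / 2) * X ^ (ε / 2) := by gcongr
        _ = X ^ ε := by rw [← Real.rpow_add hX0]; congr 1; ring)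
    (C₂ * X ^ ε * Bf * Ht ps ^ J * Real.exp (2 * LF ps))
    (C₃ * X ^ ε * Bl * Ht ps ^ J * Real.exp (N * Real.log D.D0 + a) * Real.exp (2 * LF ps))
    (Rn * Ht ps ^ J * Real.exp (2 * LF ps)) (by positivity) (by positivity) (by positivity)
    (hsa X hX D hP hh hD0 hDJ hN Bf s a Q q₀ σ'' lo cg hBf ((Real.exp_le_exp.2 hr2).trans hq₀)
      (hClf.mono le_rfl (by linarith) (by linarith) le_rfl le_rfl) q ps
      (9 * (Λ * N₁)) hq hqQ hps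
      (by linarith) (by linarith) (by linarith)
      (by
        calc 9 * (Λ * (N₁ : ℝ)) * Real.exp cg ≤ Real.exp (Lv + 4 + Real.log Λ) * Real.exp cg := by
              gcongr
          _ = Real.exp (Lv + 4 + Real.log Λ + cg) := by rw [← Real.exp_add]
          _ ≤ X := by rw [← Real.le_log_iff_exp_le hX0]; exact hLvg)
      hZ0 (by linarith))
    (hlp X hX D hP hh hD0 hDJ hN Bl s a Q q₀ cc lo' x₁ cg hBl ((Real.exp_le_exp.2 hr3).trans hq₀)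
      ha hlo' hx₁
      (fun q ps' k' b1 b2 b3 b4 b5 b6 b7 b8 => hClN q ps' k' b1 b2 b3 (b4.mono (by linarith)) b5
        b6 b7 (by linarith))
      q ps (9 * (Λ * N₁)) hq hqQ hps (by linarith) hcm (by linarith) hZ0
      (hLv2.trans (by rw [← Real.le_log_iff_exp_le hX0]; exact hLvX)) (by linarith))
    hRh
  refine key.mono (Real.exp_pos _).le (Real.exp_pos _).le ?_
  rw [hpw_two (LF ps), rpow_half_exp]
  exact lb_const (by positivity) hC₂ hC₃ hX1 hε hBf hBl (Real.exp_pos _).le (Real.exp_pos _).le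
    (by have := Real.exp_pos (-(c₁ / 2)); linarith) hRn hHJ (Real.exp_pos _).le

end Crest.Agent.R017.RG64
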