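import Crest.Agent.R017.RGk_64

/-!
# Row 17, C.REMg (RG), glue (helper64), part l: the recursion from the premises (class N)

* `clN_prem` : claims on natural lists from the premises
* `cut_std` : the cutoffs
* `rg_core` : the recursion from the premises (T0), (T'), (J) and the R-side hypotheses
-/

set_option autoImplicit false

noncomputable section

open Complex
open scoped ComplexConjugate

namespace Crest.Agent.R017.RG64

open Crest.Agent.R012 Crest.Agent.R012.Eis Crest.Agent.R012.LS2 Crest.Agent.R012.Gauss880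
open Crest.Agent.R012.MC (Wgt)
open Crest.Agent.R017.CM106 Crest.Agent.R017.HP842 Crest.Agent.R017.FE47
open Crest.Agent.R017.End699 hiding pw
open Crest.Agent.R017.B770
open Crest.Agent.R017.Prov71
open Crest.Agent.R017.Leg381
open Crest.Agent.R017.LBo813 (rho rho_one rho_zero rho_anti)
open Crest.Agent.R017.XP699 (LL Chd hcost cst)

/-- **claims on natural lists from the premises of a rule** -/
lemma clN_prem {D : Dat} {E : ℝ → ℝ → ℝ} {B₁ s a Q lo σ r b M : ℝ} (hs : s ≤ r) (hQ : Q ≤ b)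
    (hM : 0 ≤ M) (hJ : M ≤ D.J) (hB₁ : 0 ≤ B₁)
    (H : ∀ (l : ℝ) (ps' : List Pq), 0 ≤ l → l ≤ D.v + (D.n - LL Dq ps') + a →
      lo ≤ LL Dq ps' → LL Dq ps' ≤ σ → List.Forall₂ (Chd Dq hcost r b) ps' D.ps₀ →
      S0p D.P D.h l ps' ≤ B₁ * cst hcost ps' D.ps₀ ^ M * Real.exp (E l (LL Dq ps'))) :
    ClN D E (B₁ * Ht (natl D.ps₀) ^ M) s a Q lo σ := by
  have h1 := RXg848.clN_of Kg (D := {D with J := M}) (E := E) (s := s) (a := a) (Q := Q)
    (lo := lo) (σ := σ) hs hQ hM rfl hB₁ H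
  intro q ps k b1 b2 b3 b4 b5 b6 b7 b8
  have h2 : SF D.z D.D0 q D.P D.h k ps ≤ B₁ * Ht (natl D.ps₀) ^ M * Ht ps ^ M *
      Real.exp (E k (LF ps)) := h1 q ps k b1 b2 b3 b4 b5 b6 b7 b8
  refine h2.trans ?_
  have h3 := one_le_Ht ps
  have h4 := one_le_Ht (natl D.ps₀)
  have h5 : Ht ps ^ M ≤ Ht ps ^ D.J := Real.rpow_le_rpow_of_exponent_le h3 hJ
  have h6 : 0 ≤ Ht (natl D.ps₀) ^ M := Real.rpow_nonneg (by linarith) _
  gcongr

/-- the lower cutoff -/
def N0f (L : ℝ) : ℕ := ⌈Real.exp L⌉₊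

/-- the upper cutoff -/
def N1f (L : ℝ) : ℕ := 2 * N0f L

lemma one_le_N0f (L : ℝ) : 1 ≤ N0f L := Nat.one_le_iff_ne_zero.2 (by
  unfold N0f
  exact (Nat.ceil_pos.2 (Real.exp_pos L)).ne')

lemma exp_le_N0f (L : ℝ) : Real.exp L ≤ N0f L := Nat.le_ceil _

lemma N0f_le_N1f (L : ℝ) : N0f L ≤ N1f L := by unfold N1f; omega

lemma two_N0f_le (L : ℝ) : 2 * N0f L ≤ N1f L := by unfold N1f; omega

lemma N1f_le {L : ℝ} (hL : 0 ≤ L) : 9 * (N1f L : ℝ) ≤ Real.exp (L + 4) := by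
  have h1 : (N0f L : ℝ) < Real.exp L + 1 := Nat.ceil_lt_add_one (Real.exp_pos L).le
  have h2 : 1 ≤ Real.exp L := Real.one_le_exp hL
  have h3 : (36 : ℝ) ≤ Real.exp 4 := by
    have h4 : (2.7 : ℝ) ≤ Real.exp 1 := by
      have := Real.exp_one_gt_d9
      linarith
    have h5 : Real.exp 4 = Real.exp 1 ^ 4 := by
      rw [← Real.exp_nat_mul]; norm_num
    rw [h5]
    calc (36 : ℝ) ≤ 2.7 ^ 4 := by norm_num
      _ ≤ _ := by gcongr
  rw [Real.exp_add]
  unfold N1f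
  push_cast
  nlinarith [Real.exp_pos L]

/-- **the cutoffs** -/
lemma cut_std : Cut N0f N1f (fun L => rho (N0f L) (N1f L)) 4 where
  lo L _ := exp_le_N0f L
  hi L hL := N1f_le hL
  le L _ := N0f_le_N1f L
  anti L _ := rho_anti (one_le_N0f L) (N0f_le_N1f L)
  one L _ n hn := rho_one (one_le_N0f L) (N0f_le_N1f L) hn
  zero L _ n hn := rho_zero (one_le_N0f L) (N0f_le_N1f L) hn

/-- the parent of the recursion -/
structure RPar (K v c e X k : ℝ) (ps₀ : List Pq) : Prop where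
  k0 : 0 ≤ k
  kv : k ≤ (v - 20 * c + e) * Real.log X
  n2 : 2 * LL Dq ps₀ + 100 * c * Real.log X ≤ (K + v + e) * Real.log X
  nK : LL Dq ps₀ ≤ (K + e) * Real.log X
  n34 : 3 * K * Real.log X ≤ 4 * LL Dq ps₀ + e * Real.log X
  n56 : 6 * LL Dq ps₀ ≤ (5 * K + e) * Real.log X

/-- the premises (T0), (T'), (J) of the recursion -/
structure TPrem (P : DPar) (h : ℝ → ℝ) (K v c ε X r b M Bd : ℝ) (ps₀ : List Pq) : Prop where
  t0 : ∀ (l : ℝ) (ps' : List Pq), 0 ≤ l →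
    l ≤ (v + ε) * Real.log X + (LL Dq ps₀ - LL Dq ps') → List.Forall₂ (Chd Dq hcost r b) ps' ps₀ →
    LL Dq ps₀ - LL Dq ps' ≤ (2 * c + ε) * Real.log X →
    S0p P h l ps' ≤ Bd * cst hcost ps' ps₀ ^ M *
      Real.exp (c / 3 * Real.log X + ex0 (K * Real.log X) l (LL Dq ps'))
  tp : ∀ (l : ℝ) (ps' : List Pq), 0 ≤ l →
    l ≤ (v + ε) * Real.log X + (LL Dq ps₀ - LL Dq ps') → List.Forall₂ (Chd Dq hcost r b) ps' ps₀ →
    (c - ε) * Real.log X ≤ LL Dq ps₀ - LL Dq ps' →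
    LL Dq ps₀ - LL Dq ps' ≤ (2 * c + ε) * Real.log X →
    S0p P h l ps' ≤ Bd * cst hcost ps' ps₀ ^ M * Real.exp (ex0 (K * Real.log X) l (LL Dq ps'))
  jj : ∀ (l : ℝ) (ps' : List Pq), 0 ≤ l →
    l ≤ (v + ε) * Real.log X + (LL Dq ps₀ - LL Dq ps') → List.Forall₂ (Chd Dq hcost r b) ps' ps₀ →
    (2 * c - ε) * Real.log X ≤ LL Dq ps₀ - LL Dq ps' →
    S0p P h l ps' ≤ Bd * cst hcost ps' ps₀ ^ M * Real.exp (exJ (K * Real.log X)
      (v * Real.log X) (LL Dq ps₀) (c * Real.log X) l (LL Dq ps'))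

/-- (J) with another level -/
lemma exJ_level {κ v v' n c k m x : ℝ} (hx : 0 ≤ x) (h : v' ≤ v + x) :
    exJ κ v n c k m ≤ exJ κ v' n c k m + x := by
  unfold exJ
  have h1 : (n - m) - ((n - m) - (k - v)) / 3 - c ≤
      max 0 ((n - m) - ((n - m) - (k - v')) / 3 - c) + x := by
    have := le_max_right 0 ((n - m) - ((n - m) - (k - v')) / 3 - c)
    linarith
  have h2 : (0 : ℝ) ≤ max 0 ((n - m) - ((n - m) - (k - v')) / 3 - c) + x := by
    have := le_max_left 0 ((n - m) - ((n - m) - (k - v')) / 3 - c)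
    linarith
  have := max_le h2 h1
  linarith

/-- the claims of the recursion: data `D` with `D.v ≤ v`, allowance `a` -/
lemma claims_of {P : DPar} {h : ℝ → ℝ} {K v c ε X r b M Bd : ℝ} {ps₀ : List Pq}
    (hT : TPrem P h K v c ε X r b M Bd ps₀) (hM : 0 ≤ M) (hBd : 0 ≤ Bd) {D : Dat}
    (hP : D.P = P) (hh : D.h = h) (hps : D.ps₀ = ps₀) (hJ : M ≤ D.J)
    (hκ : D.κ = K * Real.log X) (hn : D.n = LL Dq ps₀) {s a Q x y : ℝ} (hs : s ≤ r) (hQ : Q ≤ b)
    (ha : D.v + a ≤ (v + ε) * Real.log X) (hx0 : 0 ≤ x) (hx : x ≤ ε * Real.log X)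
    (hy : 0 ≤ y) (hvy : D.v ≤ v * Real.log X + y) :
    ClN D (exJ D.κ D.v D.n (c * Real.log X)) (Bd * Real.exp y * Ht (natl ps₀) ^ M) s a Q 0
      (D.n - c * Real.log X + x) ∧
    ClN D (ex0 D.κ) (Bd * Ht (natl ps₀) ^ M) s a Q (D.n - 2 * (c * Real.log X) - x)
      (D.n - c * Real.log X + x) ∧
    ClN D (ex0 D.κ) (Bd * Real.exp (c / 3 * Real.log X) * Ht (natl ps₀) ^ M) s a Q
      (D.n - 2 * (c * Real.log X) - x) (D.n + x) := by
  subst hP hh hps
  have e1 : ∀ {B E F G : ℝ}, 0 ≤ B → E ≤ F + G → B * Real.exp E ≤ B * Real.exp F * Real.exp G := by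
    intro B E F G hB hE
    rw [mul_assoc, ← Real.exp_add]
    exact mul_le_mul_of_nonneg_left (Real.exp_le_exp.2 hE) hB
  refine ⟨clN_prem hs hQ hM hJ (by positivity) ?_, clN_prem hs hQ hM hJ hBd ?_,
    clN_prem hs hQ hM hJ (by positivity) ?_⟩
  · intro l ps' hl hla hlo hσ hch
    have hcst : 0 ≤ cst hcost ps' D.ps₀ ^ M := Real.rpow_nonneg
      (zero_le_one.trans (XP699.one_le_cst XP699.one_le_hcost _ _)) _
    have hla' : l ≤ (v + ε) * Real.log X + (LL Dq D.ps₀ - LL Dq ps') := by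
      rw [← hn]; linarith
    have goal : ∀ E : ℝ, E ≤ y + exJ D.κ D.v D.n (c * Real.log X) l (LL Dq ps') →
        S0p D.P D.h l ps' ≤ Bd * cst hcost ps' D.ps₀ ^ M * Real.exp E →
        S0p D.P D.h l ps' ≤ Bd * Real.exp y * cst hcost ps' D.ps₀ ^ M *
          Real.exp (exJ D.κ D.v D.n (c * Real.log X) l (LL Dq ps')) := by
      intro E hE h1
      refine h1.trans ((e1 (mul_nonneg hBd hcst) hE).trans (le_of_eq ?_))
      ring
    rcases le_total ((2 * c - ε) * Real.log X) (LL Dq D.ps₀ - LL Dq ps') with h1 | h1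
    · refine goal _ ?_ (hT.jj l ps' hl hla' hch h1)
      rw [hκ, hn]
      have := exJ_level (κ := K * Real.log X) (n := LL Dq D.ps₀) (c := c * Real.log X) (k := l)
        (m := LL Dq ps') hy (v := v * Real.log X) (v' := D.v) hvy
      linarith
    · have h2 : 0 ≤ ε * Real.log X := hx0.trans hx
      refine goal _ ?_ (hT.tp l ps' hl hla' hch (by rw [← hn]; linarith) (by linarith))
      rw [← hκ]
      have := ex0_le_exJ D.κ D.v D.n (c * Real.log X) l (LL Dq ps')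
      linarith
  · intro l ps' hl hla hlo hσ hch
    have hla' : l ≤ (v + ε) * Real.log X + (LL Dq D.ps₀ - LL Dq ps') := by
      rw [← hn]; linarith
    rw [hκ]
    exact hT.tp l ps' hl hla' hch (by rw [← hn]; linarith) (by rw [← hn]; linarith)
  · intro l ps' hl hla hlo hσ hch
    have hla' : l ≤ (v + ε) * Real.log X + (LL Dq D.ps₀ - LL Dq ps') := by
      rw [← hn]; linarith
    rw [hκ]
    refine (hT.t0 l ps' hl hla' hch (by rw [← hn]; linarith)).trans (le_of_eq ?_)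
    rw [Real.exp_add]
    ring

end Crest.Agent.R017.RG64
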