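import Crest.Agent.R017.RGind_777

/-!
# Row 17, section D: three lumps over a family shorter than `A + B + 2 C` (helper911)

`T3a_sub`  : the claim of T3a for all sub-sides and all families `K' ≥ K`
`T3G_core` : T3a at the family `K`, the terminal bound `bess` at `K` for the levels above the own
top, and one (P): loss `(K - k) / 3` over the family `k ≤ K`
-/

set_option autoImplicit false

noncomputable section

namespace Crest.Agent.R017.RGs911

open Crest.Agent.R017.ER911 Crest.Agent.R017.SC777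

variable {d : ℝ} {r s s₀ : EF}

/-- the claim for all sub-sides -/
theorem T3a_sub {Q : ℝ → ℝ → Multiset ℝ → ℝ → ℝ → ℝ → Prop} (R : ExpRules (7 / 8 + d) r s)
    (S : ExpS0 s s₀)
    {κ A B C m a c μ F : ℝ} (H : T3H d κ A B C m a c μ F) (G : ExpRG c r s₀ Q)
    (hQ : QAll Q r d κ A B C m a c μ F)
    {K A' B' C' m' a' : ℝ} (hκK : κ ≤ K) (hs : Sub3 A' B' C' m' a' A B C m a) :
    Cl3 r K F A' B' C' m' a' := by
  obtain ⟨N, hN⟩ : ∃ N, N = A + B + C + m + a := ⟨_, rfl⟩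
  have hN0 : 0 ≤ N := by
    have := hs.A0; have := hs.B0; have := hs.C0; have := hs.m0; have := hs.a0
    have := hs.A1; have := hs.B1; have := hs.C1; have := hs.m1; have := hs.a1
    linarith
  have main : ∀ k : ℕ, ∀ K A' B' C' m' a' : ℝ, κ ≤ K → Sub3 A' B' C' m' a' A B C m a →
      A' + B' + C' + m' + a' - K ≤ -(2 * N) + k * c → Cl3 r K F A' B' C' m' a' := by
    intro k
    induction k with
    | zero =>
      intro K A' B' C' m' a' hK hs hn
      refine cl_step R S H G hQ hs hK fun h34 => ?_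
      exfalso
      have := hs.A0; have := hs.B0; have := hs.C0; have := hs.m0; have := hs.a0
      have := hs.A1; have := hs.B1; have := hs.C1; have := hs.m1; have := hs.a1
      simp only [Nat.cast_zero, zero_mul] at hn
      linarith
    | succ k ih =>
      intro K A' B' C' m' a' hK hs hn
      refine cl_step R S H G hQ hs hK fun _ => ?_
      intro K' A₂ B₂ C₂ m₂ a₂ hK' h2 hc2
      refine ih K' A₂ B₂ C₂ m₂ a₂ (hK.trans hK') (h2.trans hs) ?_
      push_cast at hn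
      linarith
  have hs' := hs
  obtain ⟨_, hA1, _, hB1, _, hC1, _, hm1, _, ha1⟩ := hs'
  obtain ⟨k, hk⟩ := exists_nat_ge ((3 * N + |K|) / c)
  refine main k K A' B' C' m' a' hκK hs ?_
  rw [div_le_iff₀ H.c0] at hk
  have := neg_abs_le K
  linarith

/-- **three lumps over a short family**, side conditions abstract (`K` : the family of T3a) -/
theorem T3G_core {Q : ℝ → ℝ → Multiset ℝ → ℝ → ℝ → ℝ → Prop} (R : ExpRules (7 / 8 + d) r s)
    (S : ExpS0 s s₀)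
    {K A B C m a c μ F : ℝ} (H : T3H d K A B C m a c μ F) (G : ExpRG c r s₀ Q)
    (hQ : QAll Q r d K A B C m a c μ F)
    (hA : 0 ≤ A) (hB : 0 ≤ B) (hC : 0 ≤ C) (hm : 0 ≤ m) (ha : 0 ≤ a) {k : ℝ} (hk0 : 0 ≤ k)
    (hkK : k ≤ K) (h23 : 3 * (2 * (A + B + C + m + a) - k) ≤ 2 * K)
    (_hnk : A + B + C + m + a ≤ k + ((K - k) / 3 + F))
    (hQv : ∀ A₂ B₂ C₂ m₂ a₂ n₂ v : ℝ, Sub3 A₂ B₂ C₂ m₂ a₂ A B C m a →
      n₂ = A₂ + B₂ + C₂ + m₂ + a₂ → 0 ≤ v → v ≤ 2 * n₂ - k →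
      (A₂ + B₂ + m₂ + a₂ + K) / 2 < v + C₂ → (A₂ + C₂ + m₂ + a₂ + K) / 2 < v + B₂ →
      (B₂ + C₂ + m₂ + a₂ + K) / 2 < v + A₂ →
      Q K v {A₂, B₂, C₂} m₂ a₂ (4 / 3 * n₂ + (K + v) / 3 + F)) :
    ∀ κ' : ℝ, 0 ≤ κ' → κ' ≤ k → r κ' {A, B, C} m a + (k - κ') / 3 ≤
      k + (A + B + C + m + a) + ((K - k) / 3 + F) := by
  have h56 := H.h56
  have hc0 := H.c0
  have hF := H.hF
  have hμ0 := H.μ0
  have hAC := H.AC
  have hBC := H.BC
  have hD0 : 0 ≤ 2 * d * (C + m + a) := mul_nonneg (mul_nonneg two_pos.le H.d0) H.g0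
  refine R.poisC k {A, B, C} m a _ hk0 (ok3 hA hB hC hm ha)
    (by rw [sum3]; linarith) (by rw [sum3]; linarith) ?_
  intro Y'' m'' a'' i hY'' hm0' hm1' ha0' ha1' hi hii
  obtain ⟨A₂, B₂, C₂, rfl, hA0', hA1', hB0', hB1', hC0', hC1'⟩ := sh3 hY''
  rw [sum3] at hii ⊢
  rw [sum3]
  have hs2 : Sub3 A₂ B₂ C₂ m'' a'' A B C m a :=
    ⟨hA0', hA1', hB0', hB1', hC0', hC1', hm0', hm1', ha0', ha1'⟩
  have key : ∀ f : ℝ, 0 ≤ f → f ≤ 2 * (A₂ + B₂ + C₂ + m'' + a'') - k →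
      s₀ f {A₂, B₂, C₂} m'' a'' ≤ 4 / 3 * (A₂ + B₂ + C₂ + m'' + a'') + (K + f) / 3 + F := by
    intro f hf hft
    rcases le_or_gt (f + C₂) ((A₂ + B₂ + m'' + a'' + K) / 2) with h | hfC
    · refine lump3 R S H hs2 hC0' hA0' hB0' (by linarith) (by ring) ?_ le_rfl hf h
      show A₂ ::ₘ B₂ ::ₘ {C₂} = C₂ ::ₘ A₂ ::ₘ {B₂}
      rw [Multiset.cons_swap C₂ A₂]
      congr 1
      exact Multiset.pair_comm B₂ C₂
    rcases le_or_gt (f + B₂) ((A₂ + C₂ + m'' + a'' + K) / 2) with h | hfB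
    · refine lump3 R S H hs2 hB0' hA0' hC0' (by linarith) (by ring) ?_ le_rfl hf h
      exact Multiset.cons_swap _ _ _
    rcases le_or_gt (f + A₂) ((B₂ + C₂ + m'' + a'' + K) / 2) with h | hfA
    · exact lump3 R S H hs2 hA0' hB0' hC0' (by linarith) (by ring) rfl le_rfl hf h
    have hcl := T3a_sub R S H G hQ le_rfl hs2 K (hk0.trans hkK) le_rfl
    refine G.bess K f {A₂, B₂, C₂} m'' a'' (A₂ + B₂ + C₂ + m'' + a'') _ hs2.ok
      (by rw [sum3]) hf (by linarith) (by linarith) (by linarith) ?_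
    exact hQv A₂ B₂ C₂ m'' a'' _ f hs2 rfl hf hft hfC hfB hfA
  have hcube := S.cube i {A₂, B₂, C₂} m'' a''
    (4 / 3 * (A₂ + B₂ + C₂ + m'' + a'') + (K + i) / 3 + F) hi hs2.ok (fun u hu hu3 => by
      have := key (i - 3 * u) (by linarith) (by linarith)
      linarith)
  linarith

end Crest.Agent.R017.RGs911
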