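import Crest.Agent.R017.RGy_590
import Crest.Agent.R017.NearG_911

/-!
# Row 17, section D: the near-equal three-lump side over a short family, from the RG fields
(helper911)

* `keyN`     : all levels `f ≤ 2 n₂ - k` of the Gauss side of every sub-side of an `NG` side, at the
  family `K = k + 3 l`
* `T3N_core` : one (P) at the family `k`; the side conditions `Q` abstract (`QStat` at every weak
  state, domain `S = 3 N - k - K / 3`, `T = 2 K + k`)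
* `linesN`   : the real inequalities of that domain (the eight lines of helper777)
-/

set_option autoImplicit false

noncomputable section

namespace Crest.Agent.R017.RGt911

open Crest.Agent.R017.ER911 Crest.Agent.R017.SC777 Crest.Agent.R017.NG911

variable {d : ℝ} {r s s₀ : EF}

/-- all levels of the Gauss side up to `2 n₂ - k`, abstract side conditions -/
theorem keyN {Q : ℝ → ℝ → Multiset ℝ → ℝ → ℝ → ℝ → Prop} (R : ExpRules (7 / 8 + d) r s)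
    (S₀ : ExpS0 s s₀) {K k l A B C m a c μ F : ℝ} (H : T3Hy d K A B C m a c (2 * μ) F)
    (hcμ : c ≤ 2 * μ) (G : ExpRGy (7 / 8 + d) c r s₀ Q) (hQ : QAll3 Q r K A B C m a c F)
    (hN : NG k l A B C m a) (hK : k + 3 * l + 300 * c ≤ K)
    (hQN : ∀ A₁ B₁ C₁ m₁ a₁ n₁ : ℝ, StW K A B C m a K A₁ B₁ C₁ m₁ a₁ n₁ →
      QStat Q r s₀ c μ F (3 * (A + B + C + m + a) - k - K / 3) (2 * K + k) K A₁ B₁ C₁ m₁ a₁ n₁)
    {A₂ B₂ C₂ m₂ a₂ n₂ : ℝ} (hs2 : Sub3 A₂ B₂ C₂ m₂ a₂ A B C m a)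
    (hn2 : n₂ = A₂ + B₂ + C₂ + m₂ + a₂) {f : ℝ} (hf : 0 ≤ f) (hft : f ≤ 2 * n₂ - k) :
    s₀ f {A₂, B₂, C₂} m₂ a₂ ≤ 4 / 3 * n₂ + (K + f) / 3 + F := by
  obtain ⟨k0, l0, C0, CA, CB, m0, a0, wx, w9, sig, l1, nn⟩ := hN
  have h56 := H.h56
  have hc0 := H.c0
  have hF := H.hF
  have hμ0 := H.μ0
  have hK0 := H.κ0
  have hD0 : 0 ≤ 2 * d * (C + m + a) := mul_nonneg (mul_nonneg two_pos.le H.d0) H.g0
  obtain ⟨p0, p1, p2, p3, p4, p5, p6, p7, p8, p9⟩ := hs2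
  have hs2 : Sub3 A₂ B₂ C₂ m₂ a₂ A B C m a := ⟨p0, p1, p2, p3, p4, p5, p6, p7, p8, p9⟩
  have hA1 : 3 * (A + B + C + (m + a)) + (m + a) ≤ K + 2 * k := by
    rcases wx with h | h
    · rcases nn with h' | ⟨_, h', _, _⟩ <;> linarith
    · linarith
  rcases le_or_gt (f + C₂) ((A₂ + B₂ + m₂ + a₂ + K) / 2) with h | hfC
  · have := lump3 R S₀ H.toT3H hs2 p4 p0 p2 (by linarith) (by ring) (by
      show A₂ ::ₘ B₂ ::ₘ {C₂} = C₂ ::ₘ A₂ ::ₘ {B₂}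
      rw [Multiset.cons_swap C₂ A₂]
      congr 1
      exact Multiset.pair_comm B₂ C₂) le_rfl hf h
    linarith
  rcases le_or_gt (f + B₂) ((A₂ + C₂ + m₂ + a₂ + K) / 2) with h | hfB
  · have := lump3 R S₀ H.toT3H hs2 p2 p0 p4 (by linarith) (by ring) (Multiset.cons_swap _ _ _)
      le_rfl hf h
    linarith
  rcases le_or_gt (f + A₂) ((B₂ + C₂ + m₂ + a₂ + K) / 2) with h | hfA
  · have := lump3 R S₀ H.toT3H hs2 p0 p2 p4 (by linarith) (by ring) rfl le_rfl hf h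
    linarith
  have hw2 : m₂ + a₂ ≤ m + a := by linarith
  have hC3 : 3 * C₂ ≤ A + B + C := by linarith
  have hn2N : n₂ ≤ A + B + C + (m + a) := by linarith
  have hf2 : K + (m₂ + a₂) < 2 * f := by linarith
  have hS : StW K A B C m a K A₂ B₂ C₂ m₂ a₂ n₂ :=
    ⟨le_rfl, hs2, hn2, by linarith, by linarith, by linarith, by linarith⟩
  have h23 : 3 * f + 300 * c ≤ 2 * K := by
    rcases wx with h | h
    · rcases nn with h' | ⟨_, h', h₂, h₃⟩ <;> linarith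
    · linarith
  have hst := hQN A₂ B₂ C₂ m₂ a₂ n₂ hS
  exact bess_all_y R S₀ H G hQ hS (hst.rep R S₀ H hS) (hst.sub R S₀ H hcμ G hS) le_rfl
    ⟨p0, le_rfl, p2, le_rfl, p4, le_rfl, p6, le_rfl, p8, le_rfl⟩ hn2
    ⟨hf, h23, by linarith, by linarith, by linarith, by linarith⟩

/-- one (P) at the family `k` -/
theorem T3N_core {Q : ℝ → ℝ → Multiset ℝ → ℝ → ℝ → ℝ → Prop} (R : ExpRules (7 / 8 + d) r s)
    (S₀ : ExpS0 s s₀) {K k l A B C m a c μ F : ℝ} (H : T3Hy d K A B C m a c (2 * μ) F)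
    (hcμ : c ≤ 2 * μ) (G : ExpRGy (7 / 8 + d) c r s₀ Q) (hQ : QAll3 Q r K A B C m a c F)
    (hN : NG k l A B C m a) (hK : k + 3 * l + 300 * c ≤ K)
    (hQN : ∀ A₁ B₁ C₁ m₁ a₁ n₁ : ℝ, StW K A B C m a K A₁ B₁ C₁ m₁ a₁ n₁ →
      QStat Q r s₀ c μ F (3 * (A + B + C + m + a) - k - K / 3) (2 * K + k) K A₁ B₁ C₁ m₁ a₁ n₁) :
    ∀ κ' : ℝ, 0 ≤ κ' → κ' ≤ k → r κ' {A, B, C} m a + (k - κ') / 3 ≤
      k + (A + B + C + (m + a)) + ((K - k) / 3 + F) := by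
  have hN' := hN
  obtain ⟨k0, l0, C0, CA, CB, m0, a0, wx, w9, sig, l1, nn⟩ := hN'
  have hc0 := H.c0
  have hF := H.hF
  have hμ0 := H.μ0
  have hD0 : 0 ≤ 2 * d * (C + m + a) := mul_nonneg (mul_nonneg two_pos.le H.d0) H.g0
  have hNk : A + B + C + (m + a) ≤ k := by
    rcases wx with h | h
    · rcases nn with h' | ⟨_, h', _, _⟩ <;> linarith
    · linarith
  refine R.poisC k {A, B, C} m a _ k0 (ok3 (by linarith) (by linarith) C0 m0 a0)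
    (by rw [sum3]; linarith) (by rw [sum3]; linarith) ?_
  intro Y'' m'' a'' i hY'' hm0' hm1' ha0' ha1' hi hii
  obtain ⟨A₂, B₂, C₂, rfl, hA0', hA1', hB0', hB1', hC0', hC1'⟩ := sh3 hY''
  rw [sum3] at hii ⊢
  rw [sum3]
  have hs2 : Sub3 A₂ B₂ C₂ m'' a'' A B C m a :=
    ⟨hA0', hA1', hB0', hB1', hC0', hC1', hm0', hm1', ha0', ha1'⟩
  have hcube := S₀.cube i {A₂, B₂, C₂} m'' a''
    (4 / 3 * (A₂ + B₂ + C₂ + m'' + a'') + (K + i) / 3 + F) hi hs2.ok (fun u hu hu3 => by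
      have := keyN R S₀ H hcμ G hQ hN hK hQN hs2 rfl (f := i - 3 * u) (by linarith) (by linarith)
      linarith)
  linarith

/-- the real inequalities of the domain `S = 3 N - k - K / 3` (without using `sx`), target
`4/3 n + (v + K') / 3` -/
theorem linesN {K k l A B C m a K' v n C₁ w₁ : ℝ} (hN : NG k l A B C m a) (hK : k + 3 * l ≤ K)
    (hw : w₁ ≤ m + a) (hC : C₁ ≤ C) (_hw₀ : 0 ≤ w₁) (_hC₀ : 0 ≤ C₁) (hKK : K ≤ K') (v0 : 0 ≤ v)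
    (v23 : 3 * v ≤ 2 * K') (nN : n ≤ A + B + C + (m + a))
    (vs : v + n ≤ 3 * (A + B + C + (m + a)) - k + (K' - K) / 3) :
    (2 * n + 5 / 3 * v - 4 / 3 * K' + 3 / 4 * (C₁ + w₁) ≤ 4 / 3 * n + (v + K') / 3) ∧
    (4 / 3 * n + 4 / 3 * v - 2 / 3 * K' + 3 / 4 * (C₁ + w₁) ≤ 4 / 3 * n + (v + K') / 3) ∧
    (8 / 3 * n + 4 / 3 * v - 5 / 3 * K' + 3 / 4 * (C₁ + w₁) ≤ 4 / 3 * n + (v + K') / 3) ∧
    (2 * n + v - K' + 3 / 4 * (C₁ + w₁) ≤ 4 / 3 * n + (v + K') / 3) ∧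
    (2 * n + 5 / 4 * v - 11 / 12 * K' + 1 / 3 * (C₁ + w₁) ≤ 4 / 3 * n + (v + K') / 3) ∧
    (2 * n + 6 / 5 * v - 13 / 15 * K' + 2 / 5 * C₁ ≤ 4 / 3 * n + (v + K') / 3) ∧
    (37 / 21 * n + 25 / 21 * v - 2 / 3 * K' + 3 / 7 * C₁ ≤ 4 / 3 * n + (v + K') / 3) := by
  obtain ⟨k0, l0, C0, CA, CB, m0, a0, wx, w9, sig, l1, nn⟩ := hN
  rcases wx with h | h
  · rcases nn with h' | ⟨_, h', h₂, h₃⟩
    · refine ⟨?_, ?_, ?_, ?_, ?_, ?_, ?_⟩ <;> linarith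
    · refine ⟨?_, ?_, ?_, ?_, ?_, ?_, ?_⟩ <;> linarith
  · refine ⟨?_, ?_, ?_, ?_, ?_, ?_, ?_⟩ <;> linarith

end Crest.Agent.R017.RGt911
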