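import Crest.Agent.R017.E1u_551
import Crest.Agent.R017.E1s_551
import Crest.Agent.R017.Win2_813
import Crest.Agent.R012.Dec_766
import Crest.Agent.R012.Tau_671

/-!
# Row 17, C.REMg (RG by positivity), from the E1 inequality to the sequence itself, part A
(helper813): the twists by `S`-units

* `tw2 a b α n = α n · conj (w^a λ^b / n)_3`
* `cls_sum` : the classes of `J 1` in terms of the good classes of the twists
* `tw_sum` : the moments of a twist in terms of the moments of the sequence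
-/

set_option autoImplicit false

noncomputable section

open Complex MeasureTheory
open scoped ComplexConjugate Classical

namespace Crest.Agent.R017.RGw813

open Crest.Agent.R012 Crest.Agent.R012.Eis Crest.Agent.R012.MC
open Crest.Agent.R012.LS2 (S mem_S)
open Crest.Agent.R012.Weight600 (osc pw)
open Crest.Agent.R012.Char766 (sy_mul_left sy_pow_left sy_cube norm_sy)
open Crest.Agent.R017.CM106 (CS TG FS)
open Crest.Agent.R017.E1551
open Crest.Agent.R017.Win813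

/-! ### the twists -/

/-- twist by the symbol of `w^a λ^b` -/
def tw2 (a b : ℕ) (α : Eis → ℂ) : Eis → ℂ := fun n => α n * conj (sy (w ^ a * lam ^ b) n)

lemma tw2_ne {a b : ℕ} {α : Eis → ℂ} {n : Eis} (h : tw2 a b α n ≠ 0) : α n ≠ 0 :=
  left_ne_zero_of_mul h

lemma FS_tw2 {α : Eis → ℂ} (h : FS α) (a b : ℕ) : FS (tw2 a b α) where
  fin := h.fin.subset fun _ hn => tw2_ne hn
  prim := fun m hm => h.prim m (tw2_ne hm)

lemma sy_wl {n : Eis} (hn : IsPrim n) (a b : ℕ) :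
    sy (w ^ a * lam ^ b) n = sy w n ^ a * sy lam n ^ b := by
  rw [sy_mul_left hn, sy_pow_left hn, sy_pow_left hn]

lemma cop_w (n : Eis) : IsCoprime w n := isCoprime_of_isUnit isUnit_w n

lemma sy_w3 {n : Eis} (hn : IsPrim n) : sy w n ^ 3 = 1 := sy_cube hn (cop_w n)

lemma sy_l3 {n : Eis} (hn : IsPrim n) : sy lam n ^ 3 = 1 := sy_cube hn hn.isCoprime_lam.symm

lemma norm_wl {n : Eis} (hn : IsPrim n) (a b : ℕ) : ‖sy (w ^ a * lam ^ b) n‖ = 1 := by
  rw [sy_wl hn, norm_mul, norm_pow, norm_pow, norm_sy hn (cop_w n),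
    norm_sy hn hn.isCoprime_lam.symm, one_pow, one_pow, one_mul]

lemma norm_tw2 {α : Eis → ℂ} (h : FS α) (a b : ℕ) (n : Eis) : ‖tw2 a b α n‖ = ‖α n‖ := by
  unfold tw2
  by_cases h0 : α n = 0
  · simp [h0]
  · rw [norm_mul, RCLike.norm_conj, norm_wl (h.prim n h0), mul_one]

lemma pow_mod3 {z : ℂ} (h : z ^ 3 = 1) (a : ℕ) : z ^ a = z ^ (a % 3) := by
  conv_lhs => rw [← Nat.div_add_mod a 3, pow_add, pow_mul, h, one_pow, one_mul]

lemma tw2_tw2 {α : Eis → ℂ} (h : FS α) (a b a' b' : ℕ) :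
    tw2 a b (tw2 a' b' α) = tw2 ((a + a') % 3) ((b + b') % 3) α := by
  funext n
  unfold tw2
  by_cases h0 : α n = 0
  · simp [h0]
  · have hn := h.prim n h0
    rw [sy_wl hn, sy_wl hn, sy_wl hn, ← pow_mod3 (sy_w3 hn), ← pow_mod3 (sy_l3 hn), pow_add,
      pow_add]
    simp only [map_mul, map_pow]
    ring

lemma tw2_pw (a b : ℕ) (α : Eis → ℂ) (t : ℝ) :
    tw2 a b (fun n => α n * pw t (nm n)) = fun n => tw2 a b α n * pw t (nm n) := by
  funext n; unfold tw2; ring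

lemma wn_tw2 (φ : ℝ → ℝ) (a b : ℕ) (α : Eis → ℂ) : wn φ (tw2 a b α) = tw2 a b (wn φ α) := by
  funext n; unfold wn tw2; ring

/-- **the class `± w^a λ^b k`** -/
lemma TG_wl {β : Eis → ℂ} (h : FS β) {e : Eis} (he : e = 1 ∨ e = -1) (a b : ℕ) (k : Eis) :
    TG β (e * w ^ a * lam ^ b * k) = TG (tw2 a b β) k := by
  unfold CM106.TG tw2
  refine tsum_congr fun n => ?_
  by_cases h0 : β n = 0
  · simp [h0]
  · have hn := h.prim n h0
    have he1 : sy e n = 1 := by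
      rcases he with rfl | rfl
      · exact Char766.sy_one_left hn
      · exact Crest.Agent.R012.Tau671.sy_neg_one hn
    have e1 : sy (e * w ^ a * lam ^ b * k) n = sy (w ^ a * lam ^ b) n * sy k n := by
      rw [sy_mul_left hn, show e * w ^ a * lam ^ b = e * (w ^ a * lam ^ b) by ring,
        sy_mul_left hn, he1, one_mul]
    rw [e1, map_mul]; ring

/-- removal of a cube at `λ` -/
lemma TG_lam3 {β : Eis → ℂ} (h : FS β) (k : Eis) : TG β (lam ^ 3 * k) = TG β k := by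
  unfold CM106.TG
  refine tsum_congr fun n => ?_
  by_cases h0 : β n = 0
  · simp [h0]
  · have hn := h.prim n h0
    have e1 : sy (lam ^ 3 * k) n = sy k n := by
      rw [sy_mul_left hn, sy_pow_left hn, sy_l3 hn, one_mul]
    rw [e1]

/-! ### a counting lemma -/

lemma sum_le_inj {ι κ : Type} (T : Finset ι) (X : Finset κ) (f : ι → ℝ) (g : κ → ℝ)
    (hg : ∀ x ∈ X, 0 ≤ g x) (ψ : ι → κ) (hψ : ∀ i ∈ T, ψ i ∈ X) (hf : ∀ i ∈ T, f i ≤ g (ψ i))
    (hinj : Set.InjOn ψ (T : Set ι)) : ∑ i ∈ T, f i ≤ ∑ x ∈ X, g x := by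
  calc ∑ i ∈ T, f i ≤ ∑ i ∈ T, g (ψ i) := Finset.sum_le_sum hf
    _ = ∑ x ∈ T.image ψ, g x := (Finset.sum_image hinj).symm
    _ ≤ ∑ x ∈ X, g x := by
        refine Finset.sum_le_sum_of_subset_of_nonneg ?_ fun x hx _ => hg x hx
        intro x hx
        obtain ⟨i, hi, rfl⟩ := Finset.mem_image.mp hx
        exact hψ i hi

lemma sum_le_choice {ι κ : Type} [Nonempty κ] (T : Finset ι) (X : Finset κ) (f : ι → ℝ)
    (g : κ → ℝ) (hg : ∀ x ∈ X, 0 ≤ g x) (Φ : κ → ι)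
    (h : ∀ i ∈ T, ∃ x ∈ X, Φ x = i ∧ f i ≤ g x) : ∑ i ∈ T, f i ≤ ∑ x ∈ X, g x := by
  choose! ψ hψ using h
  refine sum_le_inj T X f g hg ψ (fun i hi => (hψ i hi).1) (fun i hi => (hψ i hi).2.2) ?_
  intro i hi j hj he
  rw [← (hψ i hi).2.1, ← (hψ j hj).2.1, he]

/-! ### the classes -/

/-- the nine twists -/
def T9 : Finset (ℕ × ℕ) := Finset.range 3 ×ˢ Finset.range 3

lemma card_T9 : (T9.card : ℝ) = 9 := by
  unfold T9; simp

lemma mem_T9 {p : ℕ × ℕ} : p ∈ T9 ↔ p.1 < 3 ∧ p.2 < 3 := by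
  unfold T9; simp

lemma nm_wl {e : Eis} (he : e = 1 ∨ e = -1) (a b : ℕ) (k : Eis) :
    nm (e * w ^ a * lam ^ b * k) = 3 ^ b * nm k := by
  have hu : IsUnit (e * w ^ a) := by
    refine IsUnit.mul ?_ (isUnit_w.pow a)
    rcases he with rfl | rfl
    · exact isUnit_one
    · exact isUnit_one.neg
  rw [nm_mul, nm_mul, nm_pow, nm_lam, isUnit_iff.1 hu, one_mul]

lemma CF.of_dvd {k κ : Eis} (h : CF κ) (hk : k ∣ κ) : CF k :=
  ⟨fun h0 => h.1 (by rw [h0] at hk; exact zero_dvd_iff.1 hk), fun p hp hd => h.2 p hp (hd.trans hk)⟩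

lemma lm_mono {K X : ℝ} (hK : 0 < K) (hX : 0 < X) {κ k : Eis} (hk : k ≠ 0)
    (h : nm k ≤ nm κ) : lm K X 1 κ ≤ lm K X 1 k := by
  unfold lm
  have h1 := nmpos hk
  have h2 : (nm k : ℝ) ≤ nm κ := by exact_mod_cast h
  have h3 : (K * nm κ) ^ (-(1 / 3) : ℝ) ≤ (K * nm k) ^ (-(1 / 3) : ℝ) :=
    Real.rpow_le_rpow_of_nonpos (by positivity) (by gcongr) (by norm_num)
  gcongr

/-- the classes of the window -/
def JB (Y₀ V : ℝ) : Finset Eis := (BF V).filter (fun κ => Y₀ < nm κ)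

/-- the good classes of the window -/
def JG (Y₀ V : ℝ) : Finset Eis := (JB Y₀ V).filter (fun κ => (3 : ℤ) ∣ κ.im)

lemma mem_JB {Y₀ V : ℝ} {κ : Eis} : κ ∈ JB Y₀ V ↔ CF κ ∧ Y₀ < nm κ ∧ (nm κ : ℝ) ≤ V := by
  unfold JB
  rw [Finset.mem_filter, mem_BF]
  tauto

/-- **all classes of the window** -/
theorem cls_sum {β : Eis → ℂ} (h : FS β) {K X Y₀ V : ℝ} (hK : 0 < K) (hX : 0 < X)
    {ρ : ℕ → ℝ} (hρ : Antitone ρ) (hρ0 : ∀ n, 0 ≤ ρ n) (hρ1 : ∀ n, ρ n ≤ 1) :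
    ∑ κ ∈ JB Y₀ V, ρ (nm κ) * min 1 (lm K X 1 κ) * ‖TG β κ‖ ^ 2 ≤
      2 * ∑ p ∈ T9, (∑ κ ∈ JG Y₀ V,
          ρ (nm κ) * min 1 (lm K X 1 κ) * ‖TG (tw2 p.1 p.2 β) κ‖ ^ 2 +
        ∑ κ ∈ BF Y₀, lm K X 1 κ * ‖TG (tw2 p.1 p.2 β) κ‖ ^ 2) := by
  -- one primary class set
  let G : Finset Eis := JG Y₀ V ∪ BF Y₀
  let g : ℕ × ℕ → Eis → ℝ := fun p κ => (if κ ∈ JG Y₀ V then
      ρ (nm κ) * min 1 (lm K X 1 κ) * ‖TG (tw2 p.1 p.2 β) κ‖ ^ 2 else 0) +
    (if κ ∈ BF Y₀ then lm K X 1 κ * ‖TG (tw2 p.1 p.2 β) κ‖ ^ 2 else 0)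
  have hg0 : ∀ p κ, 0 ≤ g p κ := by
    intro p κ
    have := lm_nonneg hK.le hX.le 1 κ
    simp only [g]
    refine add_nonneg ?_ ?_
    · split_ifs
      · exact mul_nonneg (mul_nonneg (hρ0 _) (le_min zero_le_one this)) (by positivity)
      · exact le_rfl
    · split_ifs
      · exact mul_nonneg this (by positivity)
      · exact le_rfl
  have key : ∑ κ ∈ JB Y₀ V, ρ (nm κ) * min 1 (lm K X 1 κ) * ‖TG β κ‖ ^ 2 ≤
      ∑ x ∈ (({1, -1} : Finset Eis) ×ˢ T9) ×ˢ G, g x.1.2 x.2 := by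
    refine sum_le_choice _ _ _ _ (fun x _ => hg0 _ _)
      (fun x => x.1.1 * w ^ x.1.2.1 * lam ^ x.1.2.2 * x.2) fun κ hκ => ?_
    obtain ⟨hcf, h0, h1⟩ := mem_JB.1 hκ
    obtain ⟨e, i, j, k, he, hi, hk, hκe⟩ := Char766.exists_unit_lam_prim hcf.1
    have hj : j < 3 := by
      by_contra hj
      refine hcf.2 lam prime_lam ?_
      rw [hκe]
      exact ((pow_dvd_pow lam (by omega : 3 ≤ j)).mul_left _).mul_right _
    have hkκ : k ∣ κ := ⟨e * w ^ i * lam ^ j, by rw [hκe]; ring⟩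
    have hkcf := CF.of_dvd hcf hkκ
    have hnm : nm κ = 3 ^ j * nm k := by rw [hκe]; exact nm_wl he i j k
    have hle : nm k ≤ nm κ := by
      rw [hnm]; exact Nat.le_mul_of_pos_left _ (by positivity)
    have him : (3 : ℤ) ∣ k.im := (isPrim_iff.1 hk).2
    have hkG : k ∈ G := by
      by_cases hY : (nm k : ℝ) ≤ Y₀
      · exact Finset.mem_union_right _ (mem_BF.2 ⟨hkcf, hY⟩)
      · refine Finset.mem_union_left _ (Finset.mem_filter.2 ⟨mem_JB.2
          ⟨hkcf, not_le.1 hY, le_trans (by exact_mod_cast hle) h1⟩, him⟩)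
    refine ⟨((e, (i, j)), k), ?_, hκe.symm, ?_⟩
    · refine Finset.mem_product.2 ⟨Finset.mem_product.2 ⟨?_, mem_T9.2 ⟨hi, hj⟩⟩, hkG⟩
      rcases he with rfl | rfl <;> simp
    · have e1 : TG β κ = TG (tw2 i j β) k := by rw [hκe]; exact TG_wl h he i j k
      rw [e1]
      have hlm := lm_mono (K := K) hK hX hkcf.1 hle
      have hl0 := lm_nonneg hK.le hX.le 1 k
      have hl0' := lm_nonneg hK.le hX.le 1 κ
      simp only [g]
      rcases Finset.mem_union.1 hkG with h2 | h2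
      · rw [if_pos h2]
        refine le_add_of_le_of_nonneg (mul_le_mul_of_nonneg_right (mul_le_mul (hρ hle)
          (min_le_min le_rfl hlm) (le_min zero_le_one hl0') (hρ0 _)) (by positivity)) ?_
        split_ifs
        · exact mul_nonneg hl0 (by positivity)
        · exact le_rfl
      · rw [if_pos h2]
        refine le_add_of_nonneg_of_le ?_ (mul_le_mul_of_nonneg_right ?_ (by positivity))
        · split_ifs
          · exact mul_nonneg (mul_nonneg (hρ0 _) (le_min zero_le_one hl0)) (by positivity)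
          · exact le_rfl
        · calc ρ (nm κ) * min 1 (lm K X 1 κ) ≤ 1 * lm K X 1 κ :=
                mul_le_mul (hρ1 _) (min_le_right _ _) (le_min zero_le_one hl0') zero_le_one
            _ ≤ _ := by rw [one_mul]; exact hlm
  refine key.trans (le_of_eq ?_)
  rw [Finset.sum_product, Finset.sum_product]
  have hne : (1 : Eis) ≠ -1 := by
    intro h
    have := congrArg (fun z : Eis => z.re) h
    simp at this
  rw [Finset.sum_pair hne, ← two_mul]
  congr 1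
  refine Finset.sum_congr rfl fun p _ => ?_
  simp only [g]
  rw [Finset.sum_add_distrib, ← Finset.sum_filter, ← Finset.sum_filter]
  congr 2
  · rw [Finset.filter_mem_eq_inter]
    exact Finset.inter_eq_right.2 Finset.subset_union_left
  · rw [Finset.filter_mem_eq_inter]
    exact Finset.inter_eq_right.2 Finset.subset_union_right

/-! ### removal of the twist -/

lemma CF_wl {a f : ℕ} (hf : f ≤ 2) {x r : Eis} (hx : ¬ lam ∣ x) (hr : CF r) (hxr : x ∣ r) :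
    CF (w ^ a * lam ^ f * x) := by
  have hwa : IsUnit (w ^ a : Eis) := isUnit_w.pow a
  have hx0 : x ≠ 0 := fun h => hx (by rw [h]; exact dvd_zero _)
  refine ⟨mul_ne_zero (mul_ne_zero hwa.ne_zero (pow_ne_zero _ lam_ne_zero)) hx0, ?_⟩
  intro p hp hd
  by_cases hl : lam ∣ p
  · have h1 : lam ^ (f + 1) ∣ lam ^ f * (w ^ a * x) := by
      have h2 : lam ^ (f + 1) ∣ p ^ 3 :=
        (pow_dvd_pow lam (by omega : f + 1 ≤ 3)).trans (pow_dvd_pow_of_dvd hl 3)
      have h3 := h2.trans hd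
      rwa [show w ^ a * lam ^ f * x = lam ^ f * (w ^ a * x) by ring] at h3
    rw [pow_succ] at h1
    have h4 := (mul_dvd_mul_iff_left (pow_ne_zero f lam_ne_zero)).1 h1
    exact hx ((hwa.dvd_mul_left).1 h4)
  · have hc : IsCoprime p lam := isCoprime_lam_iff.2 hl
    have hc1 : IsCoprime (p ^ 3) (w ^ a * lam ^ f) :=
      IsCoprime.mul_right (isCoprime_of_isUnit hwa _).symm (hc.pow)
    exact hr.2 p hp ((hc1.dvd_of_dvd_mul_left hd).trans hxr)

/-- the cube-free class of `w^a λ^b r` -/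
lemma exists_red {a b : ℕ} (hb : b < 3) {r : Eis} (hr : CF r) :
    ∃ r' : Eis, CF r' ∧ (r' = w ^ a * lam ^ b * r ∨ lam ^ 3 * r' = w ^ a * lam ^ b * r) := by
  obtain ⟨e, x, hx, rfl⟩ := Char766.exists_lam_pow hr.1
  have he : e < 3 := by
    by_contra he
    exact hr.2 lam prime_lam ((pow_dvd_pow lam (by omega : 3 ≤ e)).mul_right _)
  by_cases h : b + e ≤ 2
  · refine ⟨w ^ a * lam ^ (b + e) * x, CF_wl h hx hr (dvd_mul_left _ _), Or.inl ?_⟩
    rw [pow_add]; ring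
  · refine ⟨w ^ a * lam ^ (b + e - 3) * x, CF_wl (by omega) hx hr (dvd_mul_left _ _), Or.inr ?_⟩
    have e1 : lam ^ 3 * lam ^ (b + e - 3) = lam ^ b * lam ^ e := by
      rw [← pow_add, ← pow_add]; congr 1; omega
    calc lam ^ 3 * (w ^ a * lam ^ (b + e - 3) * x)
        = w ^ a * (lam ^ 3 * lam ^ (b + e - 3)) * x := by ring
      _ = _ := by rw [e1]; ring

/-- **moments of a twist**, at multiples of `G` -/
theorem tw_sumG {β : Eis → ℂ} (h : FS β) {a b : ℕ} (hb : b < 3) {W : Eis → ℝ}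
    {M Z : ℝ} (hM : 0 ≤ M) (hW0 : ∀ r, 0 ≤ W r)
    (hW : ∀ r r', r ≠ 0 → r' ≠ 0 → nm r' ≤ 9 * nm r → W r ≤ M * W r') (G : Eis) :
    ∑ r ∈ BF Z, W r * ‖TG (tw2 a b β) (r * G)‖ ^ 2 ≤
      M * ∑ r ∈ BF (9 * Z), W r * ‖TG β (r * G)‖ ^ 2 := by
  rw [Finset.mul_sum]
  have hwa : IsUnit (w ^ a : Eis) := isUnit_w.pow a
  set s : Eis := w ^ a * lam ^ b with hs
  have hs0 : s ≠ 0 := mul_ne_zero hwa.ne_zero (pow_ne_zero _ lam_ne_zero)
  have hlam3 : (lam ^ 3 : Eis) ≠ 0 := pow_ne_zero _ lam_ne_zero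
  have hex : ∀ r : Eis, ∃ r' : Eis, CF r → (CF r' ∧ (r' = s * r ∨ lam ^ 3 * r' = s * r)) := by
    intro r
    by_cases hr : CF r
    · obtain ⟨r', h1, h2⟩ := exists_red (a := a) hb hr
      exact ⟨r', fun _ => ⟨h1, h2⟩⟩
    · exact ⟨0, fun h => absurd h hr⟩
  choose ψ hψ using hex
  have hnms : nm s = 3 ^ b := by
    have := nm_wl (e := 1) (Or.inl rfl) a b 1
    rw [one_mul, mul_one, nm_one, mul_one] at this
    exact this
  have hb9 : 3 ^ b ≤ 9 := by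
    calc 3 ^ b ≤ 3 ^ 2 := Nat.pow_le_pow_right (by norm_num) (by omega)
      _ = 9 := by norm_num
  have hnm : ∀ r, CF r → nm (ψ r) ≤ 9 * nm r := by
    intro r hr
    rcases (hψ r hr).2 with h1 | h1
    · rw [h1, nm_mul, hnms]
      exact Nat.mul_le_mul_right _ hb9
    · have h2 := congrArg nm h1
      rw [nm_mul, nm_mul, hnms, nm_pow, nm_lam] at h2
      have h3 : 3 ^ b * nm r ≤ 9 * nm r := Nat.mul_le_mul_right _ hb9
      omega
  refine sum_le_inj _ _ _ _ (fun x _ => mul_nonneg hM (mul_nonneg (hW0 _) (by positivity)))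
    ψ ?_ ?_ ?_
  · intro r hr
    obtain ⟨h1, h2⟩ := mem_BF.1 hr
    refine mem_BF.2 ⟨(hψ r h1).1, ?_⟩
    have h3 : (nm (ψ r) : ℝ) ≤ 9 * nm r := by exact_mod_cast hnm r h1
    linarith
  · intro r hr
    obtain ⟨h1, h2⟩ := mem_BF.1 hr
    have e1 : TG (tw2 a b β) (r * G) = TG β (ψ r * G) := by
      have e2 := TG_wl h (e := 1) (Or.inl rfl) a b (r * G)
      rw [one_mul] at e2
      rw [← e2]
      rcases (hψ r h1).2 with h3 | h3
      · rw [h3, hs]
        congr 1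
        ring
      · have e3 : w ^ a * lam ^ b * (r * G) = lam ^ 3 * (ψ r * G) := by
          rw [← mul_assoc, ← hs, ← h3]; ring
        rw [e3, TG_lam3 h]
    rw [e1, ← mul_assoc]
    exact mul_le_mul_of_nonneg_right (hW r (ψ r) h1.1 (hψ r h1).1.1 (hnm r h1)) (by positivity)
  · intro r hr r₂ hr₂ he
    have h1 := (mem_BF.1 hr).1
    have h2 := (mem_BF.1 hr₂).1
    have key : ∀ r r₂ : Eis, CF r₂ → ψ r = s * r → lam ^ 3 * ψ r = s * r₂ → False := by
      intro r r₂ h2 h3 h4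
      rw [h3] at h4
      have h5 : s * (lam ^ 3 * r) = s * r₂ := by rw [← h4]; ring
      exact h2.2 lam prime_lam ⟨r, (mul_left_cancel₀ hs0 h5).symm⟩
    rcases (hψ r h1).2 with h3 | h3 <;> rcases (hψ r₂ h2).2 with h4 | h4
    · rw [he, h4] at h3
      exact (mul_left_cancel₀ hs0 h3).symm
    · rw [← he] at h4
      exact (key r r₂ h2 h3 h4).elim
    · rw [he] at h3
      exact (key r₂ r h1 h4 h3).elim
    · rw [he, h4] at h3
      exact (mul_left_cancel₀ hs0 h3).symm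

/-- **moments of a twist** -/
theorem tw_sum {β : Eis → ℂ} (h : FS β) {a b : ℕ} (hb : b < 3) {W : Eis → ℝ}
    {M Z : ℝ} (hM : 0 ≤ M) (hW0 : ∀ r, 0 ≤ W r)
    (hW : ∀ r r', r ≠ 0 → r' ≠ 0 → nm r' ≤ 9 * nm r → W r ≤ M * W r') :
    ∑ r ∈ BF Z, W r * ‖TG (tw2 a b β) r‖ ^ 2 ≤ M * ∑ r ∈ BF (9 * Z), W r * ‖TG β r‖ ^ 2 := by
  simpa only [mul_one] using tw_sumG h hb (Z := Z) hM hW0 hW 1

/-- the subsequence of a twist -/
lemma tgf_tw2 {α : Eis → ℂ} (h : FS α) (a b : ℕ) {g : Eis} (hg : IsPrim g) (l : Eis) (t : ℝ) :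
    tgf (tw2 a b α) g l t = ‖TG (tw2 a b (fun m => α (g * m) * pw t (nm m))) l‖ ^ 2 := by
  unfold tgf
  have e1 : TG (fun m => tw2 a b α (g * m) * pw t (nm m)) l =
      conj (sy (w ^ a * lam ^ b) g) * TG (tw2 a b (fun m => α (g * m) * pw t (nm m))) l := by
    unfold CM106.TG tw2
    rw [← tsum_mul_left]
    refine tsum_congr fun m => ?_
    by_cases h0 : α (g * m) = 0
    · simp [h0]
    · have hm : IsPrim m := IsPrim.of_mul_left (h.prim _ h0) hg
      beta_reduce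
      rw [Char766.sy_mul_right hg hm, map_mul]
      ring
  rw [e1, norm_mul, RCLike.norm_conj, norm_wl hg, one_mul]

/-- **moments of a twist**, subsequences -/
theorem tw_tgf {α : Eis → ℂ} (h : FS α) {a b : ℕ} (hb : b < 3) {W : Eis → ℝ}
    {M Z : ℝ} (hM : 0 ≤ M) (hW0 : ∀ r, 0 ≤ W r)
    (hW : ∀ r r', r ≠ 0 → r' ≠ 0 → nm r' ≤ 9 * nm r → W r ≤ M * W r') {g : Eis} (hg : IsPrim g)
    (G : Eis) (t : ℝ) :
    ∑ r ∈ BF Z, W r * tgf (tw2 a b α) g (r * G) t ≤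
      M * ∑ r ∈ BF (9 * Z), W r * tgf α g (r * G) t := by
  have hF : FS (fun m => α (g * m) * pw t (nm m)) :=
    ⟨(h.fin.preimage (f := fun m => g * m) (fun x _ y _ hxy =>
      mul_left_cancel₀ hg.ne_zero hxy)).subset fun m hm => left_ne_zero_of_mul hm,
      fun m hm => IsPrim.of_mul_left (h.prim _ (left_ne_zero_of_mul hm)) hg⟩
  have h1 := tw_sumG hF hb (Z := Z) hM hW0 hW G (a := a)
  have e1 : ∑ r ∈ BF Z, W r * tgf (tw2 a b α) g (r * G) t = ∑ r ∈ BF Z, W r *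
      ‖TG (tw2 a b (fun m => α (g * m) * pw t (nm m))) (r * G)‖ ^ 2 :=
    Finset.sum_congr rfl fun r _ => by rw [tgf_tw2 h a b hg]
  rw [e1]
  exact h1

end Crest.Agent.R017.RGw813
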