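import Crest.Agent.R017.RGwA_813

/-!
# Row 17, C.REMg (RG by positivity), from the E1 inequality to the sequence itself, part B
(helper813): pointwise moments, windows, means, absorption
-/

set_option autoImplicit false

noncomputable section

open Complex MeasureTheory Filter Topology
open scoped ComplexConjugate Classical

namespace Crest.Agent.R017.RGw813

open Crest.Agent.R012 Crest.Agent.R012.Eis Crest.Agent.R012.MC
open Crest.Agent.R012.LS2 (S mem_S)
open Crest.Agent.R012.Weight600 (osc pw)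
open Crest.Agent.R017.CM106 (CS TG FS)
open Crest.Agent.R017.E1551
open Crest.Agent.R017.Win813

/-- pointwise moments -/
def PT (W : Eis → ℝ) (T : Finset Eis) (α : Eis → ℂ) (g : Eis) (t : ℝ) : ℝ :=
  ∑ r ∈ T, W r * tgf α g r t

lemma PT_nonneg {W : Eis → ℝ} {T : Finset Eis} (hW : ∀ r ∈ T, 0 ≤ W r) (α : Eis → ℂ) (g : Eis)
    (t : ℝ) : 0 ≤ PT W T α g t :=
  Finset.sum_nonneg fun r hr => mul_nonneg (hW r hr) (tgf_nonneg _ _ _ _)

lemma continuous_PT {α : Eis → ℂ} (h : FS α) {g : Eis} (hg : g ≠ 0) (W : Eis → ℝ)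
    (T : Finset Eis) : Continuous (PT W T α g) :=
  continuous_finsetSum _ fun r _ => (continuous_tgf h hg r).const_mul _

lemma PT_bdd {α : Eis → ℂ} (h : FS α) {g : Eis} (hg : g ≠ 0) {W : Eis → ℝ}
    {T : Finset Eis} (hW : ∀ r ∈ T, 0 ≤ W r) : ∃ M : ℝ, 0 ≤ M ∧ ∀ t, PT W T α g t ≤ M := by
  choose M hM using fun r => tgf_bdd h hg r
  have hM0 : ∀ r, 0 ≤ M r := fun r => (tgf_nonneg _ _ _ 0).trans (hM r 0)
  exact ⟨∑ r ∈ T, W r * M r, Finset.sum_nonneg fun r hr => mul_nonneg (hW r hr) (hM0 r),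
    fun t => Finset.sum_le_sum fun r hr => mul_le_mul_of_nonneg_left (hM r t) (hW r hr)⟩

lemma one_add_le {t s : ℝ} (J : ℕ) : (1 + |t + s|) ^ J ≤ (1 + |t|) ^ J * (1 + |s|) ^ J := by
  rw [← mul_pow]
  refine pow_le_pow_left₀ (by positivity) ?_ J
  have := abs_add_le t s
  nlinarith [mul_nonneg (abs_nonneg s) (abs_nonneg t)]

lemma one_add_eta {η : ℝ} (hη : 0 < η) (hη1 : η ≤ 1) (s : ℝ) (J : ℕ) :
    (1 + |s|) ^ J ≤ (η⁻¹) ^ J * (1 + η * |s|) ^ J := by
  rw [← mul_pow]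
  refine pow_le_pow_left₀ (by positivity) ?_ J
  rw [mul_add, mul_one, ← mul_assoc, inv_mul_cancel₀ hη.ne', one_mul]
  have : 1 ≤ η⁻¹ := (one_le_inv₀ hη).mpr hη1
  linarith

lemma ew_pt {A J : ℕ} (hAJ : J + 2 ≤ A) {η : ℝ} (hη : 0 < η) (hη1 : η ≤ 1) (s t : ℝ) :
    ew A η s * (1 + |t + s|) ^ J ≤ (1 + |t|) ^ J * (η⁻¹) ^ J * ew 2 η s := by
  have h1 := ew_shift hAJ hη s 0
  rw [zero_add, abs_zero, mul_zero, add_zero, one_pow, one_mul] at h1
  calc ew A η s * (1 + |t + s|) ^ J ≤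
      ew A η s * ((1 + |t|) ^ J * ((η⁻¹) ^ J * (1 + η * |s|) ^ J)) := by
        refine mul_le_mul_of_nonneg_left ((one_add_le J).trans ?_) (ew_nonneg hη s)
        exact mul_le_mul_of_nonneg_left (one_add_eta hη hη1 s J) (by positivity)
    _ = (1 + |t|) ^ J * (η⁻¹) ^ J * (ew A η s * (1 + η * |s|) ^ J) := by ring
    _ ≤ _ := mul_le_mul_of_nonneg_left h1 (by positivity)

lemma integrable_ew_mul {A : ℕ} (hA : 2 ≤ A) {η : ℝ} (hη : 0 < η) {f : ℝ → ℝ}
    (hf : Continuous f) {M : ℝ} (hM : ∀ t, |f t| ≤ M) : Integrable fun s => ew A η s * f s :=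
  (integrable_ew hA hη).mul_bdd (c := M) hf.aestronglyMeasurable
    (Eventually.of_forall fun s => by rw [Real.norm_eq_abs]; exact hM s)

/-- mean against `ew` of a function with a polynomial bound -/
lemma int_ew_pt {A J : ℕ} (hAJ : J + 2 ≤ A) {η : ℝ} (hη : 0 < η) (hη1 : η ≤ 1) {f : ℝ → ℝ}
    (hf : Continuous f) (hf0 : ∀ t, 0 ≤ f t) {M B : ℝ} (hM : ∀ t, f t ≤ M)
    (hB : ∀ t, f t ≤ B * (1 + |t|) ^ J) (hB0 : 0 ≤ B) (t : ℝ) :
    ∫ s, ew A η s * f (t + s) ≤ iA 2 * (η⁻¹) ^ J * (B * (1 + |t|) ^ J) := by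
  have hA : 2 ≤ A := by omega
  calc ∫ s, ew A η s * f (t + s) ≤ ∫ s, B * ((1 + |t|) ^ J * (η⁻¹) ^ J) * ew 2 η s := by
        refine integral_mono (integrable_ew_mul hA hη (M := M) (hf.comp (continuous_const.add
          continuous_id)) fun s => ?_) ((integrable_ew le_rfl hη).const_mul _) fun s => ?_
        · show |f (t + s)| ≤ M
          rw [abs_of_nonneg (hf0 _)]; exact hM _
        · calc ew A η s * f (t + s) ≤ ew A η s * (B * (1 + |t + s|) ^ J) :=
                mul_le_mul_of_nonneg_left (hB _) (ew_nonneg hη s)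
            _ = B * (ew A η s * (1 + |t + s|) ^ J) := by ring
            _ ≤ B * ((1 + |t|) ^ J * (η⁻¹) ^ J * ew 2 η s) :=
                mul_le_mul_of_nonneg_left (ew_pt hAJ hη hη1 s t) hB0
            _ = _ := by ring
    _ = _ := by rw [integral_const_mul, integral_ew 2 hη]; ring

/-- with the bound at scale `η⁻¹` -/
lemma int_ew_pt' {A J : ℕ} (hAJ : J + 2 ≤ A) {η : ℝ} (hη : 0 < η) {f : ℝ → ℝ}
    (hf : Continuous f) (hf0 : ∀ t, 0 ≤ f t) {M B : ℝ} (hM : ∀ t, f t ≤ M)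
    (hB : ∀ t, f t ≤ B * (1 + η * |t|) ^ J) (hB0 : 0 ≤ B) (t : ℝ) :
    ∫ s, ew A η s * f (t + s) ≤ iA 2 * (B * (1 + η * |t|) ^ J) := by
  have hA : 2 ≤ A := by omega
  calc ∫ s, ew A η s * f (t + s) ≤ ∫ s, B * (1 + η * |t|) ^ J * ew 2 η s := by
        refine integral_mono (integrable_ew_mul hA hη (M := M) (hf.comp (continuous_const.add
          continuous_id)) fun s => ?_) ((integrable_ew le_rfl hη).const_mul _) fun s => ?_
        · show |f (t + s)| ≤ M
          rw [abs_of_nonneg (hf0 _)]; exact hM _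
        · calc ew A η s * f (t + s) ≤ ew A η s * (B * (1 + η * |t + s|) ^ J) :=
                mul_le_mul_of_nonneg_left (hB _) (ew_nonneg hη s)
            _ = B * (ew A η s * (1 + η * |t + s|) ^ J) := by ring
            _ ≤ B * ((1 + η * |t|) ^ J * ew 2 η s) :=
                mul_le_mul_of_nonneg_left (ew_shift hAJ hη s t) hB0
            _ = _ := by ring
    _ = _ := by rw [integral_const_mul, integral_ew 2 hη]; ring

lemma jb_ew (A : ℕ) (u : ℝ) : jb (A : ℝ) u = ew A 1 u := by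
  unfold E1551.jb ew
  rw [one_mul, one_mul, Real.rpow_neg (by positivity), Real.rpow_natCast]

/-- **the moments of a window** -/
theorem PT_win {C η : ℝ} {B J : ℕ} (hC : 0 ≤ C) (hη : 0 < η) (hη1 : η ≤ 1) (hBJ : J + 2 ≤ B)
    {φ : ℝ → ℝ} (hφ : WK C η B φ) {α : Eis → ℂ} (h : FS α) {g : Eis} (hg : g ≠ 0) {W : Eis → ℝ}
    {T : Finset Eis} (hW : ∀ r ∈ T, 0 ≤ W r) {M : ℝ} (hM0 : 0 ≤ M)
    (hM : ∀ t, PT W T α g t ≤ M * (1 + |t|) ^ J) (t : ℝ) :
    PT W T (wn φ α) g t ≤ C ^ 2 * iA B * (iA 2 * (η⁻¹) ^ J * (M * (1 + |t|) ^ J)) := by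
  have hB2 : 2 ≤ B := by omega
  obtain ⟨M', hM'0, hM'⟩ := PT_bdd h hg hW
  have h1 := KS_win hC hη hB2 hφ (fun l m => G m * conj (sy l m)) h hg T W hW (fun r => r) t
  refine le_trans (show PT W T (wn φ α) g t ≤ _ from h1) ?_
  refine mul_le_mul_of_nonneg_left ?_ (mul_nonneg (by positivity) (iA_nonneg B))
  exact int_ew_pt hBJ hη hη1 (continuous_PT h hg W T) (PT_nonneg hW α g) hM' hM hM0 t

/-- twisting by `n^{it}` -/
lemma PT_pw {W : Eis → ℝ} {T : Finset Eis} {α : Eis → ℂ} (h : FS α) {g : Eis} (hg : g ≠ 0)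
    (t₀ t : ℝ) : PT W T (fun n => α n * pw t₀ (nm n)) g t = PT W T α g (t₀ + t) := by
  unfold PT
  exact Finset.sum_congr rfl fun r _ => by rw [tgf_pw h hg]

lemma tgf_one (α : Eis → ℂ) (κ : Eis) (t : ℝ) :
    tgf α 1 κ t = ‖TG (fun n => α n * pw t (nm n)) κ‖ ^ 2 := by
  unfold tgf
  simp only [one_mul]

lemma Vt_sq (β : Eis → ℂ) (κ : Eis) (t : ℝ) : ‖Vt β κ t‖ ^ 2 = tgf β 1 κ t := by
  rw [tgf_one]; rfl

lemma tgf_zero (α : Eis → ℂ) (κ : Eis) : tgf α 1 κ 0 = ‖TG α κ‖ ^ 2 := by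
  rw [← Vt_sq, Vt_zero]

lemma Wb_sg (A : ℝ) (β : Eis → ℂ) (g r : Eis) : Wb A (sg β g) r = ∫ t, jb A t * tgf β g r t := rfl

/-- sums of `Wb` -/
theorem sum_Wb {A : ℕ} (hA : 2 ≤ A) {α : Eis → ℂ} (h : FS α) {g : Eis} (hg : g ≠ 0)
    (W : Eis → ℝ) (T : Finset Eis) (t₀ : ℝ) :
    ∑ r ∈ T, W r * Wb (A : ℝ) (sg (fun n => α n * pw t₀ (nm n)) g) r =
      ∫ s, ew A 1 s * PT W T α g (t₀ + s) := by
  have hint : ∀ r, Integrable fun s => ew A 1 s * tgf α g r (t₀ + s) := by
    intro r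
    obtain ⟨M, hM⟩ := tgf_bdd h hg r
    exact integrable_ew_mul hA one_pos ((continuous_tgf h hg r).comp (continuous_const.add
      continuous_id)) fun s => by
        show |tgf α g r (t₀ + s)| ≤ M
        rw [abs_of_nonneg (tgf_nonneg _ _ _ _)]; exact hM _
  unfold PT
  simp_rw [Finset.mul_sum]
  rw [integral_finsetSum _ fun r _ => by
    refine ((hint r).const_mul (W r)).congr (Eventually.of_forall fun s => ?_)
    simp only
    ring]
  refine Finset.sum_congr rfl fun r _ => ?_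
  rw [Wb_sg, ← integral_const_mul]
  refine integral_congr_ae (Eventually.of_forall fun s => ?_)
  simp only
  rw [tgf_pw h hg, jb_ew]
  ring

/-- the window error of `E1pos` -/
theorem sum_win {A : ℕ} (hA : 2 ≤ A) {η : ℝ} (hη : 0 < η) {α : Eis → ℂ} (h : FS α)
    (W : Eis → ℝ) (T : Finset Eis) (t₀ : ℝ) :
    ∑ κ ∈ T, W κ * ∫ t, jb (A : ℝ) t * ‖Vt (fun n => α n * pw t₀ (nm n)) κ (t / η)‖ ^ 2 =
      ∫ s, ew A η s * PT W T α 1 (t₀ + s) := by
  have hint : ∀ r, Integrable fun s => ew A η s * tgf α 1 r (t₀ + s) := by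
    intro r
    obtain ⟨M, hM⟩ := tgf_bdd h one_ne_zero r
    exact integrable_ew_mul hA hη ((continuous_tgf h one_ne_zero r).comp (continuous_const.add
      continuous_id)) fun s => by
        show |tgf α 1 r (t₀ + s)| ≤ M
        rw [abs_of_nonneg (tgf_nonneg _ _ _ _)]; exact hM _
  unfold PT
  simp_rw [Finset.mul_sum]
  rw [integral_finsetSum _ fun r _ => by
    refine ((hint r).const_mul (W r)).congr (Eventually.of_forall fun s => ?_)
    simp only
    ring]
  refine Finset.sum_congr rfl fun κ _ => ?_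
  have e1 : ∫ t, jb (A : ℝ) t * ‖Vt (fun n => α n * pw t₀ (nm n)) κ (t / η)‖ ^ 2 =
      ∫ s, ew A η s * tgf α 1 κ (t₀ + s) := by
    have h2 := Measure.integral_comp_mul_left (fun t => jb (A : ℝ) t *
      ‖Vt (fun n => α n * pw t₀ (nm n)) κ (t / η)‖ ^ 2) η
    rw [abs_of_pos (inv_pos.mpr hη), smul_eq_mul] at h2
    have h3 : ∫ t, jb (A : ℝ) t * ‖Vt (fun n => α n * pw t₀ (nm n)) κ (t / η)‖ ^ 2 =
        η * ∫ x, (fun t => jb (A : ℝ) t *
          ‖Vt (fun n => α n * pw t₀ (nm n)) κ (t / η)‖ ^ 2) (η * x) := by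
      rw [h2, ← mul_assoc, mul_inv_cancel₀ hη.ne', one_mul]
    rw [h3, ← integral_const_mul]
    refine integral_congr_ae (Eventually.of_forall fun s => ?_)
    simp only
    rw [mul_div_cancel_left₀ _ hη.ne', Vt_sq, tgf_pw h one_ne_zero, jb_ew]
    unfold ew
    rw [one_mul, one_mul, abs_mul, abs_of_pos hη]
    ring
  rw [e1, ← integral_const_mul]
  refine integral_congr_ae (Eventually.of_forall fun s => ?_)
  simp only
  ring

/-! ### absorption with two kernels -/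

/-- **absorption** -/
theorem absorb2 {A J : ℕ} (hAJ : J + 2 ≤ A) {η a a' b E₀ T₀ : ℝ} (hη : 0 < η) (hη1 : η ≤ 1)
    (ha : 0 ≤ a) (ha' : 0 ≤ a') (hb : 0 ≤ b) (hE : 0 ≤ E₀) (F : ℝ → ℝ) (hF0 : ∀ t, 0 ≤ F t)
    (hFc : Continuous F) (hFb : ∀ t, F t ≤ T₀)
    (h : ∀ t, F t ≤ E₀ * (1 + η * |t|) ^ J + a * (∫ s, ew A η s * F (t + s)) +
      a' * (∫ s, ew A 1 s * F (t + s)) + b * F t)
    (hab : a * iA 2 + a' * iA 2 + b ≤ 1 / 2) (t : ℝ) :
    F t ≤ 2 * E₀ * (1 + η * |t|) ^ J := by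
  have hT0 : 0 ≤ T₀ := (hF0 t).trans (hFb t)
  have hA : 2 ≤ A := by omega
  have one_le : ∀ t : ℝ, (1 : ℝ) ≤ (1 + η * |t|) ^ J := fun t =>
    one_le_pow₀ (by linarith [mul_nonneg hη.le (abs_nonneg t)])
  have hi0 := iA_nonneg 2
  have key : ∀ n : ℕ, ∀ t, F t ≤ (2 * E₀ + T₀ / 2 ^ n) * (1 + η * |t|) ^ J := by
    intro n
    induction n with
    | zero =>
      intro t
      rw [pow_zero, div_one]
      calc F t ≤ T₀ := hFb t
        _ ≤ (2 * E₀ + T₀) * 1 := by linarith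
        _ ≤ _ := mul_le_mul_of_nonneg_left (one_le t) (by positivity)
    | succ n ih =>
      intro t
      set M := 2 * E₀ + T₀ / 2 ^ n with hM
      have hM0 : 0 ≤ M := by positivity
      set v := (1 + η * |t|) ^ J with hv
      have hv0 : 0 ≤ v := by positivity
      have h1 : ∫ s, ew A η s * F (t + s) ≤ iA 2 * (M * v) :=
        int_ew_pt' hAJ hη hFc hF0 hFb ih hM0 t
      have h2 : ∫ s, ew A 1 s * F (t + s) ≤ iA 2 * (M * v) := by
        have hi1 : Integrable fun s => ew A 1 s * F (t + s) :=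
          integrable_ew_mul hA one_pos (hFc.comp (continuous_const.add continuous_id))
            fun s => by
              show |F (t + s)| ≤ T₀
              rw [abs_of_nonneg (hF0 _)]; exact hFb _
        calc ∫ s, ew A 1 s * F (t + s) ≤ ∫ s, M * v * ew 2 1 s := by
              refine integral_mono hi1 ((integrable_ew le_rfl one_pos).const_mul _) fun s => ?_
              have h4 : (1 + η * |t + s|) ^ J ≤ v * (1 + 1 * |s|) ^ J := by
                rw [hv, ← mul_pow]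
                refine pow_le_pow_left₀ (by positivity) ?_ J
                have h5 := abs_add_le t s
                have h6 := mul_le_mul_of_nonneg_left h5 hη.le
                have h7 := mul_le_mul_of_nonneg_right hη1 (abs_nonneg s)
                have h8 : 0 ≤ η * |t| * |s| := by positivity
                nlinarith
              have h9 := ew_shift hAJ one_pos s 0
              rw [zero_add, abs_zero, mul_zero, add_zero, one_pow, one_mul (ew 2 1 s)] at h9
              calc ew A 1 s * F (t + s) ≤ ew A 1 s * (M * (v * (1 + 1 * |s|) ^ J)) := by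
                    refine mul_le_mul_of_nonneg_left ((ih (t + s)).trans ?_)
                      (ew_nonneg one_pos s)
                    exact mul_le_mul_of_nonneg_left h4 hM0
                _ = M * v * (ew A 1 s * (1 + 1 * |s|) ^ J) := by ring
                _ ≤ M * v * ew 2 1 s := mul_le_mul_of_nonneg_left h9 (by positivity)
          _ = _ := by rw [integral_const_mul, integral_ew 2 one_pos]; ring
      have h3 : F t ≤ M * v := ih t
      have h6 : E₀ + 1 / 2 * M = 2 * E₀ + T₀ / 2 ^ (n + 1) := by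
        rw [hM, pow_succ]; field_simp; ring
      calc F t ≤ E₀ * v + a * (∫ s, ew A η s * F (t + s)) + a' * (∫ s, ew A 1 s * F (t + s)) +
            b * F t := h t
        _ ≤ E₀ * v + a * (iA 2 * (M * v)) + a' * (iA 2 * (M * v)) + b * (M * v) := by
            gcongr
        _ = (E₀ + (a * iA 2 + a' * iA 2 + b) * M) * v := by ring
        _ ≤ (E₀ + 1 / 2 * M) * v := by gcongr
        _ = _ := by rw [h6]
  have hlim : Tendsto (fun n : ℕ => (2 * E₀ + T₀ / 2 ^ n) * (1 + η * |t|) ^ J) atTop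
      (𝓝 ((2 * E₀ + 0) * (1 + η * |t|) ^ J)) := by
    refine Tendsto.mul_const _ (Tendsto.const_add _ ?_)
    have h7 := (tendsto_pow_atTop_nhds_zero_of_lt_one (r := (1 / 2 : ℝ)) (by norm_num)
      (by norm_num)).const_mul T₀
    rw [mul_zero] at h7
    refine h7.congr fun n => ?_
    rw [one_div, inv_pow, div_eq_mul_inv]
  rw [add_zero] at hlim
  exact ge_of_tendsto' hlim fun n => key n t

end Crest.Agent.R017.RGw813
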