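import Crest.Agent.R017.RGwF_813

/-!
# Row 17, C.REMg (RG by positivity), part H (helper813): means instead of pointwise errors,
the functional `EH`, the far tail
-/

set_option autoImplicit false

noncomputable section

open Complex MeasureTheory Filter Topology
open scoped ComplexConjugate Classical

namespace Crest.Agent.R017.RGw813

open Crest.Agent.R012 Crest.Agent.R012.Eis Crest.Agent.R012.MC
open Crest.Agent.R012.LS2 (S mem_S)
open Crest.Agent.R012.Weight600 (osc pw)
open Crest.Agent.R017.CM106 (CS TG FS)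
open Crest.Agent.R017.C70 (JW)
open Crest.Agent.R017.E1551
open Crest.Agent.R017.Win813

/-- the mean of a window -/
lemma mean_win {A B J : ℕ} (hA : 2 ≤ A) (hBJ : J + 2 ≤ B) {η c M T T' : ℝ} (hη : 0 < η)
    (hη1 : η ≤ 1) (hc : 0 ≤ c) (hM0 : 0 ≤ M) {f f' : ℝ → ℝ} (hf : Continuous f)
    (hf0 : ∀ t, 0 ≤ f t) (hfT : ∀ t, f t ≤ T) (hf' : Continuous f')
    (hf'0 : ∀ t, 0 ≤ f' t) (hfT' : ∀ t, f' t ≤ T')
    (h : ∀ t, f' t ≤ c * ∫ s, ew B η s * f (t + s))
    (hM : ∀ t, ∫ u, ew A 1 u * f (t + u) ≤ M * (1 + |t|) ^ J) (t : ℝ) :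
    ∫ u, ew A 1 u * f' (t + u) ≤ c * (iA 2 * (η⁻¹) ^ J * (M * (1 + |t|) ^ J)) := by
  have hB2 : 2 ≤ B := by omega
  have habs : ∀ t, |f t| ≤ T := fun t => by rw [abs_of_nonneg (hf0 t)]; exact hfT t
  -- swap
  have hint : Integrable (Function.uncurry fun u s => ew A 1 u * (ew B η s * f (t + u + s)))
      (volume.prod volume) := by
    have h1 : Integrable (fun p : ℝ × ℝ => ew A 1 p.1 * ew B η p.2) (volume.prod volume) :=
      (integrable_ew hA one_pos).mul_prod (integrable_ew hB2 hη)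
    have h2 : Integrable (fun p : ℝ × ℝ => (ew A 1 p.1 * ew B η p.2) * f (t + p.1 + p.2))
        (volume.prod volume) :=
      h1.mul_bdd (c := T) (hf.comp ((continuous_const.add continuous_fst).add
        continuous_snd)).aestronglyMeasurable
        (Eventually.of_forall fun p => by rw [Real.norm_eq_abs]; exact habs _)
    refine h2.congr (Eventually.of_forall fun p => ?_)
    simp only [Function.uncurry]; ring
  have e1 : ∫ u, ew A 1 u * ∫ s, ew B η s * f (t + u + s) =
      ∫ s, ew B η s * ∫ u, ew A 1 u * f (t + s + u) := by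
    calc ∫ u, ew A 1 u * ∫ s, ew B η s * f (t + u + s) =
          ∫ u, ∫ s, ew A 1 u * (ew B η s * f (t + u + s)) := by
          congr 1; funext u; rw [integral_const_mul]
      _ = ∫ s, ∫ u, ew A 1 u * (ew B η s * f (t + u + s)) := integral_integral_swap hint
      _ = _ := by
          congr 1; funext s
          rw [← integral_const_mul]
          congr 1; funext u
          rw [show t + u + s = t + s + u by ring]
          ring
  have hR : Integrable fun u => ew A 1 u * (c * ∫ s, ew B η s * f (t + u + s)) := by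
    have h1 := hint.integral_prod_left.const_mul c
    refine h1.congr (Eventually.of_forall fun u => ?_)
    simp only [Function.uncurry]
    rw [integral_const_mul]
    ring
  calc ∫ u, ew A 1 u * f' (t + u) ≤ ∫ u, ew A 1 u * (c * ∫ s, ew B η s * f (t + u + s)) := by
        refine integral_mono (integrable_ew_mul hA one_pos (M := T')
          (hf'.comp (continuous_const.add continuous_id)) fun s => ?_) hR fun u => ?_
        · show |f' (t + s)| ≤ T'
          rw [abs_of_nonneg (hf'0 _)]; exact hfT' _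
        · exact mul_le_mul_of_nonneg_left (h (t + u)) (ew_nonneg one_pos u)
    _ = c * ∫ u, ew A 1 u * ∫ s, ew B η s * f (t + u + s) := by
        rw [← integral_const_mul]
        congr 1; funext u; ring
    _ = c * ∫ s, ew B η s * ∫ u, ew A 1 u * f (t + s + u) := by rw [e1]
    _ ≤ c * ∫ s, M * ((1 + |t|) ^ J * (η⁻¹) ^ J) * ew 2 η s := by
        refine mul_le_mul_of_nonneg_left ?_ hc
        refine integral_mono_of_nonneg (Eventually.of_forall fun s => ?_)
          ((integrable_ew le_rfl hη).const_mul _) (Eventually.of_forall fun s => ?_)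
        · exact mul_nonneg (ew_nonneg hη s) (integral_nonneg fun u =>
            mul_nonneg (ew_nonneg one_pos u) (hf0 _))
        · show ew B η s * ∫ u, ew A 1 u * f (t + s + u) ≤
            M * ((1 + |t|) ^ J * (η⁻¹) ^ J) * ew 2 η s
          calc ew B η s * ∫ u, ew A 1 u * f (t + s + u) ≤
                ew B η s * (M * (1 + |t + s|) ^ J) :=
                mul_le_mul_of_nonneg_left (hM (t + s)) (ew_nonneg hη s)
            _ = M * (ew B η s * (1 + |t + s|) ^ J) := by ring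
            _ ≤ M * ((1 + |t|) ^ J * (η⁻¹) ^ J * ew 2 η s) :=
                mul_le_mul_of_nonneg_left (ew_pt hBJ hη hη1 s t) hM0
            _ = _ := by ring
    _ = _ := by rw [integral_const_mul, integral_ew 2 hη]; ring

/-- the mean functional -/
def MG {ι : Type} (A : ℕ) (X : Finset ι) (W : ι → ℝ) (g l : ι → Eis) (α : Eis → ℂ)
    (t : ℝ) : ℝ :=
  ∑ x ∈ X, W x * (∫ u, jb (A : ℝ) u * tgf (fun n => α n * pw t (nm n)) (g x) (l x) u)

section

variable {ι : Type} {X : Finset ι} {W : ι → ℝ} {g l : ι → Eis}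

lemma MG_eq {A : ℕ} (hA : 2 ≤ A) {α : Eis → ℂ} (h : FS α) (hg : ∀ x ∈ X, g x ≠ 0) (t : ℝ) :
    MG A X W g l α t = ∫ s, ew A 1 s * PG X W g l α (t + s) := by
  unfold MG
  rw [← sum_int hA one_pos h hg]
  refine Finset.sum_congr rfl fun x hx => ?_
  congr 1
  refine integral_congr_ae (Eventually.of_forall fun s => ?_)
  simp only
  rw [tgf_pw h (hg x hx), jb_ew]

lemma MG_nonneg {A : ℕ} (hW : ∀ x ∈ X, 0 ≤ W x) (α : Eis → ℂ) (t : ℝ) :
    0 ≤ MG A X W g l α t :=
  Finset.sum_nonneg fun x hx => mul_nonneg (hW x hx) (integral_nonneg fun u =>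
    mul_nonneg (jb_pos _ u).le (tgf_nonneg _ _ _ _))

/-- comparison of pointwise functionals gives comparison of means -/
lemma MG_le {ι' : Type} {X' : Finset ι'} {W' : ι' → ℝ} {g' l' : ι' → Eis} {A : ℕ} (hA : 2 ≤ A)
    {α β : Eis → ℂ} (hα : FS α) (hβ : FS β) (hg : ∀ x ∈ X, g x ≠ 0) (hg' : ∀ x ∈ X', g' x ≠ 0)
    (hW : ∀ x ∈ X, 0 ≤ W x) (hW' : ∀ x ∈ X', 0 ≤ W' x) {c : ℝ}
    (h : ∀ t, PG X W g l α t ≤ c * PG X' W' g' l' β t) (t : ℝ) :
    MG A X W g l α t ≤ c * MG A X' W' g' l' β t := by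
  obtain ⟨M, hM0, hM⟩ := PG_bdd (l := l) hα hg hW
  obtain ⟨M', hM'0, hM'⟩ := PG_bdd (l := l') hβ hg' hW'
  rw [MG_eq hA hα hg, MG_eq hA hβ hg', ← integral_const_mul]
  refine integral_mono (integrable_ew_mul hA one_pos (M := M) ((continuous_PG hα hg).comp
    (continuous_const.add continuous_id)) fun s => ?_)
    ((integrable_ew_mul hA one_pos (M := M') ((continuous_PG hβ hg').comp
    (continuous_const.add continuous_id)) fun s => ?_).const_mul c) fun s => ?_
  · show |PG X W g l α (t + s)| ≤ M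
    rw [abs_of_nonneg (PG_nonneg hW _ _)]; exact hM _
  · show |PG X' W' g' l' β (t + s)| ≤ M'
    rw [abs_of_nonneg (PG_nonneg hW' _ _)]; exact hM' _
  · calc ew A 1 s * PG X W g l α (t + s) ≤ ew A 1 s * (c * PG X' W' g' l' β (t + s)) :=
          mul_le_mul_of_nonneg_left (h _) (ew_nonneg one_pos s)
      _ = _ := by ring

/-- **transfer of a mean functional to the twisted windows** -/
theorem MG_bt {C η : ℝ} {A B J : ℕ} (hC : 0 ≤ C) (hη : 0 < η) (hη1 : η ≤ 1) (hBJ : J + 2 ≤ B)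
    (hA : 2 ≤ A) {φ : ℝ → ℝ} (hφ : WK C η B φ) {α : Eis → ℂ} (h : FS α)
    (hg : ∀ x ∈ X, g x ≠ 0) (hW : ∀ x ∈ X, 0 ≤ W x) {M : ℝ} (hM0 : 0 ≤ M) (p : ℕ × ℕ)
    (hM : ∀ t, MG A X W g l (tw2 p.1 p.2 α) t ≤ M * (1 + |t|) ^ J) (t : ℝ) :
    MG A X W g l (bt φ α p) t ≤ C ^ 2 * iA B * iA 2 * (η⁻¹) ^ J * M * (1 + |t|) ^ J := by
  have hB2 : 2 ≤ B := by omega
  have e1 : bt φ α p = wn φ (tw2 p.1 p.2 α) := (wn_tw2 φ p.1 p.2 α).symm
  have hF := FS_tw2 h p.1 p.2
  obtain ⟨M1, hM10, hM1⟩ := PG_bdd (l := l) hF hg hW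
  obtain ⟨M2, hM20, hM2⟩ := PG_bdd (l := l) (FS_bt h φ p) hg hW
  have h1 := mean_win (A := A) (B := B) (J := J) (η := η) (c := C ^ 2 * iA B) (M := M)
    (f := PG X W g l (tw2 p.1 p.2 α)) (f' := PG X W g l (bt φ α p)) hA hBJ hη hη1
    (mul_nonneg (by positivity) (iA_nonneg B)) hM0 (continuous_PG hF hg) (PG_nonneg hW _) hM1
    (continuous_PG (FS_bt h φ p) hg) (PG_nonneg hW _) hM2 (fun t => by
      rw [e1]
      calc PG X W g l (wn φ (tw2 p.1 p.2 α)) t ≤ ∑ x ∈ X, W x * (C ^ 2 * iA B *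
            ∫ s, ew B η s * tgf (tw2 p.1 p.2 α) (g x) (l x) (t + s)) :=
            Finset.sum_le_sum fun x hx => mul_le_mul_of_nonneg_left
              (tgf_win hC hη hB2 hφ hF (hg x hx) (l x) t) (hW x hx)
        _ = C ^ 2 * iA B * ∑ x ∈ X, W x *
              ∫ s, ew B η s * tgf (tw2 p.1 p.2 α) (g x) (l x) (t + s) := by
            rw [Finset.mul_sum]
            exact Finset.sum_congr rfl fun x _ => by ring
        _ = _ := by rw [sum_int hB2 hη hF hg])
    (fun t => by rw [← MG_eq hA hF hg]; exact hM t) t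
  rw [MG_eq hA (FS_bt h φ p) hg]
  refine h1.trans (le_of_eq ?_)
  ring

end

end Crest.Agent.R017.RGw813
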