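import Crest.Agent.R017.RGwH_813

/-!
# Row 17, C.REMg (RG by positivity), part I (helper813): `rg_absorb` with the errors `EG` in the
mean form (`rg_absorb_m`)
-/

set_option autoImplicit false

noncomputable section

open Complex MeasureTheory Filter Topology
open scoped ComplexConjugate Classical

namespace Crest.Agent.R017.RGw813

open Crest.Agent.R012 Crest.Agent.R012.Eis Crest.Agent.R012.MC
open Crest.Agent.R012.LS2 (S mem_S)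
open Crest.Agent.R012.Weight600 (osc pw)
open Crest.Agent.R017.CM106 (CS TG FS)
open Crest.Agent.R017.C70 (JW)
open Crest.Agent.R017.E1551
open Crest.Agent.R017.Win813

/-- the constant of `rg_window_m` -/
def kwm (c C Cw r i2 iB : ℝ) : ℝ :=
  36 / c * r + (6 + 36 * C * i2 / c) * (27 * r * (Cw ^ 2 * iB * i2)) +
    46656 / c ^ 2 * (C * (C * i2 + c)) * (6 * r * (Cw ^ 2 * iB * i2) + (Cw * iB) ^ 2)

/-- **one window, in terms of the sequence itself** -/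
theorem rg_window_m {c C K X X' Y η D Y₀ r Cw B E : ℝ} {A Bw J N₀ N₁ : ℕ} {ρ : ℕ → ℝ}
    {w : ℝ → ℝ} (hc : 0 < c)
    (hE1 : E1In c (c / 1296) C A K X' Y η Y₀ N₁ ρ w
      (fun β => 2 * cP w * K ^ (2 / 3 : ℝ) * (XJw ρ (JW D Y₀ N₁) β).re)
      (fun β => EG A K X' Y Y₀ N₁ β + (2 + Ct Y) * Et A B K X' Y N₀ β))
    (hAJ : J + 2 ≤ A) (hBJ : J + 2 ≤ Bw) (hC : 0 ≤ C) (hCw : 0 ≤ Cw) (hr : 1 ≤ r) (hB : 1 ≤ B)
    (hK : 0 < K) (hX : 0 < X) (hX' : 0 < X') (hXX : X' ≤ r * X) (hY : 1 ≤ Y) (hη : 0 < η)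
    (hη1 : η ≤ c / (1296 * (C * iA 2 + c))) (hN₀ : 1 ≤ N₀)
    (hρ : Antitone ρ) (hρ0 : ∀ n, 0 ≤ ρ n) (hρ1 : ∀ n, ρ n ≤ 1)
    {φ : ℝ → ℝ} (hφ : WK Cw η Bw φ) (hφs : ∀ u, φ u ≠ 0 → |u - Real.log X'| ≤ η / 2)
    {α : Eis → ℂ} (hα : ∀ n, α n ≠ 0 → n ∈ S Y) (hE : 0 ≤ E)
    (hLB : ∀ p ∈ T9, ∀ t : ℝ, Dg w K Y (fun n => bt φ α p n * pw t (nm n)) +
      2 * cP w * K ^ (2 / 3 : ℝ) *
        (XJw ρ (JW D Y₀ N₁) (fun n => bt φ α p n * pw t (nm n))).re -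
      SqP w K (fun n => bt φ α p n * pw t (nm n)) ≤ (K / X) * (E * (1 + |t|) ^ J))
    (hLo : ∀ t : ℝ, ∑ j ∈ BF (9 * Y₀), lm K X 1 j *
      ‖TG (fun m => α m * pw t (nm m)) j‖ ^ 2 ≤ E * (1 + |t|) ^ J)
    (hEG : ∀ t : ℝ, EG (A : ℝ) K X Y (9 * Y₀) (9 * N₁) (fun n => α n * pw t (nm n)) ≤
      E * (1 + |t|) ^ J)
    (hEt : (2 + Ct Y) * Et A B K (r * X) Y N₀ α ≤ E) :
    ∑ κ ∈ JB Y₀ N₁, ow ρ K X' κ * ‖TG (wn φ α) κ‖ ^ 2 ≤
      kwm c C Cw r (iA 2) (iA Bw) * (1 + Real.log Y) ^ 2 * (η⁻¹) ^ (2 * J) * E := by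
  have hY0 : 0 ≤ Y := by linarith
  have hF := FS_of_S hY0 hα
  have hi2 := iA_nonneg 2
  have hiB := iA_nonneg Bw
  have hlog := Real.log_nonneg hY
  have hCt := Ct_nonneg Y
  have hD0 : 0 < C * iA 2 + c := by positivity
  have hη1' : η ≤ 1 := by
    refine hη1.trans ?_
    rw [div_le_one (by positivity)]
    nlinarith [mul_nonneg hC hi2]
  have hηi : 1 ≤ η⁻¹ := (one_le_inv₀ hη).mpr hη1'
  set H : ℝ := (η⁻¹) ^ J with hH
  have hH1 : 1 ≤ H := one_le_pow₀ hηi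
  have hr0 : 0 ≤ r := by linarith
  have hP1 : ∀ t : ℝ, (1 : ℝ) ≤ (1 + |t|) ^ J := fun t =>
    one_le_pow₀ (by linarith [abs_nonneg t])
  -- the low edge
  set e₁ : ℝ := 27 * r * (Cw ^ 2 * iA Bw * iA 2) * H * E with he₁
  have he₁0 : 0 ≤ e₁ := by rw [he₁]; positivity
  have hEd : ∀ t, Ed K X' Y₀ φ α t ≤ e₁ * (1 + |t|) ^ J := by
    intro t
    have h1 : ∀ p ∈ T9, PT (lm K X' 1) (BF Y₀) (bt φ α p) 1 t ≤
        Cw ^ 2 * iA Bw * iA 2 * H * (3 * r * E) * (1 + |t|) ^ J := by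
      intro p hp
      have h2 := PG_bt (X := BF Y₀) (W := lm K X' 1) (g := fun _ => 1) (l := fun r => r)
        hCw hη hη1' hBJ hφ hF (fun _ _ => one_ne_zero) (fun j _ => lm_nonneg hK.le hX'.le _ j)
        (M := 3 * r * E) (by positivity) p (fun t => by
          refine (PT_tw hK hX hX' hr hXX hF (mem_T9.1 hp).2 t).trans ?_
          rw [mul_assoc (3 * r)]
          exact mul_le_mul_of_nonneg_left (hLo t) (by positivity)) t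
      exact h2
    have h3 := Finset.sum_le_sum h1
    rw [Finset.sum_const, nsmul_eq_mul, card_T9] at h3
    refine (show Ed K X' Y₀ φ α t ≤ _ from h3).trans (le_of_eq ?_)
    rw [he₁]; ring
  -- the errors
  set sg : ℝ := (6 * r * (Cw ^ 2 * iA Bw * iA 2) + (Cw * iA Bw) ^ 2) * H * E with hsg
  have hsg0 : 0 ≤ sg := by rw [hsg]; positivity
  have hEr : ∀ p ∈ T9, ∀ t : ℝ, EG A K X' Y Y₀ N₁ (fun n => bt φ α p n * pw t (nm n)) +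
      (2 + Ct Y) * Et A B K X' Y N₀ (fun n => bt φ α p n * pw t (nm n)) ≤
      sg * (1 + |t|) ^ J := by
    intro p hp t
    have hA2 : 2 ≤ A := by omega
    have hW : ∀ t, MG A (XE Y (9 * N₁)) (WE K X) gE lE α t ≤ E * (1 + |t|) ^ J := fun t => by
      have h1 := hEG t
      rw [EG_eq] at h1
      have h2 : 0 ≤ MG A (XE Y (9 * Y₀)) (LE K X) gE lE α t :=
        MG_nonneg (fun x _ => LE_nonneg hK.le hX.le x) _ _
      have h3 : MG A (XE Y (9 * N₁)) (WE K X) gE lE α t + MG A (XE Y (9 * Y₀)) (LE K X) gE lE α t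
        ≤ E * (1 + |t|) ^ J := h1
      linarith
    have hL : ∀ t, MG A (XE Y (9 * Y₀)) (LE K X) gE lE α t ≤ E * (1 + |t|) ^ J := fun t => by
      have h1 := hEG t
      rw [EG_eq] at h1
      have h2 : 0 ≤ MG A (XE Y (9 * N₁)) (WE K X) gE lE α t :=
        MG_nonneg (fun x _ => WE_nonneg hK.le hX.le x) _ _
      have h3 : MG A (XE Y (9 * N₁)) (WE K X) gE lE α t + MG A (XE Y (9 * Y₀)) (LE K X) gE lE α t
        ≤ E * (1 + |t|) ^ J := h1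
      linarith
    have b1 : ∑ x ∈ XE Y N₁, WE K X' x * (∫ u, jb (A : ℝ) u *
        tgf (fun n => bt φ α p n * pw t (nm n)) (gE x) (lE x) u) ≤
        Cw ^ 2 * iA Bw * iA 2 * (η⁻¹) ^ J * (3 * r * E) * (1 + |t|) ^ J :=
      MG_bt (X := XE Y N₁) (W := WE K X') (g := gE) (l := lE) hCw hη hη1' hBJ
      hA2 hφ hF (fun x hx => gE_ne hY0 hx) (fun x _ => WE_nonneg hK.le hX'.le x)
      (M := 3 * r * E) (by positivity) p (fun t => by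
        refine (MG_le hA2 (FS_tw2 hF p.1 p.2) hF (fun x hx => gE_ne hY0 hx)
          (fun x hx => gE_ne hY0 hx) (fun x _ => WE_nonneg hK.le hX'.le x)
          (fun x _ => WE_nonneg hK.le hX.le x)
          (PG_tw_W hK hX hX' hY0 hr hXX hF (mem_T9.1 hp).2) t).trans ?_
        rw [mul_assoc (3 * r)]
        exact mul_le_mul_of_nonneg_left (hW t) (by positivity)) t
    have b2 : ∑ x ∈ XE Y Y₀, LE K X' x * (∫ u, jb (A : ℝ) u *
        tgf (fun n => bt φ α p n * pw t (nm n)) (gE x) (lE x) u) ≤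
        Cw ^ 2 * iA Bw * iA 2 * (η⁻¹) ^ J * (3 * r * E) * (1 + |t|) ^ J :=
      MG_bt (X := XE Y Y₀) (W := LE K X') (g := gE) (l := lE) hCw hη hη1' hBJ
      hA2 hφ hF (fun x hx => gE_ne hY0 hx) (fun x _ => LE_nonneg hK.le hX'.le x)
      (M := 3 * r * E) (by positivity) p (fun t => by
        refine (MG_le hA2 (FS_tw2 hF p.1 p.2) hF (fun x hx => gE_ne hY0 hx)
          (fun x hx => gE_ne hY0 hx) (fun x _ => LE_nonneg hK.le hX'.le x)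
          (fun x _ => LE_nonneg hK.le hX.le x)
          (PG_tw_L hK hX hX' hY0 hr hXX hF (mem_T9.1 hp).2) t).trans ?_
        rw [mul_assoc (3 * r)]
        exact mul_le_mul_of_nonneg_left (hL t) (by positivity)) t
    have hN0' : (0 : ℝ) < N₀ := by exact_mod_cast hN₀
    have b3 := Et_bt (A := A) (N₀ := N₀) (Y := Y) hB hK hX' hN0' hXX hF
      (fun u => hφ.le hη (by omega : 2 ≤ Bw) u) p t
    have b4 : (2 + Ct Y) * Et A B K X' Y N₀ (fun n => bt φ α p n * pw t (nm n)) ≤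
        (Cw * iA Bw) ^ 2 * E := by
      calc _ ≤ (2 + Ct Y) * ((Cw * iA Bw) ^ 2 * Et A B K (r * X) Y N₀ α) :=
            mul_le_mul_of_nonneg_left b3 (by positivity)
        _ = (Cw * iA Bw) ^ 2 * ((2 + Ct Y) * Et A B K (r * X) Y N₀ α) := by ring
        _ ≤ _ := mul_le_mul_of_nonneg_left hEt (by positivity)
    have b5 : (Cw * iA Bw) ^ 2 * E ≤ (Cw * iA Bw) ^ 2 * E * (H * (1 + |t|) ^ J) :=
      le_mul_of_one_le_right (by positivity) (one_le_mul_of_one_le_of_one_le hH1 (hP1 t))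
    rw [EG_eq]
    refine (add_le_add (add_le_add b1 b2) (b4.trans b5)).trans (le_of_eq ?_)
    rw [hsg, hH]
    ring
  have hLB' : ∀ p ∈ T9, ∀ t : ℝ, Dg w K Y (fun n => bt φ α p n * pw t (nm n)) +
      2 * cP w * K ^ (2 / 3 : ℝ) *
        (XJw ρ (JW D Y₀ N₁) (fun n => bt φ α p n * pw t (nm n))).re -
      SqP w K (fun n => bt φ α p n * pw t (nm n)) ≤ (K / X') * (r * E * (1 + |t|) ^ J) := by
    intro p hp t
    refine (hLB p hp t).trans ?_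
    have h1 : K / X ≤ K / X' * r := by
      rw [div_mul_eq_mul_div, div_le_div_iff₀ hX hX']
      calc K * X' ≤ K * (r * X) := mul_le_mul_of_nonneg_left hXX hK.le
        _ = K * r * X := by ring
    calc (K / X) * (E * (1 + |t|) ^ J) ≤ (K / X' * r) * (E * (1 + |t|) ^ J) :=
          mul_le_mul_of_nonneg_right h1 (by positivity)
      _ = _ := by ring
  have hfin := rg_one hc hE1 hAJ hC hK hX' hY hη hη1 hρ hρ0 hρ1 (φ := φ) hF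
    (fun p _ t => adm_bt hφs hα p t) (a₁ := r * E) (by positivity) he₁0 hsg0 hLB' hEd hEr
  refine hfin.trans ?_
  set L : ℝ := 1 + Real.log Y with hL
  have hL1 : 1 ≤ L := by rw [hL]; linarith
  have hL2 : 1 ≤ L ^ 2 := one_le_pow₀ hL1
  have e1 : (η⁻¹) ^ (2 * J) = H * H := by rw [hH, ← pow_add]; congr 1; ring
  rw [e1]
  have hHH : 1 ≤ H * H := one_le_mul_of_one_le_of_one_le hH1 hH1
  have t1 : 36 / c * (r * E) * H ≤ 36 / c * r * (L ^ 2 * (H * H) * E) := by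
    have h1 : H ≤ L ^ 2 * (H * H) := by
      calc H = 1 * (1 * H) := by ring
        _ ≤ L ^ 2 * (H * H) := by gcongr
    calc 36 / c * (r * E) * H = 36 / c * r * E * H := by ring
      _ ≤ 36 / c * r * E * (L ^ 2 * (H * H)) := by gcongr
      _ = _ := by ring
  have t2 : (6 + 36 * C * iA 2 / c) * e₁ * H ≤
      (6 + 36 * C * iA 2 / c) * (27 * r * (Cw ^ 2 * iA Bw * iA 2)) * (L ^ 2 * (H * H) * E) := by
    rw [he₁]
    calc (6 + 36 * C * iA 2 / c) * (27 * r * (Cw ^ 2 * iA Bw * iA 2) * H * E) * H =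
          (6 + 36 * C * iA 2 / c) * (27 * r * (Cw ^ 2 * iA Bw * iA 2)) *
            (1 * (H * H) * E) := by ring
      _ ≤ _ := by gcongr
  have t3 : 46656 / c ^ 2 * (C * (C * iA 2 + c)) * L ^ 2 * sg * H =
      46656 / c ^ 2 * (C * (C * iA 2 + c)) *
        (6 * r * (Cw ^ 2 * iA Bw * iA 2) + (Cw * iA Bw) ^ 2) * (L ^ 2 * (H * H) * E) := by
    rw [hsg]; ring
  calc (36 / c * (r * E) + (6 + 36 * C * iA 2 / c) * e₁ +
        46656 / c ^ 2 * (C * (C * iA 2 + c)) * L ^ 2 * sg) * H =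
      36 / c * (r * E) * H + (6 + 36 * C * iA 2 / c) * e₁ * H +
        46656 / c ^ 2 * (C * (C * iA 2 + c)) * L ^ 2 * sg * H := by ring
    _ ≤ 36 / c * r * (L ^ 2 * (H * H) * E) +
        (6 + 36 * C * iA 2 / c) * (27 * r * (Cw ^ 2 * iA Bw * iA 2)) * (L ^ 2 * (H * H) * E) +
        46656 / c ^ 2 * (C * (C * iA 2 + c)) *
        (6 * r * (Cw ^ 2 * iA Bw * iA 2) + (Cw * iA Bw) ^ 2) * (L ^ 2 * (H * H) * E) :=
        add_le_add (add_le_add t1 t2) t3.le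
    _ = kwm c C Cw r (iA 2) (iA Bw) * L ^ 2 * (H * H) * E := by unfold kwm; ring

/-- **RG: the absorbed inequality for the sequence itself.** The weight `w` is chosen once and
for all (404's sign lemma); `J` = polynomial growth in the height, `Aw` = order of the windows.
The exponent `J` of the height is preserved. -/
theorem rg_absorb_m : ∃ w : ℝ → ℝ, Wgt w ∧ (∀ x, 0 ≤ w x) ∧
    ∀ (J Aw : ℕ) (R B : ℝ), J + 2 ≤ Aw → 0 ≤ R → 1 ≤ B →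
    ∃ Cw C η₀ : ℝ, 0 ≤ Cw ∧ 0 ≤ C ∧ 0 < η₀ ∧ η₀ ≤ 1 ∧
    ∀ (K X Y η D Y₀ : ℝ) (N₀ N₁ : ℕ) (ρ : ℕ → ℝ), 0 < K → 0 < X → 1 ≤ Y → 0 < η → η ≤ η₀ →
      1 ≤ D → 1 ≤ N₀ → N₀ ≤ N₁ → ((N₁ : ℝ) ≤ D ^ 2 ∨ Y ≤ D) → Antitone ρ →
      (∀ n ≤ N₀, ρ n = 1) → (∀ n, N₁ < n → ρ n = 0) →
      ∀ α : Eis → ℂ, (∀ n, α n ≠ 0 → n ∈ S Y) →
      (∀ n, α n ≠ 0 → |Real.log (nm n) - Real.log X| ≤ R) → ∀ E : ℝ, 0 ≤ E →
      (∀ p ∈ T9, ∀ (t X' : ℝ) (φ : ℝ → ℝ), 0 < X' → |Real.log X' - Real.log X| ≤ R + 1 →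
        WK Cw η Aw φ → (∀ u, φ u ≠ 0 → |u - Real.log X'| ≤ η / 2) →
        Dg w K Y (fun n => bt φ α p n * pw t (nm n)) + 2 * cP w * K ^ (2 / 3 : ℝ) *
          (XJw ρ (JW D Y₀ N₁) (fun n => bt φ α p n * pw t (nm n))).re -
        SqP w K (fun n => bt φ α p n * pw t (nm n)) ≤ (K / X) * (E * (1 + |t|) ^ J)) →
      (∀ t : ℝ, ∑ j ∈ BF (9 * Y₀), lm K X 1 j *
        ‖TG (fun m => α m * pw t (nm m)) j‖ ^ 2 ≤ E * (1 + |t|) ^ J) →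
      (∀ t : ℝ, EG ((J + 2 : ℕ) : ℝ) K X Y (9 * Y₀) (9 * N₁) (fun n => α n * pw t (nm n)) ≤
        E * (1 + |t|) ^ J) →
      (2 + Ct Y) * Et ((J + 2 : ℕ) : ℝ) B K (Real.exp (R + 1) * X) Y N₀ α ≤ E →
      ∑ κ ∈ Wn Y₀ N₁, ρ (nm κ) * (min 1 (lm K X 1 κ) * ‖TG α κ‖ ^ 2) ≤
        C * (η⁻¹) ^ (2 * J + 2) * (1 + Real.log Y) ^ 2 * E := by
  obtain ⟨c, hc, h⟩ := E1posW2
  obtain ⟨w, hw, hw0, h1⟩ := h (c / 1296) (by positivity)
  refine ⟨w, hw, hw0, fun J Aw R B hJA hR hB => ?_⟩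
  have hA2 : (1 : ℝ) < ((J + 2 : ℕ) : ℝ) := by
    push_cast
    have : (0 : ℝ) ≤ J := Nat.cast_nonneg J
    linarith
  obtain ⟨C, hC, h2⟩ := h1 ((J + 2 : ℕ) : ℝ) B hA2 hB
  obtain ⟨Cw, hCw, h3⟩ := windows R hR Aw
  have hi2 := iA_nonneg 2
  have hiB := iA_nonneg Aw
  have hD0 : 0 < C * iA 2 + c := by positivity
  set r : ℝ := Real.exp (R + 1) with hr
  have hr1 : 1 ≤ r := Real.one_le_exp (by linarith)
  have hkwm : 0 ≤ kwm c C Cw r (iA 2) (iA Aw) := by unfold kwm; positivity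
  refine ⟨Cw, Cw ^ 2 * (r * kwm c C Cw r (iA 2) (iA Aw)), c / (1296 * (C * iA 2 + c)),
    by linarith, by positivity, by positivity, ?_, ?_⟩
  · rw [div_le_one (by positivity)]
    nlinarith [mul_nonneg hC hi2]
  intro K X Y η D Y₀ N₀ N₁ ρ hK hX hY hη hη₀ hD hN₀ hN hND hρ hρ1 hρ0 α hα hαR E hE hLB hLo
    hEG hEt
  have hY0 : 0 ≤ Y := by linarith
  have hη1 : η ≤ 1 := by
    refine hη₀.trans ?_
    rw [div_le_one (by positivity)]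
    nlinarith [mul_nonneg hC hi2]
  have hlog := Real.log_nonneg hY
  have hρ0' : ∀ n, 0 ≤ ρ n := fun n => by
    have h4 := hρ (show n ≤ max n (N₁ + 1) from le_max_left _ _)
    rw [hρ0 _ (lt_of_lt_of_le (Nat.lt_succ_self N₁) (le_max_right n (N₁ + 1)))] at h4
    exact h4
  have hρ1' : ∀ n, ρ n ≤ 1 := fun n => by
    have h4 := hρ (Nat.zero_le n)
    rwa [hρ1 0 (Nat.zero_le _)] at h4
  have hF := FS_of_S hY0 hα
  obtain ⟨I, φ, x, hI, hone, hx, hsupp, hWK⟩ := h3 η hη hη1 (Real.log X)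
  -- the windows
  have hwin : ∀ i ∈ I, ∑ κ ∈ JB Y₀ N₁, ow ρ K X κ * ‖TG (wn (φ i) α) κ‖ ^ 2 ≤
      r * (kwm c C Cw r (iA 2) (iA Aw) * (1 + Real.log Y) ^ 2 * (η⁻¹) ^ (2 * J) * E) := by
    intro i hi
    set X' : ℝ := Real.exp (x i) with hX'
    have hX'0 : 0 < X' := Real.exp_pos _
    have hlX : Real.log X' = x i := Real.log_exp _
    have hcl : |Real.log X' - Real.log X| ≤ R + 1 := by rw [hlX]; exact hx i hi
    have hXX : X' ≤ r * X := exp_close hX hX'0 hcl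
    have hXX2 : X ≤ r * X' := exp_close hX'0 hX (by rw [abs_sub_comm]; exact hcl)
    have hsupp' : ∀ u, φ i u ≠ 0 → |u - Real.log X'| ≤ η / 2 := fun u hu => by
      rw [hlX]; exact hsupp i u hu
    have hE1 : E1In c (c / 1296) C ((J + 2 : ℕ) : ℝ) K X' Y η Y₀ N₁ ρ w
        (fun β => 2 * cP w * K ^ (2 / 3 : ℝ) * (XJw ρ (JW D Y₀ N₁) β).re)
        (fun β => EG ((J + 2 : ℕ) : ℝ) K X' Y Y₀ N₁ β +
          (2 + Ct Y) * Et ((J + 2 : ℕ) : ℝ) B K X' Y N₀ β) := by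
      intro β hβ δ hδ hδ1
      have h5 := h2 K X' Y η D Y₀ N₀ N₁ ρ hK hX'0 hY hη hη1 hD hN₀ hN hND hρ hρ1 hρ0 β hβ δ
        hδ hδ1
      have a1 : ∑ κ ∈ JG Y₀ N₁, ow ρ K X' κ * ‖TG β κ‖ ^ 2 =
          ∑ κ ∈ (Wn Y₀ N₁).filter (fun κ => (3 : ℤ) ∣ κ.im),
            ρ (nm κ) * (min 1 (lm K X' 1 κ) * ‖TG β κ‖ ^ 2) :=
        Finset.sum_congr rfl fun κ _ => by unfold ow; ring
      have a2 : ∑ κ ∈ JN Y₀ N₁, ow ρ K X' κ * ‖TG β κ‖ ^ 2 =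
          ∑ κ ∈ (Wn Y₀ N₁).filter (fun κ => ¬ (3 : ℤ) ∣ κ.im),
            ρ (nm κ) * (min 1 (lm K X' 1 κ) * ‖TG β κ‖ ^ 2) :=
        Finset.sum_congr rfl fun κ _ => by unfold ow; ring
      have a3 : ∑ κ ∈ JB Y₀ N₁, ow ρ K X' κ *
            ∫ t, jb ((J + 2 : ℕ) : ℝ) t * ‖Vt β κ (t / η)‖ ^ 2 =
          ∑ κ ∈ Wn Y₀ N₁, ρ (nm κ) * (min 1 (lm K X' 1 κ) *
            ∫ t, jb ((J + 2 : ℕ) : ℝ) t * ‖Vt β κ (t / η)‖ ^ 2) :=
        Finset.sum_congr rfl fun κ _ => by unfold ow; ring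
      have a4 : ∑ κ ∈ JB Y₀ N₁, ow ρ K X' κ * Wb ((J + 2 : ℕ) : ℝ) β κ =
          ∑ κ ∈ Wn Y₀ N₁, ρ (nm κ) * (min 1 (lm K X' 1 κ) * Wb ((J + 2 : ℕ) : ℝ) β κ) :=
        Finset.sum_congr rfl fun κ _ => by unfold ow; ring
      rw [a1, a2, a3, a4]
      refine h5.trans (le_of_eq ?_)
      ring
    have h6 := rg_window_m hc hE1 le_rfl hJA hC (by linarith) hr1 hB hK hX hX'0 hXX hY hη hη₀ hN₀
      hρ hρ0' hρ1' (hWK i) hsupp' hα hE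
      (fun p hp t => hLB p hp t X' (φ i) hX'0 hcl (hWK i) hsupp') hLo hEG hEt
    calc ∑ κ ∈ JB Y₀ N₁, ow ρ K X κ * ‖TG (wn (φ i) α) κ‖ ^ 2 ≤
          ∑ κ ∈ JB Y₀ N₁, r * (ow ρ K X' κ * ‖TG (wn (φ i) α) κ‖ ^ 2) := by
          refine Finset.sum_le_sum fun κ _ => ?_
          rw [← mul_assoc]
          refine mul_le_mul_of_nonneg_right ?_ (by positivity)
          unfold ow
          calc ρ (nm κ) * min 1 (lm K X 1 κ) ≤ ρ (nm κ) * (r * min 1 (lm K X' 1 κ)) :=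
                mul_le_mul_of_nonneg_left (min_scale hr1 zero_le_one
                  (lm_scale hK hX'0 hX hr1 hXX2)) (hρ0' _)
            _ = _ := by ring
      _ = r * ∑ κ ∈ JB Y₀ N₁, ow ρ K X' κ * ‖TG (wn (φ i) α) κ‖ ^ 2 := by
          rw [Finset.mul_sum]
      _ ≤ _ := mul_le_mul_of_nonneg_left h6 (by linarith)
  -- recombination
  have hrec := KS_windows (fun l m => G m * conj (sy l m)) hF
    (fun n hn => hone (Real.log (nm n)) (hαR n hn)) (one_ne_zero : (1 : Eis) ≠ 0)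
    (JB Y₀ N₁) (ow ρ K X) (fun κ _ => ow_nonneg hρ0' hK.le hX.le κ) (fun κ => κ) 0
  have e1 : ∑ κ ∈ Wn Y₀ N₁, ρ (nm κ) * (min 1 (lm K X 1 κ) * ‖TG α κ‖ ^ 2) =
      ∑ κ ∈ JB Y₀ N₁, ow ρ K X κ * tgf α 1 κ 0 :=
    Finset.sum_congr rfl fun κ _ => by rw [tgf_zero]; unfold ow; ring
  have e2 : ∀ i, ∑ κ ∈ JB Y₀ N₁, ow ρ K X κ * ‖TG (wn (φ i) α) κ‖ ^ 2 =
      ∑ κ ∈ JB Y₀ N₁, ow ρ K X κ * tgf (wn (φ i) α) 1 κ 0 := fun i =>
    Finset.sum_congr rfl fun κ _ => by rw [tgf_zero]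
  rw [e1]
  refine le_trans (show ∑ κ ∈ JB Y₀ N₁, ow ρ K X κ * tgf α 1 κ 0 ≤ _ from hrec) ?_
  have h7 : ∑ i ∈ I, ∑ κ ∈ JB Y₀ N₁, ow ρ K X κ * tgf (wn (φ i) α) 1 κ 0 ≤
      (I.card : ℝ) * (r * (kwm c C Cw r (iA 2) (iA Aw) * (1 + Real.log Y) ^ 2 *
        (η⁻¹) ^ (2 * J) * E)) := by
    calc ∑ i ∈ I, ∑ κ ∈ JB Y₀ N₁, ow ρ K X κ * tgf (wn (φ i) α) 1 κ 0 ≤
          ∑ _i ∈ I, r * (kwm c C Cw r (iA 2) (iA Aw) * (1 + Real.log Y) ^ 2 *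
            (η⁻¹) ^ (2 * J) * E) := Finset.sum_le_sum fun i hi => by
            rw [← e2]; exact hwin i hi
      _ = _ := by rw [Finset.sum_const, nsmul_eq_mul]
  have hI0 : (0 : ℝ) ≤ I.card := Nat.cast_nonneg _
  have hI' : (I.card : ℝ) ≤ Cw * η⁻¹ := by rw [← div_eq_mul_inv]; exact hI
  have hηi0 : 0 < η⁻¹ := inv_pos.mpr hη
  have hM0 : 0 ≤ r * (kwm c C Cw r (iA 2) (iA Aw) * (1 + Real.log Y) ^ 2 *
        (η⁻¹) ^ (2 * J) * E) := by positivity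
  calc (I.card : ℝ) * ∑ i ∈ I, ∑ κ ∈ JB Y₀ N₁, ow ρ K X κ * tgf (wn (φ i) α) 1 κ 0 ≤
        (I.card : ℝ) * ((I.card : ℝ) * (r * (kwm c C Cw r (iA 2) (iA Aw) *
          (1 + Real.log Y) ^ 2 * (η⁻¹) ^ (2 * J) * E))) :=
        mul_le_mul_of_nonneg_left h7 hI0
    _ ≤ (Cw * η⁻¹) * ((Cw * η⁻¹) * (r * (kwm c C Cw r (iA 2) (iA Aw) *
          (1 + Real.log Y) ^ 2 * (η⁻¹) ^ (2 * J) * E))) := by gcongr
    _ = Cw ^ 2 * (r * kwm c C Cw r (iA 2) (iA Aw)) * (η⁻¹) ^ (2 * J + 2) *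
          (1 + Real.log Y) ^ 2 * E := by
        rw [show (η⁻¹) ^ (2 * J + 2) = (η⁻¹) ^ (2 * J) * (η⁻¹) ^ 2 by rw [pow_add]]
        ring

end Crest.Agent.R017.RGw813
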