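import Crest.Agent.R017.RGwI_813
import Crest.Agent.R017.RGwJ_813
import Crest.Agent.R017.E1zb_551

/-!
# Row 17, C.REMg (RG by positivity), part K (helper813): `rg_absorb2`, the far tails discharged,
the errors over cube-free frequencies (`EU`), in the mean form
-/

set_option autoImplicit false

noncomputable section

open Complex MeasureTheory Filter Topology
open scoped ComplexConjugate Classical

namespace Crest.Agent.R017.RGw813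

open Crest.Agent.R012 Crest.Agent.R012.Eis Crest.Agent.R012.MC
open Crest.Agent.R012.LS2 (S mem_S)
open Crest.Agent.R012.Weight600 (osc pw)
open Crest.Agent.R017.CM106 (CS TG FS)
open Crest.Agent.R017.C70 (JW)
open Crest.Agent.R017.E1551
open Crest.Agent.R017.Win813

/-- **RG, absorbed inequality, only (LB), (Lo) and (EU) as inputs.** `a` bounds the sizes,
`X ^ 2 * Y ^ e₃ ≤ K * N₀` discharges the far tails. -/
theorem rg_absorb2 : ∃ w : ℝ → ℝ, Wgt w ∧ (∀ x, 0 ≤ w x) ∧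
    ∀ (J Aw : ℕ) (R a e₃ : ℝ), J + 2 ≤ Aw → 0 ≤ R → 0 ≤ a → 0 < e₃ →
    ∃ Cw C η₀ : ℝ, 0 ≤ Cw ∧ 0 ≤ C ∧ 0 < η₀ ∧ η₀ ≤ 1 ∧
    ∀ (K X Y η D Y₀ : ℝ) (N₀ N₁ : ℕ) (ρ : ℕ → ℝ), Y ^ (-a) ≤ K → 0 < X → X ≤ Y ^ a → 1 ≤ Y →
      0 < η → η ≤ η₀ → 1 ≤ D → 1 ≤ N₀ → N₀ ≤ N₁ → ((N₁ : ℝ) ≤ D ^ 2 ∨ Y ≤ D) → Antitone ρ →
      (∀ n ≤ N₀, ρ n = 1) → (∀ n, N₁ < n → ρ n = 0) → X ^ 2 * Y ^ e₃ ≤ K * N₀ →
      ∀ α : Eis → ℂ, (∀ n, α n ≠ 0 → n ∈ S Y) →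
      (∀ n, α n ≠ 0 → |Real.log (nm n) - Real.log X| ≤ R) → ∑ n ∈ S Y, ‖α n‖ ≤ Y ^ a →
      ∀ E : ℝ, 0 ≤ E →
      (∀ p ∈ T9, ∀ (t X' : ℝ) (φ : ℝ → ℝ), 0 < X' → |Real.log X' - Real.log X| ≤ R + 1 →
        WK Cw η Aw φ → (∀ u, φ u ≠ 0 → |u - Real.log X'| ≤ η / 2) →
        Dg w K Y (fun n => bt φ α p n * pw t (nm n)) + 2 * cP w * K ^ (2 / 3 : ℝ) *
          (XJw ρ (JW D Y₀ N₁) (fun n => bt φ α p n * pw t (nm n))).re -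
        SqP w K (fun n => bt φ α p n * pw t (nm n)) ≤ (K / X) * (E * (1 + |t|) ^ J)) →
      (∀ t : ℝ, ∑ j ∈ BF (9 * Y₀), lm K X 1 j *
        ‖TG (fun m => α m * pw t (nm m)) j‖ ^ 2 ≤ E * (1 + |t|) ^ J) →
      (∀ t : ℝ, EU ((J + 2 : ℕ) : ℝ) K X Y (9 * Y₀) (9 * N₁) (fun n => α n * pw t (nm n)) ≤
        E * (1 + |t|) ^ J) →
      ∑ κ ∈ Wn Y₀ N₁, ρ (nm κ) * (min 1 (lm K X 1 κ) * ‖TG α κ‖ ^ 2) ≤
        C * (η⁻¹) ^ (2 * J + 2) * (1 + Real.log Y) ^ 2 * (E + 1) := by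
  obtain ⟨w, hw, hw0, h1⟩ := rg_absorb_m
  refine ⟨w, hw, hw0, fun J Aw R a e₃ hJA hR ha he₃ => ?_⟩
  obtain ⟨B, CE, hB, hCE, h2⟩ := Et_small ((J + 2 : ℕ) : ℝ) (r := Real.exp (R + 1)) he₃ ha
    (Real.one_le_exp (by linarith))
  obtain ⟨Cw, C, η₀, hCw, hC, hη₀, hη₀1, h3⟩ := h1 J Aw R B hJA hR hB
  refine ⟨Cw, C * (1 + CE), η₀, hCw, by positivity, hη₀, hη₀1, ?_⟩
  intro K X Y η D Y₀ N₀ N₁ ρ hK hX hXa hY hη hη₀' hD hN₀ hN hND hρ hρ1 hρ0 hKN α hα hαR hαa E hE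
    hLB hLo hEU
  have hY0 : 0 < Y := by linarith
  have hK0 : 0 < K := lt_of_lt_of_le (by positivity) hK
  have hN0 : (0 : ℝ) < N₀ := by exact_mod_cast hN₀
  have hlog := Real.log_nonneg hY
  have hEE : E ≤ E + CE := by linarith
  have hη1 : 0 < η⁻¹ := inv_pos.mpr hη
  have mono : ∀ t : ℝ, E * (1 + |t|) ^ J ≤ (E + CE) * (1 + |t|) ^ J := fun t => by gcongr
  have h4 := h3 K X Y η D Y₀ N₀ N₁ ρ hK0 hX hY hη hη₀' hD hN₀ hN hND hρ hρ1 hρ0 α hα hαR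
    (E + CE) (by positivity)
    (fun p hp t X' φ a1 a2 a3 a4 => (hLB p hp t X' φ a1 a2 a3 a4).trans
      (mul_le_mul_of_nonneg_left (mono t) (by positivity)))
    (fun t => (hLo t).trans (mono t))
    (fun t => (EPJ hK0 hX hY0.le (fun n hn => hα n (left_ne_zero_of_mul hn))).trans
      ((hEU t).trans (mono t)))
    ((h2 K X Y N₀ α hY hX hXa hK hN0 hKN hαa).trans (by linarith))
  refine h4.trans ?_
  have h5 : E + CE ≤ (1 + CE) * (E + 1) := by nlinarith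
  calc C * (η⁻¹) ^ (2 * J + 2) * (1 + Real.log Y) ^ 2 * (E + CE) ≤
        C * (η⁻¹) ^ (2 * J + 2) * (1 + Real.log Y) ^ 2 * ((1 + CE) * (E + 1)) := by gcongr
    _ = _ := by ring

end Crest.Agent.R017.RGw813
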