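import Crest.Agent.R017.RGwL_813
import Crest.Agent.R017.RGwM_813

/-!
# Row 17, C.REMg (RG by positivity), part N (helper813): one window with the additional errors
of the pairs with `nm δ > D`
-/

set_option autoImplicit false

noncomputable section

open Complex MeasureTheory Filter Topology
open scoped ComplexConjugate Classical

namespace Crest.Agent.R017.RGw813

open Crest.Agent.R012 Crest.Agent.R012.Eis Crest.Agent.R012.MC
open Crest.Agent.R012.LS2 (S mem_S)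
open Crest.Agent.R012.Weight600 (osc pw)
open Crest.Agent.R017.CM106 (CS TG FS)
open Crest.Agent.R017.C70 (JW)
open Crest.Agent.R017.E1551
open Crest.Agent.R017.Win813

/-- the constant of `rg_window4` -/
def kw4 (c C Cw r i2 iB : ℝ) : ℝ :=
  36 / c * r + (6 + 36 * C * i2 / c) * (27 * r * (Cw ^ 2 * iB * i2)) +
    46656 / c ^ 2 * (C * (C * i2 + c)) * (9 * r * (Cw ^ 2 * iB * i2) + (Cw * iB) ^ 2)

/-- **one window, in terms of the sequence itself** -/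
theorem rg_window4 {c C K X X' Y η D Y₀ r Cw B E : ℝ} {A Bw J N₀ N₁ : ℕ} {ρ : ℕ → ℝ}
    {w : ℝ → ℝ} (hc : 0 < c)
    (hE1 : E1In c (c / 1296) C A K X' Y η Y₀ N₁ ρ w
      (fun β => 2 * cP w * K ^ (2 / 3 : ℝ) * (XJw ρ (JW D Y₀ N₁) β).re)
      (fun β => EG A K X' Y Y₀ N₁ β + EDd A K X' Y D N₁ β +
        (2 + Ct Y) * Et A B K X' Y N₀ β))
    (hAJ : J + 2 ≤ A) (hBJ : J + 2 ≤ Bw) (hC : 0 ≤ C) (hCw : 0 ≤ Cw) (hr : 1 ≤ r) (hB : 1 ≤ B)
    (hK : 0 < K) (hX : 0 < X) (hX' : 0 < X') (hXX : X' ≤ r * X) (hY : 1 ≤ Y) (hη : 0 < η)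
    (hη1 : η ≤ c / (1296 * (C * iA 2 + c))) (hN₀ : 1 ≤ N₀)
    (hρ : Antitone ρ) (hρ0 : ∀ n, 0 ≤ ρ n) (hρ1 : ∀ n, ρ n ≤ 1)
    {φ : ℝ → ℝ} (hφ : WK Cw η Bw φ) (hφs : ∀ u, φ u ≠ 0 → |u - Real.log X'| ≤ η / 2)
    {α : Eis → ℂ} (hα : ∀ n, α n ≠ 0 → n ∈ S Y) (hE : 0 ≤ E)
    (hLB : ∀ p ∈ T9, ∀ t : ℝ, Dg w K Y (fun n => bt φ α p n * pw t (nm n)) +
      2 * cP w * K ^ (2 / 3 : ℝ) *
        (XJw ρ (JW D Y₀ N₁) (fun n => bt φ α p n * pw t (nm n))).re -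
      SqP w K (fun n => bt φ α p n * pw t (nm n)) ≤ (K / X) * (E * (1 + |t|) ^ J))
    (hLo : ∀ t : ℝ, ∑ j ∈ BF (9 * Y₀), lm K X 1 j *
      ‖TG (fun m => α m * pw t (nm m)) j‖ ^ 2 ≤ E * (1 + |t|) ^ J)
    (hEG : ∀ t : ℝ, EG (A : ℝ) K X Y (9 * Y₀) (9 * N₁) (fun n => α n * pw t (nm n)) ≤
      E * (1 + |t|) ^ J)
    (hED : ∀ t : ℝ, EDd (A : ℝ) K X Y D (9 * N₁) (fun n => α n * pw t (nm n)) ≤
      E * (1 + |t|) ^ J)
    (hEt : (2 + Ct Y) * Et A B K (r * X) Y N₀ α ≤ E) :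
    ∑ κ ∈ JB Y₀ N₁, ow ρ K X' κ * ‖TG (wn φ α) κ‖ ^ 2 ≤
      kw4 c C Cw r (iA 2) (iA Bw) * (1 + Real.log Y) ^ 2 * (η⁻¹) ^ (2 * J) * E := by
  have hY0 : 0 ≤ Y := by linarith
  have hF := FS_of_S hY0 hα
  have hi2 := iA_nonneg 2
  have hiB := iA_nonneg Bw
  have hlog := Real.log_nonneg hY
  have hCt := Ct_nonneg Y
  have hD0 : 0 < C * iA 2 + c := by positivity
  have hη1' : η ≤ 1 := by
    refine hη1.trans ?_
    rw [div_le_one (by positivity)]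
    nlinarith [mul_nonneg hC hi2]
  have hηi : 1 ≤ η⁻¹ := (one_le_inv₀ hη).mpr hη1'
  set H : ℝ := (η⁻¹) ^ J with hH
  have hH1 : 1 ≤ H := one_le_pow₀ hηi
  have hr0 : 0 ≤ r := by linarith
  have hP1 : ∀ t : ℝ, (1 : ℝ) ≤ (1 + |t|) ^ J := fun t =>
    one_le_pow₀ (by linarith [abs_nonneg t])
  -- the low edge
  set e₁ : ℝ := 27 * r * (Cw ^ 2 * iA Bw * iA 2) * H * E with he₁
  have he₁0 : 0 ≤ e₁ := by rw [he₁]; positivity
  have hEd : ∀ t, Ed K X' Y₀ φ α t ≤ e₁ * (1 + |t|) ^ J := by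
    intro t
    have h1 : ∀ p ∈ T9, PT (lm K X' 1) (BF Y₀) (bt φ α p) 1 t ≤
        Cw ^ 2 * iA Bw * iA 2 * H * (3 * r * E) * (1 + |t|) ^ J := by
      intro p hp
      have h2 := PG_bt (X := BF Y₀) (W := lm K X' 1) (g := fun _ => 1) (l := fun r => r)
        hCw hη hη1' hBJ hφ hF (fun _ _ => one_ne_zero) (fun j _ => lm_nonneg hK.le hX'.le _ j)
        (M := 3 * r * E) (by positivity) p (fun t => by
          refine (PT_tw hK hX hX' hr hXX hF (mem_T9.1 hp).2 t).trans ?_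
          rw [mul_assoc (3 * r)]
          exact mul_le_mul_of_nonneg_left (hLo t) (by positivity)) t
      exact h2
    have h3 := Finset.sum_le_sum h1
    rw [Finset.sum_const, nsmul_eq_mul, card_T9] at h3
    refine (show Ed K X' Y₀ φ α t ≤ _ from h3).trans (le_of_eq ?_)
    rw [he₁]; ring
  -- the errors
  set sg : ℝ := (9 * r * (Cw ^ 2 * iA Bw * iA 2) + (Cw * iA Bw) ^ 2) * H * E with hsg
  have hsg0 : 0 ≤ sg := by rw [hsg]; positivity
  have hEr : ∀ p ∈ T9, ∀ t : ℝ, EG A K X' Y Y₀ N₁ (fun n => bt φ α p n * pw t (nm n)) +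
      EDd A K X' Y D N₁ (fun n => bt φ α p n * pw t (nm n)) +
      (2 + Ct Y) * Et A B K X' Y N₀ (fun n => bt φ α p n * pw t (nm n)) ≤
      sg * (1 + |t|) ^ J := by
    intro p hp t
    have hA2 : 2 ≤ A := by omega
    have hW : ∀ t, MG A (XE Y (9 * N₁)) (WE K X) gE lE α t ≤ E * (1 + |t|) ^ J := fun t => by
      have h1 := hEG t
      rw [EG_eq] at h1
      have h2 : 0 ≤ MG A (XE Y (9 * Y₀)) (LE K X) gE lE α t :=
        MG_nonneg (fun x _ => LE_nonneg hK.le hX.le x) _ _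
      have h3 : MG A (XE Y (9 * N₁)) (WE K X) gE lE α t + MG A (XE Y (9 * Y₀)) (LE K X) gE lE α t
        ≤ E * (1 + |t|) ^ J := h1
      linarith
    have hL : ∀ t, MG A (XE Y (9 * Y₀)) (LE K X) gE lE α t ≤ E * (1 + |t|) ^ J := fun t => by
      have h1 := hEG t
      rw [EG_eq] at h1
      have h2 : 0 ≤ MG A (XE Y (9 * N₁)) (WE K X) gE lE α t :=
        MG_nonneg (fun x _ => WE_nonneg hK.le hX.le x) _ _
      have h3 : MG A (XE Y (9 * N₁)) (WE K X) gE lE α t + MG A (XE Y (9 * Y₀)) (LE K X) gE lE α t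
        ≤ E * (1 + |t|) ^ J := h1
      linarith
    have b1 : ∑ x ∈ XE Y N₁, WE K X' x * (∫ u, jb (A : ℝ) u *
        tgf (fun n => bt φ α p n * pw t (nm n)) (gE x) (lE x) u) ≤
        Cw ^ 2 * iA Bw * iA 2 * (η⁻¹) ^ J * (3 * r * E) * (1 + |t|) ^ J :=
      MG_bt (X := XE Y N₁) (W := WE K X') (g := gE) (l := lE) hCw hη hη1' hBJ
      hA2 hφ hF (fun x hx => gE_ne hY0 hx) (fun x _ => WE_nonneg hK.le hX'.le x)
      (M := 3 * r * E) (by positivity) p (fun t => by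
        refine (MG_le hA2 (FS_tw2 hF p.1 p.2) hF (fun x hx => gE_ne hY0 hx)
          (fun x hx => gE_ne hY0 hx) (fun x _ => WE_nonneg hK.le hX'.le x)
          (fun x _ => WE_nonneg hK.le hX.le x)
          (PG_tw_W hK hX hX' hY0 hr hXX hF (mem_T9.1 hp).2) t).trans ?_
        rw [mul_assoc (3 * r)]
        exact mul_le_mul_of_nonneg_left (hW t) (by positivity)) t
    have b2 : ∑ x ∈ XE Y Y₀, LE K X' x * (∫ u, jb (A : ℝ) u *
        tgf (fun n => bt φ α p n * pw t (nm n)) (gE x) (lE x) u) ≤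
        Cw ^ 2 * iA Bw * iA 2 * (η⁻¹) ^ J * (3 * r * E) * (1 + |t|) ^ J :=
      MG_bt (X := XE Y Y₀) (W := LE K X') (g := gE) (l := lE) hCw hη hη1' hBJ
      hA2 hφ hF (fun x hx => gE_ne hY0 hx) (fun x _ => LE_nonneg hK.le hX'.le x)
      (M := 3 * r * E) (by positivity) p (fun t => by
        refine (MG_le hA2 (FS_tw2 hF p.1 p.2) hF (fun x hx => gE_ne hY0 hx)
          (fun x hx => gE_ne hY0 hx) (fun x _ => LE_nonneg hK.le hX'.le x)
          (fun x _ => LE_nonneg hK.le hX.le x)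
          (PG_tw_L hK hX hX' hY0 hr hXX hF (mem_T9.1 hp).2) t).trans ?_
        rw [mul_assoc (3 * r)]
        exact mul_le_mul_of_nonneg_left (hL t) (by positivity)) t
    have b2' : EDd A K X' Y D N₁ (fun n => bt φ α p n * pw t (nm n)) ≤
        3 * r * (Cw ^ 2 * iA Bw * iA 2) * (η⁻¹) ^ J * E * (1 + |t|) ^ J :=
      EP_bt (P := PD Y D) (c := cp) (fun p hp => mem_PD hY0 hp) (fun p => cp_nonneg p) hCw hη
        hη1' hBJ hA2 hφ hK hX hX' hY0 hr hXX hE hα hED hp t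
    have hN0' : (0 : ℝ) < N₀ := by exact_mod_cast hN₀
    have b3 := Et_bt (A := A) (N₀ := N₀) (Y := Y) hB hK hX' hN0' hXX hF
      (fun u => hφ.le hη (by omega : 2 ≤ Bw) u) p t
    have b4 : (2 + Ct Y) * Et A B K X' Y N₀ (fun n => bt φ α p n * pw t (nm n)) ≤
        (Cw * iA Bw) ^ 2 * E := by
      calc _ ≤ (2 + Ct Y) * ((Cw * iA Bw) ^ 2 * Et A B K (r * X) Y N₀ α) :=
            mul_le_mul_of_nonneg_left b3 (by positivity)
        _ = (Cw * iA Bw) ^ 2 * ((2 + Ct Y) * Et A B K (r * X) Y N₀ α) := by ring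
        _ ≤ _ := mul_le_mul_of_nonneg_left hEt (by positivity)
    have b5 : (Cw * iA Bw) ^ 2 * E ≤ (Cw * iA Bw) ^ 2 * E * (H * (1 + |t|) ^ J) :=
      le_mul_of_one_le_right (by positivity) (one_le_mul_of_one_le_of_one_le hH1 (hP1 t))
    rw [EG_eq]
    refine (add_le_add (add_le_add (add_le_add b1 b2) b2') (b4.trans b5)).trans (le_of_eq ?_)
    rw [hsg, hH]
    ring
  have hLB' : ∀ p ∈ T9, ∀ t : ℝ, Dg w K Y (fun n => bt φ α p n * pw t (nm n)) +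
      2 * cP w * K ^ (2 / 3 : ℝ) *
        (XJw ρ (JW D Y₀ N₁) (fun n => bt φ α p n * pw t (nm n))).re -
      SqP w K (fun n => bt φ α p n * pw t (nm n)) ≤ (K / X') * (r * E * (1 + |t|) ^ J) := by
    intro p hp t
    refine (hLB p hp t).trans ?_
    have h1 : K / X ≤ K / X' * r := by
      rw [div_mul_eq_mul_div, div_le_div_iff₀ hX hX']
      calc K * X' ≤ K * (r * X) := mul_le_mul_of_nonneg_left hXX hK.le
        _ = K * r * X := by ring
    calc (K / X) * (E * (1 + |t|) ^ J) ≤ (K / X' * r) * (E * (1 + |t|) ^ J) :=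
          mul_le_mul_of_nonneg_right h1 (by positivity)
      _ = _ := by ring
  have hfin := rg_one hc hE1 hAJ hC hK hX' hY hη hη1 hρ hρ0 hρ1 (φ := φ) hF
    (fun p _ t => adm_bt hφs hα p t) (a₁ := r * E) (by positivity) he₁0 hsg0 hLB' hEd hEr
  refine hfin.trans ?_
  set L : ℝ := 1 + Real.log Y with hL
  have hL1 : 1 ≤ L := by rw [hL]; linarith
  have hL2 : 1 ≤ L ^ 2 := one_le_pow₀ hL1
  have e1 : (η⁻¹) ^ (2 * J) = H * H := by rw [hH, ← pow_add]; congr 1; ring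
  rw [e1]
  have hHH : 1 ≤ H * H := one_le_mul_of_one_le_of_one_le hH1 hH1
  have t1 : 36 / c * (r * E) * H ≤ 36 / c * r * (L ^ 2 * (H * H) * E) := by
    have h1 : H ≤ L ^ 2 * (H * H) := by
      calc H = 1 * (1 * H) := by ring
        _ ≤ L ^ 2 * (H * H) := by gcongr
    calc 36 / c * (r * E) * H = 36 / c * r * E * H := by ring
      _ ≤ 36 / c * r * E * (L ^ 2 * (H * H)) := by gcongr
      _ = _ := by ring
  have t2 : (6 + 36 * C * iA 2 / c) * e₁ * H ≤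
      (6 + 36 * C * iA 2 / c) * (27 * r * (Cw ^ 2 * iA Bw * iA 2)) * (L ^ 2 * (H * H) * E) := by
    rw [he₁]
    calc (6 + 36 * C * iA 2 / c) * (27 * r * (Cw ^ 2 * iA Bw * iA 2) * H * E) * H =
          (6 + 36 * C * iA 2 / c) * (27 * r * (Cw ^ 2 * iA Bw * iA 2)) *
            (1 * (H * H) * E) := by ring
      _ ≤ _ := by gcongr
  have t3 : 46656 / c ^ 2 * (C * (C * iA 2 + c)) * L ^ 2 * sg * H =
      46656 / c ^ 2 * (C * (C * iA 2 + c)) *
        (9 * r * (Cw ^ 2 * iA Bw * iA 2) + (Cw * iA Bw) ^ 2) * (L ^ 2 * (H * H) * E) := by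
    rw [hsg]; ring
  calc (36 / c * (r * E) + (6 + 36 * C * iA 2 / c) * e₁ +
        46656 / c ^ 2 * (C * (C * iA 2 + c)) * L ^ 2 * sg) * H =
      36 / c * (r * E) * H + (6 + 36 * C * iA 2 / c) * e₁ * H +
        46656 / c ^ 2 * (C * (C * iA 2 + c)) * L ^ 2 * sg * H := by ring
    _ ≤ 36 / c * r * (L ^ 2 * (H * H) * E) +
        (6 + 36 * C * iA 2 / c) * (27 * r * (Cw ^ 2 * iA Bw * iA 2)) * (L ^ 2 * (H * H) * E) +
        46656 / c ^ 2 * (C * (C * iA 2 + c)) *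
        (9 * r * (Cw ^ 2 * iA Bw * iA 2) + (Cw * iA Bw) ^ 2) * (L ^ 2 * (H * H) * E) :=
        add_le_add (add_le_add t1 t2) t3.le
    _ = kw4 c C Cw r (iA 2) (iA Bw) * L ^ 2 * (H * H) * E := by unfold kw4; ring


end Crest.Agent.R017.RGw813
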