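import Crest.Agent.R017.RGwN_813
import Crest.Agent.R017.E1zf_551

/-!
# Row 17, C.REMg (RG by positivity), part O (helper813): `rg_absorb` from 551's `E1posW3`
(`D ≥ 1` arbitrary): `rg_absorb4m`
-/

set_option autoImplicit false

noncomputable section

open Complex MeasureTheory Filter Topology
open scoped ComplexConjugate Classical

namespace Crest.Agent.R017.RGw813

open Crest.Agent.R012 Crest.Agent.R012.Eis Crest.Agent.R012.MC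
open Crest.Agent.R012.LS2 (S mem_S)
open Crest.Agent.R012.Weight600 (osc pw)
open Crest.Agent.R017.CM106 (CS TG FS)
open Crest.Agent.R017.C70 (JW)
open Crest.Agent.R017.E1551
open Crest.Agent.R017.Win813

/-- 551's `ED` is `EDd` -/
lemma ED_eq813 (A K X Y D Z : ℝ) (β : Eis → ℂ) : ED A K X Y D Z β = EDd A K X Y D Z β := rfl

/-- **RG: the absorbed inequality for the sequence itself.** The weight `w` is chosen once and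
for all (404's sign lemma); `J` = polynomial growth in the height, `Aw` = order of the windows.
The exponent `J` of the height is preserved. -/
theorem rg_absorb4m : ∃ w : ℝ → ℝ, Wgt w ∧ (∀ x, 0 ≤ w x) ∧
    ∀ (J Aw : ℕ) (R B : ℝ), J + 2 ≤ Aw → 0 ≤ R → 1 ≤ B →
    ∃ Cw C η₀ : ℝ, 0 ≤ Cw ∧ 0 ≤ C ∧ 0 < η₀ ∧ η₀ ≤ 1 ∧
    ∀ (K X Y η D Y₀ : ℝ) (N₀ N₁ : ℕ) (ρ : ℕ → ℝ), 0 < K → 0 < X → 1 ≤ Y → 0 < η → η ≤ η₀ →
      1 ≤ D → 1 ≤ N₀ → N₀ ≤ N₁ → Y₀ ≤ N₀ → Antitone ρ →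
      (∀ n ≤ N₀, ρ n = 1) → (∀ n, N₁ < n → ρ n = 0) →
      ∀ α : Eis → ℂ, (∀ n, α n ≠ 0 → n ∈ S Y) →
      (∀ n, α n ≠ 0 → |Real.log (nm n) - Real.log X| ≤ R) → ∀ E : ℝ, 0 ≤ E →
      (∀ p ∈ T9, ∀ (t X' : ℝ) (φ : ℝ → ℝ), 0 < X' → |Real.log X' - Real.log X| ≤ R + 1 →
        WK Cw η Aw φ → (∀ u, φ u ≠ 0 → |u - Real.log X'| ≤ η / 2) →
        Dg w K Y (fun n => bt φ α p n * pw t (nm n)) + 2 * cP w * K ^ (2 / 3 : ℝ) *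
          (XJw ρ (JW D Y₀ N₁) (fun n => bt φ α p n * pw t (nm n))).re -
        SqP w K (fun n => bt φ α p n * pw t (nm n)) ≤ (K / X) * (E * (1 + |t|) ^ J)) →
      (∀ t : ℝ, ∑ j ∈ BF (9 * Y₀), lm K X 1 j *
        ‖TG (fun m => α m * pw t (nm m)) j‖ ^ 2 ≤ E * (1 + |t|) ^ J) →
      (∀ t : ℝ, EG ((J + 2 : ℕ) : ℝ) K X Y (9 * Y₀) (9 * N₁) (fun n => α n * pw t (nm n)) ≤
        E * (1 + |t|) ^ J) →
      (∀ t : ℝ, ED ((J + 2 : ℕ) : ℝ) K X Y D (9 * N₁) (fun n => α n * pw t (nm n)) ≤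
        E * (1 + |t|) ^ J) →
      (2 + Ct Y) * Et ((J + 2 : ℕ) : ℝ) B K (Real.exp (R + 1) * X) Y N₀ α ≤ E →
      ∑ κ ∈ Wn Y₀ N₁, ρ (nm κ) * (min 1 (lm K X 1 κ) * ‖TG α κ‖ ^ 2) ≤
        C * (η⁻¹) ^ (2 * J + 2) * (1 + Real.log Y) ^ 2 * E := by
  obtain ⟨c, hc, h⟩ := E1posW3
  obtain ⟨w, hw, hw0, h1⟩ := h (c / 1296) (by positivity)
  refine ⟨w, hw, hw0, fun J Aw R B hJA hR hB => ?_⟩
  have hA2 : (1 : ℝ) < ((J + 2 : ℕ) : ℝ) := by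
    push_cast
    have : (0 : ℝ) ≤ J := Nat.cast_nonneg J
    linarith
  obtain ⟨C, hC, h2⟩ := h1 ((J + 2 : ℕ) : ℝ) B hA2 hB
  obtain ⟨Cw, hCw, h3⟩ := windows R hR Aw
  have hi2 := iA_nonneg 2
  have hiB := iA_nonneg Aw
  have hD0 : 0 < C * iA 2 + c := by positivity
  set r : ℝ := Real.exp (R + 1) with hr
  have hr1 : 1 ≤ r := Real.one_le_exp (by linarith)
  have hkw4 : 0 ≤ kw4 c C Cw r (iA 2) (iA Aw) := by unfold kw4; positivity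
  refine ⟨Cw, Cw ^ 2 * (r * kw4 c C Cw r (iA 2) (iA Aw)), c / (1296 * (C * iA 2 + c)),
    by linarith, by positivity, by positivity, ?_, ?_⟩
  · rw [div_le_one (by positivity)]
    nlinarith [mul_nonneg hC hi2]
  intro K X Y η D Y₀ N₀ N₁ ρ hK hX hY hη hη₀ hD hN₀ hN hYN hρ hρ1 hρ0 α hα hαR E hE hLB hLo
    hEG hED hEt
  have hY0 : 0 ≤ Y := by linarith
  have hη1 : η ≤ 1 := by
    refine hη₀.trans ?_
    rw [div_le_one (by positivity)]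
    nlinarith [mul_nonneg hC hi2]
  have hlog := Real.log_nonneg hY
  have hρ0' : ∀ n, 0 ≤ ρ n := fun n => by
    have h4 := hρ (show n ≤ max n (N₁ + 1) from le_max_left _ _)
    rw [hρ0 _ (lt_of_lt_of_le (Nat.lt_succ_self N₁) (le_max_right n (N₁ + 1)))] at h4
    exact h4
  have hρ1' : ∀ n, ρ n ≤ 1 := fun n => by
    have h4 := hρ (Nat.zero_le n)
    rwa [hρ1 0 (Nat.zero_le _)] at h4
  have hF := FS_of_S hY0 hα
  obtain ⟨I, φ, x, hI, hone, hx, hsupp, hWK⟩ := h3 η hη hη1 (Real.log X)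
  -- the windows
  have hwin : ∀ i ∈ I, ∑ κ ∈ JB Y₀ N₁, ow ρ K X κ * ‖TG (wn (φ i) α) κ‖ ^ 2 ≤
      r * (kw4 c C Cw r (iA 2) (iA Aw) * (1 + Real.log Y) ^ 2 * (η⁻¹) ^ (2 * J) * E) := by
    intro i hi
    set X' : ℝ := Real.exp (x i) with hX'
    have hX'0 : 0 < X' := Real.exp_pos _
    have hlX : Real.log X' = x i := Real.log_exp _
    have hcl : |Real.log X' - Real.log X| ≤ R + 1 := by rw [hlX]; exact hx i hi
    have hXX : X' ≤ r * X := exp_close hX hX'0 hcl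
    have hXX2 : X ≤ r * X' := exp_close hX'0 hX (by rw [abs_sub_comm]; exact hcl)
    have hsupp' : ∀ u, φ i u ≠ 0 → |u - Real.log X'| ≤ η / 2 := fun u hu => by
      rw [hlX]; exact hsupp i u hu
    have hE1 : E1In c (c / 1296) C ((J + 2 : ℕ) : ℝ) K X' Y η Y₀ N₁ ρ w
        (fun β => 2 * cP w * K ^ (2 / 3 : ℝ) * (XJw ρ (JW D Y₀ N₁) β).re)
        (fun β => EG ((J + 2 : ℕ) : ℝ) K X' Y Y₀ N₁ β + EDd ((J + 2 : ℕ) : ℝ) K X' Y D N₁ β +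
          (2 + Ct Y) * Et ((J + 2 : ℕ) : ℝ) B K X' Y N₀ β) := by
      intro β hβ δ hδ hδ1
      have h5 := h2 K X' Y η D Y₀ N₀ N₁ ρ hK hX'0 hY hη hη1 hD hN₀ hN hYN hρ hρ1 hρ0 β hβ δ
        hδ hδ1
      have a1 : ∑ κ ∈ JG Y₀ N₁, ow ρ K X' κ * ‖TG β κ‖ ^ 2 =
          ∑ κ ∈ (Wn Y₀ N₁).filter (fun κ => (3 : ℤ) ∣ κ.im),
            ρ (nm κ) * (min 1 (lm K X' 1 κ) * ‖TG β κ‖ ^ 2) :=
        Finset.sum_congr rfl fun κ _ => by unfold ow; ring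
      have a2 : ∑ κ ∈ JN Y₀ N₁, ow ρ K X' κ * ‖TG β κ‖ ^ 2 =
          ∑ κ ∈ (Wn Y₀ N₁).filter (fun κ => ¬ (3 : ℤ) ∣ κ.im),
            ρ (nm κ) * (min 1 (lm K X' 1 κ) * ‖TG β κ‖ ^ 2) :=
        Finset.sum_congr rfl fun κ _ => by unfold ow; ring
      have a3 : ∑ κ ∈ JB Y₀ N₁, ow ρ K X' κ *
            ∫ t, jb ((J + 2 : ℕ) : ℝ) t * ‖Vt β κ (t / η)‖ ^ 2 =
          ∑ κ ∈ Wn Y₀ N₁, ρ (nm κ) * (min 1 (lm K X' 1 κ) *
            ∫ t, jb ((J + 2 : ℕ) : ℝ) t * ‖Vt β κ (t / η)‖ ^ 2) :=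
        Finset.sum_congr rfl fun κ _ => by unfold ow; ring
      have a4 : ∑ κ ∈ JB Y₀ N₁, ow ρ K X' κ * Wb ((J + 2 : ℕ) : ℝ) β κ =
          ∑ κ ∈ Wn Y₀ N₁, ρ (nm κ) * (min 1 (lm K X' 1 κ) * Wb ((J + 2 : ℕ) : ℝ) β κ) :=
        Finset.sum_congr rfl fun κ _ => by unfold ow; ring
      rw [a1, a2, a3, a4]
      rw [ED_eq813] at h5
      refine h5.trans (le_of_eq ?_)
      ring
    have h6 := rg_window4 hc hE1 le_rfl hJA hC (by linarith) hr1 hB hK hX hX'0 hXX hY hη hη₀ hN₀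
      hρ hρ0' hρ1' (hWK i) hsupp' hα hE
      (fun p hp t => hLB p hp t X' (φ i) hX'0 hcl (hWK i) hsupp') hLo hEG
      (fun t => by rw [← ED_eq813]; exact hED t) hEt
    calc ∑ κ ∈ JB Y₀ N₁, ow ρ K X κ * ‖TG (wn (φ i) α) κ‖ ^ 2 ≤
          ∑ κ ∈ JB Y₀ N₁, r * (ow ρ K X' κ * ‖TG (wn (φ i) α) κ‖ ^ 2) := by
          refine Finset.sum_le_sum fun κ _ => ?_
          rw [← mul_assoc]
          refine mul_le_mul_of_nonneg_right ?_ (by positivity)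
          unfold ow
          calc ρ (nm κ) * min 1 (lm K X 1 κ) ≤ ρ (nm κ) * (r * min 1 (lm K X' 1 κ)) :=
                mul_le_mul_of_nonneg_left (min_scale hr1 zero_le_one
                  (lm_scale hK hX'0 hX hr1 hXX2)) (hρ0' _)
            _ = _ := by ring
      _ = r * ∑ κ ∈ JB Y₀ N₁, ow ρ K X' κ * ‖TG (wn (φ i) α) κ‖ ^ 2 := by
          rw [Finset.mul_sum]
      _ ≤ _ := mul_le_mul_of_nonneg_left h6 (by linarith)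
  -- recombination
  have hrec := KS_windows (fun l m => G m * conj (sy l m)) hF
    (fun n hn => hone (Real.log (nm n)) (hαR n hn)) (one_ne_zero : (1 : Eis) ≠ 0)
    (JB Y₀ N₁) (ow ρ K X) (fun κ _ => ow_nonneg hρ0' hK.le hX.le κ) (fun κ => κ) 0
  have e1 : ∑ κ ∈ Wn Y₀ N₁, ρ (nm κ) * (min 1 (lm K X 1 κ) * ‖TG α κ‖ ^ 2) =
      ∑ κ ∈ JB Y₀ N₁, ow ρ K X κ * tgf α 1 κ 0 :=
    Finset.sum_congr rfl fun κ _ => by rw [tgf_zero]; unfold ow; ring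
  have e2 : ∀ i, ∑ κ ∈ JB Y₀ N₁, ow ρ K X κ * ‖TG (wn (φ i) α) κ‖ ^ 2 =
      ∑ κ ∈ JB Y₀ N₁, ow ρ K X κ * tgf (wn (φ i) α) 1 κ 0 := fun i =>
    Finset.sum_congr rfl fun κ _ => by rw [tgf_zero]
  rw [e1]
  refine le_trans (show ∑ κ ∈ JB Y₀ N₁, ow ρ K X κ * tgf α 1 κ 0 ≤ _ from hrec) ?_
  have h7 : ∑ i ∈ I, ∑ κ ∈ JB Y₀ N₁, ow ρ K X κ * tgf (wn (φ i) α) 1 κ 0 ≤
      (I.card : ℝ) * (r * (kw4 c C Cw r (iA 2) (iA Aw) * (1 + Real.log Y) ^ 2 *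
        (η⁻¹) ^ (2 * J) * E)) := by
    calc ∑ i ∈ I, ∑ κ ∈ JB Y₀ N₁, ow ρ K X κ * tgf (wn (φ i) α) 1 κ 0 ≤
          ∑ _i ∈ I, r * (kw4 c C Cw r (iA 2) (iA Aw) * (1 + Real.log Y) ^ 2 *
            (η⁻¹) ^ (2 * J) * E) := Finset.sum_le_sum fun i hi => by
            rw [← e2]; exact hwin i hi
      _ = _ := by rw [Finset.sum_const, nsmul_eq_mul]
  have hI0 : (0 : ℝ) ≤ I.card := Nat.cast_nonneg _
  have hI' : (I.card : ℝ) ≤ Cw * η⁻¹ := by rw [← div_eq_mul_inv]; exact hI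
  have hηi0 : 0 < η⁻¹ := inv_pos.mpr hη
  have hM0 : 0 ≤ r * (kw4 c C Cw r (iA 2) (iA Aw) * (1 + Real.log Y) ^ 2 *
        (η⁻¹) ^ (2 * J) * E) := by positivity
  calc (I.card : ℝ) * ∑ i ∈ I, ∑ κ ∈ JB Y₀ N₁, ow ρ K X κ * tgf (wn (φ i) α) 1 κ 0 ≤
        (I.card : ℝ) * ((I.card : ℝ) * (r * (kw4 c C Cw r (iA 2) (iA Aw) *
          (1 + Real.log Y) ^ 2 * (η⁻¹) ^ (2 * J) * E))) :=
        mul_le_mul_of_nonneg_left h7 hI0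
    _ ≤ (Cw * η⁻¹) * ((Cw * η⁻¹) * (r * (kw4 c C Cw r (iA 2) (iA Aw) *
          (1 + Real.log Y) ^ 2 * (η⁻¹) ^ (2 * J) * E))) := by gcongr
    _ = Cw ^ 2 * (r * kw4 c C Cw r (iA 2) (iA Aw)) * (η⁻¹) ^ (2 * J + 2) *
          (1 + Real.log Y) ^ 2 * E := by
        rw [show (η⁻¹) ^ (2 * J + 2) = (η⁻¹) ^ (2 * J) * (η⁻¹) ^ 2 by rw [pow_add]]
        ring

end Crest.Agent.R017.RGw813
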