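import Crest.Agent.R017.RGwP_813

/-!
# Row 17, C.REMg (RG by positivity), part Q (helper813): `rg_abs`: the second moment of an
arbitrary sequence from (LB), (S), (L+), and the same at every height
-/

set_option autoImplicit false

noncomputable section

open Complex MeasureTheory Filter Topology
open scoped ComplexConjugate Classical

namespace Crest.Agent.R017.RGw813

open Crest.Agent.R012 Crest.Agent.R012.Eis Crest.Agent.R012.MC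
open Crest.Agent.R012.LS2 (S mem_S bl mem_bl)
open Crest.Agent.R012.Weight600 (osc pw)
open Crest.Agent.R017.CM106 (CS TG FS)
open Crest.Agent.R017.C70 (JW)
open Crest.Agent.R017.E1551
open Crest.Agent.R017.Rough381 (VF)
open Crest.Agent.R017.Win813

/-- the weight `min 1 λ` against the levels -/
lemma one_le_min_lm {K X V : ℝ} (hK : 0 < K) (hX : 0 < X) {κ : Eis} (hκ : κ ≠ 0)
    (hV : (nm κ : ℝ) ≤ V) :
    1 ≤ max 1 ((V * K / X ^ 2) ^ (1 / 3 : ℝ)) * min 1 (lm K X 1 κ) := by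
  have hn : (0 : ℝ) < nm κ := by exact_mod_cast nm_pos.2 hκ
  have hV0 : 0 < V := lt_of_lt_of_le hn hV
  set L : ℝ := (V * K / X ^ 2) ^ (1 / 3 : ℝ) with hL
  have hL0 : 0 < L := by rw [hL]; positivity
  have h1 : 1 ≤ L * lm K X 1 κ := by
    unfold lm
    rw [nm_one]
    push_cast
    rw [div_one]
    have e1 : X ^ (2 / 3 : ℝ) = (X ^ 2) ^ (1 / 3 : ℝ) := by
      rw [← Real.rpow_natCast, ← Real.rpow_mul hX.le]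
      norm_num
    have e2 : (K * (nm κ : ℝ)) ^ (-(1 / 3) : ℝ) = ((K * (nm κ : ℝ)) ^ (1 / 3 : ℝ))⁻¹ :=
      Real.rpow_neg (by positivity) _
    rw [e1, e2, hL, Real.div_rpow (by positivity) (by positivity)]
    have h2 : (K * (nm κ : ℝ)) ^ (1 / 3 : ℝ) ≤ (V * K) ^ (1 / 3 : ℝ) := by
      refine Real.rpow_le_rpow (by positivity) ?_ (by norm_num)
      nlinarith
    have h3 : 0 < (K * (nm κ : ℝ)) ^ (1 / 3 : ℝ) := by positivity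
    have h4 : 0 < (X ^ 2) ^ (1 / 3 : ℝ) := by positivity
    have h5 : (V * K) ^ (1 / 3 : ℝ) / (X ^ 2) ^ (1 / 3 : ℝ) *
        (3 * ((X ^ 2) ^ (1 / 3 : ℝ) * ((K * (nm κ : ℝ)) ^ (1 / 3 : ℝ))⁻¹)) =
        3 * ((V * K) ^ (1 / 3 : ℝ) / (K * (nm κ : ℝ)) ^ (1 / 3 : ℝ)) := by
      field_simp
    rw [h5]
    have h6 : 1 ≤ (V * K) ^ (1 / 3 : ℝ) / (K * (nm κ : ℝ)) ^ (1 / 3 : ℝ) := by
      rwa [one_le_div h3]
    linarith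
  rcases le_total 1 (lm K X 1 κ) with h | h
  · rw [min_eq_left h, mul_one]; exact le_max_left _ _
  · rw [min_eq_right h]
    refine h1.trans (mul_le_mul_of_nonneg_right (le_max_right _ _) ?_)
    exact lm_nonneg hK.le hX.le _ _

/-- the second moment from the weighted sum over the window -/
theorem VF_le_Wn {K X V : ℝ} (hK : 0 < K) (hX : 0 < X) {N₀ N₁ : ℕ} (hN : N₀ ≤ N₁)
    {ρ : ℕ → ℝ} (hρ0 : ∀ n, 0 ≤ ρ n) (hρ1 : ∀ n ≤ N₀, ρ n = 1) (hV0 : 0 ≤ V) (hV : V ≤ N₀)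
    {Y₀ : ℝ} (hY₀ : Y₀ < 1) (α : Eis → ℂ) :
    VF V α ≤ max 1 ((V * K / X ^ 2) ^ (1 / 3 : ℝ)) *
      ∑ κ ∈ Wn Y₀ N₁, ρ (nm κ) * (min 1 (lm K X 1 κ) * ‖TG α κ‖ ^ 2) := by
  unfold VF
  rw [Finset.mul_sum]
  have hsub : (bl V).filter Prov71.CubeFree ⊆ Wn Y₀ N₁ := by
    intro κ hκ
    obtain ⟨h1, h2⟩ := Finset.mem_filter.1 hκ
    obtain ⟨h3, h4⟩ := (mem_bl hV0).1 h1
    unfold Wn
    rw [Finset.mem_filter, mem_BF]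
    have h5 := nm_ge_one h3
    refine ⟨⟨h2, h4.trans (hV.trans (by exact_mod_cast hN))⟩, by linarith⟩
  have hterm : ∀ κ ∈ Wn Y₀ N₁, 0 ≤ max 1 ((V * K / X ^ 2) ^ (1 / 3 : ℝ)) *
      (ρ (nm κ) * (min 1 (lm K X 1 κ) * ‖TG α κ‖ ^ 2)) := fun κ _ =>
    mul_nonneg (le_trans zero_le_one (le_max_left _ _)) (mul_nonneg (hρ0 _)
      (mul_nonneg (le_min zero_le_one (lm_nonneg hK.le hX.le _ _)) (by positivity)))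
  refine le_trans ?_ (Finset.sum_le_sum_of_subset_of_nonneg hsub fun κ hκ _ => hterm κ hκ)
  refine Finset.sum_le_sum fun κ hκ => ?_
  obtain ⟨h1, h2⟩ := Finset.mem_filter.1 hκ
  obtain ⟨h3, h4⟩ := (mem_bl hV0).1 h1
  rw [hρ1 _ (by exact_mod_cast h4.trans hV), one_mul]
  have h5 := one_le_min_lm hK hX h3 h4
  calc ‖TG α κ‖ ^ 2 = 1 * ‖TG α κ‖ ^ 2 := (one_mul _).symm
    _ ≤ (max 1 ((V * K / X ^ 2) ^ (1 / 3 : ℝ)) * min 1 (lm K X 1 κ)) * ‖TG α κ‖ ^ 2 :=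
        mul_le_mul_of_nonneg_right h5 (by positivity)
    _ = _ := by ring

/-- **RG, the second moment of an arbitrary sequence** from (LB), (S), (L+). -/
theorem rg_abs : ∃ w : ℝ → ℝ, Wgt w ∧ (∀ x, 0 ≤ w x) ∧
    ∀ (J Aw : ℕ) (R a e₃ ε : ℝ), J + 2 ≤ Aw → 0 ≤ R → 0 ≤ a → 0 < e₃ → 0 < ε →
    ∃ Cw C η₀ : ℝ, 0 ≤ Cw ∧ 0 ≤ C ∧ 0 < η₀ ∧ η₀ ≤ 1 ∧
    ∀ (K X Y η D G₀ : ℝ) (N₀ N₁ : ℕ) (ρ : ℕ → ℝ), Y ^ (-a) ≤ K → 0 < X → X ≤ Y ^ a → 1 ≤ Y →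
      0 < η → η ≤ η₀ → 1 ≤ D → G₀ ≤ D → 1 ≤ N₀ → N₀ ≤ N₁ → (N₁ : ℝ) ≤ Y ^ a → Antitone ρ →
      (∀ n ≤ N₀, ρ n = 1) → (∀ n, N₁ < n → ρ n = 0) → X ^ 2 * Y ^ e₃ ≤ K * N₀ →
      ∀ α : Eis → ℂ, (∀ n, α n ≠ 0 → n ∈ S Y) →
      (∀ n, α n ≠ 0 → |Real.log (nm n) - Real.log X| ≤ R) → ∑ n ∈ S Y, ‖α n‖ ≤ Y ^ a →
      ∀ E Ms Ml : ℝ, 0 ≤ E → 0 ≤ Ms → 0 ≤ Ml →
      (∀ p ∈ T9, ∀ (t X' : ℝ) (φ : ℝ → ℝ), 0 < X' → |Real.log X' - Real.log X| ≤ R + 1 →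
        WK Cw η Aw φ → (∀ u, φ u ≠ 0 → |u - Real.log X'| ≤ η / 2) →
        Dg w K Y (fun n => bt φ α p n * pw t (nm n)) + 2 * cP w * K ^ (2 / 3 : ℝ) *
          (XJw ρ (JW D (1 / 10) N₁) (fun n => bt φ α p n * pw t (nm n))).re -
        SqP w K (fun n => bt φ α p n * pw t (nm n)) ≤ (K / X) * (E * (1 + |t|) ^ J)) →
      (∀ g ∈ S Y, g ≠ 1 → (nm g : ℝ) ≤ G₀ → ∀ V : ℝ, 1 ≤ V → V ≤ 9 * N₁ * nm g → ∀ t : ℝ,
        VF V (tws (sg α g) t) ≤ Ms / (nm g : ℝ) ^ 2 *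
          max 1 ((V * K / (X / nm g) ^ 2) ^ (1 / 3 : ℝ)) * (1 + |t|) ^ J) →
      (∀ h ∈ S Y, ∀ B V : ℝ, 1 ≤ B → B ≤ Y → 1 ≤ V → V ≤ 9 * N₁ / (nm h : ℝ) ^ 2 → ∀ t : ℝ,
        E1551.JB Y α (fun U => G₀ < nm (h * U)) h B V t ≤
          Ml / (nm h : ℝ) ^ 2 * yv K X h V * (1 + |t|) ^ J) →
      ∀ V : ℝ, 0 ≤ V → V ≤ N₀ → VF V α ≤
        C * (η⁻¹) ^ (2 * J + 2) * Y ^ ε * (E + Ms + Ml + 1) *
          max 1 ((V * K / X ^ 2) ^ (1 / 3 : ℝ)) := by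
  obtain ⟨w, hw, hw0, h1⟩ := rg_absorb4
  refine ⟨w, hw, hw0, fun J Aw R a e₃ ε hJA hR ha he₃ hε => ?_⟩
  obtain ⟨Cw, C, η₀, hCw, hC, hη₀, hη₀1, h2⟩ := h1 J Aw R a e₃ ε hJA hR ha he₃ hε
  refine ⟨Cw, C, η₀, hCw, hC, hη₀, hη₀1, ?_⟩
  intro K X Y η D G₀ N₀ N₁ ρ hK hX hXa hY hη hη₀' hD hGD hN₀ hN hNa hρ hρ1 hρ0 hKN α hα hαR hαa
    E Ms Ml hE hMs hMl hLB hS hL V hV0 hV
  have h3 := h2 K X Y η D G₀ N₀ N₁ ρ hK hX hXa hY hη hη₀' hD hGD hN₀ hN hNa hρ hρ1 hρ0 hKN α hα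
    hαR hαa E Ms Ml hE hMs hMl hLB hS hL
  have hY0 : 0 < Y := by linarith
  have hK0 : 0 < K := lt_of_lt_of_le (by positivity) hK
  have hρ0' : ∀ n, 0 ≤ ρ n := fun n => by
    have h4 := hρ (show n ≤ max n (N₁ + 1) from le_max_left _ _)
    rw [hρ0 _ (lt_of_lt_of_le (Nat.lt_succ_self N₁) (le_max_right n (N₁ + 1)))] at h4
    exact h4
  have h5 := VF_le_Wn (Y₀ := 1 / 10) hK0 hX hN hρ0' hρ1 hV0 hV (by norm_num) α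
  refine h5.trans ?_
  rw [mul_comm (C * (η⁻¹) ^ (2 * J + 2) * Y ^ ε * (E + Ms + Ml + 1))]
  exact mul_le_mul_of_nonneg_left h3 (le_trans zero_le_one (le_max_left _ _))

end Crest.Agent.R017.RGw813
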