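import Crest.Agent.R017.RHXb_116

/-!
# Row 17, T.7, E3 for the exceptional class (helper116): the R-hypothesis for the sequence `xs`

* `RHx_np` : nonprincipal frequencies (any filter `Q`), from the R-numbers of `ps` and `rp d₀ ps`
* `RHx_pr` : principal frequencies, from helper791's pointwise bound
-/

set_option autoImplicit false
set_option maxHeartbeats 400000

noncomputable section

open Complex MeasureTheory
open scoped ComplexConjugate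

namespace Crest.Agent.R017.RHX116

open Crest.Agent.R012 Crest.Agent.R012.Eis Crest.Agent.R012.MC
open Crest.Agent.R012.LS2 (S mem_S bl mem_bl)
open Crest.Agent.R012.Weight600 (pw norm_pw pw_add_left)
open Crest.Agent.R012.T411 (NCube)
open Crest.Agent.R017.CM106 (CS TG FS)
open Crest.Agent.R017.FE47
open Crest.Agent.R017.B770
open Crest.Agent.R017.Prov71
open Crest.Agent.R017.End699 (HC NP)
open Crest.Agent.R017.Sup271 (NPm)
open Crest.Agent.R017.HP842 (sqc)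
open Crest.Agent.R017.TP320 (tw)
open Crest.Agent.R017.XHB411 (tl)
open Crest.Agent.R017.XRG106 (Rl)
open Crest.Agent.R017.NtC320 (gC gC_ne gC_fin cg cB cg_prim cB_prim gp_cg gp_cB cB_dvd cg_dvd cop
  Lin_gC)
open Crest.Agent.R017.StA828 (gp)
open Crest.Agent.R017.E1551 (jb jb_pos)
open Crest.Agent.R017.PX764 (n6)
open Crest.Agent.R017.E3D579 (n6_nonneg)
open Crest.Agent.R017.Leg381 (Pf alF LF alF_get LF_get)
open Crest.Agent.R017.Win813 (WK wn iA iA_nonneg)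
open Crest.Agent.R017.RGw813 (bt)
open Crest.Agent.R017.Mode405 (Slp)
open Crest.Agent.R017.Mono858 (RQq)
open Crest.Agent.R017.OKi848 (OKi)
open Crest.Agent.R017.RG64 (Ht)
open Crest.Agent.R017.RX298 (xs rp zt norm_zt LF_rp rp_length FS_xs)
open Crest.Agent.R017.ExD791 (Tw Mg Mg_sq gC_xs)
open Crest.Agent.R017.R3571

lemma le_nm_cB {γ e : Eis} (hγ : IsPrim γ) (he : IsPrim e) :
    (nm e : ℝ) ≤ nm γ * nm (cB γ e) := by
  have e1 : (nm e : ℝ) = nm (gp γ e) * nm (cB γ e) := by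
    have := gp_cB (g := γ) he
    conv_lhs => rw [← this]
    rw [nm_mul]; push_cast; rfl
  have e2 : (nm (gp γ e) : ℝ) ≤ nm γ := by
    have h3 : gp γ e ∣ γ := by
      conv_rhs => rw [← gp_cg (g := γ) he]
      exact dvd_mul_right _ _
    exact_mod_cast Div277.nm_le_of_dvd hγ.ne_zero h3
  rw [e1]
  exact mul_le_mul_of_nonneg_right e2 (Nat.cast_nonneg _)

open Classical in
/-- **(RH) at the frequencies with `Q`** (`Q = NCube`: the nonprincipal frequencies) for the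
twisted windows of `xs` -/
theorem RHx_np {h : ℝ → ℝ} {c : ℝ} (hpu : PU h c) {μ : ℝ} (hμ : 0 ≤ μ) (n : ℕ) {δ m : ℝ}
    (hδ : 0 < δ) :
    ∃ a : ℕ, 1 ≤ a ∧ ∀ ε : ℝ, 0 < ε →
    ∃ C : ℝ, 1 ≤ C ∧ ∀ (P : DPar), P.OK → ∀ (Q : Eis → Prop) (ps : List Pf) (d₀ : ℝ),
      ps.length ≤ n → (∀ p ∈ ps, 0 ≤ p.1.z) → (∀ p ∈ rp d₀ ps, 0 ≤ p.1.z) →
      ∀ (z D0 : ℝ), 1 ≤ D0 →
      ∀ q d e f : Eis, q ≠ 0 → IsPrim d → IsPrim e → f ≠ 0 →
      ∀ X0 : ℝ, 1 ≤ X0 → D0 ≤ X0 → (nm q : ℝ) ≤ X0 → (nm d : ℝ) ≤ X0 → (nm e : ℝ) ≤ X0 →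
      (∀ p ∈ ps, Real.exp p.1.z ≤ X0) → (∀ p ∈ rp d₀ ps, Real.exp p.1.z ≤ X0) →
      ∀ (Cw η : ℝ) (Aw J : ℕ), 0 ≤ Cw → 0 < η → η ≤ 1 → J + 2 ≤ Aw → 2 * (n * μ) ≤ J →
      ∀ (φ : ℝ → ℝ), WK Cw η Aw φ → ∀ (b : ℕ × ℕ), b.2 ≤ 2 → ∀ (t₀ A : ℝ), (J : ℝ) + 2 ≤ A →
      ∀ P1 B : ℝ, 0 < P1 → P1 ≤ X0 ^ m → 1 ≤ B →
      (∀ Λ : ℝ, 1 ≤ Λ → Λ ≤ P1 * X0 ^ δ →
        ∀ (ps' : List Pq) (W : ℝ), 1 ≤ W → (List.Forall₂ (Rl C W) ps' (ps.map Prod.fst) ∨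
          List.Forall₂ (Rl C W) ps' ((rp d₀ ps).map Prod.fst)) →
        tl Dq ps' ≤ LF ps - Real.log (nm d * nm e) + C →
        RQq Q P h (Real.log (81 * Λ * nm f)) ps' ≤
          (Λ / (P1 * X0 ^ δ)) ^ (1 / 3 : ℝ) * B * Real.exp (tl Dq ps') * W ^ (2 * μ)) →
      ∀ γ π : Eis, IsPrim γ → IsPrim π → (nm π : ℝ) ≤ X0 → ∀ Λ : ℝ, 0 < Λ →
      (nm γ : ℝ) * n6 γ ^ 2 *
        ∑ k ∈ (bl Λ).filter (fun k => Q (k * (f * (w ^ b.1 * lam ^ b.2) ^ 2))), RMm A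
          (fun m => bt φ (xs q z D0 P h d₀ ps) b (d * m) * pw t₀ (nm (d * m))) e γ π (k * f) ≤
        W2 a P1 ((Cw ^ 2 * (η⁻¹) ^ J) * (C * (D0 ^ n) ^ (3 : ℝ) * X0 ^ ε * (1 + |t₀|) ^ J * B) *
          (Real.exp (LF ps) / nm d) ^ (2 / 3 : ℝ)) Λ := by
  obtain ⟨R, C1, hR0, hC1, hsize⟩ := xs_size hpu n
  have hn0 : (0 : ℝ) ≤ n := Nat.cast_nonneg n
  obtain ⟨a0, ha0⟩ := exists_nat_ge ((5 * n + m + 1) / δ)
  refine ⟨a0 + 1, by omega, fun ε hε => ?_⟩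
  set ε' : ℝ := ε / (n + 1) with hε'
  have hε'0 : 0 < ε' := by positivity
  obtain ⟨C2, hC2, H⟩ := listQ1 hpu hμ (s0 := 1 / 6) (by norm_num) (by norm_num) n hε'0
  have hjc := jc_nonneg
  have hiA := iA_nonneg 2
  have hER : 1 ≤ Real.exp (n * R) := Real.one_le_exp (by positivity)
  set K1 : ℝ := iA 2 ^ 2 * (4 * C2) * Real.exp (n * R) ^ ε' * jc with hK1
  set K2 : ℝ := 16 * (iA 2 ^ 2 * (2 * C1) ^ 2 * Real.exp (n * R) ^ 5) * jc with hK2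
  have hK10 : 0 ≤ K1 := by positivity
  have hK20 : 0 ≤ K2 := by positivity
  set C : ℝ := C2 + K1 + K2 with hC
  have hCC : C2 ≤ C := by rw [hC]; linarith
  have hC1' : K1 ≤ C := by rw [hC]; linarith
  have hC2' : K2 ≤ C := by rw [hC]; linarith
  have hC10 : 1 ≤ C := hC2.trans hCC
  refine ⟨C, hC10, ?_⟩
  intro P hP Q ps d₀ hlen hz hz' z D0 hD0 q d e f hq hd he hf X0 hX0 hDX hqX hdX heX hsX hsX' Cw η
    Aw J hCw hη hη1 hAJ hJ φ hφ b hb t₀ A hA P1 B hP1 hP1X hB hyp γ π hγ hπ hπX Λ hΛ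
  have hX00 : 0 < X0 := by linarith
  have hd0 := nm_cast_pos hd.ne_zero
  have hf0 := nm_cast_pos hf
  have hD00 : 0 < D0 := by linarith
  have ht0 : (1 : ℝ) ≤ 1 + |t₀| := by linarith [abs_nonneg t₀]
  have hB0 : 0 ≤ B := by linarith
  have hηi : 1 ≤ η⁻¹ := (one_le_inv₀ hη).2 hη1
  have hlenr : (rp d₀ ps).length ≤ n := by rw [rp_length]; exact hlen
  set wl : Eis := (w ^ b.1 * lam ^ b.2) ^ 2 with hwl
  have hwl0 : wl ≠ 0 := wl_ne b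
  have hwln : (nm wl : ℝ) ≤ 81 := nm_wl hb
  have hfw : f * wl ≠ 0 := mul_ne_zero hf hwl0
  set x : Eis → ℂ := xs q z D0 P h d₀ ps with hx
  have hFx : FS x := by
    obtain ⟨R', hR0', hR'⟩ := exists_R (cs_cx hpu.cs)
    exact FS_xs ⟨R', hR'⟩ hP q z D0 d₀ ps
  have hLF := exp_LF_le hX0 hlen hsX
  have hLF0 := LF_nonneg' hz
  set E : ℝ := Real.exp (LF ps) with hE
  have hE0 : 0 < E := Real.exp_pos _
  have hE1 : 1 ≤ E := Real.one_le_exp hLF0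
  set Y : ℝ := X0 ^ n * Real.exp (n * R) with hY
  have hY1 : 1 ≤ Y := one_le_mul_of_one_le_of_one_le (one_le_pow₀ hX0) hER
  obtain ⟨hxS, hxG⟩ := hsize P hP ps hlen q z D0 d₀ Y hY1 (by rw [hY]; gcongr)
  have hYS : ∀ m, bt φ x b m * pw t₀ (nm m) ≠ 0 → m ∈ S Y := fun m hm => hxS m (bt_ne hm)
  have hG := sum_bt_le hCw hη (by omega) hφ x b t₀ (S Y) hxG
  have hXδ : 1 ≤ X0 ^ δ := Real.one_le_rpow hX0 hδ.le
  set P2 : ℝ := P1 * X0 ^ δ with hP2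
  have hP20 : 0 < P2 := by positivity
  set X0' : ℝ := X0 ^ ((n : ℝ) + 1) * Real.exp (n * R) with hX0'
  have hXn : X0 ^ ((n : ℝ) + 1) = X0 ^ n * X0 := by
    rw [Real.rpow_add_one hX00.ne', Real.rpow_natCast]
  have hX1n : 1 ≤ X0 ^ n := one_le_pow₀ hX0
  have hXX : X0 ≤ X0' := by
    rw [hX0', hXn]
    calc X0 = 1 * X0 * 1 := by ring
      _ ≤ X0 ^ n * X0 * Real.exp (n * R) := by gcongr
  have hXe : X0' ^ ε' = X0 ^ ε * Real.exp (n * R) ^ ε' := by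
    rw [hX0', Real.mul_rpow (by positivity) (by positivity), ← Real.rpow_mul hX00.le]
    congr 2
    rw [hε']; field_simp
  have hD3 : (D0 ^ n) ^ (2 + 2 * (1 / 6 : ℝ)) ≤ (D0 ^ n) ^ (3 : ℝ) :=
    Real.rpow_le_rpow_of_exponent_le (one_le_pow₀ hD0) (by norm_num)
  set V : ℝ := (Cw ^ 2 * (η⁻¹) ^ J) * (C * (D0 ^ n) ^ (3 : ℝ) * X0 ^ ε * (1 + |t₀|) ^ J * B) *
          (E / nm d) ^ (2 / 3 : ℝ) with hV
  have hV0 : 0 ≤ V := by positivity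
  refine RM_all (A := A) (by have : (0 : ℝ) ≤ J := Nat.cast_nonneg J
                             linarith) (FS_bt hFx b t₀) (f := f) hd (Y := Y) (Xπ := X0)
    (by linarith) hYS hG (P1 := P1) (P2 := P2) (V := V) (a := a0 + 1) (by omega) hP1
    (le_mul_of_one_le_right hP1.le hXδ) hV0 _ ?_ ?_ hγ hπ hπX hΛ
  · -- the levels up to `P2`
    clear γ π hγ hπ hπX Λ hΛ
    intro γ π hγ hπ hγY hπX Λ hΛ1 hΛ2
    have hΛ0 : 0 < Λ := by linarith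
    have hγ0 := nm_cast_pos hγ.ne_zero
    have hcBp : IsPrim (cB γ e) := cB_prim he
    have hcB1 := one_le_nm hcBp.ne_zero
    have hcB0 := nm_cast_pos hcBp.ne_zero
    have hcB := le_nm_cB hγ he
    have hdγ : IsPrim (d * γ) := hd.mul hγ
    have hnd : (nm (d * γ) : ℝ) = nm d * nm γ := by rw [nm_mul]; push_cast; rfl
    have hdγX : (nm (d * γ) : ℝ) ≤ X0' := by
      rw [hnd, hX0', hXn]
      calc (nm d : ℝ) * nm γ ≤ X0 * (X0 ^ n * Real.exp (n * R)) := by gcongr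
        _ = _ := by ring
    set BL : ℝ := (Λ / P2) ^ (1 / 3 : ℝ) * B with hBL
    have hBL0 : 0 ≤ BL := by positivity
    set U : ℝ := (E / (nm d * nm γ)) ^ (-(2 * (1 / 6 : ℝ))) *
      (E / (nm d * nm γ * nm (cB γ e))) with hU
    have hU0 : 0 ≤ U := by positivity
    -- one list
    have hone : ∀ l : List Pf, l.length ≤ n → (∀ p ∈ l, 0 ≤ p.1.z) →
        (∀ p ∈ l, Real.exp p.1.z ≤ X0) → LF l = LF ps →
        (∀ (ps' : List Pq) (W : ℝ), 1 ≤ W → List.Forall₂ (Rl C W) ps' (l.map Prod.fst) →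
          tl Dq ps' ≤ LF ps - Real.log (nm d * nm e) + C →
          RQq Q P h (Real.log (81 * Λ * nm f)) ps' ≤ BL * Real.exp (tl Dq ps') * W ^ (2 * μ)) →
        ∀ u : ℝ, ∑ k ∈ (bl Λ).filter (fun k => Q (k * (f * wl))),
          ‖CS (gC (sqc q (alF z D0 P h l)) (d * γ) (cB γ e) π (tw (1 / 6) u))
            (k * (f * wl))‖ ^ 2 ≤
          C2 * (D0 ^ n) ^ (2 + 2 * (1 / 6 : ℝ)) * X0' ^ ε' * (1 + |u|) ^ J * BL * U := by
      intro l hl hlz hlX hlF hyl u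
      have h1 := H P hP Q l hl hlz z D0 hD0 q (d * γ) (cB γ e) π (f * wl) hq hdγ hcBp hπ.ne_zero
        hfw X0' Λ u BL (hX0.trans hXX) (hDX.trans hXX) (hqX.trans hXX) hdγX
        ((nm_cB_le' he).trans (heX.trans hXX)) (hπX.trans hXX) (fun p hp => (hlX p hp).trans hXX)
        hΛ0 hBL0 (fun ps' W hW hR' hlt => by
          refine le_trans (RQ_mono_l _ h ?_ _) (hyl ps' W hW
            (hR'.imp fun _ _ hx => hx.mono hCC) ?_)
          · have hfw0 := nm_cast_pos hfw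
            refine Real.log_le_log (by positivity) ?_
            rw [nm_mul]
            push_cast
            calc Λ * (nm f * nm wl) ≤ Λ * (nm f * 81) := by gcongr
              _ = _ := by ring
          · have h5 : Real.log (nm d * nm e) ≤ Real.log (nm (d * γ) * nm (cB γ e)) := by
              have he0 := nm_cast_pos he.ne_zero
              refine Real.log_le_log (by positivity) ?_
              rw [hnd, mul_assoc]
              exact mul_le_mul_of_nonneg_left hcB hd0.le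
            rw [hlF] at hlt
            linarith)
      rw [hlF, hnd] at h1
      refine h1.trans ?_
      have ht1 : (1 : ℝ) ≤ 1 + |u| := by linarith [abs_nonneg u]
      have h2 : (1 + |u|) ^ (2 * ((n : ℝ) * μ)) ≤ (1 + |u|) ^ J := by
        rw [← Real.rpow_natCast]
        exact Real.rpow_le_rpow_of_exponent_le ht1 hJ
      calc _ ≤ C2 * (D0 ^ n) ^ (2 + 2 * (1 / 6 : ℝ)) * X0' ^ ε' * (1 + |u|) ^ J * BL *
            ((E / (nm d * nm γ)) ^ (-(2 * (1 / 6 : ℝ))) *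
              (E / (nm d * nm γ * nm (cB γ e)))) := by gcongr
        _ = _ := by rw [hU]
    set M : ℝ := 4 * (C2 * (D0 ^ n) ^ (2 + 2 * (1 / 6 : ℝ)) * X0' ^ ε' * BL * U) with hM
    have hM0 : 0 ≤ M := by positivity
    have hmx : ∀ u : ℝ, ∑ k ∈ (bl Λ).filter (fun k => Q (k * (f * wl))),
        ‖CS (gC x (d * γ) (cB γ e) π (tw (1 / 6) u)) (k * (f * wl))‖ ^ 2 ≤ M * (1 + |u|) ^ J := by
      intro u
      have h1 := sum_xs_le hpu hP q z D0 d₀ ps hdγ.ne_zero (cB γ e) π (tw (1 / 6) u)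
        ((bl Λ).filter (fun k => Q (k * (f * wl)))) (fun k => k * (f * wl))
        (hone ps hlen hz hsX rfl (fun ps' W hW h1 h2 => by
          refine (hyp Λ hΛ1 hΛ2 ps' W hW (Or.inl h1) h2).trans (le_of_eq ?_)
          rw [hBL]) u)
        (hone (rp d₀ ps) hlenr hz' hsX' (LF_rp d₀ ps) (fun ps' W hW h1 h2 => by
          refine (hyp Λ hΛ1 hΛ2 ps' W hW (Or.inr h1) h2).trans (le_of_eq ?_)
          rw [hBL]) u)
      refine h1.trans (le_of_eq ?_)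
      rw [hM]; ring
    have hRM := RM_bt hCw hη hη1 hAJ hφ hFx b t₀ hA hd he hγ π f
      ((bl Λ).filter (fun k => Q (k * (f * wl)))) hM0 hmx
    have hw := wt_le (E := E) hE0 hd0 hγ0 hcB1
      (show n6 γ = (nm γ : ℝ) ^ (-(1 / 6 : ℝ)) by unfold PX764.n6; congr 1; norm_num)
    have hn6 := n6_nonneg γ
    calc (nm γ : ℝ) * n6 γ ^ 2 * ∑ k ∈ (bl Λ).filter (fun k => Q (k * (f * wl))),
          RMm A (fun m => bt φ x b (d * m) * pw t₀ (nm (d * m))) e γ π (k * f)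
        ≤ (nm γ : ℝ) * n6 γ ^ 2 *
          ((Cw ^ 2 * (η⁻¹) ^ J * (1 + |t₀|) ^ J * iA 2 ^ 2 * M) * jc) :=
          mul_le_mul_of_nonneg_left hRM (by positivity)
      _ = (Cw ^ 2 * (η⁻¹) ^ J * (1 + |t₀|) ^ J) * (iA 2 ^ 2 * (4 * C2) * jc) *
          (D0 ^ n) ^ (2 + 2 * (1 / 6 : ℝ)) * X0' ^ ε' * BL * ((nm γ : ℝ) * n6 γ ^ 2 * U) := by
          rw [hM]; ring
      _ ≤ (Cw ^ 2 * (η⁻¹) ^ J * (1 + |t₀|) ^ J) * (iA 2 ^ 2 * (4 * C2) * jc) *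
          (D0 ^ n) ^ (3 : ℝ) * X0' ^ ε' * BL * (E / nm d) ^ (2 / 3 : ℝ) := by gcongr
      _ = (Λ / P2) ^ (1 / 3 : ℝ) * ((Cw ^ 2 * (η⁻¹) ^ J) * (K1 *
          (D0 ^ n) ^ (3 : ℝ) * X0 ^ ε * (1 + |t₀|) ^ J * B) * (E / nm d) ^ (2 / 3 : ℝ)) := by
          rw [hXe, hK1, hBL]; ring
      _ ≤ (Λ / P2) ^ (1 / 3 : ℝ) * V := by
          rw [hV]
          gcongr
  · -- the trivial condition
    have e1 : P2 / P1 = X0 ^ δ := by rw [hP2]; field_simp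
    rw [e1, Nat.add_sub_cancel]
    have h1 : X0 ^ (5 * (n : ℝ) + m + 1) ≤ (X0 ^ δ) ^ a0 := by
      rw [← Real.rpow_natCast, ← Real.rpow_mul hX00.le]
      refine Real.rpow_le_rpow_of_exponent_le hX0 ?_
      rw [div_le_iff₀ hδ] at ha0
      linarith
    have h2 : X0 ^ (-(1 : ℝ)) ≤ (E / nm d) ^ (2 / 3 : ℝ) := by
      calc X0 ^ (-(1 : ℝ)) ≤ X0 ^ (-(2 / 3 : ℝ)) :=
            Real.rpow_le_rpow_of_exponent_le hX0 (by norm_num)
        _ = (1 / X0) ^ (2 / 3 : ℝ) := by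
            rw [one_div, Real.inv_rpow hX00.le, Real.rpow_neg hX00.le]
        _ ≤ _ := by
            refine Real.rpow_le_rpow (by positivity) ?_ (by norm_num)
            gcongr
    have h4 : Cw ^ 2 * C ≤
        (Cw ^ 2 * (η⁻¹) ^ J) * (C * (D0 ^ n) ^ (3 : ℝ) * X0 ^ ε * (1 + |t₀|) ^ J * B) := by
      have g1 : 1 ≤ (D0 ^ n) ^ (3 : ℝ) := Real.one_le_rpow (one_le_pow₀ hD0) (by norm_num)
      have g2 : 1 ≤ X0 ^ ε := Real.one_le_rpow hX0 hε.le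
      have g3 : 1 ≤ (1 + |t₀|) ^ J := one_le_pow₀ ht0
      have g4 : 1 ≤ (η⁻¹) ^ J := one_le_pow₀ hηi
      calc Cw ^ 2 * C = (Cw ^ 2 * 1) * (C * 1 * 1 * 1 * 1) := by ring
        _ ≤ _ := by gcongr
    have h3 : Cw ^ 2 * (C * X0 ^ (5 * (n : ℝ) + m)) ≤ (X0 ^ δ) ^ a0 * V := by
      have e2 : X0 ^ (5 * (n : ℝ) + m) = X0 ^ (5 * (n : ℝ) + m + 1) * X0 ^ (-(1 : ℝ)) := by
        rw [← Real.rpow_add hX00]; congr 1; ring
      calc Cw ^ 2 * (C * X0 ^ (5 * (n : ℝ) + m)) =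
            X0 ^ (5 * (n : ℝ) + m + 1) * (Cw ^ 2 * C * X0 ^ (-(1 : ℝ))) := by rw [e2]; ring
        _ ≤ (X0 ^ δ) ^ a0 * V := by
            rw [hV]
            gcongr
    refine le_trans ?_ h3
    have e3 : X0 ^ (5 * (n : ℝ) + m) = (X0 ^ n) ^ 5 * X0 ^ m := by
      rw [Real.rpow_add hX00, ← pow_mul, ← Real.rpow_natCast]
      congr 2
      push_cast; ring
    calc 16 * (Y * (Cw * iA 2 * (2 * (C1 * Y ^ 2))) ^ 2) * P1 * jc
        = Cw ^ 2 * K2 * (X0 ^ n) ^ 5 * P1 := by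
          rw [hK2, hY]; ring
      _ ≤ Cw ^ 2 * C * (X0 ^ n) ^ 5 * X0 ^ m := by gcongr
      _ = _ := by rw [e3]; ring

/-! ### principal frequencies -/

/-- at cubes the character is principal if it is at `1` -/
lemma np_cube {n : Eis} {ψ : Eis → ℂ} {l : ℤ} (h1 : ¬ NPm n ψ l 1) {k : Eis} (hk : k ≠ 0)
    (hc : ¬ NCube k) : ¬ NPm n ψ l k := by
  unfold T411.NCube at hc
  push Not at hc
  obtain ⟨m, hm⟩ := hc hk
  intro h
  apply h1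
  unfold Sup271.NPm End699.NP at h ⊢
  rcases h with h | ⟨a, ha, hco, hne⟩
  · exact Or.inl h
  · refine Or.inr ⟨a, ha, ?_, ?_⟩
    · have h2 : IsCoprime a n := hco.of_mul_right_left
      have h3 : IsCoprime a 9 := hco.of_mul_right_right.of_mul_right_left
      rw [mul_one]
      exact h2.mul_right h3
    · have h2 : IsCoprime a k := hco.of_mul_right_right.of_mul_right_right
      have h3 : IsCoprime m a := by
        have : IsCoprime a (m ^ 3) := by rw [← hm]; exact h2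
        exact ((IsCoprime.pow_right_iff (by norm_num)).1 this).symm
      intro h4
      apply hne
      have e1 : sy k a = 1 := by rw [hm]; exact Char766.sy_cube_left ha h3
      have e2 : sy 1 a = 1 := by
        have := Char766.sy_cube_left ha (m := 1) isCoprime_one_left
        rwa [one_pow] at this
      simp only at h4 ⊢
      rw [e1]
      rwa [e2] at h4

open Classical in
/-- the number of principal frequencies -/
lemma card_prin {Λ : ℝ} (hΛ : 0 < Λ) {f : Eis} (hf : f ≠ 0) :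
    (((bl Λ).filter (fun k => ¬ NCube (k * f))).card : ℝ) ≤ 16 * (Λ * nm f) ^ (1 / 3 : ℝ) := by
  have hf0 := nm_cast_pos hf
  have hex : ∀ k, ∃ m : Eis, k ∈ (bl Λ).filter (fun k => ¬ NCube (k * f)) → k * f = m ^ 3 := by
    intro k
    by_cases hk : k ∈ (bl Λ).filter (fun k => ¬ NCube (k * f))
    · obtain ⟨h1, h2⟩ := Finset.mem_filter.1 hk
      rw [mem_bl hΛ.le] at h1
      unfold T411.NCube at h2
      push Not at h2
      obtain ⟨m, hm⟩ := h2 (mul_ne_zero h1.1 hf)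
      exact ⟨m, fun _ => hm⟩
    · exact ⟨0, fun h => absurd h hk⟩
  choose g hg using hex
  have h1 : ((bl Λ).filter (fun k => ¬ NCube (k * f))).card ≤
      (bl ((Λ * nm f) ^ (1 / 3 : ℝ))).card := by
    refine Finset.card_le_card_of_injOn g (fun k hk => ?_) fun x hx y hy hxy => ?_
    · have hk' : k ∈ (bl Λ).filter (fun k => ¬ NCube (k * f)) := hk
      have h2 := hg k hk'
      have h3 := (Finset.mem_filter.1 hk').1
      rw [mem_bl hΛ.le] at h3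
      rw [Finset.mem_coe, mem_bl (by positivity)]
      refine ⟨fun h0 => ?_, ?_⟩
      · rw [h0, zero_pow (by norm_num)] at h2
        exact mul_ne_zero h3.1 hf h2
      · have h4 : ((nm (g k) : ℝ)) ^ 3 ≤ Λ * nm f := by
          have h5 : nm (k * f) = nm (g k) ^ 3 := by rw [h2, nm_pow]
          have h6 : ((nm (g k) : ℝ)) ^ 3 = nm k * nm f := by
            rw [nm_mul] at h5
            exact_mod_cast h5.symm
          rw [h6]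
          exact mul_le_mul_of_nonneg_right h3.2 hf0.le
        calc (nm (g k) : ℝ) = ((nm (g k) : ℝ) ^ 3) ^ (1 / 3 : ℝ) := by
              rw [← Real.rpow_natCast, ← Real.rpow_mul (Nat.cast_nonneg _)]
              norm_num
          _ ≤ _ := Real.rpow_le_rpow (by positivity) h4 (by norm_num)
    · have h2 := hg x hx
      have h3 := hg y hy
      rw [hxy, ← h3] at h2
      exact mul_right_cancel₀ hf h2
  refine le_trans (by exact_mod_cast h1) (CR2.card_bl_le (by positivity))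

/-- the weights at principal frequencies -/
lemma wt_pr {E nd nγ nb ne s : ℝ} {e0 : ℝ} (hE : 0 < E) (hd : 0 < nd) (hγ : 0 < nγ)
    (hb : 1 ≤ nb) (he : 0 < ne) (hne : ne ≤ nγ * nb) (he0 : e0 = nγ ^ (-(1 / 6 : ℝ)))
    (hs : 0 < s) :
    nγ * e0 ^ 2 * ((E / (nd * nγ * nb)) ^ (5 / 3 : ℝ) * nb ^ (-(1 / 3 : ℝ)) *
        min 1 (nd * nγ * nb * s)) ≤
      (E / nd) ^ (5 / 3 : ℝ) * ne⁻¹ * min 1 (nd * ne * s) := by
  have hb0 : 0 < nb := by linarith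
  set y : ℝ := nγ * nb with hy
  have hy0 : 0 < y := by positivity
  have h1 : e0 ^ 2 = nγ ^ (-(1 / 3 : ℝ)) := by
    rw [he0, ← Real.rpow_natCast, ← Real.rpow_mul hγ.le]
    congr 1; norm_num
  have h2 : (E / (nd * nγ * nb)) ^ (5 / 3 : ℝ) = (E / nd) ^ (5 / 3 : ℝ) *
      (nγ ^ (-(5 / 3 : ℝ)) * nb ^ (-(5 / 3 : ℝ))) := by
    rw [Real.rpow_neg hγ.le, Real.rpow_neg hb0.le, ← mul_inv, ← Real.mul_rpow hγ.le hb0.le,
      ← Real.inv_rpow (by positivity), ← Real.mul_rpow (by positivity) (by positivity)]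
    congr 1
    field_simp
  have h3 : nγ * nγ ^ (-(1 / 3 : ℝ)) * nγ ^ (-(5 / 3 : ℝ)) = nγ⁻¹ := by
    conv_lhs => rw [← Real.rpow_one nγ]
    rw [← Real.rpow_mul hγ.le, ← Real.rpow_mul hγ.le, ← Real.rpow_add hγ, ← Real.rpow_add hγ,
      ← Real.rpow_neg_one]
    congr 1; norm_num
  have h4 : nb ^ (-(5 / 3 : ℝ)) * nb ^ (-(1 / 3 : ℝ)) ≤ nb⁻¹ := by
    rw [← Real.rpow_add hb0, ← Real.rpow_neg_one]
    exact Real.rpow_le_rpow_of_exponent_le hb (by norm_num)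
  have h5 : y⁻¹ * min 1 (nd * y * s) ≤ ne⁻¹ * min 1 (nd * ne * s) := by
    have e1 : ∀ x : ℝ, 0 < x → x⁻¹ * min 1 (nd * x * s) = min x⁻¹ (nd * s) := by
      intro x hx
      rw [mul_min_of_nonneg _ _ (inv_nonneg.2 hx.le), mul_one]
      congr 1
      field_simp
    rw [e1 y hy0, e1 ne he]
    exact min_le_min_right _ (inv_anti₀ he hne)
  have e3 : nd * nγ * nb = nd * y := by rw [hy]; ring
  rw [h1, h2, e3]
  have hm0 : 0 ≤ min 1 (nd * y * s) := le_min zero_le_one (by positivity)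
  calc nγ * nγ ^ (-(1 / 3 : ℝ)) * ((E / nd) ^ (5 / 3 : ℝ) *
        (nγ ^ (-(5 / 3 : ℝ)) * nb ^ (-(5 / 3 : ℝ))) * nb ^ (-(1 / 3 : ℝ)) *
          min 1 (nd * y * s))
      = (E / nd) ^ (5 / 3 : ℝ) * ((nγ * nγ ^ (-(1 / 3 : ℝ)) * nγ ^ (-(5 / 3 : ℝ))) *
        (nb ^ (-(5 / 3 : ℝ)) * nb ^ (-(1 / 3 : ℝ))) * min 1 (nd * y * s)) := by ring
    _ ≤ (E / nd) ^ (5 / 3 : ℝ) * (nγ⁻¹ * nb⁻¹ * min 1 (nd * y * s)) := by
        rw [h3]
        gcongr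
    _ = (E / nd) ^ (5 / 3 : ℝ) * (y⁻¹ * min 1 (nd * y * s)) := by rw [hy, mul_inv]
    _ ≤ (E / nd) ^ (5 / 3 : ℝ) * (ne⁻¹ * min 1 (nd * ne * s)) := by gcongr
    _ = _ := by ring

open Classical in
/-- the moments of `xs` at the principal frequencies -/
theorem momx_pr {h : ℝ → ℝ} {c : ℝ} (hpu : PU h c) (n : ℕ) {B : ℝ} (hB : 0 ≤ B) {ε : ℝ}
    (hε : 0 < ε) :
    ∃ C : ℝ, 1 ≤ C ∧ ∀ X : ℝ, 3 ≤ X → ∀ P : DPar, OKi P → HC P.n P.ψ → (nm P.n : ℝ) ≤ X ^ B →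
      ¬ NPm P.n P.ψ P.l₂ 1 → ∀ z D0 : ℝ, 1 ≤ D0 →
      ∀ (ps : List Pf) (d₀ s₀ : ℝ), Tw d₀ s₀ (X ^ B) ps → ps.length ≤ n →
      (∀ p ∈ ps, 0 ≤ p.1.z) → LF ps ≤ B * Real.log X →
      ∀ (q δ e π f : Eis), q ≠ 0 → (nm q : ℝ) ≤ X ^ B → IsPrim δ → (nm δ : ℝ) ≤ X ^ B →
      IsPrim e → (nm e : ℝ) ≤ X ^ B → π ≠ 0 → (nm π : ℝ) ≤ X ^ B → f ≠ 0 →
      ∀ Λ : ℝ, 0 < Λ → Λ * nm f ≤ X ^ B → ∀ t : ℝ,
      ∑ k ∈ (bl Λ).filter (fun k => ¬ NCube (k * f)),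
          ‖CS (gC (xs q z D0 P h d₀ ps) δ e π (tw (1 / 6) t)) (k * f)‖ ^ 2 ≤
        16 * (Λ * nm f) ^ (1 / 3 : ℝ) * (C * X ^ ε * D0 ^ 4 * Ht ps ^ 6) *
          ((Real.exp (LF ps) / nm (δ * e)) ^ (5 / 3 : ℝ) * (nm e : ℝ) ^ (-(1 / 3 : ℝ)) *
            min 1 ((nm (δ * e) : ℝ) * Real.exp (-s₀))) * (1 + |t|) ^ 12 := by
  obtain ⟨C, hC, H⟩ := gC_xs hpu n (σ := 1 / 6) (by norm_num) hB (ε := ε / 2) (by positivity)
  refine ⟨C ^ 2, one_le_pow₀ hC, ?_⟩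
  intro X hX P hP hψ hPn hnp z D0 hD0 ps d₀ s₀ hT hlen hz hL q δ e π f hq hqX hδ hδX he heX hπ hπX
    hf Λ hΛ hΛX t
  have hX0 : 0 < X := by linarith
  have he0 := nm_cast_pos he.ne_zero
  have hde0 := nm_cast_pos (hδ.mul he).ne_zero
  have hf0 := nm_cast_pos hf
  have hHt1 := RG64.one_le_Ht ps
  set E : ℝ := Real.exp (LF ps) with hE
  have hE0 : 0 < E := Real.exp_pos _
  set U : ℝ := (C ^ 2 * X ^ ε * D0 ^ 4 * Ht ps ^ 6) *
          ((E / nm (δ * e)) ^ (5 / 3 : ℝ) * (nm e : ℝ) ^ (-(1 / 3 : ℝ)) *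
            min 1 ((nm (δ * e) : ℝ) * Real.exp (-s₀))) * (1 + |t|) ^ 12 with hU
  have hm0 : 0 ≤ min 1 ((nm (δ * e) : ℝ) * Real.exp (-s₀)) := le_min zero_le_one (by positivity)
  have hU0 : 0 ≤ U := by positivity
  have hone : ∀ k ∈ (bl Λ).filter (fun k => ¬ NCube (k * f)),
      ‖CS (gC (xs q z D0 P h d₀ ps) δ e π (tw (1 / 6) t)) (k * f)‖ ^ 2 ≤ U := by
    intro k hk
    obtain ⟨h1, h2⟩ := Finset.mem_filter.1 hk
    rw [mem_bl hΛ.le] at h1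
    have hkf : k * f ≠ 0 := mul_ne_zero h1.1 hf
    have hkX : (nm (k * f) : ℝ) ≤ X ^ B := by
      refine le_trans ?_ hΛX
      rw [nm_mul]; push_cast
      exact mul_le_mul_of_nonneg_right h1.2 hf0.le
    have h3 := H X hX P hP hψ hPn z D0 hD0 ps d₀ s₀ hT hlen hz hL (k * f) hkf hkX
      (np_cube hnp hkf h2) q δ e π hq hqX hδ hδX he heX hπ hπX t
    have hes : (0 : ℝ) < (nm e : ℝ) ^ (1 / 6 : ℝ) := by positivity
    rw [← le_div_iff₀' hes] at h3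
    refine (pow_le_pow_left₀ (norm_nonneg _) h3 2).trans (le_of_eq ?_)
    rw [div_pow, mul_pow, mul_pow, mul_pow, mul_pow, mul_pow, mul_pow, Mg_sq]
    have e1 : (X ^ (ε / 2)) ^ 2 = X ^ ε := by
      rw [← Real.rpow_natCast, ← Real.rpow_mul hX0.le]; congr 1; push_cast; ring
    have e2 : ((E / nm (δ * e)) ^ (1 - 1 / 6 : ℝ)) ^ 2 = (E / nm (δ * e)) ^ (5 / 3 : ℝ) := by
      rw [← Real.rpow_natCast, ← Real.rpow_mul (by positivity)]; congr 1; norm_num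
    have e3 : ((nm e : ℝ) ^ (1 / 6 : ℝ)) ^ 2 = (nm e : ℝ) ^ (1 / 3 : ℝ) := by
      rw [← Real.rpow_natCast, ← Real.rpow_mul he0.le]; congr 1; norm_num
    rw [e1, e2, e3, hU, Real.rpow_neg he0.le]
    ring
  calc ∑ k ∈ (bl Λ).filter (fun k => ¬ NCube (k * f)),
          ‖CS (gC (xs q z D0 P h d₀ ps) δ e π (tw (1 / 6) t)) (k * f)‖ ^ 2
      ≤ ((bl Λ).filter (fun k => ¬ NCube (k * f))).card • U := Finset.sum_le_card_nsmul _ _ _ hone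
    _ = (((bl Λ).filter (fun k => ¬ NCube (k * f))).card : ℝ) * U := nsmul_eq_mul _ _
    _ ≤ 16 * (Λ * nm f) ^ (1 / 3 : ℝ) * U := mul_le_mul_of_nonneg_right (card_prin hΛ hf) hU0
    _ = _ := by rw [hU]; ring

lemma exp_le_rpow {X a : ℝ} (hX : 3 ≤ X) (ha : 0 ≤ a) : Real.exp a ≤ X ^ a := by
  have h1 : Real.exp 1 ≤ X := by
    have := Real.exp_one_lt_d9
    linarith
  calc Real.exp a = Real.exp 1 ^ a := by rw [← Real.exp_mul, one_mul]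
    _ ≤ X ^ a := Real.rpow_le_rpow (Real.exp_pos _).le h1 ha

lemma Tw_s0 {d s₀ M : ℝ} {ps : List Pf} (h : Tw d s₀ M ps) : ∃ p ∈ ps, s₀ ≤ p.1.z := by
  match ps, h with
  | p1 :: p2 :: l, h => exact ⟨p1, by simp, h.2.2.2.1.1⟩

set_option maxHeartbeats 1600000 in
open Classical in
/-- **(RH) at the principal frequencies** for the twisted windows of `xs` -/
theorem RHx_pr {h : ℝ → ℝ} {c : ℝ} (hpu : PU h c) (n : ℕ) {δ m B₀ : ℝ} (hδ : 0 < δ) (hm : 0 ≤ m)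
    (hB₀ : 0 ≤ B₀) :
    ∃ a : ℕ, 1 ≤ a ∧ ∀ ε : ℝ, 0 < ε →
    ∃ C : ℝ, 1 ≤ C ∧ ∀ (P : DPar), P.OK → ¬ NPm P.n P.ψ P.l₂ 1 →
      ∀ (ps : List Pf) (d₀ s₀ : ℝ), ps.length ≤ n → (∀ p ∈ ps, 0 ≤ p.1.z) →
      ∀ (z D0 : ℝ), 1 ≤ D0 →
      ∀ q d e f : Eis, q ≠ 0 → IsPrim d → IsPrim e → f ≠ 0 →
      ∀ X0 : ℝ, 3 ≤ X0 → (nm P.n : ℝ) ≤ X0 ^ B₀ → Tw d₀ s₀ (X0 ^ B₀) ps → (nm q : ℝ) ≤ X0 →
      (nm d : ℝ) ≤ X0 → (nm e : ℝ) ≤ X0 → (nm f : ℝ) ≤ X0 → (∀ p ∈ ps, Real.exp p.1.z ≤ X0) →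
      ∀ (Cw η : ℝ) (Aw J : ℕ), 0 ≤ Cw → 0 < η → η ≤ 1 → J + 2 ≤ Aw → 12 ≤ J →
      ∀ (φ : ℝ → ℝ), WK Cw η Aw φ → ∀ (b : ℕ × ℕ), b.2 ≤ 2 → ∀ (t₀ A : ℝ), (J : ℝ) + 2 ≤ A →
      ∀ P1 : ℝ, 0 < P1 → P1 ≤ X0 ^ m →
      ∀ γ π : Eis, IsPrim γ → IsPrim π → (nm π : ℝ) ≤ X0 → ∀ Λ : ℝ, 0 < Λ →
      (nm γ : ℝ) * n6 γ ^ 2 *
        ∑ k ∈ (bl Λ).filter (fun k => ¬ NCube (k * (f * (w ^ b.1 * lam ^ b.2) ^ 2))), RMm A
          (fun m => bt φ (xs q z D0 P h d₀ ps) b (d * m) * pw t₀ (nm (d * m))) e γ π (k * f) ≤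
        W2 a P1 ((Cw ^ 2 * (η⁻¹) ^ J) * (C * D0 ^ 4 * Ht ps ^ 6 * X0 ^ ε * (1 + |t₀|) ^ J) *
          ((P1 * X0 ^ δ * nm f) ^ (1 / 3 : ℝ) * ((Real.exp (LF ps) / nm d) ^ (5 / 3 : ℝ) *
            (nm e : ℝ)⁻¹ * min 1 ((nm d : ℝ) * nm e * Real.exp (-s₀))))) Λ := by
  obtain ⟨R, C1, hR0, hC1, hsize⟩ := xs_size hpu n
  have hn0 : (0 : ℝ) ≤ n := Nat.cast_nonneg n
  obtain ⟨a0, ha0⟩ := exists_nat_ge ((5 * n + m + 4) / δ)
  refine ⟨a0 + 1, by omega, fun ε hε => ?_⟩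
  have hnR : 0 ≤ n * R := by positivity
  set B : ℝ := B₀ + n + m + δ + n * R + 6 with hBd
  have hB0 : 0 ≤ B := by rw [hBd]; positivity
  obtain ⟨C2, hC2, H⟩ := momx_pr hpu n hB0 hε
  have hjc := jc_nonneg
  have hiA := iA_nonneg 2
  have hER : 1 ≤ Real.exp (n * R) := Real.one_le_exp (by positivity)
  set K1 : ℝ := iA 2 ^ 2 * (16 * 81 ^ (1 / 3 : ℝ) * C2) * jc with hK1
  set K2 : ℝ := 16 * (iA 2 ^ 2 * (2 * C1) ^ 2 * Real.exp (n * R) ^ 5) * jc with hK2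
  have hK10 : 0 ≤ K1 := by positivity
  have hK20 : 0 ≤ K2 := by positivity
  set C : ℝ := 1 + K1 + K2 with hC
  have hC1' : K1 ≤ C := by rw [hC]; linarith
  have hC2' : K2 ≤ C := by rw [hC]; linarith
  have hC10 : 1 ≤ C := by rw [hC]; linarith
  refine ⟨C, hC10, ?_⟩
  intro P hP hnp ps d₀ s₀ hlen hz z D0 hD0 q d e f hq hd he hf X0 hX3 hPn hT hqX hdX heX hfX hsX
    Cw η Aw J hCw hη hη1 hAJ hJ φ hφ b hb t₀ A hA P1 hP1 hP1X γ π hγ hπ hπX Λ hΛ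
  have hX0 : 1 ≤ X0 := by linarith
  have hX00 : 0 < X0 := by linarith
  have hlX : 0 ≤ Real.log X0 := Real.log_nonneg hX0
  have hd0 := nm_cast_pos hd.ne_zero
  have he0 := nm_cast_pos he.ne_zero
  have he1 := one_le_nm he.ne_zero
  have hd1 := one_le_nm hd.ne_zero
  have hf0 := nm_cast_pos hf
  have hf1 := one_le_nm hf
  have hD00 : 0 < D0 := by linarith
  have ht0 : (1 : ℝ) ≤ 1 + |t₀| := by linarith [abs_nonneg t₀]
  have hHt1 := RG64.one_le_Ht ps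
  have hηi : 1 ≤ η⁻¹ := (one_le_inv₀ hη).2 hη1
  set wl : Eis := (w ^ b.1 * lam ^ b.2) ^ 2 with hwl
  have hwl0 : wl ≠ 0 := wl_ne b
  have hwln : (nm wl : ℝ) ≤ 81 := nm_wl hb
  have hfw : f * wl ≠ 0 := mul_ne_zero hf hwl0
  have hfwn : (nm (f * wl) : ℝ) ≤ 81 * nm f := by
    rw [nm_mul]; push_cast
    calc (nm f : ℝ) * nm wl ≤ nm f * 81 := by gcongr
      _ = _ := mul_comm _ _
  set x : Eis → ℂ := xs q z D0 P h d₀ ps with hx
  have hFx : FS x := by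
    obtain ⟨R', hR0', hR'⟩ := exists_R (cs_cx hpu.cs)
    exact FS_xs ⟨R', hR'⟩ hP q z D0 d₀ ps
  have hLF := exp_LF_le hX0 hlen hsX
  have hLF0 := LF_nonneg' hz
  set E : ℝ := Real.exp (LF ps) with hE
  have hE0 : 0 < E := Real.exp_pos _
  have hE1 : 1 ≤ E := Real.one_le_exp hLF0
  set Y : ℝ := X0 ^ n * Real.exp (n * R) with hY
  have hY1 : 1 ≤ Y := one_le_mul_of_one_le_of_one_le (one_le_pow₀ hX0) hER
  obtain ⟨hxS, hxG⟩ := hsize P hP ps hlen q z D0 d₀ Y hY1 (by rw [hY]; gcongr)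
  have hYS : ∀ m, bt φ x b m * pw t₀ (nm m) ≠ 0 → m ∈ S Y := fun m hm => hxS m (bt_ne hm)
  have hG := sum_bt_le hCw hη (by omega) hφ x b t₀ (S Y) hxG
  have hXδ : 1 ≤ X0 ^ δ := Real.one_le_rpow hX0 hδ.le
  set P2 : ℝ := P1 * X0 ^ δ with hP2
  have hP20 : 0 < P2 := by positivity
  set s : ℝ := Real.exp (-s₀) with hs
  have hs0 : 0 < s := Real.exp_pos _
  set mn : ℝ := min 1 ((nm d : ℝ) * nm e * s) with hmn
  have hmn0 : 0 < mn := lt_min zero_lt_one (by positivity)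
  set V : ℝ := (Cw ^ 2 * (η⁻¹) ^ J) * (C * D0 ^ 4 * Ht ps ^ 6 * X0 ^ ε * (1 + |t₀|) ^ J) *
          ((P2 * nm f) ^ (1 / 3 : ℝ) * ((E / nm d) ^ (5 / 3 : ℝ) *
            (nm e : ℝ)⁻¹ * mn)) with hV
  have hV0 : 0 ≤ V := by positivity
  -- norms below `X0 ^ B`
  have hX1B : X0 ≤ X0 ^ B := by
    conv_lhs => rw [← Real.rpow_one X0]
    refine Real.rpow_le_rpow_of_exponent_le hX0 ?_
    rw [hBd]; linarith
  have hB₀B : X0 ^ B₀ ≤ X0 ^ B := Real.rpow_le_rpow_of_exponent_le hX0 (by rw [hBd]; linarith)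
  have hTB : Tw d₀ s₀ (X0 ^ B) ps := by
    match ps, hT with
    | p1 :: p2 :: l, hT =>
      obtain ⟨a1, a2, ⟨a3, a4⟩, a5, a6⟩ := hT
      exact ⟨a1, a2, ⟨a3.trans hB₀B, a4.trans hB₀B⟩, a5, a6⟩
  have hLB : LF ps ≤ B * Real.log X0 := by
    have h1 : LF ps ≤ n * Real.log X0 := by
      have h2 := Real.log_le_log hE0 hLF
      rwa [hE, Real.log_exp, Real.log_pow] at h2
    refine h1.trans (mul_le_mul_of_nonneg_right ?_ hlX)
    rw [hBd]; linarith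
  refine RM_all (A := A) (by have : (0 : ℝ) ≤ J := Nat.cast_nonneg J
                             linarith) (FS_bt hFx b t₀) (f := f) hd (Y := Y) (Xπ := X0)
    (by linarith) hYS hG (P1 := P1) (P2 := P2) (V := V) (a := a0 + 1) (by omega) hP1
    (le_mul_of_one_le_right hP1.le hXδ) hV0 _ ?_ ?_ hγ hπ hπX hΛ
  · -- the levels up to `P2`
    clear γ π hγ hπ hπX Λ hΛ
    intro γ π hγ hπ hγY hπX Λ hΛ1 hΛ2
    have hΛ0 : 0 < Λ := by linarith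
    have hγ0 := nm_cast_pos hγ.ne_zero
    have hcBp : IsPrim (cB γ e) := cB_prim he
    have hcB1 := one_le_nm hcBp.ne_zero
    have hcB0 := nm_cast_pos hcBp.ne_zero
    have hcB := le_nm_cB hγ he
    have hdγ : IsPrim (d * γ) := hd.mul hγ
    have hnd : (nm (d * γ) : ℝ) = nm d * nm γ := by rw [nm_mul]; push_cast; rfl
    have hnde : (nm (d * γ * cB γ e) : ℝ) = nm d * nm γ * nm (cB γ e) := by
      rw [nm_mul, nm_mul]; push_cast; rfl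
    have hdγX : (nm (d * γ) : ℝ) ≤ X0 ^ B := by
      rw [hnd]
      calc (nm d : ℝ) * nm γ ≤ X0 * (X0 ^ n * Real.exp (n * R)) := by gcongr
        _ ≤ X0 * (X0 ^ n * X0 ^ (n * R)) := by gcongr; exact exp_le_rpow hX3 hnR
        _ = X0 ^ (1 + n + n * R) := by
            rw [Real.rpow_add hX00, Real.rpow_add hX00, Real.rpow_one, Real.rpow_natCast]; ring
        _ ≤ _ := Real.rpow_le_rpow_of_exponent_le hX0 (by rw [hBd]; linarith)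
    have h81 : (81 : ℝ) ≤ X0 ^ (4 : ℝ) := by
      rw [show (4 : ℝ) = ((4 : ℕ) : ℝ) by norm_num, Real.rpow_natCast]
      calc (81 : ℝ) = 3 ^ 4 := by norm_num
        _ ≤ X0 ^ 4 := pow_le_pow_left₀ (by norm_num) hX3 4
    have hΛX : Λ * nm (f * wl) ≤ X0 ^ B := by
      calc Λ * nm (f * wl) ≤ P2 * (81 * nm f) := by gcongr
        _ ≤ (X0 ^ m * X0 ^ δ) * (X0 ^ (4 : ℝ) * X0) := by rw [hP2]; gcongr
        _ = X0 ^ (m + δ + 5) := by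
            rw [← Real.rpow_add hX00, ← Real.rpow_add_one hX00.ne', ← Real.rpow_add hX00]
            congr 1; ring
        _ ≤ _ := Real.rpow_le_rpow_of_exponent_le hX0 (by rw [hBd]; linarith)
    set U : ℝ := (E / (nm d * nm γ * nm (cB γ e))) ^ (5 / 3 : ℝ) *
      (nm (cB γ e) : ℝ) ^ (-(1 / 3 : ℝ)) * min 1 (nm d * nm γ * nm (cB γ e) * s) with hU
    have hU0 : 0 ≤ U := by
      have : 0 ≤ min 1 ((nm d : ℝ) * nm γ * nm (cB γ e) * s) := le_min zero_le_one (by positivity)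
      positivity
    set M : ℝ := 16 * (Λ * (81 * nm f)) ^ (1 / 3 : ℝ) * (C2 * X0 ^ ε * D0 ^ 4 * Ht ps ^ 6) * U
      with hM
    have hM0 : 0 ≤ M := by positivity
    have hmx : ∀ u : ℝ, ∑ k ∈ (bl Λ).filter (fun k => ¬ NCube (k * (f * wl))),
        ‖CS (gC x (d * γ) (cB γ e) π (tw (1 / 6) u)) (k * (f * wl))‖ ^ 2 ≤ M * (1 + |u|) ^ J := by
      intro u
      have h1 := H X0 hX3 P (OKi848.OKi.of hP) hP.ψ (hPn.trans hB₀B) hnp z D0 hD0 ps d₀ s₀ hTB hlen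
        hz hLB q (d * γ) (cB γ e) π (f * wl) hq (hqX.trans hX1B) hdγ hdγX hcBp
        ((nm_cB_le' he).trans (heX.trans hX1B)) hπ.ne_zero (hπX.trans hX1B) hfw Λ hΛ0 hΛX u
      refine h1.trans ?_
      rw [hnde]
      have ht1 : (1 : ℝ) ≤ 1 + |u| := by linarith [abs_nonneg u]
      calc _ = 16 * (Λ * nm (f * wl)) ^ (1 / 3 : ℝ) * (C2 * X0 ^ ε * D0 ^ 4 * Ht ps ^ 6) * U *
            (1 + |u|) ^ 12 := by rw [hU]
        _ ≤ 16 * (Λ * (81 * nm f)) ^ (1 / 3 : ℝ) * (C2 * X0 ^ ε * D0 ^ 4 * Ht ps ^ 6) * U *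
            (1 + |u|) ^ J := by gcongr
        _ = _ := by rw [hM]
    have hRM := RM_bt hCw hη hη1 hAJ hφ hFx b t₀ hA hd he hγ π f
      ((bl Λ).filter (fun k => ¬ NCube (k * (f * wl)))) hM0 hmx
    have hw := wt_pr (E := E) (s := s) hE0 hd0 hγ0 hcB1 he0 hcB
      (show n6 γ = (nm γ : ℝ) ^ (-(1 / 6 : ℝ)) by unfold PX764.n6; congr 1; norm_num) hs0
    have hn6 := n6_nonneg γ
    have hL3 : (Λ * (81 * nm f)) ^ (1 / 3 : ℝ) =
        81 ^ (1 / 3 : ℝ) * ((Λ / P2) ^ (1 / 3 : ℝ) * (P2 * nm f) ^ (1 / 3 : ℝ)) := by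
      rw [← Real.mul_rpow (by positivity) (by positivity),
        ← Real.mul_rpow (by positivity) (by positivity)]
      congr 1
      field_simp
    calc (nm γ : ℝ) * n6 γ ^ 2 * ∑ k ∈ (bl Λ).filter (fun k => ¬ NCube (k * (f * wl))),
          RMm A (fun m => bt φ x b (d * m) * pw t₀ (nm (d * m))) e γ π (k * f)
        ≤ (nm γ : ℝ) * n6 γ ^ 2 *
          ((Cw ^ 2 * (η⁻¹) ^ J * (1 + |t₀|) ^ J * iA 2 ^ 2 * M) * jc) :=
          mul_le_mul_of_nonneg_left hRM (by positivity)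
      _ = (Cw ^ 2 * (η⁻¹) ^ J * (1 + |t₀|) ^ J) * K1 * ((Λ / P2) ^ (1 / 3 : ℝ) *
          (P2 * nm f) ^ (1 / 3 : ℝ)) * (X0 ^ ε * D0 ^ 4 * Ht ps ^ 6) *
          ((nm γ : ℝ) * n6 γ ^ 2 * U) := by
          rw [hM, hL3, hK1]; ring
      _ ≤ (Cw ^ 2 * (η⁻¹) ^ J * (1 + |t₀|) ^ J) * C * ((Λ / P2) ^ (1 / 3 : ℝ) *
          (P2 * nm f) ^ (1 / 3 : ℝ)) * (X0 ^ ε * D0 ^ 4 * Ht ps ^ 6) *
          ((E / nm d) ^ (5 / 3 : ℝ) * (nm e : ℝ)⁻¹ * mn) := by gcongr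
      _ = (Λ / P2) ^ (1 / 3 : ℝ) * V := by rw [hV]; ring
  · -- the trivial condition
    have e1 : P2 / P1 = X0 ^ δ := by rw [hP2]; field_simp
    rw [e1, Nat.add_sub_cancel]
    have h1 : X0 ^ (5 * (n : ℝ) + m + 4) ≤ (X0 ^ δ) ^ a0 := by
      rw [← Real.rpow_natCast, ← Real.rpow_mul hX00.le]
      refine Real.rpow_le_rpow_of_exponent_le hX0 ?_
      rw [div_le_iff₀ hδ] at ha0
      linarith
    have hXinv : ∀ y : ℝ, 0 < y → y ≤ X0 → X0 ^ (-(1 : ℝ)) ≤ y⁻¹ := fun y hy hyX => by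
      rw [Real.rpow_neg_one]; exact inv_anti₀ hy hyX
    have h2 : X0 ^ (-(2 : ℝ)) ≤ (E / nm d) ^ (5 / 3 : ℝ) := by
      calc X0 ^ (-(2 : ℝ)) ≤ X0 ^ (-(5 / 3 : ℝ)) :=
            Real.rpow_le_rpow_of_exponent_le hX0 (by norm_num)
        _ = (1 / X0) ^ (5 / 3 : ℝ) := by
            rw [one_div, Real.inv_rpow hX00.le, Real.rpow_neg hX00.le]
        _ ≤ _ := by
            refine Real.rpow_le_rpow (by positivity) ?_ (by norm_num)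
            gcongr
    have h3 : X0 ^ (-(1 : ℝ)) ≤ mn := by
      obtain ⟨p, hp, hps⟩ := Tw_s0 hT
      have h4 : X0 ^ (-(1 : ℝ)) ≤ s := by
        have h5 : Real.exp s₀ ≤ X0 := (Real.exp_le_exp.2 hps).trans (hsX p hp)
        have h6 := hXinv _ (Real.exp_pos s₀) h5
        rwa [← Real.exp_neg] at h6
      refine le_min ?_ ?_
      · refine Real.rpow_le_one_of_one_le_of_nonpos hX0 (by norm_num)
      · refine h4.trans ?_
        calc s = 1 * 1 * s := by ring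
          _ ≤ _ := by gcongr
    have h5 : P1 ≤ X0 ^ m * (P2 * nm f) ^ (1 / 3 : ℝ) := by
      have g1 : P1 ≤ P2 * nm f := by
        calc P1 = P1 * 1 * 1 := by ring
          _ ≤ P1 * X0 ^ δ * nm f := by gcongr
      have g2 : P1 ^ (2 / 3 : ℝ) ≤ X0 ^ m := by
        calc P1 ^ (2 / 3 : ℝ) ≤ (X0 ^ m) ^ (2 / 3 : ℝ) :=
              Real.rpow_le_rpow hP1.le hP1X (by norm_num)
          _ = X0 ^ (m * (2 / 3)) := by rw [← Real.rpow_mul hX00.le]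
          _ ≤ X0 ^ m := Real.rpow_le_rpow_of_exponent_le hX0 (by linarith)
      calc P1 = P1 ^ (2 / 3 : ℝ) * P1 ^ (1 / 3 : ℝ) := by
            rw [← Real.rpow_add hP1]; norm_num
        _ ≤ X0 ^ m * (P2 * nm f) ^ (1 / 3 : ℝ) := by
            gcongr
    have h4 : Cw ^ 2 * C ≤
        (Cw ^ 2 * (η⁻¹) ^ J) * (C * D0 ^ 4 * Ht ps ^ 6 * X0 ^ ε * (1 + |t₀|) ^ J) := by
      have g1 : 1 ≤ D0 ^ 4 := one_le_pow₀ hD0
      have g2 : 1 ≤ X0 ^ ε := Real.one_le_rpow hX0 hε.le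
      have g3 : 1 ≤ (1 + |t₀|) ^ J := one_le_pow₀ ht0
      have g4 : 1 ≤ (η⁻¹) ^ J := one_le_pow₀ hηi
      have g5 : 1 ≤ Ht ps ^ 6 := one_le_pow₀ hHt1
      calc Cw ^ 2 * C = (Cw ^ 2 * 1) * (C * 1 * 1 * 1 * 1) := by ring
        _ ≤ _ := by gcongr
    have e3 : X0 ^ (5 * (n : ℝ) + m + 4) * (X0 ^ (-(2 : ℝ)) * X0 ^ (-(1 : ℝ)) * X0 ^ (-(1 : ℝ))) =
        (X0 ^ n) ^ 5 * X0 ^ m := by
      rw [← Real.rpow_add hX00, ← Real.rpow_add hX00, ← Real.rpow_add hX00, ← pow_mul,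
        ← Real.rpow_natCast, ← Real.rpow_add hX00]
      congr 1
      push_cast; ring
    calc 16 * (Y * (Cw * iA 2 * (2 * (C1 * Y ^ 2))) ^ 2) * P1 * jc
        = Cw ^ 2 * K2 * (X0 ^ n) ^ 5 * P1 := by
          rw [hK2, hY]; ring
      _ ≤ Cw ^ 2 * C * (X0 ^ n) ^ 5 * (X0 ^ m * (P2 * nm f) ^ (1 / 3 : ℝ)) := by gcongr
      _ = (Cw ^ 2 * C) * (P2 * nm f) ^ (1 / 3 : ℝ) * ((X0 ^ n) ^ 5 * X0 ^ m) := by ring
      _ = X0 ^ (5 * (n : ℝ) + m + 4) * ((Cw ^ 2 * C) * ((P2 * nm f) ^ (1 / 3 : ℝ) *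
          (X0 ^ (-(2 : ℝ)) * X0 ^ (-(1 : ℝ)) * X0 ^ (-(1 : ℝ))))) := by rw [← e3]; ring
      _ ≤ (X0 ^ δ) ^ a0 * (((Cw ^ 2 * (η⁻¹) ^ J) *
          (C * D0 ^ 4 * Ht ps ^ 6 * X0 ^ ε * (1 + |t₀|) ^ J)) * ((P2 * nm f) ^ (1 / 3 : ℝ) *
          ((E / nm d) ^ (5 / 3 : ℝ) * (nm e : ℝ)⁻¹ * mn))) := by
          have g6 := hXinv _ he0 heX
          gcongr
      _ = _ := by rw [hV]

end Crest.Agent.R017.RHX116
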