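import Crest.Agent.R017.RHXa_116

/-!
# Row 17, T.7, E3 for the exceptional class (helper116), part b

* `PrB b r`  : the natural frequency `r` is principal for a window with twist `b`
* `RM_bt`    : `RMm` of the twisted windows from the moments of the sequence
* `RM_all`   : all levels from the levels up to `P2` (571's `RH_gen` with a frequency filter)
* `listQ1`   : flagged lists, one subsequence, frequencies with `Q`
* `momx_np`  : the sequence `xs` of the exceptional class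
-/

set_option autoImplicit false
set_option maxHeartbeats 400000

noncomputable section

open Complex MeasureTheory
open scoped ComplexConjugate

namespace Crest.Agent.R017.RHX116

open Crest.Agent.R012 Crest.Agent.R012.Eis Crest.Agent.R012.MC
open Crest.Agent.R012.LS2 (S mem_S bl mem_bl)
open Crest.Agent.R012.Weight600 (pw norm_pw pw_add_left)
open Crest.Agent.R012.T411 (NCube)
open Crest.Agent.R017.CM106 (CS TG FS)
open Crest.Agent.R017.FE47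
open Crest.Agent.R017.B770
open Crest.Agent.R017.Prov71
open Crest.Agent.R017.HP842 (sqc)
open Crest.Agent.R017.TP320 (tw)
open Crest.Agent.R017.XHB411 (tl)
open Crest.Agent.R017.XRG106 (Rl)
open Crest.Agent.R017.NtC320 (gC gC_ne gC_fin cg cB cg_prim cB_prim gp_cg gp_cB cB_dvd cg_dvd cop
  Lin_gC)
open Crest.Agent.R017.StA828 (gp)
open Crest.Agent.R017.E1551 (jb jb_pos)
open Crest.Agent.R017.PX764 (n6)
open Crest.Agent.R017.E3D579 (n6_nonneg)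
open Crest.Agent.R017.Leg381 (Pf alF LF alF_get LF_get)
open Crest.Agent.R017.Win813 (WK wn iA iA_nonneg)
open Crest.Agent.R017.RGw813 (bt)
open Crest.Agent.R017.Mode405 (Slp)
open Crest.Agent.R017.Mono858 (RQq)
open Crest.Agent.R017.RX298 (xs rp zt norm_zt LF_rp rp_length FS_xs)
open Crest.Agent.R017.R3571

/-! ### the classes of frequencies -/

lemma ncube_mul_cube {x D : Eis} (hD : D ≠ 0) : NCube (x * D ^ 3) ↔ NCube x := by
  unfold T411.NCube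
  constructor
  · rintro ⟨h0, h⟩
    refine ⟨left_ne_zero_of_mul h0, fun m hm => h (m * D) ?_⟩
    rw [hm]; ring
  · rintro ⟨h0, h⟩
    refine ⟨mul_ne_zero h0 (pow_ne_zero _ hD), fun m hm => ?_⟩
    have h1 : D ^ 3 ∣ m ^ 3 := ⟨x, by rw [← hm]; ring⟩
    obtain ⟨k, rfl⟩ := (UniqueFactorizationMonoid.pow_dvd_pow_iff_dvd (by norm_num)).1 h1
    refine h k ?_
    refine mul_right_cancel₀ (pow_ne_zero 3 hD) ?_
    rw [hm]; ring

/-- the natural frequency `r` is principal for a window with twist `b` -/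
def PrB (b : ℕ × ℕ) (r : Eis) : Prop := ¬ NCube (r * (w ^ b.1 * lam ^ b.2) ^ 2)

/-- cubes do not change the class -/
theorem PrB_cube (b : ℕ × ℕ) (r : Eis) {D : Eis} (hD : D ≠ 0) :
    PrB b (r * D ^ 3) ↔ PrB b r := by
  unfold PrB
  rw [show r * D ^ 3 * (w ^ b.1 * lam ^ b.2) ^ 2 = r * (w ^ b.1 * lam ^ b.2) ^ 2 * D ^ 3 by ring,
    ncube_mul_cube hD]

lemma wl_ne (b : ℕ × ℕ) : ((w ^ b.1 * lam ^ b.2) ^ 2 : Eis) ≠ 0 :=
  pow_ne_zero _ (mul_ne_zero (pow_ne_zero _ isUnit_w.ne_zero) (pow_ne_zero _ lam_ne_zero))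

lemma nm_wl {b : ℕ × ℕ} (hb : b.2 ≤ 2) : (nm ((w ^ b.1 * lam ^ b.2) ^ 2) : ℝ) ≤ 81 := by
  have h1 : nm ((w ^ b.1 * lam ^ b.2) ^ 2) ≤ 81 := by
    rw [nm_pow, nm_mul, nm_pow, nm_pow]
    have hw1 : nm w = 1 := nm_w
    have hl3 : nm lam = 3 := nm_lam
    rw [hw1, hl3, one_pow, one_mul, ← pow_mul]
    calc 3 ^ (b.2 * 2) ≤ 3 ^ 4 := Nat.pow_le_pow_right (by norm_num) (by omega)
      _ = 81 := by norm_num
  exact_mod_cast h1

/-! ### windows -/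

lemma bt_ne {φ : ℝ → ℝ} {α : Eis → ℂ} {b : ℕ × ℕ} {t₀ : ℝ} {m : Eis}
    (hm : bt φ α b m * pw t₀ (nm m) ≠ 0) : α m ≠ 0 := by
  intro h0
  apply hm
  unfold RGw813.bt RGw813.tw2 Win813.wn
  rw [h0]; ring

lemma FS_bt {φ : ℝ → ℝ} {α : Eis → ℂ} (hα : FS α) (b : ℕ × ℕ) (t₀ : ℝ) :
    FS fun m => bt φ α b m * pw t₀ (nm m) where
  fin := hα.fin.subset fun _ hm => bt_ne hm
  prim := fun m hm => hα.prim m (bt_ne hm)

lemma iA_le {Aw : ℕ} (h : 2 ≤ Aw) : iA Aw ≤ iA 2 := by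
  unfold Win813.iA
  refine integral_mono (Win813.integrable_base (by omega)) (Win813.integrable_base le_rfl)
    fun t => ?_
  have ht1 : (1 : ℝ) ≤ 1 + |t| := by linarith [abs_nonneg t]
  exact inv_anti₀ (by positivity) (pow_le_pow_right₀ ht1 h)

/-- the `l¹` norm of a twisted window -/
lemma sum_bt_le {Cw η : ℝ} {Aw : ℕ} (hCw : 0 ≤ Cw) (hη : 0 < η) (hAw : 2 ≤ Aw) {φ : ℝ → ℝ}
    (hφ : WK Cw η Aw φ) (α : Eis → ℂ) (b : ℕ × ℕ) (t₀ : ℝ) (T : Finset Eis) {G : ℝ}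
    (hG : ∑ k ∈ T, ‖α k‖ ≤ G) :
    ∑ k ∈ T, ‖bt φ α b k * pw t₀ (nm k)‖ ≤ Cw * iA 2 * G := by
  have hiA := iA_nonneg 2
  calc ∑ k ∈ T, ‖bt φ α b k * pw t₀ (nm k)‖ ≤ ∑ k ∈ T, Cw * iA 2 * ‖α k‖ := by
        refine Finset.sum_le_sum fun k hk => ?_
        unfold RGw813.bt RGw813.tw2 Win813.wn
        rw [norm_mul, norm_pw, mul_one, norm_mul, norm_mul, Complex.norm_real, Real.norm_eq_abs,
          RCLike.norm_conj]
        have h1 := (hφ.le hη hAw (Real.log (nm k))).trans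
          (mul_le_mul_of_nonneg_left (iA_le hAw) hCw)
        have h2 : ‖sy (w ^ b.1 * lam ^ b.2) k‖ ≤ 1 := CF61.norm_sy_le _ _
        calc ‖α k‖ * |φ (Real.log (nm k))| * ‖sy (w ^ b.1 * lam ^ b.2) k‖
            ≤ ‖α k‖ * (Cw * iA 2) * 1 := by gcongr
          _ = _ := by ring
    _ = Cw * iA 2 * ∑ k ∈ T, ‖α k‖ := by rw [Finset.mul_sum]
    _ ≤ _ := by gcongr

/-- **`RMm` of the twisted windows from the moments of the sequence** -/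
theorem RM_bt {Cw η : ℝ} {Aw J : ℕ} (hCw : 0 ≤ Cw) (hη : 0 < η) (hη1 : η ≤ 1)
    (hAJ : J + 2 ≤ Aw) {φ : ℝ → ℝ} (hφ : WK Cw η Aw φ) {α : Eis → ℂ} (hα : FS α) (b : ℕ × ℕ)
    (t₀ : ℝ) {A : ℝ} (hA : (J : ℝ) + 2 ≤ A) {d e γ : Eis} (hd : IsPrim d) (he : IsPrim e)
    (hγ : IsPrim γ) (π f : Eis) (T : Finset Eis) {M : ℝ} (hM0 : 0 ≤ M)
    (hM : ∀ u : ℝ, ∑ k ∈ T, ‖CS (gC α (d * γ) (cB γ e) π (tw (1 / 6) u))
      (k * (f * (w ^ b.1 * lam ^ b.2) ^ 2))‖ ^ 2 ≤ M * (1 + |u|) ^ J) :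
    ∑ k ∈ T, RMm A (fun m => bt φ α b (d * m) * pw t₀ (nm (d * m))) e γ π (k * f) ≤
      (Cw ^ 2 * (η⁻¹) ^ J * (1 + |t₀|) ^ J * iA 2 ^ 2 * M) * jc := by
  have hiA := iA_nonneg 2
  have hiAw0 := iA_nonneg Aw
  have hiAw := iA_le (Aw := Aw) (by omega)
  have ht0 : (1 : ℝ) ≤ 1 + |t₀| := by linarith [abs_nonneg t₀]
  refine RM_sum hA (FS_bt hα b t₀) hd hγ he π T (fun k => k * f) fun t => ?_
  refine (bt_pt hCw hη hη1 hAJ hφ hα (hd.mul hγ) (cB γ e) π (1 / 6) b T f hM0 hM t₀ t).trans ?_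
  have h6 : (1 + |t₀ + t|) ^ J ≤ (1 + |t₀|) ^ J * (1 + |t|) ^ J := by
    rw [← mul_pow]
    refine pow_le_pow_left₀ (by positivity) ?_ J
    have h7 := abs_add_le t₀ t
    have h8 := mul_nonneg (abs_nonneg t₀) (abs_nonneg t)
    nlinarith
  calc Cw ^ 2 * iA Aw * (iA 2 * (η⁻¹) ^ J * (M * (1 + |t₀ + t|) ^ J))
      ≤ Cw ^ 2 * iA 2 * (iA 2 * (η⁻¹) ^ J * (M * ((1 + |t₀|) ^ J * (1 + |t|) ^ J))) := by gcongr
    _ = _ := by ring

/-! ### all levels -/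

/-- **all levels from the levels up to `P2`** -/
theorem RM_all {A : ℝ} (hA : 2 ≤ A) {α : Eis → ℂ} (hα : FS α) {d e f : Eis}
    (hd : IsPrim d) {Y G Xπ : ℝ} (hY0 : 0 ≤ Y)
    (hY : ∀ m, α m ≠ 0 → m ∈ S Y)
    (hG : ∑ n ∈ S Y, ‖α n‖ ≤ G) {P1 P2 V : ℝ} {a : ℕ} (ha : 1 ≤ a) (hP1 : 0 < P1)
    (hP12 : P1 ≤ P2) (hV : 0 ≤ V) (F : Eis → Prop) [DecidablePred F]
    (hmom : ∀ γ π : Eis, IsPrim γ → IsPrim π → (nm γ : ℝ) ≤ Y → (nm π : ℝ) ≤ Xπ →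
      ∀ Λ : ℝ, 1 ≤ Λ → Λ ≤ P2 →
      (nm γ : ℝ) * n6 γ ^ 2 * ∑ k ∈ (bl Λ).filter F, RMm A (fun m => α (d * m)) e γ π (k * f) ≤
        (Λ / P2) ^ (1 / 3 : ℝ) * V)
    (htr : 16 * (Y * G ^ 2) * P1 * jc ≤ (P2 / P1) ^ (a - 1) * V)
    {γ π : Eis} (hγ : IsPrim γ) (hπ : IsPrim π) (hπX : (nm π : ℝ) ≤ Xπ) {Λ : ℝ} (hΛ : 0 < Λ) :
    (nm γ : ℝ) * n6 γ ^ 2 * ∑ k ∈ (bl Λ).filter F, RMm A (fun m => α (d * m)) e γ π (k * f) ≤
      W2 a P1 V Λ := by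
  have hjc := jc_nonneg
  have hd0 := nm_cast_pos hd.ne_zero
  have hγ0 := nm_cast_pos hγ.ne_zero
  have hn6 := n6_nonneg γ
  have hWn := (slp_two ha hP1 hV).nonneg Λ hΛ
  have hP2 : 0 < P2 := by linarith
  by_cases hγY : (nm γ : ℝ) ≤ Y
  swap
  · have hz0 : ∀ m, (fun m => α (d * m)) (γ * m) = 0 := by
      intro m
      by_contra h0
      have h2 := (hα.prim _ h0).ne_zero
      apply hγY
      have h3 := hY _ h0
      refine le_trans ?_ ((mem_S hY0).1 h3).1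
      exact_mod_cast Div277.nm_le_of_dvd h2 ⟨d * m, by ring⟩
    rw [Finset.sum_eq_zero fun k _ => RMm_zero hz0, mul_zero]
    exact hWn
  by_cases hΛ1 : 1 ≤ Λ
  swap
  · push Not at hΛ1
    have h1 : (bl Λ).filter F = ∅ := by
      refine Finset.eq_empty_of_forall_notMem fun k hk => ?_
      have hk' := (Finset.mem_filter.1 hk).1
      rw [mem_bl hΛ.le] at hk'
      have := one_le_nm hk'.1
      linarith
    rw [h1, Finset.sum_empty, mul_zero]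
    exact hWn
  by_cases hΛ2 : Λ ≤ P2
  · refine (hmom γ π hγ hπ hγY hπX Λ hΛ1 hΛ2).trans ?_
    unfold W2
    split_ifs with h3
    · refine mul_le_mul_of_nonneg_right ?_ hV
      gcongr
    · push Not at h3
      refine mul_le_mul_of_nonneg_right ?_ hV
      calc (Λ / P2) ^ (1 / 3 : ℝ) ≤ 1 :=
            Real.rpow_le_one (by positivity) ((div_le_one hP2).2 hΛ2) (by norm_num)
        _ ≤ (Λ / P1) ^ a := one_le_pow₀ ((one_le_div hP1).2 h3.le)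
  · push Not at hΛ2
    have h3 : P1 < Λ := by linarith
    unfold W2
    rw [if_neg (by linarith)]
    have h4 : ∑ k ∈ (bl Λ).filter F, RMm A (fun m => α (d * m)) e γ π (k * f) ≤
        16 * Λ * (G ^ 2 * jc) := by
      calc ∑ k ∈ (bl Λ).filter F, RMm A (fun m => α (d * m)) e γ π (k * f)
          ≤ ∑ k ∈ bl Λ, RMm A (fun m => α (d * m)) e γ π (k * f) :=
            Finset.sum_le_sum_of_subset_of_nonneg (Finset.filter_subset _ _)
              fun _ _ _ => RMm_nonneg _ _ _ _ _ _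
        _ ≤ ∑ _k ∈ bl Λ, G ^ 2 * jc := Finset.sum_le_sum fun k _ =>
              RMm_triv hA hα hd hγ hY hG e π (k * f)
        _ = (bl Λ).card * (G ^ 2 * jc) := by rw [Finset.sum_const, nsmul_eq_mul]
        _ ≤ 16 * Λ * (G ^ 2 * jc) := by
            gcongr
            exact CR2.card_bl_le hΛ.le
    have h5 : (nm γ : ℝ) * n6 γ ^ 2 ≤ Y := by
      have := PX764.n6_le_one hγ.ne_zero
      calc (nm γ : ℝ) * n6 γ ^ 2 ≤ nm γ * 1 := by gcongr; exact pow_le_one₀ hn6 this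
        _ ≤ Y := by linarith
    have hr : 1 ≤ P2 / P1 := (one_le_div hP1).2 hP12
    have h6 : (P2 / P1) ^ (a - 1) ≤ (Λ / P1) ^ (a - 1) := by gcongr
    have h7 : (Λ / P1) ^ a = (Λ / P1) ^ (a - 1) * (Λ / P1) := by
      rw [← pow_succ]; congr 1; omega
    calc (nm γ : ℝ) * n6 γ ^ 2 * ∑ k ∈ (bl Λ).filter F, RMm A (fun m => α (d * m)) e γ π (k * f)
        ≤ Y * (16 * Λ * (G ^ 2 * jc)) := by
          refine mul_le_mul h5 h4 ?_ (by linarith)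
          exact Finset.sum_nonneg fun _ _ => RMm_nonneg _ _ _ _ _ _
      _ = (16 * (Y * G ^ 2) * P1 * jc) * (Λ / P1) := by field_simp
      _ ≤ ((P2 / P1) ^ (a - 1) * V) * (Λ / P1) := by gcongr
      _ ≤ ((Λ / P1) ^ (a - 1) * V) * (Λ / P1) := by gcongr
      _ = _ := by rw [h7]; ring

/-! ### lists -/

open Classical in
/-- **flagged lists, one subsequence, frequencies with `Q`** -/
theorem listQ1 {h : ℝ → ℝ} {c : ℝ} (hpu : PU h c) {μ : ℝ} (hμ : 0 ≤ μ) {s0 : ℝ} (hs0 : 0 ≤ s0)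
    (hs1 : s0 ≤ 1 / 2) (n : ℕ) {ε : ℝ} (hε : 0 < ε) :
    ∃ C : ℝ, 1 ≤ C ∧ ∀ (P : DPar), P.OK → ∀ (Q : Eis → Prop) (ps : List Pf), ps.length ≤ n →
      (∀ p ∈ ps, 0 ≤ p.1.z) → ∀ (z D0 : ℝ), 1 ≤ D0 →
      ∀ q δ e π f : Eis, q ≠ 0 → IsPrim δ → IsPrim e → π ≠ 0 → f ≠ 0 →
      ∀ X0 Λ t B : ℝ, 1 ≤ X0 → D0 ≤ X0 → (nm q : ℝ) ≤ X0 → (nm δ : ℝ) ≤ X0 → (nm e : ℝ) ≤ X0 →
      (nm π : ℝ) ≤ X0 → (∀ p ∈ ps, Real.exp p.1.z ≤ X0) → 0 < Λ → 0 ≤ B →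
      (∀ (ps' : List Pq) (W : ℝ), 1 ≤ W → List.Forall₂ (Rl C W) ps' (ps.map Prod.fst) →
        tl Dq ps' ≤ LF ps - Real.log (nm δ * nm e) + C →
        RQq Q P h (Real.log (Λ * nm f)) ps' ≤ B * Real.exp (tl Dq ps') * W ^ (2 * μ)) →
      ∑ k ∈ (bl Λ).filter (fun k => Q (k * f)),
          ‖CS (gC (sqc q (alF z D0 P h ps)) δ e π (tw s0 t)) (k * f)‖ ^ 2 ≤
        C * (D0 ^ n) ^ (2 + 2 * s0) * X0 ^ ε * (1 + |t|) ^ (2 * (n * μ)) * B *
          ((Real.exp (LF ps) / nm δ) ^ (-(2 * s0)) * (Real.exp (LF ps) / (nm δ * nm e))) := by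
  obtain ⟨C, hC, H⟩ := listRXQ hpu hμ hs0 hs1 n hε
  refine ⟨C, hC, ?_⟩
  intro P hP Q ps hlen hz z D0 hD0 q δ e π f hq hδ he hπ hf X0 Λ t B hX0 hDX hqX hδX heX hπX hsX
    hΛ hB hyp
  have hd0 := nm_cast_pos hδ.ne_zero
  have he0 := nm_cast_pos he.ne_zero
  have hf0 := nm_cast_pos hf
  have key := H P hP Q ps hlen hz z D0 hD0 ((bl Λ).filter (fun k => Q (k * f))) (fun _ => 1)
    (fun _ _ => zero_le_one) q (fun _ => δ) (fun _ => e) (fun _ => π) (fun k => k * f) hq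
    (fun _ _ => hδ) (fun _ _ => he) (fun _ _ => hπ) X0 (Λ * nm f) t B 1 (nm δ * nm e) hX0 hDX hqX
    (fun _ _ => hδX) (fun _ _ => heX) (fun _ _ => hπX) hsX (by positivity) hB zero_le_one
    (by positivity) (fun _ _ => le_rfl) (fun k hk => by
      obtain ⟨h1, h2⟩ := Finset.mem_filter.1 hk
      rw [mem_bl hΛ.le] at h1
      rw [Finset.mem_filter, mem_bl (by positivity)]
      refine ⟨⟨mul_ne_zero h1.1 hf, ?_⟩, h2⟩
      rw [nm_mul]; push_cast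
      exact mul_le_mul_of_nonneg_right h1.2 hf0.le) (fun κ _ => by
      rw [Finset.sum_const, nsmul_eq_mul, mul_one]
      have h1 : (((bl Λ).filter (fun k => Q (k * f))).filter (fun x => x * f = κ)).card ≤ 1 := by
        refine Finset.card_le_one.2 fun x hx y hy => ?_
        have hx' := (Finset.mem_filter.1 hx).2
        have hy' := (Finset.mem_filter.1 hy).2
        exact mul_right_cancel₀ hf (hx'.trans hy'.symm)
      exact_mod_cast h1) hyp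
  simp only [one_mul] at key
  have hes : (0 : ℝ) < (nm e : ℝ) ^ s0 := by positivity
  have e1 : ∀ k, ((nm e : ℝ) ^ s0 * ‖CS (gC (sqc q (alF z D0 P h ps)) δ e π (tw s0 t))
      (k * f)‖) ^ 2 = ((nm e : ℝ) ^ s0) ^ 2 *
        ‖CS (gC (sqc q (alF z D0 P h ps)) δ e π (tw s0 t)) (k * f)‖ ^ 2 := fun k => mul_pow _ _ _
  simp only [e1] at key
  rw [← Finset.mul_sum] at key
  have hes2 : (0 : ℝ) < ((nm e : ℝ) ^ s0) ^ 2 := by positivity
  rw [← le_div_iff₀' hes2] at key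
  refine key.trans (le_of_eq ?_)
  have hE := Real.exp_pos (LF ps)
  set E : ℝ := Real.exp (LF ps) with hEd
  have e2 : (E / (nm δ * nm e)) ^ (1 - 2 * s0) / ((nm e : ℝ) ^ s0) ^ 2 =
      (E / nm δ) ^ (-(2 * s0)) * (E / (nm δ * nm e)) := by
    have h1 : ((nm e : ℝ) ^ s0) ^ 2 = (nm e : ℝ) ^ (2 * s0) := by
      rw [← Real.rpow_natCast, ← Real.rpow_mul he0.le]; congr 1; push_cast; ring
    have h2 : (E / (nm δ * nm e)) ^ (1 - 2 * s0) =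
        (E / (nm δ * nm e)) * (E / (nm δ * nm e)) ^ (-(2 * s0)) := by
      conv_lhs => rw [show 1 - 2 * s0 = 1 + -(2 * s0) by ring]
      rw [Real.rpow_add (by positivity), Real.rpow_one]
    have h3 : (E / (nm δ * nm e)) ^ (-(2 * s0)) =
        (E / nm δ) ^ (-(2 * s0)) * (nm e : ℝ) ^ (2 * s0) := by
      rw [← div_div, Real.div_rpow (by positivity) he0.le, Real.rpow_neg he0.le (2 * s0),
        div_inv_eq_mul]
    rw [h1, h2, h3]
    have h4 : (nm e : ℝ) ^ (2 * s0) ≠ 0 := (by positivity : (0 : ℝ) < (nm e : ℝ) ^ (2 * s0)).ne'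
    field_simp
  rw [← e2]
  ring

/-! ### the sequence `xs` -/

/-- linearity -/
lemma CS_gC_sub {α β : Eis → ℂ} (hα : FS α) (hβ : FS β) (c : ℂ) {δ : Eis} (hδ : δ ≠ 0)
    (e π : Eis) (χ : Eis → ℂ) (k : Eis) :
    CS (gC (fun n => α n - c * β n) δ e π χ) k =
      CS (gC α δ e π χ) k - c * CS (gC β δ e π χ) k := by
  have h1 := Lin_gC hδ e π χ k Bool Finset.univ (fun b => if b then 1 else -c)
    (fun b => if b then α else β) (fun b _ => by cases b <;> simpa)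
  simp only [Fintype.univ_bool, Finset.mem_singleton, Bool.true_eq_false, not_false_eq_true,
    Finset.sum_insert, Finset.sum_singleton, if_true, Bool.false_eq_true, if_false, one_mul] at h1
  rw [show (fun n => α n - c * β n) = fun n => α n + -c * β n by funext n; ring, h1]
  ring

lemma sq_sub_le {a b c : ℂ} (hc : ‖c‖ = 1) : ‖a - c * b‖ ^ 2 ≤ 2 * ‖a‖ ^ 2 + 2 * ‖b‖ ^ 2 := by
  have h1 : ‖a - c * b‖ ≤ ‖a‖ + ‖b‖ := by
    refine (norm_sub_le _ _).trans ?_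
    rw [norm_mul, hc, one_mul]
  have h2 := pow_le_pow_left₀ (norm_nonneg _) h1 2
  nlinarith [sq_nonneg (‖a‖ - ‖b‖)]

/-- the two parts of `xs` -/
lemma sum_xs_le {h : ℝ → ℝ} {c : ℝ} (hpu : PU h c) {P : DPar} (hP : P.OK) (q : Eis)
    (z D0 d₀ : ℝ) (ps : List Pf) {δ : Eis} (hδ : δ ≠ 0) (e π : Eis) (χ : Eis → ℂ)
    (T : Finset Eis) (fr : Eis → Eis) {M : ℝ}
    (h1 : ∑ k ∈ T, ‖CS (gC (sqc q (alF z D0 P h ps)) δ e π χ) (fr k)‖ ^ 2 ≤ M)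
    (h2 : ∑ k ∈ T, ‖CS (gC (sqc q (alF z D0 P h (rp d₀ ps))) δ e π χ) (fr k)‖ ^ 2 ≤ M) :
    ∑ k ∈ T, ‖CS (gC (xs q z D0 P h d₀ ps) δ e π χ) (fr k)‖ ^ 2 ≤ 4 * M := by
  obtain ⟨R, hR0, hR⟩ := exists_R (cs_cx hpu.cs)
  have hF : ∀ l, FS (sqc q (alF z D0 P h l)) := fun l =>
    HP842.FS.sqc (RG64.FS_alF ⟨R, hR⟩ hP z D0 l) q
  have e1 : ∀ k, CS (gC (xs q z D0 P h d₀ ps) δ e π χ) (fr k) =
      CS (gC (sqc q (alF z D0 P h ps)) δ e π χ) (fr k) -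
        zt d₀ ps * CS (gC (sqc q (alF z D0 P h (rp d₀ ps))) δ e π χ) (fr k) := fun k =>
    CS_gC_sub (hF _) (hF _) (zt d₀ ps) hδ e π χ (fr k)
  calc ∑ k ∈ T, ‖CS (gC (xs q z D0 P h d₀ ps) δ e π χ) (fr k)‖ ^ 2
      ≤ ∑ k ∈ T, (2 * ‖CS (gC (sqc q (alF z D0 P h ps)) δ e π χ) (fr k)‖ ^ 2 +
        2 * ‖CS (gC (sqc q (alF z D0 P h (rp d₀ ps))) δ e π χ) (fr k)‖ ^ 2) :=
        Finset.sum_le_sum fun k _ => by
          rw [e1]; exact sq_sub_le (norm_zt d₀ ps)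
    _ = 2 * ∑ k ∈ T, ‖CS (gC (sqc q (alF z D0 P h ps)) δ e π χ) (fr k)‖ ^ 2 +
        2 * ∑ k ∈ T, ‖CS (gC (sqc q (alF z D0 P h (rp d₀ ps))) δ e π χ) (fr k)‖ ^ 2 := by
        rw [Finset.sum_add_distrib, Finset.mul_sum, Finset.mul_sum]
    _ ≤ _ := by linarith

lemma xs_ne {q : Eis} {z D0 : ℝ} {P : DPar} {h : ℝ → ℝ} {d₀ : ℝ} {ps : List Pf} {m : Eis}
    (hm : xs q z D0 P h d₀ ps m ≠ 0) :
    sqc q (alF z D0 P h ps) m ≠ 0 ∨ sqc q (alF z D0 P h (rp d₀ ps)) m ≠ 0 := by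
  by_contra h0
  push Not at h0
  apply hm
  unfold RX298.xs
  rw [h0.1, h0.2]; ring

/-- support and `l¹` norm of `xs` -/
lemma xs_size {h : ℝ → ℝ} {c : ℝ} (hpu : PU h c) (n : ℕ) : ∃ R C : ℝ, 0 ≤ R ∧ 1 ≤ C ∧
    ∀ P : DPar, P.OK → ∀ ps : List Pf, ps.length ≤ n → ∀ (q : Eis) (z D0 d₀ : ℝ) (Y : ℝ),
      1 ≤ Y → Real.exp (LF ps) * Real.exp (n * R) ≤ Y →
      (∀ m, xs q z D0 P h d₀ ps m ≠ 0 → m ∈ S Y) ∧
      ∑ m ∈ S Y, ‖xs q z D0 P h d₀ ps m‖ ≤ 2 * (C * Y ^ 2) := by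
  obtain ⟨R, hR0, hR⟩ := exists_R (cs_cx hpu.cs)
  obtain ⟨C, hC, hsum⟩ := AL813.sum_alF_le hpu n
  refine ⟨R, C, hR0, hC, ?_⟩
  intro P hP ps hlen q z D0 d₀ Y hY1 hY
  have hlR : (ps.length : ℝ) * R ≤ n * R :=
    mul_le_mul_of_nonneg_right (by exact_mod_cast hlen) hR0
  have hYl : Real.exp (LF ps + ps.length * R) ≤ Y := by
    refine le_trans ?_ hY
    rw [← Real.exp_add]
    exact Real.exp_le_exp.2 (by linarith)
  constructor
  · intro m hm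
    rcases xs_ne hm with h1 | h1
    · exact AL813.al_mem_S hR z D0 P q ps hYl h1
    · exact AL813.al_mem_S hR z D0 P q (rp d₀ ps) (by rw [LF_rp, rp_length]; exact hYl) h1
  · have h1 := hsum z D0 P hP q ps hlen Y hY1
    have h2 := hsum z D0 P hP q (rp d₀ ps) (by rw [rp_length]; exact hlen) Y hY1
    calc ∑ m ∈ S Y, ‖xs q z D0 P h d₀ ps m‖
        ≤ ∑ m ∈ S Y, (‖sqc q (alF z D0 P h ps) m‖ + ‖sqc q (alF z D0 P h (rp d₀ ps)) m‖) := by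
          refine Finset.sum_le_sum fun m _ => ?_
          unfold RX298.xs
          refine (norm_sub_le _ _).trans ?_
          rw [norm_mul, norm_zt, one_mul]
      _ ≤ _ := by rw [Finset.sum_add_distrib]; linarith

end Crest.Agent.R017.RHX116
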