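import Crest.Agent.R017.RHX_116

/-!
# Row 17, T.7, E3 for the exceptional class (helper116): the two classes of natural frequencies

* `RHx_npB`, `RHx_prB` : `RHx_np`, `RHx_pr` at `f = 1`, classes `¬ PrB b r`, `PrB b r`
-/

set_option autoImplicit false
set_option maxHeartbeats 400000

noncomputable section

open Complex MeasureTheory
open scoped ComplexConjugate

namespace Crest.Agent.R017.RHX116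

open Crest.Agent.R012 Crest.Agent.R012.Eis Crest.Agent.R012.MC
open Crest.Agent.R012.LS2 (S mem_S bl mem_bl)
open Crest.Agent.R012.Weight600 (pw norm_pw pw_add_left)
open Crest.Agent.R012.T411 (NCube)
open Crest.Agent.R017.CM106 (CS TG FS)
open Crest.Agent.R017.FE47
open Crest.Agent.R017.B770
open Crest.Agent.R017.Prov71
open Crest.Agent.R017.Sup271 (NPm)
open Crest.Agent.R017.XHB411 (tl)
open Crest.Agent.R017.XRG106 (Rl)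
open Crest.Agent.R017.PX764 (n6)
open Crest.Agent.R017.Leg381 (Pf alF LF)
open Crest.Agent.R017.Win813 (WK)
open Crest.Agent.R017.RGw813 (bt)
open Crest.Agent.R017.Mono858 (RQq)
open Crest.Agent.R017.XPX241 (RN)
open Crest.Agent.R017.RG64 (Ht)
open Crest.Agent.R017.RX298 (xs rp)
open Crest.Agent.R017.ExD791 (Tw)
open Crest.Agent.R017.R3571

lemma not_PrB (b : ℕ × ℕ) (r : Eis) : ¬ PrB b r ↔ NCube (r * (w ^ b.1 * lam ^ b.2) ^ 2) := by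
  unfold PrB
  exact not_not

lemma RN_eq (P : DPar) (h : ℝ → ℝ) (l : ℝ) (ps : List Pq) : RN P h l ps = RQq NCube P h l ps := rfl

open Classical in
/-- **(RH), nonprincipal class** -/
theorem RHx_npB {h : ℝ → ℝ} {c : ℝ} (hpu : PU h c) {μ : ℝ} (hμ : 0 ≤ μ) (n : ℕ) {δ m : ℝ}
    (hδ : 0 < δ) :
    ∃ a : ℕ, 1 ≤ a ∧ ∀ ε : ℝ, 0 < ε →
    ∃ C : ℝ, 1 ≤ C ∧ ∀ (P : DPar), P.OK → ∀ (ps : List Pf) (d₀ : ℝ),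
      ps.length ≤ n → (∀ p ∈ ps, 0 ≤ p.1.z) → (∀ p ∈ rp d₀ ps, 0 ≤ p.1.z) →
      ∀ (z D0 : ℝ), 1 ≤ D0 → ∀ q d e : Eis, q ≠ 0 → IsPrim d → IsPrim e →
      ∀ X0 : ℝ, 1 ≤ X0 → D0 ≤ X0 → (nm q : ℝ) ≤ X0 → (nm d : ℝ) ≤ X0 → (nm e : ℝ) ≤ X0 →
      (∀ p ∈ ps, Real.exp p.1.z ≤ X0) → (∀ p ∈ rp d₀ ps, Real.exp p.1.z ≤ X0) →
      ∀ (Cw η : ℝ) (Aw J : ℕ), 0 ≤ Cw → 0 < η → η ≤ 1 → J + 2 ≤ Aw → 2 * (n * μ) ≤ J →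
      ∀ (φ : ℝ → ℝ), WK Cw η Aw φ → ∀ (b : ℕ × ℕ), b.2 ≤ 2 → ∀ (t₀ A : ℝ), (J : ℝ) + 2 ≤ A →
      ∀ P1 B : ℝ, 0 < P1 → P1 ≤ X0 ^ m → 1 ≤ B →
      (∀ Λ : ℝ, 1 ≤ Λ → Λ ≤ P1 * X0 ^ δ →
        ∀ (ps' : List Pq) (W : ℝ), 1 ≤ W → (List.Forall₂ (Rl C W) ps' (ps.map Prod.fst) ∨
          List.Forall₂ (Rl C W) ps' ((rp d₀ ps).map Prod.fst)) →
        tl Dq ps' ≤ LF ps - Real.log (nm d * nm e) + C →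
        RN P h (Real.log (81 * Λ)) ps' ≤
          (Λ / (P1 * X0 ^ δ)) ^ (1 / 3 : ℝ) * B * Real.exp (tl Dq ps') * W ^ (2 * μ)) →
      ∀ γ π : Eis, IsPrim γ → IsPrim π → (nm π : ℝ) ≤ X0 → ∀ Λ : ℝ, 0 < Λ →
      (nm γ : ℝ) * n6 γ ^ 2 * ∑ r ∈ (bl Λ).filter (fun r => ¬ PrB b r), RMm A
          (fun m => bt φ (xs q z D0 P h d₀ ps) b (d * m) * pw t₀ (nm (d * m))) e γ π r ≤
        W2 a P1 ((Cw ^ 2 * (η⁻¹) ^ J) * (C * (D0 ^ n) ^ (3 : ℝ) * X0 ^ ε * (1 + |t₀|) ^ J * B) *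
          (Real.exp (LF ps) / nm d) ^ (2 / 3 : ℝ)) Λ := by
  obtain ⟨a, ha, H⟩ := RHx_np hpu hμ n (m := m) hδ
  refine ⟨a, ha, fun ε hε => ?_⟩
  obtain ⟨C, hC, H⟩ := H ε hε
  refine ⟨C, hC, ?_⟩
  intro P hP ps d₀ hlen hz hz' z D0 hD0 q d e hq hd he X0 hX0 hDX hqX hdX heX hsX hsX' Cw η
    Aw J hCw hη hη1 hAJ hJ φ hφ b hb t₀ A hA P1 B hP1 hP1X hB hyp γ π hγ hπ hπX Λ hΛ
  have key := H P hP NCube ps d₀ hlen hz hz' z D0 hD0 q d e 1 hq hd he one_ne_zero X0 hX0 hDX hqX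
    hdX heX hsX hsX' Cw η Aw J hCw hη hη1 hAJ hJ φ hφ b hb t₀ A hA P1 B hP1 hP1X hB
    (fun Λ h1 h2 ps' W hW h3 h4 => by
      rw [nm_one, Nat.cast_one, mul_one, ← RN_eq]
      exact hyp Λ h1 h2 ps' W hW h3 h4) γ π hγ hπ hπX Λ hΛ
  refine le_trans (le_of_eq ?_) key
  congr 1
  refine Finset.sum_congr ?_ fun k _ => by rw [mul_one]
  refine Finset.filter_congr fun k _ => ?_
  rw [not_PrB, one_mul]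

open Classical in
/-- **(RH), principal class** -/
theorem RHx_prB {h : ℝ → ℝ} {c : ℝ} (hpu : PU h c) (n : ℕ) {δ m B₀ : ℝ} (hδ : 0 < δ) (hm : 0 ≤ m)
    (hB₀ : 0 ≤ B₀) :
    ∃ a : ℕ, 1 ≤ a ∧ ∀ ε : ℝ, 0 < ε →
    ∃ C : ℝ, 1 ≤ C ∧ ∀ (P : DPar), P.OK → ¬ NPm P.n P.ψ P.l₂ 1 →
      ∀ (ps : List Pf) (d₀ s₀ : ℝ), ps.length ≤ n → (∀ p ∈ ps, 0 ≤ p.1.z) →
      ∀ (z D0 : ℝ), 1 ≤ D0 → ∀ q d e : Eis, q ≠ 0 → IsPrim d → IsPrim e →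
      ∀ X0 : ℝ, 3 ≤ X0 → (nm P.n : ℝ) ≤ X0 ^ B₀ → Tw d₀ s₀ (X0 ^ B₀) ps → (nm q : ℝ) ≤ X0 →
      (nm d : ℝ) ≤ X0 → (nm e : ℝ) ≤ X0 → (∀ p ∈ ps, Real.exp p.1.z ≤ X0) →
      ∀ (Cw η : ℝ) (Aw J : ℕ), 0 ≤ Cw → 0 < η → η ≤ 1 → J + 2 ≤ Aw → 12 ≤ J →
      ∀ (φ : ℝ → ℝ), WK Cw η Aw φ → ∀ (b : ℕ × ℕ), b.2 ≤ 2 → ∀ (t₀ A : ℝ), (J : ℝ) + 2 ≤ A →
      ∀ P1 : ℝ, 0 < P1 → P1 ≤ X0 ^ m →
      ∀ γ π : Eis, IsPrim γ → IsPrim π → (nm π : ℝ) ≤ X0 → ∀ Λ : ℝ, 0 < Λ →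
      (nm γ : ℝ) * n6 γ ^ 2 * ∑ r ∈ (bl Λ).filter (fun r => PrB b r), RMm A
          (fun m => bt φ (xs q z D0 P h d₀ ps) b (d * m) * pw t₀ (nm (d * m))) e γ π r ≤
        W2 a P1 ((Cw ^ 2 * (η⁻¹) ^ J) * (C * D0 ^ 4 * Ht ps ^ 6 * X0 ^ ε * (1 + |t₀|) ^ J) *
          ((P1 * X0 ^ δ) ^ (1 / 3 : ℝ) * ((Real.exp (LF ps) / nm d) ^ (5 / 3 : ℝ) *
            (nm e : ℝ)⁻¹ * min 1 ((nm d : ℝ) * nm e * Real.exp (-s₀))))) Λ := by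
  obtain ⟨a, ha, H⟩ := RHx_pr hpu n hδ hm hB₀
  refine ⟨a, ha, fun ε hε => ?_⟩
  obtain ⟨C, hC, H⟩ := H ε hε
  refine ⟨C, hC, ?_⟩
  intro P hP hnp ps d₀ s₀ hlen hz z D0 hD0 q d e hq hd he X0 hX3 hPn hT hqX hdX heX hsX
    Cw η Aw J hCw hη hη1 hAJ hJ φ hφ b hb t₀ A hA P1 hP1 hP1X γ π hγ hπ hπX Λ hΛ
  have key := H P hP hnp ps d₀ s₀ hlen hz z D0 hD0 q d e 1 hq hd he one_ne_zero X0 hX3 hPn hT hqX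
    hdX heX (by rw [nm_one, Nat.cast_one]; linarith) hsX Cw η Aw J hCw hη hη1 hAJ hJ φ hφ b hb t₀ A
    hA P1 hP1 hP1X γ π hγ hπ hπX Λ hΛ
  rw [nm_one, Nat.cast_one, mul_one] at key
  refine le_trans (le_of_eq ?_) key
  congr 1
  refine Finset.sum_congr ?_ fun k _ => by rw [mul_one]
  refine Finset.filter_congr fun k _ => ?_
  unfold PrB
  rw [one_mul]

end Crest.Agent.R017.RHX116
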