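import Crest.Agent.R017.RHXc_116
import Crest.Agent.R017.PoHx_72

/-!
# Row 17, T.7, E3 for the exceptional class (helper116): the two classes of (RH) together

* `PrB_iff` : `PrB b r ↔ ∃ c₀, r * u ^ 2 = c₀ ^ 3`, `u = w ^ b.1 * lam ^ b.2`
* `nmx`     : the two numbers
* `RHx_two` : (RH) for `xs` in the classes `Cls _ jj` (helper72), one exponent `a`
-/

set_option autoImplicit false
set_option maxHeartbeats 400000

noncomputable section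

open Complex MeasureTheory
open scoped ComplexConjugate

namespace Crest.Agent.R017.RHX116

open Crest.Agent.R012 Crest.Agent.R012.Eis Crest.Agent.R012.MC
open Crest.Agent.R012.LS2 (S mem_S bl mem_bl)
open Crest.Agent.R012.Weight600 (pw norm_pw pw_add_left)
open Crest.Agent.R012.T411 (NCube)
open Crest.Agent.R017.CM106 (CS TG FS)
open Crest.Agent.R017.FE47
open Crest.Agent.R017.B770
open Crest.Agent.R017.Prov71
open Crest.Agent.R017.Sup271 (NPm)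
open Crest.Agent.R017.XHB411 (tl)
open Crest.Agent.R017.XRG106 (Rl)
open Crest.Agent.R017.PX764 (n6)
open Crest.Agent.R017.Leg381 (Pf alF LF)
open Crest.Agent.R017.Win813 (WK)
open Crest.Agent.R017.RGw813 (bt)
open Crest.Agent.R017.Mono858 (RQq)
open Crest.Agent.R017.XPX241 (RN)
open Crest.Agent.R017.RG64 (Ht)
open Crest.Agent.R017.RX298 (xs rp)
open Crest.Agent.R017.ExD791 (Tw)
open Crest.Agent.R017.PoHx72 (Cls)
open Crest.Agent.R017.R3571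

lemma PrB_iff (b : ℕ × ℕ) {r : Eis} (hr : r ≠ 0) :
    PrB b r ↔ ∃ c₀ : Eis, r * (w ^ b.1 * lam ^ b.2) ^ 2 = c₀ ^ 3 := by
  unfold PrB T411.NCube
  constructor
  · intro h
    by_contra h1
    push Not at h1
    exact h ⟨mul_ne_zero hr (wl_ne b), h1⟩
  · rintro ⟨m, hm⟩ ⟨_, h⟩
    exact h m hm

open Classical in
/-- the class `jj` in terms of `PrB` -/
lemma filter_cls (b : ℕ × ℕ) (Λ : ℝ) (hΛ : 0 ≤ Λ) (jj : Bool) :
    (bl Λ).filter (Cls (fun r => ∃ c₀ : Eis, r * (w ^ b.1 * lam ^ b.2) ^ 2 = c₀ ^ 3) jj) =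
      if jj = true then (bl Λ).filter (fun r => PrB b r) else (bl Λ).filter (fun r => ¬ PrB b r) := by
  cases jj
  · rw [if_neg (by decide)]
    refine Finset.filter_congr fun r hr => ?_
    rw [PrB_iff b ((mem_bl hΛ).1 hr).1]
    unfold PoHx72.Cls
    simp
  · rw [if_pos rfl]
    refine Finset.filter_congr fun r hr => ?_
    rw [PrB_iff b ((mem_bl hΛ).1 hr).1]
    unfold PoHx72.Cls
    simp

lemma W2_mono_a {a a' : ℕ} (h : a ≤ a') {P1 W1 Λ : ℝ} (hP1 : 0 < P1) (hW : 0 ≤ W1) :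
    W2 a P1 W1 Λ ≤ W2 a' P1 W1 Λ := by
  unfold W2
  split_ifs with h1
  · exact le_rfl
  · push Not at h1
    refine mul_le_mul_of_nonneg_right ?_ hW
    exact pow_le_pow_right₀ ((one_le_div hP1).2 h1.le) h

/-- the two numbers: `true` = principal (slope `1/3`, level `P2`), `false` = nonprincipal -/
def nmx (K1 K2 P2 s₀ : ℝ) (E : ℝ) (d e : Eis) (jj : Bool) : ℝ :=
  if jj = true then K2 * (P2 ^ (1 / 3 : ℝ) * ((E / nm d) ^ (5 / 3 : ℝ) *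
    (nm e : ℝ)⁻¹ * min 1 ((nm d : ℝ) * nm e * Real.exp (-s₀))))
  else K1 * (E / nm d) ^ (2 / 3 : ℝ)

lemma nmx_nonneg {K1 K2 P2 E : ℝ} (s₀ : ℝ) (h1 : 0 ≤ K1) (h2 : 0 ≤ K2) (h3 : 0 ≤ P2) (h4 : 0 ≤ E)
    (d e : Eis) (jj : Bool) : 0 ≤ nmx K1 K2 P2 s₀ E d e jj := by
  unfold nmx
  have : 0 ≤ min 1 ((nm d : ℝ) * nm e * Real.exp (-s₀)) := le_min zero_le_one (by positivity)
  split_ifs <;> positivity

open Classical in
/-- **(RH) for the twisted windows of `xs`, both classes** -/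
theorem RHx_two {h : ℝ → ℝ} {c : ℝ} (hpu : PU h c) {μ : ℝ} (hμ : 0 ≤ μ) (n : ℕ) {δ m B₀ : ℝ}
    (hδ : 0 < δ) (hm : 0 ≤ m) (hB₀ : 0 ≤ B₀) :
    ∃ a : ℕ, 1 ≤ a ∧ ∀ ε : ℝ, 0 < ε →
    ∃ C : ℝ, 1 ≤ C ∧ ∀ (P : DPar), P.OK → ¬ NPm P.n P.ψ P.l₂ 1 → ∀ (ps : List Pf) (d₀ s₀ : ℝ),
      ps.length ≤ n → (∀ p ∈ ps, 0 ≤ p.1.z) → (∀ p ∈ rp d₀ ps, 0 ≤ p.1.z) →
      ∀ (z D0 : ℝ), 1 ≤ D0 → ∀ q d e : Eis, q ≠ 0 → IsPrim d → IsPrim e →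
      ∀ X0 : ℝ, 3 ≤ X0 → D0 ≤ X0 → (nm P.n : ℝ) ≤ X0 ^ B₀ → Tw d₀ s₀ (X0 ^ B₀) ps →
      (nm q : ℝ) ≤ X0 → (nm d : ℝ) ≤ X0 → (nm e : ℝ) ≤ X0 →
      (∀ p ∈ ps, Real.exp p.1.z ≤ X0) → (∀ p ∈ rp d₀ ps, Real.exp p.1.z ≤ X0) →
      ∀ (Cw η : ℝ) (Aw J : ℕ), 0 ≤ Cw → 0 < η → η ≤ 1 → J + 2 ≤ Aw → 2 * (n * μ) ≤ J → 12 ≤ J →
      ∀ (φ : ℝ → ℝ), WK Cw η Aw φ → ∀ (b : ℕ × ℕ), b.2 ≤ 2 → ∀ (t₀ A : ℝ), (J : ℝ) + 2 ≤ A →
      ∀ P1 B : ℝ, 0 < P1 → P1 ≤ X0 ^ m → 1 ≤ B →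
      (∀ Λ : ℝ, 1 ≤ Λ → Λ ≤ P1 * X0 ^ δ →
        ∀ (ps' : List Pq) (W : ℝ), 1 ≤ W → (List.Forall₂ (Rl C W) ps' (ps.map Prod.fst) ∨
          List.Forall₂ (Rl C W) ps' ((rp d₀ ps).map Prod.fst)) →
        tl Dq ps' ≤ LF ps - Real.log (nm d * nm e) + C →
        RN P h (Real.log (81 * Λ)) ps' ≤
          (Λ / (P1 * X0 ^ δ)) ^ (1 / 3 : ℝ) * B * Real.exp (tl Dq ps') * W ^ (2 * μ)) →
      ∀ (jj : Bool) (γ π : Eis), IsPrim γ → IsPrim π → (nm π : ℝ) ≤ X0 → ∀ Λ : ℝ, 0 < Λ →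
      (nm γ : ℝ) * n6 γ ^ 2 * ∑ r ∈ (bl Λ).filter
          (Cls (fun r => ∃ c₀ : Eis, r * (w ^ b.1 * lam ^ b.2) ^ 2 = c₀ ^ 3) jj), RMm A
          (fun m => bt φ (xs q z D0 P h d₀ ps) b (d * m) * pw t₀ (nm (d * m))) e γ π r ≤
        W2 a P1 (nmx ((Cw ^ 2 * (η⁻¹) ^ J) * (C * (D0 ^ n) ^ (3 : ℝ) * X0 ^ ε * (1 + |t₀|) ^ J * B))
          ((Cw ^ 2 * (η⁻¹) ^ J) * (C * D0 ^ 4 * Ht ps ^ 6 * X0 ^ ε * (1 + |t₀|) ^ J))
          (P1 * X0 ^ δ) s₀ (Real.exp (LF ps)) d e jj) Λ := by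
  obtain ⟨a1, ha1, H1⟩ := RHx_npB hpu hμ n (m := m) hδ
  obtain ⟨a2, ha2, H2⟩ := RHx_prB hpu n hδ hm hB₀
  refine ⟨max a1 a2, ha1.trans (le_max_left _ _), fun ε hε => ?_⟩
  obtain ⟨C1, hC1, H1⟩ := H1 ε hε
  obtain ⟨C2, hC2, H2⟩ := H2 ε hε
  refine ⟨max C1 C2, hC1.trans (le_max_left _ _), ?_⟩
  intro P hP hnp ps d₀ s₀ hlen hz hz' z D0 hD0 q d e hq hd he X0 hX3 hDX hPn hT hqX hdX heX hsX hsX'
    Cw η Aw J hCw hη hη1 hAJ hJ hJ12 φ hφ b hb t₀ A hA P1 B hP1 hP1X hB hyp jj γ π hγ hπ hπX Λ hΛ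
  have hX0 : 1 ≤ X0 := by linarith
  have hX00 : 0 < X0 := by linarith
  have hD00 : 0 < D0 := by linarith
  have hB0 : 0 ≤ B := by linarith
  have hHt1 := RG64.one_le_Ht ps
  have hC10 : 0 ≤ C1 := by linarith
  have hC20 : 0 ≤ C2 := by linarith
  rw [filter_cls b Λ hΛ.le]
  cases jj
  · rw [if_neg (by decide)]
    have h1 := H1 P hP ps d₀ hlen hz hz' z D0 hD0 q d e hq hd he X0 hX0 hDX hqX hdX heX hsX hsX' Cw η
      Aw J hCw hη hη1 hAJ hJ φ hφ b hb t₀ A hA P1 B hP1 hP1X hB (fun Λ g1 g2 ps' W hW g3 g4 => by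
        refine hyp Λ g1 g2 ps' W hW ?_ (g4.trans (by have := le_max_left C1 C2; linarith))
        rcases g3 with g3 | g3
        · exact Or.inl (g3.imp fun _ _ hx => hx.mono (le_max_left _ _))
        · exact Or.inr (g3.imp fun _ _ hx => hx.mono (le_max_left _ _))) γ π hγ hπ hπX Λ hΛ
    refine h1.trans ((W2_mono _ hP1 hΛ ?_).trans (W2_mono_a (le_max_left _ _) hP1
      (nmx_nonneg _ (by positivity) (by positivity) (by positivity) (Real.exp_pos _).le _ _ _)))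
    unfold nmx
    rw [if_neg (by decide)]
    gcongr
    exact le_max_left _ _
  · rw [if_pos rfl]
    have h1 := H2 P hP hnp ps d₀ s₀ hlen hz z D0 hD0 q d e hq hd he X0 hX3 hPn hT hqX hdX heX hsX
      Cw η Aw J hCw hη hη1 hAJ hJ12 φ hφ b hb t₀ A hA P1 hP1 hP1X γ π hγ hπ hπX Λ hΛ
    refine h1.trans ((W2_mono _ hP1 hΛ ?_).trans (W2_mono_a (le_max_right _ _) hP1
      (nmx_nonneg _ (by positivity) (by positivity) (by positivity) (Real.exp_pos _).le _ _ _)))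
    unfold nmx
    rw [if_pos rfl]
    have hmn : 0 ≤ min 1 ((nm d : ℝ) * nm e * Real.exp (-s₀)) := le_min zero_le_one (by positivity)
    gcongr
    exact le_max_right _ _

end Crest.Agent.R017.RHX116
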