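import Crest.Agent.R017.RHX_116
import Crest.Agent.R017.LBo_813

/-!
# Row 17, T.7, E3 for the exceptional class (helper241, literal of helper571): the R-hypothesis of one
list at the principal frequencies

* `CS_triv` : the trivial bound of `CS (gC α δ e π (tw (1 / 6) t))`
* `RHs_pr`  : (RH) of one flagged list at the principal frequencies
-/

set_option autoImplicit false
set_option maxHeartbeats 400000

noncomputable section

open Complex MeasureTheory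
open scoped ComplexConjugate

namespace Crest.Agent.R017.RHs241

open Crest.Agent.R012 Crest.Agent.R012.Eis Crest.Agent.R012.MC
open Crest.Agent.R012.LS2 (S mem_S bl mem_bl)
open Crest.Agent.R012.T411 (NCube)
open Crest.Agent.R017.CM106 (CS TG FS)
open Crest.Agent.R017.FE47
open Crest.Agent.R017.B770
open Crest.Agent.R017.Prov71
open Crest.Agent.R017.HP842 (sqc)
open Crest.Agent.R017.TP320 (tw norm_tw)
open Crest.Agent.R017.NtC320 (gC gC_ne gC_fin cg cB cg_prim cB_prim gp_cg gp_cB cB_dvd cg_dvd cop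
  Lin_gC)
open Crest.Agent.R017.E1551 (jb jb_pos)
open Crest.Agent.R017.PX764 (n6)
open Crest.Agent.R017.E3D579 (n6_nonneg)
open Crest.Agent.R017.Leg381 (Pf alF LF alF_get LF_get)
open Crest.Agent.R017.R3571
open Crest.Agent.R017.RHX116 (le_nm_cB card_prin wt_pr RM_all exp_le_rpow)

open Classical in
/-- **the trivial bound** -/
theorem CS_triv {α : Eis → ℂ} {E B A : ℝ} (hE : 0 < E) (hB : 0 ≤ B) (hA : 0 ≤ A)
    (hα : ∀ n, α n ≠ 0 → IsPrim n ∧ Squarefree n ∧ |Real.log (nm n) - Real.log E| ≤ B)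
    (hαA : ∀ n, ‖α n‖ ≤ A) {δ e : Eis} (hδ : IsPrim δ) (he : IsPrim e) (π k : Eis) (t : ℝ) :
    ‖CS (gC α δ e π (tw (1 / 6) t)) k‖ ≤
      100 * Real.exp (2 * B) * A *
        ((E / nm (δ * e)) ^ (5 / 6 : ℝ) * (nm e : ℝ) ^ (-(1 / 6 : ℝ))) := by
  have hd0 := nm_cast_pos hδ.ne_zero
  have he0 := nm_cast_pos he.ne_zero
  have hde0 : (0 : ℝ) < nm (δ * e) := nm_cast_pos (hδ.mul he).ne_zero
  have hde : (nm (δ * e) : ℝ) = nm δ * nm e := by rw [nm_mul]; push_cast; rfl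
  set X₁ : ℝ := E * Real.exp B / nm (δ * e) with hX₁
  have hX₁0 : 0 < X₁ := by positivity
  set f : Eis → ℂ := gC α δ e π (tw (1 / 6) t) with hf
  -- the support
  have hsup : ∀ m, f m ≠ 0 → ∃ b ∈ S X₁, m = e * b ∧ IsPrim m ∧
      E * Real.exp (-B) / nm δ ≤ nm m := by
    intro m hm
    obtain ⟨⟨⟨b, rfl⟩, -⟩, h2⟩ := gC_ne hm
    obtain ⟨h3, h4, h5⟩ := hα _ h2
    have hm : IsPrim (e * b) := IsPrim.of_mul_left h3 hδ
    have hb : IsPrim b := IsPrim.of_mul_left hm he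
    have hb0 := nm_cast_pos hb.ne_zero
    have hbs : Squarefree b := h4.squarefree_of_dvd ⟨δ * e, by ring⟩
    have hn0 : (0 : ℝ) < nm (δ * (e * b)) := nm_cast_pos h3.ne_zero
    have h6 := abs_le.1 h5
    have hup : (nm (δ * (e * b)) : ℝ) ≤ E * Real.exp B := by
      rw [← Real.exp_log hn0, ← Real.exp_log hE, ← Real.exp_add]
      exact Real.exp_le_exp.2 (by linarith [h6.2])
    have hlo : E * Real.exp (-B) ≤ (nm (δ * (e * b)) : ℝ) := by
      rw [← Real.exp_log hn0]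
      conv_lhs => rw [← Real.exp_log hE, ← Real.exp_add]
      exact Real.exp_le_exp.2 (by linarith [h6.1])
    have hnb : (nm (δ * (e * b)) : ℝ) = nm (δ * e) * nm b := by
      rw [← mul_assoc, nm_mul]; push_cast; rfl
    have hnb' : (nm (δ * (e * b)) : ℝ) = nm δ * nm (e * b) := by
      rw [nm_mul]; push_cast; rfl
    refine ⟨b, (mem_S hX₁0.le).2 ⟨?_, hb, hbs⟩, rfl, hm, ?_⟩
    · rw [hX₁, le_div_iff₀ hde0, mul_comm, ← hnb]
      exact hup
    · rw [div_le_iff₀ hd0, mul_comm (nm (e * b) : ℝ), ← hnb']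
      exact hlo
  set c1 : ℝ := E * Real.exp (-B) / nm δ with hc1
  have hc10 : 0 < c1 := by positivity
  have hinj : Set.InjOn (fun b : Eis => e * b) (S X₁ : Set Eis) := fun a _ b _ hab =>
    mul_left_cancel₀ he.ne_zero hab
  have hcs : ‖CS f k‖ ≤ (S X₁).card * (A * c1 ^ (-(1 / 6 : ℝ))) := by
    have h1 : CS f k = ∑ m ∈ (S X₁).image (fun b => e * b), f m * sy k m := by
      unfold CM106.CS
      refine tsum_eq_sum fun m hm => ?_
      by_contra h0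
      obtain ⟨b, hb, rfl, -⟩ := hsup m (left_ne_zero_of_mul h0)
      exact hm (Finset.mem_image_of_mem _ hb)
    rw [h1, Finset.sum_image hinj]
    refine (norm_sum_le _ _).trans ?_
    have h2 : ∀ b ∈ S X₁, ‖f (e * b) * sy k (e * b)‖ ≤ A * c1 ^ (-(1 / 6 : ℝ)) := by
      intro b hb
      by_cases h0 : f (e * b) = 0
      · rw [h0, zero_mul, norm_zero]; positivity
      obtain ⟨b', -, -, hp, hlo⟩ := hsup _ h0
      have h3 : ‖f (e * b)‖ ≤ A * (nm (e * b) : ℝ) ^ (-(1 / 6 : ℝ)) := by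
        rw [hf]
        unfold NtC320.gC
        split_ifs
        · rw [norm_mul, norm_tw _ _ hp]
          exact mul_le_mul_of_nonneg_right (hαA _) (by positivity)
        · rw [norm_zero]; positivity
      have h4 : (nm (e * b) : ℝ) ^ (-(1 / 6 : ℝ)) ≤ c1 ^ (-(1 / 6 : ℝ)) :=
        Real.rpow_le_rpow_of_nonpos hc10 hlo (by norm_num)
      calc ‖f (e * b) * sy k (e * b)‖ = ‖f (e * b)‖ * ‖sy k (e * b)‖ := norm_mul _ _
        _ ≤ ‖f (e * b)‖ * 1 := mul_le_mul_of_nonneg_left (CF61.norm_sy_le _ _) (norm_nonneg _)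
        _ ≤ A * (nm (e * b) : ℝ) ^ (-(1 / 6 : ℝ)) := by rw [mul_one]; exact h3
        _ ≤ _ := mul_le_mul_of_nonneg_left h4 hA
    refine (Finset.sum_le_sum h2).trans ?_
    rw [Finset.sum_const, nsmul_eq_mul]
  refine hcs.trans ?_
  have hcard : ((S X₁).card : ℝ) ≤ 100 * X₁ := by
    by_cases h1 : 1 ≤ X₁
    · exact E2440.card_S_le' h1
    · have h2 : S X₁ = ∅ := by
        refine Finset.eq_empty_of_forall_notMem fun b hb => ?_
        obtain ⟨h3, h4, -⟩ := (mem_S hX₁0.le).1 hb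
        have h5 := one_le_nm h4.ne_zero
        exact h1 (h5.trans h3)
      rw [h2, Finset.card_empty, Nat.cast_zero]
      positivity
  have hc16 : 0 ≤ A * c1 ^ (-(1 / 6 : ℝ)) := by positivity
  refine (mul_le_mul_of_nonneg_right hcard hc16).trans ?_
  have e1 : c1 = (E / nm (δ * e)) * (nm e * Real.exp (-B)) := by
    rw [hc1, hde]; field_simp
  have e2 : X₁ = (E / nm (δ * e)) * Real.exp B := by rw [hX₁]; ring
  set y : ℝ := E / nm (δ * e) with hy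
  have hy0 : 0 < y := by positivity
  have e3 : c1 ^ (-(1 / 6 : ℝ)) = y ^ (-(1 / 6 : ℝ)) * ((nm e : ℝ) ^ (-(1 / 6 : ℝ)) *
      Real.exp (B / 6)) := by
    rw [e1, Real.mul_rpow hy0.le (by positivity), Real.mul_rpow he0.le (Real.exp_pos _).le,
      ← Real.exp_mul]
    congr 3
    ring_nf
  have e4 : y * y ^ (-(1 / 6 : ℝ)) = y ^ (5 / 6 : ℝ) := by
    conv_lhs => rw [← Real.rpow_one y]
    rw [← Real.rpow_mul hy0.le, ← Real.rpow_add hy0]
    norm_num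
  have e5 : Real.exp B * Real.exp (B / 6) ≤ Real.exp (2 * B) := by
    rw [← Real.exp_add]
    exact Real.exp_le_exp.2 (by linarith)
  rw [e2, e3]
  calc 100 * (y * Real.exp B) * (A * (y ^ (-(1 / 6 : ℝ)) * ((nm e : ℝ) ^ (-(1 / 6 : ℝ)) *
        Real.exp (B / 6))))
      = 100 * (Real.exp B * Real.exp (B / 6)) * A *
        ((y * y ^ (-(1 / 6 : ℝ))) * (nm e : ℝ) ^ (-(1 / 6 : ℝ))) := by ring
    _ ≤ 100 * Real.exp (2 * B) * A *
        ((y * y ^ (-(1 / 6 : ℝ))) * (nm e : ℝ) ^ (-(1 / 6 : ℝ))) := by gcongr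
    _ = _ := by rw [e4]

set_option maxHeartbeats 1600000 in
open Classical in
/-- **(RH) at the principal frequencies** for one flagged list -/
theorem RHs_pr {h : ℝ → ℝ} {c : ℝ} (hpu : PU h c) (n : ℕ) {δ m : ℝ} (hδ : 0 < δ) (hm : 0 ≤ m) :
    ∃ a : ℕ, 1 ≤ a ∧ ∀ ε : ℝ, 0 < ε →
    ∃ C : ℝ, 1 ≤ C ∧ ∀ (P : DPar), P.OK → ∀ (ps : List Pf), ps.length ≤ n →
      (∀ p ∈ ps, 0 ≤ p.1.z) → ∀ (z D0 : ℝ), 1 ≤ D0 →
      ∀ q d e f : Eis, q ≠ 0 → IsPrim d → IsPrim e → f ≠ 0 →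
      ∀ X0 : ℝ, 3 ≤ X0 → D0 ≤ X0 → (nm q : ℝ) ≤ X0 → (nm d : ℝ) ≤ X0 → (nm e : ℝ) ≤ X0 →
      (nm f : ℝ) ≤ X0 → (∀ p ∈ ps, Real.exp p.1.z ≤ X0) → ∀ A : ℝ, 2 ≤ A →
      ∀ P1 : ℝ, 0 < P1 → P1 ≤ X0 ^ m →
      ∀ γ π : Eis, IsPrim γ → IsPrim π → (nm π : ℝ) ≤ X0 → ∀ Λ : ℝ, 0 < Λ →
      (nm γ : ℝ) * n6 γ ^ 2 *
        ∑ k ∈ (bl Λ).filter (fun k => ¬ NCube (k * f)), RMm A
          (fun m => sqc q (alF z D0 P h ps) (d * m)) e γ π (k * f) ≤
        W2 a P1 (C * X0 ^ ε * ((P1 * X0 ^ δ * nm f) ^ (1 / 3 : ℝ) *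
          ((Real.exp (LF ps) / nm d) ^ (5 / 3 : ℝ) * (nm e : ℝ)⁻¹))) Λ := by
  obtain ⟨R, hR0, hR⟩ := exists_R (cs_cx hpu.cs)
  obtain ⟨C1, hC1, hsum⟩ := AL813.sum_alF_le hpu n
  have hn0 : (0 : ℝ) ≤ n := Nat.cast_nonneg n
  obtain ⟨a0, ha0⟩ := exists_nat_ge ((5 * n + m + 3) / δ)
  refine ⟨a0 + 1, by omega, fun ε hε => ?_⟩
  have hnR : 0 ≤ n * R := by positivity
  set ε' : ℝ := ε / (2 * (n + 1)) with hε'
  have hε'0 : 0 < ε' := by positivity
  obtain ⟨C2, hC2, hsup⟩ := LBo813.norm_list_le hpu n hε'0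
  have hjc := jc_nonneg
  have hER : 1 ≤ Real.exp (n * R) := Real.one_le_exp (by positivity)
  set Cb : ℝ := 100 * Real.exp (2 * (n * R)) * (C2 * Real.exp (n * R) ^ ε') with hCb
  have hCb0 : 0 ≤ Cb := by positivity
  set K1 : ℝ := 16 * Cb ^ 2 * jc with hK1
  set K2 : ℝ := 16 * (C1 ^ 2 * Real.exp (n * R) ^ 5) * jc with hK2
  have hK10 : 0 ≤ K1 := by positivity
  have hK20 : 0 ≤ K2 := by positivity
  set C : ℝ := 1 + K1 + K2 with hC
  have hC1' : K1 ≤ C := by rw [hC]; linarith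
  have hC2' : K2 ≤ C := by rw [hC]; linarith
  have hC10 : 1 ≤ C := by rw [hC]; linarith
  refine ⟨C, hC10, ?_⟩
  intro P hP ps hlen hz z D0 hD0 q d e f hq hd he hf X0 hX3 hDX hqX hdX heX hfX hsX
    A hA P1 hP1 hP1X γ π hγ hπ hπX Λ hΛ
  have hX0 : 1 ≤ X0 := by linarith
  have hX00 : 0 < X0 := by linarith
  have hd0 := nm_cast_pos hd.ne_zero
  have he0 := nm_cast_pos he.ne_zero
  have he1 := one_le_nm he.ne_zero
  have hd1 := one_le_nm hd.ne_zero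
  have hf0 := nm_cast_pos hf
  have hf1 := one_le_nm hf
  set x : Eis → ℂ := sqc q (alF z D0 P h ps) with hx
  have hFx : FS x := HP842.FS.sqc (RG64.FS_alF ⟨R, hR⟩ hP z D0 ps) q
  have hLF := exp_LF_le hX0 hlen hsX
  have hLF0 := LF_nonneg' hz
  set E : ℝ := Real.exp (LF ps) with hE
  have hE0 : 0 < E := Real.exp_pos _
  have hE1 : 1 ≤ E := Real.one_le_exp hLF0
  set Y : ℝ := X0 ^ n * Real.exp (n * R) with hY
  have hY1 : 1 ≤ Y := one_le_mul_of_one_le_of_one_le (one_le_pow₀ hX0) hER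
  have hlR : (ps.length : ℝ) * R ≤ n * R :=
    mul_le_mul_of_nonneg_right (by exact_mod_cast hlen) hR0
  have hYl : Real.exp (LF ps + ps.length * R) ≤ Y := by
    rw [Real.exp_add, hY]
    exact mul_le_mul hLF (Real.exp_le_exp.2 hlR) (Real.exp_pos _).le (by positivity)
  have hYS : ∀ m, x m ≠ 0 → m ∈ S Y := fun m hm => AL813.al_mem_S hR z D0 P q ps hYl hm
  have hG : ∑ k ∈ S Y, ‖x k‖ ≤ C1 * Y ^ 2 := hsum z D0 P hP q ps hlen Y hY1
  have hsx : ∀ m, ‖x m‖ ≤ C2 * Y ^ ε' := by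
    intro m
    by_cases h0 : x m = 0
    · rw [h0, norm_zero]; positivity
    · exact hsup z D0 P hP q ps hlen Y hY1 m (hYS m h0)
  have hwin : ∀ m, x m ≠ 0 → IsPrim m ∧ Squarefree m ∧ |Real.log (nm m) - Real.log E| ≤ n * R := by
    intro m hm
    obtain ⟨h1, h2, -, h3⟩ := AL813.al_supp hR z D0 P q ps hm
    rw [hE, Real.log_exp]
    exact ⟨h1, h2, h3.trans hlR⟩
  have hXδ : 1 ≤ X0 ^ δ := Real.one_le_rpow hX0 hδ.le
  set P2 : ℝ := P1 * X0 ^ δ with hP2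
  have hP20 : 0 < P2 := by positivity
  set V : ℝ := C * X0 ^ ε * ((P2 * nm f) ^ (1 / 3 : ℝ) * ((E / nm d) ^ (5 / 3 : ℝ) *
            (nm e : ℝ)⁻¹)) with hV
  have hV0 : 0 ≤ V := by positivity
  -- the sup norm
  have hYe : (C2 * Y ^ ε') ^ 2 ≤ (C2 * Real.exp (n * R) ^ ε') ^ 2 * X0 ^ ε := by
    have h1 : Y ^ ε' = (X0 ^ n) ^ ε' * Real.exp (n * R) ^ ε' :=
      Real.mul_rpow (by positivity) (Real.exp_pos _).le
    have h2 : ((X0 ^ n) ^ ε') ^ 2 ≤ X0 ^ ε := by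
      rw [← Real.rpow_natCast X0 n, ← Real.rpow_mul hX00.le, ← Real.rpow_natCast,
        ← Real.rpow_mul hX00.le]
      refine Real.rpow_le_rpow_of_exponent_le hX0 ?_
      rw [hε']
      push_cast
      rw [show (n : ℝ) * (ε / (2 * (n + 1))) * 2 = ε * (n / (n + 1)) by field_simp]
      exact mul_le_of_le_one_right hε.le ((div_le_one (by positivity)).2 (by linarith))
    rw [h1]
    calc (C2 * ((X0 ^ n) ^ ε' * Real.exp (n * R) ^ ε')) ^ 2
        = (C2 * Real.exp (n * R) ^ ε') ^ 2 * ((X0 ^ n) ^ ε') ^ 2 := by ring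
      _ ≤ _ := by gcongr
  refine RM_all (A := A) hA hFx (f := f) hd (Y := Y) (Xπ := X0)
    (by linarith) hYS hG (P1 := P1) (P2 := P2) (V := V) (a := a0 + 1) (by omega) hP1
    (le_mul_of_one_le_right hP1.le hXδ) hV0 _ ?_ ?_ hγ hπ hπX hΛ
  · -- the levels up to `P2`
    clear γ π hγ hπ hπX Λ hΛ
    intro γ π hγ hπ hγY hπX Λ hΛ1 hΛ2
    have hΛ0 : 0 < Λ := by linarith
    have hγ0 := nm_cast_pos hγ.ne_zero
    have hγ1 := one_le_nm hγ.ne_zero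
    have hcBp : IsPrim (cB γ e) := cB_prim he
    have hcB1 := one_le_nm hcBp.ne_zero
    have hcB0 := nm_cast_pos hcBp.ne_zero
    have hcB := le_nm_cB hγ he
    have hdγ : IsPrim (d * γ) := hd.mul hγ
    have hnde : (nm (d * γ * cB γ e) : ℝ) = nm d * nm γ * nm (cB γ e) := by
      rw [nm_mul, nm_mul]; push_cast; rfl
    set U : ℝ := (E / (nm d * nm γ * nm (cB γ e))) ^ (5 / 3 : ℝ) *
      (nm (cB γ e) : ℝ) ^ (-(1 / 3 : ℝ)) with hU
    have hU0 : 0 ≤ U := by positivity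
    set M : ℝ := 16 * (Λ * nm f) ^ (1 / 3 : ℝ) * (Cb ^ 2 * X0 ^ ε * U) with hM
    have hM0 : 0 ≤ M := by positivity
    have hone : ∀ (u : ℝ) (k : Eis), ‖CS (gC x (d * γ) (cB γ e) π (tw (1 / 6) u)) k‖ ^ 2 ≤
        Cb ^ 2 * X0 ^ ε * U := by
      intro u k
      have h1 := CS_triv hE0 hnR (by positivity : 0 ≤ C2 * Y ^ ε') hwin hsx hdγ hcBp π k u
      rw [hnde] at h1
      refine (pow_le_pow_left₀ (norm_nonneg _) h1 2).trans ?_
      have e2 : ((E / (nm d * nm γ * nm (cB γ e))) ^ (5 / 6 : ℝ)) ^ 2 =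
          (E / (nm d * nm γ * nm (cB γ e))) ^ (5 / 3 : ℝ) := by
        rw [← Real.rpow_natCast, ← Real.rpow_mul (by positivity)]; congr 1; norm_num
      have e3 : ((nm (cB γ e) : ℝ) ^ (-(1 / 6 : ℝ))) ^ 2 = (nm (cB γ e) : ℝ) ^ (-(1 / 3 : ℝ)) := by
        rw [← Real.rpow_natCast, ← Real.rpow_mul hcB0.le]; congr 1; norm_num
      have e4 : ∀ a b c d : ℝ, (a * b * (c * d)) ^ 2 = a ^ 2 * b ^ 2 * (c ^ 2 * d ^ 2) := by
        intro a b c d; ring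
      rw [e4, e2, e3]
      calc (100 * Real.exp (2 * (n * R))) ^ 2 * (C2 * Y ^ ε') ^ 2 * U
          ≤ (100 * Real.exp (2 * (n * R))) ^ 2 * ((C2 * Real.exp (n * R) ^ ε') ^ 2 * X0 ^ ε) *
            U := by gcongr
        _ = _ := by rw [hCb]; ring
    have hmx : ∀ u : ℝ, ∑ k ∈ (bl Λ).filter (fun k => ¬ NCube (k * f)),
        ‖CS (gC x (d * γ) (cB γ e) π (tw (1 / 6) u)) (k * f)‖ ^ 2 ≤ M * (1 + |u|) ^ 0 := by
      intro u
      rw [pow_zero, mul_one]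
      calc ∑ k ∈ (bl Λ).filter (fun k => ¬ NCube (k * f)),
            ‖CS (gC x (d * γ) (cB γ e) π (tw (1 / 6) u)) (k * f)‖ ^ 2
          ≤ ((bl Λ).filter (fun k => ¬ NCube (k * f))).card • (Cb ^ 2 * X0 ^ ε * U) :=
            Finset.sum_le_card_nsmul _ _ _ fun k _ => hone u (k * f)
        _ = (((bl Λ).filter (fun k => ¬ NCube (k * f))).card : ℝ) * (Cb ^ 2 * X0 ^ ε * U) :=
            nsmul_eq_mul _ _
        _ ≤ 16 * (Λ * nm f) ^ (1 / 3 : ℝ) * (Cb ^ 2 * X0 ^ ε * U) :=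
            mul_le_mul_of_nonneg_right (card_prin hΛ0 hf) (by positivity)
        _ = M := by rw [hM]
    have hRM := RM_sum (A := A) (J := 0) (by rw [Nat.cast_zero, zero_add]; exact hA) hFx hd hγ he π
      ((bl Λ).filter (fun k => ¬ NCube (k * f))) (fun k => k * f) hmx
    have hw := wt_pr (E := E) (s := 1) hE0 hd0 hγ0 hcB1 he0 hcB
      (show n6 γ = (nm γ : ℝ) ^ (-(1 / 6 : ℝ)) by unfold PX764.n6; congr 1; norm_num) one_pos
    have m1 : min 1 ((nm d : ℝ) * nm γ * nm (cB γ e) * 1) = 1 := by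
      refine min_eq_left ?_
      rw [mul_one]
      exact one_le_mul_of_one_le_of_one_le (one_le_mul_of_one_le_of_one_le hd1 hγ1) hcB1
    have m2 : min 1 ((nm d : ℝ) * nm e * 1) = 1 := by
      refine min_eq_left ?_
      rw [mul_one]
      exact one_le_mul_of_one_le_of_one_le hd1 he1
    rw [m1, m2, mul_one, mul_one] at hw
    have hn6 := n6_nonneg γ
    have hL3 : (Λ * nm f) ^ (1 / 3 : ℝ) =
        (Λ / P2) ^ (1 / 3 : ℝ) * (P2 * nm f) ^ (1 / 3 : ℝ) := by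
      rw [← Real.mul_rpow (by positivity) (by positivity)]
      congr 1
      field_simp
    calc (nm γ : ℝ) * n6 γ ^ 2 * ∑ k ∈ (bl Λ).filter (fun k => ¬ NCube (k * f)),
          RMm A (fun m => x (d * m)) e γ π (k * f)
        ≤ (nm γ : ℝ) * n6 γ ^ 2 * (M * jc) :=
          mul_le_mul_of_nonneg_left hRM (by positivity)
      _ = K1 * X0 ^ ε * ((Λ / P2) ^ (1 / 3 : ℝ) * (P2 * nm f) ^ (1 / 3 : ℝ)) *
          ((nm γ : ℝ) * n6 γ ^ 2 * U) := by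
          rw [hM, hL3, hK1]; ring
      _ ≤ C * X0 ^ ε * ((Λ / P2) ^ (1 / 3 : ℝ) * (P2 * nm f) ^ (1 / 3 : ℝ)) *
          ((E / nm d) ^ (5 / 3 : ℝ) * (nm e : ℝ)⁻¹) := by gcongr
      _ = (Λ / P2) ^ (1 / 3 : ℝ) * V := by rw [hV]; ring
  · -- the trivial condition
    have e1 : P2 / P1 = X0 ^ δ := by rw [hP2]; field_simp
    rw [e1, Nat.add_sub_cancel]
    have h1 : X0 ^ (5 * (n : ℝ) + m + 3) ≤ (X0 ^ δ) ^ a0 := by
      rw [← Real.rpow_natCast, ← Real.rpow_mul hX00.le]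
      refine Real.rpow_le_rpow_of_exponent_le hX0 ?_
      rw [div_le_iff₀ hδ] at ha0
      linarith
    have hXinv : ∀ y : ℝ, 0 < y → y ≤ X0 → X0 ^ (-(1 : ℝ)) ≤ y⁻¹ := fun y hy hyX => by
      rw [Real.rpow_neg_one]; exact inv_anti₀ hy hyX
    have h2 : X0 ^ (-(2 : ℝ)) ≤ (E / nm d) ^ (5 / 3 : ℝ) := by
      calc X0 ^ (-(2 : ℝ)) ≤ X0 ^ (-(5 / 3 : ℝ)) :=
            Real.rpow_le_rpow_of_exponent_le hX0 (by norm_num)
        _ = (1 / X0) ^ (5 / 3 : ℝ) := by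
            rw [one_div, Real.inv_rpow hX00.le, Real.rpow_neg hX00.le]
        _ ≤ _ := by
            refine Real.rpow_le_rpow (by positivity) ?_ (by norm_num)
            gcongr
    have h5 : P1 ≤ X0 ^ m * (P2 * nm f) ^ (1 / 3 : ℝ) := by
      have g1 : P1 ≤ P2 * nm f := by
        calc P1 = P1 * 1 * 1 := by ring
          _ ≤ P1 * X0 ^ δ * nm f := by gcongr
      have g2 : P1 ^ (2 / 3 : ℝ) ≤ X0 ^ m := by
        calc P1 ^ (2 / 3 : ℝ) ≤ (X0 ^ m) ^ (2 / 3 : ℝ) :=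
              Real.rpow_le_rpow hP1.le hP1X (by norm_num)
          _ = X0 ^ (m * (2 / 3)) := by rw [← Real.rpow_mul hX00.le]
          _ ≤ X0 ^ m := Real.rpow_le_rpow_of_exponent_le hX0 (by linarith)
      calc P1 = P1 ^ (2 / 3 : ℝ) * P1 ^ (1 / 3 : ℝ) := by
            rw [← Real.rpow_add hP1]; norm_num
        _ ≤ X0 ^ m * (P2 * nm f) ^ (1 / 3 : ℝ) := by
            gcongr
    have h4 : C ≤ C * X0 ^ ε := by
      have g2 : 1 ≤ X0 ^ ε := Real.one_le_rpow hX0 hε.le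
      exact le_mul_of_one_le_right (by linarith) g2
    have e3 : X0 ^ (5 * (n : ℝ) + m + 3) * (X0 ^ (-(2 : ℝ)) * X0 ^ (-(1 : ℝ))) =
        (X0 ^ n) ^ 5 * X0 ^ m := by
      rw [← Real.rpow_add hX00, ← Real.rpow_add hX00, ← pow_mul,
        ← Real.rpow_natCast, ← Real.rpow_add hX00]
      congr 1
      push_cast; ring
    calc 16 * (Y * (C1 * Y ^ 2) ^ 2) * P1 * jc
        = K2 * (X0 ^ n) ^ 5 * P1 := by
          rw [hK2, hY]; ring
      _ ≤ C * (X0 ^ n) ^ 5 * (X0 ^ m * (P2 * nm f) ^ (1 / 3 : ℝ)) := by gcongr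
      _ = C * (P2 * nm f) ^ (1 / 3 : ℝ) * ((X0 ^ n) ^ 5 * X0 ^ m) := by ring
      _ = X0 ^ (5 * (n : ℝ) + m + 3) * (C * ((P2 * nm f) ^ (1 / 3 : ℝ) *
          (X0 ^ (-(2 : ℝ)) * X0 ^ (-(1 : ℝ))))) := by rw [← e3]; ring
      _ ≤ (X0 ^ δ) ^ a0 * ((C * X0 ^ ε) * ((P2 * nm f) ^ (1 / 3 : ℝ) *
          ((E / nm d) ^ (5 / 3 : ℝ) * (nm e : ℝ)⁻¹))) := by
          have g6 := hXinv _ he0 heX
          gcongr
      _ = _ := by rw [hV]

end Crest.Agent.R017.RHs241
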