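import Crest.Agent.R017.LSL2_241
import Crest.Agent.R017.RClX3_791
import Crest.Agent.R017.PrH5_502
import Crest.Agent.R017.RCXd_385

/-!
# Row 17, T.7, the `l`-terms of the exceptional class (helper241): the finite level

* `REbl_fin` : the `l`-sum of `REb` from the inner sums over `(l, a)`, three kinds of terms
* `qla_x` : the inner sum over `(l, a)` of one index
* `rebL_x` : the `l`-sum of `REb` of one windowed sequence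
-/

set_option autoImplicit false
set_option linter.unusedVariables false

noncomputable section

open Complex
open scoped ComplexConjugate Classical

namespace Crest.Agent.R017.RLX241

open Crest.Agent.R012 Crest.Agent.R012.Eis
open Crest.Agent.R012.Div277
open Crest.Agent.R012.LS2 (S mem_S)
open Crest.Agent.R012.Mob705 (pdiv mem_pdiv)
open Crest.Agent.R017.CM106 (CS FS sub)
open Crest.Agent.R017.E2440 (Qs RR prs mem_prs C4 mem_C4 card_S_le')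
open Crest.Agent.R017.LBx48 (REb neb)
open Crest.Agent.R017.PrI176 (PJl BRl RPl RPl_nonneg pj_bdl reb_prl)
open Crest.Agent.R017.PrD502 (Mu Mu_nonneg)
open Crest.Agent.R017.RCl83 (RadOK Qla REb_lsum)
open Crest.Agent.R017.MoCa83 (alr)
open Crest.Agent.R017.RCX385 (S_prim log_sum card_neb wsum_one wsum_tiny Qn qn_iff)
open Crest.Agent.R017.X6C180 (IX dl' om' GF)
open Crest.Agent.R017.MoL106 (kw kw_ne)
open Crest.Agent.R017.H1401 (pb mem_pb DN WM WJ)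
open Crest.Agent.R017.MoF106 (MoP NX bk mem_bk)
open Crest.Agent.R017.E2sp579 (MH fP)
open Crest.Agent.R017.E2440
open Crest.Agent.R017.FlC502 (thd)
open Crest.Agent.R017.QsO83 (bw FS_bw)
open Crest.Agent.R017.NPy739 (MNc)
open Crest.Agent.R017.GKC739 (MTs PTs)
open Crest.Agent.R017.QsJ401
open Crest.Agent.R017.RC106 (jmL)
open Crest.Agent.R017.RClX791 (Sla Sla_nonneg PrX PrX_nonneg PTs_nonneg FJm Qla_X)
open Crest.Agent.R017.PrD502 (PV)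
open Crest.Agent.R017.WDec180 (WD sc)
open Crest.Agent.R017.Win813 (WK iA iA_nonneg)
open Crest.Agent.R017.RGw813 (T9 bt)
open Crest.Agent.R012.Weight600 (pw)

/-- **the `l`-sum of `REb` from the inner sums over `(l, a)`** -/
theorem REbl_fin {ε : ℝ} (hε : 0 < ε) : ∃ C : ℝ, 0 ≤ C ∧
    ∀ (P K X E0 Z V nM H d0 Ax G t : ℝ) (D : Finset Eis) (I : ℕ) (F : ℝ → ℂ) (α : Eis → ℂ)
      (Λ : Finset Eis) (ρ : Eis → Eis) (W Kl : Eis → ℝ), (∀ l ∈ Λ, 0 ≤ W l) →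
    (∀ l ∈ Λ, 0 ≤ Kl l) →
    1 ≤ P → 0 < K → 0 < X → 0 < V → V ≤ P → 1 ≤ E0 → E0 ≤ P → D ⊆ S P → 0 < nM →
    0 < H → 0 ≤ G → 0 ≤ t → ∀ Q0 : Eis → ℝ, (∀ δ ∈ D, 0 ≤ Q0 δ) →
    (∀ δ ∈ D, ∀ i ∈ neb δ Z V I, ∀ e ∈ S E0, ∀ y ∈ prs δ, ∀ A ∈ pdiv y.1,
      Qla α Λ ρ W Kl (V / 2 ^ i) F δ e y A ≤
        G * ((V / 2 ^ i) ^ (-(1 / 3) : ℝ) / nm e * Q0 δ +
          K ^ (-(2 / 3) : ℝ) * ((Ax / nm y.1) ^ 2 * PJl K (V / 2 ^ i) (X / nm y.1) (nm (e * A)) nM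
            (nm y.2) H (Mu d0 y.1) 1) + t)) →
    ∑ l ∈ Λ, W l * ∑ a ∈ dvs (ρ l), REb (alr α a (ρ l / a)) (Kl l) F
        (D.filter (fun δ => ρ l / a ∣ δ)) I E0 Z V ≤
      C * P ^ ε * G * I * (∑ δ ∈ D, Q0 δ +
        Ax ^ 2 * RPl d0 K (max Z 0) X nM H 1 E0 + P ^ 3 * t) := by
  have hε2 : 0 < ε / 2 := by linarith
  obtain ⟨C₁, hC₁, H₁⟩ := REb_lsum hε2
  obtain ⟨C₂, hC₂, H₂⟩ := reb_prl hε2
  have hinv : 0 < (ε / 2)⁻¹ := by positivity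
  refine ⟨C₁ * (100 * (1 + (ε / 2)⁻¹) + C₂ + 100 * (1 + (ε / 2)⁻¹) * 100), by positivity, ?_⟩
  intro P K X E0 Z V nM H d0 Ax G t D I F α Λ ρ W Kl hW hKl hP hK hX hV hVP hE1 hE0 hD hM hH hG ht
    Q0 hQ0 hQ
  have hP0 : 0 < P := by linarith
  have hDp : ∀ δ ∈ D, IsPrim δ ∧ (nm δ : ℝ) ≤ P := fun δ hδ => by
    have := (mem_S hP0.le).mp (hD hδ)
    exact ⟨this.2.1, this.1⟩
  have hBR : ∀ (v d e : ℝ), 0 ≤ v → 0 ≤ d → 0 ≤ e → 0 ≤ BRl d0 K v X nM H 1 d e := by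
    intro v d e hv hd he
    unfold PrI176.BRl
    positivity
  have h1 := H₁ P E0 Z V D I F α Λ ρ W Kl hW hKl hV.le hDp
    (fun δ i e => G * ((V / 2 ^ i) ^ (-(1 / 3) : ℝ) / nm e * Q0 δ +
      K ^ (-(2 / 3) : ℝ) * (Ax ^ 2 * BRl d0 K (V / 2 ^ i) X nM H 1 (nm δ) (nm e)) + t))
    (fun δ hδ i _ e _ => by
      have h2 := hQ0 δ hδ
      have h3 := hBR (V / 2 ^ i) (nm δ) (nm e) (by positivity) (by positivity) (by positivity)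
      positivity) ?_
  swap
  · intro δ hδ i hi e he y hy A hA
    refine (hQ δ hδ i hi e he y hy A hA).trans ?_
    refine mul_le_mul_of_nonneg_left ?_ hG
    refine add_le_add (add_le_add le_rfl ?_) le_rfl
    refine mul_le_mul_of_nonneg_left ?_ (by positivity)
    exact pj_bdl (hDp δ hδ).1 hy hA (S_prim he).ne_zero hK (by positivity) hX hM hH zero_le_one
  refine h1.trans ?_
  have e1 : ∑ δ ∈ D, ∑ i ∈ neb δ Z V I, ∑ e ∈ S E0,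
      ((V / 2 ^ i) ^ (1 / 3 : ℝ) / nm e) *
        (G * ((V / 2 ^ i) ^ (-(1 / 3) : ℝ) / nm e * Q0 δ +
          K ^ (-(2 / 3) : ℝ) * (Ax ^ 2 * BRl d0 K (V / 2 ^ i) X nM H 1 (nm δ) (nm e)) + t)) =
      G * (∑ δ ∈ D, ∑ i ∈ neb δ Z V I, ∑ e ∈ S E0,
        ((1 : ℝ) ^ (-(2 / 3) : ℝ) * (V / 2 ^ i) ^ (1 / 3 : ℝ) / nm e) *
          ((V / 2 ^ i) ^ (-(1 / 3) : ℝ) * (1 : ℝ) ^ (2 / 3 : ℝ) / nm e * Q0 δ) +
        Ax ^ 2 * ∑ δ ∈ D, ∑ i ∈ neb δ Z V I, ∑ e ∈ S E0,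
        ((V / 2 ^ i) ^ (1 / 3 : ℝ) / nm e) *
          (K ^ (-(2 / 3) : ℝ) * BRl d0 K (V / 2 ^ i) X nM H 1 (nm δ) (nm e)) +
        t * ∑ δ ∈ D, ∑ i ∈ neb δ Z V I, ∑ e ∈ S E0,
        ((1 : ℝ) ^ (-(2 / 3) : ℝ) * (V / 2 ^ i) ^ (1 / 3 : ℝ) / nm e)) := by
    simp only [Finset.mul_sum, ← Finset.sum_add_distrib, Real.one_rpow, one_mul, mul_one]
    refine Finset.sum_congr rfl fun δ _ => Finset.sum_congr rfl fun i _ =>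
      Finset.sum_congr rfl fun e _ => ?_
    ring
  rw [e1]
  have s1 := wsum_one (ε := ε / 2) hε2 (K := 1) (Z := Z) (I := I) hP one_pos hV hE0 hQ0
  have s2 := H₂ P K X E0 Z V nM H 1 d0 D I hP hK hX hV hE1 hE0 hD hM hH zero_le_one
  have s3 := wsum_tiny (ε := ε / 2) hε2 (K := 1) (Z := Z) (I := I) hP one_pos (by simpa using hP) hV
    hVP hE0 hD
  have hR0 : 0 ≤ RPl d0 K (max Z 0) X nM H 1 E0 :=
    RPl_nonneg hK.le (le_max_right _ _) hX.le hM.le hH.le zero_le_one (by linarith)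
  have hS0 : 0 ≤ ∑ δ ∈ D, Q0 δ := Finset.sum_nonneg hQ0
  set c₀ : ℝ := 100 * (1 + (ε / 2)⁻¹) with hc₀
  have hc₀0 : 0 ≤ c₀ := by positivity
  set q : ℝ := P ^ (ε / 2) with hq
  have hq0 : 0 ≤ q := by positivity
  have hqq : q * q = P ^ ε := by
    rw [hq, ← Real.rpow_add hP0]; congr 1; ring
  have hC₁0 : 0 ≤ C₁ := by linarith
  set SQ := ∑ δ ∈ D, Q0 δ
  set RP := RPl d0 K (max Z 0) X nM H 1 E0
  calc C₁ * q * (G * (_ + Ax ^ 2 * _ + t * _))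
      ≤ C₁ * q * (G * (I * (c₀ * q) * SQ + Ax ^ 2 * (C₂ * q * I * RP) +
          t * (I * (c₀ * q) * (100 * P ^ 3)))) := by
        gcongr
    _ = C₁ * (q * q) * G * I * (c₀ * SQ + C₂ * (Ax ^ 2 * RP) + c₀ * 100 * (P ^ 3 * t)) := by ring
    _ ≤ C₁ * (q * q) * G * I * ((c₀ + C₂ + c₀ * 100) * (SQ + Ax ^ 2 * RP + P ^ 3 * t)) := by
        refine mul_le_mul_of_nonneg_left ?_ (by positivity)
        have a1 : 0 ≤ Ax ^ 2 * RP := by positivity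
        have a2 : 0 ≤ P ^ 3 * t := by positivity
        have a3 : 0 ≤ C₂ := by linarith
        nlinarith [mul_nonneg hc₀0 a1, mul_nonneg hc₀0 a2, mul_nonneg a3 hS0, mul_nonneg a3 a2,
          mul_nonneg hc₀0 hS0]
    _ = _ := by rw [hqq]; ring

lemma Sla_add {Λ : Finset Eis} {ρ : Eis → Eis} {W Kl : Eis → ℝ} {δ : Eis}
    (f g : Eis → Eis → ℝ) :
    Sla Λ ρ W Kl δ (fun k a => f k a + g k a) = Sla Λ ρ W Kl δ f + Sla Λ ρ W Kl δ g := by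
  unfold RClX791.Sla
  rw [← Finset.sum_add_distrib]
  refine Finset.sum_congr rfl fun k _ => ?_
  rw [Finset.sum_add_distrib, mul_add]

lemma fin_q {C₁ C₂ C₃ q W v Mn G Nb pj t : ℝ} (hC₁ : 1 ≤ C₁) (hC₂ : 1 ≤ C₂) (hC₃ : 1 ≤ C₃)
    (hq : 1 ≤ q) (hW : 0 ≤ W) (hW1 : W ≤ 1) (hv : 0 ≤ v) (hMn : 0 ≤ Mn) (hG : 0 ≤ G)
    (hNb : 0 ≤ Nb) (hpj : 0 ≤ pj) (ht : 0 ≤ t) :
    C₁ * q * (W * (v * Mn + t) + (C₂ * q * pj + C₃ * q * G * (v * Nb))) ≤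
      (C₁ * (C₂ + C₃)) * (q * q) * (v * (W * Mn + G * Nb) + pj + t) := by
  have hC₁0 : 0 ≤ C₁ := by linarith
  have hC₂0 : 0 ≤ C₂ := by linarith
  have hC₃0 : 0 ≤ C₃ := by linarith
  have hq0 : 0 ≤ q := by linarith
  have a1 : W * (v * Mn + t) ≤ q * (v * (W * Mn)) + q * t := by
    have b1 : W * (v * Mn) ≤ q * (v * (W * Mn)) := by
      have : 0 ≤ v * (W * Mn) := by positivity
      calc W * (v * Mn) = 1 * (v * (W * Mn)) := by ring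
        _ ≤ _ := mul_le_mul_of_nonneg_right hq this
    have b2 : W * t ≤ q * t := mul_le_mul_of_nonneg_right (hW1.trans hq) ht
    linarith [mul_add W (v * Mn) t]
  have a2 : W * (v * Mn + t) + (C₂ * q * pj + C₃ * q * G * (v * Nb)) ≤
      q * ((C₂ + C₃) * (v * (W * Mn + G * Nb) + pj + t)) := by
    have b3 : 0 ≤ v * (W * Mn) := by positivity
    have b4 : 0 ≤ v * (G * Nb) := by positivity
    have e1 : q * ((C₂ + C₃) * (v * (W * Mn + G * Nb) + pj + t)) =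
        (q * (v * (W * Mn)) + q * t) + (C₂ * q * pj + C₃ * q * G * (v * Nb)) +
        q * ((C₂ + C₃ - 1) * (v * (W * Mn) + t) + C₂ * (v * (G * Nb)) + C₃ * pj) := by ring
    rw [e1]
    have b5 : 0 ≤ C₂ + C₃ - 1 := by linarith
    have b6 : 0 ≤ q * ((C₂ + C₃ - 1) * (v * (W * Mn) + t) + C₂ * (v * (G * Nb)) + C₃ * pj) := by
      positivity
    linarith
  calc _ ≤ C₁ * q * (q * ((C₂ + C₃) * (v * (W * Mn + G * Nb) + pj + t))) :=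
        mul_le_mul_of_nonneg_left a2 (by positivity)
    _ = _ := by ring

set_option maxHeartbeats 2000000 in
/-- **the inner sum over `(l, a)` of one index** -/
theorem qla_x {ε : ℝ} (hε : 0 < ε) {R : ℝ} (hR : 0 ≤ R) (a₀ M' Jt Aw : ℕ) (hJ : 12 ≤ Jt)
    (hAw : Jt + 2 ≤ Aw) :
    ∃ (M b : ℕ) (C : ℝ), 1 ≤ C ∧
    ∀ (P : ℝ) (Ft : ℝ → ℂ) (cc H : ℝ) (om : ∀ σ : Eis, IX σ → ℝ → ℂ),
    (∀ σ ∈ C4, KDd σ Jt M Ft cc H (fun y => min (y ^ (-(1 / 3) : ℝ)) (min 1 ((y * H) ^ 1)))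
      (thd H) (om σ)) → 1 ≤ H → H ≤ P →
    ∀ (X V K Wm T : ℝ) (Λ : Finset Eis) (ρ : Eis → Eis) (W Kl B0 : Eis → ℝ), RadOK T Λ ρ →
    1 ≤ T → T ≤ P → 1 ≤ V → V ≤ P → X ≤ P → 0 < K → 0 ≤ Wm → (∀ k ∈ Λ, W k ≤ Wm) →
    (∀ k ∈ Λ, Kl k = K / (nm k : ℝ) ^ 3 ∧ (Kl k)⁻¹ ≤ P ∧ Kl k ≤ P ∧ 0 ≤ W k ∧
      W k ≤ (nm k : ℝ)⁻¹) →
    (∀ k ∈ Λ, 0 < B0 k) →
    (∀ k ∈ Λ, ∀ u : ℕ, ¬ ((2 : ℝ) ^ u / 2 < B0 k ∧ B0 k < (2 : ℝ) ^ u)) →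
    ∀ (φ : ℝ → ℝ) (p : ℕ × ℕ) (t₀ : ℝ) (x : Eis → ℂ), FS x →
    (∀ n, x n ≠ 0 → Squarefree n) →
    (∀ n, bw φ p t₀ x n ≠ 0 → X / 2 < nm n ∧ (nm n : ℝ) ≤ X) →
    (∀ n, ‖bw φ p t₀ x n‖ ≤ P ^ a₀) →
    ∀ Cw η : ℝ, WK Cw η Aw φ → 0 ≤ Cw → 0 < η → η ≤ 1 → p ∈ T9 →
    ∀ Axp d0 Zp : ℝ, 0 ≤ Axp → C * P ^ b ≤ Zp → PV (fun H => ∃ c, H = c ^ 3) 6 Axp d0 Zp x →
    ∀ Xn Ax : ℝ, 0 < Xn → Xn ≤ P → 0 ≤ Ax →
    (∀ n, x n ≠ 0 → |Real.log (nm n) - Real.log Xn| ≤ R) → (∀ n, ‖x n‖ ≤ Ax) →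
    ∀ (δ e A : Eis) (y : Eis × Eis), IsPrim δ → Squarefree δ → IsPrim e → y ∈ prs δ →
    A ∈ pdiv y.1 → (nm y.1 : ℝ) ≤ X → ∀ Z E0 D : ℝ, V ≤ Z → (nm e : ℝ) ≤ E0 →
    (nm δ : ℝ) ≤ D → D ≤ P → E0 ≤ P → 9 * (Z * (E0 * D) ^ 3) ≤ P →
    ∀ s₁ Lv : ℝ, 0 ≤ s₁ → Lv ≤ Real.log V → ∀ Mn : ℝ, 0 ≤ Mn →
    (∀ b, IsPrim b → Squarefree b → (nm b : ℝ) ≤ T → b ∣ δ → ∀ c ∈ C4, ∀ l u j,
      (∃ k ∈ Λ, CellN (P ^ (ε / 3 / 2)) H (X / nm y.1) V (Kl k) (B0 k) y.2 e A c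
        (jmL s₁ Lv l) l u j) → ∀ n ∈ dvs y.2,
      (2 / 2 ^ j : ℝ) * ((nm n : ℝ) * ∑ a ∈ S T, ∑ j₂ ∈ Tb V e A c l, ∑ B ∈ bk (X / nm y.1) u,
        MNc Jt V e A c (X / nm y.1) (Qn p) δ y.1 φ p t₀ j₂ B j n (alr x a b)) ≤ Mn) →
    (∀ b, IsPrim b → Squarefree b → (nm b : ℝ) ≤ T → b ∣ δ → ∀ c ∈ C4, ∀ l u j,
      jmL s₁ Lv l u j → (∃ k ∈ Λ, CellJ (P ^ (ε / 3 / 2)) H (X / nm y.1) V (Kl k) (B0 k) y.2 e A c
        l u j) →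
      (2 / 2 ^ j : ℝ) * (2 / 2 ^ u) * ∑ a ∈ S T, ∑ j₂ ∈ Tb V e A c l,
        FJm Jt V e A c (X / nm y.1) (Qn p) y.2 δ y.1 φ p t₀ j₂ u j (alr x a b) ≤ Mn) →
    ∀ Nb : ℝ, 0 ≤ Nb → (∀ k ∈ Λ, W k * (Kl k ^ (2 / 3 : ℝ) * Xn ^ (2 / 3 : ℝ) / B0 k *
      MTL537.ML (9 * (Z * (E0 * D) ^ 3)) (Xn / B0 k)) ≤ Nb) →
    Qla (bw φ p t₀ x) Λ ρ W Kl V Ft δ e y A ≤ C * cc ^ 2 * P ^ (2 * ε) *
      (V ^ (-(1 / 3) : ℝ) / nm e *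
          (Wm * Mn + (Cw ^ 2 * (η⁻¹) ^ Jt * (1 + |t₀|) ^ Jt * Ax ^ 2) * Nb) +
        K ^ (-(2 / 3) : ℝ) * ((Cw * iA (Aw - 6) * (η⁻¹) ^ 6 * (1 + |t₀|) ^ 6 * Axp / nm y.1) ^ 2 *
          PJl K V (X / nm y.1) (nm (e * A)) 1 (nm y.2) H (Mu d0 y.1) 1) + (P ^ M')⁻¹) := by
  have hε6 : 0 < ε / 3 / 2 := by positivity
  obtain ⟨M, C₁, hC₁, H₁⟩ := Qla_X hε a₀ M' (Cd := (4 : ℝ) ^ (1 + 1)) (by positivity)
  obtain ⟨b, C₂, hC₂, H₂⟩ := PrD502.prl_half hε hε6 6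
  obtain ⟨C₃, hC₃, H₃⟩ := LSL241.pts_lsumx hε Jt Aw hAw hR
  refine ⟨M, b, C₁ * (C₂ + C₃), ?_, ?_⟩
  · nlinarith
  intro P Ft cc H om hKD hH1 hHP X V K Wm T Λ ρ W Kl B0 hΛ hT1 hTP hV1 hVP hXP hK hWm0 hWm hKl
    hB0p hB0 φ p t₀ x hx hs hsp hα Cw η hφ hCw hη hη1 hp Axp d0 Zp hAxp hZp hPV Xn Ax hXn hXnP hAx
    hxw hxA δ e A y hδ hδs he hy hA hyX Z E0 D hVZ heE hδD hDP hE0P hbig s₁ Lv hs₁ hLv Mn hMn hHN
    hHJ Nb hNb hnum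
  have hP1 : 1 ≤ P := hT1.trans hTP
  have hP0 : 0 < P := by linarith
  have hV0 : 0 < V := by linarith
  have hH0 : 0 < H := by linarith
  obtain ⟨hy1, hy2, hye⟩ := (mem_prs hδ).mp hy
  have hy1n : (1 : ℝ) ≤ nm y.1 := one_le_nm hy1.ne_zero
  have he1 : (1 : ℝ) ≤ nm e := one_le_nm he.ne_zero
  have hδ1 : (1 : ℝ) ≤ nm δ := one_le_nm hδ.ne_zero
  have hX1 : 1 ≤ X := hy1n.trans hyX
  have hX0 : 0 < X := by linarith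
  have hfs : FS (bw φ p t₀ x) := FS_bw hx
  have hKl0 : ∀ k ∈ Λ, 0 < Kl k := fun k hk => by
    rw [(hKl k hk).1]
    have : (0 : ℝ) < nm k := by exact_mod_cast nm_pos.2 (hΛ.prim k hk).ne_zero
    positivity
  have hC₂' : C₂ ≤ C₁ * (C₂ + C₃) := by nlinarith
  obtain ⟨Ex, hEx0, hEx, hExs⟩ := H₂ P hP1 hx hAxp hPV
    ((mul_le_mul_of_nonneg_right hC₂' (by positivity)).trans hZp) hφ hCw hη hη1 (by omega) p hp t₀
    Jt (by omega) X V K H T Λ ρ B0 Kl W hΛ hXP hV1 hVP hK hH1 hHP hT1 hTP hKl δ e hδ hδs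
    (hδD.trans hDP) he (heE.trans hE0P) y hy A hA hyX
  set Wm' : ℝ := min Wm 1 with hWm'
  have hWm'0 : 0 ≤ Wm' := le_min hWm0 zero_le_one
  have hSz : ∀ k ∈ Λ, ∀ c ∈ C4, QsJ401.Sz P X V (Kl k) H δ e A c y := fun k hk c hc =>
    { P1 := hP1, H1 := hH1, HP := hHP, XP := hXP, VP := hVP, V1 := hV1, K0 := hKl0 k hk,
      KiP := (hKl k hk).2.1, KP := (hKl k hk).2.2.1, δp := hδ, δs := hδs, δP := hδD.trans hDP,
      ep := he, eP := heE.trans hE0P, hy := hy, hA := hA, yX := hyX, hc := hc }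
  have key := H₁ P Jt Ft cc H (fun y => min (y ^ (-(1 / 3) : ℝ)) (min 1 ((y * H) ^ 1))) (thd H) om
    hKD (fun y _ => th_le_one 1 H y)
    (fun y _ => by unfold FlC502.thd; exact min_le_left _ _)
    (dbl_th 1 (by linarith)) (dbl_thd 1 (by linarith)) X V Wm' T Λ ρ W Kl B0 hΛ hT1 hTP hV0.le
    hWm'0 (fun k hk => ⟨(hKl k hk).2.2.2.1, le_min (hWm k hk)
      (((hKl k hk).2.2.2.2).trans (inv_le_one_of_one_le₀ (one_le_nm (hΛ.prim k hk).ne_zero)))⟩)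
    hB0 φ p t₀ x hx (fun n hn => hs n (QsO83.bw_ne hn)) hsp hα δ e A y hSz (Qn p) s₁ Lv hs₁ hLv
    (fun _ a => Ex a) (fun _ a c j₂ B j => hEx0 a c j₂ B j)
    (fun k hk a ha c hc j₂ hj₂ hR1 => by
      have hρ := hΛ.rp k hk
      have ha' := (mem_dvs hρ.ne_zero).mp (Finset.mem_filter.1 ha).1
      have e1 : a * (ρ k / a) = ρ k := EuclideanDomain.mul_div_cancel' ha'.1.ne_zero ha'.2
      have hb : IsPrim (ρ k / a) := IsPrim.of_mul_left (by rw [e1]; exact hρ) ha'.1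
      have hbd : ρ k / a ∣ ρ k := ⟨a, by rw [mul_comm]; exact e1.symm⟩
      have has : Squarefree a := (hΛ.rs k hk).squarefree_of_dvd ha'.2
      have haT : (nm a : ℝ) ≤ T := by
        refine le_trans ?_ (hΛ.rle hk)
        exact_mod_cast nm_le_of_dvd hρ.ne_zero ha'.2
      have hbT : (nm (ρ k / a) : ℝ) ≤ T := by
        refine le_trans ?_ (hΛ.rle hk)
        exact_mod_cast nm_le_of_dvd hρ.ne_zero hbd
      have := hEx k hk a (ρ k / a) ha'.1 has haT hb hbT c hc j₂ hj₂ hR1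
      simp only [qn_iff]
      exact this) Mn hMn hHN hHJ
  have hpts := H₃ (Real.exp R * Xn) Xn P Ax T x (by positivity) hXn hAx hXnP
    (fun n hn => by
      rw [mem_S (by positivity)]
      exact ⟨MTX241.nm_le_win hXn (hx.prim n hn).ne_zero (hxw n hn), hx.prim n hn, hs n hn⟩)
    hxw hxA hT1 hTP Cw η φ hCw hη hη1 hφ p hp t₀ Λ ρ W Kl B0 hΛ
    (fun k hk => ⟨(hKl k hk).2.2.2.1, hKl0 k hk, hB0p k hk⟩) δ hδ hδs e he Z E0 D V X heE hδD hDP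
    hV0 hVZ hbig hX0.le hXP Nb hNb hnum y hy A hA
  have hExs' := hExs (fun y => min (y ^ (-(1 / 3) : ℝ)) (min 1 ((y * H) ^ 1))) (thd H)
    (fun y hy => ⟨by positivity, th_le_one 1 H y, min_le_left _ _⟩)
    (fun y hy => by
      unfold FlC502.thd
      exact ⟨by positivity, min_le_left _ _, min_le_right _ _⟩)
  have hprx : Sla Λ ρ W Kl δ (fun k a => PrX P ε H
      (fun y => min (y ^ (-(1 / 3) : ℝ)) (min 1 ((y * H) ^ 1))) (thd H) V X (Kl k) (B0 k) e A y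
      (Ex a)) ≤ C₂ * P ^ ε * (K ^ (-(2 / 3) : ℝ) *
        ((Cw * iA (Aw - 6) * (η⁻¹) ^ 6 * (1 + |t₀|) ^ 6 * Axp / nm y.1) ^ 2 *
          PJl K V (X / nm y.1) (nm (e * A)) 1 (nm y.2) H (Mu d0 y.1) 1)) := hExs'
  set pj : ℝ := K ^ (-(2 / 3) : ℝ) *
        ((Cw * iA (Aw - 6) * (η⁻¹) ^ 6 * (1 + |t₀|) ^ 6 * Axp / nm y.1) ^ 2 *
          PJl K V (X / nm y.1) (nm (e * A)) 1 (nm y.2) H (Mu d0 y.1) 1) with hpj
  have hpj0 : 0 ≤ pj := by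
    have : 0 ≤ PJl K V (X / nm y.1) (nm (e * A)) 1 (nm y.2) H (Mu d0 y.1) 1 := by
      have := Mu_nonneg d0 y.1
      unfold PrI176.PJl
      positivity
    positivity
  rw [Sla_add] at key
  set v : ℝ := V ^ (-(1 / 3) : ℝ) / nm e with hv
  have hv0 : 0 ≤ v := by positivity
  have hA1 : (1 : ℝ) ≤ nm A := one_le_nm ((mem_pdiv hy1.ne_zero).mp hA).1.ne_zero
  have hwt : V ^ (-(1 : ℝ) / 3) / nm (e * A) * Mn ≤ v * Mn := by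
    refine mul_le_mul_of_nonneg_right ?_ hMn
    rw [hv, show (-(1 : ℝ) / 3) = (-(1 / 3) : ℝ) by norm_num, nm_mul]
    push_cast
    refine div_le_div_of_nonneg_left (by positivity) (by linarith) ?_
    exact le_mul_of_one_le_right (by linarith) hA1
  have hq1 : 1 ≤ P ^ ε := Real.one_le_rpow hP1 hε.le
  have hq2 : P ^ (2 * ε) = P ^ ε * P ^ ε := by
    rw [← Real.rpow_add hP0]; congr 1; ring
  set G : ℝ := Cw ^ 2 * (η⁻¹) ^ Jt * (1 + |t₀|) ^ Jt * Ax ^ 2 with hG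
  have hG0 : 0 ≤ G := by positivity
  have hMi : 0 ≤ (P ^ M')⁻¹ := by positivity
  have hcc2 : 0 ≤ cc ^ 2 := sq_nonneg _
  have hfin := fin_q hC₁ hC₂ hC₃ hq1 hWm'0 (min_le_right _ _) hv0 hMn hG0 hNb hpj0 hMi
  have hb1 : Wm' * (V ^ (-(1 : ℝ) / 3) / nm (e * A) * Mn + (P ^ M')⁻¹) ≤
      Wm' * (v * Mn + (P ^ M')⁻¹) :=
    mul_le_mul_of_nonneg_left (by linarith) hWm'0
  have hb2 : v * (Wm' * Mn + G * Nb) ≤ v * (Wm * Mn + G * Nb) := by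
    refine mul_le_mul_of_nonneg_left ?_ hv0
    have : Wm' * Mn ≤ Wm * Mn := mul_le_mul_of_nonneg_right (min_le_left _ _) hMn
    linarith
  refine key.trans ?_
  have hC₁0 : 0 ≤ C₁ := by linarith
  have hCC : 0 ≤ C₁ * (C₂ + C₃) := by positivity
  calc C₁ * cc ^ 2 * P ^ ε * (Wm' * (V ^ (-(1 : ℝ) / 3) / nm (e * A) * Mn + (P ^ M')⁻¹) + (_ + _))
      ≤ C₁ * cc ^ 2 * P ^ ε * (Wm' * (v * Mn + (P ^ M')⁻¹) +
          (C₂ * P ^ ε * pj + C₃ * P ^ ε * G * (v * Nb))) := by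
        refine mul_le_mul_of_nonneg_left (add_le_add hb1 (add_le_add hprx hpts)) (by positivity)
    _ = cc ^ 2 * (C₁ * P ^ ε * (Wm' * (v * Mn + (P ^ M')⁻¹) +
          (C₂ * P ^ ε * pj + C₃ * P ^ ε * G * (v * Nb)))) := by ring
    _ ≤ cc ^ 2 * ((C₁ * (C₂ + C₃)) * (P ^ ε * P ^ ε) * (v * (Wm' * Mn + G * Nb) + pj +
          (P ^ M')⁻¹)) := mul_le_mul_of_nonneg_left hfin hcc2
    _ ≤ cc ^ 2 * ((C₁ * (C₂ + C₃)) * (P ^ ε * P ^ ε) * (v * (Wm * Mn + G * Nb) + pj +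
          (P ^ M')⁻¹)) := by
        refine mul_le_mul_of_nonneg_left (mul_le_mul_of_nonneg_left (by linarith) ?_) hcc2
        positivity
    _ = _ := by rw [hq2]; ring

/-- no inner sum beyond the support -/
lemma Qla_zero {α : Eis → ℂ} {X : ℝ} (hsp : ∀ n, α n ≠ 0 → (nm n : ℝ) ≤ X) {δ e : Eis} {V : ℝ}
    (hV : 0 ≤ V) (F : ℝ → ℂ) {y : Eis × Eis} {A : Eis} (hα : FS α) (hδ : IsPrim δ)
    (hy : y ∈ prs δ) (h : ¬ (nm y.1 : ℝ) ≤ X) {Λ : Finset Eis} {ρ : Eis → Eis} {W Kl : Eis → ℝ} :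
    Qla α Λ ρ W Kl V F δ e y A = 0 := by
  unfold RCl83.Qla
  refine Finset.sum_eq_zero fun k _ => ?_
  rw [Finset.sum_eq_zero, mul_zero]
  intro a _
  unfold RCl83.Qc
  refine Finset.sum_eq_zero fun c _ => Finset.sum_eq_zero fun j₂ _ => ?_
  exact E2440.Qs_zero (fun n hn => hsp n (MoCa83.alr_ne hn).2.2) hV _ (RCl83.FS_alr hα _ _) hδ hy
    (fun hcon => h hcon.2)

lemma RPl_mono_M {d0 K Z X H T E0 nM : ℝ} (hK : 0 ≤ K) (hZ : 0 ≤ Z) (hX : 0 ≤ X) (hM : 1 ≤ nM)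
    (hH : 0 ≤ H) (hT : 0 ≤ T) (hE : 0 ≤ E0) :
    RPl d0 K Z X 1 H T E0 ≤ RPl d0 K Z X nM H T E0 := by
  have h1 : (1 : ℝ) ^ ((1 : ℝ) / 3) ≤ nM ^ ((1 : ℝ) / 3) :=
    Real.rpow_le_rpow zero_le_one hM (by norm_num)
  have h2 := (Real.exp_pos (-d0)).le
  unfold PrI176.RPl
  gcongr

set_option maxHeartbeats 1000000 in
/-- **the `l`-sum of `REb` of one windowed sequence and one piece** -/
theorem rebL_x {w : ℝ → ℝ} {N : ℕ} {M : ℝ} {F : ℕ → ℝ → ℂ} (hD : WD w N M F) {ε : ℝ} (hε : 0 < ε)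
    {R : ℝ} (hR : 0 ≤ R) (a Jt Aw : ℕ) (hJ : 12 ≤ Jt) (hAw : Jt + 2 ≤ Aw) :
    ∃ (b : ℕ) (C : ℝ), 1 ≤ C ∧
    ∀ (P K Xn X' E0 N₁ D Ax Axp d0 Zp h Cw η t₀ T Wm : ℝ) (I : ℕ) (x : Eis → ℂ) (φ : ℝ → ℝ)
      (p : ℕ × ℕ) (Λ : Finset Eis) (ρ : Eis → Eis) (W Kl : Eis → ℝ), 0 < K → RadOK T Λ ρ →
      1 ≤ T → T ≤ P → 0 ≤ Wm → (∀ k ∈ Λ, W k ≤ Wm) →
      (∀ k ∈ Λ, Kl k = K / (nm k : ℝ) ^ 3 ∧ (Kl k)⁻¹ ≤ P ∧ Kl k ≤ P ∧ 0 ≤ W k ∧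
        W k ≤ (nm k : ℝ)⁻¹) →
      0 < Xn → Xn ≤ P → 0 < X' → 2 * X' ≤ P → 1 ≤ E0 → 1 ≤ N₁ → (2 : ℝ) ^ I ≤ 2 * N₁ → 1 ≤ D →
      9 * (N₁ * (E0 * D) ^ 3) ≤ P → 0 ≤ h → Real.exp h ≤ P →
      0 ≤ Cw → 0 < η → η ≤ 1 / 2 → WK Cw η Aw φ → (∀ u, φ u ≠ 0 → |u - Real.log X'| ≤ η / 2) →
      p ∈ T9 → FS x → (∀ n, x n ≠ 0 → Squarefree n) →
      (∀ n, x n ≠ 0 → |Real.log (nm n) - Real.log Xn| ≤ R) → 0 ≤ Ax → (∀ n, ‖x n‖ ≤ Ax) →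
      Cw * iA Aw * Ax ≤ P ^ a → 0 ≤ Axp → PV (fun H => ∃ c, H = c ^ 3) 6 Axp d0 Zp x →
      C * P ^ b ≤ Zp →
      ∀ Mn Nb : ℝ, 0 ≤ Mn → 0 ≤ Nb → ∀ i < N,
      (∀ δ ∈ S D, ∀ i' ∈ neb δ N₁ N₁ I, ∀ e ∈ S E0, ∀ y ∈ prs δ, ∀ A ∈ pdiv y.1,
        (nm y.1 : ℝ) ≤ X' * Real.exp (η / 2) →
        ∃ (B0 : Eis → ℝ) (s₁ Lv : ℝ), (∀ k ∈ Λ, 0 < B0 k) ∧
          (∀ k ∈ Λ, ∀ u : ℕ, ¬ ((2 : ℝ) ^ u / 2 < B0 k ∧ B0 k < (2 : ℝ) ^ u)) ∧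
          (∀ k ∈ Λ, W k * (Kl k ^ (2 / 3 : ℝ) * Xn ^ (2 / 3 : ℝ) / B0 k *
            MTL537.ML (9 * (N₁ * (E0 * D) ^ 3)) (Xn / B0 k)) ≤ Nb) ∧
          0 ≤ s₁ ∧ Lv ≤ Real.log (N₁ / 2 ^ i') ∧
          (∀ b, IsPrim b → Squarefree b → (nm b : ℝ) ≤ T → b ∣ δ → ∀ c ∈ C4, ∀ l u j,
            (∃ k ∈ Λ, CellN (P ^ (ε / 3 / 2)) (Real.exp h) (X' * Real.exp (η / 2) / nm y.1)
              (N₁ / 2 ^ i') (Kl k) (B0 k) y.2 e A c (jmL s₁ Lv l) l u j) → ∀ n ∈ dvs y.2,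
            (2 / 2 ^ j : ℝ) * ((nm n : ℝ) * ∑ a ∈ S T, ∑ j₂ ∈ Tb (N₁ / 2 ^ i') e A c l,
              ∑ B ∈ bk (X' * Real.exp (η / 2) / nm y.1) u,
              MNc Jt (N₁ / 2 ^ i') e A c (X' * Real.exp (η / 2) / nm y.1) (Qn p) δ y.1 φ p t₀ j₂ B
                j n (alr x a b)) ≤ Mn) ∧
          (∀ b, IsPrim b → Squarefree b → (nm b : ℝ) ≤ T → b ∣ δ → ∀ c ∈ C4, ∀ l u j,
            jmL s₁ Lv l u j → (∃ k ∈ Λ, CellJ (P ^ (ε / 3 / 2)) (Real.exp h)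
              (X' * Real.exp (η / 2) / nm y.1) (N₁ / 2 ^ i') (Kl k) (B0 k) y.2 e A c l u j) →
            (2 / 2 ^ j : ℝ) * (2 / 2 ^ u) * ∑ a ∈ S T, ∑ j₂ ∈ Tb (N₁ / 2 ^ i') e A c l,
              FJm Jt (N₁ / 2 ^ i') e A c (X' * Real.exp (η / 2) / nm y.1) (Qn p) y.2 δ y.1 φ p t₀
                j₂ u j (alr x a b) ≤ Mn)) →
      ∑ k ∈ Λ, W k * ∑ a ∈ dvs (ρ k), REb (alr (bw φ p t₀ x) a (ρ k / a)) (Kl k)
          (GF (Fh (F i) h)) ((S D).filter (fun δ => ρ k / a ∣ δ)) I E0 N₁ N₁ ≤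
        C * P ^ (3 * ε) * I * (D * (Wm * Mn) +
          D * (Cw ^ 2 * (η⁻¹) ^ Jt * (1 + |t₀|) ^ Jt * Ax ^ 2 * Nb) +
          (Cw * (η⁻¹) ^ 6 * (1 + |t₀|) ^ 6 * Axp) ^ 2 *
            RPl d0 K N₁ (X' * Real.exp (η / 2)) (nm (kw p)) (Real.exp h) 1 E0 + 1) := by
  obtain ⟨Mk, b, C₁, hC₁, H₁⟩ := qla_x hε hR a 4 Jt Aw hJ hAw
  obtain ⟨cc, hcc, Hk⟩ := RCX385.kd_all hD Jt Mk 1
  obtain ⟨C₃, hC₃, H₃⟩ := REbl_fin hε
  set iq : ℝ := iA (Aw - 6) with hiq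
  have hiq0 : 0 ≤ iq := iA_nonneg _
  refine ⟨b, C₁ + C₃ * (C₁ * cc ^ 2) * (100 + iq ^ 2 + 1), ?_, ?_⟩
  · have : 0 ≤ C₃ * (C₁ * cc ^ 2) * (100 + iq ^ 2 + 1) := by positivity
    linarith
  intro P K Xn X' E0 N₁ D Ax Axp d0 Zp h Cw η t₀ T Wm I x φ p Λ ρ W Kl hK hΛ hT1 hTP hWm0 hWm hKl
    hXn hXnP hX' hX'P hE0 hN₁ hI hD1 hbig hh hHP hCw hη hη1 hφ hφw hp hx hxs hxw hAx hxA hAxP hAxp
    hPV hZp Mn Nb hMn hNb i hi hcell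
  have hP : 1 ≤ P := hT1.trans hTP
  have hP0 : 0 < P := by linarith
  have hED : 1 ≤ E0 * D := one_le_mul_of_one_le_of_one_le hE0 hD1
  have hED3 : E0 * D ≤ (E0 * D) ^ 3 := le_self_pow₀ hED (by norm_num)
  have hED1 : 1 ≤ (E0 * D) ^ 3 := one_le_pow₀ hED
  have hEDE : E0 ≤ E0 * D := le_mul_of_one_le_right (by linarith) hD1
  have hEDD : D ≤ E0 * D := le_mul_of_one_le_left (by linarith) hE0
  have hNED : (E0 * D) ^ 3 ≤ N₁ * (E0 * D) ^ 3 := le_mul_of_one_le_left (by linarith) hN₁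
  have hNN : N₁ ≤ N₁ * (E0 * D) ^ 3 := le_mul_of_one_le_right (by linarith) hED1
  have hE0P : E0 ≤ P := by linarith
  have hDP : D ≤ P := by linarith
  have hN₁P : N₁ ≤ P := by linarith
  have hC₁Z : C₁ * P ^ b ≤ Zp := by
    refine le_trans (mul_le_mul_of_nonneg_right ?_ (by positivity)) hZp
    have : 0 ≤ C₃ * (C₁ * cc ^ 2) * (100 + iq ^ 2 + 1) := by positivity
    linarith
  obtain ⟨om, hom⟩ := Hk i hi h hh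
  have hexp := RCX385.exp_eta hη hη1
  set X2 := X' * Real.exp (η / 2) with hX2
  have hX20 : 0 < X2 := by positivity
  have hX2P : X2 ≤ P := by
    refine le_trans ?_ hX'P
    rw [hX2]
    have := mul_lt_mul_of_pos_left hexp.2 hX'
    linarith
  have hH1 : 1 ≤ Real.exp h := Real.one_le_exp hh
  have hfs : FS (bw φ p t₀ x) := FS_bw hx
  have hsup : ∀ n, bw φ p t₀ x n ≠ 0 → X2 / 2 < nm n ∧ (nm n : ℝ) ≤ X2 :=
    fun n hn => (RCX385.bw_win hη hη1 hX' hφw hx hn).2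
  have hnorm : ∀ n, ‖bw φ p t₀ x n‖ ≤ P ^ a := by
    intro n
    refine le_trans ?_ hAxP
    refine (LBo813.norm_bt_le hφ hη (by omega) hx p t₀ n).trans ?_
    exact mul_le_mul_of_nonneg_left (hxA n) (mul_nonneg hCw (iA_nonneg _))
  have hkw1 : (1 : ℝ) ≤ nm (kw p) := one_le_nm (kw_ne p)
  have hKl0 : ∀ k ∈ Λ, 0 < Kl k := fun k hk => by
    rw [(hKl k hk).1]
    have : (0 : ℝ) < nm k := by exact_mod_cast nm_pos.2 (hΛ.prim k hk).ne_zero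
    positivity
  set Axb : ℝ := Cw * iA (Aw - 6) * (η⁻¹) ^ 6 * (1 + |t₀|) ^ 6 * Axp with hAxb
  set G0 : ℝ := Cw ^ 2 * (η⁻¹) ^ Jt * (1 + |t₀|) ^ Jt * Ax ^ 2 with hG0
  have hG00 : 0 ≤ G0 := by positivity
  set q : ℝ := P ^ ε with hq
  have hq1 : 1 ≤ q := Real.one_le_rpow hP hε.le
  have hq2 : P ^ (2 * ε) = q * q := by
    rw [hq, ← Real.rpow_add hP0]; congr 1; ring
  set G : ℝ := C₁ * cc ^ 2 * (q * q) with hG
  have hGn : 0 ≤ G := by positivity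
  have ht0 : 0 ≤ (P ^ 4)⁻¹ := by positivity
  have key := H₃ P K X2 E0 N₁ N₁ 1 (Real.exp h) d0 Axb G ((P ^ 4)⁻¹) (S D) I
    (GF (Fh (F i) h)) (bw φ p t₀ x) Λ ρ W Kl (fun k hk => (hKl k hk).2.2.2.1)
    (fun k hk => (hKl0 k hk).le) hP hK hX20 (by linarith) hN₁P hE0 hE0P
    (fun δ hδ => by
      rw [mem_S (by linarith)] at hδ
      rw [mem_S hP0.le]
      exact ⟨hδ.1.trans hDP, hδ.2⟩) one_pos (Real.exp_pos _) hGn ht0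
    (fun _ => Wm * Mn + G0 * Nb) (fun δ _ => by positivity) ?_
  swap
  · intro δ hδ i' hi' e he y hy A hA
    rw [mem_S (by linarith)] at hδ
    obtain ⟨hδD, hδp, hδs⟩ := hδ
    have hep := S_prim he
    have heE : (nm e : ℝ) ≤ E0 := ((mem_S (by linarith)).1 he).1
    have hiI : i' < I := by
      unfold LBx48.neb at hi'
      exact Finset.mem_range.1 (Finset.mem_filter.1 hi').1
    have h2i : (0 : ℝ) < 2 ^ i' := by positivity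
    have hV1 : 1 ≤ N₁ / 2 ^ i' := by
      rw [le_div_iff₀ h2i, one_mul]
      have h1 : (2 : ℝ) ^ (i' + 1) ≤ 2 ^ I := pow_le_pow_right₀ (by norm_num) hiI
      rw [pow_succ] at h1
      linarith
    have hVN : N₁ / 2 ^ i' ≤ N₁ := div_le_self (by linarith) (one_le_pow₀ (by norm_num))
    set V := N₁ / 2 ^ i' with hVd
    have hV0 : 0 < V := by linarith
    have hPJ0 : 0 ≤ PJl K V (X2 / nm y.1) (nm (e * A)) 1 (nm y.2) (Real.exp h) (Mu d0 y.1) 1 := by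
      have := Mu_nonneg d0 y.1
      unfold PrI176.PJl
      positivity
    by_cases hyX : (nm y.1 : ℝ) ≤ X2
    swap
    · rw [Qla_zero (fun n hn => (hsup n hn).2) hV0.le _ hfs hδp hy hyX]
      positivity
    obtain ⟨B0, s₁, Lv, hB0p, hB0, hnum, hs₁, hLv, hHN, hHJ⟩ :=
      hcell δ (by rw [mem_S (by linarith)]; exact ⟨hδD, hδp, hδs⟩) i' hi' e he y hy A hA hyX
    have k1 := H₁ P (GF (Fh (F i) h)) cc (Real.exp h) om hom hH1 hHP X2 V K Wm T Λ ρ W Kl B0 hΛ hT1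
      hTP hV1 (hVN.trans hN₁P) hX2P hK hWm0 hWm hKl hB0p hB0 φ p t₀ x hx hxs hsup hnorm Cw η hφ hCw
      hη (by linarith) hp Axp d0 Zp hAxp hC₁Z hPV Xn Ax hXn hXnP hAx hxw hxA δ e A y hδp hδs hep hy
      hA hyX N₁ E0 D hVN heE hδD hDP hE0P hbig s₁ Lv hs₁ hLv Mn hMn hHN hHJ Nb hNb hnum
    rw [hq2] at k1
    exact k1
  refine key.trans ?_
  have hRP0 : 0 ≤ RPl d0 K N₁ X2 (nm (kw p)) (Real.exp h) 1 E0 :=
    RPl_nonneg hK.le (by linarith) hX20.le (by linarith) (Real.exp_pos _).le zero_le_one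
      (by linarith)
  have hRPm : RPl d0 K N₁ X2 1 (Real.exp h) 1 E0 ≤ RPl d0 K N₁ X2 (nm (kw p)) (Real.exp h) 1 E0 :=
    RPl_mono_M hK.le (by linarith) hX20.le hkw1 (Real.exp_pos _).le zero_le_one (by linarith)
  rw [max_eq_left (by linarith : (0 : ℝ) ≤ N₁), Finset.sum_const, nsmul_eq_mul]
  have hcard : ((S D).card : ℝ) ≤ 100 * D := card_S_le' hD1
  have hP4 : P ^ 3 * (P ^ 4)⁻¹ ≤ 1 := by
    rw [← div_eq_mul_inv, div_le_one (by positivity)]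
    exact pow_le_pow_right₀ hP (by norm_num)
  have hq3 : P ^ (3 * ε) = q * (q * q) := by
    rw [hq, ← Real.rpow_add hP0, ← Real.rpow_add hP0]; congr 1; ring
  rw [hq3]
  set U : ℝ := (Cw * (η⁻¹) ^ 6 * (1 + |t₀|) ^ 6 * Axp) ^ 2 *
    RPl d0 K N₁ X2 (nm (kw p)) (Real.exp h) 1 E0 with hU
  have hU0 : 0 ≤ U := by positivity
  have e2 : Axb ^ 2 * RPl d0 K N₁ X2 1 (Real.exp h) 1 E0 ≤ iq ^ 2 * U := by
    have e3 : iq ^ 2 * U = Axb ^ 2 * RPl d0 K N₁ X2 (nm (kw p)) (Real.exp h) 1 E0 := by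
      rw [hAxb, hU, hiq]; ring
    rw [e3]
    exact mul_le_mul_of_nonneg_left hRPm (sq_nonneg _)
  have hI0 : (0 : ℝ) ≤ I := Nat.cast_nonneg _
  have hD0 : 0 ≤ D := by linarith
  have hQn : 0 ≤ Wm * Mn + G0 * Nb := by positivity
  have s1 : ((S D).card : ℝ) * (Wm * Mn + G0 * Nb) ≤ 100 * D * (Wm * Mn + G0 * Nb) :=
    mul_le_mul_of_nonneg_right hcard hQn
  have s2 : ((S D).card : ℝ) * (Wm * Mn + G0 * Nb) + Axb ^ 2 * RPl d0 K N₁ X2 1 (Real.exp h) 1 E0 +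
      P ^ 3 * (P ^ 4)⁻¹ ≤
      (100 + iq ^ 2 + 1) * (D * (Wm * Mn) + D * (G0 * Nb) + U + 1) := by
    have a1 : 0 ≤ D * (Wm * Mn) := by positivity
    have a2 : 0 ≤ D * (G0 * Nb) := by positivity
    have a3 : 0 ≤ iq ^ 2 := sq_nonneg _
    have e5 : (100 + iq ^ 2 + 1) * (D * (Wm * Mn) + D * (G0 * Nb) + U + 1) =
        (100 * D * (Wm * Mn + G0 * Nb) + iq ^ 2 * U + 1) + (100 * (U + 1) +
          iq ^ 2 * (D * (Wm * Mn) + D * (G0 * Nb) + 1) + (D * (Wm * Mn) + D * (G0 * Nb) + U)) := by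
      ring
    have a4 : 0 ≤ 100 * (U + 1) + iq ^ 2 * (D * (Wm * Mn) + D * (G0 * Nb) + 1) +
        (D * (Wm * Mn) + D * (G0 * Nb) + U) := by positivity
    linarith
  have hCC : 0 ≤ C₃ * q * G * I := by positivity
  calc C₃ * q * G * I * (((S D).card : ℝ) * (Wm * Mn + G0 * Nb) +
        Axb ^ 2 * RPl d0 K N₁ X2 1 (Real.exp h) 1 E0 + P ^ 3 * (P ^ 4)⁻¹)
      ≤ C₃ * q * G * I * ((100 + iq ^ 2 + 1) * (D * (Wm * Mn) + D * (G0 * Nb) + U + 1)) :=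
        mul_le_mul_of_nonneg_left s2 hCC
    _ = (C₃ * (C₁ * cc ^ 2) * (100 + iq ^ 2 + 1)) * (q * (q * q)) * I *
        (D * (Wm * Mn) + D * (G0 * Nb) + U + 1) := by rw [hG]; ring
    _ ≤ (C₁ + C₃ * (C₁ * cc ^ 2) * (100 + iq ^ 2 + 1)) * (q * (q * q)) * I *
        (D * (Wm * Mn) + D * (G0 * Nb) + U + 1) := by
        have b1 : 0 ≤ D * (Wm * Mn) + D * (G0 * Nb) + U + 1 := by positivity
        have b2 : C₃ * (C₁ * cc ^ 2) * (100 + iq ^ 2 + 1) ≤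
            C₁ + C₃ * (C₁ * cc ^ 2) * (100 + iq ^ 2 + 1) := by linarith
        gcongr

end Crest.Agent.R017.RLX241
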