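import Crest.Agent.R017.EtA_404
import Crest.Agent.R017.RCla_83

/-!
# Row 17, T.7, the number (Rl) of the exceptional class (helper502), part a: the blocks of `l`

* `blk`, `RL1_blk` : the blocks `m ≤ log (nm l) < m + 1`
* `radOK_blk` : their radicals
-/

set_option autoImplicit false
set_option linter.unusedVariables false

noncomputable section

open Complex
open scoped ComplexConjugate Classical

namespace Crest.Agent.R017.RLX502

open Crest.Agent.R012 Crest.Agent.R012.Eis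
open Crest.Agent.R012.LS2 (S mem_S)
open Crest.Agent.R012.Div277 (tau dvs mem_dvs)
open Crest.Agent.R017.LBx48 (REb REb_nonneg)
open Crest.Agent.R017.Et404 (Lset RL1 RLn)
open Crest.Agent.R017.CubP813 (rl rl_prim rl_sqf rl_dvd rl_dvd_iff)
open Crest.Agent.R017.RCl83 (RadOK)
open Crest.Agent.R017.MoCa83 (alr)

/-- one block -/
def blk (X : ℕ) (L b₀ K : ℝ) (m : ℕ) : Finset Eis :=
  (Lset X L b₀ K).filter (fun l => ⌊Real.log (nm l)⌋₊ = m)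

lemma blk_facts {X : ℕ} {L b₀ K : ℝ} {m : ℕ} {l : Eis} (h : l ∈ blk X L b₀ K m) :
    IsPrim l ∧ L < (nm l : ℝ) ∧ (nm l : ℝ) ^ 3 ≤ b₀ * K ∧ (1 : ℝ) ≤ nm l ∧
      (m : ℝ) ≤ Real.log (nm l) ∧ Real.log (nm l) < m + 1 := by
  unfold blk Et404.Lset at h
  rw [Finset.mem_filter, Finset.mem_filter, mem_primBall] at h
  obtain ⟨⟨⟨-, h1⟩, h2, h3⟩, h4⟩ := h
  have h5 : (1 : ℝ) ≤ nm l := by exact_mod_cast nm_pos.2 h1.ne_zero
  have h6 := Real.log_nonneg h5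
  refine ⟨h1, h2, h3, h5, ?_, ?_⟩
  · rw [← h4]; exact Nat.floor_le h6
  · rw [← h4]; exact Nat.lt_floor_add_one _

lemma dvd_rl_prime {l p : Eis} (hl : IsPrim l) (hp : Prime p) (hpl : p ∣ l) : p ∣ rl l := by
  have h1 : ¬ lam ∣ p := fun h => hl.not_lam_dvd (h.trans hpl)
  obtain ⟨y, hy, ha⟩ := exists_isPrim_associated h1
  have h2 : Crest.Agent.R012.Mob705.IsPP y := ⟨hy, ha.prime hp⟩
  have h3 := ((rl_dvd_iff hl.ne_zero).1 (dvd_refl (rl l))) y h2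
    (ha.dvd_iff_dvd_left.1 hpl)
  exact ha.dvd_iff_dvd_left.2 h3

lemma radOK_blk {X : ℕ} {L b₀ K T : ℝ} {m : ℕ} (hT : ∀ l ∈ blk X L b₀ K m, (nm l : ℝ) ≤ T) :
    RadOK T (blk X L b₀ K m) rl where
  prim l hl := (blk_facts hl).1
  le l hl := hT l hl
  rp l _ := rl_prim l
  rs l _ := rl_sqf l
  dvd l _ := rl_dvd l
  rad l hl p hp hpl := dvd_rl_prime (blk_facts hl).1 hp hpl

/-- the number of one block -/
def RLk (F : ℝ → ℂ) (K : ℝ) (Λ : Finset Eis) (α : Eis → ℂ) (D : ℝ) (I : ℕ) (E0 Z : ℝ) : ℝ :=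
  ∑ l ∈ Λ, (nm l : ℝ)⁻¹ * ∑ a ∈ dvs (rl l), REb (alr α a (rl l / a)) (K / (nm l : ℝ) ^ 3) F
    ((S D).filter (fun δ => rl l / a ∣ δ)) I E0 Z Z

/-- **the sum over the blocks** -/
lemma RL1_blk {F : ℝ → ℂ} {b₀ K L : ℝ} {X : ℕ} {α : Eis → ℂ} {D : ℝ} {I : ℕ} {E0 Z : ℝ} {N : ℕ}
    (hN : ∀ l ∈ Lset X L b₀ K, ⌊Real.log (nm l)⌋₊ < N) :
    RL1 F b₀ K L X α D I E0 Z = ∑ m ∈ Finset.range N, RLk F K (blk X L b₀ K m) α D I E0 Z := by
  unfold Et404.RL1 RLk blk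
  rw [Finset.sum_fiberwise_of_maps_to (g := fun l : Eis => ⌊Real.log (nm l)⌋₊)
    (fun l hl => Finset.mem_range.2 (hN l hl))]
  rfl

/-- the number of blocks -/
lemma blk_count {X : ℕ} {L b₀ K c : ℝ} (hK : 0 < K) (hb : 0 < b₀) (hc : Real.log (b₀ * K) ≤ c)
    (hc0 : 0 ≤ c) {N : ℕ} (hN : c / 3 < N) : ∀ l ∈ Lset X L b₀ K, ⌊Real.log (nm l)⌋₊ < N := by
  intro l hl
  unfold Et404.Lset at hl
  rw [Finset.mem_filter, mem_primBall] at hl
  obtain ⟨⟨-, h1⟩, h2, h3⟩ := hl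
  have h5 : (1 : ℝ) ≤ nm l := by exact_mod_cast nm_pos.2 h1.ne_zero
  have h6 := Real.log_nonneg h5
  have h7 : 3 * Real.log (nm l) ≤ Real.log (b₀ * K) := by
    have h8 : Real.log ((nm l : ℝ) ^ 3) ≤ Real.log (b₀ * K) := Real.log_le_log (by positivity) h3
    rw [Real.log_pow] at h8
    push_cast at h8
    exact h8
  have h9 : (⌊Real.log (nm l)⌋₊ : ℝ) < N := by
    have := Nat.floor_le h6
    linarith
  exact_mod_cast h9

end Crest.Agent.R017.RLX502
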