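import Crest.Agent.R017.PrG_502
import Crest.Agent.R017.RHXf_116
import Crest.Agent.R017.RClX5_791

/-!
# Row 17, T.7 (helper401, for helper502): the facts about the differences `xs` at the leaf

* `CtxX` : lengths, sizes, window, principal values of `xs` (and of the two lists)
* `ctxX` : they hold under the premises of `RLeafX`
-/

set_option autoImplicit false
set_option linter.unusedVariables false

noncomputable section

open Complex
open scoped ComplexConjugate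

namespace Crest.Agent.R017.RLXb401

open Crest.Agent.R012 Crest.Agent.R012.Eis
open Crest.Agent.R012.LS2 (S mem_S)
open Crest.Agent.R017.CM106 (CS FS)
open Crest.Agent.R017.B770
open Crest.Agent.R017.Prov71
open Crest.Agent.R017.FE47
open Crest.Agent.R017.Leg381 (Pf LF natl alF)
open Crest.Agent.R017.HP842 (sqc)
open Crest.Agent.R017.RG64 (SbL Ht RFacts LF_nonneg)
open Crest.Agent.R017.Sup271 (NPm)
open Crest.Agent.R017.XP699 (LL)
open Crest.Agent.R017.ExD791 (Tw)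
open Crest.Agent.R017.RXk848 (Lmp)
open Crest.Agent.R017.RX298 (xs zt norm_zt rp LF_rp rp_length XDp exists_XDp Mk Lg Lg2 SbL_rp)
open Crest.Agent.R017.PrD502 (PV pv_xs)
open Crest.Agent.R017.RClX791 (xd)

/-- the difference in helper791's form -/
lemma xs_xd (q : Eis) (z D0 : ℝ) (P : DPar) (h : ℝ → ℝ) (d : ℝ) (ps : List Pf) :
    xs q z D0 P h d ps = xd P h z D0 q ps (rp d ps) (zt d ps) := rfl

/-- **the facts about the differences at the leaf** -/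
structure CtxX (P : DPar) (h : ℝ → ℝ) (N : ℕ) (K c c₀ b d₀ B ε₁ ε₂ δ X Rw Cx Cp : ℝ) (q : Eis)
    (ps : List Pf) : Prop where
  len : ps.length ≤ N
  len' : (rp (d₀ * Real.log X) ps).length = ps.length
  LFe : LF (rp (d₀ * Real.log X) ps) = LF ps
  LF0 : 0 ≤ LF ps
  LFK : LF ps ≤ (K + 2 * c) * Real.log X
  n56 : 6 * LF ps ≤ (5 * K + 7 * c) * Real.log X
  z0 : ∀ x ∈ ps, 0 ≤ x.1.z
  z0' : ∀ x ∈ rp (d₀ * Real.log X) ps, 0 ≤ x.1.z
  zX : ∀ x ∈ ps, Real.exp x.1.z ≤ X ^ (2 * c₀ + 1)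
  zX' : ∀ x ∈ rp (d₀ * Real.log X) ps, Real.exp x.1.z ≤ X ^ (2 * c₀ + 1)
  D1 : 1 ≤ X ^ δ
  Dr : (X ^ δ) ^ ps.length ≤ X ^ (N * δ)
  q0 : q ≠ 0
  qX : (nm q : ℝ) ≤ X ^ c₀
  zt1 : ‖zt (d₀ * Real.log X) ps‖ ≤ 1
  tw : Tw (d₀ * Real.log X) (d₀ * Real.log X) (X ^ c₀) ps
  lg : Lg (d₀ * Real.log X) ps
  lg2 : Lg2 (d₀ * Real.log X) ps
  dc : d₀ * Real.log X ≤ (c₀ + 1) * Real.log X
  fs : FS (xs q (X ^ δ) (X ^ δ) P h (d₀ * Real.log X) ps)
  sqf : ∀ n, xs q (X ^ δ) (X ^ δ) P h (d₀ * Real.log X) ps n ≠ 0 → Squarefree n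
  sup : ∀ n, xs q (X ^ δ) (X ^ δ) P h (d₀ * Real.log X) ps n ≠ 0 → n ∈ S (X ^ b)
  win : ∀ n, xs q (X ^ δ) (X ^ δ) P h (d₀ * Real.log X) ps n ≠ 0 →
    |Real.log (nm n) - Real.log (Real.exp (LF ps))| ≤ Rw
  nrm : ∀ n, ‖xs q (X ^ δ) (X ^ δ) P h (d₀ * Real.log X) ps n‖ ≤ Cx * X ^ ε₁
  pv : PV (fun H => ∃ c, H = c ^ 3) 6
    (Cp * X ^ ε₂ * (X ^ δ) ^ 2 * Ht ps ^ 3 * Real.exp (LF ps)) (d₀ * Real.log X) (X ^ B)
    (xs q (X ^ δ) (X ^ δ) P h (d₀ * Real.log X) ps)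

lemma Tw_mk {d s M : ℝ} {ps : List Pf} (h : Tw d s M ps) : Mk M ps := by
  match ps, h with
  | p1 :: p2 :: l, h =>
    obtain ⟨⟨u1, u2⟩, ⟨k1, k2⟩, ⟨m1, m2⟩, -, -, -⟩ := h
    exact ⟨u1, u2, k1, k2, m1, m2⟩

lemma Tw_lg2 {d s M : ℝ} {ps : List Pf} (h : Tw d s M ps) : Lg2 s ps := by
  match ps, h with
  | p1 :: p2 :: l, h =>
    obtain ⟨-, -, -, ⟨y1, y2⟩, -, -⟩ := h
    exact ⟨y1, y2⟩

/-- the lumps of the replaced list -/
lemma rp_z0 {d s M : ℝ} (hd : 0 ≤ d) (hs : 0 ≤ s) {ps : List Pf} (h : Tw d s M ps)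
    (hz : ∀ x ∈ ps, 0 ≤ x.1.z) : ∀ x ∈ rp d ps, 0 ≤ x.1.z := by
  match ps, h, hz with
  | p1 :: p2 :: l, h, hz =>
    obtain ⟨-, -, -, -, y3, -⟩ := h
    intro x hx
    have hx' : x ∈ ({p1.1 with z := p1.1.z + p2.1.z - d}, p1.2) ::
      ({p2.1 with z := d}, p2.2) :: l := hx
    rcases List.mem_cons.1 hx' with rfl | hx'
    · show 0 ≤ p1.1.z + p2.1.z - d
      linarith
    rcases List.mem_cons.1 hx' with rfl | hx'
    · exact hd
    · exact hz x (List.mem_cons_of_mem _ (List.mem_cons_of_mem _ hx'))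

lemma rp_zle {d s M Z : ℝ} (hd : 0 ≤ d) (hds : d ≤ s) {ps : List Pf} (h : Tw d s M ps)
    (hz : ∀ x ∈ ps, 0 ≤ x.1.z) (hZ : ∀ x ∈ ps, x.1.z ≤ Z) : ∀ x ∈ rp d ps, x.1.z ≤ 2 * Z := by
  match ps, h, hz, hZ with
  | p1 :: p2 :: l, h, hz, hZ =>
    obtain ⟨-, -, -, ⟨y1, y2⟩, y3, -⟩ := h
    have b1 := hZ p1 List.mem_cons_self
    have b2 := hZ p2 (List.mem_cons_of_mem _ List.mem_cons_self)
    have a1 := hz p1 List.mem_cons_self
    intro x hx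
    have hx' : x ∈ ({p1.1 with z := p1.1.z + p2.1.z - d}, p1.2) ::
      ({p2.1 with z := d}, p2.2) :: l := hx
    rcases List.mem_cons.1 hx' with rfl | hx'
    · show p1.1.z + p2.1.z - d ≤ 2 * Z
      linarith
    rcases List.mem_cons.1 hx' with rfl | hx'
    · show d ≤ 2 * Z
      linarith
    · have := hZ x (List.mem_cons_of_mem _ (List.mem_cons_of_mem _ hx'))
      linarith

lemma z_le {s L : ℝ} {ps : List Pf} {ps₀ : List Pq} (hS : SbL s ps ps₀)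
    (hz : ∀ q ∈ ps₀, Dq.len q ≤ L) : ∀ p ∈ ps, p.1.z ≤ L + s := by
  unfold RG64.SbL at hS
  induction hS with
  | nil => intro p hp; simp at hp
  | @cons p p₀ ps ps₀ h1 _ ih =>
    intro p' hp'
    rcases List.mem_cons.1 hp' with rfl | hp'
    · have h2 := h1.2.2.2.2
      have h3 : p₀.z ≤ L := hz p₀ List.mem_cons_self
      linarith
    · exact ih (fun q hq => hz q (List.mem_cons_of_mem _ hq)) p' hp'

set_option maxHeartbeats 1000000 in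
/-- **the facts about the differences, under the premises of `RLeafX`** -/
theorem ctxX {h : ℝ → ℝ} {c₁ : ℝ} (hpu : PU h c₁) (N : ℕ) :
    ∃ Rw : ℝ, 0 ≤ Rw ∧ ∀ {b ε₁ : ℝ}, 0 < b → 0 < ε₁ → ∃ Cx : ℝ, 1 ≤ Cx ∧
    ∀ {B ε₂ : ℝ}, 0 ≤ B → 0 < ε₂ → ∃ Cp : ℝ, 1 ≤ Cp ∧
    ∀ (P : DPar), P.OK → (∀ k : Eis, k ≠ 0 → (∃ c, k = c ^ 3) → ¬ NPm P.n P.ψ P.l₂ k) →
    ∀ {K c c₀ d₀ S : ℝ}, 0 < c → 1 ≤ c₀ → 0 ≤ d₀ → 0 ≤ S → K + 2 * c + 1 ≤ b → 1 ≤ B → c₀ ≤ B →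
      K + 2 * c ≤ B → ∃ X₁ : ℝ, ∀ X : ℝ, 3 ≤ X → X₁ ≤ X → ∀ δ : ℝ, 0 ≤ δ →
    ∀ (ε : ℝ) (ps₀ : List Pq), ps₀.length ≤ N →
    (∀ q ∈ ps₀, 0 ≤ Dq.len q ∧ Dq.len q ≤ c₀ * Real.log X) → (∀ q ∈ ps₀, Dq.s2 q ≤ X ^ c₀) →
    Lmp ((d₀ + 3 / 2 * c) * Real.log X) ps₀ →
    ∀ (q : Eis) (ps : List Pf) (Lv : ℝ) (N₀ N₁ : ℕ), RFacts K c ε X ps₀ ps Lv N₀ N₁ →
    IsPrim q → (nm q : ℝ) ≤ X ^ c₀ → SbL S ps ps₀ →
    CtxX P h N K c c₀ b d₀ B ε₁ ε₂ δ X Rw Cx Cp q ps := by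
  obtain ⟨R, Ca, hR, hCa, hXD⟩ := exists_XDp hpu N
  refine ⟨R, hR, ?_⟩
  intro b ε₁ hb hε₁
  obtain ⟨C₄, hC₄, hnl⟩ := LBo813.norm_list_le hpu N (show (0 : ℝ) < ε₁ / b by positivity)
  refine ⟨2 * C₄, by linarith, ?_⟩
  intro B ε₂ hB hε₂
  obtain ⟨Cp, hCp, hpv⟩ := pv_xs hpu N hB hε₂
  refine ⟨Cp, hCp, ?_⟩
  intro P hP hnp K c c₀ d₀ S hc hc₀ hd₀ hS hKb hB1 hcB hKB
  obtain ⟨X₂, hTw⟩ := RHX116.tw_leaf (S := S) N hc hS
  refine ⟨max (max X₂ (nm P.n)) (max Ca (Real.exp (R + 2 * S))), ?_⟩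
  intro X hX3 hXX δ hδ ε ps₀ hlen hz hs2 hLm q ps Lv N₀ N₁ hF hq hqX hps
  have hX0 : 0 < X := by linarith
  have hX1 : 1 ≤ X := by linarith
  have hl1 : 1 ≤ Real.log X := by
    have h1 : Real.exp 1 ≤ X := by
      have := Real.exp_one_lt_d9
      linarith
    rw [← Real.log_exp 1]
    exact Real.log_le_log (Real.exp_pos _) h1
  have hl0 : 0 < Real.log X := by linarith
  have hX2 : X₂ ≤ X := (le_max_left _ _).trans ((le_max_left _ _).trans hXX)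
  have hXn : (nm P.n : ℝ) ≤ X := (le_max_right _ _).trans ((le_max_left _ _).trans hXX)
  have hXa : Ca ≤ X := (le_max_left _ _).trans ((le_max_right _ _).trans hXX)
  have hXe : Real.exp (R + 2 * S) ≤ X := (le_max_right _ _).trans ((le_max_right _ _).trans hXX)
  have hRS : R + 2 * S ≤ Real.log X := by
    rw [← Real.log_exp (R + 2 * S)]
    exact Real.log_le_log (Real.exp_pos _) hXe
  have hmono : ∀ {u v : ℝ}, u ≤ v → X ^ u ≤ X ^ v := fun huv =>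
    Real.rpow_le_rpow_of_exponent_le hX1 huv
  have hXr : ∀ a : ℝ, X ^ a = Real.exp (a * Real.log X) := fun a => by
    rw [Real.rpow_def_of_pos hX0]; congr 1; ring
  have hD : 0 ≤ d₀ * Real.log X := by positivity
  have htw := hTw X hX1 hX2 K ε d₀ c₀ hd₀ ps₀ hlen hs2 hLm ps Lv N₀ N₁ hF hps
  have hlen1 : ps.length ≤ N := by rw [hps.length]; exact hlen
  have hlenr : (rp (d₀ * Real.log X) ps).length ≤ N := by rw [rp_length]; exact hlen1
  have hz0 := hps.z_nonneg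
  have hLF0 : 0 ≤ LF ps := LF_nonneg hz0
  have hεc : ε * Real.log X ≤ c * Real.log X := mul_le_mul_of_nonneg_right hF.ec hl0.le
  have hLFK : LF ps ≤ (K + 2 * c) * Real.log X := by
    have h1 := hF.nK
    have h2 := hF.hi
    linarith
  have h56 : 6 * LF ps ≤ (5 * K + 7 * c) * Real.log X := by
    have h1 := hF.n56
    have h2 := hF.hi
    linarith
  have hzle : ∀ x ∈ ps, x.1.z ≤ c₀ * Real.log X + S := z_le hps fun q hq => (hz q hq).2
  have hzle' : ∀ x ∈ rp (d₀ * Real.log X) ps, x.1.z ≤ 2 * (c₀ * Real.log X + S) :=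
    rp_zle hD le_rfl htw hz0 hzle
  have hc₀l : 0 ≤ c₀ * Real.log X := by positivity
  have hdc : d₀ * Real.log X ≤ (c₀ + 1) * Real.log X := by
    match ps, htw, hzle with
    | p1 :: p2 :: l, h, hzle =>
      obtain ⟨-, -, -, ⟨y1, -⟩, -, -⟩ := h
      have := hzle p1 List.mem_cons_self
      linarith
  have hY1 : 1 ≤ X ^ b := Real.one_le_rpow hX1 hb.le
  have hY0 : (0 : ℝ) ≤ X ^ b := by linarith
  have hb1 : 1 ≤ b := by
    have h1 : 0 ≤ (K + 2 * c) * Real.log X := hLF0.trans hLFK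
    have h2 : 0 ≤ K + 2 * c := by
      by_contra hneg
      push Not at hneg
      have := mul_neg_of_neg_of_pos hneg hl0
      linarith
    linarith
  have hXb : X ≤ X ^ b := by
    calc X = X ^ (1 : ℝ) := (Real.rpow_one X).symm
      _ ≤ X ^ b := hmono hb1
  have hRY : Real.exp R * Real.exp (LF ps) ≤ X ^ b := by
    rw [← Real.exp_add, hXr]
    refine Real.exp_le_exp.2 ?_
    have h1 : (K + 2 * c + 1) * Real.log X ≤ b * Real.log X :=
      mul_le_mul_of_nonneg_right hKb hl0.le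
    linarith
  obtain ⟨a1, a2, -, hFS⟩ := hXD (X ^ δ) (X ^ δ) P hP q ps (rp (d₀ * Real.log X) ps)
    (zt (d₀ * Real.log X) ps) hlen1 hlenr (LF_rp _ _) (norm_zt _ ps).le (X ^ b)
    (hXa.trans hXb) hRY
  have hD1 : 1 ≤ X ^ δ := Real.one_le_rpow hX1 hδ
  have hXB : X ≤ X ^ B := by
    calc X = X ^ (1 : ℝ) := (Real.rpow_one X).symm
      _ ≤ X ^ B := hmono hB1
  refine
    { len := hlen1
      len' := rp_length _ _
      LFe := LF_rp _ _
      LF0 := hLF0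
      LFK := hLFK
      n56 := h56
      z0 := hz0
      z0' := rp_z0 hD hD htw hz0
      zX := ?_
      zX' := ?_
      D1 := hD1
      Dr := ?_
      q0 := hq.ne_zero
      qX := hqX
      zt1 := (norm_zt _ ps).le
      tw := htw
      lg := RHX116.Tw_lg hD htw
      lg2 := Tw_lg2 htw
      dc := hdc
      fs := hFS
      sqf := fun n hn => ((mem_S hY0).1 (a1 n hn)).2.2
      sup := a1
      win := a2
      nrm := ?_
      pv := ?_ }
  · intro x hx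
    rw [hXr]
    refine Real.exp_le_exp.2 ?_
    have := hzle x hx
    linarith
  · intro x hx
    rw [hXr]
    refine Real.exp_le_exp.2 ?_
    have := hzle' x hx
    linarith
  · rw [← Real.rpow_natCast, ← Real.rpow_mul hX0.le]
    refine hmono ?_
    rw [mul_comm]
    exact mul_le_mul_of_nonneg_right (by exact_mod_cast hlen1) hδ
  · intro n
    by_cases h0 : xs q (X ^ δ) (X ^ δ) P h (d₀ * Real.log X) ps n = 0
    · rw [h0, norm_zero]
      have : 0 ≤ 2 * C₄ := by linarith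
      positivity
    have hn := a1 n h0
    have h1 := hnl (X ^ δ) (X ^ δ) P hP q ps hlen1 (X ^ b) hY1 n hn
    have h1r := hnl (X ^ δ) (X ^ δ) P hP q (rp (d₀ * Real.log X) ps) hlenr (X ^ b) hY1 n hn
    have e1 : (X ^ b) ^ (ε₁ / b) = X ^ ε₁ := by
      rw [← Real.rpow_mul hX0.le]
      congr 1
      field_simp
    rw [e1] at h1 h1r
    unfold RX298.xs
    refine (norm_sub_le _ _).trans ?_
    rw [norm_mul, norm_zt, one_mul]
    linarith
  · exact hpv X hX3 P hP (hXn.trans hXB) hnp (X ^ δ) (X ^ δ) hD1 ps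
      ((Tw_mk htw).mono (hmono hcB)) hlen1 hz0
      (hLFK.trans (mul_le_mul_of_nonneg_right hKB hl0.le)) _ hD (Tw_lg2 htw) q hq.ne_zero
      (hqX.trans (hmono hcB))

end Crest.Agent.R017.RLXb401
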