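import Crest.Agent.R017.RLXa_502
import Crest.Agent.R017.RCXh_385
import Crest.Agent.R017.RClX6_791
import Crest.Agent.R017.LSL_241

/-!
# Row 17, T.7, the number (Rl) of the exceptional class (helper502), part c: the numbers of a block

* `pol_l` : the polar part of one `l`
* `num_Al` : the cells of a block
-/

set_option autoImplicit false
set_option linter.unusedVariables false
set_option maxHeartbeats 1000000

noncomputable section

namespace Crest.Agent.R017.RLX502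

open Crest.Agent.R017.NPy739 (opL opL_nonneg)
open Crest.Agent.R017.MTL537 (ML ML_nonneg)
open Crest.Agent.R017.RCX385

/-- **the polar part of one `l`** of the block `m` -/
theorem pol_l {K c X n Lv N₁ κ s s' B0 τ : ℝ} {m : ℕ} (hX : 3 ≤ X) (hc : 0 < c)
    (hK : 2000 * c ≤ K) (hs : 0 ≤ s) (hs' : 0 ≤ s') (hκ1 : 1 ≤ κ)
    (hκ : |Real.log κ - K * Real.log X| ≤ s) (hN₁ : 1 ≤ N₁)
    (hLN : Real.exp Lv ≤ N₁) (hNL : 9 * N₁ ≤ Real.exp (Lv + 4))
    (hv3 : 3 * Lv + 200 * c * Real.log X ≤ 2 * K * Real.log X)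
    (h56 : 6 * n ≤ (5 * K + 7 * c) * Real.log X)
    (hτ : 1 ≤ τ) (hτm : (m : ℝ) ≤ Real.log τ) (hB0 : 1 / 2 ≤ B0)
    (hb : 2 * (K * Real.log X - 3 * m) - Lv - n ≤ 3 * Real.log (2 * B0) + s') :
    X ^ (3 * c) * (τ⁻¹ * ((κ / τ ^ 3) ^ ((2 : ℝ) / 3) * Real.exp n ^ ((2 : ℝ) / 3) / B0 *
      ML (9 * (N₁ * (X ^ c * X ^ c) ^ 3)) (Real.exp n / B0))) ≤
      12 * Real.exp (11 * s + 2 * s' + 24) * (X ^ K * Real.exp n) := by
  have hX0 : 0 < X := by linarith
  have hX1 : 1 ≤ X := by linarith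
  have hl0 : 0 < Real.log X := Real.log_pos (by linarith)
  have hκ0 : 0 < κ := by linarith
  have hτ0 : 0 < τ := by linarith
  have hB00 : 0 < B0 := by linarith
  set L := Real.log X with hL
  have hcL : 0 ≤ c * L := by positivity
  have hKL : 2000 * (c * L) ≤ K * L := by
    have := mul_le_mul_of_nonneg_right hK hl0.le
    linarith
  have hv3' : 3 * Lv + 200 * (c * L) ≤ 2 * (K * L) := by linarith
  have h56' : 6 * n ≤ 5 * (K * L) + 7 * (c * L) := by linarith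
  rw [abs_le] at hκ
  obtain ⟨κ', hκe⟩ : ∃ a, κ = Real.exp a := ⟨Real.log κ, (Real.exp_log hκ0).symm⟩
  have hκ' : Real.log κ = κ' := by rw [hκe, Real.log_exp]
  rw [hκ'] at hκ
  obtain ⟨u, hue⟩ : ∃ a, τ = Real.exp a := ⟨Real.log τ, (Real.exp_log hτ0).symm⟩
  have hu' : Real.log τ = u := by rw [hue, Real.log_exp]
  rw [hu'] at hτm
  obtain ⟨b, hbe⟩ : ∃ a, 2 * B0 = Real.exp a :=
    ⟨Real.log (2 * B0), (Real.exp_log (by linarith)).symm⟩
  have hb' : Real.log (2 * B0) = b := by rw [hbe, Real.log_exp]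
  rw [hb'] at hb
  have hXr : ∀ a : ℝ, X ^ a = Real.exp (a * L) := fun a => by
    rw [Real.rpow_def_of_pos hX0]; congr 1; ring
  set C : ℝ := Real.exp (5 * s + s' + 12 + 7 * (c * L)) with hC
  have hN9 : (9 * N₁) ≤ Real.exp (Lv + 4) := hNL
  have key := LSL241.pts_nb (K := κ) (X := Real.exp n) (Z := 9 * N₁) (E := X ^ (6 * c)) (c := C)
    hκ1 (Real.exp_pos _) (by positivity) (Real.one_le_rpow hX1 (by positivity))
    (by rw [hC]; exact Real.one_le_exp (by positivity))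
    (by
      rw [hC, hκe, ← Real.exp_nat_mul, ← Real.exp_nat_mul, ← Real.exp_add]
      refine Real.exp_le_exp.2 ?_
      push_cast
      linarith)
    (by
      have h1 : (9 * N₁) ^ 3 ≤ Real.exp (Lv + 4) ^ 3 := by gcongr
      refine h1.trans ?_
      rw [hC, hκe, ← Real.exp_nat_mul, ← Real.exp_nat_mul, ← Real.exp_add]
      refine Real.exp_le_exp.2 ?_
      push_cast
      linarith)
    (W := τ⁻¹) (Kl := κ / τ ^ 3) (B0 := B0) (t := τ) hτ rfl (by positivity) le_rfl hB0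
    (by
      have h1 : Real.exp Lv * Real.exp n * (2 * B0) ^ 3 ≤ 9 * N₁ * Real.exp n * (2 * B0) ^ 3 := by
        have : Real.exp Lv ≤ 9 * N₁ := by linarith
        gcongr
      have h2 : (κ / τ ^ 3) ^ 2 ≤ C * (Real.exp Lv * Real.exp n * (2 * B0) ^ 3) := by
        rw [hC, hκe, hbe, hue, ← Real.exp_nat_mul, ← Real.exp_sub, ← Real.exp_nat_mul,
          ← Real.exp_nat_mul, ← Real.exp_add, ← Real.exp_add, ← Real.exp_add]
        refine Real.exp_le_exp.2 ?_
        push_cast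
        linarith
      refine h2.trans ?_
      exact mul_le_mul_of_nonneg_left h1 (Real.exp_pos _).le)
  have e1 : 9 * (N₁ * (X ^ c * X ^ c) ^ 3) = 9 * N₁ * X ^ (6 * c) := by
    have : (X ^ c * X ^ c) ^ 3 = X ^ (6 * c) := by
      rw [hXr, hXr, ← Real.exp_add, ← Real.exp_nat_mul]
      congr 1
      push_cast
      ring
    rw [this]; ring
  rw [e1]
  calc X ^ (3 * c) * (τ⁻¹ * ((κ / τ ^ 3) ^ ((2 : ℝ) / 3) * Real.exp n ^ ((2 : ℝ) / 3) / B0 *
        ML (9 * N₁ * X ^ (6 * c)) (Real.exp n / B0)))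
      ≤ X ^ (3 * c) * (12 * (κ * Real.exp n * (κ ^ (-(1 / 36) : ℝ) * X ^ (6 * c) * C ^ 2))) :=
        mul_le_mul_of_nonneg_left key (by positivity)
    _ = 12 * Real.exp (3 * c * L + (κ' + n + (κ' * (-(1 / 36)) + 6 * c * L +
          (2 * (5 * s + s' + 12 + 7 * (c * L)))))) := by
        rw [hXr, hXr, hκe, hC, ← Real.exp_mul, ← Real.exp_nat_mul]
        rw [Real.exp_add (3 * c * L), Real.exp_add (κ' + n), Real.exp_add κ',
          Real.exp_add (κ' * (-(1 / 36)) + 6 * c * L), Real.exp_add (κ' * (-(1 / 36)))]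
        push_cast
        ring
    _ ≤ 12 * Real.exp ((11 * s + 2 * s' + 24) + (K * L + n)) := by
        refine mul_le_mul_of_nonneg_left (Real.exp_le_exp.2 ?_) (by norm_num)
        linarith
    _ = _ := by
        rw [hXr, Real.exp_add (11 * s + 2 * s' + 24), Real.exp_add (K * L)]
        ring

/-- **the cells of a block**: `κ = K log X - 3 m`, the weight `exp (- m)`, the bound of the lines
`Bb = Bd * exp (4 m)` -/
lemma num_Al {X c K ε δ e₀ Cr cA T n Bd Hq W B₁ ε₁ m : ℝ} {r Nl : ℕ} (hX : 3 ≤ X) (hε : 0 < ε)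
    (hδ : 0 ≤ δ) (hδε : δ * (100 * (Nl + 1)) ≤ ε) (hr : r ≤ Nl) (hc : 0 < c) (hCr : 0 ≤ Cr)
    (hcA : 0 ≤ cA) (hT : 0 ≤ T) (hBd : 0 ≤ Bd) (hHq : 1 ≤ Hq) (hW : 0 ≤ W)
    (hB : B₁ * (2 * ε₁) ≤ ε / 20) :
    X ^ (2 * c) * (X ^ c * (Real.exp (-m) * (Cr * cA * (X ^ B₁) ^ (2 * ε₁) * T * opL r (X ^ δ) *
      (Bd * Real.exp (4 * m) * Real.exp (2 * e₀) *
        Real.exp (n + (K * Real.log X - 3 * m) + 5 * (c * Real.log X) + 3 * e₀))))) ≤
      (Cr * cA * 100 ^ (2 * Nl) * Real.exp (5 * e₀)) *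
        (X ^ (ε / 2) * (T * Hq * (X ^ K * Real.exp n) * (W + X ^ (9 * c) * Bd))) := by
  have key := num_A (X := X) (c := c) (K := K) (ε := ε) (δ := δ) (e₀ := e₀) (Cr := Cr / 4)
    (cA := cA) (T := T) (n := n) (Bd := Bd) (Hq := Hq) (W := W) (B₁ := B₁) (ε₁ := ε₁) (r := r)
    (Nl := Nl) hX hε hδ hδε hr hc (by linarith) hcA hT hBd hHq hW hB
  have e1 : Real.exp (-m) * (Real.exp (4 * m) *
      Real.exp (n + (K * Real.log X - 3 * m) + 5 * (c * Real.log X) + 3 * e₀)) =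
      Real.exp (n + K * Real.log X + 5 * (c * Real.log X) + 3 * e₀) := by
    rw [← Real.exp_add, ← Real.exp_add]
    congr 1
    ring
  have e2 : 4 * (Cr / 4) = Cr := by ring
  rw [e2] at key
  refine le_trans (le_of_eq ?_) key
  rw [← e1]
  ring

end Crest.Agent.R017.RLX502
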