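import Crest.Agent.R017.RLXc_502

/-!
# Row 17, T.7, the number (Rl) of the exceptional class (helper502), part d: the sum over the blocks

* `rln_le` : helper404's `RLn` from the blocks
-/

set_option autoImplicit false
set_option linter.unusedVariables false

noncomputable section

namespace Crest.Agent.R017.RLX502

open Crest.Agent.R012 Crest.Agent.R012.Eis
open Crest.Agent.R017.E2440
open Crest.Agent.R017.Et404 (Lset RL1 RLn)
open Crest.Agent.R017.X6C180 (GF)
open Crest.Agent.R017.WDec180 (WD sc)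
open Crest.Agent.R017.RCX385 (log_sc)

/-- the number of blocks -/
def nbk (K M X : ℝ) (N : ℕ) : ℕ := ⌊(2 + (K * Real.log X + (M + N))) / 3⌋₊ + 1

lemma nbk_le {K M X ε : ℝ} {N : ℕ} (hX : 3 ≤ X) (hε : 0 < ε) (hK : 0 ≤ K) (hM : 0 ≤ M) :
    (nbk K M X N : ℝ) ≤ (3 + M + N + K * ε⁻¹) * X ^ ε := by
  have hX0 : 0 < X := by linarith
  have hl : 0 < Real.log X := Real.log_pos (by linarith)
  have hN : (0 : ℝ) ≤ N := Nat.cast_nonneg _
  have hKL : 0 ≤ K * Real.log X := by positivity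
  have h1 : (nbk K M X N : ℝ) ≤ (2 + (K * Real.log X + (M + N))) / 3 + 1 := by
    unfold nbk
    push_cast
    have := Nat.floor_le (show 0 ≤ (2 + (K * Real.log X + (M + N))) / 3 by positivity)
    linarith
  have h2 : Real.log X ≤ ε⁻¹ * X ^ ε := by
    have := Real.log_le_rpow_div hX0.le hε
    rwa [div_eq_inv_mul] at this
  have h3 : 1 ≤ X ^ ε := Real.one_le_rpow (by linarith) hε.le
  have h4 : K * Real.log X ≤ K * (ε⁻¹ * X ^ ε) := mul_le_mul_of_nonneg_left h2 hK
  have h5 : (3 + M + N) * 1 ≤ (3 + M + N) * X ^ ε :=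
    mul_le_mul_of_nonneg_left h3 (by positivity)
  have h6 : 0 ≤ K * (ε⁻¹ * X ^ ε) := by positivity
  nlinarith

/-- **the sum over the blocks** -/
theorem rln_le {N : ℕ} {F : ℕ → ℝ → ℂ} {h M K L X : ℝ} (hX : 3 ≤ X) (hM : 0 ≤ M) (hK : 0 ≤ K)
    {X₀ : ℕ} {α : Eis → ℂ} {D : ℝ} {I : ℕ} {E0 Z Θ B : ℝ} (hΘ : 0 ≤ Θ)
    (H : ∀ i < N, ∀ m < nbk K M X N, Θ * RLk (GF (Fh (F i) h)) (sc (X ^ K) M i)
      (blk X₀ L (Real.exp 2) (sc (X ^ K) M i) m) α D I E0 Z ≤ B) :
    Θ * RLn N F h M (X ^ K) L X₀ α D I E0 Z ≤ N * (nbk K M X N * B) := by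
  have hX0 : 0 < X := by linarith
  unfold Et404.RLn
  rw [Finset.mul_sum]
  have h1 : ∀ i ∈ Finset.range N, Θ * RL1 (GF (Fh (F i) h)) (Real.exp 2) (sc (X ^ K) M i) L X₀ α D
      I E0 Z ≤ nbk K M X N * B := by
    intro i hi
    rw [Finset.mem_range] at hi
    have hsc : 0 < sc (X ^ K) M i := WDec180.sc_pos (by positivity) M i
    have hl := abs_le.1 (log_sc (K := K) hM hX hi)
    have hNn : (0 : ℝ) ≤ N := Nat.cast_nonneg _
    have hKL : 0 ≤ K * Real.log X := mul_nonneg hK (Real.log_nonneg (by linarith))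
    have hcount := blk_count (X := X₀) (L := L) (b₀ := Real.exp 2) (K := sc (X ^ K) M i)
      (c := 2 + (K * Real.log X + (M + N))) hsc (Real.exp_pos _) (by
        rw [Real.log_mul (Real.exp_pos _).ne' hsc.ne', Real.log_exp]
        linarith [hl.2]) (by positivity) (N := nbk K M X N) (by
        unfold nbk
        push_cast
        exact Nat.lt_floor_add_one _)
    rw [RL1_blk hcount, Finset.mul_sum]
    refine (Finset.sum_le_sum fun m hm => H i hi m (Finset.mem_range.1 hm)).trans (le_of_eq ?_)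
    rw [Finset.sum_const, Finset.card_range, nsmul_eq_mul]
  refine (Finset.sum_le_sum h1).trans (le_of_eq ?_)
  rw [Finset.sum_const, Finset.card_range, nsmul_eq_mul]

end Crest.Agent.R017.RLX502
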