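import Crest.Agent.R017.RLXd_502
import Crest.Agent.R017.RLX_241
import Crest.Agent.R017.RClX7_791

/-!
# Row 17, T.7, the number (Rl) of the exceptional class (helper502), part e: one block

* `rlk_key` : the R-number of one block, all sizes powers of `X` : the four terms
-/

set_option autoImplicit false
set_option linter.unusedVariables false
set_option maxHeartbeats 1000000

noncomputable section

open Complex
open scoped ComplexConjugate

namespace Crest.Agent.R017.RLX502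

open Crest.Agent.R012 Crest.Agent.R012.Eis
open Crest.Agent.R012.T411 (NCube)
open Crest.Agent.R012.LS2 (S mem_S)
open Crest.Agent.R012.Mob705 (pdiv mem_pdiv)
open Crest.Agent.R012.Div277 (tau dvs mem_dvs)
open Crest.Agent.R017.CM106 (sub CS FS)
open Crest.Agent.R017.MoL106 (kw kw_ne)
open Crest.Agent.R017.E2440
open Crest.Agent.R017.B770
open Crest.Agent.R017.Prov71
open Crest.Agent.R017.FE47 (cx PU)
open Crest.Agent.R017.HP842 (pc sqc)
open Crest.Agent.R017.Leg381 (alf alF Pf LF LF_get)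
open Crest.Agent.R017.Win813 (WK iA iA_nonneg ew ew_nonneg)
open Crest.Agent.R017.RGw813 (T9)
open Crest.Agent.R017.RC106 (Env jmL)
open Crest.Agent.R017.QsJ401 (Sz PLnF Tb jmL_RR)
open Crest.Agent.R017.NPy739 (opL opL_nonneg)
open Crest.Agent.R017.RQd385 (PM2Q PM2Q_mono)
open Crest.Agent.R017.X6C180 (GF)
open Crest.Agent.R017.WDec180 (WD sc)
open Crest.Agent.R017.LBx48 (REb neb)
open Crest.Agent.R017.QsO83 (bw FS_bw)
open Crest.Agent.R017.Sup271 (NPm)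
open Crest.Agent.R017.RG64
open Crest.Agent.R017.RX298 (xs zt norm_zt rp LF_rp rp_length Mk Lg2)
open Crest.Agent.R017.PrD502 (PV xs_facts pv_xs)
open Crest.Agent.R017.RCX385

open Crest.Agent.R017.CubP813 (rl rl_prim)
open Crest.Agent.R017.RCl83 (RadOK)
open Crest.Agent.R017.MoCa83 (alr)
open Crest.Agent.R017.RClX791 (MnB MnB_nonneg cells_xsL B0X B0X_half exp_le_B0X)
open Crest.Agent.R017.RLX241 (rebL_x)
open Crest.Agent.R017.PrI176 (RPl RPl_nonneg)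

/-- the end of `rlk_key` -/
lemma key_finL {RR C1 e p3 p1 I Xe A D B Ax2 y pw U : ℝ} (hC : 0 ≤ C1) (he : 0 ≤ e) (hp3 : 0 ≤ p3)
    (hp1 : 0 ≤ p1) (hI : I ≤ (1 + 2 * e) * p1) (hI0 : 0 ≤ I) (hP : p3 * p1 ≤ Xe) (hA : 0 ≤ A)
    (hD : 0 ≤ D) (hB : 0 ≤ B) (hY : Ax2 ≤ y) (hAx : 0 ≤ Ax2) (hpw : 0 ≤ pw) (hU : 0 ≤ U)
    (h : RR ≤ C1 * p3 * I * (A + D * (B * Ax2 * pw) + U + 1)) :
    RR ≤ C1 * (1 + 2 * e) * Xe * (A + D * (B * y * pw) + U + 1) :=
  key_fin hC he hp3 hp1 hI hI0 hP hA hD hB hY hpw hU h hAx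

set_option maxHeartbeats 4000000 in
open Classical in
/-- **the R-number of one block**, one piece, all sizes powers of `X` : the four terms -/
theorem rlk_key {h : ℝ → ℝ} {c₁ : ℝ} (hpu : PU h c₁) {w : ℝ → ℝ} {N : ℕ} {M : ℝ} {F : ℕ → ℝ → ℂ}
    (hWD : WD w N M F) {PP : DPar} (hP : PP.OK)
    (hnp : ∀ k : Eis, k ≠ 0 → (∃ c, k = c ^ 3) → ¬ NPm PP.n PP.ψ PP.l₂ k) (Nl : ℕ)
    {K c d₀ c₀ μ ε : ℝ} (hc : 0 < c) (hK : 2000 * c ≤ K) (hd₀ : 0 ≤ d₀) (hc₀ : 1 ≤ c₀)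
    (hμ : 0 ≤ μ) (hε : 0 < ε) (hεc : ε ≤ c) (Jn Aw : ℕ) (hJn : 2 * (Nl * μ) + 12 ≤ Jn)
    (hAw : Jn + 2 ≤ Aw) {Cw R η : ℝ} (hCw : 0 ≤ Cw) (hR : 0 ≤ R) (hη : 0 < η) (hη1 : η ≤ 1 / 2) :
    ∃ Cr e₀ C1 Cp cY B₁ ε₁ G : ℝ, 1 ≤ Cr ∧ M + N + R + 14 ≤ e₀ ∧ 0 ≤ C1 ∧ 0 ≤ Cp ∧ 0 ≤ cY ∧
      B₁ * (2 * ε₁) ≤ ε / 20 ∧ Real.exp (20 * e₀) ≤ G ∧ ∀ X : ℝ, 3 ≤ X → G ≤ X ^ c →
      ∀ δ : ℝ, 0 ≤ δ → δ * (100 * (Nl + 1)) ≤ ε → ∀ (ps : List Pf) (q : Eis) (Lv N₁ : ℝ),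
      ps.length ≤ Nl → (∀ x ∈ ps, 0 ≤ x.1.z) → Mk (X ^ c₀) ps → Lg2 (d₀ * Real.log X) ps →
      LF ps ≤ (K + 2 * c) * Real.log X → 6 * LF ps ≤ (5 * K + 7 * c) * Real.log X → 0 ≤ Lv →
      3 * Lv + 200 * c * Real.log X ≤ 2 * K * Real.log X → Real.exp Lv ≤ N₁ →
      9 * N₁ ≤ Real.exp (Lv + 4) → IsPrim q → (nm q : ℝ) ≤ X ^ c₀ → ∀ Bd : ℝ, 0 ≤ Bd →
      ∀ (m X₀ : ℕ) (Ll : ℝ), (m : ℝ) ≤ (2 + (K * Real.log X + (M + N))) / 3 →
      (∀ t₁ : ℝ, 0 ≤ t₁ → t₁ ≤ m → PLnF (PM2Q NCube PP h) μ Cr (fun i => (ps.get i).1) (LF ps)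
        (K * Real.log X - 3 * t₁) Lv (17 * (c * Real.log X) + 10 * e₀) (2 * e₀)
        (Bd * Real.exp (4 * t₁))) →
      (∀ t₁ : ℝ, 0 ≤ t₁ → t₁ ≤ m → PLnF (PM2Q NCube PP h) μ Cr
        (fun i => ((rp (d₀ * Real.log X) ps).get i).1) (LF ps)
        (K * Real.log X - 3 * t₁) Lv (17 * (c * Real.log X) + 10 * e₀) (2 * e₀)
        (Bd * Real.exp (4 * t₁))) →
      ∀ a ∈ T9, ∀ (t X' : ℝ) (φ : ℝ → ℝ), 0 < X' → |Real.log X' - LF ps| ≤ R + 1 →
      WK Cw η Aw φ → (∀ u, φ u ≠ 0 → |u - Real.log X'| ≤ η / 2) → ∀ I : ℕ,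
      (2 : ℝ) ^ I ≤ 2 * N₁ → ∀ i < N,
      RLk (GF (Fh (F i) (7 * (c * Real.log X)))) (sc (X ^ K) M i)
        (blk X₀ Ll (Real.exp 2) (sc (X ^ K) M i) m)
        (bw φ a t (xs q (X ^ δ) (X ^ δ) PP h (d₀ * Real.log X) ps)) (X ^ c) I (X ^ c) N₁ ≤
      C1 * X ^ (ε / 2) * (X ^ c * (Real.exp (-m) * (Cr * (Cw ^ 2 * iA Jn * (η * (η ^ Jn)⁻¹)) *
          (X ^ B₁) ^ (2 * ε₁) * (1 + |t|) ^ Jn * opL ps.length (X ^ δ) *
          (Bd * Real.exp (4 * m) * Real.exp (2 * e₀) *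
            Real.exp (LF ps + (K * Real.log X - 3 * m) + 5 * (c * Real.log X) + 3 * e₀)))) +
        X ^ c * (Cw ^ 2 * (η⁻¹) ^ Jn * (1 + |t|) ^ Jn * (cY * X ^ (ε / 20)) *
          (12 * Real.exp (11 * (M + N) + 30) * (X ^ K * Real.exp (LF ps)) * X ^ (-(3 * c)))) +
        (Cw * (η⁻¹) ^ 6 * (1 + |t|) ^ 6 *
          (Cp * X ^ (ε / 100) * (X ^ δ) ^ 2 * Ht ps ^ 3 * Real.exp (LF ps))) ^ 2 *
          RPl (d₀ * Real.log X) (sc (X ^ K) M i) N₁ (X' * Real.exp (η / 2)) (nm (kw a))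
            (Real.exp (7 * (c * Real.log X))) 1 (X ^ c) + 1) := by
  have hK0 : 0 < K := by linarith
  have hM := hWD.M0
  set εr : ℝ := ε / (200 * (K + 1)) with hεr
  have hεr0 : 0 < εr := by positivity
  set B₁ : ℝ := 10 * K + c₀ + 1 with hB₁
  have hB₁0 : 0 < B₁ := by positivity
  set ε₁ : ℝ := ε / (40 * B₁) with hε₁
  have hε₁0 : 0 < ε₁ := by positivity
  set ε₂ : ℝ := ε / (100 * (K + 1)) with hε₂
  have hε₂0 : 0 < ε₂ := by positivity
  have hεrK : εr * (200 * (K + 1)) = ε := by rw [hεr]; field_simp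
  have hε₂K : ε₂ * (100 * (K + 1)) = ε := by rw [hε₂]; field_simp
  have hε₁B : B₁ * (2 * ε₁) = ε / 20 := by rw [hε₁]; field_simp; ring
  have hε₂1 : ε₂ ≤ 1 := by nlinarith
  have hεrK1 : εr * K ≤ ε := by
    have h0 : εr * (200 * (K + 1)) = 200 * (εr * K) + 200 * εr := by ring
    have h1 : 0 ≤ εr * K := by positivity
    linarith
  obtain ⟨R₁, Ca, hR₁, hCa, HX⟩ := xs_facts hpu Nl hε₂0
  obtain ⟨b, C1, hC1, H1⟩ := rebL_x hWD hεr0 hR₁ 1 Jn Aw (by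
    have h0 : (0 : ℝ) ≤ Nl * μ := by positivity
    have h1 : (12 : ℝ) ≤ Jn := by linarith
    exact_mod_cast h1) hAw
  set B : ℝ := 3 * K * b + K + 2 * c + c₀ + 2 with hB
  have hb0 : (0 : ℝ) ≤ b := Nat.cast_nonneg _
  have hKb : 0 ≤ 3 * K * b := by positivity
  obtain ⟨Cp, hCp, HPV⟩ := pv_xs hpu Nl (B := B) (by linarith) (show 0 < ε / 100 by linarith)
  obtain ⟨Cr, hCr, HC⟩ := cells_xsL hpu hμ Nl hεr0 hε₁0
  have hiA := iA_nonneg Aw
  have hNw : (0 : ℝ) ≤ N := Nat.cast_nonneg _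
  set e₀ : ℝ := Cr + |RC106.k9| + R + M + N + 14 with he₀
  have hk9 : RC106.k9 ≤ |RC106.k9| := le_abs_self _
  have hk90 := abs_nonneg RC106.k9
  have hnn : (0 : ℝ) ≤ nm PP.n := Nat.cast_nonneg _
  set G : ℝ := Real.exp (20 * e₀) + Cw * iA Aw * (Ca * (Ca * Real.exp R₁)) + C1 +
    nm PP.n with hG
  have hG1 : 0 ≤ Cw * iA Aw * (Ca * (Ca * Real.exp R₁)) := by positivity
  have hG2 : 1 ≤ Real.exp (20 * e₀) := Real.one_le_exp (by linarith)
  set cA : ℝ := Cw ^ 2 * iA Jn * (η * (η ^ Jn)⁻¹) with hcA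
  have hiJ := iA_nonneg Jn
  have hcA0 : 0 ≤ cA := by positivity
  set cY : ℝ := (Ca * (Ca * Real.exp R₁)) ^ 2 with hcY
  refine ⟨Cr, e₀, C1 * (1 + 2 * εr⁻¹), Cp, cY, B₁, ε₁, G, hCr, by linarith, by positivity,
    by linarith, sq_nonneg _, hε₁B.le, by linarith, ?_⟩
  intro X hX hGX δ hδ hδε ps q Lv N₁ hlen hz hMk hLg hn1 hn2 hLv hv3 hN hNL hq hqX Bd hBd m X₀ Ll
    hm hln hln' a ha t X' φ hX' hXn hφ hφw I hI i hi
  have hX0 : 0 < X := by linarith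
  have hX1 : 1 ≤ X := by linarith
  have hl : 0 < Real.log X := Real.log_pos (by linarith)
  have hXr : ∀ u : ℝ, X ^ u = Real.exp (u * Real.log X) := fun u => by
    rw [Real.rpow_def_of_pos hX0]; congr 1; ring
  have hle : ∀ {u v : ℝ}, u ≤ v → X ^ u ≤ X ^ v := fun huv =>
    Real.rpow_le_rpow_of_exponent_le hX1 huv
  have hadd : ∀ u v : ℝ, X ^ u * X ^ v = X ^ (u + v) := fun u v => (Real.rpow_add hX0 u v).symm
  have hGe : Real.exp (20 * e₀) ≤ X ^ c := by linarith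
  have hLe : 20 * e₀ ≤ c * Real.log X := by
    rw [hXr] at hGe
    exact Real.exp_le_exp.1 hGe
  have hcL : 0 < c * Real.log X := by positivity
  have hKL : 2000 * (c * Real.log X) ≤ K * Real.log X := by
    have := mul_le_mul_of_nonneg_right hK hl.le
    linarith
  have hn0 : 0 ≤ LF ps := LF_nonneg hz
  have hn1' : LF ps ≤ K * Real.log X + 2 * (c * Real.log X) := by linarith
  have hn2' : 6 * LF ps ≤ 5 * (K * Real.log X) + 7 * (c * Real.log X) := by linarith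
  have hv3' : 3 * Lv + 200 * (c * Real.log X) ≤ 2 * (K * Real.log X) := by linarith
  set n : ℝ := LF ps with hn
  have hen : Real.exp n ≤ X ^ (K + 2 * c) := by
    rw [hXr]
    exact Real.exp_le_exp.2 hn1
  have hN₁ : 1 ≤ N₁ := by linarith [Real.one_le_exp hLv]
  have hXδ : 1 ≤ X ^ δ := Real.one_le_rpow hX1 hδ
  set P : ℝ := X ^ (3 * K) with hPd
  have hP1 : 1 ≤ P := Real.one_le_rpow hX1 (by positivity)
  have hP0 : 0 < P := by linarith
  have hlP : Real.log P = 3 * K * Real.log X := by rw [hPd, Real.log_rpow hX0]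
  set x : Eis → ℂ := xs q (X ^ δ) (X ^ δ) PP h (d₀ * Real.log X) ps with hx
  set Y : ℝ := Ca * (Real.exp R₁ * Real.exp n) with hY
  have hY1 : 1 ≤ Real.exp R₁ * Real.exp n :=
    one_le_mul_of_one_le_of_one_le (Real.one_le_exp hR₁) (Real.one_le_exp hn0)
  have hCaY : Ca ≤ Y := le_mul_of_one_le_right (by linarith) hY1
  have hYY : Real.exp R₁ * Real.exp n ≤ Y := le_mul_of_one_le_left (by linarith) hCa
  have hY1' : 1 ≤ Y := by linarith
  obtain ⟨f1, f2, f3, f4⟩ := HX PP hP q (X ^ δ) (X ^ δ) (d₀ * Real.log X) ps hlen Y hCaY hYY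
  have hPV := HPV X hX PP hP (by
    refine le_trans (by linarith : (nm PP.n : ℝ) ≤ X ^ c) (hle (by linarith))) hnp (X ^ δ) (X ^ δ)
    hXδ ps (hMk.mono (hle (by linarith))) hlen hz (by
      have : (K + 2 * c) * Real.log X ≤ B * Real.log X :=
        mul_le_mul_of_nonneg_right (by linarith) hl.le
      linarith) (d₀ * Real.log X) (by positivity) hLg q hq.ne_zero
    (hqX.trans (hle (by linarith)))
  have hκ0 : 0 < sc (X ^ K) M i := WDec180.sc_pos (by positivity) M i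
  have hlκ := log_sc (K := K) hM hX hi
  have hlκ2 := abs_le.1 hlκ
  have hXn2 := abs_le.1 hXn
  have hlX2 := log_X2 hX' hη hη1 hXn
  have hlX2' := abs_le.1 hlX2
  have hnP : Real.exp n ≤ P := hen.trans (hle (by linarith))
  have h2X' : 2 * X' ≤ P := by
    rw [← Real.log_le_log_iff (by positivity) hP0, hlP, Real.log_mul (by norm_num) hX'.ne']
    have := Real.log_two_lt_d9
    linarith
  have hP9 : 9 * (N₁ * (X ^ c * X ^ c) ^ 3) ≤ P := by
    have e1 : (X ^ c * X ^ c) ^ 3 = Real.exp (6 * (c * Real.log X)) := by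
      rw [hXr, ← Real.exp_add, ← Real.exp_nat_mul]
      congr 1
      push_cast
      ring
    have e2 : P = Real.exp (3 * (K * Real.log X)) := by
      rw [hPd, hXr]; congr 1; ring
    rw [e1, e2]
    calc 9 * (N₁ * Real.exp (6 * (c * Real.log X)))
        = (9 * N₁) * Real.exp (6 * (c * Real.log X)) := by ring
      _ ≤ Real.exp (Lv + 4) * Real.exp (6 * (c * Real.log X)) := by gcongr
      _ = Real.exp (Lv + 4 + 6 * (c * Real.log X)) := by rw [← Real.exp_add]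
      _ ≤ _ := Real.exp_le_exp.2 (by linarith)
  have hhP : Real.exp (7 * (c * Real.log X)) ≤ P := by
    rw [← Real.log_le_log_iff (Real.exp_pos _) hP0, hlP, Real.log_exp]; linarith
  have hAxP : Cw * iA Aw * (Ca * Y ^ ε₂) ≤ P ^ 1 := by
    have h1 : Y ^ ε₂ ≤ Y := by
      calc Y ^ ε₂ ≤ Y ^ (1 : ℝ) := Real.rpow_le_rpow_of_exponent_le hY1' hε₂1
        _ = Y := Real.rpow_one Y
    rw [pow_one]
    calc Cw * iA Aw * (Ca * Y ^ ε₂) ≤ Cw * iA Aw * (Ca * Y) := by gcongr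
      _ = Cw * iA Aw * (Ca * (Ca * Real.exp R₁)) * Real.exp n := by rw [hY]; ring
      _ ≤ X ^ c * X ^ (K + 2 * c) := by
          have : Cw * iA Aw * (Ca * (Ca * Real.exp R₁)) ≤ X ^ c := by linarith
          gcongr
      _ = X ^ (c + (K + 2 * c)) := hadd _ _
      _ ≤ P := hle (by linarith)
  have hZp : C1 * P ^ b ≤ X ^ B := by
    have e1 : P ^ b = X ^ (3 * K * b) := by
      rw [hPd, ← Real.rpow_natCast, ← Real.rpow_mul hX0.le]
    have h1 : C1 ≤ X ^ c := by linarith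
    calc C1 * P ^ b = C1 * X ^ (3 * K * b) := by rw [e1]
      _ ≤ X ^ c * X ^ (3 * K * b) := by gcongr
      _ = X ^ (c + 3 * K * b) := hadd _ _
      _ ≤ X ^ B := hle (by linarith)
  have hop := opL_nonneg ps.length (show (0 : ℝ) ≤ X ^ δ by linarith)
  -- the block
  obtain ⟨κ, hκ⟩ : ∃ κ : ℝ, κ = sc (X ^ K) M i := ⟨_, rfl⟩
  rw [← hκ] at hκ0 hlκ2 hlκ ⊢
  obtain ⟨Λ, hΛ⟩ : ∃ Λ : Finset Eis, Λ = blk X₀ Ll (Real.exp 2) κ m := ⟨_, rfl⟩
  rw [← hΛ]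
  have hfac : ∀ l ∈ Λ, IsPrim l ∧ (nm l : ℝ) ^ 3 ≤ Real.exp 2 * κ ∧ (1 : ℝ) ≤ nm l ∧
      (m : ℝ) ≤ Real.log (nm l) ∧ Real.log (nm l) < m + 1 := by
    intro l hl
    rw [hΛ] at hl
    obtain ⟨h1, -, h2, h3, h4, h5⟩ := blk_facts hl
    exact ⟨h1, h2, h3, h4, h5⟩
  have h2κP : Real.exp 2 * κ ≤ P := by
    rw [← Real.log_le_log_iff (by positivity) hP0, hlP,
      Real.log_mul (Real.exp_pos _).ne' hκ0.ne', Real.log_exp]
    linarith [hlκ2.2]
  have hnmP : ∀ l ∈ Λ, (nm l : ℝ) ≤ P := by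
    intro l hl
    obtain ⟨-, h2, h3, -, -⟩ := hfac l hl
    exact (le_self_pow₀ h3 (by norm_num)).trans (h2.trans h2κP)
  have hRad : RadOK P Λ rl := by
    rw [hΛ]
    rw [hΛ] at hnmP
    exact radOK_blk hnmP
  have hlm : ∀ l ∈ Λ, Real.log (κ / (nm l : ℝ) ^ 3) = Real.log κ - 3 * Real.log (nm l) := by
    intro l hl
    obtain ⟨-, -, h3, -, -⟩ := hfac l hl
    rw [Real.log_div hκ0.ne' (by positivity), Real.log_pow]
    push_cast
    ring
  have hE2P : Real.exp 2 ≤ P := by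
    rw [← Real.log_le_log_iff (Real.exp_pos _) hP0, hlP, Real.log_exp]; linarith
  have hκP : κ ≤ P := by
    have h1 : (1 : ℝ) ≤ Real.exp 2 := Real.one_le_exp (by norm_num)
    exact (le_mul_of_one_le_left hκ0.le h1).trans h2κP
  have hKl : ∀ l ∈ Λ, (fun l : Eis => κ / (nm l : ℝ) ^ 3) l = κ / (nm l : ℝ) ^ 3 ∧
      ((fun l : Eis => κ / (nm l : ℝ) ^ 3) l)⁻¹ ≤ P ∧ (fun l : Eis => κ / (nm l : ℝ) ^ 3) l ≤ P ∧
      0 ≤ (fun l : Eis => (nm l : ℝ)⁻¹) l ∧ (fun l : Eis => (nm l : ℝ)⁻¹) l ≤ (nm l : ℝ)⁻¹ := by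
    intro l hl
    obtain ⟨h1, h2, h3, -, -⟩ := hfac l hl
    refine ⟨rfl, ?_, ?_, ?_, le_rfl⟩
    · show (κ / (nm l : ℝ) ^ 3)⁻¹ ≤ P
      rw [inv_div, div_le_iff₀ hκ0]
      exact h2.trans (mul_le_mul_of_nonneg_right hE2P hκ0.le)
    · show κ / (nm l : ℝ) ^ 3 ≤ P
      exact (div_le_self hκ0.le (one_le_pow₀ h3)).trans hκP
    · show 0 ≤ (nm l : ℝ)⁻¹
      positivity
  have hWm : ∀ l ∈ Λ, (fun l : Eis => (nm l : ℝ)⁻¹) l ≤ Real.exp (-m) := by
    intro l hl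
    obtain ⟨h1, h2, h3, h4, -⟩ := hfac l hl
    show (nm l : ℝ)⁻¹ ≤ Real.exp (-m)
    rw [Real.exp_neg]
    refine inv_anti₀ (Real.exp_pos _) ?_
    calc Real.exp m ≤ Real.exp (Real.log (nm l)) := Real.exp_le_exp.2 h4
      _ = nm l := Real.exp_log (by linarith)
  set M0 : ℝ := Cr * cA * (X ^ B₁) ^ (2 * ε₁) * (1 + |t|) ^ Jn * opL ps.length (X ^ δ) *
    (Bd * Real.exp (4 * m) * Real.exp (2 * e₀) *
      Real.exp (n + (K * Real.log X - 3 * m) + 5 * (c * Real.log X) + 3 * e₀)) with hM0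
  have hM00 : 0 ≤ M0 := by positivity
  set Nb : ℝ := 12 * Real.exp (11 * (M + N) + 30) * (X ^ K * Real.exp n) * X ^ (-(3 * c)) with hNb
  have hNb0 : 0 ≤ Nb := by positivity
  have key := H1 P κ (Real.exp n) X' (X ^ c) N₁ (X ^ c) (Ca * Y ^ ε₂)
    (Cp * X ^ (ε / 100) * (X ^ δ) ^ 2 * Ht ps ^ 3 * Real.exp n) (d₀ * Real.log X) (X ^ B)
    (7 * (c * Real.log X)) Cw η t P (Real.exp (-m)) I x φ a Λ rl (fun l => (nm l : ℝ)⁻¹)
    (fun l => κ / (nm l : ℝ) ^ 3) hκ0 hRad hP1 le_rfl (Real.exp_pos _).le hWm hKl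
    (Real.exp_pos _) hnP hX' h2X'
    (Real.one_le_rpow hX1 hc.le) hN₁ hI (Real.one_le_rpow hX1 hc.le) hP9 (by positivity) hhP hCw hη
    hη1 hφ hφw ha f1 (fun m hm => (f3 m hm).1) (fun m hm => by
      rw [Real.log_exp]; exact (f3 m hm).2) (by positivity) f4 hAxP (by
      have := one_le_Ht ps
      positivity) hPV hZp M0 Nb hM00 hNb0 i hi ?_
  swap
  · intro δ' hδ' i' hi' e he y hy A hA hyX
    have hXc : (0 : ℝ) ≤ X ^ c := by positivity
    obtain ⟨hδD, hδp, hδs⟩ := (mem_S hXc).1 hδ'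
    obtain ⟨heE, hep, hes⟩ := (mem_S hXc).1 he
    have hiI : i' < I := by
      unfold LBx48.neb at hi'
      exact Finset.mem_range.1 (Finset.mem_filter.1 hi').1
    obtain ⟨hV1, hVN, hlV⟩ := lvl hN₁ hNL hI hiI
    have hXcP : X ^ c ≤ P := hle (by linarith)
    have hX2P : X' * Real.exp (η / 2) ≤ P := by
      rw [← Real.log_le_log_iff (by positivity) hP0, hlP]; linarith
    have hN₁P : N₁ ≤ P := by
      have h1 : (1 : ℝ) ≤ (X ^ c * X ^ c) ^ 3 := one_le_pow₀ (one_le_mul_of_one_le_of_one_le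
        (Real.one_le_rpow hX1 hc.le) (Real.one_le_rpow hX1 hc.le))
      have h2 : N₁ ≤ N₁ * (X ^ c * X ^ c) ^ 3 := le_mul_of_one_le_right (by linarith) h1
      linarith
    have hSz : ∀ k ∈ Λ, ∀ c' ∈ C4, Sz P (X' * Real.exp (η / 2)) (N₁ / 2 ^ i')
        (κ / (nm k : ℝ) ^ 3) (Real.exp (7 * (c * Real.log X))) δ' e A c' y := by
      intro k hk c' hc'
      obtain ⟨-, q1, q2, -, -⟩ := hKl k hk
      obtain ⟨-, -, h3, -, -⟩ := hfac k hk
      exact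
      { P1 := hP1, H1 := Real.one_le_exp (by positivity), HP := hhP, XP := hX2P,
        VP := hVN.trans hN₁P, V1 := hV1, K0 := by positivity, KiP := q1, KP := q2,
        δp := hδp, δs := hδs, δP := hδD.trans hXcP, ep := hep, eP := heE.trans hXcP, hy := hy,
        hA := hA, yX := hyX, hc := hc' }
    have hlogS : ∀ {m : Eis}, IsPrim m → (nm m : ℝ) ≤ X ^ c →
        Real.log (nm m) ≤ c * Real.log X := by
      intro m hm hmc
      have hm0 : (0 : ℝ) < nm m := by exact_mod_cast nm_pos.2 hm.ne_zero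
      rw [← Real.log_rpow hX0]
      exact Real.log_le_log hm0 hmc
    have hlB : Real.log (X ^ B₁) = 10 * (K * Real.log X) + c₀ * Real.log X + Real.log X := by
      rw [Real.log_rpow hX0, hB₁]; ring
    have hc0L : 0 ≤ c₀ * Real.log X := by positivity
    have hδN : ∀ r ≤ Nl, (X ^ δ) ^ r ≤ X ^ B₁ := by
      intro r hr
      rw [← Real.rpow_natCast, ← Real.rpow_mul hX0.le]
      refine hle ?_
      have h1 : (r : ℝ) ≤ Nl := by exact_mod_cast hr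
      have h2 : δ * r ≤ δ * (100 * (Nl + 1)) := mul_le_mul_of_nonneg_left (by
        have : (0 : ℝ) ≤ Nl := Nat.cast_nonneg _
        linarith) hδ
      linarith
    have hεd : εr / 3 / 2 * Real.log P ≤ c * Real.log X := by
      rw [hlP]
      have h2 : εr / 3 / 2 * (3 * K * Real.log X) = 1 / 2 * (εr * K) * Real.log X := by ring
      rw [h2]
      have h0 : 0 ≤ εr * K := by positivity
      exact mul_le_mul_of_nonneg_right (by linarith) hl.le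
    obtain ⟨B0, s₁, L', hB0, hB00, hgap, hs₁, hL', hNc, hJc⟩ := HC Jn (by linarith) Cw η hCw hη hη1 φ
      (wk_mono hCw hη (by omega) hφ) a ha t PP hP ps hlen hz (X ^ δ) (X ^ δ) (d₀ * Real.log X) hXδ
      (by positivity) hLg q hq e₀ P (X' * Real.exp (η / 2)) (N₁ / 2 ^ i')
      (Real.exp (7 * (c * Real.log X))) P (X ^ B₁) Λ (fun l => κ / (nm l : ℝ) ^ 3) hP1
      (hle (by linarith)) hV1 δ' e A y (K * Real.log X) m Lv (c * Real.log X) Bd hSz hLv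
      (by linarith) (Nat.cast_nonneg _) (by linarith) hcL.le (by linarith) (by linarith)
      (by linarith) (by linarith [hlX2'.2]) (by linarith) (fun k hk => by
        obtain ⟨-, -, h3, h4, h5⟩ := hfac k hk
        have h6 := hlm k hk
        constructor
        · show Real.log (κ / (nm k : ℝ) ^ 3) ≤ _
          rw [h6]
          linarith [hlκ2.2]
        · show _ ≤ Real.log (κ / (nm k : ℝ) ^ 3) + e₀
          rw [h6]
          linarith [hlκ2.1]) hεd (by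
        rw [Real.log_exp]; linarith) (hlogS hδp hδD) (hlogS hep heE) (by
        rw [hlB]; linarith) hδN
      (hqX.trans (hle (by linarith))) hBd hln hln'
    refine ⟨fun _ => B0, s₁, L', fun _ _ => hB00, fun _ _ => hgap, ?_, hs₁, hL', hNc, hJc⟩
    intro l hl
    obtain ⟨h1, h2, h3, h4, h5⟩ := hfac l hl
    have hB12 : 1 / 2 ≤ B0 := (B0X_half _).trans hB0
    have hb : 2 * (K * Real.log X - 3 * m) - Lv - n ≤ 3 * Real.log (2 * B0) + 3 := by
      have h6 := exp_le_B0X (2 * (K * Real.log X - 3 * m) - Lv - n)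
      have h7 : Real.exp ((2 * (K * Real.log X - 3 * m) - Lv - n) / 3) ≤
          Real.exp (1 + Real.log (2 * B0)) := by
        refine h6.trans ?_
        rw [Real.exp_add, Real.exp_log (by linarith)]
        have h8 : B0X (2 * (K * Real.log X - 3 * m) - Lv - n) ≤ 2 * B0 := by linarith
        gcongr
      have h8 := Real.exp_le_exp.1 h7
      linarith
    have hκ1 : 1 ≤ κ := by
      rw [← Real.exp_log hκ0]
      exact Real.one_le_exp (by linarith [hlκ2.1])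
    have hpol := pol_l (K := K) (c := c) (X := X) (n := n) (Lv := Lv) (N₁ := N₁) (κ := κ)
      (s := M + N) (s' := 3) (B0 := B0) (τ := nm l) (m := m) hX hc hK (by positivity)
      (by norm_num) hκ1 hlκ hN₁ hN hNL hv3 hn2 h3 h4 hB12 hb
    have e3 : Nb = X ^ (-(3 * c)) * (12 * Real.exp (11 * (M + N) + 2 * 3 + 24) *
        (X ^ K * Real.exp n)) := by
      rw [hNb]
      have : 11 * (M + N) + 30 = 11 * (M + N) + 2 * 3 + 24 := by ring
      rw [this]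
      ring
    rw [e3]
    have e4 : X ^ (-(3 * c)) * X ^ (3 * c) = 1 := by
      rw [hadd, neg_add_cancel, Real.rpow_zero]
    calc (nm l : ℝ)⁻¹ * ((κ / (nm l : ℝ) ^ 3) ^ (2 / 3 : ℝ) * Real.exp n ^ (2 / 3 : ℝ) / B0 *
          MTL537.ML (9 * (N₁ * (X ^ c * X ^ c) ^ 3)) (Real.exp n / B0))
        = X ^ (-(3 * c)) * (X ^ (3 * c) * ((nm l : ℝ)⁻¹ * ((κ / (nm l : ℝ) ^ 3) ^ (2 / 3 : ℝ) *
          Real.exp n ^ (2 / 3 : ℝ) / B0 *
            MTL537.ML (9 * (N₁ * (X ^ c * X ^ c) ^ 3)) (Real.exp n / B0)))) := by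
          rw [← mul_assoc (X ^ (-(3 * c))), e4, one_mul]
      _ ≤ _ := mul_le_mul_of_nonneg_left hpol (by positivity)
  have hYn := num_Y (X := X) (K := K) (c := c) (n := n) (ε := ε) (ε₂ := ε₂) (Ca := Ca) (R₁ := R₁)
    hX hε hc hK hCa hR₁ hn0 hn1 hε₂0.le hε₂1 hε₂K.le
  rw [← hY, ← hcY] at hYn
  have hI4 := I_le hεr0 hP1 (by
    have h1 : (1 : ℝ) ≤ (X ^ c * X ^ c) ^ 3 := one_le_pow₀ (one_le_mul_of_one_le_of_one_le
      (Real.one_le_rpow hX1 hc.le) (Real.one_le_rpow hX1 hc.le))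
    have h2 : N₁ ≤ N₁ * (X ^ c * X ^ c) ^ 3 := le_mul_of_one_le_right (by linarith) h1
    linarith : N₁ ≤ P) hI
  have hPP : P ^ (3 * εr) * P ^ εr ≤ X ^ (ε / 2) := by
    rw [← Real.rpow_add hP0, hPd, ← Real.rpow_mul hX0.le]
    refine hle ?_
    have h0 : 3 * K * (3 * εr + εr) = 12 * (εr * K) := by ring
    have h1 : εr * (200 * (K + 1)) = 200 * (εr * K) + 200 * εr := by ring
    rw [h0]
    linarith
  have hεri : 0 < εr⁻¹ := inv_pos.2 hεr0
  have hX2p : 0 < X' * Real.exp (η / 2) := by positivity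
  have hRP0 : 0 ≤ RPl (d₀ * Real.log X) κ N₁ (X' * Real.exp (η / 2))
      (nm (kw a)) (Real.exp (7 * (c * Real.log X))) 1 (X ^ c) :=
    RPl_nonneg hκ0.le (by linarith) hX2p.le (Nat.cast_nonneg _) (Real.exp_pos _).le
      zero_le_one (by positivity)
  have hC10 : 0 ≤ C1 := by linarith
  refine key_finL hC10 hεri.le (by positivity) (by positivity) hI4 (by positivity) hPP
    (by positivity) (by positivity) (by positivity) hYn (by positivity) hNb0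
    (mul_nonneg (sq_nonneg _) hRP0) ?_
  unfold RLk
  exact key

end Crest.Agent.R017.RLX502
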