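import Crest.Agent.R017.RLXa_502
import Crest.Agent.R017.RLXb_401
import Crest.Agent.R017.QsJp_401
import Crest.Agent.R017.RCXh_385
import Crest.Agent.R017.RLd_381

/-!
# Row 17, T.7, the number (Rl) of the exceptional class (helper401): the final binding

* `RlkXs` : the statement of helper241's `rlk_xs` (one block of `l`)
* `rl_leaf` : the leaf `RLeafX .. (BeAll (NRl N M F)) ..`
-/

set_option autoImplicit false
set_option linter.unusedVariables false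
set_option maxHeartbeats 1000000

noncomputable section

open Complex
open scoped ComplexConjugate

namespace Crest.Agent.R017.RLXg401

open Crest.Agent.R012 Crest.Agent.R012.Eis
open Crest.Agent.R012.T411 (NCube)
open Crest.Agent.R012.LS2 (S mem_S)
open Crest.Agent.R017.MoL106 (kw kw_ne)
open Crest.Agent.R017.E2440
open Crest.Agent.R017.B770
open Crest.Agent.R017.Prov71
open Crest.Agent.R017.FE47 (cx PU)
open Crest.Agent.R017.HP842 (pc sqc)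
open Crest.Agent.R017.Leg381 (alf alF Pf LF LF_get natl)
open Crest.Agent.R017.Win813 (WK iA iA_nonneg)
open Crest.Agent.R017.RGw813 (T9)
open Crest.Agent.R017.QsJ401 (PLnF LnEq lnEq_E plnFT_two)
open Crest.Agent.R017.RQd385 (PM2Q)
open Crest.Agent.R017.X6C180 (GF)
open Crest.Agent.R017.WDec180 (WD sc sc_pos)
open Crest.Agent.R017.LBx48 (REb neb)
open Crest.Agent.R017.QsO83 (bw FS_bw)
open Crest.Agent.R017.Sup271 (NPm)
open Crest.Agent.R017.RG64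
open Crest.Agent.R017.RX298 (xs rp Mk Lg2 Lg)
open Crest.Agent.R017.RLD381 (BeAll NRl hE)
open Crest.Agent.R017.RLX502 (blk RLk RL1_blk blk_count)
open Crest.Agent.R017.Et404 (Lset RL1 RLn)
open Crest.Agent.R017.RGB545 (Line Th TK rbx IN LE PQe rdE red_OK)
open Crest.Agent.R017.Red848
open Crest.Agent.R017.RXk848 (RLeafX LnP Lmp bX)

/-- the statement of helper241's `rlk_xs` : one block of `l` -/
def RlkXs (h : ℝ → ℝ) (N : ℕ) (M : ℝ) (F : ℕ → ℝ → ℂ) : Prop :=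
  ∀ {PP : DPar}, PP.OK → (∀ k : Eis, k ≠ 0 → (∃ c, k = c ^ 3) → ¬ NPm PP.n PP.ψ PP.l₂ k) →
    ∀ (Nl : ℕ) {K c d₀ c₀ μ ε : ℝ}, 0 < c → 2000 * c ≤ K → 0 ≤ d₀ → 1 ≤ c₀ → 0 ≤ μ → 0 < ε →
    ε ≤ c → ∀ (Jn Aw : ℕ), 2 * (Nl * μ) + 12 ≤ Jn → Jn + 2 ≤ Aw → ∀ {Cw R η : ℝ}, 0 ≤ Cw →
    0 ≤ R → 0 < η → η ≤ 1 / 2 →
    ∃ Cr e₀ C G : ℝ, 1 ≤ Cr ∧ 10 ≤ e₀ ∧ 0 ≤ C ∧ 1 ≤ G ∧ ∀ X : ℝ, 3 ≤ X → G ≤ X ^ c →
      ∀ δ : ℝ, 0 ≤ δ → δ * (100 * (Nl + 1)) ≤ ε → ∀ (ps : List Pf) (q : Eis) (Lv N₁ : ℝ),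
      ps.length ≤ Nl → (∀ x ∈ ps, 0 ≤ x.1.z) → Mk (X ^ c₀) ps → Lg2 (d₀ * Real.log X) ps →
      LF ps ≤ (K + 2 * c) * Real.log X → 6 * LF ps ≤ (5 * K + 7 * c) * Real.log X → 0 ≤ Lv →
      3 * Lv + 200 * c * Real.log X ≤ 2 * K * Real.log X → Real.exp Lv ≤ N₁ →
      9 * N₁ ≤ Real.exp (Lv + 4) → IsPrim q → (nm q : ℝ) ≤ X ^ c₀ → ∀ Bd : ℝ, 0 ≤ Bd →
      ∀ (m X₀ : ℕ) (Ll : ℝ), (m : ℝ) ≤ (2 + (K * Real.log X + (M + N))) / 3 →
      (∀ t₁ : ℝ, 0 ≤ t₁ → t₁ ≤ m → PLnF (PM2Q NCube PP h) μ Cr (fun i => (ps.get i).1) (LF ps)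
        (K * Real.log X - 3 * t₁) Lv (17 * (c * Real.log X) + 10 * e₀) (2 * e₀)
        (Bd * Real.exp (4 * t₁))) →
      (∀ t₁ : ℝ, 0 ≤ t₁ → t₁ ≤ m → PLnF (PM2Q NCube PP h) μ Cr
        (fun i => ((rp (d₀ * Real.log X) ps).get i).1) (LF ps)
        (K * Real.log X - 3 * t₁) Lv (17 * (c * Real.log X) + 10 * e₀) (2 * e₀)
        (Bd * Real.exp (4 * t₁))) →
      ∀ a ∈ T9, ∀ (t X' : ℝ) (φ : ℝ → ℝ), 0 < X' → |Real.log X' - LF ps| ≤ R + 1 →
      WK Cw η Aw φ → (∀ u, φ u ≠ 0 → |u - Real.log X'| ≤ η / 2) → ∀ I : ℕ,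
      (2 : ℝ) ^ I ≤ 2 * N₁ → ∀ i < N,
      X ^ (2 * c) * RLk (GF (Fh (F i) (7 * (c * Real.log X)))) (sc (X ^ K) M i)
        (blk X₀ Ll (Real.exp 2) (sc (X ^ K) M i) m)
        (bw φ a t (xs q (X ^ δ) (X ^ δ) PP h (d₀ * Real.log X) ps)) (X ^ c) I (X ^ c) N₁ ≤
      C * (X ^ ε * ((1 + |t|) ^ Jn * Ht ps ^ 6 * (X ^ K * Real.exp (LF ps)) *
        (X ^ (max 0 (20 * c + (Lv / Real.log X + LF ps / Real.log X - K) / 3 - d₀)) +
          X ^ (9 * c) * Bd)))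

/-- cubes are principal for the reduced data -/
lemma np_red {P : DPar} (hP : P.OK) (k : Eis) (hk : k ≠ 0) (hc : ∃ c, k = c ^ 3) :
    ¬ NPm (red P).n (red P).ψ (red P).l₂ k := by
  rw [NPm_red_iff hP.ψ.q0 hk]
  intro h
  obtain ⟨c, hc⟩ := hc
  exact h.2 c hc

/-- the scale of a piece -/
lemma log_sc_le {N : ℕ} {M K X : ℝ} (hM : 0 ≤ M) (hX : 3 ≤ X) {i : ℕ} (hi : i < N) :
    Real.log (Real.exp 2 * sc (X ^ K) M i) ≤ 2 + (K * Real.log X + (M + N)) := by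
  have hX0 : 0 < X := by linarith
  have hs := sc_pos (Real.rpow_pos_of_pos hX0 K) M i
  rw [Real.log_mul (Real.exp_pos _).ne' hs.ne', Real.log_exp]
  have h1 := RCX385.log_sc (K := K) hM hX hi
  linarith [(abs_le.1 h1).2]

/-- the number of the blocks -/
lemma nb_le {M K X ε : ℝ} {N : ℕ} (hM : 0 ≤ M) (hK : 0 ≤ K) (hX : 1 ≤ X) (hε : 0 < ε) :
    ((⌊(2 + (K * Real.log X + (M + N))) / 3⌋₊ + 1 : ℕ) : ℝ) ≤
      (2 + M + N + K * ε⁻¹) * X ^ ε := by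
  have hX0 : 0 < X := by linarith
  have h0 : 0 ≤ Real.log X := Real.log_nonneg hX
  have hN : (0 : ℝ) ≤ N := Nat.cast_nonneg _
  have h1 : Real.log X ≤ ε⁻¹ * X ^ ε := by
    have := Real.log_le_rpow_div hX0.le hε
    rwa [div_eq_inv_mul] at this
  have h2 : 1 ≤ X ^ ε := Real.one_le_rpow hX hε.le
  have h3 := Nat.floor_le (show 0 ≤ (2 + (K * Real.log X + (M + N))) / 3 by positivity)
  push_cast
  have h4 : K * Real.log X ≤ K * ε⁻¹ * X ^ ε := by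
    calc K * Real.log X ≤ K * (ε⁻¹ * X ^ ε) := mul_le_mul_of_nonneg_left h1 hK
      _ = _ := by ring
  have h5 : 0 ≤ K * Real.log X := by positivity
  have h6 : (2 + M + N) ≤ (2 + M + N) * X ^ ε := le_mul_of_one_le_right (by positivity) h2
  have e1 : (2 + M + N + K * ε⁻¹) * X ^ ε = (2 + M + N) * X ^ ε + K * ε⁻¹ * X ^ ε := by ring
  rw [e1]
  linarith

/-- **the sum over the pieces and the blocks** -/
lemma rln_le {N : ℕ} {F : ℕ → ℝ → ℂ} {hh M K X L : ℝ} {X₀ : ℕ} {α : Eis → ℂ} {D : ℝ} {I : ℕ}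
    {E0 Z Θ B ε : ℝ} (hM : 0 ≤ M) (hK : 0 ≤ K) (hX : 3 ≤ X) (hε : 0 < ε) (hB : 0 ≤ B)
    (H : ∀ i < N, ∀ m : ℕ, (m : ℝ) ≤ (2 + (K * Real.log X + (M + N))) / 3 →
      Θ * RLk (GF (Fh (F i) hh)) (sc (X ^ K) M i) (blk X₀ L (Real.exp 2) (sc (X ^ K) M i) m)
        α D I E0 Z ≤ B) :
    Θ * RLn N F hh M (X ^ K) L X₀ α D I E0 Z ≤ N * ((2 + M + N + K * ε⁻¹) * X ^ ε * B) := by
  have hX0 : 0 < X := by linarith
  have h0 : 0 ≤ Real.log X := Real.log_nonneg (by linarith)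
  have hN : (0 : ℝ) ≤ N := Nat.cast_nonneg _
  have hc0 : 0 ≤ 2 + (K * Real.log X + (M + N)) := by positivity
  obtain ⟨Nb, hNb⟩ : ∃ n : ℕ, n = ⌊(2 + (K * Real.log X + (M + N))) / 3⌋₊ + 1 := ⟨_, rfl⟩
  have hNb1 : (2 + (K * Real.log X + (M + N))) / 3 < Nb := by
    rw [hNb]
    push_cast
    exact Nat.lt_floor_add_one _
  have hNb2 : (Nb : ℝ) ≤ (2 + M + N + K * ε⁻¹) * X ^ ε := by
    rw [hNb]
    exact nb_le hM hK (by linarith) hε
  unfold Et404.RLn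
  rw [Finset.mul_sum]
  have h1 : ∀ i ∈ Finset.range N, Θ * RL1 (GF (Fh (F i) hh)) (Real.exp 2) (sc (X ^ K) M i) L X₀ α
      D I E0 Z ≤ (2 + M + N + K * ε⁻¹) * X ^ ε * B := by
    intro i hi
    have hi' := Finset.mem_range.1 hi
    rw [RL1_blk (blk_count (sc_pos (Real.rpow_pos_of_pos hX0 K) M i) (Real.exp_pos _)
      (log_sc_le hM hX hi') hc0 hNb1), Finset.mul_sum]
    calc _ ≤ ∑ m ∈ Finset.range Nb, B := Finset.sum_le_sum fun m hm => by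
          refine H i hi' m ?_
          have h2 : m ≤ ⌊(2 + (K * Real.log X + (M + N))) / 3⌋₊ := by
            have := Finset.mem_range.1 hm
            omega
          exact (Nat.le_floor_iff (by positivity)).1 h2
      _ = Nb * B := by rw [Finset.sum_const, Finset.card_range, nsmul_eq_mul]
      _ ≤ _ := mul_le_mul_of_nonneg_right hNb2 hB
  calc _ ≤ ∑ _i ∈ Finset.range N, (2 + M + N + K * ε⁻¹) * X ^ ε * B := Finset.sum_le_sum h1
    _ = _ := by rw [Finset.sum_const, Finset.card_range, nsmul_eq_mul]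

/-- the final real line -/
lemma fin_num {N : ℕ} {cN Xe Xe2 C T H6 HM HH XK en W X9 Xm Bd Cf Rest : ℝ}
    (hcN : 0 ≤ cN) (hXe : 0 ≤ Xe) (hC : 0 ≤ C) (hT : 0 ≤ T) (hH6 : 0 ≤ H6) (hHM : 1 ≤ HM)
    (hXK : 0 ≤ XK) (hen : 0 < en) (hW : 0 ≤ W) (hBd : 0 ≤ Bd)
    (hX9 : X9 * Xm ≤ 1) (hH : H6 * HM ≤ HH) (hX2 : Xe * Xe ≤ Xe2) (hCf : N * (cN * C) ≤ Cf)
    (hRest : 0 ≤ Rest) (hXe2 : 0 ≤ Xe2) (hHH : 0 ≤ HH) (hCf0 : 0 ≤ Cf) :
    N * (cN * Xe * (C * (Xe * (T * H6 * (XK * en) * (W + X9 * (Bd * HM * Xm)))))) ≤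
      XK / en * ((Cf * Xe2 * HH * (W + Bd) * (en * en) + Rest) * T) := by
  have h1 : W + X9 * (Bd * HM * Xm) ≤ HM * (W + Bd) := by
    have a1 : X9 * (Bd * HM * Xm) ≤ Bd * HM := by
      calc X9 * (Bd * HM * Xm) = Bd * HM * (X9 * Xm) := by ring
        _ ≤ Bd * HM * 1 := mul_le_mul_of_nonneg_left hX9 (by positivity)
        _ = _ := mul_one _
    have a2 : W ≤ HM * W := le_mul_of_one_le_left hW hHM
    calc W + X9 * (Bd * HM * Xm) ≤ HM * W + Bd * HM := add_le_add a2 a1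
      _ = _ := by ring
  have hN : (0 : ℝ) ≤ N := Nat.cast_nonneg _
  have hWB : 0 ≤ W + Bd := by linarith
  calc N * (cN * Xe * (C * (Xe * (T * H6 * (XK * en) * (W + X9 * (Bd * HM * Xm))))))
      ≤ N * (cN * Xe * (C * (Xe * (T * H6 * (XK * en) * (HM * (W + Bd)))))) := by gcongr
    _ = (N * (cN * C)) * (Xe * Xe) * (H6 * HM) * (W + Bd) * (XK * en) * T := by ring
    _ ≤ Cf * Xe2 * HH * (W + Bd) * (XK * en) * T := by gcongr
    _ = XK / en * (Cf * Xe2 * HH * (W + Bd) * (en * en) * T) := by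
        field_simp
    _ ≤ _ := by
        refine mul_le_mul_of_nonneg_left ?_ (by positivity)
        refine mul_le_mul_of_nonneg_right ?_ hT
        linarith

variable {Lam : Type*}

set_option maxHeartbeats 1600000 in
/-- **the leaf of the `l`-terms**, exceptional class -/
theorem rl_leaf {π : Lam → DPar} (hP : ∀ lam, (π lam).OK)
    (hnp : ∀ lam, ∀ k : Eis, k ≠ 0 → (∃ c, k = c ^ 3) → ¬ NPm (π lam).n (π lam).ψ (π lam).l₂ k)
    {h : ℝ → ℝ} {N : ℕ} {M : ℝ} {F : ℕ → ℝ → ℂ} (hM : 0 ≤ M) (Hk : RlkXs h N M F)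
    {c μ K b d₀ : ℝ} (hc : 0 < c) (hcμ : 1000 * c ≤ μ) (hμ : μ ≤ 1) (hcK : 2000 * c ≤ K)
    (hd₀ : 0 ≤ d₀) :
    RLeafX π h (BeAll (NRl N M F)) (LE π h c μ) K c b d₀ 20 := by
  intro lam Nl c₀ hc₀
  refine ⟨2 * c₀, by linarith, fun ε M' hε hM' => ?_⟩
  have hK0 : 0 < K := by linarith
  set μ' : ℝ := Nl * M' / 2 with hμ'
  have hNl : (0 : ℝ) ≤ Nl := Nat.cast_nonneg _
  have hμ'0 : 0 ≤ μ' := by positivity
  set ε' : ℝ := min (ε / 2) c with hε'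
  have hε'0 : 0 < ε' := lt_min (by linarith) hc
  have hε'c : ε' ≤ c := min_le_right _ _
  have hε'2 : 2 * ε' ≤ ε := by
    have := min_le_left (ε / 2) c
    linarith
  refine ⟨2 * (Nl * μ') + 12 + M', ε' / (100 * (Nl + 1)), by positivity, by positivity, ?_⟩
  intro δ Jn Aw Cw R η S hδ0 hδ hJn hAw hCw hR hη hη1 hS
  have hJn' : 2 * (Nl * μ') + 12 ≤ Jn := by linarith
  obtain ⟨Cr, e₀, C1, G, hCr, he₀, hC1, hG, HK⟩ := Hk (hP lam) (hnp lam) Nl (K := K) (c := c)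
    (d₀ := d₀) (c₀ := c₀) (μ := μ') (ε := ε') hc hcK hd₀ hc₀ hμ'0 hε'0 hε'c Jn Aw hJn' hAw
    (Cw := Cw) (R := R) (η := η) hCw hR hη hη1
  have hCr0 : 0 ≤ Cr := by linarith
  obtain ⟨X₂, hTw⟩ := RHX116.tw_leaf (S := S) Nl hc hS
  set cN : ℝ := 2 + M + N + K * ε'⁻¹ with hcN
  have hNn : (0 : ℝ) ≤ N := Nat.cast_nonneg _
  have hcN0 : 0 ≤ cN := by positivity
  have hδ' : δ * (100 * (Nl + 1)) ≤ ε' := by
    rwa [le_div_iff₀ (by positivity)] at hδ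
  refine ⟨Cr * Real.exp (2 * S) + N * (cN * C1), Cr + 2 * S,
    max (max X₂ (Real.exp (20 * e₀ / c))) (max (Real.exp (Real.log G / c))
      (max (Real.exp (2 * e₀ / ε)) (Real.exp (2 + M + N + S)))), by positivity, by positivity, ?_⟩
  intro X hX3 hXX ps₀ hlen hz hs2 hLm q ps Lv N₀ N₁ hF hq hqX hps Bd Ma Ml hBd hMa hMl hprem _ _
  have hX0 : 0 < X := by linarith
  have hX1 : 1 < X := by linarith
  have hl : 0 < Real.log X := Real.log_pos hX1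
  have g1 : X₂ ≤ X := (le_max_left _ _).trans ((le_max_left _ _).trans hXX)
  have g2 : Real.exp (20 * e₀ / c) ≤ X := (le_max_right _ _).trans ((le_max_left _ _).trans hXX)
  have g3 : Real.exp (Real.log G / c) ≤ X :=
    (le_max_left _ _).trans ((le_max_right _ _).trans hXX)
  have g4 : Real.exp (2 * e₀ / ε) ≤ X :=
    (le_max_left _ _).trans ((le_max_right _ _).trans ((le_max_right _ _).trans hXX))
  have g5 : Real.exp (2 + M + N + S) ≤ X :=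
    (le_max_right _ _).trans ((le_max_right _ _).trans ((le_max_right _ _).trans hXX))
  have hlog : ∀ {a : ℝ}, Real.exp a ≤ X → a ≤ Real.log X := fun {a} ha => by
    rw [← Real.log_exp a]
    exact Real.log_le_log (Real.exp_pos _) ha
  have l2 : 20 * e₀ ≤ c * Real.log X := by
    have := hlog g2
    rw [div_le_iff₀ hc] at this
    linarith
  have l3 : G ≤ X ^ c := by
    have := hlog g3
    rw [div_le_iff₀ hc] at this
    rw [Real.rpow_def_of_pos hX0, ← Real.exp_log (show 0 < G by linarith)]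
    exact Real.exp_le_exp.2 this
  have l4 : 2 * e₀ ≤ ε * Real.log X := by
    have := hlog g4
    rw [div_le_iff₀ hε] at this
    linarith
  have l5 := hlog g5
  have hεc := hF.ec
  have hz0 := hps.z_nonneg
  have hlen1 : ps.length ≤ Nl := by rw [hps.length]; exact hlen
  have hD : 0 ≤ d₀ * Real.log X := by positivity
  have htw := hTw X hX1.le g1 K ε d₀ c₀ hd₀ ps₀ hlen hs2 hLm ps Lv N₀ N₁ hF hps
  have hLg := RHX116.Tw_lg hD htw
  have hLg2 := RLXb401.Tw_lg2 htw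
  have hLF0 : 0 ≤ LF ps := LF_nonneg hz0
  have hεL : ε * Real.log X ≤ c * Real.log X := mul_le_mul_of_nonneg_right hF.ec hl.le
  have hLFK : LF ps ≤ (K + 2 * c) * Real.log X := by
    have h1 := hF.nK
    have h2 := hF.hi
    linarith
  have h56 : 6 * LF ps ≤ (5 * K + 7 * c) * Real.log X := by
    have h1 := hF.n56
    have h2 := hF.hi
    linarith
  have hdc : d₀ ≤ 2 * c₀ := by
    match ps₀, hLm, hz with
    | p₁ :: p₂ :: p₃ :: _, hLm, hz =>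
      have h1 : (d₀ + 3 / 2 * c) * Real.log X ≤ p₁.z := hLm.2.2.2.1
      have h2 : p₁.z ≤ c₀ * Real.log X := (hz p₁ (by simp)).2
      have h3 : (d₀ + 3 / 2 * c) * Real.log X ≤ c₀ * Real.log X := h1.trans h2
      have h4 := le_of_mul_le_mul_right h3 hl
      linarith
  have hBd0 : 0 ≤ Bd := by linarith
  have hN01 : (N₀ : ℝ) ≤ N₁ := by exact_mod_cast hF.N01
  have hHt1 := one_le_Ht ps
  have hHt2 := one_le_Ht (natl ps₀)
  have hHH : 1 ≤ Ht ps * Ht (natl ps₀) := one_le_mul_of_one_le_of_one_le hHt1 hHt2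
  set HM : ℝ := (Ht ps * Ht (natl ps₀)) ^ M' with hHM
  have hHM1 : 1 ≤ HM := Real.one_le_rpow hHH hM'
  have hHM0 : 0 ≤ HM := by linarith
  have hCb : Cr * Real.exp (2 * S) * X ^ (2 * c₀) ≤
      (Cr * Real.exp (2 * S) + N * (cN * C1)) * X ^ (2 * c₀) := by
    refine mul_le_mul_of_nonneg_right ?_ (Real.rpow_nonneg hX0.le _)
    have : 0 ≤ N * (cN * C1) := by positivity
    linarith
  -- the pair lines
  have hln : ∀ t₁ : ℝ, 0 ≤ t₁ → t₁ ≤ (2 + (K * Real.log X + (M + N))) / 3 →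
      PLnF (PM2Q NCube (π lam) h) μ' Cr (fun i => (ps.get i).1) (LF ps)
        (K * Real.log X - 3 * t₁) Lv (17 * (c * Real.log X) + 10 * e₀) (2 * e₀)
        (Bd * HM * X ^ (-μ) * Real.exp (4 * t₁)) ∧
      PLnF (PM2Q NCube (π lam) h) μ' Cr (fun i => ((rp (d₀ * Real.log X) ps).get i).1) (LF ps)
        (K * Real.log X - 3 * t₁) Lv (17 * (c * Real.log X) + 10 * e₀) (2 * e₀)
        (Bd * HM * X ^ (-μ) * Real.exp (4 * t₁)) := by
    intro t₁ h1 h2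
    have hKl : 0 ≤ K * Real.log X := by positivity
    have h3 := plnFT_two (N := Nl) (μ' := μ') (m₁ := 17 * (c * Real.log X) + 10 * e₀)
      (e₁ := 2 * e₀) (t := t₁) (C := Cr) (S := S) (c₀ := c₀) (d₀ := d₀)
      (lnEq_E π h c μ lam) hX1 hprem hF (by linarith) hS hps (fun q hq => (hz q hq).2)
      (by linarith) hd₀ hdc hLg le_rfl hCb hlen hM' (by rw [hμ']; linarith) hBd0 (by linarith)
      l4 (by
        have h5 : 1000 * c * Real.log X ≤ μ * Real.log X := mul_le_mul_of_nonneg_right hcμ hl.le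
        have h6 : 0 ≤ ε * Real.log X := by positivity
        linarith) hK0.le (by linarith) (by linarith) h1 (by linarith)
    have e1 : Bd * HM * Real.exp (4 * t₁ - μ * Real.log X) =
        Bd * HM * X ^ (-μ) * Real.exp (4 * t₁) := by
      have : X ^ (-μ) = Real.exp (-(μ * Real.log X)) := by
        rw [Real.rpow_def_of_pos hX0]; congr 1; ring
      rw [this, sub_eq_add_neg, Real.exp_add]; ring
    rw [e1] at h3
    exact h3
  have hBdd : 0 ≤ Bd * HM * X ^ (-μ) := by positivity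
  intro a ha t X' φ hX' hXn hφ hφw I X₀ hI1 hI2
  have hXn' : |Real.log X' - LF ps| ≤ R + 1 := by
    have h1 : |Real.log X' - Real.log (Real.exp (LF ps))| ≤ R + 1 := hXn
    rwa [Real.log_exp] at h1
  have ht1 : 0 ≤ (1 + |t|) ^ Jn := by positivity
  set W : ℝ := X ^ (max 0 (20 * c + (Lv / Real.log X + LF ps / Real.log X - K) / 3 - d₀)) with hW
  have hW0 : 0 ≤ W := Real.rpow_nonneg hX0.le _
  have hB0 : 0 ≤ C1 * (X ^ ε' * ((1 + |t|) ^ Jn * Ht ps ^ 6 * (X ^ K * Real.exp (LF ps)) *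
      (W + X ^ (9 * c) * (Bd * HM * X ^ (-μ))))) := by positivity
  have key := rln_le (N := N) (F := F) (hh := 7 * (c * Real.log X)) (M := M) (K := K) (X := X)
    (L := RLD381.LE (X ^ c)) (X₀ := X₀)
    (α := bw φ a t (xs q (X ^ δ) (X ^ δ) (π lam) h (d₀ * Real.log X) ps))
    (D := X ^ c) (I := I) (E0 := X ^ c) (Z := N₁) (Θ := X ^ (2 * c)) (ε := ε') hM hK0.le hX3 hε'0
    hB0 (fun i hi m hm => HK X hX3 l3 δ hδ0 hδ' ps q Lv N₁ hlen1 hz0 (RLXb401.Tw_mk htw) hLg2 hLFK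
      h56 hF.v0 hF.v3 (hF.N0.trans hN01) hF.N1 hq hqX _ hBdd m X₀ _ hm
      (fun t₁ h1 h2 => (hln t₁ h1 (h2.trans hm)).1)
      (fun t₁ h1 h2 => (hln t₁ h1 (h2.trans hm)).2) a ha t X' φ hX' hXn' hφ hφw I hI2 i hi)
  have eE : hE (X ^ c) = 7 * (c * Real.log X) := by
    unfold RLD381.hE
    rw [Real.log_rpow hX0]
  have e2c : (X ^ c) ^ 2 = X ^ (2 * c) := by
    rw [← Real.rpow_natCast, ← Real.rpow_mul hX0.le]
    congr 1
    push_cast
    ring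
  show (X ^ c) ^ 2 * RLn N F (hE (X ^ c)) M (X ^ K) (RLD381.LE (X ^ c)) X₀
    (bw φ a t (xs q (X ^ δ) (X ^ δ) (π lam) h (d₀ * Real.log X) ps)) (X ^ c) I (X ^ c) N₁ ≤
    X ^ K / Real.exp (LF ps) * (((Cr * Real.exp (2 * S) + N * (cN * C1)) * X ^ ε *
      (Ht ps * Ht (natl ps₀)) ^ (2 * (Nl * μ') + 12 + M') *
      (X ^ bX K c d₀ 20 (LF ps / Real.log X) (Lv / Real.log X) + Bd) * Real.exp (2 * LF ps) +
      (Cr * Real.exp (2 * S) + N * (cN * C1)) * X ^ ε * X ^ (-(c / 2)) * (Ma + Ml)) *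
      (1 + |t|) ^ Jn)
  rw [eE, e2c]
  refine key.trans ?_
  have e2n : Real.exp (2 * LF ps) = Real.exp (LF ps) * Real.exp (LF ps) := by
    rw [← Real.exp_add]; congr 1; ring
  have eW : X ^ bX K c d₀ 20 (LF ps / Real.log X) (Lv / Real.log X) = W := rfl
  rw [e2n, eW]
  have hCf0 : 0 ≤ Cr * Real.exp (2 * S) + N * (cN * C1) := by positivity
  refine fin_num (HM := HM) (H6 := Ht ps ^ 6) (X9 := X ^ (9 * c)) (Xm := X ^ (-μ)) (Bd := Bd)
    hcN0 (Real.rpow_nonneg hX0.le _) hC1 ht1 (by positivity) hHM1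
    (Real.rpow_nonneg hX0.le _) (Real.exp_pos _) hW0 hBd0 ?_ ?_ ?_ ?_ ?_
    (Real.rpow_nonneg hX0.le _) (Real.rpow_nonneg (by linarith) _) hCf0
  · rw [← Real.rpow_add hX0]
    exact Real.rpow_le_one_of_one_le_of_nonpos hX1.le (by linarith)
  · rw [hHM]
    have h1 : Ht ps ^ 6 ≤ (Ht ps * Ht (natl ps₀)) ^ (6 : ℝ) := by
      have e6 : (Ht ps * Ht (natl ps₀)) ^ (6 : ℝ) = (Ht ps * Ht (natl ps₀)) ^ (6 : ℕ) := by
        rw [← Real.rpow_natCast]; norm_num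
      rw [e6]
      exact pow_le_pow_left₀ (by linarith) (le_mul_of_one_le_right (by linarith) hHt2) 6
    calc Ht ps ^ 6 * (Ht ps * Ht (natl ps₀)) ^ M'
        ≤ (Ht ps * Ht (natl ps₀)) ^ (6 : ℝ) * (Ht ps * Ht (natl ps₀)) ^ M' :=
          mul_le_mul_of_nonneg_right h1 (Real.rpow_nonneg (by linarith) _)
      _ = (Ht ps * Ht (natl ps₀)) ^ (6 + M') := (Real.rpow_add (by linarith) _ _).symm
      _ ≤ _ := Real.rpow_le_rpow_of_exponent_le hHH (by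
          have : 0 ≤ 2 * (Nl * μ') := by positivity
          linarith)
  · rw [← Real.rpow_add hX0]
    exact Real.rpow_le_rpow_of_exponent_le hX1.le (by linarith)
  · have : 0 ≤ Cr * Real.exp (2 * S) := by positivity
    linarith
  · have : 0 ≤ Ma + Ml := by linarith
    positivity

/-- **the field `rl` of helper381's `LeafE`** (with `RngX` written out), from the blocks -/
theorem leafE_rl_of {π : Lam → DPar} (hP : ∀ lam, (π lam).OK) (hE : ∀ lam, Exc (π lam))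
    {h : ℝ → ℝ} (Hk : ∀ (w : ℝ → ℝ) (N : ℕ) (M : ℝ) (F : ℕ → ℝ → ℂ), WD w N M F → RlkXs h N M F) :
    ∀ (w : ℝ → ℝ), MC.Wgt w → (∀ x, 0 ≤ w x) → ∀ (N : ℕ) (M : ℝ) (F : ℕ → ℝ → ℂ), WD w N M F →
    ∀ c μ K d₀ : ℝ, 0 < c → 1000 * c ≤ μ → μ ≤ 1 → 0 < K → 2000 * c ≤ K → 0 ≤ d₀ → d₀ ≤ K →
      RLeafX (rdE π) h (BeAll (NRl N M F)) (LE (rdE π) h c μ) K c (8 * (K + 1)) d₀ 20 :=
  fun w _ _ N M F hD _ _ _ _ hc hcμ hμ _ hcK hd _ =>
    rl_leaf (red_OK hP hE) (fun lam => np_red (hP lam)) hD.M0 (Hk w N M F hD) hc hcμ hμ hcK hd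

end Crest.Agent.R017.RLXg401
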