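import Crest.Agent.R017.RoXa_116

/-!
# Row 17, T.7, E3 for the exceptional class (helper116): the real inequalities of the `R`-numbers

* `ex_np` : the exponents of the non-principal number (line r3*)
* `np_real`, `pr_real` : the non-principal and the principal number at the top level
-/

set_option autoImplicit false
set_option maxHeartbeats 400000

noncomputable section

open Finset
open scoped Classical

namespace Crest.Agent.R017.RoX116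

open Crest.Agent.R012 Crest.Agent.R012.Eis
open Crest.Agent.R017.E3T829 (G2 G2_nonneg)
open Crest.Agent.R017.E3Z548 (FH)

/-- the two cases of the target: no line (`T = n`), or line r3* -/
def TC (T n v κ m : ℝ) (μl : ℝ) : Prop :=
  T = n ∨ (T = 4 / 3 * n + (v + κ) / 3 - m - μl ∧ 0 ≤ m ∧ (2 * v - κ) / 3 ≤ m ∧
    (3 * v - κ - n) / 2 ≤ m ∧ 0 ≤ v + n - κ + μl)

/-- **the exponents** -/
lemma ex_np {T n v κ m μl γ κ' v₁ x C₀ e₀ : ℝ} (hT : TC T n v κ m μl) (hγ : 0 ≤ γ)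
    (hμ : 1000 * γ ≤ μl) (hκ : 2000 * γ ≤ κ) (h1 : κ - 40 * γ ≤ κ') (h2 : κ' ≤ κ) (hn : 0 ≤ n)
    (hv3 : 3 * v ≤ 2 * κ + e₀) (he₀ : 0 ≤ e₀) (hC₀ : 0 ≤ C₀) (hv1 : v ≤ v₁)
    (hv2 : v₁ ≤ v + C₀) (hx : n - C₀ ≤ x) (hL : 0 ≤ 20 * γ + 2 * v₁ - κ') :
    (1 / 3 * (20 * γ + 2 * v₁ - κ') ≤
      κ / 3 + 4 / 3 * n + (20 * γ + v₁) / 3 - T - 8 * γ + 10 * C₀ + e₀) ∧
    ((20 * γ + 2 * v₁ - κ') - 1 / 2 * (x + v₁ + 20 * γ - κ') ≤
      κ / 3 + 4 / 3 * n + (20 * γ + v₁) / 3 - T - 8 * γ + 10 * C₀ + e₀) ∧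
    (7 / 9 * (20 * γ + 2 * v₁ - κ') - 2 / 3 * (x + v₁ + 20 * γ - κ') ≤
      κ / 3 + 4 / 3 * n + (20 * γ + v₁) / 3 - T - 8 * γ + 10 * C₀ + e₀) ∧
    (11 / 18 * (20 * γ + 2 * v₁ - κ') - 1 / 3 * (x + v₁ + 20 * γ - κ') ≤
      κ / 3 + 4 / 3 * n + (20 * γ + v₁) / 3 - T - 8 * γ + 10 * C₀ + e₀) := by
  rcases hT with hT | ⟨hT, m0, m1, m2, hI⟩
  · subst hT
    refine ⟨?_, ?_, ?_, ?_⟩ <;> linarith
  · subst hT
    refine ⟨?_, ?_, ?_, ?_⟩ <;> linarith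

lemma FH_exp (κ h v : ℝ) : FH (Real.exp κ) (Real.exp h) (Real.exp v) =
    Real.exp (2 / 3 * κ - (h + v) / 3) := by
  unfold E3Z548.FH
  rw [← Real.exp_add, ← Real.exp_mul, ← Real.exp_mul, ← Real.exp_add]
  congr 1; ring

/-- `G2` of exponentials -/
lemma G2_exp {c β l i g : ℝ} (hc : 0 ≤ c) (hβ : 0 < β) (h1 : 1 / 3 * l ≤ g)
    (h2 : l - 1 / 2 * i ≤ g) (h3 : 7 / 9 * l - 2 / 3 * i ≤ g) (h4 : 11 / 18 * l - 1 / 3 * i ≤ g) :
    G2 (Real.exp l) (c * Real.exp l * Real.exp i ^ (-(1 / 2) : ℝ)) (β * Real.exp i) ≤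
      (1 + c + β ^ (-(2 / 3) : ℝ) + β ^ (-(1 / 3) : ℝ)) * Real.exp g := by
  unfold E3T829.G2
  have e1 : Real.exp l ^ (1 / 3 : ℝ) ≤ Real.exp g := by
    rw [← Real.exp_mul]
    exact Real.exp_le_exp.2 (by linarith)
  have e2 : c * Real.exp l * Real.exp i ^ (-(1 / 2) : ℝ) ≤ c * Real.exp g := by
    rw [← Real.exp_mul, mul_assoc, ← Real.exp_add]
    exact mul_le_mul_of_nonneg_left (Real.exp_le_exp.2 (by linarith)) hc
  have hβ2 : 0 ≤ β ^ (-(2 / 3) : ℝ) := by positivity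
  have hβ3 : 0 ≤ β ^ (-(1 / 3) : ℝ) := by positivity
  have e3 : Real.exp l ^ (7 / 9 : ℝ) * (β * Real.exp i) ^ (-(2 / 3) : ℝ) ≤
      β ^ (-(2 / 3) : ℝ) * Real.exp g := by
    rw [Real.mul_rpow hβ.le (Real.exp_pos _).le, ← Real.exp_mul, ← Real.exp_mul, mul_left_comm,
      ← Real.exp_add]
    exact mul_le_mul_of_nonneg_left (Real.exp_le_exp.2 (by linarith)) hβ2
  have e4 : Real.exp l ^ (11 / 18 : ℝ) * (β * Real.exp i) ^ (-(1 / 3) : ℝ) ≤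
      β ^ (-(1 / 3) : ℝ) * Real.exp g := by
    rw [Real.mul_rpow hβ.le (Real.exp_pos _).le, ← Real.exp_mul, ← Real.exp_mul, mul_left_comm,
      ← Real.exp_add]
    exact mul_le_mul_of_nonneg_left (Real.exp_le_exp.2 (by linarith)) hβ3
  linarith

/-- **the non-principal number at the top level** -/
theorem np_real {K' H V X c β κ γ n v T m μl C₀ e₀ k₁ S : ℝ} (hK' : 0 < K') (hH : H = Real.exp (20 * γ))
    (hV : 0 < V) (hX : 0 < X) (hc : 0 ≤ c) (hβ : 0 < β) (hT : TC T n v κ m μl) (hγ : 0 ≤ γ)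
    (hμ : 1000 * γ ≤ μl) (hκ : 2000 * γ ≤ κ) (h1 : κ - 40 * γ ≤ Real.log K')
    (h2 : Real.log K' ≤ κ) (hn : 0 ≤ n) (hv3 : 3 * v ≤ 2 * κ + e₀) (he₀ : 0 ≤ e₀) (hC₀ : 0 ≤ C₀)
    (hv1 : v ≤ Real.log V) (hv2 : Real.log V ≤ v + C₀) (hx : n - C₀ ≤ Real.log X)
    (hk₁ : 0 ≤ k₁) (hS : S ≤ Real.exp (8 * γ + C₀)) (hS0 : 0 ≤ S) :
    (if 1 ≤ H * V ^ 2 / K' then FH K' H V * G2 (H * V ^ 2 / K')
      (c * (H * V ^ 2 / K') * (X * V * H / K') ^ (-(1 / 2) : ℝ)) (β * (X * V * H / K')) else 0) *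
      (k₁ * Real.exp (T - n) * Real.exp n ^ (2 / 3 : ℝ)) * S ≤
    (1 + c + β ^ (-(2 / 3) : ℝ) + β ^ (-(1 / 3) : ℝ)) * Real.exp (11 * C₀ + e₀) *
      ((K' / Real.exp κ) ^ (2 / 3 : ℝ) * ((Real.exp κ / Real.exp n) *
        (k₁ * Real.exp (2 * n)))) := by
  obtain ⟨κ', hκ'⟩ : ∃ κ', κ' = Real.log K' := ⟨_, rfl⟩
  obtain ⟨v₁, hv₁⟩ : ∃ v₁, v₁ = Real.log V := ⟨_, rfl⟩
  obtain ⟨x, hx'⟩ : ∃ x, x = Real.log X := ⟨_, rfl⟩
  have eK : K' = Real.exp κ' := by rw [hκ', Real.exp_log hK']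
  have eV : V = Real.exp v₁ := by rw [hv₁, Real.exp_log hV]
  have eX : X = Real.exp x := by rw [hx', Real.exp_log hX]
  rw [← hκ'] at h1 h2
  rw [← hv₁] at hv1 hv2
  rw [← hx'] at hx
  have eL : H * V ^ 2 / K' = Real.exp (20 * γ + 2 * v₁ - κ') := by
    rw [hH, eV, eK, ← Real.exp_nat_mul, ← Real.exp_add, ← Real.exp_sub]
    congr 1
  have eI : X * V * H / K' = Real.exp (x + v₁ + 20 * γ - κ') := by
    rw [hH, eV, eK, eX, ← Real.exp_add, ← Real.exp_add, ← Real.exp_sub]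
  have hB : 0 ≤ 1 + c + β ^ (-(2 / 3) : ℝ) + β ^ (-(1 / 3) : ℝ) := by positivity
  rw [eL, eI]
  by_cases h : 1 ≤ Real.exp (20 * γ + 2 * v₁ - κ')
  · rw [if_pos h]
    have hL : 0 ≤ 20 * γ + 2 * v₁ - κ' := by
      rw [← Real.exp_zero] at h
      exact Real.exp_le_exp.1 h
    obtain ⟨g1, g2, g3, g4⟩ := ex_np hT hγ hμ hκ h1 h2 hn hv3 he₀ hC₀ hv1 hv2 hx hL
    have hG := G2_exp (c := c) (β := β) hc hβ g1 g2 g3 g4
    have hFH : FH K' H V = Real.exp (2 / 3 * κ' - (20 * γ + v₁) / 3) := by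
      rw [hH, eV, eK, FH_exp]
    have e1 : Real.exp n ^ (2 / 3 : ℝ) = Real.exp (2 / 3 * n) := by
      rw [← Real.exp_mul]; congr 1; ring
    have e2 : (K' / Real.exp κ) ^ (2 / 3 : ℝ) = Real.exp (2 / 3 * (κ' - κ)) := by
      rw [eK, ← Real.exp_sub, ← Real.exp_mul]; congr 1; ring
    have e3 : Real.exp κ / Real.exp n = Real.exp (κ - n) := by rw [← Real.exp_sub]
    rw [hFH, e1, e2, e3]
    calc Real.exp (2 / 3 * κ' - (20 * γ + v₁) / 3) * G2 (Real.exp (20 * γ + 2 * v₁ - κ'))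
          (c * Real.exp (20 * γ + 2 * v₁ - κ') *
            Real.exp (x + v₁ + 20 * γ - κ') ^ (-(1 / 2) : ℝ))
          (β * Real.exp (x + v₁ + 20 * γ - κ')) *
          (k₁ * Real.exp (T - n) * Real.exp (2 / 3 * n)) * S
        ≤ Real.exp (2 / 3 * κ' - (20 * γ + v₁) / 3) *
          ((1 + c + β ^ (-(2 / 3) : ℝ) + β ^ (-(1 / 3) : ℝ)) * Real.exp
          (κ / 3 + 4 / 3 * n + (20 * γ + v₁) / 3 - T - 8 * γ + 10 * C₀ + e₀)) *
          (k₁ * Real.exp (T - n) * Real.exp (2 / 3 * n)) * Real.exp (8 * γ + C₀) := by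
          gcongr
      _ = (1 + c + β ^ (-(2 / 3) : ℝ) + β ^ (-(1 / 3) : ℝ)) * k₁ *
          (Real.exp (2 / 3 * κ' - (20 * γ + v₁) / 3) * Real.exp
          (κ / 3 + 4 / 3 * n + (20 * γ + v₁) / 3 - T - 8 * γ + 10 * C₀ + e₀) *
          Real.exp (T - n) * Real.exp (2 / 3 * n) * Real.exp (8 * γ + C₀)) := by ring
      _ = (1 + c + β ^ (-(2 / 3) : ℝ) + β ^ (-(1 / 3) : ℝ)) * k₁ *
          (Real.exp (11 * C₀ + e₀) * Real.exp (2 / 3 * (κ' - κ)) * Real.exp (κ - n) *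
            Real.exp (2 * n)) := by
          rw [← Real.exp_add, ← Real.exp_add, ← Real.exp_add, ← Real.exp_add, ← Real.exp_add,
            ← Real.exp_add, ← Real.exp_add]
          congr 2
          ring
      _ = _ := by ring
  · rw [if_neg h, zero_mul, zero_mul]
    positivity

/-- **the principal number at the top level** -/
theorem pr_real {K' H V X c κ γ n v C₀ e₀ k₂ S s₀ μ' y b : ℝ} (hK' : 0 < K')
    (hH : H = Real.exp (20 * γ)) (hV : 0 < V) (hX : 0 < X) (hc : 0 < c) (hγ : 0 ≤ γ)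
    (h1 : κ - 40 * γ ≤ Real.log K') (h2 : Real.log K' ≤ κ) (hC₀ : 0 ≤ C₀) (he₀ : 0 ≤ e₀)
    (hv1 : v ≤ Real.log V) (hv2 : Real.log V ≤ v + C₀) (hx : n - C₀ ≤ Real.log X)
    (hk₂ : 0 ≤ k₂) (hS : S ≤ Real.exp (8 * γ + C₀)) (hS0 : 0 ≤ S)
    (hb : y * γ + (v + n - κ) / 3 - s₀ ≤ b) (hμ' : 0 ≤ μ')
    (hv3 : 3 * v + 125 * γ + μ' ≤ 2 * κ + 3 * (y * γ) + 3 * e₀) :
    (if 1 ≤ H * V ^ 2 / K' then FH K' H V * (c * (H * V ^ 2 / K') *
      (X * V * H / K') ^ (-(2 / 3) : ℝ)) else 0) *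
      (k₂ * ((c * (X * V * H / K') * Real.exp (μ' / 2)) ^ (1 / 3 : ℝ) *
        (Real.exp n ^ (5 / 3 : ℝ) * Real.exp (-s₀)))) * S ≤
    c * c ^ (1 / 3 : ℝ) * Real.exp (4 * C₀ + e₀) *
      ((K' / Real.exp κ) ^ (2 / 3 : ℝ) * ((Real.exp κ / Real.exp n) *
        (k₂ * Real.exp b * Real.exp (2 * n)))) := by
  obtain ⟨κ', hκ'⟩ : ∃ κ', κ' = Real.log K' := ⟨_, rfl⟩
  obtain ⟨v₁, hv₁⟩ : ∃ v₁, v₁ = Real.log V := ⟨_, rfl⟩
  obtain ⟨x, hx'⟩ : ∃ x, x = Real.log X := ⟨_, rfl⟩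
  have eK : K' = Real.exp κ' := by rw [hκ', Real.exp_log hK']
  have eV : V = Real.exp v₁ := by rw [hv₁, Real.exp_log hV]
  have eX : X = Real.exp x := by rw [hx', Real.exp_log hX]
  rw [← hκ'] at h1 h2
  rw [← hv₁] at hv1 hv2
  rw [← hx'] at hx
  have eL : H * V ^ 2 / K' = Real.exp (20 * γ + 2 * v₁ - κ') := by
    rw [hH, eV, eK, ← Real.exp_nat_mul, ← Real.exp_add, ← Real.exp_sub]
    congr 1
  have eI : X * V * H / K' = Real.exp (x + v₁ + 20 * γ - κ') := by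
    rw [hH, eV, eK, eX, ← Real.exp_add, ← Real.exp_add, ← Real.exp_sub]
  rw [eL, eI]
  by_cases h : 1 ≤ Real.exp (20 * γ + 2 * v₁ - κ')
  · rw [if_pos h]
    have hFH : FH K' H V = Real.exp (2 / 3 * κ' - (20 * γ + v₁) / 3) := by
      rw [hH, eV, eK, FH_exp]
    have e1 : Real.exp n ^ (5 / 3 : ℝ) = Real.exp (5 / 3 * n) := by
      rw [← Real.exp_mul]; congr 1; ring
    have e2 : (K' / Real.exp κ) ^ (2 / 3 : ℝ) = Real.exp (2 / 3 * (κ' - κ)) := by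
      rw [eK, ← Real.exp_sub, ← Real.exp_mul]; congr 1; ring
    have e3 : Real.exp κ / Real.exp n = Real.exp (κ - n) := by rw [← Real.exp_sub]
    have e4 : Real.exp (x + v₁ + 20 * γ - κ') ^ (-(2 / 3) : ℝ) =
        Real.exp (-(2 / 3) * (x + v₁ + 20 * γ - κ')) := by
      rw [← Real.exp_mul]; congr 1; ring
    have e5 : (c * Real.exp (x + v₁ + 20 * γ - κ') * Real.exp (μ' / 2)) ^ (1 / 3 : ℝ) =
        c ^ (1 / 3 : ℝ) * Real.exp (1 / 3 * (x + v₁ + 20 * γ - κ') + μ' / 6) := by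
      rw [mul_assoc, ← Real.exp_add, Real.mul_rpow hc.le (Real.exp_pos _).le, ← Real.exp_mul]
      congr 2; ring
    have hc3 : 0 ≤ c ^ (1 / 3 : ℝ) := by positivity
    rw [hFH, e1, e2, e3, e4, e5]
    calc Real.exp (2 / 3 * κ' - (20 * γ + v₁) / 3) * (c * Real.exp (20 * γ + 2 * v₁ - κ') *
          Real.exp (-(2 / 3) * (x + v₁ + 20 * γ - κ'))) *
          (k₂ * (c ^ (1 / 3 : ℝ) * Real.exp (1 / 3 * (x + v₁ + 20 * γ - κ') + μ' / 6) *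
            (Real.exp (5 / 3 * n) * Real.exp (-s₀)))) * S
        ≤ Real.exp (2 / 3 * κ' - (20 * γ + v₁) / 3) * (c * Real.exp (20 * γ + 2 * v₁ - κ') *
          Real.exp (-(2 / 3) * (x + v₁ + 20 * γ - κ'))) *
          (k₂ * (c ^ (1 / 3 : ℝ) * Real.exp (1 / 3 * (x + v₁ + 20 * γ - κ') + μ' / 6) *
            (Real.exp (5 / 3 * n) * Real.exp (-s₀)))) * Real.exp (8 * γ + C₀) := by
          gcongr
      _ = c * c ^ (1 / 3 : ℝ) * k₂ * (Real.exp (2 / 3 * κ' - (20 * γ + v₁) / 3) *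
          Real.exp (20 * γ + 2 * v₁ - κ') * Real.exp (-(2 / 3) * (x + v₁ + 20 * γ - κ')) *
          Real.exp (1 / 3 * (x + v₁ + 20 * γ - κ') + μ' / 6) * Real.exp (5 / 3 * n) *
          Real.exp (-s₀) * Real.exp (8 * γ + C₀)) := by ring
      _ ≤ c * c ^ (1 / 3 : ℝ) * k₂ * (Real.exp (4 * C₀ + e₀) * Real.exp (2 / 3 * (κ' - κ)) *
          Real.exp (κ - n) * Real.exp b * Real.exp (2 * n)) := by
          refine mul_le_mul_of_nonneg_left ?_ (by positivity)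
          rw [← Real.exp_add, ← Real.exp_add, ← Real.exp_add, ← Real.exp_add, ← Real.exp_add,
            ← Real.exp_add, ← Real.exp_add, ← Real.exp_add, ← Real.exp_add, ← Real.exp_add]
          refine Real.exp_le_exp.2 ?_
          linarith
      _ = _ := by ring
  · rw [if_neg h, zero_mul, zero_mul]
    positivity

end Crest.Agent.R017.RoX116
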