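import Crest.Agent.R017.R4g_571
import Crest.Agent.R017.RoXb_116
import Crest.Agent.R017.RoP_579
import Crest.Agent.R017.RLd_381
import Crest.Agent.R017.RGN1_545
import Crest.Agent.R017.E3Kf_548

/-!
# Row 17, T.5, (Ro) at the leaf (helper64), part A: the sequences and the `R`-numbers of the levels

* `afR_eq`, `RMm_zero` : the restricted sequences
* `SE_le` : the sum of the norms
* `lev_R` : the `R`-number of a level
-/

set_option autoImplicit false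
set_option maxHeartbeats 400000

noncomputable section

open Finset MeasureTheory
open scoped Classical

namespace Crest.Agent.R017.RLo64

open Crest.Agent.R012 Crest.Agent.R012.Eis Crest.Agent.R012.MC
open Crest.Agent.R012.LS2 (S mem_S bl mem_bl)
open Crest.Agent.R012.Weight600 (pw)
open Crest.Agent.R017.CM106 (CS TG FS)
open Crest.Agent.R017.HP842 (sqc)
open Crest.Agent.R017.C70 (JW okJ_JW)
open Crest.Agent.R017.E1551 (Adm)
open Crest.Agent.R017.E3Z548 (FH)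
open Crest.Agent.R017.E3T829 (G2 G2_nonneg)
open Crest.Agent.R017.E3Sz579 (Ld Md)
open Crest.Agent.R017.E3Kc548 (afT LI mem_LI card_LI)
open Crest.Agent.R017.E3Kf548 (afR)
open Crest.Agent.R017.R3571 (W2 RMm RMm_nonneg)
open Crest.Agent.R017.QsO83 (bw bw_ne FS_bw)
open Crest.Agent.R017.RGw813 (bt)
open Crest.Agent.R017.PX764 (n6)
open Crest.Agent.R017.E3T829 (RR)
open Crest.Agent.R017.E3Sx579 (RHR)
open Crest.Agent.R017.RoP579 (RNp)
open Crest.Agent.R017.RoX116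

/-! ### the sequences -/

lemma RMm_zero (A : ℝ) (e γ π r : Eis) : RMm A (fun _ => (0 : ℂ)) e γ π r = 0 := by
  unfold R3571.RMm
  have h : ∀ t : ℝ, CS (fun m : Eis => (if e ∣ γ * m ∧ IsCoprime m π then
      (0 : ℂ) * (n6 m : ℂ) else 0) * pw t (nm m)) r = 0 := by
    intro t
    unfold CM106.CS
    have : ∀ m : Eis, ((if e ∣ γ * m ∧ IsCoprime m π then
      (0 : ℂ) * (n6 m : ℂ) else 0) * pw t (nm m)) * sy r m = 0 := by
      intro m
      split_ifs <;> simp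
    simp only [this]
    exact tsum_zero
  simp only [h, norm_zero, ne_eq, OfNat.ofNat_ne_zero, not_false_eq_true, zero_pow, mul_zero,
    integral_zero]

/-- the restricted sequence is `be (d m)` or zero -/
lemma afR_cases {be : Eis → ℂ} (hp : ∀ n, be n ≠ 0 → IsPrim n) {E0 : ℝ} {d e : Eis}
    (hd : IsPrim d) (he : e ∈ S E0) (b e₁ : Eis) :
    afR b e₁ be E0 d e = (fun m => be (d * m)) ∨ afR b e₁ be E0 d e = fun _ => 0 := by
  by_cases h : b ∣ d ∧ IsCoprime d e₁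
  · left
    funext m
    unfold E3Kf548.afR
    rw [if_pos h]
    unfold E3Kc548.afT
    by_cases hm : IsPrim m
    · rw [if_pos ⟨hm, hd, he⟩]
    · rw [if_neg fun h => hm h.1]
      by_contra h0
      exact hm ((hp _ (Ne.symm h0)).of_mul_left hd)
  · right
    funext m
    unfold E3Kf548.afR
    rw [if_neg h]

/-- the sum of the norms -/
lemma SE_le {D Y₀ Y₁ E0 : ℝ} (hD : 0 ≤ D) (hE : 0 ≤ E0) :
    SE ((JW D Y₀ Y₁).image Prod.fst) (S E0) ≤ 10000 * (D * E0 ^ 2) := by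
  have h1 : (((JW D Y₀ Y₁).image Prod.fst).card : ℝ) ≤ 100 * D := by
    have h2 : (JW D Y₀ Y₁).image Prod.fst ⊆ primBall ⌊D⌋₊ := by
      intro d hd
      obtain ⟨x, hx, rfl⟩ := mem_image.1 hd
      unfold C70.JW at hx
      exact (mem_product.1 (mem_filter.1 hx).1).1
    have h3 : (((JW D Y₀ Y₁).image Prod.fst).card : ℝ) ≤ ((primBall ⌊D⌋₊).card : ℝ) := by
      exact_mod_cast card_le_card h2
    have h4 : ((primBall ⌊D⌋₊).card : ℝ) ≤ 100 * ((⌊D⌋₊ : ℕ) : ℝ) := Lat277.card_primBall_le _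
    have h5 := Nat.floor_le hD
    linarith
  have h6 : ((S E0).card : ℝ) ≤ 100 * E0 := by
    have h1 : (S E0).card ≤ (primBall ⌊E0⌋₊).card := Finset.card_le_card (Finset.filter_subset _ _)
    have h2 : ((primBall ⌊E0⌋₊).card : ℝ) ≤ 100 * ((⌊E0⌋₊ : ℕ) : ℝ) := Lat277.card_primBall_le ⌊E0⌋₊
    have h3 := Nat.floor_le hE
    have h1' : ((S E0).card : ℝ) ≤ ((primBall ⌊E0⌋₊).card : ℝ) := by exact_mod_cast h1
    linarith
  have h7 : ∑ e ∈ S E0, (nm e : ℝ) ≤ 100 * E0 * E0 := by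
    calc ∑ e ∈ S E0, (nm e : ℝ) ≤ ∑ _e ∈ S E0, E0 :=
          sum_le_sum fun e he => ((mem_S hE).1 he).1
      _ = (S E0).card * E0 := by rw [sum_const, nsmul_eq_mul]
      _ ≤ _ := mul_le_mul_of_nonneg_right h6 hE
  have h8 : 0 ≤ ∑ e ∈ S E0, (nm e : ℝ) := sum_nonneg fun _ _ => Nat.cast_nonneg _
  unfold RoX116.SE
  rw [sum_const, nsmul_eq_mul]
  calc (((JW D Y₀ Y₁).image Prod.fst).card : ℝ) * ∑ e ∈ S E0, (nm e : ℝ) ≤
        (100 * D) * (100 * E0 * E0) := mul_le_mul h1 h7 h8 (by positivity)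
    _ = _ := by ring

/-- (RH) for the restricted sequences -/
lemma rhr_of {A : ℕ} {J : Finset (Eis × Eis)} {E0 m : ℝ} {be : Eis → ℂ}
    {W0 : Eis → Eis → ℝ → ℝ} (hJ : ∀ x ∈ J, IsPrim x.1) (hp : ∀ n, be n ≠ 0 → IsPrim n)
    (hW : ∀ d e P, 0 < P → 0 ≤ W0 d e P)
    (H : ∀ d ∈ J.image Prod.fst, ∀ e ∈ S E0, ∀ γ π, IsPrim γ → IsPrim π → (nm π : ℝ) ≤ m →
      ∀ P : ℝ, 0 < P → (nm γ : ℝ) * n6 γ ^ 2 * ∑ r ∈ bl P, RMm A (fun n => be (d * n)) e γ π r ≤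
        W0 d e P) (b e₁ : Eis) :
    RHR m A (RR J (S E0)) (afR b e₁ be E0) W0 := by
  rintro ⟨d, e⟩ hρ γ π hγ hπ hπm P hP
  unfold E3T829.RR at hρ
  obtain ⟨hd, he⟩ := mem_product.1 hρ
  have hd' : IsPrim d := by
    obtain ⟨x, hx, hx'⟩ := mem_image.1 hd
    have h1 : x.1 = d := hx'
    rw [← h1]
    exact hJ x hx
  have he' : e ∈ S E0 := he
  show (nm γ : ℝ) * n6 γ ^ 2 * ∑ r ∈ bl P, RMm A (afR b e₁ be E0 d e) e γ π r ≤ W0 d e P
  rcases afR_cases hp hd' he' b e₁ with h | h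
  · rw [h]
    exact H d hd e he' γ π hγ hπ hπm P hP
  · rw [h]
    simp only [RMm_zero, sum_const_zero, mul_zero]
    exact hW d e P hP

/-- **the `R`-number of a level by the top level** -/
lemma lev_R {K' H X c K1 E E0 : ℝ} {N₁ a i : ℕ} {Ds : Finset Eis} (hK : 0 < K') (hH : 0 < H)
    (hX : 0 < X) (hN : 1 ≤ N₁) (hc : 0 < c) (hK1 : 0 ≤ K1) (hE : 0 ≤ E)
    (hDs : ∀ d ∈ Ds, (1 : ℝ) ≤ nm d) (hi : i ∈ LI (1 / 10) N₁) :
    FH K' H (Real.exp i) * RNp c K' H X (Real.exp i)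
      (fun d _e => W2 a (c * (X * (Real.exp 1 * N₁) * H / K')) (K1 * (E / nm d) ^ (2 / 3 : ℝ)))
      Ds (S E0) ≤
    (if 1 ≤ H * (Real.exp 1 * N₁) ^ 2 / K' then FH K' H (Real.exp 1 * N₁) *
      G2 (H * (Real.exp 1 * N₁) ^ 2 / K')
      (c * (H * (Real.exp 1 * N₁) ^ 2 / K') * (X * (Real.exp 1 * N₁) * H / K') ^ (-(1 / 2) : ℝ))
      (1 * (X * (Real.exp 1 * N₁) * H / K')) else 0) * (K1 * E ^ (2 / 3 : ℝ)) * SE Ds (S E0) := by
  obtain ⟨h1, -, h3⟩ := mem_LI hi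
  have hN0 : (0 : ℝ) < N₁ := by exact_mod_cast hN
  have hV : (0 : ℝ) < Real.exp 1 * N₁ := by positivity
  obtain ⟨V, hVd⟩ : ∃ V, V = Real.exp 1 * (N₁ : ℝ) := ⟨_, rfl⟩
  rw [← hVd] at h3 hV ⊢
  have hs : 0 < Real.exp i / V := by positivity
  have hs1 : Real.exp i / V ≤ 1 := (div_le_one hV).2 h3
  have e1 : V * (Real.exp i / V) = Real.exp i := by field_simp
  have key := RN2_top (a := a) (β := 1) (Ds := Ds) (EE := S E0) hK hH hX hV hs hs1 hc one_pos hK1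
    hE hDs
  rw [e1] at key
  unfold RoP579.RNp
  refine le_trans (le_of_eq ?_) key
  rw [one_mul]
  rfl

end Crest.Agent.R017.RLo64
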