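import Crest.Agent.R017.OTb_551
import Crest.Agent.R017.E3Kc_548
import Crest.Agent.R017.E3Zc_548

/-!
# Row 17, (Ro) (helper813): the T-part of the restricted families

* `afP` : `if P d then afT α E0 d e m else 0`
* `TN_afP_le` : `TN` of the restricted sequence
* `TPr` : the three lines of `LVn` by `EHf`
* `EF_afP_le` : `EF` of the restricted sequence
-/

set_option autoImplicit false
set_option linter.unusedVariables false

noncomputable section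

open Finset
open scoped Classical ComplexConjugate

namespace Crest.Agent.R017.RoT813

open Crest.Agent.R012 Crest.Agent.R012.Eis Crest.Agent.R012.Div277
open Crest.Agent.R012.LS2 (S mem_S)
open Crest.Agent.R017.C70 (JC OKJ JW okJ_JW)
open Crest.Agent.R017.CM106 (CS FS)
open Crest.Agent.R017.E1551 (Adm nmpos)
open Crest.Agent.R017.PX764 (n6 Gh)
open Crest.Agent.R017.E3D579 (TE0)
open Crest.Agent.R017.E3M829 (TC Tal)
open Crest.Agent.R017.E3F548 (EF)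
open Crest.Agent.R017.E3T1579 (T3)
open Crest.Agent.R017.E3T829 (cg)
open Crest.Agent.R017.E3Z548 (JV JVc mem_JV TN)
open Crest.Agent.R017.E3Kc548 (afT T3_afT)
open Crest.Agent.R017.EHu320 (EHc)

/-- the restricted sequences -/
def afP (P : Eis → Prop) (α : Eis → ℂ) (E0 : ℝ) (d e m : Eis) : ℂ :=
  if P d then afT α E0 d e m else 0

variable {P : Eis → Prop} {α : Eis → ℂ} {E0 : ℝ}

lemma afP_eq (hp : ∀ n, α n ≠ 0 → IsPrim n) {d e : Eis} (hd : IsPrim d) (he : e ∈ S E0)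
    (hP : P d) : afP P α E0 d e = fun m => α (d * m) := by
  funext m
  unfold afP E3Kc548.afT
  rw [if_pos hP]
  by_cases hm : IsPrim m
  · rw [if_pos ⟨hm, hd, he⟩]
  · rw [if_neg fun h => hm h.1]
    by_contra h
    exact hm ((hp _ (Ne.symm h)).of_mul_left hd)

lemma afP_zero {d : Eis} (hP : ¬ P d) (e : Eis) : afP P α E0 d e = fun _ => (0 : ℂ) := by
  funext m
  unfold afP
  rw [if_neg hP]

lemma cg_zero (γ : Eis) : cg γ (fun _ => (0 : ℂ)) = fun _ => (0 : ℂ) := by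
  funext m
  unfold E3T829.cg
  split_ifs <;> rfl

/-- **`TN` of the restricted sequence** -/
theorem TN_afP_le (hp : ∀ n, α n ≠ 0 → IsPrim n) {we : Eis → ℝ} (hwe : ∀ e, 0 ≤ we e)
    {Ds EE : Finset Eis} (hDs : ∀ d ∈ Ds, IsPrim d) (hEE : ∀ e ∈ EE, e ∈ S E0)
    {om : Eis → ℝ} {Gs : Finset Eis} (hom : ∀ γ ∈ Gs, 0 ≤ om γ) (A : Eis → Eis → Finset Eis)
    (dl : Eis → Eis) :
    TN (afP P α E0) we Ds EE om Gs A dl ≤ TN (fun d _ m => α (d * m)) we Ds EE om Gs A dl := by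
  unfold E3Z548.TN
  refine sum_le_sum fun d hd => sum_le_sum fun e he => ?_
  refine mul_le_mul_of_nonneg_left ?_ (mul_nonneg (by positivity) (hwe e))
  refine sum_le_sum fun γ hγ => mul_le_mul_of_nonneg_left (sum_le_sum fun j _ => ?_) (hom γ hγ)
  by_cases hP : P d
  · rw [afP_eq hp (hDs d hd) (hEE e he) hP]
  · rw [afP_zero hP, cg_zero, E3T1579.TE0_zero, norm_zero, zero_pow two_ne_zero]
    positivity

/-- **the three lines of `LVn` by `EHf`** -/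
theorem TPr_gen (R : ℝ) (hR : 0 ≤ R) (A : ℕ) (hA : 2 ≤ A) {ε : ℝ} (hε : 0 < ε) :
    ∃ C : ℝ, 0 ≤ C ∧
    ∀ (Y X K K' Z E0 V c : ℝ), 0 ≤ Y → 0 < X → 0 < K' → K' ≤ K → 1 ≤ Z → 0 ≤ E0 → 0 < V →
      0 ≤ c → c * V ≤ Z →
    ∀ α : Eis → ℂ, Adm Y X R α → ∀ (P : Eis → Prop)
      (Ds EE : Finset Eis) (om : Eis → ℝ) (Gs : Finset Eis)
      (As : Eis → Eis → Finset Eis) (dl : Eis → Eis),
      (∀ d ∈ Ds, IsPrim d) → (∀ e ∈ EE, e ∈ S E0) →
      (∀ γ ∈ Gs, IsPrim γ ∧ 0 ≤ om γ ∧ om γ ≤ (nm γ : ℝ) ^ (-(1 / 2) : ℝ)) →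
      (∀ d ∈ Ds, ∀ γ ∈ Gs, As d γ ⊆ JV c V d γ) →
      K' ^ (2 / 3 : ℝ) * V ^ (-(1 / 3) : ℝ) *
        TN (afP P α E0) (fun e => (nm e : ℝ)) Ds EE om Gs As dl ≤
      C * (Z ^ ε * c ^ (1 / 3 : ℝ) * E0 ^ 2) * ((K / X) *
        EHc (fun n => ((n : ℝ))⁻¹) (fun _ => True) A K X Y Z α) := by
  obtain ⟨C, hC, h⟩ := OT551.TN_le_EHf R hR A hA hε
  refine ⟨C, hC, ?_⟩
  intro Y X K K' Z E0 V c hY hX hK' hKK hZ hE0 hV hc hcV α hα P Ds EE om Gs As dl hDs hEE hG hAs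
  have hK : 0 < K := hK'.trans_le hKK
  have h1 := h Y X K Z E0 V c 1 hY hX hK hZ hE0 hV hc zero_le_one hcV α hα (fun e => (nm e : ℝ))
    Ds EE om Gs As dl hDs hEE (fun e _ => by rw [one_mul]) hG hAs
  have hp : ∀ n, α n ≠ 0 → IsPrim n := fun n hn => ((mem_S hY).1 (hα.sup n hn)).2.1
  have h2 := TN_afP_le (P := P) (E0 := E0) hp (we := fun e => (nm e : ℝ))
    (fun e => Nat.cast_nonneg _) hDs hEE (fun γ hγ => (hG γ hγ).2.1) As dl
  have h0 : 0 ≤ TN (afP P α E0) (fun e => (nm e : ℝ)) Ds EE om Gs As dl := by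
    unfold E3Z548.TN
    refine sum_nonneg fun d _ => sum_nonneg fun e _ => mul_nonneg (by positivity) ?_
    exact sum_nonneg fun γ hγ => mul_nonneg (hG γ hγ).2.1 (sum_nonneg fun j _ => by positivity)
  have h3 : K' ^ (2 / 3 : ℝ) ≤ K ^ (2 / 3 : ℝ) := Real.rpow_le_rpow hK'.le hKK (by norm_num)
  rw [mul_one] at h1
  refine le_trans ?_ h1
  gcongr

/-- `EHf` form, the three lines -/
theorem TPr (R : ℝ) (hR : 0 ≤ R) (A : ℕ) (hA : 2 ≤ A) {ε : ℝ} (hε : 0 < ε) :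
    ∃ C : ℝ, 0 ≤ C ∧
    ∀ (Y X K K' Z E0 V c Y2 : ℝ), 0 ≤ Y → 0 < X → 0 < K' → K' ≤ K → 1 ≤ Z → 0 ≤ E0 → 0 < V →
      0 ≤ c → c * V ≤ Z →
    ∀ α : Eis → ℂ, Adm Y X R α → ∀ (P : Eis → Prop) (Ds EE : Finset Eis),
      (∀ d ∈ Ds, IsPrim d) → (∀ e ∈ EE, e ∈ S E0) →
      K' ^ (2 / 3 : ℝ) * V ^ (-(1 / 3) : ℝ) *
          TN (afP P α E0) (fun e => (nm e : ℝ)) Ds EE (fun _ => 1) {1} (JVc c V) id ≤
        C * (Z ^ ε * c ^ (1 / 3 : ℝ) * E0 ^ 2) * ((K / X) *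
          EHc (fun n => ((n : ℝ))⁻¹) (fun _ => True) A K X Y Z α) ∧
      K' ^ (2 / 3 : ℝ) * V ^ (-(1 / 3) : ℝ) *
          TN (afP P α E0) (fun e => (nm e : ℝ)) Ds EE (fun γ => (nm γ : ℝ)⁻¹) (primBall ⌊Y2⌋₊)
            (JV c V) (fun _ => 1) ≤
        C * (Z ^ ε * c ^ (1 / 3 : ℝ) * E0 ^ 2) * ((K / X) *
          EHc (fun n => ((n : ℝ))⁻¹) (fun _ => True) A K X Y Z α) ∧
      K' ^ (2 / 3 : ℝ) * V ^ (-(1 / 3) : ℝ) *
          TN (afP P α E0) (fun e => (nm e : ℝ)) Ds EE (fun γ => (nm γ : ℝ) ^ (-(1 / 2) : ℝ))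
            (primBall ⌊Y2⌋₊) (JV c V) (fun _ => 1) ≤
        C * (Z ^ ε * c ^ (1 / 3 : ℝ) * E0 ^ 2) * ((K / X) *
          EHc (fun n => ((n : ℝ))⁻¹) (fun _ => True) A K X Y Z α) := by
  obtain ⟨C, hC, h⟩ := TPr_gen R hR A hA hε
  refine ⟨C, hC, ?_⟩
  intro Y X K K' Z E0 V c Y2 hY hX hK' hKK hZ hE0 hV hc hcV α hα P Ds EE hDs hEE
  refine ⟨?_, ?_, ?_⟩
  · refine h Y X K K' Z E0 V c hY hX hK' hKK hZ hE0 hV hc hcV α hα P Ds EE (fun _ => 1) {1}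
      (JVc c V) id hDs hEE ?_ ?_
    · intro γ hγ
      rw [mem_singleton] at hγ
      subst hγ
      refine ⟨isPrim_one, zero_le_one, ?_⟩
      rw [nm_one, Nat.cast_one, Real.one_rpow]
    · intro d _ γ _
      exact filter_subset _ _
  · refine h Y X K K' Z E0 V c hY hX hK' hKK hZ hE0 hV hc hcV α hα P Ds EE
      (fun γ => (nm γ : ℝ)⁻¹) (primBall ⌊Y2⌋₊) (JV c V) (fun _ => 1) hDs hEE ?_
      (fun _ _ _ _ => Subset.rfl)
    intro γ hγ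
    have hγp := (mem_primBall.1 hγ).2
    have h1 : (1 : ℝ) ≤ nm γ := by exact_mod_cast nm_pos.2 hγp.ne_zero
    refine ⟨hγp, by positivity, ?_⟩
    rw [← Real.rpow_neg_one]
    exact Real.rpow_le_rpow_of_exponent_le h1 (by norm_num)
  · refine h Y X K K' Z E0 V c hY hX hK' hKK hZ hE0 hV hc hcV α hα P Ds EE
      (fun γ => (nm γ : ℝ) ^ (-(1 / 2) : ℝ)) (primBall ⌊Y2⌋₊) (JV c V) (fun _ => 1) hDs hEE ?_
      (fun _ _ _ _ => Subset.rfl)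
    intro γ hγ
    exact ⟨(mem_primBall.1 hγ).2, by positivity, le_rfl⟩

/-- **`EF` of the restricted sequence** -/
theorem EF_afP_le (hp : ∀ n, α n ≠ 0 → IsPrim n) (om : Eis × Eis → ℂ) {x : Eis × Eis}
    (hx : IsPrim x.1) :
    EF om (T3 (afP P α E0)) E0 x ≤ EF om (Tal α) E0 x := by
  unfold E3F548.EF
  have h1 : ∀ e ∈ S E0, ‖T3 (afP P α E0) x.1 e x.2‖ ≤ ‖Tal α x.1 e x.2‖ := by
    intro e he
    by_cases hP : P x.1
    · have e1 : T3 (afP P α E0) x.1 e x.2 = T3 (afT α E0) x.1 e x.2 := by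
        unfold E3T1579.T3
        congr 1
        funext m
        unfold afP
        rw [if_pos hP]
      rw [e1, T3_afT hp hx he]
    · unfold E3T1579.T3
      rw [afP_zero hP, E3T1579.TE0_zero, norm_zero]
      positivity
  have h2 : ∑ e ∈ S E0, ‖T3 (afP P α E0) x.1 e x.2‖ ≤ ∑ e ∈ S E0, ‖Tal α x.1 e x.2‖ :=
    sum_le_sum h1
  have h3 : 0 ≤ ∑ e ∈ S E0, ‖T3 (afP P α E0) x.1 e x.2‖ := sum_nonneg fun _ _ => norm_nonneg _
  gcongr

end Crest.Agent.R017.RoT813
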