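import Crest.Agent.R017.RLd_381

/-!
# Row 17, T.5 (RG), the off-diagonal leaf: the real side (helper298, text of helper64)

* `RoN` : the real inequalities; `ro_num` : they hold for large `X`
-/

set_option autoImplicit false

noncomputable section

namespace Crest.Agent.R017.RoNum298

open Crest.Agent.R012 Crest.Agent.R012.Eis
open Crest.Agent.R017.FE47
open Crest.Agent.R017.Prov71
open Crest.Agent.R017.Leg381
open Crest.Agent.R017.RG64
open Crest.Agent.R017.XP699 (LL)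

/-- the real inequalities of the off-diagonal leaf, `n = LF ps` -/
structure RoN (K c μ c₁ X X' K' Lv n : ℝ) (N₁ : ℕ) : Prop where
  K0 : 0 < K'
  KK : K' ≤ X ^ K
  Kl : K * Real.log X - 40 * (c * Real.log X) ≤ Real.log K'
  Ku : Real.log K' ≤ K * Real.log X
  KZ : X ^ K ≤ (X ^ (K + 1)) ^ 5
  NZ : (N₁ : ℝ) ≤ X ^ (K + 1)
  EZ2 : (X ^ c) ^ 2 ≤ X ^ (K + 1)
  EZ14 : (X ^ c) ^ 14 ≤ X ^ (K + 1)
  DZ : X ^ c ≤ X ^ (K + 1)
  XZ : X' ≤ (X ^ (K + 1)) ^ 5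
  cN : c₁ * (Real.exp 1 * N₁) ≤ (X ^ (K + 1)) ^ 5
  cH : c₁ * ((X ^ c) ^ 20 * (Real.exp 1 * N₁) ^ 2) ≤ K' * X'
  ZT : c₁ * (Real.exp 1 * Real.exp 1) * N₁ ≤ X ^ (K + 1)
  num : c₁ * ((X ^ c) ^ 20) ^ 2 * (Real.exp 1 * N₁) ^ 3 * ((X ^ c) ^ 14) ^ 4 * ((X ^ c) ^ 2) ^ 4 ≤
    K' ^ 2
  P0 : 0 < c₁ * (X' * (Real.exp 1 * N₁) * (X ^ c) ^ 20 / K')
  P1X : c₁ * (X' * (Real.exp 1 * N₁) * (X ^ c) ^ 20 / K') ≤ X ^ (K + 3)
  PI : 81 * (c₁ * (X' * (Real.exp 1 * N₁) * (X ^ c) ^ 20 / K')) * X ^ (μ / 2) ≤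
    Real.exp (Lv + n - K * Real.log X + μ * Real.log X)
  Im : Lv + n - K * Real.log X + μ * Real.log X ≤ (K + 3) * Real.log X
  cZ : c₁ * (X ^ (K + 1)) ^ 300 ≤ X ^ (300 * (K + 1) + 1)
  Vl : Lv ≤ Real.log (Real.exp 1 * N₁)
  Vu : Real.log (Real.exp 1 * N₁) ≤ Lv + 5
  XY : ∀ m : ℝ, 0 < m → |Real.log m - Real.log X'| ≤ 1 → m ≤ X ^ (8 * (K + 1))

lemma exp_pow' (x : ℝ) (n : ℕ) : Real.exp x ^ n = Real.exp (n * x) := (Real.exp_nat_mul x n).symm

set_option maxHeartbeats 800000 in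
/-- **the real side** -/
theorem ro_num {K c μ c₁ R : ℝ} (hc : 0 < c) (hμ : 1000 * c ≤ μ) (hμ1 : μ ≤ 1)
    (hK : 2000 * c ≤ K) (hc₁ : 1 ≤ c₁) (hR : 0 ≤ R) : ∃ X₁ : ℝ, ∀ X : ℝ, 3 ≤ X → X₁ ≤ X →
    ∀ (ε : ℝ) (ps₀ : List Pq) (ps : List Pf) (Lv : ℝ) (N₀ N₁ : ℕ), 0 < ε → 0 ≤ LF ps →
    RFacts K c ε X ps₀ ps Lv N₀ N₁ → ∀ X' K' : ℝ, 0 < X' → |Real.log X' - LF ps| ≤ R + 1 →
    (K' = X ^ K ∨ K' = X ^ K * Real.exp (-RLD381.hE (X ^ c))) →
    RoN K c μ c₁ X X' K' Lv (LF ps) N₁ := by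
  obtain ⟨lc, hlc⟩ : ∃ x : ℝ, x = Real.log c₁ := ⟨_, rfl⟩
  have hlc0 : 0 ≤ lc := by rw [hlc]; exact Real.log_nonneg hc₁
  have ec₁ : c₁ = Real.exp lc := by rw [hlc, Real.exp_log (by linarith)]
  obtain ⟨T, hT⟩ : ∃ x : ℝ, x = 40 + lc + 2 * R := ⟨_, rfl⟩
  have hT0 : 0 < T := by rw [hT]; linarith
  refine ⟨Real.exp (T / c), ?_⟩
  intro X hX3 hXX ε ps₀ ps Lv N₀ N₁ hε hn0 hF X' K' hX'0 hX' hK'
  have hX0 : 0 < X := by linarith
  obtain ⟨n, hn⟩ : ∃ x : ℝ, x = LF ps := ⟨_, rfl⟩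
  obtain ⟨l, hl⟩ : ∃ x : ℝ, x = Real.log X := ⟨_, rfl⟩
  have hlT : T / c ≤ l := by rw [hl, Real.le_log_iff_exp_le hX0]; exact hXX
  have hcl : T ≤ c * l := by
    rw [div_le_iff₀ hc] at hlT
    linarith
  have hcl0 : 0 < c * l := by linarith
  have hl0 : 0 < l := by
    rcases lt_or_ge 0 l with h | h
    · exact h
    · exfalso
      have : c * l ≤ 0 := mul_nonpos_of_nonneg_of_nonpos hc.le h
      linarith
  have hc1 : c ≤ 1 / 1000 := by linarith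
  have hcll : 1000 * (c * l) ≤ l := by
    have := mul_le_mul_of_nonneg_right hc1 hl0.le
    linarith
  have hK0 : 0 < K := by linarith
  have hKl0 : 0 < K * l := by positivity
  have hKcl : 2000 * (c * l) ≤ K * l := by
    rw [← mul_assoc]; exact mul_le_mul_of_nonneg_right hK hl0.le
  have hμl : 1000 * (c * l) ≤ μ * l := by
    rw [← mul_assoc]; exact mul_le_mul_of_nonneg_right hμ hl0.le
  have hμl1 : μ * l ≤ l := by
    have := mul_le_mul_of_nonneg_right hμ1 hl0.le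
    linarith
  have hεc : ε * l ≤ c * l := mul_le_mul_of_nonneg_right hF.ec hl0.le
  have hε0 : 0 < ε * l := by positivity
  have hpowX : ∀ x : ℝ, X ^ x = Real.exp (x * l) := fun x => by
    rw [Real.rpow_def_of_pos hX0, hl, mul_comm]
  -- the facts
  have f3 := hF.hi
  have f4 := hF.v0
  have f5 := hF.v3
  have f8 := hF.N1
  have f9 := hF.n56
  have f10 := hF.vn
  rw [← hl] at f3 f5 f9 f10
  rw [← hn] at f3 f10 hn0 hX'
  have f9' : 6 * LL Dq ps₀ ≤ 5 * (K * l) + ε * l := by linarith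
  have f5' : 3 * Lv + 200 * (c * l) ≤ 2 * (K * l) := by linarith
  have hn6 : 6 * n ≤ 5 * (K * l) + 7 * (c * l) := by linarith
  -- logs
  have hN₁0 : (0 : ℝ) < N₁ := by
    have h1 := hF.N0
    have h2 : (N₀ : ℝ) ≤ N₁ := by exact_mod_cast hF.N01
    exact (Real.exp_pos Lv).trans_le (h1.trans h2)
  obtain ⟨ν, hν⟩ : ∃ x : ℝ, x = Real.log N₁ := ⟨_, rfl⟩
  have eN : (N₁ : ℝ) = Real.exp ν := by rw [hν, Real.exp_log hN₁0]
  have hν1 : Lv ≤ ν := by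
    rw [hν, Real.le_log_iff_exp_le hN₁0]
    exact hF.N0.trans (by exact_mod_cast hF.N01)
  have hν2 : ν ≤ Lv + 4 := by
    rw [hν, Real.log_le_iff_le_exp hN₁0]
    linarith
  obtain ⟨x', hx'⟩ : ∃ x : ℝ, x = Real.log X' := ⟨_, rfl⟩
  have eX' : X' = Real.exp x' := by rw [hx', Real.exp_log hX'0]
  rw [← hx'] at hX'
  obtain ⟨hX1, hX2⟩ := abs_le.1 hX'
  obtain ⟨κ, hκ, hκ1, hκ2⟩ : ∃ κ : ℝ, K' = Real.exp κ ∧ K * l - 7 * (c * l) ≤ κ ∧ κ ≤ K * l := by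
    rcases hK' with h | h
    · exact ⟨K * l, by rw [h, hpowX], by linarith, le_rfl⟩
    · refine ⟨K * l - 7 * (c * l), ?_, le_rfl, by linarith⟩
      rw [h, hpowX, ← Real.exp_add]
      congr 1
      unfold RLD381.hE
      rw [hpowX, Real.log_exp]
      ring
  have hlogK : Real.log K' = κ := by rw [hκ, Real.log_exp]
  have hZ : ∀ m : ℕ, (X ^ (K + 1)) ^ m = Real.exp (m * (K * l + l)) := fun m => by
    rw [hpowX, exp_pow']; congr 2; ring
  have hZ1 : X ^ (K + 1) = Real.exp (K * l + l) := by rw [hpowX]; congr 1; ring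
  have hC : ∀ m : ℕ, (X ^ c) ^ m = Real.exp (m * (c * l)) := fun m => by
    rw [hpowX, exp_pow']
  have hP1 : c₁ * (X' * (Real.exp 1 * N₁) * (X ^ c) ^ 20 / K') =
      Real.exp (lc + (x' + (1 + ν) + 20 * (c * l) - κ)) := by
    rw [ec₁, eX', eN, hC, hκ]
    rw [← Real.exp_add, ← Real.exp_add, ← Real.exp_add, ← Real.exp_sub, ← Real.exp_add]
    push_cast
    rfl
  rw [← hn]
  constructor
  · rw [hκ]; exact Real.exp_pos _
  · rw [hκ, hpowX]; exact Real.exp_le_exp.2 hκ2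
  · rw [hlogK, ← hl]; linarith
  · rw [hlogK, ← hl]; exact hκ2
  · rw [hZ, hpowX]; push_cast; exact Real.exp_le_exp.2 (by linarith)
  · rw [hZ1, eN]; exact Real.exp_le_exp.2 (by linarith)
  · rw [hC, hZ1]; push_cast; exact Real.exp_le_exp.2 (by linarith)
  · rw [hC, hZ1]; push_cast; exact Real.exp_le_exp.2 (by linarith)
  · rw [hpowX, hZ1]; exact Real.exp_le_exp.2 (by linarith)
  · rw [hZ, eX']; push_cast; exact Real.exp_le_exp.2 (by linarith)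
  · rw [hZ, ec₁, eN, ← Real.exp_add, ← Real.exp_add]; push_cast
    exact Real.exp_le_exp.2 (by linarith)
  · rw [hC, hκ, eX', ec₁, eN, ← Real.exp_add, ← Real.exp_add, exp_pow', ← Real.exp_add,
      ← Real.exp_add]
    push_cast
    exact Real.exp_le_exp.2 (by linarith)
  · rw [hZ1, ec₁, eN, ← Real.exp_add, ← Real.exp_add, ← Real.exp_add]
    exact Real.exp_le_exp.2 (by linarith)
  · rw [hC, hC, hC, hκ, ec₁, eN, ← Real.exp_add, exp_pow', exp_pow', exp_pow', exp_pow', exp_pow',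
      ← Real.exp_add, ← Real.exp_add, ← Real.exp_add, ← Real.exp_add]
    push_cast
    exact Real.exp_le_exp.2 (by linarith)
  · rw [hP1]; exact Real.exp_pos _
  · rw [hP1, hpowX]
    refine Real.exp_le_exp.2 ?_
    have : (K + 3) * l = K * l + 3 * l := by ring
    linarith
  · rw [hP1, hpowX, ← hl]
    have h81 : (81 : ℝ) ≤ Real.exp 5 := by
      have h1 := Real.add_one_le_exp (1 : ℝ)
      have h2 : (2.7 : ℝ) ≤ Real.exp 1 := by
        have := Real.exp_one_gt_d9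
        linarith
      have h3 : Real.exp 5 = Real.exp 1 ^ 5 := by rw [exp_pow']; norm_num
      rw [h3]
      calc (81 : ℝ) ≤ 2.7 ^ 5 := by norm_num
        _ ≤ Real.exp 1 ^ 5 := by gcongr
    have h4 : 81 * Real.exp (lc + (x' + (1 + ν) + 20 * (c * l) - κ)) * Real.exp (μ / 2 * l) ≤
        Real.exp 5 * Real.exp (lc + (x' + (1 + ν) + 20 * (c * l) - κ)) * Real.exp (μ / 2 * l) := by
      gcongr
    refine h4.trans ?_
    rw [← Real.exp_add, ← Real.exp_add]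
    refine Real.exp_le_exp.2 ?_
    have : μ / 2 * l = μ * l / 2 := by ring
    linarith
  · rw [← hl]
    have : (K + 3) * l = K * l + 3 * l := by ring
    linarith
  · rw [hZ, hpowX, ec₁, ← Real.exp_add]
    push_cast
    refine Real.exp_le_exp.2 ?_
    have : (300 * (K + 1) + 1) * l = 300 * (K * l) + 301 * l := by ring
    linarith
  · rw [eN, ← Real.exp_add, Real.log_exp]; linarith
  · rw [eN, ← Real.exp_add, Real.log_exp]; linarith
  · intro m hm hmx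
    rw [← hx'] at hmx
    obtain ⟨-, h2⟩ := abs_le.1 hmx
    rw [← Real.exp_log hm, hpowX]
    refine Real.exp_le_exp.2 ?_
    have : 8 * (K + 1) * l = 8 * (K * l) + 8 * l := by ring
    linarith

end Crest.Agent.R017.RoNum298
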