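import Crest.Agent.R017.RLoA_64
import Crest.Agent.R017.RoC_116
import Crest.Agent.R017.RoNum_298
import Crest.Agent.R017.RlB_791

/-!
# Row 17, T.5, (Ro) at the leaf (helper64), part B: the line (r3) and the final inequalities

* `TT3`, `mm3` : the exponent of the line at the full length
* `r3_of` : the premise of `RLeafL` for the line (r3)
* `T_fin`, `R_fin` : the final inequalities
-/

set_option autoImplicit false
set_option maxHeartbeats 400000

noncomputable section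

open Finset MeasureTheory
open scoped Classical

namespace Crest.Agent.R017.RLo64

open Crest.Agent.R012 Crest.Agent.R012.Eis Crest.Agent.R012.MC
open Crest.Agent.R012.LS2 (S mem_S bl mem_bl)
open Crest.Agent.R017.CM106 (CS TG FS)
open Crest.Agent.R017.B770
open Crest.Agent.R017.Prov71
open Crest.Agent.R017.Leg381 (Pf alF LF natl)
open Crest.Agent.R017.XRG106 (RFp)
open Crest.Agent.R017.XP699 (LL Chd hcost cst)
open Crest.Agent.R017.RGB545 (Line Th TK LN IN FN GN EN one)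
open Crest.Agent.R017.RoX116

variable {Lam : Type*}

/-- the loss of the line (r3), in units of `log X` -/
def mm3 (K v n : ℝ) : ℝ := max 0 (max ((2 * v - K) / 3) ((3 * v - n - K) / 2))

/-- the exponent of the line (r3) at the full length -/
def TT3 (K μ L v n : ℝ) : ℝ :=
  4 / 3 * n + (v + K * L) / 3 - L * mm3 K (v / L) (n / L) - μ * L

/-- **the premise of the line (r3)** -/
theorem r3_of {π : Lam → DPar} {h : ℝ → ℝ} {lam : Lam} {K c μ ε M r bm X Lf Lv Bd : ℝ}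
    {base : List Pq} (hX : 3 ≤ X) (hK : 0 < K) (hε : 0 ≤ ε)
    (H : ∀ (j : IN) (θ : Th 5 K) (l : ℝ) (ps' : List Pq), 0 ≤ l → l ≤ TK K * Real.log X →
      List.Forall₂ (Chd Dq hcost r bm) ps' base →
      LL Dq ps' ≤ Lf + ε * Real.log X →
      (LN π h c μ j).G ![K, Lv / Real.log X, Lf / Real.log X, l / Real.log X,
        LL Dq ps' / Real.log X] θ.1 ≤ ε →
      ((LN π h c μ j).zl → ∀ q ∈ ps', Dq.lump q → Dq.len q ≤ l + ε * Real.log X) →
      (LN π h c μ j).Φ lam l ((LN π h c μ j).b θ.1 * Real.log X) ps' ≤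
        Bd * cst hcost ps' base ^ M *
        X ^ (4 / 3 * (Lf / Real.log X) + (Lv / Real.log X + K) / 3 +
          (LN π h c μ j).F ![K, Lv / Real.log X, Lf / Real.log X, l / Real.log X,
            LL Dq ps' / Real.log X] θ.1)) {Im : ℝ}
    (hIm : Im = Lv + Lf - K * Real.log X + μ * Real.log X) (hIK : Im ≤ (K + 3) * Real.log X)
    {l : ℝ} {ps' : List Pq} (hl0 : 0 ≤ l) (hl : l ≤ Im)
    (hch : List.Forall₂ (Chd Dq hcost r bm) ps' base)
    (hLL : LL Dq ps' ≤ Lf + ε * Real.log X) :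
    RFp (π lam) h l ps' ≤ Bd * cst hcost ps' base ^ M *
      Real.exp (TT3 K μ (Real.log X) Lv Lf - Lf + LL Dq ps' - (Im - l) / 3) := by
  have hX0 : 0 < X := by linarith
  have hL : 0 < Real.log X := Real.log_pos (by linarith)
  have hTK : 0 ≤ TK K := by unfold RGB545.TK; positivity
  have key := H IN.r3 ⟨0, by
      constructor
      · exact le_rfl
      · intro i; exact hTK⟩ l ps' hl0 (by
      refine (hl.trans hIK).trans (mul_le_mul_of_nonneg_right ?_ hL.le)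
      unfold RGB545.TK
      linarith) hch hLL (by
      show l / Real.log X - (Lv / Real.log X + Lf / Real.log X - K + μ) ≤ ε
      have h1 : l / Real.log X ≤ Lv / Real.log X + Lf / Real.log X - K + μ := by
        rw [div_le_iff₀ hL]
        have h2 : (Lv / Real.log X + Lf / Real.log X - K + μ) * Real.log X =
            Lv + Lf - K * Real.log X + μ * Real.log X := by
          field_simp
        rw [h2, ← hIm]
        exact hl
      linarith) (fun hz => hz.elim)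
  refine le_trans (le_trans (le_of_eq ?_) key) (le_of_eq ?_)
  · rfl
  · congr 1
    rw [Real.rpow_def_of_pos hX0]
    congr 1
    show Real.log X * (4 / 3 * (Lf / Real.log X) + (Lv / Real.log X + K) / 3 +
      -((Lf / Real.log X - LL Dq ps' / Real.log X) +
      max 0 (max ((2 * (Lv / Real.log X) - K) / 3)
        ((3 * (Lv / Real.log X) - Lf / Real.log X - K) / 2)) + μ +
      ((Lv / Real.log X + Lf / Real.log X - K + μ) - l / Real.log X) / 3)) = _
    unfold TT3 mm3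
    rw [hIm]
    generalize max 0 (max ((2 * (Lv / Real.log X) - K) / 3)
        ((3 * (Lv / Real.log X) - Lf / Real.log X - K) / 2)) = mx
    field_simp
    ring

/-- the target of the line (r3), or the length -/
def T3x (K μ L v n : ℝ) : ℝ :=
  if 0 ≤ v + n - K * L + μ * L ∧ n ≤ TT3 K μ L v n then TT3 K μ L v n else n

lemma le_T3x (K μ L v n : ℝ) : n ≤ T3x K μ L v n := by
  unfold T3x
  split_ifs with h
  · exact h.2
  · exact le_rfl

lemma TT3_le {K μ L v n : ℝ} (h : 0 ≤ v + n - K * L + μ * L) :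
    TT3 K μ L v n ≤ T3x K μ L v n := by
  unfold T3x
  split_ifs with h1
  · exact le_rfl
  · push Not at h1
    exact (h1 h).le

lemma TC_T3x {K μ L v n : ℝ} (hL : 0 < L) :
    TC (T3x K μ L v n) n v (K * L) (L * mm3 K (v / L) (n / L)) (μ * L) := by
  unfold T3x
  split_ifs with h
  · right
    have h1 : 0 ≤ mm3 K (v / L) (n / L) := le_max_left _ _
    have h2 : (2 * (v / L) - K) / 3 ≤ mm3 K (v / L) (n / L) :=
      (le_max_left _ _).trans (le_max_right _ _)
    have h3 : (3 * (v / L) - n / L - K) / 2 ≤ mm3 K (v / L) (n / L) :=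
      (le_max_right _ _).trans (le_max_right _ _)
    have g2 := mul_le_mul_of_nonneg_left h2 hL.le
    have g3 := mul_le_mul_of_nonneg_left h3 hL.le
    refine ⟨rfl, by positivity, ?_, ?_, h.1⟩
    · refine le_trans (le_of_eq ?_) g2
      field_simp
    · refine le_trans (le_of_eq ?_) g3
      field_simp
      ring
  · exact Or.inl rfl

/-! ### the final inequalities -/

/-- the constants are small -/
lemma big_const {c k : ℝ} (hc : 0 < c) (hk : 0 ≤ k) : ∃ X₁ : ℝ, ∀ X : ℝ, 3 ≤ X → X₁ ≤ X →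
    k ≤ X ^ (c / 4) := by
  refine ⟨(k + 1) ^ (4 / c), fun X hX hXX => ?_⟩
  have h1 : ((k + 1) ^ (4 / c)) ^ (c / 4) ≤ X ^ (c / 4) :=
    Real.rpow_le_rpow (by positivity) hXX (by positivity)
  rw [← Real.rpow_mul (by positivity)] at h1
  have e1 : 4 / c * (c / 4) = 1 := by field_simp
  rw [e1, Real.rpow_one] at h1
  linarith

/-- the T-part -/
lemma T_fin {X c K C C' c₁ ε' Z : ℝ} (hX : 3 ≤ X) (hc : 0 < c) (hK : 0 < K) (hC : 0 ≤ C)
    (hC' : 0 ≤ C') (hc₁ : 1 ≤ c₁) (hZ : Z = X ^ (K + 1)) (hε' : ε' = c / (16 * (K + 1)))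
    (hbig : C * (1 + C') * c₁ ^ (1 / 3 : ℝ) ≤ X ^ (c / 4)) :
    C * (1 + C' * Z ^ ε') * (Z ^ ε') ^ 3 * (c₁ ^ (1 / 3 : ℝ) *
      ((X ^ c) ^ 20) ^ (-(1 / 3) : ℝ) * (X ^ c) ^ 3) ≤ ((X ^ c) ^ 3)⁻¹ := by
  have hX0 : 0 < X := by linarith
  have hX1 : 1 ≤ X := by linarith
  have e1 : Z ^ ε' = X ^ (c / 16) := by
    rw [hZ, hε', ← Real.rpow_mul hX0.le]
    congr 1
    field_simp
  have e2 : (Z ^ ε') ^ 3 = X ^ (3 * c / 16) := by
    rw [e1, ← Real.rpow_natCast, ← Real.rpow_mul hX0.le]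
    congr 1; push_cast; ring
  have e3 : ((X ^ c) ^ 20) ^ (-(1 / 3) : ℝ) = X ^ (-(20 * c / 3)) := by
    rw [← Real.rpow_natCast, ← Real.rpow_mul hX0.le, ← Real.rpow_mul hX0.le]
    congr 1; push_cast; ring
  have e4 : (X ^ c) ^ 3 = X ^ (3 * c) := by
    rw [← Real.rpow_natCast, ← Real.rpow_mul hX0.le]
    congr 1; push_cast; ring
  have h1 : 1 ≤ X ^ (c / 16) := Real.one_le_rpow hX1 (by positivity)
  have h2 : 1 + C' * X ^ (c / 16) ≤ (1 + C') * X ^ (c / 16) := by nlinarith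
  have hc3 : 0 ≤ c₁ ^ (1 / 3 : ℝ) := by positivity
  rw [e2, e3, e4, e1]
  calc C * (1 + C' * X ^ (c / 16)) * X ^ (3 * c / 16) *
        (c₁ ^ (1 / 3 : ℝ) * X ^ (-(20 * c / 3)) * X ^ (3 * c))
      ≤ C * ((1 + C') * X ^ (c / 16)) * X ^ (3 * c / 16) *
        (c₁ ^ (1 / 3 : ℝ) * X ^ (-(20 * c / 3)) * X ^ (3 * c)) := by gcongr
    _ = (C * (1 + C') * c₁ ^ (1 / 3 : ℝ)) * (X ^ (c / 16) * X ^ (3 * c / 16) *
        X ^ (-(20 * c / 3)) * X ^ (3 * c)) := by ring
    _ ≤ X ^ (c / 4) * (X ^ (c / 16) * X ^ (3 * c / 16) * X ^ (-(20 * c / 3)) * X ^ (3 * c)) := by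
        gcongr
    _ = X ^ (c / 4 + (c / 16 + 3 * c / 16 + -(20 * c / 3) + 3 * c)) := by
        rw [← Real.rpow_add hX0, ← Real.rpow_add hX0, ← Real.rpow_add hX0, ← Real.rpow_add hX0]
    _ ≤ X ^ (-(3 * c)) := Real.rpow_le_rpow_of_exponent_le hX1 (by linarith)
    _ = _ := Real.rpow_neg hX0.le _

/-- the R-part -/
lemma R_fin {X c K C C' ε' Z q Q S5 : ℝ} {k : ℕ} (hX : 3 ≤ X) (hc : 0 < c) (hK : 0 < K)
    (hC : 0 ≤ C) (hC' : 0 ≤ C') (hZ : Z = X ^ (K + 1)) (hε' : ε' = c / (16 * (K + 1)))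
    (hk : (k : ℝ) ≤ (2 + 1 / ε') * Z ^ ε') (hQ : 0 ≤ Q) (hS5 : S5 = X ^ (5 * c))
    (hq : q ≤ k * (S5⁻¹ * Q)) :
    C * (1 + C' * Z ^ ε') * (Z ^ ε') ^ 3 * (X ^ c * q) ≤
      ((X ^ c) ^ 3)⁻¹ * (C * (1 + C') * (2 + 1 / ε') * Q) := by
  have hX0 : 0 < X := by linarith
  have hX1 : 1 ≤ X := by linarith
  have hε0 : 0 < ε' := by rw [hε']; positivity
  have e1 : Z ^ ε' = X ^ (c / 16) := by
    rw [hZ, hε', ← Real.rpow_mul hX0.le]
    congr 1
    field_simp
  have e2 : (Z ^ ε') ^ 3 = X ^ (3 * c / 16) := by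
    rw [e1, ← Real.rpow_natCast, ← Real.rpow_mul hX0.le]
    congr 1; push_cast; ring
  have e4 : (X ^ c) ^ 3 = X ^ (3 * c) := by
    rw [← Real.rpow_natCast, ← Real.rpow_mul hX0.le]
    congr 1; push_cast; ring
  have h1 : 1 ≤ X ^ (c / 16) := Real.one_le_rpow hX1 (by positivity)
  have h2 : 1 + C' * X ^ (c / 16) ≤ (1 + C') * X ^ (c / 16) := by nlinarith
  have h5 : 0 < S5 := by rw [hS5]; positivity
  have h6 : S5⁻¹ = X ^ (-(5 * c)) := by rw [hS5, Real.rpow_neg hX0.le]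
  have h7 : q ≤ ((2 + 1 / ε') * X ^ (c / 16)) * (X ^ (-(5 * c)) * Q) := by
    refine hq.trans ?_
    rw [h6]
    rw [e1] at hk
    exact mul_le_mul_of_nonneg_right hk (by positivity)
  rw [e2, e4, e1]
  calc C * (1 + C' * X ^ (c / 16)) * X ^ (3 * c / 16) * (X ^ c * q)
      ≤ C * (1 + C' * X ^ (c / 16)) * X ^ (3 * c / 16) * (X ^ c *
        (((2 + 1 / ε') * X ^ (c / 16)) * (X ^ (-(5 * c)) * Q))) := by gcongr
    _ ≤ C * ((1 + C') * X ^ (c / 16)) * X ^ (3 * c / 16) * (X ^ c *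
        (((2 + 1 / ε') * X ^ (c / 16)) * (X ^ (-(5 * c)) * Q))) := by gcongr
    _ = (X ^ (c / 16) * X ^ (3 * c / 16) * X ^ c * X ^ (c / 16) * X ^ (-(5 * c))) *
        (C * (1 + C') * (2 + 1 / ε') * Q) := by ring
    _ = X ^ (c / 16 + 3 * c / 16 + c + c / 16 + -(5 * c)) *
        (C * (1 + C') * (2 + 1 / ε') * Q) := by
        rw [← Real.rpow_add hX0, ← Real.rpow_add hX0, ← Real.rpow_add hX0, ← Real.rpow_add hX0]
    _ ≤ X ^ (-(3 * c)) * (C * (1 + C') * (2 + 1 / ε') * Q) := by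
        refine mul_le_mul_of_nonneg_right ?_ (by positivity)
        exact Real.rpow_le_rpow_of_exponent_le hX1 (by linarith)
    _ = _ := by rw [Real.rpow_neg hX0.le]

end Crest.Agent.R017.RLo64
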