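import Crest.Agent.R017.RLoB_64

/-!
# Row 17, T.5, (Ro) at the leaf (helper64), part C: the levels

* `lev_all` : the `R`-numbers of the levels
-/

set_option autoImplicit false
set_option maxHeartbeats 400000

noncomputable section

open Finset MeasureTheory
open scoped Classical

namespace Crest.Agent.R017.RLo64

open Crest.Agent.R012 Crest.Agent.R012.Eis Crest.Agent.R012.MC
open Crest.Agent.R012.LS2 (S mem_S bl mem_bl)
open Crest.Agent.R012.Weight600 (pw)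
open Crest.Agent.R017.CM106 (CS TG FS)
open Crest.Agent.R017.HP842 (sqc)
open Crest.Agent.R017.FE47
open Crest.Agent.R017.B770
open Crest.Agent.R017.Prov71
open Crest.Agent.R017.Leg381 (Pf alF LF natl)
open Crest.Agent.R017.XRG106 (RFp)
open Crest.Agent.R017.XP699 (LL Chd hcost cst)
open Crest.Agent.R017.RG64 (SbL Ht one_le_Ht LBp RFacts RLeafL)
open Crest.Agent.R017.RGB545 (Line Th TK LN IN FN GN EN one)
open Crest.Agent.R017.RLD381 (Numb BeAll NRo hE)
open Crest.Agent.R017.C70 (JW okJ_JW)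
open Crest.Agent.R017.E1551 (Adm)
open Crest.Agent.R017.E3Z548 (FH)
open Crest.Agent.R017.E3T829 (G2 G2_nonneg RR)
open Crest.Agent.R017.E3T1579 (T3)
open Crest.Agent.R017.E3M829 (TC)
open Crest.Agent.R017.E3Sz579 (Ld Md)
open Crest.Agent.R017.E3Kc548 (afT LI mem_LI card_LI)
open Crest.Agent.R017.E3Kf548 (afR TC_afR FS_afR T3_afR_zero afR_sqf afR_win)
open Crest.Agent.R017.E3Sx579 (RHR)
open Crest.Agent.R017.R3571 (W2 RMm RMm_nonneg slp_two)
open Crest.Agent.R017.QsO83 (bw bw_ne FS_bw)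
open Crest.Agent.R017.RGw813 (bt T9 mem_T9)
open Crest.Agent.R017.Win813 (WK wn_ne)
open Crest.Agent.R017.PX764 (n6)
open Crest.Agent.R017.RoP579 (RNp)
open Crest.Agent.R017.RoX116

variable {Lam : Type*}

/-- the window of the windowed sequence -/
lemma bw_win {φ : ℝ → ℝ} {p : ℕ × ℕ} {t : ℝ} {α : Eis → ℂ} {X' η : ℝ}
    (hφ : ∀ u, φ u ≠ 0 → |u - Real.log X'| ≤ η) {n : Eis} (h : bw φ p t α n ≠ 0) :
    |Real.log (nm n) - Real.log X'| ≤ η := by
  have h1 : bt φ α p n ≠ 0 := left_ne_zero_of_mul h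
  exact hφ _ (wn_ne (RGw813.tw2_ne h1)).2

/-- the `R`-numbers at all levels -/
lemma lev_all {K c μ c₁ R L X X' K' Lv n k₁ E0 H S5 C₀ T m : ℝ} {N₁ a i : ℕ} {D : ℝ}
    (hL : 0 < L) (hLX : L = Real.log X) (hX0 : 0 < X)
    (hc : 0 < c) (hcμ : 1000 * c ≤ μ) (hcK : 2000 * c ≤ K) (hc₁ : 1 ≤ c₁)
    (hN : RoNum298.RoN K c μ c₁ X X' K' Lv n N₁) (hX' : 0 < X') (hXn : |Real.log X' - n| ≤ R + 1)
    (hN1 : 1 ≤ N₁) (hn : 0 ≤ n) (hk₁ : 0 ≤ k₁) (hR : 0 ≤ R) (hE0 : E0 = X ^ c) (hD : D = X ^ c)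
    (hH : H = (X ^ c) ^ 20)
    (hS5 : S5 = X ^ (5 * c)) (hC₀ : C₀ = R + 15) (h3 : 3 * Lv ≤ 2 * (K * L))
    (hT : TC T n Lv (K * L) m (μ * L)) (hi : i ∈ LI (1 / 10) N₁) :
    FH K' H (Real.exp i) * RNp c₁ K' H X' (Real.exp i)
      (fun d _e => W2 a (c₁ * (X' * (Real.exp 1 * N₁) * H / K'))
        ((k₁ * Real.exp (T - n)) * (Real.exp n / nm d) ^ (2 / 3 : ℝ)))
      ((JW D (1 / 10) N₁).image Prod.fst) (S E0) ≤
    S5⁻¹ * ((1 + c₁ + 1 ^ (-(2 / 3) : ℝ) + 1 ^ (-(1 / 3) : ℝ)) * Real.exp (11 * C₀ + 0) *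
      ((X ^ K / Real.exp n) * (k₁ * Real.exp (2 * n)))) := by
  have hH0 : 0 < H := by rw [hH]; positivity
  have hE00 : 0 ≤ E0 := by rw [hE0]; positivity
  have hD0 : 0 ≤ D := by rw [hD]; positivity
  have hS50 : 0 < S5 := by rw [hS5]; positivity
  have hJ := okJ_JW D (1 / 10) N₁
  have hDs : ∀ d ∈ (JW D (1 / 10) N₁).image Prod.fst, (1 : ℝ) ≤ nm d := by
    intro d hd
    obtain ⟨x, hx, rfl⟩ := mem_image.1 hd
    exact_mod_cast nm_pos.2 (hJ.prim x hx).ne_zero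
  have h1 := lev_R (a := a) (i := i) (E0 := E0) (K1 := k₁ * Real.exp (T - n)) (E := Real.exp n)
    hN.K0 hH0 hX' hN1 (by linarith : 0 < c₁) (by positivity) (Real.exp_pos _).le hDs hi
  refine h1.trans ?_
  have hSE := SE_le (D := D) (Y₀ := 1 / 10) (Y₁ := N₁) hD0 hE00
  have hSE0 := SE_nonneg ((JW D (1 / 10) N₁).image Prod.fst) (S E0)
  have hV : (0 : ℝ) < Real.exp 1 * N₁ := by
    have : (0 : ℝ) < N₁ := by exact_mod_cast hN1
    positivity
  have eXc : X ^ c = Real.exp (c * L) := by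
    rw [Real.rpow_def_of_pos hX0, hLX, mul_comm]
  have hnp := np_real (K' := K') (H := H) (V := Real.exp 1 * N₁) (X := X') (c := c₁) (β := 1)
    (κ := K * L) (γ := c * L) (n := n) (v := Lv) (T := T) (m := m) (μl := μ * L) (C₀ := C₀)
    (e₀ := 0) (k₁ := k₁) (S := SE ((JW D (1 / 10) N₁).image Prod.fst) (S E0) * S5) hN.K0
    (by
      rw [hH, eXc, ← Real.exp_nat_mul]
      push_cast
      rfl) hV hX' (by linarith) one_pos hT (by positivity)
    (by nlinarith) (by nlinarith)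
    (by rw [hLX]; exact hN.Kl) (by rw [hLX]; exact hN.Ku) hn (by linarith) le_rfl
    (by rw [hC₀]; linarith)
    hN.Vl (hN.Vu.trans (by rw [hC₀]; linarith)) (by
      have := (abs_le.1 hXn).1
      rw [hC₀]; linarith) hk₁ (by
      have e5 : S5 = Real.exp (5 * (c * L)) := by
        rw [hS5, Real.rpow_def_of_pos hX0, hLX]; congr 1; ring
      have e6 : D * E0 ^ 2 = Real.exp (3 * (c * L)) := by
        rw [hD, hE0, eXc, ← Real.exp_nat_mul, ← Real.exp_add]
        congr 1; push_cast; ring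
      have e7 : (10000 : ℝ) ≤ Real.exp C₀ := by
        have h2 : (2 : ℝ) ≤ Real.exp 1 := by
          have := Real.add_one_le_exp (1 : ℝ)
          linarith
        have h3 : (2 : ℝ) ^ 15 ≤ Real.exp 1 ^ 15 := pow_le_pow_left₀ (by norm_num) h2 15
        have h4 : Real.exp 1 ^ 15 ≤ Real.exp C₀ := by
          rw [← Real.exp_nat_mul]
          refine Real.exp_le_exp.2 ?_
          rw [hC₀]; push_cast; linarith
        linarith
      rw [e6] at hSE
      calc SE ((JW D (1 / 10) N₁).image Prod.fst) (S E0) * S5 ≤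
            10000 * Real.exp (3 * (c * L)) * Real.exp (5 * (c * L)) := by
            rw [e5]
            exact mul_le_mul_of_nonneg_right hSE (Real.exp_pos _).le
        _ = 10000 * Real.exp (8 * (c * L)) := by
            rw [mul_assoc, ← Real.exp_add]
            congr 2; ring
        _ ≤ Real.exp C₀ * Real.exp (8 * (c * L)) :=
            mul_le_mul_of_nonneg_right e7 (Real.exp_pos _).le
        _ = _ := by rw [← Real.exp_add]; congr 1; ring) (by positivity)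
  have eK : Real.exp (K * L) = X ^ K := by
    rw [Real.rpow_def_of_pos hX0, hLX, mul_comm]
  rw [eK] at hnp
  have hq : (K' / X ^ K) ^ (2 / 3 : ℝ) ≤ 1 := by
    refine Real.rpow_le_one ?_ ?_ (by norm_num)
    · have := hN.K0.le
      positivity
    · rw [div_le_one (by positivity)]
      exact hN.KK
  obtain ⟨Y, hY⟩ : ∃ Y, Y = (X ^ K / Real.exp n) * (k₁ * Real.exp (2 * n)) := ⟨_, rfl⟩
  have hY0 : 0 ≤ Y := by rw [hY]; positivity
  obtain ⟨kQ, hkQ⟩ : ∃ kQ, kQ = (1 + c₁ + 1 ^ (-(2 / 3) : ℝ) + 1 ^ (-(1 / 3) : ℝ)) *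
    Real.exp (11 * C₀ + 0) := ⟨_, rfl⟩
  have hkQ0 : 0 ≤ kQ := by rw [hkQ]; positivity
  rw [← hY, ← hkQ] at hnp ⊢
  have h2 : kQ * ((K' / X ^ K) ^ (2 / 3 : ℝ) * Y) ≤ kQ * Y := by
    refine mul_le_mul_of_nonneg_left ?_ hkQ0
    exact mul_le_of_le_one_left hY0 hq
  have h3 := hnp.trans h2
  rw [← mul_assoc] at h3
  rw [inv_mul_eq_div, le_div_iff₀ hS50]
  exact h3

end Crest.Agent.R017.RLo64
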