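import Crest.Agent.R017.RHX_116

/-!
# Row 17, P1, exceptional class, mismatch (helper401): the principal class, part a

* `gC_xsR` : helper791's `gC_xs` without sign conditions on the lengths
* `momx_R` : the moments of `xs` at the principal frequencies, no sign conditions
* `rhx0`   : (RH) for `xs` at the principal frequencies, `d = e = γ = 1`
-/

set_option autoImplicit false
set_option maxHeartbeats 1000000

noncomputable section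

open Complex MeasureTheory Filter Topology
open scoped ContDiff

namespace Crest.Agent.R017.RPP401

open Crest.Agent.R012 Crest.Agent.R012.Eis Crest.Agent.R012.Po581 Crest.Agent.R012.Gauss880
open Crest.Agent.R012.LS2 (S mem_S bl mem_bl)
open Crest.Agent.R012.Weight600 (osc norm_osc)
open Crest.Agent.R012.PSer47 Crest.Agent.R012.Div277 Crest.Agent.R012.Mob705
open Crest.Agent.R012.T411 (NCube)
open Crest.Agent.R017.End699 Crest.Agent.R017.FE47 Crest.Agent.R017.Two939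
open Crest.Agent.R017.TXC791
open Crest.Agent.R017.CM106 (CS TG FS)
open Crest.Agent.R017.TP320 (conv tw norm_tw tw_mul)
open Crest.Agent.R017.HP842 (Th sqc FS_conv UT Pc uv pc norm_uv_le)
open Crest.Agent.R017.Sup271 (NPm)
open Crest.Agent.R017.B770
open Crest.Agent.R017.Prov71 (Pq Kd chK)
open Crest.Agent.R017.Leg381 (Pf alF LF fpc fw natw)
open Crest.Agent.R017.OKi848 (OKi ok_pc)
open Crest.Agent.R017.RG64 (Ht)
open Crest.Agent.R017.RX298 (xs zt rp FS_xs)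
open Crest.Agent.R017.NtC320 (gC cB)
open Crest.Agent.R017.ExD791
open Crest.Agent.R017.E1551 (jb jb_pos)
open Crest.Agent.R017.R3571 (RMm RMm_nonneg W2 jc jc_nonneg RM_sum RMm_triv)
open Crest.Agent.R017.RHX116 (card_prin np_cube)

/-- **principal values of the subsequences of `xs`, no sign conditions** -/
theorem gC_xsR {h : ℝ → ℝ} {c : ℝ} (hpu : PU h c) (N : ℕ) {σ : ℝ} (hσ : σ ≤ 1) {B : ℝ}
    (hB : 0 ≤ B) {ε : ℝ} (hε : 0 < ε) :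
    ∃ C : ℝ, 1 ≤ C ∧ ∀ X : ℝ, 3 ≤ X → ∀ P : DPar, OKi P → HC P.n P.ψ → (nm P.n : ℝ) ≤ X ^ B →
      ∀ z D0 : ℝ, 1 ≤ D0 →
      ∀ (ps : List Pf) (d s0 : ℝ), Tw d s0 (X ^ B) ps → ps.length ≤ N →
      LF (ps.drop 2) ≤ B * Real.log X → s0 ≤ B * Real.log X →
      ∀ k : Eis, k ≠ 0 → (nm k : ℝ) ≤ X ^ B → ¬ NPm P.n P.ψ P.l₂ k →
      ∀ (q δ e π : Eis), q ≠ 0 → (nm q : ℝ) ≤ X ^ B → IsPrim δ → (nm δ : ℝ) ≤ X ^ B →
      IsPrim e → (nm e : ℝ) ≤ X ^ B → π ≠ 0 → (nm π : ℝ) ≤ X ^ B → ∀ t : ℝ,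
      (nm e : ℝ) ^ σ * ‖CS (gC (xs q z D0 P h d ps) δ e π (tw σ t)) k‖ ≤
        (C * X ^ ε * D0 ^ 2 * Ht ps ^ 3) * (Real.exp (LF ps) / nm (δ * e)) ^ (1 - σ) *
          Mg s0 (δ * e) * (1 + |t|) ^ 6 := by
  obtain ⟨C, hC, hb⟩ := exd_CSs hpu N hσ (B := 2 * B) (by linarith) hε
  refine ⟨C, hC, ?_⟩
  intro X hX P hP hψ hPn z D0 hD0 ps d s0 hT hlen hL hs0' k hk hkX hnp q δ e π hq hqX hδ hδX he heX
    hπ hπX t
  have hX0 : 0 < X := by linarith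
  have hX1 : 1 ≤ X := by linarith
  have hlX : 0 ≤ Real.log X := Real.log_nonneg hX1
  have up : X ^ B ≤ X ^ (2 * B) := Real.rpow_le_rpow_of_exponent_le hX1 (by linarith)
  have up2 : X ^ (2 * B) = X ^ B * X ^ B := by rw [← Real.rpow_add hX0]; congr 1; ring
  have hne : (0 : ℝ) < nm e := by exact_mod_cast nm_pos.2 he.ne_zero
  have hMg0 : 0 ≤ Mg s0 (δ * e) := by unfold Mg; positivity
  have hHt1 := RG64.one_le_Ht ps
  by_cases heπ : IsCoprime e π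
  swap
  · rw [gC_eq_zero heπ, norm_zero, mul_zero]
    positivity
  match ps, hT with
  | p1 :: p2 :: l, hT =>
    obtain ⟨⟨hu1, hu2⟩, ⟨hk1, hk2⟩, ⟨hd1, hd2⟩, ⟨hy1, hy2⟩, hy3, hy4⟩ := hT
    have hL' : LF l ≤ B * Real.log X := hL
    have hlog : B * Real.log X ≤ 2 * B * Real.log X :=
      mul_le_mul_of_nonneg_right (by linarith) hlX
    have hs0 : s0 ≤ 2 * B * Real.log X := hs0'.trans hlog
    obtain ⟨π', hπd, hπ0, hgπ, hππ⟩ := cop_part (g := δ * e) hπ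
    have hπX' : (nm π' : ℝ) ≤ X ^ B :=
      le_trans (by exact_mod_cast nm_le_of_dvd hπ hπd) hπX
    have hqπ : (nm (q * π') : ℝ) ≤ X ^ (2 * B) := by
      rw [nm_mul, up2]; push_cast; gcongr
    have hδe : (nm (δ * e) : ℝ) ≤ X ^ (2 * B) := by
      rw [nm_mul, up2]; push_cast; gcongr
    have main := hb X hX P hP hψ (hPn.trans up) z D0 hD0 p1 p2 l hu1 hu2 hk1 hk2 (hd1.trans up)
      (hd2.trans up) ((by simp only [List.length_cons]; omega : l.length ≤ (p1 :: p2 :: l).length).trans hlen)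
      (hL'.trans hlog) k hk (hkX.trans up) hnp
      (p2.1.z - d) s0 hy1 hy2 (by linarith) (by linarith) hs0 (q * π') (δ * e)
      (mul_ne_zero hq hπ0) hqπ (hδ.mul he) hδe t
    obtain ⟨R, hR0, hR⟩ := exists_R (cs_cx hpu.cs)
    have hgc := gC_sqc (q := q) (k := k) (σ := σ) (t := t) (x := xL z D0 P h p1 p2 l (p2.1.z - d))
      (fun n hn => xL_prim hR hP z D0 p1 p2 l _ hn) he hδ hgπ hππ heπ (Char766.isChar_sy k)
    rw [xs_eq, xr_eq, hgc, norm_mul, norm_mul, norm_tw σ t he]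
    have hsy : ‖sy k e‖ ≤ 1 := (Char766.isChar_sy k).norm_le he
    have hee : (nm e : ℝ) ^ σ * (nm e : ℝ) ^ (-σ) = 1 := by
      rw [← Real.rpow_add hne, add_neg_cancel, Real.rpow_zero]
    have hHt := two_le_Ht p1 p2 l
    have hTT : ((1 + |p1.1.t + t|) * (1 + |p2.1.t + t|)) ^ 3 ≤
        Ht (p1 :: p2 :: l) ^ 3 * (1 + |t|) ^ 6 := by
      calc ((1 + |p1.1.t + t|) * (1 + |p2.1.t + t|)) ^ 3
          ≤ (((1 + |p1.1.t|) * (1 + |p2.1.t|)) * (1 + |t|) ^ 2) ^ 3 :=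
            pow_le_pow_left₀ (by positivity) (ht_le _ _ _) 3
        _ ≤ (Ht (p1 :: p2 :: l) * (1 + |t|) ^ 2) ^ 3 := by gcongr
        _ = _ := by ring
    set S : ℝ := ‖∑' n : Eis, sqc (q * π') (xL z D0 P h p1 p2 l (p2.1.z - d)) (δ * e * n) *
      (osc t (Real.log (nm n)) * (ExD791.ps σ n * sy k n))‖ with hS
    have hS0 : 0 ≤ S := norm_nonneg _
    calc (nm e : ℝ) ^ σ * ((nm e : ℝ) ^ (-σ) * ‖sy k e‖ * S)
        = ((nm e : ℝ) ^ σ * (nm e : ℝ) ^ (-σ)) * (‖sy k e‖ * S) := by ring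
      _ ≤ 1 * (1 * S) := by rw [hee]; gcongr
      _ = S := by ring
      _ ≤ _ := main
      _ ≤ C * X ^ ε * D0 ^ 2 * (Ht (p1 :: p2 :: l) ^ 3 * (1 + |t|) ^ 6) *
          ((Real.exp (LF (p1 :: p2 :: l)) / nm (δ * e)) ^ (1 - σ) * Mg s0 (δ * e)) := by gcongr
      _ = _ := by ring

open Classical in
/-- the moments of `xs` at the principal frequencies, `δ = e = 1`, no sign conditions -/
theorem momx_R {h : ℝ → ℝ} {c : ℝ} (hpu : PU h c) (n : ℕ) {B : ℝ} (hB : 0 ≤ B) {ε : ℝ}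
    (hε : 0 < ε) :
    ∃ C : ℝ, 1 ≤ C ∧ ∀ X : ℝ, 3 ≤ X → ∀ P : DPar, OKi P → HC P.n P.ψ → (nm P.n : ℝ) ≤ X ^ B →
      ¬ NPm P.n P.ψ P.l₂ 1 → ∀ z D0 : ℝ, 1 ≤ D0 →
      ∀ (ps : List Pf) (d₀ s₀ : ℝ), Tw d₀ s₀ (X ^ B) ps → ps.length ≤ n →
      LF (ps.drop 2) ≤ B * Real.log X → s₀ ≤ B * Real.log X →
      ∀ (q π f : Eis), q ≠ 0 → (nm q : ℝ) ≤ X ^ B → π ≠ 0 → (nm π : ℝ) ≤ X ^ B → f ≠ 0 →
      ∀ Λ : ℝ, 0 < Λ → Λ * nm f ≤ X ^ B → ∀ t : ℝ,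
      ∑ k ∈ (bl Λ).filter (fun k => ¬ NCube (k * f)),
          ‖CS (gC (xs q z D0 P h d₀ ps) 1 1 π (tw (1 / 6) t)) (k * f)‖ ^ 2 ≤
        16 * (Λ * nm f) ^ (1 / 3 : ℝ) * (C * X ^ ε * D0 ^ 4 * Ht ps ^ 6) *
          (Real.exp (LF ps) ^ (5 / 3 : ℝ) * min 1 (Real.exp (-s₀))) * (1 + |t|) ^ 12 := by
  obtain ⟨C, hC, H⟩ := gC_xsR hpu n (σ := 1 / 6) (by norm_num) hB (ε := ε / 2) (by positivity)
  refine ⟨C ^ 2, one_le_pow₀ hC, ?_⟩
  intro X hX P hP hψ hPn hnp z D0 hD0 ps d₀ s₀ hT hlen hL hs₀ q π f hq hqX hπ hπX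
    hf Λ hΛ hΛX t
  have hX0 : 0 < X := by linarith
  have hX1 : 1 ≤ X := by linarith
  have hf0 : (0 : ℝ) < nm f := by exact_mod_cast nm_pos.2 hf
  have hHt1 := RG64.one_le_Ht ps
  have h1X : ((nm (1 : Eis) : ℕ) : ℝ) ≤ X ^ B := by
    rw [nm_one]; push_cast; exact Real.one_le_rpow hX1 hB
  set E : ℝ := Real.exp (LF ps) with hE
  have hE0 : 0 < E := Real.exp_pos _
  set U : ℝ := (C ^ 2 * X ^ ε * D0 ^ 4 * Ht ps ^ 6) *
          (E ^ (5 / 3 : ℝ) * min 1 (Real.exp (-s₀))) * (1 + |t|) ^ 12 with hU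
  have hm0 : 0 ≤ min 1 (Real.exp (-s₀)) := le_min zero_le_one (Real.exp_pos _).le
  have hU0 : 0 ≤ U := by positivity
  have hone : ∀ k ∈ (bl Λ).filter (fun k => ¬ NCube (k * f)),
      ‖CS (gC (xs q z D0 P h d₀ ps) 1 1 π (tw (1 / 6) t)) (k * f)‖ ^ 2 ≤ U := by
    intro k hk
    obtain ⟨h1, h2⟩ := Finset.mem_filter.1 hk
    rw [mem_bl hΛ.le] at h1
    have hkf : k * f ≠ 0 := mul_ne_zero h1.1 hf
    have hkX : (nm (k * f) : ℝ) ≤ X ^ B := by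
      refine le_trans ?_ hΛX
      rw [nm_mul]; push_cast
      exact mul_le_mul_of_nonneg_right h1.2 hf0.le
    have h3 := H X hX P hP hψ hPn z D0 hD0 ps d₀ s₀ hT hlen hL hs₀ (k * f) hkf hkX
      (np_cube hnp hkf h2) q 1 1 π hq hqX isPrim_one h1X isPrim_one h1X hπ hπX t
    rw [mul_one, nm_one, Nat.cast_one, Real.one_rpow, one_mul, div_one] at h3
    refine (pow_le_pow_left₀ (norm_nonneg _) h3 2).trans (le_of_eq ?_)
    rw [mul_pow, mul_pow, mul_pow, mul_pow, mul_pow, mul_pow, Mg_sq]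
    have e1 : (X ^ (ε / 2)) ^ 2 = X ^ ε := by
      rw [← Real.rpow_natCast, ← Real.rpow_mul hX0.le]; congr 1; push_cast; ring
    have e2 : (E ^ (1 - 1 / 6 : ℝ)) ^ 2 = E ^ (5 / 3 : ℝ) := by
      rw [← Real.rpow_natCast, ← Real.rpow_mul hE0.le]; congr 1; norm_num
    rw [e1, e2, nm_one, Nat.cast_one, one_mul, hU]
    ring
  calc ∑ k ∈ (bl Λ).filter (fun k => ¬ NCube (k * f)),
          ‖CS (gC (xs q z D0 P h d₀ ps) 1 1 π (tw (1 / 6) t)) (k * f)‖ ^ 2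
      ≤ ((bl Λ).filter (fun k => ¬ NCube (k * f))).card • U := Finset.sum_le_card_nsmul _ _ _ hone
    _ = (((bl Λ).filter (fun k => ¬ NCube (k * f))).card : ℝ) * U := nsmul_eq_mul _ _
    _ ≤ 16 * (Λ * nm f) ^ (1 / 3 : ℝ) * U := mul_le_mul_of_nonneg_right (card_prin hΛ hf) hU0
    _ = _ := by rw [hU]; ring

lemma cB_one (g : Eis) : cB g 1 = 1 := by
  have h1 := NtC320.gp_cB (g := g) isPrim_one
  have h2 := NtC320.cB_prim (g := g) isPrim_one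
  exact Char766.unit_eq_one_of_isPrim (isUnit_of_dvd_one ⟨StA828.gp g 1, by rw [mul_comm]; exact h1.symm⟩) h2

lemma RMm_one_le {A : ℝ} (hA : 14 ≤ A) {α : Eis → ℂ} (hα : FS α) (π f : Eis) (T : Finset Eis)
    {M : ℝ} (hM : ∀ t : ℝ, ∑ k ∈ T, ‖CS (gC α 1 1 π (tw (1 / 6) t)) (k * f)‖ ^ 2 ≤
      M * (1 + |t|) ^ 12) :
    ∑ k ∈ T, RMm A α 1 1 π (k * f) ≤ M * jc := by
  have h1 := RM_sum (A := A) (J := 12) (by push_cast; linarith) hα isPrim_one isPrim_one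
    isPrim_one π T (fun k => k * f) (M := M) (fun t => by
      rw [mul_one, cB_one]
      exact hM t)
  simp only [one_mul] at h1
  exact h1

open Classical in
/-- **(RH) for `xs` at the principal frequencies, `d = e = γ = 1`, no sign conditions** -/
theorem rhx0 {h : ℝ → ℝ} {c : ℝ} (hpu : PU h c) (n : ℕ) {m B₀ : ℝ} (hm : 0 ≤ m) (hB₀ : 0 ≤ B₀) :
    ∃ a : ℕ, 1 ≤ a ∧ ∀ ε : ℝ, 0 < ε →
    ∃ C : ℝ, 1 ≤ C ∧ ∀ (P : DPar), P.OK → ¬ NPm P.n P.ψ P.l₂ 1 →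
      ∀ (ps : List Pf) (d₀ s₀ : ℝ), ps.length ≤ n → ∀ (z D0 : ℝ), 1 ≤ D0 →
      ∀ q f : Eis, q ≠ 0 → f ≠ 0 →
      ∀ X0 : ℝ, 3 ≤ X0 → (nm P.n : ℝ) ≤ X0 ^ B₀ → Tw d₀ s₀ (X0 ^ B₀) ps → (nm q : ℝ) ≤ X0 →
      (nm f : ℝ) ≤ X0 → LF ps ≤ B₀ * Real.log X0 → LF (ps.drop 2) ≤ B₀ * Real.log X0 →
      s₀ ≤ B₀ * Real.log X0 → ∀ A : ℝ, 14 ≤ A → ∀ P1 : ℝ, 0 < P1 → P1 ≤ X0 ^ m →
      ∀ π : Eis, IsPrim π → (nm π : ℝ) ≤ X0 → ∀ Λ : ℝ, 0 < Λ →
      ∑ k ∈ (bl Λ).filter (fun k => ¬ NCube (k * f)),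
          RMm A (xs q z D0 P h d₀ ps) 1 1 π (k * f) ≤
        W2 a P1 (C * D0 ^ 4 * Ht ps ^ 6 * X0 ^ ε * ((P1 * nm f) ^ (1 / 3 : ℝ) *
          (Real.exp (LF ps) ^ (5 / 3 : ℝ) * min 1 (Real.exp (-s₀))))) Λ := by
  obtain ⟨R₁, C1, hR10, hC1, hsize⟩ := RHX116.xs_size hpu n
  obtain ⟨R', hR0', hR'⟩ := exists_R (cs_cx hpu.cs)
  have hn0 : (0 : ℝ) ≤ n := Nat.cast_nonneg n
  obtain ⟨a0, ha0⟩ := exists_nat_ge (5 * B₀ + m + 4)
  refine ⟨a0 + 1, by omega, fun ε hε => ?_⟩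
  set R : ℝ := R₁ + R' with hRd
  have hR0 : 0 ≤ R := by positivity
  have hnR : 0 ≤ n * R := by positivity
  set B : ℝ := B₀ + m + 3 with hBd
  have hB0 : 0 ≤ B := by rw [hBd]; positivity
  obtain ⟨C2, hC2, H⟩ := momx_R hpu n hB0 hε
  have hjc := jc_nonneg
  set ER : ℝ := Real.exp (n * R) with hERd
  have hER : 1 ≤ ER := Real.one_le_exp (by positivity)
  have hER0 : 0 < ER := by linarith
  set K1 : ℝ := 16 * C2 * jc with hK1
  set K2 : ℝ := 64 * C1 ^ 2 * ER ^ 6 * jc with hK2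
  have hK10 : 0 ≤ K1 := by positivity
  have hK20 : 0 ≤ K2 := by positivity
  set C : ℝ := 1 + K1 + K2 with hC
  have hC1' : K1 ≤ C := by rw [hC]; linarith
  have hC2' : K2 ≤ C := by rw [hC]; linarith
  have hC10 : 1 ≤ C := by rw [hC]; linarith
  refine ⟨C, hC10, ?_⟩
  intro P hP hnp ps d₀ s₀ hlen z D0 hD0 q f hq hf X0 hX3 hPn hT hqX hfX hLF hLd hs₀ A hA P1 hP1 hP1X
    π hπ hπX Λ hΛ
  have hX0 : 1 ≤ X0 := by linarith
  have hX00 : 0 < X0 := by linarith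
  have hlX : 0 ≤ Real.log X0 := Real.log_nonneg hX0
  have hf0 : (0 : ℝ) < nm f := by exact_mod_cast nm_pos.2 hf
  have hf1 : (1 : ℝ) ≤ nm f := by exact_mod_cast nm_pos.2 hf
  have hD00 : 0 < D0 := by linarith
  have hHt1 := RG64.one_le_Ht ps
  set x : Eis → ℂ := xs q z D0 P h d₀ ps with hx
  have hFx : FS x := FS_xs ⟨R', hR'⟩ hP q z D0 d₀ ps
  set E : ℝ := Real.exp (LF ps) with hE
  have hE0 : 0 < E := Real.exp_pos _
  set mn : ℝ := min 1 (Real.exp (-s₀)) with hmn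
  have hmn0 : 0 < mn := lt_min zero_lt_one (Real.exp_pos _)
  set V : ℝ := C * D0 ^ 4 * Ht ps ^ 6 * X0 ^ ε * ((P1 * nm f) ^ (1 / 3 : ℝ) *
          (E ^ (5 / 3 : ℝ) * mn)) with hV
  have hV0 : 0 ≤ V := by positivity
  have hWn : 0 ≤ W2 (a0 + 1) P1 V Λ := by
    unfold R3571.W2
    split_ifs <;> positivity
  have hnR₁ : (n : ℝ) * R₁ ≤ n * R := mul_le_mul_of_nonneg_left (by linarith) hn0
  -- the sequence vanishes
  by_cases hEY : 1 ≤ E * ER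
  swap
  · push Not at hEY
    have hz0 : ∀ m, x m = 0 := by
      intro m'
      by_contra h0
      have hlR : (ps.length : ℝ) * R' ≤ n * R := by
        have h1 : (ps.length : ℝ) ≤ n := by exact_mod_cast hlen
        exact mul_le_mul h1 (by linarith) hR0' hn0
      have hY : Real.exp (LF ps + ps.length * R') ≤ E * ER := by
        rw [hE, hERd, ← Real.exp_add]
        exact Real.exp_le_exp.2 (by linarith)
      have h2 : m' ∈ S (E * ER) := by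
        rcases RHX116.xs_ne h0 with h1 | h1
        · exact AL813.al_mem_S hR' z D0 P q ps hY h1
        · exact AL813.al_mem_S hR' z D0 P q (rp d₀ ps)
            (by rw [RX298.LF_rp, RX298.rp_length]; exact hY) h1
      have h3 := (mem_S (by positivity)).1 h2
      have h4 : (1 : ℝ) ≤ nm m' := by exact_mod_cast nm_pos.2 h3.2.1.ne_zero
      linarith [h3.1]
    rw [Finset.sum_eq_zero fun k _ => R3571.RMm_zero (fun m' => hz0 _)]
    exact hWn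
  -- the trivial part
  have hYe : Real.exp (LF ps) * Real.exp (n * R₁) ≤ E * ER := by
    rw [hE, hERd]
    gcongr
  obtain ⟨hYS, hG⟩ := hsize P hP ps hlen q z D0 d₀ (E * ER) hEY hYe
  have hEX : E ≤ X0 ^ B₀ := by
    rw [hE, Real.rpow_def_of_pos hX00, mul_comm (Real.log X0)]
    exact Real.exp_le_exp.2 hLF
  have hmnX : X0 ^ (-B₀) ≤ mn := by
    refine le_min (Real.rpow_le_one_of_one_le_of_nonpos hX0 (by linarith)) ?_
    rw [Real.rpow_def_of_pos hX00]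
    refine Real.exp_le_exp.2 ?_
    linarith
  have hXB : ∀ {b : ℝ}, b ≤ B → X0 ^ b ≤ X0 ^ B := fun hb =>
    Real.rpow_le_rpow_of_exponent_le hX0 hb
  have h1B : X0 ≤ X0 ^ B := by
    conv_lhs => rw [← Real.rpow_one X0]
    exact hXB (by rw [hBd]; linarith)
  have hB₀B : X0 ^ B₀ ≤ X0 ^ B := hXB (by rw [hBd]; linarith)
  have hBl : B₀ * Real.log X0 ≤ B * Real.log X0 :=
    mul_le_mul_of_nonneg_right (by rw [hBd]; linarith) hlX
  have hTB : Tw d₀ s₀ (X0 ^ B) ps := by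
    match ps, hT with
    | p1 :: p2 :: l, hT =>
      obtain ⟨a1, a2, ⟨a3, a4⟩, a5, a6⟩ := hT
      exact ⟨a1, a2, ⟨a3.trans hB₀B, a4.trans hB₀B⟩, a5, a6⟩
  by_cases hΛ2 : Λ ≤ P1 * X0
  · -- the small levels
    have hΛX : Λ * nm f ≤ X0 ^ B := by
      calc Λ * nm f ≤ (P1 * X0) * X0 := by gcongr
        _ ≤ (X0 ^ m * X0) * X0 := by gcongr
        _ = X0 ^ (m + 1 + 1) := by
            rw [Real.rpow_add_one hX00.ne', Real.rpow_add_one hX00.ne']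
        _ ≤ _ := hXB (by rw [hBd]; linarith)
    have hmom := RMm_one_le hA hFx π f ((bl Λ).filter (fun k => ¬ NCube (k * f)))
      (M := 16 * (Λ * nm f) ^ (1 / 3 : ℝ) * (C2 * X0 ^ ε * D0 ^ 4 * Ht ps ^ 6) * (E ^ (5 / 3 : ℝ) * mn))
      (fun t => H X0 hX3 P (OKi848.OKi.of hP) hP.ψ (hPn.trans hB₀B) hnp z D0 hD0 ps d₀ s₀ hTB hlen
        (hLd.trans hBl) (hs₀.trans hBl) q π f hq (hqX.trans h1B) hπ.ne_zero (hπX.trans h1B) hf Λ hΛ
        hΛX t)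
    refine hmom.trans ?_
    have e1 : (Λ * nm f) ^ (1 / 3 : ℝ) = (Λ / P1) ^ (1 / 3 : ℝ) * (P1 * nm f) ^ (1 / 3 : ℝ) := by
      rw [← Real.mul_rpow (by positivity) (by positivity)]
      congr 1
      field_simp
    have h2 : 16 * (Λ * nm f) ^ (1 / 3 : ℝ) * (C2 * X0 ^ ε * D0 ^ 4 * Ht ps ^ 6) *
        (E ^ (5 / 3 : ℝ) * mn) * jc ≤ (Λ / P1) ^ (1 / 3 : ℝ) * V := by
      calc 16 * (Λ * nm f) ^ (1 / 3 : ℝ) * (C2 * X0 ^ ε * D0 ^ 4 * Ht ps ^ 6) *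
            (E ^ (5 / 3 : ℝ) * mn) * jc
          = (Λ / P1) ^ (1 / 3 : ℝ) * (K1 * D0 ^ 4 * Ht ps ^ 6 * X0 ^ ε *
            ((P1 * nm f) ^ (1 / 3 : ℝ) * (E ^ (5 / 3 : ℝ) * mn))) := by rw [e1, hK1]; ring
        _ ≤ _ := by
            rw [hV]
            gcongr
    refine h2.trans ?_
    unfold R3571.W2
    split_ifs with h3
    · exact le_rfl
    · push Not at h3
      refine mul_le_mul_of_nonneg_right ?_ hV0
      have h4 : 1 ≤ Λ / P1 := (one_le_div hP1).2 h3.le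
      calc (Λ / P1) ^ (1 / 3 : ℝ) ≤ (Λ / P1) ^ (1 : ℝ) :=
            Real.rpow_le_rpow_of_exponent_le h4 (by norm_num)
        _ = (Λ / P1) ^ 1 := by rw [Real.rpow_one, pow_one]
        _ ≤ _ := pow_le_pow_right₀ h4 (by omega)
  · -- the large levels
    push Not at hΛ2
    have hΛ1 : P1 < Λ := by
      have : P1 * 1 ≤ P1 * X0 := by gcongr
      linarith
    unfold R3571.W2
    rw [if_neg (not_le.2 hΛ1)]
    have h4 : ∑ k ∈ (bl Λ).filter (fun k => ¬ NCube (k * f)), RMm A x 1 1 π (k * f) ≤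
        16 * Λ * ((2 * (C1 * (E * ER) ^ 2)) ^ 2 * jc) := by
      calc ∑ k ∈ (bl Λ).filter (fun k => ¬ NCube (k * f)), RMm A x 1 1 π (k * f)
          ≤ ∑ k ∈ bl Λ, RMm A x 1 1 π (k * f) :=
            Finset.sum_le_sum_of_subset_of_nonneg (Finset.filter_subset _ _)
              fun _ _ _ => RMm_nonneg _ _ _ _ _ _
        _ ≤ ∑ _k ∈ bl Λ, (2 * (C1 * (E * ER) ^ 2)) ^ 2 * jc := Finset.sum_le_sum fun k _ => by
              have h5 := RMm_triv (A := A) (by linarith) hFx isPrim_one isPrim_one hYS hG 1 π (k * f)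
              simp only [one_mul] at h5
              exact h5
        _ = (bl Λ).card * ((2 * (C1 * (E * ER) ^ 2)) ^ 2 * jc) := by
            rw [Finset.sum_const, nsmul_eq_mul]
        _ ≤ 16 * Λ * ((2 * (C1 * (E * ER) ^ 2)) ^ 2 * jc) := by
            gcongr
            exact CR2.card_bl_le hΛ.le
    refine h4.trans ?_
    have hr : X0 ≤ Λ / P1 := by
      rw [le_div_iff₀ hP1]; linarith
    have h6 : X0 ^ a0 ≤ (Λ / P1) ^ a0 := by gcongr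
    have h7 : X0 ^ (5 * B₀ + m + 4) ≤ X0 ^ a0 := by
      rw [← Real.rpow_natCast]
      exact Real.rpow_le_rpow_of_exponent_le hX0 ha0
    have hEl : 1 ≤ E ^ (5 / 3 : ℝ) * ER ^ 2 := by
      have h8 : (1 : ℝ) ≤ (E * ER) ^ (5 / 3 : ℝ) := Real.one_le_rpow hEY (by norm_num)
      rw [Real.mul_rpow hE0.le hER0.le] at h8
      refine h8.trans ?_
      have h9 : ER ^ (5 / 3 : ℝ) ≤ ER ^ 2 := by
        rw [← Real.rpow_natCast]
        exact Real.rpow_le_rpow_of_exponent_le hER (by norm_num)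
      gcongr
    have hP13 : P1 ≤ X0 ^ m * (P1 * nm f) ^ (1 / 3 : ℝ) := by
      have g2 : P1 ^ (2 / 3 : ℝ) ≤ X0 ^ m := by
        calc P1 ^ (2 / 3 : ℝ) ≤ (X0 ^ m) ^ (2 / 3 : ℝ) :=
              Real.rpow_le_rpow hP1.le hP1X (by norm_num)
          _ = X0 ^ (m * (2 / 3)) := by rw [← Real.rpow_mul hX00.le]
          _ ≤ X0 ^ m := Real.rpow_le_rpow_of_exponent_le hX0 (by linarith)
      calc P1 = P1 ^ (2 / 3 : ℝ) * P1 ^ (1 / 3 : ℝ) := by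
            rw [← Real.rpow_add hP1]; norm_num
        _ ≤ X0 ^ m * (P1 * nm f) ^ (1 / 3 : ℝ) := by
            gcongr
            exact le_mul_of_one_le_right hP1.le hf1
    have hX5 : (X0 ^ B₀) ^ 4 * X0 ^ m * X0 ^ B₀ ≤ X0 ^ a0 := by
      refine le_trans (le_of_eq ?_) ((Real.rpow_le_rpow_of_exponent_le hX0
        (show 4 * B₀ + m + B₀ ≤ 5 * B₀ + m + 4 by linarith)).trans h7)
      rw [Real.rpow_add hX00, Real.rpow_add hX00, mul_comm 4 B₀, Real.rpow_mul hX00.le]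
      norm_cast
    have hmn1 : 1 ≤ X0 ^ B₀ * mn := by
      calc (1 : ℝ) = X0 ^ B₀ * X0 ^ (-B₀) := by
            rw [← Real.rpow_add hX00, add_neg_cancel, Real.rpow_zero]
        _ ≤ _ := by gcongr
    have hΛP : 0 < Λ / P1 := by positivity
    have g1 : 1 ≤ D0 ^ 4 := one_le_pow₀ hD0
    have g2 : 1 ≤ X0 ^ ε := Real.one_le_rpow hX0 hε.le
    have g5 : 1 ≤ Ht ps ^ 6 := one_le_pow₀ hHt1
    calc 16 * Λ * ((2 * (C1 * (E * ER) ^ 2)) ^ 2 * jc)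
        = (64 * C1 ^ 2 * ER ^ 4 * jc) * E ^ 4 * P1 * (Λ / P1) := by field_simp; ring
      _ ≤ (64 * C1 ^ 2 * ER ^ 4 * jc) * (X0 ^ B₀) ^ 4 * (X0 ^ m * (P1 * nm f) ^ (1 / 3 : ℝ)) *
          (Λ / P1) := by gcongr
      _ = (64 * C1 ^ 2 * ER ^ 4 * jc) * ((X0 ^ B₀) ^ 4 * X0 ^ m) * (P1 * nm f) ^ (1 / 3 : ℝ) *
          (Λ / P1) * 1 * 1 := by ring
      _ ≤ (64 * C1 ^ 2 * ER ^ 4 * jc) * ((X0 ^ B₀) ^ 4 * X0 ^ m) * (P1 * nm f) ^ (1 / 3 : ℝ) *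
          (Λ / P1) * (X0 ^ B₀ * mn) * (E ^ (5 / 3 : ℝ) * ER ^ 2) := by gcongr
      _ = ((X0 ^ B₀) ^ 4 * X0 ^ m * X0 ^ B₀) * (Λ / P1) * (K2 * 1 * 1 * 1 *
          ((P1 * nm f) ^ (1 / 3 : ℝ) * (E ^ (5 / 3 : ℝ) * mn))) := by rw [hK2]; ring
      _ ≤ (Λ / P1) ^ a0 * (Λ / P1) * (C * D0 ^ 4 * Ht ps ^ 6 * X0 ^ ε *
          ((P1 * nm f) ^ (1 / 3 : ℝ) * (E ^ (5 / 3 : ℝ) * mn))) := by
          have h10 := hX5.trans h6
          gcongr
      _ = _ := by rw [← pow_succ, hV]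

end Crest.Agent.R017.RPP401
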