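import Crest.Agent.R017.RPm_813

/-!
# Row 17, P1, mismatch: the character moments of the coefficient (helper813), part 2

* `rh_j` : (RH) for the families below a natural list from one real line (after helper571's `rh_raw`)
-/

set_option autoImplicit false
set_option linter.unusedVariables false

noncomputable section

open Finset

namespace Crest.Agent.R017.RPm813

open Crest.Agent.R012 Crest.Agent.R012.Eis
open Crest.Agent.R012.LS2 (bl mem_bl)
open Crest.Agent.R012.Weight600 (pw)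
open Crest.Agent.R017.FE47 (PU SM)
open Crest.Agent.R017.CM106
open Crest.Agent.R017.XG702 (Pcs BG)
open Crest.Agent.R017.Prov71
open Crest.Agent.R017.B770
open Crest.Agent.R017.HP842 (Pc pc sqc al alL cv Tu mem_Tu)
open Crest.Agent.R017.XRG106 (Rl RFp)
open Crest.Agent.R017.XHB411 (tl)
open Crest.Agent.R017.E5B71 (Pt)
open Crest.Agent.R017.RM986 (Plain)
open Crest.Agent.R017.R3571 (Below RMm RMm_nonneg RMm_eq rm W2 W2_mono RH_nat)
open Crest.Agent.R017.E1551 (jb jb_pos)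
open Crest.Agent.R017.PX764 (n6)
open Crest.Agent.R017.E3D579 (n6_nonneg)
open Crest.Agent.R017.ET71 (kind_am_not_lump mass_am)
open Crest.Agent.R017.TPOk571 (IP)

/-- an index below a piece -/
structure Blw (P : DPar) (j : IP) (p : Pq) : Prop where
  z : j.z ≤ p.z
  t0 : j.t0 = p.t
  ψ : j.ψ.1 = (p.pc P).ψ
  one : p.u = .one → j.u = .one
  s : j.s = 0

/-- the twist of a family -/
lemma al_tw1 {ι : Type*} [Fintype ι] [DecidableEq ι] (h : ℝ → ℝ) (t : Eis) (s : ι → Pc) (m : Eis) :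
    al h (fun i => SU770.tw1 (s i) t) m = sy t m * al h s m := by
  unfold HP842.al HP842.cv
  rw [mul_sum]
  refine sum_congr rfl fun x hx => ?_
  rw [mem_Tu] at hx
  have e1 : ∀ i, pc h (SU770.tw1 (s i) t) (x i) = sy t (x i) * pc h (s i) (x i) := by
    intro i
    unfold HP842.pc SU770.tw1
    split_ifs
    · ring
    · rw [mul_zero]
  simp_rw [e1]
  rw [prod_mul_distrib]
  congr 1
  rw [← hx.2, HP842.sy_prod_right hx.1]

lemma alL_tw1 (h : ℝ → ℝ) (t : Eis) (L : List Pc) :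
    alL h (L.map fun p => SU770.tw1 p t) = I1146.tw3 t (alL h L) := by
  have e1 : alL h (L.map fun p => SU770.tw1 p t) =
      al h (fun i : Fin L.length => SU770.tw1 (L.get i) t) := by
    have e2 : L.map (fun p => SU770.tw1 p t) =
        List.ofFn (fun i : Fin L.length => SU770.tw1 (L.get i) t) := by
      conv_lhs => rw [← List.ofFn_get L]
      rw [List.map_ofFn]
      rfl
    rw [HP842.al_eq, e2]
  funext n
  rw [e1, al_tw1, HP842.alL_eq]
  rfl

lemma alL_prim' {h : ℝ → ℝ} {L : List Pc} {n : Eis} (hn : alL h L n ≠ 0) : IsPrim n := by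
  by_contra h0
  apply hn
  rw [HP842.alL_eq]
  exact HP842.cv_not_prim h0

section

variable {Λ : Type*} {π : Λ → DPar} {h : ℝ → ℝ}

set_option maxHeartbeats 3200000 in
/-- **(RH) at `d = e = γ = 1` for families below a natural list, from one real line** -/
theorem rh_j {c₀ : ℝ} (hpu : PU h c₀) (hP : ∀ lam, (π lam).OK) {Kc : ℝ} (hKc : 0 ≤ Kc)
    {E : ℝ → ℝ → ℝ → ℝ → ℝ → ℝ → ℝ} (PL : Plain (fun _ k => k ≠ 0) π h (Kc + 1) E) {ε : ℝ}
    (hε : 0 < ε) :
    ∃ σ : ℝ, 0 < σ ∧ σ ≤ ε ∧ ∀ (lam : Λ) (t : Eis), t ≠ 0 → ∀ (N : ℕ) (B : ℝ),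
      ∃ (M a A₀ : ℕ) (X₀ : ℝ), 1 ≤ a ∧ 1 < X₀ ∧ ∀ X : ℝ, X₀ ≤ X →
      ∀ (u₁ u₂ u₃ : Pq) (ps : List Pq) (m : Eis) (H : ℝ),
      (∀ p ∈ [u₁, u₂, u₃], Dq.lump p ∧ 0 ≤ p.z ∧ p.z ≤ Kc * Real.log X ∧ (nm p.d : ℝ) ≤ X ^ B) →
      ps.length ≤ N →
      (∀ p ∈ ps, p.kd = .am ∧ 0 ≤ p.z ∧ p.z ≤ σ * Real.log X ∧ (nm p.d : ℝ) ≤ X ^ B) →
      (ps.map Pq.z).sum ≤ Kc * Real.log X → m ≠ 0 → (nm m : ℝ) ≤ X ^ B →
      1 ≤ H → (∀ p ∈ u₁ :: u₂ :: u₃ :: ps, 1 + |p.t| ≤ H) →
      ∀ js : List IP, List.Forall₂ (Blw (π lam)) js (u₁ :: u₂ :: u₃ :: ps) →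
      ∀ (P1 G : ℝ), 0 < P1 → P1 ≤ X ^ Kc → 0 ≤ G →
      (∀ i y₁ y₂ y₃ x : ℝ, 0 ≤ i → i ≤ Real.log P1 / Real.log X + σ / 2 → 0 ≤ y₁ →
        y₁ ≤ u₁.z / Real.log X + σ / 2 → 0 ≤ y₂ → y₂ ≤ u₂.z / Real.log X + σ / 2 → 0 ≤ y₃ →
        y₃ ≤ u₃.z / Real.log X + σ / 2 → 0 ≤ x → x ≤ (ps.map Pq.z).sum / Real.log X + σ / 2 →
        y₁ + y₂ + y₃ + x ≤ (js.map IP.z).sum / Real.log X + σ / 2 →
        y₁ + y₂ + y₃ ≤ (u₁.z + u₂.z + u₃.z) / Real.log X + σ / 2 →
        E i y₁ y₂ y₃ 0 x + (Real.log P1 / Real.log X - i) / 3 ≤ G + (y₁ + y₂ + y₃ + x)) →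
      ∀ A : ℕ, A₀ ≤ A → ∀ φ : Eis, IsPrim φ → (nm φ : ℝ) ≤ X ^ B →
      ∀ P : ℝ, 0 < P →
        ∑ k ∈ bl P, RMm A (sqc m (alL h (js.map fun j => SU770.tw1 j.pc t))) 1 1 φ k ≤
        W2 a P1 (H ^ M * X ^ (G + ε) * Real.exp ((js.map IP.z).sum) ^ (2 / 3 : ℝ)) P := by
  classical
  set ε₁ : ℝ := ε / 8 with hε₁
  have hε₁0 : 0 < ε₁ := by positivity
  obtain ⟨σ₁, hσ₁, PL⟩ := PL ε₁ hε₁0
  set σ : ℝ := min (min (σ₁ / 2) (1 / 2)) ε₁ with hσ
  have hσ0 : 0 < σ := by positivity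
  have hσ1 : σ ≤ σ₁ / 2 := (min_le_left _ _).trans (min_le_left _ _)
  have hσ2 : σ ≤ 1 / 2 := (min_le_left _ _).trans (min_le_right _ _)
  have hσ3 : σ ≤ ε₁ := min_le_right _ _
  refine ⟨σ, hσ0, hσ3.trans (by rw [hε₁]; linarith), fun lam t ht N B => ?_⟩
  obtain ⟨M, X₁, hX₁, PX⟩ := PL lam N (|B| + Kc + 2)
  -- the size `X0 = X ^ B₃`
  set B₃ : ℝ := |B| + Kc + 1 with hB₃
  have hB₃1 : 1 ≤ B₃ := by
    have := abs_nonneg B
    linarith
  have hB₃0 : 0 < B₃ := by linarith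
  set δ : ℝ := σ / (4 * B₃) with hδ
  have hδ0 : 0 < δ := by positivity
  have hδB : B₃ * δ = σ / 4 := by rw [hδ]; field_simp
  set ε' : ℝ := ε₁ / B₃ with hε'
  have hε'0 : 0 < ε' := by positivity
  have hεB : B₃ * ε' = ε₁ := by rw [hε']; field_simp
  have hG := fun r : ℕ => RH_nat hpu (μ := (M : ℝ) / 2) (by positivity) r hδ0 1
  choose a' ha' hG1 using hG
  have hG2 := fun r : ℕ => hG1 r ε' hε'0
  choose C hC1 hC using hG2
  set C' : ℝ := ∑ r ∈ range (N + 4), C r with hC'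
  have hCr : ∀ r, r < N + 4 → C r ≤ C' := fun r hr =>
    single_le_sum (f := C) (fun i _ => by linarith [hC1 i]) (mem_range.2 hr)
  have hC'1 : 1 ≤ C' := (hC1 0).trans (hCr 0 (by omega))
  set a : ℕ := ∑ r ∈ range (N + 4), a' r with ha
  have har : ∀ r, r < N + 4 → a' r ≤ a := fun r hr =>
    single_le_sum (f := a') (fun i _ => Nat.zero_le _) (mem_range.2 hr)
  have ha1 : 1 ≤ a := (ha' 0).trans (har 0 (by omega))
  set τ : ℝ := Real.log (nm t) with hτ
  have hnt : (1 : ℝ) ≤ nm t := by exact_mod_cast nm_pos.2 ht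
  have hnt0 : (0 : ℝ) < nm t := by linarith
  have hτ0 : 0 ≤ τ := Real.log_nonneg hnt
  obtain ⟨X₂, hX₂, HX₂⟩ := XSup271.exists_X hC'1 (ε := ε₁) hε₁0
  -- large X : constants against `σ log X`
  set X₃ : ℝ := Real.exp (16 * ((N + 3) * C' + τ + 1) / σ) with hX₃
  refine ⟨M, a, (N + 4) * M + 2, max X₁ (max X₂ X₃), ha1,
    lt_of_lt_of_le hX₁ (le_max_left _ _), ?_⟩
  intro X hX u₁ u₂ u₃ ps m H hu hN hps hsum hm0 hmX hH hht js hjs P1 G hP1 hP1X hG0
    hE A hA φ hφ hφX P hPp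
  have hXX₁ : X₁ ≤ X := (le_max_left _ _).trans hX
  have hXX₂ : X₂ ≤ X := ((le_max_left _ _).trans (le_max_right _ _)).trans hX
  have hXX₃ : X₃ ≤ X := ((le_max_right _ _).trans (le_max_right _ _)).trans hX
  have hX1 : 1 < X := by linarith
  have hX0 : 0 < X := by linarith
  have hlX : 0 < Real.log X := Real.log_pos hX1
  have hbig : (N + 3) * C' + τ + 1 ≤ σ / 16 * Real.log X := by
    have h1 : 16 * ((N + 3) * C' + τ + 1) / σ ≤ Real.log X := by
      rw [← Real.log_exp (16 * ((N + 3) * C' + τ + 1) / σ)]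
      exact Real.log_le_log (Real.exp_pos _) hXX₃
    rw [div_le_iff₀ hσ0] at h1
    linarith
  have hNC : 0 ≤ (N : ℝ) * C' := by positivity
  have hσL : 0 < σ * Real.log X := by positivity
  have hσ₁L : 0 < σ₁ * Real.log X := by positivity
  have hKL : 0 ≤ Kc * Real.log X := by positivity
  have hσL1 : σ * Real.log X ≤ σ₁ / 2 * Real.log X := mul_le_mul_of_nonneg_right hσ1 hlX.le
  have hσL2 : σ * Real.log X ≤ 1 / 2 * Real.log X := mul_le_mul_of_nonneg_right hσ2 hlX.le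
  have hC'σ : 3 * C' ≤ σ / 16 * Real.log X := by linarith
  have hτσ : τ ≤ σ / 16 * Real.log X := by linarith
  have hNσ : (N : ℝ) * C' ≤ σ / 16 * Real.log X := by linarith
  -- sizes
  have hXB : ∀ {x : ℝ}, x ≤ X ^ B → x ≤ X ^ B₃ := fun hx =>
    hx.trans (Real.rpow_le_rpow_of_exponent_le hX1.le (by
      have := le_abs_self B
      linarith))
  have hX0' : 1 ≤ X ^ B₃ := Real.one_le_rpow hX1.le hB₃0.le
  have hXδ : (X ^ B₃) ^ δ = X ^ (σ / 4) := by
    rw [← Real.rpow_mul hX0.le, hδB]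
  have hXε : (X ^ B₃) ^ ε' = X ^ ε₁ := by
    rw [← Real.rpow_mul hX0.le, hεB]
  set l := u₁ :: u₂ :: u₃ :: ps with hl
  set r := l.length with hr
  have hr3 : r = ps.length + 3 := by rw [hr, hl]; rfl
  have hrN : r < N + 4 := by omega
  set sf : Fin r → Pq := fun i => l.get i with hsf
  have hofn : List.ofFn sf = l := List.ofFn_get l
  have hz0 : ∀ p ∈ l, 0 ≤ p.z := by
    intro p hp
    rw [hl] at hp
    simp only [List.mem_cons] at hp
    rcases hp with rfl | rfl | rfl | hp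
    · exact (hu _ (by simp)).2.1
    · exact (hu _ (by simp)).2.1
    · exact (hu _ (by simp)).2.1
    · exact (hps p hp).2.1
  have hz2 : ∀ p ∈ l, p.z ≤ (Kc + 1) * Real.log X := by
    intro p hp
    rw [hl] at hp
    simp only [List.mem_cons] at hp
    rcases hp with rfl | rfl | rfl | hp
    · have := (hu p (by simp)).2.2.1
      linarith
    · have := (hu p (by simp)).2.2.1
      linarith
    · have := (hu p (by simp)).2.2.1
      linarith
    · have h1 := (hps p hp).2.2.1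
      linarith
  have hdB : ∀ p ∈ l, (nm p.d : ℝ) ≤ X ^ B := by
    intro p hp
    rw [hl] at hp
    simp only [List.mem_cons] at hp
    rcases hp with rfl | rfl | rfl | hp
    · exact (hu _ (by simp)).2.2.2
    · exact (hu _ (by simp)).2.2.2
    · exact (hu _ (by simp)).2.2.2
    · exact (hps p hp).2.2.2
  have hmem : ∀ i : Fin r, sf i ∈ l := fun i => List.get_mem l i
  have hjl : js.length = r := hjs.length_eq
  set j : Fin r → IP := fun i => js.get (i.cast hjl.symm) with hj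
  have hofj : List.ofFn j = js := by
    refine List.ext_getElem (by rw [List.length_ofFn, hjl]) fun n h1 h2 => ?_
    rw [List.getElem_ofFn]
    rfl
  have hblw : ∀ i, Blw (π lam) (j i) (sf i) := by
    intro i
    have h1 := (List.forall₂_iff_get.1 hjs).2 i.1 (by rw [hjl]; exact i.2) i.2
    exact h1
  have hBel : Below (π lam) 0 j sf :=
    ⟨fun i => by have := (hblw i).z; linarith, fun i => (hblw i).t0, fun i => (hblw i).ψ,
      fun i => (hblw i).one⟩
  have e2 : ∑ i, (j i).z = (js.map IP.z).sum := by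
    have h5 : ∑ i, (j i).z = ((List.ofFn j).map IP.z).sum := by
      rw [List.map_ofFn, List.sum_ofFn]
      rfl
    rw [h5, hofj]
  set n : ℝ := (js.map IP.z).sum with hn
  set Bd : ℝ := H ^ M * X ^ (G + 2 * ε₁) with hBd
  have hBd1 : 1 ≤ Bd :=
    one_le_mul_of_one_le_of_one_le (one_le_pow₀ hH) (Real.one_le_rpow hX1.le (by positivity))
  have hBd0 : 0 ≤ Bd := by linarith
  have hM0 : (0 : ℝ) ≤ M := Nat.cast_nonneg M
  have n1X : ((nm (1 : Eis) : ℕ) : ℝ) ≤ X ^ B₃ := by rw [nm_one]; push_cast; exact hX0'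
  have key := hC r (π lam) (hP lam) sf (fun i => hz0 _ (hmem i)) j hBel (fun i => (hblw i).s) m 1 1 t
    hm0 isPrim_one isPrim_one ht (X ^ B₃) hX0' (hXB hmX) n1X n1X (fun i => by
      rw [Real.rpow_def_of_pos hX0]
      refine Real.exp_le_exp.2 ?_
      have h1 := hz2 _ (hmem i)
      have h2 : 0 ≤ |B| * Real.log X := mul_nonneg (abs_nonneg B) hlX.le
      rw [hB₃]
      linarith) ((N + 4) * M) (by
      have h1 : (r : ℝ) ≤ N + 4 := by exact_mod_cast hrN.le
      have h2 := mul_le_mul_of_nonneg_right h1 hM0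
      push_cast
      linarith) A (by exact_mod_cast hA) P1 Bd hP1 (by
      rw [Real.rpow_one]
      exact hP1X.trans (Real.rpow_le_rpow_of_exponent_le hX1.le (by
        have := abs_nonneg B
        linarith))) hBd1 ?_ 1 φ isPrim_one hφ (hXB hφX) P hPp
  · -- conclusion
    have e1 : al h (fun i => (j i).pc) = alL h (js.map IP.pc) := by
      rw [HP842.al_eq]
      congr 1
      rw [← hofj, List.map_ofFn]
      rfl
    have e1' : alL h (js.map fun j => SU770.tw1 j.pc t) = I1146.tw3 t (alL h (js.map IP.pc)) := by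
      have := alL_tw1 h t (js.map IP.pc)
      rw [List.map_map] at this
      exact this
    have n6one : n6 1 = 1 := by unfold PX764.n6; rw [nm_one]; simp
    rw [e1, e2, n6one, nm_one] at key
    simp only [Nat.cast_one, one_pow, mul_one, one_mul, div_one] at key
    have e3 : sqc m (alL h (js.map fun j => SU770.tw1 j.pc t)) =
        I1146.tw3 t (sqc m (alL h (js.map IP.pc))) := by
      rw [e1']
      funext x
      unfold HP842.sqc I1146.tw3
      ring
    rw [e3]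
    have h5 : ∑ k ∈ bl P, RMm A (I1146.tw3 t (sqc m (alL h (js.map IP.pc)))) 1 1 φ k ≤
        ∑ k ∈ bl P, RMm A (sqc m (alL h (js.map IP.pc))) 1 1 φ (k * t) := by
      refine sum_le_sum fun k _ => ?_
      have h6 := RnP571.RMm_tw A t (al := sqc m (alL h (js.map IP.pc))) (fun x hx =>
        alL_prim' (right_ne_zero_of_mul hx)) isPrim_one (γ := 1) isPrim_one 1 φ k
      simp only [one_mul] at h6
      exact h6
    refine h5.trans (key.trans ?_)
    have hE0 : 0 ≤ Real.exp n ^ (2 / 3 : ℝ) := by positivity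
    have hCr' : 0 ≤ C r := by linarith [hC1 r]
    refine (RnP571.W2_mono_a (har r hrN) hP1 (by positivity)).trans (W2_mono a hP1 hPp ?_)
    refine mul_le_mul_of_nonneg_right ?_ hE0
    rw [hXε, hBd]
    have h6 : C r ≤ X ^ ε₁ := (hCr r hrN).trans (HX₂ X hXX₂)
    calc C r * X ^ ε₁ * (H ^ M * X ^ (G + 2 * ε₁))
        ≤ X ^ ε₁ * X ^ ε₁ * (H ^ M * X ^ (G + 2 * ε₁)) := by gcongr
      _ = H ^ M * X ^ (ε₁ + ε₁ + (G + 2 * ε₁)) := by
          rw [Real.rpow_add hX0 (ε₁ + ε₁), Real.rpow_add hX0 ε₁]; ring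
      _ ≤ _ := by
          refine mul_le_mul_of_nonneg_left ?_ (by positivity)
          refine Real.rpow_le_rpow_of_exponent_le hX1.le ?_
          rw [hε₁]; linarith
  -- the children
  intro L₀ hL₀1 hL₀2 s' W hW hRl htl
  rw [hXδ] at hL₀2 ⊢
  have hL₀0 : 0 < L₀ := by linarith
  set Λ₀ : ℝ := L₀ * nm t with hΛ₀
  have hΛ1 : 1 ≤ Λ₀ := one_le_mul_of_one_le_of_one_le hL₀1 hnt
  have hΛ0 : 0 < Λ₀ := by linarith
  have hlΛ : Real.log Λ₀ = Real.log L₀ + τ := by
    rw [hΛ₀, Real.log_mul hL₀0.ne' hnt0.ne']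
  have hlL0 : 0 ≤ Real.log L₀ := Real.log_nonneg hL₀1
  have hlL2 : Real.log L₀ ≤ Real.log P1 + σ / 4 * Real.log X := by
    have h1 := Real.log_le_log hL₀0 hL₀2
    rwa [Real.log_mul hP1.ne' (by positivity), Real.log_rpow hX0] at h1
  have hlP1 : Real.log P1 ≤ Kc * Real.log X := by
    have h1 := Real.log_le_log hP1 hP1X
    rwa [Real.log_rpow hX0] at h1
  have hlen : (List.ofFn s').length = r := List.length_ofFn
  -- the child list
  obtain ⟨v₁, v₂, v₃, qs, hvq⟩ : ∃ v₁ v₂ v₃ qs, List.ofFn s' = v₁ :: v₂ :: v₃ :: qs := by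
    rcases hs : List.ofFn s' with _ | ⟨v₁, _ | ⟨v₂, _ | ⟨v₃, qs⟩⟩⟩
    · rw [hs] at hlen; simp only [List.length_cons, List.length_nil] at hlen; omega
    · rw [hs] at hlen; simp only [List.length_cons, List.length_nil] at hlen; omega
    · rw [hs] at hlen; simp only [List.length_cons, List.length_nil] at hlen; omega
    · exact ⟨v₁, v₂, v₃, qs, rfl⟩
  have hRl' : ∀ i, Rl C' W (s' i) (sf i) := fun i => (hRl i).mono (hCr r hrN)
  have hF : List.Forall₂ (Rl C' W) (List.ofFn s') l := by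
    rw [← hofn]
    rw [List.forall₂_iff_get]
    refine ⟨by simp, fun i h1 h2 => ?_⟩
    simp only [List.get_eq_getElem, List.getElem_ofFn]
    exact hRl' _
  rw [hvq, hl] at hF
  obtain ⟨r1, hF1⟩ := List.forall₂_cons.1 hF
  obtain ⟨r2, hF2⟩ := List.forall₂_cons.1 hF1
  obtain ⟨r3', hF3⟩ := List.forall₂_cons.1 hF2
  have hlump : ∀ {v u : Pq}, Rl C' W v u → Dq.lump u → Dq.lump v := by
    intro v u hr hu
    obtain ⟨h1, h2⟩ := (Dq_lump u).1 hu
    exact (Dq_lump v).2 ⟨hr.kd.trans h1, hr.one h2⟩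
  have hdd : ∀ {v u : Pq}, Rl C' W v u → u.z ≤ Kc * Real.log X ∨ u.z ≤ σ * Real.log X →
      (nm u.d : ℝ) ≤ X ^ B → (nm v.d : ℝ) ≤ X ^ (|B| + Kc + 2) := by
    intro v u hr h1 h2
    refine hr.dd.trans ?_
    have h3 : C' ≤ X ^ (1 : ℝ) := by
      have h4 : C' ≤ Real.log X := by linarith
      rw [Real.rpow_one]
      exact h4.trans (Real.log_le_self hX0.le)
    have h5 : Real.exp u.z ≤ X ^ (Kc + 1) := by
      rw [Real.rpow_def_of_pos hX0]
      refine Real.exp_le_exp.2 ?_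
      rcases h1 with h1 | h1
      · linarith
      · linarith
    have h6 : (nm u.d : ℝ) ≤ X ^ |B| :=
      h2.trans (Real.rpow_le_rpow_of_exponent_le hX1.le (le_abs_self B))
    calc C' * (nm u.d : ℝ) * Real.exp u.z ≤ X ^ (1 : ℝ) * X ^ |B| * X ^ (Kc + 1) := by gcongr
      _ = X ^ (|B| + Kc + 2) := by
          rw [← Real.rpow_add hX0, ← Real.rpow_add hX0]; congr 1; ring
  have hqs : ∀ v ∈ qs, ∃ u ∈ ps, Rl C' W v u := by
    intro v hv
    obtain ⟨n, hn, rfl⟩ := List.mem_iff_getElem.1 hv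
    have h1 := hF3.length_eq
    have h2 : n < ps.length := by omega
    exact ⟨ps[n], List.getElem_mem h2, (List.forall₂_iff_get.1 hF3).2 n hn h2⟩
  have hqsam : ∀ v ∈ qs, v.kd = .am := by
    intro v hv
    obtain ⟨u, hu', hr'⟩ := hqs v hv
    exact hr'.kd.trans (hps u hu').1
  have hqz : (qs.map Pq.z).sum ≤ (ps.map Pq.z).sum + N * C' := by
    have h1 : ∀ {a b : List Pq}, List.Forall₂ (Rl C' W) a b →
        (a.map Pq.z).sum ≤ (b.map Pq.z).sum + b.length * C' := by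
      intro a b hab
      induction hab with
      | nil => simp
      | @cons x y a b hxy _ ih =>
        have h3 := hxy.zle
        simp only [List.map_cons, List.sum_cons, List.length_cons]
        push_cast
        linarith
    have h2 := h1 hF3
    have h3 : (ps.length : ℝ) * C' ≤ N * C' := by
      have : (ps.length : ℝ) ≤ N := by exact_mod_cast hN
      exact mul_le_mul_of_nonneg_right this (by linarith)
    linarith
  have hqz0 : 0 ≤ (qs.map Pq.z).sum := List.sum_nonneg fun x hx => by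
    obtain ⟨v, hv, rfl⟩ := List.mem_map.1 hx
    obtain ⟨u, _, hr'⟩ := hqs v hv
    exact hr'.z0
  have hWH : 1 ≤ W * H := one_le_mul_of_one_le_of_one_le hW hH
  have hPL := PX X hXX₁ (Real.log Λ₀) v₁ v₂ v₃ qs (by
      intro p hp
      simp only [List.mem_cons, List.not_mem_nil, or_false] at hp
      have aux : ∀ {v u : Pq}, Rl C' W v u → u ∈ l → u.z ≤ Kc * Real.log X → Dq.lump u →
          Dq.lump v ∧ 0 ≤ v.z ∧ v.z ≤ (Kc + 1 + σ₁) * Real.log X ∧
            (nm v.d : ℝ) ≤ X ^ (|B| + Kc + 2) := by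
        intro v u hr' hul h1 hu'
        have h2 := hr'.zle
        refine ⟨hlump hr' hu', hr'.z0, ?_, hdd hr' (Or.inl h1) (hdB u hul)⟩
        linarith
      have hm1 : u₁ ∈ l := by simp [hl]
      have hm2 : u₂ ∈ l := by simp [hl]
      have hm3 : u₃ ∈ l := by simp [hl]
      rcases hp with rfl | rfl | rfl
      · exact aux r1 hm1 (hu _ (by simp)).2.2.1 (hu _ (by simp)).1
      · exact aux r2 hm2 (hu _ (by simp)).2.2.1 (hu _ (by simp)).1
      · exact aux r3' hm3 (hu _ (by simp)).2.2.1 (hu _ (by simp)).1) (by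
      have : 0 ≤ Real.log Λ₀ := Real.log_nonneg hΛ1
      linarith) (by rw [hlΛ]; linarith) (by
      have := hF3.length_eq
      omega) (by
      intro p hp
      obtain ⟨u, hu', hr'⟩ := hqs p hp
      have h1 := (hps u hu').2.2.1
      have h2 := hr'.zle
      have h3 : u ∈ l := by simp [hl, hu']
      refine ⟨kind_am_not_lump (hqsam p hp), hr'.z0, ?_, hdd hr' (Or.inr h1) (hdB u h3)⟩
      linarith) (by
      intro t'
      have h1 := mass_am (X := X) hqsam
      cases t' with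
      | mo => rw [h1.1]; positivity
      | am =>
        rw [h1.2, div_le_iff₀ hlX]
        linarith) (W * H) hWH (by
      intro p hp
      rw [← hvq] at hp
      obtain ⟨i, rfl⟩ := (List.mem_ofFn' _ _).1 hp
      have h1 := (hRl i).ht
      have h2 := hht (sf i) (hmem i)
      calc 1 + |(s' i).t| ≤ W * (1 + |(sf i).t|) := h1
        _ ≤ W * H := mul_le_mul_of_nonneg_left h2 (by linarith))
  have hRF : RFp (π lam) h (Real.log Λ₀) (List.ofFn s') =
      RQ (fun k => k ≠ 0) h (Real.log Λ₀) ((v₁ :: v₂ :: v₃ :: qs).map (Pq.pc (π lam))) := by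
    unfold RFp
    rw [hvq]
  rw [hRF]
  refine hPL.trans ?_
  have hmas := mass_am (X := X) hqsam
  rw [hmas.1, hmas.2]
  have e5 : tl Dq (List.ofFn s') = v₁.z + v₂.z + v₃.z + (qs.map Pq.z).sum := by
    have h5 : tl Dq (List.ofFn s') = ((List.ofFn s').map Pq.z).sum := rfl
    rw [h5, hvq]
    simp only [List.map_cons, List.sum_cons]
    ring
  have hdiv : ∀ {a b : ℝ}, a ≤ b + σ / 2 * Real.log X →
      a / Real.log X ≤ b / Real.log X + σ / 2 := by
    intro a b hab
    rw [div_le_iff₀ hlX, add_mul, div_mul_cancel₀ _ hlX.ne']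
    exact hab
  have hreal := hE (Real.log Λ₀ / Real.log X) (v₁.z / Real.log X) (v₂.z / Real.log X)
    (v₃.z / Real.log X) ((qs.map Pq.z).sum / Real.log X)
    (div_nonneg (Real.log_nonneg hΛ1) hlX.le) (hdiv (by rw [hlΛ]; linarith))
    (div_nonneg r1.z0 hlX.le)
    (hdiv (by linarith [r1.zle])) (div_nonneg r2.z0 hlX.le) (hdiv (by linarith [r2.zle]))
    (div_nonneg r3'.z0 hlX.le) (hdiv (by linarith [r3'.zle])) (div_nonneg hqz0 hlX.le)
    (hdiv (by linarith)) (by
      rw [← add_div, ← add_div, ← add_div, ← e5]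
      refine hdiv ?_
      have hl1 : Real.log (((nm (1 : Eis) : ℕ) : ℝ) * ((nm (1 : Eis) : ℕ) : ℝ)) = 0 := by
        rw [nm_one]; simp
      rw [e2, hl1] at htl
      have := hCr r hrN
      linarith) (by
      rw [← add_div, ← add_div]
      refine hdiv ?_
      linarith [r1.zle, r2.zle, r3'.zle])
  have hexp : E (Real.log Λ₀ / Real.log X) (v₁.z / Real.log X) (v₂.z / Real.log X)
      (v₃.z / Real.log X) 0 ((qs.map Pq.z).sum / Real.log X) ≤
      G + tl Dq (List.ofFn s') / Real.log X +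
        (Real.log L₀ + τ - Real.log P1) / Real.log X / 3 := by
    rw [e5, add_div, add_div, add_div]
    have e6 : (Real.log L₀ + τ - Real.log P1) / Real.log X =
        Real.log Λ₀ / Real.log X - Real.log P1 / Real.log X := by
      rw [hlΛ, sub_div]
    rw [e6]
    linarith
  have h12 : (W * H) ^ M = H ^ M * W ^ (2 * ((M : ℝ) / 2)) := by
    rw [mul_div_cancel₀ _ (two_ne_zero), Real.rpow_natCast, mul_pow, mul_comm]
  have h13 : Real.exp (tl Dq (List.ofFn s')) = X ^ (tl Dq (List.ofFn s') / Real.log X) := by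
    rw [Real.rpow_def_of_pos hX0, mul_div_cancel₀ _ hlX.ne']
  have h14 : (L₀ / (P1 * X ^ (σ / 4))) ^ (1 / 3 : ℝ) =
      X ^ ((Real.log L₀ - Real.log P1) / Real.log X / 3 - σ / 12) := by
    have hq : 0 < L₀ / (P1 * X ^ (σ / 4)) := by positivity
    rw [Real.rpow_def_of_pos hq,
      Real.log_div hL₀0.ne' (by positivity), Real.log_mul hP1.ne' (by positivity),
      Real.log_rpow hX0, Real.rpow_def_of_pos hX0]
    congr 1
    field_simp
    ring
  have hW0 : 0 < W := by linarith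
  rw [h12, hBd, h13, h14]
  have hτL : τ / Real.log X ≤ σ / 16 := by rw [div_le_iff₀ hlX]; exact hτσ
  calc H ^ M * W ^ (2 * ((M : ℝ) / 2)) * X ^ (E (Real.log Λ₀ / Real.log X)
        (v₁.z / Real.log X) (v₂.z / Real.log X) (v₃.z / Real.log X) 0
        ((qs.map Pq.z).sum / Real.log X) + ε₁)
      ≤ H ^ M * W ^ (2 * ((M : ℝ) / 2)) * X ^ (((Real.log L₀ - Real.log P1) / Real.log X / 3 -
          σ / 12) + (G + 2 * ε₁) + tl Dq (List.ofFn s') / Real.log X) := by
        refine mul_le_mul_of_nonneg_left ?_ (by positivity)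
        refine Real.rpow_le_rpow_of_exponent_le hX1.le ?_
        have e7 : (Real.log L₀ + τ - Real.log P1) / Real.log X / 3 =
            (Real.log L₀ - Real.log P1) / Real.log X / 3 + τ / Real.log X / 3 := by ring
        rw [e7] at hexp
        linarith
    _ = _ := by
        rw [Real.rpow_add hX0 (_ + (G + 2 * ε₁)), Real.rpow_add hX0]
        ring

end

end Crest.Agent.R017.RPm813
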