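import Crest.Agent.R017.RPPa_401
import Crest.Agent.R017.RPn_813
import Crest.Agent.R017.P1X1_960

/-!
# Row 17, P1, exceptional class, mismatch (helper401): the principal class, part b

* `rh_jP` : (RH) at the principal frequencies for the difference of two families below a natural
  list, `d = e = γ = 1` (helper960's (C2))
-/

set_option autoImplicit false
set_option maxHeartbeats 1000000

noncomputable section

open Finset
open scoped ComplexConjugate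

namespace Crest.Agent.R017.RPP401

open Crest.Agent.R012 Crest.Agent.R012.Eis
open Crest.Agent.R012.LS2 (bl mem_bl)
open Crest.Agent.R012.Weight600 (pw osc norm_osc)
open Crest.Agent.R012.T411 (NCube)
open Crest.Agent.R017.FE47 (PU)
open Crest.Agent.R017.CM106
open Crest.Agent.R017.Prov71
open Crest.Agent.R017.B770
open Crest.Agent.R017.Sup271 (NPm)
open Crest.Agent.R017.HP842 (Pc pc sqc al alL)
open Crest.Agent.R017.Leg381 (Pf alF LF natl alF_natl)
open Crest.Agent.R017.RG64 (Ht)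
open Crest.Agent.R017.RX298 (xs zt rp)
open Crest.Agent.R017.ExD791 (Tw zet zt_eq)
open Crest.Agent.R017.R3571 (RMm RMm_nonneg RMm_eq rm W2 W2_mono)
open Crest.Agent.R017.RPm813 (Blw alL_tw1 alL_prim')
open Crest.Agent.R017.P1X960 (cmb)
open Crest.Agent.R017.TPOk571 (IP)

/-- the piece of the index `j` below `p` -/
def pj (j : IP) (p : Pq) : Pq := { p with u := j.u, z := j.z }

@[simp] lemma pj_z (j : IP) (p : Pq) : (pj j p).z = j.z := rfl
@[simp] lemma pj_t (j : IP) (p : Pq) : (pj j p).t = p.t := rfl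
@[simp] lemma pj_u (j : IP) (p : Pq) : (pj j p).u = j.u := rfl
@[simp] lemma pj_kd (j : IP) (p : Pq) : (pj j p).kd = p.kd := rfl
@[simp] lemma pj_d (j : IP) (p : Pq) : (pj j p).d = p.d := rfl

lemma pj_pc {P : DPar} {j : IP} {p : Pq} (h : Blw P j p) : (pj j p).pc P = j.pc := by
  have h1 := h.ψ
  have h2 := h.t0
  have h3 := h.s
  unfold TPOk571.IP.pc Prov71.Pq.pc
  rw [Pc.mk.injEq]
  refine ⟨rfl, ?_, rfl, ?_⟩
  · rw [h1]; rfl
  · rw [h2, h3, add_zero]; rfl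

lemma pj_pc' {P : DPar} {j : IP} {p : Pq} (h : Blw P j p) (z : ℝ) :
    ({pj j p with z := z} : Pq).pc P = ({j with z := z} : IP).pc := by
  have h1 := h.ψ
  have h2 := h.t0
  have h3 := h.s
  unfold TPOk571.IP.pc Prov71.Pq.pc
  rw [Pc.mk.injEq]
  refine ⟨rfl, ?_, rfl, ?_⟩
  · show _ = j.ψ.1
    rw [h1]; rfl
  · show p.t = j.t0 + j.s
    rw [h2, h3, add_zero]

/-- the list of the pieces -/
def pjL : List IP → List Pq → List Pq
  | j :: js, p :: ps => pj j p :: pjL js ps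
  | _, _ => []

lemma pjL_pc {P : DPar} {js : List IP} {ps : List Pq} (h : List.Forall₂ (Blw P) js ps) :
    (pjL js ps).map (Pq.pc P) = js.map IP.pc := by
  induction h with
  | nil => rfl
  | @cons j p js ps hjp _ ih =>
    show (pj j p).pc P :: (pjL js ps).map (Pq.pc P) = j.pc :: js.map IP.pc
    rw [ih, pj_pc hjp]

lemma pjL_len {P : DPar} {js : List IP} {ps : List Pq} (h : List.Forall₂ (Blw P) js ps) :
    (pjL js ps).length = ps.length := by
  induction h with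
  | nil => rfl
  | @cons j p js ps hjp _ ih =>
    show (pjL js ps).length + 1 = ps.length + 1
    rw [ih]

lemma pjL_z {P : DPar} {js : List IP} {ps : List Pq} (h : List.Forall₂ (Blw P) js ps) :
    (pjL js ps).map Pq.z = js.map IP.z := by
  induction h with
  | nil => rfl
  | @cons j p js ps hjp _ ih =>
    show j.z :: (pjL js ps).map Pq.z = j.z :: js.map IP.z
    rw [ih]

lemma sum_z_le {P : DPar} {js : List IP} {ps : List Pq} (h : List.Forall₂ (Blw P) js ps) :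
    (js.map IP.z).sum ≤ (ps.map Pq.z).sum := by
  induction h with
  | nil => rfl
  | @cons j p js ps hjp _ ih =>
    rw [List.map_cons, List.map_cons, List.sum_cons, List.sum_cons]
    have := hjp.z
    linarith

lemma Ht_le_pow {H : ℝ} (hH : 1 ≤ H) : ∀ l : List Pq, (∀ p ∈ l, 1 + |p.t| ≤ H) →
    Ht (natl l) ≤ H ^ l.length := by
  intro l
  induction l with
  | nil => intro _; simp [Leg381.natl, RG64.Ht]
  | cons p l ih =>
    intro h
    have h1 := ih fun x hx => h x (List.mem_cons_of_mem _ hx)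
    have h2 := h p List.mem_cons_self
    have e1 : natl (p :: l) = (p, false) :: natl l := rfl
    rw [e1, RG64.Ht_cons, List.length_cons, pow_succ, mul_comm]
    have h3 := RG64.one_le_Ht (natl l)
    have h4 : 0 ≤ 1 + |p.t| := by positivity
    exact mul_le_mul h1 h2 h4 (by positivity)

lemma pjL_t {P : DPar} {js : List IP} {ps : List Pq} (h : List.Forall₂ (Blw P) js ps) {H : ℝ}
    (hH : ∀ p ∈ ps, 1 + |p.t| ≤ H) : ∀ p ∈ pjL js ps, 1 + |p.t| ≤ H := by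
  induction h with
  | nil => intro p hp; simp [pjL] at hp
  | @cons j p js ps hjp _ ih =>
    intro x hx
    have e1 : pjL (j :: js) (p :: ps) = pj j p :: pjL js ps := rfl
    rw [e1, List.mem_cons] at hx
    rcases hx with rfl | hx
    · exact hH p List.mem_cons_self
    · exact ih (fun y hy => hH y (List.mem_cons_of_mem _ hy)) x hx

lemma LF_natl' (l : List Pq) : LF (natl l) = (l.map Pq.z).sum := by
  unfold Leg381.LF Leg381.natl
  rw [List.map_map]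
  rfl

lemma tw3_smul (t : Eis) (z : ℂ) (a : Eis → ℂ) :
    (fun n => z * I1146.tw3 t a n) = I1146.tw3 t (fun n => z * a n) := by
  funext n
  unfold I1146.tw3
  ring

/-- `RMm` of a multiple -/
lemma RMm_mul {A : ℝ} {z : ℂ} (hz : ‖z‖ ≤ 1) (a : Eis → ℂ) (e γ π r : Eis) :
    RMm A (fun n => z * a n) e γ π r ≤ RMm A a e γ π r := by
  have e1 : ∀ t : ℝ, CS (rm (fun n => z * a n) e γ π t) r = z * CS (rm a e γ π t) r := by
    intro t
    unfold CS
    rw [← tsum_mul_left]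
    refine tsum_congr fun m => ?_
    unfold R3571.rm
    split_ifs <;> ring
  rw [RMm_eq, RMm_eq]
  have e2 : ∀ t : ℝ, E1551.jb A t * ‖CS (rm (fun n => z * a n) e γ π t) r‖ ^ 2 =
      ‖z‖ ^ 2 * (E1551.jb A t * ‖CS (rm a e γ π t) r‖ ^ 2) := by
    intro t
    rw [e1, norm_mul, mul_pow]
    ring
  simp_rw [e2]
  rw [MeasureTheory.integral_const_mul]
  have h0 : 0 ≤ ∫ t, E1551.jb A t * ‖CS (rm a e γ π t) r‖ ^ 2 :=
    MeasureTheory.integral_nonneg fun t => mul_nonneg (E1551.jb_pos A t).le (by positivity)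
  calc ‖z‖ ^ 2 * ∫ t, E1551.jb A t * ‖CS (rm a e γ π t) r‖ ^ 2
      ≤ 1 * ∫ t, E1551.jb A t * ‖CS (rm a e γ π t) r‖ ^ 2 :=
        mul_le_mul_of_nonneg_right (pow_le_one₀ (norm_nonneg _) hz) h0
    _ = _ := one_mul _

/-- the combination is a multiple of `xs` -/
lemma cmb_xs {P : DPar} (h : ℝ → ℝ) (m t : Eis) {j₁ j₂ : IP} {jr : List IP} {u₁ u₂ : Pq}
    {ps : List Pq} (h1 : Blw P j₁ u₁) (h2 : Blw P j₂ u₂) (hr : List.Forall₂ (Blw P) jr ps) (D : ℝ)
    (z w : ℂ) (hw : w = -(z * (osc j₁.t0 D * osc j₂.t0 (-D)))) :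
    cmb z w (sqc m (alL h ((j₁ :: j₂ :: jr).map fun j => SU770.tw1 j.pc t)))
      (sqc m (alL h ((({j₁ with z := j₁.z - D} : IP) :: ({j₂ with z := j₂.z + D} : IP) :: jr).map
        fun j => SU770.tw1 j.pc t))) =
    I1146.tw3 t (fun n => z * xs m 1 1 P h (j₂.z + D)
      (natl (pj j₁ u₁ :: pj j₂ u₂ :: pjL jr ps)) n) := by
  have e1 : ∀ js : List IP, alL h (js.map fun j => SU770.tw1 j.pc t) =
      I1146.tw3 t (alL h (js.map IP.pc)) := by
    intro js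
    have := alL_tw1 h t (js.map IP.pc)
    rw [List.map_map] at this
    exact this
  have e2 : alF 1 1 P h (natl (pj j₁ u₁ :: pj j₂ u₂ :: pjL jr ps)) =
      alL h ((j₁ :: j₂ :: jr).map IP.pc) := by
    rw [alF_natl, List.map_cons, List.map_cons, pjL_pc hr, pj_pc h1, pj_pc h2]
    rfl
  have e3 : alF 1 1 P h (rp (j₂.z + D) (natl (pj j₁ u₁ :: pj j₂ u₂ :: pjL jr ps))) =
      alL h ((({j₁ with z := j₁.z - D} : IP) :: ({j₂ with z := j₂.z + D} : IP) :: jr).map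
        IP.pc) := by
    have e4 : rp (j₂.z + D) (natl (pj j₁ u₁ :: pj j₂ u₂ :: pjL jr ps)) =
        natl (({pj j₁ u₁ with z := j₁.z - D} : Pq) :: ({pj j₂ u₂ with z := j₂.z + D} : Pq) ::
          pjL jr ps) := by
      unfold Leg381.natl
      rw [List.map_cons, List.map_cons, List.map_cons, List.map_cons]
      unfold RX298.rp
      simp only [pj_z]
      have : j₁.z + j₂.z - (j₂.z + D) = j₁.z - D := by ring
      rw [this]
    rw [e4, alF_natl, List.map_cons, List.map_cons, pjL_pc hr, pj_pc' h1, pj_pc' h2]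
    rfl
  have e5 : zt (j₂.z + D) (natl (pj j₁ u₁ :: pj j₂ u₂ :: pjL jr ps)) =
      osc j₁.t0 D * osc j₂.t0 (-D) := by
    have e6 : natl (pj j₁ u₁ :: pj j₂ u₂ :: pjL jr ps) =
        (pj j₁ u₁, false) :: (pj j₂ u₂, false) :: natl (pjL jr ps) := rfl
    rw [e6, zt_eq]
    unfold ExD791.zet
    simp only [pj_z, pj_t]
    rw [h1.t0, h2.t0]
    have : j₂.z - (j₂.z + D) = -D := by ring
    rw [this, neg_neg]
  funext n
  rw [e1, e1]
  unfold RX298.xs
  rw [e2, e3, e5, hw]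
  unfold P1X960.cmb I1146.tw3 HP842.sqc
  simp only [Pi.add_apply, Pi.smul_apply, smul_eq_mul]
  ring

open Classical in
/-- **(RH) at the principal frequencies for the difference of two families below a natural
list** -/
theorem rh_jP {Λ : Type*} {π : Λ → DPar} {h : ℝ → ℝ} {c₀ : ℝ} (hpu : PU h c₀)
    (hP : ∀ lam, (π lam).OK) (hnp : ∀ lam, ¬ NPm (π lam).n (π lam).ψ (π lam).l₂ 1) {Kc : ℝ}
    (hKc : 0 ≤ Kc) {ε : ℝ} (hε : 0 < ε) :
    ∃ σ : ℝ, 0 < σ ∧ σ ≤ ε ∧ ∀ (lam : Λ) (t : Eis), t ≠ 0 → ∀ (N : ℕ) (B : ℝ),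
      ∃ (M a A₀ : ℕ) (X₀ : ℝ), 1 ≤ a ∧ 1 < X₀ ∧ ∀ X : ℝ, X₀ ≤ X →
      ∀ (u₁ u₂ u₃ : Pq) (ps : List Pq) (m : Eis) (H : ℝ),
      (∀ p ∈ [u₁, u₂, u₃], Dq.lump p ∧ 0 ≤ p.z ∧ p.z ≤ Kc * Real.log X ∧ (nm p.d : ℝ) ≤ X ^ B) →
      ps.length ≤ N →
      (∀ p ∈ ps, p.kd = .am ∧ 0 ≤ p.z ∧ p.z ≤ σ * Real.log X ∧ (nm p.d : ℝ) ≤ X ^ B) →
      (ps.map Pq.z).sum ≤ Kc * Real.log X → m ≠ 0 → (nm m : ℝ) ≤ X ^ B →
      1 ≤ H → (∀ p ∈ u₁ :: u₂ :: u₃ :: ps, 1 + |p.t| ≤ H) →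
      ∀ (j₁ j₂ : IP) (jr : List IP),
      List.Forall₂ (Blw (π lam)) (j₁ :: j₂ :: jr) (u₁ :: u₂ :: u₃ :: ps) →
      ∀ (D : ℝ) (z w : ℂ), ‖z‖ ≤ 1 → w = -(z * (osc j₁.t0 D * osc j₂.t0 (-D))) →
      ∀ P1 : ℝ, 0 < P1 → P1 ≤ X ^ Kc →
      ∀ A : ℕ, A₀ ≤ A → ∀ φ : Eis, IsPrim φ → (nm φ : ℝ) ≤ X ^ B → ∀ P : ℝ, 0 < P →
        ∑ k ∈ (bl P).filter (fun k => ¬ NCube (k * t)), RMm A
          (cmb z w (sqc m (alL h ((j₁ :: j₂ :: jr).map fun j => SU770.tw1 j.pc t)))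
            (sqc m (alL h ((({j₁ with z := j₁.z - D} : IP) ::
              ({j₂ with z := j₂.z + D} : IP) :: jr).map fun j => SU770.tw1 j.pc t)))) 1 1 φ k ≤
        W2 a P1 (H ^ M * X ^ ε * (P1 ^ (1 / 3 : ℝ) *
          Real.exp (((j₁ :: j₂ :: jr).map IP.z).sum) ^ (5 / 3 : ℝ) *
          min 1 (Real.exp (-(min (min j₁.z j₂.z) (min (j₁.z - D) (j₂.z + D))))))) P := by
  refine ⟨ε, hε, le_rfl, fun lam t ht N B => ?_⟩
  set B₃ : ℝ := |B| + 4 * Kc + 2 with hB₃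
  have habs := abs_nonneg B
  have hB₃1 : 1 ≤ B₃ := by rw [hB₃]; linarith
  have hB₃0 : 0 < B₃ := by linarith
  set ε' : ℝ := ε / (2 * B₃) with hε'
  have hε'0 : 0 < ε' := by positivity
  obtain ⟨a, ha, H1⟩ := rhx0 hpu (N + 3) (m := 1) (B₀ := 1) zero_le_one zero_le_one
  obtain ⟨C, hC, HC⟩ := H1 ε' hε'0
  have hnt : (1 : ℝ) ≤ nm t := by exact_mod_cast nm_pos.2 ht
  have hnt0 : (0 : ℝ) < nm t := by linarith
  have hCt : 1 ≤ C * nm t := one_le_mul_of_one_le_of_one_le hC hnt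
  obtain ⟨X₂, hX₂, HX₂⟩ := XSup271.exists_X hCt (ε := ε / 2) (by positivity)
  refine ⟨6 * (N + 3), a, 14, max 3 (max X₂ (max (nm (π lam).n : ℝ) (nm t : ℝ))), ha,
    lt_of_lt_of_le (by norm_num) (le_max_left _ _), ?_⟩
  intro X hX u₁ u₂ u₃ ps m H hu hN hps hsum hm0 hmX hH hht j₁ j₂ jr hjs D z w hz hw P1 hP1 hP1X
    A hA φ hφ hφX Pp hPp
  have hX3 : 3 ≤ X := (le_max_left _ _).trans hX
  have hXX₂ : X₂ ≤ X := ((le_max_left _ _).trans (le_max_right _ _)).trans hX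
  have hXn : (nm (π lam).n : ℝ) ≤ X :=
    ((le_max_left _ _).trans ((le_max_right _ _).trans (le_max_right _ _))).trans hX
  have hXt : (nm t : ℝ) ≤ X :=
    ((le_max_right _ _).trans ((le_max_right _ _).trans (le_max_right _ _))).trans hX
  have hX1 : 1 ≤ X := by linarith
  have hX0 : 0 < X := by linarith
  have hlX : 0 ≤ Real.log X := Real.log_nonneg hX1
  set X0 : ℝ := X ^ B₃ with hX0d
  have hXX : X ≤ X0 := by
    conv_lhs => rw [← Real.rpow_one X]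
    exact Real.rpow_le_rpow_of_exponent_le hX1 hB₃1
  have hXB : ∀ {x : ℝ}, x ≤ X ^ B → x ≤ X0 := fun hx =>
    hx.trans (Real.rpow_le_rpow_of_exponent_le hX1 (by
      have := le_abs_self B
      rw [hB₃]; linarith))
  have hlog : Real.log X0 = B₃ * Real.log X := by rw [hX0d, Real.log_rpow hX0]
  have hXe : X0 ^ ε' = X ^ (ε / 2) := by
    rw [hX0d, ← Real.rpow_mul hX0.le]
    congr 1
    rw [hε']
    field_simp
  obtain ⟨b1, hjs1⟩ := List.forall₂_cons.1 hjs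
  obtain ⟨b2, hjr⟩ := List.forall₂_cons.1 hjs1
  set ls : List Pq := pj j₁ u₁ :: pj j₂ u₂ :: pjL jr (u₃ :: ps) with hls
  have hu1 := hu u₁ (by simp)
  have hu2 := hu u₂ (by simp)
  have hu3 := hu u₃ (by simp)
  have hKL : 0 ≤ Kc * Real.log X := mul_nonneg hKc hlX
  have hBL : 0 ≤ |B| * Real.log X := mul_nonneg habs hlX
  set s₀ : ℝ := min (min j₁.z j₂.z) (min (j₁.z - D) (j₂.z + D)) with hs₀
  have hs1 : s₀ ≤ j₁.z := (min_le_left _ _).trans (min_le_left _ _)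
  have hs2 : s₀ ≤ j₂.z := (min_le_left _ _).trans (min_le_right _ _)
  have hs3 : s₀ ≤ j₁.z - D := (min_le_right _ _).trans (min_le_left _ _)
  have hs4 : s₀ ≤ j₂.z + D := (min_le_right _ _).trans (min_le_right _ _)
  have hTw : Tw (j₂.z + D) s₀ (X0 ^ (1 : ℝ)) (natl ls) := by
    refine ⟨⟨b1.one hu1.1.2, b2.one hu2.1.2⟩, ⟨hu1.1.1, hu2.1.1⟩, ⟨?_, ?_⟩, ⟨hs1, hs2⟩, ?_, hs4⟩
    · rw [Real.rpow_one]; exact hXB hu1.2.2.2
    · rw [Real.rpow_one]; exact hXB hu2.2.2.2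
    · show s₀ ≤ j₁.z + j₂.z - (j₂.z + D)
      linarith
  have hlen : (natl ls).length ≤ N + 3 := by
    unfold Leg381.natl
    rw [List.length_map, hls, List.length_cons, List.length_cons, pjL_len hjr, List.length_cons]
    omega
  have hLF : LF (natl ls) = ((j₁ :: j₂ :: jr).map IP.z).sum := by
    rw [LF_natl', hls, List.map_cons, List.map_cons, pjL_z hjr]
    rfl
  have hsz := sum_z_le hjs
  have hsz3 := sum_z_le hjr
  simp only [List.map_cons, List.sum_cons] at hsz hsz3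
  have hLF1 : LF (natl ls) ≤ 1 * Real.log X0 := by
    rw [hLF, one_mul, hlog, hB₃, add_mul, add_mul]
    simp only [List.map_cons, List.sum_cons]
    refine hsz.trans ?_
    linarith [hu1.2.2.1, hu2.2.2.1, hu3.2.2.1]
  have hLF2 : LF ((natl ls).drop 2) ≤ 1 * Real.log X0 := by
    have e1 : (natl ls).drop 2 = natl (pjL jr (u₃ :: ps)) := rfl
    rw [e1, LF_natl', pjL_z hjr, one_mul, hlog, hB₃, add_mul, add_mul]
    linarith [hu3.2.2.1]
  have hs₀X : s₀ ≤ 1 * Real.log X0 := by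
    rw [one_mul, hlog, hB₃, add_mul, add_mul]
    linarith [b1.z, hu1.2.2.1]
  have hHt : Ht (natl ls) ≤ H ^ (N + 3) := by
    refine (Ht_le_pow hH ls ?_).trans (pow_le_pow_right₀ hH ?_)
    · intro p hp
      rw [hls, List.mem_cons, List.mem_cons] at hp
      rcases hp with rfl | rfl | hp
      · exact hht u₁ (by simp)
      · exact hht u₂ (by simp)
      · exact pjL_t hjr (fun y hy => hht y (by
          rw [List.mem_cons] at hy
          rcases hy with rfl | hy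
          · simp
          · simp [hy])) p hp
    · have := hlen
      unfold Leg381.natl at this
      rwa [List.length_map] at this
  have main := HC (π lam) (hP lam) (hnp lam) (natl ls) (j₂.z + D) s₀ hlen 1 1 le_rfl m t hm0 ht X0
    (hX3.trans hXX) (by rw [Real.rpow_one]; exact hXn.trans hXX) hTw (hXB hmX) (hXt.trans hXX)
    hLF1 hLF2 hs₀X A (by exact_mod_cast hA) P1 hP1 (by
      rw [Real.rpow_one]
      refine hP1X.trans (Real.rpow_le_rpow_of_exponent_le hX1 ?_)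
      rw [hB₃]; linarith) φ hφ (hXB hφX) Pp hPp
  rw [cmb_xs (P := π lam) h m t b1 b2 hjr D z w hw]
  have hxp : ∀ n, (fun n => z * xs m 1 1 (π lam) h (j₂.z + D) (natl ls) n) n ≠ 0 → IsPrim n := by
    intro n hn
    obtain ⟨R', hR0', hR'⟩ := FE47.exists_R (FE47.cs_cx hpu.cs)
    exact (RX298.FS_xs ⟨R', hR'⟩ (hP lam) m 1 1 (j₂.z + D) (natl ls)).prim n
      (right_ne_zero_of_mul hn)
  have h5 : ∑ k ∈ (bl Pp).filter (fun k => ¬ NCube (k * t)), RMm A (I1146.tw3 t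
        (fun n => z * xs m 1 1 (π lam) h (j₂.z + D) (natl ls) n)) 1 1 φ k ≤
      ∑ k ∈ (bl Pp).filter (fun k => ¬ NCube (k * t)),
        RMm A (xs m 1 1 (π lam) h (j₂.z + D) (natl ls)) 1 1 φ (k * t) := by
    refine sum_le_sum fun k _ => ?_
    have h6 := RnP571.RMm_tw A t (al := fun n => z * xs m 1 1 (π lam) h (j₂.z + D) (natl ls) n)
      hxp isPrim_one (γ := 1) isPrim_one 1 φ k
    simp only [one_mul] at h6
    exact h6.trans (RMm_mul hz _ _ _ _ _)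
  refine h5.trans (main.trans (W2_mono a hP1 hPp ?_))
  rw [hLF, hXe]
  set E : ℝ := Real.exp ((j₁ :: j₂ :: jr).map IP.z).sum with hE
  have hmn0 : 0 ≤ min 1 (Real.exp (-s₀)) := le_min zero_le_one (Real.exp_pos _).le
  have hE0 : 0 < E := Real.exp_pos _
  have hHt6 : Ht (natl ls) ^ 6 ≤ H ^ (6 * (N + 3)) := by
    calc Ht (natl ls) ^ 6 ≤ (H ^ (N + 3)) ^ 6 :=
          pow_le_pow_left₀ (by have := RG64.one_le_Ht (natl ls); linarith) hHt 6
      _ = _ := by rw [← pow_mul, mul_comm]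
  have hPt : (P1 * nm t) ^ (1 / 3 : ℝ) ≤ P1 ^ (1 / 3 : ℝ) * nm t := by
    rw [Real.mul_rpow hP1.le hnt0.le]
    refine mul_le_mul_of_nonneg_left ?_ (by positivity)
    calc (nm t : ℝ) ^ (1 / 3 : ℝ) ≤ (nm t : ℝ) ^ (1 : ℝ) :=
          Real.rpow_le_rpow_of_exponent_le hnt (by norm_num)
      _ = _ := Real.rpow_one _
  have hCX := HX₂ X hXX₂
  have hH0 : 0 ≤ H ^ (6 * (N + 3)) := by positivity
  calc C * 1 ^ 4 * Ht (natl ls) ^ 6 * X ^ (ε / 2) * ((P1 * nm t) ^ (1 / 3 : ℝ) *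
        (E ^ (5 / 3 : ℝ) * min 1 (Real.exp (-s₀))))
      ≤ C * 1 ^ 4 * H ^ (6 * (N + 3)) * X ^ (ε / 2) * ((P1 ^ (1 / 3 : ℝ) * nm t) *
        (E ^ (5 / 3 : ℝ) * min 1 (Real.exp (-s₀)))) := by gcongr
    _ = H ^ (6 * (N + 3)) * ((C * nm t) * X ^ (ε / 2)) * (P1 ^ (1 / 3 : ℝ) *
        E ^ (5 / 3 : ℝ) * min 1 (Real.exp (-s₀))) := by ring
    _ ≤ H ^ (6 * (N + 3)) * (X ^ (ε / 2) * X ^ (ε / 2)) * (P1 ^ (1 / 3 : ℝ) *
        E ^ (5 / 3 : ℝ) * min 1 (Real.exp (-s₀))) := by gcongr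
    _ = _ := by
        rw [← Real.rpow_add hX0, add_halves]

end Crest.Agent.R017.RPP401
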