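import Crest.Agent.R017.RPPb_401

/-!
# Row 17, P1, exceptional class, mismatch (helper401): the principal class, one family

* `cs_l1` : the trivial bound of the principal values, weight `n6`
* `rhs0`  : (RH) for one flagged list at the principal frequencies, `d = e = γ = 1`
* `rh_jS` : (RH) at the principal frequencies for one family below a natural list
-/

set_option autoImplicit false
set_option maxHeartbeats 1000000

noncomputable section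

open Finset MeasureTheory
open scoped ComplexConjugate

namespace Crest.Agent.R017.RPP401

open Crest.Agent.R012 Crest.Agent.R012.Eis
open Crest.Agent.R012.LS2 (S mem_S bl mem_bl)
open Crest.Agent.R012.Div277 (tau)
open Crest.Agent.R012.Weight600 (pw osc norm_osc norm_pw)
open Crest.Agent.R012.T411 (NCube)
open Crest.Agent.R017.FE47 (PU)
open Crest.Agent.R017.CM106
open Crest.Agent.R017.Prov71
open Crest.Agent.R017.B770
open Crest.Agent.R017.HP842 (Pc pc sqc al alL)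
open Crest.Agent.R017.Leg381 (Pf alF LF natl alF_natl)
open Crest.Agent.R017.RG64 (Ht)
open Crest.Agent.R017.E1551 (jb jb_pos)
open Crest.Agent.R017.PX764 (n6)
open Crest.Agent.R017.E3D579 (n6_nonneg)
open Crest.Agent.R017.R3571 (RMm RMm_nonneg RMm_eq rm W2 W2_mono jc jc_nonneg)
open Crest.Agent.R017.RPm813 (Blw alL_tw1 alL_prim')
open Crest.Agent.R017.TPOk571 (IP)
open Crest.Agent.R017.AL813 (al_supp al_mem_S norm_alF_le norm_sqc_le cx_bdd)
open Crest.Agent.R017.RHX116 (card_prin)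

open Classical in
/-- the trivial bound, weight `n6` -/
lemma cs_rm_l1 {α : Eis → ℂ} (hα : FS α) {Y G L : ℝ} (hY0 : 0 ≤ Y) (hY : ∀ m, α m ≠ 0 → m ∈ S Y)
    (hL : 0 < L) (hlow : ∀ m, α m ≠ 0 → L ≤ nm m) (hG0 : 0 ≤ G) (hG : ∀ m, ‖α m‖ ≤ G)
    (hY1 : 1 ≤ Y) (π r : Eis) (t : ℝ) :
    ‖CS (rm α 1 1 π t) r‖ ≤ 16 * Y * (G * L ^ (-(1 / 6 : ℝ))) := by
  have hne : ∀ m, rm α 1 1 π t m ≠ 0 → α m ≠ 0 := by
    intro m hm h0
    apply hm
    unfold rm
    rw [one_mul, h0]; simp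
  have hFr : FS (rm α 1 1 π t) :=
    { fin := hα.fin.subset fun m hm => hne m hm
      prim := fun m hm => hα.prim _ (hne m hm) }
  have hn6 : ∀ m, α m ≠ 0 → n6 m ≤ L ^ (-(1 / 6 : ℝ)) := by
    intro m hm
    unfold PX764.n6
    rw [show (-1 / 6 : ℝ) = -(1 / 6 : ℝ) by norm_num]
    exact Real.rpow_le_rpow_of_nonpos hL (hlow m hm) (by norm_num)
  refine (E4K164.norm_CS_le' hFr r).trans ?_
  have h2 : ∀ l ∈ hFr.fin.toFinset, ‖rm α 1 1 π t l‖ ≤ G * L ^ (-(1 / 6 : ℝ)) := by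
    intro m hm
    have hm' := hne m ((Set.Finite.mem_toFinset _).1 hm)
    unfold rm
    rw [norm_mul, norm_pw, mul_one]
    split_ifs
    · rw [norm_mul, one_mul, Complex.norm_real, Real.norm_eq_abs, abs_of_nonneg (n6_nonneg m)]
      exact mul_le_mul (hG m) (hn6 m hm') (n6_nonneg m) hG0
    · rw [norm_zero]; positivity
  calc ∑ l ∈ hFr.fin.toFinset, ‖rm α 1 1 π t l‖
      ≤ ∑ _l ∈ hFr.fin.toFinset, G * L ^ (-(1 / 6 : ℝ)) := sum_le_sum h2
    _ = (hFr.fin.toFinset.card : ℝ) * (G * L ^ (-(1 / 6 : ℝ))) := by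
        rw [sum_const, nsmul_eq_mul]
    _ ≤ ((S Y).card : ℝ) * (G * L ^ (-(1 / 6 : ℝ))) := by
        refine mul_le_mul_of_nonneg_right ?_ (by positivity)
        have hsub : hFr.fin.toFinset ⊆ S Y := fun m hm =>
          hY m (hne m ((Set.Finite.mem_toFinset hFr.fin).1 hm))
        exact_mod_cast card_le_card hsub
    _ ≤ 16 * Y * (G * L ^ (-(1 / 6 : ℝ))) :=
        mul_le_mul_of_nonneg_right (GLS106.card_S_le hY1) (by positivity)

/-- `RMm` from a pointwise bound -/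
lemma RMm_pt {A : ℝ} (hA : 2 ≤ A) {α : Eis → ℂ} (hα : FS α) (π r : Eis) {G : ℝ}
    (hb : ∀ t, ‖CS (rm α 1 1 π t) r‖ ≤ G) : RMm A α 1 1 π r ≤ G ^ 2 * jc := by
  rw [RMm_eq]
  unfold jc
  rw [← integral_const_mul]
  refine integral_mono (R3571.integrable_RM (by linarith) hα one_ne_zero 1 π r)
    ((E1551.integrable_jb (by norm_num)).const_mul _) fun t => ?_
  beta_reduce
  have h1 : jb A t ≤ jb 2 t := by
    unfold E1551.jb
    have ht1 : (1 : ℝ) ≤ 1 + |t| := by linarith [abs_nonneg t]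
    exact Real.rpow_le_rpow_of_exponent_le ht1 (by linarith)
  have h2 := (jb_pos A t).le
  calc jb A t * ‖CS (rm α 1 1 π t) r‖ ^ 2 ≤ jb 2 t * G ^ 2 := by
        refine mul_le_mul h1 (pow_le_pow_left₀ (norm_nonneg _) (hb t) 2) (by positivity) ?_
        exact h2.trans h1
    _ = _ := mul_comm _ _

open Classical in
/-- **(RH) for one flagged list at the principal frequencies, `d = e = γ = 1`** -/
theorem rhs0 {h : ℝ → ℝ} {c : ℝ} (hpu : PU h c) (n : ℕ) {ε : ℝ} (hε : 0 < ε) :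
    ∃ C : ℝ, 1 ≤ C ∧ ∀ (P : DPar), P.OK → ∀ (ps : List Pf), ps.length ≤ n → ∀ (z D0 : ℝ),
      ∀ q f : Eis, f ≠ 0 → ∀ X0 : ℝ, 1 ≤ X0 → LF ps ≤ Real.log X0 → ∀ A : ℝ, 2 ≤ A →
      ∀ a : ℕ, 1 ≤ a → ∀ P1 : ℝ, 0 < P1 → ∀ π : Eis, ∀ Λ : ℝ, 0 < Λ →
      ∑ k ∈ (bl Λ).filter (fun k => ¬ NCube (k * f)),
          RMm A (sqc q (alF z D0 P h ps)) 1 1 π (k * f) ≤
        W2 a P1 (C * X0 ^ ε * ((P1 * nm f) ^ (1 / 3 : ℝ) * Real.exp (LF ps) ^ (5 / 3 : ℝ))) Λ := by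
  obtain ⟨R, hR0, hR⟩ := FE47.exists_R (FE47.cs_cx hpu.cs)
  obtain ⟨Ab, hAb1, hAb⟩ := cx_bdd hpu
  have hn0 : (0 : ℝ) ≤ n := Nat.cast_nonneg n
  set δ : ℝ := ε / (4 * n + 1) with hδ
  have hδ0 : 0 < δ := by positivity
  obtain ⟨C1, hC1, hτ⟩ := Div277.tau_le_rpow hδ0
  have hjc := jc_nonneg
  have hnR : 0 ≤ n * R := by positivity
  set ER : ℝ := Real.exp (n * R) with hERd
  have hER : 1 ≤ ER := Real.one_le_exp (by positivity)
  have hER0 : 0 < ER := by linarith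
  set G0 : ℝ := Ab ^ n * (C1 * ER ^ δ) ^ (2 * n) with hG0d
  have hG00 : 0 ≤ G0 := by positivity
  set K1 : ℝ := 16 * (16 * ER * (G0 * ER)) ^ 2 * jc with hK1
  have hK10 : 0 ≤ K1 := by positivity
  refine ⟨1 + K1, by linarith, ?_⟩
  intro P hP ps hlen z D0 q f hf X0 hX0 hLF A hA a ha P1 hP1 π Λ hΛ
  have hX00 : 0 < X0 := by linarith
  have hf0 : (0 : ℝ) < nm f := by exact_mod_cast nm_pos.2 hf
  set x : Eis → ℂ := sqc q (alF z D0 P h ps) with hx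
  have hFx : FS x := HP842.FS.sqc (ExD791.FS_alFi hR (OKi848.OKi.of hP) z D0 ps) q
  set E : ℝ := Real.exp (LF ps) with hE
  have hE0 : 0 < E := Real.exp_pos _
  have hEX : E ≤ X0 := by
    rw [hE, ← Real.exp_log hX00]
    exact Real.exp_le_exp.2 hLF
  set V : ℝ := (1 + K1) * X0 ^ ε * ((P1 * nm f) ^ (1 / 3 : ℝ) * E ^ (5 / 3 : ℝ)) with hV
  have hV0 : 0 ≤ V := by positivity
  have hlR : (ps.length : ℝ) * R ≤ n * R :=
    mul_le_mul_of_nonneg_right (by exact_mod_cast hlen) hR0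
  have hYS : ∀ m, x m ≠ 0 → m ∈ S (E * ER) := fun m hm =>
    al_mem_S hR z D0 P q ps (by
      rw [hE, hERd, ← Real.exp_add]
      exact Real.exp_le_exp.2 (by linarith)) hm
  -- one frequency
  have hone : ∀ r : Eis, RMm A x 1 1 π r ≤
      (16 * ER * (G0 * ER)) ^ 2 * jc * (X0 ^ ε * E ^ (5 / 3 : ℝ)) := by
    intro r
    by_cases hEY : 1 ≤ E * ER
    swap
    · push Not at hEY
      have hz0 : ∀ m, x m = 0 := by
        intro m'
        by_contra h0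
        have h3 := (mem_S (by positivity)).1 (hYS m' h0)
        have h4 : (1 : ℝ) ≤ nm m' := by exact_mod_cast nm_pos.2 h3.2.1.ne_zero
        linarith [h3.1]
      rw [R3571.RMm_zero fun m' => hz0 _]
      positivity
    have hlow : ∀ m, x m ≠ 0 → E * ER⁻¹ ≤ nm m := by
      intro m hm
      obtain ⟨h1, -, -, h2⟩ := al_supp hR z D0 P q ps hm
      have hm0 : (0 : ℝ) < nm m := by exact_mod_cast nm_pos.2 h1.ne_zero
      rw [hE, hERd, ← Real.exp_neg, ← Real.exp_add, ← Real.exp_log hm0]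
      refine Real.exp_le_exp.2 ?_
      have := (abs_le.1 h2).1
      linarith
    have hsup : ∀ m, ‖x m‖ ≤ G0 * X0 ^ (ε / 2) := by
      intro m
      by_cases hm : x m = 0
      · rw [hm, norm_zero]; positivity
      have h3 := (mem_S (by positivity)).1 (hYS m hm)
      have hm0 := h3.2.1.ne_zero
      have hmp : (0 : ℝ) < nm m := by exact_mod_cast nm_pos.2 hm0
      have ht : (1 : ℝ) ≤ tau m := Leg381.one_le_tau hm0
      have hτm : (tau m : ℝ) ≤ C1 * (ER ^ δ * X0 ^ δ) := by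
        refine (hτ m hm0).trans ?_
        refine mul_le_mul_of_nonneg_left ?_ (by linarith)
        rw [← Real.mul_rpow hER0.le hX00.le]
        refine Real.rpow_le_rpow hmp.le (h3.1.trans ?_) hδ0.le
        rw [mul_comm]
        gcongr
      refine ((norm_sqc_le q _ m).trans (norm_alF_le hAb z D0 hP ps m)).trans ?_
      have g1 : Ab ^ ps.length ≤ Ab ^ n := pow_le_pow_right₀ hAb1 hlen
      have g2 : (tau m : ℝ) ^ (2 * ps.length) ≤ (tau m : ℝ) ^ (2 * n) :=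
        pow_le_pow_right₀ ht (by omega)
      have g3 : (tau m : ℝ) ^ (2 * n) ≤ (C1 * (ER ^ δ * X0 ^ δ)) ^ (2 * n) :=
        pow_le_pow_left₀ (by linarith) hτm _
      have g4 : (X0 ^ δ) ^ (2 * n) ≤ X0 ^ (ε / 2) := by
        rw [← Real.rpow_natCast, ← Real.rpow_mul hX00.le]
        refine Real.rpow_le_rpow_of_exponent_le hX0 ?_
        push_cast
        rw [hδ, div_mul_eq_mul_div, div_le_div_iff₀ (by positivity) (by norm_num)]
        nlinarith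
      calc Ab ^ ps.length * (tau m : ℝ) ^ (2 * ps.length)
          ≤ Ab ^ n * (C1 * (ER ^ δ * X0 ^ δ)) ^ (2 * n) :=
            mul_le_mul g1 (g2.trans g3) (by positivity) (by positivity)
        _ = G0 * (X0 ^ δ) ^ (2 * n) := by rw [hG0d]; ring
        _ ≤ _ := by gcongr
    refine (RMm_pt hA hFx π r fun t => cs_rm_l1 hFx (by positivity) hYS (by positivity) hlow
      (by positivity) hsup hEY π r t).trans ?_
    have e1 : (E * ER⁻¹) ^ (-(1 / 6 : ℝ)) ≤ E ^ (-(1 / 6 : ℝ)) * ER := by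
      rw [Real.mul_rpow hE0.le (by positivity), Real.inv_rpow hER0.le, Real.rpow_neg hER0.le,
        inv_inv]
      have : ER ^ (1 / 6 : ℝ) ≤ ER := by
        conv_rhs => rw [← Real.rpow_one ER]
        exact Real.rpow_le_rpow_of_exponent_le hER (by norm_num)
      gcongr
    have e2 : (E * E ^ (-(1 / 6 : ℝ))) ^ 2 = E ^ (5 / 3 : ℝ) := by
      have : E * E ^ (-(1 / 6 : ℝ)) = E ^ (5 / 6 : ℝ) := by
        conv_lhs => rw [← Real.rpow_one E]
        rw [← Real.rpow_mul hE0.le, ← Real.rpow_add hE0]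
        congr 1; norm_num
      rw [this, ← Real.rpow_natCast, ← Real.rpow_mul hE0.le]
      congr 1; norm_num
    have e3 : (X0 ^ (ε / 2)) ^ 2 = X0 ^ ε := by
      rw [← Real.rpow_natCast, ← Real.rpow_mul hX00.le]; congr 1; push_cast; ring
    calc (16 * (E * ER) * (G0 * X0 ^ (ε / 2) * (E * ER⁻¹) ^ (-(1 / 6 : ℝ)))) ^ 2 * jc
        ≤ (16 * (E * ER) * (G0 * X0 ^ (ε / 2) * (E ^ (-(1 / 6 : ℝ)) * ER))) ^ 2 * jc := by gcongr
      _ = (16 * ER * (G0 * ER)) ^ 2 * jc * ((X0 ^ (ε / 2)) ^ 2 *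
          (E * E ^ (-(1 / 6 : ℝ))) ^ 2) := by ring
      _ = _ := by rw [e2, e3]
  -- the sum
  have hsum : ∑ k ∈ (bl Λ).filter (fun k => ¬ NCube (k * f)), RMm A x 1 1 π (k * f) ≤
      16 * (Λ * nm f) ^ (1 / 3 : ℝ) *
        ((16 * ER * (G0 * ER)) ^ 2 * jc * (X0 ^ ε * E ^ (5 / 3 : ℝ))) := by
    refine (Finset.sum_le_card_nsmul _ _ _ fun k _ => hone (k * f)).trans ?_
    rw [nsmul_eq_mul]
    exact mul_le_mul_of_nonneg_right (card_prin hΛ hf) (by positivity)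
  refine hsum.trans ?_
  have e1 : (Λ * nm f) ^ (1 / 3 : ℝ) = (Λ / P1) ^ (1 / 3 : ℝ) * (P1 * nm f) ^ (1 / 3 : ℝ) := by
    rw [← Real.mul_rpow (by positivity) (by positivity)]
    congr 1
    field_simp
  have h2 : 16 * (Λ * nm f) ^ (1 / 3 : ℝ) *
        ((16 * ER * (G0 * ER)) ^ 2 * jc * (X0 ^ ε * E ^ (5 / 3 : ℝ))) ≤
      (Λ / P1) ^ (1 / 3 : ℝ) * V := by
    calc 16 * (Λ * nm f) ^ (1 / 3 : ℝ) *
        ((16 * ER * (G0 * ER)) ^ 2 * jc * (X0 ^ ε * E ^ (5 / 3 : ℝ)))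
        = (Λ / P1) ^ (1 / 3 : ℝ) * (K1 * X0 ^ ε *
          ((P1 * nm f) ^ (1 / 3 : ℝ) * E ^ (5 / 3 : ℝ))) := by rw [e1, hK1]; ring
      _ ≤ _ := by
          rw [hV]
          have : K1 ≤ 1 + K1 := by linarith
          gcongr
  refine h2.trans ?_
  unfold R3571.W2
  split_ifs with h3
  · exact le_rfl
  · push Not at h3
    refine mul_le_mul_of_nonneg_right ?_ hV0
    have h4 : 1 ≤ Λ / P1 := (one_le_div hP1).2 h3.le
    calc (Λ / P1) ^ (1 / 3 : ℝ) ≤ (Λ / P1) ^ (1 : ℝ) :=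
          Real.rpow_le_rpow_of_exponent_le h4 (by norm_num)
      _ = (Λ / P1) ^ 1 := by rw [Real.rpow_one, pow_one]
      _ ≤ _ := pow_le_pow_right₀ h4 ha

open Classical in
/-- **(RH) at the principal frequencies for one family below a natural list** -/
theorem rh_jS {Λ : Type*} {π : Λ → DPar} {h : ℝ → ℝ} {c₀ : ℝ} (hpu : PU h c₀)
    (hP : ∀ lam, (π lam).OK) {Kc : ℝ} (hKc : 0 ≤ Kc) {ε : ℝ} (hε : 0 < ε) :
    ∃ σ : ℝ, 0 < σ ∧ σ ≤ ε ∧ ∀ (lam : Λ) (t : Eis), t ≠ 0 → ∀ (N : ℕ) (B : ℝ),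
      ∃ (M a A₀ : ℕ) (X₀ : ℝ), 1 ≤ a ∧ 1 < X₀ ∧ ∀ X : ℝ, X₀ ≤ X →
      ∀ (u₁ u₂ u₃ : Pq) (ps : List Pq) (m : Eis) (H : ℝ),
      (∀ p ∈ [u₁, u₂, u₃], Dq.lump p ∧ 0 ≤ p.z ∧ p.z ≤ Kc * Real.log X ∧ (nm p.d : ℝ) ≤ X ^ B) →
      ps.length ≤ N →
      (∀ p ∈ ps, p.kd = .am ∧ 0 ≤ p.z ∧ p.z ≤ σ * Real.log X ∧ (nm p.d : ℝ) ≤ X ^ B) →
      (ps.map Pq.z).sum ≤ Kc * Real.log X → m ≠ 0 → (nm m : ℝ) ≤ X ^ B →
      1 ≤ H → (∀ p ∈ u₁ :: u₂ :: u₃ :: ps, 1 + |p.t| ≤ H) →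
      ∀ js : List IP, List.Forall₂ (Blw (π lam)) js (u₁ :: u₂ :: u₃ :: ps) →
      ∀ P1 : ℝ, 0 < P1 → P1 ≤ X ^ Kc →
      ∀ A : ℕ, A₀ ≤ A → ∀ φ : Eis, IsPrim φ → (nm φ : ℝ) ≤ X ^ B → ∀ P : ℝ, 0 < P →
        ∑ k ∈ (bl P).filter (fun k => ¬ NCube (k * t)), RMm A
          (sqc m (alL h (js.map fun j => SU770.tw1 j.pc t))) 1 1 φ k ≤
        W2 a P1 (H ^ M * X ^ ε * (P1 ^ (1 / 3 : ℝ) *
          Real.exp ((js.map IP.z).sum) ^ (5 / 3 : ℝ))) P := by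
  refine ⟨ε, hε, le_rfl, fun lam t ht N B => ?_⟩
  set B₃ : ℝ := 4 * Kc + 2 with hB₃
  have hB₃1 : 1 ≤ B₃ := by rw [hB₃]; linarith
  have hB₃0 : 0 < B₃ := by linarith
  set ε' : ℝ := ε / (2 * B₃) with hε'
  have hε'0 : 0 < ε' := by positivity
  obtain ⟨C, hC, HC⟩ := rhs0 hpu (N + 3) hε'0
  have hnt : (1 : ℝ) ≤ nm t := by exact_mod_cast nm_pos.2 ht
  have hnt0 : (0 : ℝ) < nm t := by linarith
  have hCt : 1 ≤ C * nm t := one_le_mul_of_one_le_of_one_le hC hnt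
  obtain ⟨X₂, hX₂, HX₂⟩ := XSup271.exists_X hCt (ε := ε / 2) (by positivity)
  refine ⟨0, 1, 2, max 3 X₂, le_rfl, lt_of_lt_of_le (by norm_num) (le_max_left _ _), ?_⟩
  intro X hX u₁ u₂ u₃ ps m H hu hN hps hsum hm0 hmX hH hht js hjs P1 hP1 hP1X
    A hA φ hφ hφX Pp hPp
  have hX3 : 3 ≤ X := (le_max_left _ _).trans hX
  have hXX₂ : X₂ ≤ X := (le_max_right _ _).trans hX
  have hX1 : 1 ≤ X := by linarith
  have hX0 : 0 < X := by linarith
  have hlX : 0 ≤ Real.log X := Real.log_nonneg hX1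
  set X0 : ℝ := X ^ B₃ with hX0d
  have hX01 : 1 ≤ X0 := Real.one_le_rpow hX1 hB₃0.le
  have hlog : Real.log X0 = B₃ * Real.log X := by rw [hX0d, Real.log_rpow hX0]
  have hXe : X0 ^ ε' = X ^ (ε / 2) := by
    rw [hX0d, ← Real.rpow_mul hX0.le]
    congr 1
    rw [hε']
    field_simp
  have hu1 := hu u₁ (by simp)
  have hu2 := hu u₂ (by simp)
  have hu3 := hu u₃ (by simp)
  have hKL : 0 ≤ Kc * Real.log X := mul_nonneg hKc hlX
  set ls : List Pq := pjL js (u₁ :: u₂ :: u₃ :: ps) with hls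
  have hlen : (natl ls).length ≤ N + 3 := by
    unfold Leg381.natl
    rw [List.length_map, hls, pjL_len hjs]
    simp only [List.length_cons]
    omega
  have hLF : LF (natl ls) = (js.map IP.z).sum := by
    rw [LF_natl', hls, pjL_z hjs]
  have hsz := sum_z_le hjs
  simp only [List.map_cons, List.sum_cons] at hsz
  have hLF1 : LF (natl ls) ≤ Real.log X0 := by
    rw [hLF, hlog, hB₃, add_mul]
    linarith [hu1.2.2.1, hu2.2.2.1, hu3.2.2.1]
  have main := HC (π lam) (hP lam) (natl ls) hlen 1 1 m t ht X0 hX01 hLF1 A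
    (by exact_mod_cast hA) 1 le_rfl P1 hP1 φ Pp hPp
  have e1 : alL h (js.map fun j => SU770.tw1 j.pc t) =
      I1146.tw3 t (alL h (js.map IP.pc)) := by
    have := alL_tw1 h t (js.map IP.pc)
    rw [List.map_map] at this
    exact this
  have e2 : alF 1 1 (π lam) h (natl ls) = alL h (js.map IP.pc) := by
    rw [alF_natl, hls, pjL_pc hjs]
  have e3 : sqc m (alL h (js.map fun j => SU770.tw1 j.pc t)) =
      I1146.tw3 t (sqc m (alF 1 1 (π lam) h (natl ls))) := by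
    rw [e1, e2]
    funext x
    unfold HP842.sqc I1146.tw3
    ring
  rw [e3]
  have h5 : ∑ k ∈ (bl Pp).filter (fun k => ¬ NCube (k * t)), RMm A (I1146.tw3 t
        (sqc m (alF 1 1 (π lam) h (natl ls)))) 1 1 φ k ≤
      ∑ k ∈ (bl Pp).filter (fun k => ¬ NCube (k * t)),
        RMm A (sqc m (alF 1 1 (π lam) h (natl ls))) 1 1 φ (k * t) := by
    refine sum_le_sum fun k _ => ?_
    have h6 := RnP571.RMm_tw A t (al := sqc m (alF 1 1 (π lam) h (natl ls)))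
      (fun n hn => by
        rw [e2] at hn
        exact alL_prim' (right_ne_zero_of_mul hn)) isPrim_one (γ := 1) isPrim_one 1 φ k
    simp only [one_mul] at h6
    exact h6
  refine h5.trans (main.trans (W2_mono 1 hP1 hPp ?_))
  rw [hLF, hXe, pow_zero, one_mul]
  set E : ℝ := Real.exp (js.map IP.z).sum with hE
  have hE0 : 0 < E := Real.exp_pos _
  have hPt : (P1 * nm t) ^ (1 / 3 : ℝ) ≤ P1 ^ (1 / 3 : ℝ) * nm t := by
    rw [Real.mul_rpow hP1.le hnt0.le]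
    refine mul_le_mul_of_nonneg_left ?_ (by positivity)
    calc (nm t : ℝ) ^ (1 / 3 : ℝ) ≤ (nm t : ℝ) ^ (1 : ℝ) :=
          Real.rpow_le_rpow_of_exponent_le hnt (by norm_num)
      _ = _ := Real.rpow_one _
  have hCX := HX₂ X hXX₂
  calc C * X ^ (ε / 2) * ((P1 * nm t) ^ (1 / 3 : ℝ) * E ^ (5 / 3 : ℝ))
      ≤ C * X ^ (ε / 2) * ((P1 ^ (1 / 3 : ℝ) * nm t) * E ^ (5 / 3 : ℝ)) := by gcongr
    _ = ((C * nm t) * X ^ (ε / 2)) * (P1 ^ (1 / 3 : ℝ) * E ^ (5 / 3 : ℝ)) := by ring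
    _ ≤ (X ^ (ε / 2) * X ^ (ε / 2)) * (P1 ^ (1 / 3 : ℝ) * E ^ (5 / 3 : ℝ)) := by gcongr
    _ = _ := by rw [← Real.rpow_add hX0, add_halves]

end Crest.Agent.R017.RPP401
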