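import Crest.Agent.R017.RPn_813
import Crest.Agent.R017.P1l_54

/-!
# Row 17, P1, mismatch: the character moments of the coefficient (helper813), part 3

* `rp_raw` : (RH) for the coefficient `afW` of the mismatch, natural lists, from one real line
-/

set_option autoImplicit false
set_option linter.unusedVariables false

noncomputable section

open Finset
open scoped ComplexConjugate

namespace Crest.Agent.R017.RPm813

open Crest.Agent.R012 Crest.Agent.R012.Eis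
open Crest.Agent.R012.Div277 (tau dvs mem_dvs tau_le_rpow)
open Crest.Agent.R012.LS2 (S mem_S bl mem_bl)
open Crest.Agent.R012.Weight600 (pw)
open Crest.Agent.R017.FE47 (PU SM cx exists_R cs_cx)
open Crest.Agent.R017.CM106
open Crest.Agent.R017.XG702 (Pcs BG)
open Crest.Agent.R017.Prov71
open Crest.Agent.R017.B770
open Crest.Agent.R017.HP842 (Pc pc sqc al alL cv Tu mem_Tu card_Tu_le)
open Crest.Agent.R017.Rough381 (sh shS sh_OK)
open Crest.Agent.R017.E5B71 (Pt)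
open Crest.Agent.R017.RM986 (Plain)
open Crest.Agent.R017.R3571 (RMm RMm_nonneg RMm_eq rm RMm_zero W2 W2_mono)
open Crest.Agent.R017.PX764 (n6)
open Crest.Agent.R017.E3D579 (n6_nonneg)
open Crest.Agent.R017.TPOk571 (IP)
open Crest.Agent.R017.GrC828 Crest.Agent.R017.GrT828
open Crest.Agent.R017.DgA829 (lc lc_prim lc_dvd)
open Crest.Agent.R017.P1l54 (Pt_OK)

/-! ### simple facts -/

lemma W2_smul (a : ℕ) (K P1 W1 L : ℝ) : K * W2 a P1 W1 L = W2 a P1 (K * W1) L := by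
  unfold R3571.W2
  split_ifs <;> ring

lemma W2_nonneg (a : ℕ) {P1 W1 L : ℝ} (hP1 : 0 < P1) (hL : 0 < L) (h : 0 ≤ W1) :
    0 ≤ W2 a P1 W1 L := by
  unfold R3571.W2
  split_ifs <;> positivity

/-- a list as a family -/
lemma alL_map (h : ℝ → ℝ) {T : Type*} (f : T → Pc) (L : List T) :
    alL h (L.map f) = al h (fun i : Fin L.length => f (L.get i)) := by
  have e2 : L.map f = List.ofFn (fun i : Fin L.length => f (L.get i)) := by
    conv_lhs => rw [← List.ofFn_get L]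
    rw [List.map_ofFn]
    rfl
  rw [HP842.al_eq, e2]

lemma map_sum_get {T : Type*} (f : T → ℝ) (L : List T) :
    (L.map f).sum = ∑ i : Fin L.length, f (L.get i) := by
  have e2 : L.map f = List.ofFn (fun i : Fin L.length => f (L.get i)) := by
    conv_lhs => rw [← List.ofFn_get L]
    rw [List.map_ofFn]
    rfl
  rw [e2, List.sum_ofFn]

/-- the index of a child -/
def jm {P : DPar} (hP : P.OK) (p : Pq) (a : Eis) (θ : ℝ) : IP :=
  ⟨p.u.sub a, ⟨(p.pc P).ψ, (Pq.ok hP p).ch⟩, p.z - Real.log (nm a), 0, p.t + θ⟩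

/-- the child with nonnegative length -/
def chm (p : Pq) (a : Eis) (θ : ℝ) : Pq :=
  ⟨p.kd, p.u.sub a, p.d, p.d0, max 0 (p.z - Real.log (nm a)), p.t + θ⟩

lemma blw_jm {P : DPar} (hP : P.OK) (p : Pq) (a : Eis) (θ : ℝ) :
    Blw P (jm hP p a θ) (chm p a θ) where
  z := le_max_right _ _
  t0 := rfl
  ψ := rfl
  one := id
  s := rfl

lemma jm_pc {P : DPar} (hP : P.OK) (p : Pq) {a : Eis} (ha : a ≠ 0) (θ : ℝ) (t : Eis) :
    SU770.tw1 (jm hP p a θ).pc t = sh (ht θ (Pt P t p)) a := by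
  have na : (0 : ℝ) < nm a := by exact_mod_cast nm_pos.2 ha
  have e1 : Real.exp (p.z - Real.log (nm a)) = Real.exp p.z / nm a := by
    rw [Real.exp_sub, Real.exp_log na]
  show (⟨p.u.sub a, fun b => (p.pc P).ψ b * sy t b, Real.exp (p.z - Real.log (nm a)),
    p.t + θ + 0⟩ : Pc) = ⟨p.u.sub a, fun b => (p.pc P).ψ b * sy t b, Real.exp p.z / nm a, p.t + θ⟩
  rw [e1, add_zero]

lemma ht_zero (P : Pc) : ht 0 P = P := by
  unfold GrC828.ht
  rw [add_zero]

lemma chm_lump {p : Pq} (hp : Dq.lump p) (a : Eis) (θ : ℝ) : Dq.lump (chm p a θ) := by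
  refine ⟨hp.1, ?_⟩
  show p.u.sub a = .one
  rw [hp.2]
  unfold HP842.UT.sub
  rw [if_neg]
  rintro ⟨h, -⟩
  cases h

/-- a family with a piece that is too short vanishes -/
lemma al_short {ι : Type*} [Fintype ι] [DecidableEq ι] {h : ℝ → ℝ} {R : ℝ}
    (hR : ∀ u, cx h u ≠ 0 → |u| ≤ R) {s : ι → Pc} (hs : ∀ i, (s i).OK) {i : ι}
    (hi : Real.log (s i).Y < -R) (n : Eis) : al h s n = 0 := by
  classical
  by_contra h1
  unfold HP842.al HP842.cv at h1
  obtain ⟨x, hx, h2⟩ := Finset.exists_ne_zero_of_sum_ne_zero h1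
  rw [mem_Tu] at hx
  have h4 : pc h (s i) (x i) ≠ 0 := fun h5 => h2 (Finset.prod_eq_zero (Finset.mem_univ i) h5)
  unfold HP842.pc at h4
  rw [if_pos (hx.1 i)] at h4
  have h6 : HSep813.gw h (s i).Y (s i).t (x i) ≠ 0 := right_ne_zero_of_mul h4
  unfold HSep813.gw at h6
  have h7 := abs_le.1 (hR _ (right_ne_zero_of_mul h6))
  have h8 := HSep813.log_nm_nonneg' (hx.1 i).ne_zero
  linarith [h7.2]

/-- the weights -/
lemma wt_fin {E : ℝ} (hE : 0 < E) {g d γ c : Eis} (hg : IsPrim g) (hd : IsPrim d) (hγ : IsPrim γ)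
    (hc : IsPrim c) : (nm γ : ℝ) * n6 γ ^ 2 * (n6 c ^ 2 *
      (E / (nm g * nm (d * (γ * c)))) ^ (2 / 3 : ℝ)) ≤ (E / (nm g * nm d)) ^ (2 / 3 : ℝ) := by
  have pg : (0 : ℝ) < nm g := by exact_mod_cast nm_pos.2 hg.ne_zero
  have pd : (0 : ℝ) < nm d := by exact_mod_cast nm_pos.2 hd.ne_zero
  have pγ : (0 : ℝ) < nm γ := by exact_mod_cast nm_pos.2 hγ.ne_zero
  have pc : (0 : ℝ) < nm c := by exact_mod_cast nm_pos.2 hc.ne_zero
  have c1 : (1 : ℝ) ≤ nm c := by exact_mod_cast nm_pos.2 hc.ne_zero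
  have e1 : (nm (d * (γ * c)) : ℝ) = nm d * (nm γ * nm c) := by
    rw [nm_mul, nm_mul]; push_cast; rfl
  have e2 : ∀ x : Eis, x ≠ 0 → n6 x ^ 2 = (nm x : ℝ) ^ (-(1 / 3) : ℝ) := by
    intro x hx
    have px : (0 : ℝ) < nm x := by exact_mod_cast nm_pos.2 hx
    unfold PX764.n6
    rw [← Real.rpow_natCast, ← Real.rpow_mul px.le]
    congr 1
    norm_num
  have e3 : (E / (nm g * (nm d * (nm γ * nm c)))) ^ (2 / 3 : ℝ) =
      (E / (nm g * nm d)) ^ (2 / 3 : ℝ) * ((nm γ : ℝ) ^ (-(2 / 3) : ℝ) * (nm c : ℝ) ^ (-(2 / 3) : ℝ)) := by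
    have h1 : E / (nm g * (nm d * (nm γ * nm c))) = (E / (nm g * nm d)) * ((nm γ : ℝ)⁻¹ * (nm c : ℝ)⁻¹) := by
      field_simp
    rw [h1, Real.mul_rpow (by positivity) (by positivity), Real.mul_rpow (by positivity)
      (by positivity), Real.inv_rpow pγ.le, Real.inv_rpow pc.le, ← Real.rpow_neg pγ.le,
      ← Real.rpow_neg pc.le]
  rw [e1, e2 γ hγ.ne_zero, e2 c hc.ne_zero, e3]
  have h1 : (nm γ : ℝ) * (nm γ : ℝ) ^ (-(1 / 3) : ℝ) * (nm γ : ℝ) ^ (-(2 / 3) : ℝ) = 1 := by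
    rw [mul_assoc, ← Real.rpow_add pγ, show (-(1 / 3) : ℝ) + -(2 / 3) = -1 by norm_num,
      Real.rpow_neg_one, mul_inv_cancel₀ pγ.ne']
  have h2 : (nm c : ℝ) ^ (-(1 / 3) : ℝ) * (nm c : ℝ) ^ (-(2 / 3) : ℝ) ≤ 1 := by
    rw [← Real.rpow_add pc]
    refine Real.rpow_le_one_of_one_le_of_nonpos c1 (by norm_num)
  have h3 : 0 ≤ (E / (nm g * nm d)) ^ (2 / 3 : ℝ) := by positivity
  calc (nm γ : ℝ) * (nm γ : ℝ) ^ (-(1 / 3) : ℝ) * ((nm c : ℝ) ^ (-(1 / 3) : ℝ) *
        ((E / (nm g * nm d)) ^ (2 / 3 : ℝ) *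
          ((nm γ : ℝ) ^ (-(2 / 3) : ℝ) * (nm c : ℝ) ^ (-(2 / 3) : ℝ)))) =
      ((nm γ : ℝ) * (nm γ : ℝ) ^ (-(1 / 3) : ℝ) * (nm γ : ℝ) ^ (-(2 / 3) : ℝ)) *
        ((nm c : ℝ) ^ (-(1 / 3) : ℝ) * (nm c : ℝ) ^ (-(2 / 3) : ℝ)) *
        (E / (nm g * nm d)) ^ (2 / 3 : ℝ) := by ring
    _ ≤ 1 * 1 * (E / (nm g * nm d)) ^ (2 / 3 : ℝ) := by
        rw [h1]
        gcongr
    _ = _ := by ring

/-- the number of terms -/
lemma card_TQ_le {ι κ : Type} [Fintype ι] [Fintype κ] [DecidableEq ι] [DecidableEq κ] {g N : Eis}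
    {T : ℝ} (hT : 1 ≤ T) (h1 : (tau g : ℝ) ≤ T) (h2 : (tau (N / g) : ℝ) ≤ T) {n : ℕ}
    (hn : Fintype.card ι + Fintype.card κ ≤ n) :
    ((TQ ι κ g N).card : ℝ) ≤ T ^ (2 * n) := by
  unfold TQ
  rw [card_product, card_product]
  push_cast
  have a1 : ((Tu ι g).card : ℝ) ≤ T ^ Fintype.card ι := by
    have : ((Tu ι g).card : ℝ) ≤ (tau g : ℝ) ^ Fintype.card ι := by exact_mod_cast card_Tu_le g
    exact this.trans (pow_le_pow_left₀ (Nat.cast_nonneg _) h1 _)
  have a2 : ((Tu κ g).card : ℝ) ≤ T ^ Fintype.card κ := by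
    have : ((Tu κ g).card : ℝ) ≤ (tau g : ℝ) ^ Fintype.card κ := by exact_mod_cast card_Tu_le g
    exact this.trans (pow_le_pow_left₀ (Nat.cast_nonneg _) h1 _)
  have a3 : ((Tu (ι ⊕ κ) (N / g)).card : ℝ) ≤ T ^ (Fintype.card ι + Fintype.card κ) := by
    have : ((Tu (ι ⊕ κ) (N / g)).card : ℝ) ≤ (tau (N / g) : ℝ) ^ Fintype.card (ι ⊕ κ) := by
      exact_mod_cast card_Tu_le (N / g)
    rw [Fintype.card_sum] at this
    exact this.trans (pow_le_pow_left₀ (Nat.cast_nonneg _) h2 _)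
  calc ((Tu ι g).card : ℝ) * (((Tu κ g).card : ℝ) * ((Tu (ι ⊕ κ) (N / g)).card : ℝ)) ≤
      T ^ Fintype.card ι * (T ^ Fintype.card κ * T ^ (Fintype.card ι + Fintype.card κ)) := by
        gcongr
    _ = T ^ (2 * (Fintype.card ι + Fintype.card κ)) := by ring
    _ ≤ _ := pow_le_pow_right₀ hT (by omega)

lemma log_nm_prod {ι : Type} [Fintype ι] [DecidableEq ι] {v : ι → Eis} (hv : ∀ i, IsPrim (v i)) :
    Real.log (nm (∏ i, v i)) = ∑ i, Real.log (nm (v i)) := by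
  rw [Rough381.nm_prodI]
  push_cast
  rw [Real.log_prod fun i _ => (show ((nm (v i) : ℕ) : ℝ) ≠ 0 by
    exact_mod_cast (nm_pos.2 (hv i).ne_zero).ne')]

lemma log_nm_nn {x : Eis} (hx : x ≠ 0) : 0 ≤ Real.log (nm x) := HSep813.log_nm_nonneg' hx

lemma log_nm_mono {x y : Eis} (hx : x ≠ 0) (hy : y ≠ 0) (h : x ∣ y) :
    Real.log (nm x) ≤ Real.log (nm y) := by
  refine Real.log_le_log (by exact_mod_cast nm_pos.2 hx) ?_
  exact_mod_cast Div277.nm_le_of_dvd hy h

lemma log_nm_mul {x y : Eis} (hx : x ≠ 0) (hy : y ≠ 0) :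
    Real.log (nm (x * y)) = Real.log (nm x) + Real.log (nm y) := by
  rw [nm_mul]
  push_cast
  exact Real.log_mul (by exact_mod_cast (nm_pos.2 hx).ne') (by exact_mod_cast (nm_pos.2 hy).ne')

section

variable {Λ : Type*} {π : Λ → DPar} {h : ℝ → ℝ}

set_option maxHeartbeats 3200000 in
/-- **(RP), class N**: (RH) for the coefficient of the mismatch from one real line -/
theorem rp_raw {c₀ : ℝ} (hpu : PU h c₀) (hP : ∀ lam, (π lam).OK) {Kc : ℝ} (hKc : 0 ≤ Kc)
    {E : ℝ → ℝ → ℝ → ℝ → ℝ → ℝ → ℝ} (PL : Plain (fun _ k => k ≠ 0) π h (Kc + 1) E) {ε : ℝ}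
    (hε : 0 < ε) :
    ∃ σ : ℝ, 0 < σ ∧ σ ≤ ε ∧ ∀ (lam : Λ) (t : Eis), t ≠ 0 → ∀ (N : ℕ) (B : ℝ),
      ∃ (M a A₀ : ℕ) (X₀ : ℝ), 1 ≤ a ∧ 1 < X₀ ∧ ∀ X : ℝ, X₀ ≤ X →
      ∀ (us : Fin 3 → Pq) (qs : List Pq) (H : ℝ),
      (∀ i, Dq.lump (us i) ∧ 0 ≤ (us i).z ∧ (us i).z ≤ Kc * Real.log X ∧
        (nm (us i).d : ℝ) ≤ X ^ B) → qs.length ≤ N →
      (∀ p ∈ qs, p.kd = .am ∧ 0 ≤ p.z ∧ p.z ≤ σ * Real.log X ∧ (nm p.d : ℝ) ≤ X ^ B) →
      (qs.map Pq.z).sum ≤ Kc * Real.log X → 1 ≤ H → (∀ i, 1 + |(us i).t| ≤ H) →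
      (∀ p ∈ qs, 1 + |p.t| ≤ H) →
      ∀ (θ : ℝ) (W : Eis → Eis → Eis → ℂ), WOK θ W → ∀ Z : ℝ, 0 ≤ Z →
      (∀ n, sqc 1 (alL h (qs.map (Pt (π lam) t))) n ≠ 0 → (nm n : ℝ) ≤ Z) →
      ∀ g d e : Eis, IsPrim g → IsPrim d → IsPrim e →
      ∀ (P1 G : ℝ), 0 < P1 → P1 ≤ X ^ Kc → 0 ≤ G →
      (∀ i y₁ y₂ y₃ x : ℝ, 0 ≤ i → i ≤ Real.log P1 / Real.log X + σ → 0 ≤ y₁ →
        y₁ ≤ (us 0).z / Real.log X + σ → 0 ≤ y₂ → y₂ ≤ (us 1).z / Real.log X + σ → 0 ≤ y₃ →
        y₃ ≤ (us 2).z / Real.log X + σ → 0 ≤ x →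
        x ≤ ((qs.map Pq.z).sum - Real.log (nm g)) / Real.log X + σ →
        y₁ + y₂ + y₃ ≤ ((us 0).z + (us 1).z + (us 2).z - Real.log (nm g)) / Real.log X + σ →
        y₁ + y₂ + y₃ + x ≤ ((us 0).z + (us 1).z + (us 2).z + (qs.map Pq.z).sum -
          Real.log (nm g) - Real.log (nm d) - Real.log (nm (lc (cc g d) e))) / Real.log X + σ →
        E i y₁ y₂ y₃ 0 x + (Real.log P1 / Real.log X - i) / 3 ≤ G + (y₁ + y₂ + y₃ + x)) →
      ∀ A : ℕ, A₀ ≤ A → ∀ γ φ : Eis, IsPrim γ → IsPrim φ → (nm φ : ℝ) ≤ X ^ B →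
      ∀ P : ℝ, 0 < P →
        (nm γ : ℝ) * n6 γ ^ 2 * ∑ k ∈ bl P, RMm A
          (afW W Z (sqc 1 (alL h (qs.map (Pt (π lam) t))))
            (sqc 1 (alL h ((List.ofFn us).map (Pt (π lam) t)))) g e d) e γ φ k ≤
        W2 a P1 ((H * (1 + |θ|)) ^ M * X ^ (G + ε) *
          (Real.exp ((us 0).z + (us 1).z + (us 2).z + (qs.map Pq.z).sum) / (nm g * nm d)) ^
            (2 / 3 : ℝ)) P := by
  classical
  obtain ⟨σ, hσ0, hσε, HJ⟩ := rh_j hpu hP hKc PL (show 0 < ε / 2 by positivity)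
  refine ⟨σ, hσ0, by linarith, fun lam t ht N B => ?_⟩
  obtain ⟨R, hR0, hR⟩ := exists_R (cs_cx hpu.cs)
  set B' : ℝ := |B| + 4 * Kc + 1 with hB'
  have hB'1 : 1 ≤ B' := by have := abs_nonneg B; linarith
  have hB'0 : 0 < B' := by linarith
  obtain ⟨M, a, A₀, X₁, ha, hX₁, HJ⟩ := HJ lam t ht N B'
  set K : ℕ := 2 * (N + 3) with hK
  have hK0 : (0 : ℝ) < K := by rw [hK]; push_cast; positivity
  set η : ℝ := ε / (8 * (K * B')) with hη
  have hη0 : 0 < η := by positivity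
  obtain ⟨C₂, hC₂, hτ⟩ := tau_le_rpow hη0
  obtain ⟨X₂, hX₂, HX₂⟩ := XSup271.exists_X (C := C₂ ^ (2 * K)) (one_le_pow₀ hC₂) (ε := ε / 4)
    (by positivity)
  have hNR : 0 ≤ ((N : ℝ) + 3) * R := by positivity
  set X₃ : ℝ := Real.exp (4 * (((N : ℝ) + 3) * R) / σ + ((N : ℝ) + 3) * R) with hX₃
  refine ⟨M, a, max A₀ 2, max X₁ (max X₂ X₃), ha, lt_of_lt_of_le hX₁ (le_max_left _ _), ?_⟩
  intro X hX us qs H hus hN hqs hsum hH hH1 hH2 θ W hW Z hZ hsup g d e hg hd he P1 G hP1 hP1X hG0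
    hE A hA γ φ hγ hφ hφX P hPp
  have hXX₁ : X₁ ≤ X := (le_max_left _ _).trans hX
  have hXX₂ : X₂ ≤ X := ((le_max_left _ _).trans (le_max_right _ _)).trans hX
  have hXX₃ : X₃ ≤ X := ((le_max_right _ _).trans (le_max_right _ _)).trans hX
  have hA₀ : A₀ ≤ A := (le_max_left _ _).trans hA
  have hA2 : (1 : ℝ) < A := by
    have : 2 ≤ A := (le_max_right _ _).trans hA
    exact_mod_cast this
  have hX1 : 1 < X := by linarith
  have hX0 : 0 < X := by linarith
  set L := Real.log X with hL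
  have hL0 : 0 < L := Real.log_pos hX1
  have hbg : 4 * (((N : ℝ) + 3) * R) / σ + ((N : ℝ) + 3) * R ≤ L := by
    rw [← Real.log_exp (4 * (((N : ℝ) + 3) * R) / σ + ((N : ℝ) + 3) * R)]
    exact Real.log_le_log (Real.exp_pos _) hXX₃
  have hq0 : 0 ≤ 4 * (((N : ℝ) + 3) * R) / σ := by positivity
  have hRσ : 4 * (((N : ℝ) + 3) * R) ≤ σ * L := by
    have h1 : 4 * (((N : ℝ) + 3) * R) / σ ≤ L := by linarith
    rw [div_le_iff₀ hσ0] at h1
    linarith
  have hRL : ((N : ℝ) + 3) * R ≤ L := by linarith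
  -- the families
  set s1 : Fin qs.length → Pc := fun i => Pt (π lam) t (qs.get i) with hs1
  set s2 : Fin 3 → Pc := fun j => Pt (π lam) t (us j) with hs2
  have e_s1 : alL h (qs.map (Pt (π lam) t)) = al h s1 := alL_map h _ qs
  have e_s2 : alL h ((List.ofFn us).map (Pt (π lam) t)) = al h s2 := by
    rw [List.map_ofFn, ← HP842.al_eq]
    rfl
  rw [e_s1] at hsup ⊢
  rw [e_s2]
  have h1 : ∀ i, (s1 i).OK := fun i => Pt_OK (hP lam) t _
  have h2 : ∀ j, (s2 j).OK := fun j => Pt_OK (hP lam) t _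
  set zz : Fin qs.length ⊕ Fin 3 → ℝ := Sum.elim (fun i => (qs.get i).z) (fun j => (us j).z)
    with hzz
  set n : ℝ := (us 0).z + (us 1).z + (us 2).z + (qs.map Pq.z).sum with hn
  have hqsum : (qs.map Pq.z).sum = ∑ i : Fin qs.length, (qs.get i).z := map_sum_get _ _
  have hzn : ∑ i, zz i = n := by
    rw [Fintype.sum_sum_type, Fin.sum_univ_three, hn, hqsum, hzz]
    simp only [Sum.elim_inl, Sum.elim_inr]
    ring
  have hqn0 : 0 ≤ (qs.map Pq.z).sum := by
    rw [hqsum]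
    exact sum_nonneg fun i _ => (hqs _ (List.get_mem qs i)).2.1
  have hn4 : n ≤ 4 * Kc * L := by
    have a0 := (hus 0).2.2.1
    have a1 := (hus 1).2.2.1
    have a2 := (hus 2).2.2.1
    linarith
  set F := fam θ s1 s2 with hF
  have hFOK : ∀ i, (F i).OK := fam_OK h1 h2
  have hFY : ∀ i, Real.log (F i).Y = zz i := by
    rintro (i | j)
    · exact Real.log_exp _
    · exact Real.log_exp _
  have hcard : (Fintype.card (Fin qs.length ⊕ Fin 3) : ℝ) ≤ N + 3 := by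
    rw [Fintype.card_sum, Fintype.card_fin, Fintype.card_fin]
    push_cast
    have : (qs.length : ℝ) ≤ N := by exact_mod_cast hN
    linarith
  set c := cE g d e γ with hc
  have hcp : IsPrim c := cE_prim hg he γ
  set N' := d * (γ * c) with hN'
  have hN'p : IsPrim N' := hd.mul (hγ.mul hcp)
  have hgN : g * N' ≠ 0 := mul_ne_zero hg.ne_zero hN'p.ne_zero
  have ng : (0 : ℝ) < nm g := by exact_mod_cast nm_pos.2 hg.ne_zero
  have nd : (0 : ℝ) < nm d := by exact_mod_cast nm_pos.2 hd.ne_zero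
  have nN : (0 : ℝ) < nm N' := by exact_mod_cast nm_pos.2 hN'p.ne_zero
  set H' : ℝ := H * (1 + |θ|) with hH'
  have hθ1 : 1 ≤ 1 + |θ| := by linarith [abs_nonneg θ]
  have hH'1 : 1 ≤ H' := one_le_mul_of_one_le_of_one_le hH hθ1
  have hH'0 : 0 ≤ H' := by linarith
  have hHH : H ≤ H' := le_mul_of_one_le_right (by linarith) hθ1
  -- short pieces
  have hshort : ∀ v : Fin qs.length ⊕ Fin 3 → Eis, VOK g N' v →
      (¬ ∀ i, -R ≤ zz i - Real.log (nm (v i))) → ∀ m, al h (shS F v) m = 0 := by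
    intro v hv hno m
    push Not at hno
    obtain ⟨i, hi⟩ := hno
    refine al_short hR (fun i => sh_OK (hFOK i) (hv.prim i)) (i := i) ?_ m
    have nv : (0 : ℝ) < nm (v i) := by exact_mod_cast nm_pos.2 (hv.prim i).ne_zero
    show Real.log ((F i).Y / nm (v i)) < -R
    rw [Real.log_div (hFOK i).Y0.ne' nv.ne', hFY]
    exact hi
  have hvan : ∀ v : Fin qs.length ⊕ Fin 3 → Eis, VOK g N' v →
      (¬ ∀ i, -R ≤ zz i - Real.log (nm (v i))) → ∑ r ∈ bl P,
      RMm A (sqc N' (al h (shS F v))) 1 1 φ r = 0 := by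
    intro v hv hno
    refine sum_eq_zero fun r _ => RMm_zero fun m => ?_
    unfold HP842.sqc
    rw [hshort v hv hno, mul_zero]
  have hlogv : ∀ v : Fin qs.length ⊕ Fin 3 → Eis, VOK g N' v →
      ∑ i, Real.log (nm (v i)) = Real.log (nm g) + Real.log (nm N') := by
    intro v hv
    rw [← log_nm_prod hv.prim, hv.tot, log_nm_mul hg.ne_zero hN'p.ne_zero]
  have hW1 : 0 ≤ H' ^ M * X ^ (G + ε) * (Real.exp n / (nm g * nm d)) ^ (2 / 3 : ℝ) := by
    positivity
  have hγ0 : 0 ≤ (nm γ : ℝ) * n6 γ ^ 2 := by positivity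
  by_cases hbig : Real.log (nm g) + Real.log (nm N') ≤ n + ((N : ℝ) + 3) * R
  swap
  · -- the sequence vanishes
    push Not at hbig
    have hno : ∀ v : Fin qs.length ⊕ Fin 3 → Eis, VOK g N' v →
        ¬ ∀ i, -R ≤ zz i - Real.log (nm (v i)) := by
      intro v hv hall
      have h3 : ∑ _i : Fin qs.length ⊕ Fin 3, (-R) ≤ ∑ i, (zz i - Real.log (nm (v i))) :=
        sum_le_sum fun i _ => hall i
      rw [sum_sub_distrib, hzn, hlogv v hv, sum_const, card_univ, nsmul_eq_mul] at h3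
      have h4 := mul_le_mul_of_nonneg_right hcard hR0
      linarith
    have h3 := RM_red hR h1 h2 hW hZ hsup hg hd he hγ hA2 φ (bl P) (Bd := 0) le_rfl
      (fun v hv _ => (hvan v hv (hno v hv)).le)
    rw [mul_zero] at h3
    refine (mul_le_mul_of_nonneg_left h3 hγ0).trans ?_
    rw [mul_zero]
    exact W2_nonneg a hP1 hPp hW1
  -- sizes
  have hNX : (nm N' : ℝ) ≤ X ^ B' := by
    rw [Real.rpow_def_of_pos hX0, ← hL, ← Real.log_le_iff_le_exp nN]
    have h3 := log_nm_nn hg.ne_zero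
    have h4 : L * B' = |B| * L + 4 * Kc * L + L := by rw [hB']; ring
    have h5 : 0 ≤ |B| * L := by positivity
    linarith
  have hgX : (nm g : ℝ) ≤ X ^ B' := by
    rw [Real.rpow_def_of_pos hX0, ← hL, ← Real.log_le_iff_le_exp ng]
    have h3 := log_nm_nn hN'p.ne_zero
    have h4 : L * B' = |B| * L + 4 * Kc * L + L := by rw [hB']; ring
    have h5 : 0 ≤ |B| * L := by positivity
    linarith
  have hφX' : (nm φ : ℝ) ≤ X ^ B' := by
    refine hφX.trans (Real.rpow_le_rpow_of_exponent_le hX1.le ?_)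
    have := le_abs_self B
    linarith
  have hBX : X ^ B ≤ X ^ B' := Real.rpow_le_rpow_of_exponent_le hX1.le (by
    have := le_abs_self B
    linarith)
  -- divisibility
  have hdv := (cE_dvd (g := g) (d := d) (e := e) (γ := γ) (m := c) hg he).1 dvd_rfl
  have hgD : g ∣ N' := by
    obtain ⟨k, hk⟩ := hdv.1
    refine ⟨d / StA828.gp d g * k, ?_⟩
    rw [hN', hk, ← mul_assoc, cc_mul hg]
    ring
  have hlN : Real.log (nm d) + Real.log (nm (lc (cc g d) e)) ≤ Real.log (nm N') := by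
    rw [hN', log_nm_mul hd.ne_zero (hγ.mul hcp).ne_zero]
    have := log_nm_mono (lc_prim (cc_prim hg) he).ne_zero (hγ.mul hcp).ne_zero
      (lc_dvd_cE (d := d) hg he γ)
    linarith
  set W1 : ℝ := H' ^ M * X ^ (G + ε / 2) * (Real.exp n / (nm g * nm N')) ^ (2 / 3 : ℝ) with hW1d
  have hW10 : 0 ≤ W1 := by positivity
  have hBd0 : 0 ≤ W2 a P1 W1 P := W2_nonneg a hP1 hPp hW10
  have hmain : ∀ v : Fin qs.length ⊕ Fin 3 → Eis, VOK g N' v → Squarefree N' →
      ∑ r ∈ bl P, RMm A (sqc N' (al h (shS F v))) 1 1 φ r ≤ W2 a P1 W1 P := by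
    intro v hv _
    by_cases hall : ∀ i, -R ≤ zz i - Real.log (nm (v i))
    swap
    · rw [hvan v hv hall]
      exact hBd0
    have lv : ∀ i, 0 ≤ Real.log (nm (v i)) := fun i => log_nm_nn (hv.prim i).ne_zero
    have zj : ∀ j : Fin 3, (chm (us j) (v (.inr j)) 0).z ≤ (us j).z ∧
        (chm (us j) (v (.inr j)) 0).z ≤ (us j).z - Real.log (nm (v (.inr j))) + R ∧
        0 ≤ (chm (us j) (v (.inr j)) 0).z := by
      intro j
      have a1 := (hus j).2.1
      have a2 := lv (.inr j)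
      have a3 : -R ≤ (us j).z - Real.log (nm (v (.inr j))) := hall (.inr j)
      exact ⟨max_le a1 (by linarith), max_le (by linarith) (by linarith), le_max_left _ _⟩
    have zq : ∀ i : Fin qs.length, (chm (qs.get i) (v (.inl i)) θ).z ≤ (qs.get i).z ∧
        (chm (qs.get i) (v (.inl i)) θ).z ≤ (qs.get i).z - Real.log (nm (v (.inl i))) + R ∧
        0 ≤ (chm (qs.get i) (v (.inl i)) θ).z := by
      intro i
      have a1 := (hqs _ (List.get_mem qs i)).2.1
      have a2 := lv (.inl i)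
      have a3 : -R ≤ (qs.get i).z - Real.log (nm (v (.inl i))) := hall (.inl i)
      exact ⟨max_le a1 (by linarith), max_le (by linarith) (by linarith), le_max_left _ _⟩
    set ps : List Pq := List.ofFn fun i : Fin qs.length => chm (qs.get i) (v (.inl i)) θ with hps
    set jq : List IP := List.ofFn fun i : Fin qs.length => jm (hP lam) (qs.get i) (v (.inl i)) θ
      with hjq
    set js : List IP := jm (hP lam) (us 0) (v (.inr 0)) 0 :: jm (hP lam) (us 1) (v (.inr 1)) 0 ::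
      jm (hP lam) (us 2) (v (.inr 2)) 0 :: jq with hjs
    have hps_mem : ∀ p ∈ ps, ∃ i : Fin qs.length, p = chm (qs.get i) (v (.inl i)) θ := by
      intro p hp
      rw [hps, List.mem_ofFn'] at hp
      obtain ⟨i, hi⟩ := hp
      exact ⟨i, hi.symm⟩
    have hpsum : (ps.map Pq.z).sum = ∑ i : Fin qs.length, (chm (qs.get i) (v (.inl i)) θ).z := by
      rw [hps, List.map_ofFn, List.sum_ofFn]
      rfl
    have hpsum1 : (ps.map Pq.z).sum ≤ (qs.map Pq.z).sum := by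
      rw [hpsum, hqsum]
      exact sum_le_sum fun i _ => (zq i).1
    have hlq : Real.log (nm g) ≤ ∑ i : Fin qs.length, Real.log (nm (v (.inl i))) := by
      rw [← log_nm_prod fun i => hv.prim (.inl i)]
      exact log_nm_mono hg.ne_zero (HP842.isPrim_prod fun i => hv.prim (.inl i)).ne_zero hv.left
    have hlj : Real.log (nm g) ≤ ∑ j : Fin 3, Real.log (nm (v (.inr j))) := by
      rw [← log_nm_prod fun j => hv.prim (.inr j)]
      exact log_nm_mono hg.ne_zero (HP842.isPrim_prod fun j => hv.prim (.inr j)).ne_zero hv.right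
    have hlenN : (qs.length : ℝ) ≤ N := by exact_mod_cast hN
    have hRq : (qs.length : ℝ) * R ≤ N * R := mul_le_mul_of_nonneg_right hlenN hR0
    have hNR' : ((N : ℝ) + 3) * R = N * R + 3 * R := by ring
    have hNR0 : 0 ≤ (N : ℝ) * R := by positivity
    have hpsum2 : (ps.map Pq.z).sum ≤ (qs.map Pq.z).sum - Real.log (nm g) +
        ((N : ℝ) + 3) * R := by
      have h4 : ∑ i : Fin qs.length, (chm (qs.get i) (v (.inl i)) θ).z ≤
          ∑ i : Fin qs.length, ((qs.get i).z - Real.log (nm (v (.inl i))) + R) :=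
        sum_le_sum fun i _ => (zq i).2.1
      rw [sum_add_distrib, sum_sub_distrib, ← hqsum, sum_const, card_univ, Fintype.card_fin,
        nsmul_eq_mul] at h4
      rw [hpsum]
      linarith
    have hjsum : (js.map IP.z).sum = n - (Real.log (nm g) + Real.log (nm N')) := by
      have h4 : (jq.map IP.z).sum =
          ∑ i : Fin qs.length, ((qs.get i).z - Real.log (nm (v (.inl i)))) := by
        rw [hjq, List.map_ofFn, List.sum_ofFn]
        rfl
      have h5 := hlogv v hv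
      rw [Fintype.sum_sum_type, Fin.sum_univ_three] at h5
      rw [sum_sub_distrib, ← hqsum] at h4
      rw [hjs]
      simp only [List.map_cons, List.sum_cons]
      rw [h4, hn]
      show (us 0).z - Real.log (nm (v (.inr 0))) + ((us 1).z - Real.log (nm (v (.inr 1))) +
        ((us 2).z - Real.log (nm (v (.inr 2))) + _)) = _
      linarith
    have hF2 : List.Forall₂ (Blw (π lam)) js (chm (us 0) (v (.inr 0)) 0 ::
        chm (us 1) (v (.inr 1)) 0 :: chm (us 2) (v (.inr 2)) 0 :: ps) := by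
      refine List.Forall₂.cons (blw_jm _ _ _ _) (List.Forall₂.cons (blw_jm _ _ _ _)
        (List.Forall₂.cons (blw_jm _ _ _ _) ?_))
      rw [List.forall₂_iff_get]
      refine ⟨by rw [hjq, hps, List.length_ofFn, List.length_ofFn], fun i a1 a2 => ?_⟩
      simp only [hjq, hps, List.get_eq_getElem, List.getElem_ofFn]
      exact blw_jm _ _ _ _
    have hlist : al h (shS F v) = alL h (js.map fun j => SU770.tw1 j.pc t) := by
      rw [P1k54.al_sum]
      congr 1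
      rw [hjs]
      simp only [List.map_cons]
      rw [hjq, List.map_ofFn]
      have e3 : (List.ofFn fun j : Fin 3 => shS F v (.inr j)) = [shS F v (.inr 0),
          shS F v (.inr 1), shS F v (.inr 2)] := by
        simp [List.ofFn_succ]
      rw [e3]
      have e4 : ∀ j : Fin 3, shS F v (.inr j) =
          SU770.tw1 (jm (hP lam) (us j) (v (.inr j)) 0).pc t := by
        intro j
        rw [jm_pc (hP lam) (us j) (hv.prim (.inr j)).ne_zero, ht_zero]
        rfl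
      have e5 : (List.ofFn fun i : Fin qs.length => shS F v (.inl i)) =
          List.ofFn ((fun j => SU770.tw1 j.pc t) ∘
            fun i : Fin qs.length => jm (hP lam) (qs.get i) (v (.inl i)) θ) := by
        congr 1
        funext i
        show _ = SU770.tw1 (jm (hP lam) (qs.get i) (v (.inl i)) θ).pc t
        rw [jm_pc (hP lam) (qs.get i) (hv.prim (.inl i)).ne_zero]
        rfl
      rw [e4, e4, e4, e5]
      rfl
    have key := HJ X hXX₁ (chm (us 0) (v (.inr 0)) 0) (chm (us 1) (v (.inr 1)) 0)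
      (chm (us 2) (v (.inr 2)) 0) ps N' H' (by
        intro p hp
        simp only [List.mem_cons, List.not_mem_nil, or_false] at hp
        have aux : ∀ j : Fin 3, Dq.lump (chm (us j) (v (.inr j)) 0) ∧
            0 ≤ (chm (us j) (v (.inr j)) 0).z ∧ (chm (us j) (v (.inr j)) 0).z ≤ Kc * L ∧
            (nm (chm (us j) (v (.inr j)) 0).d : ℝ) ≤ X ^ B' := fun j =>
          ⟨chm_lump (hus j).1 _ _, (zj j).2.2, (zj j).1.trans (hus j).2.2.1,
            (hus j).2.2.2.trans hBX⟩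
        rcases hp with rfl | rfl | rfl
        · exact aux 0
        · exact aux 1
        · exact aux 2) (by rw [hps, List.length_ofFn]; exact hN) (by
        intro p hp
        obtain ⟨i, rfl⟩ := hps_mem p hp
        obtain ⟨b1, b2, b3, b4⟩ := hqs _ (List.get_mem qs i)
        exact ⟨b1, (zq i).2.2, (zq i).1.trans b3, b4.trans hBX⟩) (hpsum1.trans hsum)
      hN'p.ne_zero hNX hH'1 (by
        intro p hp
        simp only [List.mem_cons] at hp
        have aux : ∀ j : Fin 3, 1 + |(chm (us j) (v (.inr j)) 0).t| ≤ H' := by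
          intro j
          show 1 + |(us j).t + 0| ≤ H'
          rw [add_zero]
          exact (hH1 j).trans hHH
        rcases hp with rfl | rfl | rfl | hp
        · exact aux 0
        · exact aux 1
        · exact aux 2
        · obtain ⟨i, rfl⟩ := hps_mem p hp
          have b1 := hH2 _ (List.get_mem qs i)
          show 1 + |(qs.get i).t + θ| ≤ H'
          have b2 := abs_add_le (qs.get i).t θ
          have b3 := abs_nonneg θ
          have b4 := abs_nonneg (qs.get i).t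
          calc 1 + |(qs.get i).t + θ| ≤ (1 + |(qs.get i).t|) * (1 + |θ|) := by nlinarith
            _ ≤ H * (1 + |θ|) := mul_le_mul_of_nonneg_right b1 (by linarith)) js hF2 P1 G hP1 hP1X
      hG0 (by
        intro i y₁ y₂ y₃ x hi0 hi hy10 hy1 hy20 hy2 hy30 hy3 hx0 hx hs1' hs2'
        have hdv2 : ∀ {a b : ℝ}, a ≤ b + ((N : ℝ) + 3) * R → a / L + σ / 2 ≤ b / L + σ := by
          intro a b hab
          have h4 : (((N : ℝ) + 3) * R) / L ≤ σ / 4 := by
            rw [div_le_iff₀ hL0]; linarith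
          have h5 : a / L ≤ (b + ((N : ℝ) + 3) * R) / L := div_le_div_of_nonneg_right hab hL0.le
          rw [add_div] at h5
          linarith
        refine hE i y₁ y₂ y₃ x hi0 (by linarith) hy10 (hy1.trans (hdv2 ?_)) hy20
          (hy2.trans (hdv2 ?_)) hy30 (hy3.trans (hdv2 ?_)) hx0 (hx.trans (hdv2 hpsum2))
          (hs2'.trans (hdv2 ?_)) (hs1'.trans (hdv2 ?_))
        · linarith [(zj 0).1]
        · linarith [(zj 1).1]
        · linarith [(zj 2).1]
        · rw [Fin.sum_univ_three] at hlj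
          linarith [(zj 0).2.1, (zj 1).2.1, (zj 2).2.1]
        · rw [hjsum]
          linarith) A hA₀ φ hφ hφX' P hPp
    rw [hlist]
    refine key.trans (le_of_eq ?_)
    rw [hjsum, hW1d]
    congr 3
    rw [Real.exp_sub, Real.exp_add (Real.log (nm g)) (Real.log (nm N')), Real.exp_log ng,
      Real.exp_log nN]
  have h3 := RM_red hR h1 h2 hW hZ hsup hg hd he hγ hA2 φ (bl P) hBd0 hmain
  rw [← hc, ← hN'] at h3
  -- the number of terms
  set T : ℝ := C₂ * (X ^ B') ^ η with hT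
  have hXB1 : 1 ≤ X ^ B' := Real.one_le_rpow hX1.le hB'0.le
  have hT1 : 1 ≤ T := one_le_mul_of_one_le_of_one_le hC₂ (Real.one_le_rpow hXB1 hη0.le)
  have htau : ∀ x : Eis, x ≠ 0 → (nm x : ℝ) ≤ X ^ B' → (tau x : ℝ) ≤ T := by
    intro x hx hxX
    refine (hτ x hx).trans (mul_le_mul_of_nonneg_left ?_ (by linarith))
    exact Real.rpow_le_rpow (Nat.cast_nonneg _) hxX hη0.le
  have hNg : g * (N' / g) = N' := EuclideanDomain.mul_div_cancel' hg.ne_zero hgD
  have hNg0 : N' / g ≠ 0 := fun h0 => hN'p.ne_zero (by rw [← hNg, h0, mul_zero])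
  have hNgX : (nm (N' / g) : ℝ) ≤ X ^ B' := by
    refine le_trans ?_ hNX
    exact_mod_cast Div277.nm_le_of_dvd hN'p.ne_zero ⟨g, by rw [mul_comm]; exact hNg.symm⟩
  have hcT : ((TQ (Fin qs.length) (Fin 3) g N').card : ℝ) ≤ T ^ K :=
    card_TQ_le hT1 (htau g hg.ne_zero hgX) (htau _ hNg0 hNgX) (n := N + 3) (by
      rw [Fintype.card_fin, Fintype.card_fin]; omega)
  have hcT2 : ((TQ (Fin qs.length) (Fin 3) g N').card : ℝ) ^ 2 ≤ X ^ (ε / 2) := by
    have h4 := pow_le_pow_left₀ (Nat.cast_nonneg _) hcT 2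
    refine h4.trans ?_
    have h5 : (T ^ K) ^ 2 = C₂ ^ (2 * K) * X ^ (ε / 4) := by
      rw [hT, ← pow_mul, mul_pow, mul_comm K 2]
      congr 1
      rw [← Real.rpow_natCast, ← Real.rpow_mul hX0.le, ← Real.rpow_mul hX0.le]
      congr 1
      rw [hη]
      push_cast
      field_simp
      ring
    rw [h5]
    calc C₂ ^ (2 * K) * X ^ (ε / 4) ≤ X ^ (ε / 4) * X ^ (ε / 4) :=
          mul_le_mul_of_nonneg_right (HX₂ X hXX₂) (by positivity)
      _ = X ^ (ε / 2) := by rw [← Real.rpow_add hX0]; congr 1; ring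
  refine (mul_le_mul_of_nonneg_left h3 hγ0).trans ?_
  rw [← mul_assoc, W2_smul]
  refine W2_mono a hP1 hPp ?_
  have hwt := wt_fin (Real.exp_pos n) hg hd hγ hcp
  rw [← hN'] at hwt
  calc (nm γ : ℝ) * n6 γ ^ 2 * (n6 c ^ 2 * ((TQ (Fin qs.length) (Fin 3) g N').card : ℝ) ^ 2) * W1
      = ((TQ (Fin qs.length) (Fin 3) g N').card : ℝ) ^ 2 * (H' ^ M * X ^ (G + ε / 2)) *
        ((nm γ : ℝ) * n6 γ ^ 2 * (n6 c ^ 2 *
          (Real.exp n / (nm g * nm N')) ^ (2 / 3 : ℝ))) := by rw [hW1d]; ring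
    _ ≤ X ^ (ε / 2) * (H' ^ M * X ^ (G + ε / 2)) *
        (Real.exp n / (nm g * nm d)) ^ (2 / 3 : ℝ) := by
        refine mul_le_mul (mul_le_mul_of_nonneg_right hcT2 (by positivity)) hwt ?_ (by positivity)
        exact mul_nonneg hγ0 (by positivity)
    _ = _ := by
        have h6 : X ^ (G + ε) = X ^ (ε / 2) * X ^ (G + ε / 2) := by
          rw [← Real.rpow_add hX0]; congr 1; ring
        rw [h6]; ring

end

end Crest.Agent.R017.RPm813
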