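import Crest.Agent.R017.RPQa_65
import Crest.Agent.R017.RPo_813

/-!
# Row 17, class E of `P1`, mismatch (helper65): the character moments of the coefficient, any set
of frequencies `Q`

* `rh_jQ`   : helper813's `rh_j` at the frequencies with `Q (k t)`
* `rp_rawQ` : helper813's `rp_raw` at the frequencies with `Q (k t)`
-/

set_option autoImplicit false
set_option linter.unusedVariables false

noncomputable section

open Finset
open scoped ComplexConjugate

namespace Crest.Agent.R017.RPQ65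

open Crest.Agent.R012 Crest.Agent.R012.Eis
open Crest.Agent.R012.Div277 (tau dvs mem_dvs tau_le_rpow)
open Crest.Agent.R012.LS2 (S mem_S bl mem_bl)
open Crest.Agent.R012.Weight600 (pw)
open Crest.Agent.R017.FE47 (PU SM cx exists_R cs_cx)
open Crest.Agent.R017.CM106
open Crest.Agent.R017.XG702 (Pcs BG)
open Crest.Agent.R017.Prov71
open Crest.Agent.R017.B770
open Crest.Agent.R017.HP842 (Pc pc sqc al alL cv Tu mem_Tu card_Tu_le)
open Crest.Agent.R017.Rough381 (sh shS sh_OK)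
open Crest.Agent.R017.XRG106 (Rl)
open Crest.Agent.R017.XHB411 (tl)
open Crest.Agent.R017.E5B71 (Pt)
open Crest.Agent.R017.RM986 (Plain)
open Crest.Agent.R017.R3571 (Below RMm RMm_nonneg RMm_eq rm RMm_zero W2 W2_mono)
open Crest.Agent.R017.E1551 (jb jb_pos)
open Crest.Agent.R017.PX764 (n6)
open Crest.Agent.R017.E3D579 (n6_nonneg)
open Crest.Agent.R017.ET71 (kind_am_not_lump mass_am)
open Crest.Agent.R017.TPOk571 (IP)
open Crest.Agent.R017.Mono858 (RQq)
open Crest.Agent.R017.GrC828 Crest.Agent.R017.GrT828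
open Crest.Agent.R017.DgA829 (lc lc_prim lc_dvd)
open Crest.Agent.R017.P1l54 (Pt_OK)
open Crest.Agent.R017.RPm813

section

variable {Λ : Type*} {π : Λ → DPar} {h : ℝ → ℝ}

set_option maxHeartbeats 3200000 in
open Classical in
/-- **(RH) at `d = e = γ = 1` for families below a natural list, from one real line**, the
frequencies with `Q (k t)` -/
theorem rh_jQ {c₀ : ℝ} (hpu : PU h c₀) (hP : ∀ lam, (π lam).OK) {Kc : ℝ} (hKc : 0 ≤ Kc)
    {Q : Λ → Eis → Prop} {E : ℝ → ℝ → ℝ → ℝ → ℝ → ℝ → ℝ} (PL : Plain Q π h (Kc + 1) E) {ε : ℝ}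
    (hε : 0 < ε) :
    ∃ σ : ℝ, 0 < σ ∧ σ ≤ ε ∧ ∀ (lam : Λ) (t : Eis), t ≠ 0 → ∀ (N : ℕ) (B : ℝ),
      ∃ (M a A₀ : ℕ) (X₀ : ℝ), 1 ≤ a ∧ 1 < X₀ ∧ ∀ X : ℝ, X₀ ≤ X →
      ∀ (u₁ u₂ u₃ : Pq) (ps : List Pq) (m : Eis) (H : ℝ),
      (∀ p ∈ [u₁, u₂, u₃], Dq.lump p ∧ 0 ≤ p.z ∧ p.z ≤ Kc * Real.log X ∧ (nm p.d : ℝ) ≤ X ^ B) →
      ps.length ≤ N →
      (∀ p ∈ ps, p.kd = .am ∧ 0 ≤ p.z ∧ p.z ≤ σ * Real.log X ∧ (nm p.d : ℝ) ≤ X ^ B) →
      (ps.map Pq.z).sum ≤ Kc * Real.log X → m ≠ 0 → (nm m : ℝ) ≤ X ^ B →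
      1 ≤ H → (∀ p ∈ u₁ :: u₂ :: u₃ :: ps, 1 + |p.t| ≤ H) →
      ∀ js : List IP, List.Forall₂ (Blw (π lam)) js (u₁ :: u₂ :: u₃ :: ps) →
      ∀ (P1 G : ℝ), 0 < P1 → P1 ≤ X ^ Kc → 0 ≤ G →
      (∀ i y₁ y₂ y₃ x : ℝ, 0 ≤ i → i ≤ Real.log P1 / Real.log X + σ / 2 → 0 ≤ y₁ →
        y₁ ≤ u₁.z / Real.log X + σ / 2 → 0 ≤ y₂ → y₂ ≤ u₂.z / Real.log X + σ / 2 → 0 ≤ y₃ →
        y₃ ≤ u₃.z / Real.log X + σ / 2 → 0 ≤ x → x ≤ (ps.map Pq.z).sum / Real.log X + σ / 2 →
        y₁ + y₂ + y₃ + x ≤ (js.map IP.z).sum / Real.log X + σ / 2 →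
        y₁ + y₂ + y₃ ≤ (u₁.z + u₂.z + u₃.z) / Real.log X + σ / 2 →
        E i y₁ y₂ y₃ 0 x + (Real.log P1 / Real.log X - i) / 3 ≤ G + (y₁ + y₂ + y₃ + x)) →
      ∀ A : ℕ, A₀ ≤ A → ∀ φ : Eis, IsPrim φ → (nm φ : ℝ) ≤ X ^ B →
      ∀ P : ℝ, 0 < P →
        ∑ k ∈ (bl P).filter (fun k => Q lam (k * t)),
          RMm A (sqc m (alL h (js.map fun j => SU770.tw1 j.pc t))) 1 1 φ k ≤
        W2 a P1 (H ^ M * X ^ (G + ε) * Real.exp ((js.map IP.z).sum) ^ (2 / 3 : ℝ)) P := by
  classical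
  set ε₁ : ℝ := ε / 8 with hε₁
  have hε₁0 : 0 < ε₁ := by positivity
  obtain ⟨σ₁, hσ₁, PL⟩ := PL ε₁ hε₁0
  set σ : ℝ := min (min (σ₁ / 2) (1 / 2)) ε₁ with hσ
  have hσ0 : 0 < σ := by positivity
  have hσ1 : σ ≤ σ₁ / 2 := (min_le_left _ _).trans (min_le_left _ _)
  have hσ2 : σ ≤ 1 / 2 := (min_le_left _ _).trans (min_le_right _ _)
  have hσ3 : σ ≤ ε₁ := min_le_right _ _
  refine ⟨σ, hσ0, hσ3.trans (by rw [hε₁]; linarith), fun lam t ht N B => ?_⟩
  obtain ⟨M, X₁, hX₁, PX⟩ := PL lam N (|B| + Kc + 2)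
  -- the size `X0 = X ^ B₃`
  set B₃ : ℝ := |B| + Kc + 1 with hB₃
  have hB₃1 : 1 ≤ B₃ := by
    have := abs_nonneg B
    linarith
  have hB₃0 : 0 < B₃ := by linarith
  set δ : ℝ := σ / (4 * B₃) with hδ
  have hδ0 : 0 < δ := by positivity
  have hδB : B₃ * δ = σ / 4 := by rw [hδ]; field_simp
  set ε' : ℝ := ε₁ / B₃ with hε'
  have hε'0 : 0 < ε' := by positivity
  have hεB : B₃ * ε' = ε₁ := by rw [hε']; field_simp
  have hG := fun r : ℕ => RH_natQ hpu (μ := (M : ℝ) / 2) (by positivity) r hδ0 1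
  choose a' ha' hG1 using hG
  have hG2 := fun r : ℕ => hG1 r ε' hε'0
  choose C hC1 hC using hG2
  set C' : ℝ := ∑ r ∈ range (N + 4), C r with hC'
  have hCr : ∀ r, r < N + 4 → C r ≤ C' := fun r hr =>
    single_le_sum (f := C) (fun i _ => by linarith [hC1 i]) (mem_range.2 hr)
  have hC'1 : 1 ≤ C' := (hC1 0).trans (hCr 0 (by omega))
  set a : ℕ := ∑ r ∈ range (N + 4), a' r with ha
  have har : ∀ r, r < N + 4 → a' r ≤ a := fun r hr =>
    single_le_sum (f := a') (fun i _ => Nat.zero_le _) (mem_range.2 hr)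
  have ha1 : 1 ≤ a := (ha' 0).trans (har 0 (by omega))
  set τ : ℝ := Real.log (nm t) with hτ
  have hnt : (1 : ℝ) ≤ nm t := by exact_mod_cast nm_pos.2 ht
  have hnt0 : (0 : ℝ) < nm t := by linarith
  have hτ0 : 0 ≤ τ := Real.log_nonneg hnt
  obtain ⟨X₂, hX₂, HX₂⟩ := XSup271.exists_X hC'1 (ε := ε₁) hε₁0
  -- large X : constants against `σ log X`
  set X₃ : ℝ := Real.exp (16 * ((N + 3) * C' + τ + 1) / σ) with hX₃
  refine ⟨M, a, (N + 4) * M + 2, max X₁ (max X₂ X₃), ha1,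
    lt_of_lt_of_le hX₁ (le_max_left _ _), ?_⟩
  intro X hX u₁ u₂ u₃ ps m H hu hN hps hsum hm0 hmX hH hht js hjs P1 G hP1 hP1X hG0
    hE A hA φ hφ hφX P hPp
  have hXX₁ : X₁ ≤ X := (le_max_left _ _).trans hX
  have hXX₂ : X₂ ≤ X := ((le_max_left _ _).trans (le_max_right _ _)).trans hX
  have hXX₃ : X₃ ≤ X := ((le_max_right _ _).trans (le_max_right _ _)).trans hX
  have hX1 : 1 < X := by linarith
  have hX0 : 0 < X := by linarith
  have hlX : 0 < Real.log X := Real.log_pos hX1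
  have hbig : (N + 3) * C' + τ + 1 ≤ σ / 16 * Real.log X := by
    have h1 : 16 * ((N + 3) * C' + τ + 1) / σ ≤ Real.log X := by
      rw [← Real.log_exp (16 * ((N + 3) * C' + τ + 1) / σ)]
      exact Real.log_le_log (Real.exp_pos _) hXX₃
    rw [div_le_iff₀ hσ0] at h1
    linarith
  have hNC : 0 ≤ (N : ℝ) * C' := by positivity
  have hσL : 0 < σ * Real.log X := by positivity
  have hσ₁L : 0 < σ₁ * Real.log X := by positivity
  have hKL : 0 ≤ Kc * Real.log X := by positivity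
  have hσL1 : σ * Real.log X ≤ σ₁ / 2 * Real.log X := mul_le_mul_of_nonneg_right hσ1 hlX.le
  have hσL2 : σ * Real.log X ≤ 1 / 2 * Real.log X := mul_le_mul_of_nonneg_right hσ2 hlX.le
  have hC'σ : 3 * C' ≤ σ / 16 * Real.log X := by linarith
  have hτσ : τ ≤ σ / 16 * Real.log X := by linarith
  have hNσ : (N : ℝ) * C' ≤ σ / 16 * Real.log X := by linarith
  -- sizes
  have hXB : ∀ {x : ℝ}, x ≤ X ^ B → x ≤ X ^ B₃ := fun hx =>
    hx.trans (Real.rpow_le_rpow_of_exponent_le hX1.le (by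
      have := le_abs_self B
      linarith))
  have hX0' : 1 ≤ X ^ B₃ := Real.one_le_rpow hX1.le hB₃0.le
  have hXδ : (X ^ B₃) ^ δ = X ^ (σ / 4) := by
    rw [← Real.rpow_mul hX0.le, hδB]
  have hXε : (X ^ B₃) ^ ε' = X ^ ε₁ := by
    rw [← Real.rpow_mul hX0.le, hεB]
  set l := u₁ :: u₂ :: u₃ :: ps with hl
  set r := l.length with hr
  have hr3 : r = ps.length + 3 := by rw [hr, hl]; rfl
  have hrN : r < N + 4 := by omega
  set sf : Fin r → Pq := fun i => l.get i with hsf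
  have hofn : List.ofFn sf = l := List.ofFn_get l
  have hz0 : ∀ p ∈ l, 0 ≤ p.z := by
    intro p hp
    rw [hl] at hp
    simp only [List.mem_cons] at hp
    rcases hp with rfl | rfl | rfl | hp
    · exact (hu _ (by simp)).2.1
    · exact (hu _ (by simp)).2.1
    · exact (hu _ (by simp)).2.1
    · exact (hps p hp).2.1
  have hz2 : ∀ p ∈ l, p.z ≤ (Kc + 1) * Real.log X := by
    intro p hp
    rw [hl] at hp
    simp only [List.mem_cons] at hp
    rcases hp with rfl | rfl | rfl | hp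
    · have := (hu p (by simp)).2.2.1
      linarith
    · have := (hu p (by simp)).2.2.1
      linarith
    · have := (hu p (by simp)).2.2.1
      linarith
    · have h1 := (hps p hp).2.2.1
      linarith
  have hdB : ∀ p ∈ l, (nm p.d : ℝ) ≤ X ^ B := by
    intro p hp
    rw [hl] at hp
    simp only [List.mem_cons] at hp
    rcases hp with rfl | rfl | rfl | hp
    · exact (hu _ (by simp)).2.2.2
    · exact (hu _ (by simp)).2.2.2
    · exact (hu _ (by simp)).2.2.2
    · exact (hps p hp).2.2.2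
  have hmem : ∀ i : Fin r, sf i ∈ l := fun i => List.get_mem l i
  have hjl : js.length = r := hjs.length_eq
  set j : Fin r → IP := fun i => js.get (i.cast hjl.symm) with hj
  have hofj : List.ofFn j = js := by
    refine List.ext_getElem (by rw [List.length_ofFn, hjl]) fun n h1 h2 => ?_
    rw [List.getElem_ofFn]
    rfl
  have hblw : ∀ i, Blw (π lam) (j i) (sf i) := by
    intro i
    have h1 := (List.forall₂_iff_get.1 hjs).2 i.1 (by rw [hjl]; exact i.2) i.2
    exact h1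
  have hBel : Below (π lam) 0 j sf :=
    ⟨fun i => by have := (hblw i).z; linarith, fun i => (hblw i).t0, fun i => (hblw i).ψ,
      fun i => (hblw i).one⟩
  have e2 : ∑ i, (j i).z = (js.map IP.z).sum := by
    have h5 : ∑ i, (j i).z = ((List.ofFn j).map IP.z).sum := by
      rw [List.map_ofFn, List.sum_ofFn]
      rfl
    rw [h5, hofj]
  set n : ℝ := (js.map IP.z).sum with hn
  set Bd : ℝ := H ^ M * X ^ (G + 2 * ε₁) with hBd
  have hBd1 : 1 ≤ Bd :=
    one_le_mul_of_one_le_of_one_le (one_le_pow₀ hH) (Real.one_le_rpow hX1.le (by positivity))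
  have hBd0 : 0 ≤ Bd := by linarith
  have hM0 : (0 : ℝ) ≤ M := Nat.cast_nonneg M
  have n1X : ((nm (1 : Eis) : ℕ) : ℝ) ≤ X ^ B₃ := by rw [nm_one]; push_cast; exact hX0'
  have key := hC r (π lam) (hP lam) (Q lam) sf (fun i => hz0 _ (hmem i)) j hBel (fun i => (hblw i).s) m 1 1 t
    hm0 isPrim_one isPrim_one ht (X ^ B₃) hX0' (hXB hmX) n1X n1X (fun i => by
      rw [Real.rpow_def_of_pos hX0]
      refine Real.exp_le_exp.2 ?_
      have h1 := hz2 _ (hmem i)
      have h2 : 0 ≤ |B| * Real.log X := mul_nonneg (abs_nonneg B) hlX.le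
      rw [hB₃]
      linarith) ((N + 4) * M) (by
      have h1 : (r : ℝ) ≤ N + 4 := by exact_mod_cast hrN.le
      have h2 := mul_le_mul_of_nonneg_right h1 hM0
      push_cast
      linarith) A (by exact_mod_cast hA) P1 Bd hP1 (by
      rw [Real.rpow_one]
      exact hP1X.trans (Real.rpow_le_rpow_of_exponent_le hX1.le (by
        have := abs_nonneg B
        linarith))) hBd1 ?_ 1 φ isPrim_one hφ (hXB hφX) P hPp
  · -- conclusion
    have e1 : al h (fun i => (j i).pc) = alL h (js.map IP.pc) := by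
      rw [HP842.al_eq]
      congr 1
      rw [← hofj, List.map_ofFn]
      rfl
    have e1' : alL h (js.map fun j => SU770.tw1 j.pc t) = I1146.tw3 t (alL h (js.map IP.pc)) := by
      have := alL_tw1 h t (js.map IP.pc)
      rw [List.map_map] at this
      exact this
    have n6one : n6 1 = 1 := by unfold PX764.n6; rw [nm_one]; simp
    rw [e1, e2, n6one, nm_one] at key
    simp only [Nat.cast_one, one_pow, mul_one, one_mul, div_one] at key
    have e3 : sqc m (alL h (js.map fun j => SU770.tw1 j.pc t)) =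
        I1146.tw3 t (sqc m (alL h (js.map IP.pc))) := by
      rw [e1']
      funext x
      unfold HP842.sqc I1146.tw3
      ring
    rw [e3]
    have h5 : ∑ k ∈ (bl P).filter (fun k => Q lam (k * t)),
          RMm A (I1146.tw3 t (sqc m (alL h (js.map IP.pc)))) 1 1 φ k ≤
        ∑ k ∈ (bl P).filter (fun k => Q lam (k * t)),
          RMm A (sqc m (alL h (js.map IP.pc))) 1 1 φ (k * t) := by
      refine sum_le_sum fun k _ => ?_
      have h6 := RnP571.RMm_tw A t (al := sqc m (alL h (js.map IP.pc))) (fun x hx =>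
        alL_prim' (right_ne_zero_of_mul hx)) isPrim_one (γ := 1) isPrim_one 1 φ k
      simp only [one_mul] at h6
      exact h6
    refine h5.trans (key.trans ?_)
    have hE0 : 0 ≤ Real.exp n ^ (2 / 3 : ℝ) := by positivity
    have hCr' : 0 ≤ C r := by linarith [hC1 r]
    refine (RnP571.W2_mono_a (har r hrN) hP1 (by positivity)).trans (W2_mono a hP1 hPp ?_)
    refine mul_le_mul_of_nonneg_right ?_ hE0
    rw [hXε, hBd]
    have h6 : C r ≤ X ^ ε₁ := (hCr r hrN).trans (HX₂ X hXX₂)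
    calc C r * X ^ ε₁ * (H ^ M * X ^ (G + 2 * ε₁))
        ≤ X ^ ε₁ * X ^ ε₁ * (H ^ M * X ^ (G + 2 * ε₁)) := by gcongr
      _ = H ^ M * X ^ (ε₁ + ε₁ + (G + 2 * ε₁)) := by
          rw [Real.rpow_add hX0 (ε₁ + ε₁), Real.rpow_add hX0 ε₁]; ring
      _ ≤ _ := by
          refine mul_le_mul_of_nonneg_left ?_ (by positivity)
          refine Real.rpow_le_rpow_of_exponent_le hX1.le ?_
          rw [hε₁]; linarith
  -- the children
  intro L₀ hL₀1 hL₀2 s' W hW hRl htl
  rw [hXδ] at hL₀2 ⊢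
  have hL₀0 : 0 < L₀ := by linarith
  set Λ₀ : ℝ := L₀ * nm t with hΛ₀
  have hΛ1 : 1 ≤ Λ₀ := one_le_mul_of_one_le_of_one_le hL₀1 hnt
  have hΛ0 : 0 < Λ₀ := by linarith
  have hlΛ : Real.log Λ₀ = Real.log L₀ + τ := by
    rw [hΛ₀, Real.log_mul hL₀0.ne' hnt0.ne']
  have hlL0 : 0 ≤ Real.log L₀ := Real.log_nonneg hL₀1
  have hlL2 : Real.log L₀ ≤ Real.log P1 + σ / 4 * Real.log X := by
    have h1 := Real.log_le_log hL₀0 hL₀2
    rwa [Real.log_mul hP1.ne' (by positivity), Real.log_rpow hX0] at h1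
  have hlP1 : Real.log P1 ≤ Kc * Real.log X := by
    have h1 := Real.log_le_log hP1 hP1X
    rwa [Real.log_rpow hX0] at h1
  have hlen : (List.ofFn s').length = r := List.length_ofFn
  -- the child list
  obtain ⟨v₁, v₂, v₃, qs, hvq⟩ : ∃ v₁ v₂ v₃ qs, List.ofFn s' = v₁ :: v₂ :: v₃ :: qs := by
    rcases hs : List.ofFn s' with _ | ⟨v₁, _ | ⟨v₂, _ | ⟨v₃, qs⟩⟩⟩
    · rw [hs] at hlen; simp only [List.length_cons, List.length_nil] at hlen; omega
    · rw [hs] at hlen; simp only [List.length_cons, List.length_nil] at hlen; omega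
    · rw [hs] at hlen; simp only [List.length_cons, List.length_nil] at hlen; omega
    · exact ⟨v₁, v₂, v₃, qs, rfl⟩
  have hRl' : ∀ i, Rl C' W (s' i) (sf i) := fun i => (hRl i).mono (hCr r hrN)
  have hF : List.Forall₂ (Rl C' W) (List.ofFn s') l := by
    rw [← hofn]
    rw [List.forall₂_iff_get]
    refine ⟨by simp, fun i h1 h2 => ?_⟩
    simp only [List.get_eq_getElem, List.getElem_ofFn]
    exact hRl' _
  rw [hvq, hl] at hF
  obtain ⟨r1, hF1⟩ := List.forall₂_cons.1 hF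
  obtain ⟨r2, hF2⟩ := List.forall₂_cons.1 hF1
  obtain ⟨r3', hF3⟩ := List.forall₂_cons.1 hF2
  have hlump : ∀ {v u : Pq}, Rl C' W v u → Dq.lump u → Dq.lump v := by
    intro v u hr hu
    obtain ⟨h1, h2⟩ := (Dq_lump u).1 hu
    exact (Dq_lump v).2 ⟨hr.kd.trans h1, hr.one h2⟩
  have hdd : ∀ {v u : Pq}, Rl C' W v u → u.z ≤ Kc * Real.log X ∨ u.z ≤ σ * Real.log X →
      (nm u.d : ℝ) ≤ X ^ B → (nm v.d : ℝ) ≤ X ^ (|B| + Kc + 2) := by
    intro v u hr h1 h2
    refine hr.dd.trans ?_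
    have h3 : C' ≤ X ^ (1 : ℝ) := by
      have h4 : C' ≤ Real.log X := by linarith
      rw [Real.rpow_one]
      exact h4.trans (Real.log_le_self hX0.le)
    have h5 : Real.exp u.z ≤ X ^ (Kc + 1) := by
      rw [Real.rpow_def_of_pos hX0]
      refine Real.exp_le_exp.2 ?_
      rcases h1 with h1 | h1
      · linarith
      · linarith
    have h6 : (nm u.d : ℝ) ≤ X ^ |B| :=
      h2.trans (Real.rpow_le_rpow_of_exponent_le hX1.le (le_abs_self B))
    calc C' * (nm u.d : ℝ) * Real.exp u.z ≤ X ^ (1 : ℝ) * X ^ |B| * X ^ (Kc + 1) := by gcongr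
      _ = X ^ (|B| + Kc + 2) := by
          rw [← Real.rpow_add hX0, ← Real.rpow_add hX0]; congr 1; ring
  have hqs : ∀ v ∈ qs, ∃ u ∈ ps, Rl C' W v u := by
    intro v hv
    obtain ⟨n, hn, rfl⟩ := List.mem_iff_getElem.1 hv
    have h1 := hF3.length_eq
    have h2 : n < ps.length := by omega
    exact ⟨ps[n], List.getElem_mem h2, (List.forall₂_iff_get.1 hF3).2 n hn h2⟩
  have hqsam : ∀ v ∈ qs, v.kd = .am := by
    intro v hv
    obtain ⟨u, hu', hr'⟩ := hqs v hv
    exact hr'.kd.trans (hps u hu').1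
  have hqz : (qs.map Pq.z).sum ≤ (ps.map Pq.z).sum + N * C' := by
    have h1 : ∀ {a b : List Pq}, List.Forall₂ (Rl C' W) a b →
        (a.map Pq.z).sum ≤ (b.map Pq.z).sum + b.length * C' := by
      intro a b hab
      induction hab with
      | nil => simp
      | @cons x y a b hxy _ ih =>
        have h3 := hxy.zle
        simp only [List.map_cons, List.sum_cons, List.length_cons]
        push_cast
        linarith
    have h2 := h1 hF3
    have h3 : (ps.length : ℝ) * C' ≤ N * C' := by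
      have : (ps.length : ℝ) ≤ N := by exact_mod_cast hN
      exact mul_le_mul_of_nonneg_right this (by linarith)
    linarith
  have hqz0 : 0 ≤ (qs.map Pq.z).sum := List.sum_nonneg fun x hx => by
    obtain ⟨v, hv, rfl⟩ := List.mem_map.1 hx
    obtain ⟨u, _, hr'⟩ := hqs v hv
    exact hr'.z0
  have hWH : 1 ≤ W * H := one_le_mul_of_one_le_of_one_le hW hH
  have hPL := PX X hXX₁ (Real.log Λ₀) v₁ v₂ v₃ qs (by
      intro p hp
      simp only [List.mem_cons, List.not_mem_nil, or_false] at hp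
      have aux : ∀ {v u : Pq}, Rl C' W v u → u ∈ l → u.z ≤ Kc * Real.log X → Dq.lump u →
          Dq.lump v ∧ 0 ≤ v.z ∧ v.z ≤ (Kc + 1 + σ₁) * Real.log X ∧
            (nm v.d : ℝ) ≤ X ^ (|B| + Kc + 2) := by
        intro v u hr' hul h1 hu'
        have h2 := hr'.zle
        refine ⟨hlump hr' hu', hr'.z0, ?_, hdd hr' (Or.inl h1) (hdB u hul)⟩
        linarith
      have hm1 : u₁ ∈ l := by simp [hl]
      have hm2 : u₂ ∈ l := by simp [hl]
      have hm3 : u₃ ∈ l := by simp [hl]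
      rcases hp with rfl | rfl | rfl
      · exact aux r1 hm1 (hu _ (by simp)).2.2.1 (hu _ (by simp)).1
      · exact aux r2 hm2 (hu _ (by simp)).2.2.1 (hu _ (by simp)).1
      · exact aux r3' hm3 (hu _ (by simp)).2.2.1 (hu _ (by simp)).1) (by
      have : 0 ≤ Real.log Λ₀ := Real.log_nonneg hΛ1
      linarith) (by rw [hlΛ]; linarith) (by
      have := hF3.length_eq
      omega) (by
      intro p hp
      obtain ⟨u, hu', hr'⟩ := hqs p hp
      have h1 := (hps u hu').2.2.1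
      have h2 := hr'.zle
      have h3 : u ∈ l := by simp [hl, hu']
      refine ⟨kind_am_not_lump (hqsam p hp), hr'.z0, ?_, hdd hr' (Or.inr h1) (hdB u h3)⟩
      linarith) (by
      intro t'
      have h1 := mass_am (X := X) hqsam
      cases t' with
      | mo => rw [h1.1]; positivity
      | am =>
        rw [h1.2, div_le_iff₀ hlX]
        linarith) (W * H) hWH (by
      intro p hp
      rw [← hvq] at hp
      obtain ⟨i, rfl⟩ := (List.mem_ofFn' _ _).1 hp
      have h1 := (hRl i).ht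
      have h2 := hht (sf i) (hmem i)
      calc 1 + |(s' i).t| ≤ W * (1 + |(sf i).t|) := h1
        _ ≤ W * H := mul_le_mul_of_nonneg_left h2 (by linarith))
  have hRF : RQq (Q lam) (π lam) h (Real.log Λ₀) (List.ofFn s') =
      RQ (Q lam) h (Real.log Λ₀) ((v₁ :: v₂ :: v₃ :: qs).map (Pq.pc (π lam))) := by
    unfold Mono858.RQq
    rw [hvq]
  rw [hRF]
  refine hPL.trans ?_
  have hmas := mass_am (X := X) hqsam
  rw [hmas.1, hmas.2]
  have e5 : tl Dq (List.ofFn s') = v₁.z + v₂.z + v₃.z + (qs.map Pq.z).sum := by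
    have h5 : tl Dq (List.ofFn s') = ((List.ofFn s').map Pq.z).sum := rfl
    rw [h5, hvq]
    simp only [List.map_cons, List.sum_cons]
    ring
  have hdiv : ∀ {a b : ℝ}, a ≤ b + σ / 2 * Real.log X →
      a / Real.log X ≤ b / Real.log X + σ / 2 := by
    intro a b hab
    rw [div_le_iff₀ hlX, add_mul, div_mul_cancel₀ _ hlX.ne']
    exact hab
  have hreal := hE (Real.log Λ₀ / Real.log X) (v₁.z / Real.log X) (v₂.z / Real.log X)
    (v₃.z / Real.log X) ((qs.map Pq.z).sum / Real.log X)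
    (div_nonneg (Real.log_nonneg hΛ1) hlX.le) (hdiv (by rw [hlΛ]; linarith))
    (div_nonneg r1.z0 hlX.le)
    (hdiv (by linarith [r1.zle])) (div_nonneg r2.z0 hlX.le) (hdiv (by linarith [r2.zle]))
    (div_nonneg r3'.z0 hlX.le) (hdiv (by linarith [r3'.zle])) (div_nonneg hqz0 hlX.le)
    (hdiv (by linarith)) (by
      rw [← add_div, ← add_div, ← add_div, ← e5]
      refine hdiv ?_
      have hl1 : Real.log (((nm (1 : Eis) : ℕ) : ℝ) * ((nm (1 : Eis) : ℕ) : ℝ)) = 0 := by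
        rw [nm_one]; simp
      rw [e2, hl1] at htl
      have := hCr r hrN
      linarith) (by
      rw [← add_div, ← add_div]
      refine hdiv ?_
      linarith [r1.zle, r2.zle, r3'.zle])
  have hexp : E (Real.log Λ₀ / Real.log X) (v₁.z / Real.log X) (v₂.z / Real.log X)
      (v₃.z / Real.log X) 0 ((qs.map Pq.z).sum / Real.log X) ≤
      G + tl Dq (List.ofFn s') / Real.log X +
        (Real.log L₀ + τ - Real.log P1) / Real.log X / 3 := by
    rw [e5, add_div, add_div, add_div]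
    have e6 : (Real.log L₀ + τ - Real.log P1) / Real.log X =
        Real.log Λ₀ / Real.log X - Real.log P1 / Real.log X := by
      rw [hlΛ, sub_div]
    rw [e6]
    linarith
  have h12 : (W * H) ^ M = H ^ M * W ^ (2 * ((M : ℝ) / 2)) := by
    rw [mul_div_cancel₀ _ (two_ne_zero), Real.rpow_natCast, mul_pow, mul_comm]
  have h13 : Real.exp (tl Dq (List.ofFn s')) = X ^ (tl Dq (List.ofFn s') / Real.log X) := by
    rw [Real.rpow_def_of_pos hX0, mul_div_cancel₀ _ hlX.ne']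
  have h14 : (L₀ / (P1 * X ^ (σ / 4))) ^ (1 / 3 : ℝ) =
      X ^ ((Real.log L₀ - Real.log P1) / Real.log X / 3 - σ / 12) := by
    have hq : 0 < L₀ / (P1 * X ^ (σ / 4)) := by positivity
    rw [Real.rpow_def_of_pos hq,
      Real.log_div hL₀0.ne' (by positivity), Real.log_mul hP1.ne' (by positivity),
      Real.log_rpow hX0, Real.rpow_def_of_pos hX0]
    congr 1
    field_simp
    ring
  have hW0 : 0 < W := by linarith
  rw [h12, hBd, h13, h14]
  have hτL : τ / Real.log X ≤ σ / 16 := by rw [div_le_iff₀ hlX]; exact hτσ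
  calc H ^ M * W ^ (2 * ((M : ℝ) / 2)) * X ^ (E (Real.log Λ₀ / Real.log X)
        (v₁.z / Real.log X) (v₂.z / Real.log X) (v₃.z / Real.log X) 0
        ((qs.map Pq.z).sum / Real.log X) + ε₁)
      ≤ H ^ M * W ^ (2 * ((M : ℝ) / 2)) * X ^ (((Real.log L₀ - Real.log P1) / Real.log X / 3 -
          σ / 12) + (G + 2 * ε₁) + tl Dq (List.ofFn s') / Real.log X) := by
        refine mul_le_mul_of_nonneg_left ?_ (by positivity)
        refine Real.rpow_le_rpow_of_exponent_le hX1.le ?_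
        have e7 : (Real.log L₀ + τ - Real.log P1) / Real.log X / 3 =
            (Real.log L₀ - Real.log P1) / Real.log X / 3 + τ / Real.log X / 3 := by ring
        rw [e7] at hexp
        linarith
    _ = _ := by
        rw [Real.rpow_add hX0 (_ + (G + 2 * ε₁)), Real.rpow_add hX0]
        ring

set_option maxHeartbeats 3200000 in
open Classical in
/-- **(RP), any class**: (RH) for the coefficient of the mismatch from one real line, the
frequencies with `Q (k t)` -/
theorem rp_rawQ {c₀ : ℝ} (hpu : PU h c₀) (hP : ∀ lam, (π lam).OK) {Kc : ℝ} (hKc : 0 ≤ Kc)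
    {Q : Λ → Eis → Prop} {E : ℝ → ℝ → ℝ → ℝ → ℝ → ℝ → ℝ} (PL : Plain Q π h (Kc + 1) E) {ε : ℝ}
    (hε : 0 < ε) :
    ∃ σ : ℝ, 0 < σ ∧ σ ≤ ε ∧ ∀ (lam : Λ) (t : Eis), t ≠ 0 → ∀ (N : ℕ) (B : ℝ),
      ∃ (M a A₀ : ℕ) (X₀ : ℝ), 1 ≤ a ∧ 1 < X₀ ∧ ∀ X : ℝ, X₀ ≤ X →
      ∀ (us : Fin 3 → Pq) (qs : List Pq) (H : ℝ),
      (∀ i, Dq.lump (us i) ∧ 0 ≤ (us i).z ∧ (us i).z ≤ Kc * Real.log X ∧
        (nm (us i).d : ℝ) ≤ X ^ B) → qs.length ≤ N →
      (∀ p ∈ qs, p.kd = .am ∧ 0 ≤ p.z ∧ p.z ≤ σ * Real.log X ∧ (nm p.d : ℝ) ≤ X ^ B) →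
      (qs.map Pq.z).sum ≤ Kc * Real.log X → 1 ≤ H → (∀ i, 1 + |(us i).t| ≤ H) →
      (∀ p ∈ qs, 1 + |p.t| ≤ H) →
      ∀ (θ : ℝ) (W : Eis → Eis → Eis → ℂ), WOK θ W → ∀ Z : ℝ, 0 ≤ Z →
      (∀ n, sqc 1 (alL h (qs.map (Pt (π lam) t))) n ≠ 0 → (nm n : ℝ) ≤ Z) →
      ∀ g d e : Eis, IsPrim g → IsPrim d → IsPrim e →
      ∀ (P1 G : ℝ), 0 < P1 → P1 ≤ X ^ Kc → 0 ≤ G →
      (∀ i y₁ y₂ y₃ x : ℝ, 0 ≤ i → i ≤ Real.log P1 / Real.log X + σ → 0 ≤ y₁ →
        y₁ ≤ (us 0).z / Real.log X + σ → 0 ≤ y₂ → y₂ ≤ (us 1).z / Real.log X + σ → 0 ≤ y₃ →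
        y₃ ≤ (us 2).z / Real.log X + σ → 0 ≤ x →
        x ≤ ((qs.map Pq.z).sum - Real.log (nm g)) / Real.log X + σ →
        y₁ + y₂ + y₃ ≤ ((us 0).z + (us 1).z + (us 2).z - Real.log (nm g)) / Real.log X + σ →
        y₁ + y₂ + y₃ + x ≤ ((us 0).z + (us 1).z + (us 2).z + (qs.map Pq.z).sum -
          Real.log (nm g) - Real.log (nm d) - Real.log (nm (lc (cc g d) e))) / Real.log X + σ →
        E i y₁ y₂ y₃ 0 x + (Real.log P1 / Real.log X - i) / 3 ≤ G + (y₁ + y₂ + y₃ + x)) →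
      ∀ A : ℕ, A₀ ≤ A → ∀ γ φ : Eis, IsPrim γ → IsPrim φ → (nm φ : ℝ) ≤ X ^ B →
      ∀ P : ℝ, 0 < P →
        (nm γ : ℝ) * n6 γ ^ 2 * ∑ k ∈ (bl P).filter (fun k => Q lam (k * t)), RMm A
          (afW W Z (sqc 1 (alL h (qs.map (Pt (π lam) t))))
            (sqc 1 (alL h ((List.ofFn us).map (Pt (π lam) t)))) g e d) e γ φ k ≤
        W2 a P1 ((H * (1 + |θ|)) ^ M * X ^ (G + ε) *
          (Real.exp ((us 0).z + (us 1).z + (us 2).z + (qs.map Pq.z).sum) / (nm g * nm d)) ^
            (2 / 3 : ℝ)) P := by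
  classical
  obtain ⟨σ, hσ0, hσε, HJ⟩ := rh_jQ hpu hP hKc PL (show 0 < ε / 2 by positivity)
  refine ⟨σ, hσ0, by linarith, fun lam t ht N B => ?_⟩
  obtain ⟨R, hR0, hR⟩ := exists_R (cs_cx hpu.cs)
  set B' : ℝ := |B| + 4 * Kc + 1 with hB'
  have hB'1 : 1 ≤ B' := by have := abs_nonneg B; linarith
  have hB'0 : 0 < B' := by linarith
  obtain ⟨M, a, A₀, X₁, ha, hX₁, HJ⟩ := HJ lam t ht N B'
  set K : ℕ := 2 * (N + 3) with hK
  have hK0 : (0 : ℝ) < K := by rw [hK]; push_cast; positivity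
  set η : ℝ := ε / (8 * (K * B')) with hη
  have hη0 : 0 < η := by positivity
  obtain ⟨C₂, hC₂, hτ⟩ := tau_le_rpow hη0
  obtain ⟨X₂, hX₂, HX₂⟩ := XSup271.exists_X (C := C₂ ^ (2 * K)) (one_le_pow₀ hC₂) (ε := ε / 4)
    (by positivity)
  have hNR : 0 ≤ ((N : ℝ) + 3) * R := by positivity
  set X₃ : ℝ := Real.exp (4 * (((N : ℝ) + 3) * R) / σ + ((N : ℝ) + 3) * R) with hX₃
  refine ⟨M, a, max A₀ 2, max X₁ (max X₂ X₃), ha, lt_of_lt_of_le hX₁ (le_max_left _ _), ?_⟩
  intro X hX us qs H hus hN hqs hsum hH hH1 hH2 θ W hW Z hZ hsup g d e hg hd he P1 G hP1 hP1X hG0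
    hE A hA γ φ hγ hφ hφX P hPp
  have hXX₁ : X₁ ≤ X := (le_max_left _ _).trans hX
  have hXX₂ : X₂ ≤ X := ((le_max_left _ _).trans (le_max_right _ _)).trans hX
  have hXX₃ : X₃ ≤ X := ((le_max_right _ _).trans (le_max_right _ _)).trans hX
  have hA₀ : A₀ ≤ A := (le_max_left _ _).trans hA
  have hA2 : (1 : ℝ) < A := by
    have : 2 ≤ A := (le_max_right _ _).trans hA
    exact_mod_cast this
  have hX1 : 1 < X := by linarith
  have hX0 : 0 < X := by linarith
  set L := Real.log X with hL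
  have hL0 : 0 < L := Real.log_pos hX1
  have hbg : 4 * (((N : ℝ) + 3) * R) / σ + ((N : ℝ) + 3) * R ≤ L := by
    rw [← Real.log_exp (4 * (((N : ℝ) + 3) * R) / σ + ((N : ℝ) + 3) * R)]
    exact Real.log_le_log (Real.exp_pos _) hXX₃
  have hq0 : 0 ≤ 4 * (((N : ℝ) + 3) * R) / σ := by positivity
  have hRσ : 4 * (((N : ℝ) + 3) * R) ≤ σ * L := by
    have h1 : 4 * (((N : ℝ) + 3) * R) / σ ≤ L := by linarith
    rw [div_le_iff₀ hσ0] at h1
    linarith
  have hRL : ((N : ℝ) + 3) * R ≤ L := by linarith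
  -- the families
  set s1 : Fin qs.length → Pc := fun i => Pt (π lam) t (qs.get i) with hs1
  set s2 : Fin 3 → Pc := fun j => Pt (π lam) t (us j) with hs2
  have e_s1 : alL h (qs.map (Pt (π lam) t)) = al h s1 := alL_map h _ qs
  have e_s2 : alL h ((List.ofFn us).map (Pt (π lam) t)) = al h s2 := by
    rw [List.map_ofFn, ← HP842.al_eq]
    rfl
  rw [e_s1] at hsup ⊢
  rw [e_s2]
  have h1 : ∀ i, (s1 i).OK := fun i => Pt_OK (hP lam) t _
  have h2 : ∀ j, (s2 j).OK := fun j => Pt_OK (hP lam) t _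
  set zz : Fin qs.length ⊕ Fin 3 → ℝ := Sum.elim (fun i => (qs.get i).z) (fun j => (us j).z)
    with hzz
  set n : ℝ := (us 0).z + (us 1).z + (us 2).z + (qs.map Pq.z).sum with hn
  have hqsum : (qs.map Pq.z).sum = ∑ i : Fin qs.length, (qs.get i).z := map_sum_get _ _
  have hzn : ∑ i, zz i = n := by
    rw [Fintype.sum_sum_type, Fin.sum_univ_three, hn, hqsum, hzz]
    simp only [Sum.elim_inl, Sum.elim_inr]
    ring
  have hqn0 : 0 ≤ (qs.map Pq.z).sum := by
    rw [hqsum]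
    exact sum_nonneg fun i _ => (hqs _ (List.get_mem qs i)).2.1
  have hn4 : n ≤ 4 * Kc * L := by
    have a0 := (hus 0).2.2.1
    have a1 := (hus 1).2.2.1
    have a2 := (hus 2).2.2.1
    linarith
  set F := fam θ s1 s2 with hF
  have hFOK : ∀ i, (F i).OK := fam_OK h1 h2
  have hFY : ∀ i, Real.log (F i).Y = zz i := by
    rintro (i | j)
    · exact Real.log_exp _
    · exact Real.log_exp _
  have hcard : (Fintype.card (Fin qs.length ⊕ Fin 3) : ℝ) ≤ N + 3 := by
    rw [Fintype.card_sum, Fintype.card_fin, Fintype.card_fin]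
    push_cast
    have : (qs.length : ℝ) ≤ N := by exact_mod_cast hN
    linarith
  set c := cE g d e γ with hc
  have hcp : IsPrim c := cE_prim hg he γ
  set N' := d * (γ * c) with hN'
  have hN'p : IsPrim N' := hd.mul (hγ.mul hcp)
  have hgN : g * N' ≠ 0 := mul_ne_zero hg.ne_zero hN'p.ne_zero
  have ng : (0 : ℝ) < nm g := by exact_mod_cast nm_pos.2 hg.ne_zero
  have nd : (0 : ℝ) < nm d := by exact_mod_cast nm_pos.2 hd.ne_zero
  have nN : (0 : ℝ) < nm N' := by exact_mod_cast nm_pos.2 hN'p.ne_zero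
  set H' : ℝ := H * (1 + |θ|) with hH'
  have hθ1 : 1 ≤ 1 + |θ| := by linarith [abs_nonneg θ]
  have hH'1 : 1 ≤ H' := one_le_mul_of_one_le_of_one_le hH hθ1
  have hH'0 : 0 ≤ H' := by linarith
  have hHH : H ≤ H' := le_mul_of_one_le_right (by linarith) hθ1
  -- short pieces
  have hshort : ∀ v : Fin qs.length ⊕ Fin 3 → Eis, VOK g N' v →
      (¬ ∀ i, -R ≤ zz i - Real.log (nm (v i))) → ∀ m, al h (shS F v) m = 0 := by
    intro v hv hno m
    push Not at hno
    obtain ⟨i, hi⟩ := hno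
    refine al_short hR (fun i => sh_OK (hFOK i) (hv.prim i)) (i := i) ?_ m
    have nv : (0 : ℝ) < nm (v i) := by exact_mod_cast nm_pos.2 (hv.prim i).ne_zero
    show Real.log ((F i).Y / nm (v i)) < -R
    rw [Real.log_div (hFOK i).Y0.ne' nv.ne', hFY]
    exact hi
  have hvan : ∀ v : Fin qs.length ⊕ Fin 3 → Eis, VOK g N' v →
      (¬ ∀ i, -R ≤ zz i - Real.log (nm (v i))) → ∑ r ∈ (bl P).filter (fun k => Q lam (k * t)),
      RMm A (sqc N' (al h (shS F v))) 1 1 φ r = 0 := by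
    intro v hv hno
    refine sum_eq_zero fun r _ => RMm_zero fun m => ?_
    unfold HP842.sqc
    rw [hshort v hv hno, mul_zero]
  have hlogv : ∀ v : Fin qs.length ⊕ Fin 3 → Eis, VOK g N' v →
      ∑ i, Real.log (nm (v i)) = Real.log (nm g) + Real.log (nm N') := by
    intro v hv
    rw [← log_nm_prod hv.prim, hv.tot, log_nm_mul hg.ne_zero hN'p.ne_zero]
  have hW1 : 0 ≤ H' ^ M * X ^ (G + ε) * (Real.exp n / (nm g * nm d)) ^ (2 / 3 : ℝ) := by
    positivity
  have hγ0 : 0 ≤ (nm γ : ℝ) * n6 γ ^ 2 := by positivity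
  by_cases hbig : Real.log (nm g) + Real.log (nm N') ≤ n + ((N : ℝ) + 3) * R
  swap
  · -- the sequence vanishes
    push Not at hbig
    have hno : ∀ v : Fin qs.length ⊕ Fin 3 → Eis, VOK g N' v →
        ¬ ∀ i, -R ≤ zz i - Real.log (nm (v i)) := by
      intro v hv hall
      have h3 : ∑ _i : Fin qs.length ⊕ Fin 3, (-R) ≤ ∑ i, (zz i - Real.log (nm (v i))) :=
        sum_le_sum fun i _ => hall i
      rw [sum_sub_distrib, hzn, hlogv v hv, sum_const, card_univ, nsmul_eq_mul] at h3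
      have h4 := mul_le_mul_of_nonneg_right hcard hR0
      linarith
    have h3 := RM_red hR h1 h2 hW hZ hsup hg hd he hγ hA2 φ ((bl P).filter (fun k => Q lam (k * t))) (Bd := 0) le_rfl
      (fun v hv _ => (hvan v hv (hno v hv)).le)
    rw [mul_zero] at h3
    refine (mul_le_mul_of_nonneg_left h3 hγ0).trans ?_
    rw [mul_zero]
    exact W2_nonneg a hP1 hPp hW1
  -- sizes
  have hNX : (nm N' : ℝ) ≤ X ^ B' := by
    rw [Real.rpow_def_of_pos hX0, ← hL, ← Real.log_le_iff_le_exp nN]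
    have h3 := log_nm_nn hg.ne_zero
    have h4 : L * B' = |B| * L + 4 * Kc * L + L := by rw [hB']; ring
    have h5 : 0 ≤ |B| * L := by positivity
    linarith
  have hgX : (nm g : ℝ) ≤ X ^ B' := by
    rw [Real.rpow_def_of_pos hX0, ← hL, ← Real.log_le_iff_le_exp ng]
    have h3 := log_nm_nn hN'p.ne_zero
    have h4 : L * B' = |B| * L + 4 * Kc * L + L := by rw [hB']; ring
    have h5 : 0 ≤ |B| * L := by positivity
    linarith
  have hφX' : (nm φ : ℝ) ≤ X ^ B' := by
    refine hφX.trans (Real.rpow_le_rpow_of_exponent_le hX1.le ?_)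
    have := le_abs_self B
    linarith
  have hBX : X ^ B ≤ X ^ B' := Real.rpow_le_rpow_of_exponent_le hX1.le (by
    have := le_abs_self B
    linarith)
  -- divisibility
  have hdv := (cE_dvd (g := g) (d := d) (e := e) (γ := γ) (m := c) hg he).1 dvd_rfl
  have hgD : g ∣ N' := by
    obtain ⟨k, hk⟩ := hdv.1
    refine ⟨d / StA828.gp d g * k, ?_⟩
    rw [hN', hk, ← mul_assoc, cc_mul hg]
    ring
  have hlN : Real.log (nm d) + Real.log (nm (lc (cc g d) e)) ≤ Real.log (nm N') := by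
    rw [hN', log_nm_mul hd.ne_zero (hγ.mul hcp).ne_zero]
    have := log_nm_mono (lc_prim (cc_prim hg) he).ne_zero (hγ.mul hcp).ne_zero
      (lc_dvd_cE (d := d) hg he γ)
    linarith
  set W1 : ℝ := H' ^ M * X ^ (G + ε / 2) * (Real.exp n / (nm g * nm N')) ^ (2 / 3 : ℝ) with hW1d
  have hW10 : 0 ≤ W1 := by positivity
  have hBd0 : 0 ≤ W2 a P1 W1 P := W2_nonneg a hP1 hPp hW10
  have hmain : ∀ v : Fin qs.length ⊕ Fin 3 → Eis, VOK g N' v → Squarefree N' →
      ∑ r ∈ (bl P).filter (fun k => Q lam (k * t)),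
        RMm A (sqc N' (al h (shS F v))) 1 1 φ r ≤ W2 a P1 W1 P := by
    intro v hv _
    by_cases hall : ∀ i, -R ≤ zz i - Real.log (nm (v i))
    swap
    · rw [hvan v hv hall]
      exact hBd0
    have lv : ∀ i, 0 ≤ Real.log (nm (v i)) := fun i => log_nm_nn (hv.prim i).ne_zero
    have zj : ∀ j : Fin 3, (chm (us j) (v (.inr j)) 0).z ≤ (us j).z ∧
        (chm (us j) (v (.inr j)) 0).z ≤ (us j).z - Real.log (nm (v (.inr j))) + R ∧
        0 ≤ (chm (us j) (v (.inr j)) 0).z := by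
      intro j
      have a1 := (hus j).2.1
      have a2 := lv (.inr j)
      have a3 : -R ≤ (us j).z - Real.log (nm (v (.inr j))) := hall (.inr j)
      exact ⟨max_le a1 (by linarith), max_le (by linarith) (by linarith), le_max_left _ _⟩
    have zq : ∀ i : Fin qs.length, (chm (qs.get i) (v (.inl i)) θ).z ≤ (qs.get i).z ∧
        (chm (qs.get i) (v (.inl i)) θ).z ≤ (qs.get i).z - Real.log (nm (v (.inl i))) + R ∧
        0 ≤ (chm (qs.get i) (v (.inl i)) θ).z := by
      intro i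
      have a1 := (hqs _ (List.get_mem qs i)).2.1
      have a2 := lv (.inl i)
      have a3 : -R ≤ (qs.get i).z - Real.log (nm (v (.inl i))) := hall (.inl i)
      exact ⟨max_le a1 (by linarith), max_le (by linarith) (by linarith), le_max_left _ _⟩
    set ps : List Pq := List.ofFn fun i : Fin qs.length => chm (qs.get i) (v (.inl i)) θ with hps
    set jq : List IP := List.ofFn fun i : Fin qs.length => jm (hP lam) (qs.get i) (v (.inl i)) θ
      with hjq
    set js : List IP := jm (hP lam) (us 0) (v (.inr 0)) 0 :: jm (hP lam) (us 1) (v (.inr 1)) 0 ::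
      jm (hP lam) (us 2) (v (.inr 2)) 0 :: jq with hjs
    have hps_mem : ∀ p ∈ ps, ∃ i : Fin qs.length, p = chm (qs.get i) (v (.inl i)) θ := by
      intro p hp
      rw [hps, List.mem_ofFn'] at hp
      obtain ⟨i, hi⟩ := hp
      exact ⟨i, hi.symm⟩
    have hpsum : (ps.map Pq.z).sum = ∑ i : Fin qs.length, (chm (qs.get i) (v (.inl i)) θ).z := by
      rw [hps, List.map_ofFn, List.sum_ofFn]
      rfl
    have hpsum1 : (ps.map Pq.z).sum ≤ (qs.map Pq.z).sum := by
      rw [hpsum, hqsum]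
      exact sum_le_sum fun i _ => (zq i).1
    have hlq : Real.log (nm g) ≤ ∑ i : Fin qs.length, Real.log (nm (v (.inl i))) := by
      rw [← log_nm_prod fun i => hv.prim (.inl i)]
      exact log_nm_mono hg.ne_zero (HP842.isPrim_prod fun i => hv.prim (.inl i)).ne_zero hv.left
    have hlj : Real.log (nm g) ≤ ∑ j : Fin 3, Real.log (nm (v (.inr j))) := by
      rw [← log_nm_prod fun j => hv.prim (.inr j)]
      exact log_nm_mono hg.ne_zero (HP842.isPrim_prod fun j => hv.prim (.inr j)).ne_zero hv.right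
    have hlenN : (qs.length : ℝ) ≤ N := by exact_mod_cast hN
    have hRq : (qs.length : ℝ) * R ≤ N * R := mul_le_mul_of_nonneg_right hlenN hR0
    have hNR' : ((N : ℝ) + 3) * R = N * R + 3 * R := by ring
    have hNR0 : 0 ≤ (N : ℝ) * R := by positivity
    have hpsum2 : (ps.map Pq.z).sum ≤ (qs.map Pq.z).sum - Real.log (nm g) +
        ((N : ℝ) + 3) * R := by
      have h4 : ∑ i : Fin qs.length, (chm (qs.get i) (v (.inl i)) θ).z ≤
          ∑ i : Fin qs.length, ((qs.get i).z - Real.log (nm (v (.inl i))) + R) :=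
        sum_le_sum fun i _ => (zq i).2.1
      rw [sum_add_distrib, sum_sub_distrib, ← hqsum, sum_const, card_univ, Fintype.card_fin,
        nsmul_eq_mul] at h4
      rw [hpsum]
      linarith
    have hjsum : (js.map IP.z).sum = n - (Real.log (nm g) + Real.log (nm N')) := by
      have h4 : (jq.map IP.z).sum =
          ∑ i : Fin qs.length, ((qs.get i).z - Real.log (nm (v (.inl i)))) := by
        rw [hjq, List.map_ofFn, List.sum_ofFn]
        rfl
      have h5 := hlogv v hv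
      rw [Fintype.sum_sum_type, Fin.sum_univ_three] at h5
      rw [sum_sub_distrib, ← hqsum] at h4
      rw [hjs]
      simp only [List.map_cons, List.sum_cons]
      rw [h4, hn]
      show (us 0).z - Real.log (nm (v (.inr 0))) + ((us 1).z - Real.log (nm (v (.inr 1))) +
        ((us 2).z - Real.log (nm (v (.inr 2))) + _)) = _
      linarith
    have hF2 : List.Forall₂ (Blw (π lam)) js (chm (us 0) (v (.inr 0)) 0 ::
        chm (us 1) (v (.inr 1)) 0 :: chm (us 2) (v (.inr 2)) 0 :: ps) := by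
      refine List.Forall₂.cons (blw_jm _ _ _ _) (List.Forall₂.cons (blw_jm _ _ _ _)
        (List.Forall₂.cons (blw_jm _ _ _ _) ?_))
      rw [List.forall₂_iff_get]
      refine ⟨by rw [hjq, hps, List.length_ofFn, List.length_ofFn], fun i a1 a2 => ?_⟩
      simp only [hjq, hps, List.get_eq_getElem, List.getElem_ofFn]
      exact blw_jm _ _ _ _
    have hlist : al h (shS F v) = alL h (js.map fun j => SU770.tw1 j.pc t) := by
      rw [P1k54.al_sum]
      congr 1
      rw [hjs]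
      simp only [List.map_cons]
      rw [hjq, List.map_ofFn]
      have e3 : (List.ofFn fun j : Fin 3 => shS F v (.inr j)) = [shS F v (.inr 0),
          shS F v (.inr 1), shS F v (.inr 2)] := by
        simp [List.ofFn_succ]
      rw [e3]
      have e4 : ∀ j : Fin 3, shS F v (.inr j) =
          SU770.tw1 (jm (hP lam) (us j) (v (.inr j)) 0).pc t := by
        intro j
        rw [jm_pc (hP lam) (us j) (hv.prim (.inr j)).ne_zero, ht_zero]
        rfl
      have e5 : (List.ofFn fun i : Fin qs.length => shS F v (.inl i)) =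
          List.ofFn ((fun j => SU770.tw1 j.pc t) ∘
            fun i : Fin qs.length => jm (hP lam) (qs.get i) (v (.inl i)) θ) := by
        congr 1
        funext i
        show _ = SU770.tw1 (jm (hP lam) (qs.get i) (v (.inl i)) θ).pc t
        rw [jm_pc (hP lam) (qs.get i) (hv.prim (.inl i)).ne_zero]
        rfl
      rw [e4, e4, e4, e5]
      rfl
    have key := HJ X hXX₁ (chm (us 0) (v (.inr 0)) 0) (chm (us 1) (v (.inr 1)) 0)
      (chm (us 2) (v (.inr 2)) 0) ps N' H' (by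
        intro p hp
        simp only [List.mem_cons, List.not_mem_nil, or_false] at hp
        have aux : ∀ j : Fin 3, Dq.lump (chm (us j) (v (.inr j)) 0) ∧
            0 ≤ (chm (us j) (v (.inr j)) 0).z ∧ (chm (us j) (v (.inr j)) 0).z ≤ Kc * L ∧
            (nm (chm (us j) (v (.inr j)) 0).d : ℝ) ≤ X ^ B' := fun j =>
          ⟨chm_lump (hus j).1 _ _, (zj j).2.2, (zj j).1.trans (hus j).2.2.1,
            (hus j).2.2.2.trans hBX⟩
        rcases hp with rfl | rfl | rfl
        · exact aux 0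
        · exact aux 1
        · exact aux 2) (by rw [hps, List.length_ofFn]; exact hN) (by
        intro p hp
        obtain ⟨i, rfl⟩ := hps_mem p hp
        obtain ⟨b1, b2, b3, b4⟩ := hqs _ (List.get_mem qs i)
        exact ⟨b1, (zq i).2.2, (zq i).1.trans b3, b4.trans hBX⟩) (hpsum1.trans hsum)
      hN'p.ne_zero hNX hH'1 (by
        intro p hp
        simp only [List.mem_cons] at hp
        have aux : ∀ j : Fin 3, 1 + |(chm (us j) (v (.inr j)) 0).t| ≤ H' := by
          intro j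
          show 1 + |(us j).t + 0| ≤ H'
          rw [add_zero]
          exact (hH1 j).trans hHH
        rcases hp with rfl | rfl | rfl | hp
        · exact aux 0
        · exact aux 1
        · exact aux 2
        · obtain ⟨i, rfl⟩ := hps_mem p hp
          have b1 := hH2 _ (List.get_mem qs i)
          show 1 + |(qs.get i).t + θ| ≤ H'
          have b2 := abs_add_le (qs.get i).t θ
          have b3 := abs_nonneg θ
          have b4 := abs_nonneg (qs.get i).t
          calc 1 + |(qs.get i).t + θ| ≤ (1 + |(qs.get i).t|) * (1 + |θ|) := by nlinarith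
            _ ≤ H * (1 + |θ|) := mul_le_mul_of_nonneg_right b1 (by linarith)) js hF2 P1 G hP1 hP1X
      hG0 (by
        intro i y₁ y₂ y₃ x hi0 hi hy10 hy1 hy20 hy2 hy30 hy3 hx0 hx hs1' hs2'
        have hdv2 : ∀ {a b : ℝ}, a ≤ b + ((N : ℝ) + 3) * R → a / L + σ / 2 ≤ b / L + σ := by
          intro a b hab
          have h4 : (((N : ℝ) + 3) * R) / L ≤ σ / 4 := by
            rw [div_le_iff₀ hL0]; linarith
          have h5 : a / L ≤ (b + ((N : ℝ) + 3) * R) / L := div_le_div_of_nonneg_right hab hL0.le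
          rw [add_div] at h5
          linarith
        refine hE i y₁ y₂ y₃ x hi0 (by linarith) hy10 (hy1.trans (hdv2 ?_)) hy20
          (hy2.trans (hdv2 ?_)) hy30 (hy3.trans (hdv2 ?_)) hx0 (hx.trans (hdv2 hpsum2))
          (hs2'.trans (hdv2 ?_)) (hs1'.trans (hdv2 ?_))
        · linarith [(zj 0).1]
        · linarith [(zj 1).1]
        · linarith [(zj 2).1]
        · rw [Fin.sum_univ_three] at hlj
          linarith [(zj 0).2.1, (zj 1).2.1, (zj 2).2.1]
        · rw [hjsum]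
          linarith) A hA₀ φ hφ hφX' P hPp
    rw [hlist]
    refine key.trans (le_of_eq ?_)
    rw [hjsum, hW1d]
    congr 3
    rw [Real.exp_sub, Real.exp_add (Real.log (nm g)) (Real.log (nm N')), Real.exp_log ng,
      Real.exp_log nN]
  have h3 := RM_red hR h1 h2 hW hZ hsup hg hd he hγ hA2 φ ((bl P).filter (fun k => Q lam (k * t))) hBd0 hmain
  rw [← hc, ← hN'] at h3
  -- the number of terms
  set T : ℝ := C₂ * (X ^ B') ^ η with hT
  have hXB1 : 1 ≤ X ^ B' := Real.one_le_rpow hX1.le hB'0.le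
  have hT1 : 1 ≤ T := one_le_mul_of_one_le_of_one_le hC₂ (Real.one_le_rpow hXB1 hη0.le)
  have htau : ∀ x : Eis, x ≠ 0 → (nm x : ℝ) ≤ X ^ B' → (tau x : ℝ) ≤ T := by
    intro x hx hxX
    refine (hτ x hx).trans (mul_le_mul_of_nonneg_left ?_ (by linarith))
    exact Real.rpow_le_rpow (Nat.cast_nonneg _) hxX hη0.le
  have hNg : g * (N' / g) = N' := EuclideanDomain.mul_div_cancel' hg.ne_zero hgD
  have hNg0 : N' / g ≠ 0 := fun h0 => hN'p.ne_zero (by rw [← hNg, h0, mul_zero])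
  have hNgX : (nm (N' / g) : ℝ) ≤ X ^ B' := by
    refine le_trans ?_ hNX
    exact_mod_cast Div277.nm_le_of_dvd hN'p.ne_zero ⟨g, by rw [mul_comm]; exact hNg.symm⟩
  have hcT : ((TQ (Fin qs.length) (Fin 3) g N').card : ℝ) ≤ T ^ K :=
    card_TQ_le hT1 (htau g hg.ne_zero hgX) (htau _ hNg0 hNgX) (n := N + 3) (by
      rw [Fintype.card_fin, Fintype.card_fin]; omega)
  have hcT2 : ((TQ (Fin qs.length) (Fin 3) g N').card : ℝ) ^ 2 ≤ X ^ (ε / 2) := by
    have h4 := pow_le_pow_left₀ (Nat.cast_nonneg _) hcT 2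
    refine h4.trans ?_
    have h5 : (T ^ K) ^ 2 = C₂ ^ (2 * K) * X ^ (ε / 4) := by
      rw [hT, ← pow_mul, mul_pow, mul_comm K 2]
      congr 1
      rw [← Real.rpow_natCast, ← Real.rpow_mul hX0.le, ← Real.rpow_mul hX0.le]
      congr 1
      rw [hη]
      push_cast
      field_simp
      ring
    rw [h5]
    calc C₂ ^ (2 * K) * X ^ (ε / 4) ≤ X ^ (ε / 4) * X ^ (ε / 4) :=
          mul_le_mul_of_nonneg_right (HX₂ X hXX₂) (by positivity)
      _ = X ^ (ε / 2) := by rw [← Real.rpow_add hX0]; congr 1; ring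
  refine (mul_le_mul_of_nonneg_left h3 hγ0).trans ?_
  rw [← mul_assoc, W2_smul]
  refine W2_mono a hP1 hPp ?_
  have hwt := wt_fin (Real.exp_pos n) hg hd hγ hcp
  rw [← hN'] at hwt
  calc (nm γ : ℝ) * n6 γ ^ 2 * (n6 c ^ 2 * ((TQ (Fin qs.length) (Fin 3) g N').card : ℝ) ^ 2) * W1
      = ((TQ (Fin qs.length) (Fin 3) g N').card : ℝ) ^ 2 * (H' ^ M * X ^ (G + ε / 2)) *
        ((nm γ : ℝ) * n6 γ ^ 2 * (n6 c ^ 2 *
          (Real.exp n / (nm g * nm N')) ^ (2 / 3 : ℝ))) := by rw [hW1d]; ring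
    _ ≤ X ^ (ε / 2) * (H' ^ M * X ^ (G + ε / 2)) *
        (Real.exp n / (nm g * nm d)) ^ (2 / 3 : ℝ) := by
        refine mul_le_mul (mul_le_mul_of_nonneg_right hcT2 (by positivity)) hwt ?_ (by positivity)
        exact mul_nonneg hγ0 (by positivity)
    _ = _ := by
        have h6 : X ^ (G + ε) = X ^ (ε / 2) * X ^ (G + ε / 2) := by
          rw [← Real.rpow_add hX0]; congr 1; ring
        rw [h6]; ring

end

end Crest.Agent.R017.RPQ65
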