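import Crest.Agent.R017.RHX_116
import Crest.Agent.R017.R4h_571

/-!
# Row 17, class E of `P1` (helper65): (RH) for one natural family, frequencies with `Q`

* `natGQ`   : one natural family, the moment over the frequencies with `Q (k f)`
* `RH_natQ` : (RH) for all `P`, `sqc q (al h (fun i => (j i).pc))`, frequencies with `Q (k f)`

(helper571's `RH_nat` at helper116's `natGcQ`.)
-/

set_option autoImplicit false
set_option maxHeartbeats 400000

noncomputable section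

open Complex MeasureTheory
open scoped ComplexConjugate

namespace Crest.Agent.R017.RPQ65

open Crest.Agent.R012 Crest.Agent.R012.Eis Crest.Agent.R012.MC
open Crest.Agent.R012.LS2 (S mem_S bl mem_bl)
open Crest.Agent.R012.Weight600 (pw norm_pw pw_add_left)
open Crest.Agent.R017.CM106 (CS TG FS)
open Crest.Agent.R017.FE47
open Crest.Agent.R017.B770
open Crest.Agent.R017.Prov71
open Crest.Agent.R017.HP842 (sqc al)
open Crest.Agent.R017.TPOk571 (IP)
open Crest.Agent.R017.TP320 (tw)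
open Crest.Agent.R017.XHB411 (tl)
open Crest.Agent.R017.XRG106 (Rl)
open Crest.Agent.R017.NtC320 (gC gC_ne gC_fin cg cB cg_prim cB_prim gp_cg gp_cB cB_dvd cg_dvd cop)
open Crest.Agent.R017.StA828 (gp)
open Crest.Agent.R017.E1551 (jb jb_pos)
open Crest.Agent.R017.PX764 (n6)
open Crest.Agent.R017.E3D579 (n6_nonneg)
open Crest.Agent.R017.Mono858 (RQq)
open Crest.Agent.R017.R3571
open Crest.Agent.R017.RHX116

open Classical in
/-- **one natural family, frequencies with `Q`** -/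
theorem natGQ {h : ℝ → ℝ} {c : ℝ} (hpu : PU h c) {μ : ℝ} (hμ : 0 ≤ μ) (s0 : ℝ) (r : ℕ) {ε : ℝ}
    (hε : 0 < ε) :
    ∃ C : ℝ, 1 ≤ C ∧ ∀ (P : DPar), P.OK → ∀ (Q : Eis → Prop) (s : Fin r → Pq),
      (∀ i, 0 ≤ (s i).z) → ∀ j : Fin r → IP, Below P 0 j s → (∀ i, (j i).s = 0) →
      ∀ q δ e π f : Eis, q ≠ 0 → IsPrim δ → IsPrim e → π ≠ 0 → f ≠ 0 →
      ∀ X0 Λ t B : ℝ, 1 ≤ X0 → (nm q : ℝ) ≤ X0 → (nm δ : ℝ) ≤ X0 → (nm e : ℝ) ≤ X0 →
      (nm π : ℝ) ≤ X0 → (∀ i, Real.exp (s i).z ≤ X0) → 0 < Λ → 0 ≤ B →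
      (∀ (s' : Fin r → Pq) (W : ℝ), 1 ≤ W → (∀ i, Rl C W (s' i) (s i)) →
        tl Dq (List.ofFn s') ≤ ∑ i, (j i).z - Real.log (nm δ * nm e) + C →
        RQq Q P h (Real.log (Λ * nm f)) (List.ofFn s') ≤
          B * Real.exp (tl Dq (List.ofFn s')) * W ^ (2 * μ)) →
      ∑ k ∈ (bl Λ).filter (fun k => Q (k * f)),
          ‖CS (gC (sqc q (al h (fun i => (j i).pc))) δ e π (tw s0 t)) (k * f)‖ ^ 2 ≤
        C * X0 ^ ε * (1 + |t|) ^ (2 * (r * μ)) * B *
          ((Real.exp (∑ i, (j i).z) / nm δ) ^ (-(2 * s0)) *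
            (Real.exp (∑ i, (j i).z) / (nm δ * nm e))) := by
  obtain ⟨C, hC, H⟩ := natGcQ hpu hμ s0 r hε
  refine ⟨C, hC, ?_⟩
  intro P hP Q s hs j hj hjs q δ e π f hq hδ he hπ hf X0 Λ t B hX0 hqX hδX heX hπX hsX
    hΛ hB hyp
  have hX00 : 0 < X0 := by linarith
  have hd0 := nm_cast_pos hδ.ne_zero
  have he0 := nm_cast_pos he.ne_zero
  have hd1 := one_le_nm hδ.ne_zero
  have he1 := one_le_nm he.ne_zero
  have hf0 := nm_cast_pos hf
  have hnde : (nm (δ * e) : ℝ) = nm δ * nm e := by rw [nm_mul]; push_cast; rfl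
  have hde1 : (1 : ℝ) ≤ nm δ * nm e := one_le_mul_of_one_le_of_one_le hd1 he1
  have key := H P hP Q s hs j hj hjs ((bl Λ).filter (fun k => Q (k * f))) (fun _ => 1)
    (fun _ _ => zero_le_one) q (fun _ => δ) (fun _ => e) (fun _ => π) (fun k => k * f) hq
    (fun _ _ => hδ) (fun _ _ => he) (fun _ _ => hπ) X0 (Λ * nm f) t B 1
    (Real.log (nm δ * nm e)) hX0 hqX
    (fun _ _ => hδX) (fun _ _ => heX) (fun _ _ => hπX) hsX (by positivity) hB zero_le_one
    (Real.log_nonneg hde1) (by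
      rw [Real.exp_log (by positivity), show (2 : ℝ) = ((2 : ℕ) : ℝ) by norm_num,
        Real.rpow_natCast, pow_two]
      gcongr) (fun _ _ => by
      rw [hnde]
      exact ⟨le_rfl, by linarith⟩) (fun k hk => by
      obtain ⟨h1, h2⟩ := Finset.mem_filter.1 hk
      rw [mem_bl hΛ.le] at h1
      rw [Finset.mem_filter, mem_bl (by positivity)]
      refine ⟨⟨mul_ne_zero h1.1 hf, ?_⟩, h2⟩
      rw [nm_mul]; push_cast
      exact mul_le_mul_of_nonneg_right h1.2 hf0.le) (fun κ _ => by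
      rw [Finset.sum_const, nsmul_eq_mul, mul_one]
      have h1 : (((bl Λ).filter (fun k => Q (k * f))).filter (fun x => x * f = κ)).card ≤ 1 := by
        refine Finset.card_le_one.2 fun x hx y hy => ?_
        have hx' := (Finset.mem_filter.1 hx).2
        have hy' := (Finset.mem_filter.1 hy).2
        exact mul_right_cancel₀ hf (hx'.trans hy'.symm)
      exact_mod_cast h1) hyp
  simp only [one_mul] at key
  have hes : (0 : ℝ) < (nm e : ℝ) ^ s0 := by positivity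
  have e1 : ∀ k, ((nm e : ℝ) ^ s0 * ‖CS (gC (sqc q (al h (fun i => (j i).pc))) δ e π (tw s0 t))
      (k * f)‖) ^ 2 = ((nm e : ℝ) ^ s0) ^ 2 *
        ‖CS (gC (sqc q (al h (fun i => (j i).pc))) δ e π (tw s0 t)) (k * f)‖ ^ 2 :=
    fun k => mul_pow _ _ _
  simp only [e1] at key
  rw [← Finset.mul_sum] at key
  have hes2 : (0 : ℝ) < ((nm e : ℝ) ^ s0) ^ 2 := by positivity
  rw [← le_div_iff₀' hes2] at key
  refine key.trans (le_of_eq ?_)
  have hE := Real.exp_pos (∑ i, (j i).z)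
  have hexp : Real.exp ((1 - 2 * s0) * (∑ i, (j i).z - Real.log (nm δ * nm e))) =
      (Real.exp (∑ i, (j i).z) / (nm δ * nm e)) ^ (1 - 2 * s0) := by
    rw [Real.rpow_def_of_pos (by positivity), Real.log_div hE.ne' (by positivity), Real.log_exp]
    congr 1
    ring
  rw [hexp]
  set E : ℝ := Real.exp (∑ i, (j i).z) with hEd
  have e2 : (E / (nm δ * nm e)) ^ (1 - 2 * s0) / ((nm e : ℝ) ^ s0) ^ 2 =
      (E / nm δ) ^ (-(2 * s0)) * (E / (nm δ * nm e)) := by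
    have h1 : ((nm e : ℝ) ^ s0) ^ 2 = (nm e : ℝ) ^ (2 * s0) := by
      rw [← Real.rpow_natCast, ← Real.rpow_mul he0.le]; congr 1; push_cast; ring
    have h2 : (E / (nm δ * nm e)) ^ (1 - 2 * s0) =
        (E / (nm δ * nm e)) * (E / (nm δ * nm e)) ^ (-(2 * s0)) := by
      conv_lhs => rw [show 1 - 2 * s0 = 1 + -(2 * s0) by ring]
      rw [Real.rpow_add (by positivity), Real.rpow_one]
    have h3 : (E / (nm δ * nm e)) ^ (-(2 * s0)) =
        (E / nm δ) ^ (-(2 * s0)) * (nm e : ℝ) ^ (2 * s0) := by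
      rw [← div_div, Real.div_rpow (by positivity) he0.le, Real.rpow_neg he0.le (2 * s0),
        div_inv_eq_mul]
    rw [h1, h2, h3]
    have h4 : (nm e : ℝ) ^ (2 * s0) ≠ 0 := (by positivity : (0 : ℝ) < (nm e : ℝ) ^ (2 * s0)).ne'
    field_simp
  rw [← e2]
  ring

open Classical in
/-- **(RH) for all `P`** with the two-slope function, one natural family below `s`, the
frequencies with `Q (k f)` -/
theorem RH_natQ {h : ℝ → ℝ} {c : ℝ} (hpu : PU h c) {μ : ℝ} (hμ : 0 ≤ μ) (r : ℕ) {δ : ℝ}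
    (hδ : 0 < δ) (m : ℝ) :
    ∃ a : ℕ, 1 ≤ a ∧ ∀ ε : ℝ, 0 < ε →
    ∃ C : ℝ, 1 ≤ C ∧ ∀ (P : DPar), P.OK → ∀ (Q : Eis → Prop) (s : Fin r → Pq),
      (∀ i, 0 ≤ (s i).z) →
      ∀ j : Fin r → IP, Below P 0 j s → (∀ i, (j i).s = 0) →
      ∀ q d e f : Eis, q ≠ 0 → IsPrim d → IsPrim e → f ≠ 0 →
      ∀ X0 : ℝ, 1 ≤ X0 → (nm q : ℝ) ≤ X0 → (nm d : ℝ) ≤ X0 → (nm e : ℝ) ≤ X0 →
      (∀ i, Real.exp (s i).z ≤ X0) →
      ∀ (J : ℕ), 2 * (r * μ) ≤ J → ∀ (A : ℝ), (J : ℝ) + 2 ≤ A →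
      ∀ P1 B : ℝ, 0 < P1 → P1 ≤ X0 ^ m → 1 ≤ B →
      (∀ Λ : ℝ, 1 ≤ Λ → Λ ≤ P1 * X0 ^ δ →
        ∀ (s' : Fin r → Pq) (W : ℝ), 1 ≤ W → (∀ i, Rl C W (s' i) (s i)) →
        tl Dq (List.ofFn s') ≤ ∑ i, (j i).z - Real.log (nm d * nm e) + C →
        RQq Q P h (Real.log (Λ * nm f)) (List.ofFn s') ≤
          (Λ / (P1 * X0 ^ δ)) ^ (1 / 3 : ℝ) * B * Real.exp (tl Dq (List.ofFn s')) *
            W ^ (2 * μ)) →
      ∀ γ π : Eis, IsPrim γ → IsPrim π → (nm π : ℝ) ≤ X0 → ∀ Λ : ℝ, 0 < Λ →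
      (nm γ : ℝ) * n6 γ ^ 2 * ∑ k ∈ (bl Λ).filter (fun k => Q (k * f)), RMm A
          (fun m => sqc q (HP842.al h (fun i => (j i).pc)) (d * m)) e γ π (k * f) ≤
        W2 a P1 (C * X0 ^ ε * B *
          (Real.exp (∑ i, (j i).z) / nm d) ^ (2 / 3 : ℝ)) Λ := by
  obtain ⟨R, hR0, hR⟩ := exists_R (cs_cx hpu.cs)
  obtain ⟨C1, hC1, hsum⟩ := sum_sqc_al hpu r
  have hn0 : (0 : ℝ) ≤ r := Nat.cast_nonneg r
  obtain ⟨a0, ha0⟩ := exists_nat_ge ((5 * r + m + 1) / δ)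
  refine ⟨a0 + 1, by omega, fun ε hε => ?_⟩
  set ε' : ℝ := ε / (r + 1) with hε'
  have hε'0 : 0 < ε' := by positivity
  obtain ⟨C2, hC2, H⟩ := natGQ hpu hμ (1 / 6) r hε'0
  have hjc := jc_nonneg
  set ER : ℝ := Real.exp (r * R) with hERd
  have hER : 1 ≤ ER := Real.one_le_exp (by positivity)
  have hERe : 1 ≤ ER ^ ε' := Real.one_le_rpow hER hε'0.le
  set K1 : ℝ := C2 * ER ^ ε' * jc with hK1
  set K2 : ℝ := 16 * (C1 ^ 2 * ER ^ 6) * jc with hK2
  have hK10 : 0 ≤ K1 := by positivity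
  have hK20 : 0 ≤ K2 := by positivity
  set C : ℝ := C2 + K1 + K2 with hC
  have hCC : C2 ≤ C := by rw [hC]; linarith
  have hC1' : K1 ≤ C := by rw [hC]; linarith
  have hC2' : K2 ≤ C := by rw [hC]; linarith
  have hC10 : 1 ≤ C := hC2.trans hCC
  refine ⟨C, hC10, ?_⟩
  intro P hP Q s hs j hj hjs q d e f hq hd he hf X0 hX0 hqX hdX heX hsX J hJ A hA P1 B hP1
    hP1X hB hyp γ π hγ hπ hπX Λ hΛ
  have hX00 : 0 < X0 := by linarith
  have hd0 := nm_cast_pos hd.ne_zero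
  have hf0 := nm_cast_pos hf
  have hB0 : 0 ≤ B := by linarith
  set x : Eis → ℂ := sqc q (HP842.al h (fun i => (j i).pc)) with hx
  have hOK : ∀ i, ((j i).pc).OK := fun i => (j i).pc_OK
  have hFx : FS x := HP842.FS.sqc (HP842.FS_cv fun i => HP842.FS_pc hR (hOK i)) q
  set E : ℝ := Real.exp (∑ i, (j i).z) with hE
  have hE0 : 0 < E := Real.exp_pos _
  have hprod : ∏ i, (((fun i => (j i).pc) i).Y * Real.exp R) = E * ER := by
    have e1 : ∀ i : Fin r, (((fun i => (j i).pc) i).Y * Real.exp R) =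
        Real.exp ((j i).z) * Real.exp R := fun i => rfl
    rw [Finset.prod_congr rfl fun i _ => e1 i, Finset.prod_mul_distrib, ← Real.exp_sum,
      Finset.prod_const, Finset.card_univ, Fintype.card_fin, ← Real.exp_nat_mul]
  have hEX : E ≤ X0 ^ r := by
    rw [hE, Real.exp_sum]
    calc ∏ i, Real.exp (j i).z ≤ ∏ _i : Fin r, X0 := by
          refine Finset.prod_le_prod (fun i _ => (Real.exp_pos _).le) fun i _ => ?_
          refine le_trans (Real.exp_le_exp.2 ?_) (hsX i)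
          have := hj.z i
          linarith
      _ = X0 ^ r := by rw [Finset.prod_const, Finset.card_univ, Fintype.card_fin]
  set Y : ℝ := X0 ^ r * ER with hY
  have hX1n : 1 ≤ X0 ^ r := one_le_pow₀ hX0
  have hY1 : 1 ≤ Y := one_le_mul_of_one_le_of_one_le hX1n hER
  have hsupp : ∀ n, x n ≠ 0 → IsPrim n ∧ Squarefree n ∧ (nm n : ℝ) ≤ E * ER := by
    intro n hn
    obtain ⟨h1, h2⟩ := HBs445.sqc_ne hn
    obtain ⟨h3, h4⟩ := HBs445.al_ne hR hOK h2
    rw [hprod] at h4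
    exact ⟨h3, h1, h4⟩
  have hYS : ∀ n, x n ≠ 0 → n ∈ S Y := by
    intro n hn
    obtain ⟨h1, h2, h3⟩ := hsupp n hn
    rw [mem_S (by linarith)]
    exact ⟨h3.trans (by rw [hY]; gcongr), h1, h2⟩
  have hG : ∑ k ∈ S Y, ‖x k‖ ≤ C1 * Y ^ 2 := hsum _ hOK q Y hY1
  set X0' : ℝ := X0 ^ ((r : ℝ) + 1) * ER with hX0'
  have hXn : X0 ^ ((r : ℝ) + 1) = X0 ^ r * X0 := by
    rw [Real.rpow_add_one hX00.ne', Real.rpow_natCast]
  have hXX : X0 ≤ X0' := by
    rw [hX0', hXn]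
    calc X0 = 1 * X0 * 1 := by ring
      _ ≤ X0 ^ r * X0 * ER := by gcongr
  have hXe : X0' ^ ε' = X0 ^ ε * ER ^ ε' := by
    rw [hX0', Real.mul_rpow (by positivity) (by positivity), ← Real.rpow_mul hX00.le]
    congr 2
    rw [hε']; field_simp
  have hXδ : 1 ≤ X0 ^ δ := Real.one_le_rpow hX0 hδ.le
  set P2 : ℝ := P1 * X0 ^ δ with hP2
  have hP20 : 0 < P2 := by positivity
  set V : ℝ := C * X0 ^ ε * B * (E / nm d) ^ (2 / 3 : ℝ) with hV
  have hV0 : 0 ≤ V := by positivity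
  by_cases hE1 : 1 ≤ E * ER
  swap
  · -- the sequence vanishes
    push Not at hE1
    have hz : ∀ n, x n = 0 := by
      intro n
      by_contra h0
      obtain ⟨h1, -, h3⟩ := hsupp n h0
      have := one_le_nm h1.ne_zero
      linarith
    have h1 : ∑ k ∈ (bl Λ).filter (fun k => Q (k * f)),
        RMm A (fun m => x (d * m)) e γ π (k * f) = 0 :=
      Finset.sum_eq_zero fun k _ => RMm_zero fun m => hz _
    rw [h1, mul_zero]
    exact (slp_two (by omega) hP1 hV0).nonneg Λ hΛ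
  refine RM_all (A := A) (by have : (0 : ℝ) ≤ J := Nat.cast_nonneg J
                             linarith) hFx (f := f) hd (Y := Y) (Xπ := X0)
    (by linarith) hYS hG (P1 := P1) (P2 := P2) (V := V) (a := a0 + 1) (by omega) hP1
    (le_mul_of_one_le_right hP1.le hXδ) hV0 _ ?_ ?_ hγ hπ hπX hΛ
  · -- the levels up to `P2`
    clear γ π hγ hπ hπX Λ hΛ
    intro γ π hγ hπ hγY hπX Λ hΛ1 hΛ2
    have hΛ0 : 0 < Λ := by linarith
    have hγ0 := nm_cast_pos hγ.ne_zero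
    have hcBp : IsPrim (cB γ e) := cB_prim he
    have hcB1 := one_le_nm hcBp.ne_zero
    have hcB0 := nm_cast_pos hcBp.ne_zero
    have hcB := le_nm_cB hγ he
    have hdγ : IsPrim (d * γ) := hd.mul hγ
    have hnd : (nm (d * γ) : ℝ) = nm d * nm γ := by rw [nm_mul]; push_cast; rfl
    have hdγX : (nm (d * γ) : ℝ) ≤ X0' := by
      rw [hnd, hX0', hXn]
      calc (nm d : ℝ) * nm γ ≤ X0 * (X0 ^ r * ER) := by gcongr
        _ = _ := by ring
    set BL : ℝ := (Λ / P2) ^ (1 / 3 : ℝ) * B with hBL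
    have hBL0 : 0 ≤ BL := by positivity
    set U : ℝ := (E / (nm d * nm γ)) ^ (-(2 * (1 / 6 : ℝ))) *
      (E / (nm d * nm γ * nm (cB γ e))) with hU
    have hU0 : 0 ≤ U := by positivity
    set M : ℝ := C2 * X0' ^ ε' * BL * U with hM
    have hM0 : 0 ≤ M := by positivity
    have hmx : ∀ u : ℝ, ∑ k ∈ (bl Λ).filter (fun k => Q (k * f)),
        ‖CS (gC x (d * γ) (cB γ e) π (tw (1 / 6) u)) (k * f)‖ ^ 2 ≤ M * (1 + |u|) ^ J := by
      intro u
      have h1 := H P hP Q s hs j hj hjs q (d * γ) (cB γ e) π f hq hdγ hcBp hπ.ne_zero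
        hf X0' Λ u BL (hX0.trans hXX) (hqX.trans hXX) hdγX
        ((nm_cB_le' he).trans (heX.trans hXX)) (hπX.trans hXX) (fun i => (hsX i).trans hXX)
        hΛ0 hBL0 (fun s' W hW hR' hlt => by
          refine (hyp Λ hΛ1 hΛ2 s' W hW (fun i => (hR' i).mono hCC) ?_).trans
            (le_of_eq (by rw [hBL]))
          have h5 : Real.log (nm d * nm e) ≤ Real.log (nm (d * γ) * nm (cB γ e)) := by
            have he0 := nm_cast_pos he.ne_zero
            refine Real.log_le_log (by positivity) ?_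
            rw [hnd, mul_assoc]
            exact mul_le_mul_of_nonneg_left hcB hd0.le
          linarith)
      rw [hnd] at h1
      refine h1.trans ?_
      have ht1 : (1 : ℝ) ≤ 1 + |u| := by linarith [abs_nonneg u]
      have h2 : (1 + |u|) ^ (2 * ((r : ℝ) * μ)) ≤ (1 + |u|) ^ J := by
        rw [← Real.rpow_natCast]
        exact Real.rpow_le_rpow_of_exponent_le ht1 hJ
      rw [← hE]
      calc _ ≤ C2 * X0' ^ ε' * (1 + |u|) ^ J * BL *
            ((E / (nm d * nm γ)) ^ (-(2 * (1 / 6 : ℝ))) *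
              (E / (nm d * nm γ * nm (cB γ e)))) := by gcongr
        _ = _ := by rw [hM, hU]; ring
    have hRM := RM_sum hA hFx hd hγ he π
      ((bl Λ).filter (fun k => Q (k * f))) (fun k => k * f) hmx
    have hw := wt_le (E := E) hE0 hd0 hγ0 hcB1
      (show n6 γ = (nm γ : ℝ) ^ (-(1 / 6 : ℝ)) by unfold PX764.n6; congr 1; norm_num)
    have hn6 := n6_nonneg γ
    calc (nm γ : ℝ) * n6 γ ^ 2 * ∑ k ∈ (bl Λ).filter (fun k => Q (k * f)),
          RMm A (fun m => x (d * m)) e γ π (k * f)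
        ≤ (nm γ : ℝ) * n6 γ ^ 2 * (M * jc) :=
          mul_le_mul_of_nonneg_left hRM (by positivity)
      _ = C2 * jc * X0' ^ ε' * BL * ((nm γ : ℝ) * n6 γ ^ 2 * U) := by
          rw [hM]; ring
      _ ≤ C2 * jc * X0' ^ ε' * BL * (E / nm d) ^ (2 / 3 : ℝ) := by gcongr
      _ = (Λ / P2) ^ (1 / 3 : ℝ) * (K1 * X0 ^ ε * B * (E / nm d) ^ (2 / 3 : ℝ)) := by
          rw [hXe, hK1, hBL]; ring
      _ ≤ (Λ / P2) ^ (1 / 3 : ℝ) * V := by
          rw [hV]
          gcongr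
  · -- the trivial condition
    have e1 : P2 / P1 = X0 ^ δ := by rw [hP2]; field_simp
    rw [e1, Nat.add_sub_cancel]
    have h1 : X0 ^ (5 * (r : ℝ) + m + 1) ≤ (X0 ^ δ) ^ a0 := by
      rw [← Real.rpow_natCast, ← Real.rpow_mul hX00.le]
      refine Real.rpow_le_rpow_of_exponent_le hX0 ?_
      rw [div_le_iff₀ hδ] at ha0
      linarith
    have hERi : ER⁻¹ ≤ (ER⁻¹) ^ (2 / 3 : ℝ) := by
      conv_lhs => rw [← Real.rpow_one (ER⁻¹)]
      exact Real.rpow_le_rpow_of_exponent_ge (by positivity) (inv_le_one_of_one_le₀ hER)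
        (by norm_num)
    have h2 : ER⁻¹ * X0 ^ (-(1 : ℝ)) ≤ (E / nm d) ^ (2 / 3 : ℝ) := by
      calc ER⁻¹ * X0 ^ (-(1 : ℝ)) ≤ (ER⁻¹) ^ (2 / 3 : ℝ) * X0 ^ (-(2 / 3 : ℝ)) := by
            refine mul_le_mul hERi (Real.rpow_le_rpow_of_exponent_le hX0 (by norm_num))
              (by positivity) (by positivity)
        _ = (ER⁻¹ / X0) ^ (2 / 3 : ℝ) := by
            rw [Real.div_rpow (by positivity) hX00.le, Real.rpow_neg hX00.le]
            exact (div_eq_mul_inv _ _).symm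
        _ ≤ _ := by
            refine Real.rpow_le_rpow (by positivity) ?_ (by norm_num)
            have : ER⁻¹ ≤ E := by
              rw [inv_le_iff_one_le_mul₀ (by positivity)]; exact hE1
            gcongr
    have h3 : C * ER⁻¹ * X0 ^ (5 * (r : ℝ) + m) ≤ (X0 ^ δ) ^ a0 * V := by
      have h4 : C ≤ C * X0 ^ ε * B := by
        have g2 : 1 ≤ X0 ^ ε := Real.one_le_rpow hX0 hε.le
        calc C = C * 1 * 1 := by ring
          _ ≤ _ := by gcongr
      have e2 : X0 ^ (5 * (r : ℝ) + m) = X0 ^ (5 * (r : ℝ) + m + 1) * X0 ^ (-(1 : ℝ)) := by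
        rw [← Real.rpow_add hX00]; congr 1; ring
      calc C * ER⁻¹ * X0 ^ (5 * (r : ℝ) + m) =
            X0 ^ (5 * (r : ℝ) + m + 1) * (C * (ER⁻¹ * X0 ^ (-(1 : ℝ)))) := by rw [e2]; ring
        _ ≤ (X0 ^ δ) ^ a0 * (C * X0 ^ ε * B * (E / nm d) ^ (2 / 3 : ℝ)) := by gcongr
        _ = _ := by rw [hV]
    refine le_trans ?_ h3
    have e3 : X0 ^ (5 * (r : ℝ) + m) = (X0 ^ r) ^ 5 * X0 ^ m := by
      rw [Real.rpow_add hX00, ← pow_mul, ← Real.rpow_natCast]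
      congr 2
      push_cast; ring
    have h5 : 16 * (C1 ^ 2 * ER ^ 5) * jc ≤ C * ER⁻¹ := by
      calc 16 * (C1 ^ 2 * ER ^ 5) * jc = K2 * ER⁻¹ := by
            rw [hK2]; field_simp
        _ ≤ _ := by gcongr
    calc 16 * (Y * (C1 * Y ^ 2) ^ 2) * P1 * jc
        = (16 * (C1 ^ 2 * ER ^ 5) * jc) * (X0 ^ r) ^ 5 * P1 := by
          rw [hY]; ring
      _ ≤ (C * ER⁻¹) * (X0 ^ r) ^ 5 * X0 ^ m := by gcongr
      _ = _ := by rw [e3]; ring

end Crest.Agent.R017.RPQ65
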