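import Crest.Agent.R017.RPo_813
import Crest.Agent.R017.RPPc_401

/-!
# Row 17, exceptional class, mismatch (helper401): the principal class of a single list

* **`rp_PS`** : (RH) at the principal frequencies for the coefficient `afW` of the mismatch, one
  natural list (the single-list twin of helper960's `rp_P`)
-/

set_option autoImplicit false
set_option linter.unusedVariables false

noncomputable section

open Finset
open scoped ComplexConjugate

namespace Crest.Agent.R017.RPS401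

open Crest.Agent.R012 Crest.Agent.R012.Eis
open Crest.Agent.R012.Div277 (tau dvs mem_dvs tau_le_rpow)
open Crest.Agent.R012.LS2 (S mem_S bl mem_bl)
open Crest.Agent.R012.Weight600 (pw)
open Crest.Agent.R012.T411 (NCube)
open Crest.Agent.R017.FE47 (PU SM cx exists_R cs_cx)
open Crest.Agent.R017.CM106
open Crest.Agent.R017.XG702 (Pcs BG)
open Crest.Agent.R017.Prov71
open Crest.Agent.R017.B770
open Crest.Agent.R017.HP842 (Pc pc sqc al alL cv Tu mem_Tu card_Tu_le)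
open Crest.Agent.R017.Rough381 (sh shS sh_OK)
open Crest.Agent.R017.E5B71 (Pt)
open Crest.Agent.R017.R3571 (RMm RMm_nonneg RMm_eq rm RMm_zero W2 W2_mono)
open Crest.Agent.R017.PX764 (n6)
open Crest.Agent.R017.E3D579 (n6_nonneg)
open Crest.Agent.R017.TPOk571 (IP)
open Crest.Agent.R017.GrC828 Crest.Agent.R017.GrT828
open Crest.Agent.R017.DgA829 (lc lc_prim lc_dvd)
open Crest.Agent.R017.P1l54 (Pt_OK)
open Crest.Agent.R017.RPm813

/-- the weights, principal class, one list -/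
lemma wt_finS {E : ℝ} (hE : 0 < E) {g d γ c l : Eis} (hg : IsPrim g)
    (hd : IsPrim d) (hγ : IsPrim γ) (hc : IsPrim c) (hl : IsPrim l) (hlc : l ∣ γ * c) :
    (nm γ : ℝ) * n6 γ ^ 2 * (n6 c ^ 2 * (E / (nm g * nm (d * (γ * c)))) ^ (5 / 3 : ℝ)) ≤
    (E / (nm g * nm d)) ^ (5 / 3 : ℝ) * (nm l : ℝ)⁻¹ := by
  have pg : (0 : ℝ) < nm g := by exact_mod_cast nm_pos.2 hg.ne_zero
  have pd : (0 : ℝ) < nm d := by exact_mod_cast nm_pos.2 hd.ne_zero
  have pγ : (0 : ℝ) < nm γ := by exact_mod_cast nm_pos.2 hγ.ne_zero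
  have pc : (0 : ℝ) < nm c := by exact_mod_cast nm_pos.2 hc.ne_zero
  have pl : (0 : ℝ) < nm l := by exact_mod_cast nm_pos.2 hl.ne_zero
  have c1 : (1 : ℝ) ≤ nm c := by exact_mod_cast nm_pos.2 hc.ne_zero
  have e1 : (nm (d * (γ * c)) : ℝ) = nm d * (nm γ * nm c) := by
    rw [nm_mul, nm_mul]; push_cast; rfl
  have e2 : ∀ x : Eis, x ≠ 0 → n6 x ^ 2 = (nm x : ℝ) ^ (-(1 / 3) : ℝ) := by
    intro x hx
    have px : (0 : ℝ) < nm x := by exact_mod_cast nm_pos.2 hx
    unfold PX764.n6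
    rw [← Real.rpow_natCast, ← Real.rpow_mul px.le]
    congr 1
    norm_num
  have hlq : (nm l : ℝ) ≤ nm γ * nm c := by
    have h1 : ((nm l : ℕ) : ℝ) ≤ nm (γ * c) := by
      exact_mod_cast Div277.nm_le_of_dvd (hγ.mul hc).ne_zero hlc
    rw [nm_mul] at h1
    push_cast at h1
    exact h1
  have pq : (0 : ℝ) < nm γ * nm c := by positivity
  have e3 : (E / (nm g * (nm d * (nm γ * nm c)))) ^ (5 / 3 : ℝ) =
      (E / (nm g * nm d)) ^ (5 / 3 : ℝ) * ((nm γ : ℝ) * nm c) ^ (-(5 / 3) : ℝ) := by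
    have h1 : E / (nm g * (nm d * (nm γ * nm c))) =
        (E / (nm g * nm d)) * ((nm γ : ℝ) * nm c)⁻¹ := by
      field_simp
    rw [h1, Real.mul_rpow (by positivity) (by positivity), Real.inv_rpow pq.le,
      ← Real.rpow_neg pq.le]
  have k1 : (nm γ : ℝ) * (nm γ : ℝ) ^ (-(1 / 3) : ℝ) * (nm c : ℝ) ^ (-(1 / 3) : ℝ) ≤
      ((nm γ : ℝ) * nm c) ^ (2 / 3 : ℝ) := by
    rw [Real.mul_rpow pγ.le pc.le]
    have h1 : (nm γ : ℝ) * (nm γ : ℝ) ^ (-(1 / 3) : ℝ) = (nm γ : ℝ) ^ (2 / 3 : ℝ) := by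
      nth_rw 1 [← Real.rpow_one (nm γ : ℝ)]
      rw [← Real.rpow_add pγ]; norm_num
    rw [h1]
    refine mul_le_mul_of_nonneg_left ?_ (by positivity)
    exact Real.rpow_le_rpow_of_exponent_le c1 (by norm_num)
  have k2 : ((nm γ : ℝ) * nm c) ^ (2 / 3 : ℝ) * ((nm γ : ℝ) * nm c) ^ (-(5 / 3) : ℝ) =
      ((nm γ : ℝ) * nm c)⁻¹ := by
    rw [← Real.rpow_add pq, show (2 / 3 : ℝ) + -(5 / 3) = -1 by norm_num, Real.rpow_neg_one]
  rw [e1, e2 γ hγ.ne_zero, e2 c hc.ne_zero, e3]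
  set Q : ℝ := (E / (nm g * nm d)) ^ (5 / 3 : ℝ) with hQ
  have hQ0 : 0 ≤ Q := by positivity
  calc (nm γ : ℝ) * (nm γ : ℝ) ^ (-(1 / 3) : ℝ) * ((nm c : ℝ) ^ (-(1 / 3) : ℝ) *
        (Q * ((nm γ : ℝ) * nm c) ^ (-(5 / 3) : ℝ))) =
      ((nm γ : ℝ) * (nm γ : ℝ) ^ (-(1 / 3) : ℝ) * (nm c : ℝ) ^ (-(1 / 3) : ℝ)) *
        (Q * ((nm γ : ℝ) * nm c) ^ (-(5 / 3) : ℝ)) := by ring
    _ ≤ ((nm γ : ℝ) * nm c) ^ (2 / 3 : ℝ) *
        (Q * ((nm γ : ℝ) * nm c) ^ (-(5 / 3) : ℝ)) :=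
        mul_le_mul_of_nonneg_right k1 (by positivity)
    _ = Q * (((nm γ : ℝ) * nm c) ^ (2 / 3 : ℝ) * ((nm γ : ℝ) * nm c) ^ (-(5 / 3) : ℝ)) := by ring
    _ ≤ Q * (nm l : ℝ)⁻¹ := by
        rw [k2]
        exact mul_le_mul_of_nonneg_left (inv_anti₀ pl hlq) hQ0

section

variable {Λ : Type*} {π : Λ → DPar} {h : ℝ → ℝ}

set_option maxHeartbeats 6400000 in
open Classical in
/-- **(RP), principal class, one list**: (RH) at the principal frequencies for the coefficient of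
the mismatch -/
theorem rp_PS {c₀ : ℝ} (hpu : PU h c₀) (hP : ∀ lam, (π lam).OK) {Kc : ℝ} (hKc : 0 ≤ Kc) {ε : ℝ}
    (hε : 0 < ε) :
    ∃ σ : ℝ, 0 < σ ∧ σ ≤ ε ∧ ∀ (lam : Λ) (t : Eis), t ≠ 0 → ∀ (N : ℕ) (B : ℝ),
      ∃ (M a A₀ : ℕ) (X₀ : ℝ), 1 ≤ a ∧ 1 < X₀ ∧ ∀ X : ℝ, X₀ ≤ X →
      ∀ (us : Fin 3 → Pq) (qs : List Pq) (H : ℝ),
      (∀ i, Dq.lump (us i) ∧ 0 ≤ (us i).z ∧ (us i).z ≤ Kc * Real.log X ∧
        (nm (us i).d : ℝ) ≤ X ^ B) → qs.length ≤ N →
      (∀ p ∈ qs, p.kd = .am ∧ 0 ≤ p.z ∧ p.z ≤ σ * Real.log X ∧ (nm p.d : ℝ) ≤ X ^ B) →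
      (qs.map Pq.z).sum ≤ Kc * Real.log X → 1 ≤ H → (∀ i, 1 + |(us i).t| ≤ H) →
      (∀ p ∈ qs, 1 + |p.t| ≤ H) →
      ∀ (θ : ℝ) (W : Eis → Eis → Eis → ℂ), WOK θ W → ∀ Z : ℝ, 0 ≤ Z →
      (∀ n, sqc 1 (alL h (qs.map (Pt (π lam) t))) n ≠ 0 → (nm n : ℝ) ≤ Z) →
      ∀ g d e : Eis, IsPrim g → IsPrim d → IsPrim e →
      ∀ P1 : ℝ, 0 < P1 → P1 ≤ X ^ Kc →
      ∀ A : ℕ, A₀ ≤ A → ∀ γ φ : Eis, IsPrim γ → IsPrim φ → (nm φ : ℝ) ≤ X ^ B →
      ∀ P : ℝ, 0 < P →
        (nm γ : ℝ) * n6 γ ^ 2 * ∑ k ∈ (bl P).filter (fun k => ¬ NCube (k * t)), RMm A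
          (afW W Z (sqc 1 (alL h (qs.map (Pt (π lam) t))))
            (sqc 1 (alL h ((List.ofFn us).map (Pt (π lam) t)))) g e d) e γ φ k ≤
        W2 a P1 ((H * (1 + |θ|)) ^ M * X ^ ε * (P1 ^ (1 / 3 : ℝ) *
          ((Real.exp ((us 0).z + (us 1).z + (us 2).z + (qs.map Pq.z).sum) / (nm g * nm d)) ^
            (5 / 3 : ℝ) * (nm (lc (cc g d) e) : ℝ)⁻¹))) P := by
  classical
  obtain ⟨σ, hσ0, hσε, HJ⟩ := RPP401.rh_jS hpu hP hKc (show 0 < ε / 2 by positivity)
  refine ⟨σ, hσ0, by linarith, fun lam t ht N B => ?_⟩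
  obtain ⟨R, hR0, hR⟩ := exists_R (cs_cx hpu.cs)
  set B' : ℝ := |B| + 4 * Kc + 1 with hB'
  have hB'1 : 1 ≤ B' := by have := abs_nonneg B; linarith
  have hB'0 : 0 < B' := by linarith
  obtain ⟨M, a, A₀, X₁, ha, hX₁, HJ⟩ := HJ lam t ht N B'
  set K : ℕ := 2 * (N + 3) with hK
  have hK0 : (0 : ℝ) < K := by rw [hK]; push_cast; positivity
  set η : ℝ := ε / (8 * (K * B')) with hη
  have hη0 : 0 < η := by positivity
  obtain ⟨C₂, hC₂, hτ⟩ := tau_le_rpow hη0
  obtain ⟨X₂, hX₂, HX₂⟩ := XSup271.exists_X (C := C₂ ^ (2 * K)) (one_le_pow₀ hC₂) (ε := ε / 4)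
    (by positivity)
  have hNR : 0 ≤ ((N : ℝ) + 3) * R := by positivity
  set X₃ : ℝ := Real.exp (4 * (((N : ℝ) + 3) * R) / σ + ((N : ℝ) + 3) * R) with hX₃
  refine ⟨M, a, max A₀ 2, max X₁ (max X₂ X₃), ha, lt_of_lt_of_le hX₁ (le_max_left _ _), ?_⟩
  intro X hX us qs H hus hN hqs hsum hH hH1 hH2 θ W hW Z hZ hsup g d e hg hd he P1 hP1 hP1X
    A hA γ φ hγ hφ hφX P hPp
  have hXX₁ : X₁ ≤ X := (le_max_left _ _).trans hX
  have hXX₂ : X₂ ≤ X := ((le_max_left _ _).trans (le_max_right _ _)).trans hX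
  have hXX₃ : X₃ ≤ X := ((le_max_right _ _).trans (le_max_right _ _)).trans hX
  have hA₀ : A₀ ≤ A := (le_max_left _ _).trans hA
  have hA2 : (1 : ℝ) < A := by
    have : 2 ≤ A := (le_max_right _ _).trans hA
    exact_mod_cast this
  have hX1 : 1 < X := by linarith
  have hX0 : 0 < X := by linarith
  set L := Real.log X with hL
  have hL0 : 0 < L := Real.log_pos hX1
  have hbg : 4 * (((N : ℝ) + 3) * R) / σ + ((N : ℝ) + 3) * R ≤ L := by
    rw [← Real.log_exp (4 * (((N : ℝ) + 3) * R) / σ + ((N : ℝ) + 3) * R)]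
    exact Real.log_le_log (Real.exp_pos _) hXX₃
  have hq0 : 0 ≤ 4 * (((N : ℝ) + 3) * R) / σ := by positivity
  have hRL : ((N : ℝ) + 3) * R ≤ L := by linarith
  -- the families
  set s1 : Fin qs.length → Pc := fun i => Pt (π lam) t (qs.get i) with hs1
  set s2 : Fin 3 → Pc := fun j => Pt (π lam) t (us j) with hs2
  have e_s1 : alL h (qs.map (Pt (π lam) t)) = al h s1 := alL_map h _ qs
  have e_s2 : alL h ((List.ofFn us).map (Pt (π lam) t)) = al h s2 := by
    rw [List.map_ofFn, ← HP842.al_eq]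
    rfl
  rw [e_s1] at hsup ⊢
  rw [e_s2]
  have h1 : ∀ i, (s1 i).OK := fun i => Pt_OK (hP lam) t _
  have h2 : ∀ j, (s2 j).OK := fun j => Pt_OK (hP lam) t _
  set zz : Fin qs.length ⊕ Fin 3 → ℝ := Sum.elim (fun i => (qs.get i).z) (fun j => (us j).z)
    with hzz
  set n : ℝ := (us 0).z + (us 1).z + (us 2).z + (qs.map Pq.z).sum with hn
  have hqsum : (qs.map Pq.z).sum = ∑ i : Fin qs.length, (qs.get i).z := map_sum_get _ _
  have hzn : ∑ i, zz i = n := by
    rw [Fintype.sum_sum_type, Fin.sum_univ_three, hn, hqsum, hzz]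
    simp only [Sum.elim_inl, Sum.elim_inr]
    ring
  have hqn0 : 0 ≤ (qs.map Pq.z).sum := by
    rw [hqsum]
    exact sum_nonneg fun i _ => (hqs _ (List.get_mem qs i)).2.1
  have hn4 : n ≤ 4 * Kc * L := by
    have a0 := (hus 0).2.2.1
    have a1 := (hus 1).2.2.1
    have a2 := (hus 2).2.2.1
    linarith
  set F := fam θ s1 s2 with hF
  have hFOK : ∀ i, (F i).OK := fam_OK h1 h2
  have hFY : ∀ i, Real.log (F i).Y = zz i := by
    rintro (i | j)
    · exact Real.log_exp _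
    · exact Real.log_exp _
  have hcard : (Fintype.card (Fin qs.length ⊕ Fin 3) : ℝ) ≤ N + 3 := by
    rw [Fintype.card_sum, Fintype.card_fin, Fintype.card_fin]
    push_cast
    have : (qs.length : ℝ) ≤ N := by exact_mod_cast hN
    linarith
  set c := cE g d e γ with hc
  have hcp : IsPrim c := cE_prim hg he γ
  set N' := d * (γ * c) with hN'
  have hN'p : IsPrim N' := hd.mul (hγ.mul hcp)
  have hgN : g * N' ≠ 0 := mul_ne_zero hg.ne_zero hN'p.ne_zero
  have ng : (0 : ℝ) < nm g := by exact_mod_cast nm_pos.2 hg.ne_zero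
  have nd : (0 : ℝ) < nm d := by exact_mod_cast nm_pos.2 hd.ne_zero
  have nN : (0 : ℝ) < nm N' := by exact_mod_cast nm_pos.2 hN'p.ne_zero
  set H' : ℝ := H * (1 + |θ|) with hH'
  have hθ1 : 1 ≤ 1 + |θ| := by linarith [abs_nonneg θ]
  have hH'1 : 1 ≤ H' := one_le_mul_of_one_le_of_one_le hH hθ1
  have hH'0 : 0 ≤ H' := by linarith
  have hHH : H ≤ H' := le_mul_of_one_le_right (by linarith) hθ1
  -- short pieces
  have hshort : ∀ v : Fin qs.length ⊕ Fin 3 → Eis, VOK g N' v →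
      (¬ ∀ i, -R ≤ zz i - Real.log (nm (v i))) → ∀ m, al h (shS F v) m = 0 := by
    intro v hv hno m
    push Not at hno
    obtain ⟨i, hi⟩ := hno
    refine al_short hR (fun i => sh_OK (hFOK i) (hv.prim i)) (i := i) ?_ m
    have nv : (0 : ℝ) < nm (v i) := by exact_mod_cast nm_pos.2 (hv.prim i).ne_zero
    show Real.log ((F i).Y / nm (v i)) < -R
    rw [Real.log_div (hFOK i).Y0.ne' nv.ne', hFY]
    exact hi
  have hvan : ∀ v : Fin qs.length ⊕ Fin 3 → Eis, VOK g N' v →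
      (¬ ∀ i, -R ≤ zz i - Real.log (nm (v i))) →
      ∑ r ∈ (bl P).filter (fun k => ¬ NCube (k * t)), RMm A (sqc N' (al h (shS F v))) 1 1 φ r = 0 := by
    intro v hv hno
    refine sum_eq_zero fun r _ => RMm_zero fun m => ?_
    unfold HP842.sqc
    rw [hshort v hv hno, mul_zero]
  have hlogv : ∀ v : Fin qs.length ⊕ Fin 3 → Eis, VOK g N' v →
      ∑ i, Real.log (nm (v i)) = Real.log (nm g) + Real.log (nm N') := by
    intro v hv
    rw [← log_nm_prod hv.prim, hv.tot, log_nm_mul hg.ne_zero hN'p.ne_zero]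
  set RR : ℝ := (Real.exp n / (nm g * nm d)) ^ (5 / 3 : ℝ) * (nm (lc (cc g d) e) : ℝ)⁻¹ with hRR
  have hRR0 : 0 ≤ RR := by rw [hRR]; positivity
  have hW1 : 0 ≤ H' ^ M * X ^ ε * (P1 ^ (1 / 3 : ℝ) * RR) := by positivity
  have hγ0 : 0 ≤ (nm γ : ℝ) * n6 γ ^ 2 := by positivity
  by_cases hbig : Real.log (nm g) + Real.log (nm N') ≤ n + ((N : ℝ) + 3) * R
  swap
  · -- the sequence vanishes
    push Not at hbig
    have hno : ∀ v : Fin qs.length ⊕ Fin 3 → Eis, VOK g N' v →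
        ¬ ∀ i, -R ≤ zz i - Real.log (nm (v i)) := by
      intro v hv hall
      have h3 : ∑ _i : Fin qs.length ⊕ Fin 3, (-R) ≤ ∑ i, (zz i - Real.log (nm (v i))) :=
        sum_le_sum fun i _ => hall i
      rw [sum_sub_distrib, hzn, hlogv v hv, sum_const, card_univ, nsmul_eq_mul] at h3
      have h4 := mul_le_mul_of_nonneg_right hcard hR0
      linarith
    have h3 := RM_red hR h1 h2 hW hZ hsup hg hd he hγ hA2 φ
      ((bl P).filter (fun k => ¬ NCube (k * t))) (Bd := 0) le_rfl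
      (fun v hv _ => (hvan v hv (hno v hv)).le)
    rw [mul_zero] at h3
    refine (mul_le_mul_of_nonneg_left h3 hγ0).trans ?_
    rw [mul_zero]
    exact W2_nonneg a hP1 hPp hW1
  -- sizes
  have hNX : (nm N' : ℝ) ≤ X ^ B' := by
    rw [Real.rpow_def_of_pos hX0, ← hL, ← Real.log_le_iff_le_exp nN]
    have h3 := log_nm_nn hg.ne_zero
    have h4 : L * B' = |B| * L + 4 * Kc * L + L := by rw [hB']; ring
    have h5 : 0 ≤ |B| * L := by positivity
    linarith
  have hgX : (nm g : ℝ) ≤ X ^ B' := by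
    rw [Real.rpow_def_of_pos hX0, ← hL, ← Real.log_le_iff_le_exp ng]
    have h3 := log_nm_nn hN'p.ne_zero
    have h4 : L * B' = |B| * L + 4 * Kc * L + L := by rw [hB']; ring
    have h5 : 0 ≤ |B| * L := by positivity
    linarith
  have hφX' : (nm φ : ℝ) ≤ X ^ B' := by
    refine hφX.trans (Real.rpow_le_rpow_of_exponent_le hX1.le ?_)
    have := le_abs_self B
    linarith
  have hBX : X ^ B ≤ X ^ B' := Real.rpow_le_rpow_of_exponent_le hX1.le (by
    have := le_abs_self B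
    linarith)
  -- divisibility
  have hdv := (cE_dvd (g := g) (d := d) (e := e) (γ := γ) (m := c) hg he).1 dvd_rfl
  have hgD : g ∣ N' := by
    obtain ⟨k, hk⟩ := hdv.1
    refine ⟨d / StA828.gp d g * k, ?_⟩
    rw [hN', hk, ← mul_assoc, cc_mul hg]
    ring
  have hlcp : IsPrim (lc (cc g d) e) := lc_prim (cc_prim hg) he
  have hldv : lc (cc g d) e ∣ γ * c := lc_dvd_cE (d := d) hg he γ
  set W1 : ℝ := H' ^ M * X ^ (ε / 2) * (P1 ^ (1 / 3 : ℝ) *
    (Real.exp n / (nm g * nm N')) ^ (5 / 3 : ℝ)) with hW1d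
  have hW10 : 0 ≤ W1 := by positivity
  have hBd0 : 0 ≤ W2 a P1 W1 P := W2_nonneg a hP1 hPp hW10
  have hmain : ∀ v : Fin qs.length ⊕ Fin 3 → Eis, VOK g N' v → Squarefree N' →
      ∑ r ∈ (bl P).filter (fun k => ¬ NCube (k * t)),
        RMm A (sqc N' (al h (shS F v))) 1 1 φ r ≤ W2 a P1 W1 P := by
    intro v hv _
    by_cases hall : ∀ i, -R ≤ zz i - Real.log (nm (v i))
    swap
    · rw [hvan v hv hall]
      exact hBd0
    have lv : ∀ i, 0 ≤ Real.log (nm (v i)) := fun i => log_nm_nn (hv.prim i).ne_zero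
    have zj : ∀ j : Fin 3, (chm (us j) (v (.inr j)) 0).z ≤ (us j).z ∧
        (chm (us j) (v (.inr j)) 0).z ≤ (us j).z - Real.log (nm (v (.inr j))) + R ∧
        0 ≤ (chm (us j) (v (.inr j)) 0).z := by
      intro j
      have a1 := (hus j).2.1
      have a2 := lv (.inr j)
      have a3 : -R ≤ (us j).z - Real.log (nm (v (.inr j))) := hall (.inr j)
      exact ⟨max_le a1 (by linarith), max_le (by linarith) (by linarith), le_max_left _ _⟩
    have zq : ∀ i : Fin qs.length, (chm (qs.get i) (v (.inl i)) θ).z ≤ (qs.get i).z ∧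
        (chm (qs.get i) (v (.inl i)) θ).z ≤ (qs.get i).z - Real.log (nm (v (.inl i))) + R ∧
        0 ≤ (chm (qs.get i) (v (.inl i)) θ).z := by
      intro i
      have a1 := (hqs _ (List.get_mem qs i)).2.1
      have a2 := lv (.inl i)
      have a3 : -R ≤ (qs.get i).z - Real.log (nm (v (.inl i))) := hall (.inl i)
      exact ⟨max_le a1 (by linarith), max_le (by linarith) (by linarith), le_max_left _ _⟩
    set ps : List Pq := List.ofFn fun i : Fin qs.length => chm (qs.get i) (v (.inl i)) θ with hps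
    set jq : List IP := List.ofFn fun i : Fin qs.length => jm (hP lam) (qs.get i) (v (.inl i)) θ
      with hjq
    set js : List IP := jm (hP lam) (us 0) (v (.inr 0)) 0 :: jm (hP lam) (us 1) (v (.inr 1)) 0 ::
      jm (hP lam) (us 2) (v (.inr 2)) 0 :: jq with hjs
    have hps_mem : ∀ p ∈ ps, ∃ i : Fin qs.length, p = chm (qs.get i) (v (.inl i)) θ := by
      intro p hp
      rw [hps, List.mem_ofFn'] at hp
      obtain ⟨i, hi⟩ := hp
      exact ⟨i, hi.symm⟩
    have hpsum : (ps.map Pq.z).sum = ∑ i : Fin qs.length, (chm (qs.get i) (v (.inl i)) θ).z := by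
      rw [hps, List.map_ofFn, List.sum_ofFn]
      rfl
    have hpsum1 : (ps.map Pq.z).sum ≤ (qs.map Pq.z).sum := by
      rw [hpsum, hqsum]
      exact sum_le_sum fun i _ => (zq i).1
    have hlq : Real.log (nm g) ≤ ∑ i : Fin qs.length, Real.log (nm (v (.inl i))) := by
      rw [← log_nm_prod fun i => hv.prim (.inl i)]
      exact log_nm_mono hg.ne_zero (HP842.isPrim_prod fun i => hv.prim (.inl i)).ne_zero hv.left
    have hjsum : (js.map IP.z).sum = n - (Real.log (nm g) + Real.log (nm N')) := by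
      have h4 : (jq.map IP.z).sum =
          ∑ i : Fin qs.length, ((qs.get i).z - Real.log (nm (v (.inl i)))) := by
        rw [hjq, List.map_ofFn, List.sum_ofFn]
        rfl
      have h5 := hlogv v hv
      rw [Fintype.sum_sum_type, Fin.sum_univ_three] at h5
      rw [sum_sub_distrib, ← hqsum] at h4
      rw [hjs]
      simp only [List.map_cons, List.sum_cons]
      rw [h4, hn]
      show (us 0).z - Real.log (nm (v (.inr 0))) + ((us 1).z - Real.log (nm (v (.inr 1))) +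
        ((us 2).z - Real.log (nm (v (.inr 2))) + _)) = _
      linarith
    have hF2 : List.Forall₂ (Blw (π lam)) js (chm (us 0) (v (.inr 0)) 0 ::
        chm (us 1) (v (.inr 1)) 0 :: chm (us 2) (v (.inr 2)) 0 :: ps) := by
      refine List.Forall₂.cons (blw_jm _ _ _ _) (List.Forall₂.cons (blw_jm _ _ _ _)
        (List.Forall₂.cons (blw_jm _ _ _ _) ?_))
      rw [List.forall₂_iff_get]
      refine ⟨by rw [hjq, hps, List.length_ofFn, List.length_ofFn], fun i a1 a2 => ?_⟩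
      simp only [hjq, hps, List.get_eq_getElem, List.getElem_ofFn]
      exact blw_jm _ _ _ _
    have hlist : al h (shS F v) = alL h (js.map fun j => SU770.tw1 j.pc t) := by
      rw [P1k54.al_sum]
      congr 1
      rw [hjs]
      simp only [List.map_cons]
      rw [hjq, List.map_ofFn]
      have e3 : (List.ofFn fun j : Fin 3 => shS F v (.inr j)) = [shS F v (.inr 0),
          shS F v (.inr 1), shS F v (.inr 2)] := by
        simp [List.ofFn_succ]
      rw [e3]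
      have e4 : ∀ j : Fin 3, shS F v (.inr j) =
          SU770.tw1 (jm (hP lam) (us j) (v (.inr j)) 0).pc t := by
        intro j
        rw [jm_pc (hP lam) (us j) (hv.prim (.inr j)).ne_zero, ht_zero]
        rfl
      have e5 : (List.ofFn fun i : Fin qs.length => shS F v (.inl i)) =
          List.ofFn ((fun j => SU770.tw1 j.pc t) ∘
            fun i : Fin qs.length => jm (hP lam) (qs.get i) (v (.inl i)) θ) := by
        congr 1
        funext i
        show _ = SU770.tw1 (jm (hP lam) (qs.get i) (v (.inl i)) θ).pc t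
        rw [jm_pc (hP lam) (qs.get i) (hv.prim (.inl i)).ne_zero]
        rfl
      rw [e4, e4, e4, e5]
      rfl
    have key := HJ X hXX₁ (chm (us 0) (v (.inr 0)) 0) (chm (us 1) (v (.inr 1)) 0)
      (chm (us 2) (v (.inr 2)) 0) ps N' H' (by
        intro p hp
        simp only [List.mem_cons, List.not_mem_nil, or_false] at hp
        have aux : ∀ j : Fin 3, Dq.lump (chm (us j) (v (.inr j)) 0) ∧
            0 ≤ (chm (us j) (v (.inr j)) 0).z ∧ (chm (us j) (v (.inr j)) 0).z ≤ Kc * L ∧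
            (nm (chm (us j) (v (.inr j)) 0).d : ℝ) ≤ X ^ B' := fun j =>
          ⟨chm_lump (hus j).1 _ _, (zj j).2.2, (zj j).1.trans (hus j).2.2.1,
            (hus j).2.2.2.trans hBX⟩
        rcases hp with rfl | rfl | rfl
        · exact aux 0
        · exact aux 1
        · exact aux 2) (by rw [hps, List.length_ofFn]; exact hN) (by
        intro p hp
        obtain ⟨i, rfl⟩ := hps_mem p hp
        obtain ⟨b1, b2, b3, b4⟩ := hqs _ (List.get_mem qs i)
        exact ⟨b1, (zq i).2.2, (zq i).1.trans b3, b4.trans hBX⟩) (hpsum1.trans hsum)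
      hN'p.ne_zero hNX hH'1 (by
        intro p hp
        simp only [List.mem_cons] at hp
        have aux : ∀ j : Fin 3, 1 + |(chm (us j) (v (.inr j)) 0).t| ≤ H' := by
          intro j
          show 1 + |(us j).t + 0| ≤ H'
          rw [add_zero]
          exact (hH1 j).trans hHH
        rcases hp with rfl | rfl | rfl | hp
        · exact aux 0
        · exact aux 1
        · exact aux 2
        · obtain ⟨i, rfl⟩ := hps_mem p hp
          have b1 := hH2 _ (List.get_mem qs i)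
          show 1 + |(qs.get i).t + θ| ≤ H'
          have b2 := abs_add_le (qs.get i).t θ
          have b3 := abs_nonneg θ
          have b4 := abs_nonneg (qs.get i).t
          calc 1 + |(qs.get i).t + θ| ≤ (1 + |(qs.get i).t|) * (1 + |θ|) := by nlinarith
            _ ≤ H * (1 + |θ|) := mul_le_mul_of_nonneg_right b1 (by linarith)) js hF2 P1 hP1 hP1X A hA₀ φ hφ hφX' P hPp
    rw [hlist]
    refine key.trans (le_of_eq ?_)
    rw [hjsum, hW1d]
    congr 4
    rw [Real.exp_sub, Real.exp_add (Real.log (nm g)) (Real.log (nm N')), Real.exp_log ng,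
      Real.exp_log nN]
  have h3 := RM_red hR h1 h2 hW hZ hsup hg hd he hγ hA2 φ
    ((bl P).filter (fun k => ¬ NCube (k * t))) hBd0 hmain
  rw [← hc, ← hN'] at h3
  -- the number of terms
  set T : ℝ := C₂ * (X ^ B') ^ η with hT
  have hXB1 : 1 ≤ X ^ B' := Real.one_le_rpow hX1.le hB'0.le
  have hT1 : 1 ≤ T := one_le_mul_of_one_le_of_one_le hC₂ (Real.one_le_rpow hXB1 hη0.le)
  have htau : ∀ x : Eis, x ≠ 0 → (nm x : ℝ) ≤ X ^ B' → (tau x : ℝ) ≤ T := by
    intro x hx hxX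
    refine (hτ x hx).trans (mul_le_mul_of_nonneg_left ?_ (by linarith))
    exact Real.rpow_le_rpow (Nat.cast_nonneg _) hxX hη0.le
  have hNg : g * (N' / g) = N' := EuclideanDomain.mul_div_cancel' hg.ne_zero hgD
  have hNg0 : N' / g ≠ 0 := fun h0 => hN'p.ne_zero (by rw [← hNg, h0, mul_zero])
  have hNgX : (nm (N' / g) : ℝ) ≤ X ^ B' := by
    refine le_trans ?_ hNX
    exact_mod_cast Div277.nm_le_of_dvd hN'p.ne_zero ⟨g, by rw [mul_comm]; exact hNg.symm⟩
  have hcT : ((TQ (Fin qs.length) (Fin 3) g N').card : ℝ) ≤ T ^ K :=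
    card_TQ_le hT1 (htau g hg.ne_zero hgX) (htau _ hNg0 hNgX) (n := N + 3) (by
      rw [Fintype.card_fin, Fintype.card_fin]; omega)
  have hcT2 : ((TQ (Fin qs.length) (Fin 3) g N').card : ℝ) ^ 2 ≤ X ^ (ε / 2) := by
    have h4 := pow_le_pow_left₀ (Nat.cast_nonneg _) hcT 2
    refine h4.trans ?_
    have h5 : (T ^ K) ^ 2 = C₂ ^ (2 * K) * X ^ (ε / 4) := by
      rw [hT, ← pow_mul, mul_pow, mul_comm K 2]
      congr 1
      rw [← Real.rpow_natCast, ← Real.rpow_mul hX0.le, ← Real.rpow_mul hX0.le]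
      congr 1
      rw [hη]
      push_cast
      field_simp
      ring
    rw [h5]
    calc C₂ ^ (2 * K) * X ^ (ε / 4) ≤ X ^ (ε / 4) * X ^ (ε / 4) :=
          mul_le_mul_of_nonneg_right (HX₂ X hXX₂) (by positivity)
      _ = X ^ (ε / 2) := by rw [← Real.rpow_add hX0]; congr 1; ring
  refine (mul_le_mul_of_nonneg_left h3 hγ0).trans ?_
  rw [← mul_assoc, W2_smul]
  refine W2_mono a hP1 hPp ?_
  have hwt := wt_finS (Real.exp_pos n) hg hd hγ hcp hlcp hldv
  rw [← hN', ← hRR] at hwt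
  have hnn : 0 ≤ (nm γ : ℝ) * n6 γ ^ 2 * (n6 c ^ 2 *
      (Real.exp n / (nm g * nm N')) ^ (5 / 3 : ℝ)) :=
    mul_nonneg hγ0 (by positivity)
  calc (nm γ : ℝ) * n6 γ ^ 2 * (n6 c ^ 2 * ((TQ (Fin qs.length) (Fin 3) g N').card : ℝ) ^ 2) * W1
      = ((TQ (Fin qs.length) (Fin 3) g N').card : ℝ) ^ 2 *
        (H' ^ M * X ^ (ε / 2) * P1 ^ (1 / 3 : ℝ)) *
        ((nm γ : ℝ) * n6 γ ^ 2 * (n6 c ^ 2 *
          (Real.exp n / (nm g * nm N')) ^ (5 / 3 : ℝ))) := by rw [hW1d]; ring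
    _ ≤ X ^ (ε / 2) * (H' ^ M * X ^ (ε / 2) * P1 ^ (1 / 3 : ℝ)) * RR := by
        refine mul_le_mul (mul_le_mul_of_nonneg_right hcT2 (by positivity)) hwt hnn
          (by positivity)
    _ = _ := by
        have h6 : X ^ ε = X ^ (ε / 2) * X ^ (ε / 2) := by
          rw [← Real.rpow_add hX0]; congr 1; ring
        rw [h6]; ring

end

end Crest.Agent.R017.RPS401
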