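import Crest.Agent.R017.RPm_813
import Crest.Agent.R017.P1X1_960

/-!
# Row 17, exceptional class, mismatch: the character moments of the coefficient (helper960)

* `afW_cmb` : the coefficient is linear in the lumps
* `RM_gen` : `RMm` of a sequence from a decomposition of the multiples of `γ c`
* **`RM_redX`** : helper813's `RM_red` for a combination of two lists with the same types, characters
  and heights
-/

set_option autoImplicit false
set_option linter.unusedVariables false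

noncomputable section

open Finset MeasureTheory
open scoped ComplexConjugate

namespace Crest.Agent.R017.RPX960

open Crest.Agent.R012 Crest.Agent.R012.Eis
open Crest.Agent.R012.Div277 (tau dvs mem_dvs exists_prim_factor tau_le_rpow)
open Crest.Agent.R012.LS2 (S mem_S bl mem_bl)
open Crest.Agent.R012.Weight600 (osc norm_osc pw norm_pw)
open Crest.Agent.R017.CM106 (CS TG FS)
open Crest.Agent.R017.HP842 (Pc pc al cv Tu mem_Tu sc' scS sqc Th card_Tu_le)
open Crest.Agent.R017.Rough381 (sh shS sh_OK VF nm_prodI)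
open Crest.Agent.R017.Leg381 (Th_ne_zero shS_mul FS_alW sum_Tu_mul)
open Crest.Agent.R017.FE47 (PU cx)
open Crest.Agent.R017.StA828 Crest.Agent.R017.StC828 Crest.Agent.R017.StF828
open Crest.Agent.R017.StB828 (one_le_nmR)
open Crest.Agent.R017.GrC828 Crest.Agent.R017.GrT828
open Crest.Agent.R017.PX764 (n6 Gh sqf_mul)
open Crest.Agent.R017.E1551 (Adm Wf jb jb_pos)
open Crest.Agent.R017.DgA829 (lc lc_prim lc_dvd)
open Crest.Agent.R017.R3571 (RMm RMm_nonneg RMm_eq rm RMm_zero integrable_RM dvd_mul_iff_cB)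
open Crest.Agent.R017.NtC320 (cg cB cg_prim cB_prim gp_cg gp_cB)
open Crest.Agent.R017.RPm813
open Crest.Agent.R017.P1X960 (cmb FS_cmb)

lemma cmb_apply (z w : ℂ) (a b : Eis → ℂ) (n : Eis) : cmb z w a b n = z * a n + w * b n := rfl

lemma rs_cmb (g : Eis) (z w : ℂ) (a b : Eis → ℂ) : rs g (cmb z w a b) =
    cmb z w (rs g a) (rs g b) := by
  funext n
  simp only [cmb_apply]
  unfold StC828.rs
  split_ifs
  · rfl
  · simp

lemma xa_cmb (c : Eis) (z w : ℂ) (a b : Eis → ℂ) (n : Eis) : xa c (cmb z w a b) n =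
    z * xa c a n + w * xa c b n := by
  unfold StA828.xa
  split_ifs
  · rfl
  · simp

/-- the coefficient is linear in the lumps -/
lemma afW_cmb (W : Eis → Eis → Eis → ℂ) (Z : ℝ) (η : Eis → ℂ) (z w : ℂ) (a b : Eis → ℂ)
    (g e d m : Eis) : afW W Z η (cmb z w a b) g e d m =
      z * afW W Z η a g e d m + w * afW W Z η b g e d m := by
  unfold afW
  rw [rs_cmb, mul_sum, mul_sum, ← sum_add_distrib]
  refine sum_congr rfl fun x _ => ?_
  rw [xa_cmb]
  ring

lemma FS_cmb_prim {z w : ℂ} {a b : Eis → ℂ} (ha : ∀ n, a n ≠ 0 → IsPrim n)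
    (hb : ∀ n, b n ≠ 0 → IsPrim n) {n : Eis} (hn : cmb z w a b n ≠ 0) : IsPrim n := by
  by_cases h1 : a n = 0
  · by_cases h2 : b n = 0
    · exfalso
      apply hn
      rw [cmb_apply, h1, h2]
      simp
    · exact hb n h2
  · exact ha n h1

/-- the factor -/
def k0 (c φ r : Eis) (t : ℝ) : ℂ :=
  open Classical in if IsCoprime c φ then (n6 c : ℂ) * pw t (nm c) * sy r c else 0

lemma norm_k0 {c φ r : Eis} (hc : IsPrim c) (t : ℝ) : ‖k0 c φ r t‖ ≤ n6 c := by
  unfold k0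
  split_ifs
  · rw [norm_mul, norm_mul, norm_pw, mul_one, Complex.norm_real,
      Real.norm_of_nonneg (E3D579.n6_nonneg c)]
    exact mul_le_of_le_one_right (E3D579.n6_nonneg c) (Char766.norm_sy_le hc)
  · rw [norm_zero]
    exact E3D579.n6_nonneg c

/-- the character sum of the sequence of `RMm`, from a decomposition -/
theorem CS_gen {τ : Type*} {T : Finset τ} {kp : τ → ℂ} {βp : τ → Eis → ℂ} {F₀ : Eis → ℂ}
    {c e γ : Eis} (hc : IsPrim c) (heD : e ∣ γ * c)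
    (hdec : ∀ m, F₀ (γ * c * m) = ∑ p ∈ T, kp p * βp p m)
    (hmul : ∀ m, F₀ (γ * m) ≠ 0 → e ∣ γ * m → c ∣ m) (hF : ∀ p ∈ T, FS (βp p))
    (hprim : ∀ p ∈ T, ∀ m, βp p m ≠ 0 → IsPrim m) (φ r : Eis) (t : ℝ) :
    CS (rm F₀ e γ φ t) r = k0 c φ r t * ∑ p ∈ T, kp p * CS (rm (βp p) 1 1 φ t) r := by
  classical
  set F : Eis → ℂ := fun m => rm F₀ e γ φ t m * sy r m with hFd
  have hsub : ∑' m, F m = ∑' m, F (c * m) := by
    rw [CM106.tsum_mult hc.ne_zero F]
    refine tsum_congr fun m => ?_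
    split_ifs with hm
    · rfl
    · rw [hFd]
      beta_reduce
      unfold R3571.rm
      by_cases h3 : e ∣ γ * m ∧ IsCoprime m φ
      · have h4 : F₀ (γ * m) = 0 := by
          by_contra h5
          exact hm (hmul m h5 h3.1)
        rw [h4]; simp
      · rw [if_neg h3]; simp
  have hterm : ∀ m, F (c * m) = k0 c φ r t * ∑ p ∈ T, kp p *
      (rm (βp p) 1 1 φ t m * sy r m) := by
    intro m
    rw [hFd]
    beta_reduce
    unfold R3571.rm
    rw [show γ * (c * m) = γ * c * m by ring, hdec m]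
    have hcE : e ∣ γ * c * m := heD.mul_right m
    rw [mul_sum]
    have hl : (if e ∣ γ * c * m ∧ IsCoprime (c * m) φ then
        (∑ p ∈ T, kp p * βp p m) * (n6 (c * m) : ℂ) else 0) * pw t (nm (c * m)) * sy r (c * m) =
        ∑ p ∈ T, kp p *
          ((if e ∣ γ * c * m ∧ IsCoprime (c * m) φ then
            βp p m * (n6 (c * m) : ℂ) else 0) * pw t (nm (c * m)) * sy r (c * m)) := by
      split_ifs
      · rw [sum_mul, sum_mul, sum_mul]
        refine sum_congr rfl fun p _ => ?_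
        ring
      · simp
    rw [hl]
    refine sum_congr rfl fun p hp => ?_
    suffices hk : (if e ∣ γ * c * m ∧ IsCoprime (c * m) φ then
        βp p m * (n6 (c * m) : ℂ) else 0) * pw t (nm (c * m)) *
          sy r (c * m) = k0 c φ r t * ((if (1 : Eis) ∣ 1 * m ∧ IsCoprime m φ then
        βp p (1 * m) * (n6 m : ℂ) else 0) * pw t (nm m) * sy r m) by
      exact (congrArg (fun z => kp p * z) hk).trans (mul_left_comm _ _ _)
    rw [one_mul m]
    by_cases h0 : βp p m = 0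
    · rw [h0]; simp
    have hm : IsPrim m := hprim p hp m h0
    have e3 : pw t (nm (c * m)) = pw t (nm c) * pw t (nm m) := pw_mul' hc hm
    have e4 : sy r (c * m) = sy r c * sy r m := E3D579.sy_mulR hc hm
    rw [e3, e4, PX764.n6_mul]
    unfold k0
    by_cases h3 : IsCoprime c φ
    · by_cases h4 : IsCoprime m φ
      · rw [if_pos ⟨hcE, h3.mul_left h4⟩, if_pos h3, if_pos ⟨one_dvd _, h4⟩]
        push_cast
        ring
      · rw [if_neg (fun h5 => h4 h5.2.of_mul_left_right), if_pos h3, if_neg (fun h5 => h4 h5.2)]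
        ring
    · rw [if_neg (fun h5 => h3 h5.2.of_mul_left_left), if_neg h3]
      ring
  have hsum : ∀ p ∈ T, Summable fun m => rm (βp p) 1 1 φ t m * sy r m := by
    intro p hp
    refine summable_of_hasFiniteSupport ((hF p hp).fin.subset fun m hm => ?_)
    rw [Function.mem_support] at hm ⊢
    intro h0
    apply hm
    unfold R3571.rm
    rw [one_mul, h0]
    simp
  show ∑' m, F m = _
  rw [hsub, tsum_congr hterm, tsum_mul_left]
  congr 1
  rw [Summable.tsum_finsetSum fun p hp => (hsum p hp).mul_left _]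
  refine sum_congr rfl fun p hp => ?_
  rw [tsum_mul_left]
  rfl

/-- **`RMm` from a decomposition** -/
theorem RM_gen {τ : Type*} {T : Finset τ} {kp : τ → ℂ} {βp : τ → Eis → ℂ} {F₀ : Eis → ℂ}
    {c e γ : Eis} (hc : IsPrim c) (heD : e ∣ γ * c)
    (hdec : ∀ m, F₀ (γ * c * m) = ∑ p ∈ T, kp p * βp p m)
    (hmul : ∀ m, F₀ (γ * m) ≠ 0 → e ∣ γ * m → c ∣ m) (hF : ∀ p ∈ T, FS (βp p))
    (hprim : ∀ p ∈ T, ∀ m, βp p m ≠ 0 → IsPrim m) (hk : ∀ p ∈ T, ‖kp p‖ ≤ 1)
    {A : ℝ} (hA : 1 < A) (φ : Eis)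
    (Ks : Finset Eis) {Bd : ℝ} (hBd : 0 ≤ Bd)
    (H : ∀ p ∈ T, ∑ r ∈ Ks, RMm A (βp p) 1 1 φ r ≤ Bd) :
    ∑ r ∈ Ks, RMm A F₀ e γ φ r ≤ n6 c ^ 2 * (T.card : ℝ) ^ 2 * Bd := by
  classical
  have hn0 : 0 ≤ n6 c := E3D579.n6_nonneg c
  have one : ∀ r, RMm A F₀ e γ φ r ≤
      n6 c ^ 2 * (T.card : ℝ) * ∑ p ∈ T, RMm A (βp p) 1 1 φ r := by
    intro r
    have hint : ∀ p ∈ T, Integrable fun t => jb A t * ‖CS (rm (βp p) 1 1 φ t) r‖ ^ 2 :=
      fun p hp => integrable_RM hA (hF p hp) one_ne_zero 1 φ r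
    have e1 : n6 c ^ 2 * (T.card : ℝ) * ∑ p ∈ T, RMm A (βp p) 1 1 φ r =
        ∫ t, n6 c ^ 2 * (T.card : ℝ) * ∑ p ∈ T, jb A t * ‖CS (rm (βp p) 1 1 φ t) r‖ ^ 2 := by
      rw [integral_const_mul, integral_finsetSum T hint]
      rfl
    rw [e1, RMm_eq]
    refine integral_mono_of_nonneg (Filter.Eventually.of_forall fun t =>
      mul_nonneg (jb_pos A t).le (by positivity)) ((integrable_finsetSum T hint).const_mul _)
      (Filter.Eventually.of_forall fun t => ?_)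
    beta_reduce
    rw [CS_gen hc heD hdec hmul hF hprim φ r t]
    have h3 : ‖k0 c φ r t * ∑ p ∈ T, kp p * CS (rm (βp p) 1 1 φ t) r‖ ≤
        n6 c * ∑ p ∈ T, ‖CS (rm (βp p) 1 1 φ t) r‖ := by
      rw [norm_mul]
      refine mul_le_mul (norm_k0 hc t) ((norm_sum_le _ _).trans (sum_le_sum fun p hp => ?_))
        (norm_nonneg _) hn0
      rw [norm_mul]
      exact mul_le_of_le_one_left (norm_nonneg _) (hk p hp)
    have h4 := pow_le_pow_left₀ (norm_nonneg _) h3 2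
    rw [mul_pow] at h4
    have h5 : (∑ p ∈ T, ‖CS (rm (βp p) 1 1 φ t) r‖) ^ 2 ≤
        (T.card : ℝ) * ∑ p ∈ T, ‖CS (rm (βp p) 1 1 φ t) r‖ ^ 2 := sq_sum_le_card_mul_sum_sq
    rw [← mul_sum]
    calc jb A t * _ ≤ jb A t * (n6 c ^ 2 * ((T.card : ℝ) * ∑ p ∈ T,
          ‖CS (rm (βp p) 1 1 φ t) r‖ ^ 2)) :=
          mul_le_mul_of_nonneg_left (h4.trans (mul_le_mul_of_nonneg_left h5 (by positivity)))
            (jb_pos A t).le
      _ = _ := by ring
  calc ∑ r ∈ Ks, RMm A F₀ e γ φ r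
      ≤ ∑ r ∈ Ks, n6 c ^ 2 * (T.card : ℝ) * ∑ p ∈ T, RMm A (βp p) 1 1 φ r :=
        sum_le_sum fun r _ => one r
    _ = n6 c ^ 2 * (T.card : ℝ) * ∑ p ∈ T, ∑ r ∈ Ks, RMm A (βp p) 1 1 φ r := by
        rw [← mul_sum, sum_comm]
    _ ≤ n6 c ^ 2 * (T.card : ℝ) * (T.card • Bd) := by
        refine mul_le_mul_of_nonneg_left (sum_le_card_nsmul _ _ _ fun p hp => ?_) (by positivity)
        exact H p hp
    _ = _ := by
        rw [nsmul_eq_mul]
        ring

variable {ι κ : Type} [Fintype ι] [Fintype κ] [DecidableEq ι] [DecidableEq κ]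

/-- two families with the same types, characters and heights -/
structure Sim (s s' : κ → Pc) : Prop where
  u : ∀ j, (s' j).u = (s j).u
  ψ : ∀ j, (s' j).ψ = (s j).ψ
  t : ∀ j, (s' j).t = (s j).t

lemma scS_sim {s s' : κ → Pc} (h : Sim s s') (x : κ → Eis) (hsc : ∀ (P P' : Pc) (a : Eis),
    P'.u = P.u → P'.ψ = P.ψ → P'.t = P.t → sc' P' a = sc' P a) : scS s' x = scS s x := by
  unfold scS
  exact prod_congr rfl fun j _ => hsc _ _ _ (h.u j) (h.ψ j) (h.t j)

lemma sc'_sim (P P' : Pc) (a : Eis) (h1 : P'.u = P.u) (h2 : P'.ψ = P.ψ) (h3 : P'.t = P.t) :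
    sc' P' a = sc' P a := by
  unfold HP842.sc' HP842.sc
  rw [h1, h2, h3]

lemma kf_sim {s2 s2' : κ → Pc} (h : Sim s2 s2') (Γ : Eis → ℂ) (s1 : ι → Pc) (x : ι → Eis)
    (y : κ → Eis) (z : ι ⊕ κ → Eis) : kf Γ s1 s2' x y z = kf Γ s1 s2 x y z := by
  unfold kf
  rw [scS_sim h _ sc'_sim]

set_option maxHeartbeats 1000000 in
/-- **`RMm` of the coefficient at a combination of two lists** -/
theorem RM_redX {h : ℝ → ℝ} {R : ℝ} (hR : ∀ u, cx h u ≠ 0 → |u| ≤ R) {s1 : ι → Pc}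
    {s2 s2' : κ → Pc} (h1 : ∀ i, (s1 i).OK) (h2 : ∀ j, (s2 j).OK) (h2' : ∀ j, (s2' j).OK)
    (hs : Sim s2 s2') (z w : ℂ) {θ : ℝ}
    {W : Eis → Eis → Eis → ℂ} (hW : WOK θ W) {Z : ℝ} (hZ : 0 ≤ Z)
    (hsup : ∀ n, sqc 1 (al h s1) n ≠ 0 → (nm n : ℝ) ≤ Z) {g d e γ : Eis} (hg : IsPrim g)
    (hd : IsPrim d) (he : IsPrim e) (hγ : IsPrim γ) {A : ℝ} (hA : 1 < A) (φ : Eis)
    (Ks : Finset Eis) {Bd : ℝ} (hBd : 0 ≤ Bd)
    (H : ∀ v : ι ⊕ κ → Eis, VOK g (d * (γ * cE g d e γ)) v →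
      Squarefree (d * (γ * cE g d e γ)) → ∑ r ∈ Ks,
        RMm A (cmb z w (sqc (d * (γ * cE g d e γ)) (al h (shS (fam θ s1 s2) v)))
          (sqc (d * (γ * cE g d e γ)) (al h (shS (fam θ s1 s2') v)))) 1 1 φ r ≤ Bd) :
    ∑ r ∈ Ks, RMm A (afW W Z (sqc 1 (al h s1)) (cmb z w (sqc 1 (al h s2)) (sqc 1 (al h s2')))
      g e d) e γ φ r ≤
      n6 (cE g d e γ) ^ 2 * ((TQ ι κ g (d * (γ * cE g d e γ))).card : ℝ) ^ 2 * Bd := by
  classical
  set α : Eis → ℂ := cmb z w (sqc 1 (al h s2)) (sqc 1 (al h s2')) with hα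
  have hlin : ∀ m, afW W Z (sqc 1 (al h s1)) α g e d m =
      z * afW W Z (sqc 1 (al h s1)) (sqc 1 (al h s2)) g e d m +
      w * afW W Z (sqc 1 (al h s1)) (sqc 1 (al h s2')) g e d m := fun m =>
    afW_cmb _ _ _ _ _ _ _ _ _ _ _
  by_cases hsN : Squarefree (d * (γ * cE g d e γ))
  swap
  · -- the sequence vanishes
    have h0 : ∀ r ∈ Ks, RMm A (afW W Z (sqc 1 (al h s1)) α g e d) e γ φ r = 0 := by
      intro r _
      have : ∀ t, CS (rm (afW W Z (sqc 1 (al h s1)) α g e d) e γ φ t) r = 0 := by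
        intro t
        unfold CM106.CS R3571.rm
        refine (tsum_congr fun m => ?_).trans tsum_zero
        by_cases h3 : e ∣ γ * m ∧ IsCoprime m φ
        · have hz : ∀ {s : κ → Pc}, afW W Z (sqc 1 (al h s1)) (sqc 1 (al h s)) g e d (γ * m) =
              0 := by
            intro s
            by_contra h5
            obtain ⟨k, hk⟩ := (cE_dvd hg he).2 ⟨afW_c hZ hg h5, h3.1⟩
            refine h5 (afW_zero_of_not_sqf hZ fun h6 => hsN ?_)
            have e1 : d * (γ * m) = d * (γ * cE g d e γ) * k := by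
              rw [hk]; ring
            rw [e1] at h6
            exact h6.of_mul_left
          rw [hlin, hz, hz]; simp
        · rw [if_neg h3]; simp
      rw [RMm_eq]
      simp [this]
    rw [sum_eq_zero h0]
    positivity
  set c := cE g d e γ with hc
  set N := d * (γ * c) with hN
  have hcp : IsPrim c := cE_prim hg he γ
  have hD : IsPrim (γ * c) := hγ.mul hcp
  have hdv := (cE_dvd (g := g) (d := d) (e := e) (γ := γ) (m := c) hg he).1 dvd_rfl
  have heD : e ∣ γ * c := hdv.2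
  have hgN : g ∣ d * (γ * c) := by
    obtain ⟨k, hk⟩ := hdv.1
    refine ⟨d / gp d g * k, ?_⟩
    rw [hk, ← mul_assoc, cc_mul hg]
    ring
  set βp : (ι → Eis) × (κ → Eis) × (ι ⊕ κ → Eis) → Eis → ℂ := fun p =>
    cmb z w (sqc N (al h (shS (fam θ s1 s2) (vv p)))) (sqc N (al h (shS (fam θ s1 s2') (vv p))))
    with hβ
  have e2 : ∀ G : (ι → Eis) → (κ → Eis) → (ι ⊕ κ → Eis) → ℂ,
      ∑ x ∈ Tu ι g, ∑ y ∈ Tu κ g, ∑ z ∈ Tu (ι ⊕ κ) (N / g), G x y z =
      ∑ p ∈ TQ ι κ g N, G p.1 p.2.1 p.2.2 := by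
    intro G
    unfold TQ
    rw [Finset.sum_product]
    refine Finset.sum_congr rfl fun x _ => ?_
    rw [Finset.sum_product]
  have hdec : ∀ m, afW W Z (sqc 1 (al h s1)) α g e d (γ * c * m) =
      ∑ p ∈ TQ ι κ g N, kf (W e d) s1 s2 p.1 p.2.1 p.2.2 * βp p m := by
    intro m
    have a1 := afW_dec h1 h2 hW hZ hsup hg hd hD he heD hgN m
    have a2 := afW_dec h1 h2' hW hZ hsup hg hd hD he heD hgN m
    rw [← hN] at a1 a2
    simp only [if_pos hsN] at a1 a2
    rw [e2] at a1 a2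
    rw [hlin, a1, a2, mul_sum, mul_sum, ← sum_add_distrib]
    refine sum_congr rfl fun p _ => ?_
    rw [kf_sim hs]
    show _ = kf (W e d) s1 s2 p.1 p.2.1 p.2.2 * (z * _ + w * _)
    have f1 : (fun i => Sum.elim p.1 p.2.1 i * p.2.2 i) = vv p := rfl
    rw [f1]
    ring
  refine RM_gen (T := TQ ι κ g N) (kp := fun p => kf (W e d) s1 s2 p.1 p.2.1 p.2.2)
    (βp := βp) hcp heD hdec ?_ ?_ ?_ ?_ hA φ Ks hBd ?_
  · intro m hm hem
    rw [hlin] at hm
    by_cases h3 : afW W Z (sqc 1 (al h s1)) (sqc 1 (al h s2)) g e d (γ * m) = 0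
    · by_cases h4 : afW W Z (sqc 1 (al h s1)) (sqc 1 (al h s2')) g e d (γ * m) = 0
      · exfalso
        apply hm
        rw [h3, h4]
        simp
      · exact (cE_dvd hg he).2 ⟨afW_c hZ hg h4, hem⟩
    · exact (cE_dvd hg he).2 ⟨afW_c hZ hg h3, hem⟩
  · intro p hp
    exact FS_cmb (FS_sqcal hR (fun i => sh_OK (fam_OK h1 h2 i) ((vok_of hg hgN hp).prim i)) N)
      (FS_sqcal hR (fun i => sh_OK (fam_OK h1 h2' i) ((vok_of hg hgN hp).prim i)) N) _ _
  · intro p hp m hm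
    exact FS_cmb_prim (fun n hn => (sqc_prim hn).1) (fun n hn => (sqc_prim hn).1) hm
  · intro p hp
    unfold TQ at hp
    rw [mem_product, mem_product, mem_Tu, mem_Tu, mem_Tu] at hp
    exact norm_kf_le (fun a => hW.le e d a) h1 h2 hp.1.1 hp.2.1.1 hp.2.2.1
  · intro p hp
    exact H _ (vok_of hg hgN hp) hsN

end Crest.Agent.R017.RPX960
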