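import Crest.Agent.R017.GrT2_828
import Crest.Agent.R017.RnPb_571
import Crest.Agent.R017.P1k_54

/-!
# Row 17, P1, mismatch: the character moments of the coefficient (helper813), part 1

* `afW_dec` : the multiples of `D` of the coefficient as a sum over families
* `RM_red` : `RMm` of the coefficient from `RMm` of the families
-/

set_option autoImplicit false
set_option linter.unusedVariables false

noncomputable section

open Finset MeasureTheory
open scoped ComplexConjugate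

namespace Crest.Agent.R017.RPm813

open Crest.Agent.R012 Crest.Agent.R012.Eis
open Crest.Agent.R012.Div277 (tau dvs mem_dvs exists_prim_factor tau_le_rpow)
open Crest.Agent.R012.LS2 (S mem_S bl mem_bl)
open Crest.Agent.R012.Weight600 (osc norm_osc pw norm_pw)
open Crest.Agent.R017.CM106 (CS TG FS)
open Crest.Agent.R017.HP842 (Pc pc al cv Tu mem_Tu sc' scS sqc Th card_Tu_le)
open Crest.Agent.R017.Rough381 (sh shS sh_OK VF nm_prodI)
open Crest.Agent.R017.Leg381 (Th_ne_zero shS_mul FS_alW sum_Tu_mul)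
open Crest.Agent.R017.FE47 (PU cx)
open Crest.Agent.R017.StA828 Crest.Agent.R017.StC828 Crest.Agent.R017.StF828
open Crest.Agent.R017.StB828 (one_le_nmR)
open Crest.Agent.R017.GrC828 Crest.Agent.R017.GrT828
open Crest.Agent.R017.PX764 (n6 Gh sqf_mul)
open Crest.Agent.R017.E1551 (Adm Wf jb jb_pos)
open Crest.Agent.R017.DgA829 (lc lc_prim lc_dvd)
open Crest.Agent.R017.R3571 (RMm RMm_nonneg RMm_eq rm RMm_zero integrable_RM dvd_mul_iff_cB)
open Crest.Agent.R017.NtC320 (cg cB cg_prim cB_prim gp_cg gp_cB)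

variable {ι κ : Type} [Fintype ι] [Fintype κ] [DecidableEq ι] [DecidableEq κ]

open Classical in
/-- **the multiples of `D`** -/
theorem afW_dec {h : ℝ → ℝ} {s1 : ι → Pc} {s2 : κ → Pc} (h1 : ∀ i, (s1 i).OK)
    (h2 : ∀ j, (s2 j).OK) {θ : ℝ} {W : Eis → Eis → Eis → ℂ} (hW : WOK θ W) {Z : ℝ} (hZ : 0 ≤ Z)
    (hsup : ∀ n, sqc 1 (al h s1) n ≠ 0 → (nm n : ℝ) ≤ Z) {g d D e : Eis} (hg : IsPrim g)
    (hd : IsPrim d) (hD : IsPrim D) (he : IsPrim e) (heD : e ∣ D) (hgD : g ∣ d * D) (m : Eis) :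
    afW W Z (sqc 1 (al h s1)) (sqc 1 (al h s2)) g e d (D * m) =
      ∑ x ∈ Tu ι g, ∑ y ∈ Tu κ g, ∑ z ∈ Tu (ι ⊕ κ) (d * D / g), kf (W e d) s1 s2 x y z *
        (if Squarefree (d * D) then sqc (d * D)
          (al h (shS (fam θ s1 s2) (fun i => Sum.elim x y i * z i))) m else 0) := by
  set N := d * D with hN
  have hNp : IsPrim N := hd.mul hD
  by_cases hsq : Squarefree (N * m)
  · have hsN : Squarefree N := hsq.of_mul_left
    have hcm : IsCoprime N m := (squarefree_mul_iff.1 hsq).1.isCoprime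
    have hm0 : m ≠ 0 := right_ne_zero_of_mul hsq.ne_zero
    have hWm : ∀ a ∈ dvs (N / g), ∀ b ∈ dvs m, W e d (a * b) = W e d a * pw θ (nm b) := by
      intro a ha b hb
      obtain ⟨N', hN'⟩ := hgD
      have hNg : N / g = N' := by rw [hN', mul_div_cancel_left₀ _ hg.ne_zero]
      have hN'0 : N' ≠ 0 := by
        intro h0
        apply hNp.ne_zero
        rw [hN', h0, mul_zero]
      rw [hNg, mem_dvs hN'0] at ha
      rw [mem_dvs hm0] at hb
      have hc1 : IsCoprime b N := (hcm.symm).of_isCoprime_of_dvd_left hb.2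
      refine hW.mul e d a b he ha.1 hb.1 ?_ ?_
      · exact hc1.of_isCoprime_of_dvd_right (dvd_mul_right _ _)
      · exact hc1.of_isCoprime_of_dvd_right (heD.trans (dvd_mul_left _ _))
    have h3 := af_dec (h := h) h1 h2 hg hNp hgD hZ (fun a ha => by
      obtain ⟨a1, a2⟩ := sqc_prim ha
      have hap : IsPrim a := IsPrim.of_mul_left a1 hg
      rw [mem_S hZ]
      refine ⟨le_trans ?_ (hsup _ ha), hap, a2.1.of_mul_right⟩
      rw [nm_mul]
      push_cast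
      exact le_mul_of_one_le_left (Nat.cast_nonneg _) (one_le_nmR hg)) (m := m) hWm
    have h4 : afW W Z (sqc 1 (al h s1)) (sqc 1 (al h s2)) g e d (D * m) =
        ∑ a ∈ S Z, sqc 1 (al h s1) (g * a) * W e d a *
          xa a (rs g (sqc 1 (al h s2))) (N * m) := by
      unfold afW
      rw [← mul_assoc]
    rw [h4, h3]
  · have h0 : afW W Z (sqc 1 (al h s1)) (sqc 1 (al h s2)) g e d (D * m) = 0 := by
      refine afW_zero_of_not_sqf hZ ?_
      rwa [← mul_assoc]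
    rw [h0]
    symm
    refine Finset.sum_eq_zero fun x _ => Finset.sum_eq_zero fun y _ =>
      Finset.sum_eq_zero fun z _ => ?_
    split_ifs with hsN
    · have : Th N m = 0 := by
        by_contra h5
        obtain ⟨h6, h7⟩ := Th_ne_zero h5
        exact hsq ((sqf_mul h7.symm).2 ⟨hsN, h6⟩)
      unfold HP842.sqc
      rw [this]; simp
    · rw [mul_zero]

/-- the least multiple -/
def cE (g d e γ : Eis) : Eis := cB γ (lc (cc g d) e)

lemma cE_prim {g d e : Eis} (hg : IsPrim g) (he : IsPrim e) (γ : Eis) : IsPrim (cE g d e γ) :=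
  cB_prim (lc_prim (cc_prim hg) he)

lemma cE_dvd {g d e γ m : Eis} (hg : IsPrim g) (he : IsPrim e) :
    cE g d e γ ∣ m ↔ cc g d ∣ γ * m ∧ e ∣ γ * m := by
  rw [cE, ← dvd_mul_iff_cB (lc_prim (cc_prim hg) he), lc_dvd (cc_prim hg) he]

lemma lc_dvd_cE {g d e : Eis} (hg : IsPrim g) (he : IsPrim e) (γ : Eis) :
    lc (cc g d) e ∣ γ * cE g d e γ :=
  (dvd_mul_iff_cB (lc_prim (cc_prim hg) he)).2 dvd_rfl

/-- the terms of the decomposition -/
def TQ (ι κ : Type) [Fintype ι] [Fintype κ] [DecidableEq ι] [DecidableEq κ] (g N : Eis) :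
    Finset ((ι → Eis) × (κ → Eis) × (ι ⊕ κ → Eis)) := Tu ι g ×ˢ Tu κ g ×ˢ Tu (ι ⊕ κ) (N / g)

/-- the total divisor of a term -/
def vv (p : (ι → Eis) × (κ → Eis) × (ι ⊕ κ → Eis)) (i : ι ⊕ κ) : Eis :=
  Sum.elim p.1 p.2.1 i * p.2.2 i

/-- admissible divisors -/
structure VOK (g N : Eis) (v : ι ⊕ κ → Eis) : Prop where
  prim : ∀ i, IsPrim (v i)
  tot : ∏ i, v i = g * N
  left : g ∣ ∏ i, v (.inl i)
  right : g ∣ ∏ j, v (.inr j)

lemma vok_of {g N : Eis} (hg : IsPrim g) (hgN : g ∣ N) {p : (ι → Eis) × (κ → Eis) × (ι ⊕ κ → Eis)}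
    (hp : p ∈ TQ ι κ g N) : VOK g N (vv p) := by
  unfold TQ at hp
  rw [mem_product, mem_product, mem_Tu, mem_Tu, mem_Tu] at hp
  obtain ⟨⟨a1, a2⟩, ⟨b1, b2⟩, c1, c2⟩ := hp
  have hl : ∏ i, vv p (.inl i) = g * ∏ i, p.2.2 (.inl i) := by
    unfold vv
    simp only [Sum.elim_inl]
    rw [prod_mul_distrib, a2]
  have hr : ∏ j, vv p (.inr j) = g * ∏ j, p.2.2 (.inr j) := by
    unfold vv
    simp only [Sum.elim_inr]
    rw [prod_mul_distrib, b2]
  refine ⟨fun i => ?_, ?_, hl ▸ dvd_mul_right _ _, hr ▸ dvd_mul_right _ _⟩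
  · refine IsPrim.mul ?_ (c1 i)
    rcases i with i | i
    · exact a1 i
    · exact b1 i
  · rw [Fintype.prod_sum_type, hl, hr]
    rw [Fintype.prod_sum_type] at c2
    have e1 : g * (N / g) = N := EuclideanDomain.mul_div_cancel' hg.ne_zero hgN
    calc (g * ∏ i, p.2.2 (.inl i)) * (g * ∏ j, p.2.2 (.inr j)) =
        g * (g * ((∏ i, p.2.2 (.inl i)) * ∏ j, p.2.2 (.inr j))) := by ring
      _ = _ := by rw [c2, e1]

lemma n6_sq_nn (m : Eis) : 0 ≤ n6 m ^ 2 := sq_nonneg _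

/-- the character sum of the sequence of `RMm` -/
theorem CS_red {h : ℝ → ℝ} {R : ℝ} (hR : ∀ u, cx h u ≠ 0 → |u| ≤ R) {s1 : ι → Pc}
    {s2 : κ → Pc} (h1 : ∀ i, (s1 i).OK) (h2 : ∀ j, (s2 j).OK) {θ : ℝ}
    {W : Eis → Eis → Eis → ℂ} (hW : WOK θ W) {Z : ℝ} (hZ : 0 ≤ Z)
    (hsup : ∀ n, sqc 1 (al h s1) n ≠ 0 → (nm n : ℝ) ≤ Z) {g d e γ : Eis} (hg : IsPrim g)
    (hd : IsPrim d) (he : IsPrim e) (hγ : IsPrim γ) (hsN : Squarefree (d * (γ * cE g d e γ)))
    (φ r : Eis) : ∃ κ₀ : ℝ → ℂ, (∀ t, ‖κ₀ t‖ ≤ n6 (cE g d e γ)) ∧ ∀ t : ℝ,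
      CS (rm (afW W Z (sqc 1 (al h s1)) (sqc 1 (al h s2)) g e d) e γ φ t) r =
        κ₀ t * ∑ p ∈ TQ ι κ g (d * (γ * cE g d e γ)), kf (W e d) s1 s2 p.1 p.2.1 p.2.2 *
          CS (rm (sqc (d * (γ * cE g d e γ)) (al h (shS (fam θ s1 s2) (vv p)))) 1 1 φ t) r := by
  classical
  set c := cE g d e γ with hc
  set N := d * (γ * c) with hN
  have hcp : IsPrim c := cE_prim hg he γ
  have hD : IsPrim (γ * c) := hγ.mul hcp
  have hdv := (cE_dvd (g := g) (d := d) (e := e) (γ := γ) (m := c) hg he).1 dvd_rfl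
  have heD : e ∣ γ * c := hdv.2
  have hgD : g ∣ d * (γ * c) := by
    obtain ⟨k, hk⟩ := hdv.1
    refine ⟨d / gp d g * k, ?_⟩
    rw [hk, ← mul_assoc, cc_mul hg]
    ring
  have hNp : IsPrim N := hd.mul hD
  have hF : ∀ p ∈ TQ ι κ g N, FS (sqc N (al h (shS (fam θ s1 s2) (vv p)))) := fun p hp =>
    FS_sqcal hR (fun i => sh_OK (fam_OK h1 h2 i) ((vok_of hg hgD hp).prim i)) N
  set κ₀ : ℝ → ℂ := fun t => if IsCoprime c φ then (n6 c : ℂ) * pw t (nm c) * sy r c else 0 with hκ₀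
  refine ⟨κ₀, fun t => ?_, fun t => ?_⟩
  · rw [hκ₀]
    beta_reduce
    split_ifs
    · rw [norm_mul, norm_mul, norm_pw, mul_one, Complex.norm_real,
        Real.norm_of_nonneg (E3D579.n6_nonneg c)]
      exact mul_le_of_le_one_right (E3D579.n6_nonneg c) (Char766.norm_sy_le hcp)
    · rw [norm_zero]
      exact E3D579.n6_nonneg c
  -- the substitution `m = c m₁`
  set F : Eis → ℂ := fun m => rm (afW W Z (sqc 1 (al h s1)) (sqc 1 (al h s2)) g e d) e γ φ t m *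
    sy r m with hFd
  have hsub : ∑' m, F m = ∑' m, F (c * m) := by
    rw [CM106.tsum_mult hcp.ne_zero F]
    refine tsum_congr fun m => ?_
    split_ifs with hm
    · rfl
    · rw [hFd]
      beta_reduce
      unfold R3571.rm
      by_cases h3 : e ∣ γ * m ∧ IsCoprime m φ
      · have h4 : afW W Z (sqc 1 (al h s1)) (sqc 1 (al h s2)) g e d (γ * m) = 0 := by
          by_contra h5
          exact hm ((cE_dvd hg he).2 ⟨afW_c hZ hg h5, h3.1⟩)
        rw [h4]; simp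
      · rw [if_neg h3]; simp
  have hterm : ∀ m, F (c * m) = κ₀ t * ∑ p ∈ TQ ι κ g N, kf (W e d) s1 s2 p.1 p.2.1 p.2.2 *
      (rm (sqc N (al h (shS (fam θ s1 s2) (vv p)))) 1 1 φ t m * sy r m) := by
    intro m
    have e1 := afW_dec h1 h2 hW hZ hsup hg hd hD he heD hgD m
    rw [← hN] at e1
    simp only [if_pos hsN] at e1
    have e2 : ∀ G : (ι → Eis) → (κ → Eis) → (ι ⊕ κ → Eis) → ℂ,
        ∑ x ∈ Tu ι g, ∑ y ∈ Tu κ g, ∑ z ∈ Tu (ι ⊕ κ) (N / g), G x y z =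
        ∑ p ∈ TQ ι κ g N, G p.1 p.2.1 p.2.2 := by
      intro G
      unfold TQ
      rw [Finset.sum_product]
      refine Finset.sum_congr rfl fun x _ => ?_
      rw [Finset.sum_product]
    rw [e2] at e1
    rw [hFd]
    beta_reduce
    unfold R3571.rm
    rw [show γ * (c * m) = γ * c * m by ring, e1]
    have hcE : e ∣ γ * c * m := heD.mul_right m
    have hone : (1 : Eis) ∣ 1 * m := one_dvd _
    rw [mul_sum]
    -- termwise
    have hl : (if e ∣ γ * c * m ∧ IsCoprime (c * m) φ then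
        (∑ p ∈ TQ ι κ g N, kf (W e d) s1 s2 p.1 p.2.1 p.2.2 *
          sqc N (al h (shS (fam θ s1 s2) fun i => Sum.elim p.1 p.2.1 i * p.2.2 i)) m) *
          (n6 (c * m) : ℂ) else 0) * pw t (nm (c * m)) * sy r (c * m) =
        ∑ p ∈ TQ ι κ g N, kf (W e d) s1 s2 p.1 p.2.1 p.2.2 *
          ((if e ∣ γ * c * m ∧ IsCoprime (c * m) φ then
            sqc N (al h (shS (fam θ s1 s2) fun i => Sum.elim p.1 p.2.1 i * p.2.2 i)) m *
              (n6 (c * m) : ℂ) else 0) * pw t (nm (c * m)) * sy r (c * m)) := by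
      split_ifs
      · rw [sum_mul, sum_mul, sum_mul]
        refine sum_congr rfl fun p _ => ?_
        ring
      · simp
    rw [hl]
    refine sum_congr rfl fun p hp => ?_
    suffices hk : (if e ∣ γ * c * m ∧ IsCoprime (c * m) φ then
        sqc N (al h (shS (fam θ s1 s2) (vv p))) m * (n6 (c * m) : ℂ) else 0) * pw t (nm (c * m)) *
          sy r (c * m) = κ₀ t * ((if (1 : Eis) ∣ 1 * m ∧ IsCoprime m φ then
        sqc N (al h (shS (fam θ s1 s2) (vv p))) (1 * m) * (n6 m : ℂ) else 0) * pw t (nm m) *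
          sy r m) by
      exact (congrArg (fun z => kf (W e d) s1 s2 p.1 p.2.1 p.2.2 * z) hk).trans
        (mul_left_comm _ _ _)
    rw [one_mul m]
    by_cases h0 : sqc N (al h (shS (fam θ s1 s2) (vv p))) m = 0
    · rw [h0]; simp
    have hm : IsPrim m := (sqc_prim h0).1
    have e3 : pw t (nm (c * m)) = pw t (nm c) * pw t (nm m) := pw_mul' hcp hm
    have e4 : sy r (c * m) = sy r c * sy r m := E3D579.sy_mulR hcp hm
    rw [e3, e4, PX764.n6_mul, hκ₀]
    beta_reduce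
    by_cases h3 : IsCoprime c φ
    · by_cases h4 : IsCoprime m φ
      · rw [if_pos ⟨hcE, h3.mul_left h4⟩, if_pos h3, if_pos ⟨one_dvd _, h4⟩]
        push_cast
        ring
      · rw [if_neg (fun h5 => h4 h5.2.of_mul_left_right), if_pos h3, if_neg (fun h5 => h4 h5.2)]
        ring
    · rw [if_neg (fun h5 => h3 h5.2.of_mul_left_left), if_neg h3]
      ring
  have hsum : ∀ p ∈ TQ ι κ g N, Summable fun m =>
      rm (sqc N (al h (shS (fam θ s1 s2) (vv p)))) 1 1 φ t m * sy r m := by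
    intro p hp
    refine summable_of_hasFiniteSupport ((hF p hp).fin.subset fun m hm => ?_)
    rw [Function.mem_support] at hm ⊢
    intro h0
    apply hm
    unfold R3571.rm
    rw [one_mul, h0]
    simp
  show ∑' m, F m = _
  rw [hsub, tsum_congr hterm, tsum_mul_left]
  congr 1
  rw [Summable.tsum_finsetSum fun p hp => (hsum p hp).mul_left _]
  refine sum_congr rfl fun p hp => ?_
  rw [tsum_mul_left]
  rfl

/-- **`RMm` of the coefficient** -/
theorem RM_red {h : ℝ → ℝ} {R : ℝ} (hR : ∀ u, cx h u ≠ 0 → |u| ≤ R) {s1 : ι → Pc}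
    {s2 : κ → Pc} (h1 : ∀ i, (s1 i).OK) (h2 : ∀ j, (s2 j).OK) {θ : ℝ}
    {W : Eis → Eis → Eis → ℂ} (hW : WOK θ W) {Z : ℝ} (hZ : 0 ≤ Z)
    (hsup : ∀ n, sqc 1 (al h s1) n ≠ 0 → (nm n : ℝ) ≤ Z) {g d e γ : Eis} (hg : IsPrim g)
    (hd : IsPrim d) (he : IsPrim e) (hγ : IsPrim γ) {A : ℝ} (hA : 1 < A) (φ : Eis)
    (Ks : Finset Eis) {Bd : ℝ} (hBd : 0 ≤ Bd)
    (H : ∀ v : ι ⊕ κ → Eis, VOK g (d * (γ * cE g d e γ)) v →
      Squarefree (d * (γ * cE g d e γ)) → ∑ r ∈ Ks,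
        RMm A (sqc (d * (γ * cE g d e γ)) (al h (shS (fam θ s1 s2) v))) 1 1 φ r ≤ Bd) :
    ∑ r ∈ Ks, RMm A (afW W Z (sqc 1 (al h s1)) (sqc 1 (al h s2)) g e d) e γ φ r ≤
      n6 (cE g d e γ) ^ 2 * ((TQ ι κ g (d * (γ * cE g d e γ))).card : ℝ) ^ 2 * Bd := by
  classical
  by_cases hsN : Squarefree (d * (γ * cE g d e γ))
  swap
  · -- the sequence vanishes
    have h0 : ∀ r ∈ Ks, RMm A (afW W Z (sqc 1 (al h s1)) (sqc 1 (al h s2)) g e d) e γ φ r = 0 := by
      intro r _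
      have : ∀ t, CS (rm (afW W Z (sqc 1 (al h s1)) (sqc 1 (al h s2)) g e d) e γ φ t) r = 0 := by
        intro t
        unfold CM106.CS R3571.rm
        refine (tsum_congr fun m => ?_).trans tsum_zero
        by_cases h3 : e ∣ γ * m ∧ IsCoprime m φ
        · have h4 : afW W Z (sqc 1 (al h s1)) (sqc 1 (al h s2)) g e d (γ * m) = 0 := by
            by_contra h5
            obtain ⟨k, hk⟩ := (cE_dvd hg he).2 ⟨afW_c hZ hg h5, h3.1⟩
            refine h5 (afW_zero_of_not_sqf hZ fun h6 => hsN ?_)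
            have e1 : d * (γ * m) = d * (γ * cE g d e γ) * k := by
              rw [hk]; ring
            rw [e1] at h6
            exact h6.of_mul_left
          rw [h4]; simp
        · rw [if_neg h3]; simp
      rw [RMm_eq]
      simp [this]
    rw [sum_eq_zero h0]
    positivity
  set c := cE g d e γ with hc
  set N := d * (γ * c) with hN
  have hcp : IsPrim c := cE_prim hg he γ
  have hdv := (cE_dvd (g := g) (d := d) (e := e) (γ := γ) (m := c) hg he).1 dvd_rfl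
  have hgD : g ∣ N := by
    obtain ⟨k, hk⟩ := hdv.1
    refine ⟨d / gp d g * k, ?_⟩
    rw [hN, hk, ← mul_assoc, cc_mul hg]
    ring
  set Q := TQ ι κ g N with hQ
  have hF : ∀ p ∈ Q, FS (sqc N (al h (shS (fam θ s1 s2) (vv p)))) := fun p hp =>
    FS_sqcal hR (fun i => sh_OK (fam_OK h1 h2 i) ((vok_of hg hgD hp).prim i)) N
  have hn0 : 0 ≤ n6 c := E3D579.n6_nonneg c
  have one : ∀ r, RMm A (afW W Z (sqc 1 (al h s1)) (sqc 1 (al h s2)) g e d) e γ φ r ≤
      n6 c ^ 2 * (Q.card : ℝ) * ∑ p ∈ Q, RMm A (sqc N (al h (shS (fam θ s1 s2) (vv p)))) 1 1 φ r := by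
    intro r
    obtain ⟨κ₀, hκ, hCS⟩ := CS_red hR h1 h2 hW hZ hsup hg hd he hγ hsN φ r
    have hint : ∀ p ∈ Q, Integrable fun t => jb A t *
        ‖CS (rm (sqc N (al h (shS (fam θ s1 s2) (vv p)))) 1 1 φ t) r‖ ^ 2 := fun p hp =>
      integrable_RM hA (hF p hp) one_ne_zero 1 φ r
    have e1 : n6 c ^ 2 * (Q.card : ℝ) * ∑ p ∈ Q,
        RMm A (sqc N (al h (shS (fam θ s1 s2) (vv p)))) 1 1 φ r =
        ∫ t, n6 c ^ 2 * (Q.card : ℝ) * ∑ p ∈ Q, jb A t *
          ‖CS (rm (sqc N (al h (shS (fam θ s1 s2) (vv p)))) 1 1 φ t) r‖ ^ 2 := by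
      rw [integral_const_mul, integral_finsetSum Q hint]
      rfl
    rw [e1, RMm_eq]
    refine integral_mono_of_nonneg (Filter.Eventually.of_forall fun t =>
      mul_nonneg (jb_pos A t).le (by positivity)) ((integrable_finsetSum Q hint).const_mul _)
      (Filter.Eventually.of_forall fun t => ?_)
    beta_reduce
    rw [hCS t]
    have h3 : ‖κ₀ t * ∑ p ∈ Q, kf (W e d) s1 s2 p.1 p.2.1 p.2.2 *
        CS (rm (sqc N (al h (shS (fam θ s1 s2) (vv p)))) 1 1 φ t) r‖ ≤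
        n6 c * ∑ p ∈ Q, ‖CS (rm (sqc N (al h (shS (fam θ s1 s2) (vv p)))) 1 1 φ t) r‖ := by
      rw [norm_mul]
      refine mul_le_mul (hκ t) ((norm_sum_le _ _).trans (sum_le_sum fun p hp => ?_))
        (norm_nonneg _) hn0
      rw [norm_mul]
      refine mul_le_of_le_one_left (norm_nonneg _) ?_
      unfold TQ at hQ
      rw [hQ, mem_product, mem_product, mem_Tu, mem_Tu, mem_Tu] at hp
      exact norm_kf_le (fun a => hW.le e d a) h1 h2 hp.1.1 hp.2.1.1 hp.2.2.1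
    have h4 := pow_le_pow_left₀ (norm_nonneg _) h3 2
    rw [mul_pow] at h4
    have h5 : (∑ p ∈ Q, ‖CS (rm (sqc N (al h (shS (fam θ s1 s2) (vv p)))) 1 1 φ t) r‖) ^ 2 ≤
        (Q.card : ℝ) * ∑ p ∈ Q,
          ‖CS (rm (sqc N (al h (shS (fam θ s1 s2) (vv p)))) 1 1 φ t) r‖ ^ 2 :=
      sq_sum_le_card_mul_sum_sq
    rw [← mul_sum]
    calc jb A t * _ ≤ jb A t * (n6 c ^ 2 * ((Q.card : ℝ) * ∑ p ∈ Q,
          ‖CS (rm (sqc N (al h (shS (fam θ s1 s2) (vv p)))) 1 1 φ t) r‖ ^ 2)) :=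
          mul_le_mul_of_nonneg_left (h4.trans (mul_le_mul_of_nonneg_left h5 (by positivity)))
            (jb_pos A t).le
      _ = _ := by ring
  calc ∑ r ∈ Ks, RMm A (afW W Z (sqc 1 (al h s1)) (sqc 1 (al h s2)) g e d) e γ φ r
      ≤ ∑ r ∈ Ks, n6 c ^ 2 * (Q.card : ℝ) *
          ∑ p ∈ Q, RMm A (sqc N (al h (shS (fam θ s1 s2) (vv p)))) 1 1 φ r :=
        sum_le_sum fun r _ => one r
    _ = n6 c ^ 2 * (Q.card : ℝ) * ∑ p ∈ Q, ∑ r ∈ Ks,
          RMm A (sqc N (al h (shS (fam θ s1 s2) (vv p)))) 1 1 φ r := by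
        rw [← mul_sum, sum_comm]
    _ ≤ n6 c ^ 2 * (Q.card : ℝ) * (Q.card • Bd) := by
        refine mul_le_mul_of_nonneg_left (sum_le_card_nsmul _ _ _ fun p hp => ?_) (by positivity)
        exact H _ (vok_of hg hgD hp) hsN
    _ = _ := by
        rw [nsmul_eq_mul]
        ring

end Crest.Agent.R017.RPm813
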