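import Crest.Agent.R017.TUR_47
import Crest.Agent.R017.E4Bx_918

/-!
# Row 17, R8: `TailU`, the real inequalities (helper702)

* `Fq` : the linear facts of `SqL A d` (base `X`), `L = κ Al - 2 d (a + c)`, `D = d κ`
* `coreQ`, `coreP`, `coreB` : the linear cores
* `realQ`, `realP`, `realB` : helper47's `TU47.RealQ`, `TU47.RealP`, `TU47.RealB`, `μ = 1/450`
-/

set_option autoImplicit false

noncomputable section

namespace Crest.Agent.R017.RQ702

open Crest.Agent.R017.B770 Crest.Agent.R017.E5B71 Crest.Agent.R017.E5L770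
open Crest.Agent.R017.R8C918 Crest.Agent.R017.TU47 Crest.Agent.R017.Prov71

/-- the linear facts of the configurations (base `X`) -/
structure Fq (κ N M a c x v L D : ℝ) : Prop where
  κ0 : 8 / 9 ≤ κ
  κ1 : κ ≤ 1
  N34 : 3 / 4 * κ ≤ N
  N84 : 103 * N ≤ 84 * κ
  MN : 2 * N ≤ 3 * M
  a0 : 0 ≤ a
  a12 : 12 * a ≤ κ
  c0 : 0 ≤ c
  c13 : 3 * c ≤ 1
  x0 : 0 ≤ x
  D0 : 0 ≤ D
  q43 : N + M + a ≤ 4 / 3
  sq2 : 3 / 4 * (a + c - x - 7 / 9 * (κ - M)) ≤ L - D
  L1 : 3 / 2 * D ≤ L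
  L2 : 1 / 2 - κ + (N + M + a - c) / 2 + 3 / 2 * D ≤ L
  L3 : 5 / 12 - 5 / 3 * κ + 3 / 4 * (N + M + a + c) + 3 / 2 * D ≤ L
  shr : x = 0 ∨ (x + 2 * D ≤ 1 / 36 * κ ∧ x + 7 / 10 * N ≤ 199 / 360 * κ ∧
    N + x ≤ 15 / 19 * κ ∧ x ≤ a + c - 7 / 9 * (κ - M))
  v0 : 0 ≤ v
  v1 : v ≤ 2 * N - κ + 3 * x
  v2 : v ≤ 3 / 4 * N + 3 * x

/-- from the normalised box -/
lemma fq_of_box {μ d κ N M u a c x v : ℝ} (hκ0 : 8 / 9 ≤ κ) (hκ1 : κ ≤ 1)
    (B : Bx918.Bx4 μ d (1 / κ) (N / κ) (M / κ) (u / κ) (a / κ) (c / κ) (x / κ) 0)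
    (hv0 : 0 ≤ v) (hv1 : v ≤ 2 * N - κ + 3 * x) (hv2 : v ≤ 3 / 4 * N + 3 * x) :
    Fq κ N M a c x v (κ * Al d (1 / κ) (N / κ + M / κ + a / κ) (c / κ) - 2 * d * (a + c))
      (d * κ) := by
  have hκ : 0 < κ := by linarith
  obtain ⟨N', rfl⟩ : ∃ N', N = κ * N' := ⟨N / κ, by field_simp⟩
  obtain ⟨M', rfl⟩ : ∃ M', M = κ * M' := ⟨M / κ, by field_simp⟩
  obtain ⟨a', rfl⟩ : ∃ a', a = κ * a' := ⟨a / κ, by field_simp⟩
  obtain ⟨c', rfl⟩ : ∃ c', c = κ * c' := ⟨c / κ, by field_simp⟩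
  obtain ⟨x', rfl⟩ : ∃ x', x = κ * x' := ⟨x / κ, by field_simp⟩
  simp only [mul_div_cancel_left₀ _ hκ.ne'] at B ⊢
  have m : ∀ {s t : ℝ}, s ≤ t → κ * s ≤ κ * t := fun h => mul_le_mul_of_nonneg_left h hκ.le
  have d0 := B.d0
  have n1 := m B.N34
  have n2 := m B.N84
  have n3 := m B.MN
  have a0 := m B.a0
  have a1 := m B.a12
  have c0 := m B.c0
  have x0 := m B.adm.1
  have dκ : d * κ ≤ d := by nlinarith
  have dκ0 : 0 ≤ d * κ := mul_nonneg d0 hκ.le
  have c1 : κ * c' ≤ 1 / 3 := by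
    have h1 := m B.cr
    have e : κ * (1 / κ) = 1 := by field_simp
    linarith
  have q1 : κ * N' + κ * M' + κ * a' ≤ 4 / 3 := by
    have h1 := m B.q43
    have e : κ * (4 / 3 * (1 / κ)) = 4 / 3 := by field_simp
    linarith
  have ac : d * (κ * a' + κ * c') ≤ d * (5 / 12) := mul_le_mul_of_nonneg_left (by linarith) d0
  have nm : d * (5 / 4 * κ) ≤ d * (κ * N' + κ * M') := mul_le_mul_of_nonneg_left (by linarith) d0
  have dk : d * (8 / 9) ≤ d * κ := mul_le_mul_of_nonneg_left hκ0 d0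
  have l1 : 8 / 3 * d ≤ κ * Al d (1 / κ) (N' + M' + a') c' := by
    have h1 : 8 / 3 * d * (1 / κ) ≤ Al d (1 / κ) (N' + M' + a') c' := le_max_left _ _
    have h2 := m h1
    have e : κ * (8 / 3 * d * (1 / κ)) = 8 / 3 * d := by field_simp
    linarith
  have l2 : 8 / 3 * d + 1 / 2 - κ + (κ * N' + κ * M' + κ * a' - κ * c') / 2 ≤
      κ * Al d (1 / κ) (N' + M' + a') c' := by
    have h1 : 1 / κ * (8 / 3 * d + 1 / 2) - 1 + ((N' + M' + a') - c') / 2 ≤
        Al d (1 / κ) (N' + M' + a') c' := (le_max_left _ _).trans (le_max_right _ _)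
    have h2 := m h1
    have e : κ * (1 / κ * (8 / 3 * d + 1 / 2) - 1 + ((N' + M' + a') - c') / 2) =
        8 / 3 * d + 1 / 2 - κ + (κ * N' + κ * M' + κ * a' - κ * c') / 2 := by
      field_simp
    linarith
  have l3 : 5 / 12 - 2 / 3 * d - 5 / 3 * κ +
      (3 / 4 + 2 * d) * (κ * N' + κ * M' + κ * a' + κ * c') ≤
      κ * Al d (1 / κ) (N' + M' + a') c' := by
    have h1 : 1 / κ * (5 / 12 - 2 / 3 * d) - 5 / 3 + (3 / 4 + 2 * d) * ((N' + M' + a') + c') ≤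
        Al d (1 / κ) (N' + M' + a') c' := (le_max_right _ _).trans (le_max_right _ _)
    have h2 := m h1
    have e : κ * (1 / κ * (5 / 12 - 2 / 3 * d) - 5 / 3 + (3 / 4 + 2 * d) *
        ((N' + M' + a') + c')) = 5 / 12 - 2 / 3 * d - 5 / 3 * κ +
        (3 / 4 + 2 * d) * (κ * N' + κ * M' + κ * a' + κ * c') := by
      field_simp
    linarith
  refine ⟨hκ0, hκ1, by linarith, by linarith, by linarith, by linarith, by linarith,
    by linarith, by linarith, by linarith, dκ0, q1, ?_, by linarith, by linarith, by linarith, ?_, hv0, hv1, hv2⟩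
  · have h1 := B.sq2
    have h2 := le_max_right 0 (a' + c' - x' - 7 / 9 * (1 - M'))
    have h3 := le_max_left 0 (5 / 4 * N' - 1)
    have h4 : 3 / 4 * (a' + c' - x' - 7 / 9 * (1 - M')) + 2 * d * (a' + c') ≤
        Al d (1 / κ) (N' + M' + a') c' - d := by linarith
    have h5 := m h4
    linarith
  · rcases B.shr with h | ⟨h1, h2, h3⟩
    · left; rw [h, mul_zero]
    · rcases le_total (a' + c' - 7 / 9 * (1 - M')) 0 with e | e
      · left
        have h4 := B.need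
        rw [max_eq_left e] at h4
        rw [le_antisymm h4 B.adm.1, mul_zero]
      · right
        have h4 := B.need
        rw [max_eq_right e] at h4
        have k1 := m h1
        have k2 := m h2
        have k3 := m h3
        have k4 := m h4
        exact ⟨by linarith, by linarith, by linarith, by linarith⟩

variable {κ N M a c x v L D k t G P β T E : ℝ}

set_option maxHeartbeats 3200000 in
/-- **linear core, `k ≤ 7/10 κ`** -/
lemma coreQ {y : ℝ} (F : Fq κ N M a c x v L D) (_hk : 0 ≤ k) (hk1 : 10 * k ≤ 7 * κ)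
    (ht : t ≤ 5 / 3 * N ∨ t ≤ N + (v + 5 / 4 * N) / 3 ∨ t ≤ N + (v + (N + v / 3)) / 3 ∨
      t ≤ N + (v + (36 * N + 72 * v) / 73) / 3)
    (hG : G ≤ k / 3 + v / 9 ∨ G ≤ 2 / 9 * k + v / 3 ∨ G ≤ k / 9 + 4 / 9 * v ∨ G ≤ v / 2)
    (hP : P ≤ 0 ∨ (((k ≤ M ∧ y = 3 * c) ∨ (M ≤ k ∧ y = 3 * (c - 7 / 9 * (k - M)))) ∧
      P ≤ 3 / 4 * (y - 2 / 3 * k) ∧ (P ≤ 2 / 3 * y - 31 / 72 * k ∨ P ≤ 3 / 4 * y - 2 / 3 * k))) :
    -2 / 3 * κ + k / 6 - v / 6 + t / 2 + G + 3 / 8 * a + P / 6 - N / 2 - L / 2 +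
      42 / 100 * D + κ / 400 ≤ 0 := by
  obtain ⟨κ0, κ1, N34, N84, MN, a0, a12, c0, c13, x0, D0, q43, sq2, L1, L2, L3, shr, v0, v1, v2⟩ := F
  rcases shr with rfl | ⟨s1, s2, s3, s4⟩ <;> rcases ht with ht | ht | ht | ht <;>
    rcases hG with hG | hG | hG | hG <;>
    rcases hP with hP | ⟨⟨hP1, rfl⟩ | ⟨hP1, rfl⟩, hP, hP2 | hP2⟩ <;> linarith

set_option maxHeartbeats 1600000 in
/-- **linear core, `7/10 κ ≤ k ≤ 17/20 κ`** -/
lemma coreP (F : Fq κ N M a c x v L D) (hk : 7 * κ ≤ 10 * k) (hk1 : 20 * k ≤ 17 * κ)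
    (hβ : 0 ≤ β)
    (hT : T ≤ v + 4 / 3 * (N - β))
    (ht : T ≤ 2 * (N - β) + 42 / 50 * D ∨
      T ≤ 4 / 3 * (N - β) + (v + 5 / 4 * N) / 3 + 42 / 50 * D ∨
      T ≤ 4 / 3 * (N - β) + (v + (N + v / 3)) / 3 + 42 / 50 * D ∨
      T ≤ 4 / 3 * (N - β) + (v + (36 * N + 72 * v) / 73) / 3 + 42 / 50 * D)
    (hG : G ≤ k ∨ G ≤ v + k / 3)
    (hE : E ≤ 0 ∨ (k ≤ M ∧ E ≤ c) ∨ (M ≤ k ∧ E ≤ c - 7 / 9 * (k - M))) :
    -2 / 3 * κ + k / 6 + (β - (N - β) / 3 + T - (k + v) / 3 + G) / 2 + 3 / 8 * a +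
      3 / 8 * E - N / 2 - L / 2 + κ / 400 ≤ 0 := by
  obtain ⟨κ0, κ1, N34, N84, MN, a0, a12, c0, c13, x0, D0, q43, sq2, L1, L2, L3, shr, v0, v1, v2⟩ := F
  rcases shr with rfl | ⟨s1, s2, s3, s4⟩ <;> rcases ht with ht | ht | ht | ht <;>
    rcases hG with hG | hG <;> rcases hE with hE | ⟨hE1, hE⟩ | ⟨hE1, hE⟩ <;> linarith

set_option maxHeartbeats 1600000 in
/-- **linear core, the principal `k`** -/
lemma coreB (F : Fq κ N M a c x v L D) (hk : 0 ≤ k) (hk1 : k ≤ κ)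
    (ht : t ≤ 5 / 3 * N ∨ t ≤ N + (v + 5 / 4 * N) / 3 ∨ t ≤ N + (v + (N + v / 3)) / 3 ∨
      t ≤ N + (v + (36 * N + 72 * v) / 73) / 3)
    (hG : G ≤ k ∨ G ≤ v ∨ G ≤ 2 / 3 * (k + v)) :
    -2 / 3 * κ - k / 6 + (t - (k + v) / 3 + G) / 2 + (a + c) / 2 - (N + M) / 2 - L / 2 +
      42 / 100 * D + κ / 400 ≤ 0 := by
  obtain ⟨κ0, κ1, N34, N84, MN, a0, a12, c0, c13, x0, D0, q43, sq2, L1, L2, L3, shr, v0, v1, v2⟩ := F
  rcases shr with rfl | ⟨s1, s2, s3, s4⟩ <;> rcases ht with ht | ht | ht | ht <;>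
    rcases hG with hG | hG | hG <;> linarith

lemma kT_le (F : Fq κ N M a c x v L D) : kT v N ≤ 28 / 25 * κ := by
  obtain ⟨κ0, κ1, N34, N84, MN, a0, a12, c0, c13, x0, D0, q43, sq2, L1, L2, L3, shr, v0, v1, v2⟩ := F
  unfold kT
  rcases shr with rfl | ⟨s1, s2, s3, s4⟩ <;> refine max_le ?_ (max_le ?_ ?_) <;> linarith

lemma kT_cases (v N : ℝ) : kT v N = 5 / 4 * N ∨ kT v N = N + v / 3 ∨
    kT v N = (36 * N + 72 * v) / 73 := by
  unfold kT
  rcases max_choice (5 / 4 * N) (max (N + v / 3) ((36 * N + 72 * v) / 73)) with h | h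
  · exact Or.inl h
  · rcases max_choice (N + v / 3) ((36 * N + 72 * v) / 73) with g | g
    · exact Or.inr (Or.inl (h.trans g))
    · exact Or.inr (Or.inr (h.trans g))

lemma t_cases (v N : ℝ) :
    max (2 * N) (4 / 3 * N + (v + kT v N) / 3) - N / 3 ≤ 5 / 3 * N ∨
      max (2 * N) (4 / 3 * N + (v + kT v N) / 3) - N / 3 ≤ N + (v + 5 / 4 * N) / 3 ∨
      max (2 * N) (4 / 3 * N + (v + kT v N) / 3) - N / 3 ≤ N + (v + (N + v / 3)) / 3 ∨
      max (2 * N) (4 / 3 * N + (v + kT v N) / 3) - N / 3 ≤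
        N + (v + (36 * N + 72 * v) / 73) / 3 := by
  rcases max_choice (2 * N) (4 / 3 * N + (v + kT v N) / 3) with h | h
  · left; rw [h]; linarith
  · right
    rw [h]
    rcases kT_cases v N with g | g | g
    · left; rw [g]; linarith
    · right; left; rw [g]; linarith
    · right; right; rw [g]; linarith

lemma mn_eq {k M : ℝ} (h4 : k ≤ 4 * M) :
    min (7 / 9 * max 0 (k - M)) (max 0 (2 / 3 * k - M / 3)) = 7 / 9 * max 0 (k - M) := by
  refine min_eq_left ?_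
  rcases le_total (k - M) 0 with h | h
  · rw [max_eq_left h, mul_zero]; exact le_max_left _ _
  · rw [max_eq_right h]; exact le_trans (by linarith) (le_max_right _ _)

lemma fq_of {A d : ℝ} (hd : 0 ≤ d) (hd1 : d ≤ 1 / 8) (hA : A ≤ 1) (hA1 : 16 * (1 - A) ≤ d)
    {q : (Option (Fin 3 ⊕ Fin 5) → ℝ) × (Kd → ℝ)} (h : q ∈ SqL A d) :
    Fq (cκ (dn q.1)) (cN (dn q.1)) (cM (dn q.1)) (q.2 .mo) (q.2 .am) (cx' (dn q.1)) (q.1 none)
      (cκ (dn q.1) * Al d (1 / cκ (dn q.1)) (cN (dn q.1) / cκ (dn q.1) +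
        cM (dn q.1) / cκ (dn q.1) + q.2 .mo / cκ (dn q.1)) (q.2 .am / cκ (dn q.1)) -
        2 * d * (q.2 .mo + q.2 .am)) (d * cκ (dn q.1)) := by
  obtain ⟨h1, h2, h3⟩ := h
  have h1 : Sq5 A d (dn q.1) q.2 := h1
  have n1 := Nr5.N_ge h1.toNr5
  have k0 := h1.κ0
  have k1 := h1.κ1
  have hκ : 0 < cκ (dn q.1) := by linarith
  have hA2 : 127 / 128 * cκ (dn q.1) ≤ A * cκ (dn q.1) :=
    mul_le_mul_of_nonneg_right (by linarith) hκ.le
  have h5 : 0 ≤ cx' (dn q.1) := h1.x0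
  have t9 : 0 ≤ Bx918.top9 (dn q.1) := by
    unfold Bx918.top9
    have h6 : 0 ≤ min (2 * cN (dn q.1) - cκ (dn q.1)) (3 / 4 * cN (dn q.1)) :=
      le_min (by linarith) (by linarith)
    linarith
  have B := Bx918.bx4 hd hd1 hA hA1 h1 (v := 0) le_rfl t9
  rw [zero_div] at B
  unfold top5 at h3
  have e1 := min_le_left (2 * cN (dn q.1) - cκ (dn q.1)) (3 / 4 * cN (dn q.1))
  have e2 := min_le_right (2 * cN (dn q.1) - cκ (dn q.1)) (3 / 4 * cN (dn q.1))
  exact fq_of_box k0 k1 B h2 (by linarith) (by linarith)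

lemma T5_of {d : ℝ} {q : (Fin 3 ⊕ Fin 5 → ℝ) × (Kd → ℝ)} (h0 : 0 < cκ q.1) :
    T5 (7 / 8 + d) q = cκ q.1 + (cN q.1 + cM q.1 + q.2 .mo + q.2 .am) / 2 +
      cκ q.1 * Al d (1 / cκ q.1) (cN q.1 / cκ q.1 + cM q.1 / cκ q.1 +
        q.2 .mo / cκ q.1) (q.2 .am / cκ q.1) / 2 := by
  have h1 := Bx918.two_T5 (d := d) (q := q) h0
  have e : cκ q.1 * (2 + (cN q.1 / cκ q.1 + cM q.1 / cκ q.1 + q.2 .mo / cκ q.1 +
      q.2 .am / cκ q.1) + Al d (1 / cκ q.1) (cN q.1 / cκ q.1 + cM q.1 / cκ q.1 +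
        q.2 .mo / cκ q.1) (q.2 .am / cκ q.1)) = 2 * cκ q.1 +
      (cN q.1 + cM q.1 + q.2 .mo + q.2 .am) + cκ q.1 * Al d (1 / cκ q.1)
        (cN q.1 / cκ q.1 + cM q.1 / cκ q.1 + q.2 .mo / cκ q.1) (q.2 .am / cκ q.1) := by
    rw [mul_add, mul_add]
    congr 1
    congr 1
    · ring
    · field_simp
  rw [e] at h1
  linarith

/-- fourth moment, large sieve, all families -/
def g4c (d v N k : ℝ) : ℝ :=
  2 * tT d v N - 2 / 3 * (k + v) + max (k + 2 / 3 * v) (max (2 * v) (2 / 3 * (k + 2 * v)))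

/-- amplifier alone, all lengths -/
def e0c (d k y : ℝ) : ℝ :=
  k + max y (min (y + 3 / 4 * max 0 (y - 2 / 3 * k))
    (max (5 / 3 * y - 31 / 72 * k) (7 / 4 * y - 2 / 3 * k))) + 2 * d * y

/-- **the Hölder line**, true large sieve numbers -/
theorem realQc {A d : ℝ} (hd : 0 ≤ d) (hd1 : d ≤ 1 / 8) (hA : A ≤ 1) (hA1 : 16 * (1 - A) ≤ d) :
    ∀ q ∈ SqL A d, ∀ k : ℝ, 0 ≤ k → 10 * k ≤ 7 * cκ (dn q.1) →
    (cκ (dn q.1) - k) / 3 +
      g2b d (q.1 none) (cN (dn q.1)) k / 6 + g4c d (q.1 none) (cN (dn q.1)) k / 6 +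
      YM61.EA d k (cM (dn q.1)) (q.2 .mo) (b1 k (cM (dn q.1)) (q.2 .am)) / 2 +
      e0c d k (3 * (q.2 .am - b1 k (cM (dn q.1)) (q.2 .am))) / 6 ≤
    T5 (7 / 8 + d) (dn q.1, q.2) - 1 / 450 := by
  intro q hq k hk0 hk1
  have F := fq_of hd hd1 hA hA1 hq
  have hκ : 0 < cκ (dn q.1) := by linarith [F.κ0]
  have hT := T5_of (d := d) (q := (dn q.1, q.2)) hκ
  have hkT := kT_le F
  simp only at hT
  rw [hT]
  generalize cκ (dn q.1) * Al d (1 / cκ (dn q.1)) (cN (dn q.1) / cκ (dn q.1) +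
    cM (dn q.1) / cκ (dn q.1) + q.2 .mo / cκ (dn q.1)) (q.2 .am / cκ (dn q.1)) = Lal at F hT ⊢
  clear hT hq
  generalize cκ (dn q.1) = κ at *
  generalize cN (dn q.1) = N at *
  generalize cM (dn q.1) = M at *
  generalize cx' (dn q.1) = x at *
  generalize q.2 .mo = a at *
  generalize q.2 .am = c at *
  generalize q.1 none = v at *
  have hdk : d * kT v N ≤ d * (28 / 25 * κ) := mul_le_mul_of_nonneg_left hkT hd
  have hκ1 := F.κ0
  have hM : κ / 2 ≤ M := by linarith [F.MN, F.N34]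
  -- the amplifier
  have hb0 : b1 k M c ≤ 7 / 9 * max 0 (k - M) := min_le_right _ _
  have heC : YM61.eC k M (b1 k M c) = 0 := by
    unfold YM61.eC
    rw [mn_eq (by linarith)]
    exact max_eq_left (by linarith)
  set y := 3 * (c - b1 k M c) with hy
  set P0 := min (y + 3 / 4 * max 0 (y - 2 / 3 * k)) (max (5 / 3 * y - 31 / 72 * k)
    (7 / 4 * y - 2 / 3 * k)) - y with hP0
  have p1 : P0 ≤ 3 / 4 * max 0 (y - 2 / 3 * k) := by
    have := min_le_left (y + 3 / 4 * max 0 (y - 2 / 3 * k)) (max (5 / 3 * y - 31 / 72 * k)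
      (7 / 4 * y - 2 / 3 * k))
    linarith
  have p2 : P0 ≤ max (5 / 3 * y - 31 / 72 * k) (7 / 4 * y - 2 / 3 * k) - y := by
    have := min_le_right (y + 3 / 4 * max 0 (y - 2 / 3 * k)) (max (5 / 3 * y - 31 / 72 * k)
      (7 / 4 * y - 2 / 3 * k))
    linarith
  have hP' : P0 ≤ 0 ∨ (((k ≤ M ∧ y = 3 * c) ∨ (M ≤ k ∧ y = 3 * (c - 7 / 9 * (k - M)))) ∧
      P0 ≤ 3 / 4 * (y - 2 / 3 * k) ∧
      (P0 ≤ 2 / 3 * y - 31 / 72 * k ∨ P0 ≤ 3 / 4 * y - 2 / 3 * k)) := by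
    rcases le_total (y - 2 / 3 * k) 0 with h | h
    · left; rw [max_eq_left h] at p1; linarith
    · rw [max_eq_right h] at p1
      have p3 : P0 ≤ 2 / 3 * y - 31 / 72 * k ∨ P0 ≤ 3 / 4 * y - 2 / 3 * k := by
        rcases max_choice (5 / 3 * y - 31 / 72 * k) (7 / 4 * y - 2 / 3 * k) with e | e
        · left; rw [e] at p2; linarith
        · right; rw [e] at p2; linarith
      rcases le_total k M with g | g
      · right
        have e : b1 k M c = 0 := by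
          unfold b1
          rw [max_eq_left (by linarith), mul_zero, min_eq_right F.c0]
        exact ⟨Or.inl ⟨g, by rw [hy, e, sub_zero]⟩, p1, p3⟩
      · rcases min_choice c (7 / 9 * max 0 (k - M)) with e | e
        · left
          have e' : b1 k M c = c := e
          have e2 : y = 0 := by rw [hy, e', sub_self, mul_zero]
          linarith
        · right
          have g0 : (0 : ℝ) ≤ k - M := by linarith
          have e' : b1 k M c = 7 / 9 * (k - M) := by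
            rw [max_eq_right g0] at e
            unfold b1
            rw [max_eq_right g0]
            exact e
          exact ⟨Or.inr ⟨g, by rw [hy, e']⟩, p1, p3⟩
  set P := max 0 P0 with hPd
  have hP : P ≤ 0 ∨ (((k ≤ M ∧ y = 3 * c) ∨ (M ≤ k ∧ y = 3 * (c - 7 / 9 * (k - M)))) ∧
      P ≤ 3 / 4 * (y - 2 / 3 * k) ∧ (P ≤ 2 / 3 * y - 31 / 72 * k ∨ P ≤ 3 / 4 * y - 2 / 3 * k)) := by
    rcases le_total P0 0 with h | h
    · left; rw [hPd, max_eq_left h]
    · rw [hPd, max_eq_right h]; exact hP'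
  -- the structured function
  have ht := t_cases v N
  have hG : (max k (max v (2 / 3 * (k + v))) +
      max (k + 2 / 3 * v) (max (2 * v) (2 / 3 * (k + 2 * v)))) / 6 ≤ k / 3 + v / 9 ∨
      (max k (max v (2 / 3 * (k + v))) +
      max (k + 2 / 3 * v) (max (2 * v) (2 / 3 * (k + 2 * v)))) / 6 ≤ 2 / 9 * k + v / 3 ∨
      (max k (max v (2 / 3 * (k + v))) +
      max (k + 2 / 3 * v) (max (2 * v) (2 / 3 * (k + 2 * v)))) / 6 ≤ k / 9 + 4 / 9 * v ∨
      (max k (max v (2 / 3 * (k + v))) +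
      max (k + 2 / 3 * v) (max (2 * v) (2 / 3 * (k + 2 * v)))) / 6 ≤ v / 2 := by
    have v0 := F.v0
    have m1 : ∀ {s : ℝ}, k ≤ s → v ≤ s → 2 / 3 * (k + v) ≤ s →
        max k (max v (2 / 3 * (k + v))) ≤ s := fun h1 h2 h3 => max_le h1 (max_le h2 h3)
    have m2 : ∀ {s : ℝ}, k + 2 / 3 * v ≤ s → 2 * v ≤ s → 2 / 3 * (k + 2 * v) ≤ s →
        max (k + 2 / 3 * v) (max (2 * v) (2 / 3 * (k + 2 * v))) ≤ s :=
      fun h1 h2 h3 => max_le h1 (max_le h2 h3)
    rcases le_total (2 * v) k with h0 | h0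
    · left
      have a1 := m1 (s := k) le_rfl (by linarith) (by linarith)
      have a2 := m2 (s := k + 2 / 3 * v) le_rfl (by linarith) (by linarith)
      linarith
    · right
      rcases le_total v k with h | h
      · left
        have a1 := m1 (s := 2 / 3 * (k + v)) (by linarith) (by linarith) le_rfl
        have a2 := m2 (s := 2 / 3 * (k + 2 * v)) (by linarith) (by linarith) le_rfl
        linarith
      · right
        have a2 := m2 (s := 2 * v) (by linarith) le_rfl (by linarith)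
        rcases le_total v (2 * k) with h' | h'
        · left
          have a1 := m1 (s := 2 / 3 * (k + v)) (by linarith) (by linarith) le_rfl
          linarith
        · right
          have a1 := m1 (s := v) (by linarith) le_rfl (by linarith)
          linarith
  have := coreQ F hk0 hk1 ht hG hP
  have hE : e0c d k y = k + (P + y) + 2 * d * y := by
    have e : max y (min (y + 3 / 4 * max 0 (y - 2 / 3 * k)) (max (5 / 3 * y - 31 / 72 * k)
        (7 / 4 * y - 2 / 3 * k))) = P + y := by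
      rw [hPd, hP0, max_add, zero_add, sub_add_cancel]
    unfold e0c
    rw [e]
  have hy2 : d * y = 3 * (d * c) - 3 * (d * b1 k M c) := by rw [hy]; ring
  unfold g2b g4c tT YM61.EA
  rw [hE, heC]
  linarith

/-- **helper47's `RealQ`** -/
theorem realQ {A d : ℝ} (hd : 0 ≤ d) (hd1 : d ≤ 1 / 8) (hA : A ≤ 1) (hA1 : 16 * (1 - A) ≤ d) :
    RealQ A d (1 / 450) := by
  intro q hq k hk0 hk1
  refine le_trans ?_ (realQc hd hd1 hA hA1 q hq k hk0 hk1)
  have h1 : g2 d (q.1 none) (cN (dn q.1)) k ≤ g2b d (q.1 none) (cN (dn q.1)) k := by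
    unfold g2 g2b
    have := le_max_right k (max (q.1 none) (2 / 3 * (k + q.1 none)))
    linarith
  have h2 : g4 d (q.1 none) (cN (dn q.1)) k ≤ g4c d (q.1 none) (cN (dn q.1)) k := by
    unfold g4 g4c
    have := le_max_right (k + 2 / 3 * q.1 none) (max (2 * q.1 none) (2 / 3 * (k + 2 * q.1 none)))
    linarith
  have h3 : ∀ y, e0 d k y ≤ e0c d k y := by
    intro y
    unfold e0 e0c
    have := le_max_right y (min (y + 3 / 4 * max 0 (y - 2 / 3 * k))
      (max (5 / 3 * y - 31 / 72 * k) (7 / 4 * y - 2 / 3 * k)))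
    linarith
  have h4 := h3 (3 * (q.2 .am - b1 k (cM (dn q.1)) (q.2 .am)))
  linarith

/-- **helper47's `RealP`** -/
theorem realP {A d : ℝ} (hd : 0 ≤ d) (hd1 : d ≤ 1 / 8) (hA : A ≤ 1) (hA1 : 16 * (1 - A) ≤ d) :
    RealP A d (1 / 450) := by
  intro q hq k β hk0 hk1 hβ _
  have F := fq_of hd hd1 hA hA1 hq
  have hκ : 0 < cκ (dn q.1) := by linarith [F.κ0]
  have hT := T5_of (d := d) (q := (dn q.1, q.2)) hκ
  have hkT := kT_le F
  simp only at hT
  rw [hT]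
  generalize cκ (dn q.1) * Al d (1 / cκ (dn q.1)) (cN (dn q.1) / cκ (dn q.1) +
    cM (dn q.1) / cκ (dn q.1) + q.2 .mo / cκ (dn q.1)) (q.2 .am / cκ (dn q.1)) = Lal at F hT ⊢
  clear hT hq
  generalize cκ (dn q.1) = κ at *
  generalize cN (dn q.1) = N at *
  generalize cM (dn q.1) = M at *
  generalize cx' (dn q.1) = x at *
  generalize cu (dn q.1) 4 = u at *
  generalize q.2 .mo = a at *
  generalize q.2 .am = c at *
  generalize q.1 none = v at *
  have hdk : d * kT v N ≤ d * (28 / 25 * κ) := mul_le_mul_of_nonneg_left hkT hd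
  have hκ1 := F.κ0
  have hM : κ / 2 ≤ M := by linarith [F.MN, F.N34]
  set T := min (max (2 * (N - β)) (4 / 3 * (N - β) + (v + kT v N) / 3) + 3 / 4 * d * kT v N)
      (v + (N - β) + min u ((N - β) / 3)) with hTd
  have t1 : T ≤ v + 4 / 3 * (N - β) := by
    have h1 : T ≤ v + (N - β) + min u ((N - β) / 3) := min_le_right _ _
    have h2 := min_le_right u ((N - β) / 3)
    linarith
  have t2 : T ≤ max (2 * (N - β)) (4 / 3 * (N - β) + (v + kT v N) / 3) + 3 / 4 * d * kT v N :=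
    min_le_left _ _
  have t3 : 3 / 4 * d * kT v N ≤ 42 / 50 * (d * κ) := by linarith
  have ht : T ≤ 2 * (N - β) + 42 / 50 * (d * κ) ∨
      T ≤ 4 / 3 * (N - β) + (v + 5 / 4 * N) / 3 + 42 / 50 * (d * κ) ∨
      T ≤ 4 / 3 * (N - β) + (v + (N + v / 3)) / 3 + 42 / 50 * (d * κ) ∨
      T ≤ 4 / 3 * (N - β) + (v + (36 * N + 72 * v) / 73) / 3 + 42 / 50 * (d * κ) := by
    rcases max_choice (2 * (N - β)) (4 / 3 * (N - β) + (v + kT v N) / 3) with h | h
    · left; rw [h] at t2; linarith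
    · right
      rw [h] at t2
      rcases kT_cases v N with g | g | g
      · left; rw [g] at t2 t3; linarith
      · right; left; rw [g] at t2 t3; linarith
      · right; right; rw [g] at t2 t3; linarith
  have hG : max k (v + k / 3) ≤ k ∨ max k (v + k / 3) ≤ v + k / 3 := by
    rcases le_total (v + k / 3) k with h | h
    · left; rw [max_eq_left h]
    · right; rw [max_eq_right h]
  have hE : YM61.eC k M c ≤ 0 ∨ (k ≤ M ∧ YM61.eC k M c ≤ c) ∨
      (M ≤ k ∧ YM61.eC k M c ≤ c - 7 / 9 * (k - M)) := by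
    unfold YM61.eC
    rw [mn_eq (by linarith)]
    rcases le_total (c - 7 / 9 * max 0 (k - M)) 0 with h | h
    · left; rw [max_eq_left h]
    · right
      rw [max_eq_right h]
      rcases le_total k M with g | g
      · left
        rw [max_eq_left (by linarith : k - M ≤ 0)]
        exact ⟨g, by linarith⟩
      · right
        rw [max_eq_right (by linarith : (0 : ℝ) ≤ k - M)]
        exact ⟨g, le_rfl⟩
  have := coreP F hk0 hk1 hβ t1 ht hG hE
  unfold gp YM61.EA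
  rw [← hTd]
  linarith

/-- **helper47's `RealB`** -/
theorem realB {A d : ℝ} (hd : 0 ≤ d) (hd1 : d ≤ 1 / 8) (hA : A ≤ 1) (hA1 : 16 * (1 - A) ≤ d) :
    RealB A d (1 / 450) := by
  intro q hq k hk0 hk1
  have F := fq_of hd hd1 hA hA1 hq
  have hκ : 0 < cκ (dn q.1) := by linarith [F.κ0]
  have hT := T5_of (d := d) (q := (dn q.1, q.2)) hκ
  have hkT := kT_le F
  simp only at hT
  rw [hT]
  generalize cκ (dn q.1) * Al d (1 / cκ (dn q.1)) (cN (dn q.1) / cκ (dn q.1) +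
    cM (dn q.1) / cκ (dn q.1) + q.2 .mo / cκ (dn q.1)) (q.2 .am / cκ (dn q.1)) = Lal at F hT ⊢
  clear hT hq
  generalize cκ (dn q.1) = κ at *
  generalize cN (dn q.1) = N at *
  generalize cM (dn q.1) = M at *
  generalize cx' (dn q.1) = x at *
  generalize q.2 .mo = a at *
  generalize q.2 .am = c at *
  generalize q.1 none = v at *
  have hdk : d * kT v N ≤ d * (28 / 25 * κ) := mul_le_mul_of_nonneg_left hkT hd
  have hκ1 := F.κ0
  have ht := t_cases v N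
  have hac : 0 ≤ d * (a + c) := mul_nonneg hd (by linarith [F.a0, F.c0])
  have hG : max k (max v (2 / 3 * (k + v))) ≤ k ∨ max k (max v (2 / 3 * (k + v))) ≤ v ∨
      max k (max v (2 / 3 * (k + v))) ≤ 2 / 3 * (k + v) := by
    rcases max_choice k (max v (2 / 3 * (k + v))) with h | h
    · left; rw [h]
    · rcases max_choice v (2 / 3 * (k + v)) with g | g
      · right; left; rw [h, g]
      · right; right; rw [h, g]
  have := coreB F hk0 hk1 ht hG
  unfold g2b tT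
  linarith

end Crest.Agent.R017.RQ702
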