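import Crest.Agent.R017.RQ_702

/-!
# Row 17, R8: `TailU`, the linear cores with the family `200/61 z` (helper90)

The near field needs `z ≤ 61/200 K` at the own family `K` of a child; `z` = the largest lump of the
three-lump side, `2 z ≤ M`, `z ≤ 3 N - 2 κ + D / 8`.

* `coreQz`, `corePz`, `coreBz` : the case `K = 200/61 z` of helper702's `coreQ`, `coreP`, `coreB`
-/

set_option autoImplicit false

noncomputable section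

namespace Crest.Agent.R017.RQ90

open Crest.Agent.R017.RQ702

variable {κ N M a c x v L D k t G P β T E : ℝ}

set_option maxHeartbeats 3200000 in
/-- **linear core, `k ≤ 7/10 κ`** -/
lemma coreQz {y z : ℝ} (F : Fq κ N M a c x v L D) (_hk : 0 ≤ k) (hk1 : 10 * k ≤ 7 * κ)
    (hz : 2 * z ≤ M) (hz1 : z ≤ 3 * N - 2 * κ + D / 8)
    (ht : t ≤ N + (v + 200 / 61 * z) / 3)
    (hG : G ≤ k / 3 + v / 9 ∨ G ≤ 2 / 9 * k + v / 3 ∨ G ≤ k / 9 + 4 / 9 * v ∨ G ≤ v / 2)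
    (hP : P ≤ 0 ∨ (((k ≤ M ∧ y = 3 * c) ∨ (M ≤ k ∧ y = 3 * (c - 7 / 9 * (k - M)))) ∧
      P ≤ 3 / 4 * (y - 2 / 3 * k) ∧ (P ≤ 2 / 3 * y - 31 / 72 * k ∨ P ≤ 3 / 4 * y - 2 / 3 * k))) :
    -2 / 3 * κ + k / 6 - v / 6 + t / 2 + G + 3 / 8 * a + P / 6 - N / 2 - L / 2 +
      42 / 100 * D + κ / 400 ≤ 0 := by
  obtain ⟨κ0, κ1, N34, N84, MN, a0, a12, c0, c13, x0, D0, q43, sq2, L1, L2, L3, shr, v0, v1, v2⟩ := F
  rcases shr with rfl | ⟨s1, s2, s3, s4⟩ <;>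
    rcases hG with hG | hG | hG | hG <;>
    rcases hP with hP | ⟨⟨hP1, rfl⟩ | ⟨hP1, rfl⟩, hP, hP2 | hP2⟩ <;> linarith
set_option maxHeartbeats 1600000 in
/-- **linear core, `7/10 κ ≤ k ≤ 17/20 κ`** -/
lemma corePz {z : ℝ} (F : Fq κ N M a c x v L D) (hk : 7 * κ ≤ 10 * k) (hk1 : 20 * k ≤ 17 * κ)
    (hz : 2 * z ≤ M) (hz1 : z ≤ 3 * N - 2 * κ + D / 8)
    (ht : T ≤ 4 / 3 * (N - β) + (v + 200 / 61 * z) / 3 + 42 / 50 * D)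
    (hG : G ≤ k ∨ G ≤ v + k / 3)
    (hE : E ≤ 0 ∨ (k ≤ M ∧ E ≤ c) ∨ (M ≤ k ∧ E ≤ c - 7 / 9 * (k - M))) :
    -2 / 3 * κ + k / 6 + (β - (N - β) / 3 + T - (k + v) / 3 + G) / 2 + 3 / 8 * a +
      3 / 8 * E - N / 2 - L / 2 + κ / 400 ≤ 0 := by
  obtain ⟨κ0, κ1, N34, N84, MN, a0, a12, c0, c13, x0, D0, q43, sq2, L1, L2, L3, shr, v0, v1, v2⟩ := F
  rcases shr with rfl | ⟨s1, s2, s3, s4⟩ <;>
    rcases hG with hG | hG <;> rcases hE with hE | ⟨hE1, hE⟩ | ⟨hE1, hE⟩ <;> linarith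

set_option maxHeartbeats 1600000 in
/-- **linear core, the principal `k`** -/
lemma coreBz {z : ℝ} (F : Fq κ N M a c x v L D) (hk : 0 ≤ k) (hk1 : k ≤ κ)
    (hz : 2 * z ≤ M) (hz1 : z ≤ 3 * N - 2 * κ + D / 8)
    (ht : t ≤ N + (v + 200 / 61 * z) / 3)
    (hG : G ≤ k ∨ G ≤ v ∨ G ≤ 2 / 3 * (k + v)) :
    -2 / 3 * κ - k / 6 + (t - (k + v) / 3 + G) / 2 + (a + c) / 2 - (N + M) / 2 - L / 2 +
      42 / 100 * D + κ / 400 ≤ 0 := by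
  obtain ⟨κ0, κ1, N34, N84, MN, a0, a12, c0, c13, x0, D0, q43, sq2, L1, L2, L3, shr, v0, v1, v2⟩ := F
  rcases shr with rfl | ⟨s1, s2, s3, s4⟩ <;>
    rcases hG with hG | hG | hG <;> linarith
end Crest.Agent.R017.RQ90
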