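import Crest.Agent.R017.YM_61
import Crest.Agent.R017.E5L2_770

/-!
# Row 17, R8: `TailU`, the real inequalities (helper47)

Base `X`. `κ` = family, `k` = exponent of the cube-free part `k₁` (`k = k₁ m³`), `v` = level,
`N` = length of the three-lump side, `x` = share, `M, q, c` = second side.

* `tT` : exponent of the `T`-moment minus `N/3`, from `FlatL` at the free parent
  `(kT, u₃, u₄, u₅, x~)`, `x~ = max 0 ((v - 2 N + kT) / 5)`
* `g2`, `g4` : second and fourth moment of the structured function by the cubic large sieve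
* `gp` : second moment, class form
* `RealQ` : Hölder, `k ≤ 7/10 κ`;  `RealP` : Cauchy, `7/10 κ ≤ k ≤ 17/20 κ`;  `RealB` : the bad `k`
-/

set_option autoImplicit false

noncomputable section

namespace Crest.Agent.R017.TU47

open Crest.Agent.R017.B770 Crest.Agent.R017.E5B71 Crest.Agent.R017.E5L770

/-- family of the free parent (its share is `max 0 ((v - 2 N + kT) / 5)`) -/
def kT (v N : ℝ) : ℝ := max (5 / 4 * N) (max (N + v / 3) ((36 * N + 72 * v) / 73))

/-- exponent of the `T`-moment, minus `N / 3` -/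
def tT (d v N : ℝ) : ℝ :=
  max (2 * N) (4 / 3 * N + (v + kT v N) / 3) - N / 3 + 3 / 4 * d * kT v N

/-- second moment, large sieve -/
def g2 (d v N k : ℝ) : ℝ := tT d v N - (k + v) / 3 + max v (2 / 3 * (k + v))

/-- second moment, large sieve, all families -/
def g2b (d v N k : ℝ) : ℝ := tT d v N - (k + v) / 3 + max k (max v (2 / 3 * (k + v)))

/-- fourth moment, large sieve -/
def g4 (d v N k : ℝ) : ℝ :=
  2 * tT d v N - 2 / 3 * (k + v) + max (2 * v) (2 / 3 * (k + 2 * v))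

/-- second moment, class form, at the parent of length `N - β`, shortest piece `u` -/
def gp (d v N u k β : ℝ) : ℝ :=
  β - (N - β) / 3 +
    min (max (2 * (N - β)) (4 / 3 * (N - β) + (v + kT v N) / 3) + 3 / 4 * d * kT v N)
      (v + (N - β) + min u ((N - β) / 3)) -
    (k + v) / 3 + max k (v + k / 3)

/-- amplifier alone : ideal up to `2/3 k`, or the B-line -/
def e0 (d k y : ℝ) : ℝ :=
  k + min (y + 3 / 4 * max 0 (y - 2 / 3 * k)) (max (5 / 3 * y - 31 / 72 * k) (7 / 4 * y - 2 / 3 * k)) +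
    2 * d * y

/-- amplifier mass which stays with the two lumps -/
def b1 (k M c : ℝ) : ℝ := min c (7 / 9 * max 0 (k - M))

/-- **real inequality of the families `k ≤ 7/10 κ`** -/
def RealQ (A d μ : ℝ) : Prop := ∀ q ∈ SqL A d, ∀ k : ℝ, 0 ≤ k → 10 * k ≤ 7 * cκ (dn q.1) →
  (cκ (dn q.1) - k) / 3 +
      g2 d (q.1 none) (cN (dn q.1)) k / 6 + g4 d (q.1 none) (cN (dn q.1)) k / 6 +
      YM61.EA d k (cM (dn q.1)) (q.2 .mo) (b1 k (cM (dn q.1)) (q.2 .am)) / 2 +
      e0 d k (3 * (q.2 .am - b1 k (cM (dn q.1)) (q.2 .am))) / 6 ≤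
    T5 (7 / 8 + d) (dn q.1, q.2) - μ

/-- **real inequality of the families `7/10 κ ≤ k ≤ 17/20 κ`**, parent of length `N - β` -/
def RealP (A d μ : ℝ) : Prop := ∀ q ∈ SqL A d, ∀ k β : ℝ, 7 * cκ (dn q.1) ≤ 10 * k →
  20 * k ≤ 17 * cκ (dn q.1) → 0 ≤ β →
  β ≤ cN (dn q.1) + cx' (dn q.1) - cκ (dn q.1) / 2 →
  (cκ (dn q.1) - k) / 3 +
      (gp d (q.1 none) (cN (dn q.1)) (cu (dn q.1) 4) k β +
        YM61.EA d k (cM (dn q.1)) (q.2 .mo) (q.2 .am)) / 2 ≤
    T5 (7 / 8 + d) (dn q.1, q.2) - μ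

/-- **real inequality of the principal `k`** -/
def RealB (A d μ : ℝ) : Prop := ∀ q ∈ SqL A d, ∀ k : ℝ, 0 ≤ k → k ≤ cκ (dn q.1) →
  ((cκ (dn q.1) - k) / 3 + g2b d (q.1 none) (cN (dn q.1)) k) / 2 +
      (cκ (dn q.1) / 3 + 2 * (q.2 .mo + q.2 .am)) / 2 ≤
    T5 (7 / 8 + d) (dn q.1, q.2) - μ

end Crest.Agent.R017.TU47
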