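import Crest.Agent.R017.TUH_47
import Crest.Agent.R017.TUR_47
import Crest.Agent.R017.Sf_770

/-!
# Row 17, R8: `TailU`, the inputs of the three-lump side (helper47)

* `FrT` : the frame of `UB (lev (log 2) S5) Dq .. (SqL A d)` without the list
* `kf` : exponent of the family of the cube-free part at `m`
* `SIn e` : `e`-th moment (`e = 2, 4`) of one level of the structured function at `k₁ m³`,
  exponent `g v N k`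
* `SPIn` : second moment, class form, `k ∈ [7/10 κ, 17/20 κ]`, exponent `gp`
-/

set_option autoImplicit false

noncomputable section

namespace Crest.Agent.R017.TU47

open Crest.Agent.R012 Crest.Agent.R012.Eis
open Crest.Agent.R017.FE47
open Crest.Agent.R017.XT71 (Sys Win)
open Crest.Agent.R017.B770 Crest.Agent.R017.Prov71
open Crest.Agent.R017.E5B71 Crest.Agent.R017.E5L770

/-- the frame -/
structure FrT (A d δ δ' B X : ℝ) (N : ℕ) (a : Bd × ℕ)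
    (q : (Option (Fin 3 ⊕ Fin 5) → ℝ) × (Kd → ℝ)) : Prop where
  dom : q ∈ SqL A d
  win : Win (lev (Real.log 2) S5) q.1 δ N B δ' X a
  ok : a.1.ok
  lvl : a.2 < nL a.1.l (a3 a.1) a.1.z

/-- family of the cube-free part at `m`, `N (k₁ m³) ≤ e^{l + R}` -/
def kf (l R X : ℝ) (m : Eis) : ℝ := (l + R - 3 * Real.log (nm m)) / Real.log X

variable {Λ : Type*} (π : Λ → DPar)

/-- **moments of the structured function at `k₁ m³`** (`k₁` cube-free, `N (k₁ m³)` in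
`[e^{l-R}, e^{l+R}]`) -/
def SIn (Sf : ℕ → SF Λ) (A d : ℝ) (e : ℕ) (g : ℝ → ℝ → ℝ → ℝ) : Prop :=
  ∀ R : Λ → ℝ, (∀ lam, 0 ≤ R lam) → ∀ ε : ℝ, 0 < ε → ∃ δ : ℝ, 0 < δ ∧
    ∀ (lam : Λ × Eis) (N : ℕ) (B : ℝ), ∃ δ' : ℝ, 0 < δ' ∧ ∃ X₀ : ℝ, 1 < X₀ ∧
    ∀ X : ℝ, X₀ ≤ X → ∀ (a : Bd × ℕ) (q : (Option (Fin 3 ⊕ Fin 5) → ℝ) × (Kd → ℝ)),
      FrT A d δ δ' B X N a q → lam.2 ∈ SM (π lam.1).n →
      ∀ m : Eis, IsPrim m → (nm m : ℝ) ^ 3 ≤ Real.exp (a.1.l + R lam.1) →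
      ∑ k ∈ KS (π lam.1).n (Real.exp (a.1.l - R lam.1)) (Real.exp (a.1.l + R lam.1)) m,
          ‖(Sf a.2).at lam a.1 (k * m ^ 3)‖ ^ e ≤
        X ^ (g (q.1 none) (cN (dn q.1)) (kf a.1.l (R lam.1) X m) + ε)

/-- **second moment, class form** -/
def SPIn (Sf : ℕ → SF Λ) (A d : ℝ) : Prop :=
  ∀ R : Λ → ℝ, (∀ lam, 0 ≤ R lam) → ∀ ε : ℝ, 0 < ε → ∃ δ : ℝ, 0 < δ ∧
    ∀ (lam : Λ × Eis) (N : ℕ) (B : ℝ), ∃ δ' : ℝ, 0 < δ' ∧ ∃ X₀ : ℝ, 1 < X₀ ∧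
    ∀ X : ℝ, X₀ ≤ X → ∀ (a : Bd × ℕ) (q : (Option (Fin 3 ⊕ Fin 5) → ℝ) × (Kd → ℝ)),
      FrT A d δ δ' B X N a q → lam.2 ∈ SM (π lam.1).n →
      ∀ m : Eis, IsPrim m → (nm m : ℝ) ^ 3 ≤ Real.exp (a.1.l + R lam.1) →
      7 / 10 * cκ (dn q.1) ≤ kf a.1.l (R lam.1) X m + δ →
      kf a.1.l (R lam.1) X m ≤ 17 / 20 * cκ (dn q.1) + δ →
      ∀ E : ℝ, (∀ β : ℝ, 0 ≤ β → β ≤ cN (dn q.1) + cx' (dn q.1) - cκ (dn q.1) / 2 →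
        gp d (q.1 none) (cN (dn q.1)) (cu (dn q.1) 4) (kf a.1.l (R lam.1) X m) β ≤ E) →
      ∑ k ∈ KS (π lam.1).n (Real.exp (a.1.l - R lam.1)) (Real.exp (a.1.l + R lam.1)) m,
          ‖(Sf a.2).at lam a.1 (k * m ^ 3)‖ ^ 2 ≤ X ^ (E + ε)

end Crest.Agent.R017.TU47
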