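import Crest.Agent.R017.TUU_47
import Crest.Agent.R017.TUP_47
import Crest.Agent.R017.RQ_702

/-!
# Row 17, R8: `TailU`, tools of the assembly (helper47)

* `UIn`, `EIn` : second moments of the two-lump side, of the amplifier alone, at the actual
  configuration
* `unif_cont`, `F6`, `F6_cont` : uniform continuity of the exponents
* `hoelder_m`, `cauchy_m` : the sum at fixed `m`
* `sum_inv_MS` : the sum over `m`
-/

set_option autoImplicit false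

noncomputable section

open Complex Finset
open scoped ComplexConjugate

namespace Crest.Agent.R017.TU47

open Crest.Agent.R012 Crest.Agent.R012.Eis
open Crest.Agent.R012.LS2 (bl mem_bl)
open Crest.Agent.R012.Mob705 hiding pb mem_pb
open Crest.Agent.R017.CM106 Crest.Agent.R017.FE47
open Crest.Agent.R017.XG702 (Pcs)
open Crest.Agent.R017.HP842 (Pc pc)
open Crest.Agent.R017.B770 Crest.Agent.R017.Prov71
open Crest.Agent.R017.E5B71 Crest.Agent.R017.E5M372 Crest.Agent.R017.E5L770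
open Crest.Agent.R017.YM61 (EA)
open Crest.Agent.R017.RQ702 (g4c e0c)

variable {Λ : Type*}

/-- **second moments of the two-lump side at the actual configuration** -/
def UIn (π : Λ → DPar) (h : ℝ → ℝ) (d K : ℝ) : Prop :=
  ∀ ε : ℝ, 0 < ε → ∃ δ : ℝ, 0 < δ ∧ ∀ (lam : Λ) (N : ℕ) (B : ℝ), ∃ δ' : ℝ, 0 < δ' ∧
    ∃ X₀ : ℝ, 1 < X₀ ∧ ∀ X : ℝ, X₀ ≤ X → ∀ (l : ℝ) (u u' : Pq) (ps : List Pq),
      ps.length ≤ N → Dq.lump u → Dq.lump u' → (∀ p ∈ ps, Dq.lump p ∨ Dq.nl X p ≤ δ) →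
      Dq.Good X δ' B (u :: u' :: ps) → 0 ≤ l → l ≤ K * Real.log X → Dq.nl X u ≤ K →
      Dq.nl X u' ≤ K → (∀ t, Dq.mass X ps t ≤ K) →
      Rc (π lam) h l (u :: u' :: ps) ≤
        X ^ (EA d (l / Real.log X) (Dq.nl X u + Dq.nl X u') (Dq.mass X ps .mo)
          (Dq.mass X ps .am) + ε)

/-- **second moments of amplifier lists at the actual configuration** -/
def EIn (π : Λ → DPar) (h : ℝ → ℝ) (d K : ℝ) : Prop :=
  ∀ ε : ℝ, 0 < ε → ∃ δ : ℝ, 0 < δ ∧ ∀ (lam : Λ) (N : ℕ) (B : ℝ), ∃ δ' : ℝ, 0 < δ' ∧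
    ∃ X₀ : ℝ, 1 < X₀ ∧ ∀ X : ℝ, X₀ ≤ X → ∀ (l : ℝ) (ps : List Pq),
      ps.length ≤ N → (∀ p ∈ ps, p.kd = .am) → (∀ p ∈ ps, Dq.nl X p ≤ δ) →
      Dq.Good X δ' B ps → 0 ≤ l → l ≤ K * Real.log X → Dq.mass X ps .am ≤ K →
      Rc (π lam) h l ps ≤ X ^ (e0c d (l / Real.log X) (Dq.mass X ps .am) + ε)

/-! ### uniform continuity -/

lemma unif_cont {n : ℕ} {f : (Fin n → ℝ) → ℝ} (hf : Continuous f) (K : ℝ) {ε : ℝ} (hε : 0 < ε) :
    ∃ δ : ℝ, 0 < δ ∧ ∀ x y : Fin n → ℝ, (∀ i, |x i| ≤ K) → (∀ i, |y i| ≤ K) →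
      (∀ i, |x i - y i| ≤ δ) → f x ≤ f y + ε := by
  have hc : IsCompact (Set.Icc (fun _ : Fin n => -K) (fun _ => K)) := isCompact_Icc
  have h1 := hc.uniformContinuousOn_of_continuous hf.continuousOn
  rw [Metric.uniformContinuousOn_iff] at h1
  obtain ⟨δ, hδ, h2⟩ := h1 ε hε
  refine ⟨δ / 2, by positivity, fun x y hx hy hxy => ?_⟩
  have h3 := h2 x ⟨fun i => (abs_le.1 (hx i)).1, fun i => (abs_le.1 (hx i)).2⟩ y
    ⟨fun i => (abs_le.1 (hy i)).1, fun i => (abs_le.1 (hy i)).2⟩ (by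
      refine lt_of_le_of_lt ((dist_pi_le_iff (by positivity)).2 fun i => ?_)
        (by linarith : δ / 2 < δ)
      rw [Real.dist_eq]; exact hxy i)
  rw [Real.dist_eq] at h3
  linarith [(abs_lt.1 h3).2]

/-- the Hölder exponent -/
def F6 (d v N k kU M q b y : ℝ) : ℝ :=
  (g2b d v N k + 1 / 384) / 6 + (g4c d v N k + 1 / 192) / 6 + EA d kU M q b / 2 +
    e0c d kU y / 6

lemma F6_cont (d : ℝ) : Continuous fun x : Fin 8 → ℝ =>
    F6 d (x 0) (x 1) (x 2) (x 3) (x 4) (x 5) (x 6) (x 7) := by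
  unfold F6 g2b g4c EA e0c YM61.eC tT kT
  fun_prop

lemma EA_cont (d : ℝ) : Continuous fun x : Fin 4 → ℝ => EA d (x 0) (x 1) (x 2) (x 3) := by
  unfold EA YM61.eC
  fun_prop

lemma g2b_cont (d : ℝ) : Continuous fun x : Fin 3 → ℝ => g2b d (x 0) (x 1) (x 2) := by
  unfold g2b tT kT
  fun_prop

/-- **real inequality of the families `k ≤ 7/10 κ`**, large sieve numbers with the losses of the
`e`-blocks -/
def RealQ' (A d μ : ℝ) : Prop := ∀ q ∈ SqL A d, ∀ k : ℝ, 0 ≤ k → 10 * k ≤ 7 * cκ (dn q.1) →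
  (cκ (dn q.1) - k) / 3 + F6 d (q.1 none) (cN (dn q.1)) k k (cM (dn q.1)) (q.2 .mo)
      (b1 k (cM (dn q.1)) (q.2 .am)) (3 * (q.2 .am - b1 k (cM (dn q.1)) (q.2 .am))) ≤
    T5 (7 / 8 + d) (dn q.1, q.2) - μ

/-- **second moment needed from the class form**, families `7/10 κ ≤ k ≤ 17/20 κ` -/
def ESP (d μ : ℝ) (q : (Option (Fin 3 ⊕ Fin 5) → ℝ) × (Kd → ℝ)) (k : ℝ) : ℝ :=
  2 * (T5 (7 / 8 + d) (dn q.1, q.2) - μ - (cκ (dn q.1) - k) / 3) -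
    EA d k (cM (dn q.1)) (q.2 .mo) (q.2 .am)

theorem realQ' {A d : ℝ} (hd : 0 ≤ d) (hd1 : d ≤ 1 / 8) (hA : A ≤ 1) (hA1 : 16 * (1 - A) ≤ d) :
    RealQ' A d (1 / 1100) := by
  intro q hq k hk0 hk1
  have h1 := RQ702.realQc hd hd1 hA hA1 q hq k hk0 hk1
  unfold F6
  linarith

/-! ### sums at fixed `m` -/

lemma rpow_le_exp {X x : ℝ} (hX : 1 < X) : X ^ x = Real.exp (x * Real.log X) := by
  rw [Real.rpow_def_of_pos (by linarith), mul_comm]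

theorem hoelder_m {ι : Type*} (A : Finset ι) {S U B : ι → ℝ} (hS : ∀ k, 0 ≤ S k)
    (hU : ∀ k, 0 ≤ U k) (hB : ∀ k, 0 ≤ B k) {X s2 s4 u2 b6 : ℝ} (hX : 1 < X)
    (h2 : ∑ k ∈ A, S k ^ 2 ≤ X ^ s2) (h4 : ∑ k ∈ A, S k ^ 4 ≤ X ^ s4)
    (hu : ∑ k ∈ A, U k ^ 2 ≤ X ^ u2) (h6 : ∑ k ∈ A, B k ^ 6 ≤ X ^ b6) :
    ∑ k ∈ A, S k * (U k * B k) ≤ X ^ (s2 / 6 + s4 / 6 + u2 / 2 + b6 / 6) := by
  rw [rpow_le_exp hX] at h2 h4 hu h6
  refine (holder6 A hS hU hB h2 h4 hu h6).trans (le_of_eq ?_)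
  rw [rpow_le_exp hX]
  congr 1
  ring

theorem cauchy_m {ι : Type*} (A : Finset ι) {S U : ι → ℝ} {X s2 u2 : ℝ} (hX : 1 < X)
    (h2 : ∑ k ∈ A, S k ^ 2 ≤ X ^ s2) (hu : ∑ k ∈ A, U k ^ 2 ≤ X ^ u2) :
    ∑ k ∈ A, S k * U k ≤ X ^ (s2 / 2 + u2 / 2) := by
  rw [rpow_le_exp hX] at h2 hu
  refine (cauchy2 A h2 hu).trans (le_of_eq ?_)
  rw [rpow_le_exp hX]
  congr 1
  ring

/-- sixth powers -/
lemma prod_six (F : Pq → ℝ) (ps : List Pq) :
    ((ps.map F).prod) ^ 6 = (((ps ++ ps ++ ps).map F).prod) ^ 2 := by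
  rw [List.map_append, List.map_append, List.prod_append, List.prod_append]
  ring

/-- the sum over `m` -/
lemma sum_inv_MS {ε : ℝ} (hε : 0 < ε) : ∃ X₀ : ℝ, 1 < X₀ ∧ ∀ X : ℝ, X₀ ≤ X → ∀ E₁ Y : ℝ,
    0 ≤ Y → Y ≤ X ^ (3 : ℝ) → ∑ m ∈ MS' E₁ Y, (1 / (nm m : ℝ)) ≤ X ^ ε := by
  obtain ⟨X₁, hX₁⟩ : ∃ X₁ : ℝ, ∀ X, X₁ ≤ X → 100 * (1 + Real.log X) ≤ X ^ ε := by
    have h1 : (fun X : ℝ => 100 * (1 + Real.log X)) =o[Filter.atTop] fun X => X ^ ε := by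
      have a1 : (fun X : ℝ => Real.log X) =o[Filter.atTop] fun X => X ^ ε :=
        isLittleO_log_rpow_atTop hε
      have a2 : (fun _ : ℝ => (1 : ℝ)) =o[Filter.atTop] fun X => X ^ ε := by
        refine Asymptotics.isLittleO_const_left.2 (Or.inr ?_)
        exact tendsto_norm_atTop_atTop.comp (tendsto_rpow_atTop hε)
      exact (a2.add a1).const_mul_left 100
    have h2 := h1.bound (by norm_num : (0 : ℝ) < 1)
    obtain ⟨X₁, h3⟩ := Filter.eventually_atTop.1 h2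
    refine ⟨max X₁ 1, fun X hX => ?_⟩
    have h4 := h3 X ((le_max_left _ _).trans hX)
    rw [one_mul, Real.norm_eq_abs, Real.norm_eq_abs,
      abs_of_nonneg (Real.rpow_nonneg (by linarith [(le_max_right X₁ 1).trans hX]) _)] at h4
    exact (le_abs_self _).trans h4
  refine ⟨max X₁ 2, lt_of_lt_of_le (by norm_num) (le_max_right _ _), fun X hX E₁ Y hY hYX => ?_⟩
  have hX1 : X₁ ≤ X := (le_max_left _ _).trans hX
  have hX2 : (2 : ℝ) ≤ X := (le_max_right _ _).trans hX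
  have hX0 : (0 : ℝ) < X := by linarith
  have h5 : Y ^ ((1 : ℝ) / 3) ≤ X := by
    calc Y ^ ((1 : ℝ) / 3) ≤ (X ^ (3 : ℝ)) ^ ((1 : ℝ) / 3) :=
          Real.rpow_le_rpow hY hYX (by norm_num)
      _ = X := by rw [← Real.rpow_mul hX0.le]; norm_num
  have h6 : MS' E₁ Y ⊆ bl X := by
    intro m hm
    unfold MS' at hm
    rw [Finset.mem_filter, mem_primBall] at hm
    rw [mem_bl hX0.le]
    refine ⟨hm.1.2.ne_zero, ?_⟩
    exact ((Nat.cast_le.2 hm.1.1).trans (Nat.floor_le (by positivity))).trans h5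
  refine (Finset.sum_le_sum_of_subset_of_nonneg h6 fun _ _ _ => by positivity).trans ?_
  refine (sum_inv_bl _).trans (le_trans ?_ (hX₁ X hX1))
  have h7 : Real.log (⌊X⌋₊ : ℝ) ≤ Real.log X := by
    have h8 : 1 ≤ ⌊X⌋₊ := Nat.floor_pos.2 (by linarith)
    exact Real.log_le_log (by exact_mod_cast h8) (Nat.floor_le hX0.le)
  linarith

end Crest.Agent.R017.TU47
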