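import Crest.Agent.R017.SpR_702
import Crest.Agent.R017.TUK_47

/-!
# Row 17, R8: the four real lines of `SPIn'` (helper521 #34688), literally (helper702)

`q ∈ SqL A d`, `7/10 κ ≤ k ≤ 17/20 κ`, `p = N - β`, `0 ≤ β ≤ N + x - κ/2`, `E = κ/64`,
`G = ESP d μ q k - β`.
* `hS` : the exponent of `H` (constant in `δ`)
* `c1_le`, `c0_le`, `R_le`, `S_le`, and `th_le : 2 h + 3 v + κ/10 ≤ 2 k`; all with slack `κ/500`
-/

set_option autoImplicit false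
set_option linter.unusedVariables false

noncomputable section

namespace Crest.Agent.R017.RSP702

open Crest.Agent.R017.RQ702 Crest.Agent.R017.P1Q904 Crest.Agent.R017.RstQ702
open Crest.Agent.R017.SpR702
open Crest.Agent.R017.B770 Crest.Agent.R017.E5B71 Crest.Agent.R017.E5L770
open Crest.Agent.R017.R8C918 Crest.Agent.R017.TU47 Crest.Agent.R017.Prov71

/-- the frame of the reals -/
structure Gs (κ N M a c x L D k v p z E : ℝ) : Prop where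
  F : Fq κ N M a c x 0 L D
  v0 : 0 ≤ v
  v1 : v ≤ 2 * N - κ + 11 / 5 * x
  v2 : v ≤ 3 / 4 * N + 11 / 5 * x
  k1 : 7 * κ ≤ 10 * k
  k2 : 20 * k ≤ 17 * κ
  p0 : 2 / 5 * κ ≤ p
  p1 : p ≤ N
  z1 : 2 * z ≤ M
  z2 : z ≤ 3 * N - 2 * κ + D / 8
  E : E ≤ 0 ∨ (k ≤ M ∧ E ≤ c) ∨ (M ≤ k ∧ E ≤ c - 7 / 9 * (k - M))

/-- the exponent of `H` (real form) -/
def hR (κ L D a k v p z E : ℝ) : ℝ :=
  hP k v p z (GP κ L a k p E) (3 / 5 * D) + (3 / 128 * κ + 3 / 500 * κ)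

set_option maxHeartbeats 1600000 in
lemma th_num {κ N M a c x L D k v p z E : ℝ} (H : Gs κ N M a c x L D k v p z E) :
    2 * hR κ L D a k v p z E + 3 * v + κ / 10 ≤ 2 * k := by
  obtain ⟨⟨κ0, κ1, N34, N84, MN, a0, a12, c0, c13, x0, D0, q43, sq2, L1, L2, L3, shr, -, -, -⟩,
    v0, v1, v2, k1, k2, p0, p1, z1, z2, hE⟩ := H
  unfold hR hP GP
  rcases KP_cases v p z with h | h | h | h <;> rw [h] <;> rcases shr with rfl | ⟨s1, s2, s3, s4⟩ <;>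
    rcases hE with hE | ⟨hE1, hE⟩ | ⟨hE1, hE⟩ <;> linarith

set_option maxHeartbeats 1600000 in
lemma S_num {κ N M a c x L D k v p z E : ℝ} (H : Gs κ N M a c x L D k v p z E) :
    hR κ L D a k v p z E + 2 * v + κ / 500 ≤ k + p := by
  have h1 := th_num H
  obtain ⟨⟨κ0, κ1, N34, N84, MN, a0, a12, c0, c13, x0, D0, q43, sq2, L1, L2, L3, shr, -, -, -⟩,
    v0, v1, v2, k1, k2, p0, p1, z1, z2, hE⟩ := H
  rcases shr with rfl | ⟨s1, s2, s3, s4⟩ <;> linarith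

lemma K0_cases (l n z : ℝ) : K0 l n z = 5 / 4 * n ∨ K0 l n z = l + n / 2 ∨ K0 l n z = 3 / 2 * l ∨
    K0 l n z = 200 / 61 * z := by
  unfold K0
  rcases max_choice (5 / 4 * n) (max (l + n / 2) (max (3 / 2 * l) (200 / 61 * z))) with h | h
  · exact Or.inl h
  · rcases max_choice (l + n / 2) (max (3 / 2 * l) (200 / 61 * z)) with g | g
    · exact Or.inr (Or.inl (h.trans g))
    · rcases max_choice (3 / 2 * l) (200 / 61 * z) with f | f
      · exact Or.inr (Or.inr (Or.inl (h.trans (g.trans f))))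
      · exact Or.inr (Or.inr (Or.inr (h.trans (g.trans f))))

set_option maxHeartbeats 1600000 in
/-- (c1) -/
lemma c1_num {κ N M a c x L D k v p z E δ b l n T mb m2 : ℝ}
    (H : Gs κ N M a c x L D k v p z E) (δ0 : 0 ≤ δ) (δ1 : 2 * δ ≤ v) (b0 : 0 ≤ b)
    (l0 : 0 ≤ l) (hl : l ≤ v - 2 * δ) (hn : n = p - δ - b ∧ 0 ≤ n ∨ n = 0 ∧ p - δ - b ≤ 0)
    (hT1 : T ≤ l + b + 4 / 3 * n ∨ T ≤ 5 / 3 * n + (l + b) / 3)
    (hT2 : T ≤ 2 * n + 3 / 5 * D ∨ T ≤ l + b + n + 3 / 5 * D ∨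
      T ≤ 4 / 3 * n + (l + b + K0 (l + b) n z) / 3 + 3 / 5 * D)
    (mb1 : mb ≤ b) (mb2 : mb ≤ p - δ) (m20 : 0 ≤ m2) (m21 : b - κ / 64 ≤ m2) :
    2 / 3 * k - (hR κ L D a k v p z E + v) / 3 + T + mb + 2 * δ - m2 - p / 3 +
      (v - 2 * δ - l) / 3 + κ / 500 ≤ GP κ L a k p E := by
  have k1' : 4 / 3 * p ≤ KP v p z := le_max_left _ _
  have k2' : v + p / 2 ≤ KP v p z := (le_max_left _ _).trans (le_max_right _ _)
  have k3' : 3 / 2 * v ≤ KP v p z :=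
    (le_max_left _ _).trans ((le_max_right _ _).trans (le_max_right _ _))
  have k4' : 200 / 61 * z ≤ KP v p z :=
    (le_max_right _ _).trans ((le_max_right _ _).trans (le_max_right _ _))
  obtain ⟨⟨κ0, κ1, N34, N84, MN, a0, a12, c0, c13, x0, D0, q43, sq2, L1, L2, L3, shr, -, -, -⟩,
    v0, v1, v2, k1, k2, p0, p1, z1, z2, hE⟩ := H
  have hv2 : v ≤ 7 / 10 * κ := by
    rcases shr with rfl | ⟨s1, s2, s3, s4⟩ <;> linarith
  clear hE sq2 L2 L3 shr q43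
  have hK := K0_cases (l + b) n z
  unfold hR hP
  generalize KP v p z = Q at *
  generalize K0 (l + b) n z = K at *
  generalize GP κ L a k p E = G at *
  rcases hn with ⟨hn, hn0⟩ | ⟨hn, hn0⟩
  · rcases hT1 with hT1 | hT1
    · rcases hT2 with hT2 | hT2 | hT2
      · linarith
      · linarith
      · rcases hK with rfl | rfl | rfl | rfl <;> linarith
    · linarith
  · rcases hT1 with hT1 | hT1 <;> linarith

set_option maxHeartbeats 3200000 in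
/-- (c0), the two lines without `h` -/
lemma c0_num {κ N M a c x L D k v p z E δ b l n T mb m2 : ℝ}
    (H : Gs κ N M a c x L D k v p z E) (δ0 : 0 ≤ δ) (δ1 : 2 * δ ≤ v) (b0 : 0 ≤ b)
    (l0 : 0 ≤ l) (hl : l ≤ v - 2 * δ) (hn : n = p - δ - b ∧ 0 ≤ n ∨ n = 0 ∧ p - δ - b ≤ 0)
    (hT1 : T ≤ l + b + 4 / 3 * n ∨ T ≤ 5 / 3 * n + (l + b) / 3)
    (hT2 : T ≤ 2 * n + 3 / 5 * D ∨ T ≤ l + b + n + 3 / 5 * D ∨
      T ≤ 4 / 3 * n + (l + b + K0 (l + b) n z) / 3 + 3 / 5 * D)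
    (mb1 : mb ≤ b) (mb2 : mb ≤ p - δ) (m20 : 0 ≤ m2) (m21 : b - κ / 64 ≤ m2) :
    max (2 / 3 * k - v / 3) (2 / 3 * v) + T + mb + 2 * δ - m2 - p / 3 + κ / 500 ≤
      GP κ L a k p E := by
  obtain ⟨⟨κ0, κ1, N34, N84, MN, a0, a12, c0, c13, x0, D0, q43, sq2, L1, L2, L3, shr, -, -, -⟩,
    v0, v1, v2, k1, k2, p0, p1, z1, z2, hE⟩ := H
  have hK := K0_cases (l + b) n z
  unfold GP
  generalize K0 (l + b) n z = K at *
  rcases max_choice (2 / 3 * k - v / 3) (2 / 3 * v) with h | h <;> rw [h] <;>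
    rcases hn with ⟨hn, hn0⟩ | ⟨hn, hn0⟩
  · rcases hT1 with hT1 | hT1
    · rcases hT2 with hT2 | hT2 | hT2
      · rcases shr with rfl | ⟨s1, s2, s3, s4⟩ <;>
          rcases hE with hE | ⟨hE1, hE⟩ | ⟨hE1, hE⟩ <;> linarith
      · rcases shr with rfl | ⟨s1, s2, s3, s4⟩ <;>
          rcases hE with hE | ⟨hE1, hE⟩ | ⟨hE1, hE⟩ <;> linarith
      · rcases hK with rfl | rfl | rfl | rfl <;> rcases shr with rfl | ⟨s1, s2, s3, s4⟩ <;>
          rcases hE with hE | ⟨hE1, hE⟩ | ⟨hE1, hE⟩ <;> linarith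
    · rcases shr with rfl | ⟨s1, s2, s3, s4⟩ <;>
        rcases hE with hE | ⟨hE1, hE⟩ | ⟨hE1, hE⟩ <;> linarith
  · rcases hT1 with hT1 | hT1 <;> rcases shr with rfl | ⟨s1, s2, s3, s4⟩ <;>
      rcases hE with hE | ⟨hE1, hE⟩ | ⟨hE1, hE⟩ <;> linarith
  · rcases hT1 with hT1 | hT1
    · rcases hT2 with hT2 | hT2 | hT2
      · rcases shr with rfl | ⟨s1, s2, s3, s4⟩ <;>
          rcases hE with hE | ⟨hE1, hE⟩ | ⟨hE1, hE⟩ <;> linarith
      · rcases shr with rfl | ⟨s1, s2, s3, s4⟩ <;>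
          rcases hE with hE | ⟨hE1, hE⟩ | ⟨hE1, hE⟩ <;> linarith
      · rcases hK with rfl | rfl | rfl | rfl <;> rcases shr with rfl | ⟨s1, s2, s3, s4⟩ <;>
          rcases hE with hE | ⟨hE1, hE⟩ | ⟨hE1, hE⟩ <;> linarith
    · rcases shr with rfl | ⟨s1, s2, s3, s4⟩ <;>
        rcases hE with hE | ⟨hE1, hE⟩ | ⟨hE1, hE⟩ <;> linarith
  · rcases hT1 with hT1 | hT1 <;> rcases shr with rfl | ⟨s1, s2, s3, s4⟩ <;>
      rcases hE with hE | ⟨hE1, hE⟩ | ⟨hE1, hE⟩ <;> linarith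

set_option maxHeartbeats 8000000 in
/-- (R), `i ≥ 0` -/
lemma R_num {κ N M a c x L D k v p z E w δ e S : ℝ} (H : Gs κ N M a c x L D k v p z E)
    (hw : w = hR κ L D a k v p z E + v) (hL : 0 ≤ w + v - k - δ) (δ0 : 0 ≤ δ)
    (e0 : 0 ≤ e) (e1 : e ≤ κ / 64) (s1 : 3 * S ≤ N) (s3 : 2 * S ≤ w + p - k) :
    2 / 3 * k - w / 3 + 5 / 3 * δ + 2 * e + gQ (w + v - k - δ) (w + p - k) + (w + p - k) +
      (3 / 4 * S + 61 / 100 * D) + 2 / 3 * (p - δ) + κ / 500 ≤ GP κ L a k p E := by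
  have hg := gQ_cases (w + v - k - δ) (w + p - k)
  obtain ⟨⟨κ0, κ1, N34, N84, MN, a0, a12, c0, c13, x0, D0, q43, sq2, L1, L2, L3, shr, -, -, -⟩,
    v0, v1, v2, k1, k2, p0, p1, z1, z2, hE⟩ := H
  unfold hR hP at hw
  unfold GP at *
  generalize gQ (w + v - k - δ) (w + p - k) = g at *
  rcases KP_cases v p z with h | h | h | h <;> rw [h] at hw <;>
    rcases hg with rfl | rfl | rfl | rfl <;> rcases shr with rfl | ⟨s1, s2, s3, s4⟩ <;>
    rcases hE with hE | ⟨hE1, hE⟩ | ⟨hE1, hE⟩ <;> linarith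

set_option maxHeartbeats 8000000 in
/-- (R), `i ≤ 0` -/
lemma R2_num {κ N M a c x L D k v p z E w δ e : ℝ} (H : Gs κ N M a c x L D k v p z E)
    (hw : w = hR κ L D a k v p z E + v) (hL : 0 ≤ w + v - k - δ) (δ0 : 0 ≤ δ)
    (e0 : 0 ≤ e) (e1 : e ≤ κ / 64) :
    2 / 3 * k - w / 3 + 5 / 3 * δ + 2 * e + gQ (w + v - k - δ) (w + p - k) + (w + p - k) / 3 +
      2 / 3 * (p - δ) + κ / 500 ≤ GP κ L a k p E := by
  have hg := gQ_cases (w + v - k - δ) (w + p - k)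
  obtain ⟨⟨κ0, κ1, N34, N84, MN, a0, a12, c0, c13, x0, D0, q43, sq2, L1, L2, L3, shr, -, -, -⟩,
    v0, v1, v2, k1, k2, p0, p1, z1, z2, hE⟩ := H
  unfold hR hP at hw
  unfold GP at *
  generalize gQ (w + v - k - δ) (w + p - k) = g at *
  rcases KP_cases v p z with h | h | h | h <;> rw [h] at hw <;>
    rcases hg with rfl | rfl | rfl | rfl <;> rcases shr with rfl | ⟨s1, s2, s3, s4⟩ <;>
    rcases hE with hE | ⟨hE1, hE⟩ | ⟨hE1, hE⟩ <;> linarith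

/-! ### in the frame of `SqL A d` -/

/-- `L` -/
def LL (d : ℝ) (q : (Option (Fin 3 ⊕ Fin 5) → ℝ) × (Kd → ℝ)) : ℝ :=
  cκ (dn q.1) * Al d (1 / cκ (dn q.1)) (cN (dn q.1) / cκ (dn q.1) +
    cM (dn q.1) / cκ (dn q.1) + q.2 .mo / cκ (dn q.1)) (q.2 .am / cκ (dn q.1)) -
    2 * d * (q.2 .mo + q.2 .am)

/-- **the exponent of `H`** -/
def hS (d : ℝ) (q : (Option (Fin 3 ⊕ Fin 5) → ℝ) × (Kd → ℝ)) (k β : ℝ) : ℝ :=
  2 * k + 3 * (cN (dn q.1) - β) - 3 * (ESP d (1 / 450) q k - β) + 9 / 5 * (d * cκ (dn q.1)) +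
    KP (q.1 none) (cN (dn q.1) - β) (cu (dn q.1) 2) + (3 / 128 + 3 / 500) * cκ (dn q.1)

variable {A d μ k β δ b l n T e : ℝ} {q : (Option (Fin 3 ⊕ Fin 5) → ℝ) × (Kd → ℝ)}

/-- the hypotheses -/
structure Hq (A d : ℝ) (q : (Option (Fin 3 ⊕ Fin 5) → ℝ) × (Kd → ℝ)) (k β : ℝ) : Prop where
  d0 : 0 ≤ d
  d1 : d ≤ 1 / 8
  A1 : A ≤ 1
  A2 : 16 * (1 - A) ≤ d
  hq : q ∈ SqL A d
  k1 : 7 / 10 * cκ (dn q.1) ≤ k
  k2 : k ≤ 17 / 20 * cκ (dn q.1)
  β0 : 0 ≤ β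
  β1 : β ≤ cN (dn q.1) + cx' (dn q.1) - cκ (dn q.1) / 2

lemma gs_of (H : Hq A d q k β) :
    Gs (cκ (dn q.1)) (cN (dn q.1)) (cM (dn q.1)) (q.2 .mo) (q.2 .am) (cx' (dn q.1)) (LL d q)
      (d * cκ (dn q.1)) k (q.1 none) (cN (dn q.1) - β) (cu (dn q.1) 2)
      (YM61.eC k (cM (dn q.1)) (q.2 .am)) := by
  obtain ⟨d0, d1, A1, A2, hq, k1, k2, β0, β1⟩ := H
  have F := fq_of d0 d1 A1 A2 hq
  obtain ⟨h1, h2, h3⟩ := hq
  have h1 : Sq5 A d (dn q.1) q.2 := h1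
  have h2 : 0 ≤ q.1 none := h2
  have h3 : q.1 none ≤ top5 (dn q.1) := h3
  obtain ⟨a1, a2, a3, a4⟩ := h1.toNr5.anti
  have hn := h1.toNr5.near
  have hA : (1 - d / 16) * cκ (dn q.1) ≤ A * cκ (dn q.1) :=
    mul_le_mul_of_nonneg_right (by linarith) (by linarith [F.κ0])
  have hNe : cN (dn q.1) = cu (dn q.1) 2 + cu (dn q.1) 3 + cu (dn q.1) 4 := rfl
  have hMe : cM (dn q.1) = cu (dn q.1) 0 + cu (dn q.1) 1 := rfl
  unfold top5 at h3
  have e1 := min_le_left (2 * cN (dn q.1) - cκ (dn q.1)) (3 / 4 * cN (dn q.1))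
  have e2 := min_le_right (2 * cN (dn q.1) - cκ (dn q.1)) (3 / 4 * cN (dn q.1))
  have hF : Fq (cκ (dn q.1)) (cN (dn q.1)) (cM (dn q.1)) (q.2 .mo) (q.2 .am) (cx' (dn q.1)) 0
      (LL d q) (d * cκ (dn q.1)) := by
    obtain ⟨κ0, κ1, N34, N84, MN, a0, a12, c0, c13, x0, D0, q43, sq2, L1, L2, L3, shr, v0, v1,
      v2⟩ := F
    exact ⟨κ0, κ1, N34, N84, MN, a0, a12, c0, c13, x0, D0, q43, sq2, L1, L2, L3, shr, le_rfl,
      by linarith, by linarith⟩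
  obtain ⟨κ0, κ1, N34, N84, MN, a0, a12, c0, c13, x0, D0, q43, sq2, L1, L2, L3, shr, v0, v1,
      v2⟩ := F
  refine ⟨hF, h2, by linarith, by linarith, by linarith, by linarith, ?_, by linarith,
    by linarith, by linarith, ?_⟩
  · rcases shr with h | ⟨s1, s2, s3, s4⟩ <;> linarith
  · unfold YM61.eC
    rw [mn_eq (by linarith)]
    rcases le_total (q.2 .am - 7 / 9 * max 0 (k - cM (dn q.1))) 0 with h | h
    · left; rw [max_eq_left h]
    · right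
      rw [max_eq_right h]
      rcases le_total k (cM (dn q.1)) with g | g
      · left
        rw [max_eq_left (by linarith : k - cM (dn q.1) ≤ 0)]
        exact ⟨g, by linarith⟩
      · right
        rw [max_eq_right (by linarith : (0 : ℝ) ≤ k - cM (dn q.1))]
        exact ⟨g, le_rfl⟩

lemma ESP_eq (H : Hq A d q k β) :
    ESP d μ q k - β = GP (cκ (dn q.1)) (LL d q) (q.2 .mo) k (cN (dn q.1) - β)
      (YM61.eC k (cM (dn q.1)) (q.2 .am)) + 2 * (1 / 450 - μ) := by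
  have hκ : 0 < cκ (dn q.1) := by linarith [(gs_of H).F.κ0]
  have hT := T5_of (d := d) (q := (dn q.1, q.2)) hκ
  simp only at hT
  unfold ESP GP LL YM61.EA
  rw [hT]
  ring

lemma hS_eq (H : Hq A d q k β) :
    hS d q k β = hR (cκ (dn q.1)) (LL d q) (d * cκ (dn q.1)) (q.2 .mo) k (q.1 none)
      (cN (dn q.1) - β) (cu (dn q.1) 2) (YM61.eC k (cM (dn q.1)) (q.2 .am)) := by
  unfold hS hR hP
  rw [ESP_eq (μ := 1 / 450) H]
  ring

/-- `H² V³ ≤ K²` -/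
theorem th_le (H : Hq A d q k β) :
    2 * hS d q k β + 3 * q.1 none + cκ (dn q.1) / 10 ≤ 2 * k := by
  rw [hS_eq H]; exact th_num (gs_of H)

/-- (S) -/
theorem S_le (H : Hq A d q k β) :
    hS d q k β + 2 * q.1 none + cκ (dn q.1) / 500 ≤ k + (cN (dn q.1) - β) := by
  rw [hS_eq H]; exact S_num (gs_of H)

/-- the parameters of the `T`-lines : `T` is helper792's `Gq d y₃ u (l + b) n` -/
structure HT (d : ℝ) (q : (Option (Fin 3 ⊕ Fin 5) → ℝ) × (Kd → ℝ)) (β δ b l n T : ℝ) :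
    Prop where
  δ0 : 0 ≤ δ
  δ1 : 2 * δ ≤ q.1 none
  b0 : 0 ≤ b
  l0 : 0 ≤ l
  l1 : l ≤ q.1 none - 2 * δ
  hn : n = max 0 (cN (dn q.1) - β - δ - b)
  T1 : T ≤ max (l + b + n + min (cu (dn q.1) 4) (n / 3)) (5 / 3 * n + (l + b) / 3)
  T2 : T ≤ max (max (2 * n) (l + b + n))
    (4 / 3 * n + (l + b + K0 (l + b) n (cu (dn q.1) 2)) / 3) + 2 / 3 * d * n

lemma ht_num (H : Hq A d q k β) (h : HT d q β δ b l n T) :
    (n = cN (dn q.1) - β - δ - b ∧ 0 ≤ n ∨ n = 0 ∧ cN (dn q.1) - β - δ - b ≤ 0) ∧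
    (T ≤ l + b + 4 / 3 * n ∨ T ≤ 5 / 3 * n + (l + b) / 3) ∧
    (T ≤ 2 * n + 3 / 5 * (d * cκ (dn q.1)) ∨ T ≤ l + b + n + 3 / 5 * (d * cκ (dn q.1)) ∨
      T ≤ 4 / 3 * n + (l + b + K0 (l + b) n (cu (dn q.1) 2)) / 3 +
        3 / 5 * (d * cκ (dn q.1))) := by
  have G := gs_of H
  obtain ⟨δ0, δ1, b0, l0, l1, hn, T1, T2⟩ := h
  have hc : n = cN (dn q.1) - β - δ - b ∧ 0 ≤ n ∨ n = 0 ∧ cN (dn q.1) - β - δ - b ≤ 0 := by
    rcases le_total 0 (cN (dn q.1) - β - δ - b) with h | h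
    · left; rw [max_eq_right h] at hn; exact ⟨hn, by linarith⟩
    · right; rw [max_eq_left h] at hn; exact ⟨hn, h⟩
  have hn1 : n ≤ 84 / 103 * cκ (dn q.1) := by
    have h1 := G.F.N84
    have h2 := G.F.κ0
    have h3 := H.β0
    rcases hc with ⟨h, h'⟩ | ⟨h, h'⟩ <;> linarith
  have hd : 2 / 3 * d * n ≤ 3 / 5 * (d * cκ (dn q.1)) := by
    have h1 : d * n ≤ d * (84 / 103 * cκ (dn q.1)) := mul_le_mul_of_nonneg_left hn1 H.d0
    have h2 := G.F.D0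
    linarith
  refine ⟨hc, ?_, ?_⟩
  · rcases le_max_iff.1 T1 with h | h
    · left
      have := min_le_right (cu (dn q.1) 4) (n / 3)
      linarith
    · exact Or.inr h
  · have h : T - 2 / 3 * d * n ≤ max (max (2 * n) (l + b + n))
        (4 / 3 * n + (l + b + K0 (l + b) n (cu (dn q.1) 2)) / 3) := by linarith
    rcases le_max_iff.1 h with h | h
    · rcases le_max_iff.1 h with h | h
      · left; linarith
      · right; left; linarith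
    · right; right; linarith

/-- (c1) -/
theorem c1_le (H : Hq A d q k β) (hμ : μ ≤ 1 / 450) (h : HT d q β δ b l n T) :
    max (2 / 3 * k - (hS d q k β + q.1 none) / 3)
        (max (hS d q k β / 3 + 2 / 3 * q.1 none)
          (2 / 3 * hS d q k β + 7 / 6 * q.1 none - k / 3)) +
      (T + min b (max 0 (cN (dn q.1) - β - δ)) + 2 * δ - max 0 (b - cκ (dn q.1) / 64) -
        (cN (dn q.1) - β) / 3) + (q.1 none - 2 * δ - l) / 3 + cκ (dn q.1) / 500 ≤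
      ESP d μ q k - β := by
  obtain ⟨n1, t1, t2⟩ := ht_num H h
  have G := gs_of H
  have hth := th_le H
  have hκ := G.F.κ0
  have hp : 0 ≤ cN (dn q.1) - β - δ := by
    have h1 := G.p0
    have h2 := G.v1
    have h3 := G.F.N84
    have h4 := h.δ1
    rcases G.F.shr with h5 | ⟨s1, s2, s3, s4⟩
    · linarith
    · linarith [G.F.D0]
  have h1 : max (2 / 3 * k - (hS d q k β + q.1 none) / 3)
        (max (hS d q k β / 3 + 2 / 3 * q.1 none)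
          (2 / 3 * hS d q k β + 7 / 6 * q.1 none - k / 3)) ≤
      2 / 3 * k - (hS d q k β + q.1 none) / 3 :=
    max_le le_rfl (max_le (by linarith) (by linarith))
  have m1 := min_le_left b (max 0 (cN (dn q.1) - β - δ))
  have m2 : min b (max 0 (cN (dn q.1) - β - δ)) ≤ cN (dn q.1) - β - δ := by
    rw [max_eq_right hp]; exact min_le_right _ _
  have h2 := c1_num G h.δ0 h.δ1 h.b0 h.l0 h.l1 n1 t1 t2 m1 m2
    (le_max_left 0 (b - cκ (dn q.1) / 64)) (le_max_right 0 (b - cκ (dn q.1) / 64))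
  rw [ESP_eq H]
  rw [← hS_eq H] at h2
  linarith

/-- (c0) -/
theorem c0_le (H : Hq A d q k β) (hμ : μ ≤ 1 / 450) (h : HT d q β δ b l n T) :
    max (2 / 3 * k - q.1 none / 3)
        (max (2 / 3 * k - (hS d q k β + q.1 none) / 3) (2 / 3 * q.1 none)) +
      (T + min b (max 0 (cN (dn q.1) - β - δ)) + 2 * δ - max 0 (b - cκ (dn q.1) / 64) -
        (cN (dn q.1) - β) / 3) + cκ (dn q.1) / 500 ≤
      ESP d μ q k - β := by
  obtain ⟨n1, t1, t2⟩ := ht_num H h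
  have G := gs_of H
  have hκ := G.F.κ0
  have hp : 0 ≤ cN (dn q.1) - β - δ := by
    have h1 := G.p0
    have h2 := G.v1
    have h3 := G.F.N84
    have h4 := h.δ1
    rcases G.F.shr with h5 | ⟨s1, s2, s3, s4⟩
    · linarith
    · linarith [G.F.D0]
  have m1 := min_le_left b (max 0 (cN (dn q.1) - β - δ))
  have m2 : min b (max 0 (cN (dn q.1) - β - δ)) ≤ cN (dn q.1) - β - δ := by
    rw [max_eq_right hp]; exact min_le_right _ _
  have h2 := c1_num G h.δ0 h.δ1 h.b0 h.l0 h.l1 n1 t1 t2 m1 m2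
    (le_max_left 0 (b - cκ (dn q.1) / 64)) (le_max_right 0 (b - cκ (dn q.1) / 64))
  have h3 := c0_num G h.δ0 h.δ1 h.b0 h.l0 h.l1 n1 t1 t2 m1 m2
    (le_max_left 0 (b - cκ (dn q.1) / 64)) (le_max_right 0 (b - cκ (dn q.1) / 64))
  have l1 := h.l1
  rw [ESP_eq H]
  rw [← hS_eq H] at h2
  have e1 := le_max_left (2 / 3 * k - q.1 none / 3) (2 / 3 * q.1 none)
  have e2 := le_max_right (2 / 3 * k - q.1 none / 3) (2 / 3 * q.1 none)
  have e3 : max (2 / 3 * k - q.1 none / 3)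
        (max (2 / 3 * k - (hS d q k β + q.1 none) / 3) (2 / 3 * q.1 none)) ≤
      GP (cκ (dn q.1)) (LL d q) (q.2 .mo) k (cN (dn q.1) - β)
      (YM61.eC k (cM (dn q.1)) (q.2 .am)) - cκ (dn q.1) / 500 -
      (T + min b (max 0 (cN (dn q.1) - β - δ)) + 2 * δ - max 0 (b - cκ (dn q.1) / 64) -
        (cN (dn q.1) - β) / 3) :=
    max_le (by linarith) (max_le (by linarith) (by linarith))
  linarith

/-- (R) -/
theorem R_le (H : Hq A d q k β) (hμ : μ ≤ 1 / 450) (δ0 : 0 ≤ δ)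
    (hL : 0 ≤ hS d q k β + 2 * q.1 none - k - δ) (e0 : 0 ≤ e) (e1 : e ≤ cκ (dn q.1) / 64) :
    2 / 3 * k - (hS d q k β + q.1 none) / 3 + 5 / 3 * δ + 2 * e +
      gQ (hS d q k β + 2 * q.1 none - k - δ) (cN (dn q.1) - β + q.1 none + hS d q k β - k) +
      max (cN (dn q.1) - β + q.1 none + hS d q k β - k)
        ((cN (dn q.1) - β + q.1 none + hS d q k β - k) / 3) +
      (3 / 4 + 2 * d) * max 0 (min (cu (dn q.1) 4)
        ((cN (dn q.1) - β + q.1 none + hS d q k β - k) / 2)) +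
      2 / 3 * (cN (dn q.1) - β - δ) + cκ (dn q.1) / 500 ≤ ESP d μ q k - β := by
  have G := gs_of H
  have hw : hS d q k β + q.1 none = hR (cκ (dn q.1)) (LL d q) (d * cκ (dn q.1)) (q.2 .mo) k
      (q.1 none) (cN (dn q.1) - β) (cu (dn q.1) 2) (YM61.eC k (cM (dn q.1)) (q.2 .am)) +
      q.1 none := by rw [hS_eq H]
  rw [ESP_eq H]
  obtain ⟨w, hw'⟩ : ∃ w, w = hS d q k β + q.1 none := ⟨_, rfl⟩
  have hL1 : hS d q k β + 2 * q.1 none - k - δ = w + q.1 none - k - δ := by rw [hw']; ring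
  have hI1 : cN (dn q.1) - β + q.1 none + hS d q k β - k = w + (cN (dn q.1) - β) - k := by
    rw [hw']; ring
  rw [hL1, hI1, ← hw']
  rw [hL1] at hL
  rw [← hw'] at hw
  have hu3 : 3 * cu (dn q.1) 4 ≤ cN (dn q.1) := by
    have h1 : Sq5 A d (dn q.1) q.2 := H.hq.1
    obtain ⟨a1, a2, a3, a4⟩ := h1.toNr5.anti
    have hNe : cN (dn q.1) = cu (dn q.1) 2 + cu (dn q.1) 3 + cu (dn q.1) 4 := rfl
    linarith
  obtain ⟨i, hi⟩ : ∃ i, i = w + (cN (dn q.1) - β) - k := ⟨_, rfl⟩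
  rcases le_total 0 i with h0 | h0
  · have hS1 : 3 * max 0 (min (cu (dn q.1) 4) (i / 2)) ≤ cN (dn q.1) := by
      have h1 : max 0 (min (cu (dn q.1) 4) (i / 2)) ≤ cN (dn q.1) / 3 :=
        max_le (by linarith [G.F.N34, G.F.κ0]) ((min_le_left _ _).trans (by linarith))
      linarith
    have hS3 : 2 * max 0 (min (cu (dn q.1) 4) (i / 2)) ≤ i := by
      have h1 : max 0 (min (cu (dn q.1) 4) (i / 2)) ≤ i / 2 :=
        max_le (by linarith) (min_le_right _ _)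
      linarith
    have h1 := R_num G hw hL δ0 e0 e1 hS1 (by rw [← hi]; exact hS3)
    have h2 : 2 * d * max 0 (min (cu (dn q.1) 4) (i / 2)) ≤ 61 / 100 * (d * cκ (dn q.1)) := by
      have h3 : max 0 (min (cu (dn q.1) 4) (i / 2)) ≤ 28 / 103 * cκ (dn q.1) := by
        linarith [G.F.N84]
      have h4 : d * max 0 (min (cu (dn q.1) 4) (i / 2)) ≤ d * (28 / 103 * cκ (dn q.1)) :=
        mul_le_mul_of_nonneg_left h3 H.d0
      linarith [G.F.D0]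
    rw [← hi] at h1 ⊢
    have h5 : max i (i / 3) = i := max_eq_left (by linarith)
    rw [h5]
    linarith
  · have h1 := R2_num G hw hL δ0 e0 e1
    rw [← hi] at h1 ⊢
    have h5 : max i (i / 3) = i / 3 := max_eq_right (by linarith)
    have h6 : max 0 (min (cu (dn q.1) 4) (i / 2)) = 0 :=
      max_eq_left ((min_le_right _ _).trans (by linarith))
    rw [h5, h6]
    linarith

end Crest.Agent.R017.RSP702
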