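import Crest.Agent.R017.RstS_702
import Crest.Agent.R017.OwA_90

/-!
# Row 17, REST (helper405): the real side of the core

* `lmax`, `lmin`, `Gt_lip`, `hS_lip`, `Dh_smul`
* `lineT`, `lineS`, `lineM` : the `T`-line, the `LS`-line, the diagonal with the number `OwA90.Gt`
* `kx_le`, `v_le` : sizes
-/

set_option autoImplicit false
set_option linter.unusedVariables false

noncomputable section

namespace Crest.Agent.R017.RST405

open Crest.Agent.R017.RnP571 (Dh)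
open Crest.Agent.R017.RstQ702
open Crest.Agent.R017.OwA90 (Gt)

lemma lmax {a b a' b' c : ℝ} (h1 : a ≤ a' + c) (h2 : b ≤ b' + c) : max a b ≤ max a' b' + c :=
  max_le (h1.trans (by have := le_max_left a' b'; linarith))
    (h2.trans (by have := le_max_right a' b'; linarith))

lemma lmin {a b a' b' c : ℝ} (h1 : a ≤ a' + c) (h2 : b ≤ b' + c) : min a b ≤ min a' b' + c := by
  rw [← min_add_add_right]
  exact min_le_min h1 h2

lemma K0_lip {v n v' n' z : ℝ} :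
    OwA90.K0 v n z ≤ OwA90.K0 v' n' z + 2 * (|v - v'| + |n - n'|) := by
  have a1 := le_abs_self (v - v')
  have a2 := le_abs_self (n - n')
  have a3 := abs_nonneg (v - v')
  have a4 := abs_nonneg (n - n')
  unfold OwA90.K0
  exact lmax (by linarith) (lmax (by linarith) (lmax (by linarith) (by linarith)))

lemma Gt_lip {d v n v' n' z : ℝ} (hd : 0 ≤ d) (hd8 : d ≤ 1 / 8) :
    Gt d v n z ≤ Gt d v' n' z + 4 * (|v - v'| + |n - n'|) := by
  have a1 := le_abs_self (v - v')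
  have a2 := le_abs_self (n - n')
  have a3 := abs_nonneg (v - v')
  have a4 := abs_nonneg (n - n')
  have hK := K0_lip (v := v) (n := n) (v' := v') (n' := n') (z := z)
  have a5 : 2 / 3 * d * n ≤ 2 / 3 * d * n' + 1 / 12 * |n - n'| := by
    have h1 : 2 / 3 * d * (n - n') ≤ 2 / 3 * d * |n - n'| :=
      mul_le_mul_of_nonneg_left a2 (by positivity)
    nlinarith
  unfold OwA90.Gt
  refine lmin ?_ (lmax (by linarith) (by linarith))
  have h2 : max (max (2 * n) (v + n)) (4 / 3 * n + (v + OwA90.K0 v n z) / 3) ≤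
      max (max (2 * n') (v' + n')) (4 / 3 * n' + (v' + OwA90.K0 v' n' z) / 3) +
        3 * (|v - v'| + |n - n'|) :=
    lmax (lmax (by linarith) (by linarith)) (by linarith)
  linarith

/-- the number of the `T`-claims -/
def Sh (d p z γ b v : ℝ) : ℝ := Gt d (v + min b (p - γ)) (max 0 (p - γ - b)) z

lemma Sh_lip {d p z : ℝ} (hd : 0 ≤ d) (hd8 : d ≤ 1 / 8) (γ b v b' v' : ℝ) :
    Sh d p z γ b v ≤ Sh d p z γ b' v' + 8 * (|b - b'| + |v - v'|) := by
  unfold Sh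
  have h0 := Gt_lip (v := v + min b (p - γ)) (n := max 0 (p - γ - b)) (v' := v' + min b' (p - γ))
    (n' := max 0 (p - γ - b')) (z := z) hd hd8
  have b0 := abs_nonneg (b - b')
  have v0 := abs_nonneg (v - v')
  have h1 : |(v + min b (p - γ)) - (v' + min b' (p - γ))| ≤ |b - b'| + |v - v'| := by
    have e : (v + min b (p - γ)) - (v' + min b' (p - γ)) =
      (v - v') + (min b (p - γ) - min b' (p - γ)) := by ring
    rw [e]
    refine (abs_add_le _ _).trans ?_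
    have h3 := abs_min_sub_min_le_max b (p - γ) b' (p - γ)
    rw [sub_self, abs_zero, max_eq_left b0] at h3
    linarith
  have h2 : |max 0 (p - γ - b) - max 0 (p - γ - b')| ≤ |b - b'| := by
    have h3 := abs_max_sub_max_le_max 0 (p - γ - b) 0 (p - γ - b')
    rw [sub_self, abs_zero, show p - γ - b - (p - γ - b') = -(b - b') by ring, abs_neg,
      max_eq_right b0] at h3
    exact h3
  linarith

lemma hS_lip (k v p x y s : ℝ) : hS k v p x s ≤ hS k v p y s + 4 * |x - y| := by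
  have a1 := neg_abs_le (x - y)
  have a3 := abs_nonneg (x - y)
  unfold hS
  exact lmax (lmin (by linarith) (lmax (by linarith) (by linarith))) (by linarith)

/-- the domain is a cone -/
lemma Dh_smul {k y₃ y₄ u x D L : ℝ} (h : Dh k y₃ y₄ u x D) (hL : 0 < L) :
    Dh (k * L) (y₃ * L) (y₄ * L) (u * L) (x * L) (D * L) := by
  obtain ⟨k0, u4, y43, u0, y3, N1, near, x0, adm, d0, d1⟩ := h
  have m : ∀ {a b : ℝ}, a ≤ b → a * L ≤ b * L := fun h => mul_le_mul_of_nonneg_right h hL.le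
  refine ⟨by positivity, m u4, m y43, ?_, ?_, ?_, ?_, by positivity, ?_, by positivity, ?_⟩
  · have := m u0; linarith
  · have := m y3; linarith
  · have := m N1; linarith
  · have := m near; linarith
  · rcases adm with ⟨h1, h2⟩ | ⟨h1, h2, h3⟩
    · left
      refine ⟨by have := m h1; linarith, ?_⟩
      rcases h2 with h2 | h2
      · left; rw [h2, zero_mul]
      · right; have := m h2; linarith
    · right
      exact ⟨by have := m h1; linarith, by have := m h2; linarith, by have := m h3; linarith⟩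
  · have := m d1; linarith

section lines

variable {k y₃ y₄ u x D t p v δ b v' z d : ℝ}

/-- the number is at most `max (l + n) tS` plus the loss -/
lemma Gt_le {l n : ℝ} (hn : 0 ≤ n) (hd : 0 ≤ d) :
    Gt d l n z ≤ l + n + 2 / 3 * d * n ∨ Gt d l n z ≤ tS l n z + 2 / 3 * d * n := by
  have h0 : 0 ≤ 2 / 3 * d * n := by positivity
  unfold OwA90.Gt tS OwA90.K0 RstQ702.K0
  have e : max (max (2 * n) (l + n)) (4 / 3 * n + (l + max (5 / 4 * n) (max (l + n / 2)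
      (max (3 / 2 * l) (200 / 61 * z)))) / 3) = max (l + n) (max (2 * n) (4 / 3 * n +
      (max (5 / 4 * n) (max (l + n / 2) (max (3 / 2 * l) (200 / 61 * z))) + l) / 3)) := by
    rw [max_comm (2 * n) (l + n), max_assoc, add_comm l (max (5 / 4 * n) _)]
  rw [e]
  rcases max_choice (l + n) (max (2 * n) (4 / 3 * n +
      (max (5 / 4 * n) (max (l + n / 2) (max (3 / 2 * l) (200 / 61 * z))) + l) / 3)) with h | h
  · left; rw [h]; exact min_le_left _ _
  · right; rw [h]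
    rw [← min_add_add_right]
    exact min_le_min le_rfl (by linarith)

/-- the frame of the lines -/
structure Fr (k y₃ y₄ u x D t p v δ d : ℝ) : Prop where
  hD : Dh k y₃ y₄ u x D
  t0 : 0 ≤ t
  t1 : t ≤ k / 20000
  p0 : k / 2 - 2 * x - t ≤ p
  p1 : p ≤ y₃ + y₄ + u + t
  v1 : v ≤ 2 * (y₃ + y₄ + u) - k + 9 / 4 * x + t
  v2 : v ≤ 3 / 4 * (y₃ + y₄ + u) + 9 / 4 * x + t
  δ0 : 0 ≤ δ
  δ1 : 2 * δ ≤ v + t
  dd : d = D / k

lemma Fr.v_le (h : Fr k y₃ y₄ u x D t p v δ d) : v ≤ 7 / 10 * k ∧ v ≤ (k + p) / 2 - k / 50 ∧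
    δ + k / 100 ≤ p ∧ x ≤ k / 36 := by
  obtain ⟨⟨k0, u4, y43, u0, y3, N1, near, x0, adm, d0, d1⟩, t0, t1, p0, p1, v1, v2, δ0, δ1, -⟩ := h
  rcases adm with ⟨a0, rfl | a1⟩ | ⟨a1, a2, a3⟩ <;> refine ⟨?_, ?_, ?_, ?_⟩ <;> linarith

lemma Fr.d0 (h : Fr k y₃ y₄ u x D t p v δ d) : 0 ≤ d := by
  rw [h.dd]
  have h1 := h.hD.k0
  have h2 := h.hD.d0
  positivity

/-- the block is at most the rest of the length -/
lemma Fr.blk (h : Fr k y₃ y₄ u x D t p v δ d) (b0 : 0 ≤ b) :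
    ∃ B, B = min b (p - δ) ∧ 0 ≤ B ∧ B ≤ b ∧ 0 ≤ max 0 (p - δ - b) ∧
      max 0 (p - δ - b) = p - δ - B := by
  obtain ⟨-, -, h3, -⟩ := h.v_le
  have hk := h.hD.k0
  refine ⟨_, rfl, le_min b0 (by linarith), min_le_left _ _, le_max_left _ _, ?_⟩
  rcases le_total b (p - δ) with h1 | h1
  · rw [min_eq_left h1, max_eq_right (by linarith)]
  · rw [min_eq_right h1, max_eq_left (by linarith)]; ring

/-- the loss -/
lemma Fr.loss (h : Fr k y₃ y₄ u x D t p v δ d) {n : ℝ} (hn : n ≤ p) :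
    2 / 3 * d * n ≤ 2 / 3 * (102 / 125) * D + t := by
  obtain ⟨⟨k0, u4, y43, u0, y3, N1, near, x0, adm, d0, d1⟩, t0, t1, p0, p1, v1, v2, δ0, δ1, rfl⟩ := h
  exact loss_le k0 d0 d1 t0 (by linarith) (p := p)

/-- **the `T`-line** -/
theorem Fr.lineT (h : Fr k y₃ y₄ u x D t p v δ d) (b0 : 0 ≤ b) (v0 : 0 ≤ v')
    (hv : v' ≤ v - 2 * δ + t) (hz : z ≤ y₃ + t) :
    2 / 3 * k - (hS k v p δ (XS (y₃ + y₄ + u) k x) + v) / 3 + Sh d p z δ b v' + 2 * δ +
      (v - v' - 2 * δ) / 3 - p / 3 ≤ k + p + LR (y₃ + y₄ + u) k D x + 10 * t := by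
  obtain ⟨B, hB, B0, Bb, n0, hn⟩ := h.blk b0
  obtain ⟨w1, w2, w3, w4⟩ := h.v_le
  unfold Sh
  rw [← hB]
  rw [hn] at n0 ⊢
  have hl := h.loss (n := p - δ - B) (by have := h.δ0; linarith)
  rcases Gt_le (l := v' + B) (z := z) n0 h.d0 with hg | hg
  · have hh := hS_ge k v p δ (XS (y₃ + y₄ + u) k x)
    obtain ⟨⟨k0, u4, y43, u0, y3, N1, near, x0, adm, d0, d1⟩, t0, t1, p0, p1, v1, v2, δ0, δ1, -⟩ := h
    unfold LR
    unfold XS at hh ⊢
    have L0 := le_max_left 0 (5 / 4 * (y₃ + y₄ + u) - k)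
    generalize hS k v p δ (9 / 4 * x - 3 * max 0 (5 / 4 * (y₃ + y₄ + u) - k)) = H at *
    generalize max 0 (5 / 4 * (y₃ + y₄ + u) - k) = Lm at *
    generalize Gt d (v' + B) (p - δ - B) z = G at *
    generalize 2 / 3 * d * (p - δ - B) = W at *
    obtain ⟨h1, h2 | ⟨h2, h3⟩⟩ := hh
    · rcases adm with ⟨a0, rfl | a1⟩ | ⟨a1, a2, a3⟩ <;> linarith
    · rcases adm with ⟨a0, rfl | a1⟩ | ⟨a1, a2, a3⟩ <;> linarith
  · have key := tS_le (l := v' + B) (n := p - δ - B) h.hD h.t0 h.t1 h.p1 h.v1 h.v2 h.δ0 B0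
      (by linarith) n0 (by have := h.t0; linarith) hz
    rw [← h.dd] at key
    linarith

/-- **the `LS`-line** -/
theorem Fr.lineS (h : Fr k y₃ y₄ u x D t p v δ d) (b0 : 0 ≤ b) (v0 : 0 ≤ v')
    (hv : v' ≤ v - 2 * δ + t) (hz : z ≤ y₃ + t) :
    2 / 3 * v + k / 20 + Sh d p z δ b v' + 2 * δ - p / 3 ≤
      k + p + LR (y₃ + y₄ + u) k D x + 10 * t := by
  obtain ⟨B, hB, B0, Bb, n0, hn⟩ := h.blk b0
  obtain ⟨w1, w2, w3, w4⟩ := h.v_le
  unfold Sh
  rw [← hB]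
  rw [hn] at n0 ⊢
  have hl := h.loss (n := p - δ - B) (by have := h.δ0; linarith)
  rcases Gt_le (l := v' + B) (z := z) n0 h.d0 with hg | hg
  · obtain ⟨⟨k0, u4, y43, u0, y3, N1, near, x0, adm, d0, d1⟩, t0, t1, p0, p1, v1, v2, δ0, δ1, -⟩ := h
    unfold LR
    have L0 := le_max_left 0 (5 / 4 * (y₃ + y₄ + u) - k)
    generalize max 0 (5 / 4 * (y₃ + y₄ + u) - k) = Lm at *
    generalize Gt d (v' + B) (p - δ - B) z = G at *
    generalize 2 / 3 * d * (p - δ - B) = W at *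
    rcases adm with ⟨a0, rfl | a1⟩ | ⟨a1, a2, a3⟩ <;> linarith
  · have key := sS_le (l := v' + B) (n := p - δ - B) h.hD h.t0 h.t1 h.p1 h.v1 h.v2 h.δ0 B0
      (by linarith) n0 (by have := h.t0; linarith) hz
    rw [← h.dd] at key
    linarith

/-- **the diagonal** -/
theorem Fr.lineM (h : Fr k y₃ y₄ u x D t p v δ d) (b0 : 0 ≤ b) (v0 : 0 ≤ v')
    (hv : v' ≤ v - 2 * δ + t) (hz : z ≤ y₃ + t)
    (hR : min (2 * (y₃ + y₄ + u) - k) (3 / 4 * (y₃ + y₄ + u)) + 9 / 4 * x - v ≤ 4 * b + t ∨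
      min (2 * (y₃ + y₄ + u) - k) (3 / 4 * (y₃ + y₄ + u)) + 9 / 4 * x - v ≤
        2 * (y₃ + y₄ + u - p) + t) :
    2 / 3 * k - v / 3 + Sh d p z δ b v' + 2 * δ - p / 3 ≤
      k + p + LR (y₃ + y₄ + u) k D x + 10 * t := by
  obtain ⟨B, hB, B0, Bb, n0, hn⟩ := h.blk b0
  obtain ⟨w1, w2, w3, w4⟩ := h.v_le
  unfold Sh
  rw [← hB]
  rw [hn] at n0 ⊢
  have hl := h.loss (n := p - δ - B) (by have := h.δ0; linarith)
  rcases Gt_le (l := v' + B) (z := z) n0 h.d0 with hg | hg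
  · obtain ⟨⟨k0, u4, y43, u0, y3, N1, near, x0, adm, d0, d1⟩, t0, t1, p0, p1, v1, v2, δ0, δ1, -⟩ := h
    unfold LR
    have L0 := le_max_left 0 (5 / 4 * (y₃ + y₄ + u) - k)
    generalize max 0 (5 / 4 * (y₃ + y₄ + u) - k) = Lm at *
    generalize Gt d (v' + B) (p - δ - B) z = G at *
    generalize 2 / 3 * d * (p - δ - B) = W at *
    rcases adm with ⟨a0, rfl | a1⟩ | ⟨a1, a2, a3⟩ <;> linarith
  · have hR' : min (2 * (y₃ + y₄ + u) - k) (3 / 4 * (y₃ + y₄ + u)) + 9 / 4 * x - v ≤ 4 * B + t ∨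
        min (2 * (y₃ + y₄ + u) - k) (3 / 4 * (y₃ + y₄ + u)) + 9 / 4 * x - v ≤
          2 * (y₃ + y₄ + u - p) + t := by
      rcases hR with hR | hR
      · left
        rcases le_total b (p - δ) with h1 | h1
        · rw [min_eq_left h1] at hB
          rw [hB]; exact hR
        · rw [min_eq_right h1] at hB
          rw [hB]
          have m1 := min_le_left (2 * (y₃ + y₄ + u) - k) (3 / 4 * (y₃ + y₄ + u))
          have m2 := min_le_right (2 * (y₃ + y₄ + u) - k) (3 / 4 * (y₃ + y₄ + u))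
          obtain ⟨⟨k0, u4, y43, u0, y3, N1, near, x0, adm, d0, d1⟩, t0, t1, p0, p1, v1, v2, δ0, δ1,
            -⟩ := h
          rcases adm with ⟨a0, rfl | a1⟩ | ⟨a1, a2, a3⟩ <;> linarith
      · exact Or.inr hR
    have key := mS_le (l := v' + B) (n := p - δ - B) h.hD h.t0 h.t1 h.p1 h.v1 h.v2 h.δ0 B0 hR'
      (by linarith) n0 (by have := h.t0; linarith) hz
    rw [← h.dd] at key
    linarith

end lines

/-- the size of `H` -/
theorem kx_le {k y₃ y₄ u x D t p v δ : ℝ} (hD : Dh k y₃ y₄ u x D) (t0 : 0 ≤ t)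
    (t1 : t ≤ k / 20000) (p0 : k / 2 - 2 * x - t ≤ p) (p1 : p ≤ y₃ + y₄ + u + t)
    (v1 : v ≤ 2 * (y₃ + y₄ + u) - k + 9 / 4 * x + t)
    (v2 : v ≤ 3 / 4 * (y₃ + y₄ + u) + 9 / 4 * x + t) (δ0 : 0 ≤ δ) :
    hS k v p δ (XS (y₃ + y₄ + u) k x) + 2 * v + k / 100 ≤ k + p ∧
      hS k v p δ (XS (y₃ + y₄ + u) k x) ≤ k := by
  have hh := hS_le k v p δ (XS (y₃ + y₄ + u) k x)
  obtain ⟨k0, u4, y43, u0, y3, N1, near, x0, adm, d0, d1⟩ := hD
  have hL1 := le_max_left 0 (5 / 4 * (y₃ + y₄ + u) - k)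
  unfold XS at *
  generalize hS k v p δ (9 / 4 * x - 3 * max 0 (5 / 4 * (y₃ + y₄ + u) - k)) = h at *
  generalize max 0 (5 / 4 * (y₃ + y₄ + u) - k) = L at *
  rcases hh with hh | ⟨hh1, hh2⟩
  · rcases adm with ⟨a0, rfl | a1⟩ | ⟨a1, a2, a3⟩ <;> constructor <;> linarith
  · rcases hh2 with hh2 | hh2 <;> rcases adm with ⟨a0, rfl | a1⟩ | ⟨a1, a2, a3⟩ <;>
      constructor <;> linarith

end Crest.Agent.R017.RST405
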