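import Crest.Agent.R017.RX2_241

/-!
# Row 17, exceptional class, T.7, leaf X2 (helper241), part b: the numbers of the difference

`x = a - ζ b`; pointwise hypothesis on the bias of `x` at the sub-sequence `g`:
`‖Md (tws (sg x g) t) j‖² ≤ E (nm g)^(-5/3) min 1 (nm g * D2) (1 + |t|)^J`.
* `num_S` : the numbers (SA), (SB)
* `num_L` : the number (L+)
* `num_back` : the second moment of `a` against `Dk` from the one of `x`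
All errors are `C * Nb` with `Nb E D2 K X N1 = E D2 (N1 / K)^(1/3) X^(2/3)`.
-/

set_option autoImplicit false

noncomputable section

open Complex
open scoped ComplexConjugate Classical

namespace Crest.Agent.R017.RX241

open Crest.Agent.R012 Crest.Agent.R012.Eis Crest.Agent.R012.MC
open Crest.Agent.R012.LS2 (S mem_S bl mem_bl)
open Crest.Agent.R012.Weight600 (pw)
open Crest.Agent.R017.CM106 (TG FS)
open Crest.Agent.R017.HP842 (KS Kg KS_Kg)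
open Crest.Agent.R017.PX764 (Dk th md pC_pos)
open Crest.Agent.R017.Prov71 (CubeFree)
open Crest.Agent.R017.Rough381 (VF)
open Crest.Agent.R017.E1551 (sg tws JB yv BU mem_BU CF)
open Crest.Agent.R017.LegK545 (VK SFK JBK)

/-- the number of the bias -/
def Nb (E D2 K X N1 : ℝ) : ℝ := E * D2 * (N1 / K) ^ (1 / 3 : ℝ) * X ^ (2 / 3 : ℝ)

lemma Nb_nonneg {E D2 K X N1 : ℝ} (hE : 0 ≤ E) (hD : 0 ≤ D2) (hK : 0 ≤ K) (hX : 0 ≤ X)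
    (hN : 0 ≤ N1) : 0 ≤ Nb E D2 K X N1 := by
  unfold Nb; positivity

/-- the bound of the bias at `g`, without the minimum -/
lemma min_le_D {D2 : ℝ} (g : Eis) : min 1 ((nm g : ℝ) * D2) ≤ nm g * D2 := min_le_right _ _

/-- real algebra of (S) -/
lemma alg_S {E D2 K X N1 G₀ V g T : ℝ} (hE : 0 ≤ E) (hD : 0 ≤ D2) (hK : 0 < K) (hX : 0 < X)
    (hN : 0 < N1) (hV : 0 < V) (hg : 1 ≤ g) (hgG : g ≤ G₀) (hVN : V ≤ 9 * N1 * g) (hT : 0 ≤ T) :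
    V ^ (2 / 3 : ℝ) * (E * g ^ (-(5 / 3) : ℝ) * (g * D2) * T) ≤
      (3 * (G₀ * Nb E D2 K X N1)) / g ^ 2 * (max 1 ((V * K / (X / g) ^ 2) ^ (1 / 3 : ℝ))) * T := by
  have hg0 : 0 < g := by linarith
  have hG0 : 0 < G₀ := by linarith
  -- the maximum
  have e1 : (V * K / (X / g) ^ 2) ^ (1 / 3 : ℝ) =
      V ^ (1 / 3 : ℝ) * K ^ (1 / 3 : ℝ) * (X ^ (-(2 / 3) : ℝ) * g ^ (2 / 3 : ℝ)) := by
    have h1 : V * K / (X / g) ^ 2 = V * K * (X ^ (-2 : ℝ) * g ^ (2 : ℝ)) := by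
      rw [Real.rpow_neg hX.le, Real.rpow_two, Real.rpow_two]
      field_simp
    rw [h1, Real.mul_rpow (by positivity) (by positivity), Real.mul_rpow hV.le hK.le,
      Real.mul_rpow (by positivity) (by positivity), ← Real.rpow_mul hX.le, ← Real.rpow_mul hg0.le]
    norm_num
  have h2 : V ^ (1 / 3 : ℝ) * K ^ (1 / 3 : ℝ) * (X ^ (-(2 / 3) : ℝ) * g ^ (2 / 3 : ℝ)) ≤
      max 1 ((V * K / (X / g) ^ 2) ^ (1 / 3 : ℝ)) := by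
    rw [← e1]; exact le_max_right _ _
  have hNb0 : 0 ≤ Nb E D2 K X N1 := Nb_nonneg hE hD hK.le hX.le hN.le
  have h3 : (3 * (G₀ * Nb E D2 K X N1)) / g ^ 2 *
      (V ^ (1 / 3 : ℝ) * K ^ (1 / 3 : ℝ) * (X ^ (-(2 / 3) : ℝ) * g ^ (2 / 3 : ℝ))) * T ≤
      (3 * (G₀ * Nb E D2 K X N1)) / g ^ 2 *
        (max 1 ((V * K / (X / g) ^ 2) ^ (1 / 3 : ℝ))) * T := by
    gcongr
  refine le_trans ?_ h3
  -- exponents
  have e2 : V ^ (2 / 3 : ℝ) = V ^ (1 / 3 : ℝ) * V ^ (1 / 3 : ℝ) := by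
    rw [← Real.rpow_add hV]; norm_num
  have e3 : V ^ (1 / 3 : ℝ) ≤ 3 * (N1 ^ (1 / 3 : ℝ) * g ^ (1 / 3 : ℝ)) := by
    calc V ^ (1 / 3 : ℝ) ≤ (9 * N1 * g) ^ (1 / 3 : ℝ) :=
          Real.rpow_le_rpow hV.le hVN (by norm_num)
      _ = (9 : ℝ) ^ (1 / 3 : ℝ) * (N1 ^ (1 / 3 : ℝ) * g ^ (1 / 3 : ℝ)) := by
          rw [Real.mul_rpow (by positivity) hg0.le, Real.mul_rpow (by norm_num) hN.le, mul_assoc]
      _ ≤ 3 * (N1 ^ (1 / 3 : ℝ) * g ^ (1 / 3 : ℝ)) := by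
          have : (9 : ℝ) ^ (1 / 3 : ℝ) ≤ 3 := by
            calc (9 : ℝ) ^ (1 / 3 : ℝ) ≤ 27 ^ (1 / 3 : ℝ) :=
                  Real.rpow_le_rpow (by norm_num) (by norm_num) (by norm_num)
              _ = 3 := by
                  rw [show (27 : ℝ) = 3 ^ (3 : ℝ) by norm_num, ← Real.rpow_mul (by norm_num)]
                  norm_num
          gcongr
  have e4 : Nb E D2 K X N1 =
      E * D2 * (N1 ^ (1 / 3 : ℝ) * K ^ (-(1 / 3) : ℝ)) * X ^ (2 / 3 : ℝ) := by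
    unfold Nb
    rw [Real.div_rpow hN.le hK.le, Real.rpow_neg hK.le, div_eq_mul_inv]
  have k1 : K ^ (-(1 / 3) : ℝ) * K ^ (1 / 3 : ℝ) = 1 := by
    rw [← Real.rpow_add hK]; norm_num
  have k2 : X ^ (2 / 3 : ℝ) * X ^ (-(2 / 3) : ℝ) = 1 := by
    rw [← Real.rpow_add hX]; norm_num
  have e5 : (3 * (G₀ * Nb E D2 K X N1)) / g ^ 2 *
      (V ^ (1 / 3 : ℝ) * K ^ (1 / 3 : ℝ) * (X ^ (-(2 / 3) : ℝ) * g ^ (2 / 3 : ℝ))) * T =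
      V ^ (1 / 3 : ℝ) * (3 * N1 ^ (1 / 3 : ℝ)) * (E * D2) * G₀ *
        (g ^ (2 / 3 : ℝ) / g ^ 2) * T := by
    rw [e4]
    calc _ = V ^ (1 / 3 : ℝ) * (3 * N1 ^ (1 / 3 : ℝ)) * (E * D2) * G₀ *
          (g ^ (2 / 3 : ℝ) / g ^ 2) * T * (K ^ (-(1 / 3) : ℝ) * K ^ (1 / 3 : ℝ)) *
          (X ^ (2 / 3 : ℝ) * X ^ (-(2 / 3) : ℝ)) := by ring
      _ = _ := by rw [k1, k2]; ring
  rw [e5]
  have g1 : g ^ (2 / 3 : ℝ) / g ^ 2 = g ^ (-(4 / 3) : ℝ) := by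
    rw [← Real.rpow_two, ← Real.rpow_sub hg0]; norm_num
  have g2 : g ^ (-(5 / 3) : ℝ) * g = g ^ (-(2 / 3) : ℝ) := by
    nth_rewrite 2 [← Real.rpow_one g]
    rw [← Real.rpow_add hg0]; norm_num
  have g3 : g ^ (1 / 3 : ℝ) * g ^ (-(2 / 3) : ℝ) = g * g ^ (-(4 / 3) : ℝ) := by
    nth_rewrite 3 [← Real.rpow_one g]
    rw [← Real.rpow_add hg0, ← Real.rpow_add hg0]; norm_num
  rw [g1, e2]
  calc V ^ (1 / 3 : ℝ) * V ^ (1 / 3 : ℝ) * (E * g ^ (-(5 / 3) : ℝ) * (g * D2) * T)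
      = V ^ (1 / 3 : ℝ) * V ^ (1 / 3 : ℝ) * ((g ^ (-(5 / 3) : ℝ) * g) * (E * D2) * T) := by ring
    _ = V ^ (1 / 3 : ℝ) * (V ^ (1 / 3 : ℝ) * (g ^ (-(2 / 3) : ℝ) * (E * D2) * T)) := by
        rw [g2]; ring
    _ ≤ V ^ (1 / 3 : ℝ) * ((3 * (N1 ^ (1 / 3 : ℝ) * g ^ (1 / 3 : ℝ))) *
          (g ^ (-(2 / 3) : ℝ) * (E * D2) * T)) := by gcongr
    _ = V ^ (1 / 3 : ℝ) * (3 * N1 ^ (1 / 3 : ℝ)) * (E * D2) *
          (g ^ (1 / 3 : ℝ) * g ^ (-(2 / 3) : ℝ)) * T := by ring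
    _ = V ^ (1 / 3 : ℝ) * (3 * N1 ^ (1 / 3 : ℝ)) * (E * D2) * g * g ^ (-(4 / 3) : ℝ) * T := by
        rw [g3]; ring
    _ ≤ V ^ (1 / 3 : ℝ) * (3 * N1 ^ (1 / 3 : ℝ)) * (E * D2) * G₀ * g ^ (-(4 / 3) : ℝ) * T := by
        gcongr

/-- **(SA), (SB)** : the T-moment of the difference at the divisor `g` -/
theorem num_S : ∃ C : ℝ, 0 ≤ C ∧ ∀ (a b x : Eis → ℂ) (ζ : ℂ), ‖ζ‖ ≤ 1 → FS a → FS b →
    (∀ n, x n = a n - ζ * b n) → ∀ (E D2 K X N1 G₀ J : ℝ), 0 ≤ E → 0 ≤ D2 → 0 < K → 0 < X →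
    0 < N1 → ∀ g : Eis, IsPrim g → (nm g : ℝ) ≤ G₀ → ∀ V t : ℝ, 1 ≤ V → V ≤ 9 * N1 * nm g →
    (∀ j, CubeFree j → (nm j : ℝ) ≤ V → ‖Md (tws (sg x g) t) j‖ ^ 2 ≤
      E * (nm g : ℝ) ^ (-(5 / 3) : ℝ) * min 1 (nm g * D2) * (1 + |t|) ^ J) →
    ∀ M₁ M₂ : ℝ,
    VK Dk V (tws (sg a g) t) ≤
      M₁ / (nm g : ℝ) ^ 2 * max 1 ((V * K / (X / nm g) ^ 2) ^ (1 / 3 : ℝ)) * (1 + |t|) ^ J →
    VK Dk V (tws (sg b g) t) ≤
      M₂ / (nm g : ℝ) ^ 2 * max 1 ((V * K / (X / nm g) ^ 2) ^ (1 / 3 : ℝ)) * (1 + |t|) ^ J →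
    VF V (tws (sg x g) t) ≤ (3 * M₁ + 3 * M₂ + C * (G₀ * Nb E D2 K X N1)) / (nm g : ℝ) ^ 2 *
      max 1 ((V * K / (X / nm g) ^ 2) ^ (1 / 3 : ℝ)) * (1 + |t|) ^ J := by
  obtain ⟨C, hC, H⟩ := Bs_le
  refine ⟨3 * pC ^ 2 * (C * 3), by positivity, ?_⟩
  intro a b x ζ hζ ha hb hx E D2 K X N1 G₀ J hE hD hK hX hN g hg hgG V t hV hVN hPB M₁ M₂ h1 h2
  have hg1 : (1 : ℝ) ≤ nm g := by exact_mod_cast nm_pos.2 hg.ne_zero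
  have h3 := VF_xg_le hζ ha hb hx hg t V
  have hT : 0 ≤ (1 + |t|) ^ J := by positivity
  have h4 : Bs V (tws (sg x g) t) ≤ C * V ^ ((2 : ℝ) / 3) *
      (E * (nm g : ℝ) ^ (-(5 / 3) : ℝ) * (nm g * D2) * (1 + |t|) ^ J) := by
    refine H V _ _ hV fun j hj hjV => (hPB j hj hjV).trans ?_
    gcongr
    exact min_le_D g
  have h5 := alg_S (T := (1 + |t|) ^ J) hE hD hK hX hN (by linarith : 0 < V) hg1 hgG hVN hT
  set mx := max 1 ((V * K / (X / nm g) ^ 2) ^ (1 / 3 : ℝ)) with hmx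
  set T := (1 + |t|) ^ J with hTd
  have h6 : Bs V (tws (sg x g) t) ≤ C * ((3 * (G₀ * Nb E D2 K X N1)) / (nm g : ℝ) ^ 2 * mx * T) := by
    calc Bs V (tws (sg x g) t) ≤ C * (V ^ ((2 : ℝ) / 3) *
          (E * (nm g : ℝ) ^ (-(5 / 3) : ℝ) * (nm g * D2) * T)) := by
          rw [← mul_assoc]; exact h4
      _ ≤ _ := mul_le_mul_of_nonneg_left h5 hC
  have hpc := pC_pos
  calc VF V (tws (sg x g) t)
      ≤ 3 * (VK Dk V (tws (sg a g) t) + VK Dk V (tws (sg b g) t) +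
          pC ^ 2 * Bs V (tws (sg x g) t)) := h3
    _ ≤ 3 * (M₁ / (nm g : ℝ) ^ 2 * mx * T + M₂ / (nm g : ℝ) ^ 2 * mx * T +
          pC ^ 2 * (C * ((3 * (G₀ * Nb E D2 K X N1)) / (nm g : ℝ) ^ 2 * mx * T))) := by
        gcongr
    _ = _ := by ring

/-- real algebra of (L+) -/
lemma alg_L {E D2 K X N1 V B g T : ℝ} (hE : 0 ≤ E) (hD : 0 ≤ D2) (hK : 0 < K) (hX : 0 < X)
    (hN : 0 < N1) (hV : 0 < V) (hB : 0 < B) (hg : 1 ≤ g) (hVN : V ≤ 9 * N1 / g ^ 2)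
    (hT : 0 ≤ T) :
    (V * B) ^ (2 / 3 : ℝ) * (2 * (E * D2 * (g * B) ^ (-(2 / 3) : ℝ) * T)) ≤
      (6 * Nb E D2 K X N1) / g ^ 2 * ((K * V) ^ (1 / 3 : ℝ) * (X / g) ^ (-(2 / 3) : ℝ)) * T := by
  have hg0 : 0 < g := by linarith
  have e0 : (V * B) ^ (2 / 3 : ℝ) * (g * B) ^ (-(2 / 3) : ℝ) =
      V ^ (1 / 3 : ℝ) * V ^ (1 / 3 : ℝ) * g ^ (-(2 / 3) : ℝ) := by
    rw [Real.mul_rpow hV.le hB.le, Real.mul_rpow hg0.le hB.le]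
    have e2 : V ^ (2 / 3 : ℝ) = V ^ (1 / 3 : ℝ) * V ^ (1 / 3 : ℝ) := by
      rw [← Real.rpow_add hV]; norm_num
    have e3 : B ^ (2 / 3 : ℝ) * B ^ (-(2 / 3) : ℝ) = 1 := by
      rw [← Real.rpow_add hB]; norm_num
    calc _ = V ^ (2 / 3 : ℝ) * g ^ (-(2 / 3) : ℝ) * (B ^ (2 / 3 : ℝ) * B ^ (-(2 / 3) : ℝ)) := by
          ring
      _ = _ := by rw [e3, e2]; ring
  have e3 : V ^ (1 / 3 : ℝ) ≤ 3 * (N1 ^ (1 / 3 : ℝ) * g ^ (-(2 / 3) : ℝ)) := by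
    calc V ^ (1 / 3 : ℝ) ≤ (9 * N1 / g ^ 2) ^ (1 / 3 : ℝ) :=
          Real.rpow_le_rpow hV.le hVN (by norm_num)
      _ = (9 : ℝ) ^ (1 / 3 : ℝ) * (N1 ^ (1 / 3 : ℝ) * g ^ (-(2 / 3) : ℝ)) := by
          have h1 : 9 * N1 / g ^ 2 = 9 * N1 * g ^ (-2 : ℝ) := by
            rw [Real.rpow_neg hg0.le, Real.rpow_two, div_eq_mul_inv]
          rw [h1, Real.mul_rpow (by positivity) (by positivity),
            Real.mul_rpow (by norm_num) hN.le, ← Real.rpow_mul hg0.le, mul_assoc]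
          norm_num
      _ ≤ 3 * (N1 ^ (1 / 3 : ℝ) * g ^ (-(2 / 3) : ℝ)) := by
          have : (9 : ℝ) ^ (1 / 3 : ℝ) ≤ 3 := by
            calc (9 : ℝ) ^ (1 / 3 : ℝ) ≤ 27 ^ (1 / 3 : ℝ) :=
                  Real.rpow_le_rpow (by norm_num) (by norm_num) (by norm_num)
              _ = 3 := by
                  rw [show (27 : ℝ) = 3 ^ (3 : ℝ) by norm_num, ← Real.rpow_mul (by norm_num)]
                  norm_num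
          gcongr
  have e4 : Nb E D2 K X N1 =
      E * D2 * (N1 ^ (1 / 3 : ℝ) * K ^ (-(1 / 3) : ℝ)) * X ^ (2 / 3 : ℝ) := by
    unfold Nb
    rw [Real.div_rpow hN.le hK.le, Real.rpow_neg hK.le, div_eq_mul_inv]
  have k1 : K ^ (-(1 / 3) : ℝ) * K ^ (1 / 3 : ℝ) = 1 := by
    rw [← Real.rpow_add hK]; norm_num
  have k2 : X ^ (2 / 3 : ℝ) * X ^ (-(2 / 3) : ℝ) = 1 := by
    rw [← Real.rpow_add hX]; norm_num
  have e6 : (X / g) ^ (-(2 / 3) : ℝ) = X ^ (-(2 / 3) : ℝ) * g ^ (2 / 3 : ℝ) := by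
    rw [Real.div_rpow hX.le hg0.le, Real.rpow_neg hg0.le (2 / 3), div_eq_mul_inv, inv_inv]
  have g1 : g ^ (2 / 3 : ℝ) / g ^ 2 = g ^ (-(4 / 3) : ℝ) := by
    rw [← Real.rpow_two, ← Real.rpow_sub hg0]; norm_num
  have g2 : g ^ (-(2 / 3) : ℝ) * g ^ (-(2 / 3) : ℝ) = g ^ (-(4 / 3) : ℝ) := by
    rw [← Real.rpow_add hg0]; norm_num
  have e5 : (6 * Nb E D2 K X N1) / g ^ 2 *
      ((K * V) ^ (1 / 3 : ℝ) * (X / g) ^ (-(2 / 3) : ℝ)) * T =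
      V ^ (1 / 3 : ℝ) * (6 * N1 ^ (1 / 3 : ℝ)) * (E * D2) * g ^ (-(4 / 3) : ℝ) * T := by
    rw [e4, e6, Real.mul_rpow hK.le hV.le, ← g1]
    calc _ = V ^ (1 / 3 : ℝ) * (6 * N1 ^ (1 / 3 : ℝ)) * (E * D2) *
          (g ^ (2 / 3 : ℝ) / g ^ 2) * T * (K ^ (-(1 / 3) : ℝ) * K ^ (1 / 3 : ℝ)) *
          (X ^ (2 / 3 : ℝ) * X ^ (-(2 / 3) : ℝ)) := by ring
      _ = _ := by rw [k1, k2]; ring
  rw [e5]
  calc (V * B) ^ (2 / 3 : ℝ) * (2 * (E * D2 * (g * B) ^ (-(2 / 3) : ℝ) * T))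
      = ((V * B) ^ (2 / 3 : ℝ) * (g * B) ^ (-(2 / 3) : ℝ)) * (2 * (E * D2 * T)) := by ring
    _ = V ^ (1 / 3 : ℝ) * (V ^ (1 / 3 : ℝ) * (g ^ (-(2 / 3) : ℝ) * (2 * (E * D2 * T)))) := by
        rw [e0]; ring
    _ ≤ V ^ (1 / 3 : ℝ) * ((3 * (N1 ^ (1 / 3 : ℝ) * g ^ (-(2 / 3) : ℝ))) *
          (g ^ (-(2 / 3) : ℝ) * (2 * (E * D2 * T)))) := by gcongr
    _ = V ^ (1 / 3 : ℝ) * (6 * N1 ^ (1 / 3 : ℝ)) * (E * D2) *
          (g ^ (-(2 / 3) : ℝ) * g ^ (-(2 / 3) : ℝ)) * T := by ring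
    _ = _ := by rw [g2]

/-- **(L+)** : the joint blocks of the difference -/
theorem num_L {ε : ℝ} (hε : 0 < ε) : ∃ C : ℝ, 0 ≤ C ∧ ∀ (a b x : Eis → ℂ) (ζ : ℂ), ‖ζ‖ ≤ 1 →
    FS a → FS b → (∀ n, x n = a n - ζ * b n) → ∀ (E D2 K X N1 Y P J : ℝ), 0 ≤ E → 0 ≤ D2 →
    0 < K → 0 < X → 0 < N1 → 0 ≤ Y → ∀ (Q : Eis → Prop) (h : Eis), IsPrim h →
    ∀ B V t : ℝ, 1 ≤ B → 1 ≤ V → V * B ≤ P → V ≤ 9 * N1 / (nm h : ℝ) ^ 2 →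
    (∀ U ∈ S Y, B / 2 < nm U → (nm U : ℝ) ≤ B → Q U → ∀ j, CubeFree j → (nm j : ℝ) ≤ V * B →
      ‖Md (tws (sg x (h * U)) t) j‖ ^ 2 ≤ E * (nm (h * U) : ℝ) ^ (-(5 / 3) : ℝ) *
        min 1 (nm (h * U) * D2) * (1 + |t|) ^ J) →
    ∀ M₁ M₂ : ℝ,
    JBK Dk Y a Q h B V t ≤ M₁ / (nm h : ℝ) ^ 2 * yv K X h V * (1 + |t|) ^ J →
    JBK Dk Y b Q h B V t ≤ M₂ / (nm h : ℝ) ^ 2 * yv K X h V * (1 + |t|) ^ J →
    JB Y x Q h B V t ≤ (3 * M₁ + 3 * M₂ + C * P ^ ε * Nb E D2 K X N1) / (nm h : ℝ) ^ 2 *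
      yv K X h V * (1 + |t|) ^ J := by
  obtain ⟨C, hC, H⟩ := BJ_le hε
  refine ⟨3 * pC ^ 2 * (C * 6), by positivity, ?_⟩
  intro a b x ζ hζ ha hb hx E D2 K X N1 Y P J hE hD hK hX hN hY Q h hh B V t hB hV hVB hVN hPB
    M₁ M₂ h1 h2
  have hh1 : (1 : ℝ) ≤ nm h := by exact_mod_cast nm_pos.2 hh.ne_zero
  have hh0 : (0 : ℝ) < nm h := by linarith
  have hB0 : 0 < B := by linarith
  have hV0 : 0 < V := by linarith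
  have h3 := JB_x_le hζ ha hb hx hY Q hh B V t
  have hT : 0 ≤ (1 + |t|) ^ J := by positivity
  set T := (1 + |t|) ^ J with hTd
  have hVB1 : 1 ≤ V * B := one_le_mul_of_one_le_of_one_le hV hB
  have hP0 : 0 < P := by linarith
  have h4 : BJ Y x Q h B V t ≤ C * (V * B) ^ ε * (V * B) ^ ((2 : ℝ) / 3) *
      (2 * (E * D2 * (nm h * B) ^ (-(2 / 3) : ℝ) * T)) := by
    refine H Y B V _ t Q h x hY hB hV (by positivity) fun U hU hU1 hU2 hQ κ hκ => ?_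
    obtain ⟨⟨hκ1, hκ2⟩, hκ3⟩ := mem_BU.1 hκ
    have hUp : IsPrim U := ((mem_S hY).1 hU).2.1
    have hjV : (nm (κ * U) : ℝ) ≤ V * B := by
      rw [nm_mul]; push_cast; gcongr
    refine (hPB U hU hU1 hU2 hQ (κ * U) hκ3 hjV).trans ?_
    have hng : (0 : ℝ) < nm (h * U) := by exact_mod_cast nm_pos.2 (hh.mul hUp).ne_zero
    have g2 : (nm (h * U) : ℝ) ^ (-(5 / 3) : ℝ) * nm (h * U) =
        (nm (h * U) : ℝ) ^ (-(2 / 3) : ℝ) := by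
      nth_rewrite 2 [← Real.rpow_one (nm (h * U) : ℝ)]
      rw [← Real.rpow_add hng]; norm_num
    have g3 : (nm (h * U) : ℝ) ^ (-(2 / 3) : ℝ) ≤ 2 * (nm h * B) ^ (-(2 / 3) : ℝ) := by
      have h5 : (nm h : ℝ) * B / 2 ≤ nm (h * U) := by
        rw [nm_mul]; push_cast
        nlinarith
      calc (nm (h * U) : ℝ) ^ (-(2 / 3) : ℝ) ≤ ((nm h : ℝ) * B / 2) ^ (-(2 / 3) : ℝ) :=
            Real.rpow_le_rpow_of_nonpos (by positivity) h5 (by norm_num)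
        _ = (2 : ℝ) ^ (2 / 3 : ℝ) * ((nm h : ℝ) * B) ^ (-(2 / 3) : ℝ) := by
            rw [Real.div_rpow (by positivity) (by norm_num), Real.rpow_neg (by norm_num : (0:ℝ) ≤ 2),
              div_eq_mul_inv, inv_inv, mul_comm]
        _ ≤ 2 * ((nm h : ℝ) * B) ^ (-(2 / 3) : ℝ) := by
            have : (2 : ℝ) ^ (2 / 3 : ℝ) ≤ 2 := by
              calc (2 : ℝ) ^ (2 / 3 : ℝ) ≤ 2 ^ (1 : ℝ) :=
                    Real.rpow_le_rpow_of_exponent_le (by norm_num) (by norm_num)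
                _ = 2 := Real.rpow_one 2
            gcongr
    calc E * (nm (h * U) : ℝ) ^ (-(5 / 3) : ℝ) * min 1 (nm (h * U) * D2) * T
        ≤ E * (nm (h * U) : ℝ) ^ (-(5 / 3) : ℝ) * (nm (h * U) * D2) * T := by
          gcongr
          exact min_le_D _
      _ = E * D2 * ((nm (h * U) : ℝ) ^ (-(5 / 3) : ℝ) * nm (h * U)) * T := by ring
      _ = E * D2 * (nm (h * U) : ℝ) ^ (-(2 / 3) : ℝ) * T := by rw [g2]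
      _ ≤ E * D2 * (2 * (nm h * B) ^ (-(2 / 3) : ℝ)) * T := by gcongr
      _ = _ := by ring
  have h5 := alg_L (T := T) hE hD hK hX hN hV0 hB0 hh1 hVN hT
  have h6 : BJ Y x Q h B V t ≤ C * P ^ ε * ((6 * Nb E D2 K X N1) / (nm h : ℝ) ^ 2 *
      yv K X h V * T) := by
    calc BJ Y x Q h B V t ≤ C * (V * B) ^ ε * ((V * B) ^ ((2 : ℝ) / 3) *
          (2 * (E * D2 * (nm h * B) ^ (-(2 / 3) : ℝ) * T))) := by
          rw [← mul_assoc]; exact h4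
      _ ≤ C * P ^ ε * ((6 * Nb E D2 K X N1) / (nm h : ℝ) ^ 2 *
          ((K * V) ^ (1 / 3 : ℝ) * (X / nm h) ^ (-(2 / 3) : ℝ)) * T) := by gcongr
      _ = _ := rfl
  have hpc := pC_pos
  calc JB Y x Q h B V t
      ≤ 3 * (JBK Dk Y a Q h B V t + JBK Dk Y b Q h B V t + pC ^ 2 * BJ Y x Q h B V t) := h3
    _ ≤ 3 * (M₁ / (nm h : ℝ) ^ 2 * yv K X h V * T + M₂ / (nm h : ℝ) ^ 2 * yv K X h V * T +
          pC ^ 2 * (C * P ^ ε * ((6 * Nb E D2 K X N1) / (nm h : ℝ) ^ 2 * yv K X h V * T))) := by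
        gcongr
    _ = _ := by ring

lemma ts_one (x : Eis → ℂ) : tws (sg x 1) 0 = x := by
  funext n
  show x (1 * n) * pw 0 (nm n) = x n
  rw [one_mul]
  have : pw 0 (nm n) = 1 := by simp [Weight600.pw, Weight600.osc]
  rw [this, mul_one]

/-- **back** : the second moment of the first shape against `Dk` -/
theorem num_back : ∃ C : ℝ, 0 ≤ C ∧ ∀ (a b x : Eis → ℂ) (ζ : ℂ), ‖ζ‖ ≤ 1 → FS a → FS b →
    (∀ n, x n = a n - ζ * b n) → ∀ (E L : ℝ), 1 ≤ L →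
    (∀ j, CubeFree j → (nm j : ℝ) ≤ L → ‖Md x j‖ ^ 2 ≤ E) →
    VK Dk L a ≤ 3 * VF L x + 3 * VK Dk L b + C * (L ^ ((2 : ℝ) / 3) * E) := by
  obtain ⟨C, hC, H⟩ := Bs_le
  refine ⟨3 * pC ^ 2 * C, by positivity, fun a b x ζ hζ ha hb hx E L hL hPB => ?_⟩
  have h1 := VK_back hζ ha hb hx L
  have h2 := H L E x hL hPB
  have h3 : pC ^ 2 * Bs L x ≤ pC ^ 2 * (C * L ^ ((2 : ℝ) / 3) * E) := by gcongr
  linarith

end Crest.Agent.R017.RX241
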