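import Crest.Agent.R017.RX2b_241

/-!
# Row 17, exceptional class, T.7, leaf X2 (helper241), part c: (SA0)

`num_S0` = `num_S` with the bare term `(V K / (X / nm g)²)^(1/3)` instead of the maximum with `1`.
-/

set_option autoImplicit false

noncomputable section

open Complex
open scoped ComplexConjugate Classical

namespace Crest.Agent.R017.RX241

open Crest.Agent.R012 Crest.Agent.R012.Eis Crest.Agent.R012.MC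
open Crest.Agent.R012.LS2 (S mem_S bl mem_bl)
open Crest.Agent.R012.Weight600 (pw)
open Crest.Agent.R017.CM106 (TG FS)
open Crest.Agent.R017.HP842 (KS Kg KS_Kg)
open Crest.Agent.R017.PX764 (Dk th md pC_pos)
open Crest.Agent.R017.Prov71 (CubeFree)
open Crest.Agent.R017.Rough381 (VF)
open Crest.Agent.R017.E1551 (sg tws JB yv BU mem_BU CF)
open Crest.Agent.R017.LegK545 (VK SFK JBK)

/-- real algebra of (S), without the maximum -/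
lemma alg_S0 {E D2 K X N1 G₀ V g T : ℝ} (hE : 0 ≤ E) (hD : 0 ≤ D2) (hK : 0 < K) (hX : 0 < X)
    (hN : 0 < N1) (hV : 0 < V) (hg : 1 ≤ g) (hgG : g ≤ G₀) (hVN : V ≤ 9 * N1 * g) (hT : 0 ≤ T) :
    V ^ (2 / 3 : ℝ) * (E * g ^ (-(5 / 3) : ℝ) * (g * D2) * T) ≤
      (3 * (G₀ * Nb E D2 K X N1)) / g ^ 2 * ((V * K / (X / g) ^ 2) ^ (1 / 3 : ℝ)) * T := by
  have hg0 : 0 < g := by linarith
  have hG0 : 0 < G₀ := by linarith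
  -- the maximum
  have e1 : (V * K / (X / g) ^ 2) ^ (1 / 3 : ℝ) =
      V ^ (1 / 3 : ℝ) * K ^ (1 / 3 : ℝ) * (X ^ (-(2 / 3) : ℝ) * g ^ (2 / 3 : ℝ)) := by
    have h1 : V * K / (X / g) ^ 2 = V * K * (X ^ (-2 : ℝ) * g ^ (2 : ℝ)) := by
      rw [Real.rpow_neg hX.le, Real.rpow_two, Real.rpow_two]
      field_simp
    rw [h1, Real.mul_rpow (by positivity) (by positivity), Real.mul_rpow hV.le hK.le,
      Real.mul_rpow (by positivity) (by positivity), ← Real.rpow_mul hX.le, ← Real.rpow_mul hg0.le]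
    norm_num
  rw [e1]
  -- exponents
  have e2 : V ^ (2 / 3 : ℝ) = V ^ (1 / 3 : ℝ) * V ^ (1 / 3 : ℝ) := by
    rw [← Real.rpow_add hV]; norm_num
  have e3 : V ^ (1 / 3 : ℝ) ≤ 3 * (N1 ^ (1 / 3 : ℝ) * g ^ (1 / 3 : ℝ)) := by
    calc V ^ (1 / 3 : ℝ) ≤ (9 * N1 * g) ^ (1 / 3 : ℝ) :=
          Real.rpow_le_rpow hV.le hVN (by norm_num)
      _ = (9 : ℝ) ^ (1 / 3 : ℝ) * (N1 ^ (1 / 3 : ℝ) * g ^ (1 / 3 : ℝ)) := by
          rw [Real.mul_rpow (by positivity) hg0.le, Real.mul_rpow (by norm_num) hN.le, mul_assoc]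
      _ ≤ 3 * (N1 ^ (1 / 3 : ℝ) * g ^ (1 / 3 : ℝ)) := by
          have : (9 : ℝ) ^ (1 / 3 : ℝ) ≤ 3 := by
            calc (9 : ℝ) ^ (1 / 3 : ℝ) ≤ 27 ^ (1 / 3 : ℝ) :=
                  Real.rpow_le_rpow (by norm_num) (by norm_num) (by norm_num)
              _ = 3 := by
                  rw [show (27 : ℝ) = 3 ^ (3 : ℝ) by norm_num, ← Real.rpow_mul (by norm_num)]
                  norm_num
          gcongr
  have e4 : Nb E D2 K X N1 =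
      E * D2 * (N1 ^ (1 / 3 : ℝ) * K ^ (-(1 / 3) : ℝ)) * X ^ (2 / 3 : ℝ) := by
    unfold Nb
    rw [Real.div_rpow hN.le hK.le, Real.rpow_neg hK.le, div_eq_mul_inv]
  have k1 : K ^ (-(1 / 3) : ℝ) * K ^ (1 / 3 : ℝ) = 1 := by
    rw [← Real.rpow_add hK]; norm_num
  have k2 : X ^ (2 / 3 : ℝ) * X ^ (-(2 / 3) : ℝ) = 1 := by
    rw [← Real.rpow_add hX]; norm_num
  have e5 : (3 * (G₀ * Nb E D2 K X N1)) / g ^ 2 *
      (V ^ (1 / 3 : ℝ) * K ^ (1 / 3 : ℝ) * (X ^ (-(2 / 3) : ℝ) * g ^ (2 / 3 : ℝ))) * T =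
      V ^ (1 / 3 : ℝ) * (3 * N1 ^ (1 / 3 : ℝ)) * (E * D2) * G₀ *
        (g ^ (2 / 3 : ℝ) / g ^ 2) * T := by
    rw [e4]
    calc _ = V ^ (1 / 3 : ℝ) * (3 * N1 ^ (1 / 3 : ℝ)) * (E * D2) * G₀ *
          (g ^ (2 / 3 : ℝ) / g ^ 2) * T * (K ^ (-(1 / 3) : ℝ) * K ^ (1 / 3 : ℝ)) *
          (X ^ (2 / 3 : ℝ) * X ^ (-(2 / 3) : ℝ)) := by ring
      _ = _ := by rw [k1, k2]; ring
  rw [e5]
  have g1 : g ^ (2 / 3 : ℝ) / g ^ 2 = g ^ (-(4 / 3) : ℝ) := by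
    rw [← Real.rpow_two, ← Real.rpow_sub hg0]; norm_num
  have g2 : g ^ (-(5 / 3) : ℝ) * g = g ^ (-(2 / 3) : ℝ) := by
    nth_rewrite 2 [← Real.rpow_one g]
    rw [← Real.rpow_add hg0]; norm_num
  have g3 : g ^ (1 / 3 : ℝ) * g ^ (-(2 / 3) : ℝ) = g * g ^ (-(4 / 3) : ℝ) := by
    nth_rewrite 3 [← Real.rpow_one g]
    rw [← Real.rpow_add hg0, ← Real.rpow_add hg0]; norm_num
  rw [g1, e2]
  calc V ^ (1 / 3 : ℝ) * V ^ (1 / 3 : ℝ) * (E * g ^ (-(5 / 3) : ℝ) * (g * D2) * T)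
      = V ^ (1 / 3 : ℝ) * V ^ (1 / 3 : ℝ) * ((g ^ (-(5 / 3) : ℝ) * g) * (E * D2) * T) := by ring
    _ = V ^ (1 / 3 : ℝ) * (V ^ (1 / 3 : ℝ) * (g ^ (-(2 / 3) : ℝ) * (E * D2) * T)) := by
        rw [g2]; ring
    _ ≤ V ^ (1 / 3 : ℝ) * ((3 * (N1 ^ (1 / 3 : ℝ) * g ^ (1 / 3 : ℝ))) *
          (g ^ (-(2 / 3) : ℝ) * (E * D2) * T)) := by gcongr
    _ = V ^ (1 / 3 : ℝ) * (3 * N1 ^ (1 / 3 : ℝ)) * (E * D2) *
          (g ^ (1 / 3 : ℝ) * g ^ (-(2 / 3) : ℝ)) * T := by ring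
    _ = V ^ (1 / 3 : ℝ) * (3 * N1 ^ (1 / 3 : ℝ)) * (E * D2) * g * g ^ (-(4 / 3) : ℝ) * T := by
        rw [g3]; ring
    _ ≤ V ^ (1 / 3 : ℝ) * (3 * N1 ^ (1 / 3 : ℝ)) * (E * D2) * G₀ * g ^ (-(4 / 3) : ℝ) * T := by
        gcongr

/-- **(SA0)** : the T-moment of the difference at the divisor `g`, without the maximum -/
theorem num_S0 : ∃ C : ℝ, 0 ≤ C ∧ ∀ (a b x : Eis → ℂ) (ζ : ℂ), ‖ζ‖ ≤ 1 → FS a → FS b →
    (∀ n, x n = a n - ζ * b n) → ∀ (E D2 K X N1 G₀ J : ℝ), 0 ≤ E → 0 ≤ D2 → 0 < K → 0 < X →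
    0 < N1 → ∀ g : Eis, IsPrim g → (nm g : ℝ) ≤ G₀ → ∀ V t : ℝ, 1 ≤ V → V ≤ 9 * N1 * nm g →
    (∀ j, CubeFree j → (nm j : ℝ) ≤ V → ‖Md (tws (sg x g) t) j‖ ^ 2 ≤
      E * (nm g : ℝ) ^ (-(5 / 3) : ℝ) * min 1 (nm g * D2) * (1 + |t|) ^ J) →
    ∀ M₁ M₂ : ℝ,
    VK Dk V (tws (sg a g) t) ≤
      M₁ / (nm g : ℝ) ^ 2 * (V * K / (X / nm g) ^ 2) ^ (1 / 3 : ℝ) * (1 + |t|) ^ J →
    VK Dk V (tws (sg b g) t) ≤
      M₂ / (nm g : ℝ) ^ 2 * (V * K / (X / nm g) ^ 2) ^ (1 / 3 : ℝ) * (1 + |t|) ^ J →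
    VF V (tws (sg x g) t) ≤ (3 * M₁ + 3 * M₂ + C * (G₀ * Nb E D2 K X N1)) / (nm g : ℝ) ^ 2 *
      (V * K / (X / nm g) ^ 2) ^ (1 / 3 : ℝ) * (1 + |t|) ^ J := by
  obtain ⟨C, hC, H⟩ := Bs_le
  refine ⟨3 * pC ^ 2 * (C * 3), by positivity, ?_⟩
  intro a b x ζ hζ ha hb hx E D2 K X N1 G₀ J hE hD hK hX hN g hg hgG V t hV hVN hPB M₁ M₂ h1 h2
  have hg1 : (1 : ℝ) ≤ nm g := by exact_mod_cast nm_pos.2 hg.ne_zero
  have h3 := VF_xg_le hζ ha hb hx hg t V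
  have hT : 0 ≤ (1 + |t|) ^ J := by positivity
  have h4 : Bs V (tws (sg x g) t) ≤ C * V ^ ((2 : ℝ) / 3) *
      (E * (nm g : ℝ) ^ (-(5 / 3) : ℝ) * (nm g * D2) * (1 + |t|) ^ J) := by
    refine H V _ _ hV fun j hj hjV => (hPB j hj hjV).trans ?_
    gcongr
    exact min_le_D g
  have h5 := alg_S0 (T := (1 + |t|) ^ J) hE hD hK hX hN (by linarith : 0 < V) hg1 hgG hVN hT
  set mx := (V * K / (X / nm g) ^ 2) ^ (1 / 3 : ℝ) with hmx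
  set T := (1 + |t|) ^ J with hTd
  have h6 : Bs V (tws (sg x g) t) ≤ C * ((3 * (G₀ * Nb E D2 K X N1)) / (nm g : ℝ) ^ 2 * mx * T) := by
    calc Bs V (tws (sg x g) t) ≤ C * (V ^ ((2 : ℝ) / 3) *
          (E * (nm g : ℝ) ^ (-(5 / 3) : ℝ) * (nm g * D2) * T)) := by
          rw [← mul_assoc]; exact h4
      _ ≤ _ := mul_le_mul_of_nonneg_left h5 hC
  have hpc := pC_pos
  calc VF V (tws (sg x g) t)
      ≤ 3 * (VK Dk V (tws (sg a g) t) + VK Dk V (tws (sg b g) t) +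
          pC ^ 2 * Bs V (tws (sg x g) t)) := h3
    _ ≤ 3 * (M₁ / (nm g : ℝ) ^ 2 * mx * T + M₂ / (nm g : ℝ) ^ 2 * mx * T +
          pC ^ 2 * (C * ((3 * (G₀ * Nb E D2 K X N1)) / (nm g : ℝ) ^ 2 * mx * T))) := by
        gcongr
    _ = _ := by ring

end Crest.Agent.R017.RX241
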