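import Crest.Agent.R017.RX5c_298
import Crest.Agent.R017.RGKe_545
import Crest.Agent.R017.RX2c_241
import Crest.Agent.R017.PB_791

/-!
# Row 17, T.7 (RG rule, exceptional class), part d (helper298): the numbers of the difference

`x = xs q .. d₀ ps` the difference of the sequences of a list and of the replaced list, kernel
`Dk` on the two shapes, Gauss kernel on the difference.
* `pb_xs` : the pointwise bias bound
* `x_numS` : (S), `x_numS0` : (SA0), `x_numL` : (L+)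
* `x_back` : back to the list
-/

set_option autoImplicit false
set_option maxHeartbeats 1600000

noncomputable section

open Complex
open scoped ComplexConjugate

namespace Crest.Agent.R017.RX298

open Crest.Agent.R012 Crest.Agent.R012.Eis Crest.Agent.R012.LS2 Crest.Agent.R012.Gauss880
open Crest.Agent.R012.Weight600 (osc pw)
open Crest.Agent.R017.CM106 Crest.Agent.R017.HP842 Crest.Agent.R017.FE47
open Crest.Agent.R017.End699 hiding pw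
open Crest.Agent.R017.B770
open Crest.Agent.R017.Prov71
open Crest.Agent.R017.Rough381 (VF VF_nonneg)
open Crest.Agent.R017.Leg381
open Crest.Agent.R017.E1551 (sg tws yv JB)
open Crest.Agent.R017.RG64
open Crest.Agent.R017.LegK545 (VK SFK JBK VK_nonneg)
open Crest.Agent.R017.RGK545 (ClXK ClK ClNK)
open Crest.Agent.R017.PX764 (Dk)
open Crest.Agent.R017.RX241 (Md Nb)
open Crest.Agent.R017.Sup271 (NPm)

/-! ### marked lists -/

/-- the first two pieces are lumps of the second kind -/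
def Mk (M : ℝ) : List Pf → Prop
  | p :: p' :: _ => p.1.u = .one ∧ p'.1.u = .one ∧ p.1.kd = .mo ∧ p'.1.kd = .mo ∧
      (nm p.1.d : ℝ) ≤ M ∧ (nm p'.1.d : ℝ) ≤ M
  | _ => False

/-- the same for a base list -/
def MkB (M : ℝ) : List Pq → Prop
  | p :: p' :: _ => p.u = .one ∧ p'.u = .one ∧ p.kd = .mo ∧ p'.kd = .mo ∧
      (nm p.d : ℝ) ≤ M ∧ (nm p'.d : ℝ) ≤ M
  | _ => False

lemma MkB.mk {M s : ℝ} {ps : List Pf} {ps₀ : List Pq} (h : MkB M ps₀) (hs : SbL s ps ps₀) :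
    Mk M ps := by
  match ps, ps₀, h, hs with
  | [], [], h, _ => exact h.elim
  | [_], [_], h, _ => exact h.elim
  | p :: p' :: ps, q :: q' :: ps₀, h, hs =>
    unfold SbL at hs
    cases hs with
    | cons h1 hs =>
      cases hs with
      | cons h2 hs =>
        obtain ⟨a1, a2, a3, a4, a5, a6⟩ := h
        refine ⟨h1.2.2.1 a1, h2.2.2.1 a2, h1.1.trans a3, h2.1.trans a4, ?_, ?_⟩
        · rw [h1.2.1]; exact a5
        · rw [h2.2.1]; exact a6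

lemma Mk.mono {M M' : ℝ} (h : M ≤ M') {ps : List Pf} (hp : Mk M ps) : Mk M' ps := by
  match ps, hp with
  | p :: p' :: l, hp =>
    exact ⟨hp.1, hp.2.1, hp.2.2.1, hp.2.2.2.1, hp.2.2.2.2.1.trans h, hp.2.2.2.2.2.trans h⟩

/-- the first two lengths are at least `d₀` -/
def Lg2 (d₀ : ℝ) : List Pf → Prop
  | p :: p' :: _ => d₀ ≤ p.1.z ∧ d₀ ≤ p'.1.z
  | _ => False

lemma Lg2.lg {d₀ : ℝ} (hd : 0 ≤ d₀) {ps : List Pf} (h : Lg2 d₀ ps) : Lg d₀ ps := by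
  match ps, h with
  | [], _ => exact trivial
  | [_], _ => exact trivial
  | p :: p' :: ps, h =>
    show d₀ ≤ p.1.z + p'.1.z
    linarith [h.1, h.2]

/-! ### exponents -/

lemma ratio_eq {m κ V G : ℝ} (hV : 0 < V) (hG : 0 < G) :
    (V * Real.exp κ / (Real.exp m / G) ^ 2) ^ (1 / 3 : ℝ) =
      Real.exp ((Real.log V - 2 * m + 2 * Real.log G + κ) / 3) := by
  have e : V * Real.exp κ / (Real.exp m / G) ^ 2 =
      Real.exp (Real.log V - 2 * m + 2 * Real.log G + κ) := by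
    have h1 : Real.exp m / G = Real.exp (m - Real.log G) := by
      rw [Real.exp_sub, Real.exp_log hG]
    have h2 : V = Real.exp (Real.log V) := (Real.exp_log hV).symm
    rw [h1, ← Real.exp_nat_mul]
    nth_rewrite 1 [h2]
    rw [← Real.exp_add, ← Real.exp_sub]
    congr 1
    push_cast
    ring
  rw [e, ← Real.exp_mul]
  congr 1
  ring

lemma flat_eq {m κ V G : ℝ} (hV : 0 < V) (hG : 0 < G) :
    Real.exp (2 * m - 2 * Real.log G +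
      max 0 ((Real.log V - 2 * m + 2 * Real.log G + κ) / 3)) =
      Real.exp (2 * m) / G ^ 2 *
        max 1 ((V * Real.exp κ / (Real.exp m / G) ^ 2) ^ (1 / 3 : ℝ)) := by
  rw [ratio_eq hV hG, Real.exp_add, Real.exp_sub, Real.exp_monotone.map_max, Real.exp_zero]
  congr 2
  rw [mul_comm 2 (Real.log G), mul_two, Real.exp_add, Real.exp_log hG, sq]

lemma slope_eq {m κ V G : ℝ} (hV : 0 < V) (hG : 0 < G) :
    Real.exp (4 / 3 * (m - Real.log G) + (Real.log V + κ) / 3) =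
      Real.exp (2 * m) / G ^ 2 *
        (V * Real.exp κ / (Real.exp m / G) ^ 2) ^ (1 / 3 : ℝ) := by
  have h1 : Real.exp (2 * m) / G ^ 2 = Real.exp (2 * m - 2 * Real.log G) := by
    rw [Real.exp_sub, mul_comm 2 (Real.log G), mul_two, Real.exp_add, Real.exp_log hG, sq]
  rw [ratio_eq hV hG, h1, ← Real.exp_add]
  congr 1
  ring

/-! ### the pointwise bias bound -/

/-- **(PB)** for the difference -/
theorem pb_xs {h : ℝ → ℝ} {c : ℝ} (hpu : PU h c) (N : ℕ) {B : ℝ} (hB : 1 ≤ B) {ε : ℝ}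
    (hε : 0 < ε) {J J₁ : ℝ} (hJ : 6 ≤ J) (hJ₁ : 12 ≤ J₁) :
    ∃ C : ℝ, 1 ≤ C ∧ ∀ X : ℝ, 3 ≤ X → ∀ P : DPar, P.OK → (nm P.n : ℝ) ≤ X ^ B →
      ¬ NPm P.n P.ψ P.l₂ 1 → ∀ z D0 : ℝ, 1 ≤ D0 → ∀ ps : List Pf, Mk (X ^ B) ps →
      ps.length ≤ N → (∀ p ∈ ps, 0 ≤ p.1.z) → LF ps ≤ Real.log X → ∀ d₀ : ℝ, 0 ≤ d₀ →
      Lg2 d₀ ps → ∀ q g j : Eis, q ≠ 0 → (nm q : ℝ) ≤ X ^ B → IsPrim g → (nm g : ℝ) ≤ X ^ B →
      j ≠ 0 → (nm j : ℝ) ≤ X ^ B → ∀ t : ℝ,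
      ‖Md (tws (sg (xs q z D0 P h d₀ ps) g) t) j‖ ^ 2 ≤
        (C * X ^ ε * D0 ^ 4 * Ht ps ^ J * Real.exp (5 / 3 * LF ps)) *
          (nm g : ℝ) ^ (-(5 / 3) : ℝ) * min 1 (nm g * Real.exp (-d₀)) * (1 + |t|) ^ J₁ := by
  obtain ⟨C, hC, H⟩ := ExD791.pb_ex hpu N (by linarith : (0 : ℝ) ≤ B) hε
  refine ⟨C, hC, ?_⟩
  intro X hX P hP hPn hnp z D0 hD0 ps hps hlen hz hL d₀ hd hLg q g j hq hqX hg hgX hj hjX t
  have hX0 : 0 < X := by linarith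
  match ps, hps, hlen, hz, hL, hLg with
  | [], h, _, _, _, _ => exact h.elim
  | [_], h, _, _, _, _ => exact h.elim
  | p :: p' :: l, hps, hlen, hz, hL, hLg =>
    obtain ⟨a1, a2, a3, a4, a5, a6⟩ := hps
    obtain ⟨b1, b2⟩ := hLg
    have hz1 := hz p List.mem_cons_self
    have hz2 := hz p' (List.mem_cons_of_mem _ List.mem_cons_self)
    have hl : 0 ≤ LF l := LF_nonneg fun x hx =>
      hz x (List.mem_cons_of_mem _ (List.mem_cons_of_mem _ hx))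
    have hLF : LF (p :: p' :: l) = p.1.z + (p'.1.z + LF l) := by rw [LF_cons, LF_cons]
    have hlX : 0 ≤ Real.log X := Real.log_nonneg (by linarith)
    have hBX : Real.log X ≤ B * Real.log X := le_mul_of_one_le_left hlX hB
    have e : xs q z D0 P h d₀ (p :: p' :: l) = ExD791.xr z D0 P h q p p' l d₀ := by
      funext n
      have ez : zt d₀ (p :: p' :: l) = ExD791.zet p p' d₀ := by
        show osc (p'.1.t - p.1.t) (p'.1.z - d₀) = osc p.1.t (-(p'.1.z - d₀)) *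
          osc p'.1.t (p'.1.z - d₀)
        unfold Weight600.osc
        rw [← Complex.exp_add]
        congr 1
        push_cast
        ring
      show sqc q (alF z D0 P h (p :: p' :: l)) n - zt d₀ (p :: p' :: l) *
        sqc q (alF z D0 P h (rp d₀ (p :: p' :: l))) n = _
      rw [ez]
      rfl
    rw [e]
    have hn12 : l.length ≤ N := by
      have : (p :: p' :: l).length = l.length + 2 := rfl
      omega
    have key := H X hX P (OKi848.OKi.of hP) hP.ψ hPn hnp z D0 hD0 p p' l a1 a2 a3 a4 a5 a6 hn12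
      (by linarith) j hj hjX d₀ d₀ b1 b2 (by linarith) le_rfl (by linarith) q g hq hqX hg hgX t
    refine key.trans ?_
    have hHt := one_le_Ht (p :: p' :: l)
    have h6 : Ht (p :: p' :: l) ^ 6 ≤ Ht (p :: p' :: l) ^ J := by
      rw [← Real.rpow_natCast]
      exact Real.rpow_le_rpow_of_exponent_le hHt (by push_cast; linarith)
    have h12 : (1 + |t|) ^ 12 ≤ (1 + |t|) ^ J₁ := by
      rw [← Real.rpow_natCast]
      exact Real.rpow_le_rpow_of_exponent_le (by linarith [abs_nonneg t])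
        (by push_cast; linarith)
    have h0 : 0 ≤ min 1 ((nm g : ℝ) * Real.exp (-d₀)) := le_min zero_le_one (by positivity)
    gcongr

/-- the data with the replaced base list -/
def Dr (d₀ : ℝ) (D : Dat) : Dat := { D with ps₀ := rpB d₀ D.ps₀ }

/-- the size of the bias -/
lemma nb_le {C Xe D0 HJ m d₀ N1 κ G₀ Bb : ℝ} (hC : 0 ≤ C) (hXe : 0 ≤ Xe) (hHJ : 0 ≤ HJ)
    (hb : G₀ * D0 ^ 4 * Real.exp (m / 3 - d₀) * (N1 / Real.exp κ) ^ (1 / 3 : ℝ) ≤ Bb) :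
    G₀ * Nb (C * Xe * D0 ^ 4 * HJ * Real.exp (5 / 3 * m)) (Real.exp (-d₀)) (Real.exp κ)
      (Real.exp m) N1 ≤ C * Xe * Bb * HJ * Real.exp (2 * m) := by
  unfold RX241.Nb
  have e1 : Real.exp m ^ (2 / 3 : ℝ) = Real.exp (2 / 3 * m) := by
    rw [← Real.exp_mul]; congr 1; ring
  have e2 : Real.exp (5 / 3 * m) * Real.exp (-d₀) * Real.exp (2 / 3 * m) =
      Real.exp (m / 3 - d₀) * Real.exp (2 * m) := by
    rw [← Real.exp_add, ← Real.exp_add, ← Real.exp_add]; congr 1; ring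
  rw [e1]
  calc G₀ * (C * Xe * D0 ^ 4 * HJ * Real.exp (5 / 3 * m) * Real.exp (-d₀) *
        (N1 / Real.exp κ) ^ (1 / 3 : ℝ) * Real.exp (2 / 3 * m)) =
      C * Xe * HJ * (G₀ * D0 ^ 4 * (N1 / Real.exp κ) ^ (1 / 3 : ℝ)) *
        (Real.exp (5 / 3 * m) * Real.exp (-d₀) * Real.exp (2 / 3 * m)) := by ring
    _ = C * Xe * HJ * (G₀ * D0 ^ 4 * Real.exp (m / 3 - d₀) * (N1 / Real.exp κ) ^ (1 / 3 : ℝ)) *
        Real.exp (2 * m) := by rw [e2]; ring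
    _ ≤ C * Xe * HJ * Bb * Real.exp (2 * m) := by gcongr
    _ = _ := by ring

/-- the data of the exceptional class -/
structure DX (h : ℝ → ℝ) (N : ℕ) (J B₀ X : ℝ) (D : Dat) : Prop where
  ok : D.P.OK
  hh : D.h = h
  D0 : 1 ≤ D.D0
  J : D.J = J
  len : D.ps₀.length ≤ N
  np : ¬ NPm D.P.n D.P.ψ D.P.l₂ 1
  nP : (nm D.P.n : ℝ) ≤ X ^ B₀
  mkb : MkB (X ^ B₀) D.ps₀

/-- the data of one list: modulus, list, replaced length -/
structure QX (B₀ X s Q d₀ : ℝ) (D : Dat) (q : Eis) (ps : List Pf) : Prop where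
  prim : IsPrim q
  qX : (nm q : ℝ) ≤ X ^ B₀
  qQ : (nm q : ℝ) * Real.exp (LF ps) ≤ Q
  sb : SbL s ps D.ps₀
  lg : Lg2 d₀ ps
  LX : LF ps ≤ Real.log X
  d0 : 0 ≤ d₀
  s0 : 0 ≤ s

lemma QX.sbr {B₀ X s Q d₀ : ℝ} {D : Dat} {q : Eis} {ps : List Pf}
    (H : QX B₀ X s Q d₀ D q ps) : SbL (2 * s) (rp d₀ ps) (Dr d₀ D).ps₀ :=
  SbL_rp H.s0 H.d0 H.sb (H.lg.lg H.d0)

lemma QX.qQr {B₀ X s Q d₀ : ℝ} {D : Dat} {q : Eis} {ps : List Pf}
    (H : QX B₀ X s Q d₀ D q ps) : (nm q : ℝ) * Real.exp (LF (rp d₀ ps)) ≤ Q := by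
  rw [LF_rp]; exact H.qQ

/-- **(S)** for the difference -/
theorem x_numS {h : ℝ → ℝ} {c : ℝ} (hpu : PU h c) (N : ℕ) {B₀ : ℝ} (hB₀ : 1 ≤ B₀) {ε : ℝ}
    (hε : 0 < ε) {J J₁ : ℝ} (hJ : 6 ≤ J) (hJ₁ : 12 ≤ J₁) (hNJ : N * J ≤ J₁) :
    ∃ C r : ℝ, 1 ≤ C ∧ 0 ≤ r ∧ ∀ X : ℝ, 3 ≤ X → ∀ D : Dat, DX h N J B₀ X D →
    ∀ (B B' Bb s a Q q₀ σ' σ'' lo d₀ : ℝ), 0 ≤ B → 0 ≤ B' → Real.exp r ≤ q₀ →
    ClK Dk D (Ge lo) B (s + r) (a + r) (Q * q₀) σ' →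
    ClXK Dk (ex0 D.κ) (Dr d₀ D) (Ge lo) B' (2 * s + r) (a + r) (Q * q₀) σ'' →
    ∀ (q : Eis) (ps : List Pf), QX B₀ X s Q d₀ D q ps → NT ps →
    LF ps - min (Real.log D.z) (Real.log D.D0) + r ≤ σ' → 1 ≤ D.z → LF ps + r ≤ σ'' →
    ∀ (g : Eis) (t V N1 G₀ : ℝ), IsPrim g → g ≠ 1 → (nm g : ℝ) ≤ X ^ B₀ → (nm g : ℝ) ≤ G₀ →
    lo + Real.log (nm g) + N * Real.log D.D0 + r ≤ LF ps → 1 ≤ V → V ≤ X → 0 < N1 →
    V ≤ 9 * N1 * nm g → Real.log V ≤ D.v + (D.n - LF ps) + a + Real.log (nm g) →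
    G₀ * D.D0 ^ 4 * Real.exp (LF ps / 3 - d₀) * (N1 / Real.exp D.κ) ^ (1 / 3 : ℝ) ≤ Bb →
    VF V (tws (sg (xs q D.z D.D0 D.P D.h d₀ ps) g) t) ≤
      (C * X ^ ε * (B + B' + Bb) * Ht ps ^ J * Real.exp (2 * LF ps)) / (nm g : ℝ) ^ 2 *
        max 1 ((V * Real.exp D.κ / (Real.exp (LF ps) / nm g) ^ 2) ^ (1 / 3 : ℝ)) *
        (1 + |t|) ^ J₁ := by
  have hB₀0 : (0 : ℝ) ≤ B₀ := by linarith
  have hJ0 : (0 : ℝ) ≤ J := by linarith
  obtain ⟨C₁, r₁, hC₁, hr₁, H1⟩ := RGK545.sub_num Dk848.ker_Dk hpu N hB₀0 hε hJ0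
  obtain ⟨C₂, r₂, hC₂, hr₂, H2⟩ := RGK545.sub_num0 Dk848.ker_Dk hpu N hB₀0 hε hJ0
  obtain ⟨C₃, hC₃, H3⟩ := pb_xs hpu N hB₀ hε hJ hJ₁
  obtain ⟨C₄, hC₄, H4⟩ := RX241.num_S
  refine ⟨3 * C₁ + 3 * C₂ + C₄ * C₃, max r₁ r₂, ?_, hr₁.trans (le_max_left _ _), ?_⟩
  · have : 0 ≤ C₄ * C₃ := by positivity
    linarith
  intro X hX D hD B B' Bb s a Q q₀ σ' σ'' lo d₀ hB hB' hq₀ hCl hCl' q ps hps hnt hσ hz hσ'' g t V N1
    G₀ hg hg1 hgX hgG hlo hV hVX hN1 hVN hk hb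
  have hX1 : (1 : ℝ) ≤ X := by linarith
  have hX0 : 0 < X := by linarith
  obtain ⟨hq, hqX, hqQ, hsb, hlg, hLX, hd₀, hs⟩ := hps
  have hps' : QX B₀ X s Q d₀ D q ps := ⟨hq, hqX, hqQ, hsb, hlg, hLX, hd₀, hs⟩
  have hr1 : r₁ ≤ max r₁ r₂ := le_max_left _ _
  have hr2 : r₂ ≤ max r₁ r₂ := le_max_right _ _
  set r := max r₁ r₂ with hr
  have hq1 : Real.exp r₁ ≤ q₀ := (Real.exp_le_exp.2 hr1).trans hq₀
  have hq2 : Real.exp r₂ ≤ q₀ := (Real.exp_le_exp.2 hr2).trans hq₀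
  have hng1 : (1 : ℝ) ≤ nm g := by exact_mod_cast nm_pos.2 hg.ne_zero
  have hng : (0 : ℝ) < nm g := by linarith
  have hγ := Real.log_nonneg hng1
  have hV0 : 0 < V := by linarith
  have hHt := one_le_Ht ps
  have hz0 := hsb.z_nonneg
  have hlen : ps.length ≤ N := hsb.length ▸ hD.len
  have ht : (1 : ℝ) ≤ 1 + |t| := by linarith [abs_nonneg t]
  have htJ : (1 + |t|) ^ ((N : ℝ) * J) ≤ (1 + |t|) ^ J₁ :=
    Real.rpow_le_rpow_of_exponent_le ht hNJ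
  have hXe : 0 ≤ X ^ ε := by positivity
  have hHJ : 0 ≤ Ht ps ^ J := Real.rpow_nonneg (by linarith) _
  set m := LF ps with hm
  set mx := max 1 ((V * Real.exp D.κ / (Real.exp m / nm g) ^ 2) ^ (1 / 3 : ℝ)) with hmx
  have hmx0 : 0 ≤ mx := zero_le_one.trans (le_max_left _ _)
  -- the own part
  have k1 : VK Dk V (tws (sg (sqc q (alF D.z D.D0 D.P D.h ps)) g) t) ≤
      (C₁ * X ^ ε * B * Ht ps ^ J * Real.exp (2 * m)) / (nm g : ℝ) ^ 2 * mx *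
        (1 + |t|) ^ J₁ := by
    have h1 := H1 X hX D hD.ok hD.hh hD.D0 hD.J hD.len B s a Q q₀ σ' lo hB hq1
      (hCl.mono le_rfl (by linarith) (by linarith) le_rfl le_rfl) q g ps t V hq hqQ hg hgX hsb hLX
      (fun x _ hx => by
        have := hx hg1 hz hnt
        linarith) (by linarith) hV hVX hk
    refine h1.trans ?_
    rw [flat_eq hV0 hng]
    have h2 : 0 ≤ C₁ * X ^ ε * B * Ht ps ^ J := by positivity
    calc C₁ * X ^ ε * B * Ht ps ^ J * (1 + |t|) ^ ((N : ℝ) * J) *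
          (Real.exp (2 * m) / (nm g : ℝ) ^ 2 * mx) ≤
        C₁ * X ^ ε * B * Ht ps ^ J * (1 + |t|) ^ J₁ *
          (Real.exp (2 * m) / (nm g : ℝ) ^ 2 * mx) := by gcongr
      _ = _ := by ring
  -- the replaced part
  have k2 : VK Dk V (tws (sg (sqc q (alF D.z D.D0 D.P D.h (rp d₀ ps))) g) t) ≤
      (C₂ * X ^ ε * B' * Ht ps ^ J * Real.exp (2 * m)) / (nm g : ℝ) ^ 2 * mx *
        (1 + |t|) ^ J₁ := by
    have h1 := H2 X hX (Dr d₀ D) hD.ok hD.hh hD.D0 hD.J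
      (by show (rpB d₀ D.ps₀).length ≤ N; rw [rpB_length]; exact hD.len)
      B' (2 * s) a Q q₀ σ'' lo hB' hq2
      (hCl'.mono le_rfl (by linarith) (by linarith) le_rfl le_rfl) q g (rp d₀ ps) t V hq
      hps'.qQr hg hgX hps'.sbr (by rw [LF_rp]; exact hLX)
      (fun x hx => by
        rw [LF_rp] at hx
        linarith) (by
          rw [LF_rp]
          show lo + Real.log (nm g) + N * Real.log D.D0 + r₂ ≤ m
          linarith) hV hVX (by rw [LF_rp]; exact hk)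
    refine h1.trans ?_
    rw [LF_rp, Ht_rp]
    show C₂ * X ^ ε * B' * Ht ps ^ J * (1 + |t|) ^ ((N : ℝ) * J) *
      Real.exp (4 / 3 * (m - Real.log (nm g)) + (Real.log V + D.κ) / 3) ≤ _
    rw [slope_eq hV0 hng]
    have h2 : 0 ≤ C₂ * X ^ ε * B' * Ht ps ^ J := by positivity
    have h3 : (V * Real.exp D.κ / (Real.exp m / nm g) ^ 2) ^ (1 / 3 : ℝ) ≤ mx := le_max_right _ _
    calc C₂ * X ^ ε * B' * Ht ps ^ J * (1 + |t|) ^ ((N : ℝ) * J) *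
          (Real.exp (2 * m) / (nm g : ℝ) ^ 2 *
            (V * Real.exp D.κ / (Real.exp m / nm g) ^ 2) ^ (1 / 3 : ℝ)) ≤
        C₂ * X ^ ε * B' * Ht ps ^ J * (1 + |t|) ^ J₁ *
          (Real.exp (2 * m) / (nm g : ℝ) ^ 2 * mx) := by gcongr
      _ = _ := by ring
  -- the bias
  have hBump := bump_of_cs hpu.cs
  have hFa : FS (sqc q (alF D.z D.D0 D.P D.h ps)) := by
    rw [hD.hh]; exact HP842.FS.sqc (FS_alF hBump hD.ok D.z D.D0 ps) q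
  have hFb : FS (sqc q (alF D.z D.D0 D.P D.h (rp d₀ ps))) := by
    rw [hD.hh]; exact HP842.FS.sqc (FS_alF hBump hD.ok D.z D.D0 _) q
  have k3 := H4 (sqc q (alF D.z D.D0 D.P D.h ps)) (sqc q (alF D.z D.D0 D.P D.h (rp d₀ ps)))
    (xs q D.z D.D0 D.P D.h d₀ ps) (zt d₀ ps) (norm_zt d₀ ps).le hFa hFb (fun n => rfl)
    (C₃ * X ^ ε * D.D0 ^ 4 * Ht ps ^ J * Real.exp (5 / 3 * m)) (Real.exp (-d₀))
    (Real.exp D.κ) (Real.exp m) N1 G₀ J₁ (by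
      have := hD.D0
      positivity) (Real.exp_pos _).le (Real.exp_pos _)
    (Real.exp_pos _) hN1 g hg hgG V t hV hVN (fun j hj hjV => by
      have hXB : X ≤ X ^ B₀ := by
        conv_lhs => rw [← Real.rpow_one X]
        exact Real.rpow_le_rpow_of_exponent_le hX1 hB₀
      have := H3 X hX D.P hD.ok hD.nP hD.np D.z D.D0 hD.D0 ps (hD.mkb.mk hsb) hlen hz0 hLX d₀ hd₀
        hlg q g j hq.ne_zero hqX hg hgX hj.1 ((hjV.trans hVX).trans hXB) t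
      rw [hD.hh]
      exact this) _ _ k1 k2
  refine k3.trans ?_
  have k4 := nb_le (C := C₃) (Xe := X ^ ε) (D0 := D.D0) (HJ := Ht ps ^ J) (m := m) (d₀ := d₀)
    (N1 := N1) (κ := D.κ) (G₀ := G₀) (Bb := Bb) (by linarith) hXe hHJ hb
  have hD0' := hD.D0
  have hG0 : 0 < G₀ := lt_of_lt_of_le hng hgG
  have hBb : 0 ≤ Bb := by
    refine le_trans ?_ hb
    positivity
  have k5 : 3 * (C₁ * X ^ ε * B * Ht ps ^ J * Real.exp (2 * m)) +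
      3 * (C₂ * X ^ ε * B' * Ht ps ^ J * Real.exp (2 * m)) +
      C₄ * (G₀ * Nb (C₃ * X ^ ε * D.D0 ^ 4 * Ht ps ^ J * Real.exp (5 / 3 * m)) (Real.exp (-d₀))
        (Real.exp D.κ) (Real.exp m) N1) ≤
      (3 * C₁ + 3 * C₂ + C₄ * C₃) * X ^ ε * (B + B' + Bb) * Ht ps ^ J * Real.exp (2 * m) := by
    have h1 := mul_le_mul_of_nonneg_left k4 hC₄
    have h2 : 0 ≤ X ^ ε * Ht ps ^ J * Real.exp (2 * m) := by positivity
    have h3 : 3 * C₁ * B + 3 * C₂ * B' + C₄ * C₃ * Bb ≤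
        (3 * C₁ + 3 * C₂ + C₄ * C₃) * (B + B' + Bb) := by
      have : 0 ≤ C₄ * C₃ := by positivity
      nlinarith [mul_nonneg (by linarith : 0 ≤ C₁) hB', mul_nonneg (by linarith : 0 ≤ C₁) hBb,
        mul_nonneg (by linarith : 0 ≤ C₂) hB, mul_nonneg (by linarith : 0 ≤ C₂) hBb,
        mul_nonneg this hB, mul_nonneg this hB']
    have h4 := mul_le_mul_of_nonneg_right h3 h2
    calc _ ≤ 3 * (C₁ * X ^ ε * B * Ht ps ^ J * Real.exp (2 * m)) +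
          3 * (C₂ * X ^ ε * B' * Ht ps ^ J * Real.exp (2 * m)) +
          C₄ * (C₃ * X ^ ε * Bb * Ht ps ^ J * Real.exp (2 * m)) := by linarith
      _ = (3 * C₁ * B + 3 * C₂ * B' + C₄ * C₃ * Bb) *
          (X ^ ε * Ht ps ^ J * Real.exp (2 * m)) := by ring
      _ ≤ _ := h4
      _ = _ := by ring
  have h5 : 0 ≤ (1 + |t|) ^ J₁ := by positivity
  gcongr

/-- **(SA0)** for the difference, slope form, `g = 1` included -/
theorem x_numS0 {h : ℝ → ℝ} {c : ℝ} (hpu : PU h c) (N : ℕ) {B₀ : ℝ} (hB₀ : 1 ≤ B₀) {ε : ℝ}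
    (hε : 0 < ε) {J J₁ : ℝ} (hJ : 6 ≤ J) (hJ₁ : 12 ≤ J₁) (hNJ : N * J ≤ J₁) :
    ∃ C r : ℝ, 1 ≤ C ∧ 0 ≤ r ∧ ∀ X : ℝ, 3 ≤ X → ∀ D : Dat, DX h N J B₀ X D →
    ∀ (B B' Bb s a Q q₀ σ'' lo d₀ : ℝ), 0 ≤ B → 0 ≤ B' → Real.exp r ≤ q₀ →
    ClXK Dk (ex0 D.κ) D (Ge lo) B (s + r) (a + r) (Q * q₀) σ'' →
    ClXK Dk (ex0 D.κ) (Dr d₀ D) (Ge lo) B' (2 * s + r) (a + r) (Q * q₀) σ'' →
    ∀ (q : Eis) (ps : List Pf), QX B₀ X s Q d₀ D q ps → LF ps + r ≤ σ'' →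
    ∀ (g : Eis) (t V N1 G₀ : ℝ), IsPrim g → (nm g : ℝ) ≤ X ^ B₀ → (nm g : ℝ) ≤ G₀ →
    lo + Real.log (nm g) + N * Real.log D.D0 + r ≤ LF ps → 1 ≤ V → V ≤ X → 0 < N1 →
    V ≤ 9 * N1 * nm g → Real.log V ≤ D.v + (D.n - LF ps) + a + Real.log (nm g) →
    G₀ * D.D0 ^ 4 * Real.exp (LF ps / 3 - d₀) * (N1 / Real.exp D.κ) ^ (1 / 3 : ℝ) ≤ Bb →
    VF V (tws (sg (xs q D.z D.D0 D.P D.h d₀ ps) g) t) ≤
      (C * X ^ ε * (B + B' + Bb) * Ht ps ^ J * Real.exp (2 * LF ps)) / (nm g : ℝ) ^ 2 *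
        ((V * Real.exp D.κ / (Real.exp (LF ps) / nm g) ^ 2) ^ (1 / 3 : ℝ)) *
        (1 + |t|) ^ J₁ := by
  have hB₀0 : (0 : ℝ) ≤ B₀ := by linarith
  have hJ0 : (0 : ℝ) ≤ J := by linarith
  obtain ⟨C₂, r, hC₂, hr₂, H2⟩ := RGK545.sub_num0 Dk848.ker_Dk hpu N hB₀0 hε hJ0
  obtain ⟨C₃, hC₃, H3⟩ := pb_xs hpu N hB₀ hε hJ hJ₁
  obtain ⟨C₄, hC₄, H4⟩ := RX241.num_S0
  refine ⟨3 * C₂ + 3 * C₂ + C₄ * C₃, r, ?_, hr₂, ?_⟩
  · have : 0 ≤ C₄ * C₃ := by positivity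
    linarith
  intro X hX D hD B B' Bb s a Q q₀ σ'' lo d₀ hB hB' hq₀ hCl hCl' q ps hps hσ'' g t V N1
    G₀ hg hgX hgG hlo hV hVX hN1 hVN hk hb
  have hX1 : (1 : ℝ) ≤ X := by linarith
  have hX0 : 0 < X := by linarith
  obtain ⟨hq, hqX, hqQ, hsb, hlg, hLX, hd₀, hs⟩ := hps
  have hps' : QX B₀ X s Q d₀ D q ps := ⟨hq, hqX, hqQ, hsb, hlg, hLX, hd₀, hs⟩
  have hng1 : (1 : ℝ) ≤ nm g := by exact_mod_cast nm_pos.2 hg.ne_zero
  have hng : (0 : ℝ) < nm g := by linarith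
  have hγ := Real.log_nonneg hng1
  have hV0 : 0 < V := by linarith
  have hHt := one_le_Ht ps
  have hz0 := hsb.z_nonneg
  have hlen : ps.length ≤ N := hsb.length ▸ hD.len
  have ht : (1 : ℝ) ≤ 1 + |t| := by linarith [abs_nonneg t]
  have htJ : (1 + |t|) ^ ((N : ℝ) * J) ≤ (1 + |t|) ^ J₁ :=
    Real.rpow_le_rpow_of_exponent_le ht hNJ
  have hXe : 0 ≤ X ^ ε := by positivity
  have hHJ : 0 ≤ Ht ps ^ J := Real.rpow_nonneg (by linarith) _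
  set m := LF ps with hm
  set mx := (V * Real.exp D.κ / (Real.exp m / nm g) ^ 2) ^ (1 / 3 : ℝ) with hmx
  have hmx0 : 0 ≤ mx := by rw [hmx]; positivity
  -- the own part
  have k1 : VK Dk V (tws (sg (sqc q (alF D.z D.D0 D.P D.h ps)) g) t) ≤
      (C₂ * X ^ ε * B * Ht ps ^ J * Real.exp (2 * m)) / (nm g : ℝ) ^ 2 * mx *
        (1 + |t|) ^ J₁ := by
    have h1 := H2 X hX D hD.ok hD.hh hD.D0 hD.J hD.len B s a Q q₀ σ'' lo hB hq₀
      hCl q g ps t V hq hqQ hg hgX hsb hLX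
      (fun x hx => by linarith) (by linarith) hV hVX hk
    refine h1.trans ?_
    rw [slope_eq hV0 hng]
    have h2 : 0 ≤ C₂ * X ^ ε * B * Ht ps ^ J := by positivity
    calc C₂ * X ^ ε * B * Ht ps ^ J * (1 + |t|) ^ ((N : ℝ) * J) *
          (Real.exp (2 * m) / (nm g : ℝ) ^ 2 * mx) ≤
        C₂ * X ^ ε * B * Ht ps ^ J * (1 + |t|) ^ J₁ *
          (Real.exp (2 * m) / (nm g : ℝ) ^ 2 * mx) := by gcongr
      _ = _ := by ring
  -- the replaced part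
  have k2 : VK Dk V (tws (sg (sqc q (alF D.z D.D0 D.P D.h (rp d₀ ps))) g) t) ≤
      (C₂ * X ^ ε * B' * Ht ps ^ J * Real.exp (2 * m)) / (nm g : ℝ) ^ 2 * mx *
        (1 + |t|) ^ J₁ := by
    have h1 := H2 X hX (Dr d₀ D) hD.ok hD.hh hD.D0 hD.J
      (by show (rpB d₀ D.ps₀).length ≤ N; rw [rpB_length]; exact hD.len)
      B' (2 * s) a Q q₀ σ'' lo hB' hq₀
      hCl' q g (rp d₀ ps) t V hq
      hps'.qQr hg hgX hps'.sbr (by rw [LF_rp]; exact hLX)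
      (fun x hx => by
        rw [LF_rp] at hx
        linarith) (by
          rw [LF_rp]
          show lo + Real.log (nm g) + N * Real.log D.D0 + r ≤ m
          linarith) hV hVX (by rw [LF_rp]; exact hk)
    refine h1.trans ?_
    rw [LF_rp, Ht_rp]
    show C₂ * X ^ ε * B' * Ht ps ^ J * (1 + |t|) ^ ((N : ℝ) * J) *
      Real.exp (4 / 3 * (m - Real.log (nm g)) + (Real.log V + D.κ) / 3) ≤ _
    rw [slope_eq hV0 hng]
    have h2 : 0 ≤ C₂ * X ^ ε * B' * Ht ps ^ J := by positivity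
    calc C₂ * X ^ ε * B' * Ht ps ^ J * (1 + |t|) ^ ((N : ℝ) * J) *
          (Real.exp (2 * m) / (nm g : ℝ) ^ 2 * mx) ≤
        C₂ * X ^ ε * B' * Ht ps ^ J * (1 + |t|) ^ J₁ *
          (Real.exp (2 * m) / (nm g : ℝ) ^ 2 * mx) := by gcongr
      _ = _ := by ring
  -- the bias
  have hBump := bump_of_cs hpu.cs
  have hFa : FS (sqc q (alF D.z D.D0 D.P D.h ps)) := by
    rw [hD.hh]; exact HP842.FS.sqc (FS_alF hBump hD.ok D.z D.D0 ps) q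
  have hFb : FS (sqc q (alF D.z D.D0 D.P D.h (rp d₀ ps))) := by
    rw [hD.hh]; exact HP842.FS.sqc (FS_alF hBump hD.ok D.z D.D0 _) q
  have k3 := H4 (sqc q (alF D.z D.D0 D.P D.h ps)) (sqc q (alF D.z D.D0 D.P D.h (rp d₀ ps)))
    (xs q D.z D.D0 D.P D.h d₀ ps) (zt d₀ ps) (norm_zt d₀ ps).le hFa hFb (fun n => rfl)
    (C₃ * X ^ ε * D.D0 ^ 4 * Ht ps ^ J * Real.exp (5 / 3 * m)) (Real.exp (-d₀))
    (Real.exp D.κ) (Real.exp m) N1 G₀ J₁ (by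
      have := hD.D0
      positivity) (Real.exp_pos _).le (Real.exp_pos _)
    (Real.exp_pos _) hN1 g hg hgG V t hV hVN (fun j hj hjV => by
      have hXB : X ≤ X ^ B₀ := by
        conv_lhs => rw [← Real.rpow_one X]
        exact Real.rpow_le_rpow_of_exponent_le hX1 hB₀
      have := H3 X hX D.P hD.ok hD.nP hD.np D.z D.D0 hD.D0 ps (hD.mkb.mk hsb) hlen hz0 hLX d₀ hd₀
        hlg q g j hq.ne_zero hqX hg hgX hj.1 ((hjV.trans hVX).trans hXB) t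
      rw [hD.hh]
      exact this) _ _ k1 k2
  refine k3.trans ?_
  have k4 := nb_le (C := C₃) (Xe := X ^ ε) (D0 := D.D0) (HJ := Ht ps ^ J) (m := m) (d₀ := d₀)
    (N1 := N1) (κ := D.κ) (G₀ := G₀) (Bb := Bb) (by linarith) hXe hHJ hb
  have hD0' := hD.D0
  have hG0 : 0 < G₀ := lt_of_lt_of_le hng hgG
  have hBb : 0 ≤ Bb := by
    refine le_trans ?_ hb
    positivity
  have k5 : 3 * (C₂ * X ^ ε * B * Ht ps ^ J * Real.exp (2 * m)) +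
      3 * (C₂ * X ^ ε * B' * Ht ps ^ J * Real.exp (2 * m)) +
      C₄ * (G₀ * Nb (C₃ * X ^ ε * D.D0 ^ 4 * Ht ps ^ J * Real.exp (5 / 3 * m)) (Real.exp (-d₀))
        (Real.exp D.κ) (Real.exp m) N1) ≤
      (3 * C₂ + 3 * C₂ + C₄ * C₃) * X ^ ε * (B + B' + Bb) * Ht ps ^ J * Real.exp (2 * m) := by
    have h1 := mul_le_mul_of_nonneg_left k4 hC₄
    have h2 : 0 ≤ X ^ ε * Ht ps ^ J * Real.exp (2 * m) := by positivity
    have h3 : 3 * C₂ * B + 3 * C₂ * B' + C₄ * C₃ * Bb ≤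
        (3 * C₂ + 3 * C₂ + C₄ * C₃) * (B + B' + Bb) := by
      have : 0 ≤ C₄ * C₃ := by positivity
      nlinarith [mul_nonneg (by linarith : 0 ≤ C₂) hB', mul_nonneg (by linarith : 0 ≤ C₂) hBb,
        mul_nonneg (by linarith : 0 ≤ C₂) hB, mul_nonneg this hB, mul_nonneg this hB']
    have h4 := mul_le_mul_of_nonneg_right h3 h2
    calc _ ≤ 3 * (C₂ * X ^ ε * B * Ht ps ^ J * Real.exp (2 * m)) +
          3 * (C₂ * X ^ ε * B' * Ht ps ^ J * Real.exp (2 * m)) +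
          C₄ * (C₃ * X ^ ε * Bb * Ht ps ^ J * Real.exp (2 * m)) := by linarith
      _ = (3 * C₂ * B + 3 * C₂ * B' + C₄ * C₃ * Bb) *
          (X ^ ε * Ht ps ^ J * Real.exp (2 * m)) := by ring
      _ ≤ _ := h4
      _ = _ := by ring
  have h5 : 0 ≤ (1 + |t|) ^ J₁ := by positivity
  gcongr

/-- **(L+)** for the difference -/
theorem x_numL {h : ℝ → ℝ} {c : ℝ} (hpu : PU h c) (N : ℕ) {B₀ : ℝ} (hB₀ : 1 ≤ B₀) {ε : ℝ}
    (hε : 0 < ε) {J J₁ : ℝ} (hJ : 6 ≤ J) (hJ₁ : 12 ≤ J₁) (hNJ : N * J ≤ J₁) :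
    ∃ C r : ℝ, 1 ≤ C ∧ 0 ≤ r ∧ ∀ X : ℝ, 3 ≤ X → ∀ D : Dat, DX h N J B₀ X D →
    ∀ (B B' Bb s a Q q₀ cc lo x₁ d₀ : ℝ), 0 ≤ B → 0 ≤ B' → Real.exp r ≤ q₀ → 0 ≤ a →
    lo ≤ 0 → 0 ≤ x₁ →
    ClNK Dk D (exJ D.κ D.v D.n cc) B (s + r) (a + r) (Q * q₀) lo (D.n - cc + x₁) →
    ClNK Dk (Dr d₀ D) (exJ D.κ D.v D.n cc) B' (2 * s + r) (a + r) (Q * q₀) lo
      (D.n - cc + x₁) →
    ∀ (q : Eis) (ps : List Pf), QX B₀ X s Q d₀ D q ps → D.n - cc ≤ LF ps →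
    ∀ (g : Eis) (Y G₀ Bu t V N1 : ℝ), IsPrim g → (nm g : ℝ) ≤ X ^ B₀ → 0 ≤ Y → 1 ≤ Bu →
    Bu ≤ X ^ B₀ → 0 < G₀ → LF ps - Real.log G₀ + r ≤ D.n - cc + x₁ → 1 ≤ V → V ≤ X →
    0 < N1 → V ≤ 9 * N1 / (nm g : ℝ) ^ 2 →
    Real.log V + 2 * Real.log (nm g) ≤ D.v + (D.n - LF ps) + a →
    D.D0 ^ 4 * Real.exp (LF ps / 3 - d₀) * (N1 / Real.exp D.κ) ^ (1 / 3 : ℝ) ≤ Bb →
    JB Y (xs q D.z D.D0 D.P D.h d₀ ps) (fun U => G₀ < nm (g * U)) g Bu V t ≤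
      (C * X ^ ε * ((B + B') * Real.exp (N * Real.log D.D0 + a) + Bb) * Ht ps ^ J *
        Real.exp (2 * LF ps)) / (nm g : ℝ) ^ 2 * yv (Real.exp D.κ) (Real.exp (LF ps)) g V *
        (1 + |t|) ^ J₁ := by
  have hB₀0 : (0 : ℝ) ≤ B₀ := by linarith
  have hJ0 : (0 : ℝ) ≤ J := by linarith
  obtain ⟨C₂, r, hC₂, hr₂, H2⟩ := RGK545.large_num hpu N (B₀ := B₀) (ε := ε) hJ0
    (RGK545.mergeListK Dk848.ker_Dk hpu N hB₀0 hε hJ0)
  obtain ⟨C₃, hC₃, H3⟩ := pb_xs hpu N (B := 2 * B₀) (by linarith) (ε := ε / 2) (by positivity)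
    hJ hJ₁
  obtain ⟨C₄, hC₄, H4⟩ := RX241.num_L (ε := ε / 2 / (2 * B₀)) (by positivity)
  refine ⟨3 * C₂ + 3 * C₂ + C₄ * C₃, r, ?_, hr₂, ?_⟩
  · have : 0 ≤ C₄ * C₃ := by positivity
    linarith
  intro X hX D hD B B' Bb s a Q q₀ cc lo x₁ d₀ hB hB' hq₀ ha hlo hx₁ hCl hCl' q ps hps hcm g Y G₀
    Bu t V N1 hg hgX hY hBu hBuX hG₀ hGn hV hVX hN1 hVN hk hb
  have hX1 : (1 : ℝ) ≤ X := by linarith
  have hX0 : 0 < X := by linarith
  obtain ⟨hq, hqX, hqQ, hsb, hlg, hLX, hd₀, hs⟩ := hps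
  have hps' : QX B₀ X s Q d₀ D q ps := ⟨hq, hqX, hqQ, hsb, hlg, hLX, hd₀, hs⟩
  have hng1 : (1 : ℝ) ≤ nm g := by exact_mod_cast nm_pos.2 hg.ne_zero
  have hng : (0 : ℝ) < nm g := by linarith
  have hV0 : 0 < V := by linarith
  have hHt := one_le_Ht ps
  have hz0 := hsb.z_nonneg
  have hlen : ps.length ≤ N := hsb.length ▸ hD.len
  have ht : (1 : ℝ) ≤ 1 + |t| := by linarith [abs_nonneg t]
  have htJ : (1 + |t|) ^ ((N : ℝ) * J) ≤ (1 + |t|) ^ J₁ :=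
    Real.rpow_le_rpow_of_exponent_le ht hNJ
  have hXe : 0 ≤ X ^ ε := by positivity
  have hHJ : 0 ≤ Ht ps ^ J := Real.rpow_nonneg (by linarith) _
  set m := LF ps with hm
  set Y' := yv (Real.exp D.κ) (Real.exp m) g V with hY'
  have hY'0 : 0 ≤ Y' := by rw [hY']; unfold E1551.yv; positivity
  set Ex := Real.exp (N * Real.log D.D0 + a) with hEx
  have hXB : X ≤ X ^ B₀ := by
    conv_lhs => rw [← Real.rpow_one X]
    exact Real.rpow_le_rpow_of_exponent_le hX1 hB₀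
  have hXB2 : X ^ B₀ * X ^ B₀ = X ^ (2 * B₀) := by
    rw [← Real.rpow_add hX0]; congr 1; ring
  have hXB1 : X ^ B₀ ≤ X ^ (2 * B₀) :=
    Real.rpow_le_rpow_of_exponent_le hX1 (by linarith)
  -- the own part
  have k1 : JBK Dk Y (sqc q (alF D.z D.D0 D.P D.h ps)) (fun U => G₀ < nm (g * U)) g Bu V t ≤
      (C₂ * X ^ ε * B * Ht ps ^ J * Ex * Real.exp (2 * m)) / (nm g : ℝ) ^ 2 * Y' *
        (1 + |t|) ^ J₁ := by
    have h1 := H2 X hX D hD.ok hD.hh hD.D0 hD.J hD.len B s a Q q₀ cc lo x₁ hB hq₀ ha hlo hx₁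
      hCl q g ps Y G₀ Bu V t hq hqQ hg hgX hsb hLX hcm hY hBu hBuX hG₀ hGn hV hVX hk
    refine h1.trans ?_
    gcongr
  -- the replaced part
  have k2 : JBK Dk Y (sqc q (alF D.z D.D0 D.P D.h (rp d₀ ps))) (fun U => G₀ < nm (g * U)) g Bu
      V t ≤ (C₂ * X ^ ε * B' * Ht ps ^ J * Ex * Real.exp (2 * m)) / (nm g : ℝ) ^ 2 * Y' *
        (1 + |t|) ^ J₁ := by
    have h1 := H2 X hX (Dr d₀ D) hD.ok hD.hh hD.D0 hD.J
      (by show (rpB d₀ D.ps₀).length ≤ N; rw [rpB_length]; exact hD.len)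
      B' (2 * s) a Q q₀ cc lo x₁ hB' hq₀ ha hlo hx₁
      hCl' q g (rp d₀ ps) Y G₀ Bu V t hq hps'.qQr hg hgX hps'.sbr (by rw [LF_rp]; exact hLX)
      (by rw [LF_rp]; exact hcm) hY hBu hBuX hG₀ (by rw [LF_rp]; exact hGn) hV hVX
      (by rw [LF_rp]; exact hk)
    rw [LF_rp, Ht_rp] at h1
    refine h1.trans ?_
    show (C₂ * X ^ ε * B' * Ht ps ^ J * Ex * Real.exp (2 * m)) / (nm g : ℝ) ^ 2 * Y' *
      (1 + |t|) ^ ((N : ℝ) * J) ≤ _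
    gcongr
  -- the bias
  have hBump := bump_of_cs hpu.cs
  have hFa : FS (sqc q (alF D.z D.D0 D.P D.h ps)) := by
    rw [hD.hh]; exact HP842.FS.sqc (FS_alF hBump hD.ok D.z D.D0 ps) q
  have hFb : FS (sqc q (alF D.z D.D0 D.P D.h (rp d₀ ps))) := by
    rw [hD.hh]; exact HP842.FS.sqc (FS_alF hBump hD.ok D.z D.D0 _) q
  have hD0' := hD.D0
  have k3 := H4 (sqc q (alF D.z D.D0 D.P D.h ps)) (sqc q (alF D.z D.D0 D.P D.h (rp d₀ ps)))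
    (xs q D.z D.D0 D.P D.h d₀ ps) (zt d₀ ps) (norm_zt d₀ ps).le hFa hFb (fun n => rfl)
    (C₃ * X ^ (ε / 2) * D.D0 ^ 4 * Ht ps ^ J * Real.exp (5 / 3 * m)) (Real.exp (-d₀))
    (Real.exp D.κ) (Real.exp m) N1 Y (X ^ (2 * B₀)) J₁ (by positivity) (Real.exp_pos _).le
    (Real.exp_pos _) (Real.exp_pos _) hN1 hY (fun U => G₀ < nm (g * U)) g hg Bu V t hBu hV
    (by
      rw [← hXB2]
      exact mul_le_mul (hVX.trans hXB) hBuX (by linarith) (by positivity)) hVN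
    (fun U hU _ hU2 _ j hj hjV => by
      have hUp : IsPrim U := ((mem_S hY).1 hU).2.1
      have hgU : (nm (g * U) : ℝ) ≤ X ^ (2 * B₀) := by
        rw [nm_mul, ← hXB2]
        push_cast
        exact mul_le_mul hgX (hU2.trans hBuX) (Nat.cast_nonneg _) (by positivity)
      have hMk : Mk (X ^ (2 * B₀)) ps := (hD.mkb.mk hsb).mono hXB1
      have := H3 X hX D.P hD.ok (hD.nP.trans hXB1) hD.np D.z D.D0 hD.D0 ps hMk hlen hz0 hLX d₀ hd₀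
        hlg q (g * U) j hq.ne_zero (hqX.trans hXB1) (hg.mul hUp) hgU hj.1
        (hjV.trans (by
          rw [← hXB2]
          exact mul_le_mul (hVX.trans hXB) hBuX (by linarith) (by positivity))) t
      rw [hD.hh]
      exact this) _ _ k1 k2
  refine k3.trans ?_
  have k4 := nb_le (C := C₃) (Xe := X ^ (ε / 2)) (D0 := D.D0) (HJ := Ht ps ^ J) (m := m)
    (d₀ := d₀) (N1 := N1) (κ := D.κ) (G₀ := 1) (Bb := Bb) (by linarith) (by positivity) hHJ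
    (by rw [one_mul]; exact hb)
  rw [one_mul] at k4
  have hBb : 0 ≤ Bb := by
    refine le_trans ?_ hb
    positivity
  have hP : (X ^ (2 * B₀)) ^ (ε / 2 / (2 * B₀)) = X ^ (ε / 2) := by
    rw [← Real.rpow_mul hX0.le]
    congr 1
    field_simp
  have hee : X ^ (ε / 2) * X ^ (ε / 2) = X ^ ε := by
    rw [← Real.rpow_add hX0]; congr 1; ring
  have k5 : 3 * (C₂ * X ^ ε * B * Ht ps ^ J * Ex * Real.exp (2 * m)) +
      3 * (C₂ * X ^ ε * B' * Ht ps ^ J * Ex * Real.exp (2 * m)) +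
      C₄ * (X ^ (2 * B₀)) ^ (ε / 2 / (2 * B₀)) * Nb (C₃ * X ^ (ε / 2) * D.D0 ^ 4 * Ht ps ^ J *
        Real.exp (5 / 3 * m)) (Real.exp (-d₀)) (Real.exp D.κ) (Real.exp m) N1 ≤
      (3 * C₂ + 3 * C₂ + C₄ * C₃) * X ^ ε * ((B + B') * Ex + Bb) * Ht ps ^ J *
        Real.exp (2 * m) := by
    rw [hP]
    have h1 := mul_le_mul_of_nonneg_left k4 (by positivity : 0 ≤ C₄ * X ^ (ε / 2))
    have h2 : 0 ≤ X ^ ε * Ht ps ^ J * Real.exp (2 * m) := by positivity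
    have hBE : 0 ≤ (B + B') * Ex := by positivity
    have h3 : 3 * C₂ * (B * Ex) + 3 * C₂ * (B' * Ex) + C₄ * C₃ * Bb ≤
        (3 * C₂ + 3 * C₂ + C₄ * C₃) * ((B + B') * Ex + Bb) := by
      have h4 : 0 ≤ C₄ * C₃ := by positivity
      nlinarith [mul_nonneg (by linarith : 0 ≤ C₂) hBE, mul_nonneg (by linarith : 0 ≤ C₂) hBb,
        mul_nonneg h4 hBE]
    have h4 := mul_le_mul_of_nonneg_right h3 h2
    calc _ ≤ 3 * (C₂ * X ^ ε * B * Ht ps ^ J * Ex * Real.exp (2 * m)) +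
          3 * (C₂ * X ^ ε * B' * Ht ps ^ J * Ex * Real.exp (2 * m)) +
          C₄ * X ^ (ε / 2) * (C₃ * X ^ (ε / 2) * Bb * Ht ps ^ J * Real.exp (2 * m)) := by linarith
      _ = 3 * (C₂ * X ^ ε * B * Ht ps ^ J * Ex * Real.exp (2 * m)) +
          3 * (C₂ * X ^ ε * B' * Ht ps ^ J * Ex * Real.exp (2 * m)) +
          C₄ * C₃ * Bb * (X ^ (ε / 2) * X ^ (ε / 2)) * (Ht ps ^ J * Real.exp (2 * m)) := by ring
      _ = (3 * C₂ * (B * Ex) + 3 * C₂ * (B' * Ex) + C₄ * C₃ * Bb) *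
          (X ^ ε * Ht ps ^ J * Real.exp (2 * m)) := by rw [hee]; ring
      _ ≤ _ := h4
      _ = _ := by ring
  have h5 : 0 ≤ (1 + |t|) ^ J₁ := by positivity
  gcongr

/-- **back** to the list, slope form -/
theorem x_back0 {h : ℝ → ℝ} {c : ℝ} (hpu : PU h c) (N : ℕ) {B₀ : ℝ} (hB₀ : 1 ≤ B₀) {ε : ℝ}
    (hε : 0 < ε) {J : ℝ} (hJ : 6 ≤ J) :
    ∃ C : ℝ, 1 ≤ C ∧ ∀ X : ℝ, 3 ≤ X → ∀ D : Dat, DX h N J B₀ X D →
    ∀ (B' Bb s a Q σ'' lo d₀ : ℝ), 0 ≤ B' →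
    ClXK Dk (ex0 D.κ) (Dr d₀ D) (Ge lo) B' (2 * s) a Q σ'' →
    ∀ (q : Eis) (ps : List Pf), QX B₀ X s Q d₀ D q ps → LF ps ≤ σ'' → lo ≤ LF ps →
    ∀ k : ℝ, 0 ≤ k → k ≤ Real.log X → k ≤ D.v + (D.n - LF ps) + a →
    D.D0 ^ 4 * Real.exp (LF ps / 3 - d₀) * (Real.exp k / Real.exp D.κ) ^ (1 / 3 : ℝ) ≤ Bb →
    SFK Dk D.z D.D0 q D.P D.h k ps ≤
      3 * VF (Real.exp k) (xs q D.z D.D0 D.P D.h d₀ ps) +
        C * X ^ ε * (B' + Bb) * Ht ps ^ J * Real.exp (ex0 D.κ k (LF ps)) := by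
  obtain ⟨C₃, hC₃, H3⟩ := pb_xs hpu N hB₀ hε hJ (J₁ := 12) le_rfl
  obtain ⟨C₄, hC₄, H4⟩ := RX241.num_back
  refine ⟨3 + C₄ * C₃, by
    have : 0 ≤ C₄ * C₃ := by positivity
    linarith, ?_⟩
  intro X hX D hD B' Bb s a Q σ'' lo d₀ hB' hCl' q ps hps hσ'' hlo k hk hkX hkv hb
  have hX1 : (1 : ℝ) ≤ X := by linarith
  have hX0 : 0 < X := by linarith
  obtain ⟨hq, hqX, hqQ, hsb, hlg, hLX, hd₀, hs⟩ := hps
  have hps' : QX B₀ X s Q d₀ D q ps := ⟨hq, hqX, hqQ, hsb, hlg, hLX, hd₀, hs⟩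
  have hHt := one_le_Ht ps
  have hz0 := hsb.z_nonneg
  have hlen : ps.length ≤ N := hsb.length ▸ hD.len
  have hXe : 1 ≤ X ^ ε := Real.one_le_rpow hX1 hε.le
  have hHJ : 0 ≤ Ht ps ^ J := Real.rpow_nonneg (by linarith) _
  have hD0' := hD.D0
  set m := LF ps with hm
  -- the replaced list
  have k2 : VK Dk (Real.exp k) (sqc q (alF D.z D.D0 D.P D.h (rp d₀ ps))) ≤
      B' * Ht ps ^ J * Real.exp (ex0 D.κ k m) := by
    have h1 := hCl' q (rp d₀ ps) k hq hps'.qQr (by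
      show lo ≤ LF (rp d₀ ps)
      rw [LF_rp]; exact hlo) hps'.sbr (by rw [LF_rp]; exact hσ'') hk (by
        rw [LF_rp]; exact hkv)
    rw [LF_rp, Ht_rp] at h1
    refine (show VK Dk (Real.exp k) (sqc q (alF D.z D.D0 D.P D.h (rp d₀ ps))) ≤
      B' * Ht ps ^ D.J * Real.exp (ex0 D.κ k m) from h1).trans ?_
    rw [hD.J]
  have hBump := bump_of_cs hpu.cs
  have hFa : FS (sqc q (alF D.z D.D0 D.P D.h ps)) := by
    rw [hD.hh]; exact HP842.FS.sqc (FS_alF hBump hD.ok D.z D.D0 ps) q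
  have hFb : FS (sqc q (alF D.z D.D0 D.P D.h (rp d₀ ps))) := by
    rw [hD.hh]; exact HP842.FS.sqc (FS_alF hBump hD.ok D.z D.D0 _) q
  have hekX : Real.exp k ≤ X := by
    rw [← Real.exp_log hX0]; exact Real.exp_le_exp.2 hkX
  have hXB : X ≤ X ^ B₀ := by
    conv_lhs => rw [← Real.rpow_one X]
    exact Real.rpow_le_rpow_of_exponent_le hX1 hB₀
  have k3 := H4 (sqc q (alF D.z D.D0 D.P D.h ps)) (sqc q (alF D.z D.D0 D.P D.h (rp d₀ ps)))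
    (xs q D.z D.D0 D.P D.h d₀ ps) (zt d₀ ps) (norm_zt d₀ ps).le hFa hFb (fun n => rfl)
    (C₃ * X ^ ε * D.D0 ^ 4 * Ht ps ^ J * Real.exp (5 / 3 * m) * Real.exp (-d₀)) (Real.exp k)
    (Real.one_le_exp hk) (fun j hj hjV => by
      have h1 := H3 X hX D.P hD.ok hD.nP hD.np D.z D.D0 hD.D0 ps (hD.mkb.mk hsb) hlen hz0 hLX d₀
        hd₀ hlg q 1 j hq.ne_zero hqX isPrim_one (by
          rw [nm_one, Nat.cast_one]
          exact hX1.trans hXB) hj.1 ((hjV.trans hekX).trans hXB) 0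
      rw [RX241.ts_one, nm_one, Nat.cast_one, Real.one_rpow, mul_one, one_mul, abs_zero, add_zero,
        Real.one_rpow, mul_one] at h1
      rw [hD.hh]
      refine h1.trans ?_
      have h2 : 0 ≤ C₃ * X ^ ε * D.D0 ^ 4 * Ht ps ^ J * Real.exp (5 / 3 * m) := by positivity
      exact mul_le_mul_of_nonneg_left (min_le_right _ _) h2)
  have hbias : Real.exp k ^ ((2 : ℝ) / 3) *
      (C₃ * X ^ ε * D.D0 ^ 4 * Ht ps ^ J * Real.exp (5 / 3 * m) * Real.exp (-d₀)) ≤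
      C₃ * X ^ ε * Bb * Ht ps ^ J * Real.exp (ex0 D.κ k m) := by
    have e1 : (Real.exp k / Real.exp D.κ) ^ (1 / 3 : ℝ) = Real.exp ((k - D.κ) / 3) := by
      rw [← Real.exp_sub, ← Real.exp_mul]; congr 1; ring
    have e2 : Real.exp k ^ ((2 : ℝ) / 3) = Real.exp (2 / 3 * k) := by
      rw [← Real.exp_mul]; congr 1; ring
    have e3 : Real.exp (2 / 3 * k) * Real.exp (5 / 3 * m) * Real.exp (-d₀) =
        Real.exp (m / 3 - d₀) * Real.exp ((k - D.κ) / 3) * Real.exp (ex0 D.κ k m) := by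
      rw [← Real.exp_add, ← Real.exp_add, ← Real.exp_add, ← Real.exp_add]
      congr 1
      unfold ex0
      ring
    rw [e1] at hb
    rw [e2]
    have hBb : 0 ≤ Bb := by
      refine le_trans ?_ hb
      positivity
    calc Real.exp (2 / 3 * k) *
          (C₃ * X ^ ε * D.D0 ^ 4 * Ht ps ^ J * Real.exp (5 / 3 * m) * Real.exp (-d₀)) =
        C₃ * X ^ ε * D.D0 ^ 4 * Ht ps ^ J *
          (Real.exp (2 / 3 * k) * Real.exp (5 / 3 * m) * Real.exp (-d₀)) := by ring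
      _ = C₃ * X ^ ε * Ht ps ^ J * (D.D0 ^ 4 * Real.exp (m / 3 - d₀) *
          Real.exp ((k - D.κ) / 3)) * Real.exp (ex0 D.κ k m) := by rw [e3]; ring
      _ ≤ C₃ * X ^ ε * Ht ps ^ J * Bb * Real.exp (ex0 D.κ k m) := by gcongr
      _ = _ := by ring
  have hBb : 0 ≤ Bb := by
    refine le_trans ?_ hb
    positivity
  have hE0 : 0 ≤ Ht ps ^ J * Real.exp (ex0 D.κ k m) := by positivity
  show VK Dk (Real.exp k) (sqc q (alF D.z D.D0 D.P D.h ps)) ≤ _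
  refine k3.trans ?_
  have k5 := mul_le_mul_of_nonneg_left hbias hC₄
  have k6 : 3 * (B' * Ht ps ^ J * Real.exp (ex0 D.κ k m)) +
      C₄ * (C₃ * X ^ ε * Bb * Ht ps ^ J * Real.exp (ex0 D.κ k m)) ≤
      (3 + C₄ * C₃) * X ^ ε * (B' + Bb) * Ht ps ^ J * Real.exp (ex0 D.κ k m) := by
    have h1 : 3 * B' + C₄ * C₃ * X ^ ε * Bb ≤ (3 + C₄ * C₃) * X ^ ε * (B' + Bb) := by
      have h2 : 0 ≤ C₄ * C₃ := by positivity
      have h3 : B' ≤ X ^ ε * B' := le_mul_of_one_le_left hB' hXe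
      have h4 : 0 ≤ X ^ ε * Bb := by positivity
      have h5 : 0 ≤ C₄ * C₃ * (X ^ ε * B') := by positivity
      nlinarith
    calc _ = (3 * B' + C₄ * C₃ * X ^ ε * Bb) * (Ht ps ^ J * Real.exp (ex0 D.κ k m)) := by ring
      _ ≤ ((3 + C₄ * C₃) * X ^ ε * (B' + Bb)) * (Ht ps ^ J * Real.exp (ex0 D.κ k m)) :=
          mul_le_mul_of_nonneg_right h1 hE0
      _ = _ := by ring
  linarith

/-- **back** to the list -/
theorem x_back {h : ℝ → ℝ} {c : ℝ} (hpu : PU h c) (N : ℕ) {B₀ : ℝ} (hB₀ : 1 ≤ B₀) {ε : ℝ}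
    (hε : 0 < ε) {J : ℝ} (hJ : 6 ≤ J) :
    ∃ C : ℝ, 1 ≤ C ∧ ∀ X : ℝ, 3 ≤ X → ∀ D : Dat, DX h N J B₀ X D →
    ∀ (B' Bb s a Q σ'' lo d₀ : ℝ), 0 ≤ B' →
    ClXK Dk (ex0 D.κ) (Dr d₀ D) (Ge lo) B' (2 * s) a Q σ'' →
    ∀ (q : Eis) (ps : List Pf), QX B₀ X s Q d₀ D q ps → LF ps ≤ σ'' → lo ≤ LF ps →
    ∀ k : ℝ, 0 ≤ k → k ≤ Real.log X → k ≤ D.v + (D.n - LF ps) + a →
    D.D0 ^ 4 * Real.exp (LF ps / 3 - d₀) * (Real.exp k / Real.exp D.κ) ^ (1 / 3 : ℝ) ≤ Bb →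
    SFK Dk D.z D.D0 q D.P D.h k ps ≤
      3 * VF (Real.exp k) (xs q D.z D.D0 D.P D.h d₀ ps) +
        C * X ^ ε * (B' + Bb) * Ht ps ^ J * Real.exp (fl D.κ k (LF ps)) := by
  obtain ⟨C, hC, H⟩ := x_back0 hpu N hB₀ hε hJ
  refine ⟨C, hC, ?_⟩
  intro X hX D hD B' Bb s a Q σ'' lo d₀ hB' hCl' q ps hps hσ'' hlo k hk hkX hkv hb
  refine (H X hX D hD B' Bb s a Q σ'' lo d₀ hB' hCl' q ps hps hσ'' hlo k hk hkX hkv hb).trans ?_
  have h1 := Real.exp_le_exp.2 (ex0_le_fl D.κ k (LF ps))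
  have hHt := one_le_Ht ps
  have hHJ : 0 ≤ Ht ps ^ J := Real.rpow_nonneg (by linarith) _
  have hBb : 0 ≤ Bb := by
    refine le_trans ?_ hb
    have := hD.D0
    positivity
  gcongr

end Crest.Agent.R017.RX298
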