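import Crest.Agent.R017.RX7L_298
import Crest.Agent.R017.RXl_848
import Crest.Agent.R017.SqB_791
import Crest.Agent.R017.RGn_64

/-!
# Row 17, T.7 L11 (exceptional class), the terminal bound, part a (helper298)

* `x_back00` : back to the list from the bound of the replaced list
* `bx_clJ`, `bx_cl0` : claims on natural lists from the premise (TB)
-/

set_option autoImplicit false
set_option maxHeartbeats 1600000

noncomputable section

open Complex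
open scoped ComplexConjugate

namespace Crest.Agent.R017.RX298

open Crest.Agent.R012 Crest.Agent.R012.Eis Crest.Agent.R012.LS2 Crest.Agent.R012.Gauss880
open Crest.Agent.R012.Weight600 (osc pw)
open Crest.Agent.R017.CM106 Crest.Agent.R017.HP842 Crest.Agent.R017.FE47
open Crest.Agent.R017.End699 hiding pw
open Crest.Agent.R017.B770
open Crest.Agent.R017.Prov71
open Crest.Agent.R017.Rough381 (VF VF_nonneg)
open Crest.Agent.R017.Leg381
open Crest.Agent.R017.E1551 (sg tws yv JB cP Dg XJw)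
open Crest.Agent.R017.RG64
open Crest.Agent.R017.LegK545 (VK SFK JBK VK_nonneg)
open Crest.Agent.R017.RGK545 (ClXK ClK ClNK)
open Crest.Agent.R017.PX764 (Dk)
open Crest.Agent.R017.RX241 (Md Nb)
open Crest.Agent.R017.Sup271 (NPm)
open Crest.Agent.R017.LBQ791 (LBnQ SQnQ)
open Crest.Agent.R017.LBo813 (rho)
open Crest.Agent.R017.XS0298 (S0K)
open Crest.Agent.R017.XP699 (LL Chd hcost cst)

/-- **back** to the list from the bound of the replaced list -/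
theorem x_back00 {h : ℝ → ℝ} {c : ℝ} (hpu : PU h c) (N : ℕ) {B₀ : ℝ} (hB₀ : 1 ≤ B₀) {ε : ℝ}
    (hε : 0 < ε) {J : ℝ} (hJ : 6 ≤ J) :
    ∃ C : ℝ, 1 ≤ C ∧ ∀ X : ℝ, 3 ≤ X → ∀ D : Dat, DX h N J B₀ X D →
    ∀ (B' Bb s Q d₀ : ℝ), 0 ≤ B' →
    ∀ (q : Eis) (ps : List Pf), QX B₀ X s Q d₀ D q ps →
    ∀ k : ℝ, 0 ≤ k → k ≤ Real.log X →
    SFK Dk D.z D.D0 q D.P D.h k (rp d₀ ps) ≤
      B' * Ht ps ^ J * Real.exp (ex0 D.κ k (LF ps)) →
    D.D0 ^ 4 * Real.exp (LF ps / 3 - d₀) * (Real.exp k / Real.exp D.κ) ^ (1 / 3 : ℝ) ≤ Bb →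
    SFK Dk D.z D.D0 q D.P D.h k ps ≤
      3 * VF (Real.exp k) (xs q D.z D.D0 D.P D.h d₀ ps) +
        C * X ^ ε * (B' + Bb) * Ht ps ^ J * Real.exp (ex0 D.κ k (LF ps)) := by
  obtain ⟨C₃, hC₃, H3⟩ := pb_xs hpu N hB₀ hε hJ (J₁ := 12) le_rfl
  obtain ⟨C₄, hC₄, H4⟩ := RX241.num_back
  refine ⟨3 + C₄ * C₃, by
    have : 0 ≤ C₄ * C₃ := by positivity
    linarith, ?_⟩
  intro X hX D hD B' Bb s Q d₀ hB' q ps hps k hk hkX hrep hb
  have hX1 : (1 : ℝ) ≤ X := by linarith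
  have hX0 : 0 < X := by linarith
  obtain ⟨hq, hqX, hqQ, hsb, hlg, hLX, hd₀, hs⟩ := hps
  have hHt := one_le_Ht ps
  have hz0 := hsb.z_nonneg
  have hlen : ps.length ≤ N := hsb.length ▸ hD.len
  have hXe : 1 ≤ X ^ ε := Real.one_le_rpow hX1 hε.le
  have hHJ : 0 ≤ Ht ps ^ J := Real.rpow_nonneg (by linarith) _
  have hD0' := hD.D0
  set m := LF ps with hm
  have hBump := bump_of_cs hpu.cs
  have hFa : FS (sqc q (alF D.z D.D0 D.P D.h ps)) := by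
    rw [hD.hh]; exact HP842.FS.sqc (FS_alF hBump hD.ok D.z D.D0 ps) q
  have hFb : FS (sqc q (alF D.z D.D0 D.P D.h (rp d₀ ps))) := by
    rw [hD.hh]; exact HP842.FS.sqc (FS_alF hBump hD.ok D.z D.D0 _) q
  have hekX : Real.exp k ≤ X := by
    rw [← Real.exp_log hX0]; exact Real.exp_le_exp.2 hkX
  have hXB : X ≤ X ^ B₀ := by
    conv_lhs => rw [← Real.rpow_one X]
    exact Real.rpow_le_rpow_of_exponent_le hX1 hB₀
  have k3 := H4 (sqc q (alF D.z D.D0 D.P D.h ps)) (sqc q (alF D.z D.D0 D.P D.h (rp d₀ ps)))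
    (xs q D.z D.D0 D.P D.h d₀ ps) (zt d₀ ps) (norm_zt d₀ ps).le hFa hFb (fun n => rfl)
    (C₃ * X ^ ε * D.D0 ^ 4 * Ht ps ^ J * Real.exp (5 / 3 * m) * Real.exp (-d₀)) (Real.exp k)
    (Real.one_le_exp hk) (fun j hj hjV => by
      have h1 := H3 X hX D.P hD.ok hD.nP hD.np D.z D.D0 hD.D0 ps (hD.mkb.mk hsb) hlen hz0 hLX d₀
        hd₀ hlg q 1 j hq.ne_zero hqX isPrim_one (by
          rw [nm_one, Nat.cast_one]
          exact hX1.trans hXB) hj.1 ((hjV.trans hekX).trans hXB) 0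
      rw [RX241.ts_one, nm_one, Nat.cast_one, Real.one_rpow, mul_one, one_mul, abs_zero, add_zero,
        Real.one_rpow, mul_one] at h1
      rw [hD.hh]
      refine h1.trans ?_
      have h2 : 0 ≤ C₃ * X ^ ε * D.D0 ^ 4 * Ht ps ^ J * Real.exp (5 / 3 * m) := by positivity
      exact mul_le_mul_of_nonneg_left (min_le_right _ _) h2)
  have hbias : Real.exp k ^ ((2 : ℝ) / 3) *
      (C₃ * X ^ ε * D.D0 ^ 4 * Ht ps ^ J * Real.exp (5 / 3 * m) * Real.exp (-d₀)) ≤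
      C₃ * X ^ ε * Bb * Ht ps ^ J * Real.exp (ex0 D.κ k m) := by
    have e1 : (Real.exp k / Real.exp D.κ) ^ (1 / 3 : ℝ) = Real.exp ((k - D.κ) / 3) := by
      rw [← Real.exp_sub, ← Real.exp_mul]; congr 1; ring
    have e2 : Real.exp k ^ ((2 : ℝ) / 3) = Real.exp (2 / 3 * k) := by
      rw [← Real.exp_mul]; congr 1; ring
    have e3 : Real.exp (2 / 3 * k) * Real.exp (5 / 3 * m) * Real.exp (-d₀) =
        Real.exp (m / 3 - d₀) * Real.exp ((k - D.κ) / 3) * Real.exp (ex0 D.κ k m) := by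
      rw [← Real.exp_add, ← Real.exp_add, ← Real.exp_add, ← Real.exp_add]
      congr 1
      unfold ex0
      ring
    rw [e1] at hb
    rw [e2]
    have hBb : 0 ≤ Bb := by
      refine le_trans ?_ hb
      positivity
    calc Real.exp (2 / 3 * k) *
          (C₃ * X ^ ε * D.D0 ^ 4 * Ht ps ^ J * Real.exp (5 / 3 * m) * Real.exp (-d₀)) =
        C₃ * X ^ ε * D.D0 ^ 4 * Ht ps ^ J *
          (Real.exp (2 / 3 * k) * Real.exp (5 / 3 * m) * Real.exp (-d₀)) := by ring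
      _ = C₃ * X ^ ε * Ht ps ^ J * (D.D0 ^ 4 * Real.exp (m / 3 - d₀) *
          Real.exp ((k - D.κ) / 3)) * Real.exp (ex0 D.κ k m) := by rw [e3]; ring
      _ ≤ C₃ * X ^ ε * Ht ps ^ J * Bb * Real.exp (ex0 D.κ k m) := by gcongr
      _ = _ := by ring
  have hBb : 0 ≤ Bb := by
    refine le_trans ?_ hb
    positivity
  have hE0 : 0 ≤ Ht ps ^ J * Real.exp (ex0 D.κ k m) := by positivity
  show VK Dk (Real.exp k) (sqc q (alF D.z D.D0 D.P D.h ps)) ≤ _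
  refine k3.trans ?_
  have k2 : VK Dk (Real.exp k) (sqc q (alF D.z D.D0 D.P D.h (rp d₀ ps))) ≤
      B' * Ht ps ^ J * Real.exp (ex0 D.κ k m) := hrep
  have k5 := mul_le_mul_of_nonneg_left hbias hC₄
  have k6 : 3 * (B' * Ht ps ^ J * Real.exp (ex0 D.κ k m)) +
      C₄ * (C₃ * X ^ ε * Bb * Ht ps ^ J * Real.exp (ex0 D.κ k m)) ≤
      (3 + C₄ * C₃) * X ^ ε * (B' + Bb) * Ht ps ^ J * Real.exp (ex0 D.κ k m) := by
    have h1 : 3 * B' + C₄ * C₃ * X ^ ε * Bb ≤ (3 + C₄ * C₃) * X ^ ε * (B' + Bb) := by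
      have h2 : 0 ≤ C₄ * C₃ := by positivity
      have h3 : B' ≤ X ^ ε * B' := le_mul_of_one_le_left hB' hXe
      have h4 : 0 ≤ X ^ ε * Bb := by positivity
      have h5 : 0 ≤ C₄ * C₃ * (X ^ ε * B') := by positivity
      nlinarith
    calc _ = (3 * B' + C₄ * C₃ * X ^ ε * Bb) * (Ht ps ^ J * Real.exp (ex0 D.κ k m)) := by ring
      _ ≤ ((3 + C₄ * C₃) * X ^ ε * (B' + Bb)) * (Ht ps ^ J * Real.exp (ex0 D.κ k m)) :=
          mul_le_mul_of_nonneg_right h1 hE0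
      _ = _ := by ring
  linarith

/-- **claims on natural lists** from (TB), with the loss `cc / 2` -/
lemma bx_clJ {D : Dat} {cc B₁ s a Q lo σ r b M : ℝ} (hs : s ≤ r) (hQ : Q ≤ b) (hM : 0 ≤ M)
    (hJ : D.J = M) (hB₁ : 0 ≤ B₁)
    (H : ∀ (l : ℝ) (ps' : List Pq), 0 ≤ l → l ≤ D.v + (D.n - LL Dq ps') + a →
      List.Forall₂ (Chd Dq hcost r b) ps' D.ps₀ →
      S0K Dk D.P D.h l ps' ≤ B₁ * cst hcost ps' D.ps₀ ^ M *
        Real.exp (exJ D.κ D.v D.n cc l (LL Dq ps') + cc / 2)) :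
    ClNK Dk D (exJ D.κ D.v D.n cc) (B₁ * Real.exp (cc / 2) * Ht (natl D.ps₀) ^ M) s a Q lo σ := by
  refine RXg848.clN_of Dk hs hQ hM hJ (by positivity) ?_
  intro l ps' hl hla _ _ hch
  refine (H l ps' hl hla hch).trans (le_of_eq ?_)
  rw [Real.exp_add]
  ring

/-- **claims on natural lists** from (TB), near the full length, in slope form -/
lemma bx_cl0 {D : Dat} {cc ρ B₁ s a Q lo σ r b M : ℝ} (hs : s ≤ r) (hQ : Q ≤ b) (hM : 0 ≤ M)
    (hJ : D.J = M) (hB₁ : 0 ≤ B₁) (hρ : 0 ≤ ρ) (ha : 0 ≤ a) (hlo : D.n - cc - ρ ≤ lo)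
    (H : ∀ (l : ℝ) (ps' : List Pq), 0 ≤ l → l ≤ D.v + (D.n - LL Dq ps') + a →
      List.Forall₂ (Chd Dq hcost r b) ps' D.ps₀ →
      S0K Dk D.P D.h l ps' ≤ B₁ * cst hcost ps' D.ps₀ ^ M *
        Real.exp (exJ D.κ D.v D.n cc l (LL Dq ps') + cc / 2)) :
    ClNK Dk D (ex0 D.κ) (B₁ * Real.exp (cc / 2 + (ρ + a)) * Ht (natl D.ps₀) ^ M) s a Q lo σ := by
  refine RXg848.clN_of Dk hs hQ hM hJ (by positivity) ?_
  intro l ps' hl hla hlo' _ hch
  refine (H l ps' hl hla hch).trans ?_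
  have hcst : 0 ≤ cst hcost ps' D.ps₀ ^ M := Real.rpow_nonneg
    (zero_le_one.trans (XP699.one_le_cst XP699.one_le_hcost _ _)) _
  have h1 : exJ D.κ D.v D.n cc l (LL Dq ps') ≤ ex0 D.κ l (LL Dq ps') + (ρ + a) := by
    unfold exJ ex0
    have : max 0 ((D.n - LL Dq ps') - ((D.n - LL Dq ps') - (l - D.v)) / 3 - cc) ≤ ρ + a :=
      max_le (by linarith) (by linarith)
    linarith
  calc B₁ * cst hcost ps' D.ps₀ ^ M * Real.exp (exJ D.κ D.v D.n cc l (LL Dq ps') + cc / 2) ≤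
      B₁ * cst hcost ps' D.ps₀ ^ M * Real.exp ((ex0 D.κ l (LL Dq ps') + (ρ + a)) + cc / 2) := by
        gcongr
    _ = _ := by
        rw [show (ex0 D.κ l (LL Dq ps') + (ρ + a)) + cc / 2 =
          (cc / 2 + (ρ + a)) + ex0 D.κ l (LL Dq ps') by ring, Real.exp_add]
        ring

end Crest.Agent.R017.RX298
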