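import Crest.Agent.R017.RX7a_298

/-!
# Row 17, T.7 L11 (exceptional class), the terminal bound, part b (helper298)

* `bx_core` : the terminal bound from the premise (TB), the lower bound and the R-side numbers
-/

set_option autoImplicit false
set_option maxHeartbeats 1600000

noncomputable section

open Complex
open scoped ComplexConjugate

namespace Crest.Agent.R017.RX298

open Crest.Agent.R012 Crest.Agent.R012.Eis Crest.Agent.R012.LS2 Crest.Agent.R012.Gauss880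
open Crest.Agent.R012.Weight600 (osc pw)
open Crest.Agent.R017.CM106 Crest.Agent.R017.HP842 Crest.Agent.R017.FE47
open Crest.Agent.R017.End699 hiding pw
open Crest.Agent.R017.B770
open Crest.Agent.R017.Prov71
open Crest.Agent.R017.Rough381 (VF VF_nonneg)
open Crest.Agent.R017.Leg381
open Crest.Agent.R017.E1551 (sg tws yv JB cP Dg XJw)
open Crest.Agent.R017.RG64
open Crest.Agent.R017.LegK545 (VK SFK JBK VK_nonneg)
open Crest.Agent.R017.RGK545 (ClXK ClK ClNK)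
open Crest.Agent.R017.PX764 (Dk)
open Crest.Agent.R017.Dk848 (ker_Dk)
open Crest.Agent.R017.RX241 (Md Nb)
open Crest.Agent.R017.Sup271 (NPm)
open Crest.Agent.R017.LBQ791 (LBnQ SQnQ bess_absorbQ)
open Crest.Agent.R017.LBo813 (rho rho_one rho_anti rho_zero norm_list_le)
open Crest.Agent.R017.XS0298 (S0K)
open Crest.Agent.R017.XP699 (LL Chd hcost cst)
open Crest.Agent.R017.RGB545 (rbx)

lemma MkB.mono {M M' : ℝ} (h : M ≤ M') {ps : List Pq} (hp : MkB M ps) : MkB M' ps := by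
  match ps, hp with
  | p :: p' :: l, hp =>
    exact ⟨hp.1, hp.2.1, hp.2.2.1, hp.2.2.2.1, hp.2.2.2.2.1.trans h, hp.2.2.2.2.2.trans h⟩

lemma rbx_false (d₀ X : ℝ) (ps : List Pq) : rbx d₀ false X ps = ps := by
  unfold rbx
  rw [if_neg (by simp)]

lemma rbx_true (d₀ X : ℝ) (ps : List Pq) : rbx d₀ true X ps = rpB (d₀ * Real.log X) ps := by
  unfold rbx
  rw [if_pos rfl]
  match ps with
  | [] => rfl
  | [_] => rfl
  | _ :: _ :: _ => rfl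

lemma rp_natl (d₀ : ℝ) (ps : List Pq) : rp d₀ (natl ps) = natl (rpB d₀ ps) := by
  match ps with
  | [] => rfl
  | [_] => rfl
  | _ :: _ :: _ => rfl

lemma LL_rpB (d₀ : ℝ) (ps : List Pq) : LL Dq (rpB d₀ ps) = LL Dq ps := by
  rw [← RXg848.LF_natl, ← RXg848.LF_natl, ← rp_natl, LF_rp]

lemma Ht_rpB (d₀ : ℝ) (ps : List Pq) : Ht (natl (rpB d₀ ps)) = Ht (natl ps) := by
  rw [← rp_natl, Ht_rp]

lemma rho_nonneg' {N₀ N₁ : ℕ} (h0 : 1 ≤ N₀) (h : N₀ ≤ N₁) (n : ℕ) : 0 ≤ rho N₀ N₁ n := by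
  rcases Nat.lt_or_ge N₁ n with hn | hn
  · rw [rho_zero h0 h hn]
  · have := rho_anti h0 h (show n ≤ N₁ + 1 by omega)
    rw [rho_zero h0 h (Nat.lt_succ_self N₁)] at this
    exact this

/-- the final constants -/
lemma bx_final {q4 C₁ Cb C₂ C₃ C₅ C₆ CR Ce e4 A H Bd W F2 F Q3 Ma Ml Ec Ecp Rn Es bb : ℝ}
    (hC₁ : 0 ≤ C₁) (hCb : 0 ≤ Cb) (hC₂ : 0 ≤ C₂) (hC₃ : 0 ≤ C₃) (hC₅ : 0 ≤ C₅) (hC₆ : 0 ≤ C₆)
    (hCR : 0 ≤ CR) (hCe : 0 ≤ Ce) (hq4 : 0 ≤ q4) (he4 : 0 ≤ e4) (hA : 1 ≤ A) (hH : 1 ≤ H) (hBd : 1 ≤ Bd)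
    (hW : 1 ≤ W) (hF2 : 0 ≤ F2) (hF : Q3 * F2 = F) (hQ3 : 0 ≤ Q3)
    (hEc : 0 ≤ Ec) (hEc1 : Ec ≤ 1) (hEcp : Ec * Ecp = 1) (hbb : 0 ≤ bb) (hbbW : bb ≤ q4 * W)
    (hMa : Ma ≤ C₂ * A * (C₅ * A * (Bd * (Ecp * Ce) * H) + C₅ * A * (Bd * (Ecp * Ce) * H) + bb) *
      H * F2)
    (hMl : Ml ≤ C₃ * A * ((Bd * Ecp * H + Bd * Ecp * H) * e4 + bb) * H * F2)
    (hRn : Rn ≤ CR * A * H ^ 2 * (W + Bd) * F2 + CR * A * Ec * (Ma + Ml))
    (hEs : Es ≤ CR * A * H ^ 2 * Bd * F2) :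
    3 * (Cb * A * Q3 * (C₁ * A ^ 2 * (F2 + Ec * (Ma + Ml) + (Rn + Es)) +
      CR * A * H ^ 2 * Bd * F2)) + C₆ * A * (Bd + W) * H * F ≤
    (3 * Cb * (C₁ * (1 + (C₂ * (2 * C₅ * Ce + q4) + C₃ * (2 * e4 + q4)) +
      CR * (2 + (C₂ * (2 * C₅ * Ce + q4) + C₃ * (2 * e4 + q4)))) + CR) + C₆) * A ^ 6 * H ^ 2 *
      (W + Bd) * F := by
  have hA0 : 0 ≤ A := by linarith
  have hH0 : 0 ≤ H := by linarith
  have hBd0 : 0 ≤ Bd := by linarith
  have hW0 : 0 ≤ W := by linarith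
  obtain ⟨U, hU⟩ : ∃ U : ℝ, U = H ^ 2 * (W + Bd) := ⟨_, rfl⟩
  have hHH : H ≤ H ^ 2 := by nlinarith
  have hH2 : 1 ≤ H ^ 2 := by nlinarith
  have hUW : H ^ 2 * W ≤ U := by rw [hU]; gcongr; linarith
  have hUB : H ^ 2 * Bd ≤ U := by rw [hU]; gcongr; linarith
  have hU1 : 1 ≤ U := by
    rw [hU]; exact one_le_mul_of_one_le_of_one_le hH2 (by linarith)
  have hU0 : 0 ≤ U := by linarith
  have hpA : ∀ i j : ℕ, i ≤ j → A ^ i ≤ A ^ j := fun i j hij => pow_le_pow_right₀ hA hij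
  obtain ⟨CT, hCT⟩ : ∃ x : ℝ, x = C₂ * (2 * C₅ * Ce + q4) + C₃ * (2 * e4 + q4) := ⟨_, rfl⟩
  have hCT0 : 0 ≤ CT := by rw [hCT]; positivity
  rw [← hCT]
  have k1 : Ec * Ma ≤ C₂ * (2 * C₅ * Ce + q4) * (A ^ 2 * U * F2) := by
    have h1 : Ec * Ma ≤ Ec * (C₂ * A * (C₅ * A * (Bd * (Ecp * Ce) * H) +
        C₅ * A * (Bd * (Ecp * Ce) * H) + bb) * H * F2) := mul_le_mul_of_nonneg_left hMa hEc
    have h2 : Ec * (C₂ * A * (C₅ * A * (Bd * (Ecp * Ce) * H) +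
        C₅ * A * (Bd * (Ecp * Ce) * H) + bb) * H * F2) =
        (Ec * Ecp) * (2 * C₂ * C₅ * Ce * (A ^ 2 * (H ^ 2 * Bd) * F2)) +
          Ec * (C₂ * (A * (H * bb) * F2)) := by ring
    have h3 : A ^ 2 * (H ^ 2 * Bd) * F2 ≤ A ^ 2 * U * F2 := by gcongr
    have h4 : A * (H * bb) * F2 ≤ A ^ 2 * (q4 * U) * F2 := by
      have : H * bb ≤ q4 * U := by
        calc H * bb ≤ H ^ 2 * (q4 * W) := by gcongr
          _ = q4 * (H ^ 2 * W) := by ring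
          _ ≤ _ := mul_le_mul_of_nonneg_left hUW hq4
      have hA2 : A ≤ A ^ 2 := by nlinarith
      gcongr
    have h5 : Ec * (C₂ * (A * (H * bb) * F2)) ≤ 1 * (C₂ * (A ^ 2 * (q4 * U) * F2)) := by gcongr
    have h6 : 2 * C₂ * C₅ * Ce * (A ^ 2 * (H ^ 2 * Bd) * F2) ≤
        2 * C₂ * C₅ * Ce * (A ^ 2 * U * F2) := by gcongr
    rw [h2, hEcp, one_mul] at h1
    linarith
  have k2 : Ec * Ml ≤ C₃ * (2 * e4 + q4) * (A ^ 2 * U * F2) := by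
    have h1 : Ec * Ml ≤ Ec * (C₃ * A * ((Bd * Ecp * H + Bd * Ecp * H) * e4 + bb) * H * F2) :=
      mul_le_mul_of_nonneg_left hMl hEc
    have h2 : Ec * (C₃ * A * ((Bd * Ecp * H + Bd * Ecp * H) * e4 + bb) * H * F2) =
        (Ec * Ecp) * (2 * C₃ * e4 * (A * (H ^ 2 * Bd) * F2)) +
          Ec * (C₃ * (A * (H * bb) * F2)) := by ring
    have hA2 : A ≤ A ^ 2 := by nlinarith
    have h3 : A * (H ^ 2 * Bd) * F2 ≤ A ^ 2 * U * F2 := by gcongr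
    have h4 : A * (H * bb) * F2 ≤ A ^ 2 * (q4 * U) * F2 := by
      have : H * bb ≤ q4 * U := by
        calc H * bb ≤ H ^ 2 * (q4 * W) := by gcongr
          _ = q4 * (H ^ 2 * W) := by ring
          _ ≤ _ := mul_le_mul_of_nonneg_left hUW hq4
      gcongr
    have h5 : Ec * (C₃ * (A * (H * bb) * F2)) ≤ 1 * (C₃ * (A ^ 2 * (q4 * U) * F2)) := by gcongr
    have h6 : 2 * C₃ * e4 * (A * (H ^ 2 * Bd) * F2) ≤ 2 * C₃ * e4 * (A ^ 2 * U * F2) := by gcongr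
    rw [h2, hEcp, one_mul] at h1
    linarith
  have k3 : Ec * (Ma + Ml) ≤ CT * (A ^ 2 * U * F2) := by
    rw [hCT, mul_add, add_mul]
    exact add_le_add k1 k2
  have k4 : Rn ≤ CR * (1 + CT) * (A ^ 3 * U * F2) := by
    have h1 : CR * A * H ^ 2 * (W + Bd) * F2 = CR * (A * U * F2) := by rw [hU]; ring
    have h2 : CR * A * Ec * (Ma + Ml) ≤ CR * A * (CT * (A ^ 2 * U * F2)) := by
      rw [mul_assoc (CR * A)]
      exact mul_le_mul_of_nonneg_left k3 (by positivity)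
    have h3 : A * U * F2 ≤ A ^ 3 * U * F2 := by
      have := hpA 1 3 (by norm_num)
      rw [pow_one] at this
      gcongr
    calc Rn ≤ CR * (A * U * F2) + CR * A * (CT * (A ^ 2 * U * F2)) := by rw [← h1]; linarith
      _ ≤ CR * (A ^ 3 * U * F2) + CR * A * (CT * (A ^ 2 * U * F2)) := by gcongr
      _ = _ := by ring
  have k5 : CR * A * H ^ 2 * Bd * F2 ≤ CR * (A ^ 3 * U * F2) := by
    have h3 : A * (H ^ 2 * Bd) * F2 ≤ A ^ 3 * U * F2 := by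
      have := hpA 1 3 (by norm_num)
      rw [pow_one] at this
      gcongr
    calc CR * A * H ^ 2 * Bd * F2 = CR * (A * (H ^ 2 * Bd) * F2) := by ring
      _ ≤ _ := by gcongr
  have k6 : F2 + Ec * (Ma + Ml) + (Rn + Es) ≤ (1 + CT + CR * (2 + CT)) * (A ^ 3 * U * F2) := by
    have h1 : F2 ≤ A ^ 3 * U * F2 := by
      have h0 : 1 ≤ A ^ 3 * U := one_le_mul_of_one_le_of_one_le (one_le_pow₀ hA) hU1
      exact le_mul_of_one_le_left hF2 h0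
    have h2 : CT * (A ^ 2 * U * F2) ≤ CT * (A ^ 3 * U * F2) := by
      have := hpA 2 3 (by norm_num)
      gcongr
    have h3 : Es ≤ CR * (A ^ 3 * U * F2) := hEs.trans k5
    have e : (1 + CT + CR * (2 + CT)) * (A ^ 3 * U * F2) = A ^ 3 * U * F2 +
      CT * (A ^ 3 * U * F2) + (CR * (1 + CT) * (A ^ 3 * U * F2) + CR * (A ^ 3 * U * F2)) := by ring
    rw [e]
    linarith
  have hUF : 0 ≤ A ^ 3 * U * F2 := by positivity
  have k7 : C₁ * A ^ 2 * (F2 + Ec * (Ma + Ml) + (Rn + Es)) + CR * A * H ^ 2 * Bd * F2 ≤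
      (C₁ * (1 + CT + CR * (2 + CT)) + CR) * (A ^ 5 * U * F2) := by
    have h1 : C₁ * A ^ 2 * (F2 + Ec * (Ma + Ml) + (Rn + Es)) ≤
        C₁ * A ^ 2 * ((1 + CT + CR * (2 + CT)) * (A ^ 3 * U * F2)) :=
      mul_le_mul_of_nonneg_left k6 (by positivity)
    have h2 : CR * (A ^ 3 * U * F2) ≤ CR * (A ^ 5 * U * F2) := by
      have := hpA 3 5 (by norm_num)
      gcongr
    calc _ ≤ C₁ * A ^ 2 * ((1 + CT + CR * (2 + CT)) * (A ^ 3 * U * F2)) +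
          CR * (A ^ 5 * U * F2) := by linarith
      _ = _ := by ring
  have hC0 : 0 ≤ C₁ * (1 + CT + CR * (2 + CT)) + CR := by positivity
  have k8 : Cb * A * Q3 * (C₁ * A ^ 2 * (F2 + Ec * (Ma + Ml) + (Rn + Es)) +
      CR * A * H ^ 2 * Bd * F2) ≤
      Cb * (C₁ * (1 + CT + CR * (2 + CT)) + CR) * (A ^ 6 * U * F) := by
    calc _ ≤ Cb * A * Q3 * ((C₁ * (1 + CT + CR * (2 + CT)) + CR) * (A ^ 5 * U * F2)) :=
          mul_le_mul_of_nonneg_left k7 (by positivity)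
      _ = Cb * (C₁ * (1 + CT + CR * (2 + CT)) + CR) * (A ^ 6 * U * (Q3 * F2)) := by ring
      _ = _ := by rw [hF]
  have hF0 : 0 ≤ F := by rw [← hF]; positivity
  have k9 : C₆ * A * (Bd + W) * H * F ≤ C₆ * (A ^ 6 * U * F) := by
    have h1 : A ≤ A ^ 6 := by
      have := hpA 1 6 (by norm_num)
      rwa [pow_one] at this
    have h2 : (Bd + W) * H ≤ U := by
      rw [hU]
      calc (Bd + W) * H ≤ (Bd + W) * H ^ 2 := by gcongr
        _ = _ := by ring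
    calc C₆ * A * (Bd + W) * H * F = C₆ * (A * ((Bd + W) * H) * F) := by ring
      _ ≤ _ := by gcongr
  have e : (3 * Cb * (C₁ * (1 + CT + CR * (2 + CT)) + CR) + C₆) * A ^ 6 * H ^ 2 *
      (W + Bd) * F = 3 * (Cb * (C₁ * (1 + CT + CR * (2 + CT)) + CR) * (A ^ 6 * U * F)) +
      C₆ * (A ^ 6 * U * F) := by rw [hU]; ring
  rw [e]
  linarith

end Crest.Agent.R017.RX298
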