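import Crest.Agent.R017.RX7b_298

/-!
# Row 17, T.7 L11 (exceptional class), the terminal bound, part c (helper298)

* `bx_core` : the terminal bound from the premise (TB), the lower bound and the R-side numbers
-/

set_option autoImplicit false

noncomputable section

open Complex
open scoped ComplexConjugate

namespace Crest.Agent.R017.RX298

open Crest.Agent.R012 Crest.Agent.R012.Eis Crest.Agent.R012.LS2 Crest.Agent.R012.Gauss880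
open Crest.Agent.R012.Weight600 (osc pw)
open Crest.Agent.R017.CM106 Crest.Agent.R017.HP842 Crest.Agent.R017.FE47
open Crest.Agent.R017.End699 hiding pw
open Crest.Agent.R017.B770
open Crest.Agent.R017.Prov71
open Crest.Agent.R017.Rough381 (VF VF_nonneg)
open Crest.Agent.R017.Leg381
open Crest.Agent.R017.E1551 (sg tws yv JB cP Dg XJw)
open Crest.Agent.R017.RG64
open Crest.Agent.R017.LegK545 (VK SFK JBK VK_nonneg)
open Crest.Agent.R017.RGK545 (ClXK ClK ClNK)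
open Crest.Agent.R017.PX764 (Dk)
open Crest.Agent.R017.Dk848 (ker_Dk)
open Crest.Agent.R017.RX241 (Md Nb)
open Crest.Agent.R017.Sup271 (NPm)
open Crest.Agent.R017.LBQ791 (LBnQ SQnQ bess_absorbQ)
open Crest.Agent.R017.LBo813 (rho rho_one rho_anti rho_zero norm_list_le)
open Crest.Agent.R017.XS0298 (S0K)
open Crest.Agent.R017.XP699 (LL Chd hcost cst)
open Crest.Agent.R017.RGB545 (rbx)
open Crest.Agent.R017.RXk848 (NumS NumL)

/-- the premise (TB) for the children of a base list -/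
def TBp (P : DPar) (h : ℝ → ℝ) (κ cc k n e r b M Bd : ℝ) (base : List Pq) : Prop :=
  ∀ (l : ℝ) (ps' : List Pq), 0 ≤ l → l ≤ k + (n - LL Dq ps') + e →
    List.Forall₂ (Chd Dq hcost r b) ps' base →
    S0K Dk P h l ps' ≤ Bd * cst hcost ps' base ^ M *
      Real.exp (exJ κ k n cc l (LL Dq ps') + cc / 2)

/-- the parameters of the lower bound -/
def bxp (Cw : ℝ) (Aw : ℕ) (K c R : ℝ) (Jn : ℕ) (X k : ℝ) (ps : List Pq) : LBp :=
  ⟨Cw, 1 / 2, Aw, X ^ K, Real.exp (LF (natl ps)), X ^ (8 * (K + 1)), R, Jn, N0f k, N1f k, X ^ c,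
    X ^ c, X ^ c⟩

/-- the difference -/
def bxa (P : DPar) (h : ℝ → ℝ) (d₀ X : ℝ) (ps : List Pq) : Eis → ℂ :=
  xs 1 1 1 P h (d₀ * Real.log X) (natl ps)

set_option maxHeartbeats 6400000 in
/-- **the terminal bound from the premises**, class E -/
theorem bx_core {h : ℝ → ℝ} {c₂ : ℝ} (hpu : PU h c₂) {w : ℝ → ℝ} (hw0 : ∀ x, 0 ≤ w x)
    (hcP : 0 < cP w) {Qf : LBp → ℕ × ℕ → Eis → Prop} {Rh RR : ℝ → LBp → (Eis → ℂ) → ℝ → Prop}
    {hA : ℝ} (hLB : ∀ Λ : ℝ, 1 ≤ Λ → LBNX w Λ Qf (Rh Λ))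
    (hRR : ∀ Λ : ℝ, 1 ≤ Λ → ∀ (p : LBp) (α : Eis → ℂ) (Es Rn Rn' : ℝ), 0 < p.K → 0 < p.X →
      1 ≤ p.E0 → 0 ≤ Es → S2X w Qf hA p α Es → 0 ≤ Rn → RR Λ p α Rn → Rn + Es ≤ Rn' →
      Rh Λ p α Rn')
    {K c d₀ B₁ : ℝ} (hc : 0 < c) (hcK : 100 * c ≤ K) (hd₀ : 0 ≤ d₀) (hB₁ : 1 ≤ B₁) (N : ℕ)
    {ε M J₀ : ℝ} (hε : 0 < ε) (hM : 0 ≤ M) (hJ₀ : 0 ≤ J₀) :
    ∃ (J : ℝ) (Jn Aw : ℕ) (Cw R : ℝ), 6 ≤ J ∧ 2 * M ≤ J ∧ J₀ ≤ J ∧ J₀ ≤ Jn ∧ Jn + 2 ≤ Aw ∧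
    0 ≤ Cw ∧ 0 ≤ R ∧ ∀ CR Λ : ℝ, 0 ≤ CR → 1 ≤ Λ → ∃ C r X₁ : ℝ, 0 ≤ C ∧ 0 ≤ r ∧
    ∀ X : ℝ, 3 ≤ X → X₁ ≤ X → ∀ P : DPar, P.OK → ¬ NPm P.n P.ψ P.l₂ 1 →
    (nm P.n : ℝ) ≤ X ^ B₁ → ∀ (k : ℝ) (ps : List Pq), 0 ≤ k → ps.length ≤ N →
    (∀ q ∈ ps, 0 ≤ q.z) → MkB (X ^ B₁) ps → Lg2 (d₀ * Real.log X) (natl ps) →
    3 * k + 299 * (c * Real.log X) ≤ 2 * (K * Real.log X) → LL Dq ps ≤ K * Real.log X →
    ∀ Bd W : ℝ, 1 ≤ Bd → 1 ≤ W →
    Real.exp (c * Real.log X + (k + LL Dq ps - K * Real.log X) / 3 - d₀ * Real.log X) ≤ W →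
    (∀ t : Bool, TBp P h (K * Real.log X) (c * Real.log X) k (LL Dq ps) (ε * Real.log X) r
      (C * X ^ (K + 1)) M Bd (rbx d₀ t X ps)) →
    S0K Dk P h k (rbx d₀ true X ps) ≤ Bd * Ht (natl ps) ^ J *
      Real.exp (ex0 (K * Real.log X) k (LL Dq ps)) →
    SQnQ w (Qf (bxp Cw Aw K c R Jn X k ps)) Cw (1 / 2) Aw (X ^ K) (Real.exp (LF (natl ps))) R Jn
      (bxa P h d₀ X ps) (CR * X ^ (ε / 32) * (Ht (natl ps) ^ J) ^ 2 * Bd *
        Real.exp (2 * LL Dq ps)) →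
    S2X w Qf hA (bxp Cw Aw K c R Jn X k ps) (bxa P h d₀ X ps)
      (CR * X ^ (ε / 32) * (Ht (natl ps) ^ J) ^ 2 * Bd * Real.exp (2 * LL Dq ps)) →
    (∀ Ma Ml : ℝ, 0 ≤ Ma → 0 ≤ Ml → NumS (bxp Cw Aw K c R Jn X k ps) (bxa P h d₀ X ps) Ma →
      NumL (bxp Cw Aw K c R Jn X k ps) (bxa P h d₀ X ps) Ml → ∃ Rn : ℝ, 0 ≤ Rn ∧
      Rn ≤ CR * X ^ (ε / 32) * (Ht (natl ps) ^ J) ^ 2 * (W + Bd) * Real.exp (2 * LL Dq ps) +
        CR * X ^ (ε / 32) * X ^ (-(c / 2)) * (Ma + Ml) ∧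
      RR Λ (bxp Cw Aw K c R Jn X k ps) (bxa P h d₀ X ps) Rn) →
    S0K Dk P h k ps ≤ C * X ^ ε * (Ht (natl ps) ^ J) ^ 2 * (W + Bd) *
      Real.exp (ex0 (K * Real.log X) k (LL Dq ps)) := by
  have hK : 0 < K := by linarith
  obtain ⟨R, Ca, hR, hCa, hAL⟩ := exists_XDp hpu N
  have hN0 : (0 : ℝ) ≤ N := Nat.cast_nonneg N
  obtain ⟨b, hb⟩ : ∃ b : ℝ, b = 8 * (K + 1) := ⟨_, rfl⟩
  have hb8 : 8 ≤ b := by rw [hb]; linarith
  have hb0 : 0 < b := by linarith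
  obtain ⟨J, hJd⟩ : ∃ x : ℝ, x = max 6 (max (2 * M) J₀) := ⟨_, rfl⟩
  have hJ6 : 6 ≤ J := by rw [hJd]; exact le_max_left _ _
  have hJM : 2 * M ≤ J := by rw [hJd]; exact (le_max_left _ _).trans (le_max_right _ _)
  have hJJ₀ : J₀ ≤ J := by rw [hJd]; exact (le_max_right _ _).trans (le_max_right _ _)
  obtain ⟨Jn, hJn⟩ : ∃ m : ℕ, N * J + J + 12 ≤ m := exists_nat_ge _
  have hNJ : 0 ≤ N * J := mul_nonneg hN0 (by linarith)
  have hJn1 : (N : ℝ) * J ≤ Jn := by linarith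
  have hJn12 : 12 ≤ Jn := by
    have : (12 : ℝ) ≤ Jn := by linarith
    exact_mod_cast this
  obtain ⟨ε₂, hε₂d⟩ : ∃ x : ℝ, x = ε / (64 * b) := ⟨_, rfl⟩
  have hε₂ : 0 < ε₂ := by rw [hε₂d]; positivity
  have hε₂b : ε₂ * b = ε / 64 := by rw [hε₂d]; field_simp
  obtain ⟨Cw, Cb, hCw, hCb, hbess⟩ := bess_absorbQ hw0 hcP Jn (Jn + 2) R ε₂ le_rfl hR hε₂
  refine ⟨J, Jn, Jn + 2, Cw, R, hJ6, hJM, hJJ₀, by linarith, le_rfl, hCw, hR, ?_⟩
  intro CR Λ hCR hΛ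
  obtain ⟨lΛ, hlΛ⟩ : ∃ x : ℝ, x = Real.log Λ := ⟨_, rfl⟩
  have hlΛ0 : 0 ≤ lΛ := by rw [hlΛ]; exact Real.log_nonneg hΛ
  have heΛ : Real.exp lΛ = Λ := by rw [hlΛ, Real.exp_log (by linarith)]
  obtain ⟨C₁, hC₁, hLB1⟩ := hLB Λ hΛ Cw R ε₂ (c / b) (Jn + 2) Jn hCw hR hε₂ (by positivity) le_rfl
  obtain ⟨C₂, r₂, hC₂, hr₂, hsa⟩ := x_sa0 hpu N hB₁ hε₂ hJ6 hJn1 hJn12
  obtain ⟨C₃, r₃, hC₃, hr₃, hlp⟩ := x_lp hpu N hB₁ hε₂ hJ6 hJn1 hJn12
  obtain ⟨C₄, hC₄, hnl⟩ := norm_list_le hpu N (half_pos hε₂)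
  obtain ⟨C₅, r₅, hC₅, hr₅, hop⟩ :=
    RGK545.open_num ker_Dk hpu N hε₂ (J := J) (by linarith)
  obtain ⟨C₆, hC₆, hback⟩ := x_back00 hpu N hB₁ hε₂ hJ6
  obtain ⟨ρ, hρ⟩ : ∃ x : ℝ, x = r₂ + N * r₅ := ⟨_, rfl⟩
  have hNr : 0 ≤ N * r₅ := mul_nonneg hN0 hr₅
  have hρ0 : 0 ≤ ρ := by rw [hρ]; linarith
  obtain ⟨T₀, hT₀⟩ : ∃ x : ℝ, x = 8 + R + 4 * r₂ + 2 * r₃ + 2 * r₅ + 2 * (N * r₅) + 2 * lΛ :=
    ⟨_, rfl⟩
  have hT₀0 : 8 ≤ T₀ := by rw [hT₀]; linarith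
  obtain ⟨η', hη'⟩ : ∃ x : ℝ, x = (1 / 2 : ℝ)⁻¹ := ⟨_, rfl⟩
  have hη'0 : 0 ≤ η' := by rw [hη']; norm_num
  obtain ⟨Cf, hCf⟩ : ∃ x : ℝ, x = (3 * (Cb * η' ^ 2) * ((C₁ * η' ^ (2 * Jn + 2)) *
    (1 + (C₂ * (2 * C₅ * Real.exp (ρ + (4 + lΛ + r₂ + r₅)) + 4 * Λ) +
      C₃ * (2 * Real.exp (4 + lΛ) + 4 * Λ)) +
      CR * (2 + (C₂ * (2 * C₅ * Real.exp (ρ + (4 + lΛ + r₂ + r₅)) + 4 * Λ) +
        C₃ * (2 * Real.exp (4 + lΛ) + 4 * Λ)))) + CR) + C₆) := ⟨_, rfl⟩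
  have hCf0 : 0 ≤ Cf := by
    rw [hCf]
    have h1 := Real.exp_pos (ρ + (4 + lΛ + r₂ + r₅))
    have h2 := Real.exp_pos (4 + lΛ)
    positivity
  refine ⟨Cf + Real.exp (r₂ + N * r₅ + r₃), r₂ + r₅ + r₃,
    max Ca (max ((2 * C₄) ^ (2 / ε₂)) (Real.exp (T₀ + T₀ / c + T₀ / ε))),
    add_nonneg hCf0 (Real.exp_pos _).le, by linarith, ?_⟩
  intro X hX3 hXX P hP hnp hPn k ps hk hlen hz hmk hlg hk3 hnK Bd W hBd hW hWe hTB hown hSQ hS2 hRn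
  have hX1 : (1 : ℝ) ≤ X := by linarith
  have hX0 : 0 < X := by linarith
  obtain ⟨l, hl⟩ : ∃ x : ℝ, x = Real.log X := ⟨_, rfl⟩
  have hpowX : ∀ x : ℝ, X ^ x = Real.exp (x * l) := fun x => by
    rw [Real.rpow_def_of_pos hX0, hl, mul_comm]
  have hlT : T₀ + T₀ / c + T₀ / ε ≤ l := by
    rw [hl, Real.le_log_iff_exp_le hX0]
    exact ((le_max_right _ _).trans (le_max_right _ _)).trans hXX
  have hTc : 0 ≤ T₀ / c := by positivity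
  have hTe : 0 ≤ T₀ / ε := by positivity
  have hlT0 : T₀ ≤ l := by linarith
  have hl0 : 0 < l := by linarith
  have hccT : T₀ ≤ c * l := by
    have : T₀ / c ≤ l := by linarith
    rw [div_le_iff₀ hc] at this
    linarith
  have hεT : T₀ ≤ ε * l := by
    have : T₀ / ε ≤ l := by linarith
    rw [div_le_iff₀ hε] at this
    linarith
  obtain ⟨Y, hY⟩ : ∃ x : ℝ, x = X ^ (8 * (K + 1)) := ⟨_, rfl⟩
  have hYb : Y = X ^ b := by rw [hY, hb]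
  have hYe : Y = Real.exp (b * l) := by rw [hYb, hpowX]
  have hY0 : 0 < Y := by rw [hYe]; exact Real.exp_pos _
  have hYl : Real.log Y = b * l := by rw [hYe, Real.log_exp]
  have hXY : X ≤ Y := by
    rw [hYb]
    conv_lhs => rw [← Real.rpow_one X]
    exact Real.rpow_le_rpow_of_exponent_le hX1 (by linarith)
  have hY3 : 3 ≤ Y := hX3.trans hXY
  have hY1 : 1 ≤ Y := by linarith
  have hYε : ∀ x : ℝ, Y ^ x = X ^ (b * x) := fun x => by rw [hYb, ← Real.rpow_mul hX0.le]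
  obtain ⟨κ, hκ⟩ : ∃ x : ℝ, x = K * l := ⟨_, rfl⟩
  obtain ⟨cc, hcc⟩ : ∃ x : ℝ, x = c * l := ⟨_, rfl⟩
  obtain ⟨n, hn⟩ : ∃ x : ℝ, x = LL Dq ps := ⟨_, rfl⟩
  obtain ⟨d, hd⟩ : ∃ x : ℝ, x = d₀ * l := ⟨_, rfl⟩
  have hd0 : 0 ≤ d := by rw [hd]; positivity
  have hXK : X ^ K = Real.exp κ := by rw [hpowX, hκ]
  have hXc : X ^ c = Real.exp cc := by rw [hpowX, hcc]
  have hXc2 : X ^ (-(c / 2)) = Real.exp (-(cc / 2)) := by
    rw [hpowX, hcc]; congr 1; ring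
  have hLF : LF (natl ps) = n := by rw [hn, RXg848.LF_natl]
  have hbp : bxp Cw (Jn + 2) K c R Jn X k ps = ⟨Cw, 1 / 2, Jn + 2, Real.exp κ, Real.exp n, Y, R, Jn,
      N0f k, N1f k, Real.exp cc, Real.exp cc, Real.exp cc⟩ := by
    unfold bxp
    rw [hXK, hXc, hLF, ← hY]
  have hba : bxa P h d₀ X ps = xs 1 1 1 P h d (natl ps) := by
    unfold bxa
    rw [hd, hl]
  rw [hbp, hba] at hSQ hS2
  simp only [hbp, hba] at hRn
  rw [← hl, ← hκ, ← hcc, ← hn] at hTB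
  rw [← hl, ← hκ, ← hn] at hown
  rw [← hl, ← hcc, ← hκ, ← hd, ← hn] at hWe
  rw [← hl, ← hcc, ← hκ] at hk3
  rw [← hl, ← hκ, ← hn] at hnK
  rw [← hl, ← hd] at hlg
  rw [← hl, ← hκ, ← hn]
  rw [hXK, hLF, ← hn] at hSQ
  rw [← hn] at hS2
  simp only [← hn, hXc2] at hRn
  have hcc0 : 0 ≤ cc := by rw [hcc]; positivity
  have hccT' : T₀ ≤ cc := by rw [hcc]; exact hccT
  have hκb : κ + 8 * l ≤ b * l := by
    rw [hκ, hb]
    have : 0 ≤ K * l := by positivity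
    linarith
  have hκcc : 100 * cc ≤ κ := by
    rw [hκ, hcc, ← mul_assoc]; exact mul_le_mul_of_nonneg_right hcK hl0.le
  have hκ0 : 0 ≤ κ := by linarith
  have hnn : 0 ≤ n := by
    rw [← hLF]
    exact LF_nonneg (SbL_natl hz).z_nonneg
  -- the data
  obtain ⟨D, hD⟩ : ∃ D : Dat, D = ⟨P, h, 1, 1, ps, J, κ, k, n⟩ := ⟨_, rfl⟩
  have hDP : D.P = P := by rw [hD]
  have hDh : D.h = h := by rw [hD]
  have hDz : D.z = 1 := by rw [hD]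
  have hDD : D.D0 = 1 := by rw [hD]
  have hDp : D.ps₀ = ps := by rw [hD]
  have hDJ : D.J = J := by rw [hD]
  have hDκ : D.κ = κ := by rw [hD]
  have hDv : D.v = k := by rw [hD]
  have hDn : D.n = n := by rw [hD]
  have hlD : Real.log D.D0 = 0 := by rw [hDD, Real.log_one]
  have hXBY : X ^ B₁ ≤ Y ^ B₁ := Real.rpow_le_rpow hX0.le hXY (by linarith)
  have hDX : DX h N J B₁ Y D := ⟨hDP ▸ hP, hDh, hDD.ge, hDJ, hDp ▸ hlen, hDP ▸ hnp,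
    hDP ▸ hPn.trans hXBY, hDp ▸ hmk.mono hXBY⟩
  have hsb : SbL 0 (natl ps) D.ps₀ := by rw [hDp]; exact SbL_natl hz
  have hKl : 0 ≤ K * l := by positivity
  have hnY : n ≤ Real.log Y := by rw [hYl]; linarith
  have hQX : QX B₁ Y 0 (Real.exp n) d D 1 (natl ps) := ⟨isPrim_one, by
      rw [nm_one, Nat.cast_one]; exact Real.one_le_rpow hY1 (by linarith), by
      rw [nm_one, Nat.cast_one, one_mul, hLF], hsb, hlg, by rw [hLF]; exact hnY, hd0, le_rfl⟩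
  -- the claims
  have hrb1 : rbx d₀ false X ps = D.ps₀ := by rw [rbx_false, hDp]
  have hrb2 : rbx d₀ true X ps = (Dr d D).ps₀ := by
    rw [rbx_true, ← hl, ← hd]
    show _ = rpB d D.ps₀
    rw [hDp]
  have hmax : ∀ {x : ℝ}, x ≤ r₂ + N * r₅ + r₃ → Real.exp n * Real.exp x ≤
      (Cf + Real.exp (r₂ + N * r₅ + r₃)) * X ^ (K + 1) := by
    intro x hx
    have h1 : Real.exp n ≤ X ^ (K + 1) := by
      rw [hpowX]; exact Real.exp_le_exp.2 (by linarith)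
    have h2 : Real.exp x ≤ Cf + Real.exp (r₂ + N * r₅ + r₃) := by
      have := Real.exp_le_exp.2 hx
      linarith
    calc Real.exp n * Real.exp x ≤ X ^ (K + 1) * (Cf + Real.exp (r₂ + N * r₅ + r₃)) := by gcongr
      _ = _ := mul_comm _ _
  have hTBJ : ∀ t : Bool, ∀ (l' : ℝ) (ps' : List Pq), 0 ≤ l' → l' ≤ k + (n - LL Dq ps') + ε * l →
      List.Forall₂ (Chd Dq hcost (r₂ + r₅ + r₃) ((Cf + Real.exp (r₂ + N * r₅ + r₃)) *
        X ^ (K + 1))) ps' (rbx d₀ t X ps) →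
      S0K Dk P h l' ps' ≤ Bd * cst hcost ps' (rbx d₀ t X ps) ^ J *
        Real.exp (exJ κ k n cc l' (LL Dq ps') + cc / 2) := by
    intro t l' ps' a1 a2 a3
    refine (hTB t l' ps' a1 a2 a3).trans ?_
    have h2 : 1 ≤ cst hcost ps' (rbx d₀ t X ps) := XP699.one_le_cst XP699.one_le_hcost _ _
    have h3 : cst hcost ps' (rbx d₀ t X ps) ^ M ≤ cst hcost ps' (rbx d₀ t X ps) ^ J :=
      Real.rpow_le_rpow_of_exponent_le h2 (by linarith)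
    gcongr
  have hJ0 : 0 ≤ J := by linarith
  have hBd0 : 0 ≤ Bd := by linarith
  obtain ⟨H, hH⟩ : ∃ x : ℝ, x = Ht (natl ps) ^ J := ⟨_, rfl⟩
  have hH1 : 1 ≤ H := by rw [hH]; exact Real.one_le_rpow (one_le_Ht _) hJ0
  have hHr : Ht (natl (Dr d D).ps₀) ^ J = H := by
    have : (Dr d D).ps₀ = rpB d ps := by
      show rpB d D.ps₀ = _
      rw [hDp]
    rw [this, Ht_rpB, hH]
  have hclJ : ClNK Dk D (exJ D.κ D.v D.n cc) (Bd * Real.exp (cc / 2) * H) (0 + r₃) (4 + lΛ + r₃)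
      (Real.exp n * Real.exp r₃) 0 (D.n - cc + r₃) := by
    have := bx_clJ (D := D) (cc := cc) (B₁ := Bd) (s := 0 + r₃) (a := 4 + lΛ + r₃)
      (Q := Real.exp n * Real.exp r₃) (lo := 0) (σ := D.n - cc + r₃)
      (r := r₂ + r₅ + r₃) (b := (Cf + Real.exp (r₂ + N * r₅ + r₃)) * X ^ (K + 1)) (M := J)
      (by linarith) (hmax (by linarith)) hJ0 hDJ hBd0 (by
        intro l' ps' a1 a2 a3
        rw [← hrb1] at a3
        rw [hDP, hDh, ← hrb1, hDκ, hDv, hDn]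
        rw [hDv, hDn] at a2
        exact hTBJ false l' ps' a1 (by linarith) a3)
    rwa [hDp, ← hH] at this
  have hclJr : ClNK Dk (Dr d D) (exJ D.κ D.v D.n cc) (Bd * Real.exp (cc / 2) * H) (2 * 0 + r₃)
      (4 + lΛ + r₃) (Real.exp n * Real.exp r₃) 0 (D.n - cc + r₃) := by
    have := bx_clJ (D := Dr d D) (cc := cc) (B₁ := Bd) (s := 2 * 0 + r₃) (a := 4 + lΛ + r₃)
      (Q := Real.exp n * Real.exp r₃) (lo := 0) (σ := D.n - cc + r₃)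
      (r := r₂ + r₅ + r₃) (b := (Cf + Real.exp (r₂ + N * r₅ + r₃)) * X ^ (K + 1)) (M := J)
      (by linarith) (hmax (by linarith)) hJ0 hDJ hBd0 (by
        intro l' ps' a1 a2 a3
        rw [← hrb2] at a3
        show S0K Dk D.P D.h l' ps' ≤ Bd * cst hcost ps' (Dr d D).ps₀ ^ J *
          Real.exp (exJ D.κ D.v D.n cc l' (LL Dq ps') + cc / 2)
        have a2' : l' ≤ D.v + (D.n - LL Dq ps') + (4 + lΛ + r₃) := a2
        rw [hDP, hDh, ← hrb2, hDκ, hDv, hDn]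
        rw [hDv, hDn] at a2'
        exact hTBJ true l' ps' a1 (by linarith) a3)
    rwa [hHr] at this
  obtain ⟨B0, hB0⟩ : ∃ x : ℝ, x = Bd * Real.exp (cc / 2 + (ρ + (4 + lΛ + r₂ + r₅))) * H := ⟨_, rfl⟩
  have hH0 : 0 ≤ H := by linarith
  have hB00 : 0 ≤ B0 := by rw [hB0]; positivity
  have hcl0 : ClNK Dk D (ex0 D.κ) B0 (0 + r₂ + r₅) (4 + lΛ + r₂ + r₅)
      (Real.exp n * Real.exp r₂ * Real.exp (N * r₅)) (n - cc - ρ) (n + ρ) := by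
    have := bx_cl0 (D := D) (cc := cc) (ρ := ρ) (B₁ := Bd) (s := 0 + r₂ + r₅) (a := 4 + lΛ + r₂ + r₅)
      (Q := Real.exp n * Real.exp r₂ * Real.exp (N * r₅)) (lo := n - cc - ρ) (σ := n + ρ)
      (r := r₂ + r₅ + r₃) (b := (Cf + Real.exp (r₂ + N * r₅ + r₃)) * X ^ (K + 1)) (M := J)
      (by linarith) (by
        rw [mul_assoc, ← Real.exp_add]; exact hmax (by linarith)) hJ0 hDJ hBd0 hρ0 (by linarith)
      (by rw [hDn]) (by
        intro l' ps' a1 a2 a3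
        rw [← hrb1] at a3
        rw [hDP, hDh, ← hrb1, hDκ, hDv, hDn]
        rw [hDv, hDn] at a2
        exact hTBJ false l' ps' a1 (by linarith) a3)
    rwa [hDp, ← hH, ← hB0] at this
  have hcl0r : ClNK Dk (Dr d D) (ex0 D.κ) B0 (2 * 0 + r₂ + r₅) (4 + lΛ + r₂ + r₅)
      (Real.exp n * Real.exp r₂ * Real.exp (N * r₅)) (n - cc - ρ) (n + ρ) := by
    have := bx_cl0 (D := Dr d D) (cc := cc) (ρ := ρ) (B₁ := Bd) (s := 2 * 0 + r₂ + r₅)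
      (a := 4 + lΛ + r₂ + r₅)
      (Q := Real.exp n * Real.exp r₂ * Real.exp (N * r₅)) (lo := n - cc - ρ) (σ := n + ρ)
      (r := r₂ + r₅ + r₃) (b := (Cf + Real.exp (r₂ + N * r₅ + r₃)) * X ^ (K + 1)) (M := J)
      (by linarith) (by
        rw [mul_assoc, ← Real.exp_add]; exact hmax (by linarith)) hJ0 hDJ hBd0 hρ0 (by linarith)
      (by
        show D.n - cc - ρ ≤ _
        rw [hDn]) (by
        intro l' ps' a1 a2 a3
        rw [← hrb2] at a3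
        show S0K Dk D.P D.h l' ps' ≤ Bd * cst hcost ps' (Dr d D).ps₀ ^ J *
          Real.exp (exJ D.κ D.v D.n cc l' (LL Dq ps') + cc / 2)
        have a2' : l' ≤ D.v + (D.n - LL Dq ps') + (4 + lΛ + r₂ + r₅) := a2
        rw [hDP, hDh, ← hrb2, hDκ, hDv, hDn]
        rw [hDv, hDn] at a2'
        exact hTBJ true l' ps' a1 (by linarith) a3)
    rw [hHr, ← hB0] at this
    exact this
  have hlogY : ∀ x y : ℝ, x ≤ n + r₂ → n - cc - r₂ ≤ x →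
      x ≤ Real.log Y ∧ k + (n - x) + (4 + lΛ + r₂) ≤ Real.log Y := by
    intro x y h1 h2
    rw [hYl]
    constructor <;> linarith
  have hclX : ClXK Dk (ex0 D.κ) D (Ge (n - cc - r₂)) (C₅ * Y ^ ε₂ * B0) (0 + r₂) (4 + lΛ + r₂)
      (Real.exp n * Real.exp r₂) (n + r₂) :=
    hop Y hY3 D hDX.ok hDh hDX.D0 hDJ hDX.len B0 (0 + r₂) (4 + lΛ + r₂) (Real.exp n * Real.exp r₂)
      (Real.exp (N * r₅)) (n - cc - r₂) (n - cc - ρ) (n + r₂) (n + ρ) hB00 le_rfl (by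
        intro ps' _ h1 h2
        rw [hDv, hDn]
        exact hlogY _ 0 h1 h2) (by linarith) (by rw [hlD]; linarith) hcl0
  have hclXr : ClXK Dk (ex0 D.κ) (Dr d D) (Ge (n - cc - r₂)) (C₅ * Y ^ ε₂ * B0) (2 * 0 + r₂)
      (4 + lΛ + r₂) (Real.exp n * Real.exp r₂) (n + r₂) :=
    hop Y hY3 (Dr d D) hDX.ok hDh hDX.D0 hDJ (by
        show (rpB d D.ps₀).length ≤ N
        rw [rpB_length]; exact hDX.len) B0 (2 * 0 + r₂) (4 + lΛ + r₂) (Real.exp n * Real.exp r₂)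
      (Real.exp (N * r₅)) (n - cc - r₂) (n - cc - ρ) (n + r₂) (n + ρ) hB00 le_rfl (by
        intro ps' _ h1 h2
        show LF ps' ≤ Real.log Y ∧ D.v + (D.n - LF ps') + (4 + lΛ + r₂) ≤ Real.log Y
        rw [hDv, hDn]
        exact hlogY _ 0 h1 h2) (by linarith) (by
        show _ ≤ _ - N * (Real.log D.D0 + r₅)
        rw [hlD]; linarith) hcl0r
  -- the cutoffs
  have hN01 := N0f_le_N1f k
  have hN0' := one_le_N0f k
  have hN1e := N1f_le hk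
  have hN1p : (1 : ℝ) ≤ N1f k := by exact_mod_cast hN0'.trans hN01
  have hZ0 : 0 < 9 * (Λ * (N1f k : ℝ)) := by positivity
  have hZe : 9 * (Λ * (N1f k : ℝ)) ≤ Real.exp (k + (4 + lΛ)) := by
    have e1 : Real.exp (k + (4 + lΛ)) = Λ * Real.exp (k + 4) := by
      rw [← add_assoc, Real.exp_add, heΛ, mul_comm]
    rw [e1]
    calc 9 * (Λ * (N1f k : ℝ)) = Λ * (9 * (N1f k : ℝ)) := by ring
      _ ≤ _ := by gcongr
  have hlZ : Real.log (9 * (Λ * (N1f k : ℝ))) ≤ k + (4 + lΛ) := by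
    rw [← Real.log_exp (k + (4 + lΛ))]
    exact Real.log_le_log hZ0 hZe
  have h4l : 8 ≤ l := by linarith
  have hkb : k + 4 ≤ b * l := by linarith
  have hkbΛ : k + (4 + lΛ) ≤ b * l := by linarith
  have hexpY : ∀ x : ℝ, x ≤ b * l → Real.exp x ≤ Y := fun x hx => by
    rw [hYe]; exact Real.exp_le_exp.2 hx
  -- the numbers
  obtain ⟨bb, hbb⟩ : ∃ x : ℝ, x = cc - d + (n + (k + (4 + lΛ)) - κ) / 3 := ⟨_, rfl⟩
  have hbbW : Real.exp bb ≤ 4 * Λ * W := by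
    have h1 : bb = (cc + (k + n - κ) / 3 - d) + (4 / 3 + lΛ / 3) := by rw [hbb]; ring
    rw [h1, Real.exp_add, mul_comm]
    have h20 : Real.exp (4 / 3 + lΛ / 3) = Real.exp (4 / 3) * Real.exp (lΛ / 3) := Real.exp_add _ _
    have h21 : Real.exp (lΛ / 3) ≤ Λ := by
      conv_rhs => rw [← heΛ]
      exact Real.exp_le_exp.2 (by linarith)
    have h2 : Real.exp (4 / 3) ≤ 4 := by
      have h3 : Real.exp (4 / 3) = Real.exp 1 ^ (4 / 3 : ℝ) := by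
        rw [← Real.exp_mul]; congr 1; ring
      have h4 : Real.exp 1 ≤ 2.72 := by
        have := Real.exp_one_lt_d9; linarith
      have h5 : Real.exp 1 ^ (4 / 3 : ℝ) ≤ (2.72 : ℝ) ^ (4 / 3 : ℝ) :=
        Real.rpow_le_rpow (Real.exp_pos _).le h4 (by norm_num)
      have h6 : (2.72 : ℝ) ^ (4 / 3 : ℝ) ≤ 4 := by
        have h7 : ((2.72 : ℝ) ^ (4 / 3 : ℝ)) = ((2.72 : ℝ) ^ 4) ^ (1 / 3 : ℝ) := by
          rw [← Real.rpow_natCast, ← Real.rpow_mul (by norm_num)]; norm_num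
        have h8 : ((4 : ℝ) ^ 3) ^ (1 / 3 : ℝ) = 4 := by
          rw [← Real.rpow_natCast, ← Real.rpow_mul (by norm_num)]; norm_num
        rw [h7, ← h8]
        exact Real.rpow_le_rpow (by norm_num) (by norm_num) (by norm_num)
      rw [h3]
      exact h5.trans h6
    have h3 := Real.exp_pos (cc + (k + n - κ) / 3 - d)
    have h4 : Real.exp (4 / 3 + lΛ / 3) ≤ 4 * Λ := by
      rw [h20]
      exact mul_le_mul h2 h21 (Real.exp_pos _).le (by norm_num)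
    exact mul_le_mul h4 hWe h3.le (by linarith)
  obtain ⟨Ma, hMa⟩ : ∃ x : ℝ, x = C₂ * Y ^ ε₂ * (C₅ * Y ^ ε₂ * B0 + C₅ * Y ^ ε₂ * B0 +
    Real.exp bb) * Ht (natl ps) ^ J * Real.exp (2 * LF (natl ps)) := ⟨_, rfl⟩
  obtain ⟨Ml, hMl⟩ : ∃ x : ℝ, x = C₃ * Y ^ ε₂ * ((Bd * Real.exp (cc / 2) * H +
    Bd * Real.exp (cc / 2) * H) * Real.exp (N * Real.log D.D0 + (4 + lΛ)) +
    Real.exp bb) *
    Ht (natl ps) ^ J * Real.exp (2 * LF (natl ps)) := ⟨_, rfl⟩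
  have hYε0 : 0 ≤ Y ^ ε₂ := Real.rpow_nonneg hY0.le _
  have hMa0 : 0 ≤ Ma := by
    rw [hMa, ← hH]
    positivity
  have hMl0 : 0 ≤ Ml := by
    rw [hMl, ← hH]
    positivity
  have n1' : ∀ g ∈ S Y, (nm g : ℝ) ≤ Real.exp cc → ∀ V : ℝ, 1 ≤ V →
      V ≤ 9 * (Λ * (N1f k : ℝ)) * nm g → ∀ t : ℝ,
      VF V (tws (sg (xs 1 1 1 P h d (natl ps)) g) t) ≤ Ma / (nm g : ℝ) ^ 2 *
        ((V * Real.exp κ / (Real.exp n / nm g) ^ 2) ^ (1 / 3 : ℝ)) * (1 + |t|) ^ Jn := by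
    have := hsa Y hY3 D hDX (C₅ * Y ^ ε₂ * B0) (C₅ * Y ^ ε₂ * B0) bb 0 (4 + lΛ) (Real.exp n)
      (Real.exp r₂) (n + r₂) (n - cc - r₂) cc d (by positivity) (by positivity) hcc0 le_rfl hclX
      hclXr 1 (natl ps) (9 * (Λ * N1f k)) hQX (by rw [hLF]) (by rw [hLF, hlD]; linarith) (by
        calc 9 * (Λ * (N1f k : ℝ)) * Real.exp cc ≤ Real.exp (k + (4 + lΛ)) * Real.exp cc := by
              gcongr
          _ = Real.exp (k + (4 + lΛ) + cc) := by rw [← Real.exp_add]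
          _ ≤ Y := hexpY _ (by linarith)) hZ0 (by rw [hDv, hDn, hLF]; linarith) (by
        rw [hlD, hDκ, hLF, hbb]; linarith)
    rw [hDz, hDD, hDP, hDh, hDκ, ← hMa, hLF] at this
    exact this
  have n2' : ∀ g ∈ S Y, ∀ B V : ℝ, 1 ≤ B → B ≤ Y → 1 ≤ V →
      V ≤ 9 * (Λ * (N1f k : ℝ)) / (nm g : ℝ) ^ 2 → ∀ t : ℝ,
      JB Y (xs 1 1 1 P h d (natl ps)) (fun U => Real.exp cc < nm (g * U)) g B V t ≤
        Ml / (nm g : ℝ) ^ 2 * yv (Real.exp κ) (Real.exp n) g V * (1 + |t|) ^ Jn := by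
    have := hlp Y hY3 D hDX (Bd * Real.exp (cc / 2) * H) (Bd * Real.exp (cc / 2) * H) bb 0
      (4 + lΛ) (Real.exp n) (Real.exp r₃) cc 0 r₃ cc d (by positivity) (by positivity) le_rfl
      (by linarith) le_rfl hr₃ hclJ hclJr 1 (natl ps) (9 * (Λ * N1f k)) hQX
      (by rw [hLF, hDn]; linarith)
      (by rw [hLF, hDn]) hZ0 (hZe.trans (hexpY _ hkbΛ)) (by rw [hDv, hDn, hLF]; linarith) (by
        rw [hlD, hDκ, hLF, hbb]; linarith)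
    rw [← hMl, hDz, hDD, hDP, hDh, hDκ, hLF] at this
    exact this
  have hN1Λ : 9 * (N1f k : ℝ) ≤ 9 * (Λ * (N1f k : ℝ)) := by
    have : (N1f k : ℝ) ≤ Λ * N1f k := le_mul_of_one_le_left (by positivity) hΛ
    linarith
  have n1 : NumS ⟨Cw, 1 / 2, Jn + 2, Real.exp κ, Real.exp n, Y, R, Jn, N0f k, N1f k, Real.exp cc,
      Real.exp cc, Real.exp cc⟩ (xs 1 1 1 P h d (natl ps)) Ma :=
    fun g hg hgG V hV hVZ t => n1' g hg hgG V hV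
      (hVZ.trans (mul_le_mul_of_nonneg_right hN1Λ (Nat.cast_nonneg _))) t
  have n2 : NumL ⟨Cw, 1 / 2, Jn + 2, Real.exp κ, Real.exp n, Y, R, Jn, N0f k, N1f k, Real.exp cc,
      Real.exp cc, Real.exp cc⟩ (xs 1 1 1 P h d (natl ps)) Ml :=
    fun g hg B V hB hBY hV hVZ t => n2' g hg B V hB hBY hV
      (hVZ.trans (div_le_div_of_nonneg_right hN1Λ (by positivity))) t
  obtain ⟨Rn, hRn0, hRn1, hRR1⟩ := hRn Ma Ml hMa0 hMl0 n1 n2
  obtain ⟨A, hAd⟩ : ∃ x : ℝ, x = X ^ (ε / 32) := ⟨_, rfl⟩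
  have hA1 : 1 ≤ A := by rw [hAd]; exact Real.one_le_rpow hX1 (by positivity)
  have hA0 : 0 ≤ A := by linarith
  have hYA : Y ^ ε₂ ≤ A := by
    rw [hYε, hAd]
    refine Real.rpow_le_rpow_of_exponent_le hX1 ?_
    rw [mul_comm, hε₂b]
    linarith
  have hYA4 : Y ^ (4 * ε₂) = A ^ 2 := by
    rw [hYε, hAd, ← Real.rpow_natCast, ← Real.rpow_mul hX0.le]
    congr 1
    have : b * (4 * ε₂) = 4 * (ε₂ * b) := by ring
    rw [this, hε₂b]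
    push_cast
    ring
  rw [← hAd, ← hH] at hRn1 hSQ hS2
  obtain ⟨F2, hF2⟩ : ∃ x : ℝ, x = Real.exp (2 * n) := ⟨_, rfl⟩
  have hF20 : 0 < F2 := by rw [hF2]; exact Real.exp_pos _
  rw [← hF2] at hRn1 hSQ hS2
  obtain ⟨Es, hEs⟩ : ∃ x : ℝ, x = CR * A * H ^ 2 * Bd * F2 := ⟨_, rfl⟩
  have hEs0 : 0 ≤ Es := by rw [hEs]; positivity
  rw [← hEs] at hSQ hS2
  have hRh := hRR Λ hΛ _ _ Es Rn (Rn + Es) (Real.exp_pos _) (Real.exp_pos _)
    (Real.one_le_exp hcc0) hEs0 hS2 hRn0 hRR1 le_rfl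
  -- the lower bound
  have hlenr : (rp d (natl ps)).length ≤ N := by
    rw [rp_length]; exact hsb.length ▸ hDX.len
  obtain ⟨a1, a2, -, -⟩ := hAL 1 1 P hP 1 (natl ps) (rp d (natl ps)) (zt d (natl ps))
    (hsb.length ▸ hDX.len) hlenr (LF_rp _ _) (norm_zt d (natl ps)).le Y
    (((le_max_left _ _).trans hXX).trans hXY) (by
      rw [hLF, ← Real.exp_add]
      exact hexpY _ (by linarith))
  have hpw : ∀ m : ℕ, Real.exp cc ^ m = Real.exp (m * cc) := fun m => by rw [Real.exp_nat_mul]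
  have hN1Y : (N1f k : ℝ) ≤ Real.exp (k + 4) := by
    have h1 := Real.exp_pos (k + 4)
    linarith
  have hη12 : (1 / 2 : ℝ) ≤ 1 := by norm_num
  have key := hLB1 (Real.exp κ) (Real.exp n) Y (Real.exp cc) (Real.exp cc) (Real.exp cc) (1 / 2)
    (N0f k) (N1f k) (Real.one_le_exp hnn) (hexpY _ (by linarith)) (hexpY _ (by linarith))
    (hexpY _ (by linarith)) (Real.one_le_exp hcc0) (hexpY _ (by linarith))
    (hN1Y.trans (hexpY _ hkb)) (by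
      rw [hYe, ← Real.exp_mul]
      refine Real.exp_le_exp.2 (le_of_eq ?_)
      rw [hcc]
      field_simp) (by
      rw [hpw]
      push_cast
      exact Real.exp_le_exp.2 (by linarith)) hN0' hN01 (by
      rw [hpw, ← Real.exp_nat_mul]
      push_cast
      calc (N1f k : ℝ) * Real.exp (30 * cc) ≤ Real.exp (k + 4) * Real.exp (30 * cc) := by gcongr
        _ = Real.exp (k + 4 + 30 * cc) := by rw [← Real.exp_add]
        _ ≤ _ := Real.exp_le_exp.2 (by linarith)) (by norm_num) hη12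
    (xs 1 1 1 P h d (natl ps)) a1 (by rw [hLF] at a2; exact a2) (by
      intro m
      by_cases h0 : xs 1 1 1 P h d (natl ps) m = 0
      · rw [h0, norm_zero]; exact Real.rpow_nonneg hY0.le _
      have hm := a1 m h0
      have h1 := hnl 1 1 P hP 1 (natl ps) (hsb.length ▸ hDX.len) Y hY1 m hm
      have h1r := hnl 1 1 P hP 1 (rp d (natl ps)) hlenr Y hY1 m hm
      have h3 : ‖xs 1 1 1 P h d (natl ps) m‖ ≤ 2 * C₄ * Y ^ (ε₂ / 2) := by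
        unfold xs
        refine (norm_sub_le _ _).trans ?_
        rw [norm_mul, norm_zt, one_mul]
        linarith
      refine h3.trans ?_
      have h2 : 2 * C₄ ≤ Y ^ (ε₂ / 2) := by
        have h3 : 2 * C₄ = ((2 * C₄) ^ (2 / ε₂)) ^ (ε₂ / 2) := by
          rw [← Real.rpow_mul (by linarith)]
          have : 2 / ε₂ * (ε₂ / 2) = 1 := by field_simp
          rw [this, Real.rpow_one]
        rw [h3]
        refine Real.rpow_le_rpow (Real.rpow_nonneg (by linarith) _) ?_ (by positivity)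
        exact (((le_max_left _ _).trans (le_max_right _ _)).trans hXX).trans hXY
      calc 2 * C₄ * Y ^ (ε₂ / 2) ≤ Y ^ (ε₂ / 2) * Y ^ (ε₂ / 2) := by gcongr
        _ = Y ^ ε₂ := by rw [← Real.rpow_add hY0]; congr 1; ring)
    Ma Ml (Rn + Es) hMa0 hMl0 (by positivity) n1' n2' hRh
  have hE1 : 0 ≤ C₁ * ((1 / 2 : ℝ)⁻¹) ^ (2 * Jn + 2) * Y ^ (4 * ε₂) *
      (Real.exp n ^ 2 + Real.exp cc ^ (-(1 / 2) : ℝ) * (Ma + Ml) + (Rn + Es)) := by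
    have h1 : 0 ≤ Y ^ (4 * ε₂) := Real.rpow_nonneg hY0.le _
    have h2 : 0 ≤ Real.exp cc ^ (-(1 / 2) : ℝ) := Real.rpow_nonneg (Real.exp_pos _).le _
    positivity
  have hVF := hbess (Real.exp κ) (Real.exp n) Y (1 / 2) (Real.exp cc) (N0f k) (N1f k)
    (rho (N0f k) (N1f k)) (Real.exp_pos _) (Real.exp_pos _) hY1 (by norm_num) hη12
    (Real.one_le_exp hcc0) hN01 (rho_nonneg' hN0' hN01) (fun m hm => rho_one hN0' hN01 hm)
    (xs 1 1 1 P h d (natl ps)) a1 (by rw [hLF] at a2; exact a2) _ _ Es hE1 hEs0 key hSQ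
    (Real.exp k) (Real.one_le_exp hk) (exp_le_N0f k)
  -- back to the list
  have hbk := hback Y hY3 D hDX Bd W 0 (Real.exp n) d hBd0 1 (natl ps) hQX k hk
    (by rw [hYl]; linarith) (by
      rw [rp_natl, RXg848.SFK_natl_one, hDP, hDh, hDκ, hLF]
      rw [rbx_true, ← hl, ← hd] at hown
      exact hown) (by
      rw [hDD, one_pow, one_mul, hLF, hDκ, ← Real.exp_sub, ← Real.exp_mul, ← Real.exp_add]
      refine le_trans (Real.exp_le_exp.2 ?_) hWe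
      linarith)
  rw [RXg848.SFK_natl_one, hDz, hDD, hDP, hDh, hDκ, hLF, ← hH] at hbk
  refine hbk.trans ?_
  obtain ⟨F, hF⟩ : ∃ x : ℝ, x = Real.exp (ex0 κ k n) := ⟨_, rfl⟩
  obtain ⟨Q3, hQ3⟩ : ∃ x : ℝ, x = (Real.exp k * Real.exp κ / Real.exp n ^ 2) ^ (1 / 3 : ℝ) :=
    ⟨_, rfl⟩
  obtain ⟨Ec, hEc⟩ : ∃ x : ℝ, x = Real.exp (-(cc / 2)) := ⟨_, rfl⟩
  have hEc0 : 0 ≤ Ec := by rw [hEc]; exact (Real.exp_pos _).le
  have hQ30 : 0 ≤ Q3 := by rw [hQ3]; positivity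
  have hQF : Q3 * F2 = F := by
    have e1 : Real.exp k * Real.exp κ / Real.exp n ^ 2 = Real.exp (k + κ - 2 * n) := by
      rw [← Real.exp_add, ← Real.exp_nat_mul, ← Real.exp_sub]
      push_cast
      rfl
    rw [hQ3, hF2, hF, e1, ← Real.exp_mul, ← Real.exp_add]
    congr 1
    unfold ex0
    ring
  have hexpn : Real.exp n ^ 2 = F2 := by
    rw [hF2, ← Real.exp_nat_mul]; push_cast; rfl
  have hE0h : Real.exp cc ^ (-(1 / 2) : ℝ) = Ec := by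
    rw [hEc, ← Real.exp_mul]; congr 1; ring
  have hNl : (N : ℝ) * Real.log D.D0 + (4 + lΛ) = 4 + lΛ := by rw [hlD]; ring
  rw [← hQ3, ← hη', hYA4, hexpn, hE0h] at hVF
  rw [hLF, ← hF2, ← hH] at hMa hMl
  rw [hNl] at hMl
  rw [← hEc] at hRn1
  rw [← hF]
  have hA6 : A ^ 6 ≤ X ^ ε := by
    rw [hAd, ← Real.rpow_natCast, ← Real.rpow_mul hX0.le]
    refine Real.rpow_le_rpow_of_exponent_le hX1 ?_
    push_cast
    linarith
  have hF0 : 0 ≤ F := by rw [hF]; exact (Real.exp_pos _).le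
  have hMa' : Ma ≤ C₂ * A * (C₅ * A * (Bd * (Real.exp (cc / 2) * Real.exp (ρ + (4 + lΛ + r₂ + r₅))) *
      H) + C₅ * A * (Bd * (Real.exp (cc / 2) * Real.exp (ρ + (4 + lΛ + r₂ + r₅))) * H) +
      Real.exp bb) * H * F2 := by
    rw [hMa, hB0, Real.exp_add (cc / 2)]
    have h1 := Real.exp_pos (cc / 2)
    have h2 := Real.exp_pos (ρ + (4 + lΛ + r₂ + r₅))
    have h3 := Real.exp_pos bb
    gcongr
  have hMl' : Ml ≤ C₃ * A * ((Bd * Real.exp (cc / 2) * H + Bd * Real.exp (cc / 2) * H) *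
      Real.exp (4 + lΛ) + Real.exp bb) * H * F2 := by
    rw [hMl]
    have h1 := Real.exp_pos (cc / 2)
    have h3 := Real.exp_pos bb
    gcongr
  have hfin := bx_final (C₁ := C₁ * η' ^ (2 * Jn + 2)) (Cb := Cb * η' ^ 2) (C₂ := C₂) (C₃ := C₃)
    (C₅ := C₅) (C₆ := C₆) (CR := CR) (Ce := Real.exp (ρ + (4 + lΛ + r₂ + r₅)))
    (q4 := 4 * Λ) (e4 := Real.exp (4 + lΛ))
    (A := A) (H := H) (Bd := Bd) (W := W) (F2 := F2) (F := F) (Q3 := Q3) (Ma := Ma) (Ml := Ml)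
    (Ec := Ec) (Ecp := Real.exp (cc / 2)) (Rn := Rn) (Es := Es) (bb := Real.exp bb)
    (by positivity) (by positivity) (by linarith) (by linarith) (by linarith) (by linarith) hCR
    (Real.exp_pos _).le (by linarith) (Real.exp_pos _).le hA1 hH1 hBd hW hF20.le hQF hQ30 hEc0
    (by rw [hEc, Real.exp_le_one_iff]; linarith)
    (by rw [hEc, ← Real.exp_add, neg_add_cancel, Real.exp_zero])
    (Real.exp_pos _).le hbbW hMa' hMl' hRn1 hEs.le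
  rw [← hCf] at hfin
  rw [← hH]
  refine le_trans ?_ (hfin.trans ?_)
  · have h1 : VF (Real.exp k) (xs 1 1 1 P h d (natl ps)) ≤ (Cb * η' ^ 2) * A * Q3 *
        ((C₁ * η' ^ (2 * Jn + 2)) * A ^ 2 * (F2 + Ec * (Ma + Ml) + (Rn + Es)) +
          CR * A * H ^ 2 * Bd * F2) := by
      refine hVF.trans ?_
      have h2 : 0 ≤ F2 + Ec * (Ma + Ml) + (Rn + Es) := by positivity
      have h3 := hEs.le
      gcongr
    have h4 : C₆ * Y ^ ε₂ * (Bd + W) * H * F ≤ C₆ * A * (Bd + W) * H * F := by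
      gcongr
    linarith
  · have h1 := Real.exp_pos (r₂ + N * r₅ + r₃)
    have h2 : Cf * A ^ 6 ≤ (Cf + Real.exp (r₂ + N * r₅ + r₃)) * X ^ ε :=
      mul_le_mul (by linarith) hA6 (by positivity) (by linarith)
    have h3 : 0 ≤ H ^ 2 * (W + Bd) * F := by positivity
    calc Cf * A ^ 6 * H ^ 2 * (W + Bd) * F = Cf * A ^ 6 * (H ^ 2 * (W + Bd) * F) := by ring
      _ ≤ ((Cf + Real.exp (r₂ + N * r₅ + r₃)) * X ^ ε) * (H ^ 2 * (W + Bd) * F) :=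
          mul_le_mul_of_nonneg_right h2 h3
      _ = _ := by ring

end Crest.Agent.R017.RX298
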