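import Crest.Agent.R017.RX7c_298
import Crest.Agent.R017.RXn_848

/-!
# Row 17, T.7 L11 (exceptional class), the terminal bound, part d (helper298)

* `bessx_fin` : **the finite text `BessFinX`** from the lower bound `LBNX`, the leaf `RLeafXL` and
  the squares (helper791's `sq_leafX`)
-/

set_option autoImplicit false

noncomputable section

open Complex
open scoped ComplexConjugate

namespace Crest.Agent.R017.RX298

open Crest.Agent.R012 Crest.Agent.R012.Eis Crest.Agent.R012.LS2 Crest.Agent.R012.Gauss880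
open Crest.Agent.R012.Weight600 (osc pw)
open Crest.Agent.R012.MC (Wgt)
open Crest.Agent.R012.T411 (NCube)
open Crest.Agent.R017.CM106 Crest.Agent.R017.HP842 Crest.Agent.R017.FE47
open Crest.Agent.R017.End699 hiding pw
open Crest.Agent.R017.B770
open Crest.Agent.R017.Prov71
open Crest.Agent.R017.Rough381 (VF VF_nonneg)
open Crest.Agent.R017.Leg381
open Crest.Agent.R017.E1551 (sg tws yv JB cP Dg XJw)
open Crest.Agent.R017.RG64
open Crest.Agent.R017.LegK545 (VK SFK JBK VK_nonneg)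
open Crest.Agent.R017.PX764 (Dk)
open Crest.Agent.R017.Sup271 (NPm)
open Crest.Agent.R017.LBQ791 (LBnQ SQnQ SQnQ.mono bess_absorbQ)
open Crest.Agent.R017.XS0298 (S0K)
open Crest.Agent.R017.XP699 (LL Chd hcost cst)
open Crest.Agent.R017.RuleM545
open Crest.Agent.R017.RGB545
open Crest.Agent.R017.RGw813 (T9)
open Crest.Agent.R017.RXk848 (NumS NumL RLeafXL LnP Lmp bX MkB_of)
open Crest.Agent.R017.SqB791 (LineB sq_leafX)

lemma cst_self (ps : List Pq) : cst hcost ps ps = 1 := by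
  unfold cst
  induction ps with
  | nil => rfl
  | cons p ps ih =>
    rw [List.zipWith_cons_cons, List.prod_cons, ih]
    unfold hcost
    rw [sub_self, abs_zero, add_zero, mul_one]

lemma chd_self {r b : ℝ} (hr : 0 ≤ r) (hb : 1 ≤ b) {ps : List Pq} (hz : ∀ q ∈ ps, 0 ≤ q.z) :
    List.Forall₂ (Chd Dq hcost r b) ps ps := by
  induction ps with
  | nil => exact List.Forall₂.nil
  | cons p ps ih =>
    refine List.Forall₂.cons ⟨rfl, id, hz p (by simp), ?_, ?_, ?_⟩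
      (ih fun q hq => hz q (List.mem_cons_of_mem _ hq))
    · linarith
    · have h1 : 1 ≤ hcost p p := XP699.one_le_hcost p p
      have h2 : 0 ≤ Dq.s1 p := by
        show 0 ≤ 1 + |p.t|
        positivity
      exact le_mul_of_one_le_right h2 h1
    · have h2 : 0 ≤ Dq.s2 p := by
        show (0 : ℝ) ≤ nm p.d
        exact Nat.cast_nonneg _
      exact le_mul_of_one_le_right h2 hb

lemma Lg2_natl_of {x y : ℝ} (hxy : y ≤ x) {ps : List Pq} (h : Lmp x ps) : Lg2 y (natl ps) := by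
  match ps, h with
  | p₁ :: p₂ :: p₃ :: gs, h =>
    obtain ⟨_, _, _, a, b⟩ := h
    exact ⟨hxy.trans a, hxy.trans b⟩

lemma rpB_z {d m : ℝ} (hd : 0 ≤ d) {ps : List Pq} (hlg : Lg2 d (natl ps))
    (hz : ∀ q ∈ ps, 0 ≤ q.z ∧ q.z ≤ m) : ∀ q ∈ rpB d ps, 0 ≤ q.z ∧ q.z ≤ 2 * m := by
  match ps, hlg with
  | p :: p' :: gs, hlg =>
    have h1 : d ≤ p.z := hlg.1
    have h2 : d ≤ p'.z := hlg.2
    have h3 := hz p (by simp)
    have h4 := hz p' (by simp)
    intro q hq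
    have hq' : q ∈ ({p with z := p.z + p'.z - d} : Pq) :: ({p' with z := d} : Pq) :: gs := hq
    rcases List.mem_cons.1 hq' with rfl | hq'
    · show 0 ≤ p.z + p'.z - d ∧ p.z + p'.z - d ≤ 2 * m
      constructor <;> linarith
    · rcases List.mem_cons.1 hq' with rfl | hq'
      · show 0 ≤ d ∧ d ≤ 2 * m
        constructor <;> linarith
      · have h5 := hz q (by simp [hq'])
        constructor <;> linarith

/-- the facts about the parent -/
lemma bess_par {K c d₀ ε X k : ℝ} {ps₀ : List Pq} (hl : 0 < Real.log X) (hc : 0 < c)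
    (h : HpX (fun x => max (max (x 0 - 2 * x 1) (max (3 * x 0 + 300 * c - 2 * K)
      (6 * x 1 - 5 * K))) ((x 0 + x 1 - K) / 3 - d₀)) (min c 1 / 100) (d₀ + 2 * c) ε X k ps₀) :
    3 * k + 299 * (c * Real.log X) ≤ 2 * (K * Real.log X) ∧
      6 * LL Dq ps₀ ≤ 5 * (K * Real.log X) + min (ε / 100) (min c 1 / 100) * Real.log X ∧
      k ≤ 2 * LL Dq ps₀ + c * Real.log X ∧ Lmp ((d₀ + 3 / 2 * c) * Real.log X) ps₀ := by
  obtain ⟨h1, p₁, p₂, p₃, gs, rfl, l1, l2, l3, h2, h3⟩ := h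
  obtain ⟨μ, hμ⟩ : ∃ μ : ℝ, μ = min (ε / 100) (min c 1 / 100) := ⟨_, rfl⟩
  have hμc : μ ≤ c / 100 := by
    rw [hμ]
    refine (min_le_right _ _).trans ?_
    have := min_le_left c 1
    linarith
  have h1' : max (max (k / Real.log X - 2 * (LL Dq (p₁ :: p₂ :: p₃ :: gs) / Real.log X))
      (max (3 * (k / Real.log X) + 300 * c - 2 * K)
        (6 * (LL Dq (p₁ :: p₂ :: p₃ :: gs) / Real.log X) - 5 * K)))
      ((k / Real.log X + LL Dq (p₁ :: p₂ :: p₃ :: gs) / Real.log X - K) / 3 - d₀) ≤ μ := by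
    rw [hμ]; exact h1
  rw [← hμ] at h2 h3
  obtain ⟨x, hx⟩ : ∃ x, x = LL Dq (p₁ :: p₂ :: p₃ :: gs) / Real.log X := ⟨_, rfl⟩
  have hx' : LL Dq (p₁ :: p₂ :: p₃ :: gs) = x * Real.log X := by
    rw [hx, div_mul_cancel₀ _ hl.ne']
  obtain ⟨v, hv⟩ : ∃ v, v = k / Real.log X := ⟨_, rfl⟩
  have hv' : k = v * Real.log X := by
    rw [hv, div_mul_cancel₀ _ hl.ne']
  rw [← hx, ← hv] at h1'
  rw [hx', hv']
  obtain ⟨h4, -⟩ := max_le_iff.1 h1'
  obtain ⟨h8, h5⟩ := max_le_iff.1 h4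
  obtain ⟨h6, h7⟩ := max_le_iff.1 h5
  have hcl : 0 ≤ c * Real.log X := by positivity
  rw [← hμ]
  have h9 : μ * Real.log X ≤ c / 100 * Real.log X := mul_le_mul_of_nonneg_right hμc hl.le
  refine ⟨?_, ?_, ?_, l1, l2, l3, ?_, ?_⟩
  · have : (3 * v + 300 * c) * Real.log X ≤ (2 * K + μ) * Real.log X :=
      mul_le_mul_of_nonneg_right (by linarith) hl.le
    linarith
  · have : (6 * x) * Real.log X ≤ (5 * K + μ) * Real.log X :=
      mul_le_mul_of_nonneg_right (by linarith) hl.le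
    linarith
  · have : v * Real.log X ≤ (2 * x + μ) * Real.log X :=
      mul_le_mul_of_nonneg_right (by linarith) hl.le
    linarith
  · have h11 : d₀ + 3 / 2 * c ≤ p₁.z / Real.log X := by
      have : d₀ + 2 * c ≤ p₁.z / Real.log X + μ := h2
      linarith
    rwa [le_div_iff₀ hl] at h11
  · have h11 : d₀ + 3 / 2 * c ≤ p₂.z / Real.log X := by
      have : d₀ + 2 * c ≤ p₂.z / Real.log X + μ := h3
      linarith
    rwa [le_div_iff₀ hl] at h11

variable {Lam ι : Type*} {p : ℕ}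

set_option maxHeartbeats 6400000 in
/-- **the finite text of the terminal bound, class E** -/
theorem bessx_fin {π : Lam → DPar} (hP : ∀ lm, (π lm).OK)
    (hnp : ∀ lm, ¬ NPm (π lm).n (π lm).ψ (π lm).l₂ 1) {h : ℝ → ℝ} {c₂ : ℝ} (hpu : PU h c₂)
    {ω : ℝ → ℝ} (hω : Wgt ω) (hw0 : ∀ x, 0 ≤ ω x) (hcP : 0 < cP ω)
    {Qf : LBp → ℕ × ℕ → Eis → Prop} {Rh RR : ℝ → LBp → (Eis → ℂ) → ℝ → Prop} {hA : ℝ}
    (hA0 : 0 ≤ hA) (hA1 : hA ≤ 100) (hLB : ∀ Λ : ℝ, 1 ≤ Λ → LBNX ω Λ Qf (Rh Λ))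
    (hQ : ∀ q : LBp, 1 < q.E0 → q.E0 ^ 60 ≤ q.K → ∀ b ∈ T9, ∀ k, IsPrim k → Qf q b k →
      NCube (k * (w ^ b.1 * lam ^ b.2) ^ 2))
    (hRR : ∀ Λ : ℝ, 1 ≤ Λ → ∀ (p : LBp) (α : Eis → ℂ) (Es Rn Rn' : ℝ), 0 < p.K → 0 < p.X →
      1 ≤ p.E0 → 0 ≤ Es → S2X ω Qf hA p α Es → 0 ≤ Rn → RR Λ p α Rn → Rn + Es ≤ Rn' →
      Rh Λ p α Rn')
    {R : Lam → ℝ → List Pq → ℝ}
    (hR : ∀ lm l ps, RQ NCube h l (ps.map (Pq.pc (π lm))) ≤ R lm l ps)
    {L : ι → Line Lam p} {K c d₀ y : ℝ} (hc : 0 < c) (hcK : 2000 * c ≤ K) (hd₀ : 0 ≤ d₀)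
    (hy1 : 1 ≤ y) (hy : y ≤ 30) (hleaf : RLeafXL π h RR L K c (8 * (K + 1)) d₀ y) :
    BessFinX R (fun lm => S0K Dk (π lm) h) L (min c 1 / 100) K c d₀ := by
  have hK : 0 < K := by linarith
  intro lm N c₀ hc₀
  obtain ⟨BR, hBR, hR1⟩ := hleaf lm N c₀ hc₀
  refine ⟨max BR (max (K + 1) (2 * c₀)), le_max_of_le_left hBR, ?_⟩
  intro ε M hε hM
  obtain ⟨ε', hε'⟩ : ∃ x : ℝ, x = min ε (min c 1) := ⟨_, rfl⟩
  have he1 : ε' ≤ ε := by rw [hε']; exact min_le_left _ _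
  have he2 : ε' ≤ c := by rw [hε']; exact (min_le_right _ _).trans (min_le_left _ _)
  have he3 : ε' ≤ 1 := by rw [hε']; exact (min_le_right _ _).trans (min_le_right _ _)
  have he0 : 0 < ε' := by rw [hε']; exact lt_min hε (lt_min hc one_pos)
  obtain ⟨e₁, he₁⟩ : ∃ x : ℝ, x = ε' / 64 := ⟨_, rfl⟩
  have he₁0 : 0 < e₁ := by rw [he₁]; positivity
  have he₁ε : e₁ ≤ ε := by linarith
  obtain ⟨J₀, δ₀, hJ₀, hδ₀, hR2⟩ := hR1 e₁ M he₁0 hM
  obtain ⟨J₁, δ₁, hJ₁, hδ₁, hS2⟩ := sq_leafX hpu hω N (c₀ := 2 * c₀) (ε := e₁) (M := M)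
    (by linarith) he₁0 hM
  obtain ⟨J, Jn, Aw, Cw, Rw, hJ6, hJM, hJJ₀, hJ₀n, hAw, hCw, hRw, hcore⟩ :=
    bx_core hpu hw0 hcP hLB hRR hc (K := K) (by linarith) hd₀ hc₀ N (ε := ε') (M := M)
      (J₀ := max J₀ J₁) he0 hM (le_max_of_le_left hJ₀)
  obtain ⟨CR₁, r₁, X₁, Λ, hCR₁, hr₁, hΛ, hR3⟩ := hR2 0 Jn Aw Cw Rw (1 / 2) 0 le_rfl hδ₀.le
    ((le_max_left _ _).trans hJ₀n) hAw hCw hRw (by norm_num) le_rfl le_rfl
  obtain ⟨CR₂, r₂, X₂, hCR₂, hr₂, hS3⟩ := hS2 0 Jn Aw Cw Rw (1 / 2) 0 le_rfl hδ₁.le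
    ((le_max_right _ _).trans hJ₀n) hAw hCw (by norm_num) (by norm_num) le_rfl
  obtain ⟨C, r, X₃, hC, hr, hX⟩ := hcore (CR₁ + CR₂) Λ (by positivity) hΛ
  refine ⟨2 * C + CR₁ + CR₂ + 1, r + r₁ + r₂, 2 * J,
    max (max X₁ X₂) (max X₃ (nm (π lm).n : ℝ)), by positivity, by positivity, by linarith, ?_⟩
  intro X hX3 hXX k ps hk0 hkc hlen hps hs2 hHp Bd hBd hprem
  have hX1 : (1 : ℝ) ≤ X := by linarith
  have hX0 : 0 < X := by linarith
  have hXX1 : X₁ ≤ X := ((le_max_left _ _).trans (le_max_left _ _)).trans hXX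
  have hXX2 : X₂ ≤ X := ((le_max_right _ _).trans (le_max_left _ _)).trans hXX
  have hXX3 : X₃ ≤ X := ((le_max_left _ _).trans (le_max_right _ _)).trans hXX
  have hXXn : (nm (π lm).n : ℝ) ≤ X := ((le_max_right _ _).trans (le_max_right _ _)).trans hXX
  obtain ⟨l, hl⟩ : ∃ x : ℝ, x = Real.log X := ⟨_, rfl⟩
  have hl0 : 0 < l := by rw [hl]; exact Real.log_pos (by linarith)
  obtain ⟨hk3, h6n, hkn, hLmp⟩ := bess_par (hl ▸ hl0) hc hHp
  have hpowX : ∀ x : ℝ, X ^ x = Real.exp (x * l) := fun x => by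
    rw [Real.rpow_def_of_pos hX0, hl, mul_comm]
  obtain ⟨n, hn⟩ : ∃ x : ℝ, x = LL Dq ps := ⟨_, rfl⟩
  have hz : ∀ q ∈ ps, 0 ≤ q.z := fun q hq => (hps q hq).1
  have hsb : SbL 0 (natl ps) ps := SbL_natl hz
  have hLF : LF (natl ps) = n := by rw [hn, RXg848.LF_natl]
  have hn0 : 0 ≤ n := by rw [← hLF]; exact LF_nonneg hsb.z_nonneg
  have hmin1 : (1 : ℝ) ≤ X ^ c₀ := Real.one_le_rpow hX1 (by linarith)
  have hXc0 : X ≤ X ^ c₀ := by
    conv_lhs => rw [← Real.rpow_one X]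
    exact Real.rpow_le_rpow_of_exponent_le hX1 hc₀
  have hLg : Lg2 (d₀ * Real.log X) (natl ps) := by
    refine Lg2_natl_of ?_ hLmp
    exact mul_le_mul_of_nonneg_right (by linarith) (hl ▸ hl0).le
  have hd0 : 0 ≤ d₀ * Real.log X := mul_nonneg hd₀ (hl ▸ hl0).le
  have hkl : k = k / l * l := by field_simp
  have hnl : n = n / l * l := by field_simp
  have hKl : 0 ≤ K * l := by positivity
  have hcl : 0 ≤ c * l := by positivity
  have hcKl : 2000 * (c * l) ≤ K * l := by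
    rw [← mul_assoc]; exact mul_le_mul_of_nonneg_right hcK hl0.le
  rw [← hl] at hk3 h6n hkn
  rw [← hn] at h6n hkn
  obtain ⟨μ, hμ⟩ : ∃ x : ℝ, x = min (ε / 100) (min c 1 / 100) := ⟨_, rfl⟩
  rw [← hμ] at h6n
  have hμe : μ ≤ e₁ := by
    have h1 : μ ≤ ε' / 100 := by
      rw [le_div_iff₀ (by norm_num : (0 : ℝ) < 100), hε']
      refine le_min ?_ ?_
      · have : μ ≤ ε / 100 := hμ ▸ min_le_left _ _
        linarith
      · have : μ ≤ min c 1 / 100 := hμ ▸ min_le_right _ _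
        linarith
    linarith
  have hμel : μ * l ≤ e₁ * l := mul_le_mul_of_nonneg_right hμe hl0.le
  have he₁cl : e₁ * l ≤ c * l := mul_le_mul_of_nonneg_right (by linarith) hl0.le
  have hnK : n ≤ K * l := by linarith
  -- the exponent
  obtain ⟨A, hAd⟩ : ∃ x : ℝ, x = 4 / 3 * (n / l) + (k / l + K) / 3 := ⟨_, rfl⟩
  have hXA : X ^ A = Real.exp (ex0 (K * l) k n) := by
    rw [hpowX, hAd]
    congr 1
    unfold ex0
    field_simp
  have hXA0 : 0 < X ^ A := Real.rpow_pos_of_pos hX0 _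
  have hXAn : X ^ (-A) * X ^ A = 1 := by rw [← Real.rpow_add hX0]; simp
  obtain ⟨Bd', hBd'⟩ : ∃ x : ℝ, x = 1 + Bd * X ^ (-A) := ⟨_, rfl⟩
  have hXn0 : 0 ≤ X ^ (-A) := Real.rpow_nonneg hX0.le _
  have hBd'1 : 1 ≤ Bd' := by rw [hBd']; have := mul_nonneg hBd hXn0; linarith
  have hBd'0 : 0 ≤ Bd' := by linarith
  have hBd'2 : Bd * X ^ (-A) ≤ Bd' := by rw [hBd']; linarith
  have hTK : TK K = 10 * (K + 1) := rfl
  have hTK0 : 0 ≤ TK K := by rw [hTK]; linarith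
  have h0p : (0 : Fin p → ℝ) ∈ Set.Icc (0 : Fin p → ℝ) (fun _ => TK K) :=
    ⟨le_rfl, fun _ => hTK0⟩
  have hLLb : ∀ t : Bool, LL Dq (rbx d₀ t X ps) = n := fun t => by
    rw [RXk848.LL_rbx, hn]
  have hcst : ∀ (t : Bool) (ps' : List Pq), 0 ≤ cst hcost ps' (rbx d₀ t X ps) ^ M := fun t ps' =>
    Real.rpow_nonneg (zero_le_one.trans (XP699.one_le_cst XP699.one_le_hcost _ _)) _
  have hx0 : ∀ (t : Bool) (x : ℝ) (ps' : List Pq), xv Dq X k (rbx d₀ t X ps) x ps' 0 = k / l :=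
    fun t x ps' => by rw [hl]; rfl
  have hx1 : ∀ (t : Bool) (x : ℝ) (ps' : List Pq), xv Dq X k (rbx d₀ t X ps) x ps' 1 = n / l :=
    fun t x ps' => by rw [hl, ← hLLb t]; rfl
  have hx2 : ∀ (t : Bool) (x : ℝ) (ps' : List Pq), xv Dq X k (rbx d₀ t X ps) x ps' 2 = x / l :=
    fun t x ps' => by rw [hl]; rfl
  have hx3 : ∀ (t : Bool) (x : ℝ) (ps' : List Pq),
      xv Dq X k (rbx d₀ t X ps) x ps' 3 = LL Dq ps' / l := fun t x ps' => by rw [hl]; rfl
  have hCC : C ≤ 2 * C + CR₁ + CR₂ + 1 := by linarith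
  have hb1 : C * X ^ (K + 1) ≤ (2 * C + CR₁ + CR₂ + 1) * X ^ max BR (max (K + 1) (2 * c₀)) := by
    have h1 : X ^ (K + 1) ≤ X ^ max BR (max (K + 1) (2 * c₀)) :=
      Real.rpow_le_rpow_of_exponent_le hX1 ((le_max_left _ _).trans (le_max_right _ _))
    gcongr
  have hb2 : CR₁ * X ^ BR ≤ (2 * C + CR₁ + CR₂ + 1) * X ^ max BR (max (K + 1) (2 * c₀)) := by
    have h1 : X ^ BR ≤ X ^ max BR (max (K + 1) (2 * c₀)) :=
      Real.rpow_le_rpow_of_exponent_le hX1 (le_max_left _ _)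
    have h2 : CR₁ ≤ 2 * C + CR₁ + CR₂ + 1 := by linarith
    gcongr
  have hb3 : CR₂ * X ^ (2 * c₀) ≤
      (2 * C + CR₁ + CR₂ + 1) * X ^ max BR (max (K + 1) (2 * c₀)) := by
    have h1 : X ^ (2 * c₀) ≤ X ^ max BR (max (K + 1) (2 * c₀)) :=
      Real.rpow_le_rpow_of_exponent_le hX1 ((le_max_right _ _).trans (le_max_right _ _))
    have h2 : CR₂ ≤ 2 * C + CR₁ + CR₂ + 1 := by linarith
    gcongr
  have hb4 : 1 ≤ (2 * C + CR₁ + CR₂ + 1) * X ^ max BR (max (K + 1) (2 * c₀)) := by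
    have h1 : 1 ≤ X ^ max BR (max (K + 1) (2 * c₀)) :=
      Real.one_le_rpow hX1 (le_max_of_le_left hBR)
    exact one_le_mul_of_one_le_of_one_le (by linarith) h1
  -- the bias
  obtain ⟨W, hW⟩ : ∃ x : ℝ, x = X ^ bX K c d₀ y (n / l) (k / l) := ⟨_, rfl⟩
  have hW1 : 1 ≤ W := by
    rw [hW]
    exact Real.one_le_rpow hX1 (le_max_left _ _)
  have hWe : Real.exp (c * Real.log X + (k + LL Dq ps - K * Real.log X) / 3 -
      d₀ * Real.log X) ≤ W := by
    rw [hW, hpowX, ← hl, ← hn]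
    refine Real.exp_le_exp.2 ?_
    have h1 : y * c + (k / l + n / l - K) / 3 - d₀ ≤ bX K c d₀ y (n / l) (k / l) :=
      le_max_right _ _
    have h2 := mul_le_mul_of_nonneg_right h1 hl0.le
    have h3 : (y * c + (k / l + n / l - K) / 3 - d₀) * l = y * (c * l) + (k + n - K * l) / 3 -
        d₀ * l := by field_simp
    have h4 : c * l ≤ y * (c * l) := le_mul_of_one_le_left hcl hy1
    linarith
  -- (TB)
  have hTB : ∀ t : Bool, TBp (π lm) h (K * Real.log X) (c * Real.log X) k (LL Dq ps)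
      (ε' * Real.log X) r (C * X ^ (K + 1)) M Bd' (rbx d₀ t X ps) := by
    intro t x ps' hx hxl hch
    rw [← hl, ← hn] at hxl
    rw [← hl, ← hn]
    have hLL := RG64.LL_nonneg_of_chd hch
    have hel : ε' * l ≤ l := by
      have := mul_le_mul_of_nonneg_right he3 hl0.le
      linarith
    have h2 := hprem (.tb t) ⟨0, h0p⟩ x ps' hx (by
        rw [hTK, ← hl]
        have : 10 * (K + 1) * l = 10 * (K * l) + 10 * l := by ring
        linarith) (RG64.Chd.mono' (by linarith) hb1 hch) (by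
        show xv Dq X k (rbx d₀ t X ps) x ps' 2 - xv Dq X k (rbx d₀ t X ps) x ps' 0 -
          (xv Dq X k (rbx d₀ t X ps) x ps' 1 - xv Dq X k (rbx d₀ t X ps) x ps' 3) ≤ ε
        rw [hx0, hx1, hx2, hx3]
        have h3 : x / l - k / l - (n / l - LL Dq ps' / l) = (x - k - (n - LL Dq ps')) / l := by
          field_simp
        rw [h3]
        refine le_trans ?_ he1
        rw [div_le_iff₀ hl0]
        linarith) (fun hz => hz.elim)
    have h3 : S0K Dk (π lm) h x ps' ≤ Bd * cst hcost ps' (rbx d₀ t X ps) ^ M *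
        X ^ (-(4 / 3 * (xv Dq X k (rbx d₀ t X ps) x ps' 1 -
          xv Dq X k (rbx d₀ t X ps) x ps' 3)) - (xv Dq X k (rbx d₀ t X ps) x ps' 0 -
          xv Dq X k (rbx d₀ t X ps) x ps' 2) / 3 +
          max 0 (2 / 3 * (xv Dq X k (rbx d₀ t X ps) x ps' 1 -
          xv Dq X k (rbx d₀ t X ps) x ps' 3) + (xv Dq X k (rbx d₀ t X ps) x ps' 2 -
          xv Dq X k (rbx d₀ t X ps) x ps' 0) / 3 - c) + c / 2) := h2
    rw [hx0, hx1, hx2, hx3] at h3
    have h4 : X ^ (-(4 / 3 * (n / l - LL Dq ps' / l)) - (k / l - x / l) / 3 +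
        max 0 (2 / 3 * (n / l - LL Dq ps' / l) + (x / l - k / l) / 3 - c) + c / 2) =
        X ^ (-A) * Real.exp (exJ (K * l) k n (c * l) x (LL Dq ps') + c * l / 2) := by
      rw [hpowX, hpowX, ← Real.exp_add]
      congr 1
      have h5 : max 0 (2 / 3 * (n / l - LL Dq ps' / l) + (x / l - k / l) / 3 - c) * l =
          max 0 ((n - LL Dq ps') - ((n - LL Dq ps') - (x - k)) / 3 - c * l) := by
        rw [max_mul_of_nonneg _ _ hl0.le, zero_mul]
        congr 1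
        field_simp
        ring
      have h6 : (-(4 / 3 * (n / l - LL Dq ps' / l)) - (k / l - x / l) / 3 +
          max 0 (2 / 3 * (n / l - LL Dq ps' / l) + (x / l - k / l) / 3 - c) + c / 2) * l =
          -(4 / 3 * (n - LL Dq ps')) - (k - x) / 3 +
          max 0 (2 / 3 * (n / l - LL Dq ps' / l) + (x / l - k / l) / 3 - c) * l +
          c * l / 2 := by
        field_simp
      rw [h6, h5, hAd]
      unfold exJ
      field_simp
      ring
    rw [h4] at h3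
    refine h3.trans ?_
    have h5 := hcst t ps'
    calc Bd * cst hcost ps' (rbx d₀ t X ps) ^ M *
          (X ^ (-A) * Real.exp (exJ (K * l) k n (c * l) x (LL Dq ps') + c * l / 2)) =
        (Bd * X ^ (-A)) * cst hcost ps' (rbx d₀ t X ps) ^ M *
          Real.exp (exJ (K * l) k n (c * l) x (LL Dq ps') + c * l / 2) := by ring
      _ ≤ _ := by gcongr
  -- the replaced list itself
  have hzr : ∀ q ∈ rbx d₀ true X ps, 0 ≤ q.z ∧ q.z ≤ 2 * (c₀ * Real.log X) := by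
    rw [rbx_true]
    exact rpB_z hd0 hLg hps
  have hown : S0K Dk (π lm) h k (rbx d₀ true X ps) ≤ Bd' * Ht (natl ps) ^ J *
      Real.exp (ex0 (K * Real.log X) k (LL Dq ps)) := by
    have h2 := hprem .o ⟨0, h0p⟩ k (rbx d₀ true X ps) hk0 (by
        rw [hTK, ← hl]
        have : 10 * (K + 1) * l = 10 * (K * l) + 10 * l := by ring
        linarith) (chd_self (by positivity) hb4 fun q hq => (hzr q hq).1) (by
        show max (xv Dq X k (rbx d₀ true X ps) k (rbx d₀ true X ps) 2 -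
          xv Dq X k (rbx d₀ true X ps) k (rbx d₀ true X ps) 0)
          (xv Dq X k (rbx d₀ true X ps) k (rbx d₀ true X ps) 1 -
          xv Dq X k (rbx d₀ true X ps) k (rbx d₀ true X ps) 3) ≤ ε
        rw [hx0, hx1, hx2, hx3, hLLb, sub_self, sub_self, max_self]
        exact hε.le) (fun hz => hz.elim)
    have h3 : S0K Dk (π lm) h k (rbx d₀ true X ps) ≤
        Bd * cst hcost (rbx d₀ true X ps) (rbx d₀ true X ps) ^ M * X ^ (0 : ℝ) := h2
    rw [cst_self, Real.one_rpow, Real.rpow_zero, mul_one, mul_one] at h3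
    rw [← hl, ← hn, ← hXA]
    refine h3.trans ?_
    have h4 : Bd = (Bd * X ^ (-A)) * 1 * X ^ A := by rw [mul_one, mul_assoc, hXAn, mul_one]
    have h5 : 1 ≤ Ht (natl ps) ^ J := Real.one_le_rpow (one_le_Ht _) (by linarith)
    calc Bd = (Bd * X ^ (-A)) * 1 * X ^ A := h4
      _ ≤ Bd' * Ht (natl ps) ^ J * X ^ A := by gcongr
  -- the squares
  have hXcE : (X ^ c) ^ 60 ≤ X ^ K := by
    rw [← Real.rpow_natCast, ← Real.rpow_mul hX0.le]
    refine Real.rpow_le_rpow_of_exponent_le hX1 ?_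
    push_cast
    linarith
  have hXc1 : 1 < X ^ c := Real.one_lt_rpow (by linarith) hc
  have hline : ∀ (K' : ℝ), 0 ≤ K' → K' ≤ K → ∀ t : Bool,
      LineB NCube (π lm) h X r₂ (CR₂ * X ^ (2 * c₀)) e₁ M K' ((K' + e₁) / 3 + 2 * K / 3) Bd'
        (rbx d₀ t X ps) (LF (natl ps)) := by
    intro K' hK'0 hK' t x ps' hx hxl hch _
    rw [← hl] at hxl
    have hK'l : K' * l ≤ K * l := mul_le_mul_of_nonneg_right hK' hl0.le
    have h2 := hprem (.r t) ⟨0, h0p⟩ x ps' hx (by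
        rw [hTK, ← hl]
        have : 10 * (K + 1) * l = 10 * (K * l) + 10 * l := by ring
        have h3 : e₁ * l ≤ l := by
          have := mul_le_mul_of_nonneg_right (show e₁ ≤ 1 by linarith) hl0.le
          linarith
        linarith) (RG64.Chd.mono' (by linarith) hb3 hch) (by
        show xv Dq X k (rbx d₀ t X ps) x ps' 2 - K ≤ ε
        rw [hx2]
        have h3 : x / l ≤ K + e₁ := by
          rw [div_le_iff₀ hl0]
          linarith
        linarith) (fun hz => hz.elim)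
    have h3 : R lm x ps' ≤ Bd * cst hcost ps' (rbx d₀ t X ps) ^ M *
        X ^ (-((xv Dq X k (rbx d₀ t X ps) x ps' 1 - xv Dq X k (rbx d₀ t X ps) x ps' 3) +
          (K - xv Dq X k (rbx d₀ t X ps) x ps' 2) / 3 + (xv Dq X k (rbx d₀ t X ps) x ps' 0 +
          xv Dq X k (rbx d₀ t X ps) x ps' 1 - 2 * K) / 3)) := h2
    rw [hx0, hx1, hx2, hx3] at h3
    refine (hR lm x ps').trans (h3.trans ?_)
    have h5 := hcst t ps'
    have h6 : X ^ (-((n / l - LL Dq ps' / l) + (K - x / l) / 3 + (k / l + n / l - 2 * K) / 3)) ≤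
        X ^ (-A) * X ^ ((K' + e₁) / 3 + 2 * K / 3 + LL Dq ps' / Real.log X) := by
      rw [← Real.rpow_add hX0, ← hl]
      refine Real.rpow_le_rpow_of_exponent_le hX1 ?_
      have h7 : x / l ≤ K' + e₁ := by
        rw [div_le_iff₀ hl0]; exact hxl
      rw [hAd]
      linarith
    calc Bd * cst hcost ps' (rbx d₀ t X ps) ^ M *
          X ^ (-((n / l - LL Dq ps' / l) + (K - x / l) / 3 + (k / l + n / l - 2 * K) / 3)) ≤
        Bd * cst hcost ps' (rbx d₀ t X ps) ^ M *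
          (X ^ (-A) * X ^ ((K' + e₁) / 3 + 2 * K / 3 + LL Dq ps' / Real.log X)) := by gcongr
      _ = (Bd * X ^ (-A)) * cst hcost ps' (rbx d₀ t X ps) ^ M *
          X ^ ((K' + e₁) / 3 + 2 * K / 3 + LL Dq ps' / Real.log X) := by ring
      _ ≤ _ := by gcongr
  have hlen2 : ∀ q ∈ ps, Dq.len q ≤ 2 * c₀ * Real.log X := fun q hq => by
    have h1 := (hps q hq).2
    have h2 : 0 ≤ c₀ * Real.log X := mul_nonneg (by linarith) (hl ▸ hl0).le
    linarith
  have hlen2r : ∀ q ∈ rpB (d₀ * Real.log X) ps, Dq.len q ≤ 2 * c₀ * Real.log X := fun q hq => by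
    rw [← rbx_true] at hq
    have h1 := (hzr q hq).2
    show q.z ≤ _
    linarith
  have hHt1 := one_le_Ht (natl ps)
  have hHJ1 : 1 ≤ Ht (natl ps) ^ J := Real.one_le_rpow hHt1 (by linarith)
  have hHM : ∀ x : ℝ, x ≤ J → (Ht (natl ps) * Ht (natl ps)) ^ x ≤ (Ht (natl ps) ^ J) ^ 2 := by
    intro x hx
    have h1 : (Ht (natl ps) * Ht (natl ps)) ^ x ≤ (Ht (natl ps) * Ht (natl ps)) ^ J :=
      Real.rpow_le_rpow_of_exponent_le (one_le_mul_of_one_le_of_one_le hHt1 hHt1) hx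
    refine h1.trans (le_of_eq ?_)
    rw [Real.mul_rpow (by linarith) (by linarith), sq]
  have hsq : ∀ (K' : ℝ), 0 ≤ K' → K' ≤ K →
      SQnQ ω (Qf (bxp Cw Aw K c Rw Jn X k ps)) Cw (1 / 2) Aw (X ^ K') (Real.exp (LF (natl ps))) Rw
        Jn (bxa (π lm) h d₀ X ps) (CR₂ * X ^ e₁ * (Ht (natl ps) * Ht (natl ps)) ^ M * Bd' *
          (X ^ ((K' + e₁) / 3 + 2 * K / 3) * Real.exp (2 * LF (natl ps)) / X ^ K')) := by
    intro K' hK'0 hK'
    have h1 := hS3 X hX3 hXX2 (π lm) (hP lm) ps hlen hlen2 (d₀ * Real.log X) hd0 hlen2r 1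
      (natl ps) one_ne_zero (by
        rw [nm_one, Nat.cast_one]; exact Real.one_le_rpow hX1 (by linarith)) hsb (hLg.lg hd0)
      (Qf (bxp Cw Aw K c Rw Jn X k ps)) NCube
      (hQ (bxp Cw Aw K c Rw Jn X k ps) hXc1 hXcE) K' ((K' + e₁) / 3 + 2 * K / 3) Bd' hK'0 hBd'0
      (by
        have := hline K' hK'0 hK' false
        rwa [rbx_false] at this)
      (by
        have := hline K' hK'0 hK' true
        rwa [rbx_true] at this)
    rw [Real.rpow_zero] at h1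
    exact h1
  have he1X : X ^ e₁ ≤ X ^ (ε' / 32) := Real.rpow_le_rpow_of_exponent_le hX1 (by linarith)
  have hEL : Real.exp (2 * LF (natl ps)) = Real.exp (2 * LL Dq ps) := by rw [hLF, hn]
  have hsqE : ∀ (K' : ℝ), CR₂ * X ^ e₁ * (Ht (natl ps) * Ht (natl ps)) ^ M * Bd' *
      (X ^ ((K' + e₁) / 3 + 2 * K / 3) * Real.exp (2 * LF (natl ps)) / X ^ K') ≤
      X ^ (2 / 3 * (K - K')) * ((CR₁ + CR₂) * X ^ (ε' / 32) * (Ht (natl ps) ^ J) ^ 2 * Bd' *
        Real.exp (2 * LL Dq ps)) := by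
    intro K'
    rw [hEL]
    have h1 : X ^ ((K' + e₁) / 3 + 2 * K / 3) * Real.exp (2 * LL Dq ps) / X ^ K' =
        X ^ (e₁ / 3) * X ^ (2 / 3 * (K - K')) * Real.exp (2 * LL Dq ps) := by
      have : (K' + e₁) / 3 + 2 * K / 3 = K' + (e₁ / 3 + 2 / 3 * (K - K')) := by ring
      rw [this, Real.rpow_add hX0, Real.rpow_add hX0]
      have h2 : X ^ K' ≠ 0 := (Real.rpow_pos_of_pos hX0 _).ne'
      field_simp
    rw [h1]
    have h2 : X ^ e₁ * X ^ (e₁ / 3) ≤ X ^ (ε' / 32) := by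
      rw [← Real.rpow_add hX0]
      exact Real.rpow_le_rpow_of_exponent_le hX1 (by linarith)
    have h3 := hHM M (by linarith)
    have h4 : 0 ≤ (Ht (natl ps) * Ht (natl ps)) ^ M := Real.rpow_nonneg (by positivity) _
    have h5 : CR₂ ≤ CR₁ + CR₂ := by linarith
    calc CR₂ * X ^ e₁ * (Ht (natl ps) * Ht (natl ps)) ^ M * Bd' *
          (X ^ (e₁ / 3) * X ^ (2 / 3 * (K - K')) * Real.exp (2 * LL Dq ps)) =
        X ^ (2 / 3 * (K - K')) * (CR₂ * (X ^ e₁ * X ^ (e₁ / 3)) *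
          (Ht (natl ps) * Ht (natl ps)) ^ M * Bd' * Real.exp (2 * LL Dq ps)) := by ring
      _ ≤ _ := by gcongr
  have hSQ : SQnQ ω (Qf (bxp Cw Aw K c Rw Jn X k ps)) Cw (1 / 2) Aw (X ^ K)
      (Real.exp (LF (natl ps))) Rw Jn (bxa (π lm) h d₀ X ps) ((CR₁ + CR₂) * X ^ (ε' / 32) *
        (Ht (natl ps) ^ J) ^ 2 * Bd' * Real.exp (2 * LL Dq ps)) := by
    have h1 := hsqE K
    rw [sub_self, mul_zero, Real.rpow_zero, one_mul] at h1
    exact SQnQ.mono (Real.rpow_nonneg hX0.le _) (Real.exp_pos _).le (hsq K hK.le le_rfl) h1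
  have hS2X : S2X ω Qf hA (bxp Cw Aw K c Rw Jn X k ps) (bxa (π lm) h d₀ X ps)
      ((CR₁ + CR₂) * X ^ (ε' / 32) * (Ht (natl ps) ^ J) ^ 2 * Bd' *
        Real.exp (2 * LL Dq ps)) := by
    have hAc : hA * c ≤ K := by
      have : hA * c ≤ 100 * c := mul_le_mul_of_nonneg_right hA1 hc.le
      linarith
    have hAc0 : 0 ≤ hA * c := by positivity
    have h1 := hsqE (K - hA * c)
    have e1 : X ^ (K - hA * c) = X ^ K * (X ^ c) ^ (-hA) := by
      rw [← Real.rpow_mul hX0.le, ← Real.rpow_add hX0]; congr 1; ring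
    have e2 : X ^ (2 / 3 * (K - (K - hA * c))) = (X ^ c) ^ (2 / 3 * hA) := by
      rw [← Real.rpow_mul hX0.le]; congr 1; ring
    rw [e2] at h1
    have h2 := SQnQ.mono (Real.rpow_nonneg hX0.le _) (Real.exp_pos _).le
      (hsq (K - hA * c) (by linarith) (by linarith)) h1
    rw [e1] at h2
    exact h2
  -- the R-side
  have hfacts : RFacts K c e₁ X ps (natl ps) k (N0f k) (N1f k) := by
    have hel : 0 ≤ e₁ * l := by positivity
    constructor
    · rw [← hl, ← hn, add_mul]; linarith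
    · rw [← hl, ← hn, hLF]; linarith
    · rw [← hl, ← hn, hLF]; linarith
    · exact hk0
    · rw [← hl]; linarith
    · exact exp_le_N0f k
    · exact N0f_le_N1f k
    · exact N1f_le hk0
    · rw [← hl, ← hn, add_mul]; linarith
    · rw [← hl, hLF]; linarith
    · exact two_N0f_le k
    · linarith
  have hRside : ∀ Ma Ml : ℝ, 0 ≤ Ma → 0 ≤ Ml →
      NumS (bxp Cw Aw K c Rw Jn X k ps) (bxa (π lm) h d₀ X ps) Ma →
      NumL (bxp Cw Aw K c Rw Jn X k ps) (bxa (π lm) h d₀ X ps) Ml → ∃ Rn : ℝ, 0 ≤ Rn ∧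
      Rn ≤ (CR₁ + CR₂) * X ^ (ε' / 32) * (Ht (natl ps) ^ J) ^ 2 * (W + Bd') *
        Real.exp (2 * LL Dq ps) +
        (CR₁ + CR₂) * X ^ (ε' / 32) * X ^ (-(c / 2)) * (Ma + Ml) ∧
      RR Λ (bxp Cw Aw K c Rw Jn X k ps) (bxa (π lm) h d₀ X ps) Rn := by
    intro Ma Ml hMa hMl n1 n2
    have e0 : X ^ (0 : ℝ) = 1 := Real.rpow_zero X
    have ea : xs 1 (X ^ (0 : ℝ)) (X ^ (0 : ℝ)) (π lm) h (d₀ * Real.log X) (natl ps) =
        bxa (π lm) h d₀ X ps := by rw [e0]; rfl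
    have h1 := hR3 X hX3 hXX1 ps hlen hps hs2 hLmp 1 (natl ps) k (N0f k) (N1f k) hfacts
      isPrim_one (by rw [nm_one, Nat.cast_one]; exact hmin1) hsb Bd' Ma Ml hBd'1 hMa hMl (by
        intro t j θ x ps' hx hxl hch _ hG hz'
        rw [hLF, ← hl] at hG
        have h2 := hprem (.q t j) θ x ps' hx hxl
          (RG64.Chd.mono' (by linarith) hb2 hch) (by
            show (L j).G ![K, xv Dq X k (rbx d₀ t X ps) x ps' 0, xv Dq X k (rbx d₀ t X ps) x ps' 1,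
              xv Dq X k (rbx d₀ t X ps) x ps' 2, xv Dq X k (rbx d₀ t X ps) x ps' 3] θ.1 ≤ ε
            rw [hx0, hx1, hx2, hx3]
            exact hG.trans he₁ε) (fun hzl q hq hql => (hz' hzl q hq hql).trans (by
              have : e₁ * Real.log X ≤ ε * Real.log X :=
                mul_le_mul_of_nonneg_right he₁ε (hl ▸ hl0).le
              linarith))
        have h3 : (L j).Φ lm x ((L j).b θ.1 * Real.log X) ps' ≤ Bd *
            cst hcost ps' (rbx d₀ t X ps) ^ M * X ^ ((L j).F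
            ![K, xv Dq X k (rbx d₀ t X ps) x ps' 0, xv Dq X k (rbx d₀ t X ps) x ps' 1,
              xv Dq X k (rbx d₀ t X ps) x ps' 2, xv Dq X k (rbx d₀ t X ps) x ps' 3] θ.1) := h2
        rw [hx0, hx1, hx2, hx3] at h3
        rw [hLF, ← hl] at *
        refine h3.trans ?_
        have h5 := hcst t ps'
        have h6 : 0 ≤ X ^ ((L j).F ![K, k / l, n / l, x / l, LL Dq ps' / l] θ.1) :=
          Real.rpow_nonneg hX0.le _
        have h7 : X ^ ((L j).F ![K, k / l, n / l, x / l, LL Dq ps' / l] θ.1) =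
            X ^ (-A) * X ^ (4 / 3 * (n / l) + (k / l + K) / 3 +
              (L j).F ![K, k / l, n / l, x / l, LL Dq ps' / l] θ.1) := by
          rw [← Real.rpow_add hX0, ← hAd]
          congr 1
          ring
        rw [h7]
        have h8 : 0 ≤ X ^ (4 / 3 * (n / l) + (k / l + K) / 3 +
              (L j).F ![K, k / l, n / l, x / l, LL Dq ps' / l] θ.1) :=
          Real.rpow_nonneg hX0.le _
        calc Bd * cst hcost ps' (rbx d₀ t X ps) ^ M * (X ^ (-A) *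
              X ^ (4 / 3 * (n / l) + (k / l + K) / 3 +
              (L j).F ![K, k / l, n / l, x / l, LL Dq ps' / l] θ.1)) =
            (Bd * X ^ (-A)) * cst hcost ps' (rbx d₀ t X ps) ^ M *
              X ^ (4 / 3 * (n / l) + (k / l + K) / 3 +
              (L j).F ![K, k / l, n / l, x / l, LL Dq ps' / l] θ.1) := by ring
          _ ≤ _ := by gcongr) (by rw [ea]; exact n1) (by rw [ea]; exact n2)
    rw [ea] at h1
    refine ⟨_, ?_, ?_, h1⟩
    · have h2 : 0 ≤ (Ht (natl ps) * Ht (natl ps)) ^ J₀ := Real.rpow_nonneg (by positivity) _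
      have h3 : 0 ≤ X ^ bX K c d₀ y (LF (natl ps) / Real.log X) (k / Real.log X) :=
        Real.rpow_nonneg hX0.le _
      positivity
    · rw [hEL, hLF, ← hl, ← hW]
      have h2 := hHM J₀ ((le_max_left _ _).trans hJJ₀)
      have h3 : 0 ≤ (Ht (natl ps) * Ht (natl ps)) ^ J₀ := Real.rpow_nonneg (by positivity) _
      have h4 : CR₁ ≤ CR₁ + CR₂ := by linarith
      have h5 : 0 ≤ X ^ (-(c / 2)) := Real.rpow_nonneg hX0.le _
      gcongr
  have key := hX X hX3 hXX3 (π lm) (hP lm) (hnp lm) (hXXn.trans hXc0) k ps hk0 hlen hz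
    (MkB_of hLmp hs2) hLg (by rw [← hl]; exact hk3) (by rw [← hl, ← hn]; exact hnK) Bd' W hBd'1
    hW1 hWe hTB hown hSQ hS2X hRside
  refine key.trans ?_
  rw [← hl, ← hn, ← hXA]
  -- the final constants
  have hAx : W * X ^ A ≤ X ^ Abx K c d₀ ![k / l, n / l] := by
    rw [hW, ← Real.rpow_add hX0]
    refine Real.rpow_le_rpow_of_exponent_le hX1 ?_
    show max 0 (y * c + (k / l + n / l - K) / 3 - d₀) + A ≤
      max (4 / 3 * (n / l) + (k / l + K) / 3) (2 / 3 * (k / l) + 5 / 3 * (n / l) - d₀ + 30 * c)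
    rw [max_add, hAd]
    refine max_le_max (by linarith) ?_
    have : y * c ≤ 30 * c := mul_le_mul_of_nonneg_right hy hc.le
    linarith
  have hAx1 : X ^ A ≤ X ^ Abx K c d₀ ![k / l, n / l] :=
    (le_mul_of_one_le_left hXA0.le hW1).trans hAx
  have hfin1 : (W + Bd') * X ^ A ≤ 2 * (X ^ Abx K c d₀ ![k / l, n / l] + Bd) := by
    rw [hBd']
    calc (W + (1 + Bd * X ^ (-A))) * X ^ A = W * X ^ A + X ^ A + Bd * (X ^ (-A) * X ^ A) := by ring
      _ = W * X ^ A + X ^ A + Bd := by rw [hXAn, mul_one]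
      _ ≤ _ := by linarith
  have hHt2 : (Ht (natl ps) ^ J) ^ 2 = (ps.map Dq.s1).prod ^ (2 * J) := by
    rw [← RXg848.Ht_natl, ← Real.rpow_natCast, ← Real.rpow_mul (by linarith)]
    congr 1
    push_cast
    ring
  rw [hHt2]
  have h2 : 0 ≤ (ps.map Dq.s1).prod ^ (2 * J) := by rw [← hHt2]; positivity
  have h3 : X ^ ε' ≤ X ^ ε := Real.rpow_le_rpow_of_exponent_le hX1 he1
  have h4 : 0 ≤ X ^ Abx K c d₀ ![k / l, n / l] + Bd :=
    add_nonneg (Real.rpow_nonneg hX0.le _) hBd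
  calc C * X ^ ε' * (ps.map Dq.s1).prod ^ (2 * J) * (W + Bd') * X ^ A =
      C * X ^ ε' * (ps.map Dq.s1).prod ^ (2 * J) * ((W + Bd') * X ^ A) := by ring
    _ ≤ C * X ^ ε * (ps.map Dq.s1).prod ^ (2 * J) *
        (2 * (X ^ Abx K c d₀ ![k / l, n / l] + Bd)) := by gcongr
    _ = (2 * C) * X ^ ε * (ps.map Dq.s1).prod ^ (2 * J) *
        (X ^ Abx K c d₀ ![k / l, n / l] + Bd) := by ring
    _ ≤ (2 * C + CR₁ + CR₂ + 1) * X ^ ε * (ps.map Dq.s1).prod ^ (2 * J) *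
        (X ^ Abx K c d₀ ![k / l, n / l] + Bd) := by
        gcongr
        linarith

end Crest.Agent.R017.RX298
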