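import Crest.Agent.R017.RXn2_770
import Crest.Agent.R017.RXXa_502

/-!
# Row 17, class E, x-side: the R-number of three lumps, frequencies with `Q` (helper502)

* `RClQ`, `rf_childQ` : the claim and the complete R-moment of three lumps
* **`rhq_alb`** : (RH) for all the subsequences of `alb`, frequencies with `Q`, one number
-/

set_option autoImplicit false
set_option linter.unusedVariables false
set_option maxHeartbeats 800000

noncomputable section

open Complex MeasureTheory
open scoped ComplexConjugate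

namespace Crest.Agent.R017.RXX502

open Crest.Agent.R012 Crest.Agent.R012.Eis Crest.Agent.R012.MC
open Crest.Agent.R012.LS2 (S mem_S bl mem_bl)
open Crest.Agent.R012.Weight600 (pw)
open Crest.Agent.R012.T411 (NCube)
open Crest.Agent.R017.CM106 (CS TG FS)
open Crest.Agent.R017.FE47
open Crest.Agent.R017.B770
open Crest.Agent.R017.Prov71
open Crest.Agent.R017.End699 (prin0)
open Crest.Agent.R017.HP842 (sqc Pc pc al Tu mem_Tu)
open Crest.Agent.R017.TPOk571 (IP)
open Crest.Agent.R017.XHB411 (tl)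
open Crest.Agent.R017.XRG106 (Rl RFp tl_ofFn)
open Crest.Agent.R017.E1551 (jb jb_pos tws sg)
open Crest.Agent.R017.PX764 (n6)
open Crest.Agent.R017.E3D579 (n6_nonneg)
open Crest.Agent.R017.Mode405 (Slp)
open Crest.Agent.R017.R3571
open Crest.Agent.R017.E5k54 (alb)
open Crest.Agent.R017.TEM792 (LD nL)
open Crest.Agent.R017.RM986
open Crest.Agent.R017.Mono858 (RQq)
open Crest.Agent.R017.RXn770 (g3 g3_nonneg g3_lip r3_le ipb ipb_pc alb_nat RMm_smul RMm_le_smul
  W2_max g3_max)

variable {Λ : Type*} {π : Λ → DPar} {h : ℝ → ℝ}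

/-- the claim, frequencies with `Q` (571's `rmx_NC` at `Q = NCube`) -/
def RClQ (Q : Eis → Prop) (π : Λ → DPar) (h : ℝ → ℝ) (d : ℝ) : Prop :=
  ∀ K : ℝ, Plain (fun _ => Q) π h K (fun κ y₁ y₂ y₃ m a =>
    max (r3 d κ y₁ y₂ y₃ m a) (κ / 3 + 2 * a + 2 * (7 / 8 + d) * m))

/-- **the R-moment of three lumps, frequencies with `Q`**, one number -/
theorem rf_childQ {Q : Eis → Prop} {d : ℝ} (hd : 0 ≤ d) (HR : RClQ Q π h d) (lam : Λ) {K : ℝ} (hK : 0 ≤ K) (B : ℝ)
    {ε : ℝ} (hε : 0 < ε) : ∃ (M : ℕ) (X₀ : ℝ), 1 < X₀ ∧ ∀ X : ℝ, X₀ ≤ X → ∀ l : ℝ, 0 ≤ l →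
      l ≤ K * Real.log X → ∀ s : Fin 3 → Pq, (∀ i, Dq.lump (s i)) → (∀ i, 0 ≤ (s i).z) →
      (∀ i, (s i).z ≤ K * Real.log X) → (∀ i, (nm (s i).d : ℝ) ≤ X ^ B) →
      ∀ H : ℝ, 1 ≤ H → (∀ i, 1 + |(s i).t| ≤ H) → ∀ u : ℝ, (∃ i, (s i).z ≤ u * Real.log X) →
      RQq Q (π lam) h l (List.ofFn s) ≤
        H ^ M * X ^ (l / Real.log X + (∑ i, (s i).z) / Real.log X + g3 d u (l / Real.log X) +
          ε) := by
  obtain ⟨σ, hσ, H1⟩ := HR K ε hε
  obtain ⟨M, X₀, hX₀, H2⟩ := H1 lam 0 B
  refine ⟨M, X₀, hX₀, ?_⟩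
  intro X hX l hl hlK s hlump hz hzK hdB H hH ht u hu
  have hX1 : 1 < X := lt_of_lt_of_le hX₀ hX
  have hL : 0 < Real.log X := Real.log_pos hX1
  have hKσ : K * Real.log X ≤ (K + σ) * Real.log X := by
    have : 0 ≤ σ * Real.log X := by positivity
    linarith
  have e1 : List.ofFn s = [s 0, s 1, s 2] := by
    simp [List.ofFn_succ]
  have h1 := H2 X hX l (s 0) (s 1) (s 2) [] (by
      intro p hp
      simp only [List.mem_cons, List.not_mem_nil, or_false] at hp
      rcases hp with rfl | rfl | rfl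
      · exact ⟨hlump 0, hz 0, (hzK 0).trans hKσ, hdB 0⟩
      · exact ⟨hlump 1, hz 1, (hzK 1).trans hKσ, hdB 1⟩
      · exact ⟨hlump 2, hz 2, (hzK 2).trans hKσ, hdB 2⟩)
    (by
      have : 0 ≤ σ * Real.log X := by positivity
      linarith) (hlK.trans hKσ) (by simp) (by simp) (by
      intro t
      have : Dq.mass X [] t = 0 := by simp [XG702.Pcs.mass]
      rw [this]
      linarith) H hH (by
      intro p hp
      simp only [List.mem_cons, List.not_mem_nil, or_false] at hp
      rcases hp with rfl | rfl | rfl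
      · exact ht 0
      · exact ht 1
      · exact ht 2)
  have e2 : ∀ t, Dq.mass X [] t = 0 := by
    intro t
    simp [XG702.Pcs.mass]
  rw [e2, e2] at h1
  rw [e1]
  refine le_trans h1 ?_
  refine mul_le_mul_of_nonneg_left ?_ (by positivity)
  refine Real.rpow_le_rpow_of_exponent_le hX1.le ?_
  have hq : ∀ i, 0 ≤ (s i).z / Real.log X := fun i => div_nonneg (hz i) hL.le
  have h3 := r3_le (d := d) (κ := l / Real.log X) (z₁ := (s 0).z / Real.log X)
    (z₂ := (s 1).z / Real.log X) (z₃ := (s 2).z / Real.log X) (u := u) hd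
    (div_nonneg hl hL.le) (hq 0) (hq 1) (hq 2) (by
      obtain ⟨i, hi⟩ := hu
      have h4 : (s i).z / Real.log X ≤ u := (div_le_iff₀ hL).2 hi
      fin_cases i
      · exact Or.inl h4
      · exact Or.inr (Or.inl h4)
      · exact Or.inr (Or.inr h4))
  have e3 : (∑ i, (s i).z) / Real.log X =
      (s 0).z / Real.log X + (s 1).z / Real.log X + (s 2).z / Real.log X := by
    rw [Fin.sum_univ_three]
    ring
  rw [e3]
  linarith

set_option maxHeartbeats 4000000 in
open Classical in
/-- **(RH) for the subsequences of three typed lumps, frequencies with `Q`, one number** -/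
theorem rhq_alb {c₀ : ℝ} (hpu : PU h c₀) (hP : ∀ lam, (π lam).OK) {d : ℝ} (hd : 0 ≤ d)
    (hd8 : d ≤ 1 / 8) (Q : Eis → Prop) (HR : RClQ Q π h d) (lam : Λ) {ε : ℝ} (hε : 0 < ε) {K : ℝ} (hK : 1 ≤ K) :
    ∃ M aS A₀ : ℕ, 1 ≤ aS ∧ ∀ s : Eis, s ≠ 0 → ∃ X₀ : ℝ, 1 < X₀ ∧ ∀ X : ℝ, X₀ ≤ X →
      ∀ H : ℝ, 1 ≤ H → ∀ (us : Fin 3 → Pq) (β : Fin 3 → Eis), LD X K H us β →
      ∀ u : ℝ, (∃ i, (us i).z ≤ u * Real.log X) → ∀ A : ℝ, (A₀ : ℝ) ≤ A →
      ∀ D e : Eis, IsPrim D → IsPrim e → (nm D : ℝ) ≤ X ^ K → (nm e : ℝ) ≤ X ^ K →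
      ∀ P1 : ℝ, 0 < P1 → P1 ≤ X ^ K → ∃ W0 : ℝ → ℝ, Slp aS W0 ∧
        (∀ γ φ : Eis, IsPrim γ → IsPrim φ → (nm φ : ℝ) ≤ X ^ K → ∀ P : ℝ, 0 < P →
          (nm γ : ℝ) * n6 γ ^ 2 * ∑ k ∈ (bl P).filter (fun k => Q (k * s)),
            RMm A (fun m => alb (fun i => pc h ((us i).pc (π lam))) β (D * m)) e γ φ (k * s) ≤
              W0 P) ∧
        W0 P1 ≤ H ^ M * X ^ (max (Real.log P1 / Real.log X) (Real.log P1 / Real.log X / 3) +
          g3 d u (Real.log P1 / Real.log X) +
          2 / 3 * (nL X us β - Real.log (nm D) / Real.log X) + ε) := by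
  classical
  set η : ℝ := min (ε / 16) 1 with hη
  have hη0 : 0 < η := lt_min (by linarith) one_pos
  have hη1 : η ≤ 1 := min_le_right _ _
  have hηε : 16 * η ≤ ε := by
    have := min_le_left (ε / 16) 1
    linarith
  have hK0 : 0 < K := by linarith
  set δ : ℝ := η / (3 * K) with hδ
  have hδ0 : 0 < δ := by positivity
  obtain ⟨M, X₁, hX₁, H1⟩ := rf_childQ hd HR lam (K := K + 2) (by linarith) (2 * K + 1) hη0
  obtain ⟨a, ha, H2⟩ := RHq_nat hpu (μ := (M : ℝ) / 2) (by positivity) 3 hδ0 1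
  obtain ⟨C, hC, H3⟩ := H2 δ hδ0
  refine ⟨M, a, 3 * M + 2, ha, fun s hs => ?_⟩
  have hsn : (1 : ℝ) ≤ nm s := by exact_mod_cast nm_pos.2 hs
  have hC0 : 0 < C := by linarith
  set L₀ : ℝ := max (max 1 (C / η)) (max (Real.log C / η) (Real.log (nm s) / η)) with hL₀
  refine ⟨max X₁ (Real.exp L₀), lt_of_lt_of_le hX₁ (le_max_left _ _), ?_⟩
  intro X hX H hH us β hD u hu A hA D e hDp he hDK heK P1 hP1 hP1K
  have hXX : X₁ ≤ X := (le_max_left _ _).trans hX
  have hX1 : 1 < X := lt_of_lt_of_le hX₁ hXX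
  have hX0 : 0 < X := by linarith
  have hXe : Real.exp L₀ ≤ X := (le_max_right _ _).trans hX
  set L := Real.log X with hL
  have hLL : L₀ ≤ L := (Real.le_log_iff_exp_le hX0).2 hXe
  have l1 : 1 ≤ L := ((le_max_left _ _).trans (le_max_left _ _)).trans hLL
  have l2 : C / η ≤ L := ((le_max_right _ _).trans (le_max_left _ _)).trans hLL
  have l3 : Real.log C / η ≤ L := ((le_max_left _ _).trans (le_max_right _ _)).trans hLL
  have l4 : Real.log (nm s) / η ≤ L := ((le_max_right _ _).trans (le_max_right _ _)).trans hLL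
  have hL0 : 0 < L := by linarith
  have hCL : C ≤ η * L := by rw [div_le_iff₀ hη0] at l2; linarith
  have hCL' : C / L ≤ η := by rw [div_le_iff₀ hL0]; exact hCL
  have hCX : C ≤ X ^ η := by
    rw [div_le_iff₀ hη0] at l3
    rw [← Real.exp_log hC0, Real.rpow_def_of_pos hX0]
    exact Real.exp_le_exp.2 l3
  have hsX : (nm s : ℝ) ≤ X ^ η := by
    rw [div_le_iff₀ hη0] at l4
    rw [← Real.exp_log (show (0 : ℝ) < nm s by linarith), Real.rpow_def_of_pos hX0]
    exact Real.exp_le_exp.2 l4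
  have hsL : Real.log (nm s) / L ≤ η := by
    rw [div_le_iff₀ hη0] at l4
    rw [div_le_iff₀ hL0]
    linarith
  set X0 : ℝ := X ^ (3 * K) with hX0d
  have hX01 : 1 ≤ X0 := Real.one_le_rpow hX1.le (by positivity)
  have hX0δ : X0 ^ δ = X ^ η := by
    rw [hX0d, ← Real.rpow_mul hX0.le, hδ]
    congr 1
    field_simp
  have hKX : X ^ K ≤ X0 := Real.rpow_le_rpow_of_exponent_le hX1.le (by linarith)
  -- the level
  set P1' : ℝ := max P1 1 with hP1'
  have hP1'1 : 1 ≤ P1' := le_max_right _ _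
  have hP1'0 : 0 < P1' := by linarith
  have hP1'K : P1' ≤ X ^ K := max_le hP1K (Real.one_le_rpow hX1.le (by linarith))
  set i : ℝ := Real.log P1 / L with hi
  have hi' : Real.log P1' / L = max 0 i := by
    rcases le_total 1 P1 with h | h
    · have : 0 ≤ i := div_nonneg (Real.log_nonneg h) hL0.le
      rw [hP1', max_eq_left h, max_eq_right this]
    · have : i ≤ 0 := div_nonpos_of_nonpos_of_nonneg (Real.log_nonpos hP1.le h) hL0.le
      rw [hP1', max_eq_right h, max_eq_left this, Real.log_one, zero_div]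
  have hPX : P1' = X ^ (max 0 i) := by
    rw [← hi', Real.rpow_def_of_pos hX0, mul_div_cancel₀ _ hL0.ne', Real.exp_log hP1'0]
  set T : ℝ := P1' * X0 ^ δ with hT
  have hT0 : 0 < T := by positivity
  have hTX : T = X ^ (max 0 i + η) := by
    rw [hT, hX0δ, hPX, ← Real.rpow_add hX0]
  set B : ℝ := H ^ M * X ^ (max 0 i + g3 d u i + 6 * η) with hB
  have hH0 : 0 < H := by linarith
  have hg := g3_nonneg hd u i
  have hB1 : 1 ≤ B := one_le_mul_of_one_le_of_one_le (one_le_pow₀ hH)
    (Real.one_le_rpow hX1.le (by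
      have := le_max_left 0 i
      linarith))
  have hB0 : 0 < B := by linarith
  set J : Fin 3 → IP := fun i => ipb (hP lam) (us i) (β i) with hJ
  have hβ0 : ∀ i, β i ≠ 0 := fun i => (hD.bp i).ne_zero
  have hnβ : ∀ i, (1 : ℝ) ≤ nm (β i) := fun i => by exact_mod_cast nm_pos.2 (hβ0 i)
  have hBel : Below (π lam) 0 J us := by
    refine ⟨fun i => ?_, fun i => rfl, fun i => rfl, fun i hi => ?_⟩
    · show (us i).z - Real.log (nm (β i)) ≤ _
      have := Real.log_nonneg (hnβ i)
      linarith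
    · show (us i).u.sub (β i) = .one
      unfold HP842.UT.sub
      rw [hi]
      simp
  have hprod : (nm (∏ i, β i) : ℝ) = ∏ i, (nm (β i) : ℝ) := by
    rw [Fin.prod_univ_three, Fin.prod_univ_three, nm_mul, nm_mul]
    push_cast; ring
  have hq0 : (∏ i, β i) ≠ 0 := Finset.prod_ne_zero_iff.2 fun i _ => hβ0 i
  have hqX : (nm (∏ i, β i) : ℝ) ≤ X0 := by
    rw [hprod, hX0d, mul_comm 3 K, Real.rpow_mul hX0.le]
    calc ∏ i, (nm (β i) : ℝ) ≤ ∏ _i : Fin 3, X ^ K :=
          Finset.prod_le_prod (fun i _ => by linarith [hnβ i]) fun i _ => hD.bK i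
      _ = (X ^ K) ^ (3 : ℝ) := by
          rw [Finset.prod_const, Finset.card_univ, Fintype.card_fin, ← Real.rpow_natCast]
          norm_num
  have hsumz : ∑ i, (J i).z = nL X us β * L := by
    unfold TEM792.nL
    rw [div_mul_cancel₀ _ hL0.ne']
    show ∑ i, ((us i).z - Real.log (nm (β i))) = _
    rw [Finset.sum_sub_distrib, hprod, Real.log_prod (fun i _ => by linarith [hnβ i])]
  set w : ℝ := C * X0 ^ δ * B * (Real.exp (∑ i, (J i).z) / nm D) ^ (2 / 3 : ℝ) with hw
  have hDn : (0 : ℝ) < nm D := nm_cast_pos hDp.ne_zero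
  have hw0 : 0 ≤ w := by positivity
  refine ⟨W2 a P1' w, slp_two ha hP1'0 hw0, ?_, ?_⟩
  · intro γ φ hγ hφ hφK P hPP
    have h1 := H3 (π lam) (hP lam) Q us hD.z0 J hBel (fun _ => rfl) (∏ i, β i) D e s hq0 hDp he hs
      X0 hX01 hqX (hDK.trans hKX) (heK.trans hKX) (fun i => by
        refine le_trans ?_ hKX
        rw [Real.rpow_def_of_pos hX0]
        refine Real.exp_le_exp.2 ?_
        rw [mul_comm]
        exact hD.zK i) (3 * M) (by push_cast; linarith) A (by
          refine le_trans (le_of_eq ?_) hA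
          push_cast; ring) P1' B hP1'0 (by
          rw [Real.rpow_one]
          exact hP1'K.trans hKX) hB1 ?_ γ φ hγ hφ (hφK.trans hKX) P hPP
    · refine le_trans ?_ h1
      obtain ⟨k0, hk0, hk⟩ := alb_nat (h := h) (hP lam) us hD.bp
      refine mul_le_mul_of_nonneg_left (Finset.sum_le_sum fun k _ => ?_) (by
        have := n6_nonneg γ
        positivity)
      exact RMm_le_smul hk0 (fun m => hk (D * m)) _ _ _ _ (RMm_nonneg _ _ _ _ _ _)
    · intro Lm hLm1 hLmT s' W hW hRl _
      have hLm0 : 0 < Lm := by linarith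
      have hns0 : (0 : ℝ) < nm s := by linarith
      have hlog0 : 0 ≤ Real.log (Lm * nm s) :=
        Real.log_nonneg (one_le_mul_of_one_le_of_one_le hLm1 hsn)
      have hlogL : Real.log (Lm * nm s) / L ≤ max 0 i + 2 * η := by
        rw [div_le_iff₀ hL0, Real.log_mul hLm0.ne' hns0.ne']
        have h1 : Real.log Lm ≤ (max 0 i + η) * L := by
          have h2 := Real.log_le_log hLm0 hLmT
          rw [← hT, hTX, Real.log_rpow hX0] at h2
          exact h2
        rw [div_le_iff₀ hL0] at hsL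
        nlinarith
      have hiK : max 0 i ≤ K := by
        rw [← hi', div_le_iff₀ hL0]
        have h2 := Real.log_le_log hP1'0 hP1'K
        rwa [Real.log_rpow hX0] at h2
      have h2 := H1 X hXX (Real.log (Lm * nm s)) hlog0 (by
          rw [div_le_iff₀ hL0] at hlogL
          refine hlogL.trans (mul_le_mul_of_nonneg_right ?_ hL0.le)
          linarith) s' (fun i => ⟨(hRl i).kd.trans (hD.lump i).1, (hRl i).one (hD.lump i).2⟩)
        (fun i => (hRl i).z0) (fun i => by
          have h3 := (hRl i).zle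
          have h4 := hD.zK i
          have h5 : η * L ≤ 1 * L := mul_le_mul_of_nonneg_right hη1 hL0.le
          show _ ≤ (K + 2) * L
          nlinarith) (fun i => by
          refine (hRl i).dd.trans ?_
          have h4 : Real.exp (us i).z ≤ X ^ K := by
            rw [Real.rpow_def_of_pos hX0]
            refine Real.exp_le_exp.2 ?_
            rw [mul_comm]
            exact hD.zK i
          have h5 : X ^ η ≤ X ^ (1 : ℝ) := Real.rpow_le_rpow_of_exponent_le hX1.le hη1
          calc C * nm (us i).d * Real.exp (us i).z ≤ X ^ (1 : ℝ) * X ^ K * X ^ K := by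
                have := hD.dK i
                have h6 := hCX.trans h5
                gcongr
            _ = X ^ (2 * K + 1) := by
                rw [← Real.rpow_add hX0, ← Real.rpow_add hX0]
                congr 1; ring) (W * H) (one_le_mul_of_one_le_of_one_le hW hH) (fun i => by
          refine (hRl i).ht.trans ?_
          have := hD.tH i
          gcongr) (u + C / L) (by
          obtain ⟨i, hi⟩ := hu
          refine ⟨i, (hRl i).zle.trans ?_⟩
          show _ ≤ (u + C / L) * L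
          rw [add_mul, div_mul_cancel₀ _ hL0.ne']
          linarith)
      refine h2.trans ?_
      have hg3 : g3 d (u + C / L) (Real.log (Lm * nm s) / L) ≤ g3 d u i + 3 * η := by
        have h3 := g3_lip (d := d) (u := u) (u' := u + C / L) (i := max 0 i)
          (i' := Real.log (Lm * nm s) / L) hd hd8 (a := C / L) (b := 2 * η) (by positivity)
          (by positivity) le_rfl hlogL
        rw [g3_max] at h3
        linarith
      have htl : tl Dq (List.ofFn s') = ∑ i, (s' i).z := tl_ofFn s'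
      rw [htl]
      have e1 : X ^ (Real.log (Lm * nm s) / L + (∑ i, (s' i).z) / L +
          g3 d (u + C / L) (Real.log (Lm * nm s) / L) + η) =
          (Lm * nm s) * Real.exp (∑ i, (s' i).z) *
            X ^ (g3 d (u + C / L) (Real.log (Lm * nm s) / L) + η) := by
        have q1 : X ^ (Real.log (Lm * nm s) / L) = Lm * nm s := by
          rw [Real.rpow_def_of_pos hX0, mul_div_cancel₀ _ hL0.ne', Real.exp_log (by positivity)]
        have q2 : X ^ ((∑ i, (s' i).z) / L) = Real.exp (∑ i, (s' i).z) := by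
          rw [Real.rpow_def_of_pos hX0, mul_div_cancel₀ _ hL0.ne']
        rw [add_assoc, Real.rpow_add hX0, Real.rpow_add hX0, q1, q2]
      rw [e1]
      have e2 : Lm ≤ (Lm / T) ^ (1 / 3 : ℝ) * T := by
        have h3 : Lm / T ≤ 1 := (div_le_one hT0).2 hLmT
        have h4 : Lm / T ≤ (Lm / T) ^ (1 / 3 : ℝ) := by
          have h5 : 0 < Lm / T := by positivity
          calc Lm / T = (Lm / T) ^ (1 : ℝ) := (Real.rpow_one _).symm
            _ ≤ (Lm / T) ^ (1 / 3 : ℝ) :=
                Real.rpow_le_rpow_of_exponent_ge h5 h3 (by norm_num)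
        calc Lm = Lm / T * T := (div_mul_cancel₀ _ hT0.ne').symm
          _ ≤ _ := by gcongr
      have e3 : X ^ (g3 d (u + C / L) (Real.log (Lm * nm s) / L) + η) ≤
          X ^ (g3 d u i + 4 * η) := Real.rpow_le_rpow_of_exponent_le hX1.le (by linarith)
      have e4 : W ^ (2 * ((M : ℝ) / 2)) = W ^ M := by
        rw [← Real.rpow_natCast]
        congr 1; ring
      rw [e4]
      calc (W * H) ^ M * (Lm * nm s * Real.exp (∑ i, (s' i).z) *
            X ^ (g3 d (u + C / L) (Real.log (Lm * nm s) / L) + η))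
          ≤ (W * H) ^ M * (((Lm / T) ^ (1 / 3 : ℝ) * T) * X ^ η *
            Real.exp (∑ i, (s' i).z) * X ^ (g3 d u i + 4 * η)) := by
            gcongr
        _ = (Lm / T) ^ (1 / 3 : ℝ) * B * Real.exp (∑ i, (s' i).z) * W ^ M := by
            rw [hB, hTX, mul_pow]
            have e5 : X ^ (max 0 i + g3 d u i + 6 * η) =
                X ^ (max 0 i + η) * X ^ η * X ^ (g3 d u i + 4 * η) := by
              rw [← Real.rpow_add hX0, ← Real.rpow_add hX0]
              congr 1; ring
            rw [e5]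
            ring
  · rw [hP1', W2_max hP1 hX1, hw, hX0δ]
    have e1 : (Real.exp (∑ i, (J i).z) / nm D) ^ (2 / 3 : ℝ) =
        X ^ (2 / 3 * (nL X us β - Real.log (nm D) / L)) := by
      have q1 : Real.exp (∑ i, (J i).z) / nm D = X ^ (nL X us β - Real.log (nm D) / L) := by
        rw [Real.rpow_def_of_pos hX0, mul_sub, mul_div_cancel₀ _ hL0.ne', Real.exp_sub,
          Real.exp_log hDn, hsumz, mul_comm]
      rw [q1, ← Real.rpow_mul hX0.le, mul_comm]
    rw [e1]
    have e2 : max i (i / 3) = min 0 i / 3 + max 0 i := by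
      rcases le_total 0 i with h | h
      · rw [min_eq_left h, max_eq_right h, max_eq_left (by linarith)]
        ring
      · rw [min_eq_right h, max_eq_left h, max_eq_right (by linarith)]
        ring
    calc X ^ (min 0 i / 3) * (C * X ^ η * B *
          X ^ (2 / 3 * (nL X us β - Real.log (nm D) / L)))
        ≤ X ^ (min 0 i / 3) * (X ^ η * X ^ η * B *
          X ^ (2 / 3 * (nL X us β - Real.log (nm D) / L))) := by gcongr
      _ = H ^ M * X ^ (min 0 i / 3 + (η + (η + ((max 0 i + g3 d u i + 6 * η) +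
          2 / 3 * (nL X us β - Real.log (nm D) / L))))) := by
          rw [hB, Real.rpow_add hX0 (min 0 i / 3), Real.rpow_add hX0 η, Real.rpow_add hX0 η,
            Real.rpow_add hX0 (max 0 i + g3 d u i + 6 * η)]
          ring
      _ ≤ _ := by
          refine mul_le_mul_of_nonneg_left ?_ (by positivity)
          refine Real.rpow_le_rpow_of_exponent_le hX1.le ?_
          rw [e2]
          linarith

end Crest.Agent.R017.RXX502
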