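import Crest.Agent.R017.RXXc_502

/-!
# Row 17, class E, x-side: (RH) of 372's `alX`, the cube class, trivial bound (helper502)

* `rh_alX_cube` : `V * P ^ (1/3)`, `V ≤ X ^ (5/3 (nL - lD) - le + ε)`
* **`rh_alX`** : the two classes
-/

set_option autoImplicit false
set_option linter.unusedVariables false
set_option maxHeartbeats 800000

noncomputable section

open Complex MeasureTheory
open scoped ComplexConjugate

namespace Crest.Agent.R017.RXX502

open Crest.Agent.R012 Crest.Agent.R012.Eis Crest.Agent.R012.MC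
open Crest.Agent.R012.LS2 (S mem_S bl mem_bl)
open Crest.Agent.R012.T411 (NCube)
open Crest.Agent.R017.CM106 (CS TG FS)
open Crest.Agent.R017.FE47
open Crest.Agent.R017.B770
open Crest.Agent.R017.Prov71
open Crest.Agent.R017.HP842 (sqc Pc pc)
open Crest.Agent.R017.TP320 (tw)
open Crest.Agent.R017.NtC320 (gC cB cB_prim)
open Crest.Agent.R017.E1551 (jb jb_pos Adm)
open Crest.Agent.R017.PX764 (n6)
open Crest.Agent.R017.E3D579 (n6_nonneg)
open Crest.Agent.R017.Mode405 (Slp)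
open Crest.Agent.R017.R3571
open Crest.Agent.R017.RHX116 (le_nm_cB card_prin wt_pr CS_gC_sub)
open Crest.Agent.R017.RHs241 (CS_triv)
open Crest.Agent.R017.E5k54 (alb)
open Crest.Agent.R017.TEM792 (LD nL Xn Xn_pos)
open Crest.Agent.R017.RXn770 (g3 alb_nat RMm_le_smul)
open Crest.Agent.R017.I1146 (tw3)
open Crest.Agent.R017.ExP960 (BdX u3 u3' ph norm_ph)
open Crest.Agent.R017.E4Df372 (alX fs_alX)
open Crest.Agent.R017.Red848 (red Sh Exc exists_sh red_ok)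
open Crest.Agent.R017.TEX792 (xN alX_eq zeX norm_zeX alb_prim' adm_alX xN_ne)
open Crest.Agent.R017.PoHx72 (Cls)

variable {Λ : Type*} {π : Λ → DPar} {h : ℝ → ℝ}

open Classical in
lemma card_cls {P : ℝ} (hP : 0 < P) {t k₀ : Eis} (ht : t ≠ 0) (hk₀ : k₀ ≠ 0) :
    (((bl P).filter (Cls (PrV (t ^ 2 * k₀)) true)).card : ℝ) ≤
      16 * (P * nm (t * k₀ ^ 2)) ^ (1 / 3 : ℝ) := by
  refine le_trans ?_ (card_prin hP (mul_ne_zero ht (pow_ne_zero 2 hk₀)))
  refine Nat.cast_le.2 (Finset.card_le_card fun k hk => ?_)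
  obtain ⟨h1, h2⟩ := Finset.mem_filter.1 hk
  exact Finset.mem_filter.2 ⟨h1, cls_true ht h2⟩

set_option maxHeartbeats 1600000 in
open Classical in
/-- **(RH) of `alX`, the cube class, trivial bound** -/
theorem rh_alX_cube {c₀ : ℝ} (hpu : PU h c₀) {P' : DPar} (hP : P'.OK) (hE : Exc P') {ε : ℝ}
    (hε : 0 < ε) {K : ℝ} (hK : 1 ≤ K) {k₀ : Eis} (hs : Sh P' k₀) {t : Eis} (ht : t ∈ SM P'.n) :
    ∃ X₀ : ℝ, 1 < X₀ ∧ ∀ X : ℝ, X₀ ≤ X →
      ∀ (a : BdX) (β : Fin 3 → Eis), a.ok → (∀ i, (u3 a i).z ≤ K * Real.log X) →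
      (∀ i, IsPrim (β i)) → ∀ A : ℝ, 2 ≤ A →
      ∀ D e : Eis, IsPrim D → IsPrim e → ∃ V : ℝ, 0 ≤ V ∧
        (∀ γ φ : Eis, IsPrim γ → IsPrim φ → ∀ P : ℝ, 0 < P →
          (nm γ : ℝ) * n6 γ ^ 2 * ∑ k ∈ (bl P).filter (Cls (PrV (t ^ 2 * k₀)) true),
            RMm A (fun m => alX P' h t a β (D * m)) e γ φ k ≤ V * P ^ (1 / 3 : ℝ)) ∧
        V ≤ X ^ (5 / 3 * (nL X (u3 a) β - Real.log (nm D) / Real.log X) -
          Real.log (nm e) / Real.log X + ε) := by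
  obtain ⟨R, hR0, hR⟩ := exists_R (cs_cx hpu.cs)
  obtain ⟨Ac, hAc1, hAc⟩ := AL813.cx_bdd hpu
  have hK0 : 0 < K := by linarith
  set ε₁ : ℝ := ε / (36 * K) with hε₁
  have hε₁0 : 0 < ε₁ := by positivity
  obtain ⟨Cτ, hCτ, hτ⟩ := Div277.tau_le_rpow hε₁0
  set s : Eis := t * k₀ ^ 2 with hsd
  have hs0 : s ≠ 0 := mul_ne_zero ht.1 (pow_ne_zero 2 hs.k0)
  have hjc := jc_nonneg
  set B : ℝ := 3 * R with hB
  have hB0 : 0 ≤ B := by positivity
  have hns : (0 : ℝ) < nm s := nm_cast_pos hs0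
  have hAc0 : 0 ≤ Ac := by linarith
  set C0 : ℝ := 16 * (nm s : ℝ) ^ (1 / 3 : ℝ) *
    (100 * Real.exp (2 * B) * (2 * ((Cτ * (Real.exp B) ^ ε₁) ^ 3 * Ac ^ 3))) ^ 2 * jc with hC0
  have hC00 : 0 ≤ C0 := by positivity
  obtain ⟨X₂, hX₂, H3⟩ := XSup271.exists_X (C := C0 + 1) (by linarith)
    (show 0 < ε / 2 by positivity)
  refine ⟨X₂, hX₂, ?_⟩
  intro X hX a β ha hz hβ A hA D e hD he
  have hX1 : 1 < X := hX₂.trans_le hX
  have hX0 : 0 < X := by linarith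
  set L := Real.log X with hL
  have hL0 : 0 < L := Real.log_pos hX1
  have hD0 := nm_cast_pos hD.ne_zero
  have hD1 := one_le_nm hD.ne_zero
  have he0 := nm_cast_pos he.ne_zero
  have he1 := one_le_nm he.ne_zero
  set α : Eis → ℂ := alX P' h t a β with hα
  have hFS : FS α := fs_alX hP (bump_of_cs hpu.cs) hβ
  set E : ℝ := Xn (u3 a) β with hEd
  have hE0 : 0 < E := Xn_pos _ hβ
  have hadm := adm_alX hR0 hR P' t ha hβ
  have hprod1 : (1 : ℝ) ≤ nm (∏ i, β i) := one_le_nm (HP842.isPrim_prod hβ).ne_zero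
  have hprod0 : (0 : ℝ) < nm (∏ i, β i) := by linarith
  have hEX : E ≤ X ^ (3 * K) := by
    have h1 : ∑ i, (u3 a i).z ≤ 3 * K * L := by
      rw [Fin.sum_univ_three]
      have := hz 0
      have := hz 1
      have := hz 2
      linarith
    calc E = Real.exp (∑ i, (u3 a i).z) / nm (∏ i, β i) := rfl
      _ ≤ Real.exp (∑ i, (u3 a i).z) := div_le_self (Real.exp_pos _).le hprod1
      _ ≤ Real.exp (3 * K * L) := Real.exp_le_exp.2 h1
      _ = X ^ (3 * K) := by rw [Real.rpow_def_of_pos hX0]; congr 1; ring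
  have hwin : ∀ n, α n ≠ 0 → IsPrim n ∧ Squarefree n ∧ |Real.log (nm n) - Real.log E| ≤ B := by
    intro n hn
    have h1 := hadm.sup n hn
    have h2 := hadm.win n hn
    rw [mem_S (by positivity)] at h1
    refine ⟨h1.2.1, h1.2.2, h2.trans (le_of_eq (by rw [hB]; ring))⟩
  set As : ℝ := 2 * ((Cτ * (X ^ (3 * K) * Real.exp B) ^ ε₁) ^ 3 * Ac ^ 3) with hAs
  have hAs0 : 0 ≤ As := by positivity
  have hsup : ∀ n, ‖α n‖ ≤ As := by
    intro n
    by_cases h0 : α n = 0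
    · rw [h0, norm_zero]; exact hAs0
    obtain ⟨hp, -, hw⟩ := hwin n h0
    have hn0 : (0 : ℝ) < nm n := nm_cast_pos hp.ne_zero
    refine (norm_alX hAc hP hE t ha hβ hp).trans ?_
    have h1 : (nm n : ℝ) ≤ X ^ (3 * K) * Real.exp B := by
      have h2 := (abs_le.1 hw).2
      calc (nm n : ℝ) = Real.exp (Real.log (nm n)) := (Real.exp_log hn0).symm
        _ ≤ Real.exp (Real.log E + B) := Real.exp_le_exp.2 (by linarith)
        _ = E * Real.exp B := by rw [Real.exp_add, Real.exp_log hE0]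
        _ ≤ _ := by gcongr
    have h3 : (Div277.tau n : ℝ) ≤ Cτ * (X ^ (3 * K) * Real.exp B) ^ ε₁ :=
      (hτ n hp.ne_zero).trans (mul_le_mul_of_nonneg_left
        (Real.rpow_le_rpow hn0.le h1 hε₁0.le) (by linarith))
    rw [hAs]
    gcongr
  set Q : ℝ := 100 * Real.exp (2 * B) * As with hQ
  have hQ0 : 0 ≤ Q := by positivity
  set V : ℝ := 16 * (nm s : ℝ) ^ (1 / 3 : ℝ) * Q ^ 2 * jc *
    ((E / nm D) ^ (5 / 3 : ℝ) * (nm e : ℝ)⁻¹) with hV
  refine ⟨V, by positivity, ?_, ?_⟩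
  · intro γ φ hγ hφ P hPP
    have hγ0 := nm_cast_pos hγ.ne_zero
    have hγ1 := one_le_nm hγ.ne_zero
    have hcBp : IsPrim (cB γ e) := cB_prim he
    have hcB1 := one_le_nm hcBp.ne_zero
    have hcB0 := nm_cast_pos hcBp.ne_zero
    have hcB := le_nm_cB hγ he
    have hdγ : IsPrim (D * γ) := hD.mul hγ
    have hnde : (nm (D * γ * cB γ e) : ℝ) = nm D * nm γ * nm (cB γ e) := by
      rw [nm_mul, nm_mul]; push_cast; rfl
    set U : ℝ := (E / (nm D * nm γ * nm (cB γ e))) ^ (5 / 3 : ℝ) *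
      (nm (cB γ e) : ℝ) ^ (-(1 / 3 : ℝ)) with hU
    have hU0 : 0 ≤ U := by positivity
    set M : ℝ := 16 * (P * nm s) ^ (1 / 3 : ℝ) * (Q ^ 2 * U) with hM
    have hM0 : 0 ≤ M := by positivity
    have hone : ∀ (v : ℝ) (k : Eis), ‖CS (gC α (D * γ) (cB γ e) φ (tw (1 / 6) v)) k‖ ^ 2 ≤
        Q ^ 2 * U := by
      intro v k
      have h1 := CS_triv hE0 hB0 hAs0 hwin hsup hdγ hcBp φ k v
      rw [hnde] at h1
      refine (pow_le_pow_left₀ (norm_nonneg _) h1 2).trans ?_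
      have e2 : ((E / (nm D * nm γ * nm (cB γ e))) ^ (5 / 6 : ℝ)) ^ 2 =
          (E / (nm D * nm γ * nm (cB γ e))) ^ (5 / 3 : ℝ) := by
        rw [← Real.rpow_natCast, ← Real.rpow_mul (by positivity)]; congr 1; norm_num
      have e3 : ((nm (cB γ e) : ℝ) ^ (-(1 / 6 : ℝ))) ^ 2 = (nm (cB γ e) : ℝ) ^ (-(1 / 3 : ℝ)) := by
        rw [← Real.rpow_natCast, ← Real.rpow_mul hcB0.le]; congr 1; norm_num
      have e4 : ∀ a c d : ℝ, (a * (c * d)) ^ 2 = a ^ 2 * (c ^ 2 * d ^ 2) := by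
        intro a c d; ring
      rw [e4, e2, e3]
    have hmx : ∀ v : ℝ, ∑ k ∈ (bl P).filter (Cls (PrV (t ^ 2 * k₀)) true),
        ‖CS (gC α (D * γ) (cB γ e) φ (tw (1 / 6) v)) k‖ ^ 2 ≤ M * (1 + |v|) ^ 0 := by
      intro v
      rw [pow_zero, mul_one]
      calc ∑ k ∈ (bl P).filter (Cls (PrV (t ^ 2 * k₀)) true),
            ‖CS (gC α (D * γ) (cB γ e) φ (tw (1 / 6) v)) k‖ ^ 2
          ≤ ((bl P).filter (Cls (PrV (t ^ 2 * k₀)) true)).card • (Q ^ 2 * U) :=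
            Finset.sum_le_card_nsmul _ _ _ fun k _ => hone v k
        _ = (((bl P).filter (Cls (PrV (t ^ 2 * k₀)) true)).card : ℝ) * (Q ^ 2 * U) :=
            nsmul_eq_mul _ _
        _ ≤ 16 * (P * nm s) ^ (1 / 3 : ℝ) * (Q ^ 2 * U) :=
            mul_le_mul_of_nonneg_right (card_cls hPP ht.1 hs.k0) (by positivity)
        _ = M := by rw [hM]
    have hRM := RM_sum (A := A) (J := 0) (by rw [Nat.cast_zero, zero_add]; exact hA) hFS hD hγ he φ
      ((bl P).filter (Cls (PrV (t ^ 2 * k₀)) true)) (fun k => k) hmx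
    have hw := wt_pr (E := E) (s := 1) hE0 hD0 hγ0 hcB1 he0 hcB
      (show n6 γ = (nm γ : ℝ) ^ (-(1 / 6 : ℝ)) by unfold PX764.n6; congr 1; norm_num) one_pos
    have m1 : min 1 ((nm D : ℝ) * nm γ * nm (cB γ e) * 1) = 1 := by
      refine min_eq_left ?_
      rw [mul_one]
      exact one_le_mul_of_one_le_of_one_le (one_le_mul_of_one_le_of_one_le hD1 hγ1) hcB1
    have m2 : min 1 ((nm D : ℝ) * nm e * 1) = 1 := by
      refine min_eq_left ?_
      rw [mul_one]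
      exact one_le_mul_of_one_le_of_one_le hD1 he1
    rw [m1, m2, mul_one, mul_one] at hw
    have hn6 := n6_nonneg γ
    calc (nm γ : ℝ) * n6 γ ^ 2 * ∑ k ∈ (bl P).filter (Cls (PrV (t ^ 2 * k₀)) true),
          RMm A (fun m => α (D * m)) e γ φ k
        ≤ (nm γ : ℝ) * n6 γ ^ 2 * (M * jc) :=
          mul_le_mul_of_nonneg_left hRM (by positivity)
      _ = 16 * (P ^ (1 / 3 : ℝ) * (nm s : ℝ) ^ (1 / 3 : ℝ)) * Q ^ 2 * jc *
          ((nm γ : ℝ) * n6 γ ^ 2 * U) := by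
          rw [hM, Real.mul_rpow hPP.le hns.le]; ring
      _ ≤ 16 * (P ^ (1 / 3 : ℝ) * (nm s : ℝ) ^ (1 / 3 : ℝ)) * Q ^ 2 * jc *
          ((E / nm D) ^ (5 / 3 : ℝ) * (nm e : ℝ)⁻¹) := by gcongr
      _ = V * P ^ (1 / 3 : ℝ) := by rw [hV]; ring
  · have e1 : (E / nm D) ^ (5 / 3 : ℝ) =
        X ^ (5 / 3 * (nL X (u3 a) β - Real.log (nm D) / L)) := by
      have q1 : E / nm D = X ^ (nL X (u3 a) β - Real.log (nm D) / L) := by
        have q2 : E = X ^ (nL X (u3 a) β) := by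
          rw [Real.rpow_def_of_pos hX0]
          unfold TEM792.nL
          rw [← hL, mul_div_cancel₀ _ hL0.ne', Real.exp_sub, Real.exp_log hprod0]
          rfl
        rw [Real.rpow_sub hX0, ← q2]
        congr 1
        rw [Real.rpow_def_of_pos hX0, ← hL, mul_div_cancel₀ _ hL0.ne', Real.exp_log hD0]
      rw [q1, ← Real.rpow_mul hX0.le, mul_comm]
    have e2 : (nm e : ℝ)⁻¹ = X ^ (-(Real.log (nm e) / L)) := by
      rw [Real.rpow_neg hX0.le, Real.rpow_def_of_pos hX0, ← hL, mul_div_cancel₀ _ hL0.ne',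
        Real.exp_log he0]
    have e3 : 16 * (nm s : ℝ) ^ (1 / 3 : ℝ) * Q ^ 2 * jc = C0 * X ^ (ε / 2) := by
      have q1 : (X ^ (3 * K) * Real.exp B) ^ ε₁ = X ^ (3 * K * ε₁) * (Real.exp B) ^ ε₁ := by
        rw [Real.mul_rpow (by positivity) (Real.exp_pos _).le, ← Real.rpow_mul hX0.le]
      have q2 : (X ^ (3 * K * ε₁)) ^ 6 = X ^ (ε / 2) := by
        rw [← Real.rpow_natCast, ← Real.rpow_mul hX0.le]
        congr 1
        rw [hε₁]
        push_cast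
        field_simp
        norm_num
      rw [hC0, hQ, hAs, q1, ← q2]
      ring
    have h4 := H3 X hX
    rw [hV, e3, e1, e2]
    calc C0 * X ^ (ε / 2) * (X ^ (5 / 3 * (nL X (u3 a) β - Real.log (nm D) / L)) *
          X ^ (-(Real.log (nm e) / L)))
        ≤ X ^ (ε / 2) * X ^ (ε / 2) * (X ^ (5 / 3 * (nL X (u3 a) β - Real.log (nm D) / L)) *
          X ^ (-(Real.log (nm e) / L))) := by
          have : C0 ≤ X ^ (ε / 2) := by linarith
          gcongr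
      _ = X ^ (5 / 3 * (nL X (u3 a) β - Real.log (nm D) / L) - Real.log (nm e) / L + ε) := by
          rw [← Real.rpow_add hX0, ← Real.rpow_add hX0, ← Real.rpow_add hX0]
          congr 1
          ring

lemma slp_min {a : ℕ} {W W' : ℝ → ℝ} (h : Slp a W) (h' : Slp a W') :
    Slp a (fun P => min (W P) (W' P)) := by
  refine ⟨fun P hP => le_min (h.nonneg P hP) (h'.nonneg P hP), fun P' P hP' hPP => ?_,
    fun P hP => ?_⟩
  · have hP : 0 < P := by linarith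
    have h0 : (0 : ℝ) ≤ (P' / P) ^ (1 / 3 : ℝ) := by positivity
    beta_reduce
    rw [mul_min_of_nonneg _ _ h0]
    exact min_le_min (h.low P' P hP' hPP) (h'.low P' P hP' hPP)
  · beta_reduce
    rw [mul_min_of_nonneg _ _ (by positivity)]
    exact min_le_min (h.dbl P hP) (h'.dbl P hP)

open Classical in
/-- **(RH) of `alX` in the two classes** (the cube class by the trivial bound) -/
theorem rh_alX {c₀ : ℝ} (hpu : PU h c₀) (hP : ∀ lam, (π lam).OK) (hE : ∀ lam, Exc (π lam))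
    {d : ℝ} (hd : 0 ≤ d) (hd8 : d ≤ 1 / 8) (HR : RClX π h d) (lam : Λ) {ε : ℝ} (hε : 0 < ε)
    {K : ℝ} (hK : 1 ≤ K) :
    ∃ M aS A₀ : ℕ, 1 ≤ aS ∧ ∀ k₀ : Eis, Sh (π lam) k₀ → ∀ t : Eis, t ∈ SM (π lam).n →
      ∃ X₀ : ℝ, 1 < X₀ ∧ ∀ X : ℝ, X₀ ≤ X → ∀ H : ℝ, 1 ≤ H →
      ∀ (a : BdX) (β : Fin 3 → Eis), a.ok → LD X K H (u3 a) β → LD X K H (u3' a) β →
      ∀ u : ℝ, (∃ i, (u3 a i).z ≤ u * Real.log X) → (∃ i, (u3' a i).z ≤ u * Real.log X) →
      ∀ A : ℝ, (A₀ : ℝ) ≤ A →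
      ∀ D e : Eis, IsPrim D → IsPrim e → (nm D : ℝ) ≤ X ^ K → (nm e : ℝ) ≤ X ^ K →
      ∀ P1 : ℝ, 0 < P1 → P1 ≤ X ^ K → ∃ W0 : Bool → ℝ → ℝ, (∀ jj, Slp aS (W0 jj)) ∧
        (∀ (jj : Bool) (γ φ : Eis), IsPrim γ → IsPrim φ → (nm φ : ℝ) ≤ X ^ K → ∀ P : ℝ, 0 < P →
          (nm γ : ℝ) * n6 γ ^ 2 * ∑ k ∈ (bl P).filter (Cls (PrV (t ^ 2 * k₀)) jj),
            RMm A (fun m => alX (π lam) h t a β (D * m)) e γ φ k ≤ W0 jj P) ∧
        W0 false P1 ≤ H ^ M * X ^ (max (Real.log P1 / Real.log X)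
          (Real.log P1 / Real.log X / 3) + g3 d u (Real.log P1 / Real.log X) +
          2 / 3 * (nL X (u3 a) β - Real.log (nm D) / Real.log X) + ε) ∧
        W0 true P1 ≤ X ^ (Real.log P1 / Real.log X / 3 +
          5 / 3 * (nL X (u3 a) β - Real.log (nm D) / Real.log X) -
          Real.log (nm e) / Real.log X + ε) := by
  obtain ⟨M, aS, A₀, haS, hA₀, H1⟩ := rh_alX_nc hpu hP hE hd hd8 HR lam hε hK
  refine ⟨M, aS, A₀, haS, fun k₀ hs t ht => ?_⟩
  obtain ⟨X₁, hX₁, H2⟩ := H1 k₀ hs t ht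
  obtain ⟨X₂, hX₂, H3⟩ := rh_alX_cube hpu (hP lam) (hE lam) hε hK hs ht
  refine ⟨max X₁ X₂, lt_max_of_lt_left hX₁, ?_⟩
  intro X hX H hH a β ha hL1 hL2 u hu hu' A hA D e hD he hDK heK P1 hP1 hP1K
  have hX1 : 1 < X := hX₁.trans_le ((le_max_left _ _).trans hX)
  have hX0 : 0 < X := by linarith
  have hL : 0 < Real.log X := Real.log_pos hX1
  have hA2 : (2 : ℝ) ≤ A := le_trans (by exact_mod_cast hA₀) hA
  obtain ⟨W, hW, b1, c1⟩ := H2 X ((le_max_left _ _).trans hX) H hH a β ha hL1 hL2 u hu hu' A hA D e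
    hD he hDK heK P1 hP1 hP1K
  obtain ⟨V, hV, b2, c2⟩ := H3 X ((le_max_right _ _).trans hX) a β ha hL1.zK hL1.bp A hA2 D e hD he
  refine ⟨fun jj => if jj = true then (fun P => V * P ^ (1 / 3 : ℝ)) else W, ?_, ?_, ?_, ?_⟩
  · intro jj
    by_cases hj : jj = true
    · simp only [if_pos hj]
      exact slp_third haS hV
    · simp only [if_neg hj]
      exact hW
  · intro jj γ φ hγ hφ hφK P hPP
    cases jj with
    | true =>
      simp only [if_true]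
      exact b2 γ φ hγ hφ P hPP
    | false =>
      simp only [Bool.false_eq_true, if_false]
      exact b1 γ φ hγ hφ hφK P hPP
  · simp only [Bool.false_eq_true, if_false]
    exact c1
  · simp only [if_true]
    have e1 : P1 ^ (1 / 3 : ℝ) = X ^ (Real.log P1 / Real.log X / 3) := by
      have q1 : P1 = X ^ (Real.log P1 / Real.log X) := by
        rw [Real.rpow_def_of_pos hX0, mul_div_cancel₀ _ hL.ne', Real.exp_log hP1]
      conv_lhs => rw [q1]
      rw [← Real.rpow_mul hX0.le]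
      congr 1
      ring
    rw [e1]
    refine (mul_le_mul_of_nonneg_right c2 (by positivity)).trans (le_of_eq ?_)
    rw [← Real.rpow_add hX0]
    congr 1
    ring

end Crest.Agent.R017.RXX502
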