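import Crest.Agent.R017.RGc_64
import Crest.Agent.R017.OpenT_792
import Crest.Agent.R017.Leg9_381
import Crest.Agent.R017.DkB_848

/-!
# Row 17, T.7 (RG rule, exceptional class), part a (helper848): kernel-generic second moments

* `VK K L w`, `SFK K z D0 q P h l ps` : second moments over cube-free frequencies, kernel `K`
  (`K = Kg` : `VF`, `SF`)
* `LegK`, `OpenK`, `SubK`, `MergeK` : the four list rules for the kernel `K` (leaves, to be proved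
  from `HP842.Ker K`)
-/

set_option autoImplicit false

noncomputable section

open Complex
open scoped ComplexConjugate

namespace Crest.Agent.R017.RX848

open Crest.Agent.R012 Crest.Agent.R012.Eis Crest.Agent.R012.LS2 Crest.Agent.R012.Gauss880
open Crest.Agent.R017.CM106 Crest.Agent.R017.HP842 Crest.Agent.R017.FE47
open Crest.Agent.R017.End699
open Crest.Agent.R017.B770
open Crest.Agent.R017.Prov71
open Crest.Agent.R017.Rough381 (VF VF_nonneg)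
open Crest.Agent.R017.Leg381
open Crest.Agent.R017.OpT792 (ChO)

open Classical in
/-- the second moment over cube-free frequencies, kernel `K` -/
def VK (K : Eis → Eis → ℂ) (L : ℝ) (w : Eis → ℂ) : ℝ :=
  ∑ j ∈ (bl L).filter CubeFree, ‖KS K w j‖ ^ 2

/-- the second moment of a flagged list, kernel `K` -/
def SFK (K : Eis → Eis → ℂ) (z D0 : ℝ) (q : Eis) (P : DPar) (h : ℝ → ℝ) (l : ℝ)
    (ps : List Pf) : ℝ :=
  VK K (Real.exp l) (sqc q (alF z D0 P h ps))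

lemma VK_Kg (L : ℝ) (w : Eis → ℂ) : VK Kg L w = VF L w := rfl

lemma SFK_Kg (z D0 : ℝ) (q : Eis) (P : DPar) (h : ℝ → ℝ) (l : ℝ) (ps : List Pf) :
    SFK Kg z D0 q P h l ps = SF z D0 q P h l ps := rfl

lemma VK_nonneg (K : Eis → Eis → ℂ) (L : ℝ) (w : Eis → ℂ) : 0 ≤ VK K L w :=
  Finset.sum_nonneg fun _ _ => by positivity

lemma VK_mono (K : Eis → Eis → ℂ) {L L' : ℝ} (h0 : 0 ≤ L) (h : L ≤ L') (w : Eis → ℂ) :
    VK K L w ≤ VK K L' w := by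
  classical
  unfold VK
  refine Finset.sum_le_sum_of_subset_of_nonneg ?_ fun _ _ _ => by positivity
  refine Finset.filter_subset_filter _ fun j hj => ?_
  rw [mem_bl h0] at hj
  rw [mem_bl (h0.trans h)]
  exact ⟨hj.1, hj.2.trans h⟩

/-- **leaf K1** : `Leg3_381.leg_list` for the kernel `K` -/
def LegK (K : Eis → Eis → ℂ) (h : ℝ → ℝ) : Prop :=
  ∀ (N : ℕ) (ε : ℝ), 0 < ε → ∀ M : ℝ, 0 ≤ M → ∃ C r : ℝ, 1 ≤ C ∧ 0 ≤ r ∧ ∀ X : ℝ, 3 ≤ X →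
    ∀ (P : DPar), P.OK → ∀ (z D0 : ℝ) (q : Eis), 1 ≤ D0 →
    ∀ (k : ℝ) (ps : List Pf), 0 ≤ k → k ≤ Real.log X → ps.length ≤ N →
    (∀ p ∈ ps, 0 ≤ p.1.z ∧ p.1.z ≤ Real.log X) → ∀ Bd : ℝ, 0 ≤ Bd →
    (∀ (l : ℝ) (ps' : List Pf), 0 ≤ l → List.Forall₂ (ChF D0 r) ps' ps →
      |l - (k + LF ps - LF ps')| ≤ r →
      SFK K z D0 q P h l ps' ≤ Bd * cstF ps' ps ^ M * Real.exp (LF ps' - LF ps)) →
    SFK K z D0 q P h k ps ≤ C * X ^ ε * Bd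

/-- **leaf K2** : `OpenT_792.open_T` for the kernel `K` -/
def OpenK (K : Eis → Eis → ℂ) (h : ℝ → ℝ) : Prop :=
  ∀ (N : ℕ) (ε : ℝ), 0 < ε → ∀ M : ℝ, 0 ≤ M → ∃ C r : ℝ, 1 ≤ C ∧ 0 ≤ r ∧ ∀ X : ℝ, 3 ≤ X →
    ∀ (P : DPar), P.OK → ∀ (z D0 : ℝ) (q : Eis), 1 ≤ D0 →
    ∀ (k : ℝ) (ps : List Pf), 0 ≤ k → k ≤ Real.log X → ps.length ≤ N →
    (∀ p ∈ ps, 0 ≤ p.1.z ∧ p.1.z ≤ Real.log X) → ∀ Bd : ℝ, 0 ≤ Bd →
    (∀ (l : ℝ) (ps' : List Pf), 0 ≤ l → List.Forall₂ (ChO D0 r) ps' ps →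
      |l - (k + LF ps - LF ps')| ≤ r →
      SFK K z D0 q P h l ps' ≤ Bd * cstF ps' ps ^ M * Real.exp (LF ps' - LF ps)) →
    SFK K z D0 q P h k ps ≤ C * X ^ ε * Bd

/-- **leaf K3** : `Leg6_381.sub_list` for the kernel `K` -/
def SubK (K : Eis → Eis → ℂ) (h : ℝ → ℝ) : Prop :=
  ∀ (N : ℕ) (B₀ : ℝ), 0 ≤ B₀ → ∀ ε : ℝ, 0 < ε → ∀ M : ℝ, 0 ≤ M → ∃ C r : ℝ, 1 ≤ C ∧ 0 ≤ r ∧
    ∀ X : ℝ, 3 ≤ X → ∀ (P : DPar), P.OK → ∀ (z D0 : ℝ) (q : Eis), 1 ≤ D0 →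
    ∀ g : Eis, IsPrim g → (nm g : ℝ) ≤ X ^ B₀ →
    ∀ (k : ℝ) (ps : List Pf), 0 ≤ k → k ≤ Real.log X → ps.length ≤ N →
    (∀ p ∈ ps, 0 ≤ p.1.z ∧ p.1.z ≤ Real.log X) → ∀ Bd : ℝ, 0 ≤ Bd →
    (∀ (l : ℝ) (ps' : List Pf), 0 ≤ l → List.Forall₂ (ChG r) ps' ps →
      LF ps' ≤ LF ps - Real.log (nm g) + r →
      LF ps - Real.log (nm g) - N * Real.log D0 - r ≤ LF ps' →
      (g ≠ 1 → 1 ≤ z → (∀ p ∈ ps, p.2 = true) →
        LF ps' ≤ LF ps - min (Real.log z) (Real.log D0) + r) →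
      |l - (k + LF ps - Real.log (nm g) - LF ps')| ≤ r →
      SFK K z D0 (q * g) P h l ps' ≤
        Bd * cstF ps' ps ^ M * Real.exp (LF ps' + Real.log (nm g) - LF ps)) →
    VK K (Real.exp k) (sqc (q * g) (CM106.sub (alF z D0 P h ps) g)) ≤ C * X ^ ε * Bd

open Classical in
/-- **leaf K4** : `Leg9_381.merge_list` for the kernel `K` -/
def MergeK (K : Eis → Eis → ℂ) (h : ℝ → ℝ) : Prop :=
  ∀ (N : ℕ) (B₀ : ℝ), 0 ≤ B₀ → ∀ ε : ℝ, 0 < ε → ∀ M : ℝ, 0 ≤ M → ∃ C r : ℝ, 1 ≤ C ∧ 0 ≤ r ∧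
    ∀ X : ℝ, 3 ≤ X → ∀ (P : DPar), P.OK → ∀ (z D0 : ℝ) (q : Eis), 1 ≤ D0 →
    ∀ g : Eis, IsPrim g → (nm g : ℝ) ≤ X ^ B₀ →
    ∀ (b : ℝ) (Us : Finset Eis), 0 ≤ b → b ≤ B₀ * Real.log X →
    (∀ U ∈ Us, IsPrim U ∧ IsCoprime g U ∧ |Real.log (nm U) - b| ≤ 1) →
    ∀ (k : ℝ) (ps : List Pf), 0 ≤ k → k ≤ Real.log X → ps.length ≤ N →
    (∀ p ∈ ps, 0 ≤ p.1.z ∧ p.1.z ≤ Real.log X) → ∀ Bd : ℝ, 0 ≤ Bd →
    (∀ (l : ℝ) (ps' : List Pf), 0 ≤ l → List.Forall₂ (ChG r) ps' ps →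
      (∀ p ∈ ps', p.2 = false) →
      LF ps' ≤ LF ps - Real.log (nm g) - b + r →
      LF ps - Real.log (nm g) - b - N * Real.log D0 - r ≤ LF ps' →
      |l - (k + LF ps - Real.log (nm g) - LF ps')| ≤ r →
      SFK K z D0 (q * g) P h l ps' ≤
        Bd * cstF ps' ps ^ M * Real.exp (LF ps' + Real.log (nm g) + b - LF ps)) →
    ∑ U ∈ Us, ∑ κ ∈ (bl (Real.exp k)).filter (fun κ => CubeFree (κ * U)),
      ‖KS K (sqc (q * (g * U)) (CM106.sub (alF z D0 P h ps) (g * U))) (κ * U)‖ ^ 2 ≤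
      C * X ^ ε * Bd

/-! ### the generic kernel -/

theorem legK_Kg {h : ℝ → ℝ} {c : ℝ} (hpu : PU h c) : LegK Kg h :=
  fun N _ hε _ hM => leg_list hpu N hε hM

theorem openK_Kg {h : ℝ → ℝ} {c : ℝ} (hpu : PU h c) : OpenK Kg h :=
  fun N _ hε _ hM => OpT792.open_T hpu N hε hM

theorem subK_Kg {h : ℝ → ℝ} {c : ℝ} (hpu : PU h c) : SubK Kg h :=
  fun N _ hB₀ _ hε _ hM => sub_list hpu N hB₀ hε hM

theorem mergeK_Kg {h : ℝ → ℝ} {c : ℝ} (hpu : PU h c) : MergeK Kg h :=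
  fun N _ hB₀ _ hε _ hM => merge_list hpu N hB₀ hε hM

end Crest.Agent.R017.RX848
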