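import Crest.Agent.R017.PrD5_502
import Crest.Agent.R017.QsO_83
import Crest.Agent.R017.ExD7_791
import Crest.Agent.R017.RX5c_298


/-!
# Row 17, class E, the R-side of P1 (helper401): principal values of the twisted difference

* `pv_tw3` : the principal values of `tw3 s x`
* `pv_xN` : the principal values of helper764's `xN`
* `xn_pv` : the principal values of `bw φ (0, 0) 0 (tw3 s (xN ..))`
-/

set_option autoImplicit false
set_option linter.unusedVariables false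

noncomputable section

open Complex
open scoped ComplexConjugate

namespace Crest.Agent.R017.RXr401

open Crest.Agent.R012 Crest.Agent.R012.Eis Crest.Agent.R012.GaussLoc283
open Crest.Agent.R012.Weight600 (osc pw)
open Crest.Agent.R017.CM106 (CS FS)
open Crest.Agent.R017.PrD502

/-- **the principal values under a cubic twist** -/
theorem pv_tw3 {s : Eis} (hs : s ≠ 0) {J : ℕ} {Ax d0 Zp : ℝ} {x : Eis → ℂ} (hx : FS x)
    (hAx : 0 ≤ Ax) (hV : PV (fun H => ∃ c, H = c ^ 3) J Ax d0 Zp x) :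
    PV (fun H => ∃ c, H * (s ^ 2) ^ 2 = c ^ 3) J Ax d0 (Zp / (nm s : ℝ) ^ 4)
      (fun n => sy s n * x n) := by
  intro g hg hgZ k hk hkZ hp t
  have hns : (1 : ℝ) ≤ nm s := E2440.one_le_nm hs
  have hng : (1 : ℝ) ≤ nm g := E2440.one_le_nm hg.ne_zero
  have h4 : (nm s : ℝ) ≤ (nm s : ℝ) ^ 4 := le_self_pow₀ hns (by norm_num)
  have hZ0 : 0 ≤ Zp := by
    by_contra h
    push Not at h
    have : Zp / (nm s : ℝ) ^ 4 < 0 := div_neg_of_neg_of_pos h (by positivity)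
    linarith
  have hgZ' : (nm g : ℝ) ≤ Zp := hgZ.trans (div_le_self hZ0 (one_le_pow₀ hns))
  have hkZ' : (nm (s * k) : ℝ) ≤ Zp := by
    rw [nm_mul]
    push_cast
    rw [le_div_iff₀ (by positivity)] at hkZ
    calc (nm s : ℝ) * nm k ≤ (nm s : ℝ) ^ 4 * nm k :=
          mul_le_mul_of_nonneg_right h4 (Nat.cast_nonneg _)
      _ = (nm k : ℝ) * (nm s : ℝ) ^ 4 := mul_comm _ _
      _ ≤ Zp := hkZ
  obtain ⟨c, hc⟩ := hp
  have hsc : s ∣ c := by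
    have h3 : s ^ 3 ∣ c ^ 3 := ⟨k * s, by rw [← hc]; ring⟩
    exact (UniqueFactorizationMonoid.pow_dvd_pow_iff_dvd (by norm_num)).1 h3
  obtain ⟨c', rfl⟩ := hsc
  have hcub : ∃ c, s * k = c ^ 3 := by
    refine ⟨c', ?_⟩
    have : s ^ 3 * (s * k) = s ^ 3 * c' ^ 3 := by
      calc s ^ 3 * (s * k) = k * (s ^ 2) ^ 2 := by ring
        _ = (s * c') ^ 3 := hc
        _ = s ^ 3 * c' ^ 3 := by ring
    exact mul_left_cancel₀ (pow_ne_zero _ hs) this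
  have e1 : ∀ n : Eis, (sy s (g * n) * x (g * n)) * (osc t (Real.log (nm n)) * sy k n) =
      sy s g * (x (g * n) * (osc t (Real.log (nm n)) * sy (s * k) n)) := by
    intro n
    by_cases h0 : x (g * n) = 0
    · simp [h0]
    · have hn : IsPrim n := (hx.prim _ h0).of_mul_left hg
      rw [syAx.mul_right s g n hg hn, syAx.mul_left s k n hn]
      ring
  rw [tsum_congr e1, tsum_mul_left, norm_mul]
  have h := hV g hg hgZ' _ (mul_ne_zero hs hk) hkZ' hcub t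
  calc ‖sy s g‖ * _ ≤ 1 * _ := mul_le_mul_of_nonneg_right (syAx.norm_le_one s hg) (norm_nonneg _)
    _ ≤ _ := by rw [one_mul]; exact h

open Crest.Agent.R017.Win813 (WK iA iA_nonneg wn)
open Crest.Agent.R017.RGw813 (bt tw2)
open Crest.Agent.R017.MoL106 (kw)
open Crest.Agent.R017.QsO83 (bw FS_bw)

lemma kw_zero : kw (0, 0) = 1 := by
  unfold kw
  simp

lemma bw_sy (φ : ℝ → ℝ) (p : ℕ × ℕ) (t : ℝ) (s : Eis) (x : Eis → ℂ) :
    bw φ p t (fun n => sy s n * x n) = fun n => sy s n * bw φ p t x n := by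
  funext n
  unfold bw bt tw2 wn
  ring

/-- **the principal values of the window of a twisted sequence** -/
theorem pv_bw_tw3 {s : Eis} (hs : s ≠ 0) {J : ℕ} {Ax d0 Zp : ℝ} {x : Eis → ℂ} (hx : FS x)
    (hAx : 0 ≤ Ax) (hV : PV (fun H => ∃ c, H = c ^ 3) J Ax d0 Zp x) {Cw η : ℝ} {Aw : ℕ}
    {φ : ℝ → ℝ} (hφ : WK Cw η Aw φ) (hC : 0 ≤ Cw) (hη : 0 < η) (hη1 : η ≤ 1) (hJ : J + 2 ≤ Aw)
    (t : ℝ) :
    PV (fun H => ∃ c, H * (s ^ 2) ^ 2 = c ^ 3) J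
      (Cw * iA (Aw - J) * (η⁻¹) ^ J * (1 + |t|) ^ J * Ax) d0 (Zp / (nm s : ℝ) ^ 4)
      (bw φ (0, 0) t (fun n => sy s n * x n)) := by
  rw [bw_sy]
  have h0 := pv_bw hx hV hAx hφ hC hη hη1 hJ (0, 0) t
  rw [kw_zero] at h0
  have e1 : (fun H : Eis => ∃ c, H * 1 ^ 2 = c ^ 3) = fun H : Eis => ∃ c, H = c ^ 3 := by
    funext H
    rw [one_pow, mul_one]
  rw [e1, nm_one, Nat.cast_one, one_pow, div_one] at h0
  have hi := iA_nonneg (Aw - J)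
  exact pv_tw3 hs (FS_bw hx) (by positivity) h0

open Crest.Agent.R017.FE47 in
open Crest.Agent.R017.B770 in
open Crest.Agent.R017.Leg381 (Pf LF) in
open Crest.Agent.R017.OKi848 (OKi) in
open Crest.Agent.R017.ExD791 (xr) in
/-- the differences have finite support -/
lemma FS_xr {h : ℝ → ℝ} {c : ℝ} (hpu : PU h c) {P : DPar} (hP : OKi P) (z D0 : ℝ) (q : Eis)
    (p1 p2 : Pf) (l : List Pf) (d : ℝ) : FS (xr z D0 P h q p1 p2 l d) := by
  obtain ⟨R, -, hR⟩ := exists_R (cs_cx hpu.cs)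
  exact RX298.FS_sub (HP842.FS.sqc (ExD791.FS_alFi hR hP z D0 _) q)
    (HP842.FS.sqc (ExD791.FS_alFi hR hP z D0 _) q) _

open Crest.Agent.R017.End699 Crest.Agent.R017.FE47 Crest.Agent.R017.Two939 in
open Crest.Agent.R017.TXC791 in
open Crest.Agent.R017.B770 in
open Crest.Agent.R017.Leg381 (Pf LF) in
open Crest.Agent.R017.OKi848 (OKi) in
open Crest.Agent.R017.RG64 (Ht) in
open Crest.Agent.R017.Sup271 (NPm) in
open Crest.Agent.R017.ExD791 (xr) in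
/-- **the principal values of the window of the twisted difference** -/
theorem xr_pv {h : ℝ → ℝ} {c : ℝ} (hpu : PU h c) (N : ℕ) {B : ℝ} (hB : 0 ≤ B) {ε : ℝ}
    (hε : 0 < ε) :
    ∃ C : ℝ, 1 ≤ C ∧ ∀ X : ℝ, 3 ≤ X → ∀ P : DPar, OKi P → HC P.n P.ψ → (nm P.n : ℝ) ≤ X ^ B →
      (∀ k : Eis, k ≠ 0 → (∃ c, k = c ^ 3) → ¬ NPm P.n P.ψ P.l₂ k) →
      ∀ z D0 : ℝ, 1 ≤ D0 →
      ∀ (p1 p2 : Pf) (l : List Pf), p1.1.u = .one → p2.1.u = .one → p1.1.kd = .mo →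
      p2.1.kd = .mo → (nm p1.1.d : ℝ) ≤ X ^ B → (nm p2.1.d : ℝ) ≤ X ^ B → l.length ≤ N →
      LF l ≤ B * Real.log X →
      ∀ d s0 : ℝ, s0 ≤ p1.1.z → s0 ≤ p2.1.z → s0 ≤ p1.1.z + p2.1.z - d → s0 ≤ d →
      s0 ≤ B * Real.log X → ∀ (q : Eis), q ≠ 0 → (nm q : ℝ) ≤ X ^ B → ∀ s : Eis, s ≠ 0 →
      ∀ (Cw η : ℝ) (Aw : ℕ) (φ : ℝ → ℝ), WK Cw η Aw φ → 0 ≤ Cw → 0 < η → η ≤ 1 → 8 ≤ Aw →
      ∀ t : ℝ,
      PrD502.PV (fun H => ∃ c, H * (s ^ 2) ^ 2 = c ^ 3) 6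
        (Cw * iA (Aw - 6) * (η⁻¹) ^ 6 * (1 + |t|) ^ 6 *
          (C * X ^ ε * D0 ^ 2 * Ht (p1 :: p2 :: l) ^ 3 * Real.exp (LF (p1 :: p2 :: l)))) s0
        (X ^ B / (nm s : ℝ) ^ 4)
        (bw φ (0, 0) t (fun n => sy s n * xr z D0 P h q p1 p2 l d n)) := by
  obtain ⟨C, hC, H⟩ := pv_xr hpu N hB hε
  refine ⟨C, hC, ?_⟩
  intro X hX P hP hψ hPn hnp z D0 hD0 p1 p2 l hu1 hu2 hk1 hk2 hd1 hd2 hlen hLl d s0 hy1 hy2
    hy3 hy4 hs0 q hq hqX s hs Cw η Aw φ hφ hCw hη hη1 hAw t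
  have hX0 : 0 < X := by linarith
  have hHt : 1 ≤ Ht (p1 :: p2 :: l) := RG64.one_le_Ht _
  exact pv_bw_tw3 hs (FS_xr hpu hP z D0 q p1 p2 l d) (by positivity) (H X hX P hP hψ hPn hnp z D0 hD0 p1 p2 l hu1 hu2 hk1 hk2
    hd1 hd2 hlen hLl d s0 hy1 hy2 hy3 hy4 hs0 q hq hqX) hφ hCw hη hη1 (by omega) t

end Crest.Agent.R017.RXr401
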