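import Crest.Agent.R017.RXa_739
import Crest.Agent.R017.RXq_385
import Crest.Agent.R017.RXr_401
import Crest.Agent.R017.LSM_241
import Crest.Agent.R017.P1Re_440

/-!
# Row 17, class E, the R-side of P1 (helper739), part b: one window

* `Qs_Xw` : one window of `∑ c, ∑ j₂, Qs` of a twisted difference of two lists
-/

set_option autoImplicit false
set_option linter.unusedVariables false
set_option maxHeartbeats 4000000

noncomputable section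

open Finset
open scoped ComplexConjugate

namespace Crest.Agent.R017.RXb739

open Crest.Agent.R012 Crest.Agent.R012.Eis Crest.Agent.R012.LS2 Crest.Agent.R012.Gauss880
open Crest.Agent.R012.Div277 (dvs mem_dvs)
open Crest.Agent.R012.Mob705 (pdiv mem_pdiv)
open Crest.Agent.R012.Char766 (norm_sy_le)
open Crest.Agent.R017.FE47 (cx PU)
open Crest.Agent.R017.B770
open Crest.Agent.R017.Prov71
open Crest.Agent.R017.CM106 (CS FS)
open Crest.Agent.R017.HP842 (pc sqc)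
open Crest.Agent.R017.Leg381 (alf)
open Crest.Agent.R017.H1401 (pb mem_pb WM HW DN)
open Crest.Agent.R017.MoF106
open Crest.Agent.R017.MoL106
open Crest.Agent.R017.XRG106
open Crest.Agent.R017.X6C180 (IX dl')
open Crest.Agent.R017.GKC739
open Crest.Agent.R017.NPx739 (PrQ)
open Crest.Agent.R017.NPy739
open Crest.Agent.R017.Win813 (iA iA_nonneg WK)
open Crest.Agent.R017.QsO83 (bw FS_bw bw_ne)
open Crest.Agent.R017.I1146 (tw3)
open Crest.Agent.R017.RC106 (k9)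
open Crest.Agent.R017.E2sp579 (fP)
open Crest.Agent.R017.E2440 (C4 mem_C4 RR ag ag_ne Qs prs mem_prs KDd NBf)
open Crest.Agent.R017.FlC502 (thd)
open Crest.Agent.R017.PrD502 (PV Mu)
open Crest.Agent.R017.PrE176 (PJm)
open Crest.Agent.R017.MTX241 (nLS nLS_nonneg PJ_ls)
open Crest.Agent.R017.P1Ra440
open Crest.Agent.R017.P1Rc440 (FS_alf')
open Crest.Agent.R017.P1Rd440 (bw_val Qs_ag0)
open Crest.Agent.R017.P1Re440 (SzP sh1 sh2 exp13)
open Crest.Agent.R017.RXa739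

/-- a cell of the first kind, with a factor `H` -/
lemma sh1H {T H V K X' nν nE nc eu : ℝ} {a j : ℕ} (hT : 0 < T) (hH : 0 < H) (hV : 0 < V)
    (hK : 0 < K) (hX : 0 < X') (hν : 0 < nν) (hE : 0 < nE) (hnc : 1 ≤ nc) (heu : 0 < eu)
    (h : (2 : ℝ) ^ j < 4 * T * H * nν ^ 2 * X' * V * nE ^ 2 * eu /
      (nc * K * Real.exp ((a : ℝ) / 3))) :
    (2 : ℝ) ^ j * Real.exp ((a : ℝ) / 3) ≤ 4 * (T * H) * nν ^ 2 * X' * V * nE ^ 2 * eu / K ∧
    Real.log (2 ^ j) + (a : ℝ) / 3 ≤ Real.log 4 + (Real.log T + Real.log H) + 2 * Real.log nν +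
      Real.log X' + Real.log V + 2 * Real.log nE + Real.log eu - Real.log K := by
  have e : 4 * (T * H) * 1 = 4 * T * H := by ring
  have h1 := sh1 (T := T * H) (mul_pos hT hH) hV hK hX hν hE hnc heu (a := a) (j := j) (by
    rw [e]; exact h)
  rw [Real.log_mul hT.ne' hH.ne'] at h1
  exact h1

/-- the polar number of one index -/
def PN (y2 : Prop) [Decidable y2] (V K X B0 eA : ℝ) (δ : Eis) : ℝ :=
  if y2 then (V ^ (-(2 : ℝ) / 3) * eA ^ (-(2 : ℝ)) * K ^ ((4 : ℝ) / 3)) *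
    ((nm δ : ℝ) ^ ((1 : ℝ) / 3) * X ^ (-(1 : ℝ) / 3)) * nLS X B0 (9 * (V * eA ^ 3)) δ 1 else 0

lemma PN_nonneg (y2 : Prop) [Decidable y2] {V K X B0 eA : ℝ} (hV : 0 ≤ V) (hK : 0 ≤ K)
    (hX : 0 ≤ X) (hB : 0 ≤ B0) (hE : 0 ≤ eA) (δ : Eis) : 0 ≤ PN y2 V K X B0 eA δ := by
  unfold PN
  have h1 := nLS_nonneg hX hB (show 0 ≤ 9 * (V * eA ^ 3) by positivity) δ 1
  split_ifs
  · positivity
  · exact le_rfl

/-- the data of one windowed difference -/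
structure XD (h : ℝ → ℝ) {r : ℕ} (P : DPar) (s s₂ : Fin r → Pq) (ζ : ℂ) (x₀ : Eis → ℂ)
    (Pz Ax Axp d0 Zp Xn Rw : ℝ) (a₀ : ℕ) : Prop where
  hP : P.OK
  z : ∀ i, 0 ≤ (s i).z
  z₂ : ∀ i, 0 ≤ (s₂ i).z
  zP : ∀ i, Real.exp (s i).z ≤ Pz
  zP₂ : ∀ i, Real.exp (s₂ i).z ≤ Pz
  ζ1 : ‖ζ‖ ≤ 1
  eq : x₀ = fun n => sqc 1 (alf 1 1 h (fun i => (s i).pc P) (fun _ => false)) n -
    ζ * sqc 1 (alf 1 1 h (fun i => (s₂ i).pc P) (fun _ => false)) n
  nx : ∀ n, ‖x₀ n‖ ≤ Ax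
  AP : Ax ≤ Pz ^ a₀
  A0 : 0 ≤ Ax
  sq : ∀ n, x₀ n ≠ 0 → Squarefree n
  X0 : 0 < Xn
  XP : Xn ≤ Pz
  win : ∀ n, x₀ n ≠ 0 → |Real.log (nm n) - Real.log Xn| ≤ Rw
  Ap : 0 ≤ Axp
  pv : PV (fun H => ∃ c, H = c ^ 3) 6 Axp d0 Zp x₀

lemma XD.fs {h : ℝ → ℝ} {r : ℕ} {P : DPar} {s s₂ : Fin r → Pq} {ζ : ℂ} {x₀ : Eis → ℂ}
    {Pz Ax Axp d0 Zp Xn Rw R : ℝ} {a₀ : ℕ} (hR : ∀ u, cx h u ≠ 0 → |u| ≤ R)
    (hD : XD h P s s₂ ζ x₀ Pz Ax Axp d0 Zp Xn Rw a₀) : FS x₀ := by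
  obtain ⟨a, ha⟩ : ∃ a : Eis → ℂ, a = sqc 1 (alf 1 1 h (fun i => (s i).pc P) (fun _ => false)) :=
    ⟨_, rfl⟩
  obtain ⟨a₂, ha₂⟩ : ∃ a₂ : Eis → ℂ,
      a₂ = sqc 1 (alf 1 1 h (fun i => (s₂ i).pc P) (fun _ => false)) := ⟨_, rfl⟩
  have hFa : FS a := by
    rw [ha]
    exact HP842.FS.sqc (FS_alf' hR (s := fun i => (s i).pc P) (fun i => (s i).ok hD.hP) 1 1 _) 1
  have hFa₂ : FS a₂ := by
    rw [ha₂]
    exact HP842.FS.sqc (FS_alf' hR (s := fun i => (s₂ i).pc P) (fun i => (s₂ i).ok hD.hP) 1 1 _) 1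
  have hxe : x₀ = fun n => a n - ζ * a₂ n := by rw [hD.eq, ha, ha₂]
  refine ⟨(hFa.fin.union hFa₂.fin).subset fun n hn => ?_, fun n hn => ?_⟩
  · by_contra hc
    rw [Set.mem_union, not_or] at hc
    apply hn
    have h1 : a n = 0 := by simpa using hc.1
    have h2 : a₂ n = 0 := by simpa using hc.2
    rw [hxe]
    simp [h1, h2]
  · by_cases h1 : a n = 0
    · refine hFa₂.prim n fun h2 => hn ?_
      rw [hxe]
      simp [h1, h2]
    · exact hFa.prim n h1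

lemma exp_half_lt_two : Real.exp (1 / 2) < 2 := by
  have h6 : Real.exp 1 < 4 := lt_trans Real.exp_one_lt_d9 (by norm_num)
  have h7 : Real.exp (1 / 2) ^ 2 = Real.exp 1 := by
    rw [← Real.exp_nat_mul]; norm_num
  have h8 := Real.exp_pos (1 / 2)
  nlinarith

/-- the sum of the four parts -/
lemma fin_w {Wp P2 Q' PT D1 D2 D3 G Y PJv U : ℝ} (hD1 : 0 ≤ D1) (hD2 : 0 ≤ D2) (hD3 : 0 ≤ D3)
    (hG : 0 ≤ G) (hY : 0 ≤ Y) (hPJ : 0 ≤ PJv) (hU : 0 ≤ U) (hQ : 0 ≤ Q') (b1 : Wp ≤ D1 * G * Y)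
    (b2 : P2 ≤ D2 * G * PJv) (b3 : PT ≤ D3 * G * U) (b4 : Q' ≤ 1 * G * Q') :
    Wp + P2 + Q' + PT ≤ (1 + D1 + D2 + D3) * G * (Y + PJv + U + Q') := by
  have c1 : 0 ≤ G * Y := by positivity
  have c2 : 0 ≤ G * PJv := by positivity
  have c3 : 0 ≤ G * U := by positivity
  have c4 : 0 ≤ G * Q' := by positivity
  have e1 : (1 + D1 + D2 + D3) * G * (Y + PJv + U + Q') =
      (G * Y + D1 * (G * Y) + D2 * (G * Y) + D3 * (G * Y)) +
      (G * PJv + D1 * (G * PJv) + D2 * (G * PJv) + D3 * (G * PJv)) +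
      (G * U + D1 * (G * U) + D2 * (G * U) + D3 * (G * U)) +
      (G * Q' + D1 * (G * Q') + D2 * (G * Q') + D3 * (G * Q')) := by ring
  rw [e1]
  have d1 := mul_nonneg hD1 c1
  have d2 := mul_nonneg hD2 c1
  have d3 := mul_nonneg hD3 c1
  have d4 := mul_nonneg hD1 c2
  have d5 := mul_nonneg hD2 c2
  have d6 := mul_nonneg hD3 c2
  have d7 := mul_nonneg hD1 c3
  have d8 := mul_nonneg hD2 c3
  have d9 := mul_nonneg hD3 c3
  have d10 := mul_nonneg hD1 c4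
  have d11 := mul_nonneg hD2 c4
  have d12 := mul_nonneg hD3 c4
  linarith

/-- the constants -/
lemma fin_c {CQ cc cφ e e40 e50 D G S T CN CC : ℝ} (hCQ : 0 ≤ CQ) (hCN : 0 ≤ CN) (hD : 0 ≤ D)
    (hCC : CC = CN + (1 + CQ) * D) (hcc : 0 ≤ cc ^ 2) (hcφ : 0 ≤ cφ) (hG : G = cφ * e40)
    (he : 0 ≤ e) (he40 : 0 ≤ e40) (hee : e * e40 ≤ e50) (he50 : 0 ≤ e50) (hT : 0 ≤ T) (hS : S ≤ D * G * T) :
    CQ * cc ^ 2 * e * S ≤ CC * cc ^ 2 * cφ * e50 * T := by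
  have h1 : CQ * D ≤ CC := by
    rw [hCC]
    have e1 : (1 + CQ) * D = D + CQ * D := by ring
    linarith
  have h2 : 0 ≤ CQ * cc ^ 2 * e := by positivity
  calc CQ * cc ^ 2 * e * S ≤ CQ * cc ^ 2 * e * (D * G * T) := mul_le_mul_of_nonneg_left hS h2
    _ = (CQ * D) * cc ^ 2 * cφ * (e * e40) * T := by rw [hG]; ring
    _ ≤ CC * cc ^ 2 * cφ * e50 * T := by
        have h3 : 0 ≤ CQ * D := mul_nonneg hCQ hD
        have h4 : 0 ≤ CC := h3.trans h1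
        have h5 : 0 ≤ e * e40 := mul_nonneg he he40
        gcongr

open Classical in
/-- **one window** -/
theorem Qs_Xw {h : ℝ → ℝ} {c₀ : ℝ} (hpu : PU h c₀) {R : ℝ} (hR0 : 0 ≤ R)
    (hR : ∀ u, cx h u ≠ 0 → |u| ≤ R) {μ : ℝ} (hμ : 0 ≤ μ) (r : ℕ) {ε : ℝ} (hε : 0 < ε)
    (hε2 : ε ≤ 1) {Rw : ℝ} (hRw : 0 ≤ Rw) (a₀ M' A' : ℕ) (hA' : 2 * (r * μ) + 2 ≤ A')
    (hA12 : 12 ≤ A') :
    ∃ (M b : ℕ) (Cz C : ℝ), 1 ≤ Cz ∧ 1 ≤ C ∧
      ∀ (Ft : ℝ → ℂ) (cc H : ℝ) (om : ∀ σ : Eis, IX σ → ℝ → ℂ), 0 ≤ cc →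
      (∃ b' : ℝ, ∀ x, Ft x ≠ 0 → x ≤ b') →
      (∀ σ ∈ C4, KDd σ A' M Ft cc H (fun y => min (y ^ (-(1 / 3) : ℝ)) (min 1 ((y * H) ^ 1)))
        (thd H) (om σ)) → 1 ≤ H → ∀ Pz : ℝ, H ≤ Pz →
      ∀ (Cφ : ℝ) (φ : ℝ → ℝ), 0 ≤ Cφ → WK Cφ (1 / 2) A' φ → Cφ * iA A' ≤ Pz → ∀ c₁ : ℝ,
      (∀ u, φ u ≠ 0 → |u - c₁| ≤ 1 / 4) → Real.exp (c₁ + 1 / 4) ≤ Pz →
      ∀ (P : DPar) (s s₂ : Fin r → Pq) (ζ : ℂ) (x₀ : Eis → ℂ) (Ax Axp d0 Zp Xn : ℝ),
      XD h P s s₂ ζ x₀ Pz Ax Axp d0 Zp Xn Rw a₀ → ∀ (st : Eis), st ≠ 0 →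
      (nm st : ℝ) ^ 2 ≤ Pz → Cz * Pz ^ b * (nm st : ℝ) ^ 4 ≤ Zp →
      ∀ (V K : ℝ) (δ e : Eis), SzP Pz V K δ e → ∀ y ∈ prs δ, ∀ A ∈ pdiv y.1,
      ∀ (s₁ i1 i2 Bd Tn : ℝ), Real.log (nm (e * A * st ^ 4)) + k9 ≤ s₁ → 0 ≤ Bd →
      Real.log 4 + ε / 2 * Real.log Pz + Real.log H + 2 * Real.log (nm y.2) +
        (c₁ + 1 / 4 - Real.log (nm y.1)) + Real.log V + 2 * Real.log (nm (e * A)) -
        Real.log K ≤ i1 →
      Real.log 10 + Real.log K - Real.log (nm (e * A)) + 1 ≤ i2 →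
      PMHQ h μ C P s (Real.log (V * nm (e * A))) (Real.log (nm y.1)) (Real.log (nm y.2)) i1 i2 s₁
        Bd Tn →
      PMHQ h μ C P s₂ (Real.log (V * nm (e * A))) (Real.log (nm y.1)) (Real.log (nm y.2)) i1 i2 s₁
        Bd Tn →
      ∑ c ∈ C4, ∑ j₂ ∈ S (Real.sqrt V), Qs (bw φ (0, 0) 0 (tw3 st x₀)) δ e V K Ft y A c j₂ ≤
      C * cc ^ 2 * (1 + Cφ ^ 2) * Pz ^ (50 * ε) *
        (V ^ (-(1 : ℝ) / 3) * K ^ ((2 : ℝ) / 3) / nm (e * A) * (Bd * Real.exp Tn) +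
          (Axp / nm y.1) ^ 2 * PJm K V (Real.exp (c₁ + 1 / 4) / nm y.1) (nm (e * A))
            ((nm st : ℝ) ^ 2) (nm y.2) H (Mu d0 y.1) 1 +
          Ax ^ 2 * PN (y.2 = 1) V K Xn (max (1 / 2) (Real.exp ((i2 - i1) / 3))) (nm (e * A)) δ +
          (Pz ^ M')⁻¹) := by
  have hε8 : 0 < ε / 8 := by linarith
  obtain ⟨M, b, Cz, CQ, hCz, hCQ, HQ⟩ := RXq385.qs_g hε (a₀ + 1) M' A' hA12
  obtain ⟨CN, hCN, HN⟩ := cell_P1Q hpu hR0 hR hμ r hε
  obtain ⟨CL, hCL, HL⟩ := PJ_ls hε 0 A' (by omega) hRw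
  have hiA := iA_nonneg A'
  have hiA6 := iA_nonneg (A' - 6)
  set gA : ℝ := iA A' * (1 / 2 * ((1 / 2 : ℝ) ^ A')⁻¹) with hgA
  have hgA0 : 0 ≤ gA := by positivity
  set C16 : ℝ := (32 : ℝ) ^ (2 * ε) with hC16
  have hC160 : 1 ≤ C16 := Real.one_le_rpow (by norm_num) (by linarith)
  set C9 : ℝ := (9 : ℝ) ^ ε with hC9
  have hC90 : 1 ≤ C9 := Real.one_le_rpow (by norm_num) hε.le
  have hCN0 : 0 ≤ CN := by linarith
  set D1 : ℝ := 4 * CN * gA * C16 with hD1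
  set D2 : ℝ := (iA (A' - 6) * 2 ^ 6) ^ 2 with hD2
  set D3 : ℝ := CL * C9 with hD3
  have hD10 : 0 ≤ D1 := by positivity
  have hD20 : 0 ≤ D2 := by positivity
  have hD30 : 0 ≤ D3 := by positivity
  set CC : ℝ := CN + (1 + CQ) * (1 + D1 + D2 + D3) with hCC
  have hx2 : 0 ≤ (1 + CQ) * (1 + D1 + D2 + D3) := by positivity
  refine ⟨M, b, Cz, CC, hCz, by linarith, ?_⟩
  intro Ft cc H om hcc hFb hKD hH1 Pz hHP Cφ φ hCφ hφ hφP c₁ hφs hcP P s s₂ ζ x₀ Ax Axp d0 Zp Xn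
    hD st hst hstP hZp V K δ e hz y hy A hA s₁ i1 i2 Bd Tn hs₁ hBd hi1 hi2 hPM hPM₂
  have hP1 := hz.P1
  have hP0 : 0 < Pz := by linarith
  have hV0 : 0 < V := by linarith [hz.V1]
  have hK0 := hz.K0
  have hH0 : 0 < H := by linarith
  have hy' := (mem_prs hz.δp).mp hy
  have hA2 := (mem_pdiv hy'.1.ne_zero).mp hA
  obtain ⟨a, ha⟩ : ∃ a : Eis → ℂ, a = sqc 1 (alf 1 1 h (fun i => (s i).pc P) (fun _ => false)) :=
    ⟨_, rfl⟩
  obtain ⟨a₂, ha₂⟩ : ∃ a₂ : Eis → ℂ,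
      a₂ = sqc 1 (alf 1 1 h (fun i => (s₂ i).pc P) (fun _ => false)) := ⟨_, rfl⟩
  have hFa : FS a := by
    rw [ha]
    exact HP842.FS.sqc (FS_alf' hR (s := fun i => (s i).pc P) (fun i => (s i).ok hD.hP) 1 1 _) 1
  have hFa₂ : FS a₂ := by
    rw [ha₂]
    exact HP842.FS.sqc (FS_alf' hR (s := fun i => (s₂ i).pc P) (fun i => (s₂ i).ok hD.hP) 1 1 _) 1
  have hxe : x₀ = fun n => a n - ζ * a₂ n := by rw [hD.eq, ha, ha₂]
  have hFS0 : FS x₀ := hD.fs hR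
  set α : Eis → ℂ := bw φ (0, 0) 0 (tw3 st x₀) with hα
  have hFSt := FS_tw3 st hFS0
  have hFSα : FS α := FS_bw hFSt
  set X : ℝ := Real.exp (c₁ + 1 / 4) with hX
  have hX0 : 0 < X := Real.exp_pos _
  -- the support
  have hαne : ∀ n, α n ≠ 0 → x₀ n ≠ 0 := fun n hn => right_ne_zero_of_mul (bw_ne hn)
  have hαsq : ∀ n, α n ≠ 0 → Squarefree n := fun n hn => hD.sq n (hαne n hn)
  have hαs : ∀ n, α n ≠ 0 → X / 2 < nm n ∧ (nm n : ℝ) ≤ X := by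
    intro n hn
    have h1 := bw_val (φ := φ) hFSt n
    have h2 : φ (Real.log (nm n)) ≠ 0 := by
      intro h0
      apply hn
      rw [hα, h1, h0]
      simp
    have h3 := abs_le.1 (hφs _ h2)
    have hn0 : (0 : ℝ) < nm n := by exact_mod_cast nm_pos.2 (hFSα.prim n hn).ne_zero
    constructor
    · have e1 : (nm n : ℝ) = Real.exp (Real.log (nm n)) := (Real.exp_log hn0).symm
      rw [e1]
      have h4 : Real.exp (c₁ - 1 / 4) ≤ Real.exp (Real.log (nm n)) :=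
        Real.exp_le_exp.2 (by linarith)
      refine lt_of_lt_of_le ?_ h4
      rw [hX, show c₁ + 1 / 4 = (c₁ - 1 / 4) + 1 / 2 by ring, Real.exp_add]
      have h6 := mul_lt_mul_of_pos_left exp_half_lt_two (Real.exp_pos (c₁ - 1 / 4))
      linarith only [h6]
    · rw [← Real.log_le_iff_le_exp hn0]
      linarith
  have htwn : ∀ n, ‖tw3 st x₀ n‖ ≤ Ax := by
    intro n
    by_cases h0 : tw3 st x₀ n = 0
    · rw [h0, norm_zero]; exact hD.A0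
    · have hp := hFSt.prim n h0
      unfold I1146.tw3
      rw [norm_mul]
      calc ‖sy st n‖ * ‖x₀ n‖ ≤ 1 * Ax :=
            mul_le_mul (norm_sy_le hp) (hD.nx n) (norm_nonneg _) zero_le_one
        _ = _ := one_mul _
  have hαP : ∀ n, ‖α n‖ ≤ Pz ^ (a₀ + 1) := by
    intro n
    by_cases h0 : α n = 0
    · rw [h0, norm_zero]; positivity
    have hp := hFSα.prim n h0
    rw [hα, bw_val hFSt n, norm_mul, Complex.norm_real, Real.norm_eq_abs]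
    have h1 : |φ (Real.log (nm n))| ≤ Pz :=
      (hφ.le (by norm_num) (by omega) _).trans hφP
    calc ‖tw3 st x₀ n‖ * |φ (Real.log (nm n))| ≤ Pz ^ a₀ * Pz :=
          mul_le_mul ((htwn n).trans hD.AP) h1 (abs_nonneg _) (by positivity)
      _ = _ := by rw [pow_succ]
  have hy1n : (1 : ℝ) ≤ nm y.1 := one_le_nmR hy'.1.ne_zero
  have hy2n : (1 : ℝ) ≤ nm y.2 := one_le_nmR hy'.2.1.ne_zero
  have hyδ : (nm δ : ℝ) = nm y.1 * nm y.2 := by
    rw [← hy'.2.2, nm_mul]; push_cast; ring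
  have hy1P : (nm y.1 : ℝ) ≤ Pz := by
    refine le_trans ?_ hz.δP
    rw [hyδ]
    exact le_mul_of_one_le_right (Nat.cast_nonneg _) hy2n
  have hy2P : (nm y.2 : ℝ) ≤ Pz := by
    refine le_trans ?_ hz.δP
    rw [hyδ]
    exact le_mul_of_one_le_left (Nat.cast_nonneg _) hy1n
  have hA1 : (1 : ℝ) ≤ nm A := one_le_nmR hA2.1.ne_zero
  have hAP : (nm A : ℝ) ≤ Pz := by
    refine le_trans ?_ hy1P
    exact_mod_cast Div277.nm_le_of_dvd hy'.1.ne_zero hA2.2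
  have he1 : (1 : ℝ) ≤ nm e := one_le_nmR hz.ep.ne_zero
  have hea : (nm (e * A) : ℝ) = nm e * nm A := by rw [nm_mul]; push_cast; ring
  have hea1 : (1 : ℝ) ≤ nm (e * A) := by
    rw [hea]; exact one_le_mul_of_one_le_of_one_le he1 hA1
  have hea2 : (nm (e * A) : ℝ) ≤ Pz ^ 2 := by
    rw [hea, sq]
    exact mul_le_mul hz.eP hAP (by positivity) (by positivity)
  have hst1 : (1 : ℝ) ≤ nm st := one_le_nmR hst
  set W : ℝ := V ^ (-(1 : ℝ) / 3) * K ^ ((2 : ℝ) / 3) / nm (e * A) with hW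
  have hW0 : 0 ≤ W := by positivity
  set B0 : ℝ := max (1 / 2) (Real.exp ((i2 - i1) / 3)) with hB0
  have hB00 : 0 < B0 := lt_of_lt_of_le (by norm_num) (le_max_left _ _)
  obtain ⟨PJv, hPJv⟩ : ∃ z : ℝ, z = (Axp / nm y.1) ^ 2 * PJm K V (X / nm y.1) (nm (e * A))
    ((nm st : ℝ) ^ 2) (nm y.2) H (Mu d0 y.1) 1 := ⟨_, rfl⟩
  have hPJ0 : 0 ≤ PJv := by
    rw [hPJv]
    exact mul_nonneg (sq_nonneg _) (RCX385.PJm_nonneg hK0.le hV0.le (by positivity)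
      (Nat.cast_nonneg _) (by positivity) (Nat.cast_nonneg _) hH0.le
      (by unfold PrD502.Mu; positivity) zero_le_one)
  obtain ⟨PNv, hPNv⟩ : ∃ z : ℝ, z = PN (y.2 = 1) V K Xn B0 (nm (e * A)) δ := ⟨_, rfl⟩
  have hPN0 : 0 ≤ PNv := by
    rw [hPNv]
    exact PN_nonneg _ hV0.le hK0.le hD.X0.le hB00.le (Nat.cast_nonneg _) δ
  rw [← hPJv, ← hPNv]
  have hQ0 : 0 ≤ (Pz ^ M')⁻¹ := by positivity
  have hres0 : 0 ≤ CC * cc ^ 2 * (1 + Cφ ^ 2) * Pz ^ (50 * ε) *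
        (W * (Bd * Real.exp Tn) + PJv + Ax ^ 2 * PNv + (Pz ^ M')⁻¹) := by
    have : 0 ≤ CC := by linarith
    positivity
  by_cases hyX : (nm y.1 : ℝ) ≤ X
  swap
  · refine (Qs_ag0 hFb hK0 hz.ep.ne_zero hy'.1 hA2.1.ne_zero V (fun n => ?_)).trans hres0
    by_contra h0
    have h1 := (ag_ne h0).2
    have h2 := (hαs _ h1).2
    have h3 : (1 : ℝ) ≤ nm n := by
      refine one_le_nmR ?_
      rintro rfl
      rw [mul_zero] at h1
      exact (hFSα.prim 0 h1).ne_zero rfl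
    have h4 : (nm (y.1 * n) : ℝ) = nm y.1 * nm n := by rw [nm_mul]; push_cast; ring
    rw [h4] at h2
    apply hyX
    exact (le_mul_of_one_le_right (Nat.cast_nonneg _) h3).trans h2
  set X' : ℝ := X / nm y.1 with hX'
  have hX'1 : 1 ≤ X' := by rw [hX', le_div_iff₀ (by linarith)]; linarith
  have hX'P : X' ≤ Pz := (div_le_self hX0.le hy1n).trans hcP
  have hX'0 : 0 ≤ X' := by linarith
  have hlX' : Real.log X' = c₁ + 1 / 4 - Real.log (nm y.1) := by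
    rw [hX', Real.log_div hX0.ne' (by linarith), hX, Real.log_exp]
  set X0 : ℝ := 32 * Pz ^ 20 with hX0d
  have hP20 : ∀ m : ℕ, m ≤ 20 → Pz ^ m ≤ Pz ^ 20 := fun m hm => pow_le_pow_right₀ hP1 hm
  have hPX0 : Pz ≤ X0 := by
    have := hP20 1 (by norm_num)
    rw [pow_one] at this
    have h2 : 0 ≤ Pz ^ 20 := by positivity
    linarith
  have hX01 : 1 ≤ X0 := hP1.trans hPX0
  have hX00 : 0 < X0 := by linarith
  set GG : ℝ := Cφ ^ 2 * iA A' * (1 / 2 * ((1 / 2 : ℝ) ^ A')⁻¹) with hGG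
  have hGG0 : 0 ≤ GG := by positivity
  set M0 : ℝ := CN * GG * X0 ^ (2 * ε) * (Bd * Real.exp Tn) with hM0
  have hM00 : 0 ≤ M0 := by positivity
  have hCNC : CN ≤ CC := by rw [hCC]; linarith
  have hT1 : 1 ≤ Pz ^ (ε / 2 / 2) := Real.one_le_rpow hP1 (by linarith)
  have hTP : Pz ^ (ε / 2 / 2) ≤ Pz := by
    calc Pz ^ (ε / 2 / 2) ≤ Pz ^ (1 : ℝ) := Real.rpow_le_rpow_of_exponent_le hP1 (by linarith)
      _ = Pz := Real.rpow_one _
  have hTT0 : 0 < Pz ^ (ε / 2 / 2) := by linarith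
  have hlP : 0 ≤ Real.log Pz := Real.log_nonneg hP1
  have hlT : ε / 2 / 2 * Real.log Pz ≤ ε / 2 * Real.log Pz :=
    mul_le_mul_of_nonneg_right (by linarith) hlP
  -- the principal values
  have hPVα : PV (fun H => ∃ c, H * (st ^ 2) ^ 2 = c ^ 3) 6
      (Cφ * iA (A' - 6) * 2 ^ 6 * Axp) d0 (Zp / (nm st : ℝ) ^ 4) α := by
    have h2 : PV (fun H => ∃ c, H * (st ^ 2) ^ 2 = c ^ 3) 6
      (Cφ * iA (A' - 6) * ((1 / 2 : ℝ)⁻¹) ^ 6 * (1 + |(0 : ℝ)|) ^ 6 * Axp) d0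
      (Zp / (nm st : ℝ) ^ 4) α :=
      RXr401.pv_bw_tw3 hst hFS0 hD.Ap hD.pv hφ hCφ (by norm_num) (by norm_num) (by omega) 0
    have e1 : Cφ * iA (A' - 6) * ((1 / 2 : ℝ)⁻¹) ^ 6 * (1 + |(0 : ℝ)|) ^ 6 * Axp =
        Cφ * iA (A' - 6) * 2 ^ 6 * Axp := by
      rw [abs_zero]
      norm_num
    rw [e1] at h2
    exact h2
  have hZp' : Cz * Pz ^ b ≤ Zp / (nm st : ℝ) ^ 4 := by
    rw [le_div_iff₀ (by positivity)]
    exact hZp
  have hκn : (nm (st ^ 2) : ℝ) = (nm st : ℝ) ^ 2 := by rw [nm_pow]; push_cast; ring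
  have hSz : ∀ c ∈ C4, QsJ401.Sz Pz X V K H δ e A c y := fun c hc =>
    { P1 := hP1, H1 := hH1, HP := hHP, XP := hcP, VP := hz.VP, V1 := hz.V1, K0 := hK0,
      KiP := hz.Ki, KP := hz.KP, δp := hz.δp, δs := hz.δs, δP := hz.δP, ep := hz.ep,
      eP := hz.eP, hy := hy, hA := hA, yX := hyX, hc := hc }
  have h1 := HQ Pz Ft cc H om hcc hKD X V K B0 α (st ^ 2) hFSα hαsq hαs hαP (pow_ne_zero 2 hst)
    (by rw [hκn]; exact hstP) (Cφ * iA (A' - 6) * 2 ^ 6 * Axp) d0 (Zp / (nm st : ℝ) ^ 4) hZp' hPVα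
    δ e A y hSz
    (fun c j₂ B j n => MNx A' V e A c X' (QnE (e * A * j₂ * st ^ 4)) δ y.1 φ (0, 0) 0
      (e * A * j₂ * st ^ 4) j₂ B j n x₀) (2 * (M0 + M0)) (by positivity)
    (fun c _ j₂ _ hRR B _ j n => by
      unfold NPy739.MNx
      exact NPx739.MNn_nonneg
        (fun g₂ _ g₃ _ => H1401.WM_nonneg (by linarith) (by positivity) g₂ g₃) _)
    (fun c _ j₂ _ hRR B hB i t j => by
      have hBp := ((mem_S hX'0).1 hB).2.1
      have h2 := MNx_spec (J := A') (V := V) (e := e) (A := A) (c := c) (X := X') hX'0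
        (Q := QnE (e * A * j₂ * st ^ 4)) (δ := δ) hy'.1 (φ := φ) (p := (0, 0)) (t₀ := 0)
        (E := e * A * j₂ * st ^ 4) (j₂ := j₂) (B := B) hRR hBp.ne_zero j y.2 hFS0 i t
      have hQ : (fun d : Eis => ¬ ∃ c0, d * (e * A * j₂ * dl' c i * B ^ 2) * (st ^ 2) ^ 2 = c0 ^ 3) =
          QnE (e * A * j₂ * st ^ 4) B (dl' c i) := by
        funext d
        unfold RXa739.QnE NPx739.PrQ
        refine propext (not_congr ⟨?_, ?_⟩)
        · rintro ⟨c', hc'⟩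
          exact ⟨c', by rw [← hc']; ring⟩
        · rintro ⟨c', hc'⟩
          exact ⟨c', by rw [← hc']; ring⟩
      rw [hQ]
      refine le_trans (Finset.sum_le_sum fun n _ => mul_le_mul_of_nonneg_left ?_
        (Nat.cast_nonneg _)) h2
      exact MoP_tw3 hFS0 hy'.1 hBp φ (0, 0) 0 (e * A * j₂) (dl' c i) X' t (2 ^ j) _
        (fun g₂ _ g₃ _ => H1401.WM_nonneg (by linarith) (by positivity) g₂ g₃))
    (fun c hc l u j hcl n hn => by
      have hn' := (mem_dvs hy'.2.1.ne_zero).1 hn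
      have hsh := hcl.shell hT1 hH1 hK0 hX'1 hy'.2.1 hz.ep hA2.1 hc
      have hu : Real.exp ((u : ℝ) / 3) ≤ X' := by
        obtain ⟨j₂, hj₂, B, hB, -⟩ := hcl
        exact (bk_nm_ge hX'0 hB).trans ((mem_bk hX'0).1 hB).1.1
      have hcn := (nm_C hc).1
      have heu := Real.exp_pos ((u : ℝ) / 3)
      have heu1 : (1 : ℝ) ≤ Real.exp ((u : ℝ) / 3) := Real.one_le_exp (by positivity)
      have hnum : Real.exp ((l : ℝ) / 3 + 1 / 3) * 2 ^ j ≤ X0 ∧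
          Real.log (2 ^ j) + l / 3 ≤ i1 + u / 3 ∧
          Real.log (2 ^ j) + l / 3 ≤ i2 - 2 * (u / 3) := by
        rcases hsh with ⟨hb, hj⟩ | ⟨hb, hj⟩
        · obtain ⟨g1, g2⟩ := sh1H hTT0 hH0 hV0 hK0 (by linarith) (by linarith) (by linarith)
            hcn heu hj
          rw [Real.log_exp, Real.log_rpow hP0, hlX'] at g2
          have hb2 : (u : ℝ) / 3 ≤ (i2 - i1) / 3 := by
            rcases le_max_iff.1 hb with hb | hb
            · linarith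
            · exact Real.exp_le_exp.1 hb
          refine ⟨?_, by linarith, by linarith⟩
          have g3 : 4 * (Pz ^ (ε / 2 / 2) * H) * (nm y.2 : ℝ) ^ 2 * X' * V * (nm (e * A) : ℝ) ^ 2 *
              Real.exp ((u : ℝ) / 3) / K ≤
              4 * (Pz * Pz) * Pz ^ 2 * Pz * Pz * (Pz ^ 2) ^ 2 * Pz * Pz := by
            rw [div_eq_mul_inv]
            have := hu.trans hX'P
            have hKi := hz.Ki
            have hVP := hz.VP
            gcongr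
          calc Real.exp ((l : ℝ) / 3 + 1 / 3) * 2 ^ j =
                (2 ^ j * Real.exp ((l : ℝ) / 3)) * Real.exp (1 / 3) := by
                rw [Real.exp_add]; ring
            _ ≤ (4 * (Pz * Pz) * Pz ^ 2 * Pz * Pz * (Pz ^ 2) ^ 2 * Pz * Pz) * 2 :=
                mul_le_mul (g1.trans g3) exp13 (Real.exp_pos _).le (by positivity)
            _ = 8 * Pz ^ 12 := by ring
            _ ≤ 8 * Pz ^ 20 := by
                have := hP20 12 (by norm_num)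
                linarith
            _ ≤ X0 := by
                have : 0 ≤ Pz ^ 20 := by positivity
                linarith
        · obtain ⟨g1, g2⟩ := sh2 hK0 (by linarith) heu hj
          rw [Real.log_exp] at g2
          have hb2 : (i2 - i1) / 3 < (u : ℝ) / 3 + 1 / 3 :=
            Real.exp_lt_exp.1 (lt_of_le_of_lt (le_max_right _ _) hb)
          refine ⟨?_, by linarith, by linarith⟩
          have g3 : 10 * K / (nm (e * A) * Real.exp ((u : ℝ) / 3) ^ 2) ≤ 10 * Pz := by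
            have h5 : (1 : ℝ) ≤ nm (e * A) * Real.exp ((u : ℝ) / 3) ^ 2 := by
              have : (1 : ℝ) ≤ Real.exp ((u : ℝ) / 3) ^ 2 := one_le_pow₀ heu1
              exact one_le_mul_of_one_le_of_one_le hea1 this
            refine (div_le_self (by positivity) h5).trans ?_
            have := hz.KP
            linarith
          calc Real.exp ((l : ℝ) / 3 + 1 / 3) * 2 ^ j =
                (2 ^ j * Real.exp ((l : ℝ) / 3)) * Real.exp (1 / 3) := by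
                rw [Real.exp_add]; ring
            _ ≤ (10 * Pz) * 2 :=
                mul_le_mul (g1.trans g3) exp13 (Real.exp_pos _).le (by positivity)
            _ ≤ 20 * Pz ^ 20 := by
                have := hP20 1 (by norm_num)
                rw [pow_one] at this
                linarith
            _ ≤ X0 := by
                have : 0 ≤ Pz ^ 20 := by positivity
                linarith
      have h8 : 8 * X' ^ 2 ≤ X0 := by
        have g1 : X' ^ 2 ≤ Pz ^ 2 := by gcongr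
        have := hP20 2 (by norm_num)
        have h0 : 0 ≤ Pz ^ 20 := by positivity
        linarith
      have h1P : (nm (1 : Eis) : ℝ) ≤ X0 := by
        have h5 : (nm (1 : Eis) : ℝ) = 1 := by simp
        rw [h5]; exact hX01
      have hlog : Real.log (nm n) ≤ Real.log (nm y.2) :=
        Real.log_le_log (by exact_mod_cast nm_pos.2 hn'.1.ne_zero) (by
          exact_mod_cast Div277.nm_le_of_dvd hy'.2.1.ne_zero hn'.2)
      have k1 := HN A' hA' Cφ φ hCφ hφ P hD.hP s hD.z (fun _ => false) 1 1 y.1 δ e A c st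
        isPrim_one hy'.1 hz.δp hz.ep hA2.1 hc
        hst V X' X0 l u j n hV0 hX'1 h8 (hy1P.trans hPX0) h1P (hz.δP.trans hPX0)
        (fun i => (hD.zP i).trans hPX0) hn'.1 hu hnum.1 s₁ (Real.log (nm y.2)) i1 i2 Bd Tn hs₁ hBd
        hlog hnum.2.1 hnum.2.2 (PMHQ.mono hPM hCNC)
      have k2 := HN A' hA' Cφ φ hCφ hφ P hD.hP s₂ hD.z₂ (fun _ => false) 1 1 y.1 δ e A c st
        isPrim_one hy'.1 hz.δp hz.ep hA2.1 hc
        hst V X' X0 l u j n hV0 hX'1 h8 (hy1P.trans hPX0) h1P (hz.δP.trans hPX0)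
        (fun i => (hD.zP₂ i).trans hPX0) hn'.1 hu hnum.1 s₁ (Real.log (nm y.2)) i1 i2 Bd Tn hs₁ hBd
        hlog hnum.2.1 hnum.2.2 (PMHQ.mono hPM₂ hCNC)
      rw [← ha] at k1
      rw [← ha₂] at k2
      change _ ≤ M0 at k1
      change _ ≤ M0 at k2
      have k3 := cellX_two (J := A') (V := V) (e := e) (A := A) (c := c) (X := X') hX'0
        (Q := fun E => QnE E) (δ := δ) hy'.1 (φ := φ) (p := (0, 0)) (t₀ := 0)
        (Ef := fun j₂ => e * A * j₂ * st ^ 4) (l := l) (u := u) (j := j) (n := n) hFa hFa₂ hD.ζ1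
      rw [← hxe] at k3
      have hc0 : (0 : ℝ) ≤ 2 / 2 ^ j := by positivity
      have hn0 : (0 : ℝ) ≤ nm n := Nat.cast_nonneg _
      calc (2 / 2 ^ j : ℝ) * ((nm n : ℝ) * ∑ j₂ ∈ Tb V e A c l, ∑ B ∈ bk X' u,
            MNx A' V e A c X' (QnE (e * A * j₂ * st ^ 4)) δ y.1 φ (0, 0) 0
              (e * A * j₂ * st ^ 4) j₂ B j n x₀) ≤ _ :=
            mul_le_mul_of_nonneg_left (mul_le_mul_of_nonneg_left k3 hn0) hc0
        _ = 2 * ((2 / 2 ^ j) * ((nm n : ℝ) * ∑ j₂ ∈ Tb V e A c l, ∑ B ∈ bk X' u,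
              MNx A' V e A c X' (QnE (e * A * j₂ * st ^ 4)) δ y.1 φ (0, 0) 0
                (e * A * j₂ * st ^ 4) j₂ B j n a) +
            (2 / 2 ^ j) * ((nm n : ℝ) * ∑ j₂ ∈ Tb V e A c l, ∑ B ∈ bk X' u,
              MNx A' V e A c X' (QnE (e * A * j₂ * st ^ 4)) δ y.1 φ (0, 0) 0
                (e * A * j₂ * st ^ 4) j₂ B j n a₂)) := by ring
        _ ≤ 2 * (M0 + M0) := mul_le_mul_of_nonneg_left (add_le_add k1 k2) zero_le_two)
  refine h1.trans ?_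
  clear h1 HQ HN hPM hPM₂ hKD
  -- the polar sum
  have hQ7 : 9 * (V * (nm (e * A) : ℝ) ^ 3) ≤ 9 * Pz ^ 7 := by
    have hVP := hz.VP
    calc 9 * (V * (nm (e * A) : ℝ) ^ 3) ≤ 9 * (Pz * (Pz ^ 2) ^ 3) := by gcongr
      _ = _ := by ring
  have h9P : Pz ≤ 9 * Pz ^ 7 := by
    have : Pz ≤ Pz ^ 7 := le_self_pow₀ hP1 (by norm_num)
    have h0 : 0 ≤ Pz ^ 7 := by positivity
    linarith
  have hpol : PTs α δ e V K X B0 y A ≤ CL * Cφ ^ 2 * (C9 * Pz ^ (7 * ε)) * (Ax ^ 2 * PNv) := by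
    have hr0 : 0 ≤ CL * Cφ ^ 2 * (C9 * Pz ^ (7 * ε)) * (Ax ^ 2 * PNv) := by positivity
    by_cases hy2 : y.2 = 1
    swap
    · refine le_trans (le_of_eq ?_) hr0
      unfold GKC739.PTs E2440.PJ
      simp [hy2]
    refine (PTs_le hV0.le hK0.le).trans ?_
    have hYm : ∀ n, tw3 st x₀ n ≠ 0 → n ∈ S (Real.exp Rw * Xn) := by
      intro n hn
      have hn1 : x₀ n ≠ 0 := right_ne_zero_of_mul hn
      rw [mem_S (by have := hD.X0; positivity)]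
      exact ⟨MTX241.nm_le_win hD.X0 (hFS0.prim n hn1).ne_zero (hD.win n hn1), hFS0.prim n hn1,
        hD.sq n hn1⟩
    have k2 := HL (Real.exp Rw * Xn) Xn (9 * Pz ^ 7) Ax (tw3 st x₀) δ 1
      (by have := hD.X0; positivity) hD.X0 hD.A0
      (hP1.trans h9P) (hD.XP.trans h9P) hYm (fun n hn => hD.win n (right_ne_zero_of_mul hn)) htwn
      (fun n _ => one_dvd n) isPrim_one hz.δp isCoprime_one_left Cφ (1 / 2) φ hCφ (by norm_num)
      (by norm_num) hφ (0, 0) T9_zero 0 e hz.ep V K B0 X hV0 hK0.le hX0.le (hcP.trans h9P) hB00 y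
      hy A hA hQ7
    refine le_trans (le_of_eq ?_) (k2.trans (le_of_eq ?_))
    · rfl
    · rw [hPNv]
      unfold PN
      rw [if_pos hy2]
      have e1 : (9 * Pz ^ 7) ^ ε = C9 * Pz ^ (7 * ε) := by
        rw [Real.mul_rpow (by norm_num) (by positivity), ← Real.rpow_natCast Pz 7,
          ← Real.rpow_mul hP0.le, hC9]
        push_cast
        rfl
      rw [e1]
      simp only [pow_zero, abs_zero, add_zero, mul_one, one_pow]
      ring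
  have hX02 : X0 ^ (2 * ε) = C16 * Pz ^ (40 * ε) := by
    rw [hX0d, Real.mul_rpow (by norm_num) (by positivity), ← Real.rpow_natCast Pz 20,
      ← Real.rpow_mul hP0.le]
    congr 2
    push_cast
    ring
  have hPe1 : 1 ≤ Pz ^ (40 * ε) := Real.one_le_rpow hP1 (by linarith)
  have hPe7 : Pz ^ (7 * ε) ≤ Pz ^ (40 * ε) :=
    Real.rpow_le_rpow_of_exponent_le hP1 (by linarith)
  have hPe2 : Pz ^ ε * Pz ^ (40 * ε) ≤ Pz ^ (50 * ε) := by
    rw [← Real.rpow_add hP0]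
    exact Real.rpow_le_rpow_of_exponent_le hP1 (by linarith)
  have hGe : GG = Cφ ^ 2 * gA := by rw [hGG, hgA]; ring
  set Y : ℝ := W * (Bd * Real.exp Tn) with hY
  have hY0 : 0 ≤ Y := by positivity
  set G := (1 + Cφ ^ 2) * Pz ^ (40 * ε) with hG
  have hG0 : 0 ≤ G := by positivity
  have hCφ2 : Cφ ^ 2 ≤ 1 + Cφ ^ 2 := by linarith
  have a2 : (1 : ℝ) ≤ G :=
    one_le_mul_of_one_le_of_one_le (by linarith only [sq_nonneg Cφ]) hPe1
  have b1 : W * (2 * (M0 + M0)) ≤ D1 * G * Y := by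
    calc W * (2 * (M0 + M0)) = D1 * (Cφ ^ 2 * Pz ^ (40 * ε)) * Y := by
          rw [hM0, hX02, hGe, hY, hD1]; ring
      _ ≤ D1 * G * Y := by rw [hG]; gcongr
  have b2 : (Cφ * iA (A' - 6) * 2 ^ 6 * Axp / nm y.1) ^ 2 * PJm K V X' (nm (e * A))
      (nm (st ^ 2)) (nm y.2) H (Mu d0 y.1) 1 ≤ D2 * G * PJv := by
    calc (Cφ * iA (A' - 6) * 2 ^ 6 * Axp / nm y.1) ^ 2 * PJm K V X' (nm (e * A))
          (nm (st ^ 2)) (nm y.2) H (Mu d0 y.1) 1 = D2 * (Cφ ^ 2 * 1) * PJv := by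
          rw [hPJv, hκn, hD2]; ring
      _ ≤ D2 * G * PJv := by rw [hG]; gcongr
  have b3 : PTs α δ e V K X B0 y A ≤ D3 * G * (Ax ^ 2 * PNv) := by
    refine hpol.trans ?_
    calc CL * Cφ ^ 2 * (C9 * Pz ^ (7 * ε)) * (Ax ^ 2 * PNv) =
          D3 * (Cφ ^ 2 * Pz ^ (7 * ε)) * (Ax ^ 2 * PNv) := by rw [hD3]; ring
      _ ≤ D3 * G * (Ax ^ 2 * PNv) := by rw [hG]; gcongr
  have b4 : (Pz ^ M')⁻¹ ≤ 1 * G * (Pz ^ M')⁻¹ := by
    rw [one_mul]; exact le_mul_of_one_le_left hQ0 a2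
  have hPN1 : 0 ≤ Ax ^ 2 * PNv := by positivity
  have hsum := fin_w hD10 hD20 hD30 hG0 hY0 hPJ0 hPN1 hQ0 b1 b2 b3 b4
  have hT0 : 0 ≤ Y + PJv + Ax ^ 2 * PNv + (Pz ^ M')⁻¹ := by positivity
  exact fin_c (by linarith only [hCQ]) hCN0 (by positivity) hCC (sq_nonneg cc)
    (by linarith only [sq_nonneg Cφ]) hG (by positivity) (by positivity) hPe2 (by positivity) hT0
    hsum

end Crest.Agent.R017.RXb739
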