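import Crest.Agent.R017.RXq_770
import Crest.Agent.R017.E4Xg_92
import Crest.Agent.R017.E4Xb_681

/-!
# Row 17, x-side of E4: the R-test at helper92's cells (helper770)

* `gx_glue` : the supports are prime to the modulus of the test character
* **`rx_glue`** : the hypothesis `RXk` of helper681's `cell_field`
-/

set_option autoImplicit false
set_option linter.unusedVariables false

noncomputable section

open Complex MeasureTheory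
open scoped ComplexConjugate

namespace Crest.Agent.R017.RXn770

open Crest.Agent.R012 Crest.Agent.R012.Eis
open Crest.Agent.R012.LS2 (S mem_S)
open Crest.Agent.R012.GLS106 (dec dec_spec)
open Crest.Agent.R017.CM106 (CS TG FS)
open Crest.Agent.R017.FE47
open Crest.Agent.R017.End699 Crest.Agent.R017.B770 Crest.Agent.R017.Sup271
open Crest.Agent.R017.Prov71
open Crest.Agent.R017.HP842 (Pc pc)
open Crest.Agent.R017.GrB829 (IsC)
open Crest.Agent.R017.E3D579 (b0 bF bt)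
open Crest.Agent.R017.Mode405 (Slp Mul1 OK3 Tst)
open Crest.Agent.R017.R3571 (RMm)
open Crest.Agent.R017.E5k54 (alb)
open Crest.Agent.R017.E5B71 (Pt)
open Crest.Agent.R017.TEM792 (LD nL)
open Crest.Agent.R017.E4zz92 (Tu PP PP_prim FF_eq)
open Crest.Agent.R017.E4X92
open Crest.Agent.R017.E4Xb681 (XC cb Nb0 Zc FI cell_FI FF_ne)

/-- the bridge to helper681's form -/
lemma rxk_of {κ₁ : Eis} {OK : ℝ → ℝ → Eis → Set Tst → Prop} {ψ : Eis → ℂ} {aS A : ℕ}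
    {c Z Nb ν : ℝ} {R ρ : Eis} {b : Eis → ℂ} {W1 : ℝ}
    (h : RXt347.RXk κ₁ OK ψ aS A c Z Nb ν R ρ b W1) :
    E3q681.RXk κ₁ OK ψ aS A c Z Nb ν R ρ b W1 := h

/-- the twisted lumps are prime to the modulus -/
lemma alb_cop' {P : DPar} (hP : P.OK) {h : ℝ → ℝ} {s : Eis} {us : Fin 3 → Pq} {β : Fin 3 → Eis}
    (hβ : ∀ i, IsPrim (β i)) {n : Eis} (hn : alb (fun i => pc h (Pt P s (us i))) β n ≠ 0) :
    IsCoprime n P.n := by
  have e1 := congrFun (TEX792.alb_tw (f := fun i => pc h ((us i).pc P))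
    (f' := fun i => pc h (Pt P s (us i))) (fun i m hm => TEX792.pc_prim' hm) (s := s)
    (fun i m => TEX792.pc_Pt h P s (us i) m) hβ) n
  rw [e1] at hn
  exact TEX792.alb_cop hP (right_ne_zero_of_mul (right_ne_zero_of_mul hn))

lemma cop_of_rad {n M' x : Eis} (hM : M' ≠ 0) (hrad : ∀ p : Eis, Prime p → p ∣ M' → p ∣ n)
    (h : IsCoprime x n) : IsCoprime x M' := by
  refine isCoprime_of_prime_dvd (fun h' => hM h'.2) fun p hp hpa hpM => ?_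
  exact hp.not_isUnit (h.isUnit_of_dvd' hpa (hrad p hp hpM))

variable {x : XF} {a : Tu} {Nα Rw : ℝ} {nδ nμ : ℕ} {i : Eis × Eis}

/-- **the supports are prime to the modulus of the test character** -/
theorem gx_glue {n M' : Eis} (hM : M' ≠ 0) (hrad : ∀ p : Eis, Prime p → p ∣ M' → p ∣ n)
    (hMM : ∀ p : Eis, Prime p → p ∣ M' → p ∣ x.M) (hα : ∀ m, x.α m ≠ 0 → IsCoprime m n)
    {bm : Eis → ℂ} {k : ℂ} {κ' : Eis → ℂ} (hcz : x.cz bm k κ' a i ≠ 0) :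
    E3q681.GXk (a.h * a.u) (fun n => IsCoprime n M') (x.Rr a i) (cb x a i.1) := by
  classical
  obtain ⟨-, f2, -, f4⟩ := cz_facts hcz
  intro κ F y hκ hF hsq he hyR m hm
  have cu : IsCoprime a.u x.M := f2.of_mul_right_left.of_mul_right_right
  have ch : IsCoprime a.h x.M := f4.of_mul_right_left.of_mul_right_left.of_mul_right_right
  have hMR : x.M ∣ x.Rr a i := by
    refine dvd_trans ?_ (Ra_dvd x a i)
    unfold XF.Ra
    exact ⟨x.Sf a.q * a.ν * a.u * a.h, by ring⟩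
  have cy : IsCoprime y x.M := hyR.of_isCoprime_of_dvd_right hMR
  have cκ : IsCoprime κ M' := by
    refine cop_of_rad hM hMM ?_
    have h1 : IsCoprime (κ * F) x.M := by
      rw [he]
      exact (ch.mul_left cu).mul_left cy
    exact h1.of_mul_left_left
  unfold E3D579.bF E3D579.bt at hm
  split_ifs at hm with hd
  · obtain ⟨m', rfl⟩ := hd
    rw [mul_div_cancel_left₀ _ hκ.ne_zero] at hm
    have h1 : cb x a i.1 m' ≠ 0 := left_ne_zero_of_mul (left_ne_zero_of_mul hm)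
    unfold E4Xb681.cb at h1
    have h2 := (E4Xb681.b0_ne h1).1
    exact cκ.mul_left (cop_of_rad hM hrad (hα _ h2).of_mul_left_right)
  · exact absurd rfl hm

variable {Λ : Type*} {π : Λ → DPar} {h : ℝ → ℝ}

/-- **the hypothesis `RXk` of helper681's `cell_field`** -/
theorem rx_glue {c₀ : ℝ} (hpu : PU h c₀) (hP' : ∀ lam, (π lam).OK) {d : ℝ} (hd : 0 ≤ d)
    (hd8 : d ≤ 1 / 8) (HR : RCl π h d) (lam : Λ) {P : DPar} (hP : P.OK) {M' : Eis} {η : Eis → ℂ}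
    (hη : HC M' η) (j : ℤ) (hrad : ∀ p : Eis, Prime p → p ∣ M' → p ∣ P.n)
    (hlam : π lam = rwP P M' η j) {ε : ℝ} (hε : 0 < ε) {K : ℝ} (hK : 1 ≤ K) :
    ∃ M aS A₀ : ℕ, 1 ≤ aS ∧ ∀ s : Eis, s ≠ 0 → ∀ cc R₀ : ℝ, 0 < cc → ∀ A : ℕ, A₀ ≤ A → 1 < A →
      ∃ X₀ : ℝ, 1 < X₀ ∧ ∀ X : ℝ, X₀ ≤ X → ∀ H : ℝ, 1 ≤ H →
      ∀ (us : Fin 3 → Pq) (β : Fin 3 → Eis), LD X K H us β →
      ∀ u : ℝ, (∃ i, (us i).z ≤ u * Real.log X) →
      ∀ (x : XF) (a : Tu) (Nα Rw : ℝ), x.α = alb (fun i => pc h (Pt P s (us i))) β →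
      IsC x.c₀ → IsPrim x.e₀ → (nm x.e₀ : ℝ) ≤ X ^ K → x.Y ≤ X ^ K → XC x a Nα Rw →
      ∀ (nδ nμ : ℕ) (i : Eis × Eis), i ∈ x.cell a nδ nμ → ∀ ν ih E W1 : ℝ, 0 < ν →
      ν ≤ X ^ (37 * K) → ν * qg (PP (x.Sf a.q) x.g₁ a.ν (a.us * a.τ)) ≤ X ^ ih →
      0 < E → E ≤ nm (x.g₂ * (a.w * (a.g * i.1))) →
      H ^ M * X ^ (max ih (ih / 3) + g3 d u ih +
          2 / 3 * (nL X us β - Real.log E / Real.log X) + ε) ≤ W1 →
      E3q681.RXk (a.h * a.u) OK3 (BDh681.ps η j) aS A cc (Zc R₀ x.Y ^ 3) (Nb0 x a Nα i.1) ν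
        (x.Rr a i) 1 (cb x a i.1) W1 := by
  classical
  have hK0 : 0 < K := by linarith
  obtain ⟨M, aS, A₀, haS, H1⟩ := rx_cell hpu hP' hd hd8 HR lam hP hη j hrad hlam hε
    (K := 37 * K) (by linarith)
  refine ⟨M, aS, A₀, haS, fun s hs cc R₀ hcc A hA hA1 => ?_⟩
  obtain ⟨X₁, hX₁, H2⟩ := H1 s hs cc hcc A hA hA1
  set C' : ℝ := max 2 ((Real.exp R₀ + 16) ^ 3) with hC'
  refine ⟨max X₁ C', lt_of_lt_of_le hX₁ (le_max_left _ _), ?_⟩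
  intro X hX H hH us β hD u hu x a Nα Rw hα hc₀ he₀ he₀K hYK hx nδ nμ i hi ν ih E W1 hν hνK hih hE
    hED hW1
  have hXX : X₁ ≤ X := (le_max_left _ _).trans hX
  have hX1 : 1 < X := lt_of_lt_of_le hX₁ hXX
  have hX0 : 0 < X := by linarith
  have hCX : C' ≤ X := (le_max_right _ _).trans hX
  have h2X : 2 ≤ X := (le_max_left _ _).trans hCX
  have hRX : (Real.exp R₀ + 16) ^ 3 ≤ X := (le_max_right _ _).trans hCX
  have hL0 : 0 < Real.log X := Real.log_pos hX1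
  have hKX : X ^ K ≤ X ^ (37 * K) := Real.rpow_le_rpow_of_exponent_le hX1.le (by linarith)
  have hY1 := hx.Y1
  have hfi := cell_FI hx hi
  have hFne := FF_ne hfi
  have hσ : IsPrim (a.us * a.τ) := hx.hs.hus.mul hx.τ
  have hFe : x.FFa a = x.c₀ * PP (x.Sf a.q) x.g₁ a.ν (a.us * a.τ) := by
    unfold XF.FFa
    rw [FF_eq]
  set Pq' := PP (x.Sf a.q) x.g₁ a.ν (a.us * a.τ) with hPq
  have hP0 : Pq' ≠ 0 := fun h0 => hFne (by rw [hFe, h0, mul_zero])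
  have hPp : IsPrim Pq' := PP_prim hx.S hx.g1 hx.ν hσ hP0
  obtain ⟨p1, p2, p3, s1, s2, hcc', hdec⟩ := dec_spec hPp
  set D : Eis := x.g₂ * (a.w * (a.g * i.1)) with hDd
  have hDp : IsPrim D := hx.g2.mul (hx.hs.hw.mul hfi.gδ)
  have hn1 : ∀ {y : Eis}, y ≠ 0 → (1 : ℝ) ≤ nm y := fun hy => by exact_mod_cast nm_pos.2 hy
  -- the sizes
  have hnn := hfi.nn
  unfold XF.nn at hnn
  have nF := hn1 hFne
  have nD := hn1 hDp.ne_zero
  have nu := hn1 hx.hs.hu.ne_zero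
  have nh := hn1 hx.h.ne_zero
  have hpos : (0 : ℝ) < nm (x.FFa a) * (nm D : ℝ) ^ 2 * (nm a.u * nm a.h) := by positivity
  rw [← hDd, div_le_div_iff₀ (by norm_num) hpos] at hnn
  have hV2 : (nm (x.FFa a) : ℝ) * (nm D : ℝ) ^ 2 * (nm a.u * nm a.h) ≤ 2 * X ^ K := by
    have := hx.VY
    linarith
  have hXK0 : (0 : ℝ) < X ^ K := by positivity
  have h2K : 2 * X ^ K ≤ X ^ (37 * K) := by
    calc 2 * X ^ K ≤ X ^ (1 : ℝ) * X ^ K := by
          rw [Real.rpow_one]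
          gcongr
      _ = X ^ (1 + K) := (Real.rpow_add hX0 _ _).symm
      _ ≤ _ := Real.rpow_le_rpow_of_exponent_le hX1.le (by linarith)
  have hDK : (nm D : ℝ) ≤ X ^ (37 * K) := by
    refine le_trans ?_ (hV2.trans h2K)
    calc (nm D : ℝ) = 1 * (nm D : ℝ) ^ 1 * (1 * 1) := by ring
      _ ≤ nm (x.FFa a) * (nm D : ℝ) ^ 2 * (nm a.u * nm a.h) := by
          have h12 : (nm D : ℝ) ^ 1 ≤ (nm D : ℝ) ^ 2 := pow_le_pow_right₀ nD (by norm_num)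
          gcongr
  have hPY : (nm Pq' : ℝ) ≤ 2 * x.Y := by
    have h1 : (nm Pq' : ℝ) ≤ nm (x.FFa a) := by
      rw [hFe, nm_mul]
      push_cast
      exact le_mul_of_one_le_left (Nat.cast_nonneg _) (hn1 hx.c0)
    have h2 : (nm (x.FFa a) : ℝ) * (nm D : ℝ) ^ 2 * (nm a.u * nm a.h) ≤ 2 * x.Y := by
      have := hx.VY
      linarith
    refine h1.trans (le_trans ?_ h2)
    calc (nm (x.FFa a) : ℝ) = nm (x.FFa a) * 1 * (1 * 1) := by ring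
      _ ≤ _ := by
          have h12 : (1 : ℝ) ≤ (nm D : ℝ) ^ 2 := one_le_pow₀ nD
          gcongr
  have hZc : 2 * x.Y ≤ Zc R₀ x.Y ^ 3 := by
    have h0 : 16 * x.Y ≤ Zc R₀ x.Y := by
      unfold E4Xb681.Zc
      have h1 : x.Y ≤ x.Y ^ 12 := le_self_pow₀ hY1 (by norm_num)
      have h2 := Real.exp_pos R₀
      have h3 : (16 : ℝ) ≤ Real.exp R₀ + 16 := by linarith
      gcongr
    have h1 : (1 : ℝ) ≤ Zc R₀ x.Y := by linarith
    have h2 : Zc R₀ x.Y ≤ Zc R₀ x.Y ^ 3 := le_self_pow₀ h1 (by norm_num)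
    linarith
  have hZ1 : 1 ≤ Zc R₀ x.Y ^ 3 := by linarith
  have hZK : Zc R₀ x.Y ^ 3 ≤ X ^ (37 * K) := by
    unfold E4Xb681.Zc
    rw [mul_pow, ← pow_mul]
    calc (Real.exp R₀ + 16) ^ 3 * x.Y ^ (12 * 3) ≤ X * (X ^ K) ^ (12 * 3) := by
          have := pow_le_pow_left₀ (by linarith : (0 : ℝ) ≤ x.Y) hYK (12 * 3)
          gcongr
      _ = X ^ (1 + K * 36) := by
          rw [Real.rpow_add hX0, Real.rpow_one, Real.rpow_mul hX0.le]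
          norm_cast
      _ ≤ _ := Real.rpow_le_rpow_of_exponent_le hX1.le (by linarith)
  have hPe : (nm Pq' : ℝ) = nm (dec Pq').1 * (nm (dec Pq').2.1 : ℝ) ^ 2 *
      (nm (dec Pq').2.2 : ℝ) ^ 3 := by
    conv_lhs => rw [hdec]
    rw [nm_mul, nm_mul, nm_pow, nm_pow]
    push_cast
    ring
  have nq := hn1 p1.ne_zero
  have ng := hn1 p2.ne_zero
  have nr := hn1 p3.ne_zero
  have ng2 : (nm (dec Pq').2.1 : ℝ) ≤ (nm (dec Pq').2.1 : ℝ) ^ 2 := le_self_pow₀ ng (by norm_num)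
  have nr3 : (nm (dec Pq').2.2 : ℝ) ≤ (nm (dec Pq').2.2 : ℝ) ^ 3 := le_self_pow₀ nr (by norm_num)
  have hqY : (nm (dec Pq').1 : ℝ) ≤ Zc R₀ x.Y ^ 3 := by
    refine le_trans ?_ (hPY.trans hZc)
    rw [hPe]
    calc (nm (dec Pq').1 : ℝ) = nm (dec Pq').1 * 1 * 1 := by ring
      _ ≤ _ := by
          have h1 : (1 : ℝ) ≤ (nm (dec Pq').2.1 : ℝ) ^ 2 := one_le_pow₀ ng
          have h2 : (1 : ℝ) ≤ (nm (dec Pq').2.2 : ℝ) ^ 3 := one_le_pow₀ nr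
          gcongr
  have hgY : (nm (dec Pq').2.1 : ℝ) ≤ Zc R₀ x.Y ^ 3 := by
    refine le_trans ?_ (hPY.trans hZc)
    rw [hPe]
    calc (nm (dec Pq').2.1 : ℝ) = 1 * nm (dec Pq').2.1 * 1 := by ring
      _ ≤ _ := by
          have h2 : (1 : ℝ) ≤ (nm (dec Pq').2.2 : ℝ) ^ 3 := one_le_pow₀ nr
          gcongr
  have hrY : (nm (dec Pq').2.2 : ℝ) ≤ Zc R₀ x.Y ^ 3 := by
    refine le_trans ?_ (hPY.trans hZc)
    rw [hPe]
    calc (nm (dec Pq').2.2 : ℝ) = 1 * 1 * nm (dec Pq').2.2 := by ring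
      _ ≤ _ := by
          have h1 : (1 : ℝ) ≤ (nm (dec Pq').2.1 : ℝ) ^ 2 := one_le_pow₀ ng
          gcongr
  have hNb0 : 0 < Nb0 x a Nα i.1 := by
    unfold E4Xb681.Nb0
    rw [← hDd]
    have := hx.Nα0
    positivity
  have hNbY : Nb0 x a Nα i.1 ≤ Zc R₀ x.Y ^ 3 := by
    unfold E4Xb681.Nb0
    rw [← hDd]
    have h1 : Nα / nm D ≤ Nα := div_le_self hx.Nα0.le nD
    have := hx.NαY
    linarith
  have hkey := H2 X hXX H hH us β (LD_mono hX1 (by linarith) hD) u hu D x.e₀ (dec Pq').1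
    (dec Pq').2.1 (dec Pq').2.2 (a.h * a.u) x.c₀ hDp he₀ p1 p2 p3 hc₀ hDK (he₀K.trans hKX)
    (Zc R₀ x.Y ^ 3) hZ1 hZK hqY hgY hrY (Nb0 x a Nα i.1) hNb0 hNbY ν ih (x.Rr a i) W1 hν hνK
    hih (le_trans ?_ hW1)
  · have e1 : cb x a i.1 = b0 (fun m => alb (fun i => pc h (Pt P s (us i))) β (D * m)) D x.e₀
        ((dec Pq').1 * x.c₀ * (dec Pq').2.1 ^ 2 * (dec Pq').2.2 ^ 3) := by
      unfold E4Xb681.cb
      rw [← hDd, ← hα, hFe]
      congr 1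
      conv_lhs => rw [hdec]
      ring
    rw [e1]
    exact rxk_of hkey
  · refine mul_le_mul_of_nonneg_left ?_ (by positivity)
    refine Real.rpow_le_rpow_of_exponent_le hX1.le ?_
    have h1 : Real.log E / Real.log X ≤ Real.log (nm D) / Real.log X :=
      div_le_div_of_nonneg_right (Real.log_le_log hE hED) hL0.le
    linarith

/-- **class N**: the same for the family of all class-N parameters -/
theorem rx_glueN {c₀ : ℝ} (hpu : PU h c₀) {d : ℝ} (hd : 0 ≤ d) (hd8 : d ≤ 1 / 8)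
    (HR : RCl (fun P : LamN => P.1) h d) (P : LamN) {M' : Eis} {η : Eis → ℂ}
    (hη : HC M' η) (j : ℤ) (hrad : ∀ p : Eis, Prime p → p ∣ M' → p ∣ P.1.n)
    (hN : ∀ k : Eis, k ≠ 0 →
      NPm (rwP P.1 M' η j).n (rwP P.1 M' η j).ψ (rwP P.1 M' η j).l₂ k)
    {ε : ℝ} (hε : 0 < ε) {K : ℝ} (hK : 1 ≤ K) :
    ∃ M aS A₀ : ℕ, 1 ≤ aS ∧ ∀ s : Eis, s ≠ 0 → ∀ cc R₀ : ℝ, 0 < cc → ∀ A : ℕ, A₀ ≤ A → 1 < A →
      ∃ X₀ : ℝ, 1 < X₀ ∧ ∀ X : ℝ, X₀ ≤ X → ∀ H : ℝ, 1 ≤ H →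
      ∀ (us : Fin 3 → Pq) (β : Fin 3 → Eis), LD X K H us β →
      ∀ u : ℝ, (∃ i, (us i).z ≤ u * Real.log X) →
      ∀ (x : XF) (a : Tu) (Nα Rw : ℝ), x.α = alb (fun i => pc h (Pt P.1 s (us i))) β →
      IsC x.c₀ → IsPrim x.e₀ → (nm x.e₀ : ℝ) ≤ X ^ K → x.Y ≤ X ^ K → XC x a Nα Rw →
      ∀ (nδ nμ : ℕ) (i : Eis × Eis), i ∈ x.cell a nδ nμ → ∀ ν ih E W1 : ℝ, 0 < ν →
      ν ≤ X ^ (37 * K) → ν * qg (PP (x.Sf a.q) x.g₁ a.ν (a.us * a.τ)) ≤ X ^ ih →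
      0 < E → E ≤ nm (x.g₂ * (a.w * (a.g * i.1))) →
      H ^ M * X ^ (max ih (ih / 3) + g3 d u ih +
          2 / 3 * (nL X us β - Real.log E / Real.log X) + ε) ≤ W1 →
      E3q681.RXk (a.h * a.u) OK3 (BDh681.ps η j) aS A cc (Zc R₀ x.Y ^ 3) (Nb0 x a Nα i.1) ν
        (x.Rr a i) 1 (cb x a i.1) W1 :=
  rx_glue (π := fun P : LamN => P.1) hpu (fun P => P.2.1) hd hd8 HR (rwN P M' η j hη hN) P.2.1 hη
    j hrad rfl hε hK

end Crest.Agent.R017.RXn770
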