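import Crest.Agent.R017.RXg_770

/-!
# Row 17, x-side of E4: the R-test at the cells for ANY sequence (helper770)

* `RHs` : (RH) of one sequence
* `rx_numG` : the R-test from (RH)
* **`rx_glueG`** : the hypothesis `RXk` of helper681's `cell_field` from (RH), any sequence
  (class N and class E)
-/

set_option autoImplicit false
set_option linter.unusedVariables false
set_option maxHeartbeats 800000

noncomputable section

open Complex MeasureTheory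
open scoped ComplexConjugate

namespace Crest.Agent.R017.RXn770

open Crest.Agent.R012 Crest.Agent.R012.Eis Crest.Agent.R012.MC
open Crest.Agent.R012.LS2 (S mem_S bl mem_bl)
open Crest.Agent.R012.GLS106 (dec dec_spec)
open Crest.Agent.R017.CM106 (CS TG FS)
open Crest.Agent.R017.FE47
open Crest.Agent.R017.B770
open Crest.Agent.R017.Prov71
open Crest.Agent.R017.GrB829 (IsC)
open Crest.Agent.R017.PX764 (n6)
open Crest.Agent.R017.E3D579 (n6_nonneg b0)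
open Crest.Agent.R017.Mode405 (Slp Mul1 OK3)
open Crest.Agent.R017.R3571
open Crest.Agent.R017.E4zz92 (Tu PP PP_prim FF_eq)
open Crest.Agent.R017.E4X92
open Crest.Agent.R017.E4Xb681 (XC cb Nb0 Zc FI cell_FI FF_ne)

/-- **(RH) of one sequence** -/
def RHs (A : ℕ) (K X : ℝ) (α ψ : Eis → ℂ) (D e : Eis) (W0 : ℝ → ℝ) : Prop :=
  ∀ γ φ : Eis, IsPrim γ → IsPrim φ → (nm φ : ℝ) ≤ X ^ (41 * K) → ∀ P : ℝ, 0 < P →
    (nm γ : ℝ) * n6 γ ^ 2 * ∑ k ∈ bl P, RMm A (fun m => α (D * m) * conj (ψ m)) e γ φ k ≤ W0 P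

lemma RHs.mono {A : ℕ} {K K' X : ℝ} {α ψ : Eis → ℂ} {D e : Eis} {W0 : ℝ → ℝ} (hX : 1 ≤ X)
    (hK : K' ≤ K) (h : RHs A K X α ψ D e W0) : RHs A K' X α ψ D e W0 :=
  fun γ φ h1 h2 h3 => h γ φ h1 h2
    (h3.trans (Real.rpow_le_rpow_of_exponent_le hX (by linarith)))

/-- **the R-test from (RH)** -/
theorem rx_numG {ε : ℝ} (hε : 0 < ε) {K : ℝ} (hK : 0 < K) {A : ℕ} (hA1 : 1 < A) {cc : ℝ}
    (hcc : 0 < cc) :
    ∃ X₀ : ℝ, 1 < X₀ ∧ ∀ X : ℝ, X₀ ≤ X →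
      ∀ (ψ α : Eis → ℂ), Mul1 ψ → FS α → (∀ n, α n ≠ 0 → Squarefree n) →
      ∀ D e q g r κ₁ c : Eis, IsPrim D → IsPrim e → IsPrim q → IsPrim g → IsPrim r → IsC c →
      ∀ Z : ℝ, 1 ≤ Z → Z ≤ X ^ K → (nm q : ℝ) ≤ Z → (nm g : ℝ) ≤ Z → (nm r : ℝ) ≤ Z →
      ∀ Nb : ℝ, 0 < Nb → Nb ≤ Z → ∀ (ν i : ℝ) (R : Eis) (W1 : ℝ), 0 < ν →
      ν * ((nm q : ℝ) ^ 2 * nm g) ≤ X ^ i →
      ∀ (aS : ℕ) (W0 : ℝ → ℝ), Slp aS W0 → RHs A K X α ψ D e W0 →
      X ^ ε * W0 (X ^ (i + ε)) ≤ W1 →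
      RXt347.RXk κ₁ OK3 ψ aS A cc Z Nb ν R 1
        (b0 (fun m => α (D * m)) D e (q * c * g ^ 2 * r ^ 3)) W1 := by
  classical
  obtain ⟨C, hC, H2⟩ := RXt347.rx_of_RH hA1 (show 0 < ε / (2 * K) by positivity)
  set C' : ℝ := max 1 (max C (81 * cc)) with hC'
  have hC'1 : 1 ≤ C' := le_max_left _ _
  have hC'0 : 0 < C' := by linarith
  refine ⟨max 2 (Real.exp (Real.log C' / (ε / 2))), lt_of_lt_of_le (by norm_num) (le_max_left _ _),
    ?_⟩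
  intro X hX ψ α hψ hα hsf D e q g r κ₁ c hDp he hq hg hr hc Z hZ hZK hqZ hgZ hrZ Nb hNb hNbZ ν i
    R W1 hν hi aS W0 hW0 hRH hW1
  have h2X : 2 ≤ X := (le_max_left _ _).trans hX
  have hX1 : 1 < X := by linarith
  have hX0 : 0 < X := by linarith
  have hε2 : 0 < ε / 2 := by positivity
  have hCX : C' ≤ X ^ (ε / 2) := by
    have h1 : Real.log C' / (ε / 2) ≤ Real.log X :=
      (Real.le_log_iff_exp_le hX0).2 ((le_max_right _ _).trans hX)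
    rw [div_le_iff₀ hε2] at h1
    rw [← Real.exp_log hC'0, Real.rpow_def_of_pos hX0]
    exact Real.exp_le_exp.2 (by linarith)
  have hqn := nm_cast_pos hq.ne_zero
  have hgn := nm_cast_pos hg.ne_zero
  set m0 : ℝ := ν * ((nm q : ℝ) ^ 2 * nm g) with hm0
  have hm00 : 0 < m0 := by positivity
  have h81 : 81 * cc ≤ X ^ (ε / 2) := ((le_max_right _ _).trans (le_max_right _ _)).trans hCX
  have hFD : FS (fun m => α (D * m)) := hα.sub hDp
  rw [b0_cube _ (fun m hm => hFD.prim m hm)]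
  have hFr : FS (rq r D fun m => α (D * m)) := by
    refine ⟨hFD.fin.subset fun m hm h0 => hm ?_, fun m hm => hFD.prim m fun h0 => hm ?_⟩
    · unfold rq
      beta_reduce
      rw [show α (D * m) = 0 from h0, ite_self]
    · unfold rq
      beta_reduce
      rw [h0, ite_self]
  refine H2 Z hZ ψ hψ (rq r D fun m => α (D * m)) hFr (fun n hn => ?_) D e
    q g κ₁ c hDp he hq hg hc hqZ hgZ Nb hNb hNbZ aS W0 hW0 (fun γ φ hγ hφ hφZ P hPP => ?_) cc ν R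
    W1 hcc ?_
  · refine (hsf (D * n) fun h0 => hn ?_).of_mul_right
    unfold rq
    beta_reduce
    rw [h0, ite_self]
  · have hφK : (nm (φ * r) : ℝ) ≤ X ^ (41 * K) := by
      rw [nm_mul]
      push_cast
      calc (nm φ : ℝ) * nm r ≤ (X ^ K) ^ 40 * X ^ K := by
            have h1 : (nm φ : ℝ) ≤ (X ^ K) ^ 40 :=
              hφZ.trans (pow_le_pow_left₀ (by linarith) hZK 40)
            have h2 := hrZ.trans hZK
            gcongr
        _ = X ^ (K * 40 + K) := by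
            rw [Real.rpow_add hX0, Real.rpow_mul hX0.le]; norm_cast
        _ ≤ X ^ (41 * K) := Real.rpow_le_rpow_of_exponent_le hX1.le (by linarith)
    refine le_trans ?_ (hRH γ (φ * r) hγ (hφ.mul hr) hφK P hPP)
    refine mul_le_mul_of_nonneg_left (Finset.sum_le_sum fun k _ => ?_) ?_
    · exact rm_rq _ _ _ _ _ _ _ _ _
    · have := n6_nonneg γ
      positivity
  · refine le_trans ?_ hW1
    have hP1 : 81 * (cc * ν * ((nm q : ℝ) ^ 2 * nm g)) ≤ X ^ (i + ε) := by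
      calc 81 * (cc * ν * ((nm q : ℝ) ^ 2 * nm g)) = 81 * cc * m0 := by rw [hm0]; ring
        _ ≤ X ^ (ε / 2) * X ^ i := by gcongr
        _ = X ^ (ε / 2 + i) := (Real.rpow_add hX0 _ _).symm
        _ ≤ X ^ (i + ε) := Real.rpow_le_rpow_of_exponent_le hX1.le (by linarith)
    have hP0 : 0 < 81 * (cc * ν * ((nm q : ℝ) ^ 2 * nm g)) := by positivity
    have hPP : 0 < X ^ (i + ε) := by positivity
    have hWm : W0 (81 * (cc * ν * ((nm q : ℝ) ^ 2 * nm g))) ≤ W0 (X ^ (i + ε)) := by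
      refine (hW0.low _ _ hP0 hP1).trans ?_
      refine mul_le_of_le_one_left (hW0.nonneg _ hPP) ?_
      exact Real.rpow_le_one (by positivity) ((div_le_one hPP).2 hP1) (by norm_num)
    have hZε : Z ^ (ε / (2 * K)) ≤ X ^ (ε / 2) := by
      calc Z ^ (ε / (2 * K)) ≤ (X ^ K) ^ (ε / (2 * K)) :=
            Real.rpow_le_rpow (by linarith) hZK (by positivity)
        _ = X ^ (ε / 2) := by
            rw [← Real.rpow_mul hX0.le]
            congr 1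
            field_simp
    have hCC : C ≤ X ^ (ε / 2) := ((le_max_left _ _).trans (le_max_right _ _)).trans hCX
    have hW00 : 0 ≤ W0 (X ^ (i + ε)) := hW0.nonneg _ hPP
    have hW01 := hW0.nonneg _ hP0
    have hZ0 : 0 < Z := by linarith
    calc C * Z ^ (ε / (2 * K)) * W0 (81 * (cc * ν * ((nm q : ℝ) ^ 2 * nm g)))
        ≤ X ^ (ε / 2) * X ^ (ε / 2) * W0 (X ^ (i + ε)) := by
          refine mul_le_mul (mul_le_mul hCC hZε (by positivity) (by positivity)) hWm hW01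
            (by positivity)
      _ = X ^ ε * W0 (X ^ (i + ε)) := by
          rw [← Real.rpow_add hX0]
          congr 2
          ring

/-- **the hypothesis `RXk` of helper681's `cell_field` from (RH)**, any sequence -/
theorem rx_glueG {ε : ℝ} (hε : 0 < ε) {K : ℝ} (hK : 1 ≤ K) {A : ℕ} (hA1 : 1 < A) {cc R₀ : ℝ}
    (hcc : 0 < cc) :
    ∃ X₀ : ℝ, 1 < X₀ ∧ ∀ X : ℝ, X₀ ≤ X →
      ∀ (x : XF) (a : Tu) (Nα Rw : ℝ), FS x.α → (∀ n, x.α n ≠ 0 → Squarefree n) →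
      IsC x.c₀ → IsPrim x.e₀ → x.Y ≤ X ^ K → XC x a Nα Rw →
      ∀ ψ : Eis → ℂ, Mul1 ψ →
      ∀ (nδ nμ : ℕ) (i : Eis × Eis), i ∈ x.cell a nδ nμ → ∀ ν ih W1 : ℝ, 0 < ν →
      ν * qg (PP (x.Sf a.q) x.g₁ a.ν (a.us * a.τ)) ≤ X ^ ih →
      ∀ (aS : ℕ) (W0 : ℝ → ℝ), Slp aS W0 →
      RHs A (37 * K) X x.α ψ (x.g₂ * (a.w * (a.g * i.1))) x.e₀ W0 →
      X ^ ε * W0 (X ^ (ih + ε)) ≤ W1 →
      E3q681.RXk (a.h * a.u) OK3 ψ aS A cc (Zc R₀ x.Y ^ 3) (Nb0 x a Nα i.1) ν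
        (x.Rr a i) 1 (cb x a i.1) W1 := by
  classical
  have hK0 : 0 < K := by linarith
  obtain ⟨X₁, hX₁, H2⟩ := rx_numG hε (K := 37 * K) (by linarith) hA1 hcc
  set C' : ℝ := max 2 ((Real.exp R₀ + 16) ^ 3) with hC'
  refine ⟨max X₁ C', lt_of_lt_of_le hX₁ (le_max_left _ _), ?_⟩
  intro X hX x a Nα Rw hαF hαs hc₀ he₀ hYK hx ψ hψ nδ nμ i hi ν ih W1 hν hih aS W0 hW0 hRH hW1
  have hXX : X₁ ≤ X := (le_max_left _ _).trans hX
  have hX1 : 1 < X := lt_of_lt_of_le hX₁ hXX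
  have hX0 : 0 < X := by linarith
  have hCX : C' ≤ X := (le_max_right _ _).trans hX
  have hRX : (Real.exp R₀ + 16) ^ 3 ≤ X := (le_max_right _ _).trans hCX
  have hY1 := hx.Y1
  have hfi := cell_FI hx hi
  have hFne := FF_ne hfi
  have hσ : IsPrim (a.us * a.τ) := hx.hs.hus.mul hx.τ
  have hFe : x.FFa a = x.c₀ * PP (x.Sf a.q) x.g₁ a.ν (a.us * a.τ) := by
    unfold XF.FFa
    rw [FF_eq]
  set Pq' := PP (x.Sf a.q) x.g₁ a.ν (a.us * a.τ) with hPq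
  have hP0 : Pq' ≠ 0 := fun h0 => hFne (by rw [hFe, h0, mul_zero])
  have hPp : IsPrim Pq' := PP_prim hx.S hx.g1 hx.ν hσ hP0
  obtain ⟨p1, p2, p3, s1, s2, hcc', hdec⟩ := dec_spec hPp
  set D : Eis := x.g₂ * (a.w * (a.g * i.1)) with hDd
  have hDp : IsPrim D := hx.g2.mul (hx.hs.hw.mul hfi.gδ)
  have hn1 : ∀ {y : Eis}, y ≠ 0 → (1 : ℝ) ≤ nm y := fun hy => by exact_mod_cast nm_pos.2 hy
  have nD := hn1 hDp.ne_zero
  have nu := hn1 hx.hs.hu.ne_zero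
  have nh := hn1 hx.h.ne_zero
  have nF := hn1 hFne
  have hnn := hfi.nn
  unfold XF.nn at hnn
  have hpos : (0 : ℝ) < nm (x.FFa a) * (nm D : ℝ) ^ 2 * (nm a.u * nm a.h) := by positivity
  rw [← hDd, div_le_div_iff₀ (by norm_num) hpos] at hnn
  have hPY : (nm Pq' : ℝ) ≤ 2 * x.Y := by
    have h1 : (nm Pq' : ℝ) ≤ nm (x.FFa a) := by
      rw [hFe, nm_mul]
      push_cast
      exact le_mul_of_one_le_left (Nat.cast_nonneg _) (hn1 hx.c0)
    have h2 : (nm (x.FFa a) : ℝ) * (nm D : ℝ) ^ 2 * (nm a.u * nm a.h) ≤ 2 * x.Y := by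
      have := hx.VY
      linarith
    refine h1.trans (le_trans ?_ h2)
    calc (nm (x.FFa a) : ℝ) = nm (x.FFa a) * 1 * (1 * 1) := by ring
      _ ≤ _ := by
          have h12 : (1 : ℝ) ≤ (nm D : ℝ) ^ 2 := one_le_pow₀ nD
          gcongr
  have hZc : 2 * x.Y ≤ Zc R₀ x.Y ^ 3 := by
    have h0 : 16 * x.Y ≤ Zc R₀ x.Y := by
      unfold E4Xb681.Zc
      have h1 : x.Y ≤ x.Y ^ 12 := le_self_pow₀ hY1 (by norm_num)
      have h2 := Real.exp_pos R₀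
      have h3 : (16 : ℝ) ≤ Real.exp R₀ + 16 := by linarith
      gcongr
    have h1 : (1 : ℝ) ≤ Zc R₀ x.Y := by linarith
    have h2 : Zc R₀ x.Y ≤ Zc R₀ x.Y ^ 3 := le_self_pow₀ h1 (by norm_num)
    linarith
  have hZ1 : 1 ≤ Zc R₀ x.Y ^ 3 := by linarith
  have hZK : Zc R₀ x.Y ^ 3 ≤ X ^ (37 * K) := by
    unfold E4Xb681.Zc
    rw [mul_pow, ← pow_mul]
    calc (Real.exp R₀ + 16) ^ 3 * x.Y ^ (12 * 3) ≤ X * (X ^ K) ^ (12 * 3) := by
          have := pow_le_pow_left₀ (by linarith : (0 : ℝ) ≤ x.Y) hYK (12 * 3)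
          gcongr
      _ = X ^ (1 + K * 36) := by
          rw [Real.rpow_add hX0, Real.rpow_one, Real.rpow_mul hX0.le]
          norm_cast
      _ ≤ _ := Real.rpow_le_rpow_of_exponent_le hX1.le (by linarith)
  have hPe : (nm Pq' : ℝ) = nm (dec Pq').1 * (nm (dec Pq').2.1 : ℝ) ^ 2 *
      (nm (dec Pq').2.2 : ℝ) ^ 3 := by
    conv_lhs => rw [hdec]
    rw [nm_mul, nm_mul, nm_pow, nm_pow]
    push_cast
    ring
  have nq := hn1 p1.ne_zero
  have ng := hn1 p2.ne_zero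
  have nr := hn1 p3.ne_zero
  have ng2 : (nm (dec Pq').2.1 : ℝ) ≤ (nm (dec Pq').2.1 : ℝ) ^ 2 := le_self_pow₀ ng (by norm_num)
  have nr3 : (nm (dec Pq').2.2 : ℝ) ≤ (nm (dec Pq').2.2 : ℝ) ^ 3 := le_self_pow₀ nr (by norm_num)
  have hqY : (nm (dec Pq').1 : ℝ) ≤ Zc R₀ x.Y ^ 3 := by
    refine le_trans ?_ (hPY.trans hZc)
    rw [hPe]
    calc (nm (dec Pq').1 : ℝ) = nm (dec Pq').1 * 1 * 1 := by ring
      _ ≤ _ := by
          have h1 : (1 : ℝ) ≤ (nm (dec Pq').2.1 : ℝ) ^ 2 := one_le_pow₀ ng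
          have h2 : (1 : ℝ) ≤ (nm (dec Pq').2.2 : ℝ) ^ 3 := one_le_pow₀ nr
          gcongr
  have hgY : (nm (dec Pq').2.1 : ℝ) ≤ Zc R₀ x.Y ^ 3 := by
    refine le_trans ?_ (hPY.trans hZc)
    rw [hPe]
    calc (nm (dec Pq').2.1 : ℝ) = 1 * nm (dec Pq').2.1 * 1 := by ring
      _ ≤ _ := by
          have h2 : (1 : ℝ) ≤ (nm (dec Pq').2.2 : ℝ) ^ 3 := one_le_pow₀ nr
          gcongr
  have hrY : (nm (dec Pq').2.2 : ℝ) ≤ Zc R₀ x.Y ^ 3 := by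
    refine le_trans ?_ (hPY.trans hZc)
    rw [hPe]
    calc (nm (dec Pq').2.2 : ℝ) = 1 * 1 * nm (dec Pq').2.2 := by ring
      _ ≤ _ := by
          have h1 : (1 : ℝ) ≤ (nm (dec Pq').2.1 : ℝ) ^ 2 := one_le_pow₀ ng
          gcongr
  have hNb0 : 0 < Nb0 x a Nα i.1 := by
    unfold E4Xb681.Nb0
    rw [← hDd]
    have := hx.Nα0
    positivity
  have hNbY : Nb0 x a Nα i.1 ≤ Zc R₀ x.Y ^ 3 := by
    unfold E4Xb681.Nb0
    rw [← hDd]
    have h1 : Nα / nm D ≤ Nα := div_le_self hx.Nα0.le nD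
    have := hx.NαY
    linarith
  have hkey := H2 X hXX ψ x.α hψ hαF hαs D x.e₀ (dec Pq').1
    (dec Pq').2.1 (dec Pq').2.2 (a.h * a.u) x.c₀ hDp he₀ p1 p2 p3 hc₀
    (Zc R₀ x.Y ^ 3) hZ1 hZK hqY hgY hrY (Nb0 x a Nα i.1) hNb0 hNbY ν ih (x.Rr a i) W1 hν
    hih aS W0 hW0 hRH hW1
  have e1 : cb x a i.1 = b0 (fun m => x.α (D * m)) D x.e₀
      ((dec Pq').1 * x.c₀ * (dec Pq').2.1 ^ 2 * (dec Pq').2.2 ^ 3) := by
    unfold E4Xb681.cb
    rw [← hDd, hFe]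
    congr 1
    conv_lhs => rw [hdec]
    ring
  rw [e1]
  exact rxk_of hkey

end Crest.Agent.R017.RXn770
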