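import Crest.Agent.R017.RXi_848
import Crest.Agent.R017.RX6_298

/-!
# Row 17, T.7 (RG rule, exceptional class): the recursion with its parameters, the T-numbers of the
lower bound inserted (helper848)

* `rg_Xm` : `rg_X` through helper298's `nt_step_m`, i.e. with the lower bound in the form `LBm`
-/

set_option autoImplicit false
set_option maxHeartbeats 1600000

noncomputable section

open Complex
open scoped ComplexConjugate

namespace Crest.Agent.R017.RXi848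

open Crest.Agent.R012 Crest.Agent.R012.Eis Crest.Agent.R012.LS2 Crest.Agent.R012.Gauss880
open Crest.Agent.R012.MC (Wgt)
open Crest.Agent.R012.Weight600 (osc pw)
open Crest.Agent.R017.CM106 Crest.Agent.R017.HP842 Crest.Agent.R017.FE47
open Crest.Agent.R017.End699 hiding pw
open Crest.Agent.R017.B770
open Crest.Agent.R017.Prov71
open Crest.Agent.R017.Rough381 (VF VF_nonneg)
open Crest.Agent.R017.Leg381
open Crest.Agent.R017.RG64 (Dat Ht Ht_nil Ht_cons one_le_Ht cstF_nonneg Ht_le_cst Sb SbL LF_cons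
  LF_nonneg z_le_LF NT Ge NTGe fl ex0 exJ ex0_le_fl LBn Abs4 Cut SbL_natl rg_const rg_thr)
open Crest.Agent.R017.LegK545 (VK SFK JBK VK_nonneg)
open Crest.Agent.R017.RGK545 (ClXK ClK ClNK)
open Crest.Agent.R017.PX764 (Dk)
open Crest.Agent.R017.Dk848 (ker_Dk)
open Crest.Agent.R017.RX298

set_option maxHeartbeats 6400000 in
/-- **the recursion with its parameters, exceptional class**, lower bound in the form `LBm` -/
theorem rg_Xm {h : ℝ → ℝ} {c : ℝ} (hpu : PU h c) (N : ℕ) {w : ℝ → ℝ} (hab : Abs4 w)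
    {R Ca c₁ δ ε₁ e₃ ε J B₀ : ℝ} {m Jn Aw : ℕ} (hR : 0 ≤ R) (hAL : XDp h N R Ca) (hc₁ : 0 ≤ c₁)
    (hδ : 0 < δ) (hε₁ : 0 < ε₁) (hε₁1 : ε₁ ≤ 1 / 16) (he₃ : 0 < e₃) (hε : 0 < ε) (hJ : 6 ≤ J)
    (hJn : (N : ℝ) * J ≤ Jn) (hJ12 : 12 ≤ Jn) (hAw : Jn + 2 ≤ Aw) (hB₀ : 1 ≤ B₀)
    (hm : 4 ≤ m * δ) (hme : 8 * (m * e₃) ≤ ε₁) (hNδ : 4 * (N * δ) ≤ ε₁) :
    ∃ Cw η₀ C S X₁ : ℝ, 0 ≤ Cw ∧ 0 < η₀ ∧ η₀ ≤ 1 ∧ 1 ≤ C ∧ 0 ≤ S ∧ ∀ X : ℝ, 3 ≤ X → X₁ ≤ X →
    ∀ D : Dat, DX h N J B₀ X D → D.D0 = X ^ δ → D.z = D.D0 →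
    (∀ p ∈ D.ps₀, 0 ≤ p.z) → D.n = LF (natl D.ps₀) → 0 ≤ D.κ → 0 ≤ D.v →
    D.n ≤ Real.log X / 4 → D.v ≤ Real.log X / 4 → 2 * D.n ≤ D.κ + D.v →
    ∀ (N0 N1 : ℝ → ℕ) (ρ : ℝ → ℕ → ℝ), Cut N0 N1 ρ c₁ →
    ∀ (cc Bd B₁ El Ga Dd d₀ bb : ℝ), (3 * N + 1) * (δ * Real.log X) ≤ cc →
    cc ≤ Real.log X / 8 → 0 ≤ Bd → 0 ≤ B₁ → 0 ≤ El → 0 ≤ Ga → Ga ≤ 1 → Real.exp cc ≤ Dd → 0 ≤ d₀ → Lg2B (d₀ + cc + ε₁ * Real.log X) D.ps₀ →
    cc + 4 * (δ * Real.log X) - d₀ + (D.v + D.n + 2 * (ε₁ * Real.log X) - D.κ) / 3 ≤ bb →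
    ClNK Dk D (exJ D.κ D.v D.n cc) Bd S (3 * (ε₁ * Real.log X)) (C * Real.exp D.n) 0
      (D.n - cc + ε₁ * Real.log X) →
    ClNK Dk D (ex0 D.κ) Bd S (3 * (ε₁ * Real.log X)) (C * Real.exp D.n)
      (D.n - 2 * cc - ε₁ * Real.log X) (D.n - cc + ε₁ * Real.log X) →
    ClNK Dk D (ex0 D.κ) B₁ S (3 * (ε₁ * Real.log X)) (C * Real.exp D.n)
      (D.n - 2 * cc - ε₁ * Real.log X) (D.n + ε₁ * Real.log X) →
    ClNK Dk (Dr d₀ D) (exJ D.κ D.v D.n cc) Bd (2 * S) (3 * (ε₁ * Real.log X))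
      (C * Real.exp D.n) 0 (D.n - cc + ε₁ * Real.log X) →
    ClNK Dk (Dr d₀ D) (ex0 D.κ) Bd (2 * S) (3 * (ε₁ * Real.log X)) (C * Real.exp D.n)
      (D.n - 2 * cc - ε₁ * Real.log X) (D.n + ε₁ * Real.log X) →
    (∀ a : ℝ, ε₁ * Real.log X ≤ a → a ≤ 2 * (ε₁ * Real.log X) → ∀ (q : Eis) (ps : List Pf),
      IsPrim q → (nm q : ℝ) * Real.exp (LF ps) ≤ C * Real.exp D.n → NT ps →
      SbL S ps D.ps₀ → D.n - cc ≤ LF ps →
      LBm w Cw η₀ Aw (Real.exp D.κ) (Real.exp (LF ps)) X Dd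
        (N1 (D.v + (D.n - LF ps) + a + e₃ * Real.log X))
        (ρ (D.v + (D.n - LF ps) + a + e₃ * Real.log X)) R Jn
        (xs q D.z D.D0 D.P D.h d₀ ps) (Real.exp cc) 9 Ga
        (El * Ht ps ^ J * Real.exp (2 * LF ps))) →
    ∀ k : ℝ, 0 ≤ k → k ≤ D.v → SFK Dk D.z D.D0 1 D.P D.h k (natl D.ps₀) ≤
      C * X ^ (3 * (m * ε) + 6 * ε + 4 * ε₁) * (El + Ga * B₁ + Bd + Real.exp bb + 1) *
        Ht (natl D.ps₀) ^ J * Real.exp (fl D.κ k D.n) := by
  classical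
  have hJ0 : (0 : ℝ) ≤ J := by linarith
  have hN0 : (0 : ℝ) ≤ N := Nat.cast_nonneg _
  have hm0 : (0 : ℝ) ≤ m := Nat.cast_nonneg _
  obtain ⟨C₁, r₁, hC₁, hr₁, hleg⟩ := RGK545.leg_step2 ker_Dk hpu N hε hJ0
  obtain ⟨Cw, C₂, η₀, r₂, X₂, hCw, hC₂, hη₀, hη₀1, hr₂, hnt⟩ :=
    nt_step_m hpu N hab hJ he₃ hε hR hJn hJ12 hAw hAL hc₁ hB₀
  obtain ⟨C₃, r₃, hC₃, hr₃, hop⟩ := RGK545.open_num ker_Dk hpu N hε hJ0
  obtain ⟨r, hr1, hr2, hr3⟩ : ∃ r : ℝ, r₁ ≤ r ∧ r₂ ≤ r ∧ r₃ ≤ r :=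
    ⟨max r₁ (max r₂ r₃), le_max_left _ _, (le_max_left _ _).trans (le_max_right _ _),
      (le_max_right _ _).trans (le_max_right _ _)⟩
  have hr0 : 0 ≤ r := hr₁.trans hr1
  set q₀ : ℝ := Real.exp ((N + 1) * r) with hq₀
  have hq₀1 : 1 ≤ q₀ := Real.one_le_exp (by positivity)
  have hqN : Real.exp (N * r) ≤ q₀ := Real.exp_le_exp.2 (by linarith)
  have hqr : Real.exp r ≤ q₀ := Real.exp_le_exp.2 (by nlinarith)
  set S : ℝ := m * (2 * r) + r with hS
  have hS0 : 0 ≤ S := by positivity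
  set Cq : ℝ := (q₀ ^ 2) ^ m * q₀ with hCq
  have hCq1 : 1 ≤ Cq := one_le_mul_of_one_le_of_one_le (one_le_pow₀ (one_le_pow₀ hq₀1)) hq₀1
  set Cf : ℝ := (3 * (C₁ * C₂)) ^ m * (2 * (C₂ * C₃)) with hCf
  have hCf1 : 1 ≤ Cf := by
    have h1 : 1 ≤ C₁ * C₂ := one_le_mul_of_one_le_of_one_le hC₁ hC₂
    have h2 : 1 ≤ C₂ * C₃ := one_le_mul_of_one_le_of_one_le hC₂ hC₃
    exact one_le_mul_of_one_le_of_one_le (one_le_pow₀ (by linarith)) (by linarith)
  -- the threshold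
  set T : ℝ := (16 * (m + 1) * (N + 1) * (r + 1) * (c₁ + 1) + 16 * R) / (δ * ε₁) +
    (16 * (m + 1) * (N + 1) * (r + 1) * (c₁ + 1) + 16 * R) / ε₁ +
    (16 * (m + 1) * (N + 1) * (r + 1) * (c₁ + 1) + 16 * R) / δ with hT
  set U : ℝ := 16 * (m + 1) * (N + 1) * (r + 1) * (c₁ + 1) + 16 * R with hU
  have hU0 : 0 ≤ U := by positivity
  have hqf : 1 ≤ Cq * Cf := one_le_mul_of_one_le_of_one_le hCq1 hCf1
  have hCC : 1 ≤ Cq * Cf * (2 * C₃) := one_le_mul_of_one_le_of_one_le hqf (by linarith)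
  refine ⟨Cw, η₀, Cq * Cf * (2 * C₃), S, max X₂ (max (Real.exp T) ((Cq * Cf * (2 * C₃)) ^ 2)),
    hCw, hη₀, hη₀1, hCC, hS0, ?_⟩
  intro X hX hXT D hDX hD0 hz hz0 hn hκ hv hn4 hv4 h2n N0 N1 ρ hcut cc Bd B₁ El Ga Dd d₀ bb hcc
    hcc8 hBd hB₁ hEl hGa hGa1 hDd hd₀ hLg hbb hClJ hClT hClT0 hClJr hClTr hLB k hk hkv
  have hP := hDX.ok
  have hh := hDX.hh
  have hDJ := hDX.J
  have hN := hDX.len
  have hX1 : (1 : ℝ) ≤ X := by linarith
  have hX0 : 0 < X := by linarith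
  set l : ℝ := Real.log X with hl
  have hl0 : 0 ≤ l := Real.log_nonneg hX1
  have hXT1 : Real.exp T ≤ X := (le_max_left _ _).trans ((le_max_right _ _).trans hXT)
  have hXC : (Cq * Cf * (2 * C₃)) ^ 2 ≤ X := (le_max_right _ _).trans ((le_max_right _ _).trans hXT)
  have hTl : T ≤ l := by
    rw [hl, ← Real.log_exp T]
    exact Real.log_le_log (Real.exp_pos _) hXT1
  have hUδ : U ≤ δ * l := by
    have h1 : U / δ ≤ l := by
      refine le_trans ?_ hTl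
      rw [hT]
      have : 0 ≤ U / (δ * ε₁) := by positivity
      have : 0 ≤ U / ε₁ := by positivity
      linarith
    rwa [div_le_iff₀ hδ, mul_comm] at h1
  have hUε : U ≤ ε₁ * l := by
    have h1 : U / ε₁ ≤ l := by
      refine le_trans ?_ hTl
      rw [hT]
      have : 0 ≤ U / (δ * ε₁) := by positivity
      have : 0 ≤ U / δ := by positivity
      linarith
    rwa [div_le_iff₀ hε₁, mul_comm] at h1
  have hεl : 0 ≤ ε₁ * l := by positivity
  -- consequences of the threshold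
  obtain ⟨w1, w2, w3, w4, w5, w6, w7, hεl16⟩ :=
    rg_thr (n := (N : ℝ)) (m := (m : ℝ)) (e₃ := e₃) hN0 hm0 hr0 hc₁ hR hS hl0 hU hUδ hUε hm hme
      hNδ hε₁1
  have hlD : Real.log D.D0 = δ * l := by rw [hD0, Real.log_rpow hX0]
  have hD01 : 1 ≤ D.D0 := by rw [hD0]; exact Real.one_le_rpow hX1 hδ.le
  have hδl : 0 ≤ δ * l := by positivity
  have hn0 : 0 ≤ D.n := by
    rw [hn]; exact LF_nonneg (by
      intro p hp
      unfold natl at hp
      obtain ⟨q, hq, rfl⟩ := List.mem_map.1 hp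
      exact hz0 q hq)
  -- moduli
  have hCX : Cq * Cf * (2 * C₃) * Real.exp D.n ≤ X ^ B₀ := by
    have g1 : (Cq * Cf * (2 * C₃)) ≤ X ^ (1 / 2 : ℝ) := by
      rw [← Real.sqrt_eq_rpow]
      exact Real.le_sqrt_of_sq_le hXC
    have g2 : Real.exp D.n ≤ X ^ (1 / 2 : ℝ) := by
      rw [Real.rpow_def_of_pos hX0, ← hl]
      exact Real.exp_le_exp.2 (by linarith)
    calc Cq * Cf * (2 * C₃) * Real.exp D.n ≤ X ^ (1 / 2 : ℝ) * X ^ (1 / 2 : ℝ) := by gcongr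
      _ = X ^ (1 : ℝ) := by rw [← Real.rpow_add hX0]; norm_num
      _ ≤ X ^ B₀ := Real.rpow_le_rpow_of_exponent_le hX1 hB₀
  -- the parameters
  set e : ℝ := δ * l / 2 with he
  set α : ℝ := e₃ * l + c₁ + r with hα
  set σ₀ : ℝ := D.n - cc with hσ₀
  set lo : ℝ := D.n - 2 * cc - N * (δ * l) - r with hlo
  have hmα : ε₁ * l + m * (2 * α) + r ≤ 2 * (ε₁ * l) := w5
  have he3l : 0 ≤ e₃ * l := by positivity
  have hα0 : r ≤ α := by
    rw [hα]
    linarith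
  have hαX : e₃ * Real.log X + c₁ + r₂ ≤ α := by rw [hα]; linarith
  have hme' : l ≤ m * e := w6
  have hNS : 0 ≤ N * S := by positivity
  have hNδ0 : 0 ≤ N * (δ * l) := by positivity
  have hNr : 0 ≤ N * r := by positivity
  have hcc0 : 0 ≤ cc := by
    refine le_trans ?_ hcc
    positivity
  have hLFle : ∀ (s' : ℝ) (ps : List Pf), 0 ≤ s' → s' ≤ S → SbL s' ps D.ps₀ →
      LF ps ≤ D.n + N * S := by
    intro s' ps h0 h1 h2
    have := h2.LF_le h0 hN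
    rw [← hn] at this
    have : (N : ℝ) * s' ≤ N * S := mul_le_mul_of_nonneg_left h1 hN0
    linarith
  have hLFler : ∀ (s' : ℝ) (ps : List Pf), 0 ≤ s' → s' ≤ 2 * S → SbL s' ps (Dr d₀ D).ps₀ →
      LF ps ≤ D.n + N * (2 * S) := by
    intro s' ps h0 h1 h2
    have h3 : (Dr d₀ D).ps₀.length ≤ N := by
      show (rpB d₀ D.ps₀).length ≤ N
      rw [rpB_length]; exact hN
    have := h2.LF_le h0 h3
    have e1 : LF (natl (Dr d₀ D).ps₀) = D.n := by
      show LF (natl (rpB d₀ D.ps₀)) = D.n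
      rw [LF_natl_rpB, hn]
    rw [e1] at this
    have : (N : ℝ) * s' ≤ N * (2 * S) := mul_le_mul_of_nonneg_left h1 hN0
    linarith
  have hNr3 : (N : ℝ) * r₃ ≤ N * r := mul_le_mul_of_nonneg_left hr3 hN0
  have hQc : Real.exp D.n * (q₀ ^ 2) ^ m * q₀ ≤ Cq * Cf * (2 * C₃) * Real.exp D.n := by
    rw [hCq]
    have g1 : 1 ≤ Cf * (2 * C₃) := one_le_mul_of_one_le_of_one_le hCf1 (by linarith)
    calc Real.exp D.n * (q₀ ^ 2) ^ m * q₀ = ((q₀ ^ 2) ^ m * q₀) * Real.exp D.n * 1 := by ring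
      _ ≤ ((q₀ ^ 2) ^ m * q₀) * Real.exp D.n * (Cf * (2 * C₃)) :=
          mul_le_mul_of_nonneg_left g1 (by positivity)
      _ = _ := by ring
  -- the terminal range
  have hterm : ClK Dk D (Ge lo) (C₃ * X ^ ε * Bd) (0 + m * (2 * r)) (ε₁ * l + m * (2 * α))
      (Real.exp D.n * (q₀ ^ 2) ^ m) σ₀ := by
    have h1 := hop X hX D hP hh hD01 hDJ hN Bd (0 + m * (2 * r)) (ε₁ * l + m * (2 * α))
      (Real.exp D.n * (q₀ ^ 2) ^ m) q₀ lo (D.n - 2 * cc - ε₁ * l) σ₀ (D.n - cc + ε₁ * l) hBd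
      ((Real.exp_le_exp.2 (mul_le_mul_of_nonneg_left hr3 hN0)).trans hqN)
      (fun ps h1 h2 h3 => by
        constructor
        · rw [hσ₀] at h2; linarith
        · rw [hlo] at h3; linarith)
      (by
        rw [hσ₀]
        linarith)
      (by
        rw [hlo, hlD]
        linarith)
      (fun q ps' k' b1 b2 b3 b4 b5 b6 b7 b8 => hClT q ps' k' b1 (b2.trans hQc)
        b3 (b4.mono (by rw [hS]; linarith)) b5 b6 b7 (by linarith))
    exact h1.expo (by positivity) (fun k m => ex0_le_fl D.κ k m)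
  -- the a priori bound of the own lists
  have hown : ClXK Dk (ex0 D.κ) D (Ge lo) (C₃ * X ^ ε * B₁) (0 + m * (2 * r))
      (ε₁ * l + m * (2 * α)) (Real.exp D.n * (q₀ ^ 2) ^ m) (D.n + N * S) := by
    refine hop X hX D hP hh hD01 hDJ hN B₁ (0 + m * (2 * r)) (ε₁ * l + m * (2 * α))
      (Real.exp D.n * (q₀ ^ 2) ^ m) q₀ lo (D.n - 2 * cc - ε₁ * l) (D.n + N * S)
      (D.n + ε₁ * l) hB₁
      ((Real.exp_le_exp.2 (mul_le_mul_of_nonneg_left hr3 hN0)).trans hqN)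
      (fun ps h1 h2 h3 => by
        constructor
        · linarith
        · rw [hlo] at h3
          linarith)
      (by linarith)
      (by
        rw [hlo, hlD]
        linarith)
      (fun q ps' k' b1 b2 b3 b4 b5 b6 b7 b8 => hClT0 q ps' k' b1 (b2.trans hQc)
        b3 (b4.mono (by rw [hS]; linarith)) b5 b6 b7 (by linarith))
  -- the replaced lists
  have hrepl : ClXK Dk (ex0 D.κ) (Dr d₀ D) (Ge lo) (C₃ * X ^ ε * Bd) (2 * (m * (2 * r)) + r)
      (ε₁ * l + m * (2 * α)) (Real.exp D.n * (q₀ ^ 2) ^ m) (D.n + N * (2 * S)) := by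
    refine hop X hX (Dr d₀ D) hP hh hD01 hDJ (by
        show (rpB d₀ D.ps₀).length ≤ N
        rw [rpB_length]; exact hN) Bd (2 * (m * (2 * r)) + r) (ε₁ * l + m * (2 * α))
      (Real.exp D.n * (q₀ ^ 2) ^ m) q₀ lo (D.n - 2 * cc - ε₁ * l) (D.n + N * (2 * S))
      (D.n + ε₁ * l) hBd
      ((Real.exp_le_exp.2 (mul_le_mul_of_nonneg_left hr3 hN0)).trans hqN)
      (fun ps h1 h2 h3 => by
        constructor
        · linarith
        · rw [hlo] at h3
          show D.v + (D.n - LF ps) + (ε₁ * l + m * (2 * α)) ≤ l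
          linarith)
      (by linarith)
      (by
        show D.n - 2 * cc - ε₁ * l ≤ lo - N * (Real.log D.D0 + r₃)
        rw [hlo, hlD]
        linarith)
      (fun q ps' k' b1 b2 b3 b4 b5 b6 b7 b8 => hClTr q ps' k' b1 (b2.trans hQc)
        b3 (b4.mono (by rw [hS]; linarith)) b5 b6 b7 (by linarith))
  -- the recursion
  set Bd' : ℝ := C₃ * X ^ ε * Bd with hBd'
  have hBd'0 : 0 ≤ Bd' := by positivity
  have hXε : 1 ≤ X ^ ε := Real.one_le_rpow hX1 hε.le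
  have hBB : Bd ≤ Bd' := by
    rw [hBd']
    exact le_mul_of_one_le_left hBd (one_le_mul_of_one_le_of_one_le hC₃ hXε)
  set B₁' : ℝ := C₃ * X ^ ε * B₁ with hB₁'
  have hB₁'0 : 0 ≤ B₁' := by positivity
  set El' : ℝ := El + Real.exp bb + Bd' + Ga * B₁' with hEl'
  have hEl'0 : 0 ≤ El' := by positivity
  set Gc : ℝ := C₂ * X ^ (3 * ε) * (El' + Bd' * Real.exp (N * (δ * l) + 2 * (ε₁ * l)) + 1)
    with hGc
  have hrec := RGK545.rec_j (Kn := Dk) (D := D) (N := N) (C₁ := C₁ * X ^ ε)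
    (C₂ := C₂ * X ^ (2 * ε)) (G := Gc)
    (B₀ := Bd') (r := r) (e := e) (α := α) (q₀ := q₀) (lo := lo) (σ₀ := σ₀)
    (one_le_mul_of_one_le_of_one_le hC₁ hXε)
    (by positivity) (by rw [hGc]; positivity) (by positivity) hr0 hα0 hq₀1 (by rw [he]; positivity)
    (s := 0) (a := ε₁ * l) (Q := Real.exp D.n) (Real.exp_pos _).le m hterm
    (by rw [hlo, hσ₀, hlD]; linarith)
    (by
      intro B B' s' a' Q' σ' hB hB' h1 h2 h3 h4 h5 h6 h7
      have h8 := hleg X hX D hP hh hD01 hDJ hN B B' s' a' Q' q₀ σ' e lo hB hB'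
        ((Real.exp_le_exp.2 (mul_le_mul_of_nonneg_left hr1 hN0)).trans hqN)
        (fun ps c1 c2 c3 => by
          have c4 := hLFle s' ps h1 (by rw [hS]; linarith) c1
          constructor
          · linarith
          · rw [hlo] at c3; linarith)
        (by
          rw [hlD, he]
          have : ((N : ℝ) + 1) * r₁ ≤ (N + 1) * r := mul_le_mul_of_nonneg_left hr1 (by linarith)
          linarith)
        (h6.mono le_rfl (by linarith) (by linarith) le_rfl (by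
          have : (N : ℝ) * r₁ ≤ N * r := mul_le_mul_of_nonneg_left hr1 hN0
          linarith))
        (h7.mono le_rfl (by linarith) (by linarith) le_rfl le_rfl)
      refine h8.weaken fun ps hps => ?_
      have h9 : lo + N * (2 * Real.log D.D0 + r) ≤ LF ps := hps
      show lo + N * (2 * Real.log D.D0 + r₁) ≤ LF ps
      have : (N : ℝ) * r₁ ≤ N * r := mul_le_mul_of_nonneg_left hr1 hN0
      linarith)
    (by
      intro B s' a' Q' σ' hB h1 h2 h3 h4 h5 h6 h7 h8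
      have hs'S : s' + r ≤ S := by rw [hS]; linarith
      have hQm : Real.exp D.n * (q₀ ^ 2) ^ m ≤ Cq * Cf * (2 * C₃) * Real.exp D.n := by
        refine le_trans ?_ hQc
        exact le_mul_of_one_le_right (by positivity) hq₀1
      have hQ' : Q' ≤ Cq * Cf * (2 * C₃) * Real.exp D.n := by
        have : Q' ≤ Q' * q₀ := le_mul_of_one_le_right h5 hq₀1
        linarith
      have h9 := hnt X hX ((le_max_left _ _).trans hXT) D hDX hz hκ N0 N1 ρ hcut
        B B₁' Bd' Bd El Ga 9 0 bb s' a' α Q' q₀ (e + N * (r - r₂)) cc (ε₁ * l) lo 0 σ₀ σ' cc Dd d₀ hB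
        hB₁'0 hBd'0 hBd hEl hGa hGa1 le_rfl (by rw [Real.exp_zero, mul_one]) h1 (by linarith) hd₀
        ((Real.exp_le_exp.2 hr2).trans hqr) (by linarith)
        (by
          rw [hlD, he]
          have q1 : (e + N * (r - r₂)) + (N + 1) * r₂ = e + N * r + r₂ := by ring
          rw [← he, q1, he]
          linarith)
        le_rfl hεl hcc0 hDd le_rfl
        (by rw [hlo, hσ₀, hlD]; linarith)
        (hQ'.trans hCX)
        (by
          rw [hlD]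
          have : a' + e₃ * l + c₁ ≤ 2 * (ε₁ * l) := by linarith
          linarith)
        (fun ps c1 c2 c3 => by
          have c4 := hLFle s' ps h1 (by linarith) c1
          rw [hσ₀] at c3
          refine ⟨by linarith, by linarith, by linarith, by linarith, by linarith, ?_⟩
          refine lg2_of (Nr := N) h1 c1 hLg (y := cc) (by rw [← hn]; exact c3)
            (by exact_mod_cast hN) ?_
          have : (N : ℝ) * s' ≤ N * S := mul_le_mul_of_nonneg_left (by linarith) hN0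
          linarith)
        (h8.mono le_rfl (by linarith) le_rfl le_rfl (by linarith))
        (by
          intro q ps' k' b1 b2 b3 b4 b5 b6 b7
          have b8 := hLFle (s' + r₂) ps' (by linarith) (by linarith) b4
          exact hown q ps' k' b1 (b2.trans h6) b3 (b4.mono (by linarith)) b8 b6
            (by linarith))
        (by
          intro q ps' k' b1 b2 b3 b4 b5 b6 b7
          have b8 := hLFler (2 * s' + r₂) ps' (by linarith) (by linarith) b4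
          exact hrepl q ps' k' b1 (b2.trans h6) b3 (b4.mono (by linarith)) b8 b6
            (by linarith))
        (fun q ps' k' b1 b2 b3 b4 b5 b6 b7 b8 => hClJ q ps' k' b1 (by linarith)
          b3 (b4.mono (by linarith)) b5 b6 b7 (by linarith))
        (fun q ps' k' b1 b2 b3 b4 b5 b6 b7 b8 => hClJr q ps' k' b1 (by linarith)
          b3 (b4.mono (by linarith)) b5 b6 b7 (by linarith))
        (fun q ps c1 c2 c3 c4 c5 c6 => hLB a' h3 (by linarith) q ps c1 (by linarith) c3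
          (c4.mono (by linarith)) c5)
      refine h9.mono ?_ le_rfl le_rfl le_rfl le_rfl
      have h10 : Real.exp (N * Real.log D.D0 + a' + α) ≤
          Real.exp (N * (δ * l) + 2 * (ε₁ * l)) := by
        rw [hlD]; exact Real.exp_le_exp.2 (by linarith)
      have h11 : El + Ga * B₁' + Bd' + Real.exp bb +
          Bd * Real.exp (N * Real.log D.D0 + a' + α) + 1 ≤
          El' + Bd' * Real.exp (N * (δ * l) + 2 * (ε₁ * l)) + 1 := by
        have : Bd * Real.exp (N * Real.log D.D0 + a' + α) ≤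
            Bd' * Real.exp (N * (δ * l) + 2 * (ε₁ * l)) :=
          mul_le_mul hBB h10 (Real.exp_pos _).le hBd'0
        rw [hEl']
        linarith
      rw [hGc]
      gcongr)
  -- the conclusion
  have hfin := hrec 1 (natl D.ps₀) k isPrim_one (by
      rw [nm_one, ← hn]; push_cast; linarith) (by
      show lo ≤ LF (natl D.ps₀)
      rw [← hn, hlo]; linarith) (SbL_natl hz0) (by
      rw [← hn, hσ₀]; linarith) hk (by rw [← hn]; linarith)
  rw [← hn] at hfin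
  refine hfin.trans ?_
  rw [hDJ]
  have hHt := one_le_Ht (natl D.ps₀)
  have hHJ : 0 ≤ Ht (natl D.ps₀) ^ J := Real.rpow_nonneg (by linarith) _
  refine mul_le_mul_of_nonneg_right ?_ (Real.exp_pos _).le
  refine mul_le_mul_of_nonneg_right ?_ hHJ
  have hE0 : Real.exp (N * (δ * l) + 2 * (ε₁ * l)) ≤ X ^ (3 * ε₁) := by
    rw [Real.rpow_def_of_pos hX0]
    refine Real.exp_le_exp.2 ?_
    rw [← hl]
    linarith
  have hB3 : Bd' ≤ C₃ * X ^ ε * Bd' :=
    le_mul_of_one_le_left hBd'0 (one_le_mul_of_one_le_of_one_le hC₃ hXε)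
  have k1 := rg_const (m := m) (El := El') (Bd := Bd') hC₁ hC₂ hC₃ hCq1 hX1 hε hε₁ hBd'0 hEl'0
    hE0 (Real.exp_pos _).le
  have k2 : (C₁ * X ^ ε * (2 + C₂ * X ^ (2 * ε))) ^ m * (Gc + Bd') ≤
      ((C₁ * X ^ ε * (2 + C₂ * X ^ (2 * ε))) ^ m *
        (C₂ * X ^ (2 * ε) * (El' + Bd' * Real.exp (N * (δ * l) + 2 * (ε₁ * l)) + 1) +
          C₃ * X ^ ε * Bd')) * X ^ ε := by
    have e3 : X ^ (3 * ε) = X ^ (2 * ε) * X ^ ε := by
      rw [← Real.rpow_add hX0]; congr 1; ring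
    have e4 : Bd' ≤ C₃ * X ^ ε * Bd' * X ^ ε :=
      hB3.trans (le_mul_of_one_le_right (by positivity) hXε)
    rw [hGc, e3, mul_assoc ((C₁ * X ^ ε * (2 + C₂ * X ^ (2 * ε))) ^ m)]
    refine mul_le_mul_of_nonneg_left ?_ (by positivity)
    have e5 : C₂ * (X ^ (2 * ε) * X ^ ε) *
        (El' + Bd' * Real.exp (N * (δ * l) + 2 * (ε₁ * l)) + 1) =
        C₂ * X ^ (2 * ε) * (El' + Bd' * Real.exp (N * (δ * l) + 2 * (ε₁ * l)) + 1) * X ^ ε := by
      ring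
    rw [e5, add_mul]
    linarith
  refine (k2.trans (mul_le_mul_of_nonneg_right k1 (by positivity))).trans ?_
  have k3 : El' + Bd' + 1 ≤ (2 * C₃) * X ^ ε * (El + Ga * B₁ + Bd + Real.exp bb + 1) := by
    rw [hEl', hBd', hB₁']
    have j1 : 1 ≤ (2 * C₃) * X ^ ε := one_le_mul_of_one_le_of_one_le (by linarith) hXε
    have j2 : 1 * (El + Real.exp bb + 1) ≤ (2 * C₃) * X ^ ε * (El + Real.exp bb + 1) :=
      mul_le_mul_of_nonneg_right j1 (by positivity)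
    have j3 : 0 ≤ C₃ * X ^ ε * (Ga * B₁) := by positivity
    linarith
  have k4 : X ^ (3 * (m * ε) + 6 * ε + 4 * ε₁) =
      X ^ (3 * (m * ε) + 4 * ε + 4 * ε₁) * X ^ ε * X ^ ε := by
    rw [← Real.rpow_add hX0, ← Real.rpow_add hX0]; congr 1; ring
  calc (Cq * Cf) * X ^ (3 * (m * ε) + 4 * ε + 4 * ε₁) * (El' + Bd' + 1) * X ^ ε ≤
        (Cq * Cf) * X ^ (3 * (m * ε) + 4 * ε + 4 * ε₁) *
          ((2 * C₃) * X ^ ε * (El + Ga * B₁ + Bd + Real.exp bb + 1)) * X ^ ε := by gcongr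
    _ = _ := by rw [k4]; ring

end Crest.Agent.R017.RXi848
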