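import Crest.Agent.R017.RXi_848
import Crest.Agent.R017.RGk_64

/-!
# Row 17, T.7 (RG rule, exceptional class): the lower bound for the lists (helper848)

* `NumS`, `NumL` : the numbers (SA0), (L+) of the lower bound `LBN` (helper64)
* `lb_list_x` : (LB) for the differences `xs` from the claims and the R-side hypotheses
-/

set_option autoImplicit false
set_option maxHeartbeats 1600000

noncomputable section

open Complex
open scoped ComplexConjugate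

namespace Crest.Agent.R017.RXk848

open Crest.Agent.R012 Crest.Agent.R012.Eis Crest.Agent.R012.LS2 Crest.Agent.R012.Gauss880
open Crest.Agent.R012.Weight600 (osc pw)
open Crest.Agent.R017.CM106 Crest.Agent.R017.HP842 Crest.Agent.R017.FE47
open Crest.Agent.R017.End699 hiding pw
open Crest.Agent.R017.B770
open Crest.Agent.R017.Prov71
open Crest.Agent.R017.Rough381 (VF VF_nonneg)
open Crest.Agent.R017.Leg381
open Crest.Agent.R017.E1551 (sg tws yv JB)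
open Crest.Agent.R017.RG64
open Crest.Agent.R017.LegK545 (VK SFK JBK VK_nonneg)
open Crest.Agent.R017.RGK545 (ClXK ClK ClNK)
open Crest.Agent.R017.PX764 (Dk)
open Crest.Agent.R017.LBo813 (rho norm_list_le)
open Crest.Agent.R017.RX298 (xs zt norm_zt rp DX QX Dr XDp x_sa0 x_lp LF_rp rp_length)

/-- the number (SA0) -/
def NumS (p : LBp) (α : Eis → ℂ) (Ma : ℝ) : Prop :=
  ∀ g ∈ S p.Y, (nm g : ℝ) ≤ p.G₀ → ∀ V : ℝ, 1 ≤ V → V ≤ 9 * p.N₁ * nm g → ∀ t : ℝ,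
    VF V (tws (sg α g) t) ≤
      Ma / (nm g : ℝ) ^ 2 * ((V * p.K / (p.X / nm g) ^ 2) ^ (1 / 3 : ℝ)) * (1 + |t|) ^ p.J

/-- the number (L+) -/
def NumL (p : LBp) (α : Eis → ℂ) (Ml : ℝ) : Prop :=
  ∀ g ∈ S p.Y, ∀ B V : ℝ, 1 ≤ B → B ≤ p.Y → 1 ≤ V →
    V ≤ 9 * p.N₁ / (nm g : ℝ) ^ 2 → ∀ t : ℝ,
    JB p.Y α (fun U => p.G₀ < nm (g * U)) g B V t ≤
      Ml / (nm g : ℝ) ^ 2 * yv p.K p.X g V * (1 + |t|) ^ p.J

/-- the constants -/
lemma lbx_const {C₁ C₂ X ε Bf Bl f G Rn H E2 : ℝ} (hC₁ : 0 ≤ C₁) (hC₂ : 1 ≤ C₂)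
    (hX : 1 ≤ X) (hε : 0 < ε) (hBf : 0 ≤ Bf) (hBl : 0 ≤ Bl) (hf : 0 ≤ f) (hG : 0 ≤ G)
    (hRn : 0 ≤ Rn) (hH : 1 ≤ H) (hE2 : 0 ≤ E2) :
    C₁ * X ^ (4 * ε) * (E2 + f * (C₂ * X ^ ε * Bf * H * E2 + C₂ * X ^ ε * Bl * H * E2) +
      (Rn * H * E2 + G * (C₂ * X ^ ε * Bf * H * E2 + C₂ * X ^ ε * Bl * H * E2))) ≤
    (C₁ * C₂ * X ^ (5 * ε) * (1 + (f + G) * (Bf + Bl) + Rn)) * H * E2 := by
  have hX0 : 0 < X := by linarith
  have hXε : 1 ≤ X ^ ε := Real.one_le_rpow hX hε.le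
  have e5 : X ^ (5 * ε) = X ^ (4 * ε) * X ^ ε := by
    rw [← Real.rpow_add hX0]; congr 1; ring
  have h1 : 1 ≤ C₂ * X ^ ε := one_le_mul_of_one_le_of_one_le hC₂ hXε
  have k1 : E2 ≤ (C₂ * X ^ ε) * H * E2 :=
    le_mul_of_one_le_left hE2 (one_le_mul_of_one_le_of_one_le h1 hH)
  have k3 : Rn * H * E2 ≤ (C₂ * X ^ ε) * (Rn * H * E2) :=
    le_mul_of_one_le_left (by positivity) h1
  calc C₁ * X ^ (4 * ε) * (E2 + f * (C₂ * X ^ ε * Bf * H * E2 + C₂ * X ^ ε * Bl * H * E2) +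
      (Rn * H * E2 + G * (C₂ * X ^ ε * Bf * H * E2 + C₂ * X ^ ε * Bl * H * E2))) ≤
      C₁ * X ^ (4 * ε) * ((C₂ * X ^ ε) * H * E2 +
        f * (C₂ * X ^ ε * Bf * H * E2 + C₂ * X ^ ε * Bl * H * E2) +
      ((C₂ * X ^ ε) * (Rn * H * E2) +
        G * (C₂ * X ^ ε * Bf * H * E2 + C₂ * X ^ ε * Bl * H * E2))) := by gcongr
    _ = _ := by rw [e5]; ring

/-- **(LB) for the differences** -/
theorem lb_list_x {h : ℝ → ℝ} {c : ℝ} (hpu : PU h c) (N : ℕ) {w : ℝ → ℝ}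
    {Λ : ℝ} (hΛ : 1 ≤ Λ) {Rh : LBp → (Eis → ℂ) → ℝ → Prop} (hLB : LBN w Λ Rh)
    {R Ca Cw η₀ ε e₀ J B₀ : ℝ} {Jn Aw : ℕ}
    (hR : 0 ≤ R) (hAL : XDp h N R Ca) (hCw : 0 ≤ Cw) (hη₀ : 0 < η₀) (hη₀1 : η₀ ≤ 1) (hε : 0 < ε)
    (he₀ : 0 < e₀) (hJ : 6 ≤ J) (hJn : (N : ℝ) * J ≤ Jn) (hJ12 : 12 ≤ Jn) (hAw : Jn + 2 ≤ Aw)
    (hB₀ : 1 ≤ B₀) :
    ∃ C r X₁ : ℝ, 0 ≤ C ∧ 0 ≤ r ∧ ∀ X : ℝ, 3 ≤ X → X₁ ≤ X → ∀ D : Dat, DX h N J B₀ X D →
    0 ≤ D.κ → D.κ ≤ Real.log X →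
    ∀ Bf Br Bl s a Q q₀ cc x₁ lo lo' σ'' d₀ bb : ℝ, 0 ≤ Bf → 0 ≤ Br → 0 ≤ Bl →
    Real.exp r ≤ q₀ → 0 ≤ a →
    lo' ≤ 0 → 0 ≤ x₁ → 0 ≤ cc → e₀ * Real.log X ≤ cc → 60 * cc ≤ D.κ →
    ClXK Dk (ex0 D.κ) D (Ge lo) Bf (s + r) (a + r) (Q * q₀) σ'' →
    ClXK Dk (ex0 D.κ) (Dr d₀ D) (Ge lo) Br (2 * s + r) (a + r) (Q * q₀) σ'' →
    ClNK Dk D (exJ D.κ D.v D.n cc) Bl (s + r) (a + r) (Q * q₀) lo' (D.n - cc + x₁) →
    ClNK Dk (Dr d₀ D) (exJ D.κ D.v D.n cc) Bl (2 * s + r) (a + r) (Q * q₀) lo'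
      (D.n - cc + x₁) →
    ∀ (q : Eis) (ps : List Pf), QX B₀ X s Q d₀ D q ps →
    R + LF ps ≤ Real.log X → D.n - cc ≤ LF ps → LF ps + r ≤ σ'' →
    lo + cc + N * Real.log D.D0 + r ≤ LF ps → LF ps - cc + r ≤ D.n - cc + x₁ →
    LF ps ≤ D.κ + cc →
    ∀ (N₀ N₁ : ℕ) (Lv : ℝ), 1 ≤ N₀ → N₀ ≤ N₁ → Real.exp Lv ≤ N₀ → 9 * (N₁ : ℝ) ≤ Real.exp (Lv + 4) →
    Lv + 4 + 21 * cc ≤ Real.log X → Lv + 4 + 20 * cc ≤ D.v + (D.n - LF ps) + a →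
    Lv + 4 + 30 * cc ≤ 2 * D.κ → 3 * (Lv + 4) ≤ 2 * D.κ →
    cc + 4 * Real.log D.D0 - d₀ + (LF ps + (Lv + 4 + 20 * cc) - D.κ) / 3 ≤ bb →
    ∀ G Rn : ℝ, 0 ≤ G → 0 ≤ Rn →
    (∀ Ma Ml : ℝ, 0 ≤ Ma → 0 ≤ Ml →
      NumS ⟨Cw, η₀, Aw, Real.exp D.κ, Real.exp (LF ps), X, R, Jn, N₀, N₁, Real.exp cc,
        Real.exp cc, Real.exp cc⟩
        (xs q D.z D.D0 D.P D.h d₀ ps) Ma →
      NumL ⟨Cw, η₀, Aw, Real.exp D.κ, Real.exp (LF ps), X, R, Jn, N₀, N₁, Real.exp cc,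
        Real.exp cc, Real.exp cc⟩
        (xs q D.z D.D0 D.P D.h d₀ ps) Ml →
      Rh ⟨Cw, η₀, Aw, Real.exp D.κ, Real.exp (LF ps), X, R, Jn, N₀, N₁, Real.exp cc,
        Real.exp cc, Real.exp cc⟩
        (xs q D.z D.D0 D.P D.h d₀ ps)
        (Rn * Ht ps ^ J * Real.exp (2 * LF ps) + G * (Ma + Ml))) →
    LBn w Cw η₀ Aw (Real.exp D.κ) (Real.exp (LF ps)) X (Real.exp cc) N₁ (rho N₀ N₁) R Jn
      (xs q D.z D.D0 D.P D.h d₀ ps)
      ((C * X ^ (5 * ε) * (1 + (Real.exp (-(cc / 2)) + G) * (Bf + Br + Real.exp bb +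
        ((Bl + Bl) * Real.exp (N * Real.log D.D0 + a) + Real.exp bb)) + Rn)) *
        Ht ps ^ J * Real.exp (2 * LF ps)) := by
  have hJ0 : 0 ≤ J := by linarith
  obtain ⟨C₁, hC₁, hLB1⟩ := hLB Cw R ε e₀ Aw Jn hCw hR hε he₀ hAw
  obtain ⟨C₂, r₂, hC₂, hr₂, hsa⟩ := x_sa0 hpu N hB₀ hε hJ hJn hJ12
  obtain ⟨C₃, r₃, hC₃, hr₃, hlp⟩ := x_lp hpu N hB₀ hε hJ hJn hJ12
  obtain ⟨C₄, hC₄, hnl⟩ := norm_list_le hpu N (half_pos hε)
  obtain ⟨X₄, hX₄⟩ : ∃ x : ℝ, x = (2 * C₄) ^ (2 / ε) := ⟨_, rfl⟩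
  refine ⟨(C₁ * (η₀⁻¹) ^ (2 * Jn + 2)) * (C₂ * C₃), max r₂ r₃,
    max (Real.exp (Real.log Λ / (20 * e₀))) (max Ca X₄), by positivity,
    hr₂.trans (le_max_left _ _), ?_⟩
  intro X hX hXX' D hD hκ hκX Bf Br Bl s a Q q₀ cc x₁ lo lo' σ'' d₀ bb hBf hBr hBl hq₀ ha hlo' hx₁
    hcc he₀cc hcc60 hClf hClr hClN hClNr q ps hq hRX hcm hσ hlo hgc hLκ N₀ N₁ Lv hN0 hN01 hLv0
    hLv1 hLvX hLva hLv30 hLv3 hbb G Rn hG hRn hRh
  have hXΛ : Real.exp (Real.log Λ / (20 * e₀)) ≤ X := (le_max_left _ _).trans hXX'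
  have hXX : max Ca X₄ ≤ X := (le_max_right _ _).trans hXX'
  have hP := hD.ok
  have hh := hD.hh
  have hps := hq.sb
  have hX1 : (1 : ℝ) ≤ X := by linarith
  have hX0 : 0 < X := by linarith
  have hr2 : r₂ ≤ max r₂ r₃ := le_max_left _ _
  have hr3 : r₃ ≤ max r₂ r₃ := le_max_right _ _
  have hlen : ps.length ≤ N := hps.length ▸ hD.len
  have hlenr : (rp d₀ ps).length ≤ N := by rw [rp_length]; exact hlen
  have hLF0 : 0 ≤ LF ps := LF_nonneg hps.z_nonneg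
  have hHt := one_le_Ht ps
  have hHJ : 1 ≤ Ht ps ^ J := Real.one_le_rpow hHt hJ0
  have hexpX : Real.exp (LF ps) ≤ X := by
    rw [← Real.le_log_iff_exp_le hX0]; linarith
  have hN1 : (1 : ℝ) ≤ N₁ := by exact_mod_cast hN0.trans hN01
  have hN1' : (N₁ : ℝ) ≤ Real.exp (Lv + 4) := by
    have := Real.exp_pos (Lv + 4)
    linarith
  have hpw : ∀ k : ℕ, Real.exp cc ^ k = Real.exp (k * cc) := fun k => by rw [Real.exp_nat_mul]
  have hΛ0 : 0 < Λ := by linarith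
  have hN0' : (0 : ℝ) < N₁ := by linarith
  have hlΛ : Real.log Λ ≤ 20 * cc := by
    have h1 : Real.log Λ / (20 * e₀) ≤ Real.log X := by
      rw [← Real.log_exp (Real.log Λ / (20 * e₀))]
      exact Real.log_le_log (Real.exp_pos _) hXΛ
    rw [div_le_iff₀ (by positivity)] at h1
    linarith
  have hΛe : Λ ≤ Real.exp (20 * cc) := by
    rw [← Real.exp_log hΛ0]; exact Real.exp_le_exp.2 hlΛ
  have hZ : 9 * (Λ * (N₁ : ℝ)) ≤ Real.exp (Lv + 4 + 20 * cc) := by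
    calc 9 * (Λ * (N₁ : ℝ)) = (9 * N₁) * Λ := by ring
      _ ≤ Real.exp (Lv + 4) * Real.exp (20 * cc) := by gcongr
      _ = _ := by rw [← Real.exp_add]
  have hZ0 : 0 < 9 * (Λ * (N₁ : ℝ)) := by positivity
  have hlZ : Real.log (9 * (Λ * (N₁ : ℝ))) ≤ Lv + 4 + 20 * cc := by
    rw [← Real.log_exp (Lv + 4 + 20 * cc)]
    exact Real.log_le_log hZ0 hZ
  have hNΛ : 9 * (N₁ : ℝ) ≤ 9 * (Λ * N₁) := by nlinarith
  have hlD : 0 ≤ Real.log D.D0 := Real.log_nonneg hD.D0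
  obtain ⟨a1, a2, -, hFS⟩ := hAL D.z D.D0 D.P hP q ps (rp d₀ ps) (zt d₀ ps) hlen hlenr
    (LF_rp _ _) (norm_zt d₀ ps).le X ((le_max_left _ _).trans hXX) (by
    rw [← Real.exp_add, ← Real.le_log_iff_exp_le hX0]; linarith)
  rw [← hh] at a1 a2
  have hS : ∀ (g : Eis → ℂ) (n : Eis), g n ≠ 0 → (∀ n ∈ S X, ‖g n‖ ≤ C₄ * X ^ (ε / 2)) →
      n ∈ S X → ‖g n‖ ≤ C₄ * X ^ (ε / 2) := fun g n _ h hn => h n hn
  have key := hLB1 (Real.exp D.κ) (Real.exp (LF ps)) X (Real.exp cc) (Real.exp cc) (Real.exp cc)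
    η₀ N₀ N₁
    (Real.one_le_exp hLF0) hexpX (by rw [← Real.le_log_iff_exp_le hX0]; exact hκX)
    (by rw [← Real.le_log_iff_exp_le hX0]; linarith)
    (Real.one_le_exp hcc) (by rw [← Real.le_log_iff_exp_le hX0]; linarith)
    (hN1'.trans (by rw [← Real.le_log_iff_exp_le hX0]; linarith))
    (by
      rw [Real.rpow_def_of_pos hX0]
      exact Real.exp_le_exp.2 (by linarith))
    (by
      rw [hpw]
      push_cast
      exact Real.exp_le_exp.2 hcc60)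
    hN0 hN01
    (by
      rw [hpw, hpw_two D.κ]
      push_cast
      calc (N₁ : ℝ) * Real.exp (30 * cc) ≤ Real.exp (Lv + 4) * Real.exp (30 * cc) := by gcongr
        _ = Real.exp (Lv + 4 + 30 * cc) := by rw [← Real.exp_add]
        _ ≤ _ := Real.exp_le_exp.2 hLv30)
    hη₀ hη₀1 (xs q D.z D.D0 D.P D.h d₀ ps) a1 a2
    (by
      intro n
      by_cases h0 : xs q D.z D.D0 D.P D.h d₀ ps n = 0
      · rw [h0, norm_zero]; positivity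
      have hn := a1 n h0
      have h1 := hnl D.z D.D0 D.P hP q ps hlen X hX1 n hn
      have h1r := hnl D.z D.D0 D.P hP q (rp d₀ ps) hlenr X hX1 n hn
      rw [← hh] at h1 h1r
      have h3 : ‖xs q D.z D.D0 D.P D.h d₀ ps n‖ ≤ 2 * C₄ * X ^ (ε / 2) := by
        unfold xs
        refine (norm_sub_le _ _).trans ?_
        rw [norm_mul, norm_zt, one_mul]
        linarith
      refine h3.trans ?_
      have h2 : 2 * C₄ ≤ X ^ (ε / 2) := by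
        have h3 : 2 * C₄ = X₄ ^ (ε / 2) := by
          rw [hX₄, ← Real.rpow_mul (by linarith)]
          have : 2 / ε * (ε / 2) = 1 := by field_simp
          rw [this, Real.rpow_one]
        rw [h3]
        refine Real.rpow_le_rpow ?_ ((le_max_right _ _).trans hXX) (by positivity)
        rw [hX₄]; positivity
      calc 2 * C₄ * X ^ (ε / 2) ≤ X ^ (ε / 2) * X ^ (ε / 2) := by gcongr
        _ = X ^ ε := by rw [← Real.rpow_add hX0]; congr 1; ring)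
  have hXε : 0 ≤ X ^ ε := (Real.rpow_pos_of_pos hX0 _).le
  set Ma : ℝ := C₂ * X ^ ε * (Bf + Br + Real.exp bb) * Ht ps ^ J * Real.exp (2 * LF ps) with hMa
  set Ml : ℝ := C₃ * X ^ ε * ((Bl + Bl) * Real.exp (N * Real.log D.D0 + a) + Real.exp bb) *
    Ht ps ^ J * Real.exp (2 * LF ps) with hMl
  have hMa0 : 0 ≤ Ma := by rw [hMa]; positivity
  have hMl0 : 0 ≤ Ml := by rw [hMl]; positivity
  have hbl : cc + 4 * Real.log D.D0 - d₀ +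
      (LF ps + Real.log (9 * (Λ * (N₁ : ℝ))) - D.κ) / 3 ≤ bb := by linarith
  have n1 := hsa X hX D hD Bf Br bb s a Q q₀ σ'' lo cc d₀ hBf hBr hcc
      ((Real.exp_le_exp.2 hr2).trans hq₀)
      (hClf.mono le_rfl (by linarith) (by linarith) le_rfl le_rfl)
      (hClr.mono le_rfl (by linarith) (by linarith) le_rfl le_rfl)
      q ps (9 * (Λ * N₁)) hq (by linarith) (by linarith)
      (by
        calc 9 * (Λ * (N₁ : ℝ)) * Real.exp cc ≤ Real.exp (Lv + 4 + 20 * cc) * Real.exp cc := by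
              gcongr
          _ = Real.exp (Lv + 4 + 20 * cc + cc) := by rw [← Real.exp_add]
          _ ≤ X := by rw [← Real.le_log_iff_exp_le hX0]; linarith)
      hZ0 (by linarith) hbl
  have n2 := hlp X hX D hD Bl Bl bb s a Q q₀ cc lo' x₁ cc d₀ hBl hBl
      ((Real.exp_le_exp.2 hr3).trans hq₀) ha hlo' hx₁
      (fun q ps' k' b1 b2 b3 b4 b5 b6 b7 b8 => hClN q ps' k' b1 b2 b3 (b4.mono (by linarith)) b5
        b6 b7 (by linarith))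
      (fun q ps' k' b1 b2 b3 b4 b5 b6 b7 b8 => hClNr q ps' k' b1 b2 b3 (b4.mono (by linarith)) b5
        b6 b7 (by linarith))
      q ps (9 * (Λ * N₁)) hq hcm (by linarith) hZ0
      (hZ.trans (by rw [← Real.le_log_iff_exp_le hX0]; linarith)) (by linarith) (by linarith)
  have key2 := key Ma Ml (Rn * Ht ps ^ J * Real.exp (2 * LF ps) + G * (Ma + Ml)) hMa0 hMl0
    (by positivity) n1 n2 (hRh Ma Ml hMa0 hMl0
      (fun g hg hgE V hV hV1 t => n1 g hg hgE V hV (hV1.trans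
        (mul_le_mul_of_nonneg_right hNΛ (Nat.cast_nonneg _))) t)
      (fun g hg B V hB hBY hV hV1 t => n2 g hg B V hB hBY hV (hV1.trans
        (div_le_div_of_nonneg_right hNΛ (by positivity))) t))
  refine key2.mono (Real.exp_pos _).le (Real.exp_pos _).le ?_
  rw [hpw_two (LF ps), rpow_half_exp]
  have hf := Real.exp_pos (-(cc / 2))
  have hM1 : Ma ≤ (C₂ * C₃) * X ^ ε * (Bf + Br + Real.exp bb) * Ht ps ^ J *
      Real.exp (2 * LF ps) := by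
    rw [hMa]
    have : C₂ ≤ C₂ * C₃ := le_mul_of_one_le_right (by linarith) hC₃
    gcongr
  have hM2 : Ml ≤ (C₂ * C₃) * X ^ ε * ((Bl + Bl) * Real.exp (N * Real.log D.D0 + a) +
      Real.exp bb) * Ht ps ^ J * Real.exp (2 * LF ps) := by
    rw [hMl]
    have : C₃ ≤ C₂ * C₃ := le_mul_of_one_le_left (by linarith) hC₂
    gcongr
  refine le_trans ?_ (lbx_const (C₁ := C₁ * (η₀⁻¹) ^ (2 * Jn + 2)) (C₂ := C₂ * C₃)
    (Bf := Bf + Br + Real.exp bb)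
    (Bl := (Bl + Bl) * Real.exp (N * Real.log D.D0 + a) + Real.exp bb) (f := Real.exp (-(cc / 2)))
    (G := G) (Rn := Rn) (H := Ht ps ^ J) (E2 := Real.exp (2 * LF ps)) (by positivity)
    (one_le_mul_of_one_le_of_one_le hC₂ hC₃) hX1 hε (by positivity) (by positivity) hf.le hG hRn
    hHJ (Real.exp_pos _).le)
  gcongr

end Crest.Agent.R017.RXk848
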