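import Crest.Agent.R017.RXma_770
import Crest.Agent.R017.PoXe_70

/-!
# Row 17, x-side of E4, class E: the R-test of the twisted sequence (helper70)

* `rxk_tw` : `RXkx` at `ψ = sy k₀` (on the support `G`) from `RXkx` at `ψ = 1`: the twist is a
  change of the frequency by `k₀ ^ 2`
-/

set_option autoImplicit false

noncomputable section

open Complex MeasureTheory
open scoped ComplexConjugate Classical ContDiff

namespace Crest.Agent.R017.RXkt70

open Crest.Agent.R012 Crest.Agent.R012.Eis Crest.Agent.R012.MC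
open Crest.Agent.R012.LS2 (S mem_S bl mem_bl)
open Crest.Agent.R012.Mob705 (pdiv mem_pdiv)
open Crest.Agent.R017.CM106 (CS TG FS)
open Crest.Agent.R017.E1551 (nmpos nm_ge_one)
open Crest.Agent.R017.BD829
open Crest.Agent.R017.E3D579 (bF)
open Crest.Agent.R017.Mode405 (Slp bs)
open Crest.Agent.R017.E3q681 (GXk)
open Crest.Agent.R017.PoHx72
open Crest.Agent.R017.MX744
open Crest.Agent.R017.RXm770 (RXkx)
open Gauss880 (syG)

lemma conj_sy_sq' {k n : Eis} (hn : IsPrim n) : conj (sy (k ^ 2) n) = sy k n := by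
  rw [pow_two, syG.mul_left _ _ _ hn, map_mul]
  by_cases h : IsCoprime k n
  · have h1 := syG.cube k n hn h
    have h2 : ‖sy k n‖ ^ 3 = 1 := by rw [← norm_pow, h1, norm_one]
    have h3 : ‖sy k n‖ = 1 := (pow_eq_one_iff_of_nonneg (norm_nonneg _) (by norm_num)).mp h2
    have h4 : sy k n * conj (sy k n) = 1 := by
      rw [Complex.mul_conj, Complex.normSq_eq_norm_sq, h3]; simp
    have h5 : sy k n ≠ 0 := by
      intro h0; rw [h0, norm_zero] at h3; norm_num at h3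
    apply mul_left_cancel₀ (mul_ne_zero h5 h5)
    calc sy k n * sy k n * (conj (sy k n) * conj (sy k n))
        = (sy k n * conj (sy k n)) * (sy k n * conj (sy k n)) := by ring
      _ = 1 := by rw [h4, one_mul]
      _ = sy k n * sy k n * sy k n := by rw [← h1]; ring
  · rw [(syG.eq_zero k n hn).2 h]; simp

/-- **the R-test of the twisted sequence** -/
theorem rxk_tw {κ₁ k₀ R ρ : Eis} {ψ : Eis → ℂ} {G : Eis → Prop} {aS A : ℕ} {c Z Nb₀ ν : ℝ}
    {b₀ : Eis → ℂ} {W1 : Bool → ℝ} (hk : k₀ ≠ 0) (hψ : ∀ n, IsPrim n → G n → ψ n = sy k₀ n)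
    (hb : FS b₀) (hG : GXk κ₁ G R b₀)
    (H : RXkx κ₁ (fun _ => 1) aS A ((nm (k₀ ^ 2) : ℝ) * c) Z Nb₀ ν R ρ b₀ W1) :
    RXkx κ₁ ψ aS A c Z Nb₀ ν R ρ b₀ W1 := by
  intro κ F y hκ hF hsq hy hyR hκZ hFZ Z' Lt Y hZZ' hNκ hκZ' hLt hY hν
  obtain ⟨Prd, W, hPr, -, hW, hT, hW1⟩ :=
    H κ F y hκ hF hsq hy hyR hκZ hFZ Z' Lt Y hZZ' hNκ hκZ' hLt hY hν
  have hK : k₀ ^ 2 ≠ 0 := pow_ne_zero 2 hk
  have hKn : (0 : ℝ) < nm (k₀ ^ 2) := nmpos hK
  have hbF : FS (bF κ F b₀) := E3D579.FS.bF hκ hb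
  have hψ' : ∀ n, bF κ F b₀ n ≠ 0 → ψ n = sy k₀ n := fun n hn =>
    hψ n (hbF.prim n hn) (hG κ F y hκ hF hsq hy hyR n hn)
  refine ⟨fun D H => Prd D (k₀ ^ 2 * H), fun jj P => W jj ((nm (k₀ ^ 2) : ℝ) * P), ?_, hκ,
    fun jj => PoH347.slp_dil (hW jj) hKn, ?_, ?_⟩
  · refine ⟨fun D hD => Cub.mul_left' (hPr.cub D hD) hK, ?_, ?_⟩
    · intro D H hD hH hm hP
      obtain ⟨m, hm⟩ := hm
      have hm1 : bF κ F b₀ (D * m) ≠ 0 := left_ne_zero_of_mul hm
      have hm2 : ψ (D * m) ≠ 0 := right_ne_zero_of_mul hm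
      have hp := hbF.prim _ hm1
      rw [hψ' _ hm1] at hm2
      have hc : IsCoprime k₀ (D * m) := by
        by_contra h1
        exact hm2 ((syG.eq_zero k₀ _ hp).2 h1)
      obtain ⟨s, t, h1, h2⟩ := hPr.hcp D (k₀ ^ 2 * H) hD (mul_ne_zero hK hH)
        ⟨m, by rw [mul_one]; exact hm1⟩ hP
      refine ⟨k₀ ^ 2 * s, t, ?_, ?_⟩
      · rw [← h1]; ring
      · exact (hc.of_mul_right_left.pow_left).mul_left h2
    · intro D H q hH hq
      have e1 : k₀ ^ 2 * (H * q ^ 3) = k₀ ^ 2 * H * q ^ 3 := by ring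
      beta_reduce
      rw [e1]
      exact hPr.inv D (k₀ ^ 2 * H) q (mul_ne_zero hK hH) hq
  · intro jj γ φ x hA P hP
    obtain ⟨hγ, hγκ, hφ, hx, D, hD, hDN, he⟩ := hA
    have hA' : Adm ((Nb₀ * nm κ) ^ 2) κ γ (k₀ ^ 2 * φ) (k₀ ^ 2 * x) :=
      ⟨hγ, hγκ, mul_ne_zero hK hφ, mul_ne_zero hK hx, D, hD, hDN, by
        rw [mul_assoc, he]; ring⟩
    have h1 := hT jj γ (k₀ ^ 2 * φ) (k₀ ^ 2 * x) hA' ((nm (k₀ ^ 2) : ℝ) * P) (by positivity)
    refine le_trans (Finset.sum_le_sum fun e _ => ?_) h1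
    refine mul_le_mul_of_nonneg_left (mul_le_mul_of_nonneg_left ?_ (Nat.cast_nonneg _))
      (inv_nonneg.mpr (Nat.cast_nonneg _))
    have hxn := nmpos hx
    have eP : (nm e : ℝ) * ((nm (k₀ ^ 2) : ℝ) * P) / ((nm (k₀ ^ 2 * x) : ℕ) : ℝ) =
        nm e * P / nm x := by
      rw [nm_mul]
      push_cast
      field_simp
    rw [eP]
    have hbs : ∀ n, bs (bF κ F b₀) e n ≠ 0 → IsPrim n := fun n hn =>
      hbF.prim n (Mode405.bs_supp hn)
    have h3 := PoX70.VIc_tw (A := (A : ℝ)) hbs (fun _ => 1) (k₀ ^ 2) hγ φ (nm e * P / nm x)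
      (Q := Cls (PrS Prd e γ) jj) (Qk := Cls (PrS (fun D H => Prd D (k₀ ^ 2 * H)) e γ) jj)
      (fun H => by
        refine Cls_iff jj ?_
        unfold PrS
        rw [mul_assoc])
    refine le_trans (le_of_eq ?_) h3
    congr 1
    funext m
    by_cases h0 : bF κ F b₀ m = 0
    · unfold bs
      rw [h0]; ring
    · rw [hψ' m h0, conj_sy_sq' (hbF.prim m h0), one_mul]
  · intro jj
    have h1 := hW1 jj
    rw [mul_assoc] at h1
    exact h1

end Crest.Agent.R017.RXkt70
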