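import Mathlib

/-!
# Row 17, class E: linear core rep, flat (helper176)

Exact LP leaves.
-/

set_option autoImplicit false
set_option linter.unusedVariables false

noncomputable section

namespace Crest.Agent.R017.RXl176

set_option maxHeartbeats 8000000 in
/-- the linear core (rep, flat) -/
lemma coreRF1 {y₃ y₄ u x d p v e A d₀ ν ms b g i i' β z₁ z₂ z₃ x' W L F Λ m₁ m₂ m₃ hh Z bq U R : ℝ}
    (u4 : u ≤ y₄) (y43 : y₄ ≤ y₃) (u0 : 11 / 50 ≤ u) (hy3 : y₃ + x ≤ 29 / 100)
    (N1 : y₃ + y₄ + u ≤ 102 / 125) (near : 99 / 100 ≤ y₃ + y₄ + 2 * u) (x0 : 0 ≤ x)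
    (adm : (8 * x ≤ d ∧ x = 0) ∨ (8 * x ≤ d ∧ y₃ + y₄ + u + x ≤ 4 / 5) ∨
      (3 / 4 ≤ y₃ + y₄ + u ∧ x + 2 * d ≤ 1 / 36 ∧ x + 7 / 10 * (y₃ + y₄ + u) ≤ 199 / 360))
    (dd0 : 0 ≤ d) (dd1 : d ≤ 1 / 40) (t0 : 0 ≤ hh)
    (ht : hh ≤ 1 / 8 + 1 / 40000 ∨
      hh ≤ 1 / 8 + 2 * p - 1 - v - 2 * (d₀ + ν) + 1 / 40000)
    (p0 : 1 / 2 - 2 * x ≤ p + 1 / 40000) (pn : p ≤ y₃ + y₄ + u + x + 1 / 40000)
    (v0 : 0 ≤ v) (k0 : 0 ≤ d₀) (kν : 0 ≤ ν)
    (hv1 : v + 2 * (d₀ + ν) ≤ 2 * (y₃ + y₄ + u) - 1 + 11 / 5 * x + 1 / 40000)
    (hv2 : v + 2 * (d₀ + ν) ≤ 3 / 4 * (y₃ + y₄ + u) + 11 / 5 * x + 1 / 40000)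
    (hv3 : v + 2 * (d₀ + ν) + 2 * bq ≤
      2 * (y₃ + y₄ + u) - 1 + 11 / 5 * x + d / 2 + 1 / 40000)
    (hv4 : v + 2 * (d₀ + ν) + 2 * bq ≤
      3 / 4 * (y₃ + y₄ + u) + 11 / 5 * x + d / 2 + 1 / 40000)
    (bq0 : 0 ≤ bq) (lo : y₃ + y₄ + u + x - p ≤ bq + 2 * x + 1 / 40000)
    (e0 : 0 ≤ e) (e1 : e ≤ 1 / 64 + 1 / 40000)
    (A0 : 0 ≤ A) (A1 : A ≤ d₀) (ms0 : 0 ≤ ms) (b0 : 0 ≤ b)
    (hΛ0 : 0 ≤ Λ) (hΛ1 : 5 / 4 * (y₃ + y₄ + u) - 1 ≤ Λ)
    (g0 : 0 ≤ g) (i0 : 0 ≤ i)
    (i1 : i ≤ v + p - 1 + hh + 2 * (e + A) + 2 * ν - d₀ + b + 1 / 40000)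
    (i2 : i ≤ 1 - (e + A) - 2 * b + 1 / 40000)
    (z30 : 0 ≤ z₃) (z32 : z₃ ≤ z₂) (z21 : z₂ ≤ z₁) (x0' : 0 ≤ x') (z1 : z₁ ≤ y₃ + y₄ - Z + 1 / 40000) (z2 : z₂ ≤ u + 1 / 40000) (z3 : z₃ ≤ Z + 1 / 40000)
    (x1' : x' ≤ x + 1 / 40000)
    (tot : z₁ + z₂ + z₃ + x' + (d₀ + b + g + ms) ≤ p + 1 / 40000)
    (gi : 2 * g ≤ i + e + A + 1 / 40000) (be0 : 0 ≤ β) (be1 : β ≤ b + g) (ip0 : 0 ≤ i')
    (ip1 : i' ≤ e + A + i - 2 * g) (Z0 : 17 / 100 ≤ Z) (Z1 : Z ≤ 1883 / 10000)
    (k1 : m₁ ≤ i' + 2 * β) (k2 : m₂ ≤ i' + 2 * β) (k3 : m₃ ≤ i' + 2 * β)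
    (j1 : m₁ ≤ z₁) (j2 : m₂ ≤ z₂) (j3 : m₃ ≤ z₃)
    (l1 : L ≤ m₁) (l2 : L ≤ i' + 2 * β - m₁) (l3 : L ≤ m₂)
    (l4 : L ≤ i' + 2 * β - m₂) (l5 : L ≤ m₃) (l6 : L ≤ i' + 2 * β - m₃)
    (hF1 : F ≤ 2 * (p - (d₀ + ν) - e) ∨
      F ≤ 4 / 3 * (p - (d₀ + ν) - e) + (1 + e / 2 + (v + e)) / 3 ∨
      F ≤ 4 / 3 * (p - (d₀ + ν) - e) + (5 / 4 * (y₃ + y₄ + u) + e / 2 + (v + e)) / 3 ∨
      F ≤ 4 / 3 * (p - (d₀ + ν) - e) + 5 / 6 * (v + e))
    (hF2 : F ≤ v + e + 4 / 3 * (p - (d₀ + ν) - e) + x ∨
      F ≤ 5 / 3 * (p - (d₀ + ν) - e) + (v + e) / 3 + x)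
    (hW : W ≤ v + e + A + g + ν ∨ W ≤ i + g)
    (u1 : (z₁ + z₂ + z₃ + x') / 3 + z₃ / 2 ≤ U)
    (u2 : (z₁ + z₂ + z₃ + x') / 3 + 4 / 15 * (z₃ + x') ≤ U) (u3 : 2 / 3 * (z₃ + x') ≤ U)
    (u5 : x' ≤ U)
    (hU : U ≤ (z₁ + z₂ + z₃ + x') / 3 + z₃ / 2 ∨
      U ≤ (z₁ + z₂ + z₃ + x') / 3 + 4 / 15 * (z₃ + x') ∨ U ≤ 2 / 3 * (z₃ + x') ∨ U ≤ x')
    (hR : R = 2 * (1 + p + Λ) - (d₀ + ν + 2 / 3 - v / 3 - (p - (d₀ + ν)) / 3 + F) - 1 / 20000 -
      (d₀ + ν - A + (W - i) + ms) - 1 / 1000 + 37 / 250 * d)
    (hAl : R < i' + 2 * β + (m₁ + m₂ + m₃ + x') + 3 / 4 * (L + x') ∨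
      R < 2 * x' + (i' + 2 * β) / 3)
    (hB0 : (R < i' + β + (z₁ + z₂ + z₃ + x') ∨
      R < 2 * (z₁ + z₂ + z₃ + x') + β ∨
      R < 2 / 3 * i' + β / 3 + (z₁ + z₂ + z₃ + x') + U ∨ R < 2 * (z₁ + z₂ + z₃ + x') + (i' + 2 * β) / 3))
    (hB1 : (R < i' + β + (z₁ + z₂ + z₃ + x') ∨
      R < 2 * (z₁ + z₂ + z₃ + x') + β ∨
      R < 2 / 3 * i' + β / 3 + (z₁ + z₂ + z₃ + x') + U ∨ z₁ < 2 * (z₁ + z₂ + z₃ + x') + (i' + 2 * β) / 3 - R ∨ 2 * (z₁ + z₂ - (2 * (z₁ + z₂ + z₃ + x') + (i' + 2 * β) / 3 - R)) ≤ i' + β))
    (hB2 : (R < i' + β + (z₁ + z₂ + z₃ + x') ∨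
      R < 2 * (z₁ + z₂ + z₃ + x') + β ∨
      R < 2 / 3 * i' + β / 3 + (z₁ + z₂ + z₃ + x') + U ∨ z₃ < 2 * (z₁ + z₂ + z₃ + x') + (i' + 2 * β) / 3 - R ∨ 2 * (z₁ + z₂ + z₃ - 2 * (2 * (z₁ + z₂ + z₃ + x') + (i' + 2 * β) / 3 - R)) ≤ i' + β))
    (hBp : (R < i' + β + (z₁ + z₂ + z₃ + x') ∨ R < 2 * (z₁ + z₂ + z₃ + x') + i' ∨ R < 2 / 3 * β + i' / 3 + (z₁ + z₂ + z₃ + x') + U ∨
      R < 2 * (z₁ + z₂ + z₃ + x') + (2 * i' + β) / 3))
    (hBp1 : (R < i' + β + (z₁ + z₂ + z₃ + x') ∨ R < 2 * (z₁ + z₂ + z₃ + x') + i' ∨ R < 2 / 3 * β + i' / 3 + (z₁ + z₂ + z₃ + x') + U ∨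
      z₁ < 2 * (z₁ + z₂ + z₃ + x') + (2 * i' + β) / 3 - R ∨
      2 * (z₁ + z₂ - (2 * (z₁ + z₂ + z₃ + x') + (2 * i' + β) / 3 - R)) ≤ i' + β))
    (hBp2 : (R < i' + β + (z₁ + z₂ + z₃ + x') ∨ R < 2 * (z₁ + z₂ + z₃ + x') + i' ∨ R < 2 / 3 * β + i' / 3 + (z₁ + z₂ + z₃ + x') + U ∨
      z₃ < 2 * (z₁ + z₂ + z₃ + x') + (2 * i' + β) / 3 - R ∨
      2 * (z₁ + z₂ + z₃ - 2 * (2 * (z₁ + z₂ + z₃ + x') + (2 * i' + β) / 3 - R)) ≤ i' + β)) :
    False := by
  rcases hW with q1 | q1
  · rcases hF2 with q2 | q2
    · rcases hAl with q3 | q3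
      · rcases ht with q4 | q4
        · rcases hBp with q5 | q5 | q5 | q5
          · linarith
          · rcases hU with q6 | q6 | q6 | q6
            · rcases adm with ⟨q7a, q7b⟩ | ⟨q7a, q7b⟩ | ⟨q7a, q7b, q7c⟩
              · rcases hF1 with q8 | q8 | q8 | q8
                · linarith
                · linarith
                · linarith
                · linarith
              · rcases hF1 with q8 | q8 | q8 | q8
                · linarith
                · linarith
                · linarith
                · linarith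
              · rcases hF1 with q8 | q8 | q8 | q8
                · linarith
                · linarith
                · linarith
                · linarith
            · rcases adm with ⟨q7a, q7b⟩ | ⟨q7a, q7b⟩ | ⟨q7a, q7b, q7c⟩
              · linarith
              · linarith
              · linarith
            · linarith
            · linarith
          · rcases hU with q6 | q6 | q6 | q6
            · rcases adm with ⟨q7a, q7b⟩ | ⟨q7a, q7b⟩ | ⟨q7a, q7b, q7c⟩
              · linarith
              · linarith
              · linarith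
            · linarith
            · linarith
            · linarith
          · rcases hU with q6 | q6 | q6 | q6
            · rcases adm with ⟨q7a, q7b⟩ | ⟨q7a, q7b⟩ | ⟨q7a, q7b, q7c⟩
              · rcases hF1 with q8 | q8 | q8 | q8
                · linarith
                · rcases hBp1 with q9 | q9 | q9 | q9 | q9
                  · linarith
                  · linarith
                  · linarith
                  · linarith
                  · linarith
                · rcases hBp1 with q9 | q9 | q9 | q9 | q9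
                  · linarith
                  · linarith
                  · linarith
                  · linarith
                  · linarith
                · linarith
              · rcases hF1 with q8 | q8 | q8 | q8
                · linarith
                · rcases hBp1 with q9 | q9 | q9 | q9 | q9
                  · linarith
                  · linarith
                  · linarith
                  · linarith
                  · linarith
                · rcases hBp1 with q9 | q9 | q9 | q9 | q9
                  · linarith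
                  · linarith
                  · linarith
                  · linarith
                  · linarith
                · linarith
              · rcases hF1 with q8 | q8 | q8 | q8
                · linarith
                · linarith
                · linarith
                · linarith
            · rcases adm with ⟨q7a, q7b⟩ | ⟨q7a, q7b⟩ | ⟨q7a, q7b, q7c⟩
              · linarith
              · linarith
              · linarith
            · linarith
            · linarith
        · rcases hBp with q5 | q5 | q5 | q5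
          · linarith
          · rcases hU with q6 | q6 | q6 | q6
            · rcases adm with ⟨q7a, q7b⟩ | ⟨q7a, q7b⟩ | ⟨q7a, q7b, q7c⟩
              · rcases hF1 with q8 | q8 | q8 | q8
                · linarith
                · linarith
                · linarith
                · linarith
              · rcases hF1 with q8 | q8 | q8 | q8
                · linarith
                · linarith
                · linarith
                · linarith
              · rcases hF1 with q8 | q8 | q8 | q8
                · linarith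
                · linarith
                · linarith
                · linarith
            · rcases adm with ⟨q7a, q7b⟩ | ⟨q7a, q7b⟩ | ⟨q7a, q7b, q7c⟩
              · linarith
              · linarith
              · linarith
            · linarith
            · linarith
          · rcases hU with q6 | q6 | q6 | q6
            · rcases adm with ⟨q7a, q7b⟩ | ⟨q7a, q7b⟩ | ⟨q7a, q7b, q7c⟩
              · linarith
              · linarith
              · linarith
            · linarith
            · linarith
            · linarith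
          · rcases hU with q6 | q6 | q6 | q6
            · rcases adm with ⟨q7a, q7b⟩ | ⟨q7a, q7b⟩ | ⟨q7a, q7b, q7c⟩
              · rcases hF1 with q8 | q8 | q8 | q8
                · linarith
                · rcases hBp1 with q9 | q9 | q9 | q9 | q9
                  · linarith
                  · linarith
                  · linarith
                  · linarith
                  · linarith
                · rcases hBp1 with q9 | q9 | q9 | q9 | q9
                  · linarith
                  · linarith
                  · linarith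
                  · linarith
                  · linarith
                · linarith
              · rcases hF1 with q8 | q8 | q8 | q8
                · linarith
                · rcases hBp1 with q9 | q9 | q9 | q9 | q9
                  · linarith
                  · linarith
                  · linarith
                  · linarith
                  · linarith
                · rcases hBp1 with q9 | q9 | q9 | q9 | q9
                  · linarith
                  · linarith
                  · linarith
                  · linarith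
                  · linarith
                · linarith
              · rcases hF1 with q8 | q8 | q8 | q8
                · linarith
                · linarith
                · linarith
                · linarith
            · rcases adm with ⟨q7a, q7b⟩ | ⟨q7a, q7b⟩ | ⟨q7a, q7b, q7c⟩
              · linarith
              · linarith
              · linarith
            · linarith
            · linarith
      · linarith
    · rcases hAl with q3 | q3
      · rcases hBp1 with q4 | q4 | q4 | q4 | q4
        · linarith
        · rcases adm with ⟨q5a, q5b⟩ | ⟨q5a, q5b⟩ | ⟨q5a, q5b, q5c⟩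
          · linarith
          · linarith
          · linarith
        · rcases hU with q5 | q5 | q5 | q5
          · linarith
          · linarith
          · linarith
          · linarith
        · linarith
        · linarith
      · linarith
  · rcases hF2 with q2 | q2
    · rcases hAl with q3 | q3
      · rcases ht with q4 | q4
        · rcases hB1 with q5 | q5 | q5 | q5 | q5
          · linarith
          · linarith
          · rcases hU with q6 | q6 | q6 | q6
            · linarith
            · linarith
            · linarith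
            · linarith
          · linarith
          · linarith
        · rcases hB1 with q5 | q5 | q5 | q5 | q5
          · linarith
          · linarith
          · rcases hU with q6 | q6 | q6 | q6
            · linarith
            · linarith
            · linarith
            · linarith
          · linarith
          · linarith
      · linarith
    · rcases hAl with q3 | q3
      · rcases ht with q4 | q4
        · rcases hB1 with q5 | q5 | q5 | q5 | q5
          · linarith
          · linarith
          · rcases hU with q6 | q6 | q6 | q6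
            · linarith
            · linarith
            · linarith
            · linarith
          · linarith
          · rcases adm with ⟨q6a, q6b⟩ | ⟨q6a, q6b⟩ | ⟨q6a, q6b, q6c⟩
            · linarith
            · linarith
            · linarith
        · rcases hB1 with q5 | q5 | q5 | q5 | q5
          · linarith
          · linarith
          · rcases hU with q6 | q6 | q6 | q6
            · linarith
            · linarith
            · linarith
            · linarith
          · linarith
          · rcases adm with ⟨q6a, q6b⟩ | ⟨q6a, q6b⟩ | ⟨q6a, q6b, q6c⟩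
            · linarith
            · linarith
            · linarith
      · linarith

end Crest.Agent.R017.RXl176
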