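import Crest.Agent.R017.RXlP_176
import Crest.Agent.R017.RXla_176
import Crest.Agent.R017.RXlb_176
import Crest.Agent.R017.RXlc_176
import Crest.Agent.R017.RXld_176
import Crest.Agent.R017.RXle_176
import Crest.Agent.R017.RXlf_176

/-!
# Row 17, class E, the R-side of `P1`: helper440's line `LineAX` (helper176)
-/

set_option autoImplicit false
set_option linter.unusedVariables false

noncomputable section

namespace Crest.Agent.R017.RXl176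

open Crest.Agent.R017.P1R904
open Crest.Agent.R017.P1F904
open Crest.Agent.R017.P1H440 (Tg)
open Crest.Agent.R017.PX829 (PXsn)
open Crest.Agent.R017.RXl440

/-- from the room `R` without losses to the closed form -/
lemma alt_of {I M L d x' ii bb z₁ z₂ z₃ n' D U R ρ r : ℝ}
    (hr : r ≤ I + M + 3 / 4 * (L + x') + (ρ - R)) (hD : D ≤ ρ - R) (hρ : R ≤ ρ)
    (hI : I = ii + 2 * bb) (hfull : 2 * x' + (ii + 2 * bb) / 3 ≤ ρ)
    (h : (R < I + M + 3 / 4 * (L + x') ∨ R < 2 * x' + I / 3) →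
      (R < ii + bb + n' ∨ R < 2 * n' + bb ∨ R < 2 / 3 * ii + bb / 3 + n' + U ∨
        R < 2 * n' + (ii + 2 * bb) / 3) →
      (R < ii + bb + n' ∨ R < 2 * n' + bb ∨ R < 2 / 3 * ii + bb / 3 + n' + U ∨
        z₁ < 2 * n' + (ii + 2 * bb) / 3 - R ∨
        2 * (z₁ + z₂ - (2 * n' + (ii + 2 * bb) / 3 - R)) ≤ ii + bb) →
      (R < ii + bb + n' ∨ R < 2 * n' + bb ∨ R < 2 / 3 * ii + bb / 3 + n' + U ∨
        z₃ < 2 * n' + (ii + 2 * bb) / 3 - R ∨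
        2 * (z₁ + z₂ + z₃ - 2 * (2 * n' + (ii + 2 * bb) / 3 - R)) ≤ ii + bb) →
      (R < ii + bb + n' ∨ R < 2 * n' + ii ∨ R < 2 / 3 * bb + ii / 3 + n' + U ∨
        R < 2 * n' + (2 * ii + bb) / 3) →
      (R < ii + bb + n' ∨ R < 2 * n' + ii ∨ R < 2 / 3 * bb + ii / 3 + n' + U ∨
        z₁ < 2 * n' + (2 * ii + bb) / 3 - R ∨
        2 * (z₁ + z₂ - (2 * n' + (2 * ii + bb) / 3 - R)) ≤ ii + bb) →
      (R < ii + bb + n' ∨ R < 2 * n' + ii ∨ R < 2 / 3 * bb + ii / 3 + n' + U ∨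
        z₃ < 2 * n' + (2 * ii + bb) / 3 - R ∨
        2 * (z₁ + z₂ + z₃ - 2 * (2 * n' + (2 * ii + bb) / 3 - R)) ≤ ii + bb) → False) :
    (r ≤ ρ ∧ 2 * x' + I / 3 ≤ ρ) ∨ PXsn ii bb 0 z₁ z₂ z₃ x' n' D U ρ := by
  by_contra hcon
  rw [not_or] at hcon
  obtain ⟨c1, c2⟩ := hcon
  unfold PXsn at c2
  rw [not_and] at c2
  have c3 := c2 hfull
  rw [not_or, not_or, not_or, not_or] at c3
  obtain ⟨-, -, -, c4, c5⟩ := c3
  refine h ?_ ?_ ?_ ?_ ?_ ?_ ?_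
  · by_contra hc
    rw [not_or, not_lt, not_lt] at hc
    exact c1 ⟨by linarith [hc.1], by linarith [hc.2]⟩
  · by_contra hc
    rw [not_or, not_or, not_or, not_lt, not_lt, not_lt, not_lt] at hc
    obtain ⟨a1, a2, a3, a4⟩ := hc
    exact c4 ⟨by linarith, by linarith, by linarith, Or.inl (by linarith)⟩
  · by_contra hc
    rw [not_or, not_or, not_or, not_or, not_lt, not_lt, not_lt, not_lt, not_le] at hc
    obtain ⟨a1, a2, a3, a4, a5⟩ := hc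
    exact c4 ⟨by linarith, by linarith, by linarith, Or.inr (Or.inl ⟨by linarith, by linarith⟩)⟩
  · by_contra hc
    rw [not_or, not_or, not_or, not_or, not_lt, not_lt, not_lt, not_lt, not_le] at hc
    obtain ⟨a1, a2, a3, a4, a5⟩ := hc
    exact c4 ⟨by linarith, by linarith, by linarith, Or.inr (Or.inr ⟨by linarith, by linarith⟩)⟩
  · by_contra hc
    rw [not_or, not_or, not_or, not_lt, not_lt, not_lt, not_lt] at hc
    obtain ⟨a1, a2, a3, a4⟩ := hc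
    exact c5 ⟨by linarith, by linarith, by linarith, Or.inl (by linarith)⟩
  · by_contra hc
    rw [not_or, not_or, not_or, not_or, not_lt, not_lt, not_lt, not_lt, not_le] at hc
    obtain ⟨a1, a2, a3, a4, a5⟩ := hc
    exact c5 ⟨by linarith, by linarith, by linarith, Or.inr (Or.inl ⟨by linarith, by linarith⟩)⟩
  · by_contra hc
    rw [not_or, not_or, not_or, not_or, not_lt, not_lt, not_lt, not_lt, not_le] at hc
    obtain ⟨a1, a2, a3, a4, a5⟩ := hc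
    exact c5 ⟨by linarith, by linarith, by linarith, Or.inr (Or.inr ⟨by linarith, by linarith⟩)⟩

set_option maxHeartbeats 8000000 in
/-- **(R2)** of class E, all cells -/
theorem lineAX : LineAX := by
  intro y₃ y₄ u x d Z hh bq s₀ p d₀ ν A e v T b g i β i' z₁ z₂ z₃ x' W ms ρ n' U hB kν A1 b0 g0
    i0 ms0 i1 i2 z30 z32 z21 x0' x1' hz tot gi be0 be1 ip0 ip1 hW hρ hn hU
  obtain ⟨B, hT⟩ := bl_of hB
  have Z0 := hB.Z0
  have Z1 := hB.Z1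
  clear hB
  unfold P1H440.Tg at hρ
  generalize 3 * L0 (y₃ + y₄ + u) = Λ at B hρ
  obtain ⟨F, hF⟩ : ∃ F, F = T - 1 / 20000 -
      ((d₀ + ν) + 2 / 3 - v / 3 - (p - (d₀ + ν)) / 3) := ⟨_, rfl⟩
  rw [← hF] at hT
  obtain ⟨u4, y43, u0, hy3, N1, near, hx0, adm, dd0, dd1, s0, bq0, lo, h0, ht, p0, pn, A0, e0, e1,
    v0, hv1, hv2, hv3, hv4, hΛ0, hΛ1⟩ := B
  have k0 : 0 ≤ d₀ := A0.trans A1
  have z20 : 0 ≤ z₂ := z30.trans z32
  have z10 : 0 ≤ z₁ := z20.trans z21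
  have k1 := min_le_right z₁ (i' + 2 * β)
  have k2 := min_le_right z₂ (i' + 2 * β)
  have k3 := min_le_right z₃ (i' + 2 * β)
  have j1 := min_le_left z₁ (i' + 2 * β)
  have j2 := min_le_left z₂ (i' + 2 * β)
  have j3 := min_le_left z₃ (i' + 2 * β)
  obtain ⟨l1, l2, l3', l4, l5, l6⟩ := l3_le (i' + 2 * β) (min z₁ (i' + 2 * β))
    (min z₂ (i' + 2 * β)) (min z₃ (i' + 2 * β))
  have hz3 : z₃ + x' ≤ 301 / 1000 := by
    rcases hz with ⟨-, -, h⟩ | ⟨-, -, h⟩ <;> linarith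
  have hdz : 2 * d * (z₃ + x') ≤ 602 / 1000 * d := by
    have := mul_le_mul_of_nonneg_left hz3 (by linarith : (0 : ℝ) ≤ 2 * d)
    linarith
  have hr : r3 d (i' + 2 * β) (min z₁ (i' + 2 * β)) (min z₂ (i' + 2 * β))
      (min z₃ (i' + 2 * β)) x' ≤ (i' + 2 * β) +
      (min z₁ (i' + 2 * β) + min z₂ (i' + 2 * β) + min z₃ (i' + 2 * β) + x') +
      3 / 4 * (l3 (i' + 2 * β) (min z₁ (i' + 2 * β))
        (min z₂ (i' + 2 * β)) (min z₃ (i' + 2 * β)) + x') + 602 / 1000 * d := by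
    have h1 : l3 (i' + 2 * β) (min z₁ (i' + 2 * β))
        (min z₂ (i' + 2 * β)) (min z₃ (i' + 2 * β)) + x' ≤ 301 / 1000 := by linarith
    have h2 := mul_le_mul_of_nonneg_left h1 (by linarith : (0 : ℝ) ≤ 2 * d)
    unfold r3
    linarith
  generalize r3 d (i' + 2 * β) (min z₁ (i' + 2 * β))
    (min z₂ (i' + 2 * β)) (min z₃ (i' + 2 * β)) x' = r at hr ⊢
  generalize l3 (i' + 2 * β) (min z₁ (i' + 2 * β))
    (min z₂ (i' + 2 * β)) (min z₃ (i' + 2 * β)) = L at hr l1 l2 l3' l4 l5 l6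
  generalize min z₁ (i' + 2 * β) = m₁ at hr k1 j1 l1 l2
  generalize min z₂ (i' + 2 * β) = m₂ at hr k2 j2 l3' l4
  generalize min z₃ (i' + 2 * β) = m₃ at hr k3 j3 l5 l6
  subst hn
  have u1 : (z₁ + z₂ + z₃ + x') / 3 + z₃ / 2 ≤ U := by
    rw [hU]; exact (le_max_left _ _).trans (le_max_left _ _)
  have u2 : (z₁ + z₂ + z₃ + x') / 3 + 4 / 15 * (z₃ + x') ≤ U := by
    rw [hU]; exact (le_max_right _ _).trans (le_max_left _ _)
  have u3 : 2 / 3 * (z₃ + x') ≤ U := by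
    rw [hU]; exact (le_max_left _ _).trans (le_max_right _ _)
  have u5 : x' ≤ U := by
    rw [hU]; exact (le_max_right _ _).trans (le_max_right _ _)
  have hU' : U ≤ (z₁ + z₂ + z₃ + x') / 3 + z₃ / 2 ∨
      U ≤ (z₁ + z₂ + z₃ + x') / 3 + 4 / 15 * (z₃ + x') ∨ U ≤ 2 / 3 * (z₃ + x') ∨ U ≤ x' := by
    rcases max_choice (max ((z₁ + z₂ + z₃ + x') / 3 + z₃ / 2)
      ((z₁ + z₂ + z₃ + x') / 3 + 4 / 15 * (z₃ + x'))) (max (2 / 3 * (z₃ + x')) x') with h | h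
    · rcases max_choice ((z₁ + z₂ + z₃ + x') / 3 + z₃ / 2)
        ((z₁ + z₂ + z₃ + x') / 3 + 4 / 15 * (z₃ + x')) with h' | h'
      · exact Or.inl (by rw [hU, h, h'])
      · exact Or.inr (Or.inl (by rw [hU, h, h']))
    · rcases max_choice (2 / 3 * (z₃ + x')) x' with h' | h'
      · exact Or.inr (Or.inr (Or.inl (by rw [hU, h, h'])))
      · exact Or.inr (Or.inr (Or.inr (by rw [hU, h, h'])))
  clear hU
  obtain ⟨R, hR⟩ : ∃ R, R = 2 * (1 + p + Λ) -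
      (d₀ + ν + 2 / 3 - v / 3 - (p - (d₀ + ν)) / 3 + F) - 1 / 20000 -
      (d₀ + ν - A + (W - i) + ms) - 1 / 1000 + 37 / 250 * d := ⟨_, rfl⟩
  have hρR : ρ = R + 301 / 500 * d := by rw [hρ, hR, hF]; ring
  refine alt_of (I := i' + 2 * β) (M := m₁ + m₂ + m₃ + x') (L := L) (R := R) (d := d)
      (by linarith) (by linarith) (by linarith) rfl ?_ ?_
  · rcases hT with ⟨hA, -⟩ | ⟨hA, -⟩
    · rcases hW with h | h | h <;> rcases hA with h' | h' | h' | h' <;> linarith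
    · rcases hW with h | h | h <;> linarith
  · intro a1 a2 a3 a4 a5 a6 a7
    rcases hT with ⟨hA, hC⟩ | ⟨hA, hC⟩
    · rcases hz with ⟨z1, z2, z3⟩ | ⟨z1, z2, z3⟩
      · rcases hW with hW | hW | hW
        · exact coreNF1 u4 y43 u0 hy3 N1 near hx0 adm dd0 dd1 h0 ht p0 pn v0 k0 kν hv1 hv2 hv3 hv4
            bq0 lo e0 e1 A0 A1 ms0 b0 hΛ0 hΛ1 g0 i0 i1 i2 z30 z32 z21 x0' z1 z2 z3 x1' tot gi be0
            be1 ip0 ip1 Z0 Z1 k1 k2 k3 j1 j2 j3 l1 l2 l3' l4 l5 l6 hA hC (Or.inl hW) u1 u2 u3 u5 hU' hR a1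
            a2 a3 a4 a5 a6 a7
        · exact coreNF1 u4 y43 u0 hy3 N1 near hx0 adm dd0 dd1 h0 ht p0 pn v0 k0 kν hv1 hv2 hv3 hv4
            bq0 lo e0 e1 A0 A1 ms0 b0 hΛ0 hΛ1 g0 i0 i1 i2 z30 z32 z21 x0' z1 z2 z3 x1' tot gi be0
            be1 ip0 ip1 Z0 Z1 k1 k2 k3 j1 j2 j3 l1 l2 l3' l4 l5 l6 hA hC (Or.inr hW) u1 u2 u3 u5 hU' hR a1
            a2 a3 a4 a5 a6 a7
        · exact coreNF2 u4 y43 u0 hy3 N1 near hx0 adm dd0 dd1 h0 ht p0 pn v0 k0 kν hv1 hv2 hv3 hv4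
            bq0 lo e0 e1 A0 A1 ms0 b0 hΛ0 hΛ1 g0 i0 i1 i2 z30 z32 z21 x0' z1 z2 z3 x1' tot gi be0
            be1 ip0 ip1 Z0 Z1 k1 k2 k3 j1 j2 j3 l1 l2 l3' l4 l5 l6 hA hC hW u1 u2 u3 u5 hU' hR a1
            a2 a3 a4 a5 a6 a7
      · rcases hW with hW | hW | hW
        · exact coreRF1 u4 y43 u0 hy3 N1 near hx0 adm dd0 dd1 h0 ht p0 pn v0 k0 kν hv1 hv2 hv3 hv4
            bq0 lo e0 e1 A0 A1 ms0 b0 hΛ0 hΛ1 g0 i0 i1 i2 z30 z32 z21 x0' z1 z2 z3 x1' tot gi be0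
            be1 ip0 ip1 Z0 Z1 k1 k2 k3 j1 j2 j3 l1 l2 l3' l4 l5 l6 hA hC (Or.inl hW) u1 u2 u3 u5 hU' hR a1
            a2 a3 a4 a5 a6 a7
        · exact coreRF1 u4 y43 u0 hy3 N1 near hx0 adm dd0 dd1 h0 ht p0 pn v0 k0 kν hv1 hv2 hv3 hv4
            bq0 lo e0 e1 A0 A1 ms0 b0 hΛ0 hΛ1 g0 i0 i1 i2 z30 z32 z21 x0' z1 z2 z3 x1' tot gi be0
            be1 ip0 ip1 Z0 Z1 k1 k2 k3 j1 j2 j3 l1 l2 l3' l4 l5 l6 hA hC (Or.inr hW) u1 u2 u3 u5 hU' hR a1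
            a2 a3 a4 a5 a6 a7
        · exact coreRF2 u4 y43 u0 hy3 N1 near hx0 adm dd0 dd1 h0 ht p0 pn v0 k0 kν hv1 hv2 hv3 hv4
            bq0 lo e0 e1 A0 A1 ms0 b0 hΛ0 hΛ1 g0 i0 i1 i2 z30 z32 z21 x0' z1 z2 z3 x1' tot gi be0
            be1 ip0 ip1 Z0 Z1 k1 k2 k3 j1 j2 j3 l1 l2 l3' l4 l5 l6 hA hC hW u1 u2 u3 u5 hU' hR a1
            a2 a3 a4 a5 a6 a7
    · have hC' : F ≤ 5 / 3 * (p - (d₀ + ν) - e) + 2 / 3 * (v + e) -
          (17 / 100 - (y₃ + y₄ + u + x - p) - 1 / 40000 - (d₀ + ν + e)) := by linarith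
      rcases hz with ⟨z1, z2, z3⟩ | ⟨z1, z2, z3⟩
      · exact coreNB u4 y43 u0 hy3 N1 near hx0 adm dd0 dd1 h0 ht p0 pn v0 k0 kν hv1 hv2 hv3 hv4
          bq0 lo e0 e1 A0 A1 ms0 b0 hΛ0 hΛ1 g0 i0 i1 i2 z30 z32 z21 x0' z1 z2 z3 x1' tot gi be0
          be1 ip0 ip1 Z0 Z1 k1 k2 k3 j1 j2 j3 l1 l2 l3' l4 l5 l6 hA hC' hW u1 u2 u3 u5 hU' hR a1
          a2 a3 a4 a5 a6 a7
      · exact coreRB u4 y43 u0 hy3 N1 near hx0 adm dd0 dd1 h0 ht p0 pn v0 k0 kν hv1 hv2 hv3 hv4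
          bq0 lo e0 e1 A0 A1 ms0 b0 hΛ0 hΛ1 g0 i0 i1 i2 z30 z32 z21 x0' z1 z2 z3 x1' tot gi be0
          be1 ip0 ip1 Z0 Z1 k1 k2 k3 j1 j2 j3 l1 l2 l3' l4 l5 l6 hA hC' hW u1 u2 u3 u5 hU' hR a1
          a2 a3 a4 a5 a6 a7

end Crest.Agent.R017.RXl176
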