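import Crest.Agent.R017.RXl_440

/-!
# Row 17, class E, the R-side of `P1`: helper440's lines `LinePr`, `LinePo` (helper176)
-/

set_option autoImplicit false
set_option linter.unusedVariables false

noncomputable section

namespace Crest.Agent.R017.RXl176

open Crest.Agent.R017.P1R904
open Crest.Agent.R017.P1F904
open Crest.Agent.R017.P1H440 (Tg)
open Crest.Agent.R017.P1Hk176 (Thk Thk_le1 Thk_le2)
open Crest.Agent.R017.RXl440

/-- the linear facts of a block -/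
structure BL (y₃ y₄ u x d Z hh bq s₀ p D A e v Λ : ℝ) : Prop where
  u4 : u ≤ y₄
  y43 : y₄ ≤ y₃
  u0 : 11 / 50 ≤ u
  hy3 : y₃ + x ≤ 29 / 100
  N1 : y₃ + y₄ + u ≤ 102 / 125
  near : 99 / 100 ≤ y₃ + y₄ + 2 * u
  x0 : 0 ≤ x
  adm : (8 * x ≤ d ∧ x = 0) ∨ (8 * x ≤ d ∧ y₃ + y₄ + u + x ≤ 4 / 5) ∨
      (3 / 4 ≤ y₃ + y₄ + u ∧ x + 2 * d ≤ 1 / 36 ∧ x + 7 / 10 * (y₃ + y₄ + u) ≤ 199 / 360)
  dd0 : 0 ≤ d
  dd1 : d ≤ 1 / 40
  s0 : 17 / 100 - (y₃ + y₄ + u + x - p) ≤ s₀ + 1 / 40000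
  bq0 : 0 ≤ bq
  lo : y₃ + y₄ + u + x - p ≤ bq + 2 * x + 1 / 40000
  h0 : 0 ≤ hh
  ht : hh ≤ 1 / 8 + 1 / 40000 ∨ hh ≤ 1 / 8 + 2 * p - 1 - v - 2 * D + 1 / 40000
  p0 : 1 / 2 - 2 * x ≤ p + 1 / 40000
  pn : p ≤ y₃ + y₄ + u + x + 1 / 40000
  A0 : 0 ≤ A
  e0 : 0 ≤ e
  e1 : e ≤ 1 / 64 + 1 / 40000
  v0 : 0 ≤ v
  hv1 : v + 2 * D ≤ 2 * (y₃ + y₄ + u) - 1 + 11 / 5 * x + 1 / 40000
  hv2 : v + 2 * D ≤ 3 / 4 * (y₃ + y₄ + u) + 11 / 5 * x + 1 / 40000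
  hv3 : v + 2 * D + 2 * bq ≤ 2 * (y₃ + y₄ + u) - 1 + 11 / 5 * x + d / 2 + 1 / 40000
  hv4 : v + 2 * D + 2 * bq ≤ 3 / 4 * (y₃ + y₄ + u) + 11 / 5 * x + d / 2 + 1 / 40000
  hΛ0 : 0 ≤ Λ
  hΛ1 : 5 / 4 * (y₃ + y₄ + u) - 1 ≤ Λ

/-- the cases of the number -/
def TF (y₃ y₄ u x s₀ p D e v F : ℝ) : Prop :=
  ((F ≤ 2 * (p - D - e) ∨ F ≤ 4 / 3 * (p - D - e) + (1 + e / 2 + (v + e)) / 3 ∨
      F ≤ 4 / 3 * (p - D - e) + (5 / 4 * (y₃ + y₄ + u) + e / 2 + (v + e)) / 3 ∨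
      F ≤ 4 / 3 * (p - D - e) + 5 / 6 * (v + e)) ∧
    (F ≤ v + e + 4 / 3 * (p - D - e) + x ∨ F ≤ 5 / 3 * (p - D - e) + (v + e) / 3 + x)) ∨
  (F ≤ 5 / 3 * (p - D - e) + 2 / 3 * (v + e) ∧
    F ≤ 5 / 3 * (p - D - e) + 2 / 3 * (v + e) - (s₀ - (D + e)))

lemma bl_of {y₃ y₄ u x d Z hh bq s₀ p D A e v T : ℝ}
    (B : BlkX y₃ y₄ u x d Z hh bq s₀ p D A e v T) :
    BL y₃ y₄ u x d Z hh bq s₀ p D A e v (3 * L0 (y₃ + y₄ + u)) ∧
      TF y₃ y₄ u x s₀ p D e v (T - 1 / 20000 - (D + 2 / 3 - v / 3 - (p - D) / 3)) := by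
  obtain ⟨⟨u4, y43, u0, hy3, N1, near, hx0, adm, d0, d1⟩, Z0, Z1, s0, bq0, lo, h0, h1, p0, pn, A0,
    e0, e1, v0, w1, w2, hT⟩ := B
  have hm1 := min_le_left (2 * (y₃ + y₄ + u) - 1) (3 / 4 * (y₃ + y₄ + u))
  have hm2 := min_le_right (2 * (y₃ + y₄ + u) - 1) (3 / 4 * (y₃ + y₄ + u))
  obtain ⟨hΛ0', hΛ1'⟩ := L0_ge (y₃ + y₄ + u)
  constructor
  · refine ⟨u4, y43, u0, hy3, N1, near, hx0, ?_, d0, d1, s0, bq0, lo, h0, ?_, p0, pn, A0, e0, e1,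
      v0, by linarith, by linarith, by linarith, by linarith, by linarith, by linarith⟩
    · rcases adm with ⟨a0, a1 | a1⟩ | a
      · exact Or.inl ⟨a0, a1⟩
      · exact Or.inr (Or.inl ⟨a0, a1⟩)
      · exact Or.inr (Or.inr a)
    · rcases max_choice 0 (2 * p - 1 - (v + 2 * D)) with h | h
      · left; rw [h] at h1; linarith
      · right; rw [h] at h1; linarith
  · rcases hT with hT | hT
    · left
      have hF1 := Thk_le1 (y₃ + y₄ + u) x p D e v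
      have hF2 := Thk_le2 (y₃ + y₄ + u) x p D e v
      generalize Thk (y₃ + y₄ + u) x p D e v = T' at hF1 hF2 hT
      constructor
      · rcases hF1 with h | h | h | h
        · exact Or.inl (by linarith)
        · exact Or.inr (Or.inl (by linarith))
        · exact Or.inr (Or.inr (Or.inl (by linarith)))
        · exact Or.inr (Or.inr (Or.inr (by linarith)))
      · rcases hF2 with h | h
        · exact Or.inl (by linarith)
        · exact Or.inr (by linarith)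
    · right
      unfold TbX at hT
      have hm1 := le_max_left 0 (s₀ - (D + e))
      have hm2 := le_max_right 0 (s₀ - (D + e))
      constructor <;> linarith

set_option maxHeartbeats 8000000 in
/-- **the principal part** -/
theorem linePr : LinePr := by
  intro y₃ y₄ u x d Z hh bq s₀ p d₀ ν A e v T m S hB kν A1 hm hS
  obtain ⟨B, hT⟩ := bl_of hB
  unfold TsX P1H440.Tg at hS
  generalize 3 * L0 (y₃ + y₄ + u) = Λ at B hS
  obtain ⟨F, hF⟩ : ∃ F, F = T - 1 / 20000 -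
      ((d₀ + ν) + 2 / 3 - v / 3 - (p - (d₀ + ν)) / 3) := ⟨_, rfl⟩
  rw [← hF] at hT
  obtain ⟨u4, y43, u0, hy3, N1, near, x0, adm, dd0, dd1, s0, bq0, lo, h0, ht, p0, pn, A0, e0, e1,
    v0, hv1, hv2, hv3, hv4, hΛ0, hΛ1⟩ := B
  have m0 : 0 ≤ m := by rw [hm]; exact le_max_left _ _
  have m1 : s₀ - d₀ ≤ m := by rw [hm]; exact le_max_right _ _
  have hm' : (m ≤ 0 ∧ s₀ ≤ d₀) ∨ m ≤ s₀ - d₀ := by
    rcases max_cases 0 (s₀ - d₀) with ⟨h, h'⟩ | ⟨h, h'⟩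
    · left; rw [hm, h]; exact ⟨le_rfl, by linarith⟩
    · right; rw [hm, h]
  clear hm hB
  have d00 : 0 ≤ d₀ := A0.trans A1
  refine ⟨?_, ?_, ?_, ?_, ?_⟩
  · rcases hT with ⟨hA, hC⟩ | ⟨hA, hC⟩
    · rcases hA with hA | hA | hA | hA <;> linarith
    · linarith
  · rcases hT with ⟨hA, hC⟩ | ⟨hA, hC⟩
    · rcases hA with hA | hA | hA | hA <;> linarith
    · linarith
  · rcases hT with ⟨hA, hC⟩ | ⟨hA, hC⟩
    · rcases hC with hC | hC
      · rcases hm' with ⟨hm1, hm2⟩ | hm1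
        · linarith
        · rcases ht with ht | ht
          · rcases hA with hA | hA | hA | hA
            · linarith
            · rcases adm with ⟨a1, a2⟩ | ⟨a1, a2⟩ | ⟨a1, a2, a3⟩ <;> linarith
            · rcases adm with ⟨a1, a2⟩ | ⟨a1, a2⟩ | ⟨a1, a2, a3⟩ <;> linarith
            · rcases adm with ⟨a1, a2⟩ | ⟨a1, a2⟩ | ⟨a1, a2, a3⟩ <;> linarith
          · rcases hA with hA | hA | hA | hA
            · linarith
            · rcases adm with ⟨a1, a2⟩ | ⟨a1, a2⟩ | ⟨a1, a2, a3⟩ <;> linarith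
            · rcases adm with ⟨a1, a2⟩ | ⟨a1, a2⟩ | ⟨a1, a2, a3⟩ <;> linarith
            · rcases adm with ⟨a1, a2⟩ | ⟨a1, a2⟩ | ⟨a1, a2, a3⟩ <;> linarith
      · linarith
    · rcases adm with ⟨a1, a2⟩ | ⟨a1, a2⟩ | ⟨a1, a2, a3⟩ <;> linarith
  · rcases hT with ⟨hA, hC⟩ | ⟨hA, hC⟩
    · rcases ht with ht | ht <;> rcases hA with hA | hA | hA | hA <;> linarith
    · rcases ht with ht | ht <;> linarith
  · rcases hT with ⟨hA, hC⟩ | ⟨hA, hC⟩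
    · rcases ht with ht | ht <;> rcases hA with hA | hA | hA | hA <;> linarith
    · rcases ht with ht | ht <;> linarith

set_option maxHeartbeats 8000000 in
/-- **the polar part** -/
theorem linePo : LinePo := by
  intro y₃ y₄ u x d Z hh bq s₀ p D A e v T b₀ S hB A1 hb0 hb1 hS
  obtain ⟨B, hT⟩ := bl_of hB
  unfold TsX P1H440.Tg at hS
  generalize 3 * L0 (y₃ + y₄ + u) = Λ at B hS
  obtain ⟨F, hF⟩ : ∃ F, F = T - 1 / 20000 - (D + 2 / 3 - v / 3 - (p - D) / 3) := ⟨_, rfl⟩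
  rw [← hF] at hT
  obtain ⟨u4, y43, u0, hy3, N1, near, x0, adm, dd0, dd1, s0, bq0, lo, h0, ht, p0, pn, A0, e0, e1,
    v0, hv1, hv2, hv3, hv4, hΛ0, hΛ1⟩ := B
  clear hB
  have d00 : 0 ≤ D := A0.trans A1
  rcases max_cases (v + 3 * (e + A)) (max ((p - D - b₀) + (v + 3 * (e + A)) / 3)
    (2 / 3 * ((v + 3 * (e + A)) + (p - D - b₀)))) with ⟨c, -⟩ | ⟨c, -⟩
  · rw [c]
    rcases hT with ⟨hA, hC⟩ | ⟨hA, hC⟩
    · rcases hA with hA | hA | hA | hA <;> linarith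
    · linarith
  · rw [c]
    rcases max_cases ((p - D - b₀) + (v + 3 * (e + A)) / 3)
      (2 / 3 * ((v + 3 * (e + A)) + (p - D - b₀))) with ⟨c, -⟩ | ⟨c, -⟩
    · rw [c]
      rcases hT with ⟨hA, hC⟩ | ⟨hA, hC⟩
      · rcases hC with hC | hC
        · rcases ht with ht | ht <;>
            rcases adm with ⟨a1, a2⟩ | ⟨a1, a2⟩ | ⟨a1, a2, a3⟩ <;>
            first | linarith | (rcases hA with hA | hA | hA | hA <;> linarith)
        · rcases ht with ht | ht <;> linarith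
      · rcases ht with ht | ht <;> linarith
    · rw [c]
      rcases hT with ⟨hA, hC⟩ | ⟨hA, hC⟩
      · rcases hC with hC | hC
        · rcases ht with ht | ht <;>
            rcases adm with ⟨a1, a2⟩ | ⟨a1, a2⟩ | ⟨a1, a2, a3⟩ <;>
            first | linarith | (rcases hA with hA | hA | hA | hA <;> linarith)
        · rcases ht with ht | ht <;> linarith
      · rcases ht with ht | ht <;> linarith

end Crest.Agent.R017.RXl176
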