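import Crest.Agent.R017.P1Hk_176
import Crest.Agent.R017.PXc_829

/-!
# Row 17, class E, the R-side of `P1` (helper440): the real lines (literals), family `κ = 1`

* `BlkX` : the numbers of a block, slack `1/40000`
* `LineAX` : the natural children;  `LinePr` : principal part;  `LinePo` : polar part
-/

set_option autoImplicit false

noncomputable section

namespace Crest.Agent.R017.RXl440

open Crest.Agent.R017.P1R904 (r3)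
open Crest.Agent.R017.P1F904 (Dp)
open Crest.Agent.R017.P1H440 (Tg)
open Crest.Agent.R017.P1Hk176 (Thk)
open Crest.Agent.R017.PX829 (PXsn)

/-- the bias branch of the `T`-number -/
def TbX (s₀ p D e v : ℝ) : ℝ :=
  D + 2 / 3 - v / 3 - (p - D) / 3 +
    (5 / 3 * (p - D - e) + 2 / 3 * (v + e) - max 0 (s₀ - (D + e)))

/-- the numbers of a block (difference: `s₀` = shortest length; single list: `s₀ = 0`) -/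
structure BlkX (y₃ y₄ u x d Z hh bq s₀ p D A e v T : ℝ) : Prop where
  dp : Dp y₃ y₄ u x d
  Z0 : 17 / 100 ≤ Z
  Z1 : Z ≤ 1883 / 10000
  s0 : 17 / 100 - (y₃ + y₄ + u + x - p) ≤ s₀ + 1 / 40000
  bq0 : 0 ≤ bq
  lo : y₃ + y₄ + u + x - p ≤ bq + 2 * x + 1 / 40000
  h0 : 0 ≤ hh
  h1 : hh ≤ 1 / 8 + max 0 (2 * p - 1 - (v + 2 * D)) + 1 / 40000
  p0 : 1 / 2 - 2 * x ≤ p + 1 / 40000
  pn : p ≤ y₃ + y₄ + u + x + 1 / 40000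
  A0 : 0 ≤ A
  e0 : 0 ≤ e
  e1 : e ≤ 1 / 64 + 1 / 40000
  v0 : 0 ≤ v
  w1 : v + 2 * D ≤ min (2 * (y₃ + y₄ + u) - 1) (3 / 4 * (y₃ + y₄ + u)) + 11 / 5 * x + 1 / 40000
  w2 : v + 2 * D + 2 * bq ≤
    min (2 * (y₃ + y₄ + u) - 1) (3 / 4 * (y₃ + y₄ + u)) + 11 / 5 * x + d / 2 + 1 / 40000
  T : T ≤ Thk (y₃ + y₄ + u) x p D e v + 1 / 20000 ∨ T ≤ TbX s₀ p D e v + 1 / 20000

/-- **(R2)** of class E, all cells -/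
def LineAX : Prop :=
  ∀ y₃ y₄ u x d Z hh bq s₀ p d₀ ν A e v T b g i β i' z₁ z₂ z₃ x' W ms ρ n' U : ℝ,
  BlkX y₃ y₄ u x d Z hh bq s₀ p (d₀ + ν) A e v T → 0 ≤ ν → A ≤ d₀ → 0 ≤ b → 0 ≤ g → 0 ≤ i →
  0 ≤ ms → i ≤ v + p - 1 + hh + 2 * (e + A) + 2 * ν - d₀ + b + 1 / 40000 →
  i ≤ 1 - (e + A) - 2 * b + 1 / 40000 → 0 ≤ z₃ → z₃ ≤ z₂ → z₂ ≤ z₁ → 0 ≤ x' →
  x' ≤ x + 1 / 40000 →
  (z₁ ≤ y₃ + 1 / 40000 ∧ z₂ ≤ y₄ + 1 / 40000 ∧ z₃ ≤ u + 1 / 40000 ∨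
    z₁ ≤ y₃ + y₄ - Z + 1 / 40000 ∧ z₂ ≤ u + 1 / 40000 ∧ z₃ ≤ Z + 1 / 40000) →
  z₁ + z₂ + z₃ + x' + (d₀ + b + g + ms) ≤ p + 1 / 40000 →
  2 * g ≤ i + e + A + 1 / 40000 → 0 ≤ β → β ≤ b + g → 0 ≤ i' → i' ≤ e + A + i - 2 * g →
  (W ≤ v + e + A + g + ν ∨ W ≤ i + g ∨ W ≤ 2 / 3 * (v + e + A + i) + g) →
  ρ = 2 * Tg (y₃ + y₄ + u) p + 3 / 4 * d - T - (d₀ + ν - A + (W - i) + ms) - 1 / 1000 →
  n' = z₁ + z₂ + z₃ + x' →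
  U = max (max (n' / 3 + z₃ / 2) (n' / 3 + 4 / 15 * (z₃ + x'))) (max (2 / 3 * (z₃ + x')) x') →
  (r3 d (i' + 2 * β) (min z₁ (i' + 2 * β)) (min z₂ (i' + 2 * β)) (min z₃ (i' + 2 * β)) x' ≤ ρ ∧
      2 * x' + (i' + 2 * β) / 3 ≤ ρ) ∨
    PXsn i' β 0 z₁ z₂ z₃ x' n' (2 * d * (z₃ + x')) U ρ

/-- the target of the principal and the polar part -/
def TsX (y₃ y₄ u d p D e v T : ℝ) : ℝ :=
  2 * Tg (y₃ + y₄ + u) p + 3 / 4 * d - T + 2 / 3 - D - e - v / 3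

/-- **the principal part** -/
def LinePr : Prop :=
  ∀ y₃ y₄ u x d Z hh bq s₀ p d₀ ν A e v T m S : ℝ,
  BlkX y₃ y₄ u x d Z hh bq s₀ p (d₀ + ν) A e v T → 0 ≤ ν → A ≤ d₀ → m = max 0 (s₀ - d₀) →
  S = TsX y₃ y₄ u d p (d₀ + ν) e v T - 1 / 1000 →
  2 * (p - d₀) - m + 2 / 3 + v / 6 - (e + A) ≤ S ∧
  2 * (p - d₀) - m + 1 - (p - d₀) / 3 - 2 / 3 * ν - (e + A) ≤ S ∧
  2 * (p - d₀) - m + 4 / 3 - 2 / 3 * (p - d₀) - ν - (e + A) ≤ S ∧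
  2 * (p - d₀) + (v + 1 + hh) / 3 - m / 3 ≤ S ∧
  2 * (p - d₀) + 2 / 3 * v + (e + A) + ν / 3 + 2 / 3 * hh ≤ S

/-- **the polar part** -/
def LinePo : Prop :=
  ∀ y₃ y₄ u x d Z hh bq s₀ p D A e v T b₀ S : ℝ,
  BlkX y₃ y₄ u x d Z hh bq s₀ p D A e v T → A ≤ D → -(1 / 40000) ≤ b₀ →
  2 - 3 * (e + A) - v - p + D - hh ≤ 3 * b₀ + 1 / 10000 →
  S = TsX y₃ y₄ u d p D e v T - 1 / 1000 →
  -(2 / 3) * v + 4 / 3 - 2 * (e + A) + 2 / 3 * (p - D) - b₀ +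
    max (v + 3 * (e + A)) (max ((p - D - b₀) + (v + 3 * (e + A)) / 3)
      (2 / 3 * ((v + 3 * (e + A)) + (p - D - b₀)))) ≤ S

end Crest.Agent.R017.RXl440
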