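import Crest.Agent.R017.MXa_744
import Crest.Agent.R017.RXh_770

/-!
# Row 17, x-side of E4, class E: the R-test with two classes of natural frequencies (helper770)

* `PrD` : the principal predicate of the dilated sequences, `prD_ok`
* **`hWx_of_f`** : helper347's `hW_of_f` in two classes, the cube class with the full gain of `F`
-/

set_option autoImplicit false
set_option linter.unusedVariables false
set_option maxHeartbeats 1600000

noncomputable section

open Complex MeasureTheory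
open scoped ComplexConjugate

namespace Crest.Agent.R017.RXm770

open Crest.Agent.R012 Crest.Agent.R012.Eis Crest.Agent.R012.MC
open Crest.Agent.R012.LS2 (S mem_S bl mem_bl)
open Crest.Agent.R012.Mob705 (pdiv mem_pdiv)
open Crest.Agent.R012.Weight600 (pw norm_pw pw_add_left)
open Crest.Agent.R017.CM106 (CS TG FS)
open Crest.Agent.R017.BD829 (TT EQ EQ_nonneg)
open Crest.Agent.R017.E1551 (jb jb_pos)
open Crest.Agent.R017.Mode405 (VI bs Slp Mul1)
open Crest.Agent.R017.GrB829 (IsC)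
open Crest.Agent.R017.PX764 (n6 Gh n6_mul norm_sy_one)
open Crest.Agent.R017.E3D579 (bF bt b0 bt_mul bt_supp FS_b0 sy_mulL sy_mulR sy_conj_sq n6_nonneg)
open Crest.Agent.R017.R3571
open Crest.Agent.R017.PoHx72
open Crest.Agent.R017.MX744
open Gauss880 (syG)

/-- the principal frequencies -/
def Pu (u r : Eis) : Prop := ∃ z : Eis, r * u ^ 2 = z ^ 3

/-- the principal predicate of the dilated sequences -/
def PrD (f F u D H : Eis) : Prop := IsCoprime D (f * F * u) ∧ ∃ z : Eis, H * (f * F * D) ^ 2 * u ^ 2 = z ^ 3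

lemma cube_div {a b z : Eis} (hb : b ≠ 0) (h : a * b ^ 3 = z ^ 3) : ∃ w : Eis, a = w ^ 3 := by
  have h1 : b ^ 3 ∣ z ^ 3 := ⟨a, by rw [← h]; ring⟩
  obtain ⟨s, rfl⟩ := (UniqueFactorizationMonoid.pow_dvd_pow_iff_dvd (n := 3) (by norm_num)).mp h1
  refine ⟨s, ?_⟩
  apply mul_right_cancel₀ (pow_ne_zero 3 hb)
  rw [h]; ring

lemma prD_ok {f F u : Eis} (hf : f ≠ 0) (hF : F ≠ 0) (hu : u ≠ 0) (b : Eis → ℂ) :
    PrOK b (PrD f F u) where
  cub D hD := by
    rintro H H' h0 h0' ⟨-, z, hz⟩ ⟨-, z', hz'⟩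
    have h1 : H * H' ^ 2 * ((f * F * D) ^ 2 * u ^ 2) ^ 3 = (z * z' ^ 2) ^ 3 := by
      calc H * H' ^ 2 * ((f * F * D) ^ 2 * u ^ 2) ^ 3 =
          (H * (f * F * D) ^ 2 * u ^ 2) * (H' * (f * F * D) ^ 2 * u ^ 2) ^ 2 := by ring
        _ = (z * z' ^ 2) ^ 3 := by rw [hz, hz']; ring
    exact cube_div (mul_ne_zero (pow_ne_zero _ (mul_ne_zero (mul_ne_zero hf hF) hD))
      (pow_ne_zero _ hu)) h1
  hcp D H hD hH _ h := by
    obtain ⟨h1, z, hz⟩ := h
    refine ⟨(f * F * u) ^ 2, z, ?_, (h1.pow_right).symm⟩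
    rw [← hz]; ring
  inv D H q hH hq := by
    unfold PrD
    refine and_congr Iff.rfl ⟨?_, ?_⟩
    · rintro ⟨z, hz⟩
      refine cube_div hq (z := z) ?_
      rw [← hz]; ring
    · rintro ⟨z, hz⟩
      exact ⟨z * q, by rw [mul_pow z q, ← hz]; ring⟩

/-- the symbols of a principal frequency -/
lemma sy_prin' {k s t c m : Eis} (hm : IsPrim m) (hk : k * s * t ^ 3 = c ^ 3) (hs : IsCoprime s m)
    (ht : IsCoprime t m) (hkm : IsCoprime k m) : sy k m * sy s m = 1 := by
  have hcm : IsCoprime c m := by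
    have h1 : IsCoprime (c ^ 3) m := by
      rw [← hk]
      exact (hkm.mul_left hs).mul_left ht.pow_left
    exact (IsCoprime.pow_left_iff (by norm_num : 0 < 3)).1 h1
  have e1 : sy (k * s * t ^ 3) m = sy k m * sy s m := by
    rw [Char766.sy_mul_left hm, Char766.sy_mul_left hm, Char766.sy_cube_left hm ht, mul_one]
  rw [← e1, hk, Char766.sy_cube_left hm hcm]

open Classical in
/-- equality of two moments, with the support -/
lemma RMm_congr' (A : ℝ) {a : Eis → ℂ} (ha : FS a) {e γ π π' r r' : Eis} (hγ : IsPrim γ)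
    (h : ∀ m, IsPrim m → a (γ * m) ≠ 0 →
      ((IsCoprime m π ∧ sy r m ≠ 0) ∨ (IsCoprime m π' ∧ sy r' m ≠ 0) →
      IsCoprime m π ∧ IsCoprime m π' ∧ sy r m = sy r' m)) :
    RMm A a e γ π r = RMm A a e γ π' r' := by
  rw [RMm_eq, RMm_eq]
  refine integral_congr_ae (Filter.Eventually.of_forall fun t => ?_)
  beta_reduce
  congr 3
  unfold CM106.CS
  refine tsum_congr fun m => ?_
  unfold rm
  by_cases h0 : a (γ * m) = 0
  · rw [h0]; simp
  have hm : IsPrim m := (ha.prim _ h0).of_mul_left hγ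
  have h' := h m hm h0
  by_cases h1 : IsCoprime m π ∧ sy r m ≠ 0
  · obtain ⟨k1, k2, k3⟩ := h' (Or.inl h1)
    simp only [k1, k2, k3, and_true]
  · by_cases h2 : IsCoprime m π' ∧ sy r' m ≠ 0
    · obtain ⟨k1, k2, k3⟩ := h' (Or.inr h2)
      simp only [k1, k2, k3, and_true]
    · have e1 : (if e ∣ γ * m ∧ IsCoprime m π then a (γ * m) * (n6 m : ℂ) else 0) *
          pw t (nm m) * sy r m = 0 := by
        by_cases h3 : IsCoprime m π
        · have h4 : sy r m = 0 := by
            by_contra h5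
            exact h1 ⟨h3, h5⟩
          rw [h4, mul_zero]
        · rw [if_neg (fun h5 => h3 h5.2)]; simp
      have e2 : (if e ∣ γ * m ∧ IsCoprime m π' then a (γ * m) * (n6 m : ℂ) else 0) *
          pw t (nm m) * sy r' m = 0 := by
        by_cases h3 : IsCoprime m π'
        · have h4 : sy r' m = 0 := by
            by_contra h5
            exact h2 ⟨h3, h5⟩
          rw [h4, mul_zero]
        · rw [if_neg (fun h5 => h3 h5.2)]; simp
      rw [e1, e2]

open Classical in
/-- one divisor (helper347's `hW_of_f`) -/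
theorem key_div {A : ℝ} (hA : 1 < A) {Z : ℝ} (hZ : 1 ≤ Z) {a : Eis → ℂ} (ha : FS a)
    (hsf : ∀ n, a n ≠ 0 → Squarefree n) (d : Eis) {e q g κ F c : Eis} (he : IsPrim e)
    (hq : IsPrim q) (hg : IsPrim g) (hκ : IsPrim κ) (hF : IsPrim F) (hc : IsC c)
    (hnm : (nm (q * g * κ * F) : ℝ) ≤ Z) {γ φ x C3 : Eis} (hγ : IsPrim γ) (hγκ : IsCoprime γ κ)
    (hφ : φ ≠ 0) (hx : x ≠ 0) (hC3 : C3 ≠ 0) (hid : φ * γ ^ 2 = x * C3 ^ 3)
    (hC3Z : (nm C3 : ℝ) ≤ Z ^ 2) {P : ℝ} (hP : 0 < P) {d₁ : Eis} (hd₁ : d₁ ∈ pdiv (κ * F))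
    (hcop : IsCoprime d₁ κ) :
    ∃ y D π : Eis, y ≠ 0 ∧ D ≠ 0 ∧ F ∣ y ∧ IsPrim π ∧ (nm π : ℝ) ≤ Z ^ 4 ∧
      (nm y : ℝ) * (nm d₁ * P / nm x) ≤ 81 * (P * ((nm F : ℝ) ^ 2 * (nm q : ℝ) ^ 2 * nm g)) ∧
      (∀ k : Eis, k * φ * d₁ ^ 2 * ((q * c * g ^ 2) * F * γ) ^ 2 = k * y * D ^ 3) ∧
      ∀ k : Eis, EQ A (fun m => if IsCoprime m 1 then
        bs (bF κ F (b0 a d e (q * c * g ^ 2))) d₁ (γ * m) else 0) (k * φ) ≤
        n6 γ ^ 2 * RMm A a e γ π (k * y) := by
  have hN0 : κ * F ≠ 0 := (hκ.mul hF).ne_zero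
  have hγ0 := nm_cast_pos hγ.ne_zero
  have hx0 := nm_cast_pos hx
  set P' : ℝ := 81 * (P * ((nm F : ℝ) ^ 2 * (nm q : ℝ) ^ 2 * nm g)) with hP'
  have hnF := nm_cast_pos hF.ne_zero
  have hnq := nm_cast_pos hq.ne_zero
  have hng := nm_cast_pos hg.ne_zero
  have hP'0 : 0 < P' := by positivity
  set b : Eis → ℂ := bF κ F (b0 a d e (q * c * g ^ 2)) with hb
  rw [mem_pdiv hN0] at hd₁
  obtain ⟨hd₁p, hd₁d⟩ := hd₁
  have hd₁1 := one_le_nm hd₁p.ne_zero
  have hd₁0 : (0 : ℝ) < nm d₁ := by linarith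
  have hval : ∀ k, EQ A (fun m => if IsCoprime m 1 then bs b d₁ (γ * m) else 0) (k * φ) ≤
      EQ A (fun m => if IsCoprime m 1 then b (γ * m) else 0) (k * φ * d₁ ^ 2) := by
    intro k
    have hu : ∀ m, (if IsCoprime m 1 then b (γ * m) else 0) ≠ 0 → IsPrim m := by
      intro m hm
      rw [if_pos isCoprime_one_right] at hm
      exact ((E3D579.FS.bF hκ (FS_b0 ha d e _)).prim _ hm).of_mul_left hγ
    have e1 : (fun m => if IsCoprime m 1 then bs b d₁ (γ * m) else 0) =
        fun m => sy d₁ γ * (sy d₁ m * (if IsCoprime m 1 then b (γ * m) else 0)) := by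
      funext m
      rw [if_pos isCoprime_one_right, if_pos isCoprime_one_right]
      unfold Mode405.bs
      by_cases h0 : b (γ * m) = 0
      · rw [h0]; ring
      · have hm : IsPrim m := ((E3D579.FS.bF hκ (FS_b0 ha d e _)).prim _ h0).of_mul_left hγ
        rw [sy_mulR hγ hm]; ring
    rw [e1, E3D579.EQ_smul, E3D579.EQ_sy hu]
    have h1 : ‖sy d₁ γ‖ ^ 2 ≤ 1 := pow_le_one₀ (norm_nonneg _) (CF61.norm_sy_le d₁ γ)
    exact mul_le_of_le_one_left (EQ_nonneg _ _ _) h1
  have hd₁' : d₁ ∣ F := hcop.dvd_of_dvd_mul_left hd₁d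
  obtain ⟨dF, F1, hdF, hF1, hFF, hdd⟩ :
      ∃ dF F1, IsPrim dF ∧ IsPrim F1 ∧ F = dF * F1 ∧ d₁ = dF := by
    obtain ⟨F1, hF1⟩ := hd₁'
    exact ⟨d₁, F1, hd₁p, (hF1 ▸ hF : IsPrim (d₁ * F1)).of_mul_left hd₁p, hF1, rfl⟩
  have hcne := c_ne hc
  set f : Eis := q * c * g ^ 2 with hf
  set y : Eis := x * (c ^ 2 * (q ^ 2 * dF * F1 ^ 2 * g)) with hy
  set D : Eis := C3 * g * dF with hD
  have hy0 : y ≠ 0 := by
    refine mul_ne_zero hx (mul_ne_zero (pow_ne_zero _ hcne) ?_)
    exact mul_ne_zero (mul_ne_zero (mul_ne_zero (pow_ne_zero _ hq.ne_zero) hdF.ne_zero)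
      (pow_ne_zero _ hF1.ne_zero)) hg.ne_zero
  have hD0 : D ≠ 0 := mul_ne_zero (mul_ne_zero hC3 hg.ne_zero) hdF.ne_zero
  have hFy : F ∣ y := ⟨x * (c ^ 2 * (q ^ 2 * F1 * g)), by rw [hy, hFF]; ring⟩
  have hR : ∀ k : Eis, k * φ * d₁ ^ 2 * (f * F * γ) ^ 2 = k * y * D ^ 3 := by
    intro k
    have e1 : k * φ * d₁ ^ 2 * (f * F * γ) ^ 2 = k * (φ * γ ^ 2) * (d₁ * f * F) ^ 2 := by ring
    rw [e1, hid, hf, hy, hD, hdd, hFF]
    ring
  have hπ0 : κ * q * g * dF * C3 ≠ 0 := mul_ne_zero (mul_ne_zero (mul_ne_zero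
    (mul_ne_zero hκ.ne_zero hq.ne_zero) hg.ne_zero) hdF.ne_zero) hC3
  obtain ⟨π, hπp, hπn, hπc⟩ := exists_pp hπ0
  have hπZ : (nm π : ℝ) ≤ Z ^ 4 := by
    refine hπn.trans ?_
    have hF1' := one_le_nm hF1.ne_zero
    have h1 : (nm (κ * q * g * dF) : ℝ) ≤ nm (q * g * κ * F) := by
      rw [hFF]
      simp only [nm_mul]
      push_cast
      have h2 : (0 : ℝ) ≤ nm κ * nm q * nm g * nm dF := by positivity
      calc (nm κ : ℝ) * nm q * nm g * nm dF ≤ nm κ * nm q * nm g * nm dF * nm F1 :=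
            le_mul_of_one_le_right h2 hF1'
        _ = _ := by ring
    rw [nm_mul]
    push_cast
    calc (nm (κ * q * g * dF) : ℝ) * nm C3 ≤ Z * Z ^ 2 := by
          have : (0 : ℝ) ≤ nm C3 := Nat.cast_nonneg _
          gcongr
          exact h1.trans hnm
      _ = Z ^ 3 := by ring
      _ ≤ Z ^ 4 := pow_le_pow_right₀ hZ (by norm_num)
  have hRM : ∀ k, RMm A a e γ (1 * (κ * f)) (k * φ * d₁ ^ 2 * (f * F * γ) ^ 2) =
      RMm A a e γ π (k * y) := by
    intro k
    refine RMm_congr A ha hγ fun m hm h => ?_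
    have hcc : IsCoprime m π ↔ IsCoprime m (κ * q * g * dF * C3) := (hπc m hm).symm
    have e2 : IsCoprime m D → sy (k * y * D ^ 3) m = sy (k * y) m := fun h1 =>
      PX764.sy_cube_left hm _ h1.symm
    rw [hR k]
    rcases h with ⟨h1, h2⟩ | ⟨h1, h2⟩
    · rw [hR k] at h2
      have h3 := cop_m h2 hm
      have h4 : IsCoprime m D := (IsCoprime.pow_right_iff (by norm_num)).1 h3.of_mul_right_right
      rw [hD] at h4
      have h5 : IsCoprime m (κ * f) := h1.of_mul_right_right
      have h6 : IsCoprime m f := h5.of_mul_right_right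
      rw [hf] at h6
      have h7 : IsCoprime m g := (IsCoprime.pow_right_iff (by norm_num)).1 h6.of_mul_right_right
      have h8 : IsCoprime m q := h6.of_mul_right_left.of_mul_right_left
      have h9 : IsCoprime m dF := h4.of_mul_right_right
      have h10 : IsCoprime m C3 := h4.of_mul_right_left.of_mul_right_left
      exact ⟨h1, hcc.2 ((((h5.of_mul_right_left.mul_right h8).mul_right h7).mul_right
        h9).mul_right h10), e2 h4⟩
    · have h3 := cop_m h2 hm
      have h4 := hcc.1 h1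
      have h10 : IsCoprime m C3 := h4.of_mul_right_right
      have h9 : IsCoprime m dF := h4.of_mul_right_left.of_mul_right_right
      have h7 : IsCoprime m g := h4.of_mul_right_left.of_mul_right_left.of_mul_right_right
      have h8 : IsCoprime m q :=
        h4.of_mul_right_left.of_mul_right_left.of_mul_right_left.of_mul_right_right
      have h11 : IsCoprime m κ :=
        h4.of_mul_right_left.of_mul_right_left.of_mul_right_left.of_mul_right_left
      have h12 : IsCoprime m y := h3.of_mul_right_right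
      rw [hy] at h12
      have h13 : IsCoprime m c :=
        (IsCoprime.pow_right_iff (by norm_num)).1 h12.of_mul_right_right.of_mul_right_left
      have h14 : IsCoprime m f := (h8.mul_right h13).mul_right (h7.pow_right)
      have h18 : IsCoprime m D := (h10.mul_right h7).mul_right h9
      exact ⟨isCoprime_one_right.mul_right (h11.mul_right h14), h1, e2 h18⟩
  have hny : (nm y : ℝ) * (nm d₁ * P / nm x) ≤ P' := by
    have h1 := nm_sq_c hc
    have e1 : (nm y : ℝ) * (nm d₁ * P / nm x) = nm (c ^ 2) * (P * ((nm F : ℝ) ^ 2 *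
        (nm q : ℝ) ^ 2 * nm g)) := by
      rw [hy, hdd, hFF]
      simp only [nm_mul, nm_pow]
      push_cast
      field_simp
    rw [e1, hP']
    gcongr
  refine ⟨y, D, π, hy0, hD0, hFy, hπp, hπZ, hny, hR, fun k => (hval k).trans ?_⟩
  rw [← hRM k]
  exact EQ_bF hA ha hsf d hκ hγ hγκ e f F 1 (k * φ * d₁ ^ 2)

/-- the scale of the class -/
def sU (j : Bool) (u F : Eis) : ℝ := if j = true then (nm u : ℝ) ^ 3 / nm F else (nm F : ℝ) ^ 2

lemma sU_pos (j : Bool) {u F : Eis} (hu : u ≠ 0) (hF : F ≠ 0) : 0 < sU j u F := by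
  have h1 := nm_cast_pos hu
  have h2 := nm_cast_pos hF
  unfold sU
  split_ifs <;> positivity

open Classical in
/-- **(hW°) for the cell sequences, two classes** -/
theorem hWx_of_f {A : ℝ} (hA : 1 < A) {ε : ℝ} (hε : 0 < ε) : ∃ C : ℝ, 0 ≤ C ∧ ∀ Z : ℝ, 1 ≤ Z →
    ∀ a : Eis → ℂ, FS a → (∀ n, a n ≠ 0 → Squarefree n) →
    ∀ u : Eis, u ≠ 0 → (∀ n, a n ≠ 0 → IsCoprime n u) →
    ∀ d e q g κ F c : Eis, IsPrim d → IsPrim e → IsPrim q → IsPrim g → IsPrim κ → IsPrim F →
    Squarefree F → IsC c → (nm (q * g * κ * F) : ℝ) ≤ Z →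
    ∀ (j : Bool) (W0 : ℝ → ℝ), (∀ γ π, IsPrim γ → IsPrim π → (nm π : ℝ) ≤ Z ^ 5 →
      ∀ P : ℝ, 0 < P →
      (nm γ : ℝ) * n6 γ ^ 2 * ∑ r ∈ (bl P).filter (Cls (Pu u) j), RMm A a e γ π r ≤ W0 P) →
    ∀ γ φ x C3 : Eis, IsPrim γ → IsCoprime γ κ → φ ≠ 0 → x ≠ 0 → C3 ≠ 0 →
    φ * γ ^ 2 = x * C3 ^ 3 → (nm C3 : ℝ) ≤ Z ^ 2 → ∀ P : ℝ, 0 < P →
    ∑ d₁ ∈ pdiv (κ * F), (nm d₁ : ℝ)⁻¹ *
      ((nm γ : ℝ) * VIc A (bs (bF κ F (b0 a d e (q * c * g ^ 2))) d₁) γ φ 1 (nm d₁ * P / nm x)
        (Cls (PrS (PrD (q * c * g ^ 2) F u) d₁ γ) j)) ≤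
      C * Z ^ ε * W0 (81 * (P * (sU j u F * (nm q : ℝ) ^ 2 * nm g))) := by
  obtain ⟨C, hC, hτ⟩ := Div277.tau_le_rpow hε
  refine ⟨C, by linarith, ?_⟩
  intro Z hZ a ha hsf u hu0 hau d e q g κ F c hd he hq hg hκ hF hFs hc hnm j W0 hW0 γ φ x C3 hγ hγκ
    hφ hx hC3 hid hC3Z P hP
  have hN0 : κ * F ≠ 0 := (hκ.mul hF).ne_zero
  have hγ0 := nm_cast_pos hγ.ne_zero
  have hx0 := nm_cast_pos hx
  have hsU := sU_pos j hu0 hF.ne_zero
  have hnF := nm_cast_pos hF.ne_zero
  have hnq := nm_cast_pos hq.ne_zero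
  have hng := nm_cast_pos hg.ne_zero
  have hnu := nm_cast_pos hu0
  have hcne := c_ne hc
  set f : Eis := q * c * g ^ 2 with hf
  have hf0 : f ≠ 0 := mul_ne_zero (mul_ne_zero hq.ne_zero hcne) (pow_ne_zero _ hg.ne_zero)
  set P' : ℝ := 81 * (P * (sU j u F * (nm q : ℝ) ^ 2 * nm g)) with hP'
  have hP'0 : 0 < P' := by positivity
  set b : Eis → ℂ := bF κ F (b0 a d e f) with hb
  have hW00 : 0 ≤ W0 P' := by
    refine le_trans ?_ (hW0 γ 1 hγ isPrim_one (by
      rw [nm_one, Nat.cast_one]; exact one_le_pow₀ hZ) P' hP'0)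
    have := n6_nonneg γ
    exact mul_nonneg (by positivity) (Finset.sum_nonneg fun r _ => RMm_nonneg _ _ _ _ _ _)
  have key : ∀ d₁ ∈ pdiv (κ * F), (nm d₁ : ℝ)⁻¹ *
      ((nm γ : ℝ) * VIc A (bs b d₁) γ φ 1 (nm d₁ * P / nm x) (Cls (PrS (PrD f F u) d₁ γ) j)) ≤
      W0 P' := by
    intro d₁ hd₁m
    have hd₁m' := hd₁m
    rw [mem_pdiv hN0] at hd₁m'
    obtain ⟨hd₁p, hd₁d⟩ := hd₁m'
    have hd₁1 := one_le_nm hd₁p.ne_zero
    have hd₁0 : (0 : ℝ) < nm d₁ := by linarith
    have hinv : (nm d₁ : ℝ)⁻¹ ≤ 1 := inv_le_one_of_one_le₀ hd₁1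
    -- vanishing
    have hvan : (∀ m, bs b d₁ (γ * m) = 0) → (nm d₁ : ℝ)⁻¹ *
        ((nm γ : ℝ) * VIc A (bs b d₁) γ φ 1 (nm d₁ * P / nm x) (Cls (PrS (PrD f F u) d₁ γ) j)) ≤
        W0 P' := by
      intro hz
      have hz' : ∀ k, EQ A (fun m => if IsCoprime m 1 then bs b d₁ (γ * m) else 0) (k * φ) = 0 := by
        intro k
        have e1 : (fun m => if IsCoprime m 1 then bs b d₁ (γ * m) else 0) = fun _ => (0 : ℂ) := by
          funext m
          rw [if_pos isCoprime_one_right, hz m]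
        rw [e1]
        unfold BD829.EQ BD829.TT CM106.TG
        simp
      have : VIc A (bs b d₁) γ φ 1 (nm d₁ * P / nm x) (Cls (PrS (PrD f F u) d₁ γ) j) = 0 := by
        unfold PoHx72.VIc
        exact Finset.sum_eq_zero fun k _ => hz' k
      rw [this]; simpa using hW00
    by_cases hcop : IsCoprime d₁ κ
    swap
    · refine hvan fun m => ?_
      unfold Mode405.bs
      by_cases h0 : b (γ * m) = 0
      · rw [h0, zero_mul]
      · have hgm := (E3D579.FS.bF hκ (FS_b0 ha d e _)).prim _ h0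
        have h1 : κ ∣ γ * m := by
          rw [hb] at h0
          unfold E3D579.bF at h0
          obtain ⟨n, hn, -⟩ := bt_supp hκ.ne_zero h0
          exact ⟨n, hn⟩
        have h2 : sy d₁ (γ * m) = 0 := (syG.eq_zero d₁ _ hgm).mpr fun h3 =>
          hcop (h3.of_isCoprime_of_dvd_right h1)
        rw [h2, mul_zero]
    by_cases hγc : IsCoprime γ (f * F * u)
    swap
    · refine hvan fun m => ?_
      unfold Mode405.bs
      by_cases h0 : b (γ * m) = 0
      · rw [h0, zero_mul]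
      · exfalso
        apply hγc
        rw [hb] at h0
        unfold E3D579.bF at h0
        obtain ⟨n, hn, hbn⟩ := bt_supp hκ.ne_zero h0
        have hbn1 : b0 a d e f n ≠ 0 := left_ne_zero_of_mul hbn
        have hbn2 : sy F n ≠ 0 := right_ne_zero_of_mul hbn
        have hκm : κ ∣ m := hγκ.symm.dvd_of_dvd_mul_left ⟨n, hn⟩
        obtain ⟨m', rfl⟩ := hκm
        have hnn : n = γ * m' := by
          apply mul_left_cancel₀ hκ.ne_zero
          rw [← hn]; ring
        have han : a n ≠ 0 := by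
          intro h1
          apply hbn1
          unfold E3D579.b0
          rw [h1]; simp
        have hnp : IsPrim n := ha.prim n han
        have hfn : IsCoprime f (d * n) := by
          by_contra h1
          apply hbn1
          unfold E3D579.b0
          rw [if_neg fun h2 => h1 h2.2]
        have c1 : IsCoprime γ f := by
          have h1 := hfn.of_mul_right_right
          rw [hnn] at h1
          exact h1.of_mul_right_left.symm
        have c2 : IsCoprime γ F := by
          have h1 := cop_m hbn2 hnp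
          rw [hnn] at h1
          exact h1.of_mul_left_left
        have c3 : IsCoprime γ u := by
          have h1 := hau n han
          rw [hnn] at h1
          exact h1.of_mul_left_left
        exact (c1.mul_right c2).mul_right c3
    obtain ⟨y, D, π, hy0, hD0, hFy, hπp, hπZ, hny, hR, hEQ⟩ := key_div hA hZ ha hsf d he hq hg hκ
      hF hc hnm hγ hγκ hφ hx hC3 hid hC3Z hP hd₁m hcop
    have hPr : ∀ k, PrS (PrD f F u) d₁ γ (k * φ) ↔ Pu u (k * y) := by
      intro k
      unfold MX744.PrS PrD Pu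
      have e1 : k * φ * d₁ ^ 2 * (f * F * γ) ^ 2 * u ^ 2 = k * y * u ^ 2 * D ^ 3 := by
        rw [hf, hR k]; ring
      rw [e1]
      constructor
      · rintro ⟨-, z, hz⟩
        exact cube_div hD0 hz
      · rintro ⟨z, hz⟩
        exact ⟨hγc, z * D, by rw [hz]; ring⟩
    have hP1 : 0 < (nm d₁ : ℝ) * P / nm x := by positivity
    -- reduction to one class sum at a level prime `π'`
    suffices hs : ∃ π' : Eis, IsPrim π' ∧ (nm π' : ℝ) ≤ Z ^ 5 ∧
        VIc A (bs b d₁) γ φ 1 (nm d₁ * P / nm x) (Cls (PrS (PrD f F u) d₁ γ) j) ≤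
          n6 γ ^ 2 * ∑ r ∈ (bl P').filter (Cls (Pu u) j), RMm A a e γ π' r by
      obtain ⟨π', hπ'p, hπ'Z, hsum⟩ := hs
      have hfin := hW0 γ π' hγ hπ'p hπ'Z P' hP'0
      have hV0 : 0 ≤ (nm γ : ℝ) * (n6 γ ^ 2 * ∑ r ∈ (bl P').filter (Cls (Pu u) j),
          RMm A a e γ π' r) := by
        have : 0 ≤ ∑ r ∈ (bl P').filter (Cls (Pu u) j), RMm A a e γ π' r :=
          Finset.sum_nonneg fun r _ => RMm_nonneg _ _ _ _ _ _
        positivity
      calc (nm d₁ : ℝ)⁻¹ * ((nm γ : ℝ) * VIc A (bs b d₁) γ φ 1 (nm d₁ * P / nm x)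
            (Cls (PrS (PrD f F u) d₁ γ) j))
          ≤ (nm d₁ : ℝ)⁻¹ * ((nm γ : ℝ) * (n6 γ ^ 2 * ∑ r ∈ (bl P').filter (Cls (Pu u) j),
            RMm A a e γ π' r)) := by gcongr
        _ ≤ 1 * ((nm γ : ℝ) * (n6 γ ^ 2 * ∑ r ∈ (bl P').filter (Cls (Pu u) j),
            RMm A a e γ π' r)) := mul_le_mul_of_nonneg_right hinv hV0
        _ = (nm γ : ℝ) * n6 γ ^ 2 * ∑ r ∈ (bl P').filter (Cls (Pu u) j),
            RMm A a e γ π' r := by ring
        _ ≤ W0 P' := hfin
    set Ks := (bl (nm d₁ * P / nm x)).filter (fun k => Cls (PrS (PrD f F u) d₁ γ) j (k * φ))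
      with hKs
    have hVI : VIc A (bs b d₁) γ φ 1 (nm d₁ * P / nm x) (Cls (PrS (PrD f F u) d₁ γ) j) ≤
        ∑ k ∈ Ks, n6 γ ^ 2 * RMm A a e γ π (k * y) := by
      unfold PoHx72.VIc
      exact Finset.sum_le_sum fun k _ => hEQ k
    cases j with
    | false =>
      refine ⟨π, hπp, hπZ.trans (pow_le_pow_right₀ hZ (by norm_num)), hVI.trans ?_⟩
      have hinj : Set.InjOn (fun k : Eis => k * y) (Ks : Set Eis) :=
        fun u _ v _ huv => mul_right_cancel₀ hy0 huv
      calc ∑ k ∈ Ks, n6 γ ^ 2 * RMm A a e γ π (k * y)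
          = n6 γ ^ 2 * ∑ r ∈ Ks.image (fun k => k * y), RMm A a e γ π r := by
            rw [← Finset.mul_sum, Finset.sum_image hinj]
        _ ≤ _ := by
            refine mul_le_mul_of_nonneg_left ?_ (by positivity)
            refine Finset.sum_le_sum_of_subset_of_nonneg ?_ fun r _ _ => RMm_nonneg _ _ _ _ _ _
            intro r hr
            obtain ⟨k, hk, rfl⟩ := Finset.mem_image.1 hr
            obtain ⟨hk1, hk2⟩ := Finset.mem_filter.1 hk
            rw [mem_bl hP1.le] at hk1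
            refine Finset.mem_filter.2 ⟨?_, ?_⟩
            · rw [mem_bl hP'0.le]
              refine ⟨mul_ne_zero hk1.1 hy0, ?_⟩
              rw [nm_mul]
              push_cast
              have hy1 : (0 : ℝ) ≤ nm y := Nat.cast_nonneg _
              calc (nm k : ℝ) * nm y ≤ (nm d₁ * P / nm x) * nm y :=
                    mul_le_mul_of_nonneg_right hk1.2 hy1
                _ = nm y * (nm d₁ * P / nm x) := by ring
                _ ≤ _ := hny
                _ = P' := by
                    rw [hP']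
                    unfold sU
                    rw [if_neg (by simp)]
            · exact (Cls_iff false (hPr k)).1 hk2
    | true =>
      have hz : ∀ k ∈ Ks, ∃ z : Eis, k * y * u ^ 2 = (F * z) ^ 3 := by
        intro k hk
        obtain ⟨hk1, hk2⟩ := Finset.mem_filter.1 hk
        have h1 := (Cls_iff true (hPr k)).1 hk2
        unfold PoHx72.Cls at h1
        rw [if_pos rfl] at h1
        obtain ⟨z, hz⟩ := h1
        have h2 : F ∣ z ^ 3 := by
          rw [← hz]
          exact (hFy.mul_left k).mul_right _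
        obtain ⟨z', rfl⟩ := (hFs.dvd_pow_iff_dvd (by norm_num : (3 : ℕ) ≠ 0)).1 h2
        exact ⟨z', hz⟩
      choose! w hw using hz
      have hRw : ∀ k ∈ Ks, RMm A a e γ π (k * y) = RMm A a e γ (π * F) (u * (w k) ^ 3) := by
        intro k hk
        have hk3 := hw k hk
        refine RMm_congr' A ha hγ fun m hm ham h => ?_
        have hmu : IsCoprime u m := (hau _ ham).of_mul_left_right.symm
        have hmu2 : IsCoprime (u ^ 2) m := hmu.pow_left
        have h1m : IsCoprime (1 : Eis) m := isCoprime_one_left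
        have q2 : (u * w k ^ 3) * u ^ 2 * 1 ^ 3 = (u * w k) ^ 3 := by ring
        have q1 : (k * y) * u ^ 2 * 1 ^ 3 = (F * w k) ^ 3 := by rw [← hk3]; ring
        have hall : IsCoprime (k * y) m → IsCoprime F m ∧ IsCoprime (w k) m := by
          intro h0
          have h1 : IsCoprime ((F * w k) ^ 3) m := by
            rw [← hk3]; exact h0.mul_left hmu2
          have h2 := (IsCoprime.pow_left_iff (by norm_num : 0 < 3)).1 h1
          exact ⟨h2.of_mul_left_left, h2.of_mul_left_right⟩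
        have hfin : IsCoprime (k * y) m → IsCoprime (w k) m →
            sy (k * y) m = sy (u * w k ^ 3) m := by
          intro h0 h1
          have e1 := sy_prin' hm q1 hmu2 h1m h0
          have e2 := sy_prin' hm q2 hmu2 h1m (hmu.mul_left h1.pow_left)
          have h3 : sy (u ^ 2) m ≠ 0 := by
            intro h4
            rw [h4, mul_zero] at e1
            exact zero_ne_one e1
          exact mul_right_cancel₀ h3 (e1.trans e2.symm)
        rcases h with ⟨h1, h2⟩ | ⟨h1, h2⟩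
        · have h3 := (cop_m h2 hm).symm
          obtain ⟨h4, h5⟩ := hall h3
          exact ⟨h1, h1.mul_right h4.symm, hfin h3 h5⟩
        · have h3 := (cop_m h2 hm).symm
          have h5 : IsCoprime (w k) m :=
            (IsCoprime.pow_left_iff (by norm_num : 0 < 3)).1 h3.of_mul_left_right
          have h6 : IsCoprime (k * y * u ^ 2) m := by
            rw [hk3]
            exact (h1.of_mul_right_right.symm.mul_left h5).pow_left
          exact ⟨h1.of_mul_right_left, h1, hfin h6.of_mul_left_left h5⟩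
      have hinj : Set.InjOn (fun k : Eis => u * (w k) ^ 3) (Ks : Set Eis) := by
        intro k hk k' hk' hkk
        have h1 := hw k hk
        have h2 := hw k' hk'
        have h3 : w k ^ 3 = w k' ^ 3 := mul_left_cancel₀ hu0 hkk
        have h4 : k * (y * u ^ 2) = k' * (y * u ^ 2) := by
          calc k * (y * u ^ 2) = k * y * u ^ 2 := by ring
            _ = F ^ 3 * w k ^ 3 := by rw [h1]; ring
            _ = F ^ 3 * w k' ^ 3 := by rw [h3]
            _ = k' * y * u ^ 2 := by rw [h2]; ring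
            _ = _ := by ring
        exact mul_right_cancel₀ (mul_ne_zero hy0 (pow_ne_zero _ hu0)) h4
      refine ⟨π * F, hπp.mul hF, ?_, hVI.trans ?_⟩
      · rw [nm_mul]
        push_cast
        have h1 : (nm F : ℝ) ≤ Z := by
          refine le_trans ?_ hnm
          have : (nm (q * g * κ * F) : ℝ) = nm (q * g * κ) * nm F := by
            rw [nm_mul]; push_cast; rfl
          rw [this]
          exact le_mul_of_one_le_left hnF.le (one_le_nm ((hq.mul hg).mul hκ).ne_zero)
        calc (nm π : ℝ) * nm F ≤ Z ^ 4 * Z := by gcongr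
          _ = Z ^ 5 := by ring
      · calc ∑ k ∈ Ks, n6 γ ^ 2 * RMm A a e γ π (k * y)
            = ∑ k ∈ Ks, n6 γ ^ 2 * RMm A a e γ (π * F) (u * (w k) ^ 3) :=
              Finset.sum_congr rfl fun k hk => by rw [hRw k hk]
          _ = n6 γ ^ 2 * ∑ r ∈ Ks.image (fun k => u * (w k) ^ 3), RMm A a e γ (π * F) r := by
              rw [← Finset.mul_sum, Finset.sum_image hinj]
          _ ≤ _ := by
              refine mul_le_mul_of_nonneg_left ?_ (by positivity)
              refine Finset.sum_le_sum_of_subset_of_nonneg ?_ fun r _ _ => RMm_nonneg _ _ _ _ _ _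
              intro r hr
              obtain ⟨k, hk, rfl⟩ := Finset.mem_image.1 hr
              obtain ⟨hk1, hk2⟩ := Finset.mem_filter.1 hk
              rw [mem_bl hP1.le] at hk1
              have hk3 := hw k hk
              have hw0 : w k ≠ 0 := by
                intro h0
                rw [h0] at hk3
                have : k * y * u ^ 2 = 0 := by rw [hk3]; ring
                exact mul_ne_zero (mul_ne_zero hk1.1 hy0) (pow_ne_zero _ hu0) this
              refine Finset.mem_filter.2 ⟨?_, ?_⟩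
              · rw [mem_bl hP'0.le]
                refine ⟨mul_ne_zero hu0 (pow_ne_zero _ hw0), ?_⟩
                have e1 : (nm k : ℝ) * nm y * (nm u : ℝ) ^ 2 = (nm F : ℝ) ^ 3 * (nm (w k) : ℝ) ^ 3 := by
                  have h2 := congrArg nm hk3
                  rw [nm_mul, nm_mul, nm_pow, nm_pow, nm_mul, mul_pow] at h2
                  exact_mod_cast h2
                rw [nm_mul, nm_pow]
                push_cast
                have e2 : (nm u : ℝ) * (nm (w k) : ℝ) ^ 3 =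
                    (nm u : ℝ) ^ 3 * (nm k * nm y) / (nm F : ℝ) ^ 3 := by
                  rw [eq_div_iff (by positivity)]
                  calc (nm u : ℝ) * (nm (w k) : ℝ) ^ 3 * (nm F : ℝ) ^ 3 =
                        nm u * ((nm F : ℝ) ^ 3 * (nm (w k) : ℝ) ^ 3) := by ring
                    _ = nm u * ((nm k : ℝ) * nm y * (nm u : ℝ) ^ 2) := by rw [e1]
                    _ = _ := by ring
                rw [e2]
                have hy1 : (0 : ℝ) ≤ nm y := Nat.cast_nonneg _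
                have h5 : (nm k : ℝ) * nm y ≤
                    81 * (P * ((nm F : ℝ) ^ 2 * (nm q : ℝ) ^ 2 * nm g)) := by
                  calc (nm k : ℝ) * nm y ≤ (nm d₁ * P / nm x) * nm y :=
                        mul_le_mul_of_nonneg_right hk1.2 hy1
                    _ = nm y * (nm d₁ * P / nm x) := by ring
                    _ ≤ _ := hny
                calc (nm u : ℝ) ^ 3 * (nm k * nm y) / (nm F : ℝ) ^ 3
                    ≤ (nm u : ℝ) ^ 3 * (81 * (P * ((nm F : ℝ) ^ 2 * (nm q : ℝ) ^ 2 * nm g))) /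
                      (nm F : ℝ) ^ 3 := by gcongr
                  _ = P' := by
                      rw [hP']
                      unfold sU
                      rw [if_pos rfl]
                      field_simp
              · unfold PoHx72.Cls
                rw [if_pos rfl]
                exact ⟨u * w k, by ring⟩
  calc ∑ d₁ ∈ pdiv (κ * F), (nm d₁ : ℝ)⁻¹ *
      ((nm γ : ℝ) * VIc A (bs b d₁) γ φ 1 (nm d₁ * P / nm x) (Cls (PrS (PrD f F u) d₁ γ) j))
      ≤ ∑ d₁ ∈ pdiv (κ * F), W0 P' := Finset.sum_le_sum key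
    _ = ((pdiv (κ * F)).card : ℝ) * W0 P' := by rw [Finset.sum_const, nsmul_eq_mul]
    _ ≤ C * Z ^ ε * W0 P' := by
        refine mul_le_mul_of_nonneg_right ?_ hW00
        have h1 : ((pdiv (κ * F)).card : ℝ) ≤ C * (nm (κ * F) : ℝ) ^ ε :=
          hτ _ hN0
        have h2 : (nm (κ * F) : ℝ) ≤ nm (q * g * κ * F) := by
          have e : q * g * κ * F = (q * g) * (κ * F) := by ring
          rw [e, nm_mul (q * g) (κ * F)]
          push_cast
          exact le_mul_of_one_le_left (Nat.cast_nonneg _) (one_le_nm (hq.mul hg).ne_zero)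
        refine h1.trans ?_
        have : (0 : ℝ) ≤ nm (κ * F) := Nat.cast_nonneg _
        have h3 := h2.trans hnm
        gcongr

end Crest.Agent.R017.RXm770
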