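import Crest.Agent.R017.RXl_848

/-!
# Row 17, T.7 (RG rule, exceptional class): the claims from the premises of the rule (helper848)

* `cutF` : the cutoffs
* `Dt` : the data of the two base lists
* `clN_tp`, `clN_t0`, `clN_J` : the claims on natural lists from the premises
-/

set_option autoImplicit false
set_option maxHeartbeats 800000

noncomputable section

open Complex
open scoped ComplexConjugate

namespace Crest.Agent.R017.RXk848

open Crest.Agent.R012 Crest.Agent.R012.Eis Crest.Agent.R012.LS2 Crest.Agent.R012.Gauss880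
open Crest.Agent.R017.CM106 Crest.Agent.R017.HP842 Crest.Agent.R017.FE47
open Crest.Agent.R017.End699 hiding pw
open Crest.Agent.R017.B770
open Crest.Agent.R017.Prov71
open Crest.Agent.R017.Leg381
open Crest.Agent.R017.RG64
open Crest.Agent.R017.LegK545 (VK SFK)
open Crest.Agent.R017.RGK545 (ClXK ClK ClNK)
open Crest.Agent.R017.XS0298 (S0K)
open Crest.Agent.R017.RuleM545 (xv)
open Crest.Agent.R017.RGB545
open Crest.Agent.R017.XP699 (LL Chd hcost cst)
open Crest.Agent.R017.RX298 (xs rpB Dr rpB_length LF_natl_rpB)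
open Crest.Agent.R017.LBo813 (rho rho_one rho_zero rho_anti)
open Crest.Agent.R017.RXg848 (clN_of Ht_natl LF_natl)

/-! ### the cutoffs -/

/-- the lower cutoff -/
def cN0 (L : ℝ) : ℕ := ⌈Real.exp L⌉₊

/-- the upper cutoff -/
def cN1 (L : ℝ) : ℕ := ⌊Real.exp (L + 4) / 9⌋₊

lemma one_le_cN0 {L : ℝ} (_hL : 0 ≤ L) : 1 ≤ cN0 L :=
  Nat.one_le_ceil_iff.2 (Real.exp_pos L)

lemma cN0_le {L : ℝ} (hL : 0 ≤ L) : cN0 L ≤ cN1 L := by
  unfold cN0 cN1
  refine Nat.le_floor ?_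
  have h1 := Nat.ceil_lt_add_one (Real.exp_pos L).le
  have h2 : 1 ≤ Real.exp L := Real.one_le_exp hL
  have h3 : Real.exp (L + 4) = Real.exp L * Real.exp 4 := Real.exp_add _ _
  have h4 : (18 : ℝ) ≤ Real.exp 4 := by
    have := Real.exp_one_gt_d9
    have h5 : Real.exp 4 = Real.exp 1 ^ 4 := by rw [← Real.exp_nat_mul]; norm_num
    rw [h5]
    have h6 : (2.7 : ℝ) ≤ Real.exp 1 := by linarith
    calc (18 : ℝ) ≤ 2.7 ^ 4 := by norm_num
      _ ≤ _ := pow_le_pow_left₀ (by norm_num) h6 4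
  rw [h3]
  have h7 : Real.exp L * 18 ≤ Real.exp L * Real.exp 4 :=
    mul_le_mul_of_nonneg_left h4 (Real.exp_pos L).le
  linarith

lemma cN0_le2 {L : ℝ} (hL : 0 ≤ L) : 2 * cN0 L ≤ cN1 L := by
  unfold cN0 cN1
  refine Nat.le_floor ?_
  have h1 := Nat.ceil_lt_add_one (Real.exp_pos L).le
  have h2 : 1 ≤ Real.exp L := Real.one_le_exp hL
  have h3 : Real.exp (L + 4) = Real.exp L * Real.exp 4 := Real.exp_add _ _
  have h4 : (36 : ℝ) ≤ Real.exp 4 := by
    have := Real.exp_one_gt_d9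
    have h5 : Real.exp 4 = Real.exp 1 ^ 4 := by rw [← Real.exp_nat_mul]; norm_num
    rw [h5]
    have h6 : (2.7 : ℝ) ≤ Real.exp 1 := by linarith
    calc (36 : ℝ) ≤ 2.7 ^ 4 := by norm_num
      _ ≤ _ := pow_le_pow_left₀ (by norm_num) h6 4
  rw [h3]
  have h7 : Real.exp L * 36 ≤ Real.exp L * Real.exp 4 :=
    mul_le_mul_of_nonneg_left h4 (Real.exp_pos L).le
  push_cast
  linarith

lemma cN1_le (L : ℝ) : 9 * (cN1 L : ℝ) ≤ Real.exp (L + 4) := by
  unfold cN1
  have := Nat.floor_le (a := Real.exp (L + 4) / 9) (by positivity)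
  linarith

lemma cutF : Cut cN0 cN1 (fun L => rho (cN0 L) (cN1 L)) 4 where
  lo L _ := Nat.le_ceil _
  hi L _ := cN1_le L
  le L hL := cN0_le hL
  anti L hL := rho_anti (one_le_cN0 hL) (cN0_le hL)
  one L hL _ hn := rho_one (one_le_cN0 hL) (cN0_le hL) hn
  zero L hL _ hn := rho_zero (one_le_cN0 hL) (cN0_le hL) hn

/-! ### the data -/

/-- the data: base list `rbx d₀ t X ps₀`, level `V` -/
def Dt (P : DPar) (h : ℝ → ℝ) (δ X : ℝ) (ps₀ : List Pq) (J K d₀ n : ℝ) (t : Bool) (V : ℝ) :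
    Dat where
  P := P
  h := h
  z := X ^ δ
  D0 := X ^ δ
  ps₀ := rbx d₀ t X ps₀
  J := J
  κ := K * Real.log X
  v := V
  n := n

lemma rbx_true (d₀ X : ℝ) (ps : List Pq) : rbx d₀ true X ps = rpB (d₀ * Real.log X) ps := by
  unfold rbx
  rw [if_pos rfl]
  rcases ps with _ | ⟨p₁, _ | ⟨p₂, ps⟩⟩ <;> rfl

lemma rbx_false (d₀ X : ℝ) (ps : List Pq) : rbx d₀ false X ps = ps := by
  unfold rbx
  rw [if_neg (by simp)]

lemma Dr_Dt (P : DPar) (h : ℝ → ℝ) (δ X : ℝ) (ps₀ : List Pq) (J K d₀ n V : ℝ) :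
    Dr (d₀ * Real.log X) (Dt P h δ X ps₀ J K d₀ n false V) = Dt P h δ X ps₀ J K d₀ n true V := by
  unfold Dr Dt
  simp only [rbx_true, rbx_false]

lemma Ht_natl_rbx (d₀ X : ℝ) (t : Bool) (ps : List Pq) :
    Ht (natl (rbx d₀ t X ps)) = Ht (natl ps) := by
  cases t with
  | false => rw [rbx_false]
  | true =>
    rw [rbx_true, Ht_natl, Ht_natl]
    rcases ps with _ | ⟨p₁, _ | ⟨p₂, ps⟩⟩ <;> rfl

lemma LL_rbx (d₀ X : ℝ) (t : Bool) (ps : List Pq) : LL Dq (rbx d₀ t X ps) = LL Dq ps := by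
  cases t with
  | false => rw [rbx_false]
  | true => rw [rbx_true, ← LF_natl, ← LF_natl, LF_natl_rpB]

lemma rbx_length (d₀ X : ℝ) (t : Bool) (ps : List Pq) : (rbx d₀ t X ps).length = ps.length := by
  cases t with
  | false => rw [rbx_false]
  | true => rw [rbx_true, rpB_length]

/-- `X ^ (x / log X)` in exponents -/
lemma rpow_eq {X : ℝ} (hX : 1 < X) (x : ℝ) : X ^ x = Real.exp (x * Real.log X) := by
  rw [Real.rpow_def_of_pos (by linarith)]
  congr 1
  ring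

/-! ### the claims -/

section
variable {P : DPar} {h : ℝ → ℝ} {δ X : ℝ} {ps₀ : List Pq} {J K d₀ n : ℝ} {t : Bool} {V : ℝ}

/-- a claim from a premise -/
lemma clN_gen {E : ℝ → ℝ → ℝ} {B₁ s a Q lo σ r bm M : ℝ} (hs : s ≤ r) (hQ : Q ≤ bm) (hM : 0 ≤ M)
    (hMJ : M ≤ J) (hB₁ : 0 ≤ B₁)
    (H : ∀ (l' : ℝ) (ps' : List Pq), 0 ≤ l' → l' ≤ V + (n - LL Dq ps') + a →
      lo ≤ LL Dq ps' → LL Dq ps' ≤ σ → List.Forall₂ (Chd Dq hcost r bm) ps' (rbx d₀ t X ps₀) →
      S0K PX764.Dk P h l' ps' ≤ B₁ * cst hcost ps' (rbx d₀ t X ps₀) ^ M *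
        Real.exp (E l' (LL Dq ps'))) :
    ClNK PX764.Dk (Dt P h δ X ps₀ J K d₀ n t V) E (B₁ * Ht (natl ps₀) ^ J) s a Q lo σ := by
  have h1 := clN_of PX764.Dk (D := Dt P h δ X ps₀ J K d₀ n t V) (E := E) (B₁ := B₁) (s := s)
    (a := a) (Q := Q) (lo := lo) (σ := σ) (r := r) (b := bm) (M := J) hs hQ (hM.trans hMJ) rfl hB₁
    (fun l' ps' b1 b2 b3 b4 b5 => by
      refine (H l' ps' b1 b2 b3 b4 b5).trans ?_
      have h2 : 1 ≤ cst hcost ps' (rbx d₀ t X ps₀) := XP699.one_le_cst XP699.one_le_hcost _ _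
      have h3 : cst hcost ps' (rbx d₀ t X ps₀) ^ M ≤ cst hcost ps' (rbx d₀ t X ps₀) ^ J :=
        Real.rpow_le_rpow_of_exponent_le h2 hMJ
      exact mul_le_mul_of_nonneg_right (mul_le_mul_of_nonneg_left h3 hB₁) (Real.exp_pos _).le)
  have e : Ht (natl (Dt P h δ X ps₀ J K d₀ n t V).ps₀) = Ht (natl ps₀) := Ht_natl_rbx _ _ _ _
  rwa [e] at h1

end

/-- the premises of `RgFinX` at one list -/
def PremX {Lam ι : Type*} {p : ℕ} (S₀ : Lam → ℝ → List Pq → ℝ) (L : ι → Line Lam p) (lam : Lam)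
    (K v c d₀ ε M r bm X k Bd : ℝ) (ps₀ : List Pq) : Prop :=
  ∀ (j : Bool × RI ι) (θ : Th 2 K × Th p K) (l : ℝ) (ps' : List Pq), 0 ≤ l →
    l ≤ TK K * Real.log X → List.Forall₂ (Chd Dq hcost r bm) ps' (rbx d₀ j.1 X ps₀) →
    Gr L K v c j.2 (xv Dq X k (rbx d₀ j.1 X ps₀) l ps') θ ≤ ε →
    (zr L j.2 → ∀ p ∈ ps', Dq.lump p → Dq.len p ≤ l + ε * Real.log X) →
    Phr S₀ L j.2 lam l (br L K j.2 θ * Real.log X) ps' ≤
      Bd * cst hcost ps' (rbx d₀ j.1 X ps₀) ^ M *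
      X ^ FrX L K v c (if j.1 = true then 0 else c / 3) j.2
        (xv Dq X k (rbx d₀ j.1 X ps₀) l ps') θ

lemma LL_nonneg_of_chd {r bm : ℝ} {ps' ps : List Pq}
    (h : List.Forall₂ (Chd Dq hcost r bm) ps' ps) : 0 ≤ LL Dq ps' := by
  unfold LL
  induction h with
  | nil => simp
  | cons h1 _ ih =>
    rw [List.map_cons, List.sum_cons]
    have := h1.len0
    linarith

lemma tp_exp {X : ℝ} (hX : 1 < X) (K l' m A : ℝ) :
    X ^ (4 / 3 * (m / Real.log X) + (l' / Real.log X + K) / 3 - A) =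
      X ^ (-A) * Real.exp (ex0 (K * Real.log X) l' m) := by
  have hl : Real.log X ≠ 0 := (Real.log_pos hX).ne'
  rw [rpow_eq hX, rpow_eq hX, ← Real.exp_add]
  congr 1
  unfold ex0
  field_simp
  ring

lemma t0_exp {X : ℝ} (hX : 1 < X) (K l' m e A : ℝ) :
    X ^ (4 / 3 * (m / Real.log X) + (l' / Real.log X + K) / 3 + e - A) =
      X ^ (-A) * X ^ e * Real.exp (ex0 (K * Real.log X) l' m) := by
  have hl : Real.log X ≠ 0 := (Real.log_pos hX).ne'
  rw [rpow_eq hX, rpow_eq hX, rpow_eq hX, ← Real.exp_add, ← Real.exp_add]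
  congr 1
  unfold ex0
  field_simp
  ring

lemma jj_exp {X : ℝ} (hX : 1 < X) (K v n c l' m A : ℝ) :
    X ^ (4 / 3 * (m / Real.log X) + (l' / Real.log X + K) / 3 +
      max 0 ((n / Real.log X - m / Real.log X) -
        ((n / Real.log X - m / Real.log X) - (l' / Real.log X - v)) / 3 - c) - A) =
      X ^ (-A) * Real.exp (exJ (K * Real.log X) (v * Real.log X) n (c * Real.log X) l' m) := by
  have hl : 0 < Real.log X := Real.log_pos hX
  have e1 : max 0 ((n / Real.log X - m / Real.log X) -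
        ((n / Real.log X - m / Real.log X) - (l' / Real.log X - v)) / 3 - c) * Real.log X =
      max 0 ((n - m) - ((n - m) - (l' - v * Real.log X)) / 3 - c * Real.log X) := by
    rw [max_mul_of_nonneg _ _ hl.le, zero_mul]
    congr 1
    field_simp
  rw [rpow_eq hX, rpow_eq hX, ← Real.exp_add]
  congr 1
  unfold exJ
  rw [sub_mul, add_mul, e1]
  have e2 : (4 / 3 * (m / Real.log X) + (l' / Real.log X + K) / 3) * Real.log X =
      4 / 3 * m + (l' + K * Real.log X) / 3 := by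
    field_simp
  rw [e2]
  ring

lemma exJ_anti {κ v v' n c k m : ℝ} (h : v' ≤ v) : exJ κ v n c k m ≤ exJ κ v' n c k m := by
  unfold exJ
  have : max 0 ((n - m) - ((n - m) - (k - v)) / 3 - c) ≤
      max 0 ((n - m) - ((n - m) - (k - v')) / 3 - c) := max_le_max le_rfl (by linarith)
  linarith

lemma ex0_le_exJ {κ v n c k m : ℝ} : ex0 κ k m ≤ exJ κ v n c k m := by
  unfold ex0 exJ
  have := le_max_left 0 ((n - m) - ((n - m) - (k - v)) / 3 - c)
  linarith

section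
variable {Lam ι : Type*} {p : ℕ} {π : Lam → DPar} {h : ℝ → ℝ} {L : ι → Line Lam p} {lam : Lam}
  {K v c d₀ ε M r bm X k Bd δ J : ℝ} {ps₀ : List Pq}

/-- the level and the range of the parameters -/
lemma lev_TK {l' τ m : ℝ} (hl : 0 < Real.log X) (hK : 0 ≤ K) (hv : v ≤ K) (hτ : τ ≤ 1)
    (hn : LL Dq ps₀ ≤ (K + 1) * Real.log X) (hm : 0 ≤ m)
    (h : l' ≤ (v + τ) * Real.log X + (LL Dq ps₀ - m)) : l' ≤ TK K * Real.log X := by
  unfold TK
  have h1 : (v + τ) * Real.log X ≤ (K + 1) * Real.log X :=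
    mul_le_mul_of_nonneg_right (by linarith) hl.le
  have h2 : 0 ≤ K * Real.log X := by positivity
  nlinarith

/-- (T0) -/
lemma clN_t0 (hpr : PremX (fun lam => S0K PX764.Dk (π lam) h) L lam K v c d₀ ε M r bm X k Bd ps₀)
    (hX : 1 < X) (hK : 0 ≤ K) (hv : v ≤ K) {τ : ℝ} (hτ1 : τ ≤ 1) (hτε : τ ≤ ε)
    (hn : LL Dq ps₀ ≤ (K + 1) * Real.log X) (hBd : 0 ≤ Bd) (hM : 0 ≤ M) (hMJ : M ≤ J)
    {t : Bool} {V s a Q lo σ : ℝ} (hs : s ≤ r) (hQ : Q ≤ bm) (hV : V + a ≤ (v + τ) * Real.log X)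
    (hlo : LL Dq ps₀ - (2 * c + τ) * Real.log X ≤ lo) :
    ClNK PX764.Dk (Dt (π lam) h δ X ps₀ J K d₀ (LL Dq ps₀) t V) (ex0 (K * Real.log X))
      (Bd * X ^ (-(Ar K ![k / Real.log X, LL Dq ps₀ / Real.log X])) *
        X ^ (if t = true then 0 else c / 3) * Ht (natl ps₀) ^ J) s a Q lo σ := by
  have hl : 0 < Real.log X := Real.log_pos hX
  have hX0 : 0 < X := by linarith
  refine clN_gen hs hQ hM hMJ (by positivity) ?_
  intro l' ps' h0 h1 h2 _ h4
  have hm := LL_nonneg_of_chd h4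
  have e1 : LL Dq (rbx d₀ t X ps₀) = LL Dq ps₀ := LL_rbx _ _ _ _
  have key := hpr (t, RI.t0) (⟨⟨0, by simp [TK]; intro i; simp; linarith⟩,
    ⟨0, by simp [TK]; intro i; simp; linarith⟩⟩) l' ps' h0
    (lev_TK hl hK hv hτ1 hn hm (by linarith)) h4 (by
      show max (LL Dq (rbx d₀ t X ps₀) / Real.log X - LL Dq ps' / Real.log X - 2 * c)
        (l' / Real.log X - v - (LL Dq (rbx d₀ t X ps₀) / Real.log X - LL Dq ps' / Real.log X)) ≤ ε
      rw [e1]
      refine max_le ?_ ?_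
      · rw [← sub_div, sub_le_iff_le_add, div_le_iff₀ hl]
        have : (2 * c + τ) * Real.log X ≤ (ε + 2 * c) * Real.log X :=
          mul_le_mul_of_nonneg_right (by linarith) hl.le
        linarith
      · rw [← sub_div]
        have h5 : l' / Real.log X ≤ v + τ + (LL Dq ps₀ - LL Dq ps') / Real.log X := by
          rw [div_le_iff₀ hl, add_mul, div_mul_cancel₀ _ hl.ne']
          linarith
        linarith) (fun hh => hh.elim)
  have key' : S0K PX764.Dk (π lam) h l' ps' ≤ Bd * cst hcost ps' (rbx d₀ t X ps₀) ^ M *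
      X ^ (4 / 3 * (LL Dq ps' / Real.log X) + (l' / Real.log X + K) / 3 +
        (if t = true then 0 else c / 3) -
        Ar K ![k / Real.log X, LL Dq (rbx d₀ t X ps₀) / Real.log X]) := key
  rw [e1, t0_exp hX] at key'
  refine key'.trans (le_of_eq ?_)
  ring

/-- (T') -/
lemma clN_tp (hpr : PremX (fun lam => S0K PX764.Dk (π lam) h) L lam K v c d₀ ε M r bm X k Bd ps₀)
    (hX : 1 < X) (hK : 0 ≤ K) (hv : v ≤ K) {τ : ℝ} (hτ1 : τ ≤ 1) (hτε : τ ≤ ε)
    (hn : LL Dq ps₀ ≤ (K + 1) * Real.log X) (hBd : 0 ≤ Bd) (hM : 0 ≤ M) (hMJ : M ≤ J)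
    {t : Bool} {V s a Q lo σ : ℝ} (hs : s ≤ r) (hQ : Q ≤ bm) (hV : V + a ≤ (v + τ) * Real.log X)
    (hlo : LL Dq ps₀ - (2 * c + τ) * Real.log X ≤ lo)
    (hσ : σ ≤ LL Dq ps₀ - (c - τ) * Real.log X) :
    ClNK PX764.Dk (Dt (π lam) h δ X ps₀ J K d₀ (LL Dq ps₀) t V) (ex0 (K * Real.log X))
      (Bd * X ^ (-(Ar K ![k / Real.log X, LL Dq ps₀ / Real.log X])) * Ht (natl ps₀) ^ J)
      s a Q lo σ := by
  have hl : 0 < Real.log X := Real.log_pos hX
  have hX0 : 0 < X := by linarith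
  refine clN_gen hs hQ hM hMJ (by positivity) ?_
  intro l' ps' h0 h1 h2 h3 h4
  have hm := LL_nonneg_of_chd h4
  have e1 : LL Dq (rbx d₀ t X ps₀) = LL Dq ps₀ := LL_rbx _ _ _ _
  have key := hpr (t, RI.tp) (⟨⟨0, by simp [TK]; intro i; simp; linarith⟩,
    ⟨0, by simp [TK]; intro i; simp; linarith⟩⟩) l' ps' h0
    (lev_TK hl hK hv hτ1 hn hm (by linarith)) h4 (by
      show max (c - (LL Dq (rbx d₀ t X ps₀) / Real.log X - LL Dq ps' / Real.log X))
        (max (LL Dq (rbx d₀ t X ps₀) / Real.log X - LL Dq ps' / Real.log X - 2 * c)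
        (l' / Real.log X - v - (LL Dq (rbx d₀ t X ps₀) / Real.log X - LL Dq ps' / Real.log X))) ≤ ε
      rw [e1]
      refine max_le ?_ (max_le ?_ ?_)
      · rw [← sub_div]
        have h5 : c - ε ≤ (LL Dq ps₀ - LL Dq ps') / Real.log X := by
          rw [le_div_iff₀ hl]
          have : (c - ε) * Real.log X ≤ (c - τ) * Real.log X :=
            mul_le_mul_of_nonneg_right (by linarith) hl.le
          linarith
        linarith
      · rw [← sub_div, sub_le_iff_le_add, div_le_iff₀ hl]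
        have : (2 * c + τ) * Real.log X ≤ (ε + 2 * c) * Real.log X :=
          mul_le_mul_of_nonneg_right (by linarith) hl.le
        linarith
      · rw [← sub_div]
        have h5 : l' / Real.log X ≤ v + τ + (LL Dq ps₀ - LL Dq ps') / Real.log X := by
          rw [div_le_iff₀ hl, add_mul, div_mul_cancel₀ _ hl.ne']
          linarith
        linarith) (fun hh => hh.elim)
  have key' : S0K PX764.Dk (π lam) h l' ps' ≤ Bd * cst hcost ps' (rbx d₀ t X ps₀) ^ M *
      X ^ (4 / 3 * (LL Dq ps' / Real.log X) + (l' / Real.log X + K) / 3 -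
        Ar K ![k / Real.log X, LL Dq (rbx d₀ t X ps₀) / Real.log X]) := key
  rw [e1, tp_exp hX] at key'
  refine key'.trans (le_of_eq ?_)
  ring

/-- (J) -/
lemma clN_J (hpr : PremX (fun lam => S0K PX764.Dk (π lam) h) L lam K v c d₀ ε M r bm X k Bd ps₀)
    (hX : 1 < X) (hK : 0 ≤ K) (hv : v ≤ K) {τ : ℝ} (hτ1 : τ ≤ 1) (hτε : τ ≤ ε) (hτ0 : 0 ≤ τ)
    (hn : LL Dq ps₀ ≤ (K + 1) * Real.log X) (hBd : 0 ≤ Bd) (hM : 0 ≤ M) (hMJ : M ≤ J)
    {t : Bool} {V s a Q lo σ : ℝ} (hs : s ≤ r) (hQ : Q ≤ bm) (hV : V + a ≤ (v + τ) * Real.log X)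
    (hVv : V ≤ v * Real.log X)
    (hσ : σ ≤ LL Dq ps₀ - (c - τ) * Real.log X) :
    ClNK PX764.Dk (Dt (π lam) h δ X ps₀ J K d₀ (LL Dq ps₀) t V)
      (exJ (K * Real.log X) V (LL Dq ps₀) (c * Real.log X))
      (Bd * X ^ (-(Ar K ![k / Real.log X, LL Dq ps₀ / Real.log X])) * Ht (natl ps₀) ^ J)
      s a Q lo σ := by
  have hl : 0 < Real.log X := Real.log_pos hX
  have hX0 : 0 < X := by linarith
  refine clN_gen hs hQ hM hMJ (by positivity) ?_
  intro l' ps' h0 h1 h2 h3 h4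
  have hm := LL_nonneg_of_chd h4
  have e1 : LL Dq (rbx d₀ t X ps₀) = LL Dq ps₀ := LL_rbx _ _ _ _
  have hcst : 0 ≤ cst hcost ps' (rbx d₀ t X ps₀) ^ M :=
    Real.rpow_nonneg (zero_le_one.trans (XP699.one_le_cst XP699.one_le_hcost _ _)) _
  have hlev : l' / Real.log X - v - (LL Dq ps₀ - LL Dq ps') / Real.log X ≤ ε := by
    have h5 : l' / Real.log X ≤ v + τ + (LL Dq ps₀ - LL Dq ps') / Real.log X := by
      rw [div_le_iff₀ hl, add_mul, div_mul_cancel₀ _ hl.ne']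
      linarith
    linarith
  rcases le_total ((2 * c) * Real.log X) (LL Dq ps₀ - LL Dq ps') with h6 | h6
  · have key := hpr (t, RI.jj) (⟨⟨0, by simp [TK]; intro i; simp; linarith⟩,
      ⟨0, by simp [TK]; intro i; simp; linarith⟩⟩) l' ps' h0
      (lev_TK hl hK hv hτ1 hn hm (by linarith)) h4 (by
        show max (2 * c - (LL Dq (rbx d₀ t X ps₀) / Real.log X - LL Dq ps' / Real.log X))
          (l' / Real.log X - v - (LL Dq (rbx d₀ t X ps₀) / Real.log X -
            LL Dq ps' / Real.log X)) ≤ ε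
        rw [e1, ← sub_div]
        refine max_le ?_ hlev
        have h5 : 2 * c ≤ (LL Dq ps₀ - LL Dq ps') / Real.log X := by
          rw [le_div_iff₀ hl]
          linarith
        linarith) (fun hh => hh.elim)
    have key' : S0K PX764.Dk (π lam) h l' ps' ≤ Bd * cst hcost ps' (rbx d₀ t X ps₀) ^ M *
        X ^ (4 / 3 * (LL Dq ps' / Real.log X) + (l' / Real.log X + K) / 3 +
          max 0 ((LL Dq (rbx d₀ t X ps₀) / Real.log X - LL Dq ps' / Real.log X) -
            ((LL Dq (rbx d₀ t X ps₀) / Real.log X - LL Dq ps' / Real.log X) -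
              (l' / Real.log X - v)) / 3 - c) -
          Ar K ![k / Real.log X, LL Dq (rbx d₀ t X ps₀) / Real.log X]) := key
    rw [e1, jj_exp hX] at key'
    refine key'.trans ?_
    have h7 : Real.exp (exJ (K * Real.log X) (v * Real.log X) (LL Dq ps₀) (c * Real.log X) l'
        (LL Dq ps')) ≤ Real.exp (exJ (K * Real.log X) V (LL Dq ps₀) (c * Real.log X) l'
        (LL Dq ps')) := Real.exp_le_exp.2 (exJ_anti hVv)
    calc Bd * cst hcost ps' (rbx d₀ t X ps₀) ^ M *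
          (X ^ (-(Ar K ![k / Real.log X, LL Dq ps₀ / Real.log X])) *
            Real.exp (exJ (K * Real.log X) (v * Real.log X) (LL Dq ps₀) (c * Real.log X) l'
              (LL Dq ps'))) =
        Bd * X ^ (-(Ar K ![k / Real.log X, LL Dq ps₀ / Real.log X])) *
          cst hcost ps' (rbx d₀ t X ps₀) ^ M *
            Real.exp (exJ (K * Real.log X) (v * Real.log X) (LL Dq ps₀) (c * Real.log X) l'
              (LL Dq ps')) := by ring
      _ ≤ _ := mul_le_mul_of_nonneg_left h7 (by positivity)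
  · have key := hpr (t, RI.tp) (⟨⟨0, by simp [TK]; intro i; simp; linarith⟩,
      ⟨0, by simp [TK]; intro i; simp; linarith⟩⟩) l' ps' h0
      (lev_TK hl hK hv hτ1 hn hm (by linarith)) h4 (by
        show max (c - (LL Dq (rbx d₀ t X ps₀) / Real.log X - LL Dq ps' / Real.log X))
          (max (LL Dq (rbx d₀ t X ps₀) / Real.log X - LL Dq ps' / Real.log X - 2 * c)
          (l' / Real.log X - v - (LL Dq (rbx d₀ t X ps₀) / Real.log X -
            LL Dq ps' / Real.log X))) ≤ ε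
        rw [e1, ← sub_div]
        refine max_le ?_ (max_le ?_ hlev)
        · have h5 : c - ε ≤ (LL Dq ps₀ - LL Dq ps') / Real.log X := by
            rw [le_div_iff₀ hl]
            have : (c - ε) * Real.log X ≤ (c - τ) * Real.log X :=
              mul_le_mul_of_nonneg_right (by linarith) hl.le
            linarith
          linarith
        · rw [sub_le_iff_le_add, div_le_iff₀ hl]
          have : (2 * c) * Real.log X ≤ (ε + 2 * c) * Real.log X :=
            mul_le_mul_of_nonneg_right (by linarith) hl.le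
          linarith) (fun hh => hh.elim)
    have key' : S0K PX764.Dk (π lam) h l' ps' ≤ Bd * cst hcost ps' (rbx d₀ t X ps₀) ^ M *
        X ^ (4 / 3 * (LL Dq ps' / Real.log X) + (l' / Real.log X + K) / 3 -
          Ar K ![k / Real.log X, LL Dq (rbx d₀ t X ps₀) / Real.log X]) := key
    rw [e1, tp_exp hX] at key'
    refine key'.trans ?_
    have h7 : Real.exp (ex0 (K * Real.log X) l' (LL Dq ps')) ≤
        Real.exp (exJ (K * Real.log X) V (LL Dq ps₀) (c * Real.log X) l' (LL Dq ps')) :=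
      Real.exp_le_exp.2 ex0_le_exJ
    calc Bd * cst hcost ps' (rbx d₀ t X ps₀) ^ M *
          (X ^ (-(Ar K ![k / Real.log X, LL Dq ps₀ / Real.log X])) *
            Real.exp (ex0 (K * Real.log X) l' (LL Dq ps'))) =
        Bd * X ^ (-(Ar K ![k / Real.log X, LL Dq ps₀ / Real.log X])) *
          cst hcost ps' (rbx d₀ t X ps₀) ^ M *
            Real.exp (ex0 (K * Real.log X) l' (LL Dq ps')) := by ring
      _ ≤ _ := mul_le_mul_of_nonneg_left h7 (by positivity)

end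

end Crest.Agent.R017.RXk848
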