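import Crest.Agent.R017.RXma_770
import Crest.Agent.R017.RXXe_502

/-!
# Row 17, x-side of E4, class E: the R-test of `alX` at the cells, two numbers (helper770)

* **`rx_glueX`** : `RXkx` at the cells of a frame `x` with `x.α = alX ..`
-/

set_option autoImplicit false
set_option linter.unusedVariables false
set_option maxHeartbeats 1600000

noncomputable section

open Complex MeasureTheory
open scoped ComplexConjugate

namespace Crest.Agent.R017.RXm770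

open Crest.Agent.R012 Crest.Agent.R012.Eis Crest.Agent.R012.MC
open Crest.Agent.R012.LS2 (S mem_S bl mem_bl)
open Crest.Agent.R012.GLS106 (dec dec_spec)
open Crest.Agent.R017.CM106 (CS TG FS)
open Crest.Agent.R017.FE47
open Crest.Agent.R017.B770
open Crest.Agent.R017.Prov71
open Crest.Agent.R017.Mode405 (Slp Mul1 mul1_one)
open Crest.Agent.R017.GrB829 (IsC)
open Crest.Agent.R017.PX764 (n6)
open Crest.Agent.R017.R3571
open Crest.Agent.R017.TEM792 (LD nL)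
open Crest.Agent.R017.RXn770 (g3 g3_lip lev_lip LD_mono qg)
open Crest.Agent.R017.E4zz92 (Tu PP PP_prim FF_eq)
open Crest.Agent.R017.E4X92
open Crest.Agent.R017.E4Xb681 (XC cb Nb0 Zc FI cell_FI FF_ne)
open Crest.Agent.R017.ExP960 (BdX u3 u3')
open Crest.Agent.R017.E4Df372 (alX fs_alX)
open Crest.Agent.R017.Red848 (red Sh Exc exists_sh red_ok)
open Crest.Agent.R017.TEX792 (Sv xN alX_eq xN_ne)
open Crest.Agent.R017.PoHx72 (Cls)
open Crest.Agent.R017.RXX502 (RClX rh_alXb cop_alX)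

variable {Λ : Type*} {π : Λ → DPar} {h : ℝ → ℝ}

lemma sqf_alX {P : DPar} (hP : P.OK) {k₀ : Eis} (hs : Sh P k₀) (h : ℝ → ℝ) (t : Eis)
    {a : BdX} (ha : a.ok) {β : Fin 3 → Eis} (hβ : ∀ i, IsPrim (β i)) :
    ∀ n, alX P h t a β n ≠ 0 → Squarefree n := by
  intro n hn
  rw [alX_eq hP hs h t ha hβ] at hn
  have h1 : xN h (red P) a β n ≠ 0 := by
    intro h0
    apply hn
    beta_reduce
    unfold I1146.tw3
    rw [h0]; ring
  rcases xN_ne h1 with h2 | h2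
  · exact (P1e54.alb_ne h2).1
  · exact (P1e54.alb_ne h2).1

/-- **`RXkx` of `alX` at the cells**, the two numbers -/
theorem rx_glueX {c₀ : ℝ} (hpu : PU h c₀) (hP : ∀ lam, (π lam).OK) (hE : ∀ lam, Exc (π lam))
    {d : ℝ} (hd : 0 ≤ d) (hd8 : d ≤ 1 / 8) (HR : RClX π h d) (lam : Λ) {ε : ℝ} (hε : 0 < ε)
    {K : ℝ} (hK : 1 ≤ K) :
    ∃ M aS A₀ : ℕ, 1 ≤ aS ∧ ∀ k₀ : Eis, Sh (π lam) k₀ → ∀ t : Eis, t ∈ SM (π lam).n →
      ∀ cc R₀ : ℝ, 0 < cc → ∀ A : ℕ, A₀ ≤ A → 1 < A →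
      ∃ X₀ : ℝ, 1 < X₀ ∧ ∀ X : ℝ, X₀ ≤ X → ∀ H : ℝ, 1 ≤ H →
      ∀ (a : BdX) (β : Fin 3 → Eis), a.ok → LD X K H (u3 a) β → LD X K H (u3' a) β →
      ∀ s₀ : ℝ, Sv X s₀ a β →
      ∀ u : ℝ, (∃ i, (u3 a i).z ≤ u * Real.log X) → (∃ i, (u3' a i).z ≤ u * Real.log X) →
      ∀ (x : XF) (b : Tu) (Nα Rw : ℝ), x.α = alX (π lam) h t a β →
      IsC x.c₀ → IsPrim x.e₀ → (nm x.e₀ : ℝ) ≤ X ^ K → x.Y ≤ X ^ K → XC x b Nα Rw →
      ∀ (nδ nμ : ℕ) (i : Eis × Eis), i ∈ x.cell b nδ nμ → ∀ (ν ih E : ℝ) (W1 : Bool → ℝ), 0 < ν →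
      ν ≤ X ^ (37 * K) → ν * qg (PP (x.Sf b.q) x.g₁ b.ν (b.us * b.τ)) ≤ X ^ ih →
      0 < E → E ≤ nm (x.g₂ * (b.w * (b.g * i.1))) →
      H ^ M * X ^ (max ih (ih / 3) + g3 d u ih +
          2 / 3 * (nL X (u3 a) β - Real.log E / Real.log X) + ε) ≤ W1 false →
      H ^ M * X ^ (ih / 3 + (5 / 3 * (nL X (u3 a) β - Real.log E / Real.log X) -
          max 0 (s₀ - Real.log E / Real.log X)) + ε) ≤ W1 true →
      RXkx (b.h * b.u) (fun _ => 1) aS A cc (Zc R₀ x.Y ^ 3) (Nb0 x b Nα i.1) ν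
        (x.Rr b i) 1 (cb x b i.1) W1 := by
  classical
  have hK0 : 0 < K := by linarith
  obtain ⟨M, aS, A₀, haS, H1⟩ := rh_alXb hpu hP hE hd hd8 HR lam (show 0 < ε / 4 by positivity)
    (K := 51 * (37 * K) + 1) (by linarith)
  refine ⟨M, aS, A₀, haS, fun k₀ hsh t ht cc R₀ hcc A hA hA1 => ?_⟩
  obtain ⟨X₁, hX₁, H3⟩ := H1 k₀ hsh t ht
  have ht0 : t ≠ 0 := ht.1
  have hk00 : k₀ ≠ 0 := hsh.k0
  have hu0 : t ^ 2 * k₀ ≠ 0 := mul_ne_zero (pow_ne_zero 2 ht0) hk00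
  set η : ℝ := min (ε / 16) 1 with hη
  have hη0 : 0 < η := lt_min (by linarith) one_pos
  have hη1 : η ≤ 1 := min_le_right _ _
  have hηε : η ≤ ε / 16 := min_le_left _ _
  obtain ⟨X₂, hX₂, H4⟩ := rx_glueGx hη0 hK hA1 (cc := cc) (R₀ := R₀) hcc hu0
  obtain ⟨R, hR0, hR⟩ := exists_R (cs_cx hpu.cs)
  have hBump : ∃ R : ℝ, ∀ u, cx h u ≠ 0 → |u| ≤ R := ⟨R, hR⟩
  refine ⟨max (max X₁ X₂) 4, lt_max_of_lt_right (by norm_num), ?_⟩
  intro X hX H hH a β ha hL1 hL2 s₀ hS u hu hu' x b Nα Rw hα hc₀ he₀ he₀K hYK hx nδ nμ i hi ν ih E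
    W1 hν hνK hih hE0 hED hWf hWt
  have hXX1 : X₁ ≤ X := (le_max_left _ _).trans ((le_max_left _ _).trans hX)
  have hXX2 : X₂ ≤ X := (le_max_right _ _).trans ((le_max_left _ _).trans hX)
  have h4X : 4 ≤ X := (le_max_right _ _).trans hX
  have hX1 : 1 < X := by linarith
  have hX0 : 0 < X := by linarith
  set L := Real.log X with hL
  have hL0 : 0 < L := Real.log_pos hX1
  have hβ := hL1.bp
  have hn1 : ∀ {y : Eis}, y ≠ 0 → (1 : ℝ) ≤ nm y := fun hy => by exact_mod_cast nm_pos.2 hy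
  have hFS : FS (alX (π lam) h t a β) := fs_alX (hP lam) hBump hβ
  have hsq := sqf_alX (hP lam) hsh h t ha hβ
  have hcu : ∀ n, alX (π lam) h t a β n ≠ 0 → IsCoprime n (t ^ 2 * k₀) := fun n hn =>
    (cop_alX (hP lam) (hE lam) hsh h ht ha hβ n hn).symm
  -- the sizes
  have hY1 := hx.Y1
  have hfi := cell_FI hx hi
  have hFne := FF_ne hfi
  have hσ : IsPrim (b.us * b.τ) := hx.hs.hus.mul hx.τ
  have hFe : x.FFa b = x.c₀ * PP (x.Sf b.q) x.g₁ b.ν (b.us * b.τ) := by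
    unfold XF.FFa
    rw [FF_eq]
  set Pq' := PP (x.Sf b.q) x.g₁ b.ν (b.us * b.τ) with hPq
  have hP0 : Pq' ≠ 0 := fun h0 => hFne (by rw [hFe, h0, mul_zero])
  have hPp : IsPrim Pq' := PP_prim hx.S hx.g1 hx.ν hσ hP0
  obtain ⟨p1, p2, p3, s1, s2, hcc', hdec⟩ := dec_spec hPp
  set D : Eis := x.g₂ * (b.w * (b.g * i.1)) with hDd
  have hDp : IsPrim D := hx.g2.mul (hx.hs.hw.mul hfi.gδ)
  have hnn := hfi.nn
  unfold XF.nn at hnn
  have nF := hn1 hFne
  have nD := hn1 hDp.ne_zero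
  have nu := hn1 hx.hs.hu.ne_zero
  have nh := hn1 hx.h.ne_zero
  have hpos : (0 : ℝ) < nm (x.FFa b) * (nm D : ℝ) ^ 2 * (nm b.u * nm b.h) := by positivity
  rw [← hDd, div_le_div_iff₀ (by norm_num) hpos] at hnn
  have hV2 : (nm (x.FFa b) : ℝ) * (nm D : ℝ) ^ 2 * (nm b.u * nm b.h) ≤ 2 * X ^ K := by
    have := hx.VY
    linarith
  have hXK0 : (0 : ℝ) < X ^ K := by positivity
  have h2K : 2 * X ^ K ≤ X ^ (2 * K) := by
    calc 2 * X ^ K ≤ X ^ K * X ^ K := by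
          have h1 : X ^ (1 : ℝ) ≤ X ^ K := Real.rpow_le_rpow_of_exponent_le hX1.le hK
          rw [Real.rpow_one] at h1
          have h2 : (2 : ℝ) ≤ X ^ K := by linarith
          gcongr
      _ = X ^ (K + K) := (Real.rpow_add hX0 _ _).symm
      _ = _ := by ring_nf
  have hDK : (nm D : ℝ) ≤ X ^ (2 * K) := by
    refine le_trans ?_ (hV2.trans h2K)
    calc (nm D : ℝ) = 1 * (nm D : ℝ) ^ 1 * (1 * 1) := by ring
      _ ≤ nm (x.FFa b) * (nm D : ℝ) ^ 2 * (nm b.u * nm b.h) := by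
          have h12 : (nm D : ℝ) ^ 1 ≤ (nm D : ℝ) ^ 2 := pow_le_pow_right₀ nD (by norm_num)
          gcongr
  have hPK : (nm Pq' : ℝ) ≤ X ^ (2 * K) := by
    have h1 : (nm Pq' : ℝ) ≤ nm (x.FFa b) := by
      rw [hFe, nm_mul]
      push_cast
      exact le_mul_of_one_le_left (Nat.cast_nonneg _) (hn1 hx.c0)
    refine h1.trans (le_trans ?_ (hV2.trans h2K))
    calc (nm (x.FFa b) : ℝ) = nm (x.FFa b) * 1 * (1 * 1) := by ring
      _ ≤ _ := by
          have h12 : (1 : ℝ) ≤ (nm D : ℝ) ^ 2 := one_le_pow₀ nD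
          gcongr
  have hPe : (nm Pq' : ℝ) = nm (dec Pq').1 * (nm (dec Pq').2.1 : ℝ) ^ 2 *
      (nm (dec Pq').2.2 : ℝ) ^ 3 := by
    conv_lhs => rw [hdec]
    rw [nm_mul, nm_mul, nm_pow, nm_pow]
    push_cast
    ring
  have nq := hn1 p1.ne_zero
  have ng := hn1 p2.ne_zero
  have nr := hn1 p3.ne_zero
  have hqg : qg Pq' ≤ X ^ (4 * K) := by
    have e1 : qg Pq' = (nm (dec Pq').1 : ℝ) ^ 2 * nm (dec Pq').2.1 := rfl
    have h3 : (1 : ℝ) ≤ (nm (dec Pq').2.2 : ℝ) ^ 3 := one_le_pow₀ nr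
    have h4 : (nm (dec Pq').1 : ℝ) * (nm (dec Pq').2.1 : ℝ) ^ 2 ≤ nm Pq' := by
      rw [hPe]
      exact le_mul_of_one_le_right (by positivity) h3
    have h5 : (nm (dec Pq').2.1 : ℝ) ≤ ((nm (dec Pq').2.1 : ℝ) ^ 2) ^ 2 := by
      rw [← pow_mul]
      exact le_self_pow₀ ng (by norm_num)
    calc qg Pq' = (nm (dec Pq').1 : ℝ) ^ 2 * nm (dec Pq').2.1 := e1
      _ ≤ (nm (dec Pq').1 : ℝ) ^ 2 * ((nm (dec Pq').2.1 : ℝ) ^ 2) ^ 2 := by gcongr
      _ = ((nm (dec Pq').1 : ℝ) * (nm (dec Pq').2.1 : ℝ) ^ 2) ^ 2 := by ring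
      _ ≤ (X ^ (2 * K)) ^ 2 := by
          refine pow_le_pow_left₀ (by positivity) (h4.trans hPK) 2
      _ = X ^ (4 * K) := by
          rw [← Real.rpow_natCast, ← Real.rpow_mul hX0.le]
          congr 1; push_cast; ring
  have hqg0 : 0 < qg Pq' := by
    have e1 : qg Pq' = (nm (dec Pq').1 : ℝ) ^ 2 * nm (dec Pq').2.1 := rfl
    rw [e1]
    have : (0 : ℝ) < nm (dec Pq').1 := by linarith
    have : (0 : ℝ) < nm (dec Pq').2.1 := by linarith
    positivity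
  set m0 : ℝ := ν * qg Pq' with hm0
  have hm00 : 0 < m0 := by positivity
  set i0 : ℝ := Real.log m0 / L with hi0
  have hXi0 : X ^ i0 = m0 := by
    rw [hi0, Real.rpow_def_of_pos hX0, ← hL, mul_div_cancel₀ _ hL0.ne', Real.exp_log hm00]
  have hi0h : i0 ≤ ih := by
    rw [hi0, div_le_iff₀ hL0]
    have h2 := Real.log_le_log hm00 hih
    rwa [Real.log_rpow hX0] at h2
  have hi0K : i0 ≤ 41 * K := by
    rw [hi0, div_le_iff₀ hL0]
    have h1 : m0 ≤ X ^ (41 * K) := by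
      calc m0 ≤ X ^ (37 * K) * X ^ (4 * K) := by rw [hm0]; gcongr
        _ = X ^ (37 * K + 4 * K) := (Real.rpow_add hX0 _ _).symm
        _ = _ := by ring_nf
    have h2 := Real.log_le_log hm00 h1
    rwa [Real.log_rpow hX0] at h2
  set P1 : ℝ := X ^ (i0 + η) with hP1
  have hP10 : 0 < P1 := by positivity
  have hP1K : P1 ≤ X ^ (51 * (37 * K) + 1) :=
    Real.rpow_le_rpow_of_exponent_le hX1.le (by linarith)
  have hP1l : Real.log P1 / L = i0 + η := by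
    rw [hP1, Real.log_rpow hX0, mul_div_assoc, div_self hL0.ne', mul_one]
  have hD2K : (nm D : ℝ) ≤ X ^ (51 * (37 * K) + 1) :=
    hDK.trans (Real.rpow_le_rpow_of_exponent_le hX1.le (by linarith))
  have heK : (nm x.e₀ : ℝ) ≤ X ^ (51 * (37 * K) + 1) :=
    he₀K.trans (Real.rpow_le_rpow_of_exponent_le hX1.le (by linarith))
  obtain ⟨W0, hW0, hRH, hW0f, hW0t⟩ := H3 X hXX1 H hH a β ha (LD_mono hX1 (by linarith) hL1)
    (LD_mono hX1 (by linarith) hL2) s₀ hS u hu hu' A (by exact_mod_cast hA) D x.e₀ hDp he₀ hD2K heK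
    P1 hP10 hP1K
  rw [hP1l] at hW0f hW0t
  refine H4 X hXX2 x b Nα Rw (by rw [hα]; exact hFS) (by rw [hα]; exact hsq)
    (by rw [hα]; exact hcu) hc₀ he₀ hYK hx (fun _ => 1) mul1_one nδ nμ i hi ν i0 W1 hν
    (le_of_eq hXi0.symm) aS W0 hW0 ?_ ?_
  · intro jj γ φ hγ hφ hφK P hPP
    have e1 : (fun m => x.α (D * m) * conj ((fun _ : Eis => (1 : ℂ)) m)) =
        fun m => alX (π lam) h t a β (D * m) := by
      funext m
      rw [hα]
      simp
    rw [e1]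
    exact hRH jj γ φ hγ hφ (hφK.trans (Real.rpow_le_rpow_of_exponent_le hX1.le (by linarith))) P
      hPP
  · have hlE : Real.log E / L ≤ Real.log (nm D) / L :=
      div_le_div_of_nonneg_right (Real.log_le_log hE0 hED) hL0.le
    intro jj
    cases jj with
    | false =>
      refine le_trans ?_ hWf
      have h1 := lev_lip (d := d) (u := u) hd hd8 hη0.le (show i0 + η ≤ ih + η by linarith)
      calc X ^ η * W0 false P1 ≤ X ^ η * (H ^ M * X ^ (max (i0 + η) ((i0 + η) / 3) +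
            g3 d u (i0 + η) + 2 / 3 * (nL X (u3 a) β - Real.log (nm D) / L) + ε / 4)) := by
            gcongr
        _ = H ^ M * X ^ (η + (max (i0 + η) ((i0 + η) / 3) +
            g3 d u (i0 + η) + 2 / 3 * (nL X (u3 a) β - Real.log (nm D) / L) + ε / 4)) := by
            rw [Real.rpow_add hX0 η]; ring
        _ ≤ _ := by
            refine mul_le_mul_of_nonneg_left ?_ (by positivity)
            refine Real.rpow_le_rpow_of_exponent_le hX1.le ?_
            linarith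
    | true =>
      refine le_trans ?_ hWt
      have h2 : max 0 (s₀ - Real.log E / L) ≤ max (Real.log (nm x.e₀) / L)
          (s₀ - Real.log (nm D) / L) + (Real.log (nm D) / L - Real.log E / L) := by
        have h3 : 0 ≤ Real.log (nm x.e₀) / L :=
          div_nonneg (Real.log_nonneg (hn1 he₀.ne_zero)) hL0.le
        refine max_le ?_ ?_
        · have := le_max_left (Real.log (nm x.e₀) / L) (s₀ - Real.log (nm D) / L)
          linarith
        · have := le_max_right (Real.log (nm x.e₀) / L) (s₀ - Real.log (nm D) / L)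
          linarith
      calc X ^ η * W0 true P1 ≤ X ^ η * (H ^ M * X ^ ((i0 + η) / 3 +
            (5 / 3 * (nL X (u3 a) β - Real.log (nm D) / L) -
              max (Real.log (nm x.e₀) / L) (s₀ - Real.log (nm D) / L)) + ε / 4)) := by gcongr
        _ = H ^ M * X ^ (η + ((i0 + η) / 3 +
            (5 / 3 * (nL X (u3 a) β - Real.log (nm D) / L) -
              max (Real.log (nm x.e₀) / L) (s₀ - Real.log (nm D) / L)) + ε / 4)) := by
            rw [Real.rpow_add hX0 η]; ring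
        _ ≤ _ := by
            refine mul_le_mul_of_nonneg_left ?_ (by positivity)
            refine Real.rpow_le_rpow_of_exponent_le hX1.le ?_
            linarith

end Crest.Agent.R017.RXm770
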