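import Crest.Agent.R017.RM3c_986

/-!
# Row 17, x-side of E4: the R-number of three lumps (helper770)

* `g3` : the excess of the children with smallest lump `≤ u` at the family `i`
* `r3_le` : 986's closed form of three lumps
* `rf_child` : the complete R-moment of three lumps, one number
-/

set_option autoImplicit false
set_option linter.unusedVariables false

noncomputable section

namespace Crest.Agent.R017.RXn770

open Crest.Agent.R012 Crest.Agent.R012.Eis
open Crest.Agent.R017.FE47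
open Crest.Agent.R017.B770
open Crest.Agent.R017.Prov71
open Crest.Agent.R017.XRG106 (RFp)
open Crest.Agent.R017.RM986

/-- the excess of the children with smallest lump `≤ u` at the family `i` -/
def g3 (d u i : ℝ) : ℝ := (3 / 4 + 2 * d) * max 0 (min u (i / 2))

lemma g3_nonneg {d : ℝ} (hd : 0 ≤ d) (u i : ℝ) : 0 ≤ g3 d u i :=
  mul_nonneg (by linarith) (le_max_left _ _)

/-- change of the data -/
lemma g3_lip {d u u' i i' : ℝ} (hd : 0 ≤ d) (hd8 : d ≤ 1 / 8) {a b : ℝ} (ha : 0 ≤ a) (hb : 0 ≤ b)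
    (hu : u' ≤ u + a) (hi : i' ≤ i + b) : g3 d u' i' ≤ g3 d u i + (a + b) := by
  unfold g3
  have h1 : max 0 (min u' (i' / 2)) ≤ max 0 (min u (i / 2)) + (a + b) := by
    refine max_le (add_nonneg (le_max_left _ _) (by linarith)) ?_
    have h2 : min u' (i' / 2) ≤ min u (i / 2) + (a + b) := by
      rw [← min_add_add_right]
      exact min_le_min (by linarith) (by linarith)
    exact h2.trans (by linarith [le_max_right 0 (min u (i / 2))])
  calc (3 / 4 + 2 * d) * max 0 (min u' (i' / 2)) ≤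
        (3 / 4 + 2 * d) * (max 0 (min u (i / 2)) + (a + b)) :=
        mul_le_mul_of_nonneg_left h1 (by linarith)
    _ = (3 / 4 + 2 * d) * max 0 (min u (i / 2)) + (3 / 4 + 2 * d) * (a + b) := by ring
    _ ≤ (3 / 4 + 2 * d) * max 0 (min u (i / 2)) + 1 * (a + b) := by
        have : 3 / 4 + 2 * d ≤ 1 := by linarith
        gcongr
    _ = _ := by ring

lemma fL_le_half {y κ : ℝ} (hκ : 0 ≤ κ) : fL y κ ≤ max 0 (min y (κ / 2)) := by
  have h := fL_half (y := y) hκ
  unfold fL at h ⊢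
  refine max_le (le_max_left _ _) ?_
  rcases le_total 0 (min y (κ - y)) with h0 | h0
  · rw [max_eq_right h0] at h
    exact (le_min (min_le_left _ _) (by linarith)).trans (le_max_right _ _)
  · exact h0.trans (le_max_left _ _)

lemma eX_zero (κ σ : ℝ) : eX κ σ 0 0 ≤ 0 := by
  unfold eX
  exact (min_le_left _ _).trans (by norm_num)

/-- **the closed form of three lumps** -/
lemma r3_le {d κ z₁ z₂ z₃ u : ℝ} (hd : 0 ≤ d) (hκ : 0 ≤ κ) (h1 : 0 ≤ z₁) (h2 : 0 ≤ z₂)
    (h3 : 0 ≤ z₃) (hu : z₁ ≤ u ∨ z₂ ≤ u ∨ z₃ ≤ u) :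
    max (r3 d κ z₁ z₂ z₃ 0 0) (κ / 3 + 2 * 0 + 2 * (7 / 8 + d) * 0) ≤
      κ + (z₁ + z₂ + z₃) + g3 d u κ := by
  have key : ∀ y₁ y₂ y₃ : ℝ, y₃ ≤ u → rA d κ y₁ y₂ y₃ 0 0 ≤ κ + (y₁ + y₂ + y₃) + g3 d u κ := by
    intro y₁ y₂ y₃ hy
    unfold rA g3
    have e1 := eX_zero κ (fL y₁ κ + fL y₂ κ)
    have e2 : fL y₃ κ ≤ max 0 (min u (κ / 2)) := (fL_le_half hκ).trans
      (max_le_max le_rfl (min_le_min hy le_rfl))
    have e3 : (3 / 4 + 2 * d) * fL y₃ κ ≤ (3 / 4 + 2 * d) * max 0 (min u (κ / 2)) :=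
      mul_le_mul_of_nonneg_left e2 (by linarith)
    have a1 := min_le_left y₁ κ
    have a2 := min_le_left y₂ κ
    have a3 := min_le_left y₃ κ
    linarith
  refine max_le ?_ ?_
  · unfold r3
    rcases hu with h | h | h
    · refine ((min_le_right _ _).trans ((min_le_right _ _).trans (min_le_right _ _))).trans ?_
      exact (key z₂ z₃ z₁ h).trans (by linarith)
    · refine ((min_le_right _ _).trans ((min_le_right _ _).trans (min_le_left _ _))).trans ?_
      exact (key z₁ z₃ z₂ h).trans (by linarith)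
    · refine ((min_le_right _ _).trans (min_le_left _ _)).trans ?_
      exact key z₁ z₂ z₃ h
  · have := g3_nonneg hd u κ
    linarith

variable {Λ : Type*} {π : Λ → DPar} {h : ℝ → ℝ}

/-- the R-claim, `d = θ - 7/8` (986's `rm_RF`) -/
def RCl (π : Λ → DPar) (h : ℝ → ℝ) (d : ℝ) : Prop :=
  ∀ K : ℝ, Plain (fun _ k => k ≠ 0) π h K (fun κ y₁ y₂ y₃ m a =>
    max (r3 d κ y₁ y₂ y₃ m a) (κ / 3 + 2 * a + 2 * (7 / 8 + d) * m))

/-- **the complete R-moment of three lumps**, one number -/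
theorem rf_child {d : ℝ} (hd : 0 ≤ d) (HR : RCl π h d) (lam : Λ) {K : ℝ} (hK : 0 ≤ K) (B : ℝ)
    {ε : ℝ} (hε : 0 < ε) : ∃ (M : ℕ) (X₀ : ℝ), 1 < X₀ ∧ ∀ X : ℝ, X₀ ≤ X → ∀ l : ℝ, 0 ≤ l →
      l ≤ K * Real.log X → ∀ s : Fin 3 → Pq, (∀ i, Dq.lump (s i)) → (∀ i, 0 ≤ (s i).z) →
      (∀ i, (s i).z ≤ K * Real.log X) → (∀ i, (nm (s i).d : ℝ) ≤ X ^ B) →
      ∀ H : ℝ, 1 ≤ H → (∀ i, 1 + |(s i).t| ≤ H) → ∀ u : ℝ, (∃ i, (s i).z ≤ u * Real.log X) →
      RFp (π lam) h l (List.ofFn s) ≤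
        H ^ M * X ^ (l / Real.log X + (∑ i, (s i).z) / Real.log X + g3 d u (l / Real.log X) +
          ε) := by
  obtain ⟨σ, hσ, H1⟩ := HR K ε hε
  obtain ⟨M, X₀, hX₀, H2⟩ := H1 lam 0 B
  refine ⟨M, X₀, hX₀, ?_⟩
  intro X hX l hl hlK s hlump hz hzK hdB H hH ht u hu
  have hX1 : 1 < X := lt_of_lt_of_le hX₀ hX
  have hL : 0 < Real.log X := Real.log_pos hX1
  have hKσ : K * Real.log X ≤ (K + σ) * Real.log X := by
    have : 0 ≤ σ * Real.log X := by positivity
    linarith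
  have e1 : List.ofFn s = [s 0, s 1, s 2] := by
    simp [List.ofFn_succ]
  have h1 := H2 X hX l (s 0) (s 1) (s 2) [] (by
      intro p hp
      simp only [List.mem_cons, List.not_mem_nil, or_false] at hp
      rcases hp with rfl | rfl | rfl
      · exact ⟨hlump 0, hz 0, (hzK 0).trans hKσ, hdB 0⟩
      · exact ⟨hlump 1, hz 1, (hzK 1).trans hKσ, hdB 1⟩
      · exact ⟨hlump 2, hz 2, (hzK 2).trans hKσ, hdB 2⟩)
    (by
      have : 0 ≤ σ * Real.log X := by positivity
      linarith) (hlK.trans hKσ) (by simp) (by simp) (by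
      intro t
      have : Dq.mass X [] t = 0 := by simp [XG702.Pcs.mass]
      rw [this]
      linarith) H hH (by
      intro p hp
      simp only [List.mem_cons, List.not_mem_nil, or_false] at hp
      rcases hp with rfl | rfl | rfl
      · exact ht 0
      · exact ht 1
      · exact ht 2)
  have e2 : ∀ t, Dq.mass X [] t = 0 := by
    intro t
    simp [XG702.Pcs.mass]
  rw [e2, e2] at h1
  rw [e1]
  refine le_trans h1 ?_
  refine mul_le_mul_of_nonneg_left ?_ (by positivity)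
  refine Real.rpow_le_rpow_of_exponent_le hX1.le ?_
  have hq : ∀ i, 0 ≤ (s i).z / Real.log X := fun i => div_nonneg (hz i) hL.le
  have h3 := r3_le (d := d) (κ := l / Real.log X) (z₁ := (s 0).z / Real.log X)
    (z₂ := (s 1).z / Real.log X) (z₃ := (s 2).z / Real.log X) (u := u) hd
    (div_nonneg hl hL.le) (hq 0) (hq 1) (hq 2) (by
      obtain ⟨i, hi⟩ := hu
      have h4 : (s i).z / Real.log X ≤ u := (div_le_iff₀ hL).2 hi
      fin_cases i
      · exact Or.inl h4
      · exact Or.inr (Or.inl h4)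
      · exact Or.inr (Or.inr h4))
  have e3 : (∑ i, (s i).z) / Real.log X =
      (s 0).z / Real.log X + (s 1).z / Real.log X + (s 2).z / Real.log X := by
    rw [Fin.sum_univ_three]
    ring
  rw [e3]
  linarith

end Crest.Agent.R017.RXn770
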