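import Crest.Agent.R017.RXl_440
import Crest.Agent.R017.PrE_176
import Crest.Agent.R017.XHB1_411
import Crest.Agent.R017.P1Rj_440


/-!
# Row 17, class E, the R-side of `P1` (helper440): the numbers of a block

* `NumX` : the numbers; **`blkX_of`** : `BlkX` from the numbers
* **`prin_num`**, **`polar_num`** : the principal and the polar number
-/

set_option autoImplicit false
set_option maxHeartbeats 2000000

noncomputable section

namespace Crest.Agent.R017.RXo440

open Crest.Agent.R017.P1F904 (Dp)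
open Crest.Agent.R017.P1H440 (Tg)
open Crest.Agent.R017.P1Hk176 (Thk)

open Crest.Agent.R017.TM708 (eF)
open Crest.Agent.R017.RXl440

/-- the bias number (= helper764's `bcx`) -/
def bcO (s0 γ b v : ℝ) : ℝ := 2 / 3 * (v + b) - 5 / 3 * (γ + b) - max 0 (s0 - (γ + b))

/-- the number of the lists -/
def ShO (k5 x p g b v : ℝ) : ℝ := min (eF (k5 + b / 2) (v + b) (p - g - b))
  (max (v + b + 4 / 3 * (p - g - b)) (5 / 3 * (p - g - b) + (v + b) / 3) + x)

/-- the numbers of a block, class E (unit `L = κ log X`) -/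
structure NumX (L τ y₃ y₄ u x d Z l z A3 p y bq s₀ hh D A e v : ℝ) : Prop where
  L0 : 0 < L
  τ0 : 0 ≤ τ
  τ1 : τ ≤ 1 / 10 ^ 7
  dp : Dp y₃ y₄ u x d
  Z0 : 17 / 100 ≤ Z
  Z1 : Z ≤ 1883 / 10000
  hl : |l - L| ≤ τ * L
  hz : |z - x * L| ≤ τ * L
  hA : |A3 - (y₃ + y₄ + u) * L| ≤ 3 * (τ * L)
  p0 : (1 / 2 - 2 * x) * L - 4 * (τ * L) ≤ p
  p1 : p ≤ (y₃ + y₄ + u + x) * L + 4 * (τ * L)
  s0 : (17 / 100 - (y₃ + y₄ + u + x)) * L + p ≤ s₀ + 10 * (τ * L)
  bq0 : 0 ≤ bq
  lo : (y₃ + y₄ + u + x) * L - p ≤ bq + 2 * (x * L) + 10 * (τ * L)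
  h0 : 0 ≤ hh
  h1 : hh ≤ 1 / 8 * L + max 0 (2 * p - L - (v + 2 * D)) + 10 * (τ * L)
  A0 : 0 ≤ A
  e0 : 0 ≤ e
  e1 : e ≤ 1 / 64 * l
  v0 : 0 ≤ v
  vD : v + 2 * D ≤ 2 * Real.log 2 + y
  y1 : y ≤ (min (2 * (y₃ + y₄ + u) - 1) (3 / 4 * (y₃ + y₄ + u)) + 11 / 5 * x) * L + 30 * (τ * L)
  y2 : y + 2 * bq ≤ (min (2 * (y₃ + y₄ + u) - 1) (3 / 4 * (y₃ + y₄ + u)) + 11 / 5 * x +
    d / 2) * L + 30 * (τ * L)
  big : 2 * Real.log 2 ≤ τ * L

/-- **the block** -/
theorem blkX_of {L τ y₃ y₄ u x d Z l z A3 p y bq s₀ hh D A e v T Sh : ℝ}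
    (h : NumX L τ y₃ y₄ u x d Z l z A3 p y bq s₀ hh D A e v)
    (hS : Sh ≤ max (ShO (max l (5 / 4 * A3)) z p D e v) (5 / 3 * p + bcO s₀ D e v))
    (hT : T * L ≤ 2 / 3 * L - 1 / 3 * p - v / 3 + 4 / 3 * D + Sh + 20 * (τ * L)) :
    BlkX y₃ y₄ u x d Z (hh / L) (bq / L) (s₀ / L) (p / L) (D / L) (A / L) (e / L) (v / L) T := by
  have hL := h.L0
  obtain ⟨t, ht, hLt⟩ : ∃ t : ℝ, 0 < t ∧ L * t = 1 := ⟨L⁻¹, by positivity, mul_inv_cancel₀ hL.ne'⟩
  have hdiv : ∀ a : ℝ, a / L = a * t := fun a => by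
    rw [div_eq_iff hL.ne', mul_assoc, mul_comm t L, hLt, mul_one]
  have hb : ∀ a : ℝ, a / L * L = a := fun a => div_mul_cancel₀ _ hL.ne'
  obtain ⟨l1, l2⟩ := abs_le.1 h.hl
  obtain ⟨z1, z2⟩ := abs_le.1 h.hz
  obtain ⟨A1, A2⟩ := abs_le.1 h.hA
  have hτL : 0 ≤ τ * L := mul_nonneg h.τ0 hL.le
  have hτL1 : τ * L ≤ 1 / 10 ^ 7 * L := mul_le_mul_of_nonneg_right h.τ1 hL.le
  have le_of : ∀ a b : ℝ, a * L ≤ b * L → a ≤ b := fun a b h => le_of_mul_le_mul_right h hL
  have nn_of : ∀ a : ℝ, 0 ≤ a → 0 ≤ a / L := fun a h => div_nonneg h hL.le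
  have hvD := h.vD
  have hbig := h.big
  have hlog2 : 0 < Real.log 2 := Real.log_pos (by norm_num)
  refine ⟨h.dp, h.Z0, h.Z1, ?_, nn_of _ h.bq0, ?_, nn_of _ h.h0, ?_, ?_, ?_, nn_of _ h.A0,
    nn_of _ h.e0, ?_, nn_of _ h.v0, ?_, ?_, ?_⟩
  · refine le_of _ _ ?_
    have e1 : (17 / 100 - (y₃ + y₄ + u + x - p / L)) * L =
        (17 / 100 - (y₃ + y₄ + u + x)) * L + p := by
      linear_combination hb p
    have e2 : (s₀ / L + 1 / 40000) * L = s₀ + 1 / 40000 * L := by linear_combination hb s₀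
    rw [e1, e2]
    linarith [h.s0]
  · refine le_of _ _ ?_
    have e1 : (y₃ + y₄ + u + x - p / L) * L = (y₃ + y₄ + u + x) * L - p := by
      linear_combination -hb p
    have e2 : (bq / L + 2 * x + 1 / 40000) * L = bq + 2 * (x * L) + 1 / 40000 * L := by
      linear_combination hb bq
    rw [e1, e2]
    linarith [h.lo]
  · refine le_of _ _ ?_
    have e1 : (1 / 8 + max 0 (2 * (p / L) - 1 - (v / L + 2 * (D / L))) + 1 / 40000) * L =
        1 / 8 * L + max 0 (2 * p - L - (v + 2 * D)) + 1 / 40000 * L := by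
      have e3 : max 0 (2 * (p / L) - 1 - (v / L + 2 * (D / L))) * L =
          max 0 (2 * p - L - (v + 2 * D)) := by
        rw [max_mul_of_nonneg _ _ hL.le, zero_mul]
        congr 1
        linear_combination 2 * hb p - hb v - 2 * hb D
      linear_combination e3
    rw [e1, hb]
    linarith [h.h1]
  · refine le_of _ _ ?_
    have e2 : (p / L + 1 / 40000) * L = p + 1 / 40000 * L := by linear_combination hb p
    rw [e2]
    linarith [h.p0]
  · refine le_of _ _ ?_
    rw [hb]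
    linarith [h.p1]
  · refine le_of _ _ ?_
    rw [hb]
    linarith [h.e1]
  · refine le_of _ _ ?_
    have e1 : (v / L + 2 * (D / L)) * L = v + 2 * D := by linear_combination hb v + 2 * hb D
    rw [e1]
    linarith [h.y1]
  · refine le_of _ _ ?_
    have e1 : (v / L + 2 * (D / L) + 2 * (bq / L)) * L = v + 2 * D + 2 * bq := by
      linear_combination hb v + 2 * hb D + 2 * hb bq
    rw [e1]
    linarith [h.y2]
  · rcases le_max_iff.1 hS with h1 | h1
    · left
      refine le_of _ _ ?_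
      have e0 : (Thk (y₃ + y₄ + u) x (p / L) (D / L) (e / L) (v / L) + 1 / 20000) * L =
          D + 2 / 3 * L - v / 3 - (p - D) / 3 +
          min (max (2 * (p - D - e)) (4 / 3 * (p - D - e) +
            (max (max L (5 / 4 * (y₃ + y₄ + u) * L) + e / 2) (3 / 2 * (v + e)) + (v + e)) / 3))
          (max (v + e + 4 / 3 * (p - D - e)) (5 / 3 * (p - D - e) + (v + e) / 3) + x * L) +
          1 / 20000 * L := by
        unfold P1Hk176.Thk
        have m1 : max 1 (5 / 4 * (y₃ + y₄ + u)) * L = max L (5 / 4 * (y₃ + y₄ + u) * L) := by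
          rw [max_mul_of_nonneg _ _ hL.le, one_mul]
        have m2 : max (max 1 (5 / 4 * (y₃ + y₄ + u)) + e / L / 2) (3 / 2 * (v / L + e / L)) * L =
            max (max L (5 / 4 * (y₃ + y₄ + u) * L) + e / 2) (3 / 2 * (v + e)) := by
          rw [max_mul_of_nonneg _ _ hL.le, ← m1]
          congr 1
          · linear_combination hb e / 2
          · linear_combination 3 / 2 * (hb v + hb e)
        have m3 : max (2 * (p / L - D / L - e / L)) (4 / 3 * (p / L - D / L - e / L) +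
            (max (max 1 (5 / 4 * (y₃ + y₄ + u)) + e / L / 2) (3 / 2 * (v / L + e / L)) +
              (v / L + e / L)) / 3) * L = max (2 * (p - D - e)) (4 / 3 * (p - D - e) +
            (max (max L (5 / 4 * (y₃ + y₄ + u) * L) + e / 2) (3 / 2 * (v + e)) + (v + e)) / 3) := by
          rw [max_mul_of_nonneg _ _ hL.le, ← m2]
          congr 1
          · linear_combination 2 * (hb p - hb D - hb e)
          · linear_combination 4 / 3 * (hb p - hb D - hb e) + (hb v + hb e) / 3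
        have m4 : (max (v / L + e / L + 4 / 3 * (p / L - D / L - e / L))
            (5 / 3 * (p / L - D / L - e / L) + (v / L + e / L) / 3) + x) * L =
            max (v + e + 4 / 3 * (p - D - e)) (5 / 3 * (p - D - e) + (v + e) / 3) + x * L := by
          rw [add_mul, max_mul_of_nonneg _ _ hL.le]
          congr 2
          · linear_combination 4 / 3 * (hb p - hb D - hb e) + (hb v + hb e)
          · linear_combination 5 / 3 * (hb p - hb D - hb e) + (hb v + hb e) / 3
        rw [← m3, ← m4, ← min_mul_of_nonneg _ _ hL.le]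
        linear_combination hb D - hb v / 3 - (hb p - hb D) / 3
      rw [e0]
      have hsh : ShO (max l (5 / 4 * A3)) z p D e v ≤
          min (max (2 * (p - D - e)) (4 / 3 * (p - D - e) +
            (max (max L (5 / 4 * (y₃ + y₄ + u) * L) + e / 2) (3 / 2 * (v + e)) + (v + e)) / 3))
          (max (v + e + 4 / 3 * (p - D - e)) (5 / 3 * (p - D - e) + (v + e) / 3) + x * L) +
          5 * (τ * L) := by
        unfold ShO
        have q1 : max l (5 / 4 * A3) ≤ max L (5 / 4 * (y₃ + y₄ + u) * L) + 5 * (τ * L) := by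
          refine max_le ?_ ?_
          · have := le_max_left L (5 / 4 * (y₃ + y₄ + u) * L)
            linarith
          · have := le_max_right L (5 / 4 * (y₃ + y₄ + u) * L)
            linarith
        have q2 : eF (max l (5 / 4 * A3) + e / 2) (v + e) (p - D - e) ≤
            max (2 * (p - D - e)) (4 / 3 * (p - D - e) +
            (max (max L (5 / 4 * (y₃ + y₄ + u) * L) + e / 2) (3 / 2 * (v + e)) + (v + e)) / 3) +
            5 * (τ * L) := by
          unfold TM708.eF
          refine max_le ?_ ?_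
          · have := le_max_left (2 * (p - D - e)) (4 / 3 * (p - D - e) +
              (max (max L (5 / 4 * (y₃ + y₄ + u) * L) + e / 2) (3 / 2 * (v + e)) + (v + e)) / 3)
            linarith
          · have := le_max_right (2 * (p - D - e)) (4 / 3 * (p - D - e) +
              (max (max L (5 / 4 * (y₃ + y₄ + u) * L) + e / 2) (3 / 2 * (v + e)) + (v + e)) / 3)
            have q3 : max (max l (5 / 4 * A3) + e / 2) (3 / 2 * (v + e)) ≤
                max (max L (5 / 4 * (y₃ + y₄ + u) * L) + e / 2) (3 / 2 * (v + e)) +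
                5 * (τ * L) := by
              refine max_le ?_ ?_
              · have := le_max_left (max L (5 / 4 * (y₃ + y₄ + u) * L) + e / 2)
                  (3 / 2 * (v + e))
                linarith
              · have := le_max_right (max L (5 / 4 * (y₃ + y₄ + u) * L) + e / 2)
                  (3 / 2 * (v + e))
                linarith
            linarith
        rw [← min_add_add_right]
        exact min_le_min q2 (by linarith)
      linarith
    · right
      refine le_of _ _ ?_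
      have e0 : (TbX (s₀ / L) (p / L) (D / L) (e / L) (v / L) + 1 / 20000) * L =
          D + 2 / 3 * L - v / 3 - (p - D) / 3 +
          (5 / 3 * (p - D - e) + 2 / 3 * (v + e) - max 0 (s₀ - (D + e))) + 1 / 20000 * L := by
        unfold RXl440.TbX
        have m1 : max 0 (s₀ / L - (D / L + e / L)) * L = max 0 (s₀ - (D + e)) := by
          rw [max_mul_of_nonneg _ _ hL.le, zero_mul]
          congr 1
          linear_combination hb s₀ - (hb D + hb e)
        rw [← m1]
        linear_combination hb D - hb v / 3 - (hb p - hb D) / 3 + 5 / 3 * (hb p - hb D - hb e) +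
          2 / 3 * (hb v + hb e)
      rw [e0]
      unfold bcO at h1
      linarith

/-- sizes -/
lemma NumX.sz {L τ y₃ y₄ u x d Z l z A3 p y bq s₀ hh D A e v : ℝ}
    (h : NumX L τ y₃ y₄ u x d Z l z A3 p y bq s₀ hh D A e v) (hD : 0 ≤ D) : v + 2 * D ≤ L ∧
      l ≤ 2 * L ∧ 1 / 2 * L ≤ l ∧ p ≤ L ∧ A3 ≤ L ∧ 0 ≤ p ∧ z ≤ 1 / 10 * L ∧ hh ≤ 2 * L := by
  have hL := h.L0
  obtain ⟨l1, l2⟩ := abs_le.1 h.hl
  obtain ⟨z1, z2⟩ := abs_le.1 h.hz
  obtain ⟨A1, A2⟩ := abs_le.1 h.hA
  have hτL : 0 ≤ τ * L := mul_nonneg h.τ0 hL.le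
  have hτL1 : τ * L ≤ 1 / 10 ^ 7 * L := mul_le_mul_of_nonneg_right h.τ1 hL.le
  obtain ⟨hu4, hy43, hu0, hy3x, hN1, hnr, hx0, -, hd0, hd1⟩ := P1Hl440.dp_hom one_pos
    (show Dp (y₃ / 1) (y₄ / 1) (u / 1) (x / 1) d by simpa using h.dp)
  have hN1L := mul_le_mul_of_nonneg_right hN1 hL.le
  have hx1 : x ≤ 7 / 100 := by linarith
  have hx1L := mul_le_mul_of_nonneg_right hx1 hL.le
  have hx0L : 0 ≤ x * L := mul_nonneg hx0 hL.le
  have hm1 := min_le_right (2 * (y₃ + y₄ + u) - 1) (3 / 4 * (y₃ + y₄ + u))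
  have hm2 : (min (2 * (y₃ + y₄ + u) - 1) (3 / 4 * (y₃ + y₄ + u)) + 11 / 5 * x) * L ≤
      (3 / 4 * (y₃ + y₄ + u) + 11 / 5 * x) * L :=
    mul_le_mul_of_nonneg_right (by linarith) hL.le
  have hbig := h.big
  have hlog2 : 0 < Real.log 2 := Real.log_pos (by norm_num)
  have hp1 := h.p1
  have hp0 := h.p0
  have hpL : p ≤ L := by linarith
  have hw : v + 2 * D ≤ L := by linarith [h.y1, h.vD]
  refine ⟨hw, by linarith, by linarith, hpL, by linarith, by linarith, by linarith, ?_⟩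
  have hv0 := h.v0
  rcases max_cases 0 (2 * p - L - (v + 2 * D)) with ⟨q, -⟩ | ⟨q, -⟩ <;>
    · have q2 := h.h1
      rw [q] at q2
      linarith

end Crest.Agent.R017.RXo440
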