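import Crest.Agent.R017.RXo_440
import Crest.Agent.R017.LSM_241

/-!
# Row 17, class E, the R-side of `P1` (helper440): the principal and the polar number
-/

set_option autoImplicit false
set_option maxHeartbeats 2000000

noncomputable section

namespace Crest.Agent.R017.RXp440

open Crest.Agent.R012 Crest.Agent.R012.Eis
open Crest.Agent.R017.PrE176 (PJm)
open Crest.Agent.R017.XHB411 (HBa)
open Crest.Agent.R017.RXl440 Crest.Agent.R017.RXo440

lemma ex_rp (a r : ℝ) : Real.exp a ^ r = Real.exp (r * a) := by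
  rw [← Real.exp_mul, mul_comm]

lemma ex_inv (a : ℝ) : (Real.exp a)⁻¹ = Real.exp (-a) := (Real.exp_neg a).symm

/-- **the principal number** -/
theorem prin_num (H : LinePr) {y₃ y₄ u x d Z hh bq s₀ L p d₀ ν A e v T k c₁ ax m0 G : ℝ}
    (hL : 0 < L)
    (hB : BlkX y₃ y₄ u x d Z (hh / L) bq (s₀ / L) (p / L) ((d₀ + ν) / L) (A / L) (e / L) (v / L) T)
    (n0 : 0 ≤ ν) (A1 : A ≤ d₀) (hc₁ : 0 ≤ c₁) (hk : |k - L| ≤ c₁) (hax : 0 ≤ ax) (hm0 : 0 ≤ m0)
    (hG : TsX y₃ y₄ u d (p / L) ((d₀ + ν) / L) (e / L) (v / L) T * L ≤ G) :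
    (Real.exp (p + ax) / Real.exp d₀) ^ 2 * PJm (Real.exp k) (Real.exp v)
      (Real.exp p / Real.exp d₀) (Real.exp (e + A)) (Real.exp m0) (Real.exp ν) (Real.exp hh)
      (Real.exp (-max 0 (s₀ - d₀))) 1 ≤
    5 * Real.exp (G - L / 1000 + 2 * ax + m0 + 2 * c₁) := by
  obtain ⟨k1, k2⟩ := abs_le.1 hk
  obtain ⟨t, ht, hLt⟩ : ∃ t : ℝ, 0 < t ∧ L * t = 1 := ⟨L⁻¹, by positivity, mul_inv_cancel₀ hL.ne'⟩
  have hdiv : ∀ a : ℝ, a / L = a * t := fun a => by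
    rw [div_eq_iff hL.ne', mul_assoc, mul_comm t L, hLt, mul_one]
  have hb : ∀ a : ℝ, a / L * L = a := fun a => div_mul_cancel₀ _ hL.ne'
  have hB' := hB
  rw [add_div] at hB'
  obtain ⟨q1, q2, q3, q4, q5⟩ := H y₃ y₄ u x d Z (hh / L) bq (s₀ / L) (p / L) (d₀ / L) (ν / L)
    (A / L) (e / L) (v / L) T _ _ hB' (div_nonneg n0 hL.le)
    (div_le_div_of_nonneg_right A1 hL.le) rfl rfl
  rw [← add_div d₀ ν L] at q1 q2 q3 q4 q5
  set m : ℝ := max 0 (s₀ - d₀) with hm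
  have hmL : max 0 (s₀ / L - d₀ / L) * L = m := by
    rw [hm, max_mul_of_nonneg _ _ hL.le, zero_mul]
    congr 1
    linear_combination hb s₀ - hb d₀
  have hS : (TsX y₃ y₄ u d (p / L) ((d₀ + ν) / L) (e / L) (v / L) T - 1 / 1000) * L ≤
      G - L / 1000 := by
    rw [sub_mul]; linarith
  have mul : ∀ {a b : ℝ}, a ≤ b → a * L ≤ b * L := fun h => mul_le_mul_of_nonneg_right h hL.le
  have r1 : 2 * (p - d₀) - m + 2 / 3 * L + v / 6 - (e + A) ≤ G - L / 1000 := by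
    refine le_trans (le_of_eq ?_) ((mul q1).trans hS)
    linear_combination -2 * (hb p - hb d₀) + hmL - hb v / 6 + (hb e + hb A)
  have r2 : 2 * (p - d₀) - m + L - (p - d₀) / 3 - 2 / 3 * ν - (e + A) ≤ G - L / 1000 := by
    refine le_trans (le_of_eq ?_) ((mul q2).trans hS)
    linear_combination -2 * (hb p - hb d₀) + hmL + (hb p - hb d₀) / 3 + 2 / 3 * hb ν +
      (hb e + hb A)
  have r3 : 2 * (p - d₀) - m + 4 / 3 * L - 2 / 3 * (p - d₀) - ν - (e + A) ≤ G - L / 1000 := by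
    refine le_trans (le_of_eq ?_) ((mul q3).trans hS)
    linear_combination -2 * (hb p - hb d₀) + hmL + 2 / 3 * (hb p - hb d₀) + hb ν +
      (hb e + hb A)
  have r4 : 2 * (p - d₀) + (v + L + hh) / 3 - m / 3 ≤ G - L / 1000 := by
    refine le_trans (le_of_eq ?_) ((mul q4).trans hS)
    linear_combination -2 * (hb p - hb d₀) - (hb v + hb hh) / 3 + hmL / 3
  have r5 : 2 * (p - d₀) + 2 / 3 * v + (e + A) + ν / 3 + 2 / 3 * hh ≤ G - L / 1000 := by
    refine le_trans (le_of_eq ?_) ((mul q5).trans hS)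
    linear_combination -2 * (hb p - hb d₀) - 2 / 3 * hb v - (hb e + hb A) - hb ν / 3 -
      2 / 3 * hb hh
  set W : ℝ := G - L / 1000 + 2 * ax + m0 + 2 * c₁ with hW
  have key : ∀ a : ℝ, a ≤ W → Real.exp a ≤ Real.exp W := fun a h => Real.exp_le_exp.2 h
  have e0 : (Real.exp (p + ax) / Real.exp d₀) ^ 2 = Real.exp (2 * (p + ax - d₀)) := by
    rw [← Real.exp_sub, ← Real.exp_nat_mul]
    norm_num
  rw [e0]
  unfold PrE176.PJm
  have t1 : Real.exp (2 * (p + ax - d₀)) * (Real.exp (-m) * (Real.exp k ^ ((2 : ℝ) / 3) *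
      Real.exp v ^ ((1 : ℝ) / 6) / Real.exp (e + A))) ≤ Real.exp W := by
    rw [ex_rp, ex_rp, ← Real.exp_add, ← Real.exp_sub, ← Real.exp_add, ← Real.exp_add]
    exact key _ (by linarith)
  have t2 : Real.exp (2 * (p + ax - d₀)) * (Real.exp (-m) * (Real.exp k *
      (Real.exp p / Real.exp d₀) ^ (-(1 / 3) : ℝ) * Real.exp ν ^ (-(2 / 3) : ℝ) /
      Real.exp (e + A))) ≤ Real.exp W := by
    rw [← Real.exp_sub p, ex_rp, ex_rp, ← Real.exp_add, ← Real.exp_add, ← Real.exp_sub,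
      ← Real.exp_add, ← Real.exp_add]
    exact key _ (by linarith)
  have t3 : Real.exp (2 * (p + ax - d₀)) * (Real.exp (-m) * (Real.exp k ^ ((4 : ℝ) / 3) *
      (Real.exp p / Real.exp d₀) ^ (-(2 / 3) : ℝ) * Real.exp m0 ^ ((1 : ℝ) / 3) *
      (Real.exp ν)⁻¹ / Real.exp (e + A))) ≤ Real.exp W := by
    rw [← Real.exp_sub p, ex_rp, ex_rp, ex_rp, ex_inv, ← Real.exp_add, ← Real.exp_add,
      ← Real.exp_add, ← Real.exp_sub, ← Real.exp_add, ← Real.exp_add]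
    exact key _ (by linarith)
  have t4 : Real.exp (2 * (p + ax - d₀)) * ((Real.exp v * Real.exp k * Real.exp hh) ^
      ((1 : ℝ) / 3) * Real.exp (-m) ^ ((1 : ℝ) / 3)) ≤ Real.exp W := by
    rw [← Real.exp_add v, ← Real.exp_add (v + k), ex_rp, ex_rp, ← Real.exp_add, ← Real.exp_add]
    exact key _ (by linarith)
  have t5 : Real.exp (2 * (p + ax - d₀)) * (1 * (Real.exp v ^ ((2 : ℝ) / 3) * Real.exp (e + A) *
      (Real.exp m0 * Real.exp ν) ^ ((1 : ℝ) / 3) * Real.exp hh ^ ((2 : ℝ) / 3))) ≤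
      Real.exp W := by
    rw [one_mul, ← Real.exp_add m0, ex_rp, ex_rp, ex_rp, ← Real.exp_add, ← Real.exp_add,
      ← Real.exp_add, ← Real.exp_add]
    exact key _ (by linarith)
  calc _ = Real.exp (2 * (p + ax - d₀)) * (Real.exp (-m) * (Real.exp k ^ ((2 : ℝ) / 3) *
      Real.exp v ^ ((1 : ℝ) / 6) / Real.exp (e + A))) +
      Real.exp (2 * (p + ax - d₀)) * (Real.exp (-m) * (Real.exp k *
      (Real.exp p / Real.exp d₀) ^ (-(1 / 3) : ℝ) * Real.exp ν ^ (-(2 / 3) : ℝ) /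
      Real.exp (e + A))) +
      Real.exp (2 * (p + ax - d₀)) * (Real.exp (-m) * (Real.exp k ^ ((4 : ℝ) / 3) *
      (Real.exp p / Real.exp d₀) ^ (-(2 / 3) : ℝ) * Real.exp m0 ^ ((1 : ℝ) / 3) *
      (Real.exp ν)⁻¹ / Real.exp (e + A))) +
      Real.exp (2 * (p + ax - d₀)) * ((Real.exp v * Real.exp k * Real.exp hh) ^
      ((1 : ℝ) / 3) * Real.exp (-m) ^ ((1 : ℝ) / 3)) +
      Real.exp (2 * (p + ax - d₀)) * (1 * (Real.exp v ^ ((2 : ℝ) / 3) * Real.exp (e + A) *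
      (Real.exp m0 * Real.exp ν) ^ ((1 : ℝ) / 3) * Real.exp hh ^ ((2 : ℝ) / 3))) := by ring
    _ ≤ 5 * Real.exp W := by linarith

/-- **the polar number** (`D = log nm δ`, `b₀ = log B₀`) -/
theorem polar_num (H : LinePo) {y₃ y₄ u x d Z hh bq s₀ L p D A e v T k c₁ ax b₀ G B0 : ℝ}
    (hL : 0 < L)
    (hB : BlkX y₃ y₄ u x d Z (hh / L) bq (s₀ / L) (p / L) (D / L) (A / L) (e / L) (v / L) T)
    (A1 : A ≤ D) (hc₁ : 0 ≤ c₁) (hk : |k - L| ≤ c₁) (hax : 0 ≤ ax) (hB0 : B0 = Real.exp b₀)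
    (hb0 : -1 ≤ b₀) (hL4 : 40000 ≤ L)
    (hb1 : 2 * L - 3 * (e + A) - v - p + D - hh ≤ 3 * b₀ + 1 / 10000 * L)
    (hG : TsX y₃ y₄ u d (p / L) (D / L) (e / L) (v / L) T * L ≤ G) {δ : Eis}
    (hδ : (nm δ : ℝ) = Real.exp D) :
    Real.exp ax ^ 2 * ((Real.exp v ^ (-(2 : ℝ) / 3) * Real.exp (e + A) ^ (-(2 : ℝ)) *
      Real.exp k ^ ((4 : ℝ) / 3)) * ((nm δ : ℝ) ^ ((1 : ℝ) / 3) * Real.exp p ^ (-(1 : ℝ) / 3)) *
      MTX241.nLS (Real.exp p) B0 (9 * (Real.exp v * Real.exp (e + A) ^ 3)) δ 1) ≤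
    27 * Real.exp (G - L / 1000 + 2 * ax + 2 * c₁) := by
  obtain ⟨k1, k2⟩ := abs_le.1 hk
  have hb : ∀ a : ℝ, a / L * L = a := fun a => div_mul_cancel₀ _ hL.ne'
  have le_of : ∀ a b : ℝ, a * L ≤ b * L → a ≤ b := fun a b h => le_of_mul_le_mul_right h hL
  have q := H y₃ y₄ u x d Z (hh / L) bq (s₀ / L) (p / L) (D / L)
    (A / L) (e / L) (v / L) T (b₀ / L) _ hB
    (div_le_div_of_nonneg_right A1 hL.le) (le_of _ _ (by rw [hb]; linarith)) (le_of _ _ (by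
      have e1 : (2 - 3 * (e / L + A / L) - v / L - p / L + D / L - hh / L) * L =
          2 * L - 3 * (e + A) - v - p + D - hh := by
        linear_combination -3 * (hb e + hb A) - hb v - hb p + hb D - hb hh
      have e2 : (3 * (b₀ / L) + 1 / 10000) * L = 3 * b₀ + 1 / 10000 * L := by
        linear_combination 3 * hb b₀
      rw [e1, e2]
      exact hb1)) rfl
  set M1 : ℝ := v + 3 * (e + A) with hM1
  set N1 : ℝ := p - D - b₀ with hN1
  have hS : (TsX y₃ y₄ u d (p / L) (D / L) (e / L) (v / L) T - 1 / 1000) * L ≤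
      G - L / 1000 := by
    rw [sub_mul]; linarith
  have q' := (mul_le_mul_of_nonneg_right q hL.le).trans hS
  have emax : max (v / L + 3 * (e / L + A / L)) (max (p / L - D / L - b₀ / L +
      (v / L + 3 * (e / L + A / L)) / 3) (2 / 3 * (v / L + 3 * (e / L + A / L) +
      (p / L - D / L - b₀ / L)))) * L = max M1 (max (N1 + M1 / 3) (2 / 3 * (M1 + N1))) := by
    rw [max_mul_of_nonneg _ _ hL.le, max_mul_of_nonneg _ _ hL.le, hM1, hN1]
    congr 1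
    · linear_combination hb v + 3 * (hb e + hb A)
    · congr 1
      · linear_combination (hb v + 3 * (hb e + hb A)) / 3 + (hb p - hb D - hb b₀)
      · linear_combination 2 / 3 * (hb v + 3 * (hb e + hb A)) + 2 / 3 * (hb p - hb D - hb b₀)
  have r : -(2 / 3) * v + 4 / 3 * L - 2 * (e + A) + 2 / 3 * (p - D) - b₀ +
      max M1 (max (N1 + M1 / 3) (2 / 3 * (M1 + N1))) ≤ G - L / 1000 := by
    refine le_trans (le_of_eq ?_) q'
    rw [← emax]
    linear_combination 2 / 3 * hb v + 2 * (hb e + hb A) - 2 / 3 * (hb p - hb D) + hb b₀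
  have m1 := le_max_left M1 (max (N1 + M1 / 3) (2 / 3 * (M1 + N1)))
  have m2 := (le_max_left (N1 + M1 / 3) (2 / 3 * (M1 + N1))).trans (le_max_right M1 _)
  have m3 := (le_max_right (N1 + M1 / 3) (2 / 3 * (M1 + N1))).trans (le_max_right M1 _)
  set W : ℝ := G - L / 1000 + 2 * ax + 2 * c₁ with hW
  have key : ∀ a : ℝ, a ≤ W → Real.exp a ≤ Real.exp W := fun a h => Real.exp_le_exp.2 h
  have hnm1 : (nm (1 : Eis) : ℝ) = 1 := by
    have : nm (1 : Eis) = 1 := by decide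
    exact_mod_cast this
  have eH : HBa (9 * (Real.exp v * Real.exp (e + A) ^ 3))
      (Real.exp p / (B0 * nm δ)) ≤ 9 * (Real.exp M1 + Real.exp (N1 + M1 / 3) +
        Real.exp (2 / 3 * (M1 + N1))) := by
    have e1 : 9 * (Real.exp v * Real.exp (e + A) ^ 3) = 9 * Real.exp M1 := by
      rw [← Real.exp_nat_mul, ← Real.exp_add]
      norm_num
      exact hM1.symm
    have e2 : Real.exp p / (B0 * nm δ) = Real.exp N1 := by
      rw [hB0, hδ, ← Real.exp_add, ← Real.exp_sub]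
      congr 1
      rw [hN1]; ring
    rw [e1, e2]
    unfold XHB411.HBa
    have h9 : (9 : ℝ) ^ ((1 : ℝ) / 3) ≤ 9 := by
      calc (9 : ℝ) ^ ((1 : ℝ) / 3) ≤ 9 ^ (1 : ℝ) :=
            Real.rpow_le_rpow_of_exponent_le (by norm_num) (by norm_num)
        _ = 9 := Real.rpow_one 9
    have h9' : (9 : ℝ) ^ ((2 : ℝ) / 3) ≤ 9 := by
      calc (9 : ℝ) ^ ((2 : ℝ) / 3) ≤ 9 ^ (1 : ℝ) :=
            Real.rpow_le_rpow_of_exponent_le (by norm_num) (by norm_num)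
        _ = 9 := Real.rpow_one 9
    have f1 : Real.exp N1 * (9 * Real.exp M1) ^ ((1 : ℝ) / 3) ≤ 9 * Real.exp (N1 + M1 / 3) := by
      rw [Real.mul_rpow (by norm_num) (Real.exp_pos _).le, ex_rp]
      calc Real.exp N1 * ((9 : ℝ) ^ ((1 : ℝ) / 3) * Real.exp (1 / 3 * M1)) =
          (9 : ℝ) ^ ((1 : ℝ) / 3) * Real.exp (N1 + M1 / 3) := by
            rw [Real.exp_add, show M1 / 3 = 1 / 3 * M1 by ring]; ring
        _ ≤ 9 * Real.exp (N1 + M1 / 3) := mul_le_mul_of_nonneg_right h9 (Real.exp_pos _).le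
    have f2 : (9 * Real.exp M1 * Real.exp N1) ^ ((2 : ℝ) / 3) ≤
        9 * Real.exp (2 / 3 * (M1 + N1)) := by
      rw [mul_assoc, ← Real.exp_add, Real.mul_rpow (by norm_num) (Real.exp_pos _).le, ex_rp]
      exact mul_le_mul_of_nonneg_right h9' (Real.exp_pos _).le
    linarith
  have hc : 0 ≤ Real.exp ax ^ 2 * ((Real.exp v ^ (-(2 : ℝ) / 3) * Real.exp (e + A) ^ (-(2 : ℝ)) *
      Real.exp k ^ ((4 : ℝ) / 3)) * ((nm δ : ℝ) ^ ((1 : ℝ) / 3) * Real.exp p ^ (-(1 : ℝ) / 3)) *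
      (B0⁻¹ * (Real.exp p / (nm δ * nm (1 : Eis))))) := by
    rw [hB0]
    positivity
  have e3 : Real.exp ax ^ 2 * ((Real.exp v ^ (-(2 : ℝ) / 3) * Real.exp (e + A) ^ (-(2 : ℝ)) *
      Real.exp k ^ ((4 : ℝ) / 3)) * ((nm δ : ℝ) ^ ((1 : ℝ) / 3) * Real.exp p ^ (-(1 : ℝ) / 3)) *
      (B0⁻¹ * (Real.exp p / (nm δ * nm (1 : Eis))))) =
      Real.exp (2 * ax - 2 / 3 * v - 2 * (e + A) + 4 / 3 * k + D / 3 - p / 3 - b₀ + p - D) := by
    rw [hB0, hnm1, mul_one, hδ, ← Real.exp_sub p, ex_inv, ex_rp, ex_rp, ex_rp, ex_rp, ex_rp,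
      ← Real.exp_nat_mul, ← Real.exp_add, ← Real.exp_add, ← Real.exp_add, ← Real.exp_add,
      ← Real.exp_add, ← Real.exp_add, ← Real.exp_add]
    congr 1
    push_cast
    ring
  have e4 : MTX241.nLS (Real.exp p) B0 (9 * (Real.exp v * Real.exp (e + A) ^ 3)) δ 1 =
      B0⁻¹ * (Real.exp p / (nm δ * nm (1 : Eis))) *
        HBa (9 * (Real.exp v * Real.exp (e + A) ^ 3)) (Real.exp p / (B0 * nm δ)) := rfl
  rw [e4]
  calc _ = Real.exp ax ^ 2 * ((Real.exp v ^ (-(2 : ℝ) / 3) * Real.exp (e + A) ^ (-(2 : ℝ)) *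
      Real.exp k ^ ((4 : ℝ) / 3)) * ((nm δ : ℝ) ^ ((1 : ℝ) / 3) * Real.exp p ^ (-(1 : ℝ) / 3)) *
      (B0⁻¹ * (Real.exp p / (nm δ * nm (1 : Eis))))) *
        HBa (9 * (Real.exp v * Real.exp (e + A) ^ 3)) (Real.exp p / (B0 * nm δ)) := by ring
    _ ≤ Real.exp ax ^ 2 * ((Real.exp v ^ (-(2 : ℝ) / 3) * Real.exp (e + A) ^ (-(2 : ℝ)) *
      Real.exp k ^ ((4 : ℝ) / 3)) * ((nm δ : ℝ) ^ ((1 : ℝ) / 3) * Real.exp p ^ (-(1 : ℝ) / 3)) *
      (B0⁻¹ * (Real.exp p / (nm δ * nm (1 : Eis))))) *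
        (9 * (Real.exp M1 + Real.exp (N1 + M1 / 3) + Real.exp (2 / 3 * (M1 + N1)))) :=
        mul_le_mul_of_nonneg_left eH hc
    _ = 9 * (Real.exp (2 * ax - 2 / 3 * v - 2 * (e + A) + 4 / 3 * k + D / 3 - p / 3 - b₀ + p - D +
          M1) +
        Real.exp (2 * ax - 2 / 3 * v - 2 * (e + A) + 4 / 3 * k + D / 3 - p / 3 - b₀ + p - D +
          (N1 + M1 / 3)) +
        Real.exp (2 * ax - 2 / 3 * v - 2 * (e + A) + 4 / 3 * k + D / 3 - p / 3 - b₀ + p - D +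
          (2 / 3 * (M1 + N1)))) := by
        rw [e3, Real.exp_add _ M1, Real.exp_add _ (N1 + M1 / 3),
          Real.exp_add _ (2 / 3 * (M1 + N1))]
        ring
    _ ≤ 9 * (Real.exp W + Real.exp W + Real.exp W) := by
        refine mul_le_mul_of_nonneg_left (add_le_add (add_le_add ?_ ?_) ?_) (by norm_num)
        · exact key _ (by linarith)
        · exact key _ (by linarith)
        · exact key _ (by linarith)
    _ = 27 * Real.exp W := by ring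

end Crest.Agent.R017.RXp440
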