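import Crest.Agent.R017.RXn3_770

/-!
# Row 17, x-side of E4: the twisted parameters of the R-side (helper770)

* `rwP P M' η j` : Möbius side `ψ conj η ang^{l₂ - j}`, weight zero
* `rwP_OK`, `classN_rw_R`, `classN_rw_L`, `rwN`
* `alb_rw`, **`rm_rw`** : the twisted test of `alb` is the test of the twisted family
-/

set_option autoImplicit false
set_option linter.unusedVariables false

noncomputable section

open Complex MeasureTheory
open scoped ComplexConjugate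

namespace Crest.Agent.R017.RXn770

open Crest.Agent.R012 Crest.Agent.R012.Eis Crest.Agent.R012.Gauss880
open Crest.Agent.R012.PSer47 (IsChar)
open Crest.Agent.R017.CM106 (CS TG FS)
open Crest.Agent.R017.End699 Crest.Agent.R017.B770 Crest.Agent.R017.Sup271
open Crest.Agent.R017.Prov71
open Crest.Agent.R017.HP842 (Pc pc)
open Crest.Agent.R017.R3571 (RMm)
open Crest.Agent.R017.E5k54 (alb)

/-- the parameters of the `R`-side, twisted by `conj η ang^{-j}` -/
def rwP (P : DPar) (M' : Eis) (η : Eis → ℂ) (j : ℤ) : DPar where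
  h₀ := P.h₀
  h := P.h
  V := P.V
  U := fun _ => 0
  n := P.n * M'
  φ := fun b => P.φ b * conj (η b)
  ψ := fun b => P.ψ b * conj (η b)
  n₃ := P.n * M'
  χ₃ := prin0 (P.n * M')
  l₁ := P.l₁
  l₂ := P.l₂ - j
  l₃ := 0

theorem rwP_OK {P : DPar} (hP : P.OK) {M' : Eis} {η : Eis → ℂ} (hη : HC M' η) (j : ℤ) :
    (rwP P M' η j).OK where
  h₀ := hP.h₀
  h := hP.h
  V := hP.V
  U := ⟨contDiff_const, HasCompactSupport.zero, by
    have h0 : tsupport (fun _ : ℝ => (0 : ℂ)) = ∅ := by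
      rw [tsupport_eq_empty_iff]
      rfl
    show tsupport (fun _ : ℝ => (0 : ℂ)) ⊆ _
    rw [h0]
    exact Set.empty_subset _⟩
  n36 := hP.n36.mul_right _
  φ := hP.φ.mul hη.conj
  ψ := hP.ψ.mul hη.conj
  χ₃ := hc_prin0 (mul_ne_zero hP.φ.q0 hη.q0) (hP.φ.three.mul_right _)
  rad p _ := Iff.rfl
  cases := Or.inr (Or.inr (Or.inr rfl))

lemma ang_add3 {b : Eis} (hb : b ≠ 0) (k l : ℤ) : ang (k + l) b = ang k b * ang l b := by
  have h0 : toC b / (‖toC b‖ : ℂ) ≠ 0 := by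
    have h1 : toC b ≠ 0 := fun h => hb (toC_eq_zero.1 h)
    have h2 : (‖toC b‖ : ℂ) ≠ 0 := by
      exact_mod_cast norm_ne_zero_iff.2 h1
    exact div_ne_zero h1 h2
  show (toC b / (‖toC b‖ : ℂ)) ^ (k + l) = _
  rw [zpow_add₀ h0]
  rfl

lemma ang_sub3 {b : Eis} (hb : b ≠ 0) (k l : ℤ) : ang (k - l) b = ang k b * conj (ang l b) := by
  rw [sub_eq_add_neg, ang_add3 hb, ang_neg_conj l hb]

/-- Möbius side -/
theorem chK_rw_mo (P : DPar) (M' : Eis) (η : Eis → ℂ) (j : ℤ) {b : Eis} (hb : IsPrim b) :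
    chK (rwP P M' η j) .mo b = conj (BDh681.ps η j b) * chK P .mo b := by
  have h0 := hb.ne_zero
  simp only [chK, rwP, BDh681.ps]
  rw [ang_sub3 h0]
  simp only [map_mul]
  ring

/-- class N, nonzero angular type -/
theorem classN_rw_R {P : DPar} {M' : Eis} {η : Eis → ℂ} {j : ℤ} (h : P.l₂ - j ≠ 0) :
    ∀ k : Eis, k ≠ 0 → NPm (rwP P M' η j).n (rwP P M' η j).ψ (rwP P M' η j).l₂ k :=
  fun _ _ => Or.inl h

/-- class N, cubic twist by an `S`-unit -/
theorem classN_rw_L {P : DPar} (hN : ∀ k : Eis, k ≠ 0 → NPm P.n P.ψ P.l₂ k) {M' : Eis}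
    {η : Eis → ℂ} {t : Eis} (ht : t ≠ 0) (hrad : ∀ p : Eis, Prime p → p ∣ M' → p ∣ P.n)
    (hM' : M' ≠ 0) (hη : ∀ u, IsPrim u → IsCoprime u (P.n * M') → η u = sy t u) :
    ∀ k : Eis, k ≠ 0 → NPm (rwP P M' η 0).n (rwP P M' η 0).ψ (rwP P M' η 0).l₂ k := by
  intro k hk
  rcases hN (k * t ^ 2) (mul_ne_zero hk (pow_ne_zero 2 ht)) with h | ⟨a, ha, hac, hne⟩
  · left
    show P.l₂ - 0 ≠ 0
    simpa using h
  right
  have h1 : IsCoprime a P.n := hac.of_isCoprime_of_dvd_right ⟨9 * (k * t ^ 2), rfl⟩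
  have h2 : IsCoprime a M' := by
    refine isCoprime_of_prime_dvd (fun h' => hM' h'.2) fun p hp hpa hpM => ?_
    exact hp.not_isUnit (h1.isUnit_of_dvd' hpa (hrad p hp hpM))
  have h9 : IsCoprime a (9 * k) := hac.of_isCoprime_of_dvd_right ⟨P.n * t ^ 2, by ring⟩
  have hta : IsCoprime t a :=
    (hac.of_isCoprime_of_dvd_right ⟨P.n * 9 * k * t, by ring⟩).symm
  refine ⟨a, ha, (h1.mul_right h2).mul_right h9, ?_⟩
  intro h0
  apply hne
  have e1 : P.ψ a * conj (η a) * sy k a = 1 := h0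
  have e2 : conj (η a) = sy (t ^ 2) a := by
    have c3 : sy t a ^ 3 = 1 := Char766.sy_cube ha hta
    have c1 : sy t a * conj (sy t a) = 1 := by
      have n3 : ‖sy t a‖ ^ 3 = 1 := by rw [← norm_pow, c3, norm_one]
      have n1 : ‖sy t a‖ = 1 := (pow_eq_one_iff_of_nonneg (norm_nonneg _) (by norm_num)).1 n3
      rw [Complex.mul_conj, Complex.normSq_eq_norm_sq, n1]
      norm_num
    rw [hη a ha (h1.mul_right h2), sq, Char766.sy_mul_left ha]
    calc conj (sy t a) = sy t a ^ 3 * conj (sy t a) := by rw [c3, one_mul]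
      _ = sy t a * sy t a * (sy t a * conj (sy t a)) := by ring
      _ = sy t a * sy t a := by rw [c1, mul_one]
  show P.ψ a * sy (k * t ^ 2) a = 1
  rw [Char766.sy_mul_left ha, ← e1, e2]
  ring

/-- **the twisted parameters, class N** -/
def rwN (P : LamN) (M' : Eis) (η : Eis → ℂ) (j : ℤ) (hη : HC M' η)
    (hN : ∀ k : Eis, k ≠ 0 →
      NPm (rwP P.1 M' η j).n (rwP P.1 M' η j).ψ (rwP P.1 M' η j).l₂ k) : LamN :=
  ⟨rwP P.1 M' η j, rwP_OK P.2.1 hη j, hN⟩

/-- the twisted lumps -/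
lemma pc_rw (h : ℝ → ℝ) (P : DPar) (M' : Eis) (η : Eis → ℂ) (j : ℤ) {p : Pq} (hp : p.kd = .mo)
    {m : Eis} (hm : IsPrim m) :
    pc h (p.pc (rwP P M' η j)) m = conj (BDh681.ps η j m) * pc h (p.pc P) m := by
  unfold HP842.pc
  rw [if_pos hm, if_pos hm]
  show HP842.uv p.u m * (chK (rwP P M' η j) p.kd m * prin0 p.d m) *
      HSep813.gw h (Real.exp p.z) p.t m =
    conj (BDh681.ps η j m) * (HP842.uv p.u m * (chK P p.kd m * prin0 p.d m) *
      HSep813.gw h (Real.exp p.z) p.t m)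
  rw [hp, chK_rw_mo P M' η j hm]
  ring

/-- **`alb` of pieces twisted by a multiplicative function** -/
theorem alb_chi {f f' : Fin 3 → Eis → ℂ} {χ : Eis → ℂ}
    (hχ : ∀ a b, IsPrim a → IsPrim b → χ (a * b) = χ a * χ b)
    (h : ∀ i m, IsPrim m → f' i m = χ m * f i m) {β : Fin 3 → Eis} (hβ : ∀ i, IsPrim (β i))
    (m : Eis) : alb f' β m = χ (∏ i, β i) * (χ m * alb f β m) := by
  classical
  unfold E5k54.alb E554.sqc
  split_ifs with hm
  swap
  · ring
  rw [← mul_assoc, Finset.mul_sum]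
  refine Finset.sum_congr rfl fun a ha => ?_
  obtain ⟨ha1, ha2⟩ := Finset.mem_filter.1 ha
  have hap : ∀ i, IsPrim (a i) := fun i => Div277.isPrim_of_mem_dvs
    ((Fintype.mem_piFinset (t := fun _ : Fin 3 => Div277.dvs m)).1 (by convert ha1) i)
  have e1 : ∀ i, CM106.sub (f' i) (β i) (a i) =
      (χ (β i) * χ (a i)) * CM106.sub (f i) (β i) (a i) := by
    intro i
    show f' i (β i * a i) = _ * f i (β i * a i)
    rw [h i _ ((hβ i).mul (hap i)), hχ _ _ (hβ i) (hap i)]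
  have e2 : χ (∏ i, β i) = χ (β 0) * χ (β 1) * χ (β 2) := by
    rw [Fin.prod_univ_three, hχ _ _ ((hβ 0).mul (hβ 1)) (hβ 2), hχ _ _ (hβ 0) (hβ 1)]
  have e3 : χ m = χ (a 0) * χ (a 1) * χ (a 2) := by
    rw [← ha2, Fin.prod_univ_three, hχ _ _ ((hap 0).mul (hap 1)) (hap 2), hχ _ _ (hap 0) (hap 1)]
  show ∏ i, CM106.sub (f' i) (β i) (a i) =
    χ (∏ i, β i) * χ m * ∏ i, CM106.sub (f i) (β i) (a i)
  rw [Finset.prod_congr rfl fun i _ => e1 i, e2, e3, Fin.prod_univ_three, Fin.prod_univ_three]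
  ring

/-- **the twisted test of `alb` is the test of the twisted family** -/
theorem rm_rw (A : ℝ) {h : ℝ → ℝ} {P : DPar} (hP : P.OK) {M' : Eis} {η : Eis → ℂ}
    (hη : HC M' η) (j : ℤ) (hrad : ∀ p : Eis, Prime p → p ∣ M' → p ∣ P.n) {us : Fin 3 → Pq}
    (hl : ∀ i, (us i).kd = .mo) {β : Fin 3 → Eis} (hβ : ∀ i, IsPrim (β i)) {D : Eis}
    (hD : IsPrim D) {γ : Eis} (hγ : IsPrim γ) (e φ k : Eis) :
    RMm A (fun m => alb (fun i => pc h ((us i).pc P)) β (D * m) * conj (BDh681.ps η j m)) e γ φ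
        k ≤
      RMm A (fun m => alb (fun i => pc h ((us i).pc (rwP P M' η j))) β (D * m)) e γ φ k := by
  classical
  set a0 : Eis → ℂ := alb (fun i => pc h ((us i).pc P)) β with ha0
  set χ : Eis → ℂ := fun m => conj (BDh681.ps η j m) with hχ
  have hmul : ∀ a b, IsPrim a → IsPrim b → χ (a * b) = χ a * χ b := by
    intro a b ha hb
    rw [hχ]
    beta_reduce
    rw [PoH347.ps_mul' hη j ha hb, map_mul]
  have h1 : ∀ m, alb (fun i => pc h ((us i).pc (rwP P M' η j))) β m =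
      χ (∏ i, β i) * (χ m * a0 m) := fun m =>
    alb_chi hmul (fun i m hm => pc_rw h P M' η j (hl i) hm) hβ m
  have hprim : ∀ m, a0 m ≠ 0 → IsPrim m := fun m hm =>
    P1e54.alb_prim (fun i m hm => TEX792.pc_prim' hm) hβ hm
  have hcM : ∀ {x : Eis}, IsCoprime x P.n → IsCoprime x M' := by
    intro x hx
    refine isCoprime_of_prime_dvd (fun h' => hη.q0 h'.2) fun p hp hpa hpM => ?_
    exact hp.not_isUnit (hx.isUnit_of_dvd' hpa (hrad p hp hpM))
  by_cases h0 : ∃ m, a0 (D * m) ≠ 0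
  · obtain ⟨m₁, hm₁⟩ := h0
    have c1 : IsCoprime D M' := hcM (TEX792.alb_cop hP hm₁).of_mul_left_left
    have c2 : IsCoprime (∏ i, β i) M' := by
      obtain ⟨-, -, a, -, ha⟩ := P1e54.alb_ne hm₁
      exact IsCoprime.prod_left fun i _ => hcM (TEX792.pc_cop hP (ha i)).of_mul_left_left
    have n1 : ‖χ D‖ = 1 := by
      show ‖conj (BDh681.ps η j D)‖ = 1
      rw [RCLike.norm_conj]
      exact PoH347.norm_ps_eq hη j hD c1
    have n2 : ‖χ (∏ i, β i)‖ = 1 := by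
      show ‖conj (BDh681.ps η j (∏ i, β i))‖ = 1
      rw [RCLike.norm_conj]
      exact PoH347.norm_ps_eq hη j (HP842.isPrim_prod hβ) c2
    have z1 : χ D ≠ 0 := fun h => by rw [h, norm_zero] at n1; exact zero_ne_one n1
    have z2 : χ (∏ i, β i) ≠ 0 := fun h => by rw [h, norm_zero] at n2; exact zero_ne_one n2
    refine RMm_le_smul (c := (χ (∏ i, β i) * χ D)⁻¹) ?_ (fun m => ?_) e γ φ k
      (RMm_nonneg _ _ _ _ _ _)
    · rw [norm_inv, norm_mul, n1, n2, mul_one, inv_one]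
    · rw [h1]
      by_cases hm0 : a0 (D * m) = 0
      · rw [hm0]; ring
      have hm : IsPrim m := IsPrim.of_mul_left (hprim _ hm0) hD
      rw [hmul D m hD hm]
      show a0 (D * m) * χ m = _
      field_simp
  · push Not at h0
    refine RMm_le_smul (c := 0) (by simp) (fun m => ?_) e γ φ k (RMm_nonneg _ _ _ _ _ _)
    rw [h0 m]
    ring

end Crest.Agent.R017.RXn770
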