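import Crest.Agent.R017.RXo_848

/-!
# Row 17, T.7 (RG rule, exceptional class): the recursion, finite theorem (helper848)

* `rgFinX_of` : `RgFinX` (helper545) from the lower bound `LBN` and the leaf `RLeafX`
-/

set_option autoImplicit false
set_option maxHeartbeats 1600000

noncomputable section

open Complex
open scoped ComplexConjugate

namespace Crest.Agent.R017.RXk848

open Crest.Agent.R012 Crest.Agent.R012.Eis Crest.Agent.R012.LS2 Crest.Agent.R012.Gauss880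
open Crest.Agent.R017.CM106 Crest.Agent.R017.HP842 Crest.Agent.R017.FE47
open Crest.Agent.R017.End699 hiding pw
open Crest.Agent.R017.B770
open Crest.Agent.R017.Prov71
open Crest.Agent.R017.Leg381
open Crest.Agent.R017.RG64
open Crest.Agent.R017.LegK545 (VK SFK)
open Crest.Agent.R017.RGK545 (ClXK ClK ClNK)
open Crest.Agent.R017.PX764 (Dk)
open Crest.Agent.R017.Sup271 (NPm)
open Crest.Agent.R017.Dk848 (ker_Dk)
open Crest.Agent.R017.XS0298 (S0K)
open Crest.Agent.R017.RuleM545 (xv)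
open Crest.Agent.R017.RGB545
open Crest.Agent.R017.XP699 (LL Chd hcost cst)
open Crest.Agent.R017.RX298 (xs rpB Dr rpB_length LF_natl_rpB DX QX XDp exists_XDp Lg2)
open Crest.Agent.R017.LBo813 (rho rho_one rho_zero rho_anti)
open Crest.Agent.R017.RXg848 (Ht_natl LF_natl SFK_natl_one)

lemma LnP.mono {Lam ι : Type*} {p : ℕ} {L : ι → Line Lam p} {lam : Lam}
    {K ε M r bm X n₁ v₁ Bd Bd' : ℝ} {base : List Pq}
    (h : LnP L lam K ε M r bm X n₁ v₁ Bd base) (hX : 0 ≤ X) (hB : Bd ≤ Bd') :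
    LnP L lam K ε M r bm X n₁ v₁ Bd' base := by
  intro j θ l ps' h1 h2 h3 h4 h5 h6
  refine (h j θ l ps' h1 h2 h3 h4 h5 h6).trans ?_
  have hc : 0 ≤ cst hcost ps' base ^ M :=
    Real.rpow_nonneg (zero_le_one.trans (XP699.one_le_cst XP699.one_le_hcost _ _)) _
  have hx : 0 ≤ X ^ (4 / 3 * n₁ + (v₁ + K) / 3 +
    (L j).F ![K, v₁, n₁, l / Real.log X, LL Dq ps' / Real.log X] θ.1) := Real.rpow_nonneg hX _
  exact mul_le_mul_of_nonneg_right (mul_le_mul_of_nonneg_right hB hc) hx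

/-- the number of (LB) -/
def Elx (Cl Co Cf T B H H₀ Z g x3 : ℝ) : ℝ :=
  Cl * T * (1 + (g + Cf * T * g) * (Co * T * (B * x3 * H) + Co * T * (B * 1 * H) + Z +
      ((B * H + B * H) * T + Z)) + Cf * T * H₀ * (Z + B))

set_option maxHeartbeats 12800000 in
/-- **the finite theorem of the recursion**, exceptional class -/
theorem rgFinX_of {Lam ι : Type*} {p : ℕ} {π : Lam → DPar} (hP : ∀ lam, (π lam).OK)
    (hnp : ∀ lam, ¬ NPm (π lam).n (π lam).ψ (π lam).l₂ 1) {h : ℝ → ℝ} {c₁ : ℝ} (hpu : PU h c₁)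
    {w : ℝ → ℝ} (hab : Abs4 w) {Rh RR : ℝ → LBp → (Eis → ℂ) → ℝ → Prop}
    (hLB : ∀ Λ : ℝ, 1 ≤ Λ → LBN w Λ (Rh Λ))
    (hRR : ∀ (Λ : ℝ) (q : LBp) (α : Eis → ℂ) (Rn Rn' : ℝ), 1 ≤ Λ → 0 ≤ q.K → 0 ≤ q.X →
      1 ≤ q.E0 → q.X ^ 2 * q.E0 ^ 20 ≤ q.K * q.N₀ → RR Λ q α Rn → Rn ≤ Rn' → Rh Λ q α Rn')
    {L : ι → Line Lam p} {K v c d₀ b : ℝ} (hc : 0 < c) (hcK : 60 * c ≤ K) (hv : 0 ≤ v)
    (hv3 : 3 * v + 300 * c ≤ 2 * K) (hd : 0 ≤ d₀) (hb : 8 * (K + 1) ≤ b)
    (hleaf : RLeafXL π h RR L K c b d₀ 20) :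
    RgFinX (fun lam => S0K Dk (π lam) h) L (min c 1 / 100) K v c d₀ := by
  classical
  have hK : 0 < K := by linarith
  have hvK : v ≤ K := by linarith
  have hb1 : 8 ≤ b := by linarith
  have hb0 : 0 < b := by linarith
  intro lam N c₀ hc₀
  obtain ⟨c₀', hc₀'⟩ : ∃ x : ℝ, x = max c₀ (K + 2) := ⟨_, rfl⟩
  have hcc1 : c₀ ≤ c₀' := by rw [hc₀']; exact le_max_left _ _
  have hcc2 : K + 2 ≤ c₀' := by rw [hc₀']; exact le_max_right _ _
  have hc₀1 : 1 ≤ c₀' := hc₀.trans hcc1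
  obtain ⟨B₁, hB₁, hR1⟩ := hleaf lam N c₀' hc₀1
  refine ⟨max B₁ (K + 2), le_max_of_le_left hB₁, ?_⟩
  intro ε M hε hM
  obtain ⟨τ, hτ⟩ : ∃ x : ℝ, x = min (ε / 100) (min (c / 100) (1 / 100)) := ⟨_, rfl⟩
  have hτε : τ ≤ ε / 100 := by rw [hτ]; exact min_le_left _ _
  have hτc : τ ≤ c / 100 := by rw [hτ]; exact (min_le_right _ _).trans (min_le_left _ _)
  have hτ1 : τ ≤ 1 / 100 := by rw [hτ]; exact (min_le_right _ _).trans (min_le_right _ _)
  have hτ0 : 0 < τ := by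
    rw [hτ]; exact lt_min (by positivity) (lt_min (by positivity) (by norm_num))
  obtain ⟨J₀, δ₀, hJ₀, hδ₀, hR2⟩ := hR1 τ M hτ0 hM
  have hN0 : (0 : ℝ) ≤ N := Nat.cast_nonneg _
  obtain ⟨δ, hδ⟩ : ∃ x : ℝ, x = min δ₀ (τ / (16 * (N + 1))) := ⟨_, rfl⟩
  have hδ0 : 0 < δ := by rw [hδ]; exact lt_min hδ₀ (by positivity)
  have hδδ : δ ≤ δ₀ := by rw [hδ]; exact min_le_left _ _
  have hδN : 16 * ((N + 1) * δ) ≤ τ := by
    have : δ ≤ τ / (16 * (N + 1)) := by rw [hδ]; exact min_le_right _ _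
    rw [le_div_iff₀ (by positivity)] at this
    linarith
  obtain ⟨m, hm⟩ := exists_nat_ge (4 * b / δ)
  have hmδ : 4 * b ≤ m * δ := by rwa [div_le_iff₀ hδ0] at hm
  have hm0 : (0 : ℝ) < m := by
    have : 0 < 4 * b / δ := by positivity
    linarith
  have hm1 : (1 : ℝ) ≤ m := by
    have : 0 < m := by exact_mod_cast hm0
    exact_mod_cast this
  obtain ⟨ε₁, hε₁⟩ : ∃ x : ℝ, x = τ / b := ⟨_, rfl⟩
  have hε₁0 : 0 < ε₁ := by rw [hε₁]; positivity
  have hε₁b : ε₁ * b = τ := by rw [hε₁]; field_simp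
  have hε₁τ : ε₁ ≤ τ := by rw [hε₁, div_le_iff₀ hb0]; nlinarith
  obtain ⟨e₃, he₃⟩ : ∃ x : ℝ, x = ε₁ / (8 * m) := ⟨_, rfl⟩
  have he₃0 : 0 < e₃ := by rw [he₃]; positivity
  have hme : 8 * (m * e₃) = ε₁ := by rw [he₃]; field_simp
  have he₃ε : e₃ ≤ ε₁ := by nlinarith
  obtain ⟨ε₂, hε₂⟩ : ∃ x : ℝ, x = ε₁ / (3 * m + 5) := ⟨_, rfl⟩
  have hε₂0 : 0 < ε₂ := by rw [hε₂]; positivity
  have h35 : 3 * (m * ε₂) + 5 * ε₂ = ε₁ := by rw [hε₂]; field_simp
  have h5ε : 5 * ε₂ ≤ ε₁ := by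
    have : 0 ≤ m * ε₂ := by positivity
    linarith
  obtain ⟨J, hJ⟩ : ∃ x : ℝ, x = max 6 (max J₀ M) := ⟨_, rfl⟩
  have hJ6 : 6 ≤ J := by rw [hJ]; exact le_max_left _ _
  have hJJ₀ : J₀ ≤ J := by rw [hJ]; exact (le_max_left _ _).trans (le_max_right _ _)
  have hJM : M ≤ J := by rw [hJ]; exact (le_max_right _ _).trans (le_max_right _ _)
  have hJ0 : 0 ≤ J := by linarith
  obtain ⟨Jn, hJn0⟩ := exists_nat_ge (max (N * J) (max 12 J₀))
  have hJn : (N : ℝ) * J ≤ Jn := (le_max_left _ _).trans hJn0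
  have hJn12 : 12 ≤ Jn := by
    have : (12 : ℝ) ≤ Jn := ((le_max_left _ _).trans (le_max_right _ _)).trans hJn0
    exact_mod_cast this
  have hJnJ₀ : J₀ ≤ Jn := ((le_max_right _ _).trans (le_max_right _ _)).trans hJn0
  obtain ⟨R, Ca, hR, hCa, hAL⟩ := exists_XDp hpu N
  obtain ⟨Cw, η₀, Cg, Sg, X₂, hCw, hη₀, hη₀1, hCg, hSg, hrg⟩ :=
    RXi848.rg_X hpu N hab (c₁ := 4) (δ := δ / b) (ε₁ := ε₁) (e₃ := e₃) (ε := ε₂) (J := J)
      (B₀ := c₀') (m := m) (Jn := Jn) (Aw := Jn + 2) hR hAL (by norm_num) (by positivity) hε₁0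
      (by linarith) he₃0 hε₂0 hJ6 hJn hJn12 le_rfl hc₀1
      (by rw [← mul_div_assoc, le_div_iff₀ hb0]; exact hmδ) hme.le
      (by
        have e : 4 * ((N : ℝ) * (δ / b)) = 4 * (N * δ) / b := by ring
        rw [e, hε₁]
        exact div_le_div_of_nonneg_right (by nlinarith) hb0.le)
  obtain ⟨Cf, rf, X₄, Λ, hCf, hrf, hΛ, hlf⟩ := hR2 δ Jn (Jn + 2) Cw R η₀ Sg hδ0.le hδδ hJnJ₀
    le_rfl hCw hR hη₀ hη₀1 hSg
  obtain ⟨Cl, rl, X₃, hCl, hrl, hlb⟩ := lb_list_x hpu N hΛ (hLB Λ hΛ) (e₀ := c / b) (ε := ε₂)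
    (J := J) (B₀ := c₀') (Jn := Jn) (Aw := Jn + 2) hR hAL hCw hη₀ (by linarith) hε₂0
    (by positivity) hJ6 hJn hJn12 le_rfl hc₀1
  obtain ⟨Co, ro, hCo, hro, hop⟩ := RGK545.open_num ker_Dk hpu N hε₂0 hJ0
  obtain ⟨U, hU⟩ : ∃ x : ℝ, x = 20 * (N + 1) * (Sg + rl + ro + R + 5) := ⟨_, rfl⟩
  obtain ⟨Cq, hCq⟩ : ∃ x : ℝ, x = Cg * Real.exp ((N + 1) * rl + (N + 1) * ro) := ⟨_, rfl⟩
  obtain ⟨Cm, hCm⟩ : ∃ x : ℝ, x = Cg * (Cl * (1 + (1 + Cf) * (2 * Co + 2) + Cf) + 2) := ⟨_, rfl⟩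
  have hCg0 : 0 ≤ Cg := by linarith
  have hCo0 : 0 ≤ Co := by linarith
  have hCq0 : 0 ≤ Cq := by rw [hCq]; positivity
  have hCm0 : 0 ≤ Cm := by rw [hCm]; positivity
  refine ⟨2 * Cm + Cq + Cf, 2 * Sg + rl + ro + rf, 2 * J,
    max (Real.exp (100 * U / τ)) (max Cg (max (nm (π lam).n) (max X₂ (max X₃ X₄)))),
    by positivity, by positivity, by positivity, ?_⟩
  intro X hX3 hXX k ps₀ hk0 hkc hlen hps hs2 hHp Bd hBd hpr
  have hXe : Real.exp (100 * U / τ) ≤ X := (le_max_left _ _).trans hXX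
  have hXr := (le_max_right _ _).trans hXX
  have hXCg : Cg ≤ X := (le_max_left _ _).trans hXr
  have hXr2 := (le_max_right _ _).trans hXr
  have hXn : (nm (π lam).n : ℝ) ≤ X := (le_max_left _ _).trans hXr2
  have hXr3 := (le_max_right _ _).trans hXr2
  have hX2 : X₂ ≤ X := (le_max_left _ _).trans hXr3
  have hXr4 := (le_max_right _ _).trans hXr3
  have hX3' : X₃ ≤ X := (le_max_left _ _).trans hXr4
  have hX4 : X₄ ≤ X := (le_max_right _ _).trans hXr4
  have hX1 : 1 < X := by linarith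
  have hX0 : 0 < X := by linarith
  have hX1' : 1 ≤ X := hX1.le
  have hl0' : 0 < Real.log X := Real.log_pos hX1
  obtain ⟨μ, hμ, hμ1, hμε, hkk, hn1, hn2, hn3, hLmp⟩ := par_facts hl0' hc hHp
  have hμτ : μ ≤ τ := by rw [hτ]; exact le_min hμε (le_min hμ hμ1)
  have hn0 : 0 ≤ LL Dq ps₀ := by
    unfold LL
    refine List.sum_nonneg fun x hx => ?_
    obtain ⟨q, hq, rfl⟩ := List.mem_map.1 hx
    exact (hps q hq).1
  have hUl : 100 * U ≤ τ * Real.log X := by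
    have h1 : 100 * U / τ ≤ Real.log X := by
      rw [← Real.log_exp (100 * U / τ)]
      exact Real.log_le_log (Real.exp_pos _) hXe
    rw [div_le_iff₀ hτ0] at h1
    linarith
  obtain ⟨bm, hbm⟩ : ∃ x : ℝ, x = (2 * Cm + Cq + Cf) * X ^ max B₁ (K + 2) := ⟨_, rfl⟩
  have hpr' : PremX (fun lam => S0K PX764.Dk (π lam) h) L lam K v c d₀ ε M
      (2 * Sg + rl + ro + rf) bm X k Bd ps₀ := by
    rw [hbm]; exact hpr
  have T := thr_of (N := N) (U := U) hl0' hc hcK hv hv3 hd hb hτ0 hτc hτ1 hδ0 hδN hμ hμτ hn3 hn0 hk0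
    hkk hn1 hn2 hSg hrl hro hR hU hUl
  have hnK : LL Dq ps₀ ≤ (K + 1) * Real.log X := by
    have h1 : μ * Real.log X ≤ 1 / 6 * (K * Real.log X) := by
      have : μ * Real.log X ≤ (1 / 6 * K) * Real.log X :=
        mul_le_mul_of_nonneg_right (by linarith) hl0'.le
      linarith
    have h2 : 0 ≤ K * Real.log X := by positivity
    nlinarith
  have cls := clsX_of (δ := δ) (J := J) hpr' hX1 hK.le hvK (τ := τ) (by linarith) (by linarith)
    hτ0.le hnK hBd hM hJM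
  obtain ⟨l, hl⟩ : ∃ x : ℝ, x = Real.log X := ⟨_, rfl⟩
  obtain ⟨n, hn⟩ : ∃ x : ℝ, x = LL Dq ps₀ := ⟨_, rfl⟩
  have hpow : ∀ x : ℝ, X ^ x = Real.exp (x * l) := fun x => by rw [hl]; exact rpow_eq hX1 x
  rw [← hl, ← hn] at cls T
  rw [← hl] at hl0' hkk hUl hkc
  rw [← hl, ← hn] at hn1 hn2 hn3 hnK
  obtain ⟨H, hH⟩ : ∃ x : ℝ, x = Ht (natl ps₀) ^ J := ⟨_, rfl⟩
  obtain ⟨A, hA⟩ : ∃ x : ℝ, x = Ar K ![k / l, n / l] := ⟨_, rfl⟩
  obtain ⟨B, hB⟩ : ∃ x : ℝ, x = 1 + Bd * X ^ (-A) := ⟨_, rfl⟩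
  obtain ⟨x3, hx3⟩ : ∃ x : ℝ, x = X ^ (c / 3) := ⟨_, rfl⟩
  obtain ⟨z, hz⟩ : ∃ x : ℝ, x = X ^ δ := ⟨_, rfl⟩
  rw [← hH, ← hA, ← hB, ← hx3, ← hz] at cls
  have hH1 : 1 ≤ H := by rw [hH]; exact Real.one_le_rpow (one_le_Ht _) hJ0
  have hB1 : 1 ≤ B := by
    rw [hB]
    have : 0 ≤ Bd * X ^ (-A) := by positivity
    linarith
  have hx30 : 0 ≤ x3 := by rw [hx3]; positivity
  have hz1 : 1 ≤ z := by rw [hz]; exact Real.one_le_rpow hX1' hδ0.le
  have hlz : Real.log z = δ * l := by rw [hz, Real.log_rpow hX0, hl]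
  -- the base of the recursion
  obtain ⟨Xb, hXb⟩ : ∃ x : ℝ, x = X ^ b := ⟨_, rfl⟩
  have hlXb : Real.log Xb = b * l := by rw [hXb, Real.log_rpow hX0, hl]
  have hXXb : X ≤ Xb := by
    rw [hXb]
    calc X = X ^ (1 : ℝ) := (Real.rpow_one X).symm
      _ ≤ X ^ b := Real.rpow_le_rpow_of_exponent_le hX1' (by linarith)
  have hXb0 : 0 < Xb := by linarith
  have hXb1 : 1 ≤ Xb := by linarith
  have hXbc : X ^ c₀' ≤ Xb ^ c₀' := Real.rpow_le_rpow hX0.le hXXb (by linarith)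
  have hXbp : ∀ x : ℝ, Xb ^ x = X ^ (b * x) := fun x => by
    rw [hXb, ← Real.rpow_mul hX0.le]
  obtain ⟨V, hV⟩ : ∃ x : ℝ, x = (v - 50 * c + μ) * l := ⟨_, rfl⟩
  have hVe : V = v * l - 50 * (c * l) + μ * l := by rw [hV]; ring
  have hmkb : RX298.MkB (Xb ^ c₀') ps₀ := MkB_of hLmp fun q hq =>
    (hs2 q hq).trans ((Real.rpow_le_rpow_of_exponent_le hX1' hcc1).trans hXbc)
  have hDX : ∀ V' : ℝ, DX h N J c₀' Xb (Df (π lam) h z ps₀ J (K * l) n V') := fun V' =>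
    { ok := hP lam
      hh := rfl
      D0 := hz1
      J := rfl
      len := hlen
      np := hnp lam
      nP := by
        refine hXn.trans (hXXb.trans ?_)
        calc Xb = Xb ^ (1 : ℝ) := (Real.rpow_one Xb).symm
          _ ≤ Xb ^ c₀' := Real.rpow_le_rpow_of_exponent_le hXb1 hc₀1
      mkb := hmkb }
  have hnat : LF (natl ps₀) = n := by rw [LF_natl, hn]
  -- the numbers
  obtain ⟨AA, hAA⟩ : ∃ x : ℝ, x = max 0 (2 / 3 * v - n / l / 3 - d₀ + c) := ⟨_, rfl⟩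
  have hAA0 : 0 ≤ AA := by rw [hAA]; exact le_max_left _ _
  have hAAl : 0 ≤ AA * l := mul_nonneg hAA0 hl0'.le
  have hAA1 : 2 / 3 * (v * l) - n / 3 - d₀ * l + c * l ≤ AA * l := by
    have h1 : 2 / 3 * v - n / l / 3 - d₀ + c ≤ AA := by rw [hAA]; exact le_max_right _ _
    have h2 := mul_le_mul_of_nonneg_right h1 hl0'.le
    have e : (2 / 3 * v - n / l / 3 - d₀ + c) * l =
        2 / 3 * (v * l) - n / 3 - d₀ * l + c * l := by
      field_simp
    rwa [e] at h2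
  obtain ⟨Z, hZ⟩ : ∃ x : ℝ, x = Real.exp (AA * l) := ⟨_, rfl⟩
  have hZ1 : 1 ≤ Z := by rw [hZ]; exact Real.one_le_exp hAAl
  obtain ⟨TT, hTT⟩ : ∃ x : ℝ, x = X ^ τ := ⟨_, rfl⟩
  have hTT1 : 1 ≤ TT := by rw [hTT]; exact Real.one_le_rpow hX1' hτ0.le
  obtain ⟨H₀, hH₀⟩ : ∃ x : ℝ, x = Ht (natl ps₀) ^ J₀ := ⟨_, rfl⟩
  have hH₀1 : 1 ≤ H₀ := by rw [hH₀]; exact Real.one_le_rpow (one_le_Ht _) hJ₀
  have hHH : H₀ ≤ H := by
    rw [hH₀, hH]; exact Real.rpow_le_rpow_of_exponent_le (one_le_Ht _) hJJ₀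
  obtain ⟨g, hg⟩ : ∃ x : ℝ, x = Real.exp (-(c * l / 2)) := ⟨_, rfl⟩
  have hg0 : 0 ≤ g := by rw [hg]; exact (Real.exp_pos _).le
  have hcl0 : 0 < c * l := by positivity
  have hg1 : g ≤ 1 := by rw [hg]; exact Real.exp_le_one_iff.2 (by linarith)
  have hgx : g * x3 ≤ 1 := by
    rw [hg, hx3, hpow, ← Real.exp_add]
    exact Real.exp_le_one_iff.2 (by linarith)
  have h5T : Xb ^ (5 * ε₂) ≤ TT := by
    rw [hXbp, hTT]
    refine Real.rpow_le_rpow_of_exponent_le hX1' ?_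
    have := mul_le_mul_of_nonneg_left h5ε hb0.le
    linarith
  have h1T : Xb ^ ε₂ ≤ TT := by
    refine le_trans ?_ h5T
    exact Real.rpow_le_rpow_of_exponent_le hXb1 (by linarith)
  obtain ⟨t1, t2, t3, t4, t5, t6, t7, t8, t9, t10, t11, t12, t13, t33, t34, t14, t15, t16, t17,
    t18, t19, t20, t21, t22, t23, -, -, -, -, t24, t25, t26, t27, t28, t29, t30, t31, t32⟩ := T
  have hexn : Real.exp n ≤ X ^ (K + 2) := by
    rw [hpow]
    refine Real.exp_le_exp.2 ?_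
    linarith
  have hbm1 : Cq * Real.exp n ≤ bm := by
    rw [hbm]
    have h1 : X ^ (K + 2) ≤ X ^ max B₁ (K + 2) :=
      Real.rpow_le_rpow_of_exponent_le hX1' (le_max_right _ _)
    calc Cq * Real.exp n ≤ Cq * X ^ max B₁ (K + 2) := by gcongr; exact hexn.trans h1
      _ ≤ (2 * Cm + Cq + Cf) * X ^ max B₁ (K + 2) := by gcongr; linarith
  have hbm2 : Cf * X ^ B₁ ≤ bm := by
    rw [hbm]
    have h1 : X ^ B₁ ≤ X ^ max B₁ (K + 2) :=
      Real.rpow_le_rpow_of_exponent_le hX1' (le_max_left _ _)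
    calc Cf * X ^ B₁ ≤ Cf * X ^ max B₁ (K + 2) := by gcongr
      _ ≤ (2 * Cm + Cq + Cf) * X ^ max B₁ (K + 2) := by gcongr; linarith
  have hbm3 : ∀ x : ℝ, x ≤ (N + 1) * rl + (N + 1) * ro → Cg * Real.exp n * Real.exp x ≤ bm := by
    intro x hx
    refine le_trans ?_ hbm1
    rw [hCq]
    calc Cg * Real.exp n * Real.exp x = Cg * Real.exp x * Real.exp n := by ring
      _ ≤ _ := by gcongr
  have hbm4 : Cg * Real.exp n ≤ bm := by
    have := hbm3 0 (by positivity)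
    rwa [Real.exp_zero, mul_one] at this
  have hBH0 : 0 ≤ B * H := by positivity
  -- the claims of the lower bound
  obtain ⟨lo, hlo⟩ : ∃ x : ℝ, x = n - 2 * (c * l) - N * (δ * l) - rl := ⟨_, rfl⟩
  obtain ⟨σ₂, hσ₂⟩ : ∃ x : ℝ, x = n + N * Sg + rl := ⟨_, rfl⟩
  have hxXb : 3 ≤ Xb := hX3.trans hXXb
  have hsp : ∀ x : ℝ, Sg + rl + x ≤ 2 * Sg + rl + ro + rf ↔ x ≤ Sg + ro + rf := fun x => by
    constructor <;> intro h <;> linarith
  have hClf : ClXK Dk (ex0 (K * l)) (Df (π lam) h z ps₀ J (K * l) n (v * l)) (Ge lo)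
      (Co * Xb ^ ε₂ * (B * H * x3)) (Sg + rl) (0 + rl) (Cg * Real.exp n * Real.exp rl) σ₂ := by
    refine hop Xb hxXb (Df (π lam) h z ps₀ J (K * l) n (v * l)) (hP lam) rfl hz1 rfl hlen
      (B * H * x3) (Sg + rl) (0 + rl) (Cg * Real.exp n * Real.exp rl) (Real.exp (N * ro)) lo
      (lo - N * (δ * l + ro)) σ₂ (σ₂ + N * ro) (by positivity) le_rfl ?_ le_rfl ?_ ?_
    · intro ps h1 h2 h3
      rw [hlXb]
      constructor
      · linarith
      · show v * l + (n - LF ps) + (0 + rl) ≤ b * l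
        linarith
    · show lo - N * (δ * l + ro) ≤ lo - N * (Real.log z + ro)
      rw [hlz]
    · refine cls.tf _ _ _ _ _ _ (by linarith) ?_ (by linarith) (by rw [hlo]; linarith)
      rw [mul_assoc (Cg * Real.exp n), ← Real.exp_add]
      exact hbm3 _ (by linarith)
  have hClr : ClXK Dk (ex0 (K * l)) (Dr (d₀ * l) (Df (π lam) h z ps₀ J (K * l) n (v * l))) (Ge lo)
      (Co * Xb ^ ε₂ * (B * H)) (2 * Sg + rl) (0 + rl) (Cg * Real.exp n * Real.exp rl) σ₂ := by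
    refine hop Xb hxXb (Dr (d₀ * l) (Df (π lam) h z ps₀ J (K * l) n (v * l))) (hP lam) rfl hz1 rfl
      (by
        show (rpB (d₀ * l) ps₀).length ≤ N
        rw [rpB_length]; exact hlen)
      (B * H) (2 * Sg + rl) (0 + rl) (Cg * Real.exp n * Real.exp rl) (Real.exp (N * ro)) lo
      (lo - N * (δ * l + ro)) σ₂ (σ₂ + N * ro) (by positivity) le_rfl ?_ le_rfl ?_ ?_
    · intro ps h1 h2 h3
      rw [hlXb]
      constructor
      · linarith
      · show v * l + (n - LF ps) + (0 + rl) ≤ b * l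
        linarith
    · show lo - N * (δ * l + ro) ≤ lo - N * (Real.log z + ro)
      rw [hlz]
    · refine cls.tt _ _ _ _ _ _ (by linarith) ?_ (by linarith) (by rw [hlo]; linarith)
      rw [mul_assoc (Cg * Real.exp n), ← Real.exp_add]
      exact hbm3 _ (by linarith)
  have hQrl : Cg * Real.exp n * Real.exp rl ≤ bm := hbm3 rl (by linarith)
  have hClN : ClNK Dk (Df (π lam) h z ps₀ J (K * l) n (v * l)) (exJ (K * l) (v * l) n (c * l))
      (B * H) (Sg + rl) (0 + rl) (Cg * Real.exp n * Real.exp rl) 0 (n - c * l + τ * l) :=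
    cls.jf _ _ _ _ _ _ (by linarith) hQrl (by linarith) le_rfl le_rfl
  have hClNr : ClNK Dk (Dr (d₀ * l) (Df (π lam) h z ps₀ J (K * l) n (v * l)))
      (exJ (K * l) (v * l) n (c * l))
      (B * H) (2 * Sg + rl) (0 + rl) (Cg * Real.exp n * Real.exp rl) 0 (n - c * l + τ * l) :=
    cls.jt _ _ _ _ _ _ (by linarith) hQrl (by linarith) le_rfl le_rfl
  have hXK : Real.exp (K * l) = X ^ K := (hpow K).symm
  have hXc : Real.exp (c * l) = X ^ c := (hpow c).symm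
  have he3 : 0 ≤ e₃ * (b * l) ∧ e₃ * (b * l) ≤ τ * l := by
    constructor
    · positivity
    · calc e₃ * (b * l) ≤ ε₁ * (b * l) := mul_le_mul_of_nonneg_right he₃ε (by positivity)
        _ = (ε₁ * b) * l := by ring
        _ = τ * l := by rw [hε₁b]
  have hLB' : ∀ a : ℝ, τ * l ≤ a → a ≤ 2 * (τ * l) → ∀ (q : Eis) (ps : List Pf), IsPrim q →
      (nm q : ℝ) * Real.exp (LF ps) ≤ Cg * Real.exp n → SbL Sg ps ps₀ → n - c * l ≤ LF ps →
      LBn w Cw η₀ (Jn + 2) (Real.exp (K * l)) (Real.exp (LF ps)) Xb (Real.exp (c * l))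
        (cN1 (V + (n - LF ps) + a + e₃ * (b * l)))
        (rho (cN0 (V + (n - LF ps) + a + e₃ * (b * l))) (cN1 (V + (n - LF ps) + a + e₃ * (b * l))))
        R Jn (xs q z z (π lam) h (d₀ * l) ps)
        (Elx Cl Co Cf TT B H H₀ Z g x3 * Ht ps ^ J * Real.exp (2 * LF ps)) := by
    intro a ha1 ha2 q ps hq hqQ hsb hLFlo
    obtain ⟨he30, he31⟩ := he3
    obtain ⟨m₁, hm₁⟩ : ∃ x : ℝ, x = LF ps := ⟨_, rfl⟩
    obtain ⟨Lv, hLv⟩ : ∃ x : ℝ, x = V + (n - LF ps) + a + e₃ * (b * l) := ⟨_, rfl⟩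
    rw [← hLv]
    have hLFhi : LF ps ≤ n + N * Sg := by
      have := hsb.LF_le hSg hlen
      rwa [hnat] at this
    have hLF0 : 0 ≤ LF ps := LF_nonneg hsb.z_nonneg
    rw [← hm₁] at hLv hLFhi hLF0 hLFlo hqQ ⊢
    have hLv0 : 0 ≤ Lv := by linarith
    have hLv1 : Lv + (m₁ - n) ≤ v * l - 50 * (c * l) + μ * l + 3 * (τ * l) := by linarith
    have hcN0 : 1 ≤ cN0 Lv := one_le_cN0 hLv0
    have hcN : cN0 Lv ≤ cN1 Lv := cN0_le hLv0
    have hcNa : Real.exp Lv ≤ cN0 Lv := Nat.le_ceil _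
    have hcNb : 9 * (cN1 Lv : ℝ) ≤ Real.exp (Lv + 4) := cN1_le Lv
    have hlg : Lg2 (d₀ * l) ps := by
      refine RXi848.lg2_of (s := Sg) (x := (d₀ + 3 / 2 * c) * l) (y := c * l) (Nr := N) hSg hsb
        (Lg2B_of le_rfl (by rw [← hl] at hLmp; exact hLmp)) (by rw [hnat, ← hm₁]; exact hLFlo)
        (by exact_mod_cast hlen) ?_
      linarith
    have hqX : (nm q : ℝ) ≤ X ^ c₀' := by
      have h1 : (nm q : ℝ) ≤ Cg * Real.exp (n - m₁) := by
        rw [Real.exp_sub, ← mul_div_assoc, le_div_iff₀ (Real.exp_pos _)]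
        exact hqQ
      have h2 : Real.exp (n - m₁) ≤ X ^ c := by
        rw [← hXc]; exact Real.exp_le_exp.2 (by linarith)
      calc (nm q : ℝ) ≤ Cg * Real.exp (n - m₁) := h1
        _ ≤ X ^ (1 : ℝ) * X ^ c := by rw [Real.rpow_one]; gcongr
        _ = X ^ (1 + c) := by rw [← Real.rpow_add hX0]
        _ ≤ X ^ c₀' := Real.rpow_le_rpow_of_exponent_le hX1' (by linarith)
    have hQX : QX c₀' Xb Sg (Cg * Real.exp n) (d₀ * l)
        (Df (π lam) h z ps₀ J (K * l) n (v * l)) q ps :=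
      { prim := hq
        qX := hqX.trans hXbc
        qQ := by rw [← hm₁]; exact hqQ
        sb := hsb
        lg := hlg
        LX := by rw [hlXb, ← hm₁]; linarith
        d0 := by positivity
        s0 := hSg }
    have key := hlb Xb hxXb (hX3'.trans hXXb) (Df (π lam) h z ps₀ J (K * l) n (v * l))
      (hDX (v * l)) (by show 0 ≤ K * l; positivity) (by show K * l ≤ Real.log Xb; rw [hlXb]; linarith)
      (Co * Xb ^ ε₂ * (B * H * x3)) (Co * Xb ^ ε₂ * (B * H)) (B * H) Sg 0 (Cg * Real.exp n)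
      (Real.exp rl) (c * l) (τ * l) lo 0 σ₂ (d₀ * l) (AA * l) (by positivity) (by positivity) hBH0
      le_rfl le_rfl le_rfl t8.le hcl0.le
      (by
        rw [hlXb]
        have : c / b * (b * l) = c * l := by field_simp
        rw [this])
      t3 hClf hClr hClN hClNr q ps hQX (by rw [hlXb, ← hm₁]; linarith)
      (by show n - c * l ≤ LF ps; rw [← hm₁]; exact hLFlo)
      (by rw [← hm₁]; linarith)
      (by
        show lo + c * l + N * Real.log z + rl ≤ LF ps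
        rw [hlz, ← hm₁, hlo]; linarith)
      (by
        show LF ps - c * l + rl ≤ n - c * l + τ * l
        rw [← hm₁]; linarith)
      (by
        show LF ps ≤ K * l + c * l
        rw [← hm₁]; linarith)
      (cN0 Lv) (cN1 Lv) Lv hcN0 hcN hcNa hcNb
      (by rw [hlXb]; linarith)
      (by
        show Lv + 4 + 20 * (c * l) ≤ v * l + (n - LF ps) + 0
        rw [← hm₁]; linarith)
      (by
        show Lv + 4 + 30 * (c * l) ≤ 2 * (K * l)
        linarith)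
      (by
        show 3 * (Lv + 4) ≤ 2 * (K * l)
        linarith)
      (by
        show c * l + 4 * Real.log z - d₀ * l + (LF ps + (Lv + 4 + 20 * (c * l)) - K * l) / 3 ≤ AA * l
        rw [hlz, ← hm₁]
        linarith)
      (Cf * TT * g) (Cf * TT * H₀ * (Z + B)) (by positivity) (by positivity) ?_
    · rw [hm₁]
      refine LBn.mono key (Real.exp_pos _).le (Real.exp_pos _).le ?_
      have hE1 : Real.exp (N * Real.log z + 0) ≤ TT := by
        rw [hlz, hTT, hpow]; exact Real.exp_le_exp.2 (by linarith)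
      show (Cl * Xb ^ (5 * ε₂) * (1 + (Real.exp (-(c * l / 2)) + Cf * TT * g) *
        (Co * Xb ^ ε₂ * (B * H * x3) + Co * Xb ^ ε₂ * (B * H) + Real.exp (AA * l) +
        ((B * H + B * H) * Real.exp (N * Real.log z + 0) + Real.exp (AA * l))) +
        Cf * TT * H₀ * (Z + B))) * Ht ps ^ J * Real.exp (2 * LF ps) ≤ _
      rw [← hg, ← hZ]
      unfold Elx
      have f1 : Co * Xb ^ ε₂ * (B * H * x3) ≤ Co * TT * (B * x3 * H) := by
        have e : B * H * x3 = B * x3 * H := by ring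
        rw [e]
        gcongr
      have f2 : Co * Xb ^ ε₂ * (B * H) ≤ Co * TT * (B * 1 * H) := by
        rw [mul_one]
        gcongr
      have f3 : (B * H + B * H) * Real.exp (N * Real.log z + 0) ≤ (B * H + B * H) * TT := by
        gcongr
      have f0 : 0 ≤ Co * Xb ^ ε₂ * (B * H * x3) + Co * Xb ^ ε₂ * (B * H) + Z +
        ((B * H + B * H) * Real.exp (N * Real.log z + 0) + Z) := by positivity
      have hHt := one_le_Ht ps
      gcongr
    · -- the R-side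
      intro Ma Ml hMa hMl hS hL
      have hS' : NumS ⟨Cw, η₀, Jn + 2, X ^ K, Real.exp (LF ps), X ^ b, R, Jn, cN0 Lv, cN1 Lv,
          X ^ c, X ^ c, X ^ c⟩
          (xs q (X ^ δ) (X ^ δ) (π lam) h (d₀ * Real.log X) ps) Ma := by
        rw [← hXK, ← hXc, ← hXb, ← hz, ← hl]; exact hS
      have hL' : NumL ⟨Cw, η₀, Jn + 2, X ^ K, Real.exp (LF ps), X ^ b, R, Jn, cN0 Lv, cN1 Lv,
          X ^ c, X ^ c, X ^ c⟩
          (xs q (X ^ δ) (X ^ δ) (π lam) h (d₀ * Real.log X) ps) Ml := by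
        rw [← hXK, ← hXc, ← hXb, ← hz, ← hl]; exact hL
      have hfac : RFacts K c τ X ps₀ ps Lv (cN0 Lv) (cN1 Lv) :=
        { nK := by rw [← hl, ← hn]; linarith
          lo := by rw [← hl, ← hn, ← hm₁]; exact hLFlo
          hi := by rw [← hl, ← hn, ← hm₁]; linarith
          v0 := hLv0
          n56 := by rw [← hl, ← hn]; linarith
          v3 := by rw [← hl]; linarith
          vn := by rw [← hl, ← hm₁]; linarith
          ec := by linarith
          N2 := cN0_le2 hLv0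
          N0 := hcNa
          N01 := hcN
          N1 := hcNb }
      have hTK : TK K = 10 * (K + 1) := rfl
      have hdv : ∀ {x y : ℝ}, x ≤ y * l → x / l ≤ y := fun h => by
        rw [div_le_iff₀ hl0']; exact h
      have hln : ∀ t : Bool, LnP L lam K τ M rf (Cf * X ^ B₁) X (LF ps / Real.log X)
          (Lv / Real.log X) B (rbx d₀ t X ps₀) := by
        intro t
        refine LnP.mono (lnP_of hpr' hX1 (τ := τ) (by linarith) (t := t) (by linarith) hbm2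
          ?_ ?_ ?_ ?_ ?_ ?_ ?_) hX0.le ?_
        · rw [← hl, ← hm₁]; positivity
        · rw [← hl, ← hm₁, hTK]; exact hdv (by linarith)
        · rw [← hl]; positivity
        · rw [← hl, hTK]; exact hdv (by linarith)
        · rw [← hl, ← hm₁, ← hn, ← sub_div]; exact hdv (by linarith)
        · rw [← hl, ← hm₁, ← hn, ← sub_div, sub_le_iff_le_add]
          refine hdv ?_
          linarith
        · rw [← hl, ← hm₁, ← hn]
          have e : Lv / l - v - (n / l - m₁ / l) = (Lv - v * l - (n - m₁)) / l := by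
            field_simp
          rw [e]
          exact hdv (by linarith)
        · rw [← hl, ← hn, ← hA, hB]
          linarith
      have key2 := hlf X hX3 hX4 ps₀ hlen (fun q' hq' => ⟨(hps q' hq').1,
          (hps q' hq').2.trans (mul_le_mul_of_nonneg_right hcc1 (by rw [← hl]; exact hl0'.le))⟩)
        (fun q' hq' => (hs2 q' hq').trans (Real.rpow_le_rpow_of_exponent_le hX1' hcc1))
        hLmp q ps Lv (cN0 Lv) (cN1 Lv) hfac hq hqX hsb B Ma Ml hB1 hMa hMl hln hS' hL'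
      have key3 : RR Λ ⟨Cw, η₀, Jn + 2, Real.exp (K * l), Real.exp (LF ps), Xb, R, Jn, cN0 Lv,
          cN1 Lv, Real.exp (c * l), Real.exp (c * l), Real.exp (c * l)⟩
          (xs q z z (π lam) h (d₀ * l) ps)
          (Cf * X ^ τ * (Ht ps * Ht (natl ps₀)) ^ J₀ *
          (X ^ bX K c d₀ 20 (LF ps / Real.log X) (Lv / Real.log X) + B) * Real.exp (2 * LF ps) +
          Cf * X ^ τ * X ^ (-(c / 2)) * (Ma + Ml)) := by
        rw [hXK, hXc, hXb, hz, hl]; exact key2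
      refine hRR Λ _ _ _ _ hΛ (Real.exp_pos _).le (Real.exp_pos _).le
        (Real.one_le_exp (by positivity)) ?_ key3 ?_
      · show Real.exp (LF ps) ^ 2 * Real.exp (c * l) ^ 20 ≤ Real.exp (K * l) * (cN0 Lv : ℝ)
        have e20 : Real.exp (c * l) ^ 20 = Real.exp (20 * (c * l)) := by
          rw [← Real.exp_nat_mul]; norm_num
        rw [hpw_two, e20, ← hm₁]
        calc Real.exp (2 * m₁) * Real.exp (20 * (c * l)) = Real.exp (2 * m₁ + 20 * (c * l)) := by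
              rw [← Real.exp_add]
          _ ≤ Real.exp (K * l + Lv) := Real.exp_le_exp.2 (by linarith)
          _ = Real.exp (K * l) * Real.exp Lv := Real.exp_add _ _
          _ ≤ _ := by gcongr
      · have hHt := one_le_Ht ps
        have hHt0 := one_le_Ht (natl ps₀)
        have e1 : (Ht ps * Ht (natl ps₀)) ^ J₀ ≤ Ht ps ^ J * H₀ := by
          rw [Real.mul_rpow (by linarith) (by linarith), ← hH₀]
          exact mul_le_mul_of_nonneg_right (Real.rpow_le_rpow_of_exponent_le hHt hJJ₀) (by linarith)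
        have e2 : X ^ bX K c d₀ 20 (LF ps / Real.log X) (Lv / Real.log X) ≤ Z := by
          rw [hZ, hpow, ← hl, ← hm₁]
          refine Real.exp_le_exp.2 (mul_le_mul_of_nonneg_right ?_ hl0'.le)
          unfold bX
          refine max_le hAA0 ?_
          have e : 20 * c + (Lv / l + m₁ / l - K) / 3 - d₀ =
              (20 * (c * l) + (Lv + m₁ - K * l) / 3 - d₀ * l) / l := by
            field_simp
          rw [e]
          exact hdv (by linarith)
        have e3 : X ^ (-(c / 2)) = g := by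
          rw [hpow, hg]; congr 1; ring
        rw [e3, ← hTT]
        have e4 : Cf * TT * (Ht ps * Ht (natl ps₀)) ^ J₀ *
            (X ^ bX K c d₀ 20 (LF ps / Real.log X) (Lv / Real.log X) + B) * Real.exp (2 * LF ps) ≤
            Cf * TT * (Ht ps ^ J * H₀) * (Z + B) * Real.exp (2 * LF ps) := by
          gcongr
        have e5 : Cf * TT * (Ht ps ^ J * H₀) * (Z + B) * Real.exp (2 * LF ps) =
            Cf * TT * H₀ * (Z + B) * Ht ps ^ J * Real.exp (2 * LF ps) := by ring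
        linarith
  have hεl : ε₁ * Real.log Xb = τ * l := by rw [hlXb, ← mul_assoc, hε₁b]
  have hEl0 : 0 ≤ Elx Cl Co Cf TT B H H₀ Z g x3 := by
    unfold Elx
    positivity
  have hfin := hrg Xb hxXb (hX2.trans hXXb) (Df (π lam) h z ps₀ J (K * l) n V) (hDX V)
    (by
      show z = Xb ^ (δ / b)
      rw [hXbp, hz]; congr 1; field_simp)
    rfl (fun q hq => (hps q hq).1) (by show n = LF (natl ps₀); rw [hnat])
    (by show 0 ≤ K * l; positivity) (by show 0 ≤ V; linarith)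
    (by show n ≤ Real.log Xb / 4; rw [hlXb]; linarith)
    (by show V ≤ Real.log Xb / 4; rw [hlXb]; linarith)
    (by show 2 * n ≤ K * l + V; linarith) cN0 cN1 (fun L => rho (cN0 L) (cN1 L)) cutF (c * l)
    (B * H) (Elx Cl Co Cf TT B H H₀ Z g x3) (Real.exp (c * l)) (d₀ * l) (AA * l)
    (by
      rw [hlXb]
      have e : δ / b * (b * l) = δ * l := by field_simp
      rw [e]
      linarith)
    (by rw [hlXb]; linarith) hBH0 hEl0 le_rfl (by positivity)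
    (by
      rw [hεl]
      refine Lg2B_of ?_ hLmp
      rw [← hl]
      linarith)
    (by
      rw [hlXb]
      have e : δ / b * (b * l) = δ * l := by field_simp
      have e' : ε₁ * (b * l) = τ * l := by rw [← mul_assoc, hε₁b]
      rw [e, e']
      show c * l + 4 * (δ * l) - d₀ * l + (V + n + 2 * (τ * l) - K * l) / 3 ≤ AA * l
      linarith)
    (by rw [hεl]; exact cls.jf _ _ _ _ _ _ (by linarith) hbm4 (by linarith) (by linarith) le_rfl)
    (by rw [hεl]; exact cls.pf _ _ _ _ _ _ (by linarith) hbm4 (by linarith) le_rfl le_rfl)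
    (by rw [hεl]; exact cls.jt _ _ _ _ _ _ (by linarith) hbm4 (by linarith) (by linarith) le_rfl)
    (by rw [hεl]; exact cls.tt _ _ _ _ _ _ (by linarith) hbm4 (by linarith) le_rfl)
    (fun a h1 h2 q ps h3 h4 _ h5 h6 => by
      rw [hεl] at h1 h2
      have h7 := hLB' a h1 h2 q ps h3 h4 h5 h6
      rw [← hlXb] at h7
      exact h7)
    k hk0 (by show k ≤ V; linarith)
  clear hLB' cls hClf hClr hClN hClNr hDX hrg hlb hop hlf hR1 hR2 hpr' hpr hleaf hLB hRR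
  have hXb5 : Xb ^ (3 * (m * ε₂) + 5 * ε₂ + 4 * ε₁) = TT ^ 5 := by
    have e : 3 * (m * ε₂) + 5 * ε₂ + 4 * ε₁ = 5 * ε₁ := by rw [h35]; ring
    rw [e, hXbp, hTT, ← Real.rpow_natCast, ← Real.rpow_mul hX0.le]
    congr 1
    rw [← hε₁b]
    push_cast
    ring
  obtain ⟨F, hF⟩ : ∃ x : ℝ, x = Real.exp (RG64.fl (K * l) k n) := ⟨_, rfl⟩
  have hF0 : 0 ≤ F := by rw [hF]; exact (Real.exp_pos _).le
  have hfin2 : S0K Dk (π lam) h k ps₀ ≤
      Cg * TT ^ 5 * (Elx Cl Co Cf TT B H H₀ Z g x3 + B * H + Z + 1) * H * F := by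
    have e : SFK Dk z z 1 (π lam) h k (natl ps₀) = S0K Dk (π lam) h k ps₀ :=
      SFK_natl_one Dk (π lam) h z z k ps₀
    have h3 : SFK Dk z z 1 (π lam) h k (natl ps₀) ≤
      Cg * Xb ^ (3 * (m * ε₂) + 5 * ε₂ + 4 * ε₁) * (Elx Cl Co Cf TT B H H₀ Z g x3 + B * H +
        Real.exp (AA * l) + 1) * Ht (natl ps₀) ^ J * Real.exp (RG64.fl (K * l) k n) := hfin
    rw [e, hXb5, ← hF, ← hZ, ← hH] at h3
    exact h3
  have hconst := rgx_const (Cg := Cg) (Cl := Cl) (Co := Co) (Cf := Cf) (T := TT) (H := H)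
    (H₀ := H₀) (Z := Z) (B := B) (g := g) (x3 := x3)
    (El := Elx Cl Co Cf TT B H H₀ Z g x3) (F := F) hCg0 hCl hCo0 hCf hTT1 hH1 hHH hZ1 (by linarith)
    hg0 hg1 hx30 hgx hF0 rfl
  rw [← hCm] at hconst
  have hFA : F = X ^ A := by
    rw [hF, hpow, hA, Ar_eq hl0']
  obtain ⟨Ax', hAx⟩ : ∃ x : ℝ, x = Ax K v c d₀ ![k / l, n / l] := ⟨_, rfl⟩
  have hZF : Z * F = X ^ Ax' := by
    rw [hZ, hF, ← Real.exp_add, hpow, hAx, Ax_eq hl0', ← hAA]
    congr 1
    ring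
  have hXA : X ^ A ≤ X ^ Ax' := by
    rw [← hFA, ← hZF]
    exact le_mul_of_one_le_left hF0 hZ1
  have hBF : (Z + B) * F ≤ 2 * (X ^ Ax' + Bd) := by
    rw [add_mul, hZF, hB, hFA]
    have e : (1 + Bd * X ^ (-A)) * X ^ A = X ^ A + Bd := by
      have : X ^ (-A) * X ^ A = 1 := by rw [← Real.rpow_add hX0]; simp
      calc (1 + Bd * X ^ (-A)) * X ^ A = X ^ A + Bd * (X ^ (-A) * X ^ A) := by ring
        _ = _ := by rw [this, mul_one]
    rw [e]
    linarith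
  have hT8 : TT ^ 8 ≤ X ^ ε := by
    rw [hTT, ← Real.rpow_natCast, ← Real.rpow_mul hX0.le]
    refine Real.rpow_le_rpow_of_exponent_le hX1' ?_
    push_cast
    linarith
  have hHH2 : H * H = (ps₀.map Dq.s1).prod ^ (2 * J) := by
    rw [hH, ← Ht_natl, ← Real.rpow_add (by have := one_le_Ht (natl ps₀); linarith)]
    congr 1
    ring
  have hP0 : 0 ≤ (ps₀.map Dq.s1).prod ^ (2 * J) := by rw [← hHH2]; positivity
  have hXA0 : 0 ≤ X ^ Ax' + Bd := by positivity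
  have hXε0 : 0 ≤ X ^ ε := by positivity
  rw [← hl, ← hn]
  show S0K Dk (π lam) h k ps₀ ≤ _
  rw [← hAx]
  calc S0K Dk (π lam) h k ps₀ ≤ Cm * TT ^ 8 * (H * H) * ((Z + B) * F) := hfin2.trans hconst
    _ ≤ Cm * X ^ ε * (ps₀.map Dq.s1).prod ^ (2 * J) * (2 * (X ^ Ax' + Bd)) := by
        rw [hHH2]
        gcongr
    _ = (2 * Cm) * X ^ ε * (ps₀.map Dq.s1).prod ^ (2 * J) * (X ^ Ax' + Bd) := by ring
    _ ≤ (2 * Cm + Cq + Cf) * X ^ ε * (ps₀.map Dq.s1).prod ^ (2 * J) * (X ^ Ax' + Bd) := by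
        gcongr
        linarith

end Crest.Agent.R017.RXk848
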