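import Crest.Agent.R017.GrE_579
import Crest.Agent.R017.RXc_770

/-!
# Row 17, x-side of E4: the weight of a conductor (helper770)

* `qg` : `nm q ^ 2 * nm g`, `P = q g² r³`
* **`qg_eq`** : it is the kernel norm of `P ^ 2`
* `qg_le` : upper bound by any decomposition up to cubes
-/

set_option autoImplicit false

noncomputable section

namespace Crest.Agent.R017.RXn770

open Crest.Agent.R012 Crest.Agent.R012.Eis
open Crest.Agent.R012.GLS106 (dec dec_spec)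
open Crest.Agent.R012.NonCube52 (Ker kv Good kc kc_spec kc_nm kv_ne_zero)
open Crest.Agent.R017.Mode405 (nk)
open Crest.Agent.R017.C70 (CbF)

/-- `nm q ^ 2 * nm g` for `P = q g² r³` -/
def qg (P : Eis) : ℝ := (nm (dec P).1 : ℝ) ^ 2 * nm (dec P).2.1

lemma nk_cbf {x : Eis} (hx : x ≠ 0) (h : CbF x) : nk x = nm x := by
  obtain ⟨g, hn, hXe, -⟩ := kc_spec hx
  have hu : IsUnit (kc x).2 := by
    by_contra hu
    obtain ⟨p, hp, hpd⟩ := WfDvdMonoid.exists_irreducible_factor hu hn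
    refine h p hp.prime ((pow_dvd_pow_of_dvd hpd 3).trans ?_)
    conv_rhs => rw [hXe]
    exact dvd_mul_left _ _
  have h1 := kc_nm hx
  have h2 : nm (kc x).2 = 1 := isUnit_iff.1 hu
  rw [h2] at h1
  unfold Mode405.nk
  rw [← h1]
  norm_num

lemma nk_le_nm' {x : Eis} (hx : x ≠ 0) : nk x ≤ nm x := by
  obtain ⟨g, hn, hXe, -⟩ := kc_spec hx
  have h1 := kc_nm hx
  have h2 : (1 : ℝ) ≤ (nm (kc x).2 : ℝ) ^ 3 := one_le_pow₀ (by exact_mod_cast nm_pos.2 hn)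
  unfold Mode405.nk
  rw [← h1]
  exact le_mul_of_one_le_right (Nat.cast_nonneg _) h2

lemma nk_cube' {x n : Eis} (hx : x ≠ 0) (hn : n ≠ 0) : nk (x * n ^ 3) = nk x := by
  unfold Mode405.nk
  rw [LSq50.kc_of_eq hx hn rfl]

/-- **the weight is the kernel norm of the square** -/
theorem qg_eq {P : Eis} (hP : IsPrim P) : qg P = nk (P ^ 2) := by
  obtain ⟨p1, p2, p3, s1, s2, hc, he⟩ := dec_spec hP
  have e1 : P ^ 2 = ((dec P).2.1 * (dec P).1 ^ 2) * ((dec P).2.1 * (dec P).2.2 ^ 2) ^ 3 := by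
    conv_lhs => rw [he]
    ring
  have h0 : (dec P).2.1 * (dec P).1 ^ 2 ≠ 0 := mul_ne_zero p2.ne_zero (pow_ne_zero 2 p1.ne_zero)
  rw [e1, nk_cube' h0 (mul_ne_zero p2.ne_zero (pow_ne_zero 2 p3.ne_zero)),
    nk_cbf h0 (GrE579.cbF_dec s2 s1 hc.symm), nm_mul, nm_pow]
  unfold qg
  push_cast
  ring

/-- **upper bound by any decomposition up to cubes** -/
theorem qg_le {P a b c m : Eis} (hP : IsPrim P) (ha : a ≠ 0) (hb : b ≠ 0) (hc : c ≠ 0)
    (hm : m ≠ 0) (h : P * m ^ 3 = a * b ^ 2 * c ^ 3) : qg P ≤ (nm a : ℝ) ^ 2 * nm b := by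
  rw [qg_eq hP]
  have h0 : P ^ 2 ≠ 0 := pow_ne_zero 2 hP.ne_zero
  have e1 : nk (P ^ 2) = nk (P ^ 2 * (m ^ 2) ^ 3) := (nk_cube' h0 (pow_ne_zero 2 hm)).symm
  have e2 : P ^ 2 * (m ^ 2) ^ 3 = (a ^ 2 * b) * (b * c ^ 2) ^ 3 := by
    have : (P * m ^ 3) ^ 2 = (a * b ^ 2 * c ^ 3) ^ 2 := by rw [h]
    linear_combination this
  have h1 : a ^ 2 * b ≠ 0 := mul_ne_zero (pow_ne_zero 2 ha) hb
  rw [e1, e2, nk_cube' h1 (mul_ne_zero hb (pow_ne_zero 2 hc))]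
  refine (nk_le_nm' h1).trans ?_
  rw [nm_mul, nm_pow]
  push_cast
  exact le_rfl

lemma qg_pos {P : Eis} (hP : IsPrim P) : 0 < qg P := by
  obtain ⟨p1, p2, p3, s1, s2, hc, he⟩ := dec_spec hP
  unfold qg
  have h1 : (0 : ℝ) < nm (dec P).1 := by exact_mod_cast nm_pos.2 p1.ne_zero
  have h2 : (0 : ℝ) < nm (dec P).2.1 := by exact_mod_cast nm_pos.2 p2.ne_zero
  positivity

end Crest.Agent.R017.RXn770
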