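import Crest.Agent.R017.RXo_440
import Crest.Agent.R017.E2G_764
import Crest.Agent.R017.P1Rh_440

/-!
# Row 17, class E, the R-side of `P1` (helper440): the frame `S8X`

* `CfX` : the numbers of a child near a configuration; **`cfX_of`**
* **`numX_of`** : `NumX` at a block (differences and single lists)
* `lstX_of` : the parent lists
-/

set_option autoImplicit false
set_option maxHeartbeats 4000000

noncomputable section

open Finset
open scoped ComplexConjugate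

namespace Crest.Agent.R017.RXt440

open Crest.Agent.R012 Crest.Agent.R012.Eis
open Crest.Agent.R012.LS2 (S mem_S)
open Crest.Agent.R017.B770
open Crest.Agent.R017.Prov71
open Crest.Agent.R017.I1146 (LN)
open Crest.Agent.R017.XG702 (Pcs)
open Crest.Agent.R017.XT71 (Sys Win mx)
open Crest.Agent.R017.UM71 Crest.Agent.R017.End699
open Crest.Agent.R017.E5B71 Crest.Agent.R017.E5P571 Crest.Agent.R017.E5L770
open Crest.Agent.R017.ExBox960 Crest.Agent.R017.ExP960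
open Crest.Agent.R017.Sf770
open Crest.Agent.R017.P1e54 Crest.Agent.R017.P1f54 Crest.Agent.R017.P1k54
open Crest.Agent.R017.P1l54 (ParOK)
open Crest.Agent.R017.P1X960
open Crest.Agent.R017.P10X764
open Crest.Agent.R017.P1F904 (Dp)
open Crest.Agent.R017.LBx48 (neb)
open Crest.Agent.R017.P1Rh440 (Lst)
open Crest.Agent.R017.P1Hl440 (dp_hom)
open Crest.Agent.R017.RXo440

/-- the numbers of a child near a configuration (`L = log X`) -/
structure CfX (c L δ κ u₂ u₃ u₄ x zs v₀ v₁ v₂ x' bb : ℝ) (a : BcX) (qs : List Pq) : Prop where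
  hk : |a.1.l - κ * L| ≤ δ * L
  hz : |a.1.z - x * L| ≤ δ * L
  hA : |a3 a.1.toBd - (u₂ + u₃ + u₄) * L| ≤ 3 * (δ * L)
  hd : |dz a.1 - (u₂ - zs) * L| ≤ 2 * (δ * L)
  h0 : |(a.2.1 0).z - v₀ * L| ≤ δ * L
  h1 : |(a.2.1 1).z - v₁ * L| ≤ δ * L
  h2 : |(a.2.1 2).z - v₂ * L| ≤ δ * L
  hb : |a.2.2 - bb * L| ≤ δ * L
  nl : |LN (clN a qs) - (v₀ + v₁ + v₂ + x') * L| ≤ 4 * (δ * L)
  lo : (κ / 2 - 2 * x) * L - 4 * (δ * L) ≤ LN (clN a qs)
  w : LN qs ≤ x * L + δ * L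
  w0 : 0 ≤ LN qs
  t1 : ∀ j : ℕ, j < nw c a → Real.log 2 * j ≤
    (min (2 * (u₂ + u₃ + u₄) - κ) (3 / 4 * (u₂ + u₃ + u₄)) + 11 / 5 * x) * L + 20 * (δ * L)
  t2 : ∀ j : ℕ, j < nw c a → Real.log 2 * j + 2 * (bb * L) ≤
    (min (2 * (u₂ + u₃ + u₄) - κ) (3 / 4 * (u₂ + u₃ + u₄)) + 11 / 5 * x + 2 * c * κ) * L +
      20 * (δ * L)
  z0 : 0 ≤ (a.2.1 0).z
  z1 : 0 ≤ (a.2.1 1).z
  z2 : 0 ≤ (a.2.1 2).z

/-- the numbers of a child, from the window -/
lemma cfX_of {P : DPar} {st : Eis} {c β X δ B ρ : ℝ} {N : ℕ} {Par : Set (Fin 3 ⊕ Fin 5 → ℝ)}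
    {a : BcX} {qs : List Pq} {Lc : (IX5 → ℝ) → ℝ → ℝ → ℝ → Prop}
    {q : (I8X → ℝ) × (Kd → ℝ)} (hX : 1 < X) (hδ : 0 ≤ δ) (hc0 : 0 ≤ c) (hc1 : c ≤ 1)
    (hq : q ∈ Dom8X c β Par Lc) (hP : ParOK (prX (bp q.1)))
    (hw : Win S8X q.1 δ N B ρ X a) (hm : ∀ t, |Dq.mass X qs t - q.2 t| ≤ δ)
    (hg : Dq.Good X ρ B qs) (hok : okCX P st a qs) :
    CfX c (Real.log X) δ (cκ (prX (bp q.1))) (cu (prX (bp q.1)) 2) (cu (prX (bp q.1)) 3)
      (cu (prX (bp q.1)) 4) (cx' (prX (bp q.1))) ((bp q.1) (.inr 1)) (q.1 (.inr 0))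
      (q.1 (.inr 1)) (q.1 (.inr 2)) (q.2 .am) (q.1 (.inr 3)) a qs := by
  obtain ⟨hbok, hsm, hlmp, hamq, hb0⟩ := hok
  obtain ⟨hq1, hq2, hq3, hq4⟩ := hq
  set p : IX5 → ℝ := bp q.1 with hp
  set L := Real.log X with hL
  have hL0' : 0 < L := Real.log_pos hX
  have hev : ∀ i, |S8X.ev X a i - q.1 i| ≤ δ := hw.ev
  have hdiv : ∀ {z c : ℝ}, |z / L - c| ≤ δ → |z - c * L| ≤ δ * L := by
    intro z c h1
    have h2 : z - c * L = (z / L - c) * L := by field_simp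
    rw [h2, abs_mul, abs_of_pos hL0']
    exact mul_le_mul_of_nonneg_right h1 hL0'.le
  have hk : |a.1.l - cκ (prX p) * L| ≤ δ * L := hdiv (hev (.inl (.inl (.inl 0))))
  have hz : |a.1.z - cx' (prX p) * L| ≤ δ * L := hdiv (hev (.inl (.inl (.inl 1))))
  have hu2 : |(a.1.us 2).z - cu (prX p) 2 * L| ≤ δ * L := hdiv (hev (.inl (.inl (.inr 2))))
  have hu3 : |(a.1.us 3).z - cu (prX p) 3 * L| ≤ δ * L := hdiv (hev (.inl (.inl (.inr 3))))
  have hu4 : |(a.1.us 4).z - cu (prX p) 4 * L| ≤ δ * L := hdiv (hev (.inl (.inl (.inr 4))))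
  have hzs : |a.1.zs 2 - p (.inr 1) * L| ≤ δ * L := hdiv (hev (.inl (.inr 1)))
  have hv0 : |(a.2.1 0).z - q.1 (.inr 0) * L| ≤ δ * L := hdiv (hev (.inr 0))
  have hv1 : |(a.2.1 1).z - q.1 (.inr 1) * L| ≤ δ * L := hdiv (hev (.inr 1))
  have hv2 : |(a.2.1 2).z - q.1 (.inr 2) * L| ≤ δ * L := hdiv (hev (.inr 2))
  have hbw : |a.2.2 - q.1 (.inr 3) * L| ≤ δ * L := hdiv (hev (.inr 3))
  have hma : |LN qs - q.2 .am * L| ≤ δ * L := by
    have h1 := hm .am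
    rw [mass_am hamq] at h1
    exact hdiv h1
  have hA : |a3 a.1.toBd - (cu (prX p) 2 + cu (prX p) 3 + cu (prX p) 4) * L| ≤
      3 * (δ * L) := by
    have e1 : a3 a.1.toBd - (cu (prX p) 2 + cu (prX p) 3 + cu (prX p) 4) * L =
        ((a.1.us 2).z - cu (prX p) 2 * L) +
        ((a.1.us 3).z - cu (prX p) 3 * L) + ((a.1.us 4).z - cu (prX p) 4 * L) := by
      unfold E5L770.a3; ring
    rw [e1]
    refine (abs_add_le _ _).trans ?_
    have := abs_add_le ((a.1.us 2).z - cu (prX p) 2 * L) ((a.1.us 3).z - cu (prX p) 3 * L)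
    linarith
  obtain ⟨k1, k2⟩ := abs_le.1 hk
  obtain ⟨u21, u22⟩ := abs_le.1 hu2
  obtain ⟨zs1, zs2⟩ := abs_le.1 hzs
  obtain ⟨v01, v02⟩ := abs_le.1 hv0
  obtain ⟨v11, v12⟩ := abs_le.1 hv1
  obtain ⟨v21, v22⟩ := abs_le.1 hv2
  obtain ⟨m1, m2⟩ := abs_le.1 hma
  obtain ⟨b1, b2⟩ := abs_le.1 hbw
  have hx1L := mul_le_mul_of_nonneg_right hq1.x1 hL0'.le
  have hq4L := mul_le_mul_of_nonneg_right hq4 hL0'.le
  have hnz : LN (clN a qs) = (a.2.1 0).z + (a.2.1 1).z + (a.2.1 2).z + LN qs := LN_clN a qs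
  have hδL : 0 ≤ δ * L := by positivity
  have htO : |tO a.1.toBd - top5 (prX p) * L| ≤ 10 * (δ * L) := by
    unfold Sf770.tO E5L770.top5
    exact tO_near hL0' hδ (by norm_num) (by norm_num) hk hz hA
  obtain ⟨T1, T2⟩ := abs_le.1 htO
  have hLqs : 0 ≤ LN qs := by
    unfold I1146.LN
    refine List.sum_nonneg fun x hx => ?_
    obtain ⟨p', hp', rfl⟩ := List.mem_map.1 hx
    exact (hg p' hp').2.2
  have hlog2 : 0 < Real.log 2 := Real.log_pos (by norm_num)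
  have hcN : cN (prX p) = cu (prX p) 2 + cu (prX p) 3 + cu (prX p) 4 := rfl
  have hTop : top5 (prX p) = min (2 * (cu (prX p) 2 + cu (prX p) 3 + cu (prX p) 4) - cκ (prX p))
      (3 / 4 * (cu (prX p) 2 + cu (prX p) 3 + cu (prX p) 4)) + 11 / 5 * cx' (prX p) := rfl
  have htop0 : 0 ≤ top5 (prX p) := by
    have h1 := hP.N0
    have h2 := hP.κ0
    have h3 := hP.x0
    rw [hcN] at h1
    have h4 : 0 ≤ min (2 * (cu (prX p) 2 + cu (prX p) 3 + cu (prX p) 4) - cκ (prX p))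
      (3 / 4 * (cu (prX p) 2 + cu (prX p) 3 + cu (prX p) 4)) := le_min (by linarith)
        (by linarith)
    rw [hTop]
    linarith
  have hj : ∀ j : ℕ, j < nw c a → Real.log 2 * j ≤
      max 0 (min (tO a.1.toBd) (tO a.1.toBd + 2 * (c * a.1.l) - 2 * a.2.2)) := by
    intro j hj
    have h1 := nW_hi c a
    have h2 : ((j : ℝ) + 1) ≤ nw c a := by exact_mod_cast hj
    have h3 := mul_le_mul_of_nonneg_left h2 hlog2.le
    linarith
  have hcl : c * a.1.l ≤ c * (cκ (prX p) * L) + δ * L := by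
    have h1 : c * (a.1.l - cκ (prX p) * L) ≤ 1 * (δ * L) := by
      rcases le_total 0 (a.1.l - cκ (prX p) * L) with h' | h'
      · exact mul_le_mul hc1 k2 h' (by norm_num)
      · refine (mul_nonpos_of_nonneg_of_nonpos hc0 h').trans ?_
        first
          | linarith
          | positivity
    linarith
  refine ⟨hk, hz, hA, ?_, hv0, hv1, hv2, hbw, ?_, ?_, ?_, hLqs, ?_, ?_, (hlmp 0).2, (hlmp 1).2,
    (hlmp 2).2⟩
  · have e1 : dz a.1 = (a.1.us 2).z - a.1.zs 2 := rfl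
    rw [e1, abs_le]
    constructor <;> linarith
  · rw [hnz, abs_le]
    constructor <;> linarith
  · rw [hnz]; linarith
  · linarith
  · intro j h1
    have h2 := hj j h1
    rw [← hTop]
    have h3 := mul_nonneg htop0 hL0'.le
    have h4 : min (tO a.1.toBd) (tO a.1.toBd + 2 * (c * a.1.l) - 2 * a.2.2) ≤
        tO a.1.toBd := min_le_left _ _
    exact h2.trans (max_le (by linarith) (by linarith))
  · intro j h1
    have h2 := hj j h1
    rw [← hTop]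
    have h3 : min (tO a.1.toBd) (tO a.1.toBd + 2 * (c * a.1.l) - 2 * a.2.2) ≤
        tO a.1.toBd + 2 * (c * a.1.l) - 2 * a.2.2 := min_le_right _ _
    have h5 := mul_le_mul_of_nonneg_right hq1.b1 hL0'.le
    have e1 : (top5 (prX p) + 2 * c * cκ (prX p)) * L =
        top5 (prX p) * L + 2 * (c * (cκ (prX p) * L)) := by ring
    rw [e1] at h5 ⊢
    have h6 : 2 * q.1 (.inr 3) * L = 2 * (q.1 (.inr 3) * L) := by ring
    rw [h6] at h5
    rcases max_cases 0 (min (tO a.1.toBd) (tO a.1.toBd + 2 * (c * a.1.l) - 2 * a.2.2)) with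
      ⟨h, -⟩ | ⟨h, -⟩
    · rw [h] at h2; linarith
    · rw [h] at h2; linarith

/-- **the numbers of a block**, in the unit `L' = κ L` -/
lemma numX_of {c L δ κ u₂ u₃ u₄ x zs v₀ v₁ v₂ x' bb d s₀ hh e0 : ℝ} {a : BcX} {qs : List Pq}
    (hL : 0 < L) (hδ : 0 ≤ δ) (hδ7 : δ ≤ 1 / 10 ^ 8) (hLδ : 2 ≤ δ * L) (hκ0 : 8 / 9 ≤ κ)
    (hκ1 : κ ≤ 1) (hdp : Dp (u₂ / κ) (u₃ / κ) (u₄ / κ) (x / κ) d)
    (hc : CfX c L δ κ u₂ u₃ u₄ x zs v₀ v₁ v₂ x' bb a qs) (hcd : 4 * c ≤ d)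
    (hz0 : 17 / 100 * κ ≤ zs) (hz1 : zs ≤ 1883 / 10000 * κ) (hbb : 0 ≤ bb) (hx0 : 0 ≤ x')
    (hx1 : x' ≤ x) (hs1 : bb ≤ u₂ + u₃ + u₄ - (v₀ + v₁ + v₂))
    (hs2 : u₂ + u₃ + u₄ - (v₀ + v₁ + v₂) ≤ bb + (x - x'))
    (hs0 : (17 / 100 * κ - (u₂ + u₃ + u₄ + x - (v₀ + v₁ + v₂ + x'))) * L ≤ s₀ + 6 * (δ * L))
    {j : ℕ} (hh0 : 0 ≤ hh)
    (hh1 : hh ≤ 1 / 8 * a.1.l + max 0 (2 * LN (clN a qs) - a.1.l - Real.log 2 * j))
    (hj : j < nw c a) (he1 : e0 ≤ 1 / 64) (hl0 : 0 ≤ a.1.l)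
    {δ' e a' : Eis} {i : ℕ} (hδ' : IsPrim δ') (he : IsPrim e) (ha' : IsPrim a')
    (hee : (nm e : ℝ) ≤ Real.exp (e0 * a.1.l)) (j1 : i < j + 2)
    (j2 : (nm δ' : ℝ) ^ 2 * (2 ^ (j + 1) / 2 ^ i) < 2 * 2 ^ (j + 1)) :
    (1 : ℝ) ≤ 2 ^ (j + 1) / 2 ^ i ∧
    NumX (κ * L) (δ / κ) (u₂ / κ) (u₃ / κ) (u₄ / κ) (x / κ) d (zs / κ) a.1.l a.1.z
      (a3 a.1.toBd) (LN (clN a qs)) (Real.log 2 * j) (bb * L) s₀ hh
      (Real.log (nm δ')) (Real.log (nm a')) (Real.log (nm e))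
      (Real.log (2 ^ (j + 1) / 2 ^ i)) := by
  have κp : 0 < κ := by linarith
  have hκL : 0 < κ * L := by positivity
  have hlog2 : 0 < Real.log 2 := Real.log_pos (by norm_num)
  have hlog2' : Real.log 2 ≤ 1 := by linarith only [Real.log_two_lt_d9]
  obtain ⟨hu4, hy43, hu0, hy3x, hN1, hnr, hxx0, -, hd0, hd1⟩ := dp_hom κp hdp
  have hV1 : (1 : ℝ) ≤ 2 ^ (j + 1) / 2 ^ i := by
    rw [le_div_iff₀ (by positivity), one_mul]
    exact pow_le_pow_right₀ (by norm_num) (Nat.lt_succ_iff.1 j1)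
  have hV0 : (0 : ℝ) < 2 ^ (j + 1) / 2 ^ i := by positivity
  have hnδ : (0 : ℝ) < nm δ' := by exact_mod_cast nm_pos.2 hδ'.ne_zero
  have hne : (1 : ℝ) ≤ nm e := by exact_mod_cast nm_pos.2 he.ne_zero
  have hna : (1 : ℝ) ≤ nm a' := by exact_mod_cast nm_pos.2 ha'.ne_zero
  have eδ : δ / κ * (κ * L) = δ * L := by field_simp
  have cv : ∀ y : ℝ, y / κ * (κ * L) = y * L := fun y => by field_simp
  have hvD : Real.log (2 ^ (j + 1) / 2 ^ i) + 2 * Real.log (nm δ') ≤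
      2 * Real.log 2 + Real.log 2 * j := by
    have h1 := Real.log_le_log (by positivity) j2.le
    rw [Real.log_mul (by positivity) (by positivity), Real.log_mul (by norm_num) (by positivity),
      Real.log_pow, Real.log_pow] at h1
    push_cast at h1
    linarith only [h1]
  obtain ⟨k1, k2⟩ := abs_le.1 hc.hk
  obtain ⟨n1, n2⟩ := abs_le.1 hc.nl
  have hδL : 0 ≤ δ * L := by positivity
  have hsvx : (u₂ + u₃ + u₄ + x - (v₀ + v₁ + v₂ + x')) * L ≤ (bb + 2 * x) * L :=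
    mul_le_mul_of_nonneg_right (by linarith) hL.le
  have hsv0 : (v₀ + v₁ + v₂ + x') * L ≤ (u₂ + u₃ + u₄ + x) * L :=
    mul_le_mul_of_nonneg_right (by linarith) hL.le
  have hmin : min (2 * (u₂ / κ + u₃ / κ + u₄ / κ) - 1) (3 / 4 * (u₂ / κ + u₃ / κ + u₄ / κ)) *
      (κ * L) = min (2 * (u₂ + u₃ + u₄) - κ) (3 / 4 * (u₂ + u₃ + u₄)) * L := by
    rw [min_mul_of_nonneg _ _ hκL.le, min_mul_of_nonneg _ _ hL.le]
    congr 1
    · linear_combination 2 * (cv u₂ + cv u₃ + cv u₄)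
    · linear_combination 3 / 4 * (cv u₂ + cv u₃ + cv u₄)
  have hsum : (u₂ / κ + u₃ / κ + u₄ / κ + x / κ) * (κ * L) = (u₂ + u₃ + u₄ + x) * L := by
    linear_combination cv u₂ + cv u₃ + cv u₄ + cv x
  refine ⟨hV1, ⟨hκL, by positivity, ?_, hdp, ?_, ?_, ?_, ?_, ?_, ?_, ?_, ?_, by positivity, ?_,
    hh0, ?_, Real.log_nonneg hna, Real.log_nonneg hne, ?_, Real.log_nonneg hV1, hvD, ?_, ?_, ?_⟩⟩
  · rw [div_le_iff₀ κp]; nlinarith
  · rw [le_div_iff₀ κp]; exact hz0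
  · rw [div_le_iff₀ κp]; exact hz1
  · rw [eδ]; exact hc.hk
  · rw [eδ, cv]; exact hc.hz
  · have e1 : (u₂ / κ + u₃ / κ + u₄ / κ) * (κ * L) = (u₂ + u₃ + u₄) * L := by
      linear_combination cv u₂ + cv u₃ + cv u₄
    rw [eδ, e1]; exact hc.hA
  · have e1 : (1 / 2 - 2 * (x / κ)) * (κ * L) = (κ / 2 - 2 * x) * L := by
      linear_combination -2 * cv x
    rw [eδ, e1]; exact hc.lo
  · rw [eδ, hsum]; linarith
  · have e1 : (17 / 100 - (u₂ / κ + u₃ / κ + u₄ / κ + x / κ)) * (κ * L) =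
        (17 / 100 * κ - (u₂ + u₃ + u₄ + x)) * L := by
      linear_combination -hsum
    rw [eδ, e1]
    have e2 : (17 / 100 * κ - (u₂ + u₃ + u₄ + x - (v₀ + v₁ + v₂ + x'))) * L =
        (17 / 100 * κ - (u₂ + u₃ + u₄ + x)) * L + (v₀ + v₁ + v₂ + x') * L := by ring
    rw [e2] at hs0
    linarith
  · rw [eδ, hsum, cv]
    have e2 : (u₂ + u₃ + u₄ + x - (v₀ + v₁ + v₂ + x')) * L =
        (u₂ + u₃ + u₄ + x) * L - (v₀ + v₁ + v₂ + x') * L := by ring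
    have e3 : (bb + 2 * x) * L = bb * L + 2 * (x * L) := by ring
    rw [e2, e3] at hsvx
    linarith
  · rw [eδ]
    have h1 : max 0 (2 * LN (clN a qs) - a.1.l - Real.log 2 * j) ≤
        max 0 (2 * LN (clN a qs) - κ * L - (Real.log (2 ^ (j + 1) / 2 ^ i) +
          2 * Real.log (nm δ'))) + 3 * (δ * L) := by
      refine max_le ?_ ?_
      · have := le_max_left 0 (2 * LN (clN a qs) - κ * L - (Real.log (2 ^ (j + 1) / 2 ^ i) +
          2 * Real.log (nm δ')))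
        linarith
      · have := le_max_right 0 (2 * LN (clN a qs) - κ * L - (Real.log (2 ^ (j + 1) / 2 ^ i) +
          2 * Real.log (nm δ')))
        linarith
    linarith
  · have h1 := Real.log_le_log (by linarith only [hne]) hee
    rw [Real.log_exp] at h1
    exact h1.trans (mul_le_mul_of_nonneg_right he1 hl0)
  · rw [eδ, add_mul, hmin]
    have h1 := hc.t1 j hj
    rw [add_mul] at h1
    have e1 : 11 / 5 * (x / κ) * (κ * L) = 11 / 5 * x * L := by linear_combination 11 / 5 * cv x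
    rw [e1]
    linarith
  · rw [eδ, add_mul, add_mul, hmin]
    have h1 := hc.t2 j hj
    rw [add_mul, add_mul] at h1
    have e1 : 11 / 5 * (x / κ) * (κ * L) = 11 / 5 * x * L := by linear_combination 11 / 5 * cv x
    rw [e1]
    have h2 : 2 * c * κ * L ≤ d / 2 * (κ * L) := by
      have : 2 * c * (κ * L) ≤ d / 2 * (κ * L) :=
        mul_le_mul_of_nonneg_right (by linarith) hκL.le
      linarith
    linarith
  · rw [eδ]; linarith

end Crest.Agent.R017.RXt440
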