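import Crest.Agent.R017.RXd_739
import Crest.Agent.R017.E2G_764

/-!
# Row 17, class E, the R-side of P1 (helper739), part v: the data of a child

* **`xdX`** : the sequence `alX` of a difference is a twist of a sequence with `XD`
-/

set_option autoImplicit false
set_option linter.unusedVariables false
set_option maxHeartbeats 2000000

noncomputable section

open Finset
open scoped ComplexConjugate

namespace Crest.Agent.R017.RXv739

open Crest.Agent.R012 Crest.Agent.R012.Eis Crest.Agent.R012.LS2 Crest.Agent.R012.Gauss880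
open Crest.Agent.R017.FE47 (cx PU)
open Crest.Agent.R017.B770
open Crest.Agent.R017.Prov71
open Crest.Agent.R017.CM106 (FS)
open Crest.Agent.R017.HP842 (pc sqc)
open Crest.Agent.R017.Leg381 (alf alF natl LF Pf alF_ofFn)
open Crest.Agent.R017.I1146 (LN tw3)
open Crest.Agent.R017.I1K764 (xN zN rl LN_rl norm_zN xN_eq LN_nonneg xT_eq)
open Crest.Agent.R017.RG64 (Ht one_le_Ht FS_alF)
open Crest.Agent.R017.End699
open Crest.Agent.R017.Sup271 (NPm)
open Crest.Agent.R017.ExBox960 Crest.Agent.R017.ExP960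
open Crest.Agent.R017.P1X960
open Crest.Agent.R017.P10X764
open Crest.Agent.R017.RXb739
open Crest.Agent.R017.RXd739

variable {Λ : Type*} {π : Λ → DPar} {h : ℝ → ℝ}

/-- a list of the right length is a family -/
lemma exists_ofFn {α : Type*} {r : ℕ} (l : List α) (hl : l.length = r) :
    ∃ s : Fin r → α, List.ofFn s = l := by
  subst hl
  exact ⟨l.get, List.ofFn_get l⟩

/-- finite support, primary -/
lemma fs_xN {c₀ : ℝ} (hpu : PU h c₀) {P : DPar} (hP : P.OK) (p1 p2 : Pq) (l : List Pq) (d : ℝ) :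
    FS (xN P h 1 p1 p2 l d) := by
  have h1 := HP842.FS.sqc (FS_alF (bump_of_cs hpu.cs) hP 1 1 (natl (p1 :: p2 :: l))) 1
  have h2 := HP842.FS.sqc (FS_alF (bump_of_cs hpu.cs) hP 1 1 (natl (rl p1 p2 l d))) 1
  have hne : ∀ n, xN P h 1 p1 p2 l d n ≠ 0 →
      sqc 1 (alF 1 1 P h (natl (p1 :: p2 :: l))) n ≠ 0 ∨
      sqc 1 (alF 1 1 P h (natl (rl p1 p2 l d))) n ≠ 0 := by
    intro n hn
    rw [xN_eq] at hn
    by_cases h0 : sqc 1 (alF 1 1 P h (natl (p1 :: p2 :: l))) n = 0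
    · rw [h0, zero_sub, neg_ne_zero] at hn
      exact Or.inr (right_ne_zero_of_mul hn)
    · exact Or.inl h0
  refine ⟨(h1.fin.union h2.fin).subset fun n hn => ?_, fun n hn => ?_⟩
  · rcases hne n hn with h | h
    · exact Or.inl h
    · exact Or.inr h
  · rcases hne n hn with h | h
    · exact h1.prim n h
    · exact h2.prim n h

lemma aux_A2 {c e L k : ℝ} (h1 : c + e * L ≤ k * L / 10 ^ 6 - 3 / 10 ^ 8 * L)
    (h0 : 0 ≤ k * L) (hL : 2 ≤ L) : c + e * L ≤ 4 * (k * L) := by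
  have h2 : k * L / 10 ^ 6 ≤ k * L := by
    rw [div_le_iff₀ (by norm_num)]
    linarith
  linarith

/-- **the data of a difference** -/
theorem xdX {c₀ : ℝ} (hpu : PU h c₀) (hP : ∀ lam, (π lam).OK)
    (hex : ∀ lam, ¬ NPm (π lam).n (π lam).ψ (π lam).l₂ 1) (N : ℕ) {R : ℝ} (hR0 : 0 ≤ R)
    (hR : ∀ u, cx h u ≠ 0 → |u| ≤ R) (lam : Λ) {st : Eis} (hst : st ≠ 0) {B₂ : ℝ} (hB₂ : 1 ≤ B₂)
    (b : ℕ) {Cz : ℝ} (hCz : 1 ≤ Cz) :
    ∃ X₀ : ℝ, 1 < X₀ ∧ ∀ X : ℝ, X₀ ≤ X → ∀ κ : ℝ, 8 / 9 ≤ κ → κ ≤ 1 → ∀ H₀ : ℝ, 1 ≤ H₀ →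
      10 ^ 8 * ((N : ℝ) + 4) * Real.log H₀ ≤ Real.log X → ∀ (a : BcX) (qs : List Pq),
      qs.length ≤ N → okCX (π lam) st a qs ∧ okD a →
      (∀ i, (nm (a.2.1 i).d : ℝ) ≤ X ^ B₂) → (∀ p ∈ clN a qs, 1 + |p.t| ≤ H₀) →
      (∀ p ∈ qs, 0 ≤ p.z) → LN (clN a qs) ≤ Real.log X →
      ∃ (r : ℕ) (s s₂ : Fin r → Pq) (ζ η : ℂ) (x₀ : Eis → ℂ) (Ax Axp Zp : ℝ),
        List.ofFn s = clN a qs ∧ List.ofFn s₂ = List.ofFn (rzD a.2.1 (dz a.1)) ++ qs ∧
        ∑ k, (s₂ k).z = ∑ k, (s k).z ∧ alX π h (lam, st) a qs = η • tw3 st x₀ ∧ ‖η‖ ≤ 1 ∧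
        FS x₀ ∧ XD h (π lam) s s₂ ζ x₀ ((X ^ κ) ^ 4) Ax Axp (s0X a) Zp
          (Real.exp (∑ k, (s k).z)) (((N + 3 : ℕ) : ℝ) * R) 1 ∧
        Ax ≤ Real.exp (κ * Real.log X / 10 ^ 6) ∧
        Axp ≤ Real.exp (LN (clN a qs) + κ * Real.log X / 10 ^ 6) ∧
        Cz * ((X ^ κ) ^ 4) ^ b * (nm st : ℝ) ^ 4 ≤ Zp := by
  set B : ℝ := B₂ + (4 * b + 1) with hB
  have hb0 : (0 : ℝ) ≤ (b : ℝ) := Nat.cast_nonneg b
  have hB1 : 1 ≤ B := by rw [hB]; linarith
  have hB0 : 0 < B := by linarith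
  set ε : ℝ := 1 / (4 * 10 ^ 6) with hε
  have hε0 : 0 < ε := by rw [hε]; norm_num
  obtain ⟨C, hC, H⟩ := xd_of hpu (N + 3) hR0 hR hB1 hε0
  have hC0 : 0 < C := by linarith
  have hlC : 0 ≤ Real.log C := Real.log_nonneg hC
  have hn1 : (1 : ℝ) ≤ nm (π lam).n := by exact_mod_cast nm_pos.2 (hP lam).ψ.q0
  have hst1 : (1 : ℝ) ≤ nm st := by exact_mod_cast nm_pos.2 hst
  set Q : ℝ := 2 + 10 ^ 8 * Real.log C + Real.log (nm (π lam).n) +
    Real.log (Cz * (nm st : ℝ) ^ 4) with hQ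
  have hQ3 : 0 ≤ Real.log (nm (π lam).n) := Real.log_nonneg hn1
  have hCst : 1 ≤ Cz * (nm st : ℝ) ^ 4 :=
    one_le_mul_of_one_le_of_one_le hCz (one_le_pow₀ hst1)
  have hQ4 : 0 ≤ Real.log (Cz * (nm st : ℝ) ^ 4) := Real.log_nonneg hCst
  refine ⟨Real.exp Q, ?_, ?_⟩
  · exact Real.one_lt_exp_iff.2 (by positivity)
  intro X hX κ κ0 κ1 H₀ hH₀ hHX a qs hlen hok hd ht hqz hLN
  have hX0 : 0 < X := lt_of_lt_of_le (Real.exp_pos _) hX
  set L := Real.log X with hL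
  have hQL : Q ≤ L := by rw [hL, Real.le_log_iff_exp_le hX0]; exact hX
  have hL2 : 2 ≤ L := by linarith
  have hX3 : 3 ≤ X := by
    have h1 : Real.exp 2 ≤ X := by rw [← Real.le_log_iff_exp_le hX0]; exact hL2
    have h2 := Real.add_one_le_exp 2
    linarith
  have hX1 : 1 ≤ X := by linarith
  have hXexp : ∀ z : ℝ, X ^ z = Real.exp (z * L) := fun z => by
    rw [Real.rpow_def_of_pos hX0, ← hL, mul_comm]
  obtain ⟨⟨hbok, hsm, hlmp, hamq, hb0'⟩, hD0, hD1⟩ := hok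
  set p1 := a.2.1 0 with hp1
  set p2 := a.2.1 1 with hp2
  set l := a.2.1 2 :: qs with hl
  have hcl : clN a qs = p1 :: p2 :: l := by
    unfold P10X764.clN
    rw [ofFn3]
    rfl
  set d := p2.z + dz a.1 with hdd
  have hrl : rl p1 p2 l d = List.ofFn (rzD a.2.1 (dz a.1)) ++ qs := rl_eq _ _ _
  have hcz : ∀ p ∈ p1 :: p2 :: l, 0 ≤ p.z := by
    intro p hp
    simp only [hl, List.mem_cons] at hp
    rcases hp with rfl | rfl | rfl | hp
    · exact (hlmp 0).2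
    · exact (hlmp 1).2
    · exact (hlmp 2).2
    · exact hqz p hp
  have hlen' : (p1 :: p2 :: l).length ≤ N + 3 := by
    simp only [hl, List.length_cons]
    omega
  obtain ⟨s, hs⟩ := exists_ofFn (p1 :: p2 :: l) rfl
  obtain ⟨s₂, hs₂⟩ : ∃ s₂ : Fin (p1 :: p2 :: l).length → Pq, List.ofFn s₂ = rl p1 p2 l d :=
    exists_ofFn _ (by unfold I1K764.rl; rfl)
  set PX : ℝ := (X ^ κ) ^ 4 with hPX
  have hPXe : PX = Real.exp (4 * (κ * L)) := by
    rw [hPX, hXexp, ← Real.exp_nat_mul]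
    push_cast
    rfl
  have hκL : 8 / 9 * L ≤ κ * L := mul_le_mul_of_nonneg_right κ0 (by linarith)
  have hκL1 : κ * L ≤ 1 * L := mul_le_mul_of_nonneg_right κ1 (by linarith)
  have hlogH : 0 ≤ Real.log H₀ := Real.log_nonneg hH₀
  have hH0 : 0 < H₀ := by linarith
  have hLN0 : 0 ≤ LN (clN a qs) := by rw [hcl]; exact LN_nonneg hcz
  have hCX : C * X ^ ε = Real.exp (Real.log C + ε * L) := by
    rw [hXexp, Real.exp_add, Real.exp_log hC0]
  have hA1 : Real.log C + ε * L ≤ κ * L / 10 ^ 6 - 3 / 10 ^ 8 * L := by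
    rw [hε]
    linarith
  have hκ0L : 0 ≤ κ * L := by linarith
  have hA2 : Real.log C + ε * L ≤ 4 * (κ * L) := aux_A2 hA1 hκ0L hL2
  have hHt : Ht (natl (p1 :: p2 :: l)) ≤ H₀ ^ (N + 3) := by
    refine (Ht_pow hH₀ (by rw [← hcl]; exact ht)).trans (pow_le_pow_right₀ hH₀ hlen')
  have hHt1 := one_le_Ht (natl (p1 :: p2 :: l))
  have hHt3 : Ht (natl (p1 :: p2 :: l)) ^ 3 ≤ Real.exp (3 / 10 ^ 8 * L) := by
    refine (pow_le_pow_left₀ (by linarith) hHt 3).trans ?_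
    have e1 : H₀ ^ ((N + 3) * 3) = Real.exp ((((N + 3) * 3 : ℕ) : ℝ) * Real.log H₀) := by
      rw [Real.exp_nat_mul, Real.exp_log hH0]
    rw [← pow_mul, e1]
    refine Real.exp_le_exp.2 ?_
    push_cast
    nlinarith
  have hnX : (nm (π lam).n : ℝ) ≤ X ^ B := by
    have h1 : (nm (π lam).n : ℝ) ≤ X := by
      rw [← Real.exp_log (show (0 : ℝ) < nm (π lam).n by linarith), ← Real.exp_log hX0, ← hL]
      exact Real.exp_le_exp.2 (by linarith)
    refine h1.trans ?_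
    calc X = X ^ (1 : ℝ) := (Real.rpow_one X).symm
      _ ≤ X ^ B := Real.rpow_le_rpow_of_exponent_le hX1 hB1
  have hB₂B : X ^ B₂ ≤ X ^ B := Real.rpow_le_rpow_of_exponent_le hX1 (by rw [hB]; linarith)
  have key := H X hX3 (π lam) (hP lam) (hP lam).ψ hnX (hex lam) p1 p2 l (hlmp 0).1.2 (hlmp 1).1.2
    (hlmp 0).1.1 (hlmp 1).1.1 ((hd 0).trans hB₂B) ((hd 1).trans hB₂B) hlen' hcz
    (by rw [← hcl]; exact hLN.trans (le_mul_of_one_le_left (by linarith) hB1)) d (s0X a) hD1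
    (by rw [hdd]; linarith)
    ((min_le_left _ _).trans (min_le_left _ _)) ((min_le_left _ _).trans (min_le_right _ _))
    (by
      have : s0X a ≤ p1.z - dz a.1 := (min_le_right _ _).trans (min_le_left _ _)
      rw [hdd]; linarith)
    ((min_le_right _ _).trans (min_le_right _ _)) PX 1
    (by
      rw [← hcl, hPXe]
      exact Real.exp_le_exp.2 (by linarith))
    (by
      rw [pow_one, hCX, hPXe]
      exact Real.exp_le_exp.2 hA2) _ s s₂ hs hs₂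
  refine ⟨_, s, s₂, zN p1 p2 d, oc a.2.1 p1.z p2.z, xN (π lam) h 1 p1 p2 l d, _, _, _,
    hs.trans hcl.symm, hs₂.trans hrl, ?_, ?_, ?_, fs_xN hpu (hP lam) _ _ _ _, key, ?_, ?_, ?_⟩
  · rw [sum_ofFn, sum_ofFn, hs, hs₂, LN_rl]
  · unfold P10X764.alX
    rw [xD_eq, xT_eq]
  · exact (norm_oc _ _ _).le
  · rw [hCX]
    exact Real.exp_le_exp.2 (by linarith)
  · rw [hCX, ← hcl]
    calc Real.exp (Real.log C + ε * L) * Ht (natl (clN a qs)) ^ 3 * Real.exp (LN (clN a qs)) ≤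
          Real.exp (Real.log C + ε * L) * Real.exp (3 / 10 ^ 8 * L) *
            Real.exp (LN (clN a qs)) := by
          rw [hcl]
          gcongr
      _ = Real.exp (Real.log C + ε * L + 3 / 10 ^ 8 * L + LN (clN a qs)) := by
          rw [← Real.exp_add, ← Real.exp_add]
      _ ≤ _ := Real.exp_le_exp.2 (by linarith)
  · rw [hPXe, ← Real.exp_nat_mul, hXexp]
    calc Cz * Real.exp (b * (4 * (κ * L))) * (nm st : ℝ) ^ 4 =
          Cz * (nm st : ℝ) ^ 4 * Real.exp (b * (4 * (κ * L))) := by ring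
      _ = Real.exp (Real.log (Cz * (nm st : ℝ) ^ 4) + b * (4 * (κ * L))) := by
          rw [Real.exp_add, Real.exp_log (by linarith)]
      _ ≤ Real.exp (B * L) := by
          refine Real.exp_le_exp.2 ?_
          have h1 : b * (4 * (κ * L)) ≤ b * (4 * (1 * L)) := by gcongr
          have h2 : 0 ≤ B₂ * L := by positivity
          rw [hB]
          nlinarith

end Crest.Agent.R017.RXv739
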