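import Crest.Agent.R017.RXt_440
import Crest.Agent.R017.RXm_440

/-!
# Row 17, class E, the R-side of `P1` (helper440): the geometry of the two domains

* `geoX` : differences;  `geoS` : single lists
-/

set_option autoImplicit false
set_option maxHeartbeats 2000000

noncomputable section

open Finset
open scoped ComplexConjugate

namespace Crest.Agent.R017.RXw440

open Crest.Agent.R012 Crest.Agent.R012.Eis
open Crest.Agent.R017.B770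
open Crest.Agent.R017.Prov71
open Crest.Agent.R017.I1146 (LN)
open Crest.Agent.R017.UM71 Crest.Agent.R017.End699
open Crest.Agent.R017.E5B71 Crest.Agent.R017.E5P571 Crest.Agent.R017.E5L770
open Crest.Agent.R017.ExBox960 Crest.Agent.R017.ExP960
open Crest.Agent.R017.P1X960
open Crest.Agent.R017.P10X764
open Crest.Agent.R017.P1F904 (Dp)
open Crest.Agent.R017.RXm440 Crest.Agent.R017.RXt440

/-- differences, in numbers -/
lemma geoX_num {c L δ κ u₂ u₃ u₄ x zs v₀ v₁ v₂ x' bb : ℝ} {a : BcX} {qs : List Pq}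
    (hL : 0 < L) (hδ : 0 ≤ δ) (hc : CfX c L δ κ u₂ u₃ u₄ x zs v₀ v₁ v₂ x' bb a qs)
    (h0 : v₀ ≤ u₂) (h1 : v₁ ≤ u₃) (h2 : v₂ ≤ u₄) (hx : x' ≤ x)
    (hz0 : 17 / 100 * κ ≤ zs) (hzu : zs ≤ u₂) (hu2 : 17 / 100 * κ ≤ u₂)
    (hu3 : 17 / 100 * κ ≤ u₃) (hD : okD a) :
    (17 / 100 * κ - (u₂ + u₃ + u₄ + x - (v₀ + v₁ + v₂ + x'))) * L ≤ s0X a + 6 * (δ * L) ∧
    Lmp3 (3 * (δ * L)) L u₂ u₃ u₄ zs (a.2.1 0).z (a.2.1 1).z (a.2.1 2).z ∧
    Lmp3 (3 * (δ * L)) L u₂ u₃ u₄ zs ((a.2.1 0).z - dz a.1) ((a.2.1 1).z + dz a.1)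
      (a.2.1 2).z := by
  obtain ⟨a1, a2⟩ := abs_le.1 hc.h0
  obtain ⟨b1, b2⟩ := abs_le.1 hc.h1
  obtain ⟨c1, c2⟩ := abs_le.1 hc.h2
  obtain ⟨d1, d2⟩ := abs_le.1 hc.hd
  have hδL : 0 ≤ δ * L := by positivity
  have m : ∀ {a b : ℝ}, a ≤ b → a * L ≤ b * L := fun h => mul_le_mul_of_nonneg_right h hL.le
  have g0 := m h0
  have g1 := m h1
  have g2 := m h2
  have gx := m hx
  refine ⟨?_, Or.inl ⟨by linarith, by linarith, by linarith⟩,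
    Or.inr ⟨by linarith, by linarith, by linarith⟩⟩
  have e1 : (17 / 100 * κ - (u₂ + u₃ + u₄ + x - (v₀ + v₁ + v₂ + x'))) * L =
      17 / 100 * (κ * L) - (u₂ * L + u₃ * L + u₄ * L + x * L) + (v₀ * L + v₁ * L + v₂ * L +
        x' * L) := by ring
  have k0 := m hz0
  have k1 := m hu2
  have k2 := m hu3
  have k3 := m hzu
  have k4 : 17 / 100 * κ * L = 17 / 100 * (κ * L) := by ring
  rw [k4] at k0 k1 k2
  have key : (17 / 100 * κ - (u₂ + u₃ + u₄ + x - (v₀ + v₁ + v₂ + x'))) * L - 6 * (δ * L) ≤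
      s0X a := by
    rw [e1]
    unfold s0X
    refine le_min (le_min ?_ ?_) (le_min ?_ ?_) <;> linarith
  linarith

/-- single lists, in numbers -/
lemma geoS_num {c L δ κ u₂ u₃ u₄ x zs v₀ v₁ v₂ x' bb : ℝ} {a : BcX} {qs : List Pq}
    (hL : 0 < L) (hδ : 0 ≤ δ) (hc : CfX c L δ κ u₂ u₃ u₄ x zs v₀ v₁ v₂ x' bb a qs)
    (h : (v₀ ≤ u₂ ∧ v₁ ≤ u₃ ∧ v₂ ≤ u₄) ∨ (v₀ ≤ zs ∧ v₁ ≤ u₂ + u₃ - zs ∧ v₂ ≤ u₄))
    (hx : x' ≤ x) (hs : 17 / 100 * κ ≤ u₂ + u₃ + u₄ - (v₀ + v₁ + v₂)) :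
    (17 / 100 * κ - (u₂ + u₃ + u₄ + x - (v₀ + v₁ + v₂ + x'))) * L ≤ 0 + 6 * (δ * L) ∧
    Lmp3 (3 * (δ * L)) L u₂ u₃ u₄ zs (a.2.1 0).z (a.2.1 1).z (a.2.1 2).z := by
  obtain ⟨a1, a2⟩ := abs_le.1 hc.h0
  obtain ⟨b1, b2⟩ := abs_le.1 hc.h1
  obtain ⟨c1, c2⟩ := abs_le.1 hc.h2
  have hδL : 0 ≤ δ * L := by positivity
  have m : ∀ {a b : ℝ}, a ≤ b → a * L ≤ b * L := fun h => mul_le_mul_of_nonneg_right h hL.le
  refine ⟨?_, ?_⟩
  · have h1 : (17 / 100 * κ - (u₂ + u₃ + u₄ + x - (v₀ + v₁ + v₂ + x'))) * L ≤ 0 * L :=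
      m (by linarith)
    linarith
  · rcases h with ⟨h0, h1, h2⟩ | ⟨h0, h1, h2⟩
    · have g0 := m h0
      have g1 := m h1
      have g2 := m h2
      exact Or.inl ⟨by linarith, by linarith, by linarith⟩
    · have g0 := m h0
      have g1 := m h1
      have g2 := m h2
      exact Or.inr ⟨by linarith, by linarith, by linarith⟩

end Crest.Agent.R017.RXw440
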