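import Crest.Agent.R017.RXu_440
import Crest.Agent.R017.RXw_440
import Crest.Agent.R017.ER_764
import Crest.Agent.R017.E2Xb_764
import Crest.Agent.R017.E2Sb_764
import Crest.Agent.R017.PMq_590
import Crest.Agent.R017.RXlA_176
import Crest.Agent.R017.RXlP_176
import Crest.Agent.R017.FNEj_708
import Crest.Agent.R017.P1DomS_918
import Crest.Agent.R017.P1t_54

/-!
# Row 17, class E, the R-side of `P1` (helper440): `RpGU` for differences and single lists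

* `geoX`, `geoS` : the geometry
* `pmqin_of` : `PMQin` from helper590's `pmq_in`
* **`rpX_E`**, **`rpS_E`** : `RpGU` at the reduced data on `ParS A d`, from `XdU`
-/

set_option autoImplicit false
set_option maxHeartbeats 2000000

noncomputable section

open Finset
open scoped ComplexConjugate

namespace Crest.Agent.R017.RXx440

open Crest.Agent.R012 Crest.Agent.R012.Eis
open Crest.Agent.R012.T411 (NCube)
open Crest.Agent.R017.FE47 (cx PU)
open Crest.Agent.R017.B770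
open Crest.Agent.R017.Prov71
open Crest.Agent.R017.I1146 (LN LipS)
open Crest.Agent.R017.UM71 Crest.Agent.R017.End699
open Crest.Agent.R017.E5B71 Crest.Agent.R017.E5P571 Crest.Agent.R017.E5L770
open Crest.Agent.R017.ExBox960 Crest.Agent.R017.ExP960
open Crest.Agent.R017.P1X960
open Crest.Agent.R017.P1l54 (ParOK)
open Crest.Agent.R017.P1t54 (ParS LS0 parOK_Sq5)
open Crest.Agent.R017.P10X764 Crest.Agent.R017.E2G764
open Crest.Agent.R017.P1F904 (Dp)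
open Crest.Agent.R017.P1Hl440 (dp_hom)
open Crest.Agent.R017.Red848 (red Exc red_ok)
open Crest.Agent.R017.ER911 (ExpRules)
open Crest.Agent.R017.XP699
open Crest.Agent.R017.TK708 (sh5)
open Crest.Agent.R017.RXl440 Crest.Agent.R017.RXm440 Crest.Agent.R017.RXo440
open Crest.Agent.R017.RXt440 Crest.Agent.R017.RXu440 Crest.Agent.R017.RXw440

section geo

variable {Λ : Type*} {π : Λ → DPar} {c β d : ℝ} {Par : Set (Fin 3 ⊕ Fin 5 → ℝ)}

lemma geoX (hPar : ∀ p ∈ Par, ParOK p)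
    (hDp : ∀ p ∈ Par, Dp (cu p 2 / cκ p) (cu p 3 / cκ p) (cu p 4 / cκ p) (cx' p / cκ p) d)
    (hZ0 : ∀ p ∈ Par, 17 / 100 ≤ 1883 / 10000 * cκ p) (hβ : β = 17 / 100) :
    GeoU c β Par DifL (okX π) (fun a => rzD a.2.1 (dz a.1)) s0X := by
  intro X δ lam a qs q hX hδ hq hc hok
  obtain ⟨hq1, hq2, -, -⟩ := hq
  have hpar := hq1.par
  have hPp := hPar _ hpar
  have hL0' : 0 < Real.log X := Real.log_pos hX
  have κp : 0 < cκ (prX (bp q.1)) := by linarith [hPp.κ0]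
  obtain ⟨hu4, hy43, hu0, hy3x, hN1, hnr, hxx0, -, hd0, hd1⟩ := dp_hom κp (hDp _ hpar)
  have hzr := hq1.zr 1
  have hz0 : 17 / 100 * cκ (prX (bp q.1)) ≤ (bp q.1) (.inr 1) := by rw [← hβ]; exact hzr.1
  have hz1 : (bp q.1) (.inr 1) ≤ 1883 / 10000 * cκ (prX (bp q.1)) :=
    (hzr.2.trans (le_of_eq hβ)).trans (hZ0 _ hpar)
  obtain ⟨h1, h2, h3⟩ := geoX_num hL0' hδ hc hq2.1.1 hq2.1.2.1 hq2.1.2.2 hq1.x1 hz0
    (by linarith) (by linarith) (by linarith) hok.2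
  refine ⟨h1, h2, h3, fun i => ?_⟩
  match i with
  | 0 => exact hok.2.1
  | 1 => exact hok.2.2
  | 2 => exact hc.z2

lemma geoS (hβ : β = 17 / 100) :
    GeoU c β Par (SinL β) (okS π) (fun a => a.2.1) (fun _ => 0) := by
  intro X δ lam a qs q hX hδ hq hc hok
  obtain ⟨hq1, hq2, -, -⟩ := hq
  have hL0' : 0 < Real.log X := Real.log_pos hX
  obtain ⟨h1, h2⟩ := geoS_num hL0' hδ hc hq2.1 hq1.x1 (by
    have h3 := hq2.2
    rw [hβ] at h3
    exact h3)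
  refine ⟨h1, h2, h2, fun i => ?_⟩
  match i with
  | 0 => exact hc.z0
  | 1 => exact hc.z1
  | 2 => exact hc.z2

end geo

/-- **`PMQin`** (helper590) -/
theorem pmqin_of {Lam : Type*} {π : Lam → DPar} {h : ℝ → ℝ} {c₁ d : ℝ}
    (H : RGB545.DataE (7 / 8 + d) π h c₁) (hc : PM320.Clo π)
    (P : RGB545.PairRules (RGB545.rdE π) h (ex Dq (RGB545.SPe π h)))
    (R : ExpRules (7 / 8 + d) (ex Dq (RGB545.RNe π h)) (ex Dq (RGB545.SPe π h))) (hd : 0 ≤ d)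
    (hd8 : d ≤ 1 / 8) : PMQin NCube (RGB545.rdE π) h d := by
  intro ε hε
  obtain ⟨σ, hσ, K⟩ := PMq590.pmq_in H hc P R hd hd8 hε
  refine ⟨σ, hσ, fun lam N B => ?_⟩
  obtain ⟨M, X₀, hX₀, K⟩ := K lam N B
  refine ⟨M, X₀, hX₀, ?_⟩
  intro X hX l β H₀ u₁ u₂ u₃ rest hN hp hl hβ hl2 hβ3 z₁ z₂ z₃ x' ρ n' U h32 h21 hz hx hn hU hA
  refine K X hX l β H₀ u₁ u₂ u₃ rest hN hp hl hβ hl2 hβ3 z₁ z₂ z₃ x' ρ h32 h21 hz hx ?_
  subst hn
  subst hU
  exact hA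

/-- the box of class E : `κ ≥ 28 / 31` -/
lemma kap_ParS {A d : ℝ} : ∀ p ∈ ParS A d, 17 / 100 ≤ 1883 / 10000 * cκ p := by
  rintro p ⟨w, hw⟩
  have := hw.κ31
  linarith

section main

variable {Λ : Type*} {π : Λ → DPar} {h : ℝ → ℝ} {c₀ : ℝ} {A d : ℝ}

/-- **`RpGU` of the differences** (general data) -/
theorem rpX_of (hpu : PU h c₀) {R : ℝ} (hR0 : 0 ≤ R) (hR : ∀ u, cx h u ≠ 0 → |u| ≤ R)
    (HI : PMQin NCube π h d)
    (hXd : XdU π h R (alX π h) (okX π) (fun a qs => List.ofFn (rzD a.2.1 (dz a.1)) ++ qs) s0X)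
    (hd : 0 ≤ d) (hd1 : d ≤ 1 / 42) (hA : 9 / 10 ≤ A) (hA0 : A ≤ 1) (hA1 : 16 * (1 - A) ≤ d) :
    RpGU (alX π h) (okX π) (1 / 64) (d / 4) ER764.etR (17 / 100) (ParS A d) DifL (LS0 d)
      (ShX sh5) := by
  have hPar : ∀ p ∈ ParS A d, ParOK p := fun p hp => parOK_Sq5 hA hp
  have hDp : ∀ p ∈ ParS A d,
      Dp (cu p 2 / cκ p) (cu p 3 / cκ p) (cu p 4 / cκ p) (cx' p / cκ p) d := fun p hp => by
    obtain ⟨w, hw⟩ := hp
    exact hw.dp hd (by linarith) hA0 hA1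
  exact rpG_core hpu hR0 hR HI RXl176.lineAX RXl176.linePr RXl176.linePo le_rfl (by linarith)
    (by linarith) (by linarith) hPar hDp kap_ParS rfl (fun p _ => le_rfl)
    (rz3 := fun a => rzD a.2.1 (dz a.1)) (s0 := s0X) (fun lam a qs h => h.1) hXd
    (fun a i => by
      match i with
      | 0 => exact ⟨id, rfl, rfl⟩
      | 1 => exact ⟨id, rfl, rfl⟩
      | 2 => exact ⟨id, rfl, rfl⟩)
    (geoX hPar hDp kap_ParS rfl) (fun a qs γ b v => le_rfl) (fun a qs => lipS_shB (P10146.lipS_Sh5 _ _ _))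
    ER764.etR_nn (fun a qs j hl => ER764.etR_hi a qs j hl)

/-- **`RpGU` of the single lists** (general data) -/
theorem rpS_of (hpu : PU h c₀) {R : ℝ} (hR0 : 0 ≤ R) (hR : ∀ u, cx h u ≠ 0 → |u| ≤ R)
    (HI : PMQin NCube π h d)
    (hXd : XdU π h R (alS π h) (okS π) (fun a qs => List.ofFn a.2.1 ++ qs) (fun _ => 0))
    (hd : 0 ≤ d) (hd1 : d ≤ 1 / 42) (hA : 9 / 10 ≤ A) (hA0 : A ≤ 1) (hA1 : 16 * (1 - A) ≤ d) :
    RpGU (alS π h) (okS π) (1 / 64) (d / 4) ER764.etR (17 / 100) (ParS A d) (SinL (17 / 100))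
      (LS0 d) (ShS sh5) := by
  have hPar : ∀ p ∈ ParS A d, ParOK p := fun p hp => parOK_Sq5 hA hp
  have hDp : ∀ p ∈ ParS A d,
      Dp (cu p 2 / cκ p) (cu p 3 / cκ p) (cu p 4 / cκ p) (cx' p / cκ p) d := fun p hp => by
    obtain ⟨w, hw⟩ := hp
    exact hw.dp hd (by linarith) hA0 hA1
  exact rpG_core hpu hR0 hR HI RXl176.lineAX RXl176.linePr RXl176.linePo le_rfl (by linarith)
    (by linarith) (by linarith) hPar hDp kap_ParS rfl (fun p _ => le_rfl)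
    (rz3 := fun a => a.2.1) (s0 := fun _ => 0) (fun lam a qs h => h) hXd
    (fun a i => ⟨id, rfl, rfl⟩)
    (geoS rfl) (fun a qs γ b v => le_rfl) (fun a qs => lipS_shB (P10146.lipS_Sh5 _ _ _))
    ER764.etR_nn (fun a qs j hl => ER764.etR_hi a qs j hl)

end main

section red

variable {Lam : Type*} {π : Lam → DPar} {h : ℝ → ℝ} {c₁ : ℝ} {A d : ℝ}

/-- **`RpXU` at the reduced data** -/
theorem rpX_E (H : RGB545.DataE (7 / 8 + d) π h c₁) (hc : PM320.Clo π)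
    (P : RGB545.PairRules (RGB545.rdE π) h (ex Dq (RGB545.SPe π h)))
    (R' : ExpRules (7 / 8 + d) (ex Dq (RGB545.RNe π h)) (ex Dq (RGB545.SPe π h)))
    {R : ℝ} (hR0 : 0 ≤ R) (hR : ∀ u, cx h u ≠ 0 → |u| ≤ R)
    (hXd : XdU (fun lam => red (π lam)) h R (alX (fun lam => red (π lam)) h)
      (okX fun lam => red (π lam)) (fun a qs => List.ofFn (rzD a.2.1 (dz a.1)) ++ qs) s0X)
    (hd : 0 ≤ d) (hd1 : d ≤ 1 / 42) (hA : 9 / 10 ≤ A) (hA0 : A ≤ 1) (hA1 : 16 * (1 - A) ≤ d) :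
    RpGU (alX (fun lam => red (π lam)) h) (okX fun lam => red (π lam)) (1 / 64) (d / 4)
      ER764.etR (17 / 100) (ParS A d) DifL (LS0 d) (ShX sh5) :=
  rpX_of H.hpu hR0 hR (pmqin_of H hc P R' hd (by linarith)) hXd hd hd1 hA hA0 hA1

/-- **`RpSU` at the reduced data** -/
theorem rpS_E (H : RGB545.DataE (7 / 8 + d) π h c₁) (hc : PM320.Clo π)
    (P : RGB545.PairRules (RGB545.rdE π) h (ex Dq (RGB545.SPe π h)))
    (R' : ExpRules (7 / 8 + d) (ex Dq (RGB545.RNe π h)) (ex Dq (RGB545.SPe π h)))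
    {R : ℝ} (hR0 : 0 ≤ R) (hR : ∀ u, cx h u ≠ 0 → |u| ≤ R)
    (hXd : XdU (fun lam => red (π lam)) h R (alS (fun lam => red (π lam)) h)
      (okS fun lam => red (π lam)) (fun a qs => List.ofFn a.2.1 ++ qs) (fun _ => 0))
    (hd : 0 ≤ d) (hd1 : d ≤ 1 / 42) (hA : 9 / 10 ≤ A) (hA0 : A ≤ 1) (hA1 : 16 * (1 - A) ≤ d) :
    RpGU (alS (fun lam => red (π lam)) h) (okS fun lam => red (π lam)) (1 / 64) (d / 4)
      ER764.etR (17 / 100) (ParS A d) (SinL (17 / 100)) (LS0 d) (ShS sh5) :=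
  rpS_of H.hpu hR0 hR (pmqin_of H hc P R' hd (by linarith)) hXd hd hd1 hA hA0 hA1

end red

end Crest.Agent.R017.RXx440
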