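import Mathlib

/-!
# Row 17 (section C): the removal lemma, abstract part

`rem_abs`: if `G ≥ 0` is a hermitian form and `‖⟨w, x⟩‖² ≤ A (|w|² + ⟨w, G w⟩)` for all `w`, then
`|x|² ≤ A + ⟨x, G x⟩`.

`PF s Q`: `Q w` is a positive hermitian form in the variables `w a`, `a ∈ s`; closed under sums,
nonnegative scalars and integrals.

`rem_pf`: the removal lemma for `PF` forms on a `Finset`.
-/

set_option autoImplicit false

noncomputable section

open Finset Matrix MeasureTheory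
open scoped ComplexConjugate

namespace Crest.Agent.R017.Rem381

section abs

variable {ι : Type*} [Fintype ι]

/-- the hermitian product, conjugate linear in the first variable -/
def ip (u v : ι → ℂ) : ℂ := ∑ i, conj (u i) * v i

lemma ip_add_right (u v w : ι → ℂ) : ip u (v + w) = ip u v + ip u w := by
  simp [ip, mul_add, Finset.sum_add_distrib]

lemma ip_add_left (u v w : ι → ℂ) : ip (u + v) w = ip u w + ip v w := by
  simp [ip, add_mul, Finset.sum_add_distrib]

lemma ip_sub_right (u v w : ι → ℂ) : ip u (v - w) = ip u v - ip u w := by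
  simp [ip, mul_sub, Finset.sum_sub_distrib]

lemma ip_conj (u v : ι → ℂ) : conj (ip u v) = ip v u := by
  simp only [ip, map_sum, map_mul, Complex.conj_conj]
  exact Finset.sum_congr rfl fun i _ => mul_comm _ _

lemma ip_re_comm (u v : ι → ℂ) : (ip u v).re = (ip v u).re := by
  rw [← ip_conj u v, Complex.conj_re]

lemma ip_self (u : ι → ℂ) : ip u u = ((∑ i, ‖u i‖ ^ 2 : ℝ) : ℂ) := by
  simp only [ip]
  push_cast
  refine Finset.sum_congr rfl fun i _ => ?_
  rw [← Complex.normSq_eq_conj_mul_self, Complex.normSq_eq_norm_sq]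
  push_cast
  rfl

lemma ip_self_re (u : ι → ℂ) : (ip u u).re = ∑ i, ‖u i‖ ^ 2 := by
  rw [ip_self, Complex.ofReal_re]

lemma ip_mulVec (G : Matrix ι ι ℂ) (hG : ∀ i j, conj (G i j) = G j i) (u v : ι → ℂ) :
    ip u (G *ᵥ v) = ip (G *ᵥ u) v := by
  simp only [ip, Matrix.mulVec, dotProduct, map_sum, map_mul, Finset.mul_sum, Finset.sum_mul]
  rw [Finset.sum_comm]
  refine Finset.sum_congr rfl fun i _ => Finset.sum_congr rfl fun j _ => ?_
  rw [hG]
  ring

/-- **Removal lemma**, abstract form. -/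
theorem rem_abs (G : Matrix ι ι ℂ) (hG : ∀ i j, conj (G i j) = G j i)
    (hpos : ∀ w : ι → ℂ, 0 ≤ (ip w (G *ᵥ w)).re) (x : ι → ℂ) {A : ℝ} (hA : 0 ≤ A)
    (h : ∀ w : ι → ℂ, ‖ip w x‖ ^ 2 ≤ A * ((ip w w).re + (ip w (G *ᵥ w)).re)) :
    ∑ i, ‖x i‖ ^ 2 ≤ A + (ip x (G *ᵥ x)).re := by
  classical
  set T : (ι → ℂ) →ₗ[ℂ] (ι → ℂ) := LinearMap.id + Matrix.mulVecLin G with hT
  have hTa : ∀ w, T w = w + G *ᵥ w := fun w => by simp [hT]
  have hinj : Function.Injective T := by
    rw [← LinearMap.ker_eq_bot, LinearMap.ker_eq_bot']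
    intro w hw
    rw [hTa] at hw
    have h1 : (ip w (w + G *ᵥ w)).re = 0 := by rw [hw]; simp [ip]
    rw [ip_add_right, Complex.add_re, ip_self_re] at h1
    have h2 := hpos w
    have h3 : 0 ≤ ∑ i, ‖w i‖ ^ 2 := Finset.sum_nonneg fun i _ => by positivity
    have h4 : ∑ i, ‖w i‖ ^ 2 = 0 := by linarith
    rw [Finset.sum_eq_zero_iff_of_nonneg (fun i _ => by positivity)] at h4
    funext i
    have := h4 i (Finset.mem_univ i)
    simpa using this
  obtain ⟨c, hc⟩ := (LinearMap.injective_iff_surjective.1 hinj) x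
  rw [hTa] at hc
  -- `⟨c, x⟩ ≤ A`
  have h1 : (ip c x).re = (ip c c).re + (ip c (G *ᵥ c)).re := by
    rw [← hc, ip_add_right, Complex.add_re]
  have h2 : (ip c x).re ≤ A := by
    have h3 := h c
    rw [← h1] at h3
    have h4 : (ip c x).re ≤ ‖ip c x‖ := Complex.re_le_norm _
    rcases le_or_gt (ip c x).re 0 with h5 | h5
    · linarith
    · have h6 : (ip c x).re ^ 2 ≤ ‖ip c x‖ ^ 2 := by gcongr
      have h7 : (ip c x).re ^ 2 ≤ A * (ip c x).re := h6.trans h3
      nlinarith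
  have h3 : ∑ i, ‖x i‖ ^ 2 = (ip c x).re + (ip x (G *ᵥ c)).re := by
    rw [← ip_self_re, ip_re_comm c x]
    conv_lhs => rw [← hc]
    rw [hc, ← Complex.add_re, ← ip_add_right, hc]
  have h4 : (ip x (G *ᵥ c)).re ≤ (ip x (G *ᵥ x)).re := by
    have h5 : G *ᵥ x = G *ᵥ c + G *ᵥ (G *ᵥ c) := by rw [← Matrix.mulVec_add, hc]
    rw [h5, ip_add_right, Complex.add_re]
    have h6 : 0 ≤ (ip x (G *ᵥ (G *ᵥ c))).re := by
      have h7 : ip x (G *ᵥ (G *ᵥ c)) =
          ip c (G *ᵥ (G *ᵥ c)) + ip (G *ᵥ c) (G *ᵥ (G *ᵥ c)) := by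
        rw [← ip_add_left, hc]
      rw [h7, Complex.add_re, ip_mulVec G hG c, ip_self_re]
      have := hpos (G *ᵥ c)
      have h8 : 0 ≤ ∑ i, ‖(G *ᵥ c) i‖ ^ 2 := Finset.sum_nonneg fun i _ => by positivity
      linarith
    linarith
  linarith

end abs

section pf

variable {α : Type*}

/-- `Q` is a positive hermitian form in the variables `w a`, `a ∈ s`. -/
def PF (s : Finset α) (Q : (α → ℂ) → ℝ) : Prop :=
  ∃ G : α → α → ℂ, (∀ a b, conj (G a b) = G b a) ∧ (∀ w, 0 ≤ Q w) ∧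
    ∀ w, (Q w : ℂ) = ∑ a ∈ s, ∑ b ∈ s, conj (w a) * G a b * w b

lemma PF.nonneg {s : Finset α} {Q : (α → ℂ) → ℝ} (h : PF s Q) (w : α → ℂ) : 0 ≤ Q w := by
  obtain ⟨G, -, h2, -⟩ := h
  exact h2 w

lemma PF.congr {s : Finset α} {Q Q' : (α → ℂ) → ℝ} (h : PF s Q) (hQ : ∀ w, Q' w = Q w) :
    PF s Q' := by
  obtain ⟨G, h1, h2, h3⟩ := h
  exact ⟨G, h1, fun w => by rw [hQ]; exact h2 w, fun w => by rw [hQ]; exact h3 w⟩

lemma PF.zero (s : Finset α) : PF s (fun _ => 0) :=
  ⟨fun _ _ => 0, by simp, fun _ => le_rfl, by simp⟩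

lemma PF.add {s : Finset α} {Q Q' : (α → ℂ) → ℝ} (h : PF s Q) (h' : PF s Q') :
    PF s (fun w => Q w + Q' w) := by
  obtain ⟨G, h1, h2, h3⟩ := h
  obtain ⟨G', h1', h2', h3'⟩ := h'
  refine ⟨fun a b => G a b + G' a b, fun a b => by rw [map_add, h1, h1'],
    fun w => add_nonneg (h2 w) (h2' w), fun w => ?_⟩
  push_cast
  rw [h3, h3', ← Finset.sum_add_distrib]
  refine Finset.sum_congr rfl fun a _ => ?_
  rw [← Finset.sum_add_distrib]
  refine Finset.sum_congr rfl fun b _ => ?_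
  ring

lemma PF.smul {s : Finset α} {Q : (α → ℂ) → ℝ} (h : PF s Q) {r : ℝ} (hr : 0 ≤ r) :
    PF s (fun w => r * Q w) := by
  obtain ⟨G, h1, h2, h3⟩ := h
  refine ⟨fun a b => r * G a b, fun a b => by rw [map_mul, h1, Complex.conj_ofReal],
    fun w => mul_nonneg hr (h2 w), fun w => ?_⟩
  push_cast
  rw [h3, Finset.mul_sum]
  refine Finset.sum_congr rfl fun a _ => ?_
  rw [Finset.mul_sum]
  refine Finset.sum_congr rfl fun b _ => ?_
  ring

lemma PF.sum {s : Finset α} {β : Type*} (t : Finset β) {Q : β → (α → ℂ) → ℝ}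
    (h : ∀ i ∈ t, PF s (Q i)) : PF s (fun w => ∑ i ∈ t, Q i w) := by
  classical
  induction t using Finset.induction_on with
  | empty => exact (PF.zero s).congr fun w => by simp
  | insert i t hi ih =>
    refine ((h i (Finset.mem_insert_self _ _)).add
      (ih fun j hj => h j (Finset.mem_insert_of_mem hj))).congr fun w => ?_
    rw [Finset.sum_insert hi]

/-- the square of a linear form -/
lemma PF.norm_sq (s : Finset α) (L : α → ℂ) : PF s (fun w => ‖∑ a ∈ s, w a * L a‖ ^ 2) := by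
  refine ⟨fun a b => conj (L a) * L b, fun a b => by simp [mul_comm], fun w => by positivity,
    fun w => ?_⟩
  push_cast
  rw [← Complex.ofReal_pow, ← Complex.normSq_eq_norm_sq, Complex.normSq_eq_conj_mul_self, map_sum,
    Finset.sum_mul_sum]
  refine Finset.sum_congr rfl fun a _ => Finset.sum_congr rfl fun b _ => ?_
  rw [map_mul]
  ring

/-- an integral of squares of linear forms -/
lemma PF.integral_norm_sq (s : Finset α) {L : ℝ → α → ℂ} {ρ : ℝ → ℝ} (hρ : ∀ t, 0 ≤ ρ t)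
    (hi : ∀ a ∈ s, ∀ b ∈ s, Integrable fun t => (ρ t : ℂ) * (conj (L t a) * L t b)) :
    PF s (fun w => ∫ t, ρ t * ‖∑ a ∈ s, w a * L t a‖ ^ 2) := by
  classical
  refine ⟨fun a b => ∫ t, (ρ t : ℂ) * (conj (L t a) * L t b), fun a b => ?_,
    fun w => integral_nonneg fun t => mul_nonneg (hρ t) (by positivity), fun w => ?_⟩
  · rw [← integral_conj]
    refine integral_congr_ae (Filter.Eventually.of_forall fun t => ?_)
    simp only [map_mul, Complex.conj_conj, Complex.conj_ofReal]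
    ring
  · rw [← integral_complex_ofReal]
    have h1 : ∀ t, ((ρ t * ‖∑ a ∈ s, w a * L t a‖ ^ 2 : ℝ) : ℂ) =
        ∑ a ∈ s, ∑ b ∈ s, (conj (w a) * w b) * ((ρ t : ℂ) * (conj (L t a) * L t b)) := by
      intro t
      push_cast
      rw [← Complex.ofReal_pow, ← Complex.normSq_eq_norm_sq, Complex.normSq_eq_conj_mul_self,
        map_sum, Finset.sum_mul_sum, Finset.mul_sum]
      refine Finset.sum_congr rfl fun a _ => ?_
      rw [Finset.mul_sum]
      refine Finset.sum_congr rfl fun b _ => ?_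
      rw [map_mul]
      ring
    simp_rw [h1]
    rw [integral_finsetSum _ fun a ha => integrable_finsetSum _ fun b hb =>
      (hi a ha b hb).const_mul _]
    refine Finset.sum_congr rfl fun a ha => ?_
    rw [integral_finsetSum _ fun b hb => (hi a ha b hb).const_mul _]
    refine Finset.sum_congr rfl fun b _ => ?_
    rw [integral_const_mul]
    ring

/-- **Removal lemma** for a positive form on a finset. -/
theorem rem_pf {s : Finset α} {Q : (α → ℂ) → ℝ} (hQ : PF s Q) (x : α → ℂ) {A : ℝ} (hA : 0 ≤ A)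
    (h : ∀ w : α → ℂ, ‖∑ a ∈ s, conj (w a) * x a‖ ^ 2 ≤ A * (∑ a ∈ s, ‖w a‖ ^ 2 + Q w)) :
    ∑ a ∈ s, ‖x a‖ ^ 2 ≤ A + Q x := by
  classical
  obtain ⟨G, h1, h2, h3⟩ := hQ
  set M : Matrix s s ℂ := fun i j => G i j with hM
  have key : ∀ w : α → ℂ, ip (fun i : s => w i) (M *ᵥ fun i : s => w i) = Q w := by
    intro w
    rw [h3]
    simp only [ip, Matrix.mulVec, dotProduct, hM]
    rw [← Finset.sum_coe_sort s]
    refine Finset.sum_congr rfl fun i _ => ?_
    rw [Finset.mul_sum, ← Finset.sum_coe_sort s]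
    refine Finset.sum_congr rfl fun j _ => ?_
    ring
  have ext : ∀ v : s → ℂ, ∃ w : α → ℂ, (fun i : s => w i) = v := by
    intro v
    refine ⟨fun a => if ha : a ∈ s then v ⟨a, ha⟩ else 0, ?_⟩
    funext i
    simp
  have h4 := rem_abs M (fun i j => h1 i j) (fun v => by
      obtain ⟨w, rfl⟩ := ext v
      rw [key, Complex.ofReal_re]
      exact h2 w) (fun i : s => x i) hA (fun v => by
      obtain ⟨w, rfl⟩ := ext v
      rw [key, Complex.ofReal_re, ip_self_re]
      have h5 := h w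
      rw [← Finset.sum_coe_sort s, ← Finset.sum_coe_sort s (fun a => ‖w a‖ ^ 2)] at h5
      exact h5)
  rw [key, Complex.ofReal_re] at h4
  rw [← Finset.sum_coe_sort s]
  exact h4

end pf

end Crest.Agent.R017.Rem381
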