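import Crest.Agent.R017.ExpRules_911

/-!
# Row 17: REM on the Gauss side is free as soon as one lump is at most a quarter of the side
(helper590)

* `two_gran` : `s κ {y₁,y₂} m a ≤ max (κ + n) (2 n + (m + a))`
* `rem_free` : `4 κ ≤ 3 n`, `8 (m + a) ≤ n`, `4 y₃ ≤ n` ⟹ `s κ {y₁,y₂,y₃} m a ≤ 2 n`
  (any `θ ≤ 1`; only (C), (P'), (TF), (SUP)).
-/

set_option autoImplicit false

namespace Crest.Agent.R017.RemF590

open Crest.Agent.R017.ER911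

variable {θ : ℝ} {r s : EF}

/-- (SUP) removes the whole granular mass -/
lemma sup_all (R : ExpRules θ r s) (hθ : θ ≤ 1) (κ : ℝ) (Y : Multiset ℝ) (m a : ℝ) (hκ : 0 ≤ κ)
    (hY : Ok Y m a) : r κ Y m a ≤ 2 * (m + a) + r κ Y 0 0 := by
  have h := R.sup κ Y m a m a hκ hY hY.2.1 le_rfl hY.2.2 le_rfl
  rw [sub_self, sub_self] at h
  have h1 : 2 * θ * (m + a) ≤ 2 * (m + a) := by
    have := hY.2.1
    have := hY.2.2
    nlinarith
  linarith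

/-- two lumps and granular mass on the Gauss side -/
theorem two_gran (R : ExpRules θ r s) (hθ : θ ≤ 1) (κ y₁ y₂ m a : ℝ) (hκ : 0 ≤ κ)
    (hy₁ : 0 ≤ y₁) (hy₂ : 0 ≤ y₂) (hm : 0 ≤ m) (ha : 0 ≤ a) :
    s κ {y₁, y₂} m a ≤
      max (κ + (y₁ + y₂ + m + a)) (2 * (y₁ + y₂ + m + a) + (m + a)) := by
  have hsum : ({y₁, y₂} : Multiset ℝ).sum = y₁ + y₂ := by simp
  have hok : Ok ({y₁, y₂} : Multiset ℝ) m a := by
    refine ⟨?_, hm, ha⟩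
    intro y hy
    simp only [Multiset.insert_eq_cons, Multiset.mem_cons, Multiset.mem_singleton] at hy
    rcases hy with rfl | rfl <;> assumption
  set E := max (κ + (y₁ + y₂ + m + a)) (2 * (y₁ + y₂ + m + a) + (m + a)) with hE
  have hE1 : κ + (y₁ + y₂ + m + a) ≤ E := le_max_left _ _
  have hE2 : 2 * (y₁ + y₂ + m + a) + (m + a) ≤ E := le_max_right _ _
  -- the columns
  have hcol : ∀ (Y' : Multiset ℝ) (m' a' i : ℝ), Sh Y' {y₁, y₂} → 0 ≤ m' → m' ≤ m → 0 ≤ a' →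
      a' ≤ a → 0 ≤ i → (∀ y ∈ Y', y ≤ i) →
      r i Y' m' a' ≤ i + (Y'.sum + m' + a') + (m' + a') ∧ 0 ≤ Y'.sum ∧ Y'.sum ≤ y₁ + y₂ := by
    intro Y' m' a' i hsh hm0 hm1 ha0 ha1 hi hyi
    obtain ⟨b₁, b₂, rfl, h1, h2, h3, h4⟩ := Sh.pair hsh
    have hb1 : b₁ ≤ i := hyi b₁ (by simp)
    have hb2 : b₂ ≤ i := hyi b₂ (by simp)
    have hs' : ({b₁, b₂} : Multiset ℝ).sum = b₁ + b₂ := by simp
    have ho : Ok ({b₁, b₂} : Multiset ℝ) m' a' := by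
      refine ⟨?_, hm0, ha0⟩
      intro y hy
      simp only [Multiset.insert_eq_cons, Multiset.mem_cons, Multiset.mem_singleton] at hy
      rcases hy with rfl | rfl <;> assumption
    have h5 := sup_all R hθ i _ m' a' hi ho
    have h6 := R.tf i b₁ b₂ h1 h3 hb1 hb2
    rw [hs']
    exact ⟨by linarith, by linarith, by linarith⟩
  have h := R.poisG3 κ {y₁, y₂} m a E hκ hok (by rw [hsum]; linarith)
    (by
      intro Y' m' a' i hsh hm0 hm1 ha0 ha1 hi hyi hi2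
      obtain ⟨h1, h2, h3⟩ := hcol Y' m' a' i hsh hm0 hm1 ha0 ha1 hi hyi
      rw [hsum]
      linarith)
    (by
      intro Y' m' a' i hsh hm0 hm1 ha0 ha1 hi hyi hi2 hi3
      obtain ⟨h1, h2, h3⟩ := hcol Y' m' a' i hsh hm0 hm1 ha0 ha1 hi hyi
      rw [hsum] at hi3 ⊢
      linarith)
    (by
      intro Y' m' a' hsh hm0 hm1 ha0 ha1 hk
      have h3 := hsh.sum_nonneg
      have h4 : 2 * θ * m' ≤ 2 * m' := by nlinarith
      rw [hsum]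
      linarith) κ hκ le_rfl
  linarith

/-- **REM is free if one lump is short** -/
theorem rem_free (R : ExpRules θ r s) (hθ : θ ≤ 1) (κ y₁ y₂ y₃ m a : ℝ) (hκ : 0 ≤ κ)
    (hy₁ : 0 ≤ y₁) (hy₂ : 0 ≤ y₂) (hy₃ : 0 ≤ y₃) (hm : 0 ≤ m) (ha : 0 ≤ a)
    (hg : 8 * (m + a) ≤ y₁ + y₂ + y₃ + m + a) (hk : 4 * κ ≤ 3 * (y₁ + y₂ + y₃ + m + a))
    (h3 : 4 * y₃ ≤ y₁ + y₂ + y₃ + m + a) :
    s κ {y₁, y₂, y₃} m a ≤ 2 * (y₁ + y₂ + y₃ + m + a) := by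
  have hperm : ({y₁, y₂, y₃} : Multiset ℝ) = y₃ ::ₘ {y₁, y₂} := by
    simp only [Multiset.insert_eq_cons]
    rw [Multiset.cons_swap y₃ y₁]
    congr 1
    exact Multiset.pair_comm y₂ y₃
  have hok : ∀ m' a' : ℝ, 0 ≤ m' → 0 ≤ a' → Ok ({y₁, y₂} : Multiset ℝ) m' a' := by
    intro m' a' hm' ha'
    refine ⟨?_, hm', ha'⟩
    intro y hy
    simp only [Multiset.insert_eq_cons, Multiset.mem_cons, Multiset.mem_singleton] at hy
    rcases hy with rfl | rfl <;> assumption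
  have h1 := R.cauS κ y₃ {y₁, y₂} m a hκ hy₃ (hok m a hm ha)
  rw [hperm]
  rcases le_total (m + a) y₃ with hc | hc
  · have h2 := two_gran R hθ (κ + y₃) y₁ y₂ m a (by linarith) hy₁ hy₂ hm ha
    have h4 : max (κ + y₃ + (y₁ + y₂ + m + a)) (2 * (y₁ + y₂ + m + a) + (m + a)) ≤
        2 * (y₁ + y₂ + y₃ + m + a) - y₃ := max_le (by linarith) (by linarith)
    linarith
  · have h2 := R.cau (κ + y₃) {y₁, y₂} m a m a (by linarith) (hok m a hm ha) hm le_rfl ha le_rfl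
    rw [sub_self, sub_self] at h2
    have h3' := two_gran R hθ (κ + y₃ + (m + a)) y₁ y₂ 0 0 (by linarith) hy₁ hy₂ le_rfl le_rfl
    have h4 : max (κ + y₃ + (m + a) + (y₁ + y₂ + 0 + 0)) (2 * (y₁ + y₂ + 0 + 0) + (0 + 0)) ≤
        2 * (y₁ + y₂ + y₃ + m + a) - y₃ - (m + a) := max_le (by linarith) (by linarith)
    linarith

/-- so (REM) is only needed when every lump is longer than a quarter of the side -/
theorem rem_of_big {s₀ : EF} (R : ExpRules θ r s) (hθ : θ ≤ 1)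
    (hle : ∀ (κ : ℝ) (Y : Multiset ℝ) (m a : ℝ), 0 ≤ κ → Ok Y m a → s₀ κ Y m a ≤ s κ Y m a)
    (H : ∀ (κ y₁ y₂ y₃ m a : ℝ), 0 ≤ κ → 0 ≤ m → 0 ≤ a →
      8 * (m + a) ≤ y₁ + y₂ + y₃ + m + a → 4 * κ ≤ 3 * (y₁ + y₂ + y₃ + m + a) →
      y₁ + y₂ + y₃ + m + a < 4 * y₁ → y₁ + y₂ + y₃ + m + a < 4 * y₂ →
      y₁ + y₂ + y₃ + m + a < 4 * y₃ →
      s₀ κ {y₁, y₂, y₃} m a ≤ 2 * (y₁ + y₂ + y₃ + m + a))
    (κ y₁ y₂ y₃ m a : ℝ) (hκ : 0 ≤ κ)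
    (hy₁ : 0 ≤ y₁) (hy₂ : 0 ≤ y₂) (hy₃ : 0 ≤ y₃) (hm : 0 ≤ m) (ha : 0 ≤ a)
    (hg : 8 * (m + a) ≤ y₁ + y₂ + y₃ + m + a) (hk : 4 * κ ≤ 3 * (y₁ + y₂ + y₃ + m + a)) :
    s₀ κ {y₁, y₂, y₃} m a ≤ 2 * (y₁ + y₂ + y₃ + m + a) := by
  have hok : Ok ({y₁, y₂, y₃} : Multiset ℝ) m a := by
    refine ⟨?_, hm, ha⟩
    intro y hy
    simp only [Multiset.insert_eq_cons, Multiset.mem_cons, Multiset.mem_singleton] at hy
    rcases hy with rfl | rfl | rfl <;> assumption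
  have h0 := hle κ _ m a hκ hok
  by_cases c3 : 4 * y₃ ≤ y₁ + y₂ + y₃ + m + a
  · exact h0.trans (rem_free R hθ κ y₁ y₂ y₃ m a hκ hy₁ hy₂ hy₃ hm ha hg hk c3)
  by_cases c2 : 4 * y₂ ≤ y₁ + y₂ + y₃ + m + a
  · have h := rem_free R hθ κ y₁ y₃ y₂ m a hκ hy₁ hy₃ hy₂ hm ha (by linarith) (by linarith)
      (by linarith)
    have e : ({y₁, y₂, y₃} : Multiset ℝ) = {y₁, y₃, y₂} := by
      simp only [Multiset.insert_eq_cons]
      congr 1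
      exact Multiset.pair_comm y₂ y₃
    rw [← e] at h
    linarith
  by_cases c1 : 4 * y₁ ≤ y₁ + y₂ + y₃ + m + a
  · have h := rem_free R hθ κ y₂ y₃ y₁ m a hκ hy₂ hy₃ hy₁ hm ha (by linarith) (by linarith)
      (by linarith)
    have e : ({y₁, y₂, y₃} : Multiset ℝ) = {y₂, y₃, y₁} := by
      simp only [Multiset.insert_eq_cons]
      rw [Multiset.cons_swap y₁ y₂]
      congr 1
      exact Multiset.pair_comm y₁ y₃
    rw [← e] at h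
    linarith
  exact H κ y₁ y₂ y₃ m a hκ hm ha hg hk (not_le.1 c1) (not_le.1 c2) (not_le.1 c3)

end Crest.Agent.R017.RemF590
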