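import Crest.Agent.R017.Dual2G_813

/-!
# Row 17 (C.REMg): structured removal with a smooth weight (helper666)

* `rem_pf_w`    : the removal lemma `rem_pf` for the weighted vector `om x`, `0 ≤ om ≤ 1`
* `dual_test`   : the test inequality behind `rem_dual`
* `rem_dualW`   : `∑ om² ‖x‖² ≤ C Z ∑ e^{nm n/Z} ‖c n‖² + Z⁻¹ Qd (om² x)`
* `dual_test2`, `rem_dual2W` : the same for the mixed family of `Dual2G_813`
-/

set_option autoImplicit false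

noncomputable section

open MeasureTheory Finset
open scoped ComplexConjugate

namespace Crest.Agent.R017.RemW666

open Crest.Agent.R012
open Eis LS2 Mob705 CR2 MelSep811 DualIneq811
open Gauss880 (syG)
open Rem381 (PF rem_pf rs Qd rs_supp rs_eq pf_Qd)
open Dual2813

section pf

variable {α : Type*}

/-- dilation of the variables -/
lemma PF_dil {s : Finset α} {Q : (α → ℂ) → ℝ} (hQ : PF s Q) (om : α → ℝ) :
    PF s (fun w => Q (fun a => (om a : ℂ) * w a)) := by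
  obtain ⟨G, h1, h2, h3⟩ := hQ
  refine ⟨fun a b => om a * G a b * om b, fun a b => ?_, fun w => h2 _, fun w => ?_⟩
  · rw [map_mul, map_mul, Complex.conj_ofReal, Complex.conj_ofReal, h1]; ring
  · rw [h3]
    refine Finset.sum_congr rfl fun a _ => Finset.sum_congr rfl fun b _ => ?_
    rw [map_mul, Complex.conj_ofReal]
    ring

/-- **Removal lemma with a weight.** -/
theorem rem_pf_w {s : Finset α} {Q : (α → ℂ) → ℝ} (hQ : PF s Q) (x : α → ℂ) {A : ℝ} (hA : 0 ≤ A)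
    (h : ∀ w : α → ℂ, ‖∑ a ∈ s, conj (w a) * x a‖ ^ 2 ≤ A * (∑ a ∈ s, ‖w a‖ ^ 2 + Q w))
    (om : α → ℝ) (h0 : ∀ a, 0 ≤ om a) (h1 : ∀ a, om a ≤ 1) :
    ∑ a ∈ s, om a ^ 2 * ‖x a‖ ^ 2 ≤ A + Q (fun a => ((om a ^ 2 : ℝ) : ℂ) * x a) := by
  have key := rem_pf (PF_dil hQ om) (fun a => (om a : ℂ) * x a) hA (fun w => by
    have e1 : ∑ a ∈ s, conj (w a) * ((om a : ℂ) * x a) =
        ∑ a ∈ s, conj ((om a : ℂ) * w a) * x a :=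
      Finset.sum_congr rfl fun a _ => by rw [map_mul, Complex.conj_ofReal]; ring
    rw [e1]
    refine (h _).trans ?_
    have e2 : ∑ a ∈ s, ‖(om a : ℂ) * w a‖ ^ 2 ≤ ∑ a ∈ s, ‖w a‖ ^ 2 := by
      refine Finset.sum_le_sum fun a _ => ?_
      rw [norm_mul, Complex.norm_real, Real.norm_of_nonneg (h0 a)]
      have := h0 a
      have := h1 a
      gcongr
      exact mul_le_of_le_one_left (norm_nonneg _) (h1 a)
    gcongr)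
  have e3 : ∑ a ∈ s, om a ^ 2 * ‖x a‖ ^ 2 = ∑ a ∈ s, ‖(om a : ℂ) * x a‖ ^ 2 :=
    Finset.sum_congr rfl fun a _ => by
      rw [norm_mul, Complex.norm_real, Real.norm_of_nonneg (h0 a), mul_pow]
  rw [e3]
  refine key.trans (le_of_eq ?_)
  congr 2
  funext a
  push_cast
  ring

end pf

/-- Cauchy–Schwarz with the exponential weight -/
lemma cs_exp (T : Finset Eis) (c F : Eis → ℂ) {Z : ℝ} (hZ : 0 < Z) :
    ‖∑ n ∈ T, c n * conj (F n)‖ ^ 2 ≤ (∑ n ∈ T, Real.exp (nm n / Z) * ‖c n‖ ^ 2) *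
      ∑ n ∈ T, Real.exp (-(nm n : ℝ) / Z) * ‖F n‖ ^ 2 := by
  have h6 : ‖∑ n ∈ T, c n * conj (F n)‖ ≤
      ∑ n ∈ T, (Real.exp (nm n / (2 * Z)) * ‖c n‖) *
        (Real.exp (-(nm n : ℝ) / (2 * Z)) * ‖F n‖) := by
    refine (norm_sum_le _ _).trans (le_of_eq (Finset.sum_congr rfl fun n _ => ?_))
    rw [norm_mul, RCLike.norm_conj]
    have h7 : Real.exp ((nm n : ℝ) / (2 * Z)) * Real.exp (-(nm n : ℝ) / (2 * Z)) = 1 := by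
      rw [← Real.exp_add]
      have : (nm n : ℝ) / (2 * Z) + -(nm n : ℝ) / (2 * Z) = 0 := by ring
      rw [this, Real.exp_zero]
    calc ‖c n‖ * ‖F n‖
        = (Real.exp ((nm n : ℝ) / (2 * Z)) * Real.exp (-(nm n : ℝ) / (2 * Z))) *
          (‖c n‖ * ‖F n‖) := by rw [h7, one_mul]
      _ = _ := by ring
  have h8 : (∑ n ∈ T, (Real.exp (nm n / (2 * Z)) * ‖c n‖) *
        (Real.exp (-(nm n : ℝ) / (2 * Z)) * ‖F n‖)) ^ 2 ≤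
      (∑ n ∈ T, (Real.exp (nm n / (2 * Z)) * ‖c n‖) ^ 2) *
        ∑ n ∈ T, (Real.exp (-(nm n : ℝ) / (2 * Z)) * ‖F n‖) ^ 2 :=
    Finset.sum_mul_sq_le_sq_mul_sq _ _ _
  have e1 : ∀ n : Eis, (Real.exp (nm n / (2 * Z)) * ‖c n‖) ^ 2 =
      Real.exp (nm n / Z) * ‖c n‖ ^ 2 := fun n => by
    rw [mul_pow, ← Real.exp_nat_mul]
    congr 2
    push_cast
    field_simp
  have e2 : ∀ n : Eis, (Real.exp (-(nm n : ℝ) / (2 * Z)) * ‖F n‖) ^ 2 =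
      Real.exp (-(nm n : ℝ) / Z) * ‖F n‖ ^ 2 := fun n => by
    rw [mul_pow, ← Real.exp_nat_mul]
    congr 2
    push_cast
    field_simp
  simp_rw [e1, e2] at h8
  refine le_trans ?_ h8
  gcongr

/-- the test inequality of `rem_dual` -/
theorem dual_test {σ ε : ℝ} (hσ : 0 < σ) (hσ1 : σ ≤ 1 / 2) (hε : 0 < ε) :
    ∃ C : ℝ, 0 < C ∧ ∀ X Z : ℝ, 1 ≤ X → 1 ≤ Z → ∀ (T : Finset Eis) (c w : Eis → ℂ),
      ‖∑ a ∈ S X, conj (w a) * ∑ n ∈ T, c n * conj (sy n a)‖ ^ 2 ≤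
        (C * Z * ∑ n ∈ T, Real.exp (nm n / Z) * ‖c n‖ ^ 2) *
          (∑ a ∈ S X, ‖w a‖ ^ 2 + Z⁻¹ * Qd X Z σ ε w) := by
  classical
  obtain ⟨C, hC, hD⟩ := LS2.dualIneq σ ε hσ hσ1 hε
  refine ⟨C, hC, fun X Z hX hZ T c w => ?_⟩
  have hX0 : 0 ≤ X := by linarith
  have hZ0 : 0 < Z := by linarith
  have hsum := summable_lhs Sym645.syFacts hX0 hZ0 (rs X w)
  have h1 := hD X Z hX hZ (rs X w) rs_supp
  have h2 : ∀ n, ∑ h ∈ S X, rs X w h * sy n h = ∑ h ∈ S X, w h * sy n h := fun n =>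
    Finset.sum_congr rfl fun h hh => by rw [rs_eq hh]
  have h3 : ∑ h ∈ S X, ‖rs X w h‖ ^ 2 = ∑ h ∈ S X, ‖w h‖ ^ 2 :=
    Finset.sum_congr rfl fun h hh => by rw [rs_eq hh]
  simp only [h2] at h1 hsum
  rw [h3] at h1
  have h4 : ∑ n ∈ T, Real.exp (-(nm n : ℝ) / Z) * ‖∑ h ∈ S X, w h * sy n h‖ ^ 2 ≤
      C * Z * (∑ h ∈ S X, ‖w h‖ ^ 2 + Z⁻¹ * Qd X Z σ ε w) := by
    refine (hsum.sum_le_tsum T fun n _ => by positivity).trans (h1.trans (le_of_eq ?_))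
    have e0 : C * Z * ∑ h ∈ S X, ‖w h‖ ^ 2 + C * Qd X Z σ ε w =
        C * Z * (∑ h ∈ S X, ‖w h‖ ^ 2 + Z⁻¹ * Qd X Z σ ε w) := by
      generalize Qd X Z σ ε w = B
      field_simp
    rw [← e0]
    rfl
  have h5 : ∑ a ∈ S X, conj (w a) * ∑ n ∈ T, c n * conj (sy n a) =
      ∑ n ∈ T, c n * conj (∑ a ∈ S X, w a * sy n a) := by
    simp_rw [map_sum, map_mul, Finset.mul_sum]
    rw [Finset.sum_comm]
    refine Finset.sum_congr rfl fun n _ => Finset.sum_congr rfl fun a _ => ?_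
    ring
  rw [h5]
  calc ‖∑ n ∈ T, c n * conj (∑ a ∈ S X, w a * sy n a)‖ ^ 2
      ≤ (∑ n ∈ T, Real.exp (nm n / Z) * ‖c n‖ ^ 2) *
        ∑ n ∈ T, Real.exp (-(nm n : ℝ) / Z) * ‖∑ a ∈ S X, w a * sy n a‖ ^ 2 :=
        cs_exp T c _ hZ0
    _ ≤ (∑ n ∈ T, Real.exp (nm n / Z) * ‖c n‖ ^ 2) *
        (C * Z * (∑ h ∈ S X, ‖w h‖ ^ 2 + Z⁻¹ * Qd X Z σ ε w)) := by
        gcongr
    _ = _ := by ring

/-- **Structured removal with a weight** (square-free family). -/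
theorem rem_dualW {σ ε : ℝ} (hσ : 0 < σ) (hσ1 : σ ≤ 1 / 2) (hε : 0 < ε) :
    ∃ C : ℝ, 0 < C ∧ ∀ X Z : ℝ, 1 ≤ X → 1 ≤ Z → ∀ (T : Finset Eis) (c : Eis → ℂ)
      (om : Eis → ℝ), (∀ h, 0 ≤ om h) → (∀ h, om h ≤ 1) →
      ∑ h ∈ S X, om h ^ 2 * ‖∑ n ∈ T, c n * conj (sy n h)‖ ^ 2 ≤
        C * Z * ∑ n ∈ T, Real.exp (nm n / Z) * ‖c n‖ ^ 2 +
        Z⁻¹ * Qd X Z σ ε (fun h => ((om h ^ 2 : ℝ) : ℂ) * ∑ n ∈ T, c n * conj (sy n h)) := by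
  obtain ⟨C, hC, hD⟩ := dual_test hσ hσ1 hε
  refine ⟨C, hC, fun X Z hX hZ T c om h0 h1 => ?_⟩
  have hX0 : 0 ≤ X := by linarith
  have hZ0 : 0 < Z := by linarith
  exact rem_pf_w ((pf_Qd (σ := σ) (ε := ε) hX0 hZ0).smul (r := Z⁻¹) (by positivity)) _
    (A := C * Z * ∑ n ∈ T, Real.exp (nm n / Z) * ‖c n‖ ^ 2)
    (mul_nonneg (by positivity) (Finset.sum_nonneg fun n _ => by positivity))
    (fun w => hD X Z hX hZ T c w) om h0 h1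

/-- the test inequality of `rem_dual2` -/
theorem dual_test2 {σ ε : ℝ} (hσ : 0 < σ) (hσ1 : σ ≤ 1) (hε : 0 < ε) :
    ∃ C : ℝ, 0 < C ∧ ∀ X Y Z : ℝ, 1 ≤ X → 1 ≤ Y → 1 ≤ Z → ∀ (T : Finset Eis) (c : Eis → ℂ)
      (w : Eis × Eis → ℂ),
      ‖∑ p ∈ PP2 X Y, conj (w p) * ∑ n ∈ T, c n * (conj (sy n p.1) * sy n p.2)‖ ^ 2 ≤
        (C * Z * ∑ n ∈ T, Real.exp (nm n / Z) * ‖c n‖ ^ 2) *
          (∑ p ∈ PP2 X Y, ‖w p‖ ^ 2 + Z⁻¹ * Qd2 X Y Z σ ε (rs2 X Y w)) := by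
  classical
  obtain ⟨C, hC, hD⟩ := dual2 hσ hσ1 hε
  refine ⟨C, hC, fun X Y Z hX hY hZ T c w => ?_⟩
  have hX0 : 0 ≤ X := by linarith
  have hY0 : 0 ≤ Y := by linarith
  have hZ0 : 0 < Z := by linarith
  have hsum := summable_lhs2 hX0 hY0 hZ0 (rs2 X Y w)
  have h1 := hD X Y Z hX hY hZ (rs2 X Y w) (rs2_supp X Y w)
  simp only [lin2_rs2] at h1 hsum
  rw [W2_rs2] at h1
  have h4 : ∑ n ∈ T, Real.exp (-(nm n : ℝ) / Z) *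
      ‖∑ p ∈ PP2 X Y, w p * (sy n p.1 * conj (sy n p.2))‖ ^ 2 ≤
      C * Z * (∑ p ∈ PP2 X Y, ‖w p‖ ^ 2 + Z⁻¹ * Qd2 X Y Z σ ε (rs2 X Y w)) := by
    refine (hsum.sum_le_tsum T fun n _ => by positivity).trans (h1.trans (le_of_eq ?_))
    generalize Qd2 X Y Z σ ε (rs2 X Y w) = B
    field_simp
  have h5 : ∑ p ∈ PP2 X Y, conj (w p) * ∑ n ∈ T, c n * (conj (sy n p.1) * sy n p.2) =
      ∑ n ∈ T, c n * conj (∑ p ∈ PP2 X Y, w p * (sy n p.1 * conj (sy n p.2))) := by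
    simp_rw [map_sum, map_mul, Complex.conj_conj, Finset.mul_sum]
    rw [Finset.sum_comm]
    refine Finset.sum_congr rfl fun n _ => Finset.sum_congr rfl fun a _ => ?_
    ring
  rw [h5]
  set F : Eis → ℂ := fun n => ∑ p ∈ PP2 X Y, w p * (sy n p.1 * conj (sy n p.2)) with hF
  calc ‖∑ n ∈ T, c n * conj (F n)‖ ^ 2
      ≤ (∑ n ∈ T, Real.exp (nm n / Z) * ‖c n‖ ^ 2) *
        ∑ n ∈ T, Real.exp (-(nm n : ℝ) / Z) * ‖F n‖ ^ 2 := cs_exp T c F hZ0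
    _ ≤ (∑ n ∈ T, Real.exp (nm n / Z) * ‖c n‖ ^ 2) *
        (C * Z * (∑ p ∈ PP2 X Y, ‖w p‖ ^ 2 + Z⁻¹ * Qd2 X Y Z σ ε (rs2 X Y w))) := by
        gcongr
    _ = _ := by ring

/-- **Structured removal with a weight, mixed family** `χ_h conj χ_q`. -/
theorem rem_dual2W {σ ε : ℝ} (hσ : 0 < σ) (hσ1 : σ ≤ 1) (hε : 0 < ε) :
    ∃ C : ℝ, 0 < C ∧ ∀ X Y Z : ℝ, 1 ≤ X → 1 ≤ Y → 1 ≤ Z → ∀ (T : Finset Eis) (c : Eis → ℂ)
      (om : Eis × Eis → ℝ), (∀ p, 0 ≤ om p) → (∀ p, om p ≤ 1) →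
      ∑ p ∈ PP2 X Y, om p ^ 2 * ‖∑ n ∈ T, c n * (conj (sy n p.1) * sy n p.2)‖ ^ 2 ≤
        C * Z * ∑ n ∈ T, Real.exp (nm n / Z) * ‖c n‖ ^ 2 +
        Z⁻¹ * Qd2 X Y Z σ ε (rs2 X Y (fun p =>
          ((om p ^ 2 : ℝ) : ℂ) * ∑ n ∈ T, c n * (conj (sy n p.1) * sy n p.2))) := by
  obtain ⟨C, hC, hD⟩ := dual_test2 hσ hσ1 hε
  refine ⟨C, hC, fun X Y Z hX hY hZ T c om h0 h1 => ?_⟩
  have hX0 : 0 ≤ X := by linarith
  have hZ0 : 0 < Z := by linarith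
  exact rem_pf_w (Q := fun w => Z⁻¹ * Qd2 X Y Z σ ε (rs2 X Y w))
    ((pf_Qd2 (Y := Y) (σ := σ) (ε := ε) hX0 hZ0).smul (r := Z⁻¹) (by positivity))
    (fun p : Eis × Eis => ∑ n ∈ T, c n * (conj (sy n p.1) * sy n p.2))
    (A := C * Z * ∑ n ∈ T, Real.exp (nm n / Z) * ‖c n‖ ^ 2)
    (mul_nonneg (by positivity) (Finset.sum_nonneg fun n _ => by positivity))
    (fun w => hD X Y Z hX hY hZ T c w) om h0 h1

end Crest.Agent.R017.RemW666
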