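import Crest.Agent.R017.Rf_45

/-!
# Row 17: the packed checker (helper45)

As `Rf_45`, but linear forms are pairs of naturals in base `Bs = 2^96` (one digit per coordinate)
and a certificate is one natural number: base `2^56`, first digit the multiplier of the target, the
others `256 * multiplier + gap` along the list of constraints.  `check_sound` : soundness.
-/

set_option autoImplicit false

namespace Crest.Agent.R017.Rg45

open Crest.Agent.R017.Rf45 (dot bool_rec_eq)

/-- base of the forms -/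
def Bs : ℕ := 79228162514264337593543950336
/-- base of the certificates -/
def Ws : ℕ := 72057594037927936
/-- bound of the digits of the forms -/
def CC : ℕ := 1048576

lemma Bs_pos : 0 < Bs := by unfold Bs; norm_num

/-- value of a packed number -/
noncomputable def vp : ℕ → List ℝ → ℝ
  | _, [] => 0
  | n, x :: p => ((n % Bs : ℕ) : ℝ) * x + vp (n / Bs) p

@[simp] lemma vp_nil (n : ℕ) : vp n [] = 0 := by unfold vp; rfl
lemma vp_cons (n : ℕ) (x : ℝ) (p : List ℝ) :
    vp n (x :: p) = ((n % Bs : ℕ) : ℝ) * x + vp (n / Bs) p := by rw [vp]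

/-- all digits are at most `c` -/
def Bd (c n : ℕ) : Prop := ∀ j, n / Bs ^ j % Bs ≤ c

lemma Bd.div {c n : ℕ} (h : Bd c n) : Bd c (n / Bs) := fun j => by
  rw [Nat.div_div_eq_div_mul, ← pow_succ']
  exact h (j + 1)

lemma Bd.zero {c n : ℕ} (h : Bd c n) : n % Bs ≤ c := by simpa using h 0

lemma Bd.mono {c c' n : ℕ} (h : Bd c n) (hc : c ≤ c') : Bd c' n := fun j => (h j).trans hc

lemma add_digits {a b : ℕ} (h : a % Bs + b % Bs < Bs) :
    (a + b) % Bs = a % Bs + b % Bs ∧ (a + b) / Bs = a / Bs + b / Bs := by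
  constructor
  · rw [Nat.add_mod, Nat.mod_eq_of_lt h]
  · rw [Nat.add_div Bs_pos, if_neg (by omega), add_zero]

lemma mul_digits {m a : ℕ} (h : m * (a % Bs) < Bs) :
    (m * a) % Bs = m * (a % Bs) ∧ (m * a) / Bs = m * (a / Bs) := by
  have e : m * a = m * (a % Bs) + Bs * (m * (a / Bs)) := by
    conv_lhs => rw [← Nat.mod_add_div a Bs]
    ring
  constructor
  · rw [e, Nat.add_mul_mod_self_left, Nat.mod_eq_of_lt h]
  · rw [e, Nat.add_mul_div_left _ _ Bs_pos, Nat.div_eq_of_lt h, zero_add]

lemma Bd_add {c c' : ℕ} (hc : c + c' < Bs) : ∀ {a b : ℕ}, Bd c a → Bd c' b →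
    Bd (c + c') (a + b) := by
  intro a b ha hb j
  induction j generalizing a b with
  | zero =>
    have h1 := ha.zero
    have h2 := hb.zero
    rw [pow_zero, Nat.div_one, (add_digits (by omega)).1]
    omega
  | succ j ih =>
    have h1 := ha.zero
    have h2 := hb.zero
    rw [pow_succ', ← Nat.div_div_eq_div_mul, (add_digits (by omega)).2]
    exact ih ha.div hb.div

lemma Bd_mul {c m : ℕ} (hc : m * c < Bs) : ∀ {a : ℕ}, Bd c a → Bd (m * c) (m * a) := by
  intro a ha j
  induction j generalizing a with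
  | zero =>
    have h1 := Nat.mul_le_mul_left m ha.zero
    rw [pow_zero, Nat.div_one, (mul_digits (by omega)).1]
    exact h1
  | succ j ih =>
    have h1 := Nat.mul_le_mul_left m ha.zero
    rw [pow_succ', ← Nat.div_div_eq_div_mul, (mul_digits (by omega)).2]
    exact ih ha.div

lemma vp_add {c c' : ℕ} (hc : c + c' < Bs) (p : List ℝ) : ∀ {a b : ℕ}, Bd c a → Bd c' b →
    vp (a + b) p = vp a p + vp b p := by
  induction p with
  | nil => intro a b _ _; simp
  | cons x p ih =>
    intro a b ha hb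
    have h1 := ha.zero
    have h2 := hb.zero
    have h3 := add_digits (a := a) (b := b) (by omega)
    rw [vp_cons, vp_cons, vp_cons, h3.1, h3.2, ih ha.div hb.div]
    push_cast
    ring

lemma vp_mul {c m : ℕ} (hc : m * c < Bs) (p : List ℝ) : ∀ {a : ℕ}, Bd c a →
    vp (m * a) p = (m : ℝ) * vp a p := by
  induction p with
  | nil => intro a _; simp
  | cons x p ih =>
    intro a ha
    have h1 := Nat.mul_le_mul_left m ha.zero
    have h3 := mul_digits (m := m) (a := a) (by omega)
    rw [vp_cons, vp_cons, h3.1, h3.2, ih ha.div]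
    push_cast
    ring

/-- evaluate a number first -/
def force (e : ℕ) (f : ℕ → Bool) : Bool :=
  @Nat.rec (fun _ => Bool) (f 0) (fun k _ => f (Nat.succ k)) e

lemma force_eq (e : ℕ) (f : ℕ → Bool) : force e f = f e := by cases e <;> rfl

/-- digitwise comparison of `k` digits -/
def lleN (k : ℕ) : ℕ → ℕ → Bool :=
  @Nat.rec (fun _ => ℕ → ℕ → Bool) (fun _ _ => true)
    (fun _ ih a b => @Bool.rec (fun _ => Bool) false
      (force (Nat.div a Bs) fun a' => force (Nat.div b Bs) fun b' => ih a' b')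
      (Nat.ble (Nat.mod a Bs) (Nat.mod b Bs))) k

lemma lleN_sound (k : ℕ) : ∀ (a b : ℕ) (p : List ℝ), p.length ≤ k → (∀ x ∈ p, 0 ≤ x) →
    lleN k a b = true → vp a p ≤ vp b p := by
  induction k with
  | zero =>
    intro a b p hk _ _
    have : p = [] := List.eq_nil_of_length_eq_zero (by omega)
    simp [this]
  | succ k ih =>
    intro a b p hk hp h
    have h' := bool_rec_eq (b := Nat.ble (Nat.mod a Bs) (Nat.mod b Bs))
      (c := force (Nat.div a Bs) fun a' => force (Nat.div b Bs) fun b' => lleN k a' b') h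
    rw [force_eq, force_eq] at h'
    have h1 := Nat.le_of_ble_eq_true h'.1
    cases p with
    | nil => simp
    | cons x p =>
      have h2 := ih (Nat.div a Bs) (Nat.div b Bs) p (by simpa using hk)
        (fun y hy => hp y (by simp [hy])) h'.2
      rw [vp_cons, vp_cons]
      have h3 : (((a % Bs : ℕ)) : ℝ) ≤ ((b % Bs : ℕ) : ℝ) := by exact_mod_cast h1
      have h4 := mul_le_mul_of_nonneg_right h3 (hp x (by simp))
      have h5 : vp (a / Bs) p ≤ vp (b / Bs) p := h2
      linarith

/-- packed constraint : `(strict, P, N)` -/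
abbrev K := Bool × ℕ × ℕ

/-- value of a packed form -/
noncomputable def val (f : ℕ × ℕ) (p : List ℝ) : ℝ := vp f.1 p - vp f.2 p

/-- the constraint holds and its digits are small -/
def holds (p : List ℝ) (k : K) : Prop :=
  (Bd CC k.2.1 ∧ Bd CC k.2.2) ∧ 0 ≤ val k.2 p ∧ (k.1 = true → 0 < val k.2 p)

/-- last comparison -/
def fin (D PT NT L R S : ℕ) : Bool :=
  @Bool.rec (fun _ => Bool) false
    (@Bool.rec (fun _ => Bool) false
      (force (Nat.add (Nat.mul D NT) L) fun a => force (Nat.add (Nat.mul D PT) R) fun b =>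
        lleN 52 a b)
      (Nat.ble (Nat.succ (Nat.mul (Nat.add S (Nat.mul 3 D)) CC)) Bs)) (Nat.ble 1 D)

/-- walk along the constraints : `g` the gap, `m` the multiplier, `n` the rest -/
def walk (D PT NT : ℕ) (cs : List K) : ℕ → ℕ → ℕ → ℕ → ℕ → ℕ → Bool :=
  @List.rec K (fun _ => ℕ → ℕ → ℕ → ℕ → ℕ → ℕ → Bool) (fun _ _ _ _ _ _ => false)
    (fun c _ ih g m n L R S => @Nat.rec (fun _ => Bool)
      (@Prod.rec Bool (ℕ × ℕ) (fun _ => Bool) (fun _ f => @Prod.rec ℕ ℕ (fun _ => Bool)
        (fun P N => @Nat.rec (fun _ => Bool)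
          (fin D PT NT (Nat.add (Nat.mul m P) L) (Nat.add (Nat.mul m N) R) (Nat.add m S))
          (fun _ _ => force (Nat.div n Ws) fun n' => force (Nat.mod n Ws) fun w =>
            ih (Nat.mod w 256) (Nat.div w 256) n' (Nat.add (Nat.mul m P) L)
              (Nat.add (Nat.mul m N) R) (Nat.add m S)) n) f) c)
      (fun g' _ => ih g' m n L R S) g) cs

/-- a certificate -/
def cert (PT NT : ℕ) (cs : List K) (n L R S : ℕ) : Bool :=
  force (Nat.mod n Ws) fun D => force (Nat.div n Ws) fun n1 => @Nat.rec (fun _ => Bool)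
    (fin D PT NT L R S)
    (fun _ _ => force (Nat.div n1 Ws) fun n' => force (Nat.mod n1 Ws) fun w =>
      walk D PT NT cs (Nat.mod w 256) (Nat.div w 256) n' L R S) n1

section
variable {p : List ℝ} (hp : ∀ x ∈ p, 0 ≤ x) (hl : p.length ≤ 52) {PT NT : ℕ}
  (hP : Bd (3 * CC) PT) (hN : Bd (3 * CC) NT)
include hp hl hP hN

lemma fin_sound {D L R S : ℕ} (hL : Bd (S * CC) L) (hR : Bd (S * CC) R)
    (h : fin D PT NT L R S = true) :
    S * CC < Bs ∧ ∃ D' : ℝ, 1 ≤ D' ∧ vp L p - vp R p ≤ D' * (vp PT p - vp NT p) := by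
  have h1 := bool_rec_eq h
  have hD := Nat.le_of_ble_eq_true h1.1
  have h2 := bool_rec_eq h1.2
  have hS := Nat.le_of_ble_eq_true h2.1
  rw [force_eq, force_eq] at h2
  have h3 := lleN_sound 52 _ _ p hl hp h2.2
  simp only [Nat.add_eq, Nat.mul_eq, Nat.succ_eq_add_one] at h3 hS
  have e1 : D * (3 * CC) + S * CC = (S + 3 * D) * CC := by ring
  have hb : D * (3 * CC) + S * CC < Bs := by omega
  have hb1 : D * (3 * CC) < Bs := by omega
  rw [vp_add hb p (Bd_mul hb1 hN) hL, vp_add hb p (Bd_mul hb1 hP) hR, vp_mul hb1 p hN,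
    vp_mul hb1 p hP] at h3
  refine ⟨by omega, D, by exact_mod_cast hD, by linarith⟩

lemma walk_sound {D : ℕ} (cs : List K) : (∀ k ∈ cs, holds p k) → ∀ g m n L R S : ℕ,
    Bd (S * CC) L → Bd (S * CC) R → walk D PT NT cs g m n L R S = true →
      (S + m) * CC < Bs ∧ ∃ D' : ℝ, 1 ≤ D' ∧ vp L p - vp R p ≤ D' * (vp PT p - vp NT p) := by
  induction cs with
  | nil =>
    intro _ g m n L R S _ _ h
    exact absurd h (by change ¬ (false = true); simp)
  | cons c cs ih =>
    intro hc g m n L R S hL hR h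
    have hc' : ∀ k ∈ cs, holds p k := fun k hk => hc k (by simp [hk])
    obtain ⟨⟨k1, k2⟩, k3, _⟩ := hc c (by simp)
    rcases c with ⟨b, P, N⟩
    have k3' : 0 ≤ vp P p - vp N p := k3
    cases g with
    | succ g => exact ih hc' g m n L R S hL hR h
    | zero =>
      -- the key step : once the total is known to be small
      have key : ∀ {L' R' : ℕ}, L' = m * P + L → R' = m * N + R → (S + m) * CC < Bs →
          (Bd ((S + m) * CC) L' ∧ Bd ((S + m) * CC) R') ∧
            (∀ D' : ℝ, vp L' p - vp R' p ≤ D' * (vp PT p - vp NT p) →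
              vp L p - vp R p ≤ D' * (vp PT p - vp NT p)) := by
        intro L' R' hL' hR' hb
        have e1 : m * CC + S * CC = (S + m) * CC := by ring
        have hb1 : m * CC + S * CC < Bs := by omega
        have hb2 : m * CC < Bs := by omega
        refine ⟨⟨?_, ?_⟩, fun D' h => ?_⟩
        · rw [hL', ← e1]; exact Bd_add hb1 (Bd_mul hb2 k1) hL
        · rw [hR', ← e1]; exact Bd_add hb1 (Bd_mul hb2 k2) hR
        · rw [hL', hR', vp_add hb1 p (Bd_mul hb2 k1) hL, vp_add hb1 p (Bd_mul hb2 k2) hR,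
            vp_mul hb2 p k1, vp_mul hb2 p k2] at h
          have h4 : 0 ≤ (m : ℝ) * (vp P p - vp N p) := mul_nonneg (Nat.cast_nonneg m) k3'
          linarith
      have hex : ∃ S', S' = S + m ∧ ∀ (_ : (S + m) * CC < Bs), True := ⟨_, rfl, fun _ => trivial⟩
      cases n with
      | zero =>
        have h1 : fin D PT NT (Nat.add (Nat.mul m P) L) (Nat.add (Nat.mul m N) R) (Nat.add m S)
          = true := h
        have hS : (S + m) * CC < Bs := by
          have h2 := bool_rec_eq h1
          have h3 := bool_rec_eq h2.2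
          have h4 := Nat.le_of_ble_eq_true h3.1
          simp only [Nat.add_eq, Nat.mul_eq, Nat.succ_eq_add_one] at h4
          have e1 : (m + S + 3 * D) * CC = (S + m) * CC + 3 * D * CC := by ring
          omega
        obtain ⟨⟨b1, b2⟩, b3⟩ := key (L' := Nat.add (Nat.mul m P) L)
          (R' := Nat.add (Nat.mul m N) R) rfl rfl hS
        have eS : Nat.add m S = S + m := by simp [Nat.add_eq, add_comm]
        rw [eS] at h1
        obtain ⟨_, D', hD', h5⟩ := fin_sound hp hl hP hN b1 b2 h1
        exact ⟨hS, D', hD', b3 D' h5⟩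
      | succ n =>
        have h1 : (force (Nat.div (n + 1) Ws) fun n' => force (Nat.mod (n + 1) Ws) fun w =>
            walk D PT NT cs (Nat.mod w 256) (Nat.div w 256) n' (Nat.add (Nat.mul m P) L)
              (Nat.add (Nat.mul m N) R) (Nat.add m S)) = true := h
        rw [force_eq, force_eq] at h1
        have eS : Nat.add m S = S + m := by simp [Nat.add_eq, add_comm]
        rw [eS] at h1
        have hS : (S + m) * CC < Bs := walk_small hp hl hP hN cs _ _ _ _ _ _ h1
        obtain ⟨⟨b1, b2⟩, b3⟩ := key (L' := Nat.add (Nat.mul m P) L)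
          (R' := Nat.add (Nat.mul m N) R) rfl rfl hS
        obtain ⟨_, D', hD', h5⟩ := ih hc' _ _ _ _ _ _ b1 b2 h1
        exact ⟨hS, D', hD', b3 D' h5⟩
where
  walk_small {p : List ℝ} (hp : ∀ x ∈ p, 0 ≤ x) (hl : p.length ≤ 52) {PT NT : ℕ}
      (hP : Bd (3 * CC) PT) (hN : Bd (3 * CC) NT) {D : ℕ} (cs : List K) :
      ∀ g m n L R S : ℕ, walk D PT NT cs g m n L R S = true → S * CC < Bs := by
    induction cs with
    | nil =>
      intro g m n L R S h
      exact absurd h (by change ¬ (false = true); simp)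
    | cons c cs ih =>
      intro g m n L R S h
      rcases c with ⟨b, P, N⟩
      cases g with
      | succ g => exact ih g m n L R S h
      | zero =>
        cases n with
        | zero =>
          have h1 : fin D PT NT (Nat.add (Nat.mul m P) L) (Nat.add (Nat.mul m N) R)
            (Nat.add m S) = true := h
          have h2 := bool_rec_eq h1
          have h3 := bool_rec_eq h2.2
          have h4 := Nat.le_of_ble_eq_true h3.1
          simp only [Nat.add_eq, Nat.mul_eq, Nat.succ_eq_add_one] at h4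
          have e1 : (m + S + 3 * D) * CC = S * CC + (m + 3 * D) * CC := by ring
          omega
        | succ n =>
          have h1 : (force (Nat.div (n + 1) Ws) fun n' => force (Nat.mod (n + 1) Ws) fun w =>
              walk D PT NT cs (Nat.mod w 256) (Nat.div w 256) n' (Nat.add (Nat.mul m P) L)
                (Nat.add (Nat.mul m N) R) (Nat.add m S)) = true := h
          rw [force_eq, force_eq] at h1
          have h2 := ih _ _ _ _ _ _ h1
          simp only [Nat.add_eq] at h2
          have e1 : (m + S) * CC = S * CC + m * CC := by ring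
          omega

lemma cert_sound {cs : List K} (hc : ∀ k ∈ cs, holds p k) {n L R S : ℕ}
    (hL : Bd (S * CC) L) (hR : Bd (S * CC) R) (h : cert PT NT cs n L R S = true) :
    ∃ D' : ℝ, 1 ≤ D' ∧ vp L p - vp R p ≤ D' * (vp PT p - vp NT p) := by
  unfold cert at h
  rw [force_eq, force_eq] at h
  rcases e : Nat.div n Ws with _ | n1
  · rw [e] at h
    exact (fin_sound hp hl hP hN hL hR h).2
  · rw [e] at h
    have h1 : (force (Nat.div (n1 + 1) Ws) fun n' => force (Nat.mod (n1 + 1) Ws) fun w =>
      walk (Nat.mod n Ws) PT NT cs (Nat.mod w 256) (Nat.div w 256) n' L R S) = true := h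
    rw [force_eq, force_eq] at h1
    exact (walk_sound hp hl hP hN cs hc _ _ _ _ _ _ hL hR h1).2

end

lemma Bd_zero (c : ℕ) : Bd c 0 := fun j => by simp

lemma vp_zero (p : List ℝ) : vp 0 p = 0 := by
  induction p with
  | nil => simp
  | cons x p ih => rw [vp_cons]; simp [ih]

lemma Bd_one : Bd (1 * CC) 1 := fun j => by
  have h1 : 1 / Bs ^ j % Bs ≤ 1 := (Nat.mod_le _ _).trans (Nat.div_le_self _ _)
  refine h1.trans ?_
  unfold CC
  norm_num

lemma vp_one {p : List ℝ} (h : ∃ p', p = 1 :: p') : vp 1 p = 1 := by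
  obtain ⟨p', h⟩ := h
  rw [h, vp_cons]
  have e1 : 1 % Bs = 1 := by unfold Bs; norm_num
  have e2 : 1 / Bs = 0 := by unfold Bs; norm_num
  rw [e1, e2, vp_zero]
  norm_num

/-- all of at most 53 digits are small -/
def small (n : ℕ) : Bool :=
  @Nat.rec (fun _ => ℕ → Bool) (fun n => Nat.beq n 0)
    (fun _ ih n => @Bool.rec (fun _ => Bool) false (force (Nat.div n Bs) fun n' => ih n')
      (Nat.ble (Nat.mod n Bs) CC)) 53 n

lemma small_sound {n : ℕ} (h : small n = true) : Bd CC n := by
  have key : ∀ (k n : ℕ), (@Nat.rec (fun _ => ℕ → Bool) (fun n => Nat.beq n 0)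
      (fun _ ih n => @Bool.rec (fun _ => Bool) false (force (Nat.div n Bs) fun n' => ih n')
        (Nat.ble (Nat.mod n Bs) CC)) k n) = true → Bd CC n := by
    intro k
    induction k with
    | zero =>
      intro n h
      have : n = 0 := by simpa using h
      rw [this]; exact Bd_zero _
    | succ k ih =>
      intro n h j
      have h1 := bool_rec_eq h
      rw [force_eq] at h1
      cases j with
      | zero =>
        have := Nat.le_of_ble_eq_true h1.1
        rw [pow_zero, Nat.div_one]
        exact this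
      | succ j =>
        have := ih _ h1.2 j
        rw [pow_succ', ← Nat.div_div_eq_div_mul]
        exact this
  exact key 53 n h

/-- data of a closer : side conditions, lines of the first sum, lines of the second, base -/
structure Cl where
  S : List (ℕ × ℕ)
  X : List (ℕ × ℕ)
  Y : List (ℕ × ℕ)
  b : ℕ × ℕ

/-- certificates for the side conditions -/
def chkS (cs : List K) : List (ℕ × ℕ) → List ℕ → Option (List ℕ)
  | [], l => some l
  | _ :: _, [] => none
  | t :: ts, n :: l => if cert t.1 t.2 cs n 0 0 0 then chkS cs ts l else none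

/-- certificates for `b - x - y`, `y` in a list -/
def chkY (cs : List K) (b x : ℕ × ℕ) : List (ℕ × ℕ) → List ℕ → Option (List ℕ)
  | [], l => some l
  | _ :: _, [] => none
  | y :: ts, n :: l =>
    if cert (b.1 + (x.2 + y.2)) (b.2 + (x.1 + y.1)) cs n 0 0 0 then chkY cs b x ts l else none

/-- certificates for `b - x - y`, `x` and `y` in lists -/
def chkX (cs : List K) (b : ℕ × ℕ) (Y : List (ℕ × ℕ)) : List (ℕ × ℕ) → List ℕ → Bool
  | [], _ => true
  | x :: ts, l =>
    match chkY cs b x Y l with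
    | some l' => chkX cs b Y ts l'
    | none => false

/-- the forms of a closer have small digits -/
def fsmall (l : List (ℕ × ℕ)) : Bool := l.all fun f => small f.1 && small f.2

def Cl.small (c : Cl) : Bool :=
  fsmall c.S && (fsmall c.X && (fsmall c.Y && (Rg45.small c.b.1 && Rg45.small c.b.2)))

/-- the closer applies at `p` -/
def Cl.ok (c : Cl) (p : List ℝ) : Prop :=
  (∀ s ∈ c.S, 0 ≤ val s p) ∧ ∀ x ∈ c.X, ∀ y ∈ c.Y, 0 ≤ val c.b p - val x p - val y p

lemma fsmall_sound {l : List (ℕ × ℕ)} (h : fsmall l = true) : ∀ f ∈ l, Bd CC f.1 ∧ Bd CC f.2 := by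
  intro f hf
  unfold fsmall at h
  rw [List.all_eq_true] at h
  have := h f hf
  simp only [Bool.and_eq_true] at this
  exact ⟨small_sound this.1, small_sound this.2⟩

lemma cert_nonneg {p : List ℝ} (hp : ∀ x ∈ p, 0 ≤ x) (hl : p.length ≤ 52) {PT NT : ℕ}
    (hP : Bd (3 * CC) PT) (hN : Bd (3 * CC) NT) {cs : List K} (hc : ∀ k ∈ cs, holds p k) {n : ℕ}
    (h : cert PT NT cs n 0 0 0 = true) : 0 ≤ vp PT p - vp NT p := by
  obtain ⟨D, hD, h1⟩ := cert_sound hp hl hP hN hc (Bd_zero _) (Bd_zero _) h
  rw [vp_zero, sub_self] at h1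
  by_contra hn
  push Not at hn
  have : D * (vp PT p - vp NT p) < 0 := mul_neg_of_pos_of_neg (by linarith) hn
  linarith

section
variable {p : List ℝ} (hp : ∀ x ∈ p, 0 ≤ x) (hl : p.length ≤ 52) {cs : List K}
  (hc : ∀ k ∈ cs, holds p k)
include hp hl hc

lemma CC3 : CC ≤ 3 * CC := by unfold CC; norm_num

lemma chkS_sound : ∀ (ts : List (ℕ × ℕ)) (l l' : List ℕ), (∀ f ∈ ts, Bd CC f.1 ∧ Bd CC f.2) →
    chkS cs ts l = some l' → ∀ t ∈ ts, 0 ≤ val t p := by
  intro ts
  induction ts with
  | nil => intro l l' _ _ t ht; simp at ht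
  | cons t ts ih =>
    intro l l' hb h
    cases l with
    | nil => simp [chkS] at h
    | cons n l =>
      simp only [chkS] at h
      split_ifs at h with h1
      · intro t' ht'
        rcases List.mem_cons.1 ht' with e | e
        · rw [e]
          have h2 := hb t (by simp)
          exact cert_nonneg hp hl (h2.1.mono (CC3 hp hl hc)) (h2.2.mono (CC3 hp hl hc)) hc h1
        · exact ih l l' (fun f hf => hb f (by simp [hf])) h t' e

lemma tgt_sound {b x y : ℕ × ℕ} (hb : Bd CC b.1 ∧ Bd CC b.2) (hx : Bd CC x.1 ∧ Bd CC x.2)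
    (hy : Bd CC y.1 ∧ Bd CC y.2) {n : ℕ}
    (h : cert (b.1 + (x.2 + y.2)) (b.2 + (x.1 + y.1)) cs n 0 0 0 = true) :
    0 ≤ val b p - val x p - val y p := by
  have e2 : CC + CC < Bs := by unfold CC Bs; norm_num
  have e3 : CC + (CC + CC) < Bs := by unfold CC Bs; norm_num
  have e4 : CC + (CC + CC) = 3 * CC := by ring
  have h1 := cert_nonneg hp hl (e4 ▸ Bd_add e3 hb.1 (Bd_add e2 hx.2 hy.2))
    (e4 ▸ Bd_add e3 hb.2 (Bd_add e2 hx.1 hy.1)) hc h
  rw [vp_add e3 p hb.1 (Bd_add e2 hx.2 hy.2), vp_add e2 p hx.2 hy.2,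
    vp_add e3 p hb.2 (Bd_add e2 hx.1 hy.1), vp_add e2 p hx.1 hy.1] at h1
  simp only [val]
  linarith

lemma chkY_sound {b x : ℕ × ℕ} (hb : Bd CC b.1 ∧ Bd CC b.2) (hx : Bd CC x.1 ∧ Bd CC x.2) :
    ∀ (ts : List (ℕ × ℕ)) (l l' : List ℕ), (∀ f ∈ ts, Bd CC f.1 ∧ Bd CC f.2) →
    chkY cs b x ts l = some l' → ∀ y ∈ ts, 0 ≤ val b p - val x p - val y p := by
  intro ts
  induction ts with
  | nil => intro l l' _ _ t ht; simp at ht
  | cons t ts ih =>
    intro l l' ht0 h
    cases l with
    | nil => simp [chkY] at h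
    | cons n l =>
      simp only [chkY] at h
      split_ifs at h with h1
      · intro t' ht'
        rcases List.mem_cons.1 ht' with e | e
        · rw [e]
          exact tgt_sound hp hl hc hb hx (ht0 t (by simp)) h1
        · exact ih l l' (fun f hf => ht0 f (by simp [hf])) h t' e

lemma chkX_sound {b : ℕ × ℕ} (hb : Bd CC b.1 ∧ Bd CC b.2) {Y : List (ℕ × ℕ)}
    (hY : ∀ f ∈ Y, Bd CC f.1 ∧ Bd CC f.2) : ∀ (ts : List (ℕ × ℕ)) (l : List ℕ),
    (∀ f ∈ ts, Bd CC f.1 ∧ Bd CC f.2) → chkX cs b Y ts l = true →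
      ∀ x ∈ ts, ∀ y ∈ Y, 0 ≤ val b p - val x p - val y p := by
  intro ts
  induction ts with
  | nil => intro l _ _ t ht; simp at ht
  | cons t ts ih =>
    intro l ht0 h
    simp only [chkX] at h
    rcases e : chkY cs b t Y l with _ | l'
    · rw [e] at h; simp at h
    · rw [e] at h
      intro t' ht'
      rcases List.mem_cons.1 ht' with e1 | e1
      · rw [e1]
        exact chkY_sound hp hl hc hb (ht0 t (by simp)) Y l l' hY e
      · exact ih l' (fun f hf => ht0 f (by simp [hf])) h t' e1

end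

/-- the trees -/
inductive Tr
  | inf : ℕ → ℕ → Tr
  | dn : ℕ → List ℕ → Tr
  | br : ℕ → ℕ → Tr → Tr → Tr
  | cl : ℕ → Tr → Tr → Tr
  | em : ℕ → Tr
  | rf : ℕ → Tr

/-- the `i`-th constraint -/
def nth : List K → ℕ → K
  | [], _ => (false, 0, 0)
  | k :: _, 0 => k
  | _ :: l, n + 1 => nth l n

/-- the `n`-th closer -/
def nthC : List Cl → ℕ → Option Cl
  | [], _ => none
  | c :: _, 0 => some c
  | _ :: l, n + 1 => nthC l n

/-- the `n`-th clause -/
def nthS : List (List (List (ℕ × ℕ))) → ℕ → Option (List (List (ℕ × ℕ)))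
  | [], _ => none
  | c :: _, 0 => some c
  | _ :: l, n + 1 => nthS l n

/-- clause `n` loses its first alternative -/
def dropS : List (List (List (ℕ × ℕ))) → ℕ → List (List (List (ℕ × ℕ)))
  | [], _ => []
  | c :: l, 0 => c.tail :: l
  | c :: l, n + 1 => c :: dropS l n

/-- add the forms of an alternative (nonstrict) -/
def addA : List (ℕ × ℕ) → List K → List K
  | [], cs => cs
  | f :: l, cs => addA l ((false, f) :: cs)

/-- as `addA`, the new list is passed on evaluated -/
def addK (A : List (ℕ × ℕ)) : List K → (List K → Bool) → Bool :=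
  @List.rec (ℕ × ℕ) (fun _ => List K → (List K → Bool) → Bool) (fun cs k => k cs)
    (fun f _ ih cs k => ih ((false, f) :: cs) k) A

lemma addK_eq (k : List K → Bool) : ∀ (A : List (ℕ × ℕ)) (cs : List K),
    addK A cs k = k (addA A cs)
  | [], _ => rfl
  | f :: A, cs => addK_eq k A ((false, f) :: cs)

/-- equality of lists of constraints -/
def eqK : List K → List K → Bool
  | [], [] => true
  | (b, P, N) :: l, (b', P', N') :: m =>
    (b == b') && (Nat.beq P P' && (Nat.beq N N' && eqK l m))
  | _, _ => false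

lemma eqK_eq : ∀ l m : List K, eqK l m = true → l = m
  | [], [], _ => rfl
  | (b, P, N) :: l, (b', P', N') :: m, h => by
    simp only [eqK, Bool.and_eq_true, beq_iff_eq] at h
    obtain ⟨h1, h2, h3, h4⟩ := h
    have e2 : P = P' := by simpa using h2
    have e3 : N = N' := by simpa using h3
    rw [h1, e2, e3, eqK_eq l m h4]
  | [], _ :: _, h => by simp [eqK] at h
  | _ :: _, [], h => by simp [eqK] at h

/-- the `n`-th reference -/
def nthR : List (List K) → ℕ → Option (List K)
  | [], _ => none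
  | c :: _, 0 => some c
  | _ :: l, n + 1 => nthR l n

lemma nthR_mem : ∀ (l : List (List K)) (n : ℕ) (c : List K), nthR l n = some c → c ∈ l
  | [], _, _, h => by simp [nthR] at h
  | a :: l, 0, c, h => by simp [nthR] at h; simp [h]
  | a :: l, n + 1, c, h => by
    simp only [nthR] at h
    exact List.mem_cons_of_mem _ (nthR_mem l n c h)

/-- the checker; `rs` : contexts that are already done -/
def check (tab : List Cl) (rs : List (List K)) : Tr → List K → List (List (List (ℕ × ℕ))) → Bool
  | .inf t n, cs, _ =>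
    match nth cs t with
    | (true, P, N) => cert N P cs n 0 0 0
    | (false, P, N) => cert N P cs n 1 0 1
  | .dn c l, cs, _ =>
    match nthC tab c with
    | some C =>
      match chkS cs C.S l with
      | some l' => chkX cs C.b C.Y C.X l'
      | none => false
    | none => false
  | .br P N t1 t2, cs, st =>
    (small P && small N) && (check tab rs t1 ((true, N, P) :: cs) st &&
      check tab rs t2 ((false, P, N) :: cs) st)
  | .cl j t1 t2, cs, st =>
    match nthS st j with
    | some (A :: _) =>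
      (addK A cs fun cs' => check tab rs t1 cs' st) && check tab rs t2 cs (dropS st j)
    | _ => false
  | .em j, _, st =>
    match nthS st j with
    | some [] => true
    | _ => false
  | .rf n, cs, _ =>
    match nthR rs n with
    | some c => eqK c cs
    | none => false

/-- all clauses hold -/
def SatS (p : List ℝ) (st : List (List (List (ℕ × ℕ)))) : Prop :=
  ∀ c ∈ st, (∀ A ∈ c, ∀ f ∈ A, Bd CC f.1 ∧ Bd CC f.2) ∧ ∃ A ∈ c, ∀ f ∈ A, 0 ≤ val f p

lemma nth_holds {p : List ℝ} : ∀ (l : List K), (∀ k ∈ l, holds p k) → ∀ n, holds p (nth l n)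
  | [], _, n => by
    refine ⟨⟨Bd_zero _, Bd_zero _⟩, ?_, ?_⟩
    · change 0 ≤ vp 0 p - vp 0 p
      simp
    · intro h
      exact absurd h (by change ¬ (false = true); simp)
  | x :: l, h, 0 => h x (by simp)
  | x :: l, h, n + 1 => nth_holds l (fun k hk => h k (by simp [hk])) n

lemma nthC_mem : ∀ (l : List Cl) (n : ℕ) (c : Cl), nthC l n = some c → c ∈ l
  | [], _, _, h => by simp [nthC] at h
  | a :: l, 0, c, h => by simp [nthC] at h; simp [h]
  | a :: l, n + 1, c, h => by
    simp only [nthC] at h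
    exact List.mem_cons_of_mem _ (nthC_mem l n c h)

lemma nthS_mem : ∀ (l : List (List (List (ℕ × ℕ)))) (n : ℕ) (c : List (List (ℕ × ℕ))),
    nthS l n = some c → c ∈ l
  | [], _, _, h => by simp [nthS] at h
  | a :: l, 0, c, h => by simp [nthS] at h; simp [h]
  | a :: l, n + 1, c, h => by
    simp only [nthS] at h
    exact List.mem_cons_of_mem _ (nthS_mem l n c h)

lemma addA_holds {p : List ℝ} : ∀ (A : List (ℕ × ℕ)) (cs : List K),
    (∀ f ∈ A, Bd CC f.1 ∧ Bd CC f.2) → (∀ f ∈ A, 0 ≤ val f p) →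
    (∀ k ∈ cs, holds p k) → ∀ k ∈ addA A cs, holds p k
  | [], _, _, _, hc => hc
  | f :: A, cs, hb, hA, hc => by
    apply addA_holds A _ (fun g hg => hb g (by simp [hg])) (fun g hg => hA g (by simp [hg]))
    intro k hk
    rcases List.mem_cons.1 hk with e | e
    · rw [e]
      exact ⟨hb f (by simp), hA f (by simp), fun h => absurd h (by simp)⟩
    · exact hc k e

lemma dropS_sat {p : List ℝ} : ∀ (st : List (List (List (ℕ × ℕ)))) (j : ℕ) (A : List (ℕ × ℕ))
    (r : List (List (ℕ × ℕ))), nthS st j = some (A :: r) → SatS p st →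
      (¬ ∀ f ∈ A, 0 ≤ val f p) → SatS p (dropS st j)
  | [], _, _, _, h, _, _ => by simp [nthS] at h
  | c :: l, 0, A, r, h, hs, hA => by
    simp only [nthS, Option.some.injEq] at h
    intro d hd
    simp only [dropS] at hd
    rcases List.mem_cons.1 hd with e | e
    · obtain ⟨hb, B, hB, hB'⟩ := hs c (by simp)
      rw [h] at hB hb
      rw [e, h]
      refine ⟨fun A' hA' => hb A' (by simp at hA'; simp [hA']), ?_⟩
      rcases List.mem_cons.1 hB with e2 | e2
      · rw [e2] at hB'; exact absurd hB' hA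
      · exact ⟨B, e2, hB'⟩
    · exact hs d (by simp [e])
  | c :: l, n + 1, A, r, h, hs, hA => by
    simp only [nthS] at h
    intro d hd
    simp only [dropS] at hd
    rcases List.mem_cons.1 hd with e | e
    · rw [e]; exact hs c (by simp)
    · exact dropS_sat l n A r h (fun d hd => hs d (by simp [hd])) hA d e

/-- the point is admissible -/
structure Pnt (p : List ℝ) : Prop where
  nn : ∀ x ∈ p, 0 ≤ x
  len : p.length ≤ 52
  one : ∃ p', p = 1 :: p'

/-- the context is done -/
def Good (tab : List Cl) (g0 : List (List (List (ℕ × ℕ)))) (cs : List K) : Prop :=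
  ∀ p : List ℝ, Pnt p → (∀ k ∈ cs, holds p k) → SatS p g0 → ∃ c ∈ tab, c.ok p

/-- all contexts are done -/
def AllGood (tab : List Cl) (g0 : List (List (List (ℕ × ℕ)))) (rs : List (List K)) : Prop :=
  ∀ cs ∈ rs, Good tab g0 cs

lemma ag_nil {tab : List Cl} {g0 : List (List (List (ℕ × ℕ)))} : AllGood tab g0 [] := by
  intro cs h; simp at h

lemma ag_cons {tab : List Cl} {g0 : List (List (List (ℕ × ℕ)))} {c : List K}
    {rs : List (List K)} (h : Good tab g0 c) (h' : AllGood tab g0 rs) :
    AllGood tab g0 (c :: rs) := by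
  intro cs hcs
  rcases List.mem_cons.1 hcs with e | e
  · rw [e]; exact h
  · exact h' cs e

/-- **soundness** -/
theorem check_sound {tab : List Cl} (htab : tab.all Cl.small = true)
    {g0 : List (List (List (ℕ × ℕ)))} {rs : List (List K)} (hrs : AllGood tab g0 rs)
    {p : List ℝ} (hpt : Pnt p) (hg0 : SatS p g0) (t : Tr) :
    ∀ (cs : List K) (st : List (List (List (ℕ × ℕ)))), check tab rs t cs st = true →
      (∀ k ∈ cs, holds p k) → SatS p st → ∃ c ∈ tab, c.ok p := by
  obtain ⟨hp, hl, h1⟩ := hpt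
  have h3C : CC ≤ 3 * CC := by unfold CC; norm_num
  induction t with
  | inf t n =>
    intro cs st h hc _
    exfalso
    have ht := nth_holds cs hc t
    simp only [check] at h
    rcases e : nth cs t with ⟨b, P, N⟩
    rw [e] at h ht
    obtain ⟨⟨b1, b2⟩, ht1, ht2⟩ := ht
    have g1 : Bd CC P := b1
    have g2 : Bd CC N := b2
    cases b with
    | true =>
      have h2 := cert_nonneg hp hl (g2.mono h3C) (g1.mono h3C) hc h
      have h3 : 0 < vp P p - vp N p := ht2 rfl
      linarith
    | false =>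
      obtain ⟨D, hD, h2⟩ := cert_sound hp hl (g2.mono h3C) (g1.mono h3C) hc Bd_one (Bd_zero _) h
      have h4 : 0 ≤ vp P p - vp N p := ht1
      rw [vp_one h1, vp_zero] at h2
      have h5 : 0 ≤ D * (vp P p - vp N p) := mul_nonneg (by linarith) h4
      linarith
  | dn c l =>
    intro cs st h hc _
    simp only [check] at h
    rcases e : nthC tab c with _ | C
    · rw [e] at h; simp at h
    · rw [e] at h
      have hC := nthC_mem _ _ _ e
      have hs : C.small = true := by
        rw [List.all_eq_true] at htab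
        exact htab C hC
      simp only [Cl.small, Bool.and_eq_true] at hs
      obtain ⟨s1, s2, s3, s4, s5⟩ := hs
      rcases e2 : chkS cs C.S l with _ | l'
      · simp only [e2] at h; simp at h
      · simp only [e2] at h
        exact ⟨C, hC, chkS_sound hp hl hc _ _ _ (fsmall_sound s1) e2,
          chkX_sound hp hl hc ⟨small_sound s4, small_sound s5⟩ (fsmall_sound s3) _ _
            (fsmall_sound s2) h⟩
  | br P N t1 t2 ih1 ih2 =>
    intro cs st h hc hs
    simp only [check, Bool.and_eq_true] at h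
    obtain ⟨⟨hP, hN⟩, h⟩ := h
    have bP := small_sound hP
    have bN := small_sound hN
    rcases lt_or_ge (val (P, N) p) 0 with h3 | h3
    · refine ih1 _ _ h.1 ?_ hs
      intro k hk
      rcases List.mem_cons.1 hk with e | e
      · rw [e]
        have e1 : val (N, P) p = - val (P, N) p := by simp only [val]; ring
        refine ⟨⟨bN, bP⟩, ?_, fun _ => ?_⟩
        · change 0 ≤ val (N, P) p
          rw [e1]; linarith
        · change 0 < val (N, P) p
          rw [e1]; linarith
      · exact hc k e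
    · refine ih2 _ _ h.2 ?_ hs
      intro k hk
      rcases List.mem_cons.1 hk with e | e
      · rw [e]; exact ⟨⟨bP, bN⟩, h3, fun h => absurd h (by simp)⟩
      · exact hc k e
  | cl j t1 t2 ih1 ih2 =>
    intro cs st h hc hs
    simp only [check] at h
    rcases e : nthS st j with _ | ⟨_ | ⟨A, r⟩⟩
    · rw [e] at h; simp at h
    · rw [e] at h; simp at h
    · rw [e] at h
      simp only [Bool.and_eq_true] at h
      rw [addK_eq] at h
      by_cases hA : ∀ f ∈ A, 0 ≤ val f p
      · exact ih1 _ _ h.1 (addA_holds A cs ((hs _ (nthS_mem _ _ _ e)).1 A (by simp)) hA hc) hs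
      · exact ih2 _ _ h.2 hc (dropS_sat st j A r e hs hA)
  | em j =>
    intro cs st h hc hs
    simp only [check] at h
    rcases e : nthS st j with _ | ⟨_ | ⟨A, r⟩⟩
    · rw [e] at h; simp at h
    · obtain ⟨_, B, hB, _⟩ := hs [] (nthS_mem _ _ _ e)
      simp at hB
    · rw [e] at h; simp at h
  | rf n =>
    intro cs st h hc hs
    simp only [check] at h
    rcases e : nthR rs n with _ | c
    · rw [e] at h; simp at h
    · rw [e] at h
      have e1 := eqK_eq _ _ h
      have h2 := hrs c (nthR_mem _ _ _ e)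
      rw [e1] at h2
      exact h2 p ⟨hp, hl, h1⟩ hc hg0

/-- one piece of the tree -/
theorem good_of {tab : List Cl} (htab : tab.all Cl.small = true)
    {g0 : List (List (List (ℕ × ℕ)))} {rs : List (List K)} {t : Tr} {cs : List K}
    (h : check tab rs t cs g0 = true) (hrs : AllGood tab g0 rs) : Good tab g0 cs :=
  fun _ hpt hc hg0 => check_sound htab hrs hpt hg0 t cs g0 h hc hg0

/-! ### packing -/

/-- packed list -/
def pk : List ℕ → ℕ
  | [] => 0
  | a :: l => a + Bs * pk l

lemma vp_pk : ∀ (l : List ℕ) (p : List ℝ), (∀ a ∈ l, a < Bs) → vp (pk l) p = dot l p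
  | [], p, _ => by rw [pk, vp_zero, Rf45.dot_nil]
  | a :: l, [], _ => by simp
  | a :: l, x :: p, h => by
    have ha : a < Bs := h a (by simp)
    rw [vp_cons, Rf45.dot_cons, pk, Nat.add_mul_mod_self_left, Nat.mod_eq_of_lt ha,
      Nat.add_mul_div_left _ _ Bs_pos, Nat.div_eq_of_lt ha, zero_add,
      vp_pk l p (fun b hb => h b (by simp [hb]))]

/-- `g` is the packed form of `f`, all digits small -/
def pkOk (f : List ℕ × List ℕ) (g : ℕ × ℕ) : Bool :=
  (small g.1 && small g.2) && ((f.1.all fun a => Nat.ble (Nat.succ a) Bs) &&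
    ((f.2.all fun a => Nat.ble (Nat.succ a) Bs) &&
    (Nat.beq (pk f.1) g.1 && Nat.beq (pk f.2) g.2)))

lemma pkOk_sound {f : List ℕ × List ℕ} {g : ℕ × ℕ} (h : pkOk f g = true) (p : List ℝ) :
    (Bd CC g.1 ∧ Bd CC g.2) ∧ val g p = Rf45.val f p := by
  simp only [pkOk, Bool.and_eq_true] at h
  obtain ⟨⟨h1, h2⟩, h3, h4, h5, h6⟩ := h
  rw [List.all_eq_true] at h3 h4
  have e1 : pk f.1 = g.1 := by simpa using h5
  have e2 : pk f.2 = g.2 := by simpa using h6
  refine ⟨⟨small_sound h1, small_sound h2⟩, ?_⟩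
  simp only [val, Rf45.val]
  rw [← e1, ← e2, vp_pk _ _ fun a ha => Nat.le_of_ble_eq_true (h3 a ha),
    vp_pk _ _ fun a ha => Nat.le_of_ble_eq_true (h4 a ha)]

def pkL : List (List ℕ × List ℕ) → List (ℕ × ℕ) → Bool
  | [], [] => true
  | f :: l, g :: m => pkOk f g && pkL l m
  | _, _ => false

def pkK : List Rf45.K → List K → Bool
  | [], [] => true
  | (b, f) :: l, (b', g) :: m => (b == b') && (pkOk f g && pkK l m)
  | _, _ => false

def pkS : List (List (List ℕ × List ℕ)) → List (List (ℕ × ℕ)) → Bool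
  | [], [] => true
  | f :: l, g :: m => pkL f g && pkS l m
  | _, _ => false

def pkSS : List (List (List (List ℕ × List ℕ))) → List (List (List (ℕ × ℕ))) → Bool
  | [], [] => true
  | f :: l, g :: m => pkS f g && pkSS l m
  | _, _ => false

def pkC : List Rf45.Cl → List Cl → Bool
  | [], [] => true
  | f :: l, g :: m => (pkL f.S g.S && (pkL f.X g.X && (pkL f.Y g.Y && pkOk f.b g.b))) && pkC l m
  | _, _ => false

lemma pkL_nonneg {p : List ℝ} : ∀ (l : List (List ℕ × List ℕ)) (m : List (ℕ × ℕ)),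
    pkL l m = true → (∀ f ∈ l, 0 ≤ Rf45.val f p) →
      ∀ g ∈ m, (Bd CC g.1 ∧ Bd CC g.2) ∧ 0 ≤ val g p
  | [], [], _, _ => by simp
  | f :: l, g :: m, h, hf => by
    simp only [pkL, Bool.and_eq_true] at h
    intro g' hg'
    rcases List.mem_cons.1 hg' with e | e
    · obtain ⟨h1, h2⟩ := pkOk_sound h.1 p
      rw [e, h2]
      exact ⟨h1, hf f (by simp)⟩
    · exact pkL_nonneg l m h.2 (fun f hf' => hf f (by simp [hf'])) g' e
  | [], _ :: _, h, _ => by simp [pkL] at h
  | _ :: _, [], h, _ => by simp [pkL] at h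

lemma pkL_small (p : List ℝ) : ∀ (l : List (List ℕ × List ℕ)) (m : List (ℕ × ℕ)),
    pkL l m = true → ∀ g ∈ m, Bd CC g.1 ∧ Bd CC g.2
  | [], [], _ => by simp
  | f :: l, g :: m, h => by
    simp only [pkL, Bool.and_eq_true] at h
    intro g' hg'
    rcases List.mem_cons.1 hg' with e | e
    · rw [e]; exact (pkOk_sound h.1 p).1
    · exact pkL_small p l m h.2 g' e
  | [], _ :: _, h => by simp [pkL] at h
  | _ :: _, [], h => by simp [pkL] at h

lemma pkL_mem {p : List ℝ} : ∀ (l : List (List ℕ × List ℕ)) (m : List (ℕ × ℕ)),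
    pkL l m = true → ∀ f ∈ l, ∃ g ∈ m, val g p = Rf45.val f p
  | [], [], _ => by simp
  | f :: l, g :: m, h => by
    simp only [pkL, Bool.and_eq_true] at h
    intro f' hf'
    rcases List.mem_cons.1 hf' with e | e
    · exact ⟨g, by simp, by rw [e]; exact (pkOk_sound h.1 p).2⟩
    · obtain ⟨g', hg', h2⟩ := pkL_mem (p := p) l m h.2 f' e
      exact ⟨g', by simp [hg'], h2⟩
  | [], _ :: _, h => by simp [pkL] at h
  | _ :: _, [], h => by simp [pkL] at h

lemma pkK_holds {p : List ℝ} : ∀ (l : List Rf45.K) (m : List K), pkK l m = true →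
    (∀ k ∈ l, Rf45.holds p k) → ∀ k ∈ m, holds p k
  | [], [], _, _ => by simp
  | (b, f) :: l, (b', g) :: m, h, hf => by
    simp only [pkK, Bool.and_eq_true, beq_iff_eq] at h
    intro k hk
    rcases List.mem_cons.1 hk with e | e
    · obtain ⟨h1, h2⟩ := pkOk_sound h.2.1 p
      obtain ⟨h3, h4⟩ := hf (b, f) (by simp)
      have h3' : 0 ≤ Rf45.val f p := h3
      rw [e]
      refine ⟨h1, ?_, fun hb => ?_⟩
      · change 0 ≤ val g p
        rw [h2]; exact h3'
      · change 0 < val g p
        rw [h2]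
        have hb' : b' = true := hb
        exact h4 (by change b = true; rw [h.1]; exact hb')
    · exact pkK_holds l m h.2.2 (fun f hf' => hf f (by simp [hf'])) k e
  | [], _ :: _, h, _ => by simp [pkK] at h
  | _ :: _, [], h, _ => by simp [pkK] at h

lemma pkS_sat {p : List ℝ} : ∀ (l : List (List (List ℕ × List ℕ))) (m : List (List (ℕ × ℕ))),
    pkS l m = true → (∀ A ∈ m, ∀ f ∈ A, Bd CC f.1 ∧ Bd CC f.2) ∧
      ((∃ A ∈ l, ∀ f ∈ A, 0 ≤ Rf45.val f p) → ∃ A ∈ m, ∀ f ∈ A, 0 ≤ val f p)
  | [], [], _ => by simp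
  | f :: l, g :: m, h => by
    simp only [pkS, Bool.and_eq_true] at h
    obtain ⟨i1, i2⟩ := pkS_sat (p := p) l m h.2
    refine ⟨fun A hA => ?_, ?_⟩
    · rcases List.mem_cons.1 hA with e | e
      · rw [e]; exact pkL_small p f g h.1
      · exact i1 A e
    · rintro ⟨A, hA, h3⟩
      rcases List.mem_cons.1 hA with e | e
      · rw [e] at h3
        exact ⟨g, by simp, fun k hk => (pkL_nonneg f g h.1 h3 k hk).2⟩
      · obtain ⟨B, hB, h4⟩ := i2 ⟨A, e, h3⟩
        exact ⟨B, by simp [hB], h4⟩
  | [], _ :: _, h => by simp [pkS] at h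
  | _ :: _, [], h => by simp [pkS] at h

lemma pkSS_sat {p : List ℝ} : ∀ (l : List (List (List (List ℕ × List ℕ))))
    (m : List (List (List (ℕ × ℕ)))), pkSS l m = true → Rf45.SatS p l → SatS p m
  | [], [], _, _ => by intro c hc; simp at hc
  | f :: l, g :: m, h, hs => by
    simp only [pkSS, Bool.and_eq_true] at h
    intro c hc
    rcases List.mem_cons.1 hc with e | e
    · obtain ⟨i1, i2⟩ := pkS_sat (p := p) f g h.1
      rw [e]
      exact ⟨i1, i2 (hs f (by simp))⟩
    · exact pkSS_sat l m h.2 (fun c hc => hs c (by simp [hc])) c e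
  | [], _ :: _, h, _ => by simp [pkSS] at h
  | _ :: _, [], h, _ => by simp [pkSS] at h

lemma pkC_ok {p : List ℝ} : ∀ (l : List Rf45.Cl) (m : List Cl), pkC l m = true →
    (∃ c ∈ m, c.ok p) → ∃ c ∈ l, c.ok p
  | [], [], _, h => by simp at h
  | f :: l, g :: m, h, ⟨c, hc, hok⟩ => by
    simp only [pkC, Bool.and_eq_true] at h
    obtain ⟨⟨hS, hX, hY, hb⟩, h2⟩ := h
    rcases List.mem_cons.1 hc with e | e
    · refine ⟨f, by simp, ?_, ?_⟩
      · intro s hs
        obtain ⟨s', hs', e1⟩ := pkL_mem (p := p) _ _ hS s hs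
        rw [← e1]
        rw [e] at hok
        exact hok.1 s' hs'
      · intro x hx y hy
        obtain ⟨x', hx', e1⟩ := pkL_mem (p := p) _ _ hX x hx
        obtain ⟨y', hy', e2⟩ := pkL_mem (p := p) _ _ hY y hy
        have e3 := (pkOk_sound hb p).2
        rw [e] at hok
        have := hok.2 x' hx' y' hy'
        rw [e1, e2, e3] at this
        exact this
    · obtain ⟨d, hd, h3⟩ := pkC_ok l m h2 ⟨c, e, hok⟩
      exact ⟨d, by simp [hd], h3⟩
  | [], _ :: _, h, _ => by simp [pkC] at h
  | _ :: _, [], h, _ => by simp [pkC] at h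

end Crest.Agent.R017.Rg45

namespace Crest.Agent.R017.Rg45

/-- digits -/
def unpk (n : ℕ) : List ℕ :=
  @Nat.rec (fun _ => ℕ → List ℕ) (fun _ => [])
    (fun _ ih n => Nat.mod n Bs :: @Nat.rec (fun _ => List ℕ) (ih 0) (fun k _ => ih (Nat.succ k))
      (Nat.div n Bs)) 52 n

def unF (g : ℕ × ℕ) : List ℕ × List ℕ := (unpk g.1, unpk g.2)

def unC (c : Cl) : Rf45.Cl := ⟨c.S.map unF, c.X.map unF, c.Y.map unF, unF c.b⟩

end Crest.Agent.R017.Rg45
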