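import Mathlib

/-!
# Row 17, E4: a verified checker for LP trees with closers (helper741)

A linear form with integer coefficients is a sparse list `(index, coefficient)` (`index 0` = the
constant, `v 0 = 1`), packed into one integer `Σ a B^i`, `B = 2^256`; a Farkas identity is one
identity between packed integers.
-/

set_option autoImplicit false

namespace Crest.Agent.R017.Rk741

/-- sparse linear forms -/
abbrev SF := List (ℕ × ℤ)

/-- value -/
def val : SF → (ℕ → ℝ) → ℝ
  | [], _ => 0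
  | (i, a) :: l, v => a * v i + val l v

/-- packed form -/
def pk : SF → ℤ
  | [] => 0
  | (i, a) :: l => a * Int.ofNat (2 ^ (256 * i)) + pk l

/-- norm -/
def n1 : SF → ℕ
  | [] => 0
  | (_, a) :: l => a.natAbs + n1 l

/-- scaling -/
def sm (k : ℤ) : SF → SF
  | [] => []
  | (i, a) :: l => (i, k * a) :: sm k l

/-- coefficient -/
def coef : SF → ℕ → ℤ
  | [], _ => 0
  | (i, a) :: l, j => (if i = j then a else 0) + coef l j

/-- a bound of all indices -/
def mx : SF → ℕ
  | [] => 0
  | (i, _) :: l => max (i + 1) (mx l)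

lemma val_append (l m : SF) (v : ℕ → ℝ) : val (l ++ m) v = val l v + val m v := by
  induction l with
  | nil => simp [val]
  | cons a l ih => obtain ⟨i, a⟩ := a; simp only [List.cons_append, val, ih]; ring

lemma pk_append (l m : SF) : pk (l ++ m) = pk l + pk m := by
  induction l with
  | nil => simp [pk]
  | cons a l ih => obtain ⟨i, a⟩ := a; simp only [List.cons_append, pk, ih]; ring

lemma n1_append (l m : SF) : n1 (l ++ m) = n1 l + n1 m := by
  induction l with
  | nil => simp [n1]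
  | cons a l ih => obtain ⟨i, a⟩ := a; simp only [List.cons_append, n1, ih]; ring

lemma val_sm (k : ℤ) (l : SF) (v : ℕ → ℝ) : val (sm k l) v = k * val l v := by
  induction l with
  | nil => simp [sm, val]
  | cons a l ih => obtain ⟨i, a⟩ := a; simp only [sm, val, ih]; push_cast; ring

lemma pk_sm (k : ℤ) (l : SF) : pk (sm k l) = k * pk l := by
  induction l with
  | nil => simp [sm, pk]
  | cons a l ih => obtain ⟨i, a⟩ := a; simp only [sm, pk, ih]; ring

lemma n1_sm (k : ℤ) (l : SF) : n1 (sm k l) = k.natAbs * n1 l := by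
  induction l with
  | nil => simp [sm, n1]
  | cons a l ih => obtain ⟨i, a⟩ := a; simp only [sm, n1, ih, Int.natAbs_mul]; ring

lemma coef_le (l : SF) (j : ℕ) : (coef l j).natAbs ≤ n1 l := by
  induction l with
  | nil => simp [coef]
  | cons a l ih =>
    obtain ⟨i, a⟩ := a
    simp only [coef, n1]
    refine (Int.natAbs_add_le _ _).trans (add_le_add ?_ ih)
    split_ifs <;> simp

lemma val_eq (l : SF) (v : ℕ → ℝ) {n : ℕ} (h : mx l ≤ n) :
    val l v = ∑ i ∈ Finset.range n, (coef l i : ℝ) * v i := by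
  induction l with
  | nil => simp [val, coef]
  | cons a l ih =>
    obtain ⟨i, a⟩ := a
    simp only [mx, max_le_iff] at h
    simp only [val, coef, ih h.2, Int.cast_add, add_mul, Finset.sum_add_distrib]
    congr 1
    rw [Finset.sum_eq_single i]
    · simp
    · intro j _ hj; simp [Ne.symm hj]
    · intro hi; exact absurd (Finset.mem_range.2 (by omega)) hi

lemma pk_eq (l : SF) {n : ℕ} (h : mx l ≤ n) :
    pk l = ∑ i ∈ Finset.range n, coef l i * (2 ^ 256 : ℤ) ^ i := by
  induction l with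
  | nil => simp [pk, coef]
  | cons a l ih =>
    obtain ⟨i, a⟩ := a
    simp only [mx, max_le_iff] at h
    simp only [pk, coef, ih h.2, add_mul, Finset.sum_add_distrib]
    congr 1
    rw [Finset.sum_eq_single i]
    · rw [if_pos rfl, ← pow_mul]; norm_num
    · intro j _ hj; simp [Ne.symm hj]
    · intro hi; exact absurd (Finset.mem_range.2 (by omega)) hi

lemma digits (n : ℕ) : ∀ c : ℕ → ℤ, (∀ i, (c i).natAbs < 2 ^ 256) →
    ∑ i ∈ Finset.range n, c i * (2 ^ 256 : ℤ) ^ i = 0 → ∀ i < n, c i = 0 := by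
  induction n with
  | zero => intro c _ _ i hi; omega
  | succ n ih =>
    intro c hc h
    rw [Finset.sum_range_succ'] at h
    have e : ∑ i ∈ Finset.range n, c (i + 1) * (2 ^ 256 : ℤ) ^ (i + 1) =
        2 ^ 256 * ∑ i ∈ Finset.range n, c (i + 1) * (2 ^ 256 : ℤ) ^ i := by
      rw [Finset.mul_sum]
      refine Finset.sum_congr rfl fun i _ => ?_
      rw [pow_succ]; ring
    rw [e, pow_zero, mul_one] at h
    have h0 : c 0 = 0 := by
      have hd : (2 ^ 256 : ℤ) ∣ c 0 := ⟨-∑ i ∈ Finset.range n, c (i + 1) * (2 ^ 256 : ℤ) ^ i, by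
        linarith⟩
      refine Int.eq_zero_of_abs_lt_dvd hd ?_
      have := hc 0
      rw [Int.abs_eq_natAbs]
      exact_mod_cast this
    rw [h0, add_zero] at h
    have h1 : ∑ i ∈ Finset.range n, c (i + 1) * (2 ^ 256 : ℤ) ^ i = 0 := by
      rcases mul_eq_zero.1 h with h | h
      · norm_num at h
      · exact h
    intro i hi
    rcases i with _ | i
    · exact h0
    · exact ih (fun i => c (i + 1)) (fun i => hc (i + 1)) h1 i (by omega)

/-- **a packed identity is an identity of forms** -/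
lemma val_zero {l : SF} (hn : n1 l < 2 ^ 256) (hp : pk l = 0) (v : ℕ → ℝ) : val l v = 0 := by
  rw [val_eq l v le_rfl]
  refine Finset.sum_eq_zero fun i hi => ?_
  have := digits (mx l) (coef l) (fun i => (coef_le l i).trans_lt hn) (by
    rw [← pk_eq l le_rfl]; exact hp) i (Finset.mem_range.1 hi)
  rw [this]; simp

/-! ### facts -/

/-- bound of the norm of every fact -/
def HH : ℕ := 2 ^ 96

/-- a packed integer represents a nonnegative form -/
def Good (v : ℕ → ℝ) (P : ℤ) : Prop := ∃ l : SF, n1 l ≤ HH ∧ pk l = P ∧ 0 ≤ val l v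

inductive BT where
  | lf : ℤ → BT
  | nd : BT → BT → BT

def BT.get : BT → ℕ → ℤ
  | .lf P, _ => P
  | .nd l r, i => bif Nat.beq (i % 2) 0 then l.get (i / 2) else r.get (i / 2)

def BT.leaves : BT → List ℤ
  | .lf P => [P]
  | .nd l r => l.leaves ++ r.leaves

lemma BT.get_mem (t : BT) (i : ℕ) : t.get i ∈ t.leaves := by
  induction t generalizing i with
  | lf P => simp [BT.get, BT.leaves]
  | nd l r hl hr =>
    simp only [BT.get, BT.leaves, List.mem_append]
    cases Nat.beq (i % 2) 0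
    · exact Or.inr (hr _)
    · exact Or.inl (hl _)

/-- Farkas certificate: `μ`, multipliers of the base facts, multipliers of the path facts -/
structure Fk where
  μ : ℕ
  b : List (ℕ × ℕ)
  p : List (ℕ × ℕ)

def lget : List ℤ → ℕ → ℤ
  | [], _ => 1
  | P :: _, 0 => P
  | _ :: l, i + 1 => lget l i

/-- sum of the base terms -/
def sumB (t : BT) : List (ℕ × ℕ) → ℤ
  | [] => 0
  | (i, k) :: l => Int.ofNat k * t.get i + sumB t l

def sumP (Γ : List ℤ) : List (ℕ × ℕ) → ℤ
  | [] => 0
  | (i, k) :: l => Int.ofNat k * lget Γ i + sumP Γ l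

def sumK : List (ℕ × ℕ) → ℕ
  | [] => 0
  | (_, k) :: l => k + sumK l

/-- check of `0 ≤ T` (`hT` = bound of the norm of `T`) -/
def chkF (t : BT) (Γ : List ℤ) (T : ℤ) (hT : ℕ) (c : Fk) : Bool :=
  Nat.blt 0 c.μ && (Nat.blt (c.μ * hT + (sumK c.b + sumK c.p) * HH) (2 ^ 256) &&
    decide (Int.ofNat c.μ * T = sumB t c.b + sumP Γ c.p))

lemma good_one {v : ℕ → ℝ} (h0 : v 0 = 1) : Good v 1 :=
  ⟨[(0, 1)], by simp [n1, HH], by simp [pk], by simp [val, h0]⟩

lemma lget_good {v : ℕ → ℝ} (h0 : v 0 = 1) {Γ : List ℤ} (h : ∀ P ∈ Γ, Good v P) (i : ℕ) :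
    Good v (lget Γ i) := by
  induction Γ generalizing i with
  | nil => exact good_one h0
  | cons P Γ ih =>
    cases i with
    | zero => exact h P (by simp)
    | succ i => exact ih (fun Q hQ => h Q (by simp [hQ])) i

lemma sumB_good {v : ℕ → ℝ} {t : BT} (h : ∀ P ∈ t.leaves, Good v P) (c : List (ℕ × ℕ)) :
    ∃ l : SF, n1 l ≤ sumK c * HH ∧ pk l = sumB t c ∧ 0 ≤ val l v := by
  induction c with
  | nil => exact ⟨[], by simp [n1], by simp [pk, sumB], by simp [val]⟩
  | cons a c ih =>
    obtain ⟨i, k⟩ := a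
    obtain ⟨l, h1, h2, h3⟩ := ih
    obtain ⟨m, g1, g2, g3⟩ := h _ (t.get_mem i)
    refine ⟨sm k m ++ l, ?_, ?_, ?_⟩
    · rw [n1_append, n1_sm, sumK, add_mul]
      simp only [Int.natAbs_natCast]
      exact add_le_add (Nat.mul_le_mul_left _ g1) h1
    · rw [pk_append, pk_sm, g2, h2]; simp [sumB]
    · rw [val_append, val_sm]
      have : (0 : ℝ) ≤ ((k : ℤ) : ℝ) * val m v := by positivity
      linarith

lemma sumP_good {v : ℕ → ℝ} (h0 : v 0 = 1) {Γ : List ℤ} (h : ∀ P ∈ Γ, Good v P)
    (c : List (ℕ × ℕ)) :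
    ∃ l : SF, n1 l ≤ sumK c * HH ∧ pk l = sumP Γ c ∧ 0 ≤ val l v := by
  induction c with
  | nil => exact ⟨[], by simp [n1], by simp [pk, sumP], by simp [val]⟩
  | cons a c ih =>
    obtain ⟨i, k⟩ := a
    obtain ⟨l, h1, h2, h3⟩ := ih
    obtain ⟨m, g1, g2, g3⟩ := lget_good h0 h i
    refine ⟨sm k m ++ l, ?_, ?_, ?_⟩
    · rw [n1_append, n1_sm, sumK, add_mul]
      simp only [Int.natAbs_natCast]
      exact add_le_add (Nat.mul_le_mul_left _ g1) h1
    · rw [pk_append, pk_sm, g2, h2]; simp [sumP]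
    · rw [val_append, val_sm]
      have : (0 : ℝ) ≤ ((k : ℤ) : ℝ) * val m v := by positivity
      linarith

lemma chkF_sound {v : ℕ → ℝ} (h0 : v 0 = 1) {t : BT} {Γ : List ℤ} {T : ℤ} {hT : ℕ} {c : Fk}
    (h : chkF t Γ T hT c = true) (ht : ∀ P ∈ t.leaves, Good v P) (hΓ : ∀ P ∈ Γ, Good v P)
    {l : SF} (hl : n1 l ≤ hT) (hp : pk l = T) : 0 ≤ val l v := by
  simp only [chkF, Bool.and_eq_true, decide_eq_true_eq] at h
  obtain ⟨h1, h2, h3⟩ := h
  have h1' : 0 < c.μ := by rwa [Nat.blt_eq] at h1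
  have h2' : c.μ * hT + (sumK c.b + sumK c.p) * HH < 2 ^ 256 := by rwa [Nat.blt_eq] at h2
  obtain ⟨a, a1, a2, a3⟩ := sumB_good ht c.b
  obtain ⟨b, b1, b2, b3⟩ := sumP_good h0 hΓ c.p
  have hz : val (sm c.μ l ++ sm (-1) (a ++ b)) v = 0 := by
    refine val_zero ?_ ?_ v
    · rw [n1_append, n1_sm, n1_sm, n1_append]
      simp only [Int.natAbs_natCast, Int.reduceNeg, Int.natAbs_neg, Int.natAbs_one, one_mul]
      refine lt_of_le_of_lt ?_ h2'
      rw [add_mul]
      exact add_le_add (Nat.mul_le_mul_left _ hl) (add_le_add a1 b1)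
    · rw [pk_append, pk_sm, pk_sm, pk_append, hp, a2, b2]
      have h3' : (c.μ : ℤ) * T = sumB t c.b + sumP Γ c.p := h3
      linarith
  rw [val_append, val_sm, val_sm, val_append] at hz
  push_cast at hz
  have hμ : (0 : ℝ) < c.μ := by exact_mod_cast h1'
  have : 0 ≤ (c.μ : ℝ) * val l v := by linarith
  exact nonneg_of_mul_nonneg_right this hμ

/-! ### closers and trees -/

/-- a line `0 ≤ L + Σ c_k w_k` -/
abbrev Line := SF × List ℤ

noncomputable def dot : List ℤ → List ℝ → ℝ
  | [], _ => 0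
  | _ :: _, [] => 0
  | c :: l, w :: m => c * w + dot l m

noncomputable def Line.ev (v : ℕ → ℝ) (w : List ℝ) (ln : Line) : ℝ := val ln.1 v + dot ln.2 w

/-- packed `Σ c_k W_k` -/
def dotP : List ℤ → List ℤ → ℤ
  | [], _ => 0
  | _ :: _, [] => 0
  | c :: l, W :: m => c * W + dotP l m

def dotS : List ℤ → List SF → SF
  | [], _ => []
  | _ :: _, [] => []
  | c :: l, W :: m => sm c W ++ dotS l m

def absK : List ℤ → ℕ
  | [] => 0
  | c :: l => c.natAbs + absK l

inductive Tr where
  | spl : SF → Tr → Tr → Tr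
  | dis : ℕ → Tr → Tr → Tr
  | no : Fk → Tr
  | cl : ℕ → ℕ → List SF → List Fk → Tr

def bdd (l : SF) : Bool := Nat.ble (n1 l) HH

/-- the lines of one system -/
def chkL (t : BT) (Γ : List ℤ) (D : ℕ) (W : List ℤ) : List Line → List Fk → Bool
  | [], _ => true
  | _ :: _, [] => false
  | ln :: L, c :: cs =>
    chkF t Γ (Int.ofNat D * pk ln.1 + dotP ln.2 W) ((D + absK ln.2) * HH) c &&
      chkL t Γ D W L cs

def chk (t : BT) (ds : List (SF × SF)) (cls : List (List Line)) : List ℤ → Tr → Bool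
  | Γ, .spl P l r => bdd P && (chk t ds cls (pk P :: Γ) l && chk t ds cls (-pk P :: Γ) r)
  | Γ, .dis j l r =>
    match ds[j]? with
    | none => false
    | some d => chk t ds cls (pk d.1 :: Γ) l && chk t ds cls (pk d.2 :: Γ) r
  | Γ, .no c => chkF t Γ (-1) 1 c
  | Γ, .cl g D W cs =>
    match cls[g]? with
    | none => false
    | some L => Nat.blt 0 D && (W.all bdd && chkL t Γ D (W.map pk) L cs)

/-- the static conditions on the data -/
def pre (t : BT) (base : List SF) (ds : List (SF × SF)) (cls : List (List Line)) : Bool :=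
  base.all bdd && (ds.all (fun d => bdd d.1 && bdd d.2) &&
    (cls.all (fun L => L.all fun ln => bdd ln.1) &&
      t.leaves.all fun P => (base.map pk).contains P))

lemma bdd_iff {l : SF} : bdd l = true ↔ n1 l ≤ HH := by
  unfold bdd; rw [Nat.ble_eq]

lemma dotS_spec (v : ℕ → ℝ) (D : ℝ) (hD : 0 < D) (c : List ℤ) (W : List SF)
    (hW : ∀ l ∈ W, n1 l ≤ HH) :
    val (dotS c W) v = D * dot c (W.map fun l => val l v / D) ∧
      pk (dotS c W) = dotP c (W.map pk) ∧ n1 (dotS c W) ≤ absK c * HH := by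
  induction c generalizing W with
  | nil => simp [dotS, dot, dotP, val, pk, n1]
  | cons a c ih =>
    cases W with
    | nil => simp [dotS, dot, dotP, val, pk, n1]
    | cons l W =>
      obtain ⟨h1, h2, h3⟩ := ih W fun m hm => hW m (by simp [hm])
      simp only [dotS, dot, dotP, List.map_cons, val_append, pk_append, n1_append, val_sm, pk_sm,
        n1_sm, absK, h1, h2]
      refine ⟨?_, trivial, ?_⟩
      · field_simp
      · rw [add_mul]
        exact add_le_add (Nat.mul_le_mul_left _ (hW l (by simp))) h3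

lemma chkL_sound {v : ℕ → ℝ} (h0 : v 0 = 1) {t : BT} {Γ : List ℤ}
    (ht : ∀ P ∈ t.leaves, Good v P) (hΓ : ∀ P ∈ Γ, Good v P) {D : ℕ} (hD : 0 < D) {W : List SF}
    (hW : ∀ l ∈ W, n1 l ≤ HH) {L : List Line} (hL : ∀ ln ∈ L, n1 ln.1 ≤ HH) {cs : List Fk}
    (h : chkL t Γ D (W.map pk) L cs = true) :
    ∀ ln ∈ L, 0 ≤ Line.ev v (W.map fun l => val l v / D) ln := by
  induction L generalizing cs with
  | nil => intro ln hln; simp at hln
  | cons m L ih =>
    cases cs with
    | nil => simp [chkL] at h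
    | cons c cs =>
      simp only [chkL, Bool.and_eq_true] at h
      intro ln hln
      rcases List.mem_cons.1 hln with rfl | hln
      · have hD' : (0 : ℝ) < D := by exact_mod_cast hD
        obtain ⟨d1, d2, d3⟩ := dotS_spec v D hD' ln.2 W hW
        have := chkF_sound h0 h.1 ht hΓ (l := sm D ln.1 ++ dotS ln.2 W) (by
          rw [n1_append, n1_sm, add_mul]
          simp only [Int.natAbs_natCast]
          exact add_le_add (Nat.mul_le_mul_left _ (hL ln (by simp))) d3) (by
          rw [pk_append, pk_sm, d2]; rfl)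
        rw [val_append, val_sm, d1] at this
        push_cast at this
        rw [← mul_add] at this
        unfold Line.ev
        exact nonneg_of_mul_nonneg_right this hD'
      · exact ih (fun x hx => hL x (by simp [hx])) h.2 ln hln

/-- **soundness of the checker** -/
theorem chk_sound {v : ℕ → ℝ} (h0 : v 0 = 1) {t : BT} {base : List SF} {ds : List (SF × SF)}
    {cls : List (List Line)} (hpre : pre t base ds cls = true)
    (hb : ∀ l ∈ base, 0 ≤ val l v) (hd : ∀ d ∈ ds, 0 ≤ val d.1 v ∨ 0 ≤ val d.2 v)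
    {Γ : List ℤ} (hΓ : ∀ P ∈ Γ, Good v P) {T : Tr} (h : chk t ds cls Γ T = true) :
    ∃ L ∈ cls, ∃ w : List ℝ, ∀ ln ∈ L, 0 ≤ Line.ev v w ln := by
  simp only [pre, Bool.and_eq_true] at hpre
  obtain ⟨p1, p2, p3, p4⟩ := hpre
  have ht : ∀ P ∈ t.leaves, Good v P := by
    intro P hP
    have h1 := (List.all_eq_true.1 p4) P hP
    have h2 : P ∈ base.map pk := by simpa using h1
    obtain ⟨l, hl, rfl⟩ := List.mem_map.1 h2
    exact ⟨l, bdd_iff.1 ((List.all_eq_true.1 p1) l hl), rfl, hb l hl⟩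
  induction T generalizing Γ with
  | spl P l r ihl ihr =>
    simp only [chk, Bool.and_eq_true] at h
    obtain ⟨hP, hl, hr⟩ := h
    rcases le_total 0 (val P v) with hv | hv
    · refine ihl (fun Q hQ => ?_) hl
      rcases List.mem_cons.1 hQ with rfl | hQ
      · exact ⟨P, bdd_iff.1 hP, rfl, hv⟩
      · exact hΓ Q hQ
    · refine ihr (fun Q hQ => ?_) hr
      rcases List.mem_cons.1 hQ with rfl | hQ
      · refine ⟨sm (-1) P, ?_, ?_, ?_⟩
        · rw [n1_sm]; simpa using bdd_iff.1 hP
        · rw [pk_sm]; ring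
        · rw [val_sm]; push_cast; linarith
      · exact hΓ Q hQ
  | dis j l r ihl ihr =>
    simp only [chk] at h
    split at h
    · simp at h
    · rename_i d hj
      have hm : d ∈ ds := List.mem_of_getElem? hj
      have hB := (List.all_eq_true.1 p2) d hm
      simp only [Bool.and_eq_true] at hB h
      rcases hd d hm with hv | hv
      · refine ihl (fun Q hQ => ?_) h.1
        rcases List.mem_cons.1 hQ with rfl | hQ
        · exact ⟨d.1, bdd_iff.1 hB.1, rfl, hv⟩
        · exact hΓ Q hQ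
      · refine ihr (fun Q hQ => ?_) h.2
        rcases List.mem_cons.1 hQ with rfl | hQ
        · exact ⟨d.2, bdd_iff.1 hB.2, rfl, hv⟩
        · exact hΓ Q hQ
  | no c =>
    simp only [chk] at h
    have := chkF_sound h0 h ht hΓ (l := [(0, -1)]) (by simp [n1]) (by simp [pk])
    simp [val, h0] at this
    linarith
  | cl g D W cs =>
    simp only [chk] at h
    split at h
    · simp at h
    · rename_i L hj
      have hm : L ∈ cls := List.mem_of_getElem? hj
      simp only [Bool.and_eq_true] at h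
      obtain ⟨h1, h2, h3⟩ := h
      refine ⟨L, hm, _, chkL_sound h0 ht hΓ (by rwa [Nat.blt_eq] at h1)
        (fun l hl => bdd_iff.1 ((List.all_eq_true.1 h2) l hl)) (fun ln hln => ?_) h3⟩
      exact bdd_iff.1 ((List.all_eq_true.1 ((List.all_eq_true.1 p3) L hm)) ln hln)

/-! ### packed trees (one numeral per Farkas certificate) -/

/-- entries `(index 8 bits, coefficient + 2^(w-1) : w bits)` -/
def decS (w : ℕ) : ℕ → ℕ → SF
  | 0, _ => []
  | f + 1, c => bif Nat.beq c 0 then [] else
      (c % 256, Int.subNatNat (c / 256 % 2 ^ w) (2 ^ (w - 1))) :: decS w f (c / 2 ^ (8 + w))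

/-- entries `(index 8 bits, multiplier w bits)` -/
def decL (w : ℕ) : ℕ → ℕ → List (ℕ × ℕ)
  | 0, _ => []
  | f + 1, c => bif Nat.beq c 0 then [] else
      (c % 256, c / 256 % 2 ^ w) :: decL w f (c / 2 ^ (8 + w))

/-- `b` = `μ` (w bits), then the base entries; `p` = the path entries -/
def decFs (w : ℕ) : List ℕ → List Fk
  | b :: p :: r => ⟨b % 2 ^ w, decL w 200 (b / 2 ^ w), decL w 200 p⟩ :: decFs w r
  | _ => []

inductive PT where
  | spl : ℕ → PT → PT → PT
  | dis : ℕ → PT → PT → PT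
  | no : ℕ → ℕ → ℕ → PT
  | cl : ℕ → ℕ → ℕ → List ℕ → List ℕ → PT

/-- decoding; forms (`spl`, `W`) have width 80 -/
def PT.dec : PT → Tr
  | .spl P l r => .spl (decS 80 200 P) l.dec r.dec
  | .dis j l r => .dis j l.dec r.dec
  | .no w b p => .no ⟨b % 2 ^ w, decL w 200 (b / 2 ^ w), decL w 200 p⟩
  | .cl g D w W cs => .cl g D (W.map (decS 80 200)) (decFs w cs)

/-- decoding of the tree of the base facts -/
def mkBT (f : ℕ → ℤ) : ℕ → ℕ → ℕ → BT
  | 0, _, i => .lf (f i)
  | d + 1, s, i => .nd (mkBT f d (2 * s) i) (mkBT f d (2 * s) (i + s))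

end Crest.Agent.R017.Rk741
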