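import Crest.Agent.R017.RnPc_571
import Crest.Agent.R017.E3Hf_290
import Crest.Agent.R017.FNEb_708

/-!
# Row 17, E3 of `P1`: the `R`-number (`RN2F`, `RNF`) in the frame of a parent near the region
(helper571)

* `LnR` : the real line of a pair `(d, e)`
* **`rn2_pd`**, **`rn1_pd`** : (RH) at every `(d, e)` and the number, frame `PD` of helper708
* `rhr_of` : `RHR` for the sequences `af`;  `rn2f_shift`;  `sum_inv2`
-/

set_option autoImplicit false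
set_option linter.unusedVariables false

noncomputable section

open Finset

namespace Crest.Agent.R017.RnP571

open Crest.Agent.R012 Crest.Agent.R012.Eis
open Crest.Agent.R012.LS2 (S mem_S bl mem_bl)
open Crest.Agent.R012.Weight600 (pw)
open Crest.Agent.R017.FE47 (PU SM)
open Crest.Agent.R017.CM106
open Crest.Agent.R017.XG702 (Pcs BG)
open Crest.Agent.R017.Prov71
open Crest.Agent.R017.B770
open Crest.Agent.R017.HP842 (Pc pc sqc al alL)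
open Crest.Agent.R017.E5B71 (Pt)
open Crest.Agent.R017.RM986 (Plain fB fB_le fB_compact)
open Crest.Agent.R017.R3571 (RMm RMm_nonneg RMm_eq rm W2 W2_mono W2_at slp_two)
open Crest.Agent.R017.Mode405 (Slp)
open Crest.Agent.R017.PX764 (n6)
open Crest.Agent.R017.E1551 (jb jb_pos)
open Crest.Agent.R017.E3Z548 (FH)
open Crest.Agent.R017.E3Sz579 (RHd Ld Md)
open Crest.Agent.R017.E3Sx579 (RHR)
open Crest.Agent.R017.E3T829 (G2)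
open Crest.Agent.R017.E3Hd290 (RNF)
open Crest.Agent.R017.E3Hf290 (RN2F)
open Crest.Agent.R017.TM708 (PD)
open Crest.Agent.R017.I1146 (LN)

/-- **the real line of a pair `(d, e)`** (units `log X`): target `T`, tolerance `t` -/
structure LnR (E : ℝ → ℝ → ℝ → ℝ → ℝ → ℝ → ℝ) (gg : ℝ → ℝ → ℝ)
    (T k v h p δ e z₁ z₂ z₃ w t : ℝ) : Prop where
  n : Nn gg k v h p δ e ≤ T
  l : ∀ i y₁ y₂ y₃ x : ℝ, 0 ≤ i → i ≤ p + v + h - k + t → 0 ≤ y₁ → y₁ ≤ z₁ + t → 0 ≤ y₂ →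
    y₂ ≤ z₂ + t → 0 ≤ y₃ → y₃ ≤ z₃ + t → 0 ≤ x → x ≤ w + t → y₁ + y₂ + y₃ + x ≤ p - δ - e + t →
    E i y₁ y₂ y₃ 0 x + (p + v + h - k - i) / 3 + Nn gg k v h p δ e ≤ T + (y₁ + y₂ + y₃ + x)

/-- a continuous exponent is bounded on a cube -/
lemma bdd_of_cont {E : ℝ → ℝ → ℝ → ℝ → ℝ → ℝ → ℝ}
    (hE : Continuous (fun q : (Fin 4 → ℝ) × (Kd → ℝ) =>
      E (q.1 0) (q.1 1) (q.1 2) (q.1 3) (q.2 .mo) (q.2 .am))) (K : ℝ) :
    ∃ Gb : ℝ, 0 ≤ Gb ∧ ∀ i y₁ y₂ y₃ x : ℝ, 0 ≤ i → i ≤ K → 0 ≤ y₁ → y₁ ≤ K → 0 ≤ y₂ → y₂ ≤ K →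
      0 ≤ y₃ → y₃ ≤ K → 0 ≤ x → x ≤ K → E i y₁ y₂ y₃ 0 x ≤ Gb := by
  obtain ⟨C, hC⟩ := (fB_compact K 0).bddAbove_image hE.continuousOn
  refine ⟨max C 0, le_max_right _ _, ?_⟩
  intro i y₁ y₂ y₃ x i0 i1 a0 a1 b0 b1 c0 c1 x0 x1
  refine le_trans ?_ (le_max_left _ _)
  refine hC ⟨(![i, y₁, y₂, y₃], fun t => match t with | .mo => 0 | .am => x), ?_, rfl⟩
  rw [Set.mem_ofPred_eq, fB_le]
  constructor
  · intro j
    fin_cases j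
    · exact ⟨by show -(0 : ℝ) ≤ i; linarith, by show i ≤ K + 0; linarith⟩
    · exact ⟨by show -(0 : ℝ) ≤ y₁; linarith, by show y₁ ≤ K + 0; linarith⟩
    · exact ⟨by show -(0 : ℝ) ≤ y₂; linarith, by show y₂ ≤ K + 0; linarith⟩
    · exact ⟨by show -(0 : ℝ) ≤ y₃; linarith, by show y₃ ≤ K + 0; linarith⟩
  · intro j
    cases j with
    | mo => exact ⟨by show -(0 : ℝ) ≤ 0; linarith, by show (0 : ℝ) ≤ K + 0; linarith⟩
    | am => exact ⟨by show -(0 : ℝ) ≤ x; linarith, by show x ≤ K + 0; linarith⟩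

/-! ### the sequences `af` -/

/-- comparison of the moments of two sequences -/
lemma RMm_cmp {A : ℝ} {a a' : Eis → ℂ} {e e' : Eis} {z : ℂ} (hz : ‖z‖ ≤ 1)
    (h : ∀ n, e ∣ n → e' ∣ n → a n = z * a' n) (h0 : ∀ n, e ∣ n → ¬ e' ∣ n → a n = 0)
    (h' : ∀ n, e' ∣ n → ¬ e ∣ n → a' n = 0) (γ φ r : Eis) :
    RMm A a e γ φ r ≤ RMm A a' e' γ φ r := by
  classical
  have h1 : ∀ t : ℝ, CS (rm a e γ φ t) r = z * CS (rm a' e' γ φ t) r := by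
    intro t
    unfold CS
    rw [← tsum_mul_left]
    refine tsum_congr fun m => ?_
    unfold R3571.rm
    by_cases c0 : IsCoprime m φ
    · by_cases c1 : e ∣ γ * m
      · by_cases c2 : e' ∣ γ * m
        · rw [if_pos ⟨c1, c0⟩, if_pos ⟨c2, c0⟩, h _ c1 c2]; ring
        · rw [if_pos ⟨c1, c0⟩, h0 _ c1 c2, if_neg fun hh => c2 hh.1]; ring
      · rw [if_neg fun hh => c1 hh.1]
        by_cases c2 : e' ∣ γ * m
        · rw [if_pos ⟨c2, c0⟩, h' _ c2 c1]; ring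
        · rw [if_neg fun hh => c2 hh.1]; ring
    · rw [if_neg fun hh => c0 hh.2, if_neg fun hh => c0 hh.2]; ring
  rw [RMm_eq]
  have h3 : ∀ t : ℝ, jb A t * ‖CS (rm a e γ φ t) r‖ ^ 2 =
      ‖z‖ ^ 2 * (jb A t * ‖CS (rm a' e' γ φ t) r‖ ^ 2) := by
    intro t
    rw [h1, norm_mul]
    ring
  simp only [h3]
  rw [MeasureTheory.integral_const_mul, ← RMm_eq]
  exact mul_le_of_le_one_left (RMm_nonneg _ _ _ _ _ _) (pow_le_one₀ (norm_nonneg _) hz)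

/-- **`RHR` for the sequences `af`**, the pair `(d, e)` read at `(d, g d e)` -/
lemma rhr_of {al : Eis → ℂ} {W0 : Eis → Eis → ℝ → ℝ} {A : ℕ} {Xb : ℝ} {Pr : Eis → Eis → Prop}
    (hRH : ∀ d e, Pr d e → ∀ γ φ, IsPrim γ → IsPrim φ → (nm φ : ℝ) ≤ Xb → ∀ P : ℝ, 0 < P →
        (nm γ : ℝ) * n6 γ ^ 2 * ∑ k ∈ bl P, RMm A (fun j => al (d * j)) e γ φ k ≤ W0 d e P)
    {m : ℝ} (hm : m ≤ Xb) {R : Finset (Eis × Eis)} {af : Eis → Eis → Eis → ℂ}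
    (g : Eis → Eis → Eis) (z : Eis → Eis → ℂ) (hz : ∀ d e, ‖z d e‖ ≤ 1)
    (hR : ∀ ρ ∈ R, Pr ρ.1 (g ρ.1 ρ.2))
    (h1 : ∀ ρ ∈ R, ∀ n, ρ.2 ∣ n → g ρ.1 ρ.2 ∣ n → af ρ.1 ρ.2 n = z ρ.1 ρ.2 * al (ρ.1 * n))
    (h0 : ∀ ρ ∈ R, ∀ n, ρ.2 ∣ n → ¬ g ρ.1 ρ.2 ∣ n → af ρ.1 ρ.2 n = 0)
    (h2 : ∀ ρ ∈ R, ∀ n, g ρ.1 ρ.2 ∣ n → ¬ ρ.2 ∣ n → al (ρ.1 * n) = 0) :
    RHR m A R af (fun d e => W0 d (g d e)) := by
  intro ρ hρ γ φ hγ hφ hφm P hP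
  refine le_trans ?_ (hRH ρ.1 (g ρ.1 ρ.2) (hR ρ hρ) γ φ hγ hφ (hφm.trans hm) P hP)
  refine mul_le_mul_of_nonneg_left (sum_le_sum fun r _ => ?_) (by positivity)
  exact RMm_cmp (hz ρ.1 ρ.2) (h1 ρ hρ) (h0 ρ hρ) (h2 ρ hρ) γ φ r

/-- the number at `(d, e₀ e)` -/
lemma rn2f_shift (c K V X : ℝ) (H : Eis → Eis → ℝ) (W0 : Eis → Eis → ℝ → ℝ) {e₀ : Eis}
    (he : e₀ ≠ 0) (d e : Eis) :
    RN2F c K V X (fun d e => H d (e₀ * e)) (fun d e => W0 d (e₀ * e)) d e =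
      (nm e₀ : ℝ)⁻¹ * RN2F c K V X H W0 d (e₀ * e) := by
  have h0 : (0 : ℝ) < nm e₀ := by exact_mod_cast nm_pos.2 he
  unfold E3Hf290.RN2F
  rw [nm_mul]
  push_cast
  field_simp

/-- **the sum over the pairs** -/
theorem sum_inv2 {ε : ℝ} (hε : 0 < ε) (B : ℝ) : ∃ X₀ : ℝ, 1 < X₀ ∧ ∀ X : ℝ, X₀ ≤ X →
    ∀ Ds EE : Finset Eis, Ds ⊆ S (X ^ B) → EE ⊆ S (X ^ B) →
      ∑ d ∈ Ds, ∑ e ∈ EE, 1 / ((nm d : ℝ) * nm e) ≤ X ^ ε := by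
  have hε4 : 0 < ε / 4 := by positivity
  obtain ⟨X₁, hX₁, HX₁⟩ := XSup271.exists_X (C := 100 * (1 + |B| * (4 / ε))) (by
    have : 0 ≤ |B| * (4 / ε) := by positivity
    linarith) hε4
  refine ⟨X₁, hX₁, ?_⟩
  intro X hX Ds EE hDs hEE
  have hX1 : 1 < X := by linarith
  have hX0 : 0 < X := by linarith
  have hY1 : 1 ≤ X ^ |B| := Real.one_le_rpow hX1.le (abs_nonneg B)
  have hS : S (X ^ B) ⊆ S (X ^ |B|) := by
    intro x hx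
    have h0 : 0 ≤ X ^ B := by positivity
    obtain ⟨h1, h2, h3⟩ := (mem_S h0).1 hx
    rw [mem_S (by positivity)]
    exact ⟨h1.trans (Real.rpow_le_rpow_of_exponent_le hX1.le (le_abs_self B)), h2, h3⟩
  have hlog : Real.log X ≤ X ^ (ε / 4) * (4 / ε) := by
    have h1 := Real.log_le_rpow_div hX0.le hε4
    rwa [div_eq_mul_inv, inv_div] at h1
  have hs : ∀ D : Finset Eis, D ⊆ S (X ^ B) → ∑ d ∈ D, 1 / (nm d : ℝ) ≤ X ^ (ε / 4) * X ^ (ε / 4) := by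
    intro D hD
    refine (sum_le_sum_of_subset_of_nonneg (hD.trans hS) fun _ _ _ => by positivity).trans ?_
    refine (E1551.sum_inv_S551 hY1).trans ?_
    rw [Real.log_rpow hX0]
    have hXe : 1 ≤ X ^ (ε / 4) := Real.one_le_rpow hX1.le hε4.le
    calc 100 * (1 + |B| * Real.log X) ≤ 100 * (X ^ (ε / 4) + |B| * (X ^ (ε / 4) * (4 / ε))) := by
          have := mul_le_mul_of_nonneg_left hlog (abs_nonneg B)
          linarith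
      _ = (100 * (1 + |B| * (4 / ε))) * X ^ (ε / 4) := by ring
      _ ≤ X ^ (ε / 4) * X ^ (ε / 4) := mul_le_mul_of_nonneg_right (HX₁ X hX) (by positivity)
  have e1 : ∑ d ∈ Ds, ∑ e ∈ EE, 1 / ((nm d : ℝ) * nm e) =
      (∑ d ∈ Ds, 1 / (nm d : ℝ)) * ∑ e ∈ EE, 1 / (nm e : ℝ) := by
    rw [sum_mul_sum]
    exact sum_congr rfl fun d _ => sum_congr rfl fun e _ => by rw [one_div_mul_one_div]
  rw [e1]
  calc (∑ d ∈ Ds, 1 / (nm d : ℝ)) * ∑ e ∈ EE, 1 / (nm e : ℝ)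
      ≤ (X ^ (ε / 4) * X ^ (ε / 4)) * (X ^ (ε / 4) * X ^ (ε / 4)) :=
        mul_le_mul (hs Ds hDs) (hs EE hEE) (sum_nonneg fun _ _ => by positivity) (by positivity)
    _ = X ^ ε := by
        rw [← Real.rpow_add hX0, ← Real.rpow_add hX0]
        congr 1; ring

section

variable {Λ : Type*} {π : Λ → DPar} {h : ℝ → ℝ}

/-- **the parent data give the hypotheses**, any weight -/
theorem rn_pd {c₀ : ℝ} (hpu : PU h c₀) (hP : ∀ lam, (π lam).OK) {Kc : ℝ} (hKc : 0 ≤ Kc)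
    {E : ℝ → ℝ → ℝ → ℝ → ℝ → ℝ → ℝ} (PL : Plain (fun _ k => k ≠ 0) π h (Kc + 2) E)
    (hE : Continuous (fun q : (Fin 4 → ℝ) × (Kd → ℝ) =>
      E (q.1 0) (q.1 1) (q.1 2) (q.1 3) (q.2 .mo) (q.2 .am)))
    {gg : ℝ → ℝ → ℝ} (hgg : ∀ c : ℝ, 0 ≤ c → ∀ l I : ℝ, gg (c * l) (c * I) = c * gg l I)
    {ε : ℝ} (hε : 0 < ε) (hε1 : ε ≤ 1) :
    ∃ τ : ℝ, 0 < τ ∧ τ ≤ ε ∧ ∀ (lam : Λ) (t : Eis), t ≠ 0 → ∀ (N : ℕ) (B : ℝ),
      ∃ (M a A₀ : ℕ), 1 ≤ a ∧ ∀ c : ℝ, 1 ≤ c → ∃ X₀ : ℝ, 1 < X₀ ∧ ∀ X : ℝ, X₀ ≤ X →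
      ∀ (b : Fin 5 → ℝ) (q : Eis) (us : Fin 3 → Pq) (gs : List Pq) (κ H : ℝ),
      PD X τ B H N b q us gs κ → (∀ i, b i + τ ≤ Kc) →
      ∀ (K V : ℝ) (Hf Qf T : Eis → Eis → ℝ), 0 < K → 0 < V → (∀ d e, 0 < Hf d e) →
      ∀ Pr : Eis → Eis → Prop,
      (∀ d e, Pr d e → IsPrim d ∧ IsPrim e ∧ (nm d : ℝ) ≤ X ^ B ∧ (nm e : ℝ) ≤ X ^ B) →
      (∀ d e, Pr d e →
        Real.exp (LN ([us 0, us 1, us 2] ++ gs)) * V * Hf d e / K ≤ X ^ Kc ∧ 0 ≤ Qf d e ∧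
        Qf d e ≤ (3 + c) * Real.exp (gg (lL K V (Hf d e) d)
          (lI K V (Hf d e) (LN ([us 0, us 1, us 2] ++ gs))))) →
      (∀ d e, Pr d e → 1 ≤ Ld K V (Hf d e) d →
        LnR E gg (T d e) (Real.log K / Real.log X) (Real.log V / Real.log X)
          (Real.log (Hf d e) / Real.log X) (LN ([us 0, us 1, us 2] ++ gs) / Real.log X)
          (Real.log (nm d) / Real.log X) (Real.log (nm e) / Real.log X) ((us 0).z / Real.log X)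
          ((us 1).z / Real.log X) ((us 2).z / Real.log X) (LN gs / Real.log X) ε) →
      ∃ W0 : Eis → Eis → ℝ → ℝ, (∀ d e, Slp a (W0 d e)) ∧
      (∀ A : ℕ, A₀ ≤ A → ∀ d e, Pr d e → ∀ γ φ, IsPrim γ → IsPrim φ → (nm φ : ℝ) ≤ X ^ B → ∀ P : ℝ, 0 < P →
          (nm γ : ℝ) * n6 γ ^ 2 * ∑ k ∈ bl P, RMm A (fun j =>
            sqc q (alL h (([us 0, us 1, us 2] ++ gs).map (Pt (π lam) t))) (d * j)) e γ φ k ≤
          W0 d e P) ∧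
      ∀ d e, Pr d e →
        FH K (Hf d e) V * ((nm d : ℝ) ^ (2 / 3 : ℝ) * nm e *
          ((if 1 ≤ Ld K V (Hf d e) d then Qf d e else 0) *
            W0 d e (c * (Real.exp (LN ([us 0, us 1, us 2] ++ gs)) * V * Hf d e / K)))) ≤
        H ^ M * X ^ (T d e + ε) / (nm d * nm e) := by
  obtain ⟨Gb, hGb, hEb⟩ := bdd_of_cont hE (Kc + 2)
  obtain ⟨σ, hσ0, hσε, HR⟩ := rn_raw hpu hP hKc PL hgg hGb (fun i y₁ y₂ y₃ x => hEb i y₁ y₂ y₃ x)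
    hε hε1
  refine ⟨σ, hσ0, hσε, fun lam t ht N B => ?_⟩
  obtain ⟨M, a, A₀, ha, HR⟩ := HR lam t ht N B
  refine ⟨M, a, A₀, ha, fun c hc => ?_⟩
  obtain ⟨X₁, hX₁, HR⟩ := HR c hc
  refine ⟨X₁, hX₁, ?_⟩
  intro X hX b q us gs κ H hPD hb K V Hf Qf T hK hV hHf Pr hPr hQ hline
  have hX1 : 1 < X := by linarith
  have hL : 0 < Real.log X := Real.log_pos hX1
  have hn : LN ([us 0, us 1, us 2] ++ gs) =
      (us 0).z + (us 1).z + (us 2).z + (gs.map Pq.z).sum := by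
    unfold I1146.LN
    simp only [List.cons_append, List.nil_append, List.map_cons, List.sum_cons]
    ring
  have hLg : LN gs = (gs.map Pq.z).sum := rfl
  have hz : ∀ i, (us i).z ≤ Kc * Real.log X := by
    intro i
    have h0 : ∀ j : Fin 5, (b j + σ) * Real.log X ≤ Kc * Real.log X := fun j =>
      mul_le_mul_of_nonneg_right (hb j) hL.le
    fin_cases i
    · exact hPD.z1.trans (h0 1)
    · exact hPD.z2.trans (h0 2)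
    · exact hPD.z3.trans (h0 3)
  have key := HR X hX (us 0) (us 1) (us 2) gs q H (fun p hp => by
      simp only [List.mem_cons, List.not_mem_nil, or_false] at hp
      rcases hp with rfl | rfl | rfl
      · exact ⟨(Dq_lump _).2 (hPD.lump 0), hPD.us0 0, hz 0, hPD.usB 0⟩
      · exact ⟨(Dq_lump _).2 (hPD.lump 1), hPD.us0 1, hz 1, hPD.usB 1⟩
      · exact ⟨(Dq_lump _).2 (hPD.lump 2), hPD.us0 2, hz 2, hPD.usB 2⟩) hPD.len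
    (fun p hp => by
      obtain ⟨a1, a2, a3, a4, a5⟩ := hPD.am p hp
      exact ⟨a1, a2, a3, a4⟩)
    (hPD.x.trans (mul_le_mul_of_nonneg_right (hb 4) hL.le)) hPD.q0 hPD.qB hPD.H1
    (fun p hp => by
      simp only [List.mem_cons] at hp
      rcases hp with rfl | rfl | rfl | hp
      · exact hPD.usH 0
      · exact hPD.usH 1
      · exact hPD.usH 2
      · exact (hPD.am p hp).2.2.2.2)
    (LN ([us 0, us 1, us 2] ++ gs)) hn K V Hf Qf T hK hV hHf Pr hPr hQ (fun d e hde h1 => by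
      have h2 := hline d e hde h1
      have e1 : (LN ([us 0, us 1, us 2] ++ gs) + Real.log V + Real.log (Hf d e) - Real.log K) /
          Real.log X = LN ([us 0, us 1, us 2] ++ gs) / Real.log X + Real.log V / Real.log X +
            Real.log (Hf d e) / Real.log X - Real.log K / Real.log X := by
        rw [sub_div, add_div, add_div]
      have e2 : (LN ([us 0, us 1, us 2] ++ gs) - Real.log (nm d) - Real.log (nm e)) /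
          Real.log X = LN ([us 0, us 1, us 2] ++ gs) / Real.log X -
            Real.log (nm d) / Real.log X - Real.log (nm e) / Real.log X := by
        rw [sub_div, sub_div]
      rw [e1, e2]
      exact ⟨h2.n, h2.l⟩)
  exact key

/-- **second form** -/
theorem rn2_pd {c₀ : ℝ} (hpu : PU h c₀) (hP : ∀ lam, (π lam).OK) {Kc : ℝ} (hKc : 0 ≤ Kc)
    {E : ℝ → ℝ → ℝ → ℝ → ℝ → ℝ → ℝ} (PL : Plain (fun _ k => k ≠ 0) π h (Kc + 2) E)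
    (hE : Continuous (fun q : (Fin 4 → ℝ) × (Kd → ℝ) =>
      E (q.1 0) (q.1 1) (q.1 2) (q.1 3) (q.2 .mo) (q.2 .am)))
    {ε : ℝ} (hε : 0 < ε) (hε1 : ε ≤ 1) :
    ∃ τ : ℝ, 0 < τ ∧ τ ≤ ε ∧ ∀ (lam : Λ) (t : Eis), t ≠ 0 → ∀ (N : ℕ) (B : ℝ),
      ∃ (M a A₀ : ℕ), 1 ≤ a ∧ ∀ c : ℝ, 1 ≤ c → ∃ X₀ : ℝ, 1 < X₀ ∧ ∀ X : ℝ, X₀ ≤ X →
      ∀ (b : Fin 5 → ℝ) (q : Eis) (us : Fin 3 → Pq) (gs : List Pq) (κ H : ℝ),
      PD X τ B H N b q us gs κ → (∀ i, b i + τ ≤ Kc) →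
      ∀ (K V : ℝ) (Hf T : Eis → Eis → ℝ), 0 < K → 0 < V → (∀ d e, 0 < Hf d e) →
      ∀ Pr : Eis → Eis → Prop,
      (∀ d e, Pr d e → IsPrim d ∧ IsPrim e ∧ (nm d : ℝ) ≤ X ^ B ∧ (nm e : ℝ) ≤ X ^ B) →
      (∀ d e, Pr d e → Real.exp (LN ([us 0, us 1, us 2] ++ gs)) * V * Hf d e / K ≤ X ^ Kc) →
      (∀ d e, Pr d e → 1 ≤ Ld K V (Hf d e) d →
        LnR E g2 (T d e) (Real.log K / Real.log X) (Real.log V / Real.log X)
          (Real.log (Hf d e) / Real.log X) (LN ([us 0, us 1, us 2] ++ gs) / Real.log X)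
          (Real.log (nm d) / Real.log X) (Real.log (nm e) / Real.log X) ((us 0).z / Real.log X)
          ((us 1).z / Real.log X) ((us 2).z / Real.log X) (LN gs / Real.log X) ε) →
      ∃ W0 : Eis → Eis → ℝ → ℝ, (∀ d e, Slp a (W0 d e)) ∧
      (∀ A : ℕ, A₀ ≤ A → ∀ d e, Pr d e → ∀ γ φ, IsPrim γ → IsPrim φ → (nm φ : ℝ) ≤ X ^ B → ∀ P : ℝ, 0 < P →
          (nm γ : ℝ) * n6 γ ^ 2 * ∑ k ∈ bl P, RMm A (fun j =>
            sqc q (alL h (([us 0, us 1, us 2] ++ gs).map (Pt (π lam) t))) (d * j)) e γ φ k ≤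
          W0 d e P) ∧
      ∀ d e, Pr d e →
        FH K (Hf d e) V * RN2F c K V (Real.exp (LN ([us 0, us 1, us 2] ++ gs))) Hf W0 d e ≤
        H ^ M * X ^ (T d e + ε) / (nm d * nm e) := by
  obtain ⟨τ, hτ0, hτε, HR⟩ := rn_pd hpu hP hKc PL hE (gg := g2) (fun c hc l I => g2_hom hc l I)
    hε hε1
  refine ⟨τ, hτ0, hτε, fun lam t ht N B => ?_⟩
  obtain ⟨M, a, A₀, ha, HR⟩ := HR lam t ht N B
  refine ⟨M, a, A₀, ha, fun c hc => ?_⟩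
  obtain ⟨X₁, hX₁, HR⟩ := HR c hc
  refine ⟨X₁, hX₁, ?_⟩
  intro X hX b q us gs κ H hPD hb K V Hf T hK hV hHf Pr hPr hsz hline
  exact HR X hX b q us gs κ H hPD hb K V Hf (fun d e => G2 (Ld K V (Hf d e) d)
    (Md c K V (Hf d e) (Real.exp (LN ([us 0, us 1, us 2] ++ gs))) d)
    (Real.exp (LN ([us 0, us 1, us 2] ++ gs)) * V * Hf d e / K)) T hK hV hHf
    Pr hPr (fun d e hde => ⟨hsz d e hde, by
      have h1 := hHf d e
      have pd := (hPr d e hde).1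
      refine E3T829.G2_nonneg (Ld_pos hK hV h1 pd.ne_zero).le ?_ (by positivity)
      exact E3Sz579.Md_nonneg (by linarith) hK hV h1 (Real.exp_pos _) d,
      w2_le hc hK hV (hHf d e) (hPr d e hde).1.ne_zero⟩) hline

/-- **first form** -/
theorem rn1_pd {c₀ : ℝ} (hpu : PU h c₀) (hP : ∀ lam, (π lam).OK) {Kc : ℝ} (hKc : 0 ≤ Kc)
    {E : ℝ → ℝ → ℝ → ℝ → ℝ → ℝ → ℝ} (PL : Plain (fun _ k => k ≠ 0) π h (Kc + 2) E)
    (hE : Continuous (fun q : (Fin 4 → ℝ) × (Kd → ℝ) =>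
      E (q.1 0) (q.1 1) (q.1 2) (q.1 3) (q.2 .mo) (q.2 .am)))
    {ε : ℝ} (hε : 0 < ε) (hε1 : ε ≤ 1) :
    ∃ τ : ℝ, 0 < τ ∧ τ ≤ ε ∧ ∀ (lam : Λ) (t : Eis), t ≠ 0 → ∀ (N : ℕ) (B : ℝ),
      ∃ (M a A₀ : ℕ), 1 ≤ a ∧ ∀ c : ℝ, 1 ≤ c → ∃ X₀ : ℝ, 1 < X₀ ∧ ∀ X : ℝ, X₀ ≤ X →
      ∀ (b : Fin 5 → ℝ) (q : Eis) (us : Fin 3 → Pq) (gs : List Pq) (κ H : ℝ),
      PD X τ B H N b q us gs κ → (∀ i, b i + τ ≤ Kc) →
      ∀ (K V : ℝ) (Hf T : Eis → Eis → ℝ), 0 < K → 0 < V → (∀ d e, 0 < Hf d e) →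
      ∀ Pr : Eis → Eis → Prop,
      (∀ d e, Pr d e → IsPrim d ∧ IsPrim e ∧ (nm d : ℝ) ≤ X ^ B ∧ (nm e : ℝ) ≤ X ^ B) →
      (∀ d e, Pr d e → Real.exp (LN ([us 0, us 1, us 2] ++ gs)) * V * Hf d e / K ≤ X ^ Kc) →
      (∀ d e, Pr d e → 1 ≤ Ld K V (Hf d e) d →
        LnR E g1 (T d e) (Real.log K / Real.log X) (Real.log V / Real.log X)
          (Real.log (Hf d e) / Real.log X) (LN ([us 0, us 1, us 2] ++ gs) / Real.log X)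
          (Real.log (nm d) / Real.log X) (Real.log (nm e) / Real.log X) ((us 0).z / Real.log X)
          ((us 1).z / Real.log X) ((us 2).z / Real.log X) (LN gs / Real.log X) ε) →
      ∃ W0 : Eis → Eis → ℝ → ℝ, (∀ d e, Slp a (W0 d e)) ∧
      (∀ A : ℕ, A₀ ≤ A → ∀ d e, Pr d e → ∀ γ φ, IsPrim γ → IsPrim φ → (nm φ : ℝ) ≤ X ^ B → ∀ P : ℝ, 0 < P →
          (nm γ : ℝ) * n6 γ ^ 2 * ∑ k ∈ bl P, RMm A (fun j =>
            sqc q (alL h (([us 0, us 1, us 2] ++ gs).map (Pt (π lam) t))) (d * j)) e γ φ k ≤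
          W0 d e P) ∧
      ∀ d e, Pr d e →
        FH K (Hf d e) V * RNF c K V (Real.exp (LN ([us 0, us 1, us 2] ++ gs))) Hf W0 d e ≤
        H ^ M * X ^ (T d e + ε) / (nm d * nm e) := by
  obtain ⟨τ, hτ0, hτε, HR⟩ := rn_pd hpu hP hKc PL hE (gg := g1) (fun c hc l I => g1_hom hc l I)
    hε hε1
  refine ⟨τ, hτ0, hτε, fun lam t ht N B => ?_⟩
  obtain ⟨M, a, A₀, ha, HR⟩ := HR lam t ht N B
  refine ⟨M, a, A₀, ha, fun c hc => ?_⟩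
  obtain ⟨X₁, hX₁, HR⟩ := HR c hc
  refine ⟨X₁, hX₁, ?_⟩
  intro X hX b q us gs κ H hPD hb K V Hf T hK hV hHf Pr hPr hsz hline
  exact HR X hX b q us gs κ H hPD hb K V Hf (fun d e => Real.sqrt (Ld K V (Hf d e) d) +
    Md c K V (Hf d e) (Real.exp (LN ([us 0, us 1, us 2] ++ gs))) d) T hK hV hHf
    Pr hPr (fun d e hde => ⟨hsz d e hde, by
      have h1 := hHf d e
      have pd := (hPr d e hde).1
      refine add_nonneg (Real.sqrt_nonneg _) ?_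
      exact E3Sz579.Md_nonneg (by linarith) hK hV h1 (Real.exp_pos _) d,
      w1_le hc hK hV (hHf d e) (hPr d e hde).1.ne_zero⟩) hline

end

end Crest.Agent.R017.RnP571
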