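import Crest.Agent.R017.RnS_579

/-!
# Row 17, R8 (E3): the numbers of one level at `K s`, `H s` (helper579)

* `FH_mul`, `RN2F_mul`, `RN2XF_mul`, `KX_mul`
* `LVn_mul_le` : `LVn (K s) (H s) V V 1 1 1 ≤ s^(1/3) LVn K H V V E 1 1` for `s^(-1/3) ≤ E`
-/

set_option autoImplicit false

noncomputable section

open Finset
open scoped Classical ComplexConjugate

namespace Crest.Agent.R017.RnS579

open Crest.Agent.R012 Crest.Agent.R012.Eis
open Crest.Agent.R017.E3Z548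
open Crest.Agent.R017.E3Sz579 (Ld Md)
open Crest.Agent.R017.E3Sx744 (Mxd)
open Crest.Agent.R017.E3Hd290 (RNF)
open Crest.Agent.R017.E3Hf290 (RN2F)
open Crest.Agent.R017.E3Hh290 (RNXF)
open Crest.Agent.R017.E3Hi290 (RN2XF)

variable {K H V V' X s : ℝ}

lemma s_facts (hs : 0 < s) : 0 < s ^ (-(1 / 3) : ℝ) ∧ (s ^ (-(1 / 3) : ℝ)) ^ 3 = s⁻¹ ∧
    (s ^ (-(1 / 3) : ℝ))⁻¹ = s ^ (1 / 3 : ℝ) := by
  refine ⟨Real.rpow_pos_of_pos hs _, ?_, ?_⟩
  · rw [← Real.rpow_natCast, ← Real.rpow_mul hs.le, ← Real.rpow_neg_one]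
    norm_num
  · rw [← Real.rpow_neg hs.le]
    norm_num

lemma mul_div3 (hs : 0 < s) (x : ℝ) : x * s = x / (s ^ (-(1 / 3) : ℝ)) ^ 3 := by
  rw [(s_facts hs).2.1, div_inv_eq_mul]

lemma FH_mul (hs : 0 < s) (hK : 0 < K) (hH : 0 < H) (hV : 0 < V) :
    FH (K * s) (H * s) V = s ^ (1 / 3 : ℝ) * FH K H V := by
  rw [mul_div3 hs K, mul_div3 hs H, FH_div hK.le hH.le hV.le (s_facts hs).1, (s_facts hs).2.2]

lemma Ld_mul (hs : 0 < s) (d : Eis) : Ld (K * s) V (H * s) d = Ld K V H d := by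
  rw [mul_div3 hs K, mul_div3 hs H, Ld_div (s_facts hs).1]

lemma KX_mul (hs : 0 < s) {c V X : ℝ} (h : c * (H * V ^ 2) ≤ K * X) :
    c * (H * s * V ^ 2) ≤ K * s * X := by
  have h1 := mul_le_mul_of_nonneg_right h hs.le
  nlinarith

variable {c : ℝ} {H₀ : Eis → Eis → ℝ} {d e : Eis}

lemma RN2F_mul (hs : 0 < s) (W0 : Eis → Eis → ℝ → ℝ) :
    RN2F c (K * s) V X (fun d e => H₀ d e * s) W0 d e = RN2F c K V X H₀ W0 d e := by
  have e1 : (fun d e => H₀ d e * s) = fun d e => H₀ d e / (s ^ (-(1 / 3) : ℝ)) ^ 3 := by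
    funext d e
    exact mul_div3 hs _
  rw [mul_div3 hs K, e1, RN2F_div (s_facts hs).1]

lemma RN2XF_mul (hs : 0 < s) (W0 : Bool → Eis → Eis → ℝ → ℝ) :
    RN2XF c (K * s) V X (fun d e => H₀ d e * s) W0 d e = RN2XF c K V X H₀ W0 d e := by
  have e1 : (fun d e => H₀ d e * s) = fun d e => H₀ d e / (s ^ (-(1 / 3) : ℝ)) ^ 3 := by
    funext d e
    exact mul_div3 hs _
  rw [mul_div3 hs K, e1, RN2XF_div (s_facts hs).1]

/-- the number of one side is monotone in `E1` -/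
lemma LVn_mono1 {af : Eis → Eis → Eis → ℂ} {Ds EE : Finset Eis} {Y E1 E1' B G1 RN : ℝ} (hK : 0 < K)
    (hH : 0 < H) (hV : 0 < V) (hV' : 0 < V') (hG : 0 ≤ G1) (hE : 0 ≤ E1) (hEE : E1 ≤ E1') :
    LVn af Ds EE c Y K H V V' E1 B G1 RN ≤ LVn af Ds EE c Y K H V V' E1' B G1 RN := by
  have hne : ∀ e : Eis, (0 : ℝ) ≤ nm e := fun e => Nat.cast_nonneg _
  have t0 := TN_nonneg af hne Ds EE (om := fun _ => (1 : ℝ))
    (fun _ => zero_le_one) {1} (JVc c V) id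
  have hF := FH_nonneg hK.le hH.le hV.le
  have p2 : E1 ^ 2 ≤ E1' ^ 2 := pow_le_pow_left₀ hE hEE 2
  have p3 : E1 ^ 3 ≤ E1' ^ 3 := pow_le_pow_left₀ hE hEE 3
  have hE3 : 0 ≤ E1 ^ 3 := by positivity
  unfold LVn
  refine mul_le_mul_of_nonneg_left ?_ hF
  refine add_le_add (add_le_add (add_le_add ?_ le_rfl) le_rfl) le_rfl
  refine mul_le_mul_of_nonneg_right ?_ t0
  refine add_le_add (add_le_add le_rfl ?_) ?_
  · refine mul_le_mul_of_nonneg_left ?_ (by positivity)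
    exact mul_le_mul_of_nonneg_right (mul_le_mul_of_nonneg_right p2 (sq_nonneg B)) hG
  · refine Real.rpow_le_rpow (by positivity) ?_ (by norm_num)
    refine div_le_div_of_nonneg_right ?_ (by positivity)
    exact mul_le_mul_of_nonneg_right (mul_le_mul_of_nonneg_left p3 (by positivity)) (sq_nonneg B)

/-- **the numbers of one level at `K s`, `H s`** -/
theorem LVn_mul_le {E : ℝ} (hs : 0 < s) (hsE : s ^ (-(1 / 3) : ℝ) ≤ E) (hK : 0 < K) (hH : 0 < H)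
    (hV : 0 < V) (hV' : 0 < V') (af : Eis → Eis → Eis → ℂ) (Ds EE : Finset Eis) (c Y RN : ℝ) :
    LVn af Ds EE c Y (K * s) (H * s) V V' 1 1 1 RN ≤
      s ^ (1 / 3 : ℝ) * LVn af Ds EE c Y K H V V' E 1 1 RN := by
  obtain ⟨h1, -, h3⟩ := s_facts hs
  rw [mul_div3 hs K, mul_div3 hs H, LVn_div hK hH hV hV' h1, h3, mul_one]
  exact mul_le_mul_of_nonneg_left (LVn_mono1 hK hH hV hV' zero_le_one h1.le hsE)
    (Real.rpow_nonneg hs.le _)

end Crest.Agent.R017.RnS579
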