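import Crest.Agent.R017.RnXd_571
import Crest.Agent.R017.RHs_241

/-!
# Row 17, class E of `P1` (helper61, after helper571): (RH) for ONE twisted list, both classes of
frequencies

* `rhs_false` : frequencies `k` with `k t` not a cube
* `rhs_true`  : frequencies `k` with `k t` a cube
-/

set_option autoImplicit false
set_option maxHeartbeats 400000

noncomputable section

open Complex MeasureTheory
open scoped ComplexConjugate

namespace Crest.Agent.R017.RnX571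

open Crest.Agent.R012 Crest.Agent.R012.Eis Crest.Agent.R012.MC
open Crest.Agent.R012.LS2 (bl mem_bl)
open Crest.Agent.R012.Weight600 (pw)
open Crest.Agent.R012.T411 (NCube)
open Crest.Agent.R017.FE47 (PU SM)
open Crest.Agent.R017.CM106
open Crest.Agent.R017.XG702 (Pcs BG)
open Crest.Agent.R017.Prov71
open Crest.Agent.R017.B770
open Crest.Agent.R017.HP842 (Pc pc sqc al alL)
open Crest.Agent.R017.E5B71 (Pt)
open Crest.Agent.R017.RM986 (Plain)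
open Crest.Agent.R017.R3571 (Below RMm RMm_nonneg RMm_eq rm W2 W2_mono RH_nat integrable_RM)
open Crest.Agent.R017.PX764 (n6)
open Crest.Agent.R017.Leg381 (Pf alF LF natl alF_natl)
open Crest.Agent.R017.RnP571 (RMm_tw W2_mono_a)
open Crest.Agent.R017.PoHx72 (Cls)
open Crest.Agent.R017.ROX744 (PrU)

section

variable {Λ : Type*} {π : Λ → DPar} {h : ℝ → ℝ}

lemma alF_prim {P : DPar} {l : List Pq} {n : Eis}
    (hn : sqc 1 (alF 1 1 P h (natl l)) n ≠ 0) : IsPrim n := by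
  have h1 := right_ne_zero_of_mul hn
  rw [alF_natl] at h1
  exact I1146.alL_prim h1

set_option maxHeartbeats 3200000 in
open Classical in
/-- **(RH) for one twisted list, the noncubes** -/
theorem rhs_false {c₀ : ℝ} (hpu : PU h c₀) (hP : ∀ lam, (π lam).OK) {Kc : ℝ} (hKc : 0 ≤ Kc)
    {E : ℝ → ℝ → ℝ → ℝ → ℝ → ℝ → ℝ} (PL : Plain (fun _ k => NCube k) π h (Kc + 1) E) {ε : ℝ}
    (hε : 0 < ε) :
    ∃ σ : ℝ, 0 < σ ∧ σ ≤ ε ∧ ∀ (lam : Λ) (t : Eis), t ≠ 0 → ∀ (N : ℕ) (B : ℝ),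
      ∃ (M a A₀ : ℕ) (X₀ : ℝ), 1 ≤ a ∧ 1 < X₀ ∧ ∀ X : ℝ, X₀ ≤ X →
      ∀ (u₁ u₂ u₃ : Pq) (ps : List Pq) (H : ℝ),
      (∀ p ∈ [u₁, u₂, u₃], Dq.lump p ∧ 0 ≤ p.z ∧ p.z ≤ Kc * Real.log X ∧ (nm p.d : ℝ) ≤ X ^ B) →
      ps.length ≤ N →
      (∀ p ∈ ps, p.kd = .am ∧ 0 ≤ p.z ∧ p.z ≤ σ * Real.log X ∧ (nm p.d : ℝ) ≤ X ^ B) →
      (ps.map Pq.z).sum ≤ Kc * Real.log X →
      1 ≤ H → (∀ p ∈ u₁ :: u₂ :: u₃ :: ps, 1 + |p.t| ≤ H) →
      ∀ (d e : Eis), IsPrim d → IsPrim e → (nm d : ℝ) ≤ X ^ B → (nm e : ℝ) ≤ X ^ B →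
      ∀ (P1 G : ℝ), 0 < P1 → P1 ≤ X ^ Kc → 0 ≤ G →
      (∀ i y₁ y₂ y₃ x : ℝ, 0 ≤ i → i ≤ Real.log P1 / Real.log X + σ → 0 ≤ y₁ →
        y₁ ≤ u₁.z / Real.log X + σ → 0 ≤ y₂ → y₂ ≤ u₂.z / Real.log X + σ → 0 ≤ y₃ →
        y₃ ≤ u₃.z / Real.log X + σ → 0 ≤ x → x ≤ (ps.map Pq.z).sum / Real.log X + σ →
        y₁ + y₂ + y₃ + x ≤ (u₁.z + u₂.z + u₃.z + (ps.map Pq.z).sum -
          Real.log (nm d * nm e)) / Real.log X + σ →
        E i y₁ y₂ y₃ 0 x + (Real.log P1 / Real.log X - i) / 3 ≤ G + (y₁ + y₂ + y₃ + x)) →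
      ∀ A : ℕ, A₀ ≤ A → ∀ γ φ : Eis, IsPrim γ → IsPrim φ → (nm φ : ℝ) ≤ X ^ B →
      ∀ P : ℝ, 0 < P →
        (nm γ : ℝ) * n6 γ ^ 2 * ∑ k ∈ (bl P).filter (Cls (PrU (t * t)) false), RMm A
          (fun n => sqc 1 (alL h ((u₁ :: u₂ :: u₃ :: ps).map (Pt (π lam) t))) (d * n)) e γ φ k ≤
        W2 a P1 (H ^ M * X ^ (G + ε) *
          (Real.exp (u₁.z + u₂.z + u₃.z + (ps.map Pq.z).sum) / nm d) ^ (2 / 3 : ℝ)) P := by
  classical
  obtain ⟨σ, hσ0, hσε, HR⟩ := rhQ_raw hpu hP hKc PL (show 0 < ε / 2 by positivity)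
  refine ⟨σ, hσ0, by linarith, fun lam t ht N B => ?_⟩
  obtain ⟨M, a, A₀, X₁, ha, hX₁, HR⟩ := HR lam t ht N |B|
  refine ⟨M, a, A₀, X₁, ha, hX₁, ?_⟩
  intro X hX u₁ u₂ u₃ ps H hu hN hps hsum hH hht d e hd he hdX heX P1 G hP1 hP1X
    hG0 hE A hA γ φ hγ hφ hφX P hPp
  have hX1 : 1 < X := by linarith
  have hX0 : 0 < X := by linarith
  have hBX : X ^ B ≤ X ^ |B| := Real.rpow_le_rpow_of_exponent_le hX1.le (le_abs_self B)
  have h1X : (nm (1 : Eis) : ℝ) ≤ X ^ |B| := by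
    rw [nm_one, Nat.cast_one]
    exact Real.one_le_rpow hX1.le (abs_nonneg B)
  obtain ⟨a1, a2, a3, a4⟩ := hu u₁ (by simp)
  obtain ⟨b1, b2, b3, b4⟩ := hu u₂ (by simp)
  obtain ⟨c1, c2, c3, c4⟩ := hu u₃ (by simp)
  have hps' : ∀ p ∈ ps, p.kd = .am ∧ 0 ≤ p.z ∧ p.z ≤ σ * Real.log X ∧ (nm p.d : ℝ) ≤ X ^ |B| :=
    fun p hp => by
      obtain ⟨h1, h2, h3, h4⟩ := hps p hp
      exact ⟨h1, h2, h3, h4.trans hBX⟩
  have key1 := HR X hX u₁ u₂ u₃ ps 1 H (by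
      intro p hp
      simp only [List.mem_cons, List.not_mem_nil, or_false] at hp
      rcases hp with rfl | rfl | rfl
      · exact ⟨a1, a2, a3, a4.trans hBX⟩
      · exact ⟨b1, b2, b3, b4.trans hBX⟩
      · exact ⟨c1, c2, c3, c4.trans hBX⟩) hN hps' hsum one_ne_zero h1X hH hht d e hd he
    (hdX.trans hBX) (heX.trans hBX) P1 G hP1 hP1X hG0 hE A hA γ φ hγ hφ
    (hφX.trans hBX) P hPp
  have hfil : (bl P).filter (Cls (PrU (t * t)) false) = (bl P).filter (fun k => NCube (k * t)) :=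
    Finset.filter_congr fun k _ => cls_false ht k
  rw [hfil]
  have hterm : ∀ k, RMm A
      (fun n => sqc 1 (alL h ((u₁ :: u₂ :: u₃ :: ps).map (Pt (π lam) t))) (d * n)) e γ φ k ≤
      RMm A (fun n => sqc 1 (alL h ((u₁ :: u₂ :: u₃ :: ps).map (Pq.pc (π lam)))) (d * n)) e γ φ
        (k * t) := by
    intro k
    rw [I1146.sqc_tw]
    refine (RMm_tw A t (fun n hn => alF_prim hn) hd hγ e φ k).trans (le_of_eq ?_)
    rw [alF_natl]
  have hγ0 : 0 ≤ (nm γ : ℝ) * n6 γ ^ 2 := mul_nonneg (Nat.cast_nonneg _) (sq_nonneg _)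
  refine (mul_le_mul_of_nonneg_left (Finset.sum_le_sum fun k _ => hterm k) hγ0).trans
    (key1.trans (W2_mono a hP1 hPp ?_))
  have e1 : X ^ (G + ε / 2) ≤ X ^ (G + ε) :=
    Real.rpow_le_rpow_of_exponent_le hX1.le (by linarith)
  have hH0 : 0 ≤ H ^ M := by positivity
  exact mul_le_mul_of_nonneg_right (mul_le_mul_of_nonneg_left e1 hH0) (by positivity)

set_option maxHeartbeats 3200000 in
open Classical in
/-- **(RH) for one twisted list, the cubes** -/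
theorem rhs_true {c₀ : ℝ} (hpu : PU h c₀) (hP : ∀ lam, (π lam).OK) {Kc : ℝ} (hKc : 0 ≤ Kc)
    {ε : ℝ} (hε : 0 < ε) (lam : Λ) {t : Eis} (ht : t ≠ 0) (N : ℕ) (B : ℝ) :
      ∃ (M a A₀ : ℕ) (X₀ : ℝ), 1 ≤ a ∧ 1 < X₀ ∧ ∀ X : ℝ, X₀ ≤ X →
      ∀ (u₁ u₂ u₃ : Pq) (ps : List Pq) (H : ℝ),
      (∀ p ∈ [u₁, u₂, u₃], Dq.lump p ∧ 0 ≤ p.z ∧ p.z ≤ Kc * Real.log X ∧ (nm p.d : ℝ) ≤ X ^ B) →
      ps.length ≤ N →
      (∀ p ∈ ps, 0 ≤ p.z ∧ p.z ≤ Kc * Real.log X) →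
      1 ≤ H → (∀ p ∈ u₁ :: u₂ :: u₃ :: ps, 1 + |p.t| ≤ H) →
      ∀ (d e : Eis), IsPrim d → IsPrim e → (nm d : ℝ) ≤ X ^ B → (nm e : ℝ) ≤ X ^ B →
      ∀ P1 : ℝ, 0 < P1 → P1 ≤ X ^ Kc →
      ∀ A : ℕ, A₀ ≤ A → ∀ γ φ : Eis, IsPrim γ → IsPrim φ → (nm φ : ℝ) ≤ X ^ B →
      ∀ P : ℝ, 0 < P →
        (nm γ : ℝ) * n6 γ ^ 2 * ∑ k ∈ (bl P).filter (Cls (PrU (t * t)) true), RMm A
          (fun n => sqc 1 (alL h ((u₁ :: u₂ :: u₃ :: ps).map (Pt (π lam) t))) (d * n)) e γ φ k ≤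
        W2 a P1 (H ^ M * X ^ ε * (P1 ^ (1 / 3 : ℝ) *
          ((Real.exp (u₁.z + u₂.z + u₃.z + (ps.map Pq.z).sum) / nm d) ^ (5 / 3 : ℝ) *
            (nm e : ℝ)⁻¹))) P := by
  classical
  set B₃ : ℝ := |B| + Kc + 1 with hB₃
  have hB₃1 : 1 ≤ B₃ := by
    have := abs_nonneg B
    linarith
  have hB₃0 : 0 < B₃ := by linarith
  obtain ⟨a, ha, HC⟩ := RHs241.RHs_pr hpu (N + 3) (δ := ε / 4 / B₃) (m := Kc) (by positivity) hKc
  obtain ⟨C, hC1, HC⟩ := HC (ε / 4 / B₃) (by positivity)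
  obtain ⟨X₂, hX₂, HX₂⟩ := XSup271.exists_X hC1 (ε := ε / 4) (by positivity)
  have hnt : (1 : ℝ) ≤ nm t := by exact_mod_cast nm_pos.2 ht
  obtain ⟨X₃, hX₃, HX₃⟩ := XSup271.exists_X hnt (ε := ε / 4) (by positivity)
  refine ⟨0, a, 2, max (max X₂ X₃) (max 3 (nm t)), ha,
    lt_of_lt_of_le hX₂ ((le_max_left _ _).trans (le_max_left _ _)), ?_⟩
  intro X hX u₁ u₂ u₃ ps H hu hN hps hH hht d e hd he hdX heX P1 hP1 hP1X
    A hA γ φ hγ hφ hφX P hPp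
  have hXX₂ : X₂ ≤ X := ((le_max_left _ _).trans (le_max_left _ _)).trans hX
  have hXX₃ : X₃ ≤ X := ((le_max_right _ _).trans (le_max_left _ _)).trans hX
  have hX3 : 3 ≤ X := ((le_max_left _ _).trans (le_max_right _ _)).trans hX
  have hXt : (nm t : ℝ) ≤ X := ((le_max_right _ _).trans (le_max_right _ _)).trans hX
  have hX1 : 1 < X := by linarith
  have hX0 : 0 < X := by linarith
  set X0 : ℝ := X ^ B₃ with hX0d
  have hX00 : 0 < X0 := by positivity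
  have hXX0 : X ≤ X0 := by
    calc X = X ^ (1 : ℝ) := (Real.rpow_one X).symm
      _ ≤ X0 := Real.rpow_le_rpow_of_exponent_le hX1.le hB₃1
  have hBX : X ^ B ≤ X0 := Real.rpow_le_rpow_of_exponent_le hX1.le (by
    have := le_abs_self B
    linarith)
  have hzX : ∀ z : ℝ, z ≤ Kc * Real.log X → Real.exp z ≤ X0 := by
    intro z hz
    rw [hX0d, Real.rpow_def_of_pos hX0]
    refine Real.exp_le_exp.2 (hz.trans ?_)
    have h1 : 0 ≤ Real.log X := Real.log_nonneg hX1.le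
    rw [mul_comm (Real.log X)]
    exact mul_le_mul_of_nonneg_right (by have := abs_nonneg B; linarith) h1
  obtain ⟨a1, a2, a3, a4⟩ := hu u₁ (by simp)
  obtain ⟨b1, b2, b3, b4⟩ := hu u₂ (by simp)
  obtain ⟨c1, c2, c3, c4⟩ := hu u₃ (by simp)
  set l : List Pf := natl (u₁ :: u₂ :: u₃ :: ps) with hl
  have hmem : ∀ p ∈ u₁ :: u₂ :: u₃ :: ps, 0 ≤ p.z ∧ p.z ≤ Kc * Real.log X := by
    intro p hp
    simp only [List.mem_cons] at hp
    rcases hp with rfl | rfl | rfl | hp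
    · exact ⟨a2, a3⟩
    · exact ⟨b2, b3⟩
    · exact ⟨c2, c3⟩
    · exact hps p hp
  have hmem' : ∀ p ∈ l, 0 ≤ p.1.z ∧ p.1.z ≤ Kc * Real.log X := by
    intro p hp
    rw [hl] at hp
    unfold Leg381.natl at hp
    obtain ⟨p', hp', rfl⟩ := List.mem_map.1 hp
    exact hmem p' hp'
  have hLF : LF l = u₁.z + u₂.z + u₃.z + (ps.map Pq.z).sum := by
    rw [hl]
    unfold Leg381.LF Leg381.natl
    simp only [List.map_cons, List.map_map, List.sum_cons, Function.comp_def]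
    ring
  have hlen : l.length ≤ N + 3 := by
    rw [hl]
    unfold Leg381.natl
    simp only [List.length_map, List.length_cons]
    omega
  have key := HC (π lam) (hP lam) l hlen (fun p hp => (hmem' p hp).1) 1 1 le_rfl
    1 d e t one_ne_zero hd he ht X0 (hX3.trans hXX0) (by linarith)
    (by rw [nm_one, Nat.cast_one]; linarith) (hdX.trans hBX) (heX.trans hBX) (hXt.trans hXX0)
    (fun p hp => hzX _ (hmem' p hp).2) A (by exact_mod_cast hA) P1 hP1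
    (hP1X.trans (by
      rw [hX0d, ← Real.rpow_mul hX0.le]
      refine Real.rpow_le_rpow_of_exponent_le hX1.le ?_
      nlinarith)) γ φ hγ hφ (hφX.trans hBX) P hPp
  rw [hLF] at key
  have hfil : (bl P).filter (Cls (PrU (t * t)) true) = (bl P).filter (fun k => ¬ NCube (k * t)) :=
    Finset.filter_congr fun k _ => cls_true ht k
  rw [hfil]
  have hγ0 : 0 ≤ (nm γ : ℝ) * n6 γ ^ 2 := mul_nonneg (Nat.cast_nonneg _) (sq_nonneg _)
  have hterm : ∀ k, RMm A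
      (fun n => sqc 1 (alL h ((u₁ :: u₂ :: u₃ :: ps).map (Pt (π lam) t))) (d * n)) e γ φ k ≤
      RMm A (fun n => sqc 1 (alF 1 1 (π lam) h l) (d * n)) e γ φ (k * t) := by
    intro k
    rw [I1146.sqc_tw]
    exact RMm_tw A t (fun n hn => alF_prim hn) hd hγ e φ k
  refine (mul_le_mul_of_nonneg_left (Finset.sum_le_sum fun k _ => hterm k) hγ0).trans
    (key.trans (W2_mono a hP1 hPp ?_))
  -- the number
  set R : ℝ := (Real.exp (u₁.z + u₂.z + u₃.z + (ps.map Pq.z).sum) / nm d) ^ (5 / 3 : ℝ) *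
    (nm e : ℝ)⁻¹ with hR
  have hR0 : 0 ≤ R := by rw [hR]; positivity
  have hCX : C ≤ X ^ (ε / 4) := HX₂ X hXX₂
  have htX : (nm t : ℝ) ≤ X ^ (ε / 4) := HX₃ X hXX₃
  have eX : X0 ^ (ε / 4 / B₃) = X ^ (ε / 4) := by
    rw [hX0d, ← Real.rpow_mul hX0.le]
    congr 1
    field_simp
  rw [eX]
  have hX4 : 1 ≤ X ^ (ε / 4) := Real.one_le_rpow hX1.le (by positivity)
  have e3 : (P1 * X ^ (ε / 4) * nm t) ^ (1 / 3 : ℝ) ≤
      P1 ^ (1 / 3 : ℝ) * (X ^ (ε / 4) * X ^ (ε / 4)) := by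
    rw [mul_assoc, Real.mul_rpow hP1.le (by positivity)]
    refine mul_le_mul_of_nonneg_left ?_ (by positivity)
    have h1 : 1 ≤ X ^ (ε / 4) * (nm t : ℝ) := one_le_mul_of_one_le_of_one_le hX4 hnt
    calc (X ^ (ε / 4) * (nm t : ℝ)) ^ (1 / 3 : ℝ) ≤ (X ^ (ε / 4) * (nm t : ℝ)) ^ (1 : ℝ) :=
          Real.rpow_le_rpow_of_exponent_le h1 (by norm_num)
      _ = X ^ (ε / 4) * (nm t : ℝ) := Real.rpow_one _
      _ ≤ _ := mul_le_mul_of_nonneg_left htX (by positivity)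
  have e4 : X ^ ε = X ^ (ε / 4) * X ^ (ε / 4) * (X ^ (ε / 4) * X ^ (ε / 4)) := by
    rw [← Real.rpow_add hX0, ← Real.rpow_add hX0]
    congr 1
    ring
  have hP13 : 0 ≤ P1 ^ (1 / 3 : ℝ) := by positivity
  rw [pow_zero, one_mul]
  calc C * X ^ (ε / 4) * ((P1 * X ^ (ε / 4) * nm t) ^ (1 / 3 : ℝ) * R)
      ≤ X ^ (ε / 4) * X ^ (ε / 4) *
        ((P1 ^ (1 / 3 : ℝ) * (X ^ (ε / 4) * X ^ (ε / 4))) * R) := by
        refine mul_le_mul (mul_le_mul_of_nonneg_right hCX (by positivity))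
          (mul_le_mul_of_nonneg_right e3 hR0) (by positivity) (by positivity)
    _ = X ^ ε * (P1 ^ (1 / 3 : ℝ) * R) := by
        rw [e4]
        ring

end

end Crest.Agent.R017.RnX571
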