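import Crest.Agent.R017.RnSd_61
import Crest.Agent.R017.RnXe_571

/-!
# Row 17, class E of `P1` (helper629, after helper571's `RnXe`): the `R`-number of `(d, e)` in two
classes, one list

* **`rns_raw`** : both classes, from one real line per class
-/

set_option autoImplicit false
set_option maxHeartbeats 400000

noncomputable section

open Complex MeasureTheory
open scoped ComplexConjugate

namespace Crest.Agent.R017.RnS629

open Crest.Agent.R012 Crest.Agent.R012.Eis Crest.Agent.R012.MC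
open Crest.Agent.R012.LS2 (bl mem_bl)
open Crest.Agent.R012.Weight600 (pw)
open Crest.Agent.R012.T411 (NCube)
open Crest.Agent.R017.FE47 (PU SM)
open Crest.Agent.R017.CM106
open Crest.Agent.R017.XG702 (Pcs BG)
open Crest.Agent.R017.Prov71
open Crest.Agent.R017.B770
open Crest.Agent.R017.HP842 (Pc pc sqc al alL)
open Crest.Agent.R017.E5B71 (Pt)
open Crest.Agent.R017.RM986 (Plain)
open Crest.Agent.R017.R3571 (RMm RMm_nonneg RMm_eq rm W2 W2_mono W2_at slp_two)
open Crest.Agent.R017.Mode405 (Slp)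
open Crest.Agent.R017.PX764 (n6)
open Crest.Agent.R017.E3D579 (n6_nonneg)
open Crest.Agent.R017.E3Z548 (FH)
open Crest.Agent.R017.E3Sz579 (Ld)
open Crest.Agent.R017.E3Sx744 (Mxd)
open Crest.Agent.R017.RnP571 (RMm_tw W2_mono_a lL lI log_Ld log_I Ld_pos Nn rp fac_eq)
open Crest.Agent.R017.PoHx72 (Cls)
open Crest.Agent.R017.ROX744 (PrU)
open Crest.Agent.R017.RnX571 (Nx numF numT)
open Crest.Agent.R017.RnX571 (rhs_false rhs_true)

section

variable {Λ : Type*} {π : Λ → DPar} {h : ℝ → ℝ}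

set_option maxHeartbeats 6400000 in
open Classical in
/-- **the `R`-number in two classes, one list** -/
theorem rns_raw {c₀ : ℝ} (hpu : PU h c₀) (hP : ∀ lam, (π lam).OK) {Kc : ℝ} (hKc : 0 ≤ Kc)
    {E : ℝ → ℝ → ℝ → ℝ → ℝ → ℝ → ℝ} (PL : Plain (fun _ k => NCube k) π h (Kc + 2) E)
    {gg : ℝ → ℝ → ℝ} (hgg : ∀ c : ℝ, 0 ≤ c → ∀ l I : ℝ, gg (c * l) (c * I) = c * gg l I)
    {Gb : ℝ} (hGb : 0 ≤ Gb) (hEb : ∀ i y₁ y₂ y₃ x : ℝ, 0 ≤ i → i ≤ Kc + 2 → 0 ≤ y₁ → y₁ ≤ Kc + 2 →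
      0 ≤ y₂ → y₂ ≤ Kc + 2 → 0 ≤ y₃ → y₃ ≤ Kc + 2 → 0 ≤ x → x ≤ Kc + 2 →
      E i y₁ y₂ y₃ 0 x ≤ Gb) {ε : ℝ} (hε : 0 < ε) (hε1 : ε ≤ 1) :
    ∃ σ : ℝ, 0 < σ ∧ σ ≤ ε ∧ ∀ (lam : Λ) (t : Eis), t ≠ 0 → ∀ (N : ℕ) (B : ℝ),
      ∃ (M a A₀ : ℕ), 1 ≤ a ∧ ∀ c : ℝ, 1 ≤ c → ∃ X₀ : ℝ, 1 < X₀ ∧ ∀ X : ℝ, X₀ ≤ X →
      ∀ (u₁ u₂ u₃ : Pq) (ps : List Pq) (H : ℝ),
      (∀ p ∈ [u₁, u₂, u₃], Dq.lump p ∧ 0 ≤ p.z ∧ p.z ≤ Kc * Real.log X ∧ (nm p.d : ℝ) ≤ X ^ B) →
      ps.length ≤ N →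
      (∀ p ∈ ps, p.kd = .am ∧ 0 ≤ p.z ∧ p.z ≤ σ * Real.log X ∧ (nm p.d : ℝ) ≤ X ^ B) →
      (ps.map Pq.z).sum ≤ Kc * Real.log X →
      1 ≤ H → (∀ p ∈ u₁ :: u₂ :: u₃ :: ps, 1 + |p.t| ≤ H) →
      ∀ n : ℝ, n = u₁.z + u₂.z + u₃.z + (ps.map Pq.z).sum →
      ∀ (K V : ℝ) (Hf : Eis → Eis → ℝ) (Qf : Eis → Eis → ℝ) (T : Eis → Eis → ℝ), 0 < K → 0 < V →
      (∀ d e, 0 < Hf d e) → ∀ Pr : Eis → Eis → Prop,
      (∀ d e, Pr d e → IsPrim d ∧ IsPrim e ∧ (nm d : ℝ) ≤ X ^ B ∧ (nm e : ℝ) ≤ X ^ B) →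
      (∀ d e, Pr d e →
        Real.exp n * V * Hf d e / K ≤ X ^ Kc ∧ 0 ≤ Qf d e ∧
        Qf d e ≤ (3 + c) * Real.exp (gg (lL K V (Hf d e) d) (lI K V (Hf d e) n))) →
      (∀ d e, Pr d e → 1 ≤ Ld K V (Hf d e) d →
        Nx (Real.log V / Real.log X) (Real.log (Hf d e) / Real.log X)
          (n / Real.log X) (Real.log (nm d) / Real.log X) (Real.log (nm e) / Real.log X)
          0 ≤ T d e ∧
        Nn gg (Real.log K / Real.log X) (Real.log V / Real.log X) (Real.log (Hf d e) / Real.log X)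
          (n / Real.log X) (Real.log (nm d) / Real.log X) (Real.log (nm e) / Real.log X) ≤ T d e ∧
        ∀ i y₁ y₂ y₃ x : ℝ, 0 ≤ i →
        i ≤ (n + Real.log V + Real.log (Hf d e) - Real.log K) / Real.log X + ε → 0 ≤ y₁ →
        y₁ ≤ u₁.z / Real.log X + ε → 0 ≤ y₂ → y₂ ≤ u₂.z / Real.log X + ε → 0 ≤ y₃ →
        y₃ ≤ u₃.z / Real.log X + ε → 0 ≤ x → x ≤ (ps.map Pq.z).sum / Real.log X + ε →
        y₁ + y₂ + y₃ + x ≤ (n - Real.log (nm d) - Real.log (nm e)) / Real.log X + ε →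
        E i y₁ y₂ y₃ 0 x + ((n + Real.log V + Real.log (Hf d e) - Real.log K) / Real.log X - i) / 3 +
          Nn gg (Real.log K / Real.log X) (Real.log V / Real.log X)
            (Real.log (Hf d e) / Real.log X) (n / Real.log X) (Real.log (nm d) / Real.log X)
            (Real.log (nm e) / Real.log X) ≤ T d e + (y₁ + y₂ + y₃ + x)) →
      ∃ W0 : Bool → Eis → Eis → ℝ → ℝ, (∀ jj d e, Slp a (W0 jj d e)) ∧
      (∀ A : ℕ, A₀ ≤ A → ∀ jj d e, Pr d e →
        ∀ γ φ, IsPrim γ → IsPrim φ → (nm φ : ℝ) ≤ X ^ B → ∀ P : ℝ, 0 < P →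
          (nm γ : ℝ) * n6 γ ^ 2 * ∑ k ∈ (bl P).filter (Cls (PrU (t * t)) jj), RMm A (fun j =>
            sqc 1 (alL h ((u₁ :: u₂ :: u₃ :: ps).map (Pt (π lam) t))) (d * j)) e γ φ k ≤
          W0 jj d e P) ∧
      ∀ d e, Pr d e →
        FH K (Hf d e) V * ((nm d : ℝ) ^ (2 / 3 : ℝ) * nm e *
          ((if 1 ≤ Ld K V (Hf d e) d then Qf d e else 0) *
            W0 false d e (c * (Real.exp n * V * Hf d e / K)) +
          (if 1 ≤ Ld K V (Hf d e) d then Mxd c K V (Hf d e) (Real.exp n) d else 0) *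
            W0 true d e (c * (Real.exp n * V * Hf d e / K)))) ≤
        H ^ M * X ^ (T d e + ε) / (nm d * nm e) := by
  classical
  obtain ⟨σ, hσ0, hσε, HR⟩ := rhs_false hpu hP (Kc := Kc + 1) (by linarith)
    (E := E) (by
      have e : Kc + 1 + 1 = Kc + 2 := by ring
      rw [e]; exact PL) (show 0 < ε / 4 by positivity)
  refine ⟨σ, hσ0, by linarith, fun lam t ht N B => ?_⟩
  obtain ⟨Mf, af, Af, X₁, haf, hX₁, HR⟩ := HR lam t ht N B
  obtain ⟨Mt, at', At, X₃, hat, hX₃, HT⟩ := rhs_true hpu hP (Kc := Kc + 1) (by linarith)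
    (show 0 < ε / 4 by positivity) lam ht N B
  refine ⟨Mf + Mt, max af at', max Af At, haf.trans (le_max_left _ _), fun c hc => ?_⟩
  obtain ⟨X₂, hX₂, HX₂⟩ := XSup271.exists_X (show 1 ≤ 3 + c ^ 2 by nlinarith) (ε := ε / 4)
    (by positivity)
  refine ⟨max X₁ (max X₂ X₃), lt_of_lt_of_le hX₁ (le_max_left _ _), ?_⟩
  intro X hX u₁ u₂ u₃ ps H hu hN hps hsum hH hht n hn K V Hf Qf
    T hK hV hHf Pr hPr hQ hline
  have hXX₁ : X₁ ≤ X := (le_max_left _ _).trans hX
  have hXX₂ : X₂ ≤ X := ((le_max_left _ _).trans (le_max_right _ _)).trans hX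
  have hXX₃ : X₃ ≤ X := ((le_max_right _ _).trans (le_max_right _ _)).trans hX
  have hX1 : 1 < X := by linarith
  have hX0 : 0 < X := by linarith
  set L := Real.log X with hLd
  have hL : 0 < L := Real.log_pos hX1
  have hc0 : 0 < c := by linarith
  have h3c2 : 3 + c ^ 2 ≤ X ^ (ε / 4) := HX₂ X hXX₂
  have hcc2 : c ≤ c ^ 2 := by nlinarith
  have h3c : 3 + c ≤ X ^ (ε / 4) := by linarith
  have hcX : c ≤ X ^ (ε / 4) := by linarith
  have hc2X : c ^ 2 ≤ X ^ (ε / 4) := by linarith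
  have h2X : 2 ≤ X ^ (ε / 4) := by linarith
  have hlc0 : 0 ≤ Real.log c := Real.log_nonneg hc
  have hlc : Real.log c ≤ ε / 4 * L := by
    have := Real.log_le_log hc0 hcX
    rwa [Real.log_rpow hX0] at this
  -- the data
  set P1 : Eis → Eis → ℝ := fun d e => c * (Real.exp n * V * Hf d e / K) with hP1
  have hP10 : ∀ d e, 0 < P1 d e := fun d e => by
    have := hHf d e
    rw [hP1]
    positivity
  set NN : Eis → Eis → ℝ := fun d e => Nn gg (Real.log K / L) (Real.log V / L)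
    (Real.log (Hf d e) / L) (n / L) (Real.log (nm d) / L) (Real.log (nm e) / L) with hNN
  set G : Eis → Eis → ℝ := fun d e => if 1 ≤ Ld K V (Hf d e) d ∧ NN d e ≤ T d e then
    T d e - NN d e + ε / 4 else Gb + Kc + 2 with hG
  have hG0 : ∀ d e, 0 ≤ G d e := by
    intro d e
    rw [hG]
    dsimp only
    split_ifs with h1
    · linarith [h1.2]
    · linarith
  have hH0 : 0 < H := by linarith
  set Wf : Eis → Eis → ℝ := fun d e => H ^ Mf * X ^ (G d e + ε / 4) *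
    (Real.exp n / nm d) ^ (2 / 3 : ℝ) with hWf
  set Wt : Eis → Eis → ℝ := fun d e => H ^ Mt * X ^ (ε / 4) *
    ((c * (Real.exp n * V * Hf d e / K)) ^ (1 / 3 : ℝ) *
      ((Real.exp n / nm d) ^ (5 / 3 : ℝ) * (nm e : ℝ)⁻¹)) with hWt
  have hWf0 : ∀ d e, 0 ≤ Wf d e := fun d e => by rw [hWf]; positivity
  have hWt0 : ∀ d e, 0 ≤ Wt d e := fun d e => by
    have h2 := hHf d e
    rw [hWt]
    positivity
  have hlP1 : ∀ d e, Real.log (P1 d e) =
      Real.log c + (n + Real.log V + Real.log (Hf d e) - Real.log K) := by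
    intro d e
    have h1 := log_I (n := n) hK hV (hHf d e)
    have h2 := hHf d e
    rw [hP1]
    dsimp only
    rw [Real.log_mul hc0.ne' (by positivity), h1]
    rfl
  have ha1 : 1 ≤ max af at' := haf.trans (le_max_left _ _)
  have hPb : ∀ d e, Pr d e → P1 d e ≤ X ^ (Kc + 1) := by
    intro d e hde
    obtain ⟨hI, hQ0, hQ1⟩ := hQ d e hde
    have h1 : c ≤ X ^ (1 : ℝ) := hcX.trans (Real.rpow_le_rpow_of_exponent_le hX1.le (by linarith))
    have h2 := hHf d e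
    calc P1 d e ≤ X ^ (1 : ℝ) * X ^ Kc := mul_le_mul h1 hI (by positivity) (by positivity)
      _ = _ := by rw [← Real.rpow_add hX0]; congr 1; ring
  have hKL : Kc * L ≤ (Kc + 1) * L := by nlinarith
  refine ⟨fun jj d e => W2 (max af at') (P1 d e) (if jj = true then Wt d e else Wf d e),
    fun jj d e => slp_two ha1 (hP10 d e) (by split_ifs; exacts [hWt0 d e, hWf0 d e]), ?_, ?_⟩
  · -- (RH)
    intro A hA jj d e hde γ φ hγ hφ hφm P hPp
    obtain ⟨pd, pe, hdB, ne⟩ := hPr d e hde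
    have nd0 : (0 : ℝ) < nm d := by exact_mod_cast nm_pos.2 pd.ne_zero
    have ne0 : (0 : ℝ) < nm e := by exact_mod_cast nm_pos.2 pe.ne_zero
    have hlog : Real.log (nm d * nm e) = Real.log (nm d) + Real.log (nm e) :=
      Real.log_mul nd0.ne' ne0.ne'
    have hu' : ∀ p ∈ [u₁, u₂, u₃], Dq.lump p ∧ 0 ≤ p.z ∧ p.z ≤ (Kc + 1) * Real.log X ∧
        (nm p.d : ℝ) ≤ X ^ B := by
      intro p hp
      obtain ⟨b1, b2, b3, b4⟩ := hu p hp
      exact ⟨b1, b2, b3.trans hKL, b4⟩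
    cases jj with
    | true =>
      have key := HT X hXX₃ u₁ u₂ u₃ ps H hu' hN (fun p hp => by
          obtain ⟨b1, b2, b3, b4⟩ := hps p hp
          refine ⟨b2, b3.trans ?_⟩
          exact mul_le_mul_of_nonneg_right (by linarith) hL.le) hH hht d e pd pe hdB ne
        (P1 d e) (hP10 d e) (hPb d e hde) A ((le_max_right _ _).trans hA) γ φ hγ hφ hφm P hPp
      rw [← hn] at key
      beta_reduce
      rw [if_pos rfl]
      exact key.trans (W2_mono_a (le_max_right _ _) (hP10 d e) (hWt0 d e))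
    | false =>
      have key := HR X hXX₁ u₁ u₂ u₃ ps H hu' hN hps
        (hsum.trans hKL) hH hht d e pd pe hdB ne
        (P1 d e) (G d e) (hP10 d e) (hPb d e hde) (hG0 d e) ?_ A ((le_max_left _ _).trans hA) γ φ
        hγ hφ hφm P hPp
      · rw [← hn] at key
        beta_reduce
        rw [if_neg (show ¬ (false = true) by simp)]
        exact key.trans (W2_mono_a (le_max_left _ _) (hP10 d e) (hWf0 d e))
      · -- the real line
        intro i y₁ y₂ y₃ x hi0 hi hy10 hy1 hy20 hy2 hy30 hy3 hx0 hx hsum'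
        rw [hlP1, add_div] at hi ⊢
        rw [hlog] at hsum'
        have hcL : Real.log c / L ≤ ε / 4 := by rw [div_le_iff₀ hL]; exact hlc
        have hcL0 : 0 ≤ Real.log c / L := by positivity
        rw [hG]
        dsimp only
        split_ifs with h1
        · obtain ⟨-, -, h2⟩ := hline d e hde h1.1
          have h3 := h2 i y₁ y₂ y₃ x hi0 (by linarith) hy10 (by linarith) hy20
            (by linarith) hy30 (by linarith) hx0 (by linarith) (by
              rw [sub_sub, hn]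
              linarith)
          change _ + NN d e ≤ _ at h3
          linarith
        · obtain ⟨hI, hQ0, hQ1⟩ := hQ d e hde
          have hIL : (n + Real.log V + Real.log (Hf d e) - Real.log K) / L ≤ Kc := by
            rw [div_le_iff₀ hL]
            have h2 := Real.log_le_log (by have := hHf d e; positivity) hI
            rw [log_I hK hV (hHf d e), Real.log_rpow hX0] at h2
            exact h2
          have hz : ∀ p ∈ [u₁, u₂, u₃], p.z / L ≤ Kc := by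
            intro p hp
            rw [div_le_iff₀ hL]
            exact (hu p hp).2.2.1
          have hz1 := hz u₁ (by simp)
          have hz2 := hz u₂ (by simp)
          have hz3 := hz u₃ (by simp)
          have hz4 : (ps.map Pq.z).sum / L ≤ Kc := by rw [div_le_iff₀ hL]; exact hsum
          have h3 := hEb i y₁ y₂ y₃ x hi0 (by linarith) hy10 (by linarith) hy20 (by linarith) hy30
            (by linarith) hx0 (by linarith)
          linarith
  · -- the number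
    intro d e hde
    obtain ⟨pd, pe, hdB, ne⟩ := hPr d e hde
    have nd0 : (0 : ℝ) < nm d := by exact_mod_cast nm_pos.2 pd.ne_zero
    have ne0 : (0 : ℝ) < nm e := by exact_mod_cast nm_pos.2 pe.ne_zero
    have hHf0 := hHf d e
    obtain ⟨hI, hQ0, hQ1⟩ := hQ d e hde
    have hRHS : 0 ≤ H ^ (Mf + Mt) * X ^ (T d e + ε) / (nm d * nm e) := by positivity
    by_cases h1 : 1 ≤ Ld K V (Hf d e) d
    swap
    · rw [if_neg h1, if_neg h1, zero_mul, zero_mul, add_zero, mul_zero, mul_zero]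
      exact hRHS
    rw [if_pos h1, if_pos h1]
    obtain ⟨hNxT, hNT, -⟩ := hline d e hde h1
    have hGe : G d e = T d e - NN d e + ε / 4 := by
      rw [hG]
      dsimp only
      rw [if_pos ⟨h1, hNT⟩]
    have hW : ∀ W : ℝ, W2 (max af at') (P1 d e) W (c * (Real.exp n * V * Hf d e / K)) = W :=
      fun W => W2_at _ (hP10 d e) _
    beta_reduce
    rw [hW, hW, if_neg (show ¬ (false = true) by simp), if_pos rfl, mul_add, mul_add]
    have k1 := numF (e := e) hgg (T := T d e) (ε₁ := ε / 2) (ε₂ := ε / 4) hX1 hK hV hHf0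
      pd.ne_zero pe.ne_zero h3c (show 0 ≤ H ^ Mf by positivity) hQ0 hQ1 (W := Wf d e) (by
        rw [hWf]
        dsimp only
        rw [hGe]
        refine le_of_eq ?_
        congr 3
        show T d e - NN d e + ε / 4 + ε / 4 = T d e - NN d e + ε / 2
        ring)
    have hm1 : min 1 ((nm d : ℝ) * nm e * Real.exp (-(0 : ℝ))) = 1 := by
      refine min_eq_left ?_
      rw [neg_zero, Real.exp_zero, mul_one]
      exact one_le_mul_of_one_le_of_one_le (by exact_mod_cast nm_pos.2 pd.ne_zero)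
        (by exact_mod_cast nm_pos.2 pe.ne_zero)
    have k2 := numT (n := n) (e := e) (T := T d e) (ε₁ := ε / 4) (ε₂ := ε / 4) (s₀ := 0) hX1 hK hV hHf0
      pd.ne_zero pe.ne_zero hc2X hc (show 0 ≤ H ^ Mt by positivity)
      (by rw [zero_div]; exact hNxT) (W := Wt d e) (by rw [hm1, mul_one])
    have hM1 : H ^ Mf ≤ H ^ (Mf + Mt) := pow_le_pow_right₀ hH (by omega)
    have hM2 : H ^ Mt ≤ H ^ (Mf + Mt) := pow_le_pow_right₀ hH (by omega)
    have hx1 : X ^ (T d e + ε / 2 + ε / 4) = X ^ (T d e + 3 / 4 * ε) := by congr 1; ring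
    have hx2 : X ^ (T d e + ε / 4 + ε / 4) ≤ X ^ (T d e + 3 / 4 * ε) :=
      Real.rpow_le_rpow_of_exponent_le hX1.le (by linarith)
    have hx3 : X ^ (T d e + ε) = X ^ (ε / 4) * X ^ (T d e + 3 / 4 * ε) := by
      rw [← Real.rpow_add hX0]; congr 1; ring
    have hxp : 0 < X ^ (T d e + 3 / 4 * ε) := by positivity
    calc _ ≤ H ^ Mf * X ^ (T d e + ε / 2 + ε / 4) / (nm d * nm e) +
          H ^ Mt * X ^ (T d e + ε / 4 + ε / 4) / (nm d * nm e) := add_le_add k1 k2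
      _ ≤ H ^ (Mf + Mt) * X ^ (T d e + 3 / 4 * ε) / (nm d * nm e) +
          H ^ (Mf + Mt) * X ^ (T d e + 3 / 4 * ε) / (nm d * nm e) := by
          rw [hx1]
          gcongr
      _ = 2 * (H ^ (Mf + Mt) * X ^ (T d e + 3 / 4 * ε)) / (nm d * nm e) := by ring
      _ ≤ X ^ (ε / 4) * (H ^ (Mf + Mt) * X ^ (T d e + 3 / 4 * ε)) / (nm d * nm e) := by gcongr
      _ = _ := by rw [hx3]; ring

end

end Crest.Agent.R017.RnS629
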