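import Crest.Agent.R017.RHX_116

/-!
# Row 17, class E of `P1` (helper571): (RH) without windows

* `RHn_one` : one flagged list, frequencies with `Q`, frequency factor `f`
* `RHn_pr`  : the difference `xs`, cubes, frequency factor `f`
-/

set_option autoImplicit false
set_option maxHeartbeats 400000

noncomputable section

open Complex MeasureTheory
open scoped ComplexConjugate

namespace Crest.Agent.R017.RnX571

open Crest.Agent.R012 Crest.Agent.R012.Eis Crest.Agent.R012.MC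
open Crest.Agent.R012.LS2 (S mem_S bl mem_bl)
open Crest.Agent.R012.Weight600 (pw norm_pw pw_add_left)
open Crest.Agent.R012.T411 (NCube)
open Crest.Agent.R017.CM106 (CS TG FS)
open Crest.Agent.R017.FE47
open Crest.Agent.R017.B770
open Crest.Agent.R017.Prov71
open Crest.Agent.R017.End699 (HC NP)
open Crest.Agent.R017.Sup271 (NPm)
open Crest.Agent.R017.HP842 (sqc)
open Crest.Agent.R017.TP320 (tw)
open Crest.Agent.R017.XHB411 (tl)
open Crest.Agent.R017.XRG106 (Rl)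
open Crest.Agent.R017.NtC320 (gC gC_ne gC_fin cg cB cg_prim cB_prim gp_cg gp_cB cB_dvd cg_dvd cop
  Lin_gC)
open Crest.Agent.R017.StA828 (gp)
open Crest.Agent.R017.E1551 (jb jb_pos)
open Crest.Agent.R017.PX764 (n6)
open Crest.Agent.R017.E3D579 (n6_nonneg)
open Crest.Agent.R017.Leg381 (Pf alF LF alF_get LF_get)
open Crest.Agent.R017.Mode405 (Slp)
open Crest.Agent.R017.Mono858 (RQq)
open Crest.Agent.R017.OKi848 (OKi)
open Crest.Agent.R017.RG64 (Ht)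
open Crest.Agent.R017.RX298 (xs rp zt norm_zt LF_rp rp_length FS_xs)
open Crest.Agent.R017.ExD791 (Tw Mg Mg_sq gC_xs)
open Crest.Agent.R017.R3571
open Crest.Agent.R017.RHX116

open Classical in
/-- **(RH) at the frequencies with `Q`**, one flagged list -/
theorem RHn_one {h : ℝ → ℝ} {c : ℝ} (hpu : PU h c) {μ : ℝ} (hμ : 0 ≤ μ) (n : ℕ) {δ m : ℝ}
    (hδ : 0 < δ) :
    ∃ a : ℕ, 1 ≤ a ∧ ∀ ε : ℝ, 0 < ε →
    ∃ C : ℝ, 1 ≤ C ∧ ∀ (P : DPar), P.OK → ∀ (Q : Eis → Prop) (ps : List Pf),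
      ps.length ≤ n → (∀ p ∈ ps, 0 ≤ p.1.z) →
      ∀ (z D0 : ℝ), 1 ≤ D0 →
      ∀ q d e f : Eis, q ≠ 0 → IsPrim d → IsPrim e → f ≠ 0 →
      ∀ X0 : ℝ, 1 ≤ X0 → D0 ≤ X0 → (nm q : ℝ) ≤ X0 → (nm d : ℝ) ≤ X0 → (nm e : ℝ) ≤ X0 →
      (∀ p ∈ ps, Real.exp p.1.z ≤ X0) →
      ∀ (J : ℕ), 2 * (n * μ) ≤ J → ∀ (A : ℝ), (J : ℝ) + 2 ≤ A →
      ∀ P1 B : ℝ, 0 < P1 → P1 ≤ X0 ^ m → 1 ≤ B →
      (∀ Λ : ℝ, 1 ≤ Λ → Λ ≤ P1 * X0 ^ δ →
        ∀ (ps' : List Pq) (W : ℝ), 1 ≤ W → List.Forall₂ (Rl C W) ps' (ps.map Prod.fst) →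
        tl Dq ps' ≤ LF ps - Real.log (nm d * nm e) + C →
        RQq Q P h (Real.log (Λ * nm f)) ps' ≤
          (Λ / (P1 * X0 ^ δ)) ^ (1 / 3 : ℝ) * B * Real.exp (tl Dq ps') * W ^ (2 * μ)) →
      ∀ γ π : Eis, IsPrim γ → IsPrim π → (nm π : ℝ) ≤ X0 → ∀ Λ : ℝ, 0 < Λ →
      (nm γ : ℝ) * n6 γ ^ 2 *
        ∑ k ∈ (bl Λ).filter (fun k => Q (k * f)), RMm A
          (fun m => sqc q (alF z D0 P h ps) (d * m)) e γ π (k * f) ≤
        W2 a P1 ((C * (D0 ^ n) ^ (3 : ℝ) * X0 ^ ε * B) *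
          (Real.exp (LF ps) / nm d) ^ (2 / 3 : ℝ)) Λ := by
  obtain ⟨R, hR0, hR⟩ := exists_R (cs_cx hpu.cs)
  obtain ⟨C1, hC1, hsum⟩ := AL813.sum_alF_le hpu n
  have hn0 : (0 : ℝ) ≤ n := Nat.cast_nonneg n
  obtain ⟨a0, ha0⟩ := exists_nat_ge ((5 * n + m + 1) / δ)
  refine ⟨a0 + 1, by omega, fun ε hε => ?_⟩
  set ε' : ℝ := ε / (n + 1) with hε'
  have hε'0 : 0 < ε' := by positivity
  obtain ⟨C2, hC2, H⟩ := listQ1 hpu hμ (s0 := 1 / 6) (by norm_num) (by norm_num) n hε'0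
  have hjc := jc_nonneg
  have hER : 1 ≤ Real.exp (n * R) := Real.one_le_exp (by positivity)
  set K1 : ℝ := C2 * Real.exp (n * R) ^ ε' * jc with hK1
  set K2 : ℝ := 16 * (C1 ^ 2 * Real.exp (n * R) ^ 5) * jc with hK2
  have hK10 : 0 ≤ K1 := by positivity
  have hK20 : 0 ≤ K2 := by positivity
  set C : ℝ := C2 + K1 + K2 with hC
  have hCC : C2 ≤ C := by rw [hC]; linarith
  have hC1' : K1 ≤ C := by rw [hC]; linarith
  have hC2' : K2 ≤ C := by rw [hC]; linarith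
  have hC10 : 1 ≤ C := hC2.trans hCC
  refine ⟨C, hC10, ?_⟩
  intro P hP Q ps hlen hz z D0 hD0 q d e f hq hd he hf X0 hX0 hDX hqX hdX heX hsX J hJ A hA
    P1 B hP1 hP1X hB hyp γ π hγ hπ hπX Λ hΛ
  have hX00 : 0 < X0 := by linarith
  have hd0 := nm_cast_pos hd.ne_zero
  have hf0 := nm_cast_pos hf
  have hD00 : 0 < D0 := by linarith
  have hB0 : 0 ≤ B := by linarith
  set x : Eis → ℂ := sqc q (alF z D0 P h ps) with hx
  have hFx : FS x := HP842.FS.sqc (RG64.FS_alF ⟨R, hR⟩ hP z D0 ps) q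
  have hLF := exp_LF_le hX0 hlen hsX
  have hLF0 := LF_nonneg' hz
  set E : ℝ := Real.exp (LF ps) with hE
  have hE0 : 0 < E := Real.exp_pos _
  have hE1 : 1 ≤ E := Real.one_le_exp hLF0
  set Y : ℝ := X0 ^ n * Real.exp (n * R) with hY
  have hY1 : 1 ≤ Y := one_le_mul_of_one_le_of_one_le (one_le_pow₀ hX0) hER
  have hlR : (ps.length : ℝ) * R ≤ n * R :=
    mul_le_mul_of_nonneg_right (by exact_mod_cast hlen) hR0
  have hYl : Real.exp (LF ps + ps.length * R) ≤ Y := by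
    rw [Real.exp_add, hY]
    gcongr
  have hYS : ∀ m, x m ≠ 0 → m ∈ S Y := fun m hm => AL813.al_mem_S hR z D0 P q ps hYl hm
  have hG : ∑ m ∈ S Y, ‖x m‖ ≤ C1 * Y ^ 2 := hsum z D0 P hP q ps hlen Y hY1
  have hXδ : 1 ≤ X0 ^ δ := Real.one_le_rpow hX0 hδ.le
  set P2 : ℝ := P1 * X0 ^ δ with hP2
  have hP20 : 0 < P2 := by positivity
  set X0' : ℝ := X0 ^ ((n : ℝ) + 1) * Real.exp (n * R) with hX0'
  have hXn : X0 ^ ((n : ℝ) + 1) = X0 ^ n * X0 := by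
    rw [Real.rpow_add_one hX00.ne', Real.rpow_natCast]
  have hX1n : 1 ≤ X0 ^ n := one_le_pow₀ hX0
  have hXX : X0 ≤ X0' := by
    rw [hX0', hXn]
    calc X0 = 1 * X0 * 1 := by ring
      _ ≤ X0 ^ n * X0 * Real.exp (n * R) := by gcongr
  have hXe : X0' ^ ε' = X0 ^ ε * Real.exp (n * R) ^ ε' := by
    rw [hX0', Real.mul_rpow (by positivity) (by positivity), ← Real.rpow_mul hX00.le]
    congr 2
    rw [hε']; field_simp
  have hD3 : (D0 ^ n) ^ (2 + 2 * (1 / 6 : ℝ)) ≤ (D0 ^ n) ^ (3 : ℝ) :=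
    Real.rpow_le_rpow_of_exponent_le (one_le_pow₀ hD0) (by norm_num)
  set V : ℝ := (C * (D0 ^ n) ^ (3 : ℝ) * X0 ^ ε * B) * (E / nm d) ^ (2 / 3 : ℝ) with hV
  have hV0 : 0 ≤ V := by positivity
  refine RM_all (A := A) (by have : (0 : ℝ) ≤ J := Nat.cast_nonneg J
                             linarith) hFx (f := f) hd (Y := Y) (Xπ := X0)
    (by linarith) hYS hG (P1 := P1) (P2 := P2) (V := V) (a := a0 + 1) (by omega) hP1
    (le_mul_of_one_le_right hP1.le hXδ) hV0 _ ?_ ?_ hγ hπ hπX hΛ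
  · -- the levels up to `P2`
    clear γ π hγ hπ hπX Λ hΛ
    intro γ π hγ hπ hγY hπX Λ hΛ1 hΛ2
    have hΛ0 : 0 < Λ := by linarith
    have hγ0 := nm_cast_pos hγ.ne_zero
    have hcBp : IsPrim (cB γ e) := cB_prim he
    have hcB1 := one_le_nm hcBp.ne_zero
    have hcB0 := nm_cast_pos hcBp.ne_zero
    have hcB := le_nm_cB hγ he
    have hdγ : IsPrim (d * γ) := hd.mul hγ
    have hnd : (nm (d * γ) : ℝ) = nm d * nm γ := by rw [nm_mul]; push_cast; rfl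
    have hdγX : (nm (d * γ) : ℝ) ≤ X0' := by
      rw [hnd, hX0', hXn]
      calc (nm d : ℝ) * nm γ ≤ X0 * (X0 ^ n * Real.exp (n * R)) := by gcongr
        _ = _ := by ring
    set BL : ℝ := (Λ / P2) ^ (1 / 3 : ℝ) * B with hBL
    have hBL0 : 0 ≤ BL := by positivity
    set U : ℝ := (E / (nm d * nm γ)) ^ (-(2 * (1 / 6 : ℝ))) *
      (E / (nm d * nm γ * nm (cB γ e))) with hU
    have hU0 : 0 ≤ U := by positivity
    set M : ℝ := C2 * (D0 ^ n) ^ (2 + 2 * (1 / 6 : ℝ)) * X0' ^ ε' * BL * U with hM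
    have hM0 : 0 ≤ M := by positivity
    have hmx : ∀ u : ℝ, ∑ k ∈ (bl Λ).filter (fun k => Q (k * f)),
        ‖CS (gC x (d * γ) (cB γ e) π (tw (1 / 6) u)) (k * f)‖ ^ 2 ≤ M * (1 + |u|) ^ J := by
      intro u
      have h1 := H P hP Q ps hlen hz z D0 hD0 q (d * γ) (cB γ e) π f hq hdγ hcBp hπ.ne_zero
        hf X0' Λ u BL (hX0.trans hXX) (hDX.trans hXX) (hqX.trans hXX) hdγX
        ((nm_cB_le' he).trans (heX.trans hXX)) (hπX.trans hXX) (fun p hp => (hsX p hp).trans hXX)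
        hΛ0 hBL0 (fun ps' W hW hR' hlt => by
          refine (hyp Λ hΛ1 hΛ2 ps' W hW (hR'.imp fun _ _ hx => hx.mono hCC) ?_).trans
            (le_of_eq (by rw [hBL]))
          have h5 : Real.log (nm d * nm e) ≤ Real.log (nm (d * γ) * nm (cB γ e)) := by
            have he0 := nm_cast_pos he.ne_zero
            refine Real.log_le_log (by positivity) ?_
            rw [hnd, mul_assoc]
            exact mul_le_mul_of_nonneg_left hcB hd0.le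
          linarith)
      rw [hnd] at h1
      refine h1.trans ?_
      have ht1 : (1 : ℝ) ≤ 1 + |u| := by linarith [abs_nonneg u]
      have h2 : (1 + |u|) ^ (2 * ((n : ℝ) * μ)) ≤ (1 + |u|) ^ J := by
        rw [← Real.rpow_natCast]
        exact Real.rpow_le_rpow_of_exponent_le ht1 hJ
      calc _ ≤ C2 * (D0 ^ n) ^ (2 + 2 * (1 / 6 : ℝ)) * X0' ^ ε' * (1 + |u|) ^ J * BL *
            ((E / (nm d * nm γ)) ^ (-(2 * (1 / 6 : ℝ))) *
              (E / (nm d * nm γ * nm (cB γ e)))) := by gcongr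
        _ = _ := by rw [hM, hU]; ring
    have hRM := RM_sum hA hFx hd hγ he π
      ((bl Λ).filter (fun k => Q (k * f))) (fun k => k * f) hmx
    have hw := wt_le (E := E) hE0 hd0 hγ0 hcB1
      (show n6 γ = (nm γ : ℝ) ^ (-(1 / 6 : ℝ)) by unfold PX764.n6; congr 1; norm_num)
    have hn6 := n6_nonneg γ
    calc (nm γ : ℝ) * n6 γ ^ 2 * ∑ k ∈ (bl Λ).filter (fun k => Q (k * f)),
          RMm A (fun m => x (d * m)) e γ π (k * f)
        ≤ (nm γ : ℝ) * n6 γ ^ 2 * (M * jc) :=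
          mul_le_mul_of_nonneg_left hRM (by positivity)
      _ = C2 * jc * (D0 ^ n) ^ (2 + 2 * (1 / 6 : ℝ)) * X0' ^ ε' * BL *
          ((nm γ : ℝ) * n6 γ ^ 2 * U) := by
          rw [hM]; ring
      _ ≤ C2 * jc * (D0 ^ n) ^ (3 : ℝ) * X0' ^ ε' * BL * (E / nm d) ^ (2 / 3 : ℝ) := by gcongr
      _ = (Λ / P2) ^ (1 / 3 : ℝ) * ((K1 * (D0 ^ n) ^ (3 : ℝ) * X0 ^ ε * B) *
          (E / nm d) ^ (2 / 3 : ℝ)) := by
          rw [hXe, hK1, hBL]; ring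
      _ ≤ (Λ / P2) ^ (1 / 3 : ℝ) * V := by
          rw [hV]
          gcongr
  · -- the trivial condition
    have e1 : P2 / P1 = X0 ^ δ := by rw [hP2]; field_simp
    rw [e1, Nat.add_sub_cancel]
    have h1 : X0 ^ (5 * (n : ℝ) + m + 1) ≤ (X0 ^ δ) ^ a0 := by
      rw [← Real.rpow_natCast, ← Real.rpow_mul hX00.le]
      refine Real.rpow_le_rpow_of_exponent_le hX0 ?_
      rw [div_le_iff₀ hδ] at ha0
      linarith
    have h2 : X0 ^ (-(1 : ℝ)) ≤ (E / nm d) ^ (2 / 3 : ℝ) := by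
      calc X0 ^ (-(1 : ℝ)) ≤ X0 ^ (-(2 / 3 : ℝ)) :=
            Real.rpow_le_rpow_of_exponent_le hX0 (by norm_num)
        _ = (1 / X0) ^ (2 / 3 : ℝ) := by
            rw [one_div, Real.inv_rpow hX00.le, Real.rpow_neg hX00.le]
        _ ≤ _ := by
            refine Real.rpow_le_rpow (by positivity) ?_ (by norm_num)
            gcongr
    have h4 : C ≤ (C * (D0 ^ n) ^ (3 : ℝ) * X0 ^ ε * B) := by
      have g1 : 1 ≤ (D0 ^ n) ^ (3 : ℝ) := Real.one_le_rpow (one_le_pow₀ hD0) (by norm_num)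
      have g2 : 1 ≤ X0 ^ ε := Real.one_le_rpow hX0 hε.le
      calc C = C * 1 * 1 * 1 := by ring
        _ ≤ _ := by gcongr
    have h3 : C * X0 ^ (5 * (n : ℝ) + m) ≤ (X0 ^ δ) ^ a0 * V := by
      have e2 : X0 ^ (5 * (n : ℝ) + m) = X0 ^ (5 * (n : ℝ) + m + 1) * X0 ^ (-(1 : ℝ)) := by
        rw [← Real.rpow_add hX00]; congr 1; ring
      calc C * X0 ^ (5 * (n : ℝ) + m) =
            X0 ^ (5 * (n : ℝ) + m + 1) * (C * X0 ^ (-(1 : ℝ))) := by rw [e2]; ring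
        _ ≤ (X0 ^ δ) ^ a0 * V := by
            rw [hV]
            gcongr
    refine le_trans ?_ h3
    have e3 : X0 ^ (5 * (n : ℝ) + m) = (X0 ^ n) ^ 5 * X0 ^ m := by
      rw [Real.rpow_add hX00, ← pow_mul, ← Real.rpow_natCast]
      congr 2
      push_cast; ring
    calc 16 * (Y * (C1 * Y ^ 2) ^ 2) * P1 * jc
        = K2 * (X0 ^ n) ^ 5 * P1 := by
          rw [hK2, hY]; ring
      _ ≤ C * (X0 ^ n) ^ 5 * X0 ^ m := by gcongr
      _ = _ := by rw [e3]; ring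

set_option maxHeartbeats 1600000 in
open Classical in
/-- **(RH) at the principal frequencies** for `xs` -/
theorem RHn_pr {h : ℝ → ℝ} {c : ℝ} (hpu : PU h c) (n : ℕ) {δ m B₀ : ℝ} (hδ : 0 < δ) (hm : 0 ≤ m)
    (hB₀ : 0 ≤ B₀) :
    ∃ a : ℕ, 1 ≤ a ∧ ∀ ε : ℝ, 0 < ε →
    ∃ C : ℝ, 1 ≤ C ∧ ∀ (P : DPar), P.OK → ¬ NPm P.n P.ψ P.l₂ 1 →
      ∀ (ps : List Pf) (d₀ s₀ : ℝ), ps.length ≤ n → (∀ p ∈ ps, 0 ≤ p.1.z) →
      ∀ (z D0 : ℝ), 1 ≤ D0 →
      ∀ q d e f : Eis, q ≠ 0 → IsPrim d → IsPrim e → f ≠ 0 →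
      ∀ X0 : ℝ, 3 ≤ X0 → (nm P.n : ℝ) ≤ X0 ^ B₀ → Tw d₀ s₀ (X0 ^ B₀) ps → (nm q : ℝ) ≤ X0 →
      (nm d : ℝ) ≤ X0 → (nm e : ℝ) ≤ X0 → (nm f : ℝ) ≤ X0 → (∀ p ∈ ps, Real.exp p.1.z ≤ X0) →
      ∀ (A : ℝ), 14 ≤ A →
      ∀ P1 : ℝ, 0 < P1 → P1 ≤ X0 ^ m →
      ∀ γ π : Eis, IsPrim γ → IsPrim π → (nm π : ℝ) ≤ X0 → ∀ Λ : ℝ, 0 < Λ →
      (nm γ : ℝ) * n6 γ ^ 2 *
        ∑ k ∈ (bl Λ).filter (fun k => ¬ NCube (k * f)), RMm A
          (fun m => xs q z D0 P h d₀ ps (d * m)) e γ π (k * f) ≤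
        W2 a P1 ((C * D0 ^ 4 * Ht ps ^ 6 * X0 ^ ε) *
          ((P1 * X0 ^ δ * nm f) ^ (1 / 3 : ℝ) * ((Real.exp (LF ps) / nm d) ^ (5 / 3 : ℝ) *
            (nm e : ℝ)⁻¹ * min 1 ((nm d : ℝ) * nm e * Real.exp (-s₀))))) Λ := by
  obtain ⟨R, C1, hR0, hC1, hsize⟩ := xs_size hpu n
  have hn0 : (0 : ℝ) ≤ n := Nat.cast_nonneg n
  obtain ⟨a0, ha0⟩ := exists_nat_ge ((5 * n + m + 4) / δ)
  refine ⟨a0 + 1, by omega, fun ε hε => ?_⟩
  have hnR : 0 ≤ n * R := by positivity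
  set B : ℝ := B₀ + n + m + δ + n * R + 6 with hBd
  have hB0 : 0 ≤ B := by rw [hBd]; positivity
  obtain ⟨C2, hC2, H⟩ := momx_pr hpu n hB0 hε
  have hjc := jc_nonneg
  have hER : 1 ≤ Real.exp (n * R) := Real.one_le_exp (by positivity)
  set K1 : ℝ := 16 * C2 * jc with hK1
  set K2 : ℝ := 16 * ((2 * C1) ^ 2 * Real.exp (n * R) ^ 5) * jc with hK2
  have hK10 : 0 ≤ K1 := by positivity
  have hK20 : 0 ≤ K2 := by positivity
  set C : ℝ := 1 + K1 + K2 with hC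
  have hC1' : K1 ≤ C := by rw [hC]; linarith
  have hC2' : K2 ≤ C := by rw [hC]; linarith
  have hC10 : 1 ≤ C := by rw [hC]; linarith
  refine ⟨C, hC10, ?_⟩
  intro P hP hnp ps d₀ s₀ hlen hz z D0 hD0 q d e f hq hd he hf X0 hX3 hPn hT hqX hdX heX hfX hsX
    A hA P1 hP1 hP1X γ π hγ hπ hπX Λ hΛ
  have hX0 : 1 ≤ X0 := by linarith
  have hX00 : 0 < X0 := by linarith
  have hlX : 0 ≤ Real.log X0 := Real.log_nonneg hX0
  have hd0 := nm_cast_pos hd.ne_zero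
  have he0 := nm_cast_pos he.ne_zero
  have he1 := one_le_nm he.ne_zero
  have hd1 := one_le_nm hd.ne_zero
  have hf0 := nm_cast_pos hf
  have hf1 := one_le_nm hf
  have hD00 : 0 < D0 := by linarith
  have hHt1 := RG64.one_le_Ht ps
  set x : Eis → ℂ := xs q z D0 P h d₀ ps with hx
  have hFx : FS x := by
    obtain ⟨R', hR0', hR'⟩ := exists_R (cs_cx hpu.cs)
    exact FS_xs ⟨R', hR'⟩ hP q z D0 d₀ ps
  have hLF := exp_LF_le hX0 hlen hsX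
  have hLF0 := LF_nonneg' hz
  set E : ℝ := Real.exp (LF ps) with hE
  have hE0 : 0 < E := Real.exp_pos _
  have hE1 : 1 ≤ E := Real.one_le_exp hLF0
  set Y : ℝ := X0 ^ n * Real.exp (n * R) with hY
  have hY1 : 1 ≤ Y := one_le_mul_of_one_le_of_one_le (one_le_pow₀ hX0) hER
  obtain ⟨hxS, hxG⟩ := hsize P hP ps hlen q z D0 d₀ Y hY1 (by rw [hY]; gcongr)
  have hXδ : 1 ≤ X0 ^ δ := Real.one_le_rpow hX0 hδ.le
  set P2 : ℝ := P1 * X0 ^ δ with hP2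
  have hP20 : 0 < P2 := by positivity
  set s : ℝ := Real.exp (-s₀) with hs
  have hs0 : 0 < s := Real.exp_pos _
  set mn : ℝ := min 1 ((nm d : ℝ) * nm e * s) with hmn
  have hmn0 : 0 < mn := lt_min zero_lt_one (by positivity)
  set V : ℝ := (C * D0 ^ 4 * Ht ps ^ 6 * X0 ^ ε) *
          ((P2 * nm f) ^ (1 / 3 : ℝ) * ((E / nm d) ^ (5 / 3 : ℝ) *
            (nm e : ℝ)⁻¹ * mn)) with hV
  have hV0 : 0 ≤ V := by positivity
  -- norms below `X0 ^ B`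
  have hX1B : X0 ≤ X0 ^ B := by
    conv_lhs => rw [← Real.rpow_one X0]
    refine Real.rpow_le_rpow_of_exponent_le hX0 ?_
    rw [hBd]; linarith
  have hB₀B : X0 ^ B₀ ≤ X0 ^ B := Real.rpow_le_rpow_of_exponent_le hX0 (by rw [hBd]; linarith)
  have hTB : Tw d₀ s₀ (X0 ^ B) ps := by
    match ps, hT with
    | p1 :: p2 :: l, hT =>
      obtain ⟨a1, a2, ⟨a3, a4⟩, a5, a6⟩ := hT
      exact ⟨a1, a2, ⟨a3.trans hB₀B, a4.trans hB₀B⟩, a5, a6⟩
  have hLB : LF ps ≤ B * Real.log X0 := by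
    have h1 : LF ps ≤ n * Real.log X0 := by
      have h2 := Real.log_le_log hE0 hLF
      rwa [hE, Real.log_exp, Real.log_pow] at h2
    refine h1.trans (mul_le_mul_of_nonneg_right ?_ hlX)
    rw [hBd]; linarith
  refine RM_all (A := A) (by linarith) hFx (f := f) hd (Y := Y) (Xπ := X0)
    (by linarith) hxS hxG (P1 := P1) (P2 := P2) (V := V) (a := a0 + 1) (by omega) hP1
    (le_mul_of_one_le_right hP1.le hXδ) hV0 _ ?_ ?_ hγ hπ hπX hΛ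
  · -- the levels up to `P2`
    clear γ π hγ hπ hπX Λ hΛ
    intro γ π hγ hπ hγY hπX Λ hΛ1 hΛ2
    have hΛ0 : 0 < Λ := by linarith
    have hγ0 := nm_cast_pos hγ.ne_zero
    have hcBp : IsPrim (cB γ e) := cB_prim he
    have hcB1 := one_le_nm hcBp.ne_zero
    have hcB0 := nm_cast_pos hcBp.ne_zero
    have hcB := le_nm_cB hγ he
    have hdγ : IsPrim (d * γ) := hd.mul hγ
    have hnd : (nm (d * γ) : ℝ) = nm d * nm γ := by rw [nm_mul]; push_cast; rfl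
    have hnde : (nm (d * γ * cB γ e) : ℝ) = nm d * nm γ * nm (cB γ e) := by
      rw [nm_mul, nm_mul]; push_cast; rfl
    have hdγX : (nm (d * γ) : ℝ) ≤ X0 ^ B := by
      rw [hnd]
      calc (nm d : ℝ) * nm γ ≤ X0 * (X0 ^ n * Real.exp (n * R)) := by gcongr
        _ ≤ X0 * (X0 ^ n * X0 ^ (n * R)) := by gcongr; exact RHX116.exp_le_rpow hX3 hnR
        _ = X0 ^ (1 + n + n * R) := by
            rw [Real.rpow_add hX00, Real.rpow_add hX00, Real.rpow_one, Real.rpow_natCast]; ring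
        _ ≤ _ := Real.rpow_le_rpow_of_exponent_le hX0 (by rw [hBd]; linarith)
    have hΛX : Λ * nm f ≤ X0 ^ B := by
      calc Λ * nm f ≤ P2 * nm f := by gcongr
        _ ≤ (X0 ^ m * X0 ^ δ) * X0 := by rw [hP2]; gcongr
        _ = X0 ^ (m + δ + 1) := by
            rw [← Real.rpow_add hX00, ← Real.rpow_add_one hX00.ne']
        _ ≤ _ := Real.rpow_le_rpow_of_exponent_le hX0 (by rw [hBd]; linarith)
    set U : ℝ := (E / (nm d * nm γ * nm (cB γ e))) ^ (5 / 3 : ℝ) *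
      (nm (cB γ e) : ℝ) ^ (-(1 / 3 : ℝ)) * min 1 (nm d * nm γ * nm (cB γ e) * s) with hU
    have hU0 : 0 ≤ U := by
      have : 0 ≤ min 1 ((nm d : ℝ) * nm γ * nm (cB γ e) * s) := le_min zero_le_one (by positivity)
      positivity
    set M : ℝ := 16 * (Λ * nm f) ^ (1 / 3 : ℝ) * (C2 * X0 ^ ε * D0 ^ 4 * Ht ps ^ 6) * U
      with hM
    have hM0 : 0 ≤ M := by positivity
    have hmx : ∀ u : ℝ, ∑ k ∈ (bl Λ).filter (fun k => ¬ NCube (k * f)),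
        ‖CS (gC x (d * γ) (cB γ e) π (tw (1 / 6) u)) (k * f)‖ ^ 2 ≤ M * (1 + |u|) ^ 12 := by
      intro u
      have h1 := H X0 hX3 P (OKi848.OKi.of hP) hP.ψ (hPn.trans hB₀B) hnp z D0 hD0 ps d₀ s₀ hTB hlen
        hz hLB q (d * γ) (cB γ e) π f hq (hqX.trans hX1B) hdγ hdγX hcBp
        ((nm_cB_le' he).trans (heX.trans hX1B)) hπ.ne_zero (hπX.trans hX1B) hf Λ hΛ0 hΛX u
      refine h1.trans (le_of_eq ?_)
      rw [hnde, hM, hU]
    have hRM := RM_sum (A := A) (J := 12) (by norm_num; linarith) hFx hd hγ he π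
      ((bl Λ).filter (fun k => ¬ NCube (k * f))) (fun k => k * f) hmx
    have hw := wt_pr (E := E) (s := s) hE0 hd0 hγ0 hcB1 he0 hcB
      (show n6 γ = (nm γ : ℝ) ^ (-(1 / 6 : ℝ)) by unfold PX764.n6; congr 1; norm_num) hs0
    have hn6 := n6_nonneg γ
    have hL3 : (Λ * nm f) ^ (1 / 3 : ℝ) =
        (Λ / P2) ^ (1 / 3 : ℝ) * (P2 * nm f) ^ (1 / 3 : ℝ) := by
      rw [← Real.mul_rpow (by positivity) (by positivity)]
      congr 1
      field_simp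
    calc (nm γ : ℝ) * n6 γ ^ 2 * ∑ k ∈ (bl Λ).filter (fun k => ¬ NCube (k * f)),
          RMm A (fun m => x (d * m)) e γ π (k * f)
        ≤ (nm γ : ℝ) * n6 γ ^ 2 * (M * jc) :=
          mul_le_mul_of_nonneg_left hRM (by positivity)
      _ = K1 * ((Λ / P2) ^ (1 / 3 : ℝ) *
          (P2 * nm f) ^ (1 / 3 : ℝ)) * (X0 ^ ε * D0 ^ 4 * Ht ps ^ 6) *
          ((nm γ : ℝ) * n6 γ ^ 2 * U) := by
          rw [hM, hL3, hK1]; ring
      _ ≤ C * ((Λ / P2) ^ (1 / 3 : ℝ) *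
          (P2 * nm f) ^ (1 / 3 : ℝ)) * (X0 ^ ε * D0 ^ 4 * Ht ps ^ 6) *
          ((E / nm d) ^ (5 / 3 : ℝ) * (nm e : ℝ)⁻¹ * mn) := by gcongr
      _ = (Λ / P2) ^ (1 / 3 : ℝ) * V := by rw [hV]; ring
  · -- the trivial condition
    have e1 : P2 / P1 = X0 ^ δ := by rw [hP2]; field_simp
    rw [e1, Nat.add_sub_cancel]
    have h1 : X0 ^ (5 * (n : ℝ) + m + 4) ≤ (X0 ^ δ) ^ a0 := by
      rw [← Real.rpow_natCast, ← Real.rpow_mul hX00.le]
      refine Real.rpow_le_rpow_of_exponent_le hX0 ?_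
      rw [div_le_iff₀ hδ] at ha0
      linarith
    have hXinv : ∀ y : ℝ, 0 < y → y ≤ X0 → X0 ^ (-(1 : ℝ)) ≤ y⁻¹ := fun y hy hyX => by
      rw [Real.rpow_neg_one]; exact inv_anti₀ hy hyX
    have h2 : X0 ^ (-(2 : ℝ)) ≤ (E / nm d) ^ (5 / 3 : ℝ) := by
      calc X0 ^ (-(2 : ℝ)) ≤ X0 ^ (-(5 / 3 : ℝ)) :=
            Real.rpow_le_rpow_of_exponent_le hX0 (by norm_num)
        _ = (1 / X0) ^ (5 / 3 : ℝ) := by
            rw [one_div, Real.inv_rpow hX00.le, Real.rpow_neg hX00.le]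
        _ ≤ _ := by
            refine Real.rpow_le_rpow (by positivity) ?_ (by norm_num)
            gcongr
    have h3 : X0 ^ (-(1 : ℝ)) ≤ mn := by
      obtain ⟨p, hp, hps⟩ := Tw_s0 hT
      have h4 : X0 ^ (-(1 : ℝ)) ≤ s := by
        have h5 : Real.exp s₀ ≤ X0 := (Real.exp_le_exp.2 hps).trans (hsX p hp)
        have h6 := hXinv _ (Real.exp_pos s₀) h5
        rwa [← Real.exp_neg] at h6
      refine le_min ?_ ?_
      · refine Real.rpow_le_one_of_one_le_of_nonpos hX0 (by norm_num)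
      · refine h4.trans ?_
        calc s = 1 * 1 * s := by ring
          _ ≤ _ := by gcongr
    have h5 : P1 ≤ X0 ^ m * (P2 * nm f) ^ (1 / 3 : ℝ) := by
      have g1 : P1 ≤ P2 * nm f := by
        calc P1 = P1 * 1 * 1 := by ring
          _ ≤ P1 * X0 ^ δ * nm f := by gcongr
      have g2 : P1 ^ (2 / 3 : ℝ) ≤ X0 ^ m := by
        calc P1 ^ (2 / 3 : ℝ) ≤ (X0 ^ m) ^ (2 / 3 : ℝ) :=
              Real.rpow_le_rpow hP1.le hP1X (by norm_num)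
          _ = X0 ^ (m * (2 / 3)) := by rw [← Real.rpow_mul hX00.le]
          _ ≤ X0 ^ m := Real.rpow_le_rpow_of_exponent_le hX0 (by linarith)
      calc P1 = P1 ^ (2 / 3 : ℝ) * P1 ^ (1 / 3 : ℝ) := by
            rw [← Real.rpow_add hP1]; norm_num
        _ ≤ X0 ^ m * (P2 * nm f) ^ (1 / 3 : ℝ) := by
            gcongr
    have h4 : C ≤ C * D0 ^ 4 * Ht ps ^ 6 * X0 ^ ε := by
      have g1 : 1 ≤ D0 ^ 4 := one_le_pow₀ hD0
      have g2 : 1 ≤ X0 ^ ε := Real.one_le_rpow hX0 hε.le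
      have g5 : 1 ≤ Ht ps ^ 6 := one_le_pow₀ hHt1
      calc C = C * 1 * 1 * 1 := by ring
        _ ≤ _ := by gcongr
    have e3 : X0 ^ (5 * (n : ℝ) + m + 4) * (X0 ^ (-(2 : ℝ)) * X0 ^ (-(1 : ℝ)) * X0 ^ (-(1 : ℝ))) =
        (X0 ^ n) ^ 5 * X0 ^ m := by
      rw [← Real.rpow_add hX00, ← Real.rpow_add hX00, ← Real.rpow_add hX00, ← pow_mul,
        ← Real.rpow_natCast, ← Real.rpow_add hX00]
      congr 1
      push_cast; ring
    calc 16 * (Y * (2 * (C1 * Y ^ 2)) ^ 2) * P1 * jc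
        = K2 * (X0 ^ n) ^ 5 * P1 := by
          rw [hK2, hY]; ring
      _ ≤ C * (X0 ^ n) ^ 5 * (X0 ^ m * (P2 * nm f) ^ (1 / 3 : ℝ)) := by gcongr
      _ = C * (P2 * nm f) ^ (1 / 3 : ℝ) * ((X0 ^ n) ^ 5 * X0 ^ m) := by ring
      _ = X0 ^ (5 * (n : ℝ) + m + 4) * (C * ((P2 * nm f) ^ (1 / 3 : ℝ) *
          (X0 ^ (-(2 : ℝ)) * X0 ^ (-(1 : ℝ)) * X0 ^ (-(1 : ℝ))))) := by rw [← e3]; ring
      _ ≤ (X0 ^ δ) ^ a0 * ((C * D0 ^ 4 * Ht ps ^ 6 * X0 ^ ε) * ((P2 * nm f) ^ (1 / 3 : ℝ) *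
          ((E / nm d) ^ (5 / 3 : ℝ) * (nm e : ℝ)⁻¹ * mn))) := by
          have g6 := hXinv _ he0 heX
          gcongr
      _ = _ := by rw [hV]

end Crest.Agent.R017.RnX571
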