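import Crest.Agent.R017.RnPd_571
import Crest.Agent.R017.RnXa_571
import Crest.Agent.R017.I1LE_764

/-!
# Row 17, class E of `P1` (helper571): (RH) for natural lists from one real line, any set `Q`

* **`rhQ_raw`** : (RH) at the frequencies with `Q (k t)`
-/

set_option autoImplicit false

noncomputable section

open Finset

namespace Crest.Agent.R017.RnX571

open Crest.Agent.R012 Crest.Agent.R012.Eis
open Crest.Agent.R012.LS2 (bl mem_bl)
open Crest.Agent.R012.Weight600 (pw)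
open Crest.Agent.R017.FE47 (PU SM)
open Crest.Agent.R017.CM106
open Crest.Agent.R017.XG702 (Pcs BG)
open Crest.Agent.R017.Prov71
open Crest.Agent.R017.B770
open Crest.Agent.R017.HP842 (Pc pc sqc al alL)
open Crest.Agent.R017.XRG106 (Rl RFp ip ip_pc)
open Crest.Agent.R017.XHB411 (tl)
open Crest.Agent.R017.E5B71 (Pt)
open Crest.Agent.R017.RM986 (Plain)
open Crest.Agent.R017.R3571 (Below RMm RMm_nonneg RMm_eq rm W2 W2_mono RH_nat)
open Crest.Agent.R017.E1551 (jb jb_pos)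
open Crest.Agent.R017.PX764 (n6)
open Crest.Agent.R017.E3D579 (n6_nonneg)
open Crest.Agent.R017.ET71 (kind_am_not_lump mass_am)
open Crest.Agent.R017.Leg381 (Pf alF LF natl alF_natl)
open Crest.Agent.R017.Mono858 (RQq)

section

variable {Λ : Type*} {π : Λ → DPar} {h : ℝ → ℝ}

set_option maxHeartbeats 3200000 in
open Classical in
/-- **(RH) for natural lists from one real line**, the frequencies with `Q (k t)` -/
theorem rhQ_raw {c₀ : ℝ} (hpu : PU h c₀) (hP : ∀ lam, (π lam).OK) {Kc : ℝ} (hKc : 0 ≤ Kc)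
    {Q : Λ → Eis → Prop}
    {E : ℝ → ℝ → ℝ → ℝ → ℝ → ℝ → ℝ} (PL : Plain Q π h (Kc + 1) E) {ε : ℝ}
    (hε : 0 < ε) :
    ∃ σ : ℝ, 0 < σ ∧ σ ≤ ε ∧ ∀ (lam : Λ) (t : Eis), t ≠ 0 → ∀ (N : ℕ) (B : ℝ),
      ∃ (M a A₀ : ℕ) (X₀ : ℝ), 1 ≤ a ∧ 1 < X₀ ∧ ∀ X : ℝ, X₀ ≤ X →
      ∀ (u₁ u₂ u₃ : Pq) (ps : List Pq) (m : Eis) (H : ℝ),
      (∀ p ∈ [u₁, u₂, u₃], Dq.lump p ∧ 0 ≤ p.z ∧ p.z ≤ Kc * Real.log X ∧ (nm p.d : ℝ) ≤ X ^ B) →
      ps.length ≤ N →
      (∀ p ∈ ps, p.kd = .am ∧ 0 ≤ p.z ∧ p.z ≤ σ * Real.log X ∧ (nm p.d : ℝ) ≤ X ^ B) →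
      (ps.map Pq.z).sum ≤ Kc * Real.log X → m ≠ 0 → (nm m : ℝ) ≤ X ^ B →
      1 ≤ H → (∀ p ∈ u₁ :: u₂ :: u₃ :: ps, 1 + |p.t| ≤ H) →
      ∀ (d e : Eis), IsPrim d → IsPrim e → (nm d : ℝ) ≤ X ^ B → (nm e : ℝ) ≤ X ^ B →
      ∀ (P1 G : ℝ), 0 < P1 → P1 ≤ X ^ Kc → 0 ≤ G →
      (∀ i y₁ y₂ y₃ x : ℝ, 0 ≤ i → i ≤ Real.log P1 / Real.log X + σ → 0 ≤ y₁ →
        y₁ ≤ u₁.z / Real.log X + σ → 0 ≤ y₂ → y₂ ≤ u₂.z / Real.log X + σ → 0 ≤ y₃ →
        y₃ ≤ u₃.z / Real.log X + σ → 0 ≤ x → x ≤ (ps.map Pq.z).sum / Real.log X + σ →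
        y₁ + y₂ + y₃ + x ≤ (u₁.z + u₂.z + u₃.z + (ps.map Pq.z).sum -
          Real.log (nm d * nm e)) / Real.log X + σ →
        E i y₁ y₂ y₃ 0 x + (Real.log P1 / Real.log X - i) / 3 ≤ G + (y₁ + y₂ + y₃ + x)) →
      ∀ A : ℕ, A₀ ≤ A → ∀ γ φ : Eis, IsPrim γ → IsPrim φ → (nm φ : ℝ) ≤ X ^ B →
      ∀ P : ℝ, 0 < P →
        (nm γ : ℝ) * n6 γ ^ 2 * ∑ k ∈ (bl P).filter (fun k => Q lam (k * t)), RMm A
          (fun n => sqc m (alL h ((u₁ :: u₂ :: u₃ :: ps).map (Pq.pc (π lam)))) (d * n)) e γ φ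
            (k * t) ≤
        W2 a P1 (H ^ M * X ^ (G + ε) *
          (Real.exp (u₁.z + u₂.z + u₃.z + (ps.map Pq.z).sum) / nm d) ^ (2 / 3 : ℝ)) P := by
  classical
  set ε₁ : ℝ := ε / 8 with hε₁
  have hε₁0 : 0 < ε₁ := by positivity
  obtain ⟨σ₁, hσ₁, PL⟩ := PL ε₁ hε₁0
  set σ : ℝ := min (min (σ₁ / 2) (1 / 2)) ε₁ with hσ
  have hσ0 : 0 < σ := by positivity
  have hσ1 : σ ≤ σ₁ / 2 := (min_le_left _ _).trans (min_le_left _ _)
  have hσ2 : σ ≤ 1 / 2 := (min_le_left _ _).trans (min_le_right _ _)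
  have hσ3 : σ ≤ ε₁ := min_le_right _ _
  refine ⟨σ, hσ0, hσ3.trans (by rw [hε₁]; linarith), fun lam t ht N B => ?_⟩
  obtain ⟨M, X₁, hX₁, PX⟩ := PL lam N (|B| + Kc + 2)
  -- the size `X0 = X ^ B₃`
  set B₃ : ℝ := |B| + Kc + 1 with hB₃
  have hB₃1 : 1 ≤ B₃ := by
    have := abs_nonneg B
    linarith
  have hB₃0 : 0 < B₃ := by linarith
  set δ : ℝ := σ / (2 * B₃) with hδ
  have hδ0 : 0 < δ := by positivity
  have hδB : B₃ * δ = σ / 2 := by rw [hδ]; field_simp
  set ε' : ℝ := ε₁ / B₃ with hε'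
  have hε'0 : 0 < ε' := by positivity
  have hεB : B₃ * ε' = ε₁ := by rw [hε']; field_simp
  obtain ⟨a, ha1, hG⟩ := RHn_one hpu (μ := (M : ℝ) / 2) (by positivity) (N + 3) (m := 1) hδ0
  obtain ⟨C', hC'1, hC⟩ := hG ε' hε'0
  set τ : ℝ := Real.log (nm t) with hτ
  have hnt : (1 : ℝ) ≤ nm t := by exact_mod_cast nm_pos.2 ht
  have hnt0 : (0 : ℝ) < nm t := by linarith
  have hτ0 : 0 ≤ τ := Real.log_nonneg hnt
  obtain ⟨X₂, hX₂, HX₂⟩ := XSup271.exists_X hC'1 (ε := ε₁) hε₁0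
  -- large X : constants against `σ log X`
  set X₃ : ℝ := Real.exp (2 * ((N + 3) * C' + τ + 1) / σ) with hX₃
  refine ⟨M, a, (N + 4) * M + 2, max X₁ (max X₂ X₃), ha1,
    lt_of_lt_of_le hX₁ (le_max_left _ _), ?_⟩
  intro X hX u₁ u₂ u₃ ps m H hu hN hps hsum hm0 hmX hH hht d e hd he hdX heX P1 G hP1 hP1X hG0
    hE A hA γ φ hγ hφ hφX P hPp
  have hXX₁ : X₁ ≤ X := (le_max_left _ _).trans hX
  have hXX₂ : X₂ ≤ X := ((le_max_left _ _).trans (le_max_right _ _)).trans hX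
  have hXX₃ : X₃ ≤ X := ((le_max_right _ _).trans (le_max_right _ _)).trans hX
  have hX1 : 1 < X := by linarith
  have hX0 : 0 < X := by linarith
  have hlX : 0 < Real.log X := Real.log_pos hX1
  have hbig : (N + 3) * C' + τ + 1 ≤ σ / 2 * Real.log X := by
    have h1 : 2 * ((N + 3) * C' + τ + 1) / σ ≤ Real.log X := by
      rw [← Real.log_exp (2 * ((N + 3) * C' + τ + 1) / σ)]
      exact Real.log_le_log (Real.exp_pos _) hXX₃
    rw [div_le_iff₀ hσ0] at h1
    linarith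
  have hNC : 0 ≤ (N : ℝ) * C' := by positivity
  have hσL : 0 < σ * Real.log X := by positivity
  have hσ₁L : 0 < σ₁ * Real.log X := by positivity
  have hKL : 0 ≤ Kc * Real.log X := by positivity
  have hσL1 : σ * Real.log X ≤ σ₁ / 2 * Real.log X := mul_le_mul_of_nonneg_right hσ1 hlX.le
  have hσL2 : σ * Real.log X ≤ 1 / 2 * Real.log X := mul_le_mul_of_nonneg_right hσ2 hlX.le
  have hC'σ : C' ≤ σ * Real.log X := by linarith
  have hτσ : τ ≤ σ / 2 * Real.log X := by linarith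
  have hNσ : (N : ℝ) * C' ≤ σ * Real.log X := by linarith
  -- sizes
  have hXB : ∀ {x : ℝ}, x ≤ X ^ B → x ≤ X ^ B₃ := fun hx =>
    hx.trans (Real.rpow_le_rpow_of_exponent_le hX1.le (by
      have := le_abs_self B
      linarith))
  have hX0' : 1 ≤ X ^ B₃ := Real.one_le_rpow hX1.le hB₃0.le
  have hXδ : (X ^ B₃) ^ δ = X ^ (σ / 2) := by
    rw [← Real.rpow_mul hX0.le, hδB]
  have hXε : (X ^ B₃) ^ ε' = X ^ ε₁ := by
    rw [← Real.rpow_mul hX0.le, hεB]
  set l := u₁ :: u₂ :: u₃ :: ps with hl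
  have hlN : l.length ≤ N + 3 := by
    have : l.length = ps.length + 3 := by rw [hl]; rfl
    omega
  have hz0 : ∀ p ∈ l, 0 ≤ p.z := by
    intro p hp
    rw [hl] at hp
    simp only [List.mem_cons] at hp
    rcases hp with rfl | rfl | rfl | hp
    · exact (hu _ (by simp)).2.1
    · exact (hu _ (by simp)).2.1
    · exact (hu _ (by simp)).2.1
    · exact (hps p hp).2.1
  have hz2 : ∀ p ∈ l, p.z ≤ (Kc + 1) * Real.log X := by
    intro p hp
    rw [hl] at hp
    simp only [List.mem_cons] at hp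
    rcases hp with rfl | rfl | rfl | hp
    · have := (hu p (by simp)).2.2.1
      linarith
    · have := (hu p (by simp)).2.2.1
      linarith
    · have := (hu p (by simp)).2.2.1
      linarith
    · have h1 := (hps p hp).2.2.1
      linarith
  have hdB : ∀ p ∈ l, (nm p.d : ℝ) ≤ X ^ B := by
    intro p hp
    rw [hl] at hp
    simp only [List.mem_cons] at hp
    rcases hp with rfl | rfl | rfl | hp
    · exact (hu _ (by simp)).2.2.2
    · exact (hu _ (by simp)).2.2.2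
    · exact (hu _ (by simp)).2.2.2
    · exact (hps p hp).2.2.2
  have hfst : (natl l).map Prod.fst = l := by
    unfold Leg381.natl
    rw [List.map_map]
    exact List.map_id _
  have e2 : LF (natl l) = u₁.z + u₂.z + u₃.z + (ps.map Pq.z).sum := by
    unfold Leg381.LF Leg381.natl
    rw [hl]
    simp only [List.map_cons, List.map_map, List.sum_cons]
    have e3 : List.map ((fun p : Pf => p.1.z) ∘ fun p => (p, false)) ps = ps.map Pq.z := rfl
    rw [e3]
    ring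
  set n : ℝ := u₁.z + u₂.z + u₃.z + (ps.map Pq.z).sum with hn
  set Bd : ℝ := H ^ M * X ^ (G + 2 * ε₁) with hBd
  have hBd1 : 1 ≤ Bd :=
    one_le_mul_of_one_le_of_one_le (one_le_pow₀ hH) (Real.one_le_rpow hX1.le (by positivity))
  have hBd0 : 0 ≤ Bd := by linarith
  have hM0 : (0 : ℝ) ≤ M := Nat.cast_nonneg M
  have key := hC (π lam) (hP lam) (Q lam) (natl l)
      (by unfold Leg381.natl; rw [List.length_map]; exact hlN)
      (by
        intro p hp
        unfold Leg381.natl at hp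
        obtain ⟨p', hp', rfl⟩ := List.mem_map.1 hp
        exact hz0 p' hp') 1 1 le_rfl m d e t hm0
    hd he ht (X ^ B₃) hX0' hX0' (hXB hmX) (hXB hdX) (hXB heX) (fun p hp => by
      unfold Leg381.natl at hp
      obtain ⟨p', hp', rfl⟩ := List.mem_map.1 hp
      rw [Real.rpow_def_of_pos hX0]
      refine Real.exp_le_exp.2 ?_
      have h1 := hz2 _ hp'
      have h2 : 0 ≤ |B| * Real.log X := mul_nonneg (abs_nonneg B) hlX.le
      rw [hB₃]
      show p'.z ≤ _
      linarith) ((N + 4) * M) (by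
      push_cast
      linarith) A (by exact_mod_cast hA) P1 Bd hP1 (by
      rw [Real.rpow_one]
      exact hP1X.trans (Real.rpow_le_rpow_of_exponent_le hX1.le (by
        have := abs_nonneg B
        linarith))) hBd1 ?_ γ φ hγ hφ (hXB hφX) P hPp
  · -- conclusion
    rw [alF_natl, e2] at key
    have hE0 : 0 ≤ (Real.exp n / nm d) ^ (2 / 3 : ℝ) := by positivity
    have hCr' : 0 ≤ C' := by linarith
    refine key.trans (W2_mono a hP1 hPp ?_)
    refine mul_le_mul_of_nonneg_right ?_ hE0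
    rw [hXε, hBd, one_pow, Real.one_rpow, mul_one]
    have h6 : C' ≤ X ^ ε₁ := HX₂ X hXX₂
    calc C' * X ^ ε₁ * (H ^ M * X ^ (G + 2 * ε₁))
        ≤ X ^ ε₁ * X ^ ε₁ * (H ^ M * X ^ (G + 2 * ε₁)) := by gcongr
      _ = H ^ M * X ^ (ε₁ + ε₁ + (G + 2 * ε₁)) := by
          rw [Real.rpow_add hX0 (ε₁ + ε₁), Real.rpow_add hX0 ε₁]; ring
      _ ≤ _ := by
          refine mul_le_mul_of_nonneg_left ?_ (by positivity)
          refine Real.rpow_le_rpow_of_exponent_le hX1.le ?_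
          rw [hε₁]; linarith
  -- the children
  intro L₀ hL₀1 hL₀2 s' W hW hF htl
  rw [hfst] at hF
  rw [hXδ] at hL₀2 ⊢
  have hL₀0 : 0 < L₀ := by linarith
  set Λ₀ : ℝ := L₀ * nm t with hΛ₀
  have hΛ1 : 1 ≤ Λ₀ := one_le_mul_of_one_le_of_one_le hL₀1 hnt
  have hΛ0 : 0 < Λ₀ := by linarith
  have hlΛ : Real.log Λ₀ = Real.log L₀ + τ := by
    rw [hΛ₀, Real.log_mul hL₀0.ne' hnt0.ne']
  have hlL0 : 0 ≤ Real.log L₀ := Real.log_nonneg hL₀1
  have hlL2 : Real.log L₀ ≤ Real.log P1 + σ / 2 * Real.log X := by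
    have h1 := Real.log_le_log hL₀0 hL₀2
    rwa [Real.log_mul hP1.ne' (by positivity), Real.log_rpow hX0] at h1
  have hlP1 : Real.log P1 ≤ Kc * Real.log X := by
    have h1 := Real.log_le_log hP1 hP1X
    rwa [Real.log_rpow hX0] at h1
  -- the child list
  have hFl := hF
  rw [hl] at hF
  obtain ⟨v₁, v₂, v₃, qs, hvq⟩ : ∃ v₁ v₂ v₃ qs, s' = v₁ :: v₂ :: v₃ :: qs := by
    have hlen := hF.length_eq
    simp only [List.length_cons] at hlen
    rcases s' with _ | ⟨v₁, _ | ⟨v₂, _ | ⟨v₃, qs⟩⟩⟩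
    · simp at hlen
    · simp at hlen
    · simp at hlen
    · exact ⟨v₁, v₂, v₃, qs, rfl⟩
  rw [hvq] at hF
  obtain ⟨r1, hF1⟩ := List.forall₂_cons.1 hF
  obtain ⟨r2, hF2⟩ := List.forall₂_cons.1 hF1
  obtain ⟨r3', hF3⟩ := List.forall₂_cons.1 hF2
  have hlump : ∀ {v u : Pq}, Rl C' W v u → Dq.lump u → Dq.lump v := by
    intro v u hr hu
    obtain ⟨h1, h2⟩ := (Dq_lump u).1 hu
    exact (Dq_lump v).2 ⟨hr.kd.trans h1, hr.one h2⟩
  have hdd : ∀ {v u : Pq}, Rl C' W v u → u.z ≤ Kc * Real.log X ∨ u.z ≤ σ * Real.log X →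
      (nm u.d : ℝ) ≤ X ^ B → (nm v.d : ℝ) ≤ X ^ (|B| + Kc + 2) := by
    intro v u hr h1 h2
    refine hr.dd.trans ?_
    have h3 : C' ≤ X ^ (1 : ℝ) := by
      have h4 : C' ≤ Real.log X := by linarith
      rw [Real.rpow_one]
      exact h4.trans (Real.log_le_self hX0.le)
    have h5 : Real.exp u.z ≤ X ^ (Kc + 1) := by
      rw [Real.rpow_def_of_pos hX0]
      refine Real.exp_le_exp.2 ?_
      rcases h1 with h1 | h1
      · linarith
      · linarith
    have h6 : (nm u.d : ℝ) ≤ X ^ |B| :=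
      h2.trans (Real.rpow_le_rpow_of_exponent_le hX1.le (le_abs_self B))
    calc C' * (nm u.d : ℝ) * Real.exp u.z ≤ X ^ (1 : ℝ) * X ^ |B| * X ^ (Kc + 1) := by gcongr
      _ = X ^ (|B| + Kc + 2) := by
          rw [← Real.rpow_add hX0, ← Real.rpow_add hX0]; congr 1; ring
  have hqs : ∀ v ∈ qs, ∃ u ∈ ps, Rl C' W v u := by
    intro v hv
    obtain ⟨n, hn, rfl⟩ := List.mem_iff_getElem.1 hv
    have h1 := hF3.length_eq
    have h2 : n < ps.length := by omega
    exact ⟨ps[n], List.getElem_mem h2, (List.forall₂_iff_get.1 hF3).2 n hn h2⟩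
  have hqsam : ∀ v ∈ qs, v.kd = .am := by
    intro v hv
    obtain ⟨u, hu', hr'⟩ := hqs v hv
    exact hr'.kd.trans (hps u hu').1
  have hqz : (qs.map Pq.z).sum ≤ (ps.map Pq.z).sum + N * C' := by
    have h1 : ∀ {a b : List Pq}, List.Forall₂ (Rl C' W) a b →
        (a.map Pq.z).sum ≤ (b.map Pq.z).sum + b.length * C' := by
      intro a b hab
      induction hab with
      | nil => simp
      | @cons x y a b hxy _ ih =>
        have h3 := hxy.zle
        simp only [List.map_cons, List.sum_cons, List.length_cons]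
        push_cast
        linarith
    have h2 := h1 hF3
    have h3 : (ps.length : ℝ) * C' ≤ N * C' := by
      have : (ps.length : ℝ) ≤ N := by exact_mod_cast hN
      exact mul_le_mul_of_nonneg_right this (by linarith)
    linarith
  have hqz0 : 0 ≤ (qs.map Pq.z).sum := List.sum_nonneg fun x hx => by
    obtain ⟨v, hv, rfl⟩ := List.mem_map.1 hx
    obtain ⟨u, _, hr'⟩ := hqs v hv
    exact hr'.z0
  have hWH : 1 ≤ W * H := one_le_mul_of_one_le_of_one_le hW hH
  have hPL := PX X hXX₁ (Real.log Λ₀) v₁ v₂ v₃ qs (by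
      intro p hp
      simp only [List.mem_cons, List.not_mem_nil, or_false] at hp
      have aux : ∀ {v u : Pq}, Rl C' W v u → u ∈ l → u.z ≤ Kc * Real.log X → Dq.lump u →
          Dq.lump v ∧ 0 ≤ v.z ∧ v.z ≤ (Kc + 1 + σ₁) * Real.log X ∧
            (nm v.d : ℝ) ≤ X ^ (|B| + Kc + 2) := by
        intro v u hr' hul h1 hu'
        have h2 := hr'.zle
        refine ⟨hlump hr' hu', hr'.z0, ?_, hdd hr' (Or.inl h1) (hdB u hul)⟩
        linarith
      have hm1 : u₁ ∈ l := by simp [hl]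
      have hm2 : u₂ ∈ l := by simp [hl]
      have hm3 : u₃ ∈ l := by simp [hl]
      rcases hp with rfl | rfl | rfl
      · exact aux r1 hm1 (hu _ (by simp)).2.2.1 (hu _ (by simp)).1
      · exact aux r2 hm2 (hu _ (by simp)).2.2.1 (hu _ (by simp)).1
      · exact aux r3' hm3 (hu _ (by simp)).2.2.1 (hu _ (by simp)).1) (by
      have : 0 ≤ Real.log Λ₀ := Real.log_nonneg hΛ1
      linarith) (by rw [hlΛ]; linarith) (by
      have := hF3.length_eq
      omega) (by
      intro p hp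
      obtain ⟨u, hu', hr'⟩ := hqs p hp
      have h1 := (hps u hu').2.2.1
      have h2 := hr'.zle
      have h3 : u ∈ l := by simp [hl, hu']
      refine ⟨kind_am_not_lump (hqsam p hp), hr'.z0, ?_, hdd hr' (Or.inr h1) (hdB u h3)⟩
      linarith) (by
      intro t'
      have h1 := mass_am (X := X) hqsam
      cases t' with
      | mo => rw [h1.1]; positivity
      | am =>
        rw [h1.2, div_le_iff₀ hlX]
        linarith) (W * H) hWH (by
      intro p hp
      rw [← hvq] at hp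
      obtain ⟨i, hi, rfl⟩ := List.mem_iff_getElem.1 hp
      have hi2 : i < l.length := by rw [← hFl.length_eq]; exact hi
      have h1 := ((List.forall₂_iff_get.1 hFl).2 i hi hi2).ht
      have h2 := hht (l[i]) (List.getElem_mem hi2)
      calc 1 + |(s'[i]).t| ≤ W * (1 + |(l[i]).t|) := h1
        _ ≤ W * H := mul_le_mul_of_nonneg_left h2 (by linarith))
  have hRF : RQq (Q lam) (π lam) h (Real.log Λ₀) s' =
      RQ (Q lam) h (Real.log Λ₀) ((v₁ :: v₂ :: v₃ :: qs).map (Pq.pc (π lam))) := by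
    unfold Mono858.RQq
    rw [hvq]
  rw [hRF]
  refine hPL.trans ?_
  have hmas := mass_am (X := X) hqsam
  rw [hmas.1, hmas.2]
  have e5 : tl Dq s' = v₁.z + v₂.z + v₃.z + (qs.map Pq.z).sum := by
    have h5 : tl Dq s' = (s'.map Pq.z).sum := rfl
    rw [h5, hvq]
    simp only [List.map_cons, List.sum_cons]
    ring
  have hdiv : ∀ {a b : ℝ}, a ≤ b + σ * Real.log X → a / Real.log X ≤ b / Real.log X + σ := by
    intro a b hab
    rw [div_le_iff₀ hlX, add_mul, div_mul_cancel₀ _ hlX.ne']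
    exact hab
  have hreal := hE (Real.log Λ₀ / Real.log X) (v₁.z / Real.log X) (v₂.z / Real.log X)
    (v₃.z / Real.log X) ((qs.map Pq.z).sum / Real.log X)
    (div_nonneg (Real.log_nonneg hΛ1) hlX.le) (hdiv (by rw [hlΛ]; linarith))
    (div_nonneg r1.z0 hlX.le)
    (hdiv (by linarith [r1.zle])) (div_nonneg r2.z0 hlX.le) (hdiv (by linarith [r2.zle]))
    (div_nonneg r3'.z0 hlX.le) (hdiv (by linarith [r3'.zle])) (div_nonneg hqz0 hlX.le)
    (hdiv (by linarith)) (by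
      rw [← add_div, ← add_div, ← add_div, ← e5]
      refine hdiv ?_
      rw [e2] at htl
      linarith)
  have hexp : E (Real.log Λ₀ / Real.log X) (v₁.z / Real.log X) (v₂.z / Real.log X)
      (v₃.z / Real.log X) 0 ((qs.map Pq.z).sum / Real.log X) ≤
      G + tl Dq s' / Real.log X +
        (Real.log L₀ + τ - Real.log P1) / Real.log X / 3 := by
    rw [e5, add_div, add_div, add_div]
    have e6 : (Real.log L₀ + τ - Real.log P1) / Real.log X =
        Real.log Λ₀ / Real.log X - Real.log P1 / Real.log X := by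
      rw [hlΛ, sub_div]
    rw [e6]
    linarith
  have h12 : (W * H) ^ M = H ^ M * W ^ (2 * ((M : ℝ) / 2)) := by
    rw [mul_div_cancel₀ _ (two_ne_zero), Real.rpow_natCast, mul_pow, mul_comm]
  have h13 : Real.exp (tl Dq s') = X ^ (tl Dq s' / Real.log X) := by
    rw [Real.rpow_def_of_pos hX0, mul_div_cancel₀ _ hlX.ne']
  have h14 : (L₀ / (P1 * X ^ (σ / 2))) ^ (1 / 3 : ℝ) =
      X ^ ((Real.log L₀ - Real.log P1) / Real.log X / 3 - σ / 6) := by
    have hq : 0 < L₀ / (P1 * X ^ (σ / 2)) := by positivity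
    rw [Real.rpow_def_of_pos hq,
      Real.log_div hL₀0.ne' (by positivity), Real.log_mul hP1.ne' (by positivity),
      Real.log_rpow hX0, Real.rpow_def_of_pos hX0]
    congr 1
    field_simp
    ring
  have hW0 : 0 < W := by linarith
  rw [h12, hBd, h13, h14]
  have hτL : τ / Real.log X ≤ σ / 2 := by rw [div_le_iff₀ hlX]; exact hτσ
  calc H ^ M * W ^ (2 * ((M : ℝ) / 2)) * X ^ (E (Real.log Λ₀ / Real.log X)
        (v₁.z / Real.log X) (v₂.z / Real.log X) (v₃.z / Real.log X) 0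
        ((qs.map Pq.z).sum / Real.log X) + ε₁)
      ≤ H ^ M * W ^ (2 * ((M : ℝ) / 2)) * X ^ (((Real.log L₀ - Real.log P1) / Real.log X / 3 -
          σ / 6) + (G + 2 * ε₁) + tl Dq s' / Real.log X) := by
        refine mul_le_mul_of_nonneg_left ?_ (by positivity)
        refine Real.rpow_le_rpow_of_exponent_le hX1.le ?_
        have e7 : (Real.log L₀ + τ - Real.log P1) / Real.log X / 3 =
            (Real.log L₀ - Real.log P1) / Real.log X / 3 + τ / Real.log X / 3 := by ring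
        rw [e7] at hexp
        linarith
    _ = _ := by
        rw [Real.rpow_add hX0 (_ + (G + 2 * ε₁)), Real.rpow_add hX0]
        ring

end

end Crest.Agent.R017.RnX571
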