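import Crest.Agent.R017.RnXc_571
import Crest.Agent.R017.RnPc_571
import Crest.Agent.R017.P10Xa_764
import Crest.Agent.R017.ROXc_744

/-!
# Row 17, class E of `P1` (helper571): (RH) for the difference, both classes of frequencies

* `rhx_false` : frequencies `k` with `k t` not a cube
* `rhx_true`  : frequencies `k` with `k t` a cube
-/

set_option autoImplicit false
set_option maxHeartbeats 400000

noncomputable section

open Complex MeasureTheory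
open scoped ComplexConjugate

namespace Crest.Agent.R017.RnX571

open Crest.Agent.R012 Crest.Agent.R012.Eis Crest.Agent.R012.MC
open Crest.Agent.R012.LS2 (bl mem_bl)
open Crest.Agent.R012.Weight600 (pw)
open Crest.Agent.R012.T411 (NCube)
open Crest.Agent.R017.FE47 (PU SM)
open Crest.Agent.R017.CM106
open Crest.Agent.R017.XG702 (Pcs BG)
open Crest.Agent.R017.Prov71
open Crest.Agent.R017.B770
open Crest.Agent.R017.HP842 (Pc pc sqc al alL)
open Crest.Agent.R017.XRG106 (Rl RFp ip ip_pc)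
open Crest.Agent.R017.XHB411 (tl)
open Crest.Agent.R017.E5B71 (Pt)
open Crest.Agent.R017.RM986 (Plain)
open Crest.Agent.R017.R3571 (Below RMm RMm_nonneg RMm_eq rm W2 W2_mono RH_nat integrable_RM)
open Crest.Agent.R017.E1551 (jb jb_pos)
open Crest.Agent.R017.PX764 (n6)
open Crest.Agent.R017.E3D579 (n6_nonneg)
open Crest.Agent.R017.ET71 (kind_am_not_lump mass_am)
open Crest.Agent.R017.Leg381 (Pf alF LF natl alF_natl)
open Crest.Agent.R017.RG64 (Ht)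
open Crest.Agent.R017.Sup271 (NPm)
open Crest.Agent.R017.I1K764 (rl zN norm_zN xN xN_eq xT xT_eq)
open Crest.Agent.R017.RnP571 (RMm_tw W2_mono_a)
open Crest.Agent.R017.PoHx72 (Cls)
open Crest.Agent.R017.ROX744 (PrU)

/-! ### the classes -/

lemma cls_false {t : Eis} (ht : t ≠ 0) (k : Eis) : Cls (PrU (t * t)) false k ↔ NCube (k * t) := by
  have e1 : k * (t * t) ^ 2 = k * t * t ^ 3 := by ring
  unfold Cls
  rw [if_neg (by simp), ← RHX116.ncube_mul_cube (x := k * t) ht]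
  unfold PrU T411.NCube
  rw [e1]
  constructor
  · intro h1
    refine ⟨fun h0 => h1 ⟨0, by rw [h0]; simp⟩, fun m hm => h1 ⟨m, hm⟩⟩
  · rintro ⟨-, h2⟩ ⟨m, hm⟩
    exact h2 m hm

lemma cls_true {t : Eis} (ht : t ≠ 0) (k : Eis) : Cls (PrU (t * t)) true k ↔ ¬ NCube (k * t) := by
  rw [← cls_false ht]
  unfold Cls
  simp

/-! ### the moment of a difference -/

lemma RMm_sub {A : ℝ} (hA : 1 < A) {a b : Eis → ℂ} (ha : FS a) (hb : FS b) {ζ : ℂ}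
    (hζ : ‖ζ‖ = 1) {γ : Eis} (hγ : IsPrim γ) (e φ r : Eis) :
    RMm A (fun n => a n - ζ * b n) e γ φ r ≤ 2 * RMm A a e γ φ r + 2 * RMm A b e γ φ r := by
  classical
  have hF : ∀ {α : Eis → ℂ}, FS α → ∀ t, FS (rm α e γ φ t) := by
    intro α hα t
    have hne : ∀ m, rm α e γ φ t m ≠ 0 → α (γ * m) ≠ 0 := by
      intro m hm h0
      apply hm
      unfold R3571.rm
      rw [h0]; simp
    exact
      { fin := by
          refine (hα.fin.preimage (f := fun m => γ * m) (fun x _ y _ hxy => ?_)).subset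
            fun m hm => hne m hm
          exact mul_left_cancel₀ hγ.ne_zero hxy
        prim := fun m hm => IsPrim.of_mul_left (hα.prim _ (hne m hm)) hγ }
  have e1 : ∀ t, CS (rm (fun n => a n - ζ * b n) e γ φ t) r =
      CS (rm a e γ φ t) r - ζ * CS (rm b e γ φ t) r := by
    intro t
    have e2 : rm (fun n => a n - ζ * b n) e γ φ t = rm a e γ φ t + (-ζ) • rm b e γ φ t := by
      funext m
      rw [Pi.add_apply, Pi.smul_apply, smul_eq_mul]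
      unfold R3571.rm
      split_ifs
      · ring
      · ring
    rw [e2, StC828.CS_add (hF ha t) (StC828.FS_smul (hF hb t) _), StC828.CS_smul']
    ring
  have i1 := integrable_RM hA ha hγ.ne_zero e φ r
  have i2 := integrable_RM hA hb hγ.ne_zero e φ r
  rw [RMm_eq, RMm_eq, RMm_eq, ← integral_const_mul, ← integral_const_mul,
    ← integral_add (i1.const_mul 2) (i2.const_mul 2)]
  refine integral_mono_of_nonneg (Filter.Eventually.of_forall fun t => ?_)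
    ((i1.const_mul 2).add (i2.const_mul 2)) (Filter.Eventually.of_forall fun t => ?_)
  · exact mul_nonneg (jb_pos A t).le (by positivity)
  · have h1 := mul_le_mul_of_nonneg_left (RHX116.sq_sub_le (a := CS (rm a e γ φ t) r)
      (b := CS (rm b e γ φ t) r) hζ) (jb_pos A t).le
    show jb A t * ‖CS (rm (fun n => a n - ζ * b n) e γ φ t) r‖ ^ 2 ≤
      2 * (jb A t * ‖CS (rm a e γ φ t) r‖ ^ 2) + 2 * (jb A t * ‖CS (rm b e γ φ t) r‖ ^ 2)
    rw [e1]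
    linarith

lemma FS_dl {α : Eis → ℂ} (hα : FS α) {d : Eis} (hd : IsPrim d) : FS (fun m => α (d * m)) where
  fin := hα.fin.preimage (f := fun m => d * m)
    (fun _ _ _ _ h => mul_left_cancel₀ hd.ne_zero h)
  prim := fun _ hm => (hα.prim _ hm).of_mul_left hd

lemma W2_smul (a : ℕ) (P1 W1 P c : ℝ) : c * W2 a P1 W1 P = W2 a P1 (c * W1) P := by
  unfold W2
  split_ifs <;> ring

lemma xN_prim {P : DPar} {h : ℝ → ℝ} {q : Eis} {p1 p2 : Pq} {l : List Pq} {d : ℝ} {n : Eis}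
    (hn : xN P h q p1 p2 l d n ≠ 0) : IsPrim n := by
  have key : ∃ qs : List Pq, alL h (qs.map (Pq.pc P)) n ≠ 0 := by
    rw [xN_eq] at hn
    by_cases h0 : sqc q (alF 1 1 P h (natl (p1 :: p2 :: l))) n = 0
    · rw [h0, zero_sub, neg_ne_zero] at hn
      have h1 := right_ne_zero_of_mul (right_ne_zero_of_mul hn)
      rw [alF_natl] at h1
      exact ⟨_, h1⟩
    · have h1 := right_ne_zero_of_mul h0
      rw [alF_natl] at h1
      exact ⟨_, h1⟩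
  obtain ⟨qs, h1⟩ := key
  exact I1146.alL_prim h1

section

variable {Λ : Type*} {π : Λ → DPar} {h : ℝ → ℝ}

set_option maxHeartbeats 3200000 in
open Classical in
/-- **(RH) for the difference, the noncubes**, from one real line for both lists -/
theorem rhx_false {c₀ : ℝ} (hpu : PU h c₀) (hP : ∀ lam, (π lam).OK) {Kc : ℝ} (hKc : 0 ≤ Kc)
    {E : ℝ → ℝ → ℝ → ℝ → ℝ → ℝ → ℝ} (PL : Plain (fun _ k => NCube k) π h (Kc + 1) E) {ε : ℝ}
    (hε : 0 < ε) :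
    ∃ σ : ℝ, 0 < σ ∧ σ ≤ ε ∧ ∀ (lam : Λ) (t : Eis), t ≠ 0 → ∀ (N : ℕ) (B : ℝ),
      ∃ (M a A₀ : ℕ) (X₀ : ℝ), 1 ≤ a ∧ 1 < X₀ ∧ ∀ X : ℝ, X₀ ≤ X →
      ∀ (u₁ u₂ u₃ : Pq) (ps : List Pq) (D H : ℝ),
      (∀ p ∈ [u₁, u₂, u₃], Dq.lump p ∧ 0 ≤ p.z ∧ p.z ≤ Kc * Real.log X ∧ (nm p.d : ℝ) ≤ X ^ B) →
      0 ≤ D → D ≤ Kc * Real.log X → 0 ≤ u₁.z + u₂.z - D →
      u₁.z + u₂.z - D ≤ Kc * Real.log X → ps.length ≤ N →
      (∀ p ∈ ps, p.kd = .am ∧ 0 ≤ p.z ∧ p.z ≤ σ * Real.log X ∧ (nm p.d : ℝ) ≤ X ^ B) →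
      (ps.map Pq.z).sum ≤ Kc * Real.log X →
      1 ≤ H → (∀ p ∈ u₁ :: u₂ :: u₃ :: ps, 1 + |p.t| ≤ H) →
      ∀ (d e : Eis), IsPrim d → IsPrim e → (nm d : ℝ) ≤ X ^ B → (nm e : ℝ) ≤ X ^ B →
      ∀ (P1 G : ℝ), 0 < P1 → P1 ≤ X ^ Kc → 0 ≤ G →
      (∀ w₁ w₂ : ℝ, (w₁ = u₁.z ∧ w₂ = u₂.z ∨ w₁ = u₁.z + u₂.z - D ∧ w₂ = D) →
        ∀ i y₁ y₂ y₃ x : ℝ, 0 ≤ i → i ≤ Real.log P1 / Real.log X + σ → 0 ≤ y₁ →
        y₁ ≤ w₁ / Real.log X + σ → 0 ≤ y₂ → y₂ ≤ w₂ / Real.log X + σ → 0 ≤ y₃ →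
        y₃ ≤ u₃.z / Real.log X + σ → 0 ≤ x → x ≤ (ps.map Pq.z).sum / Real.log X + σ →
        y₁ + y₂ + y₃ + x ≤ (u₁.z + u₂.z + u₃.z + (ps.map Pq.z).sum -
          Real.log (nm d * nm e)) / Real.log X + σ →
        E i y₁ y₂ y₃ 0 x + (Real.log P1 / Real.log X - i) / 3 ≤ G + (y₁ + y₂ + y₃ + x)) →
      ∀ A : ℕ, A₀ ≤ A → ∀ γ φ : Eis, IsPrim γ → IsPrim φ → (nm φ : ℝ) ≤ X ^ B →
      ∀ P : ℝ, 0 < P →
        (nm γ : ℝ) * n6 γ ^ 2 * ∑ k ∈ (bl P).filter (Cls (PrU (t * t)) false), RMm A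
          (fun n => xT (π lam) h t 1 u₁ u₂ (u₃ :: ps) D (d * n)) e γ φ k ≤
        W2 a P1 (H ^ M * X ^ (G + ε) *
          (Real.exp (u₁.z + u₂.z + u₃.z + (ps.map Pq.z).sum) / nm d) ^ (2 / 3 : ℝ)) P := by
  classical
  obtain ⟨σ, hσ0, hσε, HR⟩ := rhQ_raw hpu hP hKc PL (show 0 < ε / 2 by positivity)
  refine ⟨σ, hσ0, by linarith, fun lam t ht N B => ?_⟩
  obtain ⟨M, a, A₀, X₁, ha, hX₁, HR⟩ := HR lam t ht N |B|
  obtain ⟨X₂, hX₂, HX₂⟩ := XSup271.exists_X (show (1 : ℝ) ≤ 4 by norm_num) (ε := ε / 2)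
    (by positivity)
  refine ⟨M, a, max A₀ 2, max X₁ X₂, ha, lt_of_lt_of_le hX₁ (le_max_left _ _), ?_⟩
  intro X hX u₁ u₂ u₃ ps D H hu hD0 hD hD1 hD2 hN hps hsum hH hht d e hd he hdX heX P1 G hP1 hP1X
    hG0 hE A hA γ φ hγ hφ hφX P hPp
  have hXX₁ : X₁ ≤ X := (le_max_left _ _).trans hX
  have hXX₂ : X₂ ≤ X := (le_max_right _ _).trans hX
  have hX1 : 1 < X := by linarith
  have hX0 : 0 < X := by linarith
  have hA0 : A₀ ≤ A := (le_max_left _ _).trans hA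
  have hA1 : (1 : ℝ) < A := by
    have h1 : 2 ≤ A := (le_max_right _ _).trans hA
    have : (2 : ℝ) ≤ A := by exact_mod_cast h1
    linarith
  have hBX : X ^ B ≤ X ^ |B| := Real.rpow_le_rpow_of_exponent_le hX1.le (le_abs_self B)
  have h1X : (nm (1 : Eis) : ℝ) ≤ X ^ |B| := by
    rw [nm_one, Nat.cast_one]
    exact Real.one_le_rpow hX1.le (abs_nonneg B)
  obtain ⟨a1, a2, a3, a4⟩ := hu u₁ (by simp)
  obtain ⟨b1, b2, b3, b4⟩ := hu u₂ (by simp)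
  obtain ⟨c1, c2, c3, c4⟩ := hu u₃ (by simp)
  have hps' : ∀ p ∈ ps, p.kd = .am ∧ 0 ≤ p.z ∧ p.z ≤ σ * Real.log X ∧ (nm p.d : ℝ) ≤ X ^ |B| :=
    fun p hp => by
      obtain ⟨h1, h2, h3, h4⟩ := hps p hp
      exact ⟨h1, h2, h3, h4.trans hBX⟩
  -- the first list
  have key1 := HR X hXX₁ u₁ u₂ u₃ ps 1 H (by
      intro p hp
      simp only [List.mem_cons, List.not_mem_nil, or_false] at hp
      rcases hp with rfl | rfl | rfl
      · exact ⟨a1, a2, a3, a4.trans hBX⟩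
      · exact ⟨b1, b2, b3, b4.trans hBX⟩
      · exact ⟨c1, c2, c3, c4.trans hBX⟩) hN hps' hsum one_ne_zero h1X hH hht d e hd he
    (hdX.trans hBX) (heX.trans hBX) P1 G hP1 hP1X hG0 (hE _ _ (Or.inl ⟨rfl, rfl⟩)) A hA0 γ φ hγ hφ
    (hφX.trans hBX) P hPp
  -- the second list
  set v₁ : Pq := { u₁ with z := u₁.z + u₂.z - D } with hv₁
  set v₂ : Pq := { u₂ with z := D } with hv₂
  have hsm : v₁.z + v₂.z + u₃.z + (ps.map Pq.z).sum = u₁.z + u₂.z + u₃.z + (ps.map Pq.z).sum := by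
    show u₁.z + u₂.z - D + D + u₃.z + _ = _
    ring
  have key2 := HR X hXX₁ v₁ v₂ u₃ ps 1 H (by
      intro p hp
      simp only [List.mem_cons, List.not_mem_nil, or_false] at hp
      rcases hp with rfl | rfl | rfl
      · exact ⟨a1, hD1, hD2, a4.trans hBX⟩
      · exact ⟨b1, hD0, hD, b4.trans hBX⟩
      · exact ⟨c1, c2, c3, c4.trans hBX⟩) hN hps' hsum one_ne_zero h1X hH (by
      intro p hp
      simp only [List.mem_cons] at hp
      rcases hp with rfl | rfl | rfl | hp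
      · exact hht u₁ (by simp)
      · exact hht u₂ (by simp)
      · exact hht _ (by simp)
      · exact hht p (by simp [hp])) d e hd he
    (hdX.trans hBX) (heX.trans hBX) P1 G hP1 hP1X hG0 (by
      intro i y₁ y₂ y₃ x h1 h2 h3 h4 h5 h6 h7 h8 h9 h10 h11
      rw [hsm] at h11
      exact hE _ _ (Or.inr ⟨rfl, rfl⟩) i y₁ y₂ y₃ x h1 h2 h3 h4 h5 h6 h7 h8 h9 h10 h11) A hA0 γ φ
    hγ hφ (hφX.trans hBX) P hPp
  rw [hsm] at key2
  -- the filter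
  have hfil : (bl P).filter (Cls (PrU (t * t)) false) = (bl P).filter (fun k => NCube (k * t)) :=
    Finset.filter_congr fun k _ => cls_false ht k
  rw [hfil]
  set f1 : Eis → ℂ := sqc 1 (alL h ((u₁ :: u₂ :: u₃ :: ps).map (Pq.pc (π lam)))) with hf1
  set f2 : Eis → ℂ := sqc 1 (alL h ((v₁ :: v₂ :: u₃ :: ps).map (Pq.pc (π lam)))) with hf2
  obtain ⟨R, hR0, hR⟩ := FE47.exists_R (FE47.cs_cx hpu.cs)
  have hFS : ∀ l : List Pq, FS (sqc 1 (alL h (l.map (Pq.pc (π lam))))) := by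
    intro l
    have h1 := HP842.FS.sqc (RG64.FS_alF ⟨R, hR⟩ (hP lam) 1 1 (natl l)) 1
    rwa [alF_natl] at h1
  have hx : ∀ n, xN (π lam) h 1 u₁ u₂ (u₃ :: ps) D n = f1 n - zN u₁ u₂ D * f2 n := by
    intro n
    rw [xN_eq, alF_natl, alF_natl]
    rfl
  have hterm : ∀ k, RMm A (fun n => xT (π lam) h t 1 u₁ u₂ (u₃ :: ps) D (d * n)) e γ φ k ≤
      2 * RMm A (fun n => f1 (d * n)) e γ φ (k * t) +
        2 * RMm A (fun n => f2 (d * n)) e γ φ (k * t) := by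
    intro k
    rw [xT_eq]
    refine (RMm_tw A t (fun n hn => xN_prim hn) hd hγ e φ k).trans ?_
    have h1 : (fun n => xN (π lam) h 1 u₁ u₂ (u₃ :: ps) D (d * n)) =
        fun n => f1 (d * n) - zN u₁ u₂ D * f2 (d * n) := funext fun n => hx (d * n)
    rw [h1]
    exact RMm_sub hA1 (FS_dl (hFS _) hd) (FS_dl (hFS _) hd) (norm_zN _ _ _) hγ e φ _
  have hγ0 : 0 ≤ (nm γ : ℝ) * n6 γ ^ 2 := mul_nonneg (Nat.cast_nonneg _) (sq_nonneg _)
  have h4 : (4 : ℝ) ≤ X ^ (ε / 2) := HX₂ X hXX₂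
  set W : ℝ := H ^ M * X ^ (G + ε / 2) *
    (Real.exp (u₁.z + u₂.z + u₃.z + (ps.map Pq.z).sum) / nm d) ^ (2 / 3 : ℝ) with hW
  have hnd : (0 : ℝ) ≤ nm d := Nat.cast_nonneg _
  calc (nm γ : ℝ) * n6 γ ^ 2 * ∑ k ∈ (bl P).filter (fun k => NCube (k * t)), RMm A
          (fun n => xT (π lam) h t 1 u₁ u₂ (u₃ :: ps) D (d * n)) e γ φ k
      ≤ (nm γ : ℝ) * n6 γ ^ 2 * ∑ k ∈ (bl P).filter (fun k => NCube (k * t)),
          (2 * RMm A (fun n => f1 (d * n)) e γ φ (k * t) +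
            2 * RMm A (fun n => f2 (d * n)) e γ φ (k * t)) :=
        mul_le_mul_of_nonneg_left (Finset.sum_le_sum fun k _ => hterm k) hγ0
    _ = 2 * ((nm γ : ℝ) * n6 γ ^ 2 * ∑ k ∈ (bl P).filter (fun k => NCube (k * t)),
          RMm A (fun n => f1 (d * n)) e γ φ (k * t)) +
        2 * ((nm γ : ℝ) * n6 γ ^ 2 * ∑ k ∈ (bl P).filter (fun k => NCube (k * t)),
          RMm A (fun n => f2 (d * n)) e γ φ (k * t)) := by
        rw [Finset.sum_add_distrib, ← Finset.mul_sum, ← Finset.mul_sum]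
        ring
    _ ≤ 2 * W2 a P1 W P + 2 * W2 a P1 W P :=
        add_le_add (mul_le_mul_of_nonneg_left key1 (by norm_num))
          (mul_le_mul_of_nonneg_left key2 (by norm_num))
    _ = W2 a P1 (4 * W) P := by
        rw [← W2_smul a P1 W P 4]; ring
    _ ≤ _ := by
        refine W2_mono a hP1 hPp ?_
        have e1 : X ^ (G + ε) = X ^ (ε / 2) * X ^ (G + ε / 2) := by
          rw [← Real.rpow_add hX0]; congr 1; ring
        rw [hW, e1]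
        have h5 : 0 ≤ H ^ M * X ^ (G + ε / 2) *
          (Real.exp (u₁.z + u₂.z + u₃.z + (ps.map Pq.z).sum) / nm d) ^ (2 / 3 : ℝ) := by
          positivity
        calc 4 * (H ^ M * X ^ (G + ε / 2) *
              (Real.exp (u₁.z + u₂.z + u₃.z + (ps.map Pq.z).sum) / nm d) ^ (2 / 3 : ℝ))
            ≤ X ^ (ε / 2) * (H ^ M * X ^ (G + ε / 2) *
              (Real.exp (u₁.z + u₂.z + u₃.z + (ps.map Pq.z).sum) / nm d) ^ (2 / 3 : ℝ)) :=
              mul_le_mul_of_nonneg_right h4 h5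
          _ = _ := by ring

set_option maxHeartbeats 3200000 in
open Classical in
/-- **(RH) for the difference, the cubes** -/
theorem rhx_true {c₀ : ℝ} (hpu : PU h c₀) (hP : ∀ lam, (π lam).OK)
    (hnp : ∀ lam, ¬ NPm (π lam).n (π lam).ψ (π lam).l₂ 1) {Kc : ℝ} (hKc : 0 ≤ Kc) {ε : ℝ}
    (hε : 0 < ε) (lam : Λ) {t : Eis} (ht : t ≠ 0) (N : ℕ) (B : ℝ) :
      ∃ (M a A₀ : ℕ) (X₀ : ℝ), 1 ≤ a ∧ 1 < X₀ ∧ ∀ X : ℝ, X₀ ≤ X →
      ∀ (u₁ u₂ u₃ : Pq) (ps : List Pq) (D s₀ H : ℝ),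
      (∀ p ∈ [u₁, u₂, u₃], Dq.lump p ∧ 0 ≤ p.z ∧ p.z ≤ Kc * Real.log X ∧ (nm p.d : ℝ) ≤ X ^ B) →
      s₀ ≤ u₁.z → s₀ ≤ u₂.z → s₀ ≤ D → s₀ ≤ u₁.z + u₂.z - D → ps.length ≤ N →
      (∀ p ∈ ps, 0 ≤ p.z ∧ p.z ≤ Kc * Real.log X) →
      1 ≤ H → (∀ p ∈ u₁ :: u₂ :: u₃ :: ps, 1 + |p.t| ≤ H) →
      ∀ (d e : Eis), IsPrim d → IsPrim e → (nm d : ℝ) ≤ X ^ B → (nm e : ℝ) ≤ X ^ B →
      ∀ P1 : ℝ, 0 < P1 → P1 ≤ X ^ Kc →
      ∀ A : ℕ, A₀ ≤ A → ∀ γ φ : Eis, IsPrim γ → IsPrim φ → (nm φ : ℝ) ≤ X ^ B →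
      ∀ P : ℝ, 0 < P →
        (nm γ : ℝ) * n6 γ ^ 2 * ∑ k ∈ (bl P).filter (Cls (PrU (t * t)) true), RMm A
          (fun n => xT (π lam) h t 1 u₁ u₂ (u₃ :: ps) D (d * n)) e γ φ k ≤
        W2 a P1 (H ^ M * X ^ ε * (P1 ^ (1 / 3 : ℝ) *
          ((Real.exp (u₁.z + u₂.z + u₃.z + (ps.map Pq.z).sum) / nm d) ^ (5 / 3 : ℝ) *
            (nm e : ℝ)⁻¹ * min 1 ((nm d : ℝ) * nm e * Real.exp (-s₀))))) P := by
  classical
  set B₃ : ℝ := |B| + Kc + 1 with hB₃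
  have hB₃1 : 1 ≤ B₃ := by
    have := abs_nonneg B
    linarith
  have hB₃0 : 0 < B₃ := by linarith
  obtain ⟨a, ha, HC⟩ := RHn_pr hpu (N + 3) (δ := ε / 4 / B₃) (m := Kc) (B₀ := 1) (by positivity) hKc
    zero_le_one
  obtain ⟨C, hC1, HC⟩ := HC (ε / 4 / B₃) (by positivity)
  obtain ⟨X₂, hX₂, HX₂⟩ := XSup271.exists_X hC1 (ε := ε / 4) (by positivity)
  have hnt : (1 : ℝ) ≤ nm t := by exact_mod_cast nm_pos.2 ht
  obtain ⟨X₃, hX₃, HX₃⟩ := XSup271.exists_X hnt (ε := ε / 4) (by positivity)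
  refine ⟨6 * (N + 3), a, 14, max (max X₂ X₃) (max 3 (max (nm (π lam).n) (nm t))), ha,
    lt_of_lt_of_le hX₂ ((le_max_left _ _).trans (le_max_left _ _)), ?_⟩
  intro X hX u₁ u₂ u₃ ps D s₀ H hu hs1 hs2 hs3 hs4 hN hps hH hht d e hd he hdX heX P1 hP1 hP1X
    A hA γ φ hγ hφ hφX P hPp
  have hXX₂ : X₂ ≤ X := ((le_max_left _ _).trans (le_max_left _ _)).trans hX
  have hXX₃ : X₃ ≤ X := ((le_max_right _ _).trans (le_max_left _ _)).trans hX
  have hX3 : 3 ≤ X := ((le_max_left _ _).trans (le_max_right _ _)).trans hX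
  have hXn : (nm (π lam).n : ℝ) ≤ X :=
    (((le_max_left _ _).trans (le_max_right _ _)).trans (le_max_right _ _)).trans hX
  have hXt : (nm t : ℝ) ≤ X :=
    (((le_max_right _ _).trans (le_max_right _ _)).trans (le_max_right _ _)).trans hX
  have hX1 : 1 < X := by linarith
  have hX0 : 0 < X := by linarith
  set X0 : ℝ := X ^ B₃ with hX0d
  have hX00 : 0 < X0 := by positivity
  have hXX0 : X ≤ X0 := by
    calc X = X ^ (1 : ℝ) := (Real.rpow_one X).symm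
      _ ≤ X0 := Real.rpow_le_rpow_of_exponent_le hX1.le hB₃1
  have hBX : X ^ B ≤ X0 := Real.rpow_le_rpow_of_exponent_le hX1.le (by
    have := le_abs_self B
    linarith)
  have hBX1 : X ^ B ≤ X0 ^ (1 : ℝ) := by rw [Real.rpow_one]; exact hBX
  have hzX : ∀ z : ℝ, z ≤ Kc * Real.log X → Real.exp z ≤ X0 := by
    intro z hz
    rw [hX0d, Real.rpow_def_of_pos hX0]
    refine Real.exp_le_exp.2 (hz.trans ?_)
    have h1 : 0 ≤ Real.log X := Real.log_nonneg hX1.le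
    rw [mul_comm (Real.log X)]
    exact mul_le_mul_of_nonneg_right (by have := abs_nonneg B; linarith) h1
  obtain ⟨a1, a2, a3, a4⟩ := hu u₁ (by simp)
  obtain ⟨b1, b2, b3, b4⟩ := hu u₂ (by simp)
  obtain ⟨c1, c2, c3, c4⟩ := hu u₃ (by simp)
  set l : List Pf := natl (u₁ :: u₂ :: u₃ :: ps) with hl
  have hmem : ∀ p ∈ u₁ :: u₂ :: u₃ :: ps, 0 ≤ p.z ∧ p.z ≤ Kc * Real.log X := by
    intro p hp
    simp only [List.mem_cons] at hp
    rcases hp with rfl | rfl | rfl | hp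
    · exact ⟨a2, a3⟩
    · exact ⟨b2, b3⟩
    · exact ⟨c2, c3⟩
    · exact hps p hp
  have hmem' : ∀ p ∈ l, 0 ≤ p.1.z ∧ p.1.z ≤ Kc * Real.log X := by
    intro p hp
    rw [hl] at hp
    unfold Leg381.natl at hp
    obtain ⟨p', hp', rfl⟩ := List.mem_map.1 hp
    exact hmem p' hp'
  have hLF : LF l = u₁.z + u₂.z + u₃.z + (ps.map Pq.z).sum := by
    rw [hl]
    unfold Leg381.LF Leg381.natl
    simp only [List.map_cons, List.map_map, List.sum_cons, Function.comp_def]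
    ring
  have hlen : l.length ≤ N + 3 := by
    rw [hl]
    unfold Leg381.natl
    simp only [List.length_map, List.length_cons]
    omega
  have hTw : ExD791.Tw D s₀ (X0 ^ (1 : ℝ)) l := by
    show (u₁.u = .one ∧ u₂.u = .one) ∧ (u₁.kd = .mo ∧ u₂.kd = .mo) ∧
      ((nm u₁.d : ℝ) ≤ X0 ^ (1 : ℝ) ∧ (nm u₂.d : ℝ) ≤ X0 ^ (1 : ℝ)) ∧ (s₀ ≤ u₁.z ∧ s₀ ≤ u₂.z) ∧
      s₀ ≤ u₁.z + u₂.z - D ∧ s₀ ≤ D
    exact ⟨⟨((Dq_lump u₁).1 a1).2, ((Dq_lump u₂).1 b1).2⟩,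
      ⟨((Dq_lump u₁).1 a1).1, ((Dq_lump u₂).1 b1).1⟩, ⟨a4.trans hBX1, b4.trans hBX1⟩,
      ⟨hs1, hs2⟩, hs4, hs3⟩
  have key := HC (π lam) (hP lam) (hnp lam) l D s₀ hlen (fun p hp => (hmem' p hp).1) 1 1 le_rfl
    1 d e t one_ne_zero hd he ht X0 (hX3.trans hXX0) (by rw [Real.rpow_one]; exact hXn.trans hXX0)
    hTw (by rw [nm_one, Nat.cast_one]; linarith) (hdX.trans hBX) (heX.trans hBX) (hXt.trans hXX0)
    (fun p hp => hzX _ (hmem' p hp).2) A (by exact_mod_cast hA) P1 hP1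
    (hP1X.trans (by
      rw [hX0d, ← Real.rpow_mul hX0.le]
      refine Real.rpow_le_rpow_of_exponent_le hX1.le ?_
      nlinarith)) γ φ hγ hφ (hφX.trans hBX) P hPp
  rw [hLF] at key
  have hxs : RX298.xs 1 1 1 (π lam) h D l = xN (π lam) h 1 u₁ u₂ (u₃ :: ps) D := by
    rw [hl]
    exact ExD791.xs_eq 1 1 1 (π lam) h D (u₁, false) (u₂, false) (natl (u₃ :: ps))
  rw [hxs] at key
  have hfil : (bl P).filter (Cls (PrU (t * t)) true) = (bl P).filter (fun k => ¬ NCube (k * t)) :=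
    Finset.filter_congr fun k _ => cls_true ht k
  rw [hfil]
  have hγ0 : 0 ≤ (nm γ : ℝ) * n6 γ ^ 2 := mul_nonneg (Nat.cast_nonneg _) (sq_nonneg _)
  have hterm : ∀ k, RMm A (fun n => xT (π lam) h t 1 u₁ u₂ (u₃ :: ps) D (d * n)) e γ φ k ≤
      RMm A (fun n => xN (π lam) h 1 u₁ u₂ (u₃ :: ps) D (d * n)) e γ φ (k * t) := by
    intro k
    rw [xT_eq]
    exact RMm_tw A t (fun n hn => xN_prim hn) hd hγ e φ k
  refine (mul_le_mul_of_nonneg_left (Finset.sum_le_sum fun k _ => hterm k) hγ0).trans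
    (key.trans (W2_mono a hP1 hPp ?_))
  -- the number
  set mn : ℝ := min 1 ((nm d : ℝ) * nm e * Real.exp (-s₀)) with hmn
  have hmn0 : 0 ≤ mn := le_min zero_le_one (by positivity)
  set R : ℝ := (Real.exp (u₁.z + u₂.z + u₃.z + (ps.map Pq.z).sum) / nm d) ^ (5 / 3 : ℝ) *
    (nm e : ℝ)⁻¹ * mn with hR
  have hR0 : 0 ≤ R := by rw [hR]; positivity
  have hHt : Ht l ≤ H ^ (N + 3) := by
    have h1 : ∀ L : List Pq, (∀ p ∈ L, 1 + |p.t| ≤ H) → Ht (natl L) ≤ H ^ L.length := by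
      intro L
      induction L with
      | nil => intro _; simp [Leg381.natl]
      | cons p L ih =>
        intro hL
        have h2 := ih fun q hq => hL q (by simp [hq])
        have h3 := hL p (by simp)
        have h4 : Ht (natl (p :: L)) = (1 + |p.t|) * Ht (natl L) := by
          unfold Leg381.natl
          rw [List.map_cons, RG64.Ht_cons]
        rw [h4, List.length_cons, pow_succ, mul_comm]
        have h5 := RG64.one_le_Ht (natl L)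
        have h6 : 0 ≤ |p.t| := abs_nonneg _
        exact mul_le_mul h2 h3 (by linarith) (by positivity)
    refine (h1 _ hht).trans (pow_le_pow_right₀ hH ?_)
    simp only [List.length_cons]
    omega
  have hHt1 := RG64.one_le_Ht l
  have hHt6 : Ht l ^ 6 ≤ H ^ (6 * (N + 3)) := by
    have h1 := pow_le_pow_left₀ (by linarith) hHt 6
    rwa [← pow_mul, mul_comm (N + 3) 6] at h1
  have hCX : C ≤ X ^ (ε / 4) := HX₂ X hXX₂
  have htX : (nm t : ℝ) ≤ X ^ (ε / 4) := HX₃ X hXX₃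
  have eX : X0 ^ (ε / 4 / B₃) = X ^ (ε / 4) := by
    rw [hX0d, ← Real.rpow_mul hX0.le]
    congr 1
    field_simp
  rw [eX]
  have hX4 : 1 ≤ X ^ (ε / 4) := Real.one_le_rpow hX1.le (by positivity)
  have e3 : (P1 * X ^ (ε / 4) * nm t) ^ (1 / 3 : ℝ) ≤
      P1 ^ (1 / 3 : ℝ) * (X ^ (ε / 4) * X ^ (ε / 4)) := by
    rw [mul_assoc, Real.mul_rpow hP1.le (by positivity)]
    refine mul_le_mul_of_nonneg_left ?_ (by positivity)
    have h1 : 1 ≤ X ^ (ε / 4) * (nm t : ℝ) := one_le_mul_of_one_le_of_one_le hX4 hnt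
    calc (X ^ (ε / 4) * (nm t : ℝ)) ^ (1 / 3 : ℝ) ≤ (X ^ (ε / 4) * (nm t : ℝ)) ^ (1 : ℝ) :=
          Real.rpow_le_rpow_of_exponent_le h1 (by norm_num)
      _ = X ^ (ε / 4) * (nm t : ℝ) := Real.rpow_one _
      _ ≤ _ := mul_le_mul_of_nonneg_left htX (by positivity)
  have e4 : X ^ ε = X ^ (ε / 4) * X ^ (ε / 4) * (X ^ (ε / 4) * X ^ (ε / 4)) := by
    rw [← Real.rpow_add hX0, ← Real.rpow_add hX0]
    congr 1
    ring
  calc C * 1 ^ 4 * Ht l ^ 6 * X ^ (ε / 4) * ((P1 * X ^ (ε / 4) * nm t) ^ (1 / 3 : ℝ) * R)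
      ≤ X ^ (ε / 4) * 1 ^ 4 * H ^ (6 * (N + 3)) * X ^ (ε / 4) *
        (P1 ^ (1 / 3 : ℝ) * (X ^ (ε / 4) * X ^ (ε / 4)) * R) := by
        have h1 : 0 ≤ Ht l ^ 6 := by positivity
        gcongr
    _ = _ := by
        rw [e4]
        ring

end

end Crest.Agent.R017.RnX571
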