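import Crest.Agent.R017.P10Xb_764
import Crest.Agent.R017.S8pd_146

/-!
# Row 17, R8 / P1, exceptional class: the frame of the children (helper50)

* **`s8x_frame`** : the premises of `UB S8X Dq` and `okCX`, `okD` give helper708's frame `PD` of the
  natural and of the replaced list, the sizes and the number of levels
-/

set_option autoImplicit false

noncomputable section

open Finset
open scoped Classical

namespace Crest.Agent.R017.S8X50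

open Crest.Agent.R012 Crest.Agent.R012.Eis
open Crest.Agent.R017.B770
open Crest.Agent.R017.FE47 (SM)
open Crest.Agent.R017.Prov71
open Crest.Agent.R017.XG702 (Pcs)
open Crest.Agent.R017.XT71 (Sys Win mx)
open Crest.Agent.R017.I1146 (LN)
open Crest.Agent.R017.E5B71 Crest.Agent.R017.E5L770
open Crest.Agent.R017.P1l54 hiding nO
open Crest.Agent.R017.Sf770 (nO)
open Crest.Agent.R017.ExBox960 Crest.Agent.R017.ExP960
open Crest.Agent.R017.P1X960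
open Crest.Agent.R017.P10X764 (clN bN bR LN_clN)
open Crest.Agent.R017.P10146 (mass_am')
open Crest.Agent.R017.TM708 (PD R5)

/-- **the frame of a child** of a difference -/
structure F8X (X δ L : ℝ) (p : IX5 → ℝ) (pq bb : ℝ) (a : BcX) (qs : List Pq) : Prop where
  hκ : |a.1.l - cκ (prX p) * L| ≤ δ * L
  hx : |a.1.z - cx' (prX p) * L| ≤ δ * L
  hN : |a3 a.1.toBd - cN (prX p) * L| ≤ 3 * (δ * L)
  hn : |LN (clN a qs) - pq * L| ≤ 4 * (δ * L)
  lo : (cκ (prX p) / 2 - 2 * cx' (prX p)) * L - 4 * (δ * L) ≤ LN (clN a qs)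
  hi : LN (clN a qs) ≤ (cN (prX p) + cx' (prX p)) * L + 4 * (δ * L)
  us0 : |(a.1.us 2).z - cu (prX p) 2 * L| ≤ δ * L
  us1 : |(a.1.us 3).z - cu (prX p) 3 * L| ≤ δ * L
  us2 : |(a.1.us 4).z - cu (prX p) 4 * L| ≤ δ * L
  zs : |a.1.zs 2 - p (.inr 1) * L| ≤ δ * L
  hd : |dz a.1 - (cu (prX p) 2 - p (.inr 1)) * L| ≤ 2 * (δ * L)
  hb : |a.2.2 - bb * L| ≤ δ * L
  top : Real.log 2 * nO a.1.toBd ≤ max 0 (top5 (prX p)) * L + 20 * (δ * L) + Real.log 2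

theorem s8x_frame {c β : ℝ} {Par : Set (Fin 3 ⊕ Fin 5 → ℝ)} {P : DPar} {s : Eis}
    {X δ δ' B τ : ℝ} {N : ℕ} {a : BcX} {qs : List Pq} (hX1 : 1 < X) (hδ : 0 ≤ δ)
    (hτ : 100 * δ ≤ τ) (hδ' : 0 ≤ δ') (hlen : qs.length ≤ N)
    (hgl : ∀ p ∈ qs, Dq.lump p ∨ Dq.nl X p ≤ δ)
    {q : (I8X → ℝ) × (Kd → ℝ)} (hq : q ∈ Dom8X c β Par DifL)
    (hw : Win S8X q.1 δ N B δ' X a) (hm : ∀ t, |Dq.mass X qs t - q.2 t| ≤ δ)
    (hg : Dq.Good X δ' B qs) (hl : ∀ p ∈ qs, Dq.lump p → (S8X.ev X a, Dq.nl X p) ∈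
      (∅ : Set ((I8X → ℝ) × ℝ))) (hok : okCX P s a qs) (hokD : okD a) :
    F8X X δ (Real.log X) (bp q.1)
      (q.1 (.inr 0) + q.1 (.inr 1) + q.1 (.inr 2) + q.2 .am) (q.1 (.inr 3)) a qs ∧
      PD X τ (max B 3) (X ^ δ') N (bN (bp q.1)) 1 a.2.1 qs a.1.l ∧
      PD X τ (max B 3) (X ^ δ') N (bR (bp q.1)) 1 (rzD a.2.1 (dz a.1)) qs a.1.l := by
  obtain ⟨hbok, hsm, hlmp, hamq, hb0⟩ := hok
  obtain ⟨hD0, hD1⟩ := hokD
  obtain ⟨hq1, hq2, hq3, hq4⟩ := hq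
  set p : IX5 → ℝ := bp q.1 with hp
  set L := Real.log X with hL
  have hL0' : 0 < L := Real.log_pos hX1
  have hev : ∀ i, |S8X.ev X a i - q.1 i| ≤ δ := hw.ev
  have hdiv : ∀ {z c : ℝ}, |z / L - c| ≤ δ → |z - c * L| ≤ δ * L := by
    intro z c h1
    have h2 : z - c * L = (z / L - c) * L := by field_simp
    rw [h2, abs_mul, abs_of_pos hL0']
    exact mul_le_mul_of_nonneg_right h1 hL0'.le
  have hk : |a.1.l - cκ (prX p) * L| ≤ δ * L := hdiv (hev (.inl (.inl (.inl 0))))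
  have hz : |a.1.z - cx' (prX p) * L| ≤ δ * L := hdiv (hev (.inl (.inl (.inl 1))))
  have hu2 : |(a.1.us 2).z - cu (prX p) 2 * L| ≤ δ * L := hdiv (hev (.inl (.inl (.inr 2))))
  have hu3 : |(a.1.us 3).z - cu (prX p) 3 * L| ≤ δ * L := hdiv (hev (.inl (.inl (.inr 3))))
  have hu4 : |(a.1.us 4).z - cu (prX p) 4 * L| ≤ δ * L := hdiv (hev (.inl (.inl (.inr 4))))
  have hzs : |a.1.zs 2 - p (.inr 1) * L| ≤ δ * L := hdiv (hev (.inl (.inr 1)))
  have hv0 : |(a.2.1 0).z - q.1 (.inr 0) * L| ≤ δ * L := hdiv (hev (.inr 0))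
  have hv1 : |(a.2.1 1).z - q.1 (.inr 1) * L| ≤ δ * L := hdiv (hev (.inr 1))
  have hv2 : |(a.2.1 2).z - q.1 (.inr 2) * L| ≤ δ * L := hdiv (hev (.inr 2))
  have hbw : |a.2.2 - q.1 (.inr 3) * L| ≤ δ * L := hdiv (hev (.inr 3))
  have hma : |LN qs - q.2 .am * L| ≤ δ * L := by
    have h1 := hm .am
    rw [mass_am' hamq] at h1
    exact hdiv h1
  have hA : |a3 a.1.toBd - cN (prX p) * L| ≤ 3 * (δ * L) := by
    have e1 : a3 a.1.toBd - cN (prX p) * L = ((a.1.us 2).z - cu (prX p) 2 * L) +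
        ((a.1.us 3).z - cu (prX p) 3 * L) + ((a.1.us 4).z - cu (prX p) 4 * L) := by
      unfold E5L770.a3 cN; ring
    rw [e1]
    refine (abs_add_le _ _).trans ?_
    have := abs_add_le ((a.1.us 2).z - cu (prX p) 2 * L) ((a.1.us 3).z - cu (prX p) 3 * L)
    linarith
  obtain ⟨k1, k2⟩ := abs_le.1 hk
  obtain ⟨z1, z2⟩ := abs_le.1 hz
  obtain ⟨u21, u22⟩ := abs_le.1 hu2
  obtain ⟨zs1, zs2⟩ := abs_le.1 hzs
  obtain ⟨v01, v02⟩ := abs_le.1 hv0
  obtain ⟨v11, v12⟩ := abs_le.1 hv1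
  obtain ⟨v21, v22⟩ := abs_le.1 hv2
  obtain ⟨m1, m2⟩ := abs_le.1 hma
  have hnat := hq2.1
  have w0 : 0 ≤ q.1 (.inr 0) ∧ q.1 (.inr 0) ≤ cu (prX p) 2 := ⟨hq1.v0, hnat.1⟩
  have w1 : 0 ≤ q.1 (.inr 1) ∧ q.1 (.inr 1) ≤ cu (prX p) 3 := ⟨hq1.v1, hnat.2.1⟩
  have w2 : 0 ≤ q.1 (.inr 2) ∧ q.1 (.inr 2) ≤ cu (prX p) 4 := ⟨hq1.v2, hnat.2.2⟩
  have hx1 : q.2 .am ≤ cx' (prX p) := hq1.x1
  have hcN : cN (prX p) = cu (prX p) 2 + cu (prX p) 3 + cu (prX p) 4 := rfl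
  have hnz : LN (clN a qs) = (a.2.1 0).z + (a.2.1 1).z + (a.2.1 2).z + LN qs := LN_clN a qs
  have hδL : 0 ≤ δ * L := by positivity
  have w0L := mul_le_mul_of_nonneg_right w0.2 hL0'.le
  have w1L := mul_le_mul_of_nonneg_right w1.2 hL0'.le
  have w2L := mul_le_mul_of_nonneg_right w2.2 hL0'.le
  have hx1L := mul_le_mul_of_nonneg_right hx1 hL0'.le
  have hq4L := mul_le_mul_of_nonneg_right hq4 hL0'.le
  have hBB : B ≤ max B 3 := le_max_left _ _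
  have hB0 : (0 : ℝ) ≤ max B 3 := (by norm_num : (0 : ℝ) ≤ 3).trans (le_max_right _ _)
  have hs1 : ∀ i, Dq.s1 (a.2.1 i) ≤ X ^ δ' := by
    intro i
    have h1 : mx Dq.s1 (List.ofFn a.2.1) ≤ X ^ δ' := (le_max_right _ _).trans hw.s₁
    exact (XT71.le_mx (List.mem_ofFn.2 ⟨i, rfl⟩)).trans h1
  have hs2 : ∀ i, Dq.s2 (a.2.1 i) ≤ X ^ (max B 3) := by
    intro i
    have h1 : mx Dq.s2 (List.ofFn a.2.1) ≤ X ^ B := (le_max_right _ _).trans hw.s₂
    exact ((XT71.le_mx (List.mem_ofFn.2 ⟨i, rfl⟩)).trans h1).trans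
      (Real.rpow_le_rpow_of_exponent_le hX1.le hBB)
  have hgran : ∀ p' ∈ qs, p'.z ≤ δ * L := by
    intro p' hp'
    rcases hgl p' hp' with h1 | h1
    · exact absurd (hl p' hp' h1) (Set.notMem_empty _)
    · unfold Pcs.nl at h1
      rw [div_le_iff₀ hL0'] at h1
      exact h1
  have hτL : 100 * (δ * L) ≤ τ * L := by
    have := mul_le_mul_of_nonneg_right hτ hL0'.le
    linarith
  have hd : |dz a.1 - (cu (prX p) 2 - p (.inr 1)) * L| ≤ 2 * (δ * L) := by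
    have e1 : dz a.1 = (a.1.us 2).z - a.1.zs 2 := rfl
    rw [e1, abs_le]
    constructor <;> linarith
  obtain ⟨d1, d2⟩ := abs_le.1 hd
  have hqs : ∀ p' ∈ qs, p'.kd = .am ∧ 0 ≤ p'.z ∧ p'.z ≤ τ * L ∧
      Dq.s2 p' ≤ X ^ (max B 3) ∧ Dq.s1 p' ≤ X ^ δ' := by
    intro p' hp'
    obtain ⟨s1', s2', z0'⟩ := hg p' hp'
    refine ⟨hamq p' hp', z0', ?_, s2'.trans (Real.rpow_le_rpow_of_exponent_le hX1.le hBB), s1'⟩
    have := hgran p' hp'
    linarith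
  have hn1 : ((nm (1 : Eis) : ℕ) : ℝ) ≤ X ^ (max B 3) := by
    rw [nm_one, Nat.cast_one]
    exact Real.one_le_rpow hX1.le hB0
  refine ⟨⟨hk, hz, hA, ?_, ?_, ?_, hu2, hu3, hu4, hzs, hd, hbw, ?_⟩, ?_, ?_⟩
  · rw [hnz, abs_le]
    constructor <;> linarith
  · rw [hnz]
    linarith
  · rw [hnz, hcN]
    linarith
  · have hz0 : 0 ≤ a.1.z := hbok.base.2.1
    have h1 : nO a.1.toBd = nL a.1.l (a3 a.1.toBd) a.1.z := rfl
    rw [h1]
    refine (nL_le hX1 a.1.toBd).trans ?_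
    have h2 : top5 (S5.ev X a.1.toBd) ≤ top5 (prX p) + 10 * δ :=
      top5_lip _ _ δ hδ fun i => hev (.inl (.inl i))
    have h3 : max 0 (top5 (S5.ev X a.1.toBd)) ≤ max 0 (top5 (prX p)) + 10 * δ := by
      refine max_le ?_ ?_
      · have := le_max_left 0 (top5 (prX p))
        linarith
      · have := le_max_right 0 (top5 (prX p))
        linarith
    have h4 := mul_le_mul_of_nonneg_right h3 hL0'.le
    linarith
  · refine ⟨one_ne_zero, hn1, Real.one_le_rpow hX1.le hδ', fun i => (hlmp i).1,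
      fun i => (hlmp i).2, fun i => hs2 i, fun i => hs1 i, ?_, ?_, ?_, ?_, hlen, ?_, ?_⟩
    · show _ ≤ (cu (prX p) 2 + τ) * L
      linarith
    · show _ ≤ (cu (prX p) 3 + τ) * L
      linarith
    · show _ ≤ (cu (prX p) 4 + τ) * L
      linarith
    · exact hqs
    · show _ ≤ (cx' (prX p) + τ) * L
      linarith
    · show |_ - cκ (prX p) * L| ≤ τ * L
      refine hk.trans ?_
      linarith
  · refine ⟨one_ne_zero, hn1, Real.one_le_rpow hX1.le hδ', fun i => ?_, fun i => ?_, fun i => ?_,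
      fun i => ?_, ?_, ?_, ?_, ?_, hlen, ?_, ?_⟩
    · fin_cases i
      · exact (hlmp 0).1
      · exact (hlmp 1).1
      · exact (hlmp 2).1
    · fin_cases i
      · exact hD0
      · exact hD1
      · exact (hlmp 2).2
    · fin_cases i
      · exact hs2 0
      · exact hs2 1
      · exact hs2 2
    · fin_cases i
      · exact hs1 0
      · exact hs1 1
      · exact hs1 2
    · show (a.2.1 0).z - dz a.1 ≤ (p (.inr 1) + τ) * L
      linarith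
    · show (a.2.1 1).z + dz a.1 ≤ (cu (prX p) 2 + cu (prX p) 3 - p (.inr 1) + τ) * L
      linarith
    · show (a.2.1 2).z ≤ (cu (prX p) 4 + τ) * L
      linarith
    · exact hqs
    · show _ ≤ (cx' (prX p) + τ) * L
      linarith
    · show |_ - cκ (prX p) * L| ≤ τ * L
      refine hk.trans ?_
      linarith

end Crest.Agent.R017.S8X50
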