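import Crest.Agent.R017.RnXg_571
import Crest.Agent.R017.E3Tz_744
import Crest.Agent.R017.S8pdX_50
import Crest.Agent.R017.E3Fc_61

/-!
# Row 17, class E of `P1` (helper571): the `R`-half of E3 for the differences

* `lines_X` : both real lines of one `(i, d, e)`
* `frR` : the frame of one datum
* **`rnU_X`** : helper61's `RnU`
-/

set_option autoImplicit false
set_option maxHeartbeats 400000

noncomputable section

open Finset
open scoped ComplexConjugate

namespace Crest.Agent.R017.RnX571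

open Crest.Agent.R012 Crest.Agent.R012.Eis Crest.Agent.R012.MC
open Crest.Agent.R012.LS2 (S mem_S bl mem_bl)
open Crest.Agent.R012.T411 (NCube)
open Crest.Agent.R017.FE47 (PU SM)
open Crest.Agent.R017.CM106
open Crest.Agent.R017.XG702 (Pcs)
open Crest.Agent.R017.XT71 (Sys Win mx)
open Crest.Agent.R017.Prov71
open Crest.Agent.R017.B770
open Crest.Agent.R017.ER911 Crest.Agent.R017.ExpC702
open Crest.Agent.R017.RM986 (Plain)
open Crest.Agent.R017.R3571 (RMm RMm_nonneg)
open Crest.Agent.R017.Mode405 (Slp)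
open Crest.Agent.R017.PX764 (n6)
open Crest.Agent.R017.E3Z548 (FH)
open Crest.Agent.R017.E3Sz579 (Ld)
open Crest.Agent.R017.E3Hi290 (RN2XF)
open Crest.Agent.R017.TM708 (PD)
open Crest.Agent.R017.I1146 (LN)
open Crest.Agent.R017.Sup271 (NPm)
open Crest.Agent.R017.End699 (PF)
open Crest.Agent.R017.XEx298 (Rt)
open Crest.Agent.R017.RnP571
open Crest.Agent.R017.PoHx72 (Cls)
open Crest.Agent.R017.ROX744 (PrU)
open Crest.Agent.R017.E5B71 Crest.Agent.R017.E5L770
open Crest.Agent.R017.P1l54 (ParOK)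
open Crest.Agent.R017.ExBox960 Crest.Agent.R017.ExP960
open Crest.Agent.R017.P1X960
open Crest.Agent.R017.P10X764
open Crest.Agent.R017.E3N146 (Bf Tf)
open Crest.Agent.R017.S8X50 (F8X s8x_frame)

lemma Nx_div {L : ℝ} (hL : 0 < L) (v h p δ e s : ℝ) :
    Nx (v / L) (h / L) (p / L) (δ / L) (e / L) (s / L) =
      (h / 3 + 4 / 3 * v + 4 / 3 * p - δ + e + min 0 (δ + e - s)) / L := by
  have h1 : min 0 (δ + e - s) / L = min (0 / L) ((δ + e - s) / L) :=
    (min_div_div_right hL.le 0 _).symm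
  have h2 : min 0 (δ / L + e / L - s / L) = min 0 (δ + e - s) / L := by
    rw [h1, zero_div, ← add_div, ← sub_div]
  unfold Nx
  rw [h2]
  ring

lemma hJ_div {L : ℝ} (hL : 0 < L) (k p δ x E : ℝ) :
    hJ (k / L) (p / L) (δ / L) (x / L) (E / L) = hJ k p δ x E / L := by
  unfold RnP571.hJ
  rw [← max_div_div_right hL.le]
  congr 1 <;> ring

set_option maxHeartbeats 1600000 in
/-- **both real lines of one `(i, d, e)`**, the family `H = exp hJ` -/
theorem lines_X {L κ y₃ y₄ u x dd N vt n s0 m y l A z t t₀ i δ e w z₃ : ℝ} (hL : 0 < L)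
    (hN : N = y₃ + y₄ + u) (hD : Dh κ y₃ y₄ u x (dd * κ)) (ht₀ : 0 < t₀) (ht : t = 40 * t₀)
    (ht1 : t ≤ κ / 80000)
    (hB : Bf (κ * L) (N * L) (x * L) (max 0 (5 / 4 * (N * L) - κ * L)) vt n s0 (dd * κ * L) m y
      (40 * (t₀ * L)))
    (kl : |l - κ * L| ≤ t₀ * L) (zl : |z - x * L| ≤ t₀ * L) (Al : |A - N * L| ≤ 3 * (t₀ * L))
    (n0 : (κ / 2 - 2 * x) * L - t₀ * L ≤ n) (n1 : n ≤ (N + x) * L + 4 * (t₀ * L)) (hi : i ≤ vt)
    (δ0 : 0 ≤ δ) (δ1 : δ ≤ l / 6) (e0 : 0 ≤ e) (e1 : e ≤ l / 64)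
    (hLd : 0 ≤ hJ l n δ z (max 0 (5 / 4 * A - l)) + 2 * i - l - δ)
    (z3 : z₃ ≤ (u + t) * L) (hw : w ≤ (x + t) * L) :
    Nx (i / L) (hJ l n δ z (max 0 (5 / 4 * A - l)) / L) (n / L) (δ / L) (e / L) (s0 / L) ≤
      κ + n / L + P1Q904.LQ N κ (dd * κ) ∧
    ∀ w₁ w₂ : ℝ, LnR (EN dd) g2 (κ + n / L + P1Q904.LQ N κ (dd * κ)) (l / L) (i / L)
      (hJ l n δ z (max 0 (5 / 4 * A - l)) / L) (n / L) (δ / L) (e / L) w₁ w₂ (z₃ / L) (w / L) t := by
  have htL : 0 ≤ t₀ * L := by positivity
  obtain ⟨k1, k2⟩ := abs_le.1 kl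
  obtain ⟨z1, z2⟩ := abs_le.1 zl
  obtain ⟨A1, A2⟩ := abs_le.1 Al
  -- the two exponents of `H`
  set E' : ℝ := max 0 (5 / 4 * A - l) with hE'
  set E0' : ℝ := max 0 (5 / 4 * (N * L) - κ * L) with hE0'
  have hEE : E0' ≤ E' + 5 * (t₀ * L) := by
    refine max_le ?_ ?_
    · have := le_max_left 0 (5 / 4 * A - l)
      linarith
    · have := le_max_right 0 (5 / 4 * A - l)
      linarith
  have hhJ : hJ l n δ z E' ≤ hJ (κ * L) n δ (x * L) E0' + 17 * (t₀ * L) := by
    unfold RnP571.hJ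
    refine max_le ?_ ?_
    · have := le_max_left (κ * L / 64) (4 / 3 * (n - δ) - κ * L + x * L - 3 * E0')
      linarith
    · have := le_max_right (κ * L / 64) (4 / 3 * (n - δ) - κ * L + x * L - 3 * E0')
      linarith
  set h' : ℝ := hJ l n δ z E' with hh'
  constructor
  · -- the cubes
    have h1 := bias_R (e := e) (v := i) (h := h') (δ := δ) hB (by linarith) hi (by
      have e9 : max (κ * L / 64) (4 / 3 * (n - δ) - κ * L + x * L - 3 * E0') =
        hJ (κ * L) n δ (x * L) E0' := rfl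
      rw [e9]
      linarith) δ0
    rw [Nx_div hL, div_le_iff₀ hL]
    have hLQ : P1Q904.LQ N κ (dd * κ) * L = E0' + 3 / 4 * (dd * κ) * L := by
      unfold P1Q904.LQ
      rw [add_mul, max_mul_of_nonneg _ _ hL.le, zero_mul, hE0']
      congr 2
      ring
    have h2 : (κ + n / L + P1Q904.LQ N κ (dd * κ)) * L = κ * L + n + (E0' +
        3 / 4 * (dd * κ) * L) := by
      rw [← hLQ]
      field_simp
    rw [h2]
    have h3 : 0 ≤ dd * κ * L := mul_nonneg hD.d0 hL.le
    have h4 : t * L ≤ κ / 80000 * L := mul_le_mul_of_nonneg_right ht1 hL.le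
    rw [ht] at h4
    have h5 : 0 < κ * L := by have := hD.k0; positivity
    linarith
  · intro w₁ w₂
    have hk0 := hD.k0
    have ht0 : 0 ≤ t := by rw [ht]; linarith
    have htt : t₀ ≤ t := by rw [ht]; linarith
    have h1 : |l / L - κ| ≤ t := by
      have e1 : l / L - κ = (l - κ * L) / L := by field_simp
      rw [e1, abs_div, abs_of_pos hL, div_le_iff₀ hL]
      exact kl.trans (mul_le_mul_of_nonneg_right htt hL.le)
    have htL2 : t * L = 40 * (t₀ * L) := by rw [ht]; ring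
    have hv1 := hB.v1
    have hv2 := hB.v2
    have hxL : 0 ≤ x * L := mul_nonneg hD.x0 hL.le
    have hres := lnr_X (d := dd) (k := κ) (k' := l / L) (y₃ := y₃) (y₄ := y₄) (u := u) (x := x)
      (t := t) (p := n / L) (v := i / L) (h := h' / L) (δ := δ / L) (e := e / L) (z₁ := w₁)
      (z₂ := w₂) (z₃ := z₃ / L) (w := w / L) hD ht0 ht1 h1
      (by rw [le_div_iff₀ hL]; nlinarith)
      (by rw [div_le_iff₀ hL, ← hN]; nlinarith)
      (by rw [div_le_iff₀ hL, ← hN]; nlinarith)
      (by rw [div_le_iff₀ hL, ← hN]; nlinarith)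
      (by
        rw [div_le_iff₀ hL, ← hN, add_mul]
        have e1 : hJ κ (n / L) (δ / L) x (max 0 (5 / 4 * N - κ)) * L =
            hJ (κ * L) n δ (x * L) E0' := by
          have e2 := hJ_div hL (κ * L) n δ (x * L) E0'
          have e3 : κ * L / L = κ := by field_simp
          have e4 : x * L / L = x := by field_simp
          have e5 : E0' / L = max 0 (5 / 4 * N - κ) := by
            have e6 : E0' = max 0 (5 / 4 * N - κ) * L := by
              rw [max_mul_of_nonneg _ _ hL.le, zero_mul, hE0']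
              congr 1
              ring
            rw [e6]
            field_simp
          rw [e3, e4, e5] at e2
          rw [e2]
          field_simp
        rw [e1]
        linarith)
      (by
        have e1 : h' / L + 2 * (i / L) - l / L - δ / L = (h' + 2 * i - l - δ) / L := by ring
        rw [e1]
        exact div_nonneg hLd hL.le)
      (div_nonneg δ0 hL.le) (by rw [div_le_iff₀ hL]; nlinarith) (div_nonneg e0 hL.le)
      (by rw [div_le_iff₀ hL]; nlinarith) (by rw [div_le_iff₀ hL]; exact z3)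
      (by rw [div_le_iff₀ hL]; exact hw)
    rw [← hN] at hres
    exact hres

end Crest.Agent.R017.RnX571
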