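import Crest.Agent.R017.RstX_290

/-!
# Row 17, REST, class E (helper290): the real lines of the difference, part 2

Choice of `H`: `hX = max (k/64) (4/3 (p - δ) - k + s)` for `δ ≤ k/6`, `k + δ - 2 v` beyond;
`s = XS N k x = 9/4 x - 3 L`.
* `tN_le`, `tF_le`, `tB_le` : the (T1)-line, own number, flat number with the short lump, bias number
* `sF_le`, `sB_le`, `lF_le`, `lB_le` : the LS-line and the L-line at the cut `K^(1/20)`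
* `thX`, `thX2` : `H² V³ ≤ K²`
* `coreX`, `coreX2` : the structured part with `hX`, second form
-/

set_option autoImplicit false
set_option linter.unusedVariables false

noncomputable section

namespace Crest.Agent.R017.RstX290

open Crest.Agent.R017.RnP571 (Dh)
open Crest.Agent.R017.RstQ702 (LR XS K0 tS tS_cases K0_le loss_le)
open Crest.Agent.R017.P1Q904 (gQ gQ_cases)

/-- the exponent of `H` for `δ ≤ k/6` -/
def hX (k p δ s : ℝ) : ℝ := max (k / 64) (4 / 3 * (p - δ) - k + s)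

lemma hX_ge (k p δ s : ℝ) : k / 64 ≤ hX k p δ s ∧ 4 / 3 * (p - δ) - k + s ≤ hX k p δ s :=
  ⟨le_max_left _ _, le_max_right _ _⟩

/-- the conditions on `h` on the T-side -/
structure Hc (k v p δ s t h : ℝ) : Prop where
  a : p - δ - k + s - t ≤ h
  b : (k / 64 - t ≤ h ∧ 4 / 3 * (p - δ) - k + s - t ≤ h) ∨ (k / 6 - t ≤ δ ∧ k + δ - 2 * v - t ≤ h)

/-- **(T1), own number** -/
theorem tN_le {k y₃ y₄ u x D t p v m δ b l n z h : ℝ} (H : Ef k y₃ y₄ u x D t p v m)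
    (hh : Hc k v p δ (XS (y₃ + y₄ + u) k x) t h) (δ0 : 0 ≤ δ) (b0 : 0 ≤ b) (l0 : 0 ≤ l - b)
    (hl : l ≤ v - 2 * δ + b + t) (hn0 : 0 ≤ n) (hn : n ≤ p - δ - b + t) (hz : z ≤ y₃ + t) :
    2 / 3 * k - (h + v) / 3 + (tS l n z + 2 / 3 * (D / k) * n) + 2 * δ +
      (v - 2 * δ - (l - b)) / 3 - p / 3 ≤ k + p + LR (y₃ + y₄ + u) k D x + 10 * t := by
  have hK := K0_le H.hD H.t0 (by have := H.p1; have := H.m0; linarith) H.v1 H.v2 δ0 b0 hl hn hz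
  obtain ⟨h1, h2⟩ := hh
  obtain ⟨hT1, hT2⟩ := tS_cases l n z
  have p1' := H.p1
  have m0' := H.m0
  have N1' := H.hD.N1
  have hloss := loss_le H.hD.k0 H.hD.d0 H.hD.d1 H.t0 (show n ≤ 102 / 125 * k + 2 * t by linarith) (p := p)
  obtain ⟨⟨k0, u4, y43, u0, y3, N1, near, x0, adm, d0, d1⟩, t0, t1, m0, p1, p2, p3, v1, v2, v3,
    v4⟩ := H
  have hL1 := le_max_left 0 (5 / 4 * (y₃ + y₄ + u) - k)
  have hL2 := le_max_right 0 (5 / 4 * (y₃ + y₄ + u) - k)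
  unfold LR
  unfold XS at *
  generalize K0 l n z = K at *
  generalize tS l n z = T at *
  generalize max 0 (5 / 4 * (y₃ + y₄ + u) - k) = L at *
  rcases h2 with ⟨h2, h3⟩ | ⟨h2, h3⟩ <;> rcases hT1 with hT1 | hT1 <;> rcases hT2 with hT2 | hT2 <;>
    rcases adm with ⟨a0, rfl | a1⟩ | ⟨a1, a2, a3⟩ <;> linarith

/-- **(T1), flat number** -/
theorem tF_le {k y₃ y₄ u x D t p v m δ b l n T Z h : ℝ} (H : Ef k y₃ y₄ u x D t p v m)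
    (hh : Hc k v p δ (XS (y₃ + y₄ + u) k x) t h)
    (δ0 : 0 ≤ δ) (b0 : 0 ≤ b) (l0 : 0 ≤ l - b) (hl : l ≤ v - 2 * δ + b + t)
    (hn0 : 0 ≤ n) (hn : n ≤ p - δ - b + t) (hZ : Z ≤ 17 / 100 * k + t)
    (hT : T ≤ l + n + Z ∨ T ≤ 5 / 3 * n + l / 3) :
    2 / 3 * k - (h + v) / 3 + T + 2 * δ +
      (v - 2 * δ - (l - b)) / 3 - p / 3 ≤ k + p + LR (y₃ + y₄ + u) k D x + 10 * t := by
  obtain ⟨h1, h2⟩ := hh
  obtain ⟨⟨k0, u4, y43, u0, y3, N1, near, x0, adm, d0, d1⟩, t0, t1, m0, p1, p2, p3, v1, v2, v3,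
    v4⟩ := H
  have hL1 := le_max_left 0 (5 / 4 * (y₃ + y₄ + u) - k)
  have hL2 := le_max_right 0 (5 / 4 * (y₃ + y₄ + u) - k)
  unfold LR
  unfold XS at *
  generalize max 0 (5 / 4 * (y₃ + y₄ + u) - k) = L at *
  rcases hT with hT | hT <;> rcases h2 with ⟨h2, h3⟩ | ⟨h2, h3⟩ <;>
  rcases adm with ⟨a0, rfl | a1⟩ | ⟨a1, a2, a3⟩ <;> linarith

/-- **(T1), bias number** -/
theorem tB_le {k y₃ y₄ u x D t p v m δ b l T s0 h : ℝ} (H : Ef k y₃ y₄ u x D t p v m)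
    (hh : Hc k v p δ (XS (y₃ + y₄ + u) k x) t h)
    (δ0 : 0 ≤ δ) (b0 : 0 ≤ b) (l0 : 0 ≤ l - b) (hl : l ≤ v - 2 * δ + b + t)
    (hs : 17 / 100 * k - m - t ≤ s0)
    (hT1 : T ≤ 5 / 3 * p + 2 / 3 * l - 5 / 3 * (δ + b))
    (hT2 : T ≤ 5 / 3 * p + 2 / 3 * l - 5 / 3 * (δ + b) - (s0 - (δ + b))) :
    2 / 3 * k - (h + v) / 3 + T + 2 * δ +
      (v - 2 * δ - (l - b)) / 3 - p / 3 ≤ k + p + LR (y₃ + y₄ + u) k D x + 10 * t := by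
  obtain ⟨h1, h2⟩ := hh
  obtain ⟨⟨k0, u4, y43, u0, y3, N1, near, x0, adm, d0, d1⟩, t0, t1, m0, p1, p2, p3, v1, v2, v3,
    v4⟩ := H
  have hL1 := le_max_left 0 (5 / 4 * (y₃ + y₄ + u) - k)
  have hL2 := le_max_right 0 (5 / 4 * (y₃ + y₄ + u) - k)
  unfold LR
  unfold XS at *
  generalize max 0 (5 / 4 * (y₃ + y₄ + u) - k) = L at *
  rcases le_total (δ + b) s0 with h0 | h0 <;> rcases h2 with ⟨h2, h3⟩ | ⟨h2, h3⟩ <;>
  rcases adm with ⟨a0, rfl | a1⟩ | ⟨a1, a2, a3⟩ <;> linarith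

/-- **LS, flat number** -/
theorem sF_le {k y₃ y₄ u x D t p v m δ b l n T Z : ℝ} (H : Ef k y₃ y₄ u x D t p v m)
    (δ0 : 0 ≤ δ) (b0 : 0 ≤ b) (hl : l ≤ v - 2 * δ + b + t) (hn : n ≤ p - δ - b + t)
    (hZ : Z ≤ 17 / 100 * k + t) (hT : T ≤ l + n + Z ∨ T ≤ 5 / 3 * n + l / 3) :
    2 / 3 * v + k / 20 + T + 2 * δ - p / 3 ≤ k + p + LR (y₃ + y₄ + u) k D x + 10 * t := by
  obtain ⟨⟨k0, u4, y43, u0, y3, N1, near, x0, adm, d0, d1⟩, t0, t1, m0, p1, p2, p3, v1, v2, v3,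
    v4⟩ := H
  have hL1 := le_max_left 0 (5 / 4 * (y₃ + y₄ + u) - k)
  have hL2 := le_max_right 0 (5 / 4 * (y₃ + y₄ + u) - k)
  unfold LR
  generalize max 0 (5 / 4 * (y₃ + y₄ + u) - k) = L at *
  rcases hT with hT | hT <;>
  rcases adm with ⟨a0, rfl | a1⟩ | ⟨a1, a2, a3⟩ <;> linarith

/-- **LS, bias number** -/
theorem sB_le {k y₃ y₄ u x D t p v m δ b l T s0 : ℝ} (H : Ef k y₃ y₄ u x D t p v m)
    (δ0 : 0 ≤ δ) (b0 : 0 ≤ b) (hl : l ≤ v - 2 * δ + b + t) (hs : 17 / 100 * k - m - t ≤ s0)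
    (hT1 : T ≤ 5 / 3 * p + 2 / 3 * l - 5 / 3 * (δ + b))
    (hT2 : T ≤ 5 / 3 * p + 2 / 3 * l - 5 / 3 * (δ + b) - (s0 - (δ + b))) :
    2 / 3 * v + k / 20 + T + 2 * δ - p / 3 ≤ k + p + LR (y₃ + y₄ + u) k D x + 10 * t := by
  obtain ⟨⟨k0, u4, y43, u0, y3, N1, near, x0, adm, d0, d1⟩, t0, t1, m0, p1, p2, p3, v1, v2, v3,
    v4⟩ := H
  have hL1 := le_max_left 0 (5 / 4 * (y₃ + y₄ + u) - k)
  have hL2 := le_max_right 0 (5 / 4 * (y₃ + y₄ + u) - k)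
  unfold LR
  generalize max 0 (5 / 4 * (y₃ + y₄ + u) - k) = L at *
  rcases le_total (δ + b) s0 with h0 | h0 <;>
  rcases adm with ⟨a0, rfl | a1⟩ | ⟨a1, a2, a3⟩ <;> linarith

/-- **L, flat number** -/
theorem lF_le {k y₃ y₄ u x D t p v m δ b l n T Z : ℝ} (H : Ef k y₃ y₄ u x D t p v m)
    (δ0 : 0 ≤ δ) (b0 : 0 ≤ b) (hl : l ≤ v - 2 * δ + b + t) (hn : n ≤ p - δ - b + t)
    (hZ : Z ≤ 17 / 100 * k + t) (hT : T ≤ l + n + Z ∨ T ≤ 5 / 3 * n + l / 3) :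
    -(k / 3) + 2 / 3 * v + k / 10 + T + 2 * δ - p / 3 ≤
      k + p + LR (y₃ + y₄ + u) k D x + 10 * t := by
  have h := sF_le H δ0 b0 hl hn hZ hT
  have := H.hD.k0
  linarith

/-- **L, bias number** -/
theorem lB_le {k y₃ y₄ u x D t p v m δ b l T s0 : ℝ} (H : Ef k y₃ y₄ u x D t p v m)
    (δ0 : 0 ≤ δ) (b0 : 0 ≤ b) (hl : l ≤ v - 2 * δ + b + t) (hs : 17 / 100 * k - m - t ≤ s0)
    (hT1 : T ≤ 5 / 3 * p + 2 / 3 * l - 5 / 3 * (δ + b))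
    (hT2 : T ≤ 5 / 3 * p + 2 / 3 * l - 5 / 3 * (δ + b) - (s0 - (δ + b))) :
    -(k / 3) + 2 / 3 * v + k / 10 + T + 2 * δ - p / 3 ≤
      k + p + LR (y₃ + y₄ + u) k D x + 10 * t := by
  have h := sB_le H δ0 b0 hl hs hT1 hT2
  have := H.hD.k0
  linarith

/-- `H² V³ ≤ K²` for `hX` -/
theorem thX {k y₃ y₄ u x D t p v m δ : ℝ} (H : Ef k y₃ y₄ u x D t p v m) (δ0 : 0 ≤ δ) :
    2 * hX k p δ (XS (y₃ + y₄ + u) k x) + 3 * v ≤ 2 * k := by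
  obtain ⟨⟨k0, u4, y43, u0, y3, N1, near, x0, adm, d0, d1⟩, t0, t1, m0, p1, p2, p3, v1, v2, v3,
    v4⟩ := H
  have hL1 := le_max_left 0 (5 / 4 * (y₃ + y₄ + u) - k)
  have hL2 := le_max_right 0 (5 / 4 * (y₃ + y₄ + u) - k)
  unfold hX XS at *
  generalize max 0 (5 / 4 * (y₃ + y₄ + u) - k) = L at *
  have hh := max_choice (k / 64) (4 / 3 * (p - δ) - k + (9 / 4 * x - 3 * L))
  rcases hh with hh | hh <;> rw [hh] <;>
  rcases adm with ⟨a0, rfl | a1⟩ | ⟨a1, a2, a3⟩ <;> linarith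

set_option maxHeartbeats 8000000 in
/-- **the structured part, second form** (`w = log (H V)`, `S` bounds the smallest lump) -/
lemma coreX {k y₃ y₄ u x D t p v w δ e i n S : ℝ} (hD : Dh k y₃ y₄ u x D) (t0 : 0 ≤ t)
    (t1 : t ≤ k / 20000) (p1 : p ≤ y₃ + y₄ + u + t)
    (v1 : v ≤ 2 * (y₃ + y₄ + u) - k + 9 / 4 * x + t)
    (v2 : v ≤ 3 / 4 * (y₃ + y₄ + u) + 9 / 4 * x + t)
    (hw : w ≤ v + hX k p δ (XS (y₃ + y₄ + u) k x) + t) (hL : 0 ≤ w + v - k - δ + t)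
    (δ0 : 0 ≤ δ) (δ1 : δ ≤ k / 6 + t) (e0 : 0 ≤ e) (e1 : e ≤ k / 64 + t)
    (hn : n ≤ p - δ - e + t) (i0 : 0 ≤ i)
    (hi : i ≤ w + p - k + t) (s1 : S ≤ u + t) (s2 : 3 * S ≤ n)
    (s3 : 2 * S ≤ i) :
    2 / 3 * k - w / 3 + 5 / 3 * δ + 2 * e + gQ (w + v - k - δ) (w + p - k) + 2 / 3 * (p - δ) +
      (i + 3 / 4 * S + 61 / 100 * D) + (w + p - k - i) / 3 + k / 200 ≤
      k + p + LR (y₃ + y₄ + u) k D x := by
  have hg := gQ_cases (w + v - k - δ) (w + p - k)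
  have hL1 := le_max_left 0 (5 / 4 * (y₃ + y₄ + u) - k)
  have hL2 := le_max_right 0 (5 / 4 * (y₃ + y₄ + u) - k)
  unfold LR
  unfold hX XS at *
  generalize max 0 (5 / 4 * (y₃ + y₄ + u) - k) = L at *
  have hh := max_choice (k / 64) (4 / 3 * (p - δ) - k + (9 / 4 * x - 3 * L))
  generalize gQ (w + v - k - δ) (w + p - k) = g at *
  obtain ⟨k0, u4, y43, u0, y3, N1, near, x0, adm, d0, d1⟩ := hD
  rcases hg with rfl | rfl | rfl | rfl <;> rcases hh with hh | hh <;> rw [hh] at hw <;>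
    rcases adm with ⟨a0, rfl | a1⟩ | ⟨a1, a2, a3⟩ <;> linarith

set_option maxHeartbeats 8000000 in
/-- the principal part -/
lemma coreX2 {k y₃ y₄ u x D t p v w δ e : ℝ} (hD : Dh k y₃ y₄ u x D) (t0 : 0 ≤ t)
    (t1 : t ≤ k / 20000) (p0 : k / 2 - 2 * x - t ≤ p) (p1 : p ≤ y₃ + y₄ + u + t)
    (v1 : v ≤ 2 * (y₃ + y₄ + u) - k + 9 / 4 * x + t)
    (v2 : v ≤ 3 / 4 * (y₃ + y₄ + u) + 9 / 4 * x + t)
    (hw : w ≤ v + hX k p δ (XS (y₃ + y₄ + u) k x) + t) (hL : 0 ≤ w + v - k - δ + t)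
    (δ0 : 0 ≤ δ) (δ1 : δ ≤ k / 6 + t) (e0 : 0 ≤ e) (e1 : e ≤ k / 64 + t) :
    2 / 3 * k - w / 3 + 5 / 3 * δ + 2 * e + gQ (w + v - k - δ) (w + p - k) + 2 / 3 * (p - δ) +
      max 0 ((w + p - k) / 3) + k / 200 ≤ k + p + LR (y₃ + y₄ + u) k D x := by
  have hg := gQ_cases (w + v - k - δ) (w + p - k)
  have hL1 := le_max_left 0 (5 / 4 * (y₃ + y₄ + u) - k)
  have hL2 := le_max_right 0 (5 / 4 * (y₃ + y₄ + u) - k)
  unfold LR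
  unfold hX XS at *
  generalize max 0 (5 / 4 * (y₃ + y₄ + u) - k) = L at *
  have hh := max_choice (k / 64) (4 / 3 * (p - δ) - k + (9 / 4 * x - 3 * L))
  generalize gQ (w + v - k - δ) (w + p - k) = g at *
  have h0 : max 0 ((w + p - k) / 3) = 0 ∨ max 0 ((w + p - k) / 3) = (w + p - k) / 3 :=
    max_choice _ _
  obtain ⟨k0, u4, y43, u0, y3, N1, near, x0, adm, d0, d1⟩ := hD
  rcases h0 with h0 | h0 <;> rw [h0] <;>
  rcases hg with rfl | rfl | rfl | rfl <;> rcases hh with hh | hh <;> rw [hh] at hw <;>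
    rcases adm with ⟨a0, rfl | a1⟩ | ⟨a1, a2, a3⟩ <;> linarith

end Crest.Agent.R017.RstX290
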