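import Crest.Agent.R017.RnXi_571
import Crest.Agent.R017.RstX2_290

/-!
# Row 17, class E, REST of StrUX (helper571): the real lines of the `R`-numbers of one level

* `lnr_XR` : the noncubes, helper290's `H`, budget `LR`
* `bias_RX` : the cubes
* `frG` : the frame, any window
* `lines_RX` : both real lines of one `(i, d, e)`
-/

set_option autoImplicit false
set_option maxHeartbeats 400000

noncomputable section

open Finset
open scoped ComplexConjugate

namespace Crest.Agent.R017.RnX571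

open Crest.Agent.R012 Crest.Agent.R012.Eis Crest.Agent.R012.MC
open Crest.Agent.R012.LS2 (S mem_S bl mem_bl)
open Crest.Agent.R017.XT71 (Sys Win mx)
open Crest.Agent.R017.Prov71
open Crest.Agent.R017.B770
open Crest.Agent.R017.I1146 (LN)
open Crest.Agent.R017.P1Q904 (gQ gQ_cases)
open Crest.Agent.R017.RnP571
open Crest.Agent.R017.E5B71 Crest.Agent.R017.E5L770
open Crest.Agent.R017.P1l54 (ParOK)
open Crest.Agent.R017.ExBox960 Crest.Agent.R017.ExP960
open Crest.Agent.R017.P1X960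
open Crest.Agent.R017.P10X764
open Crest.Agent.R017.E3N146 (Bf Tf)
open Crest.Agent.R017.S8X50 (F8X s8x_frame)
open Crest.Agent.R017.E3Nx744 (TB)
open Crest.Agent.R017.RstQ702 (LR XS)
open Crest.Agent.R017.RstX290 (hX)

set_option maxHeartbeats 1600000 in
/-- **the real line of one level of REST**, helper290's `H` -/
theorem lnr_XR {d k k' y₃ y₄ u x t p v h δ e z₁ z₂ z₃ w : ℝ} (hD : Dh k y₃ y₄ u x (d * k))
    (t0 : 0 ≤ t) (t1 : t ≤ k / 80000) (hk : |k' - k| ≤ t) (p0 : k / 2 - 2 * x - t ≤ p)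
    (p1 : p ≤ y₃ + y₄ + u + 4 * t) (v1 : v ≤ 2 * (y₃ + y₄ + u) - k + 9 / 4 * x + t)
    (v2 : v ≤ 3 / 4 * (y₃ + y₄ + u) + 9 / 4 * x + t)
    (hh : h ≤ hX k p δ (XS (y₃ + y₄ + u) k x) + t) (hL : 0 ≤ h + 2 * v - k' - δ)
    (δ0 : 0 ≤ δ) (δ1 : δ ≤ k / 6 + t) (e0 : 0 ≤ e) (e1 : e ≤ k / 64 + t) (z3 : z₃ ≤ u + t)
    (w1 : w ≤ 0) :
    LnR (EN d) g2 (k + p + LR (y₃ + y₄ + u) k (d * k) x) k' v h p δ e z₁ z₂ z₃ w t := by
  obtain ⟨hkk, hkk'⟩ := abs_le.1 hk
  have hk0 := hD.k0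
  have hdk := hD.d0
  have hdk1 := hD.d1
  have hd0 : 0 ≤ d := by
    by_contra h0
    push Not at h0
    nlinarith
  have hd1 : d ≤ 1 / 40 := by
    by_contra h0
    push Not at h0
    nlinarith
  set s : ℝ := k' - k with hs
  set W : ℝ := v + h - s with hW
  have a1 : h + 2 * v - k' - δ = W + v - k - δ := by rw [hW, hs]; ring
  have a2 : p + v + h - k' = W + p - k := by rw [hW, hs]; ring
  have hg : g2 (h + 2 * v - k' - δ) (p + v + h - k') = gQ (W + v - k - δ) (W + p - k) := by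
    rw [g2_eq, a1, a2]
  have hNn : Nn g2 k' v h p δ e = 2 / 3 * k - W / 3 + 5 / 3 * δ + 2 * e +
      gQ (W + v - k - δ) (W + p - k) + 2 / 3 * (p - δ) + s / 3 := by
    unfold Nn
    rw [hg, hW, hs]
    ring
  have t4 : 4 * t ≤ k / 20000 := by linarith
  have t40 : 0 ≤ 4 * t := by linarith
  have b1 : k / 2 - 2 * x - 4 * t ≤ p := by linarith
  have b2 : v ≤ 2 * (y₃ + y₄ + u) - k + 9 / 4 * x + 4 * t := by linarith
  have b3 : v ≤ 3 / 4 * (y₃ + y₄ + u) + 9 / 4 * x + 4 * t := by linarith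
  have b4 : W ≤ v + hX k p δ (XS (y₃ + y₄ + u) k x) + 4 * t := by
    rw [hW]; linarith
  have b7 : δ ≤ k / 6 + 4 * t := by linarith
  have b5 : 0 ≤ W + v - k - δ + 4 * t := by rw [← a1]; linarith
  have b6 : e ≤ k / 64 + 4 * t := by linarith
  have hc2 := RstX290.coreX2 hD t40 t4 b1 p1 b2 b3 b4 b5 δ0 b7 e0 b6
  refine ⟨?_, ?_⟩
  · have h2 : 0 ≤ max 0 ((W + p - k) / 3) := le_max_left _ _
    rw [hNn]
    linarith
  · intro i q₁ q₂ q₃ x' i0 hi q10 q1 q20 q2 q30 q3 x0' x1 hn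
    rw [hNn, a2]
    rw [a2] at hi
    unfold EN
    have hx1 : x' ≤ t := by linarith
    have hn' : q₁ + q₂ + q₃ ≤ p - δ - e + 4 * t := by linarith
    have hi' : i ≤ W + p - k + 4 * t := by linarith
    have key1 : RM986.r3 d i q₁ q₂ q₃ 0 x' + (W + p - k - i) / 3 +
        (2 / 3 * k - W / 3 + 5 / 3 * δ + 2 * e + gQ (W + v - k - δ) (W + p - k) +
          2 / 3 * (p - δ) + s / 3) ≤
        k + p + LR (y₃ + y₄ + u) k (d * k) x + (q₁ + q₂ + q₃ + x') := by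
      have h1 := RM986.r3_le_P1 (d := d) (m := 0) (a := x') i0 q10 q20 q30
      set ζ₁ := min q₁ i
      set ζ₂ := min q₂ i
      set ζ₃ := min q₃ i
      have c1 : ζ₁ ≤ q₁ := min_le_left _ _
      have c2 : ζ₂ ≤ q₂ := min_le_left _ _
      have c3 : ζ₃ ≤ q₃ := min_le_left _ _
      obtain ⟨l1, l2, l3, l4, l5, l6⟩ := P1F904.l3_le i ζ₁ ζ₂ ζ₃
      unfold P1R904.r3 at h1
      rw [zero_add] at h1
      generalize P1R904.l3 i ζ₁ ζ₂ ζ₃ = l at h1 l1 l2 l3 l4 l5 l6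
      have hS : l ≤ 305 / 1000 * k := by
        obtain ⟨k0, u4, y43, u0, y3, N1, near, x0, adm, d0, d1⟩ := hD
        linarith
      have hdS : (3 / 4 + 2 * d) * (l + x') ≤ 3 / 4 * l + 61 / 100 * (d * k) + x' := by
        have h3 := mul_le_mul_of_nonneg_left hS hd0
        have h4 := mul_le_mul_of_nonneg_right hd1 x0'
        nlinarith
      have key := RstX290.coreX (S := l) (i := i) (n := q₁ + q₂ + q₃) hD t40 t4 p1 b2
        b3 b4 b5 δ0 b7 e0 b6 hn' i0 hi' (by linarith) (by linarith) (by linarith)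
      linarith
    have key2 : i / 3 + 2 * x' + 2 * (7 / 8 + d) * 0 + (W + p - k - i) / 3 +
        (2 / 3 * k - W / 3 + 5 / 3 * δ + 2 * e + gQ (W + v - k - δ) (W + p - k) +
          2 / 3 * (p - δ) + s / 3) ≤
        k + p + LR (y₃ + y₄ + u) k (d * k) x + (q₁ + q₂ + q₃ + x') := by
      have h2 : (W + p - k) / 3 ≤ max 0 ((W + p - k) / 3) := le_max_right _ _
      linarith
    rcases max_choice (RM986.r3 d i q₁ q₂ q₃ 0 x') (i / 3 + 2 * x' + 2 * (7 / 8 + d) * 0) with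
      h0 | h0 <;> rw [h0]
    · exact key1
    · exact key2

/-- **the cubes** (one level of REST) -/
theorem bias_RX {k N x ex vt v p s0 D m y t δ e h : ℝ} (H : Bf k N x ex vt p s0 D m y t)
    (hy : x ≤ y) (e1 : e ≤ k / 64 + t) (hv : v ≤ vt)
    (hh : h ≤ max (k / 64) (4 / 3 * (p - δ) - k + (9 / 4 * x - 3 * ex)) + t) (δ0 : 0 ≤ δ) :
    h / 3 + 4 / 3 * v + p / 3 - δ + e + min 0 (δ + e - s0) + k / 200 ≤
      k + (ex - 3 / 4 * x) + 10 * t := by
  obtain ⟨k0, x0, N1, adm, ex0, ex1, m0, y0, yx, D1, v1, v2, v3, v4, p1, s1, t0, t1⟩ := H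
  have hA := min_le_left 0 (δ + e - s0)
  have hB := min_le_right 0 (δ + e - s0)
  generalize min 0 (δ + e - s0) = M at *
  rcases max_choice (k / 64) (4 / 3 * (p - δ) - k + (9 / 4 * x - 3 * ex)) with h0 | h0 <;>
    rw [h0] at hh <;>
    rcases adm with ⟨a1, rfl | a2⟩ | ⟨a1, a2, a3⟩ <;> linarith

lemma hX_div {L : ℝ} (hL : 0 < L) (k p δ s : ℝ) :
    hX (k / L) (p / L) (δ / L) (s / L) = hX k p δ s / L := by
  unfold RstX290.hX
  rw [← max_div_div_right hL.le]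
  congr 1 <;> ring

set_option maxHeartbeats 1600000 in
/-- **the frame of one datum**, any window -/
lemma frG {c β : ℝ} {Par : Set (Fin 3 ⊕ Fin 5 → ℝ)} {X δ t₀ dd vt : ℝ} {a : BcX} {qs : List Pq}
    {q : (I8X → ℝ) × (Kd → ℝ)} (hX1 : 1 < X) (hδ : 0 ≤ δ) (ht₀ : 0 < t₀)
    (ht₀' : t₀ ≤ 1 / 1000000) (hδt : 100 * δ ≤ t₀) (hc0 : 0 ≤ c)
    (hPp : ParOK (prX (bp q.1)))
    (hDp : Dh (cκ (prX (bp q.1))) (cu (prX (bp q.1)) 2) (cu (prX (bp q.1)) 3)
      (cu (prX (bp q.1)) 4) (cx' (prX (bp q.1))) (dd * cκ (prX (bp q.1))))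
    (hcD : 4 * (c * cκ (prX (bp q.1))) ≤ dd * cκ (prX (bp q.1))) (hβ : 17 / 100 ≤ β)
    (hβ' : β ≤ 1 / 5) (hq : q ∈ Dom8X c β Par DifL)
    (hv0 : |(a.2.1 0).z - q.1 (.inr 0) * Real.log X| ≤ δ * Real.log X)
    (hv1 : |(a.2.1 1).z - q.1 (.inr 1) * Real.log X| ≤ δ * Real.log X)
    (F : F8X X δ (Real.log X) (bp q.1)
      (q.1 (.inr 0) + q.1 (.inr 1) + q.1 (.inr 2) + q.2 .am) (q.1 (.inr 3)) a qs)
    (hvt : vt ≤ min (top5 (prX (bp q.1))) (top5 (prX (bp q.1)) +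
      2 * (c * cκ (prX (bp q.1))) - 2 * q.1 (.inr 3)) * Real.log X + 2 * (t₀ * Real.log X)) :
    Tf (cκ (prX (bp q.1)) * Real.log X) (cN (prX (bp q.1)) * Real.log X)
      (cx' (prX (bp q.1)) * Real.log X)
      (max 0 (5 / 4 * (cN (prX (bp q.1)) * Real.log X) - cκ (prX (bp q.1)) * Real.log X))
      vt (LN (clN a qs)) (40 * (t₀ * Real.log X)) ∧
    Bf (cκ (prX (bp q.1)) * Real.log X) (cN (prX (bp q.1)) * Real.log X)
      (cx' (prX (bp q.1)) * Real.log X)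
      (max 0 (5 / 4 * (cN (prX (bp q.1)) * Real.log X) - cκ (prX (bp q.1)) * Real.log X))
      vt (LN (clN a qs)) (s0X a)
      (dd * cκ (prX (bp q.1)) * Real.log X)
      ((cN (prX (bp q.1)) - (q.1 (.inr 0) + q.1 (.inr 1) + q.1 (.inr 2))) * Real.log X)
      ((cx' (prX (bp q.1)) - q.2 .am) * Real.log X) (40 * (t₀ * Real.log X)) := by
  obtain ⟨hq1, hq2, hq3, hq4⟩ := hq
  obtain ⟨hκ, hx, hN, hn, lo, hi, us0, us1, us2, zs, hd, hb, top⟩ := F
  set p : IX5 → ℝ := bp q.1 with hp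
  set L := Real.log X with hL
  have hL0 : 0 < L := Real.log_pos hX1
  have hδL : 0 ≤ δ * L := by positivity
  have hδt' : 100 * (δ * L) ≤ t₀ * L := by
    have := mul_le_mul_of_nonneg_right hδt hL0.le
    linarith
  have et5 : top5 (prX p) = min (2 * cN (prX p) - cκ (prX p)) (3 / 4 * cN (prX p)) +
      11 / 5 * cx' (prX p) := rfl
  rw [et5] at hvt
  have hZ2 : p (.inr 1) ≤ 6 / 25 * cκ (prX p) := by
    have h1 := (hq1.zr 1).2
    have h2 := hPp.κ0
    linarith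
  have hn' : |LN (clN a qs) - (q.1 (.inr 0) + q.1 (.inr 1) + q.1 (.inr 2) + q.2 .am) * L| ≤
      t₀ * L := hn.trans (by linarith)
  have hs : |s0X a - min (min (q.1 (.inr 0)) (q.1 (.inr 1)))
      (min (q.1 (.inr 0) - (cu (prX p) 2 - p (.inr 1)))
        (q.1 (.inr 1) + (cu (prX p) 2 - p (.inr 1)))) * L| ≤ t₀ * L := by
    have e1 : min (min (q.1 (.inr 0)) (q.1 (.inr 1)))
        (min (q.1 (.inr 0) - (cu (prX p) 2 - p (.inr 1)))
          (q.1 (.inr 1) + (cu (prX p) 2 - p (.inr 1)))) * L =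
        min (min (q.1 (.inr 0) * L) (q.1 (.inr 1) * L))
        (min (q.1 (.inr 0) * L - (cu (prX p) 2 - p (.inr 1)) * L)
          (q.1 (.inr 1) * L + (cu (prX p) 2 - p (.inr 1)) * L)) := by
      rw [min_mul_of_nonneg _ _ hL0.le, min_mul_of_nonneg _ _ hL0.le,
        min_mul_of_nonneg _ _ hL0.le, sub_mul, add_mul]
    obtain ⟨dz1, dz2⟩ := abs_le.1 hd
    obtain ⟨v01, v02⟩ := abs_le.1 hv0
    obtain ⟨v11, v12⟩ := abs_le.1 hv1
    rw [e1]
    unfold s0X
    refine (abs_min_sub_min_le_max _ _ _ _).trans (max_le ?_ ?_)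
    · refine (abs_min_sub_min_le_max _ _ _ _).trans (max_le ?_ ?_)
      · exact hv0.trans (by linarith)
      · exact hv1.trans (by linarith)
    · refine (abs_min_sub_min_le_max _ _ _ _).trans (max_le ?_ ?_)
      · rw [abs_le]
        constructor <;> linarith
      · rw [abs_le]
        constructor <;> linarith
  exact TB (N := cN (prX p)) (x := cx' (prX p)) (y₃ := cu (prX p) 2)
    (y₄ := cu (prX p) 3) (u := cu (prX p) 4) (D := dd * cκ (prX p)) (Z := p (.inr 1))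
    (v₀ := q.1 (.inr 0)) (v₁ := q.1 (.inr 1)) (v₂ := q.1 (.inr 2)) (x' := q.2 .am)
    (b := q.1 (.inr 3)) (c := c) (β := β) (t₀ := t₀) (vt := vt)
    (n := LN (clN a qs)) (s0A := s0X a) (w := 0) (B := 0) hL0 hPp.κ0 hPp.κ1 ht₀.le ht₀' rfl hDp
    hcD hc0 hβ (hq1.zr 1).1 hZ2 hq2.1.1 hq2.1.2.1 hq2.1.2.2 hq1.x0 hq1.x1 hq1.s2 hq1.s1 hq1.b0
    hvt hn' (by linarith) (by linarith) hs

set_option maxHeartbeats 1600000 in
/-- **both real lines of one `(i, d, e)`**, the family `H = exp hX`, budget `LR` -/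
theorem lines_RX {L κ y₃ y₄ u x dd N vt n s0 m y l A z t t₀ i δ e w z₃ : ℝ} (hL : 0 < L)
    (hN : N = y₃ + y₄ + u) (hD : Dh κ y₃ y₄ u x (dd * κ)) (ht₀ : 0 < t₀) (ht : t = 40 * t₀)
    (ht1 : t ≤ κ / 80000)
    (hB : Bf (κ * L) (N * L) (x * L) (max 0 (5 / 4 * (N * L) - κ * L)) vt n s0 (dd * κ * L) m y
      (40 * (t₀ * L))) (hy : x * L ≤ y)
    (kl : |l - κ * L| ≤ t₀ * L) (zl : |z - x * L| ≤ t₀ * L) (Al : |A - N * L| ≤ 3 * (t₀ * L))
    (n0 : (κ / 2 - 2 * x) * L - t₀ * L ≤ n) (n1 : n ≤ N * L + 4 * (t₀ * L)) (hi : i ≤ vt)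
    (δ0 : 0 ≤ δ) (δ1 : δ ≤ l / 6) (e0 : 0 ≤ e) (e1 : e ≤ l / 64)
    (hLd : 0 ≤ hX l n δ (9 / 4 * z - 3 * max 0 (5 / 4 * A - l)) + 2 * i - l - δ)
    (z3 : z₃ ≤ (u + t) * L) (hw : w ≤ 0) :
    Nx (i / L) (hX l n δ (9 / 4 * z - 3 * max 0 (5 / 4 * A - l)) / L) (n / L) (δ / L) (e / L)
      (s0 / L) ≤ κ + n / L + LR N κ (dd * κ) x ∧
    ∀ w₁ w₂ : ℝ, LnR (EN dd) g2 (κ + n / L + LR N κ (dd * κ) x) (l / L) (i / L)
      (hX l n δ (9 / 4 * z - 3 * max 0 (5 / 4 * A - l)) / L) (n / L) (δ / L) (e / L) w₁ w₂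
      (z₃ / L) (w / L) t := by
  have htL : 0 ≤ t₀ * L := by positivity
  obtain ⟨k1, k2⟩ := abs_le.1 kl
  obtain ⟨z1, z2⟩ := abs_le.1 zl
  obtain ⟨A1, A2⟩ := abs_le.1 Al
  -- the two exponents of `H`
  set E' : ℝ := max 0 (5 / 4 * A - l) with hE'
  set E0' : ℝ := max 0 (5 / 4 * (N * L) - κ * L) with hE0'
  have hEE : E0' ≤ E' + 5 * (t₀ * L) := by
    refine max_le ?_ ?_
    · have := le_max_left 0 (5 / 4 * A - l)
      linarith
    · have := le_max_right 0 (5 / 4 * A - l)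
      linarith
  have hhX : hX l n δ (9 / 4 * z - 3 * E') ≤
      hX (κ * L) n δ (9 / 4 * (x * L) - 3 * E0') + 20 * (t₀ * L) := by
    unfold RstX290.hX
    refine max_le ?_ ?_
    · have := le_max_left (κ * L / 64)
        (4 / 3 * (n - δ) - κ * L + (9 / 4 * (x * L) - 3 * E0'))
      linarith
    · have := le_max_right (κ * L / 64)
        (4 / 3 * (n - δ) - κ * L + (9 / 4 * (x * L) - 3 * E0'))
      linarith
  set h' : ℝ := hX l n δ (9 / 4 * z - 3 * E') with hh'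
  have hE0L : E0' = max 0 (5 / 4 * N - κ) * L := by
    rw [max_mul_of_nonneg _ _ hL.le, zero_mul, hE0']
    congr 1
    ring
  have hLRL : LR N κ (dd * κ) x * L = E0' + 3 / 4 * (dd * κ) * L - 3 / 4 * (x * L) := by
    unfold RstQ702.LR
    rw [hE0L]
    ring
  constructor
  · -- the cubes
    have h1 := bias_RX (e := e) (v := i) (h := h') (δ := δ) hB hy (by linarith) hi (by
      have e9 : max (κ * L / 64) (4 / 3 * (n - δ) - κ * L + (9 / 4 * (x * L) - 3 * E0')) =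
        hX (κ * L) n δ (9 / 4 * (x * L) - 3 * E0') := rfl
      rw [e9]
      linarith) δ0
    rw [Nx_div hL, div_le_iff₀ hL]
    have h2 : (κ + n / L + LR N κ (dd * κ) x) * L = κ * L + n + (E0' +
        3 / 4 * (dd * κ) * L - 3 / 4 * (x * L)) := by
      rw [← hLRL]
      field_simp
    rw [h2]
    have h3 : 0 ≤ dd * κ * L := mul_nonneg hD.d0 hL.le
    have h4 : t * L ≤ κ / 80000 * L := mul_le_mul_of_nonneg_right ht1 hL.le
    rw [ht] at h4
    have h5 : 0 < κ * L := by have := hD.k0; positivity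
    linarith
  · intro w₁ w₂
    have hk0 := hD.k0
    have ht0 : 0 ≤ t := by rw [ht]; linarith
    have htt : t₀ ≤ t := by rw [ht]; linarith
    have h1 : |l / L - κ| ≤ t := by
      have e1 : l / L - κ = (l - κ * L) / L := by field_simp
      rw [e1, abs_div, abs_of_pos hL, div_le_iff₀ hL]
      exact kl.trans (mul_le_mul_of_nonneg_right htt hL.le)
    have htL2 : t * L = 40 * (t₀ * L) := by rw [ht]; ring
    have hv1 := hB.v1
    have hv2 := hB.v2
    have hxL : 0 ≤ x * L := mul_nonneg hD.x0 hL.le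
    have hXS : XS N κ x * L = 9 / 4 * (x * L) - 3 * E0' := by
      unfold RstQ702.XS
      rw [hE0L]
      ring
    have hres := lnr_XR (d := dd) (k := κ) (k' := l / L) (y₃ := y₃) (y₄ := y₄) (u := u) (x := x)
      (t := t) (p := n / L) (v := i / L) (h := h' / L) (δ := δ / L) (e := e / L) (z₁ := w₁)
      (z₂ := w₂) (z₃ := z₃ / L) (w := w / L) hD ht0 ht1 h1
      (by rw [le_div_iff₀ hL]; nlinarith)
      (by rw [div_le_iff₀ hL, ← hN]; nlinarith)
      (by rw [div_le_iff₀ hL, ← hN]; nlinarith)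
      (by rw [div_le_iff₀ hL, ← hN]; nlinarith)
      (by
        rw [div_le_iff₀ hL, ← hN, add_mul]
        have e1 : hX κ (n / L) (δ / L) (XS N κ x) * L =
            hX (κ * L) n δ (9 / 4 * (x * L) - 3 * E0') := by
          have e2 := hX_div hL (κ * L) n δ (XS N κ x * L)
          have e3 : κ * L / L = κ := by field_simp
          have e4 : XS N κ x * L / L = XS N κ x := by field_simp
          rw [e3, e4] at e2
          rw [e2, hXS]
          field_simp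
        rw [e1]
        linarith)
      (by
        have e1 : h' / L + 2 * (i / L) - l / L - δ / L = (h' + 2 * i - l - δ) / L := by ring
        rw [e1]
        exact div_nonneg hLd hL.le)
      (div_nonneg δ0 hL.le) (by rw [div_le_iff₀ hL]; nlinarith) (div_nonneg e0 hL.le)
      (by rw [div_le_iff₀ hL]; nlinarith) (by rw [div_le_iff₀ hL]; exact z3)
      (div_nonpos_of_nonpos_of_nonneg hw hL.le)
    rw [← hN] at hres
    exact hres

end Crest.Agent.R017.RnX571
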