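import Crest.Agent.R017.RoC_116

/-!
# Row 17, (Ro) at the leaf (helper116): the core, general cuts `B`, `E1`

* `ro_core2` : the Gram sum up to the diagonal from the bound of the pairs of levels, the cuts `B`,
  `E1` free (near leaf of FlatNE)
-/

set_option autoImplicit false
set_option linter.unusedVariables false

noncomputable section

open Finset
open scoped Classical ComplexConjugate

namespace Crest.Agent.R017.RoX116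

open Crest.Agent.R012 Crest.Agent.R012.Eis
open Crest.Agent.R012.MC (Wgt)
open Crest.Agent.R012.LS2 (S mem_S)
open Crest.Agent.R012.Mob705 (pb mem_pb pdiv mem_pdiv)
open Crest.Agent.R017.C70 (JC OKJ JW okJ_JW)
open Crest.Agent.R017.CM106 (CS FS)
open Crest.Agent.R017.E1551 (Adm)
open Crest.Agent.R017.E3A164 (Yp Ys fq Cs mem_Cs be Fy)
open Crest.Agent.R017.E3M829 (TC Tal Sg W0)
open Crest.Agent.R017.E3F548 (MPTr EF EF_nonneg)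
open Crest.Agent.R017.E3T1579 (T3)
open Crest.Agent.R017.E3T829 (hE hE_nonneg)
open Crest.Agent.R017.E3Z548 (FH LVn TN JV JVc TN_nonneg)
open Crest.Agent.R017.E3Kc548 (LI omk mem_LI card_LI nm_pos_J mem_JW_win afT)
open Crest.Agent.R017.E3Kf548
open Crest.Agent.R017.RoT813 (afP TPr)
open Crest.Agent.R017.LBo813 (Om Om_nonneg Om_le_one)
open Crest.Agent.R017.I1146 (omr)

/-- **the core of (Ro)**, cuts `B`, `E1` free -/
theorem ro_core2 {w : ℝ → ℝ} (hw : Wgt w) {W b₀ : ℝ} (hW : W0 w W b₀) {R : ℝ} (hR : 0 ≤ R)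
    {A' : ℕ} (hA' : 2 ≤ A') {A Bw : ℕ} (hA : 1 < A) (hB : 1 < Bw) {ε : ℝ} (hε : 0 < ε) :
    ∃ C : ℝ, 0 ≤ C ∧ ∀ (c H Cp K K' X Y Z ZT E0 E1 B D : ℝ) (N₀ N₁ : ℕ), 1 ≤ c → 1 ≤ H → 0 ≤ Cp →
    0 < K' → K' ≤ K → 0 < X → 0 ≤ Y → 1 ≤ E0 → 1 ≤ N₁ → 1 ≤ E1 → 1 ≤ B → B ≤ Z →
    c * (Real.exp 1 * (Real.exp 1 * N₁)) ≤ ZT → ZT ≤ Z →
    c * H ^ 2 * (Real.exp 1 * N₁) ^ 3 * E1 ^ 4 * B ^ 4 ≤ K' ^ 2 →
    ∀ α : Eis → ℂ, Adm Y X R α → ∀ (b e : Eis) (RN : ℕ → ℝ), (∀ i, 0 ≤ RN i) →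
    PairB Cp c H A Bw K' B E1 E0 b₀ Z N₁ (JW D (1 / 10) N₁) (omr (Om N₀ N₁))
      (afR b e α E0) RN →
    Sg w K' B N₁ E1 (fun q t k₁ => ‖∑ y ∈ Ys (JW D (1 / 10) N₁) E0 N₁,
        Fy (JW D (1 / 10) N₁) (omq N₀ N₁ b e) (Tal α) q t k₁ y‖ ^ 2) ≤
      Sg w K' B N₁ E1 (fun q t k₁ =>
        E3M829.Dg (JW D (1 / 10) N₁) (omq N₀ N₁ b e) (Tal α) E0 N₁ q t k₁) +
      C * (1 + Cp) * (Z ^ ε) ^ 3 * (c ^ (1 / 3 : ℝ) * H ^ (-(1 / 3) : ℝ) * E0 ^ 3 *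
        ((K / X) * LBx48.EHf A' K X Y ZT α) +
        E0 * ∑ i ∈ LI (1 / 10) N₁, FH K' H (Real.exp i) * RN i) := by
  obtain ⟨C₁, hC₁, H₁⟩ := Z1x hw (Rw := 2) (A := A) (Bw := Bw) le_rfl hA hB hε
  obtain ⟨C₂, hC₂, H₂⟩ := TPr R hR A' hA' hε
  obtain ⟨C₃, hC₃, H₃⟩ := EF_le R hR A' hA' hε
  refine ⟨C₁ * (32 * (2 + 1 / ε) + 192 * (2 + 1 / ε) ^ 2 * C₂ + C₃ * 16), by positivity, ?_⟩
  intro c H Cp K K' X Y Z ZT E0 E1 B D N₀ N₁ hc hH hCp hK' hKK hX hY hE0 hN1 hE14 hB1 hEZ hcZ hTZ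
    hnum α hα b e RN hRN hPB
  have hN : (1 : ℝ) ≤ N₁ := by exact_mod_cast hN1
  have he1 : (1 : ℝ) ≤ Real.exp 1 := Real.one_le_exp zero_le_one
  have hH0 : 0 < H := by linarith
  have hc0 : 0 < c := by linarith
  have hE00 : 0 < E0 := by linarith
  have hK : 0 < K := by linarith
  have hN' : (1 : ℝ) ≤ Real.exp 1 * N₁ := one_le_mul_of_one_le_of_one_le he1 hN
  have hNN : (N₁ : ℝ) ≤ Real.exp 1 * N₁ := le_mul_of_one_le_left (by linarith) he1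
  have hNe : Real.exp 1 * (N₁ : ℝ) ≤ Real.exp 1 * (Real.exp 1 * N₁) :=
    le_mul_of_one_le_left (by linarith) he1
  have hNc : Real.exp 1 * (Real.exp 1 * (N₁ : ℝ)) ≤ c * (Real.exp 1 * (Real.exp 1 * N₁)) :=
    le_mul_of_one_le_left (by linarith) hc
  have hZT : 1 ≤ ZT := by linarith
  have hZ : 1 ≤ Z := by linarith
  have hN1Z : (N₁ : ℝ) ≤ Z := by linarith
  -- the sequence
  have hS : ∀ n, α n ≠ 0 → IsPrim n ∧ Squarefree n := by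
    intro n hn
    exact ((mem_S hY).1 (hα.sup n hn)).2
  have hT : TC (T3 (afR b e α E0)) := TC_afR fun n hn => (hS n hn).2
  have hom : ∀ x ∈ JW D (1 / 10) (N₁ : ℝ), ∀ e' ∈ S E0, omq N₀ N₁ b e x * Tal α x.1 e' x.2 =
      omr (Om N₀ N₁) x * T3 (afR b e α E0) x.1 e' x.2 := by
    intro x hx e' he'
    exact om_T3_afR (fun n hn => (hS n hn).1) ((okJ_JW D (1 / 10) (N₁ : ℝ)).prim x hx) he'
  have h1 := H₁ W b₀ hW D (1 / 10) N₁ (omr (Om N₀ N₁)) (omq N₀ N₁ b e) (Tal α)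
    (T3 (afR b e α E0)) K' N₁ Z B E0 E1 hT hom hK' hZ (by linarith) hN1Z hB1
    (by linarith) (fun x hx => (JW_nm hx).1.trans hN1Z) (fun x hx => (JW_nm hx).2)
  -- the T-part
  obtain ⟨G, hG⟩ : ∃ G, G = (K / X) * LBx48.EHf A' K X Y ZT α := ⟨_, rfl⟩
  have hG0 : 0 ≤ G := by
    rw [hG]
    have := LBx48.EHc_nonneg (c := fun n => ((n : ℝ))⁻¹) (fun n => by positivity)
      (fun _ => True) (A := (A' : ℝ)) (K := K) (X := X) (Y := Y) (Z := ZT) hK.le hX.le α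
    exact mul_nonneg (by positivity) this
  obtain ⟨P, hP⟩ : ∃ P, P = Z ^ ε := ⟨_, rfl⟩
  have hP1 : 1 ≤ P := by rw [hP]; exact Real.one_le_rpow hZ hε.le
  have hZTP : ZT ^ ε ≤ P := by
    rw [hP]; exact Real.rpow_le_rpow (by linarith) hTZ hε.le
  have hτ : ∀ i ∈ LI (1 / 10) (N₁ : ℝ), ∀ j ∈ LI (1 / 10) (N₁ : ℝ),
      LVn (afR b e α E0) ((JW D (1 / 10) N₁).image Prod.fst) (S E0) c (Z ^ 5) K' H (Real.exp i)
        (Real.exp j) E1 B (Real.sqrt (c * Real.exp i)) (RN i) ≤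
      6 * (H ^ (-(1 / 3) : ℝ) * (C₂ * (P * c ^ (1 / 3 : ℝ) * E0 ^ 2) * G)) +
        FH K' H (Real.exp i) * RN i := by
    intro i hi j hj
    obtain ⟨-, -, i3⟩ := mem_LI hi
    obtain ⟨-, -, j3⟩ := mem_LI hj
    have hcV : c * Real.exp i ≤ ZT := by
      refine le_trans ?_ hcZ
      exact mul_le_mul_of_nonneg_left (i3.trans hNe) hc0.le
    obtain ⟨t1, t2, t3⟩ := H₂ Y X K K' ZT E0 (Real.exp i) c (Z ^ 5) hY hX hK' hKK hZT hE00.le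
      (Real.exp_pos _) hc0.le hcV α hα (fun d => b ∣ d ∧ IsCoprime d e)
      ((JW D (1 / 10) N₁).image Prod.fst) (S E0)
      (fun d hd => by
        obtain ⟨x, hx, rfl⟩ := mem_image.1 hd
        exact (okJ_JW D (1 / 10) (N₁ : ℝ)).prim x hx)
      (fun e he => he)
    rw [← afR_afP] at t1 t2 t3
    have hbd : C₂ * (ZT ^ ε * c ^ (1 / 3 : ℝ) * E0 ^ 2) * ((K / X) *
          EHu320.EHc (fun n => ((n : ℝ))⁻¹) (fun _ => True) A' K X Y ZT α) ≤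
        C₂ * (P * c ^ (1 / 3 : ℝ) * E0 ^ 2) * G := by
      rw [hG]
      unfold LBx48.EHf
      rw [hG] at hG0
      unfold LBx48.EHf at hG0
      gcongr
    exact LVn_le (N := Real.exp 1 * N₁) hc hH hK' (Real.exp_pos _) i3 (Real.exp_pos _) j3 hN'
      hE14 hB1 hnum (t1.trans hbd) (t2.trans hbd) (t3.trans hbd)
  have hh0 := hE_nonneg (S E0)
  have h2 := pairs_le (L := LI (1 / 10) (N₁ : ℝ))
    (M := fun i j => ∑ q ∈ S (N₁ : ℝ), ∑ t ∈ pb E1, MPTr (fun _ _ => True) A Bw K'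
      B (Real.exp i) (Real.exp j) (Z ^ 5) (JW D (1 / 10) N₁) (omk (omr (Om N₀ N₁)) i)
      (omk (omr (Om N₀ N₁)) j) (T3 (afR b e α E0)) E0 N₁ b₀ q t) (x := fun _ => 0)
    (R := fun i => FH K' H (Real.exp i) * RN i) (h := hE (S E0))
    (T := 6 * (H ^ (-(1 / 3) : ℝ) * (C₂ * (P * c ^ (1 / 3 : ℝ) * E0 ^ 2) * G))) hCp hh0
    (fun i hi j hj => (hPB i hi j hj).trans
      (mul_le_mul_of_nonneg_left (mul_le_mul_of_nonneg_left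
        (add_le_add (hτ i hi j hj) (hτ j hj i hi)) hh0) hCp))
  -- the error term
  have h3 := ef_num (c := c) (H := H) (K := K') (N₁ := N₁) (N := Real.exp 1 * N₁)
    (E1 := E1) (B := B) hc hH hK' (by linarith) hNN hN' hE14 hB1 hnum
  have h4 : K' ^ (2 / 3 : ℝ) * ∑ x ∈ JW D (1 / 10) (N₁ : ℝ), EF (omq N₀ N₁ b e) (Tal α) E0 x ≤
      (C₃ * 16) * (P * E0 ^ 3) * G := by
    have k1 := H₃ Y X K ZT E0 D (1 / 10) N₁ hY hX hK hZT hE00.le (by linarith) (by linarith) α hα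
      (omq N₀ N₁ b e) (fun x _ => norm_omq _ _ _ _ _)
    have k0 : 0 ≤ ∑ x ∈ JW D (1 / 10) (N₁ : ℝ), EF (omq N₀ N₁ b e) (Tal α) E0 x :=
      sum_nonneg fun x _ => EF_nonneg _ _ _ _
    have k2 : K' ^ (2 / 3 : ℝ) ≤ K ^ (2 / 3 : ℝ) :=
      Real.rpow_le_rpow hK'.le hKK (by norm_num)
    have k3 := hE_S_le hE0
    rw [← hG] at k1
    calc K' ^ (2 / 3 : ℝ) * ∑ x ∈ JW D (1 / 10) (N₁ : ℝ), EF (omq N₀ N₁ b e) (Tal α) E0 x
        ≤ K ^ (2 / 3 : ℝ) * ∑ x ∈ JW D (1 / 10) (N₁ : ℝ), EF (omq N₀ N₁ b e) (Tal α) E0 x :=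
          mul_le_mul_of_nonneg_right k2 k0
      _ ≤ C₃ * (ZT ^ ε * hE (S E0) * E0 ^ 2) * G := k1
      _ ≤ C₃ * (P * (16 * E0) * E0 ^ 2) * G := by gcongr
      _ = _ := by ring
  have hl : ((LI (1 / 10) (N₁ : ℝ)).card : ℝ) ≤ (2 + 1 / ε) * P := by
    rw [hP]; exact card_LI (1 / 10) hZ (by linarith) hN1Z hε
  have hFH : ∀ i, 0 ≤ FH K' H (Real.exp i) := fun i => by unfold E3Z548.FH; positivity
  rw [← hP] at h1
  have key := core_num (SF := _) (SD := _) (by linarith : (0 : ℝ) ≤ C₁) hC₂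
    (by positivity : (0 : ℝ) ≤ C₃ * 16) hCp hE0 (by positivity : 0 ≤ H ^ (-(1 / 3) : ℝ))
    (Real.one_le_rpow hc (by norm_num) : 1 ≤ c ^ (1 / 3 : ℝ)) hG0 hP1
    (sum_nonneg fun i _ => mul_nonneg (hFH i) (hRN i) :
      0 ≤ ∑ i ∈ LI (1 / 10) (N₁ : ℝ), FH K' H (Real.exp i) * RN i)
    (Nat.cast_nonneg _) hl (by positivity) hh0 (hE_S_le hE0)
    (sum_nonneg fun x _ => EF_nonneg _ _ _ _ :
      0 ≤ ∑ x ∈ JW D (1 / 10) (N₁ : ℝ), EF (omq N₀ N₁ b e) (Tal α) E0 x)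
    (by positivity) h1 h2 h3 h4
  rw [← hP, ← hG]
  exact key

end Crest.Agent.R017.RoX116
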