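import Crest.Agent.R017.RoCb_116
import Crest.Agent.R017.E3Td_829

/-!
# Row 17, T.5 / T.7, (Ro) at the leaf (helper116): the numbers of (Ro)

* `ef_num` : the factor of the error term
* `core_num` : the algebra of the core
-/

set_option autoImplicit false
set_option linter.unusedVariables false

noncomputable section

open Finset
open scoped Classical

namespace Crest.Agent.R017.RoX116

open Crest.Agent.R012 Crest.Agent.R012.Eis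
open Crest.Agent.R012.LS2 (S mem_S)
open Crest.Agent.R017.E3T829 (hE hE_nonneg card_S16)
open Crest.Agent.R017.E3Kc548 (LI card_LI)

/-- the harmonic sum over `S E0`, trivially -/
lemma hE_S_le {E0 : ℝ} (h : 1 ≤ E0) : hE (S E0) ≤ 16 * E0 := by
  unfold E3T829.hE
  calc ∑ e ∈ S E0, (1 : ℝ) / nm e ≤ ∑ _e ∈ S E0, (1 : ℝ) := by
        refine sum_le_sum fun e he => ?_
        have h1 := ((mem_S (by linarith)).1 he).2.1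
        have h2 : (1 : ℝ) ≤ nm e := by exact_mod_cast nm_pos.mpr h1.ne_zero
        rw [div_le_one (by linarith)]
        exact h2
    _ = ((S E0).card : ℝ) := by simp
    _ ≤ 16 * E0 := card_S16 (by linarith)

/-- the factor of the error term -/
lemma ef_num {c H K N₁ N E1 B : ℝ} (hc : 1 ≤ c) (hH : 1 ≤ H) (hK : 0 < K) (hN1 : 0 ≤ N₁)
    (hN : N₁ ≤ N) (hN' : 1 ≤ N) (hE1 : 1 ≤ E1) (hB : 1 ≤ B)
    (h : c * H ^ 2 * N ^ 3 * E1 ^ 4 * B ^ 4 ≤ K ^ 2) :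
    K ^ (-(1 : ℝ) / 3) * E1 ^ 2 * B ^ 2 * N₁ ≤ K ^ (2 / 3 : ℝ) * H ^ (-(1 / 3) : ℝ) := by
  have hH0 : 0 < H := by linarith
  have hc0 : 0 < c := by linarith
  have h1 : E1 ^ 2 * B ^ 2 * N₁ * H ≤ K := by
    refine abs_le_of_sq_le_sq' ?_ hK.le |>.2
    have e1 : N ^ 2 ≤ N ^ 3 := pow_le_pow_right₀ hN' (by norm_num)
    calc (E1 ^ 2 * B ^ 2 * N₁ * H) ^ 2 = 1 * H ^ 2 * N₁ ^ 2 * E1 ^ 4 * B ^ 4 := by ring
      _ ≤ c * H ^ 2 * N ^ 2 * E1 ^ 4 * B ^ 4 := by gcongr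
      _ ≤ c * H ^ 2 * N ^ 3 * E1 ^ 4 * B ^ 4 := by gcongr
      _ ≤ K ^ 2 := h
  have e2 : K ^ (2 / 3 : ℝ) = K ^ (-(1 : ℝ) / 3) * K := by
    rw [← Real.rpow_add_one hK.ne']; norm_num
  have e3 : H⁻¹ ≤ H ^ (-(1 / 3) : ℝ) := by
    rw [← Real.rpow_neg_one]
    exact Real.rpow_le_rpow_of_exponent_le hH (by norm_num)
  have hK3 : 0 ≤ K ^ (-(1 : ℝ) / 3) := by positivity
  calc K ^ (-(1 : ℝ) / 3) * E1 ^ 2 * B ^ 2 * N₁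
      = K ^ (-(1 : ℝ) / 3) * (E1 ^ 2 * B ^ 2 * N₁ * H) * H⁻¹ := by field_simp
    _ ≤ K ^ (-(1 : ℝ) / 3) * K * H ^ (-(1 / 3) : ℝ) := by gcongr
    _ = _ := by rw [e2]

/-- **the algebra of the core** -/
theorem core_num {SF SD M EFs C₁ C₂ C₃ Cp E0 H c G P K3 K2 R l q h : ℝ}
    (hC₁ : 0 ≤ C₁) (hC₂ : 0 ≤ C₂) (hC₃ : 0 ≤ C₃) (hCp : 0 ≤ Cp) (hE0 : 1 ≤ E0)
    (hH : 0 ≤ H) (hc : 1 ≤ c) (hG : 0 ≤ G) (hP : 1 ≤ P) (hR : 0 ≤ R) (hl0 : 0 ≤ l)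
    (hl : l ≤ q * P) (hq : 0 ≤ q) (hh0 : 0 ≤ h) (hh : h ≤ 16 * E0)
    (hEFs : 0 ≤ EFs) (hK3 : 0 ≤ K3)
    (h1 : SF ≤ SD + (C₁ * M + C₁ * P * K3 * EFs))
    (h2 : M ≤ 2 * Cp * h * l * (l * (6 * (H * (C₂ * (P * c * E0 ^ 2) * G))) + R))
    (h3 : K3 ≤ K2 * H) (h4 : K2 * EFs ≤ C₃ * (P * E0 ^ 3) * G) :
    SF ≤ SD + (C₁ * (32 * q + 192 * q ^ 2 * C₂ + C₃)) * (1 + Cp) * P ^ 3 *
      (c * H * E0 ^ 3 * G + E0 * R) := by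
  have hP0 : 0 ≤ P := by linarith
  have hE00 : 0 ≤ E0 := by linarith
  have hc0 : 0 ≤ c := by linarith
  have g1 : M ≤ 2 * Cp * (16 * E0) * (q * P) *
      ((q * P) * (6 * (H * (C₂ * (P * c * E0 ^ 2) * G))) + R) := by
    refine h2.trans ?_
    gcongr
  have g2 : C₁ * P * K3 * EFs ≤ C₁ * P * (C₃ * (P * E0 ^ 3) * G) * H := by
    calc C₁ * P * K3 * EFs ≤ C₁ * P * (K2 * H) * EFs := by gcongr
      _ = C₁ * P * (K2 * EFs) * H := by ring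
      _ ≤ _ := by gcongr
  have P1 : P ≤ P ^ 3 := by
    calc P = P ^ 1 := (pow_one P).symm
      _ ≤ P ^ 3 := pow_le_pow_right₀ hP (by norm_num)
  have P2 : P ^ 2 ≤ P ^ 3 := pow_le_pow_right₀ hP (by norm_num)
  obtain ⟨U, hU⟩ : ∃ U, U = c * H * E0 ^ 3 * G := ⟨_, rfl⟩
  have hU0 : 0 ≤ U := by rw [hU]; positivity
  have g3 : C₁ * M ≤ C₁ * (Cp * (192 * q ^ 2 * C₂) * P ^ 3 * U + Cp * (32 * q) * P * (E0 * R)) := by
    refine mul_le_mul_of_nonneg_left (g1.trans (le_of_eq ?_)) hC₁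
    rw [hU]; ring
  have g4 : C₁ * P * (C₃ * (P * E0 ^ 3) * G) * H ≤ C₁ * C₃ * P ^ 2 * U := by
    have : C₁ * P * (C₃ * (P * E0 ^ 3) * G) * H = C₁ * C₃ * P ^ 2 * (1 * H * E0 ^ 3 * G) := by ring
    rw [this, hU]
    gcongr
  rw [← hU]
  have hER : 0 ≤ E0 * R := by positivity
  have k1 : C₁ * (Cp * (192 * q ^ 2 * C₂) * P ^ 3 * U + Cp * (32 * q) * P * (E0 * R)) ≤
      C₁ * (Cp * (192 * q ^ 2 * C₂) * P ^ 3 * U + Cp * (32 * q) * P ^ 3 * (E0 * R)) := by gcongr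
  have k2 : C₁ * C₃ * P ^ 2 * U ≤ C₁ * C₃ * P ^ 3 * U := by gcongr
  have k3 : C₁ * (Cp * (192 * q ^ 2 * C₂) * P ^ 3 * U + Cp * (32 * q) * P ^ 3 * (E0 * R)) +
      C₁ * C₃ * P ^ 3 * U ≤
      (C₁ * (32 * q + 192 * q ^ 2 * C₂ + C₃)) * (1 + Cp) * P ^ 3 * (U + E0 * R) := by
    have e : (C₁ * (32 * q + 192 * q ^ 2 * C₂ + C₃)) * (1 + Cp) * P ^ 3 * (U + E0 * R) -
        (C₁ * (Cp * (192 * q ^ 2 * C₂) * P ^ 3 * U + Cp * (32 * q) * P ^ 3 * (E0 * R)) +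
      C₁ * C₃ * P ^ 3 * U) = C₁ * P ^ 3 * ((32 * q) * U + (192 * q ^ 2 * C₂) * U +
        Cp * (32 * q) * U + Cp * C₃ * U + (32 * q) * (E0 * R) + (192 * q ^ 2 * C₂) * (E0 * R) +
        Cp * (192 * q ^ 2 * C₂) * (E0 * R) + (1 + Cp) * C₃ * (E0 * R)) := by ring
    have : 0 ≤ C₁ * P ^ 3 * ((32 * q) * U + (192 * q ^ 2 * C₂) * U +
        Cp * (32 * q) * U + Cp * C₃ * U + (32 * q) * (E0 * R) + (192 * q ^ 2 * C₂) * (E0 * R) +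
        Cp * (192 * q ^ 2 * C₂) * (E0 * R) + (1 + Cp) * C₃ * (E0 * R)) := by positivity
    linarith
  linarith

end Crest.Agent.R017.RoX116
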