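import Crest.Agent.R017.RoC_116

/-!
# Row 17, T.5 / T.7, (Ro) at the leaf (helper116): the final numbers

* `T_fin` : the `T`-part
* `R_fin` : the `R`-part
* `ro_fin` : both
-/

set_option autoImplicit false
set_option linter.unusedVariables false

noncomputable section

open Finset
open scoped Classical

namespace Crest.Agent.R017.RoX116

/-- **the `T`-part**: `P = Z ^ ε₁`, `E0 = X ^ c`, `Cp = Cb P` -/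
theorem T_fin {Cc Cb P q E0 : ℝ} (hCc : 0 ≤ Cc) (hCb : 0 ≤ Cb) (hP : 1 ≤ P) (hE0 : 1 ≤ E0)
    (hq : 0 ≤ q) (h1 : Cc * (1 + Cb) * q ≤ E0 ^ (1 / 6 : ℝ)) (h2 : P ≤ E0 ^ (1 / 12 : ℝ)) :
    Cc * (1 + Cb * P) * P ^ 3 * (q * (E0 ^ 20) ^ (-(1 / 3) : ℝ) * E0 ^ 3) ≤ (E0 ^ 3)⁻¹ := by
  have hE : 0 < E0 := by linarith
  have hP0 : 0 ≤ P := by linarith
  have e1 : Cc * (1 + Cb * P) * P ^ 3 ≤ Cc * (1 + Cb) * P ^ 4 := by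
    have : 1 + Cb * P ≤ (1 + Cb) * P := by nlinarith
    calc Cc * (1 + Cb * P) * P ^ 3 ≤ Cc * ((1 + Cb) * P) * P ^ 3 := by gcongr
      _ = _ := by ring
  have e2 : P ^ 4 ≤ E0 ^ (1 / 3 : ℝ) := by
    calc P ^ 4 ≤ (E0 ^ (1 / 12 : ℝ)) ^ 4 := by gcongr
      _ = _ := by rw [← Real.rpow_natCast, ← Real.rpow_mul hE.le]; norm_num
  have e3 : (E0 ^ 20) ^ (-(1 / 3) : ℝ) = E0 ^ (-(20 / 3) : ℝ) := by
    rw [← Real.rpow_natCast E0 20, ← Real.rpow_mul hE.le]; norm_num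
  have e4 : (E0 ^ 3)⁻¹ = E0 ^ (-3 : ℝ) := by
    rw [Real.rpow_neg hE.le]; norm_num
  have e5 : E0 ^ 3 = E0 ^ (3 : ℝ) := by norm_num
  rw [e3, e4]
  calc Cc * (1 + Cb * P) * P ^ 3 * (q * E0 ^ (-(20 / 3) : ℝ) * E0 ^ 3)
      ≤ Cc * (1 + Cb) * P ^ 4 * (q * E0 ^ (-(20 / 3) : ℝ) * E0 ^ 3) := by gcongr
    _ = (Cc * (1 + Cb) * q) * P ^ 4 * (E0 ^ (-(20 / 3) : ℝ) * E0 ^ 3) := by ring
    _ ≤ E0 ^ (1 / 6 : ℝ) * E0 ^ (1 / 3 : ℝ) * (E0 ^ (-(20 / 3) : ℝ) * E0 ^ 3) := by gcongr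
    _ = E0 ^ (-(19 / 6) : ℝ) := by
        rw [e5, ← Real.rpow_add hE, ← Real.rpow_add hE, ← Real.rpow_add hE]; norm_num
    _ ≤ _ := Real.rpow_le_rpow_of_exponent_le hE0 (by norm_num)

/-- **the `R`-part** -/
theorem R_fin {Cc Cb P E0 TOP l r Sr : ℝ} (hCc : 0 ≤ Cc) (hCb : 0 ≤ Cb) (hP : 1 ≤ P)
    (hE0 : 1 ≤ E0) (h2 : P ≤ E0 ^ (1 / 12 : ℝ)) (hl : l ≤ r * P) (hr : 0 ≤ r) (hT : 0 ≤ TOP)
    (hSr : Sr ≤ l * TOP) (hl0 : 0 ≤ l) :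
    Cc * (1 + Cb * P) * P ^ 3 * (E0 * Sr) ≤
      (E0 ^ 3)⁻¹ * (Cc * (1 + Cb) * r * (E0 ^ 5 * TOP)) := by
  have hE : 0 < E0 := by linarith
  have hP0 : 0 ≤ P := by linarith
  have e1 : Cc * (1 + Cb * P) * P ^ 3 ≤ Cc * (1 + Cb) * P ^ 4 := by
    have : 1 + Cb * P ≤ (1 + Cb) * P := by nlinarith
    calc Cc * (1 + Cb * P) * P ^ 3 ≤ Cc * ((1 + Cb) * P) * P ^ 3 := by gcongr
      _ = _ := by ring
  have e2 : P ^ 5 ≤ E0 := by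
    calc P ^ 5 ≤ (E0 ^ (1 / 12 : ℝ)) ^ 5 := by gcongr
      _ = E0 ^ (5 / 12 : ℝ) := by rw [← Real.rpow_natCast, ← Real.rpow_mul hE.le]; norm_num
      _ ≤ E0 ^ (1 : ℝ) := Real.rpow_le_rpow_of_exponent_le hE0 (by norm_num)
      _ = E0 := Real.rpow_one _
  have hA : 0 ≤ Cc * (1 + Cb * P) * P ^ 3 := by positivity
  calc Cc * (1 + Cb * P) * P ^ 3 * (E0 * Sr)
      ≤ Cc * (1 + Cb * P) * P ^ 3 * (E0 * ((r * P) * TOP)) := by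
        refine mul_le_mul_of_nonneg_left (mul_le_mul_of_nonneg_left (hSr.trans ?_) hE.le) hA
        exact mul_le_mul_of_nonneg_right hl hT
    _ ≤ Cc * (1 + Cb) * P ^ 4 * (E0 * ((r * P) * TOP)) := by gcongr
    _ = Cc * (1 + Cb) * r * P ^ 5 * (E0 * TOP) := by ring
    _ ≤ Cc * (1 + Cb) * r * E0 * (E0 * TOP) := by gcongr
    _ = (E0 ^ 3)⁻¹ * (Cc * (1 + Cb) * r * (E0 ^ 5 * TOP)) := by
        field_simp

end Crest.Agent.R017.RoX116
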