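import Crest.Agent.R017.RoD_116
import Crest.Agent.R017.RoXb_116
import Crest.Agent.R017.RHXd_116

/-!
# Row 17, T.7, (Ro) at the leaf, exceptional class (helper116): the numbers of the levels

* `RNX2` : the number of the second form in classes
* `lvl_x` : one level
* `top_x` : the real inequality of the top level
* `sum_x` : the sum over the levels
-/

set_option autoImplicit false
set_option linter.unusedVariables false

noncomputable section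

open Finset
open scoped Classical

namespace Crest.Agent.R017.RoX116

open Crest.Agent.R012 Crest.Agent.R012.Eis
open Crest.Agent.R012.LS2 (S mem_S)
open Crest.Agent.R017.C70 (JC OKJ JW okJ_JW)
open Crest.Agent.R017.E3T829 (G2 G2_nonneg card_S16)
open Crest.Agent.R017.E3Z548 (FH)
open Crest.Agent.R017.E3Sz579 (Ld Md)
open Crest.Agent.R017.E3Sx744 (Mxd)
open Crest.Agent.R017.Rsx72 (RN2 RNp)
open Crest.Agent.R017.R3571 (W2 slp_two)
open Crest.Agent.R017.RHX116 (nmx nmx_nonneg)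
open Crest.Agent.R017.E3Kc548 (LI mem_LI)

/-- the number of the second form in classes, constant `H` -/
def RNX2 (c K V H X : ℝ) (W0 : Bool → Eis → Eis → ℝ → ℝ) (Ds EE : Finset Eis) : ℝ :=
  RN2 (Ld K V H) (Md c K V H X) (X * V * H / K) (fun d e => W0 false d e (c * (X * V * H / K)))
    Ds EE +
  RNp (Ld K V H) (Mxd c K V H X) (fun d e => W0 true d e (c * (X * V * H / K))) Ds EE

lemma fst_S {D : ℝ} (hD : 0 ≤ D) {Y₀ Y₁ : ℝ} {d : Eis} (hd : d ∈ (JW D Y₀ Y₁).image Prod.fst) :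
    d ∈ S D := by
  obtain ⟨x, hx, rfl⟩ := mem_image.1 hd
  have h1 := okJ_JW D Y₀ Y₁
  rw [mem_S hD]
  refine ⟨?_, h1.prim x hx, h1.sqf x hx⟩
  unfold C70.JW at hx
  rw [mem_filter, mem_product, mem_primBall] at hx
  exact (Nat.le_floor_iff hD).mp hx.1.1.1

lemma SE_le {E0 : ℝ} (h : 1 ≤ E0) {Ds : Finset Eis} (hDs : ∀ d ∈ Ds, d ∈ S E0) :
    SE Ds (S E0) ≤ 256 * E0 ^ 3 := by
  have h0 : 0 ≤ E0 := by linarith
  unfold SE
  rw [sum_const, nsmul_eq_mul]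
  have h1 : (Ds.card : ℝ) ≤ 16 * E0 := by
    refine le_trans ?_ (card_S16 h0)
    exact_mod_cast card_le_card hDs
  have h2 : ∑ e ∈ S E0, (nm e : ℝ) ≤ 16 * E0 * E0 := by
    calc ∑ e ∈ S E0, (nm e : ℝ) ≤ ∑ _e ∈ S E0, E0 :=
          sum_le_sum fun e he => ((mem_S h0).1 he).1
      _ = ((S E0).card : ℝ) * E0 := by rw [sum_const, nsmul_eq_mul]
      _ ≤ 16 * E0 * E0 := mul_le_mul_of_nonneg_right (card_S16 h0) h0
  have h3 : 0 ≤ ∑ e ∈ S E0, (nm e : ℝ) := sum_nonneg fun _ _ => Nat.cast_nonneg _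
  calc (Ds.card : ℝ) * ∑ e ∈ S E0, (nm e : ℝ) ≤ (16 * E0) * (16 * E0 * E0) := by gcongr
    _ = _ := by ring

/-- the non-principal number at the top level -/
def TPn (K H V X c K1 E : ℝ) : ℝ :=
  (if 1 ≤ H * V ^ 2 / K then FH K H V * G2 (H * V ^ 2 / K)
    (c * (H * V ^ 2 / K) * (X * V * H / K) ^ (-(1 / 2) : ℝ)) (1 * (X * V * H / K)) else 0) *
    (K1 * E ^ (2 / 3 : ℝ))

/-- the principal number at the top level -/
def TPp (K H V X c K2 P2 E s₀ : ℝ) : ℝ :=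
  (if 1 ≤ H * V ^ 2 / K then FH K H V * (c * (H * V ^ 2 / K) *
    (X * V * H / K) ^ (-(2 / 3) : ℝ)) else 0) *
    (K2 * (P2 ^ (1 / 3 : ℝ) * (E ^ (5 / 3 : ℝ) * Real.exp (-s₀))))

/-- **one level** -/
theorem lvl_x {K H X N c K1 K2 P2 E s₀ v : ℝ} {a : ℕ} {Ds EE : Finset Eis} (hK : 0 < K)
    (hH : 0 < H) (hX : 0 < X) (hv : 0 < v) (hvN : v ≤ N) (hc : 0 < c) (hK1 : 0 ≤ K1)
    (hK2 : 0 ≤ K2) (hP2 : 0 ≤ P2) (hE : 0 ≤ E) (hDs : ∀ d ∈ Ds, (1 : ℝ) ≤ nm d)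
    (hEE : ∀ e ∈ EE, (1 : ℝ) ≤ nm e) :
    FH K H v * RNX2 c K v H X (fun jj d e => W2 a (c * (X * N * H / K))
      (nmx K1 K2 P2 s₀ E d e jj)) Ds EE ≤
      (TPn K H N X c K1 E + TPp K H N X c K2 P2 E s₀) * SE Ds EE := by
  have hN : 0 < N := by linarith
  obtain ⟨s, hs⟩ : ∃ s, s = v / N := ⟨_, rfl⟩
  have hs0 : 0 < s := by rw [hs]; positivity
  have hs1 : s ≤ 1 := by rw [hs, div_le_one hN]; exact hvN
  have hvs : v = N * s := by rw [hs]; field_simp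
  have h1 := RN2_top (β := 1) (a := a) (Ds := Ds) (EE := EE) hK hH hX hN hs0 hs1 hc one_pos hK1
    hE hDs
  have h2 := RNp_top (a := a) (s₀ := s₀) (Ds := Ds) (EE := EE) hK hH hX hN hs0 hs1 hc hK2 hP2 hE
    hDs hEE
  rw [← hvs] at h1 h2
  unfold RNX2 TPn TPp
  have e1 : (fun d e => (fun jj d e => W2 a (c * (X * N * H / K))
      (nmx K1 K2 P2 s₀ E d e jj)) false d e (c * (X * v * H / K))) =
      fun d (_e : Eis) => W2 a (c * (X * N * H / K)) (K1 * (E / nm d) ^ (2 / 3 : ℝ))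
        (c * (X * v * H / K)) := by
    funext d e
    unfold RHX116.nmx
    simp
  have e2 : (fun d e => (fun jj d e => W2 a (c * (X * N * H / K))
      (nmx K1 K2 P2 s₀ E d e jj)) true d e (c * (X * v * H / K))) =
      fun d e => W2 a (c * (X * N * H / K)) (K2 * (P2 ^ (1 / 3 : ℝ) *
        ((E / nm d) ^ (5 / 3 : ℝ) * (nm e : ℝ)⁻¹ *
          min 1 ((nm d : ℝ) * nm e * Real.exp (-s₀))))) (c * (X * v * H / K)) := by
    funext d e
    unfold RHX116.nmx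
    simp
  rw [one_mul (X * v * H / K)] at h1
  rw [mul_add]
  beta_reduce at e1 e2 ⊢
  rw [e1, e2]
  refine (add_le_add h1 h2).trans (le_of_eq ?_)
  ring

/-- **the top level** -/
theorem top_x {K' H V X c κ γ n v T m μl C₀ k₁ k₂ SEv s₀ μ' y b : ℝ} (hK' : 0 < K')
    (hH : H = Real.exp (20 * γ)) (hV : 0 < V) (hX : 0 < X) (hc : 0 < c) (hT : TC T n v κ m μl)
    (hγ : 0 ≤ γ) (hμ : 1000 * γ ≤ μl) (hκ : 2000 * γ ≤ κ) (h1 : κ - 40 * γ ≤ Real.log K')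
    (h2 : Real.log K' ≤ κ) (hn : 0 ≤ n) (hv3 : 3 * v ≤ 2 * κ) (hC₀ : 6 ≤ C₀)
    (hv1 : v ≤ Real.log V) (hv2 : Real.log V ≤ v + C₀) (hx : n - C₀ ≤ Real.log X)
    (hk₁ : 0 ≤ k₁) (hk₂ : 0 ≤ k₂) (hS : SEv ≤ 256 * Real.exp γ ^ 3) (hS0 : 0 ≤ SEv)
    (hb : y * γ + (v + n - κ) / 3 - s₀ ≤ b) (hμ' : 0 ≤ μ')
    (hv4 : 3 * v + 125 * γ + μ' ≤ 2 * κ + 3 * (y * γ)) :
    Real.exp γ ^ 5 * ((TPn K' H V X c (k₁ * Real.exp (T - n)) (Real.exp n) +
      TPp K' H V X c k₂ (c * (X * V * H / K') * Real.exp (μ' / 2)) (Real.exp n) s₀) * SEv) ≤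
      ((3 + c + c * c ^ (1 / 3 : ℝ)) * Real.exp (11 * C₀)) *
        ((Real.exp κ / Real.exp n) * ((k₁ + k₂ * Real.exp b) * Real.exp (2 * n))) := by
  have hSS : SEv * Real.exp γ ^ 5 ≤ Real.exp (8 * γ + C₀) := by
    have e1 : (256 : ℝ) ≤ Real.exp C₀ := by
      have h3 : (256 : ℝ) ≤ Real.exp 6 := by
        have h4 : (2.7 : ℝ) ≤ Real.exp 1 := by
          have := Real.exp_one_gt_d9; linarith
        calc (256 : ℝ) ≤ 2.7 ^ 6 := by norm_num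
          _ ≤ Real.exp 1 ^ 6 := by gcongr
          _ = Real.exp 6 := by rw [← Real.exp_nat_mul]; norm_num
      exact h3.trans (Real.exp_le_exp.2 hC₀)
    calc SEv * Real.exp γ ^ 5 ≤ 256 * Real.exp γ ^ 3 * Real.exp γ ^ 5 := by gcongr
      _ = 256 * Real.exp γ ^ 8 := by ring
      _ ≤ Real.exp C₀ * Real.exp γ ^ 8 := by gcongr
      _ = Real.exp (8 * γ + C₀) := by
          rw [← Real.exp_nat_mul, ← Real.exp_add]; congr 1; push_cast; ring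
  have hSS0 : 0 ≤ SEv * Real.exp γ ^ 5 := by positivity
  have r1 := np_real (β := 1) (e₀ := 0) (k₁ := k₁) hK' hH hV hX hc.le one_pos hT hγ hμ hκ h1 h2 hn
    (by linarith) le_rfl (by linarith) hv1 hv2 hx hk₁ hSS hSS0
  have r2 := pr_real (e₀ := 0) (k₂ := k₂) hK' hH hV hX hc hγ h1 h2 (by linarith) le_rfl
    hv1 hv2 hx hk₂ hSS hSS0 hb hμ' (by linarith)
  have hq1 : (K' / Real.exp κ) ^ (2 / 3 : ℝ) ≤ 1 := by
    refine Real.rpow_le_one (by positivity) ?_ (by norm_num)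
    rw [div_le_one (Real.exp_pos _), ← Real.exp_log hK']
    exact Real.exp_le_exp.2 h2
  have hq0 : 0 ≤ (K' / Real.exp κ) ^ (2 / 3 : ℝ) := by positivity
  have hc3 : 0 ≤ c ^ (1 / 3 : ℝ) := by positivity
  have e2 : (1 + c + (1 : ℝ) ^ (-(2 / 3) : ℝ) + (1 : ℝ) ^ (-(1 / 3) : ℝ)) = 3 + c := by
    rw [Real.one_rpow, Real.one_rpow]; ring
  rw [e2, add_zero] at r1
  rw [add_zero] at r2
  have ee1 : Real.exp (4 * C₀) ≤ Real.exp (11 * C₀) := Real.exp_le_exp.2 (by linarith)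
  have g1 : (3 + c) * Real.exp (11 * C₀) * ((K' / Real.exp κ) ^ (2 / 3 : ℝ) *
      ((Real.exp κ / Real.exp n) * (k₁ * Real.exp (2 * n)))) ≤
      (3 + c) * Real.exp (11 * C₀) * (1 *
      ((Real.exp κ / Real.exp n) * (k₁ * Real.exp (2 * n)))) := by gcongr
  have g2 : c * c ^ (1 / 3 : ℝ) * Real.exp (4 * C₀) * ((K' / Real.exp κ) ^ (2 / 3 : ℝ) *
      ((Real.exp κ / Real.exp n) * (k₂ * Real.exp b * Real.exp (2 * n)))) ≤
      c * c ^ (1 / 3 : ℝ) * Real.exp (11 * C₀) * (1 *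
      ((Real.exp κ / Real.exp n) * (k₂ * Real.exp b * Real.exp (2 * n)))) := by gcongr
  obtain ⟨u, hu⟩ : ∃ u, u = (Real.exp κ / Real.exp n) * (k₁ * Real.exp (2 * n)) := ⟨_, rfl⟩
  obtain ⟨z, hz⟩ : ∃ z, z = (Real.exp κ / Real.exp n) * (k₂ * Real.exp b * Real.exp (2 * n)) :=
    ⟨_, rfl⟩
  have hu0 : 0 ≤ u := by rw [hu]; positivity
  have hz0 : 0 ≤ z := by rw [hz]; positivity
  have hx11 : 0 ≤ Real.exp (11 * C₀) := (Real.exp_pos _).le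
  have h5 : (3 + c) * Real.exp (11 * C₀) * (1 * u) + c * c ^ (1 / 3 : ℝ) * Real.exp (11 * C₀) *
      (1 * z) ≤ ((3 + c + c * c ^ (1 / 3 : ℝ)) * Real.exp (11 * C₀)) * (u + z) := by
    have a1 : 0 ≤ c * c ^ (1 / 3 : ℝ) * Real.exp (11 * C₀) * u := by positivity
    have a2 : 0 ≤ (3 + c) * Real.exp (11 * C₀) * z := by positivity
    nlinarith
  have e3 : (Real.exp κ / Real.exp n) * ((k₁ + k₂ * Real.exp b) * Real.exp (2 * n)) = u + z := by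
    rw [hu, hz]; ring
  rw [e3]
  rw [← hu] at g1 r1
  rw [← hz] at g2 r2
  refine le_trans (le_of_eq ?_) ((add_le_add (r1.trans g1) (r2.trans g2)).trans h5)
  unfold TPn TPp
  ring

lemma TPn_nonneg {K H V X c K1 E : ℝ} (hK : 0 < K) (hH : 0 < H) (hV : 0 < V) (hX : 0 < X)
    (hc : 0 ≤ c) (hK1 : 0 ≤ K1) (hE : 0 ≤ E) : 0 ≤ TPn K H V X c K1 E := by
  unfold TPn
  refine mul_nonneg ?_ (by positivity)
  split_ifs
  · refine mul_nonneg (by unfold E3Z548.FH; positivity) (G2_nonneg (by positivity) ?_ ?_) <;>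
      positivity
  · exact le_rfl

lemma TPp_nonneg {K H V X c K2 P2 E s₀ : ℝ} (hK : 0 < K) (hH : 0 < H) (hV : 0 < V) (hX : 0 < X)
    (hc : 0 ≤ c) (hK2 : 0 ≤ K2) (hP2 : 0 ≤ P2) (hE : 0 ≤ E) :
    0 ≤ TPp K H V X c K2 P2 E s₀ := by
  unfold TPp
  refine mul_nonneg ?_ (by positivity)
  split_ifs
  · exact mul_nonneg (by unfold E3Z548.FH; positivity) (by positivity)
  · exact le_rfl

/-- **the sum over the levels** -/
theorem sum_x {K H X c K1 K2 P2 E s₀ : ℝ} {a : ℕ} {Ds EE : Finset Eis} {N₁ : ℕ} (hK : 0 < K)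
    (hH : 0 < H) (hX : 0 < X) (hc : 0 < c) (hK1 : 0 ≤ K1)
    (hK2 : 0 ≤ K2) (hP2 : 0 ≤ P2) (hE : 0 ≤ E) (hDs : ∀ d ∈ Ds, (1 : ℝ) ≤ nm d)
    (hEE : ∀ e ∈ EE, (1 : ℝ) ≤ nm e) :
    ∑ i ∈ LI (1 / 10) (N₁ : ℝ), FH K H (Real.exp i) * RNX2 c K (Real.exp i) H X
      (fun jj d e => W2 a (c * (X * (Real.exp 1 * N₁) * H / K)) (nmx K1 K2 P2 s₀ E d e jj)) Ds EE ≤
      ((LI (1 / 10) (N₁ : ℝ)).card : ℝ) * ((TPn K H (Real.exp 1 * N₁) X c K1 E +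
        TPp K H (Real.exp 1 * N₁) X c K2 P2 E s₀) * SE Ds EE) := by
  rw [← nsmul_eq_mul]
  refine sum_le_card_nsmul _ _ _ fun i hi => ?_
  obtain ⟨-, -, h3⟩ := mem_LI hi
  exact lvl_x hK hH hX (Real.exp_pos _) h3 hc hK1 hK2 hP2 hE hDs hEE

end Crest.Agent.R017.RoX116
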