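import Crest.Agent.R017.RoF_116

/-!
# Row 17, T.7, (Ro) at the leaf, exceptional class (helper116): the real inequalities of the data

* `num_core`, `num_mul`, `num_P1`, .. : the numerical premises of the core and of the pair bound
-/

set_option autoImplicit false
set_option linter.unusedVariables false

noncomputable section

namespace Crest.Agent.R017.RoX116

/-- the level of the model -/
lemma logN {v : ℝ} {N₀ N₁ : ℕ} (h0 : Real.exp v ≤ N₀) (h01 : 2 * N₀ ≤ N₁)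
    (h1 : 9 * (N₁ : ℝ) ≤ Real.exp (v + 4)) :
    0 < Real.exp 1 * (N₁ : ℝ) ∧ v ≤ Real.log (Real.exp 1 * N₁) ∧
      Real.exp 1 * (N₁ : ℝ) ≤ Real.exp (v + 5) ∧ (N₁ : ℝ) ≤ Real.exp (v + 4) := by
  have hv := Real.exp_pos v
  have h2 : (2 : ℝ) * N₀ ≤ N₁ := by exact_mod_cast h01
  have hN : 0 < (N₁ : ℝ) := by linarith
  have hN' : (N₁ : ℝ) ≤ Real.exp (v + 4) := by linarith
  have h3 : Real.exp v ≤ Real.exp 1 * N₁ := by
    have : (1 : ℝ) ≤ Real.exp 1 := Real.one_le_exp zero_le_one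
    nlinarith
  refine ⟨by positivity, ?_, ?_, hN'⟩
  · rw [Real.le_log_iff_exp_le (by positivity)]
    exact h3
  · calc Real.exp 1 * (N₁ : ℝ) ≤ Real.exp 1 * Real.exp (v + 4) := by gcongr
      _ = Real.exp (v + 5) := by rw [← Real.exp_add]; congr 1; ring

/-- the premise of the core -/
lemma num_core {cp γ κ κ' v N : ℝ} (hcp : 0 < cp) (hγ : 0 ≤ γ) (hN : 0 ≤ N) (hN5 : N ≤ Real.exp (v + 5))
    (hk : κ - 7 * γ ≤ κ') (hv : 3 * v + 200 * γ ≤ 2 * κ) (hb : Real.log cp + 20 ≤ γ) :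
    cp * (Real.exp (20 * γ)) ^ 2 * N ^ 3 * (Real.exp γ ^ 14) ^ 4 * (Real.exp γ ^ 2) ^ 4 ≤
      Real.exp κ' ^ 2 := by
  have e1 : cp = Real.exp (Real.log cp) := (Real.exp_log hcp).symm
  calc cp * (Real.exp (20 * γ)) ^ 2 * N ^ 3 * (Real.exp γ ^ 14) ^ 4 * (Real.exp γ ^ 2) ^ 4
      ≤ Real.exp (Real.log cp) * (Real.exp (20 * γ)) ^ 2 * Real.exp (v + 5) ^ 3 *
        (Real.exp γ ^ 14) ^ 4 * (Real.exp γ ^ 2) ^ 4 := by rw [← e1]; gcongr
    _ = Real.exp (Real.log cp + 3 * v + 15 + 104 * γ) := by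
        simp only [← Real.exp_nat_mul, ← Real.exp_add]
        congr 1; push_cast; ring
    _ ≤ Real.exp (2 * κ') := Real.exp_le_exp.2 (by linarith)
    _ = _ := by rw [← Real.exp_nat_mul]; congr 1

/-- the premise `c H V² ≤ K X` -/
lemma num_mul {cp γ κ κ' v n x R N : ℝ} (hcp : 0 < cp) (hγ : 0 ≤ γ) (hN : 0 ≤ N)
    (hN5 : N ≤ Real.exp (v + 5))
    (hk : κ - 7 * γ ≤ κ') (hv : 3 * v + 200 * γ ≤ 2 * κ) (hvn : v ≤ 2 * n + 20 * γ)
    (hx : n - R - 1 ≤ x) (hb : Real.log cp + R + 20 ≤ γ) :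
    cp * (Real.exp (20 * γ) * N ^ 2) ≤ Real.exp κ' * Real.exp x := by
  have e1 : cp = Real.exp (Real.log cp) := (Real.exp_log hcp).symm
  calc cp * (Real.exp (20 * γ) * N ^ 2) ≤
        Real.exp (Real.log cp) * (Real.exp (20 * γ) * Real.exp (v + 5) ^ 2) := by
          rw [← e1]; gcongr
    _ = Real.exp (Real.log cp + 20 * γ + 2 * v + 10) := by
        simp only [← Real.exp_nat_mul, ← Real.exp_add]
        congr 1; push_cast; ring
    _ ≤ Real.exp (κ' + x) := Real.exp_le_exp.2 (by linarith)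
    _ = _ := Real.exp_add _ _

/-- the top level `P1` -/
lemma num_P1 {cp γ κ κ' v n x R N : ℝ} (hcp : 0 < cp) (hN : 0 ≤ N)
    (hN5 : N ≤ Real.exp (v + 5)) (hk : κ - 7 * γ ≤ κ') (hx : x ≤ n + R + 1) :
    cp * (Real.exp x * N * Real.exp (20 * γ) / Real.exp κ') ≤
      Real.exp (Real.log cp + n + R + 6 + v + 27 * γ - κ) := by
  have e1 : cp = Real.exp (Real.log cp) := (Real.exp_log hcp).symm
  calc cp * (Real.exp x * N * Real.exp (20 * γ) / Real.exp κ')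
      ≤ Real.exp (Real.log cp) * (Real.exp x * Real.exp (v + 5) * Real.exp (20 * γ) /
        Real.exp κ') := by rw [← e1]; gcongr
    _ = Real.exp (Real.log cp + x + (v + 5) + 20 * γ - κ') := by
        simp only [← Real.exp_add, ← Real.exp_sub]
        congr 1; ring
    _ ≤ _ := Real.exp_le_exp.2 (by linarith)

lemma num_81 {cp γ κ v n R μl P1 : ℝ} (hcp : 0 < cp) (hP0 : 0 ≤ P1)
    (hP : P1 ≤ Real.exp (Real.log cp + n + R + 6 + v + 27 * γ - κ)) (hμ : 1000 * γ ≤ μl)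
    (hγ : 0 ≤ γ) (hb : Real.log cp + R + 20 ≤ γ) :
    81 * P1 * Real.exp γ ≤ Real.exp (v + n - κ + μl) := by
  have h81 : (81 : ℝ) ≤ Real.exp 5 := by
    have h4 : (2.7 : ℝ) ≤ Real.exp 1 := by
      have := Real.exp_one_gt_d9; linarith
    calc (81 : ℝ) ≤ 2.7 ^ 5 := by norm_num
      _ ≤ Real.exp 1 ^ 5 := by gcongr
      _ = Real.exp 5 := by rw [← Real.exp_nat_mul]; norm_num
  calc 81 * P1 * Real.exp γ ≤ Real.exp 5 *
        Real.exp (Real.log cp + n + R + 6 + v + 27 * γ - κ) * Real.exp γ := by gcongr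
    _ = Real.exp (5 + (Real.log cp + n + R + 6 + v + 27 * γ - κ) + γ) := by
        rw [← Real.exp_add, ← Real.exp_add]
    _ ≤ _ := Real.exp_le_exp.2 (by linarith)

/-- the target of line (r3) -/
lemma TC_of {n v κ μl Lm : ℝ} :
    ∃ T : ℝ, n ≤ T ∧ TC T n v κ (max 0 (max ((2 * v - κ) / 3) ((3 * v - κ - n) / 2))) μl ∧
      (0 ≤ v + n - κ + μl → 4 / 3 * n + (v + κ) / 3 -
        max 0 (max ((2 * v - κ) / 3) ((3 * v - κ - n) / 2)) - μl ≤ T) := by
  obtain ⟨m, hm⟩ : ∃ m, m = max 0 (max ((2 * v - κ) / 3) ((3 * v - κ - n) / 2)) := ⟨_, rfl⟩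
  have m0 : 0 ≤ m := by rw [hm]; exact le_max_left _ _
  have m1 : (2 * v - κ) / 3 ≤ m := by
    rw [hm]; exact (le_max_left _ _).trans (le_max_right _ _)
  have m2 : (3 * v - κ - n) / 2 ≤ m := by
    rw [hm]; exact (le_max_right _ _).trans (le_max_right _ _)
  rw [← hm]
  by_cases h1 : 0 ≤ v + n - κ + μl
  · by_cases h2 : n ≤ 4 / 3 * n + (v + κ) / 3 - m - μl
    · exact ⟨_, h2, Or.inr ⟨rfl, m0, m1, m2, h1⟩, fun _ => le_rfl⟩
    · exact ⟨n, le_rfl, Or.inl rfl, fun _ => (not_le.1 h2).le⟩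
  · exact ⟨n, le_rfl, Or.inl rfl, fun h => absurd h h1⟩

end Crest.Agent.R017.RoX116
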