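import Crest.Agent.R017.E3Szx_744
import Crest.Agent.R017.R4c_571

/-!
# Row 17, T.7, E3 for the exceptional class (helper116): the `R`-numbers of the levels

* `pw_lvl`, `G2_lvl` : the factors at a level `V = s V₁` are at most the factors at `V₁`
* `RN2_top`, `RNp_top` : the numbers of a level `V ≤ V₁` with the two-slope functions of (RH)
-/

set_option autoImplicit false
set_option maxHeartbeats 400000

noncomputable section

open Finset
open scoped Classical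

namespace Crest.Agent.R017.RoX116

open Crest.Agent.R012 Crest.Agent.R012.Eis
open Crest.Agent.R017.E3T829 (G2 G2_nonneg)
open Crest.Agent.R017.E3Z548 (FH)
open Crest.Agent.R017.E3Sz579 (Ld Md)
open Crest.Agent.R017.E3Sx744 (Mxd)
open Crest.Agent.R017.Rsx72 (RN2 RNp)
open Crest.Agent.R017.R3571 (W2)

/-- the factors at a level `V = s V₁` -/
lemma pw_lvl {L I s n p q : ℝ} (hL : 0 ≤ L) (hI : 0 < I) (hs : 0 < s) (hs1 : s ≤ 1) (hn : 1 ≤ n)
    (hp : 0 ≤ p) (hpq : q ≤ 2 * p) : (L * s ^ 2 / n) ^ p * (I * s) ^ (-q) ≤ L ^ p * I ^ (-q) := by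
  have hn0 : 0 < n := by linarith
  have h1 : (L * s ^ 2 / n) ^ p ≤ (L * s ^ 2) ^ p := by
    refine Real.rpow_le_rpow (by positivity) (div_le_self (by positivity) hn) hp
  have h2 : (L * s ^ 2) ^ p = L ^ p * s ^ (2 * p) := by
    rw [Real.mul_rpow hL (by positivity), ← Real.rpow_natCast s 2, ← Real.rpow_mul hs.le]
    norm_num
  have h3 : (I * s) ^ (-q) = I ^ (-q) * s ^ (-q) := Real.mul_rpow hI.le hs.le
  have h4 : s ^ (2 * p) * s ^ (-q) ≤ 1 := by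
    rw [← Real.rpow_add hs]
    exact Real.rpow_le_one hs.le hs1 (by linarith)
  have hI0 : 0 ≤ I ^ (-q) := by positivity
  have hL0 : 0 ≤ L ^ p := by positivity
  calc (L * s ^ 2 / n) ^ p * (I * s) ^ (-q) ≤ (L ^ p * s ^ (2 * p)) * (I ^ (-q) * s ^ (-q)) := by
        rw [h3, ← h2]
        exact mul_le_mul_of_nonneg_right h1 (by positivity)
    _ = (L ^ p * I ^ (-q)) * (s ^ (2 * p) * s ^ (-q)) := by ring
    _ ≤ (L ^ p * I ^ (-q)) * 1 := mul_le_mul_of_nonneg_left h4 (by positivity)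
    _ = _ := mul_one _

lemma G2_lvl {L I s n c β : ℝ} (hL : 0 ≤ L) (hI : 0 < I) (hs : 0 < s) (hs1 : s ≤ 1) (hn : 1 ≤ n)
    (hc : 0 ≤ c) (hβ : 0 < β) :
    G2 (L * s ^ 2 / n) (c * (L * s ^ 2 / n) * (I * s) ^ (-(1 / 2) : ℝ)) (β * (I * s)) ≤
      G2 L (c * L * I ^ (-(1 / 2) : ℝ)) (β * I) := by
  unfold E3T829.G2
  have hn0 : 0 < n := by linarith
  have e1 : (L * s ^ 2 / n) ^ (1 / 3 : ℝ) ≤ L ^ (1 / 3 : ℝ) := by
    have := pw_lvl (p := 1 / 3) (q := 0) hL hI hs hs1 hn (by norm_num) (by norm_num)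
    simpa using this
  have e2 : c * (L * s ^ 2 / n) * (I * s) ^ (-(1 / 2) : ℝ) ≤ c * L * I ^ (-(1 / 2) : ℝ) := by
    have := pw_lvl (p := 1) (q := 1 / 2) hL hI hs hs1 hn (by norm_num) (by norm_num)
    rw [Real.rpow_one, Real.rpow_one] at this
    calc c * (L * s ^ 2 / n) * (I * s) ^ (-(1 / 2) : ℝ)
        = c * ((L * s ^ 2 / n) * (I * s) ^ (-(1 / 2) : ℝ)) := by ring
      _ ≤ c * (L * I ^ (-(1 / 2) : ℝ)) := mul_le_mul_of_nonneg_left this hc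
      _ = _ := by ring
  have hβI : 0 < β * I := by positivity
  have e3 : (L * s ^ 2 / n) ^ (7 / 9 : ℝ) * (β * (I * s)) ^ (-(2 / 3) : ℝ) ≤
      L ^ (7 / 9 : ℝ) * (β * I) ^ (-(2 / 3) : ℝ) := by
    have := pw_lvl (p := 7 / 9) (q := 2 / 3) hL hβI hs hs1 hn (by norm_num) (by norm_num)
    rwa [mul_assoc β I s] at this
  have e4 : (L * s ^ 2 / n) ^ (11 / 18 : ℝ) * (β * (I * s)) ^ (-(1 / 3) : ℝ) ≤
      L ^ (11 / 18 : ℝ) * (β * I) ^ (-(1 / 3) : ℝ) := by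
    have := pw_lvl (p := 11 / 18) (q := 1 / 3) hL hβI hs hs1 hn (by norm_num) (by norm_num)
    rwa [mul_assoc β I s] at this
  linarith

/-- the prefactor of a level with the slope `1/3` -/
lemma FH_lvl {K H V s : ℝ} (hH : 0 < H) (hV : 0 < V) (hs : 0 < s) :
    FH K H (V * s) * s ^ (1 / 3 : ℝ) = FH K H V := by
  unfold E3Z548.FH
  have e1 : (H * (V * s)) ^ (-(1 / 3) : ℝ) = (H * V) ^ (-(1 / 3) : ℝ) * s ^ (-(1 / 3) : ℝ) := by
    rw [← mul_assoc, Real.mul_rpow (by positivity) hs.le]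
  rw [e1]
  have e2 : s ^ (-(1 / 3) : ℝ) * s ^ (1 / 3 : ℝ) = 1 := by
    rw [← Real.rpow_add hs]; norm_num
  calc K ^ (2 / 3 : ℝ) * ((H * V) ^ (-(1 / 3) : ℝ) * s ^ (-(1 / 3) : ℝ)) * s ^ (1 / 3 : ℝ)
      = K ^ (2 / 3 : ℝ) * (H * V) ^ (-(1 / 3) : ℝ) * (s ^ (-(1 / 3) : ℝ) * s ^ (1 / 3 : ℝ)) := by
        ring
    _ = _ := by rw [e2, mul_one]

/-- the two-slope function below its level -/
lemma W2_lvl (a : ℕ) {P1 W s : ℝ} (hP1 : 0 < P1) (hs : 0 < s) (hs1 : s ≤ 1) :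
    W2 a P1 W (P1 * s) = s ^ (1 / 3 : ℝ) * W := by
  unfold R3571.W2
  rw [if_pos (mul_le_of_le_one_right hP1.le hs1)]
  congr 2
  field_simp

/-- the sum of the norms -/
def SE (Ds EE : Finset Eis) : ℝ := ∑ _d ∈ Ds, ∑ e ∈ EE, (nm e : ℝ)

lemma SE_nonneg (Ds EE : Finset Eis) : 0 ≤ SE Ds EE :=
  sum_nonneg fun _ _ => sum_nonneg fun _ _ => Nat.cast_nonneg _

/-- **the non-principal number of a level** -/
theorem RN2_top {K H X V s c β K1 E : ℝ} {a : ℕ} {Ds EE : Finset Eis} (hK : 0 < K) (hH : 0 < H)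
    (hX : 0 < X) (hV : 0 < V) (hs : 0 < s) (hs1 : s ≤ 1) (hc : 0 < c) (hβ : 0 < β)
    (hK1 : 0 ≤ K1) (hE : 0 ≤ E) (hDs : ∀ d ∈ Ds, (1 : ℝ) ≤ nm d) :
    FH K H (V * s) * RN2 (Ld K (V * s) H) (Md c K (V * s) H X) (β * (X * (V * s) * H / K))
      (fun d _e => W2 a (c * (X * V * H / K)) (K1 * (E / nm d) ^ (2 / 3 : ℝ))
        (c * (X * (V * s) * H / K))) Ds EE ≤
    (if 1 ≤ H * V ^ 2 / K then FH K H V * G2 (H * V ^ 2 / K)
      (c * (H * V ^ 2 / K) * (X * V * H / K) ^ (-(1 / 2) : ℝ)) (β * (X * V * H / K)) else 0) *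
      (K1 * E ^ (2 / 3 : ℝ)) * SE Ds EE := by
  have hI : 0 < X * V * H / K := by positivity
  have hL : 0 ≤ H * V ^ 2 / K := by positivity
  have hFH : 0 ≤ FH K H (V * s) := by unfold E3Z548.FH; positivity
  obtain ⟨G, hG⟩ : ∃ G, G = G2 (H * V ^ 2 / K)
    (c * (H * V ^ 2 / K) * (X * V * H / K) ^ (-(1 / 2) : ℝ)) (β * (X * V * H / K)) := ⟨_, rfl⟩
  have hG0 : 0 ≤ G := by
    rw [hG]
    exact G2_nonneg hL (by positivity) (by positivity)
  have eI : X * (V * s) * H / K = X * V * H / K * s := by ring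
  rw [← hG]
  have hterm : ∀ d ∈ Ds, ∀ e ∈ EE, (nm d : ℝ) ^ (2 / 3 : ℝ) * nm e *
      ((if 1 ≤ Ld K (V * s) H d then G2 (Ld K (V * s) H d) (Md c K (V * s) H X d)
        (β * (X * (V * s) * H / K)) else 0) *
        W2 a (c * (X * V * H / K)) (K1 * (E / nm d) ^ (2 / 3 : ℝ))
        (c * (X * (V * s) * H / K))) ≤
      (if 1 ≤ H * V ^ 2 / K then s ^ (1 / 3 : ℝ) * G * (K1 * E ^ (2 / 3 : ℝ)) else 0) * nm e := by
    intro d hd e _
    have hnd := hDs d hd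
    have hnd0 : (0 : ℝ) < nm d := by linarith
    have eW : W2 a (c * (X * V * H / K)) (K1 * (E / nm d) ^ (2 / 3 : ℝ))
        (c * (X * (V * s) * H / K)) = s ^ (1 / 3 : ℝ) * (K1 * (E / nm d) ^ (2 / 3 : ℝ)) := by
      rw [eI, ← mul_assoc]
      exact W2_lvl a (by positivity) hs hs1
    have eL : Ld K (V * s) H d = H * V ^ 2 / K * s ^ 2 / nm d := by
      unfold E3Sz579.Ld
      field_simp
    have eM : Md c K (V * s) H X d = c * (H * V ^ 2 / K * s ^ 2 / nm d) *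
        (X * V * H / K * s) ^ (-(1 / 2) : ℝ) := by
      unfold E3Sz579.Md
      rw [eI]
      congr 2
    rw [eW, eL, eM, eI]
    by_cases h1 : 1 ≤ H * V ^ 2 / K * s ^ 2 / nm d
    · have h2 : 1 ≤ H * V ^ 2 / K := by
        refine h1.trans ((div_le_self (by positivity) hnd).trans ?_)
        exact mul_le_of_le_one_right hL (pow_le_one₀ hs.le hs1)
      rw [if_pos h1, if_pos h2]
      have h3 := G2_lvl (c := c) (β := β) hL hI hs hs1 hnd hc.le hβ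
      rw [← hG] at h3
      have h4 : (nm d : ℝ) ^ (2 / 3 : ℝ) * (E / nm d) ^ (2 / 3 : ℝ) = E ^ (2 / 3 : ℝ) := by
        rw [← Real.mul_rpow hnd0.le (by positivity)]
        congr 1; field_simp
      have hs3 : 0 ≤ s ^ (1 / 3 : ℝ) := by positivity
      calc (nm d : ℝ) ^ (2 / 3 : ℝ) * nm e * (G2 (H * V ^ 2 / K * s ^ 2 / nm d)
            (c * (H * V ^ 2 / K * s ^ 2 / nm d) * (X * V * H / K * s) ^ (-(1 / 2) : ℝ))
            (β * (X * V * H / K * s)) * (s ^ (1 / 3 : ℝ) * (K1 * (E / nm d) ^ (2 / 3 : ℝ))))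
          ≤ (nm d : ℝ) ^ (2 / 3 : ℝ) * nm e *
            (G * (s ^ (1 / 3 : ℝ) * (K1 * (E / nm d) ^ (2 / 3 : ℝ)))) := by gcongr
        _ = s ^ (1 / 3 : ℝ) * G * (K1 * ((nm d : ℝ) ^ (2 / 3 : ℝ) *
            (E / nm d) ^ (2 / 3 : ℝ))) * nm e := by ring
        _ = _ := by rw [h4]
    · rw [if_neg h1, zero_mul, mul_zero]
      refine mul_nonneg ?_ (Nat.cast_nonneg _)
      split_ifs
      · positivity
      · exact le_rfl
  unfold Rsx72.RN2 SE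
  calc FH K H (V * s) * ∑ d ∈ Ds, ∑ e ∈ EE, (nm d : ℝ) ^ (2 / 3 : ℝ) * nm e *
      ((if 1 ≤ Ld K (V * s) H d then G2 (Ld K (V * s) H d) (Md c K (V * s) H X d)
        (β * (X * (V * s) * H / K)) else 0) *
        W2 a (c * (X * V * H / K)) (K1 * (E / nm d) ^ (2 / 3 : ℝ))
        (c * (X * (V * s) * H / K)))
      ≤ FH K H (V * s) * ∑ d ∈ Ds, ∑ e ∈ EE,
        (if 1 ≤ H * V ^ 2 / K then s ^ (1 / 3 : ℝ) * G * (K1 * E ^ (2 / 3 : ℝ)) else 0) *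
          (nm e : ℝ) := by
        refine mul_le_mul_of_nonneg_left ?_ hFH
        exact sum_le_sum fun d hd => sum_le_sum fun e he => hterm d hd e he
    _ = FH K H (V * s) * ((if 1 ≤ H * V ^ 2 / K then s ^ (1 / 3 : ℝ) * G *
        (K1 * E ^ (2 / 3 : ℝ)) else 0) * ∑ _d ∈ Ds, ∑ e ∈ EE, (nm e : ℝ)) := by
        simp only [mul_sum]
    _ = _ := by
        split_ifs
        · rw [← FH_lvl (K := K) hH hV hs]; ring
        · ring

/-- **the principal number of a level** -/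
theorem RNp_top {K H X V s c K2 P2 E s₀ : ℝ} {a : ℕ} {Ds EE : Finset Eis} (hK : 0 < K)
    (hH : 0 < H) (hX : 0 < X) (hV : 0 < V) (hs : 0 < s) (hs1 : s ≤ 1) (hc : 0 < c)
    (hK2 : 0 ≤ K2) (hP2 : 0 ≤ P2) (hE : 0 ≤ E) (hDs : ∀ d ∈ Ds, (1 : ℝ) ≤ nm d)
    (hEE : ∀ e ∈ EE, (1 : ℝ) ≤ nm e) :
    FH K H (V * s) * RNp (Ld K (V * s) H) (Mxd c K (V * s) H X)
      (fun d e => W2 a (c * (X * V * H / K)) (K2 * (P2 ^ (1 / 3 : ℝ) * ((E / nm d) ^ (5 / 3 : ℝ) *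
        (nm e : ℝ)⁻¹ * min 1 ((nm d : ℝ) * nm e * Real.exp (-s₀)))))
        (c * (X * (V * s) * H / K))) Ds EE ≤
    (if 1 ≤ H * V ^ 2 / K then FH K H V * (c * (H * V ^ 2 / K) *
      (X * V * H / K) ^ (-(2 / 3) : ℝ)) else 0) *
      (K2 * (P2 ^ (1 / 3 : ℝ) * (E ^ (5 / 3 : ℝ) * Real.exp (-s₀)))) * SE Ds EE := by
  have hI : 0 < X * V * H / K := by positivity
  have hL : 0 ≤ H * V ^ 2 / K := by positivity
  have hFH : 0 ≤ FH K H (V * s) := by unfold E3Z548.FH; positivity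
  obtain ⟨M, hM⟩ : ∃ M, M = c * (H * V ^ 2 / K) * (X * V * H / K) ^ (-(2 / 3) : ℝ) := ⟨_, rfl⟩
  have hM0 : 0 ≤ M := by rw [hM]; positivity
  obtain ⟨N, hN⟩ : ∃ N, N = K2 * (P2 ^ (1 / 3 : ℝ) * (E ^ (5 / 3 : ℝ) * Real.exp (-s₀))) :=
    ⟨_, rfl⟩
  have hN0 : 0 ≤ N := by rw [hN]; positivity
  have eI : X * (V * s) * H / K = X * V * H / K * s := by ring
  rw [← hM, ← hN]
  have hterm : ∀ d ∈ Ds, ∀ e ∈ EE, (nm d : ℝ) ^ (2 / 3 : ℝ) * nm e *
      ((if 1 ≤ Ld K (V * s) H d then Mxd c K (V * s) H X d else 0) *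
        W2 a (c * (X * V * H / K)) (K2 * (P2 ^ (1 / 3 : ℝ) * ((E / nm d) ^ (5 / 3 : ℝ) *
        (nm e : ℝ)⁻¹ * min 1 ((nm d : ℝ) * nm e * Real.exp (-s₀)))))
        (c * (X * (V * s) * H / K))) ≤
      (if 1 ≤ H * V ^ 2 / K then s ^ (1 / 3 : ℝ) * M * N else 0) * nm e := by
    intro d hd e he
    have hnd := hDs d hd
    have hnd0 : (0 : ℝ) < nm d := by linarith
    have hne := hEE e he
    have hne0 : (0 : ℝ) < nm e := by linarith
    have eW : ∀ W : ℝ, W2 a (c * (X * V * H / K)) W (c * (X * (V * s) * H / K)) =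
        s ^ (1 / 3 : ℝ) * W := by
      intro W
      rw [eI, ← mul_assoc]
      exact W2_lvl a (by positivity) hs hs1
    have eL : Ld K (V * s) H d = H * V ^ 2 / K * s ^ 2 / nm d := by
      unfold E3Sz579.Ld
      field_simp
    have eM : Mxd c K (V * s) H X d = c * (H * V ^ 2 / K * s ^ 2 / nm d) *
        (X * V * H / K * s) ^ (-(2 / 3) : ℝ) := by
      unfold E3Sx744.Mxd
      rw [eI]
      congr 2
    rw [eW, eL, eM]
    have hmin : min 1 ((nm d : ℝ) * nm e * Real.exp (-s₀)) ≤ (nm d : ℝ) * nm e * Real.exp (-s₀) :=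
      min_le_right _ _
    by_cases h1 : 1 ≤ H * V ^ 2 / K * s ^ 2 / nm d
    · have h2 : 1 ≤ H * V ^ 2 / K := by
        refine h1.trans ((div_le_self (by positivity) hnd).trans ?_)
        exact mul_le_of_le_one_right hL (pow_le_one₀ hs.le hs1)
      rw [if_pos h1, if_pos h2]
      have h3 : c * (H * V ^ 2 / K * s ^ 2 / nm d) * (X * V * H / K * s) ^ (-(2 / 3) : ℝ) ≤
          M / nm d := by
        have h4 := pw_lvl (p := 1) (q := 2 / 3) hL hI hs hs1 le_rfl (by norm_num) (by norm_num)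
        rw [Real.rpow_one, Real.rpow_one, div_one] at h4
        calc c * (H * V ^ 2 / K * s ^ 2 / nm d) * (X * V * H / K * s) ^ (-(2 / 3) : ℝ)
            = c * ((H * V ^ 2 / K * s ^ 2) * (X * V * H / K * s) ^ (-(2 / 3) : ℝ)) / nm d := by
              ring
          _ ≤ c * ((H * V ^ 2 / K) * (X * V * H / K) ^ (-(2 / 3) : ℝ)) / nm d := by gcongr
          _ = M / nm d := by rw [hM]; ring
      have h5 : (nm d : ℝ) ^ (2 / 3 : ℝ) * ((E / nm d) ^ (5 / 3 : ℝ)) =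
          E ^ (5 / 3 : ℝ) * (nm d : ℝ)⁻¹ := by
        rw [Real.div_rpow hE hnd0.le]
        have h6 : (nm d : ℝ) ^ (5 / 3 : ℝ) = (nm d : ℝ) ^ (2 / 3 : ℝ) * nm d := by
          rw [← Real.rpow_add_one hnd0.ne']; norm_num
        rw [h6]
        have h7 : 0 < (nm d : ℝ) ^ (2 / 3 : ℝ) := by positivity
        field_simp
      have hs3 : 0 ≤ s ^ (1 / 3 : ℝ) := by positivity
      have hP3 : 0 ≤ P2 ^ (1 / 3 : ℝ) := by positivity
      have hE5 : 0 ≤ (E / nm d) ^ (5 / 3 : ℝ) := by positivity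
      calc (nm d : ℝ) ^ (2 / 3 : ℝ) * nm e * (c * (H * V ^ 2 / K * s ^ 2 / nm d) *
            (X * V * H / K * s) ^ (-(2 / 3) : ℝ) * (s ^ (1 / 3 : ℝ) * (K2 * (P2 ^ (1 / 3 : ℝ) *
            ((E / nm d) ^ (5 / 3 : ℝ) * (nm e : ℝ)⁻¹ *
              min 1 ((nm d : ℝ) * nm e * Real.exp (-s₀)))))))
          ≤ (nm d : ℝ) ^ (2 / 3 : ℝ) * nm e * (M / nm d * (s ^ (1 / 3 : ℝ) * (K2 *
            (P2 ^ (1 / 3 : ℝ) * ((E / nm d) ^ (5 / 3 : ℝ) * (nm e : ℝ)⁻¹ *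
              ((nm d : ℝ) * nm e * Real.exp (-s₀))))))) := by gcongr
        _ = (s ^ (1 / 3 : ℝ) * M * (K2 * (P2 ^ (1 / 3 : ℝ) * (((nm d : ℝ) ^ (2 / 3 : ℝ) *
            (E / nm d) ^ (5 / 3 : ℝ)) * Real.exp (-s₀))))) * nm e := by
            field_simp
        _ = (s ^ (1 / 3 : ℝ) * M * N) * nm e * (nm d : ℝ)⁻¹ := by rw [h5, hN]; ring
        _ ≤ (s ^ (1 / 3 : ℝ) * M * N) * nm e * 1 := by
            refine mul_le_mul_of_nonneg_left (inv_le_one_of_one_le₀ hnd) (by positivity)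
        _ = _ := mul_one _
    · rw [if_neg h1, zero_mul, mul_zero]
      refine mul_nonneg ?_ (Nat.cast_nonneg _)
      split_ifs
      · positivity
      · exact le_rfl
  unfold Rsx72.RNp SE
  calc FH K H (V * s) * ∑ d ∈ Ds, ∑ e ∈ EE, (nm d : ℝ) ^ (2 / 3 : ℝ) * nm e *
      ((if 1 ≤ Ld K (V * s) H d then Mxd c K (V * s) H X d else 0) *
        W2 a (c * (X * V * H / K)) (K2 * (P2 ^ (1 / 3 : ℝ) * ((E / nm d) ^ (5 / 3 : ℝ) *
        (nm e : ℝ)⁻¹ * min 1 ((nm d : ℝ) * nm e * Real.exp (-s₀)))))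
        (c * (X * (V * s) * H / K)))
      ≤ FH K H (V * s) * ∑ d ∈ Ds, ∑ e ∈ EE,
        (if 1 ≤ H * V ^ 2 / K then s ^ (1 / 3 : ℝ) * M * N else 0) * (nm e : ℝ) := by
        refine mul_le_mul_of_nonneg_left ?_ hFH
        exact sum_le_sum fun d hd => sum_le_sum fun e he => hterm d hd e he
    _ = FH K H (V * s) * ((if 1 ≤ H * V ^ 2 / K then s ^ (1 / 3 : ℝ) * M * N else 0) *
        ∑ _d ∈ Ds, ∑ e ∈ EE, (nm e : ℝ)) := by
        simp only [mul_sum]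
    _ = _ := by
        split_ifs
        · rw [← FH_lvl (K := K) hH hV hs]; ring
        · ring

end Crest.Agent.R017.RoX116
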