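import Crest.Agent.R012.Pair_695
import Crest.Agent.R012.CharInst_766
import Crest.Agent.R012.SymK_645
import Crest.Agent.R012.Sym6_645

/-!
# Row 17, section A92: rows, matrices and phases of the symmetric Rankin-Selberg kernel

Conventions of `K695`: frames `X = (η, ζ)`, `Γ(3)` acts by `act`, `kub γ = (C/D)_3`.
-/

set_option autoImplicit false

noncomputable section

open MeasureTheory Complex

namespace Crest.Agent.R017.Ker92

open Crest.Agent.R012 Crest.Agent.R012.K695 Eis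

/-- Frames `(η, ζ)`. -/
abbrev Frm : Type := K695.Frm

/-! ### The Kubota symbol through the top row -/

lemma sy_ne_zero' {x c : Eis} (hc : IsPrim c) (h : IsCoprime x c) : sy x c ≠ 0 :=
  Sym645.syAPI.ne_zero x c hc h

lemma kub_eq_top (g : Gam) : kub g = sy (gb g) (ga g) := by
  have H := Sym645.syAPI
  have h1 : sy (gb g) (ga g) * sy (gc g) (ga g) = 1 := by
    rw [← H.mul_left _ _ _ (ga_prim g)]
    rw [H.congr (gb g * gc g) (-1) (ga g) (ga_prim g) ⟨gd g, by linear_combination -det_eq g⟩]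
    exact H.neg_one _ (ga_prim g)
  have h2 : kub g * sy (gc g) (ga g) = 1 := by
    have h := kub_mul H g g⁻¹
    rw [mul_inv_cancel, kub_one H] at h
    have h3 : kub g⁻¹ = sy (gc g) (ga g) := by
      unfold kub
      rw [gc_inv, gd_inv, sy_neg_left H _ (ga_prim g)]
    rw [h3] at h
    exact h.symm
  have h0 : sy (gc g) (ga g) ≠ 0 := right_ne_zero_of_mul_eq_one h1
  exact mul_right_cancel₀ h0 (h2.trans h1.symm)

lemma kub_top_of {a b c d : Eis} (hdet : a * d - b * c = 1) (ha : IsPrim a) (hb : (3 : Eis) ∣ b)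
    (hc : (3 : Eis) ∣ c) (hd : IsPrim d) : kub (mkGam a b c d hdet ha hb hc hd) = sy b a := by
  rw [kub_eq_top]; rfl

lemma star_mul_kub (g : Gam) : (starRingEnd ℂ) (kub g) * kub g = 1 := by
  rw [mul_comm]; exact kub_mul_conj Sym645.syAPI g

lemma kub_cube (g : Gam) : kub g ^ 3 = 1 :=
  Sym645.syFacts.cube _ _ (gd_prim g) (isRow_gam g).1

lemma kub_sq (g : Gam) : kub g * kub g = (starRingEnd ℂ) (kub g) := by
  have h1 := star_mul_kub g
  have h2 := kub_cube g
  linear_combination (starRingEnd ℂ) (kub g) * h2 - (kub g * kub g) * h1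

/-! ### Rows with both coordinates primary -/

/-- coprime rows, both coordinates primary, and prime to `M`. -/
def IsRowU (M : Eis) (r : Eis × Eis) : Prop :=
  IsCoprime r.1 r.2 ∧ IsPrim r.1 ∧ IsPrim r.2 ∧ IsCoprime (r.1 * r.2) M

/-- `κ(v γ) = κ(v) κ(γ)` for rows with both coordinates primary. -/
theorem sy_rmulU {r : Eis × Eis} (h : IsCoprime r.1 r.2) (h1 : IsPrim r.1) (h2 : IsPrim r.2)
    (g : Gam) : sy (rmul r g).1 (rmul r g).2 = sy r.1 r.2 * kub g := by
  have H := Sym645.syAPI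
  -- `(x, y) = (x - y, y) u`, `u = (1 0; 1 1)`, and `u g u⁻¹ = (a - b, b; a + c - b - d, b + d)`
  set x := r.1 with hx
  set y := r.2 with hy
  have ha := ga_prim g
  have hb := gb_dvd g
  have hc := gc_dvd g
  have hd := gd_prim g
  have hdet : (ga g - gb g) * (gb g + gd g) - gb g * (ga g + gc g - gb g - gd g) = 1 := by
    linear_combination det_eq g
  have hA : IsPrim (ga g - gb g) := by
    unfold IsPrim at *
    have : ga g - gb g - 1 = (ga g - 1) - gb g := by ring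
    rw [this]; exact dvd_sub ha hb
  have hC : (3 : Eis) ∣ ga g + gc g - gb g - gd g := by
    unfold IsPrim at *
    have : ga g + gc g - gb g - gd g = (ga g - 1) + gc g - gb g - (gd g - 1) := by ring
    rw [this]; exact dvd_sub (dvd_sub (dvd_add ha hc) hb) hd
  have hD : IsPrim (gb g + gd g) := by
    unfold IsPrim at *
    have : gb g + gd g - 1 = gb g + (gd g - 1) := by ring
    rw [this]; exact dvd_add hb hd
  set g' : Gam := mkGam (ga g - gb g) (gb g) (ga g + gc g - gb g - gd g) (gb g + gd g)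
    hdet hA hb hC hD with hg'
  have hrow : IsRow (x - y, y) := by
    refine ⟨?_, ?_, h2⟩
    · obtain ⟨p, q, hpq⟩ := h
      exact ⟨p, q + p, by linear_combination hpq⟩
    · unfold IsPrim at h1 h2
      have : x - y = (x - 1) - (y - 1) := by ring
      simp only
      rw [this]; exact dvd_sub h1 h2
  have e1 := sy_rmul H hrow g'
  have e2 : kub g' = kub g := by
    rw [kub_eq_top, kub_eq_top]
    have e3 : ga g' = ga g - gb g := rfl
    have e4 : gb g' = gb g := rfl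
    rw [e3, e4]
    have e5 : sy (gb g) (ga g - gb g) = sy (ga g) (ga g - gb g) :=
      H.congr _ _ _ hA ⟨-1, by ring⟩
    have e6 : sy (ga g - gb g) (ga g) = sy (-gb g) (ga g) :=
      H.congr _ _ _ ha ⟨1, by ring⟩
    rw [e5, H.recip _ _ ha hA, e6, sy_neg_left H _ ha]
  have e7 : sy x y = sy (x - y) y := H.congr _ _ _ h2 ⟨1, by ring⟩
  have e8 : (rmul (x - y, y) g').2 = (rmul r g).2 := by
    simp only [rmul, hg', gb_mk, gd_mk]
    rw [← hx, ← hy]; ring
  have e9 : (rmul (x - y, y) g').1 = (rmul r g).1 - (rmul r g).2 := by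
    simp only [rmul, hg', ga_mk, gc_mk]
    rw [← hx, ← hy]; ring
  have hY : IsPrim (rmul r g).2 := by
    rw [← e8]; exact (isRow_rmul hrow g').2.2
  have e10 : sy (rmul r g).1 (rmul r g).2 = sy ((rmul r g).1 - (rmul r g).2) (rmul r g).2 :=
    H.congr _ _ _ hY ⟨1, by ring⟩
  rw [e10, ← e9, ← e8, e1, e2, e7]

/-! ### Matrices with two rows -/

/-- A completion `(A, B; C, D)` of the row `(C, D)` adapted to the modulus `3 M`. -/
structure Cpl (M : Eis) where
  A : Eis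
  B : Eis
  C : Eis
  D : Eis
  det : A * D - B * C = 1
  hC : IsPrim C
  hD : IsPrim D
  hB : 3 * M ∣ B
  cop : IsCoprime (C * D) M

namespace Cpl

variable {M : Eis} (s : Cpl M)

lemma copCD : IsCoprime s.C s.D := ⟨-s.B, s.A, by linear_combination s.det⟩

/-- `A D ≡ 1 (3M)`. -/
lemma AD : 3 * M ∣ s.A * s.D - 1 := by
  obtain ⟨t, ht⟩ := s.hB
  exact ⟨t * s.C, by linear_combination s.det + s.C * ht⟩

end Cpl

lemma isCoprime_three_mul {M x : Eis} (hx : IsPrim x) (h : IsCoprime x M) :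
    IsCoprime x (3 * M) :=
  IsCoprime.mul_right (prim_coprime_three hx) h

/-- existence of adapted completions. -/
lemma exists_cpl {M : Eis} {r : Eis × Eis} (h : IsRowU M r) :
    ∃ s : Cpl M, s.C = r.1 ∧ s.D = r.2 := by
  obtain ⟨⟨p, q, hpq⟩, h1, h2, h3⟩ := h
  -- q * D - (-p) * C = 1
  have hD3 : IsCoprime r.2 (3 * M) := isCoprime_three_mul h2 (IsCoprime.of_mul_left_right h3)
  obtain ⟨u, v, huv⟩ := hD3
  -- u * D + v * (3M) = 1 ; B' = -p + t D with t = p u
  refine ⟨⟨q + p * u * r.1, -p + p * u * r.2, r.1, r.2, by linear_combination hpq, h1, h2,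
    ⟨-(p * v), by linear_combination p * huv⟩, h3⟩, rfl, rfl⟩

/-! ### The two matrices of the kernel -/

section kernel

variable {M : Eis}

/-- `(M u, -η' + s u)` in terms of `(M η, ζ)`. -/
lemma exists_g2 (hM : M ≠ 0) (h3M : (3 : Eis) ∣ M) (σ : Cpl M) {s : Eis}
    (hs : 3 * M ∣ s * σ.C - σ.A) :
    ∃ g : Gam, ga g = σ.C ∧ gb g = M * σ.D ∧ M * gc g = s * σ.C - σ.A ∧
      gd g = s * σ.D - σ.B := by
  obtain ⟨t, ht⟩ := hs
  have hdet : σ.C * (s * σ.D - σ.B) - M * σ.D * (3 * t) = 1 := by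
    linear_combination σ.det + σ.D * ht
  have hd : IsPrim (s * σ.D - σ.B) := by
    have h1 := σ.hC
    unfold IsPrim at *
    obtain ⟨a, ha⟩ := h1
    obtain ⟨b, hb⟩ := h3M
    refine ⟨b * σ.D * (3 * t) - a * (s * σ.D - σ.B), ?_⟩
    linear_combination hdet - (s * σ.D - σ.B) * ha + (3 * t * σ.D) * hb
  refine ⟨mkGam σ.C (M * σ.D) (3 * t) (s * σ.D - σ.B) hdet σ.hC (h3M.mul_right _)
    (Dvd.intro _ rfl) hd, rfl, rfl, ?_, rfl⟩
  rw [gc_mk, ht]; ring

/-- `(M u, -η')` in terms of `(M ζ, -η)`. -/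
lemma exists_g1 (hM : M ≠ 0) (h3M : (3 : Eis) ∣ M) (σ : Cpl M) :
    ∃ g : Gam, ga g = σ.D ∧ gb g = -(M * σ.C) ∧ M * gc g = - σ.B ∧ gd g = σ.A := by
  obtain ⟨t, ht⟩ := σ.hB
  have hdet : σ.D * σ.A - (-(M * σ.C)) * (-(3 * t)) = 1 := by
    linear_combination σ.det + σ.C * ht
  have hA : IsPrim σ.A := by
    have h1 := σ.hD
    unfold IsPrim at *
    obtain ⟨a, ha⟩ := h1
    refine ⟨M * σ.C * t - a * σ.A, ?_⟩
    linear_combination hdet - σ.A * ha
  refine ⟨mkGam σ.D (-(M * σ.C)) (-(3 * t)) σ.A hdet σ.hD ((h3M.mul_right _).neg_right)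
    ((Dvd.intro _ rfl : (3 : Eis) ∣ 3 * t).neg_right) hA, rfl, rfl, ?_, rfl⟩
  rw [gc_mk, ht]; ring

end kernel

/-! ### Automorphic functions -/

/-- `f(γ X) = κ(γ) f(X)`. -/
def Aut (f : Frm → ℂ) : Prop := ∀ (g : Gam) (X : Frm), f (act g X) = kub g * f X

/-- the first sublattice frame `(M ζ, -η)`. -/
def Y1 (M : Eis) (X : Frm) : Frm := (toC M • X.2, -X.1)

/-- the second sublattice frame `(M η, ζ)`. -/
def Y2 (M : Eis) (X : Frm) : Frm := (toC M • X.1, X.2)

/-- `σ X = (A η + B ζ, C η + D ζ)`. -/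
def Cpl.app {M : Eis} (σ : Cpl M) (X : Frm) : Frm :=
  mact (toC σ.A) (toC σ.B) (toC σ.C) (toC σ.D) X

lemma Cpl.app_def {M : Eis} (σ : Cpl M) (X : Frm) : σ.app X =
    (toC σ.A • X.1 + toC σ.B • X.2, toC σ.C • X.1 + toC σ.D • X.2) := rfl

lemma Cpl.app_snd {M : Eis} (σ : Cpl M) (X : Frm) : (σ.app X).2 = rowv (σ.C, σ.D) X := rfl

section kernel2

variable {M : Eis}

/-- the frame `(M u, -η' + s u)` for `X' = (η', u)`. -/
def Z2 (M : Eis) (s : ℂ) (X : Frm) : Frm := (toC M • X.2, -X.1 + s • X.2)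

lemma f2_eq (hM : M ≠ 0) (h3M : (3 : Eis) ∣ M) (σ : Cpl M) {s : Eis}
    (hs : 3 * M ∣ s * σ.C - σ.A) {f : Frm → ℂ} (hf : Aut f) (X : Frm) :
    f (Z2 M (toC s) (σ.app X)) = sy M σ.C * sy σ.D σ.C * f (Y2 M X) := by
  obtain ⟨g, h1, h2, h3, h4⟩ := exists_g2 hM h3M σ hs
  have h5 : Z2 M (toC s) (σ.app X) = act g (Y2 M X) := by
    rw [act_def, h1, h2, h4]
    have e3 := congrArg toC h3
    simp only [map_mul, map_sub] at e3
    simp only [Z2, Y2, Cpl.app_def]
    refine Prod.ext ?_ ?_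
    · simp only [map_mul, smul_add, smul_smul]
      congr 2
      ring
    · simp only [map_mul, map_sub, smul_add, smul_smul]
      rw [mul_comm (toC (gc g)), e3]
      simp only [sub_smul, mul_smul]
      abel
  rw [h5, hf g, kub_eq_top, h1, h2, Sym645.syAPI.mul_left _ _ _ σ.hC]

lemma f1_eq (hM : M ≠ 0) (h3M : (3 : Eis) ∣ M) (σ : Cpl M) {f : Frm → ℂ} (hf : Aut f) (X : Frm) :
    f (Z2 M 0 (σ.app X)) = sy M σ.D * sy σ.C σ.D * f (Y1 M X) := by
  obtain ⟨g, h1, h2, h3, h4⟩ := exists_g1 hM h3M σ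
  have h5 : Z2 M 0 (σ.app X) = act g (Y1 M X) := by
    rw [act_def, h1, h2, h4]
    have e3 := congrArg toC h3
    simp only [map_mul, map_neg] at e3
    simp only [Z2, Y1, Cpl.app_def]
    refine Prod.ext ?_ ?_
    · simp only [map_mul, map_neg, smul_add, smul_smul, smul_neg, neg_smul, neg_neg]
      rw [add_comm]
      congr 2
      ring
    · simp only [smul_smul, smul_neg, zero_smul, add_zero]
      rw [mul_comm (toC (gc g)), e3]
      simp only [neg_smul]
      abel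
  rw [h5, hf g, kub_eq_top, h1, h2, sy_neg_left Sym645.syAPI _ σ.hD,
    Sym645.syAPI.mul_left _ _ _ σ.hD]

/-- the total phase of the kernel at the row `(C, D)`. -/
theorem kernel_phase (hM : M ≠ 0) (h3M : (3 : Eis) ∣ M) (σ : Cpl M) {s : Eis}
    (hs : 3 * M ∣ s * σ.C - σ.A) {f1 f2 : Frm → ℂ} (hf1 : Aut f1) (hf2 : Aut f2) (X : Frm) :
    f1 (Y1 M X) * f2 (Y2 M X) * (starRingEnd ℂ) (sy σ.C σ.D) =
      (starRingEnd ℂ) (sy M (σ.C * σ.D)) *
        (f1 (Z2 M 0 (σ.app X)) * f2 (Z2 M (toC s) (σ.app X))) := by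
  have H := Sym645.syAPI
  have F := Sym645.syFacts
  have hc1 : IsCoprime σ.C M := IsCoprime.of_mul_left_left σ.cop
  have hc2 : IsCoprime σ.D M := IsCoprime.of_mul_left_right σ.cop
  rw [f1_eq hM h3M σ hf1, f2_eq hM h3M σ hs hf2, H.mul_right _ _ _ σ.hC σ.hD,
    H.recip σ.D σ.C σ.hD σ.hC]
  have key : ∀ z : ℂ, ‖z‖ = 1 → (starRingEnd ℂ) z * z = 1 := by
    intro z hz
    rw [mul_comm, Complex.mul_conj, Complex.normSq_eq_norm_sq, hz]; simp
  have k1 := key _ (H.norm_one M σ.C σ.hC hc1.symm)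
  have k2 := key _ (H.norm_one M σ.D σ.hD hc2.symm)
  have k3 := key _ (H.norm_one σ.C σ.D σ.hD σ.copCD)
  have k4 : sy σ.C σ.D ^ 3 = 1 := F.cube _ _ σ.hD σ.copCD
  have k5 : sy σ.C σ.D * sy σ.C σ.D = (starRingEnd ℂ) (sy σ.C σ.D) := by
    linear_combination (starRingEnd ℂ) (sy σ.C σ.D) * k4 - (sy σ.C σ.D * sy σ.C σ.D) * k3
  rw [map_mul, ← k5]
  linear_combination (-(f1 (Y1 M X) * f2 (Y2 M X) * sy σ.C σ.D * sy σ.C σ.D)) *
    (k1 * ((starRingEnd ℂ) (sy M σ.D) * sy M σ.D) + k2)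

end kernel2

end Crest.Agent.R017.Ker92
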