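import Crest.Agent.R017.RstQ_702

/-!
# Row 17, REST: the LS-line at the cut `K^(1/20)` (helper702)
-/

set_option autoImplicit false
set_option linter.unusedVariables false

noncomputable section

namespace Crest.Agent.R017.RstQ702

open Crest.Agent.R017.RnP571 (Dh)
open Crest.Agent.R017.P1Q904

/-- **(LS)** with the cut `K^(1/20)` -/
theorem sS_le {k y₃ y₄ u x D t p v δ b l n z : ℝ} (hD : Dh k y₃ y₄ u x D)
    (t0 : 0 ≤ t) (t1 : t ≤ k / 20000) (p1 : p ≤ y₃ + y₄ + u + t)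
    (v1 : v ≤ 2 * (y₃ + y₄ + u) - k + 9 / 4 * x + t)
    (v2 : v ≤ 3 / 4 * (y₃ + y₄ + u) + 9 / 4 * x + t) (δ0 : 0 ≤ δ) (b0 : 0 ≤ b)
    (hl : l ≤ v - 2 * δ + b + t) (hn0 : 0 ≤ n) (hn : n ≤ p - δ - b + t) (hz : z ≤ y₃ + t) :
    2 / 3 * v + k / 20 + (tS l n z + 2 / 3 * (D / k) * n) + 2 * δ - p / 3 ≤
      k + p + LR (y₃ + y₄ + u) k D x + 10 * t := by
  have hK := K0_le hD t0 p1 v1 v2 δ0 b0 hl hn hz
  obtain ⟨hT1, hT2⟩ := tS_cases l n z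
  obtain ⟨k0, u4, y43, u0, y3, N1, near, x0, adm, d0, d1⟩ := hD
  have hloss := loss_le k0 d0 d1 t0 (show n ≤ 102 / 125 * k + 2 * t by linarith) (p := p)
  have hL1 := le_max_left 0 (5 / 4 * (y₃ + y₄ + u) - k)
  have hL2 := le_max_right 0 (5 / 4 * (y₃ + y₄ + u) - k)
  unfold LR
  unfold XS at *
  generalize K0 l n z = K at *
  generalize tS l n z = T at *
  generalize max 0 (5 / 4 * (y₃ + y₄ + u) - k) = L at *
  rcases hT2 with hT2 | hT2 <;> rcases adm with ⟨a0, rfl | a1⟩ | ⟨a1, a2, a3⟩ <;> linarith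

/-- the L-line -/
theorem lS_le {k y₃ y₄ u x D t p v δ b l n z : ℝ} (hD : Dh k y₃ y₄ u x D)
    (t0 : 0 ≤ t) (t1 : t ≤ k / 20000) (p1 : p ≤ y₃ + y₄ + u + t)
    (v1 : v ≤ 2 * (y₃ + y₄ + u) - k + 9 / 4 * x + t)
    (v2 : v ≤ 3 / 4 * (y₃ + y₄ + u) + 9 / 4 * x + t) (δ0 : 0 ≤ δ) (b0 : 0 ≤ b)
    (hl : l ≤ v - 2 * δ + b + t) (hn0 : 0 ≤ n) (hn : n ≤ p - δ - b + t) (hz : z ≤ y₃ + t) :
    -(k / 3) + 2 / 3 * v + k / 10 + (tS l n z + 2 / 3 * (D / k) * n) + 2 * δ - p / 3 ≤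
      k + p + LR (y₃ + y₄ + u) k D x + 10 * t := by
  have h := sS_le hD t0 t1 p1 v1 v2 δ0 b0 hl hn0 hn hz
  have := hD.k0
  linarith

end Crest.Agent.R017.RstQ702
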