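import Crest.Agent.R017.RstU_695
import Crest.Agent.R017.E5Hh_48
import Crest.Agent.R017.P1DomS_918

/-!
# Row 17, REST (class N): `HNDg` and `HNBg` on the configurations of the exact square (helper695)

* `dh_of` : helper571's domain `Dh` from `Sq5`
* `ps_of` : what the wrap needs, for `ParS A d`
* `hND_of`, `hNB_of` : the two inputs of `hiDb_of'` from `RstCore`
-/

set_option autoImplicit false

noncomputable section

namespace Crest.Agent.R017.RstU695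

open Crest.Agent.R017.B770 Crest.Agent.R017.Prov71
open Crest.Agent.R017.E5B71 Crest.Agent.R017.E5L770
open Crest.Agent.R017.P1l54
open Crest.Agent.R017.P1t54 (ParS parOK_Sq5)
open Crest.Agent.R017.RnP571 (Dh)
open Crest.Agent.R017.E5H319 (LR)
open Crest.Agent.R017.E5Hg48 (loT)

/-- **`Dh` from `Sq5`** -/
theorem dh_of {A d : ℝ} (hd : 0 ≤ d) (hd1 : d ≤ 1 / 8) (hA : A ≤ 1) (hA1 : 16 * (1 - A) ≤ d)
    {p : Fin 3 ⊕ Fin 5 → ℝ} {w : Kd → ℝ} (h : Sq5 A d p w) :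
    Dh (cκ p) (cu p 2) (cu p 3) (cu p 4) (cx' p) (d * cκ p) := by
  have hκ := h.κpos
  obtain ⟨u4, y43, u0, y3, N1, near, x0, adm, d0, d1⟩ := (Sq5.dp hd hd1 hA hA1 h).w
  have e2 : cu p 2 / cκ p * cκ p = cu p 2 := div_mul_cancel₀ _ hκ.ne'
  have e3 : cu p 3 / cκ p * cκ p = cu p 3 := div_mul_cancel₀ _ hκ.ne'
  have e4 : cu p 4 / cκ p * cκ p = cu p 4 := div_mul_cancel₀ _ hκ.ne'
  have ex : cx' p / cκ p * cκ p = cx' p := div_mul_cancel₀ _ hκ.ne'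
  generalize cu p 2 / cκ p = a2 at *
  generalize cu p 3 / cκ p = a3 at *
  generalize cu p 4 / cκ p = a4 at *
  generalize cx' p / cκ p = ax at *
  rw [← e2, ← e3, ← e4, ← ex]
  generalize cκ p = k at *
  have m : ∀ {a b : ℝ}, a ≤ b → a * k ≤ b * k := fun h => mul_le_mul_of_nonneg_right h hκ.le
  refine ⟨hκ, m u4, m y43, m u0, ?_, ?_, ?_, mul_nonneg x0 hκ.le, ?_, mul_nonneg d0 hκ.le,
    m d1⟩
  · have := m y3; linarith
  · have := m N1; linarith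
  · have := m near; linarith
  · rcases adm with ⟨a0, a1⟩ | ⟨a1, a2', a3'⟩
    · left
      refine ⟨by have := m a0; linarith, ?_⟩
      rcases a1 with h1 | h1
      · left; rw [h1, zero_mul]
      · right; have := m h1; linarith
    · right
      exact ⟨by have := m a1; linarith, by have := m a2'; linarith, by have := m a3'; linarith⟩

/-- **what the wrap needs** -/
theorem ps_of {A d : ℝ} (hd : 0 ≤ d) (hd1 : d ≤ 1 / 8) (hA0 : 99 / 100 ≤ A) (hA : A ≤ 1)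
    (hA1 : 16 * (1 - A) ≤ d) : PS d (ParS A d) top5 (LR d) := by
  refine ⟨fun p hp => parOK_Sq5 (by linarith) hp, fun p hp => ?_, fun p hp => ?_, fun p hp => ?_⟩
  · obtain ⟨w, hw⟩ := hp
    exact dh_of hd hd1 hA hA1 hw
  · have := (parOK_Sq5 (by linarith) hp).x0
    unfold top5 lw
    linarith
  · unfold RstQ702.LR LR
    linarith

lemma lo_band {A d t σ : ℝ} (hσ : 2 * σ ≤ d) (hd : 0 ≤ d) (hA0 : 99 / 100 ≤ A)
    {lo : (Fin 3 ⊕ Fin 5 → ℝ) → ℝ} {p : Fin 3 ⊕ Fin 5 → ℝ} (hlo : lw p ≤ lo p)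
    (hp : p ∈ ParS A d) : lw p - loT lo d t σ p ≤ t * cκ p := by
  have h1 := parOK_Sq5 (d := d) (by linarith : 9 / 10 ≤ A) hp
  have h2 := h1.κ0
  have h3 := h1.κ1
  have h5 : σ * cκ p ≤ d / 2 := by
    have : σ * cκ p ≤ d / 2 * cκ p := mul_le_mul_of_nonneg_right (by linarith) (by linarith)
    nlinarith
  unfold loT
  linarith

variable {Λ : Type*} {π : Λ → DPar} {h : ℝ → ℝ} {A d e0 t σ : ℝ}
  {lo : (Fin 3 ⊕ Fin 5 → ℝ) → ℝ}

/-- **the `e`-blocks of the band `t`** -/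
theorem hND_of (H0 : RstCore π h d) (hd : 0 ≤ d) (hd1 : d ≤ 1 / 8) (hA0 : 99 / 100 ≤ A)
    (hA : A ≤ 1) (hA1 : 16 * (1 - A) ≤ d) (hσ : 2 * σ ≤ d) (ht : 0 ≤ t) (hte : t / 4 ≤ e0)
    (he0 : e0 ≤ 1 / 64) (hlo : ∀ p, lw p ≤ lo p) :
    Hi948.HNDg π h (t / 4) e0 (ParS A d) (loT lo d t σ) top5 (LR d) :=
  hnd_of (ps_of hd hd1 hA0 hA hA1) H0 (by linarith) hte he0 fun p hp => by
    have := lo_band (t := t) hσ hd hA0 (hlo p) hp
    linarith

/-- **the powerful tuples of the band `t`** -/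
theorem hNB_of (H0 : RstCore π h d) (hd : 0 ≤ d) (hd1 : d ≤ 1 / 8) (hA0 : 99 / 100 ≤ A)
    (hA : A ≤ 1) (hA1 : 16 * (1 - A) ≤ d) (hσ : 2 * σ ≤ d) (he : 0 ≤ e0) (he0 : e0 ≤ 1 / 64)
    (hlo : ∀ p, lw p ≤ lo p) :
    Hi948.HNBg π h e0 (t / 2) (ParS A d) (loT lo d t σ) top5 (LR d) :=
  hnb_of (ps_of hd hd1 hA0 hA hA1) H0 he he0 fun p hp => by
    have := lo_band (t := t) hσ hd hA0 (hlo p) hp
    linarith

end Crest.Agent.R017.RstU695
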