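import Crest.Agent.R017.RstS_702

/-!
# Row 17, REST, class E (helper290): the real lines of the difference

`m` what the child lost, `Z` the short lump of the replaced list, `s0` shortest length.
* `mF_le` : the diagonal, flat number of the replaced list;  `mB_le` : the diagonal, bias number
-/

set_option autoImplicit false
set_option linter.unusedVariables false

noncomputable section

namespace Crest.Agent.R017.RstX290

open Crest.Agent.R017.RnP571 (Dh)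
open Crest.Agent.R017.RstQ702 (LR)

/-- the frame of a level of a difference -/
structure Ef (k y₃ y₄ u x D t p v m : ℝ) : Prop where
  hD : Dh k y₃ y₄ u x D
  t0 : 0 ≤ t
  t1 : t ≤ k / 20000
  m0 : 0 ≤ m
  p1 : p ≤ y₃ + y₄ + u - m + t
  p2 : y₃ + y₄ + u - m - t ≤ p
  p3 : k / 2 - 2 * x - t ≤ p
  v1 : v ≤ 2 * (y₃ + y₄ + u) - k + 9 / 4 * x + t
  v2 : v ≤ 3 / 4 * (y₃ + y₄ + u) + 9 / 4 * x + t
  v3 : v ≤ 2 * (y₃ + y₄ + u) - k + 11 / 5 * x + D / 2 - 2 * m + t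
  v4 : v ≤ 3 / 4 * (y₃ + y₄ + u) + 11 / 5 * x + D / 2 - 2 * m + t

/-- **the diagonal, flat number** -/
theorem mF_le {k y₃ y₄ u x D t p v m δ b l n T Z : ℝ} (H : Ef k y₃ y₄ u x D t p v m)
    (δ0 : 0 ≤ δ) (b0 : 0 ≤ b) (hl : l ≤ v - 2 * δ + b + t) (hn : n ≤ p - δ - b + t)
    (hZ : Z ≤ 17 / 100 * k + t)
    (hT : T ≤ l + n + Z ∨ T ≤ 5 / 3 * n + l / 3) :
    2 / 3 * k - v / 3 + T + 2 * δ - p / 3 ≤ k + p + LR (y₃ + y₄ + u) k D x + 10 * t := by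
  obtain ⟨⟨k0, u4, y43, u0, y3, N1, near, x0, adm, d0, d1⟩, t0, t1, m0, p1, p2, p3, v1, v2, v3, v4⟩ := H
  have hL1 := le_max_left 0 (5 / 4 * (y₃ + y₄ + u) - k)
  have hL2 := le_max_right 0 (5 / 4 * (y₃ + y₄ + u) - k)
  unfold LR
  generalize max 0 (5 / 4 * (y₃ + y₄ + u) - k) = L at *
  rcases hT with hT | hT <;>
  rcases adm with ⟨a0, rfl | a1⟩ | ⟨a1, a2, a3⟩ <;> linarith

/-- **the diagonal, bias number** -/
theorem mB_le {k y₃ y₄ u x D t p v m δ b l T s0 : ℝ} (H : Ef k y₃ y₄ u x D t p v m)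
    (δ0 : 0 ≤ δ) (b0 : 0 ≤ b) (hl : l ≤ v - 2 * δ + b + t) (hs : 17 / 100 * k - m - t ≤ s0)
    (hT1 : T ≤ 5 / 3 * p + 2 / 3 * l - 5 / 3 * (δ + b))
    (hT2 : T ≤ 5 / 3 * p + 2 / 3 * l - 5 / 3 * (δ + b) - (s0 - (δ + b))) :
    2 / 3 * k - v / 3 + T + 2 * δ - p / 3 ≤ k + p + LR (y₃ + y₄ + u) k D x + 10 * t := by
  obtain ⟨⟨k0, u4, y43, u0, y3, N1, near, x0, adm, d0, d1⟩, t0, t1, m0, p1, p2, p3, v1, v2, v3, v4⟩ := H
  have hL1 := le_max_left 0 (5 / 4 * (y₃ + y₄ + u) - k)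
  have hL2 := le_max_right 0 (5 / 4 * (y₃ + y₄ + u) - k)
  unfold LR
  generalize max 0 (5 / 4 * (y₃ + y₄ + u) - k) = L at *
  rcases le_total (δ + b) s0 with h0 | h0 <;>
  rcases adm with ⟨a0, rfl | a1⟩ | ⟨a1, a2, a3⟩ <;> linarith

end Crest.Agent.R017.RstX290
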