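import Crest.Agent.R017.Rsumx_72
import Crest.Agent.R017.ROXd_744
import Crest.Agent.R017.E3Sz_579

/-!
# Row 17, E3 with principal frequencies: the structured number `BsX` in the sum of the R-parts (helper72)

* `Mp` : the principal length of a level, `c Ld (X V H / K)^(-2/3)`
* `BsX_b` : the pointwise bound of helper744's `BsX`
* `RNp_smul`, `hR_BsX` : `Σ_{RUs} PRZ · Rdil BsX ≤ C Z^ε (b hE FH (RNn + RNp))`
-/

set_option autoImplicit false
set_option linter.unusedVariables false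

noncomputable section

open Finset
open scoped Classical ComplexConjugate

namespace Crest.Agent.R017.Rsx72

open Crest.Agent.R012 Crest.Agent.R012.Eis
open Crest.Agent.R012.LS2 (S mem_S bl mem_bl)
open Crest.Agent.R012.Mob705 (pdiv mem_pdiv)
open Crest.Agent.R017.GrB829 (IsC)
open Crest.Agent.R017.E1551 (nmpos)
open Crest.Agent.R017.E3T829 (UT SU kU kU_nonneg hE hE_nonneg RR RUs Cd)
open Crest.Agent.R017.E3Z548 (Rdil PRZ FH RNn)
open Crest.Agent.R017.E3Sx579 (BsT IlU LtU_nonneg IlU_nonneg)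
open Crest.Agent.R017.E3Sz579 (Ld Md Ld_nonneg Md_nonneg BsT_b RNn_smul)
open Crest.Agent.R017.ROX744 (BsX BsX_nonneg)

/-- the principal length of a level -/
def Mp (c K V H X : ℝ) (d : Eis) : ℝ :=
  c * (H * V ^ 2 / (K * nm d)) * (X * V * H / K) ^ (-(2 / 3) : ℝ)

lemma Mp_nonneg {c K V H X : ℝ} (hc : 0 ≤ c) (hK : 0 < K) (hV : 0 < V) (hH : 0 < H) (hX : 0 < X)
    (d : Eis) : 0 ≤ Mp c K V H X d := by
  unfold Mp; positivity

/-- helper579's threshold is helper290's -/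
lemma LtU_579 {K V H : ℝ} (hK : 0 < K) (hV : 0 < V) (hH : 0 < H) {t : UT} (nd : (0 : ℝ) < nm t.1)
    (nq : (0 : ℝ) < nm t.2.2.1) (ng : (0 : ℝ) < nm t.2.2.2.2.1) (nF : (0 : ℝ) < nm t.2.2.2.2.2.2.2)
    (nc : (0 : ℝ) < nm t.2.2.2.1) (na : (0 : ℝ) < nm t.2.2.2.2.2.1)
    (nD : (0 : ℝ) < nm t.2.2.2.2.2.2.1) :
    E3Sx579.LtU K V H t = E3Sw290.LtU K V H t := by
  unfold E3Sx579.LtU E3Sw290.LtU E3Sw290.YU E3Sw290.ZU
  simp only [nm_mul, Nat.cast_mul]
  have := E3Sx579.Lt_eq' hK hV hH nd nq ng nF nc na nD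
  rw [mul_one] at this
  exact this

/-- **the pointwise bound of the structured number, two classes** -/
theorem BsX_b {cs c K V H X z : ℝ} (hcs : 1 ≤ cs) (hc : cs ≤ c) (hz : 0 ≤ z) (hK : 0 < K)
    (hV : 0 < V) (hH : 0 < H) (hX : 0 < X) {W1 Wx : Eis → Eis → ℝ} (hW1 : ∀ d e, 0 ≤ W1 d e)
    (hWx : ∀ d e, 0 ≤ Wx d e) {t : UT} (ht : SU z t) (hd : t.1 ≠ 0) :
    BsX cs K V H X W1 Wx t ≤
      if Cnd (Ld K V H) t then (1 + Md c K V H X t.1 * kU t) * W1 t.1 t.2.1 +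
        Mp c K V H X t.1 * kU t * Wx t.1 t.2.1 else 0 := by
  have hcs0 : 0 < cs := by linarith
  have hc0 : 0 ≤ c := by linarith
  have hk := kU_nonneg t
  have k1 := BsT_b hcs hc hz hK hV hH hX hW1 ht hd
  have hM1 := Md_nonneg hc0 hK hV hH hX t.1
  have hM2 := Mp_nonneg hc0 hK hV hH hX t.1
  have hw1 := hW1 t.1 t.2.1
  have hw2 := hWx t.1 t.2.1
  by_cases h1 : 1 ≤ E3Sx579.LtU K V H t
  · have hcc : t.2.2.2.1 ≠ 0 := by
      intro h0
      have h2 : E3Sx579.LtU K V H t = 0 := by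
        unfold E3Sx579.LtU
        rw [h0, E3Sx579.nm_zero']
        simp
      rw [h2] at h1
      norm_num at h1
    obtain ⟨nq, ng, na, nD, nF⟩ := SU_norms hz ht
    have nd := nmpos hd
    have nc := nmpos hcc
    have e1 := LtU_579 hK hV hH (t := t) nd (by linarith) (by linarith) (by linarith) nc
      (by linarith) (by linarith)
    have h1' : 1 ≤ E3Sw290.LtU K V H t := e1 ▸ h1
    have e2 : V ^ 2 * H / (K * nm t.1) = Ld K V H t.1 := by unfold E3Sz579.Ld; ring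
    have hcnd : Cnd (Ld K V H) t := cond_LtU hz hK ht hd hcc (L := Ld K V H) e2.le h1'
    have hcnd' : (nm (t.2.2.2.2.2.1 * t.2.2.2.2.2.2.1) : ℝ) ^ 2 *
      (nm (t.2.2.1 * t.2.2.2.2.1 * t.2.2.2.2.2.2.2) : ℝ) ^ 3 ≤ Ld K V H t.1 := hcnd
    rw [if_pos hcnd'] at k1
    rw [if_pos hcnd]
    have e3 : BsX cs K V H X W1 Wx t = BsT cs K V H X W1 t +
        E3Sx579.LtU K V H t * (IlU cs K V H X t) ^ (-(2 / 3) : ℝ) * Wx t.1 t.2.1 := by
      unfold ROX744.BsX E3Sx579.BsT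
      rw [if_pos h1, if_pos h1]
    rw [e3]
    refine add_le_add k1 (mul_le_mul_of_nonneg_right ?_ hw2)
    have key := prin_le (Z := z) (c0 := 1 / cs) (Is := X * V * H / K) (I' := IlU cs K V H X t) hz
      hK hV hH (by positivity) (by positivity) ht hd hcc (by
        unfold E3Sx579.IlU
        have hqp : (0 : ℝ) < nm t.2.2.1 := by linarith
        have hgp : (0 : ℝ) < nm t.2.2.2.2.1 := by linarith
        have hFp : (0 : ℝ) < nm t.2.2.2.2.2.2.2 := by linarith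
        refine le_of_eq ?_
        field_simp)
    rw [e1]
    refine key.trans ?_
    rw [e2]
    unfold Mp
    have e4 : (1 / cs) ^ (-(2 / 3) : ℝ) ≤ c := by
      rw [one_div, Real.inv_rpow hcs0.le, ← Real.rpow_neg hcs0.le, neg_neg]
      calc cs ^ (2 / 3 : ℝ) ≤ cs ^ (1 : ℝ) := Real.rpow_le_rpow_of_exponent_le hcs (by norm_num)
        _ = cs := Real.rpow_one cs
        _ ≤ c := hc
    have e5 : Ld K V H t.1 = H * V ^ 2 / (K * nm t.1) := rfl
    rw [e5]
    refine mul_le_mul_of_nonneg_right ?_ hk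
    rw [← mul_assoc]
    refine mul_le_mul_of_nonneg_right ?_ (by positivity)
    exact mul_le_mul_of_nonneg_right e4 (by positivity)
  · have e3 : BsX cs K V H X W1 Wx t = 0 := by
      unfold ROX744.BsX
      rw [if_neg h1]
    rw [e3]
    split_ifs
    · positivity
    · exact le_rfl

lemma RNp_smul (L M : Eis → ℝ) (W : Eis → Eis → ℝ) (k : ℝ) (Ds EE : Finset Eis) :
    RNp L M (fun d e => k * W d e) Ds EE = k * RNp L M W Ds EE := by
  unfold RNp
  rw [mul_sum]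
  refine sum_congr rfl fun d _ => ?_
  rw [mul_sum]
  refine sum_congr rfl fun e _ => ?_
  ring

/-- **the sum of the R-parts of a level for the structured number of class E** -/
theorem hR_BsX {ε : ℝ} (hε : 0 < ε) : ∃ C : ℝ, 0 ≤ C ∧ ∀ Z : ℝ, 1 ≤ Z →
    ∀ (J : Finset (Eis × Eis)) (EE : Finset Eis) (cs c K H V X : ℝ) (W1 Wx : Eis → Eis → ℝ)
      (k : ℝ), (∀ x ∈ J, x.1 ≠ 0) → 1 ≤ cs → cs ≤ c → 0 < K → 0 < H → 0 < V → 0 < X → 0 ≤ k →
      (∀ d e, 0 ≤ W1 d e) → (∀ d e, 0 ≤ Wx d e) → ∀ b : ℝ, 0 ≤ b →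
      ∑ u ∈ RUs J EE Z, PRZ b K H V EE u.1 u.2.1 *
          Rdil (BsX cs K V H X (fun d e => k * W1 d e) (fun d e => k * Wx d e)) u ≤
        C * Z ^ ε * k * (b * hE EE * FH K H V *
          (RNn (Ld K V H) (Md c K V H X) W1 (J.image Prod.fst) EE +
            RNp (Ld K V H) (Mp c K V H X) Wx (J.image Prod.fst) EE)) := by
  obtain ⟨C, hC, h⟩ := R_PZx hε
  refine ⟨C, hC, ?_⟩
  intro Z hZ J EE cs c K H V X W1 Wx k hJ hcs hc hK hH hV hX hk hW1 hWx b hb
  have hZ0 : 0 < Z := by linarith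
  have hc0 : 0 ≤ c := by linarith
  have key := h Z hZ J EE b K H V (fun d e => k * W1 d e) (fun d e => k * Wx d e) (Ld K V H)
    (Md c K V H X) (Mp c K V H X)
    (BsX cs K V H X (fun d e => k * W1 d e) (fun d e => k * Wx d e)) hb hK.le hH.le hV.le
    (fun d e => mul_nonneg hk (hW1 d e)) (fun d e => mul_nonneg hk (hWx d e))
    (Ld_nonneg hK hH) (Md_nonneg hc0 hK hV hH hX) (Mp_nonneg hc0 hK hV hH hX)
    (fun t ht hu => by
      obtain ⟨u, hu, h1, -⟩ := hu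
      refine BsX_b hcs hc (by positivity) hK hV hH hX (fun d e => mul_nonneg hk (hW1 d e))
        (fun d e => mul_nonneg hk (hWx d e)) ht ?_
      rw [h1]
      have h2 := (RUs_mem hu).2.2
      unfold RR at h2
      rw [mem_product] at h2
      obtain ⟨x, hx, hx1⟩ := mem_image.mp h2.1
      rw [← hx1]
      exact hJ x hx)
  refine key.trans (le_of_eq ?_)
  rw [RNn_smul, RNp_smul]
  ring

end Crest.Agent.R017.Rsx72
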