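import Crest.Agent.R017.RuleM_545

/-!
# Row 17: transfer of analytic rules, continuous conditions and auxiliary parameters (helper545)

* `near'`, `unifP` : compactness with parameters in a metric space
* `ruleBGc` : finite family of premises; closed conditions `G j x θ ≤ 0`, exponents `F j x θ`,
  `x = (k, n, l, n') / log X`, `θ` in a compact space (auxiliary exponents)
-/

set_option autoImplicit false

noncomputable section

open Set Filter Topology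

namespace Crest.Agent.R017.RuleM545

open Crest.Agent.R017.XG702 (Pcs BG Loc)
open Crest.Agent.R017.Prov71
open Crest.Agent.R017.XP699

/-! ### compactness -/

/-- a nearly admissible point is near an admissible one -/
theorem near' {α β : Type*} [PseudoMetricSpace α] [PseudoMetricSpace β] {S : Set β}
    (hS : IsCompact S) {f : α × β → ℝ} (hf : Continuous f) (p : α) {δ : ℝ} (hδ : 0 < δ) :
    ∃ ρ : ℝ, 0 < ρ ∧ ∀ q : α, dist q p ≤ ρ → ∀ q' ∈ S, f (q, q') ≤ ρ →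
      ∃ p' ∈ S, f (p, p') ≤ 0 ∧ dist q' p' ≤ δ := by
  obtain ⟨K, hK⟩ : ∃ K : Set β, K = {p' | p' ∈ S ∧ f (p, p') ≤ 0} := ⟨_, rfl⟩
  obtain ⟨Dd, hDd⟩ : ∃ Dd : Set β, Dd = S ∩ {q' | ∀ p' ∈ K, δ ≤ dist q' p'} := ⟨_, rfl⟩
  have hcl : IsClosed {q' : β | ∀ p' ∈ K, δ ≤ dist q' p'} := by
    have e : {q' : β | ∀ p' ∈ K, δ ≤ dist q' p'} = ⋂ p' ∈ K, {q' | δ ≤ dist q' p'} := by
      ext x; simp
    rw [e]
    exact isClosed_biInter fun p' _ => isClosed_le continuous_const (by fun_prop)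
  have hDc : IsCompact Dd := by rw [hDd]; exact hS.inter_right hcl
  have hpos : ∀ q' ∈ Dd, 0 < f (p, q') := by
    intro q' hq'
    by_contra h
    rw [not_lt] at h
    rw [hDd] at hq'
    have h1 : q' ∈ K := by rw [hK]; exact ⟨hq'.1, h⟩
    have h2 := hq'.2 q' h1
    rw [dist_self] at h2
    linarith
  -- a positive lower bound
  obtain ⟨m, hm, hmf⟩ : ∃ m : ℝ, 0 < m ∧ ∀ q' ∈ Dd, m ≤ f (p, q') := by
    rcases Dd.eq_empty_or_nonempty with h | h
    · exact ⟨1, one_pos, fun q' hq' => by rw [h] at hq'; exact absurd hq' (Set.notMem_empty _)⟩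
    · obtain ⟨x, hx, hmin⟩ := hDc.exists_isMinOn h
        (hf.comp (Continuous.prodMk_right p)).continuousOn
      exact ⟨f (p, x), hpos x hx, fun q' hq' => hmin hq'⟩
  have hev : ∀ᶠ q in 𝓝 p, ∀ q' ∈ Dd, m / 2 < f (q, q') := by
    refine hDc.eventually_forall_of_forall_eventually fun q' hq' => ?_
    have h1 : m / 2 < f (p, q') := lt_of_lt_of_le (by linarith) (hmf q' hq')
    exact hf.continuousAt.eventually_const_lt h1
  obtain ⟨ρ₁, hρ₁, H⟩ := Metric.eventually_nhds_iff.1 hev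
  refine ⟨min (ρ₁ / 2) (m / 2), lt_min (by linarith) (by linarith), ?_⟩
  intro q hq q' hq' hfq
  by_contra hcon
  have h1 : q' ∈ Dd := by
    rw [hDd]
    refine ⟨hq', fun p' hp' => ?_⟩
    rw [hK] at hp'
    by_contra h2
    exact hcon ⟨p', hp'.1, hp'.2, by linarith [not_le.1 h2]⟩
  have h2 := H (lt_of_le_of_lt (hq.trans (min_le_left _ _)) (by linarith)) q' h1
  have h3 := hfq.trans (min_le_right _ _)
  linarith

variable {Lam Pc : Type*} {D : Pcs Pc Kd} {cost : Pc → Pc → ℝ}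

/-- **compactness with parameters** -/
theorem unifP {β : Type*} [PseudoMetricSpace β] {Ψ : Lam → ℝ → List Pc → ℝ} {n : ℕ} {S : Set β}
    (hS : IsCompact S) {P : β → ℝ × (Fin n → ℝ) × (Kd → ℝ)} (hP : Continuous P)
    {T : β → ℝ} (hT : Continuous T)
    (h : ∀ p ∈ S, BG D Ψ (P p).1 (List.ofFn (P p).2.1) (P p).2.2 (T p)) {ε : ℝ} (hε : 0 < ε) :
    ∃ δ : ℝ, 0 < δ ∧ ∀ (lam : Lam) (N : ℕ) (B : ℝ), ∃ δ' : ℝ, 0 < δ' ∧ ∃ X₀ : ℝ, 1 < X₀ ∧
      ∀ X : ℝ, X₀ ≤ X → ∀ (k : ℝ) (us gs : List Pc), ∀ p ∈ S, |k - (P p).1| ≤ δ →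
        D.Near X δ us (List.ofFn (P p).2.1) → D.Gran X δ N gs (P p).2.2 →
        D.Good X δ' B (us ++ gs) → Ψ lam (k * Real.log X) (us ++ gs) ≤ X ^ (T p + ε) := by
  classical
  have loc : ∀ q ∈ S, ∃ r ρ : ℝ, 0 < r ∧ 0 < ρ ∧ Loc D Ψ (P q).1 (List.ofFn (P q).2.1) (P q).2.2
      (2 * ρ) (T q + ε / 2) ∧ ∀ p ∈ S, dist p q < r → T q ≤ T p + ε / 2 ∧
        dist (P p) (P q) ≤ ρ := by
    intro q hq
    obtain ⟨δ, hδ, hL⟩ := h q hq (ε / 2) (by linarith)
    obtain ⟨r, hr, hr'⟩ := Metric.continuous_iff.1 hT q (ε / 2) (by linarith)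
    obtain ⟨r2, hr2, hr2'⟩ := Metric.continuous_iff.1 hP q (δ / 2) (by linarith)
    refine ⟨min r r2, δ / 2, lt_min hr hr2, by linarith, hL.mono (by linarith),
      fun p hp hd => ⟨?_, ?_⟩⟩
    · have := hr' p (lt_of_lt_of_le hd (min_le_left _ _))
      rw [Real.dist_eq] at this
      linarith [(abs_lt.1 this).1]
    · exact (hr2' p (lt_of_lt_of_le hd (min_le_right _ _))).le
  choose! r ρ hr hρ hL hTr using loc
  obtain ⟨F, hFS, hF⟩ := hS.elim_nhds_subcover (fun q => Metric.ball q (r q))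
    (fun q hq => Metric.ball_mem_nhds q (hr q hq))
  by_cases hne : F.Nonempty
  · set δ := F.inf' hne ρ with hd
    have hδ : 0 < δ := by
      rw [hd, Finset.lt_inf'_iff]; intro q hq; exact hρ q (hFS q hq)
    refine ⟨δ, hδ, fun lam N B => ?_⟩
    have hL' : ∀ q ∈ S, ∃ δ' : ℝ, 0 < δ' ∧ ∃ X₀ : ℝ, 1 < X₀ ∧ ∀ X : ℝ, X₀ ≤ X → ∀ (k : ℝ)
        (us gs : List Pc), |k - (P q).1| ≤ 2 * ρ q → D.Near X (2 * ρ q) us (List.ofFn (P q).2.1) →
        D.Gran X (2 * ρ q) N gs (P q).2.2 → D.Good X δ' B (us ++ gs) →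
        Ψ lam (k * Real.log X) (us ++ gs) ≤ X ^ (T q + ε / 2) := fun q hq => hL q hq lam N B
    choose! η hη X₀ hX₀ K using hL'
    refine ⟨F.inf' hne η, ?_, F.sup' hne X₀, ?_, ?_⟩
    · rw [Finset.lt_inf'_iff]; intro q hq; exact hη q (hFS q hq)
    · obtain ⟨q0, hq0⟩ := hne
      exact lt_of_lt_of_le (hX₀ q0 (hFS q0 hq0)) (Finset.le_sup' X₀ hq0)
    · intro X hX k us gs p hp hk hnear hgran hgood
      have hpF := hF hp
      rw [Set.mem_iUnion₂] at hpF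
      obtain ⟨q, hq, hb⟩ := hpF
      have hb' : dist p q < r q := hb
      have hXq : X₀ q ≤ X := (Finset.le_sup' X₀ hq).trans hX
      have hX1 : 1 < X := lt_of_lt_of_le (hX₀ q (hFS q hq)) hXq
      have hδq : δ ≤ ρ q := Finset.inf'_le _ hq
      obtain ⟨t1, t2⟩ := hTr q (hFS q hq) p hp hb'
      have d1 : |(P p).1 - (P q).1| ≤ ρ q := by
        have : dist (P p).1 (P q).1 ≤ dist (P p) (P q) := by
          rw [Prod.dist_eq]; exact le_max_left _ _
        rw [Real.dist_eq] at this; linarith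
      have d2 : ∀ i, |(P p).2.1 i - (P q).2.1 i| ≤ ρ q := by
        intro i
        have e1 : dist (P p).2.1 (P q).2.1 ≤ dist (P p) (P q) := by
          rw [Prod.dist_eq, Prod.dist_eq]
          exact (le_max_left _ _).trans (le_max_right _ _)
        have e2 := dist_le_pi_dist (P p).2.1 (P q).2.1 i
        rw [Real.dist_eq] at e2; linarith
      have d3 : ∀ t, |(P p).2.2 t - (P q).2.2 t| ≤ ρ q := by
        intro t
        have e1 : dist (P p).2.2 (P q).2.2 ≤ dist (P p) (P q) := by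
          rw [Prod.dist_eq, Prod.dist_eq]
          exact (le_max_right _ _).trans (le_max_right _ _)
        have e2 := dist_le_pi_dist (P p).2.2 (P q).2.2 t
        rw [Real.dist_eq] at e2; linarith
      have key := K q (hFS q hq) X hXq k us gs ?_ ?_ ?_
        (XG702.Good_mono hX1.le hgood (Finset.inf'_le _ hq))
      · refine key.trans (Real.rpow_le_rpow_of_exponent_le hX1.le ?_)
        linarith
      · calc |k - (P q).1| ≤ |k - (P p).1| + |(P p).1 - (P q).1| := abs_sub_le _ _ _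
          _ ≤ 2 * ρ q := by linarith
      · exact XG702.Near_mono (XG702.Near_ofFn hnear d2) (by linarith)
      · refine ⟨hgran.1, fun g hg => (hgran.2.1 g hg).trans (by linarith [hρ q (hFS q hq)]), ?_⟩
        intro t
        calc |D.mass X gs t - (P q).2.2 t| ≤
              |D.mass X gs t - (P p).2.2 t| + |(P p).2.2 t - (P q).2.2 t| :=
              abs_sub_le _ _ _
          _ ≤ 2 * ρ q := by linarith [hgran.2.2 t, d3 t]
  · rw [Finset.not_nonempty_iff_eq_empty] at hne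
    refine ⟨1, one_pos, fun lam N B => ⟨1, one_pos, 2, by norm_num, ?_⟩⟩
    intro X hX k us gs p hp
    have := hF hp
    rw [hne] at this
    simp at this

/-! ### vectors -/

/-- vectors of exponents -/
abbrev Vx (n : ℕ) : Type := Unit ⊕ Fin n ⊕ Kd → ℝ

/-- `(k, n, l, n')` -/
def xx {n : ℕ} (q q' : Vx n) : Fin 4 → ℝ := ![q (Sum.inl ()), smv q, q' (Sum.inl ()), smv q']

lemma continuous_xx {n : ℕ} : Continuous (fun x : Vx n × Vx n => xx x.1 x.2) := by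
  have h1 : Continuous (fun x : Vx n × Vx n => smv x.1) := continuous_smv.comp continuous_fst
  have h2 : Continuous (fun x : Vx n × Vx n => smv x.2) := continuous_smv.comp continuous_snd
  unfold xx
  refine continuous_pi fun i => ?_
  fin_cases i
  · show Continuous fun x : Vx n × Vx n => x.1 (Sum.inl ())
    fun_prop
  · exact h1
  · show Continuous fun x : Vx n × Vx n => x.2 (Sum.inl ())
    fun_prop
  · exact h2

variable {Θ : Type*}

/-- the constraint function -/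
def fcc (n : ℕ) (G : (Fin 4 → ℝ) → Θ → ℝ) (z : Prop) (x : Vx n × (Vx n × Θ)) : ℝ :=
  (max 0 (G (xx x.1 x.2.1) x.2.2) +
    ∑ i : Fin n ⊕ Kd, max 0 (x.2.1 (Sum.inr i) - x.1 (Sum.inr i))) +
    zc z * ∑ i : Fin n, max 0 (x.2.1 (Sum.inr (Sum.inl i)) - x.2.1 (Sum.inl ()))

lemma continuous_fcc [TopologicalSpace Θ] (n : ℕ) {G : (Fin 4 → ℝ) → Θ → ℝ}
    (hG : Continuous fun x : (Fin 4 → ℝ) × Θ => G x.1 x.2) (z : Prop) :
    Continuous (fcc n G z) := by
  have h1 : Continuous (fun x : Vx n × (Vx n × Θ) => G (xx x.1 x.2.1) x.2.2) :=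
    hG.comp ((continuous_xx.comp (continuous_fst.prodMk (continuous_fst.comp
      continuous_snd))).prodMk (continuous_snd.comp continuous_snd))
  unfold fcc
  refine Continuous.add (Continuous.add (continuous_const.max h1)
    (continuous_finsetSum _ fun i _ => ?_))
    (continuous_const.mul (continuous_finsetSum _ fun i _ => ?_))
  · exact continuous_const.max (by fun_prop)
  · exact continuous_const.max (by fun_prop)

lemma fcc_le_zero {n : ℕ} {G : (Fin 4 → ℝ) → Θ → ℝ} {z : Prop} {x : Vx n × (Vx n × Θ)}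
    (h : fcc n G z x ≤ 0) :
    G (xx x.1 x.2.1) x.2.2 ≤ 0 ∧ (∀ i, x.2.1 (Sum.inr i) ≤ x.1 (Sum.inr i)) ∧
      (z → ∀ i, x.2.1 (Sum.inr (Sum.inl i)) ≤ x.2.1 (Sum.inl ())) := by
  unfold fcc at h
  have h1 : 0 ≤ max 0 (G (xx x.1 x.2.1) x.2.2) := le_max_left _ _
  have h2 : 0 ≤ ∑ i : Fin n ⊕ Kd, max 0 (x.2.1 (Sum.inr i) - x.1 (Sum.inr i)) :=
    Finset.sum_nonneg fun _ _ => le_max_left _ _
  have h3 : 0 ≤ ∑ i : Fin n, max 0 (x.2.1 (Sum.inr (Sum.inl i)) - x.2.1 (Sum.inl ())) :=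
    Finset.sum_nonneg fun _ _ => le_max_left _ _
  have h3' := mul_nonneg (zc_nonneg z) h3
  refine ⟨(le_max_right 0 _).trans (by linarith), fun i => ?_, fun hz i => ?_⟩
  · have h4 : max 0 (x.2.1 (Sum.inr i) - x.1 (Sum.inr i)) ≤
        ∑ i : Fin n ⊕ Kd, max 0 (x.2.1 (Sum.inr i) - x.1 (Sum.inr i)) :=
      Finset.single_le_sum (f := fun i : Fin n ⊕ Kd => max 0 (x.2.1 (Sum.inr i) -
        x.1 (Sum.inr i))) (fun _ _ => le_max_left _ _) (Finset.mem_univ i)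
    have h5 := (le_max_right 0 (x.2.1 (Sum.inr i) - x.1 (Sum.inr i))).trans h4
    linarith
  · have h4 : max 0 (x.2.1 (Sum.inr (Sum.inl i)) - x.2.1 (Sum.inl ())) ≤
        ∑ i : Fin n, max 0 (x.2.1 (Sum.inr (Sum.inl i)) - x.2.1 (Sum.inl ())) :=
      Finset.single_le_sum (f := fun i : Fin n =>
        max 0 (x.2.1 (Sum.inr (Sum.inl i)) - x.2.1 (Sum.inl ())))
        (fun _ _ => le_max_left _ _) (Finset.mem_univ i)
    have h5 := (le_max_right 0 (x.2.1 (Sum.inr (Sum.inl i)) - x.2.1 (Sum.inl ()))).trans h4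
    rw [zc_true hz, one_mul] at h
    linarith

lemma fcc_le {n : ℕ} {G : (Fin 4 → ℝ) → Θ → ℝ} {z : Prop} {x : Vx n × (Vx n × Θ)} {s₁ : ℝ}
    (hs₁ : 0 ≤ s₁) (h1 : G (xx x.1 x.2.1) x.2.2 ≤ s₁)
    (h2 : ∀ i, x.2.1 (Sum.inr i) - x.1 (Sum.inr i) ≤ s₁)
    (h3 : z → ∀ i, x.2.1 (Sum.inr (Sum.inl i)) - x.2.1 (Sum.inl ()) ≤ s₁) :
    fcc n G z x ≤ (2 * n + 3) * s₁ := by
  have e1 : max 0 (G (xx x.1 x.2.1) x.2.2) ≤ s₁ := max_le hs₁ h1
  have e2 : ∑ i : Fin n ⊕ Kd, max 0 (x.2.1 (Sum.inr i) - x.1 (Sum.inr i)) ≤ (n + 2) * s₁ := by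
    refine (Finset.sum_le_sum fun i _ => max_le hs₁ (h2 i)).trans ?_
    rw [Finset.sum_const, nsmul_eq_mul, Finset.card_univ, Fintype.card_sum, Fintype.card_fin]
    have : Fintype.card Kd = 2 := rfl
    rw [this]
    push_cast
    exact le_rfl
  have e3 : zc z * ∑ i : Fin n, max 0 (x.2.1 (Sum.inr (Sum.inl i)) - x.2.1 (Sum.inl ())) ≤
      n * s₁ := by
    by_cases hz : z
    · rw [zc_true hz, one_mul]
      refine (Finset.sum_le_sum fun i _ => max_le hs₁ (h3 hz i)).trans ?_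
      rw [Finset.sum_const, nsmul_eq_mul, Finset.card_univ, Fintype.card_fin]
    · rw [zc_false hz, zero_mul]
      positivity
  unfold fcc
  calc _ ≤ s₁ + (n + 2) * s₁ + n * s₁ := add_le_add (add_le_add e1 e2) e3
    _ = _ := by ring

/-! ### one premise -/

/-- `(k, n, l, n') / log X` -/
def xv (D : Pcs Pc Kd) (X k : ℝ) (ps : List Pc) (l : ℝ) (ps' : List Pc) : Fin 4 → ℝ :=
  ![k / Real.log X, LL D ps / Real.log X, l / Real.log X, LL D ps' / Real.log X]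

lemma xx_evv {n : ℕ} {X k l : ℝ} {f f' : Fin n → Pc} {gs gs' : List Pc} :
    xx (evv D X k f gs) (evv D X l f' gs') =
      xv D X k (List.ofFn f ++ gs) l (List.ofFn f' ++ gs') := by
  unfold xx xv
  rw [smv_evv, smv_evv]
  rfl

/-- all the children of one premise, for all data near `p` -/
def FamC (D : Pcs Pc Kd) (cost : Pc → Pc → ℝ) {n : ℕ} (Φ : Lam → ℝ → List Pc → ℝ)
    (G F : (Fin 4 → ℝ) → Θ → ℝ) (z : Prop) (cl : ℝ) (p : Vx n) (E ε σ : ℝ) : Prop :=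
  ∀ (lam : Lam) (N : ℕ) (B B₀ : ℝ), 0 ≤ B₀ → ∀ᶠ M in (atTop : Filter ℝ), ∀ C r : ℝ, 0 ≤ C →
    0 ≤ r → ∀ᶠ δ' in 𝓝[>] (0 : ℝ), ∀ᶠ X in (atTop : Filter ℝ), ∀ (k : ℝ) (f : Fin n → Pc)
    (gs : List Pc), 0 ≤ k → (∀ i, |evv D X k f gs i - p i| ≤ σ) → (∀ i, D.lump (f i)) →
    gs.length ≤ N → (∀ g ∈ gs, D.nl X g ≤ σ) →
    (∀ q ∈ List.ofFn f ++ gs, D.s1 q ≤ X ^ δ' ∧ D.s2 q ≤ X ^ B ∧ 0 ≤ D.len q) →
    ∀ (θ : Θ) (l : ℝ) (ps' : List Pc), 0 ≤ l → l ≤ cl * Real.log X →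
    List.Forall₂ (Chd D cost r (C * X ^ B₀)) ps' (List.ofFn f ++ gs) →
    G (xv D X k (List.ofFn f ++ gs) l ps') θ ≤ σ →
    (z → ∀ q ∈ ps', D.lump q → D.len q ≤ l + σ * Real.log X) →
    Φ lam l ps' ≤ X ^ (E + ε / 2) * cst cost ps' (List.ofFn f ++ gs) ^ M *
      X ^ F (xv D X k (List.ofFn f ++ gs) l ps') θ

set_option maxHeartbeats 3200000 in
/-- one premise -/
theorem famC [PseudoMetricSpace Θ] [CompactSpace Θ] {n : ℕ} {Φ : Lam → ℝ → List Pc → ℝ}
    {G F : (Fin 4 → ℝ) → Θ → ℝ} (hG : Continuous fun x : (Fin 4 → ℝ) × Θ => G x.1 x.2)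
    (hF : Continuous fun x : (Fin 4 → ℝ) × Θ => F x.1 x.2) {z : Prop} {cl E ε : ℝ}
    {p : Vx n} (hcost : ∀ p' p, 1 ≤ cost p' p) (hs1 : ∀ p, 1 ≤ D.s1 p)
    (triv : ∀ (lam : Lam) (N : ℕ), ∃ C T : ℝ, 0 ≤ C ∧ 0 ≤ T ∧ ∀ (l : ℝ) (ps : List Pc), 0 ≤ l →
      ps.length ≤ N → (∀ p ∈ ps, 0 ≤ D.len p) → Φ lam l ps ≤ C * Real.exp (T * (l + LL D ps)))
    (hε : 0 < ε) (hp0 : ∀ i, 0 ≤ p i)
    (hBG : ∀ (q : Vx n) (θ : Θ), (∀ i, 0 ≤ q i) → q (Sum.inl ()) ≤ cl →
      fcc n G z (p, (q, θ)) ≤ 0 →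
      BG D Φ (toX q).1 (List.ofFn (toX q).2.1) (toX q).2.2 (E + F (xx p q) θ)) :
    ∀ᶠ σ in 𝓝[>] (0 : ℝ), FamC D cost Φ G F z cl p E ε σ := by
  obtain ⟨n₀, hn₀⟩ : ∃ x, x = smv p := ⟨_, rfl⟩
  have hn₀0 : 0 ≤ n₀ := by rw [hn₀]; exact Finset.sum_nonneg fun i _ => hp0 _
  obtain ⟨Bx, hBx⟩ : ∃ x : ℝ, x = n₀ + 3 + |cl| := ⟨_, rfl⟩
  have hBx0 : 0 ≤ Bx := by rw [hBx]; positivity
  -- the compact set; the condition `l ≤ cl` is put into the set
  obtain ⟨S, hS⟩ : ∃ S : Set (Vx n × Θ), S = (Set.Icc (0 : Vx n) (fun _ => Bx) ∩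
    {q | q (Sum.inl ()) ≤ cl}) ×ˢ (Set.univ : Set Θ) := ⟨_, rfl⟩
  have hSc : IsCompact S := by
    rw [hS]
    exact (isCompact_Icc.inter_right (isClosed_le (by fun_prop) continuous_const)).prod
      isCompact_univ
  have hSm : ∀ q : Vx n, (∀ i, 0 ≤ q i) → (∀ i, q i ≤ Bx) → q (Sum.inl ()) ≤ cl → ∀ θ : Θ,
      (q, θ) ∈ S := by
    intro q h1 h2 h3 θ
    rw [hS]
    exact ⟨⟨⟨fun i => h1 i, fun i => h2 i⟩, h3⟩, Set.mem_univ _⟩
  have hSm' : ∀ x ∈ S, (∀ i, 0 ≤ x.1 i) ∧ (∀ i, x.1 i ≤ Bx) ∧ x.1 (Sum.inl ()) ≤ cl := by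
    intro x hx
    rw [hS] at hx
    exact ⟨fun i => hx.1.1.1 i, fun i => hx.1.1.2 i, hx.1.2⟩
  have hfc := continuous_fcc n hG z
  have hKc : IsCompact {x | x ∈ S ∧ fcc n G z (p, x) ≤ 0} := hSc.inter_right
    (isClosed_le (hfc.comp (Continuous.prodMk_right p)) continuous_const)
  have hFw : Continuous (fun x : Vx n × (Vx n × Θ) => F (xx x.1 x.2.1) x.2.2) :=
    hF.comp ((continuous_xx.comp (continuous_fst.prodMk (continuous_fst.comp
      continuous_snd))).prodMk (continuous_snd.comp continuous_snd))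
  have hTc : Continuous (fun x : Vx n × Θ => E + F (xx p x.1) x.2) :=
    continuous_const.add (hFw.comp (Continuous.prodMk_right p))
  obtain ⟨δ₁, hδ₁, hun⟩ := unifP (D := D) (Ψ := Φ) (n := n) hKc
    (P := fun x : Vx n × Θ => toX x.1) (continuous_toX.comp continuous_fst) hTc
    (fun x hx => hBG x.1 x.2 (hSm' x hx.1).1 (hSm' x hx.1).2.2 hx.2) (ε := ε / 8) (by linarith)
  -- uniform continuity of the exponent
  have hcomp : IsCompact ((Metric.closedBall p 1) ×ˢ S) := (isCompact_closedBall p 1).prod hSc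
  have huc := hcomp.uniformContinuousOn_of_continuous hFw.continuousOn
  rw [Metric.uniformContinuousOn_iff] at huc
  obtain ⟨η, hη, H2⟩ := huc (ε / 8) (by linarith)
  obtain ⟨cB, hcB⟩ := hcomp.exists_bound_of_continuousOn hFw.continuousOn
  have hcB0 : 0 ≤ |cB| := abs_nonneg _
  obtain ⟨δ₂, hδ₂⟩ : ∃ x : ℝ, x = min δ₁ (η / 2) := ⟨_, rfl⟩
  have hδ₂0 : 0 < δ₂ := hδ₂ ▸ lt_min hδ₁ (by positivity)
  have hδ₂1 : δ₂ ≤ δ₁ := hδ₂ ▸ min_le_left _ _
  have hδ₂2 : δ₂ ≤ η / 2 := hδ₂ ▸ min_le_right _ _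
  obtain ⟨s, hs, hnear⟩ := near' hSc hfc p hδ₂0
  have hn2 : (0 : ℝ) ≤ n := Nat.cast_nonneg n
  refine ev_small (b := min (min (s / (2 * n + 3)) (δ₁ / 2)) (min (η / 2) (1 / (n + 3))))
    (lt_min (lt_min (by positivity) (by positivity)) (lt_min (by positivity) (by positivity))) ?_
  intro σ hσ0 hσ
  have hσ1 : (2 * n + 3) * σ ≤ s := by
    have h1 : σ ≤ s / (2 * n + 3) := hσ.trans ((min_le_left _ _).trans (min_le_left _ _))
    rw [le_div_iff₀ (by positivity)] at h1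
    linarith
  have hσ3 : σ ≤ δ₁ / 2 := hσ.trans ((min_le_left _ _).trans (min_le_right _ _))
  have hση : σ ≤ η / 2 := hσ.trans ((min_le_right _ _).trans (min_le_left _ _))
  have hσ4 : (n + 3) * σ ≤ 1 := by
    have h1 : σ ≤ 1 / (n + 3) := hσ.trans ((min_le_right _ _).trans (min_le_right _ _))
    rw [le_div_iff₀ (by positivity)] at h1
    linarith
  have hσ5 : σ ≤ 1 := by nlinarith
  have hσs : σ ≤ s := by nlinarith
  intro lam N B B₀ hB₀
  obtain ⟨ρ', hρ', X₁, hX₁, hun2⟩ := hun lam N (B + B₀ + 1)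
  obtain ⟨Ct, T', hCt, hT', htriv⟩ := triv lam (n + N)
  refine ev_large (b := 2 * (T' * ((n + 3) * Bx) + |E| + |cB| + 1) / ρ') ?_
  intro M hM C r hC hr
  have hM0 : 0 ≤ M := le_trans (by positivity) hM
  refine ev_small (b := ρ' / 2) (by positivity) ?_
  intro δ' hδ'0 hδ'1
  have hr1 : ∀ᶠ X in (atTop : Filter ℝ), (N + 1) * (r / Real.log X) ≤ σ / 2 := by
    have h1 : Tendsto (fun X : ℝ => (N + 1 : ℝ) * (r / Real.log X)) atTop (𝓝 ((N + 1 : ℝ) * 0)) :=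
      (Real.tendsto_log_atTop.const_div_atTop r).const_mul _
    rw [mul_zero] at h1
    exact (h1.eventually (gt_mem_nhds (show (0 : ℝ) < σ / 2 by linarith))).mono fun X h => h.le
  filter_upwards [hr1, eventually_ge_atTop (max (max X₁ Ct) (max 3 C))] with X hrlog hX
  have x1 : X₁ ≤ X := ((le_max_left _ _).trans (le_max_left _ _)).trans hX
  have x3 : Ct ≤ X := ((le_max_right _ _).trans (le_max_left _ _)).trans hX
  have x5 : 3 ≤ X := ((le_max_left _ _).trans (le_max_right _ _)).trans hX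
  have x6 : C ≤ X := ((le_max_right _ _).trans (le_max_right _ _)).trans hX
  have hX1 : (1 : ℝ) < X := by linarith
  have hX0 : (0 : ℝ) < X := by linarith
  have hlog : 0 < Real.log X := Real.log_pos hX1
  intro k f gs hk hq hlump hgN hgσ hgood θ l ps' hl hlcl hps' hGx hz
  have hN2 : (0 : ℝ) ≤ N := Nat.cast_nonneg N
  have hf0 : ∀ i, 0 ≤ D.len (f i) := fun i =>
    (hgood (f i) (List.mem_append_left _ ((List.mem_ofFn' _ _).2 ⟨i, rfl⟩))).2.2
  have hg0 : ∀ g ∈ gs, 0 ≤ D.len g := fun g hg => (hgood g (List.mem_append_right _ hg)).2.2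
  -- the lists
  have h1 := List.forall₂_take_append _ _ _ hps'
  have h2 := List.forall₂_drop_append _ _ _ hps'
  rw [List.length_ofFn] at h1 h2
  have hlen1 : (List.take n ps').length = n := by
    rw [List.Forall₂.length_eq h1, List.length_ofFn]
  obtain ⟨f', hf'⟩ := exists_eq_ofFn (List.take n ps') hlen1
  obtain ⟨gs', hgs'⟩ : ∃ g, g = List.drop n ps' := ⟨_, rfl⟩
  have hsplit : ps' = List.ofFn f' ++ gs' := by rw [← hf', hgs', List.take_append_drop]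
  rw [hf', forall₂_ofFn_iff] at h1
  rw [← hgs'] at h2
  clear hf' hgs'
  subst hsplit
  have hr0 : 0 ≤ r / Real.log X := by positivity
  have hrσ : r / Real.log X ≤ σ / 2 := num2 hN2 hr0 hrlog
  have hq0 := evv_nonneg (D := D) (gs := gs) hlog hk hf0 hg0
  have hg'0 : ∀ g ∈ gs', 0 ≤ D.len g := by
    intro g hg
    obtain ⟨_, _, h3, _⟩ := good_child hcost h2 (le_refl _) g hg
    exact h3.len0
  have hq'0 := evv_nonneg (D := D) (gs := gs') hlog hl (fun i => (h1 i).len0) hg'0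
  have hsmq : smv (evv D X k f gs) ≤ n₀ + 1 := by
    have h3 := abs_smv_sub (q := evv D X k f gs) (q' := p) hq
    rw [← hn₀] at h3
    have := (abs_le.1 h3).2
    linarith
  have hdiff : ∀ i, (evv D X l f' gs') (Sum.inr i) - (evv D X k f gs) (Sum.inr i) ≤ σ := by
    rintro (i | t)
    · show D.nl X (f' i) - D.nl X (f i) ≤ σ
      have h3 : D.nl X (f' i) ≤ D.nl X (f i) + r / Real.log X := by
        unfold Pcs.nl
        rw [← add_div]
        exact div_le_div_of_nonneg_right (h1 i).len hlog.le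
      linarith
    · show D.mass X gs' t - D.mass X gs t ≤ σ
      have h3 := mass_child hlog hr h2 t
      have h4 : (gs.length : ℝ) * (r / Real.log X) ≤ N * (r / Real.log X) := by
        have : (gs.length : ℝ) ≤ N := by exact_mod_cast hgN
        exact mul_le_mul_of_nonneg_right this hr0
      nlinarith
  have hzc : z → ∀ i, (evv D X l f' gs') (Sum.inr (Sum.inl i)) - (evv D X l f' gs') (Sum.inl ()) ≤
      σ := by
    intro hz' i
    show D.nl X (f' i) - l / Real.log X ≤ σ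
    have h3 := hz hz' (f' i) (List.mem_append_left _ ((List.mem_ofFn' _ _).2 ⟨i, rfl⟩))
      ((h1 i).lump (hlump i))
    unfold Pcs.nl
    rw [← sub_div, div_le_iff₀ hlog]
    linarith
  have hlcl' : (evv D X l f' gs') (Sum.inl ()) ≤ cl := by
    show l / Real.log X ≤ cl
    rw [div_le_iff₀ hlog]
    exact hlcl
  have hbd : ∀ i, (evv D X l f' gs') i ≤ Bx := by
    rintro (⟨⟩ | i)
    · exact hlcl'.trans (by rw [hBx]; linarith [le_abs_self cl])
    · have h3 := hdiff i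
      have h4 := le_smv hq0 i
      rw [hBx]
      linarith [abs_nonneg cl]
  have hmem : (evv D X l f' gs', θ) ∈ S := hSm _ hq'0 hbd hlcl' θ
  have hfcc : fcc n G z (evv D X k f gs, (evv D X l f' gs', θ)) ≤ s := by
    refine (fcc_le hσ0.le ?_ hdiff hzc).trans hσ1
    show G (xx (evv D X k f gs) (evv D X l f' gs')) θ ≤ σ
    rw [xx_evv]
    exact hGx
  have hdq : dist (evv D X k f gs) p ≤ σ := by
    rw [dist_pi_le_iff hσ0.le]
    intro i
    rw [Real.dist_eq]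
    exact hq i
  obtain ⟨⟨p', θ'⟩, hp'S, hp'K, hpp⟩ := hnear (evv D X k f gs) (hdq.trans hσs) _ hmem hfcc
  have hpp1 : dist (evv D X l f' gs') p' ≤ δ₂ := by
    refine le_trans ?_ hpp
    rw [Prod.dist_eq]
    exact le_max_left _ _
  have hppi : ∀ i, |evv D X l f' gs' i - p' i| ≤ δ₂ := by
    intro i
    have e2 := dist_le_pi_dist (evv D X l f' gs') p' i
    rw [Real.dist_eq] at e2
    linarith
  obtain ⟨cs, hcs⟩ : ∃ x, x = cst cost (List.ofFn f' ++ gs') (List.ofFn f ++ gs) := ⟨_, rfl⟩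
  have hcs1 : 1 ≤ cs := hcs ▸ one_le_cst hcost _ _
  obtain ⟨y, hy⟩ : ∃ x, x = F (xv D X k (List.ofFn f ++ gs) l (List.ofFn f' ++ gs')) θ :=
    ⟨_, rfl⟩
  have hyx : y = F (xx (evv D X k f gs) (evv D X l f' gs')) θ := by rw [xx_evv, hy]
  have hinq : (evv D X k f gs, (evv D X l f' gs', θ)) ∈ (Metric.closedBall p 1) ×ˢ S :=
    ⟨hdq.trans hσ5, hmem⟩
  rw [← hcs, ← hy]
  rcases le_or_gt cs (X ^ (ρ' / 2)) with hc | hc
  · -- the good case
    have hgood' : D.Good X ρ' (B + B₀ + 1) (List.ofFn f' ++ gs') := by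
      intro q hq'
      obtain ⟨q0, hq0, h3, h4⟩ := good_child hcost hps' (le_refl _) q hq'
      rw [← hcs] at h4
      have g := hgood q0 hq0
      have h5 : 1 ≤ D.s1 q0 := hs1 q0
      have h6 : 1 ≤ cost q q0 := hcost q q0
      refine ⟨?_, ?_, h3.len0⟩
      · calc D.s1 q ≤ D.s1 q0 * cost q q0 := h3.s1
          _ ≤ X ^ δ' * X ^ (ρ' / 2) := mul_le_mul g.1 (h4.trans hc) (by linarith)
              (Real.rpow_nonneg hX0.le _)
          _ = X ^ (δ' + ρ' / 2) := (Real.rpow_add hX0 _ _).symm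
          _ ≤ X ^ ρ' := Real.rpow_le_rpow_of_exponent_le hX1.le (by linarith)
      · have h7 : 0 ≤ X ^ B₀ := Real.rpow_nonneg hX0.le _
        calc D.s2 q ≤ D.s2 q0 * (C * X ^ B₀) := h3.s2
          _ ≤ X ^ B * (C * X ^ B₀) := mul_le_mul_of_nonneg_right g.2.1
              (mul_nonneg hC h7)
          _ ≤ X ^ B * (X * X ^ B₀) := mul_le_mul_of_nonneg_left
              (mul_le_mul_of_nonneg_right x6 h7) (Real.rpow_nonneg hX0.le _)
          _ = X ^ (B + B₀ + 1) := by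
              rw [Real.rpow_add hX0, Real.rpow_add hX0, Real.rpow_one]
              ring
    have h3 := hun2 X x1 (l / Real.log X) (List.ofFn f') gs' (p', θ') ⟨hp'S, hp'K⟩
      ((hppi (Sum.inl ())).trans hδ₂1) (by
        unfold Pcs.Near
        rw [forall₂_ofFn_iff]
        exact fun i => ⟨(h1 i).lump (hlump i), (hppi (Sum.inr (Sum.inl i))).trans hδ₂1⟩) (by
        refine ⟨by rw [List.Forall₂.length_eq h2]; exact hgN, ?_, ?_⟩
        · intro g hg
          obtain ⟨g0, hg0', h4, _⟩ := good_child hcost h2 (le_refl _) g hg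
          have h5 : D.nl X g ≤ D.nl X g0 + r / Real.log X := by
            unfold Pcs.nl
            rw [← add_div]
            exact div_le_div_of_nonneg_right h4.len hlog.le
          linarith [hgσ g0 hg0']
        · exact fun t => (hppi (Sum.inr (Sum.inr t))).trans hδ₂1) hgood'
    rw [div_mul_cancel₀ _ hlog.ne'] at h3
    have hinp : (p, (p', θ')) ∈ (Metric.closedBall p 1) ×ˢ S :=
      ⟨Metric.mem_closedBall_self zero_le_one, hp'S⟩
    have hd : dist (p, (p', θ')) (evv D X k f gs, (evv D X l f' gs', θ)) < η := by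
      rw [Prod.dist_eq]
      refine max_lt ?_ ?_
      · rw [dist_comm]; exact lt_of_le_of_lt hdq (by linarith)
      · rw [dist_comm]; exact lt_of_le_of_lt hpp (by linarith)
    have h6 := H2 _ hinp _ hinq hd
    rw [Real.dist_eq] at h6
    have h7 := (abs_lt.1 h6).2
    simp only at h7
    rw [← hyx] at h7
    have h8 : 1 ≤ cs ^ M := Real.one_le_rpow hcs1 hM0
    calc Φ lam l (List.ofFn f' ++ gs') ≤ X ^ (E + ε / 2 + y) := by
          refine h3.trans (Real.rpow_le_rpow_of_exponent_le hX1.le ?_)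
          simp only
          linarith
      _ = X ^ (E + ε / 2) * 1 * X ^ y := by rw [Real.rpow_add hX0]; ring
      _ ≤ X ^ (E + ε / 2) * cs ^ M * X ^ y := by gcongr
  · -- the expensive case
    have hl' : l / Real.log X ≤ Bx := hbd (Sum.inl ())
    have hsm' : smv (evv D X l f' gs') ≤ (n + 2) * Bx := by
      unfold smv
      refine (Finset.sum_le_sum fun i _ => hbd (Sum.inr i)).trans ?_
      rw [Finset.sum_const, nsmul_eq_mul, Finset.card_univ, Fintype.card_sum, Fintype.card_fin]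
      have : Fintype.card Kd = 2 := rfl
      rw [this]
      push_cast
      exact le_rfl
    have h3 : Φ lam l (List.ofFn f' ++ gs') ≤ X ^ (1 + T' * ((n + 3) * Bx)) := by
      refine (htriv l _ hl ?_ ?_).trans ?_
      · rw [List.Forall₂.length_eq hps', List.length_append, List.length_ofFn]
        omega
      · intro q hq'
        obtain ⟨_, _, h3, _⟩ := good_child hcost hps' (le_refl _) q hq'
        exact h3.len0
      · rw [exp_eq_rpow hX0 hlog, Real.rpow_add hX0, Real.rpow_one]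
        refine mul_le_mul x3 (Real.rpow_le_rpow_of_exponent_le hX1.le ?_)
          (Real.rpow_nonneg hX0.le _) hX0.le
        rw [mul_div_assoc, add_div, ← smv_evv]
        refine mul_le_mul_of_nonneg_left ?_ hT'
        linarith
    have h4 : -|cB| ≤ y := by
      have h5 := hcB _ hinq
      simp only at h5
      rw [← hyx, Real.norm_eq_abs] at h5
      linarith [neg_abs_le y, le_abs_self cB]
    have h5 : X ^ (T' * ((n + 3) * Bx) + |E| + |cB| + 1) ≤ cs ^ M := by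
      have e : X ^ (T' * ((n + 3) * Bx) + |E| + |cB| + 1) ≤ (X ^ (ρ' / 2)) ^ M := by
        rw [← Real.rpow_mul hX0.le]
        refine Real.rpow_le_rpow_of_exponent_le hX1.le ?_
        rw [div_le_iff₀ hρ'] at hM
        linarith
      exact e.trans (Real.rpow_le_rpow (Real.rpow_nonneg hX0.le _) hc.le hM0)
    calc Φ lam l (List.ofFn f' ++ gs') ≤ X ^ (1 + T' * ((n + 3) * Bx)) := h3
      _ ≤ X ^ ((E + ε / 2) + (T' * ((n + 3) * Bx) + |E| + |cB| + 1) + y) := by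
          refine Real.rpow_le_rpow_of_exponent_le hX1.le ?_
          linarith [neg_abs_le E]
      _ = X ^ (E + ε / 2) * X ^ (T' * ((n + 3) * Bx) + |E| + |cB| + 1) * X ^ y := by
          rw [Real.rpow_add hX0, Real.rpow_add hX0]
      _ ≤ _ := by gcongr

/-! ### the rule -/

set_option maxHeartbeats 3200000 in
/-- **the transfer rule, continuous conditions and auxiliary parameters** -/
theorem ruleBGc [PseudoMetricSpace Θ] [CompactSpace Θ] {ι : Type*} [Finite ι]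
    {Ψ : Lam → ℝ → List Pc → ℝ} {Φ : ι → Lam → ℝ → List Pc → ℝ}
    (hcost : ∀ p' p, 1 ≤ cost p' p) (hs1 : ∀ p, 1 ≤ D.s1 p)
    {G F : ι → (Fin 4 → ℝ) → Θ → ℝ} (hG : ∀ j, Continuous fun x : (Fin 4 → ℝ) × Θ => G j x.1 x.2)
    (hF : ∀ j, Continuous fun x : (Fin 4 → ℝ) × Θ => F j x.1 x.2)
    {H A : (Fin 2 → ℝ) → ℝ} (hH : Continuous H) (hA : Continuous A)
    {zl : ι → Prop} {cl : ℝ}
    (hmono : ∀ lam l l' ps, l ≤ l' → Ψ lam l ps ≤ Ψ lam l' ps)
    (hrule : ∀ (lam : Lam) (N : ℕ) (c₀ : ℝ), 1 ≤ c₀ → ∃ B₀ : ℝ, 0 ≤ B₀ ∧ ∀ (ε M : ℝ), 0 < ε →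
      0 ≤ M → ∃ C r J X₁ : ℝ, 0 ≤ C ∧ 0 ≤ r ∧ 0 ≤ J ∧
      ∀ X : ℝ, 3 ≤ X → X₁ ≤ X → ∀ (k : ℝ) (ps : List Pc), 0 ≤ k → k ≤ c₀ * Real.log X →
      ps.length ≤ N → (∀ p ∈ ps, 0 ≤ D.len p ∧ D.len p ≤ c₀ * Real.log X) →
      H ![k / Real.log X, LL D ps / Real.log X] ≤ ε →
      ∀ Bd : ℝ, 0 ≤ Bd →
      (∀ (j : ι) (θ : Θ) (l : ℝ) (ps' : List Pc), 0 ≤ l → l ≤ cl * Real.log X →
        List.Forall₂ (Chd D cost r (C * X ^ B₀)) ps' ps →
        G j (xv D X k ps l ps') θ ≤ ε →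
        (zl j → ∀ p ∈ ps', D.lump p → D.len p ≤ l + ε * Real.log X) →
        Φ j lam l ps' ≤ Bd * cst cost ps' ps ^ M * X ^ F j (xv D X k ps l ps') θ) →
      Ψ lam k ps ≤ C * X ^ ε * (ps.map D.s1).prod ^ J *
        (X ^ A ![k / Real.log X, LL D ps / Real.log X] + Bd))
    (triv : ∀ (j : ι) (lam : Lam) (N : ℕ), ∃ C T : ℝ, 0 ≤ C ∧ 0 ≤ T ∧
      ∀ (l : ℝ) (ps : List Pc), 0 ≤ l → ps.length ≤ N → (∀ p ∈ ps, 0 ≤ D.len p) →
      Φ j lam l ps ≤ C * Real.exp (T * (l + LL D ps)))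
    {κ : ℝ} {u : List ℝ} {m a E : ℝ} (hκ : 0 ≤ κ) (hu : Okl u m a)
    (hHκ : H ![κ, u.sum + m + a] ≤ 0) (hE : A ![κ, u.sum + m + a] ≤ E)
    (hch : ∀ (j : ι) (θ : Θ) (u' : List ℝ) (m' a' l : ℝ), Shl u' u → 0 ≤ m' → m' ≤ m → 0 ≤ a' →
      a' ≤ a → 0 ≤ l → l ≤ cl →
      G j ![κ, u.sum + m + a, l, u'.sum + m' + a'] θ ≤ 0 →
      (zl j → ∀ y ∈ u', y ≤ l) →
      BG D (Φ j) l u' (wt m' a') (E + F j ![κ, u.sum + m + a, l, u'.sum + m' + a'] θ)) :
    BG D Ψ κ u (wt m a) E := by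
  intro ε hε
  obtain ⟨hu0, hm, ha⟩ := hu
  obtain ⟨n, hn⟩ : ∃ n, n = u.length := ⟨_, rfl⟩
  obtain ⟨n₀, hn₀⟩ : ∃ x : ℝ, x = u.sum + m + a := ⟨_, rfl⟩
  rw [← hn₀] at hHκ hE hch
  have husum : 0 ≤ u.sum := List.sum_nonneg hu0
  have hn₀0 : 0 ≤ n₀ := by rw [hn₀]; linarith
  subst hn
  set n := u.length with hn
  obtain ⟨c₀, hc₀⟩ : ∃ x : ℝ, x = κ + n₀ + 3 := ⟨_, rfl⟩
  have hc₀3 : 3 ≤ c₀ := by rw [hc₀]; linarith
  set p : Unit ⊕ Fin n ⊕ Kd → ℝ := vec κ u.get (wt m a) with hp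
  have hsp : smv p = n₀ := by
    rw [hp, smv_vec, hn₀, sum_get]
    show u.sum + (m + a) = _
    ring
  have hp0 : ∀ i, 0 ≤ p i := by
    rintro (⟨⟩ | i | t)
    · exact hκ
    · exact hu0 _ (List.get_mem _ _)
    · cases t
      · exact hm
      · exact ha
  -- the premises
  have hfam : ∀ᶠ σ in 𝓝[>] (0 : ℝ), ∀ j, FamC D cost (Φ j) (G j) (F j) (zl j) cl p E ε σ := by
    rw [eventually_all]
    intro j
    refine famC (hG j) (hF j) hcost hs1 (triv j) hε hp0 ?_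
    intro q θ hq0 hqcl hq2
    obtain ⟨h1, h2, h2'⟩ := fcc_le_zero hq2
    simp only at h1 h2 h2'
    have hwt : (toX q).2.2 = wt (q (Sum.inr (Sum.inr .mo))) (q (Sum.inr (Sum.inr .am))) := by
      funext t; cases t <;> rfl
    have hsum : (List.ofFn (toX q).2.1).sum + q (Sum.inr (Sum.inr .mo)) +
        q (Sum.inr (Sum.inr .am)) = smv q := by
      rw [smv_eq, List.sum_ofFn]
      show _ = _ + (q (Sum.inr (Sum.inr .mo)) + q (Sum.inr (Sum.inr .am)))
      ring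
    have hxx : xx p q = ![κ, n₀, q (Sum.inl ()), smv q] := by
      unfold xx
      rw [hsp]
      rfl
    have h3 := hch j θ (List.ofFn (toX q).2.1) (q (Sum.inr (Sum.inr .mo)))
      (q (Sum.inr (Sum.inr .am))) (q (Sum.inl ())) (shl_ofFn' (fun i => hq0 _) (fun i => h2 _))
      (hq0 _) (h2 (Sum.inr .mo)) (hq0 _) (h2 (Sum.inr .am)) (hq0 _) hqcl (by
        rw [hsum, ← hxx]
        exact h1) (by
        intro hz y hy
        obtain ⟨i, rfl⟩ := (List.mem_ofFn' _ _).1 hy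
        exact h2' hz i)
    rw [hsum, ← hxx] at h3
    rw [hwt]
    exact h3
  have hn2 : (0 : ℝ) ≤ n := Nat.cast_nonneg n
  obtain ⟨σ, hσ0, hσb, hσ⟩ := exists_of_small (b := 1 / (n + 3)) (by positivity) hfam
  have hσ4 : (n + 3) * σ ≤ 1 := by
    rw [le_div_iff₀ (by positivity)] at hσb
    linarith
  have hσ5 : σ ≤ 1 := by nlinarith
  obtain ⟨εr, hεr⟩ : ∃ x : ℝ, x = min (σ / 2) (ε / 8) := ⟨_, rfl⟩
  have hεr0 : 0 < εr := hεr ▸ lt_min (by positivity) (by positivity)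
  have hεr1 : εr ≤ σ / 2 := hεr ▸ min_le_left _ _
  have hεr2 : εr ≤ ε / 8 := hεr ▸ min_le_right _ _
  -- continuity at the parent
  obtain ⟨ρ₁, hρ₁, hHn⟩ := Metric.continuous_iff.1 hH ![κ, n₀] εr hεr0
  obtain ⟨ρ₂, hρ₂, hAn⟩ := Metric.continuous_iff.1 hA ![κ, n₀] (ε / 8) (by linarith)
  obtain ⟨σp, hσp⟩ : ∃ x : ℝ, x = min σ (min ρ₁ ρ₂ / (2 * (n + 2))) := ⟨_, rfl⟩
  have hσp0 : 0 < σp := hσp ▸ lt_min hσ0 (div_pos (lt_min hρ₁ hρ₂) (by positivity))
  have hσp1 : σp ≤ σ := hσp ▸ min_le_left _ _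
  have hσp2 : (n + 2) * σp ≤ min ρ₁ ρ₂ / 2 := by
    have h1 : σp ≤ min ρ₁ ρ₂ / (2 * (n + 2)) := hσp ▸ min_le_right _ _
    rw [le_div_iff₀ (by positivity)] at h1
    linarith
  refine ⟨σp, hσp0, fun lam N B => ?_⟩
  obtain ⟨B₀, hB₀, hr1⟩ := hrule lam (n + N) c₀ (by linarith)
  obtain ⟨M, hM0, hM⟩ := exists_of_large 0
    (eventually_all.2 fun j => hσ j lam N B B₀ hB₀)
  obtain ⟨C, r, J, X₁, hC, hr, hJ, hR⟩ := hr1 εr M hεr0 hM0
  obtain ⟨δ', hδ'0, hδ'b, hδ'⟩ := exists_of_small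
    (b := ε / (8 * (J + 1) * (((n + N : ℕ) : ℝ) + 1))) (by positivity)
    (eventually_all.2 fun j => hM j C r hC hr)
  have hδ'2 : ((n + N : ℕ) : ℝ) * δ' * J ≤ ε / 8 := by
    rw [le_div_iff₀ (by positivity)] at hδ'b
    have h0 : (0 : ℝ) ≤ ((n + N : ℕ) : ℝ) := Nat.cast_nonneg _
    have h2 : ((n + N : ℕ) : ℝ) * J ≤ (J + 1) * (((n + N : ℕ) : ℝ) + 1) := by nlinarith
    have h3 := mul_le_mul_of_nonneg_left h2 hδ'0.le
    nlinarith
  have hC2 : ∀ᶠ X in (atTop : Filter ℝ), 2 * C ≤ X ^ (ε / 8) :=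
    (tendsto_rpow_atTop (by linarith)).eventually_ge_atTop _
  obtain ⟨X₀, hX₀⟩ := eventually_atTop.1 ((eventually_all.2 hδ').and
    (hC2.and (eventually_ge_atTop X₁)))
  refine ⟨δ', hδ'0, max X₀ 3, lt_of_lt_of_le (by norm_num) (le_max_right _ _), ?_⟩
  intro X hX k us gs hk hnr hgran hgood
  obtain ⟨hfX, hCX, hX₁⟩ := hX₀ X ((le_max_left _ _).trans hX)
  have x5 : 3 ≤ X := (le_max_right _ _).trans hX
  have hX1 : (1 : ℝ) < X := by linarith
  have hX0 : (0 : ℝ) < X := by linarith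
  have hlog : 0 < Real.log X := Real.log_pos hX1
  -- the parent
  have hlenus : us.length = n := by
    have := List.Forall₂.length_eq hnr
    rw [this]
  obtain ⟨f, rfl⟩ := exists_eq_ofFn us hlenus
  have hnr' : D.Near X σp (List.ofFn f) (List.ofFn u.get) := by rwa [List.ofFn_get]
  unfold Pcs.Near at hnr'
  rw [forall₂_ofFn_iff] at hnr'
  obtain ⟨k₁, hk₁⟩ : ∃ x : ℝ, x = max k 0 * Real.log X := ⟨_, rfl⟩
  have hk₁0 : 0 ≤ k₁ := by rw [hk₁]; exact mul_nonneg (le_max_right _ _) hlog.le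
  have hkk : k * Real.log X ≤ k₁ := by
    rw [hk₁]; exact mul_le_mul_of_nonneg_right (le_max_left _ _) hlog.le
  have hk₁l : k₁ / Real.log X = max k 0 := by rw [hk₁, mul_div_cancel_right₀ _ hlog.ne']
  have hmaxk : |max k 0 - κ| ≤ σp := by
    rw [abs_le] at hk ⊢
    constructor
    · linarith [hk.1, le_max_left k 0]
    · have := max_le (show k ≤ κ + σp by linarith [hk.2]) (show 0 ≤ κ + σp by linarith)
      linarith
  have hq : ∀ i, |evv D X k₁ f gs i - p i| ≤ σp := by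
    rintro (⟨⟩ | i | t)
    · show |k₁ / Real.log X - κ| ≤ σp
      rw [hk₁l]; exact hmaxk
    · exact (hnr' i).2
    · exact hgran.2.2 t
  have hg1 : ∀ q ∈ List.ofFn f ++ gs, 0 ≤ D.len q := fun q hq => (hgood q hq).2.2
  have hf0 : ∀ i, 0 ≤ D.len (f i) := fun i =>
    hg1 (f i) (List.mem_append_left _ ((List.mem_ofFn' _ _).2 ⟨i, rfl⟩))
  have hg0 : ∀ g ∈ gs, 0 ≤ D.len g := fun g hg => hg1 g (List.mem_append_right _ hg)
  have hsm : |smv (evv D X k₁ f gs) - n₀| ≤ (n + 2) * σp := by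
    have h3 := abs_smv_sub (q := evv D X k₁ f gs) (q' := p) hq
    rwa [hsp] at h3
  have hsm1 := (abs_le.1 hsm).2
  have hnσ : (n + 2) * σp ≤ (n + 2) * σ := mul_le_mul_of_nonneg_left hσp1 (by positivity)
  have hLL : LL D (List.ofFn f ++ gs) / Real.log X ≤ n₀ + (n + 2) * σ := by
    rw [← smv_evv]; linarith
  have hLLi : ∀ q ∈ List.ofFn f ++ gs, D.len q ≤ LL D (List.ofFn f ++ gs) := by
    intro q hq
    unfold LL
    exact List.single_le_sum (fun x hx => by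
      obtain ⟨y, hy, rfl⟩ := List.mem_map.1 hx
      exact hg1 y hy) _ (List.mem_map.2 ⟨q, hq, rfl⟩)
  have hLLc : LL D (List.ofFn f ++ gs) ≤ c₀ * Real.log X := by
    rw [div_le_iff₀ hlog] at hLL
    refine hLL.trans (mul_le_mul_of_nonneg_right ?_ hlog.le)
    rw [hc₀]
    linarith
  have hcnt : (List.ofFn f ++ gs).length ≤ n + N := by
    rw [List.length_append, List.length_ofFn]
    exact Nat.add_le_add_left hgran.1 n
  have hσ2p : σp ≤ (n + 2) * σp := by nlinarith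
  -- the parent is near
  obtain ⟨w, hw⟩ : ∃ w : Fin 2 → ℝ, w = ![k₁ / Real.log X,
    LL D (List.ofFn f ++ gs) / Real.log X] := ⟨_, rfl⟩
  have hdw : dist w ![κ, n₀] ≤ min ρ₁ ρ₂ / 2 := by
    refine le_trans ?_ hσp2
    rw [dist_pi_le_iff (by positivity)]
    intro i
    rw [hw, Real.dist_eq]
    fin_cases i
    · show |k₁ / Real.log X - κ| ≤ _
      rw [hk₁l]
      exact hmaxk.trans hσ2p
    · show |LL D (List.ofFn f ++ gs) / Real.log X - n₀| ≤ _
      rw [← smv_evv]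
      exact hsm
  have hmin0 : 0 < min ρ₁ ρ₂ := lt_min hρ₁ hρ₂
  have hHw : H w ≤ εr := by
    have h1 := hHn w (lt_of_le_of_lt hdw (by linarith [min_le_left ρ₁ ρ₂]))
    rw [Real.dist_eq] at h1
    linarith [(abs_lt.1 h1).2]
  have hAw : A w ≤ E + ε / 8 := by
    have h1 := hAn w (lt_of_le_of_lt hdw (by linarith [min_le_right ρ₁ ρ₂]))
    rw [Real.dist_eq] at h1
    linarith [(abs_lt.1 h1).2]
  rw [hw] at hHw hAw
  have hslack : εr * Real.log X ≤ σ * Real.log X :=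
    mul_le_mul_of_nonneg_right (by linarith) hlog.le
  have hfinal := hR X x5 hX₁ k₁ (List.ofFn f ++ gs) hk₁0 (by
      rw [hk₁]
      refine mul_le_mul_of_nonneg_right ?_ hlog.le
      rw [hc₀]
      linarith [(abs_le.1 hmaxk).2]) hcnt (fun q hq => ⟨hg1 q hq, (hLLi q hq).trans hLLc⟩)
      hHw (X ^ (E + ε / 2)) (Real.rpow_nonneg hX0.le _)
      (fun j θ l ps' hl hlcl hps' hG hz => hfX j k₁ f gs hk₁0 (fun i => (hq i).trans hσp1)
        (fun i => (hnr' i).1) hgran.1 (fun g hg => (hgran.2.1 g hg).trans hσp1) hgood θ l ps' hl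
        hlcl hps' (hG.trans (by linarith))
        (fun hzj q hq1 hq2 => (hz hzj q hq1 hq2).trans (by linarith)))
  refine (hmono lam _ _ _ hkk).trans ?_
  have e1 : X ^ A ![k₁ / Real.log X, LL D (List.ofFn f ++ gs) / Real.log X] =
      Real.exp (A ![k₁ / Real.log X, LL D (List.ofFn f ++ gs) / Real.log X] * Real.log X) := by
    rw [Real.rpow_def_of_pos hX0, mul_comm]
  rw [e1] at hfinal
  refine final_countm (Nr := ((n + N : ℕ) : ℝ)) hX1 hε hC hJ
    (one_le_prod_s1 hs1 _) ?_ hεr2 hδ'2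
    (prod_s1_le hs1 hX1.le hδ'0.le _ (fun q hq => (hgood q hq).1) hcnt) hCX hfinal
  rw [mul_div_cancel_right₀ _ hlog.ne']
  exact hAw

end Crest.Agent.R017.RuleM545
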