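import Crest.Agent.R017.RuleC_545

/-!
# Row 17: transfer of analytic rules (helper545's `ruleBGc`), premise only for `ε ≤ 1` (helper320)
-/

set_option autoImplicit false

noncomputable section

open Set Filter Topology

namespace Crest.Agent.R017.PMR320

open Crest.Agent.R017.XG702 (Pcs BG Loc)
open Crest.Agent.R017.Prov71
open Crest.Agent.R017.XP699
open Crest.Agent.R017.RuleM545

variable {Lam Pc : Type*} {D : Pcs Pc Kd} {cost : Pc → Pc → ℝ} {Θ : Type*}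

/-! ### the rule -/

set_option maxHeartbeats 3200000 in
/-- **the transfer rule, continuous conditions and auxiliary parameters** -/
theorem ruleBGe [PseudoMetricSpace Θ] [CompactSpace Θ] {ι : Type*} [Finite ι]
    {Ψ : Lam → ℝ → List Pc → ℝ} {Φ : ι → Lam → ℝ → List Pc → ℝ}
    (hcost : ∀ p' p, 1 ≤ cost p' p) (hs1 : ∀ p, 1 ≤ D.s1 p)
    {G F : ι → (Fin 4 → ℝ) → Θ → ℝ} (hG : ∀ j, Continuous fun x : (Fin 4 → ℝ) × Θ => G j x.1 x.2)
    (hF : ∀ j, Continuous fun x : (Fin 4 → ℝ) × Θ => F j x.1 x.2)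
    {H A : (Fin 2 → ℝ) → ℝ} (hH : Continuous H) (hA : Continuous A)
    {zl : ι → Prop} {cl : ℝ}
    (hmono : ∀ lam l l' ps, l ≤ l' → Ψ lam l ps ≤ Ψ lam l' ps)
    (hrule : ∀ (lam : Lam) (N : ℕ) (c₀ : ℝ), 1 ≤ c₀ → ∃ B₀ : ℝ, 0 ≤ B₀ ∧ ∀ (ε M : ℝ), 0 < ε →
      ε ≤ 1 → 0 ≤ M → ∃ C r J X₁ : ℝ, 0 ≤ C ∧ 0 ≤ r ∧ 0 ≤ J ∧
      ∀ X : ℝ, 3 ≤ X → X₁ ≤ X → ∀ (k : ℝ) (ps : List Pc), 0 ≤ k → k ≤ c₀ * Real.log X →
      ps.length ≤ N → (∀ p ∈ ps, 0 ≤ D.len p ∧ D.len p ≤ c₀ * Real.log X) →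
      H ![k / Real.log X, LL D ps / Real.log X] ≤ ε →
      ∀ Bd : ℝ, 0 ≤ Bd →
      (∀ (j : ι) (θ : Θ) (l : ℝ) (ps' : List Pc), 0 ≤ l → l ≤ cl * Real.log X →
        List.Forall₂ (Chd D cost r (C * X ^ B₀)) ps' ps →
        G j (xv D X k ps l ps') θ ≤ ε →
        (zl j → ∀ p ∈ ps', D.lump p → D.len p ≤ l + ε * Real.log X) →
        Φ j lam l ps' ≤ Bd * cst cost ps' ps ^ M * X ^ F j (xv D X k ps l ps') θ) →
      Ψ lam k ps ≤ C * X ^ ε * (ps.map D.s1).prod ^ J *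
        (X ^ A ![k / Real.log X, LL D ps / Real.log X] + Bd))
    (triv : ∀ (j : ι) (lam : Lam) (N : ℕ), ∃ C T : ℝ, 0 ≤ C ∧ 0 ≤ T ∧
      ∀ (l : ℝ) (ps : List Pc), 0 ≤ l → ps.length ≤ N → (∀ p ∈ ps, 0 ≤ D.len p) →
      Φ j lam l ps ≤ C * Real.exp (T * (l + LL D ps)))
    {κ : ℝ} {u : List ℝ} {m a E : ℝ} (hκ : 0 ≤ κ) (hu : Okl u m a)
    (hHκ : H ![κ, u.sum + m + a] ≤ 0) (hE : A ![κ, u.sum + m + a] ≤ E)
    (hch : ∀ (j : ι) (θ : Θ) (u' : List ℝ) (m' a' l : ℝ), Shl u' u → 0 ≤ m' → m' ≤ m → 0 ≤ a' →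
      a' ≤ a → 0 ≤ l → l ≤ cl →
      G j ![κ, u.sum + m + a, l, u'.sum + m' + a'] θ ≤ 0 →
      (zl j → ∀ y ∈ u', y ≤ l) →
      BG D (Φ j) l u' (wt m' a') (E + F j ![κ, u.sum + m + a, l, u'.sum + m' + a'] θ)) :
    BG D Ψ κ u (wt m a) E := by
  intro ε hε
  obtain ⟨hu0, hm, ha⟩ := hu
  obtain ⟨n, hn⟩ : ∃ n, n = u.length := ⟨_, rfl⟩
  obtain ⟨n₀, hn₀⟩ : ∃ x : ℝ, x = u.sum + m + a := ⟨_, rfl⟩
  rw [← hn₀] at hHκ hE hch
  have husum : 0 ≤ u.sum := List.sum_nonneg hu0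
  have hn₀0 : 0 ≤ n₀ := by rw [hn₀]; linarith
  subst hn
  set n := u.length with hn
  obtain ⟨c₀, hc₀⟩ : ∃ x : ℝ, x = κ + n₀ + 3 := ⟨_, rfl⟩
  have hc₀3 : 3 ≤ c₀ := by rw [hc₀]; linarith
  set p : Unit ⊕ Fin n ⊕ Kd → ℝ := vec κ u.get (wt m a) with hp
  have hsp : smv p = n₀ := by
    rw [hp, smv_vec, hn₀, sum_get]
    show u.sum + (m + a) = _
    ring
  have hp0 : ∀ i, 0 ≤ p i := by
    rintro (⟨⟩ | i | t)
    · exact hκ
    · exact hu0 _ (List.get_mem _ _)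
    · cases t
      · exact hm
      · exact ha
  -- the premises
  have hfam : ∀ᶠ σ in 𝓝[>] (0 : ℝ), ∀ j, FamC D cost (Φ j) (G j) (F j) (zl j) cl p E ε σ := by
    rw [eventually_all]
    intro j
    refine famC (hG j) (hF j) hcost hs1 (triv j) hε hp0 ?_
    intro q θ hq0 hqcl hq2
    obtain ⟨h1, h2, h2'⟩ := fcc_le_zero hq2
    simp only at h1 h2 h2'
    have hwt : (toX q).2.2 = wt (q (Sum.inr (Sum.inr .mo))) (q (Sum.inr (Sum.inr .am))) := by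
      funext t; cases t <;> rfl
    have hsum : (List.ofFn (toX q).2.1).sum + q (Sum.inr (Sum.inr .mo)) +
        q (Sum.inr (Sum.inr .am)) = smv q := by
      rw [smv_eq, List.sum_ofFn]
      show _ = _ + (q (Sum.inr (Sum.inr .mo)) + q (Sum.inr (Sum.inr .am)))
      ring
    have hxx : xx p q = ![κ, n₀, q (Sum.inl ()), smv q] := by
      unfold xx
      rw [hsp]
      rfl
    have h3 := hch j θ (List.ofFn (toX q).2.1) (q (Sum.inr (Sum.inr .mo)))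
      (q (Sum.inr (Sum.inr .am))) (q (Sum.inl ())) (shl_ofFn' (fun i => hq0 _) (fun i => h2 _))
      (hq0 _) (h2 (Sum.inr .mo)) (hq0 _) (h2 (Sum.inr .am)) (hq0 _) hqcl (by
        rw [hsum, ← hxx]
        exact h1) (by
        intro hz y hy
        obtain ⟨i, rfl⟩ := (List.mem_ofFn' _ _).1 hy
        exact h2' hz i)
    rw [hsum, ← hxx] at h3
    rw [hwt]
    exact h3
  have hn2 : (0 : ℝ) ≤ n := Nat.cast_nonneg n
  obtain ⟨σ, hσ0, hσb, hσ⟩ := exists_of_small (b := 1 / (n + 3)) (by positivity) hfam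
  have hσ4 : (n + 3) * σ ≤ 1 := by
    rw [le_div_iff₀ (by positivity)] at hσb
    linarith
  have hσ5 : σ ≤ 1 := by nlinarith
  obtain ⟨εr, hεr⟩ : ∃ x : ℝ, x = min (σ / 2) (ε / 8) := ⟨_, rfl⟩
  have hεr0 : 0 < εr := hεr ▸ lt_min (by positivity) (by positivity)
  have hεr1 : εr ≤ σ / 2 := hεr ▸ min_le_left _ _
  have hεr2 : εr ≤ ε / 8 := hεr ▸ min_le_right _ _
  -- continuity at the parent
  obtain ⟨ρ₁, hρ₁, hHn⟩ := Metric.continuous_iff.1 hH ![κ, n₀] εr hεr0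
  obtain ⟨ρ₂, hρ₂, hAn⟩ := Metric.continuous_iff.1 hA ![κ, n₀] (ε / 8) (by linarith)
  obtain ⟨σp, hσp⟩ : ∃ x : ℝ, x = min σ (min ρ₁ ρ₂ / (2 * (n + 2))) := ⟨_, rfl⟩
  have hσp0 : 0 < σp := hσp ▸ lt_min hσ0 (div_pos (lt_min hρ₁ hρ₂) (by positivity))
  have hσp1 : σp ≤ σ := hσp ▸ min_le_left _ _
  have hσp2 : (n + 2) * σp ≤ min ρ₁ ρ₂ / 2 := by
    have h1 : σp ≤ min ρ₁ ρ₂ / (2 * (n + 2)) := hσp ▸ min_le_right _ _
    rw [le_div_iff₀ (by positivity)] at h1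
    linarith
  refine ⟨σp, hσp0, fun lam N B => ?_⟩
  obtain ⟨B₀, hB₀, hr1⟩ := hrule lam (n + N) c₀ (by linarith)
  obtain ⟨M, hM0, hM⟩ := exists_of_large 0
    (eventually_all.2 fun j => hσ j lam N B B₀ hB₀)
  obtain ⟨C, r, J, X₁, hC, hr, hJ, hR⟩ := hr1 εr M hεr0 (by linarith) hM0
  obtain ⟨δ', hδ'0, hδ'b, hδ'⟩ := exists_of_small
    (b := ε / (8 * (J + 1) * (((n + N : ℕ) : ℝ) + 1))) (by positivity)
    (eventually_all.2 fun j => hM j C r hC hr)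
  have hδ'2 : ((n + N : ℕ) : ℝ) * δ' * J ≤ ε / 8 := by
    rw [le_div_iff₀ (by positivity)] at hδ'b
    have h0 : (0 : ℝ) ≤ ((n + N : ℕ) : ℝ) := Nat.cast_nonneg _
    have h2 : ((n + N : ℕ) : ℝ) * J ≤ (J + 1) * (((n + N : ℕ) : ℝ) + 1) := by nlinarith
    have h3 := mul_le_mul_of_nonneg_left h2 hδ'0.le
    nlinarith
  have hC2 : ∀ᶠ X in (atTop : Filter ℝ), 2 * C ≤ X ^ (ε / 8) :=
    (tendsto_rpow_atTop (by linarith)).eventually_ge_atTop _
  obtain ⟨X₀, hX₀⟩ := eventually_atTop.1 ((eventually_all.2 hδ').and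
    (hC2.and (eventually_ge_atTop X₁)))
  refine ⟨δ', hδ'0, max X₀ 3, lt_of_lt_of_le (by norm_num) (le_max_right _ _), ?_⟩
  intro X hX k us gs hk hnr hgran hgood
  obtain ⟨hfX, hCX, hX₁⟩ := hX₀ X ((le_max_left _ _).trans hX)
  have x5 : 3 ≤ X := (le_max_right _ _).trans hX
  have hX1 : (1 : ℝ) < X := by linarith
  have hX0 : (0 : ℝ) < X := by linarith
  have hlog : 0 < Real.log X := Real.log_pos hX1
  -- the parent
  have hlenus : us.length = n := by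
    have := List.Forall₂.length_eq hnr
    rw [this]
  obtain ⟨f, rfl⟩ := exists_eq_ofFn us hlenus
  have hnr' : D.Near X σp (List.ofFn f) (List.ofFn u.get) := by rwa [List.ofFn_get]
  unfold Pcs.Near at hnr'
  rw [forall₂_ofFn_iff] at hnr'
  obtain ⟨k₁, hk₁⟩ : ∃ x : ℝ, x = max k 0 * Real.log X := ⟨_, rfl⟩
  have hk₁0 : 0 ≤ k₁ := by rw [hk₁]; exact mul_nonneg (le_max_right _ _) hlog.le
  have hkk : k * Real.log X ≤ k₁ := by
    rw [hk₁]; exact mul_le_mul_of_nonneg_right (le_max_left _ _) hlog.le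
  have hk₁l : k₁ / Real.log X = max k 0 := by rw [hk₁, mul_div_cancel_right₀ _ hlog.ne']
  have hmaxk : |max k 0 - κ| ≤ σp := by
    rw [abs_le] at hk ⊢
    constructor
    · linarith [hk.1, le_max_left k 0]
    · have := max_le (show k ≤ κ + σp by linarith [hk.2]) (show 0 ≤ κ + σp by linarith)
      linarith
  have hq : ∀ i, |evv D X k₁ f gs i - p i| ≤ σp := by
    rintro (⟨⟩ | i | t)
    · show |k₁ / Real.log X - κ| ≤ σp
      rw [hk₁l]; exact hmaxk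
    · exact (hnr' i).2
    · exact hgran.2.2 t
  have hg1 : ∀ q ∈ List.ofFn f ++ gs, 0 ≤ D.len q := fun q hq => (hgood q hq).2.2
  have hf0 : ∀ i, 0 ≤ D.len (f i) := fun i =>
    hg1 (f i) (List.mem_append_left _ ((List.mem_ofFn' _ _).2 ⟨i, rfl⟩))
  have hg0 : ∀ g ∈ gs, 0 ≤ D.len g := fun g hg => hg1 g (List.mem_append_right _ hg)
  have hsm : |smv (evv D X k₁ f gs) - n₀| ≤ (n + 2) * σp := by
    have h3 := abs_smv_sub (q := evv D X k₁ f gs) (q' := p) hq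
    rwa [hsp] at h3
  have hsm1 := (abs_le.1 hsm).2
  have hnσ : (n + 2) * σp ≤ (n + 2) * σ := mul_le_mul_of_nonneg_left hσp1 (by positivity)
  have hLL : LL D (List.ofFn f ++ gs) / Real.log X ≤ n₀ + (n + 2) * σ := by
    rw [← smv_evv]; linarith
  have hLLi : ∀ q ∈ List.ofFn f ++ gs, D.len q ≤ LL D (List.ofFn f ++ gs) := by
    intro q hq
    unfold LL
    exact List.single_le_sum (fun x hx => by
      obtain ⟨y, hy, rfl⟩ := List.mem_map.1 hx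
      exact hg1 y hy) _ (List.mem_map.2 ⟨q, hq, rfl⟩)
  have hLLc : LL D (List.ofFn f ++ gs) ≤ c₀ * Real.log X := by
    rw [div_le_iff₀ hlog] at hLL
    refine hLL.trans (mul_le_mul_of_nonneg_right ?_ hlog.le)
    rw [hc₀]
    linarith
  have hcnt : (List.ofFn f ++ gs).length ≤ n + N := by
    rw [List.length_append, List.length_ofFn]
    exact Nat.add_le_add_left hgran.1 n
  have hσ2p : σp ≤ (n + 2) * σp := by nlinarith
  -- the parent is near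
  obtain ⟨w, hw⟩ : ∃ w : Fin 2 → ℝ, w = ![k₁ / Real.log X,
    LL D (List.ofFn f ++ gs) / Real.log X] := ⟨_, rfl⟩
  have hdw : dist w ![κ, n₀] ≤ min ρ₁ ρ₂ / 2 := by
    refine le_trans ?_ hσp2
    rw [dist_pi_le_iff (by positivity)]
    intro i
    rw [hw, Real.dist_eq]
    fin_cases i
    · show |k₁ / Real.log X - κ| ≤ _
      rw [hk₁l]
      exact hmaxk.trans hσ2p
    · show |LL D (List.ofFn f ++ gs) / Real.log X - n₀| ≤ _
      rw [← smv_evv]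
      exact hsm
  have hmin0 : 0 < min ρ₁ ρ₂ := lt_min hρ₁ hρ₂
  have hHw : H w ≤ εr := by
    have h1 := hHn w (lt_of_le_of_lt hdw (by linarith [min_le_left ρ₁ ρ₂]))
    rw [Real.dist_eq] at h1
    linarith [(abs_lt.1 h1).2]
  have hAw : A w ≤ E + ε / 8 := by
    have h1 := hAn w (lt_of_le_of_lt hdw (by linarith [min_le_right ρ₁ ρ₂]))
    rw [Real.dist_eq] at h1
    linarith [(abs_lt.1 h1).2]
  rw [hw] at hHw hAw
  have hslack : εr * Real.log X ≤ σ * Real.log X :=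
    mul_le_mul_of_nonneg_right (by linarith) hlog.le
  have hfinal := hR X x5 hX₁ k₁ (List.ofFn f ++ gs) hk₁0 (by
      rw [hk₁]
      refine mul_le_mul_of_nonneg_right ?_ hlog.le
      rw [hc₀]
      linarith [(abs_le.1 hmaxk).2]) hcnt (fun q hq => ⟨hg1 q hq, (hLLi q hq).trans hLLc⟩)
      hHw (X ^ (E + ε / 2)) (Real.rpow_nonneg hX0.le _)
      (fun j θ l ps' hl hlcl hps' hG hz => hfX j k₁ f gs hk₁0 (fun i => (hq i).trans hσp1)
        (fun i => (hnr' i).1) hgran.1 (fun g hg => (hgran.2.1 g hg).trans hσp1) hgood θ l ps' hl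
        hlcl hps' (hG.trans (by linarith))
        (fun hzj q hq1 hq2 => (hz hzj q hq1 hq2).trans (by linarith)))
  refine (hmono lam _ _ _ hkk).trans ?_
  have e1 : X ^ A ![k₁ / Real.log X, LL D (List.ofFn f ++ gs) / Real.log X] =
      Real.exp (A ![k₁ / Real.log X, LL D (List.ofFn f ++ gs) / Real.log X] * Real.log X) := by
    rw [Real.rpow_def_of_pos hX0, mul_comm]
  rw [e1] at hfinal
  refine final_countm (Nr := ((n + N : ℕ) : ℝ)) hX1 hε hC hJ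
    (one_le_prod_s1 hs1 _) ?_ hεr2 hδ'2
    (prod_s1_le hs1 hX1.le hδ'0.le _ (fun q hq => (hgood q hq).1) hcnt) hCX hfinal
  rw [mul_div_cancel_right₀ _ hlog.ne']
  exact hAw

end Crest.Agent.R017.PMR320
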