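import Crest.Agent.R017.RuleC_545

/-!
# Row 17: the transfer rule at the level of `ex` (helper545)

* `ruleExc` : `ruleBGc` for the exponents `ex D Ψ`; the premises are inequalities for
  `ex D (Φ j)`
* `ruleExm` : the same from `ruleBGm` (linear conditions)
-/

set_option autoImplicit false

noncomputable section

open Set Filter Topology

namespace Crest.Agent.R017.RuleM545

open Crest.Agent.R017.XG702 (Pcs BG)
open Crest.Agent.R017.Prov71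
open Crest.Agent.R017.XP699
open Crest.Agent.R017.ER911 (Ok Sh)

variable {Lam Pc : Type*} {D : Pcs Pc Kd} {cost : Pc → Pc → ℝ} {Θ : Type*}

/-- the analytic rule, continuous conditions (hypothesis of `ruleBGc`) -/
def HRc (D : Pcs Pc Kd) (cost : Pc → Pc → ℝ) {ι : Type*} (Ψ : Lam → ℝ → List Pc → ℝ)
    (Φ : ι → Lam → ℝ → List Pc → ℝ) (G F : ι → (Fin 4 → ℝ) → Θ → ℝ) (H A : (Fin 2 → ℝ) → ℝ)
    (zl : ι → Prop) (cl : ℝ) : Prop :=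
  ∀ (lam : Lam) (N : ℕ) (c₀ : ℝ), 1 ≤ c₀ → ∃ B₀ : ℝ, 0 ≤ B₀ ∧ ∀ (ε M : ℝ), 0 < ε →
      0 ≤ M → ∃ C r J X₁ : ℝ, 0 ≤ C ∧ 0 ≤ r ∧ 0 ≤ J ∧
      ∀ X : ℝ, 3 ≤ X → X₁ ≤ X → ∀ (k : ℝ) (ps : List Pc), 0 ≤ k → k ≤ c₀ * Real.log X →
      ps.length ≤ N → (∀ p ∈ ps, 0 ≤ D.len p ∧ D.len p ≤ c₀ * Real.log X) →
      H ![k / Real.log X, LL D ps / Real.log X] ≤ ε →
      ∀ Bd : ℝ, 0 ≤ Bd →
      (∀ (j : ι) (θ : Θ) (l : ℝ) (ps' : List Pc), 0 ≤ l → l ≤ cl * Real.log X →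
        List.Forall₂ (Chd D cost r (C * X ^ B₀)) ps' ps →
        G j (xv D X k ps l ps') θ ≤ ε →
        (zl j → ∀ p ∈ ps', D.lump p → D.len p ≤ l + ε * Real.log X) →
        Φ j lam l ps' ≤ Bd * cst cost ps' ps ^ M * X ^ F j (xv D X k ps l ps') θ) →
      Ψ lam k ps ≤ C * X ^ ε * (ps.map D.s1).prod ^ J *
        (X ^ A ![k / Real.log X, LL D ps / Real.log X] + Bd)

/-- **the transfer rule for exponents** -/
theorem ruleExc [PseudoMetricSpace Θ] [CompactSpace Θ] {ι : Type*} [Finite ι]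
    {Ψ : Lam → ℝ → List Pc → ℝ} {Φ : ι → Lam → ℝ → List Pc → ℝ}
    (hcost : ∀ p' p, 1 ≤ cost p' p) (hs1 : ∀ p, 1 ≤ D.s1 p)
    {G F : ι → (Fin 4 → ℝ) → Θ → ℝ} (hG : ∀ j, Continuous fun x : (Fin 4 → ℝ) × Θ => G j x.1 x.2)
    (hF : ∀ j, Continuous fun x : (Fin 4 → ℝ) × Θ => F j x.1 x.2)
    {H A : (Fin 2 → ℝ) → ℝ} (hH : Continuous H) (hA : Continuous A)
    {zl : ι → Prop} {cl : ℝ}
    (hmono : ∀ lam l l' ps, l ≤ l' → Ψ lam l ps ≤ Ψ lam l' ps)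
    (hrule : HRc D cost Ψ Φ G F H A zl cl)
    (hperm : ∀ j, Pinv (Φ j)) (htriv : ∀ j, Triv D (Φ j))
    (triv : ∀ (j : ι) (lam : Lam) (N : ℕ), ∃ C T : ℝ, 0 ≤ C ∧ 0 ≤ T ∧
      ∀ (l : ℝ) (ps : List Pc), 0 ≤ l → ps.length ≤ N → (∀ p ∈ ps, 0 ≤ D.len p) →
      Φ j lam l ps ≤ C * Real.exp (T * (l + LL D ps)))
    {κ : ℝ} {Y : Multiset ℝ} {m a E : ℝ} (hκ : 0 ≤ κ) (hY : Ok Y m a) (hE0 : 0 ≤ E)
    (hHκ : H ![κ, Y.sum + m + a] ≤ 0) (hE : A ![κ, Y.sum + m + a] ≤ E)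
    (hch : ∀ (j : ι) (θ : Θ) (Y' : Multiset ℝ) (m' a' l : ℝ), Sh Y' Y → 0 ≤ m' → m' ≤ m →
      0 ≤ a' → a' ≤ a → 0 ≤ l → l ≤ cl →
      G j ![κ, Y.sum + m + a, l, Y'.sum + m' + a'] θ ≤ 0 →
      (zl j → ∀ y ∈ Y', y ≤ l) →
      ex D (Φ j) l Y' m' a' ≤ E + F j ![κ, Y.sum + m + a, l, Y'.sum + m' + a'] θ) :
    ex D Ψ κ Y m a ≤ E := by
  refine ex_le' hE0 ?_
  have hu : Okl Y.toList m a := okl_of hY
  refine ruleBGc (Θ := Θ) hcost hs1 hG hF hH hA hmono hrule triv hκ hu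
    (by rw [sum_toList]; exact hHκ) (by rw [sum_toList]; exact hE) ?_
  intro j θ u' m' a' l hsh hm0 hm1 ha0 ha1 hl hlc hGj hz
  rw [sum_toList] at hGj ⊢
  have hsh' : Sh (u' : Multiset ℝ) Y := by
    have := hsh.sh
    rwa [Multiset.coe_toList] at this
  have hsum : (u' : Multiset ℝ).sum = u'.sum := Multiset.sum_coe u'
  have h1 := hch j θ (u' : Multiset ℝ) m' a' l hsh' hm0 hm1 ha0 ha1 hl hlc
    (by rw [hsum]; exact hGj) (fun hzj y hy => hz hzj y (by simpa using hy))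
  rw [hsum] at h1
  exact BG_of_ex (hperm j) (htriv j) hl ⟨hsh.nonneg, hm0, ha0⟩ h1

end Crest.Agent.R017.RuleM545
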