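import Crest.Agent.R017.XPR_699

/-!
# Row 17: transfer of analytic rules with several premises to robust exponents (helper545)

`ruleBGm` : 699's `ruleBG` with a finite family of premises (own functional, own closed conditions
with constants, own exponent with constant), closed side conditions of the parent, and a general
trivial term. `X` is the base scale.
-/

set_option autoImplicit false

noncomputable section

open Set Filter Topology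

namespace Crest.Agent.R017.RuleM545

open Crest.Agent.R017.XG702 (Pcs BG)
open Crest.Agent.R017.Prov71
open Crest.Agent.R017.XF71 (const_le_rpow)
open Crest.Agent.R017.XP699

variable {Lam Pc : Type*} {D : Pcs Pc Kd} {cost : Pc → Pc → ℝ}

/-! ### the constraint function -/

open Classical in
/-- indicator -/
def zc (z : Prop) : ℝ := if z then 1 else 0

lemma zc_nonneg (z : Prop) : 0 ≤ zc z := by unfold zc; split_ifs <;> norm_num

lemma zc_le_one (z : Prop) : zc z ≤ 1 := by unfold zc; split_ifs <;> norm_num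

lemma zc_true {z : Prop} (h : z) : zc z = 1 := by unfold zc; rw [if_pos h]

lemma zc_false {z : Prop} (h : ¬ z) : zc z = 0 := by unfold zc; rw [if_neg h]

/-- the constraint function -/
def fconm (n : ℕ) (Gs : Finset ((Fin 4 → ℝ) × ℝ)) (z : Prop)
    (x : (Unit ⊕ Fin n ⊕ Kd → ℝ) × (Unit ⊕ Fin n ⊕ Kd → ℝ)) : ℝ :=
  ((∑ c ∈ Gs, max 0 (lf c.1 (x.1 (Sum.inl ())) (smv x.1) (x.2 (Sum.inl ())) (smv x.2) + c.2)) +
    ∑ i : Fin n ⊕ Kd, max 0 (x.2 (Sum.inr i) - x.1 (Sum.inr i))) +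
    zc z * ∑ i : Fin n, max 0 (x.2 (Sum.inr (Sum.inl i)) - x.2 (Sum.inl ()))

lemma continuous_fconm (n : ℕ) (Gs : Finset ((Fin 4 → ℝ) × ℝ)) (z : Prop) :
    Continuous (fconm n Gs z) := by
  have h1 : Continuous (fun x : (Unit ⊕ Fin n ⊕ Kd → ℝ) × (Unit ⊕ Fin n ⊕ Kd → ℝ) => smv x.1) :=
    continuous_smv.comp continuous_fst
  have h2 : Continuous (fun x : (Unit ⊕ Fin n ⊕ Kd → ℝ) × (Unit ⊕ Fin n ⊕ Kd → ℝ) => smv x.2) :=
    continuous_smv.comp continuous_snd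
  unfold fconm lf
  refine Continuous.add (Continuous.add (continuous_finsetSum _ fun c _ => ?_)
    (continuous_finsetSum _ fun i _ => ?_))
    (continuous_const.mul (continuous_finsetSum _ fun i _ => ?_))
  · exact continuous_const.max (by fun_prop)
  · exact continuous_const.max (by fun_prop)
  · exact continuous_const.max (by fun_prop)

lemma fconm_le_zero {n : ℕ} {Gs : Finset ((Fin 4 → ℝ) × ℝ)} {z : Prop}
    {x : (Unit ⊕ Fin n ⊕ Kd → ℝ) × (Unit ⊕ Fin n ⊕ Kd → ℝ)} (h : fconm n Gs z x ≤ 0) :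
    (∀ c ∈ Gs, lf c.1 (x.1 (Sum.inl ())) (smv x.1) (x.2 (Sum.inl ())) (smv x.2) + c.2 ≤ 0) ∧
      (∀ i, x.2 (Sum.inr i) ≤ x.1 (Sum.inr i)) ∧
      (z → ∀ i, x.2 (Sum.inr (Sum.inl i)) ≤ x.2 (Sum.inl ())) := by
  unfold fconm at h
  have h1 : 0 ≤ ∑ c ∈ Gs, max 0 (lf c.1 (x.1 (Sum.inl ())) (smv x.1) (x.2 (Sum.inl ()))
      (smv x.2) + c.2) := Finset.sum_nonneg fun _ _ => le_max_left _ _
  have h2 : 0 ≤ ∑ i : Fin n ⊕ Kd, max 0 (x.2 (Sum.inr i) - x.1 (Sum.inr i)) :=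
    Finset.sum_nonneg fun _ _ => le_max_left _ _
  have h3 : 0 ≤ ∑ i : Fin n, max 0 (x.2 (Sum.inr (Sum.inl i)) - x.2 (Sum.inl ())) :=
    Finset.sum_nonneg fun _ _ => le_max_left _ _
  have h3' := mul_nonneg (zc_nonneg z) h3
  refine ⟨fun c hc => ?_, fun i => ?_, fun hz i => ?_⟩
  · have h4 : max 0 (lf c.1 (x.1 (Sum.inl ())) (smv x.1) (x.2 (Sum.inl ())) (smv x.2) + c.2) ≤
        ∑ c ∈ Gs, max 0 (lf c.1 (x.1 (Sum.inl ())) (smv x.1) (x.2 (Sum.inl ())) (smv x.2) + c.2) :=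
      Finset.single_le_sum (f := fun c : (Fin 4 → ℝ) × ℝ => max 0 (lf c.1 (x.1 (Sum.inl ()))
        (smv x.1) (x.2 (Sum.inl ())) (smv x.2) + c.2)) (fun _ _ => le_max_left _ _) hc
    exact (le_max_right _ _).trans (h4.trans (by linarith))
  · have h4 : max 0 (x.2 (Sum.inr i) - x.1 (Sum.inr i)) ≤
        ∑ i : Fin n ⊕ Kd, max 0 (x.2 (Sum.inr i) - x.1 (Sum.inr i)) :=
      Finset.single_le_sum (f := fun i : Fin n ⊕ Kd => max 0 (x.2 (Sum.inr i) - x.1 (Sum.inr i)))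
        (fun _ _ => le_max_left _ _) (Finset.mem_univ i)
    have h5 := (le_max_right 0 (x.2 (Sum.inr i) - x.1 (Sum.inr i))).trans h4
    linarith
  · have h4 : max 0 (x.2 (Sum.inr (Sum.inl i)) - x.2 (Sum.inl ())) ≤
        ∑ i : Fin n, max 0 (x.2 (Sum.inr (Sum.inl i)) - x.2 (Sum.inl ())) :=
      Finset.single_le_sum (f := fun i : Fin n =>
        max 0 (x.2 (Sum.inr (Sum.inl i)) - x.2 (Sum.inl ())))
        (fun _ _ => le_max_left _ _) (Finset.mem_univ i)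
    have h5 := (le_max_right 0 (x.2 (Sum.inr (Sum.inl i)) - x.2 (Sum.inl ()))).trans h4
    rw [zc_true hz, one_mul] at h
    linarith

lemma fconm_le {n : ℕ} {Gs : Finset ((Fin 4 → ℝ) × ℝ)} {z : Prop}
    {x : (Unit ⊕ Fin n ⊕ Kd → ℝ) × (Unit ⊕ Fin n ⊕ Kd → ℝ)} {s₁ : ℝ} (hs₁ : 0 ≤ s₁)
    (h1 : ∀ c ∈ Gs, lf c.1 (x.1 (Sum.inl ())) (smv x.1) (x.2 (Sum.inl ())) (smv x.2) + c.2 ≤ s₁)
    (h2 : ∀ i, x.2 (Sum.inr i) - x.1 (Sum.inr i) ≤ s₁)
    (h3 : z → ∀ i, x.2 (Sum.inr (Sum.inl i)) - x.2 (Sum.inl ()) ≤ s₁) :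
    fconm n Gs z x ≤ (Gs.card + (2 * n + 2)) * s₁ := by
  have e1 : ∑ c ∈ Gs, max 0 (lf c.1 (x.1 (Sum.inl ())) (smv x.1) (x.2 (Sum.inl ()))
      (smv x.2) + c.2) ≤ Gs.card * s₁ := by
    refine (Finset.sum_le_sum fun c hc => max_le hs₁ (h1 c hc)).trans ?_
    rw [Finset.sum_const, nsmul_eq_mul]
  have e2 : ∑ i : Fin n ⊕ Kd, max 0 (x.2 (Sum.inr i) - x.1 (Sum.inr i)) ≤ (n + 2) * s₁ := by
    refine (Finset.sum_le_sum fun i _ => max_le hs₁ (h2 i)).trans ?_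
    rw [Finset.sum_const, nsmul_eq_mul, Finset.card_univ, Fintype.card_sum, Fintype.card_fin]
    have : Fintype.card Kd = 2 := rfl
    rw [this]
    push_cast
    exact le_rfl
  have e3 : zc z * ∑ i : Fin n, max 0 (x.2 (Sum.inr (Sum.inl i)) - x.2 (Sum.inl ())) ≤ n * s₁ := by
    by_cases hz : z
    · rw [zc_true hz, one_mul]
      refine (Finset.sum_le_sum fun i _ => max_le hs₁ (h3 hz i)).trans ?_
      rw [Finset.sum_const, nsmul_eq_mul, Finset.card_univ, Fintype.card_fin]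
    · rw [zc_false hz, zero_mul]
      positivity
  unfold fconm
  calc _ ≤ Gs.card * s₁ + (n + 2) * s₁ + n * s₁ := add_le_add (add_le_add e1 e2) e3
    _ = _ := by ring

/-! ### the window of a child -/

lemma child_winm {n : ℕ} {Gs : Finset ((Fin 4 → ℝ) × ℝ)} {z : Prop}
    {cL c₀ X k l r b σ : ℝ} {N : ℕ} (hcost : ∀ p' p, 1 ≤ cost p' p)
    (hX : 0 < Real.log X) (hcL : 0 ≤ cL) (hr : 0 ≤ r) (hc₀ : 0 ≤ c₀)
    (hGs : ∀ k n l n' s : ℝ, 0 ≤ k → 0 ≤ n → 0 ≤ l → 0 ≤ n' → 0 ≤ s →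
      (∀ c ∈ Gs, lf c.1 k n l n' + c.2 ≤ s) → l ≤ cL * (k + n + s + 1))
    {f f' : Fin n → Pc} {gs gs' : List Pc} (hk : 0 ≤ k) (hl : 0 ≤ l)
    (hgN : gs.length ≤ N) (hσ : 0 ≤ σ)
    (h1 : ∀ i, Chd D cost r b (f' i) (f i)) (h2 : List.Forall₂ (Chd D cost r b) gs' gs)
    (hlump : ∀ i, D.lump (f i))
    (hG : ∀ c ∈ Gs, lf c.1 k (LL D (List.ofFn f ++ gs)) l (LL D (List.ofFn f' ++ gs')) +
      c.2 * Real.log X ≤ σ * Real.log X)
    (hz : z → ∀ q ∈ List.ofFn f' ++ gs', D.lump q → D.len q ≤ l + σ * Real.log X)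
    (hlen0 : ∀ i, 0 ≤ D.len (f i)) (hgs0 : ∀ g ∈ gs, 0 ≤ D.len g)
    (hrX : (N + 1) * (r / Real.log X) ≤ σ)
    (hkc : k / Real.log X ≤ c₀) (hlc : LL D (List.ofFn f ++ gs) / Real.log X ≤ c₀)
    (hfi : ∀ i, D.nl X (f i) ≤ c₀) (hms : ∀ t, D.mass X gs t ≤ c₀) :
    evv D X l f' gs' ∈ Set.Icc (0 : Unit ⊕ Fin n ⊕ Kd → ℝ)
        (fun _ => (c₀ + σ) + cL * (c₀ + c₀ + σ + 1)) ∧
      fconm n Gs z (evv D X k f gs, evv D X l f' gs') ≤ (Gs.card + (2 * n + 2)) * σ := by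
  have hgs'0 : ∀ g ∈ gs', 0 ≤ D.len g := by
    intro g hg
    obtain ⟨p, _, h3, _⟩ := good_child hcost h2 (le_refl _) g hg
    exact h3.len0
  have hN : (0 : ℝ) ≤ N := Nat.cast_nonneg N
  have hrX0 : 0 ≤ r / Real.log X := by positivity
  have hrX1 : r / Real.log X ≤ σ := by nlinarith
  have hn0 : 0 ≤ LL D (List.ofFn f ++ gs) := by
    apply LL_nonneg
    intro p hp
    rcases List.mem_append.1 hp with h | h
    · obtain ⟨i, rfl⟩ := (List.mem_ofFn' _ _).1 h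
      exact hlen0 i
    · exact hgs0 p h
  have hn'0 : 0 ≤ LL D (List.ofFn f' ++ gs') := by
    apply LL_nonneg
    intro p hp
    rcases List.mem_append.1 hp with h | h
    · obtain ⟨i, rfl⟩ := (List.mem_ofFn' _ _).1 h
      exact (h1 i).len0
    · exact hgs'0 p h
  have hdiff : ∀ i, (evv D X l f' gs') (Sum.inr i) - (evv D X k f gs) (Sum.inr i) ≤ σ := by
    rintro (i | t)
    · show D.nl X (f' i) - D.nl X (f i) ≤ σ
      have h3 : D.nl X (f' i) ≤ D.nl X (f i) + r / Real.log X := by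
        unfold Pcs.nl
        rw [← add_div]
        exact div_le_div_of_nonneg_right (h1 i).len hX.le
      linarith
    · show D.mass X gs' t - D.mass X gs t ≤ σ
      have h3 := mass_child hX hr h2 t
      have h4 : (gs.length : ℝ) * (r / Real.log X) ≤ N * (r / Real.log X) := by
        have : (gs.length : ℝ) ≤ N := by exact_mod_cast hgN
        exact mul_le_mul_of_nonneg_right this hrX0
      nlinarith
  have hcon : ∀ c ∈ Gs, lf c.1 ((evv D X k f gs) (Sum.inl ())) (smv (evv D X k f gs))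
      ((evv D X l f' gs') (Sum.inl ())) (smv (evv D X l f' gs')) + c.2 ≤ σ := by
    intro c hc
    rw [smv_evv, smv_evv]
    show lf c.1 (k / Real.log X) _ (l / Real.log X) _ + c.2 ≤ σ
    have h3 := hG c hc
    have e : lf c.1 (k / Real.log X) (LL D (List.ofFn f ++ gs) / Real.log X) (l / Real.log X)
        (LL D (List.ofFn f' ++ gs') / Real.log X) + c.2 =
        (lf c.1 k (LL D (List.ofFn f ++ gs)) l (LL D (List.ofFn f' ++ gs')) +
          c.2 * Real.log X) / Real.log X := by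
      rw [lf_div]; field_simp
    rw [e, div_le_iff₀ hX]
    exact h3
  have hzc : z → ∀ i, (evv D X l f' gs') (Sum.inr (Sum.inl i)) - (evv D X l f' gs') (Sum.inl ()) ≤
      σ := by
    intro hz' i
    show D.nl X (f' i) - l / Real.log X ≤ σ
    have h3 := hz hz' (f' i) (List.mem_append_left _ ((List.mem_ofFn' _ _).2 ⟨i, rfl⟩))
      ((h1 i).lump (hlump i))
    unfold Pcs.nl
    rw [← sub_div, div_le_iff₀ hX]
    linarith
  have hl' : l / Real.log X ≤ cL * (c₀ + c₀ + σ + 1) := by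
    have h3 := hGs (k / Real.log X) (LL D (List.ofFn f ++ gs) / Real.log X) (l / Real.log X)
      (LL D (List.ofFn f' ++ gs') / Real.log X) σ (by positivity) (by positivity)
      (by positivity) (by positivity) hσ (by
        intro c hc
        have h4 := hcon c hc
        rw [smv_evv, smv_evv] at h4
        exact h4)
    refine h3.trans (mul_le_mul_of_nonneg_left ?_ hcL)
    linarith
  have hb0 : 0 ≤ cL * (c₀ + c₀ + σ + 1) := by positivity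
  refine ⟨⟨fun i => ?_, fun i => ?_⟩, fconm_le hσ hcon hdiff hzc⟩
  · rcases i with ⟨⟩ | i | t
    · show 0 ≤ l / Real.log X
      positivity
    · show 0 ≤ D.nl X (f' i)
      exact div_nonneg (h1 i).len0 hX.le
    · show 0 ≤ D.mass X gs' t
      exact XG702.mass_nonneg (fun p hp => div_nonneg (hgs'0 p hp) hX.le) t
  · rcases i with ⟨⟩ | i | t
    · show l / Real.log X ≤ _
      linarith
    · have := hdiff (Sum.inl i)
      have e1 : (evv D X l f' gs') (Sum.inr (Sum.inl i)) = D.nl X (f' i) := rfl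
      have e2 : (evv D X k f gs) (Sum.inr (Sum.inl i)) = D.nl X (f i) := rfl
      rw [e1, e2] at this
      show D.nl X (f' i) ≤ _
      linarith [hfi i]
    · have := hdiff (Sum.inr t)
      have e1 : (evv D X l f' gs') (Sum.inr (Sum.inr t)) = D.mass X gs' t := rfl
      have e2 : (evv D X k f gs) (Sum.inr (Sum.inr t)) = D.mass X gs t := rfl
      rw [e1, e2] at this
      show D.mass X gs' t ≤ _
      linarith [hms t]

/-! ### one premise -/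

set_option maxHeartbeats 1600000 in
/-- the bound of one child -/
lemma child_boundm {n N : ℕ} {Φl : ℝ → List Pc → ℝ} {cF : Fin 4 → ℝ} {eF : ℝ}
    {Gs : Finset ((Fin 4 → ℝ) × ℝ)} {z : Prop}
    {E ε κ n₀ c₀ cL cB Bx δ₁ δ₂ s σ ρ' δ' B B₀ Cb Ct T' M X k l r : ℝ}
    {p : Unit ⊕ Fin n ⊕ Kd → ℝ} (hcost : ∀ p' p, 1 ≤ cost p' p) (hs1 : ∀ p, 1 ≤ D.s1 p)
    (hcL : 0 ≤ cL)
    (hGs : ∀ k n l n' s : ℝ, 0 ≤ k → 0 ≤ n → 0 ≤ l → 0 ≤ n' → 0 ≤ s →
      (∀ c ∈ Gs, lf c.1 k n l n' + c.2 ≤ s) → l ≤ cL * (k + n + s + 1))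
    (hX1 : 1 < X) (hlog : 0 < Real.log X) (hε : 0 < ε) (hpκ : p (Sum.inl ()) = κ)
    (hsp : smv p = n₀)
    (hc₀ : κ + n₀ + 3 ≤ c₀) (hκ : 0 ≤ κ) (hn₀0 : 0 ≤ n₀)
    (hBx : (c₀ + 1) + cL * (c₀ + c₀ + 1 + 1) ≤ Bx)
    (hnear : ∀ q : Unit ⊕ Fin n ⊕ Kd → ℝ, (∀ i, |q i - p i| ≤ s) →
      ∀ q' ∈ Set.Icc (0 : Unit ⊕ Fin n ⊕ Kd → ℝ) (fun _ => Bx), fconm n Gs z (q, q') ≤ s →
      ∃ p' ∈ {p' | p' ∈ Set.Icc (0 : Unit ⊕ Fin n ⊕ Kd → ℝ) (fun _ => Bx) ∧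
        fconm n Gs z (p, p') ≤ 0}, ∀ i, |q' i - p' i| ≤ δ₂)
    (hun : ∀ (k : ℝ) (us gs : List Pc), ∀ x ∈ toX '' {p' | p' ∈ Set.Icc
        (0 : Unit ⊕ Fin n ⊕ Kd → ℝ) (fun _ => Bx) ∧ fconm n Gs z (p, p') ≤ 0},
      |k - x.1| ≤ δ₁ → D.Near X δ₁ us (List.ofFn x.2.1) → D.Gran X δ₁ N gs x.2.2 →
      D.Good X ρ' (B + B₀ + 1) (us ++ gs) → Φl (k * Real.log X) (us ++ gs) ≤
        X ^ (E + (lf cF κ n₀ x.1 ((∑ i, x.2.1 i) + (x.2.2 .mo + x.2.2 .am)) + eF) + ε / 8))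
    (hδ₂0 : 0 < δ₂) (hδ₂1 : δ₂ ≤ δ₁) (hδ₂3 : lfn cF * ((n + 3) * δ₂) ≤ ε / 8)
    (hσ0 : 0 < σ) (hσ1 : (Gs.card + (2 * n + 2)) * σ ≤ s) (hσ3 : σ ≤ δ₂ / 2)
    (hσ4 : (n + 3) * σ ≤ 1) (hσ5 : σ ≤ 1) (hσs : σ ≤ s)
    (hcB : cB = lfn cF * ((n + 3) * Bx + c₀) + |eF|)
    (hM : 2 * (T' * ((n + 3) * Bx) + |E| + cB + 1) / ρ' ≤ M) (hM0 : 0 ≤ M) (hρ' : 0 < ρ')
    (hT' : 0 ≤ T') (hr : 0 ≤ r) (hδ'1 : δ' ≤ ρ' / 2)
    (hrlog : (N + 1) * (r / Real.log X) ≤ σ / 2) (hC3 : Ct ≤ X ^ (1 : ℝ)) (_hCt : 0 ≤ Ct)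
    (htriv : ∀ (l : ℝ) (ps : List Pc), 0 ≤ l →
      ps.length ≤ n + N → (∀ p ∈ ps, 0 ≤ D.len p) → Φl l ps ≤ Ct * Real.exp (T' * (l + LL D ps)))
    {f : Fin n → Pc} {gs : List Pc} (hk : 0 ≤ k)
    (hq : ∀ i, |evv D X k f gs i - p i| ≤ σ) (hlump : ∀ i, D.lump (f i)) (hgN : gs.length ≤ N)
    (hgσ : ∀ g ∈ gs, D.nl X g ≤ σ)
    (hgood : ∀ q ∈ List.ofFn f ++ gs, D.s1 q ≤ X ^ δ' ∧ D.s2 q ≤ X ^ B ∧ 0 ≤ D.len q)
    (hl : 0 ≤ l) {ps' : List Pc}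
    (hCb0 : 0 ≤ Cb) (hCbX : Cb ≤ X)
    (hps' : List.Forall₂ (Chd D cost r (Cb * X ^ B₀)) ps' (List.ofFn f ++ gs))
    (hG : ∀ c ∈ Gs, lf c.1 k (LL D (List.ofFn f ++ gs)) l (LL D ps') + c.2 * Real.log X ≤
      σ * Real.log X)
    (hz : z → ∀ q ∈ ps', D.lump q → D.len q ≤ l + σ * Real.log X) :
    Φl l ps' ≤ X ^ (E + ε / 2) * cst cost ps' (List.ofFn f ++ gs) ^ M *
      Real.exp (lf cF k (LL D (List.ofFn f ++ gs)) l (LL D ps') + eF * Real.log X) := by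
  have hX0 : 0 < X := by linarith
  have hn2 : (0 : ℝ) ≤ n := Nat.cast_nonneg n
  have hN2 : (0 : ℝ) ≤ N := Nat.cast_nonneg N
  have hf0 : ∀ i, 0 ≤ D.len (f i) := fun i =>
    (hgood (f i) (List.mem_append_left _ ((List.mem_ofFn' _ _).2 ⟨i, rfl⟩))).2.2
  have hg0 : ∀ g ∈ gs, 0 ≤ D.len g := fun g hg => (hgood g (List.mem_append_right _ hg)).2.2
  -- the lists
  have h1 := List.forall₂_take_append _ _ _ hps'
  have h2 := List.forall₂_drop_append _ _ _ hps'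
  rw [List.length_ofFn] at h1 h2
  have hlen1 : (List.take n ps').length = n := by
    rw [List.Forall₂.length_eq h1, List.length_ofFn]
  obtain ⟨f', hf'⟩ := exists_eq_ofFn (List.take n ps') hlen1
  obtain ⟨gs', hgs'⟩ : ∃ g, g = List.drop n ps' := ⟨_, rfl⟩
  have hsplit : ps' = List.ofFn f' ++ gs' := by rw [← hf', hgs', List.take_append_drop]
  rw [hf', forall₂_ofFn_iff] at h1
  rw [← hgs'] at h2
  clear hf' hgs'
  subst hsplit
  have hr0 : 0 ≤ r / Real.log X := by positivity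
  have hrσ : r / Real.log X ≤ σ / 2 := num2 hN2 hr0 hrlog
  obtain ⟨nm1, nm2, nm3, nm4⟩ := num1 hn2 hδ₂0 hσ0 hσ3
  have hq0 := evv_nonneg (D := D) (gs := gs) hlog hk hf0 hg0
  have hsmq : smv (evv D X k f gs) ≤ n₀ + 1 := by
    have h3 := abs_smv_sub (q := evv D X k f gs) (q' := p) hq
    rw [hsp] at h3
    have := (abs_le.1 h3).2
    linarith
  have hlc : LL D (List.ofFn f ++ gs) / Real.log X ≤ n₀ + 1 := by rw [← smv_evv]; exact hsmq
  have hkc : k / Real.log X ≤ κ + 1 := by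
    have h3 := hq (Sum.inl ())
    rw [hpκ] at h3
    have e : evv D X k f gs (Sum.inl ()) = k / Real.log X := rfl
    rw [e] at h3
    linarith [(abs_le.1 h3).2]
  obtain ⟨w1, w2⟩ := child_winm (c₀ := c₀) (σ := σ) (Gs := Gs) (z := z) hcost hlog hcL hr
    (by linarith) hGs hk hl hgN hσ0.le h1 h2 hlump hG hz hf0 hg0
    (by linarith) (by linarith) (by linarith)
    (fun i => (le_smv hq0 (Sum.inl i)).trans (by linarith))
    (fun t => (le_smv hq0 (Sum.inr t)).trans (by linarith))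
  have hBx2 : (c₀ + σ) + cL * (c₀ + c₀ + σ + 1) ≤ Bx := by
    refine le_trans ?_ hBx
    have := mul_le_mul_of_nonneg_left (show c₀ + c₀ + σ + 1 ≤ c₀ + c₀ + 1 + 1 by linarith) hcL
    linarith
  have hmem : evv D X l f' gs' ∈ Set.Icc (0 : Unit ⊕ Fin n ⊕ Kd → ℝ) (fun _ => Bx) :=
    ⟨w1.1, fun i => (w1.2 i).trans hBx2⟩
  obtain ⟨p', hp'K, hpp⟩ := hnear (evv D X k f gs) (fun i => (hq i).trans hσs) _ hmem
    (w2.trans hσ1)
  have hg'0 : ∀ g ∈ gs', 0 ≤ D.len g := by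
    intro g hg
    obtain ⟨_, _, h3, _⟩ := good_child hcost h2 (le_refl _) g hg
    exact h3.len0
  have hq'0 := evv_nonneg (D := D) (gs := gs') hlog hl (fun i => (h1 i).len0) hg'0
  obtain ⟨cs, hcs⟩ : ∃ x, x = cst cost (List.ofFn f' ++ gs') (List.ofFn f ++ gs) := ⟨_, rfl⟩
  have hcs1 : 1 ≤ cs := hcs ▸ one_le_cst hcost _ _
  obtain ⟨y, hy⟩ : ∃ x, x = lf cF k (LL D (List.ofFn f ++ gs)) l (LL D (List.ofFn f' ++ gs')) +
    eF * Real.log X := ⟨_, rfl⟩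
  have hyl : y / Real.log X = lf cF (k / Real.log X) (smv (evv D X k f gs)) (l / Real.log X)
      (smv (evv D X l f' gs')) + eF := by
    rw [smv_evv, smv_evv, lf_div, hy]
    field_simp
  rw [← hcs, ← hy, exp_eq_rpow hX0 hlog]
  rcases le_or_gt cs (X ^ (ρ' / 2)) with hc | hc
  · -- the good case
    have hgood' : D.Good X ρ' (B + B₀ + 1) (List.ofFn f' ++ gs') := by
      intro q hq'
      obtain ⟨q0, hq0, h3, h4⟩ := good_child hcost hps' (le_refl _) q hq'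
      rw [← hcs] at h4
      have g := hgood q0 hq0
      have h5 : 1 ≤ D.s1 q0 := hs1 q0
      have h6 : 1 ≤ cost q q0 := hcost q q0
      refine ⟨?_, ?_, h3.len0⟩
      · calc D.s1 q ≤ D.s1 q0 * cost q q0 := h3.s1
          _ ≤ X ^ δ' * X ^ (ρ' / 2) := mul_le_mul g.1 (h4.trans hc) (by linarith)
              (Real.rpow_nonneg hX0.le _)
          _ = X ^ (δ' + ρ' / 2) := (Real.rpow_add hX0 _ _).symm
          _ ≤ X ^ ρ' := Real.rpow_le_rpow_of_exponent_le hX1.le (by linarith)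
      · have h7 : 0 ≤ X ^ B₀ := Real.rpow_nonneg hX0.le _
        calc D.s2 q ≤ D.s2 q0 * (Cb * X ^ B₀) := h3.s2
          _ ≤ X ^ B * (Cb * X ^ B₀) := mul_le_mul_of_nonneg_right g.2.1
              (mul_nonneg hCb0 h7)
          _ ≤ X ^ B * (X * X ^ B₀) := mul_le_mul_of_nonneg_left
              (mul_le_mul_of_nonneg_right hCbX h7) (Real.rpow_nonneg hX0.le _)
          _ = X ^ (B + B₀ + 1) := by
              rw [Real.rpow_add hX0, Real.rpow_add hX0, Real.rpow_one]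
              ring
    have h3 := hun (l / Real.log X) (List.ofFn f') gs' (toX p') ⟨p', hp'K, rfl⟩
      ((hpp (Sum.inl ())).trans hδ₂1) (by
        unfold Pcs.Near
        rw [forall₂_ofFn_iff]
        exact fun i => ⟨(h1 i).lump (hlump i), (hpp (Sum.inr (Sum.inl i))).trans hδ₂1⟩) (by
        refine ⟨by rw [List.Forall₂.length_eq h2]; exact hgN, ?_, ?_⟩
        · intro g hg
          obtain ⟨g0, hg0', h4, _⟩ := good_child hcost h2 (le_refl _) g hg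
          have h5 : D.nl X g ≤ D.nl X g0 + r / Real.log X := by
            unfold Pcs.nl
            rw [← add_div]
            exact div_le_div_of_nonneg_right h4.len hlog.le
          linarith [hgσ g0 hg0']
        · exact fun t => (hpp (Sum.inr (Sum.inr t))).trans hδ₂1) hgood'
    rw [div_mul_cancel₀ _ hlog.ne'] at h3
    rw [← smv_eq] at h3
    have hb1 : |κ - k / Real.log X| ≤ (n + 3) * δ₂ := by
      have h4 := hq (Sum.inl ())
      rw [hpκ] at h4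
      rw [abs_sub_comm]
      exact h4.trans nm1
    have hb2 : |n₀ - smv (evv D X k f gs)| ≤ (n + 3) * δ₂ := by
      have h4 := abs_smv_sub (q := evv D X k f gs) (q' := p) hq
      rw [hsp] at h4
      rw [abs_sub_comm]
      exact h4.trans nm2
    have hb3 : |(toX p').1 - l / Real.log X| ≤ (n + 3) * δ₂ := by
      have h4 := hpp (Sum.inl ())
      rw [abs_sub_comm] at h4
      exact le_trans h4 nm3
    have hb4 : |smv p' - smv (evv D X l f' gs')| ≤ (n + 3) * δ₂ := by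
      have h4 := abs_smv_sub (q := evv D X l f' gs') (q' := p') hpp
      rw [abs_sub_comm]
      exact h4.trans nm4
    have h6 := abs_lf_sub (c := cF) hb1 hb2 hb3 hb4
    have h7 := (abs_le.1 (h6.trans hδ₂3)).2
    have h8 : 1 ≤ cs ^ M := Real.one_le_rpow hcs1 hM0
    calc Φl l (List.ofFn f' ++ gs') ≤ X ^ (E + ε / 2 + y / Real.log X) := by
          refine h3.trans (Real.rpow_le_rpow_of_exponent_le hX1.le ?_)
          rw [hyl]
          linarith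
      _ = X ^ (E + ε / 2) * 1 * X ^ (y / Real.log X) := by rw [Real.rpow_add hX0]; ring
      _ ≤ X ^ (E + ε / 2) * cs ^ M * X ^ (y / Real.log X) := by gcongr
  · -- the expensive case
    have hmem2 := hmem.2
    have hBx0 : 0 ≤ Bx := le_trans (hq'0 (Sum.inl ())) (hmem2 (Sum.inl ()))
    have hl' : l / Real.log X ≤ Bx := hmem2 (Sum.inl ())
    have hsm' : smv (evv D X l f' gs') ≤ (n + 2) * Bx := by
      unfold smv
      refine (Finset.sum_le_sum fun i _ => hmem2 (Sum.inr i)).trans ?_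
      rw [Finset.sum_const, nsmul_eq_mul, Finset.card_univ, Fintype.card_sum, Fintype.card_fin]
      have : Fintype.card Kd = 2 := rfl
      rw [this]
      push_cast
      exact le_rfl
    have hsm0 : 0 ≤ smv (evv D X l f' gs') := Finset.sum_nonneg fun i _ => hq'0 _
    have hsm1 : 0 ≤ smv (evv D X k f gs) := Finset.sum_nonneg fun i _ => hq0 _
    have hnB : 0 ≤ (n : ℝ) * Bx := by positivity
    have h3 : Φl l (List.ofFn f' ++ gs') ≤ X ^ (1 + T' * ((n + 3) * Bx)) := by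
      refine (htriv l _ hl ?_ ?_).trans ?_
      · rw [List.Forall₂.length_eq hps', List.length_append, List.length_ofFn]
        omega
      · intro q hq'
        obtain ⟨_, _, h3, _⟩ := good_child hcost hps' (le_refl _) q hq'
        exact h3.len0
      · rw [exp_eq_rpow hX0 hlog, Real.rpow_add hX0]
        refine mul_le_mul hC3 (Real.rpow_le_rpow_of_exponent_le hX1.le ?_)
          (Real.rpow_nonneg hX0.le _) (Real.rpow_nonneg hX0.le _)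
        rw [mul_div_assoc, add_div, ← smv_evv]
        refine mul_le_mul_of_nonneg_left ?_ hT'
        linarith
    have h4 : -cB ≤ y / Real.log X := by
      rw [hyl, hcB]
      have h5 := abs_lf_le (c := cF) (k := k / Real.log X) (n := smv (evv D X k f gs))
        (l := l / Real.log X) (n' := smv (evv D X l f' gs')) (b := (n + 3) * Bx + c₀)
        (by rw [abs_of_nonneg (div_nonneg hk hlog.le)]; linarith)
        (by rw [abs_of_nonneg hsm1]; linarith)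
        (by rw [abs_of_nonneg (div_nonneg hl hlog.le)]; linarith)
        (by rw [abs_of_nonneg hsm0]; linarith)
      linarith [(abs_le.1 h5).1, neg_abs_le eF]
    have h5 : X ^ (T' * ((n + 3) * Bx) + |E| + cB + 1) ≤ cs ^ M := by
      have e : X ^ (T' * ((n + 3) * Bx) + |E| + cB + 1) ≤ (X ^ (ρ' / 2)) ^ M := by
        rw [← Real.rpow_mul hX0.le]
        refine Real.rpow_le_rpow_of_exponent_le hX1.le ?_
        rw [div_le_iff₀ hρ'] at hM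
        linarith
      exact e.trans (Real.rpow_le_rpow (Real.rpow_nonneg hX0.le _) hc.le hM0)
    calc Φl l (List.ofFn f' ++ gs') ≤ X ^ (1 + T' * ((n + 3) * Bx)) := h3
      _ ≤ X ^ ((E + ε / 2) + (T' * ((n + 3) * Bx) + |E| + cB + 1) + y / Real.log X) := by
          refine Real.rpow_le_rpow_of_exponent_le hX1.le ?_
          linarith [neg_abs_le E]
      _ = X ^ (E + ε / 2) * X ^ (T' * ((n + 3) * Bx) + |E| + cB + 1) * X ^ (y / Real.log X) := by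
          rw [Real.rpow_add hX0, Real.rpow_add hX0]
      _ ≤ _ := by gcongr

/-! ### small and large parameters -/

lemma ev_small {P : ℝ → Prop} {b : ℝ} (hb : 0 < b) (h : ∀ σ, 0 < σ → σ ≤ b → P σ) :
    ∀ᶠ σ in 𝓝[>] (0 : ℝ), P σ := by
  filter_upwards [Ioc_mem_nhdsGT hb] with σ hσ
  exact h σ hσ.1 hσ.2

lemma ev_large {P : ℝ → Prop} {b : ℝ} (h : ∀ x, b ≤ x → P x) : ∀ᶠ x in atTop, P x :=
  (eventually_ge_atTop b).mono h

lemma exists_of_small {P : ℝ → Prop} {b : ℝ} (hb : 0 < b) (h : ∀ᶠ σ in 𝓝[>] (0 : ℝ), P σ) :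
    ∃ σ, 0 < σ ∧ σ ≤ b ∧ P σ := by
  obtain ⟨σ, h1, h2⟩ := (h.and (Ioc_mem_nhdsGT hb)).exists
  exact ⟨σ, h2.1, h2.2, h1⟩

lemma exists_of_large {P : ℝ → Prop} (b : ℝ) (h : ∀ᶠ x in (atTop : Filter ℝ), P x) :
    ∃ x, b ≤ x ∧ P x := by
  obtain ⟨x, h1, h2⟩ := (h.and (eventually_ge_atTop b)).exists
  exact ⟨x, h2, h1⟩

/-- all the children of one premise, for all data near `p` -/
def Fam (D : Pcs Pc Kd) (cost : Pc → Pc → ℝ) {n : ℕ} (Φ : Lam → ℝ → List Pc → ℝ)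
    (cF : Fin 4 → ℝ) (eF : ℝ) (Gs : Finset ((Fin 4 → ℝ) × ℝ)) (z : Prop)
    (p : Unit ⊕ Fin n ⊕ Kd → ℝ) (E ε σ : ℝ) : Prop :=
  ∀ (lam : Lam) (N : ℕ) (B B₀ : ℝ), 0 ≤ B₀ → ∀ᶠ M in (atTop : Filter ℝ), ∀ C r : ℝ, 0 ≤ C →
    0 ≤ r → ∀ᶠ δ' in 𝓝[>] (0 : ℝ), ∀ᶠ X in (atTop : Filter ℝ), ∀ (k : ℝ) (f : Fin n → Pc)
    (gs : List Pc), 0 ≤ k → (∀ i, |evv D X k f gs i - p i| ≤ σ) → (∀ i, D.lump (f i)) →
    gs.length ≤ N → (∀ g ∈ gs, D.nl X g ≤ σ) →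
    (∀ q ∈ List.ofFn f ++ gs, D.s1 q ≤ X ^ δ' ∧ D.s2 q ≤ X ^ B ∧ 0 ≤ D.len q) →
    ∀ (l : ℝ) (ps' : List Pc), 0 ≤ l →
    List.Forall₂ (Chd D cost r (C * X ^ B₀)) ps' (List.ofFn f ++ gs) →
    (∀ c ∈ Gs, lf c.1 k (LL D (List.ofFn f ++ gs)) l (LL D ps') + c.2 * Real.log X ≤
      σ * Real.log X) →
    (z → ∀ q ∈ ps', D.lump q → D.len q ≤ l + σ * Real.log X) →
    Φ lam l ps' ≤ X ^ (E + ε / 2) * cst cost ps' (List.ofFn f ++ gs) ^ M *
      Real.exp (lf cF k (LL D (List.ofFn f ++ gs)) l (LL D ps') + eF * Real.log X)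

set_option maxHeartbeats 1600000 in
/-- one premise -/
theorem fam {n : ℕ} {Φ : Lam → ℝ → List Pc → ℝ} {cF : Fin 4 → ℝ} {eF : ℝ}
    {Gs : Finset ((Fin 4 → ℝ) × ℝ)} {z : Prop} {cL E ε : ℝ}
    {p : Unit ⊕ Fin n ⊕ Kd → ℝ} (hcost : ∀ p' p, 1 ≤ cost p' p) (hs1 : ∀ p, 1 ≤ D.s1 p)
    (hcL : 0 ≤ cL)
    (hGs : ∀ k n l n' s : ℝ, 0 ≤ k → 0 ≤ n → 0 ≤ l → 0 ≤ n' → 0 ≤ s →
      (∀ c ∈ Gs, lf c.1 k n l n' + c.2 ≤ s) → l ≤ cL * (k + n + s + 1))
    (triv : ∀ (lam : Lam) (N : ℕ), ∃ C T : ℝ, 0 ≤ C ∧ 0 ≤ T ∧ ∀ (l : ℝ) (ps : List Pc), 0 ≤ l →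
      ps.length ≤ N → (∀ p ∈ ps, 0 ≤ D.len p) → Φ lam l ps ≤ C * Real.exp (T * (l + LL D ps)))
    (hε : 0 < ε) (hp0 : ∀ i, 0 ≤ p i)
    (hBG : ∀ q : Unit ⊕ Fin n ⊕ Kd → ℝ, (∀ i, 0 ≤ q i) → fconm n Gs z (p, q) ≤ 0 →
      BG D Φ (toX q).1 (List.ofFn (toX q).2.1) (toX q).2.2
        (E + (lf cF (p (Sum.inl ())) (smv p) (q (Sum.inl ())) (smv q) + eF))) :
    ∀ᶠ σ in 𝓝[>] (0 : ℝ), Fam D cost Φ cF eF Gs z p E ε σ := by
  obtain ⟨κ, hκ'⟩ : ∃ x, x = p (Sum.inl ()) := ⟨_, rfl⟩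
  obtain ⟨n₀, hn₀'⟩ : ∃ x, x = smv p := ⟨_, rfl⟩
  have hκ : 0 ≤ κ := hκ' ▸ hp0 _
  have hn₀0 : 0 ≤ n₀ := by rw [hn₀']; exact Finset.sum_nonneg fun i _ => hp0 _
  obtain ⟨c₀, hc₀⟩ : ∃ x : ℝ, x = κ + n₀ + 3 := ⟨_, rfl⟩
  have hc₀3 : 3 ≤ c₀ := by rw [hc₀]; linarith
  obtain ⟨Bx, hBx⟩ : ∃ x : ℝ, x = (c₀ + 1) + cL * (c₀ + c₀ + 1 + 1) := ⟨_, rfl⟩
  have hBx0 : 0 ≤ Bx := by rw [hBx]; positivity
  have hDc : IsCompact (Set.Icc (0 : Unit ⊕ Fin n ⊕ Kd → ℝ) (fun _ => Bx)) := isCompact_Icc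
  have hKc : IsCompact {p' | p' ∈ Set.Icc (0 : Unit ⊕ Fin n ⊕ Kd → ℝ) (fun _ => Bx) ∧
      fconm n Gs z (p, p') ≤ 0} := hDc.inter_right
    (isClosed_le ((continuous_fconm n Gs z).comp (Continuous.prodMk_right p)) continuous_const)
  have hTc : Continuous (fun x : ℝ × (Fin n → ℝ) × (Kd → ℝ) =>
      E + (lf cF κ n₀ x.1 ((∑ i, x.2.1 i) + (x.2.2 .mo + x.2.2 .am)) + eF)) := by
    unfold lf; fun_prop
  have hBGs : ∀ x ∈ toX '' {p' | p' ∈ Set.Icc (0 : Unit ⊕ Fin n ⊕ Kd → ℝ) (fun _ => Bx) ∧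
      fconm n Gs z (p, p') ≤ 0}, BG D Φ x.1 (List.ofFn x.2.1) x.2.2
        (E + (lf cF κ n₀ x.1 ((∑ i, x.2.1 i) + (x.2.2 .mo + x.2.2 .am)) + eF)) := by
    rintro _ ⟨q, ⟨hq1, hq2⟩, rfl⟩
    have h3 := hBG q (fun i => hq1.1 i) hq2
    rw [← hκ', ← hn₀', smv_eq q] at h3
    exact h3
  obtain ⟨δ₁, hδ₁, hun⟩ := XG702.unifG (hKc.image continuous_toX) hTc.continuousOn hBGs
    (ε := ε / 8) (by linarith)
  have hlfn := lfn_nonneg cF
  have hn2 : (0 : ℝ) ≤ n := Nat.cast_nonneg n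
  obtain ⟨δ₂, hδ₂⟩ : ∃ x : ℝ, x = min δ₁ (ε / (8 * (lfn cF + 1) * (n + 3))) := ⟨_, rfl⟩
  have hδ₂0 : 0 < δ₂ := hδ₂ ▸ lt_min hδ₁ (by positivity)
  have hδ₂1 : δ₂ ≤ δ₁ := hδ₂ ▸ min_le_left _ _
  have hδ₂2 : δ₂ ≤ ε / (8 * (lfn cF + 1) * (n + 3)) := hδ₂ ▸ min_le_right _ _
  have hδ₂3 : lfn cF * ((n + 3) * δ₂) ≤ ε / 8 := by
    rw [le_div_iff₀ (by positivity)] at hδ₂2
    have : 0 ≤ (n + 3) * δ₂ := by positivity
    nlinarith
  obtain ⟨s, hs, hnear⟩ := XT71.near hDc (continuous_fconm n Gs z) p hδ₂0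
  obtain ⟨cG, hcG⟩ : ∃ x : ℝ, x = (Gs.card : ℝ) + (2 * n + 2) := ⟨_, rfl⟩
  have hcG1 : 1 ≤ cG := by rw [hcG]; linarith [Nat.cast_nonneg (α := ℝ) Gs.card]
  refine ev_small (b := min (s / cG) (min (δ₂ / 2) (1 / (n + 3))))
    (lt_min (by positivity) (lt_min (by positivity) (by positivity))) ?_
  intro σ hσ0 hσ
  have hσ1 : cG * σ ≤ s := by
    have h1 : σ ≤ s / cG := hσ.trans (min_le_left _ _)
    rw [le_div_iff₀ (by positivity)] at h1
    linarith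
  have hσ3 : σ ≤ δ₂ / 2 := hσ.trans ((min_le_right _ _).trans (min_le_left _ _))
  have hσ4 : (n + 3) * σ ≤ 1 := by
    have h1 : σ ≤ 1 / (n + 3) := hσ.trans ((min_le_right _ _).trans (min_le_right _ _))
    rw [le_div_iff₀ (by positivity)] at h1
    linarith
  have hσ5 : σ ≤ 1 := by nlinarith
  have hσs : σ ≤ s := by nlinarith
  intro lam N B B₀ hB₀
  obtain ⟨ρ', hρ', X₁, hX₁, hun2⟩ := hun lam N (B + B₀ + 1)
  obtain ⟨Ct, T', hCt, hT', htriv⟩ := triv lam (n + N)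
  obtain ⟨cB, hcB⟩ : ∃ x : ℝ, x = lfn cF * ((n + 3) * Bx + c₀) + |eF| := ⟨_, rfl⟩
  have hcB0 : 0 ≤ cB := by rw [hcB]; positivity
  refine ev_large (b := 2 * (T' * ((n + 3) * Bx) + |E| + cB + 1) / ρ') ?_
  intro M hM C r hC hr
  have hM0 : 0 ≤ M := le_trans (by positivity) hM
  refine ev_small (b := ρ' / 2) (by positivity) ?_
  intro δ' hδ'0 hδ'1
  have hr1 : ∀ᶠ X in (atTop : Filter ℝ), (N + 1) * (r / Real.log X) ≤ σ / 2 := by
    have h1 : Tendsto (fun X : ℝ => (N + 1 : ℝ) * (r / Real.log X)) atTop (𝓝 ((N + 1 : ℝ) * 0)) :=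
      (Real.tendsto_log_atTop.const_div_atTop r).const_mul _
    rw [mul_zero] at h1
    exact (h1.eventually (gt_mem_nhds (show (0 : ℝ) < σ / 2 by linarith))).mono fun X h => h.le
  filter_upwards [hr1, eventually_ge_atTop (max (max X₁ Ct) (max 3 C))] with X hrlog hX
  have x1 : X₁ ≤ X := ((le_max_left _ _).trans (le_max_left _ _)).trans hX
  have x3 : Ct ≤ X := ((le_max_right _ _).trans (le_max_left _ _)).trans hX
  have x5 : 3 ≤ X := ((le_max_left _ _).trans (le_max_right _ _)).trans hX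
  have x6 : C ≤ X := ((le_max_right _ _).trans (le_max_right _ _)).trans hX
  have hX1 : (1 : ℝ) < X := by linarith
  have hlog : 0 < Real.log X := Real.log_pos hX1
  intro k f gs hk hq hlump hgN hgσ hgood l ps' hl hps' hG hz
  exact child_boundm (N := N) (E := E) (ε := ε) (κ := κ) (n₀ := n₀) (c₀ := c₀) (cL := cL)
    (cB := cB) (Bx := Bx) (δ₁ := δ₁) (δ₂ := δ₂) (s := s) (σ := σ) (ρ' := ρ') (δ' := δ') (B := B)
    (B₀ := B₀) (Cb := C) (Ct := Ct) (T' := T') (M := M) (Gs := Gs) (z := z) (p := p)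
    (r := r) hcost hs1 hcL hGs hX1 hlog hε hκ'.symm hn₀'.symm (by rw [hc₀]) hκ hn₀0
    (by rw [hBx]) hnear
    (fun k us gs x hx h1 h2 h3 h4 => hun2 X x1 k us gs x hx h1 h2 h3 h4) hδ₂0 hδ₂1 hδ₂3 hσ0
    (by rw [← hcG]; exact hσ1) hσ3 hσ4 hσ5 hσs hcB hM hM0 hρ' hT' hr hδ'1 hrlog
    (by rw [Real.rpow_one]; exact x3) hCt htriv hk hq hlump hgN hgσ hgood hl hC x6 hps' hG hz

/-! ### the theorem -/

/-- the final count -/
lemma final_countm {X E ε εr C Jr Nr δ' S1 tv Ψv : ℝ} (hX1 : 1 < X)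
    (hε : 0 < ε) (hC : 0 ≤ C) (hJ : 0 ≤ Jr) (hS1 : 1 ≤ S1) (htv : tv / Real.log X ≤ E + ε / 8)
    (hεr2 : εr ≤ ε / 8) (hδ'2 : Nr * δ' * Jr ≤ ε / 8)
    (hS : S1 ≤ X ^ (Nr * δ')) (hC2 : 2 * C ≤ X ^ (ε / 8))
    (h : Ψv ≤ C * X ^ εr * S1 ^ Jr * (Real.exp tv + X ^ (E + ε / 2))) :
    Ψv ≤ X ^ (E + ε) := by
  have hX0 : 0 < X := by linarith
  have hlog : 0 < Real.log X := Real.log_pos hX1
  have h1 : X ^ εr ≤ X ^ (ε / 8) := Real.rpow_le_rpow_of_exponent_le hX1.le hεr2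
  have h2 : S1 ^ Jr ≤ X ^ (ε / 8) := by
    calc S1 ^ Jr ≤ (X ^ (Nr * δ')) ^ Jr := Real.rpow_le_rpow (by linarith) hS hJ
      _ = X ^ (Nr * δ' * Jr) := (Real.rpow_mul hX0.le _ _).symm
      _ ≤ _ := Real.rpow_le_rpow_of_exponent_le hX1.le hδ'2
  have h3 : Real.exp tv ≤ X ^ (E + ε / 2) := by
    rw [exp_eq_rpow hX0 hlog]
    exact Real.rpow_le_rpow_of_exponent_le hX1.le (by linarith)
  have hE0 : 0 ≤ X ^ (E + ε / 2) := Real.rpow_nonneg hX0.le _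
  have hS0 : 0 ≤ S1 ^ Jr := Real.rpow_nonneg (by linarith) _
  calc Ψv ≤ C * X ^ εr * S1 ^ Jr * (Real.exp tv + X ^ (E + ε / 2)) := h
    _ ≤ C * X ^ (ε / 8) * X ^ (ε / 8) * (X ^ (E + ε / 2) + X ^ (E + ε / 2)) := by gcongr
    _ = (2 * C) * X ^ (ε / 8) * X ^ (ε / 8) * X ^ (E + ε / 2) := by ring
    _ ≤ X ^ (ε / 8) * X ^ (ε / 8) * X ^ (ε / 8) * X ^ (E + ε / 2) := by gcongr
    _ = X ^ (ε / 8 + ε / 8 + ε / 8 + (E + ε / 2)) := by
        rw [Real.rpow_add hX0 (ε / 8 + ε / 8 + ε / 8), Real.rpow_add hX0 (ε / 8 + ε / 8),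
          Real.rpow_add hX0 (ε / 8) (ε / 8)]
    _ ≤ X ^ (E + ε) := Real.rpow_le_rpow_of_exponent_le hX1.le (by linarith)

lemma sum_get (u : List ℝ) : ∑ i, u.get i = u.sum := by
  conv_rhs => rw [← List.ofFn_get u]
  rw [List.sum_ofFn]

set_option maxHeartbeats 2000000 in
/-- **Transfer of analytic rules with several premises.** `X` is the base scale; the constants
`c.2`, `eF`, `a₂` are multiples of `log X`. -/
theorem ruleBGm {ι : Type*} [Finite ι] {Ψ : Lam → ℝ → List Pc → ℝ}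
    {Φ : ι → Lam → ℝ → List Pc → ℝ} (hcost : ∀ p' p, 1 ≤ cost p' p)
    (hs1 : ∀ p, 1 ≤ D.s1 p)
    {cF : ι → Fin 4 → ℝ} {eF : ι → ℝ} {Gs : ι → Finset ((Fin 4 → ℝ) × ℝ)}
    {Hs : Finset ((Fin 4 → ℝ) × ℝ)} {zl : ι → Prop} {a₀ a₁ a₂ cL : ℝ} (hcL : 0 ≤ cL)
    (hGs : ∀ (j : ι) (k n l n' s : ℝ), 0 ≤ k → 0 ≤ n → 0 ≤ l → 0 ≤ n' → 0 ≤ s →
      (∀ c ∈ Gs j, lf c.1 k n l n' + c.2 ≤ s) → l ≤ cL * (k + n + s + 1))
    (hmono : ∀ lam l l' ps, l ≤ l' → Ψ lam l ps ≤ Ψ lam l' ps)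
    (hrule : ∀ (lam : Lam) (N : ℕ) (c₀ : ℝ), 1 ≤ c₀ → ∃ B₀ : ℝ, 0 ≤ B₀ ∧ ∀ (ε M : ℝ), 0 < ε →
      0 ≤ M → ∃ C r J : ℝ, 0 ≤ C ∧ 0 ≤ r ∧ 0 ≤ J ∧
      ∀ X : ℝ, 3 ≤ X → ∀ (k : ℝ) (ps : List Pc), 0 ≤ k → k ≤ c₀ * Real.log X → ps.length ≤ N →
      (∀ p ∈ ps, 0 ≤ D.len p ∧ D.len p ≤ c₀ * Real.log X) →
      (∀ c ∈ Hs, lf c.1 k (LL D ps) 0 0 + c.2 * Real.log X ≤ ε * Real.log X) →
      ∀ Bd : ℝ, 0 ≤ Bd →
      (∀ (j : ι) (l : ℝ) (ps' : List Pc), 0 ≤ l →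
        List.Forall₂ (Chd D cost r (C * X ^ B₀)) ps' ps →
        (∀ c ∈ Gs j, lf c.1 k (LL D ps) l (LL D ps') + c.2 * Real.log X ≤
          r + ε * Real.log X) →
        (zl j → ∀ p ∈ ps', D.lump p → D.len p ≤ l + (r + ε * Real.log X)) →
        Φ j lam l ps' ≤ Bd * cst cost ps' ps ^ M *
          Real.exp (lf (cF j) k (LL D ps) l (LL D ps') + eF j * Real.log X)) →
      Ψ lam k ps ≤ C * X ^ ε * (ps.map D.s1).prod ^ J *
        (Real.exp (a₀ * k + a₁ * LL D ps + a₂ * Real.log X) + Bd))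
    (triv : ∀ (j : ι) (lam : Lam) (N : ℕ), ∃ C T : ℝ, 0 ≤ C ∧ 0 ≤ T ∧
      ∀ (l : ℝ) (ps : List Pc), 0 ≤ l → ps.length ≤ N → (∀ p ∈ ps, 0 ≤ D.len p) →
      Φ j lam l ps ≤ C * Real.exp (T * (l + LL D ps)))
    {κ : ℝ} {u : List ℝ} {m a E : ℝ} (hκ : 0 ≤ κ) (hu : Okl u m a)
    (hHs : ∀ c ∈ Hs, lf c.1 κ (u.sum + m + a) 0 0 + c.2 ≤ 0)
    (hE : a₀ * κ + a₁ * (u.sum + m + a) + a₂ ≤ E)
    (hch : ∀ (j : ι) (u' : List ℝ) (m' a' l : ℝ), Shl u' u → 0 ≤ m' → m' ≤ m → 0 ≤ a' →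
      a' ≤ a → 0 ≤ l →
      (∀ c ∈ Gs j, lf c.1 κ (u.sum + m + a) l (u'.sum + m' + a') + c.2 ≤ 0) →
      (zl j → ∀ y ∈ u', y ≤ l) →
      BG D (Φ j) l u' (wt m' a')
        (E + lf (cF j) κ (u.sum + m + a) l (u'.sum + m' + a') + eF j)) :
    BG D Ψ κ u (wt m a) E := by
  intro ε hε
  obtain ⟨hu0, hm, ha⟩ := hu
  obtain ⟨n, hn⟩ : ∃ n, n = u.length := ⟨_, rfl⟩
  obtain ⟨n₀, hn₀⟩ : ∃ x : ℝ, x = u.sum + m + a := ⟨_, rfl⟩
  rw [← hn₀] at hHs hE hch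
  have husum : 0 ≤ u.sum := List.sum_nonneg hu0
  have hn₀0 : 0 ≤ n₀ := by rw [hn₀]; linarith
  subst hn
  set n := u.length with hn
  obtain ⟨c₀, hc₀⟩ : ∃ x : ℝ, x = κ + n₀ + 3 := ⟨_, rfl⟩
  have hc₀3 : 3 ≤ c₀ := by rw [hc₀]; linarith
  set p : Unit ⊕ Fin n ⊕ Kd → ℝ := vec κ u.get (wt m a) with hp
  have hsp : smv p = n₀ := by
    rw [hp, smv_vec, hn₀, sum_get]
    show u.sum + (m + a) = _
    ring
  have hp0 : ∀ i, 0 ≤ p i := by
    rintro (⟨⟩ | i | t)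
    · exact hκ
    · exact hu0 _ (List.get_mem _ _)
    · cases t
      · exact hm
      · exact ha
  have hpκ : p (Sum.inl ()) = κ := rfl
  -- the premises
  have hfam : ∀ᶠ σ in 𝓝[>] (0 : ℝ), ∀ j, Fam D cost (Φ j) (cF j) (eF j) (Gs j) (zl j) p E ε σ := by
    rw [eventually_all]
    intro j
    refine fam (cL := cL) hcost hs1 hcL (hGs j) (triv j) hε hp0 ?_
    intro q hq0 hq2
    obtain ⟨h1, h2, h2'⟩ := fconm_le_zero hq2
    have hwt : (toX q).2.2 = wt (q (Sum.inr (Sum.inr .mo))) (q (Sum.inr (Sum.inr .am))) := by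
      funext t; cases t <;> rfl
    have hsum : (List.ofFn (toX q).2.1).sum + q (Sum.inr (Sum.inr .mo)) +
        q (Sum.inr (Sum.inr .am)) = smv q := by
      rw [smv_eq, List.sum_ofFn]
      show _ = _ + (q (Sum.inr (Sum.inr .mo)) + q (Sum.inr (Sum.inr .am)))
      ring
    have h3 := hch j (List.ofFn (toX q).2.1) (q (Sum.inr (Sum.inr .mo)))
      (q (Sum.inr (Sum.inr .am))) (q (Sum.inl ())) (shl_ofFn' (fun i => hq0 _) (fun i => h2 _))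
      (hq0 _) (h2 (Sum.inr .mo)) (hq0 _) (h2 (Sum.inr .am)) (hq0 _) (by
        intro c hc
        rw [hsum]
        have := h1 c hc
        rw [hsp] at this
        exact this) (by
        intro hz y hy
        obtain ⟨i, rfl⟩ := (List.mem_ofFn' _ _).1 hy
        exact h2' hz i)
    rw [hsum] at h3
    rw [hwt, hsp, ← add_assoc]
    exact h3
  have hn2 : (0 : ℝ) ≤ n := Nat.cast_nonneg n
  obtain ⟨ca, hca⟩ : ∃ x : ℝ, x = |a₀| + |a₁| * (n + 2) + 1 := ⟨_, rfl⟩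
  have hca0 : 0 < ca := by rw [hca]; positivity
  obtain ⟨σ, hσ0, hσb, hσ⟩ := exists_of_small (b := min (1 / (n + 3)) (ε / (8 * ca)))
    (lt_min (by positivity) (by positivity)) hfam
  have hσ4 : (n + 3) * σ ≤ 1 := by
    have h1 : σ ≤ 1 / (n + 3) := hσb.trans (min_le_left _ _)
    rw [le_div_iff₀ (by positivity)] at h1
    linarith
  have hσa : ca * σ ≤ ε / 8 := by
    have h1 : σ ≤ ε / (8 * ca) := hσb.trans (min_le_right _ _)
    rw [le_div_iff₀ (by positivity)] at h1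
    linarith
  have hσ5 : σ ≤ 1 := by nlinarith
  obtain ⟨εr, hεr⟩ : ∃ x : ℝ, x = min (σ / 2) (ε / 8) := ⟨_, rfl⟩
  have hεr0 : 0 < εr := hεr ▸ lt_min (by positivity) (by positivity)
  have hεr1 : εr ≤ σ / 2 := hεr ▸ min_le_left _ _
  have hεr2 : εr ≤ ε / 8 := hεr ▸ min_le_right _ _
  obtain ⟨cH, hcH⟩ : ∃ x : ℝ, x = (∑ c ∈ Hs, lfn c.1) + 1 := ⟨_, rfl⟩
  have hcHn : 0 ≤ ∑ c ∈ Hs, lfn c.1 := Finset.sum_nonneg fun c _ => lfn_nonneg _
  have hcH1 : 1 ≤ cH := by rw [hcH]; linarith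
  have hcHc : ∀ c ∈ Hs, lfn c.1 ≤ cH := by
    intro c hc
    have h1 : lfn c.1 ≤ ∑ c ∈ Hs, lfn c.1 :=
      Finset.single_le_sum (f := fun c : (Fin 4 → ℝ) × ℝ => lfn c.1)
        (fun c _ => lfn_nonneg c.1) hc
    rw [hcH]
    linarith
  obtain ⟨σp, hσp⟩ : ∃ x : ℝ, x = min σ (εr / (cH * (n + 2))) := ⟨_, rfl⟩
  have hσp0 : 0 < σp := hσp ▸ lt_min hσ0 (by positivity)
  have hσp1 : σp ≤ σ := hσp ▸ min_le_left _ _
  have hσp2 : cH * ((n + 2) * σp) ≤ εr := by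
    have h1 : σp ≤ εr / (cH * (n + 2)) := hσp ▸ min_le_right _ _
    rw [le_div_iff₀ (by positivity)] at h1
    linarith
  refine ⟨σp, hσp0, fun lam N B => ?_⟩
  obtain ⟨B₀, hB₀, hr1⟩ := hrule lam (n + N) c₀ (by linarith)
  obtain ⟨M, hM0, hM⟩ := exists_of_large 0
    (eventually_all.2 fun j => hσ j lam N B B₀ hB₀)
  obtain ⟨C, r, J, hC, hr, hJ, hR⟩ := hr1 εr M hεr0 hM0
  obtain ⟨δ', hδ'0, hδ'b, hδ'⟩ := exists_of_small
    (b := ε / (8 * (J + 1) * (((n + N : ℕ) : ℝ) + 1))) (by positivity)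
    (eventually_all.2 fun j => hM j C r hC hr)
  have hδ'2 : ((n + N : ℕ) : ℝ) * δ' * J ≤ ε / 8 := by
    rw [le_div_iff₀ (by positivity)] at hδ'b
    have h0 : (0 : ℝ) ≤ ((n + N : ℕ) : ℝ) := Nat.cast_nonneg _
    have h2 : ((n + N : ℕ) : ℝ) * J ≤ (J + 1) * (((n + N : ℕ) : ℝ) + 1) := by nlinarith
    have h3 := mul_le_mul_of_nonneg_left h2 hδ'0.le
    nlinarith
  have hr2 : ∀ᶠ X in (atTop : Filter ℝ), r / Real.log X ≤ σ / 2 := by
    have h1 : Tendsto (fun X : ℝ => r / Real.log X) atTop (𝓝 0) :=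
      Real.tendsto_log_atTop.const_div_atTop r
    exact (h1.eventually (gt_mem_nhds (show (0 : ℝ) < σ / 2 by linarith))).mono fun X h => h.le
  have hC2 : ∀ᶠ X in (atTop : Filter ℝ), 2 * C ≤ X ^ (ε / 8) :=
    (tendsto_rpow_atTop (by linarith)).eventually_ge_atTop _
  obtain ⟨X₀, hX₀⟩ := eventually_atTop.1 ((eventually_all.2 hδ').and (hr2.and hC2))
  refine ⟨δ', hδ'0, max X₀ 3, lt_of_lt_of_le (by norm_num) (le_max_right _ _), ?_⟩
  intro X hX k us gs hk hnr hgran hgood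
  obtain ⟨hfX, hrX, hCX⟩ := hX₀ X ((le_max_left _ _).trans hX)
  have x5 : 3 ≤ X := (le_max_right _ _).trans hX
  have hX1 : (1 : ℝ) < X := by linarith
  have hX0 : (0 : ℝ) < X := by linarith
  have hlog : 0 < Real.log X := Real.log_pos hX1
  -- the parent
  have hlenus : us.length = n := by
    have := List.Forall₂.length_eq hnr
    rw [this]
  obtain ⟨f, rfl⟩ := exists_eq_ofFn us hlenus
  have hnr' : D.Near X σp (List.ofFn f) (List.ofFn u.get) := by rwa [List.ofFn_get]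
  unfold Pcs.Near at hnr'
  rw [forall₂_ofFn_iff] at hnr'
  obtain ⟨k₁, hk₁⟩ : ∃ x : ℝ, x = max k 0 * Real.log X := ⟨_, rfl⟩
  have hk₁0 : 0 ≤ k₁ := by rw [hk₁]; exact mul_nonneg (le_max_right _ _) hlog.le
  have hkk : k * Real.log X ≤ k₁ := by
    rw [hk₁]; exact mul_le_mul_of_nonneg_right (le_max_left _ _) hlog.le
  have hk₁l : k₁ / Real.log X = max k 0 := by rw [hk₁, mul_div_cancel_right₀ _ hlog.ne']
  have hmaxk : |max k 0 - κ| ≤ σp := by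
    rw [abs_le] at hk ⊢
    constructor
    · linarith [hk.1, le_max_left k 0]
    · have := max_le (show k ≤ κ + σp by linarith [hk.2]) (show 0 ≤ κ + σp by linarith)
      linarith
  have hq : ∀ i, |evv D X k₁ f gs i - p i| ≤ σp := by
    rintro (⟨⟩ | i | t)
    · show |k₁ / Real.log X - κ| ≤ σp
      rw [hk₁l]; exact hmaxk
    · exact (hnr' i).2
    · exact hgran.2.2 t
  have hg1 : ∀ q ∈ List.ofFn f ++ gs, 0 ≤ D.len q := fun q hq => (hgood q hq).2.2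
  have hf0 : ∀ i, 0 ≤ D.len (f i) := fun i =>
    hg1 (f i) (List.mem_append_left _ ((List.mem_ofFn' _ _).2 ⟨i, rfl⟩))
  have hg0 : ∀ g ∈ gs, 0 ≤ D.len g := fun g hg => hg1 g (List.mem_append_right _ hg)
  have hsm : |smv (evv D X k₁ f gs) - n₀| ≤ (n + 2) * σp := by
    have h3 := abs_smv_sub (q := evv D X k₁ f gs) (q' := p) hq
    rwa [hsp] at h3
  have hsm1 := (abs_le.1 hsm).2
  have hnσ : (n + 2) * σp ≤ (n + 2) * σ := mul_le_mul_of_nonneg_left hσp1 (by positivity)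
  have hLL : LL D (List.ofFn f ++ gs) / Real.log X ≤ n₀ + (n + 2) * σ := by
    rw [← smv_evv]; linarith
  have hLLi : ∀ q ∈ List.ofFn f ++ gs, D.len q ≤ LL D (List.ofFn f ++ gs) := by
    intro q hq
    unfold LL
    exact List.single_le_sum (fun x hx => by
      obtain ⟨y, hy, rfl⟩ := List.mem_map.1 hx
      exact hg1 y hy) _ (List.mem_map.2 ⟨q, hq, rfl⟩)
  have hLLc : LL D (List.ofFn f ++ gs) ≤ c₀ * Real.log X := by
    rw [div_le_iff₀ hlog] at hLL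
    refine hLL.trans (mul_le_mul_of_nonneg_right ?_ hlog.le)
    rw [hc₀]
    linarith
  have hcnt : (List.ofFn f ++ gs).length ≤ n + N := by
    rw [List.length_append, List.length_ofFn]
    exact Nat.add_le_add_left hgran.1 n
  have hσ2p : σp ≤ (n + 2) * σp := by nlinarith
  have hparent : ∀ c ∈ Hs, lf c.1 k₁ (LL D (List.ofFn f ++ gs)) 0 0 + c.2 * Real.log X ≤
      εr * Real.log X := by
    intro c hc
    have h1 := abs_lf_sub (c := c.1) (k := k₁ / Real.log X)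
      (n := smv (evv D X k₁ f gs)) (l := 0) (n' := 0) (k₁ := κ) (n₁ := n₀) (l₁ := 0) (n₁' := 0)
      (δ := (n + 2) * σp) (by rw [hk₁l]; exact hmaxk.trans hσ2p) hsm (by simp; positivity)
      (by simp; positivity)
    have h2 := (abs_le.1 h1).2
    have h3 := hHs c hc
    have h4 : lfn c.1 * ((n + 2) * σp) ≤ εr :=
      (mul_le_mul_of_nonneg_right (hcHc c hc) (by positivity)).trans hσp2
    have h5 : lf c.1 (k₁ / Real.log X) (smv (evv D X k₁ f gs)) 0 0 + c.2 ≤ εr := by linarith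
    have e : lf c.1 (k₁ / Real.log X) (smv (evv D X k₁ f gs)) 0 0 + c.2 =
        (lf c.1 k₁ (LL D (List.ofFn f ++ gs)) 0 0 + c.2 * Real.log X) / Real.log X := by
      rw [smv_evv]
      have := lf_div c.1 k₁ (LL D (List.ofFn f ++ gs)) 0 0 (Real.log X)
      rw [zero_div] at this
      rw [this]
      field_simp
    rw [e, div_le_iff₀ hlog] at h5
    exact h5
  have hslack : r + εr * Real.log X ≤ σ * Real.log X := by
    rw [div_le_iff₀ hlog] at hrX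
    have := mul_le_mul_of_nonneg_right hεr1 hlog.le
    linarith
  have hfinal := hR X x5 k₁ (List.ofFn f ++ gs) hk₁0 (by
      rw [hk₁]
      refine mul_le_mul_of_nonneg_right ?_ hlog.le
      rw [hc₀]
      linarith [(abs_le.1 hmaxk).2]) hcnt (fun q hq => ⟨hg1 q hq, (hLLi q hq).trans hLLc⟩)
      hparent (X ^ (E + ε / 2)) (Real.rpow_nonneg hX0.le _)
      (fun j l ps' hl hps' hG hz => hfX j k₁ f gs hk₁0 (fun i => (hq i).trans hσp1)
        (fun i => (hnr' i).1) hgran.1 (fun g hg => (hgran.2.1 g hg).trans hσp1) hgood l ps' hl hps'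
        (fun c hc => (hG c hc).trans hslack)
        (fun hzj q hq1 hq2 => (hz hzj q hq1 hq2).trans (by linarith)))
  refine (hmono lam _ _ _ hkk).trans ?_
  refine final_countm (Nr := ((n + N : ℕ) : ℝ)) hX1 hε hC hJ
    (one_le_prod_s1 hs1 _) ?_ hεr2 hδ'2
    (prod_s1_le hs1 hX1.le hδ'0.le _ (fun q hq => (hgood q hq).1) hcnt) hCX hfinal
  -- the trivial term
  have e : (a₀ * k₁ + a₁ * LL D (List.ofFn f ++ gs) + a₂ * Real.log X) / Real.log X =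
      a₀ * (k₁ / Real.log X) + a₁ * smv (evv D X k₁ f gs) + a₂ := by
    rw [smv_evv]; field_simp
  rw [e, hk₁l]
  have h1 : a₀ * (max k 0 - κ) ≤ |a₀| * σ := by
    calc a₀ * (max k 0 - κ) ≤ |a₀ * (max k 0 - κ)| := le_abs_self _
      _ = |a₀| * |max k 0 - κ| := abs_mul _ _
      _ ≤ _ := mul_le_mul_of_nonneg_left (hmaxk.trans hσp1) (abs_nonneg _)
  have h2 : a₁ * (smv (evv D X k₁ f gs) - n₀) ≤ |a₁| * ((n + 2) * σ) := by
    calc a₁ * (smv (evv D X k₁ f gs) - n₀) ≤ |a₁ * (smv (evv D X k₁ f gs) - n₀)| := le_abs_self _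
      _ = |a₁| * |smv (evv D X k₁ f gs) - n₀| := abs_mul _ _
      _ ≤ _ := mul_le_mul_of_nonneg_left (hsm.trans hnσ) (abs_nonneg _)
  have h3 : ca * σ = |a₀| * σ + |a₁| * ((n + 2) * σ) + σ := by rw [hca]; ring
  rw [h3] at hσa
  nlinarith

end Crest.Agent.R017.RuleM545
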