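import Crest.Agent.R017.Rw4_266

/-!
# Row 17, sextic F2: the functional equation of `rowA` from a vector pair (helper266)

* `feV` : `E_{a,F} = Σ_k E_{a'_k, F'_k}` for `a = rowA (ψ γ)`, `a'_k = rowA (gdual ψ γ (R0 · rep k))`
* `bdd_wK`, `bdd_wM`, `wK_eq`, `wM_eq` : the weights
-/

set_option autoImplicit false

noncomputable section

open Complex
open scoped ComplexConjugate

namespace Crest.Agent.R017.Rw266

open Crest.Agent.R012 Crest.Agent.R012.Eis Crest.Agent.R012.Gauss880 Crest.Agent.R017.Loc266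
open Crest.Agent.R012.K695 Crest.Agent.R012.AU681
open Crest.Agent.R017.Sx440 Crest.Agent.R017.Kub664 Crest.Agent.R017.Tw266
open Crest.Agent.R017.Orth681 Crest.Agent.R017.Glue681 Crest.Agent.R017.GlueV266
open Crest.Agent.R012.Parseval499

variable {N : Eis} {K : Type} [AddCommGroup K] [Fintype K] [DecidableEq K] {R0 : Eis}
  {rep : K → Eis} {cl : Eis → Option K}

/-- **Functional equation of `rowA` from a vector pair.** -/
theorem feV (hN : Lev N) {x : Eis} {s : ℂ} (hs : s = 1 ∨ s = -1) {ψ γ : Eis → ℂ}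
    (hψ : IsCh N ψ) (hγ : Gm N γ) (C : Cls N K R0 rep cl) (hV : Van N x s ψ γ cl)
    {F : Vec → ℂ} {F' : K → Vec → ℂ}
    (hp : PairV s (0 : K) (fun k h => (covol (toC N) : ℂ)⁻¹ * wK N x s ψ γ cl k h)
      (fun k m h => (covol (toC N) : ℂ)⁻¹ * wM N x s ψ γ rep cl k m h) F F')
    {M : K695.Frm} (hM : det2 M ≠ 0) :
    EC (rowA N x (fun c => ψ c * γ c)) F M =
      ∑ k, EC (rowA N x (gdual ψ γ (R0 * rep k))) (F1.scl (det2 M) (F' k)) M := by
  refine glueV hN.ne (χ := chiA N) (norm_chiA hN) (Rg := RgA N) (m₀ := (0 : K))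
    (am := fun m => rowA N x (gT ψ γ (rep m))) ?_ (cof_psi hN x hψ hγ)
    (fun k => cof_gdual hN x hψ hγ (C.ss0.mul (C.ss k)))
    (fun g hg => rowA_ne_zero hg) (fun k g hg => rowA_ne_zero hg)
    (lawV_fwd hN hψ hγ C hV) (fun k => lawV_bwd hN hs hψ hγ C hV k)
    (fun g hg => unitAt_rowA hg) (fun k g hg => unitAt_rowA hg) hp hM
  refine rowA_congr fun c hc hcN => ?_
  unfold gT
  rw [C.zero hc hcN, mul_one]

omit [Fintype K] [DecidableEq K] in
lemma bdd_wK (hN : Lev N) {x : Eis} {s : ℂ} (hs : s = 1 ∨ s = -1) {ψ γ : Eis → ℂ}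
    (hψ : IsCh N ψ) (hγ : Gm N γ) (k : K) : Bdd (wK N x s ψ γ cl k) := by
  classical
  have hs1 : ‖s‖ ≤ 1 := by rcases hs with rfl | rfl <;> simp
  obtain ⟨B, hB⟩ := bdd_WfG hN (x := x) hs1 (g := fun c => ψ c * γ c) (ξ := xiA ψ γ)
    (fun c hc hcN => by
      rw [norm_mul, norm_isCh hN.ne hψ hcN, hγ.norm c hc.2, mul_one])
    (fun j hj hjN => by
      unfold xiA
      rw [norm_mul, norm_pow, norm_isCh hN.ne hψ hjN, hγ.norm _ (hj.pow 6).2]; simp)
  refine ⟨max B 0, fun h => ?_⟩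
  unfold wK
  split_ifs
  · exact (hB h).trans (le_max_left _ _)
  · rw [norm_zero]; exact le_max_right _ _

omit [Fintype K] [DecidableEq K] in
lemma bdd_wM (hN : Lev N) {x : Eis} {s : ℂ} (hs : s = 1 ∨ s = -1) {ψ γ : Eis → ℂ}
    (hψ : IsCh N ψ) (hγ : Gm N γ) (C : Cls N K R0 rep cl) (k m : K) :
    Bdd (wM N x s ψ γ rep cl k m) := by
  classical
  have hs1 : ‖s‖ ≤ 1 := by rcases hs with rfl | rfl <;> simp
  obtain ⟨B, hB⟩ := bdd_WfG hN (x := x) hs1 (g := gT ψ γ (rep m)) (ξ := xiA ψ γ)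
    (fun c hc hcN => by
      unfold gT
      rw [norm_mul, norm_mul, norm_isCh hN.ne hψ hcN, hγ.norm c hc.2,
        norm_sy' hc ((C.ss m).cop hcN)]; norm_num)
    (fun j hj hjN => by
      unfold xiA
      rw [norm_mul, norm_pow, norm_isCh hN.ne hψ hjN, hγ.norm _ (hj.pow 6).2]; simp)
  refine ⟨max B 0, fun h => ?_⟩
  unfold wM
  split_ifs
  · rw [norm_mul, RCLike.norm_conj]
    calc ‖s‖ * ‖WfG N x s (gT ψ γ (rep m)) (xiA ψ γ) h‖ ≤ 1 * max B 0 :=
          mul_le_mul hs1 ((hB h).trans (le_max_left _ _)) (norm_nonneg _) zero_le_one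
      _ = max B 0 := one_mul _
  · rw [norm_zero]; exact le_max_right _ _

/-- value of the weight at `hS j⁶` -/
lemma wK_eq {x : Eis} {s : ℂ} {ψ γ : Eis → ℂ} {hS j : Eis} (D : Dec N hS j) (k : K) :
    wK N x s ψ γ cl k (hS * j ^ 6) =
      if cl hS = some k then (F1.PL j : ℂ) * (xiA ψ γ j * WS N x s (fun c => ψ c * γ c) hS) else 0 := by
  classical
  unfold wK
  rw [(sp_eq D).1, WfG_eq D]
  congr

lemma wM_eq {x : Eis} {s : ℂ} {ψ γ : Eis → ℂ} {hS j : Eis} (D : Dec N hS j) (k m : K) :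
    wM N x s ψ γ rep cl k m (hS * j ^ 6) =
      if cl hS = some (k - m) then
        s * conj ((F1.PL j : ℂ) * (xiA ψ γ j * WS N x s (gT ψ γ (rep m)) hS)) else 0 := by
  classical
  unfold wM
  rw [(sp_eq D).1, WfG_eq D]
  congr

/-- the weights vanish at `h` not of the form `hS j⁶`. -/
lemma wK_zero {x : Eis} {s : ℂ} {ψ γ : Eis → ℂ} {h : Eis} (hd : ¬ SD N h) (k : K) :
    wK N x s ψ γ cl k h = 0 := by
  classical
  unfold wK WfG
  rw [if_neg hd, ite_self]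

lemma wM_zero {x : Eis} {s : ℂ} {ψ γ : Eis → ℂ} {h : Eis} (hd : ¬ SD N h) (k m : K) :
    wM N x s ψ γ rep cl k m h = 0 := by
  classical
  unfold wM WfG
  rw [if_neg hd, map_zero, mul_zero, ite_self]

end Crest.Agent.R017.Rw266
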