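import Crest.Agent.R017.BL5defs_868
import Crest.Agent.R017.BL7c_868
import Crest.Agent.R017.Eul_571
import Crest.Agent.R012.SumMod_880

/-!
# Row 17, leaf S3 of L5, part a: the divisor sums `El l D` (helper571)
-/

set_option autoImplicit false

noncomputable section

open MeasureTheory Complex Set
open scoped ComplexConjugate ContDiff

namespace Crest.Agent.R017.S3571

open Crest.Agent.R012 Crest.Agent.R012.Eis Crest.Agent.R012.Mob705 Crest.Agent.R012.Div277
open Crest.Agent.R017.End699 Crest.Agent.R017.Sx545 Crest.Agent.R017.B770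
open Crest.Agent.R017.L5 Crest.Agent.R017.Eul571 Crest.Agent.R012.SumMod880

/-! ### periodicity -/

lemma tk_per {b : Eis} (hb : b ≠ 0) : Per b (fun k => tk k b 1) := by
  rintro x y ⟨t, ht⟩
  have hb' : toC b ≠ 0 := by rwa [Ne, toC_eq_zero]
  have hx : x = y + b * t := by linear_combination ht
  simp only [tk]
  congr 1
  apply sumMod_congr'
  intro a
  congr 1
  have e : -(toC a * toC x / (toC b * toC 1)) = -(toC a * toC y / (toC b * toC 1)) + toC (-(a * t)) := by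
    rw [hx, map_add, map_mul, map_one, map_neg, map_mul]
    field_simp
    ring
  rw [e, eC_add_toC]

lemma per_cube {c : Eis} {f : Eis → ℂ} (hf : Per c f) : Per c (fun l => f (l ^ 3)) := by
  intro x y h
  refine hf _ _ ?_
  have e : x ^ 3 - y ^ 3 = (x - y) * (x ^ 2 + x * y + y ^ 2) := by ring
  rw [e]
  exact h.mul_right _

lemma El_per {D : Eis} (hD : D ≠ 0) : Per D (fun l => El l D) := by
  intro x y h
  simp only [El]
  refine Finset.sum_congr rfl fun b hb => ?_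
  have hb0 : b ≠ 0 := (isPrim_of_mem_dvs hb).ne_zero
  exact per_cube (tk_per hb0) x y ((dvd_of_mem_dvs hb).trans h)

/-! ### multiplicativity -/

lemma dvs_one' : dvs (1 : Eis) = {1} := by
  ext d
  rw [mem_dvs one_ne_zero, Finset.mem_singleton]
  constructor
  · rintro ⟨h1, h2⟩
    exact Mob705.isPrim_eq_one_of_isUnit h1 (isUnit_of_dvd_one h2)
  · rintro rfl
    exact ⟨isPrim_one, dvd_refl _⟩

lemma El_one (H : TkAlg) (l : Eis) : El l 1 = 1 := by
  unfold El
  rw [dvs_one', Finset.sum_singleton, H.one]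

lemma El_mul (H : TkAlg) (l : Eis) {b c : Eis} (hb : Sm 2 b) (hc : Sm 2 c) (hbc : IsCoprime b c) :
    El l (b * c) = El l b * El l c := by
  unfold El
  rw [Crest.Agent.R017.BL7.sum_dvs_mul hb.ne_zero hc.ne_zero hbc, Finset.sum_comm, Finset.sum_mul_sum]
  refine Finset.sum_congr rfl fun x hx => Finset.sum_congr rfl fun y hy => ?_
  have hxS : Sm 2 x := hb.of_dvd (isPrim_of_mem_dvs hx) (dvd_of_mem_dvs hx)
  have hyS : Sm 2 y := hc.of_dvd (isPrim_of_mem_dvs hy) (dvd_of_mem_dvs hy)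
  have hxy : IsCoprime x y :=
    (hbc.of_isCoprime_of_dvd_left (dvd_of_mem_dvs hx)).of_isCoprime_of_dvd_right
      (dvd_of_mem_dvs hy)
  have h := H.mul (l ^ 3) x y 1 1 hxS hyS (Sm.one 2) (Sm.one 2) (by rwa [mul_one, mul_one])
  rw [mul_one] at h
  exact h

lemma dvs_pow {p : Eis} (hp : IsPP p) (k : ℕ) :
    dvs (p ^ k) = (Finset.range (k + 1)).image (fun i => p ^ i) := by
  classical
  ext d
  rw [mem_dvs (pow_ne_zero k hp.ne_zero), Finset.mem_image]
  constructor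
  · rintro ⟨h1, h2⟩
    obtain ⟨i, hi, hd⟩ := (dvd_prime_pow hp.prime k).mp h2
    refine ⟨i, Finset.mem_range.mpr (by omega), ?_⟩
    exact ((hp.isPrim.pow i).eq_of_associated h1 hd.symm)
  · rintro ⟨i, hi, rfl⟩
    exact ⟨hp.isPrim.pow i, pow_dvd_pow p (by have := Finset.mem_range.mp hi; omega)⟩

lemma pow_inj {p : Eis} (hp : IsPP p) : Function.Injective (fun i : ℕ => p ^ i) := by
  intro i j h
  have h1 : nm p ^ i = nm p ^ j := by
    rw [← nm_pow, ← nm_pow]; exact congrArg nm h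
  exact Nat.pow_right_injective hp.one_lt_nm h1

lemma El_pow {p : Eis} (hp : IsPP p) (l : Eis) (k : ℕ) :
    El l (p ^ k) = ∑ i ∈ Finset.range (k + 1), tk (l ^ 3) (p ^ i) 1 := by
  unfold El
  rw [dvs_pow hp, Finset.sum_image (fun x _ y _ h => pow_inj hp h)]

/-! ### the local bound -/

/-- good exponents -/
def Good (i : ℕ) : Prop := i % 4 = 1 ∨ i % 6 = 0

instance (i : ℕ) : Decidable (Good i) := by unfold Good; infer_instance

/-- `c(i) = ⌈s(i)/3⌉` -/
def cE (i : ℕ) : ℕ := (sE i + 2) / 3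

lemma Good.five_le {i : ℕ} (h : Good i) (h2 : 2 ≤ i) : 5 ≤ i := by
  unfold Good at h; omega

lemma cE_pos {i : ℕ} (h : Good i) (h2 : 2 ≤ i) : 1 ≤ cE i := by
  have h5 := h.five_le h2
  unfold Good at h
  unfold cE sE
  split_ifs with h1 <;> omega

lemma cE_le {i : ℕ} (h : Good i) (h2 : 2 ≤ i) : cE i ≤ i := by
  have h5 := h.five_le h2
  unfold Good at h
  unfold cE sE
  split_ifs with h1 <;> omega

lemma dvd_of_pow_dvd_cube {p l : Eis} (hp : Prime p) {s : ℕ} (h : p ^ s ∣ l ^ 3) :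
    p ^ ((s + 2) / 3) ∣ l := by
  rcases eq_or_ne l 0 with rfl | hl
  · exact dvd_zero _
  obtain ⟨v, l', hl', hlv⟩ := WfDvdMonoid.max_power_factor hl hp.irreducible
  have h1 : s ≤ 3 * v := by
    by_contra hlt
    push Not at hlt
    have h2 : p ^ (3 * v + 1) ∣ l ^ 3 := (pow_dvd_pow p (by omega)).trans h
    rw [hlv, mul_pow, ← pow_mul, mul_comm v 3, pow_succ] at h2
    have h3 := (mul_dvd_mul_iff_left (pow_ne_zero _ hp.ne_zero)).mp h2
    exact hl' (hp.dvd_of_dvd_pow h3)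
  rw [hlv]
  exact (pow_dvd_pow p (by omega)).mul_right _

lemma sy_cube_one {p l : Eis} (hp : IsPP p) (h : ¬ p ∣ l) : sy (l ^ 3) p = 1 := by
  have h1 := Sym645.prim_nm_mod hp.isPrim
  rw [Sym645.sy_pow_left h1]
  exact Sym645.sy_cube h1 ((hp.isCoprime_iff).mpr h).symm

lemma sy_cube_zero {p l : Eis} (hp : IsPP p) (h : p ∣ l) : sy (l ^ 3) p = 0 := by
  rw [Sym645.sy_eq_zero_iff (Sym645.prim_nm_mod hp.isPrim)]
  intro hc
  have : IsCoprime p (l ^ 3) := hc.symm
  rw [hp.isCoprime_iff] at this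
  exact this (h.trans (dvd_pow_self l (by norm_num)))

open Classical in
/-- the majorant of `‖El l (p^k)‖` -/
def Wm (p l : Eis) (k : ℕ) : ℝ :=
  (if p ∣ l then 1 else 0) + ∑ i ∈ (Finset.Icc 2 k).filter Good,
    (nm p : ℝ) ^ ((sE i : ℝ) + 1 / 2) * (if p ^ cE i ∣ l then 1 else 0)

lemma Wm_nonneg (p l : Eis) (k : ℕ) : 0 ≤ Wm p l k := by
  unfold Wm
  refine add_nonneg (by split_ifs <;> norm_num) (Finset.sum_nonneg fun i _ => ?_)
  refine mul_nonneg (by positivity) (by split_ifs <;> norm_num)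

lemma tk_zero_of_not_good (H : TkAlg) {k p : Eis} (hp : Sm 2 p) (hpp : Prime p) {i : ℕ}
    (hi : 2 ≤ i) (h : ¬ Good i) : tk k (p ^ i) 1 = 0 := by
  unfold Good at h
  push Not at h
  exact H.pow0 k p i hp hpp hi h.1 h.2

open Classical in
lemma tk_le_ind (H : TkAlg) {l p : Eis} (hp : Sm 2 p) (hpp : Prime p) {i : ℕ} (hi : 2 ≤ i) :
    ‖tk (l ^ 3) (p ^ i) 1‖ ≤
      (nm p : ℝ) ^ ((sE i : ℝ) + 1 / 2) * (if p ^ cE i ∣ l then 1 else 0) := by
  by_cases h : p ^ cE i ∣ l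
  · rw [if_pos h, mul_one]
    exact H.pow2 _ p i hp hpp hi
  · rw [if_neg h, mul_zero]
    rw [H.pow1 (l ^ 3) p i hp hpp hi (fun h' => h (dvd_of_pow_dvd_cube hpp h')), norm_zero]

theorem El_le (H : TkAlg) {l p : Eis} (hp : Sm 2 p) (hpp : Prime p) {k : ℕ} (hk : 1 ≤ k) :
    ‖El l (p ^ k)‖ ≤ Wm p l k := by
  classical
  have hPP : IsPP p := ⟨hp.1, hpp⟩
  have h1 : El l (p ^ k) = 1 - sy (l ^ 3) p + ∑ i ∈ (Finset.Icc 2 k).filter Good,
      tk (l ^ 3) (p ^ i) 1 := by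
    rw [El_pow hPP, Finset.range_eq_Ico, Finset.sum_eq_sum_Ico_succ_bot (by omega),
      Finset.sum_eq_sum_Ico_succ_bot (by omega)]
    rw [pow_zero, H.one]
    rw [zero_add, pow_one, H.b1 (l ^ 3) p hp hpp.squarefree, muE_prime hpp]
    have h2 : ∑ i ∈ Finset.Ico (1 + 1) (k + 1), tk (l ^ 3) (p ^ i) 1 =
        ∑ i ∈ (Finset.Icc 2 k).filter Good, tk (l ^ 3) (p ^ i) 1 := by
      have h3 : Finset.Ico (1 + 1) (k + 1) = Finset.Icc 2 k := by
        ext i; rw [Finset.mem_Ico, Finset.mem_Icc]; omega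
      rw [h3, Finset.sum_filter_of_ne]
      intro i hi hne
      by_contra hg
      exact hne (tk_zero_of_not_good H hp hpp (Finset.mem_Icc.mp hi).1 hg)
    rw [h2]
    push_cast
    ring
  rw [h1]
  unfold Wm
  refine (norm_add_le _ _).trans (add_le_add ?_ ?_)
  · by_cases h : p ∣ l
    · rw [sy_cube_zero hPP h, if_pos h]; simp
    · rw [sy_cube_one hPP h, if_neg h]; simp
  · refine (norm_sum_le _ _).trans (Finset.sum_le_sum fun i hi => ?_)
    exact tk_le_ind H hp hpp (Finset.mem_Icc.mp (Finset.mem_filter.mp hi).1).1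

end Crest.Agent.R017.S3571
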