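import Crest.Agent.R017.S3a_571

/-!
# Row 17, leaf S3 of L5, part b: mean values of `|El l D|` (helper571)
-/

set_option autoImplicit false

noncomputable section

open MeasureTheory Complex Set
open scoped ComplexConjugate ContDiff

namespace Crest.Agent.R017.S3571

open Crest.Agent.R012 Crest.Agent.R012.Eis Crest.Agent.R012.Mob705 Crest.Agent.R012.Div277
open Crest.Agent.R017.End699 Crest.Agent.R017.Sx545 Crest.Agent.R017.B770
open Crest.Agent.R017.L5 Crest.Agent.R017.Eul571 Crest.Agent.R012.SumMod880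

/-! ### real valued sums over residue classes -/

/-- real version of `sumMod` -/
def SR (c : Eis) (f : Eis → ℝ) : ℝ := ∑ᶠ q : Q c, f (Quotient.out q)

lemma SR_eq_sum {c : Eis} [Fintype (Q c)] (f : Eis → ℝ) :
    SR c f = ∑ q : Q c, f (Quotient.out q) := by
  unfold SR
  rw [finsum_eq_sum_of_fintype]

lemma sumMod_ofReal {c : Eis} (hc : c ≠ 0) (f : Eis → ℝ) :
    sumMod c (fun x => ((f x : ℝ) : ℂ)) = ((SR c f : ℝ) : ℂ) := by
  have := finQ hc
  have : Fintype (Q c) := Fintype.ofFinite _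
  rw [SumMod880.sumMod_eq_sum, SR_eq_sum]
  push_cast
  rfl

lemma SR_mono {c : Eis} (hc : c ≠ 0) {f g : Eis → ℝ} (h : ∀ x, f x ≤ g x) : SR c f ≤ SR c g := by
  have := finQ hc
  have : Fintype (Q c) := Fintype.ofFinite _
  rw [SR_eq_sum, SR_eq_sum]
  exact Finset.sum_le_sum fun q _ => h _

lemma SR_nonneg {c : Eis} (hc : c ≠ 0) {f : Eis → ℝ} (h : ∀ x, 0 ≤ f x) : 0 ≤ SR c f := by
  have := finQ hc
  have : Fintype (Q c) := Fintype.ofFinite _
  rw [SR_eq_sum]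
  exact Finset.sum_nonneg fun q _ => h _

lemma norm_sumMod_le_SR {c : Eis} (hc : c ≠ 0) (f : Eis → ℂ) :
    ‖sumMod c f‖ ≤ SR c (fun x => ‖f x‖) := by
  have := finQ hc
  have : Fintype (Q c) := Fintype.ofFinite _
  rw [SumMod880.sumMod_eq_sum, SR_eq_sum]
  exact norm_sum_le Finset.univ (fun q : Q c => f (Quotient.out q))

lemma SR_congr {c : Eis} {f g : Eis → ℝ} (h : ∀ x, f x = g x) : SR c f = SR c g := by
  rw [show f = g from funext h]

lemma SR_add {c : Eis} (hc : c ≠ 0) (f g : Eis → ℝ) :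
    SR c (fun x => f x + g x) = SR c f + SR c g := by
  have := finQ hc
  have : Fintype (Q c) := Fintype.ofFinite _
  rw [SR_eq_sum, SR_eq_sum, SR_eq_sum, Finset.sum_add_distrib]

lemma SR_const_mul {c : Eis} (hc : c ≠ 0) (a : ℝ) (f : Eis → ℝ) :
    SR c (fun x => a * f x) = a * SR c f := by
  have := finQ hc
  have : Fintype (Q c) := Fintype.ofFinite _
  rw [SR_eq_sum, SR_eq_sum, Finset.mul_sum]

lemma SR_finset_sum {c : Eis} (hc : c ≠ 0) {ι : Type*} (s : Finset ι) (f : ι → Eis → ℝ) :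
    SR c (fun x => ∑ i ∈ s, f i x) = ∑ i ∈ s, SR c (f i) := by
  have := finQ hc
  have : Fintype (Q c) := Fintype.ofFinite _
  simp only [SR_eq_sum]
  rw [Finset.sum_comm]

/-- periodicity (real functions) -/
def PerR (c : Eis) (f : Eis → ℝ) : Prop := ∀ x y, c ∣ x - y → f x = f y

lemma PerR.per {c : Eis} {f : Eis → ℝ} (h : PerR c f) : Per c (fun x => ((f x : ℝ) : ℂ)) :=
  fun x y hxy => by simp only [h x y hxy]

lemma SR_mul_coprime {c d : Eis} (hc : c ≠ 0) (hd : d ≠ 0) (hcd : IsCoprime c d)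
    {f g : Eis → ℝ} (hf : PerR c f) (hg : PerR d g) :
    SR (c * d) (fun x => f x * g x) = SR c f * SR d g := by
  have h := sumMod_mul_coprime_prod hc hd hcd hf.per hg.per
  have e : (fun x => ((f x : ℝ) : ℂ) * ((g x : ℝ) : ℂ)) = fun x => ((f x * g x : ℝ) : ℂ) := by
    funext x; push_cast; rfl
  rw [e, sumMod_ofReal (mul_ne_zero hc hd), sumMod_ofReal hc, sumMod_ofReal hd] at h
  exact_mod_cast h

lemma SR_mul_of_per {c d : Eis} (hc : c ≠ 0) (hd : d ≠ 0) {f : Eis → ℝ} (hf : PerR c f) :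
    SR (c * d) f = nm d * SR c f := by
  have h := sumMod_mul_of_per hc hd hf.per
  rw [sumMod_ofReal (mul_ne_zero hc hd), sumMod_ofReal hc] at h
  exact_mod_cast h

open Classical in
lemma SR_dvd {c : Eis} (hc : c ≠ 0) : SR c (fun x => if c ∣ x then (1 : ℝ) else 0) = 1 := by
  have := finQ hc
  have : Fintype (Q c) := Fintype.ofFinite _
  rw [SR_eq_sum]
  have h : ∀ q : Q c, (c ∣ Quotient.out q) ↔ q = 0 := by
    intro q
    rw [← sub_zero (Quotient.out q : Eis), ← mk_eq_iff, mk_out, map_zero]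
  simp only [h]
  rw [Finset.sum_ite_eq' Finset.univ (0 : Q c) (fun _ => (1 : ℝ))]
  simp

open Classical in
lemma perR_dvd (c : Eis) : PerR c (fun x => if c ∣ x then (1 : ℝ) else 0) := by
  intro x y h
  have : c ∣ x ↔ c ∣ y := by
    constructor
    · intro hx
      have := dvd_sub hx h
      simpa using this
    · intro hy
      have := dvd_add h hy
      simpa using this
  simp only [this]

open Classical in
lemma SR_pow_dvd {p : Eis} (hp : IsPP p) {c k : ℕ} (hck : c ≤ k) :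
    SR (p ^ k) (fun x => if p ^ c ∣ x then (1 : ℝ) else 0) = (nm p : ℝ) ^ (k - c) := by
  have e : p ^ k = p ^ c * p ^ (k - c) := by rw [← pow_add]; congr 1; omega
  have h0 : ∀ j, p ^ j ≠ 0 := fun j => pow_ne_zero j hp.ne_zero
  rw [e, SR_mul_of_per (h0 c) (h0 _) (perR_dvd (p ^ c)), SR_dvd (h0 c), mul_one, nm_pow]
  push_cast
  rfl

/-! ### the means -/

open Classical in
/-- the majorant of `gam` -/
def gR (m₀ D l : Eis) : ℝ := if IsCoprime l m₀ then ‖El l D‖ else 0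

/-- the mean of the majorant -/
def N0 (m₀ D : Eis) : ℝ := SR (m₀ * D) (gR m₀ D) / nm (m₀ * D)

/-- the local mean -/
def Lm (D : Eis) : ℝ := SR D (fun l => ‖El l D‖) / nm D

lemma gR_nonneg (m₀ D l : Eis) : 0 ≤ gR m₀ D l := by
  unfold gR; split_ifs
  · exact norm_nonneg _
  · exact le_rfl

lemma norm_gam (m₀ D l : Eis) : ‖gam m₀ D l‖ = gR m₀ D l := by
  unfold gam gR
  split_ifs
  · rfl
  · exact norm_zero

lemma N0_nonneg {m₀ D : Eis} (h : m₀ * D ≠ 0) : 0 ≤ N0 m₀ D :=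
  div_nonneg (SR_nonneg h (gR_nonneg m₀ D)) (Nat.cast_nonneg _)

lemma EE_le {m₀ D : Eis} (h : m₀ * D ≠ 0) : ‖EE m₀ D‖ ≤ N0 m₀ D := by
  unfold EE N0
  rw [norm_div, Complex.norm_natCast]
  refine div_le_div_of_nonneg_right ?_ (Nat.cast_nonneg _)
  refine (norm_sumMod_le_SR h _).trans (le_of_eq (SR_congr fun l => norm_gam m₀ D l))

lemma EE_one (H : TkAlg) {m₀ : Eis} (h : m₀ ≠ 0) : ‖EE m₀ 1‖ = N0 m₀ 1 := by
  classical
  have h1 : m₀ * 1 ≠ 0 := by rwa [mul_one]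
  unfold EE N0
  rw [norm_div, Complex.norm_natCast]
  congr 1
  have e : gam m₀ 1 = fun l => ((gR m₀ 1 l : ℝ) : ℂ) := by
    funext l
    unfold gam gR
    rw [El_one H]
    split_ifs <;> simp
  rw [e, sumMod_ofReal h1, Complex.norm_real, Real.norm_eq_abs,
    abs_of_nonneg (SR_nonneg h1 (gR_nonneg m₀ 1))]

lemma coprime_of_sub {x y m : Eis} (h : m ∣ x - y) (hx : IsCoprime x m) : IsCoprime y m := by
  obtain ⟨t, ht⟩ := h
  have e : y = x + m * (-t) := by linear_combination -ht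
  rw [e]
  exact (IsCoprime.add_mul_left_left_iff).mpr hx

lemma N0_one_pos (H : TkAlg) {m₀ : Eis} (h : m₀ ≠ 0) : 0 < N0 m₀ 1 := by
  classical
  have h1 : m₀ * 1 ≠ 0 := by rwa [mul_one]
  unfold N0
  refine div_pos ?_ (by exact_mod_cast nm_pos.mpr h1)
  have := finQ h1
  have : Fintype (Q (m₀ * 1)) := Fintype.ofFinite _
  rw [SR_eq_sum]
  refine Finset.sum_pos' (fun q _ => gR_nonneg _ _ _) ⟨mk (m₀ * 1) 1, Finset.mem_univ _, ?_⟩
  have h2 : m₀ * 1 ∣ Quotient.out (mk (m₀ * 1) 1) - 1 := out_mk_sub 1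
  have h3 : m₀ ∣ 1 - Quotient.out (mk (m₀ * 1) 1) := by
    rw [← dvd_neg, neg_sub]; exact (dvd_mul_right _ _).trans h2
  have h4 : IsCoprime (Quotient.out (mk (m₀ * 1) 1)) m₀ := coprime_of_sub h3 isCoprime_one_left
  unfold gR
  rw [if_pos h4, El_one H]
  simp

lemma perR_gR {m₀ D : Eis} (hD : D ≠ 0) : PerR (m₀ * D) (gR m₀ D) := by
  classical
  intro x y h
  unfold gR
  have h1 : IsCoprime x m₀ ↔ IsCoprime y m₀ := by
    have h2 : m₀ ∣ x - y := (dvd_mul_right _ _).trans h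
    exact ⟨coprime_of_sub h2, coprime_of_sub (by rw [← dvd_neg, neg_sub]; exact h2)⟩
  have h3 : El x D = El y D := El_per hD x y ((dvd_mul_left _ _).trans h)
  simp only [h1, h3]

lemma perR_El {D : Eis} (hD : D ≠ 0) : PerR D (fun l => ‖El l D‖) := by
  intro x y h
  have h3 : El x D = El y D := El_per hD x y h
  simp only [h3]

/-- multiplicativity of the mean -/
theorem N0_mul (H : TkAlg) {m₀ p b : Eis} (hm : m₀ ≠ 0) (hp : Sm 2 p) (hpp : Prime p) {k : ℕ}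
    (hb : Sm 2 b) (hpb : ¬ p ∣ b) (hpm : IsCoprime p m₀) :
    N0 m₀ (p ^ k * b) = Lm (p ^ k) * N0 m₀ b := by
  have hcop : IsCoprime (p ^ k) b := Res.coprime_pow hpp hpb k
  have hpk0 : p ^ k ≠ 0 := pow_ne_zero _ hp.ne_zero
  have hmb : m₀ * b ≠ 0 := mul_ne_zero hm hb.ne_zero
  have hc : IsCoprime (m₀ * b) (p ^ k) := (hpm.pow_left.symm).mul_left hcop.symm
  have e1 : m₀ * (p ^ k * b) = (m₀ * b) * p ^ k := by ring
  have e2 : ∀ l, gR m₀ (p ^ k * b) l = gR m₀ b l * ‖El l (p ^ k)‖ := by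
    intro l
    unfold gR
    rw [El_mul H l (hp.pow k) hb hcop, norm_mul]
    split_ifs
    · ring
    · ring
  unfold N0 Lm
  rw [e1, SR_congr e2, SR_mul_coprime hmb hpk0 hc (perR_gR hb.ne_zero) (perR_El hpk0),
    nm_mul (m₀ * b)]
  push_cast
  rw [mul_div_mul_comm, mul_comm]

lemma N0_pow (H : TkAlg) {m₀ p : Eis} (hm : m₀ ≠ 0) (hp : Sm 2 p) (hpp : Prime p) {k : ℕ}
    (hpm : IsCoprime p m₀) : N0 m₀ (p ^ k) = Lm (p ^ k) * N0 m₀ 1 := by
  have h := N0_mul H hm hp hpp (k := k) (Sm.one 2)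
    (fun h => hpp.not_isUnit (isUnit_of_dvd_one h)) hpm
  rwa [mul_one] at h

/-! ### the local mean -/

open Classical in
theorem Lm_le (H : TkAlg) {p : Eis} (hp : Sm 2 p) (hpp : Prime p) {k : ℕ} (hk : 1 ≤ k) :
    Lm (p ^ k) ≤ (nm p : ℝ) ^ (-1 : ℝ) + ∑ i ∈ (Finset.Icc 2 k).filter Good,
      (nm p : ℝ) ^ ((sE i : ℝ) + 1 / 2 - cE i) := by
  have hPP : IsPP p := ⟨hp.1, hpp⟩
  have hpk0 : p ^ k ≠ 0 := pow_ne_zero _ hp.ne_zero
  have hq0 : (0 : ℝ) < nm p := by exact_mod_cast nm_pos.mpr hp.ne_zero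
  unfold Lm
  rw [div_le_iff₀ (by exact_mod_cast nm_pos.mpr hpk0)]
  refine (SR_mono hpk0 (fun l => El_le H hp hpp hk)).trans (le_of_eq ?_)
  unfold Wm
  rw [SR_add hpk0, SR_finset_sum hpk0, add_mul, Finset.sum_mul]
  congr 1
  · have h1 := SR_pow_dvd hPP hk
    rw [pow_one] at h1
    rw [h1, nm_pow]
    push_cast
    rw [← Real.rpow_natCast (nm p : ℝ) k, ← Real.rpow_add hq0, ← Real.rpow_natCast]
    congr 1
    rw [Nat.cast_sub hk]; push_cast; ring
  · refine Finset.sum_congr rfl fun i hi => ?_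
    rw [Finset.mem_filter, Finset.mem_Icc] at hi
    have hc : cE i ≤ k := (cE_le hi.2 hi.1.1).trans hi.1.2
    rw [SR_const_mul hpk0, SR_pow_dvd hPP hc, nm_pow]
    push_cast
    rw [← Real.rpow_natCast (nm p : ℝ) k, ← Real.rpow_natCast, ← Real.rpow_add hq0,
      ← Real.rpow_add hq0]
    congr 1
    rw [Nat.cast_sub hc]; ring

/-- exponents -/
lemma expo2 {i : ℕ} (h : Good i) (h2 : 2 ≤ i) :
    (sE i : ℝ) + 1 / 2 - cE i - 5 / 6 * i ≤ -(7 / 24) * i := by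
  have h5 := h.five_le h2
  rcases eq_or_ne i 5 with rfl | h5'
  · have e1 : sE 5 = 3 := by decide
    have e2 : cE 5 = 1 := by decide
    rw [e1, e2]; norm_num
  rcases eq_or_ne i 6 with rfl | h6'
  · have e1 : sE 6 = 4 := by decide
    have e2 : cE 6 = 2 := by decide
    rw [e1, e2]; norm_num
  rcases eq_or_ne i 9 with rfl | h9'
  · have e1 : sE 9 = 6 := by decide
    have e2 : cE 9 = 2 := by decide
    rw [e1, e2]; norm_num
  · have h12 : 12 ≤ i := by unfold Good at h; omega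
    have e1 : 4 * sE i ≤ 3 * i := by
      unfold sE
      split_ifs with h <;> omega
    have e2 : sE i ≤ 3 * cE i := by unfold cE; omega
    have e1' : (4 * sE i : ℝ) ≤ 3 * i := by exact_mod_cast e1
    have e2' : (sE i : ℝ) ≤ 3 * cE i := by exact_mod_cast e2
    have h12' : (12 : ℝ) ≤ i := by exact_mod_cast h12
    linarith

theorem Lm_decay (H : TkAlg) {p : Eis} (hp : Sm 2 p) (hpp : Prime p) {k : ℕ} (hk : 1 ≤ k) :
    Lm (p ^ k) * (nm (p ^ k) : ℝ) ^ (-(5 / 6) : ℝ) ≤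
      (nm p : ℝ) ^ (-(35 / 24) : ℝ) * (((k : ℝ) + 1) * ((4 : ℝ) ^ (-(7 / 24) : ℝ)) ^ k *
        (4 : ℝ) ^ (35 / 24 : ℝ)) := by
  classical
  have hPP : IsPP p := ⟨hp.1, hpp⟩
  have hq : (4 : ℝ) ≤ nm p := by exact_mod_cast IsPP.four_le_nm hPP
  have hq0 : (0 : ℝ) < nm p := by linarith
  have hk' : (1 : ℝ) ≤ k := by exact_mod_cast hk
  have hnk : (nm (p ^ k) : ℝ) ^ (-(5 / 6) : ℝ) = (nm p : ℝ) ^ (-(5 / 6) * (k : ℝ)) := by
    rw [nm_pow]; push_cast
    rw [← Real.rpow_natCast, ← Real.rpow_mul hq0.le]; congr 1; ring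
  -- the basic comparison
  have hB : ∀ e : ℝ, e ≤ -(35 / 24) - 7 / 24 * ((k : ℝ) - 5) → e ≤ -(35 / 24) →
      (nm p : ℝ) ^ e ≤ (nm p : ℝ) ^ (-(35 / 24) : ℝ) *
        (((4 : ℝ) ^ (-(7 / 24) : ℝ)) ^ k * (4 : ℝ) ^ (35 / 24 : ℝ)) := by
    intro e he1 he2
    have h1 : (nm p : ℝ) ^ e = (nm p : ℝ) ^ (-(35 / 24) : ℝ) * (nm p : ℝ) ^ (e + 35 / 24) := by
      rw [← Real.rpow_add hq0]; congr 1; ring
    rw [h1]
    refine mul_le_mul_of_nonneg_left ?_ (by positivity)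
    calc (nm p : ℝ) ^ (e + 35 / 24) ≤ (4 : ℝ) ^ (e + 35 / 24) :=
          Real.rpow_le_rpow_of_nonpos (by norm_num) hq (by linarith)
      _ ≤ (4 : ℝ) ^ (-(7 / 24) * (k : ℝ) + 35 / 24) :=
          Real.rpow_le_rpow_of_exponent_le (by norm_num) (by linarith)
      _ = _ := by
          rw [← Real.rpow_natCast, ← Real.rpow_mul (by norm_num), ← Real.rpow_add (by norm_num)]
  have hmain := mul_le_mul_of_nonneg_right (Lm_le H hp hpp hk)
    (by positivity : (0 : ℝ) ≤ (nm p : ℝ) ^ (-(5 / 6) * (k : ℝ)))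
  rw [hnk]
  refine hmain.trans ?_
  rw [add_mul, Finset.sum_mul, ← Real.rpow_add hq0]
  set B : ℝ := (nm p : ℝ) ^ (-(35 / 24) : ℝ) *
        (((4 : ℝ) ^ (-(7 / 24) : ℝ)) ^ k * (4 : ℝ) ^ (35 / 24 : ℝ)) with hBdef
  have hB0 : 0 ≤ B := by positivity
  have h1 : (nm p : ℝ) ^ (-1 + -(5 / 6) * (k : ℝ)) ≤ B := hB _ (by linarith) (by linarith)
  have h2 : ∑ i ∈ (Finset.Icc 2 k).filter Good,
      (nm p : ℝ) ^ ((sE i : ℝ) + 1 / 2 - cE i) * (nm p : ℝ) ^ (-(5 / 6) * (k : ℝ)) ≤ k * B := by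
    calc ∑ i ∈ (Finset.Icc 2 k).filter Good,
        (nm p : ℝ) ^ ((sE i : ℝ) + 1 / 2 - cE i) * (nm p : ℝ) ^ (-(5 / 6) * (k : ℝ))
        ≤ ∑ i ∈ (Finset.Icc 2 k).filter Good, B := by
          refine Finset.sum_le_sum fun i hi => ?_
          rw [Finset.mem_filter, Finset.mem_Icc] at hi
          have h5 := hi.2.five_le hi.1.1
          have h6 := expo2 hi.2 hi.1.1
          have hik : (i : ℝ) ≤ k := by exact_mod_cast hi.1.2
          have h5' : (5 : ℝ) ≤ i := by exact_mod_cast h5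
          rw [← Real.rpow_add hq0]
          exact hB _ (by linarith) (by linarith)
      _ = ((Finset.Icc 2 k).filter Good).card * B := by rw [Finset.sum_const, nsmul_eq_mul]
      _ ≤ k * B := by
          refine mul_le_mul_of_nonneg_right ?_ hB0
          have h3 := Finset.card_filter_le (Finset.Icc 2 k) Good
          rw [Nat.card_Icc] at h3
          have : ((Finset.Icc 2 k).filter Good).card ≤ k := by omega
          exact_mod_cast this
  calc _ ≤ B + k * B := add_le_add h1 h2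
    _ = _ := by rw [hBdef]; ring

/-- the constant of the local bounds -/
theorem exists_cst (H : TkAlg) : ∃ A : ℝ, 0 ≤ A ∧ ∀ p : Eis, Sm 2 p → Prime p → ∀ K : ℕ,
    ∑ k ∈ Finset.Icc 1 K, Lm (p ^ k) * (nm (p ^ k) : ℝ) ^ (-(5 / 6) : ℝ) ≤
      A * (nm p : ℝ) ^ (-(35 / 24) : ℝ) := by
  set ρ : ℝ := (4 : ℝ) ^ (-(7 / 24) : ℝ) with hρ
  have hρ0 : 0 ≤ ρ := by positivity
  have hρ1 : ρ < 1 := Real.rpow_lt_one_of_one_lt_of_neg (by norm_num) (by norm_num)
  have hs1 : Summable (fun k : ℕ => ((k : ℝ) + 1) * ρ ^ k) := by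
    have h1 : Summable (fun k : ℕ => (k : ℝ) ^ 1 * ρ ^ k) :=
      summable_pow_mul_geometric_of_norm_lt_one 1 (by rw [Real.norm_eq_abs, abs_of_nonneg hρ0]; exact hρ1)
    have h2 : Summable (fun k : ℕ => ρ ^ k) := summable_geometric_of_lt_one hρ0 hρ1
    have := h1.add h2
    refine this.congr fun k => ?_
    ring
  refine ⟨(∑' k : ℕ, ((k : ℝ) + 1) * ρ ^ k) * (4 : ℝ) ^ (35 / 24 : ℝ), by positivity, ?_⟩
  intro p hp hpp K
  calc ∑ k ∈ Finset.Icc 1 K, Lm (p ^ k) * (nm (p ^ k) : ℝ) ^ (-(5 / 6) : ℝ)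
      ≤ ∑ k ∈ Finset.Icc 1 K, (nm p : ℝ) ^ (-(35 / 24) : ℝ) * (((k : ℝ) + 1) * ρ ^ k *
        (4 : ℝ) ^ (35 / 24 : ℝ)) :=
        Finset.sum_le_sum fun k hk => Lm_decay H hp hpp (Finset.mem_Icc.mp hk).1
    _ = (nm p : ℝ) ^ (-(35 / 24) : ℝ) * ((∑ k ∈ Finset.Icc 1 K, ((k : ℝ) + 1) * ρ ^ k) *
        (4 : ℝ) ^ (35 / 24 : ℝ)) := by rw [Finset.sum_mul, Finset.mul_sum]
    _ ≤ (nm p : ℝ) ^ (-(35 / 24) : ℝ) * ((∑' k : ℕ, ((k : ℝ) + 1) * ρ ^ k) *
        (4 : ℝ) ^ (35 / 24 : ℝ)) := by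
        refine mul_le_mul_of_nonneg_left (mul_le_mul_of_nonneg_right ?_ (by positivity))
          (by positivity)
        exact hs1.sum_le_tsum _ (fun k _ => by positivity)
    _ = _ := by ring

end Crest.Agent.R017.S3571
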