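import Crest.Agent.R017.RstQ_702

/-!
# Row 17, class E, `SPInX` of `TailUX`: the real lines at `k ∈ [7/10 κ, 17/20 κ]` (helper718)

Class-E twin of helper702's `SpR_702`.  One sequence `alX β` of length `p = N - β`, own window
`v + 2 β ≤ top + D/2`; T-number = `max (Tn) (Tr) (bias)`:
* `Tn` : natural list (`z` = largest lump), 792's `Gq`
* `Tr` : replaced list, second form with the smallest lump `u' ≤ 17/100`
* bias : `2/3 l + 5/3 (p - γ) - max 0 (sB - γ)`, `sB = 17/100 κ - (N - p)`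
* `hX` : the exponent of `H`, constant in `δ`
-/

set_option autoImplicit false
set_option linter.unusedVariables false

noncomputable section

namespace Crest.Agent.R017.SPX718

open Crest.Agent.R017.P1Q904 Crest.Agent.R017.RstQ702

/-- the frame of the reals, class E -/
structure FX (κ N M a c x L D k v p z u' sB E t : ℝ) : Prop where
  κ0 : 8 / 9 ≤ κ
  κ31 : 28 ≤ 31 * κ
  κ1 : κ ≤ 1
  N34 : 3 / 4 * κ ≤ N
  N84 : 103 * N ≤ 84 * κ
  MN : 2 * N ≤ 3 * M
  a0 : 0 ≤ a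
  a12 : 12 * a ≤ κ
  c0 : 0 ≤ c
  c13 : 3 * c ≤ 1
  x0 : 0 ≤ x
  D0 : 0 ≤ D
  q43 : N + M + a ≤ 4 / 3
  sq2 : 3 / 4 * (a + c - x - 7 / 9 * (κ - M)) ≤ L - D
  L1 : 3 / 2 * D ≤ L
  L2 : 1 / 2 - κ + (N + M + a - c) / 2 + 3 / 2 * D ≤ L
  L3 : 5 / 12 - 5 / 3 * κ + 3 / 4 * (N + M + a + c) + 3 / 2 * D ≤ L
  shr : x = 0 ∨ (x + 2 * D ≤ 1 / 36 * κ ∧ x + 7 / 10 * N ≤ 199 / 360 * κ ∧
    N + x ≤ 15 / 19 * κ ∧ x ≤ a + c - 7 / 9 * (κ - M))
  D1 : 40 * D ≤ κ
  t0 : 0 ≤ t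
  t1 : t ≤ κ / 20000
  v0 : 0 ≤ v
  v1 : v + 2 * (N - p) ≤ 2 * N - κ + 11 / 5 * x + D / 2 + t
  v2 : v + 2 * (N - p) ≤ 3 / 4 * N + 11 / 5 * x + D / 2 + t
  v3 : v ≤ 2 * N - κ + 11 / 5 * x + t
  v4 : v ≤ 3 / 4 * N + 11 / 5 * x + t
  k1 : 7 * κ ≤ 10 * k + 10 * t
  k2 : 20 * k ≤ 17 * κ + 20 * t
  p0 : κ / 2 - x - t ≤ p
  p1 : p ≤ N + t
  z1 : 2 * z ≤ M + t
  z2 : z ≤ 3 * N - 2 * κ + D / 8 + t
  u17 : u' ≤ 17 / 100
  s17 : 17 / 100 * κ - (N - p) - t ≤ sB
  E : E ≤ 0 ∨ (k ≤ M + t ∧ E ≤ c) ∨ (M ≤ k + t ∧ E ≤ c - 7 / 9 * (k - M) + t)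

/-- the target of the child, `μ = 1/450` -/
def GX (κ L a k p E : ℝ) : ℝ := 4 / 3 * κ + p - k / 3 + L - 3 / 4 * a - 3 / 4 * E - 1 / 225

/-- the family -/
def KX (κ v p z sB : ℝ) : ℝ :=
  max (max (4 / 3 * p) (max (v + p / 2) (max (3 / 2 * v) (200 / 61 * z))) + 3 / 128 * κ)
    (p + v - 3 * max 0 sB + 3 / 64 * κ)

/-- the exponent of `H` -/
def hX (κ k v p z sB G s : ℝ) : ℝ := 2 * k + 3 * p - 3 * G + 3 * s + KX κ v p z sB

lemma KX_cases (κ v p z sB : ℝ) : KX κ v p z sB = 4 / 3 * p + 3 / 128 * κ ∨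
    KX κ v p z sB = v + p / 2 + 3 / 128 * κ ∨
    KX κ v p z sB = 3 / 2 * v + 3 / 128 * κ ∨
    KX κ v p z sB = 200 / 61 * z + 3 / 128 * κ ∨
    (KX κ v p z sB ≤ p + v + 3 / 64 * κ ∧ KX κ v p z sB ≤ p + v - 3 * sB + 3 / 64 * κ) := by
  have e0 := le_max_left 0 sB
  have e1 := le_max_right 0 sB
  unfold KX
  rcases max_choice (max (4 / 3 * p) (max (v + p / 2) (max (3 / 2 * v) (200 / 61 * z))) +
    3 / 128 * κ) (p + v - 3 * max 0 sB + 3 / 64 * κ) with h | h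
  · rw [h]
    rcases max_choice (4 / 3 * p) (max (v + p / 2) (max (3 / 2 * v) (200 / 61 * z))) with h | h
    · rw [h]; exact Or.inl rfl
    · rw [h]
      rcases max_choice (v + p / 2) (max (3 / 2 * v) (200 / 61 * z)) with g | g
      · rw [g]; exact Or.inr (Or.inl rfl)
      · rw [g]
        rcases max_choice (3 / 2 * v) (200 / 61 * z) with f | f
        · rw [f]; exact Or.inr (Or.inr (Or.inl rfl))
        · rw [f]; exact Or.inr (Or.inr (Or.inr (Or.inl rfl)))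
  · rw [h]; exact Or.inr (Or.inr (Or.inr (Or.inr ⟨by linarith, by linarith⟩)))

lemma KX_ge (κ v p z sB : ℝ) : 4 / 3 * p + 3 / 128 * κ ≤ KX κ v p z sB ∧
    v + p / 2 + 3 / 128 * κ ≤ KX κ v p z sB ∧
    3 / 2 * v + 3 / 128 * κ ≤ KX κ v p z sB ∧
    200 / 61 * z + 3 / 128 * κ ≤ KX κ v p z sB ∧
    p + v - 3 * max 0 sB + 3 / 64 * κ ≤ KX κ v p z sB := by
  unfold KX
  have h0 := le_max_left (max (4 / 3 * p) (max (v + p / 2) (max (3 / 2 * v) (200 / 61 * z))) +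
    3 / 128 * κ) (p + v - 3 * max 0 sB + 3 / 64 * κ)
  have h1 := le_max_left (4 / 3 * p) (max (v + p / 2) (max (3 / 2 * v) (200 / 61 * z)))
  have h2 := le_max_right (4 / 3 * p) (max (v + p / 2) (max (3 / 2 * v) (200 / 61 * z)))
  have h3 := le_max_left (v + p / 2) (max (3 / 2 * v) (200 / 61 * z))
  have h4 := le_max_right (v + p / 2) (max (3 / 2 * v) (200 / 61 * z))
  have h5 := le_max_left (3 / 2 * v) (200 / 61 * z)
  have h6 := le_max_right (3 / 2 * v) (200 / 61 * z)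
  refine ⟨by linarith, by linarith, by linarith, by linarith, le_max_right _ _⟩

variable {κ N M a c x L D k v p z u' sB E t s : ℝ}

/-! ### the T-numbers -/

/-- helper792's number of a pure natural list: lumps at most `z`, the smallest one at most `u` -/
def Gn (d z u v n : ℝ) : ℝ :=
  min (max (max (2 * n) (v + n)) (4 / 3 * n + (v + K0 v n z) / 3) + 2 / 3 * d * n)
    (max (v + n + min u (n / 3)) (5 / 3 * n + v / 3))

/-- the number of class E: natural list, replaced list (second form), bias -/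
def TX (d z u u' sB v n p γ : ℝ) : ℝ :=
  max (max (Gn d z u v n) (max (v + n + min u' (n / 3)) (5 / 3 * n + v / 3)))
    (2 / 3 * v + 5 / 3 * (p - γ) - max 0 (sB - γ))

lemma K0_cases (l n z : ℝ) : K0 l n z = 5 / 4 * n ∨ K0 l n z = l + n / 2 ∨ K0 l n z = 3 / 2 * l ∨
    K0 l n z = 200 / 61 * z := by
  unfold K0
  rcases max_choice (5 / 4 * n) (max (l + n / 2) (max (3 / 2 * l) (200 / 61 * z))) with h | h
  · exact Or.inl h
  · rcases max_choice (l + n / 2) (max (3 / 2 * l) (200 / 61 * z)) with g | g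
    · exact Or.inr (Or.inl (h.trans g))
    · rcases max_choice (3 / 2 * l) (200 / 61 * z) with f | f
      · exact Or.inr (Or.inr (Or.inl (h.trans (g.trans f))))
      · exact Or.inr (Or.inr (Or.inr (h.trans (g.trans f))))

/-- first form of the natural list -/
def TA (z v n s T : ℝ) : Prop :=
  T ≤ 2 * n + s ∨ T ≤ v + n + s ∨ T ≤ 4 / 3 * n + (v + 5 / 4 * n) / 3 + s ∨
    T ≤ 4 / 3 * n + (v + (v + n / 2)) / 3 + s ∨ T ≤ 4 / 3 * n + (v + 3 / 2 * v) / 3 + s ∨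
    T ≤ 4 / 3 * n + (v + 200 / 61 * z) / 3 + s

/-- second form -/
def TB (v n T : ℝ) : Prop := T ≤ v + 4 / 3 * n ∨ T ≤ 5 / 3 * n + v / 3

lemma TX_cases {d z u u' sB v n p γ s : ℝ} (hs : 2 / 3 * d * n ≤ s) :
    (TA z v n s (TX d z u u' sB v n p γ) ∧ TB v n (TX d z u u' sB v n p γ)) ∨
    (TX d z u u' sB v n p γ ≤ v + n + u' ∧ TX d z u u' sB v n p γ ≤ v + 4 / 3 * n) ∨
    TX d z u u' sB v n p γ ≤ 5 / 3 * n + v / 3 ∨
    TX d z u u' sB v n p γ ≤ 2 / 3 * v + 5 / 3 * (p - γ) - max 0 (sB - γ) := by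
  have e1 := min_le_left u' (n / 3)
  have e2 := min_le_right u' (n / 3)
  have e3 := min_le_right u (n / 3)
  unfold TX
  rcases max_choice (max (Gn d z u v n) (max (v + n + min u' (n / 3)) (5 / 3 * n + v / 3)))
    (2 / 3 * v + 5 / 3 * (p - γ) - max 0 (sB - γ)) with h | h
  swap
  · right; right; right; exact h.le
  rw [h]
  rcases max_choice (Gn d z u v n) (max (v + n + min u' (n / 3)) (5 / 3 * n + v / 3)) with h | h
  · left
    rw [h]
    unfold Gn
    have g1 := min_le_left (max (max (2 * n) (v + n)) (4 / 3 * n + (v + K0 v n z) / 3) +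
      2 / 3 * d * n) (max (v + n + min u (n / 3)) (5 / 3 * n + v / 3))
    have g2 := min_le_right (max (max (2 * n) (v + n)) (4 / 3 * n + (v + K0 v n z) / 3) +
      2 / 3 * d * n) (max (v + n + min u (n / 3)) (5 / 3 * n + v / 3))
    generalize min (max (max (2 * n) (v + n)) (4 / 3 * n + (v + K0 v n z) / 3) +
      2 / 3 * d * n) (max (v + n + min u (n / 3)) (5 / 3 * n + v / 3)) = T at *
    refine ⟨?_, ?_⟩
    · unfold TA
      rcases max_choice (max (2 * n) (v + n)) (4 / 3 * n + (v + K0 v n z) / 3) with f | f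
      · rw [f] at g1
        rcases max_choice (2 * n) (v + n) with f | f
        · rw [f] at g1; left; linarith
        · rw [f] at g1; right; left; linarith
      · rw [f] at g1
        rcases K0_cases v n z with f | f | f | f <;> rw [f] at g1
        · right; right; left; linarith
        · right; right; right; left; linarith
        · right; right; right; right; left; linarith
        · right; right; right; right; right; linarith
    · unfold TB
      rcases max_choice (v + n + min u (n / 3)) (5 / 3 * n + v / 3) with f | f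
      · rw [f] at g2; left; linarith
      · rw [f] at g2; right; linarith
  · rw [h]
    rcases max_choice (v + n + min u' (n / 3)) (5 / 3 * n + v / 3) with f | f
    · rw [f]; right; left; exact ⟨by linarith, by linarith⟩
    · rw [f]; right; right; left; exact le_rfl

variable {κ N M a c x L D k v p z u' sB E t s : ℝ}

/-- the pieces of a child: level `l` (without the block), block `b`, length `n`, cost `r` of the
pointwise claims with the `E`-term -/
structure Ch (κ v p δ b l n r t : ℝ) : Prop where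
  δ0 : 0 ≤ δ
  b0 : 0 ≤ b
  n0 : 0 ≤ n
  pδ : δ ≤ p
  hl : l ≤ v - 2 * δ + t
  hn : n ≤ max 0 (p - δ - b) + t
  hr : r ≤ min b (max 0 (p - δ)) - max 0 (b - κ / 64) + t

lemma Ch.cases {δ b l n r : ℝ} (C : Ch κ v p δ b l n r t) :
    ∃ m : ℝ, 0 ≤ m ∧ b - κ / 64 ≤ m ∧
      ((n ≤ p - δ - b + t ∧ 0 ≤ p - δ - b ∧ r ≤ b - m + t) ∨
        (n ≤ t ∧ p - δ - b ≤ 0 ∧ r ≤ p - δ - m + t)) := by
  refine ⟨max 0 (b - κ / 64), le_max_left _ _, le_max_right _ _, ?_⟩
  have h1 := C.hn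
  have h2 := C.hr
  have h3 := min_le_left b (max 0 (p - δ))
  have h4 := min_le_right b (max 0 (p - δ))
  have h5 : max 0 (p - δ) = p - δ := max_eq_right (by linarith [C.pδ])
  rcases le_total 0 (p - δ - b) with h | h
  · left
    rw [max_eq_right h] at h1
    exact ⟨h1, h, by linarith⟩
  · right
    rw [max_eq_left h] at h1
    have h6 := h4.trans h5.le
    exact ⟨by linarith, h, by linarith⟩

/-- the block is gone: `U = T + r` -/
def UC (κ p q l z u' sB δ s t U : ℝ) : Prop :=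
  U ≤ 5 / 3 * q + l / 3 + 4 * t ∨
  (U ≤ 4 / 3 * q + l + κ / 96 + 4 * t ∧
    (U ≤ 2 * q + s + 4 * t ∨ U ≤ 7 / 4 * q + l / 3 + s + 4 * t ∨
      U ≤ 3 / 2 * q + 2 / 3 * l + κ / 384 + s + 4 * t ∨
      U ≤ 4 / 3 * q + 5 / 6 * l + κ / 128 + s + 4 * t ∨
      U ≤ 4 / 3 * q + l / 3 + 200 / 183 * z + s + 4 * t)) ∨
  U ≤ l + q + κ / 64 + s + 4 * t ∨
  (U ≤ l + q + u' + κ / 64 + 4 * t ∧ U ≤ 4 / 3 * q + l + κ / 96 + 4 * t) ∨
  (U ≤ 2 / 3 * l + 5 / 3 * q + 4 * t ∧
    U ≤ 2 / 3 * l + 5 / 3 * q - (sB - δ) + κ / 64 + 4 * t)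

lemma UC_of {d z' u δ b l n r : ℝ} (κ0 : 0 ≤ κ) (t0 : 0 ≤ t) (C : Ch κ v p δ b l n r t)
    (l0 : 0 ≤ l) (s0 : 0 ≤ s) (hd : 2 / 3 * d * n ≤ s) (hz : z' ≤ z + t) :
    UC κ p (p - δ) l z u' sB δ s t (TX d z' u u' sB (l + b) n p (δ + b) + r) := by
  obtain ⟨m, m0, m1, hc⟩ := C.cases
  obtain ⟨δ0, b0, n0, pδ, hl, -, -⟩ := C
  have hT := TX_cases (z := z') (u := u) (u' := u') (sB := sB) (v := l + b) (n := n) (p := p)
    (γ := δ + b) hd
  have e2 := le_max_left 0 (sB - (δ + b))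
  have e3 := le_max_right 0 (sB - (δ + b))
  generalize TX d z' u u' sB (l + b) n p (δ + b) = T at *
  generalize max 0 (sB - (δ + b)) = f at *
  unfold UC
  unfold TA TB at hT
  rcases hc with ⟨hn, hb, hr⟩ | ⟨hn, hb, hr⟩
  · rcases hT with ⟨hT, hT' | hT'⟩ | ⟨hT, hT'⟩ | hT | hT
    · have h1 : T + r ≤ 4 / 3 * (p - δ) + l + κ / 96 + 4 * t := by linarith
      rcases hT with hT | hT | hT | hT | hT | hT
      · right; left; exact ⟨h1, Or.inl (by linarith)⟩
      · right; right; left; linarith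
      · right; left; exact ⟨h1, Or.inr (Or.inl (by linarith))⟩
      · right; left; exact ⟨h1, Or.inr (Or.inr (Or.inl (by linarith)))⟩
      · right; left; exact ⟨h1, Or.inr (Or.inr (Or.inr (Or.inl (by linarith))))⟩
      · right; left; exact ⟨h1, Or.inr (Or.inr (Or.inr (Or.inr (by linarith))))⟩
    · left; linarith
    · right; right; right; left; exact ⟨by linarith, by linarith⟩
    · left; linarith
    · right; right; right; right; exact ⟨by linarith, by linarith⟩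
  · right; right; left
    rcases hT with ⟨hT, hT' | hT'⟩ | ⟨hT, hT'⟩ | hT | hT <;> linarith

/-- **(T)** : the line which defines `h` -/
theorem tX_le {d z' u δ b l n r sL σ : ℝ} (H : FX κ N M a c x L D k v p z u' sB E t)
    (C : Ch κ v p δ b l n r t) (l0 : 0 ≤ l) (s0 : 0 ≤ sL) (σ0 : 0 ≤ σ) (hd : 2 / 3 * d * n ≤ sL)
    (hs : sL + σ ≤ s) (hz : z' ≤ z + t) (G : ℝ) :
    2 / 3 * k - (hX κ k v p z sB G s + v) / 3 + (TX d z' u u' sB (l + b) n p (δ + b) + r) +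
      2 * δ + (v - 2 * δ - l) / 3 - p / 3 + σ ≤ G + 10 * t := by
  have hU := UC_of (u := u) (u' := u') (sB := sB) (by linarith [H.κ0]) H.t0 C l0 s0 hd hz
  obtain ⟨δ0, b0, n0, pδ, hl, -, -⟩ := C
  obtain ⟨q1, q2, q3, q4, q5⟩ := KX_ge κ v p z sB
  have κ0 := H.κ0
  have κ31 := H.κ31
  have t0 := H.t0
  have t1 := H.t1
  have D1 := H.D1
  have D0 := H.D0
  have v1 := H.v1
  have v2 := H.v2
  have v3 := H.v3
  have v4 := H.v4
  have p0 := H.p0
  have p1 := H.p1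
  have u17 := H.u17
  have N34 := H.N34
  have N84 := H.N84
  have v0 := H.v0
  have x0 := H.x0
  have shr := H.shr
  have x1 : x ≤ κ / 36 ∧ (x = 0 ∨ (N + x ≤ 15 / 19 * κ ∧ x + 2 * D ≤ 1 / 36 * κ)) := by
    rcases shr with rfl | ⟨s1, -, s3, -⟩
    · exact ⟨by linarith, Or.inl rfl⟩
    · exact ⟨by linarith, Or.inr ⟨s3, s1⟩⟩
  obtain ⟨x1, x2⟩ := x1
  clear shr H hd hz
  unfold hX
  generalize KX κ v p z sB = Q at *
  generalize TX d z' u u' sB (l + b) n p (δ + b) + r = U at *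
  unfold UC at hU
  rcases hU with hU | ⟨hU, hU' | hU' | hU' | hU' | hU'⟩ | hU | ⟨hU, hU'⟩ | ⟨hU, hU'⟩
  · linarith
  · linarith
  · linarith
  · linarith
  · linarith
  · linarith
  · linarith
  · rcases x2 with rfl | ⟨x2, x3⟩ <;> linarith
  · rcases max_choice 0 sB with h | h <;> rw [h] at q5 <;> linarith

end Crest.Agent.R017.SPX718
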