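import Crest.Agent.R017.SPX_718

/-!
# Row 17, class E, `SPInX`: the diagonal lines (helper718)
-/

set_option autoImplicit false
set_option linter.unusedVariables false

noncomputable section

namespace Crest.Agent.R017.SPX718

open Crest.Agent.R017.P1Q904 Crest.Agent.R017.RstQ702

variable {κ N M a c x L D k v p z u' sB E t s : ℝ}

/-- `δ` and `l` are gone: `Y = U + 2 δ` -/
def YC (κ p v z u' sB s t Y : ℝ) : Prop :=
  Y ≤ 5 / 3 * p + v / 3 + 6 * t ∨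
  (Y ≤ 4 / 3 * p + v + κ / 96 + 6 * t ∧
    (Y ≤ 2 * p + s + 6 * t ∨ Y ≤ 7 / 4 * p + v / 3 + s + 6 * t ∨
      Y ≤ 3 / 2 * p + 2 / 3 * v + κ / 384 + s + 6 * t ∨
      Y ≤ 4 / 3 * p + 5 / 6 * v + κ / 128 + s + 6 * t ∨
      Y ≤ 4 / 3 * p + v / 3 + 200 / 183 * z + s + 6 * t)) ∨
  Y ≤ v + p + κ / 64 + s + 6 * t ∨
  (Y ≤ v + p + u' + κ / 64 + 6 * t ∧ Y ≤ 4 / 3 * p + v + κ / 96 + 6 * t) ∨
  (Y ≤ 2 / 3 * v + 5 / 3 * p + 6 * t ∧ Y ≤ 2 / 3 * v + 5 / 3 * p - sB + κ / 64 + 6 * t)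

lemma YC_of {δ l U : ℝ} (δ0 : 0 ≤ δ) (hl : l ≤ v - 2 * δ + t) (t0 : 0 ≤ t)
    (h : UC κ p (p - δ) l z u' sB δ s t U) : YC κ p v z u' sB s t (U + 2 * δ) := by
  unfold UC at h
  unfold YC
  rcases h with hU | ⟨hU, hU' | hU' | hU' | hU' | hU'⟩ | hU | ⟨hU, hU'⟩ | ⟨hU, hU'⟩
  · left; linarith
  · right; left; exact ⟨by linarith, Or.inl (by linarith)⟩
  · right; left; exact ⟨by linarith, Or.inr (Or.inl (by linarith))⟩
  · right; left; exact ⟨by linarith, Or.inr (Or.inr (Or.inl (by linarith)))⟩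
  · right; left; exact ⟨by linarith, Or.inr (Or.inr (Or.inr (Or.inl (by linarith))))⟩
  · right; left; exact ⟨by linarith, Or.inr (Or.inr (Or.inr (Or.inr (by linarith))))⟩
  · right; right; left; linarith
  · right; right; right; left; exact ⟨by linarith, by linarith⟩
  · right; right; right; right; exact ⟨by linarith, by linarith⟩

set_option maxHeartbeats 8000000 in
/-- the diagonal, in `Y` -/
lemma mX_core {Y : ℝ} (H : FX κ N M a c x L D k v p z u' sB E t) (hs : s ≤ 3 / 5 * D)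
    (h : YC κ p v z u' sB s t Y) :
    2 / 3 * k - v / 3 + Y - p / 3 + κ / 500 ≤ GX κ L a k p E + 10 * t := by
  obtain ⟨κ0, κ31, κ1, N34, N84, MN, a0, a12, c0, c13, x0, D0, q43, sq2, L1, L2, L3, shr, D1, t0, t1,
    v0, v1, v2, v3, v4, k1, k2, p0, p1, z1, z2, u17, s17, hE⟩ := H
  unfold YC at h
  unfold GX
  rcases h with hU | ⟨hU, hU' | hU' | hU' | hU' | hU'⟩ | hU | ⟨hU, hU'⟩ | ⟨hU, hU'⟩ <;>
    rcases shr with rfl | ⟨s1, s2, s3, s4⟩ <;>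
    rcases hE with hE | ⟨hE1, hE⟩ | ⟨hE1, hE⟩ <;> linarith

set_option maxHeartbeats 8000000 in
/-- the line `2/3 v`, in `Y` -/
lemma vX_core {Y : ℝ} (H : FX κ N M a c x L D k v p z u' sB E t) (hs : s ≤ 3 / 5 * D)
    (h : YC κ p v z u' sB s t Y) :
    2 / 3 * v + Y - p / 3 + κ / 500 ≤ GX κ L a k p E + 10 * t := by
  obtain ⟨κ0, κ31, κ1, N34, N84, MN, a0, a12, c0, c13, x0, D0, q43, sq2, L1, L2, L3, shr, D1, t0, t1,
    v0, v1, v2, v3, v4, k1, k2, p0, p1, z1, z2, u17, s17, hE⟩ := H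
  unfold YC at h
  unfold GX
  rcases h with hU | ⟨hU, hU' | hU' | hU' | hU' | hU'⟩ | hU | ⟨hU, hU'⟩ | ⟨hU, hU'⟩ <;>
    rcases shr with rfl | ⟨s1, s2, s3, s4⟩ <;>
    rcases hE with hE | ⟨hE1, hE⟩ | ⟨hE1, hE⟩ <;> linarith

/-- **(M)** : the diagonal and the line `2/3 v` -/
theorem mX_le {d z' u δ b l n r : ℝ} (H : FX κ N M a c x L D k v p z u' sB E t)
    (C : Ch κ v p δ b l n r t) (l0 : 0 ≤ l) (hs : s ≤ 3 / 5 * D) (s0 : 0 ≤ s)
    (hd : 2 / 3 * d * n ≤ s) (hz : z' ≤ z + t) :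
    max (2 / 3 * k - v / 3) (2 / 3 * v) + (TX d z' u u' sB (l + b) n p (δ + b) + r) +
      2 * δ - p / 3 + κ / 500 ≤ GX κ L a k p E + 10 * t := by
  have hU := UC_of (u := u) (u' := u') (sB := sB) (by linarith [H.κ0]) H.t0 C l0 s0 hd hz
  have hY := YC_of C.δ0 C.hl H.t0 hU
  have h1 := mX_core H hs hY
  have h2 := vX_core H hs hY
  rcases max_choice (2 / 3 * k - v / 3) (2 / 3 * v) with h | h <;> rw [h] <;> linarith

end Crest.Agent.R017.SPX718
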