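import Crest.Agent.R017.SPX_718

/-!
# Row 17, class E, `SPInX`: the lines of the `R`-part (helper718)

* `rX_core` : noncube class, `gQ`
* `cX_core` : cube class, functional `L - 2/3 I`, bias saved once
-/

set_option autoImplicit false
set_option linter.unusedVariables false

noncomputable section

namespace Crest.Agent.R017.SPX718

open Crest.Agent.R017.P1Q904 Crest.Agent.R017.RstQ702

variable {κ N M a c x L D k v p z u' sB E t s : ℝ}

/-- upper bound of `w = v + h` -/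
def WC (κ v p z sB : ℝ) (Q : ℝ) : Prop :=
  Q ≤ 4 / 3 * p + 3 / 128 * κ ∨ Q ≤ v + p / 2 + 3 / 128 * κ ∨ Q ≤ 3 / 2 * v + 3 / 128 * κ ∨
    Q ≤ 200 / 61 * z + 3 / 128 * κ ∨ (Q ≤ p + v + 3 / 64 * κ ∧ Q ≤ p + v - 3 * sB + 3 / 64 * κ)

lemma WC_KX (κ v p z sB : ℝ) : WC κ v p z sB (KX κ v p z sB) := by
  unfold WC
  rcases KX_cases κ v p z sB with h | h | h | h | h
  · exact Or.inl h.le
  · exact Or.inr (Or.inl h.le)
  · exact Or.inr (Or.inr (Or.inl h.le))
  · exact Or.inr (Or.inr (Or.inr (Or.inl h.le)))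
  · exact Or.inr (Or.inr (Or.inr (Or.inr h)))

set_option maxHeartbeats 8000000 in
/-- **noncube class**: `S` = bound of the smallest lump -/
theorem rX_core {w δ e i S g : ℝ} (H : FX κ N M a c x L D k v p z u' sB E t)
    (hs : s ≤ 3 / 5 * D + κ / 500)
    (hw : w ≤ v + hX κ k v p z sB (GX κ L a k p E) s + t) (hL : 0 ≤ w + v - k - δ + t)
    (δ0 : 0 ≤ δ) (e1 : e ≤ κ / 64 + t) (hi : i ≤ w + p - k + t)
    (hg : g ≤ 3 / 4 * S + 61 / 100 * D) (s1 : 3 * S ≤ N + t) (s3 : 2 * S ≤ w + p - k + t) :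
    2 / 3 * k - w / 3 + 5 / 3 * δ + 2 * e + gQ (w + v - k - δ) (w + p - k) + i + g +
      2 / 3 * (p - δ) + κ / 100 ≤ GX κ L a k p E := by
  have hq := gQ_cases (w + v - k - δ) (w + p - k)
  have hK := WC_KX κ v p z sB
  obtain ⟨κ0, κ31, κ1, N34, N84, MN, a0, a12, c0, c13, x0, D0, q43, sq2, L1, L2, L3, shr, D1, t0, t1,
    v0, v1, v2, v3, v4, k1, k2, p0, p1, z1, z2, u17, s17, hE⟩ := H
  unfold hX at hw
  unfold WC at hK
  unfold GX at *
  clear u17
  generalize KX κ v p z sB = Q at *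
  generalize gQ (w + v - k - δ) (w + p - k) = q at *
  rcases hK with h | h | h | h | ⟨h, h'⟩ <;>
    rcases hq with rfl | rfl | rfl | rfl <;> rcases shr with rfl | ⟨s1, s2, s3, s4⟩ <;>
    rcases hE with hE | ⟨hE1, hE⟩ | ⟨hE1, hE⟩ <;> linarith

set_option maxHeartbeats 8000000 in
/-- **cube class**: functional `L - 2/3 I`, the bias saved once (`m ≥ max 0 (sB - δ - e)`) -/
theorem cX_core {w δ e m : ℝ} (H : FX κ N M a c x L D k v p z u' sB E t)
    (hs : s ≤ 3 / 5 * D + κ / 500)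
    (hw : w ≤ v + hX κ k v p z sB (GX κ L a k p E) s + t) (hL : 0 ≤ w + v - k - δ + t)
    (δ0 : 0 ≤ δ) (e1 : e ≤ κ / 64 + t) (m0 : 0 ≤ m) (m1 : sB - δ - e - t ≤ m) :
    w / 3 + v + 4 / 3 * p - δ + e - m + κ / 50 ≤ GX κ L a k p E := by
  have hK := WC_KX κ v p z sB
  obtain ⟨κ0, κ31, κ1, N34, N84, MN, a0, a12, c0, c13, x0, D0, q43, sq2, L1, L2, L3, shr, D1, t0, t1,
    v0, v1, v2, v3, v4, k1, k2, p0, p1, z1, z2, u17, s17, hE⟩ := H
  unfold hX at hw
  unfold WC at hK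
  unfold GX at *
  clear u17
  generalize KX κ v p z sB = Q at *
  rcases hK with h | h | h | h | ⟨h, h'⟩ <;> rcases shr with rfl | ⟨s1, s2, s3, s4⟩ <;>
    rcases hE with hE | ⟨hE1, hE⟩ | ⟨hE1, hE⟩ <;> linarith

end Crest.Agent.R017.SPX718
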