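import Crest.Agent.R017.SPX_718

set_option autoImplicit false
set_option linter.unusedVariables false

noncomputable section

namespace Crest.Agent.R017.SPX718

open Crest.Agent.R017.P1Q904 Crest.Agent.R017.RstQ702

variable {κ N M a c x L D k v p z u' sB E t s : ℝ}

set_option maxHeartbeats 4000000 in
/-- `H² V³ ≤ K²` -/
theorem thX (H : FX κ N M a c x L D k v p z u' sB E t) (hs : s ≤ 3 / 5 * D + κ / 500) :
    2 * hX κ k v p z sB (GX κ L a k p E) s + 3 * v + κ / 10 ≤ 2 * k := by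
  obtain ⟨κ0, κ31, κ1, N34, N84, MN, a0, a12, c0, c13, x0, D0, q43, sq2, L1, L2, L3, shr, D1, t0, t1,
    v0, v1, v2, v3, v4, k1, k2, p0, p1, z1, z2, u17, s17, hE⟩ := H
  have hK := KX_cases κ v p z sB
  unfold hX GX
  generalize KX κ v p z sB = Q at *
  clear v0 u17
  rcases hK with h | h | h | h | ⟨h, h'⟩ <;>
    rcases shr with rfl | ⟨s1, s2, s3, s4⟩ <;>
    rcases hE with hE | ⟨hE1, hE⟩ | ⟨hE1, hE⟩ <;> linarith

end Crest.Agent.R017.SPX718
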