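import Crest.Agent.R017.SPXt_718
import Crest.Agent.R017.SPXm_718
import Crest.Agent.R017.SPXr_718

/-!
# Row 17, class E, `SPInX`: the real lines with the actual numbers, homogeneous form (helper718)

`NX` : exact frame at `(k, v, p)` and actual numbers `k', v', p', E', s'` within `t ≤ 10⁻⁶`.
`hE` : the exponent of `H`.
* `th_x`, `S_x`, `V_x`, `c1_x`, `c0_x`, `R_x` (noncube class), `RC_x` (cube class)
-/

set_option autoImplicit false
set_option linter.unusedVariables false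

noncomputable section

namespace Crest.Agent.R017.SPX718

open Crest.Agent.R017.P1Q904 Crest.Agent.R017.RstQ702

/-- the exact frame and the actual numbers -/
structure NX (κ N M a c x L D k v p z sB E d u t v' k' p' E' s' : ℝ) : Prop where
  H : FX κ N M a c x L D k v p z (17 / 100) sB E 0
  d0 : 0 ≤ d
  dD : D = d * κ
  u3 : 3 * u ≤ N
  t0 : 0 ≤ t
  t1 : t ≤ 1 / 1000000
  v : |v' - v| ≤ t
  k : |k' - k| ≤ t
  p : |p' - p| ≤ t
  E0 : 0 ≤ E'
  E : E' ≤ κ / 64 + t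
  s : sB - t ≤ s'

/-- the exponent of `H` -/
def hE (κ L a D k v p z sB E : ℝ) : ℝ := hX κ k v p z sB (GX κ L a k p E) (3 / 5 * D + κ / 500)

variable {κ N M a c x L D k v p z sB E d u t v' k' p' E' s' : ℝ}

lemma FX.mono {u' t' : ℝ} (H : FX κ N M a c x L D k v p z u' sB E 0) (h0 : 0 ≤ t')
    (h1 : t' ≤ κ / 20000) : FX κ N M a c x L D k v p z u' sB E t' := by
  obtain ⟨κ0, κ31, κ1, N34, N84, MN, a0, a12, c0, c13, x0, D0, q43, sq2, L1, L2, L3, shr, D1, -, -,
    v0, v1, v2, v3, v4, k1, k2, p0, p1, z1, z2, u17, s17, hE⟩ := H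
  refine ⟨κ0, κ31, κ1, N34, N84, MN, a0, a12, c0, c13, x0, D0, q43, sq2, L1, L2, L3, shr, D1, h0,
    h1, v0, ?_, ?_, ?_, ?_, ?_, ?_, ?_, ?_, ?_, ?_, u17, ?_, ?_⟩
  · linarith
  · linarith
  · linarith
  · linarith
  · linarith
  · linarith
  · linarith
  · linarith
  · linarith
  · linarith
  · linarith
  · rcases hE with h | ⟨h, h'⟩ | ⟨h, h'⟩
    · exact Or.inl h
    · exact Or.inr (Or.inl ⟨by linarith, h'⟩)
    · exact Or.inr (Or.inr ⟨by linarith, by linarith⟩)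

/-- small facts -/
structure SmX (κ N x k v p t v' k' p' E' : ℝ) : Prop where
  κ0 : 8 / 9 ≤ κ
  t1 : t ≤ 1 / 1000000
  t0 : 0 ≤ t
  x1 : x ≤ κ / 36
  v0 : 0 ≤ v
  v1 : v ≤ 7 / 10 * κ
  pv : v + κ / 20 ≤ p
  p0 : 9 / 20 * κ ≤ p
  p1 : p ≤ 84 / 103 * κ
  k1 : 7 / 10 * κ ≤ k
  k2 : k ≤ 17 / 20 * κ
  va : v' ≤ v + t
  vb : v ≤ v' + t
  ka : k' ≤ k + t
  kb : k ≤ k' + t
  pa : p' ≤ p + t
  pb : p ≤ p' + t

lemma smX (X : NX κ N M a c x L D k v p z sB E d u t v' k' p' E' s') :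
    SmX κ N x k v p t v' k' p' E' := by
  obtain ⟨H, d0, dD, u3, t0, t1, hv, hk, hp, E0, hE, hs⟩ := X
  have κ0 := H.κ0
  have D1 := H.D1
  have D0 := H.D0
  have v1 := H.v1
  have v2 := H.v2
  have v3 := H.v3
  have v4 := H.v4
  have p0 := H.p0
  have p1 := H.p1
  have k1 := H.k1
  have k2 := H.k2
  have N84 := H.N84
  have v0 := H.v0
  have x0 := H.x0
  have x1 : x ≤ κ / 36 := by
    rcases H.shr with rfl | ⟨s1, -, s3, -⟩
    · linarith
    · linarith
  have a1 := abs_le.1 hv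
  have a2 := abs_le.1 hk
  have a3 := abs_le.1 hp
  refine ⟨κ0, t1, t0, x1, v0, ?_, ?_, ?_, ?_, ?_, ?_, by linarith [a1.1, a1.2],
    by linarith [a1.1, a1.2], by linarith [a2.1, a2.2], by linarith [a2.1, a2.2],
    by linarith [a3.1, a3.2], by linarith [a3.1, a3.2]⟩ <;> linarith

/-- `H² V³ ≤ K²` -/
theorem th_x (X : NX κ N M a c x L D k v p z sB E d u t v' k' p' E' s') :
    2 * hE κ L a D k v p z sB E + 3 * v' + κ / 11 ≤ 2 * k' := by
  have h1 := thX X.H (s := 3 / 5 * D + κ / 500) le_rfl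
  obtain ⟨κ0, t1, t0, x1, v0, v1, pv, p0, p1, k1, k2, va, vb, ka, kb, pa, pb⟩ := smX X
  unfold hE
  linarith

theorem S_x (X : NX κ N M a c x L D k v p z sB E d u t v' k' p' E' s') :
    hE κ L a D k v p z sB E + 2 * v' + κ / 100 ≤ k' + p' := by
  have h1 := th_x X
  obtain ⟨κ0, t1, t0, x1, v0, v1, pv, p0, p1, k1, k2, va, vb, ka, kb, pa, pb⟩ := smX X
  linarith

theorem V_x (X : NX κ N M a c x L D k v p z sB E d u t v' k' p' E' s') :
    v' + 3 * E' ≤ 2 * k' ∧ v' ≤ k' + κ / 1000 ∧ 0 ≤ k' ∧ 0 ≤ p' := by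
  have h1 := X.E
  obtain ⟨κ0, t1, t0, x1, v0, v1, pv, p0, p1, k1, k2, va, vb, ka, kb, pa, pb⟩ := smX X
  refine ⟨?_, ?_, ?_, ?_⟩ <;> linarith

/-- the number of the child, actual numbers -/
def TR (d z u t l b n p' s' γ : ℝ) : ℝ :=
  max (max (Gn d (z + t) (u + t) (l + b) n)
    (max (l + b + n + min (17 / 100 + t) (n / 3)) (5 / 3 * n + (l + b) / 3)))
    (2 / 3 * (l + b) + 5 / 3 * (p' - γ) - max 0 (s' - γ))

lemma TR_le {l b n γ : ℝ} (t0 : 0 ≤ t) (hp : p' ≤ p + t) (hs : sB - t ≤ s') :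
    TR d z u t l b n p' s' γ ≤ TX d (z + t) (u + t) (17 / 100) sB (l + b) n p γ + 3 * t := by
  unfold TR TX
  have e1 : min (17 / 100 + t) (n / 3) ≤ min (17 / 100) (n / 3) + t := by
    have g1 := min_le_left (17 / 100 + t) (n / 3)
    have g2 := min_le_right (17 / 100 + t) (n / 3)
    rcases min_choice (17 / 100 : ℝ) (n / 3) with h | h <;> rw [h] <;> linarith
  have e2 : max 0 (sB - γ) ≤ max 0 (s' - γ) + t := by
    have g1 := le_max_left 0 (s' - γ)
    have g2 := le_max_right 0 (s' - γ)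
    exact max_le (by linarith) (by linarith)
  have f1 := le_max_left (max (Gn d (z + t) (u + t) (l + b) n)
    (max (l + b + n + min (17 / 100) (n / 3)) (5 / 3 * n + (l + b) / 3)))
    (2 / 3 * (l + b) + 5 / 3 * (p - γ) - max 0 (sB - γ))
  have f2 := le_max_right (max (Gn d (z + t) (u + t) (l + b) n)
    (max (l + b + n + min (17 / 100) (n / 3)) (5 / 3 * n + (l + b) / 3)))
    (2 / 3 * (l + b) + 5 / 3 * (p - γ) - max 0 (sB - γ))
  have f3 := le_max_left (Gn d (z + t) (u + t) (l + b) n)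
    (max (l + b + n + min (17 / 100) (n / 3)) (5 / 3 * n + (l + b) / 3))
  have f4 := le_max_right (Gn d (z + t) (u + t) (l + b) n)
    (max (l + b + n + min (17 / 100) (n / 3)) (5 / 3 * n + (l + b) / 3))
  have f5 := le_max_left (l + b + n + min (17 / 100) (n / 3)) (5 / 3 * n + (l + b) / 3)
  have f6 := le_max_right (l + b + n + min (17 / 100) (n / 3)) (5 / 3 * n + (l + b) / 3)
  refine max_le (max_le ?_ (max_le ?_ ?_)) ?_ <;> linarith

/-- the child -/
structure CX (v' t p' δ b l n : ℝ) : Prop where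
  δ0 : 0 ≤ δ
  b0 : 0 ≤ b
  l0 : 0 ≤ l
  l1 : l ≤ v' - 2 * δ + t
  hn : n = max 0 (p' - (δ + b))

lemma ch_of {δ b l n : ℝ} (X : NX κ N M a c x L D k v p z sB E d u t v' k' p' E' s')
    (C : CX v' t p' δ b l n) :
    Ch κ v p δ b l n (min b (max 0 (p' - δ)) - max 0 (b - E') + 3 * t) (5 * t) := by
  have hE := X.E
  obtain ⟨κ0, t1, t0, x1, v0, v1, pv, p0, p1, k1, k2, va, vb, ka, kb, pa, pb⟩ := smX X
  obtain ⟨δ0, b0, l0, l1, hn⟩ := C
  have n0 : 0 ≤ n := by rw [hn]; exact le_max_left _ _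
  refine ⟨δ0, b0, n0, by linarith, by linarith, ?_, ?_⟩
  · have g1 := le_max_left 0 (p - δ - b)
    have g2 := le_max_right 0 (p - δ - b)
    rw [hn]
    exact max_le (by linarith) (by linarith)
  · have g1 := min_le_left b (max 0 (p' - δ))
    have g2 := min_le_right b (max 0 (p' - δ))
    have g3 : max 0 (p' - δ) ≤ max 0 (p - δ) + t := by
      have g1 := le_max_left 0 (p - δ)
      have g2 := le_max_right 0 (p - δ)
      exact max_le (by linarith) (by linarith)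
    have g4 : min b (max 0 (p' - δ)) ≤ min b (max 0 (p - δ)) + t := by
      rcases min_choice b (max 0 (p - δ)) with h | h <;> rw [h] <;> linarith
    have g5 : max 0 (b - κ / 64) ≤ max 0 (b - E') + t := by
      have g1 := le_max_left 0 (b - E')
      have g2 := le_max_right 0 (b - E')
      exact max_le (by linarith) (by linarith)
    linarith

lemma dn_le {δ b l n : ℝ} (X : NX κ N M a c x L D k v p z sB E d u t v' k' p' E' s')
    (C : CX v' t p' δ b l n) : 2 / 3 * d * n ≤ 3 / 5 * D := by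
  obtain ⟨κ0, t1, t0, x1, v0, v1, pv, p0, p1, k1, k2, va, vb, ka, kb, pa, pb⟩ := smX X
  have hn : n ≤ 9 / 10 * κ := by
    rw [C.hn]
    exact max_le (by linarith) (by linarith [C.δ0, C.b0])
  have h1 : d * n ≤ d * (9 / 10 * κ) := mul_le_mul_of_nonneg_left hn X.d0
  have h2 := X.dD
  linarith

/-- **(c1)** -/
theorem c1_x {δ b l n T : ℝ} (X : NX κ N M a c x L D k v p z sB E d u t v' k' p' E' s')
    (C : CX v' t p' δ b l n) (hT : T ≤ TR d z u t l b n p' s' (δ + b)) :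
    max (2 / 3 * k' - (hE κ L a D k v p z sB E + v') / 3)
        (max (hE κ L a D k v p z sB E / 3 + 2 / 3 * v')
          (2 / 3 * hE κ L a D k v p z sB E + 7 / 6 * v' - k' / 3)) +
      T + min b (max 0 (p' - δ)) + 2 * δ - max 0 (b - E') + (v' - 2 * δ - l) / 3 - p' / 3 +
      κ / 1000 ≤ GX κ L a k p E := by
  have hth := th_x X
  have hD := dn_le X C
  have hC := ch_of X C
  have S := smX X
  have hTR := TR_le (d := d) (z := z) (u := u) (l := l) (b := b) (n := n) (γ := δ + b) X.t0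
    S.pa X.s
  obtain ⟨κ0, t1, t0, x1, v0, v1, pv, p0, p1, k1, k2, va, vb, ka, kb, pa, pb⟩ := S
  have D0 := X.H.D0
  have hF := X.H.mono (t' := 5 * t) (by linarith) (by linarith)
  have h1 := tX_le (z' := z + t) (u := u + t) (sL := 3 / 5 * D) (σ := κ / 500)
    (s := 3 / 5 * D + κ / 500) hF hC C.l0 (by linarith) (by linarith) hD le_rfl
    (by linarith) (GX κ L a k p E)
  have h2 : hX κ k v p z sB (GX κ L a k p E) (3 / 5 * D + κ / 500) = hE κ L a D k v p z sB E := rfl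
  rw [h2] at h1
  generalize hE κ L a D k v p z sB E = h at *
  have h3 : max (2 / 3 * k' - (h + v') / 3) (max (h / 3 + 2 / 3 * v')
      (2 / 3 * h + 7 / 6 * v' - k' / 3)) ≤ 2 / 3 * k' - (h + v') / 3 :=
    max_le le_rfl (max_le (by linarith) (by linarith))
  generalize TX d (z + t) (u + t) (17 / 100) sB (l + b) n p (δ + b) = T1 at *
  generalize TR d z u t l b n p' s' (δ + b) = T2 at *
  generalize GX κ L a k p E = G at *
  generalize min b (max 0 (p' - δ)) = m1 at *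
  generalize max 0 (b - E') = m2 at *
  linarith

/-- **(c0)** -/
theorem c0_x {δ b l n T : ℝ} (X : NX κ N M a c x L D k v p z sB E d u t v' k' p' E' s')
    (C : CX v' t p' δ b l n) (hT : T ≤ TR d z u t l b n p' s' (δ + b)) :
    max (2 / 3 * k' - v' / 3)
        (max (2 / 3 * k' - (hE κ L a D k v p z sB E + v') / 3) (2 / 3 * v')) +
      T + min b (max 0 (p' - δ)) + 2 * δ - max 0 (b - E') - p' / 3 +
      κ / 1000 ≤ GX κ L a k p E := by
  have hD := dn_le X C
  have hC := ch_of X C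
  have S := smX X
  have hTR := TR_le (d := d) (z := z) (u := u) (l := l) (b := b) (n := n) (γ := δ + b) X.t0
    S.pa X.s
  obtain ⟨κ0, t1, t0, x1, v0, v1, pv, p0, p1, k1, k2, va, vb, ka, kb, pa, pb⟩ := S
  have D0 := X.H.D0
  have hl := C.l1
  have hF := X.H.mono (t' := 5 * t) (by linarith) (by linarith)
  have h1 := tX_le (z' := z + t) (u := u + t) (sL := 3 / 5 * D) (σ := κ / 500)
    (s := 3 / 5 * D + κ / 500) hF hC C.l0 (by linarith) (by linarith) hD le_rfl
    (by linarith) (GX κ L a k p E)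
  have h4 := mX_le (z' := z + t) (u := u + t) (s := 3 / 5 * D) hF hC C.l0 le_rfl
    (by linarith) hD (by linarith)
  have h2 : hX κ k v p z sB (GX κ L a k p E) (3 / 5 * D + κ / 500) = hE κ L a D k v p z sB E := rfl
  rw [h2] at h1
  have e1 := le_max_left (2 / 3 * k - v / 3) (2 / 3 * v)
  have e2 := le_max_right (2 / 3 * k - v / 3) (2 / 3 * v)
  generalize hE κ L a D k v p z sB E = h at *
  generalize TX d (z + t) (u + t) (17 / 100) sB (l + b) n p (δ + b) = T1 at *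
  generalize TR d z u t l b n p' s' (δ + b) = T2 at *
  generalize GX κ L a k p E = G at *
  generalize min b (max 0 (p' - δ)) = m1 at *
  generalize max 0 (b - E') = m2 at *
  generalize max (2 / 3 * k - v / 3) (2 / 3 * v) = m3 at *
  have h5 : max (2 / 3 * k' - v' / 3) (max (2 / 3 * k' - (h + v') / 3) (2 / 3 * v')) ≤
      G - κ / 1000 + p' / 3 + m2 - 2 * δ - m1 - T :=
    max_le (by linarith) (max_le (by linarith) (by linarith))
  linarith

lemma gQ_lip {L₁ I₁ L₂ I₂ t : ℝ} (h1 : L₁ ≤ L₂ + 3 * t) (h2 : I₂ ≤ I₁ + 3 * t) (t0 : 0 ≤ t) :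
    gQ L₁ I₁ ≤ gQ L₂ I₂ + 5 * t := by
  unfold gQ
  have a1 := le_max_left (L₂ / 3) (L₂ - I₂ / 2)
  have a2 := le_max_right (L₂ / 3) (L₂ - I₂ / 2)
  have a3 := le_max_left (7 / 9 * L₂ - 2 / 3 * I₂) (11 / 18 * L₂ - I₂ / 3)
  have a4 := le_max_right (7 / 9 * L₂ - 2 / 3 * I₂) (11 / 18 * L₂ - I₂ / 3)
  have a5 := le_max_left (max (L₂ / 3) (L₂ - I₂ / 2))
    (max (7 / 9 * L₂ - 2 / 3 * I₂) (11 / 18 * L₂ - I₂ / 3))
  have a6 := le_max_right (max (L₂ / 3) (L₂ - I₂ / 2))
    (max (7 / 9 * L₂ - 2 / 3 * I₂) (11 / 18 * L₂ - I₂ / 3))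
  refine max_le (max_le ?_ ?_) (max_le ?_ ?_) <;> linarith

/-- **(R), noncube class** -/
theorem R_x {δ e i : ℝ} (X : NX κ N M a c x L D k v p z sB E d u t v' k' p' E' s')
    (δ0 : 0 ≤ δ) (hL : 0 ≤ hE κ L a D k v p z sB E + 2 * v' - k' - δ) (e0 : 0 ≤ e) (e1 : e ≤ E')
    (hi : |i - (p' + v' + hE κ L a D k v p z sB E - k')| ≤ t) :
    2 / 3 * k' - (hE κ L a D k v p z sB E + v') / 3 + 5 / 3 * δ + 2 * e +
      gQ (hE κ L a D k v p z sB E + 2 * v' - k' - δ)
        (p' + v' + hE κ L a D k v p z sB E - k') + max i (i / 3) +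
      (3 / 4 + 2 * d) * max 0 (min (u + t) (i / 2)) + 2 / 3 * (p' - δ) +
      κ / 1000 ≤ GX κ L a k p E := by
  have hE' := X.E
  have hu := X.u3
  have hN := X.H.N84
  have hN' := X.H.N34
  have hd := X.d0
  have hdD := X.dD
  obtain ⟨κ0, t1, t0, x1, v0, v1, pv, p0, p1, k1, k2, va, vb, ka, kb, pa, pb⟩ := smX X
  have hF := X.H.mono (t' := 5 * t) (by linarith) (by linarith)
  obtain ⟨w, hw⟩ : ∃ w, w = v + hE κ L a D k v p z sB E := ⟨_, rfl⟩
  obtain ⟨i1, i2⟩ := abs_le.1 hi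
  have hi0 : 0 ≤ i := by linarith
  have hm : max i (i / 3) = i := max_eq_left (by linarith)
  rw [hm]
  obtain ⟨S, hS⟩ : ∃ S, S = max 0 (min (u + t) (i / 2)) := ⟨_, rfl⟩
  rw [← hS]
  have g1 := min_le_left (u + t) (i / 2)
  have g2 := min_le_right (u + t) (i / 2)
  have hS1 : 3 * S ≤ N + 5 * t := by
    have : S ≤ (N + 5 * t) / 3 := by
      rw [hS]; exact max_le (by linarith) (by linarith)
    linarith
  have hS2 : 2 * S ≤ i := by
    have : S ≤ i / 2 := by
      rw [hS]; exact max_le (by linarith) (by linarith)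
    linarith
  have hdS : (3 / 4 + 2 * d) * S ≤ 3 / 4 * S + 61 / 100 * D := by
    have h1 : d * S ≤ d * (305 / 1000 * κ) := mul_le_mul_of_nonneg_left (by linarith) hd
    linarith
  have hq := gQ_lip (L₁ := hE κ L a D k v p z sB E + 2 * v' - k' - δ)
    (I₁ := p' + v' + hE κ L a D k v p z sB E - k') (L₂ := w + v - k - δ) (I₂ := w + p - k)
    (t := t) (by linarith) (by linarith) t0
  have h1 := rX_core (w := w) (δ := δ) (e := e) (i := i) (S := S)
    (g := (3 / 4 + 2 * d) * S) (s := 3 / 5 * D + κ / 500) hF le_rfl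
    (by
      have : hX κ k v p z sB (GX κ L a k p E) (3 / 5 * D + κ / 500) =
        hE κ L a D k v p z sB E := rfl
      rw [this]; linarith) (by linarith) δ0 (by linarith) (by linarith) hdS hS1 (by linarith)
  linarith

/-- **(R), cube class** -/
theorem RC_x {δ e i : ℝ} (X : NX κ N M a c x L D k v p z sB E d u t v' k' p' E' s')
    (δ0 : 0 ≤ δ) (hL : 0 ≤ hE κ L a D k v p z sB E + 2 * v' - k' - δ) (e0 : 0 ≤ e) (e1 : e ≤ E')
    (hi : |i - (p' + v' + hE κ L a D k v p z sB E - k')| ≤ t) :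
    2 / 3 * k' - (hE κ L a D k v p z sB E + v') / 3 + 5 / 3 * δ + 2 * e +
      ((hE κ L a D k v p z sB E + 2 * v' - k' - δ) -
        2 / 3 * (p' + v' + hE κ L a D k v p z sB E - k')) + i / 3 +
      5 / 3 * (p' - δ) - max e (s' - δ) + κ / 1000 ≤ GX κ L a k p E := by
  have hE' := X.E
  have hs := X.s
  obtain ⟨κ0, t1, t0, x1, v0, v1, pv, p0, p1, k1, k2, va, vb, ka, kb, pa, pb⟩ := smX X
  have hF := X.H.mono (t' := 5 * t) (by linarith) (by linarith)
  obtain ⟨i1, i2⟩ := abs_le.1 hi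
  have g1 := le_max_left e (s' - δ)
  have g2 := le_max_right e (s' - δ)
  have h1 := cX_core (w := v + hE κ L a D k v p z sB E) (δ := δ) (e := e)
    (m := max e (s' - δ) - e) (s := 3 / 5 * D + κ / 500) hF le_rfl
    (by
      have : hX κ k v p z sB (GX κ L a k p E) (3 / 5 * D + κ / 500) =
        hE κ L a D k v p z sB E := rfl
      rw [this]; linarith) (by linarith) δ0 (by linarith) (by linarith) (by linarith)
  linarith

end Crest.Agent.R017.SPX718
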