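import Crest.Agent.R017.TSa_968

/-!
# Row 17, R8 (helper968): moments of the structured function, sum over the tuples, one frame

* `mom2`, `mom4` : second and fourth moment of `SA T al` at `k₁ m³`, one real line for every tuple
* `sum_wt` : the weights of the powerful tuples
-/

set_option autoImplicit false

noncomputable section

open Finset
open scoped ComplexConjugate Classical

namespace Crest.Agent.R017.TSb968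

open Crest.Agent.R012 Crest.Agent.R012.Eis
open Crest.Agent.R012.LS2 (S mem_S)
open Crest.Agent.R017.CM106 (CS FS)
open Crest.Agent.R017.C70
open Crest.Agent.R017.E1551 (Adm)
open Crest.Agent.R017.E2440 (TE StE)
open Crest.Agent.R017.E5k54 (PT)
open Crest.Agent.R017.TEM792 (VN big)
open Crest.Agent.R017.TM968 (qd)
open Crest.Agent.R017.TMv968 (nm1 rpow_log_div gramV)
open Crest.Agent.R017.TMw968 (q4 gram4V)
open Crest.Agent.R017.TSa968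

variable {ι : Type*} [Fintype ι]

lemma wt_sq {β : ι → Eis} (h : ∏ i, β i ≠ 0) : wt β ^ 2 = (nm (∏ i, β i) : ℝ) ^ (-1 : ℝ) := by
  have h1 := nm1 h
  unfold wt
  rw [← Real.rpow_natCast, ← Real.rpow_mul (by linarith)]
  norm_num

/-- the loss of one tuple -/
lemma tuple_eq {X : ℝ} (hX : 1 < X) {B Nt V Kk E : ℝ} (hB : 1 ≤ B) (hV : 0 < V) (hKk : 0 < Kk) :
    X ^ (E - 4 / 3 * (Real.log B / Real.log X)) * (Real.exp Nt / B * V) ^ (-(1 / 3) : ℝ) *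
      Kk ^ (-(1 / 3) : ℝ) =
    X ^ E * (Real.exp Nt * V) ^ (-(1 / 3) : ℝ) * Kk ^ (-(1 / 3) : ℝ) * B ^ (-1 : ℝ) := by
  have hX0 : 0 < X := by linarith
  have hB0 : 0 < B := by linarith
  have e1 : X ^ (E - 4 / 3 * (Real.log B / Real.log X)) = X ^ E * B ^ (-(4 / 3) : ℝ) := by
    rw [Real.rpow_sub hX0, mul_comm (4 / 3 : ℝ), Real.rpow_mul hX0.le, rpow_log_div hX hB0,
      Real.rpow_neg hB0.le, div_eq_mul_inv]
  have e2 : (Real.exp Nt / B * V) ^ (-(1 / 3) : ℝ) =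
      (Real.exp Nt * V) ^ (-(1 / 3) : ℝ) * B ^ ((1 : ℝ) / 3) := by
    rw [div_mul_eq_mul_div, Real.div_rpow (by positivity) hB0.le, Real.rpow_neg hB0.le (1 / 3),
      div_inv_eq_mul]
  have e3 : B ^ (-(4 / 3) : ℝ) * B ^ ((1 : ℝ) / 3) = B ^ (-1 : ℝ) := by
    rw [← Real.rpow_add hB0]; norm_num
  rw [e1, e2]
  calc X ^ E * B ^ (-(4 / 3) : ℝ) * ((Real.exp Nt * V) ^ (-(1 / 3) : ℝ) * B ^ ((1 : ℝ) / 3)) *
        Kk ^ (-(1 / 3) : ℝ)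
      = X ^ E * (Real.exp Nt * V) ^ (-(1 / 3) : ℝ) * Kk ^ (-(1 / 3) : ℝ) *
        (B ^ (-(4 / 3) : ℝ) * B ^ ((1 : ℝ) / 3)) := by ring
    _ = _ := by rw [e3]

/-- **second moment, all tuples** -/
theorem mom2 (R : ℝ) (hR : 0 ≤ R) {ε : ℝ} (hε : 0 < ε) (K : ℝ) (hK : 1 ≤ K) (M : ℕ) {c₀ : ℝ}
    (hc₀ : 1 ≤ c₀) (Rl : ℝ) (hRl : 0 ≤ Rl) :
    ∃ X₀ : ℝ, 1 < X₀ ∧ ∀ X : ℝ, X₀ ≤ X → ∀ H : ℝ, 1 ≤ H → ∀ (T : Finset (ι → Eis))
      (al : (ι → Eis) → Eis → ℂ) (F : (ι → Eis) → ℝ → ℝ → ℝ) (Nt : ℝ) (Yw : (ι → Eis) → ℝ) (W : ℝ),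
      (∀ β ∈ T, ∏ i, β i ≠ 0) → ∑ β ∈ T, wt β ≤ W → (∀ β ∈ T, 0 ≤ Yw β) →
      (∀ β ∈ T, Adm (Yw β) (Real.exp Nt / nm (∏ i, β i)) R (al β)) →
      (∀ β ∈ T, VN X H M (2 * K) (al β) (F β)) →
      ∀ (Kk V E0 : ℝ), 1 ≤ Kk → Kk ≤ X ^ K → 1 ≤ V → V ≤ X ^ K → 1 ≤ E0 → E0 ≤ X ^ K →
      ∀ (J : Finset (Eis × Eis)) (om : Eis × Eis → ℂ), OKJ J →
      (∀ x ∈ J, (nm (x.2 * x.1 ^ 2) : ℝ) ≤ V) →
      (∀ x ∈ J, om x ≠ 0 → V ≤ c₀ * nm (x.2 * x.1 ^ 2)) → (∀ x, ‖om x‖ ≤ 1) →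
      ∀ m : Eis, IsPrim m → (nm m : ℝ) ≤ X ^ K →
      ∀ A : Finset Eis, A ⊆ (primBall ⌊Kk⌋₊).filter CbF →
      (∀ k ∈ A, Kk ≤ Real.exp Rl * nm k) →
      ∀ E : ℝ, (∀ β ∈ T, ∀ x b : ℝ, 0 ≤ x → 2 * x ≤ Real.log V / Real.log X → 0 ≤ b →
        b ≤ Real.log E0 / Real.log X →
        F β (Real.log V / Real.log X + b - 2 * x) (b + x) + 3 * x + b +
          qd (Real.log Kk / Real.log X) (Real.log V / Real.log X) 0 x +
          4 / 3 * (Real.log (nm (∏ i, β i)) / Real.log X) ≤ E) →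
      ∑ k ∈ A, ‖SA T al E0 J om (k * m ^ 3)‖ ^ 2 ≤
        W ^ 2 * (H ^ M * (X ^ (E + ε) * (Real.exp Nt * V) ^ (-(1 / 3) : ℝ) *
          Kk ^ (-(1 / 3) : ℝ))) := by
  obtain ⟨X₁, hX₁, H₁⟩ := one2 R hR hε K hK M hc₀ Rl hRl
  refine ⟨X₁, hX₁, ?_⟩
  intro X hX H hH T al F Nt Yw W hT hW hYw hA hV Kk V E0 hKk hKkX hV1 hVX hE0 hE0X J om hJ hJV hJl
    hom m hm hmX A hAs hlow E hF
  have hX1 : 1 < X := lt_of_lt_of_le hX₁ hX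
  have hX0 : 0 < X := by linarith
  have hKk0 : 0 < Kk := by linarith
  have hV0 : 0 < V := by linarith
  refine tup2 hT al E0 J om A m (by positivity) hW fun β hβ => ?_
  have hB := nm1 (hT β hβ)
  have hB0 : (0 : ℝ) < nm (∏ i, β i) := by linarith
  have h1 := H₁ X hX H hH (Yw β) (Real.exp Nt / nm (∏ i, β i)) (hYw β hβ) (by positivity) (al β)
    (hA β hβ) (F β) (hV β hβ) Kk V E0 hKk hKkX hV1 hVX hE0 hE0X J om hJ hJV hJl hom m hm hmX A hAs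
    hlow (E - 4 / 3 * (Real.log (nm (∏ i, β i)) / Real.log X))
    (fun x b hx hx' hb0 hb1 => by
      have := hF β hβ x b hx hx' hb0 hb1
      linarith)
  refine h1.trans (le_of_eq ?_)
  have e2 : E - 4 / 3 * (Real.log (nm (∏ i, β i)) / Real.log X) + ε =
      (E + ε) - 4 / 3 * (Real.log (nm (∏ i, β i)) / Real.log X) := by ring
  have e1 := tuple_eq (Nt := Nt) (E := E + ε) hX1 hB hV0 hKk0
  rw [e2, wt_sq (hT β hβ)]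
  calc H ^ M * X ^ (E + ε - 4 / 3 * (Real.log (nm (∏ i, β i)) / Real.log X)) *
        (Real.exp Nt / nm (∏ i, β i) * V) ^ (-(1 / 3) : ℝ) * Kk ^ (-(1 / 3) : ℝ)
      = H ^ M * (X ^ (E + ε - 4 / 3 * (Real.log (nm (∏ i, β i)) / Real.log X)) *
        (Real.exp Nt / nm (∏ i, β i) * V) ^ (-(1 / 3) : ℝ) * Kk ^ (-(1 / 3) : ℝ)) := by ring
    _ = _ := by rw [e1]; ring

/-- **fourth moment, all tuples** -/
theorem mom4 (R : ℝ) (hR : 0 ≤ R) {ε : ℝ} (hε : 0 < ε) (K : ℝ) (hK : 1 ≤ K) (M : ℕ) {c₀ : ℝ}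
    (hc₀ : 1 ≤ c₀) (Rl : ℝ) (hRl : 0 ≤ Rl) :
    ∃ X₀ : ℝ, 1 < X₀ ∧ ∀ X : ℝ, X₀ ≤ X → ∀ H : ℝ, 1 ≤ H → ∀ (T : Finset (ι → Eis))
      (al : (ι → Eis) → Eis → ℂ) (F : (ι → Eis) → ℝ → ℝ → ℝ) (Nt : ℝ) (Yw : (ι → Eis) → ℝ) (W : ℝ),
      (∀ β ∈ T, ∏ i, β i ≠ 0) → ∑ β ∈ T, wt β ≤ W → (∀ β ∈ T, 0 ≤ Yw β) →
      (∀ β ∈ T, Adm (Yw β) (Real.exp Nt / nm (∏ i, β i)) R (al β)) →
      (∀ β ∈ T, VN X H M (2 * K) (al β) (F β)) →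
      ∀ (Kk V E0 : ℝ), 1 ≤ Kk → Kk ≤ X ^ K → 1 ≤ V → V ≤ X ^ K → 1 ≤ E0 → E0 ≤ X ^ K →
      ∀ (J : Finset (Eis × Eis)) (om : Eis × Eis → ℂ), OKJ J →
      (∀ x ∈ J, (nm (x.2 * x.1 ^ 2) : ℝ) ≤ V) →
      (∀ x ∈ J, om x ≠ 0 → V ≤ c₀ * nm (x.2 * x.1 ^ 2)) → (∀ x, ‖om x‖ ≤ 1) →
      ∀ m : Eis, IsPrim m → (nm m : ℝ) ≤ X ^ K →
      ∀ A : Finset Eis, A ⊆ (primBall ⌊Kk⌋₊).filter CbF →
      (∀ k ∈ A, Kk ≤ Real.exp Rl * nm k) →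
      ∀ E : ℝ, (∀ β ∈ T, ∀ x b : ℝ, 0 ≤ x → 2 * x ≤ Real.log V / Real.log X → 0 ≤ b →
        b ≤ Real.log E0 / Real.log X →
        F β (Real.log V / Real.log X + b - 2 * x) (b + x) + 3 * x + b +
          q4 (Real.log Kk / Real.log X) (Real.log V / Real.log X) x +
          4 / 3 * (Real.log (nm (∏ i, β i)) / Real.log X) ≤ E) →
      ∑ k ∈ A, ‖SA T al E0 J om (k * m ^ 3)‖ ^ 4 ≤
        W ^ 4 * (H ^ M * (X ^ (E + ε) * (Real.exp Nt * V) ^ (-(1 / 3) : ℝ) *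
          Kk ^ (-(1 / 3) : ℝ))) ^ 2 := by
  obtain ⟨X₁, hX₁, H₁⟩ := one4 R hR hε K hK M hc₀ Rl hRl
  refine ⟨X₁, hX₁, ?_⟩
  intro X hX H hH T al F Nt Yw W hT hW hYw hA hV Kk V E0 hKk hKkX hV1 hVX hE0 hE0X J om hJ hJV hJl
    hom m hm hmX A hAs hlow E hF
  have hX1 : 1 < X := lt_of_lt_of_le hX₁ hX
  have hX0 : 0 < X := by linarith
  have hKk0 : 0 < Kk := by linarith
  have hV0 : 0 < V := by linarith
  refine tup4 hT al E0 J om A m (by positivity) hW fun β hβ => ?_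
  have hB := nm1 (hT β hβ)
  have hB0 : (0 : ℝ) < nm (∏ i, β i) := by linarith
  have h1 := H₁ X hX H hH (Yw β) (Real.exp Nt / nm (∏ i, β i)) (hYw β hβ) (by positivity) (al β)
    (hA β hβ) (F β) (hV β hβ) Kk V E0 hKk hKkX hV1 hVX hE0 hE0X J om hJ hJV hJl hom m hm hmX A hAs
    hlow (E - 4 / 3 * (Real.log (nm (∏ i, β i)) / Real.log X))
    (fun x b hx hx' hb0 hb1 => by
      have := hF β hβ x b hx hx' hb0 hb1
      linarith)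
  refine h1.trans (le_of_eq ?_)
  have e2 : E - 4 / 3 * (Real.log (nm (∏ i, β i)) / Real.log X) + ε =
      (E + ε) - 4 / 3 * (Real.log (nm (∏ i, β i)) / Real.log X) := by ring
  have e1 := tuple_eq (Nt := Nt) (E := E + ε) hX1 hB hV0 hKk0
  have e4 : wt β ^ 4 = (wt β ^ 2) ^ 2 := by ring
  rw [e2, e4, wt_sq (hT β hβ), ← mul_pow]
  congr 1
  calc H ^ M * X ^ (E + ε - 4 / 3 * (Real.log (nm (∏ i, β i)) / Real.log X)) *
        (Real.exp Nt / nm (∏ i, β i) * V) ^ (-(1 / 3) : ℝ) * Kk ^ (-(1 / 3) : ℝ)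
      = H ^ M * (X ^ (E + ε - 4 / 3 * (Real.log (nm (∏ i, β i)) / Real.log X)) *
        (Real.exp Nt / nm (∏ i, β i) * V) ^ (-(1 / 3) : ℝ) * Kk ^ (-(1 / 3) : ℝ)) := by ring
    _ = _ := by rw [e1]; ring

/-- **the weights of the powerful tuples** -/
theorem sum_wt (ι : Type*) [Fintype ι] {ε : ℝ} (hε : 0 < ε) (K : ℝ) (hK : 0 ≤ K) :
    ∃ X₀ : ℝ, 1 < X₀ ∧ ∀ X : ℝ, X₀ ≤ X → ∀ Y : ℕ, 1 ≤ Y → (Y : ℝ) ≤ X ^ K →
      ∀ T : Finset (ι → Eis), T ⊆ PT ι Y → ∑ β ∈ T, wt β ≤ X ^ ε := by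
  obtain ⟨C, hC, h1⟩ := E5d54.sum_pf_tuples' ι (ε := ε / 2 / (K + 1)) (by positivity)
  obtain ⟨X₂, hX₂, H₂⟩ := big C (ε / 2) 0 (by positivity) hC le_rfl
  refine ⟨X₂, hX₂, ?_⟩
  intro X hX Y hY hYX T hT
  have hX1 : 1 < X := lt_of_lt_of_le hX₂ hX
  have hX0 : 0 < X := by linarith
  have h3 := H₂ X hX
  rw [zero_mul, add_zero, mul_one] at h3
  calc ∑ β ∈ T, wt β ≤ ∑ β ∈ PT ι Y, wt β :=
        Finset.sum_le_sum_of_subset_of_nonneg hT fun β _ _ => by unfold wt; positivity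
    _ ≤ C * (Y : ℝ) ^ (ε / 2 / (K + 1)) := by
        refine le_trans (le_of_eq ?_) (h1 Y hY)
        unfold PT wt
        refine Finset.sum_congr ?_ fun _ _ => rfl
        congr!
    _ ≤ C * X ^ (ε / 2) := by
        refine mul_le_mul_of_nonneg_left ?_ hC
        calc (Y : ℝ) ^ (ε / 2 / (K + 1)) ≤ (X ^ K) ^ (ε / 2 / (K + 1)) :=
              Real.rpow_le_rpow (Nat.cast_nonneg _) hYX (by positivity)
          _ = X ^ (K * (ε / 2 / (K + 1))) := by rw [← Real.rpow_mul hX0.le]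
          _ ≤ X ^ (ε / 2) := by
              refine Real.rpow_le_rpow_of_exponent_le hX1.le ?_
              rw [mul_div_assoc', div_le_iff₀ (by positivity)]
              nlinarith
    _ ≤ X ^ (ε / 2) * X ^ (ε / 2) := mul_le_mul_of_nonneg_right h3 (by positivity)
    _ = X ^ ε := by rw [← Real.rpow_add hX0]; congr 1; ring

end Crest.Agent.R017.TSb968
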