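import Crest.Agent.R017.TUM_47
import Crest.Agent.R017.TUP2_47
import Crest.Agent.R017.TSb_968

/-!
# Row 17, R8: `TailU`, the second moment in class form, sum over the tuples (helper521)

* `OneT` : the second moment of one tuple at `k₁ m³`
* `sinC_of_one` : `SInC` from `OneT`
-/

set_option autoImplicit false

noncomputable section

open Finset
open scoped ComplexConjugate

namespace Crest.Agent.R017.SP521

open Crest.Agent.R012 Crest.Agent.R012.Eis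
open Crest.Agent.R017.FE47
open Crest.Agent.R017.XT71 (Sys Win)
open Crest.Agent.R017.B770 Crest.Agent.R017.Prov71
open Crest.Agent.R017.E5B71
open Crest.Agent.R017.E5L770
open Crest.Agent.R017.HP842 (Pc pc)
open Crest.Agent.R017.E5k54 (PT alb)
open Crest.Agent.R017.E2440 (TE StE)
open Crest.Agent.R017.TSa968 (SA wt tup2)
open Crest.Agent.R017.TSb968 (sum_wt)
open Crest.Agent.R017.TU47

variable {Λ : Type*} (π : Λ → DPar) (h : ℝ → ℝ)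

/-- the sequence of a tuple -/
def alt (lam : Λ × Eis) (a : Bd) (β : Fin 3 → Eis) : Eis → ℂ :=
  alb (fun i : Fin 3 => pc h (Pt (π lam.1) lam.2 ((![a.us 2, a.us 3, a.us 4] : Fin 3 → Pq) i))) β

/-- **second moment of one tuple** -/
def OneT (e0 r : ℝ) (Bf : ℝ → ℝ → ℝ → ℝ) (Jf : ℝ → ℝ → ℝ → Finset (Eis × Eis)) (A d : ℝ)
    (C : ℝ → ℝ → ℝ → Prop) (g : (Option (Fin 3 ⊕ Fin 5) → ℝ) × (Kd → ℝ) → ℝ → ℝ) : Prop :=
  ∀ R : Λ → ℝ, (∀ lam, 0 ≤ R lam) → ∀ ε : ℝ, 0 < ε → ∃ δ : ℝ, 0 < δ ∧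
    ∀ (lam : Λ × Eis) (N : ℕ) (B : ℝ), ∃ δ' : ℝ, 0 < δ' ∧ ∃ X₀ : ℝ, 1 < X₀ ∧
    ∀ X : ℝ, X₀ ≤ X → ∀ (a : Bd × ℕ) (q : (Option (Fin 3 ⊕ Fin 5) → ℝ) × (Kd → ℝ)),
      FrT A d δ δ' B X N a q → lam.2 ∈ SM (π lam.1).n →
      ∀ m : Eis, IsPrim m → (nm m : ℝ) ^ 3 ≤ Real.exp (a.1.l + R lam.1) →
      C (cκ (dn q.1)) (kf a.1.l (R lam.1) X m) δ →
      ∀ β ∈ SSb54.PTb (Fin 3) ⌊Real.exp (a3 a.1 + r)⌋₊ (Real.exp (Bf a.1.l (a3 a.1) a.1.z)),
      ∑ k ∈ KS (π lam.1).n (Real.exp (a.1.l - R lam.1)) (Real.exp (a.1.l + R lam.1)) m,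
          ‖StE (Real.exp (e0 * a.1.l)) (Jf a.1.l (a3 a.1) a.1.z) (omL a.2) (alt π h lam a.1 β)
            (k * m ^ 3)‖ ^ 2 ≤
        X ^ (g q (kf a.1.l (R lam.1) X m) + ε) * wt β ^ 2

/-- `SInC` of one level as a family of sequences -/
lemma atV (e0 r : ℝ) (Bf : ℝ → ℝ → ℝ → ℝ) (Jf : ℝ → ℝ → ℝ → Finset (Eis × Eis)) (i : ℕ)
    (lam : Λ × Eis) (a : Bd) (k : Eis) :
    SF.at (SfV π h e0 r Bf Jf i) lam a k = (pC : ℂ) *
      SA (SSb54.PTb (Fin 3) ⌊Real.exp (a3 a + r)⌋₊ (Real.exp (Bf a.l (a3 a) a.z)))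
        (alt π h lam a) (Real.exp (e0 * a.l)) (Jf a.l (a3 a) a.z) (omL i) k := by
  unfold SF.at SfV SfJ
  simp only [sum_a3]
  rfl

lemma PT_prim {ι : Type*} [Fintype ι] {Y : ℕ} {β : ι → Eis} (hβ : β ∈ PT ι Y) (i : ι) :
    IsPrim (β i) := by
  classical
  unfold E5k54.PT at hβ
  rw [mem_filter, Fintype.mem_piFinset] at hβ
  exact (mem_primBall.1 (hβ.1 i)).2

lemma PT_ne {Y : ℕ} {β : Fin 3 → Eis} (hβ : β ∈ PT (Fin 3) Y) : ∏ i, β i ≠ 0 :=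
  Finset.prod_ne_zero_iff.2 fun i _ => (PT_prim hβ i).ne_zero

/-- **the sum over the tuples** -/
theorem sinC_of_one {A d : ℝ} (hA : 2 / 3 ≤ A) {e0 r : ℝ} (hr : 0 ≤ r)
    (Bf : ℝ → ℝ → ℝ → ℝ) (Jf : ℝ → ℝ → ℝ → Finset (Eis × Eis)) {C : ℝ → ℝ → ℝ → Prop}
    {g : (Option (Fin 3 ⊕ Fin 5) → ℝ) × (Kd → ℝ) → ℝ → ℝ}
    (H : OneT π h e0 r Bf Jf A d C g) : SInC π (fun i => SfV π h e0 r Bf Jf i) A d 2 C g := by
  intro R hR ε hε
  obtain ⟨δ, hδ, H1⟩ := H R hR (ε / 2) (half_pos hε)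
  refine ⟨δ, hδ, fun lam N B => ?_⟩
  obtain ⟨δ', hδ', X₁, hX₁, H2⟩ := H1 lam N B
  obtain ⟨X₂, hX₂, H3⟩ := sum_wt (Fin 3) (ε := ε / 8) (by positivity) (1 + 3 * δ + r)
    (by positivity)
  obtain ⟨X₃, hX₃, H4⟩ := TEM792.big (‖(pC : ℂ)‖ ^ 2) (ε / 8) 0 (by positivity) (by positivity)
    le_rfl
  refine ⟨δ', hδ', max X₁ (max X₂ (max X₃ (Real.exp 1))), lt_max_of_lt_left hX₁, ?_⟩
  intro X hX a q hF hs m hm hmY hC
  have hXX1 : X₁ ≤ X := (le_max_left _ _).trans hX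
  have hXX2 : X₂ ≤ X := ((le_max_left _ _).trans (le_max_right _ _)).trans hX
  have hXX3 : X₃ ≤ X :=
    (((le_max_left _ _).trans (le_max_right _ _)).trans (le_max_right _ _)).trans hX
  have hXe : Real.exp 1 ≤ X :=
    (((le_max_right _ _).trans (le_max_right _ _)).trans (le_max_right _ _)).trans hX
  have hX1 : 1 < X := lt_of_lt_of_le hX₁ hXX1
  have hX0 : 0 < X := by linarith
  have hL1 : 1 ≤ Real.log X := (Real.le_log_iff_exp_le hX0).2 hXe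
  have hL0 : 0 < Real.log X := by linarith
  have hsz := szs hA hF.dom
  -- length of the three lumps
  have hz : ∀ i : Fin 5, |(a.1.us i).z / Real.log X - cu (dn q.1) i| ≤ δ := fun i => by
    have h1 := hF.win.ev (some (.inr i))
    exact h1
  have ha3 : a3 a.1 ≤ (1 + 3 * δ) * Real.log X := by
    have h2 := (abs_le.1 (hz 2)).2
    have h3 := (abs_le.1 (hz 3)).2
    have h4 := (abs_le.1 (hz 4)).2
    have h5 : (a.1.us 2).z / Real.log X + (a.1.us 3).z / Real.log X + (a.1.us 4).z / Real.log X ≤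
        1 + 3 * δ := by
      have h6 : cN (dn q.1) = cu (dn q.1) 2 + cu (dn q.1) 3 + cu (dn q.1) 4 := rfl
      have := hsz.N1
      linarith
    have h6 : a3 a.1 = ((a.1.us 2).z / Real.log X + (a.1.us 3).z / Real.log X +
        (a.1.us 4).z / Real.log X) * Real.log X := by
      unfold a3
      field_simp
    rw [h6]
    exact mul_le_mul_of_nonneg_right h5 hL0.le
  have ha0 : 0 ≤ a3 a.1 := by
    unfold a3
    have h2 := (hF.ok.1 2).2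
    have h3 := (hF.ok.1 3).2
    have h4 := (hF.ok.1 4).2
    linarith
  set Y : ℕ := ⌊Real.exp (a3 a.1 + r)⌋₊ with hYd
  have hY1 : 1 ≤ Y := Nat.one_le_floor_iff _ |>.2 (Real.one_le_exp (by linarith))
  have hYX : (Y : ℝ) ≤ X ^ (1 + 3 * δ + r) := by
    refine (Nat.floor_le (Real.exp_pos _).le).trans ?_
    rw [Real.rpow_def_of_pos hX0]
    refine Real.exp_le_exp.2 ?_
    have h1 : r ≤ r * Real.log X := le_mul_of_one_le_right hr hL1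
    nlinarith
  set T := SSb54.PTb (Fin 3) Y (Real.exp (Bf a.1.l (a3 a.1) a.1.z)) with hT
  have hTs : T ⊆ PT (Fin 3) Y := SSb54.PTb_sub _ _
  have hW := H3 X hXX2 Y hY1 hYX T hTs
  have h1 := tup2 (T := T) (fun β hβ => PT_ne (hTs hβ)) (alt π h lam a.1)
    (Real.exp (e0 * a.1.l)) (Jf a.1.l (a3 a.1) a.1.z) (omL a.2)
    (KS (π lam.1).n (Real.exp (a.1.l - R lam.1)) (Real.exp (a.1.l + R lam.1)) m) m
    (G := X ^ (g q (kf a.1.l (R lam.1) X m) + ε / 2)) (W := X ^ (ε / 8)) (by positivity) hW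
    (fun β hβ => H2 X hXX1 a q hF hs m hm hmY hC β hβ)
  have h4 := H4 X hXX3
  rw [zero_mul, add_zero, mul_one] at h4
  have e1 : ∀ k, ‖(fun i => SfV π h e0 r Bf Jf i) a.2 |>.at lam a.1 (k * m ^ 3)‖ ^ 2 =
      ‖(pC : ℂ)‖ ^ 2 * ‖SA T (alt π h lam a.1) (Real.exp (e0 * a.1.l))
        (Jf a.1.l (a3 a.1) a.1.z) (omL a.2) (k * m ^ 3)‖ ^ 2 := fun k => by
    rw [← mul_pow, ← norm_mul]
    exact congrArg (fun z => ‖z‖ ^ 2) (atV π h e0 r Bf Jf a.2 lam a.1 (k * m ^ 3))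
  calc ∑ k ∈ KS (π lam.1).n (Real.exp (a.1.l - R lam.1)) (Real.exp (a.1.l + R lam.1)) m,
        ‖((fun i => SfV π h e0 r Bf Jf i) a.2).at lam a.1 (k * m ^ 3)‖ ^ 2
      = ‖(pC : ℂ)‖ ^ 2 * ∑ k ∈ KS (π lam.1).n (Real.exp (a.1.l - R lam.1))
          (Real.exp (a.1.l + R lam.1)) m, ‖SA T (alt π h lam a.1) (Real.exp (e0 * a.1.l))
        (Jf a.1.l (a3 a.1) a.1.z) (omL a.2) (k * m ^ 3)‖ ^ 2 := by
        rw [Finset.mul_sum]
        exact Finset.sum_congr rfl fun k _ => e1 k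
    _ ≤ X ^ (ε / 8) * ((X ^ (ε / 8)) ^ 2 * X ^ (g q (kf a.1.l (R lam.1) X m) + ε / 2)) :=
        mul_le_mul h4 h1 (Finset.sum_nonneg fun _ _ => by positivity) (by positivity)
    _ = X ^ (g q (kf a.1.l (R lam.1) X m) + ε / 2 + ε / 8 + ε / 4) := by
        rw [← Real.rpow_natCast (X ^ (ε / 8)), ← Real.rpow_mul hX0.le, ← Real.rpow_add hX0,
          ← Real.rpow_add hX0]
        congr 1
        push_cast
        ring
    _ ≤ X ^ (g q (kf a.1.l (R lam.1) X m) + ε) :=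
        Real.rpow_le_rpow_of_exponent_le hX1.le (by linarith)

end Crest.Agent.R017.SP521
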