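import Crest.Agent.R017.TEN_792
import Crest.Agent.R017.E1zc_551

/-!
# Row 17, R8 (helper968): joint blocks from pointwise numbers

* `jb_vn` : helper792's `VN` gives the joint blocks `JB` of helper551
-/

set_option autoImplicit false

noncomputable section

open Finset
open scoped Classical

namespace Crest.Agent.R017.SPj968

open Crest.Agent.R012 Crest.Agent.R012.Eis
open Crest.Agent.R012.LS2 (S mem_S bl mem_bl)
open Crest.Agent.R017.CM106 (CS FS TG)
open Crest.Agent.R017.E1551 hiding tau Dg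
open Crest.Agent.R017.Rough381 (VF VF_nonneg)
open Crest.Agent.R017.TEM792 (VN PM_one)
open Crest.Agent.R017.TEL792 (PM)

lemma sum_BF_TG (V : ℝ) (w : Eis → ℂ) : ∑ r ∈ BF V, ‖TG w r‖ ^ 2 = VF V w := by
  unfold Rough381.VF
  have e : BF V = (bl V).filter Prov71.CubeFree := by
    ext r
    unfold BF bl
    rw [Finset.mem_filter, Finset.mem_filter, Finset.mem_erase]
    constructor
    · rintro ⟨h1, h2⟩; exact ⟨⟨h2.1, h1⟩, h2⟩
    · rintro ⟨h1, h2⟩; exact ⟨h1.2, h2⟩
  rw [e]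

/-- one `U` -/
lemma one_U {X H K Y p R : ℝ} {M : ℕ} {α : Eis → ℂ} {F : ℝ → ℝ → ℝ} (hX : 3 ≤ X) (hH : 1 ≤ H)
    (hY : 1 ≤ Y) (hYY : Y * Y ≤ X ^ K)
    (hF : ∀ v γ σ : ℝ, 0 ≤ v → 0 ≤ γ → 0 ≤ σ → F v γ ≤ F v (γ + σ) + 3 * σ)
    (hV : VN X H M K α F) (hA : Adm Y (Real.exp p) R α) {d U : Eis} (hd : d ∈ S Y) (hU : U ∈ S Y)
    {B V : ℝ} (hB : 1 ≤ B) (hV1 : 1 ≤ V) (hBV : V * B ≤ X ^ K) (hU1 : B / 2 < nm U)
    (hU2 : (nm U : ℝ) ≤ B) (t : ℝ) :
    ∑ κ ∈ BU V U, ‖TG (tws (sg α (d * U)) t) (κ * U)‖ ^ 2 ≤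
      8 * H ^ M * Real.exp (Real.log X * F ((Real.log V + Real.log B) / Real.log X)
        ((Real.log (nm d) + Real.log B) / Real.log X)) * (1 + |t|) ^ (3 * (M : ℝ)) := by
  have hX0 : 0 < X := by linarith
  have hX1 : 1 < X := by linarith
  have hL : 0 < Real.log X := Real.log_pos hX1
  have hY0 : 0 ≤ Y := by linarith
  obtain ⟨d1, d2, d3⟩ := (mem_S hY0).1 hd
  obtain ⟨u1, u2, u3⟩ := (mem_S hY0).1 hU
  have hV0 : 0 < V := by linarith
  have hB0 : 0 < B := by linarith
  have hVB : 0 < V * B := by positivity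
  have hd0 : (0 : ℝ) < nm d := nmpos d2.ne_zero
  have hU0 : (0 : ℝ) < nm U := nmpos u2.ne_zero
  have hd1 : (1 : ℝ) ≤ nm d := nm_ge_one d2.ne_zero
  have hU1' : (1 : ℝ) ≤ nm U := nm_ge_one u2.ne_zero
  have h1 : ∑ κ ∈ BU V U, ‖TG (tws (sg α (d * U)) t) (κ * U)‖ ^ 2 ≤
      ∑ r ∈ BF (V * B), ‖TG (tws (sg α (d * U)) t) r‖ ^ 2 :=
    sum_BU_le (F := fun r => ‖TG (tws (sg α (d * U)) t) r‖ ^ 2) u2.ne_zero
      (mul_le_mul_of_nonneg_left hU2 hV0.le) fun _ => by positivity
  rw [sum_BF_TG] at h1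
  have e1 : Real.exp (Real.log V + Real.log B) = V * B := by
    rw [Real.exp_add, Real.exp_log hV0, Real.exp_log hB0]
  have hk0 : 0 ≤ Real.log V + Real.log B :=
    add_nonneg (Real.log_nonneg hV1) (Real.log_nonneg hB)
  have hkK : Real.log V + Real.log B ≤ K * Real.log X := by
    rw [← Real.log_mul hV0.ne' hB0.ne', ← Real.log_rpow hX0]
    exact Real.log_le_log hVB hBV
  have e2 : (nm (d * U) : ℝ) = nm d * nm U := by rw [nm_mul]; push_cast; ring
  have h2 := hV.all hX0 (by linarith) hY0 hA.sup (d2.mul u2) (by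
    rw [e2]
    exact (mul_le_mul d1 u1 hU0.le hY0).trans hYY) one_ne_zero (by
    rw [nm_one, Nat.cast_one]
    exact le_trans (by nlinarith) hYY) hk0 hkK t
  rw [PM_one, e1] at h2
  refine h1.trans (h2.trans ?_)
  have hH0 : 0 < H := by linarith
  have ht : 0 ≤ (1 + |t|) ^ (3 * (M : ℝ)) := by positivity
  have e3 : Real.log (nm (d * U)) = Real.log (nm d) + Real.log (nm U) := by
    rw [e2, Real.log_mul hd0.ne' hU0.ne']
  obtain ⟨σ, hσ⟩ : ∃ σ, σ = (Real.log B - Real.log (nm U)) / Real.log X := ⟨_, rfl⟩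
  have hσ1 : Real.log (nm U) ≤ Real.log B := Real.log_le_log hU0 hU2
  have hσ0 : 0 ≤ σ := by rw [hσ]; exact div_nonneg (by linarith) hL.le
  have hσ2 : Real.log X * σ ≤ Real.log 2 := by
    rw [hσ, mul_div_cancel₀ _ hL.ne']
    have h3 := Real.log_le_log (by positivity) hU1.le
    rw [Real.log_div hB0.ne' two_ne_zero] at h3
    linarith
  have hγ : 0 ≤ Real.log (nm (d * U)) / Real.log X := by
    rw [e3]
    exact div_nonneg (add_nonneg (Real.log_nonneg hd1) (Real.log_nonneg hU1')) hL.le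
  have h4 := hF ((Real.log V + Real.log B) / Real.log X) (Real.log (nm (d * U)) / Real.log X) σ
    (by positivity) hγ hσ0
  have e4 : Real.log (nm (d * U)) / Real.log X + σ =
      (Real.log (nm d) + Real.log B) / Real.log X := by
    rw [hσ, e3]; ring
  rw [e4] at h4
  have h5 : X ^ F ((Real.log V + Real.log B) / Real.log X)
      (Real.log (nm (d * U)) / Real.log X) ≤
      8 * Real.exp (Real.log X * F ((Real.log V + Real.log B) / Real.log X)
        ((Real.log (nm d) + Real.log B) / Real.log X)) := by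
    rw [Real.rpow_def_of_pos hX0]
    have e5 : (8 : ℝ) = Real.exp (3 * Real.log 2) := by
      rw [show (3 : ℝ) * Real.log 2 = Real.log 2 + Real.log 2 + Real.log 2 by ring, Real.exp_add,
        Real.exp_add, Real.exp_log two_pos]; norm_num
    rw [e5, ← Real.exp_add]
    refine Real.exp_le_exp.2 ?_
    have h6 := mul_le_mul_of_nonneg_left h4 hL.le
    rw [mul_add] at h6
    have e6 : Real.log X * (3 * σ) = 3 * (Real.log X * σ) := by ring
    rw [e6] at h6
    linarith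
  calc H ^ M * X ^ F ((Real.log V + Real.log B) / Real.log X)
        (Real.log (nm (d * U)) / Real.log X) * (1 + |t|) ^ (3 * (M : ℝ))
      ≤ H ^ M * (8 * Real.exp (Real.log X * F ((Real.log V + Real.log B) / Real.log X)
        ((Real.log (nm d) + Real.log B) / Real.log X))) * (1 + |t|) ^ (3 * (M : ℝ)) := by gcongr
    _ = _ := by ring

/-- **one joint block** -/
theorem jb_vn {X H K Y p R : ℝ} {M : ℕ} {α : Eis → ℂ} {F : ℝ → ℝ → ℝ} (hR : 0 ≤ R)
    (hX : 3 ≤ X) (hH : 1 ≤ H) (hY : 1 ≤ Y) (hYY : Y * Y ≤ X ^ K)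
    (hF : ∀ v γ σ : ℝ, 0 ≤ v → 0 ≤ γ → 0 ≤ σ → F v γ ≤ F v (γ + σ) + 3 * σ)
    (hV : VN X H M K α F) (hA : Adm Y (Real.exp p) R α) {d : Eis} (hd : d ∈ S Y)
    {B V : ℝ} (hB : 1 ≤ B) (hV1 : 1 ≤ V) (hBV : V * B ≤ X ^ K) (t : ℝ) :
    JB Y α (fun _ => True) d B V t ≤
      800 * Real.exp (R / 2) * H ^ M * Real.exp (Real.log X *
        F ((Real.log V + Real.log B) / Real.log X) ((Real.log (nm d) + Real.log B) / Real.log X) +
          min (Real.log B) (max 0 (p - Real.log (nm d)))) * (1 + |t|) ^ (3 * (M : ℝ)) := by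
  have hY0 : 0 ≤ Y := by linarith
  have hB0 : 0 < B := by linarith
  have hH0 : 0 < H := by linarith
  obtain ⟨d1, d2, d3⟩ := (mem_S hY0).1 hd
  have hd0 : (0 : ℝ) < nm d := nmpos d2.ne_zero
  obtain ⟨N, hN⟩ : ∃ N, N = 8 * H ^ M * Real.exp (Real.log X *
    F ((Real.log V + Real.log B) / Real.log X) ((Real.log (nm d) + Real.log B) / Real.log X)) *
      (1 + |t|) ^ (3 * (M : ℝ)) := ⟨_, rfl⟩
  have hN0 : 0 ≤ N := by rw [hN]; positivity
  obtain ⟨P, hP⟩ : ∃ P, P = min B (Real.exp (p - Real.log (nm d) + R / 2)) := ⟨_, rfl⟩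
  have hP0 : 0 ≤ P := by rw [hP]; exact le_min hB0.le (Real.exp_pos _).le
  have main : ∀ T : Finset Eis, (∀ U ∈ T, U ∈ S Y ∧ B / 2 < nm U ∧ (nm U : ℝ) ≤ B) →
      ∑ U ∈ T, ∑ κ ∈ BU V U, ‖TG (tws (sg α (d * U)) t) (κ * U)‖ ^ 2 ≤ 100 * P * N := by
    intro T hT
    have key : ∀ U ∈ T, ∑ κ ∈ BU V U, ‖TG (tws (sg α (d * U)) t) (κ * U)‖ ^ 2 ≤
        if U ∈ primBall ⌊P⌋₊ then N else 0 := by
      intro U hU
      obtain ⟨h1, h2, h3⟩ := hT U hU
      have hU0 : (0 : ℝ) < nm U := nmpos ((mem_S hY0).1 h1).2.1.ne_zero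
      split_ifs with h
      · rw [hN]
        exact one_U hX hH hY hYY hF hV hA hd h1 hB hV1 hBV h2 h3 t
      · have hz : sg α (d * U) = fun _ => 0 := by
          funext n
          by_contra hn
          have hw := hA.win _ hn
          have hs := (mem_S hY0).1 (hA.sup _ hn)
          have hn0 : n ≠ 0 := fun h0 => hs.2.1.ne_zero (by rw [h0, mul_zero])
          have hn1 : (1 : ℝ) ≤ nm n := nm_ge_one hn0
          have e1 : (nm (d * U * n) : ℝ) = nm d * nm U * nm n := by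
            rw [nm_mul, nm_mul]; push_cast; ring
          rw [e1, Real.log_mul (by positivity) (by positivity), Real.log_mul hd0.ne' hU0.ne',
            Real.log_exp] at hw
          have h4 := (abs_le.1 hw).2
          have h5 := Real.log_nonneg hn1
          apply h
          rw [mem_primBall]
          refine ⟨Nat.le_floor ?_, ((mem_S hY0).1 h1).2.1⟩
          rw [hP]
          refine le_min h3 ?_
          rw [← Real.log_le_iff_le_exp hU0]
          linarith
        rw [hz]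
        refine (Finset.sum_eq_zero fun κ _ => ?_).le
        unfold E1551.tws CM106.TG
        simp
    refine (Finset.sum_le_sum key).trans ?_
    rw [← Finset.sum_filter, Finset.sum_const, nsmul_eq_mul]
    refine mul_le_mul_of_nonneg_right ?_ hN0
    have h1 : T.filter (fun U => U ∈ primBall ⌊P⌋₊) ⊆ primBall ⌊P⌋₊ :=
      fun U hU => (mem_filter.1 hU).2
    have h2 : ((primBall ⌊P⌋₊).card : ℝ) ≤ 100 * (⌊P⌋₊ : ℝ) :=
      le_trans (by exact_mod_cast Finset.card_le_card (Div277.primBall_subset_nz ⌊P⌋₊))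
        (Div277.card_nz_le ⌊P⌋₊)
    have h3 : ((T.filter (fun U => U ∈ primBall ⌊P⌋₊)).card : ℝ) ≤
        ((primBall ⌊P⌋₊).card : ℝ) := by
      exact_mod_cast Finset.card_le_card h1
    have h4 : (⌊P⌋₊ : ℝ) ≤ P := Nat.floor_le hP0
    linarith
  have hPe : P ≤ Real.exp (R / 2) *
      Real.exp (min (Real.log B) (max 0 (p - Real.log (nm d)))) := by
    rw [← Real.exp_add, ← min_add_add_left, hP]
    rcases le_total (R / 2 + Real.log B) (R / 2 + max 0 (p - Real.log (nm d))) with h | h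
    · rw [min_eq_left h]
      refine (min_le_left _ _).trans ?_
      rw [Real.exp_add, Real.exp_log hB0]
      exact le_mul_of_one_le_left hB0.le (Real.one_le_exp (by linarith))
    · rw [min_eq_right h]
      refine (min_le_right _ _).trans (Real.exp_le_exp.2 ?_)
      linarith [le_max_right 0 (p - Real.log (nm d))]
  have h0 : JB Y α (fun _ => True) d B V t ≤ 100 * P * N := by
    unfold E1551.JB
    refine main _ fun U hU => ?_
    simp only [mem_filter] at hU
    exact ⟨hU.1, hU.2.1, hU.2.2.1⟩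
  calc JB Y α (fun _ => True) d B V t ≤ 100 * P * N := h0
    _ ≤ 100 * (Real.exp (R / 2) * Real.exp (min (Real.log B) (max 0 (p - Real.log (nm d))))) * N :=
        by gcongr
    _ = _ := by rw [hN, Real.exp_add]; ring

end Crest.Agent.R017.SPj968
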