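import Crest.Agent.R017.SPXz_521
import Crest.Agent.R017.GrX4_968
import Crest.Agent.R017.LfE_986

/-!
# Row 17, class E, R8 (helper968): `SPInX` at the top data, every cut

* **`spE`** : the field `sp` of helper986's `LvE`
-/

set_option autoImplicit false

noncomputable section

namespace Crest.Agent.R017.SPw968

open Crest.Agent.R012 Crest.Agent.R012.Eis
open Crest.Agent.R017.FE47 Crest.Agent.R017.End699
open Crest.Agent.R017.B770 Crest.Agent.R017.BxH986
open Crest.Agent.R017.Prov71 hiding K0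
open Crest.Agent.R017.ER911
open Crest.Agent.R017.E5B71
open Crest.Agent.R017.E5L770
open Crest.Agent.R017.E5LX770
open Crest.Agent.R017.SC777
open Crest.Agent.R017.Fin4 Crest.Agent.R017.Fin5 Crest.Agent.R017.Fin6
open Crest.Agent.R017.Red848 (red Exc)
open Crest.Agent.R017.PX764 (Dk)
open Crest.Agent.R017.XS0298 (S0x S0K)
open Crest.Agent.R017.Sg986 (AA AA_lt AA_eq AA_ge)
open Crest.Agent.R017.NrX986 (NearAllX)
open Crest.Agent.R017.Sf770 (JS)
open Crest.Agent.R017.TU47 (SPInX SxE)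
open Crest.Agent.R017.SPXz521 (ownQE rclXE)

/-- **`SPInX` at the top data, every cut, one gain** -/
theorem spE {d : ℝ} (hd : 0 < d) (hd1 : d ≤ 1 / 42) {h : ℝ → ℝ} {c₀ : ℝ} (hpu : PU h c₀)
    (hPF : PF Set.univ (7 / 8 + d)) (P : BunE d h) (G : RecE d h)
    (near : NearAllX d (ex Dq (fun lam => S0x (red (πE lam)) h))) (r : ℝ) :
    ∃ μ₁ : ℝ, 0 < μ₁ ∧ ∀ e : ℝ, 0 < e → e ≤ 1 / 64 →
      SPInX πE (SxE πE h e r (bfE (d / 4)) (fun l N z => JS (nL l N z))) (AA d) d βX μ₁ :=
  ⟨1 / 450, by norm_num, fun e he he1 =>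
    GrX968.spinX hpu (fun lam => lam.2.1) (fun lam => XT6241.exc_piE lam) rfl hd.le (by linarith)
      (AA_lt hd).le (AA_eq d) (ownQE hd hd1 P G near) (rclXE hd hd1 hpu hPF P) le_rfl he.le he1 r
      (fun i l N z => LfE986.bfE_le i l N z) (fun i l N z => LfE986.bfE_le2 d i l N z)⟩

end Crest.Agent.R017.SPw968

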