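import Crest.Agent.R017.SimplexChk_90

/-!
# Coverage : use of simplicial certificates for sorted lumps (helper90)

`good_sx` : a certificate `c` for `k` lumps whose base forms are (multiples of) standard forms
(`u` antitone, `13/100 ≤ u`, `∑ u ≤ 4/3`) or extra root forms.
-/

set_option autoImplicit false

namespace Crest.Agent.R017.SX90

open Finset Cov499

/-- value of a form on `[1, u, v]` -/
theorem phi_hvec {k : ℕ} (f : List ℤ) (hf : f.length ≤ k + 2) (u : Fin k → ℝ) (v : ℝ) :
    phi f (hvec u v) = (f.getD 0 0 : ℝ) + ∑ j : Fin k, ((f.getD (j + 1) 0 : ℤ) : ℝ) * u j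
      + ((f.getD (k + 1) 0 : ℤ) : ℝ) * v := by
  have e : phi f (hvec u v) = ∑ a ∈ range (k + 2), ((f.getD a 0 : ℤ) : ℝ) * hvec u v a := by
    unfold phi
    refine Finset.sum_subset (Finset.range_subset_range.2 hf) fun a _ ha => ?_
    rw [Finset.mem_range, not_lt] at ha
    rw [List.getD_eq_default _ _ ha]; simp
  rw [e, Finset.sum_range_succ, Finset.sum_range_succ', Finset.sum_range, hvec_zero, hvec_v]
  have e1 : ∑ i : Fin k, ((f.getD (i + 1) 0 : ℤ) : ℝ) * hvec u v (i + 1)
      = ∑ j : Fin k, ((f.getD (j + 1) 0 : ℤ) : ℝ) * u j :=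
    Finset.sum_congr rfl fun i _ => by rw [hvec_u]
  rw [e1]; ring

/-- proportional with a positive factor (or `f = 0`) -/
def propto (f g : List ℤ) : Bool :=
  let a := ((g.find? (· ≠ 0)).getD 0).natAbs
  let b := ((f.find? (· ≠ 0)).getD 0).natAbs
  decide (0 < a) && decide (0 < b) && (f.map fun z => (a : ℤ) * z) == (g.map fun z => (b : ℤ) * z)

theorem phi_smul (f : List ℤ) (a : ℤ) (x : ℕ → ℝ) :
    phi (f.map fun z => a * z) x = a * phi f x := by
  unfold phi
  rw [List.length_map, Finset.mul_sum]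
  refine Finset.sum_congr rfl fun i hi => ?_
  have hi' := Finset.mem_range.1 hi
  have h1 : i < (f.map fun z => a * z).length := by rw [List.length_map]; exact hi'
  rw [List.getD_eq_getElem _ _ h1, List.getD_eq_getElem _ _ hi', List.getElem_map]
  push_cast; ring

theorem phi_propto {f g : List ℤ} (h : propto f g = true) (x : ℕ → ℝ) (hg : 0 ≤ phi g x) :
    0 ≤ phi f x := by
  simp only [propto, Bool.and_eq_true, decide_eq_true_eq, beq_iff_eq] at h
  obtain ⟨⟨ha, hb⟩, he⟩ := h
  have h1 := phi_smul f (((g.find? (· ≠ 0)).getD 0).natAbs : ℤ) x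
  have h2 := phi_smul g (((f.find? (· ≠ 0)).getD 0).natAbs : ℤ) x
  rw [he, h2] at h1
  have ha' : (0 : ℝ) < ((((g.find? (· ≠ 0)).getD 0).natAbs : ℤ) : ℝ) := by exact_mod_cast ha
  have hb' : (0 : ℝ) < ((((f.find? (· ≠ 0)).getD 0).natAbs : ℤ) : ℝ) := by exact_mod_cast hb
  have h3 : 0 ≤ ((((f.find? (· ≠ 0)).getD 0).natAbs : ℤ) : ℝ) * phi g x :=
    mul_nonneg hb'.le hg
  rw [h1] at h3
  by_contra hcon
  push Not at hcon
  nlinarith

/-- `u_j - u_{j+1}` -/
def antiForm (k j : ℕ) : List ℤ :=
  (List.range (k + 1)).map fun a => if a = j + 1 then 1 else if a = j + 2 then -1 else 0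

/-- standard forms: `100 u_j - 13`, `u_j - u_{j+1}`, `4 - 3 ∑ u` -/
def stdForms (k : ℕ) : List (List ℤ) :=
  ((List.range k).map fun j => (List.range (k + 1)).map fun a =>
      if a = 0 then -13 else if a = j + 1 then 100 else 0) ++
  ((List.range (k - 1)).map fun j => antiForm k j) ++
  [(List.range (k + 1)).map fun a => if a = 0 then 4 else -3]

theorem getD_map_range (m : ℕ) (g : ℕ → ℤ) (a : ℕ) (ha : a < m) :
    ((List.range m).map g).getD a 0 = g a := by
  have h1 : a < ((List.range m).map g).length := by simpa using ha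
  rw [List.getD_eq_getElem _ _ h1, List.getElem_map, List.getElem_range]

theorem getD_map_range' (m : ℕ) (g : ℕ → ℤ) (a : ℕ) (ha : m ≤ a) :
    ((List.range m).map g).getD a 0 = 0 := by
  rw [List.getD_eq_default]; simpa using ha

theorem std_nonneg {k : ℕ} {u : Fin k → ℝ} {v : ℝ} (ha : Antitone u)
    (hlo : ∀ j, 13 / 100 ≤ u j) (hs : ∑ j, u j ≤ 4 / 3) :
    ∀ f ∈ stdForms k, 0 ≤ phi f (hvec u v) := by
  intro f hf
  unfold stdForms at hf
  rw [List.mem_append, List.mem_append] at hf
  rcases hf with (hf | hf) | hf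
  · obtain ⟨j, hj, rfl⟩ := List.mem_map.1 hf
    rw [List.mem_range] at hj
    rw [phi_hvec _ (by simp), getD_map_range _ _ 0 (by omega), getD_map_range' _ _ _ le_rfl]
    have e : ∑ i : Fin k, ((((List.range (k + 1)).map fun a =>
        if a = 0 then (-13 : ℤ) else if a = j + 1 then 100 else 0).getD (i + 1) 0 : ℤ) : ℝ) * u i
        = 100 * u ⟨j, hj⟩ := by
      rw [Finset.sum_eq_single (⟨j, hj⟩ : Fin k)]
      · rw [getD_map_range _ _ _ (by simp only; omega)]; simp
      · intro i _ hne
        rw [getD_map_range _ _ _ (by omega)]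
        have : (i : ℕ) ≠ j := fun h => hne (Fin.ext h)
        simp [this]
      · intro h; exact absurd (Finset.mem_univ _) h
    rw [e]
    have := hlo ⟨j, hj⟩
    simp only [if_pos, Int.cast_neg, Int.cast_ofNat, Int.cast_zero, zero_mul, add_zero]
    linarith
  · obtain ⟨j, hj, rfl⟩ := List.mem_map.1 hf
    rw [List.mem_range] at hj
    unfold antiForm
    rw [phi_hvec _ (by simp), getD_map_range _ _ 0 (by omega), getD_map_range' _ _ _ le_rfl]
    have h1 : j < k := by omega
    have h2 : j + 1 < k := by omega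
    have e : ∑ i : Fin k, ((((List.range (k + 1)).map fun a =>
        if a = j + 1 then (1 : ℤ) else if a = j + 2 then -1 else 0).getD (i + 1) 0 : ℤ) : ℝ) * u i
        = u ⟨j, h1⟩ - u ⟨j + 1, h2⟩ := by
      have e0 : ∀ i : Fin k, ((((List.range (k + 1)).map fun a =>
          if a = j + 1 then (1 : ℤ) else if a = j + 2 then -1 else 0).getD (i + 1) 0 : ℤ) : ℝ)
          * u i = (if i = ⟨j, h1⟩ then u i else 0) - (if i = ⟨j + 1, h2⟩ then u i else 0) := by
        intro i
        rw [getD_map_range _ _ _ (by omega)]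
        by_cases c1 : i = ⟨j, h1⟩
        · subst c1; simp
        · have c1' : (i : ℕ) ≠ j := fun h => c1 (Fin.ext h)
          by_cases c2 : i = ⟨j + 1, h2⟩
          · subst c2; simp
          · have c2' : (i : ℕ) ≠ j + 1 := fun h => c2 (Fin.ext h)
            simp [c1, c2, c1', c2']
      simp only [e0]
      rw [Finset.sum_sub_distrib, Finset.sum_ite_eq', Finset.sum_ite_eq']
      simp
    rw [e]
    have := ha (show (⟨j, h1⟩ : Fin k) ≤ ⟨j + 1, h2⟩ from by simp [Fin.le_def])
    simp only [show (0 : ℕ) ≠ j + 1 from by omega, show (0 : ℕ) ≠ j + 2 from by omega, if_false,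
      Int.cast_zero, zero_mul, add_zero, zero_add]
    linarith
  · rw [List.mem_singleton] at hf
    subst hf
    rw [phi_hvec _ (by simp), getD_map_range _ _ 0 (by omega), getD_map_range' _ _ _ le_rfl]
    have e : ∑ i : Fin k, ((((List.range (k + 1)).map fun a =>
        if a = 0 then (4 : ℤ) else -3).getD (i + 1) 0 : ℤ) : ℝ) * u i = -3 * ∑ i, u i := by
      rw [Finset.mul_sum]
      refine Finset.sum_congr rfl fun i _ => ?_
      rw [getD_map_range _ _ _ (by omega)]; simp
    rw [e]
    simp only [if_pos, Int.cast_ofNat, Int.cast_zero, zero_mul, add_zero]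
    linarith

/-- the base forms are standard or extra, the root forms are extra (or standard) -/
def okForms (k : ℕ) (E : List (List ℤ)) (c : Cert) : Bool :=
  (c.base.all fun q => (stdForms k ++ E).any fun g => propto q.2.1 g) &&
  (c.G.all fun f => (stdForms k ++ E).any fun g => propto f g)

section
variable {C0 C2 : CP} (T : Tm C0 C2)
include T

/-- **use of a certificate** -/
theorem good_sx {k : ℕ} {two : Bool} (c : Cert) (E : List (List ℤ))
    (h : c.chk k 1 two = true) (hf : okForms k E c = true) {u : Fin k → ℝ} {v : ℝ}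
    (ha : Antitone u) (hlo : ∀ j, 13 / 100 ≤ u j) (hs : ∑ j, u j ≤ 4 / 3)
    (hE : ∀ f ∈ E, 0 ≤ phi f (hvec u v)) (hv0 : (c.n₀ : ℝ) / c.d ≤ v)
    (hv1 : v ≤ (c.n₁ : ℝ) / c.d) :
    (two = false → GCov0 C0 u v) ∧ (two = true → GCov2 C2 u v) := by
  simp only [okForms, Bool.and_eq_true, List.all_eq_true, List.any_eq_true] at hf
  have hall : ∀ g ∈ stdForms k ++ E, 0 ≤ phi g (hvec u v) := by
    intro g hg
    rcases List.mem_append.1 hg with h | h
    · exact std_nonneg ha hlo hs g h
    · exact hE g h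
  have := chk_sound T h u v hs hv0 hv1
    (fun q hq => by
      obtain ⟨g, hg, hp⟩ := hf.1 q hq
      exact phi_propto hp _ (hall g hg))
    (fun f hf' => by
      obtain ⟨g, hg, hp⟩ := hf.2 f hf'
      exact phi_propto hp _ (hall g hg))
  exact ⟨fun ht => (this.1 ht).trim.to0, fun ht => (this.2 ht).trim⟩

end

end Crest.Agent.R017.SX90
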