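import Crest.Agent.R017.SXGlue_90

/-!
# Coverage : the columns of `CovDefs_499` satisfy `Tm` (helper90)
-/

set_option autoImplicit false

namespace Crest.Agent.R017.SX90

open Finset Cov499

/-- the columns `Col0`, `Col2` -/
theorem tm499 : Tm Col0 Col2 where
  zero hv h := h.zero hv
  of0 h := .of0 _ _ _ h
  t6 v y₁ y₂ Z X tz tx N h1 h2 h3 h4 h5 h6 := .t6 y₁ y₂ Z X tz tx N h1 h2 h3 h4 h5 h6
  t6s v y₁ Z X tz tx N h1 h2 h3 h4 h5 h6 := .t6s y₁ Z X tz tx N h1 h2 h3 h4 h5 h6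
  t1 v y₁ y₂ V t N h1 h2 h3 h4 := .t1 y₁ y₂ V t N h1 h2 h3 h4
  t3a v y₁ y₂ y₃ N h1 h2 h6 h7 h8 h9 h10 h11 h5 := by
    apply Col0.t3a y₁ y₂ y₃ N <;> linarith
  t3l v y₁ y₂ y₃ N h1 h2 h3 h4 h5 := .t3l y₁ y₂ y₃ N h1 h2 h3 h4 h5
  c5v v V W t N hc h12 hS hV hN h5 := .c5v V W t N hc h12 hS hV hN h5
  c5b v V W t N hc hb h12 hS hV hN h5 :=
    .c5b V W t N hc h12 (fun y hy => by linarith [hb y hy]) hS hV hN h5
  t7c v y₁ y₂ y₃ N h32 h21 n1 n2 n3 n4 n5 h5 := .t7c y₁ y₂ y₃ N h32 h21 n1 n2 n3 n4 n5 h5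
  t6v v y₁ Z X tz tx N h1 h2 h3 h4 h5 h6 := .t6v y₁ Z X tz tx N h1 h2 h3 h4 h5 h6
  t1v v y₁ V t N h1 h2 h3 h4 := .t1v y₁ V t N h1 h2 h3 h4
  c5vw v V W Y t N hY hc h12 hS hV hN h5 := .c5vw V W Y t N hY hc h12 hS hV hN h5
  c5bw v V W Y t N hY hc hb h12 hS hV hN h5 :=
    .c5bw V W Y t N hY hc h12 (fun y hy => by linarith [hb y hy]) hS hV hN h5

/-- **Cov0 / Cov2 from a certificate** -/
theorem cov_sx {k : ℕ} {two : Bool} (c : Cert) (E : List (List ℤ))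
    (h : c.chk k 1 two = true) (hf : okForms k E c = true) {u : Fin k → ℝ} {v : ℝ}
    (ha : Antitone u) (hlo : ∀ j, 13 / 100 ≤ u j) (hs : ∑ j, u j ≤ 4 / 3)
    (hE : ∀ f ∈ E, 0 ≤ phi f (hvec u v)) (hv0 : (c.n₀ : ℝ) / c.d ≤ v)
    (hv1 : v ≤ (c.n₁ : ℝ) / c.d) :
    (two = false → Cov0 u v) ∧ (two = true → Cov2 u v) :=
  good_sx tm499 c E h hf ha hlo hs hE hv0 hv1

end Crest.Agent.R017.SX90
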